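import Vale.Agent.Lib.P154.PChain.BB.R2_0

set_option linter.all false

namespace Vale.Agent.Lib.P154.PChain.BB.S3

open Vale.Agent.Lib.P154.Chain

noncomputable def pc0 : PT := (PT.nd (nat_lit 9638928) (PT.nd (nat_lit 9389250) (PT.nd (nat_lit 9264372) (PT.nd (nat_lit 9201972) (PT.nd (nat_lit 9201894) (PT.nd (nat_lit 9139494) PT.nil (PT.lf (nat_lit 76) (nat_lit 3) (nat_lit 1) (nat_lit 1) (nat_lit 227) (nat_lit 146) (nat_lit 227))) (PT.lf (nat_lit 152) (nat_lit 6) (nat_lit 2) (nat_lit 3) (nat_lit 226) (nat_lit 147) (nat_lit 227))) (PT.nd (nat_lit 62322) (PT.lf (nat_lit 152) (nat_lit 6) (nat_lit 2) (nat_lit 1) (nat_lit 227) (nat_lit 147) (nat_lit 226)) (PT.lf (nat_lit 228) (nat_lit 6) (nat_lit 3) (nat_lit 3) (nat_lit 225) (nat_lit 148) (nat_lit 227)))) (PT.nd (nat_lit 62400) (PT.nd (nat_lit 78) (PT.lf (nat_lit 304) (nat_lit 3) (nat_lit 4) (nat_lit 1) (nat_lit 226) (nat_lit 148) (nat_lit 226)) (PT.lf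 (nat_lit 228) (nat_lit 6) (nat_lit 3) (nat_lit 1) (nat_lit 227) (nat_lit 148) (nat_lit 225))) (PT.nd (nat_lit 78) (PT.lf (nat_lit 380) (nat_lit 6) (nat_lit 5) (nat_lit 3) (nat_lit 225) (nat_lit 149) (nat_lit 226)) (PT.nd (nat_lit 62322) (PT.lf (nat_lit 380) (nat_lit 6) (nat_lit 5) (nat_lit 1) (nat_lit 226) (nat_lit 149) (nat_lit 225)) (PT.lf (nat_lit 456) (nat_lit 6) (nat_lit 6) (nat_lit 3) (nat_lit 224) (nat_lit 150) (nat_lit 226)))))) (PT.nd (nat_lit 124800) (PT.nd (nat_lit 62400) (PT.nd (nat_lit 78) (PT.lf (nat_lit 532) (nat_lit 3) (nat_lit 7) (nat_lit 1) (nat_lit 225) (nat_lit 150) (nat_lit 225)) (PT.lf (nat_lit 456) (nat_lit 6) (nat_lit 6) (nat_lit 1) (nat_lit 226) (nat_lit 150) (nat_lit 224))) (PT.nd (nat_lit 78) (PT.lf (nat_lit 608) (nat_lit 6) (nat_lit 8) (nat_lit 3) (nat_lit 224) (nat_lit 151) (nat_lit 225)) (PT.lf (nat_lit 608) (nat_lit 6) (nat_lit 8) (nat_lit 1) (nat_lit 225) (nat_lit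 151) (nat_lit 224)))) (PT.nd (nat_lit 156) (PT.nd (nat_lit 78) (PT.lf (nat_lit 684) (nat_lit 6) (nat_lit 9) (nat_lit 3) (nat_lit 223) (nat_lit 152) (nat_lit 225)) (PT.lf (nat_lit 760) (nat_lit 3) (nat_lit 10) (nat_lit 1) (nat_lit 224) (nat_lit 152) (nat_lit 224))) (PT.nd (nat_lit 62322) (PT.lf (nat_lit 684) (nat_lit 6) (nat_lit 9) (nat_lit 1) (nat_lit 225) (nat_lit 152) (nat_lit 223)) (PT.nd (nat_lit 78) (PT.lf (nat_lit 836) (nat_lit 6) (nat_lit 11) (nat_lit 3) (nat_lit 223) (nat_lit 153) (nat_lit 224)) (PT.lf (nat_lit 836) (nat_lit 6) (nat_lit 11) (nat_lit 1) (nat_lit 224) (nat_lit 153) (nat_lit 223))))))) (PT.nd (nat_lit 187434) (PT.nd (nat_lit 62556) (PT.nd (nat_lit 156) (PT.nd (nat_lit 78) (PT.lf (nat_lit 912) (nat_lit 6) (nat_lit 12) (nat_lit 3) (nat_lit 222) (nat_lit 154) (nat_lit 224)) (PT.lf (nat_lit 988) (nat_lit 3) (nat_lit 13) (nat_lit 1) (nat_lit 223) (nat_lit 154) (nat_lit 223)))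 (PT.nd (nat_lit 62322) (PT.lf (nat_lit 912) (nat_lit 6) (nat_lit 12) (nat_lit 1) (nat_lit 224) (nat_lit 154) (nat_lit 222)) (PT.lf (nat_lit 1064) (nat_lit 6) (nat_lit 14) (nat_lit 3) (nat_lit 222) (nat_lit 155) (nat_lit 223)))) (PT.nd (nat_lit 62400) (PT.nd (nat_lit 62322) (PT.lf (nat_lit 1064) (nat_lit 6) (nat_lit 14) (nat_lit 1) (nat_lit 223) (nat_lit 155) (nat_lit 222)) (PT.lf (nat_lit 1140) (nat_lit 6) (nat_lit 15) (nat_lit 3) (nat_lit 221) (nat_lit 156) (nat_lit 223))) (PT.nd (nat_lit 78) (PT.lf (nat_lit 1216) (nat_lit 3) (nat_lit 16) (nat_lit 1) (nat_lit 222) (nat_lit 156) (nat_lit 222)) (PT.nd (nat_lit 62322) (PT.lf (nat_lit 1140) (nat_lit 6) (nat_lit 15) (nat_lit 1) (nat_lit 223) (nat_lit 156) (nat_lit 221)) (PT.lf (nat_lit 1292) (nat_lit 6) (nat_lit 17) (nat_lit 3) (nat_lit 221) (nat_lit 157) (nat_lit 222)))))) (PT.nd (nat_lit 124878) (PT.nd (nat_lit 62400) (PT.nd (nat_lit 62322) (PT.lf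 (nat_lit 1292) (nat_lit 6) (nat_lit 17) (nat_lit 1) (nat_lit 222) (nat_lit 157) (nat_lit 221)) (PT.lf (nat_lit 1368) (nat_lit 6) (nat_lit 18) (nat_lit 3) (nat_lit 220) (nat_lit 158) (nat_lit 222))) (PT.nd (nat_lit 78) (PT.lf (nat_lit 1444) (nat_lit 3) (nat_lit 19) (nat_lit 1) (nat_lit 221) (nat_lit 158) (nat_lit 221)) (PT.nd (nat_lit 62322) (PT.lf (nat_lit 1368) (nat_lit 6) (nat_lit 18) (nat_lit 1) (nat_lit 222) (nat_lit 158) (nat_lit 220)) (PT.lf (nat_lit 1520) (nat_lit 6) (nat_lit 20) (nat_lit 3) (nat_lit 220) (nat_lit 159) (nat_lit 221))))) (PT.nd (nat_lit 62400) (PT.nd (nat_lit 62322) (PT.lf (nat_lit 1520) (nat_lit 6) (nat_lit 20) (nat_lit 1) (nat_lit 221) (nat_lit 159) (nat_lit 220)) (PT.lf (nat_lit 1596) (nat_lit 6) (nat_lit 21) (nat_lit 3) (nat_lit 219) (nat_lit 160) (nat_lit 221))) (PT.nd (nat_lit 78) (PT.lf (nat_lit 1672) (nat_lit 3) (nat_lit 22) (nat_lit 1) (nat_lit 220) (nat_lit 160)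 (nat_lit 220)) (PT.nd (nat_lit 62322) (PT.lf (nat_lit 1596) (nat_lit 6) (nat_lit 21) (nat_lit 1) (nat_lit 221) (nat_lit 160) (nat_lit 219)) (PT.lf (nat_lit 1748) (nat_lit 6) (nat_lit 23) (nat_lit 3) (nat_lit 219) (nat_lit 161) (nat_lit 220))))))))
noncomputable def pc1 : PT := (PT.nd (nat_lit 499434) (PT.nd (nat_lit 249678) (PT.nd (nat_lit 124800) (PT.nd (nat_lit 62400) (PT.nd (nat_lit 62322) (PT.lf (nat_lit 1748) (nat_lit 6) (nat_lit 23) (nat_lit 1) (nat_lit 220) (nat_lit 161) (nat_lit 219)) (PT.lf (nat_lit 1824) (nat_lit 6) (nat_lit 24) (nat_lit 3) (nat_lit 218) (nat_lit 162) (nat_lit 220))) (PT.nd (nat_lit 78) (PT.lf (nat_lit 1900) (nat_lit 3) (nat_lit 25) (nat_lit 1) (nat_lit 219) (nat_lit 162) (nat_lit 219)) (PT.lf (nat_lit 1824) (nat_lit 6) (nat_lit 24) (nat_lit 1) (nat_lit 220) (nat_lit 162) (nat_lit 218)))) (PT.nd (nat_lit 62400) (PT.nd (nat_lit 78) (PT.lf (nat_lit 1976) (nat_lit 6) (nat_lit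 26) (nat_lit 3) (nat_lit 218) (nat_lit 163) (nat_lit 219)) (PT.lf (nat_lit 1976) (nat_lit 6) (nat_lit 26) (nat_lit 1) (nat_lit 219) (nat_lit 163) (nat_lit 218))) (PT.nd (nat_lit 78) (PT.lf (nat_lit 2052) (nat_lit 6) (nat_lit 27) (nat_lit 3) (nat_lit 217) (nat_lit 164) (nat_lit 219)) (PT.nd (nat_lit 78) (PT.lf (nat_lit 2128) (nat_lit 3) (nat_lit 28) (nat_lit 1) (nat_lit 218) (nat_lit 164) (nat_lit 218)) (PT.lf (nat_lit 2052) (nat_lit 6) (nat_lit 27) (nat_lit 1) (nat_lit 219) (nat_lit 164) (nat_lit 217)))))) (PT.nd (nat_lit 124878) (PT.nd (nat_lit 62400) (PT.nd (nat_lit 78) (PT.lf (nat_lit 2204) (nat_lit 6) (nat_lit 29) (nat_lit 3) (nat_lit 217) (nat_lit 165) (nat_lit 218)) (PT.lf (nat_lit 2204) (nat_lit 6) (nat_lit 29) (nat_lit 1) (nat_lit 218) (nat_lit 165) (nat_lit 217))) (PT.nd (nat_lit 78) (PT.lf (nat_lit 2280) (nat_lit 6) (nat_lit 30) (nat_lit 3) (nat_lit 216) (nat_lit 166) (nat_lit 218))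 (PT.nd (nat_lit 78) (PT.lf (nat_lit 2356) (nat_lit 3) (nat_lit 31) (nat_lit 1) (nat_lit 217) (nat_lit 166) (nat_lit 217)) (PT.lf (nat_lit 2280) (nat_lit 6) (nat_lit 30) (nat_lit 1) (nat_lit 218) (nat_lit 166) (nat_lit 216))))) (PT.nd (nat_lit 62400) (PT.nd (nat_lit 78) (PT.lf (nat_lit 2432) (nat_lit 6) (nat_lit 32) (nat_lit 3) (nat_lit 216) (nat_lit 167) (nat_lit 217)) (PT.lf (nat_lit 2432) (nat_lit 6) (nat_lit 32) (nat_lit 1) (nat_lit 217) (nat_lit 167) (nat_lit 216))) (PT.nd (nat_lit 78) (PT.lf (nat_lit 2508) (nat_lit 6) (nat_lit 33) (nat_lit 3) (nat_lit 215) (nat_lit 168) (nat_lit 217)) (PT.nd (nat_lit 78) (PT.lf (nat_lit 2584) (nat_lit 3) (nat_lit 34) (nat_lit 1) (nat_lit 216) (nat_lit 168) (nat_lit 216)) (PT.lf (nat_lit 2508) (nat_lit 6) (nat_lit 33) (nat_lit 1) (nat_lit 217) (nat_lit 168) (nat_lit 215))))))) (PT.nd (nat_lit 187434) (PT.nd (nat_lit 62556) (PT.nd (nat_lit 62400) (PT.nd (nat_lit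 78) (PT.lf (nat_lit 2660) (nat_lit 6) (nat_lit 35) (nat_lit 3) (nat_lit 215) (nat_lit 169) (nat_lit 216)) (PT.lf (nat_lit 2660) (nat_lit 6) (nat_lit 35) (nat_lit 1) (nat_lit 216) (nat_lit 169) (nat_lit 215))) (PT.nd (nat_lit 78) (PT.lf (nat_lit 2736) (nat_lit 6) (nat_lit 36) (nat_lit 3) (nat_lit 214) (nat_lit 170) (nat_lit 216)) (PT.lf (nat_lit 2812) (nat_lit 3) (nat_lit 37) (nat_lit 1) (nat_lit 215) (nat_lit 170) (nat_lit 215)))) (PT.nd (nat_lit 62400) (PT.nd (nat_lit 62322) (PT.lf (nat_lit 2736) (nat_lit 6) (nat_lit 36) (nat_lit 1) (nat_lit 216) (nat_lit 170) (nat_lit 214)) (PT.lf (nat_lit 2888) (nat_lit 6) (nat_lit 38) (nat_lit 3) (nat_lit 214) (nat_lit 171) (nat_lit 215))) (PT.nd (nat_lit 62322) (PT.lf (nat_lit 2888) (nat_lit 6) (nat_lit 38) (nat_lit 1) (nat_lit 215) (nat_lit 171) (nat_lit 214)) (PT.nd (nat_lit 78) (PT.lf (nat_lit 2964) (nat_lit 6) (nat_lit 39) (nat_lit 3) (nat_lit 213) (nat_lit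 172) (nat_lit 215)) (PT.lf (nat_lit 3040) (nat_lit 3) (nat_lit 40) (nat_lit 1) (nat_lit 214) (nat_lit 172) (nat_lit 214)))))) (PT.nd (nat_lit 124878) (PT.nd (nat_lit 62400) (PT.nd (nat_lit 62322) (PT.lf (nat_lit 2964) (nat_lit 6) (nat_lit 39) (nat_lit 1) (nat_lit 215) (nat_lit 172) (nat_lit 213)) (PT.lf (nat_lit 3116) (nat_lit 6) (nat_lit 41) (nat_lit 3) (nat_lit 213) (nat_lit 173) (nat_lit 214))) (PT.nd (nat_lit 62322) (PT.lf (nat_lit 3116) (nat_lit 6) (nat_lit 41) (nat_lit 1) (nat_lit 214) (nat_lit 173) (nat_lit 213)) (PT.nd (nat_lit 78) (PT.lf (nat_lit 3192) (nat_lit 6) (nat_lit 42) (nat_lit 3) (nat_lit 212) (nat_lit 174) (nat_lit 214)) (PT.lf (nat_lit 3268) (nat_lit 3) (nat_lit 43) (nat_lit 1) (nat_lit 213) (nat_lit 174) (nat_lit 213))))) (PT.nd (nat_lit 62400) (PT.nd (nat_lit 62322) (PT.lf (nat_lit 3192) (nat_lit 6) (nat_lit 42) (nat_lit 1) (nat_lit 214) (nat_lit 174) (nat_lit 212)) (PT.lf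 (nat_lit 3344) (nat_lit 6) (nat_lit 44) (nat_lit 3) (nat_lit 212) (nat_lit 175) (nat_lit 213))) (PT.nd (nat_lit 62322) (PT.lf (nat_lit 3344) (nat_lit 6) (nat_lit 44) (nat_lit 1) (nat_lit 213) (nat_lit 175) (nat_lit 212)) (PT.nd (nat_lit 78) (PT.lf (nat_lit 3420) (nat_lit 6) (nat_lit 45) (nat_lit 3) (nat_lit 211) (nat_lit 176) (nat_lit 213)) (PT.lf (nat_lit 3496) (nat_lit 3) (nat_lit 46) (nat_lit 1) (nat_lit 212) (nat_lit 176) (nat_lit 212))))))))
noncomputable def pc2 : PT := (PT.nd (nat_lit 374634) (PT.nd (nat_lit 187356) (PT.nd (nat_lit 124800) (PT.nd (nat_lit 62400) (PT.nd (nat_lit 62322) (PT.lf (nat_lit 3420) (nat_lit 6) (nat_lit 45) (nat_lit 1) (nat_lit 213) (nat_lit 176) (nat_lit 211)) (PT.lf (nat_lit 3572) (nat_lit 6) (nat_lit 47) (nat_lit 3) (nat_lit 211) (nat_lit 177) (nat_lit 212))) (PT.nd (nat_lit 62322) (PT.lf (nat_lit 3572) (nat_lit 6) (nat_lit 47) (nat_lit 1) (nat_lit 212) (nat_lit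 177) (nat_lit 211)) (PT.lf (nat_lit 3648) (nat_lit 6) (nat_lit 48) (nat_lit 3) (nat_lit 210) (nat_lit 178) (nat_lit 212)))) (PT.nd (nat_lit 62322) (PT.nd (nat_lit 78) (PT.lf (nat_lit 3724) (nat_lit 3) (nat_lit 49) (nat_lit 1) (nat_lit 211) (nat_lit 178) (nat_lit 211)) (PT.lf (nat_lit 3648) (nat_lit 6) (nat_lit 48) (nat_lit 1) (nat_lit 212) (nat_lit 178) (nat_lit 210))) (PT.nd (nat_lit 78) (PT.lf (nat_lit 3800) (nat_lit 6) (nat_lit 50) (nat_lit 3) (nat_lit 209) (nat_lit 179) (nat_lit 212)) (PT.nd (nat_lit 78) (PT.lf (nat_lit 3876) (nat_lit 6) (nat_lit 51) (nat_lit 3) (nat_lit 210) (nat_lit 179) (nat_lit 211)) (PT.lf (nat_lit 3876) (nat_lit 6) (nat_lit 51) (nat_lit 1) (nat_lit 211) (nat_lit 179) (nat_lit 210)))))) (PT.nd (nat_lit 124722) (PT.nd (nat_lit 62322) (PT.nd (nat_lit 62244) (PT.lf (nat_lit 3800) (nat_lit 6) (nat_lit 50) (nat_lit 1) (nat_lit 212) (nat_lit 179) (nat_lit 209)) (PT.lf (nat_lit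 3952) (nat_lit 6) (nat_lit 52) (nat_lit 3) (nat_lit 209) (nat_lit 180) (nat_lit 211))) (PT.nd (nat_lit 78) (PT.lf (nat_lit 4028) (nat_lit 3) (nat_lit 53) (nat_lit 1) (nat_lit 210) (nat_lit 180) (nat_lit 210)) (PT.nd (nat_lit 62244) (PT.lf (nat_lit 3952) (nat_lit 6) (nat_lit 52) (nat_lit 1) (nat_lit 211) (nat_lit 180) (nat_lit 209)) (PT.lf (nat_lit 4104) (nat_lit 6) (nat_lit 54) (nat_lit 3) (nat_lit 208) (nat_lit 181) (nat_lit 211))))) (PT.nd (nat_lit 156) (PT.nd (nat_lit 78) (PT.lf (nat_lit 4180) (nat_lit 6) (nat_lit 55) (nat_lit 3) (nat_lit 209) (nat_lit 181) (nat_lit 210)) (PT.lf (nat_lit 4180) (nat_lit 6) (nat_lit 55) (nat_lit 1) (nat_lit 210) (nat_lit 181) (nat_lit 209))) (PT.nd (nat_lit 62244) (PT.lf (nat_lit 4104) (nat_lit 6) (nat_lit 54) (nat_lit 1) (nat_lit 211) (nat_lit 181) (nat_lit 208)) (PT.nd (nat_lit 78) (PT.lf (nat_lit 4256) (nat_lit 6) (nat_lit 56) (nat_lit 3) (nat_lit 208) (nat_lit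 182) (nat_lit 210)) (PT.lf (nat_lit 4332) (nat_lit 3) (nat_lit 57) (nat_lit 1) (nat_lit 209) (nat_lit 182) (nat_lit 209))))))) (PT.nd (nat_lit 187200) (PT.nd (nat_lit 62478) (PT.nd (nat_lit 62322) (PT.nd (nat_lit 62244) (PT.lf (nat_lit 4256) (nat_lit 6) (nat_lit 56) (nat_lit 1) (nat_lit 210) (nat_lit 182) (nat_lit 208)) (PT.lf (nat_lit 4408) (nat_lit 6) (nat_lit 58) (nat_lit 3) (nat_lit 207) (nat_lit 183) (nat_lit 210))) (PT.nd (nat_lit 78) (PT.lf (nat_lit 4484) (nat_lit 6) (nat_lit 59) (nat_lit 3) (nat_lit 208) (nat_lit 183) (nat_lit 209)) (PT.lf (nat_lit 4484) (nat_lit 6) (nat_lit 59) (nat_lit 1) (nat_lit 209) (nat_lit 183) (nat_lit 208)))) (PT.nd (nat_lit 62322) (PT.nd (nat_lit 62244) (PT.lf (nat_lit 4408) (nat_lit 6) (nat_lit 58) (nat_lit 1) (nat_lit 210) (nat_lit 183) (nat_lit 207)) (PT.lf (nat_lit 4560) (nat_lit 6) (nat_lit 60) (nat_lit 3) (nat_lit 207) (nat_lit 184) (nat_lit 209))) (PT.nd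 (nat_lit 78) (PT.lf (nat_lit 4636) (nat_lit 3) (nat_lit 61) (nat_lit 1) (nat_lit 208) (nat_lit 184) (nat_lit 208)) (PT.nd (nat_lit 62244) (PT.lf (nat_lit 4560) (nat_lit 6) (nat_lit 60) (nat_lit 1) (nat_lit 209) (nat_lit 184) (nat_lit 207)) (PT.lf (nat_lit 4712) (nat_lit 6) (nat_lit 62) (nat_lit 3) (nat_lit 206) (nat_lit 185) (nat_lit 209)))))) (PT.nd (nat_lit 62478) (PT.nd (nat_lit 156) (PT.nd (nat_lit 78) (PT.lf (nat_lit 4788) (nat_lit 6) (nat_lit 63) (nat_lit 3) (nat_lit 207) (nat_lit 185) (nat_lit 208)) (PT.lf (nat_lit 4788) (nat_lit 6) (nat_lit 63) (nat_lit 1) (nat_lit 208) (nat_lit 185) (nat_lit 207))) (PT.nd (nat_lit 62166) (PT.lf (nat_lit 4712) (nat_lit 6) (nat_lit 62) (nat_lit 1) (nat_lit 209) (nat_lit 185) (nat_lit 206)) (PT.nd (nat_lit 78) (PT.lf (nat_lit 4864) (nat_lit 6) (nat_lit 64) (nat_lit 3) (nat_lit 205) (nat_lit 186) (nat_lit 209)) (PT.lf (nat_lit 4940) (nat_lit 6) (nat_lit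 65) (nat_lit 3) (nat_lit 206) (nat_lit 186) (nat_lit 208))))) (PT.nd (nat_lit 156) (PT.nd (nat_lit 78) (PT.lf (nat_lit 5016) (nat_lit 3) (nat_lit 66) (nat_lit 1) (nat_lit 207) (nat_lit 186) (nat_lit 207)) (PT.lf (nat_lit 4940) (nat_lit 6) (nat_lit 65) (nat_lit 1) (nat_lit 208) (nat_lit 186) (nat_lit 206))) (PT.nd (nat_lit 62166) (PT.lf (nat_lit 4864) (nat_lit 6) (nat_lit 64) (nat_lit 1) (nat_lit 209) (nat_lit 186) (nat_lit 205)) (PT.nd (nat_lit 78) (PT.lf (nat_lit 5092) (nat_lit 6) (nat_lit 67) (nat_lit 3) (nat_lit 205) (nat_lit 187) (nat_lit 208)) (PT.lf (nat_lit 5168) (nat_lit 6) (nat_lit 68) (nat_lit 3) (nat_lit 206) (nat_lit 187) (nat_lit 207))))))))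
noncomputable def pc3 : PT := (PT.nd (nat_lit 187512) (PT.nd (nat_lit 124800) (PT.nd (nat_lit 62400) (PT.nd (nat_lit 62244) (PT.nd (nat_lit 78) (PT.lf (nat_lit 5168) (nat_lit 6) (nat_lit 68) (nat_lit 1) (nat_lit 207) (nat_lit 187) (nat_lit 206)) (PT.lf (nat_lit 5092) (nat_lit 6) (nat_lit 67) (nat_lit 1) (nat_lit 208) (nat_lit 187) (nat_lit 205))) (PT.nd (nat_lit 78) (PT.lf (nat_lit 5244) (nat_lit 6) (nat_lit 69) (nat_lit 3) (nat_lit 204) (nat_lit 188) (nat_lit 208)) (PT.lf (nat_lit 5320) (nat_lit 6) (nat_lit 70) (nat_lit 3) (nat_lit 205) (nat_lit 188) (nat_lit 207)))) (PT.nd (nat_lit 156) (PT.nd (nat_lit 78) (PT.lf (nat_lit 5396) (nat_lit 3) (nat_lit 71) (nat_lit 1) (nat_lit 206) (nat_lit 188) (nat_lit 206)) (PT.lf (nat_lit 5320) (nat_lit 6) (nat_lit 70) (nat_lit 1) (nat_lit 207) (nat_lit 188) (nat_lit 205))) (PT.nd (nat_lit 62088) (PT.lf (nat_lit 5244) (nat_lit 6) (nat_lit 69) (nat_lit 1) (nat_lit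 208) (nat_lit 188) (nat_lit 204)) (PT.nd (nat_lit 78) (PT.lf (nat_lit 5472) (nat_lit 6) (nat_lit 72) (nat_lit 3) (nat_lit 203) (nat_lit 189) (nat_lit 208)) (PT.lf (nat_lit 5548) (nat_lit 6) (nat_lit 73) (nat_lit 3) (nat_lit 204) (nat_lit 189) (nat_lit 207)))))) (PT.nd (nat_lit 62322) (PT.nd (nat_lit 156) (PT.nd (nat_lit 78) (PT.lf (nat_lit 5624) (nat_lit 6) (nat_lit 74) (nat_lit 3) (nat_lit 205) (nat_lit 189) (nat_lit 206)) (PT.lf (nat_lit 5624) (nat_lit 6) (nat_lit 74) (nat_lit 1) (nat_lit 206) (nat_lit 189) (nat_lit 205))) (PT.nd (nat_lit 78) (PT.lf (nat_lit 5548) (nat_lit 6) (nat_lit 73) (nat_lit 1) (nat_lit 207) (nat_lit 189) (nat_lit 204)) (PT.nd (nat_lit 62010) (PT.lf (nat_lit 5472) (nat_lit 6) (nat_lit 72) (nat_lit 1) (nat_lit 208) (nat_lit 189) (nat_lit 203)) (PT.lf (nat_lit 5700) (nat_lit 6) (nat_lit 75) (nat_lit 3) (nat_lit 202) (nat_lit 190) (nat_lit 208))))) (PT.nd (nat_lit 156) (PT.nd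 (nat_lit 78) (PT.lf (nat_lit 5776) (nat_lit 6) (nat_lit 76) (nat_lit 3) (nat_lit 203) (nat_lit 190) (nat_lit 207)) (PT.lf (nat_lit 5852) (nat_lit 6) (nat_lit 77) (nat_lit 3) (nat_lit 204) (nat_lit 190) (nat_lit 206))) (PT.nd (nat_lit 78) (PT.lf (nat_lit 5928) (nat_lit 3) (nat_lit 78) (nat_lit 1) (nat_lit 205) (nat_lit 190) (nat_lit 205)) (PT.nd (nat_lit 78) (PT.lf (nat_lit 5852) (nat_lit 6) (nat_lit 77) (nat_lit 1) (nat_lit 206) (nat_lit 190) (nat_lit 204)) (PT.lf (nat_lit 5776) (nat_lit 6) (nat_lit 76) (nat_lit 1) (nat_lit 207) (nat_lit 190) (nat_lit 203))))))) (PT.nd (nat_lit 124566) (PT.nd (nat_lit 62244) (PT.nd (nat_lit 62088) (PT.nd (nat_lit 62010) (PT.lf (nat_lit 5700) (nat_lit 6) (nat_lit 75) (nat_lit 1) (nat_lit 208) (nat_lit 190) (nat_lit 202)) (PT.lf (nat_lit 6004) (nat_lit 6) (nat_lit 79) (nat_lit 3) (nat_lit 202) (nat_lit 191) (nat_lit 207))) (PT.nd (nat_lit 78) (PT.lf (nat_lit 6080)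 (nat_lit 6) (nat_lit 80) (nat_lit 3) (nat_lit 203) (nat_lit 191) (nat_lit 206)) (PT.lf (nat_lit 6156) (nat_lit 6) (nat_lit 81) (nat_lit 3) (nat_lit 204) (nat_lit 191) (nat_lit 205)))) (PT.nd (nat_lit 156) (PT.nd (nat_lit 78) (PT.lf (nat_lit 6156) (nat_lit 6) (nat_lit 81) (nat_lit 1) (nat_lit 205) (nat_lit 191) (nat_lit 204)) (PT.lf (nat_lit 6080) (nat_lit 6) (nat_lit 80) (nat_lit 1) (nat_lit 206) (nat_lit 191) (nat_lit 203))) (PT.nd (nat_lit 62010) (PT.lf (nat_lit 6004) (nat_lit 6) (nat_lit 79) (nat_lit 1) (nat_lit 207) (nat_lit 191) (nat_lit 202)) (PT.nd (nat_lit 78) (PT.lf (nat_lit 6232) (nat_lit 6) (nat_lit 82) (nat_lit 3) (nat_lit 201) (nat_lit 192) (nat_lit 207)) (PT.lf (nat_lit 6308) (nat_lit 6) (nat_lit 83) (nat_lit 3) (nat_lit 202) (nat_lit 192) (nat_lit 206)))))) (PT.nd (nat_lit 62244) (PT.nd (nat_lit 156) (PT.nd (nat_lit 78) (PT.lf (nat_lit 6384) (nat_lit 6) (nat_lit 84) (nat_lit 3)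 (nat_lit 203) (nat_lit 192) (nat_lit 205)) (PT.lf (nat_lit 6460) (nat_lit 3) (nat_lit 85) (nat_lit 1) (nat_lit 204) (nat_lit 192) (nat_lit 204))) (PT.nd (nat_lit 78) (PT.lf (nat_lit 6384) (nat_lit 6) (nat_lit 84) (nat_lit 1) (nat_lit 205) (nat_lit 192) (nat_lit 203)) (PT.nd (nat_lit 78) (PT.lf (nat_lit 6308) (nat_lit 6) (nat_lit 83) (nat_lit 1) (nat_lit 206) (nat_lit 192) (nat_lit 202)) (PT.lf (nat_lit 6232) (nat_lit 6) (nat_lit 82) (nat_lit 1) (nat_lit 207) (nat_lit 192) (nat_lit 201))))) (PT.nd (nat_lit 156) (PT.nd (nat_lit 78) (PT.lf (nat_lit 6764) (nat_lit 6) (nat_lit 89) (nat_lit 3) (nat_lit 200) (nat_lit 193) (nat_lit 207)) (PT.lf (nat_lit 6840) (nat_lit 6) (nat_lit 90) (nat_lit 3) (nat_lit 201) (nat_lit 193) (nat_lit 206))) (PT.nd (nat_lit 78) (PT.lf (nat_lit 6916) (nat_lit 6) (nat_lit 91) (nat_lit 3) (nat_lit 202) (nat_lit 193) (nat_lit 205)) (PT.nd (nat_lit 78) (PT.lf (nat_lit 6992)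 (nat_lit 6) (nat_lit 92) (nat_lit 3) (nat_lit 203) (nat_lit 193) (nat_lit 204)) (PT.lf (nat_lit 6992) (nat_lit 6) (nat_lit 92) (nat_lit 1) (nat_lit 204) (nat_lit 193) (nat_lit 203))))))))
noncomputable def pc4 : PT := (PT.nd (nat_lit 124956) (PT.nd (nat_lit 62478) (PT.nd (nat_lit 62088) (PT.nd (nat_lit 156) (PT.nd (nat_lit 78) (PT.lf (nat_lit 6916) (nat_lit 6) (nat_lit 91) (nat_lit 1) (nat_lit 205) (nat_lit 193) (nat_lit 202)) (PT.lf (nat_lit 6840) (nat_lit 6) (nat_lit 90) (nat_lit 1) (nat_lit 206) (nat_lit 193) (nat_lit 201))) (PT.nd (nat_lit 61854) (PT.lf (nat_lit 6764) (nat_lit 6) (nat_lit 89) (nat_lit 1) (nat_lit 207) (nat_lit 193) (nat_lit 200)) (PT.lf (nat_lit 6688) (nat_lit 6) (nat_lit 88) (nat_lit 3) (nat_lit 199) (nat_lit 194) (nat_lit 207)))) (PT.nd (nat_lit 156) (PT.nd (nat_lit 78) (PT.lf (nat_lit 7296) (nat_lit 6) (nat_lit 96) (nat_lit 3) (nat_lit 200) (nat_lit 194) (nat_lit 206))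 (PT.lf (nat_lit 7372) (nat_lit 6) (nat_lit 97) (nat_lit 3) (nat_lit 201) (nat_lit 194) (nat_lit 205))) (PT.nd (nat_lit 78) (PT.lf (nat_lit 7448) (nat_lit 6) (nat_lit 98) (nat_lit 3) (nat_lit 202) (nat_lit 194) (nat_lit 204)) (PT.nd (nat_lit 78) (PT.lf (nat_lit 7524) (nat_lit 3) (nat_lit 99) (nat_lit 1) (nat_lit 203) (nat_lit 194) (nat_lit 203)) (PT.lf (nat_lit 7448) (nat_lit 6) (nat_lit 98) (nat_lit 1) (nat_lit 204) (nat_lit 194) (nat_lit 202)))))) (PT.nd (nat_lit 62088) (PT.nd (nat_lit 156) (PT.nd (nat_lit 78) (PT.lf (nat_lit 7372) (nat_lit 6) (nat_lit 97) (nat_lit 1) (nat_lit 205) (nat_lit 194) (nat_lit 201)) (PT.lf (nat_lit 7296) (nat_lit 6) (nat_lit 96) (nat_lit 1) (nat_lit 206) (nat_lit 194) (nat_lit 200))) (PT.nd (nat_lit 61776) (PT.lf (nat_lit 6688) (nat_lit 6) (nat_lit 88) (nat_lit 1) (nat_lit 207) (nat_lit 194) (nat_lit 199)) (PT.nd (nat_lit 78) (PT.lf (nat_lit 6612) (nat_lit 6) (nat_lit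 87) (nat_lit 3) (nat_lit 198) (nat_lit 195) (nat_lit 207)) (PT.lf (nat_lit 7220) (nat_lit 6) (nat_lit 95) (nat_lit 3) (nat_lit 199) (nat_lit 195) (nat_lit 206))))) (PT.nd (nat_lit 156) (PT.nd (nat_lit 78) (PT.lf (nat_lit 7752) (nat_lit 6) (nat_lit 102) (nat_lit 3) (nat_lit 200) (nat_lit 195) (nat_lit 205)) (PT.lf (nat_lit 7828) (nat_lit 6) (nat_lit 103) (nat_lit 3) (nat_lit 201) (nat_lit 195) (nat_lit 204))) (PT.nd (nat_lit 78) (PT.lf (nat_lit 7904) (nat_lit 6) (nat_lit 104) (nat_lit 3) (nat_lit 202) (nat_lit 195) (nat_lit 203)) (PT.nd (nat_lit 78) (PT.lf (nat_lit 7904) (nat_lit 6) (nat_lit 104) (nat_lit 1) (nat_lit 203) (nat_lit 195) (nat_lit 202)) (PT.lf (nat_lit 7828) (nat_lit 6) (nat_lit 103) (nat_lit 1) (nat_lit 204) (nat_lit 195) (nat_lit 201))))))) (PT.nd (nat_lit 62322) (PT.nd (nat_lit 61932) (PT.nd (nat_lit 156) (PT.nd (nat_lit 78) (PT.lf (nat_lit 7752) (nat_lit 6) (nat_lit 102) (nat_lit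 1) (nat_lit 205) (nat_lit 195) (nat_lit 200)) (PT.lf (nat_lit 7220) (nat_lit 6) (nat_lit 95) (nat_lit 1) (nat_lit 206) (nat_lit 195) (nat_lit 199))) (PT.nd (nat_lit 61698) (PT.lf (nat_lit 6612) (nat_lit 6) (nat_lit 87) (nat_lit 1) (nat_lit 207) (nat_lit 195) (nat_lit 198)) (PT.lf (nat_lit 6536) (nat_lit 6) (nat_lit 86) (nat_lit 3) (nat_lit 197) (nat_lit 196) (nat_lit 207)))) (PT.nd (nat_lit 156) (PT.nd (nat_lit 78) (PT.lf (nat_lit 7144) (nat_lit 6) (nat_lit 94) (nat_lit 3) (nat_lit 198) (nat_lit 196) (nat_lit 206)) (PT.lf (nat_lit 7676) (nat_lit 6) (nat_lit 101) (nat_lit 3) (nat_lit 199) (nat_lit 196) (nat_lit 205))) (PT.nd (nat_lit 78) (PT.lf (nat_lit 8132) (nat_lit 6) (nat_lit 107) (nat_lit 3) (nat_lit 200) (nat_lit 196) (nat_lit 204)) (PT.nd (nat_lit 78) (PT.lf (nat_lit 8208) (nat_lit 6) (nat_lit 108) (nat_lit 3) (nat_lit 201) (nat_lit 196) (nat_lit 203)) (PT.lf (nat_lit 8284) (nat_lit 3)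 (nat_lit 109) (nat_lit 1) (nat_lit 202) (nat_lit 196) (nat_lit 202)))))) (PT.nd (nat_lit 61932) (PT.nd (nat_lit 156) (PT.nd (nat_lit 78) (PT.lf (nat_lit 8208) (nat_lit 6) (nat_lit 108) (nat_lit 1) (nat_lit 203) (nat_lit 196) (nat_lit 201)) (PT.lf (nat_lit 8132) (nat_lit 6) (nat_lit 107) (nat_lit 1) (nat_lit 204) (nat_lit 196) (nat_lit 200))) (PT.nd (nat_lit 78) (PT.lf (nat_lit 7676) (nat_lit 6) (nat_lit 101) (nat_lit 1) (nat_lit 205) (nat_lit 196) (nat_lit 199)) (PT.nd (nat_lit 78) (PT.lf (nat_lit 7144) (nat_lit 6) (nat_lit 94) (nat_lit 1) (nat_lit 206) (nat_lit 196) (nat_lit 198)) (PT.lf (nat_lit 6536) (nat_lit 6) (nat_lit 86) (nat_lit 1) (nat_lit 207) (nat_lit 196) (nat_lit 197))))) (PT.nd (nat_lit 156) (PT.nd (nat_lit 78) (PT.lf (nat_lit 6536) (nat_lit 6) (nat_lit 86) (nat_lit 5) (nat_lit 196) (nat_lit 197) (nat_lit 207)) (PT.lf (nat_lit 7068) (nat_lit 3) (nat_lit 93) (nat_lit 3) (nat_lit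 197) (nat_lit 197) (nat_lit 206))) (PT.nd (nat_lit 78) (PT.lf (nat_lit 7600) (nat_lit 6) (nat_lit 100) (nat_lit 3) (nat_lit 198) (nat_lit 197) (nat_lit 205)) (PT.nd (nat_lit 78) (PT.lf (nat_lit 8056) (nat_lit 6) (nat_lit 106) (nat_lit 3) (nat_lit 199) (nat_lit 197) (nat_lit 204)) (PT.lf (nat_lit 8436) (nat_lit 6) (nat_lit 111) (nat_lit 3) (nat_lit 200) (nat_lit 197) (nat_lit 203))))))))
noncomputable def pc5 : PT := (PT.nd (nat_lit 62946) (PT.nd (nat_lit 62166) (PT.nd (nat_lit 312) (PT.nd (nat_lit 156) (PT.nd (nat_lit 78) (PT.lf (nat_lit 8512) (nat_lit 6) (nat_lit 112) (nat_lit 3) (nat_lit 201) (nat_lit 197) (nat_lit 202)) (PT.lf (nat_lit 8512) (nat_lit 6) (nat_lit 112) (nat_lit 1) (nat_lit 202) (nat_lit 197) (nat_lit 201))) (PT.nd (nat_lit 78) (PT.lf (nat_lit 8436) (nat_lit 6) (nat_lit 111) (nat_lit 1) (nat_lit 203) (nat_lit 197) (nat_lit 200)) (PT.lf (nat_lit 8056) (nat_lit 6) (nat_lit 106)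 (nat_lit 1) (nat_lit 204) (nat_lit 197) (nat_lit 199)))) (PT.nd (nat_lit 156) (PT.nd (nat_lit 78) (PT.lf (nat_lit 7600) (nat_lit 6) (nat_lit 100) (nat_lit 1) (nat_lit 205) (nat_lit 197) (nat_lit 198)) (PT.lf (nat_lit 7068) (nat_lit 3) (nat_lit 93) (nat_lit 0) (nat_lit 206) (nat_lit 197) (nat_lit 197))) (PT.nd (nat_lit 61542) (PT.lf (nat_lit 6536) (nat_lit 6) (nat_lit 86) (nat_lit 0) (nat_lit 207) (nat_lit 197) (nat_lit 196)) (PT.nd (nat_lit 78) (PT.lf (nat_lit 6612) (nat_lit 6) (nat_lit 87) (nat_lit 5) (nat_lit 195) (nat_lit 198) (nat_lit 207)) (PT.lf (nat_lit 7144) (nat_lit 6) (nat_lit 94) (nat_lit 5) (nat_lit 196) (nat_lit 198) (nat_lit 206)))))) (PT.nd (nat_lit 390) (PT.nd (nat_lit 156) (PT.nd (nat_lit 78) (PT.lf (nat_lit 7600) (nat_lit 6) (nat_lit 100) (nat_lit 5) (nat_lit 197) (nat_lit 198) (nat_lit 205)) (PT.lf (nat_lit 7980) (nat_lit 3) (nat_lit 105) (nat_lit 3) (nat_lit 198) (nat_lit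 198) (nat_lit 204))) (PT.nd (nat_lit 78) (PT.lf (nat_lit 8360) (nat_lit 6) (nat_lit 110) (nat_lit 3) (nat_lit 199) (nat_lit 198) (nat_lit 203)) (PT.nd (nat_lit 78) (PT.lf (nat_lit 8664) (nat_lit 6) (nat_lit 114) (nat_lit 3) (nat_lit 200) (nat_lit 198) (nat_lit 202)) (PT.lf (nat_lit 8740) (nat_lit 3) (nat_lit 115) (nat_lit 1) (nat_lit 201) (nat_lit 198) (nat_lit 201))))) (PT.nd (nat_lit 156) (PT.nd (nat_lit 78) (PT.lf (nat_lit 8664) (nat_lit 6) (nat_lit 114) (nat_lit 1) (nat_lit 202) (nat_lit 198) (nat_lit 200)) (PT.lf (nat_lit 8360) (nat_lit 6) (nat_lit 110) (nat_lit 1) (nat_lit 203) (nat_lit 198) (nat_lit 199))) (PT.nd (nat_lit 78) (PT.lf (nat_lit 7980) (nat_lit 3) (nat_lit 105) (nat_lit 0) (nat_lit 204) (nat_lit 198) (nat_lit 198)) (PT.nd (nat_lit 78) (PT.lf (nat_lit 7600) (nat_lit 6) (nat_lit 100) (nat_lit 0) (nat_lit 205) (nat_lit 198) (nat_lit 197)) (PT.lf (nat_lit 7144) (nat_lit 6) (nat_lit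 94) (nat_lit 0) (nat_lit 206) (nat_lit 198) (nat_lit 196))))))) (PT.nd (nat_lit 62088) (PT.nd (nat_lit 61698) (PT.nd (nat_lit 61542) (PT.nd (nat_lit 61464) (PT.lf (nat_lit 6612) (nat_lit 6) (nat_lit 87) (nat_lit 0) (nat_lit 207) (nat_lit 198) (nat_lit 195)) (PT.lf (nat_lit 6688) (nat_lit 6) (nat_lit 88) (nat_lit 5) (nat_lit 194) (nat_lit 199) (nat_lit 207))) (PT.nd (nat_lit 78) (PT.lf (nat_lit 7220) (nat_lit 6) (nat_lit 95) (nat_lit 5) (nat_lit 195) (nat_lit 199) (nat_lit 206)) (PT.lf (nat_lit 7676) (nat_lit 6) (nat_lit 101) (nat_lit 5) (nat_lit 196) (nat_lit 199) (nat_lit 205)))) (PT.nd (nat_lit 156) (PT.nd (nat_lit 78) (PT.lf (nat_lit 8056) (nat_lit 6) (nat_lit 106) (nat_lit 5) (nat_lit 197) (nat_lit 199) (nat_lit 204)) (PT.lf (nat_lit 8360) (nat_lit 6) (nat_lit 110) (nat_lit 5) (nat_lit 198) (nat_lit 199) (nat_lit 203))) (PT.nd (nat_lit 78) (PT.lf (nat_lit 8588) (nat_lit 3) (nat_lit 113) (nat_lit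 3) (nat_lit 199) (nat_lit 199) (nat_lit 202)) (PT.nd (nat_lit 78) (PT.lf (nat_lit 8816) (nat_lit 6) (nat_lit 116) (nat_lit 3) (nat_lit 200) (nat_lit 199) (nat_lit 201)) (PT.lf (nat_lit 8816) (nat_lit 6) (nat_lit 116) (nat_lit 1) (nat_lit 201) (nat_lit 199) (nat_lit 200)))))) (PT.nd (nat_lit 390) (PT.nd (nat_lit 156) (PT.nd (nat_lit 78) (PT.lf (nat_lit 8588) (nat_lit 3) (nat_lit 113) (nat_lit 0) (nat_lit 202) (nat_lit 199) (nat_lit 199)) (PT.lf (nat_lit 8360) (nat_lit 6) (nat_lit 110) (nat_lit 0) (nat_lit 203) (nat_lit 199) (nat_lit 198))) (PT.nd (nat_lit 78) (PT.lf (nat_lit 8056) (nat_lit 6) (nat_lit 106) (nat_lit 0) (nat_lit 204) (nat_lit 199) (nat_lit 197)) (PT.nd (nat_lit 78) (PT.lf (nat_lit 7676) (nat_lit 6) (nat_lit 101) (nat_lit 0) (nat_lit 205) (nat_lit 199) (nat_lit 196)) (PT.lf (nat_lit 7220) (nat_lit 6) (nat_lit 95) (nat_lit 0) (nat_lit 206) (nat_lit 199) (nat_lit 195))))) (PT.nd (nat_lit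 61464) (PT.nd (nat_lit 61386) (PT.lf (nat_lit 6688) (nat_lit 6) (nat_lit 88) (nat_lit 0) (nat_lit 207) (nat_lit 199) (nat_lit 194)) (PT.lf (nat_lit 6764) (nat_lit 6) (nat_lit 89) (nat_lit 5) (nat_lit 193) (nat_lit 200) (nat_lit 207))) (PT.nd (nat_lit 78) (PT.lf (nat_lit 7296) (nat_lit 6) (nat_lit 96) (nat_lit 5) (nat_lit 194) (nat_lit 200) (nat_lit 206)) (PT.nd (nat_lit 78) (PT.lf (nat_lit 7752) (nat_lit 6) (nat_lit 102) (nat_lit 5) (nat_lit 195) (nat_lit 200) (nat_lit 205)) (PT.lf (nat_lit 8132) (nat_lit 6) (nat_lit 107) (nat_lit 5) (nat_lit 196) (nat_lit 200) (nat_lit 204))))))))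
noncomputable def pc6 : PT := (PT.nd (nat_lit 62712) (PT.nd (nat_lit 702) (PT.nd (nat_lit 312) (PT.nd (nat_lit 156) (PT.nd (nat_lit 78) (PT.lf (nat_lit 8436) (nat_lit 6) (nat_lit 111) (nat_lit 5) (nat_lit 197) (nat_lit 200) (nat_lit 203)) (PT.lf (nat_lit 8664) (nat_lit 6) (nat_lit 114) (nat_lit 5) (nat_lit 198) (nat_lit 200) (nat_lit 202))) (PT.nd (nat_lit 78) (PT.lf (nat_lit 8816) (nat_lit 6) (nat_lit 116) (nat_lit 5) (nat_lit 199) (nat_lit 200) (nat_lit 201)) (PT.lf (nat_lit 8892) (nat_lit 1) (nat_lit 117) (nat_lit 0) (nat_lit 200) (nat_lit 200) (nat_lit 200)))) (PT.nd (nat_lit 156) (PT.nd (nat_lit 78) (PT.lf (nat_lit 8816) (nat_lit 6) (nat_lit 116) (nat_lit 0) (nat_lit 201) (nat_lit 200) (nat_lit 199)) (PT.lf (nat_lit 8664) (nat_lit 6) (nat_lit 114) (nat_lit 0) (nat_lit 202) (nat_lit 200) (nat_lit 198))) (PT.nd (nat_lit 78) (PT.lf (nat_lit 8436) (nat_lit 6) (nat_lit 111) (nat_lit 0) (nat_lit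 203) (nat_lit 200) (nat_lit 197)) (PT.nd (nat_lit 78) (PT.lf (nat_lit 8132) (nat_lit 6) (nat_lit 107) (nat_lit 0) (nat_lit 204) (nat_lit 200) (nat_lit 196)) (PT.lf (nat_lit 7752) (nat_lit 6) (nat_lit 102) (nat_lit 0) (nat_lit 205) (nat_lit 200) (nat_lit 195)))))) (PT.nd (nat_lit 61620) (PT.nd (nat_lit 61386) (PT.nd (nat_lit 78) (PT.lf (nat_lit 7296) (nat_lit 6) (nat_lit 96) (nat_lit 0) (nat_lit 206) (nat_lit 200) (nat_lit 194)) (PT.lf (nat_lit 6764) (nat_lit 6) (nat_lit 89) (nat_lit 0) (nat_lit 207) (nat_lit 200) (nat_lit 193))) (PT.nd (nat_lit 78) (PT.lf (nat_lit 6232) (nat_lit 6) (nat_lit 82) (nat_lit 5) (nat_lit 192) (nat_lit 201) (nat_lit 207)) (PT.nd (nat_lit 78) (PT.lf (nat_lit 6840) (nat_lit 6) (nat_lit 90) (nat_lit 5) (nat_lit 193) (nat_lit 201) (nat_lit 206)) (PT.lf (nat_lit 7372) (nat_lit 6) (nat_lit 97) (nat_lit 5) (nat_lit 194) (nat_lit 201) (nat_lit 205))))) (PT.nd (nat_lit 156)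 (PT.nd (nat_lit 78) (PT.lf (nat_lit 7828) (nat_lit 6) (nat_lit 103) (nat_lit 5) (nat_lit 195) (nat_lit 201) (nat_lit 204)) (PT.lf (nat_lit 8208) (nat_lit 6) (nat_lit 108) (nat_lit 5) (nat_lit 196) (nat_lit 201) (nat_lit 203))) (PT.nd (nat_lit 78) (PT.lf (nat_lit 8512) (nat_lit 6) (nat_lit 112) (nat_lit 5) (nat_lit 197) (nat_lit 201) (nat_lit 202)) (PT.nd (nat_lit 78) (PT.lf (nat_lit 8740) (nat_lit 3) (nat_lit 115) (nat_lit 4) (nat_lit 198) (nat_lit 201) (nat_lit 201)) (PT.lf (nat_lit 8816) (nat_lit 6) (nat_lit 116) (nat_lit 4) (nat_lit 199) (nat_lit 201) (nat_lit 200))))))) (PT.nd (nat_lit 61776) (PT.nd (nat_lit 312) (PT.nd (nat_lit 156) (PT.nd (nat_lit 78) (PT.lf (nat_lit 8816) (nat_lit 6) (nat_lit 116) (nat_lit 2) (nat_lit 200) (nat_lit 201) (nat_lit 199)) (PT.lf (nat_lit 8740) (nat_lit 3) (nat_lit 115) (nat_lit 0) (nat_lit 201) (nat_lit 201) (nat_lit 198))) (PT.nd (nat_lit 78) (PT.lf (nat_lit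 8512) (nat_lit 6) (nat_lit 112) (nat_lit 0) (nat_lit 202) (nat_lit 201) (nat_lit 197)) (PT.lf (nat_lit 8208) (nat_lit 6) (nat_lit 108) (nat_lit 0) (nat_lit 203) (nat_lit 201) (nat_lit 196)))) (PT.nd (nat_lit 156) (PT.nd (nat_lit 78) (PT.lf (nat_lit 7828) (nat_lit 6) (nat_lit 103) (nat_lit 0) (nat_lit 204) (nat_lit 201) (nat_lit 195)) (PT.lf (nat_lit 7372) (nat_lit 6) (nat_lit 97) (nat_lit 0) (nat_lit 205) (nat_lit 201) (nat_lit 194))) (PT.nd (nat_lit 78) (PT.lf (nat_lit 6840) (nat_lit 6) (nat_lit 90) (nat_lit 0) (nat_lit 206) (nat_lit 201) (nat_lit 193)) (PT.nd (nat_lit 61152) (PT.lf (nat_lit 6232) (nat_lit 6) (nat_lit 82) (nat_lit 0) (nat_lit 207) (nat_lit 201) (nat_lit 192)) (PT.lf (nat_lit 5700) (nat_lit 6) (nat_lit 75) (nat_lit 5) (nat_lit 190) (nat_lit 202) (nat_lit 208)))))) (PT.nd (nat_lit 390) (PT.nd (nat_lit 156) (PT.nd (nat_lit 78) (PT.lf (nat_lit 6004) (nat_lit 6) (nat_lit 79) (nat_lit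 5) (nat_lit 191) (nat_lit 202) (nat_lit 207)) (PT.lf (nat_lit 6308) (nat_lit 6) (nat_lit 83) (nat_lit 5) (nat_lit 192) (nat_lit 202) (nat_lit 206))) (PT.nd (nat_lit 78) (PT.lf (nat_lit 6916) (nat_lit 6) (nat_lit 91) (nat_lit 5) (nat_lit 193) (nat_lit 202) (nat_lit 205)) (PT.nd (nat_lit 78) (PT.lf (nat_lit 7448) (nat_lit 6) (nat_lit 98) (nat_lit 5) (nat_lit 194) (nat_lit 202) (nat_lit 204)) (PT.lf (nat_lit 7904) (nat_lit 6) (nat_lit 104) (nat_lit 5) (nat_lit 195) (nat_lit 202) (nat_lit 203))))) (PT.nd (nat_lit 156) (PT.nd (nat_lit 78) (PT.lf (nat_lit 8284) (nat_lit 3) (nat_lit 109) (nat_lit 4) (nat_lit 196) (nat_lit 202) (nat_lit 202)) (PT.lf (nat_lit 8512) (nat_lit 6) (nat_lit 112) (nat_lit 4) (nat_lit 197) (nat_lit 202) (nat_lit 201))) (PT.nd (nat_lit 78) (PT.lf (nat_lit 8664) (nat_lit 6) (nat_lit 114) (nat_lit 4) (nat_lit 198) (nat_lit 202) (nat_lit 200)) (PT.nd (nat_lit 78) (PT.lf (nat_lit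 8588) (nat_lit 3) (nat_lit 113) (nat_lit 2) (nat_lit 199) (nat_lit 202) (nat_lit 199)) (PT.lf (nat_lit 8664) (nat_lit 6) (nat_lit 114) (nat_lit 2) (nat_lit 200) (nat_lit 202) (nat_lit 198))))))))
noncomputable def pc7 : PT := (PT.nd (nat_lit 62400) (PT.nd (nat_lit 61620) (PT.nd (nat_lit 312) (PT.nd (nat_lit 156) (PT.nd (nat_lit 78) (PT.lf (nat_lit 8512) (nat_lit 6) (nat_lit 112) (nat_lit 2) (nat_lit 201) (nat_lit 202) (nat_lit 197)) (PT.lf (nat_lit 8284) (nat_lit 3) (nat_lit 109) (nat_lit 0) (nat_lit 202) (nat_lit 202) (nat_lit 196))) (PT.nd (nat_lit 78) (PT.lf (nat_lit 7904) (nat_lit 6) (nat_lit 104) (nat_lit 0) (nat_lit 203) (nat_lit 202) (nat_lit 195)) (PT.lf (nat_lit 7448) (nat_lit 6) (nat_lit 98) (nat_lit 0) (nat_lit 204) (nat_lit 202) (nat_lit 194)))) (PT.nd (nat_lit 156) (PT.nd (nat_lit 78) (PT.lf (nat_lit 6916) (nat_lit 6) (nat_lit 91) (nat_lit 0) (nat_lit 205) (nat_lit 202) (nat_lit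 193)) (PT.lf (nat_lit 6308) (nat_lit 6) (nat_lit 83) (nat_lit 0) (nat_lit 206) (nat_lit 202) (nat_lit 192))) (PT.nd (nat_lit 78) (PT.lf (nat_lit 6004) (nat_lit 6) (nat_lit 79) (nat_lit 0) (nat_lit 207) (nat_lit 202) (nat_lit 191)) (PT.nd (nat_lit 60996) (PT.lf (nat_lit 5700) (nat_lit 6) (nat_lit 75) (nat_lit 0) (nat_lit 208) (nat_lit 202) (nat_lit 190)) (PT.lf (nat_lit 5472) (nat_lit 6) (nat_lit 72) (nat_lit 5) (nat_lit 189) (nat_lit 203) (nat_lit 208)))))) (PT.nd (nat_lit 390) (PT.nd (nat_lit 156) (PT.nd (nat_lit 78) (PT.lf (nat_lit 5776) (nat_lit 6) (nat_lit 76) (nat_lit 5) (nat_lit 190) (nat_lit 203) (nat_lit 207)) (PT.lf (nat_lit 6080) (nat_lit 6) (nat_lit 80) (nat_lit 5) (nat_lit 191) (nat_lit 203) (nat_lit 206))) (PT.nd (nat_lit 78) (PT.lf (nat_lit 6384) (nat_lit 6) (nat_lit 84) (nat_lit 5) (nat_lit 192) (nat_lit 203) (nat_lit 205)) (PT.nd (nat_lit 78) (PT.lf (nat_lit 6992) (nat_lit 6)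 (nat_lit 92) (nat_lit 5) (nat_lit 193) (nat_lit 203) (nat_lit 204)) (PT.lf (nat_lit 7524) (nat_lit 3) (nat_lit 99) (nat_lit 4) (nat_lit 194) (nat_lit 203) (nat_lit 203))))) (PT.nd (nat_lit 156) (PT.nd (nat_lit 78) (PT.lf (nat_lit 7904) (nat_lit 6) (nat_lit 104) (nat_lit 4) (nat_lit 195) (nat_lit 203) (nat_lit 202)) (PT.lf (nat_lit 8208) (nat_lit 6) (nat_lit 108) (nat_lit 4) (nat_lit 196) (nat_lit 203) (nat_lit 201))) (PT.nd (nat_lit 78) (PT.lf (nat_lit 8436) (nat_lit 6) (nat_lit 111) (nat_lit 4) (nat_lit 197) (nat_lit 203) (nat_lit 200)) (PT.nd (nat_lit 78) (PT.lf (nat_lit 8360) (nat_lit 6) (nat_lit 110) (nat_lit 4) (nat_lit 198) (nat_lit 203) (nat_lit 199)) (PT.lf (nat_lit 8360) (nat_lit 6) (nat_lit 110) (nat_lit 2) (nat_lit 199) (nat_lit 203) (nat_lit 198))))))) (PT.nd (nat_lit 61542) (PT.nd (nat_lit 312) (PT.nd (nat_lit 156) (PT.nd (nat_lit 78) (PT.lf (nat_lit 8436) (nat_lit 6) (nat_lit 111)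 (nat_lit 2) (nat_lit 200) (nat_lit 203) (nat_lit 197)) (PT.lf (nat_lit 8208) (nat_lit 6) (nat_lit 108) (nat_lit 2) (nat_lit 201) (nat_lit 203) (nat_lit 196))) (PT.nd (nat_lit 78) (PT.lf (nat_lit 7904) (nat_lit 6) (nat_lit 104) (nat_lit 2) (nat_lit 202) (nat_lit 203) (nat_lit 195)) (PT.lf (nat_lit 7524) (nat_lit 3) (nat_lit 99) (nat_lit 0) (nat_lit 203) (nat_lit 203) (nat_lit 194)))) (PT.nd (nat_lit 156) (PT.nd (nat_lit 78) (PT.lf (nat_lit 6992) (nat_lit 6) (nat_lit 92) (nat_lit 0) (nat_lit 204) (nat_lit 203) (nat_lit 193)) (PT.lf (nat_lit 6384) (nat_lit 6) (nat_lit 84) (nat_lit 0) (nat_lit 205) (nat_lit 203) (nat_lit 192))) (PT.nd (nat_lit 78) (PT.lf (nat_lit 6080) (nat_lit 6) (nat_lit 80) (nat_lit 0) (nat_lit 206) (nat_lit 203) (nat_lit 191)) (PT.nd (nat_lit 78) (PT.lf (nat_lit 5776) (nat_lit 6) (nat_lit 76) (nat_lit 0) (nat_lit 207) (nat_lit 203) (nat_lit 190)) (PT.lf (nat_lit 5472) (nat_lit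 6) (nat_lit 72) (nat_lit 0) (nat_lit 208) (nat_lit 203) (nat_lit 189)))))) (PT.nd (nat_lit 390) (PT.nd (nat_lit 156) (PT.nd (nat_lit 78) (PT.lf (nat_lit 5244) (nat_lit 6) (nat_lit 69) (nat_lit 5) (nat_lit 188) (nat_lit 204) (nat_lit 208)) (PT.lf (nat_lit 5548) (nat_lit 6) (nat_lit 73) (nat_lit 5) (nat_lit 189) (nat_lit 204) (nat_lit 207))) (PT.nd (nat_lit 78) (PT.lf (nat_lit 5852) (nat_lit 6) (nat_lit 77) (nat_lit 5) (nat_lit 190) (nat_lit 204) (nat_lit 206)) (PT.nd (nat_lit 78) (PT.lf (nat_lit 6156) (nat_lit 6) (nat_lit 81) (nat_lit 5) (nat_lit 191) (nat_lit 204) (nat_lit 205)) (PT.lf (nat_lit 6460) (nat_lit 3) (nat_lit 85) (nat_lit 4) (nat_lit 192) (nat_lit 204) (nat_lit 204))))) (PT.nd (nat_lit 156) (PT.nd (nat_lit 78) (PT.lf (nat_lit 6992) (nat_lit 6) (nat_lit 92) (nat_lit 4) (nat_lit 193) (nat_lit 204) (nat_lit 203)) (PT.lf (nat_lit 7448) (nat_lit 6) (nat_lit 98) (nat_lit 4) (nat_lit 194)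 (nat_lit 204) (nat_lit 202))) (PT.nd (nat_lit 78) (PT.lf (nat_lit 7828) (nat_lit 6) (nat_lit 103) (nat_lit 4) (nat_lit 195) (nat_lit 204) (nat_lit 201)) (PT.nd (nat_lit 78) (PT.lf (nat_lit 8132) (nat_lit 6) (nat_lit 107) (nat_lit 4) (nat_lit 196) (nat_lit 204) (nat_lit 200)) (PT.lf (nat_lit 8056) (nat_lit 6) (nat_lit 106) (nat_lit 4) (nat_lit 197) (nat_lit 204) (nat_lit 199))))))))
noncomputable def pc8 : PT := (PT.nd (nat_lit 62166) (PT.nd (nat_lit 702) (PT.nd (nat_lit 312) (PT.nd (nat_lit 156) (PT.nd (nat_lit 78) (PT.lf (nat_lit 7980) (nat_lit 3) (nat_lit 105) (nat_lit 2) (nat_lit 198) (nat_lit 204) (nat_lit 198)) (PT.lf (nat_lit 8056) (nat_lit 6) (nat_lit 106) (nat_lit 2) (nat_lit 199) (nat_lit 204) (nat_lit 197))) (PT.nd (nat_lit 78) (PT.lf (nat_lit 8132) (nat_lit 6) (nat_lit 107) (nat_lit 2) (nat_lit 200) (nat_lit 204) (nat_lit 196)) (PT.lf (nat_lit 7828) (nat_lit 6) (nat_lit 103) (nat_lit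 2) (nat_lit 201) (nat_lit 204) (nat_lit 195)))) (PT.nd (nat_lit 156) (PT.nd (nat_lit 78) (PT.lf (nat_lit 7448) (nat_lit 6) (nat_lit 98) (nat_lit 2) (nat_lit 202) (nat_lit 204) (nat_lit 194)) (PT.lf (nat_lit 6992) (nat_lit 6) (nat_lit 92) (nat_lit 2) (nat_lit 203) (nat_lit 204) (nat_lit 193))) (PT.nd (nat_lit 78) (PT.lf (nat_lit 6460) (nat_lit 3) (nat_lit 85) (nat_lit 0) (nat_lit 204) (nat_lit 204) (nat_lit 192)) (PT.nd (nat_lit 78) (PT.lf (nat_lit 6156) (nat_lit 6) (nat_lit 81) (nat_lit 0) (nat_lit 205) (nat_lit 204) (nat_lit 191)) (PT.lf (nat_lit 5852) (nat_lit 6) (nat_lit 77) (nat_lit 0) (nat_lit 206) (nat_lit 204) (nat_lit 190)))))) (PT.nd (nat_lit 61074) (PT.nd (nat_lit 60840) (PT.nd (nat_lit 78) (PT.lf (nat_lit 5548) (nat_lit 6) (nat_lit 73) (nat_lit 0) (nat_lit 207) (nat_lit 204) (nat_lit 189)) (PT.lf (nat_lit 5244) (nat_lit 6) (nat_lit 69) (nat_lit 0) (nat_lit 208) (nat_lit 204) (nat_lit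 188))) (PT.nd (nat_lit 78) (PT.lf (nat_lit 4864) (nat_lit 6) (nat_lit 64) (nat_lit 5) (nat_lit 186) (nat_lit 205) (nat_lit 209)) (PT.nd (nat_lit 78) (PT.lf (nat_lit 5092) (nat_lit 6) (nat_lit 67) (nat_lit 5) (nat_lit 187) (nat_lit 205) (nat_lit 208)) (PT.lf (nat_lit 5320) (nat_lit 6) (nat_lit 70) (nat_lit 5) (nat_lit 188) (nat_lit 205) (nat_lit 207))))) (PT.nd (nat_lit 156) (PT.nd (nat_lit 78) (PT.lf (nat_lit 5624) (nat_lit 6) (nat_lit 74) (nat_lit 5) (nat_lit 189) (nat_lit 205) (nat_lit 206)) (PT.lf (nat_lit 5928) (nat_lit 3) (nat_lit 78) (nat_lit 4) (nat_lit 190) (nat_lit 205) (nat_lit 205))) (PT.nd (nat_lit 78) (PT.lf (nat_lit 6156) (nat_lit 6) (nat_lit 81) (nat_lit 4) (nat_lit 191) (nat_lit 205) (nat_lit 204)) (PT.nd (nat_lit 78) (PT.lf (nat_lit 6384) (nat_lit 6) (nat_lit 84) (nat_lit 4) (nat_lit 192) (nat_lit 205) (nat_lit 203)) (PT.lf (nat_lit 6916) (nat_lit 6) (nat_lit 91) (nat_lit 4)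 (nat_lit 193) (nat_lit 205) (nat_lit 202))))))) (PT.nd (nat_lit 702) (PT.nd (nat_lit 312) (PT.nd (nat_lit 156) (PT.nd (nat_lit 78) (PT.lf (nat_lit 7372) (nat_lit 6) (nat_lit 97) (nat_lit 4) (nat_lit 194) (nat_lit 205) (nat_lit 201)) (PT.lf (nat_lit 7752) (nat_lit 6) (nat_lit 102) (nat_lit 4) (nat_lit 195) (nat_lit 205) (nat_lit 200))) (PT.nd (nat_lit 78) (PT.lf (nat_lit 7676) (nat_lit 6) (nat_lit 101) (nat_lit 4) (nat_lit 196) (nat_lit 205) (nat_lit 199)) (PT.lf (nat_lit 7600) (nat_lit 6) (nat_lit 100) (nat_lit 4) (nat_lit 197) (nat_lit 205) (nat_lit 198)))) (PT.nd (nat_lit 156) (PT.nd (nat_lit 78) (PT.lf (nat_lit 7600) (nat_lit 6) (nat_lit 100) (nat_lit 2) (nat_lit 198) (nat_lit 205) (nat_lit 197)) (PT.lf (nat_lit 7676) (nat_lit 6) (nat_lit 101) (nat_lit 2) (nat_lit 199) (nat_lit 205) (nat_lit 196))) (PT.nd (nat_lit 78) (PT.lf (nat_lit 7752) (nat_lit 6) (nat_lit 102) (nat_lit 2) (nat_lit 200)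 (nat_lit 205) (nat_lit 195)) (PT.nd (nat_lit 78) (PT.lf (nat_lit 7372) (nat_lit 6) (nat_lit 97) (nat_lit 2) (nat_lit 201) (nat_lit 205) (nat_lit 194)) (PT.lf (nat_lit 6916) (nat_lit 6) (nat_lit 91) (nat_lit 2) (nat_lit 202) (nat_lit 205) (nat_lit 193)))))) (PT.nd (nat_lit 390) (PT.nd (nat_lit 156) (PT.nd (nat_lit 78) (PT.lf (nat_lit 6384) (nat_lit 6) (nat_lit 84) (nat_lit 2) (nat_lit 203) (nat_lit 205) (nat_lit 192)) (PT.lf (nat_lit 6156) (nat_lit 6) (nat_lit 81) (nat_lit 2) (nat_lit 204) (nat_lit 205) (nat_lit 191))) (PT.nd (nat_lit 78) (PT.lf (nat_lit 5928) (nat_lit 3) (nat_lit 78) (nat_lit 0) (nat_lit 205) (nat_lit 205) (nat_lit 190)) (PT.nd (nat_lit 78) (PT.lf (nat_lit 5624) (nat_lit 6) (nat_lit 74) (nat_lit 0) (nat_lit 206) (nat_lit 205) (nat_lit 189)) (PT.lf (nat_lit 5320) (nat_lit 6) (nat_lit 70) (nat_lit 0) (nat_lit 207) (nat_lit 205) (nat_lit 188))))) (PT.nd (nat_lit 60684) (PT.nd (nat_lit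 78) (PT.lf (nat_lit 5092) (nat_lit 6) (nat_lit 67) (nat_lit 0) (nat_lit 208) (nat_lit 205) (nat_lit 187)) (PT.lf (nat_lit 4864) (nat_lit 6) (nat_lit 64) (nat_lit 0) (nat_lit 209) (nat_lit 205) (nat_lit 186))) (PT.nd (nat_lit 78) (PT.lf (nat_lit 4712) (nat_lit 6) (nat_lit 62) (nat_lit 5) (nat_lit 185) (nat_lit 206) (nat_lit 209)) (PT.nd (nat_lit 78) (PT.lf (nat_lit 4940) (nat_lit 6) (nat_lit 65) (nat_lit 5) (nat_lit 186) (nat_lit 206) (nat_lit 208)) (PT.lf (nat_lit 5168) (nat_lit 6) (nat_lit 68) (nat_lit 5) (nat_lit 187) (nat_lit 206) (nat_lit 207))))))))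
noncomputable def pc9 : PT := (PT.nd (nat_lit 1482) (PT.nd (nat_lit 702) (PT.nd (nat_lit 312) (PT.nd (nat_lit 156) (PT.nd (nat_lit 78) (PT.lf (nat_lit 5396) (nat_lit 3) (nat_lit 71) (nat_lit 4) (nat_lit 188) (nat_lit 206) (nat_lit 206)) (PT.lf (nat_lit 5624) (nat_lit 6) (nat_lit 74) (nat_lit 4) (nat_lit 189) (nat_lit 206) (nat_lit 205))) (PT.nd (nat_lit 78) (PT.lf (nat_lit 5852) (nat_lit 6) (nat_lit 77) (nat_lit 4) (nat_lit 190) (nat_lit 206) (nat_lit 204)) (PT.lf (nat_lit 6080) (nat_lit 6) (nat_lit 80) (nat_lit 4) (nat_lit 191) (nat_lit 206) (nat_lit 203)))) (PT.nd (nat_lit 156) (PT.nd (nat_lit 78) (PT.lf (nat_lit 6308) (nat_lit 6) (nat_lit 83) (nat_lit 4) (nat_lit 192) (nat_lit 206) (nat_lit 202)) (PT.lf (nat_lit 6840) (nat_lit 6) (nat_lit 90) (nat_lit 4) (nat_lit 193) (nat_lit 206) (nat_lit 201))) (PT.nd (nat_lit 78) (PT.lf (nat_lit 7296) (nat_lit 6) (nat_lit 96) (nat_lit 4) (nat_lit 194)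 (nat_lit 206) (nat_lit 200)) (PT.nd (nat_lit 78) (PT.lf (nat_lit 7220) (nat_lit 6) (nat_lit 95) (nat_lit 4) (nat_lit 195) (nat_lit 206) (nat_lit 199)) (PT.lf (nat_lit 7144) (nat_lit 6) (nat_lit 94) (nat_lit 4) (nat_lit 196) (nat_lit 206) (nat_lit 198)))))) (PT.nd (nat_lit 390) (PT.nd (nat_lit 156) (PT.nd (nat_lit 78) (PT.lf (nat_lit 7068) (nat_lit 3) (nat_lit 93) (nat_lit 2) (nat_lit 197) (nat_lit 206) (nat_lit 197)) (PT.lf (nat_lit 7144) (nat_lit 6) (nat_lit 94) (nat_lit 2) (nat_lit 198) (nat_lit 206) (nat_lit 196))) (PT.nd (nat_lit 78) (PT.lf (nat_lit 7220) (nat_lit 6) (nat_lit 95) (nat_lit 2) (nat_lit 199) (nat_lit 206) (nat_lit 195)) (PT.nd (nat_lit 78) (PT.lf (nat_lit 7296) (nat_lit 6) (nat_lit 96) (nat_lit 2) (nat_lit 200) (nat_lit 206) (nat_lit 194)) (PT.lf (nat_lit 6840) (nat_lit 6) (nat_lit 90) (nat_lit 2) (nat_lit 201) (nat_lit 206) (nat_lit 193))))) (PT.nd (nat_lit 156) (PT.nd (nat_lit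 78) (PT.lf (nat_lit 6308) (nat_lit 6) (nat_lit 83) (nat_lit 2) (nat_lit 202) (nat_lit 206) (nat_lit 192)) (PT.lf (nat_lit 6080) (nat_lit 6) (nat_lit 80) (nat_lit 2) (nat_lit 203) (nat_lit 206) (nat_lit 191))) (PT.nd (nat_lit 78) (PT.lf (nat_lit 5852) (nat_lit 6) (nat_lit 77) (nat_lit 2) (nat_lit 204) (nat_lit 206) (nat_lit 190)) (PT.nd (nat_lit 78) (PT.lf (nat_lit 5624) (nat_lit 6) (nat_lit 74) (nat_lit 2) (nat_lit 205) (nat_lit 206) (nat_lit 189)) (PT.lf (nat_lit 5396) (nat_lit 3) (nat_lit 71) (nat_lit 0) (nat_lit 206) (nat_lit 206) (nat_lit 188))))))) (PT.nd (nat_lit 61074) (PT.nd (nat_lit 60684) (PT.nd (nat_lit 156) (PT.nd (nat_lit 78) (PT.lf (nat_lit 5168) (nat_lit 6) (nat_lit 68) (nat_lit 0) (nat_lit 207) (nat_lit 206) (nat_lit 187)) (PT.lf (nat_lit 4940) (nat_lit 6) (nat_lit 65) (nat_lit 0) (nat_lit 208) (nat_lit 206) (nat_lit 186))) (PT.nd (nat_lit 60450) (PT.lf (nat_lit 4712) (nat_lit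 6) (nat_lit 62) (nat_lit 0) (nat_lit 209) (nat_lit 206) (nat_lit 185)) (PT.lf (nat_lit 4408) (nat_lit 6) (nat_lit 58) (nat_lit 5) (nat_lit 183) (nat_lit 207) (nat_lit 210)))) (PT.nd (nat_lit 156) (PT.nd (nat_lit 78) (PT.lf (nat_lit 4560) (nat_lit 6) (nat_lit 60) (nat_lit 5) (nat_lit 184) (nat_lit 207) (nat_lit 209)) (PT.lf (nat_lit 4788) (nat_lit 6) (nat_lit 63) (nat_lit 5) (nat_lit 185) (nat_lit 207) (nat_lit 208))) (PT.nd (nat_lit 78) (PT.lf (nat_lit 5016) (nat_lit 3) (nat_lit 66) (nat_lit 4) (nat_lit 186) (nat_lit 207) (nat_lit 207)) (PT.nd (nat_lit 78) (PT.lf (nat_lit 5168) (nat_lit 6) (nat_lit 68) (nat_lit 4) (nat_lit 187) (nat_lit 207) (nat_lit 206)) (PT.lf (nat_lit 5320) (nat_lit 6) (nat_lit 70) (nat_lit 4) (nat_lit 188) (nat_lit 207) (nat_lit 205)))))) (PT.nd (nat_lit 390) (PT.nd (nat_lit 156) (PT.nd (nat_lit 78) (PT.lf (nat_lit 5548) (nat_lit 6) (nat_lit 73) (nat_lit 4) (nat_lit 189)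 (nat_lit 207) (nat_lit 204)) (PT.lf (nat_lit 5776) (nat_lit 6) (nat_lit 76) (nat_lit 4) (nat_lit 190) (nat_lit 207) (nat_lit 203))) (PT.nd (nat_lit 78) (PT.lf (nat_lit 6004) (nat_lit 6) (nat_lit 79) (nat_lit 4) (nat_lit 191) (nat_lit 207) (nat_lit 202)) (PT.nd (nat_lit 78) (PT.lf (nat_lit 6232) (nat_lit 6) (nat_lit 82) (nat_lit 4) (nat_lit 192) (nat_lit 207) (nat_lit 201)) (PT.lf (nat_lit 6764) (nat_lit 6) (nat_lit 89) (nat_lit 4) (nat_lit 193) (nat_lit 207) (nat_lit 200))))) (PT.nd (nat_lit 156) (PT.nd (nat_lit 78) (PT.lf (nat_lit 6688) (nat_lit 6) (nat_lit 88) (nat_lit 4) (nat_lit 194) (nat_lit 207) (nat_lit 199)) (PT.lf (nat_lit 6612) (nat_lit 6) (nat_lit 87) (nat_lit 4) (nat_lit 195) (nat_lit 207) (nat_lit 198))) (PT.nd (nat_lit 78) (PT.lf (nat_lit 6536) (nat_lit 6) (nat_lit 86) (nat_lit 4) (nat_lit 196) (nat_lit 207) (nat_lit 197)) (PT.nd (nat_lit 78) (PT.lf (nat_lit 6536) (nat_lit 6) (nat_lit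 86) (nat_lit 2) (nat_lit 197) (nat_lit 207) (nat_lit 196)) (PT.lf (nat_lit 6612) (nat_lit 6) (nat_lit 87) (nat_lit 2) (nat_lit 198) (nat_lit 207) (nat_lit 195))))))))
noncomputable def pc10 : PT := (PT.nd (nat_lit 61620) (PT.nd (nat_lit 702) (PT.nd (nat_lit 312) (PT.nd (nat_lit 156) (PT.nd (nat_lit 78) (PT.lf (nat_lit 6688) (nat_lit 6) (nat_lit 88) (nat_lit 2) (nat_lit 199) (nat_lit 207) (nat_lit 194)) (PT.lf (nat_lit 6764) (nat_lit 6) (nat_lit 89) (nat_lit 2) (nat_lit 200) (nat_lit 207) (nat_lit 193))) (PT.nd (nat_lit 78) (PT.lf (nat_lit 6232) (nat_lit 6) (nat_lit 82) (nat_lit 2) (nat_lit 201) (nat_lit 207) (nat_lit 192)) (PT.lf (nat_lit 6004) (nat_lit 6) (nat_lit 79) (nat_lit 2) (nat_lit 202) (nat_lit 207) (nat_lit 191)))) (PT.nd (nat_lit 156) (PT.nd (nat_lit 78) (PT.lf (nat_lit 5776) (nat_lit 6) (nat_lit 76) (nat_lit 2) (nat_lit 203) (nat_lit 207) (nat_lit 190)) (PT.lf (nat_lit 5548) (nat_lit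 6) (nat_lit 73) (nat_lit 2) (nat_lit 204) (nat_lit 207) (nat_lit 189))) (PT.nd (nat_lit 78) (PT.lf (nat_lit 5320) (nat_lit 6) (nat_lit 70) (nat_lit 2) (nat_lit 205) (nat_lit 207) (nat_lit 188)) (PT.nd (nat_lit 78) (PT.lf (nat_lit 5168) (nat_lit 6) (nat_lit 68) (nat_lit 2) (nat_lit 206) (nat_lit 207) (nat_lit 187)) (PT.lf (nat_lit 5016) (nat_lit 3) (nat_lit 66) (nat_lit 0) (nat_lit 207) (nat_lit 207) (nat_lit 186)))))) (PT.nd (nat_lit 60528) (PT.nd (nat_lit 156) (PT.nd (nat_lit 78) (PT.lf (nat_lit 4788) (nat_lit 6) (nat_lit 63) (nat_lit 0) (nat_lit 208) (nat_lit 207) (nat_lit 185)) (PT.lf (nat_lit 4560) (nat_lit 6) (nat_lit 60) (nat_lit 0) (nat_lit 209) (nat_lit 207) (nat_lit 184))) (PT.nd (nat_lit 60216) (PT.lf (nat_lit 4408) (nat_lit 6) (nat_lit 58) (nat_lit 0) (nat_lit 210) (nat_lit 207) (nat_lit 183)) (PT.nd (nat_lit 78) (PT.lf (nat_lit 4104) (nat_lit 6) (nat_lit 54) (nat_lit 5) (nat_lit 181)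 (nat_lit 208) (nat_lit 211)) (PT.lf (nat_lit 4256) (nat_lit 6) (nat_lit 56) (nat_lit 5) (nat_lit 182) (nat_lit 208) (nat_lit 210))))) (PT.nd (nat_lit 156) (PT.nd (nat_lit 78) (PT.lf (nat_lit 4484) (nat_lit 6) (nat_lit 59) (nat_lit 5) (nat_lit 183) (nat_lit 208) (nat_lit 209)) (PT.lf (nat_lit 4636) (nat_lit 3) (nat_lit 61) (nat_lit 4) (nat_lit 184) (nat_lit 208) (nat_lit 208))) (PT.nd (nat_lit 78) (PT.lf (nat_lit 4788) (nat_lit 6) (nat_lit 63) (nat_lit 4) (nat_lit 185) (nat_lit 208) (nat_lit 207)) (PT.nd (nat_lit 78) (PT.lf (nat_lit 4940) (nat_lit 6) (nat_lit 65) (nat_lit 4) (nat_lit 186) (nat_lit 208) (nat_lit 206)) (PT.lf (nat_lit 5092) (nat_lit 6) (nat_lit 67) (nat_lit 4) (nat_lit 187) (nat_lit 208) (nat_lit 205))))))) (PT.nd (nat_lit 1560) (PT.nd (nat_lit 1170) (PT.nd (nat_lit 156) (PT.nd (nat_lit 78) (PT.lf (nat_lit 5244) (nat_lit 6) (nat_lit 69) (nat_lit 4) (nat_lit 188) (nat_lit 208) (nat_lit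 204)) (PT.lf (nat_lit 5472) (nat_lit 6) (nat_lit 72) (nat_lit 4) (nat_lit 189) (nat_lit 208) (nat_lit 203))) (PT.nd (nat_lit 936) (PT.lf (nat_lit 5700) (nat_lit 6) (nat_lit 75) (nat_lit 4) (nat_lit 190) (nat_lit 208) (nat_lit 202)) (PT.lf (nat_lit 5700) (nat_lit 6) (nat_lit 75) (nat_lit 2) (nat_lit 202) (nat_lit 208) (nat_lit 190)))) (PT.nd (nat_lit 156) (PT.nd (nat_lit 78) (PT.lf (nat_lit 5472) (nat_lit 6) (nat_lit 72) (nat_lit 2) (nat_lit 203) (nat_lit 208) (nat_lit 189)) (PT.lf (nat_lit 5244) (nat_lit 6) (nat_lit 69) (nat_lit 2) (nat_lit 204) (nat_lit 208) (nat_lit 188))) (PT.nd (nat_lit 78) (PT.lf (nat_lit 5092) (nat_lit 6) (nat_lit 67) (nat_lit 2) (nat_lit 205) (nat_lit 208) (nat_lit 187)) (PT.nd (nat_lit 78) (PT.lf (nat_lit 4940) (nat_lit 6) (nat_lit 65) (nat_lit 2) (nat_lit 206) (nat_lit 208) (nat_lit 186)) (PT.lf (nat_lit 4788) (nat_lit 6) (nat_lit 63) (nat_lit 2) (nat_lit 207) (nat_lit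 208) (nat_lit 185)))))) (PT.nd (nat_lit 60294) (PT.nd (nat_lit 156) (PT.nd (nat_lit 78) (PT.lf (nat_lit 4636) (nat_lit 3) (nat_lit 61) (nat_lit 0) (nat_lit 208) (nat_lit 208) (nat_lit 184)) (PT.lf (nat_lit 4484) (nat_lit 6) (nat_lit 59) (nat_lit 0) (nat_lit 209) (nat_lit 208) (nat_lit 183))) (PT.nd (nat_lit 78) (PT.lf (nat_lit 4256) (nat_lit 6) (nat_lit 56) (nat_lit 0) (nat_lit 210) (nat_lit 208) (nat_lit 182)) (PT.nd (nat_lit 59982) (PT.lf (nat_lit 4104) (nat_lit 6) (nat_lit 54) (nat_lit 0) (nat_lit 211) (nat_lit 208) (nat_lit 181)) (PT.lf (nat_lit 3800) (nat_lit 6) (nat_lit 50) (nat_lit 5) (nat_lit 179) (nat_lit 209) (nat_lit 212))))) (PT.nd (nat_lit 156) (PT.nd (nat_lit 78) (PT.lf (nat_lit 3952) (nat_lit 6) (nat_lit 52) (nat_lit 5) (nat_lit 180) (nat_lit 209) (nat_lit 211)) (PT.lf (nat_lit 4180) (nat_lit 6) (nat_lit 55) (nat_lit 5) (nat_lit 181) (nat_lit 209) (nat_lit 210))) (PT.nd (nat_lit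 78) (PT.lf (nat_lit 4332) (nat_lit 3) (nat_lit 57) (nat_lit 4) (nat_lit 182) (nat_lit 209) (nat_lit 209)) (PT.nd (nat_lit 78) (PT.lf (nat_lit 4484) (nat_lit 6) (nat_lit 59) (nat_lit 4) (nat_lit 183) (nat_lit 209) (nat_lit 208)) (PT.lf (nat_lit 4560) (nat_lit 6) (nat_lit 60) (nat_lit 4) (nat_lit 184) (nat_lit 209) (nat_lit 207))))))))
noncomputable def pc11 : PT := (PT.nd (nat_lit 64428) (PT.nd (nat_lit 2106) (PT.nd (nat_lit 1716) (PT.nd (nat_lit 1560) (PT.nd (nat_lit 78) (PT.lf (nat_lit 4712) (nat_lit 6) (nat_lit 62) (nat_lit 4) (nat_lit 185) (nat_lit 209) (nat_lit 206)) (PT.lf (nat_lit 4864) (nat_lit 6) (nat_lit 64) (nat_lit 4) (nat_lit 186) (nat_lit 209) (nat_lit 205))) (PT.nd (nat_lit 78) (PT.lf (nat_lit 4864) (nat_lit 6) (nat_lit 64) (nat_lit 2) (nat_lit 205) (nat_lit 209) (nat_lit 186)) (PT.lf (nat_lit 4712) (nat_lit 6) (nat_lit 62) (nat_lit 2) (nat_lit 206) (nat_lit 209) (nat_lit 185))))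 (PT.nd (nat_lit 156) (PT.nd (nat_lit 78) (PT.lf (nat_lit 4560) (nat_lit 6) (nat_lit 60) (nat_lit 2) (nat_lit 207) (nat_lit 209) (nat_lit 184)) (PT.lf (nat_lit 4484) (nat_lit 6) (nat_lit 59) (nat_lit 2) (nat_lit 208) (nat_lit 209) (nat_lit 183))) (PT.nd (nat_lit 78) (PT.lf (nat_lit 4332) (nat_lit 3) (nat_lit 57) (nat_lit 0) (nat_lit 209) (nat_lit 209) (nat_lit 182)) (PT.nd (nat_lit 78) (PT.lf (nat_lit 4180) (nat_lit 6) (nat_lit 55) (nat_lit 0) (nat_lit 210) (nat_lit 209) (nat_lit 181)) (PT.lf (nat_lit 3952) (nat_lit 6) (nat_lit 52) (nat_lit 0) (nat_lit 211) (nat_lit 209) (nat_lit 180)))))) (PT.nd (nat_lit 60138) (PT.nd (nat_lit 59904) (PT.nd (nat_lit 59826) (PT.lf (nat_lit 3800) (nat_lit 6) (nat_lit 50) (nat_lit 0) (nat_lit 212) (nat_lit 209) (nat_lit 179)) (PT.lf (nat_lit 3648) (nat_lit 6) (nat_lit 48) (nat_lit 5) (nat_lit 178) (nat_lit 210) (nat_lit 212))) (PT.nd (nat_lit 78) (PT.lf (nat_lit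 3876) (nat_lit 6) (nat_lit 51) (nat_lit 5) (nat_lit 179) (nat_lit 210) (nat_lit 211)) (PT.nd (nat_lit 78) (PT.lf (nat_lit 4028) (nat_lit 3) (nat_lit 53) (nat_lit 4) (nat_lit 180) (nat_lit 210) (nat_lit 210)) (PT.lf (nat_lit 4180) (nat_lit 6) (nat_lit 55) (nat_lit 4) (nat_lit 181) (nat_lit 210) (nat_lit 209))))) (PT.nd (nat_lit 1950) (PT.nd (nat_lit 78) (PT.lf (nat_lit 4256) (nat_lit 6) (nat_lit 56) (nat_lit 4) (nat_lit 182) (nat_lit 210) (nat_lit 208)) (PT.lf (nat_lit 4408) (nat_lit 6) (nat_lit 58) (nat_lit 4) (nat_lit 183) (nat_lit 210) (nat_lit 207))) (PT.nd (nat_lit 78) (PT.lf (nat_lit 4408) (nat_lit 6) (nat_lit 58) (nat_lit 2) (nat_lit 207) (nat_lit 210) (nat_lit 183)) (PT.nd (nat_lit 78) (PT.lf (nat_lit 4256) (nat_lit 6) (nat_lit 56) (nat_lit 2) (nat_lit 208) (nat_lit 210) (nat_lit 182)) (PT.lf (nat_lit 4180) (nat_lit 6) (nat_lit 55) (nat_lit 2) (nat_lit 209) (nat_lit 210) (nat_lit 181)))))))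 (PT.nd (nat_lit 62322) (PT.nd (nat_lit 59904) (PT.nd (nat_lit 156) (PT.nd (nat_lit 78) (PT.lf (nat_lit 4028) (nat_lit 3) (nat_lit 53) (nat_lit 0) (nat_lit 210) (nat_lit 210) (nat_lit 180)) (PT.lf (nat_lit 3876) (nat_lit 6) (nat_lit 51) (nat_lit 0) (nat_lit 211) (nat_lit 210) (nat_lit 179))) (PT.nd (nat_lit 59670) (PT.lf (nat_lit 3648) (nat_lit 6) (nat_lit 48) (nat_lit 0) (nat_lit 212) (nat_lit 210) (nat_lit 178)) (PT.lf (nat_lit 3420) (nat_lit 6) (nat_lit 45) (nat_lit 5) (nat_lit 176) (nat_lit 211) (nat_lit 213)))) (PT.nd (nat_lit 156) (PT.nd (nat_lit 78) (PT.lf (nat_lit 3572) (nat_lit 6) (nat_lit 47) (nat_lit 5) (nat_lit 177) (nat_lit 211) (nat_lit 212)) (PT.lf (nat_lit 3724) (nat_lit 3) (nat_lit 49) (nat_lit 4) (nat_lit 178) (nat_lit 211) (nat_lit 211))) (PT.nd (nat_lit 78) (PT.lf (nat_lit 3876) (nat_lit 6) (nat_lit 51) (nat_lit 4) (nat_lit 179) (nat_lit 211) (nat_lit 210)) (PT.nd (nat_lit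 78) (PT.lf (nat_lit 3952) (nat_lit 6) (nat_lit 52) (nat_lit 4) (nat_lit 180) (nat_lit 211) (nat_lit 209)) (PT.lf (nat_lit 4104) (nat_lit 6) (nat_lit 54) (nat_lit 4) (nat_lit 181) (nat_lit 211) (nat_lit 208)))))) (PT.nd (nat_lit 390) (PT.nd (nat_lit 156) (PT.nd (nat_lit 78) (PT.lf (nat_lit 4104) (nat_lit 6) (nat_lit 54) (nat_lit 2) (nat_lit 208) (nat_lit 211) (nat_lit 181)) (PT.lf (nat_lit 3952) (nat_lit 6) (nat_lit 52) (nat_lit 2) (nat_lit 209) (nat_lit 211) (nat_lit 180))) (PT.nd (nat_lit 78) (PT.lf (nat_lit 3876) (nat_lit 6) (nat_lit 51) (nat_lit 2) (nat_lit 210) (nat_lit 211) (nat_lit 179)) (PT.nd (nat_lit 78) (PT.lf (nat_lit 3724) (nat_lit 3) (nat_lit 49) (nat_lit 0) (nat_lit 211) (nat_lit 211) (nat_lit 178)) (PT.lf (nat_lit 3572) (nat_lit 6) (nat_lit 47) (nat_lit 0) (nat_lit 212) (nat_lit 211) (nat_lit 177))))) (PT.nd (nat_lit 59514) (PT.nd (nat_lit 59436) (PT.lf (nat_lit 3420) (nat_lit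 6) (nat_lit 45) (nat_lit 0) (nat_lit 213) (nat_lit 211) (nat_lit 176)) (PT.lf (nat_lit 3192) (nat_lit 6) (nat_lit 42) (nat_lit 5) (nat_lit 174) (nat_lit 212) (nat_lit 214))) (PT.nd (nat_lit 78) (PT.lf (nat_lit 3344) (nat_lit 6) (nat_lit 44) (nat_lit 5) (nat_lit 175) (nat_lit 212) (nat_lit 213)) (PT.nd (nat_lit 78) (PT.lf (nat_lit 3496) (nat_lit 3) (nat_lit 46) (nat_lit 4) (nat_lit 176) (nat_lit 212) (nat_lit 212)) (PT.lf (nat_lit 3572) (nat_lit 6) (nat_lit 47) (nat_lit 4) (nat_lit 177) (nat_lit 212) (nat_lit 211))))))))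
noncomputable def pc12 : PT := (PT.nd (nat_lit 124410) (PT.nd (nat_lit 62088) (PT.nd (nat_lit 2574) (PT.nd (nat_lit 2418) (PT.nd (nat_lit 78) (PT.lf (nat_lit 3648) (nat_lit 6) (nat_lit 48) (nat_lit 4) (nat_lit 178) (nat_lit 212) (nat_lit 210)) (PT.lf (nat_lit 3800) (nat_lit 6) (nat_lit 50) (nat_lit 4) (nat_lit 179) (nat_lit 212) (nat_lit 209))) (PT.nd (nat_lit 78) (PT.lf (nat_lit 3800) (nat_lit 6) (nat_lit 50) (nat_lit 2) (nat_lit 209) (nat_lit 212) (nat_lit 179)) (PT.lf (nat_lit 3648) (nat_lit 6) (nat_lit 48) (nat_lit 2) (nat_lit 210) (nat_lit 212) (nat_lit 178)))) (PT.nd (nat_lit 156) (PT.nd (nat_lit 78) (PT.lf (nat_lit 3572) (nat_lit 6) (nat_lit 47) (nat_lit 2) (nat_lit 211) (nat_lit 212) (nat_lit 177)) (PT.lf (nat_lit 3496) (nat_lit 3) (nat_lit 46) (nat_lit 0) (nat_lit 212) (nat_lit 212) (nat_lit 176))) (PT.nd (nat_lit 78) (PT.lf (nat_lit 3344) (nat_lit 6) (nat_lit 44) (nat_lit 0) (nat_lit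 213) (nat_lit 212) (nat_lit 175)) (PT.nd (nat_lit 59202) (PT.lf (nat_lit 3192) (nat_lit 6) (nat_lit 42) (nat_lit 0) (nat_lit 214) (nat_lit 212) (nat_lit 174)) (PT.lf (nat_lit 2964) (nat_lit 6) (nat_lit 39) (nat_lit 5) (nat_lit 172) (nat_lit 213) (nat_lit 215)))))) (PT.nd (nat_lit 3042) (PT.nd (nat_lit 156) (PT.nd (nat_lit 78) (PT.lf (nat_lit 3116) (nat_lit 6) (nat_lit 41) (nat_lit 5) (nat_lit 173) (nat_lit 213) (nat_lit 214)) (PT.lf (nat_lit 3268) (nat_lit 3) (nat_lit 43) (nat_lit 4) (nat_lit 174) (nat_lit 213) (nat_lit 213))) (PT.nd (nat_lit 78) (PT.lf (nat_lit 3344) (nat_lit 6) (nat_lit 44) (nat_lit 4) (nat_lit 175) (nat_lit 213) (nat_lit 212)) (PT.nd (nat_lit 2730) (PT.lf (nat_lit 3420) (nat_lit 6) (nat_lit 45) (nat_lit 4) (nat_lit 176) (nat_lit 213) (nat_lit 211)) (PT.lf (nat_lit 3420) (nat_lit 6) (nat_lit 45) (nat_lit 2) (nat_lit 211) (nat_lit 213) (nat_lit 176))))) (PT.nd (nat_lit 156)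 (PT.nd (nat_lit 78) (PT.lf (nat_lit 3344) (nat_lit 6) (nat_lit 44) (nat_lit 2) (nat_lit 212) (nat_lit 213) (nat_lit 175)) (PT.lf (nat_lit 3268) (nat_lit 3) (nat_lit 43) (nat_lit 0) (nat_lit 213) (nat_lit 213) (nat_lit 174))) (PT.nd (nat_lit 78) (PT.lf (nat_lit 3116) (nat_lit 6) (nat_lit 41) (nat_lit 0) (nat_lit 214) (nat_lit 213) (nat_lit 173)) (PT.nd (nat_lit 58968) (PT.lf (nat_lit 2964) (nat_lit 6) (nat_lit 39) (nat_lit 0) (nat_lit 215) (nat_lit 213) (nat_lit 172)) (PT.lf (nat_lit 2736) (nat_lit 6) (nat_lit 36) (nat_lit 5) (nat_lit 170) (nat_lit 214) (nat_lit 216))))))) (PT.nd (nat_lit 62244) (PT.nd (nat_lit 3198) (PT.nd (nat_lit 156) (PT.nd (nat_lit 78) (PT.lf (nat_lit 2888) (nat_lit 6) (nat_lit 38) (nat_lit 5) (nat_lit 171) (nat_lit 214) (nat_lit 215)) (PT.lf (nat_lit 3040) (nat_lit 3) (nat_lit 40) (nat_lit 4) (nat_lit 172) (nat_lit 214) (nat_lit 214))) (PT.nd (nat_lit 78) (PT.lf (nat_lit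 3116) (nat_lit 6) (nat_lit 41) (nat_lit 4) (nat_lit 173) (nat_lit 214) (nat_lit 213)) (PT.lf (nat_lit 3192) (nat_lit 6) (nat_lit 42) (nat_lit 4) (nat_lit 174) (nat_lit 214) (nat_lit 212)))) (PT.nd (nat_lit 156) (PT.nd (nat_lit 78) (PT.lf (nat_lit 3192) (nat_lit 6) (nat_lit 42) (nat_lit 2) (nat_lit 212) (nat_lit 214) (nat_lit 174)) (PT.lf (nat_lit 3116) (nat_lit 6) (nat_lit 41) (nat_lit 2) (nat_lit 213) (nat_lit 214) (nat_lit 173))) (PT.nd (nat_lit 78) (PT.lf (nat_lit 3040) (nat_lit 3) (nat_lit 40) (nat_lit 0) (nat_lit 214) (nat_lit 214) (nat_lit 172)) (PT.nd (nat_lit 78) (PT.lf (nat_lit 2888) (nat_lit 6) (nat_lit 38) (nat_lit 0) (nat_lit 215) (nat_lit 214) (nat_lit 171)) (PT.lf (nat_lit 2736) (nat_lit 6) (nat_lit 36) (nat_lit 0) (nat_lit 216) (nat_lit 214) (nat_lit 170)))))) (PT.nd (nat_lit 3510) (PT.nd (nat_lit 156) (PT.nd (nat_lit 78) (PT.lf (nat_lit 2508) (nat_lit 6) (nat_lit 33) (nat_lit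 5) (nat_lit 168) (nat_lit 215) (nat_lit 217)) (PT.lf (nat_lit 2660) (nat_lit 6) (nat_lit 35) (nat_lit 5) (nat_lit 169) (nat_lit 215) (nat_lit 216))) (PT.nd (nat_lit 78) (PT.lf (nat_lit 2812) (nat_lit 3) (nat_lit 37) (nat_lit 4) (nat_lit 170) (nat_lit 215) (nat_lit 215)) (PT.nd (nat_lit 78) (PT.lf (nat_lit 2888) (nat_lit 6) (nat_lit 38) (nat_lit 4) (nat_lit 171) (nat_lit 215) (nat_lit 214)) (PT.lf (nat_lit 2964) (nat_lit 6) (nat_lit 39) (nat_lit 4) (nat_lit 172) (nat_lit 215) (nat_lit 213))))) (PT.nd (nat_lit 156) (PT.nd (nat_lit 78) (PT.lf (nat_lit 2964) (nat_lit 6) (nat_lit 39) (nat_lit 2) (nat_lit 213) (nat_lit 215) (nat_lit 172)) (PT.lf (nat_lit 2888) (nat_lit 6) (nat_lit 38) (nat_lit 2) (nat_lit 214) (nat_lit 215) (nat_lit 171))) (PT.nd (nat_lit 78) (PT.lf (nat_lit 2812) (nat_lit 3) (nat_lit 37) (nat_lit 0) (nat_lit 215) (nat_lit 215) (nat_lit 170)) (PT.nd (nat_lit 78) (PT.lf (nat_lit 2660)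 (nat_lit 6) (nat_lit 35) (nat_lit 0) (nat_lit 216) (nat_lit 215) (nat_lit 169)) (PT.lf (nat_lit 2508) (nat_lit 6) (nat_lit 33) (nat_lit 0) (nat_lit 217) (nat_lit 215) (nat_lit 168))))))))
noncomputable def pc13 : PT := (PT.nd (nat_lit 66612) (PT.nd (nat_lit 4056) (PT.nd (nat_lit 312) (PT.nd (nat_lit 156) (PT.nd (nat_lit 78) (PT.lf (nat_lit 2280) (nat_lit 6) (nat_lit 30) (nat_lit 5) (nat_lit 166) (nat_lit 216) (nat_lit 218)) (PT.lf (nat_lit 2432) (nat_lit 6) (nat_lit 32) (nat_lit 5) (nat_lit 167) (nat_lit 216) (nat_lit 217))) (PT.nd (nat_lit 78) (PT.lf (nat_lit 2584) (nat_lit 3) (nat_lit 34) (nat_lit 4) (nat_lit 168) (nat_lit 216) (nat_lit 216)) (PT.lf (nat_lit 2660) (nat_lit 6) (nat_lit 35) (nat_lit 4) (nat_lit 169) (nat_lit 216) (nat_lit 215)))) (PT.nd (nat_lit 3510) (PT.nd (nat_lit 3432) (PT.lf (nat_lit 2736) (nat_lit 6) (nat_lit 36) (nat_lit 4) (nat_lit 170) (nat_lit 216) (nat_lit 214)) (PT.lf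 (nat_lit 2736) (nat_lit 6) (nat_lit 36) (nat_lit 2) (nat_lit 214) (nat_lit 216) (nat_lit 170))) (PT.nd (nat_lit 78) (PT.lf (nat_lit 2660) (nat_lit 6) (nat_lit 35) (nat_lit 2) (nat_lit 215) (nat_lit 216) (nat_lit 169)) (PT.nd (nat_lit 78) (PT.lf (nat_lit 2584) (nat_lit 3) (nat_lit 34) (nat_lit 0) (nat_lit 216) (nat_lit 216) (nat_lit 168)) (PT.lf (nat_lit 2432) (nat_lit 6) (nat_lit 32) (nat_lit 0) (nat_lit 217) (nat_lit 216) (nat_lit 167)))))) (PT.nd (nat_lit 58578) (PT.nd (nat_lit 58344) (PT.nd (nat_lit 58266) (PT.lf (nat_lit 2280) (nat_lit 6) (nat_lit 30) (nat_lit 0) (nat_lit 218) (nat_lit 216) (nat_lit 166)) (PT.lf (nat_lit 2052) (nat_lit 6) (nat_lit 27) (nat_lit 5) (nat_lit 164) (nat_lit 217) (nat_lit 219))) (PT.nd (nat_lit 78) (PT.lf (nat_lit 2204) (nat_lit 6) (nat_lit 29) (nat_lit 5) (nat_lit 165) (nat_lit 217) (nat_lit 218)) (PT.nd (nat_lit 78) (PT.lf (nat_lit 2356) (nat_lit 3) (nat_lit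 31) (nat_lit 4) (nat_lit 166) (nat_lit 217) (nat_lit 217)) (PT.lf (nat_lit 2432) (nat_lit 6) (nat_lit 32) (nat_lit 4) (nat_lit 167) (nat_lit 217) (nat_lit 216))))) (PT.nd (nat_lit 3744) (PT.nd (nat_lit 3666) (PT.lf (nat_lit 2508) (nat_lit 6) (nat_lit 33) (nat_lit 4) (nat_lit 168) (nat_lit 217) (nat_lit 215)) (PT.lf (nat_lit 2508) (nat_lit 6) (nat_lit 33) (nat_lit 2) (nat_lit 215) (nat_lit 217) (nat_lit 168))) (PT.nd (nat_lit 78) (PT.lf (nat_lit 2432) (nat_lit 6) (nat_lit 32) (nat_lit 2) (nat_lit 216) (nat_lit 217) (nat_lit 167)) (PT.nd (nat_lit 78) (PT.lf (nat_lit 2356) (nat_lit 3) (nat_lit 31) (nat_lit 0) (nat_lit 217) (nat_lit 217) (nat_lit 166)) (PT.lf (nat_lit 2204) (nat_lit 6) (nat_lit 29) (nat_lit 0) (nat_lit 218) (nat_lit 217) (nat_lit 165))))))) (PT.nd (nat_lit 62478) (PT.nd (nat_lit 58266) (PT.nd (nat_lit 58110) (PT.nd (nat_lit 58032) (PT.lf (nat_lit 2052) (nat_lit 6) (nat_lit 27) (nat_lit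 0) (nat_lit 219) (nat_lit 217) (nat_lit 164)) (PT.lf (nat_lit 1824) (nat_lit 6) (nat_lit 24) (nat_lit 5) (nat_lit 162) (nat_lit 218) (nat_lit 220))) (PT.nd (nat_lit 78) (PT.lf (nat_lit 1976) (nat_lit 6) (nat_lit 26) (nat_lit 5) (nat_lit 163) (nat_lit 218) (nat_lit 219)) (PT.lf (nat_lit 2128) (nat_lit 3) (nat_lit 28) (nat_lit 4) (nat_lit 164) (nat_lit 218) (nat_lit 218)))) (PT.nd (nat_lit 3978) (PT.nd (nat_lit 78) (PT.lf (nat_lit 2204) (nat_lit 6) (nat_lit 29) (nat_lit 4) (nat_lit 165) (nat_lit 218) (nat_lit 217)) (PT.lf (nat_lit 2280) (nat_lit 6) (nat_lit 30) (nat_lit 4) (nat_lit 166) (nat_lit 218) (nat_lit 216))) (PT.nd (nat_lit 78) (PT.lf (nat_lit 2280) (nat_lit 6) (nat_lit 30) (nat_lit 2) (nat_lit 216) (nat_lit 218) (nat_lit 166)) (PT.nd (nat_lit 78) (PT.lf (nat_lit 2204) (nat_lit 6) (nat_lit 29) (nat_lit 2) (nat_lit 217) (nat_lit 218) (nat_lit 165)) (PT.lf (nat_lit 2128) (nat_lit 3) (nat_lit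 28) (nat_lit 0) (nat_lit 218) (nat_lit 218) (nat_lit 164)))))) (PT.nd (nat_lit 58110) (PT.nd (nat_lit 57876) (PT.nd (nat_lit 78) (PT.lf (nat_lit 1976) (nat_lit 6) (nat_lit 26) (nat_lit 0) (nat_lit 219) (nat_lit 218) (nat_lit 163)) (PT.lf (nat_lit 1824) (nat_lit 6) (nat_lit 24) (nat_lit 0) (nat_lit 220) (nat_lit 218) (nat_lit 162))) (PT.nd (nat_lit 78) (PT.lf (nat_lit 1596) (nat_lit 6) (nat_lit 21) (nat_lit 5) (nat_lit 160) (nat_lit 219) (nat_lit 221)) (PT.nd (nat_lit 78) (PT.lf (nat_lit 1748) (nat_lit 6) (nat_lit 23) (nat_lit 5) (nat_lit 161) (nat_lit 219) (nat_lit 220)) (PT.lf (nat_lit 1900) (nat_lit 3) (nat_lit 25) (nat_lit 4) (nat_lit 162) (nat_lit 219) (nat_lit 219))))) (PT.nd (nat_lit 4212) (PT.nd (nat_lit 78) (PT.lf (nat_lit 1976) (nat_lit 6) (nat_lit 26) (nat_lit 4) (nat_lit 163) (nat_lit 219) (nat_lit 218)) (PT.lf (nat_lit 2052) (nat_lit 6) (nat_lit 27) (nat_lit 4) (nat_lit 164) (nat_lit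 219) (nat_lit 217))) (PT.nd (nat_lit 78) (PT.lf (nat_lit 2052) (nat_lit 6) (nat_lit 27) (nat_lit 2) (nat_lit 217) (nat_lit 219) (nat_lit 164)) (PT.nd (nat_lit 78) (PT.lf (nat_lit 1976) (nat_lit 6) (nat_lit 26) (nat_lit 2) (nat_lit 218) (nat_lit 219) (nat_lit 163)) (PT.lf (nat_lit 1900) (nat_lit 3) (nat_lit 25) (nat_lit 0) (nat_lit 219) (nat_lit 219) (nat_lit 162))))))))
noncomputable def pc14 : PT := (PT.nd (nat_lit 125034) (PT.nd (nat_lit 62478) (PT.nd (nat_lit 57798) (PT.nd (nat_lit 57642) (PT.nd (nat_lit 78) (PT.lf (nat_lit 1748) (nat_lit 6) (nat_lit 23) (nat_lit 0) (nat_lit 220) (nat_lit 219) (nat_lit 161)) (PT.lf (nat_lit 1596) (nat_lit 6) (nat_lit 21) (nat_lit 0) (nat_lit 221) (nat_lit 219) (nat_lit 160))) (PT.nd (nat_lit 78) (PT.lf (nat_lit 1368) (nat_lit 6) (nat_lit 18) (nat_lit 5) (nat_lit 158) (nat_lit 220) (nat_lit 222)) (PT.lf (nat_lit 1520) (nat_lit 6) (nat_lit 20) (nat_lit 5) (nat_lit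 159) (nat_lit 220) (nat_lit 221)))) (PT.nd (nat_lit 156) (PT.nd (nat_lit 78) (PT.lf (nat_lit 1672) (nat_lit 3) (nat_lit 22) (nat_lit 4) (nat_lit 160) (nat_lit 220) (nat_lit 220)) (PT.lf (nat_lit 1748) (nat_lit 6) (nat_lit 23) (nat_lit 4) (nat_lit 161) (nat_lit 220) (nat_lit 219))) (PT.nd (nat_lit 4368) (PT.lf (nat_lit 1824) (nat_lit 6) (nat_lit 24) (nat_lit 4) (nat_lit 162) (nat_lit 220) (nat_lit 218)) (PT.nd (nat_lit 78) (PT.lf (nat_lit 1824) (nat_lit 6) (nat_lit 24) (nat_lit 2) (nat_lit 218) (nat_lit 220) (nat_lit 162)) (PT.lf (nat_lit 1748) (nat_lit 6) (nat_lit 23) (nat_lit 2) (nat_lit 219) (nat_lit 220) (nat_lit 161)))))) (PT.nd (nat_lit 57642) (PT.nd (nat_lit 156) (PT.nd (nat_lit 78) (PT.lf (nat_lit 1672) (nat_lit 3) (nat_lit 22) (nat_lit 0) (nat_lit 220) (nat_lit 220) (nat_lit 160)) (PT.lf (nat_lit 1520) (nat_lit 6) (nat_lit 20) (nat_lit 0) (nat_lit 221) (nat_lit 220) (nat_lit 159))) (PT.nd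 (nat_lit 57330) (PT.lf (nat_lit 1368) (nat_lit 6) (nat_lit 18) (nat_lit 0) (nat_lit 222) (nat_lit 220) (nat_lit 158)) (PT.nd (nat_lit 78) (PT.lf (nat_lit 1140) (nat_lit 6) (nat_lit 15) (nat_lit 5) (nat_lit 156) (nat_lit 221) (nat_lit 223)) (PT.lf (nat_lit 1292) (nat_lit 6) (nat_lit 17) (nat_lit 5) (nat_lit 157) (nat_lit 221) (nat_lit 222))))) (PT.nd (nat_lit 156) (PT.nd (nat_lit 78) (PT.lf (nat_lit 1444) (nat_lit 3) (nat_lit 19) (nat_lit 4) (nat_lit 158) (nat_lit 221) (nat_lit 221)) (PT.lf (nat_lit 1520) (nat_lit 6) (nat_lit 20) (nat_lit 4) (nat_lit 159) (nat_lit 221) (nat_lit 220))) (PT.nd (nat_lit 4602) (PT.lf (nat_lit 1596) (nat_lit 6) (nat_lit 21) (nat_lit 4) (nat_lit 160) (nat_lit 221) (nat_lit 219)) (PT.nd (nat_lit 78) (PT.lf (nat_lit 1596) (nat_lit 6) (nat_lit 21) (nat_lit 2) (nat_lit 219) (nat_lit 221) (nat_lit 160)) (PT.lf (nat_lit 1520) (nat_lit 6) (nat_lit 20) (nat_lit 2) (nat_lit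 220) (nat_lit 221) (nat_lit 159))))))) (PT.nd (nat_lit 62478) (PT.nd (nat_lit 57330) (PT.nd (nat_lit 156) (PT.nd (nat_lit 78) (PT.lf (nat_lit 1444) (nat_lit 3) (nat_lit 19) (nat_lit 0) (nat_lit 221) (nat_lit 221) (nat_lit 158)) (PT.lf (nat_lit 1292) (nat_lit 6) (nat_lit 17) (nat_lit 0) (nat_lit 222) (nat_lit 221) (nat_lit 157))) (PT.nd (nat_lit 57096) (PT.lf (nat_lit 1140) (nat_lit 6) (nat_lit 15) (nat_lit 0) (nat_lit 223) (nat_lit 221) (nat_lit 156)) (PT.lf (nat_lit 912) (nat_lit 6) (nat_lit 12) (nat_lit 5) (nat_lit 154) (nat_lit 222) (nat_lit 224)))) (PT.nd (nat_lit 156) (PT.nd (nat_lit 78) (PT.lf (nat_lit 1064) (nat_lit 6) (nat_lit 14) (nat_lit 5) (nat_lit 155) (nat_lit 222) (nat_lit 223)) (PT.lf (nat_lit 1216) (nat_lit 3) (nat_lit 16) (nat_lit 4) (nat_lit 156) (nat_lit 222) (nat_lit 222))) (PT.nd (nat_lit 78) (PT.lf (nat_lit 1292) (nat_lit 6) (nat_lit 17) (nat_lit 4) (nat_lit 157) (nat_lit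 222) (nat_lit 221)) (PT.nd (nat_lit 4836) (PT.lf (nat_lit 1368) (nat_lit 6) (nat_lit 18) (nat_lit 4) (nat_lit 158) (nat_lit 222) (nat_lit 220)) (PT.lf (nat_lit 1368) (nat_lit 6) (nat_lit 18) (nat_lit 2) (nat_lit 220) (nat_lit 222) (nat_lit 158)))))) (PT.nd (nat_lit 57174) (PT.nd (nat_lit 156) (PT.nd (nat_lit 78) (PT.lf (nat_lit 1292) (nat_lit 6) (nat_lit 17) (nat_lit 2) (nat_lit 221) (nat_lit 222) (nat_lit 157)) (PT.lf (nat_lit 1216) (nat_lit 3) (nat_lit 16) (nat_lit 0) (nat_lit 222) (nat_lit 222) (nat_lit 156))) (PT.nd (nat_lit 78) (PT.lf (nat_lit 1064) (nat_lit 6) (nat_lit 14) (nat_lit 0) (nat_lit 223) (nat_lit 222) (nat_lit 155)) (PT.nd (nat_lit 56862) (PT.lf (nat_lit 912) (nat_lit 6) (nat_lit 12) (nat_lit 0) (nat_lit 224) (nat_lit 222) (nat_lit 154)) (PT.lf (nat_lit 684) (nat_lit 6) (nat_lit 9) (nat_lit 5) (nat_lit 152) (nat_lit 223) (nat_lit 225))))) (PT.nd (nat_lit 156) (PT.nd (nat_lit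 78) (PT.lf (nat_lit 836) (nat_lit 6) (nat_lit 11) (nat_lit 5) (nat_lit 153) (nat_lit 223) (nat_lit 224)) (PT.lf (nat_lit 988) (nat_lit 3) (nat_lit 13) (nat_lit 4) (nat_lit 154) (nat_lit 223) (nat_lit 223))) (PT.nd (nat_lit 78) (PT.lf (nat_lit 1064) (nat_lit 6) (nat_lit 14) (nat_lit 4) (nat_lit 155) (nat_lit 223) (nat_lit 222)) (PT.nd (nat_lit 5070) (PT.lf (nat_lit 1140) (nat_lit 6) (nat_lit 15) (nat_lit 4) (nat_lit 156) (nat_lit 223) (nat_lit 221)) (PT.lf (nat_lit 1140) (nat_lit 6) (nat_lit 15) (nat_lit 2) (nat_lit 221) (nat_lit 223) (nat_lit 156))))))))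
noncomputable def pc15 : PT := (PT.nd (nat_lit 125034) (PT.nd (nat_lit 62478) (PT.nd (nat_lit 56862) (PT.nd (nat_lit 156) (PT.nd (nat_lit 78) (PT.lf (nat_lit 1064) (nat_lit 6) (nat_lit 14) (nat_lit 2) (nat_lit 222) (nat_lit 223) (nat_lit 155)) (PT.lf (nat_lit 988) (nat_lit 3) (nat_lit 13) (nat_lit 0) (nat_lit 223) (nat_lit 223) (nat_lit 154))) (PT.nd (nat_lit 78) (PT.lf (nat_lit 836) (nat_lit 6) (nat_lit 11) (nat_lit 0) (nat_lit 224) (nat_lit 223) (nat_lit 153)) (PT.lf (nat_lit 684) (nat_lit 6) (nat_lit 9) (nat_lit 0) (nat_lit 225) (nat_lit 223) (nat_lit 152)))) (PT.nd (nat_lit 156) (PT.nd (nat_lit 78) (PT.lf (nat_lit 456) (nat_lit 6) (nat_lit 6) (nat_lit 5) (nat_lit 150) (nat_lit 224) (nat_lit 226)) (PT.lf (nat_lit 608) (nat_lit 6) (nat_lit 8) (nat_lit 5) (nat_lit 151) (nat_lit 224) (nat_lit 225))) (PT.nd (nat_lit 78) (PT.lf (nat_lit 760) (nat_lit 3) (nat_lit 10) (nat_lit 4) (nat_lit 152) (nat_lit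 224) (nat_lit 224)) (PT.nd (nat_lit 78) (PT.lf (nat_lit 836) (nat_lit 6) (nat_lit 11) (nat_lit 4) (nat_lit 153) (nat_lit 224) (nat_lit 223)) (PT.lf (nat_lit 912) (nat_lit 6) (nat_lit 12) (nat_lit 4) (nat_lit 154) (nat_lit 224) (nat_lit 222)))))) (PT.nd (nat_lit 56706) (PT.nd (nat_lit 156) (PT.nd (nat_lit 78) (PT.lf (nat_lit 912) (nat_lit 6) (nat_lit 12) (nat_lit 2) (nat_lit 222) (nat_lit 224) (nat_lit 154)) (PT.lf (nat_lit 836) (nat_lit 6) (nat_lit 11) (nat_lit 2) (nat_lit 223) (nat_lit 224) (nat_lit 153))) (PT.nd (nat_lit 78) (PT.lf (nat_lit 760) (nat_lit 3) (nat_lit 10) (nat_lit 0) (nat_lit 224) (nat_lit 224) (nat_lit 152)) (PT.nd (nat_lit 78) (PT.lf (nat_lit 608) (nat_lit 6) (nat_lit 8) (nat_lit 0) (nat_lit 225) (nat_lit 224) (nat_lit 151)) (PT.lf (nat_lit 456) (nat_lit 6) (nat_lit 6) (nat_lit 0) (nat_lit 226) (nat_lit 224) (nat_lit 150))))) (PT.nd (nat_lit 156) (PT.nd (nat_lit 78) (PT.lf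 (nat_lit 228) (nat_lit 6) (nat_lit 3) (nat_lit 5) (nat_lit 148) (nat_lit 225) (nat_lit 227)) (PT.lf (nat_lit 380) (nat_lit 6) (nat_lit 5) (nat_lit 5) (nat_lit 149) (nat_lit 225) (nat_lit 226))) (PT.nd (nat_lit 78) (PT.lf (nat_lit 532) (nat_lit 3) (nat_lit 7) (nat_lit 4) (nat_lit 150) (nat_lit 225) (nat_lit 225)) (PT.nd (nat_lit 78) (PT.lf (nat_lit 608) (nat_lit 6) (nat_lit 8) (nat_lit 4) (nat_lit 151) (nat_lit 225) (nat_lit 224)) (PT.lf (nat_lit 684) (nat_lit 6) (nat_lit 9) (nat_lit 4) (nat_lit 152) (nat_lit 225) (nat_lit 223))))))) (PT.nd (nat_lit 62556) (PT.nd (nat_lit 312) (PT.nd (nat_lit 156) (PT.nd (nat_lit 78) (PT.lf (nat_lit 684) (nat_lit 6) (nat_lit 9) (nat_lit 2) (nat_lit 223) (nat_lit 225) (nat_lit 152)) (PT.lf (nat_lit 608) (nat_lit 6) (nat_lit 8) (nat_lit 2) (nat_lit 224) (nat_lit 225) (nat_lit 151))) (PT.nd (nat_lit 78) (PT.lf (nat_lit 532) (nat_lit 3) (nat_lit 7) (nat_lit 0) (nat_lit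 225) (nat_lit 225) (nat_lit 150)) (PT.lf (nat_lit 380) (nat_lit 6) (nat_lit 5) (nat_lit 0) (nat_lit 226) (nat_lit 225) (nat_lit 149)))) (PT.nd (nat_lit 56316) (PT.nd (nat_lit 56238) (PT.lf (nat_lit 228) (nat_lit 6) (nat_lit 3) (nat_lit 0) (nat_lit 227) (nat_lit 225) (nat_lit 148)) (PT.lf (nat_lit 152) (nat_lit 6) (nat_lit 2) (nat_lit 5) (nat_lit 147) (nat_lit 226) (nat_lit 227))) (PT.nd (nat_lit 78) (PT.lf (nat_lit 304) (nat_lit 3) (nat_lit 4) (nat_lit 4) (nat_lit 148) (nat_lit 226) (nat_lit 226)) (PT.nd (nat_lit 78) (PT.lf (nat_lit 380) (nat_lit 6) (nat_lit 5) (nat_lit 4) (nat_lit 149) (nat_lit 226) (nat_lit 225)) (PT.lf (nat_lit 456) (nat_lit 6) (nat_lit 6) (nat_lit 4) (nat_lit 150) (nat_lit 226) (nat_lit 224)))))) (PT.nd (nat_lit 56472) (PT.nd (nat_lit 156) (PT.nd (nat_lit 78) (PT.lf (nat_lit 456) (nat_lit 6) (nat_lit 6) (nat_lit 2) (nat_lit 224) (nat_lit 226) (nat_lit 150)) (PT.lf (nat_lit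 380) (nat_lit 6) (nat_lit 5) (nat_lit 2) (nat_lit 225) (nat_lit 226) (nat_lit 149))) (PT.nd (nat_lit 78) (PT.lf (nat_lit 304) (nat_lit 3) (nat_lit 4) (nat_lit 0) (nat_lit 226) (nat_lit 226) (nat_lit 148)) (PT.nd (nat_lit 56160) (PT.lf (nat_lit 152) (nat_lit 6) (nat_lit 2) (nat_lit 0) (nat_lit 227) (nat_lit 226) (nat_lit 147)) (PT.lf (nat_lit 76) (nat_lit 3) (nat_lit 1) (nat_lit 4) (nat_lit 146) (nat_lit 227) (nat_lit 227))))) (PT.nd (nat_lit 6084) (PT.nd (nat_lit 78) (PT.lf (nat_lit 152) (nat_lit 6) (nat_lit 2) (nat_lit 4) (nat_lit 147) (nat_lit 227) (nat_lit 226)) (PT.lf (nat_lit 228) (nat_lit 6) (nat_lit 3) (nat_lit 4) (nat_lit 148) (nat_lit 227) (nat_lit 225))) (PT.nd (nat_lit 78) (PT.lf (nat_lit 228) (nat_lit 6) (nat_lit 3) (nat_lit 2) (nat_lit 225) (nat_lit 227) (nat_lit 148)) (PT.nd (nat_lit 78) (PT.lf (nat_lit 152) (nat_lit 6) (nat_lit 2) (nat_lit 2) (nat_lit 226) (nat_lit 227) (nat_lit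 147)) (PT.lf (nat_lit 76) (nat_lit 3) (nat_lit 1) (nat_lit 0) (nat_lit 227) (nat_lit 227) (nat_lit 146))))))))
noncomputable def xc0 : XT := (XT.nd (nat_lit 312156) (nat_lit 0) (nat_lit 0) (XT.nd (nat_lit 249288) (nat_lit 0) (nat_lit 0) (XT.nd (nat_lit 124956) (nat_lit 0) (nat_lit 0) (XT.nd (nat_lit 124644) (nat_lit 0) (nat_lit 0) (XT.nd (nat_lit 62400) (nat_lit 0) (nat_lit 0) (XT.lf (nat_lit 0) (nat_lit 350537354126) (nat_lit 152) (nat_lit 125458432326) (nat_lit 0) (nat_lit 350537354126) (nat_lit 1) (nat_lit 5) (nat_lit 3) (nat_lit 4) (nat_lit 1) (nat_lit 4) (nat_lit 508) (nat_lit 346) (nat_lit 346)) (XT.nd (nat_lit 78) (nat_lit 0) (nat_lit 0) (XT.lf (nat_lit 0) (nat_lit 644381100173) (nat_lit 152) (nat_lit 242104211491) (nat_lit 0) (nat_lit 644370724820) (nat_lit 1) (nat_lit 5) (nat_lit 3) (nat_lit 4) (nat_lit 1) (nat_lit 4) (nat_lit 507) (nat_lit 347) (nat_lit 346)) (XT.lf (nat_lit 0) (nat_lit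 700960872428) (nat_lit 152) (nat_lit 251170729101) (nat_lit 0) (nat_lit 700940890265) (nat_lit 1) (nat_lit 5) (nat_lit 3) (nat_lit 4) (nat_lit 1) (nat_lit 4) (nat_lit 508) (nat_lit 347) (nat_lit 345)))) (XT.nd (nat_lit 156) (nat_lit 0) (nat_lit 0) (XT.nd (nat_lit 78) (nat_lit 0) (nat_lit 0) (XT.lf (nat_lit 0) (nat_lit 248641599619) (nat_lit 152) (nat_lit 110695428662) (nat_lit 0) (nat_lit 248641599619) (nat_lit 1) (nat_lit 5) (nat_lit 3) (nat_lit 4) (nat_lit 1) (nat_lit 4) (nat_lit 504) (nat_lit 348) (nat_lit 348)) (XT.lf (nat_lit 0) (nat_lit 542776510149) (nat_lit 152) (nat_lit 227405879961) (nat_lit 0) (nat_lit 542765304767) (nat_lit 1) (nat_lit 5) (nat_lit 3) (nat_lit 4) (nat_lit 1) (nat_lit 4) (nat_lit 505) (nat_lit 348) (nat_lit 347))) (XT.nd (nat_lit 78) (nat_lit 0) (nat_lit 0) (XT.lf (nat_lit 0) (nat_lit 591630257941) (nat_lit 152) (nat_lit 234472385504) (nat_lit 0) (nat_lit 591608677205)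 (nat_lit 1) (nat_lit 5) (nat_lit 3) (nat_lit 4) (nat_lit 1) (nat_lit 4) (nat_lit 506) (nat_lit 348) (nat_lit 346)) (XT.lf (nat_lit 0) (nat_lit 644133946304) (nat_lit 152) (nat_lit 242632249543) (nat_lit 0) (nat_lit 644102758760) (nat_lit 1) (nat_lit 5) (nat_lit 3) (nat_lit 4) (nat_lit 1) (nat_lit 4) (nat_lit 507) (nat_lit 348) (nat_lit 345))))) (XT.nd (nat_lit 62244) (nat_lit 0) (nat_lit 0) (XT.nd (nat_lit 62088) (nat_lit 0) (nat_lit 0) (XT.nd (nat_lit 62010) (nat_lit 0) (nat_lit 0) (XT.lf (nat_lit 0) (nat_lit 700598708208) (nat_lit 152) (nat_lit 251933826828) (nat_lit 0) (nat_lit 700558625470) (nat_lit 1) (nat_lit 5) (nat_lit 3) (nat_lit 4) (nat_lit 1) (nat_lit 4) (nat_lit 508) (nat_lit 348) (nat_lit 344)) (XT.lf (nat_lit 0) (nat_lit 207743208178) (nat_lit 152) (nat_lit 106029453076) (nat_lit 0) (nat_lit 207743208178) (nat_lit 1) (nat_lit 5) (nat_lit 3) (nat_lit 4) (nat_lit 1) (nat_lit 4) (nat_lit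 502) (nat_lit 349) (nat_lit 349))) (XT.nd (nat_lit 78) (nat_lit 0) (nat_lit 0) (XT.lf (nat_lit 0) (nat_lit 454892837033) (nat_lit 152) (nat_lit 216391673018) (nat_lit 0) (nat_lit 454880735220) (nat_lit 1) (nat_lit 5) (nat_lit 3) (nat_lit 4) (nat_lit 1) (nat_lit 4) (nat_lit 503) (nat_lit 349) (nat_lit 348)) (XT.lf (nat_lit 0) (nat_lit 497150421133) (nat_lit 152) (nat_lit 221686964818) (nat_lit 0) (nat_lit 497127113939) (nat_lit 1) (nat_lit 5) (nat_lit 3) (nat_lit 4) (nat_lit 1) (nat_lit 4) (nat_lit 504) (nat_lit 349) (nat_lit 347)))) (XT.nd (nat_lit 156) (nat_lit 0) (nat_lit 0) (XT.nd (nat_lit 78) (nat_lit 0) (nat_lit 0) (XT.lf (nat_lit 0) (nat_lit 542509583970) (nat_lit 152) (nat_lit 227976161058) (nat_lit 0) (nat_lit 542475901422) (nat_lit 1) (nat_lit 5) (nat_lit 3) (nat_lit 4) (nat_lit 1) (nat_lit 4) (nat_lit 505) (nat_lit 349) (nat_lit 346)) (XT.lf (nat_lit 0) (nat_lit 591239120583) (nat_lit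 152) (nat_lit 235296531049) (nat_lit 0) (nat_lit 591195831226) (nat_lit 1) (nat_lit 5) (nat_lit 3) (nat_lit 4) (nat_lit 1) (nat_lit 4) (nat_lit 506) (nat_lit 349) (nat_lit 345))) (XT.nd (nat_lit 78) (nat_lit 0) (nat_lit 0) (XT.lf (nat_lit 0) (nat_lit 643627798596) (nat_lit 152) (nat_lit 243691454762) (nat_lit 0) (nat_lit 643575614046) (nat_lit 1) (nat_lit 5) (nat_lit 3) (nat_lit 4) (nat_lit 1) (nat_lit 4) (nat_lit 507) (nat_lit 349) (nat_lit 344)) (XT.lf (nat_lit 0) (nat_lit 699986069435) (nat_lit 152) (nat_lit 253210679893) (nat_lit 0) (nat_lit 699925648594) (nat_lit 1) (nat_lit 5) (nat_lit 3) (nat_lit 4) (nat_lit 1) (nat_lit 4) (nat_lit 508) (nat_lit 349) (nat_lit 343)))))) (XT.nd (nat_lit 624) (nat_lit 0) (nat_lit 0) (XT.nd (nat_lit 312) (nat_lit 0) (nat_lit 0) (XT.nd (nat_lit 156) (nat_lit 0) (nat_lit 0) (XT.nd (nat_lit 78) (nat_lit 0) (nat_lit 0) (XT.lf (nat_lit 0) (nat_lit 172245278505)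 (nat_lit 152) (nat_lit 102919208259) (nat_lit 0) (nat_lit 172245278505) (nat_lit 1) (nat_lit 5) (nat_lit 3) (nat_lit 4) (nat_lit 1) (nat_lit 4) (nat_lit 500) (nat_lit 350) (nat_lit 350)) (XT.lf (nat_lit 0) (nat_lit 378710709530) (nat_lit 152) (nat_lit 208662988564) (nat_lit 0) (nat_lit 378697639573) (nat_lit 1) (nat_lit 5) (nat_lit 3) (nat_lit 4) (nat_lit 1) (nat_lit 4) (nat_lit 501) (nat_lit 350) (nat_lit 349))) (XT.nd (nat_lit 78) (nat_lit 0) (nat_lit 0) (XT.lf (nat_lit 0) (nat_lit 415343016001) (nat_lit 152) (nat_lit 212378702244) (nat_lit 0) (nat_lit 415317844231) (nat_lit 1) (nat_lit 5) (nat_lit 3) (nat_lit 4) (nat_lit 1) (nat_lit 4) (nat_lit 502) (nat_lit 350) (nat_lit 348)) (XT.lf (nat_lit 0) (nat_lit 454604556760) (nat_lit 152) (nat_lit 217007576603) (nat_lit 0) (nat_lit 454568179608) (nat_lit 1) (nat_lit 5) (nat_lit 3) (nat_lit 4) (nat_lit 1) (nat_lit 4) (nat_lit 503) (nat_lit 350) (nat_lit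 347)))) (XT.nd (nat_lit 156) (nat_lit 0) (nat_lit 0) (XT.nd (nat_lit 78) (nat_lit 0) (nat_lit 0) (XT.lf (nat_lit 0) (nat_lit 496727992787) (nat_lit 152) (nat_lit 222577042006) (nat_lit 0) (nat_lit 496681240282) (nat_lit 1) (nat_lit 5) (nat_lit 3) (nat_lit 4) (nat_lit 1) (nat_lit 4) (nat_lit 504) (nat_lit 350) (nat_lit 346)) (XT.lf (nat_lit 0) (nat_lit 541962944446) (nat_lit 152) (nat_lit 229120102694) (nat_lit 0) (nat_lit 541906585132) (nat_lit 1) (nat_lit 5) (nat_lit 3) (nat_lit 4) (nat_lit 1) (nat_lit 4) (nat_lit 505) (nat_lit 350) (nat_lit 345))) (XT.nd (nat_lit 78) (nat_lit 0) (nat_lit 0) (XT.lf (nat_lit 0) (nat_lit 590577470709) (nat_lit 152) (nat_lit 236675532360) (nat_lit 0) (nat_lit 590512216201) (nat_lit 1) (nat_lit 5) (nat_lit 3) (nat_lit 4) (nat_lit 1) (nat_lit 4) (nat_lit 506) (nat_lit 350) (nat_lit 344)) (XT.lf (nat_lit 0) (nat_lit 642859657657) (nat_lit 152) (nat_lit 245288103920)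 (nat_lit 0) (nat_lit 642786166858) (nat_lit 1) (nat_lit 5) (nat_lit 3) (nat_lit 4) (nat_lit 1) (nat_lit 4) (nat_lit 507) (nat_lit 350) (nat_lit 343))))) (XT.nd (nat_lit 61932) (nat_lit 0) (nat_lit 0) (XT.nd (nat_lit 61776) (nat_lit 0) (nat_lit 0) (XT.nd (nat_lit 61698) (nat_lit 0) (nat_lit 0) (XT.lf (nat_lit 0) (nat_lit 699119325657) (nat_lit 152) (nat_lit 255008854834) (nat_lit 0) (nat_lit 699038208664) (nat_lit 1) (nat_lit 5) (nat_lit 3) (nat_lit 4) (nat_lit 1) (nat_lit 4) (nat_lit 508) (nat_lit 350) (nat_lit 342)) (XT.lf (nat_lit 0) (nat_lit 141342642275) (nat_lit 152) (nat_lit 101213958001) (nat_lit 0) (nat_lit 141342642275) (nat_lit 1) (nat_lit 5) (nat_lit 3) (nat_lit 4) (nat_lit 1) (nat_lit 4) (nat_lit 498) (nat_lit 351) (nat_lit 351))) (XT.nd (nat_lit 78) (nat_lit 0) (nat_lit 0) (XT.lf (nat_lit 0) (nat_lit 312493887910) (nat_lit 152) (nat_lit 203888247904) (nat_lit 0) (nat_lit 312479772356)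 (nat_lit 1) (nat_lit 5) (nat_lit 3) (nat_lit 4) (nat_lit 1) (nat_lit 4) (nat_lit 499) (nat_lit 351) (nat_lit 350)) (XT.lf (nat_lit 0) (nat_lit 344335684628) (nat_lit 152) (nat_lit 206183796298) (nat_lit 0) (nat_lit 344308499117) (nat_lit 1) (nat_lit 5) (nat_lit 3) (nat_lit 4) (nat_lit 1) (nat_lit 4) (nat_lit 500) (nat_lit 351) (nat_lit 349)))) (XT.nd (nat_lit 156) (nat_lit 0) (nat_lit 0) (XT.nd (nat_lit 78) (nat_lit 0) (nat_lit 0) (XT.lf (nat_lit 0) (nat_lit 378399366835) (nat_lit 152) (nat_lit 209328164435) (nat_lit 0) (nat_lit 378360079511) (nat_lit 1) (nat_lit 5) (nat_lit 3) (nat_lit 4) (nat_lit 1) (nat_lit 4) (nat_lit 501) (nat_lit 351) (nat_lit 348)) (XT.lf (nat_lit 0) (nat_lit 414886793388) (nat_lit 152) (nat_lit 213339985608) (nat_lit 0) (nat_lit 414836300682) (nat_lit 1) (nat_lit 5) (nat_lit 3) (nat_lit 4) (nat_lit 1) (nat_lit 4) (nat_lit 502) (nat_lit 351) (nat_lit 347))) (XT.nd (nat_lit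 78) (nat_lit 0) (nat_lit 0) (XT.lf (nat_lit 0) (nat_lit 454014186073) (nat_lit 152) (nat_lit 218243033570) (nat_lit 0) (nat_lit 453953318014) (nat_lit 1) (nat_lit 5) (nat_lit 3) (nat_lit 4) (nat_lit 1) (nat_lit 4) (nat_lit 503) (nat_lit 351) (nat_lit 346)) (XT.lf (nat_lit 0) (nat_lit 496013410923) (nat_lit 152) (nat_lit 224066363422) (nat_lit 0) (nat_lit 495942936054) (nat_lit 1) (nat_lit 5) (nat_lit 3) (nat_lit 4) (nat_lit 1) (nat_lit 4) (nat_lit 504) (nat_lit 351) (nat_lit 345))))))) (XT.nd (nat_lit 62712) (nat_lit 0) (nat_lit 0) (XT.nd (nat_lit 62088) (nat_lit 0) (nat_lit 0) (XT.nd (nat_lit 61776) (nat_lit 0) (nat_lit 0) (XT.nd (nat_lit 156) (nat_lit 0) (nat_lit 0) (XT.nd (nat_lit 78) (nat_lit 0) (nat_lit 0) (XT.lf (nat_lit 0) (nat_lit 541133352231) (nat_lit 152) (nat_lit 230844483784) (nat_lit 0) (nat_lit 541053982169) (nat_lit 1) (nat_lit 5) (nat_lit 3) (nat_lit 4) (nat_lit 1) (nat_lit 4)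 (nat_lit 505) (nat_lit 351) (nat_lit 344)) (XT.lf (nat_lit 0) (nat_lit 589641387428) (nat_lit 152) (nat_lit 238617561296) (nat_lit 0) (nat_lit 589553781076) (nat_lit 1) (nat_lit 5) (nat_lit 3) (nat_lit 4) (nat_lit 1) (nat_lit 4) (nat_lit 506) (nat_lit 351) (nat_lit 343))) (XT.nd (nat_lit 78) (nat_lit 0) (nat_lit 0) (XT.lf (nat_lit 0) (nat_lit 641824971538) (nat_lit 152) (nat_lit 247431658640) (nat_lit 0) (nat_lit 641729738991) (nat_lit 1) (nat_lit 5) (nat_lit 3) (nat_lit 4) (nat_lit 1) (nat_lit 4) (nat_lit 507) (nat_lit 351) (nat_lit 342)) (XT.lf (nat_lit 0) (nat_lit 697993340614) (nat_lit 152) (nat_lit 257339007503) (nat_lit 0) (nat_lit 697891046776) (nat_lit 1) (nat_lit 5) (nat_lit 3) (nat_lit 4) (nat_lit 1) (nat_lit 4) (nat_lit 508) (nat_lit 351) (nat_lit 341)))) (XT.nd (nat_lit 156) (nat_lit 0) (nat_lit 0) (XT.nd (nat_lit 78) (nat_lit 0) (nat_lit 0) (XT.lf (nat_lit 0) (nat_lit 114342218858)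 (nat_lit 152) (nat_lit 100790166788) (nat_lit 0) (nat_lit 114342218858) (nat_lit 1) (nat_lit 5) (nat_lit 3) (nat_lit 4) (nat_lit 1) (nat_lit 4) (nat_lit 496) (nat_lit 352) (nat_lit 352)) (XT.lf (nat_lit 0) (nat_lit 254748475775) (nat_lit 152) (nat_lit 201794146775) (nat_lit 0) (nat_lit 254733230977) (nat_lit 1) (nat_lit 5) (nat_lit 3) (nat_lit 4) (nat_lit 1) (nat_lit 4) (nat_lit 497) (nat_lit 352) (nat_lit 351))) (XT.nd (nat_lit 78) (nat_lit 0) (nat_lit 0) (XT.lf (nat_lit 0) (nat_lit 282518022378) (nat_lit 152) (nat_lit 202800926164) (nat_lit 0) (nat_lit 282488662025) (nat_lit 1) (nat_lit 5) (nat_lit 3) (nat_lit 4) (nat_lit 1) (nat_lit 4) (nat_lit 498) (nat_lit 352) (nat_lit 350)) (XT.lf (nat_lit 0) (nat_lit 312157637799) (nat_lit 152) (nat_lit 204606637845) (nat_lit 0) (nat_lit 312115207489) (nat_lit 1) (nat_lit 5) (nat_lit 3) (nat_lit 4) (nat_lit 1) (nat_lit 4) (nat_lit 499) (nat_lit 352) (nat_lit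 349))))) (XT.nd (nat_lit 312) (nat_lit 0) (nat_lit 0) (XT.nd (nat_lit 156) (nat_lit 0) (nat_lit 0) (XT.nd (nat_lit 78) (nat_lit 0) (nat_lit 0) (XT.lf (nat_lit 0) (nat_lit 343842964206) (nat_lit 152) (nat_lit 207221982331) (nat_lit 0) (nat_lit 343788432083) (nat_lit 1) (nat_lit 5) (nat_lit 3) (nat_lit 4) (nat_lit 1) (nat_lit 4) (nat_lit 500) (nat_lit 352) (nat_lit 348)) (XT.lf (nat_lit 0) (nat_lit 377761766494) (nat_lit 152) (nat_lit 210662457960) (nat_lit 0) (nat_lit 377696028990) (nat_lit 1) (nat_lit 5) (nat_lit 3) (nat_lit 4) (nat_lit 1) (nat_lit 4) (nat_lit 501) (nat_lit 352) (nat_lit 347))) (XT.nd (nat_lit 78) (nat_lit 0) (nat_lit 0) (XT.lf (nat_lit 0) (nat_lit 414115044974) (nat_lit 152) (nat_lit 214948452736) (nat_lit 0) (nat_lit 414038932116) (nat_lit 1) (nat_lit 5) (nat_lit 3) (nat_lit 4) (nat_lit 1) (nat_lit 4) (nat_lit 502) (nat_lit 352) (nat_lit 346)) (XT.lf (nat_lit 0) (nat_lit 453118226481)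 (nat_lit 152) (nat_lit 220105365147) (nat_lit 0) (nat_lit 453032506814) (nat_lit 1) (nat_lit 5) (nat_lit 3) (nat_lit 4) (nat_lit 1) (nat_lit 4) (nat_lit 503) (nat_lit 352) (nat_lit 345)))) (XT.nd (nat_lit 156) (nat_lit 0) (nat_lit 0) (XT.nd (nat_lit 78) (nat_lit 0) (nat_lit 0) (XT.lf (nat_lit 0) (nat_lit 495002440980) (nat_lit 152) (nat_lit 226163754673) (nat_lit 0) (nat_lit 494907826119) (nat_lit 1) (nat_lit 5) (nat_lit 3) (nat_lit 4) (nat_lit 1) (nat_lit 4) (nat_lit 504) (nat_lit 352) (nat_lit 344)) (XT.lf (nat_lit 0) (nat_lit 540015891223) (nat_lit 152) (nat_lit 233159522882) (nat_lit 0) (nat_lit 539913040072) (nat_lit 1) (nat_lit 5) (nat_lit 3) (nat_lit 4) (nat_lit 1) (nat_lit 4) (nat_lit 505) (nat_lit 352) (nat_lit 343))) (XT.nd (nat_lit 78) (nat_lit 0) (nat_lit 0) (XT.lf (nat_lit 0) (nat_lit 588425323582) (nat_lit 152) (nat_lit 241134126178) (nat_lit 0) (nat_lit 588314846237) (nat_lit 1)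 (nat_lit 5) (nat_lit 3) (nat_lit 4) (nat_lit 1) (nat_lit 4) (nat_lit 506) (nat_lit 352) (nat_lit 342)) (XT.lf (nat_lit 0) (nat_lit 640517608768) (nat_lit 152) (nat_lit 250134821470) (nat_lit 0) (nat_lit 640400070131) (nat_lit 1) (nat_lit 5) (nat_lit 3) (nat_lit 4) (nat_lit 1) (nat_lit 4) (nat_lit 507) (nat_lit 352) (nat_lit 341)))))) (XT.nd (nat_lit 61932) (nat_lit 0) (nat_lit 0) (XT.nd (nat_lit 61620) (nat_lit 0) (nat_lit 0) (XT.nd (nat_lit 61464) (nat_lit 0) (nat_lit 0) (XT.nd (nat_lit 61386) (nat_lit 0) (nat_lit 0) (XT.lf (nat_lit 0) (nat_lit 696601441803) (nat_lit 152) (nat_lit 260214946211) (nat_lit 0) (nat_lit 696477364933) (nat_lit 1) (nat_lit 5) (nat_lit 3) (nat_lit 4) (nat_lit 1) (nat_lit 4) (nat_lit 508) (nat_lit 352) (nat_lit 340)) (XT.lf (nat_lit 0) (nat_lit 90646802471) (nat_lit 152) (nat_lit 101548075045) (nat_lit 0) (nat_lit 90646802471) (nat_lit 1) (nat_lit 5) (nat_lit 3) (nat_lit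 4) (nat_lit 1) (nat_lit 4) (nat_lit 494) (nat_lit 353) (nat_lit 353))) (XT.nd (nat_lit 78) (nat_lit 0) (nat_lit 0) (XT.lf (nat_lit 0) (nat_lit 204187919023) (nat_lit 152) (nat_lit 202158219530) (nat_lit 0) (nat_lit 204171454641) (nat_lit 1) (nat_lit 5) (nat_lit 3) (nat_lit 4) (nat_lit 1) (nat_lit 4) (nat_lit 495) (nat_lit 353) (nat_lit 352)) (XT.lf (nat_lit 0) (nat_lit 228503794568) (nat_lit 152) (nat_lit 201983184552) (nat_lit 0) (nat_lit 228472085388) (nat_lit 1) (nat_lit 5) (nat_lit 3) (nat_lit 4) (nat_lit 1) (nat_lit 4) (nat_lit 496) (nat_lit 353) (nat_lit 351)))) (XT.nd (nat_lit 156) (nat_lit 0) (nat_lit 0) (XT.nd (nat_lit 78) (nat_lit 0) (nat_lit 0) (XT.lf (nat_lit 0) (nat_lit 254385325656) (nat_lit 152) (nat_lit 202570007911) (nat_lit 0) (nat_lit 254339500921) (nat_lit 1) (nat_lit 5) (nat_lit 3) (nat_lit 4) (nat_lit 1) (nat_lit 4) (nat_lit 497) (nat_lit 353) (nat_lit 350)) (XT.lf (nat_lit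 0) (nat_lit 281985884321) (nat_lit 152) (nat_lit 203922167079) (nat_lit 0) (nat_lit 281926989629) (nat_lit 1) (nat_lit 5) (nat_lit 3) (nat_lit 4) (nat_lit 1) (nat_lit 4) (nat_lit 498) (nat_lit 353) (nat_lit 349))) (XT.nd (nat_lit 78) (nat_lit 0) (nat_lit 0) (XT.lf (nat_lit 0) (nat_lit 311469029431) (nat_lit 152) (nat_lit 206047674851) (nat_lit 0) (nat_lit 311398032926) (nat_lit 1) (nat_lit 5) (nat_lit 3) (nat_lit 4) (nat_lit 1) (nat_lit 4) (nat_lit 499) (nat_lit 353) (nat_lit 348)) (XT.lf (nat_lit 0) (nat_lit 343009475919) (nat_lit 152) (nat_lit 208959126830) (nat_lit 0) (nat_lit 342927274032) (nat_lit 1) (nat_lit 5) (nat_lit 3) (nat_lit 4) (nat_lit 1) (nat_lit 4) (nat_lit 500) (nat_lit 353) (nat_lit 347))))) (XT.nd (nat_lit 312) (nat_lit 0) (nat_lit 0) (XT.nd (nat_lit 156) (nat_lit 0) (nat_lit 0) (XT.nd (nat_lit 78) (nat_lit 0) (nat_lit 0) (XT.lf (nat_lit 0) (nat_lit 376794130134) (nat_lit 152)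 (nat_lit 212673776064) (nat_lit 0) (nat_lit 376701552894) (nat_lit 1) (nat_lit 5) (nat_lit 3) (nat_lit 4) (nat_lit 1) (nat_lit 4) (nat_lit 501) (nat_lit 353) (nat_lit 346)) (XT.lf (nat_lit 0) (nat_lit 413023197436) (nat_lit 152) (nat_lit 217213635288) (nat_lit 0) (nat_lit 412921013386) (nat_lit 1) (nat_lit 5) (nat_lit 3) (nat_lit 4) (nat_lit 1) (nat_lit 4) (nat_lit 502) (nat_lit 353) (nat_lit 345))) (XT.nd (nat_lit 78) (nat_lit 0) (nat_lit 0) (XT.lf (nat_lit 0) (nat_lit 451911368592) (nat_lit 152) (nat_lit 222605607373) (nat_lit 0) (nat_lit 451800289350) (nat_lit 1) (nat_lit 5) (nat_lit 3) (nat_lit 4) (nat_lit 1) (nat_lit 4) (nat_lit 503) (nat_lit 353) (nat_lit 344)) (XT.lf (nat_lit 0) (nat_lit 493689092026) (nat_lit 152) (nat_lit 228881644746) (nat_lit 0) (nat_lit 493569776493) (nat_lit 1) (nat_lit 5) (nat_lit 3) (nat_lit 4) (nat_lit 1) (nat_lit 4) (nat_lit 504) (nat_lit 353) (nat_lit 343))))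 (XT.nd (nat_lit 156) (nat_lit 0) (nat_lit 0) (XT.nd (nat_lit 78) (nat_lit 0) (nat_lit 0) (XT.lf (nat_lit 0) (nat_lit 538603939431) (nat_lit 152) (nat_lit 236078938738) (nat_lit 0) (nat_lit 538476997703) (nat_lit 1) (nat_lit 5) (nat_lit 3) (nat_lit 4) (nat_lit 1) (nat_lit 4) (nat_lit 505) (nat_lit 353) (nat_lit 342)) (XT.lf (nat_lit 0) (nat_lit 586922072866) (nat_lit 152) (nat_lit 244240139982) (nat_lit 0) (nat_lit 586788069847) (nat_lit 1) (nat_lit 5) (nat_lit 3) (nat_lit 4) (nat_lit 1) (nat_lit 4) (nat_lit 506) (nat_lit 353) (nat_lit 341))) (XT.nd (nat_lit 78) (nat_lit 0) (nat_lit 0) (XT.lf (nat_lit 0) (nat_lit 638929822010) (nat_lit 152) (nat_lit 253413611152) (nat_lit 0) (nat_lit 638789280759) (nat_lit 1) (nat_lit 5) (nat_lit 3) (nat_lit 4) (nat_lit 1) (nat_lit 4) (nat_lit 507) (nat_lit 353) (nat_lit 340)) (XT.lf (nat_lit 0) (nat_lit 694935380933) (nat_lit 152) (nat_lit 263653713557) (nat_lit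 0) (nat_lit 694788785763) (nat_lit 1) (nat_lit 5) (nat_lit 3) (nat_lit 4) (nat_lit 1) (nat_lit 4) (nat_lit 508) (nat_lit 353) (nat_lit 339))))))))
noncomputable def xc1 : XT := (XT.nd (nat_lit 63414) (nat_lit 0) (nat_lit 0) (XT.nd (nat_lit 1170) (nat_lit 0) (nat_lit 0) (XT.nd (nat_lit 546) (nat_lit 0) (nat_lit 0) (XT.nd (nat_lit 234) (nat_lit 0) (nat_lit 0) (XT.nd (nat_lit 78) (nat_lit 0) (nat_lit 0) (XT.lf (nat_lit 0) (nat_lit 69741144495) (nat_lit 152) (nat_lit 103408799404) (nat_lit 0) (nat_lit 69741144495) (nat_lit 1) (nat_lit 5) (nat_lit 3) (nat_lit 4) (nat_lit 1) (nat_lit 4) (nat_lit 492) (nat_lit 354) (nat_lit 354)) (XT.nd (nat_lit 78) (nat_lit 0) (nat_lit 0) (XT.lf (nat_lit 0) (nat_lit 159702963849) (nat_lit 152) (nat_lit 204802534340) (nat_lit 0) (nat_lit 159685182317) (nat_lit 1) (nat_lit 5) (nat_lit 3) (nat_lit 4) (nat_lit 1) (nat_lit 4) (nat_lit 493) (nat_lit 354) (nat_lit 353)) (XT.lf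 (nat_lit 0) (nat_lit 181098510343) (nat_lit 152) (nat_lit 203531229143) (nat_lit 0) (nat_lit 181064264428) (nat_lit 1) (nat_lit 5) (nat_lit 3) (nat_lit 4) (nat_lit 1) (nat_lit 4) (nat_lit 494) (nat_lit 354) (nat_lit 352)))) (XT.nd (nat_lit 156) (nat_lit 0) (nat_lit 0) (XT.nd (nat_lit 78) (nat_lit 0) (nat_lit 0) (XT.lf (nat_lit 0) (nat_lit 203795716894) (nat_lit 152) (nat_lit 202996149557) (nat_lit 0) (nat_lit 203746226180) (nat_lit 1) (nat_lit 5) (nat_lit 3) (nat_lit 4) (nat_lit 1) (nat_lit 4) (nat_lit 495) (nat_lit 354) (nat_lit 351)) (XT.lf (nat_lit 0) (nat_lit 227929085468) (nat_lit 152) (nat_lit 203194124740) (nat_lit 0) (nat_lit 227865479200) (nat_lit 1) (nat_lit 5) (nat_lit 3) (nat_lit 4) (nat_lit 1) (nat_lit 4) (nat_lit 496) (nat_lit 354) (nat_lit 350))) (XT.nd (nat_lit 78) (nat_lit 0) (nat_lit 0) (XT.lf (nat_lit 0) (nat_lit 253641628618) (nat_lit 152) (nat_lit 204126327878) (nat_lit 0)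 (nat_lit 253564952393) (nat_lit 1) (nat_lit 5) (nat_lit 3) (nat_lit 4) (nat_lit 1) (nat_lit 4) (nat_lit 497) (nat_lit 354) (nat_lit 349)) (XT.lf (nat_lit 0) (nat_lit 281085716971) (nat_lit 152) (nat_lit 205798283138) (nat_lit 0) (nat_lit 280996938934) (nat_lit 1) (nat_lit 5) (nat_lit 3) (nat_lit 4) (nat_lit 1) (nat_lit 4) (nat_lit 498) (nat_lit 354) (nat_lit 348))))) (XT.nd (nat_lit 312) (nat_lit 0) (nat_lit 0) (XT.nd (nat_lit 156) (nat_lit 0) (nat_lit 0) (XT.nd (nat_lit 78) (nat_lit 0) (nat_lit 0) (XT.lf (nat_lit 0) (nat_lit 310423982162) (nat_lit 152) (nat_lit 208219898403) (nat_lit 0) (nat_lit 310323998743) (nat_lit 1) (nat_lit 5) (nat_lit 3) (nat_lit 4) (nat_lit 1) (nat_lit 4) (nat_lit 499) (nat_lit 354) (nat_lit 347)) (XT.lf (nat_lit 0) (nat_lit 341830280577) (nat_lit 152) (nat_lit 211405523986) (nat_lit 0) (nat_lit 341719921804) (nat_lit 1) (nat_lit 5) (nat_lit 3) (nat_lit 4) (nat_lit 1)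 (nat_lit 4) (nat_lit 500) (nat_lit 354) (nat_lit 346))) (XT.nd (nat_lit 78) (nat_lit 0) (nat_lit 0) (XT.lf (nat_lit 0) (nat_lit 375490723614) (nat_lit 152) (nat_lit 215374037667) (nat_lit 0) (nat_lit 375370758032) (nat_lit 1) (nat_lit 5) (nat_lit 3) (nat_lit 4) (nat_lit 1) (nat_lit 4) (nat_lit 501) (nat_lit 354) (nat_lit 345)) (XT.lf (nat_lit 0) (nat_lit 411604780565) (nat_lit 152) (nat_lit 220148956566) (nat_lit 0) (nat_lit 411475919790) (nat_lit 1) (nat_lit 5) (nat_lit 3) (nat_lit 4) (nat_lit 1) (nat_lit 4) (nat_lit 502) (nat_lit 354) (nat_lit 344)))) (XT.nd (nat_lit 156) (nat_lit 0) (nat_lit 0) (XT.nd (nat_lit 78) (nat_lit 0) (nat_lit 0) (XT.lf (nat_lit 0) (nat_lit 450386460657) (nat_lit 152) (nat_lit 225758576498) (nat_lit 0) (nat_lit 450249363591) (nat_lit 1) (nat_lit 5) (nat_lit 3) (nat_lit 4) (nat_lit 1) (nat_lit 4) (nat_lit 503) (nat_lit 354) (nat_lit 343)) (XT.lf (nat_lit 0) (nat_lit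 492065581252) (nat_lit 152) (nat_lit 232236139654) (nat_lit 0) (nat_lit 491920857992) (nat_lit 1) (nat_lit 5) (nat_lit 3) (nat_lit 4) (nat_lit 1) (nat_lit 4) (nat_lit 504) (nat_lit 354) (nat_lit 342))) (XT.nd (nat_lit 78) (nat_lit 0) (nat_lit 0) (XT.lf (nat_lit 0) (nat_lit 536889129733) (nat_lit 152) (nat_lit 239620031595) (nat_lit 0) (nat_lit 536737345181) (nat_lit 1) (nat_lit 5) (nat_lit 3) (nat_lit 4) (nat_lit 1) (nat_lit 4) (nat_lit 505) (nat_lit 354) (nat_lit 341)) (XT.lf (nat_lit 0) (nat_lit 585122727127) (nat_lit 152) (nat_lit 247954008717) (nat_lit 0) (nat_lit 584964404342) (nat_lit 1) (nat_lit 5) (nat_lit 3) (nat_lit 4) (nat_lit 1) (nat_lit 4) (nat_lit 506) (nat_lit 354) (nat_lit 340)))))) (XT.nd (nat_lit 61620) (nat_lit 0) (nat_lit 0) (XT.nd (nat_lit 61308) (nat_lit 0) (nat_lit 0) (XT.nd (nat_lit 61152) (nat_lit 0) (nat_lit 0) (XT.nd (nat_lit 78) (nat_lit 0) (nat_lit 0) (XT.lf (nat_lit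 0) (nat_lit 637052202160) (nat_lit 152) (nat_lit 257287457551) (nat_lit 0) (nat_lit 636887825456) (nat_lit 1) (nat_lit 5) (nat_lit 3) (nat_lit 4) (nat_lit 1) (nat_lit 4) (nat_lit 507) (nat_lit 354) (nat_lit 339)) (XT.lf (nat_lit 0) (nat_lit 692985285053) (nat_lit 152) (nat_lit 267675687423) (nat_lit 0) (nat_lit 692815302869) (nat_lit 1) (nat_lit 5) (nat_lit 3) (nat_lit 4) (nat_lit 1) (nat_lit 4) (nat_lit 508) (nat_lit 354) (nat_lit 338))) (XT.nd (nat_lit 78) (nat_lit 0) (nat_lit 0) (XT.lf (nat_lit 0) (nat_lit 51180002092) (nat_lit 152) (nat_lit 106311886034) (nat_lit 0) (nat_lit 51180002092) (nat_lit 1) (nat_lit 5) (nat_lit 3) (nat_lit 4) (nat_lit 1) (nat_lit 4) (nat_lit 490) (nat_lit 355) (nat_lit 355)) (XT.lf (nat_lit 0) (nat_lit 120335863599) (nat_lit 152) (nat_lit 209588363672) (nat_lit 0) (nat_lit 120316659543) (nat_lit 1) (nat_lit 5) (nat_lit 3) (nat_lit 4) (nat_lit 1) (nat_lit 4) (nat_lit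 491) (nat_lit 355) (nat_lit 354)))) (XT.nd (nat_lit 156) (nat_lit 0) (nat_lit 0) (XT.nd (nat_lit 78) (nat_lit 0) (nat_lit 0) (XT.lf (nat_lit 0) (nat_lit 139271586823) (nat_lit 152) (nat_lit 207287484186) (nat_lit 0) (nat_lit 139234601234) (nat_lit 1) (nat_lit 5) (nat_lit 3) (nat_lit 4) (nat_lit 1) (nat_lit 4) (nat_lit 492) (nat_lit 355) (nat_lit 353)) (XT.lf (nat_lit 0) (nat_lit 159279385550) (nat_lit 152) (nat_lit 205707498769) (nat_lit 0) (nat_lit 159225935579) (nat_lit 1) (nat_lit 5) (nat_lit 3) (nat_lit 4) (nat_lit 1) (nat_lit 4) (nat_lit 493) (nat_lit 355) (nat_lit 352))) (XT.nd (nat_lit 78) (nat_lit 0) (nat_lit 0) (XT.lf (nat_lit 0) (nat_lit 180477824514) (nat_lit 152) (nat_lit 204839044547) (nat_lit 0) (nat_lit 180409129745) (nat_lit 1) (nat_lit 5) (nat_lit 3) (nat_lit 4) (nat_lit 1) (nat_lit 4) (nat_lit 494) (nat_lit 355) (nat_lit 351)) (XT.lf (nat_lit 0) (nat_lit 202992524093) (nat_lit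 152) (nat_lit 204676975122) (nat_lit 0) (nat_lit 202909713770) (nat_lit 1) (nat_lit 5) (nat_lit 3) (nat_lit 4) (nat_lit 1) (nat_lit 4) (nat_lit 495) (nat_lit 355) (nat_lit 350))))) (XT.nd (nat_lit 312) (nat_lit 0) (nat_lit 0) (XT.nd (nat_lit 156) (nat_lit 0) (nat_lit 0) (XT.nd (nat_lit 78) (nat_lit 0) (nat_lit 0) (XT.lf (nat_lit 0) (nat_lit 226956904730) (nat_lit 152) (nat_lit 205220330084) (nat_lit 0) (nat_lit 226861024449) (nat_lit 1) (nat_lit 5) (nat_lit 3) (nat_lit 4) (nat_lit 1) (nat_lit 4) (nat_lit 496) (nat_lit 355) (nat_lit 349)) (XT.lf (nat_lit 0) (nat_lit 252512977568) (nat_lit 152) (nat_lit 206472329314) (nat_lit 0) (nat_lit 252404995475) (nat_lit 1) (nat_lit 5) (nat_lit 3) (nat_lit 4) (nat_lit 1) (nat_lit 4) (nat_lit 497) (nat_lit 355) (nat_lit 348))) (XT.nd (nat_lit 78) (nat_lit 0) (nat_lit 0) (XT.lf (nat_lit 0) (nat_lit 279812186003) (nat_lit 152) (nat_lit 208440392066) (nat_lit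 0) (nat_lit 279692998528) (nat_lit 1) (nat_lit 5) (nat_lit 3) (nat_lit 4) (nat_lit 1) (nat_lit 4) (nat_lit 498) (nat_lit 355) (nat_lit 347)) (XT.lf (nat_lit 0) (nat_lit 309016303121) (nat_lit 152) (nat_lit 211136180935) (nat_lit 0) (nat_lit 308886740292) (nat_lit 1) (nat_lit 5) (nat_lit 3) (nat_lit 4) (nat_lit 1) (nat_lit 4) (nat_lit 499) (nat_lit 355) (nat_lit 346)))) (XT.nd (nat_lit 156) (nat_lit 0) (nat_lit 0) (XT.nd (nat_lit 78) (nat_lit 0) (nat_lit 0) (XT.lf (nat_lit 0) (nat_lit 340298390358) (nat_lit 152) (nat_lit 214575670966) (nat_lit 0) (nat_lit 340159220720) (nat_lit 1) (nat_lit 5) (nat_lit 3) (nat_lit 4) (nat_lit 1) (nat_lit 4) (nat_lit 500) (nat_lit 355) (nat_lit 345)) (XT.lf (nat_lit 0) (nat_lit 373843823044) (nat_lit 152) (nat_lit 218779244322) (nat_lit 0) (nat_lit 373695758213) (nat_lit 1) (nat_lit 5) (nat_lit 3) (nat_lit 4) (nat_lit 1) (nat_lit 4) (nat_lit 501) (nat_lit 355) (nat_lit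 344))) (XT.nd (nat_lit 78) (nat_lit 0) (nat_lit 0) (XT.lf (nat_lit 0) (nat_lit 409851388930) (nat_lit 152) (nat_lit 223771811068) (nat_lit 0) (nat_lit 409695087809) (nat_lit 1) (nat_lit 5) (nat_lit 3) (nat_lit 4) (nat_lit 1) (nat_lit 4) (nat_lit 502) (nat_lit 355) (nat_lit 343)) (XT.lf (nat_lit 0) (nat_lit 448534466183) (nat_lit 152) (nat_lit 229582956783) (nat_lit 0) (nat_lit 448370538867) (nat_lit 1) (nat_lit 5) (nat_lit 3) (nat_lit 4) (nat_lit 1) (nat_lit 4) (nat_lit 503) (nat_lit 355) (nat_lit 342))))))) (XT.nd (nat_lit 62088) (nat_lit 0) (nat_lit 0) (XT.nd (nat_lit 61464) (nat_lit 0) (nat_lit 0) (XT.nd (nat_lit 312) (nat_lit 0) (nat_lit 0) (XT.nd (nat_lit 156) (nat_lit 0) (nat_lit 0) (XT.nd (nat_lit 78) (nat_lit 0) (nat_lit 0) (XT.lf (nat_lit 0) (nat_lit 490122287854) (nat_lit 152) (nat_lit 236247117887) (nat_lit 0) (nat_lit 489951299247) (nat_lit 1) (nat_lit 5) (nat_lit 3) (nat_lit 4) (nat_lit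 1) (nat_lit 4) (nat_lit 504) (nat_lit 355) (nat_lit 341)) (XT.lf (nat_lit 0) (nat_lit 534861300294) (nat_lit 152) (nat_lit 243803785706) (nat_lit 0) (nat_lit 534683773454) (nat_lit 1) (nat_lit 5) (nat_lit 3) (nat_lit 4) (nat_lit 1) (nat_lit 4) (nat_lit 505) (nat_lit 355) (nat_lit 340))) (XT.nd (nat_lit 78) (nat_lit 0) (nat_lit 0) (XT.lf (nat_lit 0) (nat_lit 583016623576) (nat_lit 152) (nat_lit 252297740492) (nat_lit 0) (nat_lit 582833042817) (nat_lit 1) (nat_lit 5) (nat_lit 3) (nat_lit 4) (nat_lit 1) (nat_lit 4) (nat_lit 506) (nat_lit 355) (nat_lit 339)) (XT.lf (nat_lit 0) (nat_lit 634873622579) (nat_lit 152) (nat_lit 261779316794) (nat_lit 0) (nat_lit 634684436339) (nat_lit 1) (nat_lit 5) (nat_lit 3) (nat_lit 4) (nat_lit 1) (nat_lit 4) (nat_lit 507) (nat_lit 355) (nat_lit 338)))) (XT.nd (nat_lit 60996) (nat_lit 0) (nat_lit 0) (XT.nd (nat_lit 60918) (nat_lit 0) (nat_lit 0) (XT.lf (nat_lit 0)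 (nat_lit 690739598038) (nat_lit 152) (nat_lit 272304701729) (nat_lit 0) (nat_lit 690545221538) (nat_lit 1) (nat_lit 5) (nat_lit 3) (nat_lit 4) (nat_lit 1) (nat_lit 4) (nat_lit 508) (nat_lit 355) (nat_lit 337)) (XT.lf (nat_lit 0) (nat_lit 34577871084) (nat_lit 152) (nat_lit 110213255537) (nat_lit 0) (nat_lit 34577871084) (nat_lit 1) (nat_lit 5) (nat_lit 3) (nat_lit 4) (nat_lit 1) (nat_lit 4) (nat_lit 488) (nat_lit 356) (nat_lit 356))) (XT.nd (nat_lit 78) (nat_lit 0) (nat_lit 0) (XT.lf (nat_lit 0) (nat_lit 85258225349) (nat_lit 152) (nat_lit 216411696984) (nat_lit 0) (nat_lit 85237484969) (nat_lit 1) (nat_lit 5) (nat_lit 3) (nat_lit 4) (nat_lit 1) (nat_lit 4) (nat_lit 489) (nat_lit 356) (nat_lit 355)) (XT.lf (nat_lit 0) (nat_lit 102132445844) (nat_lit 152) (nat_lit 213131248276) (nat_lit 0) (nat_lit 102092501408) (nat_lit 1) (nat_lit 5) (nat_lit 3) (nat_lit 4) (nat_lit 1) (nat_lit 4) (nat_lit 490)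 (nat_lit 356) (nat_lit 354))))) (XT.nd (nat_lit 312) (nat_lit 0) (nat_lit 0) (XT.nd (nat_lit 156) (nat_lit 0) (nat_lit 0) (XT.nd (nat_lit 78) (nat_lit 0) (nat_lit 0) (XT.lf (nat_lit 0) (nat_lit 119878399035) (nat_lit 152) (nat_lit 210565725255) (nat_lit 0) (nat_lit 119820673067) (nat_lit 1) (nat_lit 5) (nat_lit 3) (nat_lit 4) (nat_lit 1) (nat_lit 4) (nat_lit 491) (nat_lit 356) (nat_lit 353)) (XT.lf (nat_lit 0) (nat_lit 138601246127) (nat_lit 152) (nat_lit 208699924821) (nat_lit 0) (nat_lit 138527055777) (nat_lit 1) (nat_lit 5) (nat_lit 3) (nat_lit 4) (nat_lit 1) (nat_lit 4) (nat_lit 492) (nat_lit 356) (nat_lit 352))) (XT.nd (nat_lit 78) (nat_lit 0) (nat_lit 0) (XT.lf (nat_lit 0) (nat_lit 158411937325) (nat_lit 152) (nat_lit 207522790379) (nat_lit 0) (nat_lit 158322502176) (nat_lit 1) (nat_lit 5) (nat_lit 3) (nat_lit 4) (nat_lit 1) (nat_lit 4) (nat_lit 493) (nat_lit 356) (nat_lit 351)) (XT.lf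 (nat_lit 0) (nat_lit 179427869317) (nat_lit 152) (nat_lit 207027346318) (nat_lit 0) (nat_lit 179324318614) (nat_lit 1) (nat_lit 5) (nat_lit 3) (nat_lit 4) (nat_lit 1) (nat_lit 4) (nat_lit 494) (nat_lit 356) (nat_lit 350)))) (XT.nd (nat_lit 156) (nat_lit 0) (nat_lit 0) (XT.nd (nat_lit 78) (nat_lit 0) (nat_lit 0) (XT.lf (nat_lit 0) (nat_lit 201773580959) (nat_lit 152) (nat_lit 207210656672) (nat_lit 0) (nat_lit 201656960298) (nat_lit 1) (nat_lit 5) (nat_lit 3) (nat_lit 4) (nat_lit 1) (nat_lit 4) (nat_lit 495) (nat_lit 356) (nat_lit 349)) (XT.lf (nat_lit 0) (nat_lit 225581491283) (nat_lit 152) (nat_lit 208073807726) (nat_lit 0) (nat_lit 225452768810) (nat_lit 1) (nat_lit 5) (nat_lit 3) (nat_lit 4) (nat_lit 1) (nat_lit 4) (nat_lit 496) (nat_lit 356) (nat_lit 348))) (XT.nd (nat_lit 78) (nat_lit 0) (nat_lit 0) (XT.lf (nat_lit 0) (nat_lit 250992684203) (nat_lit 152) (nat_lit 209621914448) (nat_lit 0)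 (nat_lit 250852756348) (nat_lit 1) (nat_lit 5) (nat_lit 3) (nat_lit 4) (nat_lit 1) (nat_lit 4) (nat_lit 497) (nat_lit 356) (nat_lit 347)) (XT.lf (nat_lit 0) (nat_lit 278157744565) (nat_lit 152) (nat_lit 211864150805) (nat_lit 0) (nat_lit 278007441357) (nat_lit 1) (nat_lit 5) (nat_lit 3) (nat_lit 4) (nat_lit 1) (nat_lit 4) (nat_lit 498) (nat_lit 356) (nat_lit 346)))))) (XT.nd (nat_lit 624) (nat_lit 0) (nat_lit 0) (XT.nd (nat_lit 312) (nat_lit 0) (nat_lit 0) (XT.nd (nat_lit 156) (nat_lit 0) (nat_lit 0) (XT.nd (nat_lit 78) (nat_lit 0) (nat_lit 0) (XT.lf (nat_lit 0) (nat_lit 307237650505) (nat_lit 152) (nat_lit 214813804122) (nat_lit 0) (nat_lit 307077740488) (nat_lit 1) (nat_lit 5) (nat_lit 3) (nat_lit 4) (nat_lit 1) (nat_lit 4) (nat_lit 499) (nat_lit 356) (nat_lit 345)) (XT.lf (nat_lit 0) (nat_lit 338404727391) (nat_lit 152) (nat_lit 218488353828) (nat_lit 0) (nat_lit 338235922180) (nat_lit 1)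 (nat_lit 5) (nat_lit 3) (nat_lit 4) (nat_lit 1) (nat_lit 4) (nat_lit 500) (nat_lit 356) (nat_lit 344))) (XT.nd (nat_lit 78) (nat_lit 0) (nat_lit 0) (XT.lf (nat_lit 0) (nat_lit 371843669013) (nat_lit 152) (nat_lit 222909575030) (nat_lit 0) (nat_lit 371666627511) (nat_lit 1) (nat_lit 5) (nat_lit 3) (nat_lit 4) (nat_lit 1) (nat_lit 4) (nat_lit 501) (nat_lit 356) (nat_lit 343)) (XT.lf (nat_lit 0) (nat_lit 407752632060) (nat_lit 152) (nat_lit 228103667559) (nat_lit 0) (nat_lit 407567964364) (nat_lit 1) (nat_lit 5) (nat_lit 3) (nat_lit 4) (nat_lit 1) (nat_lit 4) (nat_lit 502) (nat_lit 356) (nat_lit 342)))) (XT.nd (nat_lit 156) (nat_lit 0) (nat_lit 0) (XT.nd (nat_lit 78) (nat_lit 0) (nat_lit 0) (XT.lf (nat_lit 0) (nat_lit 446344410389) (nat_lit 152) (nat_lit 234101411223) (nat_lit 0) (nat_lit 446152681402) (nat_lit 1) (nat_lit 5) (nat_lit 3) (nat_lit 4) (nat_lit 1) (nat_lit 4) (nat_lit 503) (nat_lit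 356) (nat_lit 341)) (XT.lf (nat_lit 0) (nat_lit 487847696020) (nat_lit 152) (nat_lit 240938348205) (nat_lit 0) (nat_lit 487649428800) (nat_lit 1) (nat_lit 5) (nat_lit 3) (nat_lit 4) (nat_lit 1) (nat_lit 4) (nat_lit 504) (nat_lit 356) (nat_lit 340))) (XT.nd (nat_lit 78) (nat_lit 0) (nat_lit 0) (XT.lf (nat_lit 0) (nat_lit 532508434347) (nat_lit 152) (nat_lit 248654993688) (nat_lit 0) (nat_lit 532304113208) (nat_lit 1) (nat_lit 5) (nat_lit 3) (nat_lit 4) (nat_lit 1) (nat_lit 4) (nat_lit 505) (nat_lit 356) (nat_lit 339)) (XT.lf (nat_lit 0) (nat_lit 580591281600) (nat_lit 152) (nat_lit 257297075942) (nat_lit 0) (nat_lit 580381354980) (nat_lit 1) (nat_lit 5) (nat_lit 3) (nat_lit 4) (nat_lit 1) (nat_lit 4) (nat_lit 506) (nat_lit 356) (nat_lit 338))))) (XT.nd (nat_lit 60996) (nat_lit 0) (nat_lit 0) (XT.nd (nat_lit 60840) (nat_lit 0) (nat_lit 0) (XT.nd (nat_lit 78) (nat_lit 0) (nat_lit 0) (XT.lf (nat_lit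 0) (nat_lit 632381173168) (nat_lit 152) (nat_lit 266915807305) (nat_lit 0) (nat_lit 632166056288) (nat_lit 1) (nat_lit 5) (nat_lit 3) (nat_lit 4) (nat_lit 1) (nat_lit 4) (nat_lit 507) (nat_lit 356) (nat_lit 337)) (XT.lf (nat_lit 0) (nat_lit 688185012113) (nat_lit 152) (nat_lit 277568187668) (nat_lit 0) (nat_lit 687965089437) (nat_lit 1) (nat_lit 5) (nat_lit 3) (nat_lit 4) (nat_lit 1) (nat_lit 4) (nat_lit 508) (nat_lit 356) (nat_lit 336))) (XT.nd (nat_lit 78) (nat_lit 0) (nat_lit 0) (XT.lf (nat_lit 0) (nat_lit 19600161149) (nat_lit 152) (nat_lit 115083486950) (nat_lit 0) (nat_lit 19600161149) (nat_lit 1) (nat_lit 5) (nat_lit 3) (nat_lit 4) (nat_lit 1) (nat_lit 4) (nat_lit 486) (nat_lit 357) (nat_lit 357)) (XT.lf (nat_lit 0) (nat_lit 53751973793) (nat_lit 152) (nat_lit 225199482038) (nat_lit 0) (nat_lit 53729574183) (nat_lit 1) (nat_lit 5) (nat_lit 3) (nat_lit 4) (nat_lit 1) (nat_lit 4) (nat_lit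 487) (nat_lit 357) (nat_lit 356)))) (XT.nd (nat_lit 156) (nat_lit 0) (nat_lit 0) (XT.nd (nat_lit 78) (nat_lit 0) (nat_lit 0) (XT.lf (nat_lit 0) (nat_lit 68909979161) (nat_lit 152) (nat_lit 220974585377) (nat_lit 0) (nat_lit 68866839171) (nat_lit 1) (nat_lit 5) (nat_lit 3) (nat_lit 4) (nat_lit 1) (nat_lit 4) (nat_lit 488) (nat_lit 357) (nat_lit 355)) (XT.lf (nat_lit 0) (nat_lit 84764163620) (nat_lit 152) (nat_lit 217467247494) (nat_lit 0) (nat_lit 84701819574) (nat_lit 1) (nat_lit 5) (nat_lit 3) (nat_lit 4) (nat_lit 1) (nat_lit 4) (nat_lit 489) (nat_lit 357) (nat_lit 354))) (XT.nd (nat_lit 78) (nat_lit 0) (nat_lit 0) (XT.lf (nat_lit 0) (nat_lit 101408477893) (nat_lit 152) (nat_lit 214656684162) (nat_lit 0) (nat_lit 101328352314) (nat_lit 1) (nat_lit 5) (nat_lit 3) (nat_lit 4) (nat_lit 1) (nat_lit 4) (nat_lit 490) (nat_lit 357) (nat_lit 353)) (XT.lf (nat_lit 0) (nat_lit 118941554952) (nat_lit 152)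 (nat_lit 212526240194) (nat_lit 0) (nat_lit 118844964991) (nat_lit 1) (nat_lit 5) (nat_lit 3) (nat_lit 4) (nat_lit 1) (nat_lit 4) (nat_lit 491) (nat_lit 357) (nat_lit 352))))))))
noncomputable def xc2 : XT := (XT.nd (nat_lit 62946) (nat_lit 0) (nat_lit 0) (XT.nd (nat_lit 1170) (nat_lit 0) (nat_lit 0) (XT.nd (nat_lit 546) (nat_lit 0) (nat_lit 0) (XT.nd (nat_lit 234) (nat_lit 0) (nat_lit 0) (XT.nd (nat_lit 78) (nat_lit 0) (nat_lit 0) (XT.lf (nat_lit 0) (nat_lit 137467294515) (nat_lit 152) (nat_lit 211063290734) (nat_lit 0) (nat_lit 137355459755) (nat_lit 1) (nat_lit 5) (nat_lit 3) (nat_lit 4) (nat_lit 1) (nat_lit 4) (nat_lit 492) (nat_lit 357) (nat_lit 351)) (XT.nd (nat_lit 78) (nat_lit 0) (nat_lit 0) (XT.lf (nat_lit 0) (nat_lit 157095478740) (nat_lit 152) (nat_lit 210259166454) (nat_lit 0) (nat_lit 156969528427) (nat_lit 1) (nat_lit 5) (nat_lit 3) (nat_lit 4) (nat_lit 1) (nat_lit 4) (nat_lit 493)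 (nat_lit 357) (nat_lit 350)) (XT.lf (nat_lit 0) (nat_lit 177942422795) (nat_lit 152) (nat_lit 210109102172) (nat_lit 0) (nat_lit 177803402524) (nat_lit 1) (nat_lit 5) (nat_lit 3) (nat_lit 4) (nat_lit 1) (nat_lit 4) (nat_lit 494) (nat_lit 357) (nat_lit 349)))) (XT.nd (nat_lit 156) (nat_lit 0) (nat_lit 0) (XT.nd (nat_lit 78) (nat_lit 0) (nat_lit 0) (XT.lf (nat_lit 0) (nat_lit 200131664125) (nat_lit 152) (nat_lit 210612208618) (nat_lit 0) (nat_lit 199980542042) (nat_lit 1) (nat_lit 5) (nat_lit 3) (nat_lit 4) (nat_lit 1) (nat_lit 4) (nat_lit 495) (nat_lit 357) (nat_lit 348)) (XT.lf (nat_lit 0) (nat_lit 223794694531) (nat_lit 152) (nat_lit 211771467164) (nat_lit 0) (nat_lit 223632367066) (nat_lit 1) (nat_lit 5) (nat_lit 3) (nat_lit 4) (nat_lit 1) (nat_lit 4) (nat_lit 496) (nat_lit 357) (nat_lit 347))) (XT.nd (nat_lit 78) (nat_lit 0) (nat_lit 0) (XT.lf (nat_lit 0) (nat_lit 249071739378) (nat_lit 152)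 (nat_lit 213593747491) (nat_lit 0) (nat_lit 248899036559) (nat_lit 1) (nat_lit 5) (nat_lit 3) (nat_lit 4) (nat_lit 1) (nat_lit 4) (nat_lit 497) (nat_lit 357) (nat_lit 346)) (XT.lf (nat_lit 0) (nat_lit 276112588562) (nat_lit 152) (nat_lit 216089848295) (nat_lit 0) (nat_lit 275930278934) (nat_lit 1) (nat_lit 5) (nat_lit 3) (nat_lit 4) (nat_lit 1) (nat_lit 4) (nat_lit 498) (nat_lit 357) (nat_lit 345))))) (XT.nd (nat_lit 312) (nat_lit 0) (nat_lit 0) (XT.nd (nat_lit 156) (nat_lit 0) (nat_lit 0) (XT.nd (nat_lit 78) (nat_lit 0) (nat_lit 0) (XT.lf (nat_lit 0) (nat_lit 305077484151) (nat_lit 152) (nat_lit 219274561287) (nat_lit 0) (nat_lit 304886279330) (nat_lit 1) (nat_lit 5) (nat_lit 3) (nat_lit 4) (nat_lit 1) (nat_lit 4) (nat_lit 499) (nat_lit 357) (nat_lit 344)) (XT.lf (nat_lit 0) (nat_lit 336138069972) (nat_lit 152) (nat_lit 223166758839) (nat_lit 0) (nat_lit 335938628860) (nat_lit 1) (nat_lit 5)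 (nat_lit 3) (nat_lit 4) (nat_lit 1) (nat_lit 4) (nat_lit 500) (nat_lit 357) (nat_lit 343))) (XT.nd (nat_lit 78) (nat_lit 0) (nat_lit 0) (XT.lf (nat_lit 0) (nat_lit 369478408755) (nat_lit 152) (nat_lit 227789505825) (nat_lit 0) (nat_lit 369271341449) (nat_lit 1) (nat_lit 5) (nat_lit 3) (nat_lit 4) (nat_lit 1) (nat_lit 4) (nat_lit 501) (nat_lit 357) (nat_lit 342)) (XT.lf (nat_lit 0) (nat_lit 405296072879) (nat_lit 152) (nat_lit 233170196302) (nat_lit 0) (nat_lit 405081944281) (nat_lit 1) (nat_lit 5) (nat_lit 3) (nat_lit 4) (nat_lit 1) (nat_lit 4) (nat_lit 502) (nat_lit 357) (nat_lit 341)))) (XT.nd (nat_lit 156) (nat_lit 0) (nat_lit 0) (XT.nd (nat_lit 78) (nat_lit 0) (nat_lit 0) (XT.lf (nat_lit 0) (nat_lit 443803315167) (nat_lit 152) (nat_lit 239340715844) (nat_lit 0) (nat_lit 443582648336) (nat_lit 1) (nat_lit 5) (nat_lit 3) (nat_lit 4) (nat_lit 1) (nat_lit 4) (nat_lit 503) (nat_lit 357) (nat_lit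 340)) (XT.lf (nat_lit 0) (nat_lit 485228326685) (nat_lit 152) (nat_lit 246337630490) (nat_lit 0) (nat_lit 485001605936) (nat_lit 1) (nat_lit 5) (nat_lit 3) (nat_lit 4) (nat_lit 1) (nat_lit 4) (nat_lit 504) (nat_lit 357) (nat_lit 339))) (XT.nd (nat_lit 78) (nat_lit 0) (nat_lit 0) (XT.lf (nat_lit 0) (nat_lit 529816588983) (nat_lit 152) (nat_lit 254202403441) (nat_lit 0) (nat_lit 529584262753) (nat_lit 1) (nat_lit 5) (nat_lit 3) (nat_lit 4) (nat_lit 1) (nat_lit 4) (nat_lit 505) (nat_lit 357) (nat_lit 338)) (XT.lf (nat_lit 0) (nat_lit 577832328801) (nat_lit 152) (nat_lit 262981640757) (nat_lit 0) (nat_lit 577594812311) (nat_lit 1) (nat_lit 5) (nat_lit 3) (nat_lit 4) (nat_lit 1) (nat_lit 4) (nat_lit 506) (nat_lit 357) (nat_lit 337)))))) (XT.nd (nat_lit 61152) (nat_lit 0) (nat_lit 0) (XT.nd (nat_lit 60840) (nat_lit 0) (nat_lit 0) (XT.nd (nat_lit 60684) (nat_lit 0) (nat_lit 0) (XT.nd (nat_lit 78) (nat_lit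 0) (nat_lit 0) (XT.lf (nat_lit 0) (nat_lit 629560083855) (nat_lit 152) (nat_lit 272727367548) (nat_lit 0) (nat_lit 629317761569) (nat_lit 1) (nat_lit 5) (nat_lit 3) (nat_lit 4) (nat_lit 1) (nat_lit 4) (nat_lit 507) (nat_lit 357) (nat_lit 336)) (XT.lf (nat_lit 0) (nat_lit 685306388991) (nat_lit 152) (nat_lit 283497336270) (nat_lit 0) (nat_lit 685059616893) (nat_lit 1) (nat_lit 5) (nat_lit 3) (nat_lit 4) (nat_lit 1) (nat_lit 4) (nat_lit 508) (nat_lit 357) (nat_lit 335))) (XT.nd (nat_lit 78) (nat_lit 0) (nat_lit 0) (XT.lf (nat_lit 0) (nat_lit 5955605778) (nat_lit 152) (nat_lit 120906396161) (nat_lit 0) (nat_lit 5955605778) (nat_lit 1) (nat_lit 5) (nat_lit 3) (nat_lit 4) (nat_lit 1) (nat_lit 4) (nat_lit 484) (nat_lit 358) (nat_lit 358)) (XT.lf (nat_lit 0) (nat_lit 25192984249) (nat_lit 152) (nat_lit 235906497953) (nat_lit 0) (nat_lit 25168792670) (nat_lit 1) (nat_lit 5) (nat_lit 3) (nat_lit 4) (nat_lit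 1) (nat_lit 4) (nat_lit 485) (nat_lit 358) (nat_lit 357)))) (XT.nd (nat_lit 156) (nat_lit 0) (nat_lit 0) (XT.nd (nat_lit 78) (nat_lit 0) (nat_lit 0) (XT.lf (nat_lit 0) (nat_lit 38934898251) (nat_lit 152) (nat_lit 230758894148) (nat_lit 0) (nat_lit 38888307061) (nat_lit 1) (nat_lit 5) (nat_lit 3) (nat_lit 4) (nat_lit 1) (nat_lit 4) (nat_lit 486) (nat_lit 358) (nat_lit 356)) (XT.lf (nat_lit 0) (nat_lit 53218387127) (nat_lit 152) (nat_lit 226339476588) (nat_lit 0) (nat_lit 53151055557) (nat_lit 1) (nat_lit 5) (nat_lit 3) (nat_lit 4) (nat_lit 1) (nat_lit 4) (nat_lit 487) (nat_lit 358) (nat_lit 355))) (XT.nd (nat_lit 78) (nat_lit 0) (nat_lit 0) (XT.lf (nat_lit 0) (nat_lit 68128093774) (nat_lit 152) (nat_lit 222622056134) (nat_lit 0) (nat_lit 68041558149) (nat_lit 1) (nat_lit 5) (nat_lit 3) (nat_lit 4) (nat_lit 1) (nat_lit 4) (nat_lit 488) (nat_lit 358) (nat_lit 354)) (XT.lf (nat_lit 0) (nat_lit 83752372010)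 (nat_lit 152) (nat_lit 219584603627) (nat_lit 0) (nat_lit 83648054853) (nat_lit 1) (nat_lit 5) (nat_lit 3) (nat_lit 4) (nat_lit 1) (nat_lit 4) (nat_lit 489) (nat_lit 358) (nat_lit 353))))) (XT.nd (nat_lit 312) (nat_lit 0) (nat_lit 0) (XT.nd (nat_lit 156) (nat_lit 0) (nat_lit 0) (XT.nd (nat_lit 78) (nat_lit 0) (nat_lit 0) (XT.lf (nat_lit 0) (nat_lit 100183810151) (nat_lit 152) (nat_lit 217209119349) (nat_lit 0) (nat_lit 100063028611) (nat_lit 1) (nat_lit 5) (nat_lit 3) (nat_lit 4) (nat_lit 1) (nat_lit 4) (nat_lit 490) (nat_lit 358) (nat_lit 352)) (XT.lf (nat_lit 0) (nat_lit 117519779681) (nat_lit 152) (nat_lit 215481526354) (nat_lit 0) (nat_lit 117383753342) (nat_lit 1) (nat_lit 5) (nat_lit 3) (nat_lit 4) (nat_lit 1) (nat_lit 4) (nat_lit 491) (nat_lit 358) (nat_lit 351))) (XT.nd (nat_lit 78) (nat_lit 0) (nat_lit 0) (XT.lf (nat_lit 0) (nat_lit 135863012271) (nat_lit 152) (nat_lit 214391587056)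 (nat_lit 0) (nat_lit 135712870378) (nat_lit 1) (nat_lit 5) (nat_lit 3) (nat_lit 4) (nat_lit 1) (nat_lit 4) (nat_lit 492) (nat_lit 358) (nat_lit 350)) (XT.lf (nat_lit 0) (nat_lit 155322208560) (nat_lit 152) (nat_lit 213932842555) (nat_lit 0) (nat_lit 155158996710) (nat_lit 1) (nat_lit 5) (nat_lit 3) (nat_lit 4) (nat_lit 1) (nat_lit 4) (nat_lit 493) (nat_lit 358) (nat_lit 349)))) (XT.nd (nat_lit 156) (nat_lit 0) (nat_lit 0) (XT.nd (nat_lit 78) (nat_lit 0) (nat_lit 0) (XT.lf (nat_lit 0) (nat_lit 176012682302) (nat_lit 152) (nat_lit 214102574365) (nat_lit 0) (nat_lit 175837368640) (nat_lit 1) (nat_lit 5) (nat_lit 3) (nat_lit 4) (nat_lit 1) (nat_lit 4) (nat_lit 494) (nat_lit 358) (nat_lit 348)) (XT.lf (nat_lit 0) (nat_lit 198057043714) (nat_lit 152) (nat_lit 214901788303) (nat_lit 0) (nat_lit 197870524670) (nat_lit 1) (nat_lit 5) (nat_lit 3) (nat_lit 4) (nat_lit 1) (nat_lit 4) (nat_lit 495) (nat_lit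 358) (nat_lit 347))) (XT.nd (nat_lit 78) (nat_lit 0) (nat_lit 0) (XT.lf (nat_lit 0) (nat_lit 221585926047) (nat_lit 152) (nat_lit 216335220454) (nat_lit 0) (nat_lit 221389031649) (nat_lit 1) (nat_lit 5) (nat_lit 3) (nat_lit 4) (nat_lit 1) (nat_lit 4) (nat_lit 496) (nat_lit 358) (nat_lit 346)) (XT.lf (nat_lit 0) (nat_lit 246738759716) (nat_lit 152) (nat_lit 218411365228) (nat_lit 0) (nat_lit 246532258509) (nat_lit 1) (nat_lit 5) (nat_lit 3) (nat_lit 4) (nat_lit 1) (nat_lit 4) (nat_lit 497) (nat_lit 358) (nat_lit 345))))))) (XT.nd (nat_lit 61620) (nat_lit 0) (nat_lit 0) (XT.nd (nat_lit 624) (nat_lit 0) (nat_lit 0) (XT.nd (nat_lit 312) (nat_lit 0) (nat_lit 0) (XT.nd (nat_lit 156) (nat_lit 0) (nat_lit 0) (XT.nd (nat_lit 78) (nat_lit 0) (nat_lit 0) (XT.lf (nat_lit 0) (nat_lit 273664598549) (nat_lit 152) (nat_lit 221142525707) (nat_lit 0) (nat_lit 273449202148) (nat_lit 1) (nat_lit 5) (nat_lit 3) (nat_lit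 4) (nat_lit 1) (nat_lit 4) (nat_lit 498) (nat_lit 358) (nat_lit 344)) (XT.lf (nat_lit 0) (nat_lit 302523003073) (nat_lit 152) (nat_lit 224544886546) (nat_lit 0) (nat_lit 302299370382) (nat_lit 1) (nat_lit 5) (nat_lit 3) (nat_lit 4) (nat_lit 1) (nat_lit 4) (nat_lit 499) (nat_lit 358) (nat_lit 343))) (XT.nd (nat_lit 78) (nat_lit 0) (nat_lit 0) (XT.lf (nat_lit 0) (nat_lit 333484986056) (nat_lit 152) (nat_lit 228638609881) (nat_lit 0) (nat_lit 333253727170) (nat_lit 1) (nat_lit 5) (nat_lit 3) (nat_lit 4) (nat_lit 1) (nat_lit 4) (nat_lit 500) (nat_lit 358) (nat_lit 342)) (XT.lf (nat_lit 0) (nat_lit 366734025915) (nat_lit 152) (nat_lit 233447954816) (nat_lit 0) (nat_lit 366495705738) (nat_lit 1) (nat_lit 5) (nat_lit 3) (nat_lit 4) (nat_lit 1) (nat_lit 4) (nat_lit 501) (nat_lit 358) (nat_lit 341)))) (XT.nd (nat_lit 156) (nat_lit 0) (nat_lit 0) (XT.nd (nat_lit 78) (nat_lit 0) (nat_lit 0) (XT.lf (nat_lit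 0) (nat_lit 402467153997) (nat_lit 152) (nat_lit 239001421171) (nat_lit 0) (nat_lit 402222295588) (nat_lit 1) (nat_lit 5) (nat_lit 3) (nat_lit 4) (nat_lit 1) (nat_lit 4) (nat_lit 502) (nat_lit 358) (nat_lit 340)) (XT.lf (nat_lit 0) (nat_lit 440896122173) (nat_lit 152) (nat_lit 245331918376) (nat_lit 0) (nat_lit 440645209845) (nat_lit 1) (nat_lit 5) (nat_lit 3) (nat_lit 4) (nat_lit 1) (nat_lit 4) (nat_lit 503) (nat_lit 358) (nat_lit 339))) (XT.nd (nat_lit 78) (nat_lit 0) (nat_lit 0) (XT.lf (nat_lit 0) (nat_lit 482248657662) (nat_lit 152) (nat_lit 252476960490) (nat_lit 0) (nat_lit 481992139853) (nat_lit 1) (nat_lit 5) (nat_lit 3) (nat_lit 4) (nat_lit 1) (nat_lit 4) (nat_lit 504) (nat_lit 358) (nat_lit 338)) (XT.lf (nat_lit 0) (nat_lit 526769812525) (nat_lit 152) (nat_lit 260478888503) (nat_lit 0) (nat_lit 526508104456) (nat_lit 1) (nat_lit 5) (nat_lit 3) (nat_lit 4) (nat_lit 1) (nat_lit 4) (nat_lit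 505) (nat_lit 358) (nat_lit 337))))) (XT.nd (nat_lit 60684) (nat_lit 0) (nat_lit 0) (XT.nd (nat_lit 156) (nat_lit 0) (nat_lit 0) (XT.nd (nat_lit 78) (nat_lit 0) (nat_lit 0) (XT.lf (nat_lit 0) (nat_lit 574723415829) (nat_lit 152) (nat_lit 269385121247) (nat_lit 0) (nat_lit 574456901964) (nat_lit 1) (nat_lit 5) (nat_lit 3) (nat_lit 4) (nat_lit 1) (nat_lit 4) (nat_lit 506) (nat_lit 358) (nat_lit 336)) (XT.lf (nat_lit 0) (nat_lit 626393637075) (nat_lit 152) (nat_lit 279248436398) (nat_lit 0) (nat_lit 626122673398) (nat_lit 1) (nat_lit 5) (nat_lit 3) (nat_lit 4) (nat_lit 1) (nat_lit 4) (nat_lit 507) (nat_lit 358) (nat_lit 335))) (XT.nd (nat_lit 60450) (nat_lit 0) (nat_lit 152) (XT.lf (nat_lit 0) (nat_lit 682086670165) (nat_lit 152) (nat_lit 290127283231) (nat_lit 0) (nat_lit 681811586293) (nat_lit 1) (nat_lit 5) (nat_lit 3) (nat_lit 4) (nat_lit 1) (nat_lit 4) (nat_lit 508) (nat_lit 358) (nat_lit 334))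 (XT.lf (nat_lit 0) (nat_lit 101429205142) (nat_lit 76) (nat_lit 6503653811) (nat_lit 76) (nat_lit 6503653811) (nat_lit 3) (nat_lit 4) (nat_lit 4) (nat_lit 5) (nat_lit 4) (nat_lit 4) (nat_lit 482) (nat_lit 359) (nat_lit 359)))) (XT.nd (nat_lit 156) (nat_lit 0) (nat_lit 0) (XT.nd (nat_lit 78) (nat_lit 152) (nat_lit 0) (XT.lf (nat_lit 0) (nat_lit 244636937116) (nat_lit 76) (nat_lit 974036843) (nat_lit 76) (nat_lit 946603592) (nat_lit 3) (nat_lit 4) (nat_lit 4) (nat_lit 5) (nat_lit 4) (nat_lit 4) (nat_lit 483) (nat_lit 359) (nat_lit 358)) (XT.lf (nat_lit 0) (nat_lit 11624553585) (nat_lit 152) (nat_lit 242452066191) (nat_lit 0) (nat_lit 11574235100) (nat_lit 1) (nat_lit 5) (nat_lit 3) (nat_lit 4) (nat_lit 1) (nat_lit 4) (nat_lit 484) (nat_lit 359) (nat_lit 357))) (XT.nd (nat_lit 78) (nat_lit 0) (nat_lit 0) (XT.lf (nat_lit 0) (nat_lit 24616710649) (nat_lit 152) (nat_lit 237137692068) (nat_lit 0) (nat_lit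 24543992554) (nat_lit 1) (nat_lit 5) (nat_lit 3) (nat_lit 4) (nat_lit 1) (nat_lit 4) (nat_lit 485) (nat_lit 359) (nat_lit 356)) (XT.lf (nat_lit 0) (nat_lit 38090462032) (nat_lit 152) (nat_lit 232538162565) (nat_lit 0) (nat_lit 37997003558) (nat_lit 1) (nat_lit 5) (nat_lit 3) (nat_lit 4) (nat_lit 1) (nat_lit 4) (nat_lit 486) (nat_lit 359) (nat_lit 355)))))) (XT.nd (nat_lit 624) (nat_lit 0) (nat_lit 0) (XT.nd (nat_lit 312) (nat_lit 0) (nat_lit 0) (XT.nd (nat_lit 156) (nat_lit 0) (nat_lit 0) (XT.nd (nat_lit 78) (nat_lit 0) (nat_lit 0) (XT.lf (nat_lit 0) (nat_lit 52125652188) (nat_lit 152) (nat_lit 228626221213) (nat_lit 0) (nat_lit 52012989658) (nat_lit 1) (nat_lit 5) (nat_lit 3) (nat_lit 4) (nat_lit 1) (nat_lit 4) (nat_lit 487) (nat_lit 359) (nat_lit 354)) (XT.lf (nat_lit 0) (nat_lit 66805452613) (nat_lit 152) (nat_lit 225378686136) (nat_lit 0) (nat_lit 66675008550) (nat_lit 1) (nat_lit 5) (nat_lit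 3) (nat_lit 4) (nat_lit 1) (nat_lit 4) (nat_lit 488) (nat_lit 359) (nat_lit 353))) (XT.nd (nat_lit 78) (nat_lit 0) (nat_lit 0) (XT.lf (nat_lit 0) (nat_lit 82216854717) (nat_lit 152) (nat_lit 222776312681) (nat_lit 0) (nat_lit 82069946272) (nat_lit 1) (nat_lit 5) (nat_lit 3) (nat_lit 4) (nat_lit 1) (nat_lit 4) (nat_lit 489) (nat_lit 359) (nat_lit 352)) (XT.lf (nat_lit 0) (nat_lit 98451185328) (nat_lit 152) (nat_lit 220803679376) (nat_lit 0) (nat_lit 98289032084) (nat_lit 1) (nat_lit 5) (nat_lit 3) (nat_lit 4) (nat_lit 1) (nat_lit 4) (nat_lit 490) (nat_lit 359) (nat_lit 351)))) (XT.nd (nat_lit 156) (nat_lit 0) (nat_lit 0) (XT.nd (nat_lit 78) (nat_lit 0) (nat_lit 0) (XT.lf (nat_lit 0) (nat_lit 115604647886) (nat_lit 152) (nat_lit 219449096544) (nat_lit 0) (nat_lit 115428379088) (nat_lit 1) (nat_lit 5) (nat_lit 3) (nat_lit 4) (nat_lit 1) (nat_lit 4) (nat_lit 491) (nat_lit 359) (nat_lit 350)) (XT.lf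 (nat_lit 0) (nat_lit 133778892539) (nat_lit 152) (nat_lit 218704537025) (nat_lit 0) (nat_lit 133589553784) (nat_lit 1) (nat_lit 5) (nat_lit 3) (nat_lit 4) (nat_lit 1) (nat_lit 4) (nat_lit 492) (nat_lit 359) (nat_lit 349))) (XT.nd (nat_lit 78) (nat_lit 0) (nat_lit 0) (XT.lf (nat_lit 0) (nat_lit 153081618516) (nat_lit 152) (nat_lit 218565588615) (nat_lit 0) (nat_lit 152880177948) (nat_lit 1) (nat_lit 5) (nat_lit 3) (nat_lit 4) (nat_lit 1) (nat_lit 4) (nat_lit 493) (nat_lit 359) (nat_lit 348)) (XT.lf (nat_lit 0) (nat_lit 173627212340) (nat_lit 152) (nat_lit 219031427917) (nat_lit 0) (nat_lit 173414566390) (nat_lit 1) (nat_lit 5) (nat_lit 3) (nat_lit 4) (nat_lit 1) (nat_lit 4) (nat_lit 494) (nat_lit 359) (nat_lit 347))))) (XT.nd (nat_lit 312) (nat_lit 0) (nat_lit 0) (XT.nd (nat_lit 156) (nat_lit 0) (nat_lit 0) (XT.nd (nat_lit 78) (nat_lit 0) (nat_lit 0) (XT.lf (nat_lit 0) (nat_lit 195537425679) (nat_lit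 152) (nat_lit 220104815460) (nat_lit 0) (nat_lit 195314404375) (nat_lit 1) (nat_lit 5) (nat_lit 3) (nat_lit 4) (nat_lit 1) (nat_lit 4) (nat_lit 495) (nat_lit 359) (nat_lit 346)) (XT.lf (nat_lit 0) (nat_lit 218942096833) (nat_lit 152) (nat_lit 221792112059) (nat_lit 0) (nat_lit 218709468721) (nat_lit 1) (nat_lit 5) (nat_lit 3) (nat_lit 4) (nat_lit 1) (nat_lit 4) (nat_lit 496) (nat_lit 359) (nat_lit 345))) (XT.nd (nat_lit 78) (nat_lit 0) (nat_lit 0) (XT.lf (nat_lit 0) (nat_lit 243979920151) (nat_lit 152) (nat_lit 224103316508) (nat_lit 0) (nat_lit 243738396845) (nat_lit 1) (nat_lit 5) (nat_lit 3) (nat_lit 4) (nat_lit 1) (nat_lit 4) (nat_lit 497) (nat_lit 359) (nat_lit 344)) (XT.lf (nat_lit 0) (nat_lit 270799267919) (nat_lit 152) (nat_lit 227052124833) (nat_lit 0) (nat_lit 270549508323) (nat_lit 1) (nat_lit 5) (nat_lit 3) (nat_lit 4) (nat_lit 1) (nat_lit 4) (nat_lit 498) (nat_lit 359) (nat_lit 343))))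 (XT.nd (nat_lit 156) (nat_lit 0) (nat_lit 0) (XT.nd (nat_lit 78) (nat_lit 0) (nat_lit 0) (XT.lf (nat_lit 0) (nat_lit 299559069605) (nat_lit 152) (nat_lit 230656011455) (nat_lit 0) (nat_lit 299301683815) (nat_lit 1) (nat_lit 5) (nat_lit 3) (nat_lit 4) (nat_lit 1) (nat_lit 4) (nat_lit 499) (nat_lit 359) (nat_lit 342)) (XT.lf (nat_lit 0) (nat_lit 330429753664) (nat_lit 152) (nat_lit 234936332739) (nat_lit 0) (nat_lit 330165306582) (nat_lit 1) (nat_lit 5) (nat_lit 3) (nat_lit 4) (nat_lit 1) (nat_lit 4) (nat_lit 500) (nat_lit 359) (nat_lit 341))) (XT.nd (nat_lit 78) (nat_lit 0) (nat_lit 0) (XT.lf (nat_lit 0) (nat_lit 363594257482) (nat_lit 152) (nat_lit 239918453551) (nat_lit 0) (nat_lit 363323272167) (nat_lit 1) (nat_lit 5) (nat_lit 3) (nat_lit 4) (nat_lit 1) (nat_lit 4) (nat_lit 501) (nat_lit 359) (nat_lit 340)) (XT.lf (nat_lit 0) (nat_lit 399249111452) (nat_lit 152) (nat_lit 245631897571) (nat_lit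 0) (nat_lit 398972072218) (nat_lit 1) (nat_lit 5) (nat_lit 3) (nat_lit 4) (nat_lit 1) (nat_lit 4) (nat_lit 502) (nat_lit 359) (nat_lit 339))))))))
noncomputable def xc3 : XT := (XT.nd (nat_lit 62712) (nat_lit 0) (nat_lit 0) (XT.nd (nat_lit 61464) (nat_lit 0) (nat_lit 0) (XT.nd (nat_lit 60840) (nat_lit 0) (nat_lit 0) (XT.nd (nat_lit 312) (nat_lit 0) (nat_lit 0) (XT.nd (nat_lit 156) (nat_lit 0) (nat_lit 0) (XT.nd (nat_lit 78) (nat_lit 0) (nat_lit 0) (XT.lf (nat_lit 0) (nat_lit 437605603599) (nat_lit 152) (nat_lit 252110522244) (nat_lit 0) (nat_lit 437322958884) (nat_lit 1) (nat_lit 5) (nat_lit 3) (nat_lit 4) (nat_lit 1) (nat_lit 4) (nat_lit 503) (nat_lit 359) (nat_lit 338)) (XT.lf (nat_lit 0) (nat_lit 478891031653) (nat_lit 152) (nat_lit 259392719420) (nat_lit 0) (nat_lit 478603196678) (nat_lit 1) (nat_lit 5) (nat_lit 3) (nat_lit 4) (nat_lit 1) (nat_lit 4) (nat_lit 504) (nat_lit 359) (nat_lit 337)))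 (XT.nd (nat_lit 78) (nat_lit 0) (nat_lit 0) (XT.lf (nat_lit 0) (nat_lit 523350050002) (nat_lit 152) (nat_lit 267521642861) (nat_lit 0) (nat_lit 523057409231) (nat_lit 1) (nat_lit 5) (nat_lit 3) (nat_lit 4) (nat_lit 1) (nat_lit 4) (nat_lit 505) (nat_lit 359) (nat_lit 336)) (XT.lf (nat_lit 0) (nat_lit 571246119497) (nat_lit 152) (nat_lit 276545463964) (nat_lit 0) (nat_lit 570949028915) (nat_lit 1) (nat_lit 5) (nat_lit 3) (nat_lit 4) (nat_lit 1) (nat_lit 4) (nat_lit 506) (nat_lit 359) (nat_lit 335)))) (XT.nd (nat_lit 60372) (nat_lit 0) (nat_lit 152) (XT.nd (nat_lit 78) (nat_lit 0) (nat_lit 0) (XT.lf (nat_lit 0) (nat_lit 622863068697) (nat_lit 152) (nat_lit 286517657225) (nat_lit 0) (nat_lit 622561857919) (nat_lit 1) (nat_lit 5) (nat_lit 3) (nat_lit 4) (nat_lit 1) (nat_lit 4) (nat_lit 507) (nat_lit 359) (nat_lit 334)) (XT.lf (nat_lit 0) (nat_lit 678506775820) (nat_lit 152) (nat_lit 297497317123)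 (nat_lit 0) (nat_lit 678201750046) (nat_lit 1) (nat_lit 5) (nat_lit 3) (nat_lit 4) (nat_lit 1) (nat_lit 4) (nat_lit 508) (nat_lit 359) (nat_lit 333))) (XT.nd (nat_lit 78) (nat_lit 0) (nat_lit 0) (XT.lf (nat_lit 0) (nat_lit 62655091104) (nat_lit 76) (nat_lit 18025288059) (nat_lit 76) (nat_lit 18025288059) (nat_lit 3) (nat_lit 4) (nat_lit 4) (nat_lit 5) (nat_lit 4) (nat_lit 4) (nat_lit 480) (nat_lit 360) (nat_lit 360)) (XT.lf (nat_lit 0) (nat_lit 162928839113) (nat_lit 76) (nat_lit 24814858388) (nat_lit 76) (nat_lit 24785230477) (nat_lit 3) (nat_lit 4) (nat_lit 4) (nat_lit 5) (nat_lit 4) (nat_lit 4) (nat_lit 481) (nat_lit 360) (nat_lit 359))))) (XT.nd (nat_lit 312) (nat_lit 0) (nat_lit 0) (XT.nd (nat_lit 156) (nat_lit 152) (nat_lit 0) (XT.nd (nat_lit 78) (nat_lit 0) (nat_lit 0) (XT.lf (nat_lit 0) (nat_lit 202211578537) (nat_lit 76) (nat_lit 13367169141) (nat_lit 76) (nat_lit 13310107979) (nat_lit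 3) (nat_lit 4) (nat_lit 4) (nat_lit 5) (nat_lit 4) (nat_lit 4) (nat_lit 482) (nat_lit 360) (nat_lit 358)) (XT.lf (nat_lit 0) (nat_lit 243391187084) (nat_lit 76) (nat_lit 1639670219) (nat_lit 76) (nat_lit 1557207900) (nat_lit 3) (nat_lit 4) (nat_lit 4) (nat_lit 5) (nat_lit 4) (nat_lit 4) (nat_lit 483) (nat_lit 360) (nat_lit 357))) (XT.nd (nat_lit 78) (nat_lit 0) (nat_lit 0) (XT.lf (nat_lit 0) (nat_lit 10712562469) (nat_lit 152) (nat_lit 244373676082) (nat_lit 0) (nat_lit 10611627316) (nat_lit 1) (nat_lit 5) (nat_lit 3) (nat_lit 4) (nat_lit 1) (nat_lit 4) (nat_lit 484) (nat_lit 360) (nat_lit 356)) (XT.lf (nat_lit 0) (nat_lit 23436556915) (nat_lit 152) (nat_lit 239607376262) (nat_lit 0) (nat_lit 23314881382) (nat_lit 1) (nat_lit 5) (nat_lit 3) (nat_lit 4) (nat_lit 1) (nat_lit 4) (nat_lit 485) (nat_lit 360) (nat_lit 355)))) (XT.nd (nat_lit 156) (nat_lit 0) (nat_lit 0) (XT.nd (nat_lit 78) (nat_lit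 0) (nat_lit 0) (XT.lf (nat_lit 0) (nat_lit 36662009578) (nat_lit 152) (nat_lit 235515322967) (nat_lit 0) (nat_lit 36521129990) (nat_lit 1) (nat_lit 5) (nat_lit 3) (nat_lit 4) (nat_lit 1) (nat_lit 4) (nat_lit 486) (nat_lit 360) (nat_lit 354)) (XT.lf (nat_lit 0) (nat_lit 50467293511) (nat_lit 152) (nat_lit 232073266991) (nat_lit 0) (nat_lit 50308632390) (nat_lit 1) (nat_lit 5) (nat_lit 3) (nat_lit 4) (nat_lit 1) (nat_lit 4) (nat_lit 487) (nat_lit 360) (nat_lit 353))) (XT.nd (nat_lit 78) (nat_lit 0) (nat_lit 0) (XT.lf (nat_lit 0) (nat_lit 64934217804) (nat_lit 152) (nat_lit 229260810966) (nat_lit 0) (nat_lit 64759092301) (nat_lit 1) (nat_lit 5) (nat_lit 3) (nat_lit 4) (nat_lit 1) (nat_lit 4) (nat_lit 488) (nat_lit 360) (nat_lit 352)) (XT.lf (nat_lit 0) (nat_lit 80148512379) (nat_lit 152) (nat_lit 227061288485) (nat_lit 0) (nat_lit 79958142077) (nat_lit 1) (nat_lit 5) (nat_lit 3) (nat_lit 4) (nat_lit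 1) (nat_lit 4) (nat_lit 489) (nat_lit 360) (nat_lit 351)))))) (XT.nd (nat_lit 624) (nat_lit 0) (nat_lit 0) (XT.nd (nat_lit 312) (nat_lit 0) (nat_lit 0) (XT.nd (nat_lit 156) (nat_lit 0) (nat_lit 0) (XT.nd (nat_lit 78) (nat_lit 0) (nat_lit 0) (XT.lf (nat_lit 0) (nat_lit 96200336017) (nat_lit 152) (nat_lit 225461665342) (nat_lit 0) (nat_lit 95995850161) (nat_lit 1) (nat_lit 5) (nat_lit 3) (nat_lit 4) (nat_lit 1) (nat_lit 4) (nat_lit 490) (nat_lit 360) (nat_lit 350)) (XT.lf (nat_lit 0) (nat_lit 113184810638) (nat_lit 152) (nat_lit 224452462289) (nat_lit 0) (nat_lit 112967254825) (nat_lit 1) (nat_lit 5) (nat_lit 3) (nat_lit 4) (nat_lit 1) (nat_lit 4) (nat_lit 491) (nat_lit 360) (nat_lit 349))) (XT.nd (nat_lit 78) (nat_lit 0) (nat_lit 0) (XT.lf (nat_lit 0) (nat_lit 131202584979) (nat_lit 152) (nat_lit 224027698862) (nat_lit 0) (nat_lit 130972927353) (nat_lit 1) (nat_lit 5) (nat_lit 3) (nat_lit 4) (nat_lit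 1) (nat_lit 4) (nat_lit 492) (nat_lit 360) (nat_lit 348)) (XT.lf (nat_lit 0) (nat_lit 150360431037) (nat_lit 152) (nat_lit 224184857945) (nat_lit 0) (nat_lit 150119568030) (nat_lit 1) (nat_lit 5) (nat_lit 3) (nat_lit 4) (nat_lit 1) (nat_lit 4) (nat_lit 493) (nat_lit 360) (nat_lit 347)))) (XT.nd (nat_lit 156) (nat_lit 0) (nat_lit 0) (XT.nd (nat_lit 78) (nat_lit 0) (nat_lit 0) (XT.lf (nat_lit 0) (nat_lit 170771876789) (nat_lit 152) (nat_lit 224924870851) (nat_lit 0) (nat_lit 170520638427) (nat_lit 1) (nat_lit 5) (nat_lit 3) (nat_lit 4) (nat_lit 1) (nat_lit 4) (nat_lit 494) (nat_lit 360) (nat_lit 346)) (XT.lf (nat_lit 0) (nat_lit 192557878949) (nat_lit 152) (nat_lit 226252122842) (nat_lit 0) (nat_lit 192297033779) (nat_lit 1) (nat_lit 5) (nat_lit 3) (nat_lit 4) (nat_lit 1) (nat_lit 4) (nat_lit 495) (nat_lit 360) (nat_lit 345))) (XT.nd (nat_lit 78) (nat_lit 0) (nat_lit 0) (XT.lf (nat_lit 0) (nat_lit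 215847539753) (nat_lit 152) (nat_lit 228174479115) (nat_lit 0) (nat_lit 215577799390) (nat_lit 1) (nat_lit 5) (nat_lit 3) (nat_lit 4) (nat_lit 1) (nat_lit 4) (nat_lit 496) (nat_lit 360) (nat_lit 344)) (XT.lf (nat_lit 0) (nat_lit 240778872006) (nat_lit 152) (nat_lit 230703331410) (nat_lit 0) (nat_lit 240500895352) (nat_lit 1) (nat_lit 5) (nat_lit 3) (nat_lit 4) (nat_lit 1) (nat_lit 4) (nat_lit 497) (nat_lit 360) (nat_lit 343))))) (XT.nd (nat_lit 312) (nat_lit 0) (nat_lit 0) (XT.nd (nat_lit 156) (nat_lit 0) (nat_lit 0) (XT.nd (nat_lit 78) (nat_lit 0) (nat_lit 0) (XT.lf (nat_lit 0) (nat_lit 267499616936) (nat_lit 152) (nat_lit 233853665520) (nat_lit 0) (nat_lit 267214014087) (nat_lit 1) (nat_lit 5) (nat_lit 3) (nat_lit 4) (nat_lit 1) (nat_lit 4) (nat_lit 498) (nat_lit 360) (nat_lit 342)) (XT.lf (nat_lit 0) (nat_lit 296168119698) (nat_lit 152) (nat_lit 237644150090) (nat_lit 0) (nat_lit 295875455558)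 (nat_lit 1) (nat_lit 5) (nat_lit 3) (nat_lit 4) (nat_lit 1) (nat_lit 4) (nat_lit 499) (nat_lit 360) (nat_lit 341))) (XT.nd (nat_lit 78) (nat_lit 0) (nat_lit 0) (XT.lf (nat_lit 0) (nat_lit 326954267716) (nat_lit 152) (nat_lit 242097247251) (nat_lit 0) (nat_lit 326655065343) (nat_lit 1) (nat_lit 5) (nat_lit 3) (nat_lit 4) (nat_lit 1) (nat_lit 4) (nat_lit 500) (nat_lit 360) (nat_lit 340)) (XT.lf (nat_lit 0) (nat_lit 360040497422) (nat_lit 152) (nat_lit 247239345728) (nat_lit 0) (nat_lit 359735241130) (nat_lit 1) (nat_lit 5) (nat_lit 3) (nat_lit 4) (nat_lit 1) (nat_lit 4) (nat_lit 501) (nat_lit 360) (nat_lit 339)))) (XT.nd (nat_lit 156) (nat_lit 0) (nat_lit 0) (XT.nd (nat_lit 78) (nat_lit 0) (nat_lit 0) (XT.lf (nat_lit 0) (nat_lit 395622875362) (nat_lit 152) (nat_lit 253100917215) (nat_lit 0) (nat_lit 395312013590) (nat_lit 1) (nat_lit 5) (nat_lit 3) (nat_lit 4) (nat_lit 1) (nat_lit 4) (nat_lit 502)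 (nat_lit 360) (nat_lit 338)) (XT.lf (nat_lit 0) (nat_lit 433912260074) (nat_lit 152) (nat_lit 259716696950) (nat_lit 0) (nat_lit 433596208041) (nat_lit 1) (nat_lit 5) (nat_lit 3) (nat_lit 4) (nat_lit 1) (nat_lit 4) (nat_lit 503) (nat_lit 360) (nat_lit 337))) (XT.nd (nat_lit 78) (nat_lit 0) (nat_lit 0) (XT.lf (nat_lit 0) (nat_lit 475135551614) (nat_lit 152) (nat_lit 267125889554) (nat_lit 0) (nat_lit 474814693785) (nat_lit 1) (nat_lit 5) (nat_lit 3) (nat_lit 4) (nat_lit 1) (nat_lit 4) (nat_lit 504) (nat_lit 360) (nat_lit 336)) (XT.lf (nat_lit 0) (nat_lit 519537036155) (nat_lit 152) (nat_lit 275372401354) (nat_lit 0) (nat_lit 519211728515) (nat_lit 1) (nat_lit 5) (nat_lit 3) (nat_lit 4) (nat_lit 1) (nat_lit 4) (nat_lit 505) (nat_lit 360) (nat_lit 335))))))) (XT.nd (nat_lit 61308) (nat_lit 0) (nat_lit 0) (XT.nd (nat_lit 60684) (nat_lit 0) (nat_lit 0) (XT.nd (nat_lit 60372) (nat_lit 0) (nat_lit 152)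 (XT.nd (nat_lit 156) (nat_lit 0) (nat_lit 0) (XT.nd (nat_lit 78) (nat_lit 0) (nat_lit 0) (XT.lf (nat_lit 0) (nat_lit 567379833604) (nat_lit 152) (nat_lit 284505100568) (nat_lit 0) (nat_lit 567050405768) (nat_lit 1) (nat_lit 5) (nat_lit 3) (nat_lit 4) (nat_lit 1) (nat_lit 4) (nat_lit 506) (nat_lit 360) (nat_lit 334)) (XT.lf (nat_lit 0) (nat_lit 618947456836) (nat_lit 152) (nat_lit 294578106895) (nat_lit 0) (nat_lit 618614214004) (nat_lit 1) (nat_lit 5) (nat_lit 3) (nat_lit 4) (nat_lit 1) (nat_lit 4) (nat_lit 507) (nat_lit 360) (nat_lit 333))) (XT.nd (nat_lit 60138) (nat_lit 0) (nat_lit 152) (XT.lf (nat_lit 0) (nat_lit 674545491766) (nat_lit 152) (nat_lit 305651112223) (nat_lit 0) (nat_lit 674208716531) (nat_lit 1) (nat_lit 5) (nat_lit 3) (nat_lit 4) (nat_lit 1) (nat_lit 4) (nat_lit 508) (nat_lit 360) (nat_lit 332)) (XT.lf (nat_lit 0) (nat_lit 27468209597) (nat_lit 76) (nat_lit 28899188627) (nat_lit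 76) (nat_lit 28899188627) (nat_lit 3) (nat_lit 4) (nat_lit 4) (nat_lit 5) (nat_lit 4) (nat_lit 4) (nat_lit 478) (nat_lit 361) (nat_lit 361)))) (XT.nd (nat_lit 156) (nat_lit 0) (nat_lit 0) (XT.nd (nat_lit 78) (nat_lit 0) (nat_lit 0) (XT.lf (nat_lit 0) (nat_lit 89132682446) (nat_lit 76) (nat_lit 47172902509) (nat_lit 76) (nat_lit 47140904365) (nat_lit 3) (nat_lit 4) (nat_lit 4) (nat_lit 5) (nat_lit 4) (nat_lit 4) (nat_lit 479) (nat_lit 361) (nat_lit 360)) (XT.lf (nat_lit 0) (nat_lit 124611603921) (nat_lit 76) (nat_lit 36439226558) (nat_lit 76) (nat_lit 36377600503) (nat_lit 3) (nat_lit 4) (nat_lit 4) (nat_lit 5) (nat_lit 4) (nat_lit 4) (nat_lit 480) (nat_lit 361) (nat_lit 359))) (XT.nd (nat_lit 78) (nat_lit 0) (nat_lit 0) (XT.lf (nat_lit 0) (nat_lit 161583429079) (nat_lit 76) (nat_lit 25533742434) (nat_lit 76) (nat_lit 25444683129) (nat_lit 3) (nat_lit 4) (nat_lit 4) (nat_lit 5) (nat_lit 4) (nat_lit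 4) (nat_lit 481) (nat_lit 361) (nat_lit 358)) (XT.lf (nat_lit 0) (nat_lit 200267250219) (nat_lit 76) (nat_lit 14391825045) (nat_lit 76) (nat_lit 14277364582) (nat_lit 3) (nat_lit 4) (nat_lit 4) (nat_lit 5) (nat_lit 4) (nat_lit 4) (nat_lit 482) (nat_lit 361) (nat_lit 357))))) (XT.nd (nat_lit 312) (nat_lit 0) (nat_lit 0) (XT.nd (nat_lit 156) (nat_lit 0) (nat_lit 0) (XT.nd (nat_lit 78) (nat_lit 152) (nat_lit 0) (XT.lf (nat_lit 0) (nat_lit 240892304799) (nat_lit 76) (nat_lit 2947448215) (nat_lit 76) (nat_lit 2809468161) (nat_lit 3) (nat_lit 4) (nat_lit 4) (nat_lit 5) (nat_lit 4) (nat_lit 4) (nat_lit 483) (nat_lit 361) (nat_lit 356)) (XT.lf (nat_lit 0) (nat_lit 9169833819) (nat_lit 152) (nat_lit 247589009315) (nat_lit 0) (nat_lit 9017683863) (nat_lit 1) (nat_lit 5) (nat_lit 3) (nat_lit 4) (nat_lit 1) (nat_lit 4) (nat_lit 484) (nat_lit 361) (nat_lit 355))) (XT.nd (nat_lit 78) (nat_lit 0) (nat_lit 0)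 (XT.lf (nat_lit 0) (nat_lit 21645529544) (nat_lit 152) (nat_lit 243330185702) (nat_lit 0) (nat_lit 21474175534) (nat_lit 1) (nat_lit 5) (nat_lit 3) (nat_lit 4) (nat_lit 1) (nat_lit 4) (nat_lit 485) (nat_lit 361) (nat_lit 354)) (XT.lf (nat_lit 0) (nat_lit 34641075985) (nat_lit 152) (nat_lit 239708017783) (nat_lit 0) (nat_lit 34451940441) (nat_lit 1) (nat_lit 5) (nat_lit 3) (nat_lit 4) (nat_lit 1) (nat_lit 4) (nat_lit 486) (nat_lit 361) (nat_lit 353)))) (XT.nd (nat_lit 156) (nat_lit 0) (nat_lit 0) (XT.nd (nat_lit 78) (nat_lit 0) (nat_lit 0) (XT.lf (nat_lit 0) (nat_lit 48233483786) (nat_lit 152) (nat_lit 236701040860) (nat_lit 0) (nat_lit 48027883860) (nat_lit 1) (nat_lit 5) (nat_lit 3) (nat_lit 4) (nat_lit 1) (nat_lit 4) (nat_lit 487) (nat_lit 361) (nat_lit 352)) (XT.lf (nat_lit 0) (nat_lit 62503300549) (nat_lit 152) (nat_lit 234291435809) (nat_lit 0) (nat_lit 62282455824) (nat_lit 1) (nat_lit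 5) (nat_lit 3) (nat_lit 4) (nat_lit 1) (nat_lit 4) (nat_lit 488) (nat_lit 361) (nat_lit 351))) (XT.nd (nat_lit 78) (nat_lit 0) (nat_lit 0) (XT.lf (nat_lit 0) (nat_lit 77535088151) (nat_lit 152) (nat_lit 232464923490) (nat_lit 0) (nat_lit 77300127873) (nat_lit 1) (nat_lit 5) (nat_lit 3) (nat_lit 4) (nat_lit 1) (nat_lit 4) (nat_lit 489) (nat_lit 361) (nat_lit 350)) (XT.lf (nat_lit 0) (nat_lit 93417923853) (nat_lit 152) (nat_lit 231210680126) (nat_lit 0) (nat_lit 93169893617) (nat_lit 1) (nat_lit 5) (nat_lit 3) (nat_lit 4) (nat_lit 1) (nat_lit 4) (nat_lit 490) (nat_lit 361) (nat_lit 349)))))) (XT.nd (nat_lit 624) (nat_lit 0) (nat_lit 0) (XT.nd (nat_lit 312) (nat_lit 0) (nat_lit 0) (XT.nd (nat_lit 156) (nat_lit 0) (nat_lit 0) (XT.nd (nat_lit 78) (nat_lit 0) (nat_lit 0) (XT.lf (nat_lit 0) (nat_lit 110245928162) (nat_lit 152) (nat_lit 230521273164) (nat_lit 0) (nat_lit 109985796113) (nat_lit 1) (nat_lit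 5) (nat_lit 3) (nat_lit 4) (nat_lit 1) (nat_lit 4) (nat_lit 491) (nat_lit 361) (nat_lit 348)) (XT.lf (nat_lit 0) (nat_lit 128118822584) (nat_lit 152) (nat_lit 230392617230) (nat_lit 0) (nat_lit 127847485154) (nat_lit 1) (nat_lit 5) (nat_lit 3) (nat_lit 4) (nat_lit 1) (nat_lit 4) (nat_lit 492) (nat_lit 361) (nat_lit 347))) (XT.nd (nat_lit 78) (nat_lit 0) (nat_lit 0) (XT.lf (nat_lit 0) (nat_lit 147142520570) (nat_lit 152) (nat_lit 230823949917) (nat_lit 0) (nat_lit 146860807786) (nat_lit 1) (nat_lit 5) (nat_lit 3) (nat_lit 4) (nat_lit 1) (nat_lit 4) (nat_lit 493) (nat_lit 361) (nat_lit 346)) (XT.lf (nat_lit 0) (nat_lit 167429755143) (nat_lit 152) (nat_lit 231817827271) (nat_lit 0) (nat_lit 167138435550) (nat_lit 1) (nat_lit 5) (nat_lit 3) (nat_lit 4) (nat_lit 1) (nat_lit 4) (nat_lit 494) (nat_lit 361) (nat_lit 345)))) (XT.nd (nat_lit 156) (nat_lit 0) (nat_lit 0) (XT.nd (nat_lit 78) (nat_lit 0)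 (nat_lit 0) (XT.lf (nat_lit 0) (nat_lit 189100746953) (nat_lit 152) (nat_lit 233380138937) (nat_lit 0) (nat_lit 188800532166) (nat_lit 1) (nat_lit 5) (nat_lit 3) (nat_lit 4) (nat_lit 1) (nat_lit 4) (nat_lit 495) (nat_lit 361) (nat_lit 344)) (XT.lf (nat_lit 0) (nat_lit 212283916692) (nat_lit 152) (nat_lit 235520143056) (nat_lit 0) (nat_lit 211975465615) (nat_lit 1) (nat_lit 5) (nat_lit 3) (nat_lit 4) (nat_lit 1) (nat_lit 4) (nat_lit 496) (nat_lit 361) (nat_lit 343))) (XT.nd (nat_lit 78) (nat_lit 0) (nat_lit 0) (XT.lf (nat_lit 0) (nat_lit 237116646106) (nat_lit 152) (nat_lit 238250521135) (nat_lit 0) (nat_lit 236800568835) (nat_lit 1) (nat_lit 5) (nat_lit 3) (nat_lit 4) (nat_lit 1) (nat_lit 4) (nat_lit 497) (nat_lit 361) (nat_lit 342)) (XT.lf (nat_lit 0) (nat_lit 263746092112) (nat_lit 152) (nat_lit 241587453193) (nat_lit 0) (nat_lit 263422953549) (nat_lit 1) (nat_lit 5) (nat_lit 3) (nat_lit 4)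 (nat_lit 1) (nat_lit 4) (nat_lit 498) (nat_lit 361) (nat_lit 341))))) (XT.nd (nat_lit 312) (nat_lit 0) (nat_lit 0) (XT.nd (nat_lit 156) (nat_lit 0) (nat_lit 0) (XT.nd (nat_lit 78) (nat_lit 0) (nat_lit 0) (XT.lf (nat_lit 0) (nat_lit 292330058833) (nat_lit 152) (nat_lit 245550713641) (nat_lit 0) (nat_lit 292000382037) (nat_lit 1) (nat_lit 5) (nat_lit 3) (nat_lit 4) (nat_lit 1) (nat_lit 4) (nat_lit 499) (nat_lit 361) (nat_lit 340)) (XT.lf (nat_lit 0) (nat_lit 323037932738) (nat_lit 152) (nat_lit 250163788467) (nat_lit 0) (nat_lit 322702202024) (nat_lit 1) (nat_lit 5) (nat_lit 3) (nat_lit 4) (nat_lit 1) (nat_lit 4) (nat_lit 500) (nat_lit 361) (nat_lit 339))) (XT.nd (nat_lit 78) (nat_lit 0) (nat_lit 0) (XT.lf (nat_lit 0) (nat_lit 356051686415) (nat_lit 152) (nat_lit 255454014411) (nat_lit 0) (nat_lit 355710350219) (nat_lit 1) (nat_lit 5) (nat_lit 3) (nat_lit 4) (nat_lit 1) (nat_lit 4) (nat_lit 501)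 (nat_lit 361) (nat_lit 338)) (XT.lf (nat_lit 0) (nat_lit 391566956921) (nat_lit 152) (nat_lit 261452740960) (nat_lit 0) (nat_lit 391220430466) (nat_lit 1) (nat_lit 5) (nat_lit 3) (nat_lit 4) (nat_lit 1) (nat_lit 4) (nat_lit 502) (nat_lit 361) (nat_lit 337)))) (XT.nd (nat_lit 156) (nat_lit 0) (nat_lit 0) (XT.nd (nat_lit 78) (nat_lit 0) (nat_lit 0) (XT.lf (nat_lit 0) (nat_lit 429794205119) (nat_lit 152) (nat_lit 268195516123) (nat_lit 0) (nat_lit 429442872867) (nat_lit 1) (nat_lit 5) (nat_lit 3) (nat_lit 4) (nat_lit 1) (nat_lit 4) (nat_lit 503) (nat_lit 361) (nat_lit 336)) (XT.lf (nat_lit 0) (nat_lit 470959962850) (nat_lit 152) (nat_lit 275722297087) (nat_lit 0) (nat_lit 470604180787) (nat_lit 1) (nat_lit 5) (nat_lit 3) (nat_lit 4) (nat_lit 1) (nat_lit 4) (nat_lit 504) (nat_lit 361) (nat_lit 335))) (XT.nd (nat_lit 78) (nat_lit 0) (nat_lit 0) (XT.lf (nat_lit 0) (nat_lit 515308175345) (nat_lit 152)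 (nat_lit 284077686997) (nat_lit 0) (nat_lit 514948273087) (nat_lit 1) (nat_lit 5) (nat_lit 3) (nat_lit 4) (nat_lit 1) (nat_lit 4) (nat_lit 505) (nat_lit 361) (nat_lit 334)) (XT.lf (nat_lit 0) (nat_lit 563101646827) (nat_lit 152) (nat_lit 293311199276) (nat_lit 0) (nat_lit 562737929572) (nat_lit 1) (nat_lit 5) (nat_lit 3) (nat_lit 4) (nat_lit 1) (nat_lit 4) (nat_lit 506) (nat_lit 361) (nat_lit 333))))))))
noncomputable def xc4 : XT := (XT.nd (nat_lit 62322) (nat_lit 0) (nat_lit 0) (XT.nd (nat_lit 61074) (nat_lit 0) (nat_lit 0) (XT.nd (nat_lit 60450) (nat_lit 0) (nat_lit 0) (XT.nd (nat_lit 60138) (nat_lit 0) (nat_lit 152) (XT.nd (nat_lit 78) (nat_lit 0) (nat_lit 0) (XT.lf (nat_lit 0) (nat_lit 614623597866) (nat_lit 152) (nat_lit 303477551033) (nat_lit 0) (nat_lit 614256348208) (nat_lit 1) (nat_lit 5) (nat_lit 3) (nat_lit 4) (nat_lit 1) (nat_lit 4) (nat_lit 507) (nat_lit 361) (nat_lit 332)) (XT.nd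 (nat_lit 59982) (nat_lit 0) (nat_lit 228) (XT.lf (nat_lit 0) (nat_lit 670179343729) (nat_lit 152) (nat_lit 314636987316) (nat_lit 0) (nat_lit 669808823327) (nat_lit 1) (nat_lit 5) (nat_lit 3) (nat_lit 4) (nat_lit 1) (nat_lit 4) (nat_lit 508) (nat_lit 361) (nat_lit 331)) (XT.lf (nat_lit 0) (nat_lit 34573615850) (nat_lit 152) (nat_lit 4645154674) (nat_lit 0) (nat_lit 34573615850) (nat_lit 4) (nat_lit 5) (nat_lit 6) (nat_lit 4) (nat_lit 4) (nat_lit 4) (nat_lit 476) (nat_lit 362) (nat_lit 362)))) (XT.nd (nat_lit 156) (nat_lit 0) (nat_lit 0) (XT.nd (nat_lit 78) (nat_lit 0) (nat_lit 0) (XT.lf (nat_lit 0) (nat_lit 21820169645) (nat_lit 76) (nat_lit 68413174567) (nat_lit 76) (nat_lit 68378616572) (nat_lit 3) (nat_lit 4) (nat_lit 4) (nat_lit 5) (nat_lit 4) (nat_lit 4) (nat_lit 477) (nat_lit 362) (nat_lit 361)) (XT.lf (nat_lit 0) (nat_lit 54181954646) (nat_lit 76) (nat_lit 58218119729) (nat_lit 76) (nat_lit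 58151563590) (nat_lit 3) (nat_lit 4) (nat_lit 4) (nat_lit 5) (nat_lit 4) (nat_lit 4) (nat_lit 478) (nat_lit 362) (nat_lit 360))) (XT.nd (nat_lit 78) (nat_lit 0) (nat_lit 0) (XT.lf (nat_lit 0) (nat_lit 87679639610) (nat_lit 76) (nat_lit 47949297279) (nat_lit 76) (nat_lit 47853113229) (nat_lit 3) (nat_lit 4) (nat_lit 4) (nat_lit 5) (nat_lit 4) (nat_lit 4) (nat_lit 479) (nat_lit 362) (nat_lit 359)) (XT.lf (nat_lit 0) (nat_lit 122511729337) (nat_lit 76) (nat_lit 37545854935) (nat_lit 76) (nat_lit 37422237635) (nat_lit 3) (nat_lit 4) (nat_lit 4) (nat_lit 5) (nat_lit 4) (nat_lit 4) (nat_lit 480) (nat_lit 362) (nat_lit 358))))) (XT.nd (nat_lit 312) (nat_lit 0) (nat_lit 0) (XT.nd (nat_lit 156) (nat_lit 152) (nat_lit 0) (XT.nd (nat_lit 78) (nat_lit 0) (nat_lit 0) (XT.lf (nat_lit 0) (nat_lit 158884636211) (nat_lit 76) (nat_lit 26946142669) (nat_lit 76) (nat_lit 26797124211) (nat_lit 3) (nat_lit 4) (nat_lit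 4) (nat_lit 5) (nat_lit 4) (nat_lit 4) (nat_lit 481) (nat_lit 362) (nat_lit 357)) (XT.lf (nat_lit 0) (nat_lit 197013903384) (nat_lit 76) (nat_lit 16087347372) (nat_lit 76) (nat_lit 15914809323) (nat_lit 3) (nat_lit 4) (nat_lit 4) (nat_lit 5) (nat_lit 4) (nat_lit 4) (nat_lit 482) (nat_lit 362) (nat_lit 356))) (XT.nd (nat_lit 78) (nat_lit 152) (nat_lit 0) (XT.lf (nat_lit 0) (nat_lit 237125482069) (nat_lit 76) (nat_lit 4905120626) (nat_lit 76) (nat_lit 4710805178) (nat_lit 3) (nat_lit 4) (nat_lit 4) (nat_lit 5) (nat_lit 4) (nat_lit 4) (nat_lit 483) (nat_lit 362) (nat_lit 355)) (XT.lf (nat_lit 0) (nat_lit 6987225538) (nat_lit 152) (nat_lit 252117119717) (nat_lit 0) (nat_lit 6782959151) (nat_lit 1) (nat_lit 5) (nat_lit 3) (nat_lit 4) (nat_lit 1) (nat_lit 4) (nat_lit 484) (nat_lit 362) (nat_lit 354)))) (XT.nd (nat_lit 156) (nat_lit 0) (nat_lit 0) (XT.nd (nat_lit 78) (nat_lit 0) (nat_lit 0) (XT.lf (nat_lit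 0) (nat_lit 19233015041) (nat_lit 152) (nat_lit 248328181480) (nat_lit 0) (nat_lit 19010967121) (nat_lit 1) (nat_lit 5) (nat_lit 3) (nat_lit 4) (nat_lit 1) (nat_lit 4) (nat_lit 485) (nat_lit 362) (nat_lit 353)) (XT.lf (nat_lit 0) (nat_lit 32015685349) (nat_lit 152) (nat_lit 245141092614) (nat_lit 0) (nat_lit 31777173047) (nat_lit 1) (nat_lit 5) (nat_lit 3) (nat_lit 4) (nat_lit 1) (nat_lit 4) (nat_lit 486) (nat_lit 362) (nat_lit 352))) (XT.nd (nat_lit 78) (nat_lit 0) (nat_lit 0) (XT.lf (nat_lit 0) (nat_lit 45410985620) (nat_lit 152) (nat_lit 242536966665) (nat_lit 0) (nat_lit 45157228519) (nat_lit 1) (nat_lit 5) (nat_lit 3) (nat_lit 4) (nat_lit 1) (nat_lit 4) (nat_lit 487) (nat_lit 362) (nat_lit 351)) (XT.lf (nat_lit 0) (nat_lit 59498295411) (nat_lit 152) (nat_lit 240500371775) (nat_lit 0) (nat_lit 59230422756) (nat_lit 1) (nat_lit 5) (nat_lit 3) (nat_lit 4) (nat_lit 1) (nat_lit 4) (nat_lit 488)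 (nat_lit 362) (nat_lit 350)))))) (XT.nd (nat_lit 624) (nat_lit 0) (nat_lit 0) (XT.nd (nat_lit 312) (nat_lit 0) (nat_lit 0) (XT.nd (nat_lit 156) (nat_lit 0) (nat_lit 0) (XT.nd (nat_lit 78) (nat_lit 0) (nat_lit 0) (XT.lf (nat_lit 0) (nat_lit 74361095077) (nat_lit 152) (nat_lit 239019239236) (nat_lit 0) (nat_lit 74080152464) (nat_lit 1) (nat_lit 5) (nat_lit 3) (nat_lit 4) (nat_lit 1) (nat_lit 4) (nat_lit 489) (nat_lit 362) (nat_lit 349)) (XT.lf (nat_lit 0) (nat_lit 90087460466) (nat_lit 152) (nat_lit 238084791964) (nat_lit 0) (nat_lit 89794416041) (nat_lit 1) (nat_lit 5) (nat_lit 3) (nat_lit 4) (nat_lit 1) (nat_lit 4) (nat_lit 490) (nat_lit 362) (nat_lit 348))) (XT.nd (nat_lit 78) (nat_lit 0) (nat_lit 0) (XT.lf (nat_lit 0) (nat_lit 106770584856) (nat_lit 152) (nat_lit 237691492494) (nat_lit 0) (nat_lit 106466335050) (nat_lit 1) (nat_lit 5) (nat_lit 3) (nat_lit 4) (nat_lit 1) (nat_lit 4) (nat_lit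 491) (nat_lit 362) (nat_lit 347)) (XT.lf (nat_lit 0) (nat_lit 124509331206) (nat_lit 152) (nat_lit 237837010164) (nat_lit 0) (nat_lit 124194706046) (nat_lit 1) (nat_lit 5) (nat_lit 3) (nat_lit 4) (nat_lit 1) (nat_lit 4) (nat_lit 492) (nat_lit 362) (nat_lit 346)))) (XT.nd (nat_lit 156) (nat_lit 0) (nat_lit 0) (XT.nd (nat_lit 78) (nat_lit 0) (nat_lit 0) (XT.lf (nat_lit 0) (nat_lit 143408818013) (nat_lit 152) (nat_lit 238522207299) (nat_lit 0) (nat_lit 143084586044) (nat_lit 1) (nat_lit 5) (nat_lit 3) (nat_lit 4) (nat_lit 1) (nat_lit 4) (nat_lit 493) (nat_lit 362) (nat_lit 345)) (XT.lf (nat_lit 0) (nat_lit 163581042236) (nat_lit 152) (nat_lit 239751144328) (nat_lit 0) (nat_lit 163247915073) (nat_lit 1) (nat_lit 5) (nat_lit 3) (nat_lit 4) (nat_lit 1) (nat_lit 4) (nat_lit 494) (nat_lit 362) (nat_lit 344))) (XT.nd (nat_lit 78) (nat_lit 0) (nat_lit 0) (XT.lf (nat_lit 0) (nat_lit 185145542981) (nat_lit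 152) (nat_lit 241531103840) (nat_lit 0) (nat_lit 184804179528) (nat_lit 1) (nat_lit 5) (nat_lit 3) (nat_lit 4) (nat_lit 1) (nat_lit 4) (nat_lit 495) (nat_lit 362) (nat_lit 343)) (XT.lf (nat_lit 0) (nat_lit 208230109881) (nat_lit 152) (nat_lit 243872633743) (nat_lit 0) (nat_lit 207881120234) (nat_lit 1) (nat_lit 5) (nat_lit 3) (nat_lit 4) (nat_lit 1) (nat_lit 4) (nat_lit 496) (nat_lit 362) (nat_lit 342))))) (XT.nd (nat_lit 312) (nat_lit 0) (nat_lit 0) (XT.nd (nat_lit 156) (nat_lit 0) (nat_lit 0) (XT.nd (nat_lit 78) (nat_lit 0) (nat_lit 0) (XT.lf (nat_lit 0) (nat_lit 232971540372) (nat_lit 152) (nat_lit 246789609770) (nat_lit 0) (nat_lit 232615489433) (nat_lit 1) (nat_lit 5) (nat_lit 3) (nat_lit 4) (nat_lit 1) (nat_lit 4) (nat_lit 497) (nat_lit 362) (nat_lit 341)) (XT.lf (nat_lit 0) (nat_lit 259516450337) (nat_lit 152) (nat_lit 250299317705) (nat_lit 0) (nat_lit 259153861165) (nat_lit 1) (nat_lit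 5) (nat_lit 3) (nat_lit 4) (nat_lit 1) (nat_lit 4) (nat_lit 498) (nat_lit 362) (nat_lit 340))) (XT.nd (nat_lit 78) (nat_lit 0) (nat_lit 0) (XT.lf (nat_lit 0) (nat_lit 288022142945) (nat_lit 152) (nat_lit 254422555818) (nat_lit 0) (nat_lit 287653499854) (nat_lit 1) (nat_lit 5) (nat_lit 3) (nat_lit 4) (nat_lit 1) (nat_lit 4) (nat_lit 499) (nat_lit 362) (nat_lit 339)) (XT.lf (nat_lit 0) (nat_lit 318657540821) (nat_lit 152) (nat_lit 259183758111) (nat_lit 0) (nat_lit 318283292250) (nat_lit 1) (nat_lit 5) (nat_lit 3) (nat_lit 4) (nat_lit 1) (nat_lit 4) (nat_lit 500) (nat_lit 362) (nat_lit 338)))) (XT.nd (nat_lit 156) (nat_lit 0) (nat_lit 0) (XT.nd (nat_lit 78) (nat_lit 0) (nat_lit 0) (XT.lf (nat_lit 0) (nat_lit 351604187063) (nat_lit 152) (nat_lit 264611139118) (nat_lit 0) (nat_lit 351224748231) (nat_lit 1) (nat_lit 5) (nat_lit 3) (nat_lit 4) (nat_lit 1) (nat_lit 4) (nat_lit 501) (nat_lit 362) (nat_lit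 337)) (XT.lf (nat_lit 0) (nat_lit 387057321055) (nat_lit 152) (nat_lit 270736861095) (nat_lit 0) (nat_lit 386673076427) (nat_lit 1) (nat_lit 5) (nat_lit 3) (nat_lit 4) (nat_lit 1) (nat_lit 4) (nat_lit 502) (nat_lit 362) (nat_lit 336))) (XT.nd (nat_lit 78) (nat_lit 0) (nat_lit 0) (XT.lf (nat_lit 0) (nat_lit 425227035444) (nat_lit 152) (nat_lit 277597224617) (nat_lit 0) (nat_lit 424838341005) (nat_lit 1) (nat_lit 5) (nat_lit 3) (nat_lit 4) (nat_lit 1) (nat_lit 4) (nat_lit 503) (nat_lit 362) (nat_lit 335)) (XT.lf (nat_lit 0) (nat_lit 466339521130) (nat_lit 152) (nat_lit 285232883691) (nat_lit 0) (nat_lit 465946706495) (nat_lit 1) (nat_lit 5) (nat_lit 3) (nat_lit 4) (nat_lit 1) (nat_lit 4) (nat_lit 504) (nat_lit 362) (nat_lit 334))))))) (XT.nd (nat_lit 61074) (nat_lit 0) (nat_lit 0) (XT.nd (nat_lit 60450) (nat_lit 0) (nat_lit 0) (XT.nd (nat_lit 60138) (nat_lit 0) (nat_lit 152) (XT.nd (nat_lit 156)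 (nat_lit 0) (nat_lit 0) (XT.nd (nat_lit 78) (nat_lit 0) (nat_lit 0) (XT.lf (nat_lit 0) (nat_lit 510638407657) (nat_lit 152) (nat_lit 293689086667) (nat_lit 0) (nat_lit 510241778026) (nat_lit 1) (nat_lit 5) (nat_lit 3) (nat_lit 4) (nat_lit 1) (nat_lit 4) (nat_lit 505) (nat_lit 362) (nat_lit 333)) (XT.lf (nat_lit 0) (nat_lit 558386206946) (nat_lit 152) (nat_lit 303015944377) (nat_lit 0) (nat_lit 557986044912) (nat_lit 1) (nat_lit 5) (nat_lit 3) (nat_lit 4) (nat_lit 1) (nat_lit 4) (nat_lit 506) (nat_lit 362) (nat_lit 332))) (XT.nd (nat_lit 59904) (nat_lit 0) (nat_lit 228) (XT.lf (nat_lit 0) (nat_lit 609865868918) (nat_lit 152) (nat_lit 313268727088) (nat_lit 0) (nat_lit 609462436140) (nat_lit 1) (nat_lit 5) (nat_lit 3) (nat_lit 4) (nat_lit 1) (nat_lit 4) (nat_lit 507) (nat_lit 362) (nat_lit 331)) (XT.lf (nat_lit 0) (nat_lit 15185861390) (nat_lit 152) (nat_lit 33618734170) (nat_lit 0) (nat_lit 15185861390)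 (nat_lit 4) (nat_lit 5) (nat_lit 6) (nat_lit 4) (nat_lit 4) (nat_lit 4) (nat_lit 474) (nat_lit 363) (nat_lit 363)))) (XT.nd (nat_lit 156) (nat_lit 76) (nat_lit 0) (XT.nd (nat_lit 78) (nat_lit 0) (nat_lit 0) (XT.lf (nat_lit 0) (nat_lit 49232213380) (nat_lit 152) (nat_lit 38968718000) (nat_lit 0) (nat_lit 49194890745) (nat_lit 4) (nat_lit 5) (nat_lit 6) (nat_lit 4) (nat_lit 4) (nat_lit 4) (nat_lit 475) (nat_lit 363) (nat_lit 362)) (XT.lf (nat_lit 0) (nat_lit 68798453509) (nat_lit 152) (nat_lit 10079051679) (nat_lit 0) (nat_lit 68726572879) (nat_lit 4) (nat_lit 5) (nat_lit 6) (nat_lit 4) (nat_lit 4) (nat_lit 4) (nat_lit 476) (nat_lit 363) (nat_lit 361))) (XT.nd (nat_lit 78) (nat_lit 0) (nat_lit 0) (XT.lf (nat_lit 0) (nat_lit 20250883382) (nat_lit 76) (nat_lit 69251680919) (nat_lit 76) (nat_lit 69147802145) (nat_lit 3) (nat_lit 4) (nat_lit 4) (nat_lit 5) (nat_lit 4) (nat_lit 4) (nat_lit 477) (nat_lit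 363) (nat_lit 360)) (XT.lf (nat_lit 0) (nat_lit 51914090095) (nat_lit 76) (nat_lit 59413278376) (nat_lit 76) (nat_lit 59279771692) (nat_lit 3) (nat_lit 4) (nat_lit 4) (nat_lit 5) (nat_lit 4) (nat_lit 4) (nat_lit 478) (nat_lit 363) (nat_lit 359))))) (XT.nd (nat_lit 312) (nat_lit 152) (nat_lit 0) (XT.nd (nat_lit 156) (nat_lit 0) (nat_lit 0) (XT.nd (nat_lit 78) (nat_lit 0) (nat_lit 0) (XT.lf (nat_lit 0) (nat_lit 84764943313) (nat_lit 76) (nat_lit 49474689533) (nat_lit 76) (nat_lit 49313749598) (nat_lit 3) (nat_lit 4) (nat_lit 4) (nat_lit 5) (nat_lit 4) (nat_lit 4) (nat_lit 479) (nat_lit 363) (nat_lit 358)) (XT.lf (nat_lit 0) (nat_lit 118998114756) (nat_lit 76) (nat_lit 39377019048) (nat_lit 76) (nat_lit 39190677954) (nat_lit 3) (nat_lit 4) (nat_lit 4) (nat_lit 5) (nat_lit 4) (nat_lit 4) (nat_lit 480) (nat_lit 363) (nat_lit 357))) (XT.nd (nat_lit 78) (nat_lit 0) (nat_lit 0) (XT.lf (nat_lit 0) (nat_lit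 154816467663) (nat_lit 76) (nat_lit 29060428873) (nat_lit 76) (nat_lit 28850568189) (nat_lit 3) (nat_lit 4) (nat_lit 4) (nat_lit 5) (nat_lit 4) (nat_lit 4) (nat_lit 481) (nat_lit 363) (nat_lit 356)) (XT.lf (nat_lit 0) (nat_lit 192432258941) (nat_lit 76) (nat_lit 18463783660) (nat_lit 76) (nat_lit 18232145577) (nat_lit 3) (nat_lit 4) (nat_lit 4) (nat_lit 5) (nat_lit 4) (nat_lit 4) (nat_lit 482) (nat_lit 363) (nat_lit 355)))) (XT.nd (nat_lit 156) (nat_lit 0) (nat_lit 0) (XT.nd (nat_lit 78) (nat_lit 152) (nat_lit 0) (XT.lf (nat_lit 0) (nat_lit 232068396981) (nat_lit 76) (nat_lit 7524288474) (nat_lit 76) (nat_lit 7272486133) (nat_lit 3) (nat_lit 4) (nat_lit 4) (nat_lit 5) (nat_lit 4) (nat_lit 4) (nat_lit 483) (nat_lit 363) (nat_lit 354)) (XT.lf (nat_lit 0) (nat_lit 4151803651) (nat_lit 152) (nat_lit 257984840534) (nat_lit 0) (nat_lit 3894210365) (nat_lit 1) (nat_lit 5) (nat_lit 3) (nat_lit 4) (nat_lit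 1) (nat_lit 4) (nat_lit 484) (nat_lit 363) (nat_lit 353))) (XT.nd (nat_lit 78) (nat_lit 0) (nat_lit 0) (XT.lf (nat_lit 0) (nat_lit 16184717022) (nat_lit 152) (nat_lit 254630981350) (nat_lit 0) (nat_lit 15910659353) (nat_lit 1) (nat_lit 5) (nat_lit 3) (nat_lit 4) (nat_lit 1) (nat_lit 4) (nat_lit 485) (nat_lit 363) (nat_lit 352)) (XT.lf (nat_lit 0) (nat_lit 28770279800) (nat_lit 152) (nat_lit 251846743458) (nat_lit 0) (nat_lit 28480977333) (nat_lit 1) (nat_lit 5) (nat_lit 3) (nat_lit 4) (nat_lit 1) (nat_lit 4) (nat_lit 486) (nat_lit 363) (nat_lit 351)))))) (XT.nd (nat_lit 624) (nat_lit 0) (nat_lit 0) (XT.nd (nat_lit 312) (nat_lit 0) (nat_lit 0) (XT.nd (nat_lit 156) (nat_lit 0) (nat_lit 0) (XT.nd (nat_lit 78) (nat_lit 0) (nat_lit 0) (XT.lf (nat_lit 0) (nat_lit 41983073100) (nat_lit 152) (nat_lit 249615627670) (nat_lit 0) (nat_lit 41679655078) (nat_lit 1) (nat_lit 5) (nat_lit 3) (nat_lit 4) (nat_lit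 1) (nat_lit 4) (nat_lit 487) (nat_lit 363) (nat_lit 350)) (XT.lf (nat_lit 0) (nat_lit 55901394954) (nat_lit 152) (nat_lit 247924412560) (nat_lit 0) (nat_lit 55584906975) (nat_lit 1) (nat_lit 5) (nat_lit 3) (nat_lit 4) (nat_lit 1) (nat_lit 4) (nat_lit 488) (nat_lit 363) (nat_lit 349))) (XT.nd (nat_lit 78) (nat_lit 0) (nat_lit 0) (XT.lf (nat_lit 0) (nat_lit 70607724307) (nat_lit 152) (nat_lit 246763076112) (nat_lit 0) (nat_lit 70279134516) (nat_lit 1) (nat_lit 5) (nat_lit 3) (nat_lit 4) (nat_lit 1) (nat_lit 4) (nat_lit 489) (nat_lit 363) (nat_lit 348)) (XT.lf (nat_lit 0) (nat_lit 86189209778) (nat_lit 152) (nat_lit 246124736333) (nat_lit 0) (nat_lit 85849414605) (nat_lit 1) (nat_lit 5) (nat_lit 3) (nat_lit 4) (nat_lit 1) (nat_lit 4) (nat_lit 490) (nat_lit 363) (nat_lit 347)))) (XT.nd (nat_lit 156) (nat_lit 0) (nat_lit 0) (XT.nd (nat_lit 78) (nat_lit 0) (nat_lit 0) (XT.lf (nat_lit 0) (nat_lit 102738186096)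 (nat_lit 152) (nat_lit 246005610467) (nat_lit 0) (nat_lit 102388015569) (nat_lit 1) (nat_lit 5) (nat_lit 3) (nat_lit 4) (nat_lit 1) (nat_lit 4) (nat_lit 491) (nat_lit 363) (nat_lit 346)) (XT.lf (nat_lit 0) (nat_lit 120352721267) (nat_lit 152) (nat_lit 246404992585) (nat_lit 0) (nat_lit 119992943931) (nat_lit 1) (nat_lit 5) (nat_lit 3) (nat_lit 4) (nat_lit 1) (nat_lit 4) (nat_lit 492) (nat_lit 363) (nat_lit 345))) (XT.nd (nat_lit 78) (nat_lit 0) (nat_lit 0) (XT.lf (nat_lit 0) (nat_lit 139137197724) (nat_lit 152) (nat_lit 247325249395) (nat_lit 0) (nat_lit 138768525194) (nat_lit 1) (nat_lit 5) (nat_lit 3) (nat_lit 4) (nat_lit 1) (nat_lit 4) (nat_lit 493) (nat_lit 363) (nat_lit 344)) (XT.lf (nat_lit 0) (nat_lit 159202930881) (nat_lit 152) (nat_lit 248771834270) (nat_lit 0) (nat_lit 158826022061) (nat_lit 1) (nat_lit 5) (nat_lit 3) (nat_lit 4) (nat_lit 1) (nat_lit 4) (nat_lit 494) (nat_lit 363) (nat_lit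 343))))) (XT.nd (nat_lit 312) (nat_lit 0) (nat_lit 0) (XT.nd (nat_lit 156) (nat_lit 0) (nat_lit 0) (XT.nd (nat_lit 78) (nat_lit 0) (nat_lit 0) (XT.lf (nat_lit 0) (nat_lit 180668828787) (nat_lit 152) (nat_lit 250753319565) (nat_lit 0) (nat_lit 180284293773) (nat_lit 1) (nat_lit 5) (nat_lit 3) (nat_lit 4) (nat_lit 1) (nat_lit 4) (nat_lit 495) (nat_lit 363) (nat_lit 342)) (XT.lf (nat_lit 0) (nat_lit 203662096764) (nat_lit 152) (nat_lit 253281447417) (nat_lit 0) (nat_lit 203270500458) (nat_lit 1) (nat_lit 5) (nat_lit 3) (nat_lit 4) (nat_lit 1) (nat_lit 4) (nat_lit 496) (nat_lit 363) (nat_lit 341))) (XT.nd (nat_lit 78) (nat_lit 0) (nat_lit 0) (XT.lf (nat_lit 0) (nat_lit 228318991214) (nat_lit 152) (nat_lit 256371199322) (nat_lit 0) (nat_lit 227920856675) (nat_lit 1) (nat_lit 5) (nat_lit 3) (nat_lit 4) (nat_lit 1) (nat_lit 4) (nat_lit 497) (nat_lit 363) (nat_lit 340)) (XT.lf (nat_lit 0) (nat_lit 254785627066)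 (nat_lit 152) (nat_lit 260040884922) (nat_lit 0) (nat_lit 254381438609) (nat_lit 1) (nat_lit 5) (nat_lit 3) (nat_lit 4) (nat_lit 1) (nat_lit 4) (nat_lit 498) (nat_lit 363) (nat_lit 339)))) (XT.nd (nat_lit 156) (nat_lit 0) (nat_lit 0) (XT.nd (nat_lit 78) (nat_lit 0) (nat_lit 0) (XT.lf (nat_lit 0) (nat_lit 283218843645) (nat_lit 152) (nat_lit 264312250501) (nat_lit 0) (nat_lit 282809049707) (nat_lit 1) (nat_lit 5) (nat_lit 3) (nat_lit 4) (nat_lit 1) (nat_lit 4) (nat_lit 499) (nat_lit 363) (nat_lit 338)) (XT.lf (nat_lit 0) (nat_lit 313787134087) (nat_lit 152) (nat_lit 269210607857) (nat_lit 0) (nat_lit 313372149888) (nat_lit 1) (nat_lit 5) (nat_lit 3) (nat_lit 4) (nat_lit 1) (nat_lit 4) (nat_lit 500) (nat_lit 363) (nat_lit 337))) (XT.nd (nat_lit 78) (nat_lit 0) (nat_lit 0) (XT.lf (nat_lit 0) (nat_lit 346671643814) (nat_lit 152) (nat_lit 274764984291) (nat_lit 0) (nat_lit 346251853820) (nat_lit 1)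 (nat_lit 5) (nat_lit 3) (nat_lit 4) (nat_lit 1) (nat_lit 4) (nat_lit 501) (nat_lit 363) (nat_lit 336)) (XT.lf (nat_lit 0) (nat_lit 382067243998) (nat_lit 152) (nat_lit 281008294628) (nat_lit 0) (nat_lit 381643004192) (nat_lit 1) (nat_lit 5) (nat_lit 3) (nat_lit 4) (nat_lit 1) (nat_lit 4) (nat_lit 502) (nat_lit 363) (nat_lit 335))))))))
noncomputable def xc5 : XT := (XT.nd (nat_lit 62166) (nat_lit 0) (nat_lit 0) (XT.nd (nat_lit 60918) (nat_lit 0) (nat_lit 0) (XT.nd (nat_lit 60294) (nat_lit 0) (nat_lit 152) (XT.nd (nat_lit 312) (nat_lit 0) (nat_lit 0) (XT.nd (nat_lit 156) (nat_lit 0) (nat_lit 0) (XT.nd (nat_lit 78) (nat_lit 0) (nat_lit 0) (XT.lf (nat_lit 0) (nat_lit 420183686341) (nat_lit 152) (nat_lit 287977536261) (nat_lit 0) (nat_lit 419755326340) (nat_lit 1) (nat_lit 5) (nat_lit 3) (nat_lit 4) (nat_lit 1) (nat_lit 4) (nat_lit 503) (nat_lit 363) (nat_lit 334)) (XT.lf (nat_lit 0) (nat_lit 461246846059)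 (nat_lit 152) (nat_lit 295714008400) (nat_lit 0) (nat_lit 460814671062) (nat_lit 1) (nat_lit 5) (nat_lit 3) (nat_lit 4) (nat_lit 1) (nat_lit 4) (nat_lit 504) (nat_lit 363) (nat_lit 333))) (XT.nd (nat_lit 78) (nat_lit 0) (nat_lit 0) (XT.lf (nat_lit 0) (nat_lit 505500060394) (nat_lit 152) (nat_lit 304263556806) (nat_lit 0) (nat_lit 505064352993) (nat_lit 1) (nat_lit 5) (nat_lit 3) (nat_lit 4) (nat_lit 1) (nat_lit 4) (nat_lit 505) (nat_lit 363) (nat_lit 332)) (XT.lf (nat_lit 0) (nat_lit 553205570616) (nat_lit 152) (nat_lit 313676845470) (nat_lit 0) (nat_lit 552766592470) (nat_lit 1) (nat_lit 5) (nat_lit 3) (nat_lit 4) (nat_lit 1) (nat_lit 4) (nat_lit 506) (nat_lit 363) (nat_lit 331)))) (XT.nd (nat_lit 59826) (nat_lit 0) (nat_lit 228) (XT.nd (nat_lit 59748) (nat_lit 0) (nat_lit 380) (XT.lf (nat_lit 0) (nat_lit 604646076044) (nat_lit 152) (nat_lit 324009656844) (nat_lit 0) (nat_lit 604204069432) (nat_lit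 1) (nat_lit 5) (nat_lit 3) (nat_lit 4) (nat_lit 1) (nat_lit 4) (nat_lit 507) (nat_lit 363) (nat_lit 330)) (XT.lf (nat_lit 0) (nat_lit 50535479494) (nat_lit 76) (nat_lit 2550634791) (nat_lit 76) (nat_lit 2550634791) (nat_lit 6) (nat_lit 4) (nat_lit 7) (nat_lit 5) (nat_lit 7) (nat_lit 4) (nat_lit 472) (nat_lit 364) (nat_lit 364))) (XT.nd (nat_lit 78) (nat_lit 0) (nat_lit 0) (XT.lf (nat_lit 0) (nat_lit 12145524289) (nat_lit 152) (nat_lit 95052821221) (nat_lit 0) (nat_lit 12105215843) (nat_lit 4) (nat_lit 5) (nat_lit 6) (nat_lit 4) (nat_lit 4) (nat_lit 4) (nat_lit 473) (nat_lit 364) (nat_lit 363)) (XT.lf (nat_lit 0) (nat_lit 29995042335) (nat_lit 152) (nat_lit 68089310057) (nat_lit 0) (nat_lit 29917411255) (nat_lit 4) (nat_lit 5) (nat_lit 6) (nat_lit 4) (nat_lit 4) (nat_lit 4) (nat_lit 474) (nat_lit 364) (nat_lit 362))))) (XT.nd (nat_lit 312) (nat_lit 0) (nat_lit 0) (XT.nd (nat_lit 156) (nat_lit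 76) (nat_lit 0) (XT.nd (nat_lit 78) (nat_lit 0) (nat_lit 0) (XT.lf (nat_lit 0) (nat_lit 48469432108) (nat_lit 152) (nat_lit 40609302046) (nat_lit 0) (nat_lit 48357243033) (nat_lit 4) (nat_lit 5) (nat_lit 6) (nat_lit 4) (nat_lit 4) (nat_lit 4) (nat_lit 475) (nat_lit 364) (nat_lit 361)) (XT.lf (nat_lit 0) (nat_lit 67678171473) (nat_lit 152) (nat_lit 12449952698) (nat_lit 0) (nat_lit 67533984253) (nat_lit 4) (nat_lit 5) (nat_lit 6) (nat_lit 4) (nat_lit 4) (nat_lit 4) (nat_lit 476) (nat_lit 364) (nat_lit 360))) (XT.nd (nat_lit 78) (nat_lit 0) (nat_lit 0) (XT.lf (nat_lit 0) (nat_lit 17103011380) (nat_lit 76) (nat_lit 70899104553) (nat_lit 76) (nat_lit 70725289423) (nat_lit 3) (nat_lit 4) (nat_lit 4) (nat_lit 5) (nat_lit 4) (nat_lit 4) (nat_lit 477) (nat_lit 364) (nat_lit 359)) (XT.lf (nat_lit 0) (nat_lit 48119386347) (nat_lit 76) (nat_lit 61390935618) (nat_lit 76) (nat_lit 61189687237) (nat_lit 3)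 (nat_lit 4) (nat_lit 4) (nat_lit 5) (nat_lit 4) (nat_lit 4) (nat_lit 478) (nat_lit 364) (nat_lit 358)))) (XT.nd (nat_lit 156) (nat_lit 0) (nat_lit 0) (XT.nd (nat_lit 78) (nat_lit 0) (nat_lit 0) (XT.lf (nat_lit 0) (nat_lit 80371321280) (nat_lit 76) (nat_lit 51758118633) (nat_lit 76) (nat_lit 51531469094) (nat_lit 3) (nat_lit 4) (nat_lit 4) (nat_lit 5) (nat_lit 4) (nat_lit 4) (nat_lit 479) (nat_lit 364) (nat_lit 357)) (XT.lf (nat_lit 0) (nat_lit 114049938756) (nat_lit 76) (nat_lit 41943570239) (nat_lit 76) (nat_lit 41693401109) (nat_lit 3) (nat_lit 4) (nat_lit 4) (nat_lit 5) (nat_lit 4) (nat_lit 4) (nat_lit 480) (nat_lit 364) (nat_lit 356))) (XT.nd (nat_lit 78) (nat_lit 0) (nat_lit 0) (XT.lf (nat_lit 0) (nat_lit 149354815768) (nat_lit 76) (nat_lit 31889130149) (nat_lit 76) (nat_lit 31617183620) (nat_lit 3) (nat_lit 4) (nat_lit 4) (nat_lit 5) (nat_lit 4) (nat_lit 4) (nat_lit 481) (nat_lit 364) (nat_lit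 355)) (XT.lf (nat_lit 0) (nat_lit 186495166402) (nat_lit 76) (nat_lit 21535216495) (nat_lit 76) (nat_lit 21243105708) (nat_lit 3) (nat_lit 4) (nat_lit 4) (nat_lit 5) (nat_lit 4) (nat_lit 4) (nat_lit 482) (nat_lit 364) (nat_lit 354)))))) (XT.nd (nat_lit 624) (nat_lit 0) (nat_lit 0) (XT.nd (nat_lit 312) (nat_lit 0) (nat_lit 0) (XT.nd (nat_lit 156) (nat_lit 0) (nat_lit 0) (XT.nd (nat_lit 78) (nat_lit 152) (nat_lit 0) (XT.lf (nat_lit 0) (nat_lit 225691081624) (nat_lit 76) (nat_lit 10820472753) (nat_lit 76) (nat_lit 10509691357) (nat_lit 3) (nat_lit 4) (nat_lit 4) (nat_lit 5) (nat_lit 4) (nat_lit 4) (nat_lit 483) (nat_lit 364) (nat_lit 353)) (XT.lf (nat_lit 0) (nat_lit 646765659) (nat_lit 152) (nat_lit 265226943446) (nat_lit 0) (nat_lit 334318994) (nat_lit 1) (nat_lit 5) (nat_lit 3) (nat_lit 4) (nat_lit 1) (nat_lit 4) (nat_lit 484) (nat_lit 364) (nat_lit 352))) (XT.nd (nat_lit 78) (nat_lit 0) (nat_lit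 0) (XT.lf (nat_lit 0) (nat_lit 12482571500) (nat_lit 152) (nat_lit 262275935236) (nat_lit 0) (nat_lit 12154880037) (nat_lit 1) (nat_lit 5) (nat_lit 3) (nat_lit 4) (nat_lit 1) (nat_lit 4) (nat_lit 485) (nat_lit 364) (nat_lit 351)) (XT.lf (nat_lit 0) (nat_lit 24885627306) (nat_lit 152) (nat_lit 259864707505) (nat_lit 0) (nat_lit 24543820289) (nat_lit 1) (nat_lit 5) (nat_lit 3) (nat_lit 4) (nat_lit 1) (nat_lit 4) (nat_lit 486) (nat_lit 364) (nat_lit 350)))) (XT.nd (nat_lit 156) (nat_lit 0) (nat_lit 0) (XT.nd (nat_lit 78) (nat_lit 0) (nat_lit 0) (XT.lf (nat_lit 0) (nat_lit 37929432668) (nat_lit 152) (nat_lit 257978971497) (nat_lit 0) (nat_lit 37574555694) (nat_lit 1) (nat_lit 5) (nat_lit 3) (nat_lit 4) (nat_lit 1) (nat_lit 4) (nat_lit 487) (nat_lit 364) (nat_lit 349)) (XT.lf (nat_lit 0) (nat_lit 51691284211) (nat_lit 152) (nat_lit 256607552478) (nat_lit 0) (nat_lit 51324305423) (nat_lit 1) (nat_lit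 5) (nat_lit 3) (nat_lit 4) (nat_lit 1) (nat_lit 4) (nat_lit 488) (nat_lit 364) (nat_lit 348))) (XT.nd (nat_lit 78) (nat_lit 0) (nat_lit 0) (XT.lf (nat_lit 0) (nat_lit 66252733645) (nat_lit 152) (nat_lit 255742323523) (nat_lit 0) (nat_lit 65874549476) (nat_lit 1) (nat_lit 5) (nat_lit 3) (nat_lit 4) (nat_lit 1) (nat_lit 4) (nat_lit 489) (nat_lit 364) (nat_lit 347)) (XT.lf (nat_lit 0) (nat_lit 81700071044) (nat_lit 152) (nat_lit 255378157347) (nat_lit 0) (nat_lit 81311511521) (nat_lit 1) (nat_lit 5) (nat_lit 3) (nat_lit 4) (nat_lit 1) (nat_lit 4) (nat_lit 490) (nat_lit 364) (nat_lit 346))))) (XT.nd (nat_lit 312) (nat_lit 0) (nat_lit 0) (XT.nd (nat_lit 156) (nat_lit 0) (nat_lit 0) (XT.nd (nat_lit 78) (nat_lit 0) (nat_lit 0) (XT.lf (nat_lit 0) (nat_lit 98124836183) (nat_lit 152) (nat_lit 255512895930) (nat_lit 0) (nat_lit 97726669851) (nat_lit 1) (nat_lit 5) (nat_lit 3) (nat_lit 4) (nat_lit 1) (nat_lit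 4) (nat_lit 491) (nat_lit 364) (nat_lit 345)) (XT.lf (nat_lit 0) (nat_lit 115624361004) (nat_lit 152) (nat_lit 256147337722) (nat_lit 0) (nat_lit 115217299479) (nat_lit 1) (nat_lit 5) (nat_lit 3) (nat_lit 4) (nat_lit 1) (nat_lit 4) (nat_lit 492) (nat_lit 364) (nat_lit 344))) (XT.nd (nat_lit 78) (nat_lit 0) (nat_lit 0) (XT.lf (nat_lit 0) (nat_lit 134302346395) (nat_lit 152) (nat_lit 257285242378) (nat_lit 0) (nat_lit 133887048580) (nat_lit 1) (nat_lit 5) (nat_lit 3) (nat_lit 4) (nat_lit 1) (nat_lit 4) (nat_lit 493) (nat_lit 364) (nat_lit 343)) (XT.lf (nat_lit 0) (nat_lit 154269476714) (nat_lit 152) (nat_lit 258933353037) (nat_lit 0) (nat_lit 153846552704) (nat_lit 1) (nat_lit 5) (nat_lit 3) (nat_lit 4) (nat_lit 1) (nat_lit 4) (nat_lit 494) (nat_lit 364) (nat_lit 342)))) (XT.nd (nat_lit 156) (nat_lit 0) (nat_lit 0) (XT.nd (nat_lit 78) (nat_lit 0) (nat_lit 0) (XT.lf (nat_lit 0) (nat_lit 175644075696)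 (nat_lit 152) (nat_lit 261101436281) (nat_lit 0) (nat_lit 175214090395) (nat_lit 1) (nat_lit 5) (nat_lit 3) (nat_lit 4) (nat_lit 1) (nat_lit 4) (nat_lit 495) (nat_lit 364) (nat_lit 341)) (XT.lf (nat_lit 0) (nat_lit 198552807632) (nat_lit 152) (nat_lit 263802340010) (nat_lit 0) (nat_lit 198116284098) (nat_lit 1) (nat_lit 5) (nat_lit 3) (nat_lit 4) (nat_lit 1) (nat_lit 4) (nat_lit 496) (nat_lit 364) (nat_lit 340))) (XT.nd (nat_lit 78) (nat_lit 0) (nat_lit 0) (XT.lf (nat_lit 0) (nat_lit 223131427970) (nat_lit 152) (nat_lit 267052069580) (nat_lit 0) (nat_lit 222688850516) (nat_lit 1) (nat_lit 5) (nat_lit 3) (nat_lit 4) (nat_lit 1) (nat_lit 4) (nat_lit 497) (nat_lit 364) (nat_lit 339)) (XT.lf (nat_lit 0) (nat_lit 249525587793) (nat_lit 152) (nat_lit 270869882647) (nat_lit 0) (nat_lit 249077404859) (nat_lit 1) (nat_lit 5) (nat_lit 3) (nat_lit 4) (nat_lit 1) (nat_lit 4) (nat_lit 498) (nat_lit 364) (nat_lit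 338))))))) (XT.nd (nat_lit 60762) (nat_lit 0) (nat_lit 0) (XT.nd (nat_lit 624) (nat_lit 0) (nat_lit 0) (XT.nd (nat_lit 312) (nat_lit 0) (nat_lit 0) (XT.nd (nat_lit 156) (nat_lit 0) (nat_lit 0) (XT.nd (nat_lit 78) (nat_lit 0) (nat_lit 0) (XT.lf (nat_lit 0) (nat_lit 277891696937) (nat_lit 152) (nat_lit 275278403289) (nat_lit 0) (nat_lit 277438323743) (nat_lit 1) (nat_lit 5) (nat_lit 3) (nat_lit 4) (nat_lit 1) (nat_lit 4) (nat_lit 499) (nat_lit 364) (nat_lit 337)) (XT.lf (nat_lit 0) (nat_lit 308397850864) (nat_lit 152) (nat_lit 280303756072) (nat_lit 0) (nat_lit 307939671874) (nat_lit 1) (nat_lit 5) (nat_lit 3) (nat_lit 4) (nat_lit 1) (nat_lit 4) (nat_lit 500) (nat_lit 364) (nat_lit 336))) (XT.nd (nat_lit 78) (nat_lit 0) (nat_lit 0) (XT.lf (nat_lit 0) (nat_lit 341224826783) (nat_lit 152) (nat_lit 285975720866) (nat_lit 0) (nat_lit 340762197982) (nat_lit 1) (nat_lit 5) (nat_lit 3) (nat_lit 4) (nat_lit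 1) (nat_lit 4) (nat_lit 501) (nat_lit 364) (nat_lit 335)) (XT.lf (nat_lit 0) (nat_lit 376567154921) (nat_lit 152) (nat_lit 292327909313) (nat_lit 0) (nat_lit 376100405924) (nat_lit 1) (nat_lit 5) (nat_lit 3) (nat_lit 4) (nat_lit 1) (nat_lit 4) (nat_lit 502) (nat_lit 364) (nat_lit 334)))) (XT.nd (nat_lit 156) (nat_lit 0) (nat_lit 0) (XT.nd (nat_lit 78) (nat_lit 0) (nat_lit 0) (XT.lf (nat_lit 0) (nat_lit 414634271297) (nat_lit 152) (nat_lit 299397964011) (nat_lit 0) (nat_lit 414163707304) (nat_lit 1) (nat_lit 5) (nat_lit 3) (nat_lit 4) (nat_lit 1) (nat_lit 4) (nat_lit 503) (nat_lit 364) (nat_lit 333)) (XT.lf (nat_lit 0) (nat_lit 455651758822) (nat_lit 152) (nat_lit 307227781581) (nat_lit 0) (nat_lit 455177662425) (nat_lit 1) (nat_lit 5) (nat_lit 3) (nat_lit 4) (nat_lit 1) (nat_lit 4) (nat_lit 504) (nat_lit 364) (nat_lit 332))) (XT.nd (nat_lit 78) (nat_lit 0) (nat_lit 0) (XT.lf (nat_lit 0) (nat_lit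 499862684090) (nat_lit 152) (nat_lit 315863760942) (nat_lit 0) (nat_lit 499385316949) (nat_lit 1) (nat_lit 5) (nat_lit 3) (nat_lit 4) (nat_lit 1) (nat_lit 4) (nat_lit 505) (nat_lit 364) (nat_lit 331)) (XT.lf (nat_lit 0) (nat_lit 547529037768) (nat_lit 152) (nat_lit 325357078268) (nat_lit 0) (nat_lit 547048642160) (nat_lit 1) (nat_lit 5) (nat_lit 3) (nat_lit 4) (nat_lit 1) (nat_lit 4) (nat_lit 506) (nat_lit 364) (nat_lit 330))))) (XT.nd (nat_lit 59826) (nat_lit 0) (nat_lit 228) (XT.nd (nat_lit 59670) (nat_lit 0) (nat_lit 380) (XT.nd (nat_lit 59592) (nat_lit 0) (nat_lit 380) (XT.lf (nat_lit 0) (nat_lit 598933287137) (nat_lit 152) (nat_lit 335763990253) (nat_lit 0) (nat_lit 598450087394) (nat_lit 1) (nat_lit 5) (nat_lit 3) (nat_lit 4) (nat_lit 1) (nat_lit 4) (nat_lit 507) (nat_lit 364) (nat_lit 329)) (XT.lf (nat_lit 0) (nat_lit 10941259618) (nat_lit 76) (nat_lit 18775636522) (nat_lit 76) (nat_lit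 18775636522) (nat_lit 6) (nat_lit 4) (nat_lit 7) (nat_lit 5) (nat_lit 7) (nat_lit 4) (nat_lit 470) (nat_lit 365) (nat_lit 365))) (XT.nd (nat_lit 78) (nat_lit 0) (nat_lit 0) (XT.lf (nat_lit 0) (nat_lit 60401405002) (nat_lit 76) (nat_lit 21743925387) (nat_lit 76) (nat_lit 21698215610) (nat_lit 6) (nat_lit 4) (nat_lit 7) (nat_lit 5) (nat_lit 7) (nat_lit 4) (nat_lit 471) (nat_lit 365) (nat_lit 364)) (XT.lf (nat_lit 0) (nat_lit 100209067657) (nat_lit 76) (nat_lit 5586784398) (nat_lit 76) (nat_lit 5498750753) (nat_lit 6) (nat_lit 4) (nat_lit 7) (nat_lit 5) (nat_lit 7) (nat_lit 4) (nat_lit 472) (nat_lit 365) (nat_lit 363)))) (XT.nd (nat_lit 156) (nat_lit 0) (nat_lit 0) (XT.nd (nat_lit 78) (nat_lit 0) (nat_lit 0) (XT.lf (nat_lit 0) (nat_lit 11321720515) (nat_lit 152) (nat_lit 96824651991) (nat_lit 0) (nat_lit 11200556314) (nat_lit 4) (nat_lit 5) (nat_lit 6) (nat_lit 4) (nat_lit 4) (nat_lit 4) (nat_lit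 473) (nat_lit 365) (nat_lit 362)) (XT.lf (nat_lit 0) (nat_lit 28785137736) (nat_lit 152) (nat_lit 70649883158) (nat_lit 0) (nat_lit 28629415539) (nat_lit 4) (nat_lit 5) (nat_lit 6) (nat_lit 4) (nat_lit 4) (nat_lit 4) (nat_lit 474) (nat_lit 365) (nat_lit 361))) (XT.nd (nat_lit 78) (nat_lit 0) (nat_lit 0) (XT.lf (nat_lit 0) (nat_lit 46902026744) (nat_lit 152) (nat_lit 43900192120) (nat_lit 0) (nat_lit 46714306404) (nat_lit 4) (nat_lit 5) (nat_lit 6) (nat_lit 4) (nat_lit 4) (nat_lit 4) (nat_lit 475) (nat_lit 365) (nat_lit 360)) (XT.lf (nat_lit 0) (nat_lit 65779746883) (nat_lit 152) (nat_lit 16417062190) (nat_lit 0) (nat_lit 65562398631) (nat_lit 4) (nat_lit 5) (nat_lit 6) (nat_lit 4) (nat_lit 4) (nat_lit 4) (nat_lit 476) (nat_lit 365) (nat_lit 359)))))) (XT.nd (nat_lit 624) (nat_lit 152) (nat_lit 0) (XT.nd (nat_lit 312) (nat_lit 0) (nat_lit 0) (XT.nd (nat_lit 156) (nat_lit 0) (nat_lit 0) (XT.nd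 (nat_lit 78) (nat_lit 0) (nat_lit 0) (XT.lf (nat_lit 0) (nat_lit 12357899585) (nat_lit 76) (nat_lit 73365207982) (nat_lit 76) (nat_lit 73120426480) (nat_lit 3) (nat_lit 4) (nat_lit 4) (nat_lit 5) (nat_lit 4) (nat_lit 4) (nat_lit 477) (nat_lit 365) (nat_lit 358)) (XT.lf (nat_lit 0) (nat_lit 42775356268) (nat_lit 76) (nat_lit 64162810905) (nat_lit 76) (nat_lit 63892628244) (nat_lit 3) (nat_lit 4) (nat_lit 4) (nat_lit 5) (nat_lit 4) (nat_lit 4) (nat_lit 478) (nat_lit 365) (nat_lit 357))) (XT.nd (nat_lit 78) (nat_lit 0) (nat_lit 0) (XT.lf (nat_lit 0) (nat_lit 74472737234) (nat_lit 76) (nat_lit 54813116011) (nat_lit 76) (nat_lit 54519413760) (nat_lit 3) (nat_lit 4) (nat_lit 4) (nat_lit 5) (nat_lit 4) (nat_lit 4) (nat_lit 479) (nat_lit 365) (nat_lit 356)) (XT.lf (nat_lit 0) (nat_lit 107637878815) (nat_lit 76) (nat_lit 45260717701) (nat_lit 76) (nat_lit 44945238051) (nat_lit 3) (nat_lit 4) (nat_lit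 4) (nat_lit 5) (nat_lit 4) (nat_lit 4) (nat_lit 480) (nat_lit 365) (nat_lit 355)))) (XT.nd (nat_lit 156) (nat_lit 0) (nat_lit 0) (XT.nd (nat_lit 78) (nat_lit 0) (nat_lit 0) (XT.lf (nat_lit 0) (nat_lit 142467315183) (nat_lit 76) (nat_lit 35449009170) (nat_lit 76) (nat_lit 35113365262) (nat_lit 3) (nat_lit 4) (nat_lit 4) (nat_lit 5) (nat_lit 4) (nat_lit 4) (nat_lit 481) (nat_lit 365) (nat_lit 354)) (XT.lf (nat_lit 0) (nat_lit 179167442998) (nat_lit 76) (nat_lit 25319846961) (nat_lit 76) (nat_lit 24965532443) (nat_lit 3) (nat_lit 4) (nat_lit 4) (nat_lit 5) (nat_lit 4) (nat_lit 4) (nat_lit 482) (nat_lit 365) (nat_lit 353))) (XT.nd (nat_lit 78) (nat_lit 0) (nat_lit 0) (XT.lf (nat_lit 0) (nat_lit 217955744500) (nat_lit 76) (nat_lit 14813206408) (nat_lit 76) (nat_lit 14441604289) (nat_lit 3) (nat_lit 4) (nat_lit 4) (nat_lit 5) (nat_lit 4) (nat_lit 4) (nat_lit 483) (nat_lit 365) (nat_lit 352)) (XT.lf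 (nat_lit 0) (nat_lit 259062076289) (nat_lit 76) (nat_lit 3866825937) (nat_lit 76) (nat_lit 3479216780) (nat_lit 3) (nat_lit 4) (nat_lit 4) (nat_lit 5) (nat_lit 4) (nat_lit 4) (nat_lit 484) (nat_lit 365) (nat_lit 351))))) (XT.nd (nat_lit 312) (nat_lit 0) (nat_lit 0) (XT.nd (nat_lit 156) (nat_lit 0) (nat_lit 0) (XT.nd (nat_lit 78) (nat_lit 0) (nat_lit 0) (XT.lf (nat_lit 0) (nat_lit 8104639834) (nat_lit 152) (nat_lit 271308346568) (nat_lit 0) (nat_lit 7721372701) (nat_lit 1) (nat_lit 5) (nat_lit 3) (nat_lit 4) (nat_lit 1) (nat_lit 4) (nat_lit 485) (nat_lit 365) (nat_lit 350)) (XT.lf (nat_lit 0) (nat_lit 20338707704) (nat_lit 152) (nat_lit 269242498617) (nat_lit 0) (nat_lit 19942370614) (nat_lit 1) (nat_lit 5) (nat_lit 3) (nat_lit 4) (nat_lit 1) (nat_lit 4) (nat_lit 486) (nat_lit 365) (nat_lit 349))) (XT.nd (nat_lit 78) (nat_lit 0) (nat_lit 0) (XT.lf (nat_lit 0) (nat_lit 33226042754) (nat_lit 152)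 (nat_lit 267676558700) (nat_lit 0) (nat_lit 32817603851) (nat_lit 1) (nat_lit 5) (nat_lit 3) (nat_lit 4) (nat_lit 1) (nat_lit 4) (nat_lit 487) (nat_lit 365) (nat_lit 348)) (XT.lf (nat_lit 0) (nat_lit 46843014377) (nat_lit 152) (nat_lit 266601247174) (nat_lit 0) (nat_lit 46423370093) (nat_lit 1) (nat_lit 5) (nat_lit 3) (nat_lit 4) (nat_lit 1) (nat_lit 4) (nat_lit 488) (nat_lit 365) (nat_lit 347)))) (XT.nd (nat_lit 156) (nat_lit 0) (nat_lit 0) (XT.nd (nat_lit 78) (nat_lit 0) (nat_lit 0) (XT.lf (nat_lit 0) (nat_lit 61270315739) (nat_lit 152) (nat_lit 266010191823) (nat_lit 0) (nat_lit 60840296101) (nat_lit 1) (nat_lit 5) (nat_lit 3) (nat_lit 4) (nat_lit 1) (nat_lit 4) (nat_lit 489) (nat_lit 365) (nat_lit 346)) (XT.lf (nat_lit 0) (nat_lit 76593441959) (nat_lit 152) (nat_lit 265899890096) (nat_lit 0) (nat_lit 76153815512) (nat_lit 1) (nat_lit 5) (nat_lit 3) (nat_lit 4) (nat_lit 1) (nat_lit 4) (nat_lit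 490) (nat_lit 365) (nat_lit 345))) (XT.nd (nat_lit 78) (nat_lit 0) (nat_lit 0) (XT.lf (nat_lit 0) (nat_lit 92903196748) (nat_lit 152) (nat_lit 266269688353) (nat_lit 0) (nat_lit 92454675107) (nat_lit 1) (nat_lit 5) (nat_lit 3) (nat_lit 4) (nat_lit 1) (nat_lit 4) (nat_lit 491) (nat_lit 365) (nat_lit 344)) (XT.lf (nat_lit 0) (nat_lit 110296230504) (nat_lit 152) (nat_lit 267121777991) (nat_lit 0) (nat_lit 109839472573) (nat_lit 1) (nat_lit 5) (nat_lit 3) (nat_lit 4) (nat_lit 1) (nat_lit 4) (nat_lit 492) (nat_lit 365) (nat_lit 343))))))))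
noncomputable def xc6 : XT := (XT.nd (nat_lit 61776) (nat_lit 0) (nat_lit 0) (XT.nd (nat_lit 60528) (nat_lit 0) (nat_lit 152) (XT.nd (nat_lit 546) (nat_lit 0) (nat_lit 0) (XT.nd (nat_lit 234) (nat_lit 0) (nat_lit 0) (XT.nd (nat_lit 78) (nat_lit 0) (nat_lit 0) (XT.lf (nat_lit 0) (nat_lit 128875613057) (nat_lit 152) (nat_lit 268461208431) (nat_lit 0) (nat_lit 128411228931) (nat_lit 1) (nat_lit 5) (nat_lit 3) (nat_lit 4) (nat_lit 1) (nat_lit 4) (nat_lit 493) (nat_lit 365) (nat_lit 342)) (XT.nd (nat_lit 78) (nat_lit 0) (nat_lit 0) (XT.lf (nat_lit 0) (nat_lit 148751444452) (nat_lit 152) (nat_lit 270295917038) (nat_lit 0) (nat_lit 148279999035) (nat_lit 1) (nat_lit 5) (nat_lit 3) (nat_lit 4) (nat_lit 1) (nat_lit 4) (nat_lit 494) (nat_lit 365) (nat_lit 341)) (XT.lf (nat_lit 0) (nat_lit 170041507393) (nat_lit 152) (nat_lit 272636776160) (nat_lit 0) (nat_lit 169563523743) (nat_lit 1) (nat_lit 5) (nat_lit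 3) (nat_lit 4) (nat_lit 1) (nat_lit 4) (nat_lit 495) (nat_lit 365) (nat_lit 340)))) (XT.nd (nat_lit 156) (nat_lit 0) (nat_lit 0) (XT.nd (nat_lit 78) (nat_lit 0) (nat_lit 0) (XT.lf (nat_lit 0) (nat_lit 192871965217) (nat_lit 152) (nat_lit 275497657553) (nat_lit 0) (nat_lit 192387927648) (nat_lit 1) (nat_lit 5) (nat_lit 3) (nat_lit 4) (nat_lit 1) (nat_lit 4) (nat_lit 496) (nat_lit 365) (nat_lit 339)) (XT.lf (nat_lit 0) (nat_lit 217378109525) (nat_lit 152) (nat_lit 278895514590) (nat_lit 0) (nat_lit 216888466475) (nat_lit 1) (nat_lit 5) (nat_lit 3) (nat_lit 4) (nat_lit 1) (nat_lit 4) (nat_lit 497) (nat_lit 365) (nat_lit 338))) (XT.nd (nat_lit 78) (nat_lit 0) (nat_lit 0) (XT.lf (nat_lit 0) (nat_lit 243705161913) (nat_lit 152) (nat_lit 282850482720) (nat_lit 0) (nat_lit 243210328603) (nat_lit 1) (nat_lit 5) (nat_lit 3) (nat_lit 4) (nat_lit 1) (nat_lit 4) (nat_lit 498) (nat_lit 365) (nat_lit 337))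 (XT.lf (nat_lit 0) (nat_lit 272009134543) (nat_lit 152) (nat_lit 287385998790) (nat_lit 0) (nat_lit 271509495438) (nat_lit 1) (nat_lit 5) (nat_lit 3) (nat_lit 4) (nat_lit 1) (nat_lit 4) (nat_lit 499) (nat_lit 365) (nat_lit 336))))) (XT.nd (nat_lit 312) (nat_lit 0) (nat_lit 0) (XT.nd (nat_lit 156) (nat_lit 0) (nat_lit 0) (XT.nd (nat_lit 78) (nat_lit 0) (nat_lit 0) (XT.lf (nat_lit 0) (nat_lit 302457754662) (nat_lit 152) (nat_lit 292528939933) (nat_lit 0) (nat_lit 301953665745) (nat_lit 1) (nat_lit 5) (nat_lit 3) (nat_lit 4) (nat_lit 1) (nat_lit 4) (nat_lit 500) (nat_lit 365) (nat_lit 335)) (XT.lf (nat_lit 0) (nat_lit 335231458535) (nat_lit 152) (nat_lit 298309782837) (nat_lit 0) (nat_lit 334723249423) (nat_lit 1) (nat_lit 5) (nat_lit 3) (nat_lit 4) (nat_lit 1) (nat_lit 4) (nat_lit 501) (nat_lit 365) (nat_lit 334))) (XT.nd (nat_lit 78) (nat_lit 0) (nat_lit 0) (XT.lf (nat_lit 0) (nat_lit 370524460705)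 (nat_lit 152) (nat_lit 304762784349) (nat_lit 0) (nat_lit 370012436597) (nat_lit 1) (nat_lit 5) (nat_lit 3) (nat_lit 4) (nat_lit 1) (nat_lit 4) (nat_lit 502) (nat_lit 365) (nat_lit 333)) (XT.lf (nat_lit 0) (nat_lit 408545904888) (nat_lit 152) (nat_lit 311926184478) (nat_lit 0) (nat_lit 408030348376) (nat_lit 1) (nat_lit 5) (nat_lit 3) (nat_lit 4) (nat_lit 1) (nat_lit 4) (nat_lit 503) (nat_lit 365) (nat_lit 332)))) (XT.nd (nat_lit 156) (nat_lit 0) (nat_lit 0) (XT.nd (nat_lit 78) (nat_lit 0) (nat_lit 0) (XT.lf (nat_lit 0) (nat_lit 449521103346) (nat_lit 152) (nat_lit 319842433002) (nat_lit 0) (nat_lit 449002276090) (nat_lit 1) (nat_lit 5) (nat_lit 3) (nat_lit 4) (nat_lit 1) (nat_lit 4) (nat_lit 504) (nat_lit 365) (nat_lit 331)) (XT.lf (nat_lit 0) (nat_lit 493692872070) (nat_lit 152) (nat_lit 328558441024) (nat_lit 0) (nat_lit 493171016347) (nat_lit 1) (nat_lit 5) (nat_lit 3) (nat_lit 4) (nat_lit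 1) (nat_lit 4) (nat_lit 505) (nat_lit 365) (nat_lit 330))) (XT.nd (nat_lit 78) (nat_lit 0) (nat_lit 0) (XT.lf (nat_lit 0) (nat_lit 541322969689) (nat_lit 152) (nat_lit 338125858963) (nat_lit 0) (nat_lit 540798309830) (nat_lit 1) (nat_lit 5) (nat_lit 3) (nat_lit 4) (nat_lit 1) (nat_lit 4) (nat_lit 506) (nat_lit 365) (nat_lit 329)) (XT.lf (nat_lit 0) (nat_lit 592693648634) (nat_lit 152) (nat_lit 348601382626) (nat_lit 0) (nat_lit 592166392353) (nat_lit 1) (nat_lit 5) (nat_lit 3) (nat_lit 4) (nat_lit 1) (nat_lit 4) (nat_lit 507) (nat_lit 365) (nat_lit 328)))))) (XT.nd (nat_lit 624) (nat_lit 76) (nat_lit 0) (XT.nd (nat_lit 312) (nat_lit 152) (nat_lit 0) (XT.nd (nat_lit 156) (nat_lit 76) (nat_lit 0) (XT.nd (nat_lit 78) (nat_lit 0) (nat_lit 0) (XT.lf (nat_lit 0) (nat_lit 8817499535) (nat_lit 152) (nat_lit 24775977919) (nat_lit 0) (nat_lit 8817499535) (nat_lit 7) (nat_lit 5) (nat_lit 9) (nat_lit 4)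 (nat_lit 7) (nat_lit 4) (nat_lit 468) (nat_lit 366) (nat_lit 366)) (XT.lf (nat_lit 0) (nat_lit 37819200063) (nat_lit 152) (nat_lit 15077325237) (nat_lit 0) (nat_lit 37769833504) (nat_lit 7) (nat_lit 5) (nat_lit 9) (nat_lit 4) (nat_lit 7) (nat_lit 4) (nat_lit 469) (nat_lit 366) (nat_lit 365))) (XT.nd (nat_lit 78) (nat_lit 0) (nat_lit 0) (XT.lf (nat_lit 0) (nat_lit 20951676598) (nat_lit 76) (nat_lit 38075629045) (nat_lit 76) (nat_lit 37980552708) (nat_lit 6) (nat_lit 4) (nat_lit 7) (nat_lit 5) (nat_lit 7) (nat_lit 4) (nat_lit 470) (nat_lit 366) (nat_lit 364)) (XT.lf (nat_lit 0) (nat_lit 58608671031) (nat_lit 76) (nat_lit 22708086427) (nat_lit 76) (nat_lit 22570686222) (nat_lit 6) (nat_lit 4) (nat_lit 7) (nat_lit 5) (nat_lit 7) (nat_lit 4) (nat_lit 471) (nat_lit 366) (nat_lit 363)))) (XT.nd (nat_lit 156) (nat_lit 0) (nat_lit 0) (XT.nd (nat_lit 78) (nat_lit 152) (nat_lit 0) (XT.lf (nat_lit 0) (nat_lit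 97618286157) (nat_lit 76) (nat_lit 6958172325) (nat_lit 76) (nat_lit 6781583354) (nat_lit 6) (nat_lit 4) (nat_lit 7) (nat_lit 5) (nat_lit 7) (nat_lit 4) (nat_lit 472) (nat_lit 366) (nat_lit 362)) (XT.lf (nat_lit 0) (nat_lit 9628922722) (nat_lit 152) (nat_lit 100378813271) (nat_lit 0) (nat_lit 9426184755) (nat_lit 4) (nat_lit 5) (nat_lit 6) (nat_lit 4) (nat_lit 4) (nat_lit 4) (nat_lit 473) (nat_lit 366) (nat_lit 361))) (XT.nd (nat_lit 78) (nat_lit 0) (nat_lit 0) (XT.lf (nat_lit 0) (nat_lit 26734839179) (nat_lit 152) (nat_lit 74934361409) (nat_lit 0) (nat_lit 26500103067) (nat_lit 4) (nat_lit 5) (nat_lit 6) (nat_lit 4) (nat_lit 4) (nat_lit 4) (nat_lit 474) (nat_lit 366) (nat_lit 360)) (XT.lf (nat_lit 0) (nat_lit 44520708961) (nat_lit 152) (nat_lit 48860889790) (nat_lit 0) (nat_lit 44256344939) (nat_lit 4) (nat_lit 5) (nat_lit 6) (nat_lit 4) (nat_lit 4) (nat_lit 4) (nat_lit 475) (nat_lit 366) (nat_lit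 359))))) (XT.nd (nat_lit 312) (nat_lit 0) (nat_lit 0) (XT.nd (nat_lit 156) (nat_lit 0) (nat_lit 0) (XT.nd (nat_lit 78) (nat_lit 76) (nat_lit 0) (XT.lf (nat_lit 0) (nat_lit 63091929816) (nat_lit 152) (nat_lit 22003888952) (nat_lit 0) (nat_lit 62800132543) (nat_lit 4) (nat_lit 5) (nat_lit 6) (nat_lit 4) (nat_lit 4) (nat_lit 4) (nat_lit 476) (nat_lit 366) (nat_lit 358)) (XT.lf (nat_lit 0) (nat_lit 5987428815) (nat_lit 76) (nat_lit 76664605149) (nat_lit 76) (nat_lit 76347406718) (nat_lit 3) (nat_lit 4) (nat_lit 4) (nat_lit 5) (nat_lit 4) (nat_lit 4) (nat_lit 477) (nat_lit 366) (nat_lit 357))) (XT.nd (nat_lit 78) (nat_lit 0) (nat_lit 0) (XT.lf (nat_lit 0) (nat_lit 35850331531) (nat_lit 76) (nat_lit 67745330164) (nat_lit 76) (nat_lit 67404612142) (nat_lit 3) (nat_lit 4) (nat_lit 4) (nat_lit 5) (nat_lit 4) (nat_lit 4) (nat_lit 478) (nat_lit 366) (nat_lit 356)) (XT.lf (nat_lit 0) (nat_lit 67034236601)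 (nat_lit 76) (nat_lit 58657785354) (nat_lit 76) (nat_lit 58295289933) (nat_lit 3) (nat_lit 4) (nat_lit 4) (nat_lit 5) (nat_lit 4) (nat_lit 4) (nat_lit 479) (nat_lit 366) (nat_lit 355)))) (XT.nd (nat_lit 156) (nat_lit 0) (nat_lit 0) (XT.nd (nat_lit 78) (nat_lit 0) (nat_lit 0) (XT.lf (nat_lit 0) (nat_lit 99723937538) (nat_lit 76) (nat_lit 49348118604) (nat_lit 76) (nat_lit 48965458925) (nat_lit 3) (nat_lit 4) (nat_lit 4) (nat_lit 5) (nat_lit 4) (nat_lit 4) (nat_lit 480) (nat_lit 366) (nat_lit 354)) (XT.lf (nat_lit 0) (nat_lit 134113151088) (nat_lit 76) (nat_lit 39761161517) (nat_lit 76) (nat_lit 39359831229) (nat_lit 3) (nat_lit 4) (nat_lit 4) (nat_lit 5) (nat_lit 4) (nat_lit 4) (nat_lit 481) (nat_lit 366) (nat_lit 353))) (XT.nd (nat_lit 78) (nat_lit 0) (nat_lit 0) (XT.lf (nat_lit 0) (nat_lit 170405665183) (nat_lit 76) (nat_lit 29840102497) (nat_lit 76) (nat_lit 29421484607) (nat_lit 3) (nat_lit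 4) (nat_lit 4) (nat_lit 5) (nat_lit 4) (nat_lit 4) (nat_lit 482) (nat_lit 366) (nat_lit 352)) (XT.lf (nat_lit 0) (nat_lit 208816546573) (nat_lit 76) (nat_lit 19526150081) (nat_lit 76) (nat_lit 19091525153) (nat_lit 3) (nat_lit 4) (nat_lit 4) (nat_lit 5) (nat_lit 4) (nat_lit 4) (nat_lit 483) (nat_lit 366) (nat_lit 351))))))) (XT.nd (nat_lit 1248) (nat_lit 0) (nat_lit 0) (XT.nd (nat_lit 624) (nat_lit 0) (nat_lit 0) (XT.nd (nat_lit 312) (nat_lit 0) (nat_lit 0) (XT.nd (nat_lit 156) (nat_lit 0) (nat_lit 0) (XT.nd (nat_lit 78) (nat_lit 152) (nat_lit 0) (XT.lf (nat_lit 0) (nat_lit 249573415296) (nat_lit 76) (nat_lit 8758184553) (nat_lit 76) (nat_lit 8308738293) (nat_lit 3) (nat_lit 4) (nat_lit 4) (nat_lit 5) (nat_lit 4) (nat_lit 4) (nat_lit 484) (nat_lit 366) (nat_lit 350)) (XT.lf (nat_lit 0) (nat_lit 3024978726) (nat_lit 152) (nat_lit 281781740748) (nat_lit 0) (nat_lit 2583864711) (nat_lit 1) (nat_lit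 5) (nat_lit 3) (nat_lit 4) (nat_lit 1) (nat_lit 4) (nat_lit 485) (nat_lit 366) (nat_lit 349))) (XT.nd (nat_lit 78) (nat_lit 0) (nat_lit 0) (XT.lf (nat_lit 0) (nat_lit 15102576284) (nat_lit 152) (nat_lit 280035688888) (nat_lit 0) (nat_lit 14649360456) (nat_lit 1) (nat_lit 5) (nat_lit 3) (nat_lit 4) (nat_lit 1) (nat_lit 4) (nat_lit 486) (nat_lit 366) (nat_lit 348)) (XT.lf (nat_lit 0) (nat_lit 27845031415) (nat_lit 152) (nat_lit 278765856464) (nat_lit 0) (nat_lit 27380610206) (nat_lit 1) (nat_lit 5) (nat_lit 3) (nat_lit 4) (nat_lit 1) (nat_lit 4) (nat_lit 487) (nat_lit 366) (nat_lit 347)))) (XT.nd (nat_lit 156) (nat_lit 0) (nat_lit 0) (XT.nd (nat_lit 78) (nat_lit 0) (nat_lit 0) (XT.lf (nat_lit 0) (nat_lit 41327854966) (nat_lit 152) (nat_lit 277964718542) (nat_lit 0) (nat_lit 40853058403) (nat_lit 1) (nat_lit 5) (nat_lit 3) (nat_lit 4) (nat_lit 1) (nat_lit 4) (nat_lit 488) (nat_lit 366) (nat_lit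 346)) (XT.lf (nat_lit 0) (nat_lit 55630945150) (nat_lit 152) (nat_lit 277627527639) (nat_lit 0) (nat_lit 55146541778) (nat_lit 1) (nat_lit 5) (nat_lit 3) (nat_lit 4) (nat_lit 1) (nat_lit 4) (nat_lit 489) (nat_lit 366) (nat_lit 345))) (XT.nd (nat_lit 78) (nat_lit 0) (nat_lit 0) (XT.lf (nat_lit 0) (nat_lit 70839061019) (nat_lit 152) (nat_lit 277752285586) (nat_lit 0) (nat_lit 70345762454) (nat_lit 1) (nat_lit 5) (nat_lit 3) (nat_lit 4) (nat_lit 1) (nat_lit 4) (nat_lit 490) (nat_lit 366) (nat_lit 344)) (XT.lf (nat_lit 0) (nat_lit 87042324742) (nat_lit 152) (nat_lit 278339731690) (nat_lit 0) (nat_lit 86540789887) (nat_lit 1) (nat_lit 5) (nat_lit 3) (nat_lit 4) (nat_lit 1) (nat_lit 4) (nat_lit 491) (nat_lit 366) (nat_lit 343))))) (XT.nd (nat_lit 312) (nat_lit 0) (nat_lit 0) (XT.nd (nat_lit 156) (nat_lit 0) (nat_lit 0) (XT.nd (nat_lit 78) (nat_lit 0) (nat_lit 0) (XT.lf (nat_lit 0) (nat_lit 104336755660)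 (nat_lit 152) (nat_lit 279393347112) (nat_lit 0) (nat_lit 103827594610) (nat_lit 1) (nat_lit 5) (nat_lit 3) (nat_lit 4) (nat_lit 1) (nat_lit 4) (nat_lit 492) (nat_lit 366) (nat_lit 342)) (XT.lf (nat_lit 0) (nat_lit 122824839289) (nat_lit 152) (nat_lit 280919375500) (nat_lit 0) (nat_lit 122308616947) (nat_lit 1) (nat_lit 5) (nat_lit 3) (nat_lit 4) (nat_lit 1) (nat_lit 4) (nat_lit 493) (nat_lit 366) (nat_lit 341))) (XT.nd (nat_lit 78) (nat_lit 0) (nat_lit 0) (XT.lf (nat_lit 0) (nat_lit 142616134643) (nat_lit 152) (nat_lit 282926859985) (nat_lit 0) (nat_lit 142093374069) (nat_lit 1) (nat_lit 5) (nat_lit 3) (nat_lit 4) (nat_lit 1) (nat_lit 4) (nat_lit 494) (nat_lit 366) (nat_lit 340)) (XT.lf (nat_lit 0) (nat_lit 163827923472) (nat_lit 152) (nat_lit 285427696771) (nat_lit 0) (nat_lit 163299108979) (nat_lit 1) (nat_lit 5) (nat_lit 3) (nat_lit 4) (nat_lit 1) (nat_lit 4) (nat_lit 495) (nat_lit 366) (nat_lit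 339)))) (XT.nd (nat_lit 156) (nat_lit 0) (nat_lit 0) (XT.nd (nat_lit 78) (nat_lit 0) (nat_lit 0) (XT.lf (nat_lit 0) (nat_lit 186585905266) (nat_lit 152) (nat_lit 288436705632) (nat_lit 0) (nat_lit 186051485292) (nat_lit 1) (nat_lit 5) (nat_lit 3) (nat_lit 4) (nat_lit 1) (nat_lit 4) (nat_lit 496) (nat_lit 366) (nat_lit 338)) (XT.lf (nat_lit 0) (nat_lit 211024942139) (nat_lit 152) (nat_lit 291971717731) (nat_lit 0) (nat_lit 210485331905) (nat_lit 1) (nat_lit 5) (nat_lit 3) (nat_lit 4) (nat_lit 1) (nat_lit 4) (nat_lit 497) (nat_lit 366) (nat_lit 337))) (XT.nd (nat_lit 78) (nat_lit 0) (nat_lit 0) (XT.lf (nat_lit 0) (nat_lit 237289858014) (nat_lit 152) (nat_lit 296053681289) (nat_lit 0) (nat_lit 236745441984) (nat_lit 1) (nat_lit 5) (nat_lit 3) (nat_lit 4) (nat_lit 1) (nat_lit 4) (nat_lit 498) (nat_lit 366) (nat_lit 336)) (XT.lf (nat_lit 0) (nat_lit 265536296836) (nat_lit 152) (nat_lit 300706785718)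 (nat_lit 0) (nat_lit 264987430994) (nat_lit 1) (nat_lit 5) (nat_lit 3) (nat_lit 4) (nat_lit 1) (nat_lit 4) (nat_lit 499) (nat_lit 366) (nat_lit 335)))))) (XT.nd (nat_lit 59826) (nat_lit 0) (nat_lit 228) (XT.nd (nat_lit 312) (nat_lit 0) (nat_lit 0) (XT.nd (nat_lit 156) (nat_lit 0) (nat_lit 0) (XT.nd (nat_lit 78) (nat_lit 0) (nat_lit 0) (XT.lf (nat_lit 0) (nat_lit 295931644909) (nat_lit 152) (nat_lit 305958604971) (nat_lit 0) (nat_lit 295378658871) (nat_lit 1) (nat_lit 5) (nat_lit 3) (nat_lit 4) (nat_lit 1) (nat_lit 4) (nat_lit 500) (nat_lit 366) (nat_lit 334)) (XT.lf (nat_lit 0) (nat_lit 328656022814) (nat_lit 152) (nat_lit 311840260941) (nat_lit 0) (nat_lit 328099221781) (nat_lit 1) (nat_lit 5) (nat_lit 3) (nat_lit 4) (nat_lit 1) (nat_lit 4) (nat_lit 501) (nat_lit 366) (nat_lit 333))) (XT.nd (nat_lit 78) (nat_lit 0) (nat_lit 0) (XT.lf (nat_lit 0) (nat_lit 363903352792) (nat_lit 152) (nat_lit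 318386607883) (nat_lit 0) (nat_lit 363343019355) (nat_lit 1) (nat_lit 5) (nat_lit 3) (nat_lit 4) (nat_lit 1) (nat_lit 4) (nat_lit 502) (nat_lit 366) (nat_lit 332)) (XT.lf (nat_lit 0) (nat_lit 401882507907) (nat_lit 152) (nat_lit 325636438967) (nat_lit 0) (nat_lit 401318903726) (nat_lit 1) (nat_lit 5) (nat_lit 3) (nat_lit 4) (nat_lit 1) (nat_lit 4) (nat_lit 503) (nat_lit 366) (nat_lit 331)))) (XT.nd (nat_lit 156) (nat_lit 0) (nat_lit 0) (XT.nd (nat_lit 78) (nat_lit 0) (nat_lit 0) (XT.lf (nat_lit 0) (nat_lit 442818549822) (nat_lit 152) (nat_lit 333632716153) (nat_lit 0) (nat_lit 442251917174) (nat_lit 1) (nat_lit 5) (nat_lit 3) (nat_lit 4) (nat_lit 1) (nat_lit 4) (nat_lit 504) (nat_lit 366) (nat_lit 330)) (XT.lf (nat_lit 0) (nat_lit 486954062487) (nat_lit 152) (nat_lit 342422824788) (nat_lit 0) (nat_lit 486384625703) (nat_lit 1) (nat_lit 5) (nat_lit 3) (nat_lit 4) (nat_lit 1) (nat_lit 4) (nat_lit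 505) (nat_lit 366) (nat_lit 329))) (XT.nd (nat_lit 78) (nat_lit 0) (nat_lit 0) (XT.lf (nat_lit 0) (nat_lit 534550589681) (nat_lit 152) (nat_lit 352058854404) (nat_lit 0) (nat_lit 533978556475) (nat_lit 1) (nat_lit 5) (nat_lit 3) (nat_lit 4) (nat_lit 1) (nat_lit 4) (nat_lit 506) (nat_lit 366) (nat_lit 328)) (XT.lf (nat_lit 0) (nat_lit 585890184899) (nat_lit 152) (nat_lit 362597907399) (nat_lit 0) (nat_lit 585315747598) (nat_lit 1) (nat_lit 5) (nat_lit 3) (nat_lit 4) (nat_lit 1) (nat_lit 4) (nat_lit 507) (nat_lit 366) (nat_lit 327))))) (XT.nd (nat_lit 312) (nat_lit 228) (nat_lit 0) (XT.nd (nat_lit 156) (nat_lit 152) (nat_lit 0) (XT.nd (nat_lit 78) (nat_lit 0) (nat_lit 0) (XT.lf (nat_lit 0) (nat_lit 17005145137) (nat_lit 76) (nat_lit 10109264660) (nat_lit 76) (nat_lit 10109264660) (nat_lit 9) (nat_lit 4) (nat_lit 10) (nat_lit 5) (nat_lit 10) (nat_lit 4) (nat_lit 466) (nat_lit 367) (nat_lit 367))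 (XT.lf (nat_lit 0) (nat_lit 75622266087) (nat_lit 76) (nat_lit 1941977863) (nat_lit 76) (nat_lit 1885996185) (nat_lit 9) (nat_lit 4) (nat_lit 10) (nat_lit 5) (nat_lit 10) (nat_lit 4) (nat_lit 467) (nat_lit 367) (nat_lit 366))) (XT.nd (nat_lit 78) (nat_lit 0) (nat_lit 0) (XT.lf (nat_lit 0) (nat_lit 17211689209) (nat_lit 152) (nat_lit 50525089689) (nat_lit 0) (nat_lit 17109006765) (nat_lit 7) (nat_lit 5) (nat_lit 9) (nat_lit 4) (nat_lit 7) (nat_lit 4) (nat_lit 468) (nat_lit 367) (nat_lit 365)) (XT.lf (nat_lit 0) (nat_lit 36954570067) (nat_lit 152) (nat_lit 16951508948) (nat_lit 0) (nat_lit 36806177846) (nat_lit 7) (nat_lit 5) (nat_lit 9) (nat_lit 4) (nat_lit 7) (nat_lit 4) (nat_lit 469) (nat_lit 367) (nat_lit 364)))) (XT.nd (nat_lit 156) (nat_lit 152) (nat_lit 0) (XT.nd (nat_lit 78) (nat_lit 0) (nat_lit 0) (XT.lf (nat_lit 0) (nat_lit 18153632578) (nat_lit 76) (nat_lit 39556728006) (nat_lit 76)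 (nat_lit 39366011917) (nat_lit 6) (nat_lit 4) (nat_lit 7) (nat_lit 5) (nat_lit 7) (nat_lit 4) (nat_lit 470) (nat_lit 367) (nat_lit 363)) (XT.lf (nat_lit 0) (nat_lit 55012579481) (nat_lit 76) (nat_lit 24596412275) (nat_lit 76) (nat_lit 24366507420) (nat_lit 6) (nat_lit 4) (nat_lit 7) (nat_lit 5) (nat_lit 7) (nat_lit 4) (nat_lit 471) (nat_lit 367) (nat_lit 362))) (XT.nd (nat_lit 78) (nat_lit 152) (nat_lit 0) (XT.lf (nat_lit 0) (nat_lit 93283261709) (nat_lit 76) (nat_lit 9223560106) (nat_lit 76) (nat_lit 8957369356) (nat_lit 6) (nat_lit 4) (nat_lit 7) (nat_lit 5) (nat_lit 7) (nat_lit 4) (nat_lit 472) (nat_lit 367) (nat_lit 361)) (XT.lf (nat_lit 0) (nat_lit 7057099516) (nat_lit 152) (nat_lit 105736366755) (nat_lit 0) (nat_lit 6771586372) (nat_lit 4) (nat_lit 5) (nat_lit 6) (nat_lit 4) (nat_lit 4) (nat_lit 4) (nat_lit 473) (nat_lit 367) (nat_lit 360))))))))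
noncomputable def xc7 : XT := (XT.nd (nat_lit 2496) (nat_lit 0) (nat_lit 0) (XT.nd (nat_lit 1248) (nat_lit 0) (nat_lit 0) (XT.nd (nat_lit 624) (nat_lit 152) (nat_lit 0) (XT.nd (nat_lit 312) (nat_lit 76) (nat_lit 0) (XT.nd (nat_lit 156) (nat_lit 0) (nat_lit 0) (XT.nd (nat_lit 78) (nat_lit 0) (nat_lit 0) (XT.lf (nat_lit 0) (nat_lit 23831996746) (nat_lit 152) (nat_lit 80968134312) (nat_lit 0) (nat_lit 23516855691) (nat_lit 4) (nat_lit 5) (nat_lit 6) (nat_lit 4) (nat_lit 4) (nat_lit 4) (nat_lit 474) (nat_lit 367) (nat_lit 359)) (XT.lf (nat_lit 0) (nat_lit 41311367245) (nat_lit 152) (nat_lit 55520791785) (nat_lit 0) (nat_lit 40968792939) (nat_lit 4) (nat_lit 5) (nat_lit 6) (nat_lit 4) (nat_lit 4) (nat_lit 4) (nat_lit 475) (nat_lit 367) (nat_lit 358))) (XT.nd (nat_lit 78) (nat_lit 0) (nat_lit 0) (XT.lf (nat_lit 0) (nat_lit 59598792466) (nat_lit 152) (nat_lit 29243540106) (nat_lit 0) (nat_lit 59230817003)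 (nat_lit 4) (nat_lit 5) (nat_lit 6) (nat_lit 4) (nat_lit 4) (nat_lit 4) (nat_lit 476) (nat_lit 367) (nat_lit 357)) (XT.lf (nat_lit 0) (nat_lit 78802642338) (nat_lit 152) (nat_lit 1980662228) (nat_lit 0) (nat_lit 78411147284) (nat_lit 4) (nat_lit 5) (nat_lit 6) (nat_lit 4) (nat_lit 4) (nat_lit 4) (nat_lit 477) (nat_lit 367) (nat_lit 356)))) (XT.nd (nat_lit 156) (nat_lit 0) (nat_lit 0) (XT.nd (nat_lit 78) (nat_lit 0) (nat_lit 0) (XT.lf (nat_lit 0) (nat_lit 27303274953) (nat_lit 76) (nat_lit 72159723139) (nat_lit 76) (nat_lit 71746450685) (nat_lit 3) (nat_lit 4) (nat_lit 4) (nat_lit 5) (nat_lit 4) (nat_lit 4) (nat_lit 478) (nat_lit 367) (nat_lit 355)) (XT.lf (nat_lit 0) (nat_lit 58011739379) (nat_lit 76) (nat_lit 63314909889) (nat_lit 76) (nat_lit 62881473177) (nat_lit 3) (nat_lit 4) (nat_lit 4) (nat_lit 5) (nat_lit 4) (nat_lit 4) (nat_lit 479) (nat_lit 367) (nat_lit 354))) (XT.nd (nat_lit 78) (nat_lit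 0) (nat_lit 0) (XT.lf (nat_lit 0) (nat_lit 90261217498) (nat_lit 76) (nat_lit 54229994583) (nat_lit 76) (nat_lit 53777887261) (nat_lit 3) (nat_lit 4) (nat_lit 4) (nat_lit 5) (nat_lit 4) (nat_lit 4) (nat_lit 480) (nat_lit 367) (nat_lit 353)) (XT.lf (nat_lit 0) (nat_lit 124242817327) (nat_lit 76) (nat_lit 44851140685) (nat_lit 76) (nat_lit 44381745762) (nat_lit 3) (nat_lit 4) (nat_lit 4) (nat_lit 5) (nat_lit 4) (nat_lit 4) (nat_lit 481) (nat_lit 367) (nat_lit 352))))) (XT.nd (nat_lit 312) (nat_lit 152) (nat_lit 0) (XT.nd (nat_lit 156) (nat_lit 0) (nat_lit 0) (XT.nd (nat_lit 78) (nat_lit 0) (nat_lit 0) (XT.lf (nat_lit 0) (nat_lit 160157911310) (nat_lit 76) (nat_lit 35122769802) (nat_lit 76) (nat_lit 34637367841) (nat_lit 3) (nat_lit 4) (nat_lit 4) (nat_lit 5) (nat_lit 4) (nat_lit 4) (nat_lit 482) (nat_lit 367) (nat_lit 351)) (XT.lf (nat_lit 0) (nat_lit 198219329634) (nat_lit 76) (nat_lit 24987232330)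 (nat_lit 76) (nat_lit 24487009037) (nat_lit 3) (nat_lit 4) (nat_lit 4) (nat_lit 5) (nat_lit 4) (nat_lit 4) (nat_lit 483) (nat_lit 367) (nat_lit 350))) (XT.nd (nat_lit 78) (nat_lit 0) (nat_lit 0) (XT.lf (nat_lit 0) (nat_lit 238652621443) (nat_lit 76) (nat_lit 14384465822) (nat_lit 76) (nat_lit 13870519074) (nat_lit 3) (nat_lit 4) (nat_lit 4) (nat_lit 5) (nat_lit 4) (nat_lit 4) (nat_lit 484) (nat_lit 367) (nat_lit 349)) (XT.lf (nat_lit 0) (nat_lit 281697391431) (nat_lit 76) (nat_lit 3251639072) (nat_lit 76) (nat_lit 2724985420) (nat_lit 3) (nat_lit 4) (nat_lit 4) (nat_lit 5) (nat_lit 4) (nat_lit 4) (nat_lit 485) (nat_lit 367) (nat_lit 348)))) (XT.nd (nat_lit 156) (nat_lit 0) (nat_lit 0) (XT.nd (nat_lit 78) (nat_lit 0) (nat_lit 0) (XT.lf (nat_lit 0) (nat_lit 9146204120) (nat_lit 152) (nat_lit 292308237966) (nat_lit 0) (nat_lit 8633423832) (nat_lit 1) (nat_lit 5) (nat_lit 3) (nat_lit 4) (nat_lit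 1) (nat_lit 4) (nat_lit 486) (nat_lit 367) (nat_lit 347)) (XT.lf (nat_lit 0) (nat_lit 21754511178) (nat_lit 152) (nat_lit 291312579146) (nat_lit 0) (nat_lit 21231355537) (nat_lit 1) (nat_lit 5) (nat_lit 3) (nat_lit 4) (nat_lit 1) (nat_lit 4) (nat_lit 487) (nat_lit 367) (nat_lit 346))) (XT.nd (nat_lit 78) (nat_lit 0) (nat_lit 0) (XT.lf (nat_lit 0) (nat_lit 35113123551) (nat_lit 152) (nat_lit 290765305672) (nat_lit 0) (nat_lit 34580361100) (nat_lit 1) (nat_lit 5) (nat_lit 3) (nat_lit 4) (nat_lit 1) (nat_lit 4) (nat_lit 488) (nat_lit 367) (nat_lit 345)) (XT.lf (nat_lit 0) (nat_lit 49301203384) (nat_lit 152) (nat_lit 290663174443) (nat_lit 0) (nat_lit 48759545740) (nat_lit 1) (nat_lit 5) (nat_lit 3) (nat_lit 4) (nat_lit 1) (nat_lit 4) (nat_lit 489) (nat_lit 367) (nat_lit 344)))))) (XT.nd (nat_lit 624) (nat_lit 0) (nat_lit 0) (XT.nd (nat_lit 312) (nat_lit 0) (nat_lit 0) (XT.nd (nat_lit 156) (nat_lit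 0) (nat_lit 0) (XT.nd (nat_lit 78) (nat_lit 0) (nat_lit 0) (XT.lf (nat_lit 0) (nat_lit 64402828188) (nat_lit 152) (nat_lit 291005580237) (nat_lit 0) (nat_lit 63852934254) (nat_lit 1) (nat_lit 5) (nat_lit 3) (nat_lit 4) (nat_lit 1) (nat_lit 4) (nat_lit 490) (nat_lit 367) (nat_lit 343)) (XT.lf (nat_lit 0) (nat_lit 80507489073) (nat_lit 152) (nat_lit 291794552124) (nat_lit 0) (nat_lit 79949968944) (nat_lit 1) (nat_lit 5) (nat_lit 3) (nat_lit 4) (nat_lit 1) (nat_lit 4) (nat_lit 491) (nat_lit 367) (nat_lit 342))) (XT.nd (nat_lit 78) (nat_lit 0) (nat_lit 0) (XT.lf (nat_lit 0) (nat_lit 97710621067) (nat_lit 152) (nat_lit 293034765495) (nat_lit 0) (nat_lit 97146039647) (nat_lit 1) (nat_lit 5) (nat_lit 3) (nat_lit 4) (nat_lit 1) (nat_lit 4) (nat_lit 492) (nat_lit 367) (nat_lit 341)) (XT.lf (nat_lit 0) (nat_lit 116114168655) (nat_lit 152) (nat_lit 294733569761) (nat_lit 0) (nat_lit 115543049002) (nat_lit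 1) (nat_lit 5) (nat_lit 3) (nat_lit 4) (nat_lit 1) (nat_lit 4) (nat_lit 493) (nat_lit 367) (nat_lit 340)))) (XT.nd (nat_lit 156) (nat_lit 0) (nat_lit 0) (XT.nd (nat_lit 78) (nat_lit 0) (nat_lit 0) (XT.lf (nat_lit 0) (nat_lit 135827189897) (nat_lit 152) (nat_lit 296901031910) (nat_lit 0) (nat_lit 135250016325) (nat_lit 1) (nat_lit 5) (nat_lit 3) (nat_lit 4) (nat_lit 1) (nat_lit 4) (nat_lit 494) (nat_lit 367) (nat_lit 339)) (XT.lf (nat_lit 0) (nat_lit 156966502696) (nat_lit 152) (nat_lit 299549996163) (nat_lit 0) (nat_lit 156383723644) (nat_lit 1) (nat_lit 5) (nat_lit 3) (nat_lit 4) (nat_lit 1) (nat_lit 4) (nat_lit 495) (nat_lit 367) (nat_lit 338))) (XT.nd (nat_lit 78) (nat_lit 0) (nat_lit 0) (XT.lf (nat_lit 0) (nat_lit 179657377056) (nat_lit 152) (nat_lit 302696160087) (nat_lit 0) (nat_lit 179069407743) (nat_lit 1) (nat_lit 5) (nat_lit 3) (nat_lit 4) (nat_lit 1) (nat_lit 4) (nat_lit 496) (nat_lit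 367) (nat_lit 337)) (XT.lf (nat_lit 0) (nat_lit 204034277415) (nat_lit 152) (nat_lit 306358167614) (nat_lit 0) (nat_lit 203441502306) (nat_lit 1) (nat_lit 5) (nat_lit 3) (nat_lit 4) (nat_lit 1) (nat_lit 4) (nat_lit 497) (nat_lit 367) (nat_lit 336))))) (XT.nd (nat_lit 312) (nat_lit 0) (nat_lit 0) (XT.nd (nat_lit 156) (nat_lit 0) (nat_lit 0) (XT.nd (nat_lit 78) (nat_lit 0) (nat_lit 0) (XT.lf (nat_lit 0) (nat_lit 230241659480) (nat_lit 152) (nat_lit 310557719530) (nat_lit 0) (nat_lit 229644434560) (nat_lit 1) (nat_lit 5) (nat_lit 3) (nat_lit 4) (nat_lit 1) (nat_lit 4) (nat_lit 498) (nat_lit 367) (nat_lit 335)) (XT.lf (nat_lit 0) (nat_lit 258434826257) (nat_lit 152) (nat_lit 315319702070) (nat_lit 0) (nat_lit 257833481141) (nat_lit 1) (nat_lit 5) (nat_lit 3) (nat_lit 4) (nat_lit 1) (nat_lit 4) (nat_lit 499) (nat_lit 367) (nat_lit 334))) (XT.nd (nat_lit 78) (nat_lit 0) (nat_lit 0) (XT.lf (nat_lit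 0) (nat_lit 288780848362) (nat_lit 152) (nat_lit 320672334389) (nat_lit 0) (nat_lit 288175688250) (nat_lit 1) (nat_lit 5) (nat_lit 3) (nat_lit 4) (nat_lit 1) (nat_lit 4) (nat_lit 500) (nat_lit 367) (nat_lit 333)) (XT.lf (nat_lit 0) (nat_lit 321459554075) (nat_lit 152) (nat_lit 326647335789) (nat_lit 0) (nat_lit 320850861559) (nat_lit 1) (nat_lit 5) (nat_lit 3) (nat_lit 4) (nat_lit 1) (nat_lit 4) (nat_lit 501) (nat_lit 367) (nat_lit 332)))) (XT.nd (nat_lit 156) (nat_lit 0) (nat_lit 0) (XT.nd (nat_lit 78) (nat_lit 0) (nat_lit 0) (XT.lf (nat_lit 0) (nat_lit 356664594985) (nat_lit 152) (nat_lit 333280113686) (nat_lit 0) (nat_lit 356052631725) (nat_lit 1) (nat_lit 5) (nat_lit 3) (nat_lit 4) (nat_lit 1) (nat_lit 4) (nat_lit 502) (nat_lit 367) (nat_lit 331)) (XT.lf (nat_lit 0) (nat_lit 394604593557) (nat_lit 152) (nat_lit 340609973431) (nat_lit 0) (nat_lit 393989601831) (nat_lit 1) (nat_lit 5) (nat_lit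 3) (nat_lit 4) (nat_lit 1) (nat_lit 4) (nat_lit 503) (nat_lit 367) (nat_lit 330))) (XT.nd (nat_lit 78) (nat_lit 0) (nat_lit 0) (XT.lf (nat_lit 0) (nat_lit 435504379413) (nat_lit 152) (nat_lit 348680351229) (nat_lit 0) (nat_lit 434886583550) (nat_lit 1) (nat_lit 5) (nat_lit 3) (nat_lit 4) (nat_lit 1) (nat_lit 4) (nat_lit 504) (nat_lit 367) (nat_lit 329)) (XT.lf (nat_lit 0) (nat_lit 479606321653) (nat_lit 152) (nat_lit 357539071542) (nat_lit 0) (nat_lit 478985929368) (nat_lit 1) (nat_lit 5) (nat_lit 3) (nat_lit 4) (nat_lit 1) (nat_lit 4) (nat_lit 505) (nat_lit 367) (nat_lit 328))))))) (XT.nd (nat_lit 60294) (nat_lit 0) (nat_lit 0) (XT.nd (nat_lit 59670) (nat_lit 0) (nat_lit 228) (XT.nd (nat_lit 59358) (nat_lit 0) (nat_lit 456) (XT.nd (nat_lit 59202) (nat_lit 0) (nat_lit 684) (XT.nd (nat_lit 78) (nat_lit 0) (nat_lit 0) (XT.lf (nat_lit 0) (nat_lit 527171765120) (nat_lit 152) (nat_lit 367238630490)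 (nat_lit 0) (nat_lit 526548968741) (nat_lit 1) (nat_lit 5) (nat_lit 3) (nat_lit 4) (nat_lit 1) (nat_lit 4) (nat_lit 506) (nat_lit 367) (nat_lit 327)) (XT.lf (nat_lit 0) (nat_lit 578482579109) (nat_lit 152) (nat_lit 377836506941) (nat_lit 0) (nat_lit 577857556716) (nat_lit 1) (nat_lit 5) (nat_lit 3) (nat_lit 4) (nat_lit 1) (nat_lit 4) (nat_lit 507) (nat_lit 367) (nat_lit 326))) (XT.nd (nat_lit 78) (nat_lit 0) (nat_lit 0) (XT.lf (nat_lit 0) (nat_lit 5551970207) (nat_lit 152) (nat_lit 21698297825) (nat_lit 0) (nat_lit 5551970207) (nat_lit 10) (nat_lit 5) (nat_lit 12) (nat_lit 4) (nat_lit 10) (nat_lit 4) (nat_lit 464) (nat_lit 368) (nat_lit 368)) (XT.lf (nat_lit 0) (nat_lit 31853368063) (nat_lit 152) (nat_lit 6210219048) (nat_lit 0) (nat_lit 31792907850) (nat_lit 10) (nat_lit 5) (nat_lit 12) (nat_lit 4) (nat_lit 10) (nat_lit 4) (nat_lit 465) (nat_lit 368) (nat_lit 367)))) (XT.nd (nat_lit 156) (nat_lit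 152) (nat_lit 0) (XT.nd (nat_lit 78) (nat_lit 0) (nat_lit 0) (XT.lf (nat_lit 0) (nat_lit 33025704132) (nat_lit 76) (nat_lit 20781105320) (nat_lit 76) (nat_lit 20664663429) (nat_lit 9) (nat_lit 4) (nat_lit 10) (nat_lit 5) (nat_lit 10) (nat_lit 4) (nat_lit 466) (nat_lit 368) (nat_lit 366)) (XT.lf (nat_lit 0) (nat_lit 73726026111) (nat_lit 76) (nat_lit 2969475888) (nat_lit 76) (nat_lit 2801199109) (nat_lit 9) (nat_lit 4) (nat_lit 10) (nat_lit 5) (nat_lit 10) (nat_lit 4) (nat_lit 467) (nat_lit 368) (nat_lit 365))) (XT.nd (nat_lit 78) (nat_lit 0) (nat_lit 0) (XT.lf (nat_lit 0) (nat_lit 15836568678) (nat_lit 152) (nat_lit 53450257957) (nat_lit 0) (nat_lit 15630595302) (nat_lit 7) (nat_lit 5) (nat_lit 9) (nat_lit 4) (nat_lit 7) (nat_lit 4) (nat_lit 468) (nat_lit 368) (nat_lit 364)) (XT.lf (nat_lit 0) (nat_lit 35170819782) (nat_lit 152) (nat_lit 20710982643) (nat_lit 0) (nat_lit 34922522538) (nat_lit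 7) (nat_lit 5) (nat_lit 9) (nat_lit 4) (nat_lit 7) (nat_lit 4) (nat_lit 469) (nat_lit 368) (nat_lit 363))))) (XT.nd (nat_lit 312) (nat_lit 0) (nat_lit 0) (XT.nd (nat_lit 156) (nat_lit 152) (nat_lit 0) (XT.nd (nat_lit 78) (nat_lit 0) (nat_lit 0) (XT.lf (nat_lit 0) (nat_lit 13471806174) (nat_lit 76) (nat_lit 42003346810) (nat_lit 76) (nat_lit 41715860800) (nat_lit 6) (nat_lit 4) (nat_lit 7) (nat_lit 5) (nat_lit 7) (nat_lit 4) (nat_lit 470) (nat_lit 368) (nat_lit 362)) (XT.lf (nat_lit 0) (nat_lit 49591820179) (nat_lit 76) (nat_lit 27420093012) (nat_lit 76) (nat_lit 27096321107) (nat_lit 6) (nat_lit 4) (nat_lit 7) (nat_lit 5) (nat_lit 7) (nat_lit 4) (nat_lit 471) (nat_lit 368) (nat_lit 361))) (XT.nd (nat_lit 78) (nat_lit 152) (nat_lit 0) (XT.lf (nat_lit 0) (nat_lit 87178305280) (nat_lit 76) (nat_lit 12396372262) (nat_lit 76) (nat_lit 12039002306) (nat_lit 6) (nat_lit 4) (nat_lit 7) (nat_lit 5) (nat_lit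 7) (nat_lit 4) (nat_lit 472) (nat_lit 368) (nat_lit 360)) (XT.lf (nat_lit 0) (nat_lit 3591010463) (nat_lit 152) (nat_lit 112929060909) (nat_lit 0) (nat_lit 3221030213) (nat_lit 4) (nat_lit 5) (nat_lit 6) (nat_lit 4) (nat_lit 4) (nat_lit 4) (nat_lit 473) (nat_lit 368) (nat_lit 359)))) (XT.nd (nat_lit 156) (nat_lit 0) (nat_lit 0) (XT.nd (nat_lit 78) (nat_lit 0) (nat_lit 0) (XT.lf (nat_lit 0) (nat_lit 20059408409) (nat_lit 152) (nat_lit 88786957558) (nat_lit 0) (nat_lit 19661994908) (nat_lit 4) (nat_lit 5) (nat_lit 6) (nat_lit 4) (nat_lit 4) (nat_lit 4) (nat_lit 474) (nat_lit 368) (nat_lit 358)) (XT.lf (nat_lit 0) (nat_lit 37254983274) (nat_lit 152) (nat_lit 63919364190) (nat_lit 0) (nat_lit 36832168616) (nat_lit 4) (nat_lit 5) (nat_lit 6) (nat_lit 4) (nat_lit 4) (nat_lit 4) (nat_lit 475) (nat_lit 368) (nat_lit 357))) (XT.nd (nat_lit 78) (nat_lit 0) (nat_lit 0) (XT.lf (nat_lit 0) (nat_lit 55279634762)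 (nat_lit 152) (nat_lit 38178917287) (nat_lit 0) (nat_lit 54833300512) (nat_lit 4) (nat_lit 5) (nat_lit 6) (nat_lit 4) (nat_lit 4) (nat_lit 4) (nat_lit 476) (nat_lit 368) (nat_lit 356)) (XT.lf (nat_lit 0) (nat_lit 74240175620) (nat_lit 152) (nat_lit 11413080870) (nat_lit 0) (nat_lit 73772063972) (nat_lit 4) (nat_lit 5) (nat_lit 6) (nat_lit 4) (nat_lit 4) (nat_lit 4) (nat_lit 477) (nat_lit 368) (nat_lit 355)))))) (XT.nd (nat_lit 624) (nat_lit 152) (nat_lit 0) (XT.nd (nat_lit 312) (nat_lit 0) (nat_lit 0) (XT.nd (nat_lit 156) (nat_lit 0) (nat_lit 0) (XT.nd (nat_lit 78) (nat_lit 0) (nat_lit 0) (XT.lf (nat_lit 0) (nat_lit 17083537309) (nat_lit 76) (nat_lit 77432149196) (nat_lit 76) (nat_lit 76943873289) (nat_lit 3) (nat_lit 4) (nat_lit 4) (nat_lit 5) (nat_lit 4) (nat_lit 4) (nat_lit 478) (nat_lit 368) (nat_lit 354)) (XT.lf (nat_lit 0) (nat_lit 47351778918) (nat_lit 76) (nat_lit 68812087390) (nat_lit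 76) (nat_lit 68305140873) (nat_lit 3) (nat_lit 4) (nat_lit 4) (nat_lit 5) (nat_lit 4) (nat_lit 4) (nat_lit 479) (nat_lit 368) (nat_lit 353))) (XT.nd (nat_lit 78) (nat_lit 0) (nat_lit 0) (XT.lf (nat_lit 0) (nat_lit 79193643315) (nat_lit 76) (nat_lit 59935275273) (nat_lit 76) (nat_lit 59411041155) (nat_lit 3) (nat_lit 4) (nat_lit 4) (nat_lit 5) (nat_lit 4) (nat_lit 4) (nat_lit 480) (nat_lit 368) (nat_lit 352)) (XT.lf (nat_lit 0) (nat_lit 112797823033) (nat_lit 76) (nat_lit 50749109513) (nat_lit 76) (nat_lit 50208868357) (nat_lit 3) (nat_lit 4) (nat_lit 4) (nat_lit 5) (nat_lit 4) (nat_lit 4) (nat_lit 481) (nat_lit 368) (nat_lit 351)))) (XT.nd (nat_lit 156) (nat_lit 0) (nat_lit 0) (XT.nd (nat_lit 78) (nat_lit 0) (nat_lit 0) (XT.lf (nat_lit 0) (nat_lit 148363453949) (nat_lit 76) (nat_lit 41199153573) (nat_lit 76) (nat_lit 40644091085) (nat_lit 3) (nat_lit 4) (nat_lit 4) (nat_lit 5) (nat_lit 4) (nat_lit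 4) (nat_lit 482) (nat_lit 368) (nat_lit 350)) (XT.lf (nat_lit 0) (nat_lit 186101295360) (nat_lit 76) (nat_lit 31228815121) (nat_lit 76) (nat_lit 30660029178) (nat_lit 3) (nat_lit 4) (nat_lit 4) (nat_lit 5) (nat_lit 4) (nat_lit 4) (nat_lit 483) (nat_lit 368) (nat_lit 349))) (XT.nd (nat_lit 78) (nat_lit 0) (nat_lit 0) (XT.lf (nat_lit 0) (nat_lit 226234978916) (nat_lit 76) (nat_lit 20779010670) (nat_lit 76) (nat_lit 20197517824) (nat_lit 3) (nat_lit 4) (nat_lit 4) (nat_lit 5) (nat_lit 4) (nat_lit 4) (nat_lit 484) (nat_lit 368) (nat_lit 348)) (XT.lf (nat_lit 0) (nat_lit 269002333855) (nat_lit 76) (nat_lit 9787815453) (nat_lit 76) (nat_lit 9194556955) (nat_lit 3) (nat_lit 4) (nat_lit 4) (nat_lit 5) (nat_lit 4) (nat_lit 4) (nat_lit 485) (nat_lit 368) (nat_lit 347))))) (XT.nd (nat_lit 312) (nat_lit 0) (nat_lit 0) (XT.nd (nat_lit 156) (nat_lit 0) (nat_lit 0) (XT.nd (nat_lit 78) (nat_lit 0) (nat_lit 0)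 (XT.lf (nat_lit 0) (nat_lit 2434294191) (nat_lit 152) (nat_lit 306132872066) (nat_lit 0) (nat_lit 1858910745) (nat_lit 1) (nat_lit 5) (nat_lit 3) (nat_lit 4) (nat_lit 1) (nat_lit 4) (nat_lit 486) (nat_lit 368) (nat_lit 346)) (XT.lf (nat_lit 0) (nat_lit 14918390071) (nat_lit 152) (nat_lit 305391077694) (nat_lit 0) (nat_lit 14333399816) (nat_lit 1) (nat_lit 5) (nat_lit 3) (nat_lit 4) (nat_lit 1) (nat_lit 4) (nat_lit 487) (nat_lit 368) (nat_lit 345))) (XT.nd (nat_lit 78) (nat_lit 0) (nat_lit 0) (XT.lf (nat_lit 0) (nat_lit 28161992093) (nat_lit 152) (nat_lit 305078863895) (nat_lit 0) (nat_lit 27568106644) (nat_lit 1) (nat_lit 5) (nat_lit 3) (nat_lit 4) (nat_lit 1) (nat_lit 4) (nat_lit 488) (nat_lit 368) (nat_lit 344)) (XT.lf (nat_lit 0) (nat_lit 42243580861) (nat_lit 152) (nat_lit 305194380513) (nat_lit 0) (nat_lit 41641459122) (nat_lit 1) (nat_lit 5) (nat_lit 3) (nat_lit 4) (nat_lit 1) (nat_lit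 4) (nat_lit 489) (nat_lit 368) (nat_lit 343)))) (XT.nd (nat_lit 156) (nat_lit 0) (nat_lit 0) (XT.nd (nat_lit 78) (nat_lit 0) (nat_lit 0) (XT.lf (nat_lit 0) (nat_lit 57246602827) (nat_lit 152) (nat_lit 305738312090) (nat_lit 0) (nat_lit 56636854893) (nat_lit 1) (nat_lit 5) (nat_lit 3) (nat_lit 4) (nat_lit 1) (nat_lit 4) (nat_lit 490) (nat_lit 368) (nat_lit 342)) (XT.lf (nat_lit 0) (nat_lit 73259964788) (nat_lit 152) (nat_lit 306713881926) (nat_lit 0) (nat_lit 72643155563) (nat_lit 1) (nat_lit 5) (nat_lit 3) (nat_lit 4) (nat_lit 1) (nat_lit 4) (nat_lit 491) (nat_lit 368) (nat_lit 341))) (XT.nd (nat_lit 78) (nat_lit 0) (nat_lit 0) (XT.lf (nat_lit 0) (nat_lit 90378560741) (nat_lit 152) (nat_lit 308126871174) (nat_lit 0) (nat_lit 89755213283) (nat_lit 1) (nat_lit 5) (nat_lit 3) (nat_lit 4) (nat_lit 1) (nat_lit 4) (nat_lit 492) (nat_lit 368) (nat_lit 340)) (XT.lf (nat_lit 0) (nat_lit 108703834217)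 (nat_lit 152) (nat_lit 309985653104) (nat_lit 0) (nat_lit 108074432840) (nat_lit 1) (nat_lit 5) (nat_lit 3) (nat_lit 4) (nat_lit 1) (nat_lit 4) (nat_lit 493) (nat_lit 368) (nat_lit 339))))))))
noncomputable def xc8 : XT := (XT.nd (nat_lit 61308) (nat_lit 0) (nat_lit 0) (XT.nd (nat_lit 60060) (nat_lit 0) (nat_lit 152) (XT.nd (nat_lit 546) (nat_lit 0) (nat_lit 0) (XT.nd (nat_lit 234) (nat_lit 0) (nat_lit 0) (XT.nd (nat_lit 78) (nat_lit 0) (nat_lit 0) (XT.lf (nat_lit 0) (nat_lit 128344379429) (nat_lit 152) (nat_lit 312301242721) (nat_lit 0) (nat_lit 127709372571) (nat_lit 1) (nat_lit 5) (nat_lit 3) (nat_lit 4) (nat_lit 1) (nat_lit 4) (nat_lit 494) (nat_lit 368) (nat_lit 338)) (XT.nd (nat_lit 78) (nat_lit 0) (nat_lit 0) (XT.lf (nat_lit 0) (nat_lit 149416584794) (nat_lit 152) (nat_lit 315087362037) (nat_lit 0) (nat_lit 148776387676) (nat_lit 1) (nat_lit 5) (nat_lit 3) (nat_lit 4) (nat_lit 1) (nat_lit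 4) (nat_lit 495) (nat_lit 368) (nat_lit 337)) (XT.lf (nat_lit 0) (nat_lit 172045322639) (nat_lit 152) (nat_lit 318360521388) (nat_lit 0) (nat_lit 171400319725) (nat_lit 1) (nat_lit 5) (nat_lit 3) (nat_lit 4) (nat_lit 1) (nat_lit 4) (nat_lit 496) (nat_lit 368) (nat_lit 336)))) (XT.nd (nat_lit 156) (nat_lit 0) (nat_lit 0) (XT.nd (nat_lit 78) (nat_lit 0) (nat_lit 0) (XT.lf (nat_lit 0) (nat_lit 196364689190) (nat_lit 152) (nat_lit 322140117274) (nat_lit 0) (nat_lit 195715236465) (nat_lit 1) (nat_lit 5) (nat_lit 3) (nat_lit 4) (nat_lit 1) (nat_lit 4) (nat_lit 497) (nat_lit 368) (nat_lit 335)) (XT.lf (nat_lit 0) (nat_lit 222518799210) (nat_lit 152) (nat_lit 326448547301) (nat_lit 0) (nat_lit 221865226289) (nat_lit 1) (nat_lit 5) (nat_lit 3) (nat_lit 4) (nat_lit 1) (nat_lit 4) (nat_lit 498) (nat_lit 368) (nat_lit 334))) (XT.nd (nat_lit 78) (nat_lit 0) (nat_lit 0) (XT.lf (nat_lit 0) (nat_lit 250662640018)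 (nat_lit 152) (nat_lit 331311342906) (nat_lit 0) (nat_lit 250005252101) (nat_lit 1) (nat_lit 5) (nat_lit 3) (nat_lit 4) (nat_lit 1) (nat_lit 4) (nat_lit 499) (nat_lit 368) (nat_lit 333)) (XT.lf (nat_lit 0) (nat_lit 280962989931) (nat_lit 152) (nat_lit 336757320656) (nat_lit 0) (nat_lit 280302069610) (nat_lit 1) (nat_lit 5) (nat_lit 3) (nat_lit 4) (nat_lit 1) (nat_lit 4) (nat_lit 500) (nat_lit 368) (nat_lit 332))))) (XT.nd (nat_lit 312) (nat_lit 0) (nat_lit 0) (XT.nd (nat_lit 156) (nat_lit 0) (nat_lit 0) (XT.nd (nat_lit 78) (nat_lit 0) (nat_lit 0) (XT.lf (nat_lit 0) (nat_lit 313599406576) (nat_lit 152) (nat_lit 342818753010) (nat_lit 0) (nat_lit 312935215512) (nat_lit 1) (nat_lit 5) (nat_lit 3) (nat_lit 4) (nat_lit 1) (nat_lit 4) (nat_lit 501) (nat_lit 368) (nat_lit 331)) (XT.lf (nat_lit 0) (nat_lit 348765290943) (nat_lit 152) (nat_lit 349531559569) (nat_lit 0) (nat_lit 348098071411) (nat_lit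 1) (nat_lit 5) (nat_lit 3) (nat_lit 4) (nat_lit 1) (nat_lit 4) (nat_lit 502) (nat_lit 368) (nat_lit 330))) (XT.nd (nat_lit 78) (nat_lit 0) (nat_lit 0) (XT.lf (nat_lit 0) (nat_lit 386669033456) (nat_lit 152) (nat_lit 356935519926) (nat_lit 0) (nat_lit 385999009789) (nat_lit 1) (nat_lit 5) (nat_lit 3) (nat_lit 4) (nat_lit 1) (nat_lit 4) (nat_lit 503) (nat_lit 368) (nat_lit 329)) (XT.lf (nat_lit 0) (nat_lit 427535248887) (nat_lit 152) (nat_lit 365074509403) (nat_lit 0) (nat_lit 426862628797) (nat_lit 1) (nat_lit 5) (nat_lit 3) (nat_lit 4) (nat_lit 1) (nat_lit 4) (nat_lit 504) (nat_lit 368) (nat_lit 328)))) (XT.nd (nat_lit 156) (nat_lit 0) (nat_lit 0) (XT.nd (nat_lit 78) (nat_lit 0) (nat_lit 0) (XT.lf (nat_lit 0) (nat_lit 471606107400) (nat_lit 152) (nat_lit 373996759047) (nat_lit 0) (nat_lit 470931083216) (nat_lit 1) (nat_lit 5) (nat_lit 3) (nat_lit 4) (nat_lit 1) (nat_lit 4) (nat_lit 505) (nat_lit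 368) (nat_lit 327)) (XT.lf (nat_lit 0) (nat_lit 519142769639) (nat_lit 152) (nat_lit 383755141451) (nat_lit 0) (nat_lit 518465519441) (nat_lit 1) (nat_lit 5) (nat_lit 3) (nat_lit 4) (nat_lit 1) (nat_lit 4) (nat_lit 506) (nat_lit 368) (nat_lit 326))) (XT.nd (nat_lit 58968) (nat_lit 0) (nat_lit 836) (XT.lf (nat_lit 0) (nat_lit 570426934342) (nat_lit 152) (nat_lit 394407484064) (nat_lit 0) (nat_lit 569747623021) (nat_lit 1) (nat_lit 5) (nat_lit 3) (nat_lit 4) (nat_lit 1) (nat_lit 4) (nat_lit 507) (nat_lit 368) (nat_lit 325)) (XT.lf (nat_lit 0) (nat_lit 1272836321) (nat_lit 76) (nat_lit 13876571353) (nat_lit 76) (nat_lit 13876571353) (nat_lit 12) (nat_lit 4) (nat_lit 13) (nat_lit 5) (nat_lit 13) (nat_lit 4) (nat_lit 462) (nat_lit 369) (nat_lit 369)))))) (XT.nd (nat_lit 624) (nat_lit 228) (nat_lit 0) (XT.nd (nat_lit 312) (nat_lit 228) (nat_lit 0) (XT.nd (nat_lit 156) (nat_lit 76) (nat_lit 0) (XT.nd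 (nat_lit 78) (nat_lit 152) (nat_lit 0) (XT.lf (nat_lit 0) (nat_lit 43884546362) (nat_lit 76) (nat_lit 8935763346) (nat_lit 76) (nat_lit 8867201465) (nat_lit 12) (nat_lit 4) (nat_lit 13) (nat_lit 5) (nat_lit 13) (nat_lit 4) (nat_lit 463) (nat_lit 369) (nat_lit 368)) (XT.lf (nat_lit 0) (nat_lit 10664771382) (nat_lit 152) (nat_lit 44425914746) (nat_lit 0) (nat_lit 10539014139) (nat_lit 10) (nat_lit 5) (nat_lit 12) (nat_lit 4) (nat_lit 10) (nat_lit 4) (nat_lit 464) (nat_lit 369) (nat_lit 367))) (XT.nd (nat_lit 78) (nat_lit 76) (nat_lit 0) (XT.lf (nat_lit 0) (nat_lit 30947100825) (nat_lit 152) (nat_lit 8192611379) (nat_lit 0) (nat_lit 30765361905) (nat_lit 10) (nat_lit 5) (nat_lit 12) (nat_lit 4) (nat_lit 10) (nat_lit 4) (nat_lit 465) (nat_lit 369) (nat_lit 366)) (XT.lf (nat_lit 0) (nat_lit 30066111123) (nat_lit 76) (nat_lit 22355725212) (nat_lit 76) (nat_lit 22122151404) (nat_lit 9) (nat_lit 4) (nat_lit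 10) (nat_lit 5) (nat_lit 10) (nat_lit 4) (nat_lit 466) (nat_lit 369) (nat_lit 365)))) (XT.nd (nat_lit 156) (nat_lit 76) (nat_lit 0) (XT.nd (nat_lit 78) (nat_lit 152) (nat_lit 0) (XT.lf (nat_lit 0) (nat_lit 69922309180) (nat_lit 76) (nat_lit 4974579136) (nat_lit 76) (nat_lit 4693010062) (nat_lit 9) (nat_lit 4) (nat_lit 10) (nat_lit 5) (nat_lit 10) (nat_lit 4) (nat_lit 467) (nat_lit 369) (nat_lit 364)) (XT.lf (nat_lit 0) (nat_lit 13501488616) (nat_lit 152) (nat_lit 58344794975) (nat_lit 0) (nat_lit 13191003725) (nat_lit 7) (nat_lit 5) (nat_lit 9) (nat_lit 4) (nat_lit 7) (nat_lit 4) (nat_lit 468) (nat_lit 369) (nat_lit 363))) (XT.nd (nat_lit 78) (nat_lit 76) (nat_lit 0) (XT.lf (nat_lit 0) (nat_lit 32457378836) (nat_lit 152) (nat_lit 26378024686) (nat_lit 0) (nat_lit 32107705178) (nat_lit 7) (nat_lit 5) (nat_lit 9) (nat_lit 4) (nat_lit 7) (nat_lit 4) (nat_lit 469) (nat_lit 369) (nat_lit 362)) (XT.lf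 (nat_lit 0) (nat_lit 6878453230) (nat_lit 76) (nat_lit 45429983939) (nat_lit 76) (nat_lit 45044024386) (nat_lit 6) (nat_lit 4) (nat_lit 7) (nat_lit 5) (nat_lit 7) (nat_lit 4) (nat_lit 470) (nat_lit 369) (nat_lit 361))))) (XT.nd (nat_lit 312) (nat_lit 76) (nat_lit 0) (XT.nd (nat_lit 156) (nat_lit 152) (nat_lit 0) (XT.nd (nat_lit 78) (nat_lit 0) (nat_lit 0) (XT.lf (nat_lit 0) (nat_lit 42314270108) (nat_lit 76) (nat_lit 31195861560) (nat_lit 76) (nat_lit 30776303956) (nat_lit 6) (nat_lit 4) (nat_lit 7) (nat_lit 5) (nat_lit 7) (nat_lit 4) (nat_lit 471) (nat_lit 369) (nat_lit 360)) (XT.lf (nat_lit 0) (nat_lit 79267239349) (nat_lit 76) (nat_lit 16495410643) (nat_lit 76) (nat_lit 16044743733) (nat_lit 6) (nat_lit 4) (nat_lit 7) (nat_lit 5) (nat_lit 7) (nat_lit 4) (nat_lit 472) (nat_lit 369) (nat_lit 359))) (XT.nd (nat_lit 78) (nat_lit 152) (nat_lit 0) (XT.lf (nat_lit 0) (nat_lit 117956341513) (nat_lit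 76) (nat_lit 1241517404) (nat_lit 76) (nat_lit 762045581) (nat_lit 6) (nat_lit 4) (nat_lit 7) (nat_lit 5) (nat_lit 7) (nat_lit 4) (nat_lit 473) (nat_lit 369) (nat_lit 358)) (XT.lf (nat_lit 0) (nat_lit 15394718088) (nat_lit 152) (nat_lit 98437164914) (nat_lit 0) (nat_lit 14912677098) (nat_lit 4) (nat_lit 5) (nat_lit 6) (nat_lit 4) (nat_lit 4) (nat_lit 4) (nat_lit 474) (nat_lit 369) (nat_lit 357)))) (XT.nd (nat_lit 156) (nat_lit 76) (nat_lit 0) (XT.nd (nat_lit 78) (nat_lit 0) (nat_lit 0) (XT.lf (nat_lit 0) (nat_lit 32327519219) (nat_lit 152) (nat_lit 74106376323) (nat_lit 0) (nat_lit 31821958639) (nat_lit 4) (nat_lit 5) (nat_lit 6) (nat_lit 4) (nat_lit 4) (nat_lit 4) (nat_lit 475) (nat_lit 369) (nat_lit 356)) (XT.lf (nat_lit 0) (nat_lit 50108861693) (nat_lit 152) (nat_lit 48862970880) (nat_lit 0) (nat_lit 49581523714) (nat_lit 4) (nat_lit 5) (nat_lit 6) (nat_lit 4) (nat_lit 4) (nat_lit 4) (nat_lit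 476) (nat_lit 369) (nat_lit 355))) (XT.nd (nat_lit 78) (nat_lit 76) (nat_lit 0) (XT.lf (nat_lit 0) (nat_lit 68844116429) (nat_lit 152) (nat_lit 22557358036) (nat_lit 0) (nat_lit 68296614191) (nat_lit 4) (nat_lit 5) (nat_lit 6) (nat_lit 4) (nat_lit 4) (nat_lit 4) (nat_lit 477) (nat_lit 369) (nat_lit 354)) (XT.lf (nat_lit 0) (nat_lit 5130557192) (nat_lit 76) (nat_lit 83593852341) (nat_lit 76) (nat_lit 83027679494) (nat_lit 3) (nat_lit 4) (nat_lit 4) (nat_lit 5) (nat_lit 4) (nat_lit 4) (nat_lit 478) (nat_lit 369) (nat_lit 353))))))) (XT.nd (nat_lit 1248) (nat_lit 0) (nat_lit 0) (XT.nd (nat_lit 624) (nat_lit 152) (nat_lit 0) (XT.nd (nat_lit 312) (nat_lit 0) (nat_lit 0) (XT.nd (nat_lit 156) (nat_lit 0) (nat_lit 0) (XT.nd (nat_lit 78) (nat_lit 0) (nat_lit 0) (XT.lf (nat_lit 0) (nat_lit 34991185080) (nat_lit 76) (nat_lit 75181893724) (nat_lit 76) (nat_lit 74598433275) (nat_lit 3) (nat_lit 4) (nat_lit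 4) (nat_lit 5) (nat_lit 4) (nat_lit 4) (nat_lit 479) (nat_lit 369) (nat_lit 352)) (XT.lf (nat_lit 0) (nat_lit 66455629366) (nat_lit 76) (nat_lit 66497769745) (nat_lit 76) (nat_lit 65898302258) (nat_lit 3) (nat_lit 4) (nat_lit 4) (nat_lit 5) (nat_lit 4) (nat_lit 4) (nat_lit 480) (nat_lit 369) (nat_lit 351))) (XT.nd (nat_lit 78) (nat_lit 0) (nat_lit 0) (XT.lf (nat_lit 0) (nat_lit 99710346017) (nat_lit 76) (nat_lit 57490018928) (nat_lit 76) (nat_lit 56875730109) (nat_lit 3) (nat_lit 4) (nat_lit 4) (nat_lit 5) (nat_lit 4) (nat_lit 4) (nat_lit 481) (nat_lit 369) (nat_lit 350)) (XT.lf (nat_lit 0) (nat_lit 134952400020) (nat_lit 76) (nat_lit 48105262008) (nat_lit 76) (nat_lit 47477249734) (nat_lit 3) (nat_lit 4) (nat_lit 4) (nat_lit 5) (nat_lit 4) (nat_lit 4) (nat_lit 482) (nat_lit 369) (nat_lit 349)))) (XT.nd (nat_lit 156) (nat_lit 0) (nat_lit 0) (XT.nd (nat_lit 78) (nat_lit 0) (nat_lit 0) (XT.lf (nat_lit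 0) (nat_lit 172390633177) (nat_lit 76) (nat_lit 38287885613) (nat_lit 76) (nat_lit 37647166435) (nat_lit 3) (nat_lit 4) (nat_lit 4) (nat_lit 5) (nat_lit 4) (nat_lit 4) (nat_lit 483) (nat_lit 369) (nat_lit 348)) (XT.lf (nat_lit 0) (nat_lit 212246901684) (nat_lit 76) (nat_lit 27979712695) (nat_lit 76) (nat_lit 27327227867) (nat_lit 3) (nat_lit 4) (nat_lit 4) (nat_lit 5) (nat_lit 4) (nat_lit 4) (nat_lit 484) (nat_lit 369) (nat_lit 347))) (XT.nd (nat_lit 78) (nat_lit 0) (nat_lit 0) (XT.lf (nat_lit 0) (nat_lit 254757390837) (nat_lit 76) (nat_lit 17119657787) (nat_lit 76) (nat_lit 16456278838) (nat_lit 3) (nat_lit 4) (nat_lit 4) (nat_lit 5) (nat_lit 4) (nat_lit 4) (nat_lit 485) (nat_lit 369) (nat_lit 346)) (XT.lf (nat_lit 0) (nat_lit 300174014644) (nat_lit 76) (nat_lit 5643365007) (nat_lit 76) (nat_lit 4969898908) (nat_lit 3) (nat_lit 4) (nat_lit 4) (nat_lit 5) (nat_lit 4) (nat_lit 4) (nat_lit 486)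 (nat_lit 369) (nat_lit 345))))) (XT.nd (nat_lit 312) (nat_lit 0) (nat_lit 0) (XT.nd (nat_lit 156) (nat_lit 0) (nat_lit 0) (XT.nd (nat_lit 78) (nat_lit 0) (nat_lit 0) (XT.lf (nat_lit 0) (nat_lit 7296157747) (nat_lit 152) (nat_lit 321084780249) (nat_lit 0) (nat_lit 6645866269) (nat_lit 1) (nat_lit 5) (nat_lit 3) (nat_lit 4) (nat_lit 1) (nat_lit 4) (nat_lit 487) (nat_lit 369) (nat_lit 344)) (XT.lf (nat_lit 0) (nat_lit 20433268703) (nat_lit 152) (nat_lit 320990214296) (nat_lit 0) (nat_lit 19774740935) (nat_lit 1) (nat_lit 5) (nat_lit 3) (nat_lit 4) (nat_lit 1) (nat_lit 4) (nat_lit 488) (nat_lit 369) (nat_lit 343))) (XT.nd (nat_lit 78) (nat_lit 0) (nat_lit 0) (XT.lf (nat_lit 0) (nat_lit 34416254633) (nat_lit 152) (nat_lit 321307256698) (nat_lit 0) (nat_lit 33750100670) (nat_lit 1) (nat_lit 5) (nat_lit 3) (nat_lit 4) (nat_lit 1) (nat_lit 4) (nat_lit 489) (nat_lit 369) (nat_lit 342)) (XT.lf (nat_lit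 0) (nat_lit 49327977675) (nat_lit 152) (nat_lit 322037786223) (nat_lit 0) (nat_lit 48654762421) (nat_lit 1) (nat_lit 5) (nat_lit 3) (nat_lit 4) (nat_lit 1) (nat_lit 4) (nat_lit 490) (nat_lit 369) (nat_lit 341)))) (XT.nd (nat_lit 156) (nat_lit 0) (nat_lit 0) (XT.nd (nat_lit 78) (nat_lit 0) (nat_lit 0) (XT.lf (nat_lit 0) (nat_lit 65256803595) (nat_lit 152) (nat_lit 323186131937) (nat_lit 0) (nat_lit 64577050108) (nat_lit 1) (nat_lit 5) (nat_lit 3) (nat_lit 4) (nat_lit 1) (nat_lit 4) (nat_lit 491) (nat_lit 369) (nat_lit 340)) (XT.lf (nat_lit 0) (nat_lit 82297125436) (nat_lit 152) (nat_lit 324759098850) (nat_lit 0) (nat_lit 81611318029) (nat_lit 1) (nat_lit 5) (nat_lit 3) (nat_lit 4) (nat_lit 1) (nat_lit 4) (nat_lit 492) (nat_lit 369) (nat_lit 339))) (XT.nd (nat_lit 78) (nat_lit 0) (nat_lit 0) (XT.lf (nat_lit 0) (nat_lit 100549922882) (nat_lit 152) (nat_lit 326766008247) (nat_lit 0) (nat_lit 99858509995)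 (nat_lit 1) (nat_lit 5) (nat_lit 3) (nat_lit 4) (nat_lit 1) (nat_lit 4) (nat_lit 493) (nat_lit 369) (nat_lit 338)) (XT.lf (nat_lit 0) (nat_lit 120123360659) (nat_lit 152) (nat_lit 329218752926) (nat_lit 0) (nat_lit 119426757512) (nat_lit 1) (nat_lit 5) (nat_lit 3) (nat_lit 4) (nat_lit 1) (nat_lit 4) (nat_lit 494) (nat_lit 369) (nat_lit 337)))))) (XT.nd (nat_lit 624) (nat_lit 0) (nat_lit 0) (XT.nd (nat_lit 312) (nat_lit 0) (nat_lit 0) (XT.nd (nat_lit 156) (nat_lit 0) (nat_lit 0) (XT.nd (nat_lit 78) (nat_lit 0) (nat_lit 0) (XT.lf (nat_lit 0) (nat_lit 141133429511) (nat_lit 152) (nat_lit 332131867670) (nat_lit 0) (nat_lit 140432020567) (nat_lit 1) (nat_lit 5) (nat_lit 3) (nat_lit 4) (nat_lit 1) (nat_lit 4) (nat_lit 495) (nat_lit 369) (nat_lit 336)) (XT.lf (nat_lit 0) (nat_lit 163704633547) (nat_lit 152) (nat_lit 335522615380) (nat_lit 0) (nat_lit 162998774793) (nat_lit 1) (nat_lit 5) (nat_lit 3)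 (nat_lit 4) (nat_lit 1) (nat_lit 4) (nat_lit 496) (nat_lit 369) (nat_lit 335))) (XT.nd (nat_lit 78) (nat_lit 0) (nat_lit 0) (XT.lf (nat_lit 0) (nat_lit 187970728052) (nat_lit 152) (nat_lit 339411089377) (nat_lit 0) (nat_lit 187260749102) (nat_lit 1) (nat_lit 5) (nat_lit 3) (nat_lit 4) (nat_lit 1) (nat_lit 4) (nat_lit 497) (nat_lit 369) (nat_lit 334)) (XT.lf (nat_lit 0) (nat_lit 214075512104) (nat_lit 152) (nat_lit 343820332469) (nat_lit 0) (nat_lit 213361718158) (nat_lit 1) (nat_lit 5) (nat_lit 3) (nat_lit 4) (nat_lit 1) (nat_lit 4) (nat_lit 498) (nat_lit 369) (nat_lit 333)))) (XT.nd (nat_lit 156) (nat_lit 0) (nat_lit 0) (XT.nd (nat_lit 78) (nat_lit 0) (nat_lit 0) (XT.lf (nat_lit 0) (nat_lit 242173680720) (nat_lit 152) (nat_lit 348776473505) (nat_lit 0) (nat_lit 241456354370) (nat_lit 1) (nat_lit 5) (nat_lit 3) (nat_lit 4) (nat_lit 1) (nat_lit 4) (nat_lit 499) (nat_lit 369) (nat_lit 332)) (XT.lf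 (nat_lit 0) (nat_lit 272431741565) (nat_lit 152) (nat_lit 354308882209) (nat_lit 0) (nat_lit 271711144471) (nat_lit 1) (nat_lit 5) (nat_lit 3) (nat_lit 4) (nat_lit 1) (nat_lit 4) (nat_lit 500) (nat_lit 369) (nat_lit 331))) (XT.nd (nat_lit 78) (nat_lit 0) (nat_lit 0) (XT.lf (nat_lit 0) (nat_lit 305029001667) (nat_lit 152) (nat_lit 360450343225) (nat_lit 0) (nat_lit 304305376107) (nat_lit 1) (nat_lit 5) (nat_lit 3) (nat_lit 4) (nat_lit 1) (nat_lit 4) (nat_lit 501) (nat_lit 369) (nat_lit 330)) (XT.lf (nat_lit 0) (nat_lit 340158629975) (nat_lit 152) (nat_lit 367237250396) (nat_lit 0) (nat_lit 339432200278) (nat_lit 1) (nat_lit 5) (nat_lit 3) (nat_lit 4) (nat_lit 1) (nat_lit 4) (nat_lit 502) (nat_lit 369) (nat_lit 329))))) (XT.nd (nat_lit 312) (nat_lit 0) (nat_lit 0) (XT.nd (nat_lit 156) (nat_lit 0) (nat_lit 0) (XT.nd (nat_lit 78) (nat_lit 0) (nat_lit 0) (XT.lf (nat_lit 0) (nat_lit 378028802063) (nat_lit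 152) (nat_lit 374709822432) (nat_lit 0) (nat_lit 377299775944) (nat_lit 1) (nat_lit 5) (nat_lit 3) (nat_lit 4) (nat_lit 1) (nat_lit 4) (nat_lit 503) (nat_lit 369) (nat_lit 328)) (XT.lf (nat_lit 0) (nat_lit 418863933767) (nat_lit 152) (nat_lit 382912341240) (nat_lit 0) (nat_lit 418132503553) (nat_lit 1) (nat_lit 5) (nat_lit 3) (nat_lit 4) (nat_lit 1) (nat_lit 4) (nat_lit 504) (nat_lit 369) (nat_lit 327))) (XT.nd (nat_lit 78) (nat_lit 0) (nat_lit 0) (XT.lf (nat_lit 0) (nat_lit 462906011052) (nat_lit 152) (nat_lit 391893414340) (nat_lit 0) (nat_lit 462172354824) (nat_lit 1) (nat_lit 5) (nat_lit 3) (nat_lit 4) (nat_lit 1) (nat_lit 4) (nat_lit 505) (nat_lit 369) (nat_lit 326)) (XT.lf (nat_lit 0) (nat_lit 510416024005) (nat_lit 152) (nat_lit 401706262906) (nat_lit 0) (nat_lit 509680306654) (nat_lit 1) (nat_lit 5) (nat_lit 3) (nat_lit 4) (nat_lit 1) (nat_lit 4) (nat_lit 506) (nat_lit 369) (nat_lit 325))))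 (XT.nd (nat_lit 58890) (nat_lit 0) (nat_lit 836) (XT.nd (nat_lit 58812) (nat_lit 0) (nat_lit 1064) (XT.lf (nat_lit 0) (nat_lit 561675513444) (nat_lit 152) (nat_lit 412409037150) (nat_lit 0) (nat_lit 560937887645) (nat_lit 1) (nat_lit 5) (nat_lit 3) (nat_lit 4) (nat_lit 1) (nat_lit 4) (nat_lit 507) (nat_lit 369) (nat_lit 324)) (XT.lf (nat_lit 0) (nat_lit 14969000047) (nat_lit 76) (nat_lit 5414250888) (nat_lit 76) (nat_lit 5414250888) (nat_lit 15) (nat_lit 4) (nat_lit 16) (nat_lit 5) (nat_lit 16) (nat_lit 4) (nat_lit 460) (nat_lit 370) (nat_lit 370))) (XT.nd (nat_lit 78) (nat_lit 76) (nat_lit 0) (XT.lf (nat_lit 0) (nat_lit 9125281655) (nat_lit 152) (nat_lit 36528907003) (nat_lit 0) (nat_lit 9051234824) (nat_lit 13) (nat_lit 5) (nat_lit 15) (nat_lit 4) (nat_lit 13) (nat_lit 4) (nat_lit 461) (nat_lit 370) (nat_lit 369)) (XT.lf (nat_lit 0) (nat_lit 1504274669) (nat_lit 76) (nat_lit 28357913183) (nat_lit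 76) (nat_lit 28215304470) (nat_lit 12) (nat_lit 4) (nat_lit 13) (nat_lit 5) (nat_lit 13) (nat_lit 4) (nat_lit 462) (nat_lit 370) (nat_lit 368))))))))
noncomputable def xc9 : XT := (XT.nd (nat_lit 2496) (nat_lit 0) (nat_lit 0) (XT.nd (nat_lit 1248) (nat_lit 228) (nat_lit 0) (XT.nd (nat_lit 624) (nat_lit 228) (nat_lit 0) (XT.nd (nat_lit 312) (nat_lit 152) (nat_lit 0) (XT.nd (nat_lit 156) (nat_lit 76) (nat_lit 0) (XT.nd (nat_lit 78) (nat_lit 152) (nat_lit 0) (XT.lf (nat_lit 0) (nat_lit 41878891008) (nat_lit 76) (nat_lit 10031944603) (nat_lit 76) (nat_lit 9825852667) (nat_lit 12) (nat_lit 4) (nat_lit 13) (nat_lit 5) (nat_lit 13) (nat_lit 4) (nat_lit 463) (nat_lit 370) (nat_lit 367)) (XT.lf (nat_lit 0) (nat_lit 9218904559) (nat_lit 152) (nat_lit 47519971700) (nat_lit 0) (nat_lit 8966644846) (nat_lit 10) (nat_lit 5) (nat_lit 12) (nat_lit 4) (nat_lit 10) (nat_lit 4) (nat_lit 464) (nat_lit 370) (nat_lit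 366))) (XT.nd (nat_lit 78) (nat_lit 76) (nat_lit 0) (XT.lf (nat_lit 0) (nat_lit 29068735665) (nat_lit 152) (nat_lit 12169143552) (nat_lit 0) (nat_lit 28764641064) (nat_lit 10) (nat_lit 5) (nat_lit 12) (nat_lit 4) (nat_lit 10) (nat_lit 4) (nat_lit 465) (nat_lit 370) (nat_lit 365)) (XT.lf (nat_lit 0) (nat_lit 25113972917) (nat_lit 76) (nat_lit 24951720077) (nat_lit 76) (nat_lit 24599630211) (nat_lit 9) (nat_lit 4) (nat_lit 10) (nat_lit 5) (nat_lit 10) (nat_lit 4) (nat_lit 466) (nat_lit 370) (nat_lit 364)))) (XT.nd (nat_lit 156) (nat_lit 0) (nat_lit 0) (XT.nd (nat_lit 78) (nat_lit 152) (nat_lit 0) (XT.lf (nat_lit 0) (nat_lit 64188574751) (nat_lit 76) (nat_lit 7969169702) (nat_lit 76) (nat_lit 7572639774) (nat_lit 9) (nat_lit 4) (nat_lit 10) (nat_lit 5) (nat_lit 10) (nat_lit 4) (nat_lit 467) (nat_lit 370) (nat_lit 363)) (XT.lf (nat_lit 0) (nat_lit 10192611510) (nat_lit 152) (nat_lit 65237705406)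 (nat_lit 0) (nat_lit 9775775193) (nat_lit 7) (nat_lit 5) (nat_lit 9) (nat_lit 4) (nat_lit 7) (nat_lit 4) (nat_lit 468) (nat_lit 370) (nat_lit 362))) (XT.nd (nat_lit 78) (nat_lit 0) (nat_lit 0) (XT.lf (nat_lit 0) (nat_lit 28798167578) (nat_lit 152) (nat_lit 33986217547) (nat_lit 0) (nat_lit 28345045367) (nat_lit 7) (nat_lit 5) (nat_lit 9) (nat_lit 4) (nat_lit 7) (nat_lit 4) (nat_lit 469) (nat_lit 370) (nat_lit 361)) (XT.lf (nat_lit 0) (nat_lit 48217450506) (nat_lit 152) (nat_lit 1612191637) (nat_lit 0) (nat_lit 47730730244) (nat_lit 7) (nat_lit 5) (nat_lit 9) (nat_lit 4) (nat_lit 7) (nat_lit 4) (nat_lit 470) (nat_lit 370) (nat_lit 360))))) (XT.nd (nat_lit 312) (nat_lit 0) (nat_lit 0) (XT.nd (nat_lit 156) (nat_lit 152) (nat_lit 0) (XT.nd (nat_lit 78) (nat_lit 0) (nat_lit 0) (XT.lf (nat_lit 0) (nat_lit 33136803044) (nat_lit 76) (nat_lit 35946092843) (nat_lit 76) (nat_lit 35428263274) (nat_lit 6)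 (nat_lit 4) (nat_lit 7) (nat_lit 5) (nat_lit 7) (nat_lit 4) (nat_lit 471) (nat_lit 370) (nat_lit 359)) (XT.lf (nat_lit 0) (nat_lit 69503183527) (nat_lit 76) (nat_lit 21544965846) (nat_lit 76) (nat_lit 20998331363) (nat_lit 6) (nat_lit 4) (nat_lit 7) (nat_lit 5) (nat_lit 7) (nat_lit 4) (nat_lit 472) (nat_lit 370) (nat_lit 358))) (XT.nd (nat_lit 78) (nat_lit 152) (nat_lit 0) (XT.lf (nat_lit 0) (nat_lit 107649147952) (nat_lit 76) (nat_lit 6568224384) (nat_lit 76) (nat_lit 5994918686) (nat_lit 6) (nat_lit 4) (nat_lit 7) (nat_lit 5) (nat_lit 7) (nat_lit 4) (nat_lit 473) (nat_lit 370) (nat_lit 357)) (XT.lf (nat_lit 0) (nat_lit 9810283174) (nat_lit 152) (nat_lit 109975942794) (nat_lit 0) (nat_lit 9240758156) (nat_lit 4) (nat_lit 5) (nat_lit 6) (nat_lit 4) (nat_lit 4) (nat_lit 4) (nat_lit 474) (nat_lit 370) (nat_lit 356)))) (XT.nd (nat_lit 156) (nat_lit 0) (nat_lit 0) (XT.nd (nat_lit 78) (nat_lit 0)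 (nat_lit 0) (XT.lf (nat_lit 0) (nat_lit 26499775292) (nat_lit 152) (nat_lit 86142195663) (nat_lit 0) (nat_lit 25908472875) (nat_lit 4) (nat_lit 5) (nat_lit 6) (nat_lit 4) (nat_lit 4) (nat_lit 4) (nat_lit 475) (nat_lit 370) (nat_lit 355)) (XT.lf (nat_lit 0) (nat_lit 44055831643) (nat_lit 152) (nat_lit 61359013794) (nat_lit 0) (nat_lit 43444364968) (nat_lit 4) (nat_lit 5) (nat_lit 6) (nat_lit 4) (nat_lit 4) (nat_lit 4) (nat_lit 476) (nat_lit 370) (nat_lit 354))) (XT.nd (nat_lit 78) (nat_lit 0) (nat_lit 0) (XT.lf (nat_lit 0) (nat_lit 62582488116) (nat_lit 152) (nat_lit 35479533889) (nat_lit 0) (nat_lit 61952350831) (nat_lit 4) (nat_lit 5) (nat_lit 6) (nat_lit 4) (nat_lit 4) (nat_lit 4) (nat_lit 477) (nat_lit 370) (nat_lit 353)) (XT.lf (nat_lit 0) (nat_lit 82189532305) (nat_lit 152) (nat_lit 8350396067) (nat_lit 0) (nat_lit 81542107419) (nat_lit 4) (nat_lit 5) (nat_lit 6) (nat_lit 4) (nat_lit 4)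 (nat_lit 4) (nat_lit 478) (nat_lit 370) (nat_lit 352)))))) (XT.nd (nat_lit 624) (nat_lit 152) (nat_lit 0) (XT.nd (nat_lit 312) (nat_lit 0) (nat_lit 0) (XT.nd (nat_lit 156) (nat_lit 0) (nat_lit 0) (XT.nd (nat_lit 78) (nat_lit 0) (nat_lit 0) (XT.lf (nat_lit 0) (nat_lit 20856709902) (nat_lit 76) (nat_lit 82462075892) (nat_lit 76) (nat_lit 81798643968) (nat_lit 3) (nat_lit 4) (nat_lit 4) (nat_lit 5) (nat_lit 4) (nat_lit 4) (nat_lit 479) (nat_lit 370) (nat_lit 351)) (XT.lf (nat_lit 0) (nat_lit 51971691122) (nat_lit 76) (nat_lit 73956366855) (nat_lit 76) (nat_lit 73278113599) (nat_lit 3) (nat_lit 4) (nat_lit 4) (nat_lit 5) (nat_lit 4) (nat_lit 4) (nat_lit 480) (nat_lit 370) (nat_lit 350))) (XT.nd (nat_lit 78) (nat_lit 0) (nat_lit 0) (XT.lf (nat_lit 0) (nat_lit 84902830860) (nat_lit 76) (nat_lit 65113815059) (nat_lit 76) (nat_lit 64421838347) (nat_lit 3) (nat_lit 4) (nat_lit 4) (nat_lit 5) (nat_lit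 4) (nat_lit 4) (nat_lit 481) (nat_lit 370) (nat_lit 349)) (XT.lf (nat_lit 0) (nat_lit 119845276610) (nat_lit 76) (nat_lit 55882020196) (nat_lit 76) (nat_lit 55177336581) (nat_lit 3) (nat_lit 4) (nat_lit 4) (nat_lit 5) (nat_lit 4) (nat_lit 4) (nat_lit 482) (nat_lit 370) (nat_lit 348)))) (XT.nd (nat_lit 156) (nat_lit 0) (nat_lit 0) (XT.nd (nat_lit 78) (nat_lit 0) (nat_lit 0) (XT.lf (nat_lit 0) (nat_lit 157006094717) (nat_lit 76) (nat_lit 46206275334) (nat_lit 76) (nat_lit 45489826068) (nat_lit 3) (nat_lit 4) (nat_lit 4) (nat_lit 5) (nat_lit 4) (nat_lit 4) (nat_lit 483) (nat_lit 370) (nat_lit 347)) (XT.lf (nat_lit 0) (nat_lit 196605497438) (nat_lit 76) (nat_lit 36029242725) (nat_lit 76) (nat_lit 35301899338) (nat_lit 3) (nat_lit 4) (nat_lit 4) (nat_lit 5) (nat_lit 4) (nat_lit 4) (nat_lit 484) (nat_lit 370) (nat_lit 346))) (XT.nd (nat_lit 78) (nat_lit 0) (nat_lit 0) (XT.lf (nat_lit 0) (nat_lit 238878147900)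 (nat_lit 76) (nat_lit 25290614029) (nat_lit 76) (nat_lit 24553183493) (nat_lit 3) (nat_lit 4) (nat_lit 4) (nat_lit 5) (nat_lit 4) (nat_lit 4) (nat_lit 485) (nat_lit 370) (nat_lit 345)) (XT.lf (nat_lit 0) (nat_lit 284074550697) (nat_lit 76) (nat_lit 13926752927) (nat_lit 76) (nat_lit 13179982438) (nat_lit 3) (nat_lit 4) (nat_lit 4) (nat_lit 5) (nat_lit 4) (nat_lit 4) (nat_lit 486) (nat_lit 370) (nat_lit 344))))) (XT.nd (nat_lit 312) (nat_lit 0) (nat_lit 0) (XT.nd (nat_lit 156) (nat_lit 0) (nat_lit 0) (XT.nd (nat_lit 78) (nat_lit 152) (nat_lit 0) (XT.lf (nat_lit 0) (nat_lit 332462536365) (nat_lit 76) (nat_lit 1870318020) (nat_lit 76) (nat_lit 1114899426) (nat_lit 3) (nat_lit 4) (nat_lit 4) (nat_lit 5) (nat_lit 4) (nat_lit 4) (nat_lit 487) (nat_lit 370) (nat_lit 343)) (XT.lf (nat_lit 0) (nat_lit 11881153539) (nat_lit 152) (nat_lit 338593646360) (nat_lit 0) (nat_lit 11154081064) (nat_lit 1) (nat_lit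 5) (nat_lit 3) (nat_lit 4) (nat_lit 1) (nat_lit 4) (nat_lit 488) (nat_lit 370) (nat_lit 342))) (XT.nd (nat_lit 78) (nat_lit 0) (nat_lit 0) (XT.lf (nat_lit 0) (nat_lit 25772840545) (nat_lit 152) (nat_lit 339097286710) (nat_lit 0) (nat_lit 25038706779) (nat_lit 1) (nat_lit 5) (nat_lit 3) (nat_lit 4) (nat_lit 1) (nat_lit 4) (nat_lit 489) (nat_lit 370) (nat_lit 341)) (XT.lf (nat_lit 0) (nat_lit 40600027546) (nat_lit 152) (nat_lit 340000592113) (nat_lit 0) (nat_lit 39859355547) (nat_lit 1) (nat_lit 5) (nat_lit 3) (nat_lit 4) (nat_lit 1) (nat_lit 4) (nat_lit 490) (nat_lit 370) (nat_lit 340)))) (XT.nd (nat_lit 156) (nat_lit 0) (nat_lit 0) (XT.nd (nat_lit 78) (nat_lit 0) (nat_lit 0) (XT.lf (nat_lit 0) (nat_lit 56450579354) (nat_lit 152) (nat_lit 341308915491) (nat_lit 0) (nat_lit 55703853436) (nat_lit 1) (nat_lit 5) (nat_lit 3) (nat_lit 4) (nat_lit 1) (nat_lit 4) (nat_lit 491) (nat_lit 370) (nat_lit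 339)) (XT.lf (nat_lit 0) (nat_lit 73418425165) (nat_lit 152) (nat_lit 343030009871) (nat_lit 0) (nat_lit 72666093766) (nat_lit 1) (nat_lit 5) (nat_lit 3) (nat_lit 4) (nat_lit 1) (nat_lit 4) (nat_lit 492) (nat_lit 370) (nat_lit 338))) (XT.nd (nat_lit 78) (nat_lit 0) (nat_lit 0) (XT.lf (nat_lit 0) (nat_lit 91604115176) (nat_lit 152) (nat_lit 345174074331) (nat_lit 0) (nat_lit 90846593517) (nat_lit 1) (nat_lit 5) (nat_lit 3) (nat_lit 4) (nat_lit 1) (nat_lit 4) (nat_lit 493) (nat_lit 370) (nat_lit 337)) (XT.lf (nat_lit 0) (nat_lit 111115416440) (nat_lit 152) (nat_lit 347753814438) (nat_lit 0) (nat_lit 110353088985) (nat_lit 1) (nat_lit 5) (nat_lit 3) (nat_lit 4) (nat_lit 1) (nat_lit 4) (nat_lit 494) (nat_lit 370) (nat_lit 336))))))) (XT.nd (nat_lit 59826) (nat_lit 0) (nat_lit 228) (XT.nd (nat_lit 624) (nat_lit 0) (nat_lit 0) (XT.nd (nat_lit 312) (nat_lit 0) (nat_lit 0) (XT.nd (nat_lit 156) (nat_lit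 0) (nat_lit 0) (XT.nd (nat_lit 78) (nat_lit 0) (nat_lit 0) (XT.lf (nat_lit 0) (nat_lit 132067951482) (nat_lit 152) (nat_lit 350784517541) (nat_lit 0) (nat_lit 131301174216) (nat_lit 1) (nat_lit 5) (nat_lit 3) (nat_lit 4) (nat_lit 1) (nat_lit 4) (nat_lit 495) (nat_lit 370) (nat_lit 335)) (XT.lf (nat_lit 0) (nat_lit 154585883473) (nat_lit 152) (nat_lit 354284143362) (nat_lit 0) (nat_lit 153814986011) (nat_lit 1) (nat_lit 5) (nat_lit 3) (nat_lit 4) (nat_lit 1) (nat_lit 4) (nat_lit 496) (nat_lit 370) (nat_lit 334))) (XT.nd (nat_lit 78) (nat_lit 0) (nat_lit 0) (XT.lf (nat_lit 0) (nat_lit 178802652010) (nat_lit 152) (nat_lit 358273430424) (nat_lit 0) (nat_lit 178027939552) (nat_lit 1) (nat_lit 5) (nat_lit 3) (nat_lit 4) (nat_lit 1) (nat_lit 4) (nat_lit 497) (nat_lit 370) (nat_lit 333)) (XT.lf (nat_lit 0) (nat_lit 204861763870) (nat_lit 152) (nat_lit 362776018947) (nat_lit 0) (nat_lit 204083519008)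 (nat_lit 1) (nat_lit 5) (nat_lit 3) (nat_lit 4) (nat_lit 1) (nat_lit 4) (nat_lit 498) (nat_lit 370) (nat_lit 332)))) (XT.nd (nat_lit 156) (nat_lit 0) (nat_lit 0) (XT.nd (nat_lit 78) (nat_lit 0) (nat_lit 0) (XT.lf (nat_lit 0) (nat_lit 232917643418) (nat_lit 152) (nat_lit 367818590937) (nat_lit 0) (nat_lit 232136127813) (nat_lit 1) (nat_lit 5) (nat_lit 3) (nat_lit 4) (nat_lit 1) (nat_lit 4) (nat_lit 499) (nat_lit 370) (nat_lit 331)) (XT.lf (nat_lit 0) (nat_lit 263136547720) (nat_lit 152) (nat_lit 373431028302) (nat_lit 0) (nat_lit 262352003647) (nat_lit 1) (nat_lit 5) (nat_lit 3) (nat_lit 4) (nat_lit 1) (nat_lit 4) (nat_lit 500) (nat_lit 370) (nat_lit 330))) (XT.nd (nat_lit 78) (nat_lit 0) (nat_lit 0) (XT.lf (nat_lit 0) (nat_lit 295697551763) (nat_lit 152) (nat_lit 379646589931) (nat_lit 0) (nat_lit 294910203555) (nat_lit 1) (nat_lit 5) (nat_lit 3) (nat_lit 4) (nat_lit 1) (nat_lit 4) (nat_lit 501)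 (nat_lit 370) (nat_lit 329)) (XT.lf (nat_lit 0) (nat_lit 330793609646) (nat_lit 152) (nat_lit 386502108780) (nat_lit 0) (nat_lit 330003665015) (nat_lit 1) (nat_lit 5) (nat_lit 3) (nat_lit 4) (nat_lit 1) (nat_lit 4) (nat_lit 502) (nat_lit 370) (nat_lit 328))))) (XT.nd (nat_lit 312) (nat_lit 0) (nat_lit 0) (XT.nd (nat_lit 156) (nat_lit 0) (nat_lit 0) (XT.nd (nat_lit 78) (nat_lit 0) (nat_lit 0) (XT.lf (nat_lit 0) (nat_lit 368632698007) (nat_lit 152) (nat_lit 394038210147) (nat_lit 0) (nat_lit 367840349282) (nat_lit 1) (nat_lit 5) (nat_lit 3) (nat_lit 4) (nat_lit 1) (nat_lit 4) (nat_lit 503) (nat_lit 370) (nat_lit 327)) (XT.lf (nat_lit 0) (nat_lit 409439048483) (nat_lit 152) (nat_lit 402299552411) (nat_lit 0) (nat_lit 408644473744) (nat_lit 1) (nat_lit 5) (nat_lit 3) (nat_lit 4) (nat_lit 1) (nat_lit 4) (nat_lit 504) (nat_lit 370) (nat_lit 326))) (XT.nd (nat_lit 78) (nat_lit 0) (nat_lit 0) (XT.lf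 (nat_lit 0) (nat_lit 453454476481) (nat_lit 152) (nat_lit 411335091673) (nat_lit 0) (nat_lit 452657840619) (nat_lit 1) (nat_lit 5) (nat_lit 3) (nat_lit 4) (nat_lit 1) (nat_lit 4) (nat_lit 505) (nat_lit 370) (nat_lit 325)) (XT.lf (nat_lit 0) (nat_lit 500939814170) (nat_lit 152) (nat_lit 421198371871) (nat_lit 0) (nat_lit 500141269860) (nat_lit 1) (nat_lit 5) (nat_lit 3) (nat_lit 4) (nat_lit 1) (nat_lit 4) (nat_lit 506) (nat_lit 370) (nat_lit 324)))) (XT.nd (nat_lit 58734) (nat_lit 0) (nat_lit 1064) (XT.nd (nat_lit 58656) (nat_lit 0) (nat_lit 1292) (XT.lf (nat_lit 0) (nat_lit 552176456142) (nat_lit 152) (nat_lit 431947842071) (nat_lit 0) (nat_lit 551376144750) (nat_lit 1) (nat_lit 5) (nat_lit 3) (nat_lit 4) (nat_lit 1) (nat_lit 4) (nat_lit 507) (nat_lit 370) (nat_lit 323)) (XT.lf (nat_lit 0) (nat_lit 21428159896) (nat_lit 76) (nat_lit 803466990) (nat_lit 76) (nat_lit 803466990) (nat_lit 18) (nat_lit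 4) (nat_lit 19) (nat_lit 5) (nat_lit 19) (nat_lit 4) (nat_lit 458) (nat_lit 371) (nat_lit 371))) (XT.nd (nat_lit 78) (nat_lit 76) (nat_lit 0) (XT.lf (nat_lit 0) (nat_lit 18818502842) (nat_lit 152) (nat_lit 11174637788) (nat_lit 0) (nat_lit 18734533735) (nat_lit 16) (nat_lit 5) (nat_lit 18) (nat_lit 4) (nat_lit 16) (nat_lit 4) (nat_lit 459) (nat_lit 371) (nat_lit 370)) (XT.lf (nat_lit 0) (nat_lit 28918143153) (nat_lit 76) (nat_lit 11431802825) (nat_lit 76) (nat_lit 11270084544) (nat_lit 15) (nat_lit 4) (nat_lit 16) (nat_lit 5) (nat_lit 16) (nat_lit 4) (nat_lit 460) (nat_lit 371) (nat_lit 369)))))) (XT.nd (nat_lit 624) (nat_lit 228) (nat_lit 0) (XT.nd (nat_lit 312) (nat_lit 228) (nat_lit 0) (XT.nd (nat_lit 156) (nat_lit 228) (nat_lit 0) (XT.nd (nat_lit 78) (nat_lit 0) (nat_lit 0) (XT.lf (nat_lit 0) (nat_lit 8176868644) (nat_lit 152) (nat_lit 38625685809) (nat_lit 0) (nat_lit 7954289353) (nat_lit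 13) (nat_lit 5) (nat_lit 15) (nat_lit 4) (nat_lit 13) (nat_lit 4) (nat_lit 461) (nat_lit 371) (nat_lit 368)) (XT.lf (nat_lit 0) (nat_lit 28432497059) (nat_lit 152) (nat_lit 1574045443) (nat_lit 0) (nat_lit 28146434544) (nat_lit 13) (nat_lit 5) (nat_lit 15) (nat_lit 4) (nat_lit 13) (nat_lit 4) (nat_lit 462) (nat_lit 371) (nat_lit 367))) (XT.nd (nat_lit 78) (nat_lit 152) (nat_lit 0) (XT.lf (nat_lit 0) (nat_lit 37855694934) (nat_lit 76) (nat_lit 12162241126) (nat_lit 76) (nat_lit 11817397849) (nat_lit 12) (nat_lit 4) (nat_lit 13) (nat_lit 5) (nat_lit 13) (nat_lit 4) (nat_lit 463) (nat_lit 371) (nat_lit 366)) (XT.lf (nat_lit 0) (nat_lit 6757771848) (nat_lit 152) (nat_lit 52697101665) (nat_lit 0) (nat_lit 6377514792) (nat_lit 10) (nat_lit 5) (nat_lit 12) (nat_lit 4) (nat_lit 10) (nat_lit 4) (nat_lit 464) (nat_lit 371) (nat_lit 365)))) (XT.nd (nat_lit 156) (nat_lit 152) (nat_lit 0) (XT.nd (nat_lit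 78) (nat_lit 76) (nat_lit 0) (XT.lf (nat_lit 0) (nat_lit 26207141529) (nat_lit 152) (nat_lit 18163380201) (nat_lit 0) (nat_lit 25778889207) (nat_lit 10) (nat_lit 5) (nat_lit 12) (nat_lit 4) (nat_lit 10) (nat_lit 4) (nat_lit 465) (nat_lit 371) (nat_lit 364)) (XT.lf (nat_lit 0) (nat_lit 18139943511) (nat_lit 76) (nat_lit 28584473589) (nat_lit 76) (nat_lit 28111781205) (nat_lit 9) (nat_lit 4) (nat_lit 10) (nat_lit 5) (nat_lit 10) (nat_lit 4) (nat_lit 466) (nat_lit 371) (nat_lit 363))) (XT.nd (nat_lit 78) (nat_lit 152) (nat_lit 0) (XT.lf (nat_lit 0) (nat_lit 56490845138) (nat_lit 76) (nat_lit 11970993306) (nat_lit 76) (nat_lit 11457152718) (nat_lit 9) (nat_lit 4) (nat_lit 10) (nat_lit 5) (nat_lit 10) (nat_lit 4) (nat_lit 467) (nat_lit 371) (nat_lit 362)) (XT.lf (nat_lit 0) (nat_lit 5890329201) (nat_lit 152) (nat_lit 74169836127) (nat_lit 0) (nat_lit 5364671317) (nat_lit 7) (nat_lit 5) (nat_lit 9)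 (nat_lit 4) (nat_lit 7) (nat_lit 4) (nat_lit 468) (nat_lit 371) (nat_lit 361))))) (XT.nd (nat_lit 312) (nat_lit 152) (nat_lit 0) (XT.nd (nat_lit 156) (nat_lit 76) (nat_lit 0) (XT.nd (nat_lit 78) (nat_lit 0) (nat_lit 0) (XT.lf (nat_lit 0) (nat_lit 24171501795) (nat_lit 152) (nat_lit 43580646815) (nat_lit 0) (nat_lit 23612245861) (nat_lit 7) (nat_lit 5) (nat_lit 9) (nat_lit 4) (nat_lit 7) (nat_lit 4) (nat_lit 469) (nat_lit 371) (nat_lit 360)) (XT.lf (nat_lit 0) (nat_lit 43290429655) (nat_lit 152) (nat_lit 11819860300) (nat_lit 0) (nat_lit 42700064414) (nat_lit 7) (nat_lit 5) (nat_lit 9) (nat_lit 4) (nat_lit 7) (nat_lit 4) (nat_lit 470) (nat_lit 371) (nat_lit 359))) (XT.nd (nat_lit 78) (nat_lit 0) (nat_lit 0) (XT.lf (nat_lit 0) (nat_lit 22005033998) (nat_lit 76) (nat_lit 41698936382) (nat_lit 76) (nat_lit 41079766227) (nat_lit 6) (nat_lit 4) (nat_lit 7) (nat_lit 5) (nat_lit 7) (nat_lit 4) (nat_lit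 471) (nat_lit 371) (nat_lit 358)) (XT.lf (nat_lit 0) (nat_lit 57828276742) (nat_lit 76) (nat_lit 27574961161) (nat_lit 76) (nat_lit 26929119790) (nat_lit 6) (nat_lit 4) (nat_lit 7) (nat_lit 5) (nat_lit 7) (nat_lit 4) (nat_lit 472) (nat_lit 371) (nat_lit 357)))) (XT.nd (nat_lit 156) (nat_lit 0) (nat_lit 0) (XT.nd (nat_lit 78) (nat_lit 152) (nat_lit 0) (XT.lf (nat_lit 0) (nat_lit 95471335853) (nat_lit 76) (nat_lit 12854841715) (nat_lit 76) (nat_lit 12184304774) (nat_lit 6) (nat_lit 4) (nat_lit 7) (nat_lit 5) (nat_lit 7) (nat_lit 4) (nat_lit 473) (nat_lit 371) (nat_lit 356)) (XT.lf (nat_lit 0) (nat_lit 3273010720) (nat_lit 152) (nat_lit 123471669142) (nat_lit 0) (nat_lit 2612626711) (nat_lit 4) (nat_lit 5) (nat_lit 6) (nat_lit 4) (nat_lit 4) (nat_lit 4) (nat_lit 474) (nat_lit 371) (nat_lit 355))) (XT.nd (nat_lit 78) (nat_lit 0) (nat_lit 0) (XT.lf (nat_lit 0) (nat_lit 19737216714) (nat_lit 152) (nat_lit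 100098145584) (nat_lit 0) (nat_lit 19056668447) (nat_lit 4) (nat_lit 5) (nat_lit 6) (nat_lit 4) (nat_lit 4) (nat_lit 4) (nat_lit 475) (nat_lit 371) (nat_lit 354)) (XT.lf (nat_lit 0) (nat_lit 37084674803) (nat_lit 152) (nat_lit 75741096655) (nat_lit 0) (nat_lit 36385455926) (nat_lit 4) (nat_lit 5) (nat_lit 6) (nat_lit 4) (nat_lit 4) (nat_lit 4) (nat_lit 476) (nat_lit 371) (nat_lit 353))))))))
noncomputable def xc10 : XT := (XT.nd (nat_lit 60840) (nat_lit 0) (nat_lit 152) (XT.nd (nat_lit 1170) (nat_lit 0) (nat_lit 0) (XT.nd (nat_lit 546) (nat_lit 152) (nat_lit 0) (XT.nd (nat_lit 234) (nat_lit 0) (nat_lit 0) (XT.nd (nat_lit 78) (nat_lit 76) (nat_lit 0) (XT.lf (nat_lit 0) (nat_lit 55418184736) (nat_lit 152) (nat_lit 50256184286) (nat_lit 0) (nat_lit 54701678258) (nat_lit 4) (nat_lit 5) (nat_lit 6) (nat_lit 4) (nat_lit 4) (nat_lit 4) (nat_lit 477) (nat_lit 371) (nat_lit 352)) (XT.nd (nat_lit 78) (nat_lit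 76) (nat_lit 0) (XT.lf (nat_lit 0) (nat_lit 74846389537) (nat_lit 152) (nat_lit 23492386775) (nat_lit 0) (nat_lit 74113876021) (nat_lit 4) (nat_lit 5) (nat_lit 6) (nat_lit 4) (nat_lit 4) (nat_lit 4) (nat_lit 478) (nat_lit 371) (nat_lit 351)) (XT.lf (nat_lit 0) (nat_lit 4864593532) (nat_lit 76) (nat_lit 90695775713) (nat_lit 76) (nat_lit 89948440865) (nat_lit 3) (nat_lit 4) (nat_lit 4) (nat_lit 5) (nat_lit 4) (nat_lit 4) (nat_lit 479) (nat_lit 371) (nat_lit 350)))) (XT.nd (nat_lit 156) (nat_lit 0) (nat_lit 0) (XT.nd (nat_lit 78) (nat_lit 0) (nat_lit 0) (XT.lf (nat_lit 0) (nat_lit 35655997839) (nat_lit 76) (nat_lit 82355265697) (nat_lit 76) (nat_lit 81594207394) (nat_lit 3) (nat_lit 4) (nat_lit 4) (nat_lit 5) (nat_lit 4) (nat_lit 4) (nat_lit 480) (nat_lit 371) (nat_lit 349)) (XT.lf (nat_lit 0) (nat_lit 68287529323) (nat_lit 76) (nat_lit 73665675957) (nat_lit 76) (nat_lit 72891910751) (nat_lit 3)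 (nat_lit 4) (nat_lit 4) (nat_lit 5) (nat_lit 4) (nat_lit 4) (nat_lit 481) (nat_lit 371) (nat_lit 348))) (XT.nd (nat_lit 78) (nat_lit 0) (nat_lit 0) (XT.lf (nat_lit 0) (nat_lit 102952560024) (nat_lit 76) (nat_lit 64575512628) (nat_lit 76) (nat_lit 63789981770) (nat_lit 3) (nat_lit 4) (nat_lit 4) (nat_lit 5) (nat_lit 4) (nat_lit 4) (nat_lit 482) (nat_lit 371) (nat_lit 347)) (XT.lf (nat_lit 0) (nat_lit 139856512346) (nat_lit 76) (nat_lit 55030908075) (nat_lit 76) (nat_lit 54234483096) (nat_lit 3) (nat_lit 4) (nat_lit 4) (nat_lit 5) (nat_lit 4) (nat_lit 4) (nat_lit 483) (nat_lit 371) (nat_lit 346))))) (XT.nd (nat_lit 312) (nat_lit 152) (nat_lit 0) (XT.nd (nat_lit 156) (nat_lit 0) (nat_lit 0) (XT.nd (nat_lit 78) (nat_lit 0) (nat_lit 0) (XT.lf (nat_lit 0) (nat_lit 179218076376) (nat_lit 76) (nat_lit 44975301679) (nat_lit 76) (nat_lit 44168789550) (nat_lit 3) (nat_lit 4) (nat_lit 4) (nat_lit 5) (nat_lit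 4) (nat_lit 4) (nat_lit 484) (nat_lit 371) (nat_lit 345)) (XT.lf (nat_lit 0) (nat_lit 221270505827) (nat_lit 76) (nat_lit 34349104660) (nat_lit 76) (nat_lit 33533252579) (nat_lit 3) (nat_lit 4) (nat_lit 4) (nat_lit 5) (nat_lit 4) (nat_lit 4) (nat_lit 485) (nat_lit 371) (nat_lit 344))) (XT.nd (nat_lit 78) (nat_lit 0) (nat_lit 0) (XT.lf (nat_lit 0) (nat_lit 266263000281) (nat_lit 76) (nat_lit 23089346964) (nat_lit 76) (nat_lit 22264846777) (nat_lit 3) (nat_lit 4) (nat_lit 4) (nat_lit 5) (nat_lit 4) (nat_lit 4) (nat_lit 486) (nat_lit 371) (nat_lit 343)) (XT.lf (nat_lit 0) (nat_lit 314462181928) (nat_lit 76) (nat_lit 11129304098) (nat_lit 76) (nat_lit 10296796408) (nat_lit 3) (nat_lit 4) (nat_lit 4) (nat_lit 5) (nat_lit 4) (nat_lit 4) (nat_lit 487) (nat_lit 371) (nat_lit 342)))) (XT.nd (nat_lit 156) (nat_lit 0) (nat_lit 0) (XT.nd (nat_lit 78) (nat_lit 0) (nat_lit 0) (XT.lf (nat_lit 0) (nat_lit 2454967399)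 (nat_lit 152) (nat_lit 357993476721) (nat_lit 0) (nat_lit 1655041641) (nat_lit 1) (nat_lit 5) (nat_lit 3) (nat_lit 4) (nat_lit 1) (nat_lit 4) (nat_lit 488) (nat_lit 371) (nat_lit 341)) (XT.lf (nat_lit 0) (nat_lit 16262118364) (nat_lit 152) (nat_lit 358669892949) (nat_lit 0) (nat_lit 15455654373) (nat_lit 1) (nat_lit 5) (nat_lit 3) (nat_lit 4) (nat_lit 1) (nat_lit 4) (nat_lit 489) (nat_lit 371) (nat_lit 340))) (XT.nd (nat_lit 78) (nat_lit 0) (nat_lit 0) (XT.lf (nat_lit 0) (nat_lit 31011031253) (nat_lit 152) (nat_lit 359733176016) (nat_lit 0) (nat_lit 30198513342) (nat_lit 1) (nat_lit 5) (nat_lit 3) (nat_lit 4) (nat_lit 1) (nat_lit 4) (nat_lit 490) (nat_lit 371) (nat_lit 339)) (XT.lf (nat_lit 0) (nat_lit 46789107031) (nat_lit 152) (nat_lit 361189626862) (nat_lit 0) (nat_lit 45970983640) (nat_lit 1) (nat_lit 5) (nat_lit 3) (nat_lit 4) (nat_lit 1) (nat_lit 4) (nat_lit 491) (nat_lit 371) (nat_lit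 338)))))) (XT.nd (nat_lit 624) (nat_lit 0) (nat_lit 0) (XT.nd (nat_lit 312) (nat_lit 0) (nat_lit 0) (XT.nd (nat_lit 156) (nat_lit 0) (nat_lit 0) (XT.nd (nat_lit 78) (nat_lit 0) (nat_lit 0) (XT.lf (nat_lit 0) (nat_lit 63689845407) (nat_lit 152) (nat_lit 363047876304) (nat_lit 0) (nat_lit 62866531756) (nat_lit 1) (nat_lit 5) (nat_lit 3) (nat_lit 4) (nat_lit 1) (nat_lit 4) (nat_lit 492) (nat_lit 371) (nat_lit 337)) (XT.lf (nat_lit 0) (nat_lit 81813398905) (nat_lit 152) (nat_lit 365318936192) (nat_lit 0) (nat_lit 80985279458) (nat_lit 1) (nat_lit 5) (nat_lit 3) (nat_lit 4) (nat_lit 1) (nat_lit 4) (nat_lit 493) (nat_lit 371) (nat_lit 336))) (XT.nd (nat_lit 78) (nat_lit 0) (nat_lit 0) (XT.lf (nat_lit 0) (nat_lit 101267166360) (nat_lit 152) (nat_lit 368016264658) (nat_lit 0) (nat_lit 100434597101) (nat_lit 1) (nat_lit 5) (nat_lit 3) (nat_lit 4) (nat_lit 1) (nat_lit 4) (nat_lit 494) (nat_lit 371) (nat_lit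 335)) (XT.lf (nat_lit 0) (nat_lit 122166429357) (nat_lit 152) (nat_lit 371155845872) (nat_lit 0) (nat_lit 121329739902) (nat_lit 1) (nat_lit 5) (nat_lit 3) (nat_lit 4) (nat_lit 1) (nat_lit 4) (nat_lit 495) (nat_lit 371) (nat_lit 334)))) (XT.nd (nat_lit 156) (nat_lit 0) (nat_lit 0) (XT.nd (nat_lit 78) (nat_lit 0) (nat_lit 0) (XT.lf (nat_lit 0) (nat_lit 144635035380) (nat_lit 152) (nat_lit 374756284758) (nat_lit 0) (nat_lit 143794530929) (nat_lit 1) (nat_lit 5) (nat_lit 3) (nat_lit 4) (nat_lit 1) (nat_lit 4) (nat_lit 496) (nat_lit 371) (nat_lit 333)) (XT.lf (nat_lit 0) (nat_lit 168806131724) (nat_lit 152) (nat_lit 378838917250) (nat_lit 0) (nat_lit 167962094870) (nat_lit 1) (nat_lit 5) (nat_lit 3) (nat_lit 4) (nat_lit 1) (nat_lit 4) (nat_lit 497) (nat_lit 371) (nat_lit 332))) (XT.nd (nat_lit 78) (nat_lit 0) (nat_lit 0) (XT.lf (nat_lit 0) (nat_lit 194822954517) (nat_lit 152) (nat_lit 383427936728)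 (nat_lit 0) (nat_lit 193975646918) (nat_lit 1) (nat_lit 5) (nat_lit 3) (nat_lit 4) (nat_lit 1) (nat_lit 4) (nat_lit 498) (nat_lit 371) (nat_lit 331)) (XT.lf (nat_lit 0) (nat_lit 222839677522) (nat_lit 152) (nat_lit 388550537380) (nat_lit 0) (nat_lit 221989341456) (nat_lit 1) (nat_lit 5) (nat_lit 3) (nat_lit 4) (nat_lit 1) (nat_lit 4) (nat_lit 499) (nat_lit 371) (nat_lit 330))))) (XT.nd (nat_lit 312) (nat_lit 0) (nat_lit 0) (XT.nd (nat_lit 156) (nat_lit 0) (nat_lit 0) (XT.nd (nat_lit 78) (nat_lit 0) (nat_lit 0) (XT.lf (nat_lit 0) (nat_lit 253022325764) (nat_lit 152) (nat_lit 394237075357) (nat_lit 0) (nat_lit 252169185563) (nat_lit 1) (nat_lit 5) (nat_lit 3) (nat_lit 4) (nat_lit 1) (nat_lit 4) (nat_lit 500) (nat_lit 371) (nat_lit 329)) (XT.lf (nat_lit 0) (nat_lit 285549759383) (nat_lit 152) (nat_lit 400521248664) (nat_lit 0) (nat_lit 284694022759) (nat_lit 1) (nat_lit 5) (nat_lit 3) (nat_lit 4)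 (nat_lit 1) (nat_lit 4) (nat_lit 501) (nat_lit 371) (nat_lit 328))) (XT.nd (nat_lit 78) (nat_lit 0) (nat_lit 0) (XT.lf (nat_lit 0) (nat_lit 320614733539) (nat_lit 152) (nat_lit 407440296845) (nat_lit 0) (nat_lit 319756592820) (nat_lit 1) (nat_lit 5) (nat_lit 3) (nat_lit 4) (nat_lit 1) (nat_lit 4) (nat_lit 502) (nat_lit 371) (nat_lit 327)) (XT.lf (nat_lit 0) (nat_lit 358425040672) (nat_lit 152) (nat_lit 415035221668) (nat_lit 0) (nat_lit 357564673940) (nat_lit 1) (nat_lit 5) (nat_lit 3) (nat_lit 4) (nat_lit 1) (nat_lit 4) (nat_lit 503) (nat_lit 371) (nat_lit 326)))) (XT.nd (nat_lit 156) (nat_lit 0) (nat_lit 0) (XT.nd (nat_lit 78) (nat_lit 0) (nat_lit 0) (XT.lf (nat_lit 0) (nat_lit 399204741861) (nat_lit 152) (nat_lit 423351030094) (nat_lit 0) (nat_lit 398342314006) (nat_lit 1) (nat_lit 5) (nat_lit 3) (nat_lit 4) (nat_lit 1) (nat_lit 4) (nat_lit 504) (nat_lit 371) (nat_lit 325)) (XT.lf (nat_lit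 0) (nat_lit 443195494595) (nat_lit 152) (nat_lit 432437000988) (nat_lit 0) (nat_lit 442331158292) (nat_lit 1) (nat_lit 5) (nat_lit 3) (nat_lit 4) (nat_lit 1) (nat_lit 4) (nat_lit 505) (nat_lit 371) (nat_lit 324))) (XT.nd (nat_lit 78) (nat_lit 0) (nat_lit 0) (XT.lf (nat_lit 0) (nat_lit 490657984817) (nat_lit 152) (nat_lit 442346977140) (nat_lit 0) (nat_lit 489791881432) (nat_lit 1) (nat_lit 5) (nat_lit 3) (nat_lit 4) (nat_lit 1) (nat_lit 4) (nat_lit 506) (nat_lit 371) (nat_lit 323)) (XT.lf (nat_lit 0) (nat_lit 541873471727) (nat_lit 152) (nat_lit 453139684336) (nat_lit 0) (nat_lit 541005732156) (nat_lit 1) (nat_lit 5) (nat_lit 3) (nat_lit 4) (nat_lit 1) (nat_lit 4) (nat_lit 507) (nat_lit 371) (nat_lit 322))))))) (XT.nd (nat_lit 1248) (nat_lit 228) (nat_lit 0) (XT.nd (nat_lit 624) (nat_lit 456) (nat_lit 0) (XT.nd (nat_lit 312) (nat_lit 304) (nat_lit 0) (XT.nd (nat_lit 156) (nat_lit 152) (nat_lit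 0) (XT.nd (nat_lit 78) (nat_lit 76) (nat_lit 0) (XT.lf (nat_lit 0) (nat_lit 1057040380) (nat_lit 152) (nat_lit 18541601479) (nat_lit 0) (nat_lit 1057040380) (nat_lit 19) (nat_lit 5) (nat_lit 21) (nat_lit 4) (nat_lit 19) (nat_lit 4) (nat_lit 456) (nat_lit 372) (nat_lit 372)) (XT.lf (nat_lit 0) (nat_lit 1231175800) (nat_lit 76) (nat_lit 21233047934) (nat_lit 76) (nat_lit 21137826966) (nat_lit 18) (nat_lit 4) (nat_lit 19) (nat_lit 5) (nat_lit 19) (nat_lit 4) (nat_lit 457) (nat_lit 372) (nat_lit 371))) (XT.nd (nat_lit 78) (nat_lit 152) (nat_lit 0) (XT.lf (nat_lit 0) (nat_lit 41857602864) (nat_lit 76) (nat_lit 2210252546) (nat_lit 76) (nat_lit 2026864016) (nat_lit 18) (nat_lit 4) (nat_lit 19) (nat_lit 5) (nat_lit 19) (nat_lit 4) (nat_lit 458) (nat_lit 372) (nat_lit 370)) (XT.lf (nat_lit 0) (nat_lit 17901216953) (nat_lit 152) (nat_lit 13228045300) (nat_lit 0) (nat_lit 17648812037) (nat_lit 16) (nat_lit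 5) (nat_lit 18) (nat_lit 4) (nat_lit 16) (nat_lit 4) (nat_lit 459) (nat_lit 372) (nat_lit 369)))) (XT.nd (nat_lit 156) (nat_lit 76) (nat_lit 0) (XT.nd (nat_lit 78) (nat_lit 152) (nat_lit 0) (XT.lf (nat_lit 0) (nat_lit 25852528732) (nat_lit 76) (nat_lit 13083562805) (nat_lit 76) (nat_lit 12759167913) (nat_lit 15) (nat_lit 4) (nat_lit 16) (nat_lit 5) (nat_lit 16) (nat_lit 4) (nat_lit 460) (nat_lit 372) (nat_lit 368)) (XT.lf (nat_lit 0) (nat_lit 6200375564) (nat_lit 152) (nat_lit 42831668776) (nat_lit 0) (nat_lit 5827944825) (nat_lit 13) (nat_lit 5) (nat_lit 15) (nat_lit 4) (nat_lit 13) (nat_lit 4) (nat_lit 461) (nat_lit 372) (nat_lit 367))) (XT.nd (nat_lit 78) (nat_lit 76) (nat_lit 0) (XT.lf (nat_lit 0) (nat_lit 26032122646) (nat_lit 152) (nat_lit 6644283155) (nat_lit 0) (nat_lit 25600911144) (nat_lit 13) (nat_lit 5) (nat_lit 15) (nat_lit 4) (nat_lit 13) (nat_lit 4) (nat_lit 462) (nat_lit 372)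 (nat_lit 366)) (XT.lf (nat_lit 0) (nat_lit 31791116980) (nat_lit 76) (nat_lit 15339276894) (nat_lit 76) (nat_lit 14853638761) (nat_lit 12) (nat_lit 4) (nat_lit 13) (nat_lit 5) (nat_lit 13) (nat_lit 4) (nat_lit 463) (nat_lit 372) (nat_lit 365))))) (XT.nd (nat_lit 312) (nat_lit 228) (nat_lit 0) (XT.nd (nat_lit 156) (nat_lit 76) (nat_lit 0) (XT.nd (nat_lit 78) (nat_lit 0) (nat_lit 0) (XT.lf (nat_lit 0) (nat_lit 3266788756) (nat_lit 152) (nat_lit 59987983930) (nat_lit 0) (nat_lit 2756280982) (nat_lit 10) (nat_lit 5) (nat_lit 12) (nat_lit 4) (nat_lit 10) (nat_lit 4) (nat_lit 464) (nat_lit 372) (nat_lit 364)) (XT.lf (nat_lit 0) (nat_lit 22345360822) (nat_lit 152) (nat_lit 26210842729) (nat_lit 0) (nat_lit 21790412986) (nat_lit 10) (nat_lit 5) (nat_lit 12) (nat_lit 4) (nat_lit 10) (nat_lit 4) (nat_lit 465) (nat_lit 372) (nat_lit 363))) (XT.nd (nat_lit 78) (nat_lit 0) (nat_lit 0) (XT.lf (nat_lit 0) (nat_lit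 9102695322) (nat_lit 76) (nat_lit 33275513174) (nat_lit 76) (nat_lit 32679417134) (nat_lit 9) (nat_lit 4) (nat_lit 10) (nat_lit 5) (nat_lit 10) (nat_lit 4) (nat_lit 466) (nat_lit 372) (nat_lit 362)) (XT.lf (nat_lit 0) (nat_lit 46783504165) (nat_lit 76) (nat_lit 17003764460) (nat_lit 76) (nat_lit 16369568230) (nat_lit 9) (nat_lit 4) (nat_lit 10) (nat_lit 5) (nat_lit 10) (nat_lit 4) (nat_lit 467) (nat_lit 372) (nat_lit 361)))) (XT.nd (nat_lit 156) (nat_lit 76) (nat_lit 0) (XT.nd (nat_lit 78) (nat_lit 0) (nat_lit 0) (XT.lf (nat_lit 0) (nat_lit 499539706) (nat_lit 76) (nat_lit 70710971) (nat_lit 152) (nat_lit 85124511308) (nat_lit 7) (nat_lit 5) (nat_lit 8) (nat_lit 5) (nat_lit 9) (nat_lit 4) (nat_lit 468) (nat_lit 372) (nat_lit 360)) (XT.lf (nat_lit 0) (nat_lit 18549964207) (nat_lit 152) (nat_lit 55218168366) (nat_lit 0) (nat_lit 17881260441) (nat_lit 7) (nat_lit 5) (nat_lit 9) (nat_lit 4) (nat_lit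 7) (nat_lit 4) (nat_lit 469) (nat_lit 372) (nat_lit 359))) (XT.nd (nat_lit 78) (nat_lit 76) (nat_lit 0) (XT.lf (nat_lit 0) (nat_lit 37390785522) (nat_lit 152) (nat_lit 24025196105) (nat_lit 0) (nat_lit 36693276843) (nat_lit 7) (nat_lit 5) (nat_lit 9) (nat_lit 4) (nat_lit 7) (nat_lit 4) (nat_lit 470) (nat_lit 372) (nat_lit 358)) (XT.lf (nat_lit 0) (nat_lit 8852996931) (nat_lit 76) (nat_lit 48488483099) (nat_lit 76) (nat_lit 47764303203) (nat_lit 6) (nat_lit 4) (nat_lit 7) (nat_lit 5) (nat_lit 7) (nat_lit 4) (nat_lit 471) (nat_lit 372) (nat_lit 357)))))) (XT.nd (nat_lit 624) (nat_lit 76) (nat_lit 0) (XT.nd (nat_lit 312) (nat_lit 0) (nat_lit 0) (XT.nd (nat_lit 156) (nat_lit 152) (nat_lit 0) (XT.nd (nat_lit 78) (nat_lit 0) (nat_lit 0) (XT.lf (nat_lit 0) (nat_lit 44173334361) (nat_lit 76) (nat_lit 34621129894) (nat_lit 76) (nat_lit 33872254427) (nat_lit 6) (nat_lit 4) (nat_lit 7) (nat_lit 5) (nat_lit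 7) (nat_lit 4) (nat_lit 472) (nat_lit 372) (nat_lit 356)) (XT.lf (nat_lit 0) (nat_lit 81350740403) (nat_lit 76) (nat_lit 20138623425) (nat_lit 76) (nat_lit 19366881690) (nat_lit 6) (nat_lit 4) (nat_lit 7) (nat_lit 5) (nat_lit 7) (nat_lit 4) (nat_lit 473) (nat_lit 372) (nat_lit 355))) (XT.nd (nat_lit 78) (nat_lit 152) (nat_lit 0) (XT.lf (nat_lit 0) (nat_lit 120605525611) (nat_lit 76) (nat_lit 4955141433) (nat_lit 76) (nat_lit 4162227227) (nat_lit 6) (nat_lit 4) (nat_lit 7) (nat_lit 5) (nat_lit 7) (nat_lit 4) (nat_lit 474) (nat_lit 372) (nat_lit 354)) (XT.lf (nat_lit 0) (nat_lit 11999769064) (nat_lit 152) (nat_lit 116056928012) (nat_lit 0) (nat_lit 11225942068) (nat_lit 4) (nat_lit 5) (nat_lit 6) (nat_lit 4) (nat_lit 4) (nat_lit 4) (nat_lit 475) (nat_lit 372) (nat_lit 353)))) (XT.nd (nat_lit 156) (nat_lit 0) (nat_lit 0) (XT.nd (nat_lit 78) (nat_lit 0) (nat_lit 0) (XT.lf (nat_lit 0) (nat_lit 29154080613)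 (nat_lit 152) (nat_lit 92094446618) (nat_lit 0) (nat_lit 28362966016) (nat_lit 4) (nat_lit 5) (nat_lit 6) (nat_lit 4) (nat_lit 4) (nat_lit 4) (nat_lit 476) (nat_lit 372) (nat_lit 352)) (XT.lf (nat_lit 0) (nat_lit 47308751159) (nat_lit 152) (nat_lit 66974874561) (nat_lit 0) (nat_lit 46501629523) (nat_lit 4) (nat_lit 5) (nat_lit 6) (nat_lit 4) (nat_lit 4) (nat_lit 4) (nat_lit 477) (nat_lit 372) (nat_lit 351))) (XT.nd (nat_lit 78) (nat_lit 0) (nat_lit 0) (XT.lf (nat_lit 0) (nat_lit 66571363934) (nat_lit 152) (nat_lit 40549355116) (nat_lit 0) (nat_lit 65749420966) (nat_lit 4) (nat_lit 5) (nat_lit 6) (nat_lit 4) (nat_lit 4) (nat_lit 4) (nat_lit 478) (nat_lit 372) (nat_lit 350)) (XT.lf (nat_lit 0) (nat_lit 87056067755) (nat_lit 152) (nat_lit 12661292612) (nat_lit 0) (nat_lit 86220401332) (nat_lit 4) (nat_lit 5) (nat_lit 6) (nat_lit 4) (nat_lit 4) (nat_lit 4) (nat_lit 479) (nat_lit 372) (nat_lit 349)))))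 (XT.nd (nat_lit 312) (nat_lit 0) (nat_lit 0) (XT.nd (nat_lit 156) (nat_lit 0) (nat_lit 0) (XT.nd (nat_lit 78) (nat_lit 0) (nat_lit 0) (XT.lf (nat_lit 0) (nat_lit 17411863927) (nat_lit 76) (nat_lit 91744237524) (nat_lit 76) (nat_lit 90895864198) (nat_lit 3) (nat_lit 4) (nat_lit 4) (nat_lit 5) (nat_lit 4) (nat_lit 4) (nat_lit 480) (nat_lit 372) (nat_lit 348)) (XT.lf (nat_lit 0) (nat_lit 49765980362) (nat_lit 76) (nat_lit 83196279318) (nat_lit 76) (nat_lit 82336140341) (nat_lit 3) (nat_lit 4) (nat_lit 4) (nat_lit 5) (nat_lit 4) (nat_lit 4) (nat_lit 481) (nat_lit 372) (nat_lit 347))) (XT.nd (nat_lit 78) (nat_lit 0) (nat_lit 0) (XT.lf (nat_lit 0) (nat_lit 84174145276) (nat_lit 76) (nat_lit 74237256298) (nat_lit 76) (nat_lit 73366223199) (nat_lit 3) (nat_lit 4) (nat_lit 4) (nat_lit 5) (nat_lit 4) (nat_lit 4) (nat_lit 482) (nat_lit 372) (nat_lit 346)) (XT.lf (nat_lit 0) (nat_lit 120840258907) (nat_lit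 76) (nat_lit 64814077957) (nat_lit 76) (nat_lit 63932957708) (nat_lit 3) (nat_lit 4) (nat_lit 4) (nat_lit 5) (nat_lit 4) (nat_lit 4) (nat_lit 483) (nat_lit 372) (nat_lit 345)))) (XT.nd (nat_lit 156) (nat_lit 0) (nat_lit 0) (XT.nd (nat_lit 78) (nat_lit 0) (nat_lit 0) (XT.lf (nat_lit 0) (nat_lit 159981601927) (nat_lit 76) (nat_lit 54870903238) (nat_lit 76) (nat_lit 53980443037) (nat_lit 3) (nat_lit 4) (nat_lit 4) (nat_lit 5) (nat_lit 4) (nat_lit 4) (nat_lit 484) (nat_lit 372) (nat_lit 344)) (XT.lf (nat_lit 0) (nat_lit 201830123035) (nat_lit 76) (nat_lit 44348809625) (nat_lit 76) (nat_lit 43449701319) (nat_lit 3) (nat_lit 4) (nat_lit 4) (nat_lit 5) (nat_lit 4) (nat_lit 4) (nat_lit 485) (nat_lit 372) (nat_lit 343))) (XT.nd (nat_lit 78) (nat_lit 0) (nat_lit 0) (XT.lf (nat_lit 0) (nat_lit 246633813468) (nat_lit 76) (nat_lit 33185443970) (nat_lit 76) (nat_lit 32278328160) (nat_lit 3) (nat_lit 4) (nat_lit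 4) (nat_lit 5) (nat_lit 4) (nat_lit 4) (nat_lit 486) (nat_lit 372) (nat_lit 342)) (XT.lf (nat_lit 0) (nat_lit 294658176577) (nat_lit 76) (nat_lit 21314652996) (nat_lit 76) (nat_lit 20400122829) (nat_lit 3) (nat_lit 4) (nat_lit 4) (nat_lit 5) (nat_lit 4) (nat_lit 4) (nat_lit 487) (nat_lit 372) (nat_lit 341))))))))
noncomputable def xc11 : XT := (XT.nd (nat_lit 60762) (nat_lit 0) (nat_lit 0) (XT.nd (nat_lit 1248) (nat_lit 0) (nat_lit 0) (XT.nd (nat_lit 624) (nat_lit 0) (nat_lit 0) (XT.nd (nat_lit 312) (nat_lit 0) (nat_lit 0) (XT.nd (nat_lit 156) (nat_lit 0) (nat_lit 0) (XT.nd (nat_lit 78) (nat_lit 152) (nat_lit 0) (XT.lf (nat_lit 0) (nat_lit 346187801180) (nat_lit 76) (nat_lit 8666091273) (nat_lit 76) (nat_lit 7744695963) (nat_lit 3) (nat_lit 4) (nat_lit 4) (nat_lit 5) (nat_lit 4) (nat_lit 4) (nat_lit 488) (nat_lit 372) (nat_lit 340)) (XT.lf (nat_lit 0) (nat_lit 5827728256) (nat_lit 152) (nat_lit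 380141061229) (nat_lit 0) (nat_lit 4944154993) (nat_lit 1) (nat_lit 5) (nat_lit 3) (nat_lit 4) (nat_lit 1) (nat_lit 4) (nat_lit 489) (nat_lit 372) (nat_lit 339))) (XT.nd (nat_lit 78) (nat_lit 0) (nat_lit 0) (XT.lf (nat_lit 0) (nat_lit 20504165115) (nat_lit 152) (nat_lit 381352471764) (nat_lit 0) (nat_lit 19614986372) (nat_lit 1) (nat_lit 5) (nat_lit 3) (nat_lit 4) (nat_lit 1) (nat_lit 4) (nat_lit 490) (nat_lit 372) (nat_lit 338)) (XT.lf (nat_lit 0) (nat_lit 36215133459) (nat_lit 152) (nat_lit 382946077671) (nat_lit 0) (nat_lit 35320764455) (nat_lit 1) (nat_lit 5) (nat_lit 3) (nat_lit 4) (nat_lit 1) (nat_lit 4) (nat_lit 491) (nat_lit 372) (nat_lit 337)))) (XT.nd (nat_lit 156) (nat_lit 0) (nat_lit 0) (XT.nd (nat_lit 78) (nat_lit 0) (nat_lit 0) (XT.lf (nat_lit 0) (nat_lit 53053735321) (nat_lit 152) (nat_lit 384931322542) (nat_lit 0) (nat_lit 52154560521) (nat_lit 1) (nat_lit 5) (nat_lit 3) (nat_lit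 4) (nat_lit 1) (nat_lit 4) (nat_lit 492) (nat_lit 372) (nat_lit 336)) (XT.lf (nat_lit 0) (nat_lit 71119755010) (nat_lit 152) (nat_lit 387319970789) (nat_lit 0) (nat_lit 70216130399) (nat_lit 1) (nat_lit 5) (nat_lit 3) (nat_lit 4) (nat_lit 1) (nat_lit 4) (nat_lit 493) (nat_lit 372) (nat_lit 335))) (XT.nd (nat_lit 78) (nat_lit 0) (nat_lit 0) (XT.lf (nat_lit 0) (nat_lit 90520250419) (nat_lit 152) (nat_lit 390126177366) (nat_lit 0) (nat_lit 89612505613) (nat_lit 1) (nat_lit 5) (nat_lit 3) (nat_lit 4) (nat_lit 1) (nat_lit 4) (nat_lit 494) (nat_lit 372) (nat_lit 334)) (XT.lf (nat_lit 0) (nat_lit 111370187448) (nat_lit 152) (nat_lit 393366571644) (nat_lit 0) (nat_lit 110458627645) (nat_lit 1) (nat_lit 5) (nat_lit 3) (nat_lit 4) (nat_lit 1) (nat_lit 4) (nat_lit 495) (nat_lit 372) (nat_lit 333))))) (XT.nd (nat_lit 312) (nat_lit 0) (nat_lit 0) (XT.nd (nat_lit 156) (nat_lit 0) (nat_lit 0) (XT.nd (nat_lit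 78) (nat_lit 0) (nat_lit 0) (XT.lf (nat_lit 0) (nat_lit 133793121279) (nat_lit 152) (nat_lit 397060355961) (nat_lit 0) (nat_lit 132878029072) (nat_lit 1) (nat_lit 5) (nat_lit 3) (nat_lit 4) (nat_lit 1) (nat_lit 4) (nat_lit 496) (nat_lit 372) (nat_lit 332)) (XT.lf (nat_lit 0) (nat_lit 157921928556) (nat_lit 152) (nat_lit 401229419408) (nat_lit 0) (nat_lit 157003565605) (nat_lit 1) (nat_lit 5) (nat_lit 3) (nat_lit 4) (nat_lit 1) (nat_lit 4) (nat_lit 497) (nat_lit 372) (nat_lit 331))) (XT.nd (nat_lit 78) (nat_lit 0) (nat_lit 0) (XT.lf (nat_lit 0) (nat_lit 183899594805) (nat_lit 152) (nat_lit 405898467547) (nat_lit 0) (nat_lit 182978203387) (nat_lit 1) (nat_lit 5) (nat_lit 3) (nat_lit 4) (nat_lit 1) (nat_lit 4) (nat_lit 498) (nat_lit 372) (nat_lit 330)) (XT.lf (nat_lit 0) (nat_lit 211880061751) (nat_lit 152) (nat_lit 411095168811) (nat_lit 0) (nat_lit 210955866197) (nat_lit 1) (nat_lit 5) (nat_lit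 3) (nat_lit 4) (nat_lit 1) (nat_lit 4) (nat_lit 499) (nat_lit 372) (nat_lit 329)))) (XT.nd (nat_lit 156) (nat_lit 0) (nat_lit 0) (XT.nd (nat_lit 78) (nat_lit 0) (nat_lit 0) (XT.lf (nat_lit 0) (nat_lit 242029139568) (nat_lit 152) (nat_lit 416850318467) (nat_lit 0) (nat_lit 241102347593) (nat_lit 1) (nat_lit 5) (nat_lit 3) (nat_lit 4) (nat_lit 1) (nat_lit 4) (nat_lit 500) (nat_lit 372) (nat_lit 328)) (XT.lf (nat_lit 0) (nat_lit 274525489460) (nat_lit 152) (nat_lit 423198021106) (nat_lit 0) (nat_lit 273596293390) (nat_lit 1) (nat_lit 5) (nat_lit 3) (nat_lit 4) (nat_lit 1) (nat_lit 4) (nat_lit 501) (nat_lit 372) (nat_lit 327))) (XT.nd (nat_lit 78) (nat_lit 0) (nat_lit 0) (XT.lf (nat_lit 0) (nat_lit 309561682387) (nat_lit 152) (nat_lit 430175892742) (nat_lit 0) (nat_lit 308630260304) (nat_lit 1) (nat_lit 5) (nat_lit 3) (nat_lit 4) (nat_lit 1) (nat_lit 4) (nat_lit 502) (nat_lit 372) (nat_lit 326))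 (XT.lf (nat_lit 0) (nat_lit 347345340235) (nat_lit 152) (nat_lit 437825283727) (nat_lit 0) (nat_lit 346411857027) (nat_lit 1) (nat_lit 5) (nat_lit 3) (nat_lit 4) (nat_lit 1) (nat_lit 4) (nat_lit 503) (nat_lit 372) (nat_lit 325)))))) (XT.nd (nat_lit 58890) (nat_lit 0) (nat_lit 684) (XT.nd (nat_lit 58578) (nat_lit 0) (nat_lit 1368) (XT.nd (nat_lit 156) (nat_lit 0) (nat_lit 0) (XT.nd (nat_lit 78) (nat_lit 0) (nat_lit 0) (XT.lf (nat_lit 0) (nat_lit 388100366159) (nat_lit 152) (nat_lit 446191523785) (nat_lit 0) (nat_lit 387164974504) (nat_lit 1) (nat_lit 5) (nat_lit 3) (nat_lit 4) (nat_lit 1) (nat_lit 4) (nat_lit 504) (nat_lit 372) (nat_lit 324)) (XT.lf (nat_lit 0) (nat_lit 432068271427) (nat_lit 152) (nat_lit 455324190634) (nat_lit 0) (nat_lit 431131112690) (nat_lit 1) (nat_lit 5) (nat_lit 3) (nat_lit 4) (nat_lit 1) (nat_lit 4) (nat_lit 505) (nat_lit 372) (nat_lit 323))) (XT.nd (nat_lit 78) (nat_lit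 0) (nat_lit 0) (XT.lf (nat_lit 0) (nat_lit 479509606586) (nat_lit 152) (nat_lit 465277403782) (nat_lit 0) (nat_lit 478570811663) (nat_lit 1) (nat_lit 5) (nat_lit 3) (nat_lit 4) (nat_lit 1) (nat_lit 4) (nat_lit 506) (nat_lit 372) (nat_lit 322)) (XT.lf (nat_lit 0) (nat_lit 530705505475) (nat_lit 152) (nat_lit 476110145233) (nat_lit 0) (nat_lit 529765195565) (nat_lit 1) (nat_lit 5) (nat_lit 3) (nat_lit 4) (nat_lit 1) (nat_lit 4) (nat_lit 507) (nat_lit 372) (nat_lit 321)))) (XT.nd (nat_lit 156) (nat_lit 152) (nat_lit 0) (XT.nd (nat_lit 78) (nat_lit 76) (nat_lit 0) (XT.lf (nat_lit 0) (nat_lit 951481171) (nat_lit 152) (nat_lit 16698949055) (nat_lit 0) (nat_lit 951481171) (nat_lit 22) (nat_lit 5) (nat_lit 24) (nat_lit 4) (nat_lit 22) (nat_lit 4) (nat_lit 454) (nat_lit 373) (nat_lit 373)) (XT.lf (nat_lit 0) (nat_lit 4457610920) (nat_lit 76) (nat_lit 17416835376) (nat_lit 76) (nat_lit 17308854799) (nat_lit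 21) (nat_lit 4) (nat_lit 22) (nat_lit 5) (nat_lit 22) (nat_lit 4) (nat_lit 455) (nat_lit 373) (nat_lit 372))) (XT.nd (nat_lit 78) (nat_lit 0) (nat_lit 0) (XT.lf (nat_lit 0) (nat_lit 1703890721) (nat_lit 152) (nat_lit 38127294850) (nat_lit 0) (nat_lit 1505831108) (nat_lit 19) (nat_lit 5) (nat_lit 21) (nat_lit 4) (nat_lit 19) (nat_lit 4) (nat_lit 456) (nat_lit 373) (nat_lit 371)) (XT.lf (nat_lit 0) (nat_lit 21559785030) (nat_lit 152) (nat_lit 819073154) (nat_lit 0) (nat_lit 21273557855) (nat_lit 19) (nat_lit 5) (nat_lit 21) (nat_lit 4) (nat_lit 19) (nat_lit 4) (nat_lit 457) (nat_lit 373) (nat_lit 370))))) (XT.nd (nat_lit 312) (nat_lit 228) (nat_lit 0) (XT.nd (nat_lit 156) (nat_lit 228) (nat_lit 0) (XT.nd (nat_lit 78) (nat_lit 152) (nat_lit 0) (XT.lf (nat_lit 0) (nat_lit 38855533753) (nat_lit 76) (nat_lit 3840394938) (nat_lit 76) (nat_lit 3472531131) (nat_lit 18) (nat_lit 4) (nat_lit 19) (nat_lit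 5) (nat_lit 19) (nat_lit 4) (nat_lit 458) (nat_lit 373) (nat_lit 369)) (XT.lf (nat_lit 0) (nat_lit 15977240298) (nat_lit 152) (nat_lit 17347028665) (nat_lit 0) (nat_lit 15554903840) (nat_lit 16) (nat_lit 5) (nat_lit 18) (nat_lit 4) (nat_lit 16) (nat_lit 4) (nat_lit 459) (nat_lit 373) (nat_lit 368))) (XT.nd (nat_lit 78) (nat_lit 152) (nat_lit 0) (XT.lf (nat_lit 0) (nat_lit 20722990229) (nat_lit 76) (nat_lit 15793569925) (nat_lit 76) (nat_lit 15304576082) (nat_lit 15) (nat_lit 4) (nat_lit 16) (nat_lit 5) (nat_lit 16) (nat_lit 4) (nat_lit 460) (nat_lit 373) (nat_lit 367)) (XT.lf (nat_lit 0) (nat_lit 3184089865) (nat_lit 152) (nat_lit 49171780249) (nat_lit 0) (nat_lit 2659600681) (nat_lit 13) (nat_lit 5) (nat_lit 15) (nat_lit 4) (nat_lit 13) (nat_lit 4) (nat_lit 461) (nat_lit 373) (nat_lit 366)))) (XT.nd (nat_lit 156) (nat_lit 152) (nat_lit 0) (XT.nd (nat_lit 78) (nat_lit 76) (nat_lit 0) (XT.lf (nat_lit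 0) (nat_lit 22623354230) (nat_lit 152) (nat_lit 13784630502) (nat_lit 0) (nat_lit 22044438414) (nat_lit 13) (nat_lit 5) (nat_lit 15) (nat_lit 4) (nat_lit 13) (nat_lit 4) (nat_lit 462) (nat_lit 373) (nat_lit 365)) (XT.lf (nat_lit 0) (nat_lit 23649218904) (nat_lit 76) (nat_lit 19581878785) (nat_lit 76) (nat_lit 18952567940) (nat_lit 12) (nat_lit 4) (nat_lit 13) (nat_lit 5) (nat_lit 13) (nat_lit 4) (nat_lit 463) (nat_lit 373) (nat_lit 364))) (XT.nd (nat_lit 78) (nat_lit 152) (nat_lit 0) (XT.lf (nat_lit 0) (nat_lit 63095804413) (nat_lit 76) (nat_lit 1908858340) (nat_lit 76) (nat_lit 1232885430) (nat_lit 12) (nat_lit 4) (nat_lit 13) (nat_lit 5) (nat_lit 13) (nat_lit 4) (nat_lit 464) (nat_lit 373) (nat_lit 363)) (XT.lf (nat_lit 0) (nat_lit 17460508918) (nat_lit 152) (nat_lit 36359219802) (nat_lit 0) (nat_lit 16775576990) (nat_lit 10) (nat_lit 5) (nat_lit 12) (nat_lit 4) (nat_lit 10) (nat_lit 4) (nat_lit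 465) (nat_lit 373) (nat_lit 362))))))) (XT.nd (nat_lit 1248) (nat_lit 152) (nat_lit 0) (XT.nd (nat_lit 624) (nat_lit 228) (nat_lit 0) (XT.nd (nat_lit 312) (nat_lit 76) (nat_lit 0) (XT.nd (nat_lit 156) (nat_lit 152) (nat_lit 0) (XT.nd (nat_lit 78) (nat_lit 76) (nat_lit 0) (XT.lf (nat_lit 0) (nat_lit 37033338818) (nat_lit 152) (nat_lit 1985670479) (nat_lit 0) (nat_lit 36310306700) (nat_lit 10) (nat_lit 5) (nat_lit 12) (nat_lit 4) (nat_lit 10) (nat_lit 4) (nat_lit 466) (nat_lit 373) (nat_lit 361)) (XT.lf (nat_lit 0) (nat_lit 35009026849) (nat_lit 76) (nat_lit 23097306992) (nat_lit 76) (nat_lit 22338996920) (nat_lit 9) (nat_lit 4) (nat_lit 10) (nat_lit 5) (nat_lit 10) (nat_lit 4) (nat_lit 467) (nat_lit 373) (nat_lit 360))) (XT.nd (nat_lit 78) (nat_lit 152) (nat_lit 0) (XT.lf (nat_lit 0) (nat_lit 73839254778) (nat_lit 76) (nat_lit 6474947805) (nat_lit 76) (nat_lit 5683972962) (nat_lit 9) (nat_lit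 4) (nat_lit 10) (nat_lit 5) (nat_lit 10) (nat_lit 4) (nat_lit 468) (nat_lit 373) (nat_lit 359)) (XT.lf (nat_lit 0) (nat_lit 11900241999) (nat_lit 152) (nat_lit 68967745290) (nat_lit 0) (nat_lit 11118127712) (nat_lit 7) (nat_lit 5) (nat_lit 9) (nat_lit 4) (nat_lit 7) (nat_lit 4) (nat_lit 469) (nat_lit 373) (nat_lit 358)))) (XT.nd (nat_lit 156) (nat_lit 76) (nat_lit 0) (XT.nd (nat_lit 78) (nat_lit 0) (nat_lit 0) (XT.lf (nat_lit 0) (nat_lit 30483557255) (nat_lit 152) (nat_lit 38300526969) (nat_lit 0) (nat_lit 29674771751) (nat_lit 7) (nat_lit 5) (nat_lit 9) (nat_lit 4) (nat_lit 7) (nat_lit 4) (nat_lit 470) (nat_lit 373) (nat_lit 357)) (XT.lf (nat_lit 0) (nat_lit 50057600134) (nat_lit 152) (nat_lit 6192494325) (nat_lit 0) (nat_lit 49224119060) (nat_lit 7) (nat_lit 5) (nat_lit 9) (nat_lit 4) (nat_lit 7) (nat_lit 4) (nat_lit 471) (nat_lit 373) (nat_lit 356))) (XT.nd (nat_lit 78) (nat_lit 0) (nat_lit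 0) (XT.lf (nat_lit 0) (nat_lit 28457438207) (nat_lit 76) (nat_lit 42725227119) (nat_lit 76) (nat_lit 41868879776) (nat_lit 6) (nat_lit 4) (nat_lit 7) (nat_lit 5) (nat_lit 7) (nat_lit 4) (nat_lit 472) (nat_lit 373) (nat_lit 355)) (XT.lf (nat_lit 0) (nat_lit 65203684000) (nat_lit 76) (nat_lit 28462732667) (nat_lit 76) (nat_lit 27585212853) (nat_lit 6) (nat_lit 4) (nat_lit 7) (nat_lit 5) (nat_lit 7) (nat_lit 4) (nat_lit 473) (nat_lit 373) (nat_lit 354))))) (XT.nd (nat_lit 312) (nat_lit 76) (nat_lit 0) (XT.nd (nat_lit 156) (nat_lit 0) (nat_lit 0) (XT.nd (nat_lit 78) (nat_lit 152) (nat_lit 0) (XT.lf (nat_lit 0) (nat_lit 104059246756) (nat_lit 76) (nat_lit 13482965504) (nat_lit 76) (nat_lit 12585841550) (nat_lit 6) (nat_lit 4) (nat_lit 7) (nat_lit 5) (nat_lit 7) (nat_lit 4) (nat_lit 474) (nat_lit 373) (nat_lit 353)) (XT.lf (nat_lit 0) (nat_lit 3241580801) (nat_lit 152) (nat_lit 134113113509) (nat_lit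 0) (nat_lit 2369889434) (nat_lit 4) (nat_lit 5) (nat_lit 6) (nat_lit 4) (nat_lit 4) (nat_lit 4) (nat_lit 475) (nat_lit 373) (nat_lit 352))) (XT.nd (nat_lit 78) (nat_lit 0) (nat_lit 0) (XT.lf (nat_lit 0) (nat_lit 20217052962) (nat_lit 152) (nat_lit 110515972427) (nat_lit 0) (nat_lit 19329354556) (nat_lit 4) (nat_lit 5) (nat_lit 6) (nat_lit 4) (nat_lit 4) (nat_lit 4) (nat_lit 476) (nat_lit 373) (nat_lit 351)) (XT.lf (nat_lit 0) (nat_lit 38206131481) (nat_lit 152) (nat_lit 85734678435) (nat_lit 0) (nat_lit 37303611744) (nat_lit 4) (nat_lit 5) (nat_lit 6) (nat_lit 4) (nat_lit 4) (nat_lit 4) (nat_lit 477) (nat_lit 373) (nat_lit 350)))) (XT.nd (nat_lit 156) (nat_lit 76) (nat_lit 0) (XT.nd (nat_lit 78) (nat_lit 0) (nat_lit 0) (XT.lf (nat_lit 0) (nat_lit 57315418306) (nat_lit 152) (nat_lit 59622379421) (nat_lit 0) (nat_lit 56399175114) (nat_lit 4) (nat_lit 5) (nat_lit 6) (nat_lit 4) (nat_lit 4) (nat_lit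 4) (nat_lit 478) (nat_lit 373) (nat_lit 349)) (XT.lf (nat_lit 0) (nat_lit 77658153655) (nat_lit 152) (nat_lit 32024335835) (nat_lit 0) (nat_lit 76729203559) (nat_lit 4) (nat_lit 5) (nat_lit 6) (nat_lit 4) (nat_lit 4) (nat_lit 4) (nat_lit 479) (nat_lit 373) (nat_lit 348))) (XT.nd (nat_lit 78) (nat_lit 76) (nat_lit 0) (XT.lf (nat_lit 0) (nat_lit 99354887070) (nat_lit 152) (nat_lit 2777003716) (nat_lit 0) (nat_lit 98414171323) (nat_lit 4) (nat_lit 5) (nat_lit 6) (nat_lit 4) (nat_lit 4) (nat_lit 4) (nat_lit 480) (nat_lit 373) (nat_lit 347)) (XT.lf (nat_lit 0) (nat_lit 29228426648) (nat_lit 76) (nat_lit 93762102790) (nat_lit 76) (nat_lit 92810492922) (nat_lit 3) (nat_lit 4) (nat_lit 4) (nat_lit 5) (nat_lit 4) (nat_lit 4) (nat_lit 481) (nat_lit 373) (nat_lit 346)))))) (XT.nd (nat_lit 624) (nat_lit 152) (nat_lit 0) (XT.nd (nat_lit 312) (nat_lit 0) (nat_lit 0) (XT.nd (nat_lit 156) (nat_lit 0) (nat_lit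 0) (XT.nd (nat_lit 78) (nat_lit 0) (nat_lit 0) (XT.lf (nat_lit 0) (nat_lit 63398752872) (nat_lit 76) (nat_lit 84924505982) (nat_lit 76) (nat_lit 83962808964) (nat_lit 3) (nat_lit 4) (nat_lit 4) (nat_lit 5) (nat_lit 4) (nat_lit 4) (nat_lit 482) (nat_lit 373) (nat_lit 345)) (XT.lf (nat_lit 0) (nat_lit 99844645492) (nat_lit 76) (nat_lit 75613759318) (nat_lit 76) (nat_lit 74642722348) (nat_lit 3) (nat_lit 4) (nat_lit 4) (nat_lit 5) (nat_lit 4) (nat_lit 4) (nat_lit 483) (nat_lit 373) (nat_lit 344))) (XT.nd (nat_lit 78) (nat_lit 0) (nat_lit 0) (XT.lf (nat_lit 0) (nat_lit 138782080169) (nat_lit 76) (nat_lit 65774688005) (nat_lit 76) (nat_lit 64795002930) (nat_lit 3) (nat_lit 4) (nat_lit 4) (nat_lit 5) (nat_lit 4) (nat_lit 4) (nat_lit 484) (nat_lit 373) (nat_lit 343)) (XT.lf (nat_lit 0) (nat_lit 180441797256) (nat_lit 76) (nat_lit 55348986434) (nat_lit 76) (nat_lit 54361293854) (nat_lit 3) (nat_lit 4)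 (nat_lit 4) (nat_lit 5) (nat_lit 4) (nat_lit 4) (nat_lit 485) (nat_lit 373) (nat_lit 342)))) (XT.nd (nat_lit 156) (nat_lit 0) (nat_lit 0) (XT.nd (nat_lit 78) (nat_lit 0) (nat_lit 0) (XT.lf (nat_lit 0) (nat_lit 225070669151) (nat_lit 76) (nat_lit 44274872670) (nat_lit 76) (nat_lit 43279765734) (nat_lit 3) (nat_lit 4) (nat_lit 4) (nat_lit 5) (nat_lit 4) (nat_lit 4) (nat_lit 486) (nat_lit 373) (nat_lit 341)) (XT.lf (nat_lit 0) (nat_lit 272933163244) (nat_lit 76) (nat_lit 32486722335) (nat_lit 76) (nat_lit 31484750255) (nat_lit 3) (nat_lit 4) (nat_lit 4) (nat_lit 5) (nat_lit 4) (nat_lit 4) (nat_lit 487) (nat_lit 373) (nat_lit 340))) (XT.nd (nat_lit 78) (nat_lit 0) (nat_lit 0) (XT.lf (nat_lit 0) (nat_lit 324312909127) (nat_lit 76) (nat_lit 19914679723) (nat_lit 76) (nat_lit 18906351028) (nat_lit 3) (nat_lit 4) (nat_lit 4) (nat_lit 5) (nat_lit 4) (nat_lit 4) (nat_lit 488) (nat_lit 373) (nat_lit 339))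 (XT.lf (nat_lit 0) (nat_lit 379514379370) (nat_lit 76) (nat_lit 6484243842) (nat_lit 76) (nat_lit 5470029392) (nat_lit 3) (nat_lit 4) (nat_lit 4) (nat_lit 5) (nat_lit 4) (nat_lit 4) (nat_lit 489) (nat_lit 373) (nat_lit 338))))) (XT.nd (nat_lit 312) (nat_lit 0) (nat_lit 0) (XT.nd (nat_lit 156) (nat_lit 0) (nat_lit 0) (XT.nd (nat_lit 78) (nat_lit 0) (nat_lit 0) (XT.lf (nat_lit 0) (nat_lit 9017166222) (nat_lit 152) (nat_lit 404986593701) (nat_lit 0) (nat_lit 8046057438) (nat_lit 1) (nat_lit 5) (nat_lit 3) (nat_lit 4) (nat_lit 1) (nat_lit 4) (nat_lit 490) (nat_lit 373) (nat_lit 337)) (XT.lf (nat_lit 0) (nat_lit 24665998052) (nat_lit 152) (nat_lit 406707195036) (nat_lit 0) (nat_lit 23690083472) (nat_lit 1) (nat_lit 5) (nat_lit 3) (nat_lit 4) (nat_lit 1) (nat_lit 4) (nat_lit 491) (nat_lit 373) (nat_lit 336))) (XT.nd (nat_lit 78) (nat_lit 0) (nat_lit 0) (XT.lf (nat_lit 0) (nat_lit 41447066105) (nat_lit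 152) (nat_lit 408810028266) (nat_lit 0) (nat_lit 40466701714) (nat_lit 1) (nat_lit 5) (nat_lit 3) (nat_lit 4) (nat_lit 1) (nat_lit 4) (nat_lit 492) (nat_lit 373) (nat_lit 335)) (XT.lf (nat_lit 0) (nat_lit 59459813748) (nat_lit 152) (nat_lit 411307554623) (nat_lit 0) (nat_lit 58475329162) (nat_lit 1) (nat_lit 5) (nat_lit 3) (nat_lit 4) (nat_lit 1) (nat_lit 4) (nat_lit 493) (nat_lit 373) (nat_lit 334)))) (XT.nd (nat_lit 156) (nat_lit 0) (nat_lit 0) (XT.nd (nat_lit 78) (nat_lit 0) (nat_lit 0) (XT.lf (nat_lit 0) (nat_lit 78810983190) (nat_lit 152) (nat_lit 414214574265) (nat_lit 0) (nat_lit 77822683607) (nat_lit 1) (nat_lit 5) (nat_lit 3) (nat_lit 4) (nat_lit 1) (nat_lit 4) (nat_lit 494) (nat_lit 373) (nat_lit 333)) (XT.lf (nat_lit 0) (nat_lit 99615248026) (nat_lit 152) (nat_lit 417548313975) (nat_lit 0) (nat_lit 98623416040) (nat_lit 1) (nat_lit 5) (nat_lit 3) (nat_lit 4) (nat_lit 1) (nat_lit 4)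 (nat_lit 495) (nat_lit 373) (nat_lit 332))) (XT.nd (nat_lit 78) (nat_lit 0) (nat_lit 0) (XT.lf (nat_lit 0) (nat_lit 121995892790) (nat_lit 152) (nat_lit 421328529246) (nat_lit 0) (nat_lit 121000790059) (nat_lit 1) (nat_lit 5) (nat_lit 3) (nat_lit 4) (nat_lit 1) (nat_lit 4) (nat_lit 496) (nat_lit 373) (nat_lit 331)) (XT.lf (nat_lit 0) (nat_lit 146085543523) (nat_lit 152) (nat_lit 425577621355) (nat_lit 0) (nat_lit 145087412326) (nat_lit 1) (nat_lit 5) (nat_lit 3) (nat_lit 4) (nat_lit 1) (nat_lit 4) (nat_lit 497) (nat_lit 373) (nat_lit 330))))))))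
noncomputable def xc12 : XT := (XT.nd (nat_lit 60528) (nat_lit 0) (nat_lit 0) (XT.nd (nat_lit 59280) (nat_lit 0) (nat_lit 380) (XT.nd (nat_lit 546) (nat_lit 0) (nat_lit 0) (XT.nd (nat_lit 234) (nat_lit 0) (nat_lit 0) (XT.nd (nat_lit 78) (nat_lit 0) (nat_lit 0) (XT.lf (nat_lit 0) (nat_lit 172026953713) (nat_lit 152) (nat_lit 430320770106) (nat_lit 0) (nat_lit 171026018380) (nat_lit 1) (nat_lit 5) (nat_lit 3) (nat_lit 4) (nat_lit 1) (nat_lit 4) (nat_lit 498) (nat_lit 373) (nat_lit 329)) (XT.nd (nat_lit 78) (nat_lit 0) (nat_lit 0) (XT.lf (nat_lit 0) (nat_lit 199973850234) (nat_lit 152) (nat_lit 435586083048) (nat_lit 0) (nat_lit 198970318478) (nat_lit 1) (nat_lit 5) (nat_lit 3) (nat_lit 4) (nat_lit 1) (nat_lit 4) (nat_lit 499) (nat_lit 373) (nat_lit 328)) (XT.lf (nat_lit 0) (nat_lit 230091844325) (nat_lit 152) (nat_lit 441404762036) (nat_lit 0) (nat_lit 229085908475) (nat_lit 1) (nat_lit 5) (nat_lit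 3) (nat_lit 4) (nat_lit 1) (nat_lit 4) (nat_lit 500) (nat_lit 373) (nat_lit 327)))) (XT.nd (nat_lit 156) (nat_lit 0) (nat_lit 0) (XT.nd (nat_lit 78) (nat_lit 0) (nat_lit 0) (XT.lf (nat_lit 0) (nat_lit 262559412988) (nat_lit 152) (nat_lit 447811288130) (nat_lit 0) (nat_lit 261551251124) (nat_lit 1) (nat_lit 5) (nat_lit 3) (nat_lit 4) (nat_lit 1) (nat_lit 4) (nat_lit 501) (nat_lit 373) (nat_lit 326)) (XT.lf (nat_lit 0) (nat_lit 297568956630) (nat_lit 152) (nat_lit 454843625928) (nat_lit 0) (nat_lit 296558733642) (nat_lit 1) (nat_lit 5) (nat_lit 3) (nat_lit 4) (nat_lit 1) (nat_lit 4) (nat_lit 502) (nat_lit 373) (nat_lit 325))) (XT.nd (nat_lit 78) (nat_lit 0) (nat_lit 0) (XT.lf (nat_lit 0) (nat_lit 335327939212) (nat_lit 152) (nat_lit 462543448545) (nat_lit 0) (nat_lit 334315807777) (nat_lit 1) (nat_lit 5) (nat_lit 3) (nat_lit 4) (nat_lit 1) (nat_lit 4) (nat_lit 503) (nat_lit 373) (nat_lit 324))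 (XT.lf (nat_lit 0) (nat_lit 376060117670) (nat_lit 152) (nat_lit 470956384558) (nat_lit 0) (nat_lit 375046219154) (nat_lit 1) (nat_lit 5) (nat_lit 3) (nat_lit 4) (nat_lit 1) (nat_lit 4) (nat_lit 504) (nat_lit 373) (nat_lit 323))))) (XT.nd (nat_lit 58422) (nat_lit 0) (nat_lit 1368) (XT.nd (nat_lit 156) (nat_lit 0) (nat_lit 0) (XT.nd (nat_lit 78) (nat_lit 0) (nat_lit 0) (XT.lf (nat_lit 0) (nat_lit 420006867875) (nat_lit 152) (nat_lit 480132288403) (nat_lit 0) (nat_lit 418991333172) (nat_lit 1) (nat_lit 5) (nat_lit 3) (nat_lit 4) (nat_lit 1) (nat_lit 4) (nat_lit 505) (nat_lit 373) (nat_lit 322)) (XT.lf (nat_lit 0) (nat_lit 467428615014) (nat_lit 152) (nat_lit 490125535807) (nat_lit 0) (nat_lit 466411565324) (nat_lit 1) (nat_lit 5) (nat_lit 3) (nat_lit 4) (nat_lit 1) (nat_lit 4) (nat_lit 506) (nat_lit 373) (nat_lit 321))) (XT.nd (nat_lit 58188) (nat_lit 0) (nat_lit 1976) (XT.lf (nat_lit 0) (nat_lit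 518606376847) (nat_lit 152) (nat_lit 500995346013) (nat_lit 0) (nat_lit 517587924391) (nat_lit 1) (nat_lit 5) (nat_lit 3) (nat_lit 4) (nat_lit 1) (nat_lit 4) (nat_lit 507) (nat_lit 373) (nat_lit 320)) (XT.lf (nat_lit 0) (nat_lit 15824391704) (nat_lit 76) (nat_lit 498128707) (nat_lit 76) (nat_lit 498128707) (nat_lit 27) (nat_lit 4) (nat_lit 28) (nat_lit 5) (nat_lit 28) (nat_lit 4) (nat_lit 452) (nat_lit 374) (nat_lit 374)))) (XT.nd (nat_lit 156) (nat_lit 228) (nat_lit 0) (XT.nd (nat_lit 78) (nat_lit 152) (nat_lit 0) (XT.lf (nat_lit 0) (nat_lit 1053632508) (nat_lit 76) (nat_lit 17215049138) (nat_lit 76) (nat_lit 17092599163) (nat_lit 24) (nat_lit 4) (nat_lit 25) (nat_lit 5) (nat_lit 25) (nat_lit 4) (nat_lit 453) (nat_lit 374) (nat_lit 373)) (XT.lf (nat_lit 0) (nat_lit 1516637817) (nat_lit 152) (nat_lit 34420294806) (nat_lit 0) (nat_lit 1292038216) (nat_lit 22) (nat_lit 5) (nat_lit 24) (nat_lit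 4) (nat_lit 22) (nat_lit 4) (nat_lit 454) (nat_lit 374) (nat_lit 372))) (XT.nd (nat_lit 78) (nat_lit 152) (nat_lit 0) (XT.lf (nat_lit 0) (nat_lit 2423444591) (nat_lit 76) (nat_lit 18567229671) (nat_lit 76) (nat_lit 18242648055) (nat_lit 21) (nat_lit 4) (nat_lit 22) (nat_lit 5) (nat_lit 22) (nat_lit 4) (nat_lit 455) (nat_lit 374) (nat_lit 371)) (XT.lf (nat_lit 0) (nat_lit 146259718) (nat_lit 76) (nat_lit 128577976) (nat_lit 152) (nat_lit 41139187219) (nat_lit 19) (nat_lit 5) (nat_lit 20) (nat_lit 5) (nat_lit 21) (nat_lit 4) (nat_lit 456) (nat_lit 374) (nat_lit 370)))))) (XT.nd (nat_lit 624) (nat_lit 456) (nat_lit 0) (XT.nd (nat_lit 312) (nat_lit 228) (nat_lit 0) (XT.nd (nat_lit 156) (nat_lit 228) (nat_lit 0) (XT.nd (nat_lit 78) (nat_lit 76) (nat_lit 0) (XT.lf (nat_lit 0) (nat_lit 19688885134) (nat_lit 152) (nat_lit 4852676548) (nat_lit 0) (nat_lit 19209955591) (nat_lit 19) (nat_lit 5) (nat_lit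 21) (nat_lit 4) (nat_lit 19) (nat_lit 4) (nat_lit 457) (nat_lit 374) (nat_lit 369)) (XT.lf (nat_lit 0) (nat_lit 33832322421) (nat_lit 76) (nat_lit 6507021257) (nat_lit 76) (nat_lit 5952502239) (nat_lit 18) (nat_lit 4) (nat_lit 19) (nat_lit 5) (nat_lit 19) (nat_lit 4) (nat_lit 458) (nat_lit 374) (nat_lit 368))) (XT.nd (nat_lit 78) (nat_lit 76) (nat_lit 0) (XT.lf (nat_lit 0) (nat_lit 13035171536) (nat_lit 152) (nat_lit 23555996673) (nat_lit 0) (nat_lit 12440400801) (nat_lit 16) (nat_lit 5) (nat_lit 18) (nat_lit 4) (nat_lit 16) (nat_lit 4) (nat_lit 459) (nat_lit 374) (nat_lit 367)) (XT.lf (nat_lit 0) (nat_lit 13499130377) (nat_lit 76) (nat_lit 19577883486) (nat_lit 76) (nat_lit 18921392951) (nat_lit 15) (nat_lit 4) (nat_lit 16) (nat_lit 5) (nat_lit 16) (nat_lit 4) (nat_lit 460) (nat_lit 374) (nat_lit 366)))) (XT.nd (nat_lit 156) (nat_lit 76) (nat_lit 0) (XT.nd (nat_lit 78) (nat_lit 152) (nat_lit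 0) (XT.lf (nat_lit 0) (nat_lit 52800624016) (nat_lit 76) (nat_lit 1566676125) (nat_lit 76) (nat_lit 853037627) (nat_lit 15) (nat_lit 4) (nat_lit 16) (nat_lit 5) (nat_lit 16) (nat_lit 4) (nat_lit 461) (nat_lit 374) (nat_lit 365)) (XT.lf (nat_lit 0) (nat_lit 18185991703) (nat_lit 152) (nat_lit 23037400654) (nat_lit 0) (nat_lit 17455940960) (nat_lit 13) (nat_lit 5) (nat_lit 15) (nat_lit 4) (nat_lit 13) (nat_lit 4) (nat_lit 462) (nat_lit 374) (nat_lit 364))) (XT.nd (nat_lit 78) (nat_lit 0) (nat_lit 0) (XT.lf (nat_lit 0) (nat_lit 13381752423) (nat_lit 76) (nat_lit 24915188144) (nat_lit 76) (nat_lit 24138475337) (nat_lit 12) (nat_lit 4) (nat_lit 13) (nat_lit 5) (nat_lit 13) (nat_lit 4) (nat_lit 463) (nat_lit 374) (nat_lit 363)) (XT.lf (nat_lit 0) (nat_lit 52172080560) (nat_lit 76) (nat_lit 7576613620) (nat_lit 76) (nat_lit 6756695198) (nat_lit 12) (nat_lit 4) (nat_lit 13) (nat_lit 5) (nat_lit 13) (nat_lit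 4) (nat_lit 464) (nat_lit 374) (nat_lit 362))))) (XT.nd (nat_lit 312) (nat_lit 228) (nat_lit 0) (XT.nd (nat_lit 156) (nat_lit 76) (nat_lit 0) (XT.nd (nat_lit 78) (nat_lit 0) (nat_lit 0) (XT.lf (nat_lit 0) (nat_lit 11523638546) (nat_lit 152) (nat_lit 48668649952) (nat_lit 0) (nat_lit 10704663669) (nat_lit 10) (nat_lit 5) (nat_lit 12) (nat_lit 4) (nat_lit 10) (nat_lit 4) (nat_lit 465) (nat_lit 374) (nat_lit 361)) (XT.lf (nat_lit 0) (nat_lit 30802117345) (nat_lit 152) (nat_lit 14895698434) (nat_lit 0) (nat_lit 29947864515) (nat_lit 10) (nat_lit 5) (nat_lit 12) (nat_lit 4) (nat_lit 10) (nat_lit 4) (nat_lit 466) (nat_lit 374) (nat_lit 360))) (XT.nd (nat_lit 78) (nat_lit 0) (nat_lit 0) (XT.lf (nat_lit 0) (nat_lit 21097638509) (nat_lit 76) (nat_lit 30287730783) (nat_lit 76) (nat_lit 29400813181) (nat_lit 9) (nat_lit 4) (nat_lit 10) (nat_lit 5) (nat_lit 10) (nat_lit 4) (nat_lit 467) (nat_lit 374) (nat_lit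 359)) (XT.lf (nat_lit 0) (nat_lit 59395925181) (nat_lit 76) (nat_lit 13936649132) (nat_lit 76) (nat_lit 13019486371) (nat_lit 9) (nat_lit 4) (nat_lit 10) (nat_lit 5) (nat_lit 10) (nat_lit 4) (nat_lit 468) (nat_lit 374) (nat_lit 358)))) (XT.nd (nat_lit 156) (nat_lit 76) (nat_lit 0) (XT.nd (nat_lit 78) (nat_lit 0) (nat_lit 0) (XT.lf (nat_lit 0) (nat_lit 4182929410) (nat_lit 152) (nat_lit 84910856562) (nat_lit 0) (nat_lit 3282769850) (nat_lit 7) (nat_lit 5) (nat_lit 9) (nat_lit 4) (nat_lit 7) (nat_lit 4) (nat_lit 469) (nat_lit 374) (nat_lit 357)) (XT.lf (nat_lit 0) (nat_lit 22527813129) (nat_lit 152) (nat_lit 54730447445) (nat_lit 0) (nat_lit 21602957998) (nat_lit 7) (nat_lit 5) (nat_lit 9) (nat_lit 4) (nat_lit 7) (nat_lit 4) (nat_lit 470) (nat_lit 374) (nat_lit 356))) (XT.nd (nat_lit 78) (nat_lit 76) (nat_lit 0) (XT.lf (nat_lit 0) (nat_lit 41881086066) (nat_lit 152) (nat_lit 23073164063) (nat_lit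 0) (nat_lit 40933364667) (nat_lit 7) (nat_lit 5) (nat_lit 9) (nat_lit 4) (nat_lit 7) (nat_lit 4) (nat_lit 471) (nat_lit 374) (nat_lit 355)) (XT.lf (nat_lit 0) (nat_lit 10587457044) (nat_lit 76) (nat_lit 51935277115) (nat_lit 76) (nat_lit 50966383245) (nat_lit 6) (nat_lit 4) (nat_lit 7) (nat_lit 5) (nat_lit 7) (nat_lit 4) (nat_lit 472) (nat_lit 374) (nat_lit 354))))))) (XT.nd (nat_lit 1248) (nat_lit 152) (nat_lit 0) (XT.nd (nat_lit 624) (nat_lit 76) (nat_lit 0) (XT.nd (nat_lit 312) (nat_lit 0) (nat_lit 0) (XT.nd (nat_lit 156) (nat_lit 152) (nat_lit 0) (XT.nd (nat_lit 78) (nat_lit 0) (nat_lit 0) (XT.lf (nat_lit 0) (nat_lit 46934480384) (nat_lit 76) (nat_lit 37876497493) (nat_lit 76) (nat_lit 36887999483) (nat_lit 6) (nat_lit 4) (nat_lit 7) (nat_lit 5) (nat_lit 7) (nat_lit 4) (nat_lit 473) (nat_lit 374) (nat_lit 353)) (XT.lf (nat_lit 0) (nat_lit 85420392721) (nat_lit 76) (nat_lit 23085355173) (nat_lit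 76) (nat_lit 22078705182) (nat_lit 6) (nat_lit 4) (nat_lit 7) (nat_lit 5) (nat_lit 7) (nat_lit 4) (nat_lit 474) (nat_lit 374) (nat_lit 352))) (XT.nd (nat_lit 78) (nat_lit 152) (nat_lit 0) (XT.lf (nat_lit 0) (nat_lit 126273258719) (nat_lit 76) (nat_lit 7474198943) (nat_lit 76) (nat_lit 6450741561) (nat_lit 6) (nat_lit 4) (nat_lit 7) (nat_lit 5) (nat_lit 7) (nat_lit 4) (nat_lit 475) (nat_lit 374) (nat_lit 351)) (XT.lf (nat_lit 0) (nat_lit 10220631684) (nat_lit 152) (nat_lit 131114838677) (nat_lit 0) (nat_lit 9231089036) (nat_lit 4) (nat_lit 5) (nat_lit 6) (nat_lit 4) (nat_lit 4) (nat_lit 4) (nat_lit 476) (nat_lit 374) (nat_lit 350)))) (XT.nd (nat_lit 156) (nat_lit 0) (nat_lit 0) (XT.nd (nat_lit 78) (nat_lit 0) (nat_lit 0) (XT.lf (nat_lit 0) (nat_lit 28056384253) (nat_lit 152) (nat_lit 106646765116) (nat_lit 0) (nat_lit 27053118150) (nat_lit 4) (nat_lit 5) (nat_lit 6) (nat_lit 4) (nat_lit 4) (nat_lit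 4) (nat_lit 477) (nat_lit 374) (nat_lit 349)) (XT.lf (nat_lit 0) (nat_lit 47023702606) (nat_lit 152) (nat_lit 80824485020) (nat_lit 0) (nat_lit 46007729599) (nat_lit 4) (nat_lit 5) (nat_lit 6) (nat_lit 4) (nat_lit 4) (nat_lit 4) (nat_lit 478) (nat_lit 374) (nat_lit 348))) (XT.nd (nat_lit 78) (nat_lit 0) (nat_lit 0) (XT.lf (nat_lit 0) (nat_lit 67234985665) (nat_lit 152) (nat_lit 53494977470) (nat_lit 0) (nat_lit 66207247008) (nat_lit 4) (nat_lit 5) (nat_lit 6) (nat_lit 4) (nat_lit 4) (nat_lit 4) (nat_lit 479) (nat_lit 374) (nat_lit 347)) (XT.lf (nat_lit 0) (nat_lit 88810003998) (nat_lit 152) (nat_lit 24496289827) (nat_lit 0) (nat_lit 87771371219) (nat_lit 4) (nat_lit 5) (nat_lit 6) (nat_lit 4) (nat_lit 4) (nat_lit 4) (nat_lit 480) (nat_lit 374) (nat_lit 346))))) (XT.nd (nat_lit 312) (nat_lit 0) (nat_lit 0) (XT.nd (nat_lit 156) (nat_lit 0) (nat_lit 0) (XT.nd (nat_lit 78) (nat_lit 0) (nat_lit 0)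 (XT.lf (nat_lit 0) (nat_lit 6553164160) (nat_lit 76) (nat_lit 105425758661) (nat_lit 76) (nat_lit 104377038733) (nat_lit 3) (nat_lit 4) (nat_lit 4) (nat_lit 5) (nat_lit 4) (nat_lit 4) (nat_lit 481) (nat_lit 374) (nat_lit 345)) (XT.lf (nat_lit 0) (nat_lit 40503269373) (nat_lit 76) (nat_lit 96700593530) (nat_lit 76) (nat_lit 95642533649) (nat_lit 3) (nat_lit 4) (nat_lit 4) (nat_lit 5) (nat_lit 4) (nat_lit 4) (nat_lit 482) (nat_lit 374) (nat_lit 344))) (XT.nd (nat_lit 78) (nat_lit 0) (nat_lit 0) (XT.lf (nat_lit 0) (nat_lit 76745253651) (nat_lit 76) (nat_lit 87493950272) (nat_lit 76) (nat_lit 86427242286) (nat_lit 3) (nat_lit 4) (nat_lit 4) (nat_lit 5) (nat_lit 4) (nat_lit 4) (nat_lit 483) (nat_lit 374) (nat_lit 343)) (XT.lf (nat_lit 0) (nat_lit 115493884307) (nat_lit 76) (nat_lit 77751271001) (nat_lit 76) (nat_lit 76676555511) (nat_lit 3) (nat_lit 4) (nat_lit 4) (nat_lit 5) (nat_lit 4) (nat_lit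 4) (nat_lit 484) (nat_lit 374) (nat_lit 342)))) (XT.nd (nat_lit 156) (nat_lit 0) (nat_lit 0) (XT.nd (nat_lit 78) (nat_lit 0) (nat_lit 0) (XT.lf (nat_lit 0) (nat_lit 156978782856) (nat_lit 76) (nat_lit 67414821321) (nat_lit 76) (nat_lit 66332691474) (nat_lit 3) (nat_lit 4) (nat_lit 4) (nat_lit 5) (nat_lit 4) (nat_lit 4) (nat_lit 485) (nat_lit 374) (nat_lit 341)) (XT.lf (nat_lit 0) (nat_lit 201445785735) (nat_lit 76) (nat_lit 56423348196) (nat_lit 76) (nat_lit 55334353205) (nat_lit 3) (nat_lit 4) (nat_lit 4) (nat_lit 5) (nat_lit 4) (nat_lit 4) (nat_lit 486) (nat_lit 374) (nat_lit 340))) (XT.nd (nat_lit 78) (nat_lit 0) (nat_lit 0) (XT.lf (nat_lit 0) (nat_lit 249158401107) (nat_lit 76) (nat_lit 44711716972) (nat_lit 76) (nat_lit 43616365366) (nat_lit 3) (nat_lit 4) (nat_lit 4) (nat_lit 5) (nat_lit 4) (nat_lit 4) (nat_lit 487) (nat_lit 374) (nat_lit 339)) (XT.lf (nat_lit 0) (nat_lit 300399370399)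 (nat_lit 76) (nat_lit 32210525389) (nat_lit 76) (nat_lit 31109288028) (nat_lit 3) (nat_lit 4) (nat_lit 4) (nat_lit 5) (nat_lit 4) (nat_lit 4) (nat_lit 488) (nat_lit 374) (nat_lit 338)))))) (XT.nd (nat_lit 624) (nat_lit 0) (nat_lit 0) (XT.nd (nat_lit 312) (nat_lit 0) (nat_lit 0) (XT.nd (nat_lit 156) (nat_lit 152) (nat_lit 0) (XT.nd (nat_lit 78) (nat_lit 0) (nat_lit 0) (XT.lf (nat_lit 0) (nat_lit 355472343798) (nat_lit 76) (nat_lit 18845692311) (nat_lit 76) (nat_lit 17739005178) (nat_lit 3) (nat_lit 4) (nat_lit 4) (nat_lit 5) (nat_lit 4) (nat_lit 4) (nat_lit 489) (nat_lit 374) (nat_lit 337)) (XT.lf (nat_lit 0) (nat_lit 414703679665) (nat_lit 76) (nat_lit 4538018729) (nat_lit 76) (nat_lit 3426285509) (nat_lit 3) (nat_lit 4) (nat_lit 4) (nat_lit 5) (nat_lit 4) (nat_lit 4) (nat_lit 490) (nat_lit 374) (nat_lit 336))) (XT.nd (nat_lit 78) (nat_lit 0) (nat_lit 0) (XT.lf (nat_lit 0) (nat_lit 12073261489)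 (nat_lit 152) (nat_lit 432613785577) (nat_lit 0) (nat_lit 11010018136) (nat_lit 1) (nat_lit 5) (nat_lit 3) (nat_lit 4) (nat_lit 1) (nat_lit 4) (nat_lit 491) (nat_lit 374) (nat_lit 335)) (XT.lf (nat_lit 0) (nat_lit 28801057498) (nat_lit 152) (nat_lit 434825496917) (nat_lit 0) (nat_lit 27733693948) (nat_lit 1) (nat_lit 5) (nat_lit 3) (nat_lit 4) (nat_lit 1) (nat_lit 4) (nat_lit 492) (nat_lit 374) (nat_lit 334)))) (XT.nd (nat_lit 156) (nat_lit 0) (nat_lit 0) (XT.nd (nat_lit 78) (nat_lit 0) (nat_lit 0) (XT.lf (nat_lit 0) (nat_lit 46764479173) (nat_lit 152) (nat_lit 437423836340) (nat_lit 0) (nat_lit 45693300627) (nat_lit 1) (nat_lit 5) (nat_lit 3) (nat_lit 4) (nat_lit 1) (nat_lit 4) (nat_lit 493) (nat_lit 374) (nat_lit 333)) (XT.lf (nat_lit 0) (nat_lit 66069976422) (nat_lit 152) (nat_lit 440424201413) (nat_lit 0) (nat_lit 64995265473) (nat_lit 1) (nat_lit 5) (nat_lit 3) (nat_lit 4) (nat_lit 1) (nat_lit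 4) (nat_lit 494) (nat_lit 374) (nat_lit 332))) (XT.nd (nat_lit 78) (nat_lit 0) (nat_lit 0) (XT.lf (nat_lit 0) (nat_lit 86831952191) (nat_lit 152) (nat_lit 443844372077) (nat_lit 0) (nat_lit 85753970498) (nat_lit 1) (nat_lit 5) (nat_lit 3) (nat_lit 4) (nat_lit 1) (nat_lit 4) (nat_lit 495) (nat_lit 374) (nat_lit 331)) (XT.lf (nat_lit 0) (nat_lit 109173440411) (nat_lit 152) (nat_lit 447704616009) (nat_lit 0) (nat_lit 108092430250) (nat_lit 1) (nat_lit 5) (nat_lit 3) (nat_lit 4) (nat_lit 1) (nat_lit 4) (nat_lit 496) (nat_lit 374) (nat_lit 330))))) (XT.nd (nat_lit 312) (nat_lit 0) (nat_lit 0) (XT.nd (nat_lit 156) (nat_lit 0) (nat_lit 0) (XT.nd (nat_lit 78) (nat_lit 0) (nat_lit 0) (XT.lf (nat_lit 0) (nat_lit 133226835085) (nat_lit 152) (nat_lit 452027808731) (nat_lit 0) (nat_lit 132143020789) (nat_lit 1) (nat_lit 5) (nat_lit 3) (nat_lit 4) (nat_lit 1) (nat_lit 4) (nat_lit 497) (nat_lit 374) (nat_lit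 329)) (XT.lf (nat_lit 0) (nat_lit 159134674850) (nat_lit 152) (nat_lit 456839569160) (nat_lit 0) (nat_lit 158048264132) (nat_lit 1) (nat_lit 5) (nat_lit 3) (nat_lit 4) (nat_lit 1) (nat_lit 4) (nat_lit 498) (nat_lit 374) (nat_lit 328))) (XT.nd (nat_lit 78) (nat_lit 0) (nat_lit 0) (XT.lf (nat_lit 0) (nat_lit 187050487644) (nat_lit 152) (nat_lit 462168411434) (nat_lit 0) (nat_lit 185961672831) (nat_lit 1) (nat_lit 5) (nat_lit 3) (nat_lit 4) (nat_lit 1) (nat_lit 4) (nat_lit 499) (nat_lit 374) (nat_lit 327)) (XT.lf (nat_lit 0) (nat_lit 217139700507) (nat_lit 152) (nat_lit 468045913877) (nat_lit 0) (nat_lit 216048659680) (nat_lit 1) (nat_lit 5) (nat_lit 3) (nat_lit 4) (nat_lit 1) (nat_lit 4) (nat_lit 500) (nat_lit 374) (nat_lit 326)))) (XT.nd (nat_lit 156) (nat_lit 0) (nat_lit 0) (XT.nd (nat_lit 78) (nat_lit 0) (nat_lit 0) (XT.lf (nat_lit 0) (nat_lit 249580619884) (nat_lit 152) (nat_lit 474506906133)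 (nat_lit 0) (nat_lit 248487517934) (nat_lit 1) (nat_lit 5) (nat_lit 3) (nat_lit 4) (nat_lit 1) (nat_lit 4) (nat_lit 501) (nat_lit 374) (nat_lit 325)) (XT.lf (nat_lit 0) (nat_lit 284565488261) (nat_lit 152) (nat_lit 481589675564) (nat_lit 0) (nat_lit 283470477863) (nat_lit 1) (nat_lit 5) (nat_lit 3) (nat_lit 4) (nat_lit 1) (nat_lit 4) (nat_lit 502) (nat_lit 374) (nat_lit 324))) (XT.nd (nat_lit 78) (nat_lit 0) (nat_lit 0) (XT.lf (nat_lit 0) (nat_lit 322301623377) (nat_lit 152) (nat_lit 489336194136) (nat_lit 0) (nat_lit 321204845898) (nat_lit 1) (nat_lit 5) (nat_lit 3) (nat_lit 4) (nat_lit 1) (nat_lit 4) (nat_lit 503) (nat_lit 374) (nat_lit 323)) (XT.lf (nat_lit 0) (nat_lit 363012646772) (nat_lit 152) (nat_lit 497792367144) (nat_lit 0) (nat_lit 361914233107) (nat_lit 1) (nat_lit 5) (nat_lit 3) (nat_lit 4) (nat_lit 1) (nat_lit 4) (nat_lit 504) (nat_lit 374) (nat_lit 322))))))))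
noncomputable def xc13 : XT := (XT.nd (nat_lit 60450) (nat_lit 0) (nat_lit 0) (XT.nd (nat_lit 59202) (nat_lit 0) (nat_lit 228) (XT.nd (nat_lit 58578) (nat_lit 0) (nat_lit 912) (XT.nd (nat_lit 58266) (nat_lit 0) (nat_lit 1672) (XT.nd (nat_lit 156) (nat_lit 0) (nat_lit 0) (XT.nd (nat_lit 78) (nat_lit 0) (nat_lit 0) (XT.lf (nat_lit 0) (nat_lit 406939808957) (nat_lit 152) (nat_lit 507008305245) (nat_lit 0) (nat_lit 405839880304) (nat_lit 1) (nat_lit 5) (nat_lit 3) (nat_lit 4) (nat_lit 1) (nat_lit 4) (nat_lit 505) (nat_lit 374) (nat_lit 321)) (XT.lf (nat_lit 0) (nat_lit 454343419040) (nat_lit 152) (nat_lit 517038621403) (nat_lit 0) (nat_lit 453242087620) (nat_lit 1) (nat_lit 5) (nat_lit 3) (nat_lit 4) (nat_lit 1) (nat_lit 4) (nat_lit 506) (nat_lit 374) (nat_lit 320))) (XT.nd (nat_lit 58032) (nat_lit 0) (nat_lit 2204) (XT.lf (nat_lit 0) (nat_lit 505504387302) (nat_lit 152) (nat_lit 527942754530) (nat_lit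 0) (nat_lit 504401757026) (nat_lit 1) (nat_lit 5) (nat_lit 3) (nat_lit 4) (nat_lit 1) (nat_lit 4) (nat_lit 507) (nat_lit 374) (nat_lit 319)) (XT.lf (nat_lit 0) (nat_lit 9660383842) (nat_lit 76) (nat_lit 2801711874) (nat_lit 76) (nat_lit 2801711874) (nat_lit 30) (nat_lit 4) (nat_lit 31) (nat_lit 5) (nat_lit 31) (nat_lit 4) (nat_lit 450) (nat_lit 375) (nat_lit 375)))) (XT.nd (nat_lit 156) (nat_lit 304) (nat_lit 0) (XT.nd (nat_lit 78) (nat_lit 76) (nat_lit 0) (XT.lf (nat_lit 0) (nat_lit 12799237587) (nat_lit 152) (nat_lit 6574527177) (nat_lit 0) (nat_lit 12660379316) (nat_lit 28) (nat_lit 5) (nat_lit 30) (nat_lit 4) (nat_lit 28) (nat_lit 4) (nat_lit 451) (nat_lit 375) (nat_lit 374)) (XT.lf (nat_lit 0) (nat_lit 30711216141) (nat_lit 76) (nat_lit 1610316107) (nat_lit 76) (nat_lit 1342885363) (nat_lit 27) (nat_lit 4) (nat_lit 28) (nat_lit 5) (nat_lit 28) (nat_lit 4) (nat_lit 452) (nat_lit 375) (nat_lit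 373))) (XT.nd (nat_lit 78) (nat_lit 152) (nat_lit 0) (XT.lf (nat_lit 0) (nat_lit 17434772958) (nat_lit 152) (nat_lit 908120073) (nat_lit 0) (nat_lit 17066697404) (nat_lit 25) (nat_lit 5) (nat_lit 27) (nat_lit 4) (nat_lit 25) (nat_lit 4) (nat_lit 453) (nat_lit 375) (nat_lit 372)) (XT.lf (nat_lit 0) (nat_lit 138967692) (nat_lit 152) (nat_lit 188172901) (nat_lit 76) (nat_lit 36977013785) (nat_lit 23) (nat_lit 5) (nat_lit 25) (nat_lit 5) (nat_lit 24) (nat_lit 4) (nat_lit 454) (nat_lit 375) (nat_lit 371))))) (XT.nd (nat_lit 312) (nat_lit 380) (nat_lit 0) (XT.nd (nat_lit 156) (nat_lit 228) (nat_lit 0) (XT.nd (nat_lit 78) (nat_lit 76) (nat_lit 0) (XT.lf (nat_lit 0) (nat_lit 19135781963) (nat_lit 152) (nat_lit 1603909882) (nat_lit 0) (nat_lit 18592675860) (nat_lit 22) (nat_lit 5) (nat_lit 24) (nat_lit 4) (nat_lit 22) (nat_lit 4) (nat_lit 455) (nat_lit 375) (nat_lit 370)) (XT.lf (nat_lit 0) (nat_lit 36641499443)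 (nat_lit 76) (nat_lit 2761320366) (nat_lit 76) (nat_lit 2132495801) (nat_lit 21) (nat_lit 4) (nat_lit 22) (nat_lit 5) (nat_lit 22) (nat_lit 4) (nat_lit 456) (nat_lit 375) (nat_lit 369))) (XT.nd (nat_lit 78) (nat_lit 76) (nat_lit 0) (XT.lf (nat_lit 0) (nat_lit 16821215129) (nat_lit 152) (nat_lit 10932942527) (nat_lit 0) (nat_lit 16146745116) (nat_lit 19) (nat_lit 5) (nat_lit 21) (nat_lit 4) (nat_lit 19) (nat_lit 4) (nat_lit 457) (nat_lit 375) (nat_lit 368)) (XT.lf (nat_lit 0) (nat_lit 26758201690) (nat_lit 76) (nat_lit 10225933734) (nat_lit 76) (nat_lit 9481473467) (nat_lit 18) (nat_lit 4) (nat_lit 19) (nat_lit 5) (nat_lit 19) (nat_lit 4) (nat_lit 458) (nat_lit 375) (nat_lit 367)))) (XT.nd (nat_lit 156) (nat_lit 152) (nat_lit 0) (XT.nd (nat_lit 78) (nat_lit 76) (nat_lit 0) (XT.lf (nat_lit 0) (nat_lit 9057576184) (nat_lit 152) (nat_lit 31891743209) (nat_lit 0) (nat_lit 8286846605) (nat_lit 16)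 (nat_lit 5) (nat_lit 18) (nat_lit 4) (nat_lit 16) (nat_lit 4) (nat_lit 459) (nat_lit 375) (nat_lit 366)) (XT.lf (nat_lit 0) (nat_lit 4138141118) (nat_lit 76) (nat_lit 24458929051) (nat_lit 76) (nat_lit 23631051509) (nat_lit 15) (nat_lit 4) (nat_lit 16) (nat_lit 5) (nat_lit 16) (nat_lit 4) (nat_lit 460) (nat_lit 375) (nat_lit 365))) (XT.nd (nat_lit 78) (nat_lit 152) (nat_lit 0) (XT.lf (nat_lit 0) (nat_lit 42745537259) (nat_lit 76) (nat_lit 6801170282) (nat_lit 76) (nat_lit 5920377960) (nat_lit 15) (nat_lit 4) (nat_lit 16) (nat_lit 5) (nat_lit 16) (nat_lit 4) (nat_lit 461) (nat_lit 375) (nat_lit 364)) (XT.lf (nat_lit 0) (nat_lit 12693739582) (nat_lit 152) (nat_lit 34457424841) (nat_lit 0) (nat_lit 11808227687) (nat_lit 13) (nat_lit 5) (nat_lit 15) (nat_lit 4) (nat_lit 13) (nat_lit 4) (nat_lit 462) (nat_lit 375) (nat_lit 363)))))) (XT.nd (nat_lit 624) (nat_lit 228) (nat_lit 0) (XT.nd (nat_lit 312)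 (nat_lit 228) (nat_lit 0) (XT.nd (nat_lit 156) (nat_lit 152) (nat_lit 0) (XT.nd (nat_lit 78) (nat_lit 0) (nat_lit 0) (XT.lf (nat_lit 0) (nat_lit 927873290) (nat_lit 76) (nat_lit 31370809767) (nat_lit 76) (nat_lit 30442092256) (nat_lit 12) (nat_lit 4) (nat_lit 13) (nat_lit 5) (nat_lit 13) (nat_lit 4) (nat_lit 463) (nat_lit 375) (nat_lit 362)) (XT.lf (nat_lit 0) (nat_lit 39110555712) (nat_lit 76) (nat_lit 14341907392) (nat_lit 76) (nat_lit 13373184682) (nat_lit 12) (nat_lit 4) (nat_lit 13) (nat_lit 5) (nat_lit 13) (nat_lit 4) (nat_lit 464) (nat_lit 375) (nat_lit 361))) (XT.nd (nat_lit 78) (nat_lit 0) (nat_lit 0) (XT.lf (nat_lit 0) (nat_lit 4499568253) (nat_lit 152) (nat_lit 63212077950) (nat_lit 0) (nat_lit 3541697243) (nat_lit 10) (nat_lit 5) (nat_lit 12) (nat_lit 4) (nat_lit 10) (nat_lit 4) (nat_lit 465) (nat_lit 375) (nat_lit 360)) (XT.lf (nat_lit 0) (nat_lit 23505499736) (nat_lit 152) (nat_lit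 29995235511) (nat_lit 0) (nat_lit 22514963954) (nat_lit 10) (nat_lit 5) (nat_lit 12) (nat_lit 4) (nat_lit 10) (nat_lit 4) (nat_lit 466) (nat_lit 375) (nat_lit 359)))) (XT.nd (nat_lit 156) (nat_lit 152) (nat_lit 0) (XT.nd (nat_lit 78) (nat_lit 0) (nat_lit 0) (XT.lf (nat_lit 0) (nat_lit 4966901289) (nat_lit 76) (nat_lit 38617645753) (nat_lit 76) (nat_lit 37596864812) (nat_lit 9) (nat_lit 4) (nat_lit 10) (nat_lit 5) (nat_lit 10) (nat_lit 4) (nat_lit 467) (nat_lit 375) (nat_lit 358)) (XT.lf (nat_lit 0) (nat_lit 42772649760) (nat_lit 76) (nat_lit 22517747006) (nat_lit 76) (nat_lit 21468961289) (nat_lit 9) (nat_lit 4) (nat_lit 10) (nat_lit 5) (nat_lit 10) (nat_lit 4) (nat_lit 468) (nat_lit 375) (nat_lit 357))) (XT.nd (nat_lit 78) (nat_lit 152) (nat_lit 0) (XT.lf (nat_lit 0) (nat_lit 82654266021) (nat_lit 76) (nat_lit 5613616027) (nat_lit 76) (nat_lit 4538899960) (nat_lit 9) (nat_lit 4) (nat_lit 10)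 (nat_lit 5) (nat_lit 10) (nat_lit 4) (nat_lit 469) (nat_lit 375) (nat_lit 356)) (XT.lf (nat_lit 0) (nat_lit 13476407994) (nat_lit 152) (nat_lit 73412320024) (nat_lit 0) (nat_lit 12430002614) (nat_lit 7) (nat_lit 5) (nat_lit 9) (nat_lit 4) (nat_lit 7) (nat_lit 4) (nat_lit 470) (nat_lit 375) (nat_lit 355))))) (XT.nd (nat_lit 312) (nat_lit 152) (nat_lit 0) (XT.nd (nat_lit 156) (nat_lit 76) (nat_lit 0) (XT.nd (nat_lit 78) (nat_lit 0) (nat_lit 0) (XT.lf (nat_lit 0) (nat_lit 32625264319) (nat_lit 152) (nat_lit 42172397070) (nat_lit 0) (nat_lit 31557686467) (nat_lit 7) (nat_lit 5) (nat_lit 9) (nat_lit 4) (nat_lit 7) (nat_lit 4) (nat_lit 471) (nat_lit 375) (nat_lit 354)) (XT.lf (nat_lit 0) (nat_lit 52912337895) (nat_lit 152) (nat_lit 9237085549) (nat_lit 0) (nat_lit 51825155904) (nat_lit 7) (nat_lit 5) (nat_lit 9) (nat_lit 4) (nat_lit 7) (nat_lit 4) (nat_lit 472) (nat_lit 375) (nat_lit 353))) (XT.nd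 (nat_lit 78) (nat_lit 0) (nat_lit 0) (XT.lf (nat_lit 0) (nat_lit 26434867608) (nat_lit 76) (nat_lit 48435703178) (nat_lit 76) (nat_lit 47330369206) (nat_lit 6) (nat_lit 4) (nat_lit 7) (nat_lit 5) (nat_lit 7) (nat_lit 4) (nat_lit 473) (nat_lit 375) (nat_lit 352)) (XT.lf (nat_lit 0) (nat_lit 64578511038) (nat_lit 76) (nat_lit 33819213490) (nat_lit 76) (nat_lit 32697072128) (nat_lit 6) (nat_lit 4) (nat_lit 7) (nat_lit 5) (nat_lit 7) (nat_lit 4) (nat_lit 474) (nat_lit 375) (nat_lit 351)))) (XT.nd (nat_lit 156) (nat_lit 152) (nat_lit 0) (XT.nd (nat_lit 78) (nat_lit 0) (nat_lit 0) (XT.lf (nat_lit 0) (nat_lit 105114461382) (nat_lit 76) (nat_lit 18369772659) (nat_lit 76) (nat_lit 17232068898) (nat_lit 6) (nat_lit 4) (nat_lit 7) (nat_lit 5) (nat_lit 7) (nat_lit 4) (nat_lit 475) (nat_lit 375) (nat_lit 350)) (XT.lf (nat_lit 0) (nat_lit 148282931679) (nat_lit 76) (nat_lit 1995828443) (nat_lit 76) (nat_lit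 843715054) (nat_lit 6) (nat_lit 4) (nat_lit 7) (nat_lit 5) (nat_lit 7) (nat_lit 4) (nat_lit 476) (nat_lit 375) (nat_lit 349))) (XT.nd (nat_lit 78) (nat_lit 0) (nat_lit 0) (XT.lf (nat_lit 0) (nat_lit 16799362825) (nat_lit 152) (nat_lit 129835058081) (nat_lit 0) (nat_lit 15689405074) (nat_lit 4) (nat_lit 5) (nat_lit 6) (nat_lit 4) (nat_lit 4) (nat_lit 4) (nat_lit 477) (nat_lit 375) (nat_lit 348)) (XT.lf (nat_lit 0) (nat_lit 35635228888) (nat_lit 152) (nat_lit 104281314020) (nat_lit 0) (nat_lit 34513505487) (nat_lit 4) (nat_lit 5) (nat_lit 6) (nat_lit 4) (nat_lit 4) (nat_lit 4) (nat_lit 478) (nat_lit 375) (nat_lit 347))))))) (XT.nd (nat_lit 1248) (nat_lit 0) (nat_lit 0) (XT.nd (nat_lit 624) (nat_lit 152) (nat_lit 0) (XT.nd (nat_lit 312) (nat_lit 0) (nat_lit 0) (XT.nd (nat_lit 156) (nat_lit 76) (nat_lit 0) (XT.nd (nat_lit 78) (nat_lit 0) (nat_lit 0) (XT.lf (nat_lit 0) (nat_lit 55724796865) (nat_lit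 152) (nat_lit 77200450947) (nat_lit 0) (nat_lit 54592179342) (nat_lit 4) (nat_lit 5) (nat_lit 6) (nat_lit 4) (nat_lit 4) (nat_lit 4) (nat_lit 479) (nat_lit 375) (nat_lit 346)) (XT.lf (nat_lit 0) (nat_lit 77187116047) (nat_lit 152) (nat_lit 48431989672) (nat_lit 0) (nat_lit 76044411375) (nat_lit 4) (nat_lit 5) (nat_lit 6) (nat_lit 4) (nat_lit 4) (nat_lit 4) (nat_lit 480) (nat_lit 375) (nat_lit 345))) (XT.nd (nat_lit 78) (nat_lit 76) (nat_lit 0) (XT.lf (nat_lit 0) (nat_lit 100149370547) (nat_lit 152) (nat_lit 17805450425) (nat_lit 0) (nat_lit 98997325922) (nat_lit 4) (nat_lit 5) (nat_lit 6) (nat_lit 4) (nat_lit 4) (nat_lit 4) (nat_lit 481) (nat_lit 375) (nat_lit 344)) (XT.lf (nat_lit 0) (nat_lit 15352017842) (nat_lit 76) (nat_lit 109635303166) (nat_lit 76) (nat_lit 108474610436) (nat_lit 3) (nat_lit 4) (nat_lit 4) (nat_lit 5) (nat_lit 4) (nat_lit 4) (nat_lit 482) (nat_lit 375) (nat_lit 343))))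 (XT.nd (nat_lit 156) (nat_lit 0) (nat_lit 0) (XT.nd (nat_lit 78) (nat_lit 0) (nat_lit 0) (XT.lf (nat_lit 0) (nat_lit 51405198098) (nat_lit 76) (nat_lit 100525051950) (nat_lit 76) (nat_lit 99356351716) (nat_lit 3) (nat_lit 4) (nat_lit 4) (nat_lit 5) (nat_lit 4) (nat_lit 4) (nat_lit 483) (nat_lit 375) (nat_lit 342)) (XT.lf (nat_lit 0) (nat_lit 89979010216) (nat_lit 76) (nat_lit 90871624569) (nat_lit 76) (nat_lit 89695509979) (nat_lit 3) (nat_lit 4) (nat_lit 4) (nat_lit 5) (nat_lit 4) (nat_lit 4) (nat_lit 484) (nat_lit 375) (nat_lit 341))) (XT.nd (nat_lit 78) (nat_lit 0) (nat_lit 0) (XT.lf (nat_lit 0) (nat_lit 131302039749) (nat_lit 76) (nat_lit 80617815528) (nat_lit 76) (nat_lit 79434835794) (nat_lit 3) (nat_lit 4) (nat_lit 4) (nat_lit 5) (nat_lit 4) (nat_lit 4) (nat_lit 485) (nat_lit 375) (nat_lit 340)) (XT.lf (nat_lit 0) (nat_lit 175619163908) (nat_lit 76) (nat_lit 69702861514) (nat_lit 76) (nat_lit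 68513525165) (nat_lit 3) (nat_lit 4) (nat_lit 4) (nat_lit 5) (nat_lit 4) (nat_lit 4) (nat_lit 486) (nat_lit 375) (nat_lit 339))))) (XT.nd (nat_lit 312) (nat_lit 152) (nat_lit 0) (XT.nd (nat_lit 156) (nat_lit 0) (nat_lit 0) (XT.nd (nat_lit 78) (nat_lit 0) (nat_lit 0) (XT.lf (nat_lit 0) (nat_lit 223193002689) (nat_lit 76) (nat_lit 58062081318) (nat_lit 76) (nat_lit 56866859214) (nat_lit 3) (nat_lit 4) (nat_lit 4) (nat_lit 5) (nat_lit 4) (nat_lit 4) (nat_lit 487) (nat_lit 375) (nat_lit 338)) (XT.lf (nat_lit 0) (nat_lit 274305475137) (nat_lit 76) (nat_lit 45626492539) (nat_lit 76) (nat_lit 44425820662) (nat_lit 3) (nat_lit 4) (nat_lit 4) (nat_lit 5) (nat_lit 4) (nat_lit 4) (nat_lit 488) (nat_lit 375) (nat_lit 337))) (XT.nd (nat_lit 78) (nat_lit 0) (nat_lit 0) (XT.lf (nat_lit 0) (nat_lit 329259469976) (nat_lit 76) (nat_lit 32322402799) (nat_lit 76) (nat_lit 31116684836) (nat_lit 3) (nat_lit 4) (nat_lit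 4) (nat_lit 5) (nat_lit 4) (nat_lit 4) (nat_lit 489) (nat_lit 375) (nat_lit 336)) (XT.lf (nat_lit 0) (nat_lit 388380640511) (nat_lit 76) (nat_lit 18070973048) (nat_lit 76) (nat_lit 16860582783) (nat_lit 3) (nat_lit 4) (nat_lit 4) (nat_lit 5) (nat_lit 4) (nat_lit 4) (nat_lit 490) (nat_lit 375) (nat_lit 335)))) (XT.nd (nat_lit 156) (nat_lit 0) (nat_lit 0) (XT.nd (nat_lit 78) (nat_lit 152) (nat_lit 0) (XT.lf (nat_lit 0) (nat_lit 452019334417) (nat_lit 76) (nat_lit 2787750368) (nat_lit 76) (nat_lit 1573033897) (nat_lit 3) (nat_lit 4) (nat_lit 4) (nat_lit 5) (nat_lit 4) (nat_lit 4) (nat_lit 491) (nat_lit 375) (nat_lit 334)) (XT.lf (nat_lit 0) (nat_lit 15040770188) (nat_lit 152) (nat_lit 463131894237) (nat_lit 0) (nat_lit 13880082363) (nat_lit 1) (nat_lit 5) (nat_lit 3) (nat_lit 4) (nat_lit 1) (nat_lit 4) (nat_lit 492) (nat_lit 375) (nat_lit 333))) (XT.nd (nat_lit 78) (nat_lit 0) (nat_lit 0) (XT.lf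 (nat_lit 0) (nat_lit 32958519671) (nat_lit 152) (nat_lit 465823579091) (nat_lit 0) (nat_lit 31794299442) (nat_lit 1) (nat_lit 5) (nat_lit 3) (nat_lit 4) (nat_lit 1) (nat_lit 4) (nat_lit 493) (nat_lit 375) (nat_lit 332)) (XT.lf (nat_lit 0) (nat_lit 52221727852) (nat_lit 152) (nat_lit 468910375118) (nat_lit 0) (nat_lit 51054236879) (nat_lit 1) (nat_lit 5) (nat_lit 3) (nat_lit 4) (nat_lit 1) (nat_lit 4) (nat_lit 494) (nat_lit 375) (nat_lit 331)))))) (XT.nd (nat_lit 624) (nat_lit 0) (nat_lit 0) (XT.nd (nat_lit 312) (nat_lit 0) (nat_lit 0) (XT.nd (nat_lit 156) (nat_lit 0) (nat_lit 0) (XT.nd (nat_lit 78) (nat_lit 0) (nat_lit 0) (XT.lf (nat_lit 0) (nat_lit 72944547078) (nat_lit 152) (nat_lit 472410574443) (nat_lit 0) (nat_lit 71774027638) (nat_lit 1) (nat_lit 5) (nat_lit 3) (nat_lit 4) (nat_lit 1) (nat_lit 4) (nat_lit 495) (nat_lit 375) (nat_lit 330)) (XT.lf (nat_lit 0) (nat_lit 95249779239) (nat_lit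 152) (nat_lit 476344918988) (nat_lit 0) (nat_lit 94076455663) (nat_lit 1) (nat_lit 5) (nat_lit 3) (nat_lit 4) (nat_lit 1) (nat_lit 4) (nat_lit 496) (nat_lit 375) (nat_lit 329))) (XT.nd (nat_lit 78) (nat_lit 0) (nat_lit 0) (XT.lf (nat_lit 0) (nat_lit 119269603489) (nat_lit 152) (nat_lit 480736723388) (nat_lit 0) (nat_lit 118093683491) (nat_lit 1) (nat_lit 5) (nat_lit 3) (nat_lit 4) (nat_lit 1) (nat_lit 4) (nat_lit 497) (nat_lit 375) (nat_lit 328)) (XT.lf (nat_lit 0) (nat_lit 145146359527) (nat_lit 152) (nat_lit 485612013149) (nat_lit 0) (nat_lit 143968035434) (nat_lit 1) (nat_lit 5) (nat_lit 3) (nat_lit 4) (nat_lit 1) (nat_lit 4) (nat_lit 498) (nat_lit 375) (nat_lit 327)))) (XT.nd (nat_lit 156) (nat_lit 0) (nat_lit 0) (XT.nd (nat_lit 78) (nat_lit 0) (nat_lit 0) (XT.lf (nat_lit 0) (nat_lit 173033391092) (nat_lit 152) (nat_lit 490999678878) (nat_lit 0) (nat_lit 171852840986) (nat_lit 1) (nat_lit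 5) (nat_lit 3) (nat_lit 4) (nat_lit 1) (nat_lit 4) (nat_lit 499) (nat_lit 375) (nat_lit 326)) (XT.lf (nat_lit 0) (nat_lit 203095954669) (nat_lit 152) (nat_lit 496931647484) (nat_lit 0) (nat_lit 201913343439) (nat_lit 1) (nat_lit 5) (nat_lit 3) (nat_lit 4) (nat_lit 1) (nat_lit 4) (nat_lit 500) (nat_lit 375) (nat_lit 325))) (XT.nd (nat_lit 78) (nat_lit 0) (nat_lit 0) (XT.lf (nat_lit 0) (nat_lit 235512198782) (nat_lit 152) (nat_lit 503443071371) (nat_lit 0) (nat_lit 234327679104) (nat_lit 1) (nat_lit 5) (nat_lit 3) (nat_lit 4) (nat_lit 1) (nat_lit 4) (nat_lit 501) (nat_lit 375) (nat_lit 324)) (XT.lf (nat_lit 0) (nat_lit 270474219692) (nat_lit 152) (nat_lit 510572536757) (nat_lit 0) (nat_lit 269287932933) (nat_lit 1) (nat_lit 5) (nat_lit 3) (nat_lit 4) (nat_lit 1) (nat_lit 4) (nat_lit 502) (nat_lit 375) (nat_lit 323))))) (XT.nd (nat_lit 312) (nat_lit 0) (nat_lit 0) (XT.nd (nat_lit 156) (nat_lit 0)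 (nat_lit 0) (XT.nd (nat_lit 78) (nat_lit 0) (nat_lit 0) (XT.lf (nat_lit 0) (nat_lit 308189199745) (nat_lit 152) (nat_lit 518362292325) (nat_lit 0) (nat_lit 307001276800) (nat_lit 1) (nat_lit 5) (nat_lit 3) (nat_lit 4) (nat_lit 1) (nat_lit 4) (nat_lit 503) (nat_lit 375) (nat_lit 322)) (XT.lf (nat_lit 0) (nat_lit 348880635120) (nat_lit 152) (nat_lit 526858499588) (nat_lit 0) (nat_lit 347691197187) (nat_lit 1) (nat_lit 5) (nat_lit 3) (nat_lit 4) (nat_lit 1) (nat_lit 4) (nat_lit 504) (nat_lit 375) (nat_lit 321))) (XT.nd (nat_lit 78) (nat_lit 0) (nat_lit 0) (XT.lf (nat_lit 0) (nat_lit 392789660249) (nat_lit 152) (nat_lit 536111506444) (nat_lit 0) (nat_lit 391598819550) (nat_lit 1) (nat_lit 5) (nat_lit 3) (nat_lit 4) (nat_lit 1) (nat_lit 4) (nat_lit 505) (nat_lit 375) (nat_lit 320)) (XT.lf (nat_lit 0) (nat_lit 440176476761) (nat_lit 152) (nat_lit 546176145523) (nat_lit 0) (nat_lit 438984337205) (nat_lit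 1) (nat_lit 5) (nat_lit 3) (nat_lit 4) (nat_lit 1) (nat_lit 4) (nat_lit 506) (nat_lit 375) (nat_lit 319)))) (XT.nd (nat_lit 57954) (nat_lit 0) (nat_lit 2204) (XT.nd (nat_lit 57876) (nat_lit 0) (nat_lit 2432) (XT.lf (nat_lit 0) (nat_lit 491321895421) (nat_lit 152) (nat_lit 557112059133) (nat_lit 0) (nat_lit 490128553219) (nat_lit 1) (nat_lit 5) (nat_lit 3) (nat_lit 4) (nat_lit 1) (nat_lit 4) (nat_lit 507) (nat_lit 375) (nat_lit 318)) (XT.lf (nat_lit 0) (nat_lit 2634118096) (nat_lit 76) (nat_lit 5632788648) (nat_lit 76) (nat_lit 5632788648) (nat_lit 33) (nat_lit 4) (nat_lit 34) (nat_lit 5) (nat_lit 34) (nat_lit 4) (nat_lit 448) (nat_lit 376) (nat_lit 376))) (XT.nd (nat_lit 78) (nat_lit 76) (nat_lit 0) (XT.lf (nat_lit 0) (nat_lit 6196137388) (nat_lit 152) (nat_lit 16890800104) (nat_lit 0) (nat_lit 6038672108) (nat_lit 31) (nat_lit 5) (nat_lit 33) (nat_lit 4) (nat_lit 31) (nat_lit 4) (nat_lit 449)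 (nat_lit 376) (nat_lit 375)) (XT.lf (nat_lit 0) (nat_lit 18402874544) (nat_lit 76) (nat_lit 6225340185) (nat_lit 76) (nat_lit 5922073721) (nat_lit 30) (nat_lit 4) (nat_lit 31) (nat_lit 5) (nat_lit 31) (nat_lit 4) (nat_lit 450) (nat_lit 376) (nat_lit 374))))))))
noncomputable def xc14 : XT := (XT.nd (nat_lit 2418) (nat_lit 228) (nat_lit 0) (XT.nd (nat_lit 1170) (nat_lit 608) (nat_lit 0) (XT.nd (nat_lit 546) (nat_lit 532) (nat_lit 0) (XT.nd (nat_lit 234) (nat_lit 456) (nat_lit 0) (XT.nd (nat_lit 78) (nat_lit 228) (nat_lit 0) (XT.lf (nat_lit 0) (nat_lit 12017928629) (nat_lit 152) (nat_lit 8462250439) (nat_lit 0) (nat_lit 11600530952) (nat_lit 28) (nat_lit 5) (nat_lit 30) (nat_lit 4) (nat_lit 28) (nat_lit 4) (nat_lit 451) (nat_lit 376) (nat_lit 373)) (XT.nd (nat_lit 78) (nat_lit 152) (nat_lit 0) (XT.lf (nat_lit 0) (nat_lit 27892958383) (nat_lit 76) (nat_lit 3188700309) (nat_lit 76) (nat_lit 2652254045)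 (nat_lit 27) (nat_lit 4) (nat_lit 28) (nat_lit 5) (nat_lit 28) (nat_lit 4) (nat_lit 452) (nat_lit 376) (nat_lit 372)) (XT.lf (nat_lit 0) (nat_lit 15672561719) (nat_lit 152) (nat_lit 4775604956) (nat_lit 0) (nat_lit 15056679399) (nat_lit 25) (nat_lit 5) (nat_lit 27) (nat_lit 4) (nat_lit 25) (nat_lit 4) (nat_lit 453) (nat_lit 376) (nat_lit 371)))) (XT.nd (nat_lit 156) (nat_lit 228) (nat_lit 0) (XT.nd (nat_lit 78) (nat_lit 152) (nat_lit 0) (XT.lf (nat_lit 0) (nat_lit 32301997806) (nat_lit 76) (nat_lit 2916972253) (nat_lit 76) (nat_lit 2203885196) (nat_lit 24) (nat_lit 4) (nat_lit 25) (nat_lit 5) (nat_lit 25) (nat_lit 4) (nat_lit 454) (nat_lit 376) (nat_lit 370)) (XT.lf (nat_lit 0) (nat_lit 16342916148) (nat_lit 152) (nat_lit 7557833961) (nat_lit 0) (nat_lit 15578067154) (nat_lit 22) (nat_lit 5) (nat_lit 24) (nat_lit 4) (nat_lit 22) (nat_lit 4) (nat_lit 455) (nat_lit 376) (nat_lit 369))) (XT.nd (nat_lit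 78) (nat_lit 152) (nat_lit 0) (XT.lf (nat_lit 0) (nat_lit 29714371930) (nat_lit 76) (nat_lit 6417751669) (nat_lit 76) (nat_lit 5573533726) (nat_lit 21) (nat_lit 4) (nat_lit 22) (nat_lit 5) (nat_lit 22) (nat_lit 4) (nat_lit 456) (nat_lit 376) (nat_lit 368)) (XT.lf (nat_lit 0) (nat_lit 12939781414) (nat_lit 152) (nat_lit 19095902300) (nat_lit 0) (nat_lit 12065774072) (nat_lit 19) (nat_lit 5) (nat_lit 21) (nat_lit 4) (nat_lit 19) (nat_lit 4) (nat_lit 457) (nat_lit 376) (nat_lit 367))))) (XT.nd (nat_lit 312) (nat_lit 228) (nat_lit 0) (XT.nd (nat_lit 156) (nat_lit 76) (nat_lit 0) (XT.nd (nat_lit 78) (nat_lit 152) (nat_lit 0) (XT.lf (nat_lit 0) (nat_lit 17591250845) (nat_lit 76) (nat_lit 15019170368) (nat_lit 76) (nat_lit 14080357236) (nat_lit 18) (nat_lit 4) (nat_lit 19) (nat_lit 5) (nat_lit 19) (nat_lit 4) (nat_lit 458) (nat_lit 376) (nat_lit 366)) (XT.lf (nat_lit 0) (nat_lit 4020883306) (nat_lit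 152) (nat_lit 42403665289) (nat_lit 0) (nat_lit 3069627598) (nat_lit 16) (nat_lit 5) (nat_lit 18) (nat_lit 4) (nat_lit 16) (nat_lit 4) (nat_lit 459) (nat_lit 376) (nat_lit 365))) (XT.nd (nat_lit 78) (nat_lit 76) (nat_lit 0) (XT.lf (nat_lit 0) (nat_lit 23165957214) (nat_lit 152) (nat_lit 7178109363) (nat_lit 0) (nat_lit 22161786724) (nat_lit 16) (nat_lit 5) (nat_lit 18) (nat_lit 4) (nat_lit 16) (nat_lit 4) (nat_lit 460) (nat_lit 376) (nat_lit 364)) (XT.lf (nat_lit 0) (nat_lit 30549263197) (nat_lit 76) (nat_lit 13135139779) (nat_lit 76) (nat_lit 12081974122) (nat_lit 15) (nat_lit 4) (nat_lit 16) (nat_lit 5) (nat_lit 16) (nat_lit 4) (nat_lit 461) (nat_lit 376) (nat_lit 363)))) (XT.nd (nat_lit 156) (nat_lit 76) (nat_lit 0) (XT.nd (nat_lit 78) (nat_lit 0) (nat_lit 0) (XT.lf (nat_lit 0) (nat_lit 6114051189) (nat_lit 152) (nat_lit 48112377282) (nat_lit 0) (nat_lit 5067830662) (nat_lit 13) (nat_lit 5)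 (nat_lit 15) (nat_lit 4) (nat_lit 13) (nat_lit 4) (nat_lit 462) (nat_lit 376) (nat_lit 362)) (XT.lf (nat_lit 0) (nat_lit 25416021448) (nat_lit 152) (nat_lit 13344974146) (nat_lit 0) (nat_lit 24329795723) (nat_lit 13) (nat_lit 5) (nat_lit 15) (nat_lit 4) (nat_lit 13) (nat_lit 4) (nat_lit 463) (nat_lit 376) (nat_lit 361))) (XT.nd (nat_lit 78) (nat_lit 0) (nat_lit 0) (XT.lf (nat_lit 0) (nat_lit 23833828241) (nat_lit 76) (nat_lit 22244830285) (nat_lit 76) (nat_lit 21121562709) (nat_lit 12) (nat_lit 4) (nat_lit 13) (nat_lit 5) (nat_lit 13) (nat_lit 4) (nat_lit 464) (nat_lit 376) (nat_lit 360)) (XT.lf (nat_lit 0) (nat_lit 63379886362) (nat_lit 76) (nat_lit 4715515295) (nat_lit 76) (nat_lit 3557949708) (nat_lit 12) (nat_lit 4) (nat_lit 13) (nat_lit 5) (nat_lit 13) (nat_lit 4) (nat_lit 465) (nat_lit 376) (nat_lit 359)))))) (XT.nd (nat_lit 624) (nat_lit 152) (nat_lit 0) (XT.nd (nat_lit 312) (nat_lit 228)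 (nat_lit 0) (XT.nd (nat_lit 156) (nat_lit 76) (nat_lit 0) (XT.nd (nat_lit 78) (nat_lit 0) (nat_lit 0) (XT.lf (nat_lit 0) (nat_lit 15100246774) (nat_lit 152) (nat_lit 47373760447) (nat_lit 0) (nat_lit 13967558199) (nat_lit 10) (nat_lit 5) (nat_lit 12) (nat_lit 4) (nat_lit 10) (nat_lit 4) (nat_lit 466) (nat_lit 376) (nat_lit 358)) (XT.lf (nat_lit 0) (nat_lit 34868081437) (nat_lit 152) (nat_lit 13047369409) (nat_lit 0) (nat_lit 33707388085) (nat_lit 10) (nat_lit 5) (nat_lit 12) (nat_lit 4) (nat_lit 10) (nat_lit 4) (nat_lit 467) (nat_lit 376) (nat_lit 357))) (XT.nd (nat_lit 78) (nat_lit 0) (nat_lit 0) (XT.lf (nat_lit 0) (nat_lit 23870920216) (nat_lit 76) (nat_lit 32269092377) (nat_lit 76) (nat_lit 31082468676) (nat_lit 9) (nat_lit 4) (nat_lit 10) (nat_lit 5) (nat_lit 10) (nat_lit 4) (nat_lit 468) (nat_lit 376) (nat_lit 356)) (XT.lf (nat_lit 0) (nat_lit 63330264357) (nat_lit 76) (nat_lit 15580310252)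 (nat_lit 76) (nat_lit 14369676968) (nat_lit 9) (nat_lit 4) (nat_lit 10) (nat_lit 5) (nat_lit 10) (nat_lit 4) (nat_lit 469) (nat_lit 376) (nat_lit 355)))) (XT.nd (nat_lit 156) (nat_lit 76) (nat_lit 0) (XT.nd (nat_lit 78) (nat_lit 0) (nat_lit 0) (XT.lf (nat_lit 0) (nat_lit 3275703894) (nat_lit 152) (nat_lit 94456852100) (nat_lit 0) (nat_lit 2101547344) (nat_lit 7) (nat_lit 5) (nat_lit 9) (nat_lit 4) (nat_lit 7) (nat_lit 4) (nat_lit 470) (nat_lit 376) (nat_lit 354)) (XT.lf (nat_lit 0) (nat_lit 22235285578) (nat_lit 152) (nat_lit 63603373987) (nat_lit 0) (nat_lit 21041524887) (nat_lit 7) (nat_lit 5) (nat_lit 9) (nat_lit 4) (nat_lit 7) (nat_lit 4) (nat_lit 471) (nat_lit 376) (nat_lit 353))) (XT.nd (nat_lit 78) (nat_lit 76) (nat_lit 0) (XT.lf (nat_lit 0) (nat_lit 42347104857) (nat_lit 152) (nat_lit 31025881763) (nat_lit 0) (nat_lit 41135192185) (nat_lit 7) (nat_lit 5) (nat_lit 9) (nat_lit 4) (nat_lit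 7) (nat_lit 4) (nat_lit 472) (nat_lit 376) (nat_lit 352)) (XT.lf (nat_lit 0) (nat_lit 3583366483) (nat_lit 76) (nat_lit 60202922792) (nat_lit 76) (nat_lit 58974202730) (nat_lit 6) (nat_lit 4) (nat_lit 7) (nat_lit 5) (nat_lit 7) (nat_lit 4) (nat_lit 473) (nat_lit 376) (nat_lit 351))))) (XT.nd (nat_lit 312) (nat_lit 0) (nat_lit 0) (XT.nd (nat_lit 156) (nat_lit 152) (nat_lit 0) (XT.nd (nat_lit 78) (nat_lit 0) (nat_lit 0) (XT.lf (nat_lit 0) (nat_lit 41410094259) (nat_lit 76) (nat_lit 45748148504) (nat_lit 76) (nat_lit 44503866044) (nat_lit 6) (nat_lit 4) (nat_lit 7) (nat_lit 5) (nat_lit 7) (nat_lit 4) (nat_lit 474) (nat_lit 376) (nat_lit 350)) (XT.lf (nat_lit 0) (nat_lit 81652604183) (nat_lit 76) (nat_lit 30448444155) (nat_lit 76) (nat_lit 29189752066) (nat_lit 6) (nat_lit 4) (nat_lit 7) (nat_lit 5) (nat_lit 7) (nat_lit 4) (nat_lit 475) (nat_lit 376) (nat_lit 349))) (XT.nd (nat_lit 78) (nat_lit 152)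 (nat_lit 0) (XT.lf (nat_lit 0) (nat_lit 124549370387) (nat_lit 76) (nat_lit 14213144829) (nat_lit 76) (nat_lit 12941110492) (nat_lit 6) (nat_lit 4) (nat_lit 7) (nat_lit 5) (nat_lit 7) (nat_lit 4) (nat_lit 476) (nat_lit 376) (nat_lit 348)) (XT.lf (nat_lit 0) (nat_lit 4368358920) (nat_lit 152) (nat_lit 155436969437) (nat_lit 0) (nat_lit 3145131996) (nat_lit 4) (nat_lit 5) (nat_lit 6) (nat_lit 4) (nat_lit 4) (nat_lit 4) (nat_lit 477) (nat_lit 376) (nat_lit 347)))) (XT.nd (nat_lit 156) (nat_lit 0) (nat_lit 0) (XT.nd (nat_lit 78) (nat_lit 0) (nat_lit 0) (XT.lf (nat_lit 0) (nat_lit 23082509901) (nat_lit 152) (nat_lit 130131869853) (nat_lit 0) (nat_lit 21848388855) (nat_lit 4) (nat_lit 5) (nat_lit 6) (nat_lit 4) (nat_lit 4) (nat_lit 4) (nat_lit 478) (nat_lit 376) (nat_lit 346)) (XT.lf (nat_lit 0) (nat_lit 43059378727) (nat_lit 152) (nat_lit 103281233147) (nat_lit 0) (nat_lit 41815170532) (nat_lit 4)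 (nat_lit 5) (nat_lit 6) (nat_lit 4) (nat_lit 4) (nat_lit 4) (nat_lit 479) (nat_lit 376) (nat_lit 345))) (XT.nd (nat_lit 78) (nat_lit 0) (nat_lit 0) (XT.lf (nat_lit 0) (nat_lit 64417346844) (nat_lit 152) (nat_lit 74725944434) (nat_lit 0) (nat_lit 63163798696) (nat_lit 4) (nat_lit 5) (nat_lit 6) (nat_lit 4) (nat_lit 4) (nat_lit 4) (nat_lit 480) (nat_lit 376) (nat_lit 344)) (XT.lf (nat_lit 0) (nat_lit 87282979988) (nat_lit 152) (nat_lit 44296787190) (nat_lit 0) (nat_lit 86020783735) (nat_lit 4) (nat_lit 5) (nat_lit 6) (nat_lit 4) (nat_lit 4) (nat_lit 4) (nat_lit 481) (nat_lit 376) (nat_lit 343))))))) (XT.nd (nat_lit 1248) (nat_lit 0) (nat_lit 0) (XT.nd (nat_lit 624) (nat_lit 152) (nat_lit 0) (XT.nd (nat_lit 312) (nat_lit 0) (nat_lit 0) (XT.nd (nat_lit 156) (nat_lit 0) (nat_lit 0) (XT.nd (nat_lit 78) (nat_lit 76) (nat_lit 0) (XT.lf (nat_lit 0) (nat_lit 111791778207) (nat_lit 152) (nat_lit 11813440481)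 (nat_lit 0) (nat_lit 110521574450) (nat_lit 4) (nat_lit 5) (nat_lit 6) (nat_lit 4) (nat_lit 4) (nat_lit 4) (nat_lit 482) (nat_lit 376) (nat_lit 342)) (XT.lf (nat_lit 0) (nat_lit 23674315543) (nat_lit 76) (nat_lit 114784285694) (nat_lit 76) (nat_lit 113506667581) (nat_lit 3) (nat_lit 4) (nat_lit 4) (nat_lit 5) (nat_lit 4) (nat_lit 4) (nat_lit 483) (nat_lit 376) (nat_lit 341))) (XT.nd (nat_lit 78) (nat_lit 0) (nat_lit 0) (XT.lf (nat_lit 0) (nat_lit 62086258644) (nat_lit 76) (nat_lit 105213498953) (nat_lit 76) (nat_lit 103929015695) (nat_lit 3) (nat_lit 4) (nat_lit 4) (nat_lit 5) (nat_lit 4) (nat_lit 4) (nat_lit 484) (nat_lit 376) (nat_lit 340)) (XT.lf (nat_lit 0) (nat_lit 103259409457) (nat_lit 76) (nat_lit 95036209023) (nat_lit 76) (nat_lit 93745369150) (nat_lit 3) (nat_lit 4) (nat_lit 4) (nat_lit 5) (nat_lit 4) (nat_lit 4) (nat_lit 485) (nat_lit 376) (nat_lit 339)))) (XT.nd (nat_lit 156) (nat_lit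 0) (nat_lit 0) (XT.nd (nat_lit 78) (nat_lit 0) (nat_lit 0) (XT.lf (nat_lit 0) (nat_lit 147437757025) (nat_lit 76) (nat_lit 84192106037) (nat_lit 76) (nat_lit 82895380410) (nat_lit 3) (nat_lit 4) (nat_lit 4) (nat_lit 5) (nat_lit 4) (nat_lit 4) (nat_lit 486) (nat_lit 376) (nat_lit 338)) (XT.lf (nat_lit 0) (nat_lit 194883098962) (nat_lit 76) (nat_lit 72616928646) (nat_lit 76) (nat_lit 71314753245) (nat_lit 3) (nat_lit 4) (nat_lit 4) (nat_lit 5) (nat_lit 4) (nat_lit 4) (nat_lit 487) (nat_lit 376) (nat_lit 337))) (XT.nd (nat_lit 78) (nat_lit 0) (nat_lit 0) (XT.lf (nat_lit 0) (nat_lit 245876592850) (nat_lit 76) (nat_lit 60242083204) (nat_lit 76) (nat_lit 58934861717) (nat_lit 3) (nat_lit 4) (nat_lit 4) (nat_lit 5) (nat_lit 4) (nat_lit 4) (nat_lit 488) (nat_lit 376) (nat_lit 336)) (XT.lf (nat_lit 0) (nat_lit 300720422356) (nat_lit 76) (nat_lit 46994237294) (nat_lit 76) (nat_lit 45682343506) (nat_lit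 3) (nat_lit 4) (nat_lit 4) (nat_lit 5) (nat_lit 4) (nat_lit 4) (nat_lit 489) (nat_lit 376) (nat_lit 335))))) (XT.nd (nat_lit 312) (nat_lit 0) (nat_lit 0) (XT.nd (nat_lit 156) (nat_lit 152) (nat_lit 0) (XT.nd (nat_lit 78) (nat_lit 0) (nat_lit 0) (XT.lf (nat_lit 0) (nat_lit 359739587953) (nat_lit 76) (nat_lit 32794885164) (nat_lit 76) (nat_lit 31478665170) (nat_lit 3) (nat_lit 4) (nat_lit 4) (nat_lit 5) (nat_lit 4) (nat_lit 4) (nat_lit 490) (nat_lit 376) (nat_lit 334)) (XT.lf (nat_lit 0) (nat_lit 423283832842) (nat_lit 76) (nat_lit 17559882503) (nat_lit 76) (nat_lit 16239656763) (nat_lit 3) (nat_lit 4) (nat_lit 4) (nat_lit 5) (nat_lit 4) (nat_lit 4) (nat_lit 491) (nat_lit 376) (nat_lit 333))) (XT.nd (nat_lit 78) (nat_lit 76) (nat_lit 0) (XT.lf (nat_lit 0) (nat_lit 120986584) (nat_lit 152) (nat_lit 1075912264) (nat_lit 76) (nat_lit 491606679962) (nat_lit 2) (nat_lit 5) (nat_lit 4) (nat_lit 5) (nat_lit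 3) (nat_lit 4) (nat_lit 492) (nat_lit 376) (nat_lit 332)) (XT.lf (nat_lit 0) (nat_lit 17960122149) (nat_lit 152) (nat_lit 496675077646) (nat_lit 0) (nat_lit 16695961154) (nat_lit 1) (nat_lit 5) (nat_lit 3) (nat_lit 4) (nat_lit 1) (nat_lit 4) (nat_lit 493) (nat_lit 376) (nat_lit 331)))) (XT.nd (nat_lit 156) (nat_lit 0) (nat_lit 0) (XT.nd (nat_lit 78) (nat_lit 0) (nat_lit 0) (XT.lf (nat_lit 0) (nat_lit 37184173787) (nat_lit 152) (nat_lit 499841902335) (nat_lit 0) (nat_lit 35916984325) (nat_lit 1) (nat_lit 5) (nat_lit 3) (nat_lit 4) (nat_lit 1) (nat_lit 4) (nat_lit 494) (nat_lit 376) (nat_lit 330)) (XT.lf (nat_lit 0) (nat_lit 57870736953) (nat_lit 152) (nat_lit 503416202272) (nat_lit 0) (nat_lit 56600743355) (nat_lit 1) (nat_lit 5) (nat_lit 3) (nat_lit 4) (nat_lit 1) (nat_lit 4) (nat_lit 495) (nat_lit 376) (nat_lit 329))) (XT.nd (nat_lit 78) (nat_lit 0) (nat_lit 0) (XT.lf (nat_lit 0) (nat_lit 80142398689)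 (nat_lit 152) (nat_lit 507419158496) (nat_lit 0) (nat_lit 78869808669) (nat_lit 1) (nat_lit 5) (nat_lit 3) (nat_lit 4) (nat_lit 1) (nat_lit 4) (nat_lit 496) (nat_lit 376) (nat_lit 328)) (XT.lf (nat_lit 0) (nat_lit 104131139212) (nat_lit 152) (nat_lit 511874492227) (nat_lit 0) (nat_lit 102856145098) (nat_lit 1) (nat_lit 5) (nat_lit 3) (nat_lit 4) (nat_lit 1) (nat_lit 4) (nat_lit 497) (nat_lit 376) (nat_lit 327)))))) (XT.nd (nat_lit 624) (nat_lit 0) (nat_lit 0) (XT.nd (nat_lit 312) (nat_lit 0) (nat_lit 0) (XT.nd (nat_lit 156) (nat_lit 0) (nat_lit 0) (XT.nd (nat_lit 78) (nat_lit 0) (nat_lit 0) (XT.lf (nat_lit 0) (nat_lit 129979114022) (nat_lit 152) (nat_lit 516808605444) (nat_lit 0) (nat_lit 128701893893) (nat_lit 1) (nat_lit 5) (nat_lit 3) (nat_lit 4) (nat_lit 1) (nat_lit 4) (nat_lit 498) (nat_lit 376) (nat_lit 326)) (XT.lf (nat_lit 0) (nat_lit 157839496302) (nat_lit 152) (nat_lit 522250737335)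 (nat_lit 0) (nat_lit 156560215050) (nat_lit 1) (nat_lit 5) (nat_lit 3) (nat_lit 4) (nat_lit 1) (nat_lit 4) (nat_lit 499) (nat_lit 376) (nat_lit 325))) (XT.nd (nat_lit 78) (nat_lit 0) (nat_lit 0) (XT.lf (nat_lit 0) (nat_lit 187877384614) (nat_lit 152) (nat_lit 528233137572) (nat_lit 0) (nat_lit 186596194914) (nat_lit 1) (nat_lit 5) (nat_lit 3) (nat_lit 4) (nat_lit 1) (nat_lit 4) (nat_lit 500) (nat_lit 376) (nat_lit 324)) (XT.lf (nat_lit 0) (nat_lit 220270781259) (nat_lit 152) (nat_lit 534791257415) (nat_lit 0) (nat_lit 218987824478) (nat_lit 1) (nat_lit 5) (nat_lit 3) (nat_lit 4) (nat_lit 1) (nat_lit 4) (nat_lit 501) (nat_lit 376) (nat_lit 323)))) (XT.nd (nat_lit 156) (nat_lit 0) (nat_lit 0) (XT.nd (nat_lit 78) (nat_lit 0) (nat_lit 0) (XT.lf (nat_lit 0) (nat_lit 255211647107) (nat_lit 152) (nat_lit 541963959797) (nat_lit 0) (nat_lit 253927054140) (nat_lit 1) (nat_lit 5) (nat_lit 3) (nat_lit 4)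 (nat_lit 1) (nat_lit 4) (nat_lit 502) (nat_lit 376) (nat_lit 322)) (XT.lf (nat_lit 0) (nat_lit 292907039140) (nat_lit 152) (nat_lit 549793749619) (nat_lit 0) (nat_lit 291620931185) (nat_lit 1) (nat_lit 5) (nat_lit 3) (nat_lit 4) (nat_lit 1) (nat_lit 4) (nat_lit 503) (nat_lit 376) (nat_lit 321))) (XT.nd (nat_lit 78) (nat_lit 0) (nat_lit 0) (XT.lf (nat_lit 0) (nat_lit 333580337459) (nat_lit 152) (nat_lit 558327025638) (nat_lit 0) (nat_lit 332292826738) (nat_lit 1) (nat_lit 5) (nat_lit 3) (nat_lit 4) (nat_lit 1) (nat_lit 4) (nat_lit 504) (nat_lit 376) (nat_lit 320)) (XT.lf (nat_lit 0) (nat_lit 377472569017) (nat_lit 152) (nat_lit 567614355415) (nat_lit 0) (nat_lit 376183759439) (nat_lit 1) (nat_lit 5) (nat_lit 3) (nat_lit 4) (nat_lit 1) (nat_lit 4) (nat_lit 505) (nat_lit 376) (nat_lit 319))))) (XT.nd (nat_lit 57954) (nat_lit 0) (nat_lit 2052) (XT.nd (nat_lit 57798) (nat_lit 0) (nat_lit 2660) (XT.nd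 (nat_lit 78) (nat_lit 0) (nat_lit 0) (XT.lf (nat_lit 0) (nat_lit 424843835927) (nat_lit 152) (nat_lit 577710774977) (nat_lit 0) (nat_lit 423553823703) (nat_lit 1) (nat_lit 5) (nat_lit 3) (nat_lit 4) (nat_lit 1) (nat_lit 4) (nat_lit 506) (nat_lit 376) (nat_lit 318)) (XT.lf (nat_lit 0) (nat_lit 475974856808) (nat_lit 152) (nat_lit 588676114959) (nat_lit 0) (nat_lit 474683731023) (nat_lit 1) (nat_lit 5) (nat_lit 3) (nat_lit 4) (nat_lit 1) (nat_lit 4) (nat_lit 507) (nat_lit 376) (nat_lit 317))) (XT.nd (nat_lit 78) (nat_lit 76) (nat_lit 0) (XT.lf (nat_lit 0) (nat_lit 4033917011) (nat_lit 152) (nat_lit 4628250326) (nat_lit 0) (nat_lit 4033917011) (nat_lit 37) (nat_lit 5) (nat_lit 39) (nat_lit 4) (nat_lit 37) (nat_lit 4) (nat_lit 446) (nat_lit 377) (nat_lit 377)) (XT.lf (nat_lit 0) (nat_lit 24413310335) (nat_lit 76) (nat_lit 1171970336) (nat_lit 76) (nat_lit 984476428) (nat_lit 36) (nat_lit 4) (nat_lit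 37) (nat_lit 5) (nat_lit 37) (nat_lit 4) (nat_lit 447) (nat_lit 377) (nat_lit 376)))) (XT.nd (nat_lit 156) (nat_lit 228) (nat_lit 0) (XT.nd (nat_lit 78) (nat_lit 152) (nat_lit 0) (XT.lf (nat_lit 0) (nat_lit 4369688039) (nat_lit 76) (nat_lit 11897923316) (nat_lit 76) (nat_lit 11554019146) (nat_lit 33) (nat_lit 4) (nat_lit 34) (nat_lit 5) (nat_lit 34) (nat_lit 4) (nat_lit 448) (nat_lit 377) (nat_lit 375)) (XT.lf (nat_lit 0) (nat_lit 5452848803) (nat_lit 152) (nat_lit 18738910948) (nat_lit 0) (nat_lit 4979519837) (nat_lit 31) (nat_lit 5) (nat_lit 33) (nat_lit 4) (nat_lit 31) (nat_lit 4) (nat_lit 449) (nat_lit 377) (nat_lit 374))) (XT.nd (nat_lit 78) (nat_lit 152) (nat_lit 0) (XT.lf (nat_lit 0) (nat_lit 15643755753) (nat_lit 76) (nat_lit 7791508464) (nat_lit 76) (nat_lit 7183178401) (nat_lit 30) (nat_lit 4) (nat_lit 31) (nat_lit 5) (nat_lit 31) (nat_lit 4) (nat_lit 450) (nat_lit 377) (nat_lit 373))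 (XT.lf (nat_lit 0) (nat_lit 10311822464) (nat_lit 152) (nat_lit 12248883470) (nat_lit 0) (nat_lit 9613411913) (nat_lit 28) (nat_lit 5) (nat_lit 30) (nat_lit 4) (nat_lit 28) (nat_lit 4) (nat_lit 451) (nat_lit 377) (nat_lit 372))))))))
noncomputable def xc15 : XT := (XT.nd (nat_lit 2496) (nat_lit 228) (nat_lit 0) (XT.nd (nat_lit 1248) (nat_lit 456) (nat_lit 0) (XT.nd (nat_lit 624) (nat_lit 608) (nat_lit 0) (XT.nd (nat_lit 312) (nat_lit 304) (nat_lit 0) (XT.nd (nat_lit 156) (nat_lit 228) (nat_lit 0) (XT.nd (nat_lit 78) (nat_lit 152) (nat_lit 0) (XT.lf (nat_lit 0) (nat_lit 23177309347) (nat_lit 76) (nat_lit 5740763407) (nat_lit 76) (nat_lit 4932122683) (nat_lit 27) (nat_lit 4) (nat_lit 28) (nat_lit 5) (nat_lit 28) (nat_lit 4) (nat_lit 452) (nat_lit 377) (nat_lit 371)) (XT.lf (nat_lit 0) (nat_lit 12955155042) (nat_lit 152) (nat_lit 10605463392) (nat_lit 0) (nat_lit 12087816282) (nat_lit 25) (nat_lit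 5) (nat_lit 27) (nat_lit 4) (nat_lit 25) (nat_lit 4) (nat_lit 453) (nat_lit 377) (nat_lit 370))) (XT.nd (nat_lit 78) (nat_lit 152) (nat_lit 0) (XT.lf (nat_lit 0) (nat_lit 25519215186) (nat_lit 76) (nat_lit 6513995116) (nat_lit 76) (nat_lit 5556651970) (nat_lit 24) (nat_lit 4) (nat_lit 25) (nat_lit 5) (nat_lit 25) (nat_lit 4) (nat_lit 454) (nat_lit 377) (nat_lit 369)) (XT.lf (nat_lit 0) (nat_lit 12557689741) (nat_lit 152) (nat_lit 15551175520) (nat_lit 0) (nat_lit 11566565416) (nat_lit 22) (nat_lit 5) (nat_lit 24) (nat_lit 4) (nat_lit 22) (nat_lit 4) (nat_lit 455) (nat_lit 377) (nat_lit 368)))) (XT.nd (nat_lit 156) (nat_lit 76) (nat_lit 0) (XT.nd (nat_lit 78) (nat_lit 152) (nat_lit 0) (XT.lf (nat_lit 0) (nat_lit 20737901238) (nat_lit 76) (nat_lit 11126553161) (nat_lit 76) (nat_lit 10061939069) (nat_lit 21) (nat_lit 4) (nat_lit 22) (nat_lit 5) (nat_lit 22) (nat_lit 4) (nat_lit 456) (nat_lit 377)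 (nat_lit 367)) (XT.lf (nat_lit 0) (nat_lit 8021582900) (nat_lit 152) (nat_lit 29389928960) (nat_lit 0) (nat_lit 6942858926) (nat_lit 19) (nat_lit 5) (nat_lit 21) (nat_lit 4) (nat_lit 19) (nat_lit 4) (nat_lit 457) (nat_lit 377) (nat_lit 366))) (XT.nd (nat_lit 78) (nat_lit 0) (nat_lit 0) (XT.lf (nat_lit 0) (nat_lit 6277147214) (nat_lit 76) (nat_lit 20915135525) (nat_lit 76) (nat_lit 19776406190) (nat_lit 18) (nat_lit 4) (nat_lit 19) (nat_lit 5) (nat_lit 19) (nat_lit 4) (nat_lit 458) (nat_lit 377) (nat_lit 365)) (XT.lf (nat_lit 0) (nat_lit 44538023329) (nat_lit 76) (nat_lit 3227488165) (nat_lit 76) (nat_lit 2033198310) (nat_lit 18) (nat_lit 4) (nat_lit 19) (nat_lit 5) (nat_lit 19) (nat_lit 4) (nat_lit 459) (nat_lit 377) (nat_lit 364))))) (XT.nd (nat_lit 312) (nat_lit 228) (nat_lit 0) (XT.nd (nat_lit 156) (nat_lit 152) (nat_lit 0) (XT.nd (nat_lit 78) (nat_lit 76) (nat_lit 0) (XT.lf (nat_lit 0) (nat_lit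 16734938170) (nat_lit 152) (nat_lit 20550612861) (nat_lit 0) (nat_lit 15548524093) (nat_lit 16) (nat_lit 5) (nat_lit 18) (nat_lit 4) (nat_lit 16) (nat_lit 4) (nat_lit 460) (nat_lit 377) (nat_lit 363)) (XT.lf (nat_lit 0) (nat_lit 16139527611) (nat_lit 76) (nat_lit 20606119251) (nat_lit 76) (nat_lit 19374339278) (nat_lit 15) (nat_lit 4) (nat_lit 16) (nat_lit 5) (nat_lit 16) (nat_lit 4) (nat_lit 461) (nat_lit 377) (nat_lit 362))) (XT.nd (nat_lit 78) (nat_lit 152) (nat_lit 0) (XT.lf (nat_lit 0) (nat_lit 55352661376) (nat_lit 76) (nat_lit 2800059676) (nat_lit 76) (nat_lit 1526274244) (nat_lit 15) (nat_lit 4) (nat_lit 16) (nat_lit 5) (nat_lit 16) (nat_lit 4) (nat_lit 462) (nat_lit 377) (nat_lit 361)) (XT.lf (nat_lit 0) (nat_lit 17442788895) (nat_lit 152) (nat_lit 29860400165) (nat_lit 0) (nat_lit 16192618061) (nat_lit 13) (nat_lit 5) (nat_lit 15) (nat_lit 4) (nat_lit 13) (nat_lit 4) (nat_lit 463) (nat_lit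 377) (nat_lit 360)))) (XT.nd (nat_lit 156) (nat_lit 152) (nat_lit 0) (XT.nd (nat_lit 78) (nat_lit 0) (nat_lit 0) (XT.lf (nat_lit 0) (nat_lit 6251369392) (nat_lit 76) (nat_lit 31332214437) (nat_lit 76) (nat_lit 30047745593) (nat_lit 12) (nat_lit 4) (nat_lit 13) (nat_lit 5) (nat_lit 13) (nat_lit 4) (nat_lit 464) (nat_lit 377) (nat_lit 359)) (XT.lf (nat_lit 0) (nat_lit 45315058753) (nat_lit 76) (nat_lit 14048727183) (nat_lit 76) (nat_lit 12732500921) (nat_lit 12) (nat_lit 4) (nat_lit 13) (nat_lit 5) (nat_lit 13) (nat_lit 4) (nat_lit 465) (nat_lit 377) (nat_lit 358))) (XT.nd (nat_lit 78) (nat_lit 0) (nat_lit 0) (XT.lf (nat_lit 0) (nat_lit 5536549555) (nat_lit 152) (nat_lit 67134257095) (nat_lit 0) (nat_lit 4254995958) (nat_lit 10) (nat_lit 5) (nat_lit 12) (nat_lit 4) (nat_lit 10) (nat_lit 4) (nat_lit 466) (nat_lit 377) (nat_lit 357)) (XT.lf (nat_lit 0) (nat_lit 25088027371) (nat_lit 152) (nat_lit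 33249323373) (nat_lit 0) (nat_lit 23780543425) (nat_lit 10) (nat_lit 5) (nat_lit 12) (nat_lit 4) (nat_lit 10) (nat_lit 4) (nat_lit 467) (nat_lit 377) (nat_lit 356)))))) (XT.nd (nat_lit 624) (nat_lit 152) (nat_lit 0) (XT.nd (nat_lit 312) (nat_lit 76) (nat_lit 0) (XT.nd (nat_lit 156) (nat_lit 152) (nat_lit 0) (XT.nd (nat_lit 78) (nat_lit 0) (nat_lit 0) (XT.lf (nat_lit 0) (nat_lit 2578726300) (nat_lit 76) (nat_lit 43248470994) (nat_lit 76) (nat_lit 41916977466) (nat_lit 9) (nat_lit 4) (nat_lit 10) (nat_lit 5) (nat_lit 10) (nat_lit 4) (nat_lit 468) (nat_lit 377) (nat_lit 355)) (XT.lf (nat_lit 0) (nat_lit 41647077737) (nat_lit 76) (nat_lit 26759085957) (nat_lit 76) (nat_lit 25405361334) (nat_lit 9) (nat_lit 4) (nat_lit 10) (nat_lit 5) (nat_lit 10) (nat_lit 4) (nat_lit 469) (nat_lit 377) (nat_lit 354))) (XT.nd (nat_lit 78) (nat_lit 152) (nat_lit 0) (XT.lf (nat_lit 0) (nat_lit 83087874305) (nat_lit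 76) (nat_lit 9334574136) (nat_lit 76) (nat_lit 7960265166) (nat_lit 9) (nat_lit 4) (nat_lit 10) (nat_lit 5) (nat_lit 10) (nat_lit 4) (nat_lit 470) (nat_lit 377) (nat_lit 353)) (XT.lf (nat_lit 0) (nat_lit 10649579598) (nat_lit 152) (nat_lit 87493093195) (nat_lit 0) (nat_lit 9322561931) (nat_lit 7) (nat_lit 5) (nat_lit 9) (nat_lit 4) (nat_lit 7) (nat_lit 4) (nat_lit 471) (nat_lit 377) (nat_lit 352)))) (XT.nd (nat_lit 156) (nat_lit 76) (nat_lit 0) (XT.nd (nat_lit 78) (nat_lit 0) (nat_lit 0) (XT.lf (nat_lit 0) (nat_lit 30599126380) (nat_lit 152) (nat_lit 55246915135) (nat_lit 0) (nat_lit 29255301323) (nat_lit 7) (nat_lit 5) (nat_lit 9) (nat_lit 4) (nat_lit 7) (nat_lit 4) (nat_lit 472) (nat_lit 377) (nat_lit 351)) (XT.lf (nat_lit 0) (nat_lit 51832112094) (nat_lit 152) (nat_lit 21059129368) (nat_lit 0) (nat_lit 50472724638) (nat_lit 7) (nat_lit 5) (nat_lit 9) (nat_lit 4) (nat_lit 7) (nat_lit 4) (nat_lit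 473) (nat_lit 377) (nat_lit 350))) (XT.nd (nat_lit 78) (nat_lit 0) (nat_lit 0) (XT.lf (nat_lit 0) (nat_lit 15777848064) (nat_lit 76) (nat_lit 58942850201) (nat_lit 76) (nat_lit 57569053117) (nat_lit 6) (nat_lit 4) (nat_lit 7) (nat_lit 5) (nat_lit 7) (nat_lit 4) (nat_lit 474) (nat_lit 377) (nat_lit 349)) (XT.lf (nat_lit 0) (nat_lit 55748653895) (nat_lit 76) (nat_lit 43781790741) (nat_lit 76) (nat_lit 42394651409) (nat_lit 6) (nat_lit 4) (nat_lit 7) (nat_lit 5) (nat_lit 7) (nat_lit 4) (nat_lit 475) (nat_lit 377) (nat_lit 348))))) (XT.nd (nat_lit 312) (nat_lit 0) (nat_lit 0) (XT.nd (nat_lit 156) (nat_lit 152) (nat_lit 0) (XT.nd (nat_lit 78) (nat_lit 0) (nat_lit 0) (XT.lf (nat_lit 0) (nat_lit 98393842235) (nat_lit 76) (nat_lit 27674866314) (nat_lit 76) (nat_lit 26275373048) (nat_lit 6) (nat_lit 4) (nat_lit 7) (nat_lit 5) (nat_lit 7) (nat_lit 4) (nat_lit 476) (nat_lit 377) (nat_lit 347)) (XT.lf (nat_lit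 0) (nat_lit 143966125311) (nat_lit 76) (nat_lit 10526628477) (nat_lit 76) (nat_lit 9115696384) (nat_lit 6) (nat_lit 4) (nat_lit 7) (nat_lit 5) (nat_lit 7) (nat_lit 4) (nat_lit 477) (nat_lit 377) (nat_lit 346))) (XT.nd (nat_lit 78) (nat_lit 0) (nat_lit 0) (XT.lf (nat_lit 0) (nat_lit 9291159162) (nat_lit 152) (nat_lit 158529340996) (nat_lit 0) (nat_lit 7937327162) (nat_lit 4) (nat_lit 5) (nat_lit 6) (nat_lit 4) (nat_lit 4) (nat_lit 4) (nat_lit 478) (nat_lit 377) (nat_lit 345)) (XT.lf (nat_lit 0) (nat_lit 29163676923) (nat_lit 152) (nat_lit 131891876853) (nat_lit 0) (nat_lit 27800504970) (nat_lit 4) (nat_lit 5) (nat_lit 6) (nat_lit 4) (nat_lit 4) (nat_lit 4) (nat_lit 479) (nat_lit 377) (nat_lit 344)))) (XT.nd (nat_lit 156) (nat_lit 0) (nat_lit 0) (XT.nd (nat_lit 78) (nat_lit 0) (nat_lit 0) (XT.lf (nat_lit 0) (nat_lit 50425023683) (nat_lit 152) (nat_lit 103533970143) (nat_lit 0) (nat_lit 49053203625)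 (nat_lit 4) (nat_lit 5) (nat_lit 6) (nat_lit 4) (nat_lit 4) (nat_lit 4) (nat_lit 480) (nat_lit 377) (nat_lit 343)) (XT.lf (nat_lit 0) (nat_lit 73201192607) (nat_lit 152) (nat_lit 73287574011) (nat_lit 0) (nat_lit 71821365045) (nat_lit 4) (nat_lit 5) (nat_lit 6) (nat_lit 4) (nat_lit 4) (nat_lit 4) (nat_lit 481) (nat_lit 377) (nat_lit 342))) (XT.nd (nat_lit 78) (nat_lit 0) (nat_lit 0) (XT.lf (nat_lit 0) (nat_lit 97627153586) (nat_lit 152) (nat_lit 40973450556) (nat_lit 0) (nat_lit 96239911668) (nat_lit 4) (nat_lit 5) (nat_lit 6) (nat_lit 4) (nat_lit 4) (nat_lit 4) (nat_lit 482) (nat_lit 377) (nat_lit 341)) (XT.lf (nat_lit 0) (nat_lit 123847653056) (nat_lit 152) (nat_lit 6400108674) (nat_lit 0) (nat_lit 122453545994) (nat_lit 4) (nat_lit 5) (nat_lit 6) (nat_lit 4) (nat_lit 4) (nat_lit 4) (nat_lit 483) (nat_lit 377) (nat_lit 340))))))) (XT.nd (nat_lit 1248) (nat_lit 0) (nat_lit 0) (XT.nd (nat_lit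 624) (nat_lit 152) (nat_lit 0) (XT.nd (nat_lit 312) (nat_lit 0) (nat_lit 0) (XT.nd (nat_lit 156) (nat_lit 0) (nat_lit 0) (XT.nd (nat_lit 78) (nat_lit 0) (nat_lit 0) (XT.lf (nat_lit 0) (nat_lit 31650339210) (nat_lit 76) (nat_lit 120861883038) (nat_lit 76) (nat_lit 119461419360) (nat_lit 3) (nat_lit 4) (nat_lit 4) (nat_lit 5) (nat_lit 4) (nat_lit 4) (nat_lit 484) (nat_lit 377) (nat_lit 339)) (XT.lf (nat_lit 0) (nat_lit 72684713432) (nat_lit 76) (nat_lit 110755444136) (nat_lit 76) (nat_lit 109349094704) (nat_lit 3) (nat_lit 4) (nat_lit 4) (nat_lit 5) (nat_lit 4) (nat_lit 4) (nat_lit 485) (nat_lit 377) (nat_lit 338))) (XT.nd (nat_lit 78) (nat_lit 0) (nat_lit 0) (XT.lf (nat_lit 0) (nat_lit 116734564155) (nat_lit 76) (nat_lit 99976943955) (nat_lit 76) (nat_lit 98565144749) (nat_lit 3) (nat_lit 4) (nat_lit 4) (nat_lit 5) (nat_lit 4) (nat_lit 4) (nat_lit 486) (nat_lit 377) (nat_lit 337)) (XT.lf (nat_lit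 0) (nat_lit 164060927532) (nat_lit 76) (nat_lit 88462509900) (nat_lit 76) (nat_lit 87045664609) (nat_lit 3) (nat_lit 4) (nat_lit 4) (nat_lit 5) (nat_lit 4) (nat_lit 4) (nat_lit 487) (nat_lit 377) (nat_lit 336)))) (XT.nd (nat_lit 156) (nat_lit 0) (nat_lit 0) (XT.nd (nat_lit 78) (nat_lit 0) (nat_lit 0) (XT.lf (nat_lit 0) (nat_lit 214944256087) (nat_lit 76) (nat_lit 76143908289) (nat_lit 76) (nat_lit 74722390695) (nat_lit 3) (nat_lit 4) (nat_lit 4) (nat_lit 5) (nat_lit 4) (nat_lit 4) (nat_lit 488) (nat_lit 377) (nat_lit 335)) (XT.lf (nat_lit 0) (nat_lit 269686080656) (nat_lit 76) (nat_lit 62948140000) (nat_lit 76) (nat_lit 61522296202) (nat_lit 3) (nat_lit 4) (nat_lit 4) (nat_lit 5) (nat_lit 4) (nat_lit 4) (nat_lit 489) (nat_lit 377) (nat_lit 334))) (XT.nd (nat_lit 78) (nat_lit 0) (nat_lit 0) (XT.lf (nat_lit 0) (nat_lit 328610797236) (nat_lit 76) (nat_lit 48797007889) (nat_lit 76) (nat_lit 47367158345)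 (nat_lit 3) (nat_lit 4) (nat_lit 4) (nat_lit 5) (nat_lit 4) (nat_lit 4) (nat_lit 490) (nat_lit 377) (nat_lit 333)) (XT.lf (nat_lit 0) (nat_lit 392067589333) (nat_lit 76) (nat_lit 33606653395) (nat_lit 76) (nat_lit 32173094826) (nat_lit 3) (nat_lit 4) (nat_lit 4) (nat_lit 5) (nat_lit 4) (nat_lit 4) (nat_lit 491) (nat_lit 377) (nat_lit 332))))) (XT.nd (nat_lit 312) (nat_lit 0) (nat_lit 0) (XT.nd (nat_lit 156) (nat_lit 0) (nat_lit 0) (XT.nd (nat_lit 78) (nat_lit 152) (nat_lit 0) (XT.lf (nat_lit 0) (nat_lit 460432497195) (nat_lit 76) (nat_lit 17287059601) (nat_lit 76) (nat_lit 15850066752) (nat_lit 3) (nat_lit 4) (nat_lit 4) (nat_lit 5) (nat_lit 4) (nat_lit 4) (nat_lit 492) (nat_lit 377) (nat_lit 331)) (XT.lf (nat_lit 0) (nat_lit 1680407214) (nat_lit 152) (nat_lit 530161155702) (nat_lit 0) (nat_lit 308814128) (nat_lit 1) (nat_lit 5) (nat_lit 3) (nat_lit 4) (nat_lit 1) (nat_lit 4) (nat_lit 493) (nat_lit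 377) (nat_lit 330))) (XT.nd (nat_lit 78) (nat_lit 0) (nat_lit 0) (XT.lf (nat_lit 0) (nat_lit 20868202793) (nat_lit 152) (nat_lit 533402081003) (nat_lit 0) (nat_lit 19493805572) (nat_lit 1) (nat_lit 5) (nat_lit 3) (nat_lit 4) (nat_lit 1) (nat_lit 4) (nat_lit 494) (nat_lit 377) (nat_lit 329)) (XT.lf (nat_lit 0) (nat_lit 41521195535) (nat_lit 152) (nat_lit 537044992619) (nat_lit 0) (nat_lit 40144201891) (nat_lit 1) (nat_lit 5) (nat_lit 3) (nat_lit 4) (nat_lit 1) (nat_lit 4) (nat_lit 495) (nat_lit 377) (nat_lit 328)))) (XT.nd (nat_lit 156) (nat_lit 0) (nat_lit 0) (XT.nd (nat_lit 78) (nat_lit 0) (nat_lit 0) (XT.lf (nat_lit 0) (nat_lit 63761773544) (nat_lit 152) (nat_lit 541111478174) (nat_lit 0) (nat_lit 62382375805) (nat_lit 1) (nat_lit 5) (nat_lit 3) (nat_lit 4) (nat_lit 1) (nat_lit 4) (nat_lit 496) (nat_lit 377) (nat_lit 327)) (XT.lf (nat_lit 0) (nat_lit 87721732838) (nat_lit 152) (nat_lit 545625635360)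 (nat_lit 0) (nat_lit 86340109086) (nat_lit 1) (nat_lit 5) (nat_lit 3) (nat_lit 4) (nat_lit 1) (nat_lit 4) (nat_lit 497) (nat_lit 377) (nat_lit 326))) (XT.nd (nat_lit 78) (nat_lit 0) (nat_lit 0) (XT.lf (nat_lit 0) (nat_lit 113543058362) (nat_lit 152) (nat_lit 550614214739) (nat_lit 0) (nat_lit 112159373486) (nat_lit 1) (nat_lit 5) (nat_lit 3) (nat_lit 4) (nat_lit 1) (nat_lit 4) (nat_lit 498) (nat_lit 377) (nat_lit 325)) (XT.lf (nat_lit 0) (nat_lit 141378765377) (nat_lit 152) (nat_lit 556106778263) (nat_lit 0) (nat_lit 139993172054) (nat_lit 1) (nat_lit 5) (nat_lit 3) (nat_lit 4) (nat_lit 1) (nat_lit 4) (nat_lit 499) (nat_lit 377) (nat_lit 324)))))) (XT.nd (nat_lit 58110) (nat_lit 0) (nat_lit 2052) (XT.nd (nat_lit 312) (nat_lit 0) (nat_lit 0) (XT.nd (nat_lit 156) (nat_lit 0) (nat_lit 0) (XT.nd (nat_lit 78) (nat_lit 0) (nat_lit 0) (XT.lf (nat_lit 0) (nat_lit 171393806222) (nat_lit 152) (nat_lit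 562135874455) (nat_lit 0) (nat_lit 170006445818) (nat_lit 1) (nat_lit 5) (nat_lit 3) (nat_lit 4) (nat_lit 1) (nat_lit 4) (nat_lit 500) (nat_lit 377) (nat_lit 323)) (XT.lf (nat_lit 0) (nat_lit 203766047806) (nat_lit 152) (nat_lit 568737231294) (nat_lit 0) (nat_lit 202377051215) (nat_lit 1) (nat_lit 5) (nat_lit 3) (nat_lit 4) (nat_lit 1) (nat_lit 4) (nat_lit 501) (nat_lit 377) (nat_lit 322))) (XT.nd (nat_lit 78) (nat_lit 0) (nat_lit 0) (XT.lf (nat_lit 0) (nat_lit 238687325633) (nat_lit 152) (nat_lit 575949967930) (nat_lit 0) (nat_lit 237296814055) (nat_lit 1) (nat_lit 5) (nat_lit 3) (nat_lit 4) (nat_lit 1) (nat_lit 4) (nat_lit 502) (nat_lit 377) (nat_lit 321)) (XT.lf (nat_lit 0) (nat_lit 276364580610) (nat_lit 152) (nat_lit 583816826508) (nat_lit 0) (nat_lit 274972666265) (nat_lit 1) (nat_lit 5) (nat_lit 3) (nat_lit 4) (nat_lit 1) (nat_lit 4) (nat_lit 503) (nat_lit 377) (nat_lit 320)))) (XT.nd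 (nat_lit 156) (nat_lit 0) (nat_lit 0) (XT.nd (nat_lit 78) (nat_lit 0) (nat_lit 0) (XT.lf (nat_lit 0) (nat_lit 317021085359) (nat_lit 152) (nat_lit 592384425448) (nat_lit 0) (nat_lit 315627872157) (nat_lit 1) (nat_lit 5) (nat_lit 3) (nat_lit 4) (nat_lit 1) (nat_lit 4) (nat_lit 504) (nat_lit 377) (nat_lit 319)) (XT.lf (nat_lit 0) (nat_lit 360897767314) (nat_lit 152) (nat_lit 601703535707) (nat_lit 0) (nat_lit 359503351467) (nat_lit 1) (nat_lit 5) (nat_lit 3) (nat_lit 4) (nat_lit 1) (nat_lit 4) (nat_lit 505) (nat_lit 377) (nat_lit 318))) (XT.nd (nat_lit 78) (nat_lit 0) (nat_lit 0) (XT.lf (nat_lit 0) (nat_lit 408254636445) (nat_lit 152) (nat_lit 611829381642) (nat_lit 0) (nat_lit 406859107036) (nat_lit 1) (nat_lit 5) (nat_lit 3) (nat_lit 4) (nat_lit 1) (nat_lit 4) (nat_lit 506) (nat_lit 377) (nat_lit 317)) (XT.lf (nat_lit 0) (nat_lit 459372326048) (nat_lit 152) (nat_lit 622821968266) (nat_lit 0)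 (nat_lit 457975765564) (nat_lit 1) (nat_lit 5) (nat_lit 3) (nat_lit 4) (nat_lit 1) (nat_lit 4) (nat_lit 507) (nat_lit 377) (nat_lit 316))))) (XT.nd (nat_lit 312) (nat_lit 608) (nat_lit 0) (XT.nd (nat_lit 156) (nat_lit 228) (nat_lit 0) (XT.nd (nat_lit 78) (nat_lit 228) (nat_lit 0) (XT.lf (nat_lit 0) (nat_lit 11411220358) (nat_lit 76) (nat_lit 109757960) (nat_lit 76) (nat_lit 109757960) (nat_lit 42) (nat_lit 4) (nat_lit 43) (nat_lit 5) (nat_lit 43) (nat_lit 4) (nat_lit 444) (nat_lit 378) (nat_lit 378)) (XT.lf (nat_lit 0) (nat_lit 7549073359) (nat_lit 76) (nat_lit 8480801596) (nat_lit 76) (nat_lit 8268183504) (nat_lit 39) (nat_lit 4) (nat_lit 40) (nat_lit 5) (nat_lit 40) (nat_lit 4) (nat_lit 445) (nat_lit 378) (nat_lit 377))) (XT.nd (nat_lit 78) (nat_lit 76) (nat_lit 0) (XT.lf (nat_lit 0) (nat_lit 7847710908) (nat_lit 152) (nat_lit 10107866541) (nat_lit 0) (nat_lit 7457723579) (nat_lit 37) (nat_lit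 5) (nat_lit 39) (nat_lit 4) (nat_lit 37) (nat_lit 4) (nat_lit 446) (nat_lit 378) (nat_lit 376)) (XT.lf (nat_lit 0) (nat_lit 22719427878) (nat_lit 76) (nat_lit 2227971819) (nat_lit 76) (nat_lit 1664379019) (nat_lit 36) (nat_lit 4) (nat_lit 37) (nat_lit 5) (nat_lit 37) (nat_lit 4) (nat_lit 447) (nat_lit 378) (nat_lit 375)))) (XT.nd (nat_lit 156) (nat_lit 228) (nat_lit 0) (XT.nd (nat_lit 78) (nat_lit 152) (nat_lit 0) (XT.lf (nat_lit 0) (nat_lit 1668718847) (nat_lit 76) (nat_lit 13454804440) (nat_lit 76) (nat_lit 12764958149) (nat_lit 33) (nat_lit 4) (nat_lit 34) (nat_lit 5) (nat_lit 34) (nat_lit 4) (nat_lit 448) (nat_lit 378) (nat_lit 374)) (XT.lf (nat_lit 0) (nat_lit 3804401681) (nat_lit 152) (nat_lit 22446084402) (nat_lit 0) (nat_lit 3012404116) (nat_lit 31) (nat_lit 5) (nat_lit 33) (nat_lit 4) (nat_lit 31) (nat_lit 4) (nat_lit 449) (nat_lit 378) (nat_lit 373))) (XT.nd (nat_lit 78) (nat_lit 152)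 (nat_lit 0) (XT.lf (nat_lit 0) (nat_lit 11027060978) (nat_lit 76) (nat_lit 10311209581) (nat_lit 76) (nat_lit 9394211000) (nat_lit 30) (nat_lit 4) (nat_lit 31) (nat_lit 5) (nat_lit 31) (nat_lit 4) (nat_lit 450) (nat_lit 378) (nat_lit 372)) (XT.lf (nat_lit 0) (nat_lit 7670808833) (nat_lit 152) (nat_lit 17956865577) (nat_lit 0) (nat_lit 6687246679) (nat_lit 28) (nat_lit 5) (nat_lit 30) (nat_lit 4) (nat_lit 28) (nat_lit 4) (nat_lit 451) (nat_lit 378) (nat_lit 371))))))))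
noncomputable def xc16 : XT := (XT.nd (nat_lit 2418) (nat_lit 228) (nat_lit 0) (XT.nd (nat_lit 1170) (nat_lit 608) (nat_lit 0) (XT.nd (nat_lit 546) (nat_lit 532) (nat_lit 0) (XT.nd (nat_lit 234) (nat_lit 380) (nat_lit 0) (XT.nd (nat_lit 78) (nat_lit 228) (nat_lit 0) (XT.lf (nat_lit 0) (nat_lit 16536324448) (nat_lit 76) (nat_lit 9281628738) (nat_lit 76) (nat_lit 8196001609) (nat_lit 27) (nat_lit 4) (nat_lit 28) (nat_lit 5) (nat_lit 28) (nat_lit 4) (nat_lit 452) (nat_lit 378) (nat_lit 370)) (XT.nd (nat_lit 78) (nat_lit 76) (nat_lit 0) (XT.lf (nat_lit 0) (nat_lit 9266449775) (nat_lit 152) (nat_lit 18432242688) (nat_lit 0) (nat_lit 8142514790) (nat_lit 25) (nat_lit 5) (nat_lit 27) (nat_lit 4) (nat_lit 25) (nat_lit 4) (nat_lit 453) (nat_lit 378) (nat_lit 369)) (XT.lf (nat_lit 0) (nat_lit 16729792833) (nat_lit 76) (nat_lit 11141878358) (nat_lit 76) (nat_lit 9934605978) (nat_lit 24) (nat_lit 4) (nat_lit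 25) (nat_lit 5) (nat_lit 25) (nat_lit 4) (nat_lit 454) (nat_lit 378) (nat_lit 368)))) (XT.nd (nat_lit 156) (nat_lit 152) (nat_lit 0) (XT.nd (nat_lit 78) (nat_lit 76) (nat_lit 0) (XT.lf (nat_lit 0) (nat_lit 7757671770) (nat_lit 152) (nat_lit 25631302508) (nat_lit 0) (nat_lit 6534398785) (nat_lit 22) (nat_lit 5) (nat_lit 24) (nat_lit 4) (nat_lit 22) (nat_lit 4) (nat_lit 455) (nat_lit 378) (nat_lit 367)) (XT.lf (nat_lit 0) (nat_lit 9658893467) (nat_lit 76) (nat_lit 16915628852) (nat_lit 76) (nat_lit 15624309786) (nat_lit 21) (nat_lit 4) (nat_lit 22) (nat_lit 5) (nat_lit 22) (nat_lit 4) (nat_lit 456) (nat_lit 378) (nat_lit 366))) (XT.nd (nat_lit 78) (nat_lit 0) (nat_lit 0) (XT.lf (nat_lit 0) (nat_lit 2037474708) (nat_lit 152) (nat_lit 41876024147) (nat_lit 0) (nat_lit 747641664) (nat_lit 19) (nat_lit 5) (nat_lit 21) (nat_lit 4) (nat_lit 19) (nat_lit 4) (nat_lit 457) (nat_lit 378) (nat_lit 365)) (XT.lf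 (nat_lit 0) (nat_lit 20810823377) (nat_lit 152) (nat_lit 7019073475) (nat_lit 0) (nat_lit 19465429814) (nat_lit 19) (nat_lit 5) (nat_lit 21) (nat_lit 4) (nat_lit 19) (nat_lit 4) (nat_lit 458) (nat_lit 378) (nat_lit 364))))) (XT.nd (nat_lit 312) (nat_lit 228) (nat_lit 0) (XT.nd (nat_lit 156) (nat_lit 76) (nat_lit 0) (XT.nd (nat_lit 78) (nat_lit 152) (nat_lit 0) (XT.lf (nat_lit 0) (nat_lit 30426978636) (nat_lit 76) (nat_lit 10557590967) (nat_lit 76) (nat_lit 9160752478) (nat_lit 18) (nat_lit 4) (nat_lit 19) (nat_lit 5) (nat_lit 19) (nat_lit 4) (nat_lit 459) (nat_lit 378) (nat_lit 363)) (XT.lf (nat_lit 0) (nat_lit 9201295316) (nat_lit 152) (nat_lit 36191060200) (nat_lit 0) (nat_lit 7825607050) (nat_lit 16) (nat_lit 5) (nat_lit 18) (nat_lit 4) (nat_lit 16) (nat_lit 4) (nat_lit 460) (nat_lit 378) (nat_lit 362))) (XT.nd (nat_lit 78) (nat_lit 76) (nat_lit 0) (XT.lf (nat_lit 0) (nat_lit 28698205275)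 (nat_lit 152) (nat_lit 550847031) (nat_lit 0) (nat_lit 27280511549) (nat_lit 16) (nat_lit 5) (nat_lit 18) (nat_lit 4) (nat_lit 16) (nat_lit 4) (nat_lit 461) (nat_lit 378) (nat_lit 361)) (XT.lf (nat_lit 0) (nat_lit 38133890861) (nat_lit 76) (nat_lit 11712116860) (nat_lit 76) (nat_lit 10255529190) (nat_lit 15) (nat_lit 4) (nat_lit 16) (nat_lit 5) (nat_lit 16) (nat_lit 4) (nat_lit 462) (nat_lit 378) (nat_lit 360)))) (XT.nd (nat_lit 156) (nat_lit 76) (nat_lit 0) (XT.nd (nat_lit 78) (nat_lit 0) (nat_lit 0) (XT.lf (nat_lit 0) (nat_lit 8317249908) (nat_lit 152) (nat_lit 48745971698) (nat_lit 0) (nat_lit 6895725546) (nat_lit 13) (nat_lit 5) (nat_lit 15) (nat_lit 4) (nat_lit 13) (nat_lit 4) (nat_lit 463) (nat_lit 378) (nat_lit 359)) (XT.lf (nat_lit 0) (nat_lit 28131433552) (nat_lit 152) (nat_lit 13301214947) (nat_lit 0) (nat_lit 26678151773) (nat_lit 13) (nat_lit 5) (nat_lit 15) (nat_lit 4) (nat_lit 13)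 (nat_lit 4) (nat_lit 464) (nat_lit 378) (nat_lit 358))) (XT.nd (nat_lit 78) (nat_lit 0) (nat_lit 0) (XT.lf (nat_lit 0) (nat_lit 24876038437) (nat_lit 76) (nat_lit 24602042031) (nat_lit 76) (nat_lit 23119355236) (nat_lit 12) (nat_lit 4) (nat_lit 13) (nat_lit 5) (nat_lit 13) (nat_lit 4) (nat_lit 465) (nat_lit 378) (nat_lit 357)) (XT.lf (nat_lit 0) (nat_lit 65722262985) (nat_lit 76) (nat_lit 6620079467) (nat_lit 76) (nat_lit 5110165807) (nat_lit 12) (nat_lit 4) (nat_lit 13) (nat_lit 5) (nat_lit 13) (nat_lit 4) (nat_lit 466) (nat_lit 378) (nat_lit 356)))))) (XT.nd (nat_lit 624) (nat_lit 228) (nat_lit 0) (XT.nd (nat_lit 312) (nat_lit 152) (nat_lit 0) (XT.nd (nat_lit 156) (nat_lit 76) (nat_lit 0) (XT.nd (nat_lit 78) (nat_lit 0) (nat_lit 0) (XT.lf (nat_lit 0) (nat_lit 14108881718) (nat_lit 152) (nat_lit 55917647746) (nat_lit 0) (nat_lit 12646859125) (nat_lit 10) (nat_lit 5) (nat_lit 12) (nat_lit 4)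 (nat_lit 10) (nat_lit 4) (nat_lit 467) (nat_lit 378) (nat_lit 355)) (XT.lf (nat_lit 0) (nat_lit 34622299374) (nat_lit 152) (nat_lit 20550611913) (nat_lit 0) (nat_lit 33138045686) (nat_lit 10) (nat_lit 5) (nat_lit 12) (nat_lit 4) (nat_lit 10) (nat_lit 4) (nat_lit 468) (nat_lit 378) (nat_lit 354))) (XT.nd (nat_lit 78) (nat_lit 0) (nat_lit 0) (XT.lf (nat_lit 0) (nat_lit 17476213203) (nat_lit 76) (nat_lit 39216187738) (nat_lit 76) (nat_lit 37711349704) (nat_lit 9) (nat_lit 4) (nat_lit 10) (nat_lit 5) (nat_lit 10) (nat_lit 4) (nat_lit 469) (nat_lit 378) (nat_lit 353)) (XT.lf (nat_lit 0) (nat_lit 58581796548) (nat_lit 76) (nat_lit 21962626782) (nat_lit 76) (nat_lit 20438729167) (nat_lit 9) (nat_lit 4) (nat_lit 10) (nat_lit 5) (nat_lit 10) (nat_lit 4) (nat_lit 470) (nat_lit 378) (nat_lit 352)))) (XT.nd (nat_lit 156) (nat_lit 0) (nat_lit 0) (XT.nd (nat_lit 78) (nat_lit 152) (nat_lit 0) (XT.lf (nat_lit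 0) (nat_lit 102330230723) (nat_lit 76) (nat_lit 3658019649) (nat_lit 76) (nat_lit 2116474274) (nat_lit 9) (nat_lit 4) (nat_lit 10) (nat_lit 5) (nat_lit 10) (nat_lit 4) (nat_lit 471) (nat_lit 378) (nat_lit 351)) (XT.lf (nat_lit 0) (nat_lit 17598784815) (nat_lit 152) (nat_lit 82043717714) (nat_lit 0) (nat_lit 16115083964) (nat_lit 7) (nat_lit 5) (nat_lit 9) (nat_lit 4) (nat_lit 7) (nat_lit 4) (nat_lit 472) (nat_lit 378) (nat_lit 350))) (XT.nd (nat_lit 78) (nat_lit 0) (nat_lit 0) (XT.lf (nat_lit 0) (nat_lit 38692648017) (nat_lit 152) (nat_lit 48139980442) (nat_lit 0) (nat_lit 37194537538) (nat_lit 7) (nat_lit 5) (nat_lit 9) (nat_lit 4) (nat_lit 7) (nat_lit 4) (nat_lit 473) (nat_lit 378) (nat_lit 349)) (XT.lf (nat_lit 0) (nat_lit 61206080623) (nat_lit 152) (nat_lit 12071000547) (nat_lit 0) (nat_lit 59694627896) (nat_lit 7) (nat_lit 5) (nat_lit 9) (nat_lit 4) (nat_lit 7) (nat_lit 4) (nat_lit 474)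 (nat_lit 378) (nat_lit 348))))) (XT.nd (nat_lit 312) (nat_lit 152) (nat_lit 0) (XT.nd (nat_lit 156) (nat_lit 0) (nat_lit 0) (XT.nd (nat_lit 78) (nat_lit 0) (nat_lit 0) (XT.lf (nat_lit 0) (nat_lit 27249105627) (nat_lit 76) (nat_lit 58448824844) (nat_lit 76) (nat_lit 56925018183) (nat_lit 6) (nat_lit 4) (nat_lit 7) (nat_lit 5) (nat_lit 7) (nat_lit 4) (nat_lit 475) (nat_lit 378) (nat_lit 347)) (XT.lf (nat_lit 0) (nat_lit 69661351500) (nat_lit 76) (nat_lit 42460766062) (nat_lit 76) (nat_lit 40925520574) (nat_lit 6) (nat_lit 4) (nat_lit 7) (nat_lit 5) (nat_lit 7) (nat_lit 4) (nat_lit 476) (nat_lit 378) (nat_lit 346))) (XT.nd (nat_lit 78) (nat_lit 0) (nat_lit 0) (XT.lf (nat_lit 0) (nat_lit 115017947108) (nat_lit 76) (nat_lit 25422589009) (nat_lit 76) (nat_lit 23876752014) (nat_lit 6) (nat_lit 4) (nat_lit 7) (nat_lit 5) (nat_lit 7) (nat_lit 4) (nat_lit 477) (nat_lit 378) (nat_lit 345)) (XT.lf (nat_lit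 0) (nat_lit 163587672276) (nat_lit 76) (nat_lit 7233326709) (nat_lit 76) (nat_lit 5677682763) (nat_lit 6) (nat_lit 4) (nat_lit 7) (nat_lit 5) (nat_lit 7) (nat_lit 4) (nat_lit 478) (nat_lit 378) (nat_lit 344)))) (XT.nd (nat_lit 156) (nat_lit 0) (nat_lit 0) (XT.nd (nat_lit 78) (nat_lit 0) (nat_lit 0) (XT.lf (nat_lit 0) (nat_lit 13955346552) (nat_lit 152) (nat_lit 163201926620) (nat_lit 0) (nat_lit 12465132785) (nat_lit 4) (nat_lit 5) (nat_lit 6) (nat_lit 4) (nat_lit 4) (nat_lit 4) (nat_lit 479) (nat_lit 378) (nat_lit 343)) (XT.lf (nat_lit 0) (nat_lit 35127229092) (nat_lit 152) (nat_lit 135026781023) (nat_lit 0) (nat_lit 33629007821) (nat_lit 4) (nat_lit 5) (nat_lit 6) (nat_lit 4) (nat_lit 4) (nat_lit 4) (nat_lit 480) (nat_lit 378) (nat_lit 342))) (XT.nd (nat_lit 78) (nat_lit 0) (nat_lit 0) (XT.lf (nat_lit 0) (nat_lit 57820560777) (nat_lit 152) (nat_lit 104949608145) (nat_lit 0) (nat_lit 56314925150)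 (nat_lit 4) (nat_lit 5) (nat_lit 6) (nat_lit 4) (nat_lit 4) (nat_lit 4) (nat_lit 481) (nat_lit 378) (nat_lit 341)) (XT.lf (nat_lit 0) (nat_lit 82169820608) (nat_lit 152) (nat_lit 72792172887) (nat_lit 0) (nat_lit 80657319836) (nat_lit 4) (nat_lit 5) (nat_lit 6) (nat_lit 4) (nat_lit 4) (nat_lit 4) (nat_lit 482) (nat_lit 378) (nat_lit 340))))))) (XT.nd (nat_lit 1248) (nat_lit 0) (nat_lit 0) (XT.nd (nat_lit 624) (nat_lit 152) (nat_lit 0) (XT.nd (nat_lit 312) (nat_lit 0) (nat_lit 0) (XT.nd (nat_lit 156) (nat_lit 76) (nat_lit 0) (XT.nd (nat_lit 78) (nat_lit 0) (nat_lit 0) (XT.lf (nat_lit 0) (nat_lit 108319300496) (nat_lit 152) (nat_lit 38363912670) (nat_lit 0) (nat_lit 106800443109) (nat_lit 4) (nat_lit 5) (nat_lit 6) (nat_lit 4) (nat_lit 4) (nat_lit 4) (nat_lit 483) (nat_lit 378) (nat_lit 339)) (XT.lf (nat_lit 0) (nat_lit 136423960321) (nat_lit 152) (nat_lit 1460808173) (nat_lit 0) (nat_lit 134899217180)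 (nat_lit 4) (nat_lit 5) (nat_lit 6) (nat_lit 4) (nat_lit 4) (nat_lit 4) (nat_lit 484) (nat_lit 378) (nat_lit 338))) (XT.nd (nat_lit 78) (nat_lit 0) (nat_lit 0) (XT.lf (nat_lit 0) (nat_lit 39396768288) (nat_lit 76) (nat_lit 127868671891) (nat_lit 76) (nat_lit 126338478976) (nat_lit 3) (nat_lit 4) (nat_lit 4) (nat_lit 5) (nat_lit 4) (nat_lit 4) (nat_lit 485) (nat_lit 378) (nat_lit 337)) (XT.lf (nat_lit 0) (nat_lit 83327640451) (nat_lit 76) (nat_lit 117150915046) (nat_lit 76) (nat_lit 115615676046) (nat_lit 3) (nat_lit 4) (nat_lit 4) (nat_lit 5) (nat_lit 4) (nat_lit 4) (nat_lit 486) (nat_lit 378) (nat_lit 336)))) (XT.nd (nat_lit 156) (nat_lit 0) (nat_lit 0) (XT.nd (nat_lit 78) (nat_lit 0) (nat_lit 0) (XT.lf (nat_lit 0) (nat_lit 130543838496) (nat_lit 76) (nat_lit 105692724823) (nat_lit 76) (nat_lit 104152813520) (nat_lit 3) (nat_lit 4) (nat_lit 4) (nat_lit 5) (nat_lit 4) (nat_lit 4) (nat_lit 487)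 (nat_lit 378) (nat_lit 335)) (XT.lf (nat_lit 0) (nat_lit 181325162113) (nat_lit 76) (nat_lit 93426200832) (nat_lit 76) (nat_lit 91881963324) (nat_lit 3) (nat_lit 4) (nat_lit 4) (nat_lit 5) (nat_lit 4) (nat_lit 4) (nat_lit 488) (nat_lit 378) (nat_lit 334))) (XT.nd (nat_lit 78) (nat_lit 0) (nat_lit 0) (XT.lf (nat_lit 0) (nat_lit 235972537665) (nat_lit 76) (nat_lit 80278652563) (nat_lit 76) (nat_lit 78730409309) (nat_lit 3) (nat_lit 4) (nat_lit 4) (nat_lit 5) (nat_lit 4) (nat_lit 4) (nat_lit 489) (nat_lit 378) (nat_lit 333)) (XT.lf (nat_lit 0) (nat_lit 294809801452) (nat_lit 76) (nat_lit 66172168618) (nat_lit 76) (nat_lit 64620216340) (nat_lit 3) (nat_lit 4) (nat_lit 4) (nat_lit 5) (nat_lit 4) (nat_lit 4) (nat_lit 490) (nat_lit 378) (nat_lit 332))))) (XT.nd (nat_lit 312) (nat_lit 0) (nat_lit 0) (XT.nd (nat_lit 156) (nat_lit 152) (nat_lit 0) (XT.nd (nat_lit 78) (nat_lit 0) (nat_lit 0) (XT.lf (nat_lit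 0) (nat_lit 358185618740) (nat_lit 76) (nat_lit 51023155018) (nat_lit 76) (nat_lit 49467768459) (nat_lit 3) (nat_lit 4) (nat_lit 4) (nat_lit 5) (nat_lit 4) (nat_lit 4) (nat_lit 491) (nat_lit 378) (nat_lit 331)) (XT.lf (nat_lit 0) (nat_lit 426475549929) (nat_lit 76) (nat_lit 34741839831) (nat_lit 76) (nat_lit 33183273382) (nat_lit 3) (nat_lit 4) (nat_lit 4) (nat_lit 5) (nat_lit 4) (nat_lit 4) (nat_lit 492) (nat_lit 378) (nat_lit 330))) (XT.nd (nat_lit 78) (nat_lit 152) (nat_lit 0) (XT.lf (nat_lit 0) (nat_lit 500084276091) (nat_lit 76) (nat_lit 17231741189) (nat_lit 76) (nat_lit 15670230397) (nat_lit 3) (nat_lit 4) (nat_lit 4) (nat_lit 5) (nat_lit 4) (nat_lit 4) (nat_lit 493) (nat_lit 378) (nat_lit 329)) (XT.lf (nat_lit 0) (nat_lit 3177127636) (nat_lit 152) (nat_lit 569789786255) (nat_lit 0) (nat_lit 1687378079) (nat_lit 1) (nat_lit 5) (nat_lit 3) (nat_lit 4) (nat_lit 1) (nat_lit 4) (nat_lit 494)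 (nat_lit 378) (nat_lit 328)))) (XT.nd (nat_lit 156) (nat_lit 0) (nat_lit 0) (XT.nd (nat_lit 78) (nat_lit 0) (nat_lit 0) (XT.lf (nat_lit 0) (nat_lit 23799036651) (nat_lit 152) (nat_lit 573496227203) (nat_lit 0) (nat_lit 22306882999) (nat_lit 1) (nat_lit 5) (nat_lit 3) (nat_lit 4) (nat_lit 1) (nat_lit 4) (nat_lit 495) (nat_lit 378) (nat_lit 327)) (XT.lf (nat_lit 0) (nat_lit 46010833431) (nat_lit 152) (nat_lit 577621536213) (nat_lit 0) (nat_lit 44516453766) (nat_lit 1) (nat_lit 5) (nat_lit 3) (nat_lit 4) (nat_lit 1) (nat_lit 4) (nat_lit 496) (nat_lit 378) (nat_lit 326))) (XT.nd (nat_lit 78) (nat_lit 0) (nat_lit 0) (XT.lf (nat_lit 0) (nat_lit 69944143440) (nat_lit 152) (nat_lit 582190159562) (nat_lit 0) (nat_lit 68447702651) (nat_lit 1) (nat_lit 5) (nat_lit 3) (nat_lit 4) (nat_lit 1) (nat_lit 4) (nat_lit 497) (nat_lit 378) (nat_lit 325)) (XT.lf (nat_lit 0) (nat_lit 95740793699) (nat_lit 152) (nat_lit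 587229170573) (nat_lit 0) (nat_lit 94242444462) (nat_lit 1) (nat_lit 5) (nat_lit 3) (nat_lit 4) (nat_lit 1) (nat_lit 4) (nat_lit 498) (nat_lit 378) (nat_lit 324)))))) (XT.nd (nat_lit 624) (nat_lit 0) (nat_lit 0) (XT.nd (nat_lit 312) (nat_lit 0) (nat_lit 0) (XT.nd (nat_lit 156) (nat_lit 0) (nat_lit 0) (XT.nd (nat_lit 78) (nat_lit 0) (nat_lit 0) (XT.lf (nat_lit 0) (nat_lit 123553653248) (nat_lit 152) (nat_lit 592768430051) (nat_lit 0) (nat_lit 122053536929) (nat_lit 1) (nat_lit 5) (nat_lit 3) (nat_lit 4) (nat_lit 1) (nat_lit 4) (nat_lit 499) (nat_lit 378) (nat_lit 323)) (XT.lf (nat_lit 0) (nat_lit 153547539031) (nat_lit 152) (nat_lit 598840763239) (nat_lit 0) (nat_lit 152045786526) (nat_lit 1) (nat_lit 5) (nat_lit 3) (nat_lit 4) (nat_lit 1) (nat_lit 4) (nat_lit 500) (nat_lit 378) (nat_lit 322))) (XT.nd (nat_lit 78) (nat_lit 0) (nat_lit 0) (XT.lf (nat_lit 0) (nat_lit 185900192593) (nat_lit 152)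 (nat_lit 605482154333) (nat_lit 0) (nat_lit 184396925101) (nat_lit 1) (nat_lit 5) (nat_lit 3) (nat_lit 4) (nat_lit 1) (nat_lit 4) (nat_lit 501) (nat_lit 378) (nat_lit 321)) (XT.lf (nat_lit 0) (nat_lit 220803333365) (nat_lit 152) (nat_lit 612731959725) (nat_lit 0) (nat_lit 219298663106) (nat_lit 1) (nat_lit 5) (nat_lit 3) (nat_lit 4) (nat_lit 1) (nat_lit 4) (nat_lit 502) (nat_lit 378) (nat_lit 320)))) (XT.nd (nat_lit 156) (nat_lit 0) (nat_lit 0) (XT.nd (nat_lit 78) (nat_lit 0) (nat_lit 0) (XT.lf (nat_lit 0) (nat_lit 258463794771) (nat_lit 152) (nat_lit 620633141224) (nat_lit 0) (nat_lit 256957825655) (nat_lit 1) (nat_lit 5) (nat_lit 3) (nat_lit 4) (nat_lit 1) (nat_lit 4) (nat_lit 503) (nat_lit 378) (nat_lit 319)) (XT.lf (nat_lit 0) (nat_lit 299104749918) (nat_lit 152) (nat_lit 629232520646) (nat_lit 0) (nat_lit 297597578156) (nat_lit 1) (nat_lit 5) (nat_lit 3) (nat_lit 4) (nat_lit 1) (nat_lit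 4) (nat_lit 504) (nat_lit 378) (nat_lit 318))) (XT.nd (nat_lit 78) (nat_lit 0) (nat_lit 0) (XT.lf (nat_lit 0) (nat_lit 342967034094) (nat_lit 152) (nat_lit 638581057278) (nat_lit 0) (nat_lit 341458748771) (nat_lit 1) (nat_lit 5) (nat_lit 3) (nat_lit 4) (nat_lit 1) (nat_lit 4) (nat_lit 505) (nat_lit 378) (nat_lit 317)) (XT.lf (nat_lit 0) (nat_lit 390310571946) (nat_lit 152) (nat_lit 648734149854) (nat_lit 0) (nat_lit 388801255549) (nat_lit 1) (nat_lit 5) (nat_lit 3) (nat_lit 4) (nat_lit 1) (nat_lit 4) (nat_lit 506) (nat_lit 378) (nat_lit 316))))) (XT.nd (nat_lit 57642) (nat_lit 0) (nat_lit 2508) (XT.nd (nat_lit 57486) (nat_lit 0) (nat_lit 3116) (XT.nd (nat_lit 57408) (nat_lit 0) (nat_lit 3344) (XT.lf (nat_lit 0) (nat_lit 441415917774) (nat_lit 152) (nat_lit 659751964850) (nat_lit 0) (nat_lit 439905646677) (nat_lit 1) (nat_lit 5) (nat_lit 3) (nat_lit 4) (nat_lit 1) (nat_lit 4) (nat_lit 507) (nat_lit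 378) (nat_lit 315)) (XT.lf (nat_lit 0) (nat_lit 2597487003) (nat_lit 76) (nat_lit 4038508910) (nat_lit 76) (nat_lit 4038508910) (nat_lit 45) (nat_lit 4) (nat_lit 46) (nat_lit 5) (nat_lit 46) (nat_lit 4) (nat_lit 442) (nat_lit 379) (nat_lit 379))) (XT.nd (nat_lit 78) (nat_lit 76) (nat_lit 0) (XT.lf (nat_lit 0) (nat_lit 6955627693) (nat_lit 152) (nat_lit 8610516776) (nat_lit 0) (nat_lit 6714518777) (nat_lit 43) (nat_lit 5) (nat_lit 45) (nat_lit 4) (nat_lit 43) (nat_lit 4) (nat_lit 443) (nat_lit 379) (nat_lit 378)) (XT.lf (nat_lit 0) (nat_lit 22042515809) (nat_lit 76) (nat_lit 851387288) (nat_lit 76) (nat_lit 387029375) (nat_lit 42) (nat_lit 4) (nat_lit 43) (nat_lit 5) (nat_lit 43) (nat_lit 4) (nat_lit 444) (nat_lit 379) (nat_lit 377)))) (XT.nd (nat_lit 156) (nat_lit 228) (nat_lit 0) (XT.nd (nat_lit 78) (nat_lit 152) (nat_lit 0) (XT.lf (nat_lit 0) (nat_lit 5891276820) (nat_lit 76) (nat_lit 9543566069)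 (nat_lit 76) (nat_lit 8904451835) (nat_lit 39) (nat_lit 4) (nat_lit 40) (nat_lit 5) (nat_lit 40) (nat_lit 4) (nat_lit 445) (nat_lit 379) (nat_lit 376)) (XT.lf (nat_lit 0) (nat_lit 6796049801) (nat_lit 152) (nat_lit 12667009342) (nat_lit 0) (nat_lit 6013764107) (nat_lit 37) (nat_lit 5) (nat_lit 39) (nat_lit 4) (nat_lit 37) (nat_lit 4) (nat_lit 446) (nat_lit 379) (nat_lit 375))) (XT.nd (nat_lit 78) (nat_lit 152) (nat_lit 0) (XT.lf (nat_lit 0) (nat_lit 19321625143) (nat_lit 76) (nat_lit 4158738662) (nat_lit 76) (nat_lit 3215707162) (nat_lit 36) (nat_lit 4) (nat_lit 37) (nat_lit 5) (nat_lit 37) (nat_lit 4) (nat_lit 447) (nat_lit 379) (nat_lit 374)) (XT.lf (nat_lit 0) (nat_lit 13139276564) (nat_lit 152) (nat_lit 2759437655) (nat_lit 0) (nat_lit 12099400174) (nat_lit 34) (nat_lit 5) (nat_lit 36) (nat_lit 4) (nat_lit 34) (nat_lit 4) (nat_lit 448) (nat_lit 379) (nat_lit 373))))))))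
noncomputable def xc17 : XT := (XT.nd (nat_lit 2496) (nat_lit 228) (nat_lit 0) (XT.nd (nat_lit 1248) (nat_lit 684) (nat_lit 0) (XT.nd (nat_lit 624) (nat_lit 684) (nat_lit 0) (XT.nd (nat_lit 312) (nat_lit 380) (nat_lit 0) (XT.nd (nat_lit 156) (nat_lit 228) (nat_lit 0) (XT.nd (nat_lit 78) (nat_lit 76) (nat_lit 0) (XT.lf (nat_lit 0) (nat_lit 1241027447) (nat_lit 152) (nat_lit 28034288904) (nat_lit 0) (nat_lit 125667964) (nat_lit 31) (nat_lit 5) (nat_lit 33) (nat_lit 4) (nat_lit 31) (nat_lit 4) (nat_lit 449) (nat_lit 379) (nat_lit 372)) (XT.lf (nat_lit 0) (nat_lit 4525432029) (nat_lit 76) (nat_lit 13799375099) (nat_lit 76) (nat_lit 12568273935) (nat_lit 30) (nat_lit 4) (nat_lit 31) (nat_lit 5) (nat_lit 31) (nat_lit 4) (nat_lit 450) (nat_lit 379) (nat_lit 371))) (XT.nd (nat_lit 78) (nat_lit 76) (nat_lit 0) (XT.lf (nat_lit 0) (nat_lit 4079237284) (nat_lit 152) (nat_lit 25620021840) (nat_lit 0) (nat_lit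 2804695011) (nat_lit 28) (nat_lit 5) (nat_lit 30) (nat_lit 4) (nat_lit 28) (nat_lit 4) (nat_lit 451) (nat_lit 379) (nat_lit 370)) (XT.lf (nat_lit 0) (nat_lit 7930649700) (nat_lit 76) (nat_lit 13832279207) (nat_lit 76) (nat_lit 12463232328) (nat_lit 27) (nat_lit 4) (nat_lit 28) (nat_lit 5) (nat_lit 28) (nat_lit 4) (nat_lit 452) (nat_lit 379) (nat_lit 369)))) (XT.nd (nat_lit 156) (nat_lit 152) (nat_lit 0) (XT.nd (nat_lit 78) (nat_lit 76) (nat_lit 0) (XT.lf (nat_lit 0) (nat_lit 4584586924) (nat_lit 152) (nat_lit 28302323760) (nat_lit 0) (nat_lit 3197395358) (nat_lit 25) (nat_lit 5) (nat_lit 27) (nat_lit 4) (nat_lit 25) (nat_lit 4) (nat_lit 453) (nat_lit 379) (nat_lit 368)) (XT.lf (nat_lit 0) (nat_lit 5881645283) (nat_lit 76) (nat_lit 16828046472) (nat_lit 76) (nat_lit 15363690652) (nat_lit 24) (nat_lit 4) (nat_lit 25) (nat_lit 5) (nat_lit 25) (nat_lit 4) (nat_lit 454) (nat_lit 379) (nat_lit 367)))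 (XT.nd (nat_lit 78) (nat_lit 0) (nat_lit 0) (XT.lf (nat_lit 0) (nat_lit 1914417684) (nat_lit 152) (nat_lit 37857949012) (nat_lit 0) (nat_lit 451747013) (nat_lit 22) (nat_lit 5) (nat_lit 24) (nat_lit 4) (nat_lit 22) (nat_lit 4) (nat_lit 455) (nat_lit 379) (nat_lit 366)) (XT.lf (nat_lit 0) (nat_lit 20287003107) (nat_lit 152) (nat_lit 3473456600) (nat_lit 0) (nat_lit 18761326806) (nat_lit 22) (nat_lit 5) (nat_lit 24) (nat_lit 4) (nat_lit 22) (nat_lit 4) (nat_lit 456) (nat_lit 379) (nat_lit 365))))) (XT.nd (nat_lit 312) (nat_lit 304) (nat_lit 0) (XT.nd (nat_lit 156) (nat_lit 152) (nat_lit 0) (XT.nd (nat_lit 78) (nat_lit 152) (nat_lit 0) (XT.lf (nat_lit 0) (nat_lit 33587889658) (nat_lit 76) (nat_lit 6500719311) (nat_lit 76) (nat_lit 4916704464) (nat_lit 21) (nat_lit 4) (nat_lit 22) (nat_lit 5) (nat_lit 22) (nat_lit 4) (nat_lit 457) (nat_lit 379) (nat_lit 364)) (XT.lf (nat_lit 0) (nat_lit 13448170689)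 (nat_lit 152) (nat_lit 22335319225) (nat_lit 0) (nat_lit 11888140195) (nat_lit 19) (nat_lit 5) (nat_lit 21) (nat_lit 4) (nat_lit 19) (nat_lit 4) (nat_lit 458) (nat_lit 379) (nat_lit 363))) (XT.nd (nat_lit 78) (nat_lit 76) (nat_lit 0) (XT.lf (nat_lit 0) (nat_lit 14064732949) (nat_lit 76) (nat_lit 19045081385) (nat_lit 76) (nat_lit 17437416700) (nat_lit 18) (nat_lit 4) (nat_lit 19) (nat_lit 5) (nat_lit 19) (nat_lit 4) (nat_lit 459) (nat_lit 379) (nat_lit 362)) (XT.lf (nat_lit 0) (nat_lit 545954106) (nat_lit 152) (nat_lit 532564498) (nat_lit 76) (nat_lit 52579993446) (nat_lit 17) (nat_lit 5) (nat_lit 19) (nat_lit 5) (nat_lit 18) (nat_lit 4) (nat_lit 460) (nat_lit 379) (nat_lit 361)))) (XT.nd (nat_lit 156) (nat_lit 152) (nat_lit 0) (XT.nd (nat_lit 78) (nat_lit 76) (nat_lit 0) (XT.lf (nat_lit 0) (nat_lit 19774873063) (nat_lit 152) (nat_lit 19045775702) (nat_lit 0) (nat_lit 18162864436) (nat_lit 16)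 (nat_lit 5) (nat_lit 18) (nat_lit 4) (nat_lit 16) (nat_lit 4) (nat_lit 461) (nat_lit 379) (nat_lit 360)) (XT.lf (nat_lit 0) (nat_lit 18555045228) (nat_lit 76) (nat_lit 21837485058) (nat_lit 76) (nat_lit 20189463521) (nat_lit 15) (nat_lit 4) (nat_lit 16) (nat_lit 5) (nat_lit 16) (nat_lit 4) (nat_lit 462) (nat_lit 379) (nat_lit 359))) (XT.nd (nat_lit 78) (nat_lit 152) (nat_lit 0) (XT.lf (nat_lit 0) (nat_lit 58934260086) (nat_lit 76) (nat_lit 3610598613) (nat_lit 76) (nat_lit 1929231788) (nat_lit 15) (nat_lit 4) (nat_lit 16) (nat_lit 5) (nat_lit 16) (nat_lit 4) (nat_lit 463) (nat_lit 379) (nat_lit 358)) (XT.lf (nat_lit 0) (nat_lit 17587464666) (nat_lit 152) (nat_lit 35101189035) (nat_lit 0) (nat_lit 15956757912) (nat_lit 13) (nat_lit 5) (nat_lit 15) (nat_lit 4) (nat_lit 13) (nat_lit 4) (nat_lit 464) (nat_lit 379) (nat_lit 357)))))) (XT.nd (nat_lit 624) (nat_lit 228) (nat_lit 0) (XT.nd (nat_lit 312)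 (nat_lit 228) (nat_lit 0) (XT.nd (nat_lit 156) (nat_lit 152) (nat_lit 0) (XT.nd (nat_lit 78) (nat_lit 0) (nat_lit 0) (XT.lf (nat_lit 0) (nat_lit 1941705292) (nat_lit 76) (nat_lit 36437998002) (nat_lit 76) (nat_lit 34780064382) (nat_lit 12) (nat_lit 4) (nat_lit 13) (nat_lit 5) (nat_lit 13) (nat_lit 4) (nat_lit 465) (nat_lit 379) (nat_lit 356)) (XT.lf (nat_lit 0) (nat_lit 42405009966) (nat_lit 76) (nat_lit 18651181421) (nat_lit 76) (nat_lit 16968037740) (nat_lit 12) (nat_lit 4) (nat_lit 13) (nat_lit 5) (nat_lit 13) (nat_lit 4) (nat_lit 466) (nat_lit 379) (nat_lit 355))) (XT.nd (nat_lit 78) (nat_lit 0) (nat_lit 0) (XT.lf (nat_lit 0) (nat_lit 1865582874) (nat_lit 152) (nat_lit 81186673338) (nat_lit 0) (nat_lit 240357797) (nat_lit 10) (nat_lit 5) (nat_lit 12) (nat_lit 4) (nat_lit 10) (nat_lit 4) (nat_lit 467) (nat_lit 379) (nat_lit 354)) (XT.lf (nat_lit 0) (nat_lit 22207249490) (nat_lit 152) (nat_lit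 46170080556) (nat_lit 0) (nat_lit 20561440065) (nat_lit 10) (nat_lit 5) (nat_lit 12) (nat_lit 4) (nat_lit 10) (nat_lit 4) (nat_lit 468) (nat_lit 379) (nat_lit 353)))) (XT.nd (nat_lit 156) (nat_lit 152) (nat_lit 0) (XT.nd (nat_lit 78) (nat_lit 76) (nat_lit 0) (XT.lf (nat_lit 0) (nat_lit 43845469652) (nat_lit 152) (nat_lit 9027087709) (nat_lit 0) (nat_lit 42180600647) (nat_lit 10) (nat_lit 5) (nat_lit 12) (nat_lit 4) (nat_lit 10) (nat_lit 4) (nat_lit 469) (nat_lit 379) (nat_lit 352)) (XT.lf (nat_lit 0) (nat_lit 31469636734) (nat_lit 76) (nat_lit 35930162340) (nat_lit 76) (nat_lit 34247645575) (nat_lit 9) (nat_lit 4) (nat_lit 10) (nat_lit 5) (nat_lit 10) (nat_lit 4) (nat_lit 470) (nat_lit 379) (nat_lit 351))) (XT.nd (nat_lit 78) (nat_lit 152) (nat_lit 0) (XT.lf (nat_lit 0) (nat_lit 74930679600) (nat_lit 76) (nat_lit 17772118019) (nat_lit 76) (nat_lit 16073260736) (nat_lit 9) (nat_lit 4) (nat_lit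 10) (nat_lit 5) (nat_lit 10) (nat_lit 4) (nat_lit 471) (nat_lit 379) (nat_lit 350)) (XT.lf (nat_lit 0) (nat_lit 3269041100) (nat_lit 152) (nat_lit 111575085369) (nat_lit 0) (nat_lit 1636672155) (nat_lit 7) (nat_lit 5) (nat_lit 9) (nat_lit 4) (nat_lit 7) (nat_lit 4) (nat_lit 472) (nat_lit 379) (nat_lit 349))))) (XT.nd (nat_lit 312) (nat_lit 152) (nat_lit 0) (XT.nd (nat_lit 156) (nat_lit 76) (nat_lit 0) (XT.nd (nat_lit 78) (nat_lit 0) (nat_lit 0) (XT.lf (nat_lit 0) (nat_lit 24234087161) (nat_lit 152) (nat_lit 77934355961) (nat_lit 0) (nat_lit 22588375968) (nat_lit 7) (nat_lit 5) (nat_lit 9) (nat_lit 4) (nat_lit 7) (nat_lit 4) (nat_lit 473) (nat_lit 379) (nat_lit 348)) (XT.lf (nat_lit 0) (nat_lit 46628244637) (nat_lit 152) (nat_lit 42108901867) (nat_lit 0) (nat_lit 44970179510) (nat_lit 7) (nat_lit 5) (nat_lit 9) (nat_lit 4) (nat_lit 7) (nat_lit 4) (nat_lit 474) (nat_lit 379) (nat_lit 347))) (XT.nd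 (nat_lit 78) (nat_lit 76) (nat_lit 0) (XT.lf (nat_lit 0) (nat_lit 70584219646) (nat_lit 152) (nat_lit 3886424100) (nat_lit 0) (nat_lit 68914715691) (nat_lit 7) (nat_lit 5) (nat_lit 9) (nat_lit 4) (nat_lit 7) (nat_lit 4) (nat_lit 475) (nat_lit 379) (nat_lit 346)) (XT.lf (nat_lit 0) (nat_lit 38181631571) (nat_lit 76) (nat_lit 58658464221) (nat_lit 76) (nat_lit 56978368760) (nat_lit 6) (nat_lit 4) (nat_lit 7) (nat_lit 5) (nat_lit 7) (nat_lit 4) (nat_lit 476) (nat_lit 379) (nat_lit 345)))) (XT.nd (nat_lit 156) (nat_lit 152) (nat_lit 0) (XT.nd (nat_lit 78) (nat_lit 0) (nat_lit 0) (XT.lf (nat_lit 0) (nat_lit 83338516559) (nat_lit 76) (nat_lit 41722195301) (nat_lit 76) (nat_lit 40032292889) (nat_lit 6) (nat_lit 4) (nat_lit 7) (nat_lit 5) (nat_lit 7) (nat_lit 4) (nat_lit 477) (nat_lit 379) (nat_lit 344)) (XT.lf (nat_lit 0) (nat_lit 131723324487) (nat_lit 76) (nat_lit 23627292384) (nat_lit 76) (nat_lit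 21928309462) (nat_lit 6) (nat_lit 4) (nat_lit 7) (nat_lit 5) (nat_lit 7) (nat_lit 4) (nat_lit 478) (nat_lit 379) (nat_lit 343))) (XT.nd (nat_lit 78) (nat_lit 152) (nat_lit 0) (XT.lf (nat_lit 0) (nat_lit 183622780141) (nat_lit 76) (nat_lit 4266526414) (nat_lit 76) (nat_lit 2559135612) (nat_lit 6) (nat_lit 4) (nat_lit 7) (nat_lit 5) (nat_lit 7) (nat_lit 4) (nat_lit 479) (nat_lit 379) (nat_lit 342)) (XT.lf (nat_lit 0) (nat_lit 18433309476) (nat_lit 152) (nat_lit 169391001141) (nat_lit 0) (nat_lit 16799808643) (nat_lit 4) (nat_lit 5) (nat_lit 6) (nat_lit 4) (nat_lit 4) (nat_lit 4) (nat_lit 480) (nat_lit 379) (nat_lit 341))))))) (XT.nd (nat_lit 1248) (nat_lit 0) (nat_lit 0) (XT.nd (nat_lit 624) (nat_lit 152) (nat_lit 0) (XT.nd (nat_lit 312) (nat_lit 76) (nat_lit 0) (XT.nd (nat_lit 156) (nat_lit 0) (nat_lit 0) (XT.nd (nat_lit 78) (nat_lit 0) (nat_lit 0) (XT.lf (nat_lit 0) (nat_lit 41049940012) (nat_lit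 152) (nat_lit 139470516460) (nat_lit 0) (nat_lit 39409574035) (nat_lit 4) (nat_lit 5) (nat_lit 6) (nat_lit 4) (nat_lit 4) (nat_lit 4) (nat_lit 481) (nat_lit 379) (nat_lit 340)) (XT.lf (nat_lit 0) (nat_lit 65328180262) (nat_lit 152) (nat_lit 107458162866) (nat_lit 0) (nat_lit 63681457669) (nat_lit 4) (nat_lit 5) (nat_lit 6) (nat_lit 4) (nat_lit 4) (nat_lit 4) (nat_lit 482) (nat_lit 379) (nat_lit 339))) (XT.nd (nat_lit 78) (nat_lit 0) (nat_lit 0) (XT.lf (nat_lit 0) (nat_lit 91411901278) (nat_lit 152) (nat_lit 73164237523) (nat_lit 0) (nat_lit 89759292930) (nat_lit 4) (nat_lit 5) (nat_lit 6) (nat_lit 4) (nat_lit 4) (nat_lit 4) (nat_lit 483) (nat_lit 379) (nat_lit 338)) (XT.lf (nat_lit 0) (nat_lit 119455673259) (nat_lit 152) (nat_lit 36385517169) (nat_lit 0) (nat_lit 117797615138) (nat_lit 4) (nat_lit 5) (nat_lit 6) (nat_lit 4) (nat_lit 4) (nat_lit 4) (nat_lit 484) (nat_lit 379) (nat_lit 337))))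 (XT.nd (nat_lit 156) (nat_lit 0) (nat_lit 0) (XT.nd (nat_lit 78) (nat_lit 0) (nat_lit 0) (XT.lf (nat_lit 0) (nat_lit 3198312129) (nat_lit 76) (nat_lit 146477304007) (nat_lit 76) (nat_lit 144814199800) (nat_lit 3) (nat_lit 4) (nat_lit 4) (nat_lit 5) (nat_lit 4) (nat_lit 4) (nat_lit 485) (nat_lit 379) (nat_lit 336)) (XT.lf (nat_lit 0) (nat_lit 47019018959) (nat_lit 76) (nat_lit 135815790994) (nat_lit 76) (nat_lit 134148014485) (nat_lit 3) (nat_lit 4) (nat_lit 4) (nat_lit 5) (nat_lit 4) (nat_lit 4) (nat_lit 486) (nat_lit 379) (nat_lit 335))) (XT.nd (nat_lit 78) (nat_lit 0) (nat_lit 0) (XT.lf (nat_lit 0) (nat_lit 94133212066) (nat_lit 76) (nat_lit 124409678391) (nat_lit 76) (nat_lit 122737575676) (nat_lit 3) (nat_lit 4) (nat_lit 4) (nat_lit 5) (nat_lit 4) (nat_lit 4) (nat_lit 487) (nat_lit 379) (nat_lit 334)) (XT.lf (nat_lit 0) (nat_lit 144820086667) (nat_lit 76) (nat_lit 112191374420) (nat_lit 76)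 (nat_lit 110515265960) (nat_lit 3) (nat_lit 4) (nat_lit 4) (nat_lit 5) (nat_lit 4) (nat_lit 4) (nat_lit 488) (nat_lit 379) (nat_lit 333))))) (XT.nd (nat_lit 312) (nat_lit 152) (nat_lit 0) (XT.nd (nat_lit 156) (nat_lit 0) (nat_lit 0) (XT.nd (nat_lit 78) (nat_lit 0) (nat_lit 0) (XT.lf (nat_lit 0) (nat_lit 199380009426) (nat_lit 76) (nat_lit 99088474317) (nat_lit 76) (nat_lit 97408656833) (nat_lit 3) (nat_lit 4) (nat_lit 4) (nat_lit 5) (nat_lit 4) (nat_lit 4) (nat_lit 489) (nat_lit 379) (nat_lit 332)) (XT.lf (nat_lit 0) (nat_lit 258136298404) (nat_lit 76) (nat_lit 85023331266) (nat_lit 76) (nat_lit 83340079501) (nat_lit 3) (nat_lit 4) (nat_lit 4) (nat_lit 5) (nat_lit 4) (nat_lit 4) (nat_lit 490) (nat_lit 379) (nat_lit 331))) (XT.nd (nat_lit 78) (nat_lit 0) (nat_lit 0) (XT.lf (nat_lit 0) (nat_lit 321437139018) (nat_lit 76) (nat_lit 69912596273) (nat_lit 76) (nat_lit 68226164617) (nat_lit 3) (nat_lit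 4) (nat_lit 4) (nat_lit 5) (nat_lit 4) (nat_lit 4) (nat_lit 491) (nat_lit 379) (nat_lit 330)) (XT.lf (nat_lit 0) (nat_lit 389657647359) (nat_lit 76) (nat_lit 53666724239) (nat_lit 76) (nat_lit 51977348241) (nat_lit 3) (nat_lit 4) (nat_lit 4) (nat_lit 5) (nat_lit 4) (nat_lit 4) (nat_lit 492) (nat_lit 379) (nat_lit 329)))) (XT.nd (nat_lit 156) (nat_lit 152) (nat_lit 0) (XT.nd (nat_lit 78) (nat_lit 0) (nat_lit 0) (XT.lf (nat_lit 0) (nat_lit 463202093108) (nat_lit 76) (nat_lit 36189443332) (nat_lit 76) (nat_lit 34497341090) (nat_lit 3) (nat_lit 4) (nat_lit 4) (nat_lit 5) (nat_lit 4) (nat_lit 4) (nat_lit 493) (nat_lit 379) (nat_lit 328)) (XT.lf (nat_lit 0) (nat_lit 542506295201) (nat_lit 76) (nat_lit 17377184479) (nat_lit 76) (nat_lit 15682557938) (nat_lit 3) (nat_lit 4) (nat_lit 4) (nat_lit 5) (nat_lit 4) (nat_lit 4) (nat_lit 494) (nat_lit 379) (nat_lit 327))) (XT.nd (nat_lit 78) (nat_lit 0) (nat_lit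 0) (XT.lf (nat_lit 0) (nat_lit 4599240101) (nat_lit 152) (nat_lit 612985913341) (nat_lit 0) (nat_lit 2983084049) (nat_lit 1) (nat_lit 5) (nat_lit 3) (nat_lit 4) (nat_lit 1) (nat_lit 4) (nat_lit 495) (nat_lit 379) (nat_lit 326)) (XT.lf (nat_lit 0) (nat_lit 26784387596) (nat_lit 152) (nat_lit 617165688513) (nat_lit 0) (nat_lit 25166170420) (nat_lit 1) (nat_lit 5) (nat_lit 3) (nat_lit 4) (nat_lit 1) (nat_lit 4) (nat_lit 496) (nat_lit 379) (nat_lit 325)))))) (XT.nd (nat_lit 624) (nat_lit 0) (nat_lit 0) (XT.nd (nat_lit 312) (nat_lit 0) (nat_lit 0) (XT.nd (nat_lit 156) (nat_lit 0) (nat_lit 0) (XT.nd (nat_lit 78) (nat_lit 0) (nat_lit 0) (XT.lf (nat_lit 0) (nat_lit 50693022340) (nat_lit 152) (nat_lit 621784743494) (nat_lit 0) (nat_lit 49072896716) (nat_lit 1) (nat_lit 5) (nat_lit 3) (nat_lit 4) (nat_lit 1) (nat_lit 4) (nat_lit 497) (nat_lit 379) (nat_lit 324)) (XT.lf (nat_lit 0) (nat_lit 76466825132)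 (nat_lit 152) (nat_lit 626870450460) (nat_lit 0) (nat_lit 74844932427) (nat_lit 1) (nat_lit 5) (nat_lit 3) (nat_lit 4) (nat_lit 1) (nat_lit 4) (nat_lit 498) (nat_lit 379) (nat_lit 323))) (XT.nd (nat_lit 78) (nat_lit 0) (nat_lit 0) (XT.lf (nat_lit 0) (nat_lit 104258529618) (nat_lit 152) (nat_lit 632452946934) (nat_lit 0) (nat_lit 102635000727) (nat_lit 1) (nat_lit 5) (nat_lit 3) (nat_lit 4) (nat_lit 1) (nat_lit 4) (nat_lit 499) (nat_lit 379) (nat_lit 322)) (XT.lf (nat_lit 0) (nat_lit 134232827381) (nat_lit 152) (nat_lit 638565314378) (nat_lit 0) (nat_lit 132607783502) (nat_lit 1) (nat_lit 5) (nat_lit 3) (nat_lit 4) (nat_lit 1) (nat_lit 4) (nat_lit 500) (nat_lit 379) (nat_lit 321)))) (XT.nd (nat_lit 156) (nat_lit 0) (nat_lit 0) (XT.nd (nat_lit 78) (nat_lit 0) (nat_lit 0) (XT.lf (nat_lit 0) (nat_lit 166567343888) (nat_lit 152) (nat_lit 645243774226) (nat_lit 0) (nat_lit 164940897242) (nat_lit 1)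 (nat_lit 5) (nat_lit 3) (nat_lit 4) (nat_lit 1) (nat_lit 4) (nat_lit 501) (nat_lit 379) (nat_lit 320)) (XT.lf (nat_lit 0) (nat_lit 201453691088) (nat_lit 152) (nat_lit 652527902539) (nat_lit 0) (nat_lit 199825945586) (nat_lit 1) (nat_lit 5) (nat_lit 3) (nat_lit 4) (nat_lit 1) (nat_lit 4) (nat_lit 502) (nat_lit 379) (nat_lit 319))) (XT.nd (nat_lit 78) (nat_lit 0) (nat_lit 0) (XT.lf (nat_lit 0) (nat_lit 239098602893) (nat_lit 152) (nat_lit 660460864520) (nat_lit 0) (nat_lit 237469654744) (nat_lit 1) (nat_lit 5) (nat_lit 3) (nat_lit 4) (nat_lit 1) (nat_lit 4) (nat_lit 503) (nat_lit 379) (nat_lit 318)) (XT.lf (nat_lit 0) (nat_lit 279725160259) (nat_lit 152) (nat_lit 669089670316) (nat_lit 0) (nat_lit 278095098550) (nat_lit 1) (nat_lit 5) (nat_lit 3) (nat_lit 4) (nat_lit 1) (nat_lit 4) (nat_lit 504) (nat_lit 379) (nat_lit 317))))) (XT.nd (nat_lit 57486) (nat_lit 0) (nat_lit 3116) (XT.nd (nat_lit 156)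 (nat_lit 0) (nat_lit 0) (XT.nd (nat_lit 78) (nat_lit 0) (nat_lit 0) (XT.lf (nat_lit 0) (nat_lit 323574113157) (nat_lit 152) (nat_lit 678465453589) (nat_lit 0) (nat_lit 321943020373) (nat_lit 1) (nat_lit 5) (nat_lit 3) (nat_lit 4) (nat_lit 1) (nat_lit 4) (nat_lit 505) (nat_lit 379) (nat_lit 316)) (XT.lf (nat_lit 0) (nat_lit 370905307234) (nat_lit 152) (nat_lit 688643774537) (nat_lit 0) (nat_lit 369273259751) (nat_lit 1) (nat_lit 5) (nat_lit 3) (nat_lit 4) (nat_lit 1) (nat_lit 4) (nat_lit 506) (nat_lit 379) (nat_lit 315))) (XT.nd (nat_lit 57252) (nat_lit 0) (nat_lit 3648) (XT.lf (nat_lit 0) (nat_lit 421999223640) (nat_lit 152) (nat_lit 699684949136) (nat_lit 0) (nat_lit 420366292176) (nat_lit 1) (nat_lit 5) (nat_lit 3) (nat_lit 4) (nat_lit 1) (nat_lit 4) (nat_lit 507) (nat_lit 379) (nat_lit 314)) (XT.lf (nat_lit 0) (nat_lit 2165040246) (nat_lit 152) (nat_lit 5489662544) (nat_lit 0) (nat_lit 2165040246)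 (nat_lit 49) (nat_lit 5) (nat_lit 51) (nat_lit 4) (nat_lit 49) (nat_lit 4) (nat_lit 440) (nat_lit 380) (nat_lit 380)))) (XT.nd (nat_lit 156) (nat_lit 228) (nat_lit 0) (XT.nd (nat_lit 78) (nat_lit 228) (nat_lit 0) (XT.lf (nat_lit 0) (nat_lit 17234400434) (nat_lit 76) (nat_lit 1765777303) (nat_lit 76) (nat_lit 1478688916) (nat_lit 48) (nat_lit 4) (nat_lit 49) (nat_lit 5) (nat_lit 49) (nat_lit 4) (nat_lit 441) (nat_lit 380) (nat_lit 379)) (XT.lf (nat_lit 0) (nat_lit 4431903748) (nat_lit 76) (nat_lit 8731397602) (nat_lit 76) (nat_lit 8204815729) (nat_lit 45) (nat_lit 4) (nat_lit 46) (nat_lit 5) (nat_lit 46) (nat_lit 4) (nat_lit 442) (nat_lit 380) (nat_lit 378))) (XT.nd (nat_lit 78) (nat_lit 76) (nat_lit 0) (XT.lf (nat_lit 0) (nat_lit 6431895186) (nat_lit 152) (nat_lit 10180838649) (nat_lit 0) (nat_lit 5707139644) (nat_lit 43) (nat_lit 5) (nat_lit 45) (nat_lit 4) (nat_lit 43) (nat_lit 4) (nat_lit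 443) (nat_lit 380) (nat_lit 377)) (XT.lf (nat_lit 0) (nat_lit 19698119313) (nat_lit 76) (nat_lit 2286387898) (nat_lit 76) (nat_lit 1354920322) (nat_lit 42) (nat_lit 4) (nat_lit 43) (nat_lit 5) (nat_lit 43) (nat_lit 4) (nat_lit 444) (nat_lit 380) (nat_lit 376))))))))
noncomputable def xc18 : XT := (XT.nd (nat_lit 2418) (nat_lit 456) (nat_lit 0) (XT.nd (nat_lit 1170) (nat_lit 912) (nat_lit 0) (XT.nd (nat_lit 546) (nat_lit 836) (nat_lit 0) (XT.nd (nat_lit 234) (nat_lit 456) (nat_lit 0) (XT.nd (nat_lit 78) (nat_lit 228) (nat_lit 0) (XT.lf (nat_lit 0) (nat_lit 2565859763) (nat_lit 76) (nat_lit 11462774789) (nat_lit 76) (nat_lit 10393377067) (nat_lit 39) (nat_lit 4) (nat_lit 40) (nat_lit 5) (nat_lit 40) (nat_lit 4) (nat_lit 445) (nat_lit 380) (nat_lit 375)) (XT.nd (nat_lit 78) (nat_lit 76) (nat_lit 0) (XT.lf (nat_lit 0) (nat_lit 4906618637) (nat_lit 152) (nat_lit 16949094344) (nat_lit 0) (nat_lit 3727398811)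 (nat_lit 37) (nat_lit 5) (nat_lit 39) (nat_lit 4) (nat_lit 37) (nat_lit 4) (nat_lit 446) (nat_lit 380) (nat_lit 374)) (XT.lf (nat_lit 0) (nat_lit 14199767002) (nat_lit 76) (nat_lit 6975712448) (nat_lit 76) (nat_lit 5647653912) (nat_lit 36) (nat_lit 4) (nat_lit 37) (nat_lit 5) (nat_lit 37) (nat_lit 4) (nat_lit 447) (nat_lit 380) (nat_lit 373)))) (XT.nd (nat_lit 156) (nat_lit 228) (nat_lit 0) (XT.nd (nat_lit 78) (nat_lit 76) (nat_lit 0) (XT.lf (nat_lit 0) (nat_lit 10313204133) (nat_lit 152) (nat_lit 8920334928) (nat_lit 0) (nat_lit 8917135413) (nat_lit 34) (nat_lit 5) (nat_lit 36) (nat_lit 4) (nat_lit 34) (nat_lit 4) (nat_lit 448) (nat_lit 380) (nat_lit 372)) (XT.lf (nat_lit 0) (nat_lit 23722724038) (nat_lit 76) (nat_lit 3685942513) (nat_lit 76) (nat_lit 2168345028) (nat_lit 33) (nat_lit 4) (nat_lit 34) (nat_lit 5) (nat_lit 34) (nat_lit 4) (nat_lit 449) (nat_lit 380) (nat_lit 371))) (XT.nd (nat_lit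 78) (nat_lit 76) (nat_lit 0) (XT.lf (nat_lit 0) (nat_lit 14437900972) (nat_lit 152) (nat_lit 3774845814) (nat_lit 0) (nat_lit 12885401811) (nat_lit 31) (nat_lit 5) (nat_lit 33) (nat_lit 4) (nat_lit 31) (nat_lit 4) (nat_lit 450) (nat_lit 380) (nat_lit 370)) (XT.lf (nat_lit 0) (nat_lit 30237900078) (nat_lit 76) (nat_lit 2076082311) (nat_lit 76) (nat_lit 424353314) (nat_lit 30) (nat_lit 4) (nat_lit 31) (nat_lit 5) (nat_lit 31) (nat_lit 4) (nat_lit 451) (nat_lit 380) (nat_lit 369))))) (XT.nd (nat_lit 312) (nat_lit 380) (nat_lit 0) (XT.nd (nat_lit 156) (nat_lit 228) (nat_lit 0) (XT.nd (nat_lit 78) (nat_lit 76) (nat_lit 0) (XT.lf (nat_lit 0) (nat_lit 16770979693) (nat_lit 152) (nat_lit 2604591915) (nat_lit 0) (nat_lit 15110400193) (nat_lit 28) (nat_lit 5) (nat_lit 30) (nat_lit 4) (nat_lit 28) (nat_lit 4) (nat_lit 452) (nat_lit 380) (nat_lit 368)) (XT.lf (nat_lit 0) (nat_lit 32540837617) (nat_lit 76)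 (nat_lit 2786901650) (nat_lit 76) (nat_lit 1045299682) (nat_lit 27) (nat_lit 4) (nat_lit 28) (nat_lit 5) (nat_lit 28) (nat_lit 4) (nat_lit 453) (nat_lit 380) (nat_lit 367))) (XT.nd (nat_lit 78) (nat_lit 76) (nat_lit 0) (XT.lf (nat_lit 0) (nat_lit 16627369649) (nat_lit 152) (nat_lit 6862604099) (nat_lit 0) (nat_lit 14897252724) (nat_lit 25) (nat_lit 5) (nat_lit 27) (nat_lit 4) (nat_lit 25) (nat_lit 4) (nat_lit 454) (nat_lit 380) (nat_lit 366)) (XT.lf (nat_lit 0) (nat_lit 29025939619) (nat_lit 76) (nat_lit 6665654171) (nat_lit 76) (nat_lit 4869381334) (nat_lit 24) (nat_lit 4) (nat_lit 25) (nat_lit 5) (nat_lit 25) (nat_lit 4) (nat_lit 455) (nat_lit 380) (nat_lit 365)))) (XT.nd (nat_lit 156) (nat_lit 152) (nat_lit 0) (XT.nd (nat_lit 78) (nat_lit 76) (nat_lit 0) (XT.lf (nat_lit 0) (nat_lit 13094161465) (nat_lit 152) (nat_lit 18471445943) (nat_lit 0) (nat_lit 11325086884) (nat_lit 22) (nat_lit 5) (nat_lit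 24) (nat_lit 4) (nat_lit 22) (nat_lit 4) (nat_lit 456) (nat_lit 380) (nat_lit 364)) (XT.lf (nat_lit 0) (nat_lit 17565635221) (nat_lit 76) (nat_lit 14828382821) (nat_lit 76) (nat_lit 13005291068) (nat_lit 21) (nat_lit 4) (nat_lit 22) (nat_lit 5) (nat_lit 22) (nat_lit 4) (nat_lit 457) (nat_lit 380) (nat_lit 363))) (XT.nd (nat_lit 78) (nat_lit 0) (nat_lit 0) (XT.lf (nat_lit 0) (nat_lit 4962690281) (nat_lit 152) (nat_lit 39963260886) (nat_lit 0) (nat_lit 3178778230) (nat_lit 19) (nat_lit 5) (nat_lit 21) (nat_lit 4) (nat_lit 19) (nat_lit 4) (nat_lit 458) (nat_lit 380) (nat_lit 362)) (XT.lf (nat_lit 0) (nat_lit 24167112483) (nat_lit 152) (nat_lit 4496984566) (nat_lit 0) (nat_lit 22339094700) (nat_lit 19) (nat_lit 5) (nat_lit 21) (nat_lit 4) (nat_lit 19) (nat_lit 4) (nat_lit 459) (nat_lit 380) (nat_lit 361)))))) (XT.nd (nat_lit 624) (nat_lit 380) (nat_lit 0) (XT.nd (nat_lit 312) (nat_lit 228) (nat_lit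 0) (XT.nd (nat_lit 156) (nat_lit 76) (nat_lit 0) (XT.nd (nat_lit 78) (nat_lit 152) (nat_lit 0) (XT.lf (nat_lit 0) (nat_lit 33962186236) (nat_lit 76) (nat_lit 11018286375) (nat_lit 76) (nat_lit 9149429952) (nat_lit 18) (nat_lit 4) (nat_lit 19) (nat_lit 5) (nat_lit 19) (nat_lit 4) (nat_lit 460) (nat_lit 380) (nat_lit 360)) (XT.lf (nat_lit 0) (nat_lit 9670787964) (nat_lit 152) (nat_lit 39971423655) (nat_lit 0) (nat_lit 7854911793) (nat_lit 16) (nat_lit 5) (nat_lit 18) (nat_lit 4) (nat_lit 16) (nat_lit 4) (nat_lit 461) (nat_lit 380) (nat_lit 359))) (XT.nd (nat_lit 78) (nat_lit 76) (nat_lit 0) (XT.lf (nat_lit 0) (nat_lit 29790911365) (nat_lit 152) (nat_lit 3387879705) (nat_lit 0) (nat_lit 27941689906) (nat_lit 16) (nat_lit 5) (nat_lit 18) (nat_lit 4) (nat_lit 16) (nat_lit 4) (nat_lit 462) (nat_lit 380) (nat_lit 358)) (XT.lf (nat_lit 0) (nat_lit 36474317325) (nat_lit 76) (nat_lit 15215513867) (nat_lit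 76) (nat_lit 13335417142) (nat_lit 15) (nat_lit 4) (nat_lit 16) (nat_lit 5) (nat_lit 16) (nat_lit 4) (nat_lit 463) (nat_lit 380) (nat_lit 357)))) (XT.nd (nat_lit 156) (nat_lit 76) (nat_lit 0) (XT.nd (nat_lit 78) (nat_lit 0) (nat_lit 0) (XT.lf (nat_lit 0) (nat_lit 5791592996) (nat_lit 152) (nat_lit 59477820762) (nat_lit 0) (nat_lit 3973797820) (nat_lit 13) (nat_lit 5) (nat_lit 15) (nat_lit 4) (nat_lit 13) (nat_lit 4) (nat_lit 464) (nat_lit 380) (nat_lit 356)) (XT.lf (nat_lit 0) (nat_lit 26371720725) (nat_lit 152) (nat_lit 22867737176) (nat_lit 0) (nat_lit 24528715488) (nat_lit 13) (nat_lit 5) (nat_lit 15) (nat_lit 4) (nat_lit 13) (nat_lit 4) (nat_lit 465) (nat_lit 380) (nat_lit 355))) (XT.nd (nat_lit 78) (nat_lit 0) (nat_lit 0) (XT.lf (nat_lit 0) (nat_lit 16484901395) (nat_lit 76) (nat_lit 32020608239) (nat_lit 76) (nat_lit 30154260352) (nat_lit 12) (nat_lit 4) (nat_lit 13) (nat_lit 5) (nat_lit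 13) (nat_lit 4) (nat_lit 466) (nat_lit 380) (nat_lit 354)) (XT.lf (nat_lit 0) (nat_lit 59119503060) (nat_lit 76) (nat_lit 13353989265) (nat_lit 76) (nat_lit 11466027814) (nat_lit 12) (nat_lit 4) (nat_lit 13) (nat_lit 5) (nat_lit 13) (nat_lit 4) (nat_lit 467) (nat_lit 380) (nat_lit 353))))) (XT.nd (nat_lit 312) (nat_lit 152) (nat_lit 0) (XT.nd (nat_lit 156) (nat_lit 76) (nat_lit 0) (XT.nd (nat_lit 78) (nat_lit 0) (nat_lit 0) (XT.lf (nat_lit 0) (nat_lit 8468215833) (nat_lit 152) (nat_lit 74514034048) (nat_lit 0) (nat_lit 6651097727) (nat_lit 10) (nat_lit 5) (nat_lit 12) (nat_lit 4) (nat_lit 10) (nat_lit 4) (nat_lit 468) (nat_lit 380) (nat_lit 352)) (XT.lf (nat_lit 0) (nat_lit 29959187160) (nat_lit 152) (nat_lit 37671489633) (nat_lit 0) (nat_lit 28124421295) (nat_lit 10) (nat_lit 5) (nat_lit 12) (nat_lit 4) (nat_lit 10) (nat_lit 4) (nat_lit 469) (nat_lit 380) (nat_lit 351))) (XT.nd (nat_lit 78)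 (nat_lit 0) (nat_lit 0) (XT.lf (nat_lit 0) (nat_lit 1590730211) (nat_lit 76) (nat_lit 51319951391) (nat_lit 76) (nat_lit 49468845007) (nat_lit 9) (nat_lit 4) (nat_lit 10) (nat_lit 5) (nat_lit 10) (nat_lit 4) (nat_lit 470) (nat_lit 380) (nat_lit 350)) (XT.lf (nat_lit 0) (nat_lit 44785670013) (nat_lit 76) (nat_lit 33297613377) (nat_lit 76) (nat_lit 31431376884) (nat_lit 9) (nat_lit 4) (nat_lit 10) (nat_lit 5) (nat_lit 10) (nat_lit 4) (nat_lit 471) (nat_lit 380) (nat_lit 349)))) (XT.nd (nat_lit 156) (nat_lit 0) (nat_lit 0) (XT.nd (nat_lit 78) (nat_lit 152) (nat_lit 0) (XT.lf (nat_lit 0) (nat_lit 90923710209) (nat_lit 76) (nat_lit 14094848618) (nat_lit 76) (nat_lit 12214602764) (nat_lit 9) (nat_lit 4) (nat_lit 10) (nat_lit 5) (nat_lit 10) (nat_lit 4) (nat_lit 472) (nat_lit 380) (nat_lit 348)) (XT.lf (nat_lit 0) (nat_lit 8370749167) (nat_lit 152) (nat_lit 110618815189) (nat_lit 0) (nat_lit 6567684896)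 (nat_lit 7) (nat_lit 5) (nat_lit 9) (nat_lit 4) (nat_lit 7) (nat_lit 4) (nat_lit 473) (nat_lit 380) (nat_lit 347))) (XT.nd (nat_lit 78) (nat_lit 0) (nat_lit 0) (XT.lf (nat_lit 0) (nat_lit 30654466707) (nat_lit 152) (nat_lit 75018847948) (nat_lit 0) (nat_lit 28839963609) (nat_lit 7) (nat_lit 5) (nat_lit 9) (nat_lit 4) (nat_lit 7) (nat_lit 4) (nat_lit 474) (nat_lit 380) (nat_lit 346)) (XT.lf (nat_lit 0) (nat_lit 54508182517) (nat_lit 152) (nat_lit 37005154303) (nat_lit 0) (nat_lit 52683087912) (nat_lit 7) (nat_lit 5) (nat_lit 9) (nat_lit 4) (nat_lit 7) (nat_lit 4) (nat_lit 475) (nat_lit 380) (nat_lit 345))))))) (XT.nd (nat_lit 1248) (nat_lit 152) (nat_lit 0) (XT.nd (nat_lit 624) (nat_lit 76) (nat_lit 0) (XT.nd (nat_lit 312) (nat_lit 152) (nat_lit 0) (XT.nd (nat_lit 156) (nat_lit 0) (nat_lit 0) (XT.nd (nat_lit 78) (nat_lit 0) (nat_lit 0) (XT.lf (nat_lit 0) (nat_lit 3768135959) (nat_lit 76) (nat_lit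 76363947150) (nat_lit 76) (nat_lit 74529045595) (nat_lit 6) (nat_lit 4) (nat_lit 7) (nat_lit 5) (nat_lit 7) (nat_lit 4) (nat_lit 476) (nat_lit 380) (nat_lit 344)) (XT.lf (nat_lit 0) (nat_lit 48740103707) (nat_lit 76) (nat_lit 59522037613) (nat_lit 76) (nat_lit 57678055547) (nat_lit 6) (nat_lit 4) (nat_lit 7) (nat_lit 5) (nat_lit 7) (nat_lit 4) (nat_lit 477) (nat_lit 380) (nat_lit 343))) (XT.nd (nat_lit 78) (nat_lit 0) (nat_lit 0) (XT.lf (nat_lit 0) (nat_lit 96953691968) (nat_lit 76) (nat_lit 41514504494) (nat_lit 76) (nat_lit 39662114549) (nat_lit 6) (nat_lit 4) (nat_lit 7) (nat_lit 5) (nat_lit 7) (nat_lit 4) (nat_lit 478) (nat_lit 380) (nat_lit 342)) (XT.lf (nat_lit 0) (nat_lit 148694610893) (nat_lit 76) (nat_lit 22234636486) (nat_lit 76) (nat_lit 20374461467) (nat_lit 6) (nat_lit 4) (nat_lit 7) (nat_lit 5) (nat_lit 7) (nat_lit 4) (nat_lit 479) (nat_lit 380) (nat_lit 341)))) (XT.nd (nat_lit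 156) (nat_lit 0) (nat_lit 0) (XT.nd (nat_lit 78) (nat_lit 76) (nat_lit 0) (XT.lf (nat_lit 0) (nat_lit 289624603) (nat_lit 152) (nat_lit 1273652982) (nat_lit 76) (nat_lit 203974943801) (nat_lit 5) (nat_lit 5) (nat_lit 7) (nat_lit 5) (nat_lit 6) (nat_lit 4) (nat_lit 480) (nat_lit 380) (nat_lit 340)) (XT.lf (nat_lit 0) (nat_lit 22789948857) (nat_lit 152) (nat_lit 177054867301) (nat_lit 0) (nat_lit 21005131841) (nat_lit 4) (nat_lit 5) (nat_lit 6) (nat_lit 4) (nat_lit 4) (nat_lit 4) (nat_lit 481) (nat_lit 380) (nat_lit 339))) (XT.nd (nat_lit 78) (nat_lit 0) (nat_lit 0) (XT.lf (nat_lit 0) (nat_lit 47002430234) (nat_lit 152) (nat_lit 145176848581) (nat_lit 0) (nat_lit 45211727464) (nat_lit 4) (nat_lit 5) (nat_lit 6) (nat_lit 4) (nat_lit 4) (nat_lit 4) (nat_lit 482) (nat_lit 380) (nat_lit 338)) (XT.lf (nat_lit 0) (nat_lit 73025263406) (nat_lit 152) (nat_lit 111007307381) (nat_lit 0) (nat_lit 71229110863)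 (nat_lit 4) (nat_lit 5) (nat_lit 6) (nat_lit 4) (nat_lit 4) (nat_lit 4) (nat_lit 483) (nat_lit 380) (nat_lit 337))))) (XT.nd (nat_lit 312) (nat_lit 0) (nat_lit 0) (XT.nd (nat_lit 156) (nat_lit 76) (nat_lit 0) (XT.nd (nat_lit 78) (nat_lit 0) (nat_lit 0) (XT.lf (nat_lit 0) (nat_lit 101012657754) (nat_lit 152) (nat_lit 74343757530) (nat_lit 0) (nat_lit 99211459124) (nat_lit 4) (nat_lit 5) (nat_lit 6) (nat_lit 4) (nat_lit 4) (nat_lit 4) (nat_lit 484) (nat_lit 380) (nat_lit 336)) (XT.lf (nat_lit 0) (nat_lit 131130464502) (nat_lit 152) (nat_lit 34968933548) (nat_lit 0) (nat_lit 129324593571) (nat_lit 4) (nat_lit 5) (nat_lit 6) (nat_lit 4) (nat_lit 4) (nat_lit 4) (nat_lit 485) (nat_lit 380) (nat_lit 335))) (XT.nd (nat_lit 78) (nat_lit 0) (nat_lit 0) (XT.lf (nat_lit 0) (nat_lit 7593537477) (nat_lit 76) (nat_lit 156082178468) (nat_lit 76) (nat_lit 154271981331) (nat_lit 3) (nat_lit 4) (nat_lit 4) (nat_lit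 5) (nat_lit 4) (nat_lit 4) (nat_lit 486) (nat_lit 380) (nat_lit 334)) (XT.lf (nat_lit 0) (nat_lit 54613281567) (nat_lit 76) (nat_lit 144724285884) (nat_lit 76) (nat_lit 142910083002) (nat_lit 3) (nat_lit 4) (nat_lit 4) (nat_lit 5) (nat_lit 4) (nat_lit 4) (nat_lit 487) (nat_lit 380) (nat_lit 333)))) (XT.nd (nat_lit 156) (nat_lit 0) (nat_lit 0) (XT.nd (nat_lit 78) (nat_lit 0) (nat_lit 0) (XT.lf (nat_lit 0) (nat_lit 105212703375) (nat_lit 76) (nat_lit 132550630080) (nat_lit 76) (nat_lit 130732718173) (nat_lit 3) (nat_lit 4) (nat_lit 4) (nat_lit 5) (nat_lit 4) (nat_lit 4) (nat_lit 488) (nat_lit 380) (nat_lit 332)) (XT.lf (nat_lit 0) (nat_lit 159691651325) (nat_lit 76) (nat_lit 119489070871) (nat_lit 76) (nat_lit 117667724684) (nat_lit 3) (nat_lit 4) (nat_lit 4) (nat_lit 5) (nat_lit 4) (nat_lit 4) (nat_lit 489) (nat_lit 380) (nat_lit 331))) (XT.nd (nat_lit 78) (nat_lit 0) (nat_lit 0) (XT.lf (nat_lit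 0) (nat_lit 218372963629) (nat_lit 76) (nat_lit 105462206427) (nat_lit 76) (nat_lit 103637680349) (nat_lit 3) (nat_lit 4) (nat_lit 4) (nat_lit 5) (nat_lit 4) (nat_lit 4) (nat_lit 490) (nat_lit 380) (nat_lit 330)) (XT.lf (nat_lit 0) (nat_lit 281604381396) (nat_lit 76) (nat_lit 90386914587) (nat_lit 76) (nat_lit 88559444166) (nat_lit 3) (nat_lit 4) (nat_lit 4) (nat_lit 5) (nat_lit 4) (nat_lit 4) (nat_lit 491) (nat_lit 380) (nat_lit 329)))))) (XT.nd (nat_lit 624) (nat_lit 0) (nat_lit 0) (XT.nd (nat_lit 312) (nat_lit 152) (nat_lit 0) (XT.nd (nat_lit 156) (nat_lit 0) (nat_lit 0) (XT.nd (nat_lit 78) (nat_lit 0) (nat_lit 0) (XT.lf (nat_lit 0) (nat_lit 349760609324) (nat_lit 76) (nat_lit 74173860289) (nat_lit 76) (nat_lit 72343663625) (nat_lit 3) (nat_lit 4) (nat_lit 4) (nat_lit 5) (nat_lit 4) (nat_lit 4) (nat_lit 492) (nat_lit 380) (nat_lit 328)) (XT.lf (nat_lit 0) (nat_lit 423245536171) (nat_lit 76)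 (nat_lit 56726966173) (nat_lit 76) (nat_lit 54894245210) (nat_lit 3) (nat_lit 4) (nat_lit 4) (nat_lit 5) (nat_lit 4) (nat_lit 4) (nat_lit 493) (nat_lit 380) (nat_lit 327))) (XT.nd (nat_lit 78) (nat_lit 0) (nat_lit 0) (XT.lf (nat_lit 0) (nat_lit 502494628171) (nat_lit 76) (nat_lit 37942843238) (nat_lit 76) (nat_lit 36107784960) (nat_lit 3) (nat_lit 4) (nat_lit 4) (nat_lit 5) (nat_lit 4) (nat_lit 4) (nat_lit 494) (nat_lit 380) (nat_lit 326)) (XT.lf (nat_lit 0) (nat_lit 587977509571) (nat_lit 76) (nat_lit 17710178162) (nat_lit 76) (nat_lit 15872955705) (nat_lit 3) (nat_lit 4) (nat_lit 4) (nat_lit 5) (nat_lit 4) (nat_lit 4) (nat_lit 495) (nat_lit 380) (nat_lit 325)))) (XT.nd (nat_lit 156) (nat_lit 0) (nat_lit 0) (XT.nd (nat_lit 78) (nat_lit 0) (nat_lit 0) (XT.lf (nat_lit 0) (nat_lit 5968501543) (nat_lit 152) (nat_lit 659978270792) (nat_lit 0) (nat_lit 4216857422) (nat_lit 1) (nat_lit 5) (nat_lit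 3) (nat_lit 4) (nat_lit 1) (nat_lit 4) (nat_lit 496) (nat_lit 380) (nat_lit 324)) (XT.lf (nat_lit 0) (nat_lit 29854288820) (nat_lit 152) (nat_lit 664644021727) (nat_lit 0) (nat_lit 28100877618) (nat_lit 1) (nat_lit 5) (nat_lit 3) (nat_lit 4) (nat_lit 1) (nat_lit 4) (nat_lit 497) (nat_lit 380) (nat_lit 323))) (XT.nd (nat_lit 78) (nat_lit 0) (nat_lit 0) (XT.lf (nat_lit 0) (nat_lit 55606936550) (nat_lit 152) (nat_lit 669772965689) (nat_lit 0) (nat_lit 53851889161) (nat_lit 1) (nat_lit 5) (nat_lit 3) (nat_lit 4) (nat_lit 1) (nat_lit 4) (nat_lit 498) (nat_lit 380) (nat_lit 322)) (XT.lf (nat_lit 0) (nat_lit 83379053016) (nat_lit 152) (nat_lit 675395496419) (nat_lit 0) (nat_lit 81622490639) (nat_lit 1) (nat_lit 5) (nat_lit 3) (nat_lit 4) (nat_lit 1) (nat_lit 4) (nat_lit 499) (nat_lit 380) (nat_lit 321))))) (XT.nd (nat_lit 312) (nat_lit 0) (nat_lit 0) (XT.nd (nat_lit 156) (nat_lit 0) (nat_lit 0) (XT.nd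 (nat_lit 78) (nat_lit 0) (nat_lit 0) (XT.lf (nat_lit 0) (nat_lit 113335213722) (nat_lit 152) (nat_lit 681544932617) (nat_lit 0) (nat_lit 111577248580) (nat_lit 1) (nat_lit 5) (nat_lit 3) (nat_lit 4) (nat_lit 1) (nat_lit 4) (nat_lit 500) (nat_lit 380) (nat_lit 320)) (XT.lf (nat_lit 0) (nat_lit 145652936659) (nat_lit 152) (nat_lit 688257715387) (nat_lit 0) (nat_lit 143893672658) (nat_lit 1) (nat_lit 5) (nat_lit 3) (nat_lit 4) (nat_lit 1) (nat_lit 4) (nat_lit 501) (nat_lit 380) (nat_lit 319))) (XT.nd (nat_lit 78) (nat_lit 0) (nat_lit 0) (XT.lf (nat_lit 0) (nat_lit 180523734257) (nat_lit 152) (nat_lit 695573624182) (nat_lit 0) (nat_lit 178763267611) (nat_lit 1) (nat_lit 5) (nat_lit 3) (nat_lit 4) (nat_lit 1) (nat_lit 4) (nat_lit 502) (nat_lit 380) (nat_lit 318)) (XT.lf (nat_lit 0) (nat_lit 218154248282) (nat_lit 152) (nat_lit 703536012536) (nat_lit 0) (nat_lit 216392668075) (nat_lit 1) (nat_lit 5)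 (nat_lit 3) (nat_lit 4) (nat_lit 1) (nat_lit 4) (nat_lit 503) (nat_lit 380) (nat_lit 317)))) (XT.nd (nat_lit 156) (nat_lit 0) (nat_lit 0) (XT.nd (nat_lit 78) (nat_lit 0) (nat_lit 0) (XT.lf (nat_lit 0) (nat_lit 258767474371) (nat_lit 152) (nat_lit 712192064973) (nat_lit 0) (nat_lit 257004863088) (nat_lit 1) (nat_lit 5) (nat_lit 3) (nat_lit 4) (nat_lit 1) (nat_lit 4) (nat_lit 504) (nat_lit 380) (nat_lit 316)) (XT.lf (nat_lit 0) (nat_lit 302604083493) (nat_lit 152) (nat_lit 721593076618) (nat_lit 0) (nat_lit 300840517512) (nat_lit 1) (nat_lit 5) (nat_lit 3) (nat_lit 4) (nat_lit 1) (nat_lit 4) (nat_lit 505) (nat_lit 380) (nat_lit 315))) (XT.nd (nat_lit 78) (nat_lit 0) (nat_lit 0) (XT.lf (nat_lit 0) (nat_lit 349923848148) (nat_lit 152) (nat_lit 731794757169) (nat_lit 0) (nat_lit 348159398187) (nat_lit 1) (nat_lit 5) (nat_lit 3) (nat_lit 4) (nat_lit 1) (nat_lit 4) (nat_lit 506) (nat_lit 380) (nat_lit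 314)) (XT.lf (nat_lit 0) (nat_lit 401007181756) (nat_lit 152) (nat_lit 742857561031) (nat_lit 0) (nat_lit 399241913294) (nat_lit 1) (nat_lit 5) (nat_lit 3) (nat_lit 4) (nat_lit 1) (nat_lit 4) (nat_lit 507) (nat_lit 380) (nat_lit 313))))))))
noncomputable def xc19 : XT := (XT.nd (nat_lit 2496) (nat_lit 684) (nat_lit 0) (XT.nd (nat_lit 1248) (nat_lit 1292) (nat_lit 0) (XT.nd (nat_lit 624) (nat_lit 988) (nat_lit 0) (XT.nd (nat_lit 312) (nat_lit 608) (nat_lit 0) (XT.nd (nat_lit 156) (nat_lit 228) (nat_lit 0) (XT.nd (nat_lit 78) (nat_lit 228) (nat_lit 0) (XT.lf (nat_lit 0) (nat_lit 5274085242) (nat_lit 76) (nat_lit 1887898387) (nat_lit 76) (nat_lit 1887898387) (nat_lit 54) (nat_lit 4) (nat_lit 55) (nat_lit 5) (nat_lit 55) (nat_lit 4) (nat_lit 438) (nat_lit 381) (nat_lit 381)) (XT.lf (nat_lit 0) (nat_lit 63713860) (nat_lit 76) (nat_lit 9558310571) (nat_lit 76) (nat_lit 9232752340) (nat_lit 51) (nat_lit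 4) (nat_lit 52) (nat_lit 5) (nat_lit 52) (nat_lit 4) (nat_lit 439) (nat_lit 381) (nat_lit 380))) (XT.nd (nat_lit 78) (nat_lit 76) (nat_lit 0) (XT.lf (nat_lit 0) (nat_lit 4276473444) (nat_lit 152) (nat_lit 11701868457) (nat_lit 0) (nat_lit 3679329600) (nat_lit 49) (nat_lit 5) (nat_lit 51) (nat_lit 4) (nat_lit 49) (nat_lit 4) (nat_lit 440) (nat_lit 381) (nat_lit 379)) (XT.lf (nat_lit 0) (nat_lit 15796824003) (nat_lit 76) (nat_lit 2790577547) (nat_lit 76) (nat_lit 1927611122) (nat_lit 48) (nat_lit 4) (nat_lit 49) (nat_lit 5) (nat_lit 49) (nat_lit 4) (nat_lit 441) (nat_lit 381) (nat_lit 378)))) (XT.nd (nat_lit 156) (nat_lit 228) (nat_lit 0) (XT.nd (nat_lit 78) (nat_lit 152) (nat_lit 0) (XT.lf (nat_lit 0) (nat_lit 2138171075) (nat_lit 76) (nat_lit 10171832879) (nat_lit 76) (nat_lit 9115548648) (nat_lit 45) (nat_lit 4) (nat_lit 46) (nat_lit 5) (nat_lit 46) (nat_lit 4) (nat_lit 442) (nat_lit 381) (nat_lit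 377)) (XT.lf (nat_lit 0) (nat_lit 5140217656) (nat_lit 152) (nat_lit 13330788005) (nat_lit 0) (nat_lit 3927520640) (nat_lit 43) (nat_lit 5) (nat_lit 45) (nat_lit 4) (nat_lit 43) (nat_lit 4) (nat_lit 443) (nat_lit 381) (nat_lit 376))) (XT.nd (nat_lit 78) (nat_lit 152) (nat_lit 0) (XT.lf (nat_lit 0) (nat_lit 15775358506) (nat_lit 76) (nat_lit 4533021459) (nat_lit 76) (nat_lit 3128924412) (nat_lit 42) (nat_lit 4) (nat_lit 43) (nat_lit 5) (nat_lit 43) (nat_lit 4) (nat_lit 444) (nat_lit 381) (nat_lit 375)) (XT.lf (nat_lit 0) (nat_lit 11841119571) (nat_lit 152) (nat_lit 2368568418) (nat_lit 0) (nat_lit 10335101192) (nat_lit 40) (nat_lit 5) (nat_lit 42) (nat_lit 4) (nat_lit 40) (nat_lit 4) (nat_lit 445) (nat_lit 381) (nat_lit 374))))) (XT.nd (nat_lit 312) (nat_lit 456) (nat_lit 0) (XT.nd (nat_lit 156) (nat_lit 228) (nat_lit 0) (XT.nd (nat_lit 78) (nat_lit 76) (nat_lit 0) (XT.lf (nat_lit 0) (nat_lit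 2168220786) (nat_lit 152) (nat_lit 22979496865) (nat_lit 0) (nat_lit 585078858) (nat_lit 37) (nat_lit 5) (nat_lit 39) (nat_lit 4) (nat_lit 37) (nat_lit 4) (nat_lit 446) (nat_lit 381) (nat_lit 373)) (XT.lf (nat_lit 0) (nat_lit 7323501703) (nat_lit 76) (nat_lit 10695586354) (nat_lit 76) (nat_lit 8974630807) (nat_lit 36) (nat_lit 4) (nat_lit 37) (nat_lit 5) (nat_lit 37) (nat_lit 4) (nat_lit 447) (nat_lit 381) (nat_lit 372))) (XT.nd (nat_lit 78) (nat_lit 76) (nat_lit 0) (XT.lf (nat_lit 0) (nat_lit 6602505521) (nat_lit 152) (nat_lit 16903891418) (nat_lit 0) (nat_lit 4841971472) (nat_lit 34) (nat_lit 5) (nat_lit 36) (nat_lit 4) (nat_lit 34) (nat_lit 4) (nat_lit 448) (nat_lit 381) (nat_lit 371)) (XT.lf (nat_lit 0) (nat_lit 14863658340) (nat_lit 76) (nat_lit 8402841093) (nat_lit 76) (nat_lit 6529780410) (nat_lit 33) (nat_lit 4) (nat_lit 34) (nat_lit 5) (nat_lit 34) (nat_lit 4) (nat_lit 449) (nat_lit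 381) (nat_lit 370)))) (XT.nd (nat_lit 156) (nat_lit 228) (nat_lit 0) (XT.nd (nat_lit 78) (nat_lit 76) (nat_lit 0) (XT.lf (nat_lit 0) (nat_lit 9694737972) (nat_lit 152) (nat_lit 13840509619) (nat_lit 0) (nat_lit 7811640818) (nat_lit 31) (nat_lit 5) (nat_lit 33) (nat_lit 4) (nat_lit 31) (nat_lit 4) (nat_lit 450) (nat_lit 381) (nat_lit 369)) (XT.lf (nat_lit 0) (nat_lit 19260991592) (nat_lit 76) (nat_lit 7861733015) (nat_lit 76) (nat_lit 5886756383) (nat_lit 30) (nat_lit 4) (nat_lit 31) (nat_lit 5) (nat_lit 31) (nat_lit 4) (nat_lit 451) (nat_lit 381) (nat_lit 368))) (XT.nd (nat_lit 78) (nat_lit 76) (nat_lit 0) (XT.lf (nat_lit 0) (nat_lit 10926538002) (nat_lit 152) (nat_lit 14898101980) (nat_lit 0) (nat_lit 8964585409) (nat_lit 28) (nat_lit 5) (nat_lit 30) (nat_lit 4) (nat_lit 28) (nat_lit 4) (nat_lit 452) (nat_lit 381) (nat_lit 367)) (XT.lf (nat_lit 0) (nat_lit 19293787094) (nat_lit 76) (nat_lit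 9721441448) (nat_lit 76) (nat_lit 7684468052) (nat_lit 27) (nat_lit 4) (nat_lit 28) (nat_lit 5) (nat_lit 28) (nat_lit 4) (nat_lit 453) (nat_lit 381) (nat_lit 366)))))) (XT.nd (nat_lit 624) (nat_lit 608) (nat_lit 0) (XT.nd (nat_lit 312) (nat_lit 304) (nat_lit 0) (XT.nd (nat_lit 156) (nat_lit 152) (nat_lit 0) (XT.nd (nat_lit 78) (nat_lit 76) (nat_lit 0) (XT.lf (nat_lit 0) (nat_lit 9603493600) (nat_lit 152) (nat_lit 21548070948) (nat_lit 0) (nat_lit 7597363026) (nat_lit 25) (nat_lit 5) (nat_lit 27) (nat_lit 4) (nat_lit 25) (nat_lit 4) (nat_lit 454) (nat_lit 381) (nat_lit 365)) (XT.lf (nat_lit 0) (nat_lit 13337550928) (nat_lit 76) (nat_lit 14838546428) (nat_lit 76) (nat_lit 12771160381) (nat_lit 24) (nat_lit 4) (nat_lit 25) (nat_lit 5) (nat_lit 25) (nat_lit 4) (nat_lit 455) (nat_lit 381) (nat_lit 364))) (XT.nd (nat_lit 78) (nat_lit 0) (nat_lit 0) (XT.lf (nat_lit 0) (nat_lit 4802570750) (nat_lit 152)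 (nat_lit 35733096447) (nat_lit 0) (nat_lit 2779614485) (nat_lit 22) (nat_lit 5) (nat_lit 24) (nat_lit 4) (nat_lit 22) (nat_lit 4) (nat_lit 456) (nat_lit 381) (nat_lit 363)) (XT.lf (nat_lit 0) (nat_lit 23595218358) (nat_lit 152) (nat_lit 731792800) (nat_lit 0) (nat_lit 21522246192) (nat_lit 22) (nat_lit 5) (nat_lit 24) (nat_lit 4) (nat_lit 22) (nat_lit 4) (nat_lit 457) (nat_lit 381) (nat_lit 362)))) (XT.nd (nat_lit 156) (nat_lit 76) (nat_lit 0) (XT.nd (nat_lit 78) (nat_lit 152) (nat_lit 0) (XT.lf (nat_lit 0) (nat_lit 37353091427) (nat_lit 76) (nat_lit 6672708741) (nat_lit 76) (nat_lit 4553425557) (nat_lit 21) (nat_lit 4) (nat_lit 22) (nat_lit 5) (nat_lit 22) (nat_lit 4) (nat_lit 458) (nat_lit 381) (nat_lit 361)) (XT.lf (nat_lit 0) (nat_lit 14288490817) (nat_lit 152) (nat_lit 24988877130) (nat_lit 0) (nat_lit 12229287239) (nat_lit 19) (nat_lit 5) (nat_lit 21) (nat_lit 4) (nat_lit 19) (nat_lit 4)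 (nat_lit 459) (nat_lit 381) (nat_lit 360))) (XT.nd (nat_lit 78) (nat_lit 0) (nat_lit 0) (XT.lf (nat_lit 0) (nat_lit 12364406587) (nat_lit 76) (nat_lit 22196511740) (nat_lit 76) (nat_lit 20099494606) (nat_lit 18) (nat_lit 4) (nat_lit 19) (nat_lit 5) (nat_lit 19) (nat_lit 4) (nat_lit 460) (nat_lit 381) (nat_lit 359)) (XT.lf (nat_lit 0) (nat_lit 52773360938) (nat_lit 76) (nat_lit 3711819312) (nat_lit 76) (nat_lit 1579789625) (nat_lit 18) (nat_lit 4) (nat_lit 19) (nat_lit 5) (nat_lit 19) (nat_lit 4) (nat_lit 461) (nat_lit 381) (nat_lit 358))))) (XT.nd (nat_lit 312) (nat_lit 228) (nat_lit 0) (XT.nd (nat_lit 156) (nat_lit 152) (nat_lit 0) (XT.nd (nat_lit 78) (nat_lit 76) (nat_lit 0) (XT.lf (nat_lit 0) (nat_lit 18253755128) (nat_lit 152) (nat_lit 27260287498) (nat_lit 0) (nat_lit 16192375398) (nat_lit 16) (nat_lit 5) (nat_lit 18) (nat_lit 4) (nat_lit 16) (nat_lit 4) (nat_lit 462) (nat_lit 381) (nat_lit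 357)) (XT.lf (nat_lit 0) (nat_lit 11437580639) (nat_lit 76) (nat_lit 28146013477) (nat_lit 76) (nat_lit 26056045538) (nat_lit 15) (nat_lit 4) (nat_lit 16) (nat_lit 5) (nat_lit 16) (nat_lit 4) (nat_lit 463) (nat_lit 381) (nat_lit 356))) (XT.nd (nat_lit 78) (nat_lit 152) (nat_lit 0) (XT.lf (nat_lit 0) (nat_lit 53482513464) (nat_lit 76) (nat_lit 9257712114) (nat_lit 76) (nat_lit 7141273610) (nat_lit 15) (nat_lit 4) (nat_lit 16) (nat_lit 5) (nat_lit 16) (nat_lit 4) (nat_lit 464) (nat_lit 381) (nat_lit 355)) (XT.lf (nat_lit 0) (nat_lit 13085715700) (nat_lit 152) (nat_lit 50308688106) (nat_lit 0) (nat_lit 11046717333) (nat_lit 13) (nat_lit 5) (nat_lit 15) (nat_lit 4) (nat_lit 13) (nat_lit 4) (nat_lit 465) (nat_lit 381) (nat_lit 354)))) (XT.nd (nat_lit 156) (nat_lit 152) (nat_lit 0) (XT.nd (nat_lit 78) (nat_lit 76) (nat_lit 0) (XT.lf (nat_lit 0) (nat_lit 34806268814) (nat_lit 152) (nat_lit 11801454005)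 (nat_lit 0) (nat_lit 32745656882) (nat_lit 13) (nat_lit 5) (nat_lit 15) (nat_lit 4) (nat_lit 13) (nat_lit 4) (nat_lit 466) (nat_lit 381) (nat_lit 353)) (XT.lf (nat_lit 0) (nat_lit 30138964151) (nat_lit 76) (nat_lit 28295880352) (nat_lit 76) (nat_lit 26215255860) (nat_lit 12) (nat_lit 4) (nat_lit 13) (nat_lit 5) (nat_lit 13) (nat_lit 4) (nat_lit 467) (nat_lit 381) (nat_lit 352))) (XT.nd (nat_lit 78) (nat_lit 152) (nat_lit 0) (XT.lf (nat_lit 0) (nat_lit 75270610198) (nat_lit 76) (nat_lit 8601589382) (nat_lit 76) (nat_lit 6502434743) (nat_lit 12) (nat_lit 4) (nat_lit 13) (nat_lit 5) (nat_lit 13) (nat_lit 4) (nat_lit 468) (nat_lit 381) (nat_lit 351)) (XT.lf (nat_lit 0) (nat_lit 14678411721) (nat_lit 152) (nat_lit 69186085135) (nat_lit 0) (nat_lit 12662876309) (nat_lit 10) (nat_lit 5) (nat_lit 12) (nat_lit 4) (nat_lit 10) (nat_lit 4) (nat_lit 469) (nat_lit 381) (nat_lit 350))))))) (XT.nd (nat_lit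 1248) (nat_lit 228) (nat_lit 0) (XT.nd (nat_lit 624) (nat_lit 152) (nat_lit 0) (XT.nd (nat_lit 312) (nat_lit 228) (nat_lit 0) (XT.nd (nat_lit 156) (nat_lit 0) (nat_lit 0) (XT.nd (nat_lit 78) (nat_lit 76) (nat_lit 0) (XT.lf (nat_lit 0) (nat_lit 37478828264) (nat_lit 152) (nat_lit 30232364696) (nat_lit 0) (nat_lit 35448162742) (nat_lit 10) (nat_lit 5) (nat_lit 12) (nat_lit 4) (nat_lit 10) (nat_lit 4) (nat_lit 470) (nat_lit 381) (nat_lit 349)) (XT.lf (nat_lit 0) (nat_lit 11716564869) (nat_lit 76) (nat_lit 50326508660) (nat_lit 76) (nat_lit 48281833777) (nat_lit 9) (nat_lit 4) (nat_lit 10) (nat_lit 5) (nat_lit 10) (nat_lit 4) (nat_lit 471) (nat_lit 381) (nat_lit 348))) (XT.nd (nat_lit 78) (nat_lit 0) (nat_lit 0) (XT.lf (nat_lit 0) (nat_lit 57626464578) (nat_lit 76) (nat_lit 31240090186) (nat_lit 76) (nat_lit 29182443673) (nat_lit 9) (nat_lit 4) (nat_lit 10) (nat_lit 5) (nat_lit 10) (nat_lit 4) (nat_lit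 472) (nat_lit 381) (nat_lit 347)) (XT.lf (nat_lit 0) (nat_lit 106769774585) (nat_lit 76) (nat_lit 10850832562) (nat_lit 76) (nat_lit 8781175280) (nat_lit 9) (nat_lit 4) (nat_lit 10) (nat_lit 5) (nat_lit 10) (nat_lit 4) (nat_lit 473) (nat_lit 381) (nat_lit 346)))) (XT.nd (nat_lit 156) (nat_lit 76) (nat_lit 0) (XT.nd (nat_lit 78) (nat_lit 0) (nat_lit 0) (XT.lf (nat_lit 0) (nat_lit 13190087409) (nat_lit 152) (nat_lit 110995860691) (nat_lit 0) (nat_lit 11208393729) (nat_lit 7) (nat_lit 5) (nat_lit 9) (nat_lit 4) (nat_lit 7) (nat_lit 4) (nat_lit 474) (nat_lit 381) (nat_lit 345)) (XT.lf (nat_lit 0) (nat_lit 36949118774) (nat_lit 152) (nat_lit 73175485679) (nat_lit 0) (nat_lit 34957618143) (nat_lit 7) (nat_lit 5) (nat_lit 9) (nat_lit 4) (nat_lit 7) (nat_lit 4) (nat_lit 475) (nat_lit 381) (nat_lit 344))) (XT.nd (nat_lit 78) (nat_lit 76) (nat_lit 0) (XT.lf (nat_lit 0) (nat_lit 62426517423) (nat_lit 152)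 (nat_lit 32701798032) (nat_lit 0) (nat_lit 60425936283) (nat_lit 7) (nat_lit 5) (nat_lit 9) (nat_lit 4) (nat_lit 7) (nat_lit 4) (nat_lit 476) (nat_lit 381) (nat_lit 343)) (XT.lf (nat_lit 0) (nat_lit 11017680919) (nat_lit 76) (nat_lit 78927596490) (nat_lit 76) (nat_lit 76918607470) (nat_lit 6) (nat_lit 4) (nat_lit 7) (nat_lit 5) (nat_lit 7) (nat_lit 4) (nat_lit 477) (nat_lit 381) (nat_lit 342))))) (XT.nd (nat_lit 312) (nat_lit 0) (nat_lit 0) (XT.nd (nat_lit 156) (nat_lit 152) (nat_lit 0) (XT.nd (nat_lit 78) (nat_lit 0) (nat_lit 0) (XT.lf (nat_lit 0) (nat_lit 59072732451) (nat_lit 76) (nat_lit 61000961333) (nat_lit 76) (nat_lit 58984187239) (nat_lit 6) (nat_lit 4) (nat_lit 7) (nat_lit 5) (nat_lit 7) (nat_lit 4) (nat_lit 478) (nat_lit 381) (nat_lit 341)) (XT.lf (nat_lit 0) (nat_lit 110666858110) (nat_lit 76) (nat_lit 41795998845) (nat_lit 76) (nat_lit 39772016350) (nat_lit 6) (nat_lit 4) (nat_lit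 7) (nat_lit 5) (nat_lit 7) (nat_lit 4) (nat_lit 479) (nat_lit 381) (nat_lit 340))) (XT.nd (nat_lit 78) (nat_lit 152) (nat_lit 0) (XT.lf (nat_lit 0) (nat_lit 166105800862) (nat_lit 76) (nat_lit 21198901842) (nat_lit 76) (nat_lit 19168244900) (nat_lit 6) (nat_lit 4) (nat_lit 7) (nat_lit 5) (nat_lit 7) (nat_lit 4) (nat_lit 480) (nat_lit 381) (nat_lit 339)) (XT.lf (nat_lit 0) (nat_lit 2932379955) (nat_lit 152) (nat_lit 217925382748) (nat_lit 0) (nat_lit 992535208) (nat_lit 4) (nat_lit 5) (nat_lit 6) (nat_lit 4) (nat_lit 4) (nat_lit 4) (nat_lit 481) (nat_lit 381) (nat_lit 338)))) (XT.nd (nat_lit 156) (nat_lit 0) (nat_lit 0) (XT.nd (nat_lit 78) (nat_lit 0) (nat_lit 0) (XT.lf (nat_lit 0) (nat_lit 27083973489) (nat_lit 152) (nat_lit 186171748171) (nat_lit 0) (nat_lit 25138678969) (nat_lit 4) (nat_lit 5) (nat_lit 6) (nat_lit 4) (nat_lit 4) (nat_lit 4) (nat_lit 482) (nat_lit 381) (nat_lit 337)) (XT.lf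 (nat_lit 0) (nat_lit 53050429027) (nat_lit 152) (nat_lit 152117377473) (nat_lit 0) (nat_lit 51100088421) (nat_lit 4) (nat_lit 5) (nat_lit 6) (nat_lit 4) (nat_lit 4) (nat_lit 4) (nat_lit 483) (nat_lit 381) (nat_lit 336))) (XT.nd (nat_lit 78) (nat_lit 0) (nat_lit 0) (XT.lf (nat_lit 0) (nat_lit 80985621861) (nat_lit 152) (nat_lit 115560466976) (nat_lit 0) (nat_lit 79030608954) (nat_lit 4) (nat_lit 5) (nat_lit 6) (nat_lit 4) (nat_lit 4) (nat_lit 4) (nat_lit 484) (nat_lit 381) (nat_lit 335)) (XT.lf (nat_lit 0) (nat_lit 111055093876) (nat_lit 152) (nat_lit 76284383137) (nat_lit 0) (nat_lit 109095754763) (nat_lit 4) (nat_lit 5) (nat_lit 6) (nat_lit 4) (nat_lit 4) (nat_lit 4) (nat_lit 485) (nat_lit 381) (nat_lit 334)))))) (XT.nd (nat_lit 624) (nat_lit 152) (nat_lit 0) (XT.nd (nat_lit 312) (nat_lit 0) (nat_lit 0) (XT.nd (nat_lit 156) (nat_lit 0) (nat_lit 0) (XT.nd (nat_lit 78) (nat_lit 76) (nat_lit 0)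 (XT.lf (nat_lit 0) (nat_lit 143437034535) (nat_lit 152) (nat_lit 34056378791) (nat_lit 0) (nat_lit 141473689676) (nat_lit 4) (nat_lit 5) (nat_lit 6) (nat_lit 4) (nat_lit 4) (nat_lit 4) (nat_lit 486) (nat_lit 381) (nat_lit 333)) (XT.lf (nat_lit 0) (nat_lit 11749854819) (nat_lit 76) (nat_lit 166756930163) (nat_lit 76) (nat_lit 164789876281) (nat_lit 3) (nat_lit 4) (nat_lit 4) (nat_lit 5) (nat_lit 4) (nat_lit 4) (nat_lit 487) (nat_lit 381) (nat_lit 332))) (XT.nd (nat_lit 78) (nat_lit 0) (nat_lit 0) (XT.lf (nat_lit 0) (nat_lit 62268301818) (nat_lit 76) (nat_lit 154624615253) (nat_lit 76) (nat_lit 152654127089) (nat_lit 3) (nat_lit 4) (nat_lit 4) (nat_lit 5) (nat_lit 4) (nat_lit 4) (nat_lit 488) (nat_lit 381) (nat_lit 331)) (XT.lf (nat_lit 0) (nat_lit 116672273094) (nat_lit 76) (nat_lit 141601334651) (nat_lit 76) (nat_lit 139627666597) (nat_lit 3) (nat_lit 4) (nat_lit 4) (nat_lit 5) (nat_lit 4) (nat_lit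 4) (nat_lit 489) (nat_lit 381) (nat_lit 330)))) (XT.nd (nat_lit 156) (nat_lit 0) (nat_lit 0) (XT.nd (nat_lit 78) (nat_lit 0) (nat_lit 0) (XT.lf (nat_lit 0) (nat_lit 175284162551) (nat_lit 76) (nat_lit 127609913361) (nat_lit 76) (nat_lit 125633300963) (nat_lit 3) (nat_lit 4) (nat_lit 4) (nat_lit 5) (nat_lit 4) (nat_lit 4) (nat_lit 490) (nat_lit 381) (nat_lit 329)) (XT.lf (nat_lit 0) (nat_lit 238451299905) (nat_lit 76) (nat_lit 112567439256) (nat_lit 76) (nat_lit 110588100615) (nat_lit 3) (nat_lit 4) (nat_lit 4) (nat_lit 5) (nat_lit 4) (nat_lit 4) (nat_lit 491) (nat_lit 381) (nat_lit 328))) (XT.nd (nat_lit 78) (nat_lit 0) (nat_lit 0) (XT.lf (nat_lit 0) (nat_lit 306548008931) (nat_lit 76) (nat_lit 96384771749) (nat_lit 76) (nat_lit 94402908809) (nat_lit 3) (nat_lit 4) (nat_lit 4) (nat_lit 5) (nat_lit 4) (nat_lit 4) (nat_lit 492) (nat_lit 381) (nat_lit 327)) (XT.lf (nat_lit 0) (nat_lit 379977825684)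 (nat_lit 76) (nat_lit 78966013551) (nat_lit 76) (nat_lit 76981813297) (nat_lit 3) (nat_lit 4) (nat_lit 4) (nat_lit 5) (nat_lit 4) (nat_lit 4) (nat_lit 493) (nat_lit 381) (nat_lit 326))))) (XT.nd (nat_lit 312) (nat_lit 0) (nat_lit 0) (XT.nd (nat_lit 156) (nat_lit 152) (nat_lit 0) (XT.nd (nat_lit 78) (nat_lit 0) (nat_lit 0) (XT.lf (nat_lit 0) (nat_lit 459175889819) (nat_lit 76) (nat_lit 60207942392) (nat_lit 76) (nat_lit 58221577959) (nat_lit 3) (nat_lit 4) (nat_lit 4) (nat_lit 5) (nat_lit 4) (nat_lit 4) (nat_lit 494) (nat_lit 381) (nat_lit 325)) (XT.lf (nat_lit 0) (nat_lit 544611523197) (nat_lit 76) (nat_lit 39999399332) (nat_lit 76) (nat_lit 38011031028) (nat_lit 3) (nat_lit 4) (nat_lit 4) (nat_lit 5) (nat_lit 4) (nat_lit 4) (nat_lit 495) (nat_lit 381) (nat_lit 324))) (XT.nd (nat_lit 78) (nat_lit 152) (nat_lit 0) (XT.lf (nat_lit 0) (nat_lit 636791011052) (nat_lit 76) (nat_lit 18220630040) (nat_lit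 76) (nat_lit 16230406301) (nat_lit 3) (nat_lit 4) (nat_lit 4) (nat_lit 5) (nat_lit 4) (nat_lit 4) (nat_lit 496) (nat_lit 381) (nat_lit 323)) (XT.lf (nat_lit 0) (nat_lit 7304454090) (nat_lit 152) (nat_lit 711021975171) (nat_lit 0) (nat_lit 5407366723) (nat_lit 1) (nat_lit 5) (nat_lit 3) (nat_lit 4) (nat_lit 1) (nat_lit 4) (nat_lit 497) (nat_lit 381) (nat_lit 322)))) (XT.nd (nat_lit 156) (nat_lit 0) (nat_lit 0) (XT.nd (nat_lit 78) (nat_lit 0) (nat_lit 0) (XT.lf (nat_lit 0) (nat_lit 33037513799) (nat_lit 152) (nat_lit 716190953388) (nat_lit 0) (nat_lit 31138911445) (nat_lit 1) (nat_lit 5) (nat_lit 3) (nat_lit 4) (nat_lit 1) (nat_lit 4) (nat_lit 498) (nat_lit 381) (nat_lit 321)) (XT.lf (nat_lit 0) (nat_lit 60791493209) (nat_lit 152) (nat_lit 721850552872) (nat_lit 0) (nat_lit 58891488089) (nat_lit 1) (nat_lit 5) (nat_lit 3) (nat_lit 4) (nat_lit 1) (nat_lit 4) (nat_lit 499) (nat_lit 381) (nat_lit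 320))) (XT.nd (nat_lit 78) (nat_lit 0) (nat_lit 0) (XT.lf (nat_lit 0) (nat_lit 90730860345) (nat_lit 152) (nat_lit 728034311991) (nat_lit 0) (nat_lit 88829556367) (nat_lit 1) (nat_lit 5) (nat_lit 3) (nat_lit 4) (nat_lit 1) (nat_lit 4) (nat_lit 500) (nat_lit 381) (nat_lit 319)) (XT.lf (nat_lit 0) (nat_lit 123033033679) (nat_lit 152) (nat_lit 734778875244) (nat_lit 0) (nat_lit 121130527055) (nat_lit 1) (nat_lit 5) (nat_lit 3) (nat_lit 4) (nat_lit 1) (nat_lit 4) (nat_lit 501) (nat_lit 381) (nat_lit 318))))))))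
noncomputable def xc20 : XT := (XT.nd (nat_lit 59280) (nat_lit 0) (nat_lit 152) (XT.nd (nat_lit 58032) (nat_lit 0) (nat_lit 1368) (XT.nd (nat_lit 57408) (nat_lit 0) (nat_lit 3116) (XT.nd (nat_lit 234) (nat_lit 0) (nat_lit 0) (XT.nd (nat_lit 78) (nat_lit 0) (nat_lit 0) (XT.lf (nat_lit 0) (nat_lit 157889433498) (nat_lit 152) (nat_lit 742124210412) (nat_lit 0) (nat_lit 155985813313) (nat_lit 1) (nat_lit 5) (nat_lit 3) (nat_lit 4) (nat_lit 1) (nat_lit 4) (nat_lit 502) (nat_lit 381) (nat_lit 317)) (XT.nd (nat_lit 78) (nat_lit 0) (nat_lit 0) (XT.lf (nat_lit 0) (nat_lit 195506616244) (nat_lit 152) (nat_lit 750113845407) (nat_lit 0) (nat_lit 193601964985) (nat_lit 1) (nat_lit 5) (nat_lit 3) (nat_lit 4) (nat_lit 1) (nat_lit 4) (nat_lit 503) (nat_lit 381) (nat_lit 316)) (XT.lf (nat_lit 0) (nat_lit 236107498558) (nat_lit 152) (nat_lit 758795126216) (nat_lit 0) (nat_lit 234201892599) (nat_lit 1) (nat_lit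 5) (nat_lit 3) (nat_lit 4) (nat_lit 1) (nat_lit 4) (nat_lit 504) (nat_lit 381) (nat_lit 315)))) (XT.nd (nat_lit 156) (nat_lit 0) (nat_lit 0) (XT.nd (nat_lit 78) (nat_lit 0) (nat_lit 0) (XT.lf (nat_lit 0) (nat_lit 279932678259) (nat_lit 152) (nat_lit 768219497464) (nat_lit 0) (nat_lit 278026188319) (nat_lit 1) (nat_lit 5) (nat_lit 3) (nat_lit 4) (nat_lit 1) (nat_lit 4) (nat_lit 505) (nat_lit 381) (nat_lit 314)) (XT.lf (nat_lit 0) (nat_lit 327241860116) (nat_lit 152) (nat_lit 778442807278) (nat_lit 0) (nat_lit 325334551676) (nat_lit 1) (nat_lit 5) (nat_lit 3) (nat_lit 4) (nat_lit 1) (nat_lit 4) (nat_lit 506) (nat_lit 381) (nat_lit 313))) (XT.nd (nat_lit 56940) (nat_lit 0) (nat_lit 4332) (XT.lf (nat_lit 0) (nat_lit 378315394836) (nat_lit 152) (nat_lit 789525638234) (nat_lit 0) (nat_lit 376407328526) (nat_lit 1) (nat_lit 5) (nat_lit 3) (nat_lit 4) (nat_lit 1) (nat_lit 4) (nat_lit 507) (nat_lit 381)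 (nat_lit 312)) (XT.lf (nat_lit 0) (nat_lit 2847035650) (nat_lit 152) (nat_lit 2659776781) (nat_lit 0) (nat_lit 2847035650) (nat_lit 58) (nat_lit 5) (nat_lit 60) (nat_lit 4) (nat_lit 58) (nat_lit 4) (nat_lit 436) (nat_lit 382) (nat_lit 382))))) (XT.nd (nat_lit 312) (nat_lit 532) (nat_lit 0) (XT.nd (nat_lit 156) (nat_lit 380) (nat_lit 0) (XT.nd (nat_lit 78) (nat_lit 76) (nat_lit 0) (XT.lf (nat_lit 0) (nat_lit 1293887108) (nat_lit 152) (nat_lit 15174558428) (nat_lit 0) (nat_lit 924704075) (nat_lit 55) (nat_lit 5) (nat_lit 57) (nat_lit 4) (nat_lit 55) (nat_lit 4) (nat_lit 437) (nat_lit 382) (nat_lit 381)) (XT.lf (nat_lit 0) (nat_lit 9887310163) (nat_lit 76) (nat_lit 4470130632) (nat_lit 76) (nat_lit 3759111457) (nat_lit 54) (nat_lit 4) (nat_lit 55) (nat_lit 5) (nat_lit 55) (nat_lit 4) (nat_lit 438) (nat_lit 382) (nat_lit 380))) (XT.nd (nat_lit 78) (nat_lit 228) (nat_lit 0) (XT.lf (nat_lit 0) (nat_lit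 9284304533) (nat_lit 152) (nat_lit 1299242801) (nat_lit 0) (nat_lit 8305700608) (nat_lit 52) (nat_lit 5) (nat_lit 54) (nat_lit 4) (nat_lit 52) (nat_lit 4) (nat_lit 439) (nat_lit 382) (nat_lit 379)) (XT.lf (nat_lit 0) (nat_lit 3518190784) (nat_lit 152) (nat_lit 13873780304) (nat_lit 0) (nat_lit 2320364466) (nat_lit 49) (nat_lit 5) (nat_lit 51) (nat_lit 4) (nat_lit 49) (nat_lit 4) (nat_lit 440) (nat_lit 382) (nat_lit 378)))) (XT.nd (nat_lit 156) (nat_lit 304) (nat_lit 0) (XT.nd (nat_lit 78) (nat_lit 152) (nat_lit 0) (XT.lf (nat_lit 0) (nat_lit 12913152169) (nat_lit 76) (nat_lit 4559162538) (nat_lit 76) (nat_lit 3115204201) (nat_lit 48) (nat_lit 4) (nat_lit 49) (nat_lit 5) (nat_lit 49) (nat_lit 4) (nat_lit 441) (nat_lit 382) (nat_lit 377)) (XT.lf (nat_lit 0) (nat_lit 10733581960) (nat_lit 152) (nat_lit 1645411759) (nat_lit 0) (nat_lit 9141335908) (nat_lit 46) (nat_lit 5) (nat_lit 48) (nat_lit 4)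 (nat_lit 46) (nat_lit 4) (nat_lit 442) (nat_lit 382) (nat_lit 376))) (XT.nd (nat_lit 78) (nat_lit 76) (nat_lit 0) (XT.lf (nat_lit 0) (nat_lit 3072940718) (nat_lit 152) (nat_lit 18079031212) (nat_lit 0) (nat_lit 1365115876) (nat_lit 43) (nat_lit 5) (nat_lit 45) (nat_lit 4) (nat_lit 43) (nat_lit 4) (nat_lit 443) (nat_lit 382) (nat_lit 375)) (XT.lf (nat_lit 0) (nat_lit 10250987399) (nat_lit 76) (nat_lit 7604601355) (nat_lit 76) (nat_lit 5719554262) (nat_lit 42) (nat_lit 4) (nat_lit 43) (nat_lit 5) (nat_lit 43) (nat_lit 4) (nat_lit 444) (nat_lit 382) (nat_lit 374)))))) (XT.nd (nat_lit 624) (nat_lit 684) (nat_lit 0) (XT.nd (nat_lit 312) (nat_lit 456) (nat_lit 0) (XT.nd (nat_lit 156) (nat_lit 380) (nat_lit 0) (XT.nd (nat_lit 78) (nat_lit 76) (nat_lit 0) (XT.lf (nat_lit 0) (nat_lit 8887773734) (nat_lit 152) (nat_lit 8882949164) (nat_lit 0) (nat_lit 6936210143) (nat_lit 40) (nat_lit 5) (nat_lit 42) (nat_lit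 4) (nat_lit 40) (nat_lit 4) (nat_lit 445) (nat_lit 382) (nat_lit 373)) (XT.lf (nat_lit 0) (nat_lit 21130415873) (nat_lit 76) (nat_lit 3442476527) (nat_lit 76) (nat_lit 1346208635) (nat_lit 39) (nat_lit 4) (nat_lit 40) (nat_lit 5) (nat_lit 40) (nat_lit 4) (nat_lit 446) (nat_lit 382) (nat_lit 372))) (XT.nd (nat_lit 78) (nat_lit 228) (nat_lit 0) (XT.lf (nat_lit 0) (nat_lit 14013529879) (nat_lit 152) (nat_lit 1304777166) (nat_lit 0) (nat_lit 11889479064) (nat_lit 37) (nat_lit 5) (nat_lit 39) (nat_lit 4) (nat_lit 37) (nat_lit 4) (nat_lit 447) (nat_lit 382) (nat_lit 371)) (XT.lf (nat_lit 0) (nat_lit 1832406233) (nat_lit 76) (nat_lit 155208407) (nat_lit 152) (nat_lit 26604631919) (nat_lit 34) (nat_lit 5) (nat_lit 35) (nat_lit 5) (nat_lit 36) (nat_lit 4) (nat_lit 448) (nat_lit 382) (nat_lit 370)))) (XT.nd (nat_lit 156) (nat_lit 228) (nat_lit 0) (XT.nd (nat_lit 78) (nat_lit 152) (nat_lit 0) (XT.lf (nat_lit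 0) (nat_lit 4118092857) (nat_lit 76) (nat_lit 14091885491) (nat_lit 76) (nat_lit 11852261991) (nat_lit 33) (nat_lit 4) (nat_lit 34) (nat_lit 5) (nat_lit 34) (nat_lit 4) (nat_lit 449) (nat_lit 382) (nat_lit 369)) (XT.lf (nat_lit 0) (nat_lit 3996555818) (nat_lit 152) (nat_lit 25876049849) (nat_lit 0) (nat_lit 1771701578) (nat_lit 31) (nat_lit 5) (nat_lit 33) (nat_lit 4) (nat_lit 31) (nat_lit 4) (nat_lit 450) (nat_lit 382) (nat_lit 368))) (XT.nd (nat_lit 78) (nat_lit 152) (nat_lit 0) (XT.lf (nat_lit 0) (nat_lit 6291920216) (nat_lit 76) (nat_lit 14673921579) (nat_lit 76) (nat_lit 12363993747) (nat_lit 30) (nat_lit 4) (nat_lit 31) (nat_lit 5) (nat_lit 31) (nat_lit 4) (nat_lit 451) (nat_lit 382) (nat_lit 367)) (XT.lf (nat_lit 0) (nat_lit 4071150439) (nat_lit 152) (nat_lit 29276561242) (nat_lit 0) (nat_lit 1796198368) (nat_lit 28) (nat_lit 5) (nat_lit 30) (nat_lit 4) (nat_lit 28) (nat_lit 4) (nat_lit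 452) (nat_lit 382) (nat_lit 366))))) (XT.nd (nat_lit 312) (nat_lit 380) (nat_lit 0) (XT.nd (nat_lit 156) (nat_lit 76) (nat_lit 0) (XT.nd (nat_lit 78) (nat_lit 152) (nat_lit 0) (XT.lf (nat_lit 0) (nat_lit 3933372612) (nat_lit 76) (nat_lit 17744755313) (nat_lit 76) (nat_lit 15400339535) (nat_lit 27) (nat_lit 4) (nat_lit 28) (nat_lit 5) (nat_lit 28) (nat_lit 4) (nat_lit 453) (nat_lit 382) (nat_lit 365)) (XT.lf (nat_lit 0) (nat_lit 701821722) (nat_lit 76) (nat_lit 815522544) (nat_lit 152) (nat_lit 37647239682) (nat_lit 25) (nat_lit 5) (nat_lit 26) (nat_lit 5) (nat_lit 27) (nat_lit 4) (nat_lit 454) (nat_lit 382) (nat_lit 364))) (XT.nd (nat_lit 78) (nat_lit 76) (nat_lit 0) (XT.lf (nat_lit 0) (nat_lit 19640570854) (nat_lit 152) (nat_lit 4454992151) (nat_lit 0) (nat_lit 17289820419) (nat_lit 25) (nat_lit 5) (nat_lit 27) (nat_lit 4) (nat_lit 25) (nat_lit 4) (nat_lit 455) (nat_lit 382) (nat_lit 363)) (XT.lf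 (nat_lit 0) (nat_lit 32403718869) (nat_lit 76) (nat_lit 6889703820) (nat_lit 76) (nat_lit 4486436690) (nat_lit 24) (nat_lit 4) (nat_lit 25) (nat_lit 5) (nat_lit 25) (nat_lit 4) (nat_lit 456) (nat_lit 382) (nat_lit 362)))) (XT.nd (nat_lit 156) (nat_lit 152) (nat_lit 0) (XT.nd (nat_lit 78) (nat_lit 76) (nat_lit 0) (XT.lf (nat_lit 0) (nat_lit 13940039350) (nat_lit 152) (nat_lit 20797884146) (nat_lit 0) (nat_lit 11604902493) (nat_lit 22) (nat_lit 5) (nat_lit 24) (nat_lit 4) (nat_lit 22) (nat_lit 4) (nat_lit 457) (nat_lit 382) (nat_lit 361)) (XT.lf (nat_lit 0) (nat_lit 16204092234) (nat_lit 76) (nat_lit 17636607976) (nat_lit 76) (nat_lit 15258590546) (nat_lit 21) (nat_lit 4) (nat_lit 22) (nat_lit 5) (nat_lit 22) (nat_lit 4) (nat_lit 458) (nat_lit 382) (nat_lit 360))) (XT.nd (nat_lit 78) (nat_lit 0) (nat_lit 0) (XT.lf (nat_lit 0) (nat_lit 3195819459) (nat_lit 152) (nat_lit 47982537470) (nat_lit 0)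 (nat_lit 893227398) (nat_lit 19) (nat_lit 5) (nat_lit 21) (nat_lit 4) (nat_lit 19) (nat_lit 4) (nat_lit 459) (nat_lit 382) (nat_lit 359)) (XT.lf (nat_lit 0) (nat_lit 23086564349) (nat_lit 152) (nat_lit 11408902401) (nat_lit 0) (nat_lit 20748959736) (nat_lit 19) (nat_lit 5) (nat_lit 21) (nat_lit 4) (nat_lit 19) (nat_lit 4) (nat_lit 460) (nat_lit 382) (nat_lit 358))))))) (XT.nd (nat_lit 1248) (nat_lit 304) (nat_lit 0) (XT.nd (nat_lit 624) (nat_lit 380) (nat_lit 0) (XT.nd (nat_lit 312) (nat_lit 228) (nat_lit 0) (XT.nd (nat_lit 156) (nat_lit 76) (nat_lit 0) (XT.nd (nat_lit 78) (nat_lit 152) (nat_lit 0) (XT.lf (nat_lit 0) (nat_lit 28255595969) (nat_lit 76) (nat_lit 16390816038) (nat_lit 76) (nat_lit 14020792395) (nat_lit 18) (nat_lit 4) (nat_lit 19) (nat_lit 5) (nat_lit 19) (nat_lit 4) (nat_lit 461) (nat_lit 382) (nat_lit 357)) (XT.lf (nat_lit 0) (nat_lit 5422996987) (nat_lit 152) (nat_lit 53797521595)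 (nat_lit 0) (nat_lit 3137243402) (nat_lit 16) (nat_lit 5) (nat_lit 18) (nat_lit 4) (nat_lit 16) (nat_lit 4) (nat_lit 462) (nat_lit 382) (nat_lit 356))) (XT.nd (nat_lit 78) (nat_lit 76) (nat_lit 0) (XT.lf (nat_lit 0) (nat_lit 26409275126) (nat_lit 152) (nat_lit 15801835764) (nat_lit 0) (nat_lit 24097050978) (nat_lit 16) (nat_lit 5) (nat_lit 18) (nat_lit 4) (nat_lit 16) (nat_lit 4) (nat_lit 463) (nat_lit 382) (nat_lit 355)) (XT.lf (nat_lit 0) (nat_lit 25399115565) (nat_lit 76) (nat_lit 23754136349) (nat_lit 76) (nat_lit 21417402418) (nat_lit 15) (nat_lit 4) (nat_lit 16) (nat_lit 5) (nat_lit 16) (nat_lit 4) (nat_lit 464) (nat_lit 382) (nat_lit 354)))) (XT.nd (nat_lit 156) (nat_lit 76) (nat_lit 0) (XT.nd (nat_lit 78) (nat_lit 152) (nat_lit 0) (XT.lf (nat_lit 0) (nat_lit 69841233500) (nat_lit 76) (nat_lit 3846886299) (nat_lit 76) (nat_lit 1487458126) (nat_lit 15) (nat_lit 4) (nat_lit 16) (nat_lit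 5) (nat_lit 16) (nat_lit 4) (nat_lit 465) (nat_lit 382) (nat_lit 353)) (XT.lf (nat_lit 0) (nat_lit 19988878910) (nat_lit 152) (nat_lit 42392918206) (nat_lit 0) (nat_lit 17721791900) (nat_lit 13) (nat_lit 5) (nat_lit 15) (nat_lit 4) (nat_lit 13) (nat_lit 4) (nat_lit 466) (nat_lit 382) (nat_lit 352))) (XT.nd (nat_lit 78) (nat_lit 76) (nat_lit 0) (XT.lf (nat_lit 0) (nat_lit 43013275832) (nat_lit 152) (nat_lit 1689584262) (nat_lit 0) (nat_lit 40727658674) (nat_lit 13) (nat_lit 5) (nat_lit 15) (nat_lit 4) (nat_lit 13) (nat_lit 4) (nat_lit 467) (nat_lit 382) (nat_lit 351)) (XT.lf (nat_lit 0) (nat_lit 43125587666) (nat_lit 76) (nat_lit 25169996128) (nat_lit 76) (nat_lit 22867221426) (nat_lit 12) (nat_lit 4) (nat_lit 13) (nat_lit 5) (nat_lit 13) (nat_lit 4) (nat_lit 468) (nat_lit 382) (nat_lit 350))))) (XT.nd (nat_lit 312) (nat_lit 152) (nat_lit 0) (XT.nd (nat_lit 156) (nat_lit 76) (nat_lit 0) (XT.nd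 (nat_lit 78) (nat_lit 152) (nat_lit 0) (XT.lf (nat_lit 0) (nat_lit 91084394554) (nat_lit 76) (nat_lit 4299388151) (nat_lit 76) (nat_lit 1980726834) (nat_lit 12) (nat_lit 4) (nat_lit 13) (nat_lit 5) (nat_lit 13) (nat_lit 4) (nat_lit 469) (nat_lit 382) (nat_lit 349)) (XT.lf (nat_lit 0) (nat_lit 20596116262) (nat_lit 152) (nat_lit 65042412587) (nat_lit 0) (nat_lit 18373858028) (nat_lit 10) (nat_lit 5) (nat_lit 12) (nat_lit 4) (nat_lit 10) (nat_lit 4) (nat_lit 470) (nat_lit 382) (nat_lit 348))) (XT.nd (nat_lit 78) (nat_lit 76) (nat_lit 0) (XT.lf (nat_lit 0) (nat_lit 44869200825) (nat_lit 152) (nat_lit 23689324835) (nat_lit 0) (nat_lit 42633970960) (nat_lit 10) (nat_lit 5) (nat_lit 12) (nat_lit 4) (nat_lit 10) (nat_lit 4) (nat_lit 471) (nat_lit 382) (nat_lit 347)) (XT.lf (nat_lit 0) (nat_lit 21226057618) (nat_lit 76) (nat_lit 49981025407) (nat_lit 76) (nat_lit 47733784774) (nat_lit 9) (nat_lit 4)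 (nat_lit 10) (nat_lit 5) (nat_lit 10) (nat_lit 4) (nat_lit 472) (nat_lit 382) (nat_lit 346)))) (XT.nd (nat_lit 156) (nat_lit 152) (nat_lit 0) (XT.nd (nat_lit 78) (nat_lit 0) (nat_lit 0) (XT.lf (nat_lit 0) (nat_lit 70173773929) (nat_lit 76) (nat_lit 29691515970) (nat_lit 76) (nat_lit 27433154255) (nat_lit 9) (nat_lit 4) (nat_lit 10) (nat_lit 5) (nat_lit 10) (nat_lit 4) (nat_lit 473) (nat_lit 382) (nat_lit 345)) (XT.lf (nat_lit 0) (nat_lit 122660608575) (nat_lit 76) (nat_lit 7970953397) (nat_lit 76) (nat_lit 5702294384) (nat_lit 9) (nat_lit 4) (nat_lit 10) (nat_lit 5) (nat_lit 10) (nat_lit 4) (nat_lit 474) (nat_lit 382) (nat_lit 344))) (XT.nd (nat_lit 78) (nat_lit 0) (nat_lit 0) (XT.lf (nat_lit 0) (nat_lit 17802974707) (nat_lit 152) (nat_lit 112611760930) (nat_lit 0) (nat_lit 15633266565) (nat_lit 7) (nat_lit 5) (nat_lit 9) (nat_lit 4) (nat_lit 7) (nat_lit 4) (nat_lit 475) (nat_lit 382) (nat_lit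 343)) (XT.lf (nat_lit 0) (nat_lit 43199196707) (nat_lit 152) (nat_lit 72303812852) (nat_lit 0) (nat_lit 41021080685) (nat_lit 7) (nat_lit 5) (nat_lit 9) (nat_lit 4) (nat_lit 7) (nat_lit 4) (nat_lit 476) (nat_lit 382) (nat_lit 342)))))) (XT.nd (nat_lit 624) (nat_lit 76) (nat_lit 0) (XT.nd (nat_lit 312) (nat_lit 152) (nat_lit 0) (XT.nd (nat_lit 156) (nat_lit 0) (nat_lit 0) (XT.nd (nat_lit 78) (nat_lit 76) (nat_lit 0) (XT.lf (nat_lit 0) (nat_lit 70470776254) (nat_lit 152) (nat_lit 29090431059) (nat_lit 0) (nat_lit 68284875158) (nat_lit 7) (nat_lit 5) (nat_lit 9) (nat_lit 4) (nat_lit 7) (nat_lit 4) (nat_lit 477) (nat_lit 382) (nat_lit 341)) (XT.lf (nat_lit 0) (nat_lit 17855966178) (nat_lit 76) (nat_lit 82202138202) (nat_lit 76) (nat_lit 80009028705) (nat_lit 6) (nat_lit 4) (nat_lit 7) (nat_lit 5) (nat_lit 7) (nat_lit 4) (nat_lit 478) (nat_lit 382) (nat_lit 340))) (XT.nd (nat_lit 78) (nat_lit 0) (nat_lit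 0) (XT.lf (nat_lit 0) (nat_lit 69314172145) (nat_lit 76) (nat_lit 63066532677) (nat_lit 76) (nat_lit 60866748734) (nat_lit 6) (nat_lit 4) (nat_lit 7) (nat_lit 5) (nat_lit 7) (nat_lit 4) (nat_lit 479) (nat_lit 382) (nat_lit 339)) (XT.lf (nat_lit 0) (nat_lit 124627263330) (nat_lit 76) (nat_lit 42533655083) (nat_lit 76) (nat_lit 40327691098) (nat_lit 6) (nat_lit 4) (nat_lit 7) (nat_lit 5) (nat_lit 7) (nat_lit 4) (nat_lit 480) (nat_lit 382) (nat_lit 338)))) (XT.nd (nat_lit 156) (nat_lit 0) (nat_lit 0) (XT.nd (nat_lit 78) (nat_lit 152) (nat_lit 0) (XT.lf (nat_lit 0) (nat_lit 184123021016) (nat_lit 76) (nat_lit 20481829110) (nat_lit 76) (nat_lit 18270142863) (nat_lit 6) (nat_lit 4) (nat_lit 7) (nat_lit 5) (nat_lit 7) (nat_lit 4) (nat_lit 481) (nat_lit 382) (nat_lit 337)) (XT.lf (nat_lit 0) (nat_lit 5454774725) (nat_lit 152) (nat_lit 230685794373) (nat_lit 0) (nat_lit 3343360785) (nat_lit 4) (nat_lit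 5) (nat_lit 6) (nat_lit 4) (nat_lit 4) (nat_lit 4) (nat_lit 482) (nat_lit 382) (nat_lit 336))) (XT.nd (nat_lit 78) (nat_lit 0) (nat_lit 0) (XT.lf (nat_lit 0) (nat_lit 31369028750) (nat_lit 152) (nat_lit 196738063030) (nat_lit 0) (nat_lit 29252942508) (nat_lit 4) (nat_lit 5) (nat_lit 6) (nat_lit 4) (nat_lit 4) (nat_lit 4) (nat_lit 483) (nat_lit 382) (nat_lit 335)) (XT.lf (nat_lit 0) (nat_lit 59255886851) (nat_lit 152) (nat_lit 160279892676) (nat_lit 0) (nat_lit 57135474404) (nat_lit 4) (nat_lit 5) (nat_lit 6) (nat_lit 4) (nat_lit 4) (nat_lit 4) (nat_lit 484) (nat_lit 382) (nat_lit 334))))) (XT.nd (nat_lit 312) (nat_lit 0) (nat_lit 0) (XT.nd (nat_lit 156) (nat_lit 76) (nat_lit 0) (XT.nd (nat_lit 78) (nat_lit 0) (nat_lit 0) (XT.lf (nat_lit 0) (nat_lit 89280604483) (nat_lit 152) (nat_lit 121095234894) (nat_lit 0) (nat_lit 87156186289) (nat_lit 4) (nat_lit 5) (nat_lit 6) (nat_lit 4) (nat_lit 4) (nat_lit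 4) (nat_lit 485) (nat_lit 382) (nat_lit 333)) (XT.lf (nat_lit 0) (nat_lit 121621105898) (nat_lit 152) (nat_lit 78951884306) (nat_lit 0) (nat_lit 119492978681) (nat_lit 4) (nat_lit 5) (nat_lit 6) (nat_lit 4) (nat_lit 4) (nat_lit 4) (nat_lit 486) (nat_lit 382) (nat_lit 332))) (XT.nd (nat_lit 78) (nat_lit 76) (nat_lit 0) (XT.lf (nat_lit 0) (nat_lit 156469038513) (nat_lit 152) (nat_lit 33600102538) (nat_lit 0) (nat_lit 154337477014) (nat_lit 4) (nat_lit 5) (nat_lit 6) (nat_lit 4) (nat_lit 4) (nat_lit 4) (nat_lit 487) (nat_lit 382) (nat_lit 331)) (XT.lf (nat_lit 0) (nat_lit 15732396654) (nat_lit 76) (nat_lit 178544138741) (nat_lit 76) (nat_lit 176409397352) (nat_lit 3) (nat_lit 4) (nat_lit 4) (nat_lit 5) (nat_lit 4) (nat_lit 4) (nat_lit 488) (nat_lit 382) (nat_lit 330)))) (XT.nd (nat_lit 156) (nat_lit 0) (nat_lit 0) (XT.nd (nat_lit 78) (nat_lit 0) (nat_lit 0) (XT.lf (nat_lit 0) (nat_lit 70066945083)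 (nat_lit 76) (nat_lit 165556301293) (nat_lit 76) (nat_lit 163418615561) (nat_lit 3) (nat_lit 4) (nat_lit 4) (nat_lit 5) (nat_lit 4) (nat_lit 4) (nat_lit 489) (nat_lit 382) (nat_lit 329)) (XT.lf (nat_lit 0) (nat_lit 128614554127) (nat_lit 76) (nat_lit 151597697737) (nat_lit 76) (nat_lit 149457285762) (nat_lit 3) (nat_lit 4) (nat_lit 4) (nat_lit 5) (nat_lit 4) (nat_lit 4) (nat_lit 490) (nat_lit 382) (nat_lit 328))) (XT.nd (nat_lit 78) (nat_lit 0) (nat_lit 0) (XT.lf (nat_lit 0) (nat_lit 191722172579) (nat_lit 76) (nat_lit 136585610424) (nat_lit 76) (nat_lit 134442674150) (nat_lit 3) (nat_lit 4) (nat_lit 4) (nat_lit 5) (nat_lit 4) (nat_lit 4) (nat_lit 491) (nat_lit 382) (nat_lit 327)) (XT.lf (nat_lit 0) (nat_lit 259763771511) (nat_lit 76) (nat_lit 120431078835) (nat_lit 76) (nat_lit 118285805247) (nat_lit 3) (nat_lit 4) (nat_lit 4) (nat_lit 5) (nat_lit 4) (nat_lit 4) (nat_lit 492) (nat_lit 382) (nat_lit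 326))))))))
noncomputable def xc21 : XT := (XT.nd (nat_lit 59202) (nat_lit 0) (nat_lit 380) (XT.nd (nat_lit 57954) (nat_lit 0) (nat_lit 2432) (XT.nd (nat_lit 624) (nat_lit 0) (nat_lit 0) (XT.nd (nat_lit 312) (nat_lit 152) (nat_lit 0) (XT.nd (nat_lit 156) (nat_lit 0) (nat_lit 0) (XT.nd (nat_lit 78) (nat_lit 0) (nat_lit 0) (XT.lf (nat_lit 0) (nat_lit 333142560400) (nat_lit 76) (nat_lit 103038372414) (nat_lit 76) (nat_lit 100890934646) (nat_lit 3) (nat_lit 4) (nat_lit 4) (nat_lit 5) (nat_lit 4) (nat_lit 4) (nat_lit 493) (nat_lit 382) (nat_lit 325)) (XT.lf (nat_lit 0) (nat_lit 412293376511) (nat_lit 76) (nat_lit 84304423270) (nat_lit 76) (nat_lit 82154981632) (nat_lit 3) (nat_lit 4) (nat_lit 4) (nat_lit 5) (nat_lit 4) (nat_lit 4) (nat_lit 494) (nat_lit 382) (nat_lit 324))) (XT.nd (nat_lit 78) (nat_lit 0) (nat_lit 0) (XT.lf (nat_lit 0) (nat_lit 497685261719) (nat_lit 76) (nat_lit 64118215408) (nat_lit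 76) (nat_lit 61966918335) (nat_lit 3) (nat_lit 4) (nat_lit 4) (nat_lit 5) (nat_lit 4) (nat_lit 4) (nat_lit 495) (nat_lit 382) (nat_lit 323)) (XT.lf (nat_lit 0) (nat_lit 589824242011) (nat_lit 76) (nat_lit 42360126857) (nat_lit 76) (nat_lit 40207111787) (nat_lit 3) (nat_lit 4) (nat_lit 4) (nat_lit 5) (nat_lit 4) (nat_lit 4) (nat_lit 496) (nat_lit 382) (nat_lit 322)))) (XT.nd (nat_lit 156) (nat_lit 0) (nat_lit 0) (XT.nd (nat_lit 78) (nat_lit 152) (nat_lit 0) (XT.lf (nat_lit 0) (nat_lit 689256326157) (nat_lit 76) (nat_lit 18901220794) (nat_lit 76) (nat_lit 16746614987) (nat_lit 3) (nat_lit 4) (nat_lit 4) (nat_lit 5) (nat_lit 4) (nat_lit 4) (nat_lit 497) (nat_lit 382) (nat_lit 321)) (XT.lf (nat_lit 0) (nat_lit 8624812151) (nat_lit 152) (nat_lit 766399483112) (nat_lit 0) (nat_lit 6571403855) (nat_lit 1) (nat_lit 5) (nat_lit 3) (nat_lit 4) (nat_lit 1) (nat_lit 4) (nat_lit 498) (nat_lit 382) (nat_lit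 320))) (XT.nd (nat_lit 78) (nat_lit 0) (nat_lit 0) (XT.lf (nat_lit 0) (nat_lit 36361997991) (nat_lit 152) (nat_lit 772093405518) (nat_lit 0) (nat_lit 34307290837) (nat_lit 1) (nat_lit 5) (nat_lit 3) (nat_lit 4) (nat_lit 1) (nat_lit 4) (nat_lit 499) (nat_lit 382) (nat_lit 319)) (XT.lf (nat_lit 0) (nat_lit 66285815524) (nat_lit 152) (nat_lit 778308945119) (nat_lit 0) (nat_lit 64229905725) (nat_lit 1) (nat_lit 5) (nat_lit 3) (nat_lit 4) (nat_lit 1) (nat_lit 4) (nat_lit 500) (nat_lit 382) (nat_lit 318))))) (XT.nd (nat_lit 312) (nat_lit 0) (nat_lit 0) (XT.nd (nat_lit 156) (nat_lit 0) (nat_lit 0) (XT.nd (nat_lit 78) (nat_lit 0) (nat_lit 0) (XT.lf (nat_lit 0) (nat_lit 98573591078) (nat_lit 152) (nat_lit 785082934745) (nat_lit 0) (nat_lit 96516567718) (nat_lit 1) (nat_lit 5) (nat_lit 3) (nat_lit 4) (nat_lit 1) (nat_lit 4) (nat_lit 501) (nat_lit 382) (nat_lit 317)) (XT.lf (nat_lit 0) (nat_lit 133416659620)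 (nat_lit 152) (nat_lit 792455516554) (nat_lit 0) (nat_lit 131358605184) (nat_lit 1) (nat_lit 5) (nat_lit 3) (nat_lit 4) (nat_lit 1) (nat_lit 4) (nat_lit 502) (nat_lit 382) (nat_lit 316))) (XT.nd (nat_lit 78) (nat_lit 0) (nat_lit 0) (XT.lf (nat_lit 0) (nat_lit 171021498591) (nat_lit 152) (nat_lit 800470379921) (nat_lit 0) (nat_lit 168962489456) (nat_lit 1) (nat_lit 5) (nat_lit 3) (nat_lit 4) (nat_lit 1) (nat_lit 4) (nat_lit 503) (nat_lit 382) (nat_lit 315)) (XT.lf (nat_lit 0) (nat_lit 211610951482) (nat_lit 152) (nat_lit 809175020333) (nat_lit 0) (nat_lit 209551058367) (nat_lit 1) (nat_lit 5) (nat_lit 3) (nat_lit 4) (nat_lit 1) (nat_lit 4) (nat_lit 504) (nat_lit 382) (nat_lit 314)))) (XT.nd (nat_lit 156) (nat_lit 0) (nat_lit 0) (XT.nd (nat_lit 78) (nat_lit 0) (nat_lit 0) (XT.lf (nat_lit 0) (nat_lit 255425548385) (nat_lit 152) (nat_lit 818621020844) (nat_lit 0) (nat_lit 253364836770) (nat_lit 1)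 (nat_lit 5) (nat_lit 3) (nat_lit 4) (nat_lit 1) (nat_lit 4) (nat_lit 505) (nat_lit 382) (nat_lit 313)) (XT.lf (nat_lit 0) (nat_lit 302724931355) (nat_lit 152) (nat_lit 828864357753) (nat_lit 0) (nat_lit 300663461869) (nat_lit 1) (nat_lit 5) (nat_lit 3) (nat_lit 4) (nat_lit 1) (nat_lit 4) (nat_lit 506) (nat_lit 382) (nat_lit 312))) (XT.nd (nat_lit 56784) (nat_lit 0) (nat_lit 4712) (XT.lf (nat_lit 0) (nat_lit 353789393032) (nat_lit 152) (nat_lit 839965732315) (nat_lit 0) (nat_lit 351727221814) (nat_lit 1) (nat_lit 5) (nat_lit 3) (nat_lit 4) (nat_lit 1) (nat_lit 4) (nat_lit 507) (nat_lit 382) (nat_lit 311)) (XT.lf (nat_lit 0) (nat_lit 5818095131) (nat_lit 76) (nat_lit 953165811) (nat_lit 76) (nat_lit 953165811) (nat_lit 63) (nat_lit 4) (nat_lit 64) (nat_lit 5) (nat_lit 64) (nat_lit 4) (nat_lit 434) (nat_lit 383) (nat_lit 383)))))) (XT.nd (nat_lit 624) (nat_lit 988) (nat_lit 0) (XT.nd (nat_lit 312)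 (nat_lit 608) (nat_lit 0) (XT.nd (nat_lit 156) (nat_lit 304) (nat_lit 0) (XT.nd (nat_lit 78) (nat_lit 152) (nat_lit 0) (XT.lf (nat_lit 0) (nat_lit 3362698739) (nat_lit 76) (nat_lit 6571510953) (nat_lit 76) (nat_lit 6131924715) (nat_lit 60) (nat_lit 4) (nat_lit 61) (nat_lit 5) (nat_lit 61) (nat_lit 4) (nat_lit 435) (nat_lit 383) (nat_lit 382)) (XT.lf (nat_lit 0) (nat_lit 5792592352) (nat_lit 152) (nat_lit 5944816939) (nat_lit 0) (nat_lit 4986296607) (nat_lit 58) (nat_lit 5) (nat_lit 60) (nat_lit 4) (nat_lit 58) (nat_lit 4) (nat_lit 436) (nat_lit 383) (nat_lit 381))) (XT.nd (nat_lit 78) (nat_lit 76) (nat_lit 0) (XT.lf (nat_lit 0) (nat_lit 920252564) (nat_lit 76) (nat_lit 97052927) (nat_lit 152) (nat_lit 16409614790) (nat_lit 55) (nat_lit 5) (nat_lit 56) (nat_lit 5) (nat_lit 57) (nat_lit 4) (nat_lit 437) (nat_lit 383) (nat_lit 380)) (XT.lf (nat_lit 0) (nat_lit 7900812988) (nat_lit 76) (nat_lit 5846227600)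 (nat_lit 76) (nat_lit 4419975803) (nat_lit 54) (nat_lit 4) (nat_lit 55) (nat_lit 5) (nat_lit 55) (nat_lit 4) (nat_lit 438) (nat_lit 383) (nat_lit 379)))) (XT.nd (nat_lit 156) (nat_lit 228) (nat_lit 0) (XT.nd (nat_lit 78) (nat_lit 228) (nat_lit 0) (XT.lf (nat_lit 0) (nat_lit 8283300602) (nat_lit 152) (nat_lit 4029142337) (nat_lit 0) (nat_lit 6645851848) (nat_lit 52) (nat_lit 5) (nat_lit 54) (nat_lit 4) (nat_lit 52) (nat_lit 4) (nat_lit 439) (nat_lit 383) (nat_lit 378)) (XT.lf (nat_lit 0) (nat_lit 2050738986) (nat_lit 152) (nat_lit 17507931216) (nat_lit 0) (nat_lit 245131963) (nat_lit 49) (nat_lit 5) (nat_lit 51) (nat_lit 4) (nat_lit 49) (nat_lit 4) (nat_lit 440) (nat_lit 383) (nat_lit 377))) (XT.nd (nat_lit 78) (nat_lit 152) (nat_lit 0) (XT.lf (nat_lit 0) (nat_lit 8566296508) (nat_lit 76) (nat_lit 7082012780) (nat_lit 76) (nat_lit 5048505741) (nat_lit 48) (nat_lit 4) (nat_lit 49) (nat_lit 5) (nat_lit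 49) (nat_lit 4) (nat_lit 441) (nat_lit 383) (nat_lit 376)) (XT.lf (nat_lit 0) (nat_lit 8455845523) (nat_lit 152) (nat_lit 6877404562) (nat_lit 0) (nat_lit 6318202119) (nat_lit 46) (nat_lit 5) (nat_lit 48) (nat_lit 4) (nat_lit 46) (nat_lit 4) (nat_lit 442) (nat_lit 383) (nat_lit 375))))) (XT.nd (nat_lit 312) (nat_lit 456) (nat_lit 0) (XT.nd (nat_lit 156) (nat_lit 228) (nat_lit 0) (XT.nd (nat_lit 78) (nat_lit 152) (nat_lit 0) (XT.lf (nat_lit 0) (nat_lit 278273914) (nat_lit 152) (nat_lit 1753265243) (nat_lit 76) (nat_lit 20641698415) (nat_lit 44) (nat_lit 5) (nat_lit 46) (nat_lit 5) (nat_lit 45) (nat_lit 4) (nat_lit 443) (nat_lit 383) (nat_lit 374)) (XT.lf (nat_lit 0) (nat_lit 3092268978) (nat_lit 76) (nat_lit 11519329541) (nat_lit 76) (nat_lit 9142161752) (nat_lit 42) (nat_lit 4) (nat_lit 43) (nat_lit 5) (nat_lit 43) (nat_lit 4) (nat_lit 444) (nat_lit 383) (nat_lit 373))) (XT.nd (nat_lit 78) (nat_lit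 76) (nat_lit 0) (XT.lf (nat_lit 0) (nat_lit 5111035469) (nat_lit 152) (nat_lit 17098009746) (nat_lit 0) (nat_lit 2702361845) (nat_lit 40) (nat_lit 5) (nat_lit 42) (nat_lit 4) (nat_lit 40) (nat_lit 4) (nat_lit 445) (nat_lit 383) (nat_lit 372)) (XT.lf (nat_lit 0) (nat_lit 12101291523) (nat_lit 76) (nat_lit 8292530158) (nat_lit 76) (nat_lit 5749871071) (nat_lit 39) (nat_lit 4) (nat_lit 40) (nat_lit 5) (nat_lit 40) (nat_lit 4) (nat_lit 446) (nat_lit 383) (nat_lit 371)))) (XT.nd (nat_lit 156) (nat_lit 228) (nat_lit 0) (XT.nd (nat_lit 78) (nat_lit 76) (nat_lit 0) (XT.lf (nat_lit 0) (nat_lit 9257068845) (nat_lit 152) (nat_lit 11486098976) (nat_lit 0) (nat_lit 6717335795) (nat_lit 37) (nat_lit 5) (nat_lit 39) (nat_lit 4) (nat_lit 37) (nat_lit 4) (nat_lit 447) (nat_lit 383) (nat_lit 370)) (XT.lf (nat_lit 0) (nat_lit 19369460145) (nat_lit 76) (nat_lit 6074295015) (nat_lit 76) (nat_lit 3425161071) (nat_lit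 36) (nat_lit 4) (nat_lit 37) (nat_lit 5) (nat_lit 37) (nat_lit 4) (nat_lit 448) (nat_lit 383) (nat_lit 369))) (XT.nd (nat_lit 78) (nat_lit 76) (nat_lit 0) (XT.lf (nat_lit 0) (nat_lit 12343059877) (nat_lit 152) (nat_lit 8303111474) (nat_lit 0) (nat_lit 9723601716) (nat_lit 34) (nat_lit 5) (nat_lit 36) (nat_lit 4) (nat_lit 34) (nat_lit 4) (nat_lit 449) (nat_lit 383) (nat_lit 368)) (XT.lf (nat_lit 0) (nat_lit 24147410055) (nat_lit 76) (nat_lit 5270504480) (nat_lit 76) (nat_lit 2561719049) (nat_lit 33) (nat_lit 4) (nat_lit 34) (nat_lit 5) (nat_lit 34) (nat_lit 4) (nat_lit 450) (nat_lit 383) (nat_lit 367))))))) (XT.nd (nat_lit 1248) (nat_lit 532) (nat_lit 0) (XT.nd (nat_lit 624) (nat_lit 684) (nat_lit 0) (XT.nd (nat_lit 312) (nat_lit 380) (nat_lit 0) (XT.nd (nat_lit 156) (nat_lit 228) (nat_lit 0) (XT.nd (nat_lit 78) (nat_lit 76) (nat_lit 0) (XT.lf (nat_lit 0) (nat_lit 13943400911) (nat_lit 152) (nat_lit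 8466235814) (nat_lit 0) (nat_lit 11284833419) (nat_lit 31) (nat_lit 5) (nat_lit 33) (nat_lit 4) (nat_lit 31) (nat_lit 4) (nat_lit 451) (nat_lit 383) (nat_lit 366)) (XT.lf (nat_lit 0) (nat_lit 25428599227) (nat_lit 76) (nat_lit 6419428921) (nat_lit 76) (nat_lit 3687924537) (nat_lit 30) (nat_lit 4) (nat_lit 31) (nat_lit 5) (nat_lit 31) (nat_lit 4) (nat_lit 452) (nat_lit 383) (nat_lit 365))) (XT.nd (nat_lit 78) (nat_lit 76) (nat_lit 0) (XT.lf (nat_lit 0) (nat_lit 13485783135) (nat_lit 152) (nat_lit 13195139601) (nat_lit 0) (nat_lit 10820032141) (nat_lit 28) (nat_lit 5) (nat_lit 30) (nat_lit 4) (nat_lit 28) (nat_lit 4) (nat_lit 453) (nat_lit 383) (nat_lit 364)) (XT.lf (nat_lit 0) (nat_lit 21870924081) (nat_lit 76) (nat_lit 10232282447) (nat_lit 76) (nat_lit 7506977520) (nat_lit 27) (nat_lit 4) (nat_lit 28) (nat_lit 5) (nat_lit 28) (nat_lit 4) (nat_lit 454) (nat_lit 383) (nat_lit 363)))) (XT.nd (nat_lit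 156) (nat_lit 152) (nat_lit 0) (XT.nd (nat_lit 78) (nat_lit 76) (nat_lit 0) (XT.lf (nat_lit 0) (nat_lit 10207200762) (nat_lit 152) (nat_lit 24102953789) (nat_lit 0) (nat_lit 7559155565) (nat_lit 25) (nat_lit 5) (nat_lit 27) (nat_lit 4) (nat_lit 25) (nat_lit 4) (nat_lit 455) (nat_lit 383) (nat_lit 362)) (XT.lf (nat_lit 0) (nat_lit 11695414612) (nat_lit 76) (nat_lit 17645500251) (nat_lit 76) (nat_lit 14948828485) (nat_lit 24) (nat_lit 4) (nat_lit 25) (nat_lit 5) (nat_lit 25) (nat_lit 4) (nat_lit 456) (nat_lit 383) (nat_lit 361))) (XT.nd (nat_lit 78) (nat_lit 0) (nat_lit 0) (XT.lf (nat_lit 0) (nat_lit 3097016352) (nat_lit 152) (nat_lit 43313759013) (nat_lit 0) (nat_lit 485876954) (nat_lit 22) (nat_lit 5) (nat_lit 24) (nat_lit 4) (nat_lit 22) (nat_lit 4) (nat_lit 457) (nat_lit 383) (nat_lit 360)) (XT.lf (nat_lit 0) (nat_lit 22559754622) (nat_lit 152) (nat_lit 7206347923) (nat_lit 0) (nat_lit 19908910990)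 (nat_lit 22) (nat_lit 5) (nat_lit 24) (nat_lit 4) (nat_lit 22) (nat_lit 4) (nat_lit 458) (nat_lit 383) (nat_lit 359))))) (XT.nd (nat_lit 312) (nat_lit 380) (nat_lit 0) (XT.nd (nat_lit 156) (nat_lit 76) (nat_lit 0) (XT.nd (nat_lit 78) (nat_lit 152) (nat_lit 0) (XT.lf (nat_lit 0) (nat_lit 32092806912) (nat_lit 76) (nat_lit 11631599713) (nat_lit 76) (nat_lit 8943992902) (nat_lit 21) (nat_lit 4) (nat_lit 22) (nat_lit 5) (nat_lit 22) (nat_lit 4) (nat_lit 459) (nat_lit 383) (nat_lit 358)) (XT.lf (nat_lit 0) (nat_lit 10539442671) (nat_lit 152) (nat_lit 37396061857) (nat_lit 0) (nat_lit 7947398106) (nat_lit 19) (nat_lit 5) (nat_lit 21) (nat_lit 4) (nat_lit 19) (nat_lit 4) (nat_lit 460) (nat_lit 383) (nat_lit 357))) (XT.nd (nat_lit 78) (nat_lit 0) (nat_lit 0) (XT.lf (nat_lit 0) (nat_lit 1069159454) (nat_lit 76) (nat_lit 30443946373) (nat_lit 76) (nat_lit 27821884188) (nat_lit 18) (nat_lit 4) (nat_lit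 19) (nat_lit 5) (nat_lit 19) (nat_lit 4) (nat_lit 461) (nat_lit 383) (nat_lit 356)) (XT.lf (nat_lit 0) (nat_lit 43292138344) (nat_lit 76) (nat_lit 11202238521) (nat_lit 76) (nat_lit 8552382244) (nat_lit 18) (nat_lit 4) (nat_lit 19) (nat_lit 5) (nat_lit 19) (nat_lit 4) (nat_lit 462) (nat_lit 383) (nat_lit 355)))) (XT.nd (nat_lit 156) (nat_lit 228) (nat_lit 0) (XT.nd (nat_lit 78) (nat_lit 0) (nat_lit 0) (XT.lf (nat_lit 0) (nat_lit 12056114142) (nat_lit 152) (nat_lit 45472365236) (nat_lit 0) (nat_lit 9507931715) (nat_lit 16) (nat_lit 5) (nat_lit 18) (nat_lit 4) (nat_lit 16) (nat_lit 4) (nat_lit 463) (nat_lit 383) (nat_lit 354)) (XT.lf (nat_lit 0) (nat_lit 34262088799) (nat_lit 152) (nat_lit 5372502916) (nat_lit 0) (nat_lit 31691212130) (nat_lit 16) (nat_lit 5) (nat_lit 18) (nat_lit 4) (nat_lit 16) (nat_lit 4) (nat_lit 464) (nat_lit 383) (nat_lit 353))) (XT.nd (nat_lit 78) (nat_lit 152) (nat_lit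 0) (XT.lf (nat_lit 0) (nat_lit 38616340142) (nat_lit 76) (nat_lit 19958686901) (nat_lit 76) (nat_lit 17366797044) (nat_lit 15) (nat_lit 4) (nat_lit 16) (nat_lit 5) (nat_lit 16) (nat_lit 4) (nat_lit 465) (nat_lit 383) (nat_lit 352)) (XT.lf (nat_lit 0) (nat_lit 3708157661) (nat_lit 152) (nat_lit 75998393752) (nat_lit 0) (nat_lit 1221160982) (nat_lit 13) (nat_lit 5) (nat_lit 15) (nat_lit 4) (nat_lit 13) (nat_lit 4) (nat_lit 466) (nat_lit 383) (nat_lit 351)))))) (XT.nd (nat_lit 624) (nat_lit 228) (nat_lit 0) (XT.nd (nat_lit 312) (nat_lit 76) (nat_lit 0) (XT.nd (nat_lit 156) (nat_lit 152) (nat_lit 0) (XT.nd (nat_lit 78) (nat_lit 76) (nat_lit 0) (XT.lf (nat_lit 0) (nat_lit 26608827661) (nat_lit 152) (nat_lit 35547327529) (nat_lit 0) (nat_lit 24104673439) (nat_lit 13) (nat_lit 5) (nat_lit 15) (nat_lit 4) (nat_lit 13) (nat_lit 4) (nat_lit 467) (nat_lit 383) (nat_lit 350)) (XT.lf (nat_lit 0) (nat_lit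 7907050027) (nat_lit 76) (nat_lit 43319663561) (nat_lit 76) (nat_lit 40799622723) (nat_lit 12) (nat_lit 4) (nat_lit 13) (nat_lit 5) (nat_lit 13) (nat_lit 4) (nat_lit 468) (nat_lit 383) (nat_lit 349))) (XT.nd (nat_lit 78) (nat_lit 152) (nat_lit 0) (XT.lf (nat_lit 0) (nat_lit 55642426846) (nat_lit 76) (nat_lit 22562921391) (nat_lit 76) (nat_lit 20028170724) (nat_lit 12) (nat_lit 4) (nat_lit 13) (nat_lit 5) (nat_lit 13) (nat_lit 4) (nat_lit 469) (nat_lit 383) (nat_lit 348)) (XT.lf (nat_lit 0) (nat_lit 1843408012) (nat_lit 76) (nat_lit 298923153) (nat_lit 152) (nat_lit 102802352403) (nat_lit 10) (nat_lit 5) (nat_lit 11) (nat_lit 5) (nat_lit 12) (nat_lit 4) (nat_lit 470) (nat_lit 383) (nat_lit 347)))) (XT.nd (nat_lit 156) (nat_lit 76) (nat_lit 0) (XT.nd (nat_lit 78) (nat_lit 0) (nat_lit 0) (XT.lf (nat_lit 0) (nat_lit 26310533618) (nat_lit 152) (nat_lit 61948000931) (nat_lit 0) (nat_lit 23871502965)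 (nat_lit 10) (nat_lit 5) (nat_lit 12) (nat_lit 4) (nat_lit 10) (nat_lit 4) (nat_lit 471) (nat_lit 383) (nat_lit 346)) (XT.lf (nat_lit 0) (nat_lit 52224225830) (nat_lit 152) (nat_lit 17901318356) (nat_lit 0) (nat_lit 49774074095) (nat_lit 10) (nat_lit 5) (nat_lit 12) (nat_lit 4) (nat_lit 10) (nat_lit 4) (nat_lit 472) (nat_lit 383) (nat_lit 345))) (XT.nd (nat_lit 78) (nat_lit 0) (nat_lit 0) (XT.lf (nat_lit 0) (nat_lit 30273394251) (nat_lit 76) (nat_lit 50231561670) (nat_lit 76) (nat_lit 47771112637) (nat_lit 9) (nat_lit 4) (nat_lit 10) (nat_lit 5) (nat_lit 10) (nat_lit 4) (nat_lit 473) (nat_lit 383) (nat_lit 344)) (XT.lf (nat_lit 0) (nat_lit 82592538828) (nat_lit 76) (nat_lit 28596517091) (nat_lit 76) (nat_lit 26126533522) (nat_lit 9) (nat_lit 4) (nat_lit 10) (nat_lit 5) (nat_lit 10) (nat_lit 4) (nat_lit 474) (nat_lit 383) (nat_lit 343))))) (XT.nd (nat_lit 312) (nat_lit 76) (nat_lit 0) (XT.nd (nat_lit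 156) (nat_lit 0) (nat_lit 0) (XT.nd (nat_lit 78) (nat_lit 152) (nat_lit 0) (XT.lf (nat_lit 0) (nat_lit 138774256320) (nat_lit 76) (nat_lit 5395370265) (nat_lit 76) (nat_lit 2916558422) (nat_lit 9) (nat_lit 4) (nat_lit 10) (nat_lit 5) (nat_lit 10) (nat_lit 4) (nat_lit 475) (nat_lit 383) (nat_lit 342)) (XT.lf (nat_lit 0) (nat_lit 22277350120) (nat_lit 152) (nat_lit 115393190989) (nat_lit 0) (nat_lit 19908791863) (nat_lit 7) (nat_lit 5) (nat_lit 9) (nat_lit 4) (nat_lit 7) (nat_lit 4) (nat_lit 476) (nat_lit 383) (nat_lit 341))) (XT.nd (nat_lit 78) (nat_lit 0) (nat_lit 0) (XT.lf (nat_lit 0) (nat_lit 49479333774) (nat_lit 152) (nat_lit 72321904162) (nat_lit 0) (nat_lit 47103567115) (nat_lit 7) (nat_lit 5) (nat_lit 9) (nat_lit 4) (nat_lit 7) (nat_lit 4) (nat_lit 477) (nat_lit 383) (nat_lit 340)) (XT.lf (nat_lit 0) (nat_lit 78723439585) (nat_lit 152) (nat_lit 26078578767) (nat_lit 0) (nat_lit 76340998481)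 (nat_lit 7) (nat_lit 5) (nat_lit 9) (nat_lit 4) (nat_lit 7) (nat_lit 4) (nat_lit 478) (nat_lit 383) (nat_lit 339)))) (XT.nd (nat_lit 156) (nat_lit 0) (nat_lit 0) (XT.nd (nat_lit 78) (nat_lit 0) (nat_lit 0) (XT.lf (nat_lit 0) (nat_lit 24391500044) (nat_lit 76) (nat_lit 86172285588) (nat_lit 76) (nat_lit 83783664442) (nat_lit 6) (nat_lit 4) (nat_lit 7) (nat_lit 5) (nat_lit 7) (nat_lit 4) (nat_lit 479) (nat_lit 383) (nat_lit 338)) (XT.lf (nat_lit 0) (nat_lit 79588062001) (nat_lit 76) (nat_lit 65698870412) (nat_lit 76) (nat_lit 63304527004) (nat_lit 6) (nat_lit 4) (nat_lit 7) (nat_lit 5) (nat_lit 7) (nat_lit 4) (nat_lit 480) (nat_lit 383) (nat_lit 337))) (XT.nd (nat_lit 78) (nat_lit 0) (nat_lit 0) (XT.lf (nat_lit 0) (nat_lit 138975922253) (nat_lit 76) (nat_lit 43702102232) (nat_lit 76) (nat_lit 41302460433) (nat_lit 6) (nat_lit 4) (nat_lit 7) (nat_lit 5) (nat_lit 7) (nat_lit 4) (nat_lit 481) (nat_lit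 383) (nat_lit 336)) (XT.lf (nat_lit 0) (nat_lit 202907008860) (nat_lit 76) (nat_lit 20051629829) (nat_lit 76) (nat_lit 17647082113) (nat_lit 6) (nat_lit 4) (nat_lit 7) (nat_lit 5) (nat_lit 7) (nat_lit 4) (nat_lit 482) (nat_lit 383) (nat_lit 335))))))))
noncomputable def xc22 : XT := (XT.nd (nat_lit 58968) (nat_lit 0) (nat_lit 836) (XT.nd (nat_lit 1170) (nat_lit 152) (nat_lit 0) (XT.nd (nat_lit 546) (nat_lit 0) (nat_lit 0) (XT.nd (nat_lit 234) (nat_lit 76) (nat_lit 0) (XT.nd (nat_lit 78) (nat_lit 0) (nat_lit 0) (XT.lf (nat_lit 0) (nat_lit 7852580206) (nat_lit 152) (nat_lit 245133782928) (nat_lit 0) (nat_lit 5558208557) (nat_lit 4) (nat_lit 5) (nat_lit 6) (nat_lit 4) (nat_lit 4) (nat_lit 4) (nat_lit 483) (nat_lit 383) (nat_lit 334)) (XT.nd (nat_lit 78) (nat_lit 0) (nat_lit 0) (XT.lf (nat_lit 0) (nat_lit 35694683923) (nat_lit 152) (nat_lit 208767038632) (nat_lit 0) (nat_lit 33396306528) (nat_lit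 4) (nat_lit 5) (nat_lit 6) (nat_lit 4) (nat_lit 4) (nat_lit 4) (nat_lit 484) (nat_lit 383) (nat_lit 333)) (XT.lf (nat_lit 0) (nat_lit 65677962311) (nat_lit 152) (nat_lit 169667034608) (nat_lit 0) (nat_lit 63375875892) (nat_lit 4) (nat_lit 5) (nat_lit 6) (nat_lit 4) (nat_lit 4) (nat_lit 4) (nat_lit 485) (nat_lit 383) (nat_lit 332)))) (XT.nd (nat_lit 156) (nat_lit 76) (nat_lit 0) (XT.nd (nat_lit 78) (nat_lit 0) (nat_lit 0) (XT.lf (nat_lit 0) (nat_lit 97980094056) (nat_lit 152) (nat_lit 127602067129) (nat_lit 0) (nat_lit 95674573356) (nat_lit 4) (nat_lit 5) (nat_lit 6) (nat_lit 4) (nat_lit 4) (nat_lit 4) (nat_lit 486) (nat_lit 383) (nat_lit 331)) (XT.lf (nat_lit 0) (nat_lit 132792499198) (nat_lit 152) (nat_lit 82322862313) (nat_lit 0) (nat_lit 130483798608) (nat_lit 4) (nat_lit 5) (nat_lit 6) (nat_lit 4) (nat_lit 4) (nat_lit 4) (nat_lit 487) (nat_lit 383) (nat_lit 330))) (XT.nd (nat_lit 78) (nat_lit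 76) (nat_lit 0) (XT.lf (nat_lit 0) (nat_lit 170321473472) (nat_lit 152) (nat_lit 33561098946) (nat_lit 0) (nat_lit 168009828539) (nat_lit 4) (nat_lit 5) (nat_lit 6) (nat_lit 4) (nat_lit 4) (nat_lit 4) (nat_lit 488) (nat_lit 383) (nat_lit 329)) (XT.lf (nat_lit 0) (nat_lit 19599487571) (nat_lit 76) (nat_lit 191495926155) (nat_lit 76) (nat_lit 189181554979) (nat_lit 3) (nat_lit 4) (nat_lit 4) (nat_lit 5) (nat_lit 4) (nat_lit 4) (nat_lit 489) (nat_lit 383) (nat_lit 328))))) (XT.nd (nat_lit 312) (nat_lit 0) (nat_lit 0) (XT.nd (nat_lit 156) (nat_lit 0) (nat_lit 0) (XT.nd (nat_lit 78) (nat_lit 0) (nat_lit 0) (XT.lf (nat_lit 0) (nat_lit 78087577713) (nat_lit 76) (nat_lit 177567709391) (nat_lit 76) (nat_lit 175250813915) (nat_lit 3) (nat_lit 4) (nat_lit 4) (nat_lit 5) (nat_lit 4) (nat_lit 4) (nat_lit 490) (nat_lit 383) (nat_lit 327)) (XT.lf (nat_lit 0) (nat_lit 141140086071) (nat_lit 76) (nat_lit 162583757996)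 (nat_lit 76) (nat_lit 160264525206) (nat_lit 3) (nat_lit 4) (nat_lit 4) (nat_lit 5) (nat_lit 4) (nat_lit 4) (nat_lit 491) (nat_lit 383) (nat_lit 326))) (XT.nd (nat_lit 78) (nat_lit 0) (nat_lit 0) (XT.lf (nat_lit 0) (nat_lit 209130657139) (nat_lit 76) (nat_lit 146455278183) (nat_lit 76) (nat_lit 144133881214) (nat_lit 3) (nat_lit 4) (nat_lit 4) (nat_lit 5) (nat_lit 4) (nat_lit 4) (nat_lit 492) (nat_lit 383) (nat_lit 325)) (XT.lf (nat_lit 0) (nat_lit 282462198004) (nat_lit 76) (nat_lit 129086693777) (nat_lit 76) (nat_lit 126763292937) (nat_lit 3) (nat_lit 4) (nat_lit 4) (nat_lit 5) (nat_lit 4) (nat_lit 4) (nat_lit 493) (nat_lit 383) (nat_lit 324)))) (XT.nd (nat_lit 156) (nat_lit 0) (nat_lit 0) (XT.nd (nat_lit 78) (nat_lit 0) (nat_lit 0) (XT.lf (nat_lit 0) (nat_lit 361569265947) (nat_lit 76) (nat_lit 110375079832) (nat_lit 76) (nat_lit 108049823557) (nat_lit 3) (nat_lit 4) (nat_lit 4) (nat_lit 5)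 (nat_lit 4) (nat_lit 4) (nat_lit 494) (nat_lit 383) (nat_lit 323)) (XT.lf (nat_lit 0) (nat_lit 446920643590) (nat_lit 76) (nat_lit 90209552710) (nat_lit 76) (nat_lit 87882578439) (nat_lit 3) (nat_lit 4) (nat_lit 4) (nat_lit 5) (nat_lit 4) (nat_lit 4) (nat_lit 495) (nat_lit 383) (nat_lit 322))) (XT.nd (nat_lit 78) (nat_lit 0) (nat_lit 0) (XT.lf (nat_lit 0) (nat_lit 539022116878) (nat_lit 76) (nat_lit 68470612992) (nat_lit 76) (nat_lit 66142047984) (nat_lit 3) (nat_lit 4) (nat_lit 4) (nat_lit 5) (nat_lit 4) (nat_lit 4) (nat_lit 496) (nat_lit 383) (nat_lit 321)) (XT.lf (nat_lit 0) (nat_lit 638419472316) (nat_lit 76) (nat_lit 45029437330) (nat_lit 76) (nat_lit 42699399418) (nat_lit 3) (nat_lit 4) (nat_lit 4) (nat_lit 5) (nat_lit 4) (nat_lit 4) (nat_lit 497) (nat_lit 383) (nat_lit 320)))))) (XT.nd (nat_lit 624) (nat_lit 0) (nat_lit 0) (XT.nd (nat_lit 312) (nat_lit 0) (nat_lit 0) (XT.nd (nat_lit 156)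 (nat_lit 0) (nat_lit 0) (XT.nd (nat_lit 78) (nat_lit 152) (nat_lit 0) (XT.lf (nat_lit 0) (nat_lit 745701731272) (nat_lit 76) (nat_lit 19747115054) (nat_lit 76) (nat_lit 17415713342) (nat_lit 3) (nat_lit 4) (nat_lit 4) (nat_lit 5) (nat_lit 4) (nat_lit 4) (nat_lit 498) (nat_lit 383) (nat_lit 319)) (XT.lf (nat_lit 0) (nat_lit 9945799982) (nat_lit 152) (nat_lit 826421789779) (nat_lit 0) (nat_lit 7724214753) (nat_lit 1) (nat_lit 5) (nat_lit 3) (nat_lit 4) (nat_lit 1) (nat_lit 4) (nat_lit 499) (nat_lit 383) (nat_lit 318))) (XT.nd (nat_lit 78) (nat_lit 0) (nat_lit 0) (XT.lf (nat_lit 0) (nat_lit 39855219736) (nat_lit 152) (nat_lit 832666755753) (nat_lit 0) (nat_lit 37632520946) (nat_lit 1) (nat_lit 5) (nat_lit 3) (nat_lit 4) (nat_lit 1) (nat_lit 4) (nat_lit 500) (nat_lit 383) (nat_lit 317)) (XT.lf (nat_lit 0) (nat_lit 72129664013) (nat_lit 152) (nat_lit 839467992020) (nat_lit 0) (nat_lit 69905934148)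 (nat_lit 1) (nat_lit 5) (nat_lit 3) (nat_lit 4) (nat_lit 1) (nat_lit 4) (nat_lit 501) (nat_lit 383) (nat_lit 316)))) (XT.nd (nat_lit 156) (nat_lit 0) (nat_lit 0) (XT.nd (nat_lit 78) (nat_lit 0) (nat_lit 0) (XT.lf (nat_lit 0) (nat_lit 106960388778) (nat_lit 152) (nat_lit 846865802201) (nat_lit 0) (nat_lit 104735704214) (nat_lit 1) (nat_lit 5) (nat_lit 3) (nat_lit 4) (nat_lit 1) (nat_lit 4) (nat_lit 502) (nat_lit 383) (nat_lit 315)) (XT.lf (nat_lit 0) (nat_lit 144553798328) (nat_lit 152) (nat_lit 854904025172) (nat_lit 0) (nat_lit 142328229783) (nat_lit 1) (nat_lit 5) (nat_lit 3) (nat_lit 4) (nat_lit 1) (nat_lit 4) (nat_lit 503) (nat_lit 383) (nat_lit 314))) (XT.nd (nat_lit 78) (nat_lit 0) (nat_lit 0) (XT.lf (nat_lit 0) (nat_lit 185132668421) (nat_lit 152) (nat_lit 863630294846) (nat_lit 0) (nat_lit 182906281376) (nat_lit 1) (nat_lit 5) (nat_lit 3) (nat_lit 4) (nat_lit 1) (nat_lit 4) (nat_lit 504)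 (nat_lit 383) (nat_lit 313)) (XT.lf (nat_lit 0) (nat_lit 228937466437) (nat_lit 152) (nat_lit 873096322451) (nat_lit 0) (nat_lit 226710321521) (nat_lit 1) (nat_lit 5) (nat_lit 3) (nat_lit 4) (nat_lit 1) (nat_lit 4) (nat_lit 505) (nat_lit 383) (nat_lit 312))))) (XT.nd (nat_lit 56862) (nat_lit 0) (nat_lit 4180) (XT.nd (nat_lit 56706) (nat_lit 0) (nat_lit 4788) (XT.nd (nat_lit 78) (nat_lit 0) (nat_lit 0) (XT.lf (nat_lit 0) (nat_lit 276227776363) (nat_lit 152) (nat_lit 883358202966) (nat_lit 0) (nat_lit 273999929715) (nat_lit 1) (nat_lit 5) (nat_lit 3) (nat_lit 4) (nat_lit 1) (nat_lit 4) (nat_lit 506) (nat_lit 383) (nat_lit 311)) (XT.lf (nat_lit 0) (nat_lit 327283837074) (nat_lit 152) (nat_lit 894476747535) (nat_lit 0) (nat_lit 325055340674) (nat_lit 1) (nat_lit 5) (nat_lit 3) (nat_lit 4) (nat_lit 1) (nat_lit 4) (nat_lit 507) (nat_lit 383) (nat_lit 310))) (XT.nd (nat_lit 78) (nat_lit 228) (nat_lit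 0) (XT.lf (nat_lit 0) (nat_lit 2864639061) (nat_lit 152) (nat_lit 1422406000) (nat_lit 0) (nat_lit 2864639061) (nat_lit 67) (nat_lit 5) (nat_lit 69) (nat_lit 4) (nat_lit 67) (nat_lit 4) (nat_lit 432) (nat_lit 384) (nat_lit 384)) (XT.lf (nat_lit 0) (nat_lit 2262088084) (nat_lit 152) (nat_lit 10840818223) (nat_lit 0) (nat_lit 1763597290) (nat_lit 64) (nat_lit 5) (nat_lit 66) (nat_lit 4) (nat_lit 64) (nat_lit 4) (nat_lit 433) (nat_lit 384) (nat_lit 383)))) (XT.nd (nat_lit 156) (nat_lit 304) (nat_lit 0) (XT.nd (nat_lit 78) (nat_lit 228) (nat_lit 0) (XT.lf (nat_lit 0) (nat_lit 11065449617) (nat_lit 76) (nat_lit 2679142483) (nat_lit 76) (nat_lit 1719086140) (nat_lit 63) (nat_lit 4) (nat_lit 64) (nat_lit 5) (nat_lit 64) (nat_lit 4) (nat_lit 434) (nat_lit 384) (nat_lit 382)) (XT.lf (nat_lit 0) (nat_lit 2147195610) (nat_lit 76) (nat_lit 7635803717) (nat_lit 76) (nat_lit 6314440048) (nat_lit 60) (nat_lit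 4) (nat_lit 61) (nat_lit 5) (nat_lit 61) (nat_lit 4) (nat_lit 435) (nat_lit 384) (nat_lit 381))) (XT.nd (nat_lit 78) (nat_lit 152) (nat_lit 0) (XT.lf (nat_lit 0) (nat_lit 5282443591) (nat_lit 152) (nat_lit 7824312336) (nat_lit 0) (nat_lit 3665074053) (nat_lit 58) (nat_lit 5) (nat_lit 60) (nat_lit 4) (nat_lit 58) (nat_lit 4) (nat_lit 436) (nat_lit 384) (nat_lit 380)) (XT.lf (nat_lit 0) (nat_lit 143969849) (nat_lit 152) (nat_lit 1654572040) (nat_lit 76) (nat_lit 15693587373) (nat_lit 56) (nat_lit 5) (nat_lit 58) (nat_lit 5) (nat_lit 57) (nat_lit 4) (nat_lit 437) (nat_lit 384) (nat_lit 379))))))) (XT.nd (nat_lit 1248) (nat_lit 1216) (nat_lit 0) (XT.nd (nat_lit 624) (nat_lit 988) (nat_lit 0) (XT.nd (nat_lit 312) (nat_lit 532) (nat_lit 0) (XT.nd (nat_lit 156) (nat_lit 304) (nat_lit 0) (XT.nd (nat_lit 78) (nat_lit 152) (nat_lit 0) (XT.lf (nat_lit 0) (nat_lit 4576907127) (nat_lit 76) (nat_lit 7912242327)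 (nat_lit 76) (nat_lit 5762306045) (nat_lit 54) (nat_lit 4) (nat_lit 55) (nat_lit 5) (nat_lit 55) (nat_lit 4) (nat_lit 438) (nat_lit 384) (nat_lit 378)) (XT.lf (nat_lit 0) (nat_lit 6612086010) (nat_lit 152) (nat_lit 8144201172) (nat_lit 0) (nat_lit 4306089027) (nat_lit 52) (nat_lit 5) (nat_lit 54) (nat_lit 4) (nat_lit 52) (nat_lit 4) (nat_lit 439) (nat_lit 384) (nat_lit 377))) (XT.nd (nat_lit 78) (nat_lit 228) (nat_lit 0) (XT.lf (nat_lit 0) (nat_lit 17278568714) (nat_lit 76) (nat_lit 2597548066) (nat_lit 76) (nat_lit 52256064) (nat_lit 51) (nat_lit 4) (nat_lit 52) (nat_lit 5) (nat_lit 52) (nat_lit 4) (nat_lit 440) (nat_lit 384) (nat_lit 376)) (XT.lf (nat_lit 0) (nat_lit 2730497873) (nat_lit 76) (nat_lit 10374078498) (nat_lit 76) (nat_lit 7738972343) (nat_lit 48) (nat_lit 4) (nat_lit 49) (nat_lit 5) (nat_lit 49) (nat_lit 4) (nat_lit 441) (nat_lit 384) (nat_lit 375)))) (XT.nd (nat_lit 156) (nat_lit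 304) (nat_lit 0) (XT.nd (nat_lit 78) (nat_lit 76) (nat_lit 0) (XT.lf (nat_lit 0) (nat_lit 5429914103) (nat_lit 152) (nat_lit 13657246563) (nat_lit 0) (nat_lit 2734205830) (nat_lit 46) (nat_lit 5) (nat_lit 48) (nat_lit 4) (nat_lit 46) (nat_lit 4) (nat_lit 442) (nat_lit 384) (nat_lit 374)) (XT.lf (nat_lit 0) (nat_lit 13401338041) (nat_lit 76) (nat_lit 6164258866) (nat_lit 76) (nat_lit 3296251182) (nat_lit 45) (nat_lit 4) (nat_lit 46) (nat_lit 5) (nat_lit 46) (nat_lit 4) (nat_lit 443) (nat_lit 384) (nat_lit 373))) (XT.nd (nat_lit 78) (nat_lit 152) (nat_lit 0) (XT.lf (nat_lit 0) (nat_lit 10646853355) (nat_lit 152) (nat_lit 5559399923) (nat_lit 0) (nat_lit 7763477950) (nat_lit 43) (nat_lit 5) (nat_lit 45) (nat_lit 4) (nat_lit 43) (nat_lit 4) (nat_lit 444) (nat_lit 384) (nat_lit 372)) (XT.lf (nat_lit 0) (nat_lit 557440872) (nat_lit 152) (nat_lit 1881306352) (nat_lit 76) (nat_lit 22717229878) (nat_lit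 41) (nat_lit 5) (nat_lit 43) (nat_lit 5) (nat_lit 42) (nat_lit 4) (nat_lit 445) (nat_lit 384) (nat_lit 371))))) (XT.nd (nat_lit 312) (nat_lit 456) (nat_lit 0) (XT.nd (nat_lit 156) (nat_lit 228) (nat_lit 0) (XT.nd (nat_lit 78) (nat_lit 152) (nat_lit 0) (XT.lf (nat_lit 0) (nat_lit 1305144200) (nat_lit 76) (nat_lit 14055605672) (nat_lit 76) (nat_lit 11051487779) (nat_lit 39) (nat_lit 4) (nat_lit 40) (nat_lit 5) (nat_lit 40) (nat_lit 4) (nat_lit 446) (nat_lit 384) (nat_lit 370)) (XT.lf (nat_lit 0) (nat_lit 3607178134) (nat_lit 152) (nat_lit 23515195275) (nat_lit 0) (nat_lit 636712580) (nat_lit 37) (nat_lit 5) (nat_lit 39) (nat_lit 4) (nat_lit 37) (nat_lit 4) (nat_lit 447) (nat_lit 384) (nat_lit 369))) (XT.nd (nat_lit 78) (nat_lit 152) (nat_lit 0) (XT.lf (nat_lit 0) (nat_lit 6467452528) (nat_lit 76) (nat_lit 12896648860) (nat_lit 76) (nat_lit 9824886181) (nat_lit 36) (nat_lit 4) (nat_lit 37) (nat_lit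 5) (nat_lit 37) (nat_lit 4) (nat_lit 448) (nat_lit 384) (nat_lit 368)) (XT.lf (nat_lit 0) (nat_lit 5592179653) (nat_lit 152) (nat_lit 22553096550) (nat_lit 0) (nat_lit 2577364117) (nat_lit 34) (nat_lit 5) (nat_lit 36) (nat_lit 4) (nat_lit 34) (nat_lit 4) (nat_lit 449) (nat_lit 384) (nat_lit 367)))) (XT.nd (nat_lit 156) (nat_lit 228) (nat_lit 0) (XT.nd (nat_lit 78) (nat_lit 152) (nat_lit 0) (XT.lf (nat_lit 0) (nat_lit 8976758331) (nat_lit 76) (nat_lit 13237942896) (nat_lit 76) (nat_lit 10140416925) (nat_lit 33) (nat_lit 4) (nat_lit 34) (nat_lit 5) (nat_lit 34) (nat_lit 4) (nat_lit 450) (nat_lit 384) (nat_lit 366)) (XT.lf (nat_lit 0) (nat_lit 6008355087) (nat_lit 152) (nat_lit 25112068668) (nat_lit 0) (nat_lit 2985393460) (nat_lit 31) (nat_lit 5) (nat_lit 33) (nat_lit 4) (nat_lit 31) (nat_lit 4) (nat_lit 451) (nat_lit 384) (nat_lit 365))) (XT.nd (nat_lit 78) (nat_lit 152) (nat_lit 0) (XT.lf (nat_lit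 0) (nat_lit 7807217838) (nat_lit 76) (nat_lit 15627251937) (nat_lit 76) (nat_lit 12536756150) (nat_lit 30) (nat_lit 4) (nat_lit 31) (nat_lit 5) (nat_lit 31) (nat_lit 4) (nat_lit 452) (nat_lit 384) (nat_lit 364)) (XT.lf (nat_lit 0) (nat_lit 4273013679) (nat_lit 152) (nat_lit 32432350027) (nat_lit 0) (nat_lit 1270130427) (nat_lit 28) (nat_lit 5) (nat_lit 30) (nat_lit 4) (nat_lit 28) (nat_lit 4) (nat_lit 453) (nat_lit 384) (nat_lit 363)))))) (XT.nd (nat_lit 624) (nat_lit 532) (nat_lit 0) (XT.nd (nat_lit 312) (nat_lit 380) (nat_lit 0) (XT.nd (nat_lit 156) (nat_lit 228) (nat_lit 0) (XT.nd (nat_lit 78) (nat_lit 0) (nat_lit 0) (XT.lf (nat_lit 0) (nat_lit 1595538069) (nat_lit 76) (nat_lit 20786320200) (nat_lit 76) (nat_lit 17728294418) (nat_lit 27) (nat_lit 4) (nat_lit 28) (nat_lit 5) (nat_lit 28) (nat_lit 4) (nat_lit 454) (nat_lit 384) (nat_lit 362)) (XT.lf (nat_lit 0) (nat_lit 38729378579) (nat_lit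 76) (nat_lit 3393069010) (nat_lit 76) (nat_lit 283985330) (nat_lit 27) (nat_lit 4) (nat_lit 28) (nat_lit 5) (nat_lit 28) (nat_lit 4) (nat_lit 455) (nat_lit 384) (nat_lit 361))) (XT.nd (nat_lit 78) (nat_lit 76) (nat_lit 0) (XT.lf (nat_lit 0) (nat_lit 18381647325) (nat_lit 152) (nat_lit 11093708769) (nat_lit 0) (nat_lit 15375590646) (nat_lit 25) (nat_lit 5) (nat_lit 27) (nat_lit 4) (nat_lit 25) (nat_lit 4) (nat_lit 456) (nat_lit 384) (nat_lit 360)) (XT.lf (nat_lit 0) (nat_lit 26919364370) (nat_lit 76) (nat_lit 11804747404) (nat_lit 76) (nat_lit 8757001280) (nat_lit 24) (nat_lit 4) (nat_lit 25) (nat_lit 5) (nat_lit 25) (nat_lit 4) (nat_lit 457) (nat_lit 384) (nat_lit 359)))) (XT.nd (nat_lit 156) (nat_lit 152) (nat_lit 0) (XT.nd (nat_lit 78) (nat_lit 76) (nat_lit 0) (XT.lf (nat_lit 0) (nat_lit 10293399996) (nat_lit 152) (nat_lit 32653519961) (nat_lit 0) (nat_lit 7354021460) (nat_lit 22) (nat_lit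 5) (nat_lit 24) (nat_lit 4) (nat_lit 22) (nat_lit 4) (nat_lit 458) (nat_lit 384) (nat_lit 358)) (XT.lf (nat_lit 0) (nat_lit 5471277604) (nat_lit 76) (nat_lit 25412588935) (nat_lit 76) (nat_lit 22439170418) (nat_lit 21) (nat_lit 4) (nat_lit 22) (nat_lit 5) (nat_lit 22) (nat_lit 4) (nat_lit 459) (nat_lit 384) (nat_lit 357))) (XT.nd (nat_lit 78) (nat_lit 152) (nat_lit 0) (XT.lf (nat_lit 0) (nat_lit 47170851576) (nat_lit 76) (nat_lit 6204157096) (nat_lit 76) (nat_lit 3199220078) (nat_lit 21) (nat_lit 4) (nat_lit 22) (nat_lit 5) (nat_lit 22) (nat_lit 4) (nat_lit 460) (nat_lit 384) (nat_lit 356)) (XT.lf (nat_lit 0) (nat_lit 17459379339) (nat_lit 152) (nat_lit 28020566927) (nat_lit 0) (nat_lit 14569740466) (nat_lit 19) (nat_lit 5) (nat_lit 21) (nat_lit 4) (nat_lit 19) (nat_lit 4) (nat_lit 461) (nat_lit 384) (nat_lit 355))))) (XT.nd (nat_lit 312) (nat_lit 228) (nat_lit 0) (XT.nd (nat_lit 156) (nat_lit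 228) (nat_lit 0) (XT.nd (nat_lit 78) (nat_lit 0) (nat_lit 0) (XT.lf (nat_lit 0) (nat_lit 12984409523) (nat_lit 76) (nat_lit 26861089119) (nat_lit 76) (nat_lit 23945714976) (nat_lit 18) (nat_lit 4) (nat_lit 19) (nat_lit 5) (nat_lit 19) (nat_lit 4) (nat_lit 462) (nat_lit 384) (nat_lit 354)) (XT.lf (nat_lit 0) (nat_lit 57708951368) (nat_lit 76) (nat_lit 6525850045) (nat_lit 76) (nat_lit 3586646947) (nat_lit 18) (nat_lit 4) (nat_lit 19) (nat_lit 5) (nat_lit 19) (nat_lit 4) (nat_lit 463) (nat_lit 384) (nat_lit 353))) (XT.nd (nat_lit 78) (nat_lit 76) (nat_lit 0) (XT.lf (nat_lit 0) (nat_lit 18335484443) (nat_lit 152) (nat_lit 38282858427) (nat_lit 0) (nat_lit 15515230209) (nat_lit 16) (nat_lit 5) (nat_lit 18) (nat_lit 4) (nat_lit 16) (nat_lit 4) (nat_lit 464) (nat_lit 384) (nat_lit 352)) (XT.lf (nat_lit 0) (nat_lit 4362601441) (nat_lit 76) (nat_lit 37629753165) (nat_lit 76) (nat_lit 34790042276) (nat_lit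 15) (nat_lit 4) (nat_lit 16) (nat_lit 5) (nat_lit 16) (nat_lit 4) (nat_lit 465) (nat_lit 384) (nat_lit 351)))) (XT.nd (nat_lit 156) (nat_lit 76) (nat_lit 0) (XT.nd (nat_lit 78) (nat_lit 152) (nat_lit 0) (XT.lf (nat_lit 0) (nat_lit 51295235258) (nat_lit 76) (nat_lit 16672168243) (nat_lit 76) (nat_lit 13814441933) (nat_lit 15) (nat_lit 4) (nat_lit 16) (nat_lit 5) (nat_lit 16) (nat_lit 4) (nat_lit 466) (nat_lit 384) (nat_lit 350)) (XT.lf (nat_lit 0) (nat_lit 8653734753) (nat_lit 152) (nat_lit 72599539203) (nat_lit 0) (nat_lit 5916204034) (nat_lit 13) (nat_lit 5) (nat_lit 15) (nat_lit 4) (nat_lit 13) (nat_lit 4) (nat_lit 467) (nat_lit 384) (nat_lit 349))) (XT.nd (nat_lit 78) (nat_lit 76) (nat_lit 0) (XT.lf (nat_lit 0) (nat_lit 33042093578) (nat_lit 152) (nat_lit 29614515538) (nat_lit 0) (nat_lit 30289853029) (nat_lit 13) (nat_lit 5) (nat_lit 15) (nat_lit 4) (nat_lit 13) (nat_lit 4) (nat_lit 468)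 (nat_lit 384) (nat_lit 348)) (XT.lf (nat_lit 0) (nat_lit 16934791961) (nat_lit 76) (nat_lit 42506834398) (nat_lit 76) (nat_lit 39740973638) (nat_lit 12) (nat_lit 4) (nat_lit 13) (nat_lit 5) (nat_lit 13) (nat_lit 4) (nat_lit 469) (nat_lit 384) (nat_lit 347))))))))
noncomputable def xc23 : XT := (XT.nd (nat_lit 2496) (nat_lit 0) (nat_lit 0) (XT.nd (nat_lit 1248) (nat_lit 228) (nat_lit 0) (XT.nd (nat_lit 624) (nat_lit 228) (nat_lit 0) (XT.nd (nat_lit 312) (nat_lit 228) (nat_lit 0) (XT.nd (nat_lit 156) (nat_lit 0) (nat_lit 0) (XT.nd (nat_lit 78) (nat_lit 152) (nat_lit 0) (XT.lf (nat_lit 0) (nat_lit 67867133893) (nat_lit 76) (nat_lit 20406471539) (nat_lit 76) (nat_lit 17627999472) (nat_lit 12) (nat_lit 4) (nat_lit 13) (nat_lit 5) (nat_lit 13) (nat_lit 4) (nat_lit 470) (nat_lit 384) (nat_lit 346)) (XT.lf (nat_lit 0) (nat_lit 6074166208) (nat_lit 152) (nat_lit 103661184744) (nat_lit 0) (nat_lit 3416881252)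 (nat_lit 10) (nat_lit 5) (nat_lit 12) (nat_lit 4) (nat_lit 10) (nat_lit 4) (nat_lit 471) (nat_lit 384) (nat_lit 345))) (XT.nd (nat_lit 78) (nat_lit 0) (nat_lit 0) (XT.lf (nat_lit 0) (nat_lit 31901940140) (nat_lit 152) (nat_lit 59789810944) (nat_lit 0) (nat_lit 29234357886) (nat_lit 10) (nat_lit 5) (nat_lit 12) (nat_lit 4) (nat_lit 10) (nat_lit 4) (nat_lit 472) (nat_lit 384) (nat_lit 344)) (XT.lf (nat_lit 0) (nat_lit 59630463742) (nat_lit 152) (nat_lit 12746358953) (nat_lit 0) (nat_lit 56953346952) (nat_lit 10) (nat_lit 5) (nat_lit 12) (nat_lit 4) (nat_lit 10) (nat_lit 4) (nat_lit 473) (nat_lit 384) (nat_lit 343)))) (XT.nd (nat_lit 156) (nat_lit 152) (nat_lit 0) (XT.nd (nat_lit 78) (nat_lit 0) (nat_lit 0) (XT.lf (nat_lit 0) (nat_lit 38996064850) (nat_lit 76) (nat_lit 51036827199) (nat_lit 76) (nat_lit 48350882136) (nat_lit 9) (nat_lit 4) (nat_lit 10) (nat_lit 5) (nat_lit 10) (nat_lit 4) (nat_lit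 474) (nat_lit 384) (nat_lit 342)) (XT.lf (nat_lit 0) (nat_lit 95034015137) (nat_lit 76) (nat_lit 27908998268) (nat_lit 76) (nat_lit 25214878878) (nat_lit 9) (nat_lit 4) (nat_lit 10) (nat_lit 5) (nat_lit 10) (nat_lit 4) (nat_lit 475) (nat_lit 384) (nat_lit 341))) (XT.nd (nat_lit 78) (nat_lit 152) (nat_lit 0) (XT.lf (nat_lit 0) (nat_lit 155278116458) (nat_lit 76) (nat_lit 3072147859) (nat_lit 76) (nat_lit 370459646) (nat_lit 9) (nat_lit 4) (nat_lit 10) (nat_lit 5) (nat_lit 10) (nat_lit 4) (nat_lit 476) (nat_lit 384) (nat_lit 340)) (XT.lf (nat_lit 0) (nat_lit 26674539361) (nat_lit 152) (nat_lit 119285559491) (nat_lit 0) (nat_lit 24094828522) (nat_lit 7) (nat_lit 5) (nat_lit 9) (nat_lit 4) (nat_lit 7) (nat_lit 4) (nat_lit 477) (nat_lit 384) (nat_lit 339))))) (XT.nd (nat_lit 312) (nat_lit 152) (nat_lit 0) (XT.nd (nat_lit 156) (nat_lit 76) (nat_lit 0) (XT.nd (nat_lit 78) (nat_lit 0) (nat_lit 0) (XT.lf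 (nat_lit 0) (nat_lit 55858977912) (nat_lit 152) (nat_lit 73164057628) (nat_lit 0) (nat_lit 53273087031) (nat_lit 7) (nat_lit 5) (nat_lit 9) (nat_lit 4) (nat_lit 7) (nat_lit 4) (nat_lit 478) (nat_lit 384) (nat_lit 338)) (XT.lf (nat_lit 0) (nat_lit 87263256823) (nat_lit 152) (nat_lit 23587458710) (nat_lit 0) (nat_lit 84671643680) (nat_lit 7) (nat_lit 5) (nat_lit 9) (nat_lit 4) (nat_lit 7) (nat_lit 4) (nat_lit 479) (nat_lit 384) (nat_lit 337))) (XT.nd (nat_lit 78) (nat_lit 0) (nat_lit 0) (XT.lf (nat_lit 0) (nat_lit 30721297903) (nat_lit 76) (nat_lit 90831823177) (nat_lit 76) (nat_lit 88234911644) (nat_lit 6) (nat_lit 4) (nat_lit 7) (nat_lit 5) (nat_lit 7) (nat_lit 4) (nat_lit 480) (nat_lit 384) (nat_lit 336)) (XT.lf (nat_lit 0) (nat_lit 90009253124) (nat_lit 76) (nat_lit 68886034435) (nat_lit 76) (nat_lit 66284216985) (nat_lit 6) (nat_lit 4) (nat_lit 7) (nat_lit 5) (nat_lit 7) (nat_lit 4) (nat_lit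 481) (nat_lit 384) (nat_lit 335)))) (XT.nd (nat_lit 156) (nat_lit 152) (nat_lit 0) (XT.nd (nat_lit 78) (nat_lit 0) (nat_lit 0) (XT.lf (nat_lit 0) (nat_lit 153847835073) (nat_lit 76) (nat_lit 45282765216) (nat_lit 76) (nat_lit 42676405251) (nat_lit 6) (nat_lit 4) (nat_lit 7) (nat_lit 5) (nat_lit 7) (nat_lit 4) (nat_lit 482) (nat_lit 384) (nat_lit 334)) (XT.lf (nat_lit 0) (nat_lit 222615346458) (nat_lit 76) (nat_lit 19882144295) (nat_lit 76) (nat_lit 17271578296) (nat_lit 6) (nat_lit 4) (nat_lit 7) (nat_lit 5) (nat_lit 7) (nat_lit 4) (nat_lit 483) (nat_lit 384) (nat_lit 333))) (XT.nd (nat_lit 78) (nat_lit 0) (nat_lit 0) (XT.lf (nat_lit 0) (nat_lit 10162391134) (nat_lit 152) (nat_lit 261309236080) (nat_lit 0) (nat_lit 7672428778) (nat_lit 4) (nat_lit 5) (nat_lit 6) (nat_lit 4) (nat_lit 4) (nat_lit 4) (nat_lit 484) (nat_lit 384) (nat_lit 332)) (XT.lf (nat_lit 0) (nat_lit 40107299852) (nat_lit 152)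 (nat_lit 222287615166) (nat_lit 0) (nat_lit 37613903214) (nat_lit 4) (nat_lit 5) (nat_lit 6) (nat_lit 4) (nat_lit 4) (nat_lit 4) (nat_lit 485) (nat_lit 384) (nat_lit 331)))))) (XT.nd (nat_lit 624) (nat_lit 152) (nat_lit 0) (XT.nd (nat_lit 312) (nat_lit 76) (nat_lit 0) (XT.nd (nat_lit 156) (nat_lit 0) (nat_lit 0) (XT.nd (nat_lit 78) (nat_lit 0) (nat_lit 0) (XT.lf (nat_lit 0) (nat_lit 72373904124) (nat_lit 152) (nat_lit 180295224639) (nat_lit 0) (nat_lit 69877327597) (nat_lit 4) (nat_lit 5) (nat_lit 6) (nat_lit 4) (nat_lit 4) (nat_lit 4) (nat_lit 486) (nat_lit 384) (nat_lit 330)) (XT.lf (nat_lit 0) (nat_lit 107153413459) (nat_lit 152) (nat_lit 135083220705) (nat_lit 0) (nat_lit 104653892588) (nat_lit 4) (nat_lit 5) (nat_lit 6) (nat_lit 4) (nat_lit 4) (nat_lit 4) (nat_lit 487) (nat_lit 384) (nat_lit 329))) (XT.nd (nat_lit 78) (nat_lit 0) (nat_lit 0) (XT.lf (nat_lit 0) (nat_lit 144651928651) (nat_lit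 152) (nat_lit 86383680377) (nat_lit 0) (nat_lit 142149681537) (nat_lit 4) (nat_lit 5) (nat_lit 6) (nat_lit 4) (nat_lit 4) (nat_lit 4) (nat_lit 488) (nat_lit 384) (nat_lit 328)) (XT.lf (nat_lit 0) (nat_lit 185091663124) (nat_lit 152) (nat_lit 33908013787) (nat_lit 0) (nat_lit 182586891711) (nat_lit 4) (nat_lit 5) (nat_lit 6) (nat_lit 4) (nat_lit 4) (nat_lit 4) (nat_lit 489) (nat_lit 384) (nat_lit 327)))) (XT.nd (nat_lit 156) (nat_lit 0) (nat_lit 0) (XT.nd (nat_lit 78) (nat_lit 0) (nat_lit 0) (XT.lf (nat_lit 0) (nat_lit 23403814191) (nat_lit 76) (nat_lit 205673844687) (nat_lit 76) (nat_lit 203166735960) (nat_lit 3) (nat_lit 4) (nat_lit 4) (nat_lit 5) (nat_lit 4) (nat_lit 4) (nat_lit 490) (nat_lit 384) (nat_lit 326)) (XT.lf (nat_lit 0) (nat_lit 86405294684) (nat_lit 76) (nat_lit 190715945068) (nat_lit 76) (nat_lit 188206672161) (nat_lit 3) (nat_lit 4) (nat_lit 4) (nat_lit 5) (nat_lit 4) (nat_lit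 4) (nat_lit 491) (nat_lit 384) (nat_lit 325))) (XT.nd (nat_lit 78) (nat_lit 0) (nat_lit 0) (XT.lf (nat_lit 0) (nat_lit 154348617729) (nat_lit 76) (nat_lit 174611587270) (nat_lit 76) (nat_lit 172100310493) (nat_lit 3) (nat_lit 4) (nat_lit 4) (nat_lit 5) (nat_lit 4) (nat_lit 4) (nat_lit 492) (nat_lit 384) (nat_lit 324)) (XT.lf (nat_lit 0) (nat_lit 227636410425) (nat_lit 76) (nat_lit 157265338063) (nat_lit 76) (nat_lit 154752205850) (nat_lit 3) (nat_lit 4) (nat_lit 4) (nat_lit 5) (nat_lit 4) (nat_lit 4) (nat_lit 493) (nat_lit 384) (nat_lit 323))))) (XT.nd (nat_lit 312) (nat_lit 152) (nat_lit 0) (XT.nd (nat_lit 156) (nat_lit 0) (nat_lit 0) (XT.nd (nat_lit 78) (nat_lit 0) (nat_lit 0) (XT.lf (nat_lit 0) (nat_lit 306702970803) (nat_lit 76) (nat_lit 138574404858) (nat_lit 76) (nat_lit 136059554649) (nat_lit 3) (nat_lit 4) (nat_lit 4) (nat_lit 5) (nat_lit 4) (nat_lit 4) (nat_lit 494) (nat_lit 384) (nat_lit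 322)) (XT.lf (nat_lit 0) (nat_lit 392016841443) (nat_lit 76) (nat_lit 118428026569) (nat_lit 76) (nat_lit 115911585624) (nat_lit 3) (nat_lit 4) (nat_lit 4) (nat_lit 5) (nat_lit 4) (nat_lit 4) (nat_lit 495) (nat_lit 384) (nat_lit 321))) (XT.nd (nat_lit 78) (nat_lit 0) (nat_lit 0) (XT.lf (nat_lit 0) (nat_lit 484083586023) (nat_lit 76) (nat_lit 96706817251) (nat_lit 76) (nat_lit 94188903402) (nat_lit 3) (nat_lit 4) (nat_lit 4) (nat_lit 5) (nat_lit 4) (nat_lit 4) (nat_lit 496) (nat_lit 384) (nat_lit 320)) (XT.lf (nat_lit 0) (nat_lit 583448785251) (nat_lit 76) (nat_lit 73282058628) (nat_lit 76) (nat_lit 70762780978) (nat_lit 3) (nat_lit 4) (nat_lit 4) (nat_lit 5) (nat_lit 4) (nat_lit 4) (nat_lit 497) (nat_lit 384) (nat_lit 319)))) (XT.nd (nat_lit 156) (nat_lit 152) (nat_lit 0) (XT.nd (nat_lit 78) (nat_lit 0) (nat_lit 0) (XT.lf (nat_lit 0) (nat_lit 690701269938) (nat_lit 76) (nat_lit 48014937313) (nat_lit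 76) (nat_lit 45494396885) (nat_lit 3) (nat_lit 4) (nat_lit 4) (nat_lit 5) (nat_lit 4) (nat_lit 4) (nat_lit 498) (nat_lit 384) (nat_lit 318)) (XT.lf (nat_lit 0) (nat_lit 806476610363) (nat_lit 76) (nat_lit 20755722219) (nat_lit 76) (nat_lit 18234012552) (nat_lit 3) (nat_lit 4) (nat_lit 4) (nat_lit 5) (nat_lit 4) (nat_lit 4) (nat_lit 499) (nat_lit 384) (nat_lit 317))) (XT.nd (nat_lit 78) (nat_lit 0) (nat_lit 0) (XT.lf (nat_lit 0) (nat_lit 11282447227) (nat_lit 152) (nat_lit 891429864252) (nat_lit 0) (nat_lit 8879787898) (nat_lit 1) (nat_lit 5) (nat_lit 3) (nat_lit 4) (nat_lit 1) (nat_lit 4) (nat_lit 500) (nat_lit 384) (nat_lit 316)) (XT.lf (nat_lit 0) (nat_lit 43544547728) (nat_lit 152) (nat_lit 898256328890) (nat_lit 0) (nat_lit 41140933700) (nat_lit 1) (nat_lit 5) (nat_lit 3) (nat_lit 4) (nat_lit 1) (nat_lit 4) (nat_lit 501) (nat_lit 384) (nat_lit 315))))))) (XT.nd (nat_lit 57642) (nat_lit 0)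 (nat_lit 1976) (XT.nd (nat_lit 57018) (nat_lit 0) (nat_lit 3876) (XT.nd (nat_lit 312) (nat_lit 0) (nat_lit 0) (XT.nd (nat_lit 156) (nat_lit 0) (nat_lit 0) (XT.nd (nat_lit 78) (nat_lit 0) (nat_lit 0) (XT.lf (nat_lit 0) (nat_lit 78363843072) (nat_lit 152) (nat_lit 905677498675) (nat_lit 0) (nat_lit 75959345063) (nat_lit 1) (nat_lit 5) (nat_lit 3) (nat_lit 4) (nat_lit 1) (nat_lit 4) (nat_lit 502) (nat_lit 384) (nat_lit 314)) (XT.lf (nat_lit 0) (nat_lit 115946669823) (nat_lit 152) (nat_lit 913737350908) (nat_lit 0) (nat_lit 113541353314) (nat_lit 1) (nat_lit 5) (nat_lit 3) (nat_lit 4) (nat_lit 1) (nat_lit 4) (nat_lit 503) (nat_lit 384) (nat_lit 313))) (XT.nd (nat_lit 78) (nat_lit 0) (nat_lit 0) (XT.lf (nat_lit 0) (nat_lit 156515741030) (nat_lit 152) (nat_lit 922483647677) (nat_lit 0) (nat_lit 154109666649) (nat_lit 1) (nat_lit 5) (nat_lit 3) (nat_lit 4) (nat_lit 1) (nat_lit 4) (nat_lit 504) (nat_lit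 384) (nat_lit 312)) (XT.lf (nat_lit 0) (nat_lit 200311466002) (nat_lit 152) (nat_lit 931968218889) (nat_lit 0) (nat_lit 197904689889) (nat_lit 1) (nat_lit 5) (nat_lit 3) (nat_lit 4) (nat_lit 1) (nat_lit 4) (nat_lit 505) (nat_lit 384) (nat_lit 311)))) (XT.nd (nat_lit 56550) (nat_lit 0) (nat_lit 5168) (XT.nd (nat_lit 78) (nat_lit 0) (nat_lit 0) (XT.lf (nat_lit 0) (nat_lit 247593374962) (nat_lit 152) (nat_lit 942247269410) (nat_lit 0) (nat_lit 245185949098) (nat_lit 1) (nat_lit 5) (nat_lit 3) (nat_lit 4) (nat_lit 1) (nat_lit 4) (nat_lit 506) (nat_lit 384) (nat_lit 310)) (XT.lf (nat_lit 0) (nat_lit 298641657001) (nat_lit 152) (nat_lit 953381712132) (nat_lit 0) (nat_lit 296233629514) (nat_lit 1) (nat_lit 5) (nat_lit 3) (nat_lit 4) (nat_lit 1) (nat_lit 4) (nat_lit 507) (nat_lit 384) (nat_lit 309))) (XT.nd (nat_lit 78) (nat_lit 304) (nat_lit 0) (XT.lf (nat_lit 0) (nat_lit 5598867923) (nat_lit 152) (nat_lit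 517073080) (nat_lit 152) (nat_lit 517073080) (nat_lit 73) (nat_lit 4) (nat_lit 75) (nat_lit 5) (nat_lit 75) (nat_lit 4) (nat_lit 430) (nat_lit 385) (nat_lit 385)) (XT.lf (nat_lit 0) (nat_lit 4321424472) (nat_lit 152) (nat_lit 5023386862) (nat_lit 152) (nat_lit 4429833874) (nat_lit 69) (nat_lit 4) (nat_lit 71) (nat_lit 5) (nat_lit 71) (nat_lit 4) (nat_lit 431) (nat_lit 385) (nat_lit 384))))) (XT.nd (nat_lit 312) (nat_lit 684) (nat_lit 0) (XT.nd (nat_lit 156) (nat_lit 228) (nat_lit 0) (XT.nd (nat_lit 78) (nat_lit 228) (nat_lit 0) (XT.lf (nat_lit 0) (nat_lit 6011059085) (nat_lit 152) (nat_lit 3384133551) (nat_lit 0) (nat_lit 4922355192) (nat_lit 67) (nat_lit 5) (nat_lit 69) (nat_lit 4) (nat_lit 67) (nat_lit 4) (nat_lit 432) (nat_lit 385) (nat_lit 383)) (XT.lf (nat_lit 0) (nat_lit 2202437928) (nat_lit 152) (nat_lit 11989962855) (nat_lit 0) (nat_lit 704011528) (nat_lit 64) (nat_lit 5) (nat_lit 66)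 (nat_lit 4) (nat_lit 64) (nat_lit 4) (nat_lit 433) (nat_lit 385) (nat_lit 382))) (XT.nd (nat_lit 78) (nat_lit 152) (nat_lit 0) (XT.lf (nat_lit 0) (nat_lit 9349845512) (nat_lit 76) (nat_lit 4042098342) (nat_lit 76) (nat_lit 2116296433) (nat_lit 63) (nat_lit 4) (nat_lit 64) (nat_lit 5) (nat_lit 64) (nat_lit 4) (nat_lit 434) (nat_lit 385) (nat_lit 381)) (XT.lf (nat_lit 0) (nat_lit 9044639837) (nat_lit 152) (nat_lit 281699375) (nat_lit 0) (nat_lit 6833668434) (nat_lit 61) (nat_lit 5) (nat_lit 63) (nat_lit 4) (nat_lit 61) (nat_lit 4) (nat_lit 435) (nat_lit 385) (nat_lit 380)))) (XT.nd (nat_lit 156) (nat_lit 380) (nat_lit 0) (XT.nd (nat_lit 78) (nat_lit 76) (nat_lit 0) (XT.lf (nat_lit 0) (nat_lit 4160601912) (nat_lit 152) (nat_lit 10969177502) (nat_lit 0) (nat_lit 1722574169) (nat_lit 58) (nat_lit 5) (nat_lit 60) (nat_lit 4) (nat_lit 58) (nat_lit 4) (nat_lit 436) (nat_lit 385) (nat_lit 379)) (XT.lf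 (nat_lit 0) (nat_lit 12078380870) (nat_lit 76) (nat_lit 4127892110) (nat_lit 76) (nat_lit 1382141502) (nat_lit 57) (nat_lit 4) (nat_lit 58) (nat_lit 5) (nat_lit 58) (nat_lit 4) (nat_lit 437) (nat_lit 385) (nat_lit 378))) (XT.nd (nat_lit 78) (nat_lit 228) (nat_lit 0) (XT.lf (nat_lit 0) (nat_lit 10577938586) (nat_lit 152) (nat_lit 100772643) (nat_lit 0) (nat_lit 7691577456) (nat_lit 55) (nat_lit 5) (nat_lit 57) (nat_lit 4) (nat_lit 55) (nat_lit 4) (nat_lit 438) (nat_lit 385) (nat_lit 377)) (XT.lf (nat_lit 0) (nat_lit 4260757265) (nat_lit 152) (nat_lit 13668804839) (nat_lit 0) (nat_lit 1272546885) (nat_lit 52) (nat_lit 5) (nat_lit 54) (nat_lit 4) (nat_lit 52) (nat_lit 4) (nat_lit 439) (nat_lit 385) (nat_lit 376)))))) (XT.nd (nat_lit 624) (nat_lit 912) (nat_lit 0) (XT.nd (nat_lit 312) (nat_lit 456) (nat_lit 0) (XT.nd (nat_lit 156) (nat_lit 304) (nat_lit 0) (XT.nd (nat_lit 78) (nat_lit 152) (nat_lit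 0) (XT.lf (nat_lit 0) (nat_lit 11074474652) (nat_lit 76) (nat_lit 6110208907) (nat_lit 76) (nat_lit 2900429066) (nat_lit 51) (nat_lit 4) (nat_lit 52) (nat_lit 5) (nat_lit 52) (nat_lit 4) (nat_lit 440) (nat_lit 385) (nat_lit 375)) (XT.lf (nat_lit 0) (nat_lit 9898310933) (nat_lit 152) (nat_lit 4480674897) (nat_lit 0) (nat_lit 6645990219) (nat_lit 49) (nat_lit 5) (nat_lit 51) (nat_lit 4) (nat_lit 49) (nat_lit 4) (nat_lit 441) (nat_lit 385) (nat_lit 374))) (XT.nd (nat_lit 78) (nat_lit 152) (nat_lit 0) (XT.lf (nat_lit 0) (nat_lit 1664515446) (nat_lit 152) (nat_lit 20978429) (nat_lit 76) (nat_lit 20344252568) (nat_lit 47) (nat_lit 5) (nat_lit 49) (nat_lit 5) (nat_lit 48) (nat_lit 4) (nat_lit 442) (nat_lit 385) (nat_lit 373)) (XT.lf (nat_lit 0) (nat_lit 4275926793) (nat_lit 76) (nat_lit 11121853804) (nat_lit 76) (nat_lit 7692569603) (nat_lit 45) (nat_lit 4) (nat_lit 46) (nat_lit 5) (nat_lit 46) (nat_lit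 4) (nat_lit 443) (nat_lit 385) (nat_lit 372)))) (XT.nd (nat_lit 156) (nat_lit 228) (nat_lit 0) (XT.nd (nat_lit 78) (nat_lit 76) (nat_lit 0) (XT.lf (nat_lit 0) (nat_lit 5922934885) (nat_lit 152) (nat_lit 15785881814) (nat_lit 0) (nat_lit 2516265195) (nat_lit 43) (nat_lit 5) (nat_lit 45) (nat_lit 4) (nat_lit 43) (nat_lit 4) (nat_lit 444) (nat_lit 385) (nat_lit 371)) (XT.lf (nat_lit 0) (nat_lit 12264417024) (nat_lit 76) (nat_lit 8351947733) (nat_lit 76) (nat_lit 4815014397) (nat_lit 42) (nat_lit 4) (nat_lit 43) (nat_lit 5) (nat_lit 43) (nat_lit 4) (nat_lit 445) (nat_lit 385) (nat_lit 370))) (XT.nd (nat_lit 78) (nat_lit 76) (nat_lit 0) (XT.lf (nat_lit 0) (nat_lit 9620619559) (nat_lit 152) (nat_lit 10959628455) (nat_lit 0) (nat_lit 6137240681) (nat_lit 40) (nat_lit 5) (nat_lit 42) (nat_lit 4) (nat_lit 40) (nat_lit 4) (nat_lit 446) (nat_lit 385) (nat_lit 369)) (XT.lf (nat_lit 0) (nat_lit 18883457604)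 (nat_lit 76) (nat_lit 6398425804) (nat_lit 76) (nat_lit 2808684945) (nat_lit 39) (nat_lit 4) (nat_lit 40) (nat_lit 5) (nat_lit 40) (nat_lit 4) (nat_lit 447) (nat_lit 385) (nat_lit 368))))) (XT.nd (nat_lit 312) (nat_lit 456) (nat_lit 0) (XT.nd (nat_lit 156) (nat_lit 228) (nat_lit 0) (XT.nd (nat_lit 78) (nat_lit 76) (nat_lit 0) (XT.lf (nat_lit 0) (nat_lit 12474911623) (nat_lit 152) (nat_lit 8113595571) (nat_lit 0) (nat_lit 8962317171) (nat_lit 37) (nat_lit 5) (nat_lit 39) (nat_lit 4) (nat_lit 37) (nat_lit 4) (nat_lit 448) (nat_lit 385) (nat_lit 367)) (XT.lf (nat_lit 0) (nat_lit 23516573963) (nat_lit 76) (nat_lit 5598428058) (nat_lit 76) (nat_lit 1998987649) (nat_lit 36) (nat_lit 4) (nat_lit 37) (nat_lit 5) (nat_lit 37) (nat_lit 4) (nat_lit 449) (nat_lit 385) (nat_lit 366))) (XT.nd (nat_lit 78) (nat_lit 76) (nat_lit 0) (XT.lf (nat_lit 0) (nat_lit 14135891253) (nat_lit 152) (nat_lit 8008449462) (nat_lit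 0) (nat_lit 10631269031) (nat_lit 34) (nat_lit 5) (nat_lit 36) (nat_lit 4) (nat_lit 34) (nat_lit 4) (nat_lit 450) (nat_lit 385) (nat_lit 365)) (XT.lf (nat_lit 0) (nat_lit 25333290765) (nat_lit 76) (nat_lit 6399354228) (nat_lit 76) (nat_lit 2823821139) (nat_lit 33) (nat_lit 4) (nat_lit 34) (nat_lit 5) (nat_lit 34) (nat_lit 4) (nat_lit 451) (nat_lit 385) (nat_lit 364)))) (XT.nd (nat_lit 156) (nat_lit 228) (nat_lit 0) (XT.nd (nat_lit 78) (nat_lit 76) (nat_lit 0) (XT.lf (nat_lit 0) (nat_lit 14131342236) (nat_lit 152) (nat_lit 11657263059) (nat_lit 0) (nat_lit 10663540999) (nat_lit 31) (nat_lit 5) (nat_lit 33) (nat_lit 4) (nat_lit 31) (nat_lit 4) (nat_lit 452) (nat_lit 385) (nat_lit 363)) (XT.lf (nat_lit 0) (nat_lit 23223529720) (nat_lit 76) (nat_lit 9392859123) (nat_lit 76) (nat_lit 5867158229) (nat_lit 30) (nat_lit 4) (nat_lit 31) (nat_lit 5) (nat_lit 31) (nat_lit 4) (nat_lit 453) (nat_lit 385)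 (nat_lit 362))) (XT.nd (nat_lit 78) (nat_lit 76) (nat_lit 0) (XT.lf (nat_lit 0) (nat_lit 11829948907) (nat_lit 152) (nat_lit 20401732792) (nat_lit 0) (nat_lit 8421080634) (nat_lit 28) (nat_lit 5) (nat_lit 30) (nat_lit 4) (nat_lit 28) (nat_lit 4) (nat_lit 454) (nat_lit 385) (nat_lit 361)) (XT.lf (nat_lit 0) (nat_lit 15712792756) (nat_lit 76) (nat_lit 15358673935) (nat_lit 76) (nat_lit 11902529830) (nat_lit 27) (nat_lit 4) (nat_lit 28) (nat_lit 5) (nat_lit 28) (nat_lit 4) (nat_lit 455) (nat_lit 385) (nat_lit 360))))))))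
noncomputable def xc24 : XT := (XT.nd (nat_lit 2418) (nat_lit 228) (nat_lit 0) (XT.nd (nat_lit 1170) (nat_lit 608) (nat_lit 0) (XT.nd (nat_lit 546) (nat_lit 532) (nat_lit 0) (XT.nd (nat_lit 234) (nat_lit 380) (nat_lit 0) (XT.nd (nat_lit 78) (nat_lit 76) (nat_lit 0) (XT.lf (nat_lit 0) (nat_lit 6393640061) (nat_lit 152) (nat_lit 36010622152) (nat_lit 0) (nat_lit 3060384802) (nat_lit 25) (nat_lit 5) (nat_lit 27) (nat_lit 4) (nat_lit 25) (nat_lit 4) (nat_lit 456) (nat_lit 385) (nat_lit 359)) (XT.nd (nat_lit 78) (nat_lit 0) (nat_lit 0) (XT.lf (nat_lit 0) (nat_lit 852564534) (nat_lit 76) (nat_lit 25321113514) (nat_lit 76) (nat_lit 21949256915) (nat_lit 24) (nat_lit 4) (nat_lit 25) (nat_lit 5) (nat_lit 25) (nat_lit 4) (nat_lit 457) (nat_lit 385) (nat_lit 358)) (XT.lf (nat_lit 0) (nat_lit 41322842008) (nat_lit 76) (nat_lit 6531369252) (nat_lit 76) (nat_lit 3123770673) (nat_lit 24) (nat_lit 4) (nat_lit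 25) (nat_lit 5) (nat_lit 25) (nat_lit 4) (nat_lit 458) (nat_lit 385) (nat_lit 357)))) (XT.nd (nat_lit 156) (nat_lit 152) (nat_lit 0) (XT.nd (nat_lit 78) (nat_lit 76) (nat_lit 0) (XT.lf (nat_lit 0) (nat_lit 17074195673) (nat_lit 152) (nat_lit 23155599420) (nat_lit 0) (nat_lit 13797345192) (nat_lit 22) (nat_lit 5) (nat_lit 24) (nat_lit 4) (nat_lit 22) (nat_lit 4) (nat_lit 459) (nat_lit 385) (nat_lit 356)) (XT.lf (nat_lit 0) (nat_lit 17492887323) (nat_lit 76) (nat_lit 21558586240) (nat_lit 76) (nat_lit 18252551962) (nat_lit 21) (nat_lit 4) (nat_lit 22) (nat_lit 5) (nat_lit 22) (nat_lit 4) (nat_lit 460) (nat_lit 385) (nat_lit 355))) (XT.nd (nat_lit 78) (nat_lit 0) (nat_lit 0) (XT.lf (nat_lit 0) (nat_lit 827916190) (nat_lit 76) (nat_lit 1201826494) (nat_lit 152) (nat_lit 58804397534) (nat_lit 19) (nat_lit 5) (nat_lit 20) (nat_lit 5) (nat_lit 21) (nat_lit 4) (nat_lit 461) (nat_lit 385) (nat_lit 354))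 (XT.lf (nat_lit 0) (nat_lit 24065990157) (nat_lit 152) (nat_lit 19659348873) (nat_lit 0) (nat_lit 20867821857) (nat_lit 19) (nat_lit 5) (nat_lit 21) (nat_lit 4) (nat_lit 19) (nat_lit 4) (nat_lit 462) (nat_lit 385) (nat_lit 353))))) (XT.nd (nat_lit 312) (nat_lit 228) (nat_lit 0) (XT.nd (nat_lit 156) (nat_lit 152) (nat_lit 0) (XT.nd (nat_lit 78) (nat_lit 76) (nat_lit 0) (XT.lf (nat_lit 0) (nat_lit 24165238170) (nat_lit 76) (nat_lit 23850191473) (nat_lit 76) (nat_lit 20629959326) (nat_lit 18) (nat_lit 4) (nat_lit 19) (nat_lit 5) (nat_lit 19) (nat_lit 4) (nat_lit 463) (nat_lit 385) (nat_lit 352)) (XT.lf (nat_lit 0) (nat_lit 939265716) (nat_lit 152) (nat_lit 1315166916) (nat_lit 76) (nat_lit 70761305846) (nat_lit 17) (nat_lit 5) (nat_lit 19) (nat_lit 5) (nat_lit 18) (nat_lit 4) (nat_lit 464) (nat_lit 385) (nat_lit 351))) (XT.nd (nat_lit 78) (nat_lit 76) (nat_lit 0) (XT.lf (nat_lit 0) (nat_lit 24358977150)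 (nat_lit 152) (nat_lit 32062825898) (nat_lit 0) (nat_lit 21254617314) (nat_lit 16) (nat_lit 5) (nat_lit 18) (nat_lit 4) (nat_lit 16) (nat_lit 4) (nat_lit 465) (nat_lit 385) (nat_lit 350)) (XT.lf (nat_lit 0) (nat_lit 13590857616) (nat_lit 76) (nat_lit 36118639334) (nat_lit 76) (nat_lit 32997598552) (nat_lit 15) (nat_lit 4) (nat_lit 16) (nat_lit 5) (nat_lit 16) (nat_lit 4) (nat_lit 466) (nat_lit 385) (nat_lit 349)))) (XT.nd (nat_lit 156) (nat_lit 76) (nat_lit 0) (XT.nd (nat_lit 78) (nat_lit 152) (nat_lit 0) (XT.lf (nat_lit 0) (nat_lit 63620380060) (nat_lit 76) (nat_lit 13819373106) (nat_lit 76) (nat_lit 10682887004) (nat_lit 15) (nat_lit 4) (nat_lit 16) (nat_lit 5) (nat_lit 16) (nat_lit 4) (nat_lit 467) (nat_lit 385) (nat_lit 348)) (XT.lf (nat_lit 0) (nat_lit 13331736963) (nat_lit 152) (nat_lit 70281022530) (nat_lit 0) (nat_lit 10330987130) (nat_lit 13) (nat_lit 5) (nat_lit 15) (nat_lit 4) (nat_lit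 13) (nat_lit 4) (nat_lit 468) (nat_lit 385) (nat_lit 347))) (XT.nd (nat_lit 78) (nat_lit 76) (nat_lit 0) (XT.lf (nat_lit 0) (nat_lit 39375927202) (nat_lit 152) (nat_lit 24459158439) (nat_lit 0) (nat_lit 36362566062) (nat_lit 13) (nat_lit 5) (nat_lit 15) (nat_lit 4) (nat_lit 13) (nat_lit 4) (nat_lit 469) (nat_lit 385) (nat_lit 346)) (XT.lf (nat_lit 0) (nat_lit 25487087262) (nat_lit 76) (nat_lit 42239340814) (nat_lit 76) (nat_lit 39214302538) (nat_lit 12) (nat_lit 4) (nat_lit 13) (nat_lit 5) (nat_lit 13) (nat_lit 4) (nat_lit 470) (nat_lit 385) (nat_lit 345)))))) (XT.nd (nat_lit 624) (nat_lit 228) (nat_lit 0) (XT.nd (nat_lit 312) (nat_lit 228) (nat_lit 0) (XT.nd (nat_lit 156) (nat_lit 0) (nat_lit 0) (XT.nd (nat_lit 78) (nat_lit 152) (nat_lit 0) (XT.lf (nat_lit 0) (nat_lit 79960867516) (nat_lit 76) (nat_lit 18642655618) (nat_lit 76) (nat_lit 15606805179) (nat_lit 12) (nat_lit 4) (nat_lit 13) (nat_lit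 5) (nat_lit 13) (nat_lit 4) (nat_lit 471) (nat_lit 385) (nat_lit 344)) (XT.lf (nat_lit 0) (nat_lit 9788399350) (nat_lit 152) (nat_lit 105367014653) (nat_lit 0) (nat_lit 6887578682) (nat_lit 10) (nat_lit 5) (nat_lit 12) (nat_lit 4) (nat_lit 10) (nat_lit 4) (nat_lit 472) (nat_lit 385) (nat_lit 343))) (XT.nd (nat_lit 78) (nat_lit 0) (nat_lit 0) (XT.lf (nat_lit 0) (nat_lit 37443261874) (nat_lit 152) (nat_lit 58473861679) (nat_lit 0) (nat_lit 34533612933) (nat_lit 10) (nat_lit 5) (nat_lit 12) (nat_lit 4) (nat_lit 10) (nat_lit 4) (nat_lit 473) (nat_lit 385) (nat_lit 342)) (XT.lf (nat_lit 0) (nat_lit 67168647622) (nat_lit 152) (nat_lit 8118721243) (nat_lit 0) (nat_lit 64250824353) (nat_lit 10) (nat_lit 5) (nat_lit 12) (nat_lit 4) (nat_lit 10) (nat_lit 4) (nat_lit 474) (nat_lit 385) (nat_lit 341)))) (XT.nd (nat_lit 156) (nat_lit 152) (nat_lit 0) (XT.nd (nat_lit 78) (nat_lit 0) (nat_lit 0) (XT.lf (nat_lit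 0) (nat_lit 47517669671) (nat_lit 76) (nat_lit 52364921348) (nat_lit 76) (nat_lit 49439529257) (nat_lit 9) (nat_lit 4) (nat_lit 10) (nat_lit 5) (nat_lit 10) (nat_lit 4) (nat_lit 475) (nat_lit 385) (nat_lit 340)) (XT.lf (nat_lit 0) (nat_lit 107638513786) (nat_lit 76) (nat_lit 27590929216) (nat_lit 76) (nat_lit 24658528957) (nat_lit 9) (nat_lit 4) (nat_lit 10) (nat_lit 5) (nat_lit 10) (nat_lit 4) (nat_lit 476) (nat_lit 385) (nat_lit 339))) (XT.nd (nat_lit 78) (nat_lit 0) (nat_lit 0) (XT.lf (nat_lit 0) (nat_lit 1028700710) (nat_lit 76) (nat_lit 906709052) (nat_lit 152) (nat_lit 169367147408) (nat_lit 7) (nat_lit 5) (nat_lit 8) (nat_lit 5) (nat_lit 9) (nat_lit 4) (nat_lit 477) (nat_lit 385) (nat_lit 338)) (XT.lf (nat_lit 0) (nat_lit 31050444580) (nat_lit 152) (nat_lit 124250997892) (nat_lit 0) (nat_lit 28245780125) (nat_lit 7) (nat_lit 5) (nat_lit 9) (nat_lit 4) (nat_lit 7) (nat_lit 4) (nat_lit 478)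 (nat_lit 385) (nat_lit 337))))) (XT.nd (nat_lit 312) (nat_lit 152) (nat_lit 0) (XT.nd (nat_lit 156) (nat_lit 76) (nat_lit 0) (XT.nd (nat_lit 78) (nat_lit 0) (nat_lit 0) (XT.lf (nat_lit 0) (nat_lit 62403568433) (nat_lit 152) (nat_lit 74778843017) (nat_lit 0) (nat_lit 59593605587) (nat_lit 7) (nat_lit 5) (nat_lit 9) (nat_lit 4) (nat_lit 7) (nat_lit 4) (nat_lit 479) (nat_lit 385) (nat_lit 336)) (XT.lf (nat_lit 0) (nat_lit 96166421339) (nat_lit 152) (nat_lit 21550067240) (nat_lit 0) (nat_lit 93351552576) (nat_lit 7) (nat_lit 5) (nat_lit 9) (nat_lit 4) (nat_lit 7) (nat_lit 4) (nat_lit 480) (nat_lit 385) (nat_lit 335))) (XT.nd (nat_lit 78) (nat_lit 0) (nat_lit 0) (XT.lf (nat_lit 0) (nat_lit 36932840776) (nat_lit 76) (nat_lit 96182863837) (nat_lit 76) (nat_lit 93363452559) (nat_lit 6) (nat_lit 4) (nat_lit 7) (nat_lit 5) (nat_lit 7) (nat_lit 4) (nat_lit 481) (nat_lit 385) (nat_lit 334)) (XT.lf (nat_lit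 0) (nat_lit 100685770263) (nat_lit 76) (nat_lit 72623301270) (nat_lit 76) (nat_lit 69799683958) (nat_lit 6) (nat_lit 4) (nat_lit 7) (nat_lit 5) (nat_lit 7) (nat_lit 4) (nat_lit 482) (nat_lit 385) (nat_lit 333)))) (XT.nd (nat_lit 156) (nat_lit 152) (nat_lit 0) (XT.nd (nat_lit 78) (nat_lit 0) (nat_lit 0) (XT.lf (nat_lit 0) (nat_lit 169373973813) (nat_lit 76) (nat_lit 47263149470) (nat_lit 76) (nat_lit 44435637683) (nat_lit 6) (nat_lit 4) (nat_lit 7) (nat_lit 5) (nat_lit 7) (nat_lit 4) (nat_lit 483) (nat_lit 385) (nat_lit 332)) (XT.lf (nat_lit 0) (nat_lit 243404492632) (nat_lit 76) (nat_lit 19952126057) (nat_lit 76) (nat_lit 17121008275) (nat_lit 6) (nat_lit 4) (nat_lit 7) (nat_lit 5) (nat_lit 7) (nat_lit 4) (nat_lit 484) (nat_lit 385) (nat_lit 331))) (XT.nd (nat_lit 78) (nat_lit 0) (nat_lit 0) (XT.lf (nat_lit 0) (nat_lit 12417087253) (nat_lit 152) (nat_lit 279268802229) (nat_lit 0) (nat_lit 9717604713)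 (nat_lit 4) (nat_lit 5) (nat_lit 6) (nat_lit 4) (nat_lit 4) (nat_lit 4) (nat_lit 485) (nat_lit 385) (nat_lit 330)) (XT.lf (nat_lit 0) (nat_lit 44650795718) (nat_lit 152) (nat_lit 237343612584) (nat_lit 0) (nat_lit 41948368835) (nat_lit 4) (nat_lit 5) (nat_lit 6) (nat_lit 4) (nat_lit 4) (nat_lit 4) (nat_lit 486) (nat_lit 385) (nat_lit 329))))))) (XT.nd (nat_lit 1248) (nat_lit 0) (nat_lit 0) (XT.nd (nat_lit 624) (nat_lit 152) (nat_lit 0) (XT.nd (nat_lit 312) (nat_lit 76) (nat_lit 0) (XT.nd (nat_lit 156) (nat_lit 0) (nat_lit 0) (XT.nd (nat_lit 78) (nat_lit 0) (nat_lit 0) (XT.lf (nat_lit 0) (nat_lit 79399845971) (nat_lit 152) (nat_lit 192193831689) (nat_lit 0) (nat_lit 76694692845) (nat_lit 4) (nat_lit 5) (nat_lit 6) (nat_lit 4) (nat_lit 4) (nat_lit 4) (nat_lit 487) (nat_lit 385) (nat_lit 328)) (XT.lf (nat_lit 0) (nat_lit 116870158310) (nat_lit 152) (nat_lit 143551905287) (nat_lit 0) (nat_lit 114162480885)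 (nat_lit 4) (nat_lit 5) (nat_lit 6) (nat_lit 4) (nat_lit 4) (nat_lit 4) (nat_lit 488) (nat_lit 385) (nat_lit 327))) (XT.nd (nat_lit 78) (nat_lit 0) (nat_lit 0) (XT.lf (nat_lit 0) (nat_lit 157283779031) (nat_lit 152) (nat_lit 91129584923) (nat_lit 0) (nat_lit 154573764291) (nat_lit 4) (nat_lit 5) (nat_lit 6) (nat_lit 4) (nat_lit 4) (nat_lit 4) (nat_lit 489) (nat_lit 385) (nat_lit 326)) (XT.lf (nat_lit 0) (nat_lit 200880196256) (nat_lit 152) (nat_lit 34616219812) (nat_lit 0) (nat_lit 198168017336) (nat_lit 4) (nat_lit 5) (nat_lit 6) (nat_lit 4) (nat_lit 4) (nat_lit 4) (nat_lit 490) (nat_lit 385) (nat_lit 325)))) (XT.nd (nat_lit 156) (nat_lit 0) (nat_lit 0) (XT.nd (nat_lit 78) (nat_lit 0) (nat_lit 0) (XT.lf (nat_lit 0) (nat_lit 27193444099) (nat_lit 76) (nat_lit 221148880897) (nat_lit 76) (nat_lit 218434698107) (nat_lit 3) (nat_lit 4) (nat_lit 4) (nat_lit 5) (nat_lit 4) (nat_lit 4) (nat_lit 491)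 (nat_lit 385) (nat_lit 324)) (XT.lf (nat_lit 0) (nat_lit 95093018974) (nat_lit 76) (nat_lit 205066858298) (nat_lit 76) (nat_lit 202350820073) (nat_lit 3) (nat_lit 4) (nat_lit 4) (nat_lit 5) (nat_lit 4) (nat_lit 4) (nat_lit 492) (nat_lit 385) (nat_lit 323))) (XT.nd (nat_lit 78) (nat_lit 0) (nat_lit 0) (XT.lf (nat_lit 0) (nat_lit 168340304106) (nat_lit 76) (nat_lit 187741289830) (nat_lit 76) (nat_lit 185023533610) (nat_lit 3) (nat_lit 4) (nat_lit 4) (nat_lit 5) (nat_lit 4) (nat_lit 4) (nat_lit 493) (nat_lit 385) (nat_lit 322)) (XT.lf (nat_lit 0) (nat_lit 247369357480) (nat_lit 76) (nat_lit 169069505458) (nat_lit 76) (nat_lit 166350158501) (nat_lit 3) (nat_lit 4) (nat_lit 4) (nat_lit 5) (nat_lit 4) (nat_lit 4) (nat_lit 494) (nat_lit 385) (nat_lit 321))))) (XT.nd (nat_lit 312) (nat_lit 152) (nat_lit 0) (XT.nd (nat_lit 156) (nat_lit 0) (nat_lit 0) (XT.nd (nat_lit 78) (nat_lit 0) (nat_lit 0) (XT.lf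 (nat_lit 0) (nat_lit 332648499412) (nat_lit 76) (nat_lit 148940857571) (nat_lit 76) (nat_lit 146220037709) (nat_lit 3) (nat_lit 4) (nat_lit 4) (nat_lit 5) (nat_lit 4) (nat_lit 4) (nat_lit 495) (nat_lit 385) (nat_lit 320)) (XT.lf (nat_lit 0) (nat_lit 424683087781) (nat_lit 76) (nat_lit 127236065291) (nat_lit 76) (nat_lit 124513881629) (nat_lit 3) (nat_lit 4) (nat_lit 4) (nat_lit 5) (nat_lit 4) (nat_lit 4) (nat_lit 496) (nat_lit 385) (nat_lit 319))) (XT.nd (nat_lit 78) (nat_lit 0) (nat_lit 0) (XT.lf (nat_lit 0) (nat_lit 524018512741) (nat_lit 76) (nat_lit 103826507629) (nat_lit 76) (nat_lit 101103061188) (nat_lit 3) (nat_lit 4) (nat_lit 4) (nat_lit 5) (nat_lit 4) (nat_lit 4) (nat_lit 497) (nat_lit 385) (nat_lit 318)) (XT.lf (nat_lit 0) (nat_lit 631243428660) (nat_lit 76) (nat_lit 78573461278) (nat_lit 76) (nat_lit 75848845599) (nat_lit 3) (nat_lit 4) (nat_lit 4) (nat_lit 5) (nat_lit 4) (nat_lit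 4) (nat_lit 498) (nat_lit 385) (nat_lit 317)))) (XT.nd (nat_lit 156) (nat_lit 152) (nat_lit 0) (XT.nd (nat_lit 78) (nat_lit 0) (nat_lit 0) (XT.lf (nat_lit 0) (nat_lit 746993242449) (nat_lit 76) (nat_lit 51327278558) (nat_lit 76) (nat_lit 48601580249) (nat_lit 3) (nat_lit 4) (nat_lit 4) (nat_lit 5) (nat_lit 4) (nat_lit 4) (nat_lit 499) (nat_lit 385) (nat_lit 316)) (XT.lf (nat_lit 0) (nat_lit 871953878929) (nat_lit 76) (nat_lit 21926500607) (nat_lit 76) (nat_lit 19199799865) (nat_lit 3) (nat_lit 4) (nat_lit 4) (nat_lit 5) (nat_lit 4) (nat_lit 4) (nat_lit 500) (nat_lit 385) (nat_lit 315))) (XT.nd (nat_lit 78) (nat_lit 0) (nat_lit 0) (XT.lf (nat_lit 0) (nat_lit 12648848944) (nat_lit 152) (nat_lit 961796320685) (nat_lit 0) (nat_lit 10051107114) (nat_lit 1) (nat_lit 5) (nat_lit 3) (nat_lit 4) (nat_lit 1) (nat_lit 4) (nat_lit 501) (nat_lit 385) (nat_lit 314)) (XT.lf (nat_lit 0) (nat_lit 47457561490)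 (nat_lit 152) (nat_lit 969239119732) (nat_lit 0) (nat_lit 44859001159) (nat_lit 1) (nat_lit 5) (nat_lit 3) (nat_lit 4) (nat_lit 1) (nat_lit 4) (nat_lit 502) (nat_lit 385) (nat_lit 313)))))) (XT.nd (nat_lit 56862) (nat_lit 0) (nat_lit 4104) (XT.nd (nat_lit 312) (nat_lit 0) (nat_lit 0) (XT.nd (nat_lit 156) (nat_lit 0) (nat_lit 0) (XT.nd (nat_lit 78) (nat_lit 0) (nat_lit 0) (XT.lf (nat_lit 0) (nat_lit 85030589354) (nat_lit 152) (nat_lit 977318999060) (nat_lit 0) (nat_lit 82431271152) (nat_lit 1) (nat_lit 5) (nat_lit 3) (nat_lit 4) (nat_lit 1) (nat_lit 4) (nat_lit 503) (nat_lit 385) (nat_lit 312)) (XT.lf (nat_lit 0) (nat_lit 125590587517) (nat_lit 152) (nat_lit 986083839436) (nat_lit 0) (nat_lit 122990567583) (nat_lit 1) (nat_lit 5) (nat_lit 3) (nat_lit 4) (nat_lit 1) (nat_lit 4) (nat_lit 504) (nat_lit 385) (nat_lit 311))) (XT.nd (nat_lit 78) (nat_lit 0) (nat_lit 0) (XT.lf (nat_lit 0) (nat_lit 169377911523)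 (nat_lit 152) (nat_lit 995585580653) (nat_lit 0) (nat_lit 166777241837) (nat_lit 1) (nat_lit 5) (nat_lit 3) (nat_lit 4) (nat_lit 1) (nat_lit 4) (nat_lit 505) (nat_lit 385) (nat_lit 310)) (XT.lf (nat_lit 0) (nat_lit 216652041811) (nat_lit 152) (nat_lit 1005880529328) (nat_lit 0) (nat_lit 214050770502) (nat_lit 1) (nat_lit 5) (nat_lit 3) (nat_lit 4) (nat_lit 1) (nat_lit 4) (nat_lit 506) (nat_lit 385) (nat_lit 309)))) (XT.nd (nat_lit 56394) (nat_lit 0) (nat_lit 5472) (XT.nd (nat_lit 56316) (nat_lit 0) (nat_lit 5928) (XT.lf (nat_lit 0) (nat_lit 267693121375) (nat_lit 152) (nat_lit 1017029692562) (nat_lit 0) (nat_lit 265091293008) (nat_lit 1) (nat_lit 5) (nat_lit 3) (nat_lit 4) (nat_lit 1) (nat_lit 4) (nat_lit 507) (nat_lit 385) (nat_lit 308)) (XT.lf (nat_lit 0) (nat_lit 2713798566) (nat_lit 152) (nat_lit 732444356) (nat_lit 0) (nat_lit 2713798566) (nat_lit 79) (nat_lit 5) (nat_lit 81) (nat_lit 4)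 (nat_lit 79) (nat_lit 4) (nat_lit 428) (nat_lit 386) (nat_lit 386))) (XT.nd (nat_lit 78) (nat_lit 152) (nat_lit 0) (XT.lf (nat_lit 0) (nat_lit 2602653819) (nat_lit 152) (nat_lit 8252307528) (nat_lit 0) (nat_lit 1929564731) (nat_lit 75) (nat_lit 5) (nat_lit 77) (nat_lit 4) (nat_lit 75) (nat_lit 4) (nat_lit 429) (nat_lit 386) (nat_lit 385)) (XT.lf (nat_lit 0) (nat_lit 10706997145) (nat_lit 152) (nat_lit 1934270462) (nat_lit 152) (nat_lit 637950737) (nat_lit 73) (nat_lit 4) (nat_lit 75) (nat_lit 5) (nat_lit 75) (nat_lit 4) (nat_lit 430) (nat_lit 386) (nat_lit 384))))) (XT.nd (nat_lit 312) (nat_lit 608) (nat_lit 0) (XT.nd (nat_lit 156) (nat_lit 304) (nat_lit 0) (XT.nd (nat_lit 78) (nat_lit 152) (nat_lit 0) (XT.lf (nat_lit 0) (nat_lit 3274520545) (nat_lit 152) (nat_lit 6156037341) (nat_lit 152) (nat_lit 4371861027) (nat_lit 69) (nat_lit 4) (nat_lit 71) (nat_lit 5) (nat_lit 71) (nat_lit 4) (nat_lit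 431) (nat_lit 386) (nat_lit 383)) (XT.lf (nat_lit 0) (nat_lit 5769367888) (nat_lit 152) (nat_lit 5005294182) (nat_lit 0) (nat_lit 3585508524) (nat_lit 67) (nat_lit 5) (nat_lit 69) (nat_lit 4) (nat_lit 67) (nat_lit 4) (nat_lit 432) (nat_lit 386) (nat_lit 382))) (XT.nd (nat_lit 78) (nat_lit 76) (nat_lit 0) (XT.lf (nat_lit 0) (nat_lit 645714535) (nat_lit 76) (nat_lit 953465066) (nat_lit 152) (nat_lit 13356483062) (nat_lit 64) (nat_lit 5) (nat_lit 65) (nat_lit 5) (nat_lit 66) (nat_lit 4) (nat_lit 433) (nat_lit 386) (nat_lit 381)) (XT.lf (nat_lit 0) (nat_lit 6479211405) (nat_lit 76) (nat_lit 6003275976) (nat_lit 76) (nat_lit 3100316342) (nat_lit 63) (nat_lit 4) (nat_lit 64) (nat_lit 5) (nat_lit 64) (nat_lit 4) (nat_lit 434) (nat_lit 386) (nat_lit 380)))) (XT.nd (nat_lit 156) (nat_lit 228) (nat_lit 0) (XT.nd (nat_lit 78) (nat_lit 228) (nat_lit 0) (XT.lf (nat_lit 0) (nat_lit 7763024488) (nat_lit 152)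 (nat_lit 3839428771) (nat_lit 0) (nat_lit 4649343299) (nat_lit 61) (nat_lit 5) (nat_lit 63) (nat_lit 4) (nat_lit 61) (nat_lit 4) (nat_lit 435) (nat_lit 386) (nat_lit 379)) (XT.lf (nat_lit 0) (nat_lit 1553264086) (nat_lit 76) (nat_lit 880908734) (nat_lit 152) (nat_lit 14530893395) (nat_lit 58) (nat_lit 5) (nat_lit 59) (nat_lit 5) (nat_lit 60) (nat_lit 4) (nat_lit 436) (nat_lit 386) (nat_lit 378))) (XT.nd (nat_lit 78) (nat_lit 152) (nat_lit 0) (XT.lf (nat_lit 0) (nat_lit 7028287935) (nat_lit 76) (nat_lit 7123649445) (nat_lit 76) (nat_lit 3565587346) (nat_lit 57) (nat_lit 4) (nat_lit 58) (nat_lit 5) (nat_lit 58) (nat_lit 4) (nat_lit 437) (nat_lit 386) (nat_lit 377)) (XT.lf (nat_lit 0) (nat_lit 8093526956) (nat_lit 152) (nat_lit 5972484343) (nat_lit 0) (nat_lit 4453636616) (nat_lit 55) (nat_lit 5) (nat_lit 57) (nat_lit 4) (nat_lit 55) (nat_lit 4) (nat_lit 438) (nat_lit 386) (nat_lit 376))))))))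
noncomputable def xc25 : XT := (XT.nd (nat_lit 2496) (nat_lit 912) (nat_lit 0) (XT.nd (nat_lit 1248) (nat_lit 1216) (nat_lit 0) (XT.nd (nat_lit 624) (nat_lit 836) (nat_lit 0) (XT.nd (nat_lit 312) (nat_lit 608) (nat_lit 0) (XT.nd (nat_lit 156) (nat_lit 228) (nat_lit 0) (XT.nd (nat_lit 78) (nat_lit 152) (nat_lit 0) (XT.lf (nat_lit 0) (nat_lit 1275548547) (nat_lit 152) (nat_lit 1257663750) (nat_lit 76) (nat_lit 16842100475) (nat_lit 53) (nat_lit 5) (nat_lit 55) (nat_lit 5) (nat_lit 54) (nat_lit 4) (nat_lit 439) (nat_lit 386) (nat_lit 375)) (XT.lf (nat_lit 0) (nat_lit 3417210602) (nat_lit 76) (nat_lit 10377321592) (nat_lit 76) (nat_lit 6484032994) (nat_lit 51) (nat_lit 4) (nat_lit 52) (nat_lit 5) (nat_lit 52) (nat_lit 4) (nat_lit 440) (nat_lit 386) (nat_lit 374))) (XT.nd (nat_lit 78) (nat_lit 76) (nat_lit 0) (XT.lf (nat_lit 0) (nat_lit 6004913785) (nat_lit 152) (nat_lit 13121432828) (nat_lit 0) (nat_lit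 2116105501) (nat_lit 49) (nat_lit 5) (nat_lit 51) (nat_lit 4) (nat_lit 49) (nat_lit 4) (nat_lit 441) (nat_lit 386) (nat_lit 373)) (XT.lf (nat_lit 0) (nat_lit 12674959958) (nat_lit 76) (nat_lit 6823922938) (nat_lit 76) (nat_lit 2767601338) (nat_lit 48) (nat_lit 4) (nat_lit 49) (nat_lit 5) (nat_lit 49) (nat_lit 4) (nat_lit 442) (nat_lit 386) (nat_lit 372)))) (XT.nd (nat_lit 156) (nat_lit 304) (nat_lit 0) (XT.nd (nat_lit 78) (nat_lit 152) (nat_lit 0) (XT.lf (nat_lit 0) (nat_lit 10534360835) (nat_lit 152) (nat_lit 6297404585) (nat_lit 0) (nat_lit 6523478432) (nat_lit 46) (nat_lit 5) (nat_lit 48) (nat_lit 4) (nat_lit 46) (nat_lit 4) (nat_lit 443) (nat_lit 386) (nat_lit 371)) (XT.lf (nat_lit 0) (nat_lit 472687174) (nat_lit 152) (nat_lit 3178650521) (nat_lit 76) (nat_lit 20866945880) (nat_lit 44) (nat_lit 5) (nat_lit 46) (nat_lit 5) (nat_lit 45) (nat_lit 4) (nat_lit 444) (nat_lit 386) (nat_lit 370)))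 (XT.nd (nat_lit 78) (nat_lit 228) (nat_lit 0) (XT.lf (nat_lit 0) (nat_lit 14661844873) (nat_lit 152) (nat_lit 496871799) (nat_lit 0) (nat_lit 10591078739) (nat_lit 43) (nat_lit 5) (nat_lit 45) (nat_lit 4) (nat_lit 43) (nat_lit 4) (nat_lit 445) (nat_lit 386) (nat_lit 369)) (XT.lf (nat_lit 0) (nat_lit 2023727638) (nat_lit 76) (nat_lit 1003674240) (nat_lit 152) (nat_lit 24039453569) (nat_lit 40) (nat_lit 5) (nat_lit 41) (nat_lit 5) (nat_lit 42) (nat_lit 4) (nat_lit 446) (nat_lit 386) (nat_lit 368))))) (XT.nd (nat_lit 312) (nat_lit 380) (nat_lit 0) (XT.nd (nat_lit 156) (nat_lit 228) (nat_lit 0) (XT.nd (nat_lit 78) (nat_lit 152) (nat_lit 0) (XT.lf (nat_lit 0) (nat_lit 3951775238) (nat_lit 76) (nat_lit 14295985661) (nat_lit 76) (nat_lit 10214220237) (nat_lit 39) (nat_lit 4) (nat_lit 40) (nat_lit 5) (nat_lit 40) (nat_lit 4) (nat_lit 447) (nat_lit 386) (nat_lit 367)) (XT.lf (nat_lit 0) (nat_lit 4736473027)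 (nat_lit 152) (nat_lit 24457810782) (nat_lit 0) (nat_lit 762231428) (nat_lit 37) (nat_lit 5) (nat_lit 39) (nat_lit 4) (nat_lit 37) (nat_lit 4) (nat_lit 448) (nat_lit 386) (nat_lit 366))) (XT.nd (nat_lit 78) (nat_lit 152) (nat_lit 0) (XT.lf (nat_lit 0) (nat_lit 6254735895) (nat_lit 76) (nat_lit 14671068874) (nat_lit 76) (nat_lit 10616414351) (nat_lit 36) (nat_lit 4) (nat_lit 37) (nat_lit 5) (nat_lit 37) (nat_lit 4) (nat_lit 449) (nat_lit 386) (nat_lit 365)) (XT.lf (nat_lit 0) (nat_lit 5177889032) (nat_lit 152) (nat_lit 26818094762) (nat_lit 0) (nat_lit 1245402429) (nat_lit 34) (nat_lit 5) (nat_lit 36) (nat_lit 4) (nat_lit 34) (nat_lit 4) (nat_lit 450) (nat_lit 386) (nat_lit 364)))) (XT.nd (nat_lit 156) (nat_lit 152) (nat_lit 0) (XT.nd (nat_lit 78) (nat_lit 152) (nat_lit 0) (XT.lf (nat_lit 0) (nat_lit 5544887810) (nat_lit 76) (nat_lit 16749750189) (nat_lit 76) (nat_lit 12751605376) (nat_lit 33)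 (nat_lit 4) (nat_lit 34) (nat_lit 5) (nat_lit 34) (nat_lit 4) (nat_lit 451) (nat_lit 386) (nat_lit 363)) (XT.lf (nat_lit 0) (nat_lit 3839935739) (nat_lit 76) (nat_lit 13174110) (nat_lit 152) (nat_lit 33129974141) (nat_lit 31) (nat_lit 5) (nat_lit 32) (nat_lit 5) (nat_lit 33) (nat_lit 4) (nat_lit 452) (nat_lit 386) (nat_lit 362))) (XT.nd (nat_lit 78) (nat_lit 76) (nat_lit 0) (XT.lf (nat_lit 0) (nat_lit 689929213) (nat_lit 76) (nat_lit 21134748665) (nat_lit 76) (nat_lit 17215481250) (nat_lit 30) (nat_lit 4) (nat_lit 31) (nat_lit 5) (nat_lit 31) (nat_lit 4) (nat_lit 453) (nat_lit 386) (nat_lit 361)) (XT.lf (nat_lit 0) (nat_lit 233706743) (nat_lit 152) (nat_lit 3489808212) (nat_lit 76) (nat_lit 37525275585) (nat_lit 29) (nat_lit 5) (nat_lit 31) (nat_lit 5) (nat_lit 30) (nat_lit 4) (nat_lit 454) (nat_lit 386) (nat_lit 360)))))) (XT.nd (nat_lit 624) (nat_lit 456) (nat_lit 0) (XT.nd (nat_lit 312) (nat_lit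 380) (nat_lit 0) (XT.nd (nat_lit 156) (nat_lit 228) (nat_lit 0) (XT.nd (nat_lit 78) (nat_lit 76) (nat_lit 0) (XT.lf (nat_lit 0) (nat_lit 18962125112) (nat_lit 152) (nat_lit 9495115210) (nat_lit 0) (nat_lit 15138439729) (nat_lit 28) (nat_lit 5) (nat_lit 30) (nat_lit 4) (nat_lit 28) (nat_lit 4) (nat_lit 455) (nat_lit 386) (nat_lit 359)) (XT.lf (nat_lit 0) (nat_lit 28963653317) (nat_lit 76) (nat_lit 10508362464) (nat_lit 76) (nat_lit 6644145676) (nat_lit 27) (nat_lit 4) (nat_lit 28) (nat_lit 5) (nat_lit 28) (nat_lit 4) (nat_lit 456) (nat_lit 386) (nat_lit 358))) (XT.nd (nat_lit 78) (nat_lit 76) (nat_lit 0) (XT.lf (nat_lit 0) (nat_lit 12746046096) (nat_lit 152) (nat_lit 27033617650) (nat_lit 0) (nat_lit 9030097651) (nat_lit 25) (nat_lit 5) (nat_lit 27) (nat_lit 4) (nat_lit 25) (nat_lit 4) (nat_lit 457) (nat_lit 386) (nat_lit 357)) (XT.lf (nat_lit 0) (nat_lit 12263296075) (nat_lit 76) (nat_lit 21589619313)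 (nat_lit 76) (nat_lit 17840576441) (nat_lit 24) (nat_lit 4) (nat_lit 25) (nat_lit 5) (nat_lit 25) (nat_lit 4) (nat_lit 458) (nat_lit 386) (nat_lit 356)))) (XT.nd (nat_lit 156) (nat_lit 228) (nat_lit 0) (XT.nd (nat_lit 78) (nat_lit 0) (nat_lit 0) (XT.lf (nat_lit 0) (nat_lit 311231926) (nat_lit 76) (nat_lit 1684337724) (nat_lit 152) (nat_lit 52800211789) (nat_lit 22) (nat_lit 5) (nat_lit 23) (nat_lit 5) (nat_lit 24) (nat_lit 4) (nat_lit 459) (nat_lit 386) (nat_lit 355)) (XT.lf (nat_lit 0) (nat_lit 23547576180) (nat_lit 152) (nat_lit 14625500959) (nat_lit 0) (nat_lit 19920853327) (nat_lit 22) (nat_lit 5) (nat_lit 24) (nat_lit 4) (nat_lit 22) (nat_lit 4) (nat_lit 460) (nat_lit 386) (nat_lit 354))) (XT.nd (nat_lit 78) (nat_lit 152) (nat_lit 0) (XT.lf (nat_lit 0) (nat_lit 28823651908) (nat_lit 76) (nat_lit 18236111094) (nat_lit 76) (nat_lit 14584367839) (nat_lit 21) (nat_lit 4) (nat_lit 22) (nat_lit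 5) (nat_lit 22) (nat_lit 4) (nat_lit 461) (nat_lit 386) (nat_lit 353)) (XT.lf (nat_lit 0) (nat_lit 6995801990) (nat_lit 152) (nat_lit 54968990842) (nat_lit 0) (nat_lit 3495887424) (nat_lit 19) (nat_lit 5) (nat_lit 21) (nat_lit 4) (nat_lit 19) (nat_lit 4) (nat_lit 462) (nat_lit 386) (nat_lit 352))))) (XT.nd (nat_lit 312) (nat_lit 228) (nat_lit 0) (XT.nd (nat_lit 156) (nat_lit 152) (nat_lit 0) (XT.nd (nat_lit 78) (nat_lit 76) (nat_lit 0) (XT.lf (nat_lit 0) (nat_lit 30457885001) (nat_lit 152) (nat_lit 12141850377) (nat_lit 0) (nat_lit 26937540947) (nat_lit 19) (nat_lit 5) (nat_lit 21) (nat_lit 4) (nat_lit 19) (nat_lit 4) (nat_lit 463) (nat_lit 386) (nat_lit 351)) (XT.lf (nat_lit 0) (nat_lit 34793652599) (nat_lit 76) (nat_lit 21334522998) (nat_lit 76) (nat_lit 17795262751) (nat_lit 18) (nat_lit 4) (nat_lit 19) (nat_lit 5) (nat_lit 19) (nat_lit 4) (nat_lit 464) (nat_lit 386) (nat_lit 350))) (XT.nd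 (nat_lit 78) (nat_lit 0) (nat_lit 0) (XT.lf (nat_lit 0) (nat_lit 5172232228) (nat_lit 152) (nat_lit 71692041395) (nat_lit 0) (nat_lit 1784827238) (nat_lit 16) (nat_lit 5) (nat_lit 18) (nat_lit 4) (nat_lit 16) (nat_lit 4) (nat_lit 465) (nat_lit 386) (nat_lit 349)) (XT.lf (nat_lit 0) (nat_lit 30214291646) (nat_lit 152) (nat_lit 26669466164) (nat_lit 0) (nat_lit 26811441335) (nat_lit 16) (nat_lit 5) (nat_lit 18) (nat_lit 4) (nat_lit 16) (nat_lit 4) (nat_lit 466) (nat_lit 386) (nat_lit 348)))) (XT.nd (nat_lit 156) (nat_lit 152) (nat_lit 0) (XT.nd (nat_lit 78) (nat_lit 0) (nat_lit 0) (XT.lf (nat_lit 0) (nat_lit 22290650282) (nat_lit 76) (nat_lit 35131678077) (nat_lit 76) (nat_lit 31714526544) (nat_lit 15) (nat_lit 4) (nat_lit 16) (nat_lit 5) (nat_lit 16) (nat_lit 4) (nat_lit 467) (nat_lit 386) (nat_lit 347)) (XT.lf (nat_lit 0) (nat_lit 75758643851) (nat_lit 76) (nat_lit 11335615173) (nat_lit 76) (nat_lit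 7905221768) (nat_lit 15) (nat_lit 4) (nat_lit 16) (nat_lit 5) (nat_lit 16) (nat_lit 4) (nat_lit 468) (nat_lit 386) (nat_lit 346))) (XT.nd (nat_lit 78) (nat_lit 0) (nat_lit 0) (XT.lf (nat_lit 0) (nat_lit 17815374196) (nat_lit 152) (nat_lit 68936357720) (nat_lit 0) (nat_lit 14536655721) (nat_lit 13) (nat_lit 5) (nat_lit 15) (nat_lit 4) (nat_lit 13) (nat_lit 4) (nat_lit 469) (nat_lit 386) (nat_lit 345)) (XT.lf (nat_lit 0) (nat_lit 45689981263) (nat_lit 152) (nat_lit 19964829436) (nat_lit 0) (nat_lit 42400450625) (nat_lit 13) (nat_lit 5) (nat_lit 15) (nat_lit 4) (nat_lit 13) (nat_lit 4) (nat_lit 470) (nat_lit 386) (nat_lit 344))))))) (XT.nd (nat_lit 1248) (nat_lit 228) (nat_lit 0) (XT.nd (nat_lit 624) (nat_lit 228) (nat_lit 0) (XT.nd (nat_lit 312) (nat_lit 228) (nat_lit 0) (XT.nd (nat_lit 156) (nat_lit 152) (nat_lit 0) (XT.nd (nat_lit 78) (nat_lit 0) (nat_lit 0) (XT.lf (nat_lit 0) (nat_lit 33696760642)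 (nat_lit 76) (nat_lit 42473734705) (nat_lit 76) (nat_lit 39174192805) (nat_lit 12) (nat_lit 4) (nat_lit 13) (nat_lit 5) (nat_lit 13) (nat_lit 4) (nat_lit 471) (nat_lit 386) (nat_lit 343)) (XT.lf (nat_lit 0) (nat_lit 92071353954) (nat_lit 76) (nat_lit 17222259388) (nat_lit 76) (nat_lit 13913447800) (nat_lit 12) (nat_lit 4) (nat_lit 13) (nat_lit 5) (nat_lit 13) (nat_lit 4) (nat_lit 472) (nat_lit 386) (nat_lit 342))) (XT.nd (nat_lit 78) (nat_lit 0) (nat_lit 0) (XT.lf (nat_lit 0) (nat_lit 13339218079) (nat_lit 152) (nat_lit 108149029399) (nat_lit 0) (nat_lit 10179794621) (nat_lit 10) (nat_lit 5) (nat_lit 12) (nat_lit 4) (nat_lit 10) (nat_lit 4) (nat_lit 473) (nat_lit 386) (nat_lit 341)) (XT.lf (nat_lit 0) (nat_lit 43001451325) (nat_lit 152) (nat_lit 57922746145) (nat_lit 0) (nat_lit 39834459045) (nat_lit 10) (nat_lit 5) (nat_lit 12) (nat_lit 4) (nat_lit 10) (nat_lit 4) (nat_lit 474) (nat_lit 386)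 (nat_lit 340)))) (XT.nd (nat_lit 156) (nat_lit 152) (nat_lit 0) (XT.nd (nat_lit 78) (nat_lit 76) (nat_lit 0) (XT.lf (nat_lit 0) (nat_lit 74915036192) (nat_lit 152) (nat_lit 3926529620) (nat_lit 0) (nat_lit 71741035744) (nat_lit 10) (nat_lit 5) (nat_lit 12) (nat_lit 4) (nat_lit 10) (nat_lit 4) (nat_lit 475) (nat_lit 386) (nat_lit 339)) (XT.lf (nat_lit 0) (nat_lit 55950358649) (nat_lit 76) (nat_lit 54192273468) (nat_lit 76) (nat_lit 51011783976) (nat_lit 9) (nat_lit 4) (nat_lit 10) (nat_lit 5) (nat_lit 10) (nat_lit 4) (nat_lit 476) (nat_lit 386) (nat_lit 338))) (XT.nd (nat_lit 78) (nat_lit 152) (nat_lit 0) (XT.lf (nat_lit 0) (nat_lit 120537812856) (nat_lit 76) (nat_lit 27611313194) (nat_lit 76) (nat_lit 24424815327) (nat_lit 9) (nat_lit 4) (nat_lit 10) (nat_lit 5) (nat_lit 10) (nat_lit 4) (nat_lit 477) (nat_lit 386) (nat_lit 337)) (XT.lf (nat_lit 0) (nat_lit 4150826060) (nat_lit 152) (nat_lit 179642136986)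 (nat_lit 0) (nat_lit 1110767796) (nat_lit 7) (nat_lit 5) (nat_lit 9) (nat_lit 4) (nat_lit 7) (nat_lit 4) (nat_lit 478) (nat_lit 386) (nat_lit 336))))) (XT.nd (nat_lit 312) (nat_lit 152) (nat_lit 0) (XT.nd (nat_lit 156) (nat_lit 76) (nat_lit 0) (XT.nd (nat_lit 78) (nat_lit 0) (nat_lit 0) (XT.lf (nat_lit 0) (nat_lit 35456584117) (nat_lit 152) (nat_lit 130266689557) (nat_lit 0) (nat_lit 32411619936) (nat_lit 7) (nat_lit 5) (nat_lit 9) (nat_lit 4) (nat_lit 7) (nat_lit 4) (nat_lit 479) (nat_lit 386) (nat_lit 335)) (XT.lf (nat_lit 0) (nat_lit 69175579806) (nat_lit 152) (nat_lit 77127457711) (nat_lit 0) (nat_lit 66126073109) (nat_lit 7) (nat_lit 5) (nat_lit 9) (nat_lit 4) (nat_lit 7) (nat_lit 4) (nat_lit 480) (nat_lit 386) (nat_lit 334))) (XT.nd (nat_lit 78) (nat_lit 76) (nat_lit 0) (XT.lf (nat_lit 0) (nat_lit 105507629396) (nat_lit 152) (nat_lit 19909542297) (nat_lit 0) (nat_lit 102453916667) (nat_lit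 7) (nat_lit 5) (nat_lit 9) (nat_lit 4) (nat_lit 7) (nat_lit 4) (nat_lit 481) (nat_lit 386) (nat_lit 333)) (XT.lf (nat_lit 0) (nat_lit 43105779972) (nat_lit 76) (nat_lit 102235255981) (nat_lit 76) (nat_lit 99177648776) (nat_lit 6) (nat_lit 4) (nat_lit 7) (nat_lit 5) (nat_lit 7) (nat_lit 4) (nat_lit 482) (nat_lit 386) (nat_lit 332)))) (XT.nd (nat_lit 156) (nat_lit 152) (nat_lit 0) (XT.nd (nat_lit 78) (nat_lit 0) (nat_lit 0) (XT.lf (nat_lit 0) (nat_lit 111720550342) (nat_lit 76) (nat_lit 76912575590) (nat_lit 76) (nat_lit 73851362390) (nat_lit 6) (nat_lit 4) (nat_lit 7) (nat_lit 5) (nat_lit 7) (nat_lit 4) (nat_lit 483) (nat_lit 386) (nat_lit 331)) (XT.lf (nat_lit 0) (nat_lit 185683075475) (nat_lit 76) (nat_lit 49636247927) (nat_lit 76) (nat_lit 46571695842) (nat_lit 6) (nat_lit 4) (nat_lit 7) (nat_lit 5) (nat_lit 7) (nat_lit 4) (nat_lit 484) (nat_lit 386) (nat_lit 330))) (XT.nd (nat_lit 78) (nat_lit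 152) (nat_lit 0) (XT.lf (nat_lit 0) (nat_lit 265431651818) (nat_lit 76) (nat_lit 20244635493) (nat_lit 76) (nat_lit 17176991848) (nat_lit 6) (nat_lit 4) (nat_lit 7) (nat_lit 5) (nat_lit 7) (nat_lit 4) (nat_lit 485) (nat_lit 386) (nat_lit 329)) (XT.lf (nat_lit 0) (nat_lit 14646483750) (nat_lit 152) (nat_lit 299085295486) (nat_lit 0) (nat_lit 11722192130) (nat_lit 4) (nat_lit 5) (nat_lit 6) (nat_lit 4) (nat_lit 4) (nat_lit 4) (nat_lit 486) (nat_lit 386) (nat_lit 328)))))) (XT.nd (nat_lit 624) (nat_lit 152) (nat_lit 0) (XT.nd (nat_lit 312) (nat_lit 76) (nat_lit 0) (XT.nd (nat_lit 156) (nat_lit 0) (nat_lit 0) (XT.nd (nat_lit 78) (nat_lit 0) (nat_lit 0) (XT.lf (nat_lit 0) (nat_lit 49367331150) (nat_lit 152) (nat_lit 253993128516) (nat_lit 0) (nat_lit 46440515231) (nat_lit 4) (nat_lit 5) (nat_lit 6) (nat_lit 4) (nat_lit 4) (nat_lit 4) (nat_lit 487) (nat_lit 386) (nat_lit 327)) (XT.lf (nat_lit 0) (nat_lit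 86811529736) (nat_lit 152) (nat_lit 205404548340) (nat_lit 0) (nat_lit 83882376504) (nat_lit 4) (nat_lit 5) (nat_lit 6) (nat_lit 4) (nat_lit 4) (nat_lit 4) (nat_lit 488) (nat_lit 386) (nat_lit 326))) (XT.nd (nat_lit 78) (nat_lit 0) (nat_lit 0) (XT.lf (nat_lit 0) (nat_lit 127200971056) (nat_lit 152) (nat_lit 153031622632) (nat_lit 0) (nat_lit 124269653644) (nat_lit 4) (nat_lit 5) (nat_lit 6) (nat_lit 4) (nat_lit 4) (nat_lit 4) (nat_lit 489) (nat_lit 386) (nat_lit 325)) (XT.lf (nat_lit 0) (nat_lit 170774999947) (nat_lit 152) (nat_lit 96563993312) (nat_lit 0) (nat_lit 167841678664) (nat_lit 4) (nat_lit 5) (nat_lit 6) (nat_lit 4) (nat_lit 4) (nat_lit 4) (nat_lit 490) (nat_lit 386) (nat_lit 324)))) (XT.nd (nat_lit 156) (nat_lit 0) (nat_lit 0) (XT.nd (nat_lit 78) (nat_lit 76) (nat_lit 0) (XT.lf (nat_lit 0) (nat_lit 217791832876) (nat_lit 152) (nat_lit 35667037392) (nat_lit 0) (nat_lit 214856656158)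 (nat_lit 4) (nat_lit 5) (nat_lit 6) (nat_lit 4) (nat_lit 4) (nat_lit 4) (nat_lit 491) (nat_lit 386) (nat_lit 323)) (XT.lf (nat_lit 0) (nat_lit 31012716585) (nat_lit 76) (nat_lit 238001566947) (nat_lit 76) (nat_lit 235064672233) (nat_lit 3) (nat_lit 4) (nat_lit 4) (nat_lit 5) (nat_lit 4) (nat_lit 4) (nat_lit 492) (nat_lit 386) (nat_lit 322))) (XT.nd (nat_lit 78) (nat_lit 0) (nat_lit 0) (XT.lf (nat_lit 0) (nat_lit 104222494712) (nat_lit 76) (nat_lit 220695147312) (nat_lit 76) (nat_lit 217756661862) (nat_lit 3) (nat_lit 4) (nat_lit 4) (nat_lit 5) (nat_lit 4) (nat_lit 4) (nat_lit 493) (nat_lit 386) (nat_lit 321)) (XT.lf (nat_lit 0) (nat_lit 183216819379) (nat_lit 76) (nat_lit 202041093341) (nat_lit 76) (nat_lit 199101134986) (nat_lit 3) (nat_lit 4) (nat_lit 4) (nat_lit 5) (nat_lit 4) (nat_lit 4) (nat_lit 494) (nat_lit 386) (nat_lit 320))))) (XT.nd (nat_lit 312) (nat_lit 152) (nat_lit 0) (XT.nd (nat_lit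 156) (nat_lit 0) (nat_lit 0) (XT.nd (nat_lit 78) (nat_lit 0) (nat_lit 0) (XT.lf (nat_lit 0) (nat_lit 268463805101) (nat_lit 76) (nat_lit 181928862492) (nat_lit 76) (nat_lit 178987540336) (nat_lit 3) (nat_lit 4) (nat_lit 4) (nat_lit 5) (nat_lit 4) (nat_lit 4) (nat_lit 495) (nat_lit 386) (nat_lit 319)) (XT.lf (nat_lit 0) (nat_lit 360468619201) (nat_lit 76) (nat_lit 160239271173) (nat_lit 76) (nat_lit 157296686240) (nat_lit 3) (nat_lit 4) (nat_lit 4) (nat_lit 5) (nat_lit 4) (nat_lit 4) (nat_lit 496) (nat_lit 386) (nat_lit 318))) (XT.nd (nat_lit 78) (nat_lit 0) (nat_lit 0) (XT.lf (nat_lit 0) (nat_lit 459776475393) (nat_lit 76) (nat_lit 136843788475) (nat_lit 76) (nat_lit 133900034302) (nat_lit 3) (nat_lit 4) (nat_lit 4) (nat_lit 5) (nat_lit 4) (nat_lit 4) (nat_lit 497) (nat_lit 386) (nat_lit 317)) (XT.lf (nat_lit 0) (nat_lit 566975864676) (nat_lit 76) (nat_lit 111603774498) (nat_lit 76) (nat_lit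 108658937697) (nat_lit 3) (nat_lit 4) (nat_lit 4) (nat_lit 5) (nat_lit 4) (nat_lit 4) (nat_lit 498) (nat_lit 386) (nat_lit 316)))) (XT.nd (nat_lit 156) (nat_lit 152) (nat_lit 0) (XT.nd (nat_lit 78) (nat_lit 0) (nat_lit 0) (XT.lf (nat_lit 0) (nat_lit 682702042690) (nat_lit 76) (nat_lit 84369658791) (nat_lit 76) (nat_lit 81423819555) (nat_lit 3) (nat_lit 4) (nat_lit 4) (nat_lit 5) (nat_lit 4) (nat_lit 4) (nat_lit 499) (nat_lit 386) (nat_lit 315)) (XT.lf (nat_lit 0) (nat_lit 807640794194) (nat_lit 76) (nat_lit 54980054000) (nat_lit 76) (nat_lit 52033286585) (nat_lit 3) (nat_lit 4) (nat_lit 4) (nat_lit 5) (nat_lit 4) (nat_lit 4) (nat_lit 500) (nat_lit 386) (nat_lit 314))) (XT.nd (nat_lit 78) (nat_lit 152) (nat_lit 0) (XT.lf (nat_lit 0) (nat_lit 942532496974) (nat_lit 76) (nat_lit 23260799505) (nat_lit 76) (nat_lit 20313172664) (nat_lit 3) (nat_lit 4) (nat_lit 4) (nat_lit 5) (nat_lit 4) (nat_lit 4)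 (nat_lit 501) (nat_lit 386) (nat_lit 313)) (XT.lf (nat_lit 0) (nat_lit 14058395695) (nat_lit 152) (nat_lit 1037927326831) (nat_lit 0) (nat_lit 11250374167) (nat_lit 1) (nat_lit 5) (nat_lit 3) (nat_lit 4) (nat_lit 1) (nat_lit 4) (nat_lit 502) (nat_lit 386) (nat_lit 312))))))))
noncomputable def xc26 : XT := (XT.nd (nat_lit 58500) (nat_lit 0) (nat_lit 380) (XT.nd (nat_lit 57252) (nat_lit 0) (nat_lit 2508) (XT.nd (nat_lit 56628) (nat_lit 0) (nat_lit 4560) (XT.nd (nat_lit 234) (nat_lit 0) (nat_lit 0) (XT.nd (nat_lit 78) (nat_lit 0) (nat_lit 0) (XT.lf (nat_lit 0) (nat_lit 51622350516) (nat_lit 152) (nat_lit 1046025749766) (nat_lit 0) (nat_lit 48813627255) (nat_lit 1) (nat_lit 5) (nat_lit 3) (nat_lit 4) (nat_lit 1) (nat_lit 4) (nat_lit 503) (nat_lit 386) (nat_lit 311)) (XT.nd (nat_lit 78) (nat_lit 0) (nat_lit 0) (XT.lf (nat_lit 0) (nat_lit 92173947713) (nat_lit 152) (nat_lit 1054807760147) (nat_lit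 0) (nat_lit 89364574700) (nat_lit 1) (nat_lit 5) (nat_lit 3) (nat_lit 4) (nat_lit 1) (nat_lit 4) (nat_lit 504) (nat_lit 386) (nat_lit 310)) (XT.lf (nat_lit 0) (nat_lit 135953493046) (nat_lit 152) (nat_lit 1064325399518) (nat_lit 0) (nat_lit 133143518411) (nat_lit 1) (nat_lit 5) (nat_lit 3) (nat_lit 4) (nat_lit 1) (nat_lit 4) (nat_lit 505) (nat_lit 386) (nat_lit 309)))) (XT.nd (nat_lit 56238) (nat_lit 0) (nat_lit 6080) (XT.nd (nat_lit 78) (nat_lit 0) (nat_lit 0) (XT.lf (nat_lit 0) (nat_lit 183220420860) (nat_lit 152) (nat_lit 1074635068705) (nat_lit 0) (nat_lit 180409889167) (nat_lit 1) (nat_lit 5) (nat_lit 3) (nat_lit 4) (nat_lit 1) (nat_lit 4) (nat_lit 506) (nat_lit 386) (nat_lit 308)) (XT.lf (nat_lit 0) (nat_lit 234254831466) (nat_lit 152) (nat_lit 1085797862044) (nat_lit 0) (nat_lit 231443783978) (nat_lit 1) (nat_lit 5) (nat_lit 3) (nat_lit 4) (nat_lit 1) (nat_lit 4) (nat_lit 507) (nat_lit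 386) (nat_lit 307))) (XT.nd (nat_lit 78) (nat_lit 304) (nat_lit 0) (XT.lf (nat_lit 0) (nat_lit 5350258380) (nat_lit 152) (nat_lit 191143557) (nat_lit 152) (nat_lit 191143557) (nat_lit 85) (nat_lit 4) (nat_lit 87) (nat_lit 5) (nat_lit 87) (nat_lit 4) (nat_lit 426) (nat_lit 387) (nat_lit 387)) (XT.lf (nat_lit 0) (nat_lit 4722384219) (nat_lit 152) (nat_lit 3981487497) (nat_lit 152) (nat_lit 3180040319) (nat_lit 81) (nat_lit 4) (nat_lit 83) (nat_lit 5) (nat_lit 83) (nat_lit 4) (nat_lit 427) (nat_lit 387) (nat_lit 386))))) (XT.nd (nat_lit 312) (nat_lit 608) (nat_lit 0) (XT.nd (nat_lit 156) (nat_lit 456) (nat_lit 0) (XT.nd (nat_lit 78) (nat_lit 304) (nat_lit 0) (XT.lf (nat_lit 0) (nat_lit 5937545018) (nat_lit 152) (nat_lit 1927691938) (nat_lit 0) (nat_lit 4467518449) (nat_lit 79) (nat_lit 5) (nat_lit 81) (nat_lit 4) (nat_lit 79) (nat_lit 4) (nat_lit 428) (nat_lit 387) (nat_lit 385)) (XT.lf (nat_lit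 0) (nat_lit 2797023335) (nat_lit 152) (nat_lit 9240374085) (nat_lit 0) (nat_lit 773767394) (nat_lit 75) (nat_lit 5) (nat_lit 77) (nat_lit 4) (nat_lit 75) (nat_lit 4) (nat_lit 429) (nat_lit 387) (nat_lit 384))) (XT.nd (nat_lit 78) (nat_lit 304) (nat_lit 0) (XT.lf (nat_lit 0) (nat_lit 9231872959) (nat_lit 152) (nat_lit 3343657710) (nat_lit 152) (nat_lit 743336365) (nat_lit 73) (nat_lit 4) (nat_lit 75) (nat_lit 5) (nat_lit 75) (nat_lit 4) (nat_lit 430) (nat_lit 387) (nat_lit 383)) (XT.lf (nat_lit 0) (nat_lit 1174508817) (nat_lit 152) (nat_lit 7834497316) (nat_lit 152) (nat_lit 4849124778) (nat_lit 69) (nat_lit 4) (nat_lit 71) (nat_lit 5) (nat_lit 71) (nat_lit 4) (nat_lit 431) (nat_lit 387) (nat_lit 382)))) (XT.nd (nat_lit 156) (nat_lit 304) (nat_lit 0) (XT.nd (nat_lit 78) (nat_lit 152) (nat_lit 0) (XT.lf (nat_lit 0) (nat_lit 5002772290) (nat_lit 152) (nat_lit 7717900772) (nat_lit 0) (nat_lit 1710816065)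 (nat_lit 67) (nat_lit 5) (nat_lit 69) (nat_lit 4) (nat_lit 67) (nat_lit 4) (nat_lit 432) (nat_lit 387) (nat_lit 381)) (XT.lf (nat_lit 0) (nat_lit 497764877) (nat_lit 152) (nat_lit 2687042193) (nat_lit 76) (nat_lit 11857347365) (nat_lit 65) (nat_lit 5) (nat_lit 67) (nat_lit 5) (nat_lit 66) (nat_lit 4) (nat_lit 433) (nat_lit 387) (nat_lit 380))) (XT.nd (nat_lit 78) (nat_lit 152) (nat_lit 0) (XT.lf (nat_lit 0) (nat_lit 2436536130) (nat_lit 76) (nat_lit 8574297177) (nat_lit 76) (nat_lit 4676977094) (nat_lit 63) (nat_lit 4) (nat_lit 64) (nat_lit 5) (nat_lit 64) (nat_lit 4) (nat_lit 434) (nat_lit 387) (nat_lit 379)) (XT.lf (nat_lit 0) (nat_lit 5897034782) (nat_lit 152) (nat_lit 8615799087) (nat_lit 0) (nat_lit 1862192362) (nat_lit 61) (nat_lit 5) (nat_lit 63) (nat_lit 4) (nat_lit 61) (nat_lit 4) (nat_lit 435) (nat_lit 387) (nat_lit 378)))))) (XT.nd (nat_lit 624) (nat_lit 912) (nat_lit 0) (XT.nd (nat_lit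 312) (nat_lit 608) (nat_lit 0) (XT.nd (nat_lit 156) (nat_lit 228) (nat_lit 0) (XT.nd (nat_lit 78) (nat_lit 152) (nat_lit 0) (XT.lf (nat_lit 0) (nat_lit 181237509) (nat_lit 152) (nat_lit 3962480532) (nat_lit 76) (nat_lit 12962502167) (nat_lit 59) (nat_lit 5) (nat_lit 61) (nat_lit 5) (nat_lit 60) (nat_lit 4) (nat_lit 436) (nat_lit 387) (nat_lit 377)) (XT.lf (nat_lit 0) (nat_lit 659790142) (nat_lit 76) (nat_lit 10806004728) (nat_lit 76) (nat_lit 6414546326) (nat_lit 57) (nat_lit 4) (nat_lit 58) (nat_lit 5) (nat_lit 58) (nat_lit 4) (nat_lit 437) (nat_lit 387) (nat_lit 376))) (XT.nd (nat_lit 78) (nat_lit 76) (nat_lit 0) (XT.lf (nat_lit 0) (nat_lit 4949733778) (nat_lit 152) (nat_lit 13219512913) (nat_lit 0) (nat_lit 534744508) (nat_lit 55) (nat_lit 5) (nat_lit 57) (nat_lit 4) (nat_lit 55) (nat_lit 4) (nat_lit 438) (nat_lit 387) (nat_lit 375)) (XT.lf (nat_lit 0) (nat_lit 10236148891) (nat_lit 76) (nat_lit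 6985681830) (nat_lit 76) (nat_lit 2355277806) (nat_lit 54) (nat_lit 4) (nat_lit 55) (nat_lit 5) (nat_lit 55) (nat_lit 4) (nat_lit 439) (nat_lit 387) (nat_lit 374)))) (XT.nd (nat_lit 156) (nat_lit 304) (nat_lit 0) (XT.nd (nat_lit 78) (nat_lit 152) (nat_lit 0) (XT.lf (nat_lit 0) (nat_lit 9775168524) (nat_lit 152) (nat_lit 5554928783) (nat_lit 0) (nat_lit 5175299829) (nat_lit 52) (nat_lit 5) (nat_lit 54) (nat_lit 4) (nat_lit 52) (nat_lit 4) (nat_lit 440) (nat_lit 387) (nat_lit 373)) (XT.lf (nat_lit 0) (nat_lit 1439558374) (nat_lit 152) (nat_lit 1824663009) (nat_lit 76) (nat_lit 18231132003) (nat_lit 50) (nat_lit 5) (nat_lit 52) (nat_lit 5) (nat_lit 51) (nat_lit 4) (nat_lit 441) (nat_lit 387) (nat_lit 372))) (XT.nd (nat_lit 78) (nat_lit 152) (nat_lit 0) (XT.lf (nat_lit 0) (nat_lit 1725190692) (nat_lit 76) (nat_lit 12760028519) (nat_lit 76) (nat_lit 8056582952) (nat_lit 48) (nat_lit 4) (nat_lit 49)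 (nat_lit 5) (nat_lit 49) (nat_lit 4) (nat_lit 442) (nat_lit 387) (nat_lit 371)) (XT.lf (nat_lit 0) (nat_lit 4937958121) (nat_lit 152) (nat_lit 18398859300) (nat_lit 0) (nat_lit 321709325) (nat_lit 46) (nat_lit 5) (nat_lit 48) (nat_lit 4) (nat_lit 46) (nat_lit 4) (nat_lit 443) (nat_lit 387) (nat_lit 370))))) (XT.nd (nat_lit 312) (nat_lit 456) (nat_lit 0) (XT.nd (nat_lit 156) (nat_lit 228) (nat_lit 0) (XT.nd (nat_lit 78) (nat_lit 152) (nat_lit 0) (XT.lf (nat_lit 0) (nat_lit 8464329673) (nat_lit 76) (nat_lit 10559914857) (nat_lit 76) (nat_lit 5817020851) (nat_lit 45) (nat_lit 4) (nat_lit 46) (nat_lit 5) (nat_lit 46) (nat_lit 4) (nat_lit 444) (nat_lit 387) (nat_lit 369)) (XT.lf (nat_lit 0) (nat_lit 8045503583) (nat_lit 152) (nat_lit 14640674651) (nat_lit 0) (nat_lit 3416781592) (nat_lit 43) (nat_lit 5) (nat_lit 45) (nat_lit 4) (nat_lit 43) (nat_lit 4) (nat_lit 445) (nat_lit 387) (nat_lit 368))) (XT.nd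 (nat_lit 78) (nat_lit 152) (nat_lit 0) (XT.lf (nat_lit 0) (nat_lit 14105409400) (nat_lit 76) (nat_lit 9035577853) (nat_lit 76) (nat_lit 4303448381) (nat_lit 42) (nat_lit 4) (nat_lit 43) (nat_lit 5) (nat_lit 43) (nat_lit 4) (nat_lit 446) (nat_lit 387) (nat_lit 367)) (XT.lf (nat_lit 0) (nat_lit 10470997552) (nat_lit 152) (nat_lit 12528087139) (nat_lit 0) (nat_lit 5873019323) (nat_lit 40) (nat_lit 5) (nat_lit 42) (nat_lit 4) (nat_lit 40) (nat_lit 4) (nat_lit 447) (nat_lit 387) (nat_lit 366)))) (XT.nd (nat_lit 156) (nat_lit 228) (nat_lit 0) (XT.nd (nat_lit 78) (nat_lit 152) (nat_lit 0) (XT.lf (nat_lit 0) (nat_lit 18139263936) (nat_lit 76) (nat_lit 8468524823) (nat_lit 76) (nat_lit 3786113024) (nat_lit 39) (nat_lit 4) (nat_lit 40) (nat_lit 5) (nat_lit 40) (nat_lit 4) (nat_lit 448) (nat_lit 387) (nat_lit 365)) (XT.lf (nat_lit 0) (nat_lit 11925804073) (nat_lit 152) (nat_lit 12694779623) (nat_lit 0)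 (nat_lit 7391907855) (nat_lit 37) (nat_lit 5) (nat_lit 39) (nat_lit 4) (nat_lit 37) (nat_lit 4) (nat_lit 449) (nat_lit 387) (nat_lit 364))) (XT.nd (nat_lit 78) (nat_lit 152) (nat_lit 0) (XT.lf (nat_lit 0) (nat_lit 19878531257) (nat_lit 76) (nat_lit 9232169356) (nat_lit 76) (nat_lit 4629332016) (nat_lit 36) (nat_lit 4) (nat_lit 37) (nat_lit 5) (nat_lit 37) (nat_lit 4) (nat_lit 450) (nat_lit 387) (nat_lit 363)) (XT.lf (nat_lit 0) (nat_lit 12019253681) (nat_lit 152) (nat_lit 15985262536) (nat_lit 0) (nat_lit 7574804433) (nat_lit 34) (nat_lit 5) (nat_lit 36) (nat_lit 4) (nat_lit 34) (nat_lit 4) (nat_lit 451) (nat_lit 387) (nat_lit 362))))))) (XT.nd (nat_lit 1248) (nat_lit 760) (nat_lit 0) (XT.nd (nat_lit 624) (nat_lit 608) (nat_lit 0) (XT.nd (nat_lit 312) (nat_lit 304) (nat_lit 0) (XT.nd (nat_lit 156) (nat_lit 228) (nat_lit 0) (XT.nd (nat_lit 78) (nat_lit 152) (nat_lit 0) (XT.lf (nat_lit 0) (nat_lit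 18402738417) (nat_lit 76) (nat_lit 11820341566) (nat_lit 76) (nat_lit 7319600985) (nat_lit 33) (nat_lit 4) (nat_lit 34) (nat_lit 5) (nat_lit 34) (nat_lit 4) (nat_lit 452) (nat_lit 387) (nat_lit 361)) (XT.lf (nat_lit 0) (nat_lit 10227855512) (nat_lit 152) (nat_lit 23518737903) (nat_lit 0) (nat_lit 5891796288) (nat_lit 31) (nat_lit 5) (nat_lit 33) (nat_lit 4) (nat_lit 31) (nat_lit 4) (nat_lit 453) (nat_lit 387) (nat_lit 360))) (XT.nd (nat_lit 78) (nat_lit 152) (nat_lit 0) (XT.lf (nat_lit 0) (nat_lit 12487279261) (nat_lit 76) (nat_lit 16884033225) (nat_lit 76) (nat_lit 12502011387) (nat_lit 30) (nat_lit 4) (nat_lit 31) (nat_lit 5) (nat_lit 31) (nat_lit 4) (nat_lit 454) (nat_lit 387) (nat_lit 359)) (XT.lf (nat_lit 0) (nat_lit 5855405596) (nat_lit 152) (nat_lit 36771604817) (nat_lit 0) (nat_lit 1641520058) (nat_lit 28) (nat_lit 5) (nat_lit 30) (nat_lit 4) (nat_lit 28) (nat_lit 4) (nat_lit 455) (nat_lit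 387) (nat_lit 358)))) (XT.nd (nat_lit 156) (nat_lit 228) (nat_lit 0) (XT.nd (nat_lit 78) (nat_lit 0) (nat_lit 0) (XT.lf (nat_lit 0) (nat_lit 511612831) (nat_lit 76) (nat_lit 25278779578) (nat_lit 76) (nat_lit 21027364962) (nat_lit 27) (nat_lit 4) (nat_lit 28) (nat_lit 5) (nat_lit 28) (nat_lit 4) (nat_lit 456) (nat_lit 387) (nat_lit 357)) (XT.lf (nat_lit 0) (nat_lit 41563527767) (nat_lit 76) (nat_lit 6137264156) (nat_lit 76) (nat_lit 1851100392) (nat_lit 27) (nat_lit 4) (nat_lit 28) (nat_lit 5) (nat_lit 28) (nat_lit 4) (nat_lit 457) (nat_lit 387) (nat_lit 356))) (XT.nd (nat_lit 78) (nat_lit 76) (nat_lit 0) (XT.lf (nat_lit 0) (nat_lit 18773372814) (nat_lit 152) (nat_lit 19030108267) (nat_lit 0) (nat_lit 14660669099) (nat_lit 25) (nat_lit 5) (nat_lit 27) (nat_lit 4) (nat_lit 25) (nat_lit 4) (nat_lit 458) (nat_lit 387) (nat_lit 355)) (XT.lf (nat_lit 0) (nat_lit 22968747945) (nat_lit 76) (nat_lit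 18380932135) (nat_lit 76) (nat_lit 14239855283) (nat_lit 24) (nat_lit 4) (nat_lit 25) (nat_lit 5) (nat_lit 25) (nat_lit 4) (nat_lit 459) (nat_lit 387) (nat_lit 354))))) (XT.nd (nat_lit 312) (nat_lit 228) (nat_lit 0) (XT.nd (nat_lit 156) (nat_lit 228) (nat_lit 0) (XT.nd (nat_lit 78) (nat_lit 0) (nat_lit 0) (XT.lf (nat_lit 0) (nat_lit 6855929817) (nat_lit 152) (nat_lit 49201443562) (nat_lit 0) (nat_lit 2887026699) (nat_lit 22) (nat_lit 5) (nat_lit 24) (nat_lit 4) (nat_lit 22) (nat_lit 4) (nat_lit 460) (nat_lit 387) (nat_lit 353)) (XT.lf (nat_lit 0) (nat_lit 29810193019) (nat_lit 152) (nat_lit 6894180941) (nat_lit 0) (nat_lit 25818122862) (nat_lit 22) (nat_lit 5) (nat_lit 24) (nat_lit 4) (nat_lit 22) (nat_lit 4) (nat_lit 461) (nat_lit 387) (nat_lit 352))) (XT.nd (nat_lit 78) (nat_lit 152) (nat_lit 0) (XT.lf (nat_lit 0) (nat_lit 39644061894) (nat_lit 76) (nat_lit 15367872028) (nat_lit 76) (nat_lit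 11354350909) (nat_lit 21) (nat_lit 4) (nat_lit 22) (nat_lit 5) (nat_lit 22) (nat_lit 4) (nat_lit 462) (nat_lit 387) (nat_lit 351)) (XT.lf (nat_lit 0) (nat_lit 11691221363) (nat_lit 152) (nat_lit 50949615289) (nat_lit 0) (nat_lit 7849904104) (nat_lit 19) (nat_lit 5) (nat_lit 21) (nat_lit 4) (nat_lit 19) (nat_lit 4) (nat_lit 463) (nat_lit 387) (nat_lit 350)))) (XT.nd (nat_lit 156) (nat_lit 152) (nat_lit 0) (XT.nd (nat_lit 78) (nat_lit 76) (nat_lit 0) (XT.lf (nat_lit 0) (nat_lit 36723918777) (nat_lit 152) (nat_lit 5319777278) (nat_lit 0) (nat_lit 32865086525) (nat_lit 19) (nat_lit 5) (nat_lit 21) (nat_lit 4) (nat_lit 19) (nat_lit 4) (nat_lit 464) (nat_lit 387) (nat_lit 349)) (XT.lf (nat_lit 0) (nat_lit 45031873351) (nat_lit 76) (nat_lit 19248688993) (nat_lit 76) (nat_lit 15373639155) (nat_lit 18) (nat_lit 4) (nat_lit 19) (nat_lit 5) (nat_lit 19) (nat_lit 4) (nat_lit 465) (nat_lit 387) (nat_lit 348)))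 (XT.nd (nat_lit 78) (nat_lit 0) (nat_lit 0) (XT.lf (nat_lit 0) (nat_lit 9203229625) (nat_lit 152) (nat_lit 70058528961) (nat_lit 0) (nat_lit 5498404747) (nat_lit 16) (nat_lit 5) (nat_lit 18) (nat_lit 4) (nat_lit 16) (nat_lit 4) (nat_lit 466) (nat_lit 387) (nat_lit 347)) (XT.lf (nat_lit 0) (nat_lit 35980711661) (nat_lit 152) (nat_lit 21979990360) (nat_lit 0) (nat_lit 32262644911) (nat_lit 16) (nat_lit 5) (nat_lit 18) (nat_lit 4) (nat_lit 16) (nat_lit 4) (nat_lit 467) (nat_lit 387) (nat_lit 346)))))) (XT.nd (nat_lit 624) (nat_lit 304) (nat_lit 0) (XT.nd (nat_lit 312) (nat_lit 228) (nat_lit 0) (XT.nd (nat_lit 156) (nat_lit 152) (nat_lit 0) (XT.nd (nat_lit 78) (nat_lit 0) (nat_lit 0) (XT.lf (nat_lit 0) (nat_lit 30600414699) (nat_lit 76) (nat_lit 34618779192) (nat_lit 76) (nat_lit 30888451449) (nat_lit 15) (nat_lit 4) (nat_lit 16) (nat_lit 5) (nat_lit 16) (nat_lit 4) (nat_lit 468) (nat_lit 387) (nat_lit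 345)) (XT.lf (nat_lit 0) (nat_lit 87862402391) (nat_lit 76) (nat_lit 9165211488) (nat_lit 76) (nat_lit 5423530973) (nat_lit 15) (nat_lit 4) (nat_lit 16) (nat_lit 5) (nat_lit 16) (nat_lit 4) (nat_lit 469) (nat_lit 387) (nat_lit 344))) (XT.nd (nat_lit 78) (nat_lit 0) (nat_lit 0) (XT.lf (nat_lit 0) (nat_lit 22170215136) (nat_lit 152) (nat_lit 68478061080) (nat_lit 0) (nat_lit 18596698622) (nat_lit 13) (nat_lit 5) (nat_lit 15) (nat_lit 4) (nat_lit 13) (nat_lit 4) (nat_lit 470) (nat_lit 387) (nat_lit 343)) (XT.lf (nat_lit 0) (nat_lit 52057782546) (nat_lit 152) (nat_lit 16031270182) (nat_lit 0) (nat_lit 48474996345) (nat_lit 13) (nat_lit 5) (nat_lit 15) (nat_lit 4) (nat_lit 13) (nat_lit 4) (nat_lit 471) (nat_lit 387) (nat_lit 342)))) (XT.nd (nat_lit 156) (nat_lit 152) (nat_lit 0) (XT.nd (nat_lit 78) (nat_lit 0) (nat_lit 0) (XT.lf (nat_lit 0) (nat_lit 41682887638) (nat_lit 76) (nat_lit 43175514333)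 (nat_lit 76) (nat_lit 39584145088) (nat_lit 12) (nat_lit 4) (nat_lit 13) (nat_lit 5) (nat_lit 13) (nat_lit 4) (nat_lit 472) (nat_lit 387) (nat_lit 341)) (XT.lf (nat_lit 0) (nat_lit 104335567960) (nat_lit 76) (nat_lit 16103633520) (nat_lit 76) (nat_lit 12504317012) (nat_lit 12) (nat_lit 4) (nat_lit 13) (nat_lit 5) (nat_lit 13) (nat_lit 4) (nat_lit 473) (nat_lit 387) (nat_lit 340))) (XT.nd (nat_lit 78) (nat_lit 0) (nat_lit 0) (XT.lf (nat_lit 0) (nat_lit 16779252285) (nat_lit 152) (nat_lit 111959262428) (nat_lit 0) (nat_lit 13344323633) (nat_lit 10) (nat_lit 5) (nat_lit 12) (nat_lit 4) (nat_lit 10) (nat_lit 4) (nat_lit 474) (nat_lit 387) (nat_lit 339)) (XT.lf (nat_lit 0) (nat_lit 48638694061) (nat_lit 152) (nat_lit 58073520167) (nat_lit 0) (nat_lit 45197276364) (nat_lit 10) (nat_lit 5) (nat_lit 12) (nat_lit 4) (nat_lit 10) (nat_lit 4) (nat_lit 475) (nat_lit 387) (nat_lit 338))))) (XT.nd (nat_lit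 312) (nat_lit 76) (nat_lit 0) (XT.nd (nat_lit 156) (nat_lit 152) (nat_lit 0) (XT.nd (nat_lit 78) (nat_lit 76) (nat_lit 0) (XT.lf (nat_lit 0) (nat_lit 82942615596) (nat_lit 152) (nat_lit 89683777) (nat_lit 0) (nat_lit 79495189525) (nat_lit 10) (nat_lit 5) (nat_lit 12) (nat_lit 4) (nat_lit 10) (nat_lit 4) (nat_lit 476) (nat_lit 387) (nat_lit 337)) (XT.lf (nat_lit 0) (nat_lit 64396959534) (nat_lit 76) (nat_lit 56502756866) (nat_lit 76) (nat_lit 53049767484) (nat_lit 9) (nat_lit 4) (nat_lit 10) (nat_lit 5) (nat_lit 10) (nat_lit 4) (nat_lit 477) (nat_lit 387) (nat_lit 336))) (XT.nd (nat_lit 78) (nat_lit 152) (nat_lit 0) (XT.lf (nat_lit 0) (nat_lit 133857293618) (nat_lit 76) (nat_lit 27945312250) (nat_lit 76) (nat_lit 24487171656) (nat_lit 9) (nat_lit 4) (nat_lit 10) (nat_lit 5) (nat_lit 10) (nat_lit 4) (nat_lit 478) (nat_lit 387) (nat_lit 335)) (XT.lf (nat_lit 0) (nat_lit 6262618043) (nat_lit 152)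 (nat_lit 190379815197) (nat_lit 0) (nat_lit 2964608295) (nat_lit 7) (nat_lit 5) (nat_lit 9) (nat_lit 4) (nat_lit 7) (nat_lit 4) (nat_lit 479) (nat_lit 387) (nat_lit 334)))) (XT.nd (nat_lit 156) (nat_lit 76) (nat_lit 0) (XT.nd (nat_lit 78) (nat_lit 0) (nat_lit 0) (XT.lf (nat_lit 0) (nat_lit 39941005197) (nat_lit 152) (nat_lit 137323494399) (nat_lit 0) (nat_lit 36638789415) (nat_lit 7) (nat_lit 5) (nat_lit 9) (nat_lit 4) (nat_lit 7) (nat_lit 4) (nat_lit 480) (nat_lit 387) (nat_lit 333)) (XT.lf (nat_lit 0) (nat_lit 76235454292) (nat_lit 152) (nat_lit 80182348474) (nat_lit 0) (nat_lit 72929344036) (nat_lit 7) (nat_lit 5) (nat_lit 9) (nat_lit 4) (nat_lit 7) (nat_lit 4) (nat_lit 481) (nat_lit 387) (nat_lit 332))) (XT.nd (nat_lit 78) (nat_lit 76) (nat_lit 0) (XT.lf (nat_lit 0) (nat_lit 115361043546) (nat_lit 152) (nat_lit 18617763224) (nat_lit 0) (nat_lit 112051327295) (nat_lit 7) (nat_lit 5) (nat_lit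 9) (nat_lit 4) (nat_lit 7) (nat_lit 4) (nat_lit 482) (nat_lit 387) (nat_lit 331)) (XT.lf (nat_lit 0) (nat_lit 49313426127) (nat_lit 76) (nat_lit 109006122958) (nat_lit 76) (nat_lit 105693067822) (nat_lit 6) (nat_lit 4) (nat_lit 7) (nat_lit 5) (nat_lit 7) (nat_lit 4) (nat_lit 483) (nat_lit 387) (nat_lit 330))))))))
noncomputable def xc27 : XT := (XT.nd (nat_lit 58422) (nat_lit 0) (nat_lit 1520) (XT.nd (nat_lit 1248) (nat_lit 152) (nat_lit 0) (XT.nd (nat_lit 624) (nat_lit 76) (nat_lit 0) (XT.nd (nat_lit 312) (nat_lit 0) (nat_lit 0) (XT.nd (nat_lit 156) (nat_lit 152) (nat_lit 0) (XT.nd (nat_lit 78) (nat_lit 0) (nat_lit 0) (XT.lf (nat_lit 0) (nat_lit 123212994144) (nat_lit 76) (nat_lit 81761920989) (nat_lit 76) (nat_lit 78445774292) (nat_lit 6) (nat_lit 4) (nat_lit 7) (nat_lit 5) (nat_lit 7) (nat_lit 4) (nat_lit 484) (nat_lit 387) (nat_lit 329)) (XT.lf (nat_lit 0) (nat_lit 202903276860) (nat_lit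 76) (nat_lit 52400054568) (nat_lit 76) (nat_lit 49081045316) (nat_lit 6) (nat_lit 4) (nat_lit 7) (nat_lit 5) (nat_lit 7) (nat_lit 4) (nat_lit 485) (nat_lit 387) (nat_lit 328))) (XT.nd (nat_lit 78) (nat_lit 152) (nat_lit 0) (XT.lf (nat_lit 0) (nat_lit 288856512988) (nat_lit 76) (nat_lit 20746527450) (nat_lit 76) (nat_lit 17424867684) (nat_lit 6) (nat_lit 4) (nat_lit 7) (nat_lit 5) (nat_lit 7) (nat_lit 4) (nat_lit 486) (nat_lit 387) (nat_lit 327)) (XT.lf (nat_lit 0) (nat_lit 16877898537) (nat_lit 152) (nat_lit 320847329241) (nat_lit 0) (nat_lit 13712075732) (nat_lit 4) (nat_lit 5) (nat_lit 6) (nat_lit 4) (nat_lit 4) (nat_lit 4) (nat_lit 487) (nat_lit 387) (nat_lit 326)))) (XT.nd (nat_lit 156) (nat_lit 0) (nat_lit 0) (XT.nd (nat_lit 78) (nat_lit 0) (nat_lit 0) (XT.lf (nat_lit 0) (nat_lit 54297917723) (nat_lit 152) (nat_lit 272308143720) (nat_lit 0) (nat_lit 51129930738) (nat_lit 4) (nat_lit 5) (nat_lit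 6) (nat_lit 4) (nat_lit 4) (nat_lit 4) (nat_lit 488) (nat_lit 387) (nat_lit 325)) (XT.lf (nat_lit 0) (nat_lit 94664970709) (nat_lit 152) (nat_lit 219980953802) (nat_lit 0) (nat_lit 91494979853) (nat_lit 4) (nat_lit 5) (nat_lit 6) (nat_lit 4) (nat_lit 4) (nat_lit 4) (nat_lit 489) (nat_lit 387) (nat_lit 324))) (XT.nd (nat_lit 78) (nat_lit 0) (nat_lit 0) (XT.lf (nat_lit 0) (nat_lit 138218269661) (nat_lit 152) (nat_lit 163555672437) (nat_lit 0) (nat_lit 135046423370) (nat_lit 4) (nat_lit 5) (nat_lit 6) (nat_lit 4) (nat_lit 4) (nat_lit 4) (nat_lit 490) (nat_lit 387) (nat_lit 323)) (XT.lf (nat_lit 0) (nat_lit 185215908202) (nat_lit 152) (nat_lit 102697927587) (nat_lit 0) (nat_lit 182042343915) (nat_lit 4) (nat_lit 5) (nat_lit 6) (nat_lit 4) (nat_lit 4) (nat_lit 4) (nat_lit 491) (nat_lit 387) (nat_lit 322))))) (XT.nd (nat_lit 312) (nat_lit 0) (nat_lit 0) (XT.nd (nat_lit 156) (nat_lit 0) (nat_lit 0)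 (XT.nd (nat_lit 78) (nat_lit 76) (nat_lit 0) (XT.lf (nat_lit 0) (nat_lit 235936390858) (nat_lit 152) (nat_lit 37047080764) (nat_lit 0) (nat_lit 232761235834) (nat_lit 4) (nat_lit 5) (nat_lit 6) (nat_lit 4) (nat_lit 4) (nat_lit 4) (nat_lit 492) (nat_lit 387) (nat_lit 321)) (XT.lf (nat_lit 0) (nat_lit 34903024856) (nat_lit 76) (nat_lit 256322192627) (nat_lit 76) (nat_lit 253145564699) (nat_lit 3) (nat_lit 4) (nat_lit 4) (nat_lit 5) (nat_lit 4) (nat_lit 4) (nat_lit 493) (nat_lit 387) (nat_lit 320))) (XT.nd (nat_lit 78) (nat_lit 0) (nat_lit 0) (XT.lf (nat_lit 0) (nat_lit 113865193312) (nat_lit 76) (nat_lit 237684555694) (nat_lit 76) (nat_lit 234506563966) (nat_lit 3) (nat_lit 4) (nat_lit 4) (nat_lit 5) (nat_lit 4) (nat_lit 4) (nat_lit 494) (nat_lit 387) (nat_lit 319)) (XT.lf (nat_lit 0) (nat_lit 199082404766) (nat_lit 76) (nat_lit 217587525806) (nat_lit 76) (nat_lit 214408271299) (nat_lit 3) (nat_lit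 4) (nat_lit 4) (nat_lit 5) (nat_lit 4) (nat_lit 4) (nat_lit 495) (nat_lit 387) (nat_lit 318)))) (XT.nd (nat_lit 156) (nat_lit 0) (nat_lit 0) (XT.nd (nat_lit 78) (nat_lit 0) (nat_lit 0) (XT.lf (nat_lit 0) (nat_lit 291059650098) (nat_lit 76) (nat_lit 195912009451) (nat_lit 76) (nat_lit 192731585706) (nat_lit 3) (nat_lit 4) (nat_lit 4) (nat_lit 5) (nat_lit 4) (nat_lit 4) (nat_lit 496) (nat_lit 387) (nat_lit 317)) (XT.lf (nat_lit 0) (nat_lit 390341979653) (nat_lit 76) (nat_lit 172529559127) (nat_lit 76) (nat_lit 169348052752) (nat_lit 3) (nat_lit 4) (nat_lit 4) (nat_lit 5) (nat_lit 4) (nat_lit 4) (nat_lit 497) (nat_lit 387) (nat_lit 316))) (XT.nd (nat_lit 78) (nat_lit 0) (nat_lit 0) (XT.lf (nat_lit 0) (nat_lit 497517733161) (nat_lit 76) (nat_lit 147301612163) (nat_lit 76) (nat_lit 144119103355) (nat_lit 3) (nat_lit 4) (nat_lit 4) (nat_lit 5) (nat_lit 4) (nat_lit 4) (nat_lit 498) (nat_lit 387) (nat_lit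 315)) (XT.lf (nat_lit 0) (nat_lit 613222026199) (nat_lit 76) (nat_lit 120078669616) (nat_lit 76) (nat_lit 116895232628) (nat_lit 3) (nat_lit 4) (nat_lit 4) (nat_lit 5) (nat_lit 4) (nat_lit 4) (nat_lit 499) (nat_lit 387) (nat_lit 314)))))) (XT.nd (nat_lit 56550) (nat_lit 0) (nat_lit 5320) (XT.nd (nat_lit 312) (nat_lit 0) (nat_lit 0) (XT.nd (nat_lit 156) (nat_lit 152) (nat_lit 0) (XT.nd (nat_lit 78) (nat_lit 0) (nat_lit 0) (XT.lf (nat_lit 0) (nat_lit 738140513836) (nat_lit 76) (nat_lit 90699410344) (nat_lit 76) (nat_lit 87515113931) (nat_lit 3) (nat_lit 4) (nat_lit 4) (nat_lit 5) (nat_lit 4) (nat_lit 4) (nat_lit 500) (nat_lit 387) (nat_lit 313)) (XT.lf (nat_lit 0) (nat_lit 873013453776) (nat_lit 76) (nat_lit 58989735033) (nat_lit 76) (nat_lit 55804642855) (nat_lit 3) (nat_lit 4) (nat_lit 4) (nat_lit 5) (nat_lit 4) (nat_lit 4) (nat_lit 501) (nat_lit 387) (nat_lit 312))) (XT.nd (nat_lit 78) (nat_lit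 152) (nat_lit 0) (XT.lf (nat_lit 0) (nat_lit 1018640093072) (nat_lit 76) (nat_lit 24761734496) (nat_lit 76) (nat_lit 21575905499) (nat_lit 3) (nat_lit 4) (nat_lit 4) (nat_lit 5) (nat_lit 4) (nat_lit 4) (nat_lit 502) (nat_lit 387) (nat_lit 311)) (XT.lf (nat_lit 0) (nat_lit 15523978562) (nat_lit 152) (nat_lit 1120264754140) (nat_lit 0) (nat_lit 12489205955) (nat_lit 1) (nat_lit 5) (nat_lit 3) (nat_lit 4) (nat_lit 1) (nat_lit 4) (nat_lit 503) (nat_lit 387) (nat_lit 310)))) (XT.nd (nat_lit 156) (nat_lit 0) (nat_lit 0) (XT.nd (nat_lit 78) (nat_lit 0) (nat_lit 0) (XT.lf (nat_lit 0) (nat_lit 56067797086) (nat_lit 152) (nat_lit 1129062662675) (nat_lit 0) (nat_lit 53032422857) (nat_lit 1) (nat_lit 5) (nat_lit 3) (nat_lit 4) (nat_lit 1) (nat_lit 4) (nat_lit 504) (nat_lit 387) (nat_lit 309)) (XT.lf (nat_lit 0) (nat_lit 99840139945) (nat_lit 152) (nat_lit 1138595022559) (nat_lit 0) (nat_lit 96804208659)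 (nat_lit 1) (nat_lit 5) (nat_lit 3) (nat_lit 4) (nat_lit 1) (nat_lit 4) (nat_lit 505) (nat_lit 387) (nat_lit 308))) (XT.nd (nat_lit 78) (nat_lit 0) (nat_lit 0) (XT.lf (nat_lit 0) (nat_lit 147100398800) (nat_lit 152) (nat_lit 1148918321850) (nat_lit 0) (nat_lit 144063951720) (nat_lit 1) (nat_lit 5) (nat_lit 3) (nat_lit 4) (nat_lit 1) (nat_lit 4) (nat_lit 506) (nat_lit 387) (nat_lit 307)) (XT.lf (nat_lit 0) (nat_lit 198128634446) (nat_lit 152) (nat_lit 1160093735656) (nat_lit 0) (nat_lit 195091709778) (nat_lit 1) (nat_lit 5) (nat_lit 3) (nat_lit 4) (nat_lit 1) (nat_lit 4) (nat_lit 507) (nat_lit 387) (nat_lit 306))))) (XT.nd (nat_lit 312) (nat_lit 760) (nat_lit 0) (XT.nd (nat_lit 156) (nat_lit 456) (nat_lit 0) (XT.nd (nat_lit 78) (nat_lit 380) (nat_lit 0) (XT.lf (nat_lit 0) (nat_lit 2663877913) (nat_lit 228) (nat_lit 15607825) (nat_lit 0) (nat_lit 2663877913) (nat_lit 92) (nat_lit 5) (nat_lit 95)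 (nat_lit 4) (nat_lit 92) (nat_lit 4) (nat_lit 424) (nat_lit 388) (nat_lit 388)) (XT.lf (nat_lit 0) (nat_lit 2976234520) (nat_lit 228) (nat_lit 6024256094) (nat_lit 0) (nat_lit 2067393421) (nat_lit 87) (nat_lit 5) (nat_lit 90) (nat_lit 4) (nat_lit 87) (nat_lit 4) (nat_lit 425) (nat_lit 388) (nat_lit 387))) (XT.nd (nat_lit 78) (nat_lit 228) (nat_lit 0) (XT.lf (nat_lit 0) (nat_lit 268580907) (nat_lit 228) (nat_lit 1199769775) (nat_lit 76) (nat_lit 10008391692) (nat_lit 84) (nat_lit 5) (nat_lit 87) (nat_lit 5) (nat_lit 85) (nat_lit 4) (nat_lit 426) (nat_lit 388) (nat_lit 386)) (XT.lf (nat_lit 0) (nat_lit 3826097811) (nat_lit 152) (nat_lit 5245894781) (nat_lit 152) (nat_lit 2836803932) (nat_lit 81) (nat_lit 4) (nat_lit 83) (nat_lit 5) (nat_lit 83) (nat_lit 4) (nat_lit 427) (nat_lit 388) (nat_lit 385)))) (XT.nd (nat_lit 156) (nat_lit 304) (nat_lit 0) (XT.nd (nat_lit 78) (nat_lit 304) (nat_lit 0) (XT.lf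 (nat_lit 0) (nat_lit 6000384019) (nat_lit 152) (nat_lit 3318844153) (nat_lit 0) (nat_lit 3051619613) (nat_lit 79) (nat_lit 5) (nat_lit 81) (nat_lit 4) (nat_lit 79) (nat_lit 4) (nat_lit 428) (nat_lit 388) (nat_lit 384)) (XT.lf (nat_lit 0) (nat_lit 1627476985) (nat_lit 76) (nat_lit 900405973) (nat_lit 152) (nat_lit 10336014295) (nat_lit 75) (nat_lit 5) (nat_lit 76) (nat_lit 5) (nat_lit 77) (nat_lit 4) (nat_lit 429) (nat_lit 388) (nat_lit 383))) (XT.nd (nat_lit 78) (nat_lit 152) (nat_lit 0) (XT.lf (nat_lit 0) (nat_lit 6763621811) (nat_lit 152) (nat_lit 5270659830) (nat_lit 152) (nat_lit 1350927552) (nat_lit 73) (nat_lit 4) (nat_lit 75) (nat_lit 5) (nat_lit 75) (nat_lit 4) (nat_lit 430) (nat_lit 388) (nat_lit 382)) (XT.lf (nat_lit 0) (nat_lit 8108743941) (nat_lit 152) (nat_lit 1927329024) (nat_lit 0) (nat_lit 3904484083) (nat_lit 71) (nat_lit 5) (nat_lit 73) (nat_lit 4) (nat_lit 71) (nat_lit 4) (nat_lit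 431) (nat_lit 388) (nat_lit 381))))))) (XT.nd (nat_lit 1248) (nat_lit 1520) (nat_lit 0) (XT.nd (nat_lit 624) (nat_lit 988) (nat_lit 0) (XT.nd (nat_lit 312) (nat_lit 532) (nat_lit 0) (XT.nd (nat_lit 156) (nat_lit 380) (nat_lit 0) (XT.nd (nat_lit 78) (nat_lit 76) (nat_lit 0) (XT.lf (nat_lit 0) (nat_lit 2981825883) (nat_lit 76) (nat_lit 736400900) (nat_lit 152) (nat_lit 10813124407) (nat_lit 67) (nat_lit 5) (nat_lit 68) (nat_lit 5) (nat_lit 69) (nat_lit 4) (nat_lit 432) (nat_lit 388) (nat_lit 380)) (XT.lf (nat_lit 0) (nat_lit 8007579427) (nat_lit 76) (nat_lit 5976761541) (nat_lit 76) (nat_lit 1172474671) (nat_lit 66) (nat_lit 4) (nat_lit 67) (nat_lit 5) (nat_lit 67) (nat_lit 4) (nat_lit 433) (nat_lit 388) (nat_lit 379))) (XT.nd (nat_lit 78) (nat_lit 228) (nat_lit 0) (XT.lf (nat_lit 0) (nat_lit 9012009933) (nat_lit 152) (nat_lit 2712451023) (nat_lit 0) (nat_lit 4097234170) (nat_lit 64) (nat_lit 5)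 (nat_lit 66) (nat_lit 4) (nat_lit 64) (nat_lit 4) (nat_lit 434) (nat_lit 388) (nat_lit 378)) (XT.lf (nat_lit 0) (nat_lit 1865158695) (nat_lit 76) (nat_lit 1595362385) (nat_lit 152) (nat_lit 13068660433) (nat_lit 61) (nat_lit 5) (nat_lit 62) (nat_lit 5) (nat_lit 63) (nat_lit 4) (nat_lit 435) (nat_lit 388) (nat_lit 377)))) (XT.nd (nat_lit 156) (nat_lit 304) (nat_lit 0) (XT.nd (nat_lit 78) (nat_lit 152) (nat_lit 0) (XT.lf (nat_lit 0) (nat_lit 6526618522) (nat_lit 76) (nat_lit 8003588431) (nat_lit 76) (nat_lit 2746660707) (nat_lit 60) (nat_lit 4) (nat_lit 61) (nat_lit 5) (nat_lit 61) (nat_lit 4) (nat_lit 436) (nat_lit 388) (nat_lit 376)) (XT.lf (nat_lit 0) (nat_lit 8242229704) (nat_lit 152) (nat_lit 6838732379) (nat_lit 0) (nat_lit 2991351541) (nat_lit 58) (nat_lit 5) (nat_lit 60) (nat_lit 4) (nat_lit 58) (nat_lit 4) (nat_lit 437) (nat_lit 388) (nat_lit 375))) (XT.nd (nat_lit 78) (nat_lit 152) (nat_lit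 0) (XT.lf (nat_lit 0) (nat_lit 1241170864) (nat_lit 152) (nat_lit 2932663381) (nat_lit 76) (nat_lit 14744914607) (nat_lit 56) (nat_lit 5) (nat_lit 58) (nat_lit 5) (nat_lit 57) (nat_lit 4) (nat_lit 438) (nat_lit 388) (nat_lit 374)) (XT.lf (nat_lit 0) (nat_lit 898738800) (nat_lit 76) (nat_lit 12165641286) (nat_lit 76) (nat_lit 6749932080) (nat_lit 54) (nat_lit 4) (nat_lit 55) (nat_lit 5) (nat_lit 55) (nat_lit 4) (nat_lit 439) (nat_lit 388) (nat_lit 373))))) (XT.nd (nat_lit 312) (nat_lit 532) (nat_lit 0) (XT.nd (nat_lit 156) (nat_lit 228) (nat_lit 0) (XT.nd (nat_lit 78) (nat_lit 76) (nat_lit 0) (XT.lf (nat_lit 0) (nat_lit 4842656299) (nat_lit 76) (nat_lit 251513912) (nat_lit 152) (nat_lit 15673212640) (nat_lit 52) (nat_lit 5) (nat_lit 53) (nat_lit 5) (nat_lit 54) (nat_lit 4) (nat_lit 440) (nat_lit 388) (nat_lit 372)) (XT.lf (nat_lit 0) (nat_lit 8621277517) (nat_lit 76) (nat_lit 9325785866) (nat_lit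 76) (nat_lit 3829218425) (nat_lit 51) (nat_lit 4) (nat_lit 52) (nat_lit 5) (nat_lit 52) (nat_lit 4) (nat_lit 441) (nat_lit 388) (nat_lit 371))) (XT.nd (nat_lit 78) (nat_lit 76) (nat_lit 0) (XT.lf (nat_lit 0) (nat_lit 8849763152) (nat_lit 152) (nat_lit 10529098386) (nat_lit 0) (nat_lit 3471321349) (nat_lit 49) (nat_lit 5) (nat_lit 51) (nat_lit 4) (nat_lit 49) (nat_lit 4) (nat_lit 442) (nat_lit 388) (nat_lit 370)) (XT.lf (nat_lit 0) (nat_lit 15893470248) (nat_lit 76) (nat_lit 6805161165) (nat_lit 76) (nat_lit 1293741890) (nat_lit 48) (nat_lit 4) (nat_lit 49) (nat_lit 5) (nat_lit 49) (nat_lit 4) (nat_lit 443) (nat_lit 388) (nat_lit 369)))) (XT.nd (nat_lit 156) (nat_lit 228) (nat_lit 0) (XT.nd (nat_lit 78) (nat_lit 152) (nat_lit 0) (XT.lf (nat_lit 0) (nat_lit 12291312291) (nat_lit 152) (nat_lit 5986865067) (nat_lit 0) (nat_lit 6925077469) (nat_lit 46) (nat_lit 5) (nat_lit 48) (nat_lit 4) (nat_lit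 46) (nat_lit 4) (nat_lit 444) (nat_lit 388) (nat_lit 368)) (XT.lf (nat_lit 0) (nat_lit 677980202) (nat_lit 152) (nat_lit 4084953261) (nat_lit 76) (nat_lit 21732539394) (nat_lit 44) (nat_lit 5) (nat_lit 46) (nat_lit 5) (nat_lit 45) (nat_lit 4) (nat_lit 445) (nat_lit 388) (nat_lit 367))) (XT.nd (nat_lit 78) (nat_lit 152) (nat_lit 0) (XT.lf (nat_lit 0) (nat_lit 15250227035) (nat_lit 152) (nat_lit 2672512185) (nat_lit 0) (nat_lit 9940372056) (nat_lit 43) (nat_lit 5) (nat_lit 45) (nat_lit 4) (nat_lit 43) (nat_lit 4) (nat_lit 446) (nat_lit 388) (nat_lit 366)) (XT.lf (nat_lit 0) (nat_lit 1875173019) (nat_lit 152) (nat_lit 1554405538) (nat_lit 76) (nat_lit 25895305582) (nat_lit 41) (nat_lit 5) (nat_lit 43) (nat_lit 5) (nat_lit 42) (nat_lit 4) (nat_lit 447) (nat_lit 388) (nat_lit 365)))))) (XT.nd (nat_lit 624) (nat_lit 684) (nat_lit 0) (XT.nd (nat_lit 312) (nat_lit 380) (nat_lit 0) (XT.nd (nat_lit 156)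 (nat_lit 228) (nat_lit 0) (XT.nd (nat_lit 78) (nat_lit 152) (nat_lit 0) (XT.lf (nat_lit 0) (nat_lit 17497229572) (nat_lit 152) (nat_lit 1097577668) (nat_lit 0) (nat_lit 12277612028) (nat_lit 40) (nat_lit 5) (nat_lit 42) (nat_lit 4) (nat_lit 40) (nat_lit 4) (nat_lit 448) (nat_lit 388) (nat_lit 364)) (XT.lf (nat_lit 0) (nat_lit 2054690250) (nat_lit 152) (nat_lit 1079890706) (nat_lit 76) (nat_lit 29393361625) (nat_lit 38) (nat_lit 5) (nat_lit 40) (nat_lit 5) (nat_lit 39) (nat_lit 4) (nat_lit 449) (nat_lit 388) (nat_lit 363))) (XT.nd (nat_lit 78) (nat_lit 152) (nat_lit 0) (XT.lf (nat_lit 0) (nat_lit 18718700021) (nat_lit 152) (nat_lit 1947968285) (nat_lit 0) (nat_lit 13614860202) (nat_lit 37) (nat_lit 5) (nat_lit 39) (nat_lit 4) (nat_lit 37) (nat_lit 4) (nat_lit 450) (nat_lit 388) (nat_lit 362)) (XT.lf (nat_lit 0) (nat_lit 833857563) (nat_lit 152) (nat_lit 3453537712) (nat_lit 76) (nat_lit 31872048824)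 (nat_lit 35) (nat_lit 5) (nat_lit 37) (nat_lit 5) (nat_lit 36) (nat_lit 4) (nat_lit 451) (nat_lit 388) (nat_lit 361)))) (XT.nd (nat_lit 156) (nat_lit 228) (nat_lit 0) (XT.nd (nat_lit 78) (nat_lit 76) (nat_lit 0) (XT.lf (nat_lit 0) (nat_lit 18491025050) (nat_lit 152) (nat_lit 6137300440) (nat_lit 0) (nat_lit 13521812286) (nat_lit 34) (nat_lit 5) (nat_lit 36) (nat_lit 4) (nat_lit 34) (nat_lit 4) (nat_lit 452) (nat_lit 388) (nat_lit 360)) (XT.lf (nat_lit 0) (nat_lit 30518184155) (nat_lit 76) (nat_lit 7390978632) (nat_lit 76) (nat_lit 2373505123) (nat_lit 33) (nat_lit 4) (nat_lit 34) (nat_lit 5) (nat_lit 34) (nat_lit 4) (nat_lit 453) (nat_lit 388) (nat_lit 359))) (XT.nd (nat_lit 78) (nat_lit 76) (nat_lit 0) (XT.lf (nat_lit 0) (nat_lit 16247317675) (nat_lit 152) (nat_lit 14875854160) (nat_lit 0) (nat_lit 11426213500) (nat_lit 31) (nat_lit 5) (nat_lit 33) (nat_lit 4) (nat_lit 31) (nat_lit 4) (nat_lit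 454) (nat_lit 388) (nat_lit 358)) (XT.lf (nat_lit 0) (nat_lit 23553267527) (nat_lit 76) (nat_lit 13140881283) (nat_lit 76) (nat_lit 8280371575) (nat_lit 30) (nat_lit 4) (nat_lit 31) (nat_lit 5) (nat_lit 31) (nat_lit 4) (nat_lit 455) (nat_lit 388) (nat_lit 357))))) (XT.nd (nat_lit 312) (nat_lit 304) (nat_lit 0) (XT.nd (nat_lit 156) (nat_lit 152) (nat_lit 0) (XT.nd (nat_lit 78) (nat_lit 76) (nat_lit 0) (XT.lf (nat_lit 0) (nat_lit 11234309875) (nat_lit 152) (nat_lit 29759664265) (nat_lit 0) (nat_lit 6570503862) (nat_lit 28) (nat_lit 5) (nat_lit 30) (nat_lit 4) (nat_lit 28) (nat_lit 4) (nat_lit 456) (nat_lit 388) (nat_lit 356)) (XT.lf (nat_lit 0) (nat_lit 10073636473) (nat_lit 76) (nat_lit 22475371476) (nat_lit 76) (nat_lit 17779390327) (nat_lit 27) (nat_lit 4) (nat_lit 28) (nat_lit 5) (nat_lit 28) (nat_lit 4) (nat_lit 457) (nat_lit 388) (nat_lit 355))) (XT.nd (nat_lit 78) (nat_lit 0) (nat_lit 0)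 (XT.lf (nat_lit 0) (nat_lit 377816740) (nat_lit 76) (nat_lit 2111739202) (nat_lit 152) (nat_lit 50806801273) (nat_lit 25) (nat_lit 5) (nat_lit 26) (nat_lit 5) (nat_lit 27) (nat_lit 4) (nat_lit 458) (nat_lit 388) (nat_lit 354)) (XT.lf (nat_lit 0) (nat_lit 24568489406) (nat_lit 152) (nat_lit 11836640047) (nat_lit 0) (nat_lit 20041481848) (nat_lit 25) (nat_lit 5) (nat_lit 27) (nat_lit 4) (nat_lit 25) (nat_lit 4) (nat_lit 459) (nat_lit 388) (nat_lit 353)))) (XT.nd (nat_lit 156) (nat_lit 76) (nat_lit 0) (XT.nd (nat_lit 78) (nat_lit 152) (nat_lit 0) (XT.lf (nat_lit 0) (nat_lit 33143343275) (nat_lit 76) (nat_lit 15619705125) (nat_lit 76) (nat_lit 11068372176) (nat_lit 24) (nat_lit 4) (nat_lit 25) (nat_lit 5) (nat_lit 25) (nat_lit 4) (nat_lit 460) (nat_lit 388) (nat_lit 352)) (XT.lf (nat_lit 0) (nat_lit 11458858596) (nat_lit 152) (nat_lit 44895558960) (nat_lit 0) (nat_lit 7102804825) (nat_lit 22) (nat_lit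 5) (nat_lit 24) (nat_lit 4) (nat_lit 22) (nat_lit 4) (nat_lit 461) (nat_lit 388) (nat_lit 351))) (XT.nd (nat_lit 78) (nat_lit 0) (nat_lit 0) (XT.lf (nat_lit 0) (nat_lit 191908413) (nat_lit 76) (nat_lit 35760220714) (nat_lit 76) (nat_lit 31384304940) (nat_lit 21) (nat_lit 4) (nat_lit 22) (nat_lit 5) (nat_lit 22) (nat_lit 4) (nat_lit 462) (nat_lit 388) (nat_lit 350)) (XT.lf (nat_lit 0) (nat_lit 50115413519) (nat_lit 76) (nat_lit 12887487015) (nat_lit 76) (nat_lit 8493180499) (nat_lit 21) (nat_lit 4) (nat_lit 22) (nat_lit 5) (nat_lit 22) (nat_lit 4) (nat_lit 463) (nat_lit 388) (nat_lit 349))))))))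
noncomputable def xc28 : XT := (XT.nd (nat_lit 2418) (nat_lit 152) (nat_lit 0) (XT.nd (nat_lit 1170) (nat_lit 456) (nat_lit 0) (XT.nd (nat_lit 546) (nat_lit 456) (nat_lit 0) (XT.nd (nat_lit 234) (nat_lit 228) (nat_lit 0) (XT.nd (nat_lit 78) (nat_lit 76) (nat_lit 0) (XT.lf (nat_lit 0) (nat_lit 16172262568) (nat_lit 152) (nat_lit 47809453837) (nat_lit 0) (nat_lit 11970991157) (nat_lit 19) (nat_lit 5) (nat_lit 21) (nat_lit 4) (nat_lit 19) (nat_lit 4) (nat_lit 464) (nat_lit 388) (nat_lit 348)) (XT.nd (nat_lit 78) (nat_lit 0) (nat_lit 0) (XT.lf (nat_lit 0) (nat_lit 967199439) (nat_lit 76) (nat_lit 41992829363) (nat_lit 76) (nat_lit 37776541668) (nat_lit 18) (nat_lit 4) (nat_lit 19) (nat_lit 5) (nat_lit 19) (nat_lit 4) (nat_lit 465) (nat_lit 388) (nat_lit 347)) (XT.lf (nat_lit 0) (nat_lit 55025651396) (nat_lit 76) (nat_lit 17537044466) (nat_lit 76) (nat_lit 13306852805) (nat_lit 18) (nat_lit 4) (nat_lit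 19) (nat_lit 5) (nat_lit 19) (nat_lit 4) (nat_lit 466) (nat_lit 388) (nat_lit 346)))) (XT.nd (nat_lit 156) (nat_lit 76) (nat_lit 0) (XT.nd (nat_lit 78) (nat_lit 0) (nat_lit 0) (XT.lf (nat_lit 0) (nat_lit 13040670109) (nat_lit 152) (nat_lit 69345588039) (nat_lit 0) (nat_lit 8999655153) (nat_lit 16) (nat_lit 5) (nat_lit 18) (nat_lit 4) (nat_lit 16) (nat_lit 4) (nat_lit 467) (nat_lit 388) (nat_lit 345)) (XT.lf (nat_lit 0) (nat_lit 41730633514) (nat_lit 152) (nat_lit 17888738441) (nat_lit 0) (nat_lit 37678265787) (nat_lit 16) (nat_lit 5) (nat_lit 18) (nat_lit 4) (nat_lit 16) (nat_lit 4) (nat_lit 468) (nat_lit 388) (nat_lit 344))) (XT.nd (nat_lit 78) (nat_lit 0) (nat_lit 0) (XT.lf (nat_lit 0) (nat_lit 38643880312) (nat_lit 76) (nat_lit 34538973288) (nat_lit 76) (nat_lit 30476093735) (nat_lit 15) (nat_lit 4) (nat_lit 16) (nat_lit 5) (nat_lit 16) (nat_lit 4) (nat_lit 469) (nat_lit 388) (nat_lit 343))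 (XT.lf (nat_lit 0) (nat_lit 100072350542) (nat_lit 76) (nat_lit 7260180037) (nat_lit 76) (nat_lit 3187567313) (nat_lit 15) (nat_lit 4) (nat_lit 16) (nat_lit 5) (nat_lit 16) (nat_lit 4) (nat_lit 470) (nat_lit 388) (nat_lit 342))))) (XT.nd (nat_lit 312) (nat_lit 228) (nat_lit 0) (XT.nd (nat_lit 156) (nat_lit 76) (nat_lit 0) (XT.nd (nat_lit 78) (nat_lit 0) (nat_lit 0) (XT.lf (nat_lit 0) (nat_lit 26455501590) (nat_lit 152) (nat_lit 68835245217) (nat_lit 0) (nat_lit 22568239761) (nat_lit 13) (nat_lit 5) (nat_lit 15) (nat_lit 4) (nat_lit 13) (nat_lit 4) (nat_lit 471) (nat_lit 388) (nat_lit 341)) (XT.lf (nat_lit 0) (nat_lit 58548024819) (nat_lit 152) (nat_lit 12572048881) (nat_lit 0) (nat_lit 54652815728) (nat_lit 13) (nat_lit 5) (nat_lit 15) (nat_lit 4) (nat_lit 13) (nat_lit 4) (nat_lit 472) (nat_lit 388) (nat_lit 340))) (XT.nd (nat_lit 78) (nat_lit 0) (nat_lit 0) (XT.lf (nat_lit 0) (nat_lit 49553172066)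 (nat_lit 76) (nat_lit 44318067870) (nat_lit 76) (nat_lit 40415500202) (nat_lit 12) (nat_lit 4) (nat_lit 13) (nat_lit 5) (nat_lit 13) (nat_lit 4) (nat_lit 473) (nat_lit 388) (nat_lit 339)) (XT.lf (nat_lit 0) (nat_lit 116882092486) (nat_lit 76) (nat_lit 15251657896) (nat_lit 76) (nat_lit 11342276731) (nat_lit 12) (nat_lit 4) (nat_lit 13) (nat_lit 5) (nat_lit 13) (nat_lit 4) (nat_lit 474) (nat_lit 388) (nat_lit 338)))) (XT.nd (nat_lit 156) (nat_lit 76) (nat_lit 0) (XT.nd (nat_lit 78) (nat_lit 0) (nat_lit 0) (XT.lf (nat_lit 0) (nat_lit 20155968977) (nat_lit 152) (nat_lit 116765035210) (nat_lit 0) (nat_lit 16426740445) (nat_lit 10) (nat_lit 5) (nat_lit 12) (nat_lit 4) (nat_lit 10) (nat_lit 4) (nat_lit 475) (nat_lit 388) (nat_lit 337)) (XT.lf (nat_lit 0) (nat_lit 54413471539) (nat_lit 152) (nat_lit 58875912695) (nat_lit 0) (nat_lit 50678679697) (nat_lit 10) (nat_lit 5) (nat_lit 12) (nat_lit 4) (nat_lit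 10) (nat_lit 4) (nat_lit 476) (nat_lit 388) (nat_lit 336))) (XT.nd (nat_lit 78) (nat_lit 0) (nat_lit 0) (XT.lf (nat_lit 0) (nat_lit 3576394675) (nat_lit 76) (nat_lit 87801617669) (nat_lit 76) (nat_lit 84061674614) (nat_lit 9) (nat_lit 4) (nat_lit 10) (nat_lit 5) (nat_lit 10) (nat_lit 4) (nat_lit 477) (nat_lit 388) (nat_lit 335)) (XT.lf (nat_lit 0) (nat_lit 72952841976) (nat_lit 76) (nat_lit 59286953341) (nat_lit 76) (nat_lit 55542240645) (nat_lit 9) (nat_lit 4) (nat_lit 10) (nat_lit 5) (nat_lit 10) (nat_lit 4) (nat_lit 478) (nat_lit 388) (nat_lit 334)))))) (XT.nd (nat_lit 624) (nat_lit 228) (nat_lit 0) (XT.nd (nat_lit 312) (nat_lit 76) (nat_lit 0) (XT.nd (nat_lit 156) (nat_lit 0) (nat_lit 0) (XT.nd (nat_lit 78) (nat_lit 152) (nat_lit 0) (XT.lf (nat_lit 0) (nat_lit 147717845329) (nat_lit 76) (nat_lit 28573507532) (nat_lit 76) (nat_lit 24824378501) (nat_lit 9) (nat_lit 4) (nat_lit 10) (nat_lit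 5) (nat_lit 10) (nat_lit 4) (nat_lit 479) (nat_lit 388) (nat_lit 333)) (XT.lf (nat_lit 0) (nat_lit 8289455589) (nat_lit 152) (nat_lit 202494894560) (nat_lit 0) (nat_lit 4714962037) (nat_lit 7) (nat_lit 5) (nat_lit 9) (nat_lit 4) (nat_lit 7) (nat_lit 4) (nat_lit 480) (nat_lit 388) (nat_lit 332))) (XT.nd (nat_lit 78) (nat_lit 0) (nat_lit 0) (XT.lf (nat_lit 0) (nat_lit 44549089411) (nat_lit 152) (nat_lit 145424831495) (nat_lit 0) (nat_lit 40970989863) (nat_lit 7) (nat_lit 5) (nat_lit 9) (nat_lit 4) (nat_lit 7) (nat_lit 4) (nat_lit 481) (nat_lit 388) (nat_lit 331)) (XT.lf (nat_lit 0) (nat_lit 83642442301) (nat_lit 152) (nat_lit 83926063707) (nat_lit 0) (nat_lit 80061003869) (nat_lit 7) (nat_lit 5) (nat_lit 9) (nat_lit 4) (nat_lit 7) (nat_lit 4) (nat_lit 482) (nat_lit 388) (nat_lit 330)))) (XT.nd (nat_lit 156) (nat_lit 0) (nat_lit 0) (XT.nd (nat_lit 78) (nat_lit 76) (nat_lit 0) (XT.lf (nat_lit 0)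 (nat_lit 125801178572) (nat_lit 152) (nat_lit 17634154055) (nat_lit 0) (nat_lit 122216648580) (nat_lit 7) (nat_lit 5) (nat_lit 9) (nat_lit 4) (nat_lit 7) (nat_lit 4) (nat_lit 483) (nat_lit 388) (nat_lit 329)) (XT.lf (nat_lit 0) (nat_lit 55624055564) (nat_lit 76) (nat_lit 116519519602) (nat_lit 76) (nat_lit 112932127054) (nat_lit 6) (nat_lit 4) (nat_lit 7) (nat_lit 5) (nat_lit 7) (nat_lit 4) (nat_lit 484) (nat_lit 388) (nat_lit 328))) (XT.nd (nat_lit 78) (nat_lit 0) (nat_lit 0) (XT.lf (nat_lit 0) (nat_lit 135260362701) (nat_lit 76) (nat_lit 87185195785) (nat_lit 76) (nat_lit 83595152723) (nat_lit 6) (nat_lit 4) (nat_lit 7) (nat_lit 5) (nat_lit 7) (nat_lit 4) (nat_lit 485) (nat_lit 388) (nat_lit 327)) (XT.lf (nat_lit 0) (nat_lit 221163621440) (nat_lit 76) (nat_lit 55557171079) (nat_lit 76) (nat_lit 51964673837) (nat_lit 6) (nat_lit 4) (nat_lit 7) (nat_lit 5) (nat_lit 7) (nat_lit 4) (nat_lit 486)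 (nat_lit 388) (nat_lit 326))))) (XT.nd (nat_lit 312) (nat_lit 76) (nat_lit 0) (XT.nd (nat_lit 156) (nat_lit 0) (nat_lit 0) (XT.nd (nat_lit 78) (nat_lit 152) (nat_lit 0) (XT.lf (nat_lit 0) (nat_lit 313842888130) (nat_lit 76) (nat_lit 21448020151) (nat_lit 76) (nat_lit 17853250521) (nat_lit 6) (nat_lit 4) (nat_lit 7) (nat_lit 5) (nat_lit 7) (nat_lit 4) (nat_lit 487) (nat_lit 388) (nat_lit 325)) (XT.lf (nat_lit 0) (nat_lit 19136649014) (nat_lit 152) (nat_lit 344659157175) (nat_lit 0) (nat_lit 15711055020) (nat_lit 4) (nat_lit 5) (nat_lit 6) (nat_lit 4) (nat_lit 4) (nat_lit 4) (nat_lit 488) (nat_lit 388) (nat_lit 324))) (XT.nd (nat_lit 78) (nat_lit 0) (nat_lit 0) (XT.lf (nat_lit 0) (nat_lit 59482972061) (nat_lit 152) (nat_lit 292374315212) (nat_lit 0) (nat_lit 56055522631) (nat_lit 4) (nat_lit 5) (nat_lit 6) (nat_lit 4) (nat_lit 4) (nat_lit 4) (nat_lit 489) (nat_lit 388) (nat_lit 323)) (XT.lf (nat_lit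 0) (nat_lit 103017076625) (nat_lit 152) (nat_lit 235988244917) (nat_lit 0) (nat_lit 99587909200) (nat_lit 4) (nat_lit 5) (nat_lit 6) (nat_lit 4) (nat_lit 4) (nat_lit 4) (nat_lit 490) (nat_lit 388) (nat_lit 322)))) (XT.nd (nat_lit 156) (nat_lit 76) (nat_lit 0) (XT.nd (nat_lit 78) (nat_lit 0) (nat_lit 0) (XT.lf (nat_lit 0) (nat_lit 149996942585) (nat_lit 152) (nat_lit 175166806612) (nat_lit 0) (nat_lit 146566184423) (nat_lit 4) (nat_lit 5) (nat_lit 6) (nat_lit 4) (nat_lit 4) (nat_lit 4) (nat_lit 491) (nat_lit 388) (nat_lit 321)) (XT.lf (nat_lit 0) (nat_lit 200700969147) (nat_lit 152) (nat_lit 109549576960) (nat_lit 0) (nat_lit 197268738080) (nat_lit 4) (nat_lit 5) (nat_lit 6) (nat_lit 4) (nat_lit 4) (nat_lit 4) (nat_lit 492) (nat_lit 388) (nat_lit 320))) (XT.nd (nat_lit 78) (nat_lit 76) (nat_lit 0) (XT.lf (nat_lit 0) (nat_lit 255429624615) (nat_lit 152) (nat_lit 38747713120) (nat_lit 0) (nat_lit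 251996029748) (nat_lit 4) (nat_lit 5) (nat_lit 6) (nat_lit 4) (nat_lit 4) (nat_lit 4) (nat_lit 493) (nat_lit 388) (nat_lit 319)) (XT.lf (nat_lit 0) (nat_lit 38903506681) (nat_lit 76) (nat_lit 276211113034) (nat_lit 76) (nat_lit 272776255389) (nat_lit 3) (nat_lit 4) (nat_lit 4) (nat_lit 5) (nat_lit 4) (nat_lit 4) (nat_lit 494) (nat_lit 388) (nat_lit 318))))))) (XT.nd (nat_lit 57018) (nat_lit 0) (nat_lit 4028) (XT.nd (nat_lit 624) (nat_lit 152) (nat_lit 0) (XT.nd (nat_lit 312) (nat_lit 0) (nat_lit 0) (XT.nd (nat_lit 156) (nat_lit 0) (nat_lit 0) (XT.nd (nat_lit 78) (nat_lit 0) (nat_lit 0) (XT.lf (nat_lit 0) (nat_lit 124093149367) (nat_lit 76) (nat_lit 256128158110) (nat_lit 76) (nat_lit 252692131225) (nat_lit 3) (nat_lit 4) (nat_lit 4) (nat_lit 5) (nat_lit 4) (nat_lit 4) (nat_lit 495) (nat_lit 388) (nat_lit 317)) (XT.lf (nat_lit 0) (nat_lit 216044868063) (nat_lit 76) (nat_lit 234465674129) (nat_lit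 76) (nat_lit 231028564617) (nat_lit 3) (nat_lit 4) (nat_lit 4) (nat_lit 5) (nat_lit 4) (nat_lit 4) (nat_lit 496) (nat_lit 388) (nat_lit 316))) (XT.nd (nat_lit 78) (nat_lit 0) (nat_lit 0) (XT.lf (nat_lit 0) (nat_lit 315303561843) (nat_lit 76) (nat_lit 211095290818) (nat_lit 76) (nat_lit 207657178871) (nat_lit 3) (nat_lit 4) (nat_lit 4) (nat_lit 5) (nat_lit 4) (nat_lit 4) (nat_lit 497) (nat_lit 388) (nat_lit 315)) (XT.lf (nat_lit 0) (nat_lit 422457430375) (nat_lit 76) (nat_lit 185878517015) (nat_lit 76) (nat_lit 182439476888) (nat_lit 3) (nat_lit 4) (nat_lit 4) (nat_lit 5) (nat_lit 4) (nat_lit 4) (nat_lit 498) (nat_lit 388) (nat_lit 314)))) (XT.nd (nat_lit 156) (nat_lit 0) (nat_lit 0) (XT.nd (nat_lit 78) (nat_lit 0) (nat_lit 0) (XT.lf (nat_lit 0) (nat_lit 538141459545) (nat_lit 76) (nat_lit 158665919986) (nat_lit 76) (nat_lit 155226020434) (nat_lit 3) (nat_lit 4) (nat_lit 4) (nat_lit 5) (nat_lit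 4) (nat_lit 4) (nat_lit 499) (nat_lit 388) (nat_lit 313)) (XT.lf (nat_lit 0) (nat_lit 663041184342) (nat_lit 76) (nat_lit 129296239898) (nat_lit 76) (nat_lit 125855544582) (nat_lit 3) (nat_lit 4) (nat_lit 4) (nat_lit 5) (nat_lit 4) (nat_lit 4) (nat_lit 500) (nat_lit 388) (nat_lit 312))) (XT.nd (nat_lit 78) (nat_lit 0) (nat_lit 0) (XT.lf (nat_lit 0) (nat_lit 797896751282) (nat_lit 76) (nat_lit 97595434202) (nat_lit 76) (nat_lit 94154002067) (nat_lit 3) (nat_lit 4) (nat_lit 4) (nat_lit 5) (nat_lit 4) (nat_lit 4) (nat_lit 501) (nat_lit 388) (nat_lit 311)) (XT.lf (nat_lit 0) (nat_lit 943507304467) (nat_lit 76) (nat_lit 63375646271) (nat_lit 76) (nat_lit 59933531896) (nat_lit 3) (nat_lit 4) (nat_lit 4) (nat_lit 5) (nat_lit 4) (nat_lit 4) (nat_lit 502) (nat_lit 388) (nat_lit 310))))) (XT.nd (nat_lit 312) (nat_lit 0) (nat_lit 0) (XT.nd (nat_lit 156) (nat_lit 0) (nat_lit 0) (XT.nd (nat_lit 78) (nat_lit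 152) (nat_lit 0) (XT.lf (nat_lit 0) (nat_lit 1100735721248) (nat_lit 76) (nat_lit 26434092178) (nat_lit 76) (nat_lit 22991346099) (nat_lit 3) (nat_lit 4) (nat_lit 4) (nat_lit 5) (nat_lit 4) (nat_lit 4) (nat_lit 503) (nat_lit 388) (nat_lit 309)) (XT.lf (nat_lit 0) (nat_lit 17058173262) (nat_lit 152) (nat_lit 1209288576071) (nat_lit 0) (nat_lit 13778810415) (nat_lit 1) (nat_lit 5) (nat_lit 3) (nat_lit 4) (nat_lit 1) (nat_lit 4) (nat_lit 504) (nat_lit 388) (nat_lit 308))) (XT.nd (nat_lit 78) (nat_lit 0) (nat_lit 0) (XT.lf (nat_lit 0) (nat_lit 60823847163) (nat_lit 152) (nat_lit 1218834566059) (nat_lit 0) (nat_lit 57543968522) (nat_lit 1) (nat_lit 5) (nat_lit 3) (nat_lit 4) (nat_lit 1) (nat_lit 4) (nat_lit 505) (nat_lit 388) (nat_lit 307)) (XT.lf (nat_lit 0) (nat_lit 108077931058) (nat_lit 152) (nat_lit 1229170485817) (nat_lit 0) (nat_lit 104797574829) (nat_lit 1) (nat_lit 5) (nat_lit 3) (nat_lit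 4) (nat_lit 1) (nat_lit 4) (nat_lit 506) (nat_lit 388) (nat_lit 306)))) (XT.nd (nat_lit 55926) (nat_lit 0) (nat_lit 6916) (XT.nd (nat_lit 55848) (nat_lit 0) (nat_lit 7296) (XT.lf (nat_lit 0) (nat_lit 159100449146) (nat_lit 152) (nat_lit 1240357585241) (nat_lit 0) (nat_lit 155819650707) (nat_lit 1) (nat_lit 5) (nat_lit 3) (nat_lit 4) (nat_lit 1) (nat_lit 4) (nat_lit 507) (nat_lit 388) (nat_lit 305)) (XT.lf (nat_lit 0) (nat_lit 247940504) (nat_lit 228) (nat_lit 4497350964) (nat_lit 0) (nat_lit 247940504) (nat_lit 97) (nat_lit 5) (nat_lit 100) (nat_lit 4) (nat_lit 97) (nat_lit 4) (nat_lit 422) (nat_lit 389) (nat_lit 389))) (XT.nd (nat_lit 78) (nat_lit 228) (nat_lit 0) (XT.lf (nat_lit 0) (nat_lit 5551093112) (nat_lit 152) (nat_lit 2930189507) (nat_lit 152) (nat_lit 1848032410) (nat_lit 95) (nat_lit 4) (nat_lit 97) (nat_lit 5) (nat_lit 97) (nat_lit 4) (nat_lit 423) (nat_lit 389) (nat_lit 388)) (XT.lf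 (nat_lit 0) (nat_lit 6129005528) (nat_lit 228) (nat_lit 425101669) (nat_lit 0) (nat_lit 4144096567) (nat_lit 92) (nat_lit 5) (nat_lit 95) (nat_lit 4) (nat_lit 92) (nat_lit 4) (nat_lit 424) (nat_lit 389) (nat_lit 387)))))) (XT.nd (nat_lit 624) (nat_lit 1064) (nat_lit 0) (XT.nd (nat_lit 312) (nat_lit 836) (nat_lit 0) (XT.nd (nat_lit 156) (nat_lit 380) (nat_lit 0) (XT.nd (nat_lit 78) (nat_lit 228) (nat_lit 0) (XT.lf (nat_lit 0) (nat_lit 3477962473) (nat_lit 228) (nat_lit 6867873178) (nat_lit 0) (nat_lit 746053451) (nat_lit 87) (nat_lit 5) (nat_lit 90) (nat_lit 4) (nat_lit 87) (nat_lit 4) (nat_lit 425) (nat_lit 389) (nat_lit 386)) (XT.lf (nat_lit 0) (nat_lit 493924573) (nat_lit 228) (nat_lit 2498548401) (nat_lit 76) (nat_lit 8519761946) (nat_lit 84) (nat_lit 5) (nat_lit 87) (nat_lit 5) (nat_lit 85) (nat_lit 4) (nat_lit 426) (nat_lit 389) (nat_lit 385))) (XT.nd (nat_lit 78) (nat_lit 152) (nat_lit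 0) (XT.lf (nat_lit 0) (nat_lit 2028213668) (nat_lit 152) (nat_lit 6980754956) (nat_lit 152) (nat_lit 2949744342) (nat_lit 81) (nat_lit 4) (nat_lit 83) (nat_lit 5) (nat_lit 83) (nat_lit 4) (nat_lit 427) (nat_lit 389) (nat_lit 384)) (XT.lf (nat_lit 0) (nat_lit 5616486515) (nat_lit 152) (nat_lit 5646589222) (nat_lit 0) (nat_lit 1171510113) (nat_lit 79) (nat_lit 5) (nat_lit 81) (nat_lit 4) (nat_lit 79) (nat_lit 4) (nat_lit 428) (nat_lit 389) (nat_lit 383)))) (XT.nd (nat_lit 156) (nat_lit 380) (nat_lit 0) (XT.nd (nat_lit 78) (nat_lit 228) (nat_lit 0) (XT.lf (nat_lit 0) (nat_lit 1820575763) (nat_lit 228) (nat_lit 1273831897) (nat_lit 76) (nat_lit 9847281325) (nat_lit 76) (nat_lit 5) (nat_lit 79) (nat_lit 5) (nat_lit 77) (nat_lit 4) (nat_lit 429) (nat_lit 389) (nat_lit 382)) (XT.lf (nat_lit 0) (nat_lit 3287617029) (nat_lit 152) (nat_lit 7726696092) (nat_lit 152) (nat_lit 2464324840) (nat_lit 73) (nat_lit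 4) (nat_lit 75) (nat_lit 5) (nat_lit 75) (nat_lit 4) (nat_lit 430) (nat_lit 389) (nat_lit 381))) (XT.nd (nat_lit 78) (nat_lit 228) (nat_lit 0) (XT.lf (nat_lit 0) (nat_lit 6728432767) (nat_lit 152) (nat_lit 6041181733) (nat_lit 0) (nat_lit 1280371457) (nat_lit 71) (nat_lit 5) (nat_lit 73) (nat_lit 4) (nat_lit 71) (nat_lit 4) (nat_lit 431) (nat_lit 389) (nat_lit 380)) (XT.lf (nat_lit 0) (nat_lit 1962724350) (nat_lit 228) (nat_lit 1828438581) (nat_lit 76) (nat_lit 10866455373) (nat_lit 68) (nat_lit 5) (nat_lit 71) (nat_lit 5) (nat_lit 69) (nat_lit 4) (nat_lit 432) (nat_lit 389) (nat_lit 379))))) (XT.nd (nat_lit 312) (nat_lit 532) (nat_lit 0) (XT.nd (nat_lit 156) (nat_lit 228) (nat_lit 0) (XT.nd (nat_lit 78) (nat_lit 152) (nat_lit 0) (XT.lf (nat_lit 0) (nat_lit 2514425295) (nat_lit 76) (nat_lit 9358031402) (nat_lit 76) (nat_lit 3428448006) (nat_lit 66) (nat_lit 4) (nat_lit 67) (nat_lit 5) (nat_lit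 67) (nat_lit 4) (nat_lit 433) (nat_lit 389) (nat_lit 378)) (XT.lf (nat_lit 0) (nat_lit 6487362629) (nat_lit 152) (nat_lit 8971222556) (nat_lit 0) (nat_lit 526006590) (nat_lit 64) (nat_lit 5) (nat_lit 66) (nat_lit 4) (nat_lit 64) (nat_lit 4) (nat_lit 434) (nat_lit 389) (nat_lit 377))) (XT.nd (nat_lit 78) (nat_lit 76) (nat_lit 0) (XT.lf (nat_lit 0) (nat_lit 537412430) (nat_lit 152) (nat_lit 5150525145) (nat_lit 76) (nat_lit 11022319957) (nat_lit 62) (nat_lit 5) (nat_lit 64) (nat_lit 5) (nat_lit 63) (nat_lit 4) (nat_lit 435) (nat_lit 389) (nat_lit 376)) (XT.lf (nat_lit 0) (nat_lit 11172971841) (nat_lit 152) (nat_lit 1344698563) (nat_lit 0) (nat_lit 4961981657) (nat_lit 61) (nat_lit 5) (nat_lit 63) (nat_lit 4) (nat_lit 61) (nat_lit 4) (nat_lit 436) (nat_lit 389) (nat_lit 375)))) (XT.nd (nat_lit 156) (nat_lit 228) (nat_lit 0) (XT.nd (nat_lit 78) (nat_lit 76) (nat_lit 0) (XT.lf (nat_lit 0) (nat_lit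 2595557602) (nat_lit 76) (nat_lit 1816170472) (nat_lit 152) (nat_lit 13885372109) (nat_lit 58) (nat_lit 5) (nat_lit 59) (nat_lit 5) (nat_lit 60) (nat_lit 4) (nat_lit 437) (nat_lit 389) (nat_lit 374)) (XT.lf (nat_lit 0) (nat_lit 6531563757) (nat_lit 76) (nat_lit 9490641087) (nat_lit 76) (nat_lit 3139795837) (nat_lit 57) (nat_lit 4) (nat_lit 58) (nat_lit 5) (nat_lit 58) (nat_lit 4) (nat_lit 438) (nat_lit 389) (nat_lit 373))) (XT.nd (nat_lit 78) (nat_lit 76) (nat_lit 0) (XT.lf (nat_lit 0) (nat_lit 8352085513) (nat_lit 152) (nat_lit 9610544027) (nat_lit 0) (nat_lit 2118978035) (nat_lit 55) (nat_lit 5) (nat_lit 57) (nat_lit 4) (nat_lit 55) (nat_lit 4) (nat_lit 439) (nat_lit 389) (nat_lit 372)) (XT.lf (nat_lit 0) (nat_lit 14386170559) (nat_lit 76) (nat_lit 6538297342) (nat_lit 76) (nat_lit 134186687) (nat_lit 54) (nat_lit 4) (nat_lit 55) (nat_lit 5) (nat_lit 55) (nat_lit 4) (nat_lit 440) (nat_lit 389)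 (nat_lit 371))))))))
noncomputable def xc29 : XT := (XT.nd (nat_lit 2496) (nat_lit 760) (nat_lit 0) (XT.nd (nat_lit 1248) (nat_lit 1292) (nat_lit 0) (XT.nd (nat_lit 624) (nat_lit 760) (nat_lit 0) (XT.nd (nat_lit 312) (nat_lit 456) (nat_lit 0) (XT.nd (nat_lit 156) (nat_lit 304) (nat_lit 0) (XT.nd (nat_lit 78) (nat_lit 152) (nat_lit 0) (XT.lf (nat_lit 0) (nat_lit 12215313841) (nat_lit 152) (nat_lit 3912365654) (nat_lit 0) (nat_lit 5965364383) (nat_lit 52) (nat_lit 5) (nat_lit 54) (nat_lit 4) (nat_lit 52) (nat_lit 4) (nat_lit 441) (nat_lit 389) (nat_lit 370)) (XT.lf (nat_lit 0) (nat_lit 2520665626) (nat_lit 152) (nat_lit 1222211267) (nat_lit 76) (nat_lit 19452499645) (nat_lit 50) (nat_lit 5) (nat_lit 52) (nat_lit 5) (nat_lit 51) (nat_lit 4) (nat_lit 442) (nat_lit 389) (nat_lit 369))) (XT.nd (nat_lit 78) (nat_lit 152) (nat_lit 0) (XT.lf (nat_lit 0) (nat_lit 1243568499) (nat_lit 76) (nat_lit 14662797702)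 (nat_lit 76) (nat_lit 8454360126) (nat_lit 48) (nat_lit 4) (nat_lit 49) (nat_lit 5) (nat_lit 49) (nat_lit 4) (nat_lit 443) (nat_lit 389) (nat_lit 368)) (XT.lf (nat_lit 0) (nat_lit 3622941528) (nat_lit 76) (nat_lit 1228466204) (nat_lit 152) (nat_lit 20751214397) (nat_lit 46) (nat_lit 5) (nat_lit 47) (nat_lit 5) (nat_lit 48) (nat_lit 4) (nat_lit 444) (nat_lit 389) (nat_lit 367)))) (XT.nd (nat_lit 156) (nat_lit 228) (nat_lit 0) (XT.nd (nat_lit 78) (nat_lit 152) (nat_lit 0) (XT.lf (nat_lit 0) (nat_lit 5617179551) (nat_lit 76) (nat_lit 13710773371) (nat_lit 76) (nat_lit 7588862773) (nat_lit 45) (nat_lit 4) (nat_lit 46) (nat_lit 5) (nat_lit 46) (nat_lit 4) (nat_lit 445) (nat_lit 389) (nat_lit 366)) (XT.lf (nat_lit 0) (nat_lit 6654660102) (nat_lit 152) (nat_lit 20928685833) (nat_lit 0) (nat_lit 735613808) (nat_lit 43) (nat_lit 5) (nat_lit 45) (nat_lit 4) (nat_lit 43) (nat_lit 4) (nat_lit 446) (nat_lit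 389) (nat_lit 365))) (XT.nd (nat_lit 78) (nat_lit 152) (nat_lit 0) (XT.lf (nat_lit 0) (nat_lit 8655653598) (nat_lit 76) (nat_lit 13574801911) (nat_lit 76) (nat_lit 7573667424) (nat_lit 42) (nat_lit 4) (nat_lit 43) (nat_lit 5) (nat_lit 43) (nat_lit 4) (nat_lit 447) (nat_lit 389) (nat_lit 364)) (XT.lf (nat_lit 0) (nat_lit 7669978218) (nat_lit 152) (nat_lit 21836409649) (nat_lit 0) (nat_lit 1882223864) (nat_lit 40) (nat_lit 5) (nat_lit 42) (nat_lit 4) (nat_lit 40) (nat_lit 4) (nat_lit 448) (nat_lit 389) (nat_lit 363))))) (XT.nd (nat_lit 312) (nat_lit 304) (nat_lit 0) (XT.nd (nat_lit 156) (nat_lit 228) (nat_lit 0) (XT.nd (nat_lit 78) (nat_lit 152) (nat_lit 0) (XT.lf (nat_lit 0) (nat_lit 9786944194) (nat_lit 76) (nat_lit 14568551426) (nat_lit 76) (nat_lit 8713770981) (nat_lit 39) (nat_lit 4) (nat_lit 40) (nat_lit 5) (nat_lit 40) (nat_lit 4) (nat_lit 449) (nat_lit 389) (nat_lit 362)) (XT.lf (nat_lit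 0) (nat_lit 7553416909) (nat_lit 152) (nat_lit 25391694627) (nat_lit 0) (nat_lit 1918329634) (nat_lit 37) (nat_lit 5) (nat_lit 39) (nat_lit 4) (nat_lit 37) (nat_lit 4) (nat_lit 450) (nat_lit 389) (nat_lit 361))) (XT.nd (nat_lit 78) (nat_lit 152) (nat_lit 0) (XT.lf (nat_lit 0) (nat_lit 8244424054) (nat_lit 76) (nat_lit 17106347548) (nat_lit 76) (nat_lit 11416532588) (nat_lit 36) (nat_lit 4) (nat_lit 37) (nat_lit 5) (nat_lit 37) (nat_lit 4) (nat_lit 451) (nat_lit 389) (nat_lit 360)) (XT.lf (nat_lit 0) (nat_lit 5869194061) (nat_lit 152) (nat_lit 32532496531) (nat_lit 0) (nat_lit 402061926) (nat_lit 34) (nat_lit 5) (nat_lit 36) (nat_lit 4) (nat_lit 34) (nat_lit 4) (nat_lit 452) (nat_lit 389) (nat_lit 359)))) (XT.nd (nat_lit 156) (nat_lit 152) (nat_lit 0) (XT.nd (nat_lit 78) (nat_lit 76) (nat_lit 0) (XT.lf (nat_lit 0) (nat_lit 3007394010) (nat_lit 76) (nat_lit 21734001902) (nat_lit 76) (nat_lit 16222183893)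 (nat_lit 33) (nat_lit 4) (nat_lit 34) (nat_lit 5) (nat_lit 34) (nat_lit 4) (nat_lit 453) (nat_lit 389) (nat_lit 358)) (XT.lf (nat_lit 0) (nat_lit 2109379104) (nat_lit 152) (nat_lit 1228966655) (nat_lit 76) (nat_lit 39939387821) (nat_lit 32) (nat_lit 5) (nat_lit 34) (nat_lit 5) (nat_lit 33) (nat_lit 4) (nat_lit 454) (nat_lit 389) (nat_lit 357))) (XT.nd (nat_lit 78) (nat_lit 76) (nat_lit 0) (XT.lf (nat_lit 0) (nat_lit 22006322673) (nat_lit 152) (nat_lit 7042960580) (nat_lit 0) (nat_lit 16681080049) (nat_lit 31) (nat_lit 5) (nat_lit 33) (nat_lit 4) (nat_lit 31) (nat_lit 4) (nat_lit 455) (nat_lit 389) (nat_lit 356)) (XT.lf (nat_lit 0) (nat_lit 34068363913) (nat_lit 76) (nat_lit 9824975346) (nat_lit 76) (nat_lit 4465948829) (nat_lit 30) (nat_lit 4) (nat_lit 31) (nat_lit 5) (nat_lit 31) (nat_lit 4) (nat_lit 456) (nat_lit 389) (nat_lit 355)))))) (XT.nd (nat_lit 624) (nat_lit 608) (nat_lit 0) (XT.nd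 (nat_lit 312) (nat_lit 304) (nat_lit 0) (XT.nd (nat_lit 156) (nat_lit 152) (nat_lit 0) (XT.nd (nat_lit 78) (nat_lit 76) (nat_lit 0) (XT.lf (nat_lit 0) (nat_lit 16342992793) (nat_lit 152) (nat_lit 23606770621) (nat_lit 0) (nat_lit 11209366222) (nat_lit 28) (nat_lit 5) (nat_lit 30) (nat_lit 4) (nat_lit 28) (nat_lit 4) (nat_lit 457) (nat_lit 389) (nat_lit 354)) (XT.lf (nat_lit 0) (nat_lit 19042331417) (nat_lit 76) (nat_lit 20136132275) (nat_lit 76) (nat_lit 14974920710) (nat_lit 27) (nat_lit 4) (nat_lit 28) (nat_lit 5) (nat_lit 28) (nat_lit 4) (nat_lit 458) (nat_lit 389) (nat_lit 353))) (XT.nd (nat_lit 78) (nat_lit 0) (nat_lit 0) (XT.lf (nat_lit 0) (nat_lit 6628341126) (nat_lit 152) (nat_lit 49046159561) (nat_lit 0) (nat_lit 1688576149) (nat_lit 25) (nat_lit 5) (nat_lit 27) (nat_lit 4) (nat_lit 25) (nat_lit 4) (nat_lit 459) (nat_lit 389) (nat_lit 352)) (XT.lf (nat_lit 0) (nat_lit 30214735678) (nat_lit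 152) (nat_lit 5311111647) (nat_lit 0) (nat_lit 25252447191) (nat_lit 25) (nat_lit 5) (nat_lit 27) (nat_lit 4) (nat_lit 25) (nat_lit 4) (nat_lit 460) (nat_lit 389) (nat_lit 351)))) (XT.nd (nat_lit 156) (nat_lit 76) (nat_lit 0) (XT.nd (nat_lit 78) (nat_lit 152) (nat_lit 0) (XT.lf (nat_lit 0) (nat_lit 42942526353) (nat_lit 76) (nat_lit 13241279495) (nat_lit 76) (nat_lit 8258135906) (nat_lit 24) (nat_lit 4) (nat_lit 25) (nat_lit 5) (nat_lit 25) (nat_lit 4) (nat_lit 461) (nat_lit 389) (nat_lit 350)) (XT.lf (nat_lit 0) (nat_lit 15851608431) (nat_lit 152) (nat_lit 41421017044) (nat_lit 0) (nat_lit 11087366651) (nat_lit 22) (nat_lit 5) (nat_lit 24) (nat_lit 4) (nat_lit 22) (nat_lit 4) (nat_lit 462) (nat_lit 389) (nat_lit 349))) (XT.nd (nat_lit 78) (nat_lit 0) (nat_lit 0) (XT.lf (nat_lit 0) (nat_lit 6966359859) (nat_lit 76) (nat_lit 35186024690) (nat_lit 76) (nat_lit 30404754444) (nat_lit 21) (nat_lit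 4) (nat_lit 22) (nat_lit 5) (nat_lit 22) (nat_lit 4) (nat_lit 463) (nat_lit 389) (nat_lit 348)) (XT.lf (nat_lit 0) (nat_lit 60383071390) (nat_lit 76) (nat_lit 10737917754) (nat_lit 76) (nat_lit 5940880411) (nat_lit 21) (nat_lit 4) (nat_lit 22) (nat_lit 5) (nat_lit 22) (nat_lit 4) (nat_lit 464) (nat_lit 389) (nat_lit 347))))) (XT.nd (nat_lit 312) (nat_lit 228) (nat_lit 0) (XT.nd (nat_lit 156) (nat_lit 152) (nat_lit 0) (XT.nd (nat_lit 78) (nat_lit 76) (nat_lit 0) (XT.lf (nat_lit 0) (nat_lit 20505947120) (nat_lit 152) (nat_lit 45447541183) (nat_lit 0) (nat_lit 15923436160) (nat_lit 19) (nat_lit 5) (nat_lit 21) (nat_lit 4) (nat_lit 19) (nat_lit 4) (nat_lit 465) (nat_lit 389) (nat_lit 346)) (XT.lf (nat_lit 0) (nat_lit 6962379261) (nat_lit 76) (nat_lit 42341570853) (nat_lit 76) (nat_lit 37746185851) (nat_lit 18) (nat_lit 4) (nat_lit 19) (nat_lit 5) (nat_lit 19) (nat_lit 4) (nat_lit 466) (nat_lit 389)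 (nat_lit 345))) (XT.nd (nat_lit 78) (nat_lit 152) (nat_lit 0) (XT.lf (nat_lit 0) (nat_lit 64907151533) (nat_lit 76) (nat_lit 16152336858) (nat_lit 76) (nat_lit 11545031445) (nat_lit 18) (nat_lit 4) (nat_lit 19) (nat_lit 5) (nat_lit 19) (nat_lit 4) (nat_lit 467) (nat_lit 389) (nat_lit 344)) (XT.lf (nat_lit 0) (nat_lit 16742687533) (nat_lit 152) (nat_lit 69476891428) (nat_lit 0) (nat_lit 12344265791) (nat_lit 16) (nat_lit 5) (nat_lit 18) (nat_lit 4) (nat_lit 16) (nat_lit 4) (nat_lit 468) (nat_lit 389) (nat_lit 343)))) (XT.nd (nat_lit 156) (nat_lit 152) (nat_lit 0) (XT.nd (nat_lit 78) (nat_lit 76) (nat_lit 0) (XT.lf (nat_lit 0) (nat_lit 47530902543) (nat_lit 152) (nat_lit 14304704503) (nat_lit 0) (nat_lit 43122747630) (nat_lit 16) (nat_lit 5) (nat_lit 18) (nat_lit 4) (nat_lit 16) (nat_lit 4) (nat_lit 469) (nat_lit 389) (nat_lit 342)) (XT.lf (nat_lit 0) (nat_lit 46532572181) (nat_lit 76) (nat_lit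 34859268586) (nat_lit 76) (nat_lit 30442101476) (nat_lit 15) (nat_lit 4) (nat_lit 16) (nat_lit 5) (nat_lit 16) (nat_lit 4) (nat_lit 470) (nat_lit 389) (nat_lit 341))) (XT.nd (nat_lit 78) (nat_lit 152) (nat_lit 0) (XT.lf (nat_lit 0) (nat_lit 112519973256) (nat_lit 76) (nat_lit 5579121694) (nat_lit 76) (nat_lit 1153609959) (nat_lit 15) (nat_lit 4) (nat_lit 16) (nat_lit 5) (nat_lit 16) (nat_lit 4) (nat_lit 471) (nat_lit 389) (nat_lit 340)) (XT.lf (nat_lit 0) (nat_lit 30725293262) (nat_lit 152) (nat_lit 69951580653) (nat_lit 0) (nat_lit 26503161604) (nat_lit 13) (nat_lit 5) (nat_lit 15) (nat_lit 4) (nat_lit 13) (nat_lit 4) (nat_lit 472) (nat_lit 389) (nat_lit 339))))))) (XT.nd (nat_lit 1248) (nat_lit 228) (nat_lit 0) (XT.nd (nat_lit 624) (nat_lit 228) (nat_lit 0) (XT.nd (nat_lit 312) (nat_lit 76) (nat_lit 0) (XT.nd (nat_lit 156) (nat_lit 152) (nat_lit 0) (XT.nd (nat_lit 78) (nat_lit 76) (nat_lit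 0) (XT.lf (nat_lit 0) (nat_lit 65225710829) (nat_lit 152) (nat_lit 9512549660) (nat_lit 0) (nat_lit 60996765674) (nat_lit 13) (nat_lit 5) (nat_lit 15) (nat_lit 4) (nat_lit 13) (nat_lit 4) (nat_lit 473) (nat_lit 389) (nat_lit 338)) (XT.lf (nat_lit 0) (nat_lit 57406017580) (nat_lit 76) (nat_lit 45881785239) (nat_lit 76) (nat_lit 41646531291) (nat_lit 12) (nat_lit 4) (nat_lit 13) (nat_lit 5) (nat_lit 13) (nat_lit 4) (nat_lit 474) (nat_lit 389) (nat_lit 337))) (XT.nd (nat_lit 78) (nat_lit 152) (nat_lit 0) (XT.lf (nat_lit 0) (nat_lit 129833207801) (nat_lit 76) (nat_lit 14636857139) (nat_lit 76) (nat_lit 10395761715) (nat_lit 12) (nat_lit 4) (nat_lit 13) (nat_lit 5) (nat_lit 13) (nat_lit 4) (nat_lit 475) (nat_lit 389) (nat_lit 336)) (XT.lf (nat_lit 0) (nat_lit 23512596451) (nat_lit 152) (nat_lit 122547451837) (nat_lit 0) (nat_lit 19468306740) (nat_lit 10) (nat_lit 5) (nat_lit 12) (nat_lit 4) (nat_lit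 10) (nat_lit 4) (nat_lit 476) (nat_lit 389) (nat_lit 335)))) (XT.nd (nat_lit 156) (nat_lit 0) (nat_lit 0) (XT.nd (nat_lit 78) (nat_lit 76) (nat_lit 0) (XT.lf (nat_lit 0) (nat_lit 60381502925) (nat_lit 152) (nat_lit 60290813313) (nat_lit 0) (nat_lit 56332443572) (nat_lit 10) (nat_lit 5) (nat_lit 12) (nat_lit 4) (nat_lit 10) (nat_lit 4) (nat_lit 477) (nat_lit 389) (nat_lit 334)) (XT.lf (nat_lit 0) (nat_lit 7014474470) (nat_lit 76) (nat_lit 93218317384) (nat_lit 76) (nat_lit 89164841696) (nat_lit 9) (nat_lit 4) (nat_lit 10) (nat_lit 5) (nat_lit 10) (nat_lit 4) (nat_lit 478) (nat_lit 389) (nat_lit 333))) (XT.nd (nat_lit 78) (nat_lit 0) (nat_lit 0) (XT.lf (nat_lit 0) (nat_lit 81707558428) (nat_lit 76) (nat_lit 62541548776) (nat_lit 76) (nat_lit 58483983890) (nat_lit 9) (nat_lit 4) (nat_lit 10) (nat_lit 5) (nat_lit 10) (nat_lit 4) (nat_lit 479) (nat_lit 389) (nat_lit 332)) (XT.lf (nat_lit 0) (nat_lit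 162237577672) (nat_lit 76) (nat_lit 29481276253) (nat_lit 76) (nat_lit 25419925071) (nat_lit 9) (nat_lit 4) (nat_lit 10) (nat_lit 5) (nat_lit 10) (nat_lit 4) (nat_lit 480) (nat_lit 389) (nat_lit 331))))) (XT.nd (nat_lit 312) (nat_lit 76) (nat_lit 0) (XT.nd (nat_lit 156) (nat_lit 0) (nat_lit 0) (XT.nd (nat_lit 78) (nat_lit 0) (nat_lit 0) (XT.lf (nat_lit 0) (nat_lit 10260763701) (nat_lit 152) (nat_lit 216023613479) (nat_lit 0) (nat_lit 6389471310) (nat_lit 7) (nat_lit 5) (nat_lit 9) (nat_lit 4) (nat_lit 7) (nat_lit 4) (nat_lit 481) (nat_lit 389) (nat_lit 330)) (XT.lf (nat_lit 0) (nat_lit 49324268105) (nat_lit 152) (nat_lit 154585787787) (nat_lit 0) (nat_lit 45449884154) (nat_lit 7) (nat_lit 5) (nat_lit 9) (nat_lit 4) (nat_lit 7) (nat_lit 4) (nat_lit 482) (nat_lit 389) (nat_lit 329))) (XT.nd (nat_lit 78) (nat_lit 0) (nat_lit 0) (XT.lf (nat_lit 0) (nat_lit 91455366890) (nat_lit 152) (nat_lit 88350306001)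 (nat_lit 0) (nat_lit 87578120383) (nat_lit 7) (nat_lit 5) (nat_lit 9) (nat_lit 4) (nat_lit 7) (nat_lit 4) (nat_lit 483) (nat_lit 389) (nat_lit 328)) (XT.lf (nat_lit 0) (nat_lit 136903725825) (nat_lit 152) (nat_lit 16924661562) (nat_lit 0) (nat_lit 133023828804) (nat_lit 7) (nat_lit 5) (nat_lit 9) (nat_lit 4) (nat_lit 7) (nat_lit 4) (nat_lit 484) (nat_lit 389) (nat_lit 327)))) (XT.nd (nat_lit 156) (nat_lit 0) (nat_lit 0) (XT.nd (nat_lit 78) (nat_lit 0) (nat_lit 0) (XT.lf (nat_lit 0) (nat_lit 62102062440) (nat_lit 76) (nat_lit 124806193315) (nat_lit 76) (nat_lit 120923842115) (nat_lit 6) (nat_lit 4) (nat_lit 7) (nat_lit 5) (nat_lit 7) (nat_lit 4) (nat_lit 485) (nat_lit 389) (nat_lit 326)) (XT.lf (nat_lit 0) (nat_lit 147959045819) (nat_lit 76) (nat_lit 93201781953) (nat_lit 76) (nat_lit 89317158363) (nat_lit 6) (nat_lit 4) (nat_lit 7) (nat_lit 5) (nat_lit 7) (nat_lit 4) (nat_lit 486) (nat_lit 389)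 (nat_lit 325))) (XT.nd (nat_lit 78) (nat_lit 0) (nat_lit 0) (XT.lf (nat_lit 0) (nat_lit 240595464954) (nat_lit 76) (nat_lit 59114495233) (nat_lit 76) (nat_lit 55227767579) (nat_lit 6) (nat_lit 4) (nat_lit 7) (nat_lit 5) (nat_lit 7) (nat_lit 4) (nat_lit 487) (nat_lit 389) (nat_lit 324)) (XT.lf (nat_lit 0) (nat_lit 340560276401) (nat_lit 76) (nat_lit 22342334418) (nat_lit 76) (nat_lit 18453658558) (nat_lit 6) (nat_lit 4) (nat_lit 7) (nat_lit 5) (nat_lit 7) (nat_lit 4) (nat_lit 488) (nat_lit 389) (nat_lit 323)))))) (XT.nd (nat_lit 624) (nat_lit 0) (nat_lit 0) (XT.nd (nat_lit 312) (nat_lit 76) (nat_lit 0) (XT.nd (nat_lit 156) (nat_lit 0) (nat_lit 0) (XT.nd (nat_lit 78) (nat_lit 0) (nat_lit 0) (XT.lf (nat_lit 0) (nat_lit 21446489195) (nat_lit 152) (nat_lit 370640704560) (nat_lit 0) (nat_lit 17741270380) (nat_lit 4) (nat_lit 5) (nat_lit 6) (nat_lit 4) (nat_lit 4) (nat_lit 4) (nat_lit 489) (nat_lit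 389) (nat_lit 322)) (XT.lf (nat_lit 0) (nat_lit 64962821177) (nat_lit 152) (nat_lit 314290940809) (nat_lit 0) (nat_lit 61256011625) (nat_lit 4) (nat_lit 5) (nat_lit 6) (nat_lit 4) (nat_lit 4) (nat_lit 4) (nat_lit 490) (nat_lit 389) (nat_lit 321))) (XT.nd (nat_lit 78) (nat_lit 0) (nat_lit 0) (XT.lf (nat_lit 0) (nat_lit 111926231043) (nat_lit 152) (nat_lit 253503119677) (nat_lit 0) (nat_lit 108217948587) (nat_lit 4) (nat_lit 5) (nat_lit 6) (nat_lit 4) (nat_lit 4) (nat_lit 4) (nat_lit 491) (nat_lit 389) (nat_lit 320)) (XT.lf (nat_lit 0) (nat_lit 162615020481) (nat_lit 152) (nat_lit 187917017036) (nat_lit 0) (nat_lit 158905374224) (nat_lit 4) (nat_lit 5) (nat_lit 6) (nat_lit 4) (nat_lit 4) (nat_lit 4) (nat_lit 492) (nat_lit 389) (nat_lit 319)))) (XT.nd (nat_lit 156) (nat_lit 76) (nat_lit 0) (XT.nd (nat_lit 78) (nat_lit 0) (nat_lit 0) (XT.lf (nat_lit 0) (nat_lit 217329567502) (nat_lit 152) (nat_lit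 117143974501) (nat_lit 0) (nat_lit 213618658467) (nat_lit 4) (nat_lit 5) (nat_lit 6) (nat_lit 4) (nat_lit 4) (nat_lit 4) (nat_lit 493) (nat_lit 389) (nat_lit 318)) (XT.lf (nat_lit 0) (nat_lit 276394106458) (nat_lit 152) (nat_lit 40764596266) (nat_lit 0) (nat_lit 272682028184) (nat_lit 4) (nat_lit 5) (nat_lit 6) (nat_lit 4) (nat_lit 4) (nat_lit 4) (nat_lit 494) (nat_lit 389) (nat_lit 317))) (XT.nd (nat_lit 78) (nat_lit 0) (nat_lit 0) (XT.lf (nat_lit 0) (nat_lit 43051658132) (nat_lit 76) (nat_lit 297779148336) (nat_lit 76) (nat_lit 294065987434) (nat_lit 3) (nat_lit 4) (nat_lit 4) (nat_lit 5) (nat_lit 4) (nat_lit 4) (nat_lit 495) (nat_lit 389) (nat_lit 316)) (XT.lf (nat_lit 0) (nat_lit 134979741053) (nat_lit 76) (nat_lit 276128731369) (nat_lit 76) (nat_lit 272414568032) (nat_lit 3) (nat_lit 4) (nat_lit 4) (nat_lit 5) (nat_lit 4) (nat_lit 4) (nat_lit 496) (nat_lit 389) (nat_lit 315))))) (XT.nd (nat_lit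 312) (nat_lit 0) (nat_lit 0) (XT.nd (nat_lit 156) (nat_lit 0) (nat_lit 0) (XT.nd (nat_lit 78) (nat_lit 0) (nat_lit 0) (XT.lf (nat_lit 0) (nat_lit 234216549857) (nat_lit 76) (nat_lit 252769521218) (nat_lit 76) (nat_lit 249054429701) (nat_lit 3) (nat_lit 4) (nat_lit 4) (nat_lit 5) (nat_lit 4) (nat_lit 4) (nat_lit 497) (nat_lit 389) (nat_lit 314)) (XT.lf (nat_lit 0) (nat_lit 341350154521) (nat_lit 76) (nat_lit 227563092933) (nat_lit 76) (nat_lit 223847141991) (nat_lit 3) (nat_lit 4) (nat_lit 4) (nat_lit 5) (nat_lit 4) (nat_lit 4) (nat_lit 498) (nat_lit 389) (nat_lit 313))) (XT.nd (nat_lit 78) (nat_lit 0) (nat_lit 0) (XT.lf (nat_lit 0) (nat_lit 457015420851) (nat_lit 76) (nat_lit 200360075089) (nat_lit 76) (nat_lit 196643328383) (nat_lit 3) (nat_lit 4) (nat_lit 4) (nat_lit 5) (nat_lit 4) (nat_lit 4) (nat_lit 499) (nat_lit 389) (nat_lit 312)) (XT.lf (nat_lit 0) (nat_lit 581897772648) (nat_lit 76)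 (nat_lit 170999264616) (nat_lit 76) (nat_lit 167281781090) (nat_lit 3) (nat_lit 4) (nat_lit 4) (nat_lit 5) (nat_lit 4) (nat_lit 4) (nat_lit 500) (nat_lit 389) (nat_lit 311)))) (XT.nd (nat_lit 156) (nat_lit 0) (nat_lit 0) (XT.nd (nat_lit 78) (nat_lit 0) (nat_lit 0) (XT.lf (nat_lit 0) (nat_lit 716737253477) (nat_lit 76) (nat_lit 139306671526) (nat_lit 76) (nat_lit 135588505761) (nat_lit 3) (nat_lit 4) (nat_lit 4) (nat_lit 5) (nat_lit 4) (nat_lit 4) (nat_lit 501) (nat_lit 389) (nat_lit 310)) (XT.lf (nat_lit 0) (nat_lit 862332912115) (nat_lit 76) (nat_lit 105094487860) (nat_lit 76) (nat_lit 101375690392) (nat_lit 3) (nat_lit 4) (nat_lit 4) (nat_lit 5) (nat_lit 4) (nat_lit 4) (nat_lit 502) (nat_lit 389) (nat_lit 309))) (XT.nd (nat_lit 78) (nat_lit 0) (nat_lit 0) (XT.lf (nat_lit 0) (nat_lit 1019547537648) (nat_lit 76) (nat_lit 68159974753) (nat_lit 76) (nat_lit 64440592374) (nat_lit 3) (nat_lit 4)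 (nat_lit 4) (nat_lit 5) (nat_lit 4) (nat_lit 4) (nat_lit 503) (nat_lit 389) (nat_lit 308)) (XT.lf (nat_lit 0) (nat_lit 1189312772303) (nat_lit 76) (nat_lit 28284261014) (nat_lit 76) (nat_lit 24564337051) (nat_lit 3) (nat_lit 4) (nat_lit 4) (nat_lit 5) (nat_lit 4) (nat_lit 4) (nat_lit 504) (nat_lit 389) (nat_lit 307))))))))
noncomputable def xc30 : XT := (XT.nd (nat_lit 58032) (nat_lit 0) (nat_lit 608) (XT.nd (nat_lit 56784) (nat_lit 0) (nat_lit 3192) (XT.nd (nat_lit 56160) (nat_lit 0) (nat_lit 5320) (XT.nd (nat_lit 55848) (nat_lit 0) (nat_lit 7144) (XT.nd (nat_lit 78) (nat_lit 0) (nat_lit 0) (XT.lf (nat_lit 0) (nat_lit 18673407040) (nat_lit 152) (nat_lit 1305519523611) (nat_lit 0) (nat_lit 15130144726) (nat_lit 1) (nat_lit 5) (nat_lit 3) (nat_lit 4) (nat_lit 1) (nat_lit 4) (nat_lit 505) (nat_lit 389) (nat_lit 306)) (XT.nd (nat_lit 78) (nat_lit 0) (nat_lit 0) (XT.lf (nat_lit 0) (nat_lit 65921773378)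 (nat_lit 152) (nat_lit 1315867128986) (nat_lit 0) (nat_lit 62378068854) (nat_lit 1) (nat_lit 5) (nat_lit 3) (nat_lit 4) (nat_lit 1) (nat_lit 4) (nat_lit 506) (nat_lit 389) (nat_lit 305)) (XT.lf (nat_lit 0) (nat_lit 116938997433) (nat_lit 152) (nat_lit 1327065048426) (nat_lit 0) (nat_lit 113394883454) (nat_lit 1) (nat_lit 5) (nat_lit 3) (nat_lit 4) (nat_lit 1) (nat_lit 4) (nat_lit 507) (nat_lit 389) (nat_lit 304)))) (XT.nd (nat_lit 156) (nat_lit 608) (nat_lit 0) (XT.nd (nat_lit 78) (nat_lit 228) (nat_lit 0) (XT.lf (nat_lit 0) (nat_lit 1102921603) (nat_lit 228) (nat_lit 1787000248) (nat_lit 228) (nat_lit 1787000248) (nat_lit 106) (nat_lit 4) (nat_lit 109) (nat_lit 5) (nat_lit 109) (nat_lit 4) (nat_lit 420) (nat_lit 390) (nat_lit 390)) (XT.lf (nat_lit 0) (nat_lit 3767770226) (nat_lit 228) (nat_lit 3354927257) (nat_lit 0) (nat_lit 2540604078) (nat_lit 103) (nat_lit 5) (nat_lit 106) (nat_lit 4) (nat_lit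 103) (nat_lit 4) (nat_lit 421) (nat_lit 390) (nat_lit 389))) (XT.nd (nat_lit 78) (nat_lit 152) (nat_lit 0) (XT.lf (nat_lit 0) (nat_lit 607431654) (nat_lit 152) (nat_lit 841769688) (nat_lit 228) (nat_lit 8548041752) (nat_lit 97) (nat_lit 5) (nat_lit 99) (nat_lit 5) (nat_lit 100) (nat_lit 4) (nat_lit 422) (nat_lit 390) (nat_lit 388)) (XT.lf (nat_lit 0) (nat_lit 4791129124) (nat_lit 152) (nat_lit 4406844322) (nat_lit 152) (nat_lit 1153960249) (nat_lit 95) (nat_lit 4) (nat_lit 97) (nat_lit 5) (nat_lit 97) (nat_lit 4) (nat_lit 423) (nat_lit 390) (nat_lit 387))))) (XT.nd (nat_lit 312) (nat_lit 912) (nat_lit 0) (XT.nd (nat_lit 156) (nat_lit 304) (nat_lit 0) (XT.nd (nat_lit 78) (nat_lit 380) (nat_lit 0) (XT.lf (nat_lit 0) (nat_lit 6552593820) (nat_lit 228) (nat_lit 1609093865) (nat_lit 0) (nat_lit 2571013476) (nat_lit 92) (nat_lit 5) (nat_lit 95) (nat_lit 4) (nat_lit 92) (nat_lit 4) (nat_lit 424) (nat_lit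 390) (nat_lit 386)) (XT.lf (nat_lit 0) (nat_lit 2563073698) (nat_lit 152) (nat_lit 1028535099) (nat_lit 228) (nat_lit 7547629775) (nat_lit 87) (nat_lit 5) (nat_lit 89) (nat_lit 5) (nat_lit 90) (nat_lit 4) (nat_lit 425) (nat_lit 390) (nat_lit 385))) (XT.nd (nat_lit 78) (nat_lit 76) (nat_lit 0) (XT.lf (nat_lit 0) (nat_lit 307314829) (nat_lit 228) (nat_lit 4662638002) (nat_lit 76) (nat_lit 6602124553) (nat_lit 84) (nat_lit 5) (nat_lit 87) (nat_lit 5) (nat_lit 85) (nat_lit 4) (nat_lit 426) (nat_lit 390) (nat_lit 384)) (XT.lf (nat_lit 0) (nat_lit 8525073056) (nat_lit 152) (nat_lit 660096563) (nat_lit 0) (nat_lit 2848255207) (nat_lit 83) (nat_lit 5) (nat_lit 85) (nat_lit 4) (nat_lit 83) (nat_lit 4) (nat_lit 427) (nat_lit 390) (nat_lit 383)))) (XT.nd (nat_lit 156) (nat_lit 380) (nat_lit 0) (XT.nd (nat_lit 78) (nat_lit 228) (nat_lit 0) (XT.lf (nat_lit 0) (nat_lit 3579575325) (nat_lit 76) (nat_lit 1223098223)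 (nat_lit 152) (nat_lit 7720718958) (nat_lit 79) (nat_lit 5) (nat_lit 80) (nat_lit 5) (nat_lit 81) (nat_lit 4) (nat_lit 428) (nat_lit 390) (nat_lit 382)) (XT.lf (nat_lit 0) (nat_lit 678854540) (nat_lit 228) (nat_lit 5095354793) (nat_lit 76) (nat_lit 7270394452) (nat_lit 76) (nat_lit 5) (nat_lit 79) (nat_lit 5) (nat_lit 77) (nat_lit 4) (nat_lit 429) (nat_lit 390) (nat_lit 381))) (XT.nd (nat_lit 78) (nat_lit 304) (nat_lit 0) (XT.lf (nat_lit 0) (nat_lit 9528577573) (nat_lit 152) (nat_lit 1177796658) (nat_lit 0) (nat_lit 2892382924) (nat_lit 75) (nat_lit 5) (nat_lit 77) (nat_lit 4) (nat_lit 75) (nat_lit 4) (nat_lit 430) (nat_lit 390) (nat_lit 380)) (XT.lf (nat_lit 0) (nat_lit 2927081059) (nat_lit 76) (nat_lit 1944838944) (nat_lit 152) (nat_lit 9314544753) (nat_lit 71) (nat_lit 5) (nat_lit 72) (nat_lit 5) (nat_lit 73) (nat_lit 4) (nat_lit 431) (nat_lit 390) (nat_lit 379)))))) (XT.nd (nat_lit 624) (nat_lit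 988) (nat_lit 0) (XT.nd (nat_lit 312) (nat_lit 532) (nat_lit 0) (XT.nd (nat_lit 156) (nat_lit 304) (nat_lit 0) (XT.nd (nat_lit 78) (nat_lit 152) (nat_lit 0) (XT.lf (nat_lit 0) (nat_lit 7160497905) (nat_lit 152) (nat_lit 7374079144) (nat_lit 152) (nat_lit 275892508) (nat_lit 69) (nat_lit 4) (nat_lit 71) (nat_lit 5) (nat_lit 71) (nat_lit 4) (nat_lit 432) (nat_lit 390) (nat_lit 378)) (XT.lf (nat_lit 0) (nat_lit 9273380686) (nat_lit 152) (nat_lit 4015695267) (nat_lit 0) (nat_lit 2183362493) (nat_lit 67) (nat_lit 5) (nat_lit 69) (nat_lit 4) (nat_lit 67) (nat_lit 4) (nat_lit 433) (nat_lit 390) (nat_lit 377))) (XT.nd (nat_lit 78) (nat_lit 152) (nat_lit 0) (XT.lf (nat_lit 0) (nat_lit 3448180175) (nat_lit 152) (nat_lit 326656653) (nat_lit 76) (nat_lit 12401316349) (nat_lit 65) (nat_lit 5) (nat_lit 67) (nat_lit 5) (nat_lit 66) (nat_lit 4) (nat_lit 434) (nat_lit 390) (nat_lit 376)) (XT.lf (nat_lit 0) (nat_lit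 3504740161) (nat_lit 76) (nat_lit 10363996960) (nat_lit 76) (nat_lit 3051415026) (nat_lit 63) (nat_lit 4) (nat_lit 64) (nat_lit 5) (nat_lit 64) (nat_lit 4) (nat_lit 435) (nat_lit 390) (nat_lit 375)))) (XT.nd (nat_lit 156) (nat_lit 228) (nat_lit 0) (XT.nd (nat_lit 78) (nat_lit 152) (nat_lit 0) (XT.lf (nat_lit 0) (nat_lit 7303038076) (nat_lit 152) (nat_lit 10306651531) (nat_lit 0) (nat_lit 101179563) (nat_lit 61) (nat_lit 5) (nat_lit 63) (nat_lit 4) (nat_lit 61) (nat_lit 4) (nat_lit 436) (nat_lit 390) (nat_lit 374)) (XT.lf (nat_lit 0) (nat_lit 89140647) (nat_lit 152) (nat_lit 7239022747) (nat_lit 76) (nat_lit 11220992051) (nat_lit 59) (nat_lit 5) (nat_lit 61) (nat_lit 5) (nat_lit 60) (nat_lit 4) (nat_lit 437) (nat_lit 390) (nat_lit 373))) (XT.nd (nat_lit 78) (nat_lit 152) (nat_lit 0) (XT.lf (nat_lit 0) (nat_lit 11232765285) (nat_lit 152) (nat_lit 4234131020) (nat_lit 0) (nat_lit 3970503802) (nat_lit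 58) (nat_lit 5) (nat_lit 60) (nat_lit 4) (nat_lit 58) (nat_lit 4) (nat_lit 438) (nat_lit 390) (nat_lit 372)) (XT.lf (nat_lit 0) (nat_lit 3026257634) (nat_lit 152) (nat_lit 1237986667) (nat_lit 76) (nat_lit 16117872657) (nat_lit 56) (nat_lit 5) (nat_lit 58) (nat_lit 5) (nat_lit 57) (nat_lit 4) (nat_lit 439) (nat_lit 390) (nat_lit 371))))) (XT.nd (nat_lit 312) (nat_lit 456) (nat_lit 0) (XT.nd (nat_lit 156) (nat_lit 228) (nat_lit 0) (XT.nd (nat_lit 78) (nat_lit 152) (nat_lit 0) (XT.lf (nat_lit 0) (nat_lit 1699212518) (nat_lit 76) (nat_lit 13463757589) (nat_lit 76) (nat_lit 6217978630) (nat_lit 54) (nat_lit 4) (nat_lit 55) (nat_lit 5) (nat_lit 55) (nat_lit 4) (nat_lit 440) (nat_lit 390) (nat_lit 370)) (XT.lf (nat_lit 0) (nat_lit 4642630360) (nat_lit 76) (nat_lit 1228109630) (nat_lit 152) (nat_lit 16572123471) (nat_lit 52) (nat_lit 5) (nat_lit 53) (nat_lit 5) (nat_lit 54) (nat_lit 4) (nat_lit 441)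 (nat_lit 390) (nat_lit 369))) (XT.nd (nat_lit 78) (nat_lit 152) (nat_lit 0) (XT.lf (nat_lit 0) (nat_lit 7398708226) (nat_lit 76) (nat_lit 11668819739) (nat_lit 76) (nat_lit 4499167876) (nat_lit 51) (nat_lit 4) (nat_lit 52) (nat_lit 5) (nat_lit 52) (nat_lit 4) (nat_lit 442) (nat_lit 390) (nat_lit 368)) (XT.lf (nat_lit 0) (nat_lit 8497944287) (nat_lit 152) (nat_lit 14708546313) (nat_lit 0) (nat_lit 1555697669) (nat_lit 49) (nat_lit 5) (nat_lit 51) (nat_lit 4) (nat_lit 49) (nat_lit 4) (nat_lit 443) (nat_lit 390) (nat_lit 367)))) (XT.nd (nat_lit 156) (nat_lit 228) (nat_lit 0) (XT.nd (nat_lit 78) (nat_lit 152) (nat_lit 0) (XT.lf (nat_lit 0) (nat_lit 12480730130) (nat_lit 76) (nat_lit 10298310058) (nat_lit 76) (nat_lit 3250501636) (nat_lit 48) (nat_lit 4) (nat_lit 49) (nat_lit 5) (nat_lit 49) (nat_lit 4) (nat_lit 444) (nat_lit 390) (nat_lit 366)) (XT.lf (nat_lit 0) (nat_lit 10742542957) (nat_lit 152)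 (nat_lit 12695851051) (nat_lit 0) (nat_lit 3937256450) (nat_lit 46) (nat_lit 5) (nat_lit 48) (nat_lit 4) (nat_lit 46) (nat_lit 4) (nat_lit 445) (nat_lit 390) (nat_lit 365))) (XT.nd (nat_lit 78) (nat_lit 152) (nat_lit 0) (XT.lf (nat_lit 0) (nat_lit 16609063213) (nat_lit 76) (nat_lit 9544295161) (nat_lit 76) (nat_lit 2652816050) (nat_lit 45) (nat_lit 4) (nat_lit 46) (nat_lit 5) (nat_lit 46) (nat_lit 4) (nat_lit 446) (nat_lit 390) (nat_lit 364)) (XT.lf (nat_lit 0) (nat_lit 12395432264) (nat_lit 152) (nat_lit 12172488303) (nat_lit 0) (nat_lit 5756111240) (nat_lit 43) (nat_lit 5) (nat_lit 45) (nat_lit 4) (nat_lit 43) (nat_lit 4) (nat_lit 447) (nat_lit 390) (nat_lit 363))))))) (XT.nd (nat_lit 1248) (nat_lit 988) (nat_lit 0) (XT.nd (nat_lit 624) (nat_lit 684) (nat_lit 0) (XT.nd (nat_lit 312) (nat_lit 456) (nat_lit 0) (XT.nd (nat_lit 156) (nat_lit 228) (nat_lit 0) (XT.nd (nat_lit 78) (nat_lit 152) (nat_lit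 0) (XT.lf (nat_lit 0) (nat_lit 19325301794) (nat_lit 76) (nat_lit 9661954139) (nat_lit 76) (nat_lit 2952255720) (nat_lit 42) (nat_lit 4) (nat_lit 43) (nat_lit 5) (nat_lit 43) (nat_lit 4) (nat_lit 448) (nat_lit 390) (nat_lit 362)) (XT.lf (nat_lit 0) (nat_lit 13196248750) (nat_lit 152) (nat_lit 13713799512) (nat_lit 0) (nat_lit 6743998586) (nat_lit 40) (nat_lit 5) (nat_lit 42) (nat_lit 4) (nat_lit 40) (nat_lit 4) (nat_lit 449) (nat_lit 390) (nat_lit 361))) (XT.nd (nat_lit 78) (nat_lit 152) (nat_lit 0) (XT.lf (nat_lit 0) (nat_lit 20010505200) (nat_lit 76) (nat_lit 10989595002) (nat_lit 76) (nat_lit 4479880769) (nat_lit 39) (nat_lit 4) (nat_lit 40) (nat_lit 5) (nat_lit 40) (nat_lit 4) (nat_lit 450) (nat_lit 390) (nat_lit 360)) (XT.lf (nat_lit 0) (nat_lit 12792743053) (nat_lit 152) (nat_lit 18085662840) (nat_lit 0) (nat_lit 6542341430) (nat_lit 37) (nat_lit 5) (nat_lit 39) (nat_lit 4) (nat_lit 37)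 (nat_lit 4) (nat_lit 451) (nat_lit 390) (nat_lit 359)))) (XT.nd (nat_lit 156) (nat_lit 228) (nat_lit 0) (XT.nd (nat_lit 78) (nat_lit 152) (nat_lit 0) (XT.lf (nat_lit 0) (nat_lit 17835554729) (nat_lit 76) (nat_lit 13974441093) (nat_lit 76) (nat_lit 7677119301) (nat_lit 36) (nat_lit 4) (nat_lit 37) (nat_lit 5) (nat_lit 37) (nat_lit 4) (nat_lit 452) (nat_lit 390) (nat_lit 358)) (XT.lf (nat_lit 0) (nat_lit 10712928668) (nat_lit 152) (nat_lit 26302297091) (nat_lit 0) (nat_lit 4674103533) (nat_lit 34) (nat_lit 5) (nat_lit 36) (nat_lit 4) (nat_lit 34) (nat_lit 4) (nat_lit 453) (nat_lit 390) (nat_lit 357))) (XT.nd (nat_lit 78) (nat_lit 152) (nat_lit 0) (XT.lf (nat_lit 0) (nat_lit 11696922006) (nat_lit 76) (nat_lit 19205881492) (nat_lit 76) (nat_lit 13128745422) (nat_lit 33) (nat_lit 4) (nat_lit 34) (nat_lit 5) (nat_lit 34) (nat_lit 4) (nat_lit 454) (nat_lit 390) (nat_lit 356)) (XT.lf (nat_lit 0) (nat_lit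 6328987093) (nat_lit 152) (nat_lit 39700956729) (nat_lit 0) (nat_lit 507454561) (nat_lit 31) (nat_lit 5) (nat_lit 33) (nat_lit 4) (nat_lit 31) (nat_lit 4) (nat_lit 455) (nat_lit 390) (nat_lit 355))))) (XT.nd (nat_lit 312) (nat_lit 380) (nat_lit 0) (XT.nd (nat_lit 156) (nat_lit 228) (nat_lit 0) (XT.nd (nat_lit 78) (nat_lit 0) (nat_lit 0) (XT.lf (nat_lit 0) (nat_lit 133614596) (nat_lit 76) (nat_lit 27458362045) (nat_lit 76) (nat_lit 21605548131) (nat_lit 30) (nat_lit 4) (nat_lit 31) (nat_lit 5) (nat_lit 31) (nat_lit 4) (nat_lit 456) (nat_lit 390) (nat_lit 354)) (XT.lf (nat_lit 0) (nat_lit 44193382910) (nat_lit 76) (nat_lit 6866823477) (nat_lit 76) (nat_lit 985045319) (nat_lit 30) (nat_lit 4) (nat_lit 31) (nat_lit 5) (nat_lit 31) (nat_lit 4) (nat_lit 457) (nat_lit 390) (nat_lit 353))) (XT.nd (nat_lit 78) (nat_lit 76) (nat_lit 0) (XT.lf (nat_lit 0) (nat_lit 21259775604) (nat_lit 152) (nat_lit 18179068456)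 (nat_lit 0) (nat_lit 15632540460) (nat_lit 28) (nat_lit 5) (nat_lit 30) (nat_lit 4) (nat_lit 28) (nat_lit 4) (nat_lit 458) (nat_lit 390) (nat_lit 352)) (XT.lf (nat_lit 0) (nat_lit 27564006704) (nat_lit 76) (nat_lit 18199981601) (nat_lit 76) (nat_lit 12549096771) (nat_lit 27) (nat_lit 4) (nat_lit 28) (nat_lit 5) (nat_lit 28) (nat_lit 4) (nat_lit 459) (nat_lit 390) (nat_lit 351)))) (XT.nd (nat_lit 156) (nat_lit 152) (nat_lit 0) (XT.nd (nat_lit 78) (nat_lit 76) (nat_lit 0) (XT.lf (nat_lit 0) (nat_lit 10566726119) (nat_lit 152) (nat_lit 46050908248) (nat_lit 0) (nat_lit 5164075940) (nat_lit 25) (nat_lit 5) (nat_lit 27) (nat_lit 4) (nat_lit 25) (nat_lit 4) (nat_lit 460) (nat_lit 390) (nat_lit 350)) (XT.lf (nat_lit 0) (nat_lit 692596537) (nat_lit 76) (nat_lit 35105795907) (nat_lit 76) (nat_lit 29683835449) (nat_lit 24) (nat_lit 4) (nat_lit 25) (nat_lit 5) (nat_lit 25) (nat_lit 4) (nat_lit 461) (nat_lit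 390) (nat_lit 349))) (XT.nd (nat_lit 78) (nat_lit 152) (nat_lit 0) (XT.lf (nat_lit 0) (nat_lit 52505942535) (nat_lit 76) (nat_lit 11190154865) (nat_lit 76) (nat_lit 5750314518) (nat_lit 24) (nat_lit 4) (nat_lit 25) (nat_lit 5) (nat_lit 25) (nat_lit 4) (nat_lit 462) (nat_lit 390) (nat_lit 348)) (XT.lf (nat_lit 0) (nat_lit 20099882121) (nat_lit 152) (nat_lit 38676582297) (nat_lit 0) (nat_lit 14903314693) (nat_lit 22) (nat_lit 5) (nat_lit 24) (nat_lit 4) (nat_lit 22) (nat_lit 4) (nat_lit 463) (nat_lit 390) (nat_lit 347)))))) (XT.nd (nat_lit 624) (nat_lit 456) (nat_lit 0) (XT.nd (nat_lit 312) (nat_lit 228) (nat_lit 0) (XT.nd (nat_lit 156) (nat_lit 228) (nat_lit 0) (XT.nd (nat_lit 78) (nat_lit 0) (nat_lit 0) (XT.lf (nat_lit 0) (nat_lit 13318506415) (nat_lit 76) (nat_lit 35055936089) (nat_lit 76) (nat_lit 29844769496) (nat_lit 21) (nat_lit 4) (nat_lit 22) (nat_lit 5) (nat_lit 22) (nat_lit 4) (nat_lit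 464) (nat_lit 390) (nat_lit 346)) (XT.lf (nat_lit 0) (nat_lit 70579307627) (nat_lit 76) (nat_lit 8870126566) (nat_lit 76) (nat_lit 3645442228) (nat_lit 21) (nat_lit 4) (nat_lit 22) (nat_lit 5) (nat_lit 22) (nat_lit 4) (nat_lit 465) (nat_lit 390) (nat_lit 345))) (XT.nd (nat_lit 78) (nat_lit 76) (nat_lit 0) (XT.lf (nat_lit 0) (nat_lit 24752650209) (nat_lit 152) (nat_lit 43779273009) (nat_lit 0) (nat_lit 19764839954) (nat_lit 19) (nat_lit 5) (nat_lit 21) (nat_lit 4) (nat_lit 19) (nat_lit 4) (nat_lit 466) (nat_lit 390) (nat_lit 344)) (XT.lf (nat_lit 0) (nat_lit 12592932588) (nat_lit 76) (nat_lit 43147719517) (nat_lit 76) (nat_lit 38148871845) (nat_lit 18) (nat_lit 4) (nat_lit 19) (nat_lit 5) (nat_lit 19) (nat_lit 4) (nat_lit 467) (nat_lit 390) (nat_lit 343)))) (XT.nd (nat_lit 156) (nat_lit 76) (nat_lit 0) (XT.nd (nat_lit 78) (nat_lit 152) (nat_lit 0) (XT.lf (nat_lit 0) (nat_lit 74797467161) (nat_lit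 76) (nat_lit 15054545098) (nat_lit 76) (nat_lit 10045477596) (nat_lit 18) (nat_lit 4) (nat_lit 19) (nat_lit 5) (nat_lit 19) (nat_lit 4) (nat_lit 468) (nat_lit 390) (nat_lit 342)) (XT.lf (nat_lit 0) (nat_lit 20361563969) (nat_lit 152) (nat_lit 70391401063) (nat_lit 0) (nat_lit 15582011295) (nat_lit 16) (nat_lit 5) (nat_lit 18) (nat_lit 4) (nat_lit 16) (nat_lit 4) (nat_lit 469) (nat_lit 390) (nat_lit 341))) (XT.nd (nat_lit 78) (nat_lit 76) (nat_lit 0) (XT.lf (nat_lit 0) (nat_lit 53443987185) (nat_lit 152) (nat_lit 11149412642) (nat_lit 0) (nat_lit 48656089884) (nat_lit 16) (nat_lit 5) (nat_lit 18) (nat_lit 4) (nat_lit 16) (nat_lit 4) (nat_lit 470) (nat_lit 390) (nat_lit 340)) (XT.lf (nat_lit 0) (nat_lit 54367987836) (nat_lit 76) (nat_lit 35553683457) (nat_lit 76) (nat_lit 30758059651) (nat_lit 15) (nat_lit 4) (nat_lit 16) (nat_lit 5) (nat_lit 16) (nat_lit 4) (nat_lit 471) (nat_lit 390) (nat_lit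 339))))) (XT.nd (nat_lit 312) (nat_lit 228) (nat_lit 0) (XT.nd (nat_lit 156) (nat_lit 76) (nat_lit 0) (XT.nd (nat_lit 78) (nat_lit 76) (nat_lit 0) (XT.lf (nat_lit 0) (nat_lit 693584811) (nat_lit 152) (nat_lit 3380929113) (nat_lit 76) (nat_lit 124624397407) (nat_lit 14) (nat_lit 5) (nat_lit 16) (nat_lit 5) (nat_lit 15) (nat_lit 4) (nat_lit 472) (nat_lit 390) (nat_lit 338)) (XT.lf (nat_lit 0) (nat_lit 35029468597) (nat_lit 152) (nat_lit 71783574577) (nat_lit 0) (nat_lit 30449085540) (nat_lit 13) (nat_lit 5) (nat_lit 15) (nat_lit 4) (nat_lit 13) (nat_lit 4) (nat_lit 473) (nat_lit 390) (nat_lit 337))) (XT.nd (nat_lit 78) (nat_lit 76) (nat_lit 0) (XT.lf (nat_lit 0) (nat_lit 72153167578) (nat_lit 152) (nat_lit 6788245736) (nat_lit 0) (nat_lit 67566943045) (nat_lit 13) (nat_lit 5) (nat_lit 15) (nat_lit 4) (nat_lit 13) (nat_lit 4) (nat_lit 474) (nat_lit 390) (nat_lit 336)) (XT.lf (nat_lit 0) (nat_lit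 65332339650) (nat_lit 76) (nat_lit 47853315661) (nat_lit 76) (nat_lit 43261682355) (nat_lit 12) (nat_lit 4) (nat_lit 13) (nat_lit 5) (nat_lit 13) (nat_lit 4) (nat_lit 475) (nat_lit 390) (nat_lit 335)))) (XT.nd (nat_lit 156) (nat_lit 76) (nat_lit 0) (XT.nd (nat_lit 78) (nat_lit 152) (nat_lit 0) (XT.lf (nat_lit 0) (nat_lit 143306753928) (nat_lit 76) (nat_lit 14234646082) (nat_lit 76) (nat_lit 9638004652) (nat_lit 12) (nat_lit 4) (nat_lit 13) (nat_lit 5) (nat_lit 13) (nat_lit 4) (nat_lit 476) (nat_lit 390) (nat_lit 334)) (XT.lf (nat_lit 0) (nat_lit 26888931634) (nat_lit 152) (nat_lit 129300162429) (nat_lit 0) (nat_lit 22506761556) (nat_lit 10) (nat_lit 5) (nat_lit 12) (nat_lit 4) (nat_lit 10) (nat_lit 4) (nat_lit 477) (nat_lit 390) (nat_lit 333))) (XT.nd (nat_lit 78) (nat_lit 76) (nat_lit 0) (XT.lf (nat_lit 0) (nat_lit 66596585627) (nat_lit 152) (nat_lit 62288999161) (nat_lit 0) (nat_lit 62210326351)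 (nat_lit 10) (nat_lit 5) (nat_lit 12) (nat_lit 4) (nat_lit 10) (nat_lit 4) (nat_lit 478) (nat_lit 390) (nat_lit 332)) (XT.lf (nat_lit 0) (nat_lit 10277937144) (nat_lit 76) (nat_lit 99297670894) (nat_lit 76) (nat_lit 94907625322) (nat_lit 9) (nat_lit 4) (nat_lit 10) (nat_lit 5) (nat_lit 10) (nat_lit 4) (nat_lit 479) (nat_lit 390) (nat_lit 331))))))))
noncomputable def xc31 : XT := (XT.nd (nat_lit 57954) (nat_lit 0) (nat_lit 2660) (XT.nd (nat_lit 1248) (nat_lit 228) (nat_lit 0) (XT.nd (nat_lit 624) (nat_lit 152) (nat_lit 0) (XT.nd (nat_lit 312) (nat_lit 76) (nat_lit 0) (XT.nd (nat_lit 156) (nat_lit 152) (nat_lit 0) (XT.nd (nat_lit 78) (nat_lit 0) (nat_lit 0) (XT.lf (nat_lit 0) (nat_lit 90746297099) (nat_lit 76) (nat_lit 66268843159) (nat_lit 76) (nat_lit 61875291758) (nat_lit 9) (nat_lit 4) (nat_lit 10) (nat_lit 5) (nat_lit 10) (nat_lit 4) (nat_lit 480) (nat_lit 390) (nat_lit 330)) (XT.lf (nat_lit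 0) (nat_lit 177533374624) (nat_lit 76) (nat_lit 30658269539) (nat_lit 76) (nat_lit 26261472000) (nat_lit 9) (nat_lit 4) (nat_lit 10) (nat_lit 5) (nat_lit 10) (nat_lit 4) (nat_lit 481) (nat_lit 390) (nat_lit 329))) (XT.nd (nat_lit 78) (nat_lit 0) (nat_lit 0) (XT.lf (nat_lit 0) (nat_lit 12203154002) (nat_lit 152) (nat_lit 231015659755) (nat_lit 0) (nat_lit 8012865220) (nat_lit 7) (nat_lit 5) (nat_lit 9) (nat_lit 4) (nat_lit 7) (nat_lit 4) (nat_lit 482) (nat_lit 390) (nat_lit 328)) (XT.lf (nat_lit 0) (nat_lit 54308662522) (nat_lit 152) (nat_lit 164832425993) (nat_lit 0) (nat_lit 50115723225) (nat_lit 7) (nat_lit 5) (nat_lit 9) (nat_lit 4) (nat_lit 7) (nat_lit 4) (nat_lit 483) (nat_lit 390) (nat_lit 327)))) (XT.nd (nat_lit 156) (nat_lit 76) (nat_lit 0) (XT.nd (nat_lit 78) (nat_lit 0) (nat_lit 0) (XT.lf (nat_lit 0) (nat_lit 99733326767) (nat_lit 152) (nat_lit 93455159354) (nat_lit 0) (nat_lit 95537933290)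 (nat_lit 7) (nat_lit 5) (nat_lit 9) (nat_lit 4) (nat_lit 7) (nat_lit 4) (nat_lit 484) (nat_lit 390) (nat_lit 326)) (XT.lf (nat_lit 0) (nat_lit 148746329934) (nat_lit 152) (nat_lit 16460883443) (nat_lit 0) (nat_lit 144548664068) (nat_lit 7) (nat_lit 5) (nat_lit 9) (nat_lit 4) (nat_lit 7) (nat_lit 4) (nat_lit 485) (nat_lit 390) (nat_lit 325))) (XT.nd (nat_lit 78) (nat_lit 0) (nat_lit 0) (XT.lf (nat_lit 0) (nat_lit 68808981234) (nat_lit 76) (nat_lit 133903439248) (nat_lit 76) (nat_lit 129703669319) (nat_lit 6) (nat_lit 4) (nat_lit 7) (nat_lit 5) (nat_lit 7) (nat_lit 4) (nat_lit 486) (nat_lit 390) (nat_lit 324)) (XT.lf (nat_lit 0) (nat_lit 161405726706) (nat_lit 76) (nat_lit 99836397164) (nat_lit 76) (nat_lit 95634679028) (nat_lit 6) (nat_lit 4) (nat_lit 7) (nat_lit 5) (nat_lit 7) (nat_lit 4) (nat_lit 487) (nat_lit 390) (nat_lit 323))))) (XT.nd (nat_lit 312) (nat_lit 0) (nat_lit 0) (XT.nd (nat_lit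 156) (nat_lit 152) (nat_lit 0) (XT.nd (nat_lit 78) (nat_lit 0) (nat_lit 0) (XT.lf (nat_lit 0) (nat_lit 261333803281) (nat_lit 76) (nat_lit 63082981384) (nat_lit 76) (nat_lit 58879459352) (nat_lit 6) (nat_lit 4) (nat_lit 7) (nat_lit 5) (nat_lit 7) (nat_lit 4) (nat_lit 488) (nat_lit 390) (nat_lit 322)) (XT.lf (nat_lit 0) (nat_lit 369185377338) (nat_lit 76) (nat_lit 23425393887) (nat_lit 76) (nat_lit 19220201582) (nat_lit 6) (nat_lit 4) (nat_lit 7) (nat_lit 5) (nat_lit 7) (nat_lit 4) (nat_lit 489) (nat_lit 390) (nat_lit 321))) (XT.nd (nat_lit 78) (nat_lit 0) (nat_lit 0) (XT.lf (nat_lit 0) (nat_lit 23829996619) (nat_lit 152) (nat_lit 398927776091) (nat_lit 0) (nat_lit 19823578661) (nat_lit 4) (nat_lit 5) (nat_lit 6) (nat_lit 4) (nat_lit 4) (nat_lit 4) (nat_lit 490) (nat_lit 390) (nat_lit 320)) (XT.lf (nat_lit 0) (nat_lit 70778169361) (nat_lit 152) (nat_lit 338171081969) (nat_lit 0) (nat_lit 66770387603)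 (nat_lit 4) (nat_lit 5) (nat_lit 6) (nat_lit 4) (nat_lit 4) (nat_lit 4) (nat_lit 491) (nat_lit 390) (nat_lit 319)))) (XT.nd (nat_lit 156) (nat_lit 0) (nat_lit 0) (XT.nd (nat_lit 78) (nat_lit 0) (nat_lit 0) (XT.lf (nat_lit 0) (nat_lit 121452850350) (nat_lit 152) (nat_lit 272613800635) (nat_lit 0) (nat_lit 117443805814) (nat_lit 4) (nat_lit 5) (nat_lit 6) (nat_lit 4) (nat_lit 4) (nat_lit 4) (nat_lit 492) (nat_lit 390) (nat_lit 318)) (XT.lf (nat_lit 0) (nat_lit 176154333993) (nat_lit 152) (nat_lit 201867444495) (nat_lit 0) (nat_lit 172144120218) (nat_lit 4) (nat_lit 5) (nat_lit 6) (nat_lit 4) (nat_lit 4) (nat_lit 4) (nat_lit 493) (nat_lit 390) (nat_lit 317))) (XT.nd (nat_lit 78) (nat_lit 0) (nat_lit 0) (XT.lf (nat_lit 0) (nat_lit 235206777229) (nat_lit 152) (nat_lit 125512775884) (nat_lit 0) (nat_lit 231195480825) (nat_lit 4) (nat_lit 5) (nat_lit 6) (nat_lit 4) (nat_lit 4) (nat_lit 4) (nat_lit 494)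 (nat_lit 390) (nat_lit 316)) (XT.lf (nat_lit 0) (nat_lit 298960120463) (nat_lit 152) (nat_lit 43097322691) (nat_lit 0) (nat_lit 294947821625) (nat_lit 4) (nat_lit 5) (nat_lit 6) (nat_lit 4) (nat_lit 4) (nat_lit 4) (nat_lit 495) (nat_lit 390) (nat_lit 315)))))) (XT.nd (nat_lit 624) (nat_lit 152) (nat_lit 0) (XT.nd (nat_lit 312) (nat_lit 0) (nat_lit 0) (XT.nd (nat_lit 156) (nat_lit 0) (nat_lit 0) (XT.nd (nat_lit 78) (nat_lit 0) (nat_lit 0) (XT.lf (nat_lit 0) (nat_lit 47383883131) (nat_lit 76) (nat_lit 321148073361) (nat_lit 76) (nat_lit 317134846344) (nat_lit 3) (nat_lit 4) (nat_lit 4) (nat_lit 5) (nat_lit 4) (nat_lit 4) (nat_lit 496) (nat_lit 390) (nat_lit 314)) (XT.lf (nat_lit 0) (nat_lit 146600428068) (nat_lit 76) (nat_lit 297799208729) (nat_lit 76) (nat_lit 293785122286) (nat_lit 3) (nat_lit 4) (nat_lit 4) (nat_lit 5) (nat_lit 4) (nat_lit 4) (nat_lit 497) (nat_lit 390) (nat_lit 313))) (XT.nd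 (nat_lit 78) (nat_lit 0) (nat_lit 0) (XT.lf (nat_lit 0) (nat_lit 253715269892) (nat_lit 76) (nat_lit 272602359628) (nat_lit 76) (nat_lit 268587477421) (nat_lit 3) (nat_lit 4) (nat_lit 4) (nat_lit 5) (nat_lit 4) (nat_lit 4) (nat_lit 498) (nat_lit 390) (nat_lit 312)) (XT.lf (nat_lit 0) (nat_lit 369363163222) (nat_lit 76) (nat_lit 245408211398) (nat_lit 76) (nat_lit 241392592372) (nat_lit 3) (nat_lit 4) (nat_lit 4) (nat_lit 5) (nat_lit 4) (nat_lit 4) (nat_lit 499) (nat_lit 390) (nat_lit 311)))) (XT.nd (nat_lit 156) (nat_lit 0) (nat_lit 0) (XT.nd (nat_lit 78) (nat_lit 0) (nat_lit 0) (XT.lf (nat_lit 0) (nat_lit 494229428908) (nat_lit 76) (nat_lit 216055613532) (nat_lit 76) (nat_lit 212039312266) (nat_lit 3) (nat_lit 4) (nat_lit 4) (nat_lit 5) (nat_lit 4) (nat_lit 4) (nat_lit 500) (nat_lit 390) (nat_lit 310)) (XT.lf (nat_lit 0) (nat_lit 629054015190) (nat_lit 76) (nat_lit 184370624707) (nat_lit 76)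 (nat_lit 180353691737) (nat_lit 3) (nat_lit 4) (nat_lit 4) (nat_lit 5) (nat_lit 4) (nat_lit 4) (nat_lit 501) (nat_lit 390) (nat_lit 309))) (XT.nd (nat_lit 78) (nat_lit 0) (nat_lit 0) (XT.lf (nat_lit 0) (nat_lit 774635882580) (nat_lit 76) (nat_lit 150165482027) (nat_lit 76) (nat_lit 146147964147) (nat_lit 3) (nat_lit 4) (nat_lit 4) (nat_lit 5) (nat_lit 4) (nat_lit 4) (nat_lit 502) (nat_lit 390) (nat_lit 308)) (XT.lf (nat_lit 0) (nat_lit 931837738440) (nat_lit 76) (nat_lit 113237488351) (nat_lit 76) (nat_lit 109219428888) (nat_lit 3) (nat_lit 4) (nat_lit 4) (nat_lit 5) (nat_lit 4) (nat_lit 4) (nat_lit 503) (nat_lit 390) (nat_lit 307))))) (XT.nd (nat_lit 55770) (nat_lit 0) (nat_lit 7752) (XT.nd (nat_lit 156) (nat_lit 152) (nat_lit 0) (XT.nd (nat_lit 78) (nat_lit 0) (nat_lit 0) (XT.lf (nat_lit 0) (nat_lit 1101591149323) (nat_lit 76) (nat_lit 73367811124) (nat_lit 76) (nat_lit 69349250194) (nat_lit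 3) (nat_lit 4) (nat_lit 4) (nat_lit 5) (nat_lit 4) (nat_lit 4) (nat_lit 504) (nat_lit 390) (nat_lit 306)) (XT.lf (nat_lit 0) (nat_lit 1284902061368) (nat_lit 76) (nat_lit 30320185591) (nat_lit 76) (nat_lit 26301160340) (nat_lit 3) (nat_lit 4) (nat_lit 4) (nat_lit 5) (nat_lit 4) (nat_lit 4) (nat_lit 505) (nat_lit 390) (nat_lit 305))) (XT.nd (nat_lit 78) (nat_lit 0) (nat_lit 0) (XT.lf (nat_lit 0) (nat_lit 20382111493) (nat_lit 152) (nat_lit 1409522009243) (nat_lit 0) (nat_lit 16554058943) (nat_lit 1) (nat_lit 5) (nat_lit 3) (nat_lit 4) (nat_lit 1) (nat_lit 4) (nat_lit 506) (nat_lit 390) (nat_lit 304)) (XT.lf (nat_lit 0) (nat_lit 71394433665) (nat_lit 152) (nat_lit 1420729947216) (nat_lit 0) (nat_lit 67566001990) (nat_lit 1) (nat_lit 5) (nat_lit 3) (nat_lit 4) (nat_lit 1) (nat_lit 4) (nat_lit 507) (nat_lit 390) (nat_lit 303)))) (XT.nd (nat_lit 156) (nat_lit 684) (nat_lit 0) (XT.nd (nat_lit 78) (nat_lit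 228) (nat_lit 0) (XT.lf (nat_lit 0) (nat_lit 942639880) (nat_lit 304) (nat_lit 2509936327) (nat_lit 0) (nat_lit 942639880) (nat_lit 115) (nat_lit 5) (nat_lit 119) (nat_lit 4) (nat_lit 115) (nat_lit 4) (nat_lit 418) (nat_lit 391) (nat_lit 391)) (XT.lf (nat_lit 0) (nat_lit 7407564725) (nat_lit 228) (nat_lit 1560657767) (nat_lit 228) (nat_lit 99471035) (nat_lit 112) (nat_lit 4) (nat_lit 115) (nat_lit 5) (nat_lit 115) (nat_lit 4) (nat_lit 419) (nat_lit 391) (nat_lit 390))) (XT.nd (nat_lit 78) (nat_lit 228) (nat_lit 0) (XT.lf (nat_lit 0) (nat_lit 1864133085) (nat_lit 228) (nat_lit 5090350327) (nat_lit 228) (nat_lit 2410219461) (nat_lit 106) (nat_lit 4) (nat_lit 109) (nat_lit 5) (nat_lit 109) (nat_lit 4) (nat_lit 420) (nat_lit 391) (nat_lit 389)) (XT.lf (nat_lit 0) (nat_lit 4653495981) (nat_lit 228) (nat_lit 4067079787) (nat_lit 0) (nat_lit 964725442) (nat_lit 103) (nat_lit 5) (nat_lit 106) (nat_lit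 4) (nat_lit 103) (nat_lit 4) (nat_lit 421) (nat_lit 391) (nat_lit 388))))))) (XT.nd (nat_lit 1248) (nat_lit 1824) (nat_lit 0) (XT.nd (nat_lit 624) (nat_lit 1292) (nat_lit 0) (XT.nd (nat_lit 312) (nat_lit 760) (nat_lit 0) (XT.nd (nat_lit 156) (nat_lit 608) (nat_lit 0) (XT.nd (nat_lit 78) (nat_lit 304) (nat_lit 0) (XT.lf (nat_lit 0) (nat_lit 2060014143) (nat_lit 304) (nat_lit 517838721) (nat_lit 76) (nat_lit 7451987093) (nat_lit 99) (nat_lit 5) (nat_lit 103) (nat_lit 5) (nat_lit 100) (nat_lit 4) (nat_lit 422) (nat_lit 391) (nat_lit 387)) (XT.lf (nat_lit 0) (nat_lit 3266697658) (nat_lit 152) (nat_lit 6286747402) (nat_lit 152) (nat_lit 843860002) (nat_lit 95) (nat_lit 4) (nat_lit 97) (nat_lit 5) (nat_lit 97) (nat_lit 4) (nat_lit 423) (nat_lit 391) (nat_lit 386))) (XT.nd (nat_lit 78) (nat_lit 380) (nat_lit 0) (XT.lf (nat_lit 0) (nat_lit 6601030855) (nat_lit 228) (nat_lit 3590208487) (nat_lit 0) (nat_lit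 599184576) (nat_lit 92) (nat_lit 5) (nat_lit 95) (nat_lit 4) (nat_lit 92) (nat_lit 4) (nat_lit 424) (nat_lit 391) (nat_lit 385)) (XT.lf (nat_lit 0) (nat_lit 47991749) (nat_lit 152) (nat_lit 3272680817) (nat_lit 228) (nat_lit 7889399188) (nat_lit 87) (nat_lit 5) (nat_lit 89) (nat_lit 5) (nat_lit 90) (nat_lit 4) (nat_lit 425) (nat_lit 391) (nat_lit 384)))) (XT.nd (nat_lit 156) (nat_lit 456) (nat_lit 0) (XT.nd (nat_lit 78) (nat_lit 152) (nat_lit 0) (XT.lf (nat_lit 0) (nat_lit 3946810417) (nat_lit 152) (nat_lit 7407557490) (nat_lit 152) (nat_lit 302020710) (nat_lit 85) (nat_lit 4) (nat_lit 87) (nat_lit 5) (nat_lit 87) (nat_lit 4) (nat_lit 426) (nat_lit 391) (nat_lit 383)) (XT.lf (nat_lit 0) (nat_lit 7652888197) (nat_lit 152) (nat_lit 4182091441) (nat_lit 0) (nat_lit 296622711) (nat_lit 83) (nat_lit 5) (nat_lit 85) (nat_lit 4) (nat_lit 83) (nat_lit 4) (nat_lit 427) (nat_lit 391) (nat_lit 382))) (XT.nd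 (nat_lit 78) (nat_lit 228) (nat_lit 0) (XT.lf (nat_lit 0) (nat_lit 3571072077) (nat_lit 228) (nat_lit 581019210) (nat_lit 76) (nat_lit 8484855251) (nat_lit 80) (nat_lit 5) (nat_lit 83) (nat_lit 5) (nat_lit 81) (nat_lit 4) (nat_lit 428) (nat_lit 391) (nat_lit 381)) (XT.lf (nat_lit 0) (nat_lit 3246954017) (nat_lit 152) (nat_lit 8966630464) (nat_lit 152) (nat_lit 960187952) (nat_lit 77) (nat_lit 4) (nat_lit 79) (nat_lit 5) (nat_lit 79) (nat_lit 4) (nat_lit 429) (nat_lit 391) (nat_lit 380))))) (XT.nd (nat_lit 312) (nat_lit 532) (nat_lit 0) (XT.nd (nat_lit 156) (nat_lit 380) (nat_lit 0) (XT.nd (nat_lit 78) (nat_lit 228) (nat_lit 0) (XT.lf (nat_lit 0) (nat_lit 7177258695) (nat_lit 76) (nat_lit 446677656) (nat_lit 152) (nat_lit 6119558951) (nat_lit 75) (nat_lit 5) (nat_lit 76) (nat_lit 5) (nat_lit 77) (nat_lit 4) (nat_lit 430) (nat_lit 391) (nat_lit 379)) (XT.lf (nat_lit 0) (nat_lit 2578219455) (nat_lit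 228) (nat_lit 3156734779) (nat_lit 76) (nat_lit 8613347206) (nat_lit 72) (nat_lit 5) (nat_lit 75) (nat_lit 5) (nat_lit 73) (nat_lit 4) (nat_lit 431) (nat_lit 391) (nat_lit 378))) (XT.nd (nat_lit 78) (nat_lit 152) (nat_lit 0) (XT.lf (nat_lit 0) (nat_lit 342695623) (nat_lit 152) (nat_lit 11517529531) (nat_lit 152) (nat_lit 3131116433) (nat_lit 69) (nat_lit 4) (nat_lit 71) (nat_lit 5) (nat_lit 71) (nat_lit 4) (nat_lit 432) (nat_lit 391) (nat_lit 377)) (XT.lf (nat_lit 0) (nat_lit 4000886336) (nat_lit 76) (nat_lit 2198127149) (nat_lit 152) (nat_lit 9472054759) (nat_lit 67) (nat_lit 5) (nat_lit 68) (nat_lit 5) (nat_lit 69) (nat_lit 4) (nat_lit 433) (nat_lit 391) (nat_lit 376)))) (XT.nd (nat_lit 156) (nat_lit 304) (nat_lit 0) (XT.nd (nat_lit 78) (nat_lit 152) (nat_lit 0) (XT.lf (nat_lit 0) (nat_lit 7734755303) (nat_lit 76) (nat_lit 8616909202) (nat_lit 76) (nat_lit 41656270) (nat_lit 66) (nat_lit 4)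 (nat_lit 67) (nat_lit 5) (nat_lit 67) (nat_lit 4) (nat_lit 434) (nat_lit 391) (nat_lit 375)) (XT.lf (nat_lit 0) (nat_lit 9957995577) (nat_lit 152) (nat_lit 5658752088) (nat_lit 0) (nat_lit 1541718518) (nat_lit 64) (nat_lit 5) (nat_lit 66) (nat_lit 4) (nat_lit 64) (nat_lit 4) (nat_lit 435) (nat_lit 391) (nat_lit 374))) (XT.nd (nat_lit 78) (nat_lit 152) (nat_lit 0) (XT.lf (nat_lit 0) (nat_lit 2926035721) (nat_lit 152) (nat_lit 2648801519) (nat_lit 76) (nat_lit 12395623774) (nat_lit 62) (nat_lit 5) (nat_lit 64) (nat_lit 5) (nat_lit 63) (nat_lit 4) (nat_lit 436) (nat_lit 391) (nat_lit 373)) (XT.lf (nat_lit 0) (nat_lit 363672422) (nat_lit 76) (nat_lit 13453267523) (nat_lit 76) (nat_lit 5014249518) (nat_lit 60) (nat_lit 4) (nat_lit 61) (nat_lit 5) (nat_lit 61) (nat_lit 4) (nat_lit 437) (nat_lit 391) (nat_lit 372)))))) (XT.nd (nat_lit 624) (nat_lit 836) (nat_lit 0) (XT.nd (nat_lit 312) (nat_lit 532)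 (nat_lit 0) (XT.nd (nat_lit 156) (nat_lit 228) (nat_lit 0) (XT.nd (nat_lit 78) (nat_lit 76) (nat_lit 0) (XT.lf (nat_lit 0) (nat_lit 3467157154) (nat_lit 76) (nat_lit 2432699509) (nat_lit 152) (nat_lit 13842993514) (nat_lit 58) (nat_lit 5) (nat_lit 59) (nat_lit 5) (nat_lit 60) (nat_lit 4) (nat_lit 438) (nat_lit 391) (nat_lit 371)) (XT.lf (nat_lit 0) (nat_lit 6517876610) (nat_lit 76) (nat_lit 11286879655) (nat_lit 76) (nat_lit 2903913226) (nat_lit 57) (nat_lit 4) (nat_lit 58) (nat_lit 5) (nat_lit 58) (nat_lit 4) (nat_lit 439) (nat_lit 391) (nat_lit 370))) (XT.nd (nat_lit 78) (nat_lit 76) (nat_lit 0) (XT.lf (nat_lit 0) (nat_lit 8837674144) (nat_lit 152) (nat_lit 12189209707) (nat_lit 0) (nat_lit 707288931) (nat_lit 55) (nat_lit 5) (nat_lit 57) (nat_lit 4) (nat_lit 55) (nat_lit 4) (nat_lit 440) (nat_lit 391) (nat_lit 369)) (XT.lf (nat_lit 0) (nat_lit 12484831871) (nat_lit 76) (nat_lit 9301092880)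 (nat_lit 76) (nat_lit 1034959831) (nat_lit 54) (nat_lit 4) (nat_lit 55) (nat_lit 5) (nat_lit 55) (nat_lit 4) (nat_lit 441) (nat_lit 391) (nat_lit 368)))) (XT.nd (nat_lit 156) (nat_lit 228) (nat_lit 0) (XT.nd (nat_lit 78) (nat_lit 152) (nat_lit 0) (XT.lf (nat_lit 0) (nat_lit 11652537729) (nat_lit 152) (nat_lit 8659785926) (nat_lit 0) (nat_lit 3660322978) (nat_lit 52) (nat_lit 5) (nat_lit 54) (nat_lit 4) (nat_lit 52) (nat_lit 4) (nat_lit 442) (nat_lit 391) (nat_lit 367)) (XT.lf (nat_lit 0) (nat_lit 475269025) (nat_lit 152) (nat_lit 7128753142) (nat_lit 76) (nat_lit 17592825741) (nat_lit 50) (nat_lit 5) (nat_lit 52) (nat_lit 5) (nat_lit 51) (nat_lit 4) (nat_lit 443) (nat_lit 391) (nat_lit 366))) (XT.nd (nat_lit 78) (nat_lit 152) (nat_lit 0) (XT.lf (nat_lit 0) (nat_lit 14202107936) (nat_lit 152) (nat_lit 5902636538) (nat_lit 0) (nat_lit 6387170625) (nat_lit 49) (nat_lit 5) (nat_lit 51) (nat_lit 4)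 (nat_lit 49) (nat_lit 4) (nat_lit 444) (nat_lit 391) (nat_lit 365)) (XT.lf (nat_lit 0) (nat_lit 1481793438) (nat_lit 152) (nat_lit 4867762994) (nat_lit 76) (nat_lit 21521062346) (nat_lit 47) (nat_lit 5) (nat_lit 49) (nat_lit 5) (nat_lit 48) (nat_lit 4) (nat_lit 445) (nat_lit 391) (nat_lit 364))))) (XT.nd (nat_lit 312) (nat_lit 380) (nat_lit 0) (XT.nd (nat_lit 156) (nat_lit 228) (nat_lit 0) (XT.nd (nat_lit 78) (nat_lit 152) (nat_lit 0) (XT.lf (nat_lit 0) (nat_lit 16337660378) (nat_lit 152) (nat_lit 4262368060) (nat_lit 0) (nat_lit 8728862371) (nat_lit 46) (nat_lit 5) (nat_lit 48) (nat_lit 4) (nat_lit 46) (nat_lit 4) (nat_lit 446) (nat_lit 391) (nat_lit 363)) (XT.lf (nat_lit 0) (nat_lit 1826915204) (nat_lit 152) (nat_lit 3937518101) (nat_lit 76) (nat_lit 25118435857) (nat_lit 44) (nat_lit 5) (nat_lit 46) (nat_lit 5) (nat_lit 45) (nat_lit 4) (nat_lit 447) (nat_lit 391) (nat_lit 362))) (XT.nd (nat_lit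 78) (nat_lit 152) (nat_lit 0) (XT.lf (nat_lit 0) (nat_lit 17852429802) (nat_lit 152) (nat_lit 4203821321) (nat_lit 0) (nat_lit 10470413862) (nat_lit 43) (nat_lit 5) (nat_lit 45) (nat_lit 4) (nat_lit 43) (nat_lit 4) (nat_lit 448) (nat_lit 391) (nat_lit 361)) (XT.lf (nat_lit 0) (nat_lit 1251746998) (nat_lit 152) (nat_lit 4876271865) (nat_lit 76) (nat_lit 28152217367) (nat_lit 41) (nat_lit 5) (nat_lit 43) (nat_lit 5) (nat_lit 42) (nat_lit 4) (nat_lit 449) (nat_lit 391) (nat_lit 360)))) (XT.nd (nat_lit 156) (nat_lit 228) (nat_lit 0) (XT.nd (nat_lit 78) (nat_lit 76) (nat_lit 0) (XT.lf (nat_lit 0) (nat_lit 18463773302) (nat_lit 152) (nat_lit 6349378345) (nat_lit 0) (nat_lit 11322610390) (nat_lit 40) (nat_lit 5) (nat_lit 42) (nat_lit 4) (nat_lit 40) (nat_lit 4) (nat_lit 450) (nat_lit 391) (nat_lit 359)) (XT.lf (nat_lit 0) (nat_lit 29705143173) (nat_lit 76) (nat_lit 7801169549) (nat_lit 76) (nat_lit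 610740460) (nat_lit 39) (nat_lit 4) (nat_lit 40) (nat_lit 5) (nat_lit 40) (nat_lit 4) (nat_lit 451) (nat_lit 391) (nat_lit 358))) (XT.nd (nat_lit 78) (nat_lit 76) (nat_lit 0) (XT.lf (nat_lit 0) (nat_lit 17789973190) (nat_lit 152) (nat_lit 11527228353) (nat_lit 0) (nat_lit 10898500886) (nat_lit 37) (nat_lit 5) (nat_lit 39) (nat_lit 4) (nat_lit 37) (nat_lit 4) (nat_lit 452) (nat_lit 391) (nat_lit 357)) (XT.lf (nat_lit 0) (nat_lit 26919786582) (nat_lit 76) (nat_lit 11234016528) (nat_lit 76) (nat_lit 4302317743) (nat_lit 36) (nat_lit 4) (nat_lit 37) (nat_lit 5) (nat_lit 37) (nat_lit 4) (nat_lit 453) (nat_lit 391) (nat_lit 356))))))))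
noncomputable def xc32 : XT := (XT.nd (nat_lit 2418) (nat_lit 456) (nat_lit 0) (XT.nd (nat_lit 1170) (nat_lit 836) (nat_lit 0) (XT.nd (nat_lit 546) (nat_lit 684) (nat_lit 0) (XT.nd (nat_lit 234) (nat_lit 304) (nat_lit 0) (XT.nd (nat_lit 78) (nat_lit 228) (nat_lit 0) (XT.lf (nat_lit 0) (nat_lit 15320133643) (nat_lit 152) (nat_lit 20833779244) (nat_lit 0) (nat_lit 8683042664) (nat_lit 34) (nat_lit 5) (nat_lit 36) (nat_lit 4) (nat_lit 34) (nat_lit 4) (nat_lit 454) (nat_lit 391) (nat_lit 355)) (XT.nd (nat_lit 78) (nat_lit 152) (nat_lit 0) (XT.lf (nat_lit 0) (nat_lit 19876276997) (nat_lit 76) (nat_lit 17084223956) (nat_lit 76) (nat_lit 10414287526) (nat_lit 33) (nat_lit 4) (nat_lit 34) (nat_lit 5) (nat_lit 34) (nat_lit 4) (nat_lit 455) (nat_lit 391) (nat_lit 354)) (XT.lf (nat_lit 0) (nat_lit 10375178335) (nat_lit 152) (nat_lit 35714315191) (nat_lit 0) (nat_lit 3993893682) (nat_lit 31) (nat_lit 5)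 (nat_lit 33) (nat_lit 4) (nat_lit 31) (nat_lit 4) (nat_lit 456) (nat_lit 391) (nat_lit 353)))) (XT.nd (nat_lit 156) (nat_lit 152) (nat_lit 0) (XT.nd (nat_lit 78) (nat_lit 76) (nat_lit 0) (XT.lf (nat_lit 0) (nat_lit 6995738841) (nat_lit 76) (nat_lit 26188225549) (nat_lit 76) (nat_lit 19780122151) (nat_lit 30) (nat_lit 4) (nat_lit 31) (nat_lit 5) (nat_lit 31) (nat_lit 4) (nat_lit 457) (nat_lit 391) (nat_lit 352)) (XT.lf (nat_lit 0) (nat_lit 2155500681) (nat_lit 152) (nat_lit 2014159171) (nat_lit 76) (nat_lit 51880769782) (nat_lit 29) (nat_lit 5) (nat_lit 31) (nat_lit 5) (nat_lit 30) (nat_lit 4) (nat_lit 458) (nat_lit 391) (nat_lit 351))) (XT.nd (nat_lit 78) (nat_lit 76) (nat_lit 0) (XT.lf (nat_lit 0) (nat_lit 26054987855) (nat_lit 152) (nat_lit 13360894092) (nat_lit 0) (nat_lit 19906484695) (nat_lit 28) (nat_lit 5) (nat_lit 30) (nat_lit 4) (nat_lit 28) (nat_lit 4) (nat_lit 459) (nat_lit 391) (nat_lit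 350)) (XT.lf (nat_lit 0) (nat_lit 35769031882) (nat_lit 76) (nat_lit 16614963964) (nat_lit 76) (nat_lit 10446185011) (nat_lit 27) (nat_lit 4) (nat_lit 28) (nat_lit 5) (nat_lit 28) (nat_lit 4) (nat_lit 460) (nat_lit 391) (nat_lit 349))))) (XT.nd (nat_lit 312) (nat_lit 304) (nat_lit 0) (XT.nd (nat_lit 156) (nat_lit 152) (nat_lit 0) (XT.nd (nat_lit 78) (nat_lit 76) (nat_lit 0) (XT.lf (nat_lit 0) (nat_lit 14333975819) (nat_lit 152) (nat_lit 43803101555) (nat_lit 0) (nat_lit 8441068355) (nat_lit 25) (nat_lit 5) (nat_lit 27) (nat_lit 4) (nat_lit 25) (nat_lit 4) (nat_lit 461) (nat_lit 391) (nat_lit 348)) (XT.lf (nat_lit 0) (nat_lit 6422091365) (nat_lit 76) (nat_lit 35034234590) (nat_lit 76) (nat_lit 29124771673) (nat_lit 24) (nat_lit 4) (nat_lit 25) (nat_lit 5) (nat_lit 25) (nat_lit 4) (nat_lit 462) (nat_lit 391) (nat_lit 347))) (XT.nd (nat_lit 78) (nat_lit 152) (nat_lit 0) (XT.lf (nat_lit 0) (nat_lit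 61960202294) (nat_lit 76) (nat_lit 9418677448) (nat_lit 76) (nat_lit 3493885409) (nat_lit 24) (nat_lit 4) (nat_lit 25) (nat_lit 5) (nat_lit 25) (nat_lit 4) (nat_lit 463) (nat_lit 391) (nat_lit 346)) (XT.lf (nat_lit 0) (nat_lit 24262866703) (nat_lit 152) (nat_lit 36576850760) (nat_lit 0) (nat_lit 18606689874) (nat_lit 22) (nat_lit 5) (nat_lit 24) (nat_lit 4) (nat_lit 22) (nat_lit 4) (nat_lit 464) (nat_lit 391) (nat_lit 345)))) (XT.nd (nat_lit 156) (nat_lit 228) (nat_lit 0) (XT.nd (nat_lit 78) (nat_lit 0) (nat_lit 0) (XT.lf (nat_lit 0) (nat_lit 19352126304) (nat_lit 76) (nat_lit 35335573376) (nat_lit 76) (nat_lit 29666880116) (nat_lit 21) (nat_lit 4) (nat_lit 22) (nat_lit 5) (nat_lit 22) (nat_lit 4) (nat_lit 465) (nat_lit 391) (nat_lit 344)) (XT.lf (nat_lit 0) (nat_lit 80825781288) (nat_lit 76) (nat_lit 7241924099) (nat_lit 76) (nat_lit 1561641551) (nat_lit 21) (nat_lit 4) (nat_lit 22) (nat_lit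 5) (nat_lit 22) (nat_lit 4) (nat_lit 466) (nat_lit 391) (nat_lit 343))) (XT.nd (nat_lit 78) (nat_lit 76) (nat_lit 0) (XT.lf (nat_lit 0) (nat_lit 28967282082) (nat_lit 152) (nat_lit 42734228475) (nat_lit 0) (nat_lit 23547269349) (nat_lit 19) (nat_lit 5) (nat_lit 21) (nat_lit 4) (nat_lit 19) (nat_lit 4) (nat_lit 467) (nat_lit 391) (nat_lit 342)) (XT.lf (nat_lit 0) (nat_lit 17950129700) (nat_lit 76) (nat_lit 44386593830) (nat_lit 76) (nat_lit 38957118291) (nat_lit 18) (nat_lit 4) (nat_lit 19) (nat_lit 5) (nat_lit 19) (nat_lit 4) (nat_lit 468) (nat_lit 391) (nat_lit 341)))))) (XT.nd (nat_lit 624) (nat_lit 380) (nat_lit 0) (XT.nd (nat_lit 312) (nat_lit 228) (nat_lit 0) (XT.nd (nat_lit 156) (nat_lit 76) (nat_lit 0) (XT.nd (nat_lit 78) (nat_lit 152) (nat_lit 0) (XT.lf (nat_lit 0) (nat_lit 84808822409) (nat_lit 76) (nat_lit 14209887180) (nat_lit 76) (nat_lit 8771649784) (nat_lit 18) (nat_lit 4) (nat_lit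 19) (nat_lit 5) (nat_lit 19) (nat_lit 4) (nat_lit 469) (nat_lit 391) (nat_lit 340)) (XT.lf (nat_lit 0) (nat_lit 23944759863) (nat_lit 152) (nat_lit 72041538869) (nat_lit 0) (nat_lit 18757759647) (nat_lit 16) (nat_lit 5) (nat_lit 18) (nat_lit 4) (nat_lit 16) (nat_lit 4) (nat_lit 470) (nat_lit 391) (nat_lit 339))) (XT.nd (nat_lit 78) (nat_lit 76) (nat_lit 0) (XT.lf (nat_lit 0) (nat_lit 59529016137) (nat_lit 152) (nat_lit 8355093172) (nat_lit 0) (nat_lit 54334861750) (nat_lit 16) (nat_lit 5) (nat_lit 18) (nat_lit 4) (nat_lit 16) (nat_lit 4) (nat_lit 471) (nat_lit 391) (nat_lit 338)) (XT.lf (nat_lit 0) (nat_lit 62243498434) (nat_lit 76) (nat_lit 36602430623) (nat_lit 76) (nat_lit 31401652002) (nat_lit 15) (nat_lit 4) (nat_lit 16) (nat_lit 5) (nat_lit 16) (nat_lit 4) (nat_lit 472) (nat_lit 391) (nat_lit 337)))) (XT.nd (nat_lit 156) (nat_lit 76) (nat_lit 0) (XT.nd (nat_lit 78) (nat_lit 76) (nat_lit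 0) (XT.lf (nat_lit 0) (nat_lit 2377678444) (nat_lit 152) (nat_lit 332671358) (nat_lit 76) (nat_lit 136203042192) (nat_lit 14) (nat_lit 5) (nat_lit 16) (nat_lit 5) (nat_lit 15) (nat_lit 4) (nat_lit 473) (nat_lit 391) (nat_lit 336)) (XT.lf (nat_lit 0) (nat_lit 39414603754) (nat_lit 152) (nat_lit 74299123602) (nat_lit 0) (nat_lit 34450231010) (nat_lit 13) (nat_lit 5) (nat_lit 15) (nat_lit 4) (nat_lit 13) (nat_lit 4) (nat_lit 474) (nat_lit 391) (nat_lit 335))) (XT.nd (nat_lit 78) (nat_lit 76) (nat_lit 0) (XT.lf (nat_lit 0) (nat_lit 79390955864) (nat_lit 152) (nat_lit 4343215635) (nat_lit 0) (nat_lit 74421574995) (nat_lit 13) (nat_lit 5) (nat_lit 15) (nat_lit 4) (nat_lit 13) (nat_lit 4) (nat_lit 475) (nat_lit 391) (nat_lit 334)) (XT.lf (nat_lit 0) (nat_lit 73417157843) (nat_lit 76) (nat_lit 50224951629) (nat_lit 76) (nat_lit 45250933610) (nat_lit 12) (nat_lit 4) (nat_lit 13) (nat_lit 5) (nat_lit 13)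 (nat_lit 4) (nat_lit 476) (nat_lit 391) (nat_lit 333))))) (XT.nd (nat_lit 312) (nat_lit 152) (nat_lit 0) (XT.nd (nat_lit 156) (nat_lit 76) (nat_lit 0) (XT.nd (nat_lit 78) (nat_lit 152) (nat_lit 0) (XT.lf (nat_lit 0) (nat_lit 157417804447) (nat_lit 76) (nat_lit 14024686950) (nat_lit 76) (nat_lit 9046375272) (nat_lit 12) (nat_lit 4) (nat_lit 13) (nat_lit 5) (nat_lit 13) (nat_lit 4) (nat_lit 477) (nat_lit 391) (nat_lit 332)) (XT.lf (nat_lit 0) (nat_lit 30322048450) (nat_lit 152) (nat_lit 137028361334) (nat_lit 0) (nat_lit 25577012937) (nat_lit 10) (nat_lit 5) (nat_lit 12) (nat_lit 4) (nat_lit 10) (nat_lit 4) (nat_lit 478) (nat_lit 391) (nat_lit 331))) (XT.nd (nat_lit 78) (nat_lit 76) (nat_lit 0) (XT.lf (nat_lit 0) (nat_lit 73111351631) (nat_lit 152) (nat_lit 64850069011) (nat_lit 0) (nat_lit 68362810289) (nat_lit 10) (nat_lit 5) (nat_lit 12) (nat_lit 4) (nat_lit 10) (nat_lit 4) (nat_lit 479) (nat_lit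 391) (nat_lit 330)) (XT.lf (nat_lit 0) (nat_lit 13416962854) (nat_lit 76) (nat_lit 106059975751) (nat_lit 76) (nat_lit 101308188271) (nat_lit 9) (nat_lit 4) (nat_lit 10) (nat_lit 5) (nat_lit 10) (nat_lit 4) (nat_lit 480) (nat_lit 391) (nat_lit 329)))) (XT.nd (nat_lit 156) (nat_lit 152) (nat_lit 0) (XT.nd (nat_lit 78) (nat_lit 0) (nat_lit 0) (XT.lf (nat_lit 0) (nat_lit 100151177476) (nat_lit 76) (nat_lit 70476360968) (nat_lit 76) (nat_lit 65721567806) (nat_lit 9) (nat_lit 4) (nat_lit 10) (nat_lit 5) (nat_lit 10) (nat_lit 4) (nat_lit 481) (nat_lit 391) (nat_lit 328)) (XT.lf (nat_lit 0) (nat_lit 193722319232) (nat_lit 76) (nat_lit 32097977729) (nat_lit 76) (nat_lit 27340401526) (nat_lit 9) (nat_lit 4) (nat_lit 10) (nat_lit 5) (nat_lit 10) (nat_lit 4) (nat_lit 482) (nat_lit 391) (nat_lit 327))) (XT.nd (nat_lit 78) (nat_lit 0) (nat_lit 0) (XT.lf (nat_lit 0) (nat_lit 14140936848) (nat_lit 152) (nat_lit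 247533741408) (nat_lit 0) (nat_lit 9607457714) (nat_lit 7) (nat_lit 5) (nat_lit 9) (nat_lit 4) (nat_lit 7) (nat_lit 4) (nat_lit 483) (nat_lit 391) (nat_lit 326)) (XT.lf (nat_lit 0) (nat_lit 59543661566) (nat_lit 152) (nat_lit 176201269028) (nat_lit 0) (nat_lit 55007910042) (nat_lit 7) (nat_lit 5) (nat_lit 9) (nat_lit 4) (nat_lit 7) (nat_lit 4) (nat_lit 484) (nat_lit 391) (nat_lit 325))))))) (XT.nd (nat_lit 1248) (nat_lit 152) (nat_lit 0) (XT.nd (nat_lit 624) (nat_lit 76) (nat_lit 0) (XT.nd (nat_lit 312) (nat_lit 152) (nat_lit 0) (XT.nd (nat_lit 156) (nat_lit 76) (nat_lit 0) (XT.nd (nat_lit 78) (nat_lit 0) (nat_lit 0) (XT.lf (nat_lit 0) (nat_lit 108536350355) (nat_lit 152) (nat_lit 99248469284) (nat_lit 0) (nat_lit 103998494768) (nat_lit 7) (nat_lit 5) (nat_lit 9) (nat_lit 4) (nat_lit 7) (nat_lit 4) (nat_lit 485) (nat_lit 391) (nat_lit 324)) (XT.lf (nat_lit 0) (nat_lit 161409330261) (nat_lit 152)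 (nat_lit 16219325583) (nat_lit 0) (nat_lit 156869526466) (nat_lit 7) (nat_lit 5) (nat_lit 9) (nat_lit 4) (nat_lit 7) (nat_lit 4) (nat_lit 486) (nat_lit 391) (nat_lit 323))) (XT.nd (nat_lit 78) (nat_lit 0) (nat_lit 0) (XT.lf (nat_lit 0) (nat_lit 75804400863) (nat_lit 76) (nat_lit 143855040921) (nat_lit 76) (nat_lit 139313433231) (nat_lit 6) (nat_lit 4) (nat_lit 7) (nat_lit 5) (nat_lit 7) (nat_lit 4) (nat_lit 487) (nat_lit 391) (nat_lit 322)) (XT.lf (nat_lit 0) (nat_lit 175698463667) (nat_lit 76) (nat_lit 107118981653) (nat_lit 76) (nat_lit 102575703689) (nat_lit 6) (nat_lit 4) (nat_lit 7) (nat_lit 5) (nat_lit 7) (nat_lit 4) (nat_lit 488) (nat_lit 391) (nat_lit 321)))) (XT.nd (nat_lit 156) (nat_lit 152) (nat_lit 0) (XT.nd (nat_lit 78) (nat_lit 0) (nat_lit 0) (XT.lf (nat_lit 0) (nat_lit 283518543492) (nat_lit 76) (nat_lit 67477465001) (nat_lit 76) (nat_lit 62932640488) (nat_lit 6) (nat_lit 4) (nat_lit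 7) (nat_lit 5) (nat_lit 7) (nat_lit 4) (nat_lit 489) (nat_lit 391) (nat_lit 320)) (XT.lf (nat_lit 0) (nat_lit 399903574144) (nat_lit 76) (nat_lit 24695578275) (nat_lit 76) (nat_lit 20149321771) (nat_lit 6) (nat_lit 4) (nat_lit 7) (nat_lit 5) (nat_lit 7) (nat_lit 4) (nat_lit 490) (nat_lit 391) (nat_lit 319))) (XT.nd (nat_lit 78) (nat_lit 0) (nat_lit 0) (XT.lf (nat_lit 0) (nat_lit 26308917171) (nat_lit 152) (nat_lit 429672429562) (nat_lit 0) (nat_lit 21977886294) (nat_lit 4) (nat_lit 5) (nat_lit 6) (nat_lit 4) (nat_lit 4) (nat_lit 4) (nat_lit 491) (nat_lit 391) (nat_lit 318)) (XT.lf (nat_lit 0) (nat_lit 76970534783) (nat_lit 152) (nat_lit 364141834623) (nat_lit 0) (nat_lit 72638334667) (nat_lit 4) (nat_lit 5) (nat_lit 6) (nat_lit 4) (nat_lit 4) (nat_lit 4) (nat_lit 492) (nat_lit 391) (nat_lit 317))))) (XT.nd (nat_lit 312) (nat_lit 76) (nat_lit 0) (XT.nd (nat_lit 156) (nat_lit 0) (nat_lit 0) (XT.nd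 (nat_lit 78) (nat_lit 0) (nat_lit 0) (XT.lf (nat_lit 0) (nat_lit 131659922705) (nat_lit 152) (nat_lit 293420188108) (nat_lit 0) (nat_lit 127326639961) (nat_lit 4) (nat_lit 5) (nat_lit 6) (nat_lit 4) (nat_lit 4) (nat_lit 4) (nat_lit 493) (nat_lit 391) (nat_lit 316)) (XT.lf (nat_lit 0) (nat_lit 190701166201) (nat_lit 152) (nat_lit 217088398780) (nat_lit 0) (nat_lit 186366881022) (nat_lit 4) (nat_lit 5) (nat_lit 6) (nat_lit 4) (nat_lit 4) (nat_lit 4) (nat_lit 494) (nat_lit 391) (nat_lit 315))) (XT.nd (nat_lit 78) (nat_lit 0) (nat_lit 0) (XT.lf (nat_lit 0) (nat_lit 254444139304) (nat_lit 152) (nat_lit 134694130107) (nat_lit 0) (nat_lit 250108925946) (nat_lit 4) (nat_lit 5) (nat_lit 6) (nat_lit 4) (nat_lit 4) (nat_lit 4) (nat_lit 495) (nat_lit 391) (nat_lit 314)) (XT.lf (nat_lit 0) (nat_lit 323266578152) (nat_lit 152) (nat_lit 45749119759) (nat_lit 0) (nat_lit 318930505368) (nat_lit 4) (nat_lit 5)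 (nat_lit 6) (nat_lit 4) (nat_lit 4) (nat_lit 4) (nat_lit 496) (nat_lit 391) (nat_lit 313)))) (XT.nd (nat_lit 156) (nat_lit 0) (nat_lit 0) (XT.nd (nat_lit 78) (nat_lit 0) (nat_lit 0) (XT.lf (nat_lit 0) (nat_lit 51935989828) (nat_lit 76) (nat_lit 346451195943) (nat_lit 76) (nat_lit 342114327395) (nat_lit 3) (nat_lit 4) (nat_lit 4) (nat_lit 5) (nat_lit 4) (nat_lit 4) (nat_lit 497) (nat_lit 391) (nat_lit 312)) (XT.lf (nat_lit 0) (nat_lit 159033458653) (nat_lit 76) (nat_lit 321263216457) (nat_lit 76) (nat_lit 316925611090) (nat_lit 3) (nat_lit 4) (nat_lit 4) (nat_lit 5) (nat_lit 4) (nat_lit 4) (nat_lit 498) (nat_lit 391) (nat_lit 311))) (XT.nd (nat_lit 78) (nat_lit 0) (nat_lit 0) (XT.lf (nat_lit 0) (nat_lit 274665265872) (nat_lit 76) (nat_lit 294077280834) (nat_lit 76) (nat_lit 289738993227) (nat_lit 3) (nat_lit 4) (nat_lit 4) (nat_lit 5) (nat_lit 4) (nat_lit 4) (nat_lit 499) (nat_lit 391) (nat_lit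 310)) (XT.lf (nat_lit 0) (nat_lit 399516637010) (nat_lit 76) (nat_lit 264732287232) (nat_lit 76) (nat_lit 260393367922) (nat_lit 3) (nat_lit 4) (nat_lit 4) (nat_lit 5) (nat_lit 4) (nat_lit 4) (nat_lit 500) (nat_lit 391) (nat_lit 309)))))) (XT.nd (nat_lit 55926) (nat_lit 0) (nat_lit 6916) (XT.nd (nat_lit 312) (nat_lit 152) (nat_lit 0) (XT.nd (nat_lit 156) (nat_lit 0) (nat_lit 0) (XT.nd (nat_lit 78) (nat_lit 0) (nat_lit 0) (XT.lf (nat_lit 0) (nat_lit 534327432045) (nat_lit 76) (nat_lit 233054339394) (nat_lit 76) (nat_lit 228714835173) (nat_lit 3) (nat_lit 4) (nat_lit 4) (nat_lit 5) (nat_lit 4) (nat_lit 4) (nat_lit 501) (nat_lit 391) (nat_lit 308)) (XT.lf (nat_lit 0) (nat_lit 679896529761) (nat_lit 76) (nat_lit 198855716146) (nat_lit 76) (nat_lit 194515670341) (nat_lit 3) (nat_lit 4) (nat_lit 4) (nat_lit 5) (nat_lit 4) (nat_lit 4) (nat_lit 502) (nat_lit 391) (nat_lit 307))) (XT.nd (nat_lit 78) (nat_lit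 0) (nat_lit 0) (XT.lf (nat_lit 0) (nat_lit 837086561849) (nat_lit 76) (nat_lit 161933758981) (nat_lit 76) (nat_lit 157593211709) (nat_lit 3) (nat_lit 4) (nat_lit 4) (nat_lit 5) (nat_lit 4) (nat_lit 4) (nat_lit 503) (nat_lit 391) (nat_lit 306)) (XT.lf (nat_lit 0) (nat_lit 1006829024795) (nat_lit 76) (nat_lit 122069671115) (nat_lit 76) (nat_lit 117728659523) (nat_lit 3) (nat_lit 4) (nat_lit 4) (nat_lit 5) (nat_lit 4) (nat_lit 4) (nat_lit 504) (nat_lit 391) (nat_lit 305)))) (XT.nd (nat_lit 156) (nat_lit 152) (nat_lit 0) (XT.nd (nat_lit 78) (nat_lit 0) (nat_lit 0) (XT.lf (nat_lit 0) (nat_lit 1190129799862) (nat_lit 76) (nat_lit 79027220917) (nat_lit 76) (nat_lit 74685779398) (nat_lit 3) (nat_lit 4) (nat_lit 4) (nat_lit 5) (nat_lit 4) (nat_lit 4) (nat_lit 505) (nat_lit 391) (nat_lit 304)) (XT.lf (nat_lit 0) (nat_lit 1388075113863) (nat_lit 76) (nat_lit 32551342015) (nat_lit 76) (nat_lit 28209502416)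 (nat_lit 3) (nat_lit 4) (nat_lit 4) (nat_lit 5) (nat_lit 4) (nat_lit 4) (nat_lit 506) (nat_lit 391) (nat_lit 303))) (XT.nd (nat_lit 55380) (nat_lit 0) (nat_lit 9576) (XT.lf (nat_lit 0) (nat_lit 22196864132) (nat_lit 152) (nat_lit 1521907332862) (nat_lit 0) (nat_lit 18061427759) (nat_lit 1) (nat_lit 5) (nat_lit 3) (nat_lit 4) (nat_lit 1) (nat_lit 4) (nat_lit 507) (nat_lit 391) (nat_lit 302)) (XT.lf (nat_lit 0) (nat_lit 2846544284) (nat_lit 304) (nat_lit 649587046) (nat_lit 304) (nat_lit 649587046) (nat_lit 127) (nat_lit 4) (nat_lit 131) (nat_lit 5) (nat_lit 131) (nat_lit 4) (nat_lit 416) (nat_lit 392) (nat_lit 392))))) (XT.nd (nat_lit 312) (nat_lit 1064) (nat_lit 0) (XT.nd (nat_lit 156) (nat_lit 684) (nat_lit 0) (XT.nd (nat_lit 78) (nat_lit 304) (nat_lit 0) (XT.lf (nat_lit 0) (nat_lit 298353512) (nat_lit 304) (nat_lit 4947145940) (nat_lit 304) (nat_lit 3290160186) (nat_lit 119) (nat_lit 4) (nat_lit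 123) (nat_lit 5) (nat_lit 123) (nat_lit 4) (nat_lit 417) (nat_lit 392) (nat_lit 391)) (XT.lf (nat_lit 0) (nat_lit 3250841200) (nat_lit 304) (nat_lit 5338655917) (nat_lit 0) (nat_lit 211572797) (nat_lit 115) (nat_lit 5) (nat_lit 119) (nat_lit 4) (nat_lit 115) (nat_lit 4) (nat_lit 418) (nat_lit 392) (nat_lit 390))) (XT.nd (nat_lit 78) (nat_lit 380) (nat_lit 0) (XT.lf (nat_lit 0) (nat_lit 1005191167) (nat_lit 304) (nat_lit 2331577185) (nat_lit 76) (nat_lit 5751097151) (nat_lit 111) (nat_lit 5) (nat_lit 115) (nat_lit 5) (nat_lit 112) (nat_lit 4) (nat_lit 419) (nat_lit 392) (nat_lit 389)) (XT.lf (nat_lit 0) (nat_lit 836977774) (nat_lit 228) (nat_lit 6968254730) (nat_lit 228) (nat_lit 1592110740) (nat_lit 106) (nat_lit 4) (nat_lit 109) (nat_lit 5) (nat_lit 109) (nat_lit 4) (nat_lit 420) (nat_lit 392) (nat_lit 388)))) (XT.nd (nat_lit 156) (nat_lit 532) (nat_lit 0) (XT.nd (nat_lit 78) (nat_lit 304) (nat_lit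 0) (XT.lf (nat_lit 0) (nat_lit 4217411923) (nat_lit 152) (nat_lit 1001250490) (nat_lit 228) (nat_lit 4509986845) (nat_lit 103) (nat_lit 5) (nat_lit 105) (nat_lit 5) (nat_lit 106) (nat_lit 4) (nat_lit 421) (nat_lit 392) (nat_lit 387)) (XT.lf (nat_lit 0) (nat_lit 2336832990) (nat_lit 304) (nat_lit 2355890733) (nat_lit 76) (nat_lit 5391479280) (nat_lit 99) (nat_lit 5) (nat_lit 103) (nat_lit 5) (nat_lit 100) (nat_lit 4) (nat_lit 422) (nat_lit 392) (nat_lit 386))) (XT.nd (nat_lit 78) (nat_lit 228) (nat_lit 0) (XT.lf (nat_lit 0) (nat_lit 968765045) (nat_lit 152) (nat_lit 8581038913) (nat_lit 152) (nat_lit 915894040) (nat_lit 95) (nat_lit 4) (nat_lit 97) (nat_lit 5) (nat_lit 97) (nat_lit 4) (nat_lit 423) (nat_lit 392) (nat_lit 385)) (XT.lf (nat_lit 0) (nat_lit 4461331387) (nat_lit 152) (nat_lit 1842031554) (nat_lit 228) (nat_lit 4566913196) (nat_lit 92) (nat_lit 5) (nat_lit 94) (nat_lit 5) (nat_lit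 95) (nat_lit 4) (nat_lit 424) (nat_lit 392) (nat_lit 384))))))))
noncomputable def xc33 : XT := (XT.nd (nat_lit 2418) (nat_lit 2052) (nat_lit 0) (XT.nd (nat_lit 1170) (nat_lit 1824) (nat_lit 0) (XT.nd (nat_lit 546) (nat_lit 1140) (nat_lit 0) (XT.nd (nat_lit 234) (nat_lit 760) (nat_lit 0) (XT.nd (nat_lit 78) (nat_lit 456) (nat_lit 0) (XT.lf (nat_lit 0) (nat_lit 2703404251) (nat_lit 228) (nat_lit 3217126600) (nat_lit 76) (nat_lit 5382284749) (nat_lit 89) (nat_lit 5) (nat_lit 92) (nat_lit 5) (nat_lit 90) (nat_lit 4) (nat_lit 425) (nat_lit 392) (nat_lit 383)) (XT.nd (nat_lit 78) (nat_lit 152) (nat_lit 0) (XT.lf (nat_lit 0) (nat_lit 100963737) (nat_lit 152) (nat_lit 10312452451) (nat_lit 152) (nat_lit 1351905408) (nat_lit 85) (nat_lit 4) (nat_lit 87) (nat_lit 5) (nat_lit 87) (nat_lit 4) (nat_lit 426) (nat_lit 392) (nat_lit 382)) (XT.lf (nat_lit 0) (nat_lit 3585725460) (nat_lit 76) (nat_lit 2813785056)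 (nat_lit 152) (nat_lit 5853703563) (nat_lit 83) (nat_lit 5) (nat_lit 84) (nat_lit 5) (nat_lit 85) (nat_lit 4) (nat_lit 427) (nat_lit 392) (nat_lit 381)))) (XT.nd (nat_lit 156) (nat_lit 456) (nat_lit 0) (XT.nd (nat_lit 78) (nat_lit 76) (nat_lit 0) (XT.lf (nat_lit 0) (nat_lit 1957191776) (nat_lit 228) (nat_lit 5572110334) (nat_lit 76) (nat_lit 5244478346) (nat_lit 80) (nat_lit 5) (nat_lit 83) (nat_lit 5) (nat_lit 81) (nat_lit 4) (nat_lit 428) (nat_lit 392) (nat_lit 380)) (XT.lf (nat_lit 0) (nat_lit 10254817127) (nat_lit 152) (nat_lit 2391544031) (nat_lit 0) (nat_lit 681493120) (nat_lit 79) (nat_lit 5) (nat_lit 81) (nat_lit 4) (nat_lit 79) (nat_lit 4) (nat_lit 429) (nat_lit 392) (nat_lit 379))) (XT.nd (nat_lit 78) (nat_lit 152) (nat_lit 0) (XT.lf (nat_lit 0) (nat_lit 850718619) (nat_lit 76) (nat_lit 4435340256) (nat_lit 152) (nat_lit 8627803431) (nat_lit 75) (nat_lit 5) (nat_lit 76) (nat_lit 5)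 (nat_lit 77) (nat_lit 4) (nat_lit 430) (nat_lit 392) (nat_lit 378)) (XT.lf (nat_lit 0) (nat_lit 4301497835) (nat_lit 152) (nat_lit 10054545316) (nat_lit 152) (nat_lit 180703772) (nat_lit 73) (nat_lit 4) (nat_lit 75) (nat_lit 5) (nat_lit 75) (nat_lit 4) (nat_lit 431) (nat_lit 392) (nat_lit 377))))) (XT.nd (nat_lit 312) (nat_lit 456) (nat_lit 0) (XT.nd (nat_lit 156) (nat_lit 304) (nat_lit 0) (XT.nd (nat_lit 78) (nat_lit 228) (nat_lit 0) (XT.lf (nat_lit 0) (nat_lit 7793582740) (nat_lit 76) (nat_lit 988922823) (nat_lit 152) (nat_lit 6413654145) (nat_lit 71) (nat_lit 5) (nat_lit 72) (nat_lit 5) (nat_lit 73) (nat_lit 4) (nat_lit 432) (nat_lit 392) (nat_lit 376)) (XT.lf (nat_lit 0) (nat_lit 2675678274) (nat_lit 228) (nat_lit 4536120631) (nat_lit 76) (nat_lit 8683945171) (nat_lit 68) (nat_lit 5) (nat_lit 71) (nat_lit 5) (nat_lit 69) (nat_lit 4) (nat_lit 433) (nat_lit 392) (nat_lit 375))) (XT.nd (nat_lit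 78) (nat_lit 228) (nat_lit 0) (XT.lf (nat_lit 0) (nat_lit 12413103604) (nat_lit 152) (nat_lit 1618448950) (nat_lit 0) (nat_lit 2607207439) (nat_lit 67) (nat_lit 5) (nat_lit 69) (nat_lit 4) (nat_lit 67) (nat_lit 4) (nat_lit 434) (nat_lit 392) (nat_lit 374)) (XT.lf (nat_lit 0) (nat_lit 1349796847) (nat_lit 76) (nat_lit 4210269291) (nat_lit 152) (nat_lit 11864499485) (nat_lit 64) (nat_lit 5) (nat_lit 65) (nat_lit 5) (nat_lit 66) (nat_lit 4) (nat_lit 435) (nat_lit 392) (nat_lit 373)))) (XT.nd (nat_lit 156) (nat_lit 228) (nat_lit 0) (XT.nd (nat_lit 78) (nat_lit 152) (nat_lit 0) (XT.lf (nat_lit 0) (nat_lit 4414340303) (nat_lit 76) (nat_lit 11813360429) (nat_lit 76) (nat_lit 2029719855) (nat_lit 63) (nat_lit 4) (nat_lit 64) (nat_lit 5) (nat_lit 64) (nat_lit 4) (nat_lit 436) (nat_lit 392) (nat_lit 372)) (XT.lf (nat_lit 0) (nat_lit 7485523074) (nat_lit 76) (nat_lit 1035023852) (nat_lit 152) (nat_lit 10619468162)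 (nat_lit 61) (nat_lit 5) (nat_lit 62) (nat_lit 5) (nat_lit 63) (nat_lit 4) (nat_lit 437) (nat_lit 392) (nat_lit 371))) (XT.nd (nat_lit 78) (nat_lit 76) (nat_lit 0) (XT.lf (nat_lit 0) (nat_lit 81504141) (nat_lit 152) (nat_lit 9513766184) (nat_lit 76) (nat_lit 10480409265) (nat_lit 59) (nat_lit 5) (nat_lit 61) (nat_lit 5) (nat_lit 60) (nat_lit 4) (nat_lit 438) (nat_lit 392) (nat_lit 370)) (XT.lf (nat_lit 0) (nat_lit 11489721216) (nat_lit 152) (nat_lit 7460686711) (nat_lit 0) (nat_lit 2115926339) (nat_lit 58) (nat_lit 5) (nat_lit 60) (nat_lit 4) (nat_lit 58) (nat_lit 4) (nat_lit 439) (nat_lit 392) (nat_lit 369)))))) (XT.nd (nat_lit 624) (nat_lit 836) (nat_lit 0) (XT.nd (nat_lit 312) (nat_lit 532) (nat_lit 0) (XT.nd (nat_lit 156) (nat_lit 228) (nat_lit 0) (XT.nd (nat_lit 78) (nat_lit 76) (nat_lit 0) (XT.lf (nat_lit 0) (nat_lit 1972205667) (nat_lit 152) (nat_lit 5473308485) (nat_lit 76) (nat_lit 14671850306)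 (nat_lit 56) (nat_lit 5) (nat_lit 58) (nat_lit 5) (nat_lit 57) (nat_lit 4) (nat_lit 440) (nat_lit 392) (nat_lit 368)) (XT.lf (nat_lit 0) (nat_lit 14399915527) (nat_lit 152) (nat_lit 3619137217) (nat_lit 0) (nat_lit 5211051560) (nat_lit 55) (nat_lit 5) (nat_lit 57) (nat_lit 4) (nat_lit 55) (nat_lit 4) (nat_lit 441) (nat_lit 392) (nat_lit 367))) (XT.nd (nat_lit 78) (nat_lit 76) (nat_lit 0) (XT.lf (nat_lit 0) (nat_lit 3632222094) (nat_lit 152) (nat_lit 1859190561) (nat_lit 76) (nat_lit 18920268992) (nat_lit 53) (nat_lit 5) (nat_lit 55) (nat_lit 5) (nat_lit 54) (nat_lit 4) (nat_lit 442) (nat_lit 392) (nat_lit 366)) (XT.lf (nat_lit 0) (nat_lit 17156797255) (nat_lit 152) (nat_lit 312996053) (nat_lit 0) (nat_lit 8192028813) (nat_lit 52) (nat_lit 5) (nat_lit 54) (nat_lit 4) (nat_lit 52) (nat_lit 4) (nat_lit 443) (nat_lit 392) (nat_lit 365)))) (XT.nd (nat_lit 156) (nat_lit 228) (nat_lit 0) (XT.nd (nat_lit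 78) (nat_lit 76) (nat_lit 0) (XT.lf (nat_lit 0) (nat_lit 1130696743) (nat_lit 76) (nat_lit 3840275222) (nat_lit 152) (nat_lit 22018710236) (nat_lit 49) (nat_lit 5) (nat_lit 50) (nat_lit 5) (nat_lit 51) (nat_lit 4) (nat_lit 444) (nat_lit 392) (nat_lit 364)) (XT.lf (nat_lit 0) (nat_lit 2255817711) (nat_lit 76) (nat_lit 17425230027) (nat_lit 76) (nat_lit 8713054724) (nat_lit 48) (nat_lit 4) (nat_lit 49) (nat_lit 5) (nat_lit 49) (nat_lit 4) (nat_lit 445) (nat_lit 392) (nat_lit 363))) (XT.nd (nat_lit 78) (nat_lit 76) (nat_lit 0) (XT.lf (nat_lit 0) (nat_lit 3169131578) (nat_lit 76) (nat_lit 2664477181) (nat_lit 152) (nat_lit 24054971867) (nat_lit 46) (nat_lit 5) (nat_lit 47) (nat_lit 5) (nat_lit 48) (nat_lit 4) (nat_lit 446) (nat_lit 392) (nat_lit 362)) (XT.lf (nat_lit 0) (nat_lit 3613418488) (nat_lit 76) (nat_lit 18147781748) (nat_lit 76) (nat_lit 9708153206) (nat_lit 45) (nat_lit 4) (nat_lit 46)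 (nat_lit 5) (nat_lit 46) (nat_lit 4) (nat_lit 447) (nat_lit 392) (nat_lit 361))))) (XT.nd (nat_lit 312) (nat_lit 380) (nat_lit 0) (XT.nd (nat_lit 156) (nat_lit 228) (nat_lit 0) (XT.nd (nat_lit 78) (nat_lit 76) (nat_lit 0) (XT.lf (nat_lit 0) (nat_lit 3746888758) (nat_lit 76) (nat_lit 2228658284) (nat_lit 152) (nat_lit 27177808076) (nat_lit 43) (nat_lit 5) (nat_lit 44) (nat_lit 5) (nat_lit 45) (nat_lit 4) (nat_lit 448) (nat_lit 392) (nat_lit 360)) (XT.lf (nat_lit 0) (nat_lit 3229975655) (nat_lit 76) (nat_lit 19929406512) (nat_lit 76) (nat_lit 11775459926) (nat_lit 42) (nat_lit 4) (nat_lit 43) (nat_lit 5) (nat_lit 43) (nat_lit 4) (nat_lit 449) (nat_lit 392) (nat_lit 359))) (XT.nd (nat_lit 78) (nat_lit 76) (nat_lit 0) (XT.lf (nat_lit 0) (nat_lit 2262570869) (nat_lit 76) (nat_lit 2843891053) (nat_lit 152) (nat_lit 31728448407) (nat_lit 40) (nat_lit 5) (nat_lit 41) (nat_lit 5) (nat_lit 42) (nat_lit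 4) (nat_lit 450) (nat_lit 392) (nat_lit 358)) (XT.lf (nat_lit 0) (nat_lit 410194130) (nat_lit 76) (nat_lit 23148046093) (nat_lit 76) (nat_lit 15287499670) (nat_lit 39) (nat_lit 4) (nat_lit 40) (nat_lit 5) (nat_lit 40) (nat_lit 4) (nat_lit 451) (nat_lit 392) (nat_lit 357)))) (XT.nd (nat_lit 156) (nat_lit 228) (nat_lit 0) (XT.nd (nat_lit 78) (nat_lit 76) (nat_lit 0) (XT.lf (nat_lit 0) (nat_lit 2869933580) (nat_lit 152) (nat_lit 2019420388) (nat_lit 76) (nat_lit 36102144181) (nat_lit 38) (nat_lit 5) (nat_lit 40) (nat_lit 5) (nat_lit 39) (nat_lit 4) (nat_lit 452) (nat_lit 392) (nat_lit 356)) (XT.lf (nat_lit 0) (nat_lit 22620073216) (nat_lit 152) (nat_lit 5586162867) (nat_lit 0) (nat_lit 15056365303) (nat_lit 37) (nat_lit 5) (nat_lit 39) (nat_lit 4) (nat_lit 37) (nat_lit 4) (nat_lit 453) (nat_lit 392) (nat_lit 355))) (XT.nd (nat_lit 78) (nat_lit 152) (nat_lit 0) (XT.lf (nat_lit 0) (nat_lit 35638345053)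 (nat_lit 76) (nat_lit 8824799020) (nat_lit 76) (nat_lit 1226603383) (nat_lit 36) (nat_lit 4) (nat_lit 37) (nat_lit 5) (nat_lit 37) (nat_lit 4) (nat_lit 454) (nat_lit 392) (nat_lit 354)) (XT.lf (nat_lit 0) (nat_lit 19760911243) (nat_lit 152) (nat_lit 16008110515) (nat_lit 0) (nat_lit 12494121990) (nat_lit 34) (nat_lit 5) (nat_lit 36) (nat_lit 4) (nat_lit 34) (nat_lit 4) (nat_lit 455) (nat_lit 392) (nat_lit 353))))))) (XT.nd (nat_lit 1248) (nat_lit 684) (nat_lit 0) (XT.nd (nat_lit 624) (nat_lit 608) (nat_lit 0) (XT.nd (nat_lit 312) (nat_lit 304) (nat_lit 0) (XT.nd (nat_lit 156) (nat_lit 228) (nat_lit 0) (XT.nd (nat_lit 78) (nat_lit 152) (nat_lit 0) (XT.lf (nat_lit 0) (nat_lit 27676599691) (nat_lit 76) (nat_lit 15314706682) (nat_lit 76) (nat_lit 8019757748) (nat_lit 33) (nat_lit 4) (nat_lit 34) (nat_lit 5) (nat_lit 34) (nat_lit 4) (nat_lit 456) (nat_lit 392) (nat_lit 352)) (XT.lf (nat_lit 0) (nat_lit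 14240062523) (nat_lit 152) (nat_lit 32430584141) (nat_lit 0) (nat_lit 7267659939) (nat_lit 31) (nat_lit 5) (nat_lit 33) (nat_lit 4) (nat_lit 31) (nat_lit 4) (nat_lit 457) (nat_lit 392) (nat_lit 351))) (XT.nd (nat_lit 78) (nat_lit 152) (nat_lit 0) (XT.lf (nat_lit 0) (nat_lit 13429399214) (nat_lit 76) (nat_lit 25311056689) (nat_lit 76) (nat_lit 18315661356) (nat_lit 30) (nat_lit 4) (nat_lit 31) (nat_lit 5) (nat_lit 31) (nat_lit 4) (nat_lit 458) (nat_lit 392) (nat_lit 350)) (XT.lf (nat_lit 0) (nat_lit 3464795105) (nat_lit 76) (nat_lit 1648121978) (nat_lit 152) (nat_lit 55282291501) (nat_lit 28) (nat_lit 5) (nat_lit 29) (nat_lit 5) (nat_lit 30) (nat_lit 4) (nat_lit 459) (nat_lit 392) (nat_lit 349)))) (XT.nd (nat_lit 156) (nat_lit 228) (nat_lit 0) (XT.nd (nat_lit 78) (nat_lit 76) (nat_lit 0) (XT.lf (nat_lit 0) (nat_lit 30792362022) (nat_lit 152) (nat_lit 9052108006) (nat_lit 0) (nat_lit 24091031075)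 (nat_lit 28) (nat_lit 5) (nat_lit 30) (nat_lit 4) (nat_lit 28) (nat_lit 4) (nat_lit 460) (nat_lit 392) (nat_lit 348)) (XT.lf (nat_lit 0) (nat_lit 43774505600) (nat_lit 76) (nat_lit 15336979870) (nat_lit 76) (nat_lit 8618265698) (nat_lit 27) (nat_lit 4) (nat_lit 28) (nat_lit 5) (nat_lit 28) (nat_lit 4) (nat_lit 461) (nat_lit 392) (nat_lit 347))) (XT.nd (nat_lit 78) (nat_lit 76) (nat_lit 0) (XT.lf (nat_lit 0) (nat_lit 17985762138) (nat_lit 152) (nat_lit 42221719233) (nat_lit 0) (nat_lit 11571657613) (nat_lit 25) (nat_lit 5) (nat_lit 27) (nat_lit 4) (nat_lit 25) (nat_lit 4) (nat_lit 462) (nat_lit 392) (nat_lit 346)) (XT.lf (nat_lit 0) (nat_lit 11800473819) (nat_lit 76) (nat_lit 35367816129) (nat_lit 76) (nat_lit 28939517972) (nat_lit 24) (nat_lit 4) (nat_lit 25) (nat_lit 5) (nat_lit 25) (nat_lit 4) (nat_lit 463) (nat_lit 392) (nat_lit 345))))) (XT.nd (nat_lit 312) (nat_lit 304) (nat_lit 0) (XT.nd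 (nat_lit 156) (nat_lit 152) (nat_lit 0) (XT.nd (nat_lit 78) (nat_lit 152) (nat_lit 0) (XT.lf (nat_lit 0) (nat_lit 71421291760) (nat_lit 76) (nat_lit 7885914952) (nat_lit 76) (nat_lit 1444474543) (nat_lit 24) (nat_lit 4) (nat_lit 25) (nat_lit 5) (nat_lit 25) (nat_lit 4) (nat_lit 464) (nat_lit 392) (nat_lit 344)) (XT.lf (nat_lit 0) (nat_lit 28394391592) (nat_lit 152) (nat_lit 35050102628) (nat_lit 0) (nat_lit 22248097153) (nat_lit 22) (nat_lit 5) (nat_lit 24) (nat_lit 4) (nat_lit 22) (nat_lit 4) (nat_lit 465) (nat_lit 392) (nat_lit 343))) (XT.nd (nat_lit 78) (nat_lit 76) (nat_lit 0) (XT.lf (nat_lit 0) (nat_lit 25159675160) (nat_lit 76) (nat_lit 35997777956) (nat_lit 76) (nat_lit 29840752696) (nat_lit 21) (nat_lit 4) (nat_lit 22) (nat_lit 5) (nat_lit 22) (nat_lit 4) (nat_lit 466) (nat_lit 392) (nat_lit 342)) (XT.lf (nat_lit 0) (nat_lit 338779102) (nat_lit 152) (nat_lit 5472464046) (nat_lit 76) (nat_lit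 90891196515) (nat_lit 20) (nat_lit 5) (nat_lit 22) (nat_lit 5) (nat_lit 21) (nat_lit 4) (nat_lit 467) (nat_lit 392) (nat_lit 341)))) (XT.nd (nat_lit 156) (nat_lit 152) (nat_lit 0) (XT.nd (nat_lit 78) (nat_lit 76) (nat_lit 0) (XT.lf (nat_lit 0) (nat_lit 33200319532) (nat_lit 152) (nat_lit 42254315882) (nat_lit 0) (nat_lit 27318261287) (nat_lit 19) (nat_lit 5) (nat_lit 21) (nat_lit 4) (nat_lit 19) (nat_lit 4) (nat_lit 468) (nat_lit 392) (nat_lit 340)) (XT.lf (nat_lit 0) (nat_lit 23115360331) (nat_lit 76) (nat_lit 46040279182) (nat_lit 76) (nat_lit 40150108107) (nat_lit 18) (nat_lit 4) (nat_lit 19) (nat_lit 5) (nat_lit 19) (nat_lit 4) (nat_lit 469) (nat_lit 392) (nat_lit 339))) (XT.nd (nat_lit 78) (nat_lit 152) (nat_lit 0) (XT.lf (nat_lit 0) (nat_lit 95046509919) (nat_lit 76) (nat_lit 13589972456) (nat_lit 76) (nat_lit 7692289500) (nat_lit 18) (nat_lit 4) (nat_lit 19) (nat_lit 5) (nat_lit 19) (nat_lit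 4) (nat_lit 470) (nat_lit 392) (nat_lit 338)) (XT.lf (nat_lit 0) (nat_lit 27535812853) (nat_lit 152) (nat_lit 74391646718) (nat_lit 0) (nat_lit 21912347710) (nat_lit 16) (nat_lit 5) (nat_lit 18) (nat_lit 4) (nat_lit 16) (nat_lit 4) (nat_lit 471) (nat_lit 392) (nat_lit 337)))))) (XT.nd (nat_lit 624) (nat_lit 228) (nat_lit 0) (XT.nd (nat_lit 312) (nat_lit 228) (nat_lit 0) (XT.nd (nat_lit 156) (nat_lit 152) (nat_lit 0) (XT.nd (nat_lit 78) (nat_lit 76) (nat_lit 0) (XT.lf (nat_lit 0) (nat_lit 65842700578) (nat_lit 152) (nat_lit 5863116126) (nat_lit 0) (nat_lit 60213101886) (nat_lit 16) (nat_lit 5) (nat_lit 18) (nat_lit 4) (nat_lit 16) (nat_lit 4) (nat_lit 472) (nat_lit 392) (nat_lit 336)) (XT.lf (nat_lit 0) (nat_lit 70246016350) (nat_lit 76) (nat_lit 37991232488) (nat_lit 76) (nat_lit 32355954584) (nat_lit 15) (nat_lit 4) (nat_lit 16) (nat_lit 5) (nat_lit 16) (nat_lit 4) (nat_lit 473) (nat_lit 392)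 (nat_lit 335))) (XT.nd (nat_lit 78) (nat_lit 0) (nat_lit 0) (XT.lf (nat_lit 0) (nat_lit 2568190930) (nat_lit 76) (nat_lit 1436066320) (nat_lit 152) (nat_lit 145950386245) (nat_lit 13) (nat_lit 5) (nat_lit 14) (nat_lit 5) (nat_lit 15) (nat_lit 4) (nat_lit 474) (nat_lit 392) (nat_lit 334)) (XT.lf (nat_lit 0) (nat_lit 43924748795) (nat_lit 152) (nat_lit 77476303712) (nat_lit 0) (nat_lit 38548172182) (nat_lit 13) (nat_lit 5) (nat_lit 15) (nat_lit 4) (nat_lit 13) (nat_lit 4) (nat_lit 475) (nat_lit 392) (nat_lit 333)))) (XT.nd (nat_lit 156) (nat_lit 152) (nat_lit 0) (XT.nd (nat_lit 78) (nat_lit 76) (nat_lit 0) (XT.lf (nat_lit 0) (nat_lit 86998692277) (nat_lit 152) (nat_lit 2128867535) (nat_lit 0) (nat_lit 81617822006) (nat_lit 13) (nat_lit 5) (nat_lit 15) (nat_lit 4) (nat_lit 13) (nat_lit 4) (nat_lit 476) (nat_lit 392) (nat_lit 332)) (XT.lf (nat_lit 0) (nat_lit 81741002882) (nat_lit 76) (nat_lit 52994122927)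 (nat_lit 76) (nat_lit 47609277046) (nat_lit 12) (nat_lit 4) (nat_lit 13) (nat_lit 5) (nat_lit 13) (nat_lit 4) (nat_lit 477) (nat_lit 392) (nat_lit 331))) (XT.nd (nat_lit 78) (nat_lit 152) (nat_lit 0) (XT.lf (nat_lit 0) (nat_lit 172280184739) (nat_lit 76) (nat_lit 13990342617) (nat_lit 76) (nat_lit 8601815615) (nat_lit 12) (nat_lit 4) (nat_lit 13) (nat_lit 5) (nat_lit 13) (nat_lit 4) (nat_lit 478) (nat_lit 392) (nat_lit 330)) (XT.lf (nat_lit 0) (nat_lit 33846922653) (nat_lit 152) (nat_lit 145747991276) (nat_lit 0) (nat_lit 28711746037) (nat_lit 10) (nat_lit 5) (nat_lit 12) (nat_lit 4) (nat_lit 10) (nat_lit 4) (nat_lit 479) (nat_lit 392) (nat_lit 329))))) (XT.nd (nat_lit 312) (nat_lit 152) (nat_lit 0) (XT.nd (nat_lit 156) (nat_lit 0) (nat_lit 0) (XT.nd (nat_lit 78) (nat_lit 76) (nat_lit 0) (XT.lf (nat_lit 0) (nat_lit 79977954509) (nat_lit 152) (nat_lit 67961556971) (nat_lit 0) (nat_lit 74839772210)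 (nat_lit 10) (nat_lit 5) (nat_lit 12) (nat_lit 4) (nat_lit 10) (nat_lit 4) (nat_lit 480) (nat_lit 392) (nat_lit 328)) (XT.lf (nat_lit 0) (nat_lit 16476594520) (nat_lit 76) (nat_lit 113531820437) (nat_lit 76) (nat_lit 108390855098) (nat_lit 9) (nat_lit 4) (nat_lit 10) (nat_lit 5) (nat_lit 10) (nat_lit 4) (nat_lit 481) (nat_lit 392) (nat_lit 327))) (XT.nd (nat_lit 78) (nat_lit 0) (nat_lit 0) (XT.lf (nat_lit 0) (nat_lit 110002414858) (nat_lit 76) (nat_lit 75176550056) (nat_lit 76) (nat_lit 70033007828) (nat_lit 9) (nat_lit 4) (nat_lit 10) (nat_lit 5) (nat_lit 10) (nat_lit 4) (nat_lit 482) (nat_lit 392) (nat_lit 326)) (XT.lf (nat_lit 0) (nat_lit 210923015126) (nat_lit 76) (nat_lit 33797371697) (nat_lit 76) (nat_lit 28651443461) (nat_lit 9) (nat_lit 4) (nat_lit 10) (nat_lit 5) (nat_lit 10) (nat_lit 4) (nat_lit 483) (nat_lit 392) (nat_lit 325)))) (XT.nd (nat_lit 156) (nat_lit 0) (nat_lit 0) (XT.nd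 (nat_lit 78) (nat_lit 0) (nat_lit 0) (XT.lf (nat_lit 0) (nat_lit 16096569243) (nat_lit 152) (nat_lit 265653337902) (nat_lit 0) (nat_lit 11193581145) (nat_lit 7) (nat_lit 5) (nat_lit 9) (nat_lit 4) (nat_lit 7) (nat_lit 4) (nat_lit 484) (nat_lit 392) (nat_lit 324)) (XT.lf (nat_lit 0) (nat_lit 65070448423) (nat_lit 152) (nat_lit 188738942015) (nat_lit 0) (nat_lit 60165512118) (nat_lit 7) (nat_lit 5) (nat_lit 9) (nat_lit 4) (nat_lit 7) (nat_lit 4) (nat_lit 485) (nat_lit 392) (nat_lit 323))) (XT.nd (nat_lit 78) (nat_lit 0) (nat_lit 0) (XT.lf (nat_lit 0) (nat_lit 117926012024) (nat_lit 152) (nat_lit 105745357442) (nat_lit 0) (nat_lit 113019271824) (nat_lit 7) (nat_lit 5) (nat_lit 9) (nat_lit 4) (nat_lit 7) (nat_lit 4) (nat_lit 486) (nat_lit 392) (nat_lit 322)) (XT.lf (nat_lit 0) (nat_lit 174976478201) (nat_lit 152) (nat_lit 16180770348) (nat_lit 0) (nat_lit 170068067726) (nat_lit 7) (nat_lit 5) (nat_lit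 9) (nat_lit 4) (nat_lit 7) (nat_lit 4) (nat_lit 487) (nat_lit 392) (nat_lit 321))))))))
noncomputable def xc34 : XT := (XT.nd (nat_lit 57642) (nat_lit 0) (nat_lit 2280) (XT.nd (nat_lit 1170) (nat_lit 0) (nat_lit 0) (XT.nd (nat_lit 546) (nat_lit 76) (nat_lit 0) (XT.nd (nat_lit 234) (nat_lit 152) (nat_lit 0) (XT.nd (nat_lit 78) (nat_lit 0) (nat_lit 0) (XT.lf (nat_lit 0) (nat_lit 83146788881) (nat_lit 76) (nat_lit 154711289302) (nat_lit 76) (nat_lit 149801332278) (nat_lit 6) (nat_lit 4) (nat_lit 7) (nat_lit 5) (nat_lit 7) (nat_lit 4) (nat_lit 488) (nat_lit 392) (nat_lit 320)) (XT.nd (nat_lit 78) (nat_lit 0) (nat_lit 0) (XT.lf (nat_lit 0) (nat_lit 190937707379) (nat_lit 76) (nat_lit 115084653062) (nat_lit 76) (nat_lit 110173264048) (nat_lit 6) (nat_lit 4) (nat_lit 7) (nat_lit 5) (nat_lit 7) (nat_lit 4) (nat_lit 489) (nat_lit 392) (nat_lit 319)) (XT.lf (nat_lit 0) (nat_lit 307295736804) (nat_lit 76)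 (nat_lit 72316544495) (nat_lit 76) (nat_lit 67403829563) (nat_lit 6) (nat_lit 4) (nat_lit 7) (nat_lit 5) (nat_lit 7) (nat_lit 4) (nat_lit 490) (nat_lit 392) (nat_lit 318)))) (XT.nd (nat_lit 156) (nat_lit 0) (nat_lit 0) (XT.nd (nat_lit 78) (nat_lit 152) (nat_lit 0) (XT.lf (nat_lit 0) (nat_lit 432910406217) (nat_lit 76) (nat_lit 26153522957) (nat_lit 76) (nat_lit 21239580324) (nat_lit 6) (nat_lit 4) (nat_lit 7) (nat_lit 5) (nat_lit 7) (nat_lit 4) (nat_lit 491) (nat_lit 392) (nat_lit 317)) (XT.lf (nat_lit 0) (nat_lit 28904474872) (nat_lit 152) (nat_lit 463043507350) (nat_lit 0) (nat_lit 24223446879) (nat_lit 4) (nat_lit 5) (nat_lit 6) (nat_lit 4) (nat_lit 4) (nat_lit 4) (nat_lit 492) (nat_lit 392) (nat_lit 316))) (XT.nd (nat_lit 78) (nat_lit 0) (nat_lit 0) (XT.lf (nat_lit 0) (nat_lit 83582663054) (nat_lit 152) (nat_lit 392344740118) (nat_lit 0) (nat_lit 78900632627) (nat_lit 4) (nat_lit 5) (nat_lit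 6) (nat_lit 4) (nat_lit 4) (nat_lit 4) (nat_lit 493) (nat_lit 392) (nat_lit 315)) (XT.lf (nat_lit 0) (nat_lit 142613536418) (nat_lit 152) (nat_lit 316034135309) (nat_lit 0) (nat_lit 137930577812) (nat_lit 4) (nat_lit 5) (nat_lit 6) (nat_lit 4) (nat_lit 4) (nat_lit 4) (nat_lit 494) (nat_lit 392) (nat_lit 314))))) (XT.nd (nat_lit 312) (nat_lit 0) (nat_lit 0) (XT.nd (nat_lit 156) (nat_lit 76) (nat_lit 0) (XT.nd (nat_lit 78) (nat_lit 0) (nat_lit 0) (XT.lf (nat_lit 0) (nat_lit 206346907549) (nat_lit 152) (nat_lit 233659481934) (nat_lit 0) (nat_lit 201663089517) (nat_lit 4) (nat_lit 5) (nat_lit 6) (nat_lit 4) (nat_lit 4) (nat_lit 4) (nat_lit 495) (nat_lit 392) (nat_lit 313)) (XT.lf (nat_lit 0) (nat_lit 275160455682) (nat_lit 152) (nat_lit 144732633898) (nat_lit 0) (nat_lit 270475841885) (nat_lit 4) (nat_lit 5) (nat_lit 6) (nat_lit 4) (nat_lit 4) (nat_lit 4) (nat_lit 496) (nat_lit 392) (nat_lit 312)))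 (XT.nd (nat_lit 78) (nat_lit 76) (nat_lit 0) (XT.lf (nat_lit 0) (nat_lit 349461964806) (nat_lit 152) (nat_lit 48726617286) (nat_lit 0) (nat_lit 344776614190) (nat_lit 4) (nat_lit 5) (nat_lit 6) (nat_lit 4) (nat_lit 4) (nat_lit 4) (nat_lit 497) (nat_lit 392) (nat_lit 311)) (XT.lf (nat_lit 0) (nat_lit 56743643403) (nat_lit 76) (nat_lit 373834024054) (nat_lit 76) (nat_lit 369147991199) (nat_lit 3) (nat_lit 4) (nat_lit 4) (nat_lit 5) (nat_lit 4) (nat_lit 4) (nat_lit 498) (nat_lit 392) (nat_lit 310)))) (XT.nd (nat_lit 156) (nat_lit 0) (nat_lit 0) (XT.nd (nat_lit 78) (nat_lit 0) (nat_lit 0) (XT.lf (nat_lit 0) (nat_lit 172360556075) (nat_lit 76) (nat_lit 346655692696) (nat_lit 76) (nat_lit 341969028137) (nat_lit 3) (nat_lit 4) (nat_lit 4) (nat_lit 5) (nat_lit 4) (nat_lit 4) (nat_lit 499) (nat_lit 392) (nat_lit 309)) (XT.lf (nat_lit 0) (nat_lit 297198135966) (nat_lit 76) (nat_lit 317317740080) (nat_lit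 76) (nat_lit 312630490611) (nat_lit 3) (nat_lit 4) (nat_lit 4) (nat_lit 5) (nat_lit 4) (nat_lit 4) (nat_lit 500) (nat_lit 392) (nat_lit 308))) (XT.nd (nat_lit 78) (nat_lit 0) (nat_lit 0) (XT.lf (nat_lit 0) (nat_lit 431996161327) (nat_lit 76) (nat_lit 285646311673) (nat_lit 76) (nat_lit 280958520620) (nat_lit 3) (nat_lit 4) (nat_lit 4) (nat_lit 5) (nat_lit 4) (nat_lit 4) (nat_lit 501) (nat_lit 392) (nat_lit 307)) (XT.lf (nat_lit 0) (nat_lit 577553435271) (nat_lit 76) (nat_lit 251453724936) (nat_lit 76) (nat_lit 246765432417) (nat_lit 3) (nat_lit 4) (nat_lit 4) (nat_lit 5) (nat_lit 4) (nat_lit 4) (nat_lit 502) (nat_lit 392) (nat_lit 306)))))) (XT.nd (nat_lit 55848) (nat_lit 0) (nat_lit 6536) (XT.nd (nat_lit 55536) (nat_lit 0) (nat_lit 9120) (XT.nd (nat_lit 156) (nat_lit 0) (nat_lit 0) (XT.nd (nat_lit 78) (nat_lit 0) (nat_lit 0) (XT.lf (nat_lit 0) (nat_lit 734732519422) (nat_lit 76) (nat_lit 214537357133)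 (nat_lit 76) (nat_lit 209848600293) (nat_lit 3) (nat_lit 4) (nat_lit 4) (nat_lit 5) (nat_lit 4) (nat_lit 4) (nat_lit 503) (nat_lit 392) (nat_lit 305)) (XT.lf (nat_lit 0) (nat_lit 904464845390) (nat_lit 76) (nat_lit 174678444603) (nat_lit 76) (nat_lit 169989257835) (nat_lit 3) (nat_lit 4) (nat_lit 4) (nat_lit 5) (nat_lit 4) (nat_lit 4) (nat_lit 504) (nat_lit 392) (nat_lit 304))) (XT.nd (nat_lit 78) (nat_lit 0) (nat_lit 0) (XT.lf (nat_lit 0) (nat_lit 1087756234365) (nat_lit 76) (nat_lit 131640786382) (nat_lit 76) (nat_lit 126951201534) (nat_lit 3) (nat_lit 4) (nat_lit 4) (nat_lit 5) (nat_lit 4) (nat_lit 4) (nat_lit 505) (nat_lit 392) (nat_lit 303)) (XT.lf (nat_lit 0) (nat_lit 1285692857541) (nat_lit 76) (nat_lit 85169344495) (nat_lit 76) (nat_lit 80479391055) (nat_lit 3) (nat_lit 4) (nat_lit 4) (nat_lit 5) (nat_lit 4) (nat_lit 4) (nat_lit 506) (nat_lit 392) (nat_lit 302)))) (XT.nd (nat_lit 156)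 (nat_lit 608) (nat_lit 0) (XT.nd (nat_lit 78) (nat_lit 380) (nat_lit 0) (XT.lf (nat_lit 0) (nat_lit 79858377) (nat_lit 304) (nat_lit 1923582235) (nat_lit 304) (nat_lit 1923582235) (nat_lit 136) (nat_lit 4) (nat_lit 140) (nat_lit 5) (nat_lit 140) (nat_lit 4) (nat_lit 414) (nat_lit 393) (nat_lit 393)) (XT.lf (nat_lit 0) (nat_lit 2296040463) (nat_lit 380) (nat_lit 5354591337) (nat_lit 0) (nat_lit 417018618) (nat_lit 131) (nat_lit 5) (nat_lit 136) (nat_lit 4) (nat_lit 131) (nat_lit 4) (nat_lit 415) (nat_lit 393) (nat_lit 392))) (XT.nd (nat_lit 78) (nat_lit 228) (nat_lit 0) (XT.lf (nat_lit 0) (nat_lit 353152482) (nat_lit 380) (nat_lit 2894894297) (nat_lit 76) (nat_lit 5053357442) (nat_lit 126) (nat_lit 5) (nat_lit 131) (nat_lit 5) (nat_lit 127) (nat_lit 4) (nat_lit 416) (nat_lit 393) (nat_lit 391)) (XT.lf (nat_lit 0) (nat_lit 6618067341) (nat_lit 304) (nat_lit 301175836) (nat_lit 0) (nat_lit 1637290904)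 (nat_lit 123) (nat_lit 5) (nat_lit 127) (nat_lit 4) (nat_lit 123) (nat_lit 4) (nat_lit 417) (nat_lit 393) (nat_lit 390))))) (XT.nd (nat_lit 312) (nat_lit 1064) (nat_lit 0) (XT.nd (nat_lit 156) (nat_lit 608) (nat_lit 0) (XT.nd (nat_lit 78) (nat_lit 304) (nat_lit 0) (XT.lf (nat_lit 0) (nat_lit 2506002858) (nat_lit 228) (nat_lit 1839059340) (nat_lit 304) (nat_lit 4486548320) (nat_lit 115) (nat_lit 5) (nat_lit 118) (nat_lit 5) (nat_lit 119) (nat_lit 4) (nat_lit 418) (nat_lit 393) (nat_lit 389)) (XT.lf (nat_lit 0) (nat_lit 1800255834) (nat_lit 304) (nat_lit 3658754931) (nat_lit 76) (nat_lit 3670303129) (nat_lit 111) (nat_lit 5) (nat_lit 115) (nat_lit 5) (nat_lit 112) (nat_lit 4) (nat_lit 419) (nat_lit 393) (nat_lit 388))) (XT.nd (nat_lit 78) (nat_lit 456) (nat_lit 0) (XT.lf (nat_lit 0) (nat_lit 8350898411) (nat_lit 228) (nat_lit 853489361) (nat_lit 0) (nat_lit 246882666) (nat_lit 109) (nat_lit 5)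 (nat_lit 112) (nat_lit 4) (nat_lit 109) (nat_lit 4) (nat_lit 420) (nat_lit 393) (nat_lit 387)) (XT.lf (nat_lit 0) (nat_lit 2091559976) (nat_lit 152) (nat_lit 3380853670) (nat_lit 228) (nat_lit 4320899190) (nat_lit 103) (nat_lit 5) (nat_lit 105) (nat_lit 5) (nat_lit 106) (nat_lit 4) (nat_lit 421) (nat_lit 393) (nat_lit 386)))) (XT.nd (nat_lit 156) (nat_lit 608) (nat_lit 0) (XT.nd (nat_lit 78) (nat_lit 152) (nat_lit 0) (XT.lf (nat_lit 0) (nat_lit 2271814580) (nat_lit 304) (nat_lit 4937058147) (nat_lit 76) (nat_lit 2952255840) (nat_lit 99) (nat_lit 5) (nat_lit 103) (nat_lit 5) (nat_lit 100) (nat_lit 4) (nat_lit 422) (nat_lit 393) (nat_lit 385)) (XT.lf (nat_lit 0) (nat_lit 8495243155) (nat_lit 152) (nat_lit 736322627) (nat_lit 228) (nat_lit 1323725153) (nat_lit 97) (nat_lit 5) (nat_lit 99) (nat_lit 5) (nat_lit 100) (nat_lit 4) (nat_lit 423) (nat_lit 393) (nat_lit 384))) (XT.nd (nat_lit 78) (nat_lit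 228) (nat_lit 0) (XT.lf (nat_lit 0) (nat_lit 903763520) (nat_lit 152) (nat_lit 4741644715) (nat_lit 228) (nat_lit 5327943672) (nat_lit 92) (nat_lit 5) (nat_lit 94) (nat_lit 5) (nat_lit 95) (nat_lit 4) (nat_lit 424) (nat_lit 393) (nat_lit 383)) (XT.lf (nat_lit 0) (nat_lit 1698381497) (nat_lit 228) (nat_lit 7329047357) (nat_lit 76) (nat_lit 2392479071) (nat_lit 89) (nat_lit 5) (nat_lit 92) (nat_lit 5) (nat_lit 90) (nat_lit 4) (nat_lit 425) (nat_lit 393) (nat_lit 382))))))) (XT.nd (nat_lit 1248) (nat_lit 1672) (nat_lit 0) (XT.nd (nat_lit 624) (nat_lit 1064) (nat_lit 0) (XT.nd (nat_lit 312) (nat_lit 760) (nat_lit 0) (XT.nd (nat_lit 156) (nat_lit 380) (nat_lit 0) (XT.nd (nat_lit 78) (nat_lit 228) (nat_lit 0) (XT.lf (nat_lit 0) (nat_lit 7369768808) (nat_lit 152) (nat_lit 1792113383) (nat_lit 228) (nat_lit 2732861887) (nat_lit 87) (nat_lit 5) (nat_lit 89) (nat_lit 5) (nat_lit 90) (nat_lit 4) (nat_lit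 426) (nat_lit 393) (nat_lit 381)) (XT.lf (nat_lit 0) (nat_lit 4752663672) (nat_lit 228) (nat_lit 1655996366) (nat_lit 76) (nat_lit 5990563086) (nat_lit 84) (nat_lit 5) (nat_lit 87) (nat_lit 5) (nat_lit 85) (nat_lit 4) (nat_lit 427) (nat_lit 393) (nat_lit 380))) (XT.nd (nat_lit 78) (nat_lit 152) (nat_lit 0) (XT.lf (nat_lit 0) (nat_lit 1397887468) (nat_lit 152) (nat_lit 11431656984) (nat_lit 152) (nat_lit 107870829) (nat_lit 81) (nat_lit 4) (nat_lit 83) (nat_lit 5) (nat_lit 83) (nat_lit 4) (nat_lit 428) (nat_lit 393) (nat_lit 379)) (XT.lf (nat_lit 0) (nat_lit 4520272593) (nat_lit 76) (nat_lit 3419754587) (nat_lit 152) (nat_lit 5564208433) (nat_lit 79) (nat_lit 5) (nat_lit 80) (nat_lit 5) (nat_lit 81) (nat_lit 4) (nat_lit 429) (nat_lit 393) (nat_lit 378)))) (XT.nd (nat_lit 156) (nat_lit 456) (nat_lit 0) (XT.nd (nat_lit 78) (nat_lit 76) (nat_lit 0) (XT.lf (nat_lit 0) (nat_lit 2556659334) (nat_lit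 228) (nat_lit 6337616221) (nat_lit 76) (nat_lit 5213813777) (nat_lit 76) (nat_lit 5) (nat_lit 79) (nat_lit 5) (nat_lit 77) (nat_lit 4) (nat_lit 430) (nat_lit 393) (nat_lit 377)) (XT.lf (nat_lit 0) (nat_lit 11129201467) (nat_lit 76) (nat_lit 120319045) (nat_lit 152) (nat_lit 3500312293) (nat_lit 75) (nat_lit 5) (nat_lit 76) (nat_lit 5) (nat_lit 77) (nat_lit 4) (nat_lit 431) (nat_lit 393) (nat_lit 376))) (XT.nd (nat_lit 78) (nat_lit 228) (nat_lit 0) (XT.lf (nat_lit 0) (nat_lit 5252150049) (nat_lit 228) (nat_lit 908972961) (nat_lit 76) (nat_lit 9266566143) (nat_lit 72) (nat_lit 5) (nat_lit 75) (nat_lit 5) (nat_lit 73) (nat_lit 4) (nat_lit 432) (nat_lit 393) (nat_lit 375)) (XT.lf (nat_lit 0) (nat_lit 1975531188) (nat_lit 152) (nat_lit 12783671534) (nat_lit 152) (nat_lit 1388855405) (nat_lit 69) (nat_lit 4) (nat_lit 71) (nat_lit 5) (nat_lit 71) (nat_lit 4) (nat_lit 433) (nat_lit 393) (nat_lit 374)))))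 (XT.nd (nat_lit 312) (nat_lit 532) (nat_lit 0) (XT.nd (nat_lit 156) (nat_lit 228) (nat_lit 0) (XT.nd (nat_lit 78) (nat_lit 152) (nat_lit 0) (XT.lf (nat_lit 0) (nat_lit 4886699017) (nat_lit 76) (nat_lit 3179681396) (nat_lit 152) (nat_lit 8842111851) (nat_lit 67) (nat_lit 5) (nat_lit 68) (nat_lit 5) (nat_lit 69) (nat_lit 4) (nat_lit 434) (nat_lit 393) (nat_lit 373)) (XT.lf (nat_lit 0) (nat_lit 722723110) (nat_lit 152) (nat_lit 9837549898) (nat_lit 76) (nat_lit 7156062542) (nat_lit 65) (nat_lit 5) (nat_lit 67) (nat_lit 5) (nat_lit 66) (nat_lit 4) (nat_lit 435) (nat_lit 393) (nat_lit 372))) (XT.nd (nat_lit 78) (nat_lit 152) (nat_lit 0) (XT.lf (nat_lit 0) (nat_lit 10896666495) (nat_lit 76) (nat_lit 41701407) (nat_lit 152) (nat_lit 7633423690) (nat_lit 64) (nat_lit 5) (nat_lit 65) (nat_lit 5) (nat_lit 66) (nat_lit 4) (nat_lit 436) (nat_lit 393) (nat_lit 371)) (XT.lf (nat_lit 0) (nat_lit 2733209989)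 (nat_lit 152) (nat_lit 5558297081) (nat_lit 76) (nat_lit 11185404231) (nat_lit 62) (nat_lit 5) (nat_lit 64) (nat_lit 5) (nat_lit 63) (nat_lit 4) (nat_lit 437) (nat_lit 393) (nat_lit 370)))) (XT.nd (nat_lit 156) (nat_lit 304) (nat_lit 0) (XT.nd (nat_lit 78) (nat_lit 152) (nat_lit 0) (XT.lf (nat_lit 0) (nat_lit 13887385304) (nat_lit 152) (nat_lit 3453651663) (nat_lit 0) (nat_lit 3095866966) (nat_lit 61) (nat_lit 5) (nat_lit 63) (nat_lit 4) (nat_lit 61) (nat_lit 4) (nat_lit 438) (nat_lit 393) (nat_lit 369)) (XT.lf (nat_lit 0) (nat_lit 4652125413) (nat_lit 152) (nat_lit 1404323227) (nat_lit 76) (nat_lit 15397033857) (nat_lit 59) (nat_lit 5) (nat_lit 61) (nat_lit 5) (nat_lit 60) (nat_lit 4) (nat_lit 439) (nat_lit 393) (nat_lit 368))) (XT.nd (nat_lit 78) (nat_lit 152) (nat_lit 0) (XT.lf (nat_lit 0) (nat_lit 600252127) (nat_lit 76) (nat_lit 16240940023) (nat_lit 76) (nat_lit 5688791222) (nat_lit 57)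 (nat_lit 4) (nat_lit 58) (nat_lit 5) (nat_lit 58) (nat_lit 4) (nat_lit 440) (nat_lit 393) (nat_lit 367)) (XT.lf (nat_lit 0) (nat_lit 2576452776) (nat_lit 76) (nat_lit 3887353350) (nat_lit 152) (nat_lit 17206218392) (nat_lit 55) (nat_lit 5) (nat_lit 56) (nat_lit 5) (nat_lit 57) (nat_lit 4) (nat_lit 441) (nat_lit 393) (nat_lit 366)))))) (XT.nd (nat_lit 624) (nat_lit 760) (nat_lit 0) (XT.nd (nat_lit 312) (nat_lit 456) (nat_lit 0) (XT.nd (nat_lit 156) (nat_lit 228) (nat_lit 0) (XT.nd (nat_lit 78) (nat_lit 152) (nat_lit 0) (XT.lf (nat_lit 0) (nat_lit 4416154790) (nat_lit 76) (nat_lit 15367277507) (nat_lit 76) (nat_lit 5093469086) (nat_lit 54) (nat_lit 4) (nat_lit 55) (nat_lit 5) (nat_lit 55) (nat_lit 4) (nat_lit 442) (nat_lit 393) (nat_lit 365)) (XT.lf (nat_lit 0) (nat_lit 6150427530) (nat_lit 76) (nat_lit 1910067427) (nat_lit 152) (nat_lit 18097205525) (nat_lit 52) (nat_lit 5) (nat_lit 53) (nat_lit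 5) (nat_lit 54) (nat_lit 4) (nat_lit 443) (nat_lit 393) (nat_lit 364))) (XT.nd (nat_lit 78) (nat_lit 152) (nat_lit 0) (XT.lf (nat_lit 0) (nat_lit 7657013136) (nat_lit 76) (nat_lit 14911676865) (nat_lit 76) (nat_lit 4944081790) (nat_lit 51) (nat_lit 4) (nat_lit 52) (nat_lit 5) (nat_lit 52) (nat_lit 4) (nat_lit 444) (nat_lit 393) (nat_lit 363)) (XT.lf (nat_lit 0) (nat_lit 9009488913) (nat_lit 76) (nat_lit 287366998) (nat_lit 152) (nat_lit 19655565291) (nat_lit 49) (nat_lit 5) (nat_lit 50) (nat_lit 5) (nat_lit 51) (nat_lit 4) (nat_lit 445) (nat_lit 393) (nat_lit 362)))) (XT.nd (nat_lit 156) (nat_lit 228) (nat_lit 0) (XT.nd (nat_lit 78) (nat_lit 152) (nat_lit 0) (XT.lf (nat_lit 0) (nat_lit 10016398371) (nat_lit 76) (nat_lit 15050511176) (nat_lit 76) (nat_lit 5408128819) (nat_lit 48) (nat_lit 4) (nat_lit 49) (nat_lit 5) (nat_lit 49) (nat_lit 4) (nat_lit 446) (nat_lit 393) (nat_lit 361)) (XT.lf (nat_lit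 0) (nat_lit 10014731952) (nat_lit 152) (nat_lit 21311036247) (nat_lit 0) (nat_lit 768156524) (nat_lit 46) (nat_lit 5) (nat_lit 48) (nat_lit 4) (nat_lit 46) (nat_lit 4) (nat_lit 447) (nat_lit 393) (nat_lit 360))) (XT.nd (nat_lit 78) (nat_lit 152) (nat_lit 0) (XT.lf (nat_lit 0) (nat_lit 11077546650) (nat_lit 76) (nat_lit 16017463470) (nat_lit 76) (nat_lit 6712226804) (nat_lit 45) (nat_lit 4) (nat_lit 46) (nat_lit 5) (nat_lit 46) (nat_lit 4) (nat_lit 448) (nat_lit 393) (nat_lit 359)) (XT.lf (nat_lit 0) (nat_lit 9960760639) (nat_lit 152) (nat_lit 24622586557) (nat_lit 0) (nat_lit 1046900995) (nat_lit 43) (nat_lit 5) (nat_lit 45) (nat_lit 4) (nat_lit 43) (nat_lit 4) (nat_lit 449) (nat_lit 393) (nat_lit 358))))) (XT.nd (nat_lit 312) (nat_lit 304) (nat_lit 0) (XT.nd (nat_lit 156) (nat_lit 228) (nat_lit 0) (XT.nd (nat_lit 78) (nat_lit 152) (nat_lit 0) (XT.lf (nat_lit 0) (nat_lit 10278685596) (nat_lit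 76) (nat_lit 18121638020) (nat_lit 76) (nat_lit 9159880705) (nat_lit 42) (nat_lit 4) (nat_lit 43) (nat_lit 5) (nat_lit 43) (nat_lit 4) (nat_lit 450) (nat_lit 393) (nat_lit 357)) (XT.lf (nat_lit 0) (nat_lit 8810507880) (nat_lit 152) (nat_lit 30573141964) (nat_lit 0) (nat_lit 233263107) (nat_lit 40) (nat_lit 5) (nat_lit 42) (nat_lit 4) (nat_lit 40) (nat_lit 4) (nat_lit 451) (nat_lit 393) (nat_lit 356))) (XT.nd (nat_lit 78) (nat_lit 152) (nat_lit 0) (XT.lf (nat_lit 0) (nat_lit 6868127114) (nat_lit 76) (nat_lit 21770903271) (nat_lit 76) (nat_lit 13154549419) (nat_lit 39) (nat_lit 4) (nat_lit 40) (nat_lit 5) (nat_lit 40) (nat_lit 4) (nat_lit 452) (nat_lit 393) (nat_lit 355)) (XT.lf (nat_lit 0) (nat_lit 3995557807) (nat_lit 76) (nat_lit 2174258666) (nat_lit 152) (nat_lit 37947475889) (nat_lit 37) (nat_lit 5) (nat_lit 38) (nat_lit 5) (nat_lit 39) (nat_lit 4) (nat_lit 453) (nat_lit 393) (nat_lit 354))))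 (XT.nd (nat_lit 156) (nat_lit 152) (nat_lit 0) (XT.nd (nat_lit 78) (nat_lit 152) (nat_lit 0) (XT.lf (nat_lit 0) (nat_lit 27350548562) (nat_lit 152) (nat_lit 148930593) (nat_lit 0) (nat_lit 19078076471) (nat_lit 37) (nat_lit 5) (nat_lit 39) (nat_lit 4) (nat_lit 37) (nat_lit 4) (nat_lit 454) (nat_lit 393) (nat_lit 353)) (XT.lf (nat_lit 0) (nat_lit 1555838152) (nat_lit 152) (nat_lit 5112571543) (nat_lit 76) (nat_lit 42535634021) (nat_lit 35) (nat_lit 5) (nat_lit 37) (nat_lit 5) (nat_lit 36) (nat_lit 4) (nat_lit 455) (nat_lit 393) (nat_lit 352))) (XT.nd (nat_lit 78) (nat_lit 76) (nat_lit 0) (XT.lf (nat_lit 0) (nat_lit 24098271546) (nat_lit 152) (nat_lit 11722597603) (nat_lit 0) (nat_lit 16165493238) (nat_lit 34) (nat_lit 5) (nat_lit 36) (nat_lit 4) (nat_lit 34) (nat_lit 4) (nat_lit 456) (nat_lit 393) (nat_lit 351)) (XT.lf (nat_lit 0) (nat_lit 35214990812) (nat_lit 76) (nat_lit 13851049891) (nat_lit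 76) (nat_lit 5894129195) (nat_lit 33) (nat_lit 4) (nat_lit 34) (nat_lit 5) (nat_lit 34) (nat_lit 4) (nat_lit 457) (nat_lit 393) (nat_lit 350))))))))
noncomputable def xc35 : XT := (XT.nd (nat_lit 2496) (nat_lit 228) (nat_lit 0) (XT.nd (nat_lit 1248) (nat_lit 760) (nat_lit 0) (XT.nd (nat_lit 624) (nat_lit 532) (nat_lit 0) (XT.nd (nat_lit 312) (nat_lit 380) (nat_lit 0) (XT.nd (nat_lit 156) (nat_lit 152) (nat_lit 0) (XT.nd (nat_lit 78) (nat_lit 76) (nat_lit 0) (XT.lf (nat_lit 0) (nat_lit 17981179322) (nat_lit 152) (nat_lit 29760219260) (nat_lit 0) (nat_lit 10381870028) (nat_lit 31) (nat_lit 5) (nat_lit 33) (nat_lit 4) (nat_lit 31) (nat_lit 4) (nat_lit 458) (nat_lit 393) (nat_lit 349)) (XT.lf (nat_lit 0) (nat_lit 19539760468) (nat_lit 76) (nat_lit 24787735717) (nat_lit 76) (nat_lit 17168713846) (nat_lit 30) (nat_lit 4) (nat_lit 31) (nat_lit 5) (nat_lit 31) (nat_lit 4) (nat_lit 459) (nat_lit 393)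 (nat_lit 348))) (XT.nd (nat_lit 78) (nat_lit 0) (nat_lit 0) (XT.lf (nat_lit 0) (nat_lit 7950618565) (nat_lit 152) (nat_lit 56477743606) (nat_lit 0) (nat_lit 677024034) (nat_lit 28) (nat_lit 5) (nat_lit 30) (nat_lit 4) (nat_lit 28) (nat_lit 4) (nat_lit 460) (nat_lit 393) (nat_lit 347)) (XT.lf (nat_lit 0) (nat_lit 35530249560) (nat_lit 152) (nat_lit 5165802012) (nat_lit 0) (nat_lit 28240559450) (nat_lit 28) (nat_lit 5) (nat_lit 30) (nat_lit 4) (nat_lit 28) (nat_lit 4) (nat_lit 461) (nat_lit 393) (nat_lit 346)))) (XT.nd (nat_lit 156) (nat_lit 152) (nat_lit 0) (XT.nd (nat_lit 78) (nat_lit 152) (nat_lit 0) (XT.lf (nat_lit 0) (nat_lit 51686575074) (nat_lit 76) (nat_lit 14328700595) (nat_lit 76) (nat_lit 7024107171) (nat_lit 27) (nat_lit 4) (nat_lit 28) (nat_lit 5) (nat_lit 28) (nat_lit 4) (nat_lit 462) (nat_lit 393) (nat_lit 345)) (XT.lf (nat_lit 0) (nat_lit 21572315370) (nat_lit 152) (nat_lit 41239348364)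 (nat_lit 0) (nat_lit 14602417477) (nat_lit 25) (nat_lit 5) (nat_lit 27) (nat_lit 4) (nat_lit 25) (nat_lit 4) (nat_lit 463) (nat_lit 393) (nat_lit 344))) (XT.nd (nat_lit 78) (nat_lit 76) (nat_lit 0) (XT.lf (nat_lit 0) (nat_lit 16915135134) (nat_lit 76) (nat_lit 36080337075) (nat_lit 76) (nat_lit 29098270429) (nat_lit 24) (nat_lit 4) (nat_lit 25) (nat_lit 5) (nat_lit 25) (nat_lit 4) (nat_lit 464) (nat_lit 393) (nat_lit 343)) (XT.lf (nat_lit 0) (nat_lit 422667188) (nat_lit 152) (nat_lit 6126866270) (nat_lit 76) (nat_lit 80566858181) (nat_lit 23) (nat_lit 5) (nat_lit 25) (nat_lit 5) (nat_lit 24) (nat_lit 4) (nat_lit 465) (nat_lit 393) (nat_lit 342))))) (XT.nd (nat_lit 312) (nat_lit 228) (nat_lit 0) (XT.nd (nat_lit 156) (nat_lit 152) (nat_lit 0) (XT.nd (nat_lit 78) (nat_lit 76) (nat_lit 0) (XT.lf (nat_lit 0) (nat_lit 32543939793) (nat_lit 152) (nat_lit 34036470069) (nat_lit 0) (nat_lit 25873685743)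 (nat_lit 22) (nat_lit 5) (nat_lit 24) (nat_lit 4) (nat_lit 22) (nat_lit 4) (nat_lit 466) (nat_lit 393) (nat_lit 341)) (XT.lf (nat_lit 0) (nat_lit 30824179926) (nat_lit 76) (nat_lit 37021769184) (nat_lit 76) (nat_lit 30342315184) (nat_lit 21) (nat_lit 4) (nat_lit 22) (nat_lit 5) (nat_lit 22) (nat_lit 4) (nat_lit 467) (nat_lit 393) (nat_lit 340))) (XT.nd (nat_lit 78) (nat_lit 76) (nat_lit 0) (XT.lf (nat_lit 0) (nat_lit 2056014415) (nat_lit 152) (nat_lit 2473142920) (nat_lit 76) (nat_lit 99824968211) (nat_lit 20) (nat_lit 5) (nat_lit 22) (nat_lit 5) (nat_lit 21) (nat_lit 4) (nat_lit 468) (nat_lit 393) (nat_lit 339)) (XT.lf (nat_lit 0) (nat_lit 37498710392) (nat_lit 152) (nat_lit 42292196415) (nat_lit 0) (nat_lit 31121700920) (nat_lit 19) (nat_lit 5) (nat_lit 21) (nat_lit 4) (nat_lit 19) (nat_lit 4) (nat_lit 469) (nat_lit 393) (nat_lit 338)))) (XT.nd (nat_lit 156) (nat_lit 152) (nat_lit 0) (XT.nd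 (nat_lit 78) (nat_lit 0) (nat_lit 0) (XT.lf (nat_lit 0) (nat_lit 28161794452) (nat_lit 76) (nat_lit 48096922167) (nat_lit 76) (nat_lit 41712957250) (nat_lit 18) (nat_lit 4) (nat_lit 19) (nat_lit 5) (nat_lit 19) (nat_lit 4) (nat_lit 470) (nat_lit 393) (nat_lit 337)) (XT.lf (nat_lit 0) (nat_lit 105610605985) (nat_lit 76) (nat_lit 13171078262) (nat_lit 76) (nat_lit 6780673118) (nat_lit 18) (nat_lit 4) (nat_lit 19) (nat_lit 5) (nat_lit 19) (nat_lit 4) (nat_lit 471) (nat_lit 393) (nat_lit 336))) (XT.nd (nat_lit 78) (nat_lit 0) (nat_lit 0) (XT.lf (nat_lit 0) (nat_lit 31175125242) (nat_lit 152) (nat_lit 77416696511) (nat_lit 0) (nat_lit 25083345893) (nat_lit 16) (nat_lit 5) (nat_lit 18) (nat_lit 4) (nat_lit 16) (nat_lit 4) (nat_lit 472) (nat_lit 393) (nat_lit 335)) (XT.lf (nat_lit 0) (nat_lit 72440160477) (nat_lit 152) (nat_lit 3622645098) (nat_lit 0) (nat_lit 66343122598) (nat_lit 16) (nat_lit 5) (nat_lit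 18) (nat_lit 4) (nat_lit 16) (nat_lit 4) (nat_lit 473) (nat_lit 393) (nat_lit 334)))))) (XT.nd (nat_lit 624) (nat_lit 304) (nat_lit 0) (XT.nd (nat_lit 312) (nat_lit 228) (nat_lit 0) (XT.nd (nat_lit 156) (nat_lit 0) (nat_lit 0) (XT.nd (nat_lit 78) (nat_lit 152) (nat_lit 0) (XT.lf (nat_lit 0) (nat_lit 78457465525) (nat_lit 76) (nat_lit 39710750065) (nat_lit 76) (nat_lit 33608843177) (nat_lit 15) (nat_lit 4) (nat_lit 16) (nat_lit 5) (nat_lit 16) (nat_lit 4) (nat_lit 474) (nat_lit 393) (nat_lit 333)) (XT.lf (nat_lit 0) (nat_lit 5293669854) (nat_lit 76) (nat_lit 267347259) (nat_lit 152) (nat_lit 156328175500) (nat_lit 13) (nat_lit 5) (nat_lit 14) (nat_lit 5) (nat_lit 15) (nat_lit 4) (nat_lit 475) (nat_lit 393) (nat_lit 332))) (XT.nd (nat_lit 78) (nat_lit 0) (nat_lit 0) (XT.lf (nat_lit 0) (nat_lit 48602117536) (nat_lit 152) (nat_lit 81302366017) (nat_lit 0) (nat_lit 42782508374) (nat_lit 13) (nat_lit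 5) (nat_lit 15) (nat_lit 4) (nat_lit 13) (nat_lit 4) (nat_lit 476) (nat_lit 393) (nat_lit 331)) (XT.lf (nat_lit 0) (nat_lit 95035799546) (nat_lit 152) (nat_lit 102841761) (nat_lit 0) (nat_lit 89212509264) (nat_lit 13) (nat_lit 5) (nat_lit 15) (nat_lit 4) (nat_lit 13) (nat_lit 4) (nat_lit 477) (nat_lit 393) (nat_lit 330)))) (XT.nd (nat_lit 156) (nat_lit 152) (nat_lit 0) (XT.nd (nat_lit 78) (nat_lit 0) (nat_lit 0) (XT.lf (nat_lit 0) (nat_lit 90381168240) (nat_lit 76) (nat_lit 56162986753) (nat_lit 76) (nat_lit 50336288026) (nat_lit 12) (nat_lit 4) (nat_lit 13) (nat_lit 5) (nat_lit 13) (nat_lit 4) (nat_lit 478) (nat_lit 393) (nat_lit 329)) (XT.lf (nat_lit 0) (nat_lit 188007863525) (nat_lit 76) (nat_lit 14118212611) (nat_lit 76) (nat_lit 8288357916) (nat_lit 12) (nat_lit 4) (nat_lit 13) (nat_lit 5) (nat_lit 13) (nat_lit 4) (nat_lit 479) (nat_lit 393) (nat_lit 328))) (XT.nd (nat_lit 78) (nat_lit 0)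 (nat_lit 0) (XT.lf (nat_lit 0) (nat_lit 37496986417) (nat_lit 152) (nat_lit 155485129132) (nat_lit 0) (nat_lit 31941960810) (nat_lit 10) (nat_lit 5) (nat_lit 12) (nat_lit 4) (nat_lit 10) (nat_lit 4) (nat_lit 480) (nat_lit 393) (nat_lit 327)) (XT.lf (nat_lit 0) (nat_lit 87248700084) (nat_lit 152) (nat_lit 71618202413) (nat_lit 0) (nat_lit 81691097589) (nat_lit 10) (nat_lit 5) (nat_lit 12) (nat_lit 4) (nat_lit 10) (nat_lit 4) (nat_lit 481) (nat_lit 393) (nat_lit 326))))) (XT.nd (nat_lit 312) (nat_lit 76) (nat_lit 0) (XT.nd (nat_lit 156) (nat_lit 152) (nat_lit 0) (XT.nd (nat_lit 78) (nat_lit 0) (nat_lit 0) (XT.lf (nat_lit 0) (nat_lit 19497632437) (nat_lit 76) (nat_lit 121745921822) (nat_lit 76) (nat_lit 116185933319) (nat_lit 9) (nat_lit 4) (nat_lit 10) (nat_lit 5) (nat_lit 10) (nat_lit 4) (nat_lit 482) (nat_lit 393) (nat_lit 325)) (XT.lf (nat_lit 0) (nat_lit 120379376893) (nat_lit 76) (nat_lit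 80386559014) (nat_lit 76) (nat_lit 74824361244) (nat_lit 9) (nat_lit 4) (nat_lit 10) (nat_lit 5) (nat_lit 10) (nat_lit 4) (nat_lit 483) (nat_lit 393) (nat_lit 324))) (XT.nd (nat_lit 78) (nat_lit 152) (nat_lit 0) (XT.lf (nat_lit 0) (nat_lit 229256827491) (nat_lit 76) (nat_lit 35756610464) (nat_lit 76) (nat_lit 30192367076) (nat_lit 9) (nat_lit 4) (nat_lit 10) (nat_lit 5) (nat_lit 10) (nat_lit 4) (nat_lit 484) (nat_lit 393) (nat_lit 323)) (XT.lf (nat_lit 0) (nat_lit 18091048423) (nat_lit 152) (nat_lit 285462615549) (nat_lit 0) (nat_lit 12789965111) (nat_lit 7) (nat_lit 5) (nat_lit 9) (nat_lit 4) (nat_lit 7) (nat_lit 4) (nat_lit 485) (nat_lit 393) (nat_lit 322)))) (XT.nd (nat_lit 156) (nat_lit 76) (nat_lit 0) (XT.nd (nat_lit 78) (nat_lit 0) (nat_lit 0) (XT.lf (nat_lit 0) (nat_lit 70930485816) (nat_lit 152) (nat_lit 202501956094) (nat_lit 0) (nat_lit 65627732230) (nat_lit 7) (nat_lit 5) (nat_lit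 9) (nat_lit 4) (nat_lit 7) (nat_lit 4) (nat_lit 486) (nat_lit 393) (nat_lit 321)) (XT.lf (nat_lit 0) (nat_lit 127966020319) (nat_lit 152) (nat_lit 112967855220) (nat_lit 0) (nat_lit 122661720183) (nat_lit 7) (nat_lit 5) (nat_lit 9) (nat_lit 4) (nat_lit 7) (nat_lit 4) (nat_lit 487) (nat_lit 393) (nat_lit 320))) (XT.nd (nat_lit 78) (nat_lit 76) (nat_lit 0) (XT.lf (nat_lit 0) (nat_lit 189535640283) (nat_lit 152) (nat_lit 16329740479) (nat_lit 0) (nat_lit 184229908158) (nat_lit 7) (nat_lit 5) (nat_lit 9) (nat_lit 4) (nat_lit 7) (nat_lit 4) (nat_lit 488) (nat_lit 393) (nat_lit 319)) (XT.lf (nat_lit 0) (nat_lit 90894241824) (nat_lit 76) (nat_lit 166529074739) (nat_lit 76) (nat_lit 161222016696) (nat_lit 6) (nat_lit 4) (nat_lit 7) (nat_lit 5) (nat_lit 7) (nat_lit 4) (nat_lit 489) (nat_lit 393) (nat_lit 318))))))) (XT.nd (nat_lit 1248) (nat_lit 0) (nat_lit 0) (XT.nd (nat_lit 624) (nat_lit 76) (nat_lit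 0) (XT.nd (nat_lit 312) (nat_lit 0) (nat_lit 0) (XT.nd (nat_lit 156) (nat_lit 152) (nat_lit 0) (XT.nd (nat_lit 78) (nat_lit 0) (nat_lit 0) (XT.lf (nat_lit 0) (nat_lit 207227270111) (nat_lit 76) (nat_lit 123773723727) (nat_lit 76) (nat_lit 118465437983) (nat_lit 6) (nat_lit 4) (nat_lit 7) (nat_lit 5) (nat_lit 7) (nat_lit 4) (nat_lit 490) (nat_lit 393) (nat_lit 317)) (XT.lf (nat_lit 0) (nat_lit 332818790323) (nat_lit 76) (nat_lit 77622514739) (nat_lit 76) (nat_lit 72313092235) (nat_lit 6) (nat_lit 4) (nat_lit 7) (nat_lit 5) (nat_lit 7) (nat_lit 4) (nat_lit 491) (nat_lit 393) (nat_lit 316))) (XT.nd (nat_lit 78) (nat_lit 152) (nat_lit 0) (XT.lf (nat_lit 0) (nat_lit 468413048506) (nat_lit 76) (nat_lit 27801959131) (nat_lit 76) (nat_lit 22491484071) (nat_lit 6) (nat_lit 4) (nat_lit 7) (nat_lit 5) (nat_lit 7) (nat_lit 4) (nat_lit 492) (nat_lit 393) (nat_lit 315)) (XT.lf (nat_lit 0) (nat_lit 31637652759)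 (nat_lit 152) (nat_lit 499227320090) (nat_lit 0) (nat_lit 26579129284) (nat_lit 4) (nat_lit 5) (nat_lit 6) (nat_lit 4) (nat_lit 4) (nat_lit 4) (nat_lit 493) (nat_lit 393) (nat_lit 314)))) (XT.nd (nat_lit 156) (nat_lit 0) (nat_lit 0) (XT.nd (nat_lit 78) (nat_lit 0) (nat_lit 0) (XT.lf (nat_lit 0) (nat_lit 90658924150) (nat_lit 152) (nat_lit 422936330579) (nat_lit 0) (nat_lit 85599541250) (nat_lit 4) (nat_lit 5) (nat_lit 6) (nat_lit 4) (nat_lit 4) (nat_lit 4) (nat_lit 494) (nat_lit 393) (nat_lit 313)) (XT.lf (nat_lit 0) (nat_lit 154383404565) (nat_lit 152) (nat_lit 340579839516) (nat_lit 0) (nat_lit 149323225901) (nat_lit 4) (nat_lit 5) (nat_lit 6) (nat_lit 4) (nat_lit 4) (nat_lit 4) (nat_lit 495) (nat_lit 393) (nat_lit 312))) (XT.nd (nat_lit 78) (nat_lit 0) (nat_lit 0) (XT.lf (nat_lit 0) (nat_lit 223188720554) (nat_lit 152) (nat_lit 251669808435) (nat_lit 0) (nat_lit 218127805071) (nat_lit 4) (nat_lit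 5) (nat_lit 6) (nat_lit 4) (nat_lit 4) (nat_lit 4) (nat_lit 496) (nat_lit 393) (nat_lit 311)) (XT.lf (nat_lit 0) (nat_lit 297482607323) (nat_lit 152) (nat_lit 155679363078) (nat_lit 0) (nat_lit 292421009599) (nat_lit 4) (nat_lit 5) (nat_lit 6) (nat_lit 4) (nat_lit 4) (nat_lit 4) (nat_lit 497) (nat_lit 393) (nat_lit 310))))) (XT.nd (nat_lit 312) (nat_lit 0) (nat_lit 0) (XT.nd (nat_lit 156) (nat_lit 0) (nat_lit 0) (XT.nd (nat_lit 78) (nat_lit 76) (nat_lit 0) (XT.lf (nat_lit 0) (nat_lit 377705324941) (nat_lit 152) (nat_lit 52039671177) (nat_lit 0) (nat_lit 372643095514) (nat_lit 4) (nat_lit 5) (nat_lit 6) (nat_lit 4) (nat_lit 4) (nat_lit 4) (nat_lit 498) (nat_lit 393) (nat_lit 309)) (XT.lf (nat_lit 0) (nat_lit 61842783700) (nat_lit 76) (nat_lit 403455022758) (nat_lit 76) (nat_lit 398392208420) (nat_lit 3) (nat_lit 4) (nat_lit 4) (nat_lit 5) (nat_lit 4) (nat_lit 4) (nat_lit 499) (nat_lit 393) (nat_lit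 308))) (XT.nd (nat_lit 78) (nat_lit 0) (nat_lit 0) (XT.lf (nat_lit 0) (nat_lit 186667593917) (nat_lit 76) (nat_lit 374123589574) (nat_lit 76) (nat_lit 369060233653) (nat_lit 3) (nat_lit 4) (nat_lit 4) (nat_lit 5) (nat_lit 4) (nat_lit 4) (nat_lit 500) (nat_lit 393) (nat_lit 307)) (XT.lf (nat_lit 0) (nat_lit 321453795506) (nat_lit 76) (nat_lit 342458197678) (nat_lit 76) (nat_lit 337394340290) (nat_lit 3) (nat_lit 4) (nat_lit 4) (nat_lit 5) (nat_lit 4) (nat_lit 4) (nat_lit 501) (nat_lit 393) (nat_lit 306)))) (XT.nd (nat_lit 156) (nat_lit 0) (nat_lit 0) (XT.nd (nat_lit 78) (nat_lit 0) (nat_lit 0) (XT.lf (nat_lit 0) (nat_lit 467000121513) (nat_lit 76) (nat_lit 308271200303) (nat_lit 76) (nat_lit 303206878594) (nat_lit 3) (nat_lit 4) (nat_lit 4) (nat_lit 5) (nat_lit 4) (nat_lit 4) (nat_lit 502) (nat_lit 393) (nat_lit 305)) (XT.lf (nat_lit 0) (nat_lit 624169068686) (nat_lit 76) (nat_lit 271360007835)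 (nat_lit 76) (nat_lit 266295256199) (nat_lit 3) (nat_lit 4) (nat_lit 4) (nat_lit 5) (nat_lit 4) (nat_lit 4) (nat_lit 503) (nat_lit 393) (nat_lit 304))) (XT.nd (nat_lit 78) (nat_lit 0) (nat_lit 0) (XT.lf (nat_lit 0) (nat_lit 793892008562) (nat_lit 76) (nat_lit 231505887281) (nat_lit 76) (nat_lit 226440737565) (nat_lit 3) (nat_lit 4) (nat_lit 4) (nat_lit 5) (nat_lit 4) (nat_lit 4) (nat_lit 504) (nat_lit 393) (nat_lit 303)) (XT.lf (nat_lit 0) (nat_lit 977174706712) (nat_lit 76) (nat_lit 188472666076) (nat_lit 76) (nat_lit 183407147767) (nat_lit 3) (nat_lit 4) (nat_lit 4) (nat_lit 5) (nat_lit 4) (nat_lit 4) (nat_lit 505) (nat_lit 393) (nat_lit 302)))))) (XT.nd (nat_lit 55692) (nat_lit 0) (nat_lit 6384) (XT.nd (nat_lit 55380) (nat_lit 0) (nat_lit 8512) (XT.nd (nat_lit 55224) (nat_lit 0) (nat_lit 10412) (XT.nd (nat_lit 55146) (nat_lit 0) (nat_lit 11172) (XT.lf (nat_lit 0) (nat_lit 1175103282828) (nat_lit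 76) (nat_lit 142005332537) (nat_lit 76) (nat_lit 136939472939) (nat_lit 3) (nat_lit 4) (nat_lit 4) (nat_lit 5) (nat_lit 4) (nat_lit 4) (nat_lit 506) (nat_lit 393) (nat_lit 301)) (XT.lf (nat_lit 0) (nat_lit 862331843) (nat_lit 456) (nat_lit 2013826867) (nat_lit 0) (nat_lit 862331843) (nat_lit 150) (nat_lit 5) (nat_lit 156) (nat_lit 4) (nat_lit 150) (nat_lit 4) (nat_lit 412) (nat_lit 394) (nat_lit 394))) (XT.nd (nat_lit 78) (nat_lit 304) (nat_lit 0) (XT.lf (nat_lit 0) (nat_lit 52434618) (nat_lit 456) (nat_lit 2129860342) (nat_lit 76) (nat_lit 5478650292) (nat_lit 144) (nat_lit 5) (nat_lit 150) (nat_lit 5) (nat_lit 145) (nat_lit 4) (nat_lit 413) (nat_lit 394) (nat_lit 393)) (XT.lf (nat_lit 0) (nat_lit 5931871025) (nat_lit 380) (nat_lit 104394236) (nat_lit 0) (nat_lit 1828087315) (nat_lit 140) (nat_lit 5) (nat_lit 145) (nat_lit 4) (nat_lit 140) (nat_lit 4) (nat_lit 414) (nat_lit 394) (nat_lit 392))))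 (XT.nd (nat_lit 156) (nat_lit 836) (nat_lit 0) (XT.nd (nat_lit 78) (nat_lit 380) (nat_lit 0) (XT.lf (nat_lit 0) (nat_lit 2139503660) (nat_lit 304) (nat_lit 1797137394) (nat_lit 380) (nat_lit 4150475552) (nat_lit 131) (nat_lit 5) (nat_lit 135) (nat_lit 5) (nat_lit 136) (nat_lit 4) (nat_lit 415) (nat_lit 394) (nat_lit 391)) (XT.lf (nat_lit 0) (nat_lit 1691901444) (nat_lit 380) (nat_lit 3790760890) (nat_lit 76) (nat_lit 2848479815) (nat_lit 126) (nat_lit 5) (nat_lit 131) (nat_lit 5) (nat_lit 127) (nat_lit 4) (nat_lit 416) (nat_lit 394) (nat_lit 390))) (XT.nd (nat_lit 78) (nat_lit 608) (nat_lit 0) (XT.lf (nat_lit 0) (nat_lit 7102969900) (nat_lit 228) (nat_lit 630570038) (nat_lit 304) (nat_lit 863907288) (nat_lit 123) (nat_lit 5) (nat_lit 126) (nat_lit 5) (nat_lit 127) (nat_lit 4) (nat_lit 417) (nat_lit 394) (nat_lit 389)) (XT.lf (nat_lit 0) (nat_lit 916816113) (nat_lit 228) (nat_lit 4237460794) (nat_lit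 304) (nat_lit 3728965570) (nat_lit 115) (nat_lit 5) (nat_lit 118) (nat_lit 5) (nat_lit 119) (nat_lit 4) (nat_lit 418) (nat_lit 394) (nat_lit 388))))) (XT.nd (nat_lit 312) (nat_lit 912) (nat_lit 0) (XT.nd (nat_lit 156) (nat_lit 760) (nat_lit 0) (XT.nd (nat_lit 78) (nat_lit 152) (nat_lit 0) (XT.lf (nat_lit 0) (nat_lit 2293618154) (nat_lit 304) (nat_lit 5647973776) (nat_lit 76) (nat_lit 1250770042) (nat_lit 111) (nat_lit 5) (nat_lit 115) (nat_lit 5) (nat_lit 112) (nat_lit 4) (nat_lit 419) (nat_lit 394) (nat_lit 387)) (XT.lf (nat_lit 0) (nat_lit 6291341145) (nat_lit 152) (nat_lit 2350243247) (nat_lit 228) (nat_lit 882876145) (nat_lit 109) (nat_lit 5) (nat_lit 111) (nat_lit 5) (nat_lit 112) (nat_lit 4) (nat_lit 420) (nat_lit 394) (nat_lit 386))) (XT.nd (nat_lit 78) (nat_lit 456) (nat_lit 0) (XT.lf (nat_lit 0) (nat_lit 5412490241) (nat_lit 304) (nat_lit 731410241) (nat_lit 76) (nat_lit 3735962810)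 (nat_lit 105) (nat_lit 5) (nat_lit 109) (nat_lit 5) (nat_lit 106) (nat_lit 4) (nat_lit 421) (nat_lit 394) (nat_lit 385)) (XT.lf (nat_lit 0) (nat_lit 1864573621) (nat_lit 304) (nat_lit 8276636770) (nat_lit 76) (nat_lit 119862117) (nat_lit 99) (nat_lit 5) (nat_lit 103) (nat_lit 5) (nat_lit 100) (nat_lit 4) (nat_lit 422) (nat_lit 394) (nat_lit 384)))) (XT.nd (nat_lit 156) (nat_lit 532) (nat_lit 0) (XT.nd (nat_lit 78) (nat_lit 228) (nat_lit 0) (XT.lf (nat_lit 0) (nat_lit 4791429451) (nat_lit 152) (nat_lit 3825041269) (nat_lit 228) (nat_lit 2049162768) (nat_lit 97) (nat_lit 5) (nat_lit 99) (nat_lit 5) (nat_lit 100) (nat_lit 4) (nat_lit 423) (nat_lit 394) (nat_lit 383)) (XT.lf (nat_lit 0) (nat_lit 4667989466) (nat_lit 228) (nat_lit 3371931296) (nat_lit 76) (nat_lit 3058105202) (nat_lit 94) (nat_lit 5) (nat_lit 97) (nat_lit 5) (nat_lit 95) (nat_lit 4) (nat_lit 424) (nat_lit 394) (nat_lit 382))) (XT.nd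 (nat_lit 78) (nat_lit 304) (nat_lit 0) (XT.lf (nat_lit 0) (nat_lit 327855001) (nat_lit 228) (nat_lit 744758927) (nat_lit 76) (nat_lit 10488018361) (nat_lit 91) (nat_lit 5) (nat_lit 94) (nat_lit 5) (nat_lit 92) (nat_lit 5) (nat_lit 425) (nat_lit 394) (nat_lit 381)) (XT.lf (nat_lit 0) (nat_lit 1970270280) (nat_lit 152) (nat_lit 5568023599) (nat_lit 228) (nat_lit 4509831911) (nat_lit 87) (nat_lit 5) (nat_lit 89) (nat_lit 5) (nat_lit 90) (nat_lit 4) (nat_lit 426) (nat_lit 394) (nat_lit 380))))))))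
noncomputable def xc36 : XT := (XT.nd (nat_lit 2418) (nat_lit 2052) (nat_lit 0) (XT.nd (nat_lit 1170) (nat_lit 1748) (nat_lit 0) (XT.nd (nat_lit 546) (nat_lit 1064) (nat_lit 0) (XT.nd (nat_lit 234) (nat_lit 684) (nat_lit 0) (XT.nd (nat_lit 78) (nat_lit 304) (nat_lit 0) (XT.lf (nat_lit 0) (nat_lit 2741893183) (nat_lit 228) (nat_lit 7711311040) (nat_lit 76) (nat_lit 2115325270) (nat_lit 84) (nat_lit 5) (nat_lit 87) (nat_lit 5) (nat_lit 85) (nat_lit 4) (nat_lit 427) (nat_lit 394) (nat_lit 379)) (XT.nd (nat_lit 78) (nat_lit 228) (nat_lit 0) (XT.lf (nat_lit 0) (nat_lit 7822944845) (nat_lit 76) (nat_lit 2718413072) (nat_lit 152) (nat_lit 2579238008) (nat_lit 83) (nat_lit 5) (nat_lit 84) (nat_lit 5) (nat_lit 85) (nat_lit 4) (nat_lit 428) (nat_lit 394) (nat_lit 378)) (XT.lf (nat_lit 0) (nat_lit 5216567079) (nat_lit 228) (nat_lit 2837283358) (nat_lit 76) (nat_lit 5652057738) (nat_lit 80) (nat_lit 5) (nat_lit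 83) (nat_lit 5) (nat_lit 81) (nat_lit 4) (nat_lit 429) (nat_lit 394) (nat_lit 377)))) (XT.nd (nat_lit 156) (nat_lit 304) (nat_lit 0) (XT.nd (nat_lit 78) (nat_lit 304) (nat_lit 0) (XT.lf (nat_lit 0) (nat_lit 13660295515) (nat_lit 152) (nat_lit 250063561) (nat_lit 0) (nat_lit 419846957) (nat_lit 79) (nat_lit 5) (nat_lit 81) (nat_lit 4) (nat_lit 79) (nat_lit 4) (nat_lit 430) (nat_lit 394) (nat_lit 376)) (XT.lf (nat_lit 0) (nat_lit 2383157803) (nat_lit 76) (nat_lit 5397800912) (nat_lit 152) (nat_lit 7204687914) (nat_lit 75) (nat_lit 5) (nat_lit 76) (nat_lit 5) (nat_lit 77) (nat_lit 4) (nat_lit 431) (nat_lit 394) (nat_lit 375))) (XT.nd (nat_lit 78) (nat_lit 76) (nat_lit 0) (XT.lf (nat_lit 0) (nat_lit 1312547364) (nat_lit 228) (nat_lit 10519675765) (nat_lit 76) (nat_lit 3851863350) (nat_lit 72) (nat_lit 5) (nat_lit 75) (nat_lit 5) (nat_lit 73) (nat_lit 4) (nat_lit 432) (nat_lit 394) (nat_lit 374))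 (XT.lf (nat_lit 0) (nat_lit 7968524112) (nat_lit 76) (nat_lit 2493044138) (nat_lit 152) (nat_lit 5960790836) (nat_lit 71) (nat_lit 5) (nat_lit 72) (nat_lit 5) (nat_lit 73) (nat_lit 4) (nat_lit 433) (nat_lit 394) (nat_lit 373))))) (XT.nd (nat_lit 312) (nat_lit 532) (nat_lit 0) (XT.nd (nat_lit 156) (nat_lit 228) (nat_lit 0) (XT.nd (nat_lit 78) (nat_lit 76) (nat_lit 0) (XT.lf (nat_lit 0) (nat_lit 3270593271) (nat_lit 228) (nat_lit 6366887851) (nat_lit 76) (nat_lit 7567392047) (nat_lit 68) (nat_lit 5) (nat_lit 71) (nat_lit 5) (nat_lit 69) (nat_lit 4) (nat_lit 434) (nat_lit 394) (nat_lit 372)) (XT.lf (nat_lit 0) (nat_lit 13226765500) (nat_lit 152) (nat_lit 4238821384) (nat_lit 0) (nat_lit 569763347) (nat_lit 67) (nat_lit 5) (nat_lit 69) (nat_lit 4) (nat_lit 67) (nat_lit 4) (nat_lit 435) (nat_lit 394) (nat_lit 371))) (XT.nd (nat_lit 78) (nat_lit 76) (nat_lit 0) (XT.lf (nat_lit 0) (nat_lit 5212141895)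 (nat_lit 152) (nat_lit 2164569997) (nat_lit 76) (nat_lit 11535290771) (nat_lit 65) (nat_lit 5) (nat_lit 67) (nat_lit 5) (nat_lit 66) (nat_lit 4) (nat_lit 436) (nat_lit 394) (nat_lit 370)) (XT.lf (nat_lit 0) (nat_lit 16102718936) (nat_lit 152) (nat_lit 44876193) (nat_lit 0) (nat_lit 3695420447) (nat_lit 64) (nat_lit 5) (nat_lit 66) (nat_lit 4) (nat_lit 64) (nat_lit 4) (nat_lit 437) (nat_lit 394) (nat_lit 369)))) (XT.nd (nat_lit 156) (nat_lit 228) (nat_lit 0) (XT.nd (nat_lit 78) (nat_lit 76) (nat_lit 0) (XT.lf (nat_lit 0) (nat_lit 2086810966) (nat_lit 76) (nat_lit 5060142469) (nat_lit 152) (nat_lit 13678307705) (nat_lit 61) (nat_lit 5) (nat_lit 62) (nat_lit 5) (nat_lit 63) (nat_lit 4) (nat_lit 438) (nat_lit 394) (nat_lit 368)) (XT.lf (nat_lit 0) (nat_lit 4220420055) (nat_lit 76) (nat_lit 14875610502) (nat_lit 76) (nat_lit 2770897847) (nat_lit 60) (nat_lit 4) (nat_lit 61) (nat_lit 5) (nat_lit 61)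 (nat_lit 4) (nat_lit 439) (nat_lit 394) (nat_lit 367))) (XT.nd (nat_lit 78) (nat_lit 76) (nat_lit 0) (XT.lf (nat_lit 0) (nat_lit 6289702621) (nat_lit 76) (nat_lit 2745773626) (nat_lit 152) (nat_lit 13933686019) (nat_lit 58) (nat_lit 5) (nat_lit 59) (nat_lit 5) (nat_lit 60) (nat_lit 4) (nat_lit 440) (nat_lit 394) (nat_lit 366)) (XT.lf (nat_lit 0) (nat_lit 8299346106) (nat_lit 76) (nat_lit 13800538522) (nat_lit 76) (nat_lit 2036890714) (nat_lit 57) (nat_lit 4) (nat_lit 58) (nat_lit 5) (nat_lit 58) (nat_lit 4) (nat_lit 441) (nat_lit 394) (nat_lit 365)))))) (XT.nd (nat_lit 624) (nat_lit 836) (nat_lit 0) (XT.nd (nat_lit 312) (nat_lit 456) (nat_lit 0) (XT.nd (nat_lit 156) (nat_lit 228) (nat_lit 0) (XT.nd (nat_lit 78) (nat_lit 76) (nat_lit 0) (XT.lf (nat_lit 0) (nat_lit 10226907151) (nat_lit 76) (nat_lit 551298998) (nat_lit 152) (nat_lit 14595523064) (nat_lit 55) (nat_lit 5) (nat_lit 56) (nat_lit 5)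 (nat_lit 57) (nat_lit 4) (nat_lit 442) (nat_lit 394) (nat_lit 364)) (XT.lf (nat_lit 0) (nat_lit 12017442036) (nat_lit 76) (nat_lit 13030563477) (nat_lit 76) (nat_lit 1634922967) (nat_lit 54) (nat_lit 4) (nat_lit 55) (nat_lit 5) (nat_lit 55) (nat_lit 4) (nat_lit 443) (nat_lit 394) (nat_lit 363))) (XT.nd (nat_lit 78) (nat_lit 76) (nat_lit 0) (XT.lf (nat_lit 0) (nat_lit 12302573192) (nat_lit 152) (nat_lit 14399743271) (nat_lit 0) (nat_lit 1368111598) (nat_lit 52) (nat_lit 5) (nat_lit 54) (nat_lit 4) (nat_lit 52) (nat_lit 4) (nat_lit 444) (nat_lit 394) (nat_lit 362)) (XT.lf (nat_lit 0) (nat_lit 15133622423) (nat_lit 76) (nat_lit 12708327830) (nat_lit 76) (nat_lit 1698430467) (nat_lit 51) (nat_lit 4) (nat_lit 52) (nat_lit 5) (nat_lit 52) (nat_lit 4) (nat_lit 445) (nat_lit 394) (nat_lit 361)))) (XT.nd (nat_lit 156) (nat_lit 228) (nat_lit 0) (XT.nd (nat_lit 78) (nat_lit 76) (nat_lit 0) (XT.lf (nat_lit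 0) (nat_lit 13455232137) (nat_lit 152) (nat_lit 14739535955) (nat_lit 0) (nat_lit 2903093758) (nat_lit 49) (nat_lit 5) (nat_lit 51) (nat_lit 4) (nat_lit 49) (nat_lit 4) (nat_lit 446) (nat_lit 394) (nat_lit 360)) (XT.lf (nat_lit 0) (nat_lit 17316437301) (nat_lit 76) (nat_lit 13023467320) (nat_lit 76) (nat_lit 2409734643) (nat_lit 48) (nat_lit 4) (nat_lit 49) (nat_lit 5) (nat_lit 49) (nat_lit 4) (nat_lit 447) (nat_lit 394) (nat_lit 359))) (XT.nd (nat_lit 78) (nat_lit 76) (nat_lit 0) (XT.lf (nat_lit 0) (nat_lit 14038957872) (nat_lit 152) (nat_lit 16584985699) (nat_lit 0) (nat_lit 3876325076) (nat_lit 46) (nat_lit 5) (nat_lit 48) (nat_lit 4) (nat_lit 46) (nat_lit 4) (nat_lit 448) (nat_lit 394) (nat_lit 358)) (XT.lf (nat_lit 0) (nat_lit 18115203299) (nat_lit 76) (nat_lit 14227752163) (nat_lit 76) (nat_lit 4014826812) (nat_lit 45) (nat_lit 4) (nat_lit 46) (nat_lit 5) (nat_lit 46) (nat_lit 4) (nat_lit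 449) (nat_lit 394) (nat_lit 357))))) (XT.nd (nat_lit 312) (nat_lit 380) (nat_lit 0) (XT.nd (nat_lit 156) (nat_lit 228) (nat_lit 0) (XT.nd (nat_lit 78) (nat_lit 76) (nat_lit 0) (XT.lf (nat_lit 0) (nat_lit 13796672487) (nat_lit 152) (nat_lit 20506301351) (nat_lit 0) (nat_lit 4025727218) (nat_lit 43) (nat_lit 5) (nat_lit 45) (nat_lit 4) (nat_lit 43) (nat_lit 4) (nat_lit 450) (nat_lit 394) (nat_lit 356)) (XT.lf (nat_lit 0) (nat_lit 16922578428) (nat_lit 76) (nat_lit 16654598646) (nat_lit 76) (nat_lit 6842588843) (nat_lit 42) (nat_lit 4) (nat_lit 43) (nat_lit 5) (nat_lit 43) (nat_lit 4) (nat_lit 451) (nat_lit 394) (nat_lit 355))) (XT.nd (nat_lit 78) (nat_lit 76) (nat_lit 0) (XT.lf (nat_lit 0) (nat_lit 12381845597) (nat_lit 152) (nat_lit 27260221498) (nat_lit 0) (nat_lit 3000862246) (nat_lit 40) (nat_lit 5) (nat_lit 42) (nat_lit 4) (nat_lit 40) (nat_lit 4) (nat_lit 452) (nat_lit 394) (nat_lit 354))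 (XT.lf (nat_lit 0) (nat_lit 12926079901) (nat_lit 76) (nat_lit 20744240048) (nat_lit 76) (nat_lit 11329726965) (nat_lit 39) (nat_lit 4) (nat_lit 40) (nat_lit 5) (nat_lit 40) (nat_lit 4) (nat_lit 453) (nat_lit 394) (nat_lit 353)))) (XT.nd (nat_lit 156) (nat_lit 152) (nat_lit 0) (XT.nd (nat_lit 78) (nat_lit 76) (nat_lit 0) (XT.lf (nat_lit 0) (nat_lit 9331248604) (nat_lit 152) (nat_lit 37846547176) (nat_lit 0) (nat_lit 335478002) (nat_lit 37) (nat_lit 5) (nat_lit 39) (nat_lit 4) (nat_lit 37) (nat_lit 4) (nat_lit 454) (nat_lit 394) (nat_lit 352)) (XT.lf (nat_lit 0) (nat_lit 5045325943) (nat_lit 76) (nat_lit 27076212982) (nat_lit 76) (nat_lit 18053064912) (nat_lit 36) (nat_lit 4) (nat_lit 37) (nat_lit 5) (nat_lit 37) (nat_lit 4) (nat_lit 455) (nat_lit 394) (nat_lit 351))) (XT.nd (nat_lit 78) (nat_lit 76) (nat_lit 0) (XT.lf (nat_lit 0) (nat_lit 4113578627) (nat_lit 152) (nat_lit 615661389) (nat_lit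 76) (nat_lit 48289455665) (nat_lit 35) (nat_lit 5) (nat_lit 37) (nat_lit 5) (nat_lit 36) (nat_lit 4) (nat_lit 456) (nat_lit 394) (nat_lit 350)) (XT.lf (nat_lit 0) (nat_lit 28389376929) (nat_lit 152) (nat_lit 7888318861) (nat_lit 0) (nat_lit 19749406127) (nat_lit 34) (nat_lit 5) (nat_lit 36) (nat_lit 4) (nat_lit 34) (nat_lit 4) (nat_lit 457) (nat_lit 394) (nat_lit 349))))))) (XT.nd (nat_lit 1248) (nat_lit 684) (nat_lit 0) (XT.nd (nat_lit 624) (nat_lit 608) (nat_lit 0) (XT.nd (nat_lit 312) (nat_lit 304) (nat_lit 0) (XT.nd (nat_lit 156) (nat_lit 228) (nat_lit 0) (XT.nd (nat_lit 78) (nat_lit 152) (nat_lit 0) (XT.lf (nat_lit 0) (nat_lit 42596887562) (nat_lit 76) (nat_lit 12653892691) (nat_lit 76) (nat_lit 3993223683) (nat_lit 33) (nat_lit 4) (nat_lit 34) (nat_lit 5) (nat_lit 34) (nat_lit 4) (nat_lit 458) (nat_lit 394) (nat_lit 348)) (XT.lf (nat_lit 0) (nat_lit 21650393659) (nat_lit 152) (nat_lit 27627309423)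 (nat_lit 0) (nat_lit 13383885074) (nat_lit 31) (nat_lit 5) (nat_lit 33) (nat_lit 4) (nat_lit 31) (nat_lit 4) (nat_lit 459) (nat_lit 394) (nat_lit 347))) (XT.nd (nat_lit 78) (nat_lit 152) (nat_lit 0) (XT.lf (nat_lit 0) (nat_lit 25420507591) (nat_lit 76) (nat_lit 24586079071) (nat_lit 76) (nat_lit 16302670129) (nat_lit 30) (nat_lit 4) (nat_lit 31) (nat_lit 5) (nat_lit 31) (nat_lit 4) (nat_lit 460) (nat_lit 394) (nat_lit 346)) (XT.lf (nat_lit 0) (nat_lit 10692685250) (nat_lit 152) (nat_lit 56727005100) (nat_lit 0) (nat_lit 2788821039) (nat_lit 28) (nat_lit 5) (nat_lit 30) (nat_lit 4) (nat_lit 28) (nat_lit 4) (nat_lit 461) (nat_lit 394) (nat_lit 345)))) (XT.nd (nat_lit 156) (nat_lit 228) (nat_lit 0) (XT.nd (nat_lit 78) (nat_lit 76) (nat_lit 0) (XT.lf (nat_lit 0) (nat_lit 40322685451) (nat_lit 152) (nat_lit 1626327289) (nat_lit 0) (nat_lit 32405021875) (nat_lit 28) (nat_lit 5) (nat_lit 30) (nat_lit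 4) (nat_lit 28) (nat_lit 4) (nat_lit 462) (nat_lit 394) (nat_lit 344)) (XT.lf (nat_lit 0) (nat_lit 59602458749) (nat_lit 76) (nat_lit 13558640621) (nat_lit 76) (nat_lit 5628199855) (nat_lit 27) (nat_lit 4) (nat_lit 28) (nat_lit 5) (nat_lit 28) (nat_lit 4) (nat_lit 463) (nat_lit 394) (nat_lit 343))) (XT.nd (nat_lit 78) (nat_lit 76) (nat_lit 0) (XT.lf (nat_lit 0) (nat_lit 25139400549) (nat_lit 152) (nat_lit 40800406034) (nat_lit 0) (nat_lit 17575332458) (nat_lit 25) (nat_lit 5) (nat_lit 27) (nat_lit 4) (nat_lit 25) (nat_lit 4) (nat_lit 464) (nat_lit 394) (nat_lit 342)) (XT.lf (nat_lit 0) (nat_lit 21843983299) (nat_lit 76) (nat_lit 37151859768) (nat_lit 76) (nat_lit 29577358932) (nat_lit 24) (nat_lit 4) (nat_lit 25) (nat_lit 5) (nat_lit 25) (nat_lit 4) (nat_lit 465) (nat_lit 394) (nat_lit 341))))) (XT.nd (nat_lit 312) (nat_lit 228) (nat_lit 0) (XT.nd (nat_lit 156) (nat_lit 228) (nat_lit 0) (XT.nd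 (nat_lit 78) (nat_lit 76) (nat_lit 0) (XT.lf (nat_lit 0) (nat_lit 2113518384) (nat_lit 152) (nat_lit 3251448095) (nat_lit 76) (nat_lit 88637881606) (nat_lit 23) (nat_lit 5) (nat_lit 25) (nat_lit 5) (nat_lit 24) (nat_lit 4) (nat_lit 466) (nat_lit 394) (nat_lit 340)) (XT.lf (nat_lit 0) (nat_lit 36757534599) (nat_lit 152) (nat_lit 33486376041) (nat_lit 0) (nat_lit 29526005858) (nat_lit 22) (nat_lit 5) (nat_lit 24) (nat_lit 4) (nat_lit 22) (nat_lit 4) (nat_lit 467) (nat_lit 394) (nat_lit 339))) (XT.nd (nat_lit 78) (nat_lit 152) (nat_lit 0) (XT.lf (nat_lit 0) (nat_lit 36420884857) (nat_lit 76) (nat_lit 38392434750) (nat_lit 76) (nat_lit 31153018534) (nat_lit 21) (nat_lit 4) (nat_lit 22) (nat_lit 5) (nat_lit 22) (nat_lit 4) (nat_lit 468) (nat_lit 394) (nat_lit 338)) (XT.lf (nat_lit 0) (nat_lit 284899103) (nat_lit 76) (nat_lit 3389061158) (nat_lit 152) (nat_lit 108955819830) (nat_lit 19) (nat_lit 5)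 (nat_lit 20) (nat_lit 5) (nat_lit 21) (nat_lit 4) (nat_lit 469) (nat_lit 394) (nat_lit 337)))) (XT.nd (nat_lit 156) (nat_lit 152) (nat_lit 0) (XT.nd (nat_lit 78) (nat_lit 76) (nat_lit 0) (XT.lf (nat_lit 0) (nat_lit 41906670750) (nat_lit 152) (nat_lit 42809947352) (nat_lit 0) (nat_lit 34998592969) (nat_lit 19) (nat_lit 5) (nat_lit 21) (nat_lit 4) (nat_lit 19) (nat_lit 4) (nat_lit 470) (nat_lit 394) (nat_lit 336)) (XT.lf (nat_lit 0) (nat_lit 33155826223) (nat_lit 76) (nat_lit 50550146319) (nat_lit 76) (nat_lit 43636105365) (nat_lit 18) (nat_lit 4) (nat_lit 19) (nat_lit 5) (nat_lit 19) (nat_lit 4) (nat_lit 471) (nat_lit 394) (nat_lit 335))) (XT.nd (nat_lit 78) (nat_lit 152) (nat_lit 0) (XT.lf (nat_lit 0) (nat_lit 116597499107) (nat_lit 76) (nat_lit 12933533392) (nat_lit 76) (nat_lit 6013970981) (nat_lit 18) (nat_lit 4) (nat_lit 19) (nat_lit 5) (nat_lit 19) (nat_lit 4) (nat_lit 472) (nat_lit 394)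 (nat_lit 334)) (XT.lf (nat_lit 0) (nat_lit 34900657347) (nat_lit 152) (nat_lit 81101217122) (nat_lit 0) (nat_lit 28305728899) (nat_lit 16) (nat_lit 5) (nat_lit 18) (nat_lit 4) (nat_lit 16) (nat_lit 4) (nat_lit 473) (nat_lit 394) (nat_lit 333)))))) (XT.nd (nat_lit 624) (nat_lit 228) (nat_lit 0) (XT.nd (nat_lit 312) (nat_lit 228) (nat_lit 0) (XT.nd (nat_lit 156) (nat_lit 152) (nat_lit 0) (XT.nd (nat_lit 78) (nat_lit 76) (nat_lit 0) (XT.lf (nat_lit 0) (nat_lit 79375671542) (nat_lit 152) (nat_lit 1589479752) (nat_lit 0) (nat_lit 72776234753) (nat_lit 16) (nat_lit 5) (nat_lit 18) (nat_lit 4) (nat_lit 16) (nat_lit 4) (nat_lit 474) (nat_lit 394) (nat_lit 332)) (XT.lf (nat_lit 0) (nat_lit 86956085974) (nat_lit 76) (nat_lit 41756110566) (nat_lit 76) (nat_lit 35152499386) (nat_lit 15) (nat_lit 4) (nat_lit 16) (nat_lit 5) (nat_lit 16) (nat_lit 4) (nat_lit 475) (nat_lit 394) (nat_lit 331))) (XT.nd (nat_lit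 78) (nat_lit 0) (nat_lit 0) (XT.lf (nat_lit 0) (nat_lit 7078602406) (nat_lit 152) (nat_lit 166922321440) (nat_lit 0) (nat_lit 785767781) (nat_lit 13) (nat_lit 5) (nat_lit 15) (nat_lit 4) (nat_lit 13) (nat_lit 4) (nat_lit 476) (nat_lit 394) (nat_lit 330)) (XT.lf (nat_lit 0) (nat_lit 53487705352) (nat_lit 152) (nat_lit 85772911616) (nat_lit 0) (nat_lit 47191462282) (nat_lit 13) (nat_lit 5) (nat_lit 15) (nat_lit 4) (nat_lit 13) (nat_lit 4) (nat_lit 477) (nat_lit 394) (nat_lit 329)))) (XT.nd (nat_lit 156) (nat_lit 152) (nat_lit 0) (XT.nd (nat_lit 78) (nat_lit 0) (nat_lit 0) (XT.lf (nat_lit 0) (nat_lit 1830522457) (nat_lit 76) (nat_lit 101760256206) (nat_lit 76) (nat_lit 95460857168) (nat_lit 12) (nat_lit 4) (nat_lit 13) (nat_lit 5) (nat_lit 13) (nat_lit 4) (nat_lit 478) (nat_lit 394) (nat_lit 328)) (XT.lf (nat_lit 0) (nat_lit 99412832075) (nat_lit 76) (nat_lit 59738102160) (nat_lit 76) (nat_lit 53435780931)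 (nat_lit 12) (nat_lit 4) (nat_lit 13) (nat_lit 5) (nat_lit 13) (nat_lit 4) (nat_lit 479) (nat_lit 394) (nat_lit 327))) (XT.nd (nat_lit 78) (nat_lit 152) (nat_lit 0) (XT.lf (nat_lit 0) (nat_lit 204716242955) (nat_lit 76) (nat_lit 14397740422) (nat_lit 76) (nat_lit 8092713460) (nat_lit 12) (nat_lit 4) (nat_lit 13) (nat_lit 5) (nat_lit 13) (nat_lit 4) (nat_lit 480) (nat_lit 394) (nat_lit 326)) (XT.lf (nat_lit 0) (nat_lit 41304624232) (nat_lit 152) (nat_lit 166275532874) (nat_lit 0) (nat_lit 35297450640) (nat_lit 10) (nat_lit 5) (nat_lit 12) (nat_lit 4) (nat_lit 10) (nat_lit 4) (nat_lit 481) (nat_lit 394) (nat_lit 325))))) (XT.nd (nat_lit 312) (nat_lit 152) (nat_lit 0) (XT.nd (nat_lit 156) (nat_lit 0) (nat_lit 0) (XT.nd (nat_lit 78) (nat_lit 76) (nat_lit 0) (XT.lf (nat_lit 0) (nat_lit 94976632111) (nat_lit 152) (nat_lit 75821356209) (nat_lit 0) (nat_lit 88967249252) (nat_lit 10) (nat_lit 5) (nat_lit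 12) (nat_lit 4) (nat_lit 10) (nat_lit 4) (nat_lit 482) (nat_lit 394) (nat_lit 324)) (XT.lf (nat_lit 0) (nat_lit 22517414187) (nat_lit 76) (nat_lit 130741044599) (nat_lit 76) (nat_lit 124729616123) (nat_lit 9) (nat_lit 4) (nat_lit 10) (nat_lit 5) (nat_lit 10) (nat_lit 4) (nat_lit 483) (nat_lit 394) (nat_lit 323))) (XT.nd (nat_lit 78) (nat_lit 0) (nat_lit 0) (XT.lf (nat_lit 0) (nat_lit 131361552188) (nat_lit 76) (nat_lit 86128084690) (nat_lit 76) (nat_lit 80114762124) (nat_lit 9) (nat_lit 4) (nat_lit 10) (nat_lit 5) (nat_lit 10) (nat_lit 4) (nat_lit 484) (nat_lit 394) (nat_lit 322)) (XT.lf (nat_lit 0) (nat_lit 248849063638) (nat_lit 76) (nat_lit 37978806852) (nat_lit 76) (nat_lit 31963730498) (nat_lit 9) (nat_lit 4) (nat_lit 10) (nat_lit 5) (nat_lit 10) (nat_lit 4) (nat_lit 485) (nat_lit 394) (nat_lit 321)))) (XT.nd (nat_lit 156) (nat_lit 0) (nat_lit 0) (XT.nd (nat_lit 78) (nat_lit 0) (nat_lit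 0) (XT.lf (nat_lit 0) (nat_lit 20144259630) (nat_lit 152) (nat_lit 307062493977) (nat_lit 0) (nat_lit 14414068934) (nat_lit 7) (nat_lit 5) (nat_lit 9) (nat_lit 4) (nat_lit 7) (nat_lit 4) (nat_lit 486) (nat_lit 394) (nat_lit 320)) (XT.lf (nat_lit 0) (nat_lit 77165968508) (nat_lit 152) (nat_lit 217556621085) (nat_lit 0) (nat_lit 71434345822) (nat_lit 7) (nat_lit 5) (nat_lit 9) (nat_lit 4) (nat_lit 7) (nat_lit 4) (nat_lit 487) (nat_lit 394) (nat_lit 319))) (XT.nd (nat_lit 78) (nat_lit 0) (nat_lit 0) (XT.lf (nat_lit 0) (nat_lit 138722786969) (nat_lit 152) (nat_lit 120944643363) (nat_lit 0) (nat_lit 132989838366) (nat_lit 7) (nat_lit 5) (nat_lit 9) (nat_lit 4) (nat_lit 7) (nat_lit 4) (nat_lit 488) (nat_lit 394) (nat_lit 318)) (XT.lf (nat_lit 0) (nat_lit 205179496159) (nat_lit 152) (nat_lit 16654045388) (nat_lit 0) (nat_lit 199445319854) (nat_lit 7) (nat_lit 5) (nat_lit 9) (nat_lit 4) (nat_lit 7) (nat_lit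 4) (nat_lit 489) (nat_lit 394) (nat_lit 317))))))))
noncomputable def xc37 : XT := (XT.nd (nat_lit 57408) (nat_lit 0) (nat_lit 2508) (XT.nd (nat_lit 1248) (nat_lit 0) (nat_lit 0) (XT.nd (nat_lit 624) (nat_lit 76) (nat_lit 0) (XT.nd (nat_lit 312) (nat_lit 152) (nat_lit 0) (XT.nd (nat_lit 156) (nat_lit 0) (nat_lit 0) (XT.nd (nat_lit 78) (nat_lit 0) (nat_lit 0) (XT.lf (nat_lit 0) (nat_lit 99105175745) (nat_lit 76) (nat_lit 179372047403) (nat_lit 76) (nat_lit 173636734338) (nat_lit 6) (nat_lit 4) (nat_lit 7) (nat_lit 5) (nat_lit 7) (nat_lit 4) (nat_lit 490) (nat_lit 394) (nat_lit 316)) (XT.lf (nat_lit 0) (nat_lit 224675261512) (nat_lit 76) (nat_lit 133231775963) (nat_lit 76) (nat_lit 127495410343) (nat_lit 6) (nat_lit 4) (nat_lit 7) (nat_lit 5) (nat_lit 7) (nat_lit 4) (nat_lit 491) (nat_lit 394) (nat_lit 315))) (XT.nd (nat_lit 78) (nat_lit 0) (nat_lit 0) (XT.lf (nat_lit 0) (nat_lit 360249672986)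 (nat_lit 76) (nat_lit 83421347713) (nat_lit 76) (nat_lit 77684007504) (nat_lit 6) (nat_lit 4) (nat_lit 7) (nat_lit 5) (nat_lit 7) (nat_lit 4) (nat_lit 492) (nat_lit 394) (nat_lit 314)) (XT.lf (nat_lit 0) (nat_lit 506631814087) (nat_lit 76) (nat_lit 29645589745) (nat_lit 76) (nat_lit 23907347140) (nat_lit 6) (nat_lit 4) (nat_lit 7) (nat_lit 5) (nat_lit 7) (nat_lit 4) (nat_lit 493) (nat_lit 394) (nat_lit 313)))) (XT.nd (nat_lit 156) (nat_lit 0) (nat_lit 0) (XT.nd (nat_lit 78) (nat_lit 0) (nat_lit 0) (XT.lf (nat_lit 0) (nat_lit 34529450213) (nat_lit 152) (nat_lit 538428479079) (nat_lit 0) (nat_lit 29063661491) (nat_lit 4) (nat_lit 5) (nat_lit 6) (nat_lit 4) (nat_lit 4) (nat_lit 4) (nat_lit 494) (nat_lit 394) (nat_lit 312)) (XT.lf (nat_lit 0) (nat_lit 98245698484) (nat_lit 152) (nat_lit 456088804972) (nat_lit 0) (nat_lit 92779172943) (nat_lit 4) (nat_lit 5) (nat_lit 6) (nat_lit 4) (nat_lit 4) (nat_lit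 4) (nat_lit 495) (nat_lit 394) (nat_lit 311))) (XT.nd (nat_lit 78) (nat_lit 0) (nat_lit 0) (XT.lf (nat_lit 0) (nat_lit 167043392117) (nat_lit 152) (nat_lit 367194345146) (nat_lit 0) (nat_lit 161576184336) (nat_lit 4) (nat_lit 5) (nat_lit 6) (nat_lit 4) (nat_lit 4) (nat_lit 4) (nat_lit 496) (nat_lit 394) (nat_lit 310)) (XT.lf (nat_lit 0) (nat_lit 241330221149) (nat_lit 152) (nat_lit 271218317618) (nat_lit 0) (nat_lit 235862381665) (nat_lit 4) (nat_lit 5) (nat_lit 6) (nat_lit 4) (nat_lit 4) (nat_lit 4) (nat_lit 497) (nat_lit 394) (nat_lit 309))))) (XT.nd (nat_lit 312) (nat_lit 0) (nat_lit 0) (XT.nd (nat_lit 156) (nat_lit 76) (nat_lit 0) (XT.nd (nat_lit 78) (nat_lit 0) (nat_lit 0) (XT.lf (nat_lit 0) (nat_lit 321546403826) (nat_lit 152) (nat_lit 167591975558) (nat_lit 0) (nat_lit 316077979431) (nat_lit 4) (nat_lit 5) (nat_lit 6) (nat_lit 4) (nat_lit 4) (nat_lit 4) (nat_lit 498) (nat_lit 394) (nat_lit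 308)) (XT.lf (nat_lit 0) (nat_lit 408167295304) (nat_lit 152) (nat_lit 55701236939) (nat_lit 0) (nat_lit 402698329325) (nat_lit 4) (nat_lit 5) (nat_lit 6) (nat_lit 4) (nat_lit 4) (nat_lit 4) (nat_lit 499) (nat_lit 394) (nat_lit 307))) (XT.nd (nat_lit 78) (nat_lit 0) (nat_lit 0) (XT.lf (nat_lit 0) (nat_lit 67270015058) (nat_lit 76) (nat_lit 435486462970) (nat_lit 76) (nat_lit 430016995524) (nat_lit 3) (nat_lit 4) (nat_lit 4) (nat_lit 5) (nat_lit 4) (nat_lit 4) (nat_lit 500) (nat_lit 394) (nat_lit 306)) (XT.lf (nat_lit 0) (nat_lit 202045268710) (nat_lit 76) (nat_lit 403826660435) (nat_lit 76) (nat_lit 398356728669) (nat_lit 3) (nat_lit 4) (nat_lit 4) (nat_lit 5) (nat_lit 4) (nat_lit 4) (nat_lit 501) (nat_lit 394) (nat_lit 305)))) (XT.nd (nat_lit 156) (nat_lit 0) (nat_lit 0) (XT.nd (nat_lit 78) (nat_lit 0) (nat_lit 0) (XT.lf (nat_lit 0) (nat_lit 347581457739) (nat_lit 76) (nat_lit 369644838395)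 (nat_lit 76) (nat_lit 364174476702) (nat_lit 3) (nat_lit 4) (nat_lit 4) (nat_lit 5) (nat_lit 4) (nat_lit 4) (nat_lit 502) (nat_lit 394) (nat_lit 304)) (XT.lf (nat_lit 0) (nat_lit 504741018820) (nat_lit 76) (nat_lit 332738437904) (nat_lit 76) (nat_lit 327267678131) (nat_lit 3) (nat_lit 4) (nat_lit 4) (nat_lit 5) (nat_lit 4) (nat_lit 4) (nat_lit 503) (nat_lit 394) (nat_lit 303))) (XT.nd (nat_lit 78) (nat_lit 0) (nat_lit 0) (XT.lf (nat_lit 0) (nat_lit 674455267871) (nat_lit 76) (nat_lit 292888754366) (nat_lit 76) (nat_lit 287417626000) (nat_lit 3) (nat_lit 4) (nat_lit 4) (nat_lit 5) (nat_lit 4) (nat_lit 4) (nat_lit 504) (nat_lit 394) (nat_lit 302)) (XT.lf (nat_lit 0) (nat_lit 857729918961) (nat_lit 76) (nat_lit 249859641509) (nat_lit 76) (nat_lit 244388171853) (nat_lit 3) (nat_lit 4) (nat_lit 4) (nat_lit 5) (nat_lit 4) (nat_lit 4) (nat_lit 505) (nat_lit 394) (nat_lit 301)))))) (XT.nd (nat_lit 55536)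 (nat_lit 0) (nat_lit 6916) (XT.nd (nat_lit 55224) (nat_lit 0) (nat_lit 9348) (XT.nd (nat_lit 55068) (nat_lit 0) (nat_lit 11172) (XT.nd (nat_lit 54990) (nat_lit 0) (nat_lit 12084) (XT.lf (nat_lit 0) (nat_lit 1055651044095) (nat_lit 76) (nat_lit 203396111996) (nat_lit 76) (nat_lit 197924326331) (nat_lit 3) (nat_lit 4) (nat_lit 4) (nat_lit 5) (nat_lit 4) (nat_lit 4) (nat_lit 506) (nat_lit 394) (nat_lit 300)) (XT.lf (nat_lit 0) (nat_lit 18385214) (nat_lit 836) (nat_lit 3543782580) (nat_lit 0) (nat_lit 18385214) (nat_lit 162) (nat_lit 5) (nat_lit 173) (nat_lit 4) (nat_lit 162) (nat_lit 4) (nat_lit 410) (nat_lit 395) (nat_lit 395))) (XT.nd (nat_lit 78) (nat_lit 456) (nat_lit 0) (XT.lf (nat_lit 0) (nat_lit 1542151907) (nat_lit 456) (nat_lit 4154178726) (nat_lit 456) (nat_lit 1617022339) (nat_lit 156) (nat_lit 4) (nat_lit 162) (nat_lit 5) (nat_lit 162) (nat_lit 4) (nat_lit 411) (nat_lit 395) (nat_lit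 394)) (XT.lf (nat_lit 0) (nat_lit 3201821415) (nat_lit 380) (nat_lit 743640378) (nat_lit 456) (nat_lit 3541314331) (nat_lit 150) (nat_lit 5) (nat_lit 155) (nat_lit 5) (nat_lit 156) (nat_lit 4) (nat_lit 412) (nat_lit 395) (nat_lit 393)))) (XT.nd (nat_lit 156) (nat_lit 1064) (nat_lit 0) (XT.nd (nat_lit 78) (nat_lit 304) (nat_lit 0) (XT.lf (nat_lit 0) (nat_lit 1978146553) (nat_lit 456) (nat_lit 2670111876) (nat_lit 76) (nat_lit 3031497937) (nat_lit 144) (nat_lit 5) (nat_lit 150) (nat_lit 5) (nat_lit 145) (nat_lit 4) (nat_lit 413) (nat_lit 395) (nat_lit 392)) (XT.lf (nat_lit 0) (nat_lit 7001703892) (nat_lit 304) (nat_lit 630093345) (nat_lit 380) (nat_lit 262670398) (nat_lit 140) (nat_lit 5) (nat_lit 144) (nat_lit 5) (nat_lit 145) (nat_lit 4) (nat_lit 414) (nat_lit 395) (nat_lit 391))) (XT.nd (nat_lit 78) (nat_lit 380) (nat_lit 0) (XT.lf (nat_lit 0) (nat_lit 1006649439) (nat_lit 304) (nat_lit 4325078300)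 (nat_lit 380) (nat_lit 2795277335) (nat_lit 131) (nat_lit 5) (nat_lit 135) (nat_lit 5) (nat_lit 136) (nat_lit 4) (nat_lit 415) (nat_lit 395) (nat_lit 390)) (XT.lf (nat_lit 0) (nat_lit 2766587804) (nat_lit 380) (nat_lit 5270973054) (nat_lit 76) (nat_lit 344280087) (nat_lit 126) (nat_lit 5) (nat_lit 131) (nat_lit 5) (nat_lit 127) (nat_lit 4) (nat_lit 416) (nat_lit 395) (nat_lit 389))))) (XT.nd (nat_lit 312) (nat_lit 1140) (nat_lit 0) (XT.nd (nat_lit 156) (nat_lit 684) (nat_lit 0) (XT.nd (nat_lit 78) (nat_lit 380) (nat_lit 0) (XT.lf (nat_lit 0) (nat_lit 5338047948) (nat_lit 228) (nat_lit 3277397492) (nat_lit 304) (nat_lit 42350181) (nat_lit 123) (nat_lit 5) (nat_lit 126) (nat_lit 5) (nat_lit 127) (nat_lit 4) (nat_lit 417) (nat_lit 395) (nat_lit 388)) (XT.lf (nat_lit 0) (nat_lit 5700336288) (nat_lit 380) (nat_lit 1269020988) (nat_lit 76) (nat_lit 1986061700) (nat_lit 118) (nat_lit 5) (nat_lit 123)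 (nat_lit 5) (nat_lit 119) (nat_lit 4) (nat_lit 418) (nat_lit 395) (nat_lit 387))) (XT.nd (nat_lit 78) (nat_lit 152) (nat_lit 0) (XT.lf (nat_lit 0) (nat_lit 940588571) (nat_lit 228) (nat_lit 1572158990) (nat_lit 304) (nat_lit 6763408499) (nat_lit 111) (nat_lit 5) (nat_lit 114) (nat_lit 5) (nat_lit 115) (nat_lit 5) (nat_lit 419) (nat_lit 395) (nat_lit 386)) (XT.lf (nat_lit 0) (nat_lit 3303546769) (nat_lit 152) (nat_lit 5335400150) (nat_lit 228) (nat_lit 980403652) (nat_lit 109) (nat_lit 5) (nat_lit 111) (nat_lit 5) (nat_lit 112) (nat_lit 4) (nat_lit 420) (nat_lit 395) (nat_lit 385)))) (XT.nd (nat_lit 156) (nat_lit 608) (nat_lit 0) (XT.nd (nat_lit 78) (nat_lit 228) (nat_lit 0) (XT.lf (nat_lit 0) (nat_lit 5070850326) (nat_lit 304) (nat_lit 4201985318) (nat_lit 76) (nat_lit 714362210) (nat_lit 105) (nat_lit 5) (nat_lit 109) (nat_lit 5) (nat_lit 106) (nat_lit 4) (nat_lit 421) (nat_lit 395) (nat_lit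 384)) (XT.lf (nat_lit 0) (nat_lit 1195263582) (nat_lit 228) (nat_lit 1996652097) (nat_lit 76) (nat_lit 7188583067) (nat_lit 102) (nat_lit 5) (nat_lit 105) (nat_lit 5) (nat_lit 103) (nat_lit 5) (nat_lit 422) (nat_lit 395) (nat_lit 383))) (XT.nd (nat_lit 78) (nat_lit 228) (nat_lit 0) (XT.lf (nat_lit 0) (nat_lit 302484596) (nat_lit 152) (nat_lit 7353110262) (nat_lit 228) (nat_lit 3144048631) (nat_lit 97) (nat_lit 5) (nat_lit 99) (nat_lit 5) (nat_lit 100) (nat_lit 4) (nat_lit 423) (nat_lit 395) (nat_lit 382)) (XT.lf (nat_lit 0) (nat_lit 2790346177) (nat_lit 152) (nat_lit 556416136) (nat_lit 228) (nat_lit 7899202413) (nat_lit 94) (nat_lit 5) (nat_lit 96) (nat_lit 5) (nat_lit 97) (nat_lit 5) (nat_lit 424) (nat_lit 395) (nat_lit 381))))))) (XT.nd (nat_lit 1248) (nat_lit 1748) (nat_lit 0) (XT.nd (nat_lit 624) (nat_lit 1216) (nat_lit 0) (XT.nd (nat_lit 312) (nat_lit 608) (nat_lit 0) (XT.nd (nat_lit 156)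 (nat_lit 456) (nat_lit 0) (XT.nd (nat_lit 78) (nat_lit 228) (nat_lit 0) (XT.lf (nat_lit 0) (nat_lit 5353978755) (nat_lit 152) (nat_lit 5001445561) (nat_lit 228) (nat_lit 1364562633) (nat_lit 92) (nat_lit 5) (nat_lit 94) (nat_lit 5) (nat_lit 95) (nat_lit 4) (nat_lit 425) (nat_lit 395) (nat_lit 380)) (XT.lf (nat_lit 0) (nat_lit 5575848704) (nat_lit 228) (nat_lit 4203785454) (nat_lit 76) (nat_lit 2444600567) (nat_lit 89) (nat_lit 5) (nat_lit 92) (nat_lit 5) (nat_lit 90) (nat_lit 4) (nat_lit 426) (nat_lit 395) (nat_lit 379))) (XT.nd (nat_lit 78) (nat_lit 228) (nat_lit 0) (XT.lf (nat_lit 0) (nat_lit 367128805) (nat_lit 228) (nat_lit 1940144724) (nat_lit 76) (nat_lit 10454270680) (nat_lit 86) (nat_lit 5) (nat_lit 89) (nat_lit 5) (nat_lit 87) (nat_lit 5) (nat_lit 427) (nat_lit 395) (nat_lit 378)) (XT.lf (nat_lit 0) (nat_lit 350634181) (nat_lit 76) (nat_lit 7510846930) (nat_lit 152) (nat_lit 5467388370)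 (nat_lit 83) (nat_lit 5) (nat_lit 84) (nat_lit 5) (nat_lit 85) (nat_lit 4) (nat_lit 428) (nat_lit 395) (nat_lit 377)))) (XT.nd (nat_lit 156) (nat_lit 304) (nat_lit 0) (XT.nd (nat_lit 78) (nat_lit 76) (nat_lit 0) (XT.lf (nat_lit 0) (nat_lit 2098519917) (nat_lit 228) (nat_lit 11083927947) (nat_lit 76) (nat_lit 750108092) (nat_lit 80) (nat_lit 5) (nat_lit 83) (nat_lit 5) (nat_lit 81) (nat_lit 4) (nat_lit 429) (nat_lit 395) (nat_lit 376)) (XT.lf (nat_lit 0) (nat_lit 5357895483) (nat_lit 76) (nat_lit 4928697794) (nat_lit 152) (nat_lit 4283045918) (nat_lit 79) (nat_lit 5) (nat_lit 80) (nat_lit 5) (nat_lit 81) (nat_lit 4) (nat_lit 430) (nat_lit 395) (nat_lit 375))) (XT.nd (nat_lit 78) (nat_lit 76) (nat_lit 0) (XT.lf (nat_lit 0) (nat_lit 3908706339) (nat_lit 228) (nat_lit 7270853370) (nat_lit 76) (nat_lit 4067080950) (nat_lit 76) (nat_lit 5) (nat_lit 79) (nat_lit 5) (nat_lit 77) (nat_lit 4) (nat_lit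 431) (nat_lit 395) (nat_lit 374)) (XT.lf (nat_lit 0) (nat_lit 10679175272) (nat_lit 76) (nat_lit 2122548739) (nat_lit 152) (nat_lit 3162772884) (nat_lit 75) (nat_lit 5) (nat_lit 76) (nat_lit 5) (nat_lit 77) (nat_lit 4) (nat_lit 432) (nat_lit 395) (nat_lit 373))))) (XT.nd (nat_lit 312) (nat_lit 532) (nat_lit 0) (XT.nd (nat_lit 156) (nat_lit 380) (nat_lit 0) (XT.nd (nat_lit 78) (nat_lit 76) (nat_lit 0) (XT.lf (nat_lit 0) (nat_lit 5736843009) (nat_lit 228) (nat_lit 3310164294) (nat_lit 76) (nat_lit 7675764751) (nat_lit 72) (nat_lit 5) (nat_lit 75) (nat_lit 5) (nat_lit 73) (nat_lit 4) (nat_lit 433) (nat_lit 395) (nat_lit 372)) (XT.lf (nat_lit 0) (nat_lit 15431957007) (nat_lit 152) (nat_lit 1236778211) (nat_lit 0) (nat_lit 860668364) (nat_lit 71) (nat_lit 5) (nat_lit 73) (nat_lit 4) (nat_lit 71) (nat_lit 4) (nat_lit 434) (nat_lit 395) (nat_lit 371))) (XT.nd (nat_lit 78) (nat_lit 76) (nat_lit 0) (XT.lf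 (nat_lit 0) (nat_lit 793200801) (nat_lit 76) (nat_lit 6800248522) (nat_lit 152) (nat_lit 10784690604) (nat_lit 67) (nat_lit 5) (nat_lit 68) (nat_lit 5) (nat_lit 69) (nat_lit 4) (nat_lit 435) (nat_lit 395) (nat_lit 370)) (XT.lf (nat_lit 0) (nat_lit 2968294357) (nat_lit 76) (nat_lit 15279870977) (nat_lit 76) (nat_lit 1031791961) (nat_lit 66) (nat_lit 4) (nat_lit 67) (nat_lit 5) (nat_lit 67) (nat_lit 4) (nat_lit 436) (nat_lit 395) (nat_lit 369)))) (XT.nd (nat_lit 156) (nat_lit 304) (nat_lit 0) (XT.nd (nat_lit 78) (nat_lit 76) (nat_lit 0) (XT.lf (nat_lit 0) (nat_lit 5077860252) (nat_lit 76) (nat_lit 4429916142) (nat_lit 152) (nat_lit 10723202156) (nat_lit 64) (nat_lit 5) (nat_lit 65) (nat_lit 5) (nat_lit 66) (nat_lit 4) (nat_lit 437) (nat_lit 395) (nat_lit 368)) (XT.lf (nat_lit 0) (nat_lit 7251135698) (nat_lit 76) (nat_lit 13930981778) (nat_lit 76) (nat_lit 58732916) (nat_lit 63) (nat_lit 4) (nat_lit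 64) (nat_lit 5) (nat_lit 64) (nat_lit 4) (nat_lit 438) (nat_lit 395) (nat_lit 367))) (XT.nd (nat_lit 78) (nat_lit 152) (nat_lit 0) (XT.lf (nat_lit 0) (nat_lit 9359600160) (nat_lit 76) (nat_lit 2038729403) (nat_lit 152) (nat_lit 10908929696) (nat_lit 61) (nat_lit 5) (nat_lit 62) (nat_lit 5) (nat_lit 63) (nat_lit 4) (nat_lit 439) (nat_lit 395) (nat_lit 366)) (XT.lf (nat_lit 0) (nat_lit 726341721) (nat_lit 152) (nat_lit 11969782596) (nat_lit 76) (nat_lit 10741301111) (nat_lit 59) (nat_lit 5) (nat_lit 61) (nat_lit 5) (nat_lit 60) (nat_lit 4) (nat_lit 440) (nat_lit 395) (nat_lit 365)))))) (XT.nd (nat_lit 624) (nat_lit 836) (nat_lit 0) (XT.nd (nat_lit 312) (nat_lit 456) (nat_lit 0) (XT.nd (nat_lit 156) (nat_lit 228) (nat_lit 0) (XT.nd (nat_lit 78) (nat_lit 152) (nat_lit 0) (XT.lf (nat_lit 0) (nat_lit 13223073369) (nat_lit 152) (nat_lit 11109932783) (nat_lit 0) (nat_lit 300417030) (nat_lit 58) (nat_lit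 5) (nat_lit 60) (nat_lit 4) (nat_lit 58) (nat_lit 4) (nat_lit 441) (nat_lit 395) (nat_lit 364)) (XT.lf (nat_lit 0) (nat_lit 1278963516) (nat_lit 152) (nat_lit 10397788209) (nat_lit 76) (nat_lit 14222233006) (nat_lit 56) (nat_lit 5) (nat_lit 58) (nat_lit 5) (nat_lit 57) (nat_lit 4) (nat_lit 442) (nat_lit 395) (nat_lit 363))) (XT.nd (nat_lit 78) (nat_lit 152) (nat_lit 0) (XT.lf (nat_lit 0) (nat_lit 14935552955) (nat_lit 152) (nat_lit 9852962880) (nat_lit 0) (nat_lit 2450329345) (nat_lit 55) (nat_lit 5) (nat_lit 57) (nat_lit 4) (nat_lit 55) (nat_lit 4) (nat_lit 443) (nat_lit 395) (nat_lit 362)) (XT.lf (nat_lit 0) (nat_lit 1499204864) (nat_lit 152) (nat_lit 9491061196) (nat_lit 76) (nat_lit 17668230140) (nat_lit 53) (nat_lit 5) (nat_lit 55) (nat_lit 5) (nat_lit 54) (nat_lit 4) (nat_lit 444) (nat_lit 395) (nat_lit 361)))) (XT.nd (nat_lit 156) (nat_lit 228) (nat_lit 0) (XT.nd (nat_lit 78) (nat_lit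 152) (nat_lit 0) (XT.lf (nat_lit 0) (nat_lit 16398443882) (nat_lit 152) (nat_lit 9399541413) (nat_lit 0) (nat_lit 4362471026) (nat_lit 52) (nat_lit 5) (nat_lit 54) (nat_lit 4) (nat_lit 52) (nat_lit 4) (nat_lit 445) (nat_lit 395) (nat_lit 360)) (XT.lf (nat_lit 0) (nat_lit 1246212808) (nat_lit 152) (nat_lit 9545910612) (nat_lit 76) (nat_lit 20961809208) (nat_lit 50) (nat_lit 5) (nat_lit 52) (nat_lit 5) (nat_lit 51) (nat_lit 4) (nat_lit 446) (nat_lit 395) (nat_lit 359))) (XT.nd (nat_lit 78) (nat_lit 152) (nat_lit 0) (XT.lf (nat_lit 0) (nat_lit 17463297901) (nat_lit 152) (nat_lit 10093951415) (nat_lit 0) (nat_lit 5881840552) (nat_lit 49) (nat_lit 5) (nat_lit 51) (nat_lit 4) (nat_lit 49) (nat_lit 4) (nat_lit 447) (nat_lit 395) (nat_lit 358)) (XT.lf (nat_lit 0) (nat_lit 328202361) (nat_lit 152) (nat_lit 10961449690) (nat_lit 76) (nat_lit 23939602649) (nat_lit 47) (nat_lit 5) (nat_lit 49) (nat_lit 5)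 (nat_lit 48) (nat_lit 4) (nat_lit 448) (nat_lit 395) (nat_lit 357))))) (XT.nd (nat_lit 312) (nat_lit 456) (nat_lit 0) (XT.nd (nat_lit 156) (nat_lit 228) (nat_lit 0) (XT.nd (nat_lit 78) (nat_lit 76) (nat_lit 0) (XT.lf (nat_lit 0) (nat_lit 17925318125) (nat_lit 152) (nat_lit 12398295659) (nat_lit 0) (nat_lit 6798499009) (nat_lit 46) (nat_lit 5) (nat_lit 48) (nat_lit 4) (nat_lit 46) (nat_lit 4) (nat_lit 449) (nat_lit 395) (nat_lit 356)) (XT.lf (nat_lit 0) (nat_lit 24838298951) (nat_lit 76) (nat_lit 12732991898) (nat_lit 76) (nat_lit 1563055021) (nat_lit 45) (nat_lit 4) (nat_lit 46) (nat_lit 5) (nat_lit 46) (nat_lit 4) (nat_lit 450) (nat_lit 395) (nat_lit 355))) (XT.nd (nat_lit 78) (nat_lit 76) (nat_lit 0) (XT.lf (nat_lit 0) (nat_lit 17505902683) (nat_lit 152) (nat_lit 16928962411) (nat_lit 0) (nat_lit 6829844846) (nat_lit 43) (nat_lit 5) (nat_lit 45) (nat_lit 4) (nat_lit 43) (nat_lit 4) (nat_lit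 451) (nat_lit 395) (nat_lit 354)) (XT.lf (nat_lit 0) (nat_lit 23267466650) (nat_lit 76) (nat_lit 15486306030) (nat_lit 76) (nat_lit 4775041974) (nat_lit 42) (nat_lit 4) (nat_lit 43) (nat_lit 5) (nat_lit 43) (nat_lit 4) (nat_lit 452) (nat_lit 395) (nat_lit 353)))) (XT.nd (nat_lit 156) (nat_lit 228) (nat_lit 0) (XT.nd (nat_lit 78) (nat_lit 76) (nat_lit 0) (XT.lf (nat_lit 0) (nat_lit 15829952476) (nat_lit 152) (nat_lit 24503820577) (nat_lit 0) (nat_lit 5597702565) (nat_lit 40) (nat_lit 5) (nat_lit 42) (nat_lit 4) (nat_lit 40) (nat_lit 4) (nat_lit 453) (nat_lit 395) (nat_lit 352)) (XT.lf (nat_lit 0) (nat_lit 18682819428) (nat_lit 76) (nat_lit 20030377774) (nat_lit 76) (nat_lit 9769381522) (nat_lit 39) (nat_lit 4) (nat_lit 40) (nat_lit 5) (nat_lit 40) (nat_lit 4) (nat_lit 454) (nat_lit 395) (nat_lit 351))) (XT.nd (nat_lit 78) (nat_lit 76) (nat_lit 0) (XT.lf (nat_lit 0) (nat_lit 12396428864) (nat_lit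 152) (nat_lit 36203262574) (nat_lit 0) (nat_lit 2598701974) (nat_lit 37) (nat_lit 5) (nat_lit 39) (nat_lit 4) (nat_lit 37) (nat_lit 4) (nat_lit 455) (nat_lit 395) (nat_lit 350)) (XT.lf (nat_lit 0) (nat_lit 9916964063) (nat_lit 76) (nat_lit 26990982435) (nat_lit 76) (nat_lit 17169783780) (nat_lit 36) (nat_lit 4) (nat_lit 37) (nat_lit 5) (nat_lit 37) (nat_lit 4) (nat_lit 456) (nat_lit 395) (nat_lit 349))))))))
noncomputable def xc38 : XT := (XT.nd (nat_lit 2418) (nat_lit 304) (nat_lit 0) (XT.nd (nat_lit 1170) (nat_lit 912) (nat_lit 0) (XT.nd (nat_lit 546) (nat_lit 608) (nat_lit 0) (XT.nd (nat_lit 234) (nat_lit 456) (nat_lit 0) (XT.nd (nat_lit 78) (nat_lit 76) (nat_lit 0) (XT.lf (nat_lit 0) (nat_lit 3658203177) (nat_lit 76) (nat_lit 2927716309) (nat_lit 152) (nat_lit 50567102381) (nat_lit 34) (nat_lit 5) (nat_lit 35) (nat_lit 5) (nat_lit 36) (nat_lit 4) (nat_lit 457) (nat_lit 395) (nat_lit 348))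 (XT.nd (nat_lit 78) (nat_lit 76) (nat_lit 0) (XT.lf (nat_lit 0) (nat_lit 32686627614) (nat_lit 152) (nat_lit 4428089316) (nat_lit 0) (nat_lit 23293241873) (nat_lit 34) (nat_lit 5) (nat_lit 36) (nat_lit 4) (nat_lit 34) (nat_lit 4) (nat_lit 458) (nat_lit 395) (nat_lit 347)) (XT.lf (nat_lit 0) (nat_lit 49918130923) (nat_lit 76) (nat_lit 11689831343) (nat_lit 76) (nat_lit 2278700227) (nat_lit 33) (nat_lit 4) (nat_lit 34) (nat_lit 5) (nat_lit 34) (nat_lit 4) (nat_lit 459) (nat_lit 395) (nat_lit 346)))) (XT.nd (nat_lit 156) (nat_lit 228) (nat_lit 0) (XT.nd (nat_lit 78) (nat_lit 76) (nat_lit 0) (XT.lf (nat_lit 0) (nat_lit 25294907997) (nat_lit 152) (nat_lit 25967700472) (nat_lit 0) (nat_lit 16316277501) (nat_lit 31) (nat_lit 5) (nat_lit 33) (nat_lit 4) (nat_lit 31) (nat_lit 4) (nat_lit 460) (nat_lit 395) (nat_lit 345)) (XT.lf (nat_lit 0) (nat_lit 31155765385) (nat_lit 76) (nat_lit 24679958278) (nat_lit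 76) (nat_lit 15686838450) (nat_lit 30) (nat_lit 4) (nat_lit 31) (nat_lit 5) (nat_lit 31) (nat_lit 4) (nat_lit 461) (nat_lit 395) (nat_lit 344))) (XT.nd (nat_lit 78) (nat_lit 76) (nat_lit 0) (XT.lf (nat_lit 0) (nat_lit 13353670372) (nat_lit 152) (nat_lit 57605222096) (nat_lit 0) (nat_lit 4776017156) (nat_lit 28) (nat_lit 5) (nat_lit 30) (nat_lit 4) (nat_lit 28) (nat_lit 4) (nat_lit 462) (nat_lit 395) (nat_lit 343)) (XT.lf (nat_lit 0) (nat_lit 1686377635) (nat_lit 76) (nat_lit 43560276086) (nat_lit 76) (nat_lit 34970792138) (nat_lit 27) (nat_lit 4) (nat_lit 28) (nat_lit 5) (nat_lit 28) (nat_lit 4) (nat_lit 463) (nat_lit 395) (nat_lit 342))))) (XT.nd (nat_lit 312) (nat_lit 304) (nat_lit 0) (XT.nd (nat_lit 156) (nat_lit 152) (nat_lit 0) (XT.nd (nat_lit 78) (nat_lit 152) (nat_lit 0) (XT.lf (nat_lit 0) (nat_lit 67612217236) (nat_lit 76) (nat_lit 13000365459) (nat_lit 76) (nat_lit 4399927131) (nat_lit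 27) (nat_lit 4) (nat_lit 28) (nat_lit 5) (nat_lit 28) (nat_lit 4) (nat_lit 464) (nat_lit 395) (nat_lit 341)) (XT.lf (nat_lit 0) (nat_lit 28729170520) (nat_lit 152) (nat_lit 40859628676) (nat_lit 0) (nat_lit 20528616927) (nat_lit 25) (nat_lit 5) (nat_lit 27) (nat_lit 4) (nat_lit 25) (nat_lit 4) (nat_lit 465) (nat_lit 395) (nat_lit 340))) (XT.nd (nat_lit 78) (nat_lit 76) (nat_lit 0) (XT.lf (nat_lit 0) (nat_lit 26657034674) (nat_lit 76) (nat_lit 38568020660) (nat_lit 76) (nat_lit 30358522671) (nat_lit 24) (nat_lit 4) (nat_lit 25) (nat_lit 5) (nat_lit 25) (nat_lit 4) (nat_lit 466) (nat_lit 395) (nat_lit 339)) (XT.lf (nat_lit 0) (nat_lit 3703242704) (nat_lit 152) (nat_lit 626132292) (nat_lit 76) (nat_lit 97122666225) (nat_lit 23) (nat_lit 5) (nat_lit 25) (nat_lit 5) (nat_lit 24) (nat_lit 4) (nat_lit 467) (nat_lit 395) (nat_lit 338)))) (XT.nd (nat_lit 156) (nat_lit 152) (nat_lit 0) (XT.nd (nat_lit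 78) (nat_lit 76) (nat_lit 0) (XT.lf (nat_lit 0) (nat_lit 41078521132) (nat_lit 152) (nat_lit 33359206191) (nat_lit 0) (nat_lit 33244760928) (nat_lit 22) (nat_lit 5) (nat_lit 24) (nat_lit 4) (nat_lit 22) (nat_lit 4) (nat_lit 468) (nat_lit 395) (nat_lit 337)) (XT.lf (nat_lit 0) (nat_lit 42018686764) (nat_lit 76) (nat_lit 40099738336) (nat_lit 76) (nat_lit 32259215894) (nat_lit 21) (nat_lit 4) (nat_lit 22) (nat_lit 5) (nat_lit 22) (nat_lit 4) (nat_lit 469) (nat_lit 395) (nat_lit 336))) (XT.nd (nat_lit 78) (nat_lit 0) (nat_lit 0) (XT.lf (nat_lit 0) (nat_lit 2917609234) (nat_lit 76) (nat_lit 2333314184) (nat_lit 152) (nat_lit 116325084821) (nat_lit 19) (nat_lit 5) (nat_lit 20) (nat_lit 5) (nat_lit 21) (nat_lit 4) (nat_lit 470) (nat_lit 395) (nat_lit 335)) (XT.lf (nat_lit 0) (nat_lit 46466391933) (nat_lit 152) (nat_lit 43777931776) (nat_lit 0) (nat_lit 38987743074) (nat_lit 19) (nat_lit 5) (nat_lit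 21) (nat_lit 4) (nat_lit 19) (nat_lit 4) (nat_lit 471) (nat_lit 395) (nat_lit 334)))))) (XT.nd (nat_lit 624) (nat_lit 380) (nat_lit 0) (XT.nd (nat_lit 312) (nat_lit 228) (nat_lit 0) (XT.nd (nat_lit 156) (nat_lit 228) (nat_lit 0) (XT.nd (nat_lit 78) (nat_lit 0) (nat_lit 0) (XT.lf (nat_lit 0) (nat_lit 38158333657) (nat_lit 76) (nat_lit 53398573645) (nat_lit 76) (nat_lit 45914812325) (nat_lit 18) (nat_lit 4) (nat_lit 19) (nat_lit 5) (nat_lit 19) (nat_lit 4) (nat_lit 472) (nat_lit 395) (nat_lit 333)) (XT.lf (nat_lit 0) (nat_lit 128101263236) (nat_lit 76) (nat_lit 12861193489) (nat_lit 76) (nat_lit 5372698411) (nat_lit 18) (nat_lit 4) (nat_lit 19) (nat_lit 5) (nat_lit 19) (nat_lit 4) (nat_lit 473) (nat_lit 395) (nat_lit 332))) (XT.nd (nat_lit 78) (nat_lit 76) (nat_lit 0) (XT.lf (nat_lit 0) (nat_lit 38748541627) (nat_lit 152) (nat_lit 85438409905) (nat_lit 0) (nat_lit 31612467162) (nat_lit 16) (nat_lit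 5) (nat_lit 18) (nat_lit 4) (nat_lit 16) (nat_lit 4) (nat_lit 474) (nat_lit 395) (nat_lit 331)) (XT.lf (nat_lit 0) (nat_lit 284030953) (nat_lit 76) (nat_lit 86423750769) (nat_lit 76) (nat_lit 79283811128) (nat_lit 15) (nat_lit 4) (nat_lit 16) (nat_lit 5) (nat_lit 16) (nat_lit 4) (nat_lit 475) (nat_lit 395) (nat_lit 330)))) (XT.nd (nat_lit 156) (nat_lit 76) (nat_lit 0) (XT.nd (nat_lit 78) (nat_lit 152) (nat_lit 0) (XT.lf (nat_lit 0) (nat_lit 95817599606) (nat_lit 76) (nat_lit 44126520961) (nat_lit 76) (nat_lit 36983002452) (nat_lit 15) (nat_lit 4) (nat_lit 16) (nat_lit 5) (nat_lit 16) (nat_lit 4) (nat_lit 476) (nat_lit 395) (nat_lit 329)) (XT.lf (nat_lit 0) (nat_lit 8568426167) (nat_lit 152) (nat_lit 178393103746) (nat_lit 0) (nat_lit 1761919239) (nat_lit 13) (nat_lit 5) (nat_lit 15) (nat_lit 4) (nat_lit 13) (nat_lit 4) (nat_lit 477) (nat_lit 395) (nat_lit 328))) (XT.nd (nat_lit 78) (nat_lit 76)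 (nat_lit 0) (XT.lf (nat_lit 0) (nat_lit 58621847307) (nat_lit 152) (nat_lit 90891222870) (nat_lit 0) (nat_lit 51812418187) (nat_lit 13) (nat_lit 5) (nat_lit 15) (nat_lit 4) (nat_lit 13) (nat_lit 4) (nat_lit 478) (nat_lit 395) (nat_lit 327)) (XT.lf (nat_lit 0) (nat_lit 3644714602) (nat_lit 76) (nat_lit 109051147505) (nat_lit 76) (nat_lit 102239012652) (nat_lit 12) (nat_lit 4) (nat_lit 13) (nat_lit 5) (nat_lit 13) (nat_lit 4) (nat_lit 479) (nat_lit 395) (nat_lit 326))))) (XT.nd (nat_lit 312) (nat_lit 228) (nat_lit 0) (XT.nd (nat_lit 156) (nat_lit 152) (nat_lit 0) (XT.nd (nat_lit 78) (nat_lit 0) (nat_lit 0) (XT.lf (nat_lit 0) (nat_lit 108910071926) (nat_lit 76) (nat_lit 63730178854) (nat_lit 76) (nat_lit 56915538693) (nat_lit 12) (nat_lit 4) (nat_lit 13) (nat_lit 5) (nat_lit 13) (nat_lit 4) (nat_lit 480) (nat_lit 395) (nat_lit 325)) (XT.lf (nat_lit 0) (nat_lit 222523369507) (nat_lit 76) (nat_lit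 14820882361) (nat_lit 76) (nat_lit 8003922469) (nat_lit 12) (nat_lit 4) (nat_lit 13) (nat_lit 5) (nat_lit 13) (nat_lit 4) (nat_lit 481) (nat_lit 395) (nat_lit 324))) (XT.nd (nat_lit 78) (nat_lit 0) (nat_lit 0) (XT.lf (nat_lit 0) (nat_lit 45301620115) (nat_lit 152) (nat_lit 178164332544) (nat_lit 0) (nat_lit 38807231744) (nat_lit 10) (nat_lit 5) (nat_lit 12) (nat_lit 4) (nat_lit 10) (nat_lit 4) (nat_lit 482) (nat_lit 395) (nat_lit 323)) (XT.lf (nat_lit 0) (nat_lit 103216082999) (nat_lit 152) (nat_lit 80578506410) (nat_lit 0) (nat_lit 96719800537) (nat_lit 10) (nat_lit 5) (nat_lit 12) (nat_lit 4) (nat_lit 10) (nat_lit 4) (nat_lit 483) (nat_lit 395) (nat_lit 322)))) (XT.nd (nat_lit 156) (nat_lit 152) (nat_lit 0) (XT.nd (nat_lit 78) (nat_lit 0) (nat_lit 0) (XT.lf (nat_lit 0) (nat_lit 25570497270) (nat_lit 76) (nat_lit 140561995718) (nat_lit 76) (nat_lit 134063959469) (nat_lit 9) (nat_lit 4) (nat_lit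 10) (nat_lit 5) (nat_lit 10) (nat_lit 4) (nat_lit 484) (nat_lit 395) (nat_lit 321)) (XT.lf (nat_lit 0) (nat_lit 143029448537) (nat_lit 76) (nat_lit 92427282901) (nat_lit 76) (nat_lit 85927622775) (nat_lit 9) (nat_lit 4) (nat_lit 10) (nat_lit 5) (nat_lit 10) (nat_lit 4) (nat_lit 485) (nat_lit 395) (nat_lit 320))) (XT.nd (nat_lit 78) (nat_lit 152) (nat_lit 0) (XT.lf (nat_lit 0) (nat_lit 269830111112) (nat_lit 76) (nat_lit 40469844211) (nat_lit 76) (nat_lit 33968680495) (nat_lit 9) (nat_lit 4) (nat_lit 10) (nat_lit 5) (nat_lit 10) (nat_lit 4) (nat_lit 486) (nat_lit 395) (nat_lit 319)) (XT.lf (nat_lit 0) (nat_lit 22275285425) (nat_lit 152) (nat_lit 330566853220) (nat_lit 0) (nat_lit 16082375016) (nat_lit 7) (nat_lit 5) (nat_lit 9) (nat_lit 4) (nat_lit 7) (nat_lit 4) (nat_lit 487) (nat_lit 395) (nat_lit 318))))))) (XT.nd (nat_lit 1248) (nat_lit 0) (nat_lit 0) (XT.nd (nat_lit 624) (nat_lit 76) (nat_lit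 0) (XT.nd (nat_lit 312) (nat_lit 152) (nat_lit 0) (XT.nd (nat_lit 156) (nat_lit 76) (nat_lit 0) (XT.nd (nat_lit 78) (nat_lit 0) (nat_lit 0) (XT.lf (nat_lit 0) (nat_lit 83820250641) (nat_lit 152) (nat_lit 233979076443) (nat_lit 0) (nat_lit 77626112532) (nat_lit 7) (nat_lit 5) (nat_lit 9) (nat_lit 4) (nat_lit 7) (nat_lit 4) (nat_lit 488) (nat_lit 395) (nat_lit 317)) (XT.lf (nat_lit 0) (nat_lit 150265984605) (nat_lit 152) (nat_lit 129710886750) (nat_lit 0) (nat_lit 144070709735) (nat_lit 7) (nat_lit 5) (nat_lit 9) (nat_lit 4) (nat_lit 7) (nat_lit 4) (nat_lit 489) (nat_lit 395) (nat_lit 316))) (XT.nd (nat_lit 78) (nat_lit 76) (nat_lit 0) (XT.lf (nat_lit 0) (nat_lit 222006239813) (nat_lit 152) (nat_lit 17144398573) (nat_lit 0) (nat_lit 215809912387) (nat_lit 7) (nat_lit 5) (nat_lit 9) (nat_lit 4) (nat_lit 7) (nat_lit 4) (nat_lit 490) (nat_lit 395) (nat_lit 315)) (XT.lf (nat_lit 0) (nat_lit 107838969241)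 (nat_lit 76) (nat_lit 193310842990) (nat_lit 76) (nat_lit 187113540975) (nat_lit 6) (nat_lit 4) (nat_lit 7) (nat_lit 5) (nat_lit 7) (nat_lit 4) (nat_lit 491) (nat_lit 395) (nat_lit 314)))) (XT.nd (nat_lit 156) (nat_lit 152) (nat_lit 0) (XT.nd (nat_lit 78) (nat_lit 0) (nat_lit 0) (XT.lf (nat_lit 0) (nat_lit 243395004133) (nat_lit 76) (nat_lit 143509791924) (nat_lit 76) (nat_lit 137311587512) (nat_lit 6) (nat_lit 4) (nat_lit 7) (nat_lit 5) (nat_lit 7) (nat_lit 4) (nat_lit 492) (nat_lit 395) (nat_lit 313)) (XT.lf (nat_lit 0) (nat_lit 389760129881) (nat_lit 76) (nat_lit 89742716533) (nat_lit 76) (nat_lit 83543676570) (nat_lit 6) (nat_lit 4) (nat_lit 7) (nat_lit 5) (nat_lit 7) (nat_lit 4) (nat_lit 493) (nat_lit 395) (nat_lit 312))) (XT.nd (nat_lit 78) (nat_lit 152) (nat_lit 0) (XT.lf (nat_lit 0) (nat_lit 547801695378) (nat_lit 76) (nat_lit 31690997113) (nat_lit 76) (nat_lit 25491183490) (nat_lit 6)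 (nat_lit 4) (nat_lit 7) (nat_lit 5) (nat_lit 7) (nat_lit 4) (nat_lit 494) (nat_lit 395) (nat_lit 311)) (XT.lf (nat_lit 0) (nat_lit 37601121416) (nat_lit 152) (nat_lit 580870875874) (nat_lit 0) (nat_lit 31695854773) (nat_lit 4) (nat_lit 5) (nat_lit 6) (nat_lit 4) (nat_lit 4) (nat_lit 4) (nat_lit 495) (nat_lit 395) (nat_lit 310))))) (XT.nd (nat_lit 312) (nat_lit 76) (nat_lit 0) (XT.nd (nat_lit 156) (nat_lit 0) (nat_lit 0) (XT.nd (nat_lit 78) (nat_lit 0) (nat_lit 0) (XT.lf (nat_lit 0) (nat_lit 106391757313) (nat_lit 152) (nat_lit 491990833877) (nat_lit 0) (nat_lit 100485858967) (nat_lit 4) (nat_lit 5) (nat_lit 6) (nat_lit 4) (nat_lit 4) (nat_lit 4) (nat_lit 496) (nat_lit 395) (nat_lit 309)) (XT.lf (nat_lit 0) (nat_lit 180672051404) (nat_lit 152) (nat_lit 396028156191) (nat_lit 0) (nat_lit 174765568147) (nat_lit 4) (nat_lit 5) (nat_lit 6) (nat_lit 4) (nat_lit 4) (nat_lit 4) (nat_lit 497) (nat_lit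 395) (nat_lit 308))) (XT.nd (nat_lit 78) (nat_lit 0) (nat_lit 0) (XT.lf (nat_lit 0) (nat_lit 260882183209) (nat_lit 152) (nat_lit 292414175095) (nat_lit 0) (nat_lit 254975158368) (nat_lit 4) (nat_lit 5) (nat_lit 6) (nat_lit 4) (nat_lit 4) (nat_lit 4) (nat_lit 498) (nat_lit 395) (nat_lit 307)) (XT.lf (nat_lit 0) (nat_lit 347497472028) (nat_lit 152) (nat_lit 180534881813) (nat_lit 0) (nat_lit 341589945720) (nat_lit 4) (nat_lit 5) (nat_lit 6) (nat_lit 4) (nat_lit 4) (nat_lit 4) (nat_lit 499) (nat_lit 395) (nat_lit 306)))) (XT.nd (nat_lit 156) (nat_lit 0) (nat_lit 0) (XT.nd (nat_lit 78) (nat_lit 76) (nat_lit 0) (XT.lf (nat_lit 0) (nat_lit 441031193646) (nat_lit 152) (nat_lit 59727287941) (nat_lit 0) (nat_lit 435123203018) (nat_lit 4) (nat_lit 5) (nat_lit 6) (nat_lit 4) (nat_lit 4) (nat_lit 4) (nat_lit 500) (nat_lit 395) (nat_lit 305)) (XT.lf (nat_lit 0) (nat_lit 73062974856) (nat_lit 76) (nat_lit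 470115364911) (nat_lit 76) (nat_lit 464206944355) (nat_lit 3) (nat_lit 4) (nat_lit 4) (nat_lit 5) (nat_lit 4) (nat_lit 4) (nat_lit 501) (nat_lit 395) (nat_lit 304))) (XT.nd (nat_lit 78) (nat_lit 0) (nat_lit 0) (XT.lf (nat_lit 0) (nat_lit 218589777793) (nat_lit 76) (nat_lit 435938334847) (nat_lit 76) (nat_lit 430029516212) (nat_lit 3) (nat_lit 4) (nat_lit 4) (nat_lit 5) (nat_lit 4) (nat_lit 4) (nat_lit 502) (nat_lit 395) (nat_lit 303)) (XT.lf (nat_lit 0) (nat_lit 375740648049) (nat_lit 76) (nat_lit 399036371372) (nat_lit 76) (nat_lit 393127184143) (nat_lit 3) (nat_lit 4) (nat_lit 4) (nat_lit 5) (nat_lit 4) (nat_lit 4) (nat_lit 503) (nat_lit 395) (nat_lit 302)))))) (XT.nd (nat_lit 55380) (nat_lit 0) (nat_lit 8208) (XT.nd (nat_lit 55068) (nat_lit 0) (nat_lit 11172) (XT.nd (nat_lit 156) (nat_lit 0) (nat_lit 0) (XT.nd (nat_lit 78) (nat_lit 0) (nat_lit 0) (XT.lf (nat_lit 0) (nat_lit 545446850040) (nat_lit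 76) (nat_lit 359190796182) (nat_lit 76) (nat_lit 353281267663) (nat_lit 3) (nat_lit 4) (nat_lit 4) (nat_lit 5) (nat_lit 4) (nat_lit 4) (nat_lit 504) (nat_lit 395) (nat_lit 301)) (XT.lf (nat_lit 0) (nat_lit 728714050147) (nat_lit 76) (nat_lit 316165487350) (nat_lit 76) (nat_lit 310255642823) (nat_lit 3) (nat_lit 4) (nat_lit 4) (nat_lit 5) (nat_lit 4) (nat_lit 4) (nat_lit 505) (nat_lit 395) (nat_lit 300))) (XT.nd (nat_lit 54834) (nat_lit 0) (nat_lit 14288) (XT.lf (nat_lit 0) (nat_lit 926628276224) (nat_lit 76) (nat_lit 269705480083) (nat_lit 76) (nat_lit 263795342955) (nat_lit 3) (nat_lit 4) (nat_lit 4) (nat_lit 5) (nat_lit 4) (nat_lit 4) (nat_lit 506) (nat_lit 395) (nat_lit 299)) (XT.lf (nat_lit 0) (nat_lit 2387938592) (nat_lit 532) (nat_lit 531208985) (nat_lit 532) (nat_lit 531208985) (nat_lit 191) (nat_lit 4) (nat_lit 198) (nat_lit 5) (nat_lit 198) (nat_lit 4) (nat_lit 408) (nat_lit 396) (nat_lit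 396)))) (XT.nd (nat_lit 156) (nat_lit 1672) (nat_lit 0) (XT.nd (nat_lit 78) (nat_lit 760) (nat_lit 0) (XT.lf (nat_lit 0) (nat_lit 4333303428) (nat_lit 684) (nat_lit 1235717635) (nat_lit 0) (nat_lit 1456168086) (nat_lit 182) (nat_lit 5) (nat_lit 191) (nat_lit 4) (nat_lit 182) (nat_lit 4) (nat_lit 409) (nat_lit 396) (nat_lit 395)) (XT.lf (nat_lit 0) (nat_lit 2611699413) (nat_lit 760) (nat_lit 187165750) (nat_lit 76) (nat_lit 4370521209) (nat_lit 172) (nat_lit 5) (nat_lit 182) (nat_lit 5) (nat_lit 173) (nat_lit 4) (nat_lit 410) (nat_lit 396) (nat_lit 394))) (XT.nd (nat_lit 78) (nat_lit 380) (nat_lit 0) (XT.lf (nat_lit 0) (nat_lit 664886869) (nat_lit 532) (nat_lit 6263486078) (nat_lit 76) (nat_lit 405254288) (nat_lit 155) (nat_lit 5) (nat_lit 162) (nat_lit 5) (nat_lit 156) (nat_lit 4) (nat_lit 411) (nat_lit 396) (nat_lit 393)) (XT.lf (nat_lit 0) (nat_lit 2448852219) (nat_lit 380) (nat_lit 3527030241)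 (nat_lit 456) (nat_lit 1539908924) (nat_lit 150) (nat_lit 5) (nat_lit 155) (nat_lit 5) (nat_lit 156) (nat_lit 4) (nat_lit 412) (nat_lit 396) (nat_lit 392))))) (XT.nd (nat_lit 312) (nat_lit 1140) (nat_lit 0) (XT.nd (nat_lit 156) (nat_lit 988) (nat_lit 0) (XT.nd (nat_lit 78) (nat_lit 380) (nat_lit 0) (XT.lf (nat_lit 0) (nat_lit 3675239953) (nat_lit 456) (nat_lit 3718885109) (nat_lit 76) (nat_lit 325111572) (nat_lit 144) (nat_lit 5) (nat_lit 150) (nat_lit 5) (nat_lit 145) (nat_lit 4) (nat_lit 413) (nat_lit 396) (nat_lit 391)) (XT.lf (nat_lit 0) (nat_lit 1156550915) (nat_lit 380) (nat_lit 2257873234) (nat_lit 76) (nat_lit 4528134978) (nat_lit 139) (nat_lit 5) (nat_lit 144) (nat_lit 5) (nat_lit 140) (nat_lit 5) (nat_lit 414) (nat_lit 396) (nat_lit 390))) (XT.nd (nat_lit 78) (nat_lit 684) (nat_lit 0) (XT.lf (nat_lit 0) (nat_lit 6493538771) (nat_lit 380) (nat_lit 663225160) (nat_lit 76) (nat_lit 1030589714)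 (nat_lit 135) (nat_lit 5) (nat_lit 140) (nat_lit 5) (nat_lit 136) (nat_lit 4) (nat_lit 415) (nat_lit 396) (nat_lit 389)) (XT.lf (nat_lit 0) (nat_lit 1067598866) (nat_lit 304) (nat_lit 2555885747) (nat_lit 380) (nat_lit 4828321211) (nat_lit 126) (nat_lit 5) (nat_lit 130) (nat_lit 5) (nat_lit 131) (nat_lit 5) (nat_lit 416) (nat_lit 396) (nat_lit 388)))) (XT.nd (nat_lit 156) (nat_lit 532) (nat_lit 0) (XT.nd (nat_lit 78) (nat_lit 304) (nat_lit 0) (XT.lf (nat_lit 0) (nat_lit 487234576) (nat_lit 304) (nat_lit 5769253998) (nat_lit 76) (nat_lit 2482375776) (nat_lit 122) (nat_lit 5) (nat_lit 126) (nat_lit 5) (nat_lit 123) (nat_lit 5) (nat_lit 417) (nat_lit 396) (nat_lit 387)) (XT.lf (nat_lit 0) (nat_lit 4974999230) (nat_lit 304) (nat_lit 1031482656) (nat_lit 380) (nat_lit 3041085562) (nat_lit 118) (nat_lit 5) (nat_lit 122) (nat_lit 5) (nat_lit 123) (nat_lit 5) (nat_lit 418) (nat_lit 396) (nat_lit 386)))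 (XT.nd (nat_lit 78) (nat_lit 228) (nat_lit 0) (XT.lf (nat_lit 0) (nat_lit 2497196463) (nat_lit 304) (nat_lit 2282320368) (nat_lit 76) (nat_lit 4599763195) (nat_lit 114) (nat_lit 5) (nat_lit 118) (nat_lit 5) (nat_lit 115) (nat_lit 5) (nat_lit 419) (nat_lit 396) (nat_lit 385)) (XT.lf (nat_lit 0) (nat_lit 8344907607) (nat_lit 304) (nat_lit 366992009) (nat_lit 76) (nat_lit 1024506368) (nat_lit 111) (nat_lit 5) (nat_lit 115) (nat_lit 5) (nat_lit 112) (nat_lit 4) (nat_lit 420) (nat_lit 396) (nat_lit 384))))))))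
noncomputable def xc39 : XT := (XT.nd (nat_lit 2496) (nat_lit 2508) (nat_lit 0) (XT.nd (nat_lit 1248) (nat_lit 1824) (nat_lit 0) (XT.nd (nat_lit 624) (nat_lit 1292) (nat_lit 0) (XT.nd (nat_lit 312) (nat_lit 912) (nat_lit 0) (XT.nd (nat_lit 156) (nat_lit 456) (nat_lit 0) (XT.nd (nat_lit 78) (nat_lit 228) (nat_lit 0) (XT.lf (nat_lit 0) (nat_lit 1664135751) (nat_lit 228) (nat_lit 2792273724) (nat_lit 304) (nat_lit 5658996101) (nat_lit 105) (nat_lit 5) (nat_lit 108) (nat_lit 5) (nat_lit 109) (nat_lit 5) (nat_lit 421) (nat_lit 396) (nat_lit 383)) (XT.lf (nat_lit 0) (nat_lit 228996078) (nat_lit 228) (nat_lit 6676577070) (nat_lit 76) (nat_lit 3616087948) (nat_lit 102) (nat_lit 5) (nat_lit 105) (nat_lit 5) (nat_lit 103) (nat_lit 5) (nat_lit 422) (nat_lit 396) (nat_lit 382))) (XT.nd (nat_lit 78) (nat_lit 228) (nat_lit 0) (XT.lf (nat_lit 0) (nat_lit 6110823929) (nat_lit 228) (nat_lit 315379943) (nat_lit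 304) (nat_lit 4527763210) (nat_lit 99) (nat_lit 5) (nat_lit 102) (nat_lit 5) (nat_lit 103) (nat_lit 5) (nat_lit 423) (nat_lit 396) (nat_lit 381)) (XT.lf (nat_lit 0) (nat_lit 1755199682) (nat_lit 228) (nat_lit 2940745529) (nat_lit 76) (nat_lit 6718034536) (nat_lit 96) (nat_lit 5) (nat_lit 99) (nat_lit 5) (nat_lit 97) (nat_lit 5) (nat_lit 424) (nat_lit 396) (nat_lit 380)))) (XT.nd (nat_lit 156) (nat_lit 380) (nat_lit 0) (XT.nd (nat_lit 78) (nat_lit 380) (nat_lit 0) (XT.lf (nat_lit 0) (nat_lit 8448088771) (nat_lit 228) (nat_lit 952034175) (nat_lit 76) (nat_lit 2503671805) (nat_lit 94) (nat_lit 5) (nat_lit 97) (nat_lit 5) (nat_lit 95) (nat_lit 4) (nat_lit 425) (nat_lit 396) (nat_lit 379)) (XT.lf (nat_lit 0) (nat_lit 1155212581) (nat_lit 152) (nat_lit 2118179361) (nat_lit 228) (nat_lit 9150198817) (nat_lit 89) (nat_lit 5) (nat_lit 91) (nat_lit 5) (nat_lit 92) (nat_lit 5) (nat_lit 426) (nat_lit 396)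 (nat_lit 378))) (XT.nd (nat_lit 78) (nat_lit 228) (nat_lit 0) (XT.lf (nat_lit 0) (nat_lit 3365096894) (nat_lit 152) (nat_lit 7212991211) (nat_lit 228) (nat_lit 2396139748) (nat_lit 87) (nat_lit 5) (nat_lit 89) (nat_lit 5) (nat_lit 90) (nat_lit 4) (nat_lit 427) (nat_lit 396) (nat_lit 377)) (XT.lf (nat_lit 0) (nat_lit 4855431282) (nat_lit 228) (nat_lit 7883755784) (nat_lit 76) (nat_lit 820213195) (nat_lit 84) (nat_lit 5) (nat_lit 87) (nat_lit 5) (nat_lit 85) (nat_lit 4) (nat_lit 428) (nat_lit 396) (nat_lit 376))))) (XT.nd (nat_lit 312) (nat_lit 684) (nat_lit 0) (XT.nd (nat_lit 156) (nat_lit 304) (nat_lit 0) (XT.nd (nat_lit 78) (nat_lit 228) (nat_lit 0) (XT.lf (nat_lit 0) (nat_lit 8055484071) (nat_lit 76) (nat_lit 4751241435) (nat_lit 152) (nat_lit 1372525314) (nat_lit 83) (nat_lit 5) (nat_lit 84) (nat_lit 5) (nat_lit 85) (nat_lit 4) (nat_lit 429) (nat_lit 396) (nat_lit 375)) (XT.lf (nat_lit 0)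 (nat_lit 6497002498) (nat_lit 228) (nat_lit 4331127929) (nat_lit 76) (nat_lit 4007401258) (nat_lit 80) (nat_lit 5) (nat_lit 83) (nat_lit 5) (nat_lit 81) (nat_lit 4) (nat_lit 430) (nat_lit 396) (nat_lit 374))) (XT.nd (nat_lit 78) (nat_lit 228) (nat_lit 0) (XT.lf (nat_lit 0) (nat_lit 13094037396) (nat_lit 76) (nat_lit 2046797194) (nat_lit 152) (nat_lit 392718660) (nat_lit 79) (nat_lit 5) (nat_lit 80) (nat_lit 5) (nat_lit 81) (nat_lit 4) (nat_lit 431) (nat_lit 396) (nat_lit 373)) (XT.lf (nat_lit 0) (nat_lit 8176718715) (nat_lit 228) (nat_lit 587760020) (nat_lit 76) (nat_lit 7504046796) (nat_lit 76) (nat_lit 5) (nat_lit 79) (nat_lit 5) (nat_lit 77) (nat_lit 4) (nat_lit 432) (nat_lit 396) (nat_lit 372)))) (XT.nd (nat_lit 156) (nat_lit 304) (nat_lit 0) (XT.nd (nat_lit 78) (nat_lit 76) (nat_lit 0) (XT.lf (nat_lit 0) (nat_lit 563510123) (nat_lit 228) (nat_lit 15597806180) (nat_lit 76) (nat_lit 889436881)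 (nat_lit 72) (nat_lit 5) (nat_lit 75) (nat_lit 5) (nat_lit 73) (nat_lit 4) (nat_lit 433) (nat_lit 396) (nat_lit 371)) (XT.lf (nat_lit 0) (nat_lit 3437553928) (nat_lit 76) (nat_lit 6515002956) (nat_lit 152) (nat_lit 7920132812) (nat_lit 71) (nat_lit 5) (nat_lit 72) (nat_lit 5) (nat_lit 73) (nat_lit 4) (nat_lit 434) (nat_lit 396) (nat_lit 370))) (XT.nd (nat_lit 78) (nat_lit 76) (nat_lit 0) (XT.lf (nat_lit 0) (nat_lit 1534274117) (nat_lit 228) (nat_lit 13199172319) (nat_lit 76) (nat_lit 4013669020) (nat_lit 68) (nat_lit 5) (nat_lit 71) (nat_lit 5) (nat_lit 69) (nat_lit 4) (nat_lit 435) (nat_lit 396) (nat_lit 369)) (XT.lf (nat_lit 0) (nat_lit 7626889368) (nat_lit 76) (nat_lit 4150952625) (nat_lit 152) (nat_lit 7891649563) (nat_lit 67) (nat_lit 5) (nat_lit 68) (nat_lit 5) (nat_lit 69) (nat_lit 4) (nat_lit 436) (nat_lit 396) (nat_lit 368)))))) (XT.nd (nat_lit 624) (nat_lit 912) (nat_lit 0) (XT.nd (nat_lit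 312) (nat_lit 456) (nat_lit 0) (XT.nd (nat_lit 156) (nat_lit 228) (nat_lit 0) (XT.nd (nat_lit 78) (nat_lit 76) (nat_lit 0) (XT.lf (nat_lit 0) (nat_lit 2439278073) (nat_lit 152) (nat_lit 10883390104) (nat_lit 76) (nat_lit 7324610832) (nat_lit 65) (nat_lit 5) (nat_lit 67) (nat_lit 5) (nat_lit 66) (nat_lit 4) (nat_lit 437) (nat_lit 396) (nat_lit 367)) (XT.lf (nat_lit 0) (nat_lit 11908036215) (nat_lit 76) (nat_lit 1718017094) (nat_lit 152) (nat_lit 8055476917) (nat_lit 64) (nat_lit 5) (nat_lit 65) (nat_lit 5) (nat_lit 66) (nat_lit 4) (nat_lit 438) (nat_lit 396) (nat_lit 366))) (XT.nd (nat_lit 78) (nat_lit 76) (nat_lit 0) (XT.lf (nat_lit 0) (nat_lit 3242929867) (nat_lit 152) (nat_lit 8739000673) (nat_lit 76) (nat_lit 10792982155) (nat_lit 62) (nat_lit 5) (nat_lit 64) (nat_lit 5) (nat_lit 63) (nat_lit 4) (nat_lit 439) (nat_lit 396) (nat_lit 365)) (XT.lf (nat_lit 0) (nat_lit 15476361767) (nat_lit 152)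 (nat_lit 7745070671) (nat_lit 0) (nat_lit 712063450) (nat_lit 61) (nat_lit 5) (nat_lit 63) (nat_lit 4) (nat_lit 61) (nat_lit 4) (nat_lit 440) (nat_lit 396) (nat_lit 364)))) (XT.nd (nat_lit 156) (nat_lit 228) (nat_lit 0) (XT.nd (nat_lit 78) (nat_lit 76) (nat_lit 0) (XT.lf (nat_lit 0) (nat_lit 3890699469) (nat_lit 152) (nat_lit 6890221838) (nat_lit 76) (nat_lit 14376154048) (nat_lit 59) (nat_lit 5) (nat_lit 61) (nat_lit 5) (nat_lit 60) (nat_lit 4) (nat_lit 441) (nat_lit 396) (nat_lit 363)) (XT.lf (nat_lit 0) (nat_lit 17291085374) (nat_lit 152) (nat_lit 6119453678) (nat_lit 0) (nat_lit 3043020431) (nat_lit 58) (nat_lit 5) (nat_lit 60) (nat_lit 4) (nat_lit 58) (nat_lit 4) (nat_lit 442) (nat_lit 396) (nat_lit 362))) (XT.nd (nat_lit 78) (nat_lit 76) (nat_lit 0) (XT.lf (nat_lit 0) (nat_lit 4303431495) (nat_lit 152) (nat_lit 5509198313) (nat_lit 76) (nat_lit 18012140365) (nat_lit 56) (nat_lit 5) (nat_lit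 58) (nat_lit 5) (nat_lit 57) (nat_lit 4) (nat_lit 443) (nat_lit 396) (nat_lit 361)) (XT.lf (nat_lit 0) (nat_lit 18963375776) (nat_lit 152) (nat_lit 5071661983) (nat_lit 0) (nat_lit 5241242226) (nat_lit 55) (nat_lit 5) (nat_lit 57) (nat_lit 4) (nat_lit 55) (nat_lit 4) (nat_lit 444) (nat_lit 396) (nat_lit 360))))) (XT.nd (nat_lit 312) (nat_lit 456) (nat_lit 0) (XT.nd (nat_lit 156) (nat_lit 228) (nat_lit 0) (XT.nd (nat_lit 78) (nat_lit 76) (nat_lit 0) (XT.lf (nat_lit 0) (nat_lit 4369833728) (nat_lit 152) (nat_lit 4831882120) (nat_lit 76) (nat_lit 21611904364) (nat_lit 53) (nat_lit 5) (nat_lit 55) (nat_lit 5) (nat_lit 54) (nat_lit 4) (nat_lit 445) (nat_lit 396) (nat_lit 359)) (XT.lf (nat_lit 0) (nat_lit 20378070451) (nat_lit 152) (nat_lit 4877000851) (nat_lit 0) (nat_lit 7184814472) (nat_lit 52) (nat_lit 5) (nat_lit 54) (nat_lit 4) (nat_lit 52) (nat_lit 4) (nat_lit 446) (nat_lit 396) (nat_lit 358)))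 (XT.nd (nat_lit 78) (nat_lit 76) (nat_lit 0) (XT.lf (nat_lit 0) (nat_lit 3936623568) (nat_lit 152) (nat_lit 5178625205) (nat_lit 76) (nat_lit 25049445583) (nat_lit 50) (nat_lit 5) (nat_lit 52) (nat_lit 5) (nat_lit 51) (nat_lit 4) (nat_lit 447) (nat_lit 396) (nat_lit 357)) (XT.lf (nat_lit 0) (nat_lit 21373776678) (nat_lit 152) (nat_lit 5907685451) (nat_lit 0) (nat_lit 8707068260) (nat_lit 49) (nat_lit 5) (nat_lit 51) (nat_lit 4) (nat_lit 49) (nat_lit 4) (nat_lit 448) (nat_lit 396) (nat_lit 356)))) (XT.nd (nat_lit 156) (nat_lit 228) (nat_lit 0) (XT.nd (nat_lit 78) (nat_lit 76) (nat_lit 0) (XT.lf (nat_lit 0) (nat_lit 2795661476) (nat_lit 152) (nat_lit 6980876038) (nat_lit 76) (nat_lit 28148983376) (nat_lit 47) (nat_lit 5) (nat_lit 49) (nat_lit 5) (nat_lit 48) (nat_lit 4) (nat_lit 449) (nat_lit 396) (nat_lit 355)) (XT.lf (nat_lit 0) (nat_lit 21728379604) (nat_lit 152) (nat_lit 8663231246) (nat_lit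 0) (nat_lit 9581806166) (nat_lit 46) (nat_lit 5) (nat_lit 48) (nat_lit 4) (nat_lit 46) (nat_lit 4) (nat_lit 450) (nat_lit 396) (nat_lit 354))) (XT.nd (nat_lit 78) (nat_lit 76) (nat_lit 0) (XT.lf (nat_lit 0) (nat_lit 667204275) (nat_lit 152) (nat_lit 10815771204) (nat_lit 76) (nat_lit 30668360696) (nat_lit 44) (nat_lit 5) (nat_lit 46) (nat_lit 5) (nat_lit 45) (nat_lit 4) (nat_lit 451) (nat_lit 396) (nat_lit 353)) (XT.lf (nat_lit 0) (nat_lit 21140168104) (nat_lit 152) (nat_lit 13809820000) (nat_lit 0) (nat_lit 9504198355) (nat_lit 43) (nat_lit 5) (nat_lit 45) (nat_lit 4) (nat_lit 43) (nat_lit 4) (nat_lit 452) (nat_lit 396) (nat_lit 352))))))) (XT.nd (nat_lit 1248) (nat_lit 912) (nat_lit 0) (XT.nd (nat_lit 624) (nat_lit 836) (nat_lit 0) (XT.nd (nat_lit 312) (nat_lit 304) (nat_lit 0) (XT.nd (nat_lit 156) (nat_lit 228) (nat_lit 0) (XT.nd (nat_lit 78) (nat_lit 152) (nat_lit 0) (XT.lf (nat_lit 0) (nat_lit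 29407912291) (nat_lit 76) (nat_lit 14581297183) (nat_lit 76) (nat_lit 2915143775) (nat_lit 42) (nat_lit 4) (nat_lit 43) (nat_lit 5) (nat_lit 43) (nat_lit 4) (nat_lit 453) (nat_lit 396) (nat_lit 351)) (XT.lf (nat_lit 0) (nat_lit 19203309606) (nat_lit 152) (nat_lit 22231257018) (nat_lit 0) (nat_lit 8066070331) (nat_lit 40) (nat_lit 5) (nat_lit 42) (nat_lit 4) (nat_lit 40) (nat_lit 4) (nat_lit 454) (nat_lit 396) (nat_lit 350))) (XT.nd (nat_lit 78) (nat_lit 152) (nat_lit 0) (XT.lf (nat_lit 0) (nat_lit 24226358851) (nat_lit 76) (nat_lit 19597998772) (nat_lit 76) (nat_lit 8436114142) (nat_lit 39) (nat_lit 4) (nat_lit 40) (nat_lit 5) (nat_lit 40) (nat_lit 4) (nat_lit 455) (nat_lit 396) (nat_lit 349)) (XT.lf (nat_lit 0) (nat_lit 15376037867) (nat_lit 152) (nat_lit 35094886769) (nat_lit 0) (nat_lit 4723938437) (nat_lit 37) (nat_lit 5) (nat_lit 39) (nat_lit 4) (nat_lit 37) (nat_lit 4) (nat_lit 456) (nat_lit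 396) (nat_lit 348)))) (XT.nd (nat_lit 156) (nat_lit 76) (nat_lit 0) (XT.nd (nat_lit 78) (nat_lit 152) (nat_lit 0) (XT.lf (nat_lit 0) (nat_lit 14540921364) (nat_lit 76) (nat_lit 27220110495) (nat_lit 76) (nat_lit 16547887808) (nat_lit 36) (nat_lit 4) (nat_lit 37) (nat_lit 5) (nat_lit 37) (nat_lit 4) (nat_lit 457) (nat_lit 396) (nat_lit 347)) (XT.lf (nat_lit 0) (nat_lit 7676084524) (nat_lit 76) (nat_lit 1283398331) (nat_lit 152) (nat_lit 52673440494) (nat_lit 34) (nat_lit 5) (nat_lit 35) (nat_lit 5) (nat_lit 36) (nat_lit 4) (nat_lit 458) (nat_lit 396) (nat_lit 346))) (XT.nd (nat_lit 78) (nat_lit 76) (nat_lit 0) (XT.lf (nat_lit 0) (nat_lit 37038612462) (nat_lit 152) (nat_lit 1274710386) (nat_lit 0) (nat_lit 26840414577) (nat_lit 34) (nat_lit 5) (nat_lit 36) (nat_lit 4) (nat_lit 34) (nat_lit 4) (nat_lit 459) (nat_lit 396) (nat_lit 345)) (XT.lf (nat_lit 0) (nat_lit 57266770318) (nat_lit 76) (nat_lit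 10930596757) (nat_lit 76) (nat_lit 717185073) (nat_lit 33) (nat_lit 4) (nat_lit 34) (nat_lit 5) (nat_lit 34) (nat_lit 4) (nat_lit 460) (nat_lit 396) (nat_lit 344))))) (XT.nd (nat_lit 312) (nat_lit 380) (nat_lit 0) (XT.nd (nat_lit 156) (nat_lit 228) (nat_lit 0) (XT.nd (nat_lit 78) (nat_lit 76) (nat_lit 0) (XT.lf (nat_lit 0) (nat_lit 28958146423) (nat_lit 152) (nat_lit 24727392141) (nat_lit 0) (nat_lit 19217671627) (nat_lit 31) (nat_lit 5) (nat_lit 33) (nat_lit 4) (nat_lit 31) (nat_lit 4) (nat_lit 461) (nat_lit 396) (nat_lit 343)) (XT.lf (nat_lit 0) (nat_lit 36821766727) (nat_lit 76) (nat_lit 25048553227) (nat_lit 76) (nat_lit 15295656163) (nat_lit 30) (nat_lit 4) (nat_lit 31) (nat_lit 5) (nat_lit 31) (nat_lit 4) (nat_lit 462) (nat_lit 396) (nat_lit 342))) (XT.nd (nat_lit 78) (nat_lit 76) (nat_lit 0) (XT.lf (nat_lit 0) (nat_lit 15969949515) (nat_lit 152) (nat_lit 59075828298) (nat_lit 0) (nat_lit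 6670521740) (nat_lit 28) (nat_lit 5) (nat_lit 30) (nat_lit 4) (nat_lit 28) (nat_lit 4) (nat_lit 463) (nat_lit 396) (nat_lit 341)) (XT.lf (nat_lit 0) (nat_lit 4822733946) (nat_lit 76) (nat_lit 45523832977) (nat_lit 76) (nat_lit 36214262257) (nat_lit 27) (nat_lit 4) (nat_lit 28) (nat_lit 5) (nat_lit 28) (nat_lit 4) (nat_lit 464) (nat_lit 396) (nat_lit 340)))) (XT.nd (nat_lit 156) (nat_lit 228) (nat_lit 0) (XT.nd (nat_lit 78) (nat_lit 152) (nat_lit 0) (XT.lf (nat_lit 0) (nat_lit 75800311375) (nat_lit 76) (nat_lit 12631815811) (nat_lit 76) (nat_lit 3312853476) (nat_lit 27) (nat_lit 4) (nat_lit 28) (nat_lit 5) (nat_lit 28) (nat_lit 4) (nat_lit 465) (nat_lit 396) (nat_lit 339)) (XT.lf (nat_lit 0) (nat_lit 32380914592) (nat_lit 152) (nat_lit 41380791082) (nat_lit 0) (nat_lit 23497430521) (nat_lit 25) (nat_lit 5) (nat_lit 27) (nat_lit 4) (nat_lit 25) (nat_lit 4) (nat_lit 466) (nat_lit 396) (nat_lit 338)))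 (XT.nd (nat_lit 78) (nat_lit 152) (nat_lit 0) (XT.lf (nat_lit 0) (nat_lit 31417797646) (nat_lit 76) (nat_lit 40319453492) (nat_lit 76) (nat_lit 31428301042) (nat_lit 24) (nat_lit 4) (nat_lit 25) (nat_lit 5) (nat_lit 25) (nat_lit 4) (nat_lit 467) (nat_lit 396) (nat_lit 337)) (XT.lf (nat_lit 0) (nat_lit 1857005463) (nat_lit 76) (nat_lit 3389461981) (nat_lit 152) (nat_lit 104259386606) (nat_lit 22) (nat_lit 5) (nat_lit 23) (nat_lit 5) (nat_lit 24) (nat_lit 4) (nat_lit 468) (nat_lit 396) (nat_lit 336)))))) (XT.nd (nat_lit 624) (nat_lit 380) (nat_lit 0) (XT.nd (nat_lit 312) (nat_lit 304) (nat_lit 0) (XT.nd (nat_lit 156) (nat_lit 152) (nat_lit 0) (XT.nd (nat_lit 78) (nat_lit 76) (nat_lit 0) (XT.lf (nat_lit 0) (nat_lit 45548259412) (nat_lit 152) (nat_lit 33622181427) (nat_lit 0) (nat_lit 37067471605) (nat_lit 22) (nat_lit 5) (nat_lit 24) (nat_lit 4) (nat_lit 22) (nat_lit 4) (nat_lit 469) (nat_lit 396)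 (nat_lit 335)) (XT.lf (nat_lit 0) (nat_lit 47681391512) (nat_lit 76) (nat_lit 42138229068) (nat_lit 76) (nat_lit 33651643732) (nat_lit 21) (nat_lit 4) (nat_lit 22) (nat_lit 5) (nat_lit 22) (nat_lit 4) (nat_lit 470) (nat_lit 396) (nat_lit 334))) (XT.nd (nat_lit 78) (nat_lit 0) (nat_lit 0) (XT.lf (nat_lit 0) (nat_lit 5388602167) (nat_lit 76) (nat_lit 1382400557) (nat_lit 152) (nat_lit 124476084238) (nat_lit 19) (nat_lit 5) (nat_lit 20) (nat_lit 5) (nat_lit 21) (nat_lit 4) (nat_lit 471) (nat_lit 396) (nat_lit 333)) (XT.lf (nat_lit 0) (nat_lit 51218672015) (nat_lit 152) (nat_lit 45173846561) (nat_lit 0) (nat_lit 43126363572) (nat_lit 19) (nat_lit 5) (nat_lit 21) (nat_lit 4) (nat_lit 19) (nat_lit 4) (nat_lit 472) (nat_lit 396) (nat_lit 332)))) (XT.nd (nat_lit 156) (nat_lit 228) (nat_lit 0) (XT.nd (nat_lit 78) (nat_lit 0) (nat_lit 0) (XT.lf (nat_lit 0) (nat_lit 43225782017) (nat_lit 76) (nat_lit 56645438634)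 (nat_lit 76) (nat_lit 48548747081) (nat_lit 18) (nat_lit 4) (nat_lit 19) (nat_lit 5) (nat_lit 19) (nat_lit 4) (nat_lit 473) (nat_lit 396) (nat_lit 331)) (XT.lf (nat_lit 0) (nat_lit 140214902876) (nat_lit 76) (nat_lit 12940995540) (nat_lit 76) (nat_lit 4840245552) (nat_lit 18) (nat_lit 4) (nat_lit 19) (nat_lit 5) (nat_lit 19) (nat_lit 4) (nat_lit 474) (nat_lit 396) (nat_lit 330))) (XT.nd (nat_lit 78) (nat_lit 76) (nat_lit 0) (XT.lf (nat_lit 0) (nat_lit 42753630455) (nat_lit 152) (nat_lit 90429428696) (nat_lit 0) (nat_lit 35035051599) (nat_lit 16) (nat_lit 5) (nat_lit 18) (nat_lit 4) (nat_lit 16) (nat_lit 4) (nat_lit 475) (nat_lit 396) (nat_lit 329)) (XT.lf (nat_lit 0) (nat_lit 2070667090) (nat_lit 76) (nat_lit 92439430043) (nat_lit 76) (nat_lit 84717537421) (nat_lit 15) (nat_lit 4) (nat_lit 16) (nat_lit 5) (nat_lit 16) (nat_lit 4) (nat_lit 476) (nat_lit 396) (nat_lit 328))))) (XT.nd (nat_lit 312)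 (nat_lit 152) (nat_lit 0) (XT.nd (nat_lit 156) (nat_lit 76) (nat_lit 0) (XT.nd (nat_lit 78) (nat_lit 152) (nat_lit 0) (XT.lf (nat_lit 0) (nat_lit 105116260965) (nat_lit 76) (nat_lit 46824956723) (nat_lit 76) (nat_lit 39099995800) (nat_lit 15) (nat_lit 4) (nat_lit 16) (nat_lit 5) (nat_lit 16) (nat_lit 4) (nat_lit 477) (nat_lit 396) (nat_lit 327)) (XT.lf (nat_lit 0) (nat_lit 10045683155) (nat_lit 152) (nat_lit 191050180124) (nat_lit 0) (nat_lit 2685871780) (nat_lit 13) (nat_lit 5) (nat_lit 15) (nat_lit 4) (nat_lit 13) (nat_lit 4) (nat_lit 478) (nat_lit 396) (nat_lit 326))) (XT.nd (nat_lit 78) (nat_lit 76) (nat_lit 0) (XT.lf (nat_lit 0) (nat_lit 64044727401) (nat_lit 152) (nat_lit 96667731884) (nat_lit 0) (nat_lit 56682410717) (nat_lit 13) (nat_lit 5) (nat_lit 15) (nat_lit 4) (nat_lit 13) (nat_lit 4) (nat_lit 479) (nat_lit 396) (nat_lit 325)) (XT.lf (nat_lit 0) (nat_lit 5366118886) (nat_lit 76)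 (nat_lit 117046562010) (nat_lit 76) (nat_lit 109681925597) (nat_lit 12) (nat_lit 4) (nat_lit 13) (nat_lit 5) (nat_lit 13) (nat_lit 4) (nat_lit 480) (nat_lit 396) (nat_lit 324)))) (XT.nd (nat_lit 156) (nat_lit 152) (nat_lit 0) (XT.nd (nat_lit 78) (nat_lit 0) (nat_lit 0) (XT.lf (nat_lit 0) (nat_lit 118946791677) (nat_lit 76) (nat_lit 68153891964) (nat_lit 76) (nat_lit 60787107652) (nat_lit 12) (nat_lit 4) (nat_lit 13) (nat_lit 5) (nat_lit 13) (nat_lit 4) (nat_lit 481) (nat_lit 396) (nat_lit 323)) (XT.lf (nat_lit 0) (nat_lit 241551085361) (nat_lit 76) (nat_lit 15381829618) (nat_lit 76) (nat_lit 8013056511) (nat_lit 12) (nat_lit 4) (nat_lit 13) (nat_lit 5) (nat_lit 13) (nat_lit 4) (nat_lit 482) (nat_lit 396) (nat_lit 322))) (XT.nd (nat_lit 78) (nat_lit 0) (nat_lit 0) (XT.lf (nat_lit 0) (nat_lit 49519564835) (nat_lit 152) (nat_lit 191205851095) (nat_lit 0) (nat_lit 42499931898) (nat_lit 10) (nat_lit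 5) (nat_lit 12) (nat_lit 4) (nat_lit 10) (nat_lit 4) (nat_lit 483) (nat_lit 396) (nat_lit 321)) (XT.lf (nat_lit 0) (nat_lit 112023198445) (nat_lit 152) (nat_lit 85902909096) (nat_lit 0) (nat_lit 105001941631) (nat_lit 10) (nat_lit 5) (nat_lit 12) (nat_lit 4) (nat_lit 10) (nat_lit 4) (nat_lit 484) (nat_lit 396) (nat_lit 320))))))))
noncomputable def xc40 : XT := (XT.nd (nat_lit 57018) (nat_lit 0) (nat_lit 3800) (XT.nd (nat_lit 1170) (nat_lit 76) (nat_lit 0) (XT.nd (nat_lit 546) (nat_lit 228) (nat_lit 0) (XT.nd (nat_lit 234) (nat_lit 152) (nat_lit 0) (XT.nd (nat_lit 78) (nat_lit 0) (nat_lit 0) (XT.lf (nat_lit 0) (nat_lit 28689259434) (nat_lit 76) (nat_lit 151259688187) (nat_lit 76) (nat_lit 144236927783) (nat_lit 9) (nat_lit 4) (nat_lit 10) (nat_lit 5) (nat_lit 10) (nat_lit 4) (nat_lit 485) (nat_lit 396) (nat_lit 319)) (XT.nd (nat_lit 78) (nat_lit 0) (nat_lit 0) (XT.lf (nat_lit 0) (nat_lit 155465436256)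 (nat_lit 76) (nat_lit 99314736655) (nat_lit 76) (nat_lit 92290584038) (nat_lit 9) (nat_lit 4) (nat_lit 10) (nat_lit 5) (nat_lit 10) (nat_lit 4) (nat_lit 486) (nat_lit 396) (nat_lit 318)) (XT.lf (nat_lit 0) (nat_lit 292336549478) (nat_lit 76) (nat_lit 43238238342) (nat_lit 76) (nat_lit 36212796639) (nat_lit 9) (nat_lit 4) (nat_lit 10) (nat_lit 5) (nat_lit 10) (nat_lit 4) (nat_lit 487) (nat_lit 396) (nat_lit 317)))) (XT.nd (nat_lit 156) (nat_lit 0) (nat_lit 0) (XT.nd (nat_lit 78) (nat_lit 0) (nat_lit 0) (XT.lf (nat_lit 0) (nat_lit 24502682937) (nat_lit 152) (nat_lit 356102873395) (nat_lit 0) (nat_lit 17810649317) (nat_lit 7) (nat_lit 5) (nat_lit 9) (nat_lit 4) (nat_lit 7) (nat_lit 4) (nat_lit 488) (nat_lit 396) (nat_lit 316)) (XT.lf (nat_lit 0) (nat_lit 90938254654) (nat_lit 152) (nat_lit 251855432112) (nat_lit 0) (nat_lit 84245168479) (nat_lit 7) (nat_lit 5) (nat_lit 9) (nat_lit 4) (nat_lit 7)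 (nat_lit 4) (nat_lit 489) (nat_lit 396) (nat_lit 315))) (XT.nd (nat_lit 78) (nat_lit 0) (nat_lit 0) (XT.lf (nat_lit 0) (nat_lit 162669100374) (nat_lit 152) (nat_lit 139308155425) (nat_lit 0) (nat_lit 155975039610) (nat_lit 7) (nat_lit 5) (nat_lit 9) (nat_lit 4) (nat_lit 7) (nat_lit 4) (nat_lit 490) (nat_lit 396) (nat_lit 314)) (XT.lf (nat_lit 0) (nat_lit 240120291776) (nat_lit 152) (nat_lit 17794096509) (nat_lit 0) (nat_lit 233425328616) (nat_lit 7) (nat_lit 5) (nat_lit 9) (nat_lit 4) (nat_lit 7) (nat_lit 4) (nat_lit 491) (nat_lit 396) (nat_lit 313))))) (XT.nd (nat_lit 312) (nat_lit 152) (nat_lit 0) (XT.nd (nat_lit 156) (nat_lit 0) (nat_lit 0) (XT.nd (nat_lit 78) (nat_lit 0) (nat_lit 0) (XT.lf (nat_lit 0) (nat_lit 117156569837) (nat_lit 76) (nat_lit 208423371432) (nat_lit 76) (nat_lit 201727572719) (nat_lit 6) (nat_lit 4) (nat_lit 7) (nat_lit 5) (nat_lit 7) (nat_lit 4) (nat_lit 492) (nat_lit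 396) (nat_lit 312)) (XT.lf (nat_lit 0) (nat_lit 263505940627) (nat_lit 76) (nat_lit 154664335466) (nat_lit 76) (nat_lit 147967763092) (nat_lit 6) (nat_lit 4) (nat_lit 7) (nat_lit 5) (nat_lit 7) (nat_lit 4) (nat_lit 493) (nat_lit 396) (nat_lit 311))) (XT.nd (nat_lit 78) (nat_lit 0) (nat_lit 0) (XT.lf (nat_lit 0) (nat_lit 421532918201) (nat_lit 76) (nat_lit 96620059956) (nat_lit 76) (nat_lit 89922771231) (nat_lit 6) (nat_lit 4) (nat_lit 7) (nat_lit 5) (nat_lit 7) (nat_lit 4) (nat_lit 494) (nat_lit 396) (nat_lit 310)) (XT.lf (nat_lit 0) (nat_lit 592173958720) (nat_lit 76) (nat_lit 33946578827) (nat_lit 76) (nat_lit 27248626813) (nat_lit 6) (nat_lit 4) (nat_lit 7) (nat_lit 5) (nat_lit 7) (nat_lit 4) (nat_lit 495) (nat_lit 396) (nat_lit 309)))) (XT.nd (nat_lit 156) (nat_lit 0) (nat_lit 0) (XT.nd (nat_lit 78) (nat_lit 0) (nat_lit 0) (XT.lf (nat_lit 0) (nat_lit 40874399047) (nat_lit 152) (nat_lit 626798809378)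 (nat_lit 0) (nat_lit 34494812218) (nat_lit 4) (nat_lit 5) (nat_lit 6) (nat_lit 4) (nat_lit 4) (nat_lit 4) (nat_lit 496) (nat_lit 396) (nat_lit 308)) (XT.lf (nat_lit 0) (nat_lit 115148642266) (nat_lit 152) (nat_lit 530848492655) (nat_lit 0) (nat_lit 108768513854) (nat_lit 4) (nat_lit 5) (nat_lit 6) (nat_lit 4) (nat_lit 4) (nat_lit 4) (nat_lit 497) (nat_lit 396) (nat_lit 307))) (XT.nd (nat_lit 78) (nat_lit 0) (nat_lit 0) (XT.lf (nat_lit 0) (nat_lit 195353171412) (nat_lit 152) (nat_lit 427245956897) (nat_lit 0) (nat_lit 188972541533) (nat_lit 4) (nat_lit 5) (nat_lit 6) (nat_lit 4) (nat_lit 4) (nat_lit 4) (nat_lit 498) (nat_lit 396) (nat_lit 306)) (XT.lf (nat_lit 0) (nat_lit 281963272584) (nat_lit 152) (nat_lit 315377261150) (nat_lit 0) (nat_lit 275582178384) (nat_lit 4) (nat_lit 5) (nat_lit 6) (nat_lit 4) (nat_lit 4) (nat_lit 4) (nat_lit 499) (nat_lit 396) (nat_lit 305)))))) (XT.nd (nat_lit 55224)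 (nat_lit 0) (nat_lit 10336) (XT.nd (nat_lit 312) (nat_lit 0) (nat_lit 0) (XT.nd (nat_lit 156) (nat_lit 76) (nat_lit 0) (XT.nd (nat_lit 78) (nat_lit 0) (nat_lit 0) (XT.lf (nat_lit 0) (nat_lit 375492190826) (nat_lit 152) (nat_lit 194579479810) (nat_lit 0) (nat_lit 369110666699) (nat_lit 4) (nat_lit 5) (nat_lit 6) (nat_lit 4) (nat_lit 4) (nat_lit 4) (nat_lit 500) (nat_lit 396) (nat_lit 304)) (XT.lf (nat_lit 0) (nat_lit 476494171579) (nat_lit 152) (nat_lit 64136774172) (nat_lit 0) (nat_lit 470112249372) (nat_lit 4) (nat_lit 5) (nat_lit 6) (nat_lit 4) (nat_lit 4) (nat_lit 4) (nat_lit 501) (nat_lit 396) (nat_lit 303))) (XT.nd (nat_lit 78) (nat_lit 0) (nat_lit 0) (XT.lf (nat_lit 0) (nat_lit 79260686535) (nat_lit 76) (nat_lit 507544540008) (nat_lit 76) (nat_lit 501162249208) (nat_lit 3) (nat_lit 4) (nat_lit 4) (nat_lit 5) (nat_lit 4) (nat_lit 4) (nat_lit 502) (nat_lit 396) (nat_lit 302)) (XT.lf (nat_lit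 0) (nat_lit 236403509730) (nat_lit 76) (nat_lit 470646684880) (nat_lit 76) (nat_lit 464264052791) (nat_lit 3) (nat_lit 4) (nat_lit 4) (nat_lit 5) (nat_lit 4) (nat_lit 4) (nat_lit 503) (nat_lit 396) (nat_lit 301)))) (XT.nd (nat_lit 156) (nat_lit 0) (nat_lit 0) (XT.nd (nat_lit 78) (nat_lit 0) (nat_lit 0) (XT.lf (nat_lit 0) (nat_lit 406102260739) (nat_lit 76) (nat_lit 430804913716) (nat_lit 76) (nat_lit 424421965618) (nat_lit 3) (nat_lit 4) (nat_lit 4) (nat_lit 5) (nat_lit 4) (nat_lit 4) (nat_lit 504) (nat_lit 396) (nat_lit 300)) (XT.lf (nat_lit 0) (nat_lit 589362561789) (nat_lit 76) (nat_lit 387783127130) (nat_lit 76) (nat_lit 381399886431) (nat_lit 3) (nat_lit 4) (nat_lit 4) (nat_lit 5) (nat_lit 4) (nat_lit 4) (nat_lit 505) (nat_lit 396) (nat_lit 299))) (XT.nd (nat_lit 54678) (nat_lit 0) (nat_lit 15352) (XT.lf (nat_lit 0) (nat_lit 787270399850) (nat_lit 76) (nat_lit 341326381203) (nat_lit 76)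 (nat_lit 334942869577) (nat_lit 3) (nat_lit 4) (nat_lit 4) (nat_lit 5) (nat_lit 4) (nat_lit 4) (nat_lit 506) (nat_lit 396) (nat_lit 298)) (XT.lf (nat_lit 0) (nat_lit 1737235099) (nat_lit 380) (nat_lit 806173219) (nat_lit 380) (nat_lit 806173219) (nat_lit 205) (nat_lit 4) (nat_lit 210) (nat_lit 5) (nat_lit 210) (nat_lit 4) (nat_lit 406) (nat_lit 397) (nat_lit 397))))) (XT.nd (nat_lit 312) (nat_lit 2508) (nat_lit 0) (XT.nd (nat_lit 156) (nat_lit 1368) (nat_lit 0) (XT.nd (nat_lit 78) (nat_lit 608) (nat_lit 0) (XT.lf (nat_lit 0) (nat_lit 3596921549) (nat_lit 532) (nat_lit 2863939383) (nat_lit 0) (nat_lit 334250071) (nat_lit 198) (nat_lit 5) (nat_lit 205) (nat_lit 4) (nat_lit 198) (nat_lit 4) (nat_lit 407) (nat_lit 397) (nat_lit 396)) (XT.lf (nat_lit 0) (nat_lit 1914946219) (nat_lit 608) (nat_lit 2358023837) (nat_lit 76) (nat_lit 2636792823) (nat_lit 190) (nat_lit 5) (nat_lit 198) (nat_lit 5) (nat_lit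 191) (nat_lit 4) (nat_lit 408) (nat_lit 397) (nat_lit 395))) (XT.nd (nat_lit 78) (nat_lit 684) (nat_lit 0) (XT.lf (nat_lit 0) (nat_lit 2233532) (nat_lit 684) (nat_lit 1679035668) (nat_lit 76) (nat_lit 5363632544) (nat_lit 181) (nat_lit 5) (nat_lit 190) (nat_lit 5) (nat_lit 182) (nat_lit 5) (nat_lit 409) (nat_lit 397) (nat_lit 394)) (XT.lf (nat_lit 0) (nat_lit 4993210342) (nat_lit 760) (nat_lit 879054336) (nat_lit 76) (nat_lit 1326074304) (nat_lit 172) (nat_lit 5) (nat_lit 182) (nat_lit 5) (nat_lit 173) (nat_lit 4) (nat_lit 410) (nat_lit 397) (nat_lit 393)))) (XT.nd (nat_lit 156) (nat_lit 760) (nat_lit 0) (XT.nd (nat_lit 78) (nat_lit 456) (nat_lit 0) (XT.lf (nat_lit 0) (nat_lit 68204706) (nat_lit 456) (nat_lit 2655718353) (nat_lit 532) (nat_lit 4647748186) (nat_lit 155) (nat_lit 5) (nat_lit 161) (nat_lit 5) (nat_lit 162) (nat_lit 5) (nat_lit 411) (nat_lit 397) (nat_lit 392)) (XT.lf (nat_lit 0)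 (nat_lit 227043867) (nat_lit 456) (nat_lit 6354085926) (nat_lit 76) (nat_lit 984276792) (nat_lit 149) (nat_lit 5) (nat_lit 155) (nat_lit 5) (nat_lit 150) (nat_lit 5) (nat_lit 412) (nat_lit 397) (nat_lit 391))) (XT.nd (nat_lit 78) (nat_lit 380) (nat_lit 0) (XT.lf (nat_lit 0) (nat_lit 2452235114) (nat_lit 380) (nat_lit 2744384079) (nat_lit 456) (nat_lit 2580858443) (nat_lit 144) (nat_lit 5) (nat_lit 149) (nat_lit 5) (nat_lit 150) (nat_lit 5) (nat_lit 413) (nat_lit 397) (nat_lit 390)) (XT.lf (nat_lit 0) (nat_lit 2340204324) (nat_lit 380) (nat_lit 4159999514) (nat_lit 76) (nat_lit 1511098839) (nat_lit 139) (nat_lit 5) (nat_lit 144) (nat_lit 5) (nat_lit 140) (nat_lit 5) (nat_lit 414) (nat_lit 397) (nat_lit 389))))))) (XT.nd (nat_lit 1248) (nat_lit 2052) (nat_lit 0) (XT.nd (nat_lit 624) (nat_lit 1900) (nat_lit 0) (XT.nd (nat_lit 312) (nat_lit 988) (nat_lit 0) (XT.nd (nat_lit 156) (nat_lit 912) (nat_lit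 0) (XT.nd (nat_lit 78) (nat_lit 380) (nat_lit 0) (XT.lf (nat_lit 0) (nat_lit 5381861223) (nat_lit 304) (nat_lit 2093624419) (nat_lit 380) (nat_lit 790707961) (nat_lit 135) (nat_lit 5) (nat_lit 139) (nat_lit 5) (nat_lit 140) (nat_lit 5) (nat_lit 415) (nat_lit 397) (nat_lit 388)) (XT.lf (nat_lit 0) (nat_lit 4262943076) (nat_lit 380) (nat_lit 1520543849) (nat_lit 76) (nat_lit 2758200798) (nat_lit 130) (nat_lit 5) (nat_lit 135) (nat_lit 5) (nat_lit 131) (nat_lit 5) (nat_lit 416) (nat_lit 397) (nat_lit 387))) (XT.nd (nat_lit 78) (nat_lit 532) (nat_lit 0) (XT.lf (nat_lit 0) (nat_lit 764019637) (nat_lit 380) (nat_lit 16556065) (nat_lit 76) (nat_lit 8060510225) (nat_lit 125) (nat_lit 5) (nat_lit 130) (nat_lit 5) (nat_lit 126) (nat_lit 5) (nat_lit 417) (nat_lit 397) (nat_lit 386)) (XT.lf (nat_lit 0) (nat_lit 1598498708) (nat_lit 304) (nat_lit 4483303619) (nat_lit 380) (nat_lit 3078067910) (nat_lit 118)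 (nat_lit 5) (nat_lit 122) (nat_lit 5) (nat_lit 123) (nat_lit 5) (nat_lit 418) (nat_lit 397) (nat_lit 385)))) (XT.nd (nat_lit 156) (nat_lit 456) (nat_lit 0) (XT.nd (nat_lit 78) (nat_lit 228) (nat_lit 0) (XT.lf (nat_lit 0) (nat_lit 2215173137) (nat_lit 304) (nat_lit 6145882951) (nat_lit 76) (nat_lit 1142873864) (nat_lit 114) (nat_lit 5) (nat_lit 118) (nat_lit 5) (nat_lit 115) (nat_lit 5) (nat_lit 419) (nat_lit 397) (nat_lit 384)) (XT.lf (nat_lit 0) (nat_lit 5204453104) (nat_lit 228) (nat_lit 2651480993) (nat_lit 304) (nat_lit 2015475838) (nat_lit 111) (nat_lit 5) (nat_lit 114) (nat_lit 5) (nat_lit 115) (nat_lit 5) (nat_lit 420) (nat_lit 397) (nat_lit 383))) (XT.nd (nat_lit 78) (nat_lit 228) (nat_lit 0) (XT.lf (nat_lit 0) (nat_lit 3590056196) (nat_lit 228) (nat_lit 3109480593) (nat_lit 76) (nat_lit 3564482935) (nat_lit 108) (nat_lit 5) (nat_lit 111) (nat_lit 5) (nat_lit 109) (nat_lit 5) (nat_lit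 421) (nat_lit 397) (nat_lit 382)) (XT.lf (nat_lit 0) (nat_lit 9250679828) (nat_lit 228) (nat_lit 355715185) (nat_lit 304) (nat_lit 1078353487) (nat_lit 105) (nat_lit 5) (nat_lit 108) (nat_lit 5) (nat_lit 109) (nat_lit 5) (nat_lit 422) (nat_lit 397) (nat_lit 381))))) (XT.nd (nat_lit 312) (nat_lit 836) (nat_lit 0) (XT.nd (nat_lit 156) (nat_lit 456) (nat_lit 0) (XT.nd (nat_lit 78) (nat_lit 152) (nat_lit 0) (XT.lf (nat_lit 0) (nat_lit 271719087) (nat_lit 228) (nat_lit 4646424266) (nat_lit 304) (nat_lit 6211518878) (nat_lit 99) (nat_lit 5) (nat_lit 102) (nat_lit 5) (nat_lit 103) (nat_lit 5) (nat_lit 423) (nat_lit 397) (nat_lit 380)) (XT.lf (nat_lit 0) (nat_lit 2172577964) (nat_lit 152) (nat_lit 9271262062) (nat_lit 228) (nat_lit 161091157) (nat_lit 97) (nat_lit 5) (nat_lit 99) (nat_lit 5) (nat_lit 100) (nat_lit 4) (nat_lit 424) (nat_lit 397) (nat_lit 379))) (XT.nd (nat_lit 78) (nat_lit 228) (nat_lit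 0) (XT.lf (nat_lit 0) (nat_lit 4108414716) (nat_lit 152) (nat_lit 2174126596) (nat_lit 228) (nat_lit 5825055088) (nat_lit 94) (nat_lit 5) (nat_lit 96) (nat_lit 5) (nat_lit 97) (nat_lit 5) (nat_lit 425) (nat_lit 397) (nat_lit 378)) (XT.lf (nat_lit 0) (nat_lit 705540834) (nat_lit 228) (nat_lit 6480470260) (nat_lit 76) (nat_lit 5456951099) (nat_lit 91) (nat_lit 5) (nat_lit 94) (nat_lit 5) (nat_lit 92) (nat_lit 5) (nat_lit 426) (nat_lit 397) (nat_lit 377)))) (XT.nd (nat_lit 156) (nat_lit 456) (nat_lit 0) (XT.nd (nat_lit 78) (nat_lit 228) (nat_lit 0) (XT.lf (nat_lit 0) (nat_lit 7669577399) (nat_lit 228) (nat_lit 4914242181) (nat_lit 76) (nat_lit 626815814) (nat_lit 89) (nat_lit 5) (nat_lit 92) (nat_lit 5) (nat_lit 90) (nat_lit 4) (nat_lit 427) (nat_lit 397) (nat_lit 376)) (XT.lf (nat_lit 0) (nat_lit 1529137802) (nat_lit 228) (nat_lit 3297837004) (nat_lit 76) (nat_lit 8985392417) (nat_lit 86) (nat_lit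 5) (nat_lit 89) (nat_lit 5) (nat_lit 87) (nat_lit 5) (nat_lit 428) (nat_lit 397) (nat_lit 375))) (XT.nd (nat_lit 78) (nat_lit 304) (nat_lit 0) (XT.lf (nat_lit 0) (nat_lit 9129485746) (nat_lit 228) (nat_lit 1633813987) (nat_lit 76) (nat_lit 3686467918) (nat_lit 84) (nat_lit 5) (nat_lit 87) (nat_lit 5) (nat_lit 85) (nat_lit 4) (nat_lit 429) (nat_lit 397) (nat_lit 374)) (XT.lf (nat_lit 0) (nat_lit 119371075) (nat_lit 152) (nat_lit 2208920495) (nat_lit 228) (nat_lit 12798206335) (nat_lit 80) (nat_lit 5) (nat_lit 82) (nat_lit 5) (nat_lit 83) (nat_lit 5) (nat_lit 430) (nat_lit 397) (nat_lit 373)))))) (XT.nd (nat_lit 624) (nat_lit 912) (nat_lit 0) (XT.nd (nat_lit 312) (nat_lit 532) (nat_lit 0) (XT.nd (nat_lit 156) (nat_lit 304) (nat_lit 0) (XT.nd (nat_lit 78) (nat_lit 228) (nat_lit 0) (XT.lf (nat_lit 0) (nat_lit 1933931872) (nat_lit 76) (nat_lit 8740083383) (nat_lit 152) (nat_lit 5165411721) (nat_lit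 79) (nat_lit 5) (nat_lit 80) (nat_lit 5) (nat_lit 81) (nat_lit 4) (nat_lit 431) (nat_lit 397) (nat_lit 372)) (XT.lf (nat_lit 0) (nat_lit 3174064192) (nat_lit 228) (nat_lit 12731691240) (nat_lit 76) (nat_lit 691507291) (nat_lit 76) (nat_lit 5) (nat_lit 79) (nat_lit 5) (nat_lit 77) (nat_lit 4) (nat_lit 432) (nat_lit 397) (nat_lit 371))) (XT.nd (nat_lit 78) (nat_lit 228) (nat_lit 0) (XT.lf (nat_lit 0) (nat_lit 5778530396) (nat_lit 76) (nat_lit 6533590711) (nat_lit 152) (nat_lit 5083754131) (nat_lit 75) (nat_lit 5) (nat_lit 76) (nat_lit 5) (nat_lit 77) (nat_lit 4) (nat_lit 433) (nat_lit 397) (nat_lit 370)) (XT.lf (nat_lit 0) (nat_lit 4037384066) (nat_lit 228) (nat_lit 10454419403) (nat_lit 76) (nat_lit 3751509386) (nat_lit 72) (nat_lit 5) (nat_lit 75) (nat_lit 5) (nat_lit 73) (nat_lit 4) (nat_lit 434) (nat_lit 397) (nat_lit 369)))) (XT.nd (nat_lit 156) (nat_lit 228) (nat_lit 0) (XT.nd (nat_lit 78)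 (nat_lit 228) (nat_lit 0) (XT.lf (nat_lit 0) (nat_lit 9826015259) (nat_lit 76) (nat_lit 4193002828) (nat_lit 152) (nat_lit 5119917537) (nat_lit 71) (nat_lit 5) (nat_lit 72) (nat_lit 5) (nat_lit 73) (nat_lit 4) (nat_lit 435) (nat_lit 397) (nat_lit 368)) (XT.lf (nat_lit 0) (nat_lit 4871103475) (nat_lit 228) (nat_lit 8187010935) (nat_lit 76) (nat_lit 7028016164) (nat_lit 68) (nat_lit 5) (nat_lit 71) (nat_lit 5) (nat_lit 69) (nat_lit 4) (nat_lit 436) (nat_lit 397) (nat_lit 367))) (XT.nd (nat_lit 78) (nat_lit 152) (nat_lit 0) (XT.lf (nat_lit 0) (nat_lit 14041423666) (nat_lit 76) (nat_lit 1745275253) (nat_lit 152) (nat_lit 5302974421) (nat_lit 67) (nat_lit 5) (nat_lit 68) (nat_lit 5) (nat_lit 69) (nat_lit 4) (nat_lit 437) (nat_lit 397) (nat_lit 366)) (XT.lf (nat_lit 0) (nat_lit 5650493452) (nat_lit 152) (nat_lit 5996338428) (nat_lit 76) (nat_lit 10501385174) (nat_lit 65) (nat_lit 5) (nat_lit 67) (nat_lit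 5) (nat_lit 66) (nat_lit 4) (nat_lit 438) (nat_lit 397) (nat_lit 365))))) (XT.nd (nat_lit 312) (nat_lit 456) (nat_lit 0) (XT.nd (nat_lit 156) (nat_lit 228) (nat_lit 0) (XT.nd (nat_lit 78) (nat_lit 152) (nat_lit 0) (XT.lf (nat_lit 0) (nat_lit 17606860212) (nat_lit 152) (nat_lit 4915979098) (nat_lit 0) (nat_lit 748639590) (nat_lit 64) (nat_lit 5) (nat_lit 66) (nat_lit 4) (nat_lit 64) (nat_lit 4) (nat_lit 439) (nat_lit 397) (nat_lit 364)) (XT.lf (nat_lit 0) (nat_lit 6335295680) (nat_lit 152) (nat_lit 3977814783) (nat_lit 76) (nat_lit 14142115511) (nat_lit 62) (nat_lit 5) (nat_lit 64) (nat_lit 5) (nat_lit 63) (nat_lit 4) (nat_lit 440) (nat_lit 397) (nat_lit 363))) (XT.nd (nat_lit 78) (nat_lit 152) (nat_lit 0) (XT.lf (nat_lit 0) (nat_lit 19458420074) (nat_lit 152) (nat_lit 3045725318) (nat_lit 0) (nat_lit 3206801988) (nat_lit 61) (nat_lit 5) (nat_lit 63) (nat_lit 4) (nat_lit 61) (nat_lit 4) (nat_lit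 441) (nat_lit 397) (nat_lit 362)) (XT.lf (nat_lit 0) (nat_lit 6865064489) (nat_lit 152) (nat_lit 2265562214) (nat_lit 76) (nat_lit 17905832147) (nat_lit 59) (nat_lit 5) (nat_lit 61) (nat_lit 5) (nat_lit 60) (nat_lit 4) (nat_lit 442) (nat_lit 397) (nat_lit 361)))) (XT.nd (nat_lit 156) (nat_lit 228) (nat_lit 0) (XT.nd (nat_lit 78) (nat_lit 152) (nat_lit 0) (XT.lf (nat_lit 0) (nat_lit 21255104488) (nat_lit 152) (nat_lit 1568480371) (nat_lit 0) (nat_lit 5617197694) (nat_lit 58) (nat_lit 5) (nat_lit 60) (nat_lit 4) (nat_lit 58) (nat_lit 4) (nat_lit 443) (nat_lit 397) (nat_lit 360)) (XT.lf (nat_lit 0) (nat_lit 7152979418) (nat_lit 152) (nat_lit 1045602086) (nat_lit 76) (nat_lit 21726884502) (nat_lit 56) (nat_lit 5) (nat_lit 58) (nat_lit 5) (nat_lit 57) (nat_lit 4) (nat_lit 444) (nat_lit 397) (nat_lit 359))) (XT.nd (nat_lit 78) (nat_lit 152) (nat_lit 0) (XT.lf (nat_lit 0) (nat_lit 22909268356) (nat_lit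 152) (nat_lit 702413865) (nat_lit 0) (nat_lit 7885238563) (nat_lit 55) (nat_lit 5) (nat_lit 57) (nat_lit 4) (nat_lit 55) (nat_lit 4) (nat_lit 445) (nat_lit 397) (nat_lit 358)) (XT.lf (nat_lit 0) (nat_lit 7077695869) (nat_lit 152) (nat_lit 572973180) (nat_lit 76) (nat_lit 25510108954) (nat_lit 53) (nat_lit 5) (nat_lit 55) (nat_lit 5) (nat_lit 54) (nat_lit 4) (nat_lit 446) (nat_lit 397) (nat_lit 357))))))))
noncomputable def xc41 : XT := (XT.nd (nat_lit 2496) (nat_lit 912) (nat_lit 0) (XT.nd (nat_lit 1248) (nat_lit 1216) (nat_lit 0) (XT.nd (nat_lit 624) (nat_lit 836) (nat_lit 0) (XT.nd (nat_lit 312) (nat_lit 380) (nat_lit 0) (XT.nd (nat_lit 156) (nat_lit 228) (nat_lit 0) (XT.nd (nat_lit 78) (nat_lit 152) (nat_lit 0) (XT.lf (nat_lit 0) (nat_lit 24295482633) (nat_lit 152) (nat_lit 745123989) (nat_lit 0) (nat_lit 9880094970) (nat_lit 52) (nat_lit 5) (nat_lit 54) (nat_lit 4) (nat_lit 52) (nat_lit 4)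 (nat_lit 447) (nat_lit 397) (nat_lit 356)) (XT.lf (nat_lit 0) (nat_lit 6472672911) (nat_lit 152) (nat_lit 1193945524) (nat_lit 76) (nat_lit 29120180755) (nat_lit 50) (nat_lit 5) (nat_lit 52) (nat_lit 5) (nat_lit 51) (nat_lit 4) (nat_lit 448) (nat_lit 397) (nat_lit 355))) (XT.nd (nat_lit 78) (nat_lit 152) (nat_lit 0) (XT.lf (nat_lit 0) (nat_lit 25238527017) (nat_lit 152) (nat_lit 2098937051) (nat_lit 0) (nat_lit 11422392692) (nat_lit 49) (nat_lit 5) (nat_lit 51) (nat_lit 4) (nat_lit 49) (nat_lit 4) (nat_lit 449) (nat_lit 397) (nat_lit 354)) (XT.lf (nat_lit 0) (nat_lit 5112252432) (nat_lit 152) (nat_lit 3374831694) (nat_lit 76) (nat_lit 32367819497) (nat_lit 47) (nat_lit 5) (nat_lit 49) (nat_lit 5) (nat_lit 48) (nat_lit 4) (nat_lit 450) (nat_lit 397) (nat_lit 353)))) (XT.nd (nat_lit 156) (nat_lit 152) (nat_lit 0) (XT.nd (nat_lit 78) (nat_lit 152) (nat_lit 0) (XT.lf (nat_lit 0) (nat_lit 25497716527)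 (nat_lit 152) (nat_lit 5303710815) (nat_lit 0) (nat_lit 12268298563) (nat_lit 46) (nat_lit 5) (nat_lit 48) (nat_lit 4) (nat_lit 46) (nat_lit 4) (nat_lit 451) (nat_lit 397) (nat_lit 352)) (XT.lf (nat_lit 0) (nat_lit 2693552132) (nat_lit 152) (nat_lit 7739328934) (nat_lit 76) (nat_lit 34991903600) (nat_lit 44) (nat_lit 5) (nat_lit 46) (nat_lit 5) (nat_lit 45) (nat_lit 4) (nat_lit 452) (nat_lit 397) (nat_lit 351))) (XT.nd (nat_lit 78) (nat_lit 76) (nat_lit 0) (XT.lf (nat_lit 0) (nat_lit 24746499186) (nat_lit 152) (nat_lit 11079335193) (nat_lit 0) (nat_lit 12088922016) (nat_lit 43) (nat_lit 5) (nat_lit 45) (nat_lit 4) (nat_lit 43) (nat_lit 4) (nat_lit 453) (nat_lit 397) (nat_lit 350)) (XT.lf (nat_lit 0) (nat_lit 35429139504) (nat_lit 76) (nat_lit 13909740833) (nat_lit 76) (nat_lit 1226286041) (nat_lit 42) (nat_lit 4) (nat_lit 43) (nat_lit 5) (nat_lit 43) (nat_lit 4) (nat_lit 454) (nat_lit 397) (nat_lit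 349))))) (XT.nd (nat_lit 312) (nat_lit 380) (nat_lit 0) (XT.nd (nat_lit 156) (nat_lit 228) (nat_lit 0) (XT.nd (nat_lit 78) (nat_lit 76) (nat_lit 0) (XT.lf (nat_lit 0) (nat_lit 22545953774) (nat_lit 152) (nat_lit 20380754488) (nat_lit 0) (nat_lit 10443653248) (nat_lit 40) (nat_lit 5) (nat_lit 42) (nat_lit 4) (nat_lit 40) (nat_lit 4) (nat_lit 455) (nat_lit 397) (nat_lit 348)) (XT.lf (nat_lit 0) (nat_lit 29635758598) (nat_lit 76) (nat_lit 19421317734) (nat_lit 76) (nat_lit 7297887789) (nat_lit 39) (nat_lit 4) (nat_lit 40) (nat_lit 5) (nat_lit 40) (nat_lit 4) (nat_lit 456) (nat_lit 397) (nat_lit 347))) (XT.nd (nat_lit 78) (nat_lit 76) (nat_lit 0) (XT.lf (nat_lit 0) (nat_lit 18310420189) (nat_lit 152) (nat_lit 34469147112) (nat_lit 0) (nat_lit 6745663787) (nat_lit 37) (nat_lit 5) (nat_lit 39) (nat_lit 4) (nat_lit 37) (nat_lit 4) (nat_lit 457) (nat_lit 397) (nat_lit 346)) (XT.lf (nat_lit 0) (nat_lit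 18988317308) (nat_lit 76) (nat_lit 27742926351) (nat_lit 76) (nat_lit 16160917501) (nat_lit 36) (nat_lit 4) (nat_lit 37) (nat_lit 5) (nat_lit 37) (nat_lit 4) (nat_lit 458) (nat_lit 397) (nat_lit 345)))) (XT.nd (nat_lit 156) (nat_lit 152) (nat_lit 0) (XT.nd (nat_lit 78) (nat_lit 76) (nat_lit 0) (XT.lf (nat_lit 0) (nat_lit 11262984969) (nat_lit 152) (nat_lit 55003943570) (nat_lit 0) (nat_lit 217286550) (nat_lit 34) (nat_lit 5) (nat_lit 36) (nat_lit 4) (nat_lit 34) (nat_lit 4) (nat_lit 459) (nat_lit 397) (nat_lit 344)) (XT.lf (nat_lit 0) (nat_lit 1684449693) (nat_lit 76) (nat_lit 39832795120) (nat_lit 76) (nat_lit 28773009850) (nat_lit 33) (nat_lit 4) (nat_lit 34) (nat_lit 5) (nat_lit 34) (nat_lit 4) (nat_lit 460) (nat_lit 397) (nat_lit 343))) (XT.nd (nat_lit 78) (nat_lit 76) (nat_lit 0) (XT.lf (nat_lit 0) (nat_lit 697417366) (nat_lit 152) (nat_lit 9643123050) (nat_lit 76) (nat_lit 64015417187)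 (nat_lit 32) (nat_lit 5) (nat_lit 34) (nat_lit 5) (nat_lit 33) (nat_lit 4) (nat_lit 461) (nat_lit 397) (nat_lit 342)) (XT.lf (nat_lit 0) (nat_lit 32680530121) (nat_lit 152) (nat_lit 23861169615) (nat_lit 0) (nat_lit 22123476925) (nat_lit 31) (nat_lit 5) (nat_lit 33) (nat_lit 4) (nat_lit 31) (nat_lit 4) (nat_lit 462) (nat_lit 397) (nat_lit 341)))))) (XT.nd (nat_lit 624) (nat_lit 532) (nat_lit 0) (XT.nd (nat_lit 312) (nat_lit 380) (nat_lit 0) (XT.nd (nat_lit 156) (nat_lit 76) (nat_lit 0) (XT.nd (nat_lit 78) (nat_lit 152) (nat_lit 0) (XT.lf (nat_lit 0) (nat_lit 42488307201) (nat_lit 76) (nat_lit 25675721338) (nat_lit 76) (nat_lit 15108018050) (nat_lit 30) (nat_lit 4) (nat_lit 31) (nat_lit 5) (nat_lit 31) (nat_lit 4) (nat_lit 463) (nat_lit 397) (nat_lit 340)) (XT.lf (nat_lit 0) (nat_lit 18574693549) (nat_lit 152) (nat_lit 61111726894) (nat_lit 0) (nat_lit 8500822611) (nat_lit 28) (nat_lit 5) (nat_lit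 30) (nat_lit 4) (nat_lit 28) (nat_lit 4) (nat_lit 464) (nat_lit 397) (nat_lit 339))) (XT.nd (nat_lit 78) (nat_lit 0) (nat_lit 0) (XT.lf (nat_lit 0) (nat_lit 7781808920) (nat_lit 76) (nat_lit 47861499907) (nat_lit 76) (nat_lit 37778933029) (nat_lit 27) (nat_lit 4) (nat_lit 28) (nat_lit 5) (nat_lit 28) (nat_lit 4) (nat_lit 465) (nat_lit 397) (nat_lit 338)) (XT.lf (nat_lit 0) (nat_lit 84246980968) (nat_lit 76) (nat_lit 12434731716) (nat_lit 76) (nat_lit 2344113042) (nat_lit 27) (nat_lit 4) (nat_lit 28) (nat_lit 5) (nat_lit 28) (nat_lit 4) (nat_lit 466) (nat_lit 397) (nat_lit 337)))) (XT.nd (nat_lit 156) (nat_lit 152) (nat_lit 0) (XT.nd (nat_lit 78) (nat_lit 76) (nat_lit 0) (XT.lf (nat_lit 0) (nat_lit 36131719062) (nat_lit 152) (nat_lit 42335623462) (nat_lit 0) (nat_lit 26514505689) (nat_lit 25) (nat_lit 5) (nat_lit 27) (nat_lit 4) (nat_lit 25) (nat_lit 4) (nat_lit 467) (nat_lit 397) (nat_lit 336))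 (XT.lf (nat_lit 0) (nat_lit 36184479515) (nat_lit 76) (nat_lit 42401312222) (nat_lit 76) (nat_lit 32777524451) (nat_lit 24) (nat_lit 4) (nat_lit 25) (nat_lit 5) (nat_lit 25) (nat_lit 4) (nat_lit 468) (nat_lit 397) (nat_lit 335))) (XT.nd (nat_lit 78) (nat_lit 0) (nat_lit 0) (XT.lf (nat_lit 0) (nat_lit 4196570119) (nat_lit 76) (nat_lit 2548037341) (nat_lit 152) (nat_lit 111467791895) (nat_lit 22) (nat_lit 5) (nat_lit 23) (nat_lit 5) (nat_lit 24) (nat_lit 4) (nat_lit 469) (nat_lit 397) (nat_lit 334)) (XT.lf (nat_lit 0) (nat_lit 50206743440) (nat_lit 152) (nat_lit 34249403421) (nat_lit 0) (nat_lit 41030065666) (nat_lit 22) (nat_lit 5) (nat_lit 24) (nat_lit 4) (nat_lit 22) (nat_lit 4) (nat_lit 470) (nat_lit 397) (nat_lit 333))))) (XT.nd (nat_lit 312) (nat_lit 228) (nat_lit 0) (XT.nd (nat_lit 156) (nat_lit 76) (nat_lit 0) (XT.nd (nat_lit 78) (nat_lit 152) (nat_lit 0) (XT.lf (nat_lit 0) (nat_lit 53468819334)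 (nat_lit 76) (nat_lit 44506639645) (nat_lit 76) (nat_lit 35324991423) (nat_lit 21) (nat_lit 4) (nat_lit 22) (nat_lit 5) (nat_lit 22) (nat_lit 4) (nat_lit 471) (nat_lit 397) (nat_lit 332)) (XT.lf (nat_lit 0) (nat_lit 7738058133) (nat_lit 76) (nat_lit 517702169) (nat_lit 152) (nat_lit 133443938322) (nat_lit 19) (nat_lit 5) (nat_lit 20) (nat_lit 5) (nat_lit 21) (nat_lit 4) (nat_lit 472) (nat_lit 397) (nat_lit 331))) (XT.nd (nat_lit 78) (nat_lit 76) (nat_lit 0) (XT.lf (nat_lit 0) (nat_lit 56203484644) (nat_lit 152) (nat_lit 46981924590) (nat_lit 0) (nat_lit 47450616221) (nat_lit 19) (nat_lit 5) (nat_lit 21) (nat_lit 4) (nat_lit 19) (nat_lit 4) (nat_lit 473) (nat_lit 397) (nat_lit 330)) (XT.lf (nat_lit 0) (nat_lit 48411195116) (nat_lit 76) (nat_lit 60298283514) (nat_lit 76) (nat_lit 51541657281) (nat_lit 18) (nat_lit 4) (nat_lit 19) (nat_lit 5) (nat_lit 19) (nat_lit 4) (nat_lit 474) (nat_lit 397)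 (nat_lit 329)))) (XT.nd (nat_lit 156) (nat_lit 76) (nat_lit 0) (XT.nd (nat_lit 78) (nat_lit 152) (nat_lit 0) (XT.lf (nat_lit 0) (nat_lit 153031493752) (nat_lit 76) (nat_lit 13162580544) (nat_lit 76) (nat_lit 4402474857) (nat_lit 18) (nat_lit 4) (nat_lit 19) (nat_lit 5) (nat_lit 19) (nat_lit 4) (nat_lit 475) (nat_lit 397) (nat_lit 328)) (XT.lf (nat_lit 0) (nat_lit 46949988704) (nat_lit 152) (nat_lit 96082803910) (nat_lit 0) (nat_lit 38603962606) (nat_lit 16) (nat_lit 5) (nat_lit 18) (nat_lit 4) (nat_lit 16) (nat_lit 4) (nat_lit 476) (nat_lit 397) (nat_lit 327))) (XT.nd (nat_lit 78) (nat_lit 0) (nat_lit 0) (XT.lf (nat_lit 0) (nat_lit 3748592115) (nat_lit 76) (nat_lit 99064504896) (nat_lit 76) (nat_lit 90715637777) (nat_lit 15) (nat_lit 4) (nat_lit 16) (nat_lit 5) (nat_lit 16) (nat_lit 4) (nat_lit 477) (nat_lit 397) (nat_lit 326)) (XT.lf (nat_lit 0) (nat_lit 114925813377) (nat_lit 76) (nat_lit 49857916640)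 (nat_lit 76) (nat_lit 41506418948) (nat_lit 15) (nat_lit 4) (nat_lit 16) (nat_lit 5) (nat_lit 16) (nat_lit 4) (nat_lit 478) (nat_lit 397) (nat_lit 325))))))) (XT.nd (nat_lit 1248) (nat_lit 228) (nat_lit 0) (XT.nd (nat_lit 624) (nat_lit 228) (nat_lit 0) (XT.nd (nat_lit 312) (nat_lit 228) (nat_lit 0) (XT.nd (nat_lit 156) (nat_lit 76) (nat_lit 0) (XT.nd (nat_lit 78) (nat_lit 0) (nat_lit 0) (XT.lf (nat_lit 0) (nat_lit 11528164020) (nat_lit 152) (nat_lit 204950130815) (nat_lit 0) (nat_lit 3572036963) (nat_lit 13) (nat_lit 5) (nat_lit 15) (nat_lit 4) (nat_lit 13) (nat_lit 4) (nat_lit 479) (nat_lit 397) (nat_lit 324)) (XT.lf (nat_lit 0) (nat_lit 69796848382) (nat_lit 152) (nat_lit 103119609954) (nat_lit 0) (nat_lit 61838573427) (nat_lit 13) (nat_lit 5) (nat_lit 15) (nat_lit 4) (nat_lit 13) (nat_lit 4) (nat_lit 480) (nat_lit 397) (nat_lit 323))) (XT.nd (nat_lit 78) (nat_lit 0) (nat_lit 0) (XT.lf (nat_lit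 0) (nat_lit 7021254690) (nat_lit 76) (nat_lit 125785563639) (nat_lit 76) (nat_lit 117825299889) (nat_lit 12) (nat_lit 4) (nat_lit 13) (nat_lit 5) (nat_lit 13) (nat_lit 4) (nat_lit 481) (nat_lit 397) (nat_lit 322)) (XT.lf (nat_lit 0) (nat_lit 129597577875) (nat_lit 76) (nat_lit 73027755791) (nat_lit 76) (nat_lit 65065650564) (nat_lit 12) (nat_lit 4) (nat_lit 13) (nat_lit 5) (nat_lit 13) (nat_lit 4) (nat_lit 482) (nat_lit 397) (nat_lit 321)))) (XT.nd (nat_lit 156) (nat_lit 76) (nat_lit 0) (XT.nd (nat_lit 78) (nat_lit 152) (nat_lit 0) (XT.lf (nat_lit 0) (nat_lit 261926137804) (nat_lit 76) (nat_lit 16076776422) (nat_lit 76) (nat_lit 8112966124) (nat_lit 12) (nat_lit 4) (nat_lit 13) (nat_lit 5) (nat_lit 13) (nat_lit 4) (nat_lit 483) (nat_lit 397) (nat_lit 320)) (XT.lf (nat_lit 0) (nat_lit 53990230768) (nat_lit 152) (nat_lit 205463543418) (nat_lit 0) (nat_lit 46404145942) (nat_lit 10) (nat_lit 5) (nat_lit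 12) (nat_lit 4) (nat_lit 10) (nat_lit 4) (nat_lit 484) (nat_lit 397) (nat_lit 319))) (XT.nd (nat_lit 78) (nat_lit 76) (nat_lit 0) (XT.lf (nat_lit 0) (nat_lit 121456443900) (nat_lit 152) (nat_lit 91813312412) (nat_lit 0) (nat_lit 113868966862) (nat_lit 10) (nat_lit 5) (nat_lit 12) (nat_lit 4) (nat_lit 10) (nat_lit 4) (nat_lit 485) (nat_lit 397) (nat_lit 318)) (XT.lf (nat_lit 0) (nat_lit 31904429667) (nat_lit 76) (nat_lit 162891269835) (nat_lit 76) (nat_lit 155302503711) (nat_lit 9) (nat_lit 4) (nat_lit 10) (nat_lit 5) (nat_lit 10) (nat_lit 4) (nat_lit 486) (nat_lit 397) (nat_lit 317))))) (XT.nd (nat_lit 312) (nat_lit 76) (nat_lit 0) (XT.nd (nat_lit 156) (nat_lit 152) (nat_lit 0) (XT.nd (nat_lit 78) (nat_lit 0) (nat_lit 0) (XT.lf (nat_lit 0) (nat_lit 168754550303) (nat_lit 76) (nat_lit 106825477248) (nat_lit 76) (nat_lit 99235517525) (nat_lit 9) (nat_lit 4) (nat_lit 10) (nat_lit 5) (nat_lit 10)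 (nat_lit 4) (nat_lit 487) (nat_lit 397) (nat_lit 316)) (XT.lf (nat_lit 0) (nat_lit 316512250424) (nat_lit 76) (nat_lit 46295039688) (nat_lit 76) (nat_lit 38703974781) (nat_lit 9) (nat_lit 4) (nat_lit 10) (nat_lit 5) (nat_lit 10) (nat_lit 4) (nat_lit 488) (nat_lit 397) (nat_lit 315))) (XT.nd (nat_lit 78) (nat_lit 0) (nat_lit 0) (XT.lf (nat_lit 0) (nat_lit 26844734573) (nat_lit 152) (nat_lit 383811501002) (nat_lit 0) (nat_lit 19614174359) (nat_lit 7) (nat_lit 5) (nat_lit 9) (nat_lit 4) (nat_lit 7) (nat_lit 4) (nat_lit 489) (nat_lit 397) (nat_lit 314)) (XT.lf (nat_lit 0) (nat_lit 98566867805) (nat_lit 152) (nat_lit 271282012731) (nat_lit 0) (nat_lit 91335405195) (nat_lit 7) (nat_lit 5) (nat_lit 9) (nat_lit 4) (nat_lit 7) (nat_lit 4) (nat_lit 490) (nat_lit 397) (nat_lit 313)))) (XT.nd (nat_lit 156) (nat_lit 76) (nat_lit 0) (XT.nd (nat_lit 78) (nat_lit 0) (nat_lit 0) (XT.lf (nat_lit 0) (nat_lit 176009992088)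 (nat_lit 152) (nat_lit 149784424572) (nat_lit 0) (nat_lit 168777693925) (nat_lit 7) (nat_lit 5) (nat_lit 9) (nat_lit 4) (nat_lit 7) (nat_lit 4) (nat_lit 491) (nat_lit 397) (nat_lit 312)) (XT.lf (nat_lit 0) (nat_lit 259633029641) (nat_lit 152) (nat_lit 18598750817) (nat_lit 0) (nat_lit 252399957818) (nat_lit 7) (nat_lit 5) (nat_lit 9) (nat_lit 4) (nat_lit 7) (nat_lit 4) (nat_lit 492) (nat_lit 397) (nat_lit 311))) (XT.nd (nat_lit 78) (nat_lit 0) (nat_lit 0) (XT.lf (nat_lit 0) (nat_lit 127121073353) (nat_lit 76) (nat_lit 224795167247) (nat_lit 76) (nat_lit 217561379072) (nat_lit 6) (nat_lit 4) (nat_lit 7) (nat_lit 5) (nat_lit 7) (nat_lit 4) (nat_lit 493) (nat_lit 397) (nat_lit 310)) (XT.lf (nat_lit 0) (nat_lit 285134543590) (nat_lit 76) (nat_lit 166757784248) (nat_lit 76) (nat_lit 159523332784) (nat_lit 6) (nat_lit 4) (nat_lit 7) (nat_lit 5) (nat_lit 7) (nat_lit 4) (nat_lit 494) (nat_lit 397) (nat_lit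 309)))))) (XT.nd (nat_lit 624) (nat_lit 76) (nat_lit 0) (XT.nd (nat_lit 312) (nat_lit 0) (nat_lit 0) (XT.nd (nat_lit 156) (nat_lit 152) (nat_lit 0) (XT.nd (nat_lit 78) (nat_lit 0) (nat_lit 0) (XT.lf (nat_lit 0) (nat_lit 455763077316) (nat_lit 76) (nat_lit 104090685072) (nat_lit 76) (nat_lit 96855619453) (nat_lit 6) (nat_lit 4) (nat_lit 7) (nat_lit 5) (nat_lit 7) (nat_lit 4) (nat_lit 495) (nat_lit 397) (nat_lit 308)) (XT.lf (nat_lit 0) (nat_lit 640017806584) (nat_lit 76) (nat_lit 36422509133) (nat_lit 76) (nat_lit 29186874850) (nat_lit 6) (nat_lit 4) (nat_lit 7) (nat_lit 5) (nat_lit 7) (nat_lit 4) (nat_lit 496) (nat_lit 397) (nat_lit 307))) (XT.nd (nat_lit 78) (nat_lit 0) (nat_lit 0) (XT.lf (nat_lit 0) (nat_lit 44371706867) (nat_lit 152) (nat_lit 676478262339) (nat_lit 0) (nat_lit 37480125131) (nat_lit 4) (nat_lit 5) (nat_lit 6) (nat_lit 4) (nat_lit 4) (nat_lit 4) (nat_lit 497) (nat_lit 397) (nat_lit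 306)) (XT.lf (nat_lit 0) (nat_lit 124571048366) (nat_lit 152) (nat_lit 572886324115) (nat_lit 0) (nat_lit 117679002309) (nat_lit 4) (nat_lit 5) (nat_lit 6) (nat_lit 4) (nat_lit 4) (nat_lit 4) (nat_lit 498) (nat_lit 397) (nat_lit 305)))) (XT.nd (nat_lit 156) (nat_lit 0) (nat_lit 0) (XT.nd (nat_lit 78) (nat_lit 0) (nat_lit 0) (XT.lf (nat_lit 0) (nat_lit 211176346161) (nat_lit 152) (nat_lit 461027440900) (nat_lit 0) (nat_lit 204283870177) (nat_lit 4) (nat_lit 5) (nat_lit 6) (nat_lit 4) (nat_lit 4) (nat_lit 4) (nat_lit 499) (nat_lit 397) (nat_lit 304)) (XT.lf (nat_lit 0) (nat_lit 304700816831) (nat_lit 152) (nat_lit 340238745237) (nat_lit 0) (nat_lit 297807942768) (nat_lit 4) (nat_lit 5) (nat_lit 6) (nat_lit 4) (nat_lit 4) (nat_lit 4) (nat_lit 500) (nat_lit 397) (nat_lit 303))) (XT.nd (nat_lit 78) (nat_lit 0) (nat_lit 0) (XT.lf (nat_lit 0) (nat_lit 405698679463) (nat_lit 152) (nat_lit 209804452264)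 (nat_lit 0) (nat_lit 398805436806) (nat_lit 4) (nat_lit 5) (nat_lit 6) (nat_lit 4) (nat_lit 4) (nat_lit 4) (nat_lit 501) (nat_lit 397) (nat_lit 302)) (XT.lf (nat_lit 0) (nat_lit 514768439908) (nat_lit 152) (nat_lit 68951618022) (nat_lit 0) (nat_lit 507874855961) (nat_lit 4) (nat_lit 5) (nat_lit 6) (nat_lit 4) (nat_lit 4) (nat_lit 4) (nat_lit 502) (nat_lit 397) (nat_lit 301))))) (XT.nd (nat_lit 54756) (nat_lit 0) (nat_lit 14820) (XT.nd (nat_lit 156) (nat_lit 0) (nat_lit 0) (XT.nd (nat_lit 78) (nat_lit 0) (nat_lit 0) (XT.lf (nat_lit 0) (nat_lit 85903902304) (nat_lit 76) (nat_lit 547993735843) (nat_lit 76) (nat_lit 541099835888) (nat_lit 3) (nat_lit 4) (nat_lit 4) (nat_lit 5) (nat_lit 4) (nat_lit 4) (nat_lit 503) (nat_lit 397) (nat_lit 300)) (XT.lf (nat_lit 0) (nat_lit 255595754255) (nat_lit 76) (nat_lit 508155486925) (nat_lit 76) (nat_lit 501261294369) (nat_lit 3) (nat_lit 4) (nat_lit 4) (nat_lit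 5) (nat_lit 4) (nat_lit 4) (nat_lit 504) (nat_lit 397) (nat_lit 299))) (XT.nd (nat_lit 78) (nat_lit 0) (nat_lit 0) (XT.lf (nat_lit 0) (nat_lit 438849667289) (nat_lit 76) (nat_lit 465136961678) (nat_lit 76) (nat_lit 458242498195) (nat_lit 3) (nat_lit 4) (nat_lit 4) (nat_lit 5) (nat_lit 4) (nat_lit 4) (nat_lit 505) (nat_lit 397) (nat_lit 298)) (XT.lf (nat_lit 0) (nat_lit 636751590520) (nat_lit 76) (nat_lit 418683235509) (nat_lit 76) (nat_lit 411788521168) (nat_lit 3) (nat_lit 4) (nat_lit 4) (nat_lit 5) (nat_lit 4) (nat_lit 4) (nat_lit 506) (nat_lit 397) (nat_lit 297)))) (XT.nd (nat_lit 156) (nat_lit 912) (nat_lit 0) (XT.nd (nat_lit 78) (nat_lit 380) (nat_lit 0) (XT.lf (nat_lit 0) (nat_lit 1657673035) (nat_lit 228) (nat_lit 810065861) (nat_lit 228) (nat_lit 810065861) (nat_lit 215) (nat_lit 4) (nat_lit 218) (nat_lit 5) (nat_lit 218) (nat_lit 4) (nat_lit 404) (nat_lit 398) (nat_lit 398)) (XT.lf (nat_lit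 0) (nat_lit 3207226414) (nat_lit 304) (nat_lit 252329362) (nat_lit 380) (nat_lit 3163238025) (nat_lit 210) (nat_lit 5) (nat_lit 214) (nat_lit 5) (nat_lit 215) (nat_lit 4) (nat_lit 405) (nat_lit 398) (nat_lit 397))) (XT.nd (nat_lit 78) (nat_lit 456) (nat_lit 0) (XT.lf (nat_lit 0) (nat_lit 1797997433) (nat_lit 456) (nat_lit 3439779771) (nat_lit 76) (nat_lit 1470918037) (nat_lit 204) (nat_lit 5) (nat_lit 210) (nat_lit 5) (nat_lit 205) (nat_lit 4) (nat_lit 406) (nat_lit 398) (nat_lit 396)) (XT.lf (nat_lit 0) (nat_lit 3514064274) (nat_lit 456) (nat_lit 3223389627) (nat_lit 532) (nat_lit 76865164) (nat_lit 198) (nat_lit 5) (nat_lit 204) (nat_lit 5) (nat_lit 205) (nat_lit 4) (nat_lit 407) (nat_lit 398) (nat_lit 395))))))))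
noncomputable def xc42 : XT := (XT.nd (nat_lit 2418) (nat_lit 3420) (nat_lit 0) (XT.nd (nat_lit 1170) (nat_lit 2888) (nat_lit 0) (XT.nd (nat_lit 546) (nat_lit 2584) (nat_lit 0) (XT.nd (nat_lit 234) (nat_lit 2508) (nat_lit 0) (XT.nd (nat_lit 78) (nat_lit 1368) (nat_lit 0) (XT.lf (nat_lit 0) (nat_lit 3915930911) (nat_lit 532) (nat_lit 776108098) (nat_lit 608) (nat_lit 2246733161) (nat_lit 190) (nat_lit 5) (nat_lit 197) (nat_lit 5) (nat_lit 198) (nat_lit 5) (nat_lit 408) (nat_lit 398) (nat_lit 394)) (XT.nd (nat_lit 78) (nat_lit 684) (nat_lit 0) (XT.lf (nat_lit 0) (nat_lit 2449281805) (nat_lit 684) (nat_lit 2608401996) (nat_lit 76) (nat_lit 2024754789) (nat_lit 181) (nat_lit 5) (nat_lit 190) (nat_lit 5) (nat_lit 182) (nat_lit 5) (nat_lit 409) (nat_lit 398) (nat_lit 393)) (XT.lf (nat_lit 0) (nat_lit 5207164938) (nat_lit 684) (nat_lit 2018006702) (nat_lit 760) (nat_lit 21475990) (nat_lit 172) (nat_lit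 5) (nat_lit 181) (nat_lit 5) (nat_lit 182) (nat_lit 5) (nat_lit 410) (nat_lit 398) (nat_lit 392)))) (XT.nd (nat_lit 156) (nat_lit 1140) (nat_lit 0) (XT.nd (nat_lit 78) (nat_lit 532) (nat_lit 0) (XT.lf (nat_lit 0) (nat_lit 4615167400) (nat_lit 836) (nat_lit 1365492551) (nat_lit 76) (nat_lit 1448756576) (nat_lit 161) (nat_lit 5) (nat_lit 172) (nat_lit 5) (nat_lit 162) (nat_lit 5) (nat_lit 411) (nat_lit 398) (nat_lit 391)) (XT.lf (nat_lit 0) (nat_lit 1780806166) (nat_lit 532) (nat_lit 556013833) (nat_lit 76) (nat_lit 5295966805) (nat_lit 154) (nat_lit 5) (nat_lit 161) (nat_lit 5) (nat_lit 155) (nat_lit 5) (nat_lit 412) (nat_lit 398) (nat_lit 390))) (XT.nd (nat_lit 78) (nat_lit 380) (nat_lit 0) (XT.lf (nat_lit 0) (nat_lit 390910727) (nat_lit 380) (nat_lit 6127256280) (nat_lit 456) (nat_lit 1338314140) (nat_lit 144) (nat_lit 5) (nat_lit 149) (nat_lit 5) (nat_lit 150) (nat_lit 5) (nat_lit 413) (nat_lit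 398) (nat_lit 389)) (XT.lf (nat_lit 0) (nat_lit 1464365838) (nat_lit 304) (nat_lit 1868518129) (nat_lit 380) (nat_lit 4766968097) (nat_lit 139) (nat_lit 5) (nat_lit 143) (nat_lit 5) (nat_lit 144) (nat_lit 5) (nat_lit 414) (nat_lit 398) (nat_lit 388))))) (XT.nd (nat_lit 312) (nat_lit 1292) (nat_lit 0) (XT.nd (nat_lit 156) (nat_lit 608) (nat_lit 0) (XT.nd (nat_lit 78) (nat_lit 380) (nat_lit 0) (XT.lf (nat_lit 0) (nat_lit 2674381840) (nat_lit 304) (nat_lit 5582186682) (nat_lit 380) (nat_lit 108764567) (nat_lit 135) (nat_lit 5) (nat_lit 139) (nat_lit 5) (nat_lit 140) (nat_lit 5) (nat_lit 415) (nat_lit 398) (nat_lit 387)) (XT.lf (nat_lit 0) (nat_lit 3980387820) (nat_lit 304) (nat_lit 715424643) (nat_lit 380) (nat_lit 3955853821) (nat_lit 130) (nat_lit 5) (nat_lit 134) (nat_lit 5) (nat_lit 135) (nat_lit 5) (nat_lit 416) (nat_lit 398) (nat_lit 386))) (XT.nd (nat_lit 78) (nat_lit 228) (nat_lit 0) (XT.lf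 (nat_lit 0) (nat_lit 881147319) (nat_lit 380) (nat_lit 3556757270) (nat_lit 76) (nat_lit 4522687249) (nat_lit 125) (nat_lit 5) (nat_lit 130) (nat_lit 5) (nat_lit 126) (nat_lit 5) (nat_lit 417) (nat_lit 398) (nat_lit 385)) (XT.lf (nat_lit 0) (nat_lit 5932641652) (nat_lit 304) (nat_lit 2351719098) (nat_lit 76) (nat_lit 1008337203) (nat_lit 122) (nat_lit 5) (nat_lit 126) (nat_lit 5) (nat_lit 123) (nat_lit 5) (nat_lit 418) (nat_lit 398) (nat_lit 384)))) (XT.nd (nat_lit 156) (nat_lit 456) (nat_lit 0) (XT.nd (nat_lit 78) (nat_lit 456) (nat_lit 0) (XT.lf (nat_lit 0) (nat_lit 1711030773) (nat_lit 380) (nat_lit 1062157567) (nat_lit 76) (nat_lit 6875354944) (nat_lit 117) (nat_lit 5) (nat_lit 122) (nat_lit 5) (nat_lit 118) (nat_lit 5) (nat_lit 419) (nat_lit 398) (nat_lit 383)) (XT.lf (nat_lit 0) (nat_lit 319701162) (nat_lit 228) (nat_lit 6779256720) (nat_lit 304) (nat_lit 2929713110) (nat_lit 111) (nat_lit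 5) (nat_lit 114) (nat_lit 5) (nat_lit 115) (nat_lit 5) (nat_lit 420) (nat_lit 398) (nat_lit 382))) (XT.nd (nat_lit 78) (nat_lit 228) (nat_lit 0) (XT.lf (nat_lit 0) (nat_lit 1847939717) (nat_lit 152) (nat_lit 604215523) (nat_lit 228) (nat_lit 7982490801) (nat_lit 108) (nat_lit 5) (nat_lit 110) (nat_lit 5) (nat_lit 111) (nat_lit 5) (nat_lit 421) (nat_lit 398) (nat_lit 381)) (XT.lf (nat_lit 0) (nat_lit 3432030944) (nat_lit 228) (nat_lit 4829465324) (nat_lit 304) (nat_lit 2604233364) (nat_lit 105) (nat_lit 5) (nat_lit 108) (nat_lit 5) (nat_lit 109) (nat_lit 5) (nat_lit 422) (nat_lit 398) (nat_lit 380)))))) (XT.nd (nat_lit 624) (nat_lit 1216) (nat_lit 0) (XT.nd (nat_lit 312) (nat_lit 836) (nat_lit 0) (XT.nd (nat_lit 156) (nat_lit 380) (nat_lit 0) (XT.nd (nat_lit 78) (nat_lit 228) (nat_lit 0) (XT.lf (nat_lit 0) (nat_lit 3162177634) (nat_lit 228) (nat_lit 6196074858) (nat_lit 76) (nat_lit 1967532554)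 (nat_lit 102) (nat_lit 5) (nat_lit 105) (nat_lit 5) (nat_lit 103) (nat_lit 5) (nat_lit 423) (nat_lit 398) (nat_lit 379)) (XT.lf (nat_lit 0) (nat_lit 6912833104) (nat_lit 228) (nat_lit 2502953465) (nat_lit 304) (nat_lit 2398875839) (nat_lit 99) (nat_lit 5) (nat_lit 102) (nat_lit 5) (nat_lit 103) (nat_lit 5) (nat_lit 424) (nat_lit 398) (nat_lit 378))) (XT.nd (nat_lit 78) (nat_lit 152) (nat_lit 0) (XT.lf (nat_lit 0) (nat_lit 3834165676) (nat_lit 228) (nat_lit 3561146520) (nat_lit 76) (nat_lit 4937876582) (nat_lit 96) (nat_lit 5) (nat_lit 99) (nat_lit 5) (nat_lit 97) (nat_lit 5) (nat_lit 425) (nat_lit 398) (nat_lit 377)) (XT.lf (nat_lit 0) (nat_lit 10592988748) (nat_lit 228) (nat_lit 2116329752) (nat_lit 76) (nat_lit 176360140) (nat_lit 94) (nat_lit 5) (nat_lit 97) (nat_lit 5) (nat_lit 95) (nat_lit 4) (nat_lit 426) (nat_lit 398) (nat_lit 376)))) (XT.nd (nat_lit 156) (nat_lit 304) (nat_lit 0) (XT.nd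 (nat_lit 78) (nat_lit 304) (nat_lit 0) (XT.lf (nat_lit 0) (nat_lit 4478639172) (nat_lit 228) (nat_lit 671653401) (nat_lit 76) (nat_lit 8318156323) (nat_lit 91) (nat_lit 5) (nat_lit 94) (nat_lit 5) (nat_lit 92) (nat_lit 5) (nat_lit 427) (nat_lit 398) (nat_lit 375)) (XT.lf (nat_lit 0) (nat_lit 911690091) (nat_lit 152) (nat_lit 10960816544) (nat_lit 228) (nat_lit 2215402625) (nat_lit 87) (nat_lit 5) (nat_lit 89) (nat_lit 5) (nat_lit 90) (nat_lit 4) (nat_lit 428) (nat_lit 398) (nat_lit 374))) (XT.nd (nat_lit 78) (nat_lit 76) (nat_lit 0) (XT.lf (nat_lit 0) (nat_lit 2555467435) (nat_lit 152) (nat_lit 2594525926) (nat_lit 228) (nat_lit 9592341058) (nat_lit 84) (nat_lit 5) (nat_lit 86) (nat_lit 5) (nat_lit 87) (nat_lit 5) (nat_lit 429) (nat_lit 398) (nat_lit 373)) (XT.lf (nat_lit 0) (nat_lit 4271228600) (nat_lit 76) (nat_lit 8986594686) (nat_lit 152) (nat_lit 2177937994) (nat_lit 83) (nat_lit 5) (nat_lit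 84) (nat_lit 5) (nat_lit 85) (nat_lit 4) (nat_lit 430) (nat_lit 398) (nat_lit 372))))) (XT.nd (nat_lit 312) (nat_lit 608) (nat_lit 0) (XT.nd (nat_lit 156) (nat_lit 304) (nat_lit 0) (XT.nd (nat_lit 78) (nat_lit 76) (nat_lit 0) (XT.lf (nat_lit 0) (nat_lit 5835695925) (nat_lit 228) (nat_lit 10105957822) (nat_lit 76) (nat_lit 228828590) (nat_lit 80) (nat_lit 5) (nat_lit 83) (nat_lit 5) (nat_lit 81) (nat_lit 4) (nat_lit 431) (nat_lit 398) (nat_lit 371)) (XT.lf (nat_lit 0) (nat_lit 7889583679) (nat_lit 76) (nat_lit 6838539705) (nat_lit 152) (nat_lit 2218375858) (nat_lit 79) (nat_lit 5) (nat_lit 80) (nat_lit 5) (nat_lit 81) (nat_lit 4) (nat_lit 432) (nat_lit 398) (nat_lit 370))) (XT.nd (nat_lit 78) (nat_lit 76) (nat_lit 0) (XT.lf (nat_lit 0) (nat_lit 6567846587) (nat_lit 228) (nat_lit 7983224541) (nat_lit 76) (nat_lit 3216915776) (nat_lit 76) (nat_lit 5) (nat_lit 79) (nat_lit 5) (nat_lit 77) (nat_lit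 4) (nat_lit 433) (nat_lit 398) (nat_lit 369)) (XT.lf (nat_lit 0) (nat_lit 11757187946) (nat_lit 76) (nat_lit 4533304165) (nat_lit 152) (nat_lit 2347323845) (nat_lit 75) (nat_lit 5) (nat_lit 76) (nat_lit 5) (nat_lit 77) (nat_lit 4) (nat_lit 434) (nat_lit 398) (nat_lit 368)))) (XT.nd (nat_lit 156) (nat_lit 304) (nat_lit 0) (XT.nd (nat_lit 78) (nat_lit 76) (nat_lit 0) (XT.lf (nat_lit 0) (nat_lit 7300012251) (nat_lit 228) (nat_lit 5811339425) (nat_lit 76) (nat_lit 6444392100) (nat_lit 72) (nat_lit 5) (nat_lit 75) (nat_lit 5) (nat_lit 73) (nat_lit 4) (nat_lit 435) (nat_lit 398) (nat_lit 367)) (XT.lf (nat_lit 0) (nat_lit 15853400508) (nat_lit 76) (nat_lit 2090857009) (nat_lit 152) (nat_lit 2585558693) (nat_lit 71) (nat_lit 5) (nat_lit 72) (nat_lit 5) (nat_lit 73) (nat_lit 4) (nat_lit 436) (nat_lit 398) (nat_lit 366))) (XT.nd (nat_lit 78) (nat_lit 76) (nat_lit 0) (XT.lf (nat_lit 0) (nat_lit 8016353677)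 (nat_lit 228) (nat_lit 3639558256) (nat_lit 76) (nat_lit 9899288340) (nat_lit 68) (nat_lit 5) (nat_lit 71) (nat_lit 5) (nat_lit 69) (nat_lit 4) (nat_lit 437) (nat_lit 398) (nat_lit 365)) (XT.lf (nat_lit 0) (nat_lit 19685992974) (nat_lit 152) (nat_lit 2511507694) (nat_lit 0) (nat_lit 447489141) (nat_lit 67) (nat_lit 5) (nat_lit 69) (nat_lit 4) (nat_lit 67) (nat_lit 4) (nat_lit 438) (nat_lit 398) (nat_lit 364))))))) (XT.nd (nat_lit 1248) (nat_lit 1596) (nat_lit 0) (XT.nd (nat_lit 624) (nat_lit 836) (nat_lit 0) (XT.nd (nat_lit 312) (nat_lit 456) (nat_lit 0) (XT.nd (nat_lit 156) (nat_lit 304) (nat_lit 0) (XT.nd (nat_lit 78) (nat_lit 76) (nat_lit 0) (XT.lf (nat_lit 0) (nat_lit 8688329510) (nat_lit 152) (nat_lit 1539726157) (nat_lit 76) (nat_lit 13562694098) (nat_lit 65) (nat_lit 5) (nat_lit 67) (nat_lit 5) (nat_lit 66) (nat_lit 4) (nat_lit 439) (nat_lit 398) (nat_lit 363)) (XT.lf (nat_lit 0) (nat_lit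 21518573935) (nat_lit 152) (nat_lit 499221824) (nat_lit 0) (nat_lit 2990210964) (nat_lit 64) (nat_lit 5) (nat_lit 66) (nat_lit 4) (nat_lit 64) (nat_lit 4) (nat_lit 440) (nat_lit 398) (nat_lit 362))) (XT.nd (nat_lit 78) (nat_lit 76) (nat_lit 0) (XT.lf (nat_lit 0) (nat_lit 398031793) (nat_lit 76) (nat_lit 8879084017) (nat_lit 152) (nat_lit 17012749983) (nat_lit 61) (nat_lit 5) (nat_lit 62) (nat_lit 5) (nat_lit 63) (nat_lit 4) (nat_lit 441) (nat_lit 398) (nat_lit 361)) (XT.lf (nat_lit 0) (nat_lit 1312776896) (nat_lit 76) (nat_lit 22075307222) (nat_lit 76) (nat_lit 4261063203) (nat_lit 60) (nat_lit 4) (nat_lit 61) (nat_lit 5) (nat_lit 61) (nat_lit 4) (nat_lit 442) (nat_lit 398) (nat_lit 360)))) (XT.nd (nat_lit 156) (nat_lit 228) (nat_lit 0) (XT.nd (nat_lit 78) (nat_lit 76) (nat_lit 0) (XT.lf (nat_lit 0) (nat_lit 2056494060) (nat_lit 76) (nat_lit 7673070005) (nat_lit 152) (nat_lit 19354023555) (nat_lit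 58) (nat_lit 5) (nat_lit 59) (nat_lit 5) (nat_lit 60) (nat_lit 4) (nat_lit 443) (nat_lit 398) (nat_lit 359)) (XT.lf (nat_lit 0) (nat_lit 2714359352) (nat_lit 76) (nat_lit 22496094223) (nat_lit 76) (nat_lit 5392823048) (nat_lit 57) (nat_lit 4) (nat_lit 58) (nat_lit 5) (nat_lit 58) (nat_lit 4) (nat_lit 444) (nat_lit 398) (nat_lit 358))) (XT.nd (nat_lit 78) (nat_lit 76) (nat_lit 0) (XT.lf (nat_lit 0) (nat_lit 3177111444) (nat_lit 76) (nat_lit 6745578084) (nat_lit 152) (nat_lit 22286921213) (nat_lit 55) (nat_lit 5) (nat_lit 56) (nat_lit 5) (nat_lit 57) (nat_lit 4) (nat_lit 445) (nat_lit 398) (nat_lit 357)) (XT.lf (nat_lit 0) (nat_lit 3445445440) (nat_lit 76) (nat_lit 23432681276) (nat_lit 76) (nat_lit 7031724333) (nat_lit 54) (nat_lit 4) (nat_lit 55) (nat_lit 5) (nat_lit 55) (nat_lit 4) (nat_lit 446) (nat_lit 398) (nat_lit 356))))) (XT.nd (nat_lit 312) (nat_lit 380) (nat_lit 0) (XT.nd (nat_lit 156)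 (nat_lit 228) (nat_lit 0) (XT.nd (nat_lit 78) (nat_lit 76) (nat_lit 0) (XT.lf (nat_lit 0) (nat_lit 3475148184) (nat_lit 76) (nat_lit 6244861242) (nat_lit 152) (nat_lit 25989810444) (nat_lit 52) (nat_lit 5) (nat_lit 53) (nat_lit 5) (nat_lit 54) (nat_lit 4) (nat_lit 447) (nat_lit 398) (nat_lit 355)) (XT.lf (nat_lit 0) (nat_lit 3173764172) (nat_lit 76) (nat_lit 25075785092) (nat_lit 76) (nat_lit 9364272721) (nat_lit 51) (nat_lit 4) (nat_lit 52) (nat_lit 5) (nat_lit 52) (nat_lit 4) (nat_lit 448) (nat_lit 398) (nat_lit 354))) (XT.nd (nat_lit 78) (nat_lit 76) (nat_lit 0) (XT.lf (nat_lit 0) (nat_lit 2564010679) (nat_lit 76) (nat_lit 6370759393) (nat_lit 152) (nat_lit 30697746249) (nat_lit 49) (nat_lit 5) (nat_lit 50) (nat_lit 5) (nat_lit 51) (nat_lit 4) (nat_lit 449) (nat_lit 398) (nat_lit 353)) (XT.lf (nat_lit 0) (nat_lit 1450140440) (nat_lit 76) (nat_lit 27677544512) (nat_lit 76) (nat_lit 12639444859)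 (nat_lit 48) (nat_lit 4) (nat_lit 49) (nat_lit 5) (nat_lit 49) (nat_lit 4) (nat_lit 450) (nat_lit 398) (nat_lit 352)))) (XT.nd (nat_lit 156) (nat_lit 228) (nat_lit 0) (XT.nd (nat_lit 78) (nat_lit 76) (nat_lit 0) (XT.lf (nat_lit 0) (nat_lit 7315589654) (nat_lit 152) (nat_lit 74418343) (nat_lit 76) (nat_lit 36643559744) (nat_lit 47) (nat_lit 5) (nat_lit 49) (nat_lit 5) (nat_lit 48) (nat_lit 4) (nat_lit 451) (nat_lit 398) (nat_lit 351)) (XT.lf (nat_lit 0) (nat_lit 29278846053) (nat_lit 152) (nat_lit 2253574440) (nat_lit 0) (nat_lit 14895808319) (nat_lit 46) (nat_lit 5) (nat_lit 48) (nat_lit 4) (nat_lit 46) (nat_lit 4) (nat_lit 452) (nat_lit 398) (nat_lit 350))) (XT.nd (nat_lit 78) (nat_lit 76) (nat_lit 0) (XT.lf (nat_lit 0) (nat_lit 4600541373) (nat_lit 152) (nat_lit 4979099420) (nat_lit 76) (nat_lit 39394542966) (nat_lit 44) (nat_lit 5) (nat_lit 46) (nat_lit 5) (nat_lit 45) (nat_lit 4) (nat_lit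 453) (nat_lit 398) (nat_lit 349)) (XT.lf (nat_lit 0) (nat_lit 28368123813) (nat_lit 152) (nat_lit 8677555802) (nat_lit 0) (nat_lit 14620154255) (nat_lit 43) (nat_lit 5) (nat_lit 45) (nat_lit 4) (nat_lit 43) (nat_lit 4) (nat_lit 454) (nat_lit 398) (nat_lit 348)))))) (XT.nd (nat_lit 624) (nat_lit 760) (nat_lit 0) (XT.nd (nat_lit 312) (nat_lit 380) (nat_lit 0) (XT.nd (nat_lit 156) (nat_lit 228) (nat_lit 0) (XT.nd (nat_lit 78) (nat_lit 76) (nat_lit 0) (XT.lf (nat_lit 0) (nat_lit 313122405) (nat_lit 152) (nat_lit 13128254516) (nat_lit 76) (nat_lit 41090273628) (nat_lit 41) (nat_lit 5) (nat_lit 43) (nat_lit 5) (nat_lit 42) (nat_lit 4) (nat_lit 455) (nat_lit 398) (nat_lit 347)) (XT.lf (nat_lit 0) (nat_lit 25898309260) (nat_lit 152) (nat_lit 18899929619) (nat_lit 0) (nat_lit 12764311224) (nat_lit 40) (nat_lit 5) (nat_lit 42) (nat_lit 4) (nat_lit 40) (nat_lit 4) (nat_lit 456) (nat_lit 398) (nat_lit 346)))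 (XT.nd (nat_lit 78) (nat_lit 152) (nat_lit 0) (XT.lf (nat_lit 0) (nat_lit 34982691850) (nat_lit 76) (nat_lit 19479377629) (nat_lit 76) (nat_lit 6327264522) (nat_lit 39) (nat_lit 4) (nat_lit 40) (nat_lit 5) (nat_lit 40) (nat_lit 4) (nat_lit 457) (nat_lit 398) (nat_lit 345)) (XT.lf (nat_lit 0) (nat_lit 21236415748) (nat_lit 152) (nat_lit 34283151275) (nat_lit 0) (nat_lit 8694619252) (nat_lit 37) (nat_lit 5) (nat_lit 39) (nat_lit 4) (nat_lit 37) (nat_lit 4) (nat_lit 458) (nat_lit 398) (nat_lit 344)))) (XT.nd (nat_lit 156) (nat_lit 152) (nat_lit 0) (XT.nd (nat_lit 78) (nat_lit 152) (nat_lit 0) (XT.lf (nat_lit 0) (nat_lit 23322988176) (nat_lit 76) (nat_lit 28543642195) (nat_lit 76) (nat_lit 15987054505) (nat_lit 36) (nat_lit 4) (nat_lit 37) (nat_lit 5) (nat_lit 37) (nat_lit 4) (nat_lit 459) (nat_lit 398) (nat_lit 343)) (XT.lf (nat_lit 0) (nat_lit 13542953743) (nat_lit 152) (nat_lit 56619792388) (nat_lit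 0) (nat_lit 1571255419) (nat_lit 34) (nat_lit 5) (nat_lit 36) (nat_lit 4) (nat_lit 34) (nat_lit 4) (nat_lit 460) (nat_lit 398) (nat_lit 342))) (XT.nd (nat_lit 78) (nat_lit 76) (nat_lit 0) (XT.lf (nat_lit 0) (nat_lit 4482662808) (nat_lit 76) (nat_lit 41674332636) (nat_lit 76) (nat_lit 29690557108) (nat_lit 33) (nat_lit 4) (nat_lit 34) (nat_lit 5) (nat_lit 34) (nat_lit 4) (nat_lit 461) (nat_lit 398) (nat_lit 341)) (XT.lf (nat_lit 0) (nat_lit 1993939915) (nat_lit 152) (nat_lit 7907381299) (nat_lit 76) (nat_lit 70341073072) (nat_lit 32) (nat_lit 5) (nat_lit 34) (nat_lit 5) (nat_lit 33) (nat_lit 4) (nat_lit 462) (nat_lit 398) (nat_lit 340))))) (XT.nd (nat_lit 312) (nat_lit 380) (nat_lit 0) (XT.nd (nat_lit 156) (nat_lit 228) (nat_lit 0) (XT.nd (nat_lit 78) (nat_lit 76) (nat_lit 0) (XT.lf (nat_lit 0) (nat_lit 36500161132) (nat_lit 152) (nat_lit 23331436729) (nat_lit 0) (nat_lit 25066530292) (nat_lit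 31) (nat_lit 5) (nat_lit 33) (nat_lit 4) (nat_lit 31) (nat_lit 4) (nat_lit 463) (nat_lit 398) (nat_lit 339)) (XT.lf (nat_lit 0) (nat_lit 48220018498) (nat_lit 76) (nat_lit 26549466848) (nat_lit 76) (nat_lit 15106705271) (nat_lit 30) (nat_lit 4) (nat_lit 31) (nat_lit 5) (nat_lit 31) (nat_lit 4) (nat_lit 464) (nat_lit 398) (nat_lit 338))) (XT.nd (nat_lit 78) (nat_lit 76) (nat_lit 0) (XT.lf (nat_lit 0) (nat_lit 21198484596) (nat_lit 152) (nat_lit 63694279872) (nat_lit 0) (nat_lit 10292564631) (nat_lit 28) (nat_lit 5) (nat_lit 30) (nat_lit 4) (nat_lit 28) (nat_lit 4) (nat_lit 465) (nat_lit 398) (nat_lit 337)) (XT.lf (nat_lit 0) (nat_lit 10610506119) (nat_lit 76) (nat_lit 50572244566) (nat_lit 76) (nat_lit 39658869234) (nat_lit 27) (nat_lit 4) (nat_lit 28) (nat_lit 5) (nat_lit 28) (nat_lit 4) (nat_lit 466) (nat_lit 398) (nat_lit 336)))) (XT.nd (nat_lit 156) (nat_lit 228) (nat_lit 0) (XT.nd (nat_lit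 78) (nat_lit 152) (nat_lit 0) (XT.lf (nat_lit 0) (nat_lit 93029473228) (nat_lit 76) (nat_lit 12394162723) (nat_lit 76) (nat_lit 1473884273) (nat_lit 27) (nat_lit 4) (nat_lit 28) (nat_lit 5) (nat_lit 28) (nat_lit 4) (nat_lit 467) (nat_lit 398) (nat_lit 335)) (XT.lf (nat_lit 0) (nat_lit 40017053657) (nat_lit 152) (nat_lit 43702899518) (nat_lit 0) (nat_lit 29610701060) (nat_lit 25) (nat_lit 5) (nat_lit 27) (nat_lit 4) (nat_lit 25) (nat_lit 4) (nat_lit 468) (nat_lit 398) (nat_lit 334))) (XT.nd (nat_lit 78) (nat_lit 152) (nat_lit 0) (XT.lf (nat_lit 0) (nat_lit 41011043481) (nat_lit 76) (nat_lit 44812880893) (nat_lit 76) (nat_lit 34400891810) (nat_lit 24) (nat_lit 4) (nat_lit 25) (nat_lit 5) (nat_lit 25) (nat_lit 4) (nat_lit 469) (nat_lit 398) (nat_lit 333)) (XT.lf (nat_lit 0) (nat_lit 6410728702) (nat_lit 76) (nat_lit 1798020933) (nat_lit 152) (nat_lit 119414411372) (nat_lit 22) (nat_lit 5) (nat_lit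 23) (nat_lit 5) (nat_lit 24) (nat_lit 4) (nat_lit 470) (nat_lit 398) (nat_lit 332))))))))
noncomputable def xc43 : XT := (XT.nd (nat_lit 2496) (nat_lit 76) (nat_lit 0) (XT.nd (nat_lit 1248) (nat_lit 456) (nat_lit 0) (XT.nd (nat_lit 624) (nat_lit 380) (nat_lit 0) (XT.nd (nat_lit 312) (nat_lit 304) (nat_lit 0) (XT.nd (nat_lit 156) (nat_lit 152) (nat_lit 0) (XT.nd (nat_lit 78) (nat_lit 76) (nat_lit 0) (XT.lf (nat_lit 0) (nat_lit 55093158838) (nat_lit 152) (nat_lit 35221049351) (nat_lit 0) (nat_lit 45167406046) (nat_lit 22) (nat_lit 5) (nat_lit 24) (nat_lit 4) (nat_lit 22) (nat_lit 4) (nat_lit 471) (nat_lit 398) (nat_lit 331)) (XT.lf (nat_lit 0) (nat_lit 59437782786) (nat_lit 76) (nat_lit 47207561978) (nat_lit 76) (nat_lit 37277547829) (nat_lit 21) (nat_lit 4) (nat_lit 22) (nat_lit 5) (nat_lit 22) (nat_lit 4) (nat_lit 472) (nat_lit 398) (nat_lit 330))) (XT.nd (nat_lit 78) (nat_lit 0) (nat_lit 0)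 (XT.lf (nat_lit 0) (nat_lit 9729083266) (nat_lit 152) (nat_lit 142997777793) (nat_lit 0) (nat_lit 268169124) (nat_lit 19) (nat_lit 5) (nat_lit 21) (nat_lit 4) (nat_lit 19) (nat_lit 4) (nat_lit 473) (nat_lit 398) (nat_lit 329)) (XT.lf (nat_lit 0) (nat_lit 61460496326) (nat_lit 152) (nat_lit 49192270657) (nat_lit 0) (nat_lit 51996102730) (nat_lit 19) (nat_lit 5) (nat_lit 21) (nat_lit 4) (nat_lit 19) (nat_lit 4) (nat_lit 474) (nat_lit 398) (nat_lit 328)))) (XT.nd (nat_lit 156) (nat_lit 228) (nat_lit 0) (XT.nd (nat_lit 78) (nat_lit 0) (nat_lit 0) (XT.lf (nat_lit 0) (nat_lit 53765015397) (nat_lit 76) (nat_lit 64368725232) (nat_lit 76) (nat_lit 54901109919) (nat_lit 18) (nat_lit 4) (nat_lit 19) (nat_lit 5) (nat_lit 19) (nat_lit 4) (nat_lit 475) (nat_lit 398) (nat_lit 327)) (XT.lf (nat_lit 0) (nat_lit 166645239801) (nat_lit 76) (nat_lit 13517974985) (nat_lit 76) (nat_lit 4047376601) (nat_lit 18) (nat_lit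 4) (nat_lit 19) (nat_lit 5) (nat_lit 19) (nat_lit 4) (nat_lit 476) (nat_lit 398) (nat_lit 326))) (XT.nd (nat_lit 78) (nat_lit 76) (nat_lit 0) (XT.lf (nat_lit 0) (nat_lit 51371340864) (nat_lit 152) (nat_lit 102413993482) (nat_lit 0) (nat_lit 42349092782) (nat_lit 16) (nat_lit 5) (nat_lit 18) (nat_lit 4) (nat_lit 16) (nat_lit 4) (nat_lit 477) (nat_lit 398) (nat_lit 325)) (XT.lf (nat_lit 0) (nat_lit 5345008683) (nat_lit 76) (nat_lit 106329446195) (nat_lit 76) (nat_lit 97304762396) (nat_lit 15) (nat_lit 4) (nat_lit 16) (nat_lit 5) (nat_lit 16) (nat_lit 4) (nat_lit 478) (nat_lit 398) (nat_lit 324))))) (XT.nd (nat_lit 312) (nat_lit 152) (nat_lit 0) (XT.nd (nat_lit 156) (nat_lit 76) (nat_lit 0) (XT.nd (nat_lit 78) (nat_lit 152) (nat_lit 0) (XT.lf (nat_lit 0) (nat_lit 125320368446) (nat_lit 76) (nat_lit 53235235997) (nat_lit 76) (nat_lit 44208296904) (nat_lit 15) (nat_lit 4) (nat_lit 16) (nat_lit 5)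 (nat_lit 16) (nat_lit 4) (nat_lit 479) (nat_lit 398) (nat_lit 323)) (XT.lf (nat_lit 0) (nat_lit 13032401206) (nat_lit 152) (nat_lit 220159529724) (nat_lit 0) (nat_lit 4433327561) (nat_lit 13) (nat_lit 5) (nat_lit 15) (nat_lit 4) (nat_lit 13) (nat_lit 4) (nat_lit 480) (nat_lit 398) (nat_lit 322))) (XT.nd (nat_lit 78) (nat_lit 76) (nat_lit 0) (XT.lf (nat_lit 0) (nat_lit 75919470386) (nat_lit 152) (nat_lit 110270464346) (nat_lit 0) (nat_lit 67318555265) (nat_lit 13) (nat_lit 5) (nat_lit 15) (nat_lit 4) (nat_lit 13) (nat_lit 4) (nat_lit 481) (nat_lit 398) (nat_lit 321)) (XT.lf (nat_lit 0) (nat_lit 8633920680) (nat_lit 76) (nat_lit 135312809165) (nat_lit 76) (nat_lit 126710188973) (nat_lit 12) (nat_lit 4) (nat_lit 13) (nat_lit 5) (nat_lit 13) (nat_lit 4) (nat_lit 482) (nat_lit 398) (nat_lit 320)))) (XT.nd (nat_lit 156) (nat_lit 152) (nat_lit 0) (XT.nd (nat_lit 78) (nat_lit 0) (nat_lit 0) (XT.lf (nat_lit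 0) (nat_lit 140938500415) (nat_lit 76) (nat_lit 78374050731) (nat_lit 76) (nat_lit 69769851769) (nat_lit 12) (nat_lit 4) (nat_lit 13) (nat_lit 5) (nat_lit 13) (nat_lit 4) (nat_lit 483) (nat_lit 398) (nat_lit 319)) (XT.lf (nat_lit 0) (nat_lit 283781262449) (nat_lit 76) (nat_lit 16903728237) (nat_lit 76) (nat_lit 8298067451) (nat_lit 12) (nat_lit 4) (nat_lit 13) (nat_lit 5) (nat_lit 13) (nat_lit 4) (nat_lit 484) (nat_lit 398) (nat_lit 318))) (XT.nd (nat_lit 78) (nat_lit 0) (nat_lit 0) (XT.lf (nat_lit 0) (nat_lit 58745921063) (nat_lit 152) (nat_lit 221010044102) (nat_lit 0) (nat_lit 50548764562) (nat_lit 10) (nat_lit 5) (nat_lit 12) (nat_lit 4) (nat_lit 10) (nat_lit 4) (nat_lit 485) (nat_lit 398) (nat_lit 317)) (XT.lf (nat_lit 0) (nat_lit 131577099999) (nat_lit 152) (nat_lit 98333763711) (nat_lit 0) (nat_lit 123378749900) (nat_lit 10) (nat_lit 5) (nat_lit 12) (nat_lit 4) (nat_lit 10) (nat_lit 4)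 (nat_lit 486) (nat_lit 398) (nat_lit 316)))))) (XT.nd (nat_lit 624) (nat_lit 152) (nat_lit 0) (XT.nd (nat_lit 312) (nat_lit 76) (nat_lit 0) (XT.nd (nat_lit 156) (nat_lit 152) (nat_lit 0) (XT.nd (nat_lit 78) (nat_lit 0) (nat_lit 0) (XT.lf (nat_lit 0) (nat_lit 35245561028) (nat_lit 76) (nat_lit 175520313701) (nat_lit 76) (nat_lit 167320858419) (nat_lit 9) (nat_lit 4) (nat_lit 10) (nat_lit 5) (nat_lit 10) (nat_lit 4) (nat_lit 487) (nat_lit 398) (nat_lit 315)) (XT.lf (nat_lit 0) (nat_lit 182985263390) (nat_lit 76) (nat_lit 114999054575) (nat_lit 76) (nat_lit 106798575974) (nat_lit 9) (nat_lit 4) (nat_lit 10) (nat_lit 5) (nat_lit 10) (nat_lit 4) (nat_lit 488) (nat_lit 398) (nat_lit 314))) (XT.nd (nat_lit 78) (nat_lit 152) (nat_lit 0) (XT.lf (nat_lit 0) (nat_lit 342509479590) (nat_lit 76) (nat_lit 49653771702) (nat_lit 76) (nat_lit 41452345585) (nat_lit 9) (nat_lit 4) (nat_lit 10) (nat_lit 5) (nat_lit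 10) (nat_lit 4) (nat_lit 489) (nat_lit 398) (nat_lit 313)) (XT.lf (nat_lit 0) (nat_lit 29319677023) (nat_lit 152) (nat_lit 413848037796) (nat_lit 0) (nat_lit 21507959454) (nat_lit 7) (nat_lit 5) (nat_lit 9) (nat_lit 4) (nat_lit 7) (nat_lit 4) (nat_lit 490) (nat_lit 398) (nat_lit 312)))) (XT.nd (nat_lit 156) (nat_lit 76) (nat_lit 0) (XT.nd (nat_lit 78) (nat_lit 0) (nat_lit 0) (XT.lf (nat_lit 0) (nat_lit 106755331752) (nat_lit 152) (nat_lit 292365700337) (nat_lit 0) (nat_lit 98942840523) (nat_lit 7) (nat_lit 5) (nat_lit 9) (nat_lit 4) (nat_lit 7) (nat_lit 4) (nat_lit 491) (nat_lit 398) (nat_lit 311)) (XT.lf (nat_lit 0) (nat_lit 190371453050) (nat_lit 152) (nat_lit 161194147600) (nat_lit 0) (nat_lit 182558245470) (nat_lit 7) (nat_lit 5) (nat_lit 9) (nat_lit 4) (nat_lit 7) (nat_lit 4) (nat_lit 492) (nat_lit 398) (nat_lit 310))) (XT.nd (nat_lit 78) (nat_lit 76) (nat_lit 0) (XT.lf (nat_lit 0) (nat_lit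 280663543859) (nat_lit 152) (nat_lit 19556066680) (nat_lit 0) (nat_lit 272849672990) (nat_lit 7) (nat_lit 5) (nat_lit 9) (nat_lit 4) (nat_lit 7) (nat_lit 4) (nat_lit 493) (nat_lit 398) (nat_lit 309)) (XT.lf (nat_lit 0) (nat_lit 137798284880) (nat_lit 76) (nat_lit 242519800946) (nat_lit 76) (nat_lit 234705315921) (nat_lit 6) (nat_lit 4) (nat_lit 7) (nat_lit 5) (nat_lit 7) (nat_lit 4) (nat_lit 494) (nat_lit 398) (nat_lit 308))))) (XT.nd (nat_lit 312) (nat_lit 0) (nat_lit 0) (XT.nd (nat_lit 156) (nat_lit 152) (nat_lit 0) (XT.nd (nat_lit 78) (nat_lit 0) (nat_lit 0) (XT.lf (nat_lit 0) (nat_lit 308415238243) (nat_lit 76) (nat_lit 179858610987) (nat_lit 76) (nat_lit 172043557299) (nat_lit 6) (nat_lit 4) (nat_lit 7) (nat_lit 5) (nat_lit 7) (nat_lit 4) (nat_lit 495) (nat_lit 398) (nat_lit 307)) (XT.lf (nat_lit 0) (nat_lit 492659244951) (nat_lit 76) (nat_lit 112195906544) (nat_lit 76) (nat_lit 104380326316)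 (nat_lit 6) (nat_lit 4) (nat_lit 7) (nat_lit 5) (nat_lit 7) (nat_lit 4) (nat_lit 496) (nat_lit 398) (nat_lit 306))) (XT.nd (nat_lit 78) (nat_lit 152) (nat_lit 0) (XT.lf (nat_lit 0) (nat_lit 691622121342) (nat_lit 76) (nat_lit 39130723443) (nat_lit 76) (nat_lit 31314655678) (nat_lit 6) (nat_lit 4) (nat_lit 7) (nat_lit 5) (nat_lit 7) (nat_lit 4) (nat_lit 497) (nat_lit 398) (nat_lit 305)) (XT.lf (nat_lit 0) (nat_lit 48116364452) (nat_lit 152) (nat_lit 730198330777) (nat_lit 0) (nat_lit 40672060463) (nat_lit 4) (nat_lit 5) (nat_lit 6) (nat_lit 4) (nat_lit 4) (nat_lit 4) (nat_lit 498) (nat_lit 398) (nat_lit 304)))) (XT.nd (nat_lit 156) (nat_lit 0) (nat_lit 0) (XT.nd (nat_lit 78) (nat_lit 0) (nat_lit 0) (XT.lf (nat_lit 0) (nat_lit 134717214675) (nat_lit 152) (nat_lit 618348533240) (nat_lit 0) (nat_lit 127272512606) (nat_lit 4) (nat_lit 5) (nat_lit 6) (nat_lit 4) (nat_lit 4) (nat_lit 4) (nat_lit 499)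 (nat_lit 398) (nat_lit 303)) (XT.lf (nat_lit 0) (nat_lit 228237567224) (nat_lit 152) (nat_lit 497568250242) (nat_lit 0) (nat_lit 220792496562) (nat_lit 4) (nat_lit 5) (nat_lit 6) (nat_lit 4) (nat_lit 4) (nat_lit 4) (nat_lit 500) (nat_lit 398) (nat_lit 302))) (XT.nd (nat_lit 78) (nat_lit 0) (nat_lit 0) (XT.lf (nat_lit 0) (nat_lit 329231616780) (nat_lit 152) (nat_lit 367141746773) (nat_lit 0) (nat_lit 321786204829) (nat_lit 4) (nat_lit 5) (nat_lit 6) (nat_lit 4) (nat_lit 4) (nat_lit 4) (nat_lit 501) (nat_lit 398) (nat_lit 301)) (XT.lf (nat_lit 0) (nat_lit 438297846600) (nat_lit 152) (nat_lit 226296125035) (nat_lit 0) (nat_lit 430852118639) (nat_lit 4) (nat_lit 5) (nat_lit 6) (nat_lit 4) (nat_lit 4) (nat_lit 4) (nat_lit 502) (nat_lit 398) (nat_lit 300))))))) (XT.nd (nat_lit 55536) (nat_lit 0) (nat_lit 6308) (XT.nd (nat_lit 54912) (nat_lit 0) (nat_lit 11096) (XT.nd (nat_lit 54600) (nat_lit 0) (nat_lit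 15656) (XT.nd (nat_lit 156) (nat_lit 0) (nat_lit 0) (XT.nd (nat_lit 78) (nat_lit 76) (nat_lit 0) (XT.lf (nat_lit 0) (nat_lit 556082575082) (nat_lit 152) (nat_lit 74196744306) (nat_lit 0) (nat_lit 548636554520) (nat_lit 4) (nat_lit 5) (nat_lit 6) (nat_lit 4) (nat_lit 4) (nat_lit 4) (nat_lit 503) (nat_lit 398) (nat_lit 299)) (XT.lf (nat_lit 0) (nat_lit 93035440179) (nat_lit 76) (nat_lit 591700889576) (nat_lit 76) (nat_lit 584254598087) (nat_lit 3) (nat_lit 4) (nat_lit 4) (nat_lit 5) (nat_lit 4) (nat_lit 4) (nat_lit 504) (nat_lit 398) (nat_lit 298))) (XT.nd (nat_lit 78) (nat_lit 0) (nat_lit 0) (XT.lf (nat_lit 0) (nat_lit 276283438384) (nat_lit 76) (nat_lit 548685384087) (nat_lit 76) (nat_lit 541238841741) (nat_lit 3) (nat_lit 4) (nat_lit 4) (nat_lit 5) (nat_lit 4) (nat_lit 4) (nat_lit 505) (nat_lit 398) (nat_lit 297)) (XT.lf (nat_lit 0) (nat_lit 474179884920) (nat_lit 76) (nat_lit 502234453990)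 (nat_lit 76) (nat_lit 494787679368) (nat_lit 3) (nat_lit 4) (nat_lit 4) (nat_lit 5) (nat_lit 4) (nat_lit 4) (nat_lit 506) (nat_lit 398) (nat_lit 296)))) (XT.nd (nat_lit 156) (nat_lit 684) (nat_lit 0) (XT.nd (nat_lit 78) (nat_lit 228) (nat_lit 0) (XT.lf (nat_lit 0) (nat_lit 2149656547) (nat_lit 76) (nat_lit 542634194) (nat_lit 76) (nat_lit 542634194) (nat_lit 221) (nat_lit 4) (nat_lit 222) (nat_lit 5) (nat_lit 222) (nat_lit 4) (nat_lit 402) (nat_lit 399) (nat_lit 399)) (XT.lf (nat_lit 0) (nat_lit 3618653396) (nat_lit 152) (nat_lit 295535851) (nat_lit 228) (nat_lit 2593830328) (nat_lit 218) (nat_lit 5) (nat_lit 220) (nat_lit 5) (nat_lit 221) (nat_lit 4) (nat_lit 403) (nat_lit 399) (nat_lit 398))) (XT.nd (nat_lit 78) (nat_lit 380) (nat_lit 0) (XT.lf (nat_lit 0) (nat_lit 2261072660) (nat_lit 304) (nat_lit 3445315938) (nat_lit 76) (nat_lit 858840794) (nat_lit 214) (nat_lit 5) (nat_lit 218) (nat_lit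 5) (nat_lit 215) (nat_lit 4) (nat_lit 404) (nat_lit 399) (nat_lit 397)) (XT.lf (nat_lit 0) (nat_lit 412049278) (nat_lit 380) (nat_lit 3837287456) (nat_lit 76) (nat_lit 2392557676) (nat_lit 209) (nat_lit 5) (nat_lit 214) (nat_lit 5) (nat_lit 210) (nat_lit 5) (nat_lit 405) (nat_lit 399) (nat_lit 396))))) (XT.nd (nat_lit 312) (nat_lit 2432) (nat_lit 0) (XT.nd (nat_lit 156) (nat_lit 1216) (nat_lit 0) (XT.nd (nat_lit 78) (nat_lit 532) (nat_lit 0) (XT.lf (nat_lit 0) (nat_lit 2649306141) (nat_lit 380) (nat_lit 2384430293) (nat_lit 456) (nat_lit 1703529552) (nat_lit 204) (nat_lit 5) (nat_lit 209) (nat_lit 5) (nat_lit 210) (nat_lit 5) (nat_lit 406) (nat_lit 399) (nat_lit 395)) (XT.lf (nat_lit 0) (nat_lit 2672213950) (nat_lit 456) (nat_lit 115188486) (nat_lit 532) (nat_lit 4065200681) (nat_lit 197) (nat_lit 5) (nat_lit 203) (nat_lit 5) (nat_lit 204) (nat_lit 5) (nat_lit 407) (nat_lit 399) (nat_lit 394)))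 (XT.nd (nat_lit 78) (nat_lit 608) (nat_lit 0) (XT.lf (nat_lit 0) (nat_lit 354495048) (nat_lit 608) (nat_lit 4146298467) (nat_lit 76) (nat_lit 2485965858) (nat_lit 189) (nat_lit 5) (nat_lit 197) (nat_lit 5) (nat_lit 190) (nat_lit 5) (nat_lit 408) (nat_lit 399) (nat_lit 393)) (XT.lf (nat_lit 0) (nat_lit 3151673892) (nat_lit 608) (nat_lit 1599341985) (nat_lit 684) (nat_lit 2389052712) (nat_lit 181) (nat_lit 5) (nat_lit 189) (nat_lit 5) (nat_lit 190) (nat_lit 5) (nat_lit 409) (nat_lit 399) (nat_lit 392)))) (XT.nd (nat_lit 156) (nat_lit 912) (nat_lit 0) (XT.nd (nat_lit 78) (nat_lit 760) (nat_lit 0) (XT.lf (nat_lit 0) (nat_lit 1935697571) (nat_lit 760) (nat_lit 3700347715) (nat_lit 76) (nat_lit 1677302290) (nat_lit 171) (nat_lit 5) (nat_lit 181) (nat_lit 5) (nat_lit 172) (nat_lit 5) (nat_lit 410) (nat_lit 399) (nat_lit 391)) (XT.lf (nat_lit 0) (nat_lit 4212461441) (nat_lit 760) (nat_lit 2150795259)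 (nat_lit 836) (nat_lit 1143277103) (nat_lit 161) (nat_lit 5) (nat_lit 171) (nat_lit 5) (nat_lit 172) (nat_lit 5) (nat_lit 411) (nat_lit 399) (nat_lit 390))) (XT.nd (nat_lit 78) (nat_lit 380) (nat_lit 0) (XT.lf (nat_lit 0) (nat_lit 3181600256) (nat_lit 532) (nat_lit 2784534547) (nat_lit 76) (nat_lit 1753312237) (nat_lit 154) (nat_lit 5) (nat_lit 161) (nat_lit 5) (nat_lit 155) (nat_lit 5) (nat_lit 412) (nat_lit 399) (nat_lit 389)) (XT.lf (nat_lit 0) (nat_lit 5803852111) (nat_lit 380) (nat_lit 1902519811) (nat_lit 456) (nat_lit 247410554) (nat_lit 149) (nat_lit 5) (nat_lit 154) (nat_lit 5) (nat_lit 155) (nat_lit 5) (nat_lit 413) (nat_lit 399) (nat_lit 388)))))) (XT.nd (nat_lit 624) (nat_lit 1824) (nat_lit 0) (XT.nd (nat_lit 312) (nat_lit 1140) (nat_lit 0) (XT.nd (nat_lit 156) (nat_lit 988) (nat_lit 0) (XT.nd (nat_lit 78) (nat_lit 380) (nat_lit 0) (XT.lf (nat_lit 0) (nat_lit 4163971111) (nat_lit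 456) (nat_lit 1442804334) (nat_lit 76) (nat_lit 2600781645) (nat_lit 143) (nat_lit 5) (nat_lit 149) (nat_lit 5) (nat_lit 144) (nat_lit 5) (nat_lit 414) (nat_lit 399) (nat_lit 387)) (XT.lf (nat_lit 0) (nat_lit 352420918) (nat_lit 380) (nat_lit 598418569) (nat_lit 76) (nat_lit 7533854134) (nat_lit 138) (nat_lit 5) (nat_lit 143) (nat_lit 5) (nat_lit 139) (nat_lit 5) (nat_lit 415) (nat_lit 399) (nat_lit 386))) (XT.nd (nat_lit 78) (nat_lit 380) (nat_lit 0) (XT.lf (nat_lit 0) (nat_lit 304937584) (nat_lit 304) (nat_lit 4641950446) (nat_lit 380) (nat_lit 3834393695) (nat_lit 130) (nat_lit 5) (nat_lit 134) (nat_lit 5) (nat_lit 135) (nat_lit 5) (nat_lit 416) (nat_lit 399) (nat_lit 385)) (XT.lf (nat_lit 0) (nat_lit 752253087) (nat_lit 380) (nat_lit 7726323622) (nat_lit 76) (nat_lit 623866486) (nat_lit 125) (nat_lit 5) (nat_lit 130) (nat_lit 5) (nat_lit 126) (nat_lit 5) (nat_lit 417) (nat_lit 399) (nat_lit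 384)))) (XT.nd (nat_lit 156) (nat_lit 532) (nat_lit 0) (XT.nd (nat_lit 78) (nat_lit 380) (nat_lit 0) (XT.lf (nat_lit 0) (nat_lit 2491438990) (nat_lit 228) (nat_lit 3112619009) (nat_lit 304) (nat_lit 3840482624) (nat_lit 122) (nat_lit 5) (nat_lit 125) (nat_lit 5) (nat_lit 126) (nat_lit 5) (nat_lit 418) (nat_lit 399) (nat_lit 383)) (XT.lf (nat_lit 0) (nat_lit 1009486676) (nat_lit 380) (nat_lit 6074834533) (nat_lit 76) (nat_lit 2728270539) (nat_lit 117) (nat_lit 5) (nat_lit 122) (nat_lit 5) (nat_lit 118) (nat_lit 5) (nat_lit 419) (nat_lit 399) (nat_lit 382))) (XT.nd (nat_lit 78) (nat_lit 304) (nat_lit 0) (XT.lf (nat_lit 0) (nat_lit 5060996884) (nat_lit 228) (nat_lit 1091708869) (nat_lit 304) (nat_lit 4052254690) (nat_lit 114) (nat_lit 5) (nat_lit 117) (nat_lit 5) (nat_lit 118) (nat_lit 5) (nat_lit 420) (nat_lit 399) (nat_lit 381)) (XT.lf (nat_lit 0) (nat_lit 1131948253) (nat_lit 304) (nat_lit 4144506658)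 (nat_lit 76) (nat_lit 5347041495) (nat_lit 110) (nat_lit 5) (nat_lit 114) (nat_lit 5) (nat_lit 111) (nat_lit 5) (nat_lit 421) (nat_lit 399) (nat_lit 380))))) (XT.nd (nat_lit 312) (nat_lit 760) (nat_lit 0) (XT.nd (nat_lit 156) (nat_lit 608) (nat_lit 0) (XT.nd (nat_lit 78) (nat_lit 304) (nat_lit 0) (XT.lf (nat_lit 0) (nat_lit 6648002403) (nat_lit 228) (nat_lit 3077877281) (nat_lit 76) (nat_lit 1343369217) (nat_lit 108) (nat_lit 5) (nat_lit 111) (nat_lit 5) (nat_lit 109) (nat_lit 5) (nat_lit 422) (nat_lit 399) (nat_lit 379)) (XT.lf (nat_lit 0) (nat_lit 1145207510) (nat_lit 304) (nat_lit 1939673918) (nat_lit 76) (nat_lit 8458750982) (nat_lit 104) (nat_lit 5) (nat_lit 108) (nat_lit 5) (nat_lit 105) (nat_lit 5) (nat_lit 423) (nat_lit 399) (nat_lit 378))) (XT.nd (nat_lit 78) (nat_lit 456) (nat_lit 0) (XT.lf (nat_lit 0) (nat_lit 7119637706) (nat_lit 228) (nat_lit 758876492) (nat_lit 76) (nat_lit 4167958234)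 (nat_lit 102) (nat_lit 5) (nat_lit 105) (nat_lit 5) (nat_lit 103) (nat_lit 5) (nat_lit 424) (nat_lit 399) (nat_lit 377)) (XT.lf (nat_lit 0) (nat_lit 557762663) (nat_lit 152) (nat_lit 519582686) (nat_lit 228) (nat_lit 11505118759) (nat_lit 96) (nat_lit 5) (nat_lit 98) (nat_lit 5) (nat_lit 99) (nat_lit 5) (nat_lit 425) (nat_lit 399) (nat_lit 376)))) (XT.nd (nat_lit 156) (nat_lit 380) (nat_lit 0) (XT.nd (nat_lit 78) (nat_lit 228) (nat_lit 0) (XT.lf (nat_lit 0) (nat_lit 1892764493) (nat_lit 152) (nat_lit 5709249350) (nat_lit 228) (nat_lit 5544650896) (nat_lit 94) (nat_lit 5) (nat_lit 96) (nat_lit 5) (nat_lit 97) (nat_lit 5) (nat_lit 426) (nat_lit 399) (nat_lit 375)) (XT.lf (nat_lit 0) (nat_lit 1007023585) (nat_lit 228) (nat_lit 10381753523) (nat_lit 76) (nat_lit 2359386063) (nat_lit 91) (nat_lit 5) (nat_lit 94) (nat_lit 5) (nat_lit 92) (nat_lit 5) (nat_lit 427) (nat_lit 399) (nat_lit 374))) (XT.nd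 (nat_lit 78) (nat_lit 228) (nat_lit 0) (XT.lf (nat_lit 0) (nat_lit 4854592495) (nat_lit 152) (nat_lit 3244564279) (nat_lit 228) (nat_lit 6283555957) (nat_lit 89) (nat_lit 5) (nat_lit 91) (nat_lit 5) (nat_lit 92) (nat_lit 5) (nat_lit 428) (nat_lit 399) (nat_lit 373)) (XT.lf (nat_lit 0) (nat_lit 886376390) (nat_lit 228) (nat_lit 8604682743) (nat_lit 76) (nat_lit 5565540208) (nat_lit 86) (nat_lit 5) (nat_lit 89) (nat_lit 5) (nat_lit 87) (nat_lit 5) (nat_lit 429) (nat_lit 399) (nat_lit 372))))))))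
noncomputable def xc44 : XT := (XT.nd (nat_lit 2418) (nat_lit 2204) (nat_lit 0) (XT.nd (nat_lit 1170) (nat_lit 1672) (nat_lit 0) (XT.nd (nat_lit 546) (nat_lit 1064) (nat_lit 0) (XT.nd (nat_lit 234) (nat_lit 608) (nat_lit 0) (XT.nd (nat_lit 78) (nat_lit 304) (nat_lit 0) (XT.lf (nat_lit 0) (nat_lit 8105323293) (nat_lit 152) (nat_lit 505341285) (nat_lit 228) (nat_lit 7158540739) (nat_lit 84) (nat_lit 5) (nat_lit 86) (nat_lit 5) (nat_lit 87) (nat_lit 5) (nat_lit 430) (nat_lit 399) (nat_lit 371)) (XT.nd (nat_lit 78) (nat_lit 152) (nat_lit 0) (XT.lf (nat_lit 0) (nat_lit 708961499) (nat_lit 152) (nat_lit 6697472529) (nat_lit 76) (nat_lit 9116659295) (nat_lit 82) (nat_lit 5) (nat_lit 84) (nat_lit 5) (nat_lit 83) (nat_lit 5) (nat_lit 431) (nat_lit 399) (nat_lit 370)) (XT.lf (nat_lit 0) (nat_lit 9181827545) (nat_lit 228) (nat_lit 5715109412) (nat_lit 76) (nat_lit 2423152997) (nat_lit 80) (nat_lit 5) (nat_lit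 83) (nat_lit 5) (nat_lit 81) (nat_lit 4) (nat_lit 432) (nat_lit 399) (nat_lit 369)))) (XT.nd (nat_lit 156) (nat_lit 304) (nat_lit 0) (XT.nd (nat_lit 78) (nat_lit 152) (nat_lit 0) (XT.lf (nat_lit 0) (nat_lit 469518558) (nat_lit 152) (nat_lit 4678428564) (nat_lit 76) (nat_lit 13016648996) (nat_lit 78) (nat_lit 5) (nat_lit 80) (nat_lit 5) (nat_lit 79) (nat_lit 5) (nat_lit 433) (nat_lit 399) (nat_lit 368)) (XT.lf (nat_lit 0) (nat_lit 9785195833) (nat_lit 228) (nat_lit 3677607815) (nat_lit 76) (nat_lit 5591971286) (nat_lit 76) (nat_lit 5) (nat_lit 79) (nat_lit 5) (nat_lit 77) (nat_lit 4) (nat_lit 434) (nat_lit 399) (nat_lit 367))) (XT.nd (nat_lit 78) (nat_lit 152) (nat_lit 0) (XT.lf (nat_lit 0) (nat_lit 154509363) (nat_lit 152) (nat_lit 2575799059) (nat_lit 76) (nat_lit 17270039464) (nat_lit 74) (nat_lit 5) (nat_lit 76) (nat_lit 5) (nat_lit 75) (nat_lit 5) (nat_lit 435) (nat_lit 399) (nat_lit 366))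 (XT.lf (nat_lit 0) (nat_lit 10404278543) (nat_lit 228) (nat_lit 1578515499) (nat_lit 76) (nat_lit 9011351187) (nat_lit 72) (nat_lit 5) (nat_lit 75) (nat_lit 5) (nat_lit 73) (nat_lit 4) (nat_lit 436) (nat_lit 399) (nat_lit 365))))) (XT.nd (nat_lit 312) (nat_lit 456) (nat_lit 0) (XT.nd (nat_lit 156) (nat_lit 228) (nat_lit 0) (XT.nd (nat_lit 78) (nat_lit 304) (nat_lit 0) (XT.lf (nat_lit 0) (nat_lit 21615245960) (nat_lit 76) (nat_lit 168288425) (nat_lit 152) (nat_lit 268438843) (nat_lit 71) (nat_lit 5) (nat_lit 72) (nat_lit 5) (nat_lit 73) (nat_lit 4) (nat_lit 437) (nat_lit 399) (nat_lit 364)) (XT.lf (nat_lit 0) (nat_lit 547016113) (nat_lit 76) (nat_lit 10481636521) (nat_lit 152) (nat_lit 12132377561) (nat_lit 67) (nat_lit 5) (nat_lit 68) (nat_lit 5) (nat_lit 69) (nat_lit 4) (nat_lit 438) (nat_lit 399) (nat_lit 363))) (XT.nd (nat_lit 78) (nat_lit 152) (nat_lit 0) (XT.lf (nat_lit 0) (nat_lit 1689355456)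 (nat_lit 76) (nat_lit 21883374927) (nat_lit 76) (nat_lit 768231854) (nat_lit 66) (nat_lit 4) (nat_lit 67) (nat_lit 5) (nat_lit 67) (nat_lit 4) (nat_lit 439) (nat_lit 399) (nat_lit 362)) (XT.lf (nat_lit 0) (nat_lit 2654143109) (nat_lit 76) (nat_lit 8987595165) (nat_lit 152) (nat_lit 13939324495) (nat_lit 64) (nat_lit 5) (nat_lit 65) (nat_lit 5) (nat_lit 66) (nat_lit 4) (nat_lit 440) (nat_lit 399) (nat_lit 361)))) (XT.nd (nat_lit 156) (nat_lit 228) (nat_lit 0) (XT.nd (nat_lit 78) (nat_lit 152) (nat_lit 0) (XT.lf (nat_lit 0) (nat_lit 3703196080) (nat_lit 76) (nat_lit 21740741484) (nat_lit 76) (nat_lit 1454488165) (nat_lit 63) (nat_lit 4) (nat_lit 64) (nat_lit 5) (nat_lit 64) (nat_lit 4) (nat_lit 441) (nat_lit 399) (nat_lit 360)) (XT.lf (nat_lit 0) (nat_lit 4576066245) (nat_lit 76) (nat_lit 7590241672) (nat_lit 152) (nat_lit 16119371618) (nat_lit 61) (nat_lit 5) (nat_lit 62) (nat_lit 5) (nat_lit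 63) (nat_lit 4) (nat_lit 442) (nat_lit 399) (nat_lit 359))) (XT.nd (nat_lit 78) (nat_lit 152) (nat_lit 0) (XT.lf (nat_lit 0) (nat_lit 5456655451) (nat_lit 76) (nat_lit 21882417963) (nat_lit 76) (nat_lit 2417985992) (nat_lit 60) (nat_lit 4) (nat_lit 61) (nat_lit 5) (nat_lit 61) (nat_lit 4) (nat_lit 443) (nat_lit 399) (nat_lit 358)) (XT.lf (nat_lit 0) (nat_lit 6151229419) (nat_lit 76) (nat_lit 6375526117) (nat_lit 152) (nat_lit 18782557871) (nat_lit 58) (nat_lit 5) (nat_lit 59) (nat_lit 5) (nat_lit 60) (nat_lit 4) (nat_lit 444) (nat_lit 399) (nat_lit 357)))))) (XT.nd (nat_lit 624) (nat_lit 760) (nat_lit 0) (XT.nd (nat_lit 312) (nat_lit 456) (nat_lit 0) (XT.nd (nat_lit 156) (nat_lit 228) (nat_lit 0) (XT.nd (nat_lit 78) (nat_lit 152) (nat_lit 0) (XT.lf (nat_lit 0) (nat_lit 6758949871) (nat_lit 76) (nat_lit 22425012353) (nat_lit 76) (nat_lit 3769724480) (nat_lit 57) (nat_lit 4) (nat_lit 58) (nat_lit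 5) (nat_lit 58) (nat_lit 4) (nat_lit 445) (nat_lit 399) (nat_lit 356)) (XT.lf (nat_lit 0) (nat_lit 7155302832) (nat_lit 76) (nat_lit 5460795027) (nat_lit 152) (nat_lit 22075285830) (nat_lit 55) (nat_lit 5) (nat_lit 56) (nat_lit 5) (nat_lit 57) (nat_lit 4) (nat_lit 446) (nat_lit 399) (nat_lit 355))) (XT.nd (nat_lit 78) (nat_lit 152) (nat_lit 0) (XT.lf (nat_lit 0) (nat_lit 7346883019) (nat_lit 76) (nat_lit 23523359822) (nat_lit 76) (nat_lit 5660287944) (nat_lit 54) (nat_lit 4) (nat_lit 55) (nat_lit 5) (nat_lit 55) (nat_lit 4) (nat_lit 447) (nat_lit 399) (nat_lit 354)) (XT.lf (nat_lit 0) (nat_lit 7280611949) (nat_lit 76) (nat_lit 5005474492) (nat_lit 152) (nat_lit 26191081935) (nat_lit 52) (nat_lit 5) (nat_lit 53) (nat_lit 5) (nat_lit 54) (nat_lit 4) (nat_lit 448) (nat_lit 399) (nat_lit 353)))) (XT.nd (nat_lit 156) (nat_lit 228) (nat_lit 0) (XT.nd (nat_lit 78) (nat_lit 152) (nat_lit 0) (XT.lf (nat_lit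 0) (nat_lit 6861398346) (nat_lit 76) (nat_lit 25382860744) (nat_lit 76) (nat_lit 8291919072) (nat_lit 51) (nat_lit 4) (nat_lit 52) (nat_lit 5) (nat_lit 52) (nat_lit 4) (nat_lit 449) (nat_lit 399) (nat_lit 352)) (XT.lf (nat_lit 0) (nat_lit 6109415531) (nat_lit 76) (nat_lit 5224876449) (nat_lit 152) (nat_lit 31384577795) (nat_lit 49) (nat_lit 5) (nat_lit 50) (nat_lit 5) (nat_lit 51) (nat_lit 4) (nat_lit 450) (nat_lit 399) (nat_lit 351))) (XT.nd (nat_lit 78) (nat_lit 152) (nat_lit 0) (XT.lf (nat_lit 0) (nat_lit 4817133174) (nat_lit 76) (nat_lit 28275401264) (nat_lit 76) (nat_lit 11934223989) (nat_lit 48) (nat_lit 4) (nat_lit 49) (nat_lit 5) (nat_lit 49) (nat_lit 4) (nat_lit 451) (nat_lit 399) (nat_lit 350)) (XT.lf (nat_lit 0) (nat_lit 3079225046) (nat_lit 76) (nat_lit 6408059050) (nat_lit 152) (nat_lit 37989637854) (nat_lit 46) (nat_lit 5) (nat_lit 47) (nat_lit 5) (nat_lit 48) (nat_lit 4) (nat_lit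 452) (nat_lit 399) (nat_lit 349))))) (XT.nd (nat_lit 312) (nat_lit 380) (nat_lit 0) (XT.nd (nat_lit 156) (nat_lit 228) (nat_lit 0) (XT.nd (nat_lit 78) (nat_lit 76) (nat_lit 0) (XT.lf (nat_lit 0) (nat_lit 562923156) (nat_lit 76) (nat_lit 32559913939) (nat_lit 76) (nat_lit 16944557661) (nat_lit 45) (nat_lit 4) (nat_lit 46) (nat_lit 5) (nat_lit 46) (nat_lit 4) (nat_lit 453) (nat_lit 399) (nat_lit 348)) (XT.lf (nat_lit 0) (nat_lit 6418777645) (nat_lit 152) (nat_lit 2480157287) (nat_lit 76) (nat_lit 43920666655) (nat_lit 44) (nat_lit 5) (nat_lit 46) (nat_lit 5) (nat_lit 45) (nat_lit 4) (nat_lit 454) (nat_lit 399) (nat_lit 347))) (XT.nd (nat_lit 78) (nat_lit 152) (nat_lit 0) (XT.lf (nat_lit 0) (nat_lit 32045242350) (nat_lit 152) (nat_lit 6552722023) (nat_lit 0) (nat_lit 17130746086) (nat_lit 43) (nat_lit 5) (nat_lit 45) (nat_lit 4) (nat_lit 43) (nat_lit 4) (nat_lit 455) (nat_lit 399) (nat_lit 346))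 (XT.lf (nat_lit 0) (nat_lit 1705732738) (nat_lit 152) (nat_lit 11436764975) (nat_lit 76) (nat_lit 45683300955) (nat_lit 41) (nat_lit 5) (nat_lit 43) (nat_lit 5) (nat_lit 42) (nat_lit 4) (nat_lit 456) (nat_lit 399) (nat_lit 345)))) (XT.nd (nat_lit 156) (nat_lit 228) (nat_lit 0) (XT.nd (nat_lit 78) (nat_lit 76) (nat_lit 0) (XT.lf (nat_lit 0) (nat_lit 29297916785) (nat_lit 152) (nat_lit 17744498380) (nat_lit 0) (nat_lit 15058746344) (nat_lit 40) (nat_lit 5) (nat_lit 42) (nat_lit 4) (nat_lit 40) (nat_lit 4) (nat_lit 457) (nat_lit 399) (nat_lit 344)) (XT.lf (nat_lit 0) (nat_lit 40332809740) (nat_lit 76) (nat_lit 19755452870) (nat_lit 76) (nat_lit 5500751676) (nat_lit 39) (nat_lit 4) (nat_lit 40) (nat_lit 5) (nat_lit 40) (nat_lit 4) (nat_lit 458) (nat_lit 399) (nat_lit 343))) (XT.nd (nat_lit 78) (nat_lit 76) (nat_lit 0) (XT.lf (nat_lit 0) (nat_lit 24188039866) (nat_lit 152) (nat_lit 34502202893) (nat_lit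 0) (nat_lit 10598438417) (nat_lit 37) (nat_lit 5) (nat_lit 39) (nat_lit 4) (nat_lit 37) (nat_lit 4) (nat_lit 459) (nat_lit 399) (nat_lit 342)) (XT.lf (nat_lit 0) (nat_lit 27602755113) (nat_lit 76) (nat_lit 29610811328) (nat_lit 76) (nat_lit 16008528814) (nat_lit 36) (nat_lit 4) (nat_lit 37) (nat_lit 5) (nat_lit 37) (nat_lit 4) (nat_lit 460) (nat_lit 399) (nat_lit 341))))))) (XT.nd (nat_lit 1248) (nat_lit 836) (nat_lit 0) (XT.nd (nat_lit 624) (nat_lit 684) (nat_lit 0) (XT.nd (nat_lit 312) (nat_lit 304) (nat_lit 0) (XT.nd (nat_lit 156) (nat_lit 152) (nat_lit 0) (XT.nd (nat_lit 78) (nat_lit 76) (nat_lit 0) (XT.lf (nat_lit 0) (nat_lit 15808600242) (nat_lit 152) (nat_lit 58762144411) (nat_lit 0) (nat_lit 2842862870) (nat_lit 34) (nat_lit 5) (nat_lit 36) (nat_lit 4) (nat_lit 34) (nat_lit 4) (nat_lit 461) (nat_lit 399) (nat_lit 340)) (XT.lf (nat_lit 0) (nat_lit 7124761035) (nat_lit 76) (nat_lit 43855084722)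 (nat_lit 76) (nat_lit 30878993094) (nat_lit 33) (nat_lit 4) (nat_lit 34) (nat_lit 5) (nat_lit 34) (nat_lit 4) (nat_lit 462) (nat_lit 399) (nat_lit 339))) (XT.nd (nat_lit 78) (nat_lit 76) (nat_lit 0) (XT.lf (nat_lit 0) (nat_lit 3217180382) (nat_lit 152) (nat_lit 6390459118) (nat_lit 76) (nat_lit 77000957091) (nat_lit 32) (nat_lit 5) (nat_lit 34) (nat_lit 5) (nat_lit 33) (nat_lit 4) (nat_lit 463) (nat_lit 399) (nat_lit 338)) (XT.lf (nat_lit 0) (nat_lit 40453428996) (nat_lit 152) (nat_lit 23107222539) (nat_lit 0) (nat_lit 28077661369) (nat_lit 31) (nat_lit 5) (nat_lit 33) (nat_lit 4) (nat_lit 31) (nat_lit 4) (nat_lit 464) (nat_lit 399) (nat_lit 337)))) (XT.nd (nat_lit 156) (nat_lit 76) (nat_lit 0) (XT.nd (nat_lit 78) (nat_lit 152) (nat_lit 0) (XT.lf (nat_lit 0) (nat_lit 54077488567) (nat_lit 76) (nat_lit 27661496729) (nat_lit 76) (nat_lit 15277900967) (nat_lit 30) (nat_lit 4) (nat_lit 31) (nat_lit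 5) (nat_lit 31) (nat_lit 4) (nat_lit 465) (nat_lit 399) (nat_lit 336)) (XT.lf (nat_lit 0) (nat_lit 23869856817) (nat_lit 152) (nat_lit 66812468718) (nat_lit 0) (nat_lit 12069052973) (nat_lit 28) (nat_lit 5) (nat_lit 30) (nat_lit 4) (nat_lit 28) (nat_lit 4) (nat_lit 466) (nat_lit 399) (nat_lit 335))) (XT.nd (nat_lit 78) (nat_lit 0) (nat_lit 0) (XT.lf (nat_lit 0) (nat_lit 13350766777) (nat_lit 76) (nat_lit 53659369011) (nat_lit 76) (nat_lit 41852173391) (nat_lit 27) (nat_lit 4) (nat_lit 28) (nat_lit 5) (nat_lit 28) (nat_lit 4) (nat_lit 467) (nat_lit 399) (nat_lit 334)) (XT.lf (nat_lit 0) (nat_lit 102223146058) (nat_lit 76) (nat_lit 12498052111) (nat_lit 76) (nat_lit 684938180) (nat_lit 27) (nat_lit 4) (nat_lit 28) (nat_lit 5) (nat_lit 28) (nat_lit 4) (nat_lit 468) (nat_lit 399) (nat_lit 333))))) (XT.nd (nat_lit 312) (nat_lit 304) (nat_lit 0) (XT.nd (nat_lit 156) (nat_lit 152) (nat_lit 0) (XT.nd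 (nat_lit 78) (nat_lit 76) (nat_lit 0) (XT.lf (nat_lit 0) (nat_lit 44071296096) (nat_lit 152) (nat_lit 45467672441) (nat_lit 0) (nat_lit 32815492430) (nat_lit 25) (nat_lit 5) (nat_lit 27) (nat_lit 4) (nat_lit 25) (nat_lit 4) (nat_lit 469) (nat_lit 399) (nat_lit 332)) (XT.lf (nat_lit 0) (nat_lit 45948138898) (nat_lit 76) (nat_lit 47557259523) (nat_lit 76) (nat_lit 36296623479) (nat_lit 24) (nat_lit 4) (nat_lit 25) (nat_lit 5) (nat_lit 25) (nat_lit 4) (nat_lit 470) (nat_lit 399) (nat_lit 331))) (XT.nd (nat_lit 78) (nat_lit 0) (nat_lit 0) (XT.lf (nat_lit 0) (nat_lit 8534040507) (nat_lit 76) (nat_lit 1124081920) (nat_lit 152) (nat_lit 128135256433) (nat_lit 22) (nat_lit 5) (nat_lit 23) (nat_lit 5) (nat_lit 24) (nat_lit 4) (nat_lit 471) (nat_lit 399) (nat_lit 330)) (XT.lf (nat_lit 0) (nat_lit 60246389942) (nat_lit 152) (nat_lit 36522695624) (nat_lit 0) (nat_lit 49513767604) (nat_lit 22) (nat_lit 5)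 (nat_lit 24) (nat_lit 4) (nat_lit 22) (nat_lit 4) (nat_lit 472) (nat_lit 399) (nat_lit 329)))) (XT.nd (nat_lit 156) (nat_lit 76) (nat_lit 0) (XT.nd (nat_lit 78) (nat_lit 152) (nat_lit 0) (XT.lf (nat_lit 0) (nat_lit 65642957934) (nat_lit 76) (nat_lit 50247190908) (nat_lit 76) (nat_lit 39510915144) (nat_lit 21) (nat_lit 4) (nat_lit 22) (nat_lit 5) (nat_lit 22) (nat_lit 4) (nat_lit 473) (nat_lit 399) (nat_lit 328)) (XT.lf (nat_lit 0) (nat_lit 11211792252) (nat_lit 152) (nat_lit 153004074182) (nat_lit 0) (nat_lit 983545998) (nat_lit 19) (nat_lit 5) (nat_lit 21) (nat_lit 4) (nat_lit 19) (nat_lit 4) (nat_lit 474) (nat_lit 399) (nat_lit 327))) (XT.nd (nat_lit 78) (nat_lit 76) (nat_lit 0) (XT.lf (nat_lit 0) (nat_lit 67029541889) (nat_lit 152) (nat_lit 51800313574) (nat_lit 0) (nat_lit 56798312563) (nat_lit 19) (nat_lit 5) (nat_lit 21) (nat_lit 4) (nat_lit 19) (nat_lit 4) (nat_lit 475) (nat_lit 399) (nat_lit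 326)) (XT.lf (nat_lit 0) (nat_lit 59335870841) (nat_lit 76) (nat_lit 68872286211) (nat_lit 76) (nat_lit 58638294783) (nat_lit 18) (nat_lit 4) (nat_lit 19) (nat_lit 5) (nat_lit 19) (nat_lit 4) (nat_lit 476) (nat_lit 399) (nat_lit 325)))))) (XT.nd (nat_lit 624) (nat_lit 380) (nat_lit 0) (XT.nd (nat_lit 312) (nat_lit 228) (nat_lit 0) (XT.nd (nat_lit 156) (nat_lit 76) (nat_lit 0) (XT.nd (nat_lit 78) (nat_lit 152) (nat_lit 0) (XT.lf (nat_lit 0) (nat_lit 181152464736) (nat_lit 76) (nat_lit 14001323132) (nat_lit 76) (nat_lit 3764774201) (nat_lit 18) (nat_lit 4) (nat_lit 19) (nat_lit 5) (nat_lit 19) (nat_lit 4) (nat_lit 477) (nat_lit 399) (nat_lit 324)) (XT.lf (nat_lit 0) (nat_lit 56051481144) (nat_lit 152) (nat_lit 109445046139) (nat_lit 0) (nat_lit 46300131631) (nat_lit 16) (nat_lit 5) (nat_lit 18) (nat_lit 4) (nat_lit 16) (nat_lit 4) (nat_lit 478) (nat_lit 399) (nat_lit 323))) (XT.nd (nat_lit 78)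 (nat_lit 0) (nat_lit 0) (XT.lf (nat_lit 0) (nat_lit 6884174192) (nat_lit 76) (nat_lit 114269770432) (nat_lit 76) (nat_lit 104516332684) (nat_lit 15) (nat_lit 4) (nat_lit 16) (nat_lit 5) (nat_lit 16) (nat_lit 4) (nat_lit 479) (nat_lit 399) (nat_lit 322)) (XT.lf (nat_lit 0) (nat_lit 136375224601) (nat_lit 76) (nat_lit 56969951674) (nat_lit 76) (nat_lit 47214580376) (nat_lit 15) (nat_lit 4) (nat_lit 16) (nat_lit 5) (nat_lit 16) (nat_lit 4) (nat_lit 480) (nat_lit 399) (nat_lit 321)))) (XT.nd (nat_lit 156) (nat_lit 76) (nat_lit 0) (XT.nd (nat_lit 78) (nat_lit 0) (nat_lit 0) (XT.lf (nat_lit 0) (nat_lit 14573950833) (nat_lit 152) (nat_lit 236754963950) (nat_lit 0) (nat_lit 5281415955) (nat_lit 13) (nat_lit 5) (nat_lit 15) (nat_lit 4) (nat_lit 13) (nat_lit 4) (nat_lit 481) (nat_lit 399) (nat_lit 320)) (XT.lf (nat_lit 0) (nat_lit 82455025731) (nat_lit 152) (nat_lit 118150130983) (nat_lit 0) (nat_lit 73160912083)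 (nat_lit 13) (nat_lit 5) (nat_lit 15) (nat_lit 4) (nat_lit 13) (nat_lit 4) (nat_lit 482) (nat_lit 399) (nat_lit 319))) (XT.nd (nat_lit 78) (nat_lit 0) (nat_lit 0) (XT.lf (nat_lit 0) (nat_lit 10225667955) (nat_lit 76) (nat_lit 145678643599) (nat_lit 76) (nat_lit 136383068127) (nat_lit 12) (nat_lit 4) (nat_lit 13) (nat_lit 5) (nat_lit 13) (nat_lit 4) (nat_lit 483) (nat_lit 399) (nat_lit 318)) (XT.lf (nat_lit 0) (nat_lit 153047870837) (nat_lit 76) (nat_lit 84218798586) (nat_lit 76) (nat_lit 74921869574) (nat_lit 12) (nat_lit 4) (nat_lit 13) (nat_lit 5) (nat_lit 13) (nat_lit 4) (nat_lit 484) (nat_lit 399) (nat_lit 317))))) (XT.nd (nat_lit 312) (nat_lit 152) (nat_lit 0) (XT.nd (nat_lit 156) (nat_lit 76) (nat_lit 0) (XT.nd (nat_lit 78) (nat_lit 152) (nat_lit 0) (XT.lf (nat_lit 0) (nat_lit 307256254546) (nat_lit 76) (nat_lit 17862344826) (nat_lit 76) (nat_lit 8564162536) (nat_lit 12) (nat_lit 4) (nat_lit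 13) (nat_lit 5) (nat_lit 13) (nat_lit 4) (nat_lit 485) (nat_lit 399) (nat_lit 316)) (XT.lf (nat_lit 0) (nat_lit 63819798994) (nat_lit 152) (nat_lit 237927316433) (nat_lit 0) (nat_lit 54963282106) (nat_lit 10) (nat_lit 5) (nat_lit 12) (nat_lit 4) (nat_lit 10) (nat_lit 4) (nat_lit 486) (nat_lit 399) (nat_lit 315))) (XT.nd (nat_lit 78) (nat_lit 76) (nat_lit 0) (XT.lf (nat_lit 0) (nat_lit 142449753412) (nat_lit 152) (nat_lit 105493491477) (nat_lit 0) (nat_lit 133592213206) (nat_lit 10) (nat_lit 5) (nat_lit 12) (nat_lit 4) (nat_lit 10) (nat_lit 4) (nat_lit 487) (nat_lit 399) (nat_lit 314)) (XT.lf (nat_lit 0) (nat_lit 38741455042) (nat_lit 76) (nat_lit 189217067637) (nat_lit 76) (nat_lit 180358579914) (nat_lit 9) (nat_lit 4) (nat_lit 10) (nat_lit 5) (nat_lit 10) (nat_lit 4) (nat_lit 488) (nat_lit 399) (nat_lit 313)))) (XT.nd (nat_lit 156) (nat_lit 152) (nat_lit 0) (XT.nd (nat_lit 78) (nat_lit 0) (nat_lit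 0) (XT.lf (nat_lit 0) (nat_lit 198250241064) (nat_lit 76) (nat_lit 123879653792) (nat_lit 76) (nat_lit 115020288739) (nat_lit 9) (nat_lit 4) (nat_lit 10) (nat_lit 5) (nat_lit 10) (nat_lit 4) (nat_lit 489) (nat_lit 399) (nat_lit 312)) (XT.lf (nat_lit 0) (nat_lit 370490012590) (nat_lit 76) (nat_lit 53330402005) (nat_lit 76) (nat_lit 44470224609) (nat_lit 9) (nat_lit 4) (nat_lit 10) (nat_lit 5) (nat_lit 10) (nat_lit 4) (nat_lit 490) (nat_lit 399) (nat_lit 311))) (XT.nd (nat_lit 78) (nat_lit 0) (nat_lit 0) (XT.lf (nat_lit 0) (nat_lit 31945912780) (nat_lit 152) (nat_lit 446382849881) (nat_lit 0) (nat_lit 23506932241) (nat_lit 7) (nat_lit 5) (nat_lit 9) (nat_lit 4) (nat_lit 7) (nat_lit 4) (nat_lit 491) (nat_lit 399) (nat_lit 310)) (XT.lf (nat_lit 0) (nat_lit 115555630139) (nat_lit 152) (nat_lit 315224372162) (nat_lit 0) (nat_lit 107115986312) (nat_lit 7) (nat_lit 5) (nat_lit 9) (nat_lit 4) (nat_lit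 7) (nat_lit 4) (nat_lit 492) (nat_lit 399) (nat_lit 309))))))))
noncomputable def xc45 : XT := (XT.nd (nat_lit 56628) (nat_lit 0) (nat_lit 3724) (XT.nd (nat_lit 55380) (nat_lit 0) (nat_lit 9576) (XT.nd (nat_lit 624) (nat_lit 76) (nat_lit 0) (XT.nd (nat_lit 312) (nat_lit 152) (nat_lit 0) (XT.nd (nat_lit 156) (nat_lit 76) (nat_lit 0) (XT.nd (nat_lit 78) (nat_lit 0) (nat_lit 0) (XT.lf (nat_lit 0) (nat_lit 205841791375) (nat_lit 152) (nat_lit 173598397739) (nat_lit 0) (nat_lit 197401533391) (nat_lit 7) (nat_lit 5) (nat_lit 9) (nat_lit 4) (nat_lit 7) (nat_lit 4) (nat_lit 493) (nat_lit 399) (nat_lit 308)) (XT.lf (nat_lit 0) (nat_lit 303339425591) (nat_lit 152) (nat_lit 20665661581) (nat_lit 0) (nat_lit 294898598944) (nat_lit 7) (nat_lit 5) (nat_lit 9) (nat_lit 4) (nat_lit 7) (nat_lit 4) (nat_lit 494) (nat_lit 399) (nat_lit 307))) (XT.nd (nat_lit 78) (nat_lit 0) (nat_lit 0) (XT.lf (nat_lit 0) (nat_lit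 149257269121) (nat_lit 76) (nat_lit 261699351688) (nat_lit 76) (nat_lit 253257998501) (nat_lit 6) (nat_lit 4) (nat_lit 7) (nat_lit 5) (nat_lit 7) (nat_lit 4) (nat_lit 495) (nat_lit 399) (nat_lit 306)) (XT.lf (nat_lit 0) (nat_lit 333491347534) (nat_lit 76) (nat_lit 194041713445) (nat_lit 76) (nat_lit 185599872722) (nat_lit 6) (nat_lit 4) (nat_lit 7) (nat_lit 5) (nat_lit 7) (nat_lit 4) (nat_lit 496) (nat_lit 399) (nat_lit 305)))) (XT.nd (nat_lit 156) (nat_lit 152) (nat_lit 0) (XT.nd (nat_lit 78) (nat_lit 0) (nat_lit 0) (XT.lf (nat_lit 0) (nat_lit 532445031058) (nat_lit 76) (nat_lit 120981221271) (nat_lit 76) (nat_lit 112538929124) (nat_lit 6) (nat_lit 4) (nat_lit 7) (nat_lit 5) (nat_lit 7) (nat_lit 4) (nat_lit 497) (nat_lit 399) (nat_lit 304)) (XT.lf (nat_lit 0) (nat_lit 747297304485) (nat_lit 76) (nat_lit 42084924099) (nat_lit 76) (nat_lit 33642213968) (nat_lit 6) (nat_lit 4) (nat_lit 7) (nat_lit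 5) (nat_lit 7) (nat_lit 4) (nat_lit 498) (nat_lit 399) (nat_lit 303))) (XT.nd (nat_lit 78) (nat_lit 0) (nat_lit 0) (XT.lf (nat_lit 0) (nat_lit 52132786979) (nat_lit 152) (nat_lit 788272811309) (nat_lit 0) (nat_lit 44091742071) (nat_lit 4) (nat_lit 5) (nat_lit 6) (nat_lit 4) (nat_lit 4) (nat_lit 4) (nat_lit 499) (nat_lit 399) (nat_lit 302)) (XT.lf (nat_lit 0) (nat_lit 145649326452) (nat_lit 152) (nat_lit 667500317816) (nat_lit 0) (nat_lit 137607940254) (nat_lit 4) (nat_lit 5) (nat_lit 6) (nat_lit 4) (nat_lit 4) (nat_lit 4) (nat_lit 500) (nat_lit 399) (nat_lit 301))))) (XT.nd (nat_lit 312) (nat_lit 76) (nat_lit 0) (XT.nd (nat_lit 156) (nat_lit 0) (nat_lit 0) (XT.nd (nat_lit 78) (nat_lit 0) (nat_lit 0) (XT.lf (nat_lit 0) (nat_lit 246639845383) (nat_lit 152) (nat_lit 537081026851) (nat_lit 0) (nat_lit 238598143176) (nat_lit 4) (nat_lit 5) (nat_lit 6) (nat_lit 4) (nat_lit 4) (nat_lit 4) (nat_lit 501)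 (nat_lit 399) (nat_lit 300)) (XT.lf (nat_lit 0) (nat_lit 355702806104) (nat_lit 152) (nat_lit 396242083357) (nat_lit 0) (nat_lit 347660811297) (nat_lit 4) (nat_lit 5) (nat_lit 6) (nat_lit 4) (nat_lit 4) (nat_lit 4) (nat_lit 502) (nat_lit 399) (nat_lit 299))) (XT.nd (nat_lit 78) (nat_lit 0) (nat_lit 0) (XT.lf (nat_lit 0) (nat_lit 473484507644) (nat_lit 152) (nat_lit 244148886188) (nat_lit 0) (nat_lit 465442241910) (nat_lit 4) (nat_lit 5) (nat_lit 6) (nat_lit 4) (nat_lit 4) (nat_lit 4) (nat_lit 503) (nat_lit 399) (nat_lit 298)) (XT.lf (nat_lit 0) (nat_lit 600682915641) (nat_lit 152) (nat_lit 79900142323) (nat_lit 0) (nat_lit 592640399048) (nat_lit 4) (nat_lit 5) (nat_lit 6) (nat_lit 4) (nat_lit 4) (nat_lit 4) (nat_lit 504) (nat_lit 399) (nat_lit 297)))) (XT.nd (nat_lit 54288) (nat_lit 0) (nat_lit 16644) (XT.nd (nat_lit 78) (nat_lit 0) (nat_lit 0) (XT.lf (nat_lit 0) (nat_lit 100700519642) (nat_lit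 76) (nat_lit 638923496120) (nat_lit 76) (nat_lit 630880747251) (nat_lit 3) (nat_lit 4) (nat_lit 4) (nat_lit 5) (nat_lit 4) (nat_lit 4) (nat_lit 505) (nat_lit 399) (nat_lit 296)) (XT.lf (nat_lit 0) (nat_lit 298591895166) (nat_lit 76) (nat_lit 592475154979) (nat_lit 76) (nat_lit 584432191040) (nat_lit 3) (nat_lit 4) (nat_lit 4) (nat_lit 5) (nat_lit 4) (nat_lit 4) (nat_lit 506) (nat_lit 399) (nat_lit 295))) (XT.nd (nat_lit 78) (nat_lit 76) (nat_lit 0) (XT.lf (nat_lit 0) (nat_lit 1073741823) (nat_lit 0) (nat_lit 0) (nat_lit 0) (nat_lit 0) (nat_lit 223) (nat_lit 0) (nat_lit 1) (nat_lit 0) (nat_lit 1) (nat_lit 0) (nat_lit 400) (nat_lit 400) (nat_lit 400)) (XT.lf (nat_lit 0) (nat_lit 4966903585) (nat_lit 76) (nat_lit 1275131041) (nat_lit 0) (nat_lit 209034258) (nat_lit 222) (nat_lit 5) (nat_lit 223) (nat_lit 0) (nat_lit 222) (nat_lit 4) (nat_lit 401) (nat_lit 400) (nat_lit 399)))))) (XT.nd (nat_lit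 624) (nat_lit 3952) (nat_lit 0) (XT.nd (nat_lit 312) (nat_lit 2128) (nat_lit 0) (XT.nd (nat_lit 156) (nat_lit 608) (nat_lit 0) (XT.nd (nat_lit 78) (nat_lit 228) (nat_lit 0) (XT.lf (nat_lit 0) (nat_lit 3312071091) (nat_lit 152) (nat_lit 2373558151) (nat_lit 76) (nat_lit 793536500) (nat_lit 220) (nat_lit 5) (nat_lit 222) (nat_lit 5) (nat_lit 221) (nat_lit 4) (nat_lit 402) (nat_lit 400) (nat_lit 398)) (XT.lf (nat_lit 0) (nat_lit 1469443709) (nat_lit 228) (nat_lit 3299691275) (nat_lit 76) (nat_lit 1757734812) (nat_lit 217) (nat_lit 5) (nat_lit 220) (nat_lit 5) (nat_lit 218) (nat_lit 5) (nat_lit 403) (nat_lit 400) (nat_lit 397))) (XT.nd (nat_lit 78) (nat_lit 380) (nat_lit 0) (XT.lf (nat_lit 0) (nat_lit 2528103782) (nat_lit 228) (nat_lit 3476095110) (nat_lit 304) (nat_lit 589739816) (nat_lit 214) (nat_lit 5) (nat_lit 217) (nat_lit 5) (nat_lit 218) (nat_lit 5) (nat_lit 404) (nat_lit 400) (nat_lit 396))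 (XT.lf (nat_lit 0) (nat_lit 1988150647) (nat_lit 304) (nat_lit 1778232491) (nat_lit 380) (nat_lit 2913405132) (nat_lit 209) (nat_lit 5) (nat_lit 213) (nat_lit 5) (nat_lit 214) (nat_lit 5) (nat_lit 405) (nat_lit 400) (nat_lit 395)))) (XT.nd (nat_lit 156) (nat_lit 1216) (nat_lit 0) (XT.nd (nat_lit 78) (nat_lit 456) (nat_lit 0) (XT.lf (nat_lit 0) (nat_lit 1324704829) (nat_lit 456) (nat_lit 5158941762) (nat_lit 76) (nat_lit 302104648) (nat_lit 203) (nat_lit 5) (nat_lit 209) (nat_lit 5) (nat_lit 204) (nat_lit 5) (nat_lit 406) (nat_lit 400) (nat_lit 394)) (XT.lf (nat_lit 0) (nat_lit 1392369113) (nat_lit 456) (nat_lit 4168379305) (nat_lit 532) (nat_lit 1349048142) (nat_lit 197) (nat_lit 5) (nat_lit 203) (nat_lit 5) (nat_lit 204) (nat_lit 5) (nat_lit 407) (nat_lit 400) (nat_lit 393))) (XT.nd (nat_lit 78) (nat_lit 608) (nat_lit 0) (XT.lf (nat_lit 0) (nat_lit 1311984492) (nat_lit 532) (nat_lit 1435190107)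 (nat_lit 608) (nat_lit 4306502291) (nat_lit 189) (nat_lit 5) (nat_lit 196) (nat_lit 5) (nat_lit 197) (nat_lit 5) (nat_lit 408) (nat_lit 400) (nat_lit 392)) (XT.lf (nat_lit 0) (nat_lit 1378703653) (nat_lit 608) (nat_lit 5554027333) (nat_lit 684) (nat_lit 284819504) (nat_lit 181) (nat_lit 5) (nat_lit 189) (nat_lit 5) (nat_lit 190) (nat_lit 5) (nat_lit 409) (nat_lit 400) (nat_lit 391))))) (XT.nd (nat_lit 312) (nat_lit 1444) (nat_lit 0) (XT.nd (nat_lit 156) (nat_lit 912) (nat_lit 0) (XT.nd (nat_lit 78) (nat_lit 836) (nat_lit 0) (XT.lf (nat_lit 0) (nat_lit 1549026229) (nat_lit 684) (nat_lit 2210244791) (nat_lit 760) (nat_lit 3640595616) (nat_lit 171) (nat_lit 5) (nat_lit 180) (nat_lit 5) (nat_lit 181) (nat_lit 5) (nat_lit 410) (nat_lit 400) (nat_lit 390)) (XT.lf (nat_lit 0) (nat_lit 356080857) (nat_lit 836) (nat_lit 5731082580) (nat_lit 76) (nat_lit 1516373060) (nat_lit 160) (nat_lit 5) (nat_lit 171)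 (nat_lit 5) (nat_lit 161) (nat_lit 5) (nat_lit 411) (nat_lit 400) (nat_lit 389))) (XT.nd (nat_lit 78) (nat_lit 456) (nat_lit 0) (XT.lf (nat_lit 0) (nat_lit 2282259244) (nat_lit 456) (nat_lit 2154050871) (nat_lit 532) (nat_lit 3389661571) (nat_lit 154) (nat_lit 5) (nat_lit 160) (nat_lit 5) (nat_lit 161) (nat_lit 5) (nat_lit 412) (nat_lit 400) (nat_lit 388)) (XT.lf (nat_lit 0) (nat_lit 658728067) (nat_lit 456) (nat_lit 5239827732) (nat_lit 76) (nat_lit 2171719214) (nat_lit 148) (nat_lit 5) (nat_lit 154) (nat_lit 5) (nat_lit 149) (nat_lit 5) (nat_lit 413) (nat_lit 400) (nat_lit 387)))) (XT.nd (nat_lit 156) (nat_lit 684) (nat_lit 0) (XT.nd (nat_lit 78) (nat_lit 380) (nat_lit 0) (XT.lf (nat_lit 0) (nat_lit 3468272743) (nat_lit 380) (nat_lit 1375414343) (nat_lit 456) (nat_lit 3491104100) (nat_lit 143) (nat_lit 5) (nat_lit 148) (nat_lit 5) (nat_lit 149) (nat_lit 5) (nat_lit 414) (nat_lit 400) (nat_lit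 386)) (XT.lf (nat_lit 0) (nat_lit 687867027) (nat_lit 380) (nat_lit 4399605566) (nat_lit 76) (nat_lit 3533999859) (nat_lit 138) (nat_lit 5) (nat_lit 143) (nat_lit 5) (nat_lit 139) (nat_lit 5) (nat_lit 415) (nat_lit 400) (nat_lit 385))) (XT.nd (nat_lit 78) (nat_lit 380) (nat_lit 0) (XT.lf (nat_lit 0) (nat_lit 5035313784) (nat_lit 380) (nat_lit 3852882131) (nat_lit 76) (nat_lit 42223418) (nat_lit 134) (nat_lit 5) (nat_lit 139) (nat_lit 5) (nat_lit 135) (nat_lit 5) (nat_lit 416) (nat_lit 400) (nat_lit 384)) (XT.lf (nat_lit 0) (nat_lit 487806411) (nat_lit 380) (nat_lit 3237407631) (nat_lit 76) (nat_lit 5536704894) (nat_lit 129) (nat_lit 5) (nat_lit 134) (nat_lit 5) (nat_lit 130) (nat_lit 5) (nat_lit 417) (nat_lit 400) (nat_lit 383))))))) (XT.nd (nat_lit 1248) (nat_lit 2128) (nat_lit 0) (XT.nd (nat_lit 624) (nat_lit 1444) (nat_lit 0) (XT.nd (nat_lit 312) (nat_lit 1140) (nat_lit 0) (XT.nd (nat_lit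 156) (nat_lit 532) (nat_lit 0) (XT.nd (nat_lit 78) (nat_lit 304) (nat_lit 0) (XT.lf (nat_lit 0) (nat_lit 5084211621) (nat_lit 380) (nat_lit 2554619109) (nat_lit 76) (nat_lit 1977961954) (nat_lit 125) (nat_lit 5) (nat_lit 130) (nat_lit 5) (nat_lit 126) (nat_lit 5) (nat_lit 418) (nat_lit 400) (nat_lit 382)) (XT.lf (nat_lit 0) (nat_lit 93338405) (nat_lit 304) (nat_lit 1770334063) (nat_lit 76) (nat_lit 8134027272) (nat_lit 121) (nat_lit 5) (nat_lit 125) (nat_lit 5) (nat_lit 122) (nat_lit 5) (nat_lit 419) (nat_lit 400) (nat_lit 381))) (XT.nd (nat_lit 78) (nat_lit 228) (nat_lit 0) (XT.lf (nat_lit 0) (nat_lit 5003001326) (nat_lit 380) (nat_lit 962540231) (nat_lit 76) (nat_lit 4436209857) (nat_lit 117) (nat_lit 5) (nat_lit 122) (nat_lit 5) (nat_lit 118) (nat_lit 5) (nat_lit 420) (nat_lit 400) (nat_lit 380)) (XT.lf (nat_lit 0) (nat_lit 10358779370) (nat_lit 304) (nat_lit 22302145) (nat_lit 76) (nat_lit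 454388566) (nat_lit 114) (nat_lit 5) (nat_lit 118) (nat_lit 5) (nat_lit 115) (nat_lit 5) (nat_lit 421) (nat_lit 400) (nat_lit 379)))) (XT.nd (nat_lit 156) (nat_lit 456) (nat_lit 0) (XT.nd (nat_lit 78) (nat_lit 228) (nat_lit 0) (XT.lf (nat_lit 0) (nat_lit 948477640) (nat_lit 152) (nat_lit 3885172116) (nat_lit 228) (nat_lit 6458997705) (nat_lit 108) (nat_lit 5) (nat_lit 110) (nat_lit 5) (nat_lit 111) (nat_lit 5) (nat_lit 422) (nat_lit 400) (nat_lit 378)) (XT.lf (nat_lit 0) (nat_lit 2044463750) (nat_lit 228) (nat_lit 8605109800) (nat_lit 304) (nat_lit 1131570035) (nat_lit 105) (nat_lit 5) (nat_lit 108) (nat_lit 5) (nat_lit 109) (nat_lit 5) (nat_lit 423) (nat_lit 400) (nat_lit 377))) (XT.nd (nat_lit 78) (nat_lit 228) (nat_lit 0) (XT.lf (nat_lit 0) (nat_lit 3189691224) (nat_lit 152) (nat_lit 1412913421) (nat_lit 228) (nat_lit 7696089400) (nat_lit 102) (nat_lit 5) (nat_lit 104) (nat_lit 5) (nat_lit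 105) (nat_lit 5) (nat_lit 424) (nat_lit 400) (nat_lit 376)) (XT.lf (nat_lit 0) (nat_lit 4407988625) (nat_lit 228) (nat_lit 6526040690) (nat_lit 304) (nat_lit 1913790317) (nat_lit 99) (nat_lit 5) (nat_lit 102) (nat_lit 5) (nat_lit 103) (nat_lit 5) (nat_lit 425) (nat_lit 400) (nat_lit 375))))) (XT.nd (nat_lit 312) (nat_lit 684) (nat_lit 0) (XT.nd (nat_lit 156) (nat_lit 380) (nat_lit 0) (XT.nd (nat_lit 78) (nat_lit 152) (nat_lit 0) (XT.lf (nat_lit 0) (nat_lit 4332145526) (nat_lit 228) (nat_lit 7720303068) (nat_lit 76) (nat_lit 1378067760) (nat_lit 96) (nat_lit 5) (nat_lit 99) (nat_lit 5) (nat_lit 97) (nat_lit 5) (nat_lit 426) (nat_lit 400) (nat_lit 374)) (XT.lf (nat_lit 0) (nat_lit 7073309562) (nat_lit 152) (nat_lit 4157396757) (nat_lit 228) (nat_lit 2816559239) (nat_lit 94) (nat_lit 5) (nat_lit 96) (nat_lit 5) (nat_lit 97) (nat_lit 5) (nat_lit 427) (nat_lit 400) (nat_lit 373))) (XT.nd (nat_lit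 78) (nat_lit 152) (nat_lit 0) (XT.lf (nat_lit 0) (nat_lit 4037986096) (nat_lit 228) (nat_lit 6189515201) (nat_lit 76) (nat_lit 4472901605) (nat_lit 91) (nat_lit 5) (nat_lit 94) (nat_lit 5) (nat_lit 92) (nat_lit 5) (nat_lit 428) (nat_lit 400) (nat_lit 372)) (XT.lf (nat_lit 0) (nat_lit 10047454661) (nat_lit 152) (nat_lit 1506498712) (nat_lit 228) (nat_lit 3838946793) (nat_lit 89) (nat_lit 5) (nat_lit 91) (nat_lit 5) (nat_lit 92) (nat_lit 5) (nat_lit 429) (nat_lit 400) (nat_lit 371)))) (XT.nd (nat_lit 156) (nat_lit 304) (nat_lit 0) (XT.nd (nat_lit 78) (nat_lit 152) (nat_lit 0) (XT.lf (nat_lit 0) (nat_lit 3702855747) (nat_lit 228) (nat_lit 4502009502) (nat_lit 76) (nat_lit 7918907404) (nat_lit 86) (nat_lit 5) (nat_lit 89) (nat_lit 5) (nat_lit 87) (nat_lit 5) (nat_lit 430) (nat_lit 400) (nat_lit 370)) (XT.lf (nat_lit 0) (nat_lit 11935484423) (nat_lit 228) (nat_lit 3585622103) (nat_lit 76) (nat_lit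 1377766352) (nat_lit 84) (nat_lit 5) (nat_lit 87) (nat_lit 5) (nat_lit 85) (nat_lit 4) (nat_lit 431) (nat_lit 400) (nat_lit 369))) (XT.nd (nat_lit 78) (nat_lit 152) (nat_lit 0) (XT.lf (nat_lit 0) (nat_lit 3325563798) (nat_lit 152) (nat_lit 2669228189) (nat_lit 76) (nat_lit 11722092336) (nat_lit 82) (nat_lit 5) (nat_lit 84) (nat_lit 5) (nat_lit 83) (nat_lit 5) (nat_lit 432) (nat_lit 400) (nat_lit 368)) (XT.lf (nat_lit 0) (nat_lit 12384888791) (nat_lit 228) (nat_lit 1714734973) (nat_lit 76) (nat_lit 4482590045) (nat_lit 80) (nat_lit 5) (nat_lit 83) (nat_lit 5) (nat_lit 81) (nat_lit 4) (nat_lit 433) (nat_lit 400) (nat_lit 367)))))) (XT.nd (nat_lit 624) (nat_lit 912) (nat_lit 0) (XT.nd (nat_lit 312) (nat_lit 532) (nat_lit 0) (XT.nd (nat_lit 156) (nat_lit 304) (nat_lit 0) (XT.nd (nat_lit 78) (nat_lit 228) (nat_lit 0) (XT.lf (nat_lit 0) (nat_lit 2897925767) (nat_lit 152) (nat_lit 709737849) (nat_lit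 76) (nat_lit 15890507121) (nat_lit 78) (nat_lit 5) (nat_lit 80) (nat_lit 5) (nat_lit 79) (nat_lit 5) (nat_lit 434) (nat_lit 400) (nat_lit 366)) (XT.lf (nat_lit 0) (nat_lit 275933793) (nat_lit 76) (nat_lit 12604274626) (nat_lit 152) (nat_lit 7583291642) (nat_lit 75) (nat_lit 5) (nat_lit 76) (nat_lit 5) (nat_lit 77) (nat_lit 4) (nat_lit 435) (nat_lit 400) (nat_lit 365))) (XT.nd (nat_lit 78) (nat_lit 76) (nat_lit 0) (XT.lf (nat_lit 0) (nat_lit 1391354777) (nat_lit 152) (nat_lit 1033589253) (nat_lit 228) (nat_lit 19062486526) (nat_lit 72) (nat_lit 5) (nat_lit 74) (nat_lit 5) (nat_lit 75) (nat_lit 5) (nat_lit 436) (nat_lit 400) (nat_lit 364)) (XT.lf (nat_lit 0) (nat_lit 2399551103) (nat_lit 76) (nat_lit 11035254730) (nat_lit 152) (nat_lit 9128923370) (nat_lit 71) (nat_lit 5) (nat_lit 72) (nat_lit 5) (nat_lit 73) (nat_lit 4) (nat_lit 437) (nat_lit 400) (nat_lit 363)))) (XT.nd (nat_lit 156) (nat_lit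 228) (nat_lit 0) (XT.nd (nat_lit 78) (nat_lit 76) (nat_lit 0) (XT.lf (nat_lit 0) (nat_lit 1896249132) (nat_lit 228) (nat_lit 20166439959) (nat_lit 76) (nat_lit 1644790254) (nat_lit 68) (nat_lit 5) (nat_lit 71) (nat_lit 5) (nat_lit 69) (nat_lit 4) (nat_lit 438) (nat_lit 400) (nat_lit 362)) (XT.lf (nat_lit 0) (nat_lit 4541143042) (nat_lit 76) (nat_lit 9456898357) (nat_lit 152) (nat_lit 10911485035) (nat_lit 67) (nat_lit 5) (nat_lit 68) (nat_lit 5) (nat_lit 69) (nat_lit 4) (nat_lit 439) (nat_lit 400) (nat_lit 361))) (XT.nd (nat_lit 78) (nat_lit 76) (nat_lit 0) (XT.lf (nat_lit 0) (nat_lit 1249553566) (nat_lit 152) (nat_lit 20532172084) (nat_lit 76) (nat_lit 4404499176) (nat_lit 65) (nat_lit 5) (nat_lit 67) (nat_lit 5) (nat_lit 66) (nat_lit 4) (nat_lit 440) (nat_lit 400) (nat_lit 360)) (XT.lf (nat_lit 0) (nat_lit 6614786015) (nat_lit 76) (nat_lit 7917450649) (nat_lit 152) (nat_lit 12997327563) (nat_lit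 64) (nat_lit 5) (nat_lit 65) (nat_lit 5) (nat_lit 66) (nat_lit 4) (nat_lit 441) (nat_lit 400) (nat_lit 359))))) (XT.nd (nat_lit 312) (nat_lit 456) (nat_lit 0) (XT.nd (nat_lit 156) (nat_lit 228) (nat_lit 0) (XT.nd (nat_lit 78) (nat_lit 76) (nat_lit 0) (XT.lf (nat_lit 0) (nat_lit 407475227) (nat_lit 152) (nat_lit 21310130218) (nat_lit 76) (nat_lit 7237495760) (nat_lit 62) (nat_lit 5) (nat_lit 64) (nat_lit 5) (nat_lit 63) (nat_lit 4) (nat_lit 442) (nat_lit 400) (nat_lit 358)) (XT.lf (nat_lit 0) (nat_lit 8496842825) (nat_lit 76) (nat_lit 6483495757) (nat_lit 152) (nat_lit 15476138115) (nat_lit 61) (nat_lit 5) (nat_lit 62) (nat_lit 5) (nat_lit 63) (nat_lit 4) (nat_lit 443) (nat_lit 400) (nat_lit 357))) (XT.nd (nat_lit 78) (nat_lit 152) (nat_lit 0) (XT.lf (nat_lit 0) (nat_lit 9355856272) (nat_lit 76) (nat_lit 21953558521) (nat_lit 76) (nat_lit 739029238) (nat_lit 60) (nat_lit 4) (nat_lit 61) (nat_lit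 5) (nat_lit 61) (nat_lit 4) (nat_lit 444) (nat_lit 400) (nat_lit 356)) (XT.lf (nat_lit 0) (nat_lit 10012854379) (nat_lit 76) (nat_lit 5246859798) (nat_lit 152) (nat_lit 18467786328) (nat_lit 58) (nat_lit 5) (nat_lit 59) (nat_lit 5) (nat_lit 60) (nat_lit 4) (nat_lit 445) (nat_lit 400) (nat_lit 355)))) (XT.nd (nat_lit 156) (nat_lit 228) (nat_lit 0) (XT.nd (nat_lit 78) (nat_lit 152) (nat_lit 0) (XT.lf (nat_lit 0) (nat_lit 10581080273) (nat_lit 76) (nat_lit 22615130104) (nat_lit 76) (nat_lit 2309878903) (nat_lit 57) (nat_lit 4) (nat_lit 58) (nat_lit 5) (nat_lit 58) (nat_lit 4) (nat_lit 446) (nat_lit 400) (nat_lit 354)) (XT.lf (nat_lit 0) (nat_lit 10920476091) (nat_lit 76) (nat_lit 4333504562) (nat_lit 152) (nat_lit 22131270049) (nat_lit 55) (nat_lit 5) (nat_lit 56) (nat_lit 5) (nat_lit 57) (nat_lit 4) (nat_lit 447) (nat_lit 400) (nat_lit 353))) (XT.nd (nat_lit 78) (nat_lit 152) (nat_lit 0) (XT.lf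 (nat_lit 0) (nat_lit 11043174421) (nat_lit 76) (nat_lit 23875791059) (nat_lit 76) (nat_lit 4455039704) (nat_lit 54) (nat_lit 4) (nat_lit 55) (nat_lit 5) (nat_lit 55) (nat_lit 4) (nat_lit 448) (nat_lit 400) (nat_lit 352)) (XT.lf (nat_lit 0) (nat_lit 10887282364) (nat_lit 76) (nat_lit 3915021121) (nat_lit 152) (nat_lit 26676360478) (nat_lit 52) (nat_lit 5) (nat_lit 53) (nat_lit 5) (nat_lit 54) (nat_lit 4) (nat_lit 449) (nat_lit 400) (nat_lit 351))))))))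
noncomputable def xc46 : XT := (XT.nd (nat_lit 2418) (nat_lit 912) (nat_lit 0) (XT.nd (nat_lit 1170) (nat_lit 1292) (nat_lit 0) (XT.nd (nat_lit 546) (nat_lit 836) (nat_lit 0) (XT.nd (nat_lit 234) (nat_lit 380) (nat_lit 0) (XT.nd (nat_lit 78) (nat_lit 228) (nat_lit 0) (XT.lf (nat_lit 0) (nat_lit 10354182848) (nat_lit 76) (nat_lit 25956881960) (nat_lit 76) (nat_lit 7393633823) (nat_lit 51) (nat_lit 4) (nat_lit 52) (nat_lit 5) (nat_lit 52) (nat_lit 4) (nat_lit 450) (nat_lit 400) (nat_lit 350)) (XT.nd (nat_lit 78) (nat_lit 76) (nat_lit 0) (XT.lf (nat_lit 0) (nat_lit 9461923916) (nat_lit 76) (nat_lit 4223504686) (nat_lit 152) (nat_lit 32378721803) (nat_lit 49) (nat_lit 5) (nat_lit 50) (nat_lit 5) (nat_lit 51) (nat_lit 4) (nat_lit 451) (nat_lit 400) (nat_lit 349)) (XT.lf (nat_lit 0) (nat_lit 7989696472) (nat_lit 76) (nat_lit 29151676498) (nat_lit 76) (nat_lit 11417445741) (nat_lit 48) (nat_lit 4) (nat_lit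 49) (nat_lit 5) (nat_lit 49) (nat_lit 4) (nat_lit 452) (nat_lit 400) (nat_lit 348)))) (XT.nd (nat_lit 156) (nat_lit 152) (nat_lit 0) (XT.nd (nat_lit 78) (nat_lit 76) (nat_lit 0) (XT.lf (nat_lit 0) (nat_lit 6036686432) (nat_lit 76) (nat_lit 5570814608) (nat_lit 152) (nat_lit 39599505370) (nat_lit 46) (nat_lit 5) (nat_lit 47) (nat_lit 5) (nat_lit 48) (nat_lit 4) (nat_lit 453) (nat_lit 400) (nat_lit 347)) (XT.lf (nat_lit 0) (nat_lit 3246209725) (nat_lit 76) (nat_lit 33847561309) (nat_lit 76) (nat_lit 16912952931) (nat_lit 45) (nat_lit 4) (nat_lit 46) (nat_lit 5) (nat_lit 46) (nat_lit 4) (nat_lit 454) (nat_lit 400) (nat_lit 346))) (XT.nd (nat_lit 78) (nat_lit 76) (nat_lit 0) (XT.lf (nat_lit 0) (nat_lit 8175586580) (nat_lit 152) (nat_lit 194627752) (nat_lit 76) (nat_lit 48612783852) (nat_lit 44) (nat_lit 5) (nat_lit 46) (nat_lit 5) (nat_lit 45) (nat_lit 4) (nat_lit 455) (nat_lit 400) (nat_lit 345))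 (XT.lf (nat_lit 0) (nat_lit 35815710702) (nat_lit 152) (nat_lit 4660068863) (nat_lit 0) (nat_lit 19650879548) (nat_lit 43) (nat_lit 5) (nat_lit 45) (nat_lit 4) (nat_lit 43) (nat_lit 4) (nat_lit 456) (nat_lit 400) (nat_lit 344))))) (XT.nd (nat_lit 312) (nat_lit 380) (nat_lit 0) (XT.nd (nat_lit 156) (nat_lit 228) (nat_lit 0) (XT.nd (nat_lit 78) (nat_lit 76) (nat_lit 0) (XT.lf (nat_lit 0) (nat_lit 3014654097) (nat_lit 152) (nat_lit 10001097546) (nat_lit 76) (nat_lit 50457482724) (nat_lit 41) (nat_lit 5) (nat_lit 43) (nat_lit 5) (nat_lit 42) (nat_lit 4) (nat_lit 457) (nat_lit 400) (nat_lit 343)) (XT.lf (nat_lit 0) (nat_lit 32780075560) (nat_lit 152) (nat_lit 16877170727) (nat_lit 0) (nat_lit 17355087189) (nat_lit 40) (nat_lit 5) (nat_lit 42) (nat_lit 4) (nat_lit 40) (nat_lit 4) (nat_lit 458) (nat_lit 400) (nat_lit 342))) (XT.nd (nat_lit 78) (nat_lit 152) (nat_lit 0) (XT.lf (nat_lit 0) (nat_lit 45746936698)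 (nat_lit 76) (nat_lit 20236544990) (nat_lit 76) (nat_lit 4798241501) (nat_lit 39) (nat_lit 4) (nat_lit 40) (nat_lit 5) (nat_lit 40) (nat_lit 4) (nat_lit 459) (nat_lit 400) (nat_lit 341)) (XT.lf (nat_lit 0) (nat_lit 27197080705) (nat_lit 152) (nat_lit 35098798461) (nat_lit 0) (nat_lit 12482192798) (nat_lit 37) (nat_lit 5) (nat_lit 39) (nat_lit 4) (nat_lit 37) (nat_lit 4) (nat_lit 460) (nat_lit 400) (nat_lit 340)))) (XT.nd (nat_lit 156) (nat_lit 152) (nat_lit 0) (XT.nd (nat_lit 78) (nat_lit 152) (nat_lit 0) (XT.lf (nat_lit 0) (nat_lit 31880529606) (nat_lit 76) (nat_lit 30936875957) (nat_lit 76) (nat_lit 16211116082) (nat_lit 36) (nat_lit 4) (nat_lit 37) (nat_lit 5) (nat_lit 37) (nat_lit 4) (nat_lit 461) (nat_lit 400) (nat_lit 339)) (XT.lf (nat_lit 0) (nat_lit 18086842959) (nat_lit 152) (nat_lit 61416449839) (nat_lit 0) (nat_lit 4052722470) (nat_lit 34) (nat_lit 5) (nat_lit 36) (nat_lit 4) (nat_lit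 34) (nat_lit 4) (nat_lit 462) (nat_lit 400) (nat_lit 338))) (XT.nd (nat_lit 78) (nat_lit 76) (nat_lit 0) (XT.lf (nat_lit 0) (nat_lit 9652462427) (nat_lit 76) (nat_lit 46374813066) (nat_lit 76) (nat_lit 32331815472) (nat_lit 33) (nat_lit 4) (nat_lit 34) (nat_lit 5) (nat_lit 34) (nat_lit 4) (nat_lit 463) (nat_lit 400) (nat_lit 337)) (XT.lf (nat_lit 0) (nat_lit 4386527784) (nat_lit 152) (nat_lit 5058835178) (nat_lit 76) (nat_lit 84046320159) (nat_lit 32) (nat_lit 5) (nat_lit 34) (nat_lit 5) (nat_lit 33) (nat_lit 4) (nat_lit 464) (nat_lit 400) (nat_lit 336)))))) (XT.nd (nat_lit 624) (nat_lit 532) (nat_lit 0) (XT.nd (nat_lit 312) (nat_lit 380) (nat_lit 0) (XT.nd (nat_lit 156) (nat_lit 228) (nat_lit 0) (XT.nd (nat_lit 78) (nat_lit 76) (nat_lit 0) (XT.lf (nat_lit 0) (nat_lit 44575552916) (nat_lit 152) (nat_lit 23163337098) (nat_lit 0) (nat_lit 31186193083) (nat_lit 31) (nat_lit 5) (nat_lit 33) (nat_lit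 4) (nat_lit 31) (nat_lit 4) (nat_lit 465) (nat_lit 400) (nat_lit 335)) (XT.lf (nat_lit 0) (nat_lit 60118252628) (nat_lit 76) (nat_lit 29006851767) (nat_lit 76) (nat_lit 15610780569) (nat_lit 30) (nat_lit 4) (nat_lit 31) (nat_lit 5) (nat_lit 31) (nat_lit 4) (nat_lit 466) (nat_lit 400) (nat_lit 334))) (XT.nd (nat_lit 78) (nat_lit 76) (nat_lit 0) (XT.lf (nat_lit 0) (nat_lit 26615773768) (nat_lit 152) (nat_lit 70462204260) (nat_lit 0) (nat_lit 13851692412) (nat_lit 28) (nat_lit 5) (nat_lit 30) (nat_lit 4) (nat_lit 28) (nat_lit 4) (nat_lit 467) (nat_lit 400) (nat_lit 333)) (XT.lf (nat_lit 0) (nat_lit 16040416055) (nat_lit 76) (nat_lit 57130226282) (nat_lit 76) (nat_lit 44360665008) (nat_lit 27) (nat_lit 4) (nat_lit 28) (nat_lit 5) (nat_lit 28) (nat_lit 4) (nat_lit 468) (nat_lit 400) (nat_lit 332)))) (XT.nd (nat_lit 156) (nat_lit 228) (nat_lit 0) (XT.nd (nat_lit 78) (nat_lit 76) (nat_lit 0) (XT.lf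 (nat_lit 0) (nat_lit 36542087) (nat_lit 152) (nat_lit 12699723991) (nat_lit 76) (nat_lit 111865307108) (nat_lit 26) (nat_lit 5) (nat_lit 28) (nat_lit 5) (nat_lit 27) (nat_lit 4) (nat_lit 469) (nat_lit 400) (nat_lit 331)) (XT.lf (nat_lit 0) (nat_lit 48328205327) (nat_lit 152) (nat_lit 47620639187) (nat_lit 0) (nat_lit 36157411596) (nat_lit 25) (nat_lit 5) (nat_lit 27) (nat_lit 4) (nat_lit 25) (nat_lit 4) (nat_lit 470) (nat_lit 400) (nat_lit 330))) (XT.nd (nat_lit 78) (nat_lit 152) (nat_lit 0) (XT.lf (nat_lit 0) (nat_lit 51043924799) (nat_lit 76) (nat_lit 50641116828) (nat_lit 76) (nat_lit 38466180110) (nat_lit 24) (nat_lit 4) (nat_lit 25) (nat_lit 5) (nat_lit 25) (nat_lit 4) (nat_lit 471) (nat_lit 400) (nat_lit 329)) (XT.lf (nat_lit 0) (nat_lit 10597468059) (nat_lit 76) (nat_lit 512893342) (nat_lit 152) (nat_lit 137672507118) (nat_lit 22) (nat_lit 5) (nat_lit 23) (nat_lit 5) (nat_lit 24) (nat_lit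 4) (nat_lit 472) (nat_lit 400) (nat_lit 328))))) (XT.nd (nat_lit 312) (nat_lit 304) (nat_lit 0) (XT.nd (nat_lit 156) (nat_lit 152) (nat_lit 0) (XT.nd (nat_lit 78) (nat_lit 76) (nat_lit 0) (XT.lf (nat_lit 0) (nat_lit 65705485908) (nat_lit 152) (nat_lit 38144753322) (nat_lit 0) (nat_lit 54103271853) (nat_lit 22) (nat_lit 5) (nat_lit 24) (nat_lit 4) (nat_lit 22) (nat_lit 4) (nat_lit 473) (nat_lit 400) (nat_lit 327)) (XT.lf (nat_lit 0) (nat_lit 72137666624) (nat_lit 76) (nat_lit 53635128023) (nat_lit 76) (nat_lit 42029781743) (nat_lit 21) (nat_lit 4) (nat_lit 22) (nat_lit 5) (nat_lit 22) (nat_lit 4) (nat_lit 474) (nat_lit 400) (nat_lit 326))) (XT.nd (nat_lit 78) (nat_lit 0) (nat_lit 0) (XT.lf (nat_lit 0) (nat_lit 12712629944) (nat_lit 152) (nat_lit 164015382770) (nat_lit 0) (nat_lit 1657157099) (nat_lit 19) (nat_lit 5) (nat_lit 21) (nat_lit 4) (nat_lit 19) (nat_lit 4) (nat_lit 475) (nat_lit 400)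 (nat_lit 325)) (XT.lf (nat_lit 0) (nat_lit 72951066639) (nat_lit 152) (nat_lit 54806359635) (nat_lit 0) (nat_lit 61893036291) (nat_lit 19) (nat_lit 5) (nat_lit 21) (nat_lit 4) (nat_lit 19) (nat_lit 4) (nat_lit 476) (nat_lit 400) (nat_lit 324)))) (XT.nd (nat_lit 156) (nat_lit 228) (nat_lit 0) (XT.nd (nat_lit 78) (nat_lit 0) (nat_lit 0) (XT.lf (nat_lit 0) (nat_lit 65171264352) (nat_lit 76) (nat_lit 73828282209) (nat_lit 76) (nat_lit 62767883803) (nat_lit 18) (nat_lit 4) (nat_lit 19) (nat_lit 5) (nat_lit 19) (nat_lit 4) (nat_lit 477) (nat_lit 400) (nat_lit 323)) (XT.lf (nat_lit 0) (nat_lit 196652554363) (nat_lit 76) (nat_lit 14608663335) (nat_lit 76) (nat_lit 3546072283) (nat_lit 18) (nat_lit 4) (nat_lit 19) (nat_lit 5) (nat_lit 19) (nat_lit 4) (nat_lit 478) (nat_lit 400) (nat_lit 322))) (XT.nd (nat_lit 78) (nat_lit 76) (nat_lit 0) (XT.lf (nat_lit 0) (nat_lit 61024654000) (nat_lit 152) (nat_lit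 117204364832) (nat_lit 0) (nat_lit 50486919447) (nat_lit 16) (nat_lit 5) (nat_lit 18) (nat_lit 4) (nat_lit 16) (nat_lit 4) (nat_lit 479) (nat_lit 400) (nat_lit 321)) (XT.lf (nat_lit 0) (nat_lit 8387895793) (nat_lit 76) (nat_lit 122926071324) (nat_lit 76) (nat_lit 112386546446) (nat_lit 15) (nat_lit 4) (nat_lit 16) (nat_lit 5) (nat_lit 16) (nat_lit 4) (nat_lit 480) (nat_lit 400) (nat_lit 320))))))) (XT.nd (nat_lit 1248) (nat_lit 228) (nat_lit 0) (XT.nd (nat_lit 624) (nat_lit 304) (nat_lit 0) (XT.nd (nat_lit 312) (nat_lit 152) (nat_lit 0) (XT.nd (nat_lit 156) (nat_lit 76) (nat_lit 0) (XT.nd (nat_lit 78) (nat_lit 152) (nat_lit 0) (XT.lf (nat_lit 0) (nat_lit 148167638556) (nat_lit 76) (nat_lit 61078213787) (nat_lit 76) (nat_lit 50537031202) (nat_lit 15) (nat_lit 4) (nat_lit 16) (nat_lit 5) (nat_lit 16) (nat_lit 4) (nat_lit 481) (nat_lit 400) (nat_lit 319)) (XT.lf (nat_lit 0) (nat_lit 16167642561)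 (nat_lit 152) (nat_lit 254823166149) (nat_lit 0) (nat_lit 6126959228) (nat_lit 13) (nat_lit 5) (nat_lit 15) (nat_lit 4) (nat_lit 13) (nat_lit 4) (nat_lit 482) (nat_lit 400) (nat_lit 318))) (XT.nd (nat_lit 78) (nat_lit 76) (nat_lit 0) (XT.lf (nat_lit 0) (nat_lit 89447516365) (nat_lit 152) (nat_lit 126794553576) (nat_lit 0) (nat_lit 79405479492) (nat_lit 13) (nat_lit 5) (nat_lit 15) (nat_lit 4) (nat_lit 13) (nat_lit 4) (nat_lit 483) (nat_lit 400) (nat_lit 317)) (XT.lf (nat_lit 0) (nat_lit 11816212492) (nat_lit 76) (nat_lit 156939253418) (nat_lit 76) (nat_lit 146895963266) (nat_lit 12) (nat_lit 4) (nat_lit 13) (nat_lit 5) (nat_lit 13) (nat_lit 4) (nat_lit 484) (nat_lit 400) (nat_lit 316)))) (XT.nd (nat_lit 156) (nat_lit 152) (nat_lit 0) (XT.nd (nat_lit 78) (nat_lit 0) (nat_lit 0) (XT.lf (nat_lit 0) (nat_lit 166006970042) (nat_lit 76) (nat_lit 90591782409) (nat_lit 76) (nat_lit 80547331815) (nat_lit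 12) (nat_lit 4) (nat_lit 13) (nat_lit 5) (nat_lit 13) (nat_lit 4) (nat_lit 485) (nat_lit 400) (nat_lit 315)) (XT.lf (nat_lit 0) (nat_lit 332499041519) (nat_lit 76) (nat_lit 18953813834) (nat_lit 76) (nat_lit 8908288756) (nat_lit 12) (nat_lit 4) (nat_lit 13) (nat_lit 5) (nat_lit 13) (nat_lit 4) (nat_lit 486) (nat_lit 400) (nat_lit 314))) (XT.nd (nat_lit 78) (nat_lit 0) (nat_lit 0) (XT.lf (nat_lit 0) (nat_lit 69246202741) (nat_lit 152) (nat_lit 256306896812) (nat_lit 0) (nat_lit 59678088483) (nat_lit 10) (nat_lit 5) (nat_lit 12) (nat_lit 4) (nat_lit 10) (nat_lit 4) (nat_lit 487) (nat_lit 400) (nat_lit 313)) (XT.lf (nat_lit 0) (nat_lit 154142789081) (nat_lit 152) (nat_lit 113326855114) (nat_lit 0) (nat_lit 144573797493) (nat_lit 10) (nat_lit 5) (nat_lit 12) (nat_lit 4) (nat_lit 10) (nat_lit 4) (nat_lit 488) (nat_lit 400) (nat_lit 312))))) (XT.nd (nat_lit 312) (nat_lit 76) (nat_lit 0) (XT.nd (nat_lit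 156) (nat_lit 152) (nat_lit 0) (XT.nd (nat_lit 78) (nat_lit 0) (nat_lit 0) (XT.lf (nat_lit 0) (nat_lit 42420546078) (nat_lit 76) (nat_lit 204058761614) (nat_lit 76) (nat_lit 194488957683) (nat_lit 9) (nat_lit 4) (nat_lit 10) (nat_lit 5) (nat_lit 10) (nat_lit 4) (nat_lit 489) (nat_lit 400) (nat_lit 311)) (XT.lf (nat_lit 0) (nat_lit 214647088713) (nat_lit 76) (nat_lit 133516256250) (nat_lit 76) (nat_lit 123945700150) (nat_lit 9) (nat_lit 4) (nat_lit 10) (nat_lit 5) (nat_lit 10) (nat_lit 4) (nat_lit 490) (nat_lit 400) (nat_lit 310))) (XT.nd (nat_lit 78) (nat_lit 152) (nat_lit 0) (XT.lf (nat_lit 0) (nat_lit 400626276897) (nat_lit 76) (nat_lit 57343343567) (nat_lit 76) (nat_lit 47772091014) (nat_lit 9) (nat_lit 4) (nat_lit 10) (nat_lit 5) (nat_lit 10) (nat_lit 4) (nat_lit 491) (nat_lit 400) (nat_lit 309)) (XT.lf (nat_lit 0) (nat_lit 34742207883) (nat_lit 152) (nat_lit 481602196203) (nat_lit 0) (nat_lit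 25626115105) (nat_lit 7) (nat_lit 5) (nat_lit 9) (nat_lit 4) (nat_lit 7) (nat_lit 4) (nat_lit 492) (nat_lit 400) (nat_lit 308)))) (XT.nd (nat_lit 156) (nat_lit 76) (nat_lit 0) (XT.nd (nat_lit 78) (nat_lit 0) (nat_lit 0) (XT.lf (nat_lit 0) (nat_lit 125022878773) (nat_lit 152) (nat_lit 339987431501) (nat_lit 0) (nat_lit 115906217332) (nat_lit 7) (nat_lit 5) (nat_lit 9) (nat_lit 4) (nat_lit 7) (nat_lit 4) (nat_lit 493) (nat_lit 400) (nat_lit 307)) (XT.lf (nat_lit 0) (nat_lit 222515429336) (nat_lit 152) (nat_lit 187065074712) (nat_lit 0) (nat_lit 213398241354) (nat_lit 7) (nat_lit 5) (nat_lit 9) (nat_lit 4) (nat_lit 7) (nat_lit 4) (nat_lit 494) (nat_lit 400) (nat_lit 306))) (XT.nd (nat_lit 78) (nat_lit 76) (nat_lit 0) (XT.lf (nat_lit 0) (nat_lit 327797593203) (nat_lit 152) (nat_lit 21928919279) (nat_lit 0) (nat_lit 318679917685) (nat_lit 7) (nat_lit 5) (nat_lit 9) (nat_lit 4) (nat_lit 7) (nat_lit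 4) (nat_lit 495) (nat_lit 400) (nat_lit 305)) (XT.lf (nat_lit 0) (nat_lit 161570897161) (nat_lit 76) (nat_lit 282444942026) (nat_lit 76) (nat_lit 273326815085) (nat_lit 6) (nat_lit 4) (nat_lit 7) (nat_lit 5) (nat_lit 7) (nat_lit 4) (nat_lit 496) (nat_lit 400) (nat_lit 304)))))) (XT.nd (nat_lit 624) (nat_lit 76) (nat_lit 0) (XT.nd (nat_lit 312) (nat_lit 0) (nat_lit 0) (XT.nd (nat_lit 156) (nat_lit 152) (nat_lit 0) (XT.nd (nat_lit 78) (nat_lit 0) (nat_lit 0) (XT.lf (nat_lit 0) (nat_lit 360516068772) (nat_lit 76) (nat_lit 209388793302) (nat_lit 76) (nat_lit 200270248376) (nat_lit 6) (nat_lit 4) (nat_lit 7) (nat_lit 5) (nat_lit 7) (nat_lit 4) (nat_lit 497) (nat_lit 400) (nat_lit 303)) (XT.lf (nat_lit 0) (nat_lit 575360460798) (nat_lit 76) (nat_lit 130496517844) (nat_lit 76) (nat_lit 121377585896) (nat_lit 6) (nat_lit 4) (nat_lit 7) (nat_lit 5) (nat_lit 7) (nat_lit 4) (nat_lit 498) (nat_lit 400) (nat_lit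 302))) (XT.nd (nat_lit 78) (nat_lit 152) (nat_lit 0) (XT.lf (nat_lit 0) (nat_lit 807377225191) (nat_lit 76) (nat_lit 45300605871) (nat_lit 76) (nat_lit 36181315568) (nat_lit 6) (nat_lit 4) (nat_lit 7) (nat_lit 5) (nat_lit 7) (nat_lit 4) (nat_lit 499) (nat_lit 400) (nat_lit 301)) (XT.lf (nat_lit 0) (nat_lit 56446682717) (nat_lit 152) (nat_lit 851041952803) (nat_lit 0) (nat_lit 47761328325) (nat_lit 4) (nat_lit 5) (nat_lit 6) (nat_lit 4) (nat_lit 4) (nat_lit 4) (nat_lit 500) (nat_lit 400) (nat_lit 300)))) (XT.nd (nat_lit 156) (nat_lit 0) (nat_lit 0) (XT.nd (nat_lit 78) (nat_lit 0) (nat_lit 0) (XT.lf (nat_lit 0) (nat_lit 157433932550) (nat_lit 152) (nat_lit 720629340083) (nat_lit 0) (nat_lit 148748285557) (nat_lit 4) (nat_lit 5) (nat_lit 6) (nat_lit 4) (nat_lit 4) (nat_lit 4) (nat_lit 501) (nat_lit 400) (nat_lit 299)) (XT.lf (nat_lit 0) (nat_lit 266493866330) (nat_lit 152) (nat_lit 579796580149)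 (nat_lit 0) (nat_lit 257807948410) (nat_lit 4) (nat_lit 5) (nat_lit 6) (nat_lit 4) (nat_lit 4) (nat_lit 4) (nat_lit 502) (nat_lit 400) (nat_lit 298))) (XT.nd (nat_lit 78) (nat_lit 0) (nat_lit 0) (XT.lf (nat_lit 0) (nat_lit 384272765145) (nat_lit 152) (nat_lit 427709108498) (nat_lit 0) (nat_lit 375586596367) (nat_lit 4) (nat_lit 5) (nat_lit 6) (nat_lit 4) (nat_lit 4) (nat_lit 4) (nat_lit 503) (nat_lit 400) (nat_lit 297)) (XT.lf (nat_lit 0) (nat_lit 511468578026) (nat_lit 152) (nat_lit 263465666039) (nat_lit 0) (nat_lit 502782176972) (nat_lit 4) (nat_lit 5) (nat_lit 6) (nat_lit 4) (nat_lit 4) (nat_lit 4) (nat_lit 504) (nat_lit 400) (nat_lit 296))))) (XT.nd (nat_lit 54522) (nat_lit 0) (nat_lit 15200) (XT.nd (nat_lit 54366) (nat_lit 0) (nat_lit 16188) (XT.nd (nat_lit 78) (nat_lit 76) (nat_lit 0) (XT.lf (nat_lit 0) (nat_lit 648835057939) (nat_lit 152) (nat_lit 86092958298) (nat_lit 0) (nat_lit 640148441814)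 (nat_lit 4) (nat_lit 5) (nat_lit 6) (nat_lit 4) (nat_lit 4) (nat_lit 4) (nat_lit 505) (nat_lit 400) (nat_lit 295)) (XT.lf (nat_lit 0) (nat_lit 108947099835) (nat_lit 76) (nat_lit 689940098184) (nat_lit 76) (nat_lit 681253282920) (nat_lit 3) (nat_lit 4) (nat_lit 4) (nat_lit 5) (nat_lit 4) (nat_lit 4) (nat_lit 506) (nat_lit 400) (nat_lit 294))) (XT.nd (nat_lit 78) (nat_lit 228) (nat_lit 0) (XT.lf (nat_lit 0) (nat_lit 1556689496) (nat_lit 228) (nat_lit 839026713) (nat_lit 228) (nat_lit 839026713) (nat_lit 219) (nat_lit 3) (nat_lit 222) (nat_lit 3) (nat_lit 222) (nat_lit 5) (nat_lit 401) (nat_lit 401) (nat_lit 398)) (XT.lf (nat_lit 0) (nat_lit 1075045774) (nat_lit 228) (nat_lit 2972510558) (nat_lit 304) (nat_lit 2460177967) (nat_lit 216) (nat_lit 5) (nat_lit 219) (nat_lit 3) (nat_lit 220) (nat_lit 5) (nat_lit 402) (nat_lit 401) (nat_lit 397)))) (XT.nd (nat_lit 156) (nat_lit 684) (nat_lit 0) (XT.nd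 (nat_lit 78) (nat_lit 304) (nat_lit 0) (XT.lf (nat_lit 76) (nat_lit 2449758789) (nat_lit 0) (nat_lit 2919213176) (nat_lit 304) (nat_lit 1196083785) (nat_lit 217) (nat_lit 5) (nat_lit 216) (nat_lit 5) (nat_lit 220) (nat_lit 5) (nat_lit 403) (nat_lit 401) (nat_lit 396)) (XT.lf (nat_lit 76) (nat_lit 1530326686) (nat_lit 0) (nat_lit 1396105069) (nat_lit 380) (nat_lit 3715186153) (nat_lit 213) (nat_lit 5) (nat_lit 212) (nat_lit 5) (nat_lit 217) (nat_lit 5) (nat_lit 404) (nat_lit 401) (nat_lit 395))) (XT.nd (nat_lit 78) (nat_lit 380) (nat_lit 0) (XT.lf (nat_lit 0) (nat_lit 286973507) (nat_lit 380) (nat_lit 5952967037) (nat_lit 76) (nat_lit 498295074) (nat_lit 208) (nat_lit 5) (nat_lit 213) (nat_lit 5) (nat_lit 209) (nat_lit 5) (nat_lit 405) (nat_lit 401) (nat_lit 394)) (XT.lf (nat_lit 0) (nat_lit 150451528) (nat_lit 380) (nat_lit 4074275491) (nat_lit 456) (nat_lit 2627572504) (nat_lit 203) (nat_lit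 5) (nat_lit 208) (nat_lit 5) (nat_lit 209) (nat_lit 5) (nat_lit 406) (nat_lit 401) (nat_lit 393))))))))
noncomputable def xc47 : XT := (XT.nd (nat_lit 2496) (nat_lit 3420) (nat_lit 0) (XT.nd (nat_lit 1248) (nat_lit 2964) (nat_lit 0) (XT.nd (nat_lit 624) (nat_lit 2888) (nat_lit 0) (XT.nd (nat_lit 312) (nat_lit 2432) (nat_lit 0) (XT.nd (nat_lit 156) (nat_lit 1216) (nat_lit 0) (XT.nd (nat_lit 78) (nat_lit 456) (nat_lit 0) (XT.lf (nat_lit 0) (nat_lit 1204680002) (nat_lit 456) (nat_lit 305656335) (nat_lit 76) (nat_lit 5476478902) (nat_lit 202) (nat_lit 5) (nat_lit 208) (nat_lit 5) (nat_lit 203) (nat_lit 5) (nat_lit 407) (nat_lit 401) (nat_lit 392)) (XT.lf (nat_lit 0) (nat_lit 5049462826) (nat_lit 532) (nat_lit 643234979) (nat_lit 76) (nat_lit 1447373902) (nat_lit 196) (nat_lit 5) (nat_lit 203) (nat_lit 5) (nat_lit 197) (nat_lit 5) (nat_lit 408) (nat_lit 401) (nat_lit 391))) (XT.nd (nat_lit 78) (nat_lit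 608) (nat_lit 0) (XT.lf (nat_lit 0) (nat_lit 1658120499) (nat_lit 608) (nat_lit 861328351) (nat_lit 76) (nat_lit 4793560584) (nat_lit 188) (nat_lit 5) (nat_lit 196) (nat_lit 5) (nat_lit 189) (nat_lit 5) (nat_lit 409) (nat_lit 401) (nat_lit 390)) (XT.lf (nat_lit 0) (nat_lit 5473241639) (nat_lit 684) (nat_lit 961679602) (nat_lit 76) (nat_lit 1071187863) (nat_lit 180) (nat_lit 5) (nat_lit 189) (nat_lit 5) (nat_lit 181) (nat_lit 5) (nat_lit 410) (nat_lit 401) (nat_lit 389)))) (XT.nd (nat_lit 156) (nat_lit 912) (nat_lit 0) (XT.nd (nat_lit 78) (nat_lit 760) (nat_lit 0) (XT.lf (nat_lit 0) (nat_lit 1706647200) (nat_lit 760) (nat_lit 967349895) (nat_lit 76) (nat_lit 5044823672) (nat_lit 170) (nat_lit 5) (nat_lit 180) (nat_lit 5) (nat_lit 171) (nat_lit 5) (nat_lit 411) (nat_lit 401) (nat_lit 388)) (XT.lf (nat_lit 0) (nat_lit 5565953953) (nat_lit 836) (nat_lit 867779271) (nat_lit 76) (nat_lit 1518579632)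 (nat_lit 160) (nat_lit 5) (nat_lit 171) (nat_lit 5) (nat_lit 161) (nat_lit 5) (nat_lit 412) (nat_lit 401) (nat_lit 387))) (XT.nd (nat_lit 78) (nat_lit 380) (nat_lit 0) (XT.lf (nat_lit 0) (nat_lit 1413736073) (nat_lit 532) (nat_lit 675242512) (nat_lit 76) (nat_lit 6117673016) (nat_lit 153) (nat_lit 5) (nat_lit 160) (nat_lit 5) (nat_lit 154) (nat_lit 5) (nat_lit 413) (nat_lit 401) (nat_lit 386)) (XT.lf (nat_lit 0) (nat_lit 5385675249) (nat_lit 456) (nat_lit 404366397) (nat_lit 76) (nat_lit 2691785918) (nat_lit 148) (nat_lit 5) (nat_lit 154) (nat_lit 5) (nat_lit 149) (nat_lit 5) (nat_lit 414) (nat_lit 401) (nat_lit 385))))) (XT.nd (nat_lit 312) (nat_lit 1140) (nat_lit 0) (XT.nd (nat_lit 156) (nat_lit 684) (nat_lit 0) (XT.nd (nat_lit 78) (nat_lit 608) (nat_lit 0) (XT.lf (nat_lit 0) (nat_lit 829323776) (nat_lit 456) (nat_lit 22274441) (nat_lit 76) (nat_lit 7928652761) (nat_lit 142) (nat_lit 5) (nat_lit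 148) (nat_lit 5) (nat_lit 143) (nat_lit 5) (nat_lit 415) (nat_lit 401) (nat_lit 384)) (XT.lf (nat_lit 0) (nat_lit 411607924) (nat_lit 304) (nat_lit 4573578170) (nat_lit 380) (nat_lit 4113598171) (nat_lit 134) (nat_lit 5) (nat_lit 138) (nat_lit 5) (nat_lit 139) (nat_lit 5) (nat_lit 416) (nat_lit 401) (nat_lit 383))) (XT.nd (nat_lit 78) (nat_lit 304) (nat_lit 0) (XT.lf (nat_lit 0) (nat_lit 23053917) (nat_lit 380) (nat_lit 8461248808) (nat_lit 76) (nat_lit 958820691) (nat_lit 129) (nat_lit 5) (nat_lit 134) (nat_lit 5) (nat_lit 130) (nat_lit 5) (nat_lit 417) (nat_lit 401) (nat_lit 382)) (XT.lf (nat_lit 0) (nat_lit 1571373956) (nat_lit 304) (nat_lit 2834936588) (nat_lit 380) (nat_lit 5402349914) (nat_lit 125) (nat_lit 5) (nat_lit 129) (nat_lit 5) (nat_lit 130) (nat_lit 5) (nat_lit 418) (nat_lit 401) (nat_lit 381)))) (XT.nd (nat_lit 156) (nat_lit 532) (nat_lit 0) (XT.nd (nat_lit 78) (nat_lit 380) (nat_lit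 0) (XT.lf (nat_lit 0) (nat_lit 2277742569) (nat_lit 228) (nat_lit 6911129283) (nat_lit 304) (nat_lit 1012147699) (nat_lit 122) (nat_lit 5) (nat_lit 125) (nat_lit 5) (nat_lit 126) (nat_lit 5) (nat_lit 419) (nat_lit 401) (nat_lit 380)) (XT.lf (nat_lit 0) (nat_lit 3050433934) (nat_lit 304) (nat_lit 620208148) (nat_lit 380) (nat_lit 6948187467) (nat_lit 117) (nat_lit 5) (nat_lit 121) (nat_lit 5) (nat_lit 122) (nat_lit 5) (nat_lit 420) (nat_lit 401) (nat_lit 379))) (XT.nd (nat_lit 78) (nat_lit 304) (nat_lit 0) (XT.lf (nat_lit 0) (nat_lit 3884405467) (nat_lit 228) (nat_lit 4934039791) (nat_lit 304) (nat_lit 2244506135) (nat_lit 114) (nat_lit 5) (nat_lit 117) (nat_lit 5) (nat_lit 118) (nat_lit 5) (nat_lit 421) (nat_lit 401) (nat_lit 378)) (XT.lf (nat_lit 0) (nat_lit 2831198716) (nat_lit 304) (nat_lit 6724547418) (nat_lit 76) (nat_lit 1980327414) (nat_lit 110) (nat_lit 5) (nat_lit 114) (nat_lit 5) (nat_lit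 111) (nat_lit 5) (nat_lit 422) (nat_lit 401) (nat_lit 377)))))) (XT.nd (nat_lit 624) (nat_lit 1368) (nat_lit 0) (XT.nd (nat_lit 312) (nat_lit 684) (nat_lit 0) (XT.nd (nat_lit 156) (nat_lit 456) (nat_lit 0) (XT.nd (nat_lit 78) (nat_lit 304) (nat_lit 0) (XT.lf (nat_lit 0) (nat_lit 5801914003) (nat_lit 152) (nat_lit 2576298341) (nat_lit 228) (nat_lit 3659806457) (nat_lit 108) (nat_lit 5) (nat_lit 110) (nat_lit 5) (nat_lit 111) (nat_lit 5) (nat_lit 423) (nat_lit 401) (nat_lit 376)) (XT.lf (nat_lit 0) (nat_lit 1887371383) (nat_lit 304) (nat_lit 5697969980) (nat_lit 76) (nat_lit 4985600544) (nat_lit 104) (nat_lit 5) (nat_lit 108) (nat_lit 5) (nat_lit 105) (nat_lit 5) (nat_lit 424) (nat_lit 401) (nat_lit 375))) (XT.nd (nat_lit 78) (nat_lit 304) (nat_lit 0) (XT.lf (nat_lit 0) (nat_lit 7887729029) (nat_lit 228) (nat_lit 5104183863) (nat_lit 76) (nat_lit 144710909) (nat_lit 102) (nat_lit 5) (nat_lit 105)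 (nat_lit 5) (nat_lit 103) (nat_lit 5) (nat_lit 425) (nat_lit 401) (nat_lit 374)) (XT.lf (nat_lit 0) (nat_lit 838402309) (nat_lit 304) (nat_lit 4483730414) (nat_lit 76) (nat_lit 8413063071) (nat_lit 98) (nat_lit 5) (nat_lit 102) (nat_lit 5) (nat_lit 99) (nat_lit 5) (nat_lit 426) (nat_lit 401) (nat_lit 373)))) (XT.nd (nat_lit 156) (nat_lit 380) (nat_lit 0) (XT.nd (nat_lit 78) (nat_lit 152) (nat_lit 0) (XT.lf (nat_lit 0) (nat_lit 7402802956) (nat_lit 228) (nat_lit 3830371260) (nat_lit 76) (nat_lit 3135481203) (nat_lit 96) (nat_lit 5) (nat_lit 99) (nat_lit 5) (nat_lit 97) (nat_lit 5) (nat_lit 427) (nat_lit 401) (nat_lit 372)) (XT.lf (nat_lit 0) (nat_lit 11950837487) (nat_lit 152) (nat_lit 2767944137) (nat_lit 228) (nat_lit 322693539) (nat_lit 94) (nat_lit 5) (nat_lit 96) (nat_lit 5) (nat_lit 97) (nat_lit 5) (nat_lit 428) (nat_lit 401) (nat_lit 371))) (XT.nd (nat_lit 78) (nat_lit 152) (nat_lit 0)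 (XT.lf (nat_lit 0) (nat_lit 6890517975) (nat_lit 228) (nat_lit 2378453335) (nat_lit 76) (nat_lit 6480909194) (nat_lit 91) (nat_lit 5) (nat_lit 94) (nat_lit 5) (nat_lit 92) (nat_lit 5) (nat_lit 429) (nat_lit 401) (nat_lit 370)) (XT.lf (nat_lit 0) (nat_lit 14886040053) (nat_lit 228) (nat_lit 1534942427) (nat_lit 76) (nat_lit 82887122) (nat_lit 89) (nat_lit 5) (nat_lit 92) (nat_lit 5) (nat_lit 90) (nat_lit 4) (nat_lit 430) (nat_lit 401) (nat_lit 369))))) (XT.nd (nat_lit 312) (nat_lit 608) (nat_lit 0) (XT.nd (nat_lit 156) (nat_lit 304) (nat_lit 0) (XT.nd (nat_lit 78) (nat_lit 228) (nat_lit 0) (XT.lf (nat_lit 0) (nat_lit 6352967305) (nat_lit 228) (nat_lit 754618941) (nat_lit 76) (nat_lit 10188328757) (nat_lit 86) (nat_lit 5) (nat_lit 89) (nat_lit 5) (nat_lit 87) (nat_lit 5) (nat_lit 431) (nat_lit 401) (nat_lit 368)) (XT.lf (nat_lit 0) (nat_lit 147022435) (nat_lit 76) (nat_lit 15012818100) (nat_lit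 152) (nat_lit 2977405837) (nat_lit 83) (nat_lit 5) (nat_lit 84) (nat_lit 5) (nat_lit 85) (nat_lit 4) (nat_lit 432) (nat_lit 401) (nat_lit 367))) (XT.nd (nat_lit 78) (nat_lit 76) (nat_lit 0) (XT.lf (nat_lit 0) (nat_lit 1064225936) (nat_lit 152) (nat_lit 4738687627) (nat_lit 228) (nat_lit 13220702950) (nat_lit 80) (nat_lit 5) (nat_lit 82) (nat_lit 5) (nat_lit 83) (nat_lit 5) (nat_lit 433) (nat_lit 401) (nat_lit 366)) (XT.lf (nat_lit 0) (nat_lit 2034874019) (nat_lit 76) (nat_lit 13488929736) (nat_lit 152) (nat_lit 4437531593) (nat_lit 79) (nat_lit 5) (nat_lit 80) (nat_lit 5) (nat_lit 81) (nat_lit 4) (nat_lit 434) (nat_lit 401) (nat_lit 365)))) (XT.nd (nat_lit 156) (nat_lit 304) (nat_lit 0) (XT.nd (nat_lit 78) (nat_lit 76) (nat_lit 0) (XT.lf (nat_lit 0) (nat_lit 3054643273) (nat_lit 152) (nat_lit 2172572951) (nat_lit 228) (nat_lit 15725891814) (nat_lit 76) (nat_lit 5) (nat_lit 78) (nat_lit 5) (nat_lit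 79) (nat_lit 5) (nat_lit 435) (nat_lit 401) (nat_lit 364)) (XT.lf (nat_lit 0) (nat_lit 4052360711) (nat_lit 76) (nat_lit 11895523019) (nat_lit 152) (nat_lit 6050793090) (nat_lit 75) (nat_lit 5) (nat_lit 76) (nat_lit 5) (nat_lit 77) (nat_lit 4) (nat_lit 436) (nat_lit 401) (nat_lit 363))) (XT.nd (nat_lit 78) (nat_lit 76) (nat_lit 0) (XT.lf (nat_lit 0) (nat_lit 4602179211) (nat_lit 228) (nat_lit 17957123248) (nat_lit 76) (nat_lit 547925008) (nat_lit 72) (nat_lit 5) (nat_lit 75) (nat_lit 5) (nat_lit 73) (nat_lit 4) (nat_lit 437) (nat_lit 401) (nat_lit 362)) (XT.lf (nat_lit 0) (nat_lit 6158658643) (nat_lit 76) (nat_lit 10259095005) (nat_lit 152) (nat_lit 7855632807) (nat_lit 71) (nat_lit 5) (nat_lit 72) (nat_lit 5) (nat_lit 73) (nat_lit 4) (nat_lit 438) (nat_lit 401) (nat_lit 361))))))) (XT.nd (nat_lit 1248) (nat_lit 1520) (nat_lit 0) (XT.nd (nat_lit 624) (nat_lit 912) (nat_lit 0) (XT.nd (nat_lit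 312) (nat_lit 456) (nat_lit 0) (XT.nd (nat_lit 156) (nat_lit 228) (nat_lit 0) (XT.nd (nat_lit 78) (nat_lit 76) (nat_lit 0) (XT.lf (nat_lit 0) (nat_lit 3923338207) (nat_lit 228) (nat_lit 18239079907) (nat_lit 76) (nat_lit 3347861095) (nat_lit 68) (nat_lit 5) (nat_lit 71) (nat_lit 5) (nat_lit 69) (nat_lit 4) (nat_lit 439) (nat_lit 401) (nat_lit 360)) (XT.lf (nat_lit 0) (nat_lit 8291236303) (nat_lit 76) (nat_lit 8615997306) (nat_lit 152) (nat_lit 9905560618) (nat_lit 67) (nat_lit 5) (nat_lit 68) (nat_lit 5) (nat_lit 69) (nat_lit 4) (nat_lit 440) (nat_lit 401) (nat_lit 359))) (XT.nd (nat_lit 78) (nat_lit 76) (nat_lit 0) (XT.lf (nat_lit 0) (nat_lit 3109367556) (nat_lit 152) (nat_lit 18815169849) (nat_lit 76) (nat_lit 6268569221) (nat_lit 65) (nat_lit 5) (nat_lit 67) (nat_lit 5) (nat_lit 66) (nat_lit 4) (nat_lit 441) (nat_lit 401) (nat_lit 358)) (XT.lf (nat_lit 0) (nat_lit 10357541819) (nat_lit 76)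 (nat_lit 7016937124) (nat_lit 152) (nat_lit 12273445309) (nat_lit 64) (nat_lit 5) (nat_lit 65) (nat_lit 5) (nat_lit 66) (nat_lit 4) (nat_lit 442) (nat_lit 401) (nat_lit 357)))) (XT.nd (nat_lit 156) (nat_lit 228) (nat_lit 0) (XT.nd (nat_lit 78) (nat_lit 76) (nat_lit 0) (XT.lf (nat_lit 0) (nat_lit 2093061522) (nat_lit 152) (nat_lit 19828904562) (nat_lit 76) (nat_lit 9266874452) (nat_lit 62) (nat_lit 5) (nat_lit 64) (nat_lit 5) (nat_lit 63) (nat_lit 4) (nat_lit 443) (nat_lit 401) (nat_lit 356)) (XT.lf (nat_lit 0) (nat_lit 12224165079) (nat_lit 76) (nat_lit 5532726473) (nat_lit 152) (nat_lit 15057179067) (nat_lit 61) (nat_lit 5) (nat_lit 62) (nat_lit 5) (nat_lit 63) (nat_lit 4) (nat_lit 444) (nat_lit 401) (nat_lit 355))) (XT.nd (nat_lit 78) (nat_lit 76) (nat_lit 0) (XT.lf (nat_lit 0) (nat_lit 781292816) (nat_lit 152) (nat_lit 21475458664) (nat_lit 76) (nat_lit 12278480413) (nat_lit 59) (nat_lit 5)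 (nat_lit 61) (nat_lit 5) (nat_lit 60) (nat_lit 4) (nat_lit 445) (nat_lit 401) (nat_lit 354)) (XT.lf (nat_lit 0) (nat_lit 13702708695) (nat_lit 76) (nat_lit 4261680248) (nat_lit 152) (nat_lit 18387102090) (nat_lit 58) (nat_lit 5) (nat_lit 59) (nat_lit 5) (nat_lit 60) (nat_lit 4) (nat_lit 446) (nat_lit 401) (nat_lit 353))))) (XT.nd (nat_lit 312) (nat_lit 456) (nat_lit 0) (XT.nd (nat_lit 156) (nat_lit 228) (nat_lit 0) (XT.nd (nat_lit 78) (nat_lit 152) (nat_lit 0) (XT.lf (nat_lit 0) (nat_lit 14240850656) (nat_lit 76) (nat_lit 23049269150) (nat_lit 76) (nat_lit 984532439) (nat_lit 57) (nat_lit 4) (nat_lit 58) (nat_lit 5) (nat_lit 58) (nat_lit 4) (nat_lit 447) (nat_lit 401) (nat_lit 352)) (XT.lf (nat_lit 0) (nat_lit 14531381868) (nat_lit 76) (nat_lit 3339174924) (nat_lit 152) (nat_lit 22435689135) (nat_lit 55) (nat_lit 5) (nat_lit 56) (nat_lit 5) (nat_lit 57) (nat_lit 4) (nat_lit 448) (nat_lit 401)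 (nat_lit 351))) (XT.nd (nat_lit 78) (nat_lit 152) (nat_lit 0) (XT.lf (nat_lit 0) (nat_lit 14591701044) (nat_lit 76) (nat_lit 24474608161) (nat_lit 76) (nat_lit 3389914009) (nat_lit 54) (nat_lit 4) (nat_lit 55) (nat_lit 5) (nat_lit 55) (nat_lit 4) (nat_lit 449) (nat_lit 401) (nat_lit 350)) (XT.lf (nat_lit 0) (nat_lit 14351047411) (nat_lit 76) (nat_lit 2950023795) (nat_lit 152) (nat_lit 27430146947) (nat_lit 52) (nat_lit 5) (nat_lit 53) (nat_lit 5) (nat_lit 54) (nat_lit 4) (nat_lit 450) (nat_lit 401) (nat_lit 349)))) (XT.nd (nat_lit 156) (nat_lit 228) (nat_lit 0) (XT.nd (nat_lit 78) (nat_lit 152) (nat_lit 0) (XT.lf (nat_lit 0) (nat_lit 13706413767) (nat_lit 76) (nat_lit 26784626239) (nat_lit 76) (nat_lit 6646270984) (nat_lit 51) (nat_lit 4) (nat_lit 52) (nat_lit 5) (nat_lit 52) (nat_lit 4) (nat_lit 451) (nat_lit 401) (nat_lit 348)) (XT.lf (nat_lit 0) (nat_lit 12674086284) (nat_lit 76) (nat_lit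 3344511022) (nat_lit 152) (nat_lit 33668760445) (nat_lit 49) (nat_lit 5) (nat_lit 50) (nat_lit 5) (nat_lit 51) (nat_lit 4) (nat_lit 452) (nat_lit 401) (nat_lit 347))) (XT.nd (nat_lit 78) (nat_lit 152) (nat_lit 0) (XT.lf (nat_lit 0) (nat_lit 11018440643) (nat_lit 76) (nat_lit 30295747461) (nat_lit 76) (nat_lit 11069253465) (nat_lit 48) (nat_lit 4) (nat_lit 49) (nat_lit 5) (nat_lit 49) (nat_lit 4) (nat_lit 453) (nat_lit 401) (nat_lit 346)) (XT.lf (nat_lit 0) (nat_lit 8843972669) (nat_lit 76) (nat_lit 4859167391) (nat_lit 152) (nat_lit 41542068413) (nat_lit 46) (nat_lit 5) (nat_lit 47) (nat_lit 5) (nat_lit 48) (nat_lit 4) (nat_lit 454) (nat_lit 401) (nat_lit 345)))))) (XT.nd (nat_lit 624) (nat_lit 760) (nat_lit 0) (XT.nd (nat_lit 312) (nat_lit 380) (nat_lit 0) (XT.nd (nat_lit 156) (nat_lit 152) (nat_lit 0) (XT.nd (nat_lit 78) (nat_lit 152) (nat_lit 0) (XT.lf (nat_lit 0) (nat_lit 5767782974) (nat_lit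 76) (nat_lit 35426126035) (nat_lit 76) (nat_lit 17076715037) (nat_lit 45) (nat_lit 4) (nat_lit 46) (nat_lit 5) (nat_lit 46) (nat_lit 4) (nat_lit 455) (nat_lit 401) (nat_lit 344)) (XT.lf (nat_lit 0) (nat_lit 1982845469) (nat_lit 76) (nat_lit 7943680931) (nat_lit 152) (nat_lit 51560261684) (nat_lit 43) (nat_lit 5) (nat_lit 44) (nat_lit 5) (nat_lit 45) (nat_lit 4) (nat_lit 456) (nat_lit 401) (nat_lit 343))) (XT.nd (nat_lit 78) (nat_lit 152) (nat_lit 0) (XT.lf (nat_lit 0) (nat_lit 39715646026) (nat_lit 152) (nat_lit 2960797107) (nat_lit 0) (nat_lit 22208609869) (nat_lit 43) (nat_lit 5) (nat_lit 45) (nat_lit 4) (nat_lit 43) (nat_lit 4) (nat_lit 457) (nat_lit 401) (nat_lit 342)) (XT.lf (nat_lit 0) (nat_lit 4261024247) (nat_lit 152) (nat_lit 8785917322) (nat_lit 76) (nat_lit 55453887320) (nat_lit 41) (nat_lit 5) (nat_lit 43) (nat_lit 5) (nat_lit 42) (nat_lit 4) (nat_lit 458) (nat_lit 401) (nat_lit 341))))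 (XT.nd (nat_lit 156) (nat_lit 228) (nat_lit 0) (XT.nd (nat_lit 78) (nat_lit 76) (nat_lit 0) (XT.lf (nat_lit 0) (nat_lit 36378412188) (nat_lit 152) (nat_lit 16266706933) (nat_lit 0) (nat_lit 19679400489) (nat_lit 40) (nat_lit 5) (nat_lit 42) (nat_lit 4) (nat_lit 40) (nat_lit 4) (nat_lit 459) (nat_lit 401) (nat_lit 340)) (XT.lf (nat_lit 0) (nat_lit 51282122171) (nat_lit 76) (nat_lit 20912958207) (nat_lit 76) (nat_lit 4202530941) (nat_lit 39) (nat_lit 4) (nat_lit 40) (nat_lit 5) (nat_lit 40) (nat_lit 4) (nat_lit 460) (nat_lit 401) (nat_lit 339))) (XT.nd (nat_lit 78) (nat_lit 76) (nat_lit 0) (XT.lf (nat_lit 0) (nat_lit 30293627038) (nat_lit 152) (nat_lit 36051780646) (nat_lit 0) (nat_lit 14368867766) (nat_lit 37) (nat_lit 5) (nat_lit 39) (nat_lit 4) (nat_lit 37) (nat_lit 4) (nat_lit 461) (nat_lit 401) (nat_lit 338)) (XT.lf (nat_lit 0) (nat_lit 36205281031) (nat_lit 76) (nat_lit 32517792875) (nat_lit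 76) (nat_lit 16583712641) (nat_lit 36) (nat_lit 4) (nat_lit 37) (nat_lit 5) (nat_lit 37) (nat_lit 4) (nat_lit 462) (nat_lit 401) (nat_lit 337))))) (XT.nd (nat_lit 312) (nat_lit 380) (nat_lit 0) (XT.nd (nat_lit 156) (nat_lit 152) (nat_lit 0) (XT.nd (nat_lit 78) (nat_lit 76) (nat_lit 0) (XT.lf (nat_lit 0) (nat_lit 20402750185) (nat_lit 152) (nat_lit 64575079505) (nat_lit 0) (nat_lit 5219216134) (nat_lit 34) (nat_lit 5) (nat_lit 36) (nat_lit 4) (nat_lit 34) (nat_lit 4) (nat_lit 463) (nat_lit 401) (nat_lit 336)) (XT.lf (nat_lit 0) (nat_lit 12103089213) (nat_lit 76) (nat_lit 49237165710) (nat_lit 76) (nat_lit 34046020972) (nat_lit 33) (nat_lit 4) (nat_lit 34) (nat_lit 5) (nat_lit 34) (nat_lit 4) (nat_lit 464) (nat_lit 401) (nat_lit 335))) (XT.nd (nat_lit 78) (nat_lit 76) (nat_lit 0) (XT.lf (nat_lit 0) (nat_lit 5519319839) (nat_lit 152) (nat_lit 3883586000) (nat_lit 76) (nat_lit 91529016255) (nat_lit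 32) (nat_lit 5) (nat_lit 34) (nat_lit 5) (nat_lit 33) (nat_lit 4) (nat_lit 465) (nat_lit 401) (nat_lit 334)) (XT.lf (nat_lit 0) (nat_lit 48901070400) (nat_lit 152) (nat_lit 23479655742) (nat_lit 0) (nat_lit 34420387916) (nat_lit 31) (nat_lit 5) (nat_lit 33) (nat_lit 4) (nat_lit 31) (nat_lit 4) (nat_lit 466) (nat_lit 401) (nat_lit 333)))) (XT.nd (nat_lit 156) (nat_lit 152) (nat_lit 0) (XT.nd (nat_lit 78) (nat_lit 152) (nat_lit 0) (XT.lf (nat_lit 0) (nat_lit 66397675952) (nat_lit 76) (nat_lit 30583603012) (nat_lit 76) (nat_lit 16097166613) (nat_lit 30) (nat_lit 4) (nat_lit 31) (nat_lit 5) (nat_lit 31) (nat_lit 4) (nat_lit 467) (nat_lit 401) (nat_lit 332)) (XT.lf (nat_lit 0) (nat_lit 29462052479) (nat_lit 152) (nat_lit 74645766717) (nat_lit 0) (nat_lit 15660372388) (nat_lit 28) (nat_lit 5) (nat_lit 30) (nat_lit 4) (nat_lit 28) (nat_lit 4) (nat_lit 468) (nat_lit 401) (nat_lit 331))) (XT.nd (nat_lit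 78) (nat_lit 76) (nat_lit 0) (XT.lf (nat_lit 0) (nat_lit 18713899628) (nat_lit 76) (nat_lit 60996004252) (nat_lit 76) (nat_lit 47189626015) (nat_lit 27) (nat_lit 4) (nat_lit 28) (nat_lit 5) (nat_lit 28) (nat_lit 4) (nat_lit 469) (nat_lit 401) (nat_lit 330)) (XT.lf (nat_lit 0) (nat_lit 684697998) (nat_lit 152) (nat_lit 12407097474) (nat_lit 76) (nat_lit 121445640593) (nat_lit 26) (nat_lit 5) (nat_lit 28) (nat_lit 5) (nat_lit 27) (nat_lit 4) (nat_lit 470) (nat_lit 401) (nat_lit 329))))))))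
noncomputable def xc48 : XT := (XT.nd (nat_lit 2418) (nat_lit 0) (nat_lit 0) (XT.nd (nat_lit 1170) (nat_lit 608) (nat_lit 0) (XT.nd (nat_lit 546) (nat_lit 532) (nat_lit 0) (XT.nd (nat_lit 234) (nat_lit 228) (nat_lit 0) (XT.nd (nat_lit 78) (nat_lit 228) (nat_lit 0) (XT.lf (nat_lit 0) (nat_lit 52821352651) (nat_lit 152) (nat_lit 50157616241) (nat_lit 0) (nat_lit 39664441913) (nat_lit 25) (nat_lit 5) (nat_lit 27) (nat_lit 4) (nat_lit 25) (nat_lit 4) (nat_lit 471) (nat_lit 401) (nat_lit 328)) (XT.nd (nat_lit 78) (nat_lit 152) (nat_lit 0) (XT.lf (nat_lit 0) (nat_lit 56344804000) (nat_lit 76) (nat_lit 54074501975) (nat_lit 76) (nat_lit 40914039294) (nat_lit 24) (nat_lit 4) (nat_lit 25) (nat_lit 5) (nat_lit 25) (nat_lit 4) (nat_lit 472) (nat_lit 401) (nat_lit 327)) (XT.lf (nat_lit 0) (nat_lit 12582564931) (nat_lit 152) (nat_lit 148028104594) (nat_lit 0) (nat_lit 45658725) (nat_lit 22) (nat_lit 5) (nat_lit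 24) (nat_lit 4) (nat_lit 22) (nat_lit 4) (nat_lit 473) (nat_lit 401) (nat_lit 326)))) (XT.nd (nat_lit 156) (nat_lit 152) (nat_lit 0) (XT.nd (nat_lit 78) (nat_lit 76) (nat_lit 0) (XT.lf (nat_lit 0) (nat_lit 71510094166) (nat_lit 152) (nat_lit 40082000639) (nat_lit 0) (nat_lit 58970287751) (nat_lit 22) (nat_lit 5) (nat_lit 24) (nat_lit 4) (nat_lit 22) (nat_lit 4) (nat_lit 474) (nat_lit 401) (nat_lit 325)) (XT.lf (nat_lit 0) (nat_lit 78974585351) (nat_lit 76) (nat_lit 57384238884) (nat_lit 76) (nat_lit 44841747091) (nat_lit 21) (nat_lit 4) (nat_lit 22) (nat_lit 5) (nat_lit 22) (nat_lit 4) (nat_lit 475) (nat_lit 401) (nat_lit 324))) (XT.nd (nat_lit 78) (nat_lit 0) (nat_lit 0) (XT.lf (nat_lit 0) (nat_lit 14247382376) (nat_lit 152) (nat_lit 176082929108) (nat_lit 0) (nat_lit 2299784040) (nat_lit 19) (nat_lit 5) (nat_lit 21) (nat_lit 4) (nat_lit 19) (nat_lit 4) (nat_lit 476) (nat_lit 401) (nat_lit 323))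 (XT.lf (nat_lit 0) (nat_lit 79266542745) (nat_lit 152) (nat_lit 58215234810) (nat_lit 0) (nat_lit 67316751763) (nat_lit 19) (nat_lit 5) (nat_lit 21) (nat_lit 4) (nat_lit 19) (nat_lit 4) (nat_lit 477) (nat_lit 401) (nat_lit 322))))) (XT.nd (nat_lit 312) (nat_lit 228) (nat_lit 0) (XT.nd (nat_lit 156) (nat_lit 228) (nat_lit 0) (XT.nd (nat_lit 78) (nat_lit 0) (nat_lit 0) (XT.lf (nat_lit 0) (nat_lit 71318199248) (nat_lit 76) (nat_lit 79259761779) (nat_lit 76) (nat_lit 67307940568) (nat_lit 18) (nat_lit 4) (nat_lit 19) (nat_lit 5) (nat_lit 19) (nat_lit 4) (nat_lit 478) (nat_lit 401) (nat_lit 321)) (XT.lf (nat_lit 0) (nat_lit 213248864035) (nat_lit 76) (nat_lit 15337742507) (nat_lit 76) (nat_lit 3384041455) (nat_lit 18) (nat_lit 4) (nat_lit 19) (nat_lit 5) (nat_lit 19) (nat_lit 4) (nat_lit 479) (nat_lit 401) (nat_lit 320))) (XT.nd (nat_lit 78) (nat_lit 76) (nat_lit 0) (XT.lf (nat_lit 0) (nat_lit 66325911612)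 (nat_lit 152) (nat_lit 125726560214) (nat_lit 0) (nat_lit 54939776712) (nat_lit 16) (nat_lit 5) (nat_lit 18) (nat_lit 4) (nat_lit 16) (nat_lit 4) (nat_lit 480) (nat_lit 401) (nat_lit 319)) (XT.lf (nat_lit 0) (nat_lit 9875960778) (nat_lit 76) (nat_lit 132344107010) (nat_lit 76) (nat_lit 120956437195) (nat_lit 15) (nat_lit 4) (nat_lit 16) (nat_lit 5) (nat_lit 16) (nat_lit 4) (nat_lit 481) (nat_lit 401) (nat_lit 318)))) (XT.nd (nat_lit 156) (nat_lit 76) (nat_lit 0) (XT.nd (nat_lit 78) (nat_lit 152) (nat_lit 0) (XT.lf (nat_lit 0) (nat_lit 160777561975) (nat_lit 76) (nat_lit 65579239390) (nat_lit 76) (nat_lit 54190148358) (nat_lit 15) (nat_lit 4) (nat_lit 16) (nat_lit 5) (nat_lit 16) (nat_lit 4) (nat_lit 482) (nat_lit 401) (nat_lit 317)) (XT.lf (nat_lit 0) (nat_lit 17827802647) (nat_lit 152) (nat_lit 274461252879) (nat_lit 0) (nat_lit 6979796005) (nat_lit 13) (nat_lit 5) (nat_lit 15) (nat_lit 4) (nat_lit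 13) (nat_lit 4) (nat_lit 483) (nat_lit 401) (nat_lit 316))) (XT.nd (nat_lit 78) (nat_lit 76) (nat_lit 0) (XT.lf (nat_lit 0) (nat_lit 96942899786) (nat_lit 152) (nat_lit 136245741416) (nat_lit 0) (nat_lit 86093732702) (nat_lit 13) (nat_lit 5) (nat_lit 15) (nat_lit 4) (nat_lit 13) (nat_lit 4) (nat_lit 484) (nat_lit 401) (nat_lit 315)) (XT.lf (nat_lit 0) (nat_lit 13423796101) (nat_lit 76) (nat_lit 169156875113) (nat_lit 76) (nat_lit 158306633545) (nat_lit 12) (nat_lit 4) (nat_lit 13) (nat_lit 5) (nat_lit 13) (nat_lit 4) (nat_lit 485) (nat_lit 401) (nat_lit 314)))))) (XT.nd (nat_lit 624) (nat_lit 228) (nat_lit 0) (XT.nd (nat_lit 312) (nat_lit 228) (nat_lit 0) (XT.nd (nat_lit 156) (nat_lit 152) (nat_lit 0) (XT.nd (nat_lit 78) (nat_lit 0) (nat_lit 0) (XT.lf (nat_lit 0) (nat_lit 179900755987) (nat_lit 76) (nat_lit 97526607800) (nat_lit 76) (nat_lit 86675371339) (nat_lit 12) (nat_lit 4) (nat_lit 13)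 (nat_lit 5) (nat_lit 13) (nat_lit 4) (nat_lit 486) (nat_lit 401) (nat_lit 313)) (XT.lf (nat_lit 0) (nat_lit 359666768861) (nat_lit 76) (nat_lit 20180751162) (nat_lit 76) (nat_lit 9328593504) (nat_lit 12) (nat_lit 4) (nat_lit 13) (nat_lit 5) (nat_lit 13) (nat_lit 4) (nat_lit 487) (nat_lit 401) (nat_lit 312))) (XT.nd (nat_lit 78) (nat_lit 0) (nat_lit 0) (XT.lf (nat_lit 0) (nat_lit 75060950253) (nat_lit 152) (nat_lit 276250230333) (nat_lit 0) (nat_lit 64724749665) (nat_lit 10) (nat_lit 5) (nat_lit 12) (nat_lit 4) (nat_lit 10) (nat_lit 4) (nat_lit 488) (nat_lit 401) (nat_lit 311)) (XT.lf (nat_lit 0) (nat_lit 166728889330) (nat_lit 152) (nat_lit 121873357019) (nat_lit 0) (nat_lit 156391936572) (nat_lit 10) (nat_lit 5) (nat_lit 12) (nat_lit 4) (nat_lit 10) (nat_lit 4) (nat_lit 489) (nat_lit 401) (nat_lit 310)))) (XT.nd (nat_lit 156) (nat_lit 152) (nat_lit 0) (XT.nd (nat_lit 78) (nat_lit 0) (nat_lit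 0) (XT.lf (nat_lit 0) (nat_lit 46311253064) (nat_lit 76) (nat_lit 220129971945) (nat_lit 76) (nat_lit 209792322735) (nat_lit 9) (nat_lit 4) (nat_lit 10) (nat_lit 5) (nat_lit 10) (nat_lit 4) (nat_lit 490) (nat_lit 401) (nat_lit 309)) (XT.lf (nat_lit 0) (nat_lit 232279099606) (nat_lit 76) (nat_lit 143962843233) (nat_lit 76) (nat_lit 133624549158) (nat_lit 9) (nat_lit 4) (nat_lit 10) (nat_lit 5) (nat_lit 10) (nat_lit 4) (nat_lit 491) (nat_lit 401) (nat_lit 308))) (XT.nd (nat_lit 78) (nat_lit 152) (nat_lit 0) (XT.lf (nat_lit 0) (nat_lit 433102530712) (nat_lit 76) (nat_lit 61713483722) (nat_lit 76) (nat_lit 51374592551) (nat_lit 9) (nat_lit 4) (nat_lit 10) (nat_lit 5) (nat_lit 10) (nat_lit 4) (nat_lit 492) (nat_lit 401) (nat_lit 307)) (XT.lf (nat_lit 0) (nat_lit 37727879164) (nat_lit 152) (nat_lit 519709177053) (nat_lit 0) (nat_lit 27880789604) (nat_lit 7) (nat_lit 5) (nat_lit 9) (nat_lit 4) (nat_lit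 7) (nat_lit 4) (nat_lit 493) (nat_lit 401) (nat_lit 306))))) (XT.nd (nat_lit 312) (nat_lit 152) (nat_lit 0) (XT.nd (nat_lit 156) (nat_lit 76) (nat_lit 0) (XT.nd (nat_lit 78) (nat_lit 0) (nat_lit 0) (XT.lf (nat_lit 0) (nat_lit 135215722640) (nat_lit 152) (nat_lit 366796430793) (nat_lit 0) (nat_lit 125368145544) (nat_lit 7) (nat_lit 5) (nat_lit 9) (nat_lit 4) (nat_lit 7) (nat_lit 4) (nat_lit 494) (nat_lit 401) (nat_lit 305)) (XT.lf (nat_lit 0) (nat_lit 240493528095) (nat_lit 152) (nat_lit 201669173997) (nat_lit 0) (nat_lit 230645499575) (nat_lit 7) (nat_lit 5) (nat_lit 9) (nat_lit 4) (nat_lit 7) (nat_lit 4) (nat_lit 495) (nat_lit 401) (nat_lit 304))) (XT.nd (nat_lit 78) (nat_lit 76) (nat_lit 0) (XT.lf (nat_lit 0) (nat_lit 354185164005) (nat_lit 152) (nat_lit 23348874773) (nat_lit 0) (nat_lit 344336717501) (nat_lit 7) (nat_lit 5) (nat_lit 9) (nat_lit 4) (nat_lit 7) (nat_lit 4) (nat_lit 496) (nat_lit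 401) (nat_lit 303)) (XT.lf (nat_lit 0) (nat_lit 174816396189) (nat_lit 76) (nat_lit 304877336259) (nat_lit 76) (nat_lit 295028502733) (nat_lit 6) (nat_lit 4) (nat_lit 7) (nat_lit 5) (nat_lit 7) (nat_lit 4) (nat_lit 497) (nat_lit 401) (nat_lit 302)))) (XT.nd (nat_lit 156) (nat_lit 152) (nat_lit 0) (XT.nd (nat_lit 78) (nat_lit 0) (nat_lit 0) (XT.lf (nat_lit 0) (nat_lit 389653490622) (nat_lit 76) (nat_lit 225988784610) (nat_lit 76) (nat_lit 216139592729) (nat_lit 6) (nat_lit 4) (nat_lit 7) (nat_lit 5) (nat_lit 7) (nat_lit 4) (nat_lit 498) (nat_lit 401) (nat_lit 301)) (XT.lf (nat_lit 0) (nat_lit 621663497984) (nat_lit 76) (nat_lit 140796320608) (nat_lit 76) (nat_lit 130946796918) (nat_lit 6) (nat_lit 4) (nat_lit 7) (nat_lit 5) (nat_lit 7) (nat_lit 4) (nat_lit 499) (nat_lit 401) (nat_lit 300))) (XT.nd (nat_lit 78) (nat_lit 152) (nat_lit 0) (XT.lf (nat_lit 0) (nat_lit 872221292393) (nat_lit 76) (nat_lit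 48795100023) (nat_lit 76) (nat_lit 38945269101) (nat_lit 6) (nat_lit 4) (nat_lit 7) (nat_lit 5) (nat_lit 7) (nat_lit 4) (nat_lit 500) (nat_lit 401) (nat_lit 299)) (XT.lf (nat_lit 0) (nat_lit 61085250651) (nat_lit 152) (nat_lit 918874380178) (nat_lit 0) (nat_lit 51704188371) (nat_lit 4) (nat_lit 5) (nat_lit 6) (nat_lit 4) (nat_lit 4) (nat_lit 4) (nat_lit 501) (nat_lit 401) (nat_lit 298))))))) (XT.nd (nat_lit 55536) (nat_lit 0) (nat_lit 6992) (XT.nd (nat_lit 54912) (nat_lit 0) (nat_lit 11856) (XT.nd (nat_lit 312) (nat_lit 0) (nat_lit 0) (XT.nd (nat_lit 156) (nat_lit 0) (nat_lit 0) (XT.nd (nat_lit 78) (nat_lit 0) (nat_lit 0) (XT.lf (nat_lit 0) (nat_lit 170142381706) (nat_lit 152) (nat_lit 778047345762) (nat_lit 0) (nat_lit 160761068568) (nat_lit 4) (nat_lit 5) (nat_lit 6) (nat_lit 4) (nat_lit 4) (nat_lit 4) (nat_lit 502) (nat_lit 401) (nat_lit 297)) (XT.lf (nat_lit 0) (nat_lit 287918685407) (nat_lit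 152) (nat_lit 625965175517) (nat_lit 0) (nat_lit 278537139992) (nat_lit 4) (nat_lit 5) (nat_lit 6) (nat_lit 4) (nat_lit 4) (nat_lit 4) (nat_lit 503) (nat_lit 401) (nat_lit 296))) (XT.nd (nat_lit 78) (nat_lit 0) (nat_lit 0) (XT.lf (nat_lit 0) (nat_lit 415112095403) (nat_lit 152) (nat_lit 461726641766) (nat_lit 0) (nat_lit 405730334919) (nat_lit 4) (nat_lit 5) (nat_lit 6) (nat_lit 4) (nat_lit 4) (nat_lit 4) (nat_lit 504) (nat_lit 401) (nat_lit 295)) (XT.lf (nat_lit 0) (nat_lit 552476350423) (nat_lit 152) (nat_lit 284358479126) (nat_lit 0) (nat_lit 543094390799) (nat_lit 4) (nat_lit 5) (nat_lit 6) (nat_lit 4) (nat_lit 4) (nat_lit 4) (nat_lit 505) (nat_lit 401) (nat_lit 294)))) (XT.nd (nat_lit 54444) (nat_lit 0) (nat_lit 15732) (XT.nd (nat_lit 54366) (nat_lit 0) (nat_lit 16112) (XT.lf (nat_lit 0) (nat_lit 700825460865) (nat_lit 152) (nat_lit 92809617002) (nat_lit 0) (nat_lit 691443316853) (nat_lit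 4) (nat_lit 5) (nat_lit 6) (nat_lit 4) (nat_lit 4) (nat_lit 4) (nat_lit 506) (nat_lit 401) (nat_lit 293)) (XT.lf (nat_lit 0) (nat_lit 1289431929) (nat_lit 0) (nat_lit 1289431929) (nat_lit 228) (nat_lit 698857664) (nat_lit 216) (nat_lit 5) (nat_lit 216) (nat_lit 3) (nat_lit 219) (nat_lit 3) (nat_lit 402) (nat_lit 402) (nat_lit 396))) (XT.nd (nat_lit 78) (nat_lit 0) (nat_lit 76) (XT.lf (nat_lit 76) (nat_lit 1277027456) (nat_lit 0) (nat_lit 1230910232) (nat_lit 380) (nat_lit 4114639374) (nat_lit 212) (nat_lit 5) (nat_lit 211) (nat_lit 3) (nat_lit 216) (nat_lit 5) (nat_lit 403) (nat_lit 402) (nat_lit 395)) (XT.lf (nat_lit 76) (nat_lit 143782010) (nat_lit 0) (nat_lit 6219945433) (nat_lit 380) (nat_lit 345922695) (nat_lit 213) (nat_lit 5) (nat_lit 212) (nat_lit 5) (nat_lit 217) (nat_lit 5) (nat_lit 404) (nat_lit 402) (nat_lit 394))))) (XT.nd (nat_lit 312) (nat_lit 2660) (nat_lit 0) (XT.nd (nat_lit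 156) (nat_lit 456) (nat_lit 0) (XT.nd (nat_lit 78) (nat_lit 456) (nat_lit 0) (XT.lf (nat_lit 0) (nat_lit 3349712911) (nat_lit 380) (nat_lit 852360894) (nat_lit 456) (nat_lit 2611517982) (nat_lit 207) (nat_lit 5) (nat_lit 212) (nat_lit 5) (nat_lit 213) (nat_lit 5) (nat_lit 405) (nat_lit 402) (nat_lit 393)) (XT.lf (nat_lit 0) (nat_lit 125100410) (nat_lit 456) (nat_lit 1678413652) (nat_lit 532) (nat_lit 5135037908) (nat_lit 201) (nat_lit 5) (nat_lit 207) (nat_lit 5) (nat_lit 208) (nat_lit 5) (nat_lit 406) (nat_lit 402) (nat_lit 392))) (XT.nd (nat_lit 78) (nat_lit 532) (nat_lit 0) (XT.lf (nat_lit 0) (nat_lit 3659704125) (nat_lit 456) (nat_lit 2407978300) (nat_lit 76) (nat_lit 1014027736) (nat_lit 202) (nat_lit 5) (nat_lit 208) (nat_lit 5) (nat_lit 203) (nat_lit 5) (nat_lit 407) (nat_lit 402) (nat_lit 391)) (XT.lf (nat_lit 0) (nat_lit 52318643) (nat_lit 532) (nat_lit 3009378366) (nat_lit 76) (nat_lit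 4183502240) (nat_lit 195) (nat_lit 5) (nat_lit 202) (nat_lit 5) (nat_lit 196) (nat_lit 5) (nat_lit 408) (nat_lit 402) (nat_lit 390)))) (XT.nd (nat_lit 156) (nat_lit 1520) (nat_lit 0) (XT.nd (nat_lit 78) (nat_lit 608) (nat_lit 0) (XT.lf (nat_lit 0) (nat_lit 3506983610) (nat_lit 608) (nat_lit 3517136427) (nat_lit 76) (nat_lit 403755715) (nat_lit 188) (nat_lit 5) (nat_lit 196) (nat_lit 5) (nat_lit 189) (nat_lit 5) (nat_lit 409) (nat_lit 402) (nat_lit 389)) (XT.lf (nat_lit 0) (nat_lit 3703991784) (nat_lit 608) (nat_lit 3426056271) (nat_lit 684) (nat_lit 500542420) (nat_lit 180) (nat_lit 5) (nat_lit 188) (nat_lit 5) (nat_lit 189) (nat_lit 5) (nat_lit 410) (nat_lit 402) (nat_lit 388))) (XT.nd (nat_lit 78) (nat_lit 760) (nat_lit 0) (XT.lf (nat_lit 0) (nat_lit 2962048999) (nat_lit 760) (nat_lit 4247532024) (nat_lit 76) (nat_lit 643929659) (nat_lit 170) (nat_lit 5) (nat_lit 180) (nat_lit 5) (nat_lit 171)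 (nat_lit 5) (nat_lit 411) (nat_lit 402) (nat_lit 387)) (XT.lf (nat_lit 0) (nat_lit 3606150102) (nat_lit 760) (nat_lit 3019537195) (nat_lit 836) (nat_lit 1471108874) (nat_lit 160) (nat_lit 5) (nat_lit 170) (nat_lit 5) (nat_lit 171) (nat_lit 5) (nat_lit 412) (nat_lit 402) (nat_lit 386)))))) (XT.nd (nat_lit 624) (nat_lit 1900) (nat_lit 0) (XT.nd (nat_lit 312) (nat_lit 1292) (nat_lit 0) (XT.nd (nat_lit 156) (nat_lit 760) (nat_lit 0) (XT.nd (nat_lit 78) (nat_lit 380) (nat_lit 0) (XT.lf (nat_lit 0) (nat_lit 2080043196) (nat_lit 532) (nat_lit 4651391472) (nat_lit 76) (nat_lit 1629977024) (nat_lit 153) (nat_lit 5) (nat_lit 160) (nat_lit 5) (nat_lit 154) (nat_lit 5) (nat_lit 413) (nat_lit 402) (nat_lit 385)) (XT.lf (nat_lit 0) (nat_lit 3900739611) (nat_lit 380) (nat_lit 1937169153) (nat_lit 456) (nat_lit 2809390717) (nat_lit 148) (nat_lit 5) (nat_lit 153) (nat_lit 5) (nat_lit 154) (nat_lit 5) (nat_lit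 414) (nat_lit 402) (nat_lit 384))) (XT.nd (nat_lit 78) (nat_lit 304) (nat_lit 0) (XT.lf (nat_lit 0) (nat_lit 903279484) (nat_lit 456) (nat_lit 4768171165) (nat_lit 76) (nat_lit 3284236958) (nat_lit 142) (nat_lit 5) (nat_lit 148) (nat_lit 5) (nat_lit 143) (nat_lit 5) (nat_lit 415) (nat_lit 402) (nat_lit 383)) (XT.lf (nat_lit 0) (nat_lit 4558308347) (nat_lit 304) (nat_lit 248584254) (nat_lit 380) (nat_lit 4479947403) (nat_lit 138) (nat_lit 5) (nat_lit 142) (nat_lit 5) (nat_lit 143) (nat_lit 5) (nat_lit 416) (nat_lit 402) (nat_lit 382)))) (XT.nd (nat_lit 156) (nat_lit 608) (nat_lit 0) (XT.nd (nat_lit 78) (nat_lit 380) (nat_lit 0) (XT.lf (nat_lit 0) (nat_lit 5005828079) (nat_lit 304) (nat_lit 4080957534) (nat_lit 380) (nat_lit 554512248) (nat_lit 134) (nat_lit 5) (nat_lit 138) (nat_lit 5) (nat_lit 139) (nat_lit 5) (nat_lit 417) (nat_lit 402) (nat_lit 381)) (XT.lf (nat_lit 0) (nat_lit 3594292739)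 (nat_lit 380) (nat_lit 4492333510) (nat_lit 76) (nat_lit 1933256934) (nat_lit 129) (nat_lit 5) (nat_lit 134) (nat_lit 5) (nat_lit 130) (nat_lit 5) (nat_lit 418) (nat_lit 402) (nat_lit 380))) (XT.nd (nat_lit 78) (nat_lit 304) (nat_lit 0) (XT.lf (nat_lit 0) (nat_lit 6140997608) (nat_lit 304) (nat_lit 1992194643) (nat_lit 380) (nat_lit 2291238145) (nat_lit 125) (nat_lit 5) (nat_lit 129) (nat_lit 5) (nat_lit 130) (nat_lit 5) (nat_lit 419) (nat_lit 402) (nat_lit 379)) (XT.lf (nat_lit 0) (nat_lit 2203173415) (nat_lit 304) (nat_lit 4035663421) (nat_lit 76) (nat_lit 4615872355) (nat_lit 121) (nat_lit 5) (nat_lit 125) (nat_lit 5) (nat_lit 122) (nat_lit 5) (nat_lit 420) (nat_lit 402) (nat_lit 378))))) (XT.nd (nat_lit 312) (nat_lit 912) (nat_lit 0) (XT.nd (nat_lit 156) (nat_lit 380) (nat_lit 0) (XT.nd (nat_lit 78) (nat_lit 304) (nat_lit 0) (XT.lf (nat_lit 0) (nat_lit 7059907245) (nat_lit 380) (nat_lit 3719313418)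 (nat_lit 76) (nat_lit 534167944) (nat_lit 117) (nat_lit 5) (nat_lit 122) (nat_lit 5) (nat_lit 118) (nat_lit 5) (nat_lit 421) (nat_lit 402) (nat_lit 377)) (XT.lf (nat_lit 0) (nat_lit 644265089) (nat_lit 304) (nat_lit 3364987609) (nat_lit 76) (nat_lit 7790942880) (nat_lit 113) (nat_lit 5) (nat_lit 117) (nat_lit 5) (nat_lit 114) (nat_lit 5) (nat_lit 422) (nat_lit 402) (nat_lit 376))) (XT.nd (nat_lit 78) (nat_lit 152) (nat_lit 0) (XT.lf (nat_lit 0) (nat_lit 5912583072) (nat_lit 304) (nat_lit 2980431161) (nat_lit 76) (nat_lit 3423064733) (nat_lit 110) (nat_lit 5) (nat_lit 114) (nat_lit 5) (nat_lit 111) (nat_lit 5) (nat_lit 423) (nat_lit 402) (nat_lit 375)) (XT.lf (nat_lit 0) (nat_lit 10362053192) (nat_lit 152) (nat_lit 1393781200) (nat_lit 228) (nat_lit 1109731694) (nat_lit 108) (nat_lit 5) (nat_lit 110) (nat_lit 5) (nat_lit 111) (nat_lit 5) (nat_lit 424) (nat_lit 402) (nat_lit 374)))) (XT.nd (nat_lit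 156) (nat_lit 456) (nat_lit 0) (XT.nd (nat_lit 78) (nat_lit 152) (nat_lit 0) (XT.lf (nat_lit 0) (nat_lit 4670693338) (nat_lit 304) (nat_lit 2039812461) (nat_lit 76) (nat_lit 6734383767) (nat_lit 104) (nat_lit 5) (nat_lit 108) (nat_lit 5) (nat_lit 105) (nat_lit 5) (nat_lit 425) (nat_lit 402) (nat_lit 373)) (XT.lf (nat_lit 0) (nat_lit 11039958182) (nat_lit 228) (nat_lit 1474697171) (nat_lit 76) (nat_lit 1546734958) (nat_lit 102) (nat_lit 5) (nat_lit 105) (nat_lit 5) (nat_lit 103) (nat_lit 5) (nat_lit 426) (nat_lit 402) (nat_lit 372))) (XT.nd (nat_lit 78) (nat_lit 152) (nat_lit 0) (XT.lf (nat_lit 0) (nat_lit 3339581448) (nat_lit 304) (nat_lit 899512975) (nat_lit 76) (nat_lit 10473120988) (nat_lit 98) (nat_lit 5) (nat_lit 102) (nat_lit 5) (nat_lit 99) (nat_lit 5) (nat_lit 427) (nat_lit 402) (nat_lit 371)) (XT.lf (nat_lit 0) (nat_lit 10330491687) (nat_lit 228) (nat_lit 272298172) (nat_lit 76) (nat_lit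 4798500788) (nat_lit 96) (nat_lit 5) (nat_lit 99) (nat_lit 5) (nat_lit 97) (nat_lit 5) (nat_lit 428) (nat_lit 402) (nat_lit 370))))))))
noncomputable def xc49 : XT := (XT.nd (nat_lit 2496) (nat_lit 2356) (nat_lit 0) (XT.nd (nat_lit 1248) (nat_lit 1672) (nat_lit 0) (XT.nd (nat_lit 624) (nat_lit 1064) (nat_lit 0) (XT.nd (nat_lit 312) (nat_lit 608) (nat_lit 0) (XT.nd (nat_lit 156) (nat_lit 380) (nat_lit 0) (XT.nd (nat_lit 78) (nat_lit 152) (nat_lit 0) (XT.lf (nat_lit 0) (nat_lit 453306535) (nat_lit 152) (nat_lit 1473068696) (nat_lit 228) (nat_lit 14205429461) (nat_lit 91) (nat_lit 5) (nat_lit 93) (nat_lit 5) (nat_lit 94) (nat_lit 5) (nat_lit 429) (nat_lit 402) (nat_lit 369)) (XT.lf (nat_lit 0) (nat_lit 1160299443) (nat_lit 152) (nat_lit 8468208032) (nat_lit 228) (nat_lit 7271957495) (nat_lit 89) (nat_lit 5) (nat_lit 91) (nat_lit 5) (nat_lit 92) (nat_lit 5) (nat_lit 430) (nat_lit 402) (nat_lit 368)))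 (XT.nd (nat_lit 78) (nat_lit 152) (nat_lit 0) (XT.lf (nat_lit 0) (nat_lit 461012544) (nat_lit 228) (nat_lit 15707060032) (nat_lit 76) (nat_lit 1549792835) (nat_lit 86) (nat_lit 5) (nat_lit 89) (nat_lit 5) (nat_lit 87) (nat_lit 5) (nat_lit 431) (nat_lit 402) (nat_lit 367)) (XT.lf (nat_lit 0) (nat_lit 2796066330) (nat_lit 152) (nat_lit 6126868148) (nat_lit 228) (nat_lit 9653511246) (nat_lit 84) (nat_lit 5) (nat_lit 86) (nat_lit 5) (nat_lit 87) (nat_lit 5) (nat_lit 432) (nat_lit 402) (nat_lit 366)))) (XT.nd (nat_lit 156) (nat_lit 304) (nat_lit 0) (XT.nd (nat_lit 78) (nat_lit 228) (nat_lit 0) (XT.lf (nat_lit 0) (nat_lit 3714627608) (nat_lit 76) (nat_lit 14657294222) (nat_lit 152) (nat_lit 1116287707) (nat_lit 83) (nat_lit 5) (nat_lit 84) (nat_lit 5) (nat_lit 85) (nat_lit 4) (nat_lit 433) (nat_lit 402) (nat_lit 365)) (XT.lf (nat_lit 0) (nat_lit 4614993005) (nat_lit 152) (nat_lit 3587853997) (nat_lit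 228) (nat_lit 12245828098) (nat_lit 80) (nat_lit 5) (nat_lit 82) (nat_lit 5) (nat_lit 83) (nat_lit 5) (nat_lit 434) (nat_lit 402) (nat_lit 364))) (XT.nd (nat_lit 78) (nat_lit 228) (nat_lit 0) (XT.lf (nat_lit 0) (nat_lit 5582455114) (nat_lit 76) (nat_lit 13050531266) (nat_lit 152) (nat_lit 2831849550) (nat_lit 79) (nat_lit 5) (nat_lit 80) (nat_lit 5) (nat_lit 81) (nat_lit 4) (nat_lit 435) (nat_lit 402) (nat_lit 363)) (XT.lf (nat_lit 0) (nat_lit 6596772502) (nat_lit 152) (nat_lit 857451241) (nat_lit 228) (nat_lit 15084654098) (nat_lit 76) (nat_lit 5) (nat_lit 78) (nat_lit 5) (nat_lit 79) (nat_lit 5) (nat_lit 436) (nat_lit 402) (nat_lit 362))))) (XT.nd (nat_lit 312) (nat_lit 456) (nat_lit 0) (XT.nd (nat_lit 156) (nat_lit 304) (nat_lit 0) (XT.nd (nat_lit 78) (nat_lit 228) (nat_lit 0) (XT.lf (nat_lit 0) (nat_lit 7595301466) (nat_lit 76) (nat_lit 11375033879) (nat_lit 152) (nat_lit 4700870011) (nat_lit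 75) (nat_lit 5) (nat_lit 76) (nat_lit 5) (nat_lit 77) (nat_lit 4) (nat_lit 437) (nat_lit 402) (nat_lit 361)) (XT.lf (nat_lit 0) (nat_lit 6685603771) (nat_lit 228) (nat_lit 16196496271) (nat_lit 76) (nat_lit 1987912632) (nat_lit 72) (nat_lit 5) (nat_lit 75) (nat_lit 5) (nat_lit 73) (nat_lit 4) (nat_lit 438) (nat_lit 402) (nat_lit 360))) (XT.nd (nat_lit 78) (nat_lit 228) (nat_lit 0) (XT.lf (nat_lit 0) (nat_lit 9709601893) (nat_lit 76) (nat_lit 9657514560) (nat_lit 152) (nat_lit 6766315572) (nat_lit 71) (nat_lit 5) (nat_lit 72) (nat_lit 5) (nat_lit 73) (nat_lit 4) (nat_lit 439) (nat_lit 402) (nat_lit 359)) (XT.lf (nat_lit 0) (nat_lit 5845049180) (nat_lit 228) (nat_lit 16662647959) (nat_lit 76) (nat_lit 4962987325) (nat_lit 68) (nat_lit 5) (nat_lit 71) (nat_lit 5) (nat_lit 69) (nat_lit 4) (nat_lit 440) (nat_lit 402) (nat_lit 358)))) (XT.nd (nat_lit 156) (nat_lit 228) (nat_lit 0) (XT.nd (nat_lit 78)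 (nat_lit 152) (nat_lit 0) (XT.lf (nat_lit 0) (nat_lit 11858171881) (nat_lit 76) (nat_lit 7935718689) (nat_lit 152) (nat_lit 9087200238) (nat_lit 67) (nat_lit 5) (nat_lit 68) (nat_lit 5) (nat_lit 69) (nat_lit 4) (nat_lit 441) (nat_lit 402) (nat_lit 357)) (XT.lf (nat_lit 0) (nat_lit 4866904430) (nat_lit 152) (nat_lit 17440088511) (nat_lit 76) (nat_lit 8066102522) (nat_lit 65) (nat_lit 5) (nat_lit 67) (nat_lit 5) (nat_lit 66) (nat_lit 4) (nat_lit 442) (nat_lit 402) (nat_lit 356))) (XT.nd (nat_lit 78) (nat_lit 152) (nat_lit 0) (XT.lf (nat_lit 0) (nat_lit 13941265983) (nat_lit 76) (nat_lit 6263211868) (nat_lit 152) (nat_lit 11743259497) (nat_lit 64) (nat_lit 5) (nat_lit 65) (nat_lit 5) (nat_lit 66) (nat_lit 4) (nat_lit 443) (nat_lit 402) (nat_lit 355)) (XT.lf (nat_lit 0) (nat_lit 3677677462) (nat_lit 152) (nat_lit 18683704518) (nat_lit 76) (nat_lit 11251690656) (nat_lit 62) (nat_lit 5) (nat_lit 64)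 (nat_lit 5) (nat_lit 63) (nat_lit 4) (nat_lit 444) (nat_lit 402) (nat_lit 354)))))) (XT.nd (nat_lit 624) (nat_lit 836) (nat_lit 0) (XT.nd (nat_lit 312) (nat_lit 380) (nat_lit 0) (XT.nd (nat_lit 156) (nat_lit 228) (nat_lit 0) (XT.nd (nat_lit 78) (nat_lit 152) (nat_lit 0) (XT.lf (nat_lit 0) (nat_lit 15814902494) (nat_lit 76) (nat_lit 4715528967) (nat_lit 152) (nat_lit 14841100017) (nat_lit 61) (nat_lit 5) (nat_lit 62) (nat_lit 5) (nat_lit 63) (nat_lit 4) (nat_lit 445) (nat_lit 402) (nat_lit 353)) (XT.lf (nat_lit 0) (nat_lit 2176013799) (nat_lit 152) (nat_lit 20604268048) (nat_lit 76) (nat_lit 14451144172) (nat_lit 59) (nat_lit 5) (nat_lit 61) (nat_lit 5) (nat_lit 60) (nat_lit 4) (nat_lit 446) (nat_lit 402) (nat_lit 352))) (XT.nd (nat_lit 78) (nat_lit 152) (nat_lit 0) (XT.lf (nat_lit 0) (nat_lit 17275628036) (nat_lit 76) (nat_lit 3398115067) (nat_lit 152) (nat_lit 18522244517) (nat_lit 58) (nat_lit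 5) (nat_lit 59) (nat_lit 5) (nat_lit 60) (nat_lit 4) (nat_lit 447) (nat_lit 402) (nat_lit 351)) (XT.lf (nat_lit 0) (nat_lit 223997478) (nat_lit 152) (nat_lit 23486517638) (nat_lit 76) (nat_lit 17564265276) (nat_lit 56) (nat_lit 5) (nat_lit 58) (nat_lit 5) (nat_lit 57) (nat_lit 4) (nat_lit 448) (nat_lit 402) (nat_lit 350)))) (XT.nd (nat_lit 156) (nat_lit 228) (nat_lit 0) (XT.nd (nat_lit 78) (nat_lit 76) (nat_lit 0) (XT.lf (nat_lit 0) (nat_lit 18040658270) (nat_lit 76) (nat_lit 2456608984) (nat_lit 152) (nat_lit 22973614810) (nat_lit 55) (nat_lit 5) (nat_lit 56) (nat_lit 5) (nat_lit 57) (nat_lit 4) (nat_lit 449) (nat_lit 402) (nat_lit 349)) (XT.lf (nat_lit 0) (nat_lit 18043907386) (nat_lit 76) (nat_lit 25308394558) (nat_lit 76) (nat_lit 2442375244) (nat_lit 54) (nat_lit 4) (nat_lit 55) (nat_lit 5) (nat_lit 55) (nat_lit 4) (nat_lit 450) (nat_lit 402) (nat_lit 348))) (XT.nd (nat_lit 78) (nat_lit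 76) (nat_lit 0) (XT.lf (nat_lit 0) (nat_lit 17722024257) (nat_lit 76) (nat_lit 2090176063) (nat_lit 152) (nat_lit 28441154751) (nat_lit 52) (nat_lit 5) (nat_lit 53) (nat_lit 5) (nat_lit 54) (nat_lit 4) (nat_lit 451) (nat_lit 402) (nat_lit 347)) (XT.lf (nat_lit 0) (nat_lit 16966761138) (nat_lit 76) (nat_lit 27856746236) (nat_lit 76) (nat_lit 6030121544) (nat_lit 51) (nat_lit 4) (nat_lit 52) (nat_lit 5) (nat_lit 52) (nat_lit 4) (nat_lit 452) (nat_lit 402) (nat_lit 346))))) (XT.nd (nat_lit 312) (nat_lit 380) (nat_lit 0) (XT.nd (nat_lit 156) (nat_lit 228) (nat_lit 0) (XT.nd (nat_lit 78) (nat_lit 76) (nat_lit 0) (XT.lf (nat_lit 0) (nat_lit 15792958707) (nat_lit 76) (nat_lit 2568798551) (nat_lit 152) (nat_lit 35247498676) (nat_lit 49) (nat_lit 5) (nat_lit 50) (nat_lit 5) (nat_lit 51) (nat_lit 4) (nat_lit 453) (nat_lit 402) (nat_lit 345)) (XT.lf (nat_lit 0) (nat_lit 13948585693) (nat_lit 76) (nat_lit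 31700834593) (nat_lit 76) (nat_lit 10873185430) (nat_lit 48) (nat_lit 4) (nat_lit 49) (nat_lit 5) (nat_lit 49) (nat_lit 4) (nat_lit 454) (nat_lit 402) (nat_lit 344))) (XT.nd (nat_lit 78) (nat_lit 76) (nat_lit 0) (XT.lf (nat_lit 0) (nat_lit 11544247103) (nat_lit 76) (nat_lit 4255691947) (nat_lit 152) (nat_lit 43814853136) (nat_lit 46) (nat_lit 5) (nat_lit 47) (nat_lit 5) (nat_lit 48) (nat_lit 4) (nat_lit 455) (nat_lit 402) (nat_lit 343)) (XT.lf (nat_lit 0) (nat_lit 8168400118) (nat_lit 76) (nat_lit 37292074674) (nat_lit 76) (nat_lit 17423241362) (nat_lit 45) (nat_lit 4) (nat_lit 46) (nat_lit 5) (nat_lit 46) (nat_lit 4) (nat_lit 456) (nat_lit 402) (nat_lit 342)))) (XT.nd (nat_lit 156) (nat_lit 228) (nat_lit 0) (XT.nd (nat_lit 78) (nat_lit 0) (nat_lit 0) (XT.lf (nat_lit 0) (nat_lit 4027612971) (nat_lit 76) (nat_lit 7636351029) (nat_lit 152) (nat_lit 54694596805) (nat_lit 43) (nat_lit 5) (nat_lit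 44) (nat_lit 5) (nat_lit 45) (nat_lit 4) (nat_lit 457) (nat_lit 402) (nat_lit 341)) (XT.lf (nat_lit 0) (nat_lit 43779967724) (nat_lit 152) (nat_lit 1421188598) (nat_lit 0) (nat_lit 24830343204) (nat_lit 43) (nat_lit 5) (nat_lit 45) (nat_lit 4) (nat_lit 43) (nat_lit 4) (nat_lit 458) (nat_lit 402) (nat_lit 340))) (XT.nd (nat_lit 78) (nat_lit 76) (nat_lit 0) (XT.lf (nat_lit 0) (nat_lit 5463701302) (nat_lit 152) (nat_lit 7761023195) (nat_lit 76) (nat_lit 60713077231) (nat_lit 41) (nat_lit 5) (nat_lit 43) (nat_lit 5) (nat_lit 42) (nat_lit 4) (nat_lit 459) (nat_lit 402) (nat_lit 339)) (XT.lf (nat_lit 0) (nat_lit 40125388338) (nat_lit 152) (nat_lit 15887112888) (nat_lit 0) (nat_lit 22056141353) (nat_lit 40) (nat_lit 5) (nat_lit 42) (nat_lit 4) (nat_lit 40) (nat_lit 4) (nat_lit 460) (nat_lit 402) (nat_lit 338))))))) (XT.nd (nat_lit 1248) (nat_lit 912) (nat_lit 0) (XT.nd (nat_lit 624) (nat_lit 684) (nat_lit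 0) (XT.nd (nat_lit 312) (nat_lit 304) (nat_lit 0) (XT.nd (nat_lit 156) (nat_lit 228) (nat_lit 0) (XT.nd (nat_lit 78) (nat_lit 152) (nat_lit 0) (XT.lf (nat_lit 0) (nat_lit 56992571349) (nat_lit 76) (nat_lit 21777944125) (nat_lit 76) (nat_lit 3698910130) (nat_lit 39) (nat_lit 4) (nat_lit 40) (nat_lit 5) (nat_lit 40) (nat_lit 4) (nat_lit 461) (nat_lit 402) (nat_lit 337)) (XT.lf (nat_lit 0) (nat_lit 33506537536) (nat_lit 152) (nat_lit 37345626721) (nat_lit 0) (nat_lit 16279779402) (nat_lit 37) (nat_lit 5) (nat_lit 39) (nat_lit 4) (nat_lit 37) (nat_lit 4) (nat_lit 462) (nat_lit 402) (nat_lit 336))) (XT.nd (nat_lit 78) (nat_lit 152) (nat_lit 0) (XT.lf (nat_lit 0) (nat_lit 40622887547) (nat_lit 76) (nat_lit 34352726971) (nat_lit 76) (nat_lit 17117977616) (nat_lit 36) (nat_lit 4) (nat_lit 37) (nat_lit 5) (nat_lit 37) (nat_lit 4) (nat_lit 463) (nat_lit 402) (nat_lit 335)) (XT.lf (nat_lit 0) (nat_lit 22779963160)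 (nat_lit 152) (nat_lit 68236725165) (nat_lit 0) (nat_lit 6358869222) (nat_lit 34) (nat_lit 5) (nat_lit 36) (nat_lit 4) (nat_lit 34) (nat_lit 4) (nat_lit 464) (nat_lit 402) (nat_lit 334)))) (XT.nd (nat_lit 156) (nat_lit 152) (nat_lit 0) (XT.nd (nat_lit 78) (nat_lit 76) (nat_lit 0) (XT.lf (nat_lit 0) (nat_lit 14510319368) (nat_lit 76) (nat_lit 52449430803) (nat_lit 76) (nat_lit 36021811928) (nat_lit 33) (nat_lit 4) (nat_lit 34) (nat_lit 5) (nat_lit 34) (nat_lit 4) (nat_lit 465) (nat_lit 402) (nat_lit 333)) (XT.lf (nat_lit 0) (nat_lit 6631192785) (nat_lit 152) (nat_lit 2839715274) (nat_lit 76) (nat_lit 99502049561) (nat_lit 32) (nat_lit 5) (nat_lit 34) (nat_lit 5) (nat_lit 33) (nat_lit 4) (nat_lit 466) (nat_lit 402) (nat_lit 332))) (XT.nd (nat_lit 78) (nat_lit 76) (nat_lit 0) (XT.lf (nat_lit 0) (nat_lit 53464281934) (nat_lit 152) (nat_lit 24040514207) (nat_lit 0) (nat_lit 37807849012) (nat_lit 31)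 (nat_lit 5) (nat_lit 33) (nat_lit 4) (nat_lit 31) (nat_lit 4) (nat_lit 467) (nat_lit 402) (nat_lit 331)) (XT.lf (nat_lit 0) (nat_lit 72969746470) (nat_lit 76) (nat_lit 32392605298) (nat_lit 76) (nat_lit 16731239324) (nat_lit 30) (nat_lit 4) (nat_lit 31) (nat_lit 5) (nat_lit 31) (nat_lit 4) (nat_lit 468) (nat_lit 402) (nat_lit 330))))) (XT.nd (nat_lit 312) (nat_lit 304) (nat_lit 0) (XT.nd (nat_lit 156) (nat_lit 152) (nat_lit 0) (XT.nd (nat_lit 78) (nat_lit 76) (nat_lit 0) (XT.lf (nat_lit 0) (nat_lit 32433743022) (nat_lit 152) (nat_lit 79371359909) (nat_lit 0) (nat_lit 17513806245) (nat_lit 28) (nat_lit 5) (nat_lit 30) (nat_lit 4) (nat_lit 28) (nat_lit 4) (nat_lit 469) (nat_lit 402) (nat_lit 329)) (XT.lf (nat_lit 0) (nat_lit 21402927141) (nat_lit 76) (nat_lit 65271569252) (nat_lit 76) (nat_lit 50347604572) (nat_lit 27) (nat_lit 4) (nat_lit 28) (nat_lit 5) (nat_lit 28) (nat_lit 4) (nat_lit 470)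 (nat_lit 402) (nat_lit 328))) (XT.nd (nat_lit 78) (nat_lit 76) (nat_lit 0) (XT.lf (nat_lit 0) (nat_lit 1292656746) (nat_lit 152) (nat_lit 12277747889) (nat_lit 76) (nat_lit 131702366014) (nat_lit 26) (nat_lit 5) (nat_lit 28) (nat_lit 5) (nat_lit 27) (nat_lit 4) (nat_lit 471) (nat_lit 402) (nat_lit 327)) (XT.lf (nat_lit 0) (nat_lit 57584518767) (nat_lit 152) (nat_lit 53079112644) (nat_lit 0) (nat_lit 43364378293) (nat_lit 25) (nat_lit 5) (nat_lit 27) (nat_lit 4) (nat_lit 25) (nat_lit 4) (nat_lit 472) (nat_lit 402) (nat_lit 326)))) (XT.nd (nat_lit 156) (nat_lit 76) (nat_lit 0) (XT.nd (nat_lit 78) (nat_lit 152) (nat_lit 0) (XT.lf (nat_lit 0) (nat_lit 61896082779) (nat_lit 76) (nat_lit 57870708876) (nat_lit 76) (nat_lit 43647523183) (nat_lit 24) (nat_lit 4) (nat_lit 25) (nat_lit 5) (nat_lit 25) (nat_lit 4) (nat_lit 473) (nat_lit 402) (nat_lit 325)) (XT.lf (nat_lit 0) (nat_lit 14096734372) (nat_lit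 152) (nat_lit 158838563194) (nat_lit 0) (nat_lit 548157858) (nat_lit 22) (nat_lit 5) (nat_lit 24) (nat_lit 4) (nat_lit 22) (nat_lit 4) (nat_lit 474) (nat_lit 402) (nat_lit 324))) (XT.nd (nat_lit 78) (nat_lit 76) (nat_lit 0) (XT.lf (nat_lit 0) (nat_lit 77700868593) (nat_lit 152) (nat_lit 42333199794) (nat_lit 0) (nat_lit 64149805619) (nat_lit 22) (nat_lit 5) (nat_lit 24) (nat_lit 4) (nat_lit 22) (nat_lit 4) (nat_lit 475) (nat_lit 402) (nat_lit 323)) (XT.lf (nat_lit 0) (nat_lit 86206394255) (nat_lit 76) (nat_lit 61510558086) (nat_lit 76) (nat_lit 47957192833) (nat_lit 21) (nat_lit 4) (nat_lit 22) (nat_lit 5) (nat_lit 22) (nat_lit 4) (nat_lit 476) (nat_lit 402) (nat_lit 322)))))) (XT.nd (nat_lit 624) (nat_lit 304) (nat_lit 0) (XT.nd (nat_lit 312) (nat_lit 380) (nat_lit 0) (XT.nd (nat_lit 156) (nat_lit 76) (nat_lit 0) (XT.nd (nat_lit 78) (nat_lit 0) (nat_lit 0) (XT.lf (nat_lit 0) (nat_lit 15831053313)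 (nat_lit 152) (nat_lit 189266198997) (nat_lit 0) (nat_lit 2921056178) (nat_lit 19) (nat_lit 5) (nat_lit 21) (nat_lit 4) (nat_lit 19) (nat_lit 4) (nat_lit 477) (nat_lit 402) (nat_lit 321)) (XT.lf (nat_lit 0) (nat_lit 86018866486) (nat_lit 152) (nat_lit 62036005039) (nat_lit 0) (nat_lit 73106989510) (nat_lit 19) (nat_lit 5) (nat_lit 21) (nat_lit 4) (nat_lit 19) (nat_lit 4) (nat_lit 478) (nat_lit 402) (nat_lit 320))) (XT.nd (nat_lit 78) (nat_lit 0) (nat_lit 0) (XT.lf (nat_lit 0) (nat_lit 77823752709) (nat_lit 76) (nat_lit 85193492818) (nat_lit 76) (nat_lit 72279875248) (nat_lit 18) (nat_lit 4) (nat_lit 19) (nat_lit 5) (nat_lit 19) (nat_lit 4) (nat_lit 479) (nat_lit 402) (nat_lit 319)) (XT.lf (nat_lit 0) (nat_lit 231049604195) (nat_lit 76) (nat_lit 16187863849) (nat_lit 76) (nat_lit 3272634619) (nat_lit 18) (nat_lit 4) (nat_lit 19) (nat_lit 5) (nat_lit 19) (nat_lit 4) (nat_lit 480) (nat_lit 402)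 (nat_lit 318)))) (XT.nd (nat_lit 156) (nat_lit 152) (nat_lit 0) (XT.nd (nat_lit 78) (nat_lit 76) (nat_lit 0) (XT.lf (nat_lit 0) (nat_lit 71991454098) (nat_lit 152) (nat_lit 135052385815) (nat_lit 0) (nat_lit 59689814567) (nat_lit 16) (nat_lit 5) (nat_lit 18) (nat_lit 4) (nat_lit 16) (nat_lit 4) (nat_lit 481) (nat_lit 402) (nat_lit 317)) (XT.lf (nat_lit 0) (nat_lit 11366512025) (nat_lit 76) (nat_lit 142574939738) (nat_lit 76) (nat_lit 130271984264) (nat_lit 15) (nat_lit 4) (nat_lit 16) (nat_lit 5) (nat_lit 16) (nat_lit 4) (nat_lit 482) (nat_lit 402) (nat_lit 316))) (XT.nd (nat_lit 78) (nat_lit 152) (nat_lit 0) (XT.lf (nat_lit 0) (nat_lit 174288354326) (nat_lit 76) (nat_lit 70495304622) (nat_lit 76) (nat_lit 58191130684) (nat_lit 15) (nat_lit 4) (nat_lit 16) (nat_lit 5) (nat_lit 16) (nat_lit 4) (nat_lit 483) (nat_lit 402) (nat_lit 315)) (XT.lf (nat_lit 0) (nat_lit 19568454740) (nat_lit 152) (nat_lit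 295777063808) (nat_lit 0) (nat_lit 7849119362) (nat_lit 13) (nat_lit 5) (nat_lit 15) (nat_lit 4) (nat_lit 13) (nat_lit 4) (nat_lit 484) (nat_lit 402) (nat_lit 314))))) (XT.nd (nat_lit 312) (nat_lit 228) (nat_lit 0) (XT.nd (nat_lit 156) (nat_lit 0) (nat_lit 0) (XT.nd (nat_lit 78) (nat_lit 76) (nat_lit 0) (XT.lf (nat_lit 0) (nat_lit 104989468696) (nat_lit 152) (nat_lit 146551799524) (nat_lit 0) (nat_lit 93269138426) (nat_lit 13) (nat_lit 5) (nat_lit 15) (nat_lit 4) (nat_lit 13) (nat_lit 4) (nat_lit 485) (nat_lit 402) (nat_lit 313)) (XT.lf (nat_lit 0) (nat_lit 15065503809) (nat_lit 76) (nat_lit 182400057343) (nat_lit 76) (nat_lit 170678805876) (nat_lit 12) (nat_lit 4) (nat_lit 13) (nat_lit 5) (nat_lit 13) (nat_lit 4) (nat_lit 486) (nat_lit 402) (nat_lit 312))) (XT.nd (nat_lit 78) (nat_lit 0) (nat_lit 0) (XT.lf (nat_lit 0) (nat_lit 194818560930) (nat_lit 76) (nat_lit 105060803295) (nat_lit 76) (nat_lit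 93338698868) (nat_lit 12) (nat_lit 4) (nat_lit 13) (nat_lit 5) (nat_lit 13) (nat_lit 4) (nat_lit 487) (nat_lit 402) (nat_lit 311)) (XT.lf (nat_lit 0) (nat_lit 388926910799) (nat_lit 76) (nat_lit 21547125024) (nat_lit 76) (nat_lit 9824230819) (nat_lit 12) (nat_lit 4) (nat_lit 13) (nat_lit 5) (nat_lit 13) (nat_lit 4) (nat_lit 488) (nat_lit 402) (nat_lit 310)))) (XT.nd (nat_lit 156) (nat_lit 76) (nat_lit 0) (XT.nd (nat_lit 78) (nat_lit 0) (nat_lit 0) (XT.lf (nat_lit 0) (nat_lit 81301638423) (nat_lit 152) (nat_lit 297869094589) (nat_lit 0) (nat_lit 70136280823) (nat_lit 10) (nat_lit 5) (nat_lit 12) (nat_lit 4) (nat_lit 10) (nat_lit 4) (nat_lit 489) (nat_lit 402) (nat_lit 309)) (XT.lf (nat_lit 0) (nat_lit 180285545060) (nat_lit 152) (nat_lit 131177712461) (nat_lit 0) (nat_lit 169119542595) (nat_lit 10) (nat_lit 5) (nat_lit 12) (nat_lit 4) (nat_lit 10) (nat_lit 4) (nat_lit 490) (nat_lit 402) (nat_lit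 308))) (XT.nd (nat_lit 78) (nat_lit 0) (nat_lit 0) (XT.lf (nat_lit 0) (nat_lit 50442304972) (nat_lit 76) (nat_lit 237523042370) (nat_lit 76) (nat_lit 226356442810) (nat_lit 9) (nat_lit 4) (nat_lit 10) (nat_lit 5) (nat_lit 10) (nat_lit 4) (nat_lit 491) (nat_lit 402) (nat_lit 307)) (XT.lf (nat_lit 0) (nat_lit 251256012448) (nat_lit 76) (nat_lit 155278641682) (nat_lit 76) (nat_lit 144111489254) (nat_lit 9) (nat_lit 4) (nat_lit 10) (nat_lit 5) (nat_lit 10) (nat_lit 4) (nat_lit 492) (nat_lit 402) (nat_lit 306))))))))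
noncomputable def xc50 : XT := (XT.nd (nat_lit 56784) (nat_lit 0) (nat_lit 3800) (XT.nd (nat_lit 55536) (nat_lit 0) (nat_lit 9500) (XT.nd (nat_lit 546) (nat_lit 152) (nat_lit 0) (XT.nd (nat_lit 234) (nat_lit 76) (nat_lit 0) (XT.nd (nat_lit 78) (nat_lit 152) (nat_lit 0) (XT.lf (nat_lit 0) (nat_lit 468116089533) (nat_lit 76) (nat_lit 66464239263) (nat_lit 76) (nat_lit 55296574922) (nat_lit 9) (nat_lit 4) (nat_lit 10) (nat_lit 5) (nat_lit 10) (nat_lit 4) (nat_lit 493) (nat_lit 402) (nat_lit 305)) (XT.nd (nat_lit 78) (nat_lit 0) (nat_lit 0) (XT.lf (nat_lit 0) (nat_lit 40922973910) (nat_lit 152) (nat_lit 560924804525) (nat_lit 0) (nat_lit 30286651685) (nat_lit 7) (nat_lit 5) (nat_lit 9) (nat_lit 4) (nat_lit 7) (nat_lit 4) (nat_lit 494) (nat_lit 402) (nat_lit 304)) (XT.lf (nat_lit 0) (nat_lit 146196743796) (nat_lit 152) (nat_lit 395805787208) (nat_lit 0) (nat_lit 135560003588) (nat_lit 7) (nat_lit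 5) (nat_lit 9) (nat_lit 4) (nat_lit 7) (nat_lit 4) (nat_lit 495) (nat_lit 402) (nat_lit 303)))) (XT.nd (nat_lit 156) (nat_lit 76) (nat_lit 0) (XT.nd (nat_lit 78) (nat_lit 0) (nat_lit 0) (XT.lf (nat_lit 0) (nat_lit 259884643069) (nat_lit 152) (nat_lit 217493117131) (nat_lit 0) (nat_lit 249247515838) (nat_lit 7) (nat_lit 5) (nat_lit 9) (nat_lit 4) (nat_lit 7) (nat_lit 4) (nat_lit 496) (nat_lit 402) (nat_lit 302)) (XT.lf (nat_lit 0) (nat_lit 382660377798) (nat_lit 152) (nat_lit 24930126620) (nat_lit 0) (nat_lit 372022892212) (nat_lit 7) (nat_lit 5) (nat_lit 9) (nat_lit 4) (nat_lit 7) (nat_lit 4) (nat_lit 497) (nat_lit 402) (nat_lit 301))) (XT.nd (nat_lit 78) (nat_lit 0) (nat_lit 0) (XT.lf (nat_lit 0) (nat_lit 189075908206) (nat_lit 76) (nat_lit 329127604497) (nat_lit 76) (nat_lit 318489787102) (nat_lit 6) (nat_lit 4) (nat_lit 7) (nat_lit 5) (nat_lit 7) (nat_lit 4) (nat_lit 498) (nat_lit 402) (nat_lit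 300)) (XT.lf (nat_lit 0) (nat_lit 421079659058) (nat_lit 76) (nat_lit 243938333061) (nat_lit 76) (nat_lit 233300208435) (nat_lit 6) (nat_lit 4) (nat_lit 7) (nat_lit 5) (nat_lit 7) (nat_lit 4) (nat_lit 499) (nat_lit 402) (nat_lit 299))))) (XT.nd (nat_lit 312) (nat_lit 0) (nat_lit 0) (XT.nd (nat_lit 156) (nat_lit 152) (nat_lit 0) (XT.nd (nat_lit 78) (nat_lit 0) (nat_lit 0) (XT.lf (nat_lit 0) (nat_lit 671631660403) (nat_lit 76) (nat_lit 151940068555) (nat_lit 76) (nat_lit 141301659456) (nat_lit 6) (nat_lit 4) (nat_lit 7) (nat_lit 5) (nat_lit 7) (nat_lit 4) (nat_lit 500) (nat_lit 402) (nat_lit 298)) (XT.lf (nat_lit 0) (nat_lit 942216664841) (nat_lit 76) (nat_lit 52587636078) (nat_lit 76) (nat_lit 41948963578) (nat_lit 6) (nat_lit 4) (nat_lit 7) (nat_lit 5) (nat_lit 7) (nat_lit 4) (nat_lit 501) (nat_lit 402) (nat_lit 297))) (XT.nd (nat_lit 78) (nat_lit 0) (nat_lit 0) (XT.lf (nat_lit 0) (nat_lit 66077380473)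 (nat_lit 152) (nat_lit 992169199548) (nat_lit 0) (nat_lit 55945079150) (nat_lit 4) (nat_lit 5) (nat_lit 6) (nat_lit 4) (nat_lit 4) (nat_lit 4) (nat_lit 502) (nat_lit 402) (nat_lit 296)) (XT.lf (nat_lit 0) (nat_lit 183851281289) (nat_lit 152) (nat_lit 840091938012) (nat_lit 0) (nat_lit 173718764895) (nat_lit 4) (nat_lit 5) (nat_lit 6) (nat_lit 4) (nat_lit 4) (nat_lit 4) (nat_lit 503) (nat_lit 402) (nat_lit 295)))) (XT.nd (nat_lit 156) (nat_lit 0) (nat_lit 0) (XT.nd (nat_lit 78) (nat_lit 0) (nat_lit 0) (XT.lf (nat_lit 0) (nat_lit 311042466394) (nat_lit 152) (nat_lit 675857949362) (nat_lit 0) (nat_lit 300909750860) (nat_lit 4) (nat_lit 5) (nat_lit 6) (nat_lit 4) (nat_lit 4) (nat_lit 4) (nat_lit 504) (nat_lit 402) (nat_lit 294)) (XT.lf (nat_lit 0) (nat_lit 448404661327) (nat_lit 152) (nat_lit 498493995149) (nat_lit 0) (nat_lit 438271761405) (nat_lit 4) (nat_lit 5) (nat_lit 6) (nat_lit 4) (nat_lit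 4) (nat_lit 4) (nat_lit 505) (nat_lit 402) (nat_lit 293))) (XT.nd (nat_lit 54444) (nat_lit 0) (nat_lit 15732) (XT.lf (nat_lit 0) (nat_lit 596751864282) (nat_lit 152) (nat_lit 306949029717) (nat_lit 0) (nat_lit 586618793630) (nat_lit 4) (nat_lit 5) (nat_lit 6) (nat_lit 4) (nat_lit 4) (nat_lit 4) (nat_lit 506) (nat_lit 402) (nat_lit 292)) (XT.lf (nat_lit 0) (nat_lit 3070812351) (nat_lit 380) (nat_lit 139594807) (nat_lit 380) (nat_lit 139594807) (nat_lit 211) (nat_lit 3) (nat_lit 216) (nat_lit 3) (nat_lit 216) (nat_lit 5) (nat_lit 403) (nat_lit 403) (nat_lit 394)))))) (XT.nd (nat_lit 624) (nat_lit 3800) (nat_lit 0) (XT.nd (nat_lit 312) (nat_lit 1672) (nat_lit 0) (XT.nd (nat_lit 156) (nat_lit 380) (nat_lit 0) (XT.nd (nat_lit 78) (nat_lit 0) (nat_lit 0) (XT.lf (nat_lit 0) (nat_lit 2914903416) (nat_lit 380) (nat_lit 1645937803) (nat_lit 456) (nat_lit 2233383620) (nat_lit 206) (nat_lit 5) (nat_lit 211)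 (nat_lit 3) (nat_lit 212) (nat_lit 5) (nat_lit 404) (nat_lit 403) (nat_lit 393)) (XT.lf (nat_lit 76) (nat_lit 4051792293) (nat_lit 0) (nat_lit 2320663704) (nat_lit 456) (nat_lit 536809344) (nat_lit 207) (nat_lit 5) (nat_lit 206) (nat_lit 5) (nat_lit 212) (nat_lit 5) (nat_lit 405) (nat_lit 403) (nat_lit 392))) (XT.nd (nat_lit 78) (nat_lit 0) (nat_lit 0) (XT.lf (nat_lit 0) (nat_lit 2732438770) (nat_lit 456) (nat_lit 3961768811) (nat_lit 532) (nat_lit 349051450) (nat_lit 201) (nat_lit 5) (nat_lit 207) (nat_lit 5) (nat_lit 208) (nat_lit 5) (nat_lit 406) (nat_lit 403) (nat_lit 391)) (XT.lf (nat_lit 76) (nat_lit 2230929207) (nat_lit 0) (nat_lit 3836032440) (nat_lit 532) (nat_lit 1129474581) (nat_lit 202) (nat_lit 5) (nat_lit 201) (nat_lit 5) (nat_lit 208) (nat_lit 5) (nat_lit 407) (nat_lit 403) (nat_lit 390)))) (XT.nd (nat_lit 156) (nat_lit 684) (nat_lit 0) (XT.nd (nat_lit 78) (nat_lit 456) (nat_lit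 0) (XT.lf (nat_lit 76) (nat_lit 1508964874) (nat_lit 0) (nat_lit 529718291) (nat_lit 608) (nat_lit 5331105286) (nat_lit 195) (nat_lit 5) (nat_lit 194) (nat_lit 5) (nat_lit 202) (nat_lit 5) (nat_lit 408) (nat_lit 403) (nat_lit 389)) (XT.lf (nat_lit 0) (nat_lit 876065417) (nat_lit 532) (nat_lit 4426083914) (nat_lit 608) (nat_lit 2259887781) (nat_lit 188) (nat_lit 5) (nat_lit 195) (nat_lit 5) (nat_lit 196) (nat_lit 5) (nat_lit 409) (nat_lit 403) (nat_lit 388))) (XT.nd (nat_lit 78) (nat_lit 0) (nat_lit 0) (XT.lf (nat_lit 0) (nat_lit 372028271) (nat_lit 608) (nat_lit 514082232) (nat_lit 684) (nat_lit 6889606673) (nat_lit 179) (nat_lit 5) (nat_lit 187) (nat_lit 5) (nat_lit 188) (nat_lit 5) (nat_lit 410) (nat_lit 403) (nat_lit 387)) (XT.lf (nat_lit 0) (nat_lit 4142814352) (nat_lit 684) (nat_lit 78127393) (nat_lit 76) (nat_lit 3786808226) (nat_lit 179) (nat_lit 5) (nat_lit 188) (nat_lit 5) (nat_lit 180)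 (nat_lit 5) (nat_lit 411) (nat_lit 403) (nat_lit 386))))) (XT.nd (nat_lit 312) (nat_lit 1368) (nat_lit 0) (XT.nd (nat_lit 156) (nat_lit 912) (nat_lit 0) (XT.nd (nat_lit 78) (nat_lit 836) (nat_lit 0) (XT.lf (nat_lit 0) (nat_lit 7575129783) (nat_lit 760) (nat_lit 387826562) (nat_lit 76) (nat_lit 299654496) (nat_lit 170) (nat_lit 5) (nat_lit 180) (nat_lit 5) (nat_lit 171) (nat_lit 5) (nat_lit 412) (nat_lit 403) (nat_lit 385)) (XT.lf (nat_lit 0) (nat_lit 2644520281) (nat_lit 836) (nat_lit 669467861) (nat_lit 76) (nat_lit 5222338122) (nat_lit 159) (nat_lit 5) (nat_lit 170) (nat_lit 5) (nat_lit 160) (nat_lit 5) (nat_lit 413) (nat_lit 403) (nat_lit 384))) (XT.nd (nat_lit 78) (nat_lit 456) (nat_lit 0) (XT.lf (nat_lit 0) (nat_lit 6181791401) (nat_lit 532) (nat_lit 852064366) (nat_lit 76) (nat_lit 1799395551) (nat_lit 153) (nat_lit 5) (nat_lit 160) (nat_lit 5) (nat_lit 154) (nat_lit 5) (nat_lit 414) (nat_lit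 403) (nat_lit 383)) (XT.lf (nat_lit 0) (nat_lit 830135359) (nat_lit 456) (nat_lit 963930986) (nat_lit 76) (nat_lit 7358757470) (nat_lit 147) (nat_lit 5) (nat_lit 153) (nat_lit 5) (nat_lit 148) (nat_lit 5) (nat_lit 415) (nat_lit 403) (nat_lit 382)))) (XT.nd (nat_lit 156) (nat_lit 684) (nat_lit 0) (XT.nd (nat_lit 78) (nat_lit 304) (nat_lit 0) (XT.lf (nat_lit 0) (nat_lit 4531148283) (nat_lit 456) (nat_lit 1041781886) (nat_lit 76) (nat_lit 3921182211) (nat_lit 142) (nat_lit 5) (nat_lit 148) (nat_lit 5) (nat_lit 143) (nat_lit 5) (nat_lit 416) (nat_lit 403) (nat_lit 381)) (XT.lf (nat_lit 0) (nat_lit 8549817322) (nat_lit 380) (nat_lit 1014380284) (nat_lit 76) (nat_lit 297439532) (nat_lit 138) (nat_lit 5) (nat_lit 143) (nat_lit 5) (nat_lit 139) (nat_lit 5) (nat_lit 417) (nat_lit 403) (nat_lit 380))) (XT.nd (nat_lit 78) (nat_lit 304) (nat_lit 0) (XT.lf (nat_lit 0) (nat_lit 2647084521) (nat_lit 380) (nat_lit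 979488674) (nat_lit 76) (nat_lit 6624952440) (nat_lit 133) (nat_lit 5) (nat_lit 138) (nat_lit 5) (nat_lit 134) (nat_lit 5) (nat_lit 418) (nat_lit 403) (nat_lit 379)) (XT.lf (nat_lit 0) (nat_lit 6942016635) (nat_lit 380) (nat_lit 868682466) (nat_lit 76) (nat_lit 2857576771) (nat_lit 129) (nat_lit 5) (nat_lit 134) (nat_lit 5) (nat_lit 130) (nat_lit 5) (nat_lit 419) (nat_lit 403) (nat_lit 378))))))) (XT.nd (nat_lit 1248) (nat_lit 1976) (nat_lit 0) (XT.nd (nat_lit 624) (nat_lit 1444) (nat_lit 0) (XT.nd (nat_lit 312) (nat_lit 836) (nat_lit 0) (XT.nd (nat_lit 156) (nat_lit 836) (nat_lit 0) (XT.nd (nat_lit 78) (nat_lit 228) (nat_lit 0) (XT.lf (nat_lit 0) (nat_lit 545243044) (nat_lit 380) (nat_lit 680137734) (nat_lit 76) (nat_lit 9887740176) (nat_lit 124) (nat_lit 5) (nat_lit 129) (nat_lit 5) (nat_lit 125) (nat_lit 5) (nat_lit 420) (nat_lit 403) (nat_lit 377)) (XT.lf (nat_lit 0) (nat_lit 5175471767)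 (nat_lit 304) (nat_lit 496711743) (nat_lit 76) (nat_lit 5910945919) (nat_lit 121) (nat_lit 5) (nat_lit 125) (nat_lit 5) (nat_lit 122) (nat_lit 5) (nat_lit 421) (nat_lit 403) (nat_lit 376))) (XT.nd (nat_lit 78) (nat_lit 532) (nat_lit 0) (XT.lf (nat_lit 0) (nat_lit 10287655620) (nat_lit 380) (nat_lit 206762467) (nat_lit 76) (nat_lit 1590750974) (nat_lit 117) (nat_lit 5) (nat_lit 122) (nat_lit 5) (nat_lit 118) (nat_lit 5) (nat_lit 422) (nat_lit 403) (nat_lit 375)) (XT.lf (nat_lit 0) (nat_lit 98382254) (nat_lit 228) (nat_lit 3163043095) (nat_lit 304) (nat_lit 9354378958) (nat_lit 110) (nat_lit 5) (nat_lit 113) (nat_lit 5) (nat_lit 114) (nat_lit 5) (nat_lit 423) (nat_lit 403) (nat_lit 374)))) (XT.nd (nat_lit 156) (nat_lit 380) (nat_lit 0) (XT.nd (nat_lit 78) (nat_lit 304) (nat_lit 0) (XT.lf (nat_lit 0) (nat_lit 467283803) (nat_lit 152) (nat_lit 8373208227) (nat_lit 228) (nat_lit 4338011502) (nat_lit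 108) (nat_lit 5) (nat_lit 110) (nat_lit 5) (nat_lit 111) (nat_lit 5) (nat_lit 424) (nat_lit 403) (nat_lit 373)) (XT.lf (nat_lit 0) (nat_lit 934590236) (nat_lit 228) (nat_lit 279135923) (nat_lit 304) (nat_lit 12563224138) (nat_lit 104) (nat_lit 5) (nat_lit 107) (nat_lit 5) (nat_lit 108) (nat_lit 5) (nat_lit 425) (nat_lit 403) (nat_lit 372))) (XT.nd (nat_lit 78) (nat_lit 228) (nat_lit 0) (XT.lf (nat_lit 0) (nat_lit 1367870665) (nat_lit 152) (nat_lit 5954635055) (nat_lit 228) (nat_lit 7083971932) (nat_lit 102) (nat_lit 5) (nat_lit 104) (nat_lit 5) (nat_lit 105) (nat_lit 5) (nat_lit 426) (nat_lit 403) (nat_lit 371)) (XT.lf (nat_lit 0) (nat_lit 1930909247) (nat_lit 228) (nat_lit 12183924414) (nat_lit 304) (nat_lit 961795755) (nat_lit 99) (nat_lit 5) (nat_lit 102) (nat_lit 5) (nat_lit 103) (nat_lit 5) (nat_lit 427) (nat_lit 403) (nat_lit 370))))) (XT.nd (nat_lit 312) (nat_lit 684) (nat_lit 0) (XT.nd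 (nat_lit 156) (nat_lit 380) (nat_lit 0) (XT.nd (nat_lit 78) (nat_lit 152) (nat_lit 0) (XT.lf (nat_lit 0) (nat_lit 2488591292) (nat_lit 152) (nat_lit 3243864940) (nat_lit 228) (nat_lit 10050373238) (nat_lit 96) (nat_lit 5) (nat_lit 98) (nat_lit 5) (nat_lit 99) (nat_lit 5) (nat_lit 428) (nat_lit 403) (nat_lit 369)) (XT.lf (nat_lit 0) (nat_lit 3118931522) (nat_lit 152) (nat_lit 10088979136) (nat_lit 228) (nat_lit 3322862258) (nat_lit 94) (nat_lit 5) (nat_lit 96) (nat_lit 5) (nat_lit 97) (nat_lit 5) (nat_lit 429) (nat_lit 403) (nat_lit 368))) (XT.nd (nat_lit 78) (nat_lit 152) (nat_lit 0) (XT.lf (nat_lit 0) (nat_lit 3829711479) (nat_lit 152) (nat_lit 237638432) (nat_lit 228) (nat_lit 13255592430) (nat_lit 91) (nat_lit 5) (nat_lit 93) (nat_lit 5) (nat_lit 94) (nat_lit 5) (nat_lit 430) (nat_lit 403) (nat_lit 367)) (XT.lf (nat_lit 0) (nat_lit 4522981807) (nat_lit 152) (nat_lit 7786110780) (nat_lit 228)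 (nat_lit 5847835566) (nat_lit 89) (nat_lit 5) (nat_lit 91) (nat_lit 5) (nat_lit 92) (nat_lit 5) (nat_lit 431) (nat_lit 403) (nat_lit 366)))) (XT.nd (nat_lit 156) (nat_lit 304) (nat_lit 0) (XT.nd (nat_lit 78) (nat_lit 152) (nat_lit 0) (XT.lf (nat_lit 0) (nat_lit 2366481843) (nat_lit 228) (nat_lit 13702918165) (nat_lit 76) (nat_lit 2972413380) (nat_lit 86) (nat_lit 5) (nat_lit 89) (nat_lit 5) (nat_lit 87) (nat_lit 5) (nat_lit 432) (nat_lit 403) (nat_lit 365)) (XT.lf (nat_lit 0) (nat_lit 6138751969) (nat_lit 152) (nat_lit 5276887952) (nat_lit 228) (nat_lit 8557929926) (nat_lit 84) (nat_lit 5) (nat_lit 86) (nat_lit 5) (nat_lit 87) (nat_lit 5) (nat_lit 433) (nat_lit 403) (nat_lit 364))) (XT.nd (nat_lit 78) (nat_lit 152) (nat_lit 0) (XT.lf (nat_lit 0) (nat_lit 575210684) (nat_lit 152) (nat_lit 13910435442) (nat_lit 76) (nat_lit 6475408228) (nat_lit 82) (nat_lit 5) (nat_lit 84) (nat_lit 5) (nat_lit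 83) (nat_lit 5) (nat_lit 434) (nat_lit 403) (nat_lit 363)) (XT.lf (nat_lit 0) (nat_lit 7955410720) (nat_lit 152) (nat_lit 2563215102) (nat_lit 228) (nat_lit 11482926540) (nat_lit 80) (nat_lit 5) (nat_lit 82) (nat_lit 5) (nat_lit 83) (nat_lit 5) (nat_lit 435) (nat_lit 403) (nat_lit 362)))))) (XT.nd (nat_lit 624) (nat_lit 836) (nat_lit 0) (XT.nd (nat_lit 312) (nat_lit 532) (nat_lit 0) (XT.nd (nat_lit 156) (nat_lit 304) (nat_lit 0) (XT.nd (nat_lit 78) (nat_lit 228) (nat_lit 0) (XT.lf (nat_lit 0) (nat_lit 8930964395) (nat_lit 76) (nat_lit 12793551092) (nat_lit 152) (nat_lit 1377426517) (nat_lit 79) (nat_lit 5) (nat_lit 80) (nat_lit 5) (nat_lit 81) (nat_lit 4) (nat_lit 436) (nat_lit 403) (nat_lit 361)) (XT.lf (nat_lit 0) (nat_lit 9606813801) (nat_lit 228) (nat_lit 14318078780) (nat_lit 76) (nat_lit 339250878) (nat_lit 76) (nat_lit 5) (nat_lit 79) (nat_lit 5) (nat_lit 77) (nat_lit 4) (nat_lit 437)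 (nat_lit 403) (nat_lit 360))) (XT.nd (nat_lit 78) (nat_lit 228) (nat_lit 0) (XT.lf (nat_lit 0) (nat_lit 10962486539) (nat_lit 76) (nat_lit 11022921551) (nat_lit 152) (nat_lit 3504591768) (nat_lit 75) (nat_lit 5) (nat_lit 76) (nat_lit 5) (nat_lit 77) (nat_lit 4) (nat_lit 438) (nat_lit 403) (nat_lit 359)) (XT.lf (nat_lit 0) (nat_lit 8691002676) (nat_lit 228) (nat_lit 14751135009) (nat_lit 76) (nat_lit 3343922344) (nat_lit 72) (nat_lit 5) (nat_lit 75) (nat_lit 5) (nat_lit 73) (nat_lit 4) (nat_lit 439) (nat_lit 403) (nat_lit 358)))) (XT.nd (nat_lit 156) (nat_lit 228) (nat_lit 0) (XT.nd (nat_lit 78) (nat_lit 228) (nat_lit 0) (XT.lf (nat_lit 0) (nat_lit 13108326970) (nat_lit 76) (nat_lit 9210715823) (nat_lit 152) (nat_lit 5834911747) (nat_lit 71) (nat_lit 5) (nat_lit 72) (nat_lit 5) (nat_lit 73) (nat_lit 4) (nat_lit 440) (nat_lit 403) (nat_lit 357)) (XT.lf (nat_lit 0) (nat_lit 7691120120) (nat_lit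 228) (nat_lit 15393157789) (nat_lit 76) (nat_lit 6515116625) (nat_lit 68) (nat_lit 5) (nat_lit 71) (nat_lit 5) (nat_lit 69) (nat_lit 4) (nat_lit 441) (nat_lit 403) (nat_lit 356))) (XT.nd (nat_lit 78) (nat_lit 152) (nat_lit 0) (XT.lf (nat_lit 0) (nat_lit 15296226073) (nat_lit 76) (nat_lit 7396400599) (nat_lit 152) (nat_lit 8433170403) (nat_lit 67) (nat_lit 5) (nat_lit 68) (nat_lit 5) (nat_lit 69) (nat_lit 4) (nat_lit 442) (nat_lit 403) (nat_lit 355)) (XT.lf (nat_lit 0) (nat_lit 6549798854) (nat_lit 152) (nat_lit 16365906938) (nat_lit 76) (nat_lit 9822542783) (nat_lit 65) (nat_lit 5) (nat_lit 67) (nat_lit 5) (nat_lit 66) (nat_lit 4) (nat_lit 443) (nat_lit 403) (nat_lit 354))))) (XT.nd (nat_lit 312) (nat_lit 380) (nat_lit 0) (XT.nd (nat_lit 156) (nat_lit 228) (nat_lit 0) (XT.nd (nat_lit 78) (nat_lit 152) (nat_lit 0) (XT.lf (nat_lit 0) (nat_lit 17418639294) (nat_lit 76) (nat_lit 5636799487) (nat_lit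 152) (nat_lit 11386371289) (nat_lit 64) (nat_lit 5) (nat_lit 65) (nat_lit 5) (nat_lit 66) (nat_lit 4) (nat_lit 444) (nat_lit 403) (nat_lit 353)) (XT.lf (nat_lit 0) (nat_lit 5186887388) (nat_lit 152) (nat_lit 17836569254) (nat_lit 76) (nat_lit 13217897795) (nat_lit 62) (nat_lit 5) (nat_lit 64) (nat_lit 5) (nat_lit 63) (nat_lit 4) (nat_lit 445) (nat_lit 403) (nat_lit 352))) (XT.nd (nat_lit 78) (nat_lit 152) (nat_lit 0) (XT.lf (nat_lit 0) (nat_lit 19320153171) (nat_lit 76) (nat_lit 4012682443) (nat_lit 152) (nat_lit 14810406730) (nat_lit 61) (nat_lit 5) (nat_lit 62) (nat_lit 5) (nat_lit 63) (nat_lit 4) (nat_lit 446) (nat_lit 403) (nat_lit 351)) (XT.lf (nat_lit 0) (nat_lit 3492256732) (nat_lit 152) (nat_lit 20032764406) (nat_lit 76) (nat_lit 16627799257) (nat_lit 59) (nat_lit 5) (nat_lit 61) (nat_lit 5) (nat_lit 60) (nat_lit 4) (nat_lit 447) (nat_lit 403) (nat_lit 350)))) (XT.nd (nat_lit 156) (nat_lit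 152) (nat_lit 0) (XT.nd (nat_lit 78) (nat_lit 152) (nat_lit 0) (XT.lf (nat_lit 0) (nat_lit 20781051603) (nat_lit 76) (nat_lit 2637300006) (nat_lit 152) (nat_lit 18858768813) (nat_lit 58) (nat_lit 5) (nat_lit 59) (nat_lit 5) (nat_lit 60) (nat_lit 4) (nat_lit 448) (nat_lit 403) (nat_lit 349)) (XT.lf (nat_lit 0) (nat_lit 1316386097) (nat_lit 152) (nat_lit 23262055079) (nat_lit 76) (nat_lit 19944588724) (nat_lit 56) (nat_lit 5) (nat_lit 58) (nat_lit 5) (nat_lit 57) (nat_lit 4) (nat_lit 449) (nat_lit 403) (nat_lit 348))) (XT.nd (nat_lit 78) (nat_lit 76) (nat_lit 0) (XT.lf (nat_lit 0) (nat_lit 21495884398) (nat_lit 76) (nat_lit 1667455318) (nat_lit 152) (nat_lit 23733889578) (nat_lit 55) (nat_lit 5) (nat_lit 56) (nat_lit 5) (nat_lit 57) (nat_lit 4) (nat_lit 450) (nat_lit 403) (nat_lit 347)) (XT.lf (nat_lit 0) (nat_lit 21446327948) (nat_lit 76) (nat_lit 26369261033) (nat_lit 76) (nat_lit 1592899107)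 (nat_lit 54) (nat_lit 4) (nat_lit 55) (nat_lit 5) (nat_lit 55) (nat_lit 4) (nat_lit 451) (nat_lit 403) (nat_lit 346))))))))
noncomputable def xc51 : XT := (XT.nd (nat_lit 2496) (nat_lit 836) (nat_lit 0) (XT.nd (nat_lit 1248) (nat_lit 1292) (nat_lit 0) (XT.nd (nat_lit 624) (nat_lit 836) (nat_lit 0) (XT.nd (nat_lit 312) (nat_lit 380) (nat_lit 0) (XT.nd (nat_lit 156) (nat_lit 228) (nat_lit 0) (XT.nd (nat_lit 78) (nat_lit 76) (nat_lit 0) (XT.lf (nat_lit 0) (nat_lit 21045558706) (nat_lit 76) (nat_lit 1317875715) (nat_lit 152) (nat_lit 29701868983) (nat_lit 52) (nat_lit 5) (nat_lit 53) (nat_lit 5) (nat_lit 54) (nat_lit 4) (nat_lit 452) (nat_lit 403) (nat_lit 345)) (XT.lf (nat_lit 0) (nat_lit 20179241148) (nat_lit 76) (nat_lit 29167376040) (nat_lit 76) (nat_lit 5528433943) (nat_lit 51) (nat_lit 4) (nat_lit 52) (nat_lit 5) (nat_lit 52) (nat_lit 4) (nat_lit 453) (nat_lit 403) (nat_lit 344))) (XT.nd (nat_lit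 78) (nat_lit 76) (nat_lit 0) (XT.lf (nat_lit 0) (nat_lit 18861046913) (nat_lit 76) (nat_lit 1879863690) (nat_lit 152) (nat_lit 37111569314) (nat_lit 49) (nat_lit 5) (nat_lit 50) (nat_lit 5) (nat_lit 51) (nat_lit 4) (nat_lit 454) (nat_lit 403) (nat_lit 343)) (XT.lf (nat_lit 0) (nat_lit 16820876696) (nat_lit 76) (nat_lit 33363639473) (nat_lit 76) (nat_lit 10815735470) (nat_lit 48) (nat_lit 4) (nat_lit 49) (nat_lit 5) (nat_lit 49) (nat_lit 4) (nat_lit 455) (nat_lit 403) (nat_lit 342)))) (XT.nd (nat_lit 156) (nat_lit 152) (nat_lit 0) (XT.nd (nat_lit 78) (nat_lit 76) (nat_lit 0) (XT.lf (nat_lit 0) (nat_lit 14176254482) (nat_lit 76) (nat_lit 3745488151) (nat_lit 152) (nat_lit 46419337726) (nat_lit 46) (nat_lit 5) (nat_lit 47) (nat_lit 5) (nat_lit 48) (nat_lit 4) (nat_lit 456) (nat_lit 403) (nat_lit 341)) (XT.lf (nat_lit 0) (nat_lit 10484418857) (nat_lit 76) (nat_lit 39445415406) (nat_lit 76) (nat_lit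 17942948684) (nat_lit 45) (nat_lit 4) (nat_lit 46) (nat_lit 5) (nat_lit 46) (nat_lit 4) (nat_lit 457) (nat_lit 403) (nat_lit 340))) (XT.nd (nat_lit 78) (nat_lit 0) (nat_lit 0) (XT.lf (nat_lit 0) (nat_lit 5966882935) (nat_lit 76) (nat_lit 7438939172) (nat_lit 152) (nat_lit 58220982611) (nat_lit 43) (nat_lit 5) (nat_lit 44) (nat_lit 5) (nat_lit 45) (nat_lit 4) (nat_lit 458) (nat_lit 403) (nat_lit 339)) (XT.lf (nat_lit 0) (nat_lit 48042884704) (nat_lit 152) (nat_lit 11845039) (nat_lit 0) (nat_lit 27541260154) (nat_lit 43) (nat_lit 5) (nat_lit 45) (nat_lit 4) (nat_lit 43) (nat_lit 4) (nat_lit 459) (nat_lit 403) (nat_lit 338))))) (XT.nd (nat_lit 312) (nat_lit 380) (nat_lit 0) (XT.nd (nat_lit 156) (nat_lit 228) (nat_lit 0) (XT.nd (nat_lit 78) (nat_lit 76) (nat_lit 0) (XT.lf (nat_lit 0) (nat_lit 6639647814) (nat_lit 152) (nat_lit 6900622889) (nat_lit 76) (nat_lit 66275609456) (nat_lit 41) (nat_lit 5)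 (nat_lit 43) (nat_lit 5) (nat_lit 42) (nat_lit 4) (nat_lit 460) (nat_lit 403) (nat_lit 337)) (XT.lf (nat_lit 0) (nat_lit 44052757518) (nat_lit 152) (nat_lit 15716954861) (nat_lit 0) (nat_lit 24508551749) (nat_lit 40) (nat_lit 5) (nat_lit 42) (nat_lit 4) (nat_lit 40) (nat_lit 4) (nat_lit 461) (nat_lit 403) (nat_lit 336))) (XT.nd (nat_lit 78) (nat_lit 152) (nat_lit 0) (XT.lf (nat_lit 0) (nat_lit 62930474489) (nat_lit 76) (nat_lit 22827406388) (nat_lit 76) (nat_lit 3274809836) (nat_lit 39) (nat_lit 4) (nat_lit 40) (nat_lit 5) (nat_lit 40) (nat_lit 4) (nat_lit 462) (nat_lit 403) (nat_lit 335)) (XT.lf (nat_lit 0) (nat_lit 36863861236) (nat_lit 152) (nat_lit 38969854040) (nat_lit 0) (nat_lit 18234941431) (nat_lit 37) (nat_lit 5) (nat_lit 39) (nat_lit 4) (nat_lit 37) (nat_lit 4) (nat_lit 463) (nat_lit 403) (nat_lit 334)))) (XT.nd (nat_lit 156) (nat_lit 152) (nat_lit 0) (XT.nd (nat_lit 78) (nat_lit 152)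 (nat_lit 0) (XT.lf (nat_lit 0) (nat_lit 45176888675) (nat_lit 76) (nat_lit 36443804067) (nat_lit 76) (nat_lit 17808033077) (nat_lit 36) (nat_lit 4) (nat_lit 37) (nat_lit 5) (nat_lit 37) (nat_lit 4) (nat_lit 464) (nat_lit 403) (nat_lit 333)) (XT.lf (nat_lit 0) (nat_lit 25241071599) (nat_lit 152) (nat_lit 72405916350) (nat_lit 0) (nat_lit 7486676666) (nat_lit 34) (nat_lit 5) (nat_lit 36) (nat_lit 4) (nat_lit 34) (nat_lit 4) (nat_lit 465) (nat_lit 403) (nat_lit 332))) (XT.nd (nat_lit 78) (nat_lit 76) (nat_lit 0) (XT.lf (nat_lit 0) (nat_lit 16904840920) (nat_lit 76) (nat_lit 56022350148) (nat_lit 76) (nat_lit 38262361133) (nat_lit 33) (nat_lit 4) (nat_lit 34) (nat_lit 5) (nat_lit 34) (nat_lit 4) (nat_lit 466) (nat_lit 403) (nat_lit 331)) (XT.lf (nat_lit 0) (nat_lit 7736385875) (nat_lit 152) (nat_lit 1905577676) (nat_lit 76) (nat_lit 108020094190) (nat_lit 32) (nat_lit 5) (nat_lit 34) (nat_lit 5)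 (nat_lit 33) (nat_lit 4) (nat_lit 467) (nat_lit 403) (nat_lit 330)))))) (XT.nd (nat_lit 624) (nat_lit 532) (nat_lit 0) (XT.nd (nat_lit 312) (nat_lit 380) (nat_lit 0) (XT.nd (nat_lit 156) (nat_lit 228) (nat_lit 0) (XT.nd (nat_lit 78) (nat_lit 76) (nat_lit 0) (XT.lf (nat_lit 0) (nat_lit 58299660000) (nat_lit 152) (nat_lit 24834199450) (nat_lit 0) (nat_lit 41375884052) (nat_lit 31) (nat_lit 5) (nat_lit 33) (nat_lit 4) (nat_lit 31) (nat_lit 4) (nat_lit 468) (nat_lit 403) (nat_lit 329)) (XT.lf (nat_lit 0) (nat_lit 79887792959) (nat_lit 76) (nat_lit 34437300799) (nat_lit 76) (nat_lit 17509295553) (nat_lit 30) (nat_lit 4) (nat_lit 31) (nat_lit 5) (nat_lit 31) (nat_lit 4) (nat_lit 469) (nat_lit 403) (nat_lit 328))) (XT.nd (nat_lit 78) (nat_lit 76) (nat_lit 0) (XT.lf (nat_lit 0) (nat_lit 35555471224) (nat_lit 152) (nat_lit 84652766108) (nat_lit 0) (nat_lit 19429831926) (nat_lit 28) (nat_lit 5) (nat_lit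 30) (nat_lit 4) (nat_lit 28) (nat_lit 4) (nat_lit 470) (nat_lit 403) (nat_lit 327)) (XT.lf (nat_lit 0) (nat_lit 24137036777) (nat_lit 76) (nat_lit 69975363260) (nat_lit 76) (nat_lit 53846270685) (nat_lit 27) (nat_lit 4) (nat_lit 28) (nat_lit 5) (nat_lit 28) (nat_lit 4) (nat_lit 471) (nat_lit 403) (nat_lit 326)))) (XT.nd (nat_lit 156) (nat_lit 228) (nat_lit 0) (XT.nd (nat_lit 78) (nat_lit 76) (nat_lit 0) (XT.lf (nat_lit 0) (nat_lit 1870334468) (nat_lit 152) (nat_lit 12298104394) (nat_lit 76) (nat_lit 142702439188) (nat_lit 26) (nat_lit 5) (nat_lit 28) (nat_lit 5) (nat_lit 27) (nat_lit 4) (nat_lit 472) (nat_lit 403) (nat_lit 325)) (XT.lf (nat_lit 0) (nat_lit 62652063793) (nat_lit 152) (nat_lit 56389988213) (nat_lit 0) (nat_lit 47285158380) (nat_lit 25) (nat_lit 5) (nat_lit 27) (nat_lit 4) (nat_lit 25) (nat_lit 4) (nat_lit 473) (nat_lit 403) (nat_lit 324))) (XT.nd (nat_lit 78) (nat_lit 152) (nat_lit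 0) (XT.lf (nat_lit 0) (nat_lit 67742569178) (nat_lit 76) (nat_lit 62046187554) (nat_lit 76) (nat_lit 46676671357) (nat_lit 24) (nat_lit 4) (nat_lit 25) (nat_lit 5) (nat_lit 25) (nat_lit 4) (nat_lit 474) (nat_lit 403) (nat_lit 323)) (XT.lf (nat_lit 0) (nat_lit 15659627653) (nat_lit 152) (nat_lit 170661054827) (nat_lit 0) (nat_lit 1019690901) (nat_lit 22) (nat_lit 5) (nat_lit 24) (nat_lit 4) (nat_lit 22) (nat_lit 4) (nat_lit 475) (nat_lit 403) (nat_lit 322))))) (XT.nd (nat_lit 312) (nat_lit 304) (nat_lit 0) (XT.nd (nat_lit 156) (nat_lit 152) (nat_lit 0) (XT.nd (nat_lit 78) (nat_lit 76) (nat_lit 0) (XT.lf (nat_lit 0) (nat_lit 84319858944) (nat_lit 152) (nat_lit 44900787794) (nat_lit 0) (nat_lit 69677790452) (nat_lit 22) (nat_lit 5) (nat_lit 24) (nat_lit 4) (nat_lit 22) (nat_lit 4) (nat_lit 476) (nat_lit 403) (nat_lit 321)) (XT.lf (nat_lit 0) (nat_lit 93886378083) (nat_lit 76) (nat_lit 66033237517)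 (nat_lit 76) (nat_lit 51389195193) (nat_lit 21) (nat_lit 4) (nat_lit 22) (nat_lit 5) (nat_lit 22) (nat_lit 4) (nat_lit 477) (nat_lit 403) (nat_lit 320))) (XT.nd (nat_lit 78) (nat_lit 0) (nat_lit 0) (XT.lf (nat_lit 0) (nat_lit 17478093431) (nat_lit 152) (nat_lit 203633005513) (nat_lit 0) (nat_lit 3529645863) (nat_lit 19) (nat_lit 5) (nat_lit 21) (nat_lit 4) (nat_lit 19) (nat_lit 4) (nat_lit 478) (nat_lit 403) (nat_lit 319)) (XT.lf (nat_lit 0) (nat_lit 93252742336) (nat_lit 152) (nat_lit 66281765625) (nat_lit 0) (nat_lit 79302683107) (nat_lit 19) (nat_lit 5) (nat_lit 21) (nat_lit 4) (nat_lit 19) (nat_lit 4) (nat_lit 479) (nat_lit 403) (nat_lit 318)))) (XT.nd (nat_lit 156) (nat_lit 228) (nat_lit 0) (XT.nd (nat_lit 78) (nat_lit 0) (nat_lit 0) (XT.lf (nat_lit 0) (nat_lit 84735607590) (nat_lit 76) (nat_lit 91659992559) (nat_lit 76) (nat_lit 77708441052) (nat_lit 18) (nat_lit 4) (nat_lit 19) (nat_lit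 5) (nat_lit 19) (nat_lit 4) (nat_lit 480) (nat_lit 403) (nat_lit 317)) (XT.lf (nat_lit 0) (nat_lit 250168715739) (nat_lit 76) (nat_lit 17159763620) (nat_lit 76) (nat_lit 3206830374) (nat_lit 18) (nat_lit 4) (nat_lit 19) (nat_lit 5) (nat_lit 19) (nat_lit 4) (nat_lit 481) (nat_lit 403) (nat_lit 316))) (XT.nd (nat_lit 78) (nat_lit 76) (nat_lit 0) (XT.lf (nat_lit 0) (nat_lit 78058957632) (nat_lit 152) (nat_lit 145228748135) (nat_lit 0) (nat_lit 64769231314) (nat_lit 16) (nat_lit 5) (nat_lit 18) (nat_lit 4) (nat_lit 16) (nat_lit 4) (nat_lit 482) (nat_lit 403) (nat_lit 315)) (XT.lf (nat_lit 0) (nat_lit 12876376869) (nat_lit 76) (nat_lit 153675125732) (nat_lit 76) (nat_lit 140384271206) (nat_lit 15) (nat_lit 4) (nat_lit 16) (nat_lit 5) (nat_lit 16) (nat_lit 4) (nat_lit 483) (nat_lit 403) (nat_lit 314))))))) (XT.nd (nat_lit 1248) (nat_lit 152) (nat_lit 0) (XT.nd (nat_lit 624) (nat_lit 304) (nat_lit 0)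 (XT.nd (nat_lit 312) (nat_lit 152) (nat_lit 0) (XT.nd (nat_lit 156) (nat_lit 76) (nat_lit 0) (XT.nd (nat_lit 78) (nat_lit 152) (nat_lit 0) (XT.lf (nat_lit 0) (nat_lit 188787481822) (nat_lit 76) (nat_lit 75851772339) (nat_lit 76) (nat_lit 62559873176) (nat_lit 15) (nat_lit 4) (nat_lit 16) (nat_lit 5) (nat_lit 16) (nat_lit 4) (nat_lit 484) (nat_lit 403) (nat_lit 313)) (XT.lf (nat_lit 0) (nat_lit 21403502348) (nat_lit 152) (nat_lit 318889598167) (nat_lit 0) (nat_lit 8743629567) (nat_lit 13) (nat_lit 5) (nat_lit 15) (nat_lit 4) (nat_lit 13) (nat_lit 4) (nat_lit 485) (nat_lit 403) (nat_lit 312))) (XT.nd (nat_lit 78) (nat_lit 76) (nat_lit 0) (XT.lf (nat_lit 0) (nat_lit 113638229181) (nat_lit 152) (nat_lit 157767026129) (nat_lit 0) (nat_lit 100977503440) (nat_lit 13) (nat_lit 5) (nat_lit 15) (nat_lit 4) (nat_lit 13) (nat_lit 4) (nat_lit 486) (nat_lit 403) (nat_lit 311)) (XT.lf (nat_lit 0) (nat_lit 16757544543)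 (nat_lit 76) (nat_lit 196743975699) (nat_lit 76) (nat_lit 184082460180) (nat_lit 12) (nat_lit 4) (nat_lit 13) (nat_lit 5) (nat_lit 13) (nat_lit 4) (nat_lit 487) (nat_lit 403) (nat_lit 310)))) (XT.nd (nat_lit 156) (nat_lit 152) (nat_lit 0) (XT.nd (nat_lit 78) (nat_lit 0) (nat_lit 0) (XT.lf (nat_lit 0) (nat_lit 210854786942) (nat_lit 76) (nat_lit 113235958086) (nat_lit 76) (nat_lit 100573711291) (nat_lit 12) (nat_lit 4) (nat_lit 13) (nat_lit 5) (nat_lit 13) (nat_lit 4) (nat_lit 488) (nat_lit 403) (nat_lit 309)) (XT.lf (nat_lit 0) (nat_lit 420458416568) (nat_lit 76) (nat_lit 23058201069) (nat_lit 76) (nat_lit 10395277168) (nat_lit 12) (nat_lit 4) (nat_lit 13) (nat_lit 5) (nat_lit 13) (nat_lit 4) (nat_lit 489) (nat_lit 403) (nat_lit 308))) (XT.nd (nat_lit 78) (nat_lit 0) (nat_lit 0) (XT.lf (nat_lit 0) (nat_lit 88007940408) (nat_lit 152) (nat_lit 321286110008) (nat_lit 0) (nat_lit 75947415786) (nat_lit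 10) (nat_lit 5) (nat_lit 12) (nat_lit 4) (nat_lit 10) (nat_lit 4) (nat_lit 490) (nat_lit 403) (nat_lit 307)) (XT.lf (nat_lit 0) (nat_lit 194895583952) (nat_lit 152) (nat_lit 141289973764) (nat_lit 0) (nat_lit 182834506464) (nat_lit 10) (nat_lit 5) (nat_lit 12) (nat_lit 4) (nat_lit 10) (nat_lit 4) (nat_lit 491) (nat_lit 403) (nat_lit 306))))) (XT.nd (nat_lit 312) (nat_lit 76) (nat_lit 0) (XT.nd (nat_lit 156) (nat_lit 152) (nat_lit 0) (XT.nd (nat_lit 78) (nat_lit 0) (nat_lit 0) (XT.lf (nat_lit 0) (nat_lit 54843045734) (nat_lit 76) (nat_lit 256338562603) (nat_lit 76) (nat_lit 244276973200) (nat_lit 9) (nat_lit 4) (nat_lit 10) (nat_lit 5) (nat_lit 10) (nat_lit 4) (nat_lit 492) (nat_lit 403) (nat_lit 305)) (XT.lf (nat_lit 0) (nat_lit 271694786374) (nat_lit 76) (nat_lit 167528411575) (nat_lit 76) (nat_lit 155466348178) (nat_lit 9) (nat_lit 4) (nat_lit 10) (nat_lit 5) (nat_lit 10) (nat_lit 4) (nat_lit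 493) (nat_lit 403) (nat_lit 304))) (XT.nd (nat_lit 78) (nat_lit 152) (nat_lit 0) (XT.lf (nat_lit 0) (nat_lit 505878610889) (nat_lit 76) (nat_lit 71621636328) (nat_lit 76) (nat_lit 59559134048) (nat_lit 9) (nat_lit 4) (nat_lit 10) (nat_lit 5) (nat_lit 10) (nat_lit 4) (nat_lit 494) (nat_lit 403) (nat_lit 303)) (XT.lf (nat_lit 0) (nat_lit 44348444549) (nat_lit 152) (nat_lit 605489198101) (nat_lit 0) (nat_lit 32859960117) (nat_lit 7) (nat_lit 5) (nat_lit 9) (nat_lit 4) (nat_lit 7) (nat_lit 4) (nat_lit 495) (nat_lit 403) (nat_lit 302)))) (XT.nd (nat_lit 156) (nat_lit 76) (nat_lit 0) (XT.nd (nat_lit 78) (nat_lit 0) (nat_lit 0) (XT.lf (nat_lit 0) (nat_lit 158032883973) (nat_lit 152) (nat_lit 427183592049) (nat_lit 0) (nat_lit 146544041187) (nat_lit 7) (nat_lit 5) (nat_lit 9) (nat_lit 4) (nat_lit 7) (nat_lit 4) (nat_lit 496) (nat_lit 403) (nat_lit 301)) (XT.lf (nat_lit 0) (nat_lit 280805415138) (nat_lit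 152) (nat_lit 234627142302) (nat_lit 0) (nat_lit 269316240542) (nat_lit 7) (nat_lit 5) (nat_lit 9) (nat_lit 4) (nat_lit 7) (nat_lit 4) (nat_lit 497) (nat_lit 403) (nat_lit 300))) (XT.nd (nat_lit 78) (nat_lit 76) (nat_lit 0) (XT.lf (nat_lit 0) (nat_lit 413393578969) (nat_lit 152) (nat_lit 26678773602) (nat_lit 0) (nat_lit 401904097142) (nat_lit 7) (nat_lit 5) (nat_lit 9) (nat_lit 4) (nat_lit 7) (nat_lit 4) (nat_lit 498) (nat_lit 403) (nat_lit 299)) (XT.lf (nat_lit 0) (nat_lit 204437063443) (nat_lit 76) (nat_lit 355337855155) (nat_lit 76) (nat_lit 343848088855) (nat_lit 6) (nat_lit 4) (nat_lit 7) (nat_lit 5) (nat_lit 7) (nat_lit 4) (nat_lit 499) (nat_lit 403) (nat_lit 298)))))) (XT.nd (nat_lit 55068) (nat_lit 0) (nat_lit 12540) (XT.nd (nat_lit 312) (nat_lit 0) (nat_lit 0) (XT.nd (nat_lit 156) (nat_lit 152) (nat_lit 0) (XT.nd (nat_lit 78) (nat_lit 0) (nat_lit 0) (XT.lf (nat_lit 0) (nat_lit 454983700839)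 (nat_lit 76) (nat_lit 263342327760) (nat_lit 76) (nat_lit 251852298059) (nat_lit 6) (nat_lit 4) (nat_lit 7) (nat_lit 5) (nat_lit 7) (nat_lit 4) (nat_lit 500) (nat_lit 403) (nat_lit 297)) (XT.lf (nat_lit 0) (nat_lit 725563738657) (nat_lit 76) (nat_lit 163992429645) (nat_lit 76) (nat_lit 152502156054) (nat_lit 6) (nat_lit 4) (nat_lit 7) (nat_lit 5) (nat_lit 7) (nat_lit 4) (nat_lit 501) (nat_lit 403) (nat_lit 296))) (XT.nd (nat_lit 78) (nat_lit 152) (nat_lit 0) (XT.lf (nat_lit 0) (nat_lit 1017780614160) (nat_lit 76) (nat_lit 56699420674) (nat_lit 76) (nat_lit 45208921259) (nat_lit 6) (nat_lit 4) (nat_lit 7) (nat_lit 5) (nat_lit 7) (nat_lit 4) (nat_lit 502) (nat_lit 403) (nat_lit 295)) (XT.lf (nat_lit 0) (nat_lit 71453857066) (nat_lit 152) (nat_lit 1071358295316) (nat_lit 0) (nat_lit 60510325150) (nat_lit 4) (nat_lit 5) (nat_lit 6) (nat_lit 4) (nat_lit 4) (nat_lit 4) (nat_lit 503) (nat_lit 403) (nat_lit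 294)))) (XT.nd (nat_lit 156) (nat_lit 0) (nat_lit 0) (XT.nd (nat_lit 78) (nat_lit 0) (nat_lit 0) (XT.lf (nat_lit 0) (nat_lit 198642982084) (nat_lit 152) (nat_lit 907128515094) (nat_lit 0) (nat_lit 187699265780) (nat_lit 4) (nat_lit 5) (nat_lit 6) (nat_lit 4) (nat_lit 4) (nat_lit 4) (nat_lit 504) (nat_lit 403) (nat_lit 293)) (XT.lf (nat_lit 0) (nat_lit 336003269530) (nat_lit 152) (nat_lit 729768457572) (nat_lit 0) (nat_lit 325059382497) (nat_lit 4) (nat_lit 5) (nat_lit 6) (nat_lit 4) (nat_lit 4) (nat_lit 4) (nat_lit 505) (nat_lit 403) (nat_lit 292))) (XT.nd (nat_lit 54522) (nat_lit 0) (nat_lit 15352) (XT.lf (nat_lit 0) (nat_lit 484348706293) (nat_lit 152) (nat_lit 538227100187) (nat_lit 0) (nat_lit 473404661177) (nat_lit 4) (nat_lit 5) (nat_lit 6) (nat_lit 4) (nat_lit 4) (nat_lit 4) (nat_lit 506) (nat_lit 403) (nat_lit 291)) (XT.lf (nat_lit 0) (nat_lit 1535294781) (nat_lit 0) (nat_lit 1535294781)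 (nat_lit 380) (nat_lit 379152910) (nat_lit 206) (nat_lit 5) (nat_lit 206) (nat_lit 3) (nat_lit 211) (nat_lit 3) (nat_lit 404) (nat_lit 404) (nat_lit 392))))) (XT.nd (nat_lit 312) (nat_lit 1824) (nat_lit 0) (XT.nd (nat_lit 156) (nat_lit 456) (nat_lit 0) (XT.nd (nat_lit 78) (nat_lit 0) (nat_lit 76) (XT.lf (nat_lit 76) (nat_lit 1710138225) (nat_lit 0) (nat_lit 559988748) (nat_lit 532) (nat_lit 4753965728) (nat_lit 200) (nat_lit 5) (nat_lit 199) (nat_lit 3) (nat_lit 206) (nat_lit 5) (nat_lit 405) (nat_lit 404) (nat_lit 391)) (XT.lf (nat_lit 76) (nat_lit 460393162) (nat_lit 0) (nat_lit 4861612079) (nat_lit 532) (nat_lit 1845686490) (nat_lit 201) (nat_lit 5) (nat_lit 200) (nat_lit 5) (nat_lit 207) (nat_lit 5) (nat_lit 406) (nat_lit 404) (nat_lit 390))) (XT.nd (nat_lit 78) (nat_lit 0) (nat_lit 76) (XT.lf (nat_lit 0) (nat_lit 1071108440) (nat_lit 532) (nat_lit 645089796) (nat_lit 608) (nat_lit 5614731285)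 (nat_lit 193) (nat_lit 5) (nat_lit 200) (nat_lit 5) (nat_lit 201) (nat_lit 5) (nat_lit 407) (nat_lit 404) (nat_lit 389)) (XT.lf (nat_lit 0) (nat_lit 4014169141) (nat_lit 532) (nat_lit 1653303885) (nat_lit 608) (nat_lit 1845386562) (nat_lit 194) (nat_lit 5) (nat_lit 201) (nat_lit 5) (nat_lit 202) (nat_lit 5) (nat_lit 408) (nat_lit 404) (nat_lit 388)))) (XT.nd (nat_lit 156) (nat_lit 1368) (nat_lit 0) (XT.nd (nat_lit 78) (nat_lit 532) (nat_lit 0) (XT.lf (nat_lit 76) (nat_lit 5159700528) (nat_lit 0) (nat_lit 1907338392) (nat_lit 608) (nat_lit 648610461) (nat_lit 195) (nat_lit 5) (nat_lit 194) (nat_lit 5) (nat_lit 202) (nat_lit 5) (nat_lit 409) (nat_lit 404) (nat_lit 387)) (XT.lf (nat_lit 0) (nat_lit 2254550751) (nat_lit 608) (nat_lit 3399996818) (nat_lit 76) (nat_lit 2283097332) (nat_lit 187) (nat_lit 5) (nat_lit 195) (nat_lit 5) (nat_lit 188) (nat_lit 5) (nat_lit 410) (nat_lit 404) (nat_lit 386)))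 (XT.nd (nat_lit 78) (nat_lit 760) (nat_lit 0) (XT.lf (nat_lit 0) (nat_lit 4020143744) (nat_lit 608) (nat_lit 1268452484) (nat_lit 684) (nat_lit 2892223625) (nat_lit 179) (nat_lit 5) (nat_lit 187) (nat_lit 5) (nat_lit 188) (nat_lit 5) (nat_lit 411) (nat_lit 404) (nat_lit 385)) (XT.lf (nat_lit 0) (nat_lit 82813879) (nat_lit 760) (nat_lit 4854418693) (nat_lit 76) (nat_lit 3507898027) (nat_lit 169) (nat_lit 5) (nat_lit 179) (nat_lit 5) (nat_lit 170) (nat_lit 5) (nat_lit 412) (nat_lit 404) (nat_lit 384))))))))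
noncomputable def xc52 : XT := (XT.nd (nat_lit 2418) (nat_lit 3268) (nat_lit 0) (XT.nd (nat_lit 1170) (nat_lit 2660) (nat_lit 0) (XT.nd (nat_lit 546) (nat_lit 2052) (nat_lit 0) (XT.nd (nat_lit 234) (nat_lit 1368) (nat_lit 0) (XT.nd (nat_lit 78) (nat_lit 912) (nat_lit 0) (XT.lf (nat_lit 0) (nat_lit 3147072094) (nat_lit 836) (nat_lit 5497156120) (nat_lit 76) (nat_lit 86375648) (nat_lit 159) (nat_lit 5) (nat_lit 170) (nat_lit 5) (nat_lit 160) (nat_lit 5) (nat_lit 413) (nat_lit 404) (nat_lit 383)) (XT.nd (nat_lit 78) (nat_lit 456) (nat_lit 0) (XT.lf (nat_lit 0) (nat_lit 2933647803) (nat_lit 456) (nat_lit 3554027390) (nat_lit 532) (nat_lit 2549694106) (nat_lit 153) (nat_lit 5) (nat_lit 159) (nat_lit 5) (nat_lit 160) (nat_lit 5) (nat_lit 414) (nat_lit 404) (nat_lit 382)) (XT.lf (nat_lit 0) (nat_lit 701106418) (nat_lit 456) (nat_lit 6636189511) (nat_lit 76) (nat_lit 2030949465) (nat_lit 147) (nat_lit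 5) (nat_lit 153) (nat_lit 5) (nat_lit 148) (nat_lit 5) (nat_lit 415) (nat_lit 404) (nat_lit 381)))) (XT.nd (nat_lit 156) (nat_lit 684) (nat_lit 0) (XT.nd (nat_lit 78) (nat_lit 304) (nat_lit 0) (XT.lf (nat_lit 0) (nat_lit 2569116298) (nat_lit 380) (nat_lit 1597278515) (nat_lit 456) (nat_lit 5554931076) (nat_lit 142) (nat_lit 5) (nat_lit 147) (nat_lit 5) (nat_lit 148) (nat_lit 5) (nat_lit 416) (nat_lit 404) (nat_lit 380)) (XT.lf (nat_lit 0) (nat_lit 2475934165) (nat_lit 304) (nat_lit 5504721682) (nat_lit 380) (nat_lit 2118420479) (nat_lit 138) (nat_lit 5) (nat_lit 142) (nat_lit 5) (nat_lit 143) (nat_lit 5) (nat_lit 417) (nat_lit 404) (nat_lit 379))) (XT.nd (nat_lit 78) (nat_lit 304) (nat_lit 0) (XT.lf (nat_lit 0) (nat_lit 1598388998) (nat_lit 380) (nat_lit 8040917821) (nat_lit 76) (nat_lit 863687881) (nat_lit 133) (nat_lit 5) (nat_lit 138) (nat_lit 5) (nat_lit 134) (nat_lit 5) (nat_lit 418) (nat_lit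 404) (nat_lit 378)) (XT.lf (nat_lit 0) (nat_lit 2465391962) (nat_lit 304) (nat_lit 3198403387) (nat_lit 380) (nat_lit 5267430188) (nat_lit 129) (nat_lit 5) (nat_lit 133) (nat_lit 5) (nat_lit 134) (nat_lit 5) (nat_lit 419) (nat_lit 404) (nat_lit 377))))) (XT.nd (nat_lit 312) (nat_lit 836) (nat_lit 0) (XT.nd (nat_lit 156) (nat_lit 608) (nat_lit 0) (XT.nd (nat_lit 78) (nat_lit 304) (nat_lit 0) (XT.lf (nat_lit 0) (nat_lit 2558524564) (nat_lit 304) (nat_lit 7602410661) (nat_lit 380) (nat_lit 1227462868) (nat_lit 125) (nat_lit 5) (nat_lit 129) (nat_lit 5) (nat_lit 130) (nat_lit 5) (nat_lit 420) (nat_lit 404) (nat_lit 376)) (XT.lf (nat_lit 0) (nat_lit 2701837070) (nat_lit 228) (nat_lit 450281709) (nat_lit 304) (nat_lit 8721746193) (nat_lit 121) (nat_lit 5) (nat_lit 124) (nat_lit 5) (nat_lit 125) (nat_lit 5) (nat_lit 421) (nat_lit 404) (nat_lit 375))) (XT.nd (nat_lit 78) (nat_lit 304) (nat_lit 0) (XT.lf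 (nat_lit 0) (nat_lit 2866161515) (nat_lit 304) (nat_lit 5165254282) (nat_lit 380) (nat_lit 4356136407) (nat_lit 117) (nat_lit 5) (nat_lit 121) (nat_lit 5) (nat_lit 122) (nat_lit 5) (nat_lit 422) (nat_lit 404) (nat_lit 374)) (XT.lf (nat_lit 0) (nat_lit 491309911) (nat_lit 304) (nat_lit 9799314462) (nat_lit 76) (nat_lit 2644232534) (nat_lit 113) (nat_lit 5) (nat_lit 117) (nat_lit 5) (nat_lit 114) (nat_lit 5) (nat_lit 423) (nat_lit 404) (nat_lit 373)))) (XT.nd (nat_lit 156) (nat_lit 456) (nat_lit 0) (XT.nd (nat_lit 78) (nat_lit 152) (nat_lit 0) (XT.lf (nat_lit 0) (nat_lit 3409349108) (nat_lit 228) (nat_lit 2362848777) (nat_lit 304) (nat_lit 7740269844) (nat_lit 110) (nat_lit 5) (nat_lit 113) (nat_lit 5) (nat_lit 114) (nat_lit 5) (nat_lit 424) (nat_lit 404) (nat_lit 372)) (XT.lf (nat_lit 0) (nat_lit 3756192308) (nat_lit 152) (nat_lit 7940732758) (nat_lit 228) (nat_lit 2428299069) (nat_lit 108) (nat_lit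 5) (nat_lit 110) (nat_lit 5) (nat_lit 111) (nat_lit 5) (nat_lit 425) (nat_lit 404) (nat_lit 371))) (XT.nd (nat_lit 78) (nat_lit 152) (nat_lit 0) (XT.lf (nat_lit 0) (nat_lit 3395747715) (nat_lit 304) (nat_lit 10599220161) (nat_lit 76) (nat_lit 779804091) (nat_lit 104) (nat_lit 5) (nat_lit 108) (nat_lit 5) (nat_lit 105) (nat_lit 5) (nat_lit 426) (nat_lit 404) (nat_lit 370)) (XT.lf (nat_lit 0) (nat_lit 4601193639) (nat_lit 152) (nat_lit 5290728050) (nat_lit 228) (nat_lit 5567811751) (nat_lit 102) (nat_lit 5) (nat_lit 104) (nat_lit 5) (nat_lit 105) (nat_lit 5) (nat_lit 427) (nat_lit 404) (nat_lit 369)))))) (XT.nd (nat_lit 624) (nat_lit 1140) (nat_lit 0) (XT.nd (nat_lit 312) (nat_lit 684) (nat_lit 0) (XT.nd (nat_lit 156) (nat_lit 380) (nat_lit 0) (XT.nd (nat_lit 78) (nat_lit 152) (nat_lit 0) (XT.lf (nat_lit 0) (nat_lit 926779310) (nat_lit 304) (nat_lit 11051146406) (nat_lit 76) (nat_lit 4208959304)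 (nat_lit 98) (nat_lit 5) (nat_lit 102) (nat_lit 5) (nat_lit 99) (nat_lit 5) (nat_lit 428) (nat_lit 404) (nat_lit 368)) (XT.lf (nat_lit 0) (nat_lit 5681665755) (nat_lit 152) (nat_lit 2345272782) (nat_lit 228) (nat_lit 8926656333) (nat_lit 96) (nat_lit 5) (nat_lit 98) (nat_lit 5) (nat_lit 99) (nat_lit 5) (nat_lit 429) (nat_lit 404) (nat_lit 367))) (XT.nd (nat_lit 78) (nat_lit 228) (nat_lit 0) (XT.lf (nat_lit 0) (nat_lit 6302891542) (nat_lit 152) (nat_lit 9724103011) (nat_lit 228) (nat_lit 1738055916) (nat_lit 94) (nat_lit 5) (nat_lit 96) (nat_lit 5) (nat_lit 97) (nat_lit 5) (nat_lit 430) (nat_lit 404) (nat_lit 366)) (XT.lf (nat_lit 0) (nat_lit 6110261313) (nat_lit 228) (nat_lit 11637939241) (nat_lit 76) (nat_lit 874646570) (nat_lit 91) (nat_lit 5) (nat_lit 94) (nat_lit 5) (nat_lit 92) (nat_lit 5) (nat_lit 431) (nat_lit 404) (nat_lit 365)))) (XT.nd (nat_lit 156) (nat_lit 304) (nat_lit 0) (XT.nd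 (nat_lit 78) (nat_lit 228) (nat_lit 0) (XT.lf (nat_lit 0) (nat_lit 7688196902) (nat_lit 152) (nat_lit 7243401311) (nat_lit 228) (nat_lit 4595944880) (nat_lit 89) (nat_lit 5) (nat_lit 91) (nat_lit 5) (nat_lit 92) (nat_lit 5) (nat_lit 432) (nat_lit 404) (nat_lit 364)) (XT.lf (nat_lit 0) (nat_lit 4157813675) (nat_lit 228) (nat_lit 12003621208) (nat_lit 76) (nat_lit 4323578465) (nat_lit 86) (nat_lit 5) (nat_lit 89) (nat_lit 5) (nat_lit 87) (nat_lit 5) (nat_lit 433) (nat_lit 404) (nat_lit 363))) (XT.nd (nat_lit 78) (nat_lit 152) (nat_lit 0) (XT.lf (nat_lit 0) (nat_lit 9303892191) (nat_lit 152) (nat_lit 4550093817) (nat_lit 228) (nat_lit 7641173528) (nat_lit 84) (nat_lit 5) (nat_lit 86) (nat_lit 5) (nat_lit 87) (nat_lit 5) (nat_lit 434) (nat_lit 404) (nat_lit 362)) (XT.lf (nat_lit 0) (nat_lit 2114896070) (nat_lit 152) (nat_lit 12360195524) (nat_lit 76) (nat_lit 8088127390) (nat_lit 82) (nat_lit 5)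 (nat_lit 84) (nat_lit 5) (nat_lit 83) (nat_lit 5) (nat_lit 435) (nat_lit 404) (nat_lit 361))))) (XT.nd (nat_lit 312) (nat_lit 608) (nat_lit 0) (XT.nd (nat_lit 156) (nat_lit 304) (nat_lit 0) (XT.nd (nat_lit 78) (nat_lit 76) (nat_lit 0) (XT.lf (nat_lit 0) (nat_lit 11139184347) (nat_lit 152) (nat_lit 1643729087) (nat_lit 228) (nat_lit 10907589636) (nat_lit 80) (nat_lit 5) (nat_lit 82) (nat_lit 5) (nat_lit 83) (nat_lit 5) (nat_lit 436) (nat_lit 404) (nat_lit 360)) (XT.lf (nat_lit 0) (nat_lit 12133364105) (nat_lit 76) (nat_lit 12701617933) (nat_lit 152) (nat_lit 46458947) (nat_lit 79) (nat_lit 5) (nat_lit 80) (nat_lit 5) (nat_lit 81) (nat_lit 4) (nat_lit 437) (nat_lit 404) (nat_lit 359))) (XT.nd (nat_lit 78) (nat_lit 76) (nat_lit 0) (XT.lf (nat_lit 0) (nat_lit 11721989864) (nat_lit 228) (nat_lit 12990156776) (nat_lit 76) (nat_lit 1425769310) (nat_lit 76) (nat_lit 5) (nat_lit 79) (nat_lit 5) (nat_lit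 77) (nat_lit 4) (nat_lit 438) (nat_lit 404) (nat_lit 358)) (XT.lf (nat_lit 0) (nat_lit 14205364196) (nat_lit 76) (nat_lit 10822695056) (nat_lit 152) (nat_lit 2436924263) (nat_lit 75) (nat_lit 5) (nat_lit 76) (nat_lit 5) (nat_lit 77) (nat_lit 4) (nat_lit 439) (nat_lit 404) (nat_lit 357)))) (XT.nd (nat_lit 156) (nat_lit 304) (nat_lit 0) (XT.nd (nat_lit 78) (nat_lit 76) (nat_lit 0) (XT.lf (nat_lit 0) (nat_lit 10647043010) (nat_lit 228) (nat_lit 13581190689) (nat_lit 76) (nat_lit 4637650724) (nat_lit 72) (nat_lit 5) (nat_lit 75) (nat_lit 5) (nat_lit 73) (nat_lit 4) (nat_lit 440) (nat_lit 404) (nat_lit 356)) (XT.lf (nat_lit 0) (nat_lit 16404898586) (nat_lit 76) (nat_lit 8902134216) (nat_lit 152) (nat_lit 5039094030) (nat_lit 71) (nat_lit 5) (nat_lit 72) (nat_lit 5) (nat_lit 73) (nat_lit 4) (nat_lit 441) (nat_lit 404) (nat_lit 355))) (XT.nd (nat_lit 78) (nat_lit 76) (nat_lit 0) (XT.lf (nat_lit 0) (nat_lit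 9488223007) (nat_lit 228) (nat_lit 14393384412) (nat_lit 76) (nat_lit 8026629723) (nat_lit 68) (nat_lit 5) (nat_lit 71) (nat_lit 5) (nat_lit 69) (nat_lit 4) (nat_lit 442) (nat_lit 404) (nat_lit 354)) (XT.lf (nat_lit 0) (nat_lit 18654183797) (nat_lit 76) (nat_lit 6981446337) (nat_lit 152) (nat_lit 7923834104) (nat_lit 67) (nat_lit 5) (nat_lit 68) (nat_lit 5) (nat_lit 69) (nat_lit 4) (nat_lit 443) (nat_lit 404) (nat_lit 353))))))) (XT.nd (nat_lit 1248) (nat_lit 1444) (nat_lit 0) (XT.nd (nat_lit 624) (nat_lit 912) (nat_lit 0) (XT.nd (nat_lit 312) (nat_lit 456) (nat_lit 0) (XT.nd (nat_lit 156) (nat_lit 228) (nat_lit 0) (XT.nd (nat_lit 78) (nat_lit 76) (nat_lit 0) (XT.lf (nat_lit 0) (nat_lit 8182786594) (nat_lit 152) (nat_lit 15558076737) (nat_lit 76) (nat_lit 11560980003) (nat_lit 65) (nat_lit 5) (nat_lit 67) (nat_lit 5) (nat_lit 66) (nat_lit 4) (nat_lit 444) (nat_lit 404) (nat_lit 352)) (XT.lf (nat_lit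 0) (nat_lit 20837226488) (nat_lit 76) (nat_lit 5121120221) (nat_lit 152) (nat_lit 11185870697) (nat_lit 64) (nat_lit 5) (nat_lit 65) (nat_lit 5) (nat_lit 66) (nat_lit 4) (nat_lit 445) (nat_lit 404) (nat_lit 351))) (XT.nd (nat_lit 78) (nat_lit 76) (nat_lit 0) (XT.lf (nat_lit 0) (nat_lit 6643501384) (nat_lit 152) (nat_lit 17255751630) (nat_lit 76) (nat_lit 15189314432) (nat_lit 62) (nat_lit 5) (nat_lit 64) (nat_lit 5) (nat_lit 63) (nat_lit 4) (nat_lit 446) (nat_lit 404) (nat_lit 350)) (XT.lf (nat_lit 0) (nat_lit 22786254517) (nat_lit 76) (nat_lit 3407694945) (nat_lit 152) (nat_lit 14951016627) (nat_lit 61) (nat_lit 5) (nat_lit 62) (nat_lit 5) (nat_lit 63) (nat_lit 4) (nat_lit 447) (nat_lit 404) (nat_lit 349)))) (XT.nd (nat_lit 156) (nat_lit 228) (nat_lit 0) (XT.nd (nat_lit 78) (nat_lit 76) (nat_lit 0) (XT.lf (nat_lit 0) (nat_lit 4750856946) (nat_lit 152) (nat_lit 19732226191) (nat_lit 76) (nat_lit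 18832991949) (nat_lit 59) (nat_lit 5) (nat_lit 61) (nat_lit 5) (nat_lit 60) (nat_lit 4) (nat_lit 448) (nat_lit 404) (nat_lit 348)) (XT.lf (nat_lit 0) (nat_lit 24263986112) (nat_lit 76) (nat_lit 1962940842) (nat_lit 152) (nat_lit 19385598520) (nat_lit 58) (nat_lit 5) (nat_lit 59) (nat_lit 5) (nat_lit 60) (nat_lit 4) (nat_lit 449) (nat_lit 404) (nat_lit 347))) (XT.nd (nat_lit 78) (nat_lit 76) (nat_lit 0) (XT.lf (nat_lit 0) (nat_lit 2342880816) (nat_lit 152) (nat_lit 23319706753) (nat_lit 76) (nat_lit 22376217402) (nat_lit 56) (nat_lit 5) (nat_lit 58) (nat_lit 5) (nat_lit 57) (nat_lit 4) (nat_lit 450) (nat_lit 404) (nat_lit 346)) (XT.lf (nat_lit 0) (nat_lit 24940498108) (nat_lit 76) (nat_lit 955787970) (nat_lit 152) (nat_lit 24708720071) (nat_lit 55) (nat_lit 5) (nat_lit 56) (nat_lit 5) (nat_lit 57) (nat_lit 4) (nat_lit 451) (nat_lit 404) (nat_lit 345))))) (XT.nd (nat_lit 312) (nat_lit 456) (nat_lit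 0) (XT.nd (nat_lit 156) (nat_lit 228) (nat_lit 0) (XT.nd (nat_lit 78) (nat_lit 152) (nat_lit 0) (XT.lf (nat_lit 0) (nat_lit 24841482033) (nat_lit 76) (nat_lit 27652494398) (nat_lit 76) (nat_lit 824526717) (nat_lit 54) (nat_lit 4) (nat_lit 55) (nat_lit 5) (nat_lit 55) (nat_lit 4) (nat_lit 452) (nat_lit 404) (nat_lit 344)) (XT.lf (nat_lit 0) (nat_lit 24363096157) (nat_lit 76) (nat_lit 617823575) (nat_lit 152) (nat_lit 31208181269) (nat_lit 52) (nat_lit 5) (nat_lit 53) (nat_lit 5) (nat_lit 54) (nat_lit 4) (nat_lit 453) (nat_lit 404) (nat_lit 343))) (XT.nd (nat_lit 78) (nat_lit 152) (nat_lit 0) (XT.lf (nat_lit 0) (nat_lit 23384063224) (nat_lit 76) (nat_lit 30713806336) (nat_lit 76) (nat_lit 5127003820) (nat_lit 51) (nat_lit 4) (nat_lit 52) (nat_lit 5) (nat_lit 52) (nat_lit 4) (nat_lit 454) (nat_lit 404) (nat_lit 342)) (XT.lf (nat_lit 0) (nat_lit 21917128463) (nat_lit 76) (nat_lit 1263415726) (nat_lit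 152) (nat_lit 39261111066) (nat_lit 49) (nat_lit 5) (nat_lit 50) (nat_lit 5) (nat_lit 51) (nat_lit 4) (nat_lit 455) (nat_lit 404) (nat_lit 341)))) (XT.nd (nat_lit 156) (nat_lit 228) (nat_lit 0) (XT.nd (nat_lit 78) (nat_lit 152) (nat_lit 0) (XT.lf (nat_lit 0) (nat_lit 19672380293) (nat_lit 76) (nat_lit 35284049314) (nat_lit 76) (nat_lit 10885979909) (nat_lit 48) (nat_lit 4) (nat_lit 49) (nat_lit 5) (nat_lit 49) (nat_lit 4) (nat_lit 456) (nat_lit 404) (nat_lit 340)) (XT.lf (nat_lit 0) (nat_lit 16775090446) (nat_lit 76) (nat_lit 3315824089) (nat_lit 152) (nat_lit 49360676530) (nat_lit 46) (nat_lit 5) (nat_lit 47) (nat_lit 5) (nat_lit 48) (nat_lit 4) (nat_lit 457) (nat_lit 404) (nat_lit 339))) (XT.nd (nat_lit 78) (nat_lit 152) (nat_lit 0) (XT.lf (nat_lit 0) (nat_lit 12748538218) (nat_lit 76) (nat_lit 41889435776) (nat_lit 76) (nat_lit 18628940145) (nat_lit 45) (nat_lit 4) (nat_lit 46) (nat_lit 5)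 (nat_lit 46) (nat_lit 4) (nat_lit 458) (nat_lit 404) (nat_lit 338)) (XT.lf (nat_lit 0) (nat_lit 7830602676) (nat_lit 76) (nat_lit 7341050243) (nat_lit 152) (nat_lit 62150624578) (nat_lit 43) (nat_lit 5) (nat_lit 44) (nat_lit 5) (nat_lit 45) (nat_lit 4) (nat_lit 459) (nat_lit 404) (nat_lit 337)))))) (XT.nd (nat_lit 624) (nat_lit 684) (nat_lit 0) (XT.nd (nat_lit 312) (nat_lit 456) (nat_lit 0) (XT.nd (nat_lit 156) (nat_lit 152) (nat_lit 0) (XT.nd (nat_lit 78) (nat_lit 76) (nat_lit 0) (XT.lf (nat_lit 0) (nat_lit 1335718859) (nat_lit 76) (nat_lit 51223473879) (nat_lit 76) (nat_lit 29050829390) (nat_lit 42) (nat_lit 4) (nat_lit 43) (nat_lit 5) (nat_lit 43) (nat_lit 4) (nat_lit 460) (nat_lit 404) (nat_lit 336)) (XT.lf (nat_lit 0) (nat_lit 7804264776) (nat_lit 152) (nat_lit 6182712019) (nat_lit 76) (nat_lit 72182498788) (nat_lit 41) (nat_lit 5) (nat_lit 43) (nat_lit 5) (nat_lit 42) (nat_lit 4) (nat_lit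 461) (nat_lit 404) (nat_lit 335))) (XT.nd (nat_lit 78) (nat_lit 76) (nat_lit 0) (XT.lf (nat_lit 0) (nat_lit 48191979931) (nat_lit 152) (nat_lit 15738777079) (nat_lit 0) (nat_lit 27059015629) (nat_lit 40) (nat_lit 5) (nat_lit 42) (nat_lit 4) (nat_lit 40) (nat_lit 4) (nat_lit 462) (nat_lit 404) (nat_lit 334)) (XT.lf (nat_lit 0) (nat_lit 69146751810) (nat_lit 76) (nat_lit 24059657483) (nat_lit 76) (nat_lit 2919499437) (nat_lit 39) (nat_lit 4) (nat_lit 40) (nat_lit 5) (nat_lit 40) (nat_lit 4) (nat_lit 463) (nat_lit 404) (nat_lit 333)))) (XT.nd (nat_lit 156) (nat_lit 228) (nat_lit 0) (XT.nd (nat_lit 78) (nat_lit 76) (nat_lit 0) (XT.lf (nat_lit 0) (nat_lit 40393217647) (nat_lit 152) (nat_lit 40918527052) (nat_lit 0) (nat_lit 20253390104) (nat_lit 37) (nat_lit 5) (nat_lit 39) (nat_lit 4) (nat_lit 37) (nat_lit 4) (nat_lit 464) (nat_lit 404) (nat_lit 332)) (XT.lf (nat_lit 0) (nat_lit 49909155445) (nat_lit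 76) (nat_lit 38795915850) (nat_lit 76) (nat_lit 18650214521) (nat_lit 36) (nat_lit 4) (nat_lit 37) (nat_lit 5) (nat_lit 37) (nat_lit 4) (nat_lit 465) (nat_lit 404) (nat_lit 331))) (XT.nd (nat_lit 78) (nat_lit 76) (nat_lit 0) (XT.lf (nat_lit 0) (nat_lit 27807949393) (nat_lit 152) (nat_lit 77092639634) (nat_lit 0) (nat_lit 8616387468) (nat_lit 34) (nat_lit 5) (nat_lit 36) (nat_lit 4) (nat_lit 34) (nat_lit 4) (nat_lit 466) (nat_lit 404) (nat_lit 330)) (XT.lf (nat_lit 0) (nat_lit 19314923670) (nat_lit 76) (nat_lit 59969985965) (nat_lit 76) (nat_lit 40773628017) (nat_lit 33) (nat_lit 4) (nat_lit 34) (nat_lit 5) (nat_lit 34) (nat_lit 4) (nat_lit 467) (nat_lit 404) (nat_lit 329))))) (XT.nd (nat_lit 312) (nat_lit 304) (nat_lit 0) (XT.nd (nat_lit 156) (nat_lit 228) (nat_lit 0) (XT.nd (nat_lit 78) (nat_lit 76) (nat_lit 0) (XT.lf (nat_lit 0) (nat_lit 8848007365) (nat_lit 152) (nat_lit 1062383612) (nat_lit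 76) (nat_lit 117139994475) (nat_lit 32) (nat_lit 5) (nat_lit 34) (nat_lit 5) (nat_lit 33) (nat_lit 4) (nat_lit 468) (nat_lit 404) (nat_lit 328)) (XT.lf (nat_lit 0) (nat_lit 63442229775) (nat_lit 152) (nat_lit 25852523288) (nat_lit 0) (nat_lit 45151838795) (nat_lit 31) (nat_lit 5) (nat_lit 33) (nat_lit 4) (nat_lit 31) (nat_lit 4) (nat_lit 469) (nat_lit 404) (nat_lit 327))) (XT.nd (nat_lit 78) (nat_lit 152) (nat_lit 0) (XT.lf (nat_lit 0) (nat_lit 87205142503) (nat_lit 76) (nat_lit 36723566650) (nat_lit 76) (nat_lit 18429549728) (nat_lit 30) (nat_lit 4) (nat_lit 31) (nat_lit 5) (nat_lit 31) (nat_lit 4) (nat_lit 470) (nat_lit 404) (nat_lit 326)) (XT.lf (nat_lit 0) (nat_lit 38851751137) (nat_lit 152) (nat_lit 90509090111) (nat_lit 0) (nat_lit 21425680399) (nat_lit 28) (nat_lit 5) (nat_lit 30) (nat_lit 4) (nat_lit 28) (nat_lit 4) (nat_lit 471) (nat_lit 404) (nat_lit 325)))) (XT.nd (nat_lit 156) (nat_lit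 152) (nat_lit 0) (XT.nd (nat_lit 78) (nat_lit 76) (nat_lit 0) (XT.lf (nat_lit 0) (nat_lit 26944093224) (nat_lit 76) (nat_lit 75129349511) (nat_lit 76) (nat_lit 57700318144) (nat_lit 27) (nat_lit 4) (nat_lit 28) (nat_lit 5) (nat_lit 28) (nat_lit 4) (nat_lit 472) (nat_lit 404) (nat_lit 324)) (XT.lf (nat_lit 0) (nat_lit 2426567177) (nat_lit 152) (nat_lit 12457309976) (nat_lit 76) (nat_lit 154516339994) (nat_lit 26) (nat_lit 5) (nat_lit 28) (nat_lit 5) (nat_lit 27) (nat_lit 4) (nat_lit 473) (nat_lit 404) (nat_lit 323))) (XT.nd (nat_lit 78) (nat_lit 76) (nat_lit 0) (XT.lf (nat_lit 0) (nat_lit 68059276500) (nat_lit 152) (nat_lit 60099186719) (nat_lit 0) (nat_lit 51455170831) (nat_lit 25) (nat_lit 5) (nat_lit 27) (nat_lit 4) (nat_lit 25) (nat_lit 4) (nat_lit 474) (nat_lit 404) (nat_lit 322)) (XT.lf (nat_lit 0) (nat_lit 73929121296) (nat_lit 76) (nat_lit 66620498099) (nat_lit 76) (nat_lit 50014154104)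 (nat_lit 24) (nat_lit 4) (nat_lit 25) (nat_lit 5) (nat_lit 25) (nat_lit 4) (nat_lit 475) (nat_lit 404) (nat_lit 321))))))))
noncomputable def xc53 : XT := (XT.nd (nat_lit 57018) (nat_lit 0) (nat_lit 5776) (XT.nd (nat_lit 1248) (nat_lit 456) (nat_lit 0) (XT.nd (nat_lit 624) (nat_lit 456) (nat_lit 0) (XT.nd (nat_lit 312) (nat_lit 228) (nat_lit 0) (XT.nd (nat_lit 156) (nat_lit 228) (nat_lit 0) (XT.nd (nat_lit 78) (nat_lit 0) (nat_lit 0) (XT.lf (nat_lit 0) (nat_lit 17285472738) (nat_lit 152) (nat_lit 183555542932) (nat_lit 0) (nat_lit 1467933196) (nat_lit 22) (nat_lit 5) (nat_lit 24) (nat_lit 4) (nat_lit 22) (nat_lit 4) (nat_lit 476) (nat_lit 404) (nat_lit 320)) (XT.lf (nat_lit 0) (nat_lit 91410887356) (nat_lit 152) (nat_lit 47790632039) (nat_lit 0) (nat_lit 75591520191) (nat_lit 22) (nat_lit 5) (nat_lit 24) (nat_lit 4) (nat_lit 22) (nat_lit 4) (nat_lit 477) (nat_lit 404) (nat_lit 319))) (XT.nd (nat_lit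 78) (nat_lit 152) (nat_lit 0) (XT.lf (nat_lit 0) (nat_lit 102068989536) (nat_lit 76) (nat_lit 70974534021) (nat_lit 76) (nat_lit 55153474612) (nat_lit 21) (nat_lit 4) (nat_lit 22) (nat_lit 5) (nat_lit 22) (nat_lit 4) (nat_lit 478) (nat_lit 404) (nat_lit 318)) (XT.lf (nat_lit 0) (nat_lit 19202606212) (nat_lit 152) (nat_lit 219259646123) (nat_lit 0) (nat_lit 4133438306) (nat_lit 19) (nat_lit 5) (nat_lit 21) (nat_lit 4) (nat_lit 19) (nat_lit 4) (nat_lit 479) (nat_lit 404) (nat_lit 317)))) (XT.nd (nat_lit 156) (nat_lit 152) (nat_lit 0) (XT.nd (nat_lit 78) (nat_lit 76) (nat_lit 0) (XT.lf (nat_lit 0) (nat_lit 101015059228) (nat_lit 152) (nat_lit 70969492216) (nat_lit 0) (nat_lit 85944509583) (nat_lit 19) (nat_lit 5) (nat_lit 21) (nat_lit 4) (nat_lit 19) (nat_lit 4) (nat_lit 480) (nat_lit 404) (nat_lit 316)) (XT.lf (nat_lit 0) (nat_lit 92102551760) (nat_lit 76) (nat_lit 98693598134) (nat_lit 76) (nat_lit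 83621769101) (nat_lit 18) (nat_lit 4) (nat_lit 19) (nat_lit 5) (nat_lit 19) (nat_lit 4) (nat_lit 481) (nat_lit 404) (nat_lit 315))) (XT.nd (nat_lit 78) (nat_lit 152) (nat_lit 0) (XT.lf (nat_lit 0) (nat_lit 270726745926) (nat_lit 76) (nat_lit 18255513385) (nat_lit 76) (nat_lit 3182499734) (nat_lit 18) (nat_lit 4) (nat_lit 19) (nat_lit 5) (nat_lit 19) (nat_lit 4) (nat_lit 482) (nat_lit 404) (nat_lit 314)) (XT.lf (nat_lit 0) (nat_lit 84567895099) (nat_lit 152) (nat_lit 156308786202) (nat_lit 0) (nat_lit 70211599365) (nat_lit 16) (nat_lit 5) (nat_lit 18) (nat_lit 4) (nat_lit 16) (nat_lit 4) (nat_lit 483) (nat_lit 404) (nat_lit 313))))) (XT.nd (nat_lit 312) (nat_lit 228) (nat_lit 0) (XT.nd (nat_lit 156) (nat_lit 152) (nat_lit 0) (XT.nd (nat_lit 78) (nat_lit 0) (nat_lit 0) (XT.lf (nat_lit 0) (nat_lit 14421356602) (nat_lit 76) (nat_lit 165706953705) (nat_lit 76) (nat_lit 151349690715) (nat_lit 15) (nat_lit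 4) (nat_lit 16) (nat_lit 5) (nat_lit 16) (nat_lit 4) (nat_lit 484) (nat_lit 404) (nat_lit 312)) (XT.lf (nat_lit 0) (nat_lit 204367211464) (nat_lit 76) (nat_lit 81677152936) (nat_lit 76) (nat_lit 67318994338) (nat_lit 15) (nat_lit 4) (nat_lit 16) (nat_lit 5) (nat_lit 16) (nat_lit 4) (nat_lit 485) (nat_lit 404) (nat_lit 311))) (XT.nd (nat_lit 78) (nat_lit 0) (nat_lit 0) (XT.lf (nat_lit 0) (nat_lit 23346896415) (nat_lit 152) (nat_lit 343929546245) (nat_lit 0) (nat_lit 9671669877) (nat_lit 13) (nat_lit 5) (nat_lit 15) (nat_lit 4) (nat_lit 13) (nat_lit 4) (nat_lit 486) (nat_lit 404) (nat_lit 310)) (XT.lf (nat_lit 0) (nat_lit 122943281849) (nat_lit 152) (nat_lit 169952073613) (nat_lit 0) (nat_lit 109267324035) (nat_lit 13) (nat_lit 5) (nat_lit 15) (nat_lit 4) (nat_lit 13) (nat_lit 4) (nat_lit 487) (nat_lit 404) (nat_lit 309)))) (XT.nd (nat_lit 156) (nat_lit 152) (nat_lit 0) (XT.nd (nat_lit 78) (nat_lit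 0) (nat_lit 0) (XT.lf (nat_lit 0) (nat_lit 18515501012) (nat_lit 76) (nat_lit 212270799799) (nat_lit 76) (nat_lit 198594164878) (nat_lit 12) (nat_lit 4) (nat_lit 13) (nat_lit 5) (nat_lit 13) (nat_lit 4) (nat_lit 488) (nat_lit 404) (nat_lit 308)) (XT.lf (nat_lit 0) (nat_lit 228109607773) (nat_lit 76) (nat_lit 122097895884) (nat_lit 76) (nat_lit 108420634012) (nat_lit 12) (nat_lit 4) (nat_lit 13) (nat_lit 5) (nat_lit 13) (nat_lit 4) (nat_lit 489) (nat_lit 404) (nat_lit 307))) (XT.nd (nat_lit 78) (nat_lit 152) (nat_lit 0) (XT.lf (nat_lit 0) (nat_lit 454452902741) (nat_lit 76) (nat_lit 24720506369) (nat_lit 76) (nat_lit 11042663987) (nat_lit 12) (nat_lit 4) (nat_lit 13) (nat_lit 5) (nat_lit 13) (nat_lit 4) (nat_lit 490) (nat_lit 404) (nat_lit 306)) (XT.lf (nat_lit 0) (nat_lit 95221904611) (nat_lit 152) (nat_lit 346635336130) (nat_lit 0) (nat_lit 82194876143) (nat_lit 10) (nat_lit 5) (nat_lit 12)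 (nat_lit 4) (nat_lit 10) (nat_lit 4) (nat_lit 491) (nat_lit 404) (nat_lit 305)))))) (XT.nd (nat_lit 624) (nat_lit 228) (nat_lit 0) (XT.nd (nat_lit 312) (nat_lit 152) (nat_lit 0) (XT.nd (nat_lit 156) (nat_lit 0) (nat_lit 0) (XT.nd (nat_lit 78) (nat_lit 76) (nat_lit 0) (XT.lf (nat_lit 0) (nat_lit 210647720456) (nat_lit 152) (nat_lit 152265706222) (nat_lit 0) (nat_lit 197620217993) (nat_lit 10) (nat_lit 5) (nat_lit 12) (nat_lit 4) (nat_lit 10) (nat_lit 4) (nat_lit 492) (nat_lit 404) (nat_lit 304)) (XT.lf (nat_lit 0) (nat_lit 59543723587) (nat_lit 76) (nat_lit 276685905535) (nat_lit 76) (nat_lit 263657964189) (nat_lit 9) (nat_lit 4) (nat_lit 10) (nat_lit 5) (nat_lit 10) (nat_lit 4) (nat_lit 493) (nat_lit 404) (nat_lit 303))) (XT.nd (nat_lit 78) (nat_lit 0) (nat_lit 0) (XT.lf (nat_lit 0) (nat_lit 293720400945) (nat_lit 76) (nat_lit 180782775171) (nat_lit 76) (nat_lit 167754427452) (nat_lit 9) (nat_lit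 4) (nat_lit 10) (nat_lit 5) (nat_lit 10) (nat_lit 4) (nat_lit 494) (nat_lit 404) (nat_lit 302)) (XT.lf (nat_lit 0) (nat_lit 546617447595) (nat_lit 76) (nat_lit 77214414152) (nat_lit 76) (nat_lit 64185690160) (nat_lit 9) (nat_lit 4) (nat_lit 10) (nat_lit 5) (nat_lit 10) (nat_lit 4) (nat_lit 495) (nat_lit 404) (nat_lit 301)))) (XT.nd (nat_lit 156) (nat_lit 0) (nat_lit 0) (XT.nd (nat_lit 78) (nat_lit 0) (nat_lit 0) (XT.lf (nat_lit 0) (nat_lit 48026320736) (nat_lit 152) (nat_lit 653662909750) (nat_lit 0) (nat_lit 35617680363) (nat_lit 7) (nat_lit 5) (nat_lit 9) (nat_lit 4) (nat_lit 7) (nat_lit 4) (nat_lit 496) (nat_lit 404) (nat_lit 300)) (XT.lf (nat_lit 0) (nat_lit 170795885638) (nat_lit 152) (nat_lit 461112516266) (nat_lit 0) (nat_lit 158386938034) (nat_lit 7) (nat_lit 5) (nat_lit 9) (nat_lit 4) (nat_lit 7) (nat_lit 4) (nat_lit 497) (nat_lit 404) (nat_lit 299))) (XT.nd (nat_lit 78) (nat_lit 0)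 (nat_lit 0) (XT.lf (nat_lit 0) (nat_lit 303381302930) (nat_lit 152) (nat_lit 253169755217) (nat_lit 0) (nat_lit 290972070853) (nat_lit 7) (nat_lit 5) (nat_lit 9) (nat_lit 4) (nat_lit 7) (nat_lit 4) (nat_lit 498) (nat_lit 404) (nat_lit 298)) (XT.lf (nat_lit 0) (nat_lit 446568263972) (nat_lit 152) (nat_lit 28602373204) (nat_lit 0) (nat_lit 434158768494) (nat_lit 7) (nat_lit 5) (nat_lit 9) (nat_lit 4) (nat_lit 7) (nat_lit 4) (nat_lit 499) (nat_lit 404) (nat_lit 297))))) (XT.nd (nat_lit 312) (nat_lit 152) (nat_lit 0) (XT.nd (nat_lit 156) (nat_lit 0) (nat_lit 0) (XT.nd (nat_lit 78) (nat_lit 0) (nat_lit 0) (XT.lf (nat_lit 0) (nat_lit 220993573941) (nat_lit 76) (nat_lit 383662039173) (nat_lit 76) (nat_lit 371252299805) (nat_lit 6) (nat_lit 4) (nat_lit 7) (nat_lit 5) (nat_lit 7) (nat_lit 4) (nat_lit 500) (nat_lit 404) (nat_lit 296)) (XT.lf (nat_lit 0) (nat_lit 491569013038) (nat_lit 76) (nat_lit 284314487689)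 (nat_lit 76) (nat_lit 271904522497) (nat_lit 6) (nat_lit 4) (nat_lit 7) (nat_lit 5) (nat_lit 7) (nat_lit 4) (nat_lit 501) (nat_lit 404) (nat_lit 295))) (XT.nd (nat_lit 78) (nat_lit 0) (nat_lit 0) (XT.lf (nat_lit 0) (nat_lit 783781630464) (nat_lit 76) (nat_lit 177023651525) (nat_lit 76) (nat_lit 164613477236) (nat_lit 6) (nat_lit 4) (nat_lit 7) (nat_lit 5) (nat_lit 7) (nat_lit 4) (nat_lit 502) (nat_lit 404) (nat_lit 294)) (XT.lf (nat_lit 0) (nat_lit 1099363056547) (nat_lit 76) (nat_lit 61153733131) (nat_lit 76) (nat_lit 48743365236) (nat_lit 6) (nat_lit 4) (nat_lit 7) (nat_lit 5) (nat_lit 7) (nat_lit 4) (nat_lit 503) (nat_lit 404) (nat_lit 293)))) (XT.nd (nat_lit 156) (nat_lit 0) (nat_lit 0) (XT.nd (nat_lit 78) (nat_lit 0) (nat_lit 0) (XT.lf (nat_lit 0) (nat_lit 77247571456) (nat_lit 152) (nat_lit 1156908831202) (nat_lit 0) (nat_lit 65428002730) (nat_lit 4) (nat_lit 5) (nat_lit 6) (nat_lit 4)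 (nat_lit 4) (nat_lit 4) (nat_lit 504) (nat_lit 404) (nat_lit 292)) (XT.lf (nat_lit 0) (nat_lit 214606092711) (nat_lit 152) (nat_lit 979552381727) (nat_lit 0) (nat_lit 202786365902) (nat_lit 4) (nat_lit 5) (nat_lit 6) (nat_lit 4) (nat_lit 4) (nat_lit 4) (nat_lit 505) (nat_lit 404) (nat_lit 291))) (XT.nd (nat_lit 54600) (nat_lit 0) (nat_lit 14820) (XT.lf (nat_lit 0) (nat_lit 362949894111) (nat_lit 152) (nat_lit 788014365127) (nat_lit 0) (nat_lit 351130020929) (nat_lit 4) (nat_lit 5) (nat_lit 6) (nat_lit 4) (nat_lit 4) (nat_lit 4) (nat_lit 506) (nat_lit 404) (nat_lit 290)) (XT.lf (nat_lit 0) (nat_lit 2538130393) (nat_lit 532) (nat_lit 520441023) (nat_lit 532) (nat_lit 520441023) (nat_lit 199) (nat_lit 3) (nat_lit 206) (nat_lit 3) (nat_lit 206) (nat_lit 5) (nat_lit 405) (nat_lit 405) (nat_lit 390))))))) (XT.nd (nat_lit 1248) (nat_lit 3344) (nat_lit 0) (XT.nd (nat_lit 624) (nat_lit 3420) (nat_lit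 0) (XT.nd (nat_lit 312) (nat_lit 1292) (nat_lit 0) (XT.nd (nat_lit 156) (nat_lit 456) (nat_lit 0) (XT.nd (nat_lit 78) (nat_lit 0) (nat_lit 76) (XT.lf (nat_lit 0) (nat_lit 600728690) (nat_lit 532) (nat_lit 2526564245) (nat_lit 608) (nat_lit 4183665598) (nat_lit 192) (nat_lit 5) (nat_lit 199) (nat_lit 3) (nat_lit 200) (nat_lit 5) (nat_lit 406) (nat_lit 405) (nat_lit 389)) (XT.lf (nat_lit 0) (nat_lit 3240794285) (nat_lit 532) (nat_lit 3921323505) (nat_lit 608) (nat_lit 321532728) (nat_lit 193) (nat_lit 5) (nat_lit 200) (nat_lit 5) (nat_lit 201) (nat_lit 5) (nat_lit 407) (nat_lit 405) (nat_lit 388))) (XT.nd (nat_lit 78) (nat_lit 532) (nat_lit 0) (XT.lf (nat_lit 76) (nat_lit 2428662521) (nat_lit 0) (nat_lit 3553401267) (nat_lit 608) (nat_lit 1693617670) (nat_lit 194) (nat_lit 5) (nat_lit 193) (nat_lit 5) (nat_lit 201) (nat_lit 5) (nat_lit 408) (nat_lit 405) (nat_lit 387)) (XT.lf (nat_lit 0) (nat_lit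 892214266) (nat_lit 608) (nat_lit 6480121760) (nat_lit 684) (nat_lit 516604123) (nat_lit 186) (nat_lit 5) (nat_lit 194) (nat_lit 5) (nat_lit 195) (nat_lit 5) (nat_lit 409) (nat_lit 405) (nat_lit 386)))) (XT.nd (nat_lit 156) (nat_lit 1292) (nat_lit 0) (XT.nd (nat_lit 78) (nat_lit 0) (nat_lit 76) (XT.lf (nat_lit 76) (nat_lit 431304660) (nat_lit 0) (nat_lit 3137288434) (nat_lit 684) (nat_lit 4552146620) (nat_lit 187) (nat_lit 5) (nat_lit 186) (nat_lit 5) (nat_lit 195) (nat_lit 5) (nat_lit 410) (nat_lit 405) (nat_lit 385)) (XT.lf (nat_lit 0) (nat_lit 6393344673) (nat_lit 608) (nat_lit 428900905) (nat_lit 76) (nat_lit 1552142336) (nat_lit 187) (nat_lit 5) (nat_lit 195) (nat_lit 5) (nat_lit 188) (nat_lit 5) (nat_lit 411) (nat_lit 405) (nat_lit 384))) (XT.nd (nat_lit 78) (nat_lit 684) (nat_lit 0) (XT.lf (nat_lit 0) (nat_lit 751209939) (nat_lit 684) (nat_lit 1217488128) (nat_lit 76) (nat_lit 6679977874)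 (nat_lit 178) (nat_lit 5) (nat_lit 187) (nat_lit 5) (nat_lit 179) (nat_lit 5) (nat_lit 412) (nat_lit 405) (nat_lit 383)) (XT.lf (nat_lit 0) (nat_lit 3625729581) (nat_lit 760) (nat_lit 1971171856) (nat_lit 76) (nat_lit 3346741680) (nat_lit 169) (nat_lit 5) (nat_lit 179) (nat_lit 5) (nat_lit 170) (nat_lit 5) (nat_lit 413) (nat_lit 405) (nat_lit 382))))) (XT.nd (nat_lit 312) (nat_lit 1368) (nat_lit 0) (XT.nd (nat_lit 156) (nat_lit 760) (nat_lit 0) (XT.nd (nat_lit 78) (nat_lit 532) (nat_lit 0) (XT.lf (nat_lit 0) (nat_lit 6623123969) (nat_lit 760) (nat_lit 97411449) (nat_lit 836) (nat_lit 2542169466) (nat_lit 159) (nat_lit 5) (nat_lit 169) (nat_lit 5) (nat_lit 170) (nat_lit 5) (nat_lit 414) (nat_lit 405) (nat_lit 381)) (XT.lf (nat_lit 0) (nat_lit 509409101) (nat_lit 532) (nat_lit 3288313574) (nat_lit 76) (nat_lit 5805807189) (nat_lit 152) (nat_lit 5) (nat_lit 159) (nat_lit 5) (nat_lit 153) (nat_lit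 5) (nat_lit 415) (nat_lit 405) (nat_lit 380))) (XT.nd (nat_lit 78) (nat_lit 380) (nat_lit 0) (XT.lf (nat_lit 0) (nat_lit 3747692635) (nat_lit 456) (nat_lit 3900479118) (nat_lit 76) (nat_lit 2319794127) (nat_lit 147) (nat_lit 5) (nat_lit 153) (nat_lit 5) (nat_lit 148) (nat_lit 5) (nat_lit 416) (nat_lit 405) (nat_lit 379)) (XT.lf (nat_lit 0) (nat_lit 5899288458) (nat_lit 380) (nat_lit 1418181726) (nat_lit 456) (nat_lit 3040475197) (nat_lit 142) (nat_lit 5) (nat_lit 147) (nat_lit 5) (nat_lit 148) (nat_lit 5) (nat_lit 417) (nat_lit 405) (nat_lit 378)))) (XT.nd (nat_lit 156) (nat_lit 684) (nat_lit 0) (XT.nd (nat_lit 78) (nat_lit 304) (nat_lit 0) (XT.lf (nat_lit 0) (nat_lit 491329509) (nat_lit 380) (nat_lit 4988403885) (nat_lit 76) (nat_lit 5293580279) (nat_lit 137) (nat_lit 5) (nat_lit 142) (nat_lit 5) (nat_lit 138) (nat_lit 5) (nat_lit 418) (nat_lit 405) (nat_lit 377)) (XT.lf (nat_lit 0) (nat_lit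 4287790107) (nat_lit 380) (nat_lit 5494995144) (nat_lit 76) (nat_lit 1432210538) (nat_lit 133) (nat_lit 5) (nat_lit 138) (nat_lit 5) (nat_lit 134) (nat_lit 5) (nat_lit 419) (nat_lit 405) (nat_lit 376))) (XT.nd (nat_lit 78) (nat_lit 380) (nat_lit 0) (XT.lf (nat_lit 0) (nat_lit 5713220846) (nat_lit 304) (nat_lit 2823093535) (nat_lit 380) (nat_lit 3148288440) (nat_lit 129) (nat_lit 5) (nat_lit 133) (nat_lit 5) (nat_lit 134) (nat_lit 5) (nat_lit 420) (nat_lit 405) (nat_lit 375)) (XT.lf (nat_lit 0) (nat_lit 1051096389) (nat_lit 380) (nat_lit 6413797474) (nat_lit 76) (nat_lit 4718762331) (nat_lit 124) (nat_lit 5) (nat_lit 129) (nat_lit 5) (nat_lit 125) (nat_lit 5) (nat_lit 421) (nat_lit 405) (nat_lit 374)))))) (XT.nd (nat_lit 624) (nat_lit 1368) (nat_lit 0) (XT.nd (nat_lit 312) (nat_lit 912) (nat_lit 0) (XT.nd (nat_lit 156) (nat_lit 532) (nat_lit 0) (XT.nd (nat_lit 78) (nat_lit 304) (nat_lit 0) (XT.lf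 (nat_lit 0) (nat_lit 5616285964) (nat_lit 304) (nat_lit 6832572441) (nat_lit 76) (nat_lit 264193412) (nat_lit 121) (nat_lit 5) (nat_lit 125) (nat_lit 5) (nat_lit 122) (nat_lit 5) (nat_lit 422) (nat_lit 405) (nat_lit 373)) (XT.lf (nat_lit 0) (nat_lit 6027851224) (nat_lit 304) (nat_lit 4747036930) (nat_lit 380) (nat_lit 2498506876) (nat_lit 117) (nat_lit 5) (nat_lit 121) (nat_lit 5) (nat_lit 122) (nat_lit 5) (nat_lit 423) (nat_lit 405) (nat_lit 372))) (XT.nd (nat_lit 78) (nat_lit 228) (nat_lit 0) (XT.lf (nat_lit 0) (nat_lit 2566066482) (nat_lit 304) (nat_lit 7622725762) (nat_lit 76) (nat_lit 3678980631) (nat_lit 113) (nat_lit 5) (nat_lit 117) (nat_lit 5) (nat_lit 114) (nat_lit 5) (nat_lit 424) (nat_lit 405) (nat_lit 371)) (XT.lf (nat_lit 0) (nat_lit 6513969700) (nat_lit 228) (nat_lit 1648895057) (nat_lit 304) (nat_lit 6334063250) (nat_lit 110) (nat_lit 5) (nat_lit 113) (nat_lit 5) (nat_lit 114)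 (nat_lit 5) (nat_lit 425) (nat_lit 405) (nat_lit 370)))) (XT.nd (nat_lit 156) (nat_lit 456) (nat_lit 0) (XT.nd (nat_lit 78) (nat_lit 304) (nat_lit 0) (XT.lf (nat_lit 0) (nat_lit 6844346987) (nat_lit 152) (nat_lit 7630919253) (nat_lit 228) (nat_lit 687760737) (nat_lit 108) (nat_lit 5) (nat_lit 110) (nat_lit 5) (nat_lit 111) (nat_lit 5) (nat_lit 426) (nat_lit 405) (nat_lit 369)) (XT.lf (nat_lit 0) (nat_lit 5458928626) (nat_lit 304) (nat_lit 8647241824) (nat_lit 76) (nat_lit 1760931619) (nat_lit 104) (nat_lit 5) (nat_lit 108) (nat_lit 5) (nat_lit 105) (nat_lit 5) (nat_lit 427) (nat_lit 405) (nat_lit 368))) (XT.nd (nat_lit 78) (nat_lit 304) (nat_lit 0) (XT.lf (nat_lit 0) (nat_lit 7647524145) (nat_lit 152) (nat_lit 4736381862) (nat_lit 228) (nat_lit 4227504580) (nat_lit 102) (nat_lit 5) (nat_lit 104) (nat_lit 5) (nat_lit 105) (nat_lit 5) (nat_lit 428) (nat_lit 405) (nat_lit 367)) (XT.lf (nat_lit 0)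 (nat_lit 2657533948) (nat_lit 304) (nat_lit 9251755828) (nat_lit 76) (nat_lit 5489653703) (nat_lit 98) (nat_lit 5) (nat_lit 102) (nat_lit 5) (nat_lit 99) (nat_lit 5) (nat_lit 429) (nat_lit 405) (nat_lit 366))))) (XT.nd (nat_lit 312) (nat_lit 684) (nat_lit 0) (XT.nd (nat_lit 156) (nat_lit 380) (nat_lit 0) (XT.nd (nat_lit 78) (nat_lit 152) (nat_lit 0) (XT.lf (nat_lit 0) (nat_lit 8703060436) (nat_lit 152) (nat_lit 1540009356) (nat_lit 228) (nat_lit 7988056704) (nat_lit 96) (nat_lit 5) (nat_lit 98) (nat_lit 5) (nat_lit 99) (nat_lit 5) (nat_lit 430) (nat_lit 405) (nat_lit 365)) (XT.lf (nat_lit 0) (nat_lit 9322936907) (nat_lit 152) (nat_lit 9497234908) (nat_lit 228) (nat_lit 290478885) (nat_lit 94) (nat_lit 5) (nat_lit 96) (nat_lit 5) (nat_lit 97) (nat_lit 5) (nat_lit 431) (nat_lit 405) (nat_lit 364))) (XT.nd (nat_lit 78) (nat_lit 152) (nat_lit 0) (XT.lf (nat_lit 0) (nat_lit 8075017083) (nat_lit 228)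 (nat_lit 10056334571) (nat_lit 76) (nat_lit 1907479828) (nat_lit 91) (nat_lit 5) (nat_lit 94) (nat_lit 5) (nat_lit 92) (nat_lit 5) (nat_lit 432) (nat_lit 405) (nat_lit 363)) (XT.lf (nat_lit 0) (nat_lit 10706696198) (nat_lit 152) (nat_lit 6823560718) (nat_lit 228) (nat_lit 3489239870) (nat_lit 89) (nat_lit 5) (nat_lit 91) (nat_lit 5) (nat_lit 92) (nat_lit 5) (nat_lit 433) (nat_lit 405) (nat_lit 362)))) (XT.nd (nat_lit 156) (nat_lit 304) (nat_lit 0) (XT.nd (nat_lit 78) (nat_lit 152) (nat_lit 0) (XT.lf (nat_lit 0) (nat_lit 5863906949) (nat_lit 228) (nat_lit 10567194161) (nat_lit 76) (nat_lit 5624001792) (nat_lit 86) (nat_lit 5) (nat_lit 89) (nat_lit 5) (nat_lit 87) (nat_lit 5) (nat_lit 434) (nat_lit 405) (nat_lit 361)) (XT.lf (nat_lit 0) (nat_lit 12340761921) (nat_lit 152) (nat_lit 3929066024) (nat_lit 228) (nat_lit 6879532918) (nat_lit 84) (nat_lit 5) (nat_lit 86) (nat_lit 5) (nat_lit 87) (nat_lit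 5) (nat_lit 435) (nat_lit 405) (nat_lit 360))) (XT.nd (nat_lit 78) (nat_lit 152) (nat_lit 0) (XT.lf (nat_lit 0) (nat_lit 3564667773) (nat_lit 152) (nat_lit 11065853799) (nat_lit 76) (nat_lit 9673694817) (nat_lit 82) (nat_lit 5) (nat_lit 84) (nat_lit 5) (nat_lit 83) (nat_lit 5) (nat_lit 436) (nat_lit 405) (nat_lit 359)) (XT.lf (nat_lit 0) (nat_lit 14214253225) (nat_lit 152) (nat_lit 811112854) (nat_lit 228) (nat_lit 10499357449) (nat_lit 80) (nat_lit 5) (nat_lit 82) (nat_lit 5) (nat_lit 83) (nat_lit 5) (nat_lit 437) (nat_lit 405) (nat_lit 358))))))))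
noncomputable def xc54 : XT := (XT.nd (nat_lit 2418) (nat_lit 1976) (nat_lit 0) (XT.nd (nat_lit 1170) (nat_lit 1672) (nat_lit 0) (XT.nd (nat_lit 546) (nat_lit 912) (nat_lit 0) (XT.nd (nat_lit 234) (nat_lit 608) (nat_lit 0) (XT.nd (nat_lit 78) (nat_lit 228) (nat_lit 0) (XT.lf (nat_lit 0) (nat_lit 1147448375) (nat_lit 152) (nat_lit 11594575893) (nat_lit 76) (nat_lit 14070144855) (nat_lit 78) (nat_lit 5) (nat_lit 80) (nat_lit 5) (nat_lit 79) (nat_lit 5) (nat_lit 438) (nat_lit 405) (nat_lit 357)) (XT.nd (nat_lit 78) (nat_lit 76) (nat_lit 0) (XT.lf (nat_lit 0) (nat_lit 13814268052) (nat_lit 228) (nat_lit 11908854652) (nat_lit 76) (nat_lit 2448077050) (nat_lit 76) (nat_lit 5) (nat_lit 79) (nat_lit 5) (nat_lit 77) (nat_lit 4) (nat_lit 439) (nat_lit 405) (nat_lit 356)) (XT.lf (nat_lit 0) (nat_lit 17370153015) (nat_lit 76) (nat_lit 10760818429) (nat_lit 152) (nat_lit 1476155600) (nat_lit 75) (nat_lit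 5) (nat_lit 76) (nat_lit 5) (nat_lit 77) (nat_lit 4) (nat_lit 440) (nat_lit 405) (nat_lit 355)))) (XT.nd (nat_lit 156) (nat_lit 304) (nat_lit 0) (XT.nd (nat_lit 78) (nat_lit 76) (nat_lit 0) (XT.lf (nat_lit 0) (nat_lit 12579705044) (nat_lit 228) (nat_lit 12652909606) (nat_lit 76) (nat_lit 5888476390) (nat_lit 72) (nat_lit 5) (nat_lit 75) (nat_lit 5) (nat_lit 73) (nat_lit 4) (nat_lit 441) (nat_lit 405) (nat_lit 354)) (XT.lf (nat_lit 0) (nat_lit 19644507086) (nat_lit 76) (nat_lit 8718009623) (nat_lit 152) (nat_lit 4359736421) (nat_lit 71) (nat_lit 5) (nat_lit 72) (nat_lit 5) (nat_lit 73) (nat_lit 4) (nat_lit 442) (nat_lit 405) (nat_lit 353))) (XT.nd (nat_lit 78) (nat_lit 76) (nat_lit 0) (XT.lf (nat_lit 0) (nat_lit 11260495249) (nat_lit 228) (nat_lit 13631938498) (nat_lit 76) (nat_lit 9517785964) (nat_lit 68) (nat_lit 5) (nat_lit 71) (nat_lit 5) (nat_lit 69) (nat_lit 4) (nat_lit 443) (nat_lit 405)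 (nat_lit 352)) (XT.lf (nat_lit 0) (nat_lit 21976302140) (nat_lit 76) (nat_lit 6676907937) (nat_lit 152) (nat_lit 7542660302) (nat_lit 67) (nat_lit 5) (nat_lit 68) (nat_lit 5) (nat_lit 69) (nat_lit 4) (nat_lit 444) (nat_lit 405) (nat_lit 351))))) (XT.nd (nat_lit 312) (nat_lit 456) (nat_lit 0) (XT.nd (nat_lit 156) (nat_lit 228) (nat_lit 0) (XT.nd (nat_lit 78) (nat_lit 76) (nat_lit 0) (XT.lf (nat_lit 0) (nat_lit 9788201559) (nat_lit 152) (nat_lit 14987648497) (nat_lit 76) (nat_lit 13302588338) (nat_lit 65) (nat_lit 5) (nat_lit 67) (nat_lit 5) (nat_lit 66) (nat_lit 4) (nat_lit 445) (nat_lit 405) (nat_lit 350)) (XT.lf (nat_lit 0) (nat_lit 24240398065) (nat_lit 76) (nat_lit 4702086223) (nat_lit 152) (nat_lit 11127885161) (nat_lit 64) (nat_lit 5) (nat_lit 65) (nat_lit 5) (nat_lit 66) (nat_lit 4) (nat_lit 446) (nat_lit 405) (nat_lit 349))) (XT.nd (nat_lit 78) (nat_lit 76) (nat_lit 0) (XT.lf (nat_lit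 0) (nat_lit 8068039627) (nat_lit 152) (nat_lit 16914895605) (nat_lit 76) (nat_lit 17188054248) (nat_lit 62) (nat_lit 5) (nat_lit 64) (nat_lit 5) (nat_lit 63) (nat_lit 4) (nat_lit 447) (nat_lit 405) (nat_lit 348)) (XT.lf (nat_lit 0) (nat_lit 26255664732) (nat_lit 76) (nat_lit 2886412999) (nat_lit 152) (nat_lit 15251845350) (nat_lit 61) (nat_lit 5) (nat_lit 62) (nat_lit 5) (nat_lit 63) (nat_lit 4) (nat_lit 448) (nat_lit 405) (nat_lit 347)))) (XT.nd (nat_lit 156) (nat_lit 228) (nat_lit 0) (XT.nd (nat_lit 78) (nat_lit 76) (nat_lit 0) (XT.lf (nat_lit 0) (nat_lit 5970448543) (nat_lit 152) (nat_lit 19679151879) (nat_lit 76) (nat_lit 21089775981) (nat_lit 59) (nat_lit 5) (nat_lit 61) (nat_lit 5) (nat_lit 60) (nat_lit 4) (nat_lit 449) (nat_lit 405) (nat_lit 346)) (XT.lf (nat_lit 0) (nat_lit 27765847783) (nat_lit 76) (nat_lit 1360937046) (nat_lit 152) (nat_lit 20094649593) (nat_lit 58) (nat_lit 5) (nat_lit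 59) (nat_lit 5) (nat_lit 60) (nat_lit 4) (nat_lit 450) (nat_lit 405) (nat_lit 345))) (XT.nd (nat_lit 78) (nat_lit 76) (nat_lit 0) (XT.lf (nat_lit 0) (nat_lit 3320077940) (nat_lit 152) (nat_lit 23639233282) (nat_lit 76) (nat_lit 24883102842) (nat_lit 56) (nat_lit 5) (nat_lit 58) (nat_lit 5) (nat_lit 57) (nat_lit 4) (nat_lit 451) (nat_lit 405) (nat_lit 344)) (XT.lf (nat_lit 0) (nat_lit 28414598518) (nat_lit 76) (nat_lit 307745030) (nat_lit 152) (nat_lit 25893338911) (nat_lit 55) (nat_lit 5) (nat_lit 56) (nat_lit 5) (nat_lit 57) (nat_lit 4) (nat_lit 452) (nat_lit 405) (nat_lit 343)))))) (XT.nd (nat_lit 624) (nat_lit 760) (nat_lit 0) (XT.nd (nat_lit 312) (nat_lit 456) (nat_lit 0) (XT.nd (nat_lit 156) (nat_lit 228) (nat_lit 0) (XT.nd (nat_lit 78) (nat_lit 152) (nat_lit 0) (XT.lf (nat_lit 0) (nat_lit 28268656434) (nat_lit 76) (nat_lit 29156268437) (nat_lit 76) (nat_lit 122481036) (nat_lit 54) (nat_lit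 4) (nat_lit 55) (nat_lit 5) (nat_lit 55) (nat_lit 4) (nat_lit 453) (nat_lit 405) (nat_lit 342)) (XT.lf (nat_lit 0) (nat_lit 27689985959) (nat_lit 152) (nat_lit 32936132967) (nat_lit 0) (nat_lit 22575254) (nat_lit 52) (nat_lit 5) (nat_lit 54) (nat_lit 4) (nat_lit 52) (nat_lit 4) (nat_lit 454) (nat_lit 405) (nat_lit 341))) (XT.nd (nat_lit 78) (nat_lit 152) (nat_lit 0) (XT.lf (nat_lit 0) (nat_lit 26618370916) (nat_lit 76) (nat_lit 32496219668) (nat_lit 76) (nat_lit 4813823214) (nat_lit 51) (nat_lit 4) (nat_lit 52) (nat_lit 5) (nat_lit 52) (nat_lit 4) (nat_lit 455) (nat_lit 405) (nat_lit 340)) (XT.lf (nat_lit 0) (nat_lit 24996971473) (nat_lit 76) (nat_lit 707049805) (nat_lit 152) (nat_lit 41699510417) (nat_lit 49) (nat_lit 5) (nat_lit 50) (nat_lit 5) (nat_lit 51) (nat_lit 4) (nat_lit 456) (nat_lit 405) (nat_lit 339)))) (XT.nd (nat_lit 156) (nat_lit 228) (nat_lit 0) (XT.nd (nat_lit 78) (nat_lit 152)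 (nat_lit 0) (XT.lf (nat_lit 0) (nat_lit 22537180199) (nat_lit 76) (nat_lit 37464899703) (nat_lit 76) (nat_lit 11075261595) (nat_lit 48) (nat_lit 4) (nat_lit 49) (nat_lit 5) (nat_lit 49) (nat_lit 4) (nat_lit 457) (nat_lit 405) (nat_lit 338)) (XT.lf (nat_lit 0) (nat_lit 19372872378) (nat_lit 76) (nat_lit 2955830144) (nat_lit 152) (nat_lit 52647486573) (nat_lit 46) (nat_lit 5) (nat_lit 47) (nat_lit 5) (nat_lit 48) (nat_lit 4) (nat_lit 458) (nat_lit 405) (nat_lit 337))) (XT.nd (nat_lit 78) (nat_lit 152) (nat_lit 0) (XT.lf (nat_lit 0) (nat_lit 14990442754) (nat_lit 76) (nat_lit 44630497306) (nat_lit 76) (nat_lit 19476727550) (nat_lit 45) (nat_lit 4) (nat_lit 46) (nat_lit 5) (nat_lit 46) (nat_lit 4) (nat_lit 459) (nat_lit 405) (nat_lit 336)) (XT.lf (nat_lit 0) (nat_lit 9645638945) (nat_lit 76) (nat_lit 7334194976) (nat_lit 152) (nat_lit 66498500468) (nat_lit 43) (nat_lit 5) (nat_lit 44) (nat_lit 5)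 (nat_lit 45) (nat_lit 4) (nat_lit 460) (nat_lit 405) (nat_lit 335))))) (XT.nd (nat_lit 312) (nat_lit 456) (nat_lit 0) (XT.nd (nat_lit 156) (nat_lit 152) (nat_lit 0) (XT.nd (nat_lit 78) (nat_lit 76) (nat_lit 0) (XT.lf (nat_lit 0) (nat_lit 2599070267) (nat_lit 76) (nat_lit 54741918582) (nat_lit 76) (nat_lit 30768979358) (nat_lit 42) (nat_lit 4) (nat_lit 43) (nat_lit 5) (nat_lit 43) (nat_lit 4) (nat_lit 461) (nat_lit 405) (nat_lit 334)) (XT.lf (nat_lit 0) (nat_lit 8971683064) (nat_lit 152) (nat_lit 5588542372) (nat_lit 76) (nat_lit 78475651996) (nat_lit 41) (nat_lit 5) (nat_lit 43) (nat_lit 5) (nat_lit 42) (nat_lit 4) (nat_lit 462) (nat_lit 405) (nat_lit 333))) (XT.nd (nat_lit 78) (nat_lit 76) (nat_lit 0) (XT.lf (nat_lit 0) (nat_lit 52574603253) (nat_lit 152) (nat_lit 15938607836) (nat_lit 0) (nat_lit 29729377946) (nat_lit 40) (nat_lit 5) (nat_lit 42) (nat_lit 4) (nat_lit 40) (nat_lit 4) (nat_lit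 463) (nat_lit 405) (nat_lit 332)) (XT.lf (nat_lit 0) (nat_lit 75691728720) (nat_lit 76) (nat_lit 25475221049) (nat_lit 76) (nat_lit 2623828265) (nat_lit 39) (nat_lit 4) (nat_lit 40) (nat_lit 5) (nat_lit 40) (nat_lit 4) (nat_lit 464) (nat_lit 405) (nat_lit 331)))) (XT.nd (nat_lit 156) (nat_lit 228) (nat_lit 0) (XT.nd (nat_lit 78) (nat_lit 76) (nat_lit 0) (XT.lf (nat_lit 0) (nat_lit 44122143776) (nat_lit 152) (nat_lit 43189852743) (nat_lit 0) (nat_lit 22353473862) (nat_lit 37) (nat_lit 5) (nat_lit 39) (nat_lit 4) (nat_lit 37) (nat_lit 4) (nat_lit 465) (nat_lit 405) (nat_lit 330)) (XT.lf (nat_lit 0) (nat_lit 54860491856) (nat_lit 76) (nat_lit 41416570821) (nat_lit 76) (nat_lit 19642865081) (nat_lit 36) (nat_lit 4) (nat_lit 37) (nat_lit 5) (nat_lit 37) (nat_lit 4) (nat_lit 466) (nat_lit 405) (nat_lit 329))) (XT.nd (nat_lit 78) (nat_lit 76) (nat_lit 0) (XT.lf (nat_lit 0) (nat_lit 30502057280) (nat_lit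 152) (nat_lit 82312048383) (nat_lit 0) (nat_lit 9760753908) (nat_lit 34) (nat_lit 5) (nat_lit 36) (nat_lit 4) (nat_lit 34) (nat_lit 4) (nat_lit 467) (nat_lit 405) (nat_lit 328)) (XT.lf (nat_lit 0) (nat_lit 21766920955) (nat_lit 76) (nat_lit 64309635431) (nat_lit 76) (nat_lit 43564220241) (nat_lit 33) (nat_lit 4) (nat_lit 34) (nat_lit 5) (nat_lit 34) (nat_lit 4) (nat_lit 468) (nat_lit 405) (nat_lit 327))))))) (XT.nd (nat_lit 1248) (nat_lit 684) (nat_lit 0) (XT.nd (nat_lit 624) (nat_lit 608) (nat_lit 0) (XT.nd (nat_lit 312) (nat_lit 304) (nat_lit 0) (XT.nd (nat_lit 156) (nat_lit 228) (nat_lit 0) (XT.nd (nat_lit 78) (nat_lit 76) (nat_lit 0) (XT.lf (nat_lit 0) (nat_lit 9978267896) (nat_lit 152) (nat_lit 293773239) (nat_lit 76) (nat_lit 126921252975) (nat_lit 32) (nat_lit 5) (nat_lit 34) (nat_lit 5) (nat_lit 33) (nat_lit 4) (nat_lit 469) (nat_lit 405) (nat_lit 326)) (XT.lf (nat_lit 0) (nat_lit 68927927924)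 (nat_lit 152) (nat_lit 27090467849) (nat_lit 0) (nat_lit 49163406353) (nat_lit 31) (nat_lit 5) (nat_lit 33) (nat_lit 4) (nat_lit 31) (nat_lit 4) (nat_lit 470) (nat_lit 405) (nat_lit 325))) (XT.nd (nat_lit 78) (nat_lit 152) (nat_lit 0) (XT.lf (nat_lit 0) (nat_lit 94975729235) (nat_lit 76) (nat_lit 39259601662) (nat_lit 76) (nat_lit 19491971431) (nat_lit 30) (nat_lit 4) (nat_lit 31) (nat_lit 5) (nat_lit 31) (nat_lit 4) (nat_lit 471) (nat_lit 405) (nat_lit 324)) (XT.lf (nat_lit 0) (nat_lit 42347273099) (nat_lit 152) (nat_lit 96964583022) (nat_lit 0) (nat_lit 23518217271) (nat_lit 28) (nat_lit 5) (nat_lit 30) (nat_lit 4) (nat_lit 28) (nat_lit 4) (nat_lit 472) (nat_lit 405) (nat_lit 323)))) (XT.nd (nat_lit 156) (nat_lit 152) (nat_lit 0) (XT.nd (nat_lit 78) (nat_lit 76) (nat_lit 0) (XT.lf (nat_lit 0) (nat_lit 29850729655) (nat_lit 76) (nat_lit 80759002334) (nat_lit 76) (nat_lit 61927408243) (nat_lit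 27) (nat_lit 4) (nat_lit 28) (nat_lit 5) (nat_lit 28) (nat_lit 4) (nat_lit 473) (nat_lit 405) (nat_lit 322)) (XT.lf (nat_lit 0) (nat_lit 2969291618) (nat_lit 152) (nat_lit 12746896515) (nat_lit 76) (nat_lit 167218615703) (nat_lit 26) (nat_lit 5) (nat_lit 28) (nat_lit 5) (nat_lit 27) (nat_lit 4) (nat_lit 474) (nat_lit 405) (nat_lit 321))) (XT.nd (nat_lit 78) (nat_lit 76) (nat_lit 0) (XT.lf (nat_lit 0) (nat_lit 73842708266) (nat_lit 152) (nat_lit 64219535450) (nat_lit 0) (nat_lit 55903545900) (nat_lit 25) (nat_lit 5) (nat_lit 27) (nat_lit 4) (nat_lit 25) (nat_lit 4) (nat_lit 475) (nat_lit 405) (nat_lit 320)) (XT.lf (nat_lit 0) (nat_lit 80501155548) (nat_lit 76) (nat_lit 71616303535) (nat_lit 76) (nat_lit 53675222165) (nat_lit 24) (nat_lit 4) (nat_lit 25) (nat_lit 5) (nat_lit 25) (nat_lit 4) (nat_lit 476) (nat_lit 405) (nat_lit 319))))) (XT.nd (nat_lit 312) (nat_lit 228) (nat_lit 0) (XT.nd (nat_lit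 156) (nat_lit 228) (nat_lit 0) (XT.nd (nat_lit 78) (nat_lit 0) (nat_lit 0) (XT.lf (nat_lit 0) (nat_lit 18988162128) (nat_lit 152) (nat_lit 197589783794) (nat_lit 0) (nat_lit 1899725723) (nat_lit 22) (nat_lit 5) (nat_lit 24) (nat_lit 4) (nat_lit 22) (nat_lit 4) (nat_lit 477) (nat_lit 405) (nat_lit 318)) (XT.lf (nat_lit 0) (nat_lit 99019917207) (nat_lit 152) (nat_lit 51011843182) (nat_lit 0) (nat_lit 81929913910) (nat_lit 22) (nat_lit 5) (nat_lit 24) (nat_lit 4) (nat_lit 22) (nat_lit 4) (nat_lit 478) (nat_lit 405) (nat_lit 317))) (XT.nd (nat_lit 78) (nat_lit 152) (nat_lit 0) (XT.lf (nat_lit 0) (nat_lit 110810384219) (nat_lit 76) (nat_lit 76359833423) (nat_lit 76) (nat_lit 59268379299) (nat_lit 21) (nat_lit 4) (nat_lit 22) (nat_lit 5) (nat_lit 22) (nat_lit 4) (nat_lit 479) (nat_lit 405) (nat_lit 316)) (XT.lf (nat_lit 0) (nat_lit 21018534622) (nat_lit 152) (nat_lit 236231144981) (nat_lit 0) (nat_lit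 4739679878) (nat_lit 19) (nat_lit 5) (nat_lit 21) (nat_lit 4) (nat_lit 19) (nat_lit 4) (nat_lit 480) (nat_lit 405) (nat_lit 315)))) (XT.nd (nat_lit 156) (nat_lit 152) (nat_lit 0) (XT.nd (nat_lit 78) (nat_lit 76) (nat_lit 0) (XT.lf (nat_lit 0) (nat_lit 109355263885) (nat_lit 152) (nat_lit 76119947119) (nat_lit 0) (nat_lit 93075224523) (nat_lit 19) (nat_lit 5) (nat_lit 21) (nat_lit 4) (nat_lit 19) (nat_lit 4) (nat_lit 481) (nat_lit 405) (nat_lit 314)) (XT.lf (nat_lit 0) (nat_lit 99974953057) (nat_lit 76) (nat_lit 106332575499) (nat_lit 76) (nat_lit 90051439268) (nat_lit 18) (nat_lit 4) (nat_lit 19) (nat_lit 5) (nat_lit 19) (nat_lit 4) (nat_lit 482) (nat_lit 405) (nat_lit 313))) (XT.nd (nat_lit 78) (nat_lit 152) (nat_lit 0) (XT.lf (nat_lit 0) (nat_lit 292851734819) (nat_lit 76) (nat_lit 19478444747) (nat_lit 76) (nat_lit 3196292896) (nat_lit 18) (nat_lit 4) (nat_lit 19) (nat_lit 5) (nat_lit 19)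 (nat_lit 4) (nat_lit 483) (nat_lit 405) (nat_lit 312)) (XT.lf (nat_lit 0) (nat_lit 91559853504) (nat_lit 152) (nat_lit 168352016374) (nat_lit 0) (nat_lit 76052146609) (nat_lit 16) (nat_lit 5) (nat_lit 18) (nat_lit 4) (nat_lit 16) (nat_lit 4) (nat_lit 484) (nat_lit 405) (nat_lit 311)))))) (XT.nd (nat_lit 624) (nat_lit 228) (nat_lit 0) (XT.nd (nat_lit 312) (nat_lit 228) (nat_lit 0) (XT.nd (nat_lit 156) (nat_lit 152) (nat_lit 0) (XT.nd (nat_lit 78) (nat_lit 0) (nat_lit 0) (XT.lf (nat_lit 0) (nat_lit 16016482811) (nat_lit 76) (nat_lit 178738731121) (nat_lit 76) (nat_lit 163230194961) (nat_lit 15) (nat_lit 4) (nat_lit 16) (nat_lit 5) (nat_lit 16) (nat_lit 4) (nat_lit 485) (nat_lit 405) (nat_lit 310)) (XT.lf (nat_lit 0) (nat_lit 221125308456) (nat_lit 76) (nat_lit 88003196578) (nat_lit 76) (nat_lit 72493892578) (nat_lit 15) (nat_lit 4) (nat_lit 16) (nat_lit 5) (nat_lit 16) (nat_lit 4) (nat_lit 486)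 (nat_lit 405) (nat_lit 309))) (XT.nd (nat_lit 78) (nat_lit 0) (nat_lit 0) (XT.lf (nat_lit 0) (nat_lit 25412791029) (nat_lit 152) (nat_lit 371039914939) (nat_lit 0) (nat_lit 10641348207) (nat_lit 13) (nat_lit 5) (nat_lit 15) (nat_lit 4) (nat_lit 13) (nat_lit 4) (nat_lit 487) (nat_lit 405) (nat_lit 308)) (XT.lf (nat_lit 0) (nat_lit 132962210045) (nat_lit 152) (nat_lit 183174170052) (nat_lit 0) (nat_lit 118190140272) (nat_lit 13) (nat_lit 5) (nat_lit 15) (nat_lit 4) (nat_lit 13) (nat_lit 4) (nat_lit 488) (nat_lit 405) (nat_lit 307)))) (XT.nd (nat_lit 156) (nat_lit 152) (nat_lit 0) (XT.nd (nat_lit 78) (nat_lit 0) (nat_lit 0) (XT.lf (nat_lit 0) (nat_lit 20354553940) (nat_lit 76) (nat_lit 229070112997) (nat_lit 76) (nat_lit 214297462714) (nat_lit 12) (nat_lit 4) (nat_lit 13) (nat_lit 5) (nat_lit 13) (nat_lit 4) (nat_lit 489) (nat_lit 405) (nat_lit 306)) (XT.lf (nat_lit 0) (nat_lit 246689684587) (nat_lit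 76) (nat_lit 131696884235) (nat_lit 76) (nat_lit 116923696442) (nat_lit 12) (nat_lit 4) (nat_lit 13) (nat_lit 5) (nat_lit 13) (nat_lit 4) (nat_lit 490) (nat_lit 405) (nat_lit 305))) (XT.nd (nat_lit 78) (nat_lit 152) (nat_lit 0) (XT.lf (nat_lit 0) (nat_lit 491115901805) (nat_lit 76) (nat_lit 26541810472) (nat_lit 76) (nat_lit 11768124985) (nat_lit 12) (nat_lit 4) (nat_lit 13) (nat_lit 5) (nat_lit 13) (nat_lit 4) (nat_lit 491) (nat_lit 405) (nat_lit 304)) (XT.lf (nat_lit 0) (nat_lit 102988258635) (nat_lit 152) (nat_lit 374062954277) (nat_lit 0) (nat_lit 88917643097) (nat_lit 10) (nat_lit 5) (nat_lit 12) (nat_lit 4) (nat_lit 10) (nat_lit 4) (nat_lit 492) (nat_lit 405) (nat_lit 303))))) (XT.nd (nat_lit 312) (nat_lit 152) (nat_lit 0) (XT.nd (nat_lit 156) (nat_lit 0) (nat_lit 0) (XT.nd (nat_lit 78) (nat_lit 76) (nat_lit 0) (XT.lf (nat_lit 0) (nat_lit 227637132217) (nat_lit 152) (nat_lit 164166213883)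 (nat_lit 0) (nat_lit 213566110306) (nat_lit 10) (nat_lit 5) (nat_lit 12) (nat_lit 4) (nat_lit 10) (nat_lit 4) (nat_lit 493) (nat_lit 405) (nat_lit 302)) (XT.lf (nat_lit 0) (nat_lit 64575769308) (nat_lit 76) (nat_lit 298683824896) (nat_lit 76) (nat_lit 284612426713) (nat_lit 9) (nat_lit 4) (nat_lit 10) (nat_lit 5) (nat_lit 10) (nat_lit 4) (nat_lit 494) (nat_lit 405) (nat_lit 301))) (XT.nd (nat_lit 78) (nat_lit 0) (nat_lit 0) (XT.lf (nat_lit 0) (nat_lit 317466688423) (nat_lit 76) (nat_lit 195118588775) (nat_lit 76) (nat_lit 181046842192) (nat_lit 9) (nat_lit 4) (nat_lit 10) (nat_lit 5) (nat_lit 10) (nat_lit 4) (nat_lit 495) (nat_lit 405) (nat_lit 300)) (XT.lf (nat_lit 0) (nat_lit 590577079886) (nat_lit 76) (nat_lit 83274152090) (nat_lit 76) (nat_lit 69202082914) (nat_lit 9) (nat_lit 4) (nat_lit 10) (nat_lit 5) (nat_lit 10) (nat_lit 4) (nat_lit 496) (nat_lit 405) (nat_lit 299)))) (XT.nd (nat_lit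 156) (nat_lit 0) (nat_lit 0) (XT.nd (nat_lit 78) (nat_lit 0) (nat_lit 0) (XT.lf (nat_lit 0) (nat_lit 51979880976) (nat_lit 152) (nat_lit 705728384060) (nat_lit 0) (nat_lit 38577625860) (nat_lit 7) (nat_lit 5) (nat_lit 9) (nat_lit 4) (nat_lit 7) (nat_lit 4) (nat_lit 497) (nat_lit 405) (nat_lit 298)) (XT.lf (nat_lit 0) (nat_lit 184562755175) (nat_lit 152) (nat_lit 497790815280) (nat_lit 0) (nat_lit 171160236658) (nat_lit 7) (nat_lit 5) (nat_lit 9) (nat_lit 4) (nat_lit 7) (nat_lit 4) (nat_lit 498) (nat_lit 405) (nat_lit 297))) (XT.nd (nat_lit 78) (nat_lit 0) (nat_lit 0) (XT.lf (nat_lit 0) (nat_lit 327747361503) (nat_lit 152) (nat_lit 273228240924) (nat_lit 0) (nat_lit 314344599096) (nat_lit 7) (nat_lit 5) (nat_lit 9) (nat_lit 4) (nat_lit 7) (nat_lit 4) (nat_lit 499) (nat_lit 405) (nat_lit 296)) (XT.lf (nat_lit 0) (nat_lit 482382201330) (nat_lit 152) (nat_lit 30709919810) (nat_lit 0) (nat_lit 468979213099)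 (nat_lit 7) (nat_lit 5) (nat_lit 9) (nat_lit 4) (nat_lit 7) (nat_lit 4) (nat_lit 500) (nat_lit 405) (nat_lit 295))))))))
noncomputable def xc55 : XT := (XT.nd (nat_lit 57096) (nat_lit 0) (nat_lit 2812) (XT.nd (nat_lit 55848) (nat_lit 0) (nat_lit 6992) (XT.nd (nat_lit 55224) (nat_lit 0) (nat_lit 11704) (XT.nd (nat_lit 312) (nat_lit 152) (nat_lit 0) (XT.nd (nat_lit 156) (nat_lit 0) (nat_lit 0) (XT.nd (nat_lit 78) (nat_lit 0) (nat_lit 0) (XT.lf (nat_lit 0) (nat_lit 238845852571) (nat_lit 76) (nat_lit 414266829815) (nat_lit 76) (nat_lit 400863632488) (nat_lit 6) (nat_lit 4) (nat_lit 7) (nat_lit 5) (nat_lit 7) (nat_lit 4) (nat_lit 501) (nat_lit 405) (nat_lit 294)) (XT.lf (nat_lit 0) (nat_lit 531054527335) (nat_lit 76) (nat_lit 306978005508) (nat_lit 76) (nat_lit 293574614573) (nat_lit 6) (nat_lit 4) (nat_lit 7) (nat_lit 5) (nat_lit 7) (nat_lit 4) (nat_lit 502) (nat_lit 405) (nat_lit 293))) (XT.nd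 (nat_lit 78) (nat_lit 0) (nat_lit 0) (XT.lf (nat_lit 0) (nat_lit 846632302804) (nat_lit 76) (nat_lit 191109949947) (nat_lit 76) (nat_lit 177706379745) (nat_lit 6) (nat_lit 4) (nat_lit 7) (nat_lit 5) (nat_lit 7) (nat_lit 4) (nat_lit 503) (nat_lit 405) (nat_lit 292)) (XT.lf (nat_lit 0) (nat_lit 1187449269498) (nat_lit 76) (nat_lit 65976037615) (nat_lit 76) (nat_lit 52572301426) (nat_lit 6) (nat_lit 4) (nat_lit 7) (nat_lit 5) (nat_lit 7) (nat_lit 4) (nat_lit 504) (nat_lit 405) (nat_lit 291)))) (XT.nd (nat_lit 54756) (nat_lit 0) (nat_lit 14288) (XT.nd (nat_lit 78) (nat_lit 0) (nat_lit 0) (XT.lf (nat_lit 0) (nat_lit 83493740192) (nat_lit 152) (nat_lit 1249325968648) (nat_lit 0) (nat_lit 70728130781) (nat_lit 4) (nat_lit 5) (nat_lit 6) (nat_lit 4) (nat_lit 4) (nat_lit 4) (nat_lit 505) (nat_lit 405) (nat_lit 290)) (XT.lf (nat_lit 0) (nat_lit 231836027367) (nat_lit 152) (nat_lit 1057791045367) (nat_lit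 0) (nat_lit 219070282426) (nat_lit 4) (nat_lit 5) (nat_lit 6) (nat_lit 4) (nat_lit 4) (nat_lit 4) (nat_lit 506) (nat_lit 405) (nat_lit 289))) (XT.nd (nat_lit 78) (nat_lit 0) (nat_lit 0) (XT.lf (nat_lit 0) (nat_lit 746644924) (nat_lit 0) (nat_lit 746644924) (nat_lit 532) (nat_lit 2243600108) (nat_lit 192) (nat_lit 5) (nat_lit 192) (nat_lit 3) (nat_lit 199) (nat_lit 3) (nat_lit 406) (nat_lit 406) (nat_lit 388)) (XT.lf (nat_lit 0) (nat_lit 5424749398) (nat_lit 532) (nat_lit 43207523) (nat_lit 608) (nat_lit 2188621084) (nat_lit 192) (nat_lit 5) (nat_lit 199) (nat_lit 3) (nat_lit 200) (nat_lit 5) (nat_lit 407) (nat_lit 406) (nat_lit 387))))) (XT.nd (nat_lit 312) (nat_lit 1976) (nat_lit 0) (XT.nd (nat_lit 156) (nat_lit 0) (nat_lit 76) (XT.nd (nat_lit 78) (nat_lit 0) (nat_lit 76) (XT.lf (nat_lit 0) (nat_lit 94541292) (nat_lit 608) (nat_lit 1438639517) (nat_lit 684) (nat_lit 6325825809) (nat_lit 184)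 (nat_lit 5) (nat_lit 192) (nat_lit 5) (nat_lit 193) (nat_lit 5) (nat_lit 408) (nat_lit 406) (nat_lit 386)) (XT.lf (nat_lit 0) (nat_lit 2444314936) (nat_lit 608) (nat_lit 2799243530) (nat_lit 684) (nat_lit 2836486571) (nat_lit 185) (nat_lit 5) (nat_lit 193) (nat_lit 5) (nat_lit 194) (nat_lit 5) (nat_lit 409) (nat_lit 406) (nat_lit 385))) (XT.nd (nat_lit 78) (nat_lit 0) (nat_lit 76) (XT.lf (nat_lit 76) (nat_lit 4246573564) (nat_lit 0) (nat_lit 653082970) (nat_lit 684) (nat_lit 3423248483) (nat_lit 186) (nat_lit 5) (nat_lit 185) (nat_lit 5) (nat_lit 194) (nat_lit 5) (nat_lit 410) (nat_lit 406) (nat_lit 384)) (XT.lf (nat_lit 76) (nat_lit 3270767157) (nat_lit 0) (nat_lit 4262170228) (nat_lit 684) (nat_lit 1053197288) (nat_lit 187) (nat_lit 5) (nat_lit 186) (nat_lit 5) (nat_lit 195) (nat_lit 5) (nat_lit 411) (nat_lit 406) (nat_lit 383)))) (XT.nd (nat_lit 156) (nat_lit 836) (nat_lit 0) (XT.nd (nat_lit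 78) (nat_lit 684) (nat_lit 0) (XT.lf (nat_lit 0) (nat_lit 1416577025) (nat_lit 684) (nat_lit 6501498341) (nat_lit 76) (nat_lit 953269106) (nat_lit 178) (nat_lit 5) (nat_lit 187) (nat_lit 5) (nat_lit 179) (nat_lit 5) (nat_lit 412) (nat_lit 406) (nat_lit 382)) (XT.lf (nat_lit 0) (nat_lit 1499989032) (nat_lit 684) (nat_lit 2571050777) (nat_lit 760) (nat_lit 5106281146) (nat_lit 169) (nat_lit 5) (nat_lit 178) (nat_lit 5) (nat_lit 179) (nat_lit 5) (nat_lit 413) (nat_lit 406) (nat_lit 381))) (XT.nd (nat_lit 78) (nat_lit 76) (nat_lit 0) (XT.lf (nat_lit 0) (nat_lit 698356121) (nat_lit 760) (nat_lit 6260134326) (nat_lit 836) (nat_lit 2548266023) (nat_lit 159) (nat_lit 5) (nat_lit 169) (nat_lit 5) (nat_lit 170) (nat_lit 5) (nat_lit 414) (nat_lit 406) (nat_lit 380)) (XT.lf (nat_lit 0) (nat_lit 238366220) (nat_lit 836) (nat_lit 28937783) (nat_lit 76) (nat_lit 9593544558) (nat_lit 158) (nat_lit 5) (nat_lit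 169) (nat_lit 5) (nat_lit 159) (nat_lit 5) (nat_lit 415) (nat_lit 406) (nat_lit 379)))))) (XT.nd (nat_lit 624) (nat_lit 1900) (nat_lit 0) (XT.nd (nat_lit 312) (nat_lit 1216) (nat_lit 0) (XT.nd (nat_lit 156) (nat_lit 760) (nat_lit 0) (XT.nd (nat_lit 78) (nat_lit 380) (nat_lit 0) (XT.lf (nat_lit 0) (nat_lit 3272164667) (nat_lit 532) (nat_lit 755842700) (nat_lit 76) (nat_lit 6207506354) (nat_lit 152) (nat_lit 5) (nat_lit 159) (nat_lit 5) (nat_lit 153) (nat_lit 5) (nat_lit 416) (nat_lit 406) (nat_lit 378)) (XT.lf (nat_lit 0) (nat_lit 6611377819) (nat_lit 456) (nat_lit 1411929696) (nat_lit 76) (nat_lit 2613718454) (nat_lit 147) (nat_lit 5) (nat_lit 153) (nat_lit 5) (nat_lit 148) (nat_lit 5) (nat_lit 417) (nat_lit 406) (nat_lit 377))) (XT.nd (nat_lit 78) (nat_lit 380) (nat_lit 0) (XT.lf (nat_lit 0) (nat_lit 9050109155) (nat_lit 380) (nat_lit 1268536925) (nat_lit 456) (nat_lit 746975932) (nat_lit 142)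 (nat_lit 5) (nat_lit 147) (nat_lit 5) (nat_lit 148) (nat_lit 5) (nat_lit 418) (nat_lit 406) (nat_lit 376)) (XT.lf (nat_lit 0) (nat_lit 2850591911) (nat_lit 380) (nat_lit 2636388052) (nat_lit 76) (nat_lit 6032051013) (nat_lit 137) (nat_lit 5) (nat_lit 142) (nat_lit 5) (nat_lit 138) (nat_lit 5) (nat_lit 419) (nat_lit 406) (nat_lit 375)))) (XT.nd (nat_lit 156) (nat_lit 608) (nat_lit 0) (XT.nd (nat_lit 78) (nat_lit 304) (nat_lit 0) (XT.lf (nat_lit 0) (nat_lit 6826912416) (nat_lit 380) (nat_lit 3200373130) (nat_lit 76) (nat_lit 1974966074) (nat_lit 133) (nat_lit 5) (nat_lit 138) (nat_lit 5) (nat_lit 134) (nat_lit 5) (nat_lit 420) (nat_lit 406) (nat_lit 374)) (XT.lf (nat_lit 0) (nat_lit 8785674198) (nat_lit 304) (nat_lit 2507804082) (nat_lit 380) (nat_lit 1222051239) (nat_lit 129) (nat_lit 5) (nat_lit 133) (nat_lit 5) (nat_lit 134) (nat_lit 5) (nat_lit 421) (nat_lit 406) (nat_lit 373))) (XT.nd (nat_lit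 78) (nat_lit 228) (nat_lit 0) (XT.lf (nat_lit 0) (nat_lit 3136493163) (nat_lit 380) (nat_lit 4267634579) (nat_lit 76) (nat_lit 5654042099) (nat_lit 124) (nat_lit 5) (nat_lit 129) (nat_lit 5) (nat_lit 125) (nat_lit 5) (nat_lit 422) (nat_lit 406) (nat_lit 372)) (XT.lf (nat_lit 0) (nat_lit 7968529732) (nat_lit 304) (nat_lit 4750898813) (nat_lit 76) (nat_lit 915415379) (nat_lit 121) (nat_lit 5) (nat_lit 125) (nat_lit 5) (nat_lit 122) (nat_lit 5) (nat_lit 423) (nat_lit 406) (nat_lit 371))))) (XT.nd (nat_lit 312) (nat_lit 836) (nat_lit 0) (XT.nd (nat_lit 156) (nat_lit 456) (nat_lit 0) (XT.nd (nat_lit 78) (nat_lit 304) (nat_lit 0) (XT.lf (nat_lit 0) (nat_lit 9024136926) (nat_lit 304) (nat_lit 4413976072) (nat_lit 380) (nat_lit 806994727) (nat_lit 117) (nat_lit 5) (nat_lit 121) (nat_lit 5) (nat_lit 122) (nat_lit 5) (nat_lit 424) (nat_lit 406) (nat_lit 370)) (XT.lf (nat_lit 0) (nat_lit 4516423626) (nat_lit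 304) (nat_lit 5694363219) (nat_lit 76) (nat_lit 4679068538) (nat_lit 113) (nat_lit 5) (nat_lit 117) (nat_lit 5) (nat_lit 114) (nat_lit 5) (nat_lit 425) (nat_lit 406) (nat_lit 369))) (XT.nd (nat_lit 78) (nat_lit 228) (nat_lit 0) (XT.lf (nat_lit 0) (nat_lit 9462961645) (nat_lit 228) (nat_lit 1006645462) (nat_lit 304) (nat_lit 5104310102) (nat_lit 110) (nat_lit 5) (nat_lit 113) (nat_lit 5) (nat_lit 114) (nat_lit 5) (nat_lit 426) (nat_lit 406) (nat_lit 368)) (XT.lf (nat_lit 0) (nat_lit 886681783) (nat_lit 228) (nat_lit 6529447603) (nat_lit 76) (nat_lit 8880165108) (nat_lit 107) (nat_lit 5) (nat_lit 110) (nat_lit 5) (nat_lit 108) (nat_lit 5) (nat_lit 427) (nat_lit 406) (nat_lit 367)))) (XT.nd (nat_lit 156) (nat_lit 456) (nat_lit 0) (XT.nd (nat_lit 78) (nat_lit 152) (nat_lit 0) (XT.lf (nat_lit 0) (nat_lit 7431583498) (nat_lit 304) (nat_lit 6938544533) (nat_lit 76) (nat_lit 2689480360) (nat_lit 104)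 (nat_lit 5) (nat_lit 108) (nat_lit 5) (nat_lit 105) (nat_lit 5) (nat_lit 428) (nat_lit 406) (nat_lit 366)) (XT.lf (nat_lit 0) (nat_lit 10555480925) (nat_lit 152) (nat_lit 4277154180) (nat_lit 228) (nat_lit 3034727484) (nat_lit 102) (nat_lit 5) (nat_lit 104) (nat_lit 5) (nat_lit 105) (nat_lit 5) (nat_lit 429) (nat_lit 406) (nat_lit 365))) (XT.nd (nat_lit 78) (nat_lit 152) (nat_lit 0) (XT.lf (nat_lit 0) (nat_lit 4290414692) (nat_lit 304) (nat_lit 7691242754) (nat_lit 76) (nat_lit 6738134688) (nat_lit 98) (nat_lit 5) (nat_lit 102) (nat_lit 5) (nat_lit 99) (nat_lit 5) (nat_lit 430) (nat_lit 406) (nat_lit 364)) (XT.lf (nat_lit 0) (nat_lit 11599975212) (nat_lit 152) (nat_lit 811971036) (nat_lit 228) (nat_lit 7210149821) (nat_lit 96) (nat_lit 5) (nat_lit 98) (nat_lit 5) (nat_lit 99) (nat_lit 5) (nat_lit 431) (nat_lit 406) (nat_lit 363))))))) (XT.nd (nat_lit 1248) (nat_lit 1748) (nat_lit 0) (XT.nd (nat_lit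 624) (nat_lit 1064) (nat_lit 0) (XT.nd (nat_lit 312) (nat_lit 608) (nat_lit 0) (XT.nd (nat_lit 156) (nat_lit 380) (nat_lit 0) (XT.nd (nat_lit 78) (nat_lit 152) (nat_lit 0) (XT.lf (nat_lit 0) (nat_lit 1013058715) (nat_lit 228) (nat_lit 8365347433) (nat_lit 76) (nat_lit 11195461547) (nat_lit 93) (nat_lit 5) (nat_lit 96) (nat_lit 5) (nat_lit 94) (nat_lit 5) (nat_lit 432) (nat_lit 406) (nat_lit 362)) (XT.lf (nat_lit 0) (nat_lit 9986394706) (nat_lit 228) (nat_lit 8706657688) (nat_lit 76) (nat_lit 2885576784) (nat_lit 91) (nat_lit 5) (nat_lit 94) (nat_lit 5) (nat_lit 92) (nat_lit 5) (nat_lit 433) (nat_lit 406) (nat_lit 361))) (XT.nd (nat_lit 78) (nat_lit 228) (nat_lit 0) (XT.lf (nat_lit 0) (nat_lit 13623797347) (nat_lit 152) (nat_lit 6512696005) (nat_lit 228) (nat_lit 2504335336) (nat_lit 89) (nat_lit 5) (nat_lit 91) (nat_lit 5) (nat_lit 92) (nat_lit 5) (nat_lit 434) (nat_lit 406) (nat_lit 360)) (XT.lf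 (nat_lit 0) (nat_lit 7510547093) (nat_lit 228) (nat_lit 9357771389) (nat_lit 76) (nat_lit 6892283604) (nat_lit 86) (nat_lit 5) (nat_lit 89) (nat_lit 5) (nat_lit 87) (nat_lit 5) (nat_lit 435) (nat_lit 406) (nat_lit 359)))) (XT.nd (nat_lit 156) (nat_lit 304) (nat_lit 0) (XT.nd (nat_lit 78) (nat_lit 152) (nat_lit 0) (XT.lf (nat_lit 0) (nat_lit 15293522150) (nat_lit 152) (nat_lit 3398882305) (nat_lit 228) (nat_lit 6252825513) (nat_lit 84) (nat_lit 5) (nat_lit 86) (nat_lit 5) (nat_lit 87) (nat_lit 5) (nat_lit 436) (nat_lit 406) (nat_lit 358)) (XT.lf (nat_lit 0) (nat_lit 4947732156) (nat_lit 152) (nat_lit 9993682659) (nat_lit 76) (nat_lit 11252217662) (nat_lit 82) (nat_lit 5) (nat_lit 84) (nat_lit 5) (nat_lit 83) (nat_lit 5) (nat_lit 437) (nat_lit 406) (nat_lit 357))) (XT.nd (nat_lit 78) (nat_lit 152) (nat_lit 0) (XT.lf (nat_lit 0) (nat_lit 17223764994) (nat_lit 152) (nat_lit 49429043) (nat_lit 228)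 (nat_lit 10241192741) (nat_lit 80) (nat_lit 5) (nat_lit 82) (nat_lit 5) (nat_lit 83) (nat_lit 5) (nat_lit 438) (nat_lit 406) (nat_lit 356)) (XT.lf (nat_lit 0) (nat_lit 2264636996) (nat_lit 152) (nat_lit 10659518717) (nat_lit 76) (nat_lit 15981695521) (nat_lit 78) (nat_lit 5) (nat_lit 80) (nat_lit 5) (nat_lit 79) (nat_lit 5) (nat_lit 439) (nat_lit 406) (nat_lit 355))))) (XT.nd (nat_lit 312) (nat_lit 532) (nat_lit 0) (XT.nd (nat_lit 156) (nat_lit 304) (nat_lit 0) (XT.nd (nat_lit 78) (nat_lit 76) (nat_lit 0) (XT.lf (nat_lit 0) (nat_lit 15909223452) (nat_lit 228) (nat_lit 11043563481) (nat_lit 76) (nat_lit 3422597936) (nat_lit 76) (nat_lit 5) (nat_lit 79) (nat_lit 5) (nat_lit 77) (nat_lit 4) (nat_lit 440) (nat_lit 406) (nat_lit 354)) (XT.lf (nat_lit 0) (nat_lit 20498756754) (nat_lit 76) (nat_lit 10826337340) (nat_lit 152) (nat_lit 603402194) (nat_lit 75) (nat_lit 5) (nat_lit 76) (nat_lit 5) (nat_lit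 77) (nat_lit 4) (nat_lit 441) (nat_lit 406) (nat_lit 353))) (XT.nd (nat_lit 78) (nat_lit 76) (nat_lit 0) (XT.lf (nat_lit 0) (nat_lit 14512777772) (nat_lit 228) (nat_lit 11937796406) (nat_lit 76) (nat_lit 7113852862) (nat_lit 72) (nat_lit 5) (nat_lit 75) (nat_lit 5) (nat_lit 73) (nat_lit 4) (nat_lit 442) (nat_lit 406) (nat_lit 352)) (XT.lf (nat_lit 0) (nat_lit 22868345271) (nat_lit 76) (nat_lit 8647021611) (nat_lit 152) (nat_lit 3780458809) (nat_lit 71) (nat_lit 5) (nat_lit 72) (nat_lit 5) (nat_lit 73) (nat_lit 4) (nat_lit 443) (nat_lit 406) (nat_lit 351)))) (XT.nd (nat_lit 156) (nat_lit 228) (nat_lit 0) (XT.nd (nat_lit 78) (nat_lit 76) (nat_lit 0) (XT.lf (nat_lit 0) (nat_lit 13030002908) (nat_lit 228) (nat_lit 13082475859) (nat_lit 76) (nat_lit 11007111674) (nat_lit 68) (nat_lit 5) (nat_lit 71) (nat_lit 5) (nat_lit 69) (nat_lit 4) (nat_lit 444) (nat_lit 406) (nat_lit 350)) (XT.lf (nat_lit 0)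 (nat_lit 25303150859) (nat_lit 76) (nat_lit 6471130782) (nat_lit 152) (nat_lit 7275805182) (nat_lit 67) (nat_lit 5) (nat_lit 68) (nat_lit 5) (nat_lit 69) (nat_lit 4) (nat_lit 445) (nat_lit 406) (nat_lit 349))) (XT.nd (nat_lit 78) (nat_lit 76) (nat_lit 0) (XT.lf (nat_lit 0) (nat_lit 11386408607) (nat_lit 152) (nat_lit 14630526651) (nat_lit 76) (nat_lit 15067009684) (nat_lit 65) (nat_lit 5) (nat_lit 67) (nat_lit 5) (nat_lit 66) (nat_lit 4) (nat_lit 446) (nat_lit 406) (nat_lit 348)) (XT.lf (nat_lit 0) (nat_lit 27668135962) (nat_lit 76) (nat_lit 4367756194) (nat_lit 152) (nat_lit 11201196229) (nat_lit 64) (nat_lit 5) (nat_lit 65) (nat_lit 5) (nat_lit 66) (nat_lit 4) (nat_lit 447) (nat_lit 406) (nat_lit 347)))))) (XT.nd (nat_lit 624) (nat_lit 836) (nat_lit 0) (XT.nd (nat_lit 312) (nat_lit 456) (nat_lit 0) (XT.nd (nat_lit 156) (nat_lit 228) (nat_lit 0) (XT.nd (nat_lit 78) (nat_lit 76) (nat_lit 0) (XT.lf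 (nat_lit 0) (nat_lit 9479136202) (nat_lit 152) (nat_lit 16792336092) (nat_lit 76) (nat_lit 19234904710) (nat_lit 62) (nat_lit 5) (nat_lit 64) (nat_lit 5) (nat_lit 63) (nat_lit 4) (nat_lit 448) (nat_lit 406) (nat_lit 346)) (XT.lf (nat_lit 0) (nat_lit 29767734725) (nat_lit 76) (nat_lit 2436686856) (nat_lit 152) (nat_lit 15704458164) (nat_lit 61) (nat_lit 5) (nat_lit 62) (nat_lit 5) (nat_lit 63) (nat_lit 4) (nat_lit 449) (nat_lit 406) (nat_lit 345))) (XT.nd (nat_lit 78) (nat_lit 76) (nat_lit 0) (XT.lf (nat_lit 0) (nat_lit 7167840121) (nat_lit 152) (nat_lit 19854605079) (nat_lit 76) (nat_lit 23420086212) (nat_lit 59) (nat_lit 5) (nat_lit 61) (nat_lit 5) (nat_lit 60) (nat_lit 4) (nat_lit 450) (nat_lit 406) (nat_lit 344)) (XT.lf (nat_lit 0) (nat_lit 31325200981) (nat_lit 76) (nat_lit 819058354) (nat_lit 152) (nat_lit 20980516478) (nat_lit 58) (nat_lit 5) (nat_lit 59) (nat_lit 5) (nat_lit 60) (nat_lit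 4) (nat_lit 451) (nat_lit 406) (nat_lit 343)))) (XT.nd (nat_lit 156) (nat_lit 228) (nat_lit 0) (XT.nd (nat_lit 78) (nat_lit 76) (nat_lit 0) (XT.lf (nat_lit 0) (nat_lit 4262781791) (nat_lit 152) (nat_lit 24204883253) (nat_lit 76) (nat_lit 27488281289) (nat_lit 56) (nat_lit 5) (nat_lit 58) (nat_lit 5) (nat_lit 57) (nat_lit 4) (nat_lit 452) (nat_lit 406) (nat_lit 342)) (XT.lf (nat_lit 0) (nat_lit 31671377204) (nat_lit 152) (nat_lit 27001452384) (nat_lit 0) (nat_lit 279539625) (nat_lit 55) (nat_lit 5) (nat_lit 57) (nat_lit 4) (nat_lit 55) (nat_lit 4) (nat_lit 453) (nat_lit 406) (nat_lit 341))) (XT.nd (nat_lit 78) (nat_lit 76) (nat_lit 0) (XT.lf (nat_lit 0) (nat_lit 509322881) (nat_lit 152) (nat_lit 30363460708) (nat_lit 76) (nat_lit 31246644743) (nat_lit 53) (nat_lit 5) (nat_lit 55) (nat_lit 5) (nat_lit 54) (nat_lit 4) (nat_lit 454) (nat_lit 406) (nat_lit 340)) (XT.lf (nat_lit 0) (nat_lit 30523334940)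 (nat_lit 152) (nat_lit 34348857425) (nat_lit 0) (nat_lit 597485326) (nat_lit 52) (nat_lit 5) (nat_lit 54) (nat_lit 4) (nat_lit 52) (nat_lit 4) (nat_lit 455) (nat_lit 406) (nat_lit 339))))) (XT.nd (nat_lit 312) (nat_lit 380) (nat_lit 0) (XT.nd (nat_lit 156) (nat_lit 228) (nat_lit 0) (XT.nd (nat_lit 78) (nat_lit 152) (nat_lit 0) (XT.lf (nat_lit 0) (nat_lit 29916892916) (nat_lit 76) (nat_lit 34517478306) (nat_lit 76) (nat_lit 4578780828) (nat_lit 51) (nat_lit 4) (nat_lit 52) (nat_lit 5) (nat_lit 52) (nat_lit 4) (nat_lit 456) (nat_lit 406) (nat_lit 338)) (XT.lf (nat_lit 0) (nat_lit 28133965759) (nat_lit 76) (nat_lit 199965659) (nat_lit 152) (nat_lit 44433199702) (nat_lit 49) (nat_lit 5) (nat_lit 50) (nat_lit 5) (nat_lit 51) (nat_lit 4) (nat_lit 457) (nat_lit 406) (nat_lit 337))) (XT.nd (nat_lit 78) (nat_lit 152) (nat_lit 0) (XT.lf (nat_lit 0) (nat_lit 25446987161) (nat_lit 76) (nat_lit 39911788561)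 (nat_lit 76) (nat_lit 11376923207) (nat_lit 48) (nat_lit 4) (nat_lit 49) (nat_lit 5) (nat_lit 49) (nat_lit 4) (nat_lit 458) (nat_lit 406) (nat_lit 336)) (XT.lf (nat_lit 0) (nat_lit 21999326564) (nat_lit 76) (nat_lit 2656236995) (nat_lit 152) (nat_lit 56291689409) (nat_lit 46) (nat_lit 5) (nat_lit 47) (nat_lit 5) (nat_lit 48) (nat_lit 4) (nat_lit 459) (nat_lit 406) (nat_lit 335)))) (XT.nd (nat_lit 156) (nat_lit 152) (nat_lit 0) (XT.nd (nat_lit 78) (nat_lit 152) (nat_lit 0) (XT.lf (nat_lit 0) (nat_lit 17237364626) (nat_lit 76) (nat_lit 47677880393) (nat_lit 76) (nat_lit 20484001722) (nat_lit 45) (nat_lit 4) (nat_lit 46) (nat_lit 5) (nat_lit 46) (nat_lit 4) (nat_lit 460) (nat_lit 406) (nat_lit 334)) (XT.lf (nat_lit 0) (nat_lit 11436312741) (nat_lit 76) (nat_lit 7411551900) (nat_lit 152) (nat_lit 71283251840) (nat_lit 43) (nat_lit 5) (nat_lit 44) (nat_lit 5) (nat_lit 45) (nat_lit 4) (nat_lit 461)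 (nat_lit 406) (nat_lit 333))) (XT.nd (nat_lit 78) (nat_lit 76) (nat_lit 0) (XT.lf (nat_lit 0) (nat_lit 3798503004) (nat_lit 76) (nat_lit 58624501486) (nat_lit 76) (nat_lit 32711022069) (nat_lit 42) (nat_lit 4) (nat_lit 43) (nat_lit 5) (nat_lit 43) (nat_lit 4) (nat_lit 462) (nat_lit 406) (nat_lit 332)) (XT.lf (nat_lit 0) (nat_lit 10155018795) (nat_lit 152) (nat_lit 5102166735) (nat_lit 76) (nat_lit 85198280034) (nat_lit 41) (nat_lit 5) (nat_lit 43) (nat_lit 5) (nat_lit 42) (nat_lit 4) (nat_lit 463) (nat_lit 406) (nat_lit 331))))))))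
noncomputable def xc56 : XT := (XT.nd (nat_lit 2418) (nat_lit 456) (nat_lit 0) (XT.nd (nat_lit 1170) (nat_lit 912) (nat_lit 0) (XT.nd (nat_lit 546) (nat_lit 684) (nat_lit 0) (XT.nd (nat_lit 234) (nat_lit 456) (nat_lit 0) (XT.nd (nat_lit 78) (nat_lit 228) (nat_lit 0) (XT.lf (nat_lit 0) (nat_lit 57232616205) (nat_lit 152) (nat_lit 16305541963) (nat_lit 0) (nat_lit 32541233896) (nat_lit 40) (nat_lit 5) (nat_lit 42) (nat_lit 4) (nat_lit 40) (nat_lit 4) (nat_lit 464) (nat_lit 406) (nat_lit 330)) (XT.nd (nat_lit 78) (nat_lit 152) (nat_lit 0) (XT.lf (nat_lit 0) (nat_lit 82615754230) (nat_lit 76) (nat_lit 27076674062) (nat_lit 76) (nat_lit 2380004137) (nat_lit 39) (nat_lit 4) (nat_lit 40) (nat_lit 5) (nat_lit 40) (nat_lit 4) (nat_lit 465) (nat_lit 406) (nat_lit 329)) (XT.lf (nat_lit 0) (nat_lit 48078414521) (nat_lit 152) (nat_lit 45785853313) (nat_lit 0) (nat_lit 24553113697) (nat_lit 37) (nat_lit 5)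 (nat_lit 39) (nat_lit 4) (nat_lit 37) (nat_lit 4) (nat_lit 466) (nat_lit 406) (nat_lit 328)))) (XT.nd (nat_lit 156) (nat_lit 228) (nat_lit 0) (XT.nd (nat_lit 78) (nat_lit 152) (nat_lit 0) (XT.lf (nat_lit 0) (nat_lit 60071179605) (nat_lit 76) (nat_lit 44315786149) (nat_lit 76) (nat_lit 20786167916) (nat_lit 36) (nat_lit 4) (nat_lit 37) (nat_lit 5) (nat_lit 37) (nat_lit 4) (nat_lit 467) (nat_lit 406) (nat_lit 327)) (XT.lf (nat_lit 0) (nat_lit 33344718378) (nat_lit 152) (nat_lit 88084252976) (nat_lit 0) (nat_lit 10931750917) (nat_lit 34) (nat_lit 5) (nat_lit 36) (nat_lit 4) (nat_lit 34) (nat_lit 4) (nat_lit 468) (nat_lit 406) (nat_lit 326))) (XT.nd (nat_lit 78) (nat_lit 152) (nat_lit 0) (XT.lf (nat_lit 0) (nat_lit 24285712381) (nat_lit 76) (nat_lit 69061788456) (nat_lit 76) (nat_lit 46645295775) (nat_lit 33) (nat_lit 4) (nat_lit 34) (nat_lit 5) (nat_lit 34) (nat_lit 4) (nat_lit 469) (nat_lit 406)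 (nat_lit 325)) (XT.lf (nat_lit 0) (nat_lit 428257130) (nat_lit 76) (nat_lit 10717115506) (nat_lit 152) (nat_lit 137004941825) (nat_lit 31) (nat_lit 5) (nat_lit 32) (nat_lit 5) (nat_lit 33) (nat_lit 4) (nat_lit 470) (nat_lit 406) (nat_lit 324))))) (XT.nd (nat_lit 312) (nat_lit 380) (nat_lit 0) (XT.nd (nat_lit 156) (nat_lit 228) (nat_lit 0) (XT.nd (nat_lit 78) (nat_lit 76) (nat_lit 0) (XT.lf (nat_lit 0) (nat_lit 74793945222) (nat_lit 152) (nat_lit 28545893461) (nat_lit 0) (nat_lit 53438917523) (nat_lit 31) (nat_lit 5) (nat_lit 33) (nat_lit 4) (nat_lit 31) (nat_lit 4) (nat_lit 471) (nat_lit 406) (nat_lit 323)) (XT.lf (nat_lit 0) (nat_lit 103254664916) (nat_lit 76) (nat_lit 42055847916) (nat_lit 76) (nat_lit 20698155042) (nat_lit 30) (nat_lit 4) (nat_lit 31) (nat_lit 5) (nat_lit 31) (nat_lit 4) (nat_lit 472) (nat_lit 406) (nat_lit 322))) (XT.nd (nat_lit 78) (nat_lit 76) (nat_lit 0) (XT.lf (nat_lit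 0) (nat_lit 46067172464) (nat_lit 152) (nat_lit 104048537817) (nat_lit 0) (nat_lit 25724162341) (nat_lit 28) (nat_lit 5) (nat_lit 30) (nat_lit 4) (nat_lit 28) (nat_lit 4) (nat_lit 473) (nat_lit 406) (nat_lit 321)) (XT.lf (nat_lit 0) (nat_lit 32882742907) (nat_lit 76) (nat_lit 86893337800) (nat_lit 76) (nat_lit 66548151527) (nat_lit 27) (nat_lit 4) (nat_lit 28) (nat_lit 5) (nat_lit 28) (nat_lit 4) (nat_lit 474) (nat_lit 406) (nat_lit 320)))) (XT.nd (nat_lit 156) (nat_lit 228) (nat_lit 0) (XT.nd (nat_lit 78) (nat_lit 76) (nat_lit 0) (XT.lf (nat_lit 0) (nat_lit 3505702460) (nat_lit 152) (nat_lit 13160511183) (nat_lit 76) (nat_lit 180888430500) (nat_lit 26) (nat_lit 5) (nat_lit 28) (nat_lit 5) (nat_lit 27) (nat_lit 4) (nat_lit 475) (nat_lit 406) (nat_lit 319)) (XT.lf (nat_lit 0) (nat_lit 80040496709) (nat_lit 152) (nat_lit 68767603938) (nat_lit 0) (nat_lit 60660432970) (nat_lit 25) (nat_lit 5) (nat_lit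 27) (nat_lit 4) (nat_lit 25) (nat_lit 4) (nat_lit 476) (nat_lit 406) (nat_lit 318))) (XT.nd (nat_lit 78) (nat_lit 152) (nat_lit 0) (XT.lf (nat_lit 0) (nat_lit 87505123633) (nat_lit 76) (nat_lit 77059398617) (nat_lit 76) (nat_lit 57677689641) (nat_lit 24) (nat_lit 4) (nat_lit 25) (nat_lit 5) (nat_lit 25) (nat_lit 4) (nat_lit 477) (nat_lit 406) (nat_lit 317)) (XT.lf (nat_lit 0) (nat_lit 20781436268) (nat_lit 152) (nat_lit 212839522591) (nat_lit 0) (nat_lit 2321214988) (nat_lit 22) (nat_lit 5) (nat_lit 24) (nat_lit 4) (nat_lit 22) (nat_lit 4) (nat_lit 478) (nat_lit 406) (nat_lit 316)))))) (XT.nd (nat_lit 624) (nat_lit 380) (nat_lit 0) (XT.nd (nat_lit 312) (nat_lit 304) (nat_lit 0) (XT.nd (nat_lit 156) (nat_lit 152) (nat_lit 0) (XT.nd (nat_lit 78) (nat_lit 76) (nat_lit 0) (XT.lf (nat_lit 0) (nat_lit 107195419073) (nat_lit 152) (nat_lit 54576638871) (nat_lit 0) (nat_lit 88733854437) (nat_lit 22) (nat_lit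 5) (nat_lit 24) (nat_lit 4) (nat_lit 22) (nat_lit 4) (nat_lit 479) (nat_lit 406) (nat_lit 315)) (XT.lf (nat_lit 0) (nat_lit 120168935395) (nat_lit 76) (nat_lit 82217708471) (nat_lit 76) (nat_lit 63754899985) (nat_lit 21) (nat_lit 4) (nat_lit 22) (nat_lit 5) (nat_lit 22) (nat_lit 4) (nat_lit 480) (nat_lit 406) (nat_lit 314))) (XT.nd (nat_lit 78) (nat_lit 0) (nat_lit 0) (XT.lf (nat_lit 0) (nat_lit 22939832131) (nat_lit 152) (nat_lit 254641576881) (nat_lit 0) (nat_lit 5355108133) (nat_lit 19) (nat_lit 5) (nat_lit 21) (nat_lit 4) (nat_lit 19) (nat_lit 4) (nat_lit 481) (nat_lit 406) (nat_lit 313)) (XT.lf (nat_lit 0) (nat_lit 118325735681) (nat_lit 152) (nat_lit 81757635761) (nat_lit 0) (nat_lit 100739996063) (nat_lit 19) (nat_lit 5) (nat_lit 21) (nat_lit 4) (nat_lit 19) (nat_lit 4) (nat_lit 482) (nat_lit 406) (nat_lit 312)))) (XT.nd (nat_lit 156) (nat_lit 228) (nat_lit 0) (XT.nd (nat_lit 78) (nat_lit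 0) (nat_lit 0) (XT.lf (nat_lit 0) (nat_lit 108405217097) (nat_lit 76) (nat_lit 114619265142) (nat_lit 76) (nat_lit 97032585135) (nat_lit 18) (nat_lit 4) (nat_lit 19) (nat_lit 5) (nat_lit 19) (nat_lit 4) (nat_lit 483) (nat_lit 406) (nat_lit 311)) (XT.lf (nat_lit 0) (nat_lit 316680121563) (nat_lit 76) (nat_lit 20833094033) (nat_lit 76) (nat_lit 3245543297) (nat_lit 18) (nat_lit 4) (nat_lit 19) (nat_lit 5) (nat_lit 19) (nat_lit 4) (nat_lit 484) (nat_lit 406) (nat_lit 310))) (XT.nd (nat_lit 78) (nat_lit 76) (nat_lit 0) (XT.lf (nat_lit 0) (nat_lit 99078852001) (nat_lit 152) (nat_lit 181424539204) (nat_lit 0) (nat_lit 82328035841) (nat_lit 16) (nat_lit 5) (nat_lit 18) (nat_lit 4) (nat_lit 16) (nat_lit 4) (nat_lit 485) (nat_lit 406) (nat_lit 309)) (XT.lf (nat_lit 0) (nat_lit 17676245950) (nat_lit 76) (nat_lit 192845117951) (nat_lit 76) (nat_lit 176093590829) (nat_lit 15) (nat_lit 4) (nat_lit 16) (nat_lit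 5) (nat_lit 16) (nat_lit 4) (nat_lit 486) (nat_lit 406) (nat_lit 308))))) (XT.nd (nat_lit 312) (nat_lit 152) (nat_lit 0) (XT.nd (nat_lit 156) (nat_lit 76) (nat_lit 0) (XT.nd (nat_lit 78) (nat_lit 152) (nat_lit 0) (XT.lf (nat_lit 0) (nat_lit 239165744720) (nat_lit 76) (nat_lit 94865015583) (nat_lit 76) (nat_lit 78112830161) (nat_lit 15) (nat_lit 4) (nat_lit 16) (nat_lit 5) (nat_lit 16) (nat_lit 4) (nat_lit 487) (nat_lit 406) (nat_lit 307)) (XT.lf (nat_lit 0) (nat_lit 27615689912) (nat_lit 152) (nat_lit 400376747532) (nat_lit 0) (nat_lit 11660647096) (nat_lit 13) (nat_lit 5) (nat_lit 15) (nat_lit 4) (nat_lit 13) (nat_lit 4) (nat_lit 488) (nat_lit 406) (nat_lit 306))) (XT.nd (nat_lit 78) (nat_lit 76) (nat_lit 0) (XT.lf (nat_lit 0) (nat_lit 143756479072) (nat_lit 152) (nat_lit 197507399395) (nat_lit 0) (nat_lit 127800898746) (nat_lit 13) (nat_lit 5) (nat_lit 15) (nat_lit 4) (nat_lit 13) (nat_lit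 4) (nat_lit 489) (nat_lit 406) (nat_lit 305)) (XT.lf (nat_lit 0) (nat_lit 22289685100) (nat_lit 76) (nat_lit 247239385630) (nat_lit 76) (nat_lit 231283307610) (nat_lit 12) (nat_lit 4) (nat_lit 13) (nat_lit 5) (nat_lit 13) (nat_lit 4) (nat_lit 490) (nat_lit 406) (nat_lit 304)))) (XT.nd (nat_lit 156) (nat_lit 152) (nat_lit 0) (XT.nd (nat_lit 78) (nat_lit 0) (nat_lit 0) (XT.lf (nat_lit 0) (nat_lit 266708902728) (nat_lit 76) (nat_lit 142087879041) (nat_lit 76) (nat_lit 126131340193) (nat_lit 12) (nat_lit 4) (nat_lit 13) (nat_lit 5) (nat_lit 13) (nat_lit 4) (nat_lit 491) (nat_lit 406) (nat_lit 303)) (XT.lf (nat_lit 0) (nat_lit 530668177075) (nat_lit 76) (nat_lit 28531122038) (nat_lit 76) (nat_lit 12574156499) (nat_lit 12) (nat_lit 4) (nat_lit 13) (nat_lit 5) (nat_lit 13) (nat_lit 4) (nat_lit 492) (nat_lit 406) (nat_lit 302))) (XT.nd (nat_lit 78) (nat_lit 0) (nat_lit 0) (XT.lf (nat_lit 0) (nat_lit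 111354721293) (nat_lit 152) (nat_lit 403728037992) (nat_lit 0) (nat_lit 96157234984) (nat_lit 10) (nat_lit 5) (nat_lit 12) (nat_lit 4) (nat_lit 10) (nat_lit 4) (nat_lit 493) (nat_lit 406) (nat_lit 301)) (XT.lf (nat_lit 0) (nat_lit 245966067579) (nat_lit 152) (nat_lit 177058814118) (nat_lit 0) (nat_lit 230768232870) (nat_lit 10) (nat_lit 5) (nat_lit 12) (nat_lit 4) (nat_lit 10) (nat_lit 4) (nat_lit 494) (nat_lit 406) (nat_lit 300))))))) (XT.nd (nat_lit 55926) (nat_lit 0) (nat_lit 8284) (XT.nd (nat_lit 624) (nat_lit 152) (nat_lit 0) (XT.nd (nat_lit 312) (nat_lit 76) (nat_lit 0) (XT.nd (nat_lit 156) (nat_lit 152) (nat_lit 0) (XT.nd (nat_lit 78) (nat_lit 0) (nat_lit 0) (XT.lf (nat_lit 0) (nat_lit 69972067336) (nat_lit 76) (nat_lit 322461115693) (nat_lit 76) (nat_lit 307262958391) (nat_lit 9) (nat_lit 4) (nat_lit 10) (nat_lit 5) (nat_lit 10) (nat_lit 4) (nat_lit 495) (nat_lit 406) (nat_lit 299)) (XT.lf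 (nat_lit 0) (nat_lit 343077205426) (nat_lit 76) (nat_lit 210619358105) (nat_lit 76) (nat_lit 195420902106) (nat_lit 9) (nat_lit 4) (nat_lit 10) (nat_lit 5) (nat_lit 10) (nat_lit 4) (nat_lit 496) (nat_lit 406) (nat_lit 298))) (XT.nd (nat_lit 78) (nat_lit 152) (nat_lit 0) (XT.lf (nat_lit 0) (nat_lit 638020636952) (nat_lit 76) (nat_lit 89835419653) (nat_lit 76) (nat_lit 74636687083) (nat_lit 9) (nat_lit 4) (nat_lit 10) (nat_lit 5) (nat_lit 10) (nat_lit 4) (nat_lit 497) (nat_lit 406) (nat_lit 297)) (XT.lf (nat_lit 0) (nat_lit 56233825793) (nat_lit 152) (nat_lit 761991560075) (nat_lit 0) (nat_lit 41758598503) (nat_lit 7) (nat_lit 5) (nat_lit 9) (nat_lit 4) (nat_lit 7) (nat_lit 4) (nat_lit 498) (nat_lit 406) (nat_lit 296)))) (XT.nd (nat_lit 156) (nat_lit 76) (nat_lit 0) (XT.nd (nat_lit 78) (nat_lit 0) (nat_lit 0) (XT.lf (nat_lit 0) (nat_lit 199416251829) (nat_lit 152) (nat_lit 537433437253) (nat_lit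 0) (nat_lit 184940798715) (nat_lit 7) (nat_lit 5) (nat_lit 9) (nat_lit 4) (nat_lit 7) (nat_lit 4) (nat_lit 499) (nat_lit 406) (nat_lit 295)) (XT.lf (nat_lit 0) (nat_lit 354049072867) (nat_lit 152) (nat_lit 294919237930) (nat_lit 0) (nat_lit 339573410657) (nat_lit 7) (nat_lit 5) (nat_lit 9) (nat_lit 4) (nat_lit 7) (nat_lit 4) (nat_lit 500) (nat_lit 406) (nat_lit 294))) (XT.nd (nat_lit 78) (nat_lit 76) (nat_lit 0) (XT.lf (nat_lit 0) (nat_lit 521048631551) (nat_lit 152) (nat_lit 33011840924) (nat_lit 0) (nat_lit 506572775734) (nat_lit 7) (nat_lit 5) (nat_lit 9) (nat_lit 4) (nat_lit 7) (nat_lit 4) (nat_lit 501) (nat_lit 406) (nat_lit 293)) (XT.lf (nat_lit 0) (nat_lit 258101662679) (nat_lit 76) (nat_lit 447332582500) (nat_lit 76) (nat_lit 432856547416) (nat_lit 6) (nat_lit 4) (nat_lit 7) (nat_lit 5) (nat_lit 7) (nat_lit 4) (nat_lit 502) (nat_lit 406) (nat_lit 292))))) (XT.nd (nat_lit 54990) (nat_lit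 0) (nat_lit 13680) (XT.nd (nat_lit 156) (nat_lit 152) (nat_lit 0) (XT.nd (nat_lit 78) (nat_lit 0) (nat_lit 0) (XT.lf (nat_lit 0) (nat_lit 573676057949) (nat_lit 76) (nat_lit 331466251782) (nat_lit 76) (nat_lit 316990050711) (nat_lit 6) (nat_lit 4) (nat_lit 7) (nat_lit 5) (nat_lit 7) (nat_lit 4) (nat_lit 503) (nat_lit 406) (nat_lit 291)) (XT.lf (nat_lit 0) (nat_lit 914489894831) (nat_lit 76) (nat_lit 206333936529) (nat_lit 76) (nat_lit 191857581765) (nat_lit 6) (nat_lit 4) (nat_lit 7) (nat_lit 5) (nat_lit 7) (nat_lit 4) (nat_lit 504) (nat_lit 406) (nat_lit 290))) (XT.nd (nat_lit 78) (nat_lit 152) (nat_lit 0) (XT.lf (nat_lit 0) (nat_lit 1282562810876) (nat_lit 76) (nat_lit 71194111908) (nat_lit 76) (nat_lit 56717614837) (nat_lit 6) (nat_lit 4) (nat_lit 7) (nat_lit 5) (nat_lit 7) (nat_lit 4) (nat_lit 505) (nat_lit 406) (nat_lit 289)) (XT.lf (nat_lit 0) (nat_lit 90230134999) (nat_lit 152) (nat_lit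 1349155817530) (nat_lit 0) (nat_lit 76442869440) (nat_lit 4) (nat_lit 5) (nat_lit 6) (nat_lit 4) (nat_lit 4) (nat_lit 4) (nat_lit 506) (nat_lit 406) (nat_lit 288)))) (XT.nd (nat_lit 156) (nat_lit 0) (nat_lit 0) (XT.nd (nat_lit 78) (nat_lit 608) (nat_lit 0) (XT.lf (nat_lit 0) (nat_lit 1920621617) (nat_lit 0) (nat_lit 1920621617) (nat_lit 532) (nat_lit 82960866) (nat_lit 192) (nat_lit 5) (nat_lit 192) (nat_lit 3) (nat_lit 199) (nat_lit 3) (nat_lit 407) (nat_lit 407) (nat_lit 386)) (XT.lf (nat_lit 0) (nat_lit 1865874766) (nat_lit 608) (nat_lit 5761967912) (nat_lit 684) (nat_lit 432813219) (nat_lit 184) (nat_lit 5) (nat_lit 192) (nat_lit 5) (nat_lit 193) (nat_lit 5) (nat_lit 408) (nat_lit 407) (nat_lit 385))) (XT.nd (nat_lit 78) (nat_lit 0) (nat_lit 76) (XT.lf (nat_lit 76) (nat_lit 803214204) (nat_lit 0) (nat_lit 3200197111) (nat_lit 684) (nat_lit 4288903409) (nat_lit 185) (nat_lit 5) (nat_lit 184)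 (nat_lit 5) (nat_lit 193) (nat_lit 5) (nat_lit 409) (nat_lit 407) (nat_lit 384)) (XT.lf (nat_lit 0) (nat_lit 6253439667) (nat_lit 608) (nat_lit 589215733) (nat_lit 684) (nat_lit 1702792886) (nat_lit 185) (nat_lit 5) (nat_lit 193) (nat_lit 5) (nat_lit 194) (nat_lit 5) (nat_lit 410) (nat_lit 407) (nat_lit 383)))))) (XT.nd (nat_lit 624) (nat_lit 2204) (nat_lit 0) (XT.nd (nat_lit 312) (nat_lit 2052) (nat_lit 0) (XT.nd (nat_lit 156) (nat_lit 608) (nat_lit 0) (XT.nd (nat_lit 78) (nat_lit 608) (nat_lit 0) (XT.lf (nat_lit 76) (nat_lit 6914489477) (nat_lit 0) (nat_lit 1759396129) (nat_lit 684) (nat_lit 145441414) (nat_lit 186) (nat_lit 5) (nat_lit 185) (nat_lit 5) (nat_lit 194) (nat_lit 5) (nat_lit 411) (nat_lit 407) (nat_lit 382)) (XT.lf (nat_lit 0) (nat_lit 2104951383) (nat_lit 684) (nat_lit 3211771389) (nat_lit 760) (nat_lit 3796628265) (nat_lit 177) (nat_lit 5) (nat_lit 186) (nat_lit 5) (nat_lit 187)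 (nat_lit 5) (nat_lit 412) (nat_lit 407) (nat_lit 381))) (XT.nd (nat_lit 78) (nat_lit 684) (nat_lit 0) (XT.lf (nat_lit 0) (nat_lit 4526490263) (nat_lit 684) (nat_lit 4459704139) (nat_lit 76) (nat_lit 444785302) (nat_lit 178) (nat_lit 5) (nat_lit 187) (nat_lit 5) (nat_lit 179) (nat_lit 5) (nat_lit 413) (nat_lit 407) (nat_lit 380)) (XT.lf (nat_lit 0) (nat_lit 4070564561) (nat_lit 684) (nat_lit 3139036462) (nat_lit 760) (nat_lit 2561036735) (nat_lit 169) (nat_lit 5) (nat_lit 178) (nat_lit 5) (nat_lit 179) (nat_lit 5) (nat_lit 414) (nat_lit 407) (nat_lit 379)))) (XT.nd (nat_lit 156) (nat_lit 760) (nat_lit 0) (XT.nd (nat_lit 78) (nat_lit 456) (nat_lit 0) (XT.lf (nat_lit 0) (nat_lit 17471586) (nat_lit 836) (nat_lit 6897007675) (nat_lit 76) (nat_lit 3220692078) (nat_lit 158) (nat_lit 5) (nat_lit 169) (nat_lit 5) (nat_lit 159) (nat_lit 5) (nat_lit 415) (nat_lit 407) (nat_lit 378)) (XT.lf (nat_lit 0) (nat_lit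 2428986489) (nat_lit 456) (nat_lit 349255306) (nat_lit 532) (nat_lit 7745250644) (nat_lit 152) (nat_lit 5) (nat_lit 158) (nat_lit 5) (nat_lit 159) (nat_lit 5) (nat_lit 416) (nat_lit 407) (nat_lit 377))) (XT.nd (nat_lit 78) (nat_lit 380) (nat_lit 0) (XT.lf (nat_lit 0) (nat_lit 1632666922) (nat_lit 380) (nat_lit 4260440127) (nat_lit 456) (nat_lit 5043119224) (nat_lit 147) (nat_lit 5) (nat_lit 152) (nat_lit 5) (nat_lit 153) (nat_lit 5) (nat_lit 417) (nat_lit 407) (nat_lit 376)) (XT.lf (nat_lit 0) (nat_lit 905138614) (nat_lit 380) (nat_lit 8447386267) (nat_lit 456) (nat_lit 2024693837) (nat_lit 142) (nat_lit 5) (nat_lit 147) (nat_lit 5) (nat_lit 148) (nat_lit 5) (nat_lit 418) (nat_lit 407) (nat_lit 375))))) (XT.nd (nat_lit 312) (nat_lit 1140) (nat_lit 0) (XT.nd (nat_lit 156) (nat_lit 684) (nat_lit 0) (XT.nd (nat_lit 78) (nat_lit 0) (nat_lit 0) (XT.lf (nat_lit 0) (nat_lit 208983495) (nat_lit 304)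 (nat_lit 1118600620) (nat_lit 380) (nat_lit 10518353669) (nat_lit 137) (nat_lit 5) (nat_lit 141) (nat_lit 5) (nat_lit 142) (nat_lit 5) (nat_lit 419) (nat_lit 407) (nat_lit 374)) (XT.lf (nat_lit 0) (nat_lit 5067627640) (nat_lit 380) (nat_lit 488684433) (nat_lit 76) (nat_lit 6784663373) (nat_lit 137) (nat_lit 5) (nat_lit 142) (nat_lit 5) (nat_lit 138) (nat_lit 5) (nat_lit 420) (nat_lit 407) (nat_lit 373))) (XT.nd (nat_lit 78) (nat_lit 380) (nat_lit 0) (XT.lf (nat_lit 0) (nat_lit 9255866420) (nat_lit 380) (nat_lit 1112248639) (nat_lit 76) (nat_lit 2500057575) (nat_lit 133) (nat_lit 5) (nat_lit 138) (nat_lit 5) (nat_lit 134) (nat_lit 5) (nat_lit 421) (nat_lit 407) (nat_lit 372)) (XT.lf (nat_lit 0) (nat_lit 530029416) (nat_lit 380) (nat_lit 1705484985) (nat_lit 76) (nat_lit 11191802664) (nat_lit 128) (nat_lit 5) (nat_lit 133) (nat_lit 5) (nat_lit 129) (nat_lit 5) (nat_lit 422) (nat_lit 407) (nat_lit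 371)))) (XT.nd (nat_lit 156) (nat_lit 608) (nat_lit 0) (XT.nd (nat_lit 78) (nat_lit 228) (nat_lit 0) (XT.lf (nat_lit 0) (nat_lit 5103212568) (nat_lit 380) (nat_lit 2329152776) (nat_lit 76) (nat_lit 6584570869) (nat_lit 124) (nat_lit 5) (nat_lit 129) (nat_lit 5) (nat_lit 125) (nat_lit 5) (nat_lit 423) (nat_lit 407) (nat_lit 370)) (XT.lf (nat_lit 0) (nat_lit 10237477208) (nat_lit 304) (nat_lit 2877644737) (nat_lit 76) (nat_lit 1528846220) (nat_lit 121) (nat_lit 5) (nat_lit 125) (nat_lit 5) (nat_lit 122) (nat_lit 5) (nat_lit 424) (nat_lit 407) (nat_lit 369))) (XT.nd (nat_lit 78) (nat_lit 228) (nat_lit 0) (XT.lf (nat_lit 0) (nat_lit 726005072) (nat_lit 380) (nat_lit 3417662312) (nat_lit 76) (nat_lit 11163166740) (nat_lit 116) (nat_lit 5) (nat_lit 121) (nat_lit 5) (nat_lit 117) (nat_lit 5) (nat_lit 425) (nat_lit 407) (nat_lit 368)) (XT.lf (nat_lit 0) (nat_lit 6373855336) (nat_lit 304) (nat_lit 3973831511)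 (nat_lit 76) (nat_lit 5658477574) (nat_lit 113) (nat_lit 5) (nat_lit 117) (nat_lit 5) (nat_lit 114) (nat_lit 5) (nat_lit 426) (nat_lit 407) (nat_lit 367))))))))
noncomputable def xc57 : XT := (XT.nd (nat_lit 2496) (nat_lit 2736) (nat_lit 0) (XT.nd (nat_lit 1248) (nat_lit 1900) (nat_lit 0) (XT.nd (nat_lit 624) (nat_lit 1292) (nat_lit 0) (XT.nd (nat_lit 312) (nat_lit 836) (nat_lit 0) (XT.nd (nat_lit 156) (nat_lit 380) (nat_lit 0) (XT.nd (nat_lit 78) (nat_lit 228) (nat_lit 0) (XT.lf (nat_lit 0) (nat_lit 12301509523) (nat_lit 228) (nat_lit 423458650) (nat_lit 304) (nat_lit 4023904733) (nat_lit 110) (nat_lit 5) (nat_lit 113) (nat_lit 5) (nat_lit 114) (nat_lit 5) (nat_lit 427) (nat_lit 407) (nat_lit 366)) (XT.lf (nat_lit 0) (nat_lit 2334236466) (nat_lit 228) (nat_lit 4957213318) (nat_lit 76) (nat_lit 10239657249) (nat_lit 107) (nat_lit 5) (nat_lit 110) (nat_lit 5) (nat_lit 108) (nat_lit 5) (nat_lit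 428) (nat_lit 407) (nat_lit 365))) (XT.nd (nat_lit 78) (nat_lit 152) (nat_lit 0) (XT.lf (nat_lit 0) (nat_lit 9342931664) (nat_lit 304) (nat_lit 5435606288) (nat_lit 76) (nat_lit 3579942468) (nat_lit 104) (nat_lit 5) (nat_lit 108) (nat_lit 5) (nat_lit 105) (nat_lit 5) (nat_lit 429) (nat_lit 407) (nat_lit 364)) (XT.lf (nat_lit 0) (nat_lit 13368502087) (nat_lit 152) (nat_lit 3900758073) (nat_lit 228) (nat_lit 1964939271) (nat_lit 102) (nat_lit 5) (nat_lit 104) (nat_lit 5) (nat_lit 105) (nat_lit 5) (nat_lit 430) (nat_lit 407) (nat_lit 363)))) (XT.nd (nat_lit 156) (nat_lit 380) (nat_lit 0) (XT.nd (nat_lit 78) (nat_lit 152) (nat_lit 0) (XT.lf (nat_lit 0) (nat_lit 5851307357) (nat_lit 304) (nat_lit 6334102581) (nat_lit 76) (nat_lit 7971037220) (nat_lit 98) (nat_lit 5) (nat_lit 102) (nat_lit 5) (nat_lit 99) (nat_lit 5) (nat_lit 431) (nat_lit 407) (nat_lit 362)) (XT.lf (nat_lit 0) (nat_lit 14414693001)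 (nat_lit 152) (nat_lit 147128421) (nat_lit 228) (nat_lit 6572154348) (nat_lit 96) (nat_lit 5) (nat_lit 98) (nat_lit 5) (nat_lit 99) (nat_lit 5) (nat_lit 432) (nat_lit 407) (nat_lit 361))) (XT.nd (nat_lit 78) (nat_lit 152) (nat_lit 0) (XT.lf (nat_lit 0) (nat_lit 2222991447) (nat_lit 228) (nat_lit 7148013619) (nat_lit 76) (nat_lit 12792290596) (nat_lit 93) (nat_lit 5) (nat_lit 96) (nat_lit 5) (nat_lit 94) (nat_lit 5) (nat_lit 433) (nat_lit 407) (nat_lit 360)) (XT.lf (nat_lit 0) (nat_lit 11870162469) (nat_lit 228) (nat_lit 7556325034) (nat_lit 76) (nat_lit 3824154896) (nat_lit 91) (nat_lit 5) (nat_lit 94) (nat_lit 5) (nat_lit 92) (nat_lit 5) (nat_lit 434) (nat_lit 407) (nat_lit 359))))) (XT.nd (nat_lit 312) (nat_lit 608) (nat_lit 0) (XT.nd (nat_lit 156) (nat_lit 304) (nat_lit 0) (XT.nd (nat_lit 78) (nat_lit 228) (nat_lit 0) (XT.lf (nat_lit 0) (nat_lit 16480303890) (nat_lit 152) (nat_lit 6299187020)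 (nat_lit 228) (nat_lit 1620968407) (nat_lit 89) (nat_lit 5) (nat_lit 91) (nat_lit 5) (nat_lit 92) (nat_lit 5) (nat_lit 435) (nat_lit 407) (nat_lit 358)) (XT.lf (nat_lit 0) (nat_lit 9120930974) (nat_lit 228) (nat_lit 8344734745) (nat_lit 76) (nat_lit 8145279519) (nat_lit 86) (nat_lit 5) (nat_lit 89) (nat_lit 5) (nat_lit 87) (nat_lit 5) (nat_lit 436) (nat_lit 407) (nat_lit 357))) (XT.nd (nat_lit 78) (nat_lit 152) (nat_lit 0) (XT.lf (nat_lit 0) (nat_lit 18202102753) (nat_lit 152) (nat_lit 2946762540) (nat_lit 228) (nat_lit 5743903717) (nat_lit 84) (nat_lit 5) (nat_lit 86) (nat_lit 5) (nat_lit 87) (nat_lit 5) (nat_lit 437) (nat_lit 407) (nat_lit 356)) (XT.lf (nat_lit 0) (nat_lit 6284815270) (nat_lit 152) (nat_lit 9114988448) (nat_lit 76) (nat_lit 12842233261) (nat_lit 82) (nat_lit 5) (nat_lit 84) (nat_lit 5) (nat_lit 83) (nat_lit 5) (nat_lit 438) (nat_lit 407) (nat_lit 355)))) (XT.nd (nat_lit 156)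 (nat_lit 304) (nat_lit 0) (XT.nd (nat_lit 78) (nat_lit 152) (nat_lit 0) (XT.lf (nat_lit 0) (nat_lit 19561883955) (nat_lit 228) (nat_lit 9473993975) (nat_lit 76) (nat_lit 634296896) (nat_lit 80) (nat_lit 5) (nat_lit 83) (nat_lit 5) (nat_lit 81) (nat_lit 4) (nat_lit 439) (nat_lit 407) (nat_lit 354)) (XT.lf (nat_lit 0) (nat_lit 3324916967) (nat_lit 152) (nat_lit 9915380998) (nat_lit 76) (nat_lit 17934047245) (nat_lit 78) (nat_lit 5) (nat_lit 80) (nat_lit 5) (nat_lit 79) (nat_lit 5) (nat_lit 440) (nat_lit 407) (nat_lit 353))) (XT.nd (nat_lit 78) (nat_lit 152) (nat_lit 0) (XT.lf (nat_lit 0) (nat_lit 18030567257) (nat_lit 228) (nat_lit 10368406977) (nat_lit 76) (nat_lit 4363993838) (nat_lit 76) (nat_lit 5) (nat_lit 79) (nat_lit 5) (nat_lit 77) (nat_lit 4) (nat_lit 441) (nat_lit 407) (nat_lit 352)) (XT.lf (nat_lit 0) (nat_lit 191484891) (nat_lit 152) (nat_lit 10815835063) (nat_lit 76) (nat_lit 23434834433)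 (nat_lit 74) (nat_lit 5) (nat_lit 76) (nat_lit 5) (nat_lit 75) (nat_lit 5) (nat_lit 442) (nat_lit 407) (nat_lit 351)))))) (XT.nd (nat_lit 624) (nat_lit 912) (nat_lit 0) (XT.nd (nat_lit 312) (nat_lit 456) (nat_lit 0) (XT.nd (nat_lit 156) (nat_lit 304) (nat_lit 0) (XT.nd (nat_lit 78) (nat_lit 76) (nat_lit 0) (XT.lf (nat_lit 0) (nat_lit 16468292728) (nat_lit 228) (nat_lit 11411899364) (nat_lit 76) (nat_lit 8329650357) (nat_lit 72) (nat_lit 5) (nat_lit 75) (nat_lit 5) (nat_lit 73) (nat_lit 4) (nat_lit 443) (nat_lit 407) (nat_lit 350)) (XT.lf (nat_lit 0) (nat_lit 26114374636) (nat_lit 76) (nat_lit 8679979516) (nat_lit 152) (nat_lit 3287236627) (nat_lit 71) (nat_lit 5) (nat_lit 72) (nat_lit 5) (nat_lit 73) (nat_lit 4) (nat_lit 444) (nat_lit 407) (nat_lit 349))) (XT.nd (nat_lit 78) (nat_lit 76) (nat_lit 0) (XT.lf (nat_lit 0) (nat_lit 14817145972) (nat_lit 228) (nat_lit 12723023071) (nat_lit 76) (nat_lit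 12511739963) (nat_lit 68) (nat_lit 5) (nat_lit 71) (nat_lit 5) (nat_lit 69) (nat_lit 4) (nat_lit 445) (nat_lit 407) (nat_lit 348)) (XT.lf (nat_lit 0) (nat_lit 28672348527) (nat_lit 76) (nat_lit 6354450711) (nat_lit 152) (nat_lit 7111755104) (nat_lit 67) (nat_lit 5) (nat_lit 68) (nat_lit 5) (nat_lit 69) (nat_lit 4) (nat_lit 446) (nat_lit 407) (nat_lit 347)))) (XT.nd (nat_lit 156) (nat_lit 228) (nat_lit 0) (XT.nd (nat_lit 78) (nat_lit 76) (nat_lit 0) (XT.lf (nat_lit 0) (nat_lit 12996181826) (nat_lit 152) (nat_lit 14466834929) (nat_lit 76) (nat_lit 16872691343) (nat_lit 65) (nat_lit 5) (nat_lit 67) (nat_lit 5) (nat_lit 66) (nat_lit 4) (nat_lit 447) (nat_lit 407) (nat_lit 346)) (XT.lf (nat_lit 0) (nat_lit 31157740861) (nat_lit 76) (nat_lit 4108040092) (nat_lit 152) (nat_lit 11396914916) (nat_lit 64) (nat_lit 5) (nat_lit 65) (nat_lit 5) (nat_lit 66) (nat_lit 4) (nat_lit 448) (nat_lit 407) (nat_lit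 345))) (XT.nd (nat_lit 78) (nat_lit 76) (nat_lit 0) (XT.lf (nat_lit 0) (nat_lit 10893891486) (nat_lit 152) (nat_lit 16870504219) (nat_lit 76) (nat_lit 21349662556) (nat_lit 62) (nat_lit 5) (nat_lit 64) (nat_lit 5) (nat_lit 63) (nat_lit 4) (nat_lit 449) (nat_lit 407) (nat_lit 344)) (XT.lf (nat_lit 0) (nat_lit 33359387398) (nat_lit 76) (nat_lit 2048083411) (nat_lit 152) (nat_lit 16302777425) (nat_lit 61) (nat_lit 5) (nat_lit 62) (nat_lit 5) (nat_lit 63) (nat_lit 4) (nat_lit 450) (nat_lit 407) (nat_lit 343))))) (XT.nd (nat_lit 312) (nat_lit 456) (nat_lit 0) (XT.nd (nat_lit 156) (nat_lit 228) (nat_lit 0) (XT.nd (nat_lit 78) (nat_lit 76) (nat_lit 0) (XT.lf (nat_lit 0) (nat_lit 8358341828) (nat_lit 152) (nat_lit 20243660257) (nat_lit 76) (nat_lit 25845071841) (nat_lit 59) (nat_lit 5) (nat_lit 61) (nat_lit 5) (nat_lit 60) (nat_lit 4) (nat_lit 451) (nat_lit 407) (nat_lit 342)) (XT.lf (nat_lit 0) (nat_lit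 34978409597) (nat_lit 76) (nat_lit 326666651) (nat_lit 152) (nat_lit 22040212012) (nat_lit 58) (nat_lit 5) (nat_lit 59) (nat_lit 5) (nat_lit 60) (nat_lit 4) (nat_lit 452) (nat_lit 407) (nat_lit 341))) (XT.nd (nat_lit 78) (nat_lit 76) (nat_lit 0) (XT.lf (nat_lit 0) (nat_lit 5184306406) (nat_lit 152) (nat_lit 25004881001) (nat_lit 76) (nat_lit 30214204405) (nat_lit 56) (nat_lit 5) (nat_lit 58) (nat_lit 5) (nat_lit 57) (nat_lit 4) (nat_lit 453) (nat_lit 407) (nat_lit 340)) (XT.lf (nat_lit 0) (nat_lit 34767874859) (nat_lit 152) (nat_lit 28055147854) (nat_lit 0) (nat_lit 817391919) (nat_lit 55) (nat_lit 5) (nat_lit 57) (nat_lit 4) (nat_lit 55) (nat_lit 4) (nat_lit 454) (nat_lit 407) (nat_lit 339)))) (XT.nd (nat_lit 156) (nat_lit 228) (nat_lit 0) (XT.nd (nat_lit 78) (nat_lit 76) (nat_lit 0) (XT.lf (nat_lit 0) (nat_lit 1096509582) (nat_lit 152) (nat_lit 31716128553) (nat_lit 76) (nat_lit 34249018236)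 (nat_lit 53) (nat_lit 5) (nat_lit 55) (nat_lit 5) (nat_lit 54) (nat_lit 4) (nat_lit 455) (nat_lit 407) (nat_lit 338)) (XT.lf (nat_lit 0) (nat_lit 33495165816) (nat_lit 152) (nat_lit 36048955508) (nat_lit 0) (nat_lit 1136628504) (nat_lit 52) (nat_lit 5) (nat_lit 54) (nat_lit 4) (nat_lit 52) (nat_lit 4) (nat_lit 456) (nat_lit 407) (nat_lit 337))) (XT.nd (nat_lit 78) (nat_lit 152) (nat_lit 0) (XT.lf (nat_lit 0) (nat_lit 33312518292) (nat_lit 76) (nat_lit 36782958415) (nat_lit 76) (nat_lit 4413406130) (nat_lit 51) (nat_lit 4) (nat_lit 52) (nat_lit 5) (nat_lit 52) (nat_lit 4) (nat_lit 457) (nat_lit 407) (nat_lit 336)) (XT.lf (nat_lit 0) (nat_lit 31096578471) (nat_lit 152) (nat_lit 47208403291) (nat_lit 0) (nat_lit 258720057) (nat_lit 49) (nat_lit 5) (nat_lit 51) (nat_lit 4) (nat_lit 49) (nat_lit 4) (nat_lit 458) (nat_lit 407) (nat_lit 335))))))) (XT.nd (nat_lit 1248) (nat_lit 1140) (nat_lit 0) (XT.nd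 (nat_lit 624) (nat_lit 836) (nat_lit 0) (XT.nd (nat_lit 312) (nat_lit 304) (nat_lit 0) (XT.nd (nat_lit 156) (nat_lit 228) (nat_lit 0) (XT.nd (nat_lit 78) (nat_lit 152) (nat_lit 0) (XT.lf (nat_lit 0) (nat_lit 28431676644) (nat_lit 76) (nat_lit 42632935420) (nat_lit 76) (nat_lit 11786083136) (nat_lit 48) (nat_lit 4) (nat_lit 49) (nat_lit 5) (nat_lit 49) (nat_lit 4) (nat_lit 459) (nat_lit 407) (nat_lit 334)) (XT.lf (nat_lit 0) (nat_lit 24682304579) (nat_lit 76) (nat_lit 2409151284) (nat_lit 152) (nat_lit 60308402400) (nat_lit 46) (nat_lit 5) (nat_lit 47) (nat_lit 5) (nat_lit 48) (nat_lit 4) (nat_lit 460) (nat_lit 407) (nat_lit 333))) (XT.nd (nat_lit 78) (nat_lit 152) (nat_lit 0) (XT.lf (nat_lit 0) (nat_lit 19514576064) (nat_lit 76) (nat_lit 51043674013) (nat_lit 76) (nat_lit 21650444741) (nat_lit 45) (nat_lit 4) (nat_lit 46) (nat_lit 5) (nat_lit 46) (nat_lit 4) (nat_lit 461) (nat_lit 407) (nat_lit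 332)) (XT.lf (nat_lit 0) (nat_lit 13224865463) (nat_lit 76) (nat_lit 7567765940) (nat_lit 152) (nat_lit 76527125408) (nat_lit 43) (nat_lit 5) (nat_lit 44) (nat_lit 5) (nat_lit 45) (nat_lit 4) (nat_lit 462) (nat_lit 407) (nat_lit 331)))) (XT.nd (nat_lit 156) (nat_lit 152) (nat_lit 0) (XT.nd (nat_lit 78) (nat_lit 76) (nat_lit 0) (XT.lf (nat_lit 0) (nat_lit 4952440786) (nat_lit 76) (nat_lit 62888560900) (nat_lit 76) (nat_lit 34882537205) (nat_lit 42) (nat_lit 4) (nat_lit 43) (nat_lit 5) (nat_lit 43) (nat_lit 4) (nat_lit 463) (nat_lit 407) (nat_lit 330)) (XT.lf (nat_lit 0) (nat_lit 11366598184) (nat_lit 152) (nat_lit 4710049413) (nat_lit 76) (nat_lit 92395294597) (nat_lit 41) (nat_lit 5) (nat_lit 43) (nat_lit 5) (nat_lit 42) (nat_lit 4) (nat_lit 464) (nat_lit 407) (nat_lit 329))) (XT.nd (nat_lit 78) (nat_lit 76) (nat_lit 0) (XT.lf (nat_lit 0) (nat_lit 62198780963) (nat_lit 152) (nat_lit 16831389212)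 (nat_lit 0) (nat_lit 35516193887) (nat_lit 40) (nat_lit 5) (nat_lit 42) (nat_lit 4) (nat_lit 40) (nat_lit 4) (nat_lit 465) (nat_lit 407) (nat_lit 328)) (XT.lf (nat_lit 0) (nat_lit 89969773838) (nat_lit 76) (nat_lit 28868524146) (nat_lit 76) (nat_lit 2181403791) (nat_lit 39) (nat_lit 4) (nat_lit 40) (nat_lit 5) (nat_lit 40) (nat_lit 4) (nat_lit 466) (nat_lit 407) (nat_lit 327))))) (XT.nd (nat_lit 312) (nat_lit 380) (nat_lit 0) (XT.nd (nat_lit 156) (nat_lit 228) (nat_lit 0) (XT.nd (nat_lit 78) (nat_lit 76) (nat_lit 0) (XT.lf (nat_lit 0) (nat_lit 52290342041) (nat_lit 152) (nat_lit 48712106653) (nat_lit 0) (nat_lit 26870039340) (nat_lit 37) (nat_lit 5) (nat_lit 39) (nat_lit 4) (nat_lit 37) (nat_lit 4) (nat_lit 467) (nat_lit 407) (nat_lit 326)) (XT.lf (nat_lit 0) (nat_lit 65581476512) (nat_lit 76) (nat_lit 47506016173) (nat_lit 76) (nat_lit 22082011990) (nat_lit 36) (nat_lit 4) (nat_lit 37) (nat_lit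 5) (nat_lit 37) (nat_lit 4) (nat_lit 468) (nat_lit 407) (nat_lit 325))) (XT.nd (nat_lit 78) (nat_lit 76) (nat_lit 0) (XT.lf (nat_lit 0) (nat_lit 36357371736) (nat_lit 152) (nat_lit 94434183134) (nat_lit 0) (nat_lit 12140770326) (nat_lit 34) (nat_lit 5) (nat_lit 36) (nat_lit 4) (nat_lit 34) (nat_lit 4) (nat_lit 469) (nat_lit 407) (nat_lit 324)) (XT.lf (nat_lit 0) (nat_lit 26895096935) (nat_lit 76) (nat_lit 74250125044) (nat_lit 76) (nat_lit 50030501325) (nat_lit 33) (nat_lit 4) (nat_lit 34) (nat_lit 5) (nat_lit 34) (nat_lit 4) (nat_lit 470) (nat_lit 407) (nat_lit 323)))) (XT.nd (nat_lit 156) (nat_lit 228) (nat_lit 0) (XT.nd (nat_lit 78) (nat_lit 0) (nat_lit 0) (XT.lf (nat_lit 0) (nat_lit 1110685377) (nat_lit 76) (nat_lit 11246928052) (nat_lit 152) (nat_lit 147628694773) (nat_lit 31) (nat_lit 5) (nat_lit 32) (nat_lit 5) (nat_lit 33) (nat_lit 4) (nat_lit 471) (nat_lit 407) (nat_lit 322)) (XT.lf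 (nat_lit 0) (nat_lit 81079058117) (nat_lit 152) (nat_lit 30219301035) (nat_lit 0) (nat_lit 58007616883) (nat_lit 31) (nat_lit 5) (nat_lit 33) (nat_lit 4) (nat_lit 31) (nat_lit 4) (nat_lit 472) (nat_lit 407) (nat_lit 321))) (XT.nd (nat_lit 78) (nat_lit 152) (nat_lit 0) (XT.lf (nat_lit 0) (nat_lit 112098780687) (nat_lit 76) (nat_lit 45124943768) (nat_lit 76) (nat_lit 22051217576) (nat_lit 30) (nat_lit 4) (nat_lit 31) (nat_lit 5) (nat_lit 31) (nat_lit 4) (nat_lit 473) (nat_lit 407) (nat_lit 320)) (XT.lf (nat_lit 0) (nat_lit 50037283501) (nat_lit 152) (nat_lit 111795250192) (nat_lit 0) (nat_lit 28060291221) (nat_lit 28) (nat_lit 5) (nat_lit 30) (nat_lit 4) (nat_lit 28) (nat_lit 4) (nat_lit 474) (nat_lit 407) (nat_lit 319)))))) (XT.nd (nat_lit 624) (nat_lit 456) (nat_lit 0) (XT.nd (nat_lit 312) (nat_lit 380) (nat_lit 0) (XT.nd (nat_lit 156) (nat_lit 152) (nat_lit 0) (XT.nd (nat_lit 78) (nat_lit 76)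 (nat_lit 0) (XT.lf (nat_lit 0) (nat_lit 36065449858) (nat_lit 76) (nat_lit 93564982533) (nat_lit 76) (nat_lit 71586124554) (nat_lit 27) (nat_lit 4) (nat_lit 28) (nat_lit 5) (nat_lit 28) (nat_lit 4) (nat_lit 475) (nat_lit 407) (nat_lit 318)) (XT.lf (nat_lit 0) (nat_lit 4042389378) (nat_lit 152) (nat_lit 13693687251) (nat_lit 76) (nat_lit 195610126974) (nat_lit 26) (nat_lit 5) (nat_lit 28) (nat_lit 5) (nat_lit 27) (nat_lit 4) (nat_lit 476) (nat_lit 407) (nat_lit 317))) (XT.nd (nat_lit 78) (nat_lit 76) (nat_lit 0) (XT.lf (nat_lit 0) (nat_lit 86692683447) (nat_lit 152) (nat_lit 73763615865) (nat_lit 0) (nat_lit 65757269149) (nat_lit 25) (nat_lit 5) (nat_lit 27) (nat_lit 4) (nat_lit 25) (nat_lit 4) (nat_lit 477) (nat_lit 407) (nat_lit 316)) (XT.lf (nat_lit 0) (nat_lit 94988966001) (nat_lit 76) (nat_lit 82978772247) (nat_lit 76) (nat_lit 62041947424) (nat_lit 24) (nat_lit 4) (nat_lit 25) (nat_lit 5)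 (nat_lit 25) (nat_lit 4) (nat_lit 478) (nat_lit 407) (nat_lit 315)))) (XT.nd (nat_lit 156) (nat_lit 228) (nat_lit 0) (XT.nd (nat_lit 78) (nat_lit 0) (nat_lit 0) (XT.lf (nat_lit 0) (nat_lit 22679051622) (nat_lit 152) (nat_lit 229388766096) (nat_lit 0) (nat_lit 2737974608) (nat_lit 22) (nat_lit 5) (nat_lit 24) (nat_lit 4) (nat_lit 22) (nat_lit 4) (nat_lit 479) (nat_lit 407) (nat_lit 314)) (XT.lf (nat_lit 0) (nat_lit 115988738204) (nat_lit 152) (nat_lit 58500253035) (nat_lit 0) (nat_lit 96046509477) (nat_lit 22) (nat_lit 5) (nat_lit 24) (nat_lit 4) (nat_lit 22) (nat_lit 4) (nat_lit 480) (nat_lit 407) (nat_lit 313))) (XT.nd (nat_lit 78) (nat_lit 152) (nat_lit 0) (XT.lf (nat_lit 0) (nat_lit 130205735926) (nat_lit 76) (nat_lit 88580008871) (nat_lit 76) (nat_lit 68636713744) (nat_lit 21) (nat_lit 4) (nat_lit 22) (nat_lit 5) (nat_lit 22) (nat_lit 4) (nat_lit 481) (nat_lit 407) (nat_lit 312)) (XT.lf (nat_lit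 0) (nat_lit 24980621188) (nat_lit 152) (nat_lit 274594470506) (nat_lit 0) (nat_lit 5986066393) (nat_lit 19) (nat_lit 5) (nat_lit 21) (nat_lit 4) (nat_lit 19) (nat_lit 4) (nat_lit 482) (nat_lit 407) (nat_lit 311))))) (XT.nd (nat_lit 312) (nat_lit 228) (nat_lit 0) (XT.nd (nat_lit 156) (nat_lit 152) (nat_lit 0) (XT.nd (nat_lit 78) (nat_lit 76) (nat_lit 0) (XT.lf (nat_lit 0) (nat_lit 127982167208) (nat_lit 152) (nat_lit 87910809098) (nat_lit 0) (nat_lit 108986741683) (nat_lit 19) (nat_lit 5) (nat_lit 21) (nat_lit 4) (nat_lit 19) (nat_lit 4) (nat_lit 483) (nat_lit 407) (nat_lit 310)) (XT.lf (nat_lit 0) (nat_lit 117448234426) (nat_lit 76) (nat_lit 123600263489) (nat_lit 76) (nat_lit 104604031732) (nat_lit 18) (nat_lit 4) (nat_lit 19) (nat_lit 5) (nat_lit 19) (nat_lit 4) (nat_lit 484) (nat_lit 407) (nat_lit 309))) (XT.nd (nat_lit 78) (nat_lit 152) (nat_lit 0) (XT.lf (nat_lit 0) (nat_lit 342357679400)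 (nat_lit 76) (nat_lit 22325164829) (nat_lit 76) (nat_lit 3328186562) (nat_lit 18) (nat_lit 4) (nat_lit 19) (nat_lit 5) (nat_lit 19) (nat_lit 4) (nat_lit 485) (nat_lit 407) (nat_lit 308)) (XT.lf (nat_lit 0) (nat_lit 107171664119) (nat_lit 152) (nat_lit 195599306112) (nat_lit 0) (nat_lit 89078645566) (nat_lit 16) (nat_lit 5) (nat_lit 18) (nat_lit 4) (nat_lit 16) (nat_lit 4) (nat_lit 486) (nat_lit 407) (nat_lit 307)))) (XT.nd (nat_lit 156) (nat_lit 152) (nat_lit 0) (XT.nd (nat_lit 78) (nat_lit 0) (nat_lit 0) (XT.lf (nat_lit 0) (nat_lit 19414800799) (nat_lit 76) (nat_lit 208107508200) (nat_lit 76) (nat_lit 190013880111) (nat_lit 15) (nat_lit 4) (nat_lit 16) (nat_lit 5) (nat_lit 16) (nat_lit 4) (nat_lit 487) (nat_lit 407) (nat_lit 306)) (XT.lf (nat_lit 0) (nat_lit 258599425754) (nat_lit 76) (nat_lit 102301236100) (nat_lit 76) (nat_lit 84207043626) (nat_lit 15) (nat_lit 4) (nat_lit 16) (nat_lit 5)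 (nat_lit 16) (nat_lit 4) (nat_lit 488) (nat_lit 407) (nat_lit 305))) (XT.nd (nat_lit 78) (nat_lit 0) (nat_lit 0) (XT.lf (nat_lit 0) (nat_lit 29970586052) (nat_lit 152) (nat_lit 432109938945) (nat_lit 0) (nat_lit 12737524097) (nat_lit 13) (nat_lit 5) (nat_lit 15) (nat_lit 4) (nat_lit 13) (nat_lit 4) (nat_lit 489) (nat_lit 407) (nat_lit 304)) (XT.lf (nat_lit 0) (nat_lit 155391850126) (nat_lit 152) (nat_lit 213033039134) (nat_lit 0) (nat_lit 138158327344) (nat_lit 13) (nat_lit 5) (nat_lit 15) (nat_lit 4) (nat_lit 13) (nat_lit 4) (nat_lit 490) (nat_lit 407) (nat_lit 303))))))))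
noncomputable def xc58 : XT := (XT.nd (nat_lit 57174) (nat_lit 0) (nat_lit 3800) (XT.nd (nat_lit 1170) (nat_lit 0) (nat_lit 0) (XT.nd (nat_lit 546) (nat_lit 228) (nat_lit 0) (XT.nd (nat_lit 234) (nat_lit 228) (nat_lit 0) (XT.nd (nat_lit 78) (nat_lit 0) (nat_lit 0) (XT.lf (nat_lit 0) (nat_lit 24335863033) (nat_lit 76) (nat_lit 266884503209) (nat_lit 76) (nat_lit 249650553734) (nat_lit 12) (nat_lit 4) (nat_lit 13) (nat_lit 5) (nat_lit 13) (nat_lit 4) (nat_lit 491) (nat_lit 407) (nat_lit 302)) (XT.nd (nat_lit 78) (nat_lit 0) (nat_lit 0) (XT.lf (nat_lit 0) (nat_lit 288289136359) (nat_lit 76) (nat_lit 153330804483) (nat_lit 76) (nat_lit 136096459923) (nat_lit 12) (nat_lit 4) (nat_lit 13) (nat_lit 5) (nat_lit 13) (nat_lit 4) (nat_lit 492) (nat_lit 407) (nat_lit 301)) (XT.lf (nat_lit 0) (nat_lit 573347114029) (nat_lit 76) (nat_lit 30698699875) (nat_lit 76) (nat_lit 13463989494) (nat_lit 12) (nat_lit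 4) (nat_lit 13) (nat_lit 5) (nat_lit 13) (nat_lit 4) (nat_lit 493) (nat_lit 407) (nat_lit 300)))) (XT.nd (nat_lit 156) (nat_lit 76) (nat_lit 0) (XT.nd (nat_lit 78) (nat_lit 0) (nat_lit 0) (XT.lf (nat_lit 0) (nat_lit 120372325649) (nat_lit 152) (nat_lit 435803413554) (nat_lit 0) (nat_lit 103957993170) (nat_lit 10) (nat_lit 5) (nat_lit 12) (nat_lit 4) (nat_lit 10) (nat_lit 4) (nat_lit 494) (nat_lit 407) (nat_lit 299)) (XT.lf (nat_lit 0) (nat_lit 265744488775) (nat_lit 152) (nat_lit 191017160471) (nat_lit 0) (nat_lit 249329857599) (nat_lit 10) (nat_lit 5) (nat_lit 12) (nat_lit 4) (nat_lit 10) (nat_lit 4) (nat_lit 495) (nat_lit 407) (nat_lit 298))) (XT.nd (nat_lit 78) (nat_lit 0) (nat_lit 0) (XT.lf (nat_lit 0) (nat_lit 75767223399) (nat_lit 76) (nat_lit 348157340344) (nat_lit 76) (nat_lit 331742432598) (nat_lit 9) (nat_lit 4) (nat_lit 10) (nat_lit 5) (nat_lit 10) (nat_lit 4) (nat_lit 496) (nat_lit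 407) (nat_lit 297)) (XT.lf (nat_lit 0) (nat_lit 370706151004) (nat_lit 76) (nat_lit 227375698786) (nat_lit 76) (nat_lit 210960534955) (nat_lit 9) (nat_lit 4) (nat_lit 10) (nat_lit 5) (nat_lit 10) (nat_lit 4) (nat_lit 497) (nat_lit 407) (nat_lit 296))))) (XT.nd (nat_lit 312) (nat_lit 76) (nat_lit 0) (XT.nd (nat_lit 156) (nat_lit 0) (nat_lit 0) (XT.nd (nat_lit 78) (nat_lit 152) (nat_lit 0) (XT.lf (nat_lit 0) (nat_lit 689231518597) (nat_lit 76) (nat_lit 96935949552) (nat_lit 76) (nat_lit 80520548606) (nat_lit 9) (nat_lit 4) (nat_lit 10) (nat_lit 5) (nat_lit 10) (nat_lit 4) (nat_lit 498) (nat_lit 407) (nat_lit 295)) (XT.lf (nat_lit 0) (nat_lit 60814454301) (nat_lit 152) (nat_lit 822783622613) (nat_lit 0) (nat_lit 45180530018) (nat_lit 7) (nat_lit 5) (nat_lit 9) (nat_lit 4) (nat_lit 7) (nat_lit 4) (nat_lit 499) (nat_lit 407) (nat_lit 294))) (XT.nd (nat_lit 78) (nat_lit 0) (nat_lit 0) (XT.lf (nat_lit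 0) (nat_lit 215445406090) (nat_lit 152) (nat_lit 580273239762) (nat_lit 0) (nat_lit 199811288200) (nat_lit 7) (nat_lit 5) (nat_lit 9) (nat_lit 4) (nat_lit 7) (nat_lit 4) (nat_lit 500) (nat_lit 407) (nat_lit 293)) (XT.lf (nat_lit 0) (nat_lit 382443233988) (nat_lit 152) (nat_lit 318369376528) (nat_lit 0) (nat_lit 366808936831) (nat_lit 7) (nat_lit 5) (nat_lit 9) (nat_lit 4) (nat_lit 7) (nat_lit 4) (nat_lit 501) (nat_lit 407) (nat_lit 292)))) (XT.nd (nat_lit 156) (nat_lit 0) (nat_lit 0) (XT.nd (nat_lit 78) (nat_lit 76) (nat_lit 0) (XT.lf (nat_lit 0) (nat_lit 562797554753) (nat_lit 152) (nat_lit 35520010017) (nat_lit 0) (nat_lit 547163091609) (nat_lit 7) (nat_lit 5) (nat_lit 9) (nat_lit 4) (nat_lit 7) (nat_lit 4) (nat_lit 502) (nat_lit 407) (nat_lit 291)) (XT.lf (nat_lit 0) (nat_lit 278876803496) (nat_lit 76) (nat_lit 483054379687) (nat_lit 76) (nat_lit 467419762850) (nat_lit 6) (nat_lit 4) (nat_lit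 7) (nat_lit 5) (nat_lit 7) (nat_lit 4) (nat_lit 503) (nat_lit 407) (nat_lit 290))) (XT.nd (nat_lit 78) (nat_lit 0) (nat_lit 0) (XT.lf (nat_lit 0) (nat_lit 619687742403) (nat_lit 76) (nat_lit 357923543209) (nat_lit 76) (nat_lit 342288784065) (nat_lit 6) (nat_lit 4) (nat_lit 7) (nat_lit 5) (nat_lit 7) (nat_lit 4) (nat_lit 504) (nat_lit 407) (nat_lit 289)) (XT.lf (nat_lit 0) (nat_lit 987757975138) (nat_lit 76) (nat_lit 222785087825) (nat_lit 76) (nat_lit 207150196915) (nat_lit 6) (nat_lit 4) (nat_lit 7) (nat_lit 5) (nat_lit 7) (nat_lit 4) (nat_lit 505) (nat_lit 407) (nat_lit 288)))))) (XT.nd (nat_lit 55380) (nat_lit 0) (nat_lit 9348) (XT.nd (nat_lit 55068) (nat_lit 0) (nat_lit 12920) (XT.nd (nat_lit 54912) (nat_lit 0) (nat_lit 13452) (XT.nd (nat_lit 54834) (nat_lit 0) (nat_lit 13452) (XT.lf (nat_lit 0) (nat_lit 1385268658636) (nat_lit 76) (nat_lit 76838193059) (nat_lit 76) (nat_lit 61203180143)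 (nat_lit 6) (nat_lit 4) (nat_lit 7) (nat_lit 5) (nat_lit 7) (nat_lit 4) (nat_lit 506) (nat_lit 407) (nat_lit 287)) (XT.lf (nat_lit 0) (nat_lit 1855338335) (nat_lit 684) (nat_lit 1142797538) (nat_lit 684) (nat_lit 1142797538) (nat_lit 183) (nat_lit 3) (nat_lit 192) (nat_lit 3) (nat_lit 192) (nat_lit 5) (nat_lit 408) (nat_lit 408) (nat_lit 384))) (XT.nd (nat_lit 78) (nat_lit 0) (nat_lit 76) (XT.lf (nat_lit 76) (nat_lit 4441217201) (nat_lit 0) (nat_lit 1193267326) (nat_lit 684) (nat_lit 2889735476) (nat_lit 184) (nat_lit 5) (nat_lit 183) (nat_lit 3) (nat_lit 192) (nat_lit 5) (nat_lit 409) (nat_lit 408) (nat_lit 383)) (XT.lf (nat_lit 76) (nat_lit 2932216057) (nat_lit 0) (nat_lit 4757694925) (nat_lit 684) (nat_lit 1097180012) (nat_lit 185) (nat_lit 5) (nat_lit 184) (nat_lit 5) (nat_lit 193) (nat_lit 5) (nat_lit 410) (nat_lit 408) (nat_lit 382)))) (XT.nd (nat_lit 156) (nat_lit 0) (nat_lit 76) (XT.nd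 (nat_lit 78) (nat_lit 0) (nat_lit 0) (XT.lf (nat_lit 0) (nat_lit 776751343) (nat_lit 684) (nat_lit 7586926296) (nat_lit 760) (nat_lit 708431807) (nat_lit 176) (nat_lit 5) (nat_lit 185) (nat_lit 5) (nat_lit 186) (nat_lit 5) (nat_lit 411) (nat_lit 408) (nat_lit 381)) (XT.lf (nat_lit 76) (nat_lit 40265715) (nat_lit 0) (nat_lit 2755837166) (nat_lit 760) (nat_lit 6581242343) (nat_lit 177) (nat_lit 5) (nat_lit 176) (nat_lit 5) (nat_lit 186) (nat_lit 5) (nat_lit 412) (nat_lit 408) (nat_lit 380))) (XT.nd (nat_lit 78) (nat_lit 0) (nat_lit 0) (XT.lf (nat_lit 0) (nat_lit 5021974768) (nat_lit 684) (nat_lit 1315878139) (nat_lit 760) (nat_lit 3366909877) (nat_lit 177) (nat_lit 5) (nat_lit 186) (nat_lit 5) (nat_lit 187) (nat_lit 5) (nat_lit 413) (nat_lit 408) (nat_lit 379)) (XT.lf (nat_lit 76) (nat_lit 7436388255) (nat_lit 0) (nat_lit 21649670) (nat_lit 760) (nat_lit 2598740426) (nat_lit 178) (nat_lit 5) (nat_lit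 177) (nat_lit 5) (nat_lit 187) (nat_lit 5) (nat_lit 414) (nat_lit 408) (nat_lit 378))))) (XT.nd (nat_lit 312) (nat_lit 1368) (nat_lit 0) (XT.nd (nat_lit 156) (nat_lit 836) (nat_lit 0) (XT.nd (nat_lit 78) (nat_lit 836) (nat_lit 0) (XT.lf (nat_lit 0) (nat_lit 6497184010) (nat_lit 684) (nat_lit 3700774625) (nat_lit 760) (nat_lit 233557789) (nat_lit 169) (nat_lit 5) (nat_lit 178) (nat_lit 5) (nat_lit 179) (nat_lit 5) (nat_lit 415) (nat_lit 408) (nat_lit 377)) (XT.lf (nat_lit 0) (nat_lit 2317835046) (nat_lit 836) (nat_lit 5242752957) (nat_lit 76) (nat_lit 3270278670) (nat_lit 158) (nat_lit 5) (nat_lit 169) (nat_lit 5) (nat_lit 159) (nat_lit 5) (nat_lit 416) (nat_lit 408) (nat_lit 376))) (XT.nd (nat_lit 78) (nat_lit 380) (nat_lit 0) (XT.lf (nat_lit 0) (nat_lit 4733450001) (nat_lit 456) (nat_lit 428668383) (nat_lit 532) (nat_lit 6095015100) (nat_lit 152) (nat_lit 5) (nat_lit 158) (nat_lit 5) (nat_lit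 159) (nat_lit 5) (nat_lit 417) (nat_lit 408) (nat_lit 375)) (XT.lf (nat_lit 0) (nat_lit 3886023707) (nat_lit 380) (nat_lit 4512427225) (nat_lit 456) (nat_lit 3310832855) (nat_lit 147) (nat_lit 5) (nat_lit 152) (nat_lit 5) (nat_lit 153) (nat_lit 5) (nat_lit 418) (nat_lit 408) (nat_lit 374)))) (XT.nd (nat_lit 156) (nat_lit 608) (nat_lit 0) (XT.nd (nat_lit 78) (nat_lit 380) (nat_lit 0) (XT.lf (nat_lit 0) (nat_lit 3104129128) (nat_lit 380) (nat_lit 8914320430) (nat_lit 456) (nat_lit 172925503) (nat_lit 142) (nat_lit 5) (nat_lit 147) (nat_lit 5) (nat_lit 148) (nat_lit 5) (nat_lit 419) (nat_lit 408) (nat_lit 373)) (XT.lf (nat_lit 0) (nat_lit 2321637408) (nat_lit 304) (nat_lit 949776360) (nat_lit 380) (nat_lit 9430198827) (nat_lit 137) (nat_lit 5) (nat_lit 141) (nat_lit 5) (nat_lit 142) (nat_lit 5) (nat_lit 420) (nat_lit 408) (nat_lit 372))) (XT.nd (nat_lit 78) (nat_lit 304) (nat_lit 0) (XT.lf (nat_lit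 0) (nat_lit 1543762774) (nat_lit 304) (nat_lit 5658614487) (nat_lit 380) (nat_lit 6039299003) (nat_lit 133) (nat_lit 5) (nat_lit 137) (nat_lit 5) (nat_lit 138) (nat_lit 5) (nat_lit 421) (nat_lit 408) (nat_lit 371)) (XT.lf (nat_lit 0) (nat_lit 835238847) (nat_lit 304) (nat_lit 10788335704) (nat_lit 380) (nat_lit 2192587874) (nat_lit 129) (nat_lit 5) (nat_lit 133) (nat_lit 5) (nat_lit 134) (nat_lit 5) (nat_lit 422) (nat_lit 408) (nat_lit 370))))))) (XT.nd (nat_lit 1248) (nat_lit 2128) (nat_lit 0) (XT.nd (nat_lit 624) (nat_lit 1520) (nat_lit 0) (XT.nd (nat_lit 312) (nat_lit 912) (nat_lit 0) (XT.nd (nat_lit 156) (nat_lit 608) (nat_lit 0) (XT.nd (nat_lit 78) (nat_lit 0) (nat_lit 0) (XT.lf (nat_lit 0) (nat_lit 136159076) (nat_lit 304) (nat_lit 1988126245) (nat_lit 380) (nat_lit 12299534414) (nat_lit 124) (nat_lit 5) (nat_lit 128) (nat_lit 5) (nat_lit 129) (nat_lit 5) (nat_lit 423) (nat_lit 408) (nat_lit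 369)) (XT.lf (nat_lit 0) (nat_lit 6982491480) (nat_lit 380) (nat_lit 560844592) (nat_lit 76) (nat_lit 7521320594) (nat_lit 124) (nat_lit 5) (nat_lit 129) (nat_lit 5) (nat_lit 125) (nat_lit 5) (nat_lit 424) (nat_lit 408) (nat_lit 368))) (XT.nd (nat_lit 78) (nat_lit 380) (nat_lit 0) (XT.lf (nat_lit 0) (nat_lit 12455193748) (nat_lit 304) (nat_lit 1175992478) (nat_lit 76) (nat_lit 2114286300) (nat_lit 121) (nat_lit 5) (nat_lit 125) (nat_lit 5) (nat_lit 122) (nat_lit 5) (nat_lit 425) (nat_lit 408) (nat_lit 367)) (XT.lf (nat_lit 0) (nat_lit 2129819530) (nat_lit 380) (nat_lit 1798603806) (nat_lit 76) (nat_lit 12535602760) (nat_lit 116) (nat_lit 5) (nat_lit 121) (nat_lit 5) (nat_lit 117) (nat_lit 5) (nat_lit 426) (nat_lit 408) (nat_lit 366)))) (XT.nd (nat_lit 156) (nat_lit 456) (nat_lit 0) (XT.nd (nat_lit 78) (nat_lit 228) (nat_lit 0) (XT.lf (nat_lit 0) (nat_lit 8166443651) (nat_lit 304) (nat_lit 2426099517)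 (nat_lit 76) (nat_lit 6629917400) (nat_lit 113) (nat_lit 5) (nat_lit 117) (nat_lit 5) (nat_lit 114) (nat_lit 5) (nat_lit 427) (nat_lit 408) (nat_lit 365)) (XT.lf (nat_lit 0) (nat_lit 14960238066) (nat_lit 304) (nat_lit 2959501432) (nat_lit 76) (nat_lit 108121272) (nat_lit 110) (nat_lit 5) (nat_lit 114) (nat_lit 5) (nat_lit 111) (nat_lit 5) (nat_lit 428) (nat_lit 408) (nat_lit 364))) (XT.nd (nat_lit 78) (nat_lit 228) (nat_lit 0) (XT.lf (nat_lit 0) (nat_lit 3701205269) (nat_lit 228) (nat_lit 3558016985) (nat_lit 76) (nat_lit 11615310395) (nat_lit 107) (nat_lit 5) (nat_lit 110) (nat_lit 5) (nat_lit 108) (nat_lit 5) (nat_lit 429) (nat_lit 408) (nat_lit 363)) (XT.lf (nat_lit 0) (nat_lit 11219328377) (nat_lit 304) (nat_lit 4106032802) (nat_lit 76) (nat_lit 4445301925) (nat_lit 104) (nat_lit 5) (nat_lit 108) (nat_lit 5) (nat_lit 105) (nat_lit 5) (nat_lit 430) (nat_lit 408) (nat_lit 362))))) (XT.nd (nat_lit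 312) (nat_lit 684) (nat_lit 0) (XT.nd (nat_lit 156) (nat_lit 380) (nat_lit 0) (XT.nd (nat_lit 78) (nat_lit 304) (nat_lit 0) (XT.lf (nat_lit 0) (nat_lit 16125724614) (nat_lit 152) (nat_lit 3596762099) (nat_lit 228) (nat_lit 996820275) (nat_lit 102) (nat_lit 5) (nat_lit 104) (nat_lit 5) (nat_lit 105) (nat_lit 5) (nat_lit 431) (nat_lit 408) (nat_lit 361)) (XT.lf (nat_lit 0) (nat_lit 7363358696) (nat_lit 304) (nat_lit 5149781755) (nat_lit 76) (nat_lit 9203586243) (nat_lit 98) (nat_lit 5) (nat_lit 102) (nat_lit 5) (nat_lit 99) (nat_lit 5) (nat_lit 432) (nat_lit 408) (nat_lit 360))) (XT.nd (nat_lit 78) (nat_lit 228) (nat_lit 0) (XT.lf (nat_lit 0) (nat_lit 16725926973) (nat_lit 228) (nat_lit 5596925532) (nat_lit 76) (nat_lit 451847318) (nat_lit 96) (nat_lit 5) (nat_lit 99) (nat_lit 5) (nat_lit 97) (nat_lit 5) (nat_lit 433) (nat_lit 408) (nat_lit 359)) (XT.lf (nat_lit 0) (nat_lit 3368670298) (nat_lit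 228) (nat_lit 6102432205) (nat_lit 76) (nat_lit 14416833073) (nat_lit 93) (nat_lit 5) (nat_lit 96) (nat_lit 5) (nat_lit 94) (nat_lit 5) (nat_lit 434) (nat_lit 408) (nat_lit 358)))) (XT.nd (nat_lit 156) (nat_lit 380) (nat_lit 0) (XT.nd (nat_lit 78) (nat_lit 152) (nat_lit 0) (XT.lf (nat_lit 0) (nat_lit 13749864789) (nat_lit 228) (nat_lit 6577441746) (nat_lit 76) (nat_lit 4736853380) (nat_lit 91) (nat_lit 5) (nat_lit 94) (nat_lit 5) (nat_lit 92) (nat_lit 5) (nat_lit 435) (nat_lit 408) (nat_lit 357)) (XT.lf (nat_lit 0) (nat_lit 19313305322) (nat_lit 152) (nat_lit 6173385471) (nat_lit 228) (nat_lit 821536008) (nat_lit 89) (nat_lit 5) (nat_lit 91) (nat_lit 5) (nat_lit 92) (nat_lit 5) (nat_lit 436) (nat_lit 408) (nat_lit 356))) (XT.nd (nat_lit 78) (nat_lit 152) (nat_lit 0) (XT.lf (nat_lit 0) (nat_lit 10716123383) (nat_lit 228) (nat_lit 7501975428) (nat_lit 76) (nat_lit 9398422137) (nat_lit 86) (nat_lit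 5) (nat_lit 89) (nat_lit 5) (nat_lit 87) (nat_lit 5) (nat_lit 437) (nat_lit 408) (nat_lit 355)) (XT.lf (nat_lit 0) (nat_lit 21102971616) (nat_lit 152) (nat_lit 2561764216) (nat_lit 228) (nat_lit 5338234397) (nat_lit 84) (nat_lit 5) (nat_lit 86) (nat_lit 5) (nat_lit 87) (nat_lit 5) (nat_lit 438) (nat_lit 408) (nat_lit 354)))))) (XT.nd (nat_lit 624) (nat_lit 912) (nat_lit 0) (XT.nd (nat_lit 312) (nat_lit 608) (nat_lit 0) (XT.nd (nat_lit 156) (nat_lit 304) (nat_lit 0) (XT.nd (nat_lit 78) (nat_lit 152) (nat_lit 0) (XT.lf (nat_lit 0) (nat_lit 7594583124) (nat_lit 152) (nat_lit 8405411098) (nat_lit 76) (nat_lit 14461036978) (nat_lit 82) (nat_lit 5) (nat_lit 84) (nat_lit 5) (nat_lit 83) (nat_lit 5) (nat_lit 439) (nat_lit 408) (nat_lit 353)) (XT.lf (nat_lit 0) (nat_lit 21905013562) (nat_lit 228) (nat_lit 8826697367) (nat_lit 76) (nat_lit 1273150783) (nat_lit 80) (nat_lit 5) (nat_lit 83) (nat_lit 5) (nat_lit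 81) (nat_lit 4) (nat_lit 440) (nat_lit 408) (nat_lit 352))) (XT.nd (nat_lit 78) (nat_lit 152) (nat_lit 0) (XT.lf (nat_lit 0) (nat_lit 4344604607) (nat_lit 152) (nat_lit 9339527786) (nat_lit 76) (nat_lit 19946459710) (nat_lit 78) (nat_lit 5) (nat_lit 80) (nat_lit 5) (nat_lit 79) (nat_lit 5) (nat_lit 441) (nat_lit 408) (nat_lit 351)) (XT.lf (nat_lit 0) (nat_lit 20200555444) (nat_lit 228) (nat_lit 9861595599) (nat_lit 76) (nat_lit 5285462511) (nat_lit 76) (nat_lit 5) (nat_lit 79) (nat_lit 5) (nat_lit 77) (nat_lit 4) (nat_lit 442) (nat_lit 408) (nat_lit 350)))) (XT.nd (nat_lit 156) (nat_lit 304) (nat_lit 0) (XT.nd (nat_lit 78) (nat_lit 152) (nat_lit 0) (XT.lf (nat_lit 0) (nat_lit 911794775) (nat_lit 152) (nat_lit 10379567942) (nat_lit 76) (nat_lit 25870901394) (nat_lit 74) (nat_lit 5) (nat_lit 76) (nat_lit 5) (nat_lit 75) (nat_lit 5) (nat_lit 443) (nat_lit 408) (nat_lit 349)) (XT.lf (nat_lit 0) (nat_lit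 18466905609) (nat_lit 228) (nat_lit 11055200460) (nat_lit 76) (nat_lit 9550454199) (nat_lit 72) (nat_lit 5) (nat_lit 75) (nat_lit 5) (nat_lit 73) (nat_lit 4) (nat_lit 444) (nat_lit 408) (nat_lit 348))) (XT.nd (nat_lit 78) (nat_lit 228) (nat_lit 0) (XT.lf (nat_lit 0) (nat_lit 29417997981) (nat_lit 76) (nat_lit 8809559783) (nat_lit 152) (nat_lit 2868066306) (nat_lit 71) (nat_lit 5) (nat_lit 72) (nat_lit 5) (nat_lit 73) (nat_lit 4) (nat_lit 445) (nat_lit 408) (nat_lit 347)) (XT.lf (nat_lit 0) (nat_lit 16641014591) (nat_lit 228) (nat_lit 12535402935) (nat_lit 76) (nat_lit 14047709472) (nat_lit 68) (nat_lit 5) (nat_lit 71) (nat_lit 5) (nat_lit 69) (nat_lit 4) (nat_lit 446) (nat_lit 408) (nat_lit 346))))) (XT.nd (nat_lit 312) (nat_lit 456) (nat_lit 0) (XT.nd (nat_lit 156) (nat_lit 228) (nat_lit 0) (XT.nd (nat_lit 78) (nat_lit 152) (nat_lit 0) (XT.lf (nat_lit 0) (nat_lit 32119210482) (nat_lit 76) (nat_lit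 6318936283) (nat_lit 152) (nat_lit 7041022593) (nat_lit 67) (nat_lit 5) (nat_lit 68) (nat_lit 5) (nat_lit 69) (nat_lit 4) (nat_lit 447) (nat_lit 408) (nat_lit 345)) (XT.lf (nat_lit 0) (nat_lit 14635036635) (nat_lit 152) (nat_lit 14480376979) (nat_lit 76) (nat_lit 18737185049) (nat_lit 65) (nat_lit 5) (nat_lit 67) (nat_lit 5) (nat_lit 66) (nat_lit 4) (nat_lit 448) (nat_lit 408) (nat_lit 344))) (XT.nd (nat_lit 78) (nat_lit 152) (nat_lit 0) (XT.lf (nat_lit 0) (nat_lit 34744456513) (nat_lit 76) (nat_lit 3914446848) (nat_lit 152) (nat_lit 11708207709) (nat_lit 64) (nat_lit 5) (nat_lit 65) (nat_lit 5) (nat_lit 66) (nat_lit 4) (nat_lit 449) (nat_lit 408) (nat_lit 343)) (XT.lf (nat_lit 0) (nat_lit 12328180915) (nat_lit 152) (nat_lit 17135423397) (nat_lit 76) (nat_lit 23551433116) (nat_lit 62) (nat_lit 5) (nat_lit 64) (nat_lit 5) (nat_lit 63) (nat_lit 4) (nat_lit 450) (nat_lit 408) (nat_lit 342)))) (XT.nd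 (nat_lit 156) (nat_lit 228) (nat_lit 0) (XT.nd (nat_lit 78) (nat_lit 152) (nat_lit 0) (XT.lf (nat_lit 0) (nat_lit 37065718890) (nat_lit 76) (nat_lit 1711639966) (nat_lit 152) (nat_lit 17042838617) (nat_lit 61) (nat_lit 5) (nat_lit 62) (nat_lit 5) (nat_lit 63) (nat_lit 4) (nat_lit 451) (nat_lit 408) (nat_lit 341)) (XT.lf (nat_lit 0) (nat_lit 9556051096) (nat_lit 152) (nat_lit 20834935289) (nat_lit 76) (nat_lit 28385395979) (nat_lit 59) (nat_lit 5) (nat_lit 61) (nat_lit 5) (nat_lit 60) (nat_lit 4) (nat_lit 452) (nat_lit 408) (nat_lit 340))) (XT.nd (nat_lit 78) (nat_lit 152) (nat_lit 0) (XT.lf (nat_lit 0) (nat_lit 38636651454) (nat_lit 152) (nat_lit 23149390584) (nat_lit 0) (nat_lit 121505847) (nat_lit 58) (nat_lit 5) (nat_lit 60) (nat_lit 4) (nat_lit 58) (nat_lit 4) (nat_lit 453) (nat_lit 408) (nat_lit 339)) (XT.lf (nat_lit 0) (nat_lit 6096737879) (nat_lit 152) (nat_lit 26030997723) (nat_lit 76)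 (nat_lit 33083038814) (nat_lit 56) (nat_lit 5) (nat_lit 58) (nat_lit 5) (nat_lit 57) (nat_lit 4) (nat_lit 454) (nat_lit 408) (nat_lit 338))))))))
noncomputable def xc59 : XT := (XT.nd (nat_lit 2496) (nat_lit 912) (nat_lit 0) (XT.nd (nat_lit 1248) (nat_lit 1216) (nat_lit 0) (XT.nd (nat_lit 624) (nat_lit 836) (nat_lit 0) (XT.nd (nat_lit 312) (nat_lit 456) (nat_lit 0) (XT.nd (nat_lit 156) (nat_lit 152) (nat_lit 0) (XT.nd (nat_lit 78) (nat_lit 152) (nat_lit 0) (XT.lf (nat_lit 0) (nat_lit 38031804401) (nat_lit 152) (nat_lit 29350982247) (nat_lit 0) (nat_lit 1324732110) (nat_lit 55) (nat_lit 5) (nat_lit 57) (nat_lit 4) (nat_lit 55) (nat_lit 4) (nat_lit 455) (nat_lit 408) (nat_lit 337)) (XT.lf (nat_lit 0) (nat_lit 1652715320) (nat_lit 152) (nat_lit 33330571606) (nat_lit 76) (nat_lit 37419874121) (nat_lit 53) (nat_lit 5) (nat_lit 55) (nat_lit 5) (nat_lit 54) (nat_lit 4) (nat_lit 456) (nat_lit 408) (nat_lit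 336))) (XT.nd (nat_lit 78) (nat_lit 76) (nat_lit 0) (XT.lf (nat_lit 0) (nat_lit 36629137861) (nat_lit 152) (nat_lit 38034543322) (nat_lit 0) (nat_lit 1648807371) (nat_lit 52) (nat_lit 5) (nat_lit 54) (nat_lit 4) (nat_lit 52) (nat_lit 4) (nat_lit 457) (nat_lit 408) (nat_lit 335)) (XT.lf (nat_lit 0) (nat_lit 36836808115) (nat_lit 76) (nat_lit 39300425202) (nat_lit 76) (nat_lit 4310651149) (nat_lit 51) (nat_lit 4) (nat_lit 52) (nat_lit 5) (nat_lit 52) (nat_lit 4) (nat_lit 458) (nat_lit 408) (nat_lit 334)))) (XT.nd (nat_lit 156) (nat_lit 228) (nat_lit 0) (XT.nd (nat_lit 78) (nat_lit 76) (nat_lit 0) (XT.lf (nat_lit 0) (nat_lit 34012377729) (nat_lit 152) (nat_lit 50134558140) (nat_lit 0) (nat_lit 680455735) (nat_lit 49) (nat_lit 5) (nat_lit 51) (nat_lit 4) (nat_lit 49) (nat_lit 4) (nat_lit 459) (nat_lit 408) (nat_lit 333)) (XT.lf (nat_lit 0) (nat_lit 31519765740) (nat_lit 76) (nat_lit 45639081034)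 (nat_lit 76) (nat_lit 12299448245) (nat_lit 48) (nat_lit 4) (nat_lit 49) (nat_lit 5) (nat_lit 49) (nat_lit 4) (nat_lit 460) (nat_lit 408) (nat_lit 332))) (XT.nd (nat_lit 78) (nat_lit 76) (nat_lit 0) (XT.lf (nat_lit 0) (nat_lit 27448240018) (nat_lit 76) (nat_lit 2207863606) (nat_lit 152) (nat_lit 64715874521) (nat_lit 46) (nat_lit 5) (nat_lit 47) (nat_lit 5) (nat_lit 48) (nat_lit 4) (nat_lit 461) (nat_lit 408) (nat_lit 331)) (XT.lf (nat_lit 0) (nat_lit 21845822968) (nat_lit 76) (nat_lit 54742705646) (nat_lit 76) (nat_lit 22977578812) (nat_lit 45) (nat_lit 4) (nat_lit 46) (nat_lit 5) (nat_lit 46) (nat_lit 4) (nat_lit 462) (nat_lit 408) (nat_lit 330))))) (XT.nd (nat_lit 312) (nat_lit 456) (nat_lit 0) (XT.nd (nat_lit 156) (nat_lit 152) (nat_lit 0) (XT.nd (nat_lit 78) (nat_lit 76) (nat_lit 0) (XT.lf (nat_lit 0) (nat_lit 15031866791) (nat_lit 76) (nat_lit 7798778683) (nat_lit 152) (nat_lit 82255959897)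 (nat_lit 43) (nat_lit 5) (nat_lit 44) (nat_lit 5) (nat_lit 45) (nat_lit 4) (nat_lit 463) (nat_lit 408) (nat_lit 329)) (XT.lf (nat_lit 0) (nat_lit 6077423378) (nat_lit 76) (nat_lit 67554504563) (nat_lit 76) (nat_lit 37291310080) (nat_lit 42) (nat_lit 4) (nat_lit 43) (nat_lit 5) (nat_lit 43) (nat_lit 4) (nat_lit 464) (nat_lit 408) (nat_lit 328))) (XT.nd (nat_lit 78) (nat_lit 76) (nat_lit 0) (XT.lf (nat_lit 0) (nat_lit 12618156737) (nat_lit 152) (nat_lit 4400733114) (nat_lit 76) (nat_lit 100113694707) (nat_lit 41) (nat_lit 5) (nat_lit 43) (nat_lit 5) (nat_lit 42) (nat_lit 4) (nat_lit 465) (nat_lit 408) (nat_lit 327)) (XT.lf (nat_lit 0) (nat_lit 67506949783) (nat_lit 152) (nat_lit 17510379681) (nat_lit 0) (nat_lit 38676129040) (nat_lit 40) (nat_lit 5) (nat_lit 42) (nat_lit 4) (nat_lit 40) (nat_lit 4) (nat_lit 466) (nat_lit 408) (nat_lit 326)))) (XT.nd (nat_lit 156) (nat_lit 228) (nat_lit 0) (XT.nd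 (nat_lit 78) (nat_lit 152) (nat_lit 0) (XT.lf (nat_lit 0) (nat_lit 97805866779) (nat_lit 76) (nat_lit 30857118012) (nat_lit 76) (nat_lit 2022410712) (nat_lit 39) (nat_lit 4) (nat_lit 40) (nat_lit 5) (nat_lit 40) (nat_lit 4) (nat_lit 467) (nat_lit 408) (nat_lit 325)) (XT.lf (nat_lit 0) (nat_lit 56787059080) (nat_lit 152) (nat_lit 51977546614) (nat_lit 0) (nat_lit 29322005783) (nat_lit 37) (nat_lit 5) (nat_lit 39) (nat_lit 4) (nat_lit 37) (nat_lit 4) (nat_lit 468) (nat_lit 408) (nat_lit 324))) (XT.nd (nat_lit 78) (nat_lit 152) (nat_lit 0) (XT.lf (nat_lit 0) (nat_lit 71432077742) (nat_lit 76) (nat_lit 51002114006) (nat_lit 76) (nat_lit 23533887285) (nat_lit 36) (nat_lit 4) (nat_lit 37) (nat_lit 5) (nat_lit 37) (nat_lit 4) (nat_lit 469) (nat_lit 408) (nat_lit 323)) (XT.lf (nat_lit 0) (nat_lit 39561808430) (nat_lit 152) (nat_lit 101391515453) (nat_lit 0) (nat_lit 13398794071) (nat_lit 34) (nat_lit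 5) (nat_lit 36) (nat_lit 4) (nat_lit 34) (nat_lit 4) (nat_lit 470) (nat_lit 408) (nat_lit 322)))))) (XT.nd (nat_lit 624) (nat_lit 532) (nat_lit 0) (XT.nd (nat_lit 312) (nat_lit 380) (nat_lit 0) (XT.nd (nat_lit 156) (nat_lit 76) (nat_lit 0) (XT.nd (nat_lit 78) (nat_lit 152) (nat_lit 0) (XT.lf (nat_lit 0) (nat_lit 29618144644) (nat_lit 76) (nat_lit 79901549237) (nat_lit 76) (nat_lit 53735943735) (nat_lit 33) (nat_lit 4) (nat_lit 34) (nat_lit 5) (nat_lit 34) (nat_lit 4) (nat_lit 471) (nat_lit 408) (nat_lit 321)) (XT.lf (nat_lit 0) (nat_lit 1755239518) (nat_lit 76) (nat_lit 11865855226) (nat_lit 152) (nat_lit 159150373758) (nat_lit 31) (nat_lit 5) (nat_lit 32) (nat_lit 5) (nat_lit 33) (nat_lit 4) (nat_lit 472) (nat_lit 408) (nat_lit 320))) (XT.nd (nat_lit 78) (nat_lit 76) (nat_lit 0) (XT.lf (nat_lit 0) (nat_lit 87823953820) (nat_lit 152) (nat_lit 32113642183) (nat_lit 0) (nat_lit 62899928873) (nat_lit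 31) (nat_lit 5) (nat_lit 33) (nat_lit 4) (nat_lit 31) (nat_lit 4) (nat_lit 473) (nat_lit 408) (nat_lit 319)) (XT.lf (nat_lit 0) (nat_lit 121567148314) (nat_lit 76) (nat_lit 48481705403) (nat_lit 76) (nat_lit 23555721472) (nat_lit 30) (nat_lit 4) (nat_lit 31) (nat_lit 5) (nat_lit 31) (nat_lit 4) (nat_lit 474) (nat_lit 408) (nat_lit 318)))) (XT.nd (nat_lit 156) (nat_lit 152) (nat_lit 0) (XT.nd (nat_lit 78) (nat_lit 76) (nat_lit 0) (XT.lf (nat_lit 0) (nat_lit 54284382471) (nat_lit 152) (nat_lit 120244039403) (nat_lit 0) (nat_lit 30543622657) (nat_lit 28) (nat_lit 5) (nat_lit 30) (nat_lit 4) (nat_lit 28) (nat_lit 4) (nat_lit 475) (nat_lit 408) (nat_lit 317)) (XT.lf (nat_lit 0) (nat_lit 39424011907) (nat_lit 76) (nat_lit 100810278622) (nat_lit 76) (nat_lit 77067919273) (nat_lit 27) (nat_lit 4) (nat_lit 28) (nat_lit 5) (nat_lit 28) (nat_lit 4) (nat_lit 476) (nat_lit 408) (nat_lit 316))) (XT.nd (nat_lit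 78) (nat_lit 76) (nat_lit 0) (XT.lf (nat_lit 0) (nat_lit 4585457072) (nat_lit 152) (nat_lit 14343653402) (nat_lit 76) (nat_lit 211473805130) (nat_lit 26) (nat_lit 5) (nat_lit 28) (nat_lit 5) (nat_lit 27) (nat_lit 4) (nat_lit 477) (nat_lit 408) (nat_lit 315)) (XT.lf (nat_lit 0) (nat_lit 93841530051) (nat_lit 152) (nat_lit 79231409192) (nat_lit 0) (nat_lit 71227042674) (nat_lit 25) (nat_lit 5) (nat_lit 27) (nat_lit 4) (nat_lit 25) (nat_lit 4) (nat_lit 478) (nat_lit 408) (nat_lit 314))))) (XT.nd (nat_lit 312) (nat_lit 228) (nat_lit 0) (XT.nd (nat_lit 156) (nat_lit 76) (nat_lit 0) (XT.nd (nat_lit 78) (nat_lit 152) (nat_lit 0) (XT.lf (nat_lit 0) (nat_lit 103002548710) (nat_lit 76) (nat_lit 89406701720) (nat_lit 76) (nat_lit 66791005046) (nat_lit 24) (nat_lit 4) (nat_lit 25) (nat_lit 5) (nat_lit 25) (nat_lit 4) (nat_lit 479) (nat_lit 408) (nat_lit 313)) (XT.lf (nat_lit 0) (nat_lit 24694936498) (nat_lit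 152) (nat_lit 247330129471) (nat_lit 0) (nat_lit 3155111360) (nat_lit 22) (nat_lit 5) (nat_lit 24) (nat_lit 4) (nat_lit 22) (nat_lit 4) (nat_lit 480) (nat_lit 408) (nat_lit 312))) (XT.nd (nat_lit 78) (nat_lit 76) (nat_lit 0) (XT.lf (nat_lit 0) (nat_lit 125454467580) (nat_lit 152) (nat_lit 62800886322) (nat_lit 0) (nat_lit 103913655034) (nat_lit 22) (nat_lit 5) (nat_lit 24) (nat_lit 4) (nat_lit 22) (nat_lit 4) (nat_lit 481) (nat_lit 408) (nat_lit 311)) (XT.lf (nat_lit 0) (nat_lit 140985094061) (nat_lit 76) (nat_lit 95481982045) (nat_lit 76) (nat_lit 73940255233) (nat_lit 21) (nat_lit 4) (nat_lit 22) (nat_lit 5) (nat_lit 22) (nat_lit 4) (nat_lit 482) (nat_lit 408) (nat_lit 310)))) (XT.nd (nat_lit 156) (nat_lit 76) (nat_lit 0) (XT.nd (nat_lit 78) (nat_lit 0) (nat_lit 0) (XT.lf (nat_lit 0) (nat_lit 27155341876) (nat_lit 152) (nat_lit 296203289698) (nat_lit 0) (nat_lit 6638605347) (nat_lit 19) (nat_lit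 5) (nat_lit 21) (nat_lit 4) (nat_lit 19) (nat_lit 4) (nat_lit 483) (nat_lit 408) (nat_lit 309)) (XT.lf (nat_lit 0) (nat_lit 138383954467) (nat_lit 152) (nat_lit 94611508596) (nat_lit 0) (nat_lit 117866471428) (nat_lit 19) (nat_lit 5) (nat_lit 21) (nat_lit 4) (nat_lit 19) (nat_lit 4) (nat_lit 484) (nat_lit 408) (nat_lit 308))) (XT.nd (nat_lit 78) (nat_lit 0) (nat_lit 0) (XT.lf (nat_lit 0) (nat_lit 127161822914) (nat_lit 76) (nat_lit 133326639451) (nat_lit 76) (nat_lit 112808465198) (nat_lit 18) (nat_lit 4) (nat_lit 19) (nat_lit 5) (nat_lit 19) (nat_lit 4) (nat_lit 485) (nat_lit 408) (nat_lit 307)) (XT.lf (nat_lit 0) (nat_lit 370040487950) (nat_lit 76) (nat_lit 23961506611) (nat_lit 76) (nat_lit 3442692346) (nat_lit 18) (nat_lit 4) (nat_lit 19) (nat_lit 5) (nat_lit 19) (nat_lit 4) (nat_lit 486) (nat_lit 408) (nat_lit 306))))))) (XT.nd (nat_lit 1248) (nat_lit 76) (nat_lit 0) (XT.nd (nat_lit 624)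 (nat_lit 380) (nat_lit 0) (XT.nd (nat_lit 312) (nat_lit 76) (nat_lit 0) (XT.nd (nat_lit 156) (nat_lit 152) (nat_lit 0) (XT.nd (nat_lit 78) (nat_lit 76) (nat_lit 0) (XT.lf (nat_lit 0) (nat_lit 115888147556) (nat_lit 152) (nat_lit 210956444507) (nat_lit 0) (nat_lit 96345855299) (nat_lit 16) (nat_lit 5) (nat_lit 18) (nat_lit 4) (nat_lit 16) (nat_lit 4) (nat_lit 487) (nat_lit 408) (nat_lit 305)) (XT.lf (nat_lit 0) (nat_lit 21246152879) (nat_lit 76) (nat_lit 224614460034) (nat_lit 76) (nat_lit 205071645198) (nat_lit 15) (nat_lit 4) (nat_lit 16) (nat_lit 5) (nat_lit 16) (nat_lit 4) (nat_lit 488) (nat_lit 408) (nat_lit 304))) (XT.nd (nat_lit 78) (nat_lit 152) (nat_lit 0) (XT.lf (nat_lit 0) (nat_lit 279544942792) (nat_lit 76) (nat_lit 110354178671) (nat_lit 76) (nat_lit 90810879966) (nat_lit 15) (nat_lit 4) (nat_lit 16) (nat_lit 5) (nat_lit 16) (nat_lit 4) (nat_lit 489) (nat_lit 408) (nat_lit 303)) (XT.lf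 (nat_lit 0) (nat_lit 32493096574) (nat_lit 152) (nat_lit 466424148678) (nat_lit 0) (nat_lit 13880004448) (nat_lit 13) (nat_lit 5) (nat_lit 15) (nat_lit 4) (nat_lit 13) (nat_lit 4) (nat_lit 490) (nat_lit 408) (nat_lit 302)))) (XT.nd (nat_lit 156) (nat_lit 0) (nat_lit 0) (XT.nd (nat_lit 78) (nat_lit 76) (nat_lit 0) (XT.lf (nat_lit 0) (nat_lit 167938812616) (nat_lit 152) (nat_lit 229839955059) (nat_lit 0) (nat_lit 149325325405) (nat_lit 13) (nat_lit 5) (nat_lit 15) (nat_lit 4) (nat_lit 13) (nat_lit 4) (nat_lit 491) (nat_lit 408) (nat_lit 301)) (XT.lf (nat_lit 0) (nat_lit 26508214864) (nat_lit 76) (nat_lit 288120351539) (nat_lit 76) (nat_lit 269506498508) (nat_lit 12) (nat_lit 4) (nat_lit 13) (nat_lit 5) (nat_lit 13) (nat_lit 4) (nat_lit 492) (nat_lit 408) (nat_lit 300))) (XT.nd (nat_lit 78) (nat_lit 0) (nat_lit 0) (XT.lf (nat_lit 0) (nat_lit 311561047627) (nat_lit 76) (nat_lit 165490868910) (nat_lit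 76) (nat_lit 146876677157) (nat_lit 12) (nat_lit 4) (nat_lit 13) (nat_lit 5) (nat_lit 13) (nat_lit 4) (nat_lit 493) (nat_lit 408) (nat_lit 299)) (XT.lf (nat_lit 0) (nat_lit 619408198300) (nat_lit 76) (nat_lit 33056077409) (nat_lit 76) (nat_lit 14441572024) (nat_lit 12) (nat_lit 4) (nat_lit 13) (nat_lit 5) (nat_lit 13) (nat_lit 4) (nat_lit 494) (nat_lit 408) (nat_lit 298))))) (XT.nd (nat_lit 312) (nat_lit 152) (nat_lit 0) (XT.nd (nat_lit 156) (nat_lit 76) (nat_lit 0) (XT.nd (nat_lit 78) (nat_lit 0) (nat_lit 0) (XT.lf (nat_lit 0) (nat_lit 130095755950) (nat_lit 152) (nat_lit 470476613697) (nat_lit 0) (nat_lit 112367379013) (nat_lit 10) (nat_lit 5) (nat_lit 12) (nat_lit 4) (nat_lit 10) (nat_lit 4) (nat_lit 495) (nat_lit 408) (nat_lit 297)) (XT.lf (nat_lit 0) (nat_lit 287090755515) (nat_lit 152) (nat_lit 206121613919) (nat_lit 0) (nat_lit 269362122494) (nat_lit 10) (nat_lit 5) (nat_lit 12) (nat_lit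 4) (nat_lit 10) (nat_lit 4) (nat_lit 496) (nat_lit 408) (nat_lit 296))) (XT.nd (nat_lit 78) (nat_lit 0) (nat_lit 0) (XT.lf (nat_lit 0) (nat_lit 81997831959) (nat_lit 76) (nat_lit 375923623899) (nat_lit 76) (nat_lit 358194753762) (nat_lit 9) (nat_lit 4) (nat_lit 10) (nat_lit 5) (nat_lit 10) (nat_lit 4) (nat_lit 497) (nat_lit 408) (nat_lit 295)) (XT.lf (nat_lit 0) (nat_lit 400519338166) (nat_lit 76) (nat_lit 245485843881) (nat_lit 76) (nat_lit 227756754193) (nat_lit 9) (nat_lit 4) (nat_lit 10) (nat_lit 5) (nat_lit 10) (nat_lit 4) (nat_lit 498) (nat_lit 408) (nat_lit 294)))) (XT.nd (nat_lit 156) (nat_lit 0) (nat_lit 0) (XT.nd (nat_lit 78) (nat_lit 152) (nat_lit 0) (XT.lf (nat_lit 0) (nat_lit 744515128124) (nat_lit 76) (nat_lit 104616834027) (nat_lit 76) (nat_lit 86887541051) (nat_lit 9) (nat_lit 4) (nat_lit 10) (nat_lit 5) (nat_lit 10) (nat_lit 4) (nat_lit 499) (nat_lit 408) (nat_lit 293)) (XT.lf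 (nat_lit 0) (nat_lit 65749845936) (nat_lit 152) (nat_lit 888462911986) (nat_lit 0) (nat_lit 48864625740) (nat_lit 7) (nat_lit 5) (nat_lit 9) (nat_lit 4) (nat_lit 7) (nat_lit 4) (nat_lit 500) (nat_lit 408) (nat_lit 292))) (XT.nd (nat_lit 78) (nat_lit 0) (nat_lit 0) (XT.lf (nat_lit 0) (nat_lit 232746071255) (nat_lit 152) (nat_lit 626562320762) (nat_lit 0) (nat_lit 215860685072) (nat_lit 7) (nat_lit 5) (nat_lit 9) (nat_lit 4) (nat_lit 7) (nat_lit 4) (nat_lit 501) (nat_lit 408) (nat_lit 291)) (XT.lf (nat_lit 0) (nat_lit 413098908149) (nat_lit 152) (nat_lit 343715983890) (nat_lit 0) (nat_lit 396213368274) (nat_lit 7) (nat_lit 5) (nat_lit 9) (nat_lit 4) (nat_lit 7) (nat_lit 4) (nat_lit 502) (nat_lit 408) (nat_lit 290)))))) (XT.nd (nat_lit 55458) (nat_lit 0) (nat_lit 10260) (XT.nd (nat_lit 55146) (nat_lit 0) (nat_lit 12768) (XT.nd (nat_lit 156) (nat_lit 0) (nat_lit 0) (XT.nd (nat_lit 78) (nat_lit 76)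 (nat_lit 0) (XT.lf (nat_lit 0) (nat_lit 607877114172) (nat_lit 152) (nat_lit 38247774929) (nat_lit 0) (nat_lit 590991431990) (nat_lit 7) (nat_lit 5) (nat_lit 9) (nat_lit 4) (nat_lit 7) (nat_lit 4) (nat_lit 503) (nat_lit 408) (nat_lit 289)) (XT.lf (nat_lit 0) (nat_lit 301295836497) (nat_lit 76) (nat_lit 521643166435) (nat_lit 76) (nat_lit 504757352487) (nat_lit 6) (nat_lit 4) (nat_lit 7) (nat_lit 5) (nat_lit 7) (nat_lit 4) (nat_lit 504) (nat_lit 408) (nat_lit 288))) (XT.nd (nat_lit 78) (nat_lit 0) (nat_lit 0) (XT.lf (nat_lit 0) (nat_lit 669363584685) (nat_lit 76) (nat_lit 386505978863) (nat_lit 76) (nat_lit 369620042909) (nat_lit 6) (nat_lit 4) (nat_lit 7) (nat_lit 5) (nat_lit 7) (nat_lit 4) (nat_lit 505) (nat_lit 408) (nat_lit 287)) (XT.lf (nat_lit 0) (nat_lit 1066871967677) (nat_lit 76) (nat_lit 240560257997) (nat_lit 76) (nat_lit 223674209074) (nat_lit 6) (nat_lit 4) (nat_lit 7) (nat_lit 5)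 (nat_lit 7) (nat_lit 4) (nat_lit 506) (nat_lit 408) (nat_lit 286)))) (XT.nd (nat_lit 156) (nat_lit 0) (nat_lit 76) (XT.nd (nat_lit 78) (nat_lit 684) (nat_lit 0) (XT.lf (nat_lit 0) (nat_lit 3668776020) (nat_lit 684) (nat_lit 360016374) (nat_lit 684) (nat_lit 360016374) (nat_lit 183) (nat_lit 3) (nat_lit 192) (nat_lit 3) (nat_lit 192) (nat_lit 5) (nat_lit 409) (nat_lit 409) (nat_lit 382)) (XT.lf (nat_lit 0) (nat_lit 139680223) (nat_lit 684) (nat_lit 2583721024) (nat_lit 760) (nat_lit 6326894971) (nat_lit 174) (nat_lit 5) (nat_lit 183) (nat_lit 3) (nat_lit 184) (nat_lit 5) (nat_lit 410) (nat_lit 409) (nat_lit 381))) (XT.nd (nat_lit 78) (nat_lit 0) (nat_lit 0) (XT.lf (nat_lit 0) (nat_lit 1786526784) (nat_lit 684) (nat_lit 4437339119) (nat_lit 760) (nat_lit 3120196660) (nat_lit 175) (nat_lit 5) (nat_lit 184) (nat_lit 5) (nat_lit 185) (nat_lit 5) (nat_lit 411) (nat_lit 409) (nat_lit 380)) (XT.lf (nat_lit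 76) (nat_lit 3403224573) (nat_lit 0) (nat_lit 167469990) (nat_lit 760) (nat_lit 6090368510) (nat_lit 176) (nat_lit 5) (nat_lit 175) (nat_lit 5) (nat_lit 185) (nat_lit 5) (nat_lit 412) (nat_lit 409) (nat_lit 379))))) (XT.nd (nat_lit 312) (nat_lit 2052) (nat_lit 0) (XT.nd (nat_lit 156) (nat_lit 608) (nat_lit 0) (XT.nd (nat_lit 78) (nat_lit 0) (nat_lit 76) (XT.lf (nat_lit 76) (nat_lit 1897891895) (nat_lit 0) (nat_lit 3677878005) (nat_lit 760) (nat_lit 4423755695) (nat_lit 177) (nat_lit 5) (nat_lit 176) (nat_lit 5) (nat_lit 186) (nat_lit 5) (nat_lit 413) (nat_lit 409) (nat_lit 378)) (XT.lf (nat_lit 76) (nat_lit 438598485) (nat_lit 0) (nat_lit 7348486881) (nat_lit 760) (nat_lit 2575697932) (nat_lit 178) (nat_lit 5) (nat_lit 177) (nat_lit 5) (nat_lit 187) (nat_lit 5) (nat_lit 414) (nat_lit 409) (nat_lit 377))) (XT.nd (nat_lit 78) (nat_lit 684) (nat_lit 0) (XT.lf (nat_lit 76) (nat_lit 9796796038) (nat_lit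 0) (nat_lit 467398222) (nat_lit 760) (nat_lit 486472104) (nat_lit 178) (nat_lit 5) (nat_lit 177) (nat_lit 5) (nat_lit 187) (nat_lit 5) (nat_lit 415) (nat_lit 409) (nat_lit 376)) (XT.lf (nat_lit 0) (nat_lit 1857434563) (nat_lit 760) (nat_lit 2374247986) (nat_lit 76) (nat_lit 6929314429) (nat_lit 168) (nat_lit 5) (nat_lit 178) (nat_lit 5) (nat_lit 169) (nat_lit 5) (nat_lit 416) (nat_lit 409) (nat_lit 375)))) (XT.nd (nat_lit 156) (nat_lit 836) (nat_lit 0) (XT.nd (nat_lit 78) (nat_lit 456) (nat_lit 0) (XT.lf (nat_lit 0) (nat_lit 4474254419) (nat_lit 836) (nat_lit 3770870612) (nat_lit 76) (nat_lit 3353515526) (nat_lit 158) (nat_lit 5) (nat_lit 169) (nat_lit 5) (nat_lit 159) (nat_lit 5) (nat_lit 417) (nat_lit 409) (nat_lit 374)) (XT.lf (nat_lit 0) (nat_lit 6921234878) (nat_lit 456) (nat_lit 507091356) (nat_lit 532) (nat_lit 4636580990) (nat_lit 152) (nat_lit 5) (nat_lit 158) (nat_lit 5) (nat_lit 159)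 (nat_lit 5) (nat_lit 418) (nat_lit 409) (nat_lit 373))) (XT.nd (nat_lit 78) (nat_lit 456) (nat_lit 0) (XT.lf (nat_lit 0) (nat_lit 6016815953) (nat_lit 380) (nat_lit 4797248468) (nat_lit 456) (nat_lit 1744650180) (nat_lit 147) (nat_lit 5) (nat_lit 152) (nat_lit 5) (nat_lit 153) (nat_lit 5) (nat_lit 419) (nat_lit 409) (nat_lit 372)) (XT.lf (nat_lit 0) (nat_lit 1490421170) (nat_lit 456) (nat_lit 7932742900) (nat_lit 76) (nat_lit 3659996380) (nat_lit 141) (nat_lit 5) (nat_lit 147) (nat_lit 5) (nat_lit 142) (nat_lit 5) (nat_lit 420) (nat_lit 409) (nat_lit 371))))))))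
noncomputable def xc60 : XT := (XT.nd (nat_lit 2418) (nat_lit 3116) (nat_lit 0) (XT.nd (nat_lit 1170) (nat_lit 2356) (nat_lit 0) (XT.nd (nat_lit 546) (nat_lit 1748) (nat_lit 0) (XT.nd (nat_lit 234) (nat_lit 988) (nat_lit 0) (XT.nd (nat_lit 78) (nat_lit 608) (nat_lit 0) (XT.lf (nat_lit 0) (nat_lit 4304295042) (nat_lit 304) (nat_lit 804297299) (nat_lit 380) (nat_lit 8530273910) (nat_lit 137) (nat_lit 5) (nat_lit 141) (nat_lit 5) (nat_lit 142) (nat_lit 5) (nat_lit 421) (nat_lit 409) (nat_lit 370)) (XT.nd (nat_lit 78) (nat_lit 304) (nat_lit 0) (XT.lf (nat_lit 0) (nat_lit 3458238356) (nat_lit 304) (nat_lit 5810257052) (nat_lit 380) (nat_lit 4957924042) (nat_lit 133) (nat_lit 5) (nat_lit 137) (nat_lit 5) (nat_lit 138) (nat_lit 5) (nat_lit 422) (nat_lit 409) (nat_lit 369)) (XT.lf (nat_lit 0) (nat_lit 2682052312) (nat_lit 304) (nat_lit 11283113854) (nat_lit 380) (nat_lit 885616454) (nat_lit 129) (nat_lit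 5) (nat_lit 133) (nat_lit 5) (nat_lit 134) (nat_lit 5) (nat_lit 423) (nat_lit 409) (nat_lit 368)))) (XT.nd (nat_lit 156) (nat_lit 380) (nat_lit 0) (XT.nd (nat_lit 78) (nat_lit 228) (nat_lit 0) (XT.lf (nat_lit 0) (nat_lit 1895152951) (nat_lit 304) (nat_lit 1755009697) (nat_lit 380) (nat_lit 11859688767) (nat_lit 124) (nat_lit 5) (nat_lit 128) (nat_lit 5) (nat_lit 129) (nat_lit 5) (nat_lit 424) (nat_lit 409) (nat_lit 367)) (XT.lf (nat_lit 0) (nat_lit 1105458516) (nat_lit 228) (nat_lit 7714055773) (nat_lit 304) (nat_lit 7386322277) (nat_lit 121) (nat_lit 5) (nat_lit 124) (nat_lit 5) (nat_lit 125) (nat_lit 5) (nat_lit 425) (nat_lit 409) (nat_lit 366))) (XT.nd (nat_lit 78) (nat_lit 76) (nat_lit 0) (XT.lf (nat_lit 0) (nat_lit 398959172) (nat_lit 304) (nat_lit 14258054497) (nat_lit 380) (nat_lit 2287760272) (nat_lit 117) (nat_lit 5) (nat_lit 121) (nat_lit 5) (nat_lit 122) (nat_lit 5) (nat_lit 426) (nat_lit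 409) (nat_lit 365)) (XT.lf (nat_lit 0) (nat_lit 3453955136) (nat_lit 380) (nat_lit 320002835) (nat_lit 76) (nat_lit 13949444363) (nat_lit 116) (nat_lit 5) (nat_lit 121) (nat_lit 5) (nat_lit 117) (nat_lit 5) (nat_lit 427) (nat_lit 409) (nat_lit 364))))) (XT.nd (nat_lit 312) (nat_lit 836) (nat_lit 0) (XT.nd (nat_lit 156) (nat_lit 456) (nat_lit 0) (XT.nd (nat_lit 78) (nat_lit 228) (nat_lit 0) (XT.lf (nat_lit 0) (nat_lit 9919450404) (nat_lit 304) (nat_lit 1020703154) (nat_lit 76) (nat_lit 7605065268) (nat_lit 113) (nat_lit 5) (nat_lit 117) (nat_lit 5) (nat_lit 114) (nat_lit 5) (nat_lit 428) (nat_lit 409) (nat_lit 363)) (XT.lf (nat_lit 0) (nat_lit 17206793673) (nat_lit 304) (nat_lit 1621749599) (nat_lit 76) (nat_lit 589009509) (nat_lit 110) (nat_lit 5) (nat_lit 114) (nat_lit 5) (nat_lit 111) (nat_lit 5) (nat_lit 429) (nat_lit 409) (nat_lit 362))) (XT.nd (nat_lit 78) (nat_lit 228) (nat_lit 0) (XT.lf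 (nat_lit 0) (nat_lit 5009158590) (nat_lit 228) (nat_lit 2303072096) (nat_lit 76) (nat_lit 13021627619) (nat_lit 107) (nat_lit 5) (nat_lit 110) (nat_lit 5) (nat_lit 108) (nat_lit 5) (nat_lit 430) (nat_lit 409) (nat_lit 361)) (XT.lf (nat_lit 0) (nat_lit 13084777751) (nat_lit 304) (nat_lit 2921807959) (nat_lit 76) (nat_lit 5297294443) (nat_lit 104) (nat_lit 5) (nat_lit 108) (nat_lit 5) (nat_lit 105) (nat_lit 5) (nat_lit 431) (nat_lit 409) (nat_lit 360)))) (XT.nd (nat_lit 156) (nat_lit 380) (nat_lit 0) (XT.nd (nat_lit 78) (nat_lit 304) (nat_lit 0) (XT.lf (nat_lit 0) (nat_lit 18862749627) (nat_lit 152) (nat_lit 3356333811) (nat_lit 228) (nat_lit 111790401) (nat_lit 102) (nat_lit 5) (nat_lit 104) (nat_lit 5) (nat_lit 105) (nat_lit 5) (nat_lit 432) (nat_lit 409) (nat_lit 359)) (XT.lf (nat_lit 0) (nat_lit 8847443467) (nat_lit 304) (nat_lit 4111962312) (nat_lit 76) (nat_lit 10449874897) (nat_lit 98) (nat_lit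 5) (nat_lit 102) (nat_lit 5) (nat_lit 99) (nat_lit 5) (nat_lit 433) (nat_lit 409) (nat_lit 358))) (XT.nd (nat_lit 78) (nat_lit 228) (nat_lit 0) (XT.lf (nat_lit 0) (nat_lit 18922746579) (nat_lit 228) (nat_lit 4623709919) (nat_lit 76) (nat_lit 1007251159) (nat_lit 96) (nat_lit 5) (nat_lit 99) (nat_lit 5) (nat_lit 97) (nat_lit 5) (nat_lit 434) (nat_lit 409) (nat_lit 357)) (XT.lf (nat_lit 0) (nat_lit 4467930327) (nat_lit 228) (nat_lit 5203947680) (nat_lit 76) (nat_lit 16085576864) (nat_lit 93) (nat_lit 5) (nat_lit 96) (nat_lit 5) (nat_lit 94) (nat_lit 5) (nat_lit 435) (nat_lit 409) (nat_lit 356)))))) (XT.nd (nat_lit 624) (nat_lit 1064) (nat_lit 0) (XT.nd (nat_lit 312) (nat_lit 608) (nat_lit 0) (XT.nd (nat_lit 156) (nat_lit 380) (nat_lit 0) (XT.nd (nat_lit 78) (nat_lit 152) (nat_lit 0) (XT.lf (nat_lit 0) (nat_lit 15647255656) (nat_lit 228) (nat_lit 5746135980) (nat_lit 76) (nat_lit 5636005776) (nat_lit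 91) (nat_lit 5) (nat_lit 94) (nat_lit 5) (nat_lit 92) (nat_lit 5) (nat_lit 436) (nat_lit 409) (nat_lit 355)) (XT.lf (nat_lit 0) (nat_lit 22156875511) (nat_lit 152) (nat_lit 6127358751) (nat_lit 228) (nat_lit 90696926) (nat_lit 89) (nat_lit 5) (nat_lit 91) (nat_lit 5) (nat_lit 92) (nat_lit 5) (nat_lit 437) (nat_lit 409) (nat_lit 354))) (XT.nd (nat_lit 78) (nat_lit 152) (nat_lit 0) (XT.lf (nat_lit 0) (nat_lit 12315455375) (nat_lit 228) (nat_lit 6807261981) (nat_lit 76) (nat_lit 10666002575) (nat_lit 86) (nat_lit 5) (nat_lit 89) (nat_lit 5) (nat_lit 87) (nat_lit 5) (nat_lit 438) (nat_lit 409) (nat_lit 353)) (XT.lf (nat_lit 0) (nat_lit 24029807290) (nat_lit 152) (nat_lit 2234521432) (nat_lit 228) (nat_lit 5023539362) (nat_lit 84) (nat_lit 5) (nat_lit 86) (nat_lit 5) (nat_lit 87) (nat_lit 5) (nat_lit 439) (nat_lit 409) (nat_lit 352)))) (XT.nd (nat_lit 156) (nat_lit 304) (nat_lit 0) (XT.nd (nat_lit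 78) (nat_lit 152) (nat_lit 0) (XT.lf (nat_lit 0) (nat_lit 8894007311) (nat_lit 152) (nat_lit 7844325101) (nat_lit 76) (nat_lit 16124971596) (nat_lit 82) (nat_lit 5) (nat_lit 84) (nat_lit 5) (nat_lit 83) (nat_lit 5) (nat_lit 440) (nat_lit 409) (nat_lit 351)) (XT.lf (nat_lit 0) (nat_lit 24324577619) (nat_lit 228) (nat_lit 8328086821) (nat_lit 76) (nat_lit 1879212496) (nat_lit 80) (nat_lit 5) (nat_lit 83) (nat_lit 5) (nat_lit 81) (nat_lit 4) (nat_lit 441) (nat_lit 409) (nat_lit 350))) (XT.nd (nat_lit 78) (nat_lit 152) (nat_lit 0) (XT.lf (nat_lit 0) (nat_lit 5338344343) (nat_lit 152) (nat_lit 8912921413) (nat_lit 76) (nat_lit 22037451423) (nat_lit 78) (nat_lit 5) (nat_lit 80) (nat_lit 5) (nat_lit 79) (nat_lit 5) (nat_lit 442) (nat_lit 409) (nat_lit 349)) (XT.lf (nat_lit 0) (nat_lit 22440350571) (nat_lit 228) (nat_lit 9504875154) (nat_lit 76) (nat_lit 6198996671) (nat_lit 76) (nat_lit 5) (nat_lit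 79) (nat_lit 5) (nat_lit 77) (nat_lit 4) (nat_lit 443) (nat_lit 409) (nat_lit 348))))) (XT.nd (nat_lit 312) (nat_lit 456) (nat_lit 0) (XT.nd (nat_lit 156) (nat_lit 304) (nat_lit 0) (XT.nd (nat_lit 78) (nat_lit 152) (nat_lit 0) (XT.lf (nat_lit 0) (nat_lit 1589154589) (nat_lit 152) (nat_lit 10094077817) (nat_lit 76) (nat_lit 28421780815) (nat_lit 74) (nat_lit 5) (nat_lit 76) (nat_lit 5) (nat_lit 75) (nat_lit 5) (nat_lit 444) (nat_lit 409) (nat_lit 347)) (XT.lf (nat_lit 0) (nat_lit 20528233935) (nat_lit 228) (nat_lit 10851095532) (nat_lit 76) (nat_lit 10789826452) (nat_lit 72) (nat_lit 5) (nat_lit 75) (nat_lit 5) (nat_lit 73) (nat_lit 4) (nat_lit 445) (nat_lit 409) (nat_lit 346))) (XT.nd (nat_lit 78) (nat_lit 228) (nat_lit 0) (XT.lf (nat_lit 0) (nat_lit 32812652990) (nat_lit 76) (nat_lit 9030084088) (nat_lit 152) (nat_lit 2512678576) (nat_lit 71) (nat_lit 5) (nat_lit 72) (nat_lit 5) (nat_lit 73)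 (nat_lit 4) (nat_lit 446) (nat_lit 409) (nat_lit 345)) (XT.lf (nat_lit 0) (nat_lit 18519703972) (nat_lit 228) (nat_lit 12504745816) (nat_lit 76) (nat_lit 15630228486) (nat_lit 68) (nat_lit 5) (nat_lit 71) (nat_lit 5) (nat_lit 69) (nat_lit 4) (nat_lit 447) (nat_lit 409) (nat_lit 344)))) (XT.nd (nat_lit 156) (nat_lit 228) (nat_lit 0) (XT.nd (nat_lit 78) (nat_lit 152) (nat_lit 0) (XT.lf (nat_lit 0) (nat_lit 35677322487) (nat_lit 76) (nat_lit 6358169906) (nat_lit 152) (nat_lit 7055887975) (nat_lit 67) (nat_lit 5) (nat_lit 68) (nat_lit 5) (nat_lit 69) (nat_lit 4) (nat_lit 448) (nat_lit 409) (nat_lit 343)) (XT.lf (nat_lit 0) (nat_lit 16319522919) (nat_lit 152) (nat_lit 14658178928) (nat_lit 76) (nat_lit 20677413624) (nat_lit 65) (nat_lit 5) (nat_lit 67) (nat_lit 5) (nat_lit 66) (nat_lit 4) (nat_lit 449) (nat_lit 409) (nat_lit 342))) (XT.nd (nat_lit 78) (nat_lit 152) (nat_lit 0) (XT.lf (nat_lit 0) (nat_lit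 38462024338) (nat_lit 76) (nat_lit 3779869013) (nat_lit 152) (nat_lit 12130066315) (nat_lit 64) (nat_lit 5) (nat_lit 65) (nat_lit 5) (nat_lit 66) (nat_lit 4) (nat_lit 450) (nat_lit 409) (nat_lit 341)) (XT.lf (nat_lit 0) (nat_lit 13796926909) (nat_lit 152) (nat_lit 17576283709) (nat_lit 76) (nat_lit 25858899578) (nat_lit 62) (nat_lit 5) (nat_lit 64) (nat_lit 5) (nat_lit 63) (nat_lit 4) (nat_lit 451) (nat_lit 409) (nat_lit 340))))))) (XT.nd (nat_lit 1248) (nat_lit 1444) (nat_lit 0) (XT.nd (nat_lit 624) (nat_lit 836) (nat_lit 0) (XT.nd (nat_lit 312) (nat_lit 380) (nat_lit 0) (XT.nd (nat_lit 156) (nat_lit 228) (nat_lit 0) (XT.nd (nat_lit 78) (nat_lit 152) (nat_lit 0) (XT.lf (nat_lit 0) (nat_lit 40920534443) (nat_lit 76) (nat_lit 1419653024) (nat_lit 152) (nat_lit 17922588579) (nat_lit 61) (nat_lit 5) (nat_lit 62) (nat_lit 5) (nat_lit 63) (nat_lit 4) (nat_lit 452) (nat_lit 409) (nat_lit 339)) (XT.lf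 (nat_lit 0) (nat_lit 10774103361) (nat_lit 152) (nat_lit 21620199086) (nat_lit 76) (nat_lit 31061507485) (nat_lit 59) (nat_lit 5) (nat_lit 61) (nat_lit 5) (nat_lit 60) (nat_lit 4) (nat_lit 453) (nat_lit 409) (nat_lit 338))) (XT.nd (nat_lit 78) (nat_lit 152) (nat_lit 0) (XT.lf (nat_lit 0) (nat_lit 42167121723) (nat_lit 152) (nat_lit 24142862599) (nat_lit 0) (nat_lit 528186216) (nat_lit 58) (nat_lit 5) (nat_lit 60) (nat_lit 4) (nat_lit 58) (nat_lit 4) (nat_lit 454) (nat_lit 409) (nat_lit 337)) (XT.lf (nat_lit 0) (nat_lit 7011163262) (nat_lit 152) (nat_lit 27278194826) (nat_lit 76) (nat_lit 36116940199) (nat_lit 56) (nat_lit 5) (nat_lit 58) (nat_lit 5) (nat_lit 57) (nat_lit 4) (nat_lit 455) (nat_lit 409) (nat_lit 336)))) (XT.nd (nat_lit 156) (nat_lit 152) (nat_lit 0) (XT.nd (nat_lit 78) (nat_lit 152) (nat_lit 0) (XT.lf (nat_lit 0) (nat_lit 41488014351) (nat_lit 152) (nat_lit 30885808567) (nat_lit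 0) (nat_lit 1809610574) (nat_lit 55) (nat_lit 5) (nat_lit 57) (nat_lit 4) (nat_lit 55) (nat_lit 4) (nat_lit 456) (nat_lit 409) (nat_lit 335)) (XT.lf (nat_lit 0) (nat_lit 2186582898) (nat_lit 152) (nat_lit 35205824577) (nat_lit 76) (nat_lit 40782920863) (nat_lit 53) (nat_lit 5) (nat_lit 55) (nat_lit 5) (nat_lit 54) (nat_lit 4) (nat_lit 457) (nat_lit 409) (nat_lit 334))) (XT.nd (nat_lit 78) (nat_lit 76) (nat_lit 0) (XT.lf (nat_lit 0) (nat_lit 39949008310) (nat_lit 152) (nat_lit 40307134783) (nat_lit 0) (nat_lit 2141864728) (nat_lit 52) (nat_lit 5) (nat_lit 54) (nat_lit 4) (nat_lit 52) (nat_lit 4) (nat_lit 458) (nat_lit 409) (nat_lit 333)) (XT.lf (nat_lit 0) (nat_lit 40520454032) (nat_lit 76) (nat_lit 42079944570) (nat_lit 76) (nat_lit 4264704653) (nat_lit 51) (nat_lit 4) (nat_lit 52) (nat_lit 5) (nat_lit 52) (nat_lit 4) (nat_lit 459) (nat_lit 409) (nat_lit 332))))) (XT.nd (nat_lit 312) (nat_lit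 380) (nat_lit 0) (XT.nd (nat_lit 156) (nat_lit 228) (nat_lit 0) (XT.nd (nat_lit 78) (nat_lit 76) (nat_lit 0) (XT.lf (nat_lit 0) (nat_lit 37100371532) (nat_lit 152) (nat_lit 53416141195) (nat_lit 0) (nat_lit 1078717702) (nat_lit 49) (nat_lit 5) (nat_lit 51) (nat_lit 4) (nat_lit 49) (nat_lit 4) (nat_lit 460) (nat_lit 409) (nat_lit 331)) (XT.lf (nat_lit 0) (nat_lit 34738839252) (nat_lit 76) (nat_lit 48943423206) (nat_lit 76) (nat_lit 12915158612) (nat_lit 48) (nat_lit 4) (nat_lit 49) (nat_lit 5) (nat_lit 49) (nat_lit 4) (nat_lit 461) (nat_lit 409) (nat_lit 330))) (XT.nd (nat_lit 78) (nat_lit 76) (nat_lit 0) (XT.lf (nat_lit 0) (nat_lit 30322555213) (nat_lit 76) (nat_lit 2046684242) (nat_lit 152) (nat_lit 69535462667) (nat_lit 46) (nat_lit 5) (nat_lit 47) (nat_lit 5) (nat_lit 48) (nat_lit 4) (nat_lit 462) (nat_lit 409) (nat_lit 329)) (XT.lf (nat_lit 0) (nat_lit 24253708986) (nat_lit 76) (nat_lit 58792507654)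 (nat_lit 76) (nat_lit 24468647335) (nat_lit 45) (nat_lit 4) (nat_lit 46) (nat_lit 5) (nat_lit 46) (nat_lit 4) (nat_lit 463) (nat_lit 409) (nat_lit 328)))) (XT.nd (nat_lit 156) (nat_lit 152) (nat_lit 0) (XT.nd (nat_lit 78) (nat_lit 76) (nat_lit 0) (XT.lf (nat_lit 0) (nat_lit 16876573276) (nat_lit 76) (nat_lit 8101686009) (nat_lit 152) (nat_lit 88499214857) (nat_lit 43) (nat_lit 5) (nat_lit 44) (nat_lit 5) (nat_lit 45) (nat_lit 4) (nat_lit 464) (nat_lit 409) (nat_lit 327)) (XT.lf (nat_lit 0) (nat_lit 7188434917) (nat_lit 76) (nat_lit 72645815196) (nat_lit 76) (nat_lit 39947257118) (nat_lit 42) (nat_lit 4) (nat_lit 43) (nat_lit 5) (nat_lit 43) (nat_lit 4) (nat_lit 465) (nat_lit 409) (nat_lit 326))) (XT.nd (nat_lit 78) (nat_lit 76) (nat_lit 0) (XT.lf (nat_lit 0) (nat_lit 13921016938) (nat_lit 152) (nat_lit 4164554237) (nat_lit 76) (nat_lit 108402948499) (nat_lit 41) (nat_lit 5) (nat_lit 43) (nat_lit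 5) (nat_lit 42) (nat_lit 4) (nat_lit 466) (nat_lit 409) (nat_lit 325)) (XT.lf (nat_lit 0) (nat_lit 73192370600) (nat_lit 152) (nat_lit 18338918673) (nat_lit 0) (nat_lit 42043401498) (nat_lit 40) (nat_lit 5) (nat_lit 42) (nat_lit 4) (nat_lit 40) (nat_lit 4) (nat_lit 467) (nat_lit 409) (nat_lit 324)))))) (XT.nd (nat_lit 624) (nat_lit 684) (nat_lit 0) (XT.nd (nat_lit 312) (nat_lit 304) (nat_lit 0) (XT.nd (nat_lit 156) (nat_lit 228) (nat_lit 0) (XT.nd (nat_lit 78) (nat_lit 152) (nat_lit 0) (XT.lf (nat_lit 0) (nat_lit 106177756417) (nat_lit 76) (nat_lit 33050577657) (nat_lit 76) (nat_lit 1898276459) (nat_lit 39) (nat_lit 4) (nat_lit 40) (nat_lit 5) (nat_lit 40) (nat_lit 4) (nat_lit 468) (nat_lit 409) (nat_lit 323)) (XT.lf (nat_lit 0) (nat_lit 61598790676) (nat_lit 152) (nat_lit 55594316383) (nat_lit 0) (nat_lit 31926994037) (nat_lit 37) (nat_lit 5) (nat_lit 39) (nat_lit 4) (nat_lit 37) (nat_lit 4)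 (nat_lit 469) (nat_lit 409) (nat_lit 322))) (XT.nd (nat_lit 78) (nat_lit 152) (nat_lit 0) (XT.lf (nat_lit 0) (nat_lit 77664547862) (nat_lit 76) (nat_lit 54821323370) (nat_lit 76) (nat_lit 25146806031) (nat_lit 36) (nat_lit 4) (nat_lit 37) (nat_lit 5) (nat_lit 37) (nat_lit 4) (nat_lit 470) (nat_lit 409) (nat_lit 321)) (XT.lf (nat_lit 0) (nat_lit 42980394183) (nat_lit 152) (nat_lit 108990660478) (nat_lit 0) (nat_lit 14716549893) (nat_lit 34) (nat_lit 5) (nat_lit 36) (nat_lit 4) (nat_lit 34) (nat_lit 4) (nat_lit 471) (nat_lit 409) (nat_lit 320)))) (XT.nd (nat_lit 156) (nat_lit 76) (nat_lit 0) (XT.nd (nat_lit 78) (nat_lit 152) (nat_lit 0) (XT.lf (nat_lit 0) (nat_lit 32477513873) (nat_lit 76) (nat_lit 86046257358) (nat_lit 76) (nat_lit 57780191580) (nat_lit 33) (nat_lit 4) (nat_lit 34) (nat_lit 5) (nat_lit 34) (nat_lit 4) (nat_lit 472) (nat_lit 409) (nat_lit 319)) (XT.lf (nat_lit 0) (nat_lit 2372081271)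 (nat_lit 76) (nat_lit 12574359695) (nat_lit 152) (nat_lit 171634961446) (nat_lit 31) (nat_lit 5) (nat_lit 32) (nat_lit 5) (nat_lit 33) (nat_lit 4) (nat_lit 473) (nat_lit 409) (nat_lit 318))) (XT.nd (nat_lit 78) (nat_lit 76) (nat_lit 0) (XT.lf (nat_lit 0) (nat_lit 95071553128) (nat_lit 152) (nat_lit 34234171371) (nat_lit 0) (nat_lit 68147717626) (nat_lit 31) (nat_lit 5) (nat_lit 33) (nat_lit 4) (nat_lit 31) (nat_lit 4) (nat_lit 474) (nat_lit 409) (nat_lit 317)) (XT.lf (nat_lit 0) (nat_lit 131721588400) (nat_lit 76) (nat_lit 52143134611) (nat_lit 76) (nat_lit 25217619596) (nat_lit 30) (nat_lit 4) (nat_lit 31) (nat_lit 5) (nat_lit 31) (nat_lit 4) (nat_lit 475) (nat_lit 409) (nat_lit 316))))) (XT.nd (nat_lit 312) (nat_lit 304) (nat_lit 0) (XT.nd (nat_lit 156) (nat_lit 152) (nat_lit 0) (XT.nd (nat_lit 78) (nat_lit 76) (nat_lit 0) (XT.lf (nat_lit 0) (nat_lit 58836423440) (nat_lit 152) (nat_lit 129439324897)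 (nat_lit 0) (nat_lit 33191594756) (nat_lit 28) (nat_lit 5) (nat_lit 30) (nat_lit 4) (nat_lit 28) (nat_lit 4) (nat_lit 476) (nat_lit 409) (nat_lit 315)) (XT.lf (nat_lit 0) (nat_lit 42983733666) (nat_lit 76) (nat_lit 108669423174) (nat_lit 76) (nat_lit 83023223146) (nat_lit 27) (nat_lit 4) (nat_lit 28) (nat_lit 5) (nat_lit 28) (nat_lit 4) (nat_lit 477) (nat_lit 409) (nat_lit 314))) (XT.nd (nat_lit 78) (nat_lit 76) (nat_lit 0) (XT.lf (nat_lit 0) (nat_lit 5140630867) (nat_lit 152) (nat_lit 15109176513) (nat_lit 76) (nat_lit 228575924217) (nat_lit 26) (nat_lit 5) (nat_lit 28) (nat_lit 5) (nat_lit 27) (nat_lit 4) (nat_lit 478) (nat_lit 409) (nat_lit 313)) (XT.lf (nat_lit 0) (nat_lit 101531835932) (nat_lit 152) (nat_lit 85198440494) (nat_lit 0) (nat_lit 77104554505) (nat_lit 25) (nat_lit 5) (nat_lit 27) (nat_lit 4) (nat_lit 25) (nat_lit 4) (nat_lit 479) (nat_lit 409) (nat_lit 312)))) (XT.nd (nat_lit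 156) (nat_lit 76) (nat_lit 0) (XT.nd (nat_lit 78) (nat_lit 152) (nat_lit 0) (XT.lf (nat_lit 0) (nat_lit 111598089910) (nat_lit 76) (nat_lit 96378877512) (nat_lit 76) (nat_lit 71950559307) (nat_lit 24) (nat_lit 4) (nat_lit 25) (nat_lit 5) (nat_lit 25) (nat_lit 4) (nat_lit 480) (nat_lit 409) (nat_lit 311)) (XT.lf (nat_lit 0) (nat_lit 26843337269) (nat_lit 152) (nat_lit 266765255610) (nat_lit 0) (nat_lit 3577358045) (nat_lit 22) (nat_lit 5) (nat_lit 24) (nat_lit 4) (nat_lit 22) (nat_lit 4) (nat_lit 481) (nat_lit 409) (nat_lit 310))) (XT.nd (nat_lit 78) (nat_lit 76) (nat_lit 0) (XT.lf (nat_lit 0) (nat_lit 135650830405) (nat_lit 152) (nat_lit 67499694062) (nat_lit 0) (nat_lit 112384004638) (nat_lit 22) (nat_lit 5) (nat_lit 24) (nat_lit 4) (nat_lit 22) (nat_lit 4) (nat_lit 482) (nat_lit 409) (nat_lit 309)) (XT.lf (nat_lit 0) (nat_lit 152575029211) (nat_lit 76) (nat_lit 102962423723) (nat_lit 76) (nat_lit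 79694814120) (nat_lit 21) (nat_lit 4) (nat_lit 22) (nat_lit 5) (nat_lit 22) (nat_lit 4) (nat_lit 483) (nat_lit 409) (nat_lit 308))))))))
noncomputable def xc61 : XT := (XT.nd (nat_lit 57408) (nat_lit 0) (nat_lit 4484) (XT.nd (nat_lit 1248) (nat_lit 228) (nat_lit 0) (XT.nd (nat_lit 624) (nat_lit 304) (nat_lit 0) (XT.nd (nat_lit 312) (nat_lit 380) (nat_lit 0) (XT.nd (nat_lit 156) (nat_lit 76) (nat_lit 0) (XT.nd (nat_lit 78) (nat_lit 0) (nat_lit 0) (XT.lf (nat_lit 0) (nat_lit 29478893191) (nat_lit 152) (nat_lit 319591992476) (nat_lit 0) (nat_lit 7318573784) (nat_lit 19) (nat_lit 5) (nat_lit 21) (nat_lit 4) (nat_lit 19) (nat_lit 4) (nat_lit 484) (nat_lit 409) (nat_lit 307)) (XT.lf (nat_lit 0) (nat_lit 149594600422) (nat_lit 152) (nat_lit 101895651137) (nat_lit 0) (nat_lit 127433641003) (nat_lit 19) (nat_lit 5) (nat_lit 21) (nat_lit 4) (nat_lit 19) (nat_lit 4) (nat_lit 485) (nat_lit 409) (nat_lit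 306))) (XT.nd (nat_lit 78) (nat_lit 0) (nat_lit 0) (XT.lf (nat_lit 0) (nat_lit 137607170782) (nat_lit 76) (nat_lit 143854185973) (nat_lit 76) (nat_lit 121692633950) (nat_lit 18) (nat_lit 4) (nat_lit 19) (nat_lit 5) (nat_lit 19) (nat_lit 4) (nat_lit 486) (nat_lit 409) (nat_lit 305)) (XT.lf (nat_lit 0) (nat_lit 399895951093) (nat_lit 76) (nat_lit 25750108035) (nat_lit 76) (nat_lit 3588007304) (nat_lit 18) (nat_lit 4) (nat_lit 19) (nat_lit 5) (nat_lit 19) (nat_lit 4) (nat_lit 487) (nat_lit 409) (nat_lit 304)))) (XT.nd (nat_lit 156) (nat_lit 152) (nat_lit 0) (XT.nd (nat_lit 78) (nat_lit 76) (nat_lit 0) (XT.lf (nat_lit 0) (nat_lit 125281584740) (nat_lit 152) (nat_lit 227583640715) (nat_lit 0) (nat_lit 104174338270) (nat_lit 16) (nat_lit 5) (nat_lit 18) (nat_lit 4) (nat_lit 16) (nat_lit 4) (nat_lit 488) (nat_lit 409) (nat_lit 303)) (XT.lf (nat_lit 0) (nat_lit 23184329347) (nat_lit 76) (nat_lit 242462175802)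 (nat_lit 76) (nat_lit 221354481304) (nat_lit 15) (nat_lit 4) (nat_lit 16) (nat_lit 5) (nat_lit 16) (nat_lit 4) (nat_lit 489) (nat_lit 409) (nat_lit 302))) (XT.nd (nat_lit 78) (nat_lit 152) (nat_lit 0) (XT.lf (nat_lit 0) (nat_lit 302129356954) (nat_lit 76) (nat_lit 119070067562) (nat_lit 76) (nat_lit 97961958225) (nat_lit 15) (nat_lit 4) (nat_lit 16) (nat_lit 5) (nat_lit 16) (nat_lit 4) (nat_lit 490) (nat_lit 409) (nat_lit 301)) (XT.lf (nat_lit 0) (nat_lit 35199594743) (nat_lit 152) (nat_lit 503519814641) (nat_lit 0) (nat_lit 15096267650) (nat_lit 13) (nat_lit 5) (nat_lit 15) (nat_lit 4) (nat_lit 13) (nat_lit 4) (nat_lit 491) (nat_lit 409) (nat_lit 300))))) (XT.nd (nat_lit 312) (nat_lit 228) (nat_lit 0) (XT.nd (nat_lit 156) (nat_lit 0) (nat_lit 0) (XT.nd (nat_lit 78) (nat_lit 76) (nat_lit 0) (XT.lf (nat_lit 0) (nat_lit 181473038406) (nat_lit 152) (nat_lit 248025053379) (nat_lit 0) (nat_lit 161369372591)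 (nat_lit 13) (nat_lit 5) (nat_lit 15) (nat_lit 4) (nat_lit 13) (nat_lit 4) (nat_lit 492) (nat_lit 409) (nat_lit 299)) (XT.lf (nat_lit 0) (nat_lit 28822187202) (nat_lit 76) (nat_lit 311071461207) (nat_lit 76) (nat_lit 290967481760) (nat_lit 12) (nat_lit 4) (nat_lit 13) (nat_lit 5) (nat_lit 13) (nat_lit 4) (nat_lit 493) (nat_lit 409) (nat_lit 298))) (XT.nd (nat_lit 78) (nat_lit 0) (nat_lit 0) (XT.lf (nat_lit 0) (nat_lit 336664926945) (nat_lit 76) (nat_lit 178638917631) (nat_lit 76) (nat_lit 158534647784) (nat_lit 12) (nat_lit 4) (nat_lit 13) (nat_lit 5) (nat_lit 13) (nat_lit 4) (nat_lit 494) (nat_lit 409) (nat_lit 297)) (XT.lf (nat_lit 0) (nat_lit 669126590745) (nat_lit 76) (nat_lit 35616099905) (nat_lit 76) (nat_lit 15511561170) (nat_lit 12) (nat_lit 4) (nat_lit 13) (nat_lit 5) (nat_lit 13) (nat_lit 4) (nat_lit 495) (nat_lit 409) (nat_lit 296)))) (XT.nd (nat_lit 156) (nat_lit 76) (nat_lit 0) (XT.nd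 (nat_lit 78) (nat_lit 0) (nat_lit 0) (XT.lf (nat_lit 0) (nat_lit 140583701277) (nat_lit 152) (nat_lit 507950928543) (nat_lit 0) (nat_lit 121436284414) (nat_lit 10) (nat_lit 5) (nat_lit 12) (nat_lit 4) (nat_lit 10) (nat_lit 4) (nat_lit 496) (nat_lit 409) (nat_lit 295)) (XT.lf (nat_lit 0) (nat_lit 310132353781) (nat_lit 152) (nat_lit 222459663171) (nat_lit 0) (nat_lit 290984717367) (nat_lit 10) (nat_lit 5) (nat_lit 12) (nat_lit 4) (nat_lit 10) (nat_lit 4) (nat_lit 497) (nat_lit 409) (nat_lit 294))) (XT.nd (nat_lit 78) (nat_lit 0) (nat_lit 0) (XT.lf (nat_lit 0) (nat_lit 88702746555) (nat_lit 76) (nat_lit 405923522321) (nat_lit 76) (nat_lit 386775682619) (nat_lit 9) (nat_lit 4) (nat_lit 10) (nat_lit 5) (nat_lit 10) (nat_lit 4) (nat_lit 498) (nat_lit 409) (nat_lit 293)) (XT.lf (nat_lit 0) (nat_lit 432695225996) (nat_lit 76) (nat_lit 265056200753) (nat_lit 76) (nat_lit 245908172821) (nat_lit 9) (nat_lit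 4) (nat_lit 10) (nat_lit 5) (nat_lit 10) (nat_lit 4) (nat_lit 499) (nat_lit 409) (nat_lit 292)))))) (XT.nd (nat_lit 55536) (nat_lit 0) (nat_lit 11552) (XT.nd (nat_lit 312) (nat_lit 76) (nat_lit 0) (XT.nd (nat_lit 156) (nat_lit 0) (nat_lit 0) (XT.nd (nat_lit 78) (nat_lit 152) (nat_lit 0) (XT.lf (nat_lit 0) (nat_lit 804200727982) (nat_lit 76) (nat_lit 112922744973) (nat_lit 76) (nat_lit 93774542755) (nat_lit 9) (nat_lit 4) (nat_lit 10) (nat_lit 5) (nat_lit 10) (nat_lit 4) (nat_lit 500) (nat_lit 409) (nat_lit 291)) (XT.lf (nat_lit 0) (nat_lit 71070049053) (nat_lit 152) (nat_lit 959417002184) (nat_lit 0) (nat_lit 52833512296) (nat_lit 7) (nat_lit 5) (nat_lit 9) (nat_lit 4) (nat_lit 7) (nat_lit 4) (nat_lit 501) (nat_lit 409) (nat_lit 290))) (XT.nd (nat_lit 78) (nat_lit 0) (nat_lit 0) (XT.lf (nat_lit 0) (nat_lit 251421511994) (nat_lit 152) (nat_lit 676573470534) (nat_lit 0) (nat_lit 233184832930) (nat_lit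 7) (nat_lit 5) (nat_lit 9) (nat_lit 4) (nat_lit 7) (nat_lit 4) (nat_lit 502) (nat_lit 409) (nat_lit 289)) (XT.lf (nat_lit 0) (nat_lit 446198445837) (nat_lit 152) (nat_lit 371107859000) (nat_lit 0) (nat_lit 427961635007) (nat_lit 7) (nat_lit 5) (nat_lit 9) (nat_lit 4) (nat_lit 7) (nat_lit 4) (nat_lit 503) (nat_lit 409) (nat_lit 288)))) (XT.nd (nat_lit 156) (nat_lit 0) (nat_lit 0) (XT.nd (nat_lit 78) (nat_lit 76) (nat_lit 0) (XT.lf (nat_lit 0) (nat_lit 656555084265) (nat_lit 152) (nat_lit 41210000996) (nat_lit 0) (nat_lit 638318151429) (nat_lit 7) (nat_lit 5) (nat_lit 9) (nat_lit 4) (nat_lit 7) (nat_lit 4) (nat_lit 504) (nat_lit 409) (nat_lit 287)) (XT.lf (nat_lit 0) (nat_lit 325492857943) (nat_lit 76) (nat_lit 563326982896) (nat_lit 76) (nat_lit 545089937092) (nat_lit 6) (nat_lit 4) (nat_lit 7) (nat_lit 5) (nat_lit 7) (nat_lit 4) (nat_lit 505) (nat_lit 409) (nat_lit 286))) (XT.nd (nat_lit 54990)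 (nat_lit 0) (nat_lit 12768) (XT.lf (nat_lit 0) (nat_lit 722999110837) (nat_lit 76) (nat_lit 417382348974) (nat_lit 76) (nat_lit 399145198570) (nat_lit 6) (nat_lit 4) (nat_lit 7) (nat_lit 5) (nat_lit 7) (nat_lit 4) (nat_lit 506) (nat_lit 409) (nat_lit 285)) (XT.lf (nat_lit 0) (nat_lit 354854878) (nat_lit 0) (nat_lit 354854878) (nat_lit 684) (nat_lit 3957566484) (nat_lit 174) (nat_lit 5) (nat_lit 174) (nat_lit 3) (nat_lit 183) (nat_lit 3) (nat_lit 410) (nat_lit 410) (nat_lit 380))))) (XT.nd (nat_lit 312) (nat_lit 1216) (nat_lit 0) (XT.nd (nat_lit 156) (nat_lit 0) (nat_lit 76) (XT.nd (nat_lit 78) (nat_lit 0) (nat_lit 76) (XT.lf (nat_lit 0) (nat_lit 2860650413) (nat_lit 684) (nat_lit 1266759768) (nat_lit 760) (nat_lit 5511194972) (nat_lit 174) (nat_lit 5) (nat_lit 183) (nat_lit 3) (nat_lit 184) (nat_lit 5) (nat_lit 411) (nat_lit 410) (nat_lit 379)) (XT.lf (nat_lit 0) (nat_lit 4444499731) (nat_lit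 684) (nat_lit 3191309998) (nat_lit 760) (nat_lit 2329816991) (nat_lit 175) (nat_lit 5) (nat_lit 184) (nat_lit 5) (nat_lit 185) (nat_lit 5) (nat_lit 412) (nat_lit 410) (nat_lit 378))) (XT.nd (nat_lit 78) (nat_lit 0) (nat_lit 76) (XT.lf (nat_lit 76) (nat_lit 5206920574) (nat_lit 0) (nat_lit 1002090337) (nat_lit 760) (nat_lit 4107111290) (nat_lit 176) (nat_lit 5) (nat_lit 175) (nat_lit 5) (nat_lit 185) (nat_lit 5) (nat_lit 413) (nat_lit 410) (nat_lit 377)) (XT.lf (nat_lit 76) (nat_lit 3639576575) (nat_lit 0) (nat_lit 4573594755) (nat_lit 760) (nat_lit 2476570729) (nat_lit 177) (nat_lit 5) (nat_lit 176) (nat_lit 5) (nat_lit 186) (nat_lit 5) (nat_lit 414) (nat_lit 410) (nat_lit 376)))) (XT.nd (nat_lit 156) (nat_lit 684) (nat_lit 0) (XT.nd (nat_lit 78) (nat_lit 760) (nat_lit 0) (XT.lf (nat_lit 76) (nat_lit 2108405551) (nat_lit 0) (nat_lit 8347492293) (nat_lit 760) (nat_lit 633450474) (nat_lit 178)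 (nat_lit 5) (nat_lit 177) (nat_lit 5) (nat_lit 187) (nat_lit 5) (nat_lit 415) (nat_lit 410) (nat_lit 375)) (XT.lf (nat_lit 76) (nat_lit 573829536) (nat_lit 0) (nat_lit 852059297) (nat_lit 836) (nat_lit 10088372011) (nat_lit 168) (nat_lit 5) (nat_lit 167) (nat_lit 5) (nat_lit 178) (nat_lit 5) (nat_lit 416) (nat_lit 410) (nat_lit 374))) (XT.nd (nat_lit 78) (nat_lit 760) (nat_lit 0) (XT.lf (nat_lit 0) (nat_lit 3807815717) (nat_lit 760) (nat_lit 960198791) (nat_lit 76) (nat_lit 7195637890) (nat_lit 168) (nat_lit 5) (nat_lit 178) (nat_lit 5) (nat_lit 169) (nat_lit 5) (nat_lit 417) (nat_lit 410) (nat_lit 373)) (XT.lf (nat_lit 0) (nat_lit 6522003217) (nat_lit 836) (nat_lit 2451053137) (nat_lit 76) (nat_lit 3468860008) (nat_lit 158) (nat_lit 5) (nat_lit 169) (nat_lit 5) (nat_lit 159) (nat_lit 5) (nat_lit 418) (nat_lit 410) (nat_lit 372))))))) (XT.nd (nat_lit 1248) (nat_lit 2508) (nat_lit 0) (XT.nd (nat_lit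 624) (nat_lit 1748) (nat_lit 0) (XT.nd (nat_lit 312) (nat_lit 1216) (nat_lit 0) (XT.nd (nat_lit 156) (nat_lit 760) (nat_lit 0) (XT.nd (nat_lit 78) (nat_lit 380) (nat_lit 0) (XT.lf (nat_lit 0) (nat_lit 9025952938) (nat_lit 456) (nat_lit 585492601) (nat_lit 532) (nat_lit 3339095845) (nat_lit 152) (nat_lit 5) (nat_lit 158) (nat_lit 5) (nat_lit 159) (nat_lit 5) (nat_lit 419) (nat_lit 410) (nat_lit 371)) (XT.lf (nat_lit 0) (nat_lit 8058441021) (nat_lit 380) (nat_lit 5115722331) (nat_lit 456) (nat_lit 314392545) (nat_lit 147) (nat_lit 5) (nat_lit 152) (nat_lit 5) (nat_lit 153) (nat_lit 5) (nat_lit 420) (nat_lit 410) (nat_lit 370))) (XT.nd (nat_lit 78) (nat_lit 304) (nat_lit 0) (XT.lf (nat_lit 0) (nat_lit 3042442280) (nat_lit 456) (nat_lit 6956794030) (nat_lit 76) (nat_lit 4058843088) (nat_lit 141) (nat_lit 5) (nat_lit 147) (nat_lit 5) (nat_lit 142) (nat_lit 5) (nat_lit 421) (nat_lit 410) (nat_lit 369))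 (XT.lf (nat_lit 0) (nat_lit 6189213612) (nat_lit 304) (nat_lit 678773824) (nat_lit 380) (nat_lit 7794365213) (nat_lit 137) (nat_lit 5) (nat_lit 141) (nat_lit 5) (nat_lit 142) (nat_lit 5) (nat_lit 422) (nat_lit 410) (nat_lit 368)))) (XT.nd (nat_lit 156) (nat_lit 532) (nat_lit 0) (XT.nd (nat_lit 78) (nat_lit 380) (nat_lit 0) (XT.lf (nat_lit 0) (nat_lit 5270369441) (nat_lit 304) (nat_lit 6016978684) (nat_lit 380) (nat_lit 4013235194) (nat_lit 133) (nat_lit 5) (nat_lit 137) (nat_lit 5) (nat_lit 138) (nat_lit 5) (nat_lit 423) (nat_lit 410) (nat_lit 367)) (XT.lf (nat_lit 0) (nat_lit 304370942) (nat_lit 380) (nat_lit 11560489145) (nat_lit 76) (nat_lit 4113149147) (nat_lit 128) (nat_lit 5) (nat_lit 133) (nat_lit 5) (nat_lit 129) (nat_lit 5) (nat_lit 424) (nat_lit 410) (nat_lit 366))) (XT.nd (nat_lit 78) (nat_lit 228) (nat_lit 0) (XT.lf (nat_lit 0) (nat_lit 3545480163) (nat_lit 304) (nat_lit 1559190781)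 (nat_lit 380) (nat_lit 11587777654) (nat_lit 124) (nat_lit 5) (nat_lit 128) (nat_lit 5) (nat_lit 129) (nat_lit 5) (nat_lit 425) (nat_lit 410) (nat_lit 365)) (XT.lf (nat_lit 0) (nat_lit 2678118668) (nat_lit 228) (nat_lit 7951374667) (nat_lit 304) (nat_lit 6817527997) (nat_lit 121) (nat_lit 5) (nat_lit 124) (nat_lit 5) (nat_lit 125) (nat_lit 5) (nat_lit 426) (nat_lit 410) (nat_lit 364))))) (XT.nd (nat_lit 312) (nat_lit 912) (nat_lit 0) (XT.nd (nat_lit 156) (nat_lit 228) (nat_lit 0) (XT.nd (nat_lit 78) (nat_lit 304) (nat_lit 0) (XT.lf (nat_lit 0) (nat_lit 1897804371) (nat_lit 304) (nat_lit 14982773009) (nat_lit 380) (nat_lit 1367171620) (nat_lit 117) (nat_lit 5) (nat_lit 121) (nat_lit 5) (nat_lit 122) (nat_lit 5) (nat_lit 427) (nat_lit 410) (nat_lit 363)) (XT.lf (nat_lit 0) (nat_lit 1079986284) (nat_lit 228) (nat_lit 3656301577) (nat_lit 304) (nat_lit 14354635821) (nat_lit 113) (nat_lit 5) (nat_lit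 116) (nat_lit 5) (nat_lit 117) (nat_lit 5) (nat_lit 428) (nat_lit 410) (nat_lit 362))) (XT.nd (nat_lit 78) (nat_lit 0) (nat_lit 0) (XT.lf (nat_lit 0) (nat_lit 277832988) (nat_lit 228) (nat_lit 11382319209) (nat_lit 304) (nat_lit 8321280530) (nat_lit 110) (nat_lit 5) (nat_lit 113) (nat_lit 5) (nat_lit 114) (nat_lit 5) (nat_lit 429) (nat_lit 410) (nat_lit 361)) (XT.lf (nat_lit 0) (nat_lit 19483317072) (nat_lit 304) (nat_lit 401599351) (nat_lit 76) (nat_lit 1040998698) (nat_lit 110) (nat_lit 5) (nat_lit 114) (nat_lit 5) (nat_lit 111) (nat_lit 5) (nat_lit 430) (nat_lit 410) (nat_lit 360)))) (XT.nd (nat_lit 156) (nat_lit 456) (nat_lit 0) (XT.nd (nat_lit 78) (nat_lit 228) (nat_lit 0) (XT.lf (nat_lit 0) (nat_lit 6277395477) (nat_lit 228) (nat_lit 1167370806) (nat_lit 76) (nat_lit 14472387658) (nat_lit 107) (nat_lit 5) (nat_lit 110) (nat_lit 5) (nat_lit 108) (nat_lit 5) (nat_lit 431) (nat_lit 410) (nat_lit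 359)) (XT.lf (nat_lit 0) (nat_lit 14961380876) (nat_lit 304) (nat_lit 1858649761) (nat_lit 76) (nat_lit 6146633867) (nat_lit 104) (nat_lit 5) (nat_lit 108) (nat_lit 5) (nat_lit 105) (nat_lit 5) (nat_lit 432) (nat_lit 410) (nat_lit 358))) (XT.nd (nat_lit 78) (nat_lit 228) (nat_lit 0) (XT.lf (nat_lit 0) (nat_lit 683796453) (nat_lit 228) (nat_lit 2476643632) (nat_lit 76) (nat_lit 20916933738) (nat_lit 101) (nat_lit 5) (nat_lit 104) (nat_lit 5) (nat_lit 102) (nat_lit 5) (nat_lit 433) (nat_lit 410) (nat_lit 357)) (XT.lf (nat_lit 0) (nat_lit 10322570971) (nat_lit 304) (nat_lit 3197947774) (nat_lit 76) (nat_lit 11723109191) (nat_lit 98) (nat_lit 5) (nat_lit 102) (nat_lit 5) (nat_lit 99) (nat_lit 5) (nat_lit 434) (nat_lit 410) (nat_lit 356)))))) (XT.nd (nat_lit 624) (nat_lit 1140) (nat_lit 0) (XT.nd (nat_lit 312) (nat_lit 608) (nat_lit 0) (XT.nd (nat_lit 156) (nat_lit 380) (nat_lit 0) (XT.nd (nat_lit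 78) (nat_lit 228) (nat_lit 0) (XT.lf (nat_lit 0) (nat_lit 21172802114) (nat_lit 228) (nat_lit 3775354264) (nat_lit 76) (nat_lit 1533009626) (nat_lit 96) (nat_lit 5) (nat_lit 99) (nat_lit 5) (nat_lit 97) (nat_lit 5) (nat_lit 435) (nat_lit 410) (nat_lit 355)) (XT.lf (nat_lit 0) (nat_lit 5536755705) (nat_lit 228) (nat_lit 4431409670) (nat_lit 76) (nat_lit 17814292993) (nat_lit 93) (nat_lit 5) (nat_lit 96) (nat_lit 5) (nat_lit 94) (nat_lit 5) (nat_lit 436) (nat_lit 410) (nat_lit 354))) (XT.nd (nat_lit 78) (nat_lit 228) (nat_lit 0) (XT.lf (nat_lit 0) (nat_lit 17582679526) (nat_lit 228) (nat_lit 5041988461) (nat_lit 76) (nat_lit 6532877430) (nat_lit 91) (nat_lit 5) (nat_lit 94) (nat_lit 5) (nat_lit 92) (nat_lit 5) (nat_lit 437) (nat_lit 410) (nat_lit 353)) (XT.lf (nat_lit 0) (nat_lit 566248092) (nat_lit 228) (nat_lit 5578834539) (nat_lit 76) (nat_lit 24466847173) (nat_lit 88) (nat_lit 5) (nat_lit 91)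 (nat_lit 5) (nat_lit 89) (nat_lit 5) (nat_lit 438) (nat_lit 410) (nat_lit 352)))) (XT.nd (nat_lit 156) (nat_lit 304) (nat_lit 0) (XT.nd (nat_lit 78) (nat_lit 152) (nat_lit 0) (XT.lf (nat_lit 0) (nat_lit 13936873321) (nat_lit 228) (nat_lit 6241699351) (nat_lit 76) (nat_lit 11961418127) (nat_lit 86) (nat_lit 5) (nat_lit 89) (nat_lit 5) (nat_lit 87) (nat_lit 5) (nat_lit 439) (nat_lit 410) (nat_lit 351)) (XT.lf (nat_lit 0) (nat_lit 27014089974) (nat_lit 152) (nat_lit 1957021211) (nat_lit 228) (nat_lit 4789488195) (nat_lit 84) (nat_lit 5) (nat_lit 86) (nat_lit 5) (nat_lit 87) (nat_lit 5) (nat_lit 440) (nat_lit 410) (nat_lit 350))) (XT.nd (nat_lit 78) (nat_lit 152) (nat_lit 0) (XT.lf (nat_lit 0) (nat_lit 10198684221) (nat_lit 152) (nat_lit 7414327485) (nat_lit 76) (nat_lit 17849684396) (nat_lit 82) (nat_lit 5) (nat_lit 84) (nat_lit 5) (nat_lit 83) (nat_lit 5) (nat_lit 441) (nat_lit 410) (nat_lit 349))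 (XT.lf (nat_lit 0) (nat_lit 26842528544) (nat_lit 228) (nat_lit 7961457965) (nat_lit 76) (nat_lit 2461828002) (nat_lit 80) (nat_lit 5) (nat_lit 83) (nat_lit 5) (nat_lit 81) (nat_lit 4) (nat_lit 442) (nat_lit 410) (nat_lit 348))))) (XT.nd (nat_lit 312) (nat_lit 532) (nat_lit 0) (XT.nd (nat_lit 156) (nat_lit 304) (nat_lit 0) (XT.nd (nat_lit 78) (nat_lit 152) (nat_lit 0) (XT.lf (nat_lit 0) (nat_lit 6319399688) (nat_lit 152) (nat_lit 8619637742) (nat_lit 76) (nat_lit 24225065966) (nat_lit 78) (nat_lit 5) (nat_lit 80) (nat_lit 5) (nat_lit 79) (nat_lit 5) (nat_lit 443) (nat_lit 410) (nat_lit 347)) (XT.lf (nat_lit 0) (nat_lit 24770344299) (nat_lit 228) (nat_lit 9283056582) (nat_lit 76) (nat_lit 7115610128) (nat_lit 76) (nat_lit 5) (nat_lit 79) (nat_lit 5) (nat_lit 77) (nat_lit 4) (nat_lit 444) (nat_lit 410) (nat_lit 346))) (XT.nd (nat_lit 78) (nat_lit 152) (nat_lit 0) (XT.lf (nat_lit 0) (nat_lit 2234476456)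 (nat_lit 152) (nat_lit 9944937753) (nat_lit 76) (nat_lit 31108080988) (nat_lit 74) (nat_lit 5) (nat_lit 76) (nat_lit 5) (nat_lit 75) (nat_lit 5) (nat_lit 445) (nat_lit 410) (nat_lit 345)) (XT.lf (nat_lit 0) (nat_lit 22671157840) (nat_lit 228) (nat_lit 10785951895) (nat_lit 76) (nat_lit 12060536502) (nat_lit 72) (nat_lit 5) (nat_lit 75) (nat_lit 5) (nat_lit 73) (nat_lit 4) (nat_lit 446) (nat_lit 410) (nat_lit 344)))) (XT.nd (nat_lit 156) (nat_lit 228) (nat_lit 0) (XT.nd (nat_lit 78) (nat_lit 228) (nat_lit 0) (XT.lf (nat_lit 0) (nat_lit 36330339415) (nat_lit 76) (nat_lit 9337332654) (nat_lit 152) (nat_lit 2212292799) (nat_lit 71) (nat_lit 5) (nat_lit 72) (nat_lit 5) (nat_lit 73) (nat_lit 4) (nat_lit 447) (nat_lit 410) (nat_lit 343)) (XT.lf (nat_lit 0) (nat_lit 20470594602) (nat_lit 228) (nat_lit 12619074938) (nat_lit 76) (nat_lit 17273910016) (nat_lit 68) (nat_lit 5) (nat_lit 71) (nat_lit 5) (nat_lit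 69) (nat_lit 4) (nat_lit 448) (nat_lit 410) (nat_lit 342))) (XT.nd (nat_lit 78) (nat_lit 152) (nat_lit 0) (XT.lf (nat_lit 0) (nat_lit 39379052153) (nat_lit 76) (nat_lit 6467062457) (nat_lit 152) (nat_lit 7150180322) (nat_lit 67) (nat_lit 5) (nat_lit 68) (nat_lit 5) (nat_lit 69) (nat_lit 4) (nat_lit 449) (nat_lit 410) (nat_lit 341)) (XT.lf (nat_lit 0) (nat_lit 18065485433) (nat_lit 152) (nat_lit 14990102609) (nat_lit 76) (nat_lit 22709910702) (nat_lit 65) (nat_lit 5) (nat_lit 67) (nat_lit 5) (nat_lit 66) (nat_lit 4) (nat_lit 450) (nat_lit 410) (nat_lit 340))))))))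
noncomputable def xc62 : XT := (XT.nd (nat_lit 2418) (nat_lit 1368) (nat_lit 0) (XT.nd (nat_lit 1170) (nat_lit 1444) (nat_lit 0) (XT.nd (nat_lit 546) (nat_lit 912) (nat_lit 0) (XT.nd (nat_lit 234) (nat_lit 456) (nat_lit 0) (XT.nd (nat_lit 78) (nat_lit 228) (nat_lit 0) (XT.lf (nat_lit 0) (nat_lit 42343179789) (nat_lit 76) (nat_lit 3698399151) (nat_lit 152) (nat_lit 12659115300) (nat_lit 64) (nat_lit 5) (nat_lit 65) (nat_lit 5) (nat_lit 66) (nat_lit 4) (nat_lit 451) (nat_lit 410) (nat_lit 339)) (XT.nd (nat_lit 78) (nat_lit 76) (nat_lit 0) (XT.lf (nat_lit 0) (nat_lit 15314339773) (nat_lit 152) (nat_lit 18185083972) (nat_lit 76) (nat_lit 28290567489) (nat_lit 62) (nat_lit 5) (nat_lit 64) (nat_lit 5) (nat_lit 63) (nat_lit 4) (nat_lit 452) (nat_lit 410) (nat_lit 338)) (XT.lf (nat_lit 0) (nat_lit 44956829840) (nat_lit 76) (nat_lit 1165497095) (nat_lit 152) (nat_lit 18941720487) (nat_lit 61) (nat_lit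 5) (nat_lit 62) (nat_lit 5) (nat_lit 63) (nat_lit 4) (nat_lit 453) (nat_lit 410) (nat_lit 337)))) (XT.nd (nat_lit 156) (nat_lit 228) (nat_lit 0) (XT.nd (nat_lit 78) (nat_lit 76) (nat_lit 0) (XT.lf (nat_lit 0) (nat_lit 12024893235) (nat_lit 152) (nat_lit 22594044243) (nat_lit 76) (nat_lit 33893890213) (nat_lit 59) (nat_lit 5) (nat_lit 61) (nat_lit 5) (nat_lit 60) (nat_lit 4) (nat_lit 454) (nat_lit 410) (nat_lit 336)) (XT.lf (nat_lit 0) (nat_lit 45917324582) (nat_lit 152) (nat_lit 25338284034) (nat_lit 0) (nat_lit 910770247) (nat_lit 58) (nat_lit 5) (nat_lit 60) (nat_lit 4) (nat_lit 58) (nat_lit 4) (nat_lit 455) (nat_lit 410) (nat_lit 335))) (XT.nd (nat_lit 78) (nat_lit 76) (nat_lit 0) (XT.lf (nat_lit 0) (nat_lit 7937871096) (nat_lit 152) (nat_lit 28744330115) (nat_lit 76) (nat_lit 39338306971) (nat_lit 56) (nat_lit 5) (nat_lit 58) (nat_lit 5) (nat_lit 57) (nat_lit 4) (nat_lit 456) (nat_lit 410)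 (nat_lit 334)) (XT.lf (nat_lit 0) (nat_lit 45161707075) (nat_lit 152) (nat_lit 32659440520) (nat_lit 0) (nat_lit 2279225009) (nat_lit 55) (nat_lit 5) (nat_lit 57) (nat_lit 4) (nat_lit 55) (nat_lit 4) (nat_lit 457) (nat_lit 410) (nat_lit 333))))) (XT.nd (nat_lit 312) (nat_lit 456) (nat_lit 0) (XT.nd (nat_lit 156) (nat_lit 228) (nat_lit 0) (XT.nd (nat_lit 78) (nat_lit 76) (nat_lit 0) (XT.lf (nat_lit 0) (nat_lit 2705859969) (nat_lit 152) (nat_lit 37343970279) (nat_lit 76) (nat_lit 44362304199) (nat_lit 53) (nat_lit 5) (nat_lit 55) (nat_lit 5) (nat_lit 54) (nat_lit 4) (nat_lit 458) (nat_lit 410) (nat_lit 332)) (XT.lf (nat_lit 0) (nat_lit 43478896242) (nat_lit 152) (nat_lit 42871407207) (nat_lit 0) (nat_lit 2622844193) (nat_lit 52) (nat_lit 5) (nat_lit 54) (nat_lit 4) (nat_lit 52) (nat_lit 4) (nat_lit 459) (nat_lit 410) (nat_lit 331))) (XT.nd (nat_lit 78) (nat_lit 152) (nat_lit 0) (XT.lf (nat_lit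 0) (nat_lit 44393692951) (nat_lit 76) (nat_lit 45133827577) (nat_lit 76) (nat_lit 4270834226) (nat_lit 51) (nat_lit 4) (nat_lit 52) (nat_lit 5) (nat_lit 52) (nat_lit 4) (nat_lit 460) (nat_lit 410) (nat_lit 330)) (XT.lf (nat_lit 0) (nat_lit 40383047675) (nat_lit 152) (nat_lit 57064276801) (nat_lit 0) (nat_lit 1459790073) (nat_lit 49) (nat_lit 5) (nat_lit 51) (nat_lit 4) (nat_lit 49) (nat_lit 4) (nat_lit 461) (nat_lit 410) (nat_lit 329)))) (XT.nd (nat_lit 156) (nat_lit 228) (nat_lit 0) (XT.nd (nat_lit 78) (nat_lit 152) (nat_lit 0) (XT.lf (nat_lit 0) (nat_lit 38115933578) (nat_lit 76) (nat_lit 52561585411) (nat_lit 76) (nat_lit 13632660146) (nat_lit 48) (nat_lit 4) (nat_lit 49) (nat_lit 5) (nat_lit 49) (nat_lit 4) (nat_lit 462) (nat_lit 410) (nat_lit 328)) (XT.lf (nat_lit 0) (nat_lit 33330026292) (nat_lit 76) (nat_lit 1920802680) (nat_lit 152) (nat_lit 74791645174) (nat_lit 46) (nat_lit 5) (nat_lit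 47) (nat_lit 5) (nat_lit 48) (nat_lit 4) (nat_lit 463) (nat_lit 410) (nat_lit 327))) (XT.nd (nat_lit 78) (nat_lit 152) (nat_lit 0) (XT.lf (nat_lit 0) (nat_lit 26760038096) (nat_lit 76) (nat_lit 63213317008) (nat_lit 76) (nat_lit 26128524426) (nat_lit 45) (nat_lit 4) (nat_lit 46) (nat_lit 5) (nat_lit 46) (nat_lit 4) (nat_lit 464) (nat_lit 410) (nat_lit 326)) (XT.lf (nat_lit 0) (nat_lit 18777245385) (nat_lit 76) (nat_lit 8474619441) (nat_lit 152) (nat_lit 95290038678) (nat_lit 43) (nat_lit 5) (nat_lit 44) (nat_lit 5) (nat_lit 45) (nat_lit 4) (nat_lit 465) (nat_lit 410) (nat_lit 325)))))) (XT.nd (nat_lit 624) (nat_lit 684) (nat_lit 0) (XT.nd (nat_lit 312) (nat_lit 456) (nat_lit 0) (XT.nd (nat_lit 156) (nat_lit 152) (nat_lit 0) (XT.nd (nat_lit 78) (nat_lit 76) (nat_lit 0) (XT.lf (nat_lit 0) (nat_lit 8299190154) (nat_lit 76) (nat_lit 78189090723) (nat_lit 76) (nat_lit 42862381165) (nat_lit 42) (nat_lit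 4) (nat_lit 43) (nat_lit 5) (nat_lit 43) (nat_lit 4) (nat_lit 466) (nat_lit 410) (nat_lit 324)) (XT.lf (nat_lit 0) (nat_lit 15286248072) (nat_lit 152) (nat_lit 3993399709) (nat_lit 76) (nat_lit 117315374893) (nat_lit 41) (nat_lit 5) (nat_lit 43) (nat_lit 5) (nat_lit 42) (nat_lit 4) (nat_lit 467) (nat_lit 410) (nat_lit 323))) (XT.nd (nat_lit 78) (nat_lit 76) (nat_lit 0) (XT.lf (nat_lit 0) (nat_lit 79291985929) (nat_lit 152) (nat_lit 19315384548) (nat_lit 0) (nat_lit 45641083267) (nat_lit 40) (nat_lit 5) (nat_lit 42) (nat_lit 4) (nat_lit 40) (nat_lit 4) (nat_lit 468) (nat_lit 410) (nat_lit 322)) (XT.lf (nat_lit 0) (nat_lit 115141301602) (nat_lit 76) (nat_lit 35458761561) (nat_lit 76) (nat_lit 1805002164) (nat_lit 39) (nat_lit 4) (nat_lit 40) (nat_lit 5) (nat_lit 40) (nat_lit 4) (nat_lit 469) (nat_lit 410) (nat_lit 321)))) (XT.nd (nat_lit 156) (nat_lit 228) (nat_lit 0) (XT.nd (nat_lit 78) (nat_lit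 76) (nat_lit 0) (XT.lf (nat_lit 0) (nat_lit 66757118200) (nat_lit 152) (nat_lit 59577669341) (nat_lit 0) (nat_lit 34703399608) (nat_lit 37) (nat_lit 5) (nat_lit 39) (nat_lit 4) (nat_lit 37) (nat_lit 4) (nat_lit 470) (nat_lit 410) (nat_lit 320)) (XT.lf (nat_lit 0) (nat_lit 84321730809) (nat_lit 76) (nat_lit 58983298309) (nat_lit 76) (nat_lit 26927247156) (nat_lit 36) (nat_lit 4) (nat_lit 37) (nat_lit 5) (nat_lit 37) (nat_lit 4) (nat_lit 471) (nat_lit 410) (nat_lit 319))) (XT.nd (nat_lit 78) (nat_lit 76) (nat_lit 0) (XT.lf (nat_lit 0) (nat_lit 46636282062) (nat_lit 152) (nat_lit 117270804768) (nat_lit 0) (nat_lit 16104652602) (nat_lit 34) (nat_lit 5) (nat_lit 36) (nat_lit 4) (nat_lit 34) (nat_lit 4) (nat_lit 472) (nat_lit 410) (nat_lit 318)) (XT.lf (nat_lit 0) (nat_lit 35495740408) (nat_lit 76) (nat_lit 92717838761) (nat_lit 76) (nat_lit 62184304734) (nat_lit 33) (nat_lit 4) (nat_lit 34) (nat_lit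 5) (nat_lit 34) (nat_lit 4) (nat_lit 473) (nat_lit 410) (nat_lit 317))))) (XT.nd (nat_lit 312) (nat_lit 304) (nat_lit 0) (XT.nd (nat_lit 156) (nat_lit 228) (nat_lit 0) (XT.nd (nat_lit 78) (nat_lit 0) (nat_lit 0) (XT.lf (nat_lit 0) (nat_lit 2970303355) (nat_lit 76) (nat_lit 13373892191) (nat_lit 152) (nat_lit 185153616547) (nat_lit 31) (nat_lit 5) (nat_lit 32) (nat_lit 5) (nat_lit 33) (nat_lit 4) (nat_lit 474) (nat_lit 410) (nat_lit 316)) (XT.lf (nat_lit 0) (nat_lit 102867334823) (nat_lit 152) (nat_lit 36588335305) (nat_lit 0) (nat_lit 73784543990) (nat_lit 31) (nat_lit 5) (nat_lit 33) (nat_lit 4) (nat_lit 31) (nat_lit 4) (nat_lit 475) (nat_lit 410) (nat_lit 315))) (XT.nd (nat_lit 78) (nat_lit 152) (nat_lit 0) (XT.lf (nat_lit 0) (nat_lit 142627172314) (nat_lit 76) (nat_lit 56128450929) (nat_lit 76) (nat_lit 27044220185) (nat_lit 30) (nat_lit 4) (nat_lit 31) (nat_lit 5) (nat_lit 31) (nat_lit 4)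 (nat_lit 476) (nat_lit 410) (nat_lit 314)) (XT.lf (nat_lit 0) (nat_lit 63722770076) (nat_lit 152) (nat_lit 139430755475) (nat_lit 0) (nat_lit 36022232938) (nat_lit 28) (nat_lit 5) (nat_lit 30) (nat_lit 4) (nat_lit 28) (nat_lit 4) (nat_lit 477) (nat_lit 410) (nat_lit 313)))) (XT.nd (nat_lit 156) (nat_lit 152) (nat_lit 0) (XT.nd (nat_lit 78) (nat_lit 76) (nat_lit 0) (XT.lf (nat_lit 0) (nat_lit 46770341145) (nat_lit 76) (nat_lit 117186641519) (nat_lit 76) (nat_lit 89484928675) (nat_lit 27) (nat_lit 4) (nat_lit 28) (nat_lit 5) (nat_lit 28) (nat_lit 4) (nat_lit 478) (nat_lit 410) (nat_lit 312)) (XT.lf (nat_lit 0) (nat_lit 5713350154) (nat_lit 152) (nat_lit 15990433645) (nat_lit 76) (nat_lit 247019932548) (nat_lit 26) (nat_lit 5) (nat_lit 28) (nat_lit 5) (nat_lit 27) (nat_lit 4) (nat_lit 479) (nat_lit 410) (nat_lit 311))) (XT.nd (nat_lit 78) (nat_lit 76) (nat_lit 0) (XT.lf (nat_lit 0) (nat_lit 109811261645)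 (nat_lit 152) (nat_lit 91695830280) (nat_lit 0) (nat_lit 83426681226) (nat_lit 25) (nat_lit 5) (nat_lit 27) (nat_lit 4) (nat_lit 25) (nat_lit 4) (nat_lit 480) (nat_lit 410) (nat_lit 310)) (XT.lf (nat_lit 0) (nat_lit 120830581566) (nat_lit 76) (nat_lit 103934557787) (nat_lit 76) (nat_lit 77549088498) (nat_lit 24) (nat_lit 4) (nat_lit 25) (nat_lit 5) (nat_lit 25) (nat_lit 4) (nat_lit 481) (nat_lit 410) (nat_lit 309))))))) (XT.nd (nat_lit 1248) (nat_lit 304) (nat_lit 0) (XT.nd (nat_lit 624) (nat_lit 456) (nat_lit 0) (XT.nd (nat_lit 312) (nat_lit 228) (nat_lit 0) (XT.nd (nat_lit 156) (nat_lit 228) (nat_lit 0) (XT.nd (nat_lit 78) (nat_lit 0) (nat_lit 0) (XT.lf (nat_lit 0) (nat_lit 29138957416) (nat_lit 152) (nat_lit 287805306462) (nat_lit 0) (nat_lit 4009155208) (nat_lit 22) (nat_lit 5) (nat_lit 24) (nat_lit 4) (nat_lit 22) (nat_lit 4) (nat_lit 482) (nat_lit 410) (nat_lit 308)) (XT.lf (nat_lit 0)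 (nat_lit 146640075694) (nat_lit 152) (nat_lit 72620808848) (nat_lit 0) (nat_lit 121509547712) (nat_lit 22) (nat_lit 5) (nat_lit 24) (nat_lit 4) (nat_lit 22) (nat_lit 4) (nat_lit 483) (nat_lit 410) (nat_lit 307))) (XT.nd (nat_lit 78) (nat_lit 152) (nat_lit 0) (XT.lf (nat_lit 0) (nat_lit 165047773339) (nat_lit 76) (nat_lit 111063857877) (nat_lit 76) (nat_lit 85932657882) (nat_lit 21) (nat_lit 4) (nat_lit 22) (nat_lit 5) (nat_lit 22) (nat_lit 4) (nat_lit 484) (nat_lit 410) (nat_lit 306)) (XT.lf (nat_lit 0) (nat_lit 31966769089) (nat_lit 152) (nat_lit 344895668405) (nat_lit 0) (nat_lit 8031700299) (nat_lit 19) (nat_lit 5) (nat_lit 21) (nat_lit 4) (nat_lit 19) (nat_lit 4) (nat_lit 485) (nat_lit 410) (nat_lit 305)))) (XT.nd (nat_lit 156) (nat_lit 152) (nat_lit 0) (XT.nd (nat_lit 78) (nat_lit 76) (nat_lit 0) (XT.lf (nat_lit 0) (nat_lit 161682135532) (nat_lit 152) (nat_lit 109803151868) (nat_lit 0) (nat_lit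 137746518035) (nat_lit 19) (nat_lit 5) (nat_lit 21) (nat_lit 4) (nat_lit 19) (nat_lit 4) (nat_lit 486) (nat_lit 410) (nat_lit 304)) (XT.lf (nat_lit 0) (nat_lit 148849285284) (nat_lit 76) (nat_lit 155243706864) (nat_lit 76) (nat_lit 131307581305) (nat_lit 18) (nat_lit 4) (nat_lit 19) (nat_lit 5) (nat_lit 19) (nat_lit 4) (nat_lit 487) (nat_lit 410) (nat_lit 303))) (XT.nd (nat_lit 78) (nat_lit 152) (nat_lit 0) (XT.lf (nat_lit 0) (nat_lit 432103868699) (nat_lit 76) (nat_lit 27700103727) (nat_lit 76) (nat_lit 3763507739) (nat_lit 18) (nat_lit 4) (nat_lit 19) (nat_lit 5) (nat_lit 19) (nat_lit 4) (nat_lit 488) (nat_lit 410) (nat_lit 302)) (XT.lf (nat_lit 0) (nat_lit 135409037256) (nat_lit 152) (nat_lit 245576580811) (nat_lit 0) (nat_lit 112611864332) (nat_lit 16) (nat_lit 5) (nat_lit 18) (nat_lit 4) (nat_lit 16) (nat_lit 4) (nat_lit 489) (nat_lit 410) (nat_lit 301))))) (XT.nd (nat_lit 312) (nat_lit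 228) (nat_lit 0) (XT.nd (nat_lit 156) (nat_lit 152) (nat_lit 0) (XT.nd (nat_lit 78) (nat_lit 0) (nat_lit 0) (XT.lf (nat_lit 0) (nat_lit 25243537491) (nat_lit 76) (nat_lit 261755033752) (nat_lit 76) (nat_lit 238957476718) (nat_lit 15) (nat_lit 4) (nat_lit 16) (nat_lit 5) (nat_lit 16) (nat_lit 4) (nat_lit 490) (nat_lit 410) (nat_lit 300)) (XT.lf (nat_lit 0) (nat_lit 326489021988) (nat_lit 76) (nat_lit 128499269158) (nat_lit 76) (nat_lit 105701356465) (nat_lit 15) (nat_lit 4) (nat_lit 16) (nat_lit 5) (nat_lit 16) (nat_lit 4) (nat_lit 491) (nat_lit 410) (nat_lit 299))) (XT.nd (nat_lit 78) (nat_lit 0) (nat_lit 0) (XT.lf (nat_lit 0) (nat_lit 38107340824) (nat_lit 152) (nat_lit 543614271957) (nat_lit 0) (nat_lit 16394729390) (nat_lit 13) (nat_lit 5) (nat_lit 15) (nat_lit 4) (nat_lit 13) (nat_lit 4) (nat_lit 492) (nat_lit 410) (nat_lit 298)) (XT.lf (nat_lit 0) (nat_lit 196075861573) (nat_lit 152) (nat_lit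 267693791116) (nat_lit 0) (nat_lit 174362959739) (nat_lit 13) (nat_lit 5) (nat_lit 15) (nat_lit 4) (nat_lit 13) (nat_lit 4) (nat_lit 493) (nat_lit 410) (nat_lit 297)))) (XT.nd (nat_lit 156) (nat_lit 152) (nat_lit 0) (XT.nd (nat_lit 78) (nat_lit 0) (nat_lit 0) (XT.lf (nat_lit 0) (nat_lit 31293698759) (nat_lit 76) (nat_lit 335872714407) (nat_lit 76) (nat_lit 314159543684) (nat_lit 12) (nat_lit 4) (nat_lit 13) (nat_lit 5) (nat_lit 13) (nat_lit 4) (nat_lit 494) (nat_lit 410) (nat_lit 296)) (XT.lf (nat_lit 0) (nat_lit 363751580898) (nat_lit 76) (nat_lit 192851823915) (nat_lit 76) (nat_lit 171138404221) (nat_lit 12) (nat_lit 4) (nat_lit 13) (nat_lit 5) (nat_lit 13) (nat_lit 4) (nat_lit 495) (nat_lit 410) (nat_lit 295))) (XT.nd (nat_lit 78) (nat_lit 152) (nat_lit 0) (XT.lf (nat_lit 0) (nat_lit 722798810409) (nat_lit 76) (nat_lit 38392973892) (nat_lit 76) (nat_lit 16679323670) (nat_lit 12) (nat_lit 4)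 (nat_lit 13) (nat_lit 5) (nat_lit 13) (nat_lit 4) (nat_lit 496) (nat_lit 410) (nat_lit 294)) (XT.lf (nat_lit 0) (nat_lit 151899228698) (nat_lit 152) (nat_lit 548446558511) (nat_lit 0) (nat_lit 131219358532) (nat_lit 10) (nat_lit 5) (nat_lit 12) (nat_lit 4) (nat_lit 10) (nat_lit 4) (nat_lit 497) (nat_lit 410) (nat_lit 293)))))) (XT.nd (nat_lit 624) (nat_lit 76) (nat_lit 0) (XT.nd (nat_lit 312) (nat_lit 152) (nat_lit 0) (XT.nd (nat_lit 156) (nat_lit 0) (nat_lit 0) (XT.nd (nat_lit 78) (nat_lit 76) (nat_lit 0) (XT.lf (nat_lit 0) (nat_lit 335006674786) (nat_lit 152) (nat_lit 240126395192) (nat_lit 0) (nat_lit 314326616390) (nat_lit 10) (nat_lit 5) (nat_lit 12) (nat_lit 4) (nat_lit 10) (nat_lit 4) (nat_lit 498) (nat_lit 410) (nat_lit 292)) (XT.lf (nat_lit 0) (nat_lit 95923355888) (nat_lit 76) (nat_lit 438333968331) (nat_lit 76) (nat_lit 417653735648) (nat_lit 9) (nat_lit 4) (nat_lit 10) (nat_lit 5)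 (nat_lit 10) (nat_lit 4) (nat_lit 499) (nat_lit 410) (nat_lit 291))) (XT.nd (nat_lit 78) (nat_lit 0) (nat_lit 0) (XT.lf (nat_lit 0) (nat_lit 467426019639) (nat_lit 76) (nat_lit 286201959984) (nat_lit 76) (nat_lit 265521565925) (nat_lit 9) (nat_lit 4) (nat_lit 10) (nat_lit 5) (nat_lit 10) (nat_lit 4) (nat_lit 500) (nat_lit 410) (nat_lit 290)) (XT.lf (nat_lit 0) (nat_lit 868643430261) (nat_lit 76) (nat_lit 121902178617) (nat_lit 76) (nat_lit 101221635135) (nat_lit 9) (nat_lit 4) (nat_lit 10) (nat_lit 5) (nat_lit 10) (nat_lit 4) (nat_lit 501) (nat_lit 410) (nat_lit 289)))) (XT.nd (nat_lit 156) (nat_lit 0) (nat_lit 0) (XT.nd (nat_lit 78) (nat_lit 0) (nat_lit 0) (XT.lf (nat_lit 0) (nat_lit 76807278013) (nat_lit 152) (nat_lit 1036064958758) (nat_lit 0) (nat_lit 57111390550) (nat_lit 7) (nat_lit 5) (nat_lit 9) (nat_lit 4) (nat_lit 7) (nat_lit 4) (nat_lit 502) (nat_lit 410) (nat_lit 288)) (XT.lf (nat_lit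 0) (nat_lit 271583033913) (nat_lit 152) (nat_lit 730601752249) (nat_lit 0) (nat_lit 251887024444) (nat_lit 7) (nat_lit 5) (nat_lit 9) (nat_lit 4) (nat_lit 7) (nat_lit 4) (nat_lit 503) (nat_lit 410) (nat_lit 287))) (XT.nd (nat_lit 78) (nat_lit 0) (nat_lit 0) (XT.lf (nat_lit 0) (nat_lit 481938581652) (nat_lit 152) (nat_lit 400706121120) (nat_lit 0) (nat_lit 462242459215) (nat_lit 7) (nat_lit 5) (nat_lit 9) (nat_lit 4) (nat_lit 7) (nat_lit 4) (nat_lit 504) (nat_lit 410) (nat_lit 286)) (XT.lf (nat_lit 0) (nat_lit 709120472624) (nat_lit 152) (nat_lit 44423128298) (nat_lit 0) (nat_lit 689424245587) (nat_lit 7) (nat_lit 5) (nat_lit 9) (nat_lit 4) (nat_lit 7) (nat_lit 4) (nat_lit 505) (nat_lit 410) (nat_lit 285))))) (XT.nd (nat_lit 55302) (nat_lit 0) (nat_lit 12236) (XT.nd (nat_lit 55146) (nat_lit 0) (nat_lit 12768) (XT.nd (nat_lit 55068) (nat_lit 0) (nat_lit 12768) (XT.lf (nat_lit 0) (nat_lit 351612323039)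 (nat_lit 76) (nat_lit 608352300604) (nat_lit 76) (nat_lit 588655976715) (nat_lit 6) (nat_lit 4) (nat_lit 7) (nat_lit 5) (nat_lit 7) (nat_lit 4) (nat_lit 506) (nat_lit 410) (nat_lit 284)) (XT.lf (nat_lit 0) (nat_lit 1015446036) (nat_lit 0) (nat_lit 1015446036) (nat_lit 684) (nat_lit 2946441836) (nat_lit 174) (nat_lit 5) (nat_lit 174) (nat_lit 3) (nat_lit 183) (nat_lit 3) (nat_lit 411) (nat_lit 411) (nat_lit 378))) (XT.nd (nat_lit 78) (nat_lit 0) (nat_lit 76) (XT.lf (nat_lit 0) (nat_lit 5412715557) (nat_lit 684) (nat_lit 61808593) (nat_lit 760) (nat_lit 4818815882) (nat_lit 174) (nat_lit 5) (nat_lit 183) (nat_lit 3) (nat_lit 184) (nat_lit 5) (nat_lit 412) (nat_lit 411) (nat_lit 377)) (XT.lf (nat_lit 0) (nat_lit 6956310398) (nat_lit 684) (nat_lit 2074001414) (nat_lit 760) (nat_lit 1624573920) (nat_lit 175) (nat_lit 5) (nat_lit 184) (nat_lit 5) (nat_lit 185) (nat_lit 5) (nat_lit 413) (nat_lit 411)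 (nat_lit 376)))) (XT.nd (nat_lit 156) (nat_lit 608) (nat_lit 0) (XT.nd (nat_lit 78) (nat_lit 0) (nat_lit 76) (XT.lf (nat_lit 76) (nat_lit 6936435499) (nat_lit 0) (nat_lit 1786323707) (nat_lit 760) (nat_lit 2317636040) (nat_lit 176) (nat_lit 5) (nat_lit 175) (nat_lit 5) (nat_lit 185) (nat_lit 5) (nat_lit 414) (nat_lit 411) (nat_lit 375)) (XT.lf (nat_lit 76) (nat_lit 5293785679) (nat_lit 0) (nat_lit 5455160071) (nat_lit 760) (nat_lit 701886526) (nat_lit 177) (nat_lit 5) (nat_lit 176) (nat_lit 5) (nat_lit 186) (nat_lit 5) (nat_lit 415) (nat_lit 411) (nat_lit 374))) (XT.nd (nat_lit 78) (nat_lit 0) (nat_lit 0) (XT.lf (nat_lit 0) (nat_lit 1120643754) (nat_lit 760) (nat_lit 8228143953) (nat_lit 836) (nat_lit 2538963816) (nat_lit 167) (nat_lit 5) (nat_lit 177) (nat_lit 5) (nat_lit 178) (nat_lit 5) (nat_lit 416) (nat_lit 411) (nat_lit 373)) (XT.lf (nat_lit 76) (nat_lit 2016853407) (nat_lit 0) (nat_lit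 1195728662) (nat_lit 836) (nat_lit 9139063517) (nat_lit 168) (nat_lit 5) (nat_lit 167) (nat_lit 5) (nat_lit 178) (nat_lit 5) (nat_lit 417) (nat_lit 411) (nat_lit 372))))))))
noncomputable def xc63 : XT := (XT.nd (nat_lit 2496) (nat_lit 3268) (nat_lit 0) (XT.nd (nat_lit 1248) (nat_lit 2736) (nat_lit 0) (XT.nd (nat_lit 624) (nat_lit 1824) (nat_lit 0) (XT.nd (nat_lit 312) (nat_lit 1368) (nat_lit 0) (XT.nd (nat_lit 156) (nat_lit 912) (nat_lit 0) (XT.nd (nat_lit 78) (nat_lit 0) (nat_lit 0) (XT.lf (nat_lit 0) (nat_lit 349328050) (nat_lit 760) (nat_lit 5313308330) (nat_lit 836) (nat_lit 7180482681) (nat_lit 158) (nat_lit 5) (nat_lit 168) (nat_lit 5) (nat_lit 169) (nat_lit 5) (nat_lit 418) (nat_lit 411) (nat_lit 371)) (XT.lf (nat_lit 0) (nat_lit 8492501852) (nat_lit 836) (nat_lit 1256973529) (nat_lit 76) (nat_lit 3615250187) (nat_lit 158) (nat_lit 5) (nat_lit 169) (nat_lit 5) (nat_lit 159) (nat_lit 5)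 (nat_lit 419) (nat_lit 411) (nat_lit 370))) (XT.nd (nat_lit 78) (nat_lit 456) (nat_lit 0) (XT.lf (nat_lit 0) (nat_lit 11077778204) (nat_lit 456) (nat_lit 664768511) (nat_lit 532) (nat_lit 2175829459) (nat_lit 152) (nat_lit 5) (nat_lit 158) (nat_lit 5) (nat_lit 159) (nat_lit 5) (nat_lit 420) (nat_lit 411) (nat_lit 369)) (XT.lf (nat_lit 0) (nat_lit 974123043) (nat_lit 456) (nat_lit 4478370447) (nat_lit 76) (nat_lit 9050184450) (nat_lit 146) (nat_lit 5) (nat_lit 152) (nat_lit 5) (nat_lit 147) (nat_lit 5) (nat_lit 421) (nat_lit 411) (nat_lit 368)))) (XT.nd (nat_lit 156) (nat_lit 684) (nat_lit 0) (XT.nd (nat_lit 78) (nat_lit 304) (nat_lit 0) (XT.lf (nat_lit 0) (nat_lit 4514221935) (nat_lit 456) (nat_lit 6132534825) (nat_lit 76) (nat_lit 4474468742) (nat_lit 141) (nat_lit 5) (nat_lit 147) (nat_lit 5) (nat_lit 142) (nat_lit 5) (nat_lit 422) (nat_lit 411) (nat_lit 367)) (XT.lf (nat_lit 0) (nat_lit 8005145425)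 (nat_lit 304) (nat_lit 570295158) (nat_lit 380) (nat_lit 7201924539) (nat_lit 137) (nat_lit 5) (nat_lit 141) (nat_lit 5) (nat_lit 142) (nat_lit 5) (nat_lit 423) (nat_lit 411) (nat_lit 366))) (XT.nd (nat_lit 78) (nat_lit 380) (nat_lit 0) (XT.lf (nat_lit 0) (nat_lit 7008418763) (nat_lit 304) (nat_lit 6277058744) (nat_lit 380) (nat_lit 3184325926) (nat_lit 133) (nat_lit 5) (nat_lit 137) (nat_lit 5) (nat_lit 138) (nat_lit 5) (nat_lit 424) (nat_lit 411) (nat_lit 365)) (XT.lf (nat_lit 0) (nat_lit 1383439269) (nat_lit 380) (nat_lit 11142044261) (nat_lit 76) (nat_lit 4677969246) (nat_lit 128) (nat_lit 5) (nat_lit 133) (nat_lit 5) (nat_lit 129) (nat_lit 5) (nat_lit 425) (nat_lit 411) (nat_lit 364))))) (XT.nd (nat_lit 312) (nat_lit 684) (nat_lit 0) (XT.nd (nat_lit 156) (nat_lit 608) (nat_lit 0) (XT.nd (nat_lit 78) (nat_lit 228) (nat_lit 0) (XT.lf (nat_lit 0) (nat_lit 5114025105) (nat_lit 304) (nat_lit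 1395671850) (nat_lit 380) (nat_lit 11468258188) (nat_lit 124) (nat_lit 5) (nat_lit 128) (nat_lit 5) (nat_lit 129) (nat_lit 5) (nat_lit 426) (nat_lit 411) (nat_lit 363)) (XT.lf (nat_lit 0) (nat_lit 4164850560) (nat_lit 228) (nat_lit 8261862584) (nat_lit 304) (nat_lit 6368674354) (nat_lit 121) (nat_lit 5) (nat_lit 124) (nat_lit 5) (nat_lit 125) (nat_lit 5) (nat_lit 427) (nat_lit 411) (nat_lit 362))) (XT.nd (nat_lit 78) (nat_lit 304) (nat_lit 0) (XT.lf (nat_lit 0) (nat_lit 3307283440) (nat_lit 304) (nat_lit 15824805473) (nat_lit 380) (nat_lit 530378106) (nat_lit 117) (nat_lit 5) (nat_lit 121) (nat_lit 5) (nat_lit 122) (nat_lit 5) (nat_lit 428) (nat_lit 411) (nat_lit 361)) (XT.lf (nat_lit 0) (nat_lit 2398395256) (nat_lit 228) (nat_lit 3584071489) (nat_lit 304) (nat_lit 14592324153) (nat_lit 113) (nat_lit 5) (nat_lit 116) (nat_lit 5) (nat_lit 117) (nat_lit 5) (nat_lit 429) (nat_lit 411) (nat_lit 360))))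 (XT.nd (nat_lit 156) (nat_lit 304) (nat_lit 0) (XT.nd (nat_lit 78) (nat_lit 152) (nat_lit 0) (XT.lf (nat_lit 0) (nat_lit 1514601272) (nat_lit 228) (nat_lit 11905631405) (nat_lit 304) (nat_lit 8118311542) (nat_lit 110) (nat_lit 5) (nat_lit 113) (nat_lit 5) (nat_lit 114) (nat_lit 5) (nat_lit 430) (nat_lit 411) (nat_lit 359)) (XT.lf (nat_lit 0) (nat_lit 747511005) (nat_lit 152) (nat_lit 21077729883) (nat_lit 228) (nat_lit 735547751) (nat_lit 108) (nat_lit 5) (nat_lit 110) (nat_lit 5) (nat_lit 111) (nat_lit 5) (nat_lit 431) (nat_lit 411) (nat_lit 358))) (XT.nd (nat_lit 78) (nat_lit 228) (nat_lit 0) (XT.lf (nat_lit 0) (nat_lit 7523332142) (nat_lit 228) (nat_lit 129118617) (nat_lit 76) (nat_lit 15980855821) (nat_lit 107) (nat_lit 5) (nat_lit 110) (nat_lit 5) (nat_lit 108) (nat_lit 5) (nat_lit 432) (nat_lit 411) (nat_lit 357)) (XT.lf (nat_lit 0) (nat_lit 16869729021) (nat_lit 304) (nat_lit 895456595)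 (nat_lit 76) (nat_lit 7003210141) (nat_lit 104) (nat_lit 5) (nat_lit 108) (nat_lit 5) (nat_lit 105) (nat_lit 5) (nat_lit 433) (nat_lit 411) (nat_lit 356)))))) (XT.nd (nat_lit 624) (nat_lit 1216) (nat_lit 0) (XT.nd (nat_lit 312) (nat_lit 684) (nat_lit 0) (XT.nd (nat_lit 156) (nat_lit 380) (nat_lit 0) (XT.nd (nat_lit 78) (nat_lit 228) (nat_lit 0) (XT.lf (nat_lit 0) (nat_lit 1424942090) (nat_lit 228) (nat_lit 1588487805) (nat_lit 76) (nat_lit 22955785263) (nat_lit 101) (nat_lit 5) (nat_lit 104) (nat_lit 5) (nat_lit 102) (nat_lit 5) (nat_lit 434) (nat_lit 411) (nat_lit 355)) (XT.lf (nat_lit 0) (nat_lit 11806240183) (nat_lit 304) (nat_lit 2388135858) (nat_lit 76) (nat_lit 13035824441) (nat_lit 98) (nat_lit 5) (nat_lit 102) (nat_lit 5) (nat_lit 99) (nat_lit 5) (nat_lit 435) (nat_lit 411) (nat_lit 354))) (XT.nd (nat_lit 78) (nat_lit 228) (nat_lit 0) (XT.lf (nat_lit 0) (nat_lit 23497829824) (nat_lit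 228) (nat_lit 3032927489) (nat_lit 76) (nat_lit 2037319098) (nat_lit 96) (nat_lit 5) (nat_lit 99) (nat_lit 5) (nat_lit 97) (nat_lit 5) (nat_lit 436) (nat_lit 411) (nat_lit 353)) (XT.lf (nat_lit 0) (nat_lit 6589599240) (nat_lit 228) (nat_lit 3766671908) (nat_lit 76) (nat_lit 19618268720) (nat_lit 93) (nat_lit 5) (nat_lit 96) (nat_lit 5) (nat_lit 94) (nat_lit 5) (nat_lit 437) (nat_lit 411) (nat_lit 352)))) (XT.nd (nat_lit 156) (nat_lit 304) (nat_lit 0) (XT.nd (nat_lit 78) (nat_lit 228) (nat_lit 0) (XT.lf (nat_lit 0) (nat_lit 19575407930) (nat_lit 228) (nat_lit 4447543699) (nat_lit 76) (nat_lit 7437873186) (nat_lit 91) (nat_lit 5) (nat_lit 94) (nat_lit 5) (nat_lit 92) (nat_lit 5) (nat_lit 438) (nat_lit 411) (nat_lit 351)) (XT.lf (nat_lit 0) (nat_lit 1178305206) (nat_lit 228) (nat_lit 5051944905) (nat_lit 76) (nat_lit 26802279871) (nat_lit 88) (nat_lit 5) (nat_lit 91) (nat_lit 5) (nat_lit 89) (nat_lit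 5) (nat_lit 439) (nat_lit 411) (nat_lit 350))) (XT.nd (nat_lit 78) (nat_lit 152) (nat_lit 0) (XT.lf (nat_lit 0) (nat_lit 15597246298) (nat_lit 228) (nat_lit 5789266104) (nat_lit 76) (nat_lit 13297391373) (nat_lit 86) (nat_lit 5) (nat_lit 89) (nat_lit 5) (nat_lit 87) (nat_lit 5) (nat_lit 440) (nat_lit 411) (nat_lit 349)) (XT.lf (nat_lit 0) (nat_lit 30085623637) (nat_lit 152) (nat_lit 1722411838) (nat_lit 228) (nat_lit 4627436074) (nat_lit 84) (nat_lit 5) (nat_lit 86) (nat_lit 5) (nat_lit 87) (nat_lit 5) (nat_lit 441) (nat_lit 411) (nat_lit 348))))) (XT.nd (nat_lit 312) (nat_lit 608) (nat_lit 0) (XT.nd (nat_lit 156) (nat_lit 304) (nat_lit 0) (XT.nd (nat_lit 78) (nat_lit 152) (nat_lit 0) (XT.lf (nat_lit 0) (nat_lit 11523114902) (nat_lit 152) (nat_lit 7100800480) (nat_lit 76) (nat_lit 19650357255) (nat_lit 82) (nat_lit 5) (nat_lit 84) (nat_lit 5) (nat_lit 83) (nat_lit 5) (nat_lit 442) (nat_lit 411)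 (nat_lit 347)) (XT.lf (nat_lit 0) (nat_lit 29480315529) (nat_lit 228) (nat_lit 7712850081) (nat_lit 76) (nat_lit 3029383387) (nat_lit 80) (nat_lit 5) (nat_lit 83) (nat_lit 5) (nat_lit 81) (nat_lit 4) (nat_lit 443) (nat_lit 411) (nat_lit 346))) (XT.nd (nat_lit 78) (nat_lit 152) (nat_lit 0) (XT.lf (nat_lit 0) (nat_lit 7299906908) (nat_lit 152) (nat_lit 8446453802) (nat_lit 76) (nat_lit 26527113106) (nat_lit 78) (nat_lit 5) (nat_lit 80) (nat_lit 5) (nat_lit 79) (nat_lit 5) (nat_lit 444) (nat_lit 411) (nat_lit 345)) (XT.lf (nat_lit 0) (nat_lit 27210447221) (nat_lit 228) (nat_lit 9183615559) (nat_lit 76) (nat_lit 8045535998) (nat_lit 76) (nat_lit 5) (nat_lit 79) (nat_lit 5) (nat_lit 77) (nat_lit 4) (nat_lit 445) (nat_lit 411) (nat_lit 344)))) (XT.nd (nat_lit 156) (nat_lit 304) (nat_lit 0) (XT.nd (nat_lit 78) (nat_lit 152) (nat_lit 0) (XT.lf (nat_lit 0) (nat_lit 2857498546) (nat_lit 152) (nat_lit 9920345625)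 (nat_lit 76) (nat_lit 33950429205) (nat_lit 74) (nat_lit 5) (nat_lit 76) (nat_lit 5) (nat_lit 75) (nat_lit 5) (nat_lit 446) (nat_lit 411) (nat_lit 343)) (XT.lf (nat_lit 0) (nat_lit 24914090170) (nat_lit 228) (nat_lit 10848732643) (nat_lit 76) (nat_lit 13374765511) (nat_lit 72) (nat_lit 5) (nat_lit 75) (nat_lit 5) (nat_lit 73) (nat_lit 4) (nat_lit 447) (nat_lit 411) (nat_lit 342))) (XT.nd (nat_lit 78) (nat_lit 228) (nat_lit 0) (XT.lf (nat_lit 0) (nat_lit 40002090801) (nat_lit 76) (nat_lit 9728388059) (nat_lit 152) (nat_lit 1959406483) (nat_lit 71) (nat_lit 5) (nat_lit 72) (nat_lit 5) (nat_lit 73) (nat_lit 4) (nat_lit 448) (nat_lit 411) (nat_lit 341)) (XT.lf (nat_lit 0) (nat_lit 22510603550) (nat_lit 228) (nat_lit 12868955405) (nat_lit 76) (nat_lit 18992982669) (nat_lit 68) (nat_lit 5) (nat_lit 71) (nat_lit 5) (nat_lit 69) (nat_lit 4) (nat_lit 449) (nat_lit 411) (nat_lit 340))))))) (XT.nd (nat_lit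 1248) (nat_lit 1520) (nat_lit 0) (XT.nd (nat_lit 624) (nat_lit 836) (nat_lit 0) (XT.nd (nat_lit 312) (nat_lit 456) (nat_lit 0) (XT.nd (nat_lit 156) (nat_lit 228) (nat_lit 0) (XT.nd (nat_lit 78) (nat_lit 152) (nat_lit 0) (XT.lf (nat_lit 0) (nat_lit 43256008584) (nat_lit 76) (nat_lit 6641696793) (nat_lit 152) (nat_lit 7319092303) (nat_lit 67) (nat_lit 5) (nat_lit 68) (nat_lit 5) (nat_lit 69) (nat_lit 4) (nat_lit 450) (nat_lit 411) (nat_lit 339)) (XT.lf (nat_lit 0) (nat_lit 19888296867) (nat_lit 152) (nat_lit 15468519809) (nat_lit 76) (nat_lit 24851038252) (nat_lit 65) (nat_lit 5) (nat_lit 67) (nat_lit 5) (nat_lit 66) (nat_lit 4) (nat_lit 451) (nat_lit 411) (nat_lit 338))) (XT.nd (nat_lit 78) (nat_lit 152) (nat_lit 0) (XT.lf (nat_lit 0) (nat_lit 46420100482) (nat_lit 76) (nat_lit 3665173534) (nat_lit 152) (nat_lit 13293452618) (nat_lit 64) (nat_lit 5) (nat_lit 65) (nat_lit 5) (nat_lit 66) (nat_lit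 4) (nat_lit 452) (nat_lit 411) (nat_lit 337)) (XT.lf (nat_lit 0) (nat_lit 16894132626) (nat_lit 152) (nat_lit 18956332361) (nat_lit 76) (nat_lit 30864989110) (nat_lit 62) (nat_lit 5) (nat_lit 64) (nat_lit 5) (nat_lit 63) (nat_lit 4) (nat_lit 453) (nat_lit 411) (nat_lit 336)))) (XT.nd (nat_lit 156) (nat_lit 228) (nat_lit 0) (XT.nd (nat_lit 78) (nat_lit 152) (nat_lit 0) (XT.lf (nat_lit 0) (nat_lit 49207227944) (nat_lit 76) (nat_lit 943469225) (nat_lit 152) (nat_lit 20101540998) (nat_lit 61) (nat_lit 5) (nat_lit 62) (nat_lit 5) (nat_lit 63) (nat_lit 4) (nat_lit 454) (nat_lit 411) (nat_lit 335)) (XT.lf (nat_lit 0) (nat_lit 13320270845) (nat_lit 152) (nat_lit 23753616162) (nat_lit 76) (nat_lit 36903294203) (nat_lit 59) (nat_lit 5) (nat_lit 61) (nat_lit 5) (nat_lit 60) (nat_lit 4) (nat_lit 455) (nat_lit 411) (nat_lit 334))) (XT.nd (nat_lit 78) (nat_lit 152) (nat_lit 0) (XT.lf (nat_lit 0) (nat_lit 49913784212)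 (nat_lit 152) (nat_lit 26734338894) (nat_lit 0) (nat_lit 1275409245) (nat_lit 58) (nat_lit 5) (nat_lit 60) (nat_lit 4) (nat_lit 58) (nat_lit 4) (nat_lit 456) (nat_lit 411) (nat_lit 333)) (XT.lf (nat_lit 0) (nat_lit 8886527990) (nat_lit 152) (nat_lit 30429918794) (nat_lit 76) (nat_lit 42770017925) (nat_lit 56) (nat_lit 5) (nat_lit 58) (nat_lit 5) (nat_lit 57) (nat_lit 4) (nat_lit 457) (nat_lit 411) (nat_lit 332))))) (XT.nd (nat_lit 312) (nat_lit 456) (nat_lit 0) (XT.nd (nat_lit 156) (nat_lit 152) (nat_lit 0) (XT.nd (nat_lit 78) (nat_lit 152) (nat_lit 0) (XT.lf (nat_lit 0) (nat_lit 49078700204) (nat_lit 152) (nat_lit 34674431073) (nat_lit 0) (nat_lit 2740065744) (nat_lit 55) (nat_lit 5) (nat_lit 57) (nat_lit 4) (nat_lit 55) (nat_lit 4) (nat_lit 458) (nat_lit 411) (nat_lit 331)) (XT.lf (nat_lit 0) (nat_lit 3217553766) (nat_lit 152) (nat_lit 39749937605) (nat_lit 76) (nat_lit 48182850321) (nat_lit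 53) (nat_lit 5) (nat_lit 55) (nat_lit 5) (nat_lit 54) (nat_lit 4) (nat_lit 459) (nat_lit 411) (nat_lit 330))) (XT.nd (nat_lit 78) (nat_lit 76) (nat_lit 0) (XT.lf (nat_lit 0) (nat_lit 47243531045) (nat_lit 152) (nat_lit 45735020368) (nat_lit 0) (nat_lit 3098129793) (nat_lit 52) (nat_lit 5) (nat_lit 54) (nat_lit 4) (nat_lit 52) (nat_lit 4) (nat_lit 460) (nat_lit 411) (nat_lit 329)) (XT.lf (nat_lit 0) (nat_lit 48486685813) (nat_lit 76) (nat_lit 48476604634) (nat_lit 76) (nat_lit 4325252336) (nat_lit 51) (nat_lit 4) (nat_lit 52) (nat_lit 5) (nat_lit 52) (nat_lit 4) (nat_lit 461) (nat_lit 411) (nat_lit 328)))) (XT.nd (nat_lit 156) (nat_lit 228) (nat_lit 0) (XT.nd (nat_lit 78) (nat_lit 76) (nat_lit 0) (XT.lf (nat_lit 0) (nat_lit 43883450080) (nat_lit 152) (nat_lit 61093448704) (nat_lit 0) (nat_lit 1829295292) (nat_lit 49) (nat_lit 5) (nat_lit 51) (nat_lit 4) (nat_lit 49) (nat_lit 4) (nat_lit 462) (nat_lit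 411) (nat_lit 327)) (XT.lf (nat_lit 0) (nat_lit 41677885892) (nat_lit 76) (nat_lit 56511615424) (nat_lit 76) (nat_lit 14452601527) (nat_lit 48) (nat_lit 4) (nat_lit 49) (nat_lit 5) (nat_lit 49) (nat_lit 4) (nat_lit 463) (nat_lit 411) (nat_lit 326))) (XT.nd (nat_lit 78) (nat_lit 76) (nat_lit 0) (XT.lf (nat_lit 0) (nat_lit 36495113805) (nat_lit 76) (nat_lit 1826167597) (nat_lit 152) (nat_lit 80512069975) (nat_lit 46) (nat_lit 5) (nat_lit 47) (nat_lit 5) (nat_lit 48) (nat_lit 4) (nat_lit 464) (nat_lit 411) (nat_lit 325)) (XT.lf (nat_lit 0) (nat_lit 29386122686) (nat_lit 76) (nat_lit 68028105913) (nat_lit 76) (nat_lit 27963649748) (nat_lit 45) (nat_lit 4) (nat_lit 46) (nat_lit 5) (nat_lit 46) (nat_lit 4) (nat_lit 465) (nat_lit 411) (nat_lit 324)))))) (XT.nd (nat_lit 624) (nat_lit 684) (nat_lit 0) (XT.nd (nat_lit 312) (nat_lit 456) (nat_lit 0) (XT.nd (nat_lit 156) (nat_lit 152) (nat_lit 0) (XT.nd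 (nat_lit 78) (nat_lit 76) (nat_lit 0) (XT.lf (nat_lit 0) (nat_lit 20751429686) (nat_lit 76) (nat_lit 8916648111) (nat_lit 152) (nat_lit 102665373659) (nat_lit 43) (nat_lit 5) (nat_lit 44) (nat_lit 5) (nat_lit 45) (nat_lit 4) (nat_lit 466) (nat_lit 411) (nat_lit 323)) (XT.lf (nat_lit 0) (nat_lit 9422385006) (nat_lit 76) (nat_lit 84214117082) (nat_lit 76) (nat_lit 46050753926) (nat_lit 42) (nat_lit 4) (nat_lit 43) (nat_lit 5) (nat_lit 43) (nat_lit 4) (nat_lit 467) (nat_lit 411) (nat_lit 322))) (XT.nd (nat_lit 78) (nat_lit 76) (nat_lit 0) (XT.lf (nat_lit 0) (nat_lit 16724811309) (nat_lit 152) (nat_lit 3880499543) (nat_lit 76) (nat_lit 126906529537) (nat_lit 41) (nat_lit 5) (nat_lit 43) (nat_lit 5) (nat_lit 42) (nat_lit 4) (nat_lit 468) (nat_lit 411) (nat_lit 321)) (XT.lf (nat_lit 0) (nat_lit 85844728960) (nat_lit 152) (nat_lit 20439964061) (nat_lit 0) (nat_lit 49493166952) (nat_lit 40) (nat_lit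 5) (nat_lit 42) (nat_lit 4) (nat_lit 40) (nat_lit 4) (nat_lit 469) (nat_lit 411) (nat_lit 320)))) (XT.nd (nat_lit 156) (nat_lit 228) (nat_lit 0) (XT.nd (nat_lit 78) (nat_lit 152) (nat_lit 0) (XT.lf (nat_lit 0) (nat_lit 124754975990) (nat_lit 76) (nat_lit 38093248573) (nat_lit 76) (nat_lit 1739237376) (nat_lit 39) (nat_lit 4) (nat_lit 40) (nat_lit 5) (nat_lit 40) (nat_lit 4) (nat_lit 470) (nat_lit 411) (nat_lit 319)) (XT.lf (nat_lit 0) (nat_lit 72295239328) (nat_lit 152) (nat_lit 63945912764) (nat_lit 0) (nat_lit 37670211742) (nat_lit 37) (nat_lit 5) (nat_lit 39) (nat_lit 4) (nat_lit 37) (nat_lit 4) (nat_lit 471) (nat_lit 411) (nat_lit 318))) (XT.nd (nat_lit 78) (nat_lit 152) (nat_lit 0) (XT.lf (nat_lit 0) (nat_lit 91448144102) (nat_lit 76) (nat_lit 63510148962) (nat_lit 76) (nat_lit 28883121581) (nat_lit 36) (nat_lit 4) (nat_lit 37) (nat_lit 5) (nat_lit 37) (nat_lit 4) (nat_lit 472) (nat_lit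 411) (nat_lit 317)) (XT.lf (nat_lit 0) (nat_lit 50553618392) (nat_lit 152) (nat_lit 126276004345) (nat_lit 0) (nat_lit 17573733587) (nat_lit 34) (nat_lit 5) (nat_lit 36) (nat_lit 4) (nat_lit 34) (nat_lit 4) (nat_lit 473) (nat_lit 411) (nat_lit 316))))) (XT.nd (nat_lit 312) (nat_lit 380) (nat_lit 0) (XT.nd (nat_lit 156) (nat_lit 76) (nat_lit 0) (XT.nd (nat_lit 78) (nat_lit 152) (nat_lit 0) (XT.lf (nat_lit 0) (nat_lit 38695503744) (nat_lit 76) (nat_lit 99953407849) (nat_lit 76) (nat_lit 66971890186) (nat_lit 33) (nat_lit 4) (nat_lit 34) (nat_lit 5) (nat_lit 34) (nat_lit 4) (nat_lit 474) (nat_lit 411) (nat_lit 315)) (XT.lf (nat_lit 0) (nat_lit 3558112451) (nat_lit 76) (nat_lit 14266834876) (nat_lit 152) (nat_lit 199784028458) (nat_lit 31) (nat_lit 5) (nat_lit 32) (nat_lit 5) (nat_lit 33) (nat_lit 4) (nat_lit 475) (nat_lit 411) (nat_lit 314))) (XT.nd (nat_lit 78) (nat_lit 76) (nat_lit 0) (XT.lf (nat_lit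 0) (nat_lit 111259665233) (nat_lit 152) (nat_lit 39185695532) (nat_lit 0) (nat_lit 79845922867) (nat_lit 31) (nat_lit 5) (nat_lit 33) (nat_lit 4) (nat_lit 31) (nat_lit 4) (nat_lit 476) (nat_lit 411) (nat_lit 313)) (XT.lf (nat_lit 0) (nat_lit 154352724050) (nat_lit 76) (nat_lit 60459146712) (nat_lit 76) (nat_lit 29044169855) (nat_lit 30) (nat_lit 4) (nat_lit 31) (nat_lit 5) (nat_lit 31) (nat_lit 4) (nat_lit 477) (nat_lit 411) (nat_lit 312)))) (XT.nd (nat_lit 156) (nat_lit 152) (nat_lit 0) (XT.nd (nat_lit 78) (nat_lit 76) (nat_lit 0) (XT.lf (nat_lit 0) (nat_lit 68974426353) (nat_lit 152) (nat_lit 150273388570) (nat_lit 0) (nat_lit 39054312157) (nat_lit 28) (nat_lit 5) (nat_lit 30) (nat_lit 4) (nat_lit 28) (nat_lit 4) (nat_lit 478) (nat_lit 411) (nat_lit 311)) (XT.lf (nat_lit 0) (nat_lit 50810244143) (nat_lit 76) (nat_lit 126410393564) (nat_lit 76) (nat_lit 96489271389) (nat_lit 27) (nat_lit 4)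 (nat_lit 28) (nat_lit 5) (nat_lit 28) (nat_lit 4) (nat_lit 479) (nat_lit 411) (nat_lit 310))) (XT.nd (nat_lit 78) (nat_lit 76) (nat_lit 0) (XT.lf (nat_lit 0) (nat_lit 6308851652) (nat_lit 152) (nat_lit 16988909600) (nat_lit 76) (nat_lit 266916930439) (nat_lit 26) (nat_lit 5) (nat_lit 28) (nat_lit 5) (nat_lit 27) (nat_lit 4) (nat_lit 480) (nat_lit 411) (nat_lit 309)) (XT.lf (nat_lit 0) (nat_lit 118730660896) (nat_lit 152) (nat_lit 98758446760) (nat_lit 0) (nat_lit 90232642164) (nat_lit 25) (nat_lit 5) (nat_lit 27) (nat_lit 4) (nat_lit 25) (nat_lit 4) (nat_lit 481) (nat_lit 411) (nat_lit 308))))))))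
noncomputable def xc64 : XT := (XT.nd (nat_lit 57564) (nat_lit 0) (nat_lit 4636) (XT.nd (nat_lit 1170) (nat_lit 380) (nat_lit 0) (XT.nd (nat_lit 546) (nat_lit 456) (nat_lit 0) (XT.nd (nat_lit 234) (nat_lit 304) (nat_lit 0) (XT.nd (nat_lit 78) (nat_lit 152) (nat_lit 0) (XT.lf (nat_lit 0) (nat_lit 130758211617) (nat_lit 76) (nat_lit 112116752172) (nat_lit 76) (nat_lit 83617971378) (nat_lit 24) (nat_lit 4) (nat_lit 25) (nat_lit 5) (nat_lit 25) (nat_lit 4) (nat_lit 482) (nat_lit 411) (nat_lit 307)) (XT.nd (nat_lit 78) (nat_lit 0) (nat_lit 0) (XT.lf (nat_lit 0) (nat_lit 31597091468) (nat_lit 152) (nat_lit 310571526591) (nat_lit 0) (nat_lit 4454723461) (nat_lit 22) (nat_lit 5) (nat_lit 24) (nat_lit 4) (nat_lit 22) (nat_lit 4) (nat_lit 483) (nat_lit 411) (nat_lit 306)) (XT.lf (nat_lit 0) (nat_lit 158488890508) (nat_lit 152) (nat_lit 78191395419) (nat_lit 0) (nat_lit 131345900266) (nat_lit 22) (nat_lit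 5) (nat_lit 24) (nat_lit 4) (nat_lit 22) (nat_lit 4) (nat_lit 484) (nat_lit 411) (nat_lit 305)))) (XT.nd (nat_lit 156) (nat_lit 76) (nat_lit 0) (XT.nd (nat_lit 78) (nat_lit 152) (nat_lit 0) (XT.lf (nat_lit 0) (nat_lit 178480283298) (nat_lit 76) (nat_lit 119832745876) (nat_lit 76) (nat_lit 92689179491) (nat_lit 21) (nat_lit 4) (nat_lit 22) (nat_lit 5) (nat_lit 22) (nat_lit 4) (nat_lit 485) (nat_lit 411) (nat_lit 304)) (XT.lf (nat_lit 0) (nat_lit 34635191242) (nat_lit 152) (nat_lit 372261255804) (nat_lit 0) (nat_lit 8783667574) (nat_lit 19) (nat_lit 5) (nat_lit 21) (nat_lit 4) (nat_lit 19) (nat_lit 4) (nat_lit 486) (nat_lit 411) (nat_lit 303))) (XT.nd (nat_lit 78) (nat_lit 76) (nat_lit 0) (XT.lf (nat_lit 0) (nat_lit 174719558806) (nat_lit 152) (nat_lit 118378083579) (nat_lit 0) (nat_lit 148867564710) (nat_lit 19) (nat_lit 5) (nat_lit 21) (nat_lit 4) (nat_lit 19) (nat_lit 4) (nat_lit 487) (nat_lit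 411) (nat_lit 302)) (XT.lf (nat_lit 0) (nat_lit 160957451734) (nat_lit 76) (nat_lit 167561339571) (nat_lit 76) (nat_lit 141708909893) (nat_lit 18) (nat_lit 4) (nat_lit 19) (nat_lit 5) (nat_lit 19) (nat_lit 4) (nat_lit 488) (nat_lit 411) (nat_lit 301))))) (XT.nd (nat_lit 312) (nat_lit 228) (nat_lit 0) (XT.nd (nat_lit 156) (nat_lit 76) (nat_lit 0) (XT.nd (nat_lit 78) (nat_lit 152) (nat_lit 0) (XT.lf (nat_lit 0) (nat_lit 466857570442) (nat_lit 76) (nat_lit 29821793652) (nat_lit 76) (nat_lit 3968960658) (nat_lit 18) (nat_lit 4) (nat_lit 19) (nat_lit 5) (nat_lit 19) (nat_lit 4) (nat_lit 489) (nat_lit 411) (nat_lit 300)) (XT.lf (nat_lit 0) (nat_lit 146331717145) (nat_lit 152) (nat_lit 265039450109) (nat_lit 0) (nat_lit 121709615778) (nat_lit 16) (nat_lit 5) (nat_lit 18) (nat_lit 4) (nat_lit 16) (nat_lit 4) (nat_lit 490) (nat_lit 411) (nat_lit 299))) (XT.nd (nat_lit 78) (nat_lit 0) (nat_lit 0) (XT.lf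 (nat_lit 0) (nat_lit 27438313524) (nat_lit 76) (nat_lit 282606173667) (nat_lit 76) (nat_lit 257983742987) (nat_lit 15) (nat_lit 4) (nat_lit 16) (nat_lit 5) (nat_lit 16) (nat_lit 4) (nat_lit 491) (nat_lit 411) (nat_lit 298)) (XT.lf (nat_lit 0) (nat_lit 352770452112) (nat_lit 76) (nat_lit 138696559963) (nat_lit 76) (nat_lit 114073824364) (nat_lit 15) (nat_lit 4) (nat_lit 16) (nat_lit 5) (nat_lit 16) (nat_lit 4) (nat_lit 492) (nat_lit 411) (nat_lit 297)))) (XT.nd (nat_lit 156) (nat_lit 76) (nat_lit 0) (XT.nd (nat_lit 78) (nat_lit 0) (nat_lit 0) (XT.lf (nat_lit 0) (nat_lit 41234613362) (nat_lit 152) (nat_lit 586942981738) (nat_lit 0) (nat_lit 17784120093) (nat_lit 13) (nat_lit 5) (nat_lit 15) (nat_lit 4) (nat_lit 13) (nat_lit 4) (nat_lit 493) (nat_lit 411) (nat_lit 296)) (XT.lf (nat_lit 0) (nat_lit 211834787232) (nat_lit 152) (nat_lit 288960746280) (nat_lit 0) (nat_lit 188384044992) (nat_lit 13)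 (nat_lit 5) (nat_lit 15) (nat_lit 4) (nat_lit 13) (nat_lit 4) (nat_lit 494) (nat_lit 411) (nat_lit 295))) (XT.nd (nat_lit 78) (nat_lit 0) (nat_lit 0) (XT.lf (nat_lit 0) (nat_lit 33939287064) (nat_lit 76) (nat_lit 362670117553) (nat_lit 76) (nat_lit 339219144785) (nat_lit 12) (nat_lit 4) (nat_lit 13) (nat_lit 5) (nat_lit 13) (nat_lit 4) (nat_lit 495) (nat_lit 411) (nat_lit 294)) (XT.lf (nat_lit 0) (nat_lit 392983274411) (nat_lit 76) (nat_lit 208212919823) (nat_lit 76) (nat_lit 184761733602) (nat_lit 12) (nat_lit 4) (nat_lit 13) (nat_lit 5) (nat_lit 13) (nat_lit 4) (nat_lit 496) (nat_lit 411) (nat_lit 293)))))) (XT.nd (nat_lit 624) (nat_lit 0) (nat_lit 0) (XT.nd (nat_lit 312) (nat_lit 152) (nat_lit 0) (XT.nd (nat_lit 156) (nat_lit 76) (nat_lit 0) (XT.nd (nat_lit 78) (nat_lit 152) (nat_lit 0) (XT.lf (nat_lit 0) (nat_lit 780744536576) (nat_lit 76) (nat_lit 41402328465) (nat_lit 76) (nat_lit 17950944603)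 (nat_lit 12) (nat_lit 4) (nat_lit 13) (nat_lit 5) (nat_lit 13) (nat_lit 4) (nat_lit 497) (nat_lit 411) (nat_lit 292)) (XT.lf (nat_lit 0) (nat_lit 164110178755) (nat_lit 152) (nat_lit 592201874828) (nat_lit 0) (nat_lit 141775353172) (nat_lit 10) (nat_lit 5) (nat_lit 12) (nat_lit 4) (nat_lit 10) (nat_lit 4) (nat_lit 498) (nat_lit 411) (nat_lit 291))) (XT.nd (nat_lit 78) (nat_lit 76) (nat_lit 0) (XT.lf (nat_lit 0) (nat_lit 361861849289) (nat_lit 152) (nat_lit 259225017582) (nat_lit 0) (nat_lit 339526862329) (nat_lit 10) (nat_lit 5) (nat_lit 12) (nat_lit 4) (nat_lit 10) (nat_lit 4) (nat_lit 499) (nat_lit 411) (nat_lit 290)) (XT.lf (nat_lit 0) (nat_lit 103703868399) (nat_lit 76) (nat_lit 473346299844) (nat_lit 76) (nat_lit 451011163461) (nat_lit 9) (nat_lit 4) (nat_lit 10) (nat_lit 5) (nat_lit 10) (nat_lit 4) (nat_lit 500) (nat_lit 411) (nat_lit 289)))) (XT.nd (nat_lit 156) (nat_lit 152) (nat_lit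 0) (XT.nd (nat_lit 78) (nat_lit 0) (nat_lit 0) (XT.lf (nat_lit 0) (nat_lit 504918845692) (nat_lit 76) (nat_lit 309047759418) (nat_lit 76) (nat_lit 286712484681) (nat_lit 9) (nat_lit 4) (nat_lit 10) (nat_lit 5) (nat_lit 10) (nat_lit 4) (nat_lit 501) (nat_lit 411) (nat_lit 288)) (XT.lf (nat_lit 0) (nat_lit 938226334757) (nat_lit 76) (nat_lit 131607725718) (nat_lit 76) (nat_lit 109272322874) (nat_lit 9) (nat_lit 4) (nat_lit 10) (nat_lit 5) (nat_lit 10) (nat_lit 4) (nat_lit 502) (nat_lit 411) (nat_lit 287))) (XT.nd (nat_lit 78) (nat_lit 0) (nat_lit 0) (XT.lf (nat_lit 0) (nat_lit 82996120402) (nat_lit 152) (nat_lit 1118859788859) (nat_lit 0) (nat_lit 61724195202) (nat_lit 7) (nat_lit 5) (nat_lit 9) (nat_lit 4) (nat_lit 7) (nat_lit 4) (nat_lit 503) (nat_lit 411) (nat_lit 286)) (XT.lf (nat_lit 0) (nat_lit 293350658244) (nat_lit 152) (nat_lit 788966219652) (nat_lit 0) (nat_lit 272078628444) (nat_lit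 7) (nat_lit 5) (nat_lit 9) (nat_lit 4) (nat_lit 7) (nat_lit 4) (nat_lit 504) (nat_lit 411) (nat_lit 285))))) (XT.nd (nat_lit 55458) (nat_lit 0) (nat_lit 12084) (XT.nd (nat_lit 55302) (nat_lit 0) (nat_lit 12692) (XT.nd (nat_lit 55224) (nat_lit 0) (nat_lit 12692) (XT.lf (nat_lit 0) (nat_lit 520531614127) (nat_lit 152) (nat_lit 432685136017) (nat_lit 0) (nat_lit 499259487474) (nat_lit 7) (nat_lit 5) (nat_lit 9) (nat_lit 4) (nat_lit 7) (nat_lit 4) (nat_lit 505) (nat_lit 411) (nat_lit 284)) (XT.lf (nat_lit 0) (nat_lit 1638693695) (nat_lit 0) (nat_lit 1638693695) (nat_lit 684) (nat_lit 2043842738) (nat_lit 174) (nat_lit 5) (nat_lit 174) (nat_lit 3) (nat_lit 183) (nat_lit 3) (nat_lit 412) (nat_lit 412) (nat_lit 376))) (XT.nd (nat_lit 78) (nat_lit 0) (nat_lit 76) (XT.lf (nat_lit 76) (nat_lit 1088004460) (nat_lit 0) (nat_lit 6766495928) (nat_lit 760) (nat_lit 3161703106) (nat_lit 175) (nat_lit 5) (nat_lit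 174) (nat_lit 5) (nat_lit 184) (nat_lit 5) (nat_lit 413) (nat_lit 412) (nat_lit 375)) (XT.lf (nat_lit 0) (nat_lit 9361452652) (nat_lit 684) (nat_lit 1063126788) (nat_lit 760) (nat_lit 990112167) (nat_lit 175) (nat_lit 5) (nat_lit 184) (nat_lit 5) (nat_lit 185) (nat_lit 5) (nat_lit 414) (nat_lit 412) (nat_lit 374)))) (XT.nd (nat_lit 156) (nat_lit 0) (nat_lit 76) (XT.nd (nat_lit 78) (nat_lit 684) (nat_lit 0) (XT.lf (nat_lit 76) (nat_lit 8617003013) (nat_lit 0) (nat_lit 2532852839) (nat_lit 760) (nat_lit 687165447) (nat_lit 176) (nat_lit 5) (nat_lit 175) (nat_lit 5) (nat_lit 185) (nat_lit 5) (nat_lit 415) (nat_lit 412) (nat_lit 373)) (XT.lf (nat_lit 0) (nat_lit 903456672) (nat_lit 760) (nat_lit 5414926269) (nat_lit 836) (nat_lit 5967121043) (nat_lit 166) (nat_lit 5) (nat_lit 176) (nat_lit 5) (nat_lit 177) (nat_lit 5) (nat_lit 416) (nat_lit 412) (nat_lit 372))) (XT.nd (nat_lit 78) (nat_lit 0) (nat_lit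 0) (XT.lf (nat_lit 0) (nat_lit 2738822301) (nat_lit 760) (nat_lit 7634172301) (nat_lit 836) (nat_lit 2389234933) (nat_lit 167) (nat_lit 5) (nat_lit 177) (nat_lit 5) (nat_lit 178) (nat_lit 5) (nat_lit 417) (nat_lit 412) (nat_lit 371)) (XT.lf (nat_lit 76) (nat_lit 3376004755) (nat_lit 0) (nat_lit 1527587763) (nat_lit 836) (nat_lit 8364377338) (nat_lit 168) (nat_lit 5) (nat_lit 167) (nat_lit 5) (nat_lit 178) (nat_lit 5) (nat_lit 418) (nat_lit 412) (nat_lit 370))))))) (XT.nd (nat_lit 1248) (nat_lit 2736) (nat_lit 0) (XT.nd (nat_lit 624) (nat_lit 1824) (nat_lit 0) (XT.nd (nat_lit 312) (nat_lit 1368) (nat_lit 0) (XT.nd (nat_lit 156) (nat_lit 912) (nat_lit 0) (XT.nd (nat_lit 78) (nat_lit 0) (nat_lit 0) (XT.lf (nat_lit 0) (nat_lit 1595236516) (nat_lit 760) (nat_lit 5863793363) (nat_lit 836) (nat_lit 6344270335) (nat_lit 158) (nat_lit 5) (nat_lit 168) (nat_lit 5) (nat_lit 169) (nat_lit 5) (nat_lit 419)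 (nat_lit 412) (nat_lit 369)) (XT.lf (nat_lit 0) (nat_lit 10413961652) (nat_lit 836) (nat_lit 165689969) (nat_lit 76) (nat_lit 3792057117) (nat_lit 158) (nat_lit 5) (nat_lit 169) (nat_lit 5) (nat_lit 159) (nat_lit 5) (nat_lit 420) (nat_lit 412) (nat_lit 368))) (XT.nd (nat_lit 78) (nat_lit 456) (nat_lit 0) (XT.lf (nat_lit 0) (nat_lit 13104045926) (nat_lit 456) (nat_lit 745759064) (nat_lit 532) (nat_lit 1123563465) (nat_lit 152) (nat_lit 5) (nat_lit 158) (nat_lit 5) (nat_lit 159) (nat_lit 5) (nat_lit 421) (nat_lit 412) (nat_lit 367)) (XT.lf (nat_lit 0) (nat_lit 2168993444) (nat_lit 456) (nat_lit 3652781727) (nat_lit 76) (nat_lit 9785194946) (nat_lit 146) (nat_lit 5) (nat_lit 152) (nat_lit 5) (nat_lit 147) (nat_lit 5) (nat_lit 422) (nat_lit 412) (nat_lit 366)))) (XT.nd (nat_lit 156) (nat_lit 684) (nat_lit 0) (XT.nd (nat_lit 78) (nat_lit 304) (nat_lit 0) (XT.lf (nat_lit 0) (nat_lit 5928501214) (nat_lit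 456) (nat_lit 5439321829) (nat_lit 76) (nat_lit 4910373950) (nat_lit 141) (nat_lit 5) (nat_lit 147) (nat_lit 5) (nat_lit 142) (nat_lit 5) (nat_lit 423) (nat_lit 412) (nat_lit 365)) (XT.lf (nat_lit 0) (nat_lit 9777925650) (nat_lit 304) (nat_lit 476360668) (nat_lit 380) (nat_lit 6735563163) (nat_lit 137) (nat_lit 5) (nat_lit 141) (nat_lit 5) (nat_lit 142) (nat_lit 5) (nat_lit 424) (nat_lit 412) (nat_lit 364))) (XT.nd (nat_lit 78) (nat_lit 380) (nat_lit 0) (XT.lf (nat_lit 0) (nat_lit 8697710034) (nat_lit 304) (nat_lit 6589513024) (nat_lit 380) (nat_lit 2453159721) (nat_lit 133) (nat_lit 5) (nat_lit 137) (nat_lit 5) (nat_lit 138) (nat_lit 5) (nat_lit 425) (nat_lit 412) (nat_lit 363)) (XT.lf (nat_lit 0) (nat_lit 2398365655) (nat_lit 380) (nat_lit 10881758268) (nat_lit 76) (nat_lit 5254339989) (nat_lit 128) (nat_lit 5) (nat_lit 133) (nat_lit 5) (nat_lit 129) (nat_lit 5) (nat_lit 426) (nat_lit 412)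 (nat_lit 362))))) (XT.nd (nat_lit 312) (nat_lit 684) (nat_lit 0) (XT.nd (nat_lit 156) (nat_lit 608) (nat_lit 0) (XT.nd (nat_lit 78) (nat_lit 228) (nat_lit 0) (XT.lf (nat_lit 0) (nat_lit 6624747362) (nat_lit 304) (nat_lit 1260194088) (nat_lit 380) (nat_lit 11488478035) (nat_lit 124) (nat_lit 5) (nat_lit 128) (nat_lit 5) (nat_lit 129) (nat_lit 5) (nat_lit 427) (nat_lit 412) (nat_lit 361)) (XT.lf (nat_lit 0) (nat_lit 5588987164) (nat_lit 228) (nat_lit 8643643161) (nat_lit 304) (nat_lit 6025754136) (nat_lit 121) (nat_lit 5) (nat_lit 124) (nat_lit 5) (nat_lit 125) (nat_lit 5) (nat_lit 428) (nat_lit 412) (nat_lit 360))) (XT.nd (nat_lit 78) (nat_lit 228) (nat_lit 0) (XT.lf (nat_lit 0) (nat_lit 230747983) (nat_lit 380) (nat_lit 16550416184) (nat_lit 76) (nat_lit 4415446516) (nat_lit 116) (nat_lit 5) (nat_lit 121) (nat_lit 5) (nat_lit 117) (nat_lit 5) (nat_lit 429) (nat_lit 412) (nat_lit 359)) (XT.lf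 (nat_lit 0) (nat_lit 3646516936) (nat_lit 228) (nat_lit 3558096407) (nat_lit 304) (nat_lit 14978946595) (nat_lit 113) (nat_lit 5) (nat_lit 116) (nat_lit 5) (nat_lit 117) (nat_lit 5) (nat_lit 430) (nat_lit 412) (nat_lit 358)))) (XT.nd (nat_lit 156) (nat_lit 304) (nat_lit 0) (XT.nd (nat_lit 78) (nat_lit 152) (nat_lit 0) (XT.lf (nat_lit 0) (nat_lit 2677043075) (nat_lit 228) (nat_lit 12526057449) (nat_lit 304) (nat_lit 8023030727) (nat_lit 110) (nat_lit 5) (nat_lit 113) (nat_lit 5) (nat_lit 114) (nat_lit 5) (nat_lit 431) (nat_lit 412) (nat_lit 357)) (XT.lf (nat_lit 0) (nat_lit 1832328423) (nat_lit 152) (nat_lit 22416447215) (nat_lit 228) (nat_lit 82968796) (nat_lit 108) (nat_lit 5) (nat_lit 110) (nat_lit 5) (nat_lit 111) (nat_lit 5) (nat_lit 432) (nat_lit 412) (nat_lit 356))) (XT.nd (nat_lit 78) (nat_lit 0) (nat_lit 0) (XT.lf (nat_lit 0) (nat_lit 858220809) (nat_lit 228) (nat_lit 7918018620) (nat_lit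 304) (nat_lit 16715151844) (nat_lit 104) (nat_lit 5) (nat_lit 107) (nat_lit 5) (nat_lit 108) (nat_lit 5) (nat_lit 433) (nat_lit 412) (nat_lit 355)) (XT.lf (nat_lit 0) (nat_lit 18829250480) (nat_lit 304) (nat_lit 13830823) (nat_lit 76) (nat_lit 7876263219) (nat_lit 104) (nat_lit 5) (nat_lit 108) (nat_lit 5) (nat_lit 105) (nat_lit 5) (nat_lit 434) (nat_lit 412) (nat_lit 354)))))) (XT.nd (nat_lit 624) (nat_lit 1216) (nat_lit 0) (XT.nd (nat_lit 312) (nat_lit 684) (nat_lit 0) (XT.nd (nat_lit 156) (nat_lit 380) (nat_lit 0) (XT.nd (nat_lit 78) (nat_lit 228) (nat_lit 0) (XT.lf (nat_lit 0) (nat_lit 2127450764) (nat_lit 228) (nat_lit 784250542) (nat_lit 76) (nat_lit 25105602702) (nat_lit 101) (nat_lit 5) (nat_lit 104) (nat_lit 5) (nat_lit 102) (nat_lit 5) (nat_lit 435) (nat_lit 412) (nat_lit 353)) (XT.lf (nat_lit 0) (nat_lit 13314751344) (nat_lit 304) (nat_lit 1665565552) (nat_lit 76) (nat_lit 14400078012)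 (nat_lit 98) (nat_lit 5) (nat_lit 102) (nat_lit 5) (nat_lit 99) (nat_lit 5) (nat_lit 436) (nat_lit 412) (nat_lit 352))) (XT.nd (nat_lit 78) (nat_lit 228) (nat_lit 0) (XT.lf (nat_lit 0) (nat_lit 25918811508) (nat_lit 228) (nat_lit 2380109770) (nat_lit 76) (nat_lit 2527524020) (nat_lit 96) (nat_lit 5) (nat_lit 99) (nat_lit 5) (nat_lit 97) (nat_lit 5) (nat_lit 437) (nat_lit 412) (nat_lit 351)) (XT.lf (nat_lit 0) (nat_lit 7639660765) (nat_lit 228) (nat_lit 3194162609) (nat_lit 76) (nat_lit 21512517844) (nat_lit 93) (nat_lit 5) (nat_lit 96) (nat_lit 5) (nat_lit 94) (nat_lit 5) (nat_lit 438) (nat_lit 412) (nat_lit 350)))) (XT.nd (nat_lit 156) (nat_lit 304) (nat_lit 0) (XT.nd (nat_lit 78) (nat_lit 228) (nat_lit 0) (XT.lf (nat_lit 0) (nat_lit 21643938886) (nat_lit 228) (nat_lit 3947891229) (nat_lit 76) (nat_lit 8360719881) (nat_lit 91) (nat_lit 5) (nat_lit 94) (nat_lit 5) (nat_lit 92) (nat_lit 5) (nat_lit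 439) (nat_lit 412) (nat_lit 349)) (XT.lf (nat_lit 0) (nat_lit 1758472629) (nat_lit 228) (nat_lit 4621741446) (nat_lit 76) (nat_lit 29270609143) (nat_lit 88) (nat_lit 5) (nat_lit 91) (nat_lit 5) (nat_lit 89) (nat_lit 5) (nat_lit 440) (nat_lit 412) (nat_lit 348))) (XT.nd (nat_lit 78) (nat_lit 152) (nat_lit 0) (XT.lf (nat_lit 0) (nat_lit 17312638409) (nat_lit 228) (nat_lit 5436418714) (nat_lit 76) (nat_lit 14686165360) (nat_lit 86) (nat_lit 5) (nat_lit 89) (nat_lit 5) (nat_lit 87) (nat_lit 5) (nat_lit 441) (nat_lit 412) (nat_lit 347)) (XT.lf (nat_lit 0) (nat_lit 33273000333) (nat_lit 152) (nat_lit 1524838642) (nat_lit 228) (nat_lit 4530200253) (nat_lit 84) (nat_lit 5) (nat_lit 86) (nat_lit 5) (nat_lit 87) (nat_lit 5) (nat_lit 442) (nat_lit 412) (nat_lit 346))))) (XT.nd (nat_lit 312) (nat_lit 608) (nat_lit 0) (XT.nd (nat_lit 156) (nat_lit 304) (nat_lit 0) (XT.nd (nat_lit 78) (nat_lit 152) (nat_lit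 0) (XT.lf (nat_lit 0) (nat_lit 12880951701) (nat_lit 152) (nat_lit 6891538384) (nat_lit 76) (nat_lit 21541914391) (nat_lit 82) (nat_lit 5) (nat_lit 84) (nat_lit 5) (nat_lit 83) (nat_lit 5) (nat_lit 443) (nat_lit 412) (nat_lit 345)) (XT.lf (nat_lit 0) (nat_lit 32259166613) (nat_lit 228) (nat_lit 7570683539) (nat_lit 76) (nat_lit 3589471665) (nat_lit 80) (nat_lit 5) (nat_lit 83) (nat_lit 5) (nat_lit 81) (nat_lit 4) (nat_lit 444) (nat_lit 412) (nat_lit 344))) (XT.nd (nat_lit 78) (nat_lit 152) (nat_lit 0) (XT.lf (nat_lit 0) (nat_lit 8291097030) (nat_lit 152) (nat_lit 8382496788) (nat_lit 76) (nat_lit 28961389376) (nat_lit 78) (nat_lit 5) (nat_lit 80) (nat_lit 5) (nat_lit 79) (nat_lit 5) (nat_lit 445) (nat_lit 412) (nat_lit 343)) (XT.lf (nat_lit 0) (nat_lit 29780351739) (nat_lit 228) (nat_lit 9196352172) (nat_lit 76) (nat_lit 8998401323) (nat_lit 76) (nat_lit 5) (nat_lit 79) (nat_lit 5) (nat_lit 77)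 (nat_lit 4) (nat_lit 446) (nat_lit 412) (nat_lit 342)))) (XT.nd (nat_lit 156) (nat_lit 304) (nat_lit 0) (XT.nd (nat_lit 78) (nat_lit 152) (nat_lit 0) (XT.lf (nat_lit 0) (nat_lit 3466983182) (nat_lit 152) (nat_lit 10010794992) (nat_lit 76) (nat_lit 36969705772) (nat_lit 74) (nat_lit 5) (nat_lit 76) (nat_lit 5) (nat_lit 75) (nat_lit 5) (nat_lit 447) (nat_lit 412) (nat_lit 341)) (XT.lf (nat_lit 0) (nat_lit 27275221245) (nat_lit 228) (nat_lit 11030678404) (nat_lit 76) (nat_lit 14744289009) (nat_lit 72) (nat_lit 5) (nat_lit 75) (nat_lit 5) (nat_lit 73) (nat_lit 4) (nat_lit 448) (nat_lit 412) (nat_lit 340))) (XT.nd (nat_lit 78) (nat_lit 228) (nat_lit 0) (XT.lf (nat_lit 0) (nat_lit 43858400240) (nat_lit 76) (nat_lit 10201505462) (nat_lit 152) (nat_lit 1747614987) (nat_lit 71) (nat_lit 5) (nat_lit 72) (nat_lit 5) (nat_lit 73) (nat_lit 4) (nat_lit 449) (nat_lit 412) (nat_lit 339)) (XT.lf (nat_lit 0) (nat_lit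 24656411864) (nat_lit 228) (nat_lit 13247198237) (nat_lit 76) (nat_lit 20801481513) (nat_lit 68) (nat_lit 5) (nat_lit 71) (nat_lit 5) (nat_lit 69) (nat_lit 4) (nat_lit 450) (nat_lit 412) (nat_lit 338))))))))
noncomputable def xc65 : XT := (XT.nd (nat_lit 2418) (nat_lit 1444) (nat_lit 0) (XT.nd (nat_lit 1170) (nat_lit 1520) (nat_lit 0) (XT.nd (nat_lit 546) (nat_lit 912) (nat_lit 0) (XT.nd (nat_lit 234) (nat_lit 456) (nat_lit 0) (XT.nd (nat_lit 78) (nat_lit 228) (nat_lit 0) (XT.lf (nat_lit 0) (nat_lit 47339459314) (nat_lit 76) (nat_lit 6879196236) (nat_lit 152) (nat_lit 7559024312) (nat_lit 67) (nat_lit 5) (nat_lit 68) (nat_lit 5) (nat_lit 69) (nat_lit 4) (nat_lit 451) (nat_lit 412) (nat_lit 337)) (XT.nd (nat_lit 78) (nat_lit 76) (nat_lit 0) (XT.lf (nat_lit 0) (nat_lit 21803068263) (nat_lit 152) (nat_lit 16088039281) (nat_lit 76) (nat_lit 27117186036) (nat_lit 65) (nat_lit 5) (nat_lit 67) (nat_lit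 5) (nat_lit 66) (nat_lit 4) (nat_lit 452) (nat_lit 412) (nat_lit 336)) (XT.lf (nat_lit 0) (nat_lit 50724814753) (nat_lit 76) (nat_lit 3676239311) (nat_lit 152) (nat_lit 14032518757) (nat_lit 64) (nat_lit 5) (nat_lit 65) (nat_lit 5) (nat_lit 66) (nat_lit 4) (nat_lit 453) (nat_lit 412) (nat_lit 335)))) (XT.nd (nat_lit 156) (nat_lit 228) (nat_lit 0) (XT.nd (nat_lit 78) (nat_lit 76) (nat_lit 0) (XT.lf (nat_lit 0) (nat_lit 18549714738) (nat_lit 152) (nat_lit 19886797860) (nat_lit 76) (nat_lit 33600971693) (nat_lit 62) (nat_lit 5) (nat_lit 64) (nat_lit 5) (nat_lit 63) (nat_lit 4) (nat_lit 454) (nat_lit 412) (nat_lit 334)) (XT.lf (nat_lit 0) (nat_lit 53704378638) (nat_lit 76) (nat_lit 748655579) (nat_lit 152) (nat_lit 21404865643) (nat_lit 61) (nat_lit 5) (nat_lit 62) (nat_lit 5) (nat_lit 63) (nat_lit 4) (nat_lit 455) (nat_lit 412) (nat_lit 333))) (XT.nd (nat_lit 78) (nat_lit 76) (nat_lit 0) (XT.lf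 (nat_lit 0) (nat_lit 14671717401) (nat_lit 152) (nat_lit 25098391377) (nat_lit 76) (nat_lit 40110952777) (nat_lit 59) (nat_lit 5) (nat_lit 61) (nat_lit 5) (nat_lit 60) (nat_lit 4) (nat_lit 456) (nat_lit 412) (nat_lit 332)) (XT.lf (nat_lit 0) (nat_lit 54183870542) (nat_lit 152) (nat_lit 28332098468) (nat_lit 0) (nat_lit 1627594057) (nat_lit 58) (nat_lit 5) (nat_lit 60) (nat_lit 4) (nat_lit 58) (nat_lit 4) (nat_lit 457) (nat_lit 412) (nat_lit 331))))) (XT.nd (nat_lit 312) (nat_lit 456) (nat_lit 0) (XT.nd (nat_lit 156) (nat_lit 228) (nat_lit 0) (XT.nd (nat_lit 78) (nat_lit 76) (nat_lit 0) (XT.lf (nat_lit 0) (nat_lit 9866335009) (nat_lit 152) (nat_lit 32337942501) (nat_lit 76) (nat_lit 46435657764) (nat_lit 56) (nat_lit 5) (nat_lit 58) (nat_lit 5) (nat_lit 57) (nat_lit 4) (nat_lit 458) (nat_lit 412) (nat_lit 330)) (XT.lf (nat_lit 0) (nat_lit 53265675716) (nat_lit 152) (nat_lit 36935898686) (nat_lit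 0) (nat_lit 3198042209) (nat_lit 55) (nat_lit 5) (nat_lit 57) (nat_lit 4) (nat_lit 55) (nat_lit 4) (nat_lit 459) (nat_lit 412) (nat_lit 329))) (XT.nd (nat_lit 78) (nat_lit 76) (nat_lit 0) (XT.lf (nat_lit 0) (nat_lit 3728065920) (nat_lit 152) (nat_lit 42431346969) (nat_lit 76) (nat_lit 52270298808) (nat_lit 53) (nat_lit 5) (nat_lit 55) (nat_lit 5) (nat_lit 54) (nat_lit 4) (nat_lit 460) (nat_lit 412) (nat_lit 328)) (XT.lf (nat_lit 0) (nat_lit 51268489440) (nat_lit 152) (nat_lit 48908482992) (nat_lit 0) (nat_lit 3573567681) (nat_lit 52) (nat_lit 5) (nat_lit 54) (nat_lit 4) (nat_lit 52) (nat_lit 4) (nat_lit 461) (nat_lit 412) (nat_lit 327)))) (XT.nd (nat_lit 156) (nat_lit 228) (nat_lit 0) (XT.nd (nat_lit 78) (nat_lit 152) (nat_lit 0) (XT.lf (nat_lit 0) (nat_lit 52829867441) (nat_lit 76) (nat_lit 52125026945) (nat_lit 76) (nat_lit 4425003123) (nat_lit 51) (nat_lit 4) (nat_lit 52) (nat_lit 5) (nat_lit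 52) (nat_lit 4) (nat_lit 462) (nat_lit 412) (nat_lit 326)) (XT.lf (nat_lit 0) (nat_lit 47625400598) (nat_lit 152) (nat_lit 65521416505) (nat_lit 0) (nat_lit 2192307307) (nat_lit 49) (nat_lit 5) (nat_lit 51) (nat_lit 4) (nat_lit 49) (nat_lit 4) (nat_lit 463) (nat_lit 412) (nat_lit 325))) (XT.nd (nat_lit 78) (nat_lit 152) (nat_lit 0) (XT.lf (nat_lit 0) (nat_lit 45451655196) (nat_lit 76) (nat_lit 60814011718) (nat_lit 76) (nat_lit 15376752525) (nat_lit 48) (nat_lit 4) (nat_lit 49) (nat_lit 5) (nat_lit 49) (nat_lit 4) (nat_lit 464) (nat_lit 412) (nat_lit 324)) (XT.lf (nat_lit 0) (nat_lit 39842265270) (nat_lit 76) (nat_lit 1759384378) (nat_lit 152) (nat_lit 86727635357) (nat_lit 46) (nat_lit 5) (nat_lit 47) (nat_lit 5) (nat_lit 48) (nat_lit 4) (nat_lit 465) (nat_lit 412) (nat_lit 323)))))) (XT.nd (nat_lit 624) (nat_lit 760) (nat_lit 0) (XT.nd (nat_lit 312) (nat_lit 380) (nat_lit 0) (XT.nd (nat_lit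 156) (nat_lit 152) (nat_lit 0) (XT.nd (nat_lit 78) (nat_lit 152) (nat_lit 0) (XT.lf (nat_lit 0) (nat_lit 32153063206) (nat_lit 76) (nat_lit 73262641375) (nat_lit 76) (nat_lit 29981986042) (nat_lit 45) (nat_lit 4) (nat_lit 46) (nat_lit 5) (nat_lit 46) (nat_lit 4) (nat_lit 466) (nat_lit 412) (nat_lit 322)) (XT.lf (nat_lit 0) (nat_lit 22816211987) (nat_lit 76) (nat_lit 9427698680) (nat_lit 152) (nat_lit 110666096596) (nat_lit 43) (nat_lit 5) (nat_lit 44) (nat_lit 5) (nat_lit 45) (nat_lit 4) (nat_lit 467) (nat_lit 412) (nat_lit 321))) (XT.nd (nat_lit 78) (nat_lit 76) (nat_lit 0) (XT.lf (nat_lit 0) (nat_lit 10569916923) (nat_lit 76) (nat_lit 90753972015) (nat_lit 76) (nat_lit 49528523317) (nat_lit 42) (nat_lit 4) (nat_lit 43) (nat_lit 5) (nat_lit 43) (nat_lit 4) (nat_lit 468) (nat_lit 412) (nat_lit 320)) (XT.lf (nat_lit 0) (nat_lit 18247692811) (nat_lit 152) (nat_lit 3820250083) (nat_lit 76) (nat_lit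 137235599098) (nat_lit 41) (nat_lit 5) (nat_lit 43) (nat_lit 5) (nat_lit 42) (nat_lit 4) (nat_lit 469) (nat_lit 412) (nat_lit 319)))) (XT.nd (nat_lit 156) (nat_lit 228) (nat_lit 0) (XT.nd (nat_lit 78) (nat_lit 76) (nat_lit 0) (XT.lf (nat_lit 0) (nat_lit 92891820443) (nat_lit 152) (nat_lit 21714520539) (nat_lit 0) (nat_lit 53624771392) (nat_lit 40) (nat_lit 5) (nat_lit 42) (nat_lit 4) (nat_lit 40) (nat_lit 4) (nat_lit 470) (nat_lit 412) (nat_lit 318)) (XT.lf (nat_lit 0) (nat_lit 135080341713) (nat_lit 76) (nat_lit 40967342622) (nat_lit 76) (nat_lit 1698193785) (nat_lit 39) (nat_lit 4) (nat_lit 40) (nat_lit 5) (nat_lit 40) (nat_lit 4) (nat_lit 471) (nat_lit 412) (nat_lit 317))) (XT.nd (nat_lit 78) (nat_lit 76) (nat_lit 0) (XT.lf (nat_lit 0) (nat_lit 78248227192) (nat_lit 152) (nat_lit 68720390548) (nat_lit 0) (nat_lit 40847186162) (nat_lit 37) (nat_lit 5) (nat_lit 39) (nat_lit 4) (nat_lit 37) (nat_lit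 4) (nat_lit 472) (nat_lit 412) (nat_lit 316)) (XT.lf (nat_lit 0) (nat_lit 99090362937) (nat_lit 76) (nat_lit 68426511967) (nat_lit 76) (nat_lit 31023756434) (nat_lit 36) (nat_lit 4) (nat_lit 37) (nat_lit 5) (nat_lit 37) (nat_lit 4) (nat_lit 473) (nat_lit 412) (nat_lit 315))))) (XT.nd (nat_lit 312) (nat_lit 380) (nat_lit 0) (XT.nd (nat_lit 156) (nat_lit 152) (nat_lit 0) (XT.nd (nat_lit 78) (nat_lit 76) (nat_lit 0) (XT.lf (nat_lit 0) (nat_lit 54757744767) (nat_lit 152) (nat_lit 136055326801) (nat_lit 0) (nat_lit 19134560924) (nat_lit 34) (nat_lit 5) (nat_lit 36) (nat_lit 4) (nat_lit 34) (nat_lit 4) (nat_lit 474) (nat_lit 412) (nat_lit 314)) (XT.lf (nat_lit 0) (nat_lit 42099875271) (nat_lit 76) (nat_lit 107793766544) (nat_lit 76) (nat_lit 72169182787) (nat_lit 33) (nat_lit 4) (nat_lit 34) (nat_lit 5) (nat_lit 34) (nat_lit 4) (nat_lit 475) (nat_lit 412) (nat_lit 313))) (XT.nd (nat_lit 78) (nat_lit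 0) (nat_lit 0) (XT.lf (nat_lit 0) (nat_lit 4142988494) (nat_lit 76) (nat_lit 15256459538) (nat_lit 152) (nat_lit 215610820168) (nat_lit 31) (nat_lit 5) (nat_lit 32) (nat_lit 5) (nat_lit 33) (nat_lit 4) (nat_lit 476) (nat_lit 412) (nat_lit 312)) (XT.lf (nat_lit 0) (nat_lit 120300136347) (nat_lit 152) (nat_lit 42037880908) (nat_lit 0) (nat_lit 86369583801) (nat_lit 31) (nat_lit 5) (nat_lit 33) (nat_lit 4) (nat_lit 31) (nat_lit 4) (nat_lit 477) (nat_lit 412) (nat_lit 311)))) (XT.nd (nat_lit 156) (nat_lit 152) (nat_lit 0) (XT.nd (nat_lit 78) (nat_lit 152) (nat_lit 0) (XT.lf (nat_lit 0) (nat_lit 166971327735) (nat_lit 76) (nat_lit 65159064071) (nat_lit 76) (nat_lit 31227453147) (nat_lit 30) (nat_lit 4) (nat_lit 31) (nat_lit 5) (nat_lit 31) (nat_lit 4) (nat_lit 478) (nat_lit 412) (nat_lit 310)) (XT.lf (nat_lit 0) (nat_lit 74624268897) (nat_lit 152) (nat_lit 162027917969) (nat_lit 0) (nat_lit 42307515656)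 (nat_lit 28) (nat_lit 5) (nat_lit 30) (nat_lit 4) (nat_lit 28) (nat_lit 4) (nat_lit 479) (nat_lit 412) (nat_lit 309))) (XT.nd (nat_lit 78) (nat_lit 76) (nat_lit 0) (XT.lf (nat_lit 0) (nat_lit 55130787018) (nat_lit 76) (nat_lit 136393613186) (nat_lit 76) (nat_lit 104075995765) (nat_lit 27) (nat_lit 4) (nat_lit 28) (nat_lit 5) (nat_lit 28) (nat_lit 4) (nat_lit 480) (nat_lit 412) (nat_lit 308)) (XT.lf (nat_lit 0) (nat_lit 6932244185) (nat_lit 152) (nat_lit 18107317005) (nat_lit 76) (nat_lit 288386371368) (nat_lit 26) (nat_lit 5) (nat_lit 28) (nat_lit 5) (nat_lit 27) (nat_lit 4) (nat_lit 481) (nat_lit 412) (nat_lit 307))))))) (XT.nd (nat_lit 1248) (nat_lit 380) (nat_lit 0) (XT.nd (nat_lit 624) (nat_lit 456) (nat_lit 0) (XT.nd (nat_lit 312) (nat_lit 304) (nat_lit 0) (XT.nd (nat_lit 156) (nat_lit 152) (nat_lit 0) (XT.nd (nat_lit 78) (nat_lit 76) (nat_lit 0) (XT.lf (nat_lit 0) (nat_lit 128344424397)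 (nat_lit 152) (nat_lit 106425026185) (nat_lit 0) (nat_lit 97564273463) (nat_lit 25) (nat_lit 5) (nat_lit 27) (nat_lit 4) (nat_lit 25) (nat_lit 4) (nat_lit 482) (nat_lit 412) (nat_lit 306)) (XT.lf (nat_lit 0) (nat_lit 141442791321) (nat_lit 76) (nat_lit 120972434734) (nat_lit 76) (nat_lit 90191630454) (nat_lit 24) (nat_lit 4) (nat_lit 25) (nat_lit 5) (nat_lit 25) (nat_lit 4) (nat_lit 483) (nat_lit 412) (nat_lit 305))) (XT.nd (nat_lit 78) (nat_lit 0) (nat_lit 0) (XT.lf (nat_lit 0) (nat_lit 34233755785) (nat_lit 152) (nat_lit 335195880073) (nat_lit 0) (nat_lit 4918127946) (nat_lit 22) (nat_lit 5) (nat_lit 24) (nat_lit 4) (nat_lit 22) (nat_lit 4) (nat_lit 484) (nat_lit 412) (nat_lit 304)) (XT.lf (nat_lit 0) (nat_lit 171268832303) (nat_lit 152) (nat_lit 84241736085) (nat_lit 0) (nat_lit 141952670999) (nat_lit 22) (nat_lit 5) (nat_lit 24) (nat_lit 4) (nat_lit 22) (nat_lit 4) (nat_lit 485) (nat_lit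 412) (nat_lit 303)))) (XT.nd (nat_lit 156) (nat_lit 76) (nat_lit 0) (XT.nd (nat_lit 78) (nat_lit 152) (nat_lit 0) (XT.lf (nat_lit 0) (nat_lit 192954769141) (nat_lit 76) (nat_lit 129319725088) (nat_lit 76) (nat_lit 100003069833) (nat_lit 21) (nat_lit 4) (nat_lit 22) (nat_lit 5) (nat_lit 22) (nat_lit 4) (nat_lit 486) (nat_lit 412) (nat_lit 302)) (XT.lf (nat_lit 0) (nat_lit 37501240274) (nat_lit 152) (nat_lit 401848341047) (nat_lit 0) (nat_lit 9580180640) (nat_lit 19) (nat_lit 5) (nat_lit 21) (nat_lit 4) (nat_lit 19) (nat_lit 4) (nat_lit 487) (nat_lit 412) (nat_lit 301))) (XT.nd (nat_lit 78) (nat_lit 76) (nat_lit 0) (XT.lf (nat_lit 0) (nat_lit 188785302892) (nat_lit 152) (nat_lit 127668871727) (nat_lit 0) (nat_lit 160863839943) (nat_lit 19) (nat_lit 5) (nat_lit 21) (nat_lit 4) (nat_lit 19) (nat_lit 4) (nat_lit 488) (nat_lit 412) (nat_lit 300)) (XT.lf (nat_lit 0) (nat_lit 174005707362) (nat_lit 76)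 (nat_lit 180878914909) (nat_lit 76) (nat_lit 152957078518) (nat_lit 18) (nat_lit 4) (nat_lit 19) (nat_lit 5) (nat_lit 19) (nat_lit 4) (nat_lit 489) (nat_lit 412) (nat_lit 299))))) (XT.nd (nat_lit 312) (nat_lit 228) (nat_lit 0) (XT.nd (nat_lit 156) (nat_lit 76) (nat_lit 0) (XT.nd (nat_lit 78) (nat_lit 152) (nat_lit 0) (XT.lf (nat_lit 0) (nat_lit 504365120049) (nat_lit 76) (nat_lit 32126674341) (nat_lit 76) (nat_lit 4204492172) (nat_lit 18) (nat_lit 4) (nat_lit 19) (nat_lit 5) (nat_lit 19) (nat_lit 4) (nat_lit 490) (nat_lit 412) (nat_lit 298)) (XT.lf (nat_lit 0) (nat_lit 158115378065) (nat_lit 152) (nat_lit 286085492633) (nat_lit 0) (nat_lit 131522518698) (nat_lit 16) (nat_lit 5) (nat_lit 18) (nat_lit 4) (nat_lit 16) (nat_lit 4) (nat_lit 491) (nat_lit 412) (nat_lit 297))) (XT.nd (nat_lit 78) (nat_lit 0) (nat_lit 0) (XT.lf (nat_lit 0) (nat_lit 29783664130) (nat_lit 76) (nat_lit 305138139108) (nat_lit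 76) (nat_lit 278544997408) (nat_lit 15) (nat_lit 4) (nat_lit 16) (nat_lit 5) (nat_lit 16) (nat_lit 4) (nat_lit 492) (nat_lit 412) (nat_lit 296)) (XT.lf (nat_lit 0) (nat_lit 381131241544) (nat_lit 76) (nat_lit 149721425083) (nat_lit 76) (nat_lit 123128021964) (nat_lit 15) (nat_lit 4) (nat_lit 16) (nat_lit 5) (nat_lit 16) (nat_lit 4) (nat_lit 493) (nat_lit 412) (nat_lit 295)))) (XT.nd (nat_lit 156) (nat_lit 76) (nat_lit 0) (XT.nd (nat_lit 78) (nat_lit 0) (nat_lit 0) (XT.lf (nat_lit 0) (nat_lit 44600842369) (nat_lit 152) (nat_lit 633760875717) (nat_lit 0) (nat_lit 19273561251) (nat_lit 13) (nat_lit 5) (nat_lit 15) (nat_lit 4) (nat_lit 13) (nat_lit 4) (nat_lit 494) (nat_lit 412) (nat_lit 294)) (XT.lf (nat_lit 0) (nat_lit 228844033116) (nat_lit 152) (nat_lit 311950249908) (nat_lit 0) (nat_lit 203516538545) (nat_lit 13) (nat_lit 5) (nat_lit 15) (nat_lit 4) (nat_lit 13) (nat_lit 4) (nat_lit 495) (nat_lit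 412) (nat_lit 293))) (XT.nd (nat_lit 78) (nat_lit 0) (nat_lit 0) (XT.lf (nat_lit 0) (nat_lit 36776251364) (nat_lit 76) (nat_lit 391621643619) (nat_lit 76) (nat_lit 366293951407) (nat_lit 12) (nat_lit 4) (nat_lit 13) (nat_lit 5) (nat_lit 13) (nat_lit 4) (nat_lit 496) (nat_lit 412) (nat_lit 292)) (XT.lf (nat_lit 0) (nat_lit 424534733896) (nat_lit 76) (nat_lit 224812468836) (nat_lit 76) (nat_lit 199484593623) (nat_lit 12) (nat_lit 4) (nat_lit 13) (nat_lit 5) (nat_lit 13) (nat_lit 4) (nat_lit 497) (nat_lit 412) (nat_lit 291)))))) (XT.nd (nat_lit 55848) (nat_lit 0) (nat_lit 11476) (XT.nd (nat_lit 312) (nat_lit 152) (nat_lit 0) (XT.nd (nat_lit 156) (nat_lit 76) (nat_lit 0) (XT.nd (nat_lit 78) (nat_lit 152) (nat_lit 0) (XT.lf (nat_lit 0) (nat_lit 843308541662) (nat_lit 76) (nat_lit 44661288286) (nat_lit 76) (nat_lit 19333243628) (nat_lit 12) (nat_lit 4) (nat_lit 13) (nat_lit 5) (nat_lit 13) (nat_lit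 4) (nat_lit 498) (nat_lit 412) (nat_lit 290)) (XT.lf (nat_lit 0) (nat_lit 177289586130) (nat_lit 152) (nat_lit 639474794050) (nat_lit 0) (nat_lit 153167489413) (nat_lit 10) (nat_lit 5) (nat_lit 12) (nat_lit 4) (nat_lit 10) (nat_lit 4) (nat_lit 499) (nat_lit 412) (nat_lit 289))) (XT.nd (nat_lit 78) (nat_lit 76) (nat_lit 0) (XT.lf (nat_lit 0) (nat_lit 390857642671) (nat_lit 152) (nat_lit 279867434947) (nat_lit 0) (nat_lit 366735407600) (nat_lit 10) (nat_lit 5) (nat_lit 12) (nat_lit 4) (nat_lit 10) (nat_lit 4) (nat_lit 500) (nat_lit 412) (nat_lit 288)) (XT.lf (nat_lit 0) (nat_lit 112091607946) (nat_lit 76) (nat_lit 511167376643) (nat_lit 76) (nat_lit 487045013466) (nat_lit 9) (nat_lit 4) (nat_lit 10) (nat_lit 5) (nat_lit 10) (nat_lit 4) (nat_lit 501) (nat_lit 412) (nat_lit 287)))) (XT.nd (nat_lit 156) (nat_lit 152) (nat_lit 0) (XT.nd (nat_lit 78) (nat_lit 0) (nat_lit 0) (XT.lf (nat_lit 0) (nat_lit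 545397010824) (nat_lit 76) (nat_lit 333728406848) (nat_lit 76) (nat_lit 309605925055) (nat_lit 9) (nat_lit 4) (nat_lit 10) (nat_lit 5) (nat_lit 10) (nat_lit 4) (nat_lit 502) (nat_lit 412) (nat_lit 286)) (XT.lf (nat_lit 0) (nat_lit 1013362828091) (nat_lit 76) (nat_lit 142096368476) (nat_lit 76) (nat_lit 117973776852) (nat_lit 9) (nat_lit 4) (nat_lit 10) (nat_lit 5) (nat_lit 10) (nat_lit 4) (nat_lit 503) (nat_lit 412) (nat_lit 285))) (XT.nd (nat_lit 78) (nat_lit 0) (nat_lit 0) (XT.lf (nat_lit 0) (nat_lit 89673755977) (nat_lit 152) (nat_lit 1208291097174) (nat_lit 0) (nat_lit 66699762340) (nat_lit 7) (nat_lit 5) (nat_lit 9) (nat_lit 4) (nat_lit 7) (nat_lit 4) (nat_lit 504) (nat_lit 412) (nat_lit 284)) (XT.lf (nat_lit 0) (nat_lit 316853846036) (nat_lit 152) (nat_lit 852011781304) (nat_lit 0) (nat_lit 293879762721) (nat_lit 7) (nat_lit 5) (nat_lit 9) (nat_lit 4) (nat_lit 7) (nat_lit 4) (nat_lit 505)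 (nat_lit 412) (nat_lit 283))))) (XT.nd (nat_lit 312) (nat_lit 532) (nat_lit 0) (XT.nd (nat_lit 156) (nat_lit 684) (nat_lit 0) (XT.nd (nat_lit 78) (nat_lit 0) (nat_lit 0) (XT.lf (nat_lit 0) (nat_lit 2234477098) (nat_lit 0) (nat_lit 2234477098) (nat_lit 684) (nat_lit 1231428994) (nat_lit 174) (nat_lit 5) (nat_lit 174) (nat_lit 3) (nat_lit 183) (nat_lit 3) (nat_lit 413) (nat_lit 413) (nat_lit 374)) (XT.lf (nat_lit 76) (nat_lit 2166955746) (nat_lit 0) (nat_lit 8039022174) (nat_lit 760) (nat_lit 1605224208) (nat_lit 175) (nat_lit 5) (nat_lit 174) (nat_lit 5) (nat_lit 184) (nat_lit 5) (nat_lit 414) (nat_lit 413) (nat_lit 373))) (XT.nd (nat_lit 78) (nat_lit 760) (nat_lit 0) (XT.lf (nat_lit 0) (nat_lit 11695277491) (nat_lit 684) (nat_lit 139265118) (nat_lit 760) (nat_lit 413947627) (nat_lit 175) (nat_lit 5) (nat_lit 184) (nat_lit 5) (nat_lit 185) (nat_lit 5) (nat_lit 415) (nat_lit 413) (nat_lit 372))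 (XT.lf (nat_lit 0) (nat_lit 788611927) (nat_lit 760) (nat_lit 2451023247) (nat_lit 836) (nat_lit 9469461537) (nat_lit 165) (nat_lit 5) (nat_lit 175) (nat_lit 5) (nat_lit 176) (nat_lit 5) (nat_lit 416) (nat_lit 413) (nat_lit 371)))) (XT.nd (nat_lit 156) (nat_lit 608) (nat_lit 0) (XT.nd (nat_lit 78) (nat_lit 0) (nat_lit 76) (XT.lf (nat_lit 0) (nat_lit 2379395919) (nat_lit 760) (nat_lit 4799724480) (nat_lit 836) (nat_lit 6018933585) (nat_lit 166) (nat_lit 5) (nat_lit 176) (nat_lit 5) (nat_lit 177) (nat_lit 5) (nat_lit 417) (nat_lit 413) (nat_lit 370)) (XT.lf (nat_lit 0) (nat_lit 4268393659) (nat_lit 760) (nat_lit 7171326551) (nat_lit 836) (nat_lit 2277865165) (nat_lit 167) (nat_lit 5) (nat_lit 177) (nat_lit 5) (nat_lit 178) (nat_lit 5) (nat_lit 418) (nat_lit 413) (nat_lit 369))) (XT.nd (nat_lit 78) (nat_lit 684) (nat_lit 0) (XT.lf (nat_lit 76) (nat_lit 4673008212) (nat_lit 0) (nat_lit 1852298905)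 (nat_lit 836) (nat_lit 7742537076) (nat_lit 168) (nat_lit 5) (nat_lit 167) (nat_lit 5) (nat_lit 178) (nat_lit 5) (nat_lit 419) (nat_lit 413) (nat_lit 368)) (XT.lf (nat_lit 0) (nat_lit 2767061731) (nat_lit 760) (nat_lit 6440424581) (nat_lit 836) (nat_lit 5642406131) (nat_lit 158) (nat_lit 5) (nat_lit 168) (nat_lit 5) (nat_lit 169) (nat_lit 5) (nat_lit 420) (nat_lit 413) (nat_lit 367))))))))
noncomputable def xc66 : XT := (XT.nd (nat_lit 2418) (nat_lit 3268) (nat_lit 0) (XT.nd (nat_lit 1170) (nat_lit 2584) (nat_lit 0) (XT.nd (nat_lit 546) (nat_lit 1976) (nat_lit 0) (XT.nd (nat_lit 234) (nat_lit 1368) (nat_lit 0) (XT.nd (nat_lit 78) (nat_lit 456) (nat_lit 0) (XT.lf (nat_lit 0) (nat_lit 870735750) (nat_lit 456) (nat_lit 11454803416) (nat_lit 532) (nat_lit 3141904460) (nat_lit 152) (nat_lit 5) (nat_lit 158) (nat_lit 5) (nat_lit 159) (nat_lit 5) (nat_lit 421) (nat_lit 413) (nat_lit 366)) (XT.nd (nat_lit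 78) (nat_lit 456) (nat_lit 0) (XT.lf (nat_lit 0) (nat_lit 15129774835) (nat_lit 456) (nat_lit 829261587) (nat_lit 532) (nat_lit 162066212) (nat_lit 152) (nat_lit 5) (nat_lit 158) (nat_lit 5) (nat_lit 159) (nat_lit 5) (nat_lit 422) (nat_lit 413) (nat_lit 365)) (XT.lf (nat_lit 0) (nat_lit 3300109419) (nat_lit 456) (nat_lit 2930036539) (nat_lit 76) (nat_lit 10577437616) (nat_lit 146) (nat_lit 5) (nat_lit 152) (nat_lit 5) (nat_lit 147) (nat_lit 5) (nat_lit 423) (nat_lit 413) (nat_lit 364)))) (XT.nd (nat_lit 156) (nat_lit 684) (nat_lit 0) (XT.nd (nat_lit 78) (nat_lit 304) (nat_lit 0) (XT.lf (nat_lit 0) (nat_lit 7305680422) (nat_lit 456) (nat_lit 4859536349) (nat_lit 76) (nat_lit 5370031463) (nat_lit 141) (nat_lit 5) (nat_lit 147) (nat_lit 5) (nat_lit 142) (nat_lit 5) (nat_lit 424) (nat_lit 413) (nat_lit 363)) (XT.lf (nat_lit 0) (nat_lit 11530983254) (nat_lit 304) (nat_lit 394820942) (nat_lit 380)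 (nat_lit 6380619345) (nat_lit 137) (nat_lit 5) (nat_lit 141) (nat_lit 5) (nat_lit 142) (nat_lit 5) (nat_lit 425) (nat_lit 413) (nat_lit 362))) (XT.nd (nat_lit 78) (nat_lit 380) (nat_lit 0) (XT.lf (nat_lit 0) (nat_lit 10361134665) (nat_lit 304) (nat_lit 6954027958) (nat_lit 380) (nat_lit 1804151628) (nat_lit 133) (nat_lit 5) (nat_lit 137) (nat_lit 5) (nat_lit 138) (nat_lit 5) (nat_lit 426) (nat_lit 413) (nat_lit 361)) (XT.lf (nat_lit 0) (nat_lit 3365484603) (nat_lit 380) (nat_lit 10764945077) (nat_lit 76) (nat_lit 5847983829) (nat_lit 128) (nat_lit 5) (nat_lit 133) (nat_lit 5) (nat_lit 129) (nat_lit 5) (nat_lit 427) (nat_lit 413) (nat_lit 360))))) (XT.nd (nat_lit 312) (nat_lit 836) (nat_lit 0) (XT.nd (nat_lit 156) (nat_lit 608) (nat_lit 0) (XT.nd (nat_lit 78) (nat_lit 228) (nat_lit 0) (XT.lf (nat_lit 0) (nat_lit 8099171809) (nat_lit 304) (nat_lit 1149134178) (nat_lit 380) (nat_lit 11638316901)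 (nat_lit 124) (nat_lit 5) (nat_lit 128) (nat_lit 5) (nat_lit 129) (nat_lit 5) (nat_lit 428) (nat_lit 413) (nat_lit 359)) (XT.lf (nat_lit 0) (nat_lit 6971418687) (nat_lit 228) (nat_lit 9095792681) (nat_lit 304) (nat_lit 5777006711) (nat_lit 121) (nat_lit 5) (nat_lit 124) (nat_lit 5) (nat_lit 125) (nat_lit 5) (nat_lit 429) (nat_lit 413) (nat_lit 358))) (XT.nd (nat_lit 78) (nat_lit 228) (nat_lit 0) (XT.lf (nat_lit 0) (nat_lit 922409891) (nat_lit 380) (nat_lit 16927742570) (nat_lit 76) (nat_lit 5008492928) (nat_lit 116) (nat_lit 5) (nat_lit 121) (nat_lit 5) (nat_lit 117) (nat_lit 5) (nat_lit 430) (nat_lit 413) (nat_lit 357)) (XT.lf (nat_lit 0) (nat_lit 4843802471) (nat_lit 228) (nat_lit 3574653584) (nat_lit 304) (nat_lit 15507883473) (nat_lit 113) (nat_lit 5) (nat_lit 116) (nat_lit 5) (nat_lit 117) (nat_lit 5) (nat_lit 431) (nat_lit 413) (nat_lit 356)))) (XT.nd (nat_lit 156) (nat_lit 380) (nat_lit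 0) (XT.nd (nat_lit 78) (nat_lit 228) (nat_lit 0) (XT.lf (nat_lit 0) (nat_lit 3783930887) (nat_lit 228) (nat_lit 13243484578) (nat_lit 304) (nat_lit 8026373752) (nat_lit 110) (nat_lit 5) (nat_lit 113) (nat_lit 5) (nat_lit 114) (nat_lit 5) (nat_lit 432) (nat_lit 413) (nat_lit 355)) (XT.lf (nat_lit 0) (nat_lit 503670442) (nat_lit 228) (nat_lit 23399636499) (nat_lit 76) (nat_lit 2345500821) (nat_lit 107) (nat_lit 5) (nat_lit 110) (nat_lit 5) (nat_lit 108) (nat_lit 5) (nat_lit 433) (nat_lit 413) (nat_lit 354))) (XT.nd (nat_lit 78) (nat_lit 152) (nat_lit 0) (XT.lf (nat_lit 0) (nat_lit 1786171771) (nat_lit 228) (nat_lit 8252257587) (nat_lit 304) (nat_lit 17464244846) (nat_lit 104) (nat_lit 5) (nat_lit 107) (nat_lit 5) (nat_lit 108) (nat_lit 5) (nat_lit 434) (nat_lit 413) (nat_lit 353)) (XT.lf (nat_lit 0) (nat_lit 828860189) (nat_lit 152) (nat_lit 20042599090) (nat_lit 228) (nat_lit 7958617301) (nat_lit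 102) (nat_lit 5) (nat_lit 104) (nat_lit 5) (nat_lit 105) (nat_lit 5) (nat_lit 435) (nat_lit 413) (nat_lit 352)))))) (XT.nd (nat_lit 624) (nat_lit 1216) (nat_lit 0) (XT.nd (nat_lit 312) (nat_lit 684) (nat_lit 0) (XT.nd (nat_lit 156) (nat_lit 380) (nat_lit 0) (XT.nd (nat_lit 78) (nat_lit 228) (nat_lit 0) (XT.lf (nat_lit 0) (nat_lit 2802202129) (nat_lit 228) (nat_lit 48536979) (nat_lit 76) (nat_lit 27382701996) (nat_lit 101) (nat_lit 5) (nat_lit 104) (nat_lit 5) (nat_lit 102) (nat_lit 5) (nat_lit 436) (nat_lit 413) (nat_lit 351)) (XT.lf (nat_lit 0) (nat_lit 14863480788) (nat_lit 304) (nat_lit 1015527895) (nat_lit 76) (nat_lit 15827622332) (nat_lit 98) (nat_lit 5) (nat_lit 102) (nat_lit 5) (nat_lit 99) (nat_lit 5) (nat_lit 437) (nat_lit 413) (nat_lit 350))) (XT.nd (nat_lit 78) (nat_lit 228) (nat_lit 0) (XT.lf (nat_lit 0) (nat_lit 28456269874) (nat_lit 228) (nat_lit 1802812861) (nat_lit 76) (nat_lit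 3010263832) (nat_lit 96) (nat_lit 5) (nat_lit 99) (nat_lit 5) (nat_lit 97) (nat_lit 5) (nat_lit 438) (nat_lit 413) (nat_lit 349)) (XT.lf (nat_lit 0) (nat_lit 8699130597) (nat_lit 228) (nat_lit 2700516046) (nat_lit 76) (nat_lit 23511972312) (nat_lit 93) (nat_lit 5) (nat_lit 96) (nat_lit 5) (nat_lit 94) (nat_lit 5) (nat_lit 439) (nat_lit 413) (nat_lit 348)))) (XT.nd (nat_lit 156) (nat_lit 304) (nat_lit 0) (XT.nd (nat_lit 78) (nat_lit 228) (nat_lit 0) (XT.lf (nat_lit 0) (nat_lit 23806265315) (nat_lit 228) (nat_lit 3530306919) (nat_lit 76) (nat_lit 9310627574) (nat_lit 91) (nat_lit 5) (nat_lit 94) (nat_lit 5) (nat_lit 92) (nat_lit 5) (nat_lit 440) (nat_lit 413) (nat_lit 347)) (XT.lf (nat_lit 0) (nat_lit 2315733950) (nat_lit 228) (nat_lit 4276152357) (nat_lit 76) (nat_lit 31890161581) (nat_lit 88) (nat_lit 5) (nat_lit 91) (nat_lit 5) (nat_lit 89) (nat_lit 5) (nat_lit 441) (nat_lit 413) (nat_lit 346)))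 (XT.nd (nat_lit 78) (nat_lit 152) (nat_lit 0) (XT.lf (nat_lit 0) (nat_lit 19098551751) (nat_lit 228) (nat_lit 5171753441) (nat_lit 76) (nat_lit 16139678855) (nat_lit 86) (nat_lit 5) (nat_lit 89) (nat_lit 5) (nat_lit 87) (nat_lit 5) (nat_lit 442) (nat_lit 413) (nat_lit 345)) (XT.lf (nat_lit 0) (nat_lit 36604016290) (nat_lit 152) (nat_lit 1359303320) (nat_lit 228) (nat_lit 4491869782) (nat_lit 84) (nat_lit 5) (nat_lit 86) (nat_lit 5) (nat_lit 87) (nat_lit 5) (nat_lit 443) (nat_lit 413) (nat_lit 344))))) (XT.nd (nat_lit 312) (nat_lit 608) (nat_lit 0) (XT.nd (nat_lit 156) (nat_lit 304) (nat_lit 0) (XT.nd (nat_lit 78) (nat_lit 152) (nat_lit 0) (XT.lf (nat_lit 0) (nat_lit 14285216937) (nat_lit 152) (nat_lit 6776429583) (nat_lit 76) (nat_lit 23539211777) (nat_lit 82) (nat_lit 5) (nat_lit 84) (nat_lit 5) (nat_lit 83) (nat_lit 5) (nat_lit 444) (nat_lit 413) (nat_lit 343)) (XT.lf (nat_lit 0) (nat_lit 35200347337)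 (nat_lit 228) (nat_lit 7525451264) (nat_lit 76) (nat_lit 4149038183) (nat_lit 80) (nat_lit 5) (nat_lit 83) (nat_lit 5) (nat_lit 81) (nat_lit 4) (nat_lit 445) (nat_lit 413) (nat_lit 342))) (XT.nd (nat_lit 78) (nat_lit 152) (nat_lit 0) (XT.lf (nat_lit 0) (nat_lit 9303491076) (nat_lit 152) (nat_lit 8418945881) (nat_lit 76) (nat_lit 31545882164) (nat_lit 78) (nat_lit 5) (nat_lit 80) (nat_lit 5) (nat_lit 79) (nat_lit 5) (nat_lit 446) (nat_lit 413) (nat_lit 341)) (XT.lf (nat_lit 0) (nat_lit 32499772969) (nat_lit 228) (nat_lit 9313102328) (nat_lit 76) (nat_lit 9983381836) (nat_lit 76) (nat_lit 5) (nat_lit 79) (nat_lit 5) (nat_lit 77) (nat_lit 4) (nat_lit 447) (nat_lit 413) (nat_lit 340)))) (XT.nd (nat_lit 156) (nat_lit 304) (nat_lit 0) (XT.nd (nat_lit 78) (nat_lit 152) (nat_lit 0) (XT.lf (nat_lit 0) (nat_lit 4070889120) (nat_lit 152) (nat_lit 10208796553) (nat_lit 76) (nat_lit 40187263570) (nat_lit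 74) (nat_lit 5) (nat_lit 76) (nat_lit 5) (nat_lit 75) (nat_lit 5) (nat_lit 448) (nat_lit 413) (nat_lit 339)) (XT.lf (nat_lit 0) (nat_lit 29772742940) (nat_lit 228) (nat_lit 11325038669) (nat_lit 76) (nat_lit 16180641335) (nat_lit 72) (nat_lit 5) (nat_lit 75) (nat_lit 5) (nat_lit 73) (nat_lit 4) (nat_lit 449) (nat_lit 413) (nat_lit 338))) (XT.nd (nat_lit 78) (nat_lit 228) (nat_lit 0) (XT.lf (nat_lit 0) (nat_lit 47929608418) (nat_lit 76) (nat_lit 10756005836) (nat_lit 152) (nat_lit 1571457095) (nat_lit 71) (nat_lit 5) (nat_lit 72) (nat_lit 5) (nat_lit 73) (nat_lit 4) (nat_lit 450) (nat_lit 413) (nat_lit 337)) (XT.lf (nat_lit 0) (nat_lit 26924672438) (nat_lit 228) (nat_lit 13748611956) (nat_lit 76) (nat_lit 22713422590) (nat_lit 68) (nat_lit 5) (nat_lit 71) (nat_lit 5) (nat_lit 69) (nat_lit 4) (nat_lit 451) (nat_lit 413) (nat_lit 336))))))) (XT.nd (nat_lit 1248) (nat_lit 1520) (nat_lit 0) (XT.nd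 (nat_lit 624) (nat_lit 836) (nat_lit 0) (XT.nd (nat_lit 312) (nat_lit 456) (nat_lit 0) (XT.nd (nat_lit 156) (nat_lit 228) (nat_lit 0) (XT.nd (nat_lit 78) (nat_lit 152) (nat_lit 0) (XT.lf (nat_lit 0) (nat_lit 51660712461) (nat_lit 76) (nat_lit 7177614669) (nat_lit 152) (nat_lit 7867453927) (nat_lit 67) (nat_lit 5) (nat_lit 68) (nat_lit 5) (nat_lit 69) (nat_lit 4) (nat_lit 452) (nat_lit 413) (nat_lit 335)) (XT.lf (nat_lit 0) (nat_lit 23824840856) (nat_lit 152) (nat_lit 16845279514) (nat_lit 76) (nat_lit 29524956602) (nat_lit 65) (nat_lit 5) (nat_lit 67) (nat_lit 5) (nat_lit 66) (nat_lit 4) (nat_lit 453) (nat_lit 413) (nat_lit 334))) (XT.nd (nat_lit 78) (nat_lit 152) (nat_lit 0) (XT.lf (nat_lit 0) (nat_lit 55289578254) (nat_lit 76) (nat_lit 3728441933) (nat_lit 152) (nat_lit 14876990910) (nat_lit 64) (nat_lit 5) (nat_lit 65) (nat_lit 5) (nat_lit 66) (nat_lit 4) (nat_lit 454) (nat_lit 413) (nat_lit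 333)) (XT.lf (nat_lit 0) (nat_lit 20294367072) (nat_lit 152) (nat_lit 20975305911) (nat_lit 76) (nat_lit 36517773240) (nat_lit 62) (nat_lit 5) (nat_lit 64) (nat_lit 5) (nat_lit 63) (nat_lit 4) (nat_lit 455) (nat_lit 413) (nat_lit 332)))) (XT.nd (nat_lit 156) (nat_lit 228) (nat_lit 0) (XT.nd (nat_lit 78) (nat_lit 152) (nat_lit 0) (XT.lf (nat_lit 0) (nat_lit 58481329460) (nat_lit 76) (nat_lit 576816901) (nat_lit 152) (nat_lit 22855939193) (nat_lit 61) (nat_lit 5) (nat_lit 62) (nat_lit 5) (nat_lit 63) (nat_lit 4) (nat_lit 456) (nat_lit 413) (nat_lit 331)) (XT.lf (nat_lit 0) (nat_lit 16090503566) (nat_lit 152) (nat_lit 26629998904) (nat_lit 76) (nat_lit 43538789079) (nat_lit 59) (nat_lit 5) (nat_lit 61) (nat_lit 5) (nat_lit 60) (nat_lit 4) (nat_lit 457) (nat_lit 413) (nat_lit 330))) (XT.nd (nat_lit 78) (nat_lit 152) (nat_lit 0) (XT.lf (nat_lit 0) (nat_lit 58756048973) (nat_lit 152) (nat_lit 30134856728)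 (nat_lit 0) (nat_lit 1972266665) (nat_lit 58) (nat_lit 5) (nat_lit 60) (nat_lit 4) (nat_lit 58) (nat_lit 4) (nat_lit 458) (nat_lit 413) (nat_lit 329)) (XT.lf (nat_lit 0) (nat_lit 10886167169) (nat_lit 152) (nat_lit 34473700641) (nat_lit 76) (nat_lit 50359733983) (nat_lit 56) (nat_lit 5) (nat_lit 58) (nat_lit 5) (nat_lit 57) (nat_lit 4) (nat_lit 459) (nat_lit 413) (nat_lit 328))))) (XT.nd (nat_lit 312) (nat_lit 456) (nat_lit 0) (XT.nd (nat_lit 156) (nat_lit 152) (nat_lit 0) (XT.nd (nat_lit 78) (nat_lit 152) (nat_lit 0) (XT.lf (nat_lit 0) (nat_lit 57750420424) (nat_lit 152) (nat_lit 39451395689) (nat_lit 0) (nat_lit 3658593410) (nat_lit 55) (nat_lit 5) (nat_lit 57) (nat_lit 4) (nat_lit 55) (nat_lit 4) (nat_lit 460) (nat_lit 413) (nat_lit 327)) (XT.lf (nat_lit 0) (nat_lit 4243310381) (nat_lit 152) (nat_lit 45398397899) (nat_lit 76) (nat_lit 56651528733) (nat_lit 53) (nat_lit 5) (nat_lit 55) (nat_lit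 5) (nat_lit 54) (nat_lit 4) (nat_lit 461) (nat_lit 413) (nat_lit 326))) (XT.nd (nat_lit 78) (nat_lit 76) (nat_lit 0) (XT.lf (nat_lit 0) (nat_lit 55580424623) (nat_lit 152) (nat_lit 52405061661) (nat_lit 0) (nat_lit 4054572698) (nat_lit 52) (nat_lit 5) (nat_lit 54) (nat_lit 4) (nat_lit 52) (nat_lit 4) (nat_lit 462) (nat_lit 413) (nat_lit 325)) (XT.lf (nat_lit 0) (nat_lit 57454273609) (nat_lit 76) (nat_lit 56098093178) (nat_lit 76) (nat_lit 4567867056) (nat_lit 51) (nat_lit 4) (nat_lit 52) (nat_lit 5) (nat_lit 52) (nat_lit 4) (nat_lit 463) (nat_lit 413) (nat_lit 324)))) (XT.nd (nat_lit 156) (nat_lit 228) (nat_lit 0) (XT.nd (nat_lit 78) (nat_lit 76) (nat_lit 0) (XT.lf (nat_lit 0) (nat_lit 51633713263) (nat_lit 152) (nat_lit 70369175698) (nat_lit 0) (nat_lit 2553450116) (nat_lit 49) (nat_lit 5) (nat_lit 51) (nat_lit 4) (nat_lit 49) (nat_lit 4) (nat_lit 464) (nat_lit 413) (nat_lit 323)) (XT.lf (nat_lit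 0) (nat_lit 49464620973) (nat_lit 76) (nat_lit 65491775883) (nat_lit 76) (nat_lit 16407941146) (nat_lit 48) (nat_lit 4) (nat_lit 49) (nat_lit 5) (nat_lit 49) (nat_lit 4) (nat_lit 465) (nat_lit 413) (nat_lit 322))) (XT.nd (nat_lit 78) (nat_lit 76) (nat_lit 0) (XT.lf (nat_lit 0) (nat_lit 43396195155) (nat_lit 76) (nat_lit 1717627732) (nat_lit 152) (nat_lit 93472601829) (nat_lit 46) (nat_lit 5) (nat_lit 47) (nat_lit 5) (nat_lit 48) (nat_lit 4) (nat_lit 466) (nat_lit 413) (nat_lit 321)) (XT.lf (nat_lit 0) (nat_lit 35082004683) (nat_lit 76) (nat_lit 78945572257) (nat_lit 76) (nat_lit 32192997183) (nat_lit 45) (nat_lit 4) (nat_lit 46) (nat_lit 5) (nat_lit 46) (nat_lit 4) (nat_lit 467) (nat_lit 413) (nat_lit 320)))))) (XT.nd (nat_lit 624) (nat_lit 684) (nat_lit 0) (XT.nd (nat_lit 312) (nat_lit 456) (nat_lit 0) (XT.nd (nat_lit 156) (nat_lit 152) (nat_lit 0) (XT.nd (nat_lit 78) (nat_lit 76) (nat_lit 0)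 (XT.lf (nat_lit 0) (nat_lit 24988446469) (nat_lit 76) (nat_lit 10008490981) (nat_lit 152) (nat_lit 119337193861) (nat_lit 43) (nat_lit 5) (nat_lit 44) (nat_lit 5) (nat_lit 45) (nat_lit 4) (nat_lit 468) (nat_lit 413) (nat_lit 319)) (XT.lf (nat_lit 0) (nat_lit 11753079822) (nat_lit 76) (nat_lit 97845158747) (nat_lit 76) (nat_lit 53313943966) (nat_lit 42) (nat_lit 4) (nat_lit 43) (nat_lit 5) (nat_lit 43) (nat_lit 4) (nat_lit 469) (nat_lit 413) (nat_lit 318))) (XT.nd (nat_lit 78) (nat_lit 76) (nat_lit 0) (XT.lf (nat_lit 0) (nat_lit 19866027266) (nat_lit 152) (nat_lit 3808063658) (nat_lit 76) (nat_lit 148365807793) (nat_lit 41) (nat_lit 5) (nat_lit 43) (nat_lit 5) (nat_lit 42) (nat_lit 4) (nat_lit 470) (nat_lit 413) (nat_lit 317)) (XT.lf (nat_lit 0) (nat_lit 100477069685) (nat_lit 152) (nat_lit 23142490955) (nat_lit 0) (nat_lit 58062344911) (nat_lit 40) (nat_lit 5) (nat_lit 42) (nat_lit 4) (nat_lit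 40) (nat_lit 4) (nat_lit 471) (nat_lit 413) (nat_lit 316)))) (XT.nd (nat_lit 156) (nat_lit 228) (nat_lit 0) (XT.nd (nat_lit 78) (nat_lit 152) (nat_lit 0) (XT.lf (nat_lit 0) (nat_lit 146182523204) (nat_lit 76) (nat_lit 44096096769) (nat_lit 76) (nat_lit 1679571767) (nat_lit 39) (nat_lit 4) (nat_lit 40) (nat_lit 5) (nat_lit 40) (nat_lit 4) (nat_lit 472) (nat_lit 413) (nat_lit 315)) (XT.lf (nat_lit 0) (nat_lit 84653291744) (nat_lit 152) (nat_lit 73925501870) (nat_lit 0) (nat_lit 44255013764) (nat_lit 37) (nat_lit 5) (nat_lit 39) (nat_lit 4) (nat_lit 37) (nat_lit 4) (nat_lit 473) (nat_lit 413) (nat_lit 314))) (XT.nd (nat_lit 78) (nat_lit 152) (nat_lit 0) (XT.lf (nat_lit 0) (nat_lit 107297399335) (nat_lit 76) (nat_lit 73759644488) (nat_lit 76) (nat_lit 33359896598) (nat_lit 36) (nat_lit 4) (nat_lit 37) (nat_lit 5) (nat_lit 37) (nat_lit 4) (nat_lit 474) (nat_lit 413) (nat_lit 313)) (XT.lf (nat_lit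 0) (nat_lit 59275398731) (nat_lit 152) (nat_lit 146663040075) (nat_lit 0) (nat_lit 20798152144) (nat_lit 34) (nat_lit 5) (nat_lit 36) (nat_lit 4) (nat_lit 34) (nat_lit 4) (nat_lit 475) (nat_lit 413) (nat_lit 312))))) (XT.nd (nat_lit 312) (nat_lit 380) (nat_lit 0) (XT.nd (nat_lit 156) (nat_lit 76) (nat_lit 0) (XT.nd (nat_lit 78) (nat_lit 152) (nat_lit 0) (XT.lf (nat_lit 0) (nat_lit 45732552558) (nat_lit 76) (nat_lit 116283596799) (nat_lit 76) (nat_lit 77805150011) (nat_lit 33) (nat_lit 4) (nat_lit 34) (nat_lit 5) (nat_lit 34) (nat_lit 4) (nat_lit 476) (nat_lit 413) (nat_lit 311)) (XT.lf (nat_lit 0) (nat_lit 4731823875) (nat_lit 76) (nat_lit 16346899031) (nat_lit 152) (nat_lit 232726000453) (nat_lit 31) (nat_lit 5) (nat_lit 32) (nat_lit 5) (nat_lit 33) (nat_lit 4) (nat_lit 477) (nat_lit 413) (nat_lit 310))) (XT.nd (nat_lit 78) (nat_lit 76) (nat_lit 0) (XT.lf (nat_lit 0) (nat_lit 130043915683) (nat_lit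 152) (nat_lit 45158567189) (nat_lit 0) (nat_lit 93395737528) (nat_lit 31) (nat_lit 5) (nat_lit 33) (nat_lit 4) (nat_lit 31) (nat_lit 4) (nat_lit 478) (nat_lit 413) (nat_lit 309)) (XT.lf (nat_lit 0) (nat_lit 180560846163) (nat_lit 76) (nat_lit 70254492919) (nat_lit 76) (nat_lit 33605407376) (nat_lit 30) (nat_lit 4) (nat_lit 31) (nat_lit 5) (nat_lit 31) (nat_lit 4) (nat_lit 479) (nat_lit 413) (nat_lit 308)))) (XT.nd (nat_lit 156) (nat_lit 152) (nat_lit 0) (XT.nd (nat_lit 78) (nat_lit 76) (nat_lit 0) (XT.lf (nat_lit 0) (nat_lit 80707283484) (nat_lit 152) (nat_lit 174760949000) (nat_lit 0) (nat_lit 45802592325) (nat_lit 28) (nat_lit 5) (nat_lit 30) (nat_lit 4) (nat_lit 28) (nat_lit 4) (nat_lit 480) (nat_lit 413) (nat_lit 307)) (XT.lf (nat_lit 0) (nat_lit 59760491528) (nat_lit 76) (nat_lit 147193980959) (nat_lit 76) (nat_lit 112288548905) (nat_lit 27) (nat_lit 4) (nat_lit 28) (nat_lit 5) (nat_lit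 28) (nat_lit 4) (nat_lit 481) (nat_lit 413) (nat_lit 306))) (XT.nd (nat_lit 78) (nat_lit 76) (nat_lit 0) (XT.lf (nat_lit 0) (nat_lit 7588576465) (nat_lit 152) (nat_lit 19349536313) (nat_lit 76) (nat_lit 311556806535) (nat_lit 26) (nat_lit 5) (nat_lit 28) (nat_lit 5) (nat_lit 27) (nat_lit 4) (nat_lit 482) (nat_lit 413) (nat_lit 305)) (XT.lf (nat_lit 0) (nat_lit 138710838628) (nat_lit 152) (nat_lit 114738328421) (nat_lit 0) (nat_lit 105466311709) (nat_lit 25) (nat_lit 5) (nat_lit 27) (nat_lit 4) (nat_lit 25) (nat_lit 4) (nat_lit 483) (nat_lit 413) (nat_lit 304))))))))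
noncomputable def xc67 : XT := (XT.nd (nat_lit 57798) (nat_lit 0) (nat_lit 4332) (XT.nd (nat_lit 1248) (nat_lit 380) (nat_lit 0) (XT.nd (nat_lit 624) (nat_lit 456) (nat_lit 0) (XT.nd (nat_lit 312) (nat_lit 228) (nat_lit 0) (XT.nd (nat_lit 156) (nat_lit 76) (nat_lit 0) (XT.nd (nat_lit 78) (nat_lit 152) (nat_lit 0) (XT.lf (nat_lit 0) (nat_lit 152950192315) (nat_lit 76) (nat_lit 130552786430) (nat_lit 76) (nat_lit 97307699372) (nat_lit 24) (nat_lit 4) (nat_lit 25) (nat_lit 5) (nat_lit 25) (nat_lit 4) (nat_lit 484) (nat_lit 413) (nat_lit 303)) (XT.lf (nat_lit 0) (nat_lit 37065817873) (nat_lit 152) (nat_lit 361821762546) (nat_lit 0) (nat_lit 5403336248) (nat_lit 22) (nat_lit 5) (nat_lit 24) (nat_lit 4) (nat_lit 22) (nat_lit 4) (nat_lit 485) (nat_lit 413) (nat_lit 302))) (XT.nd (nat_lit 78) (nat_lit 76) (nat_lit 0) (XT.lf (nat_lit 0) (nat_lit 185056784837) (nat_lit 152) (nat_lit 90805345405) (nat_lit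 0) (nat_lit 153393845852) (nat_lit 22) (nat_lit 5) (nat_lit 24) (nat_lit 4) (nat_lit 22) (nat_lit 4) (nat_lit 486) (nat_lit 413) (nat_lit 301)) (XT.lf (nat_lit 0) (nat_lit 208559243247) (nat_lit 76) (nat_lit 139579877461) (nat_lit 76) (nat_lit 107916514994) (nat_lit 21) (nat_lit 4) (nat_lit 22) (nat_lit 5) (nat_lit 22) (nat_lit 4) (nat_lit 487) (nat_lit 413) (nat_lit 300)))) (XT.nd (nat_lit 156) (nat_lit 76) (nat_lit 0) (XT.nd (nat_lit 78) (nat_lit 0) (nat_lit 0) (XT.lf (nat_lit 0) (nat_lit 40582987072) (nat_lit 152) (nat_lit 433830043017) (nat_lit 0) (nat_lit 10427030328) (nat_lit 19) (nat_lit 5) (nat_lit 21) (nat_lit 4) (nat_lit 19) (nat_lit 4) (nat_lit 488) (nat_lit 413) (nat_lit 299)) (XT.lf (nat_lit 0) (nat_lit 203963726731) (nat_lit 152) (nat_lit 137728524693) (nat_lit 0) (nat_lit 173807424209) (nat_lit 19) (nat_lit 5) (nat_lit 21) (nat_lit 4) (nat_lit 19) (nat_lit 4) (nat_lit 489) (nat_lit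 413) (nat_lit 298))) (XT.nd (nat_lit 78) (nat_lit 0) (nat_lit 0) (XT.lf (nat_lit 0) (nat_lit 188073334295) (nat_lit 76) (nat_lit 195274355136) (nat_lit 76) (nat_lit 165117732449) (nat_lit 18) (nat_lit 4) (nat_lit 19) (nat_lit 5) (nat_lit 19) (nat_lit 4) (nat_lit 490) (nat_lit 413) (nat_lit 297)) (XT.lf (nat_lit 0) (nat_lit 544850598490) (nat_lit 76) (nat_lit 34627481469) (nat_lit 76) (nat_lit 4470562331) (nat_lit 18) (nat_lit 4) (nat_lit 19) (nat_lit 5) (nat_lit 19) (nat_lit 4) (nat_lit 491) (nat_lit 413) (nat_lit 296))))) (XT.nd (nat_lit 312) (nat_lit 76) (nat_lit 0) (XT.nd (nat_lit 156) (nat_lit 152) (nat_lit 0) (XT.nd (nat_lit 78) (nat_lit 76) (nat_lit 0) (XT.lf (nat_lit 0) (nat_lit 170830729323) (nat_lit 152) (nat_lit 308837632555) (nat_lit 0) (nat_lit 142109592535) (nat_lit 16) (nat_lit 5) (nat_lit 18) (nat_lit 4) (nat_lit 16) (nat_lit 4) (nat_lit 492) (nat_lit 413) (nat_lit 295)) (XT.lf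 (nat_lit 0) (nat_lit 32295202874) (nat_lit 76) (nat_lit 329483579425) (nat_lit 76) (nat_lit 300762200581) (nat_lit 15) (nat_lit 4) (nat_lit 16) (nat_lit 5) (nat_lit 16) (nat_lit 4) (nat_lit 493) (nat_lit 413) (nat_lit 294))) (XT.nd (nat_lit 78) (nat_lit 152) (nat_lit 0) (XT.lf (nat_lit 0) (nat_lit 411741042361) (nat_lit 76) (nat_lit 161638388338) (nat_lit 76) (nat_lit 132916785369) (nat_lit 15) (nat_lit 4) (nat_lit 16) (nat_lit 5) (nat_lit 16) (nat_lit 4) (nat_lit 494) (nat_lit 413) (nat_lit 293)) (XT.lf (nat_lit 0) (nat_lit 48226745783) (nat_lit 152) (nat_lit 684343823483) (nat_lit 0) (nat_lit 20872640553) (nat_lit 13) (nat_lit 5) (nat_lit 15) (nat_lit 4) (nat_lit 13) (nat_lit 4) (nat_lit 495) (nat_lit 413) (nat_lit 292)))) (XT.nd (nat_lit 156) (nat_lit 0) (nat_lit 0) (XT.nd (nat_lit 78) (nat_lit 76) (nat_lit 0) (XT.lf (nat_lit 0) (nat_lit 247205107640) (nat_lit 152) (nat_lit 336797082594) (nat_lit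 0) (nat_lit 219850819408) (nat_lit 13) (nat_lit 5) (nat_lit 15) (nat_lit 4) (nat_lit 13) (nat_lit 4) (nat_lit 496) (nat_lit 413) (nat_lit 291)) (XT.lf (nat_lit 0) (nat_lit 39822793633) (nat_lit 76) (nat_lit 422898148653) (nat_lit 76) (nat_lit 395543690976) (nat_lit 12) (nat_lit 4) (nat_lit 13) (nat_lit 5) (nat_lit 13) (nat_lit 4) (nat_lit 497) (nat_lit 413) (nat_lit 290))) (XT.nd (nat_lit 78) (nat_lit 0) (nat_lit 0) (XT.lf (nat_lit 0) (nat_lit 458594218311) (nat_lit 76) (nat_lit 242748182587) (nat_lit 76) (nat_lit 215393568017) (nat_lit 12) (nat_lit 4) (nat_lit 13) (nat_lit 5) (nat_lit 13) (nat_lit 4) (nat_lit 498) (nat_lit 413) (nat_lit 289)) (XT.lf (nat_lit 0) (nat_lit 910862767313) (nat_lit 76) (nat_lit 48188558242) (nat_lit 76) (nat_lit 20833798399) (nat_lit 12) (nat_lit 4) (nat_lit 13) (nat_lit 5) (nat_lit 13) (nat_lit 4) (nat_lit 499) (nat_lit 413) (nat_lit 288)))))) (XT.nd (nat_lit 55926)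 (nat_lit 0) (nat_lit 10944) (XT.nd (nat_lit 312) (nat_lit 152) (nat_lit 0) (XT.nd (nat_lit 156) (nat_lit 76) (nat_lit 0) (XT.nd (nat_lit 78) (nat_lit 0) (nat_lit 0) (XT.lf (nat_lit 0) (nat_lit 191516128427) (nat_lit 152) (nat_lit 690544273832) (nat_lit 0) (nat_lit 165463848090) (nat_lit 10) (nat_lit 5) (nat_lit 12) (nat_lit 4) (nat_lit 10) (nat_lit 4) (nat_lit 500) (nat_lit 413) (nat_lit 287)) (XT.lf (nat_lit 0) (nat_lit 422166416499) (nat_lit 152) (nat_lit 302174881834) (nat_lit 0) (nat_lit 396114017545) (nat_lit 10) (nat_lit 5) (nat_lit 12) (nat_lit 4) (nat_lit 10) (nat_lit 4) (nat_lit 501) (nat_lit 413) (nat_lit 286))) (XT.nd (nat_lit 78) (nat_lit 0) (nat_lit 0) (XT.lf (nat_lit 0) (nat_lit 121137323135) (nat_lit 76) (nat_lit 552020791475) (nat_lit 76) (nat_lit 525968282691) (nat_lit 9) (nat_lit 4) (nat_lit 10) (nat_lit 5) (nat_lit 10) (nat_lit 4) (nat_lit 502) (nat_lit 413) (nat_lit 285))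 (XT.lf (nat_lit 0) (nat_lit 589101351832) (nat_lit 76) (nat_lit 360389665230) (nat_lit 76) (nat_lit 334337054752) (nat_lit 9) (nat_lit 4) (nat_lit 10) (nat_lit 5) (nat_lit 10) (nat_lit 4) (nat_lit 503) (nat_lit 413) (nat_lit 284)))) (XT.nd (nat_lit 55458) (nat_lit 0) (nat_lit 12692) (XT.nd (nat_lit 78) (nat_lit 152) (nat_lit 0) (XT.lf (nat_lit 0) (nat_lit 1094499058173) (nat_lit 76) (nat_lit 153429805578) (nat_lit 76) (nat_lit 127377100938) (nat_lit 9) (nat_lit 4) (nat_lit 10) (nat_lit 5) (nat_lit 10) (nat_lit 4) (nat_lit 504) (nat_lit 413) (nat_lit 283)) (XT.lf (nat_lit 0) (nat_lit 96880188985) (nat_lit 152) (nat_lit 1304887962800) (nat_lit 0) (nat_lit 72068006293) (nat_lit 7) (nat_lit 5) (nat_lit 9) (nat_lit 4) (nat_lit 7) (nat_lit 4) (nat_lit 505) (nat_lit 413) (nat_lit 282))) (XT.nd (nat_lit 78) (nat_lit 0) (nat_lit 0) (XT.lf (nat_lit 0) (nat_lit 2811630249) (nat_lit 0) (nat_lit 2811630249)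 (nat_lit 684) (nat_lit 493248216) (nat_lit 174) (nat_lit 5) (nat_lit 174) (nat_lit 3) (nat_lit 183) (nat_lit 3) (nat_lit 414) (nat_lit 414) (nat_lit 372)) (XT.lf (nat_lit 76) (nat_lit 3190715951) (nat_lit 0) (nat_lit 9309035727) (nat_lit 760) (nat_lit 182360298) (nat_lit 175) (nat_lit 5) (nat_lit 174) (nat_lit 5) (nat_lit 184) (nat_lit 5) (nat_lit 415) (nat_lit 414) (nat_lit 371))))) (XT.nd (nat_lit 312) (nat_lit 988) (nat_lit 0) (XT.nd (nat_lit 156) (nat_lit 0) (nat_lit 152) (XT.nd (nat_lit 78) (nat_lit 0) (nat_lit 76) (XT.lf (nat_lit 76) (nat_lit 722878314) (nat_lit 0) (nat_lit 93131135) (nat_lit 836) (nat_lit 12343001409) (nat_lit 165) (nat_lit 5) (nat_lit 164) (nat_lit 5) (nat_lit 175) (nat_lit 5) (nat_lit 416) (nat_lit 414) (nat_lit 370)) (XT.lf (nat_lit 0) (nat_lit 2143708373) (nat_lit 760) (nat_lit 1776897941) (nat_lit 836) (nat_lit 9740518516) (nat_lit 165) (nat_lit 5) (nat_lit 175) (nat_lit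 5) (nat_lit 176) (nat_lit 5) (nat_lit 417) (nat_lit 414) (nat_lit 369))) (XT.nd (nat_lit 78) (nat_lit 0) (nat_lit 76) (XT.lf (nat_lit 0) (nat_lit 3773162127) (nat_lit 760) (nat_lit 4284871943) (nat_lit 836) (nat_lit 6135601614) (nat_lit 166) (nat_lit 5) (nat_lit 176) (nat_lit 5) (nat_lit 177) (nat_lit 5) (nat_lit 418) (nat_lit 414) (nat_lit 368)) (XT.lf (nat_lit 0) (nat_lit 5733378162) (nat_lit 760) (nat_lit 6824611263) (nat_lit 836) (nat_lit 2200742044) (nat_lit 167) (nat_lit 5) (nat_lit 177) (nat_lit 5) (nat_lit 178) (nat_lit 5) (nat_lit 419) (nat_lit 414) (nat_lit 367)))) (XT.nd (nat_lit 156) (nat_lit 532) (nat_lit 0) (XT.nd (nat_lit 78) (nat_lit 684) (nat_lit 0) (XT.lf (nat_lit 76) (nat_lit 5927269887) (nat_lit 0) (nat_lit 2174097462) (nat_lit 836) (nat_lit 7255123812) (nat_lit 168) (nat_lit 5) (nat_lit 167) (nat_lit 5) (nat_lit 178) (nat_lit 5) (nat_lit 420) (nat_lit 414) (nat_lit 366))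 (XT.lf (nat_lit 0) (nat_lit 3883665262) (nat_lit 760) (nat_lit 7047846261) (nat_lit 836) (nat_lit 5056928054) (nat_lit 158) (nat_lit 5) (nat_lit 168) (nat_lit 5) (nat_lit 169) (nat_lit 5) (nat_lit 421) (nat_lit 414) (nat_lit 365))) (XT.nd (nat_lit 78) (nat_lit 76) (nat_lit 0) (XT.lf (nat_lit 0) (nat_lit 1845399457) (nat_lit 456) (nat_lit 12393263427) (nat_lit 532) (nat_lit 2419754659) (nat_lit 152) (nat_lit 5) (nat_lit 158) (nat_lit 5) (nat_lit 159) (nat_lit 5) (nat_lit 422) (nat_lit 414) (nat_lit 364)) (XT.lf (nat_lit 0) (nat_lit 703111341) (nat_lit 532) (nat_lit 201024140) (nat_lit 76) (nat_lit 16463105401) (nat_lit 151) (nat_lit 5) (nat_lit 158) (nat_lit 5) (nat_lit 152) (nat_lit 5) (nat_lit 423) (nat_lit 414) (nat_lit 363))))))) (XT.nd (nat_lit 1248) (nat_lit 2432) (nat_lit 0) (XT.nd (nat_lit 624) (nat_lit 1520) (nat_lit 0) (XT.nd (nat_lit 312) (nat_lit 1292) (nat_lit 0) (XT.nd (nat_lit 156)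 (nat_lit 608) (nat_lit 0) (XT.nd (nat_lit 78) (nat_lit 380) (nat_lit 0) (XT.lf (nat_lit 0) (nat_lit 4385102826) (nat_lit 456) (nat_lit 2294268229) (nat_lit 76) (nat_lit 11431714822) (nat_lit 146) (nat_lit 5) (nat_lit 152) (nat_lit 5) (nat_lit 147) (nat_lit 5) (nat_lit 424) (nat_lit 414) (nat_lit 362)) (XT.lf (nat_lit 0) (nat_lit 8664225315) (nat_lit 456) (nat_lit 4378159317) (nat_lit 76) (nat_lit 5856927873) (nat_lit 141) (nat_lit 5) (nat_lit 147) (nat_lit 5) (nat_lit 142) (nat_lit 5) (nat_lit 425) (nat_lit 414) (nat_lit 361))) (XT.nd (nat_lit 78) (nat_lit 304) (nat_lit 0) (XT.lf (nat_lit 0) (nat_lit 13285786633) (nat_lit 304) (nat_lit 323827245) (nat_lit 380) (nat_lit 6124788996) (nat_lit 137) (nat_lit 5) (nat_lit 141) (nat_lit 5) (nat_lit 142) (nat_lit 5) (nat_lit 426) (nat_lit 414) (nat_lit 360)) (XT.lf (nat_lit 0) (nat_lit 12019593191) (nat_lit 304) (nat_lit 7370907372) (nat_lit 380) (nat_lit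 1223808800) (nat_lit 133) (nat_lit 5) (nat_lit 137) (nat_lit 5) (nat_lit 138) (nat_lit 5) (nat_lit 427) (nat_lit 414) (nat_lit 359)))) (XT.nd (nat_lit 156) (nat_lit 608) (nat_lit 0) (XT.nd (nat_lit 78) (nat_lit 304) (nat_lit 0) (XT.lf (nat_lit 0) (nat_lit 4299375031) (nat_lit 380) (nat_lit 10779643896) (nat_lit 76) (nat_lit 6464396474) (nat_lit 128) (nat_lit 5) (nat_lit 133) (nat_lit 5) (nat_lit 129) (nat_lit 5) (nat_lit 428) (nat_lit 414) (nat_lit 358)) (XT.lf (nat_lit 0) (nat_lit 9556814622) (nat_lit 304) (nat_lit 1059415874) (nat_lit 380) (nat_lit 11909883474) (nat_lit 124) (nat_lit 5) (nat_lit 128) (nat_lit 5) (nat_lit 129) (nat_lit 5) (nat_lit 429) (nat_lit 414) (nat_lit 357))) (XT.nd (nat_lit 78) (nat_lit 380) (nat_lit 0) (XT.lf (nat_lit 0) (nat_lit 8331011941) (nat_lit 228) (nat_lit 9618258966) (nat_lit 304) (nat_lit 5612617389) (nat_lit 121) (nat_lit 5) (nat_lit 124) (nat_lit 5) (nat_lit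 125) (nat_lit 5) (nat_lit 430) (nat_lit 414) (nat_lit 356)) (XT.lf (nat_lit 0) (nat_lit 1573364950) (nat_lit 380) (nat_lit 17470313392) (nat_lit 76) (nat_lit 5614771378) (nat_lit 116) (nat_lit 5) (nat_lit 121) (nat_lit 5) (nat_lit 117) (nat_lit 5) (nat_lit 431) (nat_lit 414) (nat_lit 355))))) (XT.nd (nat_lit 312) (nat_lit 608) (nat_lit 0) (XT.nd (nat_lit 156) (nat_lit 456) (nat_lit 0) (XT.nd (nat_lit 78) (nat_lit 228) (nat_lit 0) (XT.lf (nat_lit 0) (nat_lit 6007681995) (nat_lit 228) (nat_lit 3630781447) (nat_lit 304) (nat_lit 16174629678) (nat_lit 113) (nat_lit 5) (nat_lit 116) (nat_lit 5) (nat_lit 117) (nat_lit 5) (nat_lit 432) (nat_lit 414) (nat_lit 354)) (XT.lf (nat_lit 0) (nat_lit 4852012613) (nat_lit 228) (nat_lit 14058915448) (nat_lit 304) (nat_lit 8121073301) (nat_lit 110) (nat_lit 5) (nat_lit 113) (nat_lit 5) (nat_lit 114) (nat_lit 5) (nat_lit 433) (nat_lit 414) (nat_lit 353))) (XT.nd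 (nat_lit 78) (nat_lit 228) (nat_lit 0) (XT.lf (nat_lit 0) (nat_lit 1050144446) (nat_lit 228) (nat_lit 24501430989) (nat_lit 76) (nat_lit 2771805863) (nat_lit 107) (nat_lit 5) (nat_lit 110) (nat_lit 5) (nat_lit 108) (nat_lit 5) (nat_lit 434) (nat_lit 414) (nat_lit 352)) (XT.lf (nat_lit 0) (nat_lit 2665771014) (nat_lit 228) (nat_lit 8655920257) (nat_lit 304) (nat_lit 18357167060) (nat_lit 104) (nat_lit 5) (nat_lit 107) (nat_lit 5) (nat_lit 108) (nat_lit 5) (nat_lit 435) (nat_lit 414) (nat_lit 351)))) (XT.nd (nat_lit 156) (nat_lit 152) (nat_lit 0) (XT.nd (nat_lit 78) (nat_lit 304) (nat_lit 0) (XT.lf (nat_lit 0) (nat_lit 1619012773) (nat_lit 152) (nat_lit 21381790893) (nat_lit 228) (nat_lit 8112678740) (nat_lit 102) (nat_lit 5) (nat_lit 104) (nat_lit 5) (nat_lit 105) (nat_lit 5) (nat_lit 436) (nat_lit 414) (nat_lit 350)) (XT.lf (nat_lit 0) (nat_lit 653026254) (nat_lit 228) (nat_lit 2816122464) (nat_lit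 304) (nat_lit 29160812470) (nat_lit 98) (nat_lit 5) (nat_lit 101) (nat_lit 5) (nat_lit 102) (nat_lit 5) (nat_lit 437) (nat_lit 414) (nat_lit 349))) (XT.nd (nat_lit 78) (nat_lit 152) (nat_lit 0) (XT.lf (nat_lit 0) (nat_lit 16467124869) (nat_lit 304) (nat_lit 425231289) (nat_lit 76) (nat_lit 17330061610) (nat_lit 98) (nat_lit 5) (nat_lit 102) (nat_lit 5) (nat_lit 99) (nat_lit 5) (nat_lit 438) (nat_lit 414) (nat_lit 348)) (XT.lf (nat_lit 0) (nat_lit 31130536764) (nat_lit 228) (nat_lit 1288853999) (nat_lit 76) (nat_lit 3491600962) (nat_lit 96) (nat_lit 5) (nat_lit 99) (nat_lit 5) (nat_lit 97) (nat_lit 5) (nat_lit 439) (nat_lit 414) (nat_lit 347)))))) (XT.nd (nat_lit 624) (nat_lit 1064) (nat_lit 0) (XT.nd (nat_lit 312) (nat_lit 608) (nat_lit 0) (XT.nd (nat_lit 156) (nat_lit 380) (nat_lit 0) (XT.nd (nat_lit 78) (nat_lit 152) (nat_lit 0) (XT.lf (nat_lit 0) (nat_lit 9779403440) (nat_lit 228) (nat_lit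 2274256600) (nat_lit 76) (nat_lit 25631658699) (nat_lit 93) (nat_lit 5) (nat_lit 96) (nat_lit 5) (nat_lit 94) (nat_lit 5) (nat_lit 440) (nat_lit 414) (nat_lit 346)) (XT.lf (nat_lit 0) (nat_lit 26080117807) (nat_lit 228) (nat_lit 3183945800) (nat_lit 76) (nat_lit 10296432944) (nat_lit 91) (nat_lit 5) (nat_lit 94) (nat_lit 5) (nat_lit 92) (nat_lit 5) (nat_lit 441) (nat_lit 414) (nat_lit 345))) (XT.nd (nat_lit 78) (nat_lit 152) (nat_lit 0) (XT.lf (nat_lit 0) (nat_lit 2858145882) (nat_lit 228) (nat_lit 4004965736) (nat_lit 76) (nat_lit 34679632143) (nat_lit 88) (nat_lit 5) (nat_lit 91) (nat_lit 5) (nat_lit 89) (nat_lit 5) (nat_lit 442) (nat_lit 414) (nat_lit 344)) (XT.lf (nat_lit 0) (nat_lit 20970144969) (nat_lit 228) (nat_lit 4985717678) (nat_lit 76) (nat_lit 17669725133) (nat_lit 86) (nat_lit 5) (nat_lit 89) (nat_lit 5) (nat_lit 87) (nat_lit 5) (nat_lit 443) (nat_lit 414) (nat_lit 343)))) (XT.nd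 (nat_lit 156) (nat_lit 304) (nat_lit 0) (XT.nd (nat_lit 78) (nat_lit 152) (nat_lit 0) (XT.lf (nat_lit 0) (nat_lit 40106048096) (nat_lit 152) (nat_lit 1221543458) (nat_lit 228) (nat_lit 4507643841) (nat_lit 84) (nat_lit 5) (nat_lit 86) (nat_lit 5) (nat_lit 87) (nat_lit 5) (nat_lit 444) (nat_lit 414) (nat_lit 342)) (XT.lf (nat_lit 0) (nat_lit 15748498198) (nat_lit 152) (nat_lit 6747186035) (nat_lit 76) (nat_lit 25657211746) (nat_lit 82) (nat_lit 5) (nat_lit 84) (nat_lit 5) (nat_lit 83) (nat_lit 5) (nat_lit 445) (nat_lit 414) (nat_lit 341))) (XT.nd (nat_lit 78) (nat_lit 152) (nat_lit 0) (XT.lf (nat_lit 0) (nat_lit 38325400668) (nat_lit 228) (nat_lit 7569456707) (nat_lit 76) (nat_lit 4714507864) (nat_lit 80) (nat_lit 5) (nat_lit 83) (nat_lit 5) (nat_lit 81) (nat_lit 4) (nat_lit 446) (nat_lit 414) (nat_lit 340)) (XT.lf (nat_lit 0) (nat_lit 10347072731) (nat_lit 152) (nat_lit 8548779581) (nat_lit 76)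 (nat_lit 34298960862) (nat_lit 78) (nat_lit 5) (nat_lit 80) (nat_lit 5) (nat_lit 79) (nat_lit 5) (nat_lit 447) (nat_lit 414) (nat_lit 339))))) (XT.nd (nat_lit 312) (nat_lit 532) (nat_lit 0) (XT.nd (nat_lit 156) (nat_lit 228) (nat_lit 0) (XT.nd (nat_lit 78) (nat_lit 152) (nat_lit 0) (XT.lf (nat_lit 0) (nat_lit 35388672065) (nat_lit 228) (nat_lit 9527493778) (nat_lit 76) (nat_lit 11009340111) (nat_lit 76) (nat_lit 5) (nat_lit 79) (nat_lit 5) (nat_lit 77) (nat_lit 4) (nat_lit 448) (nat_lit 414) (nat_lit 338)) (XT.lf (nat_lit 0) (nat_lit 4676521912) (nat_lit 152) (nat_lit 10508643248) (nat_lit 76) (nat_lit 43625136748) (nat_lit 74) (nat_lit 5) (nat_lit 76) (nat_lit 5) (nat_lit 75) (nat_lit 5) (nat_lit 449) (nat_lit 414) (nat_lit 337))) (XT.nd (nat_lit 78) (nat_lit 76) (nat_lit 0) (XT.lf (nat_lit 0) (nat_lit 32425056199) (nat_lit 228) (nat_lit 11726845940) (nat_lit 76) (nat_lit 17695265143) (nat_lit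 72) (nat_lit 5) (nat_lit 75) (nat_lit 5) (nat_lit 73) (nat_lit 4) (nat_lit 450) (nat_lit 414) (nat_lit 336)) (XT.lf (nat_lit 0) (nat_lit 52246261178) (nat_lit 76) (nat_lit 11392189267) (nat_lit 152) (nat_lit 1426282809) (nat_lit 71) (nat_lit 5) (nat_lit 72) (nat_lit 5) (nat_lit 73) (nat_lit 4) (nat_lit 451) (nat_lit 414) (nat_lit 335)))) (XT.nd (nat_lit 156) (nat_lit 228) (nat_lit 0) (XT.nd (nat_lit 78) (nat_lit 76) (nat_lit 0) (XT.lf (nat_lit 0) (nat_lit 29332202153) (nat_lit 228) (nat_lit 14369795373) (nat_lit 76) (nat_lit 24742964295) (nat_lit 68) (nat_lit 5) (nat_lit 71) (nat_lit 5) (nat_lit 69) (nat_lit 4) (nat_lit 452) (nat_lit 414) (nat_lit 334)) (XT.lf (nat_lit 0) (nat_lit 56251471037) (nat_lit 76) (nat_lit 7535845390) (nat_lit 152) (nat_lit 8242827324) (nat_lit 67) (nat_lit 5) (nat_lit 68) (nat_lit 5) (nat_lit 69) (nat_lit 4) (nat_lit 453) (nat_lit 414) (nat_lit 333))) (XT.nd (nat_lit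 78) (nat_lit 76) (nat_lit 0) (XT.lf (nat_lit 0) (nat_lit 25968762909) (nat_lit 152) (nat_lit 17738681275) (nat_lit 76) (nat_lit 32091339004) (nat_lit 65) (nat_lit 5) (nat_lit 67) (nat_lit 5) (nat_lit 66) (nat_lit 4) (nat_lit 454) (nat_lit 414) (nat_lit 332)) (XT.lf (nat_lit 0) (nat_lit 60147225241) (nat_lit 76) (nat_lit 3819330007) (nat_lit 152) (nat_lit 15828699096) (nat_lit 64) (nat_lit 5) (nat_lit 65) (nat_lit 5) (nat_lit 66) (nat_lit 4) (nat_lit 455) (nat_lit 414) (nat_lit 331))))))))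
noncomputable def xc68 : XT := (XT.nd (nat_lit 2418) (nat_lit 988) (nat_lit 0) (XT.nd (nat_lit 1170) (nat_lit 1520) (nat_lit 0) (XT.nd (nat_lit 546) (nat_lit 836) (nat_lit 0) (XT.nd (nat_lit 234) (nat_lit 456) (nat_lit 0) (XT.nd (nat_lit 78) (nat_lit 228) (nat_lit 0) (XT.lf (nat_lit 0) (nat_lit 22141403369) (nat_lit 152) (nat_lit 22222572687) (nat_lit 76) (nat_lit 39635288903) (nat_lit 62) (nat_lit 5) (nat_lit 64) (nat_lit 5) (nat_lit 63) (nat_lit 4) (nat_lit 456) (nat_lit 414) (nat_lit 330)) (XT.nd (nat_lit 78) (nat_lit 152) (nat_lit 0) (XT.lf (nat_lit 0) (nat_lit 63571873309) (nat_lit 76) (nat_lit 424290164) (nat_lit 152) (nat_lit 24460378232) (nat_lit 61) (nat_lit 5) (nat_lit 62) (nat_lit 5) (nat_lit 63) (nat_lit 4) (nat_lit 457) (nat_lit 414) (nat_lit 329)) (XT.lf (nat_lit 0) (nat_lit 17587833678) (nat_lit 152) (nat_lit 28352079385) (nat_lit 76) (nat_lit 47209615183) (nat_lit 59) (nat_lit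 5) (nat_lit 61) (nat_lit 5) (nat_lit 60) (nat_lit 4) (nat_lit 458) (nat_lit 414) (nat_lit 328)))) (XT.nd (nat_lit 156) (nat_lit 228) (nat_lit 0) (XT.nd (nat_lit 78) (nat_lit 152) (nat_lit 0) (XT.lf (nat_lit 0) (nat_lit 63660124101) (nat_lit 152) (nat_lit 32148003277) (nat_lit 0) (nat_lit 2313917239) (nat_lit 58) (nat_lit 5) (nat_lit 60) (nat_lit 4) (nat_lit 58) (nat_lit 4) (nat_lit 459) (nat_lit 414) (nat_lit 327)) (XT.lf (nat_lit 0) (nat_lit 11954698882) (nat_lit 152) (nat_lit 36844699178) (nat_lit 76) (nat_lit 54567888215) (nat_lit 56) (nat_lit 5) (nat_lit 58) (nat_lit 5) (nat_lit 57) (nat_lit 4) (nat_lit 460) (nat_lit 414) (nat_lit 326))) (XT.nd (nat_lit 78) (nat_lit 152) (nat_lit 0) (XT.lf (nat_lit 0) (nat_lit 62562061269) (nat_lit 152) (nat_lit 42230814194) (nat_lit 0) (nat_lit 4126784846) (nat_lit 55) (nat_lit 5) (nat_lit 57) (nat_lit 4) (nat_lit 55) (nat_lit 4) (nat_lit 461) (nat_lit 414)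 (nat_lit 325)) (XT.lf (nat_lit 0) (nat_lit 4768817039) (nat_lit 152) (nat_lit 48663794398) (nat_lit 76) (nat_lit 61354781021) (nat_lit 53) (nat_lit 5) (nat_lit 55) (nat_lit 5) (nat_lit 54) (nat_lit 4) (nat_lit 462) (nat_lit 414) (nat_lit 324))))) (XT.nd (nat_lit 312) (nat_lit 456) (nat_lit 0) (XT.nd (nat_lit 156) (nat_lit 228) (nat_lit 0) (XT.nd (nat_lit 78) (nat_lit 76) (nat_lit 0) (XT.lf (nat_lit 0) (nat_lit 60207290716) (nat_lit 152) (nat_lit 56240727936) (nat_lit 0) (nat_lit 4546222124) (nat_lit 52) (nat_lit 5) (nat_lit 54) (nat_lit 4) (nat_lit 52) (nat_lit 4) (nat_lit 463) (nat_lit 414) (nat_lit 323)) (XT.lf (nat_lit 0) (nat_lit 62391850728) (nat_lit 76) (nat_lit 60417099821) (nat_lit 76) (nat_lit 4752281060) (nat_lit 51) (nat_lit 4) (nat_lit 52) (nat_lit 5) (nat_lit 52) (nat_lit 4) (nat_lit 464) (nat_lit 414) (nat_lit 322))) (XT.nd (nat_lit 78) (nat_lit 76) (nat_lit 0) (XT.lf (nat_lit 0)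 (nat_lit 55934403995) (nat_lit 152) (nat_lit 75660957587) (nat_lit 0) (nat_lit 2916983861) (nat_lit 49) (nat_lit 5) (nat_lit 51) (nat_lit 4) (nat_lit 49) (nat_lit 4) (nat_lit 465) (nat_lit 414) (nat_lit 321)) (XT.lf (nat_lit 0) (nat_lit 53744864521) (nat_lit 76) (nat_lit 70570489719) (nat_lit 76) (nat_lit 17550007523) (nat_lit 48) (nat_lit 4) (nat_lit 49) (nat_lit 5) (nat_lit 49) (nat_lit 4) (nat_lit 466) (nat_lit 414) (nat_lit 320)))) (XT.nd (nat_lit 156) (nat_lit 228) (nat_lit 0) (XT.nd (nat_lit 78) (nat_lit 76) (nat_lit 0) (XT.lf (nat_lit 0) (nat_lit 47182147166) (nat_lit 76) (nat_lit 1698567275) (nat_lit 152) (nat_lit 100784734088) (nat_lit 46) (nat_lit 5) (nat_lit 47) (nat_lit 5) (nat_lit 48) (nat_lit 4) (nat_lit 467) (nat_lit 414) (nat_lit 319)) (XT.lf (nat_lit 0) (nat_lit 38194374746) (nat_lit 76) (nat_lit 85108542773) (nat_lit 76) (nat_lit 34607644998) (nat_lit 45) (nat_lit 4) (nat_lit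 46) (nat_lit 5) (nat_lit 46) (nat_lit 4) (nat_lit 468) (nat_lit 414) (nat_lit 318))) (XT.nd (nat_lit 78) (nat_lit 76) (nat_lit 0) (XT.lf (nat_lit 0) (nat_lit 27284965193) (nat_lit 76) (nat_lit 10660487480) (nat_lit 152) (nat_lit 128727970413) (nat_lit 43) (nat_lit 5) (nat_lit 44) (nat_lit 5) (nat_lit 45) (nat_lit 4) (nat_lit 469) (nat_lit 414) (nat_lit 317)) (XT.lf (nat_lit 0) (nat_lit 12982737684) (nat_lit 76) (nat_lit 105527768849) (nat_lit 76) (nat_lit 57427429497) (nat_lit 42) (nat_lit 4) (nat_lit 43) (nat_lit 5) (nat_lit 43) (nat_lit 4) (nat_lit 470) (nat_lit 414) (nat_lit 316)))))) (XT.nd (nat_lit 624) (nat_lit 684) (nat_lit 0) (XT.nd (nat_lit 312) (nat_lit 456) (nat_lit 0) (XT.nd (nat_lit 156) (nat_lit 228) (nat_lit 0) (XT.nd (nat_lit 78) (nat_lit 76) (nat_lit 0) (XT.lf (nat_lit 0) (nat_lit 21591213966) (nat_lit 152) (nat_lit 3840240959) (nat_lit 76) (nat_lit 160364839877) (nat_lit 41)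 (nat_lit 5) (nat_lit 43) (nat_lit 5) (nat_lit 42) (nat_lit 4) (nat_lit 471) (nat_lit 414) (nat_lit 315)) (XT.lf (nat_lit 0) (nat_lit 108647182796) (nat_lit 152) (nat_lit 24728808590) (nat_lit 0) (nat_lit 62833868690) (nat_lit 40) (nat_lit 5) (nat_lit 42) (nat_lit 4) (nat_lit 40) (nat_lit 4) (nat_lit 472) (nat_lit 414) (nat_lit 314))) (XT.nd (nat_lit 78) (nat_lit 152) (nat_lit 0) (XT.lf (nat_lit 0) (nat_lit 158130686576) (nat_lit 76) (nat_lit 47496355444) (nat_lit 76) (nat_lit 1681497933) (nat_lit 39) (nat_lit 4) (nat_lit 40) (nat_lit 5) (nat_lit 40) (nat_lit 4) (nat_lit 473) (nat_lit 414) (nat_lit 313)) (XT.lf (nat_lit 0) (nat_lit 91550046147) (nat_lit 152) (nat_lit 79588753335) (nat_lit 0) (nat_lit 47915487490) (nat_lit 37) (nat_lit 5) (nat_lit 39) (nat_lit 4) (nat_lit 37) (nat_lit 4) (nat_lit 474) (nat_lit 414) (nat_lit 312)))) (XT.nd (nat_lit 156) (nat_lit 228) (nat_lit 0) (XT.nd (nat_lit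 78) (nat_lit 152) (nat_lit 0) (XT.lf (nat_lit 0) (nat_lit 116121080995) (nat_lit 76) (nat_lit 79539541187) (nat_lit 76) (nat_lit 35903722319) (nat_lit 36) (nat_lit 4) (nat_lit 37) (nat_lit 5) (nat_lit 37) (nat_lit 4) (nat_lit 475) (nat_lit 414) (nat_lit 311)) (XT.lf (nat_lit 0) (nat_lit 64134915526) (nat_lit 152) (nat_lit 158158846596) (nat_lit 0) (nat_lit 22575881498) (nat_lit 34) (nat_lit 5) (nat_lit 36) (nat_lit 4) (nat_lit 34) (nat_lit 4) (nat_lit 476) (nat_lit 414) (nat_lit 310))) (XT.nd (nat_lit 78) (nat_lit 152) (nat_lit 0) (XT.lf (nat_lit 0) (nat_lit 49618083431) (nat_lit 76) (nat_lit 125471683147) (nat_lit 76) (nat_lit 83911620141) (nat_lit 33) (nat_lit 4) (nat_lit 34) (nat_lit 5) (nat_lit 34) (nat_lit 4) (nat_lit 477) (nat_lit 414) (nat_lit 309)) (XT.lf (nat_lit 0) (nat_lit 5331045627) (nat_lit 76) (nat_lit 17543130660) (nat_lit 152) (nat_lit 251229466868) (nat_lit 31) (nat_lit 5) (nat_lit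 32) (nat_lit 5) (nat_lit 33) (nat_lit 4) (nat_lit 478) (nat_lit 414) (nat_lit 308))))) (XT.nd (nat_lit 312) (nat_lit 380) (nat_lit 0) (XT.nd (nat_lit 156) (nat_lit 228) (nat_lit 0) (XT.nd (nat_lit 78) (nat_lit 76) (nat_lit 0) (XT.lf (nat_lit 0) (nat_lit 140550111060) (nat_lit 152) (nat_lit 48563481480) (nat_lit 0) (nat_lit 100967351111) (nat_lit 31) (nat_lit 5) (nat_lit 33) (nat_lit 4) (nat_lit 31) (nat_lit 4) (nat_lit 479) (nat_lit 414) (nat_lit 307)) (XT.lf (nat_lit 0) (nat_lit 195204455461) (nat_lit 76) (nat_lit 75774289700) (nat_lit 76) (nat_lit 36190751812) (nat_lit 30) (nat_lit 4) (nat_lit 31) (nat_lit 5) (nat_lit 31) (nat_lit 4) (nat_lit 480) (nat_lit 414) (nat_lit 306))) (XT.nd (nat_lit 78) (nat_lit 76) (nat_lit 0) (XT.lf (nat_lit 0) (nat_lit 87260808100) (nat_lit 152) (nat_lit 188545320799) (nat_lit 0) (nat_lit 49561514574) (nat_lit 28) (nat_lit 5) (nat_lit 30) (nat_lit 4) (nat_lit 28)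 (nat_lit 4) (nat_lit 481) (nat_lit 414) (nat_lit 305)) (XT.lf (nat_lit 0) (nat_lit 64729295142) (nat_lit 76) (nat_lit 158874230847) (nat_lit 76) (nat_lit 121174302123) (nat_lit 27) (nat_lit 4) (nat_lit 28) (nat_lit 5) (nat_lit 28) (nat_lit 4) (nat_lit 482) (nat_lit 414) (nat_lit 304)))) (XT.nd (nat_lit 156) (nat_lit 228) (nat_lit 0) (XT.nd (nat_lit 78) (nat_lit 76) (nat_lit 0) (XT.lf (nat_lit 0) (nat_lit 8282899160) (nat_lit 152) (nat_lit 20720573590) (nat_lit 76) (nat_lit 336566678097) (nat_lit 26) (nat_lit 5) (nat_lit 28) (nat_lit 5) (nat_lit 27) (nat_lit 4) (nat_lit 483) (nat_lit 414) (nat_lit 303)) (XT.lf (nat_lit 0) (nat_lit 149892462473) (nat_lit 152) (nat_lit 123745326914) (nat_lit 0) (nat_lit 113986689664) (nat_lit 25) (nat_lit 5) (nat_lit 27) (nat_lit 4) (nat_lit 25) (nat_lit 4) (nat_lit 484) (nat_lit 414) (nat_lit 302))) (XT.nd (nat_lit 78) (nat_lit 152) (nat_lit 0) (XT.lf (nat_lit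 0) (nat_lit 165350797625) (nat_lit 76) (nat_lit 140913467607) (nat_lit 76) (nat_lit 105007214569) (nat_lit 24) (nat_lit 4) (nat_lit 25) (nat_lit 5) (nat_lit 25) (nat_lit 4) (nat_lit 485) (nat_lit 414) (nat_lit 301)) (XT.lf (nat_lit 0) (nat_lit 40111125848) (nat_lit 152) (nat_lit 390604790987) (nat_lit 0) (nat_lit 5914270901) (nat_lit 22) (nat_lit 5) (nat_lit 24) (nat_lit 4) (nat_lit 22) (nat_lit 4) (nat_lit 486) (nat_lit 414) (nat_lit 300))))))) (XT.nd (nat_lit 1248) (nat_lit 76) (nat_lit 0) (XT.nd (nat_lit 624) (nat_lit 380) (nat_lit 0) (XT.nd (nat_lit 312) (nat_lit 304) (nat_lit 0) (XT.nd (nat_lit 156) (nat_lit 152) (nat_lit 0) (XT.nd (nat_lit 78) (nat_lit 76) (nat_lit 0) (XT.lf (nat_lit 0) (nat_lit 199935441091) (nat_lit 152) (nat_lit 97919113257) (nat_lit 0) (nat_lit 165738194031) (nat_lit 22) (nat_lit 5) (nat_lit 24) (nat_lit 4) (nat_lit 22) (nat_lit 4) (nat_lit 487) (nat_lit 414) (nat_lit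 299)) (XT.lf (nat_lit 0) (nat_lit 225388094997) (nat_lit 76) (nat_lit 150673028946) (nat_lit 76) (nat_lit 116475418818) (nat_lit 21) (nat_lit 4) (nat_lit 22) (nat_lit 5) (nat_lit 22) (nat_lit 4) (nat_lit 488) (nat_lit 414) (nat_lit 298))) (XT.nd (nat_lit 78) (nat_lit 0) (nat_lit 0) (XT.lf (nat_lit 0) (nat_lit 43899625674) (nat_lit 152) (nat_lit 468393986485) (nat_lit 0) (nat_lit 11330153005) (nat_lit 19) (nat_lit 5) (nat_lit 21) (nat_lit 4) (nat_lit 19) (nat_lit 4) (nat_lit 489) (nat_lit 414) (nat_lit 297)) (XT.lf (nat_lit 0) (nat_lit 220345639348) (nat_lit 152) (nat_lit 148614899286) (nat_lit 0) (nat_lit 187775870230) (nat_lit 19) (nat_lit 5) (nat_lit 21) (nat_lit 4) (nat_lit 19) (nat_lit 4) (nat_lit 490) (nat_lit 414) (nat_lit 296)))) (XT.nd (nat_lit 156) (nat_lit 228) (nat_lit 0) (XT.nd (nat_lit 78) (nat_lit 0) (nat_lit 0) (XT.lf (nat_lit 0) (nat_lit 203245375887) (nat_lit 76) (nat_lit 210832112047)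 (nat_lit 76) (nat_lit 178262068439) (nat_lit 18) (nat_lit 4) (nat_lit 19) (nat_lit 5) (nat_lit 19) (nat_lit 4) (nat_lit 491) (nat_lit 414) (nat_lit 295)) (XT.lf (nat_lit 0) (nat_lit 588555474932) (nat_lit 76) (nat_lit 37338243412) (nat_lit 76) (nat_lit 4767945646) (nat_lit 18) (nat_lit 4) (nat_lit 19) (nat_lit 5) (nat_lit 19) (nat_lit 4) (nat_lit 492) (nat_lit 414) (nat_lit 294))) (XT.nd (nat_lit 78) (nat_lit 76) (nat_lit 0) (XT.lf (nat_lit 0) (nat_lit 184553875780) (nat_lit 152) (nat_lit 333429160059) (nat_lit 0) (nat_lit 153534320449) (nat_lit 16) (nat_lit 5) (nat_lit 18) (nat_lit 4) (nat_lit 16) (nat_lit 4) (nat_lit 493) (nat_lit 414) (nat_lit 293)) (XT.lf (nat_lit 0) (nat_lit 34989283450) (nat_lit 76) (nat_lit 355786015082) (nat_lit 76) (nat_lit 324766252228) (nat_lit 15) (nat_lit 4) (nat_lit 16) (nat_lit 5) (nat_lit 16) (nat_lit 4) (nat_lit 494) (nat_lit 414) (nat_lit 292))))) (XT.nd (nat_lit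 312) (nat_lit 152) (nat_lit 0) (XT.nd (nat_lit 156) (nat_lit 76) (nat_lit 0) (XT.nd (nat_lit 78) (nat_lit 152) (nat_lit 0) (XT.lf (nat_lit 0) (nat_lit 444782607552) (nat_lit 76) (nat_lit 174517375426) (nat_lit 76) (nat_lit 143497420421) (nat_lit 15) (nat_lit 4) (nat_lit 16) (nat_lit 5) (nat_lit 16) (nat_lit 4) (nat_lit 495) (nat_lit 414) (nat_lit 291)) (XT.lf (nat_lit 0) (nat_lit 52134470514) (nat_lit 152) (nat_lit 738990230003) (nat_lit 0) (nat_lit 22591486778) (nat_lit 13) (nat_lit 5) (nat_lit 15) (nat_lit 4) (nat_lit 13) (nat_lit 4) (nat_lit 496) (nat_lit 414) (nat_lit 290))) (XT.nd (nat_lit 78) (nat_lit 76) (nat_lit 0) (XT.lf (nat_lit 0) (nat_lit 267027428351) (nat_lit 152) (nat_lit 363647238684) (nat_lit 0) (nat_lit 237484287721) (nat_lit 13) (nat_lit 5) (nat_lit 15) (nat_lit 4) (nat_lit 13) (nat_lit 4) (nat_lit 497) (nat_lit 414) (nat_lit 289)) (XT.lf (nat_lit 0) (nat_lit 43098159441) (nat_lit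 76) (nat_lit 456684367438) (nat_lit 76) (nat_lit 427141081536) (nat_lit 12) (nat_lit 4) (nat_lit 13) (nat_lit 5) (nat_lit 13) (nat_lit 4) (nat_lit 498) (nat_lit 414) (nat_lit 288)))) (XT.nd (nat_lit 156) (nat_lit 152) (nat_lit 0) (XT.nd (nat_lit 78) (nat_lit 0) (nat_lit 0) (XT.lf (nat_lit 0) (nat_lit 495364665329) (nat_lit 76) (nat_lit 262125784317) (nat_lit 76) (nat_lit 232582363904) (nat_lit 12) (nat_lit 4) (nat_lit 13) (nat_lit 5) (nat_lit 13) (nat_lit 4) (nat_lit 499) (nat_lit 414) (nat_lit 287)) (XT.lf (nat_lit 0) (nat_lit 983808556803) (nat_lit 76) (nat_lit 52004519867) (nat_lit 76) (nat_lit 22460974906) (nat_lit 12) (nat_lit 4) (nat_lit 13) (nat_lit 5) (nat_lit 13) (nat_lit 4) (nat_lit 500) (nat_lit 414) (nat_lit 286))) (XT.nd (nat_lit 78) (nat_lit 0) (nat_lit 0) (XT.lf (nat_lit 0) (nat_lit 206874606121) (nat_lit 152) (nat_lit 745711938044) (nat_lit 0) (nat_lit 178737786804) (nat_lit 10)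 (nat_lit 5) (nat_lit 12) (nat_lit 4) (nat_lit 10) (nat_lit 4) (nat_lit 501) (nat_lit 414) (nat_lit 285)) (XT.lf (nat_lit 0) (nat_lit 455974162615) (nat_lit 152) (nat_lit 326278615257) (nat_lit 0) (nat_lit 427837241603) (nat_lit 10) (nat_lit 5) (nat_lit 12) (nat_lit 4) (nat_lit 10) (nat_lit 4) (nat_lit 502) (nat_lit 414) (nat_lit 284)))))) (XT.nd (nat_lit 56004) (nat_lit 0) (nat_lit 9728) (XT.nd (nat_lit 55692) (nat_lit 0) (nat_lit 11780) (XT.nd (nat_lit 156) (nat_lit 0) (nat_lit 0) (XT.nd (nat_lit 78) (nat_lit 0) (nat_lit 0) (XT.lf (nat_lit 0) (nat_lit 130895512820) (nat_lit 76) (nat_lit 596148182417) (nat_lit 76) (nat_lit 568011167244) (nat_lit 9) (nat_lit 4) (nat_lit 10) (nat_lit 5) (nat_lit 10) (nat_lit 4) (nat_lit 503) (nat_lit 414) (nat_lit 283)) (XT.lf (nat_lit 0) (nat_lit 636291685751) (nat_lit 76) (nat_lit 389189104767) (nat_lit 76) (nat_lit 361052002408) (nat_lit 9) (nat_lit 4) (nat_lit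 10) (nat_lit 5) (nat_lit 10) (nat_lit 4) (nat_lit 504) (nat_lit 414) (nat_lit 282))) (XT.nd (nat_lit 55458) (nat_lit 0) (nat_lit 11704) (XT.lf (nat_lit 0) (nat_lit 1182116599283) (nat_lit 76) (nat_lit 165674806986) (nat_lit 76) (nat_lit 137537623898) (nat_lit 9) (nat_lit 4) (nat_lit 10) (nat_lit 5) (nat_lit 10) (nat_lit 4) (nat_lit 505) (nat_lit 414) (nat_lit 281)) (XT.lf (nat_lit 0) (nat_lit 178714022) (nat_lit 836) (nat_lit 3196379522) (nat_lit 836) (nat_lit 3196379522) (nat_lit 163) (nat_lit 3) (nat_lit 174) (nat_lit 3) (nat_lit 174) (nat_lit 5) (nat_lit 415) (nat_lit 415) (nat_lit 370)))) (XT.nd (nat_lit 156) (nat_lit 0) (nat_lit 76) (XT.nd (nat_lit 78) (nat_lit 0) (nat_lit 0) (XT.lf (nat_lit 0) (nat_lit 1096761149) (nat_lit 760) (nat_lit 9475881914) (nat_lit 836) (nat_lit 3059722040) (nat_lit 164) (nat_lit 5) (nat_lit 174) (nat_lit 5) (nat_lit 175) (nat_lit 5) (nat_lit 416) (nat_lit 415)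 (nat_lit 369)) (XT.lf (nat_lit 76) (nat_lit 1518920093) (nat_lit 0) (nat_lit 565938875) (nat_lit 836) (nat_lit 12066602427) (nat_lit 165) (nat_lit 5) (nat_lit 164) (nat_lit 5) (nat_lit 175) (nat_lit 5) (nat_lit 417) (nat_lit 415) (nat_lit 368))) (XT.nd (nat_lit 78) (nat_lit 0) (nat_lit 76) (XT.lf (nat_lit 0) (nat_lit 3422893221) (nat_lit 760) (nat_lit 1172987392) (nat_lit 836) (nat_lit 10102664709) (nat_lit 165) (nat_lit 5) (nat_lit 175) (nat_lit 5) (nat_lit 176) (nat_lit 5) (nat_lit 418) (nat_lit 415) (nat_lit 367)) (XT.lf (nat_lit 0) (nat_lit 5106749095) (nat_lit 760) (nat_lit 3857059421) (nat_lit 836) (nat_lit 6313652540) (nat_lit 166) (nat_lit 5) (nat_lit 176) (nat_lit 5) (nat_lit 177) (nat_lit 5) (nat_lit 419) (nat_lit 415) (nat_lit 366))))) (XT.nd (nat_lit 312) (nat_lit 1140) (nat_lit 0) (XT.nd (nat_lit 156) (nat_lit 1140) (nat_lit 0) (XT.nd (nat_lit 78) (nat_lit 0) (nat_lit 0) (XT.lf (nat_lit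 0) (nat_lit 7155279733) (nat_lit 760) (nat_lit 6581467157) (nat_lit 836) (nat_lit 2154448584) (nat_lit 167) (nat_lit 5) (nat_lit 177) (nat_lit 5) (nat_lit 178) (nat_lit 5) (nat_lit 420) (nat_lit 415) (nat_lit 365)) (XT.lf (nat_lit 76) (nat_lit 7156270595) (nat_lit 0) (nat_lit 2496871834) (nat_lit 836) (nat_lit 6886617197) (nat_lit 168) (nat_lit 5) (nat_lit 167) (nat_lit 5) (nat_lit 178) (nat_lit 5) (nat_lit 421) (nat_lit 415) (nat_lit 364))) (XT.nd (nat_lit 78) (nat_lit 456) (nat_lit 0) (XT.lf (nat_lit 0) (nat_lit 4961881281) (nat_lit 760) (nat_lit 7690710067) (nat_lit 836) (nat_lit 4572532908) (nat_lit 158) (nat_lit 5) (nat_lit 168) (nat_lit 5) (nat_lit 169) (nat_lit 5) (nat_lit 422) (nat_lit 415) (nat_lit 363)) (XT.lf (nat_lit 0) (nat_lit 2768927202) (nat_lit 456) (nat_lit 13403650889) (nat_lit 532) (nat_lit 1778713840) (nat_lit 152) (nat_lit 5) (nat_lit 158) (nat_lit 5) (nat_lit 159) (nat_lit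 5) (nat_lit 423) (nat_lit 415) (nat_lit 362)))) (XT.nd (nat_lit 156) (nat_lit 684) (nat_lit 0) (XT.nd (nat_lit 78) (nat_lit 0) (nat_lit 0) (XT.lf (nat_lit 0) (nat_lit 543496649) (nat_lit 380) (nat_lit 972412162) (nat_lit 456) (nat_lit 17202832849) (nat_lit 146) (nat_lit 5) (nat_lit 151) (nat_lit 5) (nat_lit 152) (nat_lit 5) (nat_lit 424) (nat_lit 415) (nat_lit 361)) (XT.lf (nat_lit 0) (nat_lit 5439773066) (nat_lit 456) (nat_lit 1731778109) (nat_lit 76) (nat_lit 12353181189) (nat_lit 146) (nat_lit 5) (nat_lit 152) (nat_lit 5) (nat_lit 147) (nat_lit 5) (nat_lit 425) (nat_lit 415) (nat_lit 360))) (XT.nd (nat_lit 78) (nat_lit 304) (nat_lit 0) (XT.lf (nat_lit 0) (nat_lit 10021021141) (nat_lit 456) (nat_lit 3982407313) (nat_lit 76) (nat_lit 6374602382) (nat_lit 141) (nat_lit 5) (nat_lit 147) (nat_lit 5) (nat_lit 142) (nat_lit 5) (nat_lit 426) (nat_lit 415) (nat_lit 359)) (XT.lf (nat_lit 0) (nat_lit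 15062233856) (nat_lit 304) (nat_lit 261788147) (nat_lit 380) (nat_lit 5957810614) (nat_lit 137) (nat_lit 5) (nat_lit 141) (nat_lit 5) (nat_lit 142) (nat_lit 5) (nat_lit 427) (nat_lit 415) (nat_lit 358))))))))
noncomputable def xc69 : XT := (XT.nd (nat_lit 2496) (nat_lit 3040) (nat_lit 0) (XT.nd (nat_lit 1248) (nat_lit 2204) (nat_lit 0) (XT.nd (nat_lit 624) (nat_lit 1444) (nat_lit 0) (XT.nd (nat_lit 312) (nat_lit 1064) (nat_lit 0) (XT.nd (nat_lit 156) (nat_lit 532) (nat_lit 0) (XT.nd (nat_lit 78) (nat_lit 380) (nat_lit 0) (XT.lf (nat_lit 0) (nat_lit 13692381286) (nat_lit 304) (nat_lit 7841030217) (nat_lit 380) (nat_lit 700421531) (nat_lit 133) (nat_lit 5) (nat_lit 137) (nat_lit 5) (nat_lit 138) (nat_lit 5) (nat_lit 428) (nat_lit 415) (nat_lit 357)) (XT.lf (nat_lit 0) (nat_lit 5213156703) (nat_lit 380) (nat_lit 10916280851) (nat_lit 76) (nat_lit 7108926397) (nat_lit 128) (nat_lit 5) (nat_lit 133)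 (nat_lit 5) (nat_lit 129) (nat_lit 5) (nat_lit 429) (nat_lit 415) (nat_lit 356))) (XT.nd (nat_lit 78) (nat_lit 228) (nat_lit 0) (XT.lf (nat_lit 0) (nat_lit 11015554809) (nat_lit 304) (nat_lit 988434373) (nat_lit 380) (nat_lit 12297260247) (nat_lit 124) (nat_lit 5) (nat_lit 128) (nat_lit 5) (nat_lit 129) (nat_lit 5) (nat_lit 430) (nat_lit 415) (nat_lit 355)) (XT.lf (nat_lit 0) (nat_lit 9684975542) (nat_lit 228) (nat_lit 10211796218) (nat_lit 304) (nat_lit 5524461264) (nat_lit 121) (nat_lit 5) (nat_lit 124) (nat_lit 5) (nat_lit 125) (nat_lit 5) (nat_lit 431) (nat_lit 415) (nat_lit 354)))) (XT.nd (nat_lit 156) (nat_lit 456) (nat_lit 0) (XT.nd (nat_lit 78) (nat_lit 228) (nat_lit 0) (XT.lf (nat_lit 0) (nat_lit 2194057764) (nat_lit 380) (nat_lit 18172080624) (nat_lit 76) (nat_lit 6240221105) (nat_lit 116) (nat_lit 5) (nat_lit 121) (nat_lit 5) (nat_lit 117) (nat_lit 5) (nat_lit 432) (nat_lit 415) (nat_lit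 353)) (XT.lf (nat_lit 0) (nat_lit 7153913261) (nat_lit 228) (nat_lit 3724189415) (nat_lit 304) (nat_lit 16976586616) (nat_lit 113) (nat_lit 5) (nat_lit 116) (nat_lit 5) (nat_lit 117) (nat_lit 5) (nat_lit 433) (nat_lit 415) (nat_lit 352))) (XT.nd (nat_lit 78) (nat_lit 228) (nat_lit 0) (XT.lf (nat_lit 0) (nat_lit 5896352682) (nat_lit 228) (nat_lit 14974396949) (nat_lit 304) (nat_lit 8301443021) (nat_lit 110) (nat_lit 5) (nat_lit 113) (nat_lit 5) (nat_lit 114) (nat_lit 5) (nat_lit 434) (nat_lit 415) (nat_lit 351)) (XT.lf (nat_lit 0) (nat_lit 1568124081) (nat_lit 228) (nat_lit 25801243316) (nat_lit 76) (nat_lit 3198167081) (nat_lit 107) (nat_lit 5) (nat_lit 110) (nat_lit 5) (nat_lit 108) (nat_lit 5) (nat_lit 435) (nat_lit 415) (nat_lit 350))))) (XT.nd (nat_lit 312) (nat_lit 608) (nat_lit 0) (XT.nd (nat_lit 156) (nat_lit 456) (nat_lit 0) (XT.nd (nat_lit 78) (nat_lit 152) (nat_lit 0) (XT.lf (nat_lit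 0) (nat_lit 3510638920) (nat_lit 228) (nat_lit 9128471092) (nat_lit 304) (nat_lit 19393455296) (nat_lit 104) (nat_lit 5) (nat_lit 107) (nat_lit 5) (nat_lit 108) (nat_lit 5) (nat_lit 436) (nat_lit 415) (nat_lit 349)) (XT.lf (nat_lit 0) (nat_lit 2369113158) (nat_lit 152) (nat_lit 22865811423) (nat_lit 228) (nat_lit 8347917365) (nat_lit 102) (nat_lit 5) (nat_lit 104) (nat_lit 5) (nat_lit 105) (nat_lit 5) (nat_lit 437) (nat_lit 415) (nat_lit 348))) (XT.nd (nat_lit 78) (nat_lit 152) (nat_lit 0) (XT.lf (nat_lit 0) (nat_lit 1311560734) (nat_lit 228) (nat_lit 2815449016) (nat_lit 304) (nat_lit 31094317574) (nat_lit 98) (nat_lit 5) (nat_lit 101) (nat_lit 5) (nat_lit 102) (nat_lit 5) (nat_lit 438) (nat_lit 415) (nat_lit 347)) (XT.lf (nat_lit 0) (nat_lit 120338092) (nat_lit 152) (nat_lit 18021458779) (nat_lit 228) (nat_lit 18800535975) (nat_lit 96) (nat_lit 5) (nat_lit 98) (nat_lit 5) (nat_lit 99) (nat_lit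 5) (nat_lit 439) (nat_lit 415) (nat_lit 346)))) (XT.nd (nat_lit 156) (nat_lit 380) (nat_lit 0) (XT.nd (nat_lit 78) (nat_lit 228) (nat_lit 0) (XT.lf (nat_lit 0) (nat_lit 33961999337) (nat_lit 228) (nat_lit 827675718) (nat_lit 76) (nat_lit 3977132763) (nat_lit 96) (nat_lit 5) (nat_lit 99) (nat_lit 5) (nat_lit 97) (nat_lit 5) (nat_lit 440) (nat_lit 415) (nat_lit 345)) (XT.lf (nat_lit 0) (nat_lit 10891267372) (nat_lit 228) (nat_lit 1905527778) (nat_lit 76) (nat_lit 27886862692) (nat_lit 93) (nat_lit 5) (nat_lit 96) (nat_lit 5) (nat_lit 94) (nat_lit 5) (nat_lit 441) (nat_lit 415) (nat_lit 344))) (XT.nd (nat_lit 78) (nat_lit 228) (nat_lit 0) (XT.lf (nat_lit 0) (nat_lit 28483186411) (nat_lit 228) (nat_lit 2899579098) (nat_lit 76) (nat_lit 11326727795) (nat_lit 91) (nat_lit 5) (nat_lit 94) (nat_lit 5) (nat_lit 92) (nat_lit 5) (nat_lit 442) (nat_lit 415) (nat_lit 343)) (XT.lf (nat_lit 0) (nat_lit 3392998869)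 (nat_lit 228) (nat_lit 3799575262) (nat_lit 76) (nat_lit 37658270235) (nat_lit 88) (nat_lit 5) (nat_lit 91) (nat_lit 5) (nat_lit 89) (nat_lit 5) (nat_lit 443) (nat_lit 415) (nat_lit 342)))))) (XT.nd (nat_lit 624) (nat_lit 988) (nat_lit 0) (XT.nd (nat_lit 312) (nat_lit 608) (nat_lit 0) (XT.nd (nat_lit 156) (nat_lit 304) (nat_lit 0) (XT.nd (nat_lit 78) (nat_lit 152) (nat_lit 0) (XT.lf (nat_lit 0) (nat_lit 22942431703) (nat_lit 228) (nat_lit 4870363811) (nat_lit 76) (nat_lit 19288097357) (nat_lit 86) (nat_lit 5) (nat_lit 89) (nat_lit 5) (nat_lit 87) (nat_lit 5) (nat_lit 444) (nat_lit 415) (nat_lit 341)) (XT.lf (nat_lit 0) (nat_lit 43806396229) (nat_lit 152) (nat_lit 1107929378) (nat_lit 228) (nat_lit 4573694714) (nat_lit 84) (nat_lit 5) (nat_lit 86) (nat_lit 5) (nat_lit 87) (nat_lit 5) (nat_lit 445) (nat_lit 415) (nat_lit 340))) (XT.nd (nat_lit 78) (nat_lit 152) (nat_lit 0) (XT.lf (nat_lit 0) (nat_lit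 17283124201) (nat_lit 152) (nat_lit 6797113597) (nat_lit 76) (nat_lit 27911145876) (nat_lit 82) (nat_lit 5) (nat_lit 84) (nat_lit 5) (nat_lit 83) (nat_lit 5) (nat_lit 446) (nat_lit 415) (nat_lit 339)) (XT.lf (nat_lit 0) (nat_lit 41656372317) (nat_lit 228) (nat_lit 7696591899) (nat_lit 76) (nat_lit 5291897083) (nat_lit 80) (nat_lit 5) (nat_lit 83) (nat_lit 5) (nat_lit 81) (nat_lit 4) (nat_lit 447) (nat_lit 415) (nat_lit 338)))) (XT.nd (nat_lit 156) (nat_lit 304) (nat_lit 0) (XT.nd (nat_lit 78) (nat_lit 152) (nat_lit 0) (XT.lf (nat_lit 0) (nat_lit 11431442090) (nat_lit 152) (nat_lit 8766562288) (nat_lit 76) (nat_lit 37239558222) (nat_lit 78) (nat_lit 5) (nat_lit 80) (nat_lit 5) (nat_lit 79) (nat_lit 5) (nat_lit 448) (nat_lit 415) (nat_lit 337)) (XT.lf (nat_lit 0) (nat_lit 38467465811) (nat_lit 228) (nat_lit 9834740660) (nat_lit 76) (nat_lit 12084949913) (nat_lit 76) (nat_lit 5) (nat_lit 79) (nat_lit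 5) (nat_lit 77) (nat_lit 4) (nat_lit 449) (nat_lit 415) (nat_lit 336))) (XT.nd (nat_lit 78) (nat_lit 152) (nat_lit 0) (XT.lf (nat_lit 0) (nat_lit 5290665667) (nat_lit 152) (nat_lit 10906213112) (nat_lit 76) (nat_lit 47306241732) (nat_lit 74) (nat_lit 5) (nat_lit 76) (nat_lit 5) (nat_lit 75) (nat_lit 5) (nat_lit 450) (nat_lit 415) (nat_lit 335)) (XT.lf (nat_lit 0) (nat_lit 35250965550) (nat_lit 228) (nat_lit 12232726964) (nat_lit 76) (nat_lit 19299648787) (nat_lit 72) (nat_lit 5) (nat_lit 75) (nat_lit 5) (nat_lit 73) (nat_lit 4) (nat_lit 451) (nat_lit 415) (nat_lit 334))))) (XT.nd (nat_lit 312) (nat_lit 456) (nat_lit 0) (XT.nd (nat_lit 156) (nat_lit 228) (nat_lit 0) (XT.nd (nat_lit 78) (nat_lit 228) (nat_lit 0) (XT.lf (nat_lit 0) (nat_lit 56839442942) (nat_lit 76) (nat_lit 12111265852) (nat_lit 152) (nat_lit 1308140190) (nat_lit 71) (nat_lit 5) (nat_lit 72) (nat_lit 5) (nat_lit 73) (nat_lit 4)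 (nat_lit 452) (nat_lit 415) (nat_lit 333)) (XT.lf (nat_lit 0) (nat_lit 31896161659) (nat_lit 228) (nat_lit 15108966161) (nat_lit 76) (nat_lit 26904558416) (nat_lit 68) (nat_lit 5) (nat_lit 71) (nat_lit 5) (nat_lit 69) (nat_lit 4) (nat_lit 453) (nat_lit 415) (nat_lit 332))) (XT.nd (nat_lit 78) (nat_lit 152) (nat_lit 0) (XT.lf (nat_lit 0) (nat_lit 61144165520) (nat_lit 76) (nat_lit 7953546309) (nat_lit 152) (nat_lit 8684469802) (nat_lit 67) (nat_lit 5) (nat_lit 68) (nat_lit 5) (nat_lit 69) (nat_lit 4) (nat_lit 454) (nat_lit 415) (nat_lit 331)) (XT.lf (nat_lit 0) (nat_lit 28250254669) (nat_lit 152) (nat_lit 18768354822) (nat_lit 76) (nat_lit 34833874067) (nat_lit 65) (nat_lit 5) (nat_lit 67) (nat_lit 5) (nat_lit 66) (nat_lit 4) (nat_lit 455) (nat_lit 415) (nat_lit 330)))) (XT.nd (nat_lit 156) (nat_lit 228) (nat_lit 0) (XT.nd (nat_lit 78) (nat_lit 152) (nat_lit 0) (XT.lf (nat_lit 0) (nat_lit 65331500455)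 (nat_lit 76) (nat_lit 3947075241) (nat_lit 152) (nat_lit 16890561651) (nat_lit 64) (nat_lit 5) (nat_lit 65) (nat_lit 5) (nat_lit 66) (nat_lit 4) (nat_lit 456) (nat_lit 415) (nat_lit 329)) (XT.lf (nat_lit 0) (nat_lit 24104319660) (nat_lit 152) (nat_lit 23631073207) (nat_lit 76) (nat_lit 42974230845) (nat_lit 62) (nat_lit 5) (nat_lit 64) (nat_lit 5) (nat_lit 63) (nat_lit 4) (nat_lit 457) (nat_lit 415) (nat_lit 328))) (XT.nd (nat_lit 78) (nat_lit 152) (nat_lit 0) (XT.lf (nat_lit 0) (nat_lit 69010878911) (nat_lit 76) (nat_lit 287904083) (nat_lit 152) (nat_lit 26225133649) (nat_lit 61) (nat_lit 5) (nat_lit 62) (nat_lit 5) (nat_lit 63) (nat_lit 4) (nat_lit 458) (nat_lit 415) (nat_lit 327)) (XT.lf (nat_lit 0) (nat_lit 19174978536) (nat_lit 152) (nat_lit 30270177637) (nat_lit 76) (nat_lit 51147326593) (nat_lit 59) (nat_lit 5) (nat_lit 61) (nat_lit 5) (nat_lit 60) (nat_lit 4) (nat_lit 459) (nat_lit 415)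 (nat_lit 326))))))) (XT.nd (nat_lit 1248) (nat_lit 1368) (nat_lit 0) (XT.nd (nat_lit 624) (nat_lit 836) (nat_lit 0) (XT.nd (nat_lit 312) (nat_lit 380) (nat_lit 0) (XT.nd (nat_lit 156) (nat_lit 228) (nat_lit 0) (XT.nd (nat_lit 78) (nat_lit 152) (nat_lit 0) (XT.lf (nat_lit 0) (nat_lit 68927480677) (nat_lit 152) (nat_lit 34378929624) (nat_lit 0) (nat_lit 2656668857) (nat_lit 58) (nat_lit 5) (nat_lit 60) (nat_lit 4) (nat_lit 58) (nat_lit 4) (nat_lit 460) (nat_lit 415) (nat_lit 325)) (XT.lf (nat_lit 0) (nat_lit 13080517813) (nat_lit 152) (nat_lit 39460572854) (nat_lit 76) (nat_lit 59087104863) (nat_lit 56) (nat_lit 5) (nat_lit 58) (nat_lit 5) (nat_lit 57) (nat_lit 4) (nat_lit 461) (nat_lit 415) (nat_lit 324))) (XT.nd (nat_lit 78) (nat_lit 152) (nat_lit 0) (XT.lf (nat_lit 0) (nat_lit 67731298471) (nat_lit 152) (nat_lit 45286325668) (nat_lit 0) (nat_lit 4607393996) (nat_lit 55) (nat_lit 5) (nat_lit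 57) (nat_lit 4) (nat_lit 55) (nat_lit 4) (nat_lit 462) (nat_lit 415) (nat_lit 323)) (XT.lf (nat_lit 0) (nat_lit 5309823284) (nat_lit 152) (nat_lit 52242704420) (nat_lit 76) (nat_lit 66409879886) (nat_lit 53) (nat_lit 5) (nat_lit 55) (nat_lit 5) (nat_lit 54) (nat_lit 4) (nat_lit 463) (nat_lit 415) (nat_lit 322)))) (XT.nd (nat_lit 156) (nat_lit 228) (nat_lit 0) (XT.nd (nat_lit 78) (nat_lit 76) (nat_lit 0) (XT.lf (nat_lit 0) (nat_lit 65178565436) (nat_lit 152) (nat_lit 60434140272) (nat_lit 0) (nat_lit 5053338626) (nat_lit 52) (nat_lit 5) (nat_lit 54) (nat_lit 4) (nat_lit 52) (nat_lit 4) (nat_lit 464) (nat_lit 415) (nat_lit 321)) (XT.lf (nat_lit 0) (nat_lit 67675752996) (nat_lit 76) (nat_lit 65105714024) (nat_lit 76) (nat_lit 4977272048) (nat_lit 51) (nat_lit 4) (nat_lit 52) (nat_lit 5) (nat_lit 52) (nat_lit 4) (nat_lit 465) (nat_lit 415) (nat_lit 320))) (XT.nd (nat_lit 78) (nat_lit 76) (nat_lit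 0) (XT.lf (nat_lit 0) (nat_lit 60554898487) (nat_lit 152) (nat_lit 81424266149) (nat_lit 0) (nat_lit 3286880410) (nat_lit 49) (nat_lit 5) (nat_lit 51) (nat_lit 4) (nat_lit 49) (nat_lit 4) (nat_lit 466) (nat_lit 415) (nat_lit 319)) (XT.lf (nat_lit 0) (nat_lit 58321437453) (nat_lit 76) (nat_lit 76078416076) (nat_lit 76) (nat_lit 18807772774) (nat_lit 48) (nat_lit 4) (nat_lit 49) (nat_lit 5) (nat_lit 49) (nat_lit 4) (nat_lit 467) (nat_lit 415) (nat_lit 318))))) (XT.nd (nat_lit 312) (nat_lit 380) (nat_lit 0) (XT.nd (nat_lit 156) (nat_lit 228) (nat_lit 0) (XT.nd (nat_lit 78) (nat_lit 76) (nat_lit 0) (XT.lf (nat_lit 0) (nat_lit 51226143149) (nat_lit 76) (nat_lit 1700304272) (nat_lit 152) (nat_lit 108705472444) (nat_lit 46) (nat_lit 5) (nat_lit 47) (nat_lit 5) (nat_lit 48) (nat_lit 4) (nat_lit 468) (nat_lit 415) (nat_lit 317)) (XT.lf (nat_lit 0) (nat_lit 41512107243) (nat_lit 76) (nat_lit 91786331765)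 (nat_lit 76) (nat_lit 37238403409) (nat_lit 45) (nat_lit 4) (nat_lit 46) (nat_lit 5) (nat_lit 46) (nat_lit 4) (nat_lit 469) (nat_lit 415) (nat_lit 316))) (XT.nd (nat_lit 78) (nat_lit 76) (nat_lit 0) (XT.lf (nat_lit 0) (nat_lit 29722771845) (nat_lit 76) (nat_lit 11385854960) (nat_lit 152) (nat_lit 138892292618) (nat_lit 43) (nat_lit 5) (nat_lit 44) (nat_lit 5) (nat_lit 45) (nat_lit 4) (nat_lit 470) (nat_lit 415) (nat_lit 315)) (XT.lf (nat_lit 0) (nat_lit 14269480392) (nat_lit 76) (nat_lit 113845674001) (nat_lit 76) (nat_lit 61891625583) (nat_lit 42) (nat_lit 4) (nat_lit 43) (nat_lit 5) (nat_lit 43) (nat_lit 4) (nat_lit 471) (nat_lit 415) (nat_lit 314)))) (XT.nd (nat_lit 156) (nat_lit 228) (nat_lit 0) (XT.nd (nat_lit 78) (nat_lit 76) (nat_lit 0) (XT.lf (nat_lit 0) (nat_lit 23435027303) (nat_lit 152) (nat_lit 3913863020) (nat_lit 76) (nat_lit 173305281750) (nat_lit 41) (nat_lit 5) (nat_lit 43) (nat_lit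 5) (nat_lit 42) (nat_lit 4) (nat_lit 472) (nat_lit 415) (nat_lit 313)) (XT.lf (nat_lit 0) (nat_lit 117452081165) (nat_lit 152) (nat_lit 26479848495) (nat_lit 0) (nat_lit 67969062569) (nat_lit 40) (nat_lit 5) (nat_lit 42) (nat_lit 4) (nat_lit 40) (nat_lit 4) (nat_lit 473) (nat_lit 415) (nat_lit 312))) (XT.nd (nat_lit 78) (nat_lit 152) (nat_lit 0) (XT.lf (nat_lit 0) (nat_lit 170998529634) (nat_lit 76) (nat_lit 51186813995) (nat_lit 76) (nat_lit 1702472178) (nat_lit 39) (nat_lit 4) (nat_lit 40) (nat_lit 5) (nat_lit 40) (nat_lit 4) (nat_lit 474) (nat_lit 415) (nat_lit 311)) (XT.lf (nat_lit 0) (nat_lit 98980780860) (nat_lit 152) (nat_lit 85740842727) (nat_lit 0) (nat_lit 51851669412) (nat_lit 37) (nat_lit 5) (nat_lit 39) (nat_lit 4) (nat_lit 37) (nat_lit 4) (nat_lit 475) (nat_lit 415) (nat_lit 310)))))) (XT.nd (nat_lit 624) (nat_lit 608) (nat_lit 0) (XT.nd (nat_lit 312) (nat_lit 304) (nat_lit 0) (XT.nd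 (nat_lit 156) (nat_lit 228) (nat_lit 0) (XT.nd (nat_lit 78) (nat_lit 152) (nat_lit 0) (XT.lf (nat_lit 0) (nat_lit 125616434239) (nat_lit 76) (nat_lit 85799073772) (nat_lit 76) (nat_lit 38668881896) (nat_lit 36) (nat_lit 4) (nat_lit 37) (nat_lit 5) (nat_lit 37) (nat_lit 4) (nat_lit 476) (nat_lit 415) (nat_lit 309)) (XT.lf (nat_lit 0) (nat_lit 69366433130) (nat_lit 152) (nat_lit 170608162103) (nat_lit 0) (nat_lit 24479583348) (nat_lit 34) (nat_lit 5) (nat_lit 36) (nat_lit 4) (nat_lit 34) (nat_lit 4) (nat_lit 477) (nat_lit 415) (nat_lit 308))) (XT.nd (nat_lit 78) (nat_lit 152) (nat_lit 0) (XT.lf (nat_lit 0) (nat_lit 53782083148) (nat_lit 76) (nat_lit 135411165574) (nat_lit 76) (nat_lit 90523433608) (nat_lit 33) (nat_lit 4) (nat_lit 34) (nat_lit 5) (nat_lit 34) (nat_lit 4) (nat_lit 478) (nat_lit 415) (nat_lit 307)) (XT.lf (nat_lit 0) (nat_lit 5946723244) (nat_lit 76) (nat_lit 18850970436) (nat_lit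 152) (nat_lit 271229561511) (nat_lit 31) (nat_lit 5) (nat_lit 32) (nat_lit 5) (nat_lit 33) (nat_lit 4) (nat_lit 479) (nat_lit 415) (nat_lit 306)))) (XT.nd (nat_lit 156) (nat_lit 228) (nat_lit 0) (XT.nd (nat_lit 78) (nat_lit 76) (nat_lit 0) (XT.lf (nat_lit 0) (nat_lit 151882153316) (nat_lit 152) (nat_lit 52270429783) (nat_lit 0) (nat_lit 109130434143) (nat_lit 31) (nat_lit 5) (nat_lit 33) (nat_lit 4) (nat_lit 31) (nat_lit 4) (nat_lit 480) (nat_lit 415) (nat_lit 305)) (XT.lf (nat_lit 0) (nat_lit 210991200792) (nat_lit 76) (nat_lit 81750016610) (nat_lit 76) (nat_lit 38997630480) (nat_lit 30) (nat_lit 4) (nat_lit 31) (nat_lit 5) (nat_lit 31) (nat_lit 4) (nat_lit 481) (nat_lit 415) (nat_lit 304))) (XT.nd (nat_lit 78) (nat_lit 76) (nat_lit 0) (XT.lf (nat_lit 0) (nat_lit 94324784834) (nat_lit 152) (nat_lit 203460475852) (nat_lit 0) (nat_lit 53607638469) (nat_lit 28) (nat_lit 5) (nat_lit 30) (nat_lit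 4) (nat_lit 28) (nat_lit 4) (nat_lit 482) (nat_lit 415) (nat_lit 303)) (XT.lf (nat_lit 0) (nat_lit 70068787837) (nat_lit 76) (nat_lit 171502491855) (nat_lit 76) (nat_lit 130784800910) (nat_lit 27) (nat_lit 4) (nat_lit 28) (nat_lit 5) (nat_lit 28) (nat_lit 4) (nat_lit 483) (nat_lit 415) (nat_lit 302))))) (XT.nd (nat_lit 312) (nat_lit 228) (nat_lit 0) (XT.nd (nat_lit 156) (nat_lit 228) (nat_lit 0) (XT.nd (nat_lit 78) (nat_lit 76) (nat_lit 0) (XT.lf (nat_lit 0) (nat_lit 9020322398) (nat_lit 152) (nat_lit 22226534268) (nat_lit 76) (nat_lit 363565166527) (nat_lit 26) (nat_lit 5) (nat_lit 28) (nat_lit 5) (nat_lit 27) (nat_lit 4) (nat_lit 484) (nat_lit 415) (nat_lit 301)) (XT.lf (nat_lit 0) (nat_lit 161956524728) (nat_lit 152) (nat_lit 133497432679) (nat_lit 0) (nat_lit 123176846562) (nat_lit 25) (nat_lit 5) (nat_lit 27) (nat_lit 4) (nat_lit 25) (nat_lit 4) (nat_lit 485) (nat_lit 415) (nat_lit 300)))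 (XT.nd (nat_lit 78) (nat_lit 152) (nat_lit 0) (XT.lf (nat_lit 0) (nat_lit 178719970767) (nat_lit 76) (nat_lit 152114921441) (nat_lit 76) (nat_lit 113334831556) (nat_lit 24) (nat_lit 4) (nat_lit 25) (nat_lit 5) (nat_lit 25) (nat_lit 4) (nat_lit 486) (nat_lit 415) (nat_lit 299)) (XT.lf (nat_lit 0) (nat_lit 43388639497) (nat_lit 152) (nat_lit 421713674470) (nat_lit 0) (nat_lit 6454857491) (nat_lit 22) (nat_lit 5) (nat_lit 24) (nat_lit 4) (nat_lit 22) (nat_lit 4) (nat_lit 487) (nat_lit 415) (nat_lit 298)))) (XT.nd (nat_lit 156) (nat_lit 152) (nat_lit 0) (XT.nd (nat_lit 78) (nat_lit 76) (nat_lit 0) (XT.lf (nat_lit 0) (nat_lit 215993816732) (nat_lit 152) (nat_lit 105623475839) (nat_lit 0) (nat_lit 179059698552) (nat_lit 22) (nat_lit 5) (nat_lit 24) (nat_lit 4) (nat_lit 22) (nat_lit 4) (nat_lit 488) (nat_lit 415) (nat_lit 297)) (XT.lf (nat_lit 0) (nat_lit 243542695657) (nat_lit 76) (nat_lit 162664080871)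 (nat_lit 76) (nat_lit 125729651419) (nat_lit 21) (nat_lit 4) (nat_lit 22) (nat_lit 5) (nat_lit 22) (nat_lit 4) (nat_lit 489) (nat_lit 415) (nat_lit 296))) (XT.nd (nat_lit 78) (nat_lit 0) (nat_lit 0) (XT.lf (nat_lit 0) (nat_lit 47471609134) (nat_lit 152) (nat_lit 505743368938) (nat_lit 0) (nat_lit 12295687546) (nat_lit 19) (nat_lit 5) (nat_lit 21) (nat_lit 4) (nat_lit 19) (nat_lit 4) (nat_lit 490) (nat_lit 415) (nat_lit 295)) (XT.lf (nat_lit 0) (nat_lit 238028858464) (nat_lit 152) (nat_lit 160391001909) (nat_lit 0) (nat_lit 202852682719) (nat_lit 19) (nat_lit 5) (nat_lit 21) (nat_lit 4) (nat_lit 19) (nat_lit 4) (nat_lit 491) (nat_lit 415) (nat_lit 294))))))))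
noncomputable def xc70 : XT := (XT.nd (nat_lit 57876) (nat_lit 0) (nat_lit 3344) (XT.nd (nat_lit 56628) (nat_lit 0) (nat_lit 8512) (XT.nd (nat_lit 546) (nat_lit 304) (nat_lit 0) (XT.nd (nat_lit 234) (nat_lit 228) (nat_lit 0) (XT.nd (nat_lit 78) (nat_lit 152) (nat_lit 0) (XT.lf (nat_lit 0) (nat_lit 219613180554) (nat_lit 76) (nat_lit 227643647146) (nat_lit 76) (nat_lit 192467236070) (nat_lit 18) (nat_lit 4) (nat_lit 19) (nat_lit 5) (nat_lit 19) (nat_lit 4) (nat_lit 492) (nat_lit 415) (nat_lit 293)) (XT.nd (nat_lit 78) (nat_lit 152) (nat_lit 0) (XT.lf (nat_lit 0) (nat_lit 635740074590) (nat_lit 76) (nat_lit 40274345603) (nat_lit 76) (nat_lit 5097716627) (nat_lit 18) (nat_lit 4) (nat_lit 19) (nat_lit 5) (nat_lit 19) (nat_lit 4) (nat_lit 493) (nat_lit 415) (nat_lit 292)) (XT.lf (nat_lit 0) (nat_lit 199366786761) (nat_lit 152) (nat_lit 360004484718) (nat_lit 0) (nat_lit 165865043204) (nat_lit 16)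 (nat_lit 5) (nat_lit 18) (nat_lit 4) (nat_lit 16) (nat_lit 4) (nat_lit 494) (nat_lit 415) (nat_lit 291)))) (XT.nd (nat_lit 156) (nat_lit 152) (nat_lit 0) (XT.nd (nat_lit 78) (nat_lit 0) (nat_lit 0) (XT.lf (nat_lit 0) (nat_lit 37883131498) (nat_lit 76) (nat_lit 384200670383) (nat_lit 76) (nat_lit 350698748909) (nat_lit 15) (nat_lit 4) (nat_lit 16) (nat_lit 5) (nat_lit 16) (nat_lit 4) (nat_lit 495) (nat_lit 415) (nat_lit 290)) (XT.lf (nat_lit 0) (nat_lit 480452906316) (nat_lit 76) (nat_lit 188434111844) (nat_lit 76) (nat_lit 154932025631) (nat_lit 15) (nat_lit 4) (nat_lit 16) (nat_lit 5) (nat_lit 16) (nat_lit 4) (nat_lit 496) (nat_lit 415) (nat_lit 289))) (XT.nd (nat_lit 78) (nat_lit 0) (nat_lit 0) (XT.lf (nat_lit 0) (nat_lit 56347739359) (nat_lit 152) (nat_lit 798022771999) (nat_lit 0) (nat_lit 24440845313) (nat_lit 13) (nat_lit 5) (nat_lit 15) (nat_lit 4) (nat_lit 13) (nat_lit 4) (nat_lit 497)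 (nat_lit 415) (nat_lit 288)) (XT.lf (nat_lit 0) (nat_lit 288428984846) (nat_lit 152) (nat_lit 392658761849) (nat_lit 0) (nat_lit 256521956288) (nat_lit 13) (nat_lit 5) (nat_lit 15) (nat_lit 4) (nat_lit 13) (nat_lit 4) (nat_lit 498) (nat_lit 415) (nat_lit 287))))) (XT.nd (nat_lit 312) (nat_lit 76) (nat_lit 0) (XT.nd (nat_lit 156) (nat_lit 152) (nat_lit 0) (XT.nd (nat_lit 78) (nat_lit 0) (nat_lit 0) (XT.lf (nat_lit 0) (nat_lit 46622780302) (nat_lit 76) (nat_lit 493179993799) (nat_lit 76) (nat_lit 461272840694) (nat_lit 12) (nat_lit 4) (nat_lit 13) (nat_lit 5) (nat_lit 13) (nat_lit 4) (nat_lit 499) (nat_lit 415) (nat_lit 286)) (XT.lf (nat_lit 0) (nat_lit 535064920134) (nat_lit 76) (nat_lit 283059622031) (nat_lit 76) (nat_lit 251152353604) (nat_lit 12) (nat_lit 4) (nat_lit 13) (nat_lit 5) (nat_lit 13) (nat_lit 4) (nat_lit 500) (nat_lit 415) (nat_lit 285))) (XT.nd (nat_lit 78) (nat_lit 152) (nat_lit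 0) (XT.lf (nat_lit 0) (nat_lit 1062579057624) (nat_lit 76) (nat_lit 56131339761) (nat_lit 76) (nat_lit 24223964555) (nat_lit 12) (nat_lit 4) (nat_lit 13) (nat_lit 5) (nat_lit 13) (nat_lit 4) (nat_lit 501) (nat_lit 415) (nat_lit 284)) (XT.lf (nat_lit 0) (nat_lit 223456456830) (nat_lit 152) (nat_lit 805303840196) (nat_lit 0) (nat_lit 193068386281) (nat_lit 10) (nat_lit 5) (nat_lit 12) (nat_lit 4) (nat_lit 10) (nat_lit 4) (nat_lit 502) (nat_lit 415) (nat_lit 283)))) (XT.nd (nat_lit 156) (nat_lit 0) (nat_lit 0) (XT.nd (nat_lit 78) (nat_lit 76) (nat_lit 0) (XT.lf (nat_lit 0) (nat_lit 492481616197) (nat_lit 152) (nat_lit 352320670317) (nat_lit 0) (nat_lit 462093458461) (nat_lit 10) (nat_lit 5) (nat_lit 12) (nat_lit 4) (nat_lit 10) (nat_lit 4) (nat_lit 503) (nat_lit 415) (nat_lit 282)) (XT.lf (nat_lit 0) (nat_lit 141424770302) (nat_lit 76) (nat_lit 643810653972) (nat_lit 76) (nat_lit 613422415508) (nat_lit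 9) (nat_lit 4) (nat_lit 10) (nat_lit 5) (nat_lit 10) (nat_lit 4) (nat_lit 504) (nat_lit 415) (nat_lit 281))) (XT.nd (nat_lit 55536) (nat_lit 0) (nat_lit 11704) (XT.lf (nat_lit 0) (nat_lit 687248369182) (nat_lit 76) (nat_lit 420297026632) (nat_lit 76) (nat_lit 389908713419) (nat_lit 9) (nat_lit 4) (nat_lit 10) (nat_lit 5) (nat_lit 10) (nat_lit 4) (nat_lit 505) (nat_lit 415) (nat_lit 280)) (XT.lf (nat_lit 0) (nat_lit 788323310) (nat_lit 836) (nat_lit 3139528024) (nat_lit 836) (nat_lit 3139528024) (nat_lit 163) (nat_lit 3) (nat_lit 174) (nat_lit 3) (nat_lit 174) (nat_lit 5) (nat_lit 416) (nat_lit 416) (nat_lit 368)))))) (XT.nd (nat_lit 624) (nat_lit 2356) (nat_lit 0) (XT.nd (nat_lit 312) (nat_lit 912) (nat_lit 0) (XT.nd (nat_lit 156) (nat_lit 0) (nat_lit 76) (XT.nd (nat_lit 78) (nat_lit 0) (nat_lit 0) (XT.lf (nat_lit 0) (nat_lit 2288245757) (nat_lit 760) (nat_lit 9572300490) (nat_lit 836) (nat_lit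 2807135793) (nat_lit 164) (nat_lit 5) (nat_lit 174) (nat_lit 5) (nat_lit 175) (nat_lit 5) (nat_lit 417) (nat_lit 416) (nat_lit 367)) (XT.lf (nat_lit 76) (nat_lit 2273331089) (nat_lit 0) (nat_lit 1010182821) (nat_lit 836) (nat_lit 11948392303) (nat_lit 165) (nat_lit 5) (nat_lit 164) (nat_lit 5) (nat_lit 175) (nat_lit 5) (nat_lit 418) (nat_lit 416) (nat_lit 366))) (XT.nd (nat_lit 78) (nat_lit 0) (nat_lit 76) (XT.lf (nat_lit 0) (nat_lit 4646388755) (nat_lit 760) (nat_lit 627198139) (nat_lit 836) (nat_lit 10553285903) (nat_lit 165) (nat_lit 5) (nat_lit 175) (nat_lit 5) (nat_lit 176) (nat_lit 5) (nat_lit 419) (nat_lit 416) (nat_lit 365)) (XT.lf (nat_lit 0) (nat_lit 6399834631) (nat_lit 760) (nat_lit 3504956927) (nat_lit 836) (nat_lit 6550571558) (nat_lit 166) (nat_lit 5) (nat_lit 176) (nat_lit 5) (nat_lit 177) (nat_lit 5) (nat_lit 420) (nat_lit 416) (nat_lit 364)))) (XT.nd (nat_lit 156) (nat_lit 1140)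 (nat_lit 0) (XT.nd (nat_lit 78) (nat_lit 0) (nat_lit 0) (XT.lf (nat_lit 0) (nat_lit 8553517714) (nat_lit 760) (nat_lit 6431447316) (nat_lit 836) (nat_lit 2136172762) (nat_lit 167) (nat_lit 5) (nat_lit 177) (nat_lit 5) (nat_lit 178) (nat_lit 5) (nat_lit 421) (nat_lit 416) (nat_lit 363)) (XT.lf (nat_lit 76) (nat_lit 8375907975) (nat_lit 0) (nat_lit 2824233528) (nat_lit 836) (nat_lit 6624003603) (nat_lit 168) (nat_lit 5) (nat_lit 167) (nat_lit 5) (nat_lit 178) (nat_lit 5) (nat_lit 422) (nat_lit 416) (nat_lit 362))) (XT.nd (nat_lit 78) (nat_lit 456) (nat_lit 0) (XT.lf (nat_lit 0) (nat_lit 6016858874) (nat_lit 760) (nat_lit 8373727594) (nat_lit 836) (nat_lit 4176204720) (nat_lit 158) (nat_lit 5) (nat_lit 168) (nat_lit 5) (nat_lit 169) (nat_lit 5) (nat_lit 423) (nat_lit 416) (nat_lit 361)) (XT.lf (nat_lit 0) (nat_lit 3655646957) (nat_lit 456) (nat_lit 14492169287) (nat_lit 532) (nat_lit 1205457799)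 (nat_lit 152) (nat_lit 5) (nat_lit 158) (nat_lit 5) (nat_lit 159) (nat_lit 5) (nat_lit 424) (nat_lit 416) (nat_lit 360))))) (XT.nd (nat_lit 312) (nat_lit 1216) (nat_lit 0) (XT.nd (nat_lit 156) (nat_lit 684) (nat_lit 0) (XT.nd (nat_lit 78) (nat_lit 0) (nat_lit 0) (XT.lf (nat_lit 0) (nat_lit 1245225033) (nat_lit 380) (nat_lit 1043577087) (nat_lit 456) (nat_lit 17894814062) (nat_lit 146) (nat_lit 5) (nat_lit 151) (nat_lit 5) (nat_lit 152) (nat_lit 5) (nat_lit 425) (nat_lit 416) (nat_lit 359)) (XT.lf (nat_lit 0) (nat_lit 6478403140) (nat_lit 456) (nat_lit 1230718524) (nat_lit 76) (nat_lit 13347376341) (nat_lit 146) (nat_lit 5) (nat_lit 152) (nat_lit 5) (nat_lit 147) (nat_lit 5) (nat_lit 426) (nat_lit 416) (nat_lit 358))) (XT.nd (nat_lit 78) (nat_lit 304) (nat_lit 0) (XT.lf (nat_lit 0) (nat_lit 11391682429) (nat_lit 456) (nat_lit 3661421066) (nat_lit 76) (nat_lit 6926683294) (nat_lit 141) (nat_lit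 5) (nat_lit 147) (nat_lit 5) (nat_lit 142) (nat_lit 5) (nat_lit 427) (nat_lit 416) (nat_lit 357)) (XT.lf (nat_lit 0) (nat_lit 16878996080) (nat_lit 304) (nat_lit 207332298) (nat_lit 380) (nat_lit 5871196863) (nat_lit 137) (nat_lit 5) (nat_lit 141) (nat_lit 5) (nat_lit 142) (nat_lit 5) (nat_lit 428) (nat_lit 416) (nat_lit 356)))) (XT.nd (nat_lit 156) (nat_lit 532) (nat_lit 0) (XT.nd (nat_lit 78) (nat_lit 380) (nat_lit 0) (XT.lf (nat_lit 0) (nat_lit 15397528852) (nat_lit 304) (nat_lit 8365817998) (nat_lit 380) (nat_lit 223797526) (nat_lit 133) (nat_lit 5) (nat_lit 137) (nat_lit 5) (nat_lit 138) (nat_lit 5) (nat_lit 429) (nat_lit 416) (nat_lit 355)) (XT.lf (nat_lit 0) (nat_lit 6118748050) (nat_lit 380) (nat_lit 11167382910) (nat_lit 76) (nat_lit 7786846789) (nat_lit 128) (nat_lit 5) (nat_lit 133) (nat_lit 5) (nat_lit 129) (nat_lit 5) (nat_lit 430) (nat_lit 416) (nat_lit 354))) (XT.nd (nat_lit 78)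 (nat_lit 228) (nat_lit 0) (XT.lf (nat_lit 0) (nat_lit 12491959531) (nat_lit 304) (nat_lit 933991657) (nat_lit 380) (nat_lit 12796289776) (nat_lit 124) (nat_lit 5) (nat_lit 128) (nat_lit 5) (nat_lit 129) (nat_lit 5) (nat_lit 431) (nat_lit 416) (nat_lit 353)) (XT.lf (nat_lit 0) (nat_lit 11049179146) (nat_lit 228) (nat_lit 10877913899) (nat_lit 304) (nat_lit 5505885314) (nat_lit 121) (nat_lit 5) (nat_lit 124) (nat_lit 5) (nat_lit 125) (nat_lit 5) (nat_lit 432) (nat_lit 416) (nat_lit 352))))))) (XT.nd (nat_lit 1248) (nat_lit 2052) (nat_lit 0) (XT.nd (nat_lit 624) (nat_lit 1216) (nat_lit 0) (XT.nd (nat_lit 312) (nat_lit 836) (nat_lit 0) (XT.nd (nat_lit 156) (nat_lit 456) (nat_lit 0) (XT.nd (nat_lit 78) (nat_lit 228) (nat_lit 0) (XT.lf (nat_lit 0) (nat_lit 2793813882) (nat_lit 380) (nat_lit 19029261134) (nat_lit 76) (nat_lit 6890560207) (nat_lit 116) (nat_lit 5) (nat_lit 121) (nat_lit 5) (nat_lit 117)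 (nat_lit 5) (nat_lit 433) (nat_lit 416) (nat_lit 351)) (XT.lf (nat_lit 0) (nat_lit 8296885363) (nat_lit 228) (nat_lit 3853182056) (nat_lit 304) (nat_lit 17912891325) (nat_lit 113) (nat_lit 5) (nat_lit 116) (nat_lit 5) (nat_lit 117) (nat_lit 5) (nat_lit 434) (nat_lit 416) (nat_lit 350))) (XT.nd (nat_lit 78) (nat_lit 228) (nat_lit 0) (XT.lf (nat_lit 0) (nat_lit 6930628678) (nat_lit 228) (nat_lit 15992966215) (nat_lit 304) (nat_lit 8563195513) (nat_lit 110) (nat_lit 5) (nat_lit 113) (nat_lit 5) (nat_lit 114) (nat_lit 5) (nat_lit 435) (nat_lit 416) (nat_lit 349)) (XT.lf (nat_lit 0) (nat_lit 2065631689) (nat_lit 228) (nat_lit 27299240113) (nat_lit 76) (nat_lit 3629446331) (nat_lit 107) (nat_lit 5) (nat_lit 110) (nat_lit 5) (nat_lit 108) (nat_lit 5) (nat_lit 436) (nat_lit 416) (nat_lit 348)))) (XT.nd (nat_lit 156) (nat_lit 456) (nat_lit 0) (XT.nd (nat_lit 78) (nat_lit 152) (nat_lit 0) (XT.lf (nat_lit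 0) (nat_lit 4332990570) (nat_lit 228) (nat_lit 9670200437) (nat_lit 304) (nat_lit 20574316897) (nat_lit 104) (nat_lit 5) (nat_lit 107) (nat_lit 5) (nat_lit 108) (nat_lit 5) (nat_lit 437) (nat_lit 416) (nat_lit 347)) (XT.lf (nat_lit 0) (nat_lit 3090688989) (nat_lit 152) (nat_lit 24500869598) (nat_lit 228) (nat_lit 8661004807) (nat_lit 102) (nat_lit 5) (nat_lit 104) (nat_lit 5) (nat_lit 105) (nat_lit 5) (nat_lit 438) (nat_lit 416) (nat_lit 346))) (XT.nd (nat_lit 78) (nat_lit 152) (nat_lit 0) (XT.lf (nat_lit 0) (nat_lit 1936283586) (nat_lit 228) (nat_lit 2846957875) (nat_lit 304) (nat_lit 33239476240) (nat_lit 98) (nat_lit 5) (nat_lit 101) (nat_lit 5) (nat_lit 102) (nat_lit 5) (nat_lit 439) (nat_lit 416) (nat_lit 345)) (XT.lf (nat_lit 0) (nat_lit 639886913) (nat_lit 152) (nat_lit 19265933120) (nat_lit 228) (nat_lit 19976254115) (nat_lit 96) (nat_lit 5) (nat_lit 98) (nat_lit 5) (nat_lit 99) (nat_lit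 5) (nat_lit 440) (nat_lit 416) (nat_lit 344))))) (XT.nd (nat_lit 312) (nat_lit 608) (nat_lit 0) (XT.nd (nat_lit 156) (nat_lit 380) (nat_lit 0) (XT.nd (nat_lit 78) (nat_lit 228) (nat_lit 0) (XT.lf (nat_lit 0) (nat_lit 36971328654) (nat_lit 228) (nat_lit 410104967) (nat_lit 76) (nat_lit 4472089841) (nat_lit 96) (nat_lit 5) (nat_lit 99) (nat_lit 5) (nat_lit 97) (nat_lit 5) (nat_lit 441) (nat_lit 416) (nat_lit 343)) (XT.lf (nat_lit 0) (nat_lit 12045071896) (nat_lit 228) (nat_lit 1585859790) (nat_lit 76) (nat_lit 30293284356) (nat_lit 93) (nat_lit 5) (nat_lit 96) (nat_lit 5) (nat_lit 94) (nat_lit 5) (nat_lit 442) (nat_lit 416) (nat_lit 342))) (XT.nd (nat_lit 78) (nat_lit 228) (nat_lit 0) (XT.lf (nat_lit 0) (nat_lit 31033325531) (nat_lit 228) (nat_lit 2669369185) (nat_lit 76) (nat_lit 12409975257) (nat_lit 91) (nat_lit 5) (nat_lit 94) (nat_lit 5) (nat_lit 92) (nat_lit 5) (nat_lit 443) (nat_lit 416)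 (nat_lit 341)) (XT.lf (nat_lit 0) (nat_lit 3926957054) (nat_lit 228) (nat_lit 3652763050) (nat_lit 76) (nat_lit 40846058329) (nat_lit 88) (nat_lit 5) (nat_lit 91) (nat_lit 5) (nat_lit 89) (nat_lit 5) (nat_lit 444) (nat_lit 416) (nat_lit 340)))) (XT.nd (nat_lit 156) (nat_lit 304) (nat_lit 0) (XT.nd (nat_lit 78) (nat_lit 152) (nat_lit 0) (XT.lf (nat_lit 0) (nat_lit 25030462672) (nat_lit 228) (nat_lit 4819139623) (nat_lit 76) (nat_lit 21006723175) (nat_lit 86) (nat_lit 5) (nat_lit 89) (nat_lit 5) (nat_lit 87) (nat_lit 5) (nat_lit 445) (nat_lit 416) (nat_lit 339)) (XT.lf (nat_lit 0) (nat_lit 47732602274) (nat_lit 152) (nat_lit 1015375836) (nat_lit 228) (nat_lit 4687052025) (nat_lit 84) (nat_lit 5) (nat_lit 86) (nat_lit 5) (nat_lit 87) (nat_lit 5) (nat_lit 446) (nat_lit 416) (nat_lit 338))) (XT.nd (nat_lit 78) (nat_lit 152) (nat_lit 0) (XT.lf (nat_lit 0) (nat_lit 18901324674) (nat_lit 152) (nat_lit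 6920917562) (nat_lit 76) (nat_lit 30316668882) (nat_lit 82) (nat_lit 5) (nat_lit 84) (nat_lit 5) (nat_lit 83) (nat_lit 5) (nat_lit 447) (nat_lit 416) (nat_lit 337)) (XT.lf (nat_lit 0) (nat_lit 45216025103) (nat_lit 228) (nat_lit 7902150059) (nat_lit 76) (nat_lit 5886912592) (nat_lit 80) (nat_lit 5) (nat_lit 83) (nat_lit 5) (nat_lit 81) (nat_lit 4) (nat_lit 448) (nat_lit 416) (nat_lit 336)))))) (XT.nd (nat_lit 624) (nat_lit 912) (nat_lit 0) (XT.nd (nat_lit 312) (nat_lit 532) (nat_lit 0) (XT.nd (nat_lit 156) (nat_lit 304) (nat_lit 0) (XT.nd (nat_lit 78) (nat_lit 152) (nat_lit 0) (XT.lf (nat_lit 0) (nat_lit 12565953634) (nat_lit 152) (nat_lit 9068264792) (nat_lit 76) (nat_lit 40387344700) (nat_lit 78) (nat_lit 5) (nat_lit 80) (nat_lit 5) (nat_lit 79) (nat_lit 5) (nat_lit 449) (nat_lit 416) (nat_lit 335)) (XT.lf (nat_lit 0) (nat_lit 41757225886) (nat_lit 228) (nat_lit 10231471370) (nat_lit 76) (nat_lit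 13218809172) (nat_lit 76) (nat_lit 5) (nat_lit 79) (nat_lit 5) (nat_lit 77) (nat_lit 4) (nat_lit 450) (nat_lit 416) (nat_lit 334))) (XT.nd (nat_lit 78) (nat_lit 152) (nat_lit 0) (XT.lf (nat_lit 0) (nat_lit 5919699100) (nat_lit 152) (nat_lit 11398804815) (nat_lit 76) (nat_lit 51254573412) (nat_lit 74) (nat_lit 5) (nat_lit 76) (nat_lit 5) (nat_lit 75) (nat_lit 5) (nat_lit 451) (nat_lit 416) (nat_lit 333)) (XT.lf (nat_lit 0) (nat_lit 38269863830) (nat_lit 228) (nat_lit 12840746140) (nat_lit 76) (nat_lit 21005454052) (nat_lit 72) (nat_lit 5) (nat_lit 75) (nat_lit 5) (nat_lit 73) (nat_lit 4) (nat_lit 452) (nat_lit 416) (nat_lit 332)))) (XT.nd (nat_lit 156) (nat_lit 228) (nat_lit 0) (XT.nd (nat_lit 78) (nat_lit 228) (nat_lit 0) (XT.lf (nat_lit 0) (nat_lit 61741091578) (nat_lit 76) (nat_lit 12915302103) (nat_lit 152) (nat_lit 1213678541) (nat_lit 71) (nat_lit 5) (nat_lit 72) (nat_lit 5) (nat_lit 73)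 (nat_lit 4) (nat_lit 453) (nat_lit 416) (nat_lit 331)) (XT.lf (nat_lit 0) (nat_lit 34634225762) (nat_lit 228) (nat_lit 15965820593) (nat_lit 76) (nat_lit 29213093337) (nat_lit 68) (nat_lit 5) (nat_lit 71) (nat_lit 5) (nat_lit 69) (nat_lit 4) (nat_lit 454) (nat_lit 416) (nat_lit 330))) (XT.nd (nat_lit 78) (nat_lit 152) (nat_lit 0) (XT.lf (nat_lit 0) (nat_lit 66372270092) (nat_lit 76) (nat_lit 8431079404) (nat_lit 152) (nat_lit 9192512958) (nat_lit 67) (nat_lit 5) (nat_lit 68) (nat_lit 5) (nat_lit 69) (nat_lit 4) (nat_lit 455) (nat_lit 416) (nat_lit 329)) (XT.lf (nat_lit 0) (nat_lit 30685164212) (nat_lit 152) (nat_lit 19935957507) (nat_lit 76) (nat_lit 37770813711) (nat_lit 65) (nat_lit 5) (nat_lit 67) (nat_lit 5) (nat_lit 66) (nat_lit 4) (nat_lit 456) (nat_lit 416) (nat_lit 328))))) (XT.nd (nat_lit 312) (nat_lit 456) (nat_lit 0) (XT.nd (nat_lit 156) (nat_lit 228) (nat_lit 0) (XT.nd (nat_lit 78)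 (nat_lit 152) (nat_lit 0) (XT.lf (nat_lit 0) (nat_lit 70877376796) (nat_lit 76) (nat_lit 4110405419) (nat_lit 152) (nat_lit 18066537916) (nat_lit 64) (nat_lit 5) (nat_lit 65) (nat_lit 5) (nat_lit 66) (nat_lit 4) (nat_lit 457) (nat_lit 416) (nat_lit 327)) (XT.lf (nat_lit 0) (nat_lit 26196934798) (nat_lit 152) (nat_lit 25204939297) (nat_lit 76) (nat_lit 46556304112) (nat_lit 62) (nat_lit 5) (nat_lit 64) (nat_lit 5) (nat_lit 63) (nat_lit 4) (nat_lit 458) (nat_lit 416) (nat_lit 326))) (XT.nd (nat_lit 78) (nat_lit 152) (nat_lit 0) (XT.lf (nat_lit 0) (nat_lit 74834609082) (nat_lit 76) (nat_lit 164906493) (nat_lit 152) (nat_lit 28158471122) (nat_lit 61) (nat_lit 5) (nat_lit 62) (nat_lit 5) (nat_lit 63) (nat_lit 4) (nat_lit 459) (nat_lit 416) (nat_lit 325)) (XT.lf (nat_lit 0) (nat_lit 20863399112) (nat_lit 152) (nat_lit 32391664877) (nat_lit 76) (nat_lit 55377094713) (nat_lit 59) (nat_lit 5) (nat_lit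 61) (nat_lit 5) (nat_lit 60) (nat_lit 4) (nat_lit 460) (nat_lit 416) (nat_lit 324)))) (XT.nd (nat_lit 156) (nat_lit 228) (nat_lit 0) (XT.nd (nat_lit 78) (nat_lit 152) (nat_lit 0) (XT.lf (nat_lit 0) (nat_lit 74591324748) (nat_lit 152) (nat_lit 36836965261) (nat_lit 0) (nat_lit 3004351747) (nat_lit 58) (nat_lit 5) (nat_lit 60) (nat_lit 4) (nat_lit 58) (nat_lit 4) (nat_lit 461) (nat_lit 416) (nat_lit 323)) (XT.lf (nat_lit 0) (nat_lit 14272229318) (nat_lit 152) (nat_lit 42333037459) (nat_lit 76) (nat_lit 63945919609) (nat_lit 56) (nat_lit 5) (nat_lit 58) (nat_lit 5) (nat_lit 57) (nat_lit 4) (nat_lit 462) (nat_lit 416) (nat_lit 322))) (XT.nd (nat_lit 78) (nat_lit 152) (nat_lit 0) (XT.lf (nat_lit 0) (nat_lit 73290639369) (nat_lit 152) (nat_lit 48632351010) (nat_lit 0) (nat_lit 5104986168) (nat_lit 55) (nat_lit 5) (nat_lit 57) (nat_lit 4) (nat_lit 55) (nat_lit 4) (nat_lit 463) (nat_lit 416) (nat_lit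 321)) (XT.lf (nat_lit 0) (nat_lit 5871355444) (nat_lit 152) (nat_lit 56152750464) (nat_lit 76) (nat_lit 71848455928) (nat_lit 53) (nat_lit 5) (nat_lit 55) (nat_lit 5) (nat_lit 54) (nat_lit 4) (nat_lit 464) (nat_lit 416) (nat_lit 320))))))))
noncomputable def xc71 : XT := (XT.nd (nat_lit 2496) (nat_lit 456) (nat_lit 0) (XT.nd (nat_lit 1248) (nat_lit 1216) (nat_lit 0) (XT.nd (nat_lit 624) (nat_lit 836) (nat_lit 0) (XT.nd (nat_lit 312) (nat_lit 456) (nat_lit 0) (XT.nd (nat_lit 156) (nat_lit 228) (nat_lit 0) (XT.nd (nat_lit 78) (nat_lit 76) (nat_lit 0) (XT.lf (nat_lit 0) (nat_lit 70525473668) (nat_lit 152) (nat_lit 65006657930) (nat_lit 0) (nat_lit 5580564163) (nat_lit 52) (nat_lit 5) (nat_lit 54) (nat_lit 4) (nat_lit 52) (nat_lit 4) (nat_lit 465) (nat_lit 416) (nat_lit 319)) (XT.lf (nat_lit 0) (nat_lit 73340631317) (nat_lit 76) (nat_lit 70190068110) (nat_lit 76) (nat_lit 5242402118) (nat_lit 51)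 (nat_lit 4) (nat_lit 52) (nat_lit 5) (nat_lit 52) (nat_lit 4) (nat_lit 466) (nat_lit 416) (nat_lit 318))) (XT.nd (nat_lit 78) (nat_lit 76) (nat_lit 0) (XT.lf (nat_lit 0) (nat_lit 65524240789) (nat_lit 152) (nat_lit 87689949515) (nat_lit 0) (nat_lit 3666890033) (nat_lit 49) (nat_lit 5) (nat_lit 51) (nat_lit 4) (nat_lit 49) (nat_lit 4) (nat_lit 467) (nat_lit 416) (nat_lit 317)) (XT.lf (nat_lit 0) (nat_lit 63224621388) (nat_lit 76) (nat_lit 82046622815) (nat_lit 76) (nat_lit 20187021352) (nat_lit 48) (nat_lit 4) (nat_lit 49) (nat_lit 5) (nat_lit 49) (nat_lit 4) (nat_lit 468) (nat_lit 416) (nat_lit 316)))) (XT.nd (nat_lit 156) (nat_lit 228) (nat_lit 0) (XT.nd (nat_lit 78) (nat_lit 76) (nat_lit 0) (XT.lf (nat_lit 0) (nat_lit 55555222435) (nat_lit 76) (nat_lit 1721317996) (nat_lit 152) (nat_lit 117280133516) (nat_lit 46) (nat_lit 5) (nat_lit 47) (nat_lit 5) (nat_lit 48) (nat_lit 4) (nat_lit 469) (nat_lit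 416) (nat_lit 315)) (XT.lf (nat_lit 0) (nat_lit 45057855073) (nat_lit 76) (nat_lit 99017017429) (nat_lit 76) (nat_lit 40099288791) (nat_lit 45) (nat_lit 4) (nat_lit 46) (nat_lit 5) (nat_lit 46) (nat_lit 4) (nat_lit 470) (nat_lit 416) (nat_lit 314))) (XT.nd (nat_lit 78) (nat_lit 76) (nat_lit 0) (XT.lf (nat_lit 0) (nat_lit 32319223082) (nat_lit 76) (nat_lit 12187437075) (nat_lit 152) (nat_lit 149888865131) (nat_lit 43) (nat_lit 5) (nat_lit 44) (nat_lit 5) (nat_lit 45) (nat_lit 4) (nat_lit 471) (nat_lit 416) (nat_lit 313)) (XT.lf (nat_lit 0) (nat_lit 15623764897) (nat_lit 76) (nat_lit 122846746683) (nat_lit 76) (nat_lit 66731503063) (nat_lit 42) (nat_lit 4) (nat_lit 43) (nat_lit 5) (nat_lit 43) (nat_lit 4) (nat_lit 472) (nat_lit 416) (nat_lit 312))))) (XT.nd (nat_lit 312) (nat_lit 456) (nat_lit 0) (XT.nd (nat_lit 156) (nat_lit 228) (nat_lit 0) (XT.nd (nat_lit 78) (nat_lit 76) (nat_lit 0) (XT.lf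 (nat_lit 0) (nat_lit 25409723366) (nat_lit 152) (nat_lit 4026700101) (nat_lit 76) (nat_lit 187265087248) (nat_lit 41) (nat_lit 5) (nat_lit 43) (nat_lit 5) (nat_lit 42) (nat_lit 4) (nat_lit 473) (nat_lit 416) (nat_lit 311)) (XT.lf (nat_lit 0) (nat_lit 126945233036) (nat_lit 152) (nat_lit 28403393455) (nat_lit 0) (nat_lit 73499595449) (nat_lit 40) (nat_lit 5) (nat_lit 42) (nat_lit 4) (nat_lit 40) (nat_lit 4) (nat_lit 474) (nat_lit 416) (nat_lit 310))) (XT.nd (nat_lit 78) (nat_lit 152) (nat_lit 0) (XT.lf (nat_lit 0) (nat_lit 184864787289) (nat_lit 76) (nat_lit 55188094947) (nat_lit 76) (nat_lit 1741322911) (nat_lit 39) (nat_lit 4) (nat_lit 40) (nat_lit 5) (nat_lit 40) (nat_lit 4) (nat_lit 475) (nat_lit 416) (nat_lit 309)) (XT.lf (nat_lit 0) (nat_lit 106990747977) (nat_lit 152) (nat_lit 92415772976) (nat_lit 0) (nat_lit 56088059928) (nat_lit 37) (nat_lit 5) (nat_lit 39) (nat_lit 4) (nat_lit 37) (nat_lit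 4) (nat_lit 476) (nat_lit 416) (nat_lit 308)))) (XT.nd (nat_lit 156) (nat_lit 228) (nat_lit 0) (XT.nd (nat_lit 78) (nat_lit 152) (nat_lit 0) (XT.lf (nat_lit 0) (nat_lit 135842075080) (nat_lit 76) (nat_lit 92574153043) (nat_lit 76) (nat_lit 41670538702) (nat_lit 36) (nat_lit 4) (nat_lit 37) (nat_lit 5) (nat_lit 37) (nat_lit 4) (nat_lit 477) (nat_lit 416) (nat_lit 307)) (XT.lf (nat_lit 0) (nat_lit 75002102687) (nat_lit 152) (nat_lit 184082439026) (nat_lit 0) (nat_lit 26521653145) (nat_lit 34) (nat_lit 5) (nat_lit 36) (nat_lit 4) (nat_lit 34) (nat_lit 4) (nat_lit 478) (nat_lit 416) (nat_lit 306))) (XT.nd (nat_lit 78) (nat_lit 152) (nat_lit 0) (XT.lf (nat_lit 0) (nat_lit 58251447675) (nat_lit 76) (nat_lit 146159823372) (nat_lit 76) (nat_lit 97678617500) (nat_lit 33) (nat_lit 4) (nat_lit 34) (nat_lit 5) (nat_lit 34) (nat_lit 4) (nat_lit 479) (nat_lit 416) (nat_lit 305)) (XT.lf (nat_lit 0) (nat_lit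 6584664435) (nat_lit 76) (nat_lit 20277077327) (nat_lit 152) (nat_lit 292843681998) (nat_lit 31) (nat_lit 5) (nat_lit 32) (nat_lit 5) (nat_lit 33) (nat_lit 4) (nat_lit 480) (nat_lit 416) (nat_lit 304)))))) (XT.nd (nat_lit 624) (nat_lit 532) (nat_lit 0) (XT.nd (nat_lit 312) (nat_lit 380) (nat_lit 0) (XT.nd (nat_lit 156) (nat_lit 228) (nat_lit 0) (XT.nd (nat_lit 78) (nat_lit 76) (nat_lit 0) (XT.lf (nat_lit 0) (nat_lit 164108200007) (nat_lit 152) (nat_lit 56299346216) (nat_lit 0) (nat_lit 117934338475) (nat_lit 31) (nat_lit 5) (nat_lit 33) (nat_lit 4) (nat_lit 31) (nat_lit 4) (nat_lit 481) (nat_lit 416) (nat_lit 303)) (XT.lf (nat_lit 0) (nat_lit 228016577869) (nat_lit 76) (nat_lit 88216101388) (nat_lit 76) (nat_lit 42041668048) (nat_lit 30) (nat_lit 4) (nat_lit 31) (nat_lit 5) (nat_lit 31) (nat_lit 4) (nat_lit 482) (nat_lit 416) (nat_lit 302))) (XT.nd (nat_lit 78) (nat_lit 76) (nat_lit 0) (XT.lf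 (nat_lit 0) (nat_lit 101942022839) (nat_lit 152) (nat_lit 219592877525) (nat_lit 0) (nat_lit 57965867798) (nat_lit 28) (nat_lit 5) (nat_lit 30) (nat_lit 4) (nat_lit 28) (nat_lit 4) (nat_lit 483) (nat_lit 416) (nat_lit 301)) (XT.lf (nat_lit 0) (nat_lit 75812450229) (nat_lit 76) (nat_lit 185152665947) (nat_lit 76) (nat_lit 141176044017) (nat_lit 27) (nat_lit 4) (nat_lit 28) (nat_lit 5) (nat_lit 28) (nat_lit 4) (nat_lit 484) (nat_lit 416) (nat_lit 300)))) (XT.nd (nat_lit 156) (nat_lit 228) (nat_lit 0) (XT.nd (nat_lit 78) (nat_lit 76) (nat_lit 0) (XT.lf (nat_lit 0) (nat_lit 9806069679) (nat_lit 152) (nat_lit 23874611392) (nat_lit 76) (nat_lit 392713097770) (nat_lit 26) (nat_lit 5) (nat_lit 28) (nat_lit 5) (nat_lit 27) (nat_lit 4) (nat_lit 485) (nat_lit 416) (nat_lit 299)) (XT.lf (nat_lit 0) (nat_lit 174975345451) (nat_lit 152) (nat_lit 144050752338) (nat_lit 0) (nat_lit 133092055435) (nat_lit 25)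 (nat_lit 5) (nat_lit 27) (nat_lit 4) (nat_lit 25) (nat_lit 4) (nat_lit 486) (nat_lit 416) (nat_lit 298))) (XT.nd (nat_lit 78) (nat_lit 152) (nat_lit 0) (XT.lf (nat_lit 0) (nat_lit 193138546936) (nat_lit 76) (nat_lit 164222709485) (nat_lit 76) (nat_lit 122339066487) (nat_lit 24) (nat_lit 4) (nat_lit 25) (nat_lit 5) (nat_lit 25) (nat_lit 4) (nat_lit 487) (nat_lit 416) (nat_lit 297)) (XT.lf (nat_lit 0) (nat_lit 46918564317) (nat_lit 152) (nat_lit 455331169836) (nat_lit 0) (nat_lit 7029069236) (nat_lit 22) (nat_lit 5) (nat_lit 24) (nat_lit 4) (nat_lit 22) (nat_lit 4) (nat_lit 488) (nat_lit 416) (nat_lit 296))))) (XT.nd (nat_lit 312) (nat_lit 304) (nat_lit 0) (XT.nd (nat_lit 156) (nat_lit 152) (nat_lit 0) (XT.nd (nat_lit 78) (nat_lit 76) (nat_lit 0) (XT.lf (nat_lit 0) (nat_lit 233327797682) (nat_lit 152) (nat_lit 113962614470) (nat_lit 0) (nat_lit 193438014386) (nat_lit 22) (nat_lit 5) (nat_lit 24)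 (nat_lit 4) (nat_lit 22) (nat_lit 4) (nat_lit 489) (nat_lit 416) (nat_lit 295)) (XT.lf (nat_lit 0) (nat_lit 263132038145) (nat_lit 76) (nat_lit 175623374702) (nat_lit 76) (nat_lit 135733324541) (nat_lit 21) (nat_lit 4) (nat_lit 22) (nat_lit 5) (nat_lit 22) (nat_lit 4) (nat_lit 490) (nat_lit 416) (nat_lit 294))) (XT.nd (nat_lit 78) (nat_lit 0) (nat_lit 0) (XT.lf (nat_lit 0) (nat_lit 51320789687) (nat_lit 152) (nat_lit 546098126120) (nat_lit 0) (nat_lit 13330030393) (nat_lit 19) (nat_lit 5) (nat_lit 21) (nat_lit 4) (nat_lit 19) (nat_lit 4) (nat_lit 491) (nat_lit 416) (nat_lit 293)) (XT.lf (nat_lit 0) (nat_lit 257118807718) (nat_lit 152) (nat_lit 173125326197) (nat_lit 0) (nat_lit 219127830525) (nat_lit 19) (nat_lit 5) (nat_lit 21) (nat_lit 4) (nat_lit 19) (nat_lit 4) (nat_lit 492) (nat_lit 416) (nat_lit 292)))) (XT.nd (nat_lit 156) (nat_lit 228) (nat_lit 0) (XT.nd (nat_lit 78) (nat_lit 0) (nat_lit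 0) (XT.lf (nat_lit 0) (nat_lit 237274977279) (nat_lit 76) (nat_lit 245807956249) (nat_lit 76) (nat_lit 207816777297) (nat_lit 18) (nat_lit 4) (nat_lit 19) (nat_lit 5) (nat_lit 19) (nat_lit 4) (nat_lit 493) (nat_lit 416) (nat_lit 291)) (XT.lf (nat_lit 0) (nat_lit 686685153039) (nat_lit 76) (nat_lit 43452605595) (nat_lit 76) (nat_lit 5461239829) (nat_lit 18) (nat_lit 4) (nat_lit 19) (nat_lit 5) (nat_lit 19) (nat_lit 4) (nat_lit 494) (nat_lit 416) (nat_lit 290))) (XT.nd (nat_lit 78) (nat_lit 76) (nat_lit 0) (XT.lf (nat_lit 0) (nat_lit 215357797156) (nat_lit 152) (nat_lit 388719959968) (nat_lit 0) (nat_lit 179175379307) (nat_lit 16) (nat_lit 5) (nat_lit 18) (nat_lit 4) (nat_lit 16) (nat_lit 4) (nat_lit 495) (nat_lit 416) (nat_lit 289)) (XT.lf (nat_lit 0) (nat_lit 40994976610) (nat_lit 76) (nat_lit 414895378073) (nat_lit 76) (nat_lit 378712807688) (nat_lit 15) (nat_lit 4) (nat_lit 16) (nat_lit 5)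 (nat_lit 16) (nat_lit 4) (nat_lit 496) (nat_lit 416) (nat_lit 288))))))) (XT.nd (nat_lit 56784) (nat_lit 0) (nat_lit 7068) (XT.nd (nat_lit 624) (nat_lit 76) (nat_lit 0) (XT.nd (nat_lit 312) (nat_lit 152) (nat_lit 0) (XT.nd (nat_lit 156) (nat_lit 76) (nat_lit 0) (XT.nd (nat_lit 78) (nat_lit 152) (nat_lit 0) (XT.lf (nat_lit 0) (nat_lit 518964318999) (nat_lit 76) (nat_lit 203470557513) (nat_lit 76) (nat_lit 167287845891) (nat_lit 15) (nat_lit 4) (nat_lit 16) (nat_lit 5) (nat_lit 16) (nat_lit 4) (nat_lit 497) (nat_lit 416) (nat_lit 287)) (XT.lf (nat_lit 0) (nat_lit 60892005014) (nat_lit 152) (nat_lit 861790282713) (nat_lit 0) (nat_lit 26432155113) (nat_lit 13) (nat_lit 5) (nat_lit 15) (nat_lit 4) (nat_lit 13) (nat_lit 4) (nat_lit 498) (nat_lit 416) (nat_lit 286))) (XT.nd (nat_lit 78) (nat_lit 76) (nat_lit 0) (XT.lf (nat_lit 0) (nat_lit 311537050398) (nat_lit 152) (nat_lit 424002656273) (nat_lit 0)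 (nat_lit 277077085175) (nat_lit 13) (nat_lit 5) (nat_lit 15) (nat_lit 4) (nat_lit 13) (nat_lit 4) (nat_lit 499) (nat_lit 416) (nat_lit 285)) (XT.lf (nat_lit 0) (nat_lit 50418419002) (nat_lit 76) (nat_lit 532600851607) (nat_lit 76) (nat_lit 498140779605) (nat_lit 12) (nat_lit 4) (nat_lit 13) (nat_lit 5) (nat_lit 13) (nat_lit 4) (nat_lit 500) (nat_lit 416) (nat_lit 284)))) (XT.nd (nat_lit 156) (nat_lit 152) (nat_lit 0) (XT.nd (nat_lit 78) (nat_lit 0) (nat_lit 0) (XT.lf (nat_lit 0) (nat_lit 577931054742) (nat_lit 76) (nat_lit 305673334668) (nat_lit 76) (nat_lit 271213163796) (nat_lit 12) (nat_lit 4) (nat_lit 13) (nat_lit 5) (nat_lit 13) (nat_lit 4) (nat_lit 501) (nat_lit 416) (nat_lit 283)) (XT.lf (nat_lit 0) (nat_lit 1147641809083) (nat_lit 76) (nat_lit 60593090344) (nat_lit 76) (nat_lit 26132827926) (nat_lit 12) (nat_lit 4) (nat_lit 13) (nat_lit 5) (nat_lit 13) (nat_lit 4) (nat_lit 502) (nat_lit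 416) (nat_lit 282))) (XT.nd (nat_lit 78) (nat_lit 0) (nat_lit 0) (XT.lf (nat_lit 0) (nat_lit 241360307240) (nat_lit 152) (nat_lit 869672375041) (nat_lit 0) (nat_lit 208540928970) (nat_lit 10) (nat_lit 5) (nat_lit 12) (nat_lit 4) (nat_lit 10) (nat_lit 4) (nat_lit 503) (nat_lit 416) (nat_lit 281)) (XT.lf (nat_lit 0) (nat_lit 531905454626) (nat_lit 152) (nat_lit 380454682860) (nat_lit 0) (nat_lit 499086001608) (nat_lit 10) (nat_lit 5) (nat_lit 12) (nat_lit 4) (nat_lit 10) (nat_lit 4) (nat_lit 504) (nat_lit 416) (nat_lit 280))))) (XT.nd (nat_lit 55848) (nat_lit 0) (nat_lit 11856) (XT.nd (nat_lit 55692) (nat_lit 0) (nat_lit 11780) (XT.nd (nat_lit 55614) (nat_lit 0) (nat_lit 11704) (XT.lf (nat_lit 0) (nat_lit 152788148751) (nat_lit 76) (nat_lit 695290315070) (nat_lit 76) (nat_lit 662470792840) (nat_lit 9) (nat_lit 4) (nat_lit 10) (nat_lit 5) (nat_lit 10) (nat_lit 4) (nat_lit 505) (nat_lit 416) (nat_lit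 279)) (XT.lf (nat_lit 0) (nat_lit 1361773405) (nat_lit 836) (nat_lit 3122718849) (nat_lit 836) (nat_lit 3122718849) (nat_lit 163) (nat_lit 3) (nat_lit 174) (nat_lit 3) (nat_lit 174) (nat_lit 5) (nat_lit 417) (nat_lit 417) (nat_lit 366))) (XT.nd (nat_lit 78) (nat_lit 0) (nat_lit 0) (XT.lf (nat_lit 0) (nat_lit 3417587753) (nat_lit 760) (nat_lit 9770824604) (nat_lit 836) (nat_lit 2605297183) (nat_lit 164) (nat_lit 5) (nat_lit 174) (nat_lit 5) (nat_lit 175) (nat_lit 5) (nat_lit 418) (nat_lit 417) (nat_lit 365)) (XT.lf (nat_lit 76) (nat_lit 2997805076) (nat_lit 0) (nat_lit 1433048917) (nat_lit 836) (nat_lit 11975304224) (nat_lit 165) (nat_lit 5) (nat_lit 164) (nat_lit 5) (nat_lit 175) (nat_lit 5) (nat_lit 419) (nat_lit 417) (nat_lit 364)))) (XT.nd (nat_lit 156) (nat_lit 0) (nat_lit 152) (XT.nd (nat_lit 78) (nat_lit 0) (nat_lit 76) (XT.lf (nat_lit 0) (nat_lit 5832283734) (nat_lit 760) (nat_lit 128995866)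 (nat_lit 836) (nat_lit 11090971287) (nat_lit 165) (nat_lit 5) (nat_lit 175) (nat_lit 5) (nat_lit 176) (nat_lit 5) (nat_lit 420) (nat_lit 417) (nat_lit 363)) (XT.lf (nat_lit 0) (nat_lit 7670176690) (nat_lit 760) (nat_lit 3218937803) (nat_lit 836) (nat_lit 6844702001) (nat_lit 166) (nat_lit 5) (nat_lit 176) (nat_lit 5) (nat_lit 177) (nat_lit 5) (nat_lit 421) (nat_lit 417) (nat_lit 362))) (XT.nd (nat_lit 78) (nat_lit 0) (nat_lit 0) (XT.lf (nat_lit 0) (nat_lit 9945802905) (nat_lit 760) (nat_lit 6365941483) (nat_lit 836) (nat_lit 2143630620) (nat_lit 167) (nat_lit 5) (nat_lit 177) (nat_lit 5) (nat_lit 178) (nat_lit 5) (nat_lit 422) (nat_lit 417) (nat_lit 361)) (XT.lf (nat_lit 76) (nat_lit 9600795197) (nat_lit 0) (nat_lit 3159578886) (nat_lit 836) (nat_lit 6456441921) (nat_lit 168) (nat_lit 5) (nat_lit 167) (nat_lit 5) (nat_lit 178) (nat_lit 5) (nat_lit 423) (nat_lit 417) (nat_lit 360)))))) (XT.nd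 (nat_lit 624) (nat_lit 1976) (nat_lit 0) (XT.nd (nat_lit 312) (nat_lit 1368) (nat_lit 0) (XT.nd (nat_lit 156) (nat_lit 456) (nat_lit 0) (XT.nd (nat_lit 78) (nat_lit 456) (nat_lit 0) (XT.lf (nat_lit 0) (nat_lit 7062359754) (nat_lit 760) (nat_lit 9101719699) (nat_lit 836) (nat_lit 3856896759) (nat_lit 158) (nat_lit 5) (nat_lit 168) (nat_lit 5) (nat_lit 169) (nat_lit 5) (nat_lit 424) (nat_lit 417) (nat_lit 359)) (XT.lf (nat_lit 0) (nat_lit 4518405280) (nat_lit 456) (nat_lit 15665454290) (nat_lit 532) (nat_lit 688422931) (nat_lit 152) (nat_lit 5) (nat_lit 158) (nat_lit 5) (nat_lit 159) (nat_lit 5) (nat_lit 425) (nat_lit 417) (nat_lit 358))) (XT.nd (nat_lit 78) (nat_lit 0) (nat_lit 0) (XT.lf (nat_lit 0) (nat_lit 1909185158) (nat_lit 380) (nat_lit 1121380772) (nat_lit 456) (nat_lit 18739769030) (nat_lit 146) (nat_lit 5) (nat_lit 151) (nat_lit 5) (nat_lit 152) (nat_lit 5) (nat_lit 426) (nat_lit 417)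 (nat_lit 357)) (XT.lf (nat_lit 0) (nat_lit 7514034984) (nat_lit 456) (nat_lit 780820525) (nat_lit 76) (nat_lit 14420259603) (nat_lit 146) (nat_lit 5) (nat_lit 152) (nat_lit 5) (nat_lit 147) (nat_lit 5) (nat_lit 427) (nat_lit 417) (nat_lit 356)))) (XT.nd (nat_lit 156) (nat_lit 684) (nat_lit 0) (XT.nd (nat_lit 78) (nat_lit 304) (nat_lit 0) (XT.lf (nat_lit 0) (nat_lit 12790825319) (nat_lit 456) (nat_lit 3405998990) (nat_lit 76) (nat_lit 7516922829) (nat_lit 141) (nat_lit 5) (nat_lit 147) (nat_lit 5) (nat_lit 142) (nat_lit 5) (nat_lit 428) (nat_lit 417) (nat_lit 355)) (XT.lf (nat_lit 0) (nat_lit 18753821524) (nat_lit 304) (nat_lit 159276477) (nat_lit 380) (nat_lit 5858006296) (nat_lit 137) (nat_lit 5) (nat_lit 141) (nat_lit 5) (nat_lit 142) (nat_lit 5) (nat_lit 429) (nat_lit 417) (nat_lit 354))) (XT.nd (nat_lit 78) (nat_lit 304) (nat_lit 0) (XT.lf (nat_lit 0) (nat_lit 208086538) (nat_lit 380) (nat_lit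 8735600222) (nat_lit 76) (nat_lit 16940488977) (nat_lit 132) (nat_lit 5) (nat_lit 137) (nat_lit 5) (nat_lit 133) (nat_lit 5) (nat_lit 430) (nat_lit 417) (nat_lit 353)) (XT.lf (nat_lit 0) (nat_lit 7027091182) (nat_lit 380) (nat_lit 11527336979) (nat_lit 76) (nat_lit 8503421315) (nat_lit 128) (nat_lit 5) (nat_lit 133) (nat_lit 5) (nat_lit 129) (nat_lit 5) (nat_lit 431) (nat_lit 417) (nat_lit 352))))) (XT.nd (nat_lit 312) (nat_lit 836) (nat_lit 0) (XT.nd (nat_lit 156) (nat_lit 608) (nat_lit 0) (XT.nd (nat_lit 78) (nat_lit 228) (nat_lit 0) (XT.lf (nat_lit 0) (nat_lit 14001570355) (nat_lit 304) (nat_lit 894241283) (nat_lit 380) (nat_lit 13404396858) (nat_lit 124) (nat_lit 5) (nat_lit 128) (nat_lit 5) (nat_lit 129) (nat_lit 5) (nat_lit 432) (nat_lit 417) (nat_lit 351)) (XT.lf (nat_lit 0) (nat_lit 12438433746) (nat_lit 228) (nat_lit 11618838012) (nat_lit 304) (nat_lit 5551523448) (nat_lit 121) (nat_lit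 5) (nat_lit 124) (nat_lit 5) (nat_lit 125) (nat_lit 5) (nat_lit 433) (nat_lit 417) (nat_lit 350))) (XT.nd (nat_lit 78) (nat_lit 228) (nat_lit 0) (XT.lf (nat_lit 0) (nat_lit 3381029124) (nat_lit 380) (nat_lit 20040125739) (nat_lit 76) (nat_lit 7571367278) (nat_lit 116) (nat_lit 5) (nat_lit 121) (nat_lit 5) (nat_lit 117) (nat_lit 5) (nat_lit 434) (nat_lit 417) (nat_lit 349)) (XT.lf (nat_lit 0) (nat_lit 9449884342) (nat_lit 228) (nat_lit 4016595645) (nat_lit 304) (nat_lit 18984278067) (nat_lit 113) (nat_lit 5) (nat_lit 116) (nat_lit 5) (nat_lit 117) (nat_lit 5) (nat_lit 435) (nat_lit 417) (nat_lit 348)))) (XT.nd (nat_lit 156) (nat_lit 380) (nat_lit 0) (XT.nd (nat_lit 78) (nat_lit 228) (nat_lit 0) (XT.lf (nat_lit 0) (nat_lit 7967390170) (nat_lit 228) (nat_lit 17118611941) (nat_lit 304) (nat_lit 8903289778) (nat_lit 110) (nat_lit 5) (nat_lit 113) (nat_lit 5) (nat_lit 114) (nat_lit 5) (nat_lit 436)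 (nat_lit 417) (nat_lit 347)) (XT.lf (nat_lit 0) (nat_lit 2549861718) (nat_lit 228) (nat_lit 28997837528) (nat_lit 76) (nat_lit 4070201456) (nat_lit 107) (nat_lit 5) (nat_lit 110) (nat_lit 5) (nat_lit 108) (nat_lit 5) (nat_lit 437) (nat_lit 417) (nat_lit 346))) (XT.nd (nat_lit 78) (nat_lit 152) (nat_lit 0) (XT.lf (nat_lit 0) (nat_lit 5143879246) (nat_lit 228) (nat_lit 10282166660) (nat_lit 304) (nat_lit 21902519774) (nat_lit 104) (nat_lit 5) (nat_lit 107) (nat_lit 5) (nat_lit 108) (nat_lit 5) (nat_lit 438) (nat_lit 417) (nat_lit 345)) (XT.lf (nat_lit 0) (nat_lit 3794088466) (nat_lit 152) (nat_lit 26294438189) (nat_lit 228) (nat_lit 9049747719) (nat_lit 102) (nat_lit 5) (nat_lit 104) (nat_lit 5) (nat_lit 105) (nat_lit 5) (nat_lit 439) (nat_lit 417) (nat_lit 344))))))))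
noncomputable def xc72 : XT := (XT.nd (nat_lit 2418) (nat_lit 2584) (nat_lit 0) (XT.nd (nat_lit 1170) (nat_lit 1900) (nat_lit 0) (XT.nd (nat_lit 546) (nat_lit 1140) (nat_lit 0) (XT.nd (nat_lit 234) (nat_lit 760) (nat_lit 0) (XT.nd (nat_lit 78) (nat_lit 152) (nat_lit 0) (XT.lf (nat_lit 0) (nat_lit 2536829272) (nat_lit 228) (nat_lit 2908624774) (nat_lit 304) (nat_lit 35605092895) (nat_lit 98) (nat_lit 5) (nat_lit 101) (nat_lit 5) (nat_lit 102) (nat_lit 5) (nat_lit 440) (nat_lit 417) (nat_lit 343)) (XT.nd (nat_lit 78) (nat_lit 0) (nat_lit 0) (XT.lf (nat_lit 0) (nat_lit 1128253599) (nat_lit 152) (nat_lit 20638104236) (nat_lit 228) (nat_lit 21292868900) (nat_lit 96) (nat_lit 5) (nat_lit 98) (nat_lit 5) (nat_lit 99) (nat_lit 5) (nat_lit 441) (nat_lit 417) (nat_lit 342)) (XT.lf (nat_lit 0) (nat_lit 40179694557) (nat_lit 228) (nat_lit 28145867) (nat_lit 76) (nat_lit 4981422921) (nat_lit 96) (nat_lit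 5) (nat_lit 99) (nat_lit 5) (nat_lit 97) (nat_lit 5) (nat_lit 442) (nat_lit 417) (nat_lit 341)))) (XT.nd (nat_lit 156) (nat_lit 380) (nat_lit 0) (XT.nd (nat_lit 78) (nat_lit 152) (nat_lit 0) (XT.lf (nat_lit 0) (nat_lit 13250878552) (nat_lit 228) (nat_lit 1307970162) (nat_lit 76) (nat_lit 32867186618) (nat_lit 93) (nat_lit 5) (nat_lit 96) (nat_lit 5) (nat_lit 94) (nat_lit 5) (nat_lit 443) (nat_lit 417) (nat_lit 340)) (XT.lf (nat_lit 0) (nat_lit 33748745524) (nat_lit 228) (nat_lit 2486677087) (nat_lit 76) (nat_lit 13554615903) (nat_lit 91) (nat_lit 5) (nat_lit 94) (nat_lit 5) (nat_lit 92) (nat_lit 5) (nat_lit 444) (nat_lit 417) (nat_lit 339))) (XT.nd (nat_lit 78) (nat_lit 152) (nat_lit 0) (XT.lf (nat_lit 0) (nat_lit 4466180726) (nat_lit 228) (nat_lit 3558514415) (nat_lit 76) (nat_lit 44263885720) (nat_lit 88) (nat_lit 5) (nat_lit 91) (nat_lit 5) (nat_lit 89) (nat_lit 5) (nat_lit 445) (nat_lit 417)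 (nat_lit 338)) (XT.lf (nat_lit 0) (nat_lit 27249494708) (nat_lit 228) (nat_lit 4826710151) (nat_lit 76) (nat_lit 22837790889) (nat_lit 86) (nat_lit 5) (nat_lit 89) (nat_lit 5) (nat_lit 87) (nat_lit 5) (nat_lit 446) (nat_lit 417) (nat_lit 337))))) (XT.nd (nat_lit 312) (nat_lit 532) (nat_lit 0) (XT.nd (nat_lit 156) (nat_lit 304) (nat_lit 0) (XT.nd (nat_lit 78) (nat_lit 152) (nat_lit 0) (XT.lf (nat_lit 0) (nat_lit 51912745389) (nat_lit 152) (nat_lit 941266489) (nat_lit 228) (nat_lit 4845505327) (nat_lit 84) (nat_lit 5) (nat_lit 86) (nat_lit 5) (nat_lit 87) (nat_lit 5) (nat_lit 447) (nat_lit 417) (nat_lit 336)) (XT.lf (nat_lit 0) (nat_lit 20615377268) (nat_lit 152) (nat_lit 7114538563) (nat_lit 76) (nat_lit 32890005939) (nat_lit 82) (nat_lit 5) (nat_lit 84) (nat_lit 5) (nat_lit 83) (nat_lit 5) (nat_lit 448) (nat_lit 417) (nat_lit 335))) (XT.nd (nat_lit 78) (nat_lit 152) (nat_lit 0) (XT.lf (nat_lit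 0) (nat_lit 49028045623) (nat_lit 228) (nat_lit 8182668092) (nat_lit 76) (nat_lit 6505039589) (nat_lit 80) (nat_lit 5) (nat_lit 83) (nat_lit 5) (nat_lit 81) (nat_lit 4) (nat_lit 449) (nat_lit 417) (nat_lit 334)) (XT.lf (nat_lit 0) (nat_lit 13759841187) (nat_lit 152) (nat_lit 9451114111) (nat_lit 76) (nat_lit 43762898309) (nat_lit 78) (nat_lit 5) (nat_lit 80) (nat_lit 5) (nat_lit 79) (nat_lit 5) (nat_lit 450) (nat_lit 417) (nat_lit 333)))) (XT.nd (nat_lit 156) (nat_lit 228) (nat_lit 0) (XT.nd (nat_lit 78) (nat_lit 152) (nat_lit 0) (XT.lf (nat_lit 0) (nat_lit 45279870838) (nat_lit 228) (nat_lit 10715585322) (nat_lit 76) (nat_lit 14419543729) (nat_lit 76) (nat_lit 5) (nat_lit 79) (nat_lit 5) (nat_lit 77) (nat_lit 4) (nat_lit 451) (nat_lit 417) (nat_lit 332)) (XT.lf (nat_lit 0) (nat_lit 6569698365) (nat_lit 152) (nat_lit 11985001599) (nat_lit 76) (nat_lit 55495399112) (nat_lit 74) (nat_lit 5) (nat_lit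 76) (nat_lit 5) (nat_lit 75) (nat_lit 5) (nat_lit 452) (nat_lit 417) (nat_lit 331))) (XT.nd (nat_lit 78) (nat_lit 76) (nat_lit 0) (XT.lf (nat_lit 0) (nat_lit 41501909928) (nat_lit 228) (nat_lit 13550276938) (nat_lit 76) (nat_lit 22824636399) (nat_lit 72) (nat_lit 5) (nat_lit 75) (nat_lit 5) (nat_lit 73) (nat_lit 4) (nat_lit 453) (nat_lit 417) (nat_lit 330)) (XT.lf (nat_lit 0) (nat_lit 66984299687) (nat_lit 76) (nat_lit 13807181092) (nat_lit 152) (nat_lit 1140065636) (nat_lit 71) (nat_lit 5) (nat_lit 72) (nat_lit 5) (nat_lit 73) (nat_lit 4) (nat_lit 454) (nat_lit 417) (nat_lit 329)))))) (XT.nd (nat_lit 624) (nat_lit 912) (nat_lit 0) (XT.nd (nat_lit 312) (nat_lit 456) (nat_lit 0) (XT.nd (nat_lit 156) (nat_lit 228) (nat_lit 0) (XT.nd (nat_lit 78) (nat_lit 76) (nat_lit 0) (XT.lf (nat_lit 0) (nat_lit 37564747063) (nat_lit 228) (nat_lit 16941420549) (nat_lit 76) (nat_lit 31684031620) (nat_lit 68) (nat_lit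 5) (nat_lit 71) (nat_lit 5) (nat_lit 69) (nat_lit 4) (nat_lit 455) (nat_lit 417) (nat_lit 328)) (XT.lf (nat_lit 0) (nat_lit 71970607367) (nat_lit 76) (nat_lit 8969462696) (nat_lit 152) (nat_lit 9767836468) (nat_lit 67) (nat_lit 5) (nat_lit 68) (nat_lit 5) (nat_lit 69) (nat_lit 4) (nat_lit 456) (nat_lit 417) (nat_lit 327))) (XT.nd (nat_lit 78) (nat_lit 76) (nat_lit 0) (XT.lf (nat_lit 0) (nat_lit 33289916623) (nat_lit 152) (nat_lit 21244598080) (nat_lit 76) (nat_lit 40921276578) (nat_lit 65) (nat_lit 5) (nat_lit 67) (nat_lit 5) (nat_lit 66) (nat_lit 4) (nat_lit 457) (nat_lit 417) (nat_lit 326)) (XT.lf (nat_lit 0) (nat_lit 76821363498) (nat_lit 76) (nat_lit 4308548687) (nat_lit 152) (nat_lit 19361596317) (nat_lit 64) (nat_lit 5) (nat_lit 65) (nat_lit 5) (nat_lit 66) (nat_lit 4) (nat_lit 458) (nat_lit 417) (nat_lit 325)))) (XT.nd (nat_lit 156) (nat_lit 228) (nat_lit 0) (XT.nd (nat_lit 78) (nat_lit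 76) (nat_lit 0) (XT.lf (nat_lit 0) (nat_lit 28433524257) (nat_lit 152) (nat_lit 26949884024) (nat_lit 76) (nat_lit 50404380800) (nat_lit 62) (nat_lit 5) (nat_lit 64) (nat_lit 5) (nat_lit 63) (nat_lit 4) (nat_lit 459) (nat_lit 417) (nat_lit 324)) (XT.lf (nat_lit 0) (nat_lit 81081031321) (nat_lit 76) (nat_lit 52901896) (nat_lit 152) (nat_lit 30269968069) (nat_lit 61) (nat_lit 5) (nat_lit 62) (nat_lit 5) (nat_lit 63) (nat_lit 4) (nat_lit 460) (nat_lit 417) (nat_lit 323))) (XT.nd (nat_lit 78) (nat_lit 76) (nat_lit 0) (XT.lf (nat_lit 0) (nat_lit 22664863269) (nat_lit 152) (nat_lit 34725687564) (nat_lit 76) (nat_lit 59925559608) (nat_lit 59) (nat_lit 5) (nat_lit 61) (nat_lit 5) (nat_lit 60) (nat_lit 4) (nat_lit 461) (nat_lit 417) (nat_lit 322)) (XT.lf (nat_lit 0) (nat_lit 80686927725) (nat_lit 152) (nat_lit 39533340577) (nat_lit 0) (nat_lit 3360568698) (nat_lit 58) (nat_lit 5) (nat_lit 60) (nat_lit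 4) (nat_lit 58) (nat_lit 4) (nat_lit 462) (nat_lit 417) (nat_lit 321))))) (XT.nd (nat_lit 312) (nat_lit 456) (nat_lit 0) (XT.nd (nat_lit 156) (nat_lit 228) (nat_lit 0) (XT.nd (nat_lit 78) (nat_lit 76) (nat_lit 0) (XT.lf (nat_lit 0) (nat_lit 15538553342) (nat_lit 152) (nat_lit 45475869394) (nat_lit 76) (nat_lit 69174630178) (nat_lit 56) (nat_lit 5) (nat_lit 58) (nat_lit 5) (nat_lit 57) (nat_lit 4) (nat_lit 463) (nat_lit 417) (nat_lit 320)) (XT.lf (nat_lit 0) (nat_lit 79274635563) (nat_lit 152) (nat_lit 52285558509) (nat_lit 0) (nat_lit 5623982329) (nat_lit 55) (nat_lit 5) (nat_lit 57) (nat_lit 4) (nat_lit 55) (nat_lit 4) (nat_lit 464) (nat_lit 417) (nat_lit 319))) (XT.nd (nat_lit 78) (nat_lit 76) (nat_lit 0) (XT.lf (nat_lit 0) (nat_lit 6458301788) (nat_lit 152) (nat_lit 60414028877) (nat_lit 76) (nat_lit 77704173323) (nat_lit 53) (nat_lit 5) (nat_lit 55) (nat_lit 5) (nat_lit 54) (nat_lit 4) (nat_lit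 465) (nat_lit 417) (nat_lit 318)) (XT.lf (nat_lit 0) (nat_lit 76281214405) (nat_lit 152) (nat_lit 69982384698) (nat_lit 0) (nat_lit 6132426346) (nat_lit 52) (nat_lit 5) (nat_lit 54) (nat_lit 4) (nat_lit 52) (nat_lit 4) (nat_lit 466) (nat_lit 417) (nat_lit 317)))) (XT.nd (nat_lit 156) (nat_lit 228) (nat_lit 0) (XT.nd (nat_lit 78) (nat_lit 152) (nat_lit 0) (XT.lf (nat_lit 0) (nat_lit 79422917900) (nat_lit 76) (nat_lit 75698875207) (nat_lit 76) (nat_lit 5547723906) (nat_lit 51) (nat_lit 4) (nat_lit 52) (nat_lit 5) (nat_lit 52) (nat_lit 4) (nat_lit 467) (nat_lit 417) (nat_lit 316)) (XT.lf (nat_lit 0) (nat_lit 70873304900) (nat_lit 152) (nat_lit 94492304319) (nat_lit 0) (nat_lit 4060600624) (nat_lit 49) (nat_lit 5) (nat_lit 51) (nat_lit 4) (nat_lit 49) (nat_lit 4) (nat_lit 468) (nat_lit 417) (nat_lit 315))) (XT.nd (nat_lit 78) (nat_lit 152) (nat_lit 0) (XT.lf (nat_lit 0) (nat_lit 68486182439) (nat_lit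 76) (nat_lit 88509129605) (nat_lit 76) (nat_lit 21694495711) (nat_lit 48) (nat_lit 4) (nat_lit 49) (nat_lit 5) (nat_lit 49) (nat_lit 4) (nat_lit 469) (nat_lit 417) (nat_lit 314)) (XT.lf (nat_lit 0) (nat_lit 60197675068) (nat_lit 76) (nat_lit 1760420369) (nat_lit 152) (nat_lit 126558140285) (nat_lit 46) (nat_lit 5) (nat_lit 47) (nat_lit 5) (nat_lit 48) (nat_lit 4) (nat_lit 470) (nat_lit 417) (nat_lit 313))))))) (XT.nd (nat_lit 1248) (nat_lit 1064) (nat_lit 0) (XT.nd (nat_lit 624) (nat_lit 760) (nat_lit 0) (XT.nd (nat_lit 312) (nat_lit 380) (nat_lit 0) (XT.nd (nat_lit 156) (nat_lit 152) (nat_lit 0) (XT.nd (nat_lit 78) (nat_lit 152) (nat_lit 0) (XT.lf (nat_lit 0) (nat_lit 48855195456) (nat_lit 76) (nat_lit 106842167509) (nat_lit 76) (nat_lit 43205905685) (nat_lit 45) (nat_lit 4) (nat_lit 46) (nat_lit 5) (nat_lit 46) (nat_lit 4) (nat_lit 471) (nat_lit 417) (nat_lit 312)) (XT.lf (nat_lit 0) (nat_lit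 35092200478) (nat_lit 76) (nat_lit 13068736669) (nat_lit 152) (nat_lit 161781542503) (nat_lit 43) (nat_lit 5) (nat_lit 44) (nat_lit 5) (nat_lit 45) (nat_lit 4) (nat_lit 472) (nat_lit 417) (nat_lit 311))) (XT.nd (nat_lit 78) (nat_lit 76) (nat_lit 0) (XT.lf (nat_lit 0) (nat_lit 17056044411) (nat_lit 76) (nat_lit 132583110185) (nat_lit 76) (nat_lit 71974470696) (nat_lit 42) (nat_lit 4) (nat_lit 43) (nat_lit 5) (nat_lit 43) (nat_lit 4) (nat_lit 473) (nat_lit 417) (nat_lit 310)) (XT.lf (nat_lit 0) (nat_lit 27528144135) (nat_lit 152) (nat_lit 4177135182) (nat_lit 76) (nat_lit 202328069740) (nat_lit 41) (nat_lit 5) (nat_lit 43) (nat_lit 5) (nat_lit 42) (nat_lit 4) (nat_lit 474) (nat_lit 417) (nat_lit 309)))) (XT.nd (nat_lit 156) (nat_lit 228) (nat_lit 0) (XT.nd (nat_lit 78) (nat_lit 76) (nat_lit 0) (XT.lf (nat_lit 0) (nat_lit 137184001009) (nat_lit 152) (nat_lit 30508618532) (nat_lit 0) (nat_lit 79459302346)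 (nat_lit 40) (nat_lit 5) (nat_lit 42) (nat_lit 4) (nat_lit 40) (nat_lit 4) (nat_lit 475) (nat_lit 417) (nat_lit 308)) (XT.lf (nat_lit 0) (nat_lit 199813757038) (nat_lit 76) (nat_lit 59522840615) (nat_lit 76) (nat_lit 1797169345) (nat_lit 39) (nat_lit 4) (nat_lit 40) (nat_lit 5) (nat_lit 40) (nat_lit 4) (nat_lit 476) (nat_lit 417) (nat_lit 307))) (XT.nd (nat_lit 78) (nat_lit 76) (nat_lit 0) (XT.lf (nat_lit 0) (nat_lit 115628458303) (nat_lit 152) (nat_lit 99650995402) (nat_lit 0) (nat_lit 60650770844) (nat_lit 37) (nat_lit 5) (nat_lit 39) (nat_lit 4) (nat_lit 37) (nat_lit 4) (nat_lit 477) (nat_lit 417) (nat_lit 306)) (XT.lf (nat_lit 0) (nat_lit 146860612298) (nat_lit 76) (nat_lit 99903913621) (nat_lit 76) (nat_lit 44925432016) (nat_lit 36) (nat_lit 4) (nat_lit 37) (nat_lit 5) (nat_lit 37) (nat_lit 4) (nat_lit 478) (nat_lit 417) (nat_lit 305))))) (XT.nd (nat_lit 312) (nat_lit 380) (nat_lit 0) (XT.nd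 (nat_lit 156) (nat_lit 152) (nat_lit 0) (XT.nd (nat_lit 78) (nat_lit 76) (nat_lit 0) (XT.lf (nat_lit 0) (nat_lit 81076306315) (nat_lit 152) (nat_lit 198659534794) (nat_lit 0) (nat_lit 28715147338) (nat_lit 34) (nat_lit 5) (nat_lit 36) (nat_lit 4) (nat_lit 34) (nat_lit 4) (nat_lit 479) (nat_lit 417) (nat_lit 304)) (XT.lf (nat_lit 0) (nat_lit 63054565783) (nat_lit 76) (nat_lit 157780390923) (nat_lit 76) (nat_lit 105418583516) (nat_lit 33) (nat_lit 4) (nat_lit 34) (nat_lit 5) (nat_lit 34) (nat_lit 4) (nat_lit 480) (nat_lit 417) (nat_lit 303))) (XT.nd (nat_lit 78) (nat_lit 0) (nat_lit 0) (XT.lf (nat_lit 0) (nat_lit 7250500802) (nat_lit 76) (nat_lit 21828966811) (nat_lit 152) (nat_lit 316198950535) (nat_lit 31) (nat_lit 5) (nat_lit 32) (nat_lit 5) (nat_lit 33) (nat_lit 4) (nat_lit 481) (nat_lit 417) (nat_lit 302)) (XT.lf (nat_lit 0) (nat_lit 177301563163) (nat_lit 152) (nat_lit 60672362887) (nat_lit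 0) (nat_lit 127432073894) (nat_lit 31) (nat_lit 5) (nat_lit 33) (nat_lit 4) (nat_lit 31) (nat_lit 4) (nat_lit 482) (nat_lit 417) (nat_lit 301)))) (XT.nd (nat_lit 156) (nat_lit 152) (nat_lit 0) (XT.nd (nat_lit 78) (nat_lit 152) (nat_lit 0) (XT.lf (nat_lit 0) (nat_lit 246383145022) (nat_lit 76) (nat_lit 95210017970) (nat_lit 76) (nat_lit 45340038468) (nat_lit 30) (nat_lit 4) (nat_lit 31) (nat_lit 5) (nat_lit 31) (nat_lit 4) (nat_lit 483) (nat_lit 417) (nat_lit 300)) (XT.lf (nat_lit 0) (nat_lit 110158474531) (nat_lit 152) (nat_lit 237036476799) (nat_lit 0) (nat_lit 62662823652) (nat_lit 28) (nat_lit 5) (nat_lit 30) (nat_lit 4) (nat_lit 28) (nat_lit 4) (nat_lit 484) (nat_lit 417) (nat_lit 299))) (XT.nd (nat_lit 78) (nat_lit 76) (nat_lit 0) (XT.lf (nat_lit 0) (nat_lit 81995895635) (nat_lit 76) (nat_lit 199904843851) (nat_lit 76) (nat_lit 152408792691) (nat_lit 27) (nat_lit 4) (nat_lit 28) (nat_lit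 5) (nat_lit 28) (nat_lit 4) (nat_lit 485) (nat_lit 417) (nat_lit 298)) (XT.lf (nat_lit 0) (nat_lit 10645529095) (nat_lit 152) (nat_lit 25673087146) (nat_lit 76) (nat_lit 424183916100) (nat_lit 26) (nat_lit 5) (nat_lit 28) (nat_lit 5) (nat_lit 27) (nat_lit 4) (nat_lit 486) (nat_lit 417) (nat_lit 297)))))) (XT.nd (nat_lit 624) (nat_lit 456) (nat_lit 0) (XT.nd (nat_lit 312) (nat_lit 304) (nat_lit 0) (XT.nd (nat_lit 156) (nat_lit 152) (nat_lit 0) (XT.nd (nat_lit 78) (nat_lit 76) (nat_lit 0) (XT.lf (nat_lit 0) (nat_lit 189026784220) (nat_lit 152) (nat_lit 155466380635) (nat_lit 0) (nat_lit 143791769963) (nat_lit 25) (nat_lit 5) (nat_lit 27) (nat_lit 4) (nat_lit 25) (nat_lit 4) (nat_lit 487) (nat_lit 417) (nat_lit 296)) (XT.lf (nat_lit 0) (nat_lit 208693350262) (nat_lit 76) (nat_lit 177307880779) (nat_lit 76) (nat_lit 132072563896) (nat_lit 24) (nat_lit 4) (nat_lit 25) (nat_lit 5) (nat_lit 25) (nat_lit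 4) (nat_lit 488) (nat_lit 417) (nat_lit 295))) (XT.nd (nat_lit 78) (nat_lit 0) (nat_lit 0) (XT.lf (nat_lit 0) (nat_lit 50722489843) (nat_lit 152) (nat_lit 491655126908) (nat_lit 0) (nat_lit 7640968803) (nat_lit 22) (nat_lit 5) (nat_lit 24) (nat_lit 4) (nat_lit 22) (nat_lit 4) (nat_lit 489) (nat_lit 417) (nat_lit 294)) (XT.lf (nat_lit 0) (nat_lit 252040725552) (nat_lit 152) (nat_lit 122984682411) (nat_lit 0) (nat_lit 208958957415) (nat_lit 22) (nat_lit 5) (nat_lit 24) (nat_lit 4) (nat_lit 22) (nat_lit 4) (nat_lit 490) (nat_lit 417) (nat_lit 293)))) (XT.nd (nat_lit 156) (nat_lit 76) (nat_lit 0) (XT.nd (nat_lit 78) (nat_lit 152) (nat_lit 0) (XT.lf (nat_lit 0) (nat_lit 284273416384) (nat_lit 76) (nat_lit 189627091866) (nat_lit 76) (nat_lit 146545094934) (nat_lit 21) (nat_lit 4) (nat_lit 22) (nat_lit 5) (nat_lit 22) (nat_lit 4) (nat_lit 491) (nat_lit 417) (nat_lit 292)) (XT.lf (nat_lit 0) (nat_lit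 55470564507) (nat_lit 152) (nat_lit 589696202261) (nat_lit 0) (nat_lit 14439889480) (nat_lit 19) (nat_lit 5) (nat_lit 21) (nat_lit 4) (nat_lit 19) (nat_lit 4) (nat_lit 492) (nat_lit 417) (nat_lit 291))) (XT.nd (nat_lit 78) (nat_lit 76) (nat_lit 0) (XT.lf (nat_lit 0) (nat_lit 277729156451) (nat_lit 152) (nat_lit 186892228267) (nat_lit 0) (nat_lit 236698294611) (nat_lit 19) (nat_lit 5) (nat_lit 21) (nat_lit 4) (nat_lit 19) (nat_lit 4) (nat_lit 493) (nat_lit 417) (nat_lit 290)) (XT.lf (nat_lit 0) (nat_lit 256336487019) (nat_lit 76) (nat_lit 265432141216) (nat_lit 76) (nat_lit 224401106400) (nat_lit 18) (nat_lit 4) (nat_lit 19) (nat_lit 5) (nat_lit 19) (nat_lit 4) (nat_lit 494) (nat_lit 417) (nat_lit 289))))) (XT.nd (nat_lit 312) (nat_lit 228) (nat_lit 0) (XT.nd (nat_lit 156) (nat_lit 76) (nat_lit 0) (XT.nd (nat_lit 78) (nat_lit 152) (nat_lit 0) (XT.lf (nat_lit 0) (nat_lit 741693587095) (nat_lit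 76) (nat_lit 46891358919) (nat_lit 76) (nat_lit 5860163940) (nat_lit 18) (nat_lit 4) (nat_lit 19) (nat_lit 5) (nat_lit 19) (nat_lit 4) (nat_lit 495) (nat_lit 417) (nat_lit 288)) (XT.lf (nat_lit 0) (nat_lit 232622144054) (nat_lit 152) (nat_lit 419744782823) (nat_lit 0) (nat_lit 193544674266) (nat_lit 16) (nat_lit 5) (nat_lit 18) (nat_lit 4) (nat_lit 16) (nat_lit 4) (nat_lit 496) (nat_lit 417) (nat_lit 287))) (XT.nd (nat_lit 78) (nat_lit 0) (nat_lit 0) (XT.lf (nat_lit 0) (nat_lit 44344186014) (nat_lit 76) (nat_lit 448051560838) (nat_lit 76) (nat_lit 408973960276) (nat_lit 15) (nat_lit 4) (nat_lit 16) (nat_lit 5) (nat_lit 16) (nat_lit 4) (nat_lit 497) (nat_lit 417) (nat_lit 286)) (XT.lf (nat_lit 0) (nat_lit 560545919404) (nat_lit 76) (nat_lit 219715380373) (nat_lit 76) (nat_lit 180637658722) (nat_lit 15) (nat_lit 4) (nat_lit 16) (nat_lit 5) (nat_lit 16) (nat_lit 4) (nat_lit 498) (nat_lit 417) (nat_lit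 285)))) (XT.nd (nat_lit 156) (nat_lit 76) (nat_lit 0) (XT.nd (nat_lit 78) (nat_lit 0) (nat_lit 0) (XT.lf (nat_lit 0) (nat_lit 65794612419) (nat_lit 152) (nat_lit 930669795585) (nat_lit 0) (nat_lit 28577627877) (nat_lit 13) (nat_lit 5) (nat_lit 15) (nat_lit 4) (nat_lit 13) (nat_lit 4) (nat_lit 499) (nat_lit 417) (nat_lit 284)) (XT.lf (nat_lit 0) (nat_lit 336488946841) (nat_lit 152) (nat_lit 457863878270) (nat_lit 0) (nat_lit 299271863429) (nat_lit 13) (nat_lit 5) (nat_lit 15) (nat_lit 4) (nat_lit 13) (nat_lit 4) (nat_lit 500) (nat_lit 417) (nat_lit 283))) (XT.nd (nat_lit 78) (nat_lit 0) (nat_lit 0) (XT.lf (nat_lit 0) (nat_lit 54508319371) (nat_lit 76) (nat_lit 575180163138) (nat_lit 76) (nat_lit 537962988180) (nat_lit 12) (nat_lit 4) (nat_lit 13) (nat_lit 5) (nat_lit 13) (nat_lit 4) (nat_lit 501) (nat_lit 417) (nat_lit 282)) (XT.lf (nat_lit 0) (nat_lit 624217786204) (nat_lit 76) (nat_lit 330100574961)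 (nat_lit 76) (nat_lit 292883315239) (nat_lit 12) (nat_lit 4) (nat_lit 13) (nat_lit 5) (nat_lit 13) (nat_lit 4) (nat_lit 502) (nat_lit 417) (nat_lit 281))))))))
noncomputable def xc73 : XT := (XT.nd (nat_lit 58110) (nat_lit 0) (nat_lit 2052) (XT.nd (nat_lit 56862) (nat_lit 0) (nat_lit 5928) (XT.nd (nat_lit 56238) (nat_lit 0) (nat_lit 9652) (XT.nd (nat_lit 55926) (nat_lit 0) (nat_lit 11704) (XT.nd (nat_lit 156) (nat_lit 0) (nat_lit 0) (XT.nd (nat_lit 78) (nat_lit 152) (nat_lit 0) (XT.lf (nat_lit 0) (nat_lit 1239501530737) (nat_lit 76) (nat_lit 65415883423) (nat_lit 76) (nat_lit 28198545215) (nat_lit 12) (nat_lit 4) (nat_lit 13) (nat_lit 5) (nat_lit 13) (nat_lit 4) (nat_lit 503) (nat_lit 417) (nat_lit 280)) (XT.lf (nat_lit 0) (nat_lit 260692566201) (nat_lit 152) (nat_lit 939198349227) (nat_lit 0) (nat_lit 225247412982) (nat_lit 10) (nat_lit 5) (nat_lit 12) (nat_lit 4) (nat_lit 10) (nat_lit 4) (nat_lit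 504) (nat_lit 417) (nat_lit 279))) (XT.nd (nat_lit 55692) (nat_lit 0) (nat_lit 11628) (XT.lf (nat_lit 0) (nat_lit 574479589498) (nat_lit 152) (nat_lit 410846783583) (nat_lit 0) (nat_lit 539034372194) (nat_lit 10) (nat_lit 5) (nat_lit 12) (nat_lit 4) (nat_lit 10) (nat_lit 4) (nat_lit 505) (nat_lit 417) (nat_lit 278)) (XT.lf (nat_lit 0) (nat_lit 1908287492) (nat_lit 836) (nat_lit 3142794059) (nat_lit 836) (nat_lit 3142794059) (nat_lit 163) (nat_lit 3) (nat_lit 174) (nat_lit 3) (nat_lit 174) (nat_lit 5) (nat_lit 418) (nat_lit 418) (nat_lit 364)))) (XT.nd (nat_lit 156) (nat_lit 0) (nat_lit 76) (XT.nd (nat_lit 78) (nat_lit 0) (nat_lit 0) (XT.lf (nat_lit 0) (nat_lit 4502279354) (nat_lit 760) (nat_lit 10066156617) (nat_lit 836) (nat_lit 2448143563) (nat_lit 164) (nat_lit 5) (nat_lit 174) (nat_lit 5) (nat_lit 175) (nat_lit 5) (nat_lit 419) (nat_lit 418) (nat_lit 363)) (XT.lf (nat_lit 76) (nat_lit 3702827957)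 (nat_lit 0) (nat_lit 1840946835) (nat_lit 836) (nat_lit 12136895552) (nat_lit 165) (nat_lit 5) (nat_lit 164) (nat_lit 5) (nat_lit 175) (nat_lit 5) (nat_lit 420) (nat_lit 418) (nat_lit 362))) (XT.nd (nat_lit 78) (nat_lit 0) (nat_lit 76) (XT.lf (nat_lit 76) (nat_lit 341769063) (nat_lit 0) (nat_lit 6660464788) (nat_lit 836) (nat_lit 11378975117) (nat_lit 166) (nat_lit 5) (nat_lit 165) (nat_lit 5) (nat_lit 176) (nat_lit 5) (nat_lit 421) (nat_lit 418) (nat_lit 361)) (XT.lf (nat_lit 0) (nat_lit 8933958253) (nat_lit 760) (nat_lit 2990842678) (nat_lit 836) (nat_lit 7195162864) (nat_lit 166) (nat_lit 5) (nat_lit 176) (nat_lit 5) (nat_lit 177) (nat_lit 5) (nat_lit 422) (nat_lit 418) (nat_lit 360))))) (XT.nd (nat_lit 312) (nat_lit 1140) (nat_lit 0) (XT.nd (nat_lit 156) (nat_lit 1140) (nat_lit 0) (XT.nd (nat_lit 78) (nat_lit 0) (nat_lit 0) (XT.lf (nat_lit 0) (nat_lit 11348466258) (nat_lit 760) (nat_lit 6377941753)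 (nat_lit 836) (nat_lit 2175001073) (nat_lit 167) (nat_lit 5) (nat_lit 177) (nat_lit 5) (nat_lit 178) (nat_lit 5) (nat_lit 423) (nat_lit 418) (nat_lit 359)) (XT.lf (nat_lit 76) (nat_lit 10844522895) (nat_lit 0) (nat_lit 3506143787) (nat_lit 836) (nat_lit 6374978905) (nat_lit 168) (nat_lit 5) (nat_lit 167) (nat_lit 5) (nat_lit 178) (nat_lit 5) (nat_lit 424) (nat_lit 418) (nat_lit 358))) (XT.nd (nat_lit 78) (nat_lit 456) (nat_lit 0) (XT.lf (nat_lit 0) (nat_lit 8111018090) (nat_lit 760) (nat_lit 9879663428) (nat_lit 836) (nat_lit 3605259594) (nat_lit 158) (nat_lit 5) (nat_lit 168) (nat_lit 5) (nat_lit 169) (nat_lit 5) (nat_lit 425) (nat_lit 418) (nat_lit 357)) (XT.lf (nat_lit 0) (nat_lit 5368823662) (nat_lit 456) (nat_lit 16930617467) (nat_lit 532) (nat_lit 217543841) (nat_lit 152) (nat_lit 5) (nat_lit 158) (nat_lit 5) (nat_lit 159) (nat_lit 5) (nat_lit 426) (nat_lit 418) (nat_lit 356)))) (XT.nd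 (nat_lit 156) (nat_lit 684) (nat_lit 0) (XT.nd (nat_lit 78) (nat_lit 0) (nat_lit 0) (XT.lf (nat_lit 0) (nat_lit 2545752381) (nat_lit 380) (nat_lit 1206219421) (nat_lit 456) (nat_lit 19736009745) (nat_lit 146) (nat_lit 5) (nat_lit 151) (nat_lit 5) (nat_lit 152) (nat_lit 5) (nat_lit 427) (nat_lit 418) (nat_lit 355)) (XT.lf (nat_lit 0) (nat_lit 8558710246) (nat_lit 456) (nat_lit 373159725) (nat_lit 76) (nat_lit 15578246931) (nat_lit 146) (nat_lit 5) (nat_lit 152) (nat_lit 5) (nat_lit 147) (nat_lit 5) (nat_lit 428) (nat_lit 418) (nat_lit 354))) (XT.nd (nat_lit 78) (nat_lit 304) (nat_lit 0) (XT.lf (nat_lit 0) (nat_lit 14232308334) (nat_lit 456) (nat_lit 3208369374) (nat_lit 76) (nat_lit 8149230763) (nat_lit 141) (nat_lit 5) (nat_lit 147) (nat_lit 5) (nat_lit 142) (nat_lit 5) (nat_lit 429) (nat_lit 418) (nat_lit 353)) (XT.lf (nat_lit 0) (nat_lit 20703806393) (nat_lit 304) (nat_lit 116598152) (nat_lit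 380) (nat_lit 5912649615) (nat_lit 137) (nat_lit 5) (nat_lit 141) (nat_lit 5) (nat_lit 142) (nat_lit 5) (nat_lit 430) (nat_lit 418) (nat_lit 352)))))) (XT.nd (nat_lit 624) (nat_lit 1444) (nat_lit 0) (XT.nd (nat_lit 312) (nat_lit 1064) (nat_lit 0) (XT.nd (nat_lit 156) (nat_lit 532) (nat_lit 0) (XT.nd (nat_lit 78) (nat_lit 304) (nat_lit 0) (XT.lf (nat_lit 0) (nat_lit 603721729) (nat_lit 380) (nat_lit 8973705004) (nat_lit 76) (nat_lit 18358511123) (nat_lit 132) (nat_lit 5) (nat_lit 137) (nat_lit 5) (nat_lit 133) (nat_lit 5) (nat_lit 431) (nat_lit 418) (nat_lit 351)) (XT.lf (nat_lit 0) (nat_lit 7948349087) (nat_lit 380) (nat_lit 11992188062) (nat_lit 76) (nat_lit 9263964896) (nat_lit 128) (nat_lit 5) (nat_lit 133) (nat_lit 5) (nat_lit 129) (nat_lit 5) (nat_lit 432) (nat_lit 418) (nat_lit 350))) (XT.nd (nat_lit 78) (nat_lit 228) (nat_lit 0) (XT.lf (nat_lit 0) (nat_lit 15559156599) (nat_lit 304) (nat_lit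 867641263) (nat_lit 380) (nat_lit 14120441937) (nat_lit 124) (nat_lit 5) (nat_lit 128) (nat_lit 5) (nat_lit 129) (nat_lit 5) (nat_lit 433) (nat_lit 418) (nat_lit 349)) (XT.lf (nat_lit 0) (nat_lit 13866739129) (nat_lit 228) (nat_lit 12437483428) (nat_lit 304) (nat_lit 5657139931) (nat_lit 121) (nat_lit 5) (nat_lit 124) (nat_lit 5) (nat_lit 125) (nat_lit 5) (nat_lit 434) (nat_lit 418) (nat_lit 348)))) (XT.nd (nat_lit 156) (nat_lit 456) (nat_lit 0) (XT.nd (nat_lit 78) (nat_lit 228) (nat_lit 0) (XT.lf (nat_lit 0) (nat_lit 3963334269) (nat_lit 380) (nat_lit 21204827323) (nat_lit 76) (nat_lit 8288155411) (nat_lit 116) (nat_lit 5) (nat_lit 121) (nat_lit 5) (nat_lit 117) (nat_lit 5) (nat_lit 435) (nat_lit 418) (nat_lit 347)) (XT.lf (nat_lit 0) (nat_lit 10625326520) (nat_lit 228) (nat_lit 4213745507) (nat_lit 304) (nat_lit 20192968389) (nat_lit 113) (nat_lit 5) (nat_lit 116) (nat_lit 5) (nat_lit 117)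 (nat_lit 5) (nat_lit 436) (nat_lit 418) (nat_lit 346))) (XT.nd (nat_lit 78) (nat_lit 228) (nat_lit 0) (XT.lf (nat_lit 0) (nat_lit 9018285497) (nat_lit 228) (nat_lit 18356249411) (nat_lit 304) (nat_lit 9319804181) (nat_lit 110) (nat_lit 5) (nat_lit 113) (nat_lit 5) (nat_lit 114) (nat_lit 5) (nat_lit 437) (nat_lit 418) (nat_lit 345)) (XT.lf (nat_lit 0) (nat_lit 3027324159) (nat_lit 228) (nat_lit 30901562170) (nat_lit 76) (nat_lit 4524760833) (nat_lit 107) (nat_lit 5) (nat_lit 110) (nat_lit 5) (nat_lit 108) (nat_lit 5) (nat_lit 438) (nat_lit 418) (nat_lit 344))))) (XT.nd (nat_lit 312) (nat_lit 608) (nat_lit 0) (XT.nd (nat_lit 156) (nat_lit 456) (nat_lit 0) (XT.nd (nat_lit 78) (nat_lit 152) (nat_lit 0) (XT.lf (nat_lit 0) (nat_lit 5953408645) (nat_lit 228) (nat_lit 10966151333) (nat_lit 304) (nat_lit 23382308398) (nat_lit 104) (nat_lit 5) (nat_lit 107) (nat_lit 5) (nat_lit 108) (nat_lit 5) (nat_lit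 439) (nat_lit 418) (nat_lit 343)) (XT.lf (nat_lit 0) (nat_lit 4488685809) (nat_lit 152) (nat_lit 28255245493) (nat_lit 228) (nat_lit 9512978675) (nat_lit 102) (nat_lit 5) (nat_lit 104) (nat_lit 5) (nat_lit 105) (nat_lit 5) (nat_lit 440) (nat_lit 418) (nat_lit 342))) (XT.nd (nat_lit 78) (nat_lit 152) (nat_lit 0) (XT.lf (nat_lit 0) (nat_lit 3121842656) (nat_lit 228) (nat_lit 2998919581) (nat_lit 304) (nat_lit 38201835851) (nat_lit 98) (nat_lit 5) (nat_lit 101) (nat_lit 5) (nat_lit 102) (nat_lit 5) (nat_lit 441) (nat_lit 418) (nat_lit 341)) (XT.lf (nat_lit 0) (nat_lit 1593321614) (nat_lit 152) (nat_lit 22144173551) (nat_lit 228) (nat_lit 22754969928) (nat_lit 96) (nat_lit 5) (nat_lit 98) (nat_lit 5) (nat_lit 99) (nat_lit 5) (nat_lit 442) (nat_lit 418) (nat_lit 340)))) (XT.nd (nat_lit 156) (nat_lit 380) (nat_lit 0) (XT.nd (nat_lit 78) (nat_lit 76) (nat_lit 0) (XT.lf (nat_lit 0) (nat_lit 335951278)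 (nat_lit 152) (nat_lit 43278264198) (nat_lit 228) (nat_lit 5179173941) (nat_lit 94) (nat_lit 5) (nat_lit 96) (nat_lit 5) (nat_lit 97) (nat_lit 5) (nat_lit 443) (nat_lit 418) (nat_lit 339)) (XT.lf (nat_lit 0) (nat_lit 14518597073) (nat_lit 228) (nat_lit 1065592676) (nat_lit 76) (nat_lit 35625539183) (nat_lit 93) (nat_lit 5) (nat_lit 96) (nat_lit 5) (nat_lit 94) (nat_lit 5) (nat_lit 444) (nat_lit 418) (nat_lit 338))) (XT.nd (nat_lit 78) (nat_lit 228) (nat_lit 0) (XT.lf (nat_lit 0) (nat_lit 36648194163) (nat_lit 228) (nat_lit 2345897920) (nat_lit 76) (nat_lit 14769165752) (nat_lit 91) (nat_lit 5) (nat_lit 94) (nat_lit 5) (nat_lit 92) (nat_lit 5) (nat_lit 445) (nat_lit 418) (nat_lit 337)) (XT.lf (nat_lit 0) (nat_lit 5016433954) (nat_lit 228) (nat_lit 3511860109) (nat_lit 76) (nat_lit 47933719765) (nat_lit 88) (nat_lit 5) (nat_lit 91) (nat_lit 5) (nat_lit 89) (nat_lit 5) (nat_lit 446) (nat_lit 418)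 (nat_lit 336))))))) (XT.nd (nat_lit 1248) (nat_lit 1672) (nat_lit 0) (XT.nd (nat_lit 624) (nat_lit 988) (nat_lit 0) (XT.nd (nat_lit 312) (nat_lit 608) (nat_lit 0) (XT.nd (nat_lit 156) (nat_lit 304) (nat_lit 0) (XT.nd (nat_lit 78) (nat_lit 152) (nat_lit 0) (XT.lf (nat_lit 0) (nat_lit 29615149605) (nat_lit 228) (nat_lit 4888806632) (nat_lit 76) (nat_lit 24793869253) (nat_lit 86) (nat_lit 5) (nat_lit 89) (nat_lit 5) (nat_lit 87) (nat_lit 5) (nat_lit 447) (nat_lit 418) (nat_lit 335)) (XT.lf (nat_lit 0) (nat_lit 56375722953) (nat_lit 152) (nat_lit 883389298) (nat_lit 228) (nat_lit 5047522589) (nat_lit 84) (nat_lit 5) (nat_lit 86) (nat_lit 5) (nat_lit 87) (nat_lit 5) (nat_lit 448) (nat_lit 418) (nat_lit 334))) (XT.nd (nat_lit 78) (nat_lit 152) (nat_lit 0) (XT.lf (nat_lit 0) (nat_lit 22437744127) (nat_lit 152) (nat_lit 7375014745) (nat_lit 76) (nat_lit 35648095600) (nat_lit 82) (nat_lit 5) (nat_lit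 84) (nat_lit 5) (nat_lit 83) (nat_lit 5) (nat_lit 449) (nat_lit 418) (nat_lit 333)) (XT.lf (nat_lit 0) (nat_lit 53117246159) (nat_lit 228) (nat_lit 8535794939) (nat_lit 76) (nat_lit 7151620732) (nat_lit 80) (nat_lit 5) (nat_lit 83) (nat_lit 5) (nat_lit 81) (nat_lit 4) (nat_lit 450) (nat_lit 418) (nat_lit 332)))) (XT.nd (nat_lit 156) (nat_lit 304) (nat_lit 0) (XT.nd (nat_lit 78) (nat_lit 152) (nat_lit 0) (XT.lf (nat_lit 0) (nat_lit 15022332239) (nat_lit 152) (nat_lit 9913468788) (nat_lit 76) (nat_lit 47387872246) (nat_lit 78) (nat_lit 5) (nat_lit 80) (nat_lit 5) (nat_lit 79) (nat_lit 5) (nat_lit 451) (nat_lit 418) (nat_lit 331)) (XT.lf (nat_lit 0) (nat_lit 49058353510) (nat_lit 228) (nat_lit 11286134825) (nat_lit 76) (nat_lit 15695903715) (nat_lit 76) (nat_lit 5) (nat_lit 79) (nat_lit 5) (nat_lit 77) (nat_lit 4) (nat_lit 452) (nat_lit 418) (nat_lit 330))) (XT.nd (nat_lit 78) (nat_lit 152) (nat_lit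 0) (XT.lf (nat_lit 0) (nat_lit 7246528809) (nat_lit 152) (nat_lit 12664559956) (nat_lit 76) (nat_lit 60055452703) (nat_lit 74) (nat_lit 5) (nat_lit 76) (nat_lit 5) (nat_lit 75) (nat_lit 5) (nat_lit 453) (nat_lit 418) (nat_lit 329)) (XT.lf (nat_lit 0) (nat_lit 44968202119) (nat_lit 228) (nat_lit 14361897778) (nat_lit 76) (nat_lit 24769559662) (nat_lit 72) (nat_lit 5) (nat_lit 75) (nat_lit 5) (nat_lit 73) (nat_lit 4) (nat_lit 454) (nat_lit 418) (nat_lit 328))))) (XT.nd (nat_lit 312) (nat_lit 456) (nat_lit 0) (XT.nd (nat_lit 156) (nat_lit 228) (nat_lit 0) (XT.nd (nat_lit 78) (nat_lit 228) (nat_lit 0) (XT.lf (nat_lit 0) (nat_lit 72603606747) (nat_lit 76) (nat_lit 14790574869) (nat_lit 152) (nat_lit 1084916988) (nat_lit 71) (nat_lit 5) (nat_lit 72) (nat_lit 5) (nat_lit 73) (nat_lit 4) (nat_lit 455) (nat_lit 418) (nat_lit 327)) (XT.lf (nat_lit 0) (nat_lit 40706915202) (nat_lit 228) (nat_lit 18038104486)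 (nat_lit 76) (nat_lit 34333543944) (nat_lit 68) (nat_lit 5) (nat_lit 71) (nat_lit 5) (nat_lit 69) (nat_lit 4) (nat_lit 456) (nat_lit 418) (nat_lit 326))) (XT.nd (nat_lit 78) (nat_lit 152) (nat_lit 0) (XT.lf (nat_lit 0) (nat_lit 77975645932) (nat_lit 76) (nat_lit 9570333274) (nat_lit 152) (nat_lit 10412022708) (nat_lit 67) (nat_lit 5) (nat_lit 68) (nat_lit 5) (nat_lit 69) (nat_lit 4) (nat_lit 457) (nat_lit 418) (nat_lit 325)) (XT.lf (nat_lit 0) (nat_lit 36081658713) (nat_lit 152) (nat_lit 22698764669) (nat_lit 76) (nat_lit 44305402032) (nat_lit 65) (nat_lit 5) (nat_lit 67) (nat_lit 5) (nat_lit 66) (nat_lit 4) (nat_lit 458) (nat_lit 418) (nat_lit 324)))) (XT.nd (nat_lit 156) (nat_lit 228) (nat_lit 0) (XT.nd (nat_lit 78) (nat_lit 152) (nat_lit 0) (XT.lf (nat_lit 0) (nat_lit 83201808995) (nat_lit 76) (nat_lit 4541187688) (nat_lit 152) (nat_lit 20781696320) (nat_lit 64) (nat_lit 5) (nat_lit 65) (nat_lit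 5) (nat_lit 66) (nat_lit 4) (nat_lit 459) (nat_lit 418) (nat_lit 323)) (XT.lf (nat_lit 0) (nat_lit 30828949233) (nat_lit 152) (nat_lit 28873149765) (nat_lit 76) (nat_lit 54542674644) (nat_lit 62) (nat_lit 5) (nat_lit 64) (nat_lit 5) (nat_lit 63) (nat_lit 4) (nat_lit 460) (nat_lit 418) (nat_lit 322))) (XT.nd (nat_lit 78) (nat_lit 152) (nat_lit 0) (XT.lf (nat_lit 0) (nat_lit 87740706362) (nat_lit 152) (nat_lit 32521107282) (nat_lit 0) (nat_lit 48595512) (nat_lit 61) (nat_lit 5) (nat_lit 63) (nat_lit 4) (nat_lit 61) (nat_lit 4) (nat_lit 461) (nat_lit 418) (nat_lit 321)) (XT.lf (nat_lit 0) (nat_lit 24591557326) (nat_lit 152) (nat_lit 37283140285) (nat_lit 76) (nat_lit 64821025260) (nat_lit 59) (nat_lit 5) (nat_lit 61) (nat_lit 5) (nat_lit 60) (nat_lit 4) (nat_lit 462) (nat_lit 418) (nat_lit 320)))))) (XT.nd (nat_lit 624) (nat_lit 836) (nat_lit 0) (XT.nd (nat_lit 312) (nat_lit 380) (nat_lit 0) (XT.nd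 (nat_lit 156) (nat_lit 228) (nat_lit 0) (XT.nd (nat_lit 78) (nat_lit 152) (nat_lit 0) (XT.lf (nat_lit 0) (nat_lit 87251875939) (nat_lit 152) (nat_lit 42481174229) (nat_lit 0) (nat_lit 3728753024) (nat_lit 58) (nat_lit 5) (nat_lit 60) (nat_lit 4) (nat_lit 58) (nat_lit 4) (nat_lit 463) (nat_lit 418) (nat_lit 319)) (XT.lf (nat_lit 0) (nat_lit 16888415455) (nat_lit 152) (nat_lit 48904910257) (nat_lit 76) (nat_lit 74805511601) (nat_lit 56) (nat_lit 5) (nat_lit 58) (nat_lit 5) (nat_lit 57) (nat_lit 4) (nat_lit 464) (nat_lit 418) (nat_lit 318))) (XT.nd (nat_lit 78) (nat_lit 152) (nat_lit 0) (XT.lf (nat_lit 0) (nat_lit 85720125822) (nat_lit 152) (nat_lit 56264887601) (nat_lit 0) (nat_lit 6168720246) (nat_lit 55) (nat_lit 5) (nat_lit 57) (nat_lit 4) (nat_lit 55) (nat_lit 4) (nat_lit 465) (nat_lit 418) (nat_lit 317)) (XT.lf (nat_lit 0) (nat_lit 7075478542) (nat_lit 152) (nat_lit 65049155968) (nat_lit 76)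 (nat_lit 84012963398) (nat_lit 53) (nat_lit 5) (nat_lit 55) (nat_lit 5) (nat_lit 54) (nat_lit 4) (nat_lit 466) (nat_lit 418) (nat_lit 316)))) (XT.nd (nat_lit 156) (nat_lit 228) (nat_lit 0) (XT.nd (nat_lit 78) (nat_lit 76) (nat_lit 0) (XT.lf (nat_lit 0) (nat_lit 82481193419) (nat_lit 152) (nat_lit 75388240677) (nat_lit 0) (nat_lit 6713398583) (nat_lit 52) (nat_lit 5) (nat_lit 54) (nat_lit 4) (nat_lit 52) (nat_lit 4) (nat_lit 467) (nat_lit 418) (nat_lit 315)) (XT.lf (nat_lit 0) (nat_lit 85961110109) (nat_lit 76) (nat_lit 81663565787) (nat_lit 76) (nat_lit 5893744851) (nat_lit 51) (nat_lit 4) (nat_lit 52) (nat_lit 5) (nat_lit 52) (nat_lit 4) (nat_lit 468) (nat_lit 418) (nat_lit 314))) (XT.nd (nat_lit 78) (nat_lit 76) (nat_lit 0) (XT.lf (nat_lit 0) (nat_lit 76635011583) (nat_lit 152) (nat_lit 101869211678) (nat_lit 0) (nat_lit 4471490674) (nat_lit 49) (nat_lit 5) (nat_lit 51) (nat_lit 4) (nat_lit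 49) (nat_lit 4) (nat_lit 469) (nat_lit 418) (nat_lit 313)) (XT.lf (nat_lit 0) (nat_lit 74139623793) (nat_lit 76) (nat_lit 95503077537) (nat_lit 76) (nat_lit 23337902291) (nat_lit 48) (nat_lit 4) (nat_lit 49) (nat_lit 5) (nat_lit 49) (nat_lit 4) (nat_lit 470) (nat_lit 418) (nat_lit 312))))) (XT.nd (nat_lit 312) (nat_lit 380) (nat_lit 0) (XT.nd (nat_lit 156) (nat_lit 228) (nat_lit 0) (XT.nd (nat_lit 78) (nat_lit 76) (nat_lit 0) (XT.lf (nat_lit 0) (nat_lit 65183272027) (nat_lit 76) (nat_lit 1816717761) (nat_lit 152) (nat_lit 136593281981) (nat_lit 46) (nat_lit 5) (nat_lit 47) (nat_lit 5) (nat_lit 48) (nat_lit 4) (nat_lit 471) (nat_lit 418) (nat_lit 311)) (XT.lf (nat_lit 0) (nat_lit 52928830552) (nat_lit 76) (nat_lit 115307055215) (nat_lit 76) (nat_lit 46575507247) (nat_lit 45) (nat_lit 4) (nat_lit 46) (nat_lit 5) (nat_lit 46) (nat_lit 4) (nat_lit 472) (nat_lit 418) (nat_lit 310))) (XT.nd (nat_lit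 78) (nat_lit 76) (nat_lit 0) (XT.lf (nat_lit 0) (nat_lit 38060275717) (nat_lit 76) (nat_lit 14033906924) (nat_lit 152) (nat_lit 174639676468) (nat_lit 43) (nat_lit 5) (nat_lit 44) (nat_lit 5) (nat_lit 45) (nat_lit 4) (nat_lit 473) (nat_lit 418) (nat_lit 309)) (XT.lf (nat_lit 0) (nat_lit 18576887979) (nat_lit 76) (nat_lit 143111418608) (nat_lit 76) (nat_lit 77650507388) (nat_lit 42) (nat_lit 4) (nat_lit 43) (nat_lit 5) (nat_lit 43) (nat_lit 4) (nat_lit 474) (nat_lit 418) (nat_lit 308)))) (XT.nd (nat_lit 156) (nat_lit 228) (nat_lit 0) (XT.nd (nat_lit 78) (nat_lit 76) (nat_lit 0) (XT.lf (nat_lit 0) (nat_lit 29803820648) (nat_lit 152) (nat_lit 4364100127) (nat_lit 76) (nat_lit 218584424641) (nat_lit 41) (nat_lit 5) (nat_lit 43) (nat_lit 5) (nat_lit 42) (nat_lit 4) (nat_lit 475) (nat_lit 418) (nat_lit 307)) (XT.lf (nat_lit 0) (nat_lit 148230008238) (nat_lit 152) (nat_lit 32806092652) (nat_lit 0) (nat_lit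 85884410098) (nat_lit 40) (nat_lit 5) (nat_lit 42) (nat_lit 4) (nat_lit 40) (nat_lit 4) (nat_lit 476) (nat_lit 418) (nat_lit 306))) (XT.nd (nat_lit 78) (nat_lit 152) (nat_lit 0) (XT.lf (nat_lit 0) (nat_lit 215935848999) (nat_lit 76) (nat_lit 64215821905) (nat_lit 76) (nat_lit 1869389911) (nat_lit 39) (nat_lit 4) (nat_lit 40) (nat_lit 5) (nat_lit 40) (nat_lit 4) (nat_lit 477) (nat_lit 418) (nat_lit 305)) (XT.lf (nat_lit 0) (nat_lit 124945993615) (nat_lit 152) (nat_lit 107487581711) (nat_lit 0) (nat_lit 65567704015) (nat_lit 37) (nat_lit 5) (nat_lit 39) (nat_lit 4) (nat_lit 37) (nat_lit 4) (nat_lit 478) (nat_lit 418) (nat_lit 304))))))))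
noncomputable def xc74 : XT := (XT.nd (nat_lit 58110) (nat_lit 0) (nat_lit 4864) (XT.nd (nat_lit 1170) (nat_lit 684) (nat_lit 0) (XT.nd (nat_lit 546) (nat_lit 684) (nat_lit 0) (XT.nd (nat_lit 234) (nat_lit 380) (nat_lit 0) (XT.nd (nat_lit 78) (nat_lit 228) (nat_lit 0) (XT.lf (nat_lit 0) (nat_lit 158739066230) (nat_lit 76) (nat_lit 107830921785) (nat_lit 76) (nat_lit 48451951332) (nat_lit 36) (nat_lit 4) (nat_lit 37) (nat_lit 5) (nat_lit 37) (nat_lit 4) (nat_lit 479) (nat_lit 418) (nat_lit 303)) (XT.nd (nat_lit 78) (nat_lit 76) (nat_lit 0) (XT.lf (nat_lit 0) (nat_lit 87625884254) (nat_lit 152) (nat_lit 214424125978) (nat_lit 0) (nat_lit 31073883424) (nat_lit 34) (nat_lit 5) (nat_lit 36) (nat_lit 4) (nat_lit 34) (nat_lit 4) (nat_lit 480) (nat_lit 418) (nat_lit 302)) (XT.lf (nat_lit 0) (nat_lit 68221532464) (nat_lit 76) (nat_lit 170340906629) (nat_lit 76) (nat_lit 113788349874) (nat_lit 33) (nat_lit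 4) (nat_lit 34) (nat_lit 5) (nat_lit 34) (nat_lit 4) (nat_lit 481) (nat_lit 418) (nat_lit 301)))) (XT.nd (nat_lit 156) (nat_lit 228) (nat_lit 0) (XT.nd (nat_lit 78) (nat_lit 0) (nat_lit 0) (XT.lf (nat_lit 0) (nat_lit 7949765158) (nat_lit 76) (nat_lit 23515033212) (nat_lit 152) (nat_lit 341432944404) (nat_lit 31) (nat_lit 5) (nat_lit 32) (nat_lit 5) (nat_lit 33) (nat_lit 4) (nat_lit 482) (nat_lit 418) (nat_lit 300)) (XT.lf (nat_lit 0) (nat_lit 191541164172) (nat_lit 152) (nat_lit 65413899667) (nat_lit 0) (nat_lit 137680642156) (nat_lit 31) (nat_lit 5) (nat_lit 33) (nat_lit 4) (nat_lit 31) (nat_lit 4) (nat_lit 483) (nat_lit 418) (nat_lit 299))) (XT.nd (nat_lit 78) (nat_lit 152) (nat_lit 0) (XT.lf (nat_lit 0) (nat_lit 266201170529) (nat_lit 76) (nat_lit 102772488535) (nat_lit 76) (nat_lit 48911546223) (nat_lit 30) (nat_lit 4) (nat_lit 31) (nat_lit 5) (nat_lit 31) (nat_lit 4) (nat_lit 484) (nat_lit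 418) (nat_lit 298)) (XT.lf (nat_lit 0) (nat_lit 119023527205) (nat_lit 152) (nat_lit 255893229880) (nat_lit 0) (nat_lit 67727021038) (nat_lit 28) (nat_lit 5) (nat_lit 30) (nat_lit 4) (nat_lit 28) (nat_lit 4) (nat_lit 485) (nat_lit 418) (nat_lit 297))))) (XT.nd (nat_lit 312) (nat_lit 380) (nat_lit 0) (XT.nd (nat_lit 156) (nat_lit 152) (nat_lit 0) (XT.nd (nat_lit 78) (nat_lit 76) (nat_lit 0) (XT.lf (nat_lit 0) (nat_lit 88657118543) (nat_lit 76) (nat_lit 215845760705) (nat_lit 76) (nat_lit 164548911360) (nat_lit 27) (nat_lit 4) (nat_lit 28) (nat_lit 5) (nat_lit 28) (nat_lit 4) (nat_lit 486) (nat_lit 418) (nat_lit 296)) (XT.lf (nat_lit 0) (nat_lit 11544302631) (nat_lit 152) (nat_lit 27631346706) (nat_lit 76) (nat_lit 458164728932) (nat_lit 26) (nat_lit 5) (nat_lit 28) (nat_lit 5) (nat_lit 27) (nat_lit 4) (nat_lit 487) (nat_lit 418) (nat_lit 295))) (XT.nd (nat_lit 78) (nat_lit 76) (nat_lit 0) (XT.lf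 (nat_lit 0) (nat_lit 204194718396) (nat_lit 152) (nat_lit 167810728218) (nat_lit 0) (nat_lit 155339993328) (nat_lit 25) (nat_lit 5) (nat_lit 27) (nat_lit 4) (nat_lit 25) (nat_lit 4) (nat_lit 488) (nat_lit 418) (nat_lit 294)) (XT.lf (nat_lit 0) (nat_lit 225477741098) (nat_lit 76) (nat_lit 191447376240) (nat_lit 76) (nat_lit 142592391719) (nat_lit 24) (nat_lit 4) (nat_lit 25) (nat_lit 5) (nat_lit 25) (nat_lit 4) (nat_lit 489) (nat_lit 418) (nat_lit 293)))) (XT.nd (nat_lit 156) (nat_lit 228) (nat_lit 0) (XT.nd (nat_lit 78) (nat_lit 0) (nat_lit 0) (XT.lf (nat_lit 0) (nat_lit 54823533527) (nat_lit 152) (nat_lit 530899628526) (nat_lit 0) (nat_lit 8294748046) (nat_lit 22) (nat_lit 5) (nat_lit 24) (nat_lit 4) (nat_lit 22) (nat_lit 4) (nat_lit 490) (nat_lit 418) (nat_lit 292)) (XT.lf (nat_lit 0) (nat_lit 272244024797) (nat_lit 152) (nat_lit 132742060212) (nat_lit 0) (nat_lit 225715027470) (nat_lit 22)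 (nat_lit 5) (nat_lit 24) (nat_lit 4) (nat_lit 22) (nat_lit 4) (nat_lit 491) (nat_lit 418) (nat_lit 291))) (XT.nd (nat_lit 78) (nat_lit 152) (nat_lit 0) (XT.lf (nat_lit 0) (nat_lit 307093149081) (nat_lit 76) (nat_lit 204757690618) (nat_lit 76) (nat_lit 158228497137) (nat_lit 21) (nat_lit 4) (nat_lit 22) (nat_lit 5) (nat_lit 22) (nat_lit 4) (nat_lit 492) (nat_lit 418) (nat_lit 290)) (XT.lf (nat_lit 0) (nat_lit 59946028293) (nat_lit 152) (nat_lit 636794931751) (nat_lit 0) (nat_lit 15632337716) (nat_lit 19) (nat_lit 5) (nat_lit 21) (nat_lit 4) (nat_lit 19) (nat_lit 4) (nat_lit 493) (nat_lit 418) (nat_lit 289)))))) (XT.nd (nat_lit 624) (nat_lit 228) (nat_lit 0) (XT.nd (nat_lit 312) (nat_lit 228) (nat_lit 0) (XT.nd (nat_lit 156) (nat_lit 152) (nat_lit 0) (XT.nd (nat_lit 78) (nat_lit 76) (nat_lit 0) (XT.lf (nat_lit 0) (nat_lit 299982506213) (nat_lit 152) (nat_lit 201772341074) (nat_lit 0) (nat_lit 255668655474)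 (nat_lit 19) (nat_lit 5) (nat_lit 21) (nat_lit 4) (nat_lit 19) (nat_lit 4) (nat_lit 494) (nat_lit 418) (nat_lit 288)) (XT.lf (nat_lit 0) (nat_lit 276911574325) (nat_lit 76) (nat_lit 286632031843) (nat_lit 76) (nat_lit 242318032805) (nat_lit 18) (nat_lit 4) (nat_lit 19) (nat_lit 5) (nat_lit 19) (nat_lit 4) (nat_lit 495) (nat_lit 418) (nat_lit 287))) (XT.nd (nat_lit 78) (nat_lit 152) (nat_lit 0) (XT.lf (nat_lit 0) (nat_lit 801092192900) (nat_lit 76) (nat_lit 50610555901) (nat_lit 76) (nat_lit 6296419549) (nat_lit 18) (nat_lit 4) (nat_lit 19) (nat_lit 5) (nat_lit 19) (nat_lit 4) (nat_lit 496) (nat_lit 418) (nat_lit 286)) (XT.lf (nat_lit 0) (nat_lit 251262542401) (nat_lit 152) (nat_lit 453261973523) (nat_lit 0) (nat_lit 209058481930) (nat_lit 16) (nat_lit 5) (nat_lit 18) (nat_lit 4) (nat_lit 16) (nat_lit 4) (nat_lit 497) (nat_lit 418) (nat_lit 285)))) (XT.nd (nat_lit 156) (nat_lit 152) (nat_lit 0)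 (XT.nd (nat_lit 78) (nat_lit 0) (nat_lit 0) (XT.lf (nat_lit 0) (nat_lit 47951401345) (nat_lit 76) (nat_lit 483865295204) (nat_lit 76) (nat_lit 441661122616) (nat_lit 15) (nat_lit 4) (nat_lit 16) (nat_lit 5) (nat_lit 16) (nat_lit 4) (nat_lit 498) (nat_lit 418) (nat_lit 284)) (XT.lf (nat_lit 0) (nat_lit 605444852631) (nat_lit 76) (nat_lit 237264471450) (nat_lit 76) (nat_lit 195060195048) (nat_lit 15) (nat_lit 4) (nat_lit 16) (nat_lit 5) (nat_lit 16) (nat_lit 4) (nat_lit 499) (nat_lit 418) (nat_lit 283))) (XT.nd (nat_lit 78) (nat_lit 0) (nat_lit 0) (XT.lf (nat_lit 0) (nat_lit 71084970682) (nat_lit 152) (nat_lit 1005068758395) (nat_lit 0) (nat_lit 30890330182) (nat_lit 13) (nat_lit 5) (nat_lit 15) (nat_lit 4) (nat_lit 13) (nat_lit 4) (nat_lit 500) (nat_lit 418) (nat_lit 282)) (XT.lf (nat_lit 0) (nat_lit 363432867467) (nat_lit 152) (nat_lit 494442413683) (nat_lit 0) (nat_lit 323238142202) (nat_lit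 13) (nat_lit 5) (nat_lit 15) (nat_lit 4) (nat_lit 13) (nat_lit 4) (nat_lit 501) (nat_lit 418) (nat_lit 281))))) (XT.nd (nat_lit 56004) (nat_lit 0) (nat_lit 11628) (XT.nd (nat_lit 156) (nat_lit 152) (nat_lit 0) (XT.nd (nat_lit 78) (nat_lit 0) (nat_lit 0) (XT.lf (nat_lit 0) (nat_lit 58917361849) (nat_lit 76) (nat_lit 621169922041) (nat_lit 76) (nat_lit 580975118290) (nat_lit 12) (nat_lit 4) (nat_lit 13) (nat_lit 5) (nat_lit 13) (nat_lit 4) (nat_lit 502) (nat_lit 418) (nat_lit 280)) (XT.lf (nat_lit 0) (nat_lit 674200002552) (nat_lit 76) (nat_lit 356485793044) (nat_lit 76) (nat_lit 316290916620) (nat_lit 12) (nat_lit 4) (nat_lit 13) (nat_lit 5) (nat_lit 13) (nat_lit 4) (nat_lit 503) (nat_lit 418) (nat_lit 279))) (XT.nd (nat_lit 78) (nat_lit 152) (nat_lit 0) (XT.lf (nat_lit 0) (nat_lit 1338703128615) (nat_lit 76) (nat_lit 70628017139) (nat_lit 76) (nat_lit 30433073427) (nat_lit 12) (nat_lit 4) (nat_lit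 13) (nat_lit 5) (nat_lit 13) (nat_lit 4) (nat_lit 504) (nat_lit 418) (nat_lit 278)) (XT.lf (nat_lit 0) (nat_lit 281568062703) (nat_lit 152) (nat_lit 1014293222808) (nat_lit 0) (nat_lit 243287104592) (nat_lit 10) (nat_lit 5) (nat_lit 12) (nat_lit 4) (nat_lit 10) (nat_lit 4) (nat_lit 505) (nat_lit 418) (nat_lit 277)))) (XT.nd (nat_lit 156) (nat_lit 0) (nat_lit 76) (XT.nd (nat_lit 78) (nat_lit 0) (nat_lit 76) (XT.lf (nat_lit 0) (nat_lit 2436098137) (nat_lit 836) (nat_lit 3197250593) (nat_lit 836) (nat_lit 3197250593) (nat_lit 163) (nat_lit 3) (nat_lit 174) (nat_lit 3) (nat_lit 174) (nat_lit 5) (nat_lit 419) (nat_lit 419) (nat_lit 362)) (XT.lf (nat_lit 0) (nat_lit 5558007468) (nat_lit 760) (nat_lit 10454496167) (nat_lit 836) (nat_lit 2330571356) (nat_lit 164) (nat_lit 5) (nat_lit 174) (nat_lit 5) (nat_lit 175) (nat_lit 5) (nat_lit 420) (nat_lit 419) (nat_lit 361))) (XT.nd (nat_lit 78) (nat_lit 0)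 (nat_lit 76) (XT.lf (nat_lit 76) (nat_lit 4397886905) (nat_lit 0) (nat_lit 2239640624) (nat_lit 836) (nat_lit 12425034259) (nat_lit 165) (nat_lit 5) (nat_lit 164) (nat_lit 5) (nat_lit 175) (nat_lit 5) (nat_lit 421) (nat_lit 419) (nat_lit 360)) (XT.lf (nat_lit 76) (nat_lit 785512337) (nat_lit 0) (nat_lit 7381850878) (nat_lit 836) (nat_lit 11654048970) (nat_lit 166) (nat_lit 5) (nat_lit 165) (nat_lit 5) (nat_lit 176) (nat_lit 5) (nat_lit 422) (nat_lit 419) (nat_lit 359))))))) (XT.nd (nat_lit 1248) (nat_lit 2736) (nat_lit 0) (XT.nd (nat_lit 624) (nat_lit 2356) (nat_lit 0) (XT.nd (nat_lit 312) (nat_lit 1292) (nat_lit 0) (XT.nd (nat_lit 156) (nat_lit 608) (nat_lit 0) (XT.nd (nat_lit 78) (nat_lit 0) (nat_lit 76) (XT.lf (nat_lit 0) (nat_lit 10206088690) (nat_lit 760) (nat_lit 2813777660) (nat_lit 836) (nat_lit 7601781298) (nat_lit 166) (nat_lit 5) (nat_lit 176) (nat_lit 5) (nat_lit 177) (nat_lit 5)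 (nat_lit 423) (nat_lit 419) (nat_lit 358)) (XT.lf (nat_lit 0) (nat_lit 12776747468) (nat_lit 760) (nat_lit 6461843889) (nat_lit 836) (nat_lit 2228870847) (nat_lit 167) (nat_lit 5) (nat_lit 177) (nat_lit 5) (nat_lit 178) (nat_lit 5) (nat_lit 424) (nat_lit 419) (nat_lit 357))) (XT.nd (nat_lit 78) (nat_lit 684) (nat_lit 0) (XT.lf (nat_lit 76) (nat_lit 12119890009) (nat_lit 0) (nat_lit 3867052463) (nat_lit 836) (nat_lit 6372307148) (nat_lit 168) (nat_lit 5) (nat_lit 167) (nat_lit 5) (nat_lit 178) (nat_lit 5) (nat_lit 425) (nat_lit 419) (nat_lit 356)) (XT.lf (nat_lit 0) (nat_lit 9174568223) (nat_lit 760) (nat_lit 10712737251) (nat_lit 836) (nat_lit 3413408667) (nat_lit 158) (nat_lit 5) (nat_lit 168) (nat_lit 5) (nat_lit 169) (nat_lit 5) (nat_lit 426) (nat_lit 419) (nat_lit 355)))) (XT.nd (nat_lit 156) (nat_lit 380) (nat_lit 0) (XT.nd (nat_lit 78) (nat_lit 380) (nat_lit 0) (XT.lf (nat_lit 0) (nat_lit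 209060042) (nat_lit 532) (nat_lit 18082691628) (nat_lit 76) (nat_lit 6004921331) (nat_lit 151) (nat_lit 5) (nat_lit 158) (nat_lit 5) (nat_lit 152) (nat_lit 5) (nat_lit 427) (nat_lit 419) (nat_lit 354)) (XT.lf (nat_lit 0) (nat_lit 3164220879) (nat_lit 380) (nat_lit 1298540180) (nat_lit 456) (nat_lit 20883699847) (nat_lit 146) (nat_lit 5) (nat_lit 151) (nat_lit 5) (nat_lit 152) (nat_lit 5) (nat_lit 428) (nat_lit 419) (nat_lit 353))) (XT.nd (nat_lit 78) (nat_lit 0) (nat_lit 0) (XT.lf (nat_lit 0) (nat_lit 46637) (nat_lit 380) (nat_lit 9623635901) (nat_lit 456) (nat_lit 16828204397) (nat_lit 141) (nat_lit 5) (nat_lit 146) (nat_lit 5) (nat_lit 147) (nat_lit 5) (nat_lit 429) (nat_lit 419) (nat_lit 352)) (XT.lf (nat_lit 0) (nat_lit 15729446660) (nat_lit 456) (nat_lit 3061995770) (nat_lit 76) (nat_lit 8827707382) (nat_lit 141) (nat_lit 5) (nat_lit 147) (nat_lit 5) (nat_lit 142) (nat_lit 5) (nat_lit 430)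 (nat_lit 419) (nat_lit 351))))) (XT.nd (nat_lit 312) (nat_lit 1064) (nat_lit 0) (XT.nd (nat_lit 156) (nat_lit 608) (nat_lit 0) (XT.nd (nat_lit 78) (nat_lit 380) (nat_lit 0) (XT.lf (nat_lit 0) (nat_lit 22745638294) (nat_lit 304) (nat_lit 78411907) (nat_lit 380) (nat_lit 6030725726) (nat_lit 137) (nat_lit 5) (nat_lit 141) (nat_lit 5) (nat_lit 142) (nat_lit 5) (nat_lit 431) (nat_lit 419) (nat_lit 350)) (XT.lf (nat_lit 0) (nat_lit 976940821) (nat_lit 380) (nat_lit 9296588343) (nat_lit 76) (nat_lit 19881018340) (nat_lit 132) (nat_lit 5) (nat_lit 137) (nat_lit 5) (nat_lit 133) (nat_lit 5) (nat_lit 432) (nat_lit 419) (nat_lit 349))) (XT.nd (nat_lit 78) (nat_lit 304) (nat_lit 0) (XT.lf (nat_lit 0) (nat_lit 8892079335) (nat_lit 380) (nat_lit 12559471308) (nat_lit 76) (nat_lit 10073900569) (nat_lit 128) (nat_lit 5) (nat_lit 133) (nat_lit 5) (nat_lit 129) (nat_lit 5) (nat_lit 433) (nat_lit 419) (nat_lit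 348)) (XT.lf (nat_lit 0) (nat_lit 17178941094) (nat_lit 304) (nat_lit 852913913) (nat_lit 380) (nat_lit 14944601752) (nat_lit 124) (nat_lit 5) (nat_lit 128) (nat_lit 5) (nat_lit 129) (nat_lit 5) (nat_lit 434) (nat_lit 419) (nat_lit 347)))) (XT.nd (nat_lit 156) (nat_lit 456) (nat_lit 0) (XT.nd (nat_lit 78) (nat_lit 380) (nat_lit 0) (XT.lf (nat_lit 0) (nat_lit 15347503742) (nat_lit 228) (nat_lit 13337436128) (nat_lit 304) (nat_lit 5819497311) (nat_lit 121) (nat_lit 5) (nat_lit 124) (nat_lit 5) (nat_lit 125) (nat_lit 5) (nat_lit 435) (nat_lit 419) (nat_lit 346)) (XT.lf (nat_lit 0) (nat_lit 4547738814) (nat_lit 380) (nat_lit 22525263171) (nat_lit 76) (nat_lit 9046439969) (nat_lit 116) (nat_lit 5) (nat_lit 121) (nat_lit 5) (nat_lit 117) (nat_lit 5) (nat_lit 436) (nat_lit 419) (nat_lit 345))) (XT.nd (nat_lit 78) (nat_lit 228) (nat_lit 0) (XT.lf (nat_lit 0) (nat_lit 11834964637) (nat_lit 228) (nat_lit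 4444382707) (nat_lit 304) (nat_lit 21542586309) (nat_lit 113) (nat_lit 5) (nat_lit 116) (nat_lit 5) (nat_lit 117) (nat_lit 5) (nat_lit 437) (nat_lit 419) (nat_lit 344)) (XT.lf (nat_lit 0) (nat_lit 10094261465) (nat_lit 228) (nat_lit 19711707968) (nat_lit 304) (nat_lit 9811831605) (nat_lit 110) (nat_lit 5) (nat_lit 113) (nat_lit 5) (nat_lit 114) (nat_lit 5) (nat_lit 438) (nat_lit 419) (nat_lit 343)))))) (XT.nd (nat_lit 624) (nat_lit 1292) (nat_lit 0) (XT.nd (nat_lit 312) (nat_lit 532) (nat_lit 0) (XT.nd (nat_lit 156) (nat_lit 456) (nat_lit 0) (XT.nd (nat_lit 78) (nat_lit 228) (nat_lit 0) (XT.lf (nat_lit 0) (nat_lit 3503969542) (nat_lit 228) (nat_lit 33016946436) (nat_lit 76) (nat_lit 4997289763) (nat_lit 107) (nat_lit 5) (nat_lit 110) (nat_lit 5) (nat_lit 108) (nat_lit 5) (nat_lit 439) (nat_lit 419) (nat_lit 342)) (XT.lf (nat_lit 0) (nat_lit 6770918528) (nat_lit 228) (nat_lit 11724626001) (nat_lit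 304) (nat_lit 25019342865) (nat_lit 104) (nat_lit 5) (nat_lit 107) (nat_lit 5) (nat_lit 108) (nat_lit 5) (nat_lit 440) (nat_lit 419) (nat_lit 341))) (XT.nd (nat_lit 78) (nat_lit 304) (nat_lit 0) (XT.lf (nat_lit 0) (nat_lit 5183060394) (nat_lit 152) (nat_lit 30393281944) (nat_lit 228) (nat_lit 10050466848) (nat_lit 102) (nat_lit 5) (nat_lit 104) (nat_lit 5) (nat_lit 105) (nat_lit 5) (nat_lit 441) (nat_lit 419) (nat_lit 340)) (XT.lf (nat_lit 0) (nat_lit 3699150976) (nat_lit 228) (nat_lit 3116752237) (nat_lit 304) (nat_lit 41042220995) (nat_lit 98) (nat_lit 5) (nat_lit 101) (nat_lit 5) (nat_lit 102) (nat_lit 5) (nat_lit 442) (nat_lit 419) (nat_lit 339)))) (XT.nd (nat_lit 156) (nat_lit 228) (nat_lit 0) (XT.nd (nat_lit 78) (nat_lit 152) (nat_lit 0) (XT.lf (nat_lit 0) (nat_lit 2042124557) (nat_lit 152) (nat_lit 23791411290) (nat_lit 228) (nat_lit 24368467245) (nat_lit 96) (nat_lit 5) (nat_lit 98) (nat_lit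 5) (nat_lit 99) (nat_lit 5) (nat_lit 443) (nat_lit 419) (nat_lit 338)) (XT.lf (nat_lit 0) (nat_lit 677774136) (nat_lit 152) (nat_lit 46614738077) (nat_lit 228) (nat_lit 5394883759) (nat_lit 94) (nat_lit 5) (nat_lit 96) (nat_lit 5) (nat_lit 97) (nat_lit 5) (nat_lit 444) (nat_lit 419) (nat_lit 337))) (XT.nd (nat_lit 78) (nat_lit 152) (nat_lit 0) (XT.lf (nat_lit 0) (nat_lit 15858109734) (nat_lit 228) (nat_lit 853330575) (nat_lit 76) (nat_lit 38586159851) (nat_lit 93) (nat_lit 5) (nat_lit 96) (nat_lit 5) (nat_lit 94) (nat_lit 5) (nat_lit 445) (nat_lit 419) (nat_lit 336)) (XT.lf (nat_lit 0) (nat_lit 39751130798) (nat_lit 228) (nat_lit 2242320325) (nat_lit 76) (nat_lit 16062307875) (nat_lit 91) (nat_lit 5) (nat_lit 94) (nat_lit 5) (nat_lit 92) (nat_lit 5) (nat_lit 446) (nat_lit 419) (nat_lit 335))))) (XT.nd (nat_lit 312) (nat_lit 608) (nat_lit 0) (XT.nd (nat_lit 156) (nat_lit 304) (nat_lit 0) (XT.nd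 (nat_lit 78) (nat_lit 152) (nat_lit 0) (XT.lf (nat_lit 0) (nat_lit 5583179714) (nat_lit 228) (nat_lit 3508742166) (nat_lit 76) (nat_lit 51878776732) (nat_lit 88) (nat_lit 5) (nat_lit 91) (nat_lit 5) (nat_lit 89) (nat_lit 5) (nat_lit 447) (nat_lit 419) (nat_lit 334)) (XT.lf (nat_lit 0) (nat_lit 32143565380) (nat_lit 228) (nat_lit 5002098807) (nat_lit 76) (nat_lit 26888022734) (nat_lit 86) (nat_lit 5) (nat_lit 89) (nat_lit 5) (nat_lit 87) (nat_lit 5) (nat_lit 448) (nat_lit 419) (nat_lit 333))) (XT.nd (nat_lit 78) (nat_lit 152) (nat_lit 0) (XT.lf (nat_lit 0) (nat_lit 61151519758) (nat_lit 152) (nat_lit 839881336) (nat_lit 228) (nat_lit 5292182451) (nat_lit 84) (nat_lit 5) (nat_lit 86) (nat_lit 5) (nat_lit 87) (nat_lit 5) (nat_lit 449) (nat_lit 419) (nat_lit 332)) (XT.lf (nat_lit 0) (nat_lit 24381200451) (nat_lit 152) (nat_lit 7700366659) (nat_lit 76) (nat_lit 38608730272) (nat_lit 82) (nat_lit 5)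 (nat_lit 84) (nat_lit 5) (nat_lit 83) (nat_lit 5) (nat_lit 450) (nat_lit 419) (nat_lit 331)))) (XT.nd (nat_lit 156) (nat_lit 304) (nat_lit 0) (XT.nd (nat_lit 78) (nat_lit 152) (nat_lit 0) (XT.lf (nat_lit 0) (nat_lit 57509764471) (nat_lit 228) (nat_lit 8960182368) (nat_lit 76) (nat_lit 7831927667) (nat_lit 80) (nat_lit 5) (nat_lit 83) (nat_lit 5) (nat_lit 81) (nat_lit 4) (nat_lit 451) (nat_lit 419) (nat_lit 330)) (XT.lf (nat_lit 0) (nat_lit 16362753727) (nat_lit 152) (nat_lit 10454716343) (nat_lit 76) (nat_lit 51285162375) (nat_lit 78) (nat_lit 5) (nat_lit 80) (nat_lit 5) (nat_lit 79) (nat_lit 5) (nat_lit 452) (nat_lit 419) (nat_lit 329))) (XT.nd (nat_lit 78) (nat_lit 152) (nat_lit 0) (XT.lf (nat_lit 0) (nat_lit 53116846384) (nat_lit 228) (nat_lit 11943228866) (nat_lit 76) (nat_lit 17056854208) (nat_lit 76) (nat_lit 5) (nat_lit 79) (nat_lit 5) (nat_lit 77) (nat_lit 4) (nat_lit 453) (nat_lit 419)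 (nat_lit 328)) (XT.lf (nat_lit 0) (nat_lit 7955927533) (nat_lit 152) (nat_lit 13438319943) (nat_lit 76) (nat_lit 64963131085) (nat_lit 74) (nat_lit 5) (nat_lit 76) (nat_lit 5) (nat_lit 75) (nat_lit 5) (nat_lit 454) (nat_lit 419) (nat_lit 327))))))))
noncomputable def xc75 : XT := (XT.nd (nat_lit 2496) (nat_lit 1216) (nat_lit 0) (XT.nd (nat_lit 1248) (nat_lit 1596) (nat_lit 0) (XT.nd (nat_lit 624) (nat_lit 912) (nat_lit 0) (XT.nd (nat_lit 312) (nat_lit 456) (nat_lit 0) (XT.nd (nat_lit 156) (nat_lit 304) (nat_lit 0) (XT.nd (nat_lit 78) (nat_lit 76) (nat_lit 0) (XT.lf (nat_lit 0) (nat_lit 48690949266) (nat_lit 228) (nat_lit 15277309379) (nat_lit 76) (nat_lit 26853106904) (nat_lit 72) (nat_lit 5) (nat_lit 75) (nat_lit 5) (nat_lit 73) (nat_lit 4) (nat_lit 455) (nat_lit 419) (nat_lit 326)) (XT.lf (nat_lit 0) (nat_lit 78635286135) (nat_lit 76) (nat_lit 15869927932) (nat_lit 152) (nat_lit 1046235468)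 (nat_lit 71) (nat_lit 5) (nat_lit 72) (nat_lit 5) (nat_lit 73) (nat_lit 4) (nat_lit 456) (nat_lit 419) (nat_lit 325))) (XT.nd (nat_lit 78) (nat_lit 76) (nat_lit 0) (XT.lf (nat_lit 0) (nat_lit 44080913869) (nat_lit 228) (nat_lit 19259419557) (nat_lit 76) (nat_lit 37178641206) (nat_lit 68) (nat_lit 5) (nat_lit 71) (nat_lit 5) (nat_lit 69) (nat_lit 4) (nat_lit 457) (nat_lit 419) (nat_lit 324)) (XT.lf (nat_lit 0) (nat_lit 84425794637) (nat_lit 76) (nat_lit 10235920123) (nat_lit 152) (nat_lit 11127322763) (nat_lit 67) (nat_lit 5) (nat_lit 68) (nat_lit 5) (nat_lit 69) (nat_lit 4) (nat_lit 458) (nat_lit 419) (nat_lit 323)))) (XT.nd (nat_lit 156) (nat_lit 228) (nat_lit 0) (XT.nd (nat_lit 78) (nat_lit 76) (nat_lit 0) (XT.lf (nat_lit 0) (nat_lit 39078401253) (nat_lit 152) (nat_lit 24304273818) (nat_lit 76) (nat_lit 47944504400) (nat_lit 65) (nat_lit 5) (nat_lit 67) (nat_lit 5) (nat_lit 66) (nat_lit 4)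 (nat_lit 459) (nat_lit 419) (nat_lit 322)) (XT.lf (nat_lit 0) (nat_lit 90059202359) (nat_lit 76) (nat_lit 4808422265) (nat_lit 152) (nat_lit 22333783035) (nat_lit 64) (nat_lit 5) (nat_lit 65) (nat_lit 5) (nat_lit 66) (nat_lit 4) (nat_lit 460) (nat_lit 419) (nat_lit 321))) (XT.nd (nat_lit 78) (nat_lit 76) (nat_lit 0) (XT.lf (nat_lit 0) (nat_lit 33398782862) (nat_lit 152) (nat_lit 30983477587) (nat_lit 76) (nat_lit 58996917989) (nat_lit 62) (nat_lit 5) (nat_lit 64) (nat_lit 5) (nat_lit 63) (nat_lit 4) (nat_lit 461) (nat_lit 419) (nat_lit 320)) (XT.lf (nat_lit 0) (nat_lit 94860229083) (nat_lit 152) (nat_lit 34928436932) (nat_lit 0) (nat_lit 141561441) (nat_lit 61) (nat_lit 5) (nat_lit 63) (nat_lit 4) (nat_lit 61) (nat_lit 4) (nat_lit 462) (nat_lit 419) (nat_lit 319))))) (XT.nd (nat_lit 312) (nat_lit 456) (nat_lit 0) (XT.nd (nat_lit 156) (nat_lit 228) (nat_lit 0) (XT.nd (nat_lit 78) (nat_lit 76)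 (nat_lit 0) (XT.lf (nat_lit 0) (nat_lit 26656194152) (nat_lit 152) (nat_lit 40076660607) (nat_lit 76) (nat_lit 70093659342) (nat_lit 59) (nat_lit 5) (nat_lit 61) (nat_lit 5) (nat_lit 60) (nat_lit 4) (nat_lit 463) (nat_lit 419) (nat_lit 318)) (XT.lf (nat_lit 0) (nat_lit 94326328137) (nat_lit 152) (nat_lit 45695482987) (nat_lit 0) (nat_lit 4112220301) (nat_lit 58) (nat_lit 5) (nat_lit 60) (nat_lit 4) (nat_lit 58) (nat_lit 4) (nat_lit 464) (nat_lit 419) (nat_lit 317))) (XT.nd (nat_lit 78) (nat_lit 76) (nat_lit 0) (XT.lf (nat_lit 0) (nat_lit 18331033484) (nat_lit 152) (nat_lit 52638094669) (nat_lit 76) (nat_lit 80873038099) (nat_lit 56) (nat_lit 5) (nat_lit 58) (nat_lit 5) (nat_lit 57) (nat_lit 4) (nat_lit 465) (nat_lit 419) (nat_lit 316)) (XT.lf (nat_lit 0) (nat_lit 92666487101) (nat_lit 152) (nat_lit 60591596795) (nat_lit 0) (nat_lit 6743510159) (nat_lit 55) (nat_lit 5) (nat_lit 57) (nat_lit 4)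 (nat_lit 55) (nat_lit 4) (nat_lit 466) (nat_lit 419) (nat_lit 315)))) (XT.nd (nat_lit 156) (nat_lit 228) (nat_lit 0) (XT.nd (nat_lit 78) (nat_lit 76) (nat_lit 0) (XT.lf (nat_lit 0) (nat_lit 7727690189) (nat_lit 152) (nat_lit 70083339458) (nat_lit 76) (nat_lit 90813266766) (nat_lit 53) (nat_lit 5) (nat_lit 55) (nat_lit 5) (nat_lit 54) (nat_lit 4) (nat_lit 467) (nat_lit 419) (nat_lit 314)) (XT.lf (nat_lit 0) (nat_lit 89163263877) (nat_lit 152) (nat_lit 81254060908) (nat_lit 0) (nat_lit 7327955149) (nat_lit 52) (nat_lit 5) (nat_lit 54) (nat_lit 4) (nat_lit 52) (nat_lit 4) (nat_lit 468) (nat_lit 419) (nat_lit 313))) (XT.nd (nat_lit 78) (nat_lit 152) (nat_lit 0) (XT.lf (nat_lit 0) (nat_lit 92996056854) (nat_lit 76) (nat_lit 88118445085) (nat_lit 76) (nat_lit 6281399303) (nat_lit 51) (nat_lit 4) (nat_lit 52) (nat_lit 5) (nat_lit 52) (nat_lit 4) (nat_lit 469) (nat_lit 419) (nat_lit 312)) (XT.lf (nat_lit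 0) (nat_lit 82844552470) (nat_lit 152) (nat_lit 109862304008) (nat_lit 0) (nat_lit 4902977074) (nat_lit 49) (nat_lit 5) (nat_lit 51) (nat_lit 4) (nat_lit 49) (nat_lit 4) (nat_lit 470) (nat_lit 419) (nat_lit 311)))))) (XT.nd (nat_lit 624) (nat_lit 836) (nat_lit 0) (XT.nd (nat_lit 312) (nat_lit 304) (nat_lit 0) (XT.nd (nat_lit 156) (nat_lit 228) (nat_lit 0) (XT.nd (nat_lit 78) (nat_lit 152) (nat_lit 0) (XT.lf (nat_lit 0) (nat_lit 80220439409) (nat_lit 76) (nat_lit 103068921788) (nat_lit 76) (nat_lit 25125928064) (nat_lit 48) (nat_lit 4) (nat_lit 49) (nat_lit 5) (nat_lit 49) (nat_lit 4) (nat_lit 471) (nat_lit 419) (nat_lit 310)) (XT.lf (nat_lit 0) (nat_lit 70543495307) (nat_lit 76) (nat_lit 1889578984) (nat_lit 152) (nat_lit 147444004547) (nat_lit 46) (nat_lit 5) (nat_lit 47) (nat_lit 5) (nat_lit 48) (nat_lit 4) (nat_lit 472) (nat_lit 419) (nat_lit 309))) (XT.nd (nat_lit 78) (nat_lit 152) (nat_lit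 0) (XT.lf (nat_lit 0) (nat_lit 57304786053) (nat_lit 76) (nat_lit 124460901445) (nat_lit 76) (nat_lit 50227070038) (nat_lit 45) (nat_lit 4) (nat_lit 46) (nat_lit 5) (nat_lit 46) (nat_lit 4) (nat_lit 473) (nat_lit 419) (nat_lit 308)) (XT.lf (nat_lit 0) (nat_lit 41242871438) (nat_lit 76) (nat_lit 15087750582) (nat_lit 152) (nat_lit 188538500246) (nat_lit 43) (nat_lit 5) (nat_lit 44) (nat_lit 5) (nat_lit 45) (nat_lit 4) (nat_lit 474) (nat_lit 419) (nat_lit 307)))) (XT.nd (nat_lit 156) (nat_lit 152) (nat_lit 0) (XT.nd (nat_lit 78) (nat_lit 76) (nat_lit 0) (XT.lf (nat_lit 0) (nat_lit 20197092528) (nat_lit 76) (nat_lit 154493167838) (nat_lit 76) (nat_lit 83792313957) (nat_lit 42) (nat_lit 4) (nat_lit 43) (nat_lit 5) (nat_lit 43) (nat_lit 4) (nat_lit 475) (nat_lit 419) (nat_lit 306)) (XT.lf (nat_lit 0) (nat_lit 32251076388) (nat_lit 152) (nat_lit 4587022830) (nat_lit 76) (nat_lit 236131286055) (nat_lit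 41) (nat_lit 5) (nat_lit 43) (nat_lit 5) (nat_lit 42) (nat_lit 4) (nat_lit 476) (nat_lit 419) (nat_lit 305))) (XT.nd (nat_lit 78) (nat_lit 76) (nat_lit 0) (XT.lf (nat_lit 0) (nat_lit 160149526137) (nat_lit 152) (nat_lit 35307795974) (nat_lit 0) (nat_lit 92813773643) (nat_lit 40) (nat_lit 5) (nat_lit 42) (nat_lit 4) (nat_lit 40) (nat_lit 4) (nat_lit 477) (nat_lit 419) (nat_lit 304)) (XT.lf (nat_lit 0) (nat_lit 233328164963) (nat_lit 76) (nat_lit 69294063344) (nat_lit 76) (nat_lit 1957595955) (nat_lit 39) (nat_lit 4) (nat_lit 40) (nat_lit 5) (nat_lit 40) (nat_lit 4) (nat_lit 478) (nat_lit 419) (nat_lit 303))))) (XT.nd (nat_lit 312) (nat_lit 380) (nat_lit 0) (XT.nd (nat_lit 156) (nat_lit 228) (nat_lit 0) (XT.nd (nat_lit 78) (nat_lit 76) (nat_lit 0) (XT.lf (nat_lit 0) (nat_lit 134999336554) (nat_lit 152) (nat_lit 115970424562) (nat_lit 0) (nat_lit 70868737194) (nat_lit 37) (nat_lit 5) (nat_lit 39)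 (nat_lit 4) (nat_lit 37) (nat_lit 4) (nat_lit 479) (nat_lit 419) (nat_lit 302)) (XT.lf (nat_lit 0) (nat_lit 171549306882) (nat_lit 76) (nat_lit 116401407080) (nat_lit 76) (nat_lit 52270223998) (nat_lit 36) (nat_lit 4) (nat_lit 37) (nat_lit 5) (nat_lit 37) (nat_lit 4) (nat_lit 480) (nat_lit 419) (nat_lit 301))) (XT.nd (nat_lit 78) (nat_lit 76) (nat_lit 0) (XT.lf (nat_lit 0) (nat_lit 94690373233) (nat_lit 152) (nat_lit 231468169568) (nat_lit 0) (nat_lit 33612541267) (nat_lit 34) (nat_lit 5) (nat_lit 36) (nat_lit 4) (nat_lit 34) (nat_lit 4) (nat_lit 481) (nat_lit 419) (nat_lit 300)) (XT.lf (nat_lit 0) (nat_lit 73784366016) (nat_lit 76) (nat_lit 183915096539) (nat_lit 76) (nat_lit 122836787957) (nat_lit 33) (nat_lit 4) (nat_lit 34) (nat_lit 5) (nat_lit 34) (nat_lit 4) (nat_lit 482) (nat_lit 419) (nat_lit 299)))) (XT.nd (nat_lit 156) (nat_lit 228) (nat_lit 0) (XT.nd (nat_lit 78) (nat_lit 0) (nat_lit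 0) (XT.lf (nat_lit 0) (nat_lit 8687961983) (nat_lit 76) (nat_lit 25344580395) (nat_lit 152) (nat_lit 368694491674) (nat_lit 31) (nat_lit 5) (nat_lit 32) (nat_lit 5) (nat_lit 33) (nat_lit 4) (nat_lit 483) (nat_lit 419) (nat_lit 298)) (XT.lf (nat_lit 0) (nat_lit 206912018996) (nat_lit 152) (nat_lit 70550773427) (nat_lit 0) (nat_lit 148741391839) (nat_lit 31) (nat_lit 5) (nat_lit 33) (nat_lit 4) (nat_lit 31) (nat_lit 4) (nat_lit 484) (nat_lit 419) (nat_lit 297))) (XT.nd (nat_lit 78) (nat_lit 152) (nat_lit 0) (XT.lf (nat_lit 0) (nat_lit 287589319989) (nat_lit 76) (nat_lit 110947707652) (nat_lit 76) (nat_lit 52776720159) (nat_lit 30) (nat_lit 4) (nat_lit 31) (nat_lit 5) (nat_lit 31) (nat_lit 4) (nat_lit 485) (nat_lit 419) (nat_lit 296)) (XT.lf (nat_lit 0) (nat_lit 128590312256) (nat_lit 152) (nat_lit 276273668842) (nat_lit 0) (nat_lit 73189054029) (nat_lit 28) (nat_lit 5) (nat_lit 30) (nat_lit 4)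 (nat_lit 28) (nat_lit 4) (nat_lit 486) (nat_lit 419) (nat_lit 295))))))) (XT.nd (nat_lit 1248) (nat_lit 76) (nat_lit 0) (XT.nd (nat_lit 624) (nat_lit 456) (nat_lit 0) (XT.nd (nat_lit 312) (nat_lit 380) (nat_lit 0) (XT.nd (nat_lit 156) (nat_lit 152) (nat_lit 0) (XT.nd (nat_lit 78) (nat_lit 76) (nat_lit 0) (XT.lf (nat_lit 0) (nat_lit 95836751862) (nat_lit 76) (nat_lit 233069293772) (nat_lit 76) (nat_lit 177667741325) (nat_lit 27) (nat_lit 4) (nat_lit 28) (nat_lit 5) (nat_lit 28) (nat_lit 4) (nat_lit 487) (nat_lit 419) (nat_lit 294)) (XT.lf (nat_lit 0) (nat_lit 12508254257) (nat_lit 152) (nat_lit 29759903644) (nat_lit 76) (nat_lit 494857430175) (nat_lit 26) (nat_lit 5) (nat_lit 28) (nat_lit 5) (nat_lit 27) (nat_lit 4) (nat_lit 488) (nat_lit 419) (nat_lit 293))) (XT.nd (nat_lit 78) (nat_lit 76) (nat_lit 0) (XT.lf (nat_lit 0) (nat_lit 220569554644) (nat_lit 152) (nat_lit 181155885801) (nat_lit 0)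 (nat_lit 167805671675) (nat_lit 25) (nat_lit 5) (nat_lit 27) (nat_lit 4) (nat_lit 25) (nat_lit 4) (nat_lit 489) (nat_lit 419) (nat_lit 292)) (XT.lf (nat_lit 0) (nat_lit 243592197367) (nat_lit 76) (nat_lit 206724470350) (nat_lit 76) (nat_lit 153960364942) (nat_lit 24) (nat_lit 4) (nat_lit 25) (nat_lit 5) (nat_lit 25) (nat_lit 4) (nat_lit 490) (nat_lit 419) (nat_lit 291)))) (XT.nd (nat_lit 156) (nat_lit 228) (nat_lit 0) (XT.nd (nat_lit 78) (nat_lit 0) (nat_lit 0) (XT.lf (nat_lit 0) (nat_lit 59246491395) (nat_lit 152) (nat_lit 573296231409) (nat_lit 0) (nat_lit 8994766281) (nat_lit 22) (nat_lit 5) (nat_lit 24) (nat_lit 4) (nat_lit 22) (nat_lit 4) (nat_lit 491) (nat_lit 419) (nat_lit 290)) (XT.lf (nat_lit 0) (nat_lit 294057875657) (nat_lit 152) (nat_lit 143291640400) (nat_lit 0) (nat_lit 243805968918) (nat_lit 22) (nat_lit 5) (nat_lit 24) (nat_lit 4) (nat_lit 22) (nat_lit 4) (nat_lit 492) (nat_lit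 419) (nat_lit 289))) (XT.nd (nat_lit 78) (nat_lit 152) (nat_lit 0) (XT.lf (nat_lit 0) (nat_lit 331727352882) (nat_lit 76) (nat_lit 221104382173) (nat_lit 76) (nat_lit 170852307264) (nat_lit 21) (nat_lit 4) (nat_lit 22) (nat_lit 5) (nat_lit 22) (nat_lit 4) (nat_lit 493) (nat_lit 419) (nat_lit 288)) (XT.lf (nat_lit 0) (nat_lit 64774133932) (nat_lit 152) (nat_lit 687672539759) (nat_lit 0) (nat_lit 16914866673) (nat_lit 19) (nat_lit 5) (nat_lit 21) (nat_lit 4) (nat_lit 19) (nat_lit 4) (nat_lit 494) (nat_lit 419) (nat_lit 287))))) (XT.nd (nat_lit 312) (nat_lit 228) (nat_lit 0) (XT.nd (nat_lit 156) (nat_lit 152) (nat_lit 0) (XT.nd (nat_lit 78) (nat_lit 76) (nat_lit 0) (XT.lf (nat_lit 0) (nat_lit 324011128354) (nat_lit 152) (nat_lit 217853029719) (nat_lit 0) (nat_lit 276151723781) (nat_lit 19) (nat_lit 5) (nat_lit 21) (nat_lit 4) (nat_lit 19) (nat_lit 4) (nat_lit 495) (nat_lit 419) (nat_lit 286)) (XT.lf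 (nat_lit 0) (nat_lit 299122943639) (nat_lit 76) (nat_lit 309532861306) (nat_lit 76) (nat_lit 261673329590) (nat_lit 18) (nat_lit 4) (nat_lit 19) (nat_lit 5) (nat_lit 19) (nat_lit 4) (nat_lit 496) (nat_lit 419) (nat_lit 285))) (XT.nd (nat_lit 78) (nat_lit 152) (nat_lit 0) (XT.lf (nat_lit 0) (nat_lit 865233682562) (nat_lit 76) (nat_lit 54631869739) (nat_lit 76) (nat_lit 6772220299) (nat_lit 18) (nat_lit 4) (nat_lit 19) (nat_lit 5) (nat_lit 19) (nat_lit 4) (nat_lit 497) (nat_lit 419) (nat_lit 284)) (XT.lf (nat_lit 0) (nat_lit 271389803357) (nat_lit 152) (nat_lit 489469440385) (nat_lit 0) (nat_lit 225809081029) (nat_lit 16) (nat_lit 5) (nat_lit 18) (nat_lit 4) (nat_lit 16) (nat_lit 4) (nat_lit 498) (nat_lit 419) (nat_lit 283)))) (XT.nd (nat_lit 156) (nat_lit 152) (nat_lit 0) (XT.nd (nat_lit 78) (nat_lit 0) (nat_lit 0) (XT.lf (nat_lit 0) (nat_lit 51838679818) (nat_lit 76) (nat_lit 522548463864) (nat_lit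 76) (nat_lit 476967645414) (nat_lit 15) (nat_lit 4) (nat_lit 16) (nat_lit 5) (nat_lit 16) (nat_lit 4) (nat_lit 499) (nat_lit 419) (nat_lit 282)) (XT.lf (nat_lit 0) (nat_lit 653927817106) (nat_lit 76) (nat_lit 256221504206) (nat_lit 76) (nat_lit 210640596753) (nat_lit 15) (nat_lit 4) (nat_lit 16) (nat_lit 5) (nat_lit 16) (nat_lit 4) (nat_lit 500) (nat_lit 419) (nat_lit 281))) (XT.nd (nat_lit 78) (nat_lit 0) (nat_lit 0) (XT.lf (nat_lit 0) (nat_lit 76794735818) (nat_lit 152) (nat_lit 1085427430502) (nat_lit 0) (nat_lit 33384269280) (nat_lit 13) (nat_lit 5) (nat_lit 15) (nat_lit 4) (nat_lit 13) (nat_lit 4) (nat_lit 501) (nat_lit 419) (nat_lit 280)) (XT.lf (nat_lit 0) (nat_lit 392528763051) (nat_lit 152) (nat_lit 533954446996) (nat_lit 0) (nat_lit 349118223841) (nat_lit 13) (nat_lit 5) (nat_lit 15) (nat_lit 4) (nat_lit 13) (nat_lit 4) (nat_lit 502) (nat_lit 419) (nat_lit 279)))))) (XT.nd (nat_lit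 56394) (nat_lit 0) (nat_lit 9500) (XT.nd (nat_lit 56082) (nat_lit 0) (nat_lit 11552) (XT.nd (nat_lit 156) (nat_lit 0) (nat_lit 0) (XT.nd (nat_lit 78) (nat_lit 0) (nat_lit 0) (XT.lf (nat_lit 0) (nat_lit 63672226216) (nat_lit 76) (nat_lit 670842378846) (nat_lit 76) (nat_lit 627431772348) (nat_lit 12) (nat_lit 4) (nat_lit 13) (nat_lit 5) (nat_lit 13) (nat_lit 4) (nat_lit 503) (nat_lit 419) (nat_lit 278)) (XT.lf (nat_lit 0) (nat_lit 728174405922) (nat_lit 76) (nat_lit 384985085230) (nat_lit 76) (nat_lit 341574416427) (nat_lit 12) (nat_lit 4) (nat_lit 13) (nat_lit 5) (nat_lit 13) (nat_lit 4) (nat_lit 504) (nat_lit 419) (nat_lit 277))) (XT.nd (nat_lit 55848) (nat_lit 0) (nat_lit 11476) (XT.lf (nat_lit 0) (nat_lit 1445834937390) (nat_lit 76) (nat_lit 76260136976) (nat_lit 76) (nat_lit 32849410483) (nat_lit 12) (nat_lit 4) (nat_lit 13) (nat_lit 5) (nat_lit 13) (nat_lit 4) (nat_lit 505) (nat_lit 419)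 (nat_lit 276)) (XT.lf (nat_lit 0) (nat_lit 2952614628) (nat_lit 836) (nat_lit 3284163193) (nat_lit 836) (nat_lit 3284163193) (nat_lit 163) (nat_lit 3) (nat_lit 174) (nat_lit 3) (nat_lit 174) (nat_lit 5) (nat_lit 420) (nat_lit 420) (nat_lit 360)))) (XT.nd (nat_lit 156) (nat_lit 0) (nat_lit 76) (XT.nd (nat_lit 78) (nat_lit 0) (nat_lit 0) (XT.lf (nat_lit 0) (nat_lit 6598966451) (nat_lit 760) (nat_lit 10933385884) (nat_lit 836) (nat_lit 2248306765) (nat_lit 164) (nat_lit 5) (nat_lit 174) (nat_lit 5) (nat_lit 175) (nat_lit 5) (nat_lit 421) (nat_lit 420) (nat_lit 359)) (XT.lf (nat_lit 76) (nat_lit 5091652623) (nat_lit 0) (nat_lit 2634362322) (nat_lit 836) (nat_lit 12833634961) (nat_lit 165) (nat_lit 5) (nat_lit 164) (nat_lit 5) (nat_lit 175) (nat_lit 5) (nat_lit 422) (nat_lit 420) (nat_lit 358))) (XT.nd (nat_lit 78) (nat_lit 0) (nat_lit 76) (XT.lf (nat_lit 76) (nat_lit 1205350708) (nat_lit 0) (nat_lit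 8134049245) (nat_lit 836) (nat_lit 12041753411) (nat_lit 166) (nat_lit 5) (nat_lit 165) (nat_lit 5) (nat_lit 176) (nat_lit 5) (nat_lit 423) (nat_lit 420) (nat_lit 357)) (XT.lf (nat_lit 0) (nat_lit 11500468254) (nat_lit 760) (nat_lit 2681941916) (nat_lit 836) (nat_lit 8065038174) (nat_lit 166) (nat_lit 5) (nat_lit 176) (nat_lit 5) (nat_lit 177) (nat_lit 5) (nat_lit 424) (nat_lit 420) (nat_lit 356))))) (XT.nd (nat_lit 312) (nat_lit 1064) (nat_lit 0) (XT.nd (nat_lit 156) (nat_lit 1216) (nat_lit 0) (XT.nd (nat_lit 78) (nat_lit 0) (nat_lit 0) (XT.lf (nat_lit 0) (nat_lit 14245049740) (nat_lit 760) (nat_lit 6613279394) (nat_lit 836) (nat_lit 2304188134) (nat_lit 167) (nat_lit 5) (nat_lit 177) (nat_lit 5) (nat_lit 178) (nat_lit 5) (nat_lit 425) (nat_lit 420) (nat_lit 355)) (XT.lf (nat_lit 76) (nat_lit 13439108510) (nat_lit 0) (nat_lit 4245361424) (nat_lit 836) (nat_lit 6442559767) (nat_lit 168) (nat_lit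 5) (nat_lit 167) (nat_lit 5) (nat_lit 178) (nat_lit 5) (nat_lit 426) (nat_lit 420) (nat_lit 354))) (XT.nd (nat_lit 78) (nat_lit 532) (nat_lit 0) (XT.lf (nat_lit 0) (nat_lit 10264045243) (nat_lit 760) (nat_lit 11606365240) (nat_lit 836) (nat_lit 3274725792) (nat_lit 158) (nat_lit 5) (nat_lit 168) (nat_lit 5) (nat_lit 169) (nat_lit 5) (nat_lit 427) (nat_lit 420) (nat_lit 353)) (XT.lf (nat_lit 0) (nat_lit 600002617) (nat_lit 532) (nat_lit 19157518207) (nat_lit 76) (nat_lit 6464149584) (nat_lit 151) (nat_lit 5) (nat_lit 158) (nat_lit 5) (nat_lit 152) (nat_lit 5) (nat_lit 428) (nat_lit 420) (nat_lit 352)))) (XT.nd (nat_lit 156) (nat_lit 304) (nat_lit 0) (XT.nd (nat_lit 78) (nat_lit 380) (nat_lit 0) (XT.lf (nat_lit 0) (nat_lit 3772989815) (nat_lit 380) (nat_lit 1398842467) (nat_lit 456) (nat_lit 22184719328) (nat_lit 146) (nat_lit 5) (nat_lit 151) (nat_lit 5) (nat_lit 152) (nat_lit 5) (nat_lit 429)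 (nat_lit 420) (nat_lit 351)) (XT.lf (nat_lit 0) (nat_lit 357033011) (nat_lit 380) (nat_lit 10368141931) (nat_lit 456) (nat_lit 17826261157) (nat_lit 141) (nat_lit 5) (nat_lit 146) (nat_lit 5) (nat_lit 147) (nat_lit 5) (nat_lit 430) (nat_lit 420) (nat_lit 350))) (XT.nd (nat_lit 78) (nat_lit 304) (nat_lit 0) (XT.lf (nat_lit 0) (nat_lit 17295204365) (nat_lit 456) (nat_lit 2961410890) (nat_lit 76) (nat_lit 9556676166) (nat_lit 141) (nat_lit 5) (nat_lit 147) (nat_lit 5) (nat_lit 142) (nat_lit 5) (nat_lit 431) (nat_lit 420) (nat_lit 349)) (XT.lf (nat_lit 0) (nat_lit 24895816955) (nat_lit 304) (nat_lit 43949180) (nat_lit 380) (nat_lit 6208883495) (nat_lit 137) (nat_lit 5) (nat_lit 141) (nat_lit 5) (nat_lit 142) (nat_lit 5) (nat_lit 432) (nat_lit 420) (nat_lit 348))))))))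
noncomputable def xc76 : XT := (XT.nd (nat_lit 2418) (nat_lit 3192) (nat_lit 0) (XT.nd (nat_lit 1170) (nat_lit 2280) (nat_lit 0) (XT.nd (nat_lit 546) (nat_lit 1444) (nat_lit 0) (XT.nd (nat_lit 234) (nat_lit 1064) (nat_lit 0) (XT.nd (nat_lit 78) (nat_lit 608) (nat_lit 0) (XT.lf (nat_lit 0) (nat_lit 1333663777) (nat_lit 380) (nat_lit 9701655378) (nat_lit 76) (nat_lit 21517647207) (nat_lit 132) (nat_lit 5) (nat_lit 137) (nat_lit 5) (nat_lit 133) (nat_lit 5) (nat_lit 433) (nat_lit 420) (nat_lit 347)) (XT.nd (nat_lit 78) (nat_lit 304) (nat_lit 0) (XT.lf (nat_lit 0) (nat_lit 9867388000) (nat_lit 380) (nat_lit 13228073491) (nat_lit 76) (nat_lit 10938813369) (nat_lit 128) (nat_lit 5) (nat_lit 133) (nat_lit 5) (nat_lit 129) (nat_lit 5) (nat_lit 434) (nat_lit 420) (nat_lit 346)) (XT.lf (nat_lit 0) (nat_lit 18874802993) (nat_lit 304) (nat_lit 849011694) (nat_lit 380) (nat_lit 15878273853) (nat_lit 124)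 (nat_lit 5) (nat_lit 128) (nat_lit 5) (nat_lit 129) (nat_lit 5) (nat_lit 435) (nat_lit 420) (nat_lit 345)))) (XT.nd (nat_lit 156) (nat_lit 456) (nat_lit 0) (XT.nd (nat_lit 78) (nat_lit 380) (nat_lit 0) (XT.lf (nat_lit 0) (nat_lit 16893741526) (nat_lit 228) (nat_lit 14322944415) (nat_lit 304) (nat_lit 6036245526) (nat_lit 121) (nat_lit 5) (nat_lit 124) (nat_lit 5) (nat_lit 125) (nat_lit 5) (nat_lit 436) (nat_lit 420) (nat_lit 344)) (XT.lf (nat_lit 0) (nat_lit 5140756997) (nat_lit 380) (nat_lit 24004967404) (nat_lit 76) (nat_lit 9851801364) (nat_lit 116) (nat_lit 5) (nat_lit 121) (nat_lit 5) (nat_lit 117) (nat_lit 5) (nat_lit 437) (nat_lit 420) (nat_lit 343))) (XT.nd (nat_lit 78) (nat_lit 228) (nat_lit 0) (XT.lf (nat_lit 0) (nat_lit 13090071132) (nat_lit 228) (nat_lit 4708658940) (nat_lit 304) (nat_lit 23038095794) (nat_lit 113) (nat_lit 5) (nat_lit 116) (nat_lit 5) (nat_lit 117) (nat_lit 5) (nat_lit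 438) (nat_lit 420) (nat_lit 342)) (XT.lf (nat_lit 0) (nat_lit 11205740250) (nat_lit 228) (nat_lit 21191729828) (nat_lit 304) (nat_lit 10379393952) (nat_lit 110) (nat_lit 5) (nat_lit 113) (nat_lit 5) (nat_lit 114) (nat_lit 5) (nat_lit 439) (nat_lit 420) (nat_lit 341))))) (XT.nd (nat_lit 312) (nat_lit 532) (nat_lit 0) (XT.nd (nat_lit 156) (nat_lit 456) (nat_lit 0) (XT.nd (nat_lit 78) (nat_lit 228) (nat_lit 0) (XT.lf (nat_lit 0) (nat_lit 3985298294) (nat_lit 228) (nat_lit 35352454494) (nat_lit 76) (nat_lit 5491850090) (nat_lit 107) (nat_lit 5) (nat_lit 110) (nat_lit 5) (nat_lit 108) (nat_lit 5) (nat_lit 440) (nat_lit 420) (nat_lit 340)) (XT.lf (nat_lit 0) (nat_lit 7605147900) (nat_lit 228) (nat_lit 12560729279) (nat_lit 304) (nat_lit 26820658638) (nat_lit 104) (nat_lit 5) (nat_lit 107) (nat_lit 5) (nat_lit 108) (nat_lit 5) (nat_lit 441) (nat_lit 420) (nat_lit 339))) (XT.nd (nat_lit 78) (nat_lit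 304) (nat_lit 0) (XT.lf (nat_lit 0) (nat_lit 5885153546) (nat_lit 152) (nat_lit 32719820642) (nat_lit 228) (nat_lit 10662845998) (nat_lit 102) (nat_lit 5) (nat_lit 104) (nat_lit 5) (nat_lit 105) (nat_lit 5) (nat_lit 442) (nat_lit 420) (nat_lit 338)) (XT.lf (nat_lit 0) (nat_lit 4275913737) (nat_lit 228) (nat_lit 3261427712) (nat_lit 304) (nat_lit 44140617772) (nat_lit 98) (nat_lit 5) (nat_lit 101) (nat_lit 5) (nat_lit 102) (nat_lit 5) (nat_lit 443) (nat_lit 420) (nat_lit 337)))) (XT.nd (nat_lit 156) (nat_lit 228) (nat_lit 0) (XT.nd (nat_lit 78) (nat_lit 152) (nat_lit 0) (XT.lf (nat_lit 0) (nat_lit 2480989390) (nat_lit 152) (nat_lit 25588160283) (nat_lit 228) (nat_lit 26140560985) (nat_lit 96) (nat_lit 5) (nat_lit 98) (nat_lit 5) (nat_lit 99) (nat_lit 5) (nat_lit 444) (nat_lit 420) (nat_lit 336)) (XT.lf (nat_lit 0) (nat_lit 1002012146) (nat_lit 152) (nat_lit 50236074824) (nat_lit 228) (nat_lit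 5656186310) (nat_lit 94) (nat_lit 5) (nat_lit 96) (nat_lit 5) (nat_lit 97) (nat_lit 5) (nat_lit 445) (nat_lit 420) (nat_lit 335))) (XT.nd (nat_lit 78) (nat_lit 152) (nat_lit 0) (XT.lf (nat_lit 0) (nat_lit 17279386166) (nat_lit 228) (nat_lit 666530564) (nat_lit 76) (nat_lit 41767855051) (nat_lit 93) (nat_lit 5) (nat_lit 96) (nat_lit 5) (nat_lit 94) (nat_lit 5) (nat_lit 446) (nat_lit 420) (nat_lit 334)) (XT.lf (nat_lit 0) (nat_lit 43077895731) (nat_lit 228) (nat_lit 2172006509) (nat_lit 76) (nat_lit 17442979116) (nat_lit 91) (nat_lit 5) (nat_lit 94) (nat_lit 5) (nat_lit 92) (nat_lit 5) (nat_lit 447) (nat_lit 420) (nat_lit 333)))))) (XT.nd (nat_lit 624) (nat_lit 988) (nat_lit 0) (XT.nd (nat_lit 312) (nat_lit 608) (nat_lit 0) (XT.nd (nat_lit 156) (nat_lit 304) (nat_lit 0) (XT.nd (nat_lit 78) (nat_lit 152) (nat_lit 0) (XT.lf (nat_lit 0) (nat_lit 6171664547) (nat_lit 228) (nat_lit 3545900086) (nat_lit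 76) (nat_lit 56123694255) (nat_lit 88) (nat_lit 5) (nat_lit 91) (nat_lit 5) (nat_lit 89) (nat_lit 5) (nat_lit 448) (nat_lit 420) (nat_lit 332)) (XT.lf (nat_lit 0) (nat_lit 34851542215) (nat_lit 228) (nat_lit 5164087395) (nat_lit 76) (nat_lit 29133923898) (nat_lit 86) (nat_lit 5) (nat_lit 89) (nat_lit 5) (nat_lit 87) (nat_lit 5) (nat_lit 449) (nat_lit 420) (nat_lit 331))) (XT.nd (nat_lit 78) (nat_lit 152) (nat_lit 0) (XT.lf (nat_lit 0) (nat_lit 66271469673) (nat_lit 152) (nat_lit 809181662) (nat_lit 228) (nat_lit 5579118479) (nat_lit 84) (nat_lit 5) (nat_lit 86) (nat_lit 5) (nat_lit 87) (nat_lit 5) (nat_lit 450) (nat_lit 420) (nat_lit 330)) (XT.lf (nat_lit 0) (nat_lit 26458957114) (nat_lit 152) (nat_lit 8089501903) (nat_lit 76) (nat_lit 41790696034) (nat_lit 82) (nat_lit 5) (nat_lit 84) (nat_lit 5) (nat_lit 83) (nat_lit 5) (nat_lit 451) (nat_lit 420) (nat_lit 329)))) (XT.nd (nat_lit 156) (nat_lit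 304) (nat_lit 0) (XT.nd (nat_lit 78) (nat_lit 152) (nat_lit 0) (XT.lf (nat_lit 0) (nat_lit 62233263924) (nat_lit 228) (nat_lit 9455395305) (nat_lit 76) (nat_lit 8551226459) (nat_lit 80) (nat_lit 5) (nat_lit 83) (nat_lit 5) (nat_lit 81) (nat_lit 4) (nat_lit 452) (nat_lit 420) (nat_lit 328)) (XT.lf (nat_lit 0) (nat_lit 17790631114) (nat_lit 152) (nat_lit 11075190060) (nat_lit 76) (nat_lit 55479076488) (nat_lit 78) (nat_lit 5) (nat_lit 80) (nat_lit 5) (nat_lit 79) (nat_lit 5) (nat_lit 453) (nat_lit 420) (nat_lit 327))) (XT.nd (nat_lit 78) (nat_lit 152) (nat_lit 0) (XT.lf (nat_lit 0) (nat_lit 57480927113) (nat_lit 228) (nat_lit 12687956085) (nat_lit 76) (nat_lit 18511661629) (nat_lit 76) (nat_lit 5) (nat_lit 79) (nat_lit 5) (nat_lit 77) (nat_lit 4) (nat_lit 454) (nat_lit 420) (nat_lit 326)) (XT.lf (nat_lit 0) (nat_lit 8703578364) (nat_lit 152) (nat_lit 14308134501) (nat_lit 76) (nat_lit 70248695088)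 (nat_lit 74) (nat_lit 5) (nat_lit 76) (nat_lit 5) (nat_lit 75) (nat_lit 5) (nat_lit 455) (nat_lit 420) (nat_lit 325))))) (XT.nd (nat_lit 312) (nat_lit 456) (nat_lit 0) (XT.nd (nat_lit 156) (nat_lit 304) (nat_lit 0) (XT.nd (nat_lit 78) (nat_lit 76) (nat_lit 0) (XT.lf (nat_lit 0) (nat_lit 52693642026) (nat_lit 228) (nat_lit 16299271031) (nat_lit 76) (nat_lit 29088788986) (nat_lit 72) (nat_lit 5) (nat_lit 75) (nat_lit 5) (nat_lit 73) (nat_lit 4) (nat_lit 456) (nat_lit 420) (nat_lit 324)) (XT.lf (nat_lit 0) (nat_lit 85117630673) (nat_lit 76) (nat_lit 17050450728) (nat_lit 152) (nat_lit 1022359821) (nat_lit 71) (nat_lit 5) (nat_lit 72) (nat_lit 5) (nat_lit 73) (nat_lit 4) (nat_lit 457) (nat_lit 420) (nat_lit 323))) (XT.nd (nat_lit 78) (nat_lit 76) (nat_lit 0) (XT.lf (nat_lit 0) (nat_lit 47708077523) (nat_lit 228) (nat_lit 20610072566) (nat_lit 76) (nat_lit 40237306429) (nat_lit 68) (nat_lit 5) (nat_lit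 71) (nat_lit 5) (nat_lit 69) (nat_lit 4) (nat_lit 458) (nat_lit 420) (nat_lit 322)) (XT.lf (nat_lit 0) (nat_lit 91361697225) (nat_lit 76) (nat_lit 10969025718) (nat_lit 152) (nat_lit 11916632589) (nat_lit 67) (nat_lit 5) (nat_lit 68) (nat_lit 5) (nat_lit 69) (nat_lit 4) (nat_lit 459) (nat_lit 420) (nat_lit 321)))) (XT.nd (nat_lit 156) (nat_lit 228) (nat_lit 0) (XT.nd (nat_lit 78) (nat_lit 76) (nat_lit 0) (XT.lf (nat_lit 0) (nat_lit 42299160530) (nat_lit 152) (nat_lit 26068238474) (nat_lit 76) (nat_lit 51861229194) (nat_lit 65) (nat_lit 5) (nat_lit 67) (nat_lit 5) (nat_lit 66) (nat_lit 4) (nat_lit 460) (nat_lit 420) (nat_lit 320)) (XT.lf (nat_lit 0) (nat_lit 97436476822) (nat_lit 76) (nat_lit 5110739704) (nat_lit 152) (nat_lit 24025793471) (nat_lit 64) (nat_lit 5) (nat_lit 65) (nat_lit 5) (nat_lit 66) (nat_lit 4) (nat_lit 461) (nat_lit 420) (nat_lit 319))) (XT.nd (nat_lit 78) (nat_lit 76) (nat_lit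 0) (XT.lf (nat_lit 0) (nat_lit 36159435226) (nat_lit 152) (nat_lit 33291095986) (nat_lit 76) (nat_lit 63794542975) (nat_lit 62) (nat_lit 5) (nat_lit 64) (nat_lit 5) (nat_lit 63) (nat_lit 4) (nat_lit 462) (nat_lit 420) (nat_lit 318)) (XT.lf (nat_lit 0) (nat_lit 102535009525) (nat_lit 152) (nat_lit 37556080430) (nat_lit 0) (nat_lit 229256630) (nat_lit 61) (nat_lit 5) (nat_lit 63) (nat_lit 4) (nat_lit 61) (nat_lit 4) (nat_lit 463) (nat_lit 420) (nat_lit 317))))))) (XT.nd (nat_lit 1248) (nat_lit 1520) (nat_lit 0) (XT.nd (nat_lit 624) (nat_lit 760) (nat_lit 0) (XT.nd (nat_lit 312) (nat_lit 456) (nat_lit 0) (XT.nd (nat_lit 156) (nat_lit 228) (nat_lit 0) (XT.nd (nat_lit 78) (nat_lit 76) (nat_lit 0) (XT.lf (nat_lit 0) (nat_lit 28872119244) (nat_lit 152) (nat_lit 43120644192) (nat_lit 76) (nat_lit 75775699466) (nat_lit 59) (nat_lit 5) (nat_lit 61) (nat_lit 5) (nat_lit 60) (nat_lit 4) (nat_lit 464) (nat_lit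 420) (nat_lit 316)) (XT.lf (nat_lit 0) (nat_lit 101953283259) (nat_lit 152) (nat_lit 49193212521) (nat_lit 0) (nat_lit 4514214930) (nat_lit 58) (nat_lit 5) (nat_lit 60) (nat_lit 4) (nat_lit 58) (nat_lit 4) (nat_lit 465) (nat_lit 420) (nat_lit 315))) (XT.nd (nat_lit 78) (nat_lit 76) (nat_lit 0) (XT.lf (nat_lit 0) (nat_lit 19876001066) (nat_lit 152) (nat_lit 56695499916) (nat_lit 76) (nat_lit 87414113631) (nat_lit 56) (nat_lit 5) (nat_lit 58) (nat_lit 5) (nat_lit 57) (nat_lit 4) (nat_lit 466) (nat_lit 420) (nat_lit 314)) (XT.lf (nat_lit 0) (nat_lit 100155895928) (nat_lit 152) (nat_lit 65289334505) (nat_lit 0) (nat_lit 7352686011) (nat_lit 55) (nat_lit 5) (nat_lit 57) (nat_lit 4) (nat_lit 55) (nat_lit 4) (nat_lit 467) (nat_lit 420) (nat_lit 313)))) (XT.nd (nat_lit 156) (nat_lit 228) (nat_lit 0) (XT.nd (nat_lit 78) (nat_lit 76) (nat_lit 0) (XT.lf (nat_lit 0) (nat_lit 8419785173) (nat_lit 152) (nat_lit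 75544474217) (nat_lit 76) (nat_lit 98146286181) (nat_lit 53) (nat_lit 5) (nat_lit 55) (nat_lit 5) (nat_lit 54) (nat_lit 4) (nat_lit 468) (nat_lit 420) (nat_lit 312)) (XT.lf (nat_lit 0) (nat_lit 96367977066) (nat_lit 152) (nat_lit 87612719952) (nat_lit 0) (nat_lit 7980622184) (nat_lit 52) (nat_lit 5) (nat_lit 54) (nat_lit 4) (nat_lit 52) (nat_lit 4) (nat_lit 469) (nat_lit 420) (nat_lit 311))) (XT.nd (nat_lit 78) (nat_lit 152) (nat_lit 0) (XT.lf (nat_lit 0) (nat_lit 100571250608) (nat_lit 76) (nat_lit 95100871683) (nat_lit 76) (nat_lit 6712027557) (nat_lit 51) (nat_lit 4) (nat_lit 52) (nat_lit 5) (nat_lit 52) (nat_lit 4) (nat_lit 470) (nat_lit 420) (nat_lit 310)) (XT.lf (nat_lit 0) (nat_lit 89539623493) (nat_lit 152) (nat_lit 118517162296) (nat_lit 0) (nat_lit 5358458679) (nat_lit 49) (nat_lit 5) (nat_lit 51) (nat_lit 4) (nat_lit 49) (nat_lit 4) (nat_lit 471) (nat_lit 420) (nat_lit 309))))) (XT.nd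 (nat_lit 312) (nat_lit 304) (nat_lit 0) (XT.nd (nat_lit 156) (nat_lit 228) (nat_lit 0) (XT.nd (nat_lit 78) (nat_lit 152) (nat_lit 0) (XT.lf (nat_lit 0) (nat_lit 86766371641) (nat_lit 76) (nat_lit 111250647849) (nat_lit 76) (nat_lit 27068267047) (nat_lit 48) (nat_lit 4) (nat_lit 49) (nat_lit 5) (nat_lit 49) (nat_lit 4) (nat_lit 472) (nat_lit 420) (nat_lit 308)) (XT.lf (nat_lit 0) (nat_lit 76311770471) (nat_lit 76) (nat_lit 1978608644) (nat_lit 152) (nat_lit 159173732736) (nat_lit 46) (nat_lit 5) (nat_lit 47) (nat_lit 5) (nat_lit 48) (nat_lit 4) (nat_lit 473) (nat_lit 420) (nat_lit 307))) (XT.nd (nat_lit 78) (nat_lit 152) (nat_lit 0) (XT.lf (nat_lit 0) (nat_lit 62010610172) (nat_lit 76) (nat_lit 134357144112) (nat_lit 76) (nat_lit 54181382942) (nat_lit 45) (nat_lit 4) (nat_lit 46) (nat_lit 5) (nat_lit 46) (nat_lit 4) (nat_lit 474) (nat_lit 420) (nat_lit 306)) (XT.lf (nat_lit 0) (nat_lit 44660419864)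 (nat_lit 76) (nat_lit 16235726652) (nat_lit 152) (nat_lit 203559551511) (nat_lit 43) (nat_lit 5) (nat_lit 44) (nat_lit 5) (nat_lit 45) (nat_lit 4) (nat_lit 475) (nat_lit 420) (nat_lit 305)))) (XT.nd (nat_lit 156) (nat_lit 152) (nat_lit 0) (XT.nd (nat_lit 78) (nat_lit 76) (nat_lit 0) (XT.lf (nat_lit 0) (nat_lit 21927789209) (nat_lit 76) (nat_lit 166795038738) (nat_lit 76) (nat_lit 90435484720) (nat_lit 42) (nat_lit 4) (nat_lit 43) (nat_lit 5) (nat_lit 43) (nat_lit 4) (nat_lit 476) (nat_lit 420) (nat_lit 304)) (XT.lf (nat_lit 0) (nat_lit 34885132053) (nat_lit 152) (nat_lit 4845783948) (nat_lit 76) (nat_lit 255073321384) (nat_lit 41) (nat_lit 5) (nat_lit 43) (nat_lit 5) (nat_lit 42) (nat_lit 4) (nat_lit 477) (nat_lit 420) (nat_lit 303))) (XT.nd (nat_lit 78) (nat_lit 76) (nat_lit 0) (XT.lf (nat_lit 0) (nat_lit 173013886410) (nat_lit 152) (nat_lit 38027152085) (nat_lit 0) (nat_lit 100289124795) (nat_lit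 40) (nat_lit 5) (nat_lit 42) (nat_lit 4) (nat_lit 40) (nat_lit 4) (nat_lit 478) (nat_lit 420) (nat_lit 302)) (XT.lf (nat_lit 0) (nat_lit 252095110926) (nat_lit 76) (nat_lit 74786984576) (nat_lit 76) (nat_lit 2061610054) (nat_lit 39) (nat_lit 4) (nat_lit 40) (nat_lit 5) (nat_lit 40) (nat_lit 4) (nat_lit 479) (nat_lit 420) (nat_lit 301)))))) (XT.nd (nat_lit 624) (nat_lit 684) (nat_lit 0) (XT.nd (nat_lit 312) (nat_lit 380) (nat_lit 0) (XT.nd (nat_lit 156) (nat_lit 228) (nat_lit 0) (XT.nd (nat_lit 78) (nat_lit 76) (nat_lit 0) (XT.lf (nat_lit 0) (nat_lit 145848720593) (nat_lit 152) (nat_lit 125148466890) (nat_lit 0) (nat_lit 76585918660) (nat_lit 37) (nat_lit 5) (nat_lit 39) (nat_lit 4) (nat_lit 37) (nat_lit 4) (nat_lit 480) (nat_lit 420) (nat_lit 300)) (XT.lf (nat_lit 0) (nat_lit 185368514938) (nat_lit 76) (nat_lit 125665518576) (nat_lit 76) (nat_lit 56402216197) (nat_lit 36) (nat_lit 4) (nat_lit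 37) (nat_lit 5) (nat_lit 37) (nat_lit 4) (nat_lit 481) (nat_lit 420) (nat_lit 299))) (XT.nd (nat_lit 78) (nat_lit 76) (nat_lit 0) (XT.lf (nat_lit 0) (nat_lit 102312257961) (nat_lit 152) (nat_lit 249891413182) (nat_lit 0) (nat_lit 36346766764) (nat_lit 34) (nat_lit 5) (nat_lit 36) (nat_lit 4) (nat_lit 34) (nat_lit 4) (nat_lit 482) (nat_lit 420) (nat_lit 298)) (XT.lf (nat_lit 0) (nat_lit 79777230999) (nat_lit 76) (nat_lit 198582794471) (nat_lit 76) (nat_lit 132616894654) (nat_lit 33) (nat_lit 4) (nat_lit 34) (nat_lit 5) (nat_lit 34) (nat_lit 4) (nat_lit 483) (nat_lit 420) (nat_lit 297)))) (XT.nd (nat_lit 156) (nat_lit 228) (nat_lit 0) (XT.nd (nat_lit 78) (nat_lit 0) (nat_lit 0) (XT.lf (nat_lit 0) (nat_lit 9470632355) (nat_lit 76) (nat_lit 27327860584) (nat_lit 152) (nat_lit 398144536361) (nat_lit 31) (nat_lit 5) (nat_lit 32) (nat_lit 5) (nat_lit 33) (nat_lit 4) (nat_lit 484) (nat_lit 420) (nat_lit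 296)) (XT.lf (nat_lit 0) (nat_lit 223505757000) (nat_lit 152) (nat_lit 76112326545) (nat_lit 0) (nat_lit 160680396526) (nat_lit 31) (nat_lit 5) (nat_lit 33) (nat_lit 4) (nat_lit 31) (nat_lit 4) (nat_lit 485) (nat_lit 420) (nat_lit 295))) (XT.nd (nat_lit 78) (nat_lit 152) (nat_lit 0) (XT.lf (nat_lit 0) (nat_lit 310675388614) (nat_lit 76) (nat_lit 119783589452) (nat_lit 76) (nat_lit 56957920047) (nat_lit 30) (nat_lit 4) (nat_lit 31) (nat_lit 5) (nat_lit 31) (nat_lit 4) (nat_lit 486) (nat_lit 420) (nat_lit 294)) (XT.lf (nat_lit 0) (nat_lit 138916034214) (nat_lit 152) (nat_lit 298297527859) (nat_lit 0) (nat_lit 79081790927) (nat_lit 28) (nat_lit 5) (nat_lit 30) (nat_lit 4) (nat_lit 28) (nat_lit 4) (nat_lit 487) (nat_lit 420) (nat_lit 293))))) (XT.nd (nat_lit 312) (nat_lit 380) (nat_lit 0) (XT.nd (nat_lit 156) (nat_lit 152) (nat_lit 0) (XT.nd (nat_lit 78) (nat_lit 76) (nat_lit 0) (XT.lf (nat_lit 0)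 (nat_lit 103578335218) (nat_lit 76) (nat_lit 251677004806) (nat_lit 76) (nat_lit 191842509274) (nat_lit 27) (nat_lit 4) (nat_lit 28) (nat_lit 5) (nat_lit 28) (nat_lit 4) (nat_lit 488) (nat_lit 420) (nat_lit 292)) (XT.lf (nat_lit 0) (nat_lit 13543557443) (nat_lit 152) (nat_lit 32070436334) (nat_lit 76) (nat_lit 534479909130) (nat_lit 26) (nat_lit 5) (nat_lit 28) (nat_lit 5) (nat_lit 27) (nat_lit 4) (nat_lit 489) (nat_lit 420) (nat_lit 291))) (XT.nd (nat_lit 78) (nat_lit 76) (nat_lit 0) (XT.lf (nat_lit 0) (nat_lit 238248777089) (nat_lit 152) (nat_lit 195580026182) (nat_lit 0) (nat_lit 181263114848) (nat_lit 25) (nat_lit 5) (nat_lit 27) (nat_lit 4) (nat_lit 25) (nat_lit 4) (nat_lit 490) (nat_lit 420) (nat_lit 290)) (XT.lf (nat_lit 0) (nat_lit 263144934080) (nat_lit 76) (nat_lit 223229252405) (nat_lit 76) (nat_lit 166243399458) (nat_lit 24) (nat_lit 4) (nat_lit 25) (nat_lit 5) (nat_lit 25) (nat_lit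 4) (nat_lit 491) (nat_lit 420) (nat_lit 289)))) (XT.nd (nat_lit 156) (nat_lit 228) (nat_lit 0) (XT.nd (nat_lit 78) (nat_lit 0) (nat_lit 0) (XT.lf (nat_lit 0) (nat_lit 64017996702) (nat_lit 152) (nat_lit 619095314525) (nat_lit 0) (nat_lit 9745587630) (nat_lit 22) (nat_lit 5) (nat_lit 24) (nat_lit 4) (nat_lit 22) (nat_lit 4) (nat_lit 492) (nat_lit 420) (nat_lit 288)) (XT.lf (nat_lit 0) (nat_lit 317611937187) (nat_lit 152) (nat_lit 154695142560) (nat_lit 0) (nat_lit 263339372401) (nat_lit 22) (nat_lit 5) (nat_lit 24) (nat_lit 4) (nat_lit 22) (nat_lit 4) (nat_lit 493) (nat_lit 420) (nat_lit 287))) (XT.nd (nat_lit 78) (nat_lit 152) (nat_lit 0) (XT.lf (nat_lit 0) (nat_lit 358322770085) (nat_lit 76) (nat_lit 238763648647) (nat_lit 76) (nat_lit 184490939682) (nat_lit 21) (nat_lit 4) (nat_lit 22) (nat_lit 5) (nat_lit 22) (nat_lit 4) (nat_lit 494) (nat_lit 420) (nat_lit 286)) (XT.lf (nat_lit 0) (nat_lit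 69983862466) (nat_lit 152) (nat_lit 742629770125) (nat_lit 0) (nat_lit 18295441071) (nat_lit 19) (nat_lit 5) (nat_lit 21) (nat_lit 4) (nat_lit 19) (nat_lit 4) (nat_lit 495) (nat_lit 420) (nat_lit 285))))))))
noncomputable def xc77 : XT := (XT.nd (nat_lit 58344) (nat_lit 0) (nat_lit 2584) (XT.nd (nat_lit 57096) (nat_lit 0) (nat_lit 6992) (XT.nd (nat_lit 624) (nat_lit 76) (nat_lit 0) (XT.nd (nat_lit 312) (nat_lit 228) (nat_lit 0) (XT.nd (nat_lit 156) (nat_lit 152) (nat_lit 0) (XT.nd (nat_lit 78) (nat_lit 76) (nat_lit 0) (XT.lf (nat_lit 0) (nat_lit 349957757344) (nat_lit 152) (nat_lit 235228889860) (nat_lit 0) (nat_lit 298269218225) (nat_lit 19) (nat_lit 5) (nat_lit 21) (nat_lit 4) (nat_lit 19) (nat_lit 4) (nat_lit 496) (nat_lit 420) (nat_lit 284)) (XT.lf (nat_lit 0) (nat_lit 323102884899) (nat_lit 76) (nat_lit 334269998882) (nat_lit 76) (nat_lit 282581350760) (nat_lit 18) (nat_lit 4) (nat_lit 19)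 (nat_lit 5) (nat_lit 19) (nat_lit 4) (nat_lit 497) (nat_lit 420) (nat_lit 283))) (XT.nd (nat_lit 78) (nat_lit 152) (nat_lit 0) (XT.lf (nat_lit 0) (nat_lit 934498771397) (nat_lit 76) (nat_lit 58978816237) (nat_lit 76) (nat_lit 7290067184) (nat_lit 18) (nat_lit 4) (nat_lit 19) (nat_lit 5) (nat_lit 19) (nat_lit 4) (nat_lit 498) (nat_lit 420) (nat_lit 282)) (XT.lf (nat_lit 0) (nat_lit 293123499254) (nat_lit 152) (nat_lit 528581135687) (nat_lit 0) (nat_lit 243896030201) (nat_lit 16) (nat_lit 5) (nat_lit 18) (nat_lit 4) (nat_lit 16) (nat_lit 4) (nat_lit 499) (nat_lit 420) (nat_lit 281)))) (XT.nd (nat_lit 156) (nat_lit 152) (nat_lit 0) (XT.nd (nat_lit 78) (nat_lit 0) (nat_lit 0) (XT.lf (nat_lit 0) (nat_lit 56029641115) (nat_lit 76) (nat_lit 564330003048) (nat_lit 76) (nat_lit 515102451584) (nat_lit 15) (nat_lit 4) (nat_lit 16) (nat_lit 5) (nat_lit 16) (nat_lit 4) (nat_lit 500) (nat_lit 420) (nat_lit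 280)) (XT.lf (nat_lit 0) (nat_lit 706282659986) (nat_lit 76) (nat_lit 276698541278) (nat_lit 76) (nat_lit 227470913509) (nat_lit 15) (nat_lit 4) (nat_lit 16) (nat_lit 5) (nat_lit 16) (nat_lit 4) (nat_lit 501) (nat_lit 420) (nat_lit 279))) (XT.nd (nat_lit 78) (nat_lit 0) (nat_lit 0) (XT.lf (nat_lit 0) (nat_lit 82958005596) (nat_lit 152) (nat_lit 1172221476996) (nat_lit 0) (nat_lit 36074483289) (nat_lit 13) (nat_lit 5) (nat_lit 15) (nat_lit 4) (nat_lit 13) (nat_lit 4) (nat_lit 502) (nat_lit 420) (nat_lit 278)) (XT.lf (nat_lit 0) (nat_lit 423949296422) (nat_lit 152) (nat_lit 576633628731) (nat_lit 0) (nat_lit 377065711809) (nat_lit 13) (nat_lit 5) (nat_lit 15) (nat_lit 4) (nat_lit 13) (nat_lit 4) (nat_lit 503) (nat_lit 420) (nat_lit 277))))) (XT.nd (nat_lit 56160) (nat_lit 0) (nat_lit 11552) (XT.nd (nat_lit 56004) (nat_lit 0) (nat_lit 11476) (XT.nd (nat_lit 78) (nat_lit 0) (nat_lit 0) (XT.lf (nat_lit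 0) (nat_lit 68801562799) (nat_lit 76) (nat_lit 724491647619) (nat_lit 76) (nat_lit 677608005317) (nat_lit 12) (nat_lit 4) (nat_lit 13) (nat_lit 5) (nat_lit 13) (nat_lit 4) (nat_lit 504) (nat_lit 420) (nat_lit 276)) (XT.lf (nat_lit 0) (nat_lit 786461282920) (nat_lit 76) (nat_lit 415767112849) (nat_lit 76) (nat_lit 368883417132) (nat_lit 12) (nat_lit 4) (nat_lit 13) (nat_lit 5) (nat_lit 13) (nat_lit 4) (nat_lit 505) (nat_lit 420) (nat_lit 275))) (XT.nd (nat_lit 78) (nat_lit 0) (nat_lit 76) (XT.lf (nat_lit 0) (nat_lit 3464568517) (nat_lit 836) (nat_lit 3402119630) (nat_lit 836) (nat_lit 3402119630) (nat_lit 163) (nat_lit 3) (nat_lit 174) (nat_lit 3) (nat_lit 174) (nat_lit 5) (nat_lit 421) (nat_lit 421) (nat_lit 358)) (XT.lf (nat_lit 0) (nat_lit 7638130669) (nat_lit 760) (nat_lit 11501583868) (nat_lit 836) (nat_lit 2197795536) (nat_lit 164) (nat_lit 5) (nat_lit 174) (nat_lit 5) (nat_lit 175) (nat_lit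 5) (nat_lit 422) (nat_lit 421) (nat_lit 357)))) (XT.nd (nat_lit 156) (nat_lit 0) (nat_lit 152) (XT.nd (nat_lit 78) (nat_lit 0) (nat_lit 76) (XT.lf (nat_lit 76) (nat_lit 5792138782) (nat_lit 0) (nat_lit 3029911074) (nat_lit 836) (nat_lit 13358437865) (nat_lit 165) (nat_lit 5) (nat_lit 164) (nat_lit 5) (nat_lit 175) (nat_lit 5) (nat_lit 423) (nat_lit 421) (nat_lit 356)) (XT.lf (nat_lit 76) (nat_lit 1607846480) (nat_lit 0) (nat_lit 8923362259) (nat_lit 836) (nat_lit 12538170265) (nat_lit 166) (nat_lit 5) (nat_lit 165) (nat_lit 5) (nat_lit 176) (nat_lit 5) (nat_lit 424) (nat_lit 421) (nat_lit 355))) (XT.nd (nat_lit 78) (nat_lit 0) (nat_lit 76) (XT.lf (nat_lit 0) (nat_lit 12830221480) (nat_lit 760) (nat_lit 2590480502) (nat_lit 836) (nat_lit 8586025155) (nat_lit 166) (nat_lit 5) (nat_lit 176) (nat_lit 5) (nat_lit 177) (nat_lit 5) (nat_lit 425) (nat_lit 421) (nat_lit 354)) (XT.lf (nat_lit 0) (nat_lit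 15767166128) (nat_lit 760) (nat_lit 6828974114) (nat_lit 836) (nat_lit 2400223819) (nat_lit 167) (nat_lit 5) (nat_lit 177) (nat_lit 5) (nat_lit 178) (nat_lit 5) (nat_lit 426) (nat_lit 421) (nat_lit 353)))))) (XT.nd (nat_lit 624) (nat_lit 2128) (nat_lit 0) (XT.nd (nat_lit 312) (nat_lit 1064) (nat_lit 0) (XT.nd (nat_lit 156) (nat_lit 912) (nat_lit 0) (XT.nd (nat_lit 78) (nat_lit 684) (nat_lit 0) (XT.lf (nat_lit 76) (nat_lit 14813986247) (nat_lit 0) (nat_lit 4644099361) (nat_lit 836) (nat_lit 6581136742) (nat_lit 168) (nat_lit 5) (nat_lit 167) (nat_lit 5) (nat_lit 178) (nat_lit 5) (nat_lit 427) (nat_lit 421) (nat_lit 352)) (XT.lf (nat_lit 0) (nat_lit 11389962726) (nat_lit 760) (nat_lit 12566260784) (nat_lit 836) (nat_lit 3183689822) (nat_lit 158) (nat_lit 5) (nat_lit 168) (nat_lit 5) (nat_lit 169) (nat_lit 5) (nat_lit 428) (nat_lit 421) (nat_lit 351))) (XT.nd (nat_lit 78) (nat_lit 380) (nat_lit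 0) (XT.lf (nat_lit 0) (nat_lit 968834249) (nat_lit 532) (nat_lit 20371370734) (nat_lit 76) (nat_lit 6963135585) (nat_lit 151) (nat_lit 5) (nat_lit 158) (nat_lit 5) (nat_lit 152) (nat_lit 5) (nat_lit 429) (nat_lit 421) (nat_lit 350)) (XT.lf (nat_lit 0) (nat_lit 4379725489) (nat_lit 380) (nat_lit 1507679796) (nat_lit 456) (nat_lit 23642558854) (nat_lit 146) (nat_lit 5) (nat_lit 151) (nat_lit 5) (nat_lit 152) (nat_lit 5) (nat_lit 430) (nat_lit 421) (nat_lit 349)))) (XT.nd (nat_lit 156) (nat_lit 684) (nat_lit 0) (XT.nd (nat_lit 78) (nat_lit 0) (nat_lit 0) (XT.lf (nat_lit 0) (nat_lit 691650730) (nat_lit 380) (nat_lit 11175829875) (nat_lit 456) (nat_lit 18953837022) (nat_lit 141) (nat_lit 5) (nat_lit 146) (nat_lit 5) (nat_lit 147) (nat_lit 5) (nat_lit 431) (nat_lit 421) (nat_lit 348)) (XT.lf (nat_lit 0) (nat_lit 18942368358) (nat_lit 456) (nat_lit 2902075011) (nat_lit 76) (nat_lit 10340716597) (nat_lit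 141) (nat_lit 5) (nat_lit 147) (nat_lit 5) (nat_lit 142) (nat_lit 5) (nat_lit 432) (nat_lit 421) (nat_lit 347))) (XT.nd (nat_lit 78) (nat_lit 380) (nat_lit 0) (XT.lf (nat_lit 0) (nat_lit 27170856452) (nat_lit 304) (nat_lit 12540834) (nat_lit 380) (nat_lit 6444705723) (nat_lit 137) (nat_lit 5) (nat_lit 141) (nat_lit 5) (nat_lit 142) (nat_lit 5) (nat_lit 433) (nat_lit 421) (nat_lit 346)) (XT.lf (nat_lit 0) (nat_lit 1679183775) (nat_lit 380) (nat_lit 10187441416) (nat_lit 76) (nat_lit 23278622940) (nat_lit 132) (nat_lit 5) (nat_lit 137) (nat_lit 5) (nat_lit 133) (nat_lit 5) (nat_lit 434) (nat_lit 421) (nat_lit 345))))) (XT.nd (nat_lit 312) (nat_lit 912) (nat_lit 0) (XT.nd (nat_lit 156) (nat_lit 608) (nat_lit 0) (XT.nd (nat_lit 78) (nat_lit 304) (nat_lit 0) (XT.lf (nat_lit 0) (nat_lit 10883067036) (nat_lit 380) (nat_lit 13998120193) (nat_lit 76) (nat_lit 11864502077) (nat_lit 128) (nat_lit 5) (nat_lit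 133) (nat_lit 5) (nat_lit 129) (nat_lit 5) (nat_lit 435) (nat_lit 421) (nat_lit 344)) (XT.lf (nat_lit 0) (nat_lit 20660461625) (nat_lit 304) (nat_lit 855088209) (nat_lit 380) (nat_lit 16924002120) (nat_lit 124) (nat_lit 5) (nat_lit 128) (nat_lit 5) (nat_lit 129) (nat_lit 5) (nat_lit 436) (nat_lit 421) (nat_lit 343))) (XT.nd (nat_lit 78) (nat_lit 380) (nat_lit 0) (XT.lf (nat_lit 0) (nat_lit 18518249666) (nat_lit 228) (nat_lit 15398918340) (nat_lit 304) (nat_lit 6305829351) (nat_lit 121) (nat_lit 5) (nat_lit 124) (nat_lit 5) (nat_lit 125) (nat_lit 5) (nat_lit 437) (nat_lit 421) (nat_lit 342)) (XT.lf (nat_lit 0) (nat_lit 5748518824) (nat_lit 380) (nat_lit 25649030074) (nat_lit 76) (nat_lit 10709943928) (nat_lit 116) (nat_lit 5) (nat_lit 121) (nat_lit 5) (nat_lit 117) (nat_lit 5) (nat_lit 438) (nat_lit 421) (nat_lit 341)))) (XT.nd (nat_lit 156) (nat_lit 456) (nat_lit 0) (XT.nd (nat_lit 78) (nat_lit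 228) (nat_lit 0) (XT.lf (nat_lit 0) (nat_lit 14401602374) (nat_lit 228) (nat_lit 5007098584) (nat_lit 304) (nat_lit 24685758152) (nat_lit 113) (nat_lit 5) (nat_lit 116) (nat_lit 5) (nat_lit 117) (nat_lit 5) (nat_lit 439) (nat_lit 421) (nat_lit 340)) (XT.lf (nat_lit 0) (nat_lit 12362777203) (nat_lit 228) (nat_lit 22803979413) (nat_lit 304) (nat_lit 11023373570) (nat_lit 110) (nat_lit 5) (nat_lit 113) (nat_lit 5) (nat_lit 114) (nat_lit 5) (nat_lit 440) (nat_lit 421) (nat_lit 339))) (XT.nd (nat_lit 78) (nat_lit 228) (nat_lit 0) (XT.lf (nat_lit 0) (nat_lit 4476456853) (nat_lit 228) (nat_lit 37918435784) (nat_lit 76) (nat_lit 6012454224) (nat_lit 107) (nat_lit 5) (nat_lit 110) (nat_lit 5) (nat_lit 108) (nat_lit 5) (nat_lit 441) (nat_lit 421) (nat_lit 338)) (XT.lf (nat_lit 0) (nat_lit 8464379255) (nat_lit 228) (nat_lit 13478253257) (nat_lit 304) (nat_lit 28794644957) (nat_lit 104) (nat_lit 5) (nat_lit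 107) (nat_lit 5) (nat_lit 108) (nat_lit 5) (nat_lit 442) (nat_lit 421) (nat_lit 337))))))) (XT.nd (nat_lit 1248) (nat_lit 1900) (nat_lit 0) (XT.nd (nat_lit 624) (nat_lit 1140) (nat_lit 0) (XT.nd (nat_lit 312) (nat_lit 608) (nat_lit 0) (XT.nd (nat_lit 156) (nat_lit 304) (nat_lit 0) (XT.nd (nat_lit 78) (nat_lit 304) (nat_lit 0) (XT.lf (nat_lit 0) (nat_lit 6602406433) (nat_lit 152) (nat_lit 35247450996) (nat_lit 228) (nat_lit 11351557665) (nat_lit 102) (nat_lit 5) (nat_lit 104) (nat_lit 5) (nat_lit 105) (nat_lit 5) (nat_lit 443) (nat_lit 421) (nat_lit 336)) (XT.lf (nat_lit 0) (nat_lit 4858753881) (nat_lit 228) (nat_lit 3432608815) (nat_lit 304) (nat_lit 47513275886) (nat_lit 98) (nat_lit 5) (nat_lit 101) (nat_lit 5) (nat_lit 102) (nat_lit 5) (nat_lit 444) (nat_lit 421) (nat_lit 335))) (XT.nd (nat_lit 78) (nat_lit 152) (nat_lit 0) (XT.lf (nat_lit 0) (nat_lit 2915660987) (nat_lit 152) (nat_lit 27543851728)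 (nat_lit 228) (nat_lit 28079727983) (nat_lit 96) (nat_lit 5) (nat_lit 98) (nat_lit 5) (nat_lit 99) (nat_lit 5) (nat_lit 445) (nat_lit 421) (nat_lit 334)) (XT.lf (nat_lit 0) (nat_lit 1313668385) (nat_lit 152) (nat_lit 54162503421) (nat_lit 228) (nat_lit 5962686573) (nat_lit 94) (nat_lit 5) (nat_lit 96) (nat_lit 5) (nat_lit 97) (nat_lit 5) (nat_lit 446) (nat_lit 421) (nat_lit 333)))) (XT.nd (nat_lit 156) (nat_lit 380) (nat_lit 0) (XT.nd (nat_lit 78) (nat_lit 152) (nat_lit 0) (XT.lf (nat_lit 0) (nat_lit 18792590672) (nat_lit 228) (nat_lit 501174633) (nat_lit 76) (nat_lit 45190561243) (nat_lit 93) (nat_lit 5) (nat_lit 96) (nat_lit 5) (nat_lit 94) (nat_lit 5) (nat_lit 447) (nat_lit 421) (nat_lit 332)) (XT.lf (nat_lit 0) (nat_lit 46649877107) (nat_lit 228) (nat_lit 2131690005) (nat_lit 76) (nat_lit 18920453291) (nat_lit 91) (nat_lit 5) (nat_lit 94) (nat_lit 5) (nat_lit 92) (nat_lit 5) (nat_lit 448)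 (nat_lit 421) (nat_lit 331))) (XT.nd (nat_lit 78) (nat_lit 152) (nat_lit 0) (XT.lf (nat_lit 0) (nat_lit 6786994466) (nat_lit 228) (nat_lit 3620774550) (nat_lit 76) (nat_lit 60694707239) (nat_lit 88) (nat_lit 5) (nat_lit 91) (nat_lit 5) (nat_lit 89) (nat_lit 5) (nat_lit 449) (nat_lit 421) (nat_lit 330)) (XT.lf (nat_lit 0) (nat_lit 37756685143) (nat_lit 228) (nat_lit 5373014012) (nat_lit 76) (nat_lit 31545964410) (nat_lit 86) (nat_lit 5) (nat_lit 89) (nat_lit 5) (nat_lit 87) (nat_lit 5) (nat_lit 450) (nat_lit 421) (nat_lit 329))))) (XT.nd (nat_lit 312) (nat_lit 532) (nat_lit 0) (XT.nd (nat_lit 156) (nat_lit 304) (nat_lit 0) (XT.nd (nat_lit 78) (nat_lit 152) (nat_lit 0) (XT.lf (nat_lit 0) (nat_lit 71768513322) (nat_lit 152) (nat_lit 789991144) (nat_lit 228) (nat_lit 5908473877) (nat_lit 84) (nat_lit 5) (nat_lit 86) (nat_lit 5) (nat_lit 87) (nat_lit 5) (nat_lit 451) (nat_lit 421) (nat_lit 328)) (XT.lf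 (nat_lit 0) (nat_lit 28684779158) (nat_lit 152) (nat_lit 8542136944) (nat_lit 76) (nat_lit 45213913427) (nat_lit 82) (nat_lit 5) (nat_lit 84) (nat_lit 5) (nat_lit 83) (nat_lit 5) (nat_lit 452) (nat_lit 421) (nat_lit 327))) (XT.nd (nat_lit 78) (nat_lit 152) (nat_lit 0) (XT.lf (nat_lit 0) (nat_lit 67317136197) (nat_lit 228) (nat_lit 10021839231) (nat_lit 76) (nat_lit 9314838104) (nat_lit 80) (nat_lit 5) (nat_lit 83) (nat_lit 5) (nat_lit 81) (nat_lit 4) (nat_lit 453) (nat_lit 421) (nat_lit 326)) (XT.lf (nat_lit 0) (nat_lit 19315782400) (nat_lit 152) (nat_lit 11776102735) (nat_lit 76) (nat_lit 59995507136) (nat_lit 78) (nat_lit 5) (nat_lit 80) (nat_lit 5) (nat_lit 79) (nat_lit 5) (nat_lit 454) (nat_lit 421) (nat_lit 325)))) (XT.nd (nat_lit 156) (nat_lit 228) (nat_lit 0) (XT.nd (nat_lit 78) (nat_lit 152) (nat_lit 0) (XT.lf (nat_lit 0) (nat_lit 62177766353) (nat_lit 228) (nat_lit 13522324626) (nat_lit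 76) (nat_lit 20069977176) (nat_lit 76) (nat_lit 5) (nat_lit 79) (nat_lit 5) (nat_lit 77) (nat_lit 4) (nat_lit 455) (nat_lit 421) (nat_lit 324)) (XT.lf (nat_lit 0) (nat_lit 9495180672) (nat_lit 152) (nat_lit 15276815578) (nat_lit 76) (nat_lit 75944476769) (nat_lit 74) (nat_lit 5) (nat_lit 76) (nat_lit 5) (nat_lit 75) (nat_lit 5) (nat_lit 456) (nat_lit 421) (nat_lit 323))) (XT.nd (nat_lit 78) (nat_lit 76) (nat_lit 0) (XT.lf (nat_lit 0) (nat_lit 57001225997) (nat_lit 228) (nat_lit 17431553679) (nat_lit 76) (nat_lit 31490852264) (nat_lit 72) (nat_lit 5) (nat_lit 75) (nat_lit 5) (nat_lit 73) (nat_lit 4) (nat_lit 457) (nat_lit 421) (nat_lit 322)) (XT.lf (nat_lit 0) (nat_lit 92091240069) (nat_lit 76) (nat_lit 18338122384) (nat_lit 152) (nat_lit 1011920825) (nat_lit 71) (nat_lit 5) (nat_lit 72) (nat_lit 5) (nat_lit 73) (nat_lit 4) (nat_lit 458) (nat_lit 421) (nat_lit 321)))))) (XT.nd (nat_lit 624) (nat_lit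 912) (nat_lit 0) (XT.nd (nat_lit 312) (nat_lit 456) (nat_lit 0) (XT.nd (nat_lit 156) (nat_lit 228) (nat_lit 0) (XT.nd (nat_lit 78) (nat_lit 76) (nat_lit 0) (XT.lf (nat_lit 0) (nat_lit 51611049638) (nat_lit 228) (nat_lit 22095897785) (nat_lit 76) (nat_lit 43528627985) (nat_lit 68) (nat_lit 5) (nat_lit 71) (nat_lit 5) (nat_lit 69) (nat_lit 4) (nat_lit 459) (nat_lit 421) (nat_lit 320)) (XT.lf (nat_lit 0) (nat_lit 98826530651) (nat_lit 76) (nat_lit 11773015527) (nat_lit 152) (nat_lit 12783478289) (nat_lit 67) (nat_lit 5) (nat_lit 68) (nat_lit 5) (nat_lit 69) (nat_lit 4) (nat_lit 460) (nat_lit 421) (nat_lit 319))) (XT.nd (nat_lit 78) (nat_lit 76) (nat_lit 0) (XT.lf (nat_lit 0) (nat_lit 45764100896) (nat_lit 152) (nat_lit 27999053133) (nat_lit 76) (nat_lit 56079712957) (nat_lit 65) (nat_lit 5) (nat_lit 67) (nat_lit 5) (nat_lit 66) (nat_lit 4) (nat_lit 461) (nat_lit 421) (nat_lit 318)) (XT.lf (nat_lit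 0) (nat_lit 105379318729) (nat_lit 76) (nat_lit 5448991591) (nat_lit 152) (nat_lit 25866673643) (nat_lit 64) (nat_lit 5) (nat_lit 65) (nat_lit 5) (nat_lit 66) (nat_lit 4) (nat_lit 462) (nat_lit 421) (nat_lit 317)))) (XT.nd (nat_lit 156) (nat_lit 228) (nat_lit 0) (XT.nd (nat_lit 78) (nat_lit 76) (nat_lit 0) (XT.lf (nat_lit 0) (nat_lit 39128278637) (nat_lit 152) (nat_lit 35807727450) (nat_lit 76) (nat_lit 68964868714) (nat_lit 62) (nat_lit 5) (nat_lit 64) (nat_lit 5) (nat_lit 63) (nat_lit 4) (nat_lit 463) (nat_lit 421) (nat_lit 316)) (XT.lf (nat_lit 0) (nat_lit 110811508946) (nat_lit 152) (nat_lit 40417707247) (nat_lit 0) (nat_lit 313072361) (nat_lit 61) (nat_lit 5) (nat_lit 63) (nat_lit 4) (nat_lit 61) (nat_lit 4) (nat_lit 464) (nat_lit 421) (nat_lit 315))) (XT.nd (nat_lit 78) (nat_lit 76) (nat_lit 0) (XT.lf (nat_lit 0) (nat_lit 31253416185) (nat_lit 152) (nat_lit 46431278868) (nat_lit 76) (nat_lit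 81901667784) (nat_lit 59) (nat_lit 5) (nat_lit 61) (nat_lit 5) (nat_lit 60) (nat_lit 4) (nat_lit 465) (nat_lit 421) (nat_lit 314)) (XT.lf (nat_lit 0) (nat_lit 110178860795) (nat_lit 152) (nat_lit 52993287917) (nat_lit 0) (nat_lit 4937952438) (nat_lit 58) (nat_lit 5) (nat_lit 60) (nat_lit 4) (nat_lit 58) (nat_lit 4) (nat_lit 466) (nat_lit 421) (nat_lit 313))))) (XT.nd (nat_lit 312) (nat_lit 456) (nat_lit 0) (XT.nd (nat_lit 156) (nat_lit 228) (nat_lit 0) (XT.nd (nat_lit 78) (nat_lit 76) (nat_lit 0) (XT.lf (nat_lit 0) (nat_lit 21533369306) (nat_lit 152) (nat_lit 61099416379) (nat_lit 76) (nat_lit 94468313095) (nat_lit 56) (nat_lit 5) (nat_lit 58) (nat_lit 5) (nat_lit 57) (nat_lit 4) (nat_lit 467) (nat_lit 421) (nat_lit 312)) (XT.lf (nat_lit 0) (nat_lit 108233602393) (nat_lit 152) (nat_lit 70384231923) (nat_lit 0) (nat_lit 8000653154) (nat_lit 55) (nat_lit 5) (nat_lit 57) (nat_lit 4) (nat_lit 55)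 (nat_lit 4) (nat_lit 468) (nat_lit 421) (nat_lit 311))) (XT.nd (nat_lit 78) (nat_lit 76) (nat_lit 0) (XT.lf (nat_lit 0) (nat_lit 9156707982) (nat_lit 152) (nat_lit 81463261581) (nat_lit 76) (nat_lit 106056252170) (nat_lit 53) (nat_lit 5) (nat_lit 55) (nat_lit 5) (nat_lit 54) (nat_lit 4) (nat_lit 469) (nat_lit 421) (nat_lit 310)) (XT.lf (nat_lit 0) (nat_lit 104138845340) (nat_lit 152) (nat_lit 94500281933) (nat_lit 0) (nat_lit 8676025510) (nat_lit 52) (nat_lit 5) (nat_lit 54) (nat_lit 4) (nat_lit 52) (nat_lit 4) (nat_lit 470) (nat_lit 421) (nat_lit 309)))) (XT.nd (nat_lit 156) (nat_lit 228) (nat_lit 0) (XT.nd (nat_lit 78) (nat_lit 152) (nat_lit 0) (XT.lf (nat_lit 0) (nat_lit 108733127958) (nat_lit 76) (nat_lit 102651457699) (nat_lit 76) (nat_lit 7187361083) (nat_lit 51) (nat_lit 4) (nat_lit 52) (nat_lit 5) (nat_lit 52) (nat_lit 4) (nat_lit 471) (nat_lit 421) (nat_lit 308)) (XT.lf (nat_lit 0) (nat_lit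 96760669595) (nat_lit 152) (nat_lit 127883543825) (nat_lit 0) (nat_lit 5841356428) (nat_lit 49) (nat_lit 5) (nat_lit 51) (nat_lit 4) (nat_lit 49) (nat_lit 4) (nat_lit 472) (nat_lit 421) (nat_lit 307))) (XT.nd (nat_lit 78) (nat_lit 152) (nat_lit 0) (XT.lf (nat_lit 0) (nat_lit 93817675438) (nat_lit 76) (nat_lit 120096012021) (nat_lit 76) (nat_lit 29175656340) (nat_lit 48) (nat_lit 4) (nat_lit 49) (nat_lit 5) (nat_lit 49) (nat_lit 4) (nat_lit 473) (nat_lit 421) (nat_lit 306)) (XT.lf (nat_lit 0) (nat_lit 82523704169) (nat_lit 76) (nat_lit 2083625166) (nat_lit 152) (nat_lit 171851225169) (nat_lit 46) (nat_lit 5) (nat_lit 47) (nat_lit 5) (nat_lit 48) (nat_lit 4) (nat_lit 474) (nat_lit 421) (nat_lit 305))))))))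
noncomputable def xc78 : XT := (XT.nd (nat_lit 58344) (nat_lit 0) (nat_lit 5320) (XT.nd (nat_lit 1170) (nat_lit 1140) (nat_lit 0) (XT.nd (nat_lit 546) (nat_lit 760) (nat_lit 0) (XT.nd (nat_lit 234) (nat_lit 380) (nat_lit 0) (XT.nd (nat_lit 78) (nat_lit 228) (nat_lit 0) (XT.lf (nat_lit 0) (nat_lit 67075575271) (nat_lit 76) (nat_lit 145053735662) (nat_lit 76) (nat_lit 58461150179) (nat_lit 45) (nat_lit 4) (nat_lit 46) (nat_lit 5) (nat_lit 46) (nat_lit 4) (nat_lit 475) (nat_lit 421) (nat_lit 304)) (XT.nd (nat_lit 78) (nat_lit 76) (nat_lit 0) (XT.lf (nat_lit 0) (nat_lit 48334521209) (nat_lit 76) (nat_lit 17483964090) (nat_lit 152) (nat_lit 219791135972) (nat_lit 43) (nat_lit 5) (nat_lit 44) (nat_lit 5) (nat_lit 45) (nat_lit 4) (nat_lit 476) (nat_lit 421) (nat_lit 303)) (XT.lf (nat_lit 0) (nat_lit 23780545678) (nat_lit 76) (nat_lit 180089274102) (nat_lit 76) (nat_lit 97618699394) (nat_lit 42) (nat_lit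 4) (nat_lit 43) (nat_lit 5) (nat_lit 43) (nat_lit 4) (nat_lit 477) (nat_lit 421) (nat_lit 302)))) (XT.nd (nat_lit 156) (nat_lit 228) (nat_lit 0) (XT.nd (nat_lit 78) (nat_lit 76) (nat_lit 0) (XT.lf (nat_lit 0) (nat_lit 37722212812) (nat_lit 152) (nat_lit 5140681995) (nat_lit 76) (nat_lit 275523367859) (nat_lit 41) (nat_lit 5) (nat_lit 43) (nat_lit 5) (nat_lit 42) (nat_lit 4) (nat_lit 478) (nat_lit 421) (nat_lit 301)) (XT.lf (nat_lit 0) (nat_lit 186899920318) (nat_lit 152) (nat_lit 40979074280) (nat_lit 0) (nat_lit 108355335420) (nat_lit 40) (nat_lit 5) (nat_lit 42) (nat_lit 4) (nat_lit 40) (nat_lit 4) (nat_lit 479) (nat_lit 421) (nat_lit 300))) (XT.nd (nat_lit 78) (nat_lit 152) (nat_lit 0) (XT.lf (nat_lit 0) (nat_lit 272349047619) (nat_lit 76) (nat_lit 80726558710) (nat_lit 76) (nat_lit 2181448343) (nat_lit 39) (nat_lit 4) (nat_lit 40) (nat_lit 5) (nat_lit 40) (nat_lit 4) (nat_lit 480) (nat_lit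 421) (nat_lit 299)) (XT.lf (nat_lit 0) (nat_lit 157559002597) (nat_lit 152) (nat_lit 135074960465) (nat_lit 0) (nat_lit 82753672204) (nat_lit 37) (nat_lit 5) (nat_lit 39) (nat_lit 4) (nat_lit 37) (nat_lit 4) (nat_lit 481) (nat_lit 421) (nat_lit 298))))) (XT.nd (nat_lit 312) (nat_lit 304) (nat_lit 0) (XT.nd (nat_lit 156) (nat_lit 228) (nat_lit 0) (XT.nd (nat_lit 78) (nat_lit 152) (nat_lit 0) (XT.lf (nat_lit 0) (nat_lit 200279669235) (nat_lit 76) (nat_lit 135677606881) (nat_lit 76) (nat_lit 60871847436) (nat_lit 36) (nat_lit 4) (nat_lit 37) (nat_lit 5) (nat_lit 37) (nat_lit 4) (nat_lit 482) (nat_lit 421) (nat_lit 297)) (XT.lf (nat_lit 0) (nat_lit 110537237628) (nat_lit 152) (nat_lit 269801956388) (nat_lit 0) (nat_lit 39293278850) (nat_lit 34) (nat_lit 5) (nat_lit 36) (nat_lit 4) (nat_lit 34) (nat_lit 4) (nat_lit 483) (nat_lit 421) (nat_lit 296))) (XT.nd (nat_lit 78) (nat_lit 152) (nat_lit 0) (XT.lf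 (nat_lit 0) (nat_lit 86236669169) (nat_lit 76) (nat_lit 214430400718) (nat_lit 76) (nat_lit 143186091614) (nat_lit 33) (nat_lit 4) (nat_lit 34) (nat_lit 5) (nat_lit 34) (nat_lit 4) (nat_lit 484) (nat_lit 421) (nat_lit 295)) (XT.lf (nat_lit 0) (nat_lit 10303414470) (nat_lit 76) (nat_lit 29476121115) (nat_lit 152) (nat_lit 429957077797) (nat_lit 31) (nat_lit 5) (nat_lit 32) (nat_lit 5) (nat_lit 33) (nat_lit 4) (nat_lit 485) (nat_lit 421) (nat_lit 294)))) (XT.nd (nat_lit 156) (nat_lit 228) (nat_lit 0) (XT.nd (nat_lit 78) (nat_lit 76) (nat_lit 0) (XT.lf (nat_lit 0) (nat_lit 241421176822) (nat_lit 152) (nat_lit 82130574709) (nat_lit 0) (nat_lit 173568858888) (nat_lit 31) (nat_lit 5) (nat_lit 33) (nat_lit 4) (nat_lit 31) (nat_lit 4) (nat_lit 486) (nat_lit 421) (nat_lit 293)) (XT.lf (nat_lit 0) (nat_lit 335597083478) (nat_lit 76) (nat_lit 129332038943) (nat_lit 76) (nat_lit 61479456151) (nat_lit 30)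 (nat_lit 4) (nat_lit 31) (nat_lit 5) (nat_lit 31) (nat_lit 4) (nat_lit 487) (nat_lit 421) (nat_lit 292))) (XT.nd (nat_lit 78) (nat_lit 76) (nat_lit 0) (XT.lf (nat_lit 0) (nat_lit 150062321904) (nat_lit 152) (nat_lit 322094428090) (nat_lit 0) (nat_lit 85440580922) (nat_lit 28) (nat_lit 5) (nat_lit 30) (nat_lit 4) (nat_lit 28) (nat_lit 4) (nat_lit 488) (nat_lit 421) (nat_lit 291)) (XT.lf (nat_lit 0) (nat_lit 111928596553) (nat_lit 76) (nat_lit 271778729948) (nat_lit 76) (nat_lit 207156772706) (nat_lit 27) (nat_lit 4) (nat_lit 28) (nat_lit 5) (nat_lit 28) (nat_lit 4) (nat_lit 489) (nat_lit 421) (nat_lit 290)))))) (XT.nd (nat_lit 624) (nat_lit 532) (nat_lit 0) (XT.nd (nat_lit 312) (nat_lit 228) (nat_lit 0) (XT.nd (nat_lit 156) (nat_lit 228) (nat_lit 0) (XT.nd (nat_lit 78) (nat_lit 76) (nat_lit 0) (XT.lf (nat_lit 0) (nat_lit 14656742694) (nat_lit 152) (nat_lit 34575834958) (nat_lit 76) (nat_lit 577267352393)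 (nat_lit 26) (nat_lit 5) (nat_lit 28) (nat_lit 5) (nat_lit 27) (nat_lit 4) (nat_lit 490) (nat_lit 421) (nat_lit 289)) (XT.lf (nat_lit 0) (nat_lit 257337535630) (nat_lit 152) (nat_lit 211167845900) (nat_lit 0) (nat_lit 195792447163) (nat_lit 25) (nat_lit 5) (nat_lit 27) (nat_lit 4) (nat_lit 25) (nat_lit 4) (nat_lit 491) (nat_lit 421) (nat_lit 288))) (XT.nd (nat_lit 78) (nat_lit 152) (nat_lit 0) (XT.lf (nat_lit 0) (nat_lit 284252565264) (nat_lit 76) (nat_lit 241059149890) (nat_lit 76) (nat_lit 179513897924) (nat_lit 24) (nat_lit 4) (nat_lit 25) (nat_lit 5) (nat_lit 25) (nat_lit 4) (nat_lit 492) (nat_lit 421) (nat_lit 287)) (XT.lf (nat_lit 0) (nat_lit 69166687807) (nat_lit 152) (nat_lit 668567542398) (nat_lit 0) (nat_lit 10552017945) (nat_lit 22) (nat_lit 5) (nat_lit 24) (nat_lit 4) (nat_lit 22) (nat_lit 4) (nat_lit 493) (nat_lit 421) (nat_lit 286)))) (XT.nd (nat_lit 156) (nat_lit 152) (nat_lit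 0) (XT.nd (nat_lit 78) (nat_lit 76) (nat_lit 0) (XT.lf (nat_lit 0) (nat_lit 343046124910) (nat_lit 152) (nat_lit 167019460180) (nat_lit 0) (nat_lit 284431321549) (nat_lit 22) (nat_lit 5) (nat_lit 24) (nat_lit 4) (nat_lit 22) (nat_lit 4) (nat_lit 494) (nat_lit 421) (nat_lit 285)) (XT.lf (nat_lit 0) (nat_lit 387037656312) (nat_lit 76) (nat_lit 257839805611) (nat_lit 76) (nat_lit 199224878640) (nat_lit 21) (nat_lit 4) (nat_lit 22) (nat_lit 5) (nat_lit 22) (nat_lit 4) (nat_lit 495) (nat_lit 421) (nat_lit 284))) (XT.nd (nat_lit 78) (nat_lit 0) (nat_lit 0) (XT.lf (nat_lit 0) (nat_lit 75606403612) (nat_lit 152) (nat_lit 801991649664) (nat_lit 0) (nat_lit 19782554636) (nat_lit 19) (nat_lit 5) (nat_lit 21) (nat_lit 4) (nat_lit 19) (nat_lit 4) (nat_lit 496) (nat_lit 421) (nat_lit 283)) (XT.lf (nat_lit 0) (nat_lit 377976444736) (nat_lit 152) (nat_lit 254002291724) (nat_lit 0) (nat_lit 322152494830) (nat_lit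 19) (nat_lit 5) (nat_lit 21) (nat_lit 4) (nat_lit 19) (nat_lit 4) (nat_lit 497) (nat_lit 421) (nat_lit 282))))) (XT.nd (nat_lit 312) (nat_lit 228) (nat_lit 0) (XT.nd (nat_lit 156) (nat_lit 228) (nat_lit 0) (XT.nd (nat_lit 78) (nat_lit 0) (nat_lit 0) (XT.lf (nat_lit 0) (nat_lit 348994073311) (nat_lit 76) (nat_lit 360989744088) (nat_lit 76) (nat_lit 305165700729) (nat_lit 18) (nat_lit 4) (nat_lit 19) (nat_lit 5) (nat_lit 19) (nat_lit 4) (nat_lit 498) (nat_lit 421) (nat_lit 281)) (XT.lf (nat_lit 0) (nat_lit 1009298448684) (nat_lit 76) (nat_lit 63676885698) (nat_lit 76) (nat_lit 7852755808) (nat_lit 18) (nat_lit 4) (nat_lit 19) (nat_lit 5) (nat_lit 19) (nat_lit 4) (nat_lit 499) (nat_lit 421) (nat_lit 280))) (XT.nd (nat_lit 78) (nat_lit 76) (nat_lit 0) (XT.lf (nat_lit 0) (nat_lit 316592679288) (nat_lit 152) (nat_lit 570828309045) (nat_lit 0) (nat_lit 263426764991) (nat_lit 16) (nat_lit 5) (nat_lit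 18) (nat_lit 4) (nat_lit 16) (nat_lit 4) (nat_lit 500) (nat_lit 421) (nat_lit 279)) (XT.lf (nat_lit 0) (nat_lit 60549621211) (nat_lit 76) (nat_lit 609457252121) (nat_lit 76) (nat_lit 556291267171) (nat_lit 15) (nat_lit 4) (nat_lit 16) (nat_lit 5) (nat_lit 16) (nat_lit 4) (nat_lit 501) (nat_lit 421) (nat_lit 278)))) (XT.nd (nat_lit 156) (nat_lit 76) (nat_lit 0) (XT.nd (nat_lit 78) (nat_lit 152) (nat_lit 0) (XT.lf (nat_lit 0) (nat_lit 762820095753) (nat_lit 76) (nat_lit 298816692015) (nat_lit 76) (nat_lit 245650641645) (nat_lit 15) (nat_lit 4) (nat_lit 16) (nat_lit 5) (nat_lit 16) (nat_lit 4) (nat_lit 502) (nat_lit 421) (nat_lit 277)) (XT.lf (nat_lit 0) (nat_lit 89611527828) (nat_lit 152) (nat_lit 1265964774763) (nat_lit 0) (nat_lit 38977136452) (nat_lit 13) (nat_lit 5) (nat_lit 15) (nat_lit 4) (nat_lit 13) (nat_lit 4) (nat_lit 503) (nat_lit 421) (nat_lit 276))) (XT.nd (nat_lit 78) (nat_lit 76)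 (nat_lit 0) (XT.lf (nat_lit 0) (nat_lit 457880871417) (nat_lit 152) (nat_lit 622732448296) (nat_lit 0) (nat_lit 407246426625) (nat_lit 13) (nat_lit 5) (nat_lit 15) (nat_lit 4) (nat_lit 13) (nat_lit 4) (nat_lit 504) (nat_lit 421) (nat_lit 275)) (XT.lf (nat_lit 0) (nat_lit 74336173494) (nat_lit 76) (nat_lit 782435443134) (nat_lit 76) (nat_lit 731800948882) (nat_lit 12) (nat_lit 4) (nat_lit 13) (nat_lit 5) (nat_lit 13) (nat_lit 4) (nat_lit 505) (nat_lit 421) (nat_lit 274))))))) (XT.nd (nat_lit 1248) (nat_lit 3192) (nat_lit 0) (XT.nd (nat_lit 624) (nat_lit 2584) (nat_lit 0) (XT.nd (nat_lit 312) (nat_lit 380) (nat_lit 0) (XT.nd (nat_lit 156) (nat_lit 0) (nat_lit 76) (XT.nd (nat_lit 78) (nat_lit 0) (nat_lit 76) (XT.lf (nat_lit 0) (nat_lit 3978140650) (nat_lit 836) (nat_lit 3550166585) (nat_lit 836) (nat_lit 3550166585) (nat_lit 163) (nat_lit 3) (nat_lit 174) (nat_lit 3) (nat_lit 174) (nat_lit 5) (nat_lit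 422) (nat_lit 422) (nat_lit 356)) (XT.lf (nat_lit 0) (nat_lit 8687492938) (nat_lit 760) (nat_lit 12158959474) (nat_lit 836) (nat_lit 2176109087) (nat_lit 164) (nat_lit 5) (nat_lit 174) (nat_lit 5) (nat_lit 175) (nat_lit 5) (nat_lit 423) (nat_lit 422) (nat_lit 355))) (XT.nd (nat_lit 78) (nat_lit 0) (nat_lit 76) (XT.lf (nat_lit 76) (nat_lit 6506842145) (nat_lit 0) (nat_lit 3430739974) (nat_lit 836) (nat_lit 13996824920) (nat_lit 165) (nat_lit 5) (nat_lit 164) (nat_lit 5) (nat_lit 175) (nat_lit 5) (nat_lit 424) (nat_lit 422) (nat_lit 354)) (XT.lf (nat_lit 76) (nat_lit 1998877934) (nat_lit 0) (nat_lit 9756049033) (nat_lit 836) (nat_lit 13140912313) (nat_lit 166) (nat_lit 5) (nat_lit 165) (nat_lit 5) (nat_lit 176) (nat_lit 5) (nat_lit 425) (nat_lit 422) (nat_lit 353)))) (XT.nd (nat_lit 156) (nat_lit 608) (nat_lit 0) (XT.nd (nat_lit 78) (nat_lit 0) (nat_lit 76) (XT.lf (nat_lit 0) (nat_lit 14207904429)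 (nat_lit 760) (nat_lit 2535358889) (nat_lit 836) (nat_lit 9166411906) (nat_lit 166) (nat_lit 5) (nat_lit 176) (nat_lit 5) (nat_lit 177) (nat_lit 5) (nat_lit 426) (nat_lit 422) (nat_lit 352)) (XT.lf (nat_lit 0) (nat_lit 17356482156) (nat_lit 760) (nat_lit 7106629807) (nat_lit 836) (nat_lit 2516539251) (nat_lit 167) (nat_lit 5) (nat_lit 177) (nat_lit 5) (nat_lit 178) (nat_lit 5) (nat_lit 427) (nat_lit 422) (nat_lit 351))) (XT.nd (nat_lit 78) (nat_lit 684) (nat_lit 0) (XT.lf (nat_lit 76) (nat_lit 16256091650) (nat_lit 0) (nat_lit 5066303770) (nat_lit 836) (nat_lit 6784558575) (nat_lit 168) (nat_lit 5) (nat_lit 167) (nat_lit 5) (nat_lit 178) (nat_lit 5) (nat_lit 428) (nat_lit 422) (nat_lit 350)) (XT.lf (nat_lit 0) (nat_lit 12562471356) (nat_lit 760) (nat_lit 13598470362) (nat_lit 836) (nat_lit 3135732373) (nat_lit 158) (nat_lit 5) (nat_lit 168) (nat_lit 5) (nat_lit 169) (nat_lit 5) (nat_lit 429)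 (nat_lit 422) (nat_lit 349))))) (XT.nd (nat_lit 312) (nat_lit 1292) (nat_lit 0) (XT.nd (nat_lit 156) (nat_lit 380) (nat_lit 0) (XT.nd (nat_lit 78) (nat_lit 380) (nat_lit 0) (XT.lf (nat_lit 0) (nat_lit 1321402222) (nat_lit 532) (nat_lit 21727804562) (nat_lit 76) (nat_lit 7504629191) (nat_lit 151) (nat_lit 5) (nat_lit 158) (nat_lit 5) (nat_lit 152) (nat_lit 5) (nat_lit 430) (nat_lit 422) (nat_lit 348)) (XT.lf (nat_lit 0) (nat_lit 4991503125) (nat_lit 380) (nat_lit 1625662091) (nat_lit 456) (nat_lit 25262240293) (nat_lit 146) (nat_lit 5) (nat_lit 151) (nat_lit 5) (nat_lit 152) (nat_lit 5) (nat_lit 431) (nat_lit 422) (nat_lit 347))) (XT.nd (nat_lit 78) (nat_lit 0) (nat_lit 0) (XT.lf (nat_lit 0) (nat_lit 1009375688) (nat_lit 380) (nat_lit 12051237648) (nat_lit 456) (nat_lit 20214206889) (nat_lit 141) (nat_lit 5) (nat_lit 146) (nat_lit 5) (nat_lit 147) (nat_lit 5) (nat_lit 432) (nat_lit 422) (nat_lit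 346)) (XT.lf (nat_lit 0) (nat_lit 20683707452) (nat_lit 456) (nat_lit 2880255458) (nat_lit 76) (nat_lit 11184697466) (nat_lit 141) (nat_lit 5) (nat_lit 147) (nat_lit 5) (nat_lit 142) (nat_lit 5) (nat_lit 433) (nat_lit 422) (nat_lit 345)))) (XT.nd (nat_lit 156) (nat_lit 608) (nat_lit 0) (XT.nd (nat_lit 78) (nat_lit 380) (nat_lit 0) (XT.lf (nat_lit 0) (nat_lit 29571330796) (nat_lit 380) (nat_lit 6720470560) (nat_lit 76) (nat_lit 15873006) (nat_lit 137) (nat_lit 5) (nat_lit 142) (nat_lit 5) (nat_lit 138) (nat_lit 5) (nat_lit 434) (nat_lit 422) (nat_lit 344)) (XT.lf (nat_lit 0) (nat_lit 2018274045) (nat_lit 380) (nat_lit 10753511496) (nat_lit 76) (nat_lit 25174832492) (nat_lit 132) (nat_lit 5) (nat_lit 137) (nat_lit 5) (nat_lit 133) (nat_lit 5) (nat_lit 435) (nat_lit 422) (nat_lit 343))) (XT.nd (nat_lit 78) (nat_lit 304) (nat_lit 0) (XT.lf (nat_lit 0) (nat_lit 11947717883) (nat_lit 380) (nat_lit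 14870885466) (nat_lit 76) (nat_lit 12857029559) (nat_lit 128) (nat_lit 5) (nat_lit 133) (nat_lit 5) (nat_lit 129) (nat_lit 5) (nat_lit 436) (nat_lit 422) (nat_lit 342)) (XT.lf (nat_lit 0) (nat_lit 22549644914) (nat_lit 304) (nat_lit 870473643) (nat_lit 380) (nat_lit 18085420883) (nat_lit 124) (nat_lit 5) (nat_lit 128) (nat_lit 5) (nat_lit 129) (nat_lit 5) (nat_lit 437) (nat_lit 422) (nat_lit 341)))))) (XT.nd (nat_lit 624) (nat_lit 1216) (nat_lit 0) (XT.nd (nat_lit 312) (nat_lit 912) (nat_lit 0) (XT.nd (nat_lit 156) (nat_lit 456) (nat_lit 0) (XT.nd (nat_lit 78) (nat_lit 380) (nat_lit 0) (XT.lf (nat_lit 0) (nat_lit 20233770697) (nat_lit 228) (nat_lit 16570936721) (nat_lit 304) (nat_lit 6627411767) (nat_lit 121) (nat_lit 5) (nat_lit 124) (nat_lit 5) (nat_lit 125) (nat_lit 5) (nat_lit 438) (nat_lit 422) (nat_lit 340)) (XT.lf (nat_lit 0) (nat_lit 6376868494) (nat_lit 380) (nat_lit 27464039996) (nat_lit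 76) (nat_lit 11626751834) (nat_lit 116) (nat_lit 5) (nat_lit 121) (nat_lit 5) (nat_lit 117) (nat_lit 5) (nat_lit 439) (nat_lit 422) (nat_lit 339))) (XT.nd (nat_lit 78) (nat_lit 228) (nat_lit 0) (XT.lf (nat_lit 0) (nat_lit 15780347121) (nat_lit 228) (nat_lit 5340577074) (nat_lit 304) (nat_lit 26493107397) (nat_lit 113) (nat_lit 5) (nat_lit 116) (nat_lit 5) (nat_lit 117) (nat_lit 5) (nat_lit 440) (nat_lit 422) (nat_lit 338)) (XT.lf (nat_lit 0) (nat_lit 13575202785) (nat_lit 228) (nat_lit 24557062512) (nat_lit 304) (nat_lit 11745459592) (nat_lit 110) (nat_lit 5) (nat_lit 113) (nat_lit 5) (nat_lit 114) (nat_lit 5) (nat_lit 441) (nat_lit 422) (nat_lit 337)))) (XT.nd (nat_lit 156) (nat_lit 456) (nat_lit 0) (XT.nd (nat_lit 78) (nat_lit 228) (nat_lit 0) (XT.lf (nat_lit 0) (nat_lit 4982322626) (nat_lit 228) (nat_lit 40727103488) (nat_lit 76) (nat_lit 6563114593) (nat_lit 107) (nat_lit 5) (nat_lit 110)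 (nat_lit 5) (nat_lit 108) (nat_lit 5) (nat_lit 442) (nat_lit 422) (nat_lit 336)) (XT.lf (nat_lit 0) (nat_lit 9356566908) (nat_lit 228) (nat_lit 14481638377) (nat_lit 304) (nat_lit 30951040308) (nat_lit 104) (nat_lit 5) (nat_lit 107) (nat_lit 5) (nat_lit 108) (nat_lit 5) (nat_lit 443) (nat_lit 422) (nat_lit 335))) (XT.nd (nat_lit 78) (nat_lit 304) (nat_lit 0) (XT.lf (nat_lit 0) (nat_lit 7341882044) (nat_lit 152) (nat_lit 37990124908) (nat_lit 228) (nat_lit 12118807782) (nat_lit 102) (nat_lit 5) (nat_lit 104) (nat_lit 5) (nat_lit 105) (nat_lit 5) (nat_lit 444) (nat_lit 422) (nat_lit 334)) (XT.lf (nat_lit 0) (nat_lit 5453873127) (nat_lit 228) (nat_lit 3630285839) (nat_lit 304) (nat_lit 51178371471) (nat_lit 98) (nat_lit 5) (nat_lit 101) (nat_lit 5) (nat_lit 102) (nat_lit 5) (nat_lit 445) (nat_lit 422) (nat_lit 333))))) (XT.nd (nat_lit 312) (nat_lit 684) (nat_lit 0) (XT.nd (nat_lit 156) (nat_lit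 228) (nat_lit 0) (XT.nd (nat_lit 78) (nat_lit 152) (nat_lit 0) (XT.lf (nat_lit 0) (nat_lit 3351410818) (nat_lit 152) (nat_lit 29669032211) (nat_lit 228) (nat_lit 30195723951) (nat_lit 96) (nat_lit 5) (nat_lit 98) (nat_lit 5) (nat_lit 99) (nat_lit 5) (nat_lit 446) (nat_lit 422) (nat_lit 332)) (XT.lf (nat_lit 0) (nat_lit 1617231735) (nat_lit 152) (nat_lit 58416236386) (nat_lit 228) (nat_lit 6314534625) (nat_lit 94) (nat_lit 5) (nat_lit 96) (nat_lit 5) (nat_lit 97) (nat_lit 5) (nat_lit 447) (nat_lit 422) (nat_lit 331))) (XT.nd (nat_lit 78) (nat_lit 152) (nat_lit 0) (XT.lf (nat_lit 0) (nat_lit 20408183807) (nat_lit 228) (nat_lit 353787144) (nat_lit 76) (nat_lit 48875488746) (nat_lit 93) (nat_lit 5) (nat_lit 96) (nat_lit 5) (nat_lit 94) (nat_lit 5) (nat_lit 448) (nat_lit 422) (nat_lit 330)) (XT.lf (nat_lit 0) (nat_lit 50489677390) (nat_lit 228) (nat_lit 2118688662) (nat_lit 76) (nat_lit 20504422070)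 (nat_lit 91) (nat_lit 5) (nat_lit 94) (nat_lit 5) (nat_lit 92) (nat_lit 5) (nat_lit 449) (nat_lit 422) (nat_lit 329)))) (XT.nd (nat_lit 156) (nat_lit 304) (nat_lit 0) (XT.nd (nat_lit 78) (nat_lit 152) (nat_lit 0) (XT.lf (nat_lit 0) (nat_lit 7434203642) (nat_lit 228) (nat_lit 3731426276) (nat_lit 76) (nat_lit 65619828950) (nat_lit 88) (nat_lit 5) (nat_lit 91) (nat_lit 5) (nat_lit 89) (nat_lit 5) (nat_lit 450) (nat_lit 422) (nat_lit 328)) (XT.lf (nat_lit 0) (nat_lit 40877545358) (nat_lit 228) (nat_lit 5627786224) (nat_lit 76) (nat_lit 34139366014) (nat_lit 86) (nat_lit 5) (nat_lit 89) (nat_lit 5) (nat_lit 87) (nat_lit 5) (nat_lit 451) (nat_lit 422) (nat_lit 327))) (XT.nd (nat_lit 78) (nat_lit 152) (nat_lit 0) (XT.lf (nat_lit 0) (nat_lit 77677455014) (nat_lit 152) (nat_lit 781238230) (nat_lit 228) (nat_lit 6280865367) (nat_lit 84) (nat_lit 5) (nat_lit 86) (nat_lit 5) (nat_lit 87) (nat_lit 5) (nat_lit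 452) (nat_lit 422) (nat_lit 326)) (XT.lf (nat_lit 0) (nat_lit 31073101850) (nat_lit 152) (nat_lit 9058733971) (nat_lit 76) (nat_lit 48899580780) (nat_lit 82) (nat_lit 5) (nat_lit 84) (nat_lit 5) (nat_lit 83) (nat_lit 5) (nat_lit 453) (nat_lit 422) (nat_lit 325))))))))
noncomputable def xc79 : XT := (XT.nd (nat_lit 2496) (nat_lit 1520) (nat_lit 0) (XT.nd (nat_lit 1248) (nat_lit 1672) (nat_lit 0) (XT.nd (nat_lit 624) (nat_lit 912) (nat_lit 0) (XT.nd (nat_lit 312) (nat_lit 532) (nat_lit 0) (XT.nd (nat_lit 156) (nat_lit 304) (nat_lit 0) (XT.nd (nat_lit 78) (nat_lit 152) (nat_lit 0) (XT.lf (nat_lit 0) (nat_lit 72792708703) (nat_lit 228) (nat_lit 10660702540) (nat_lit 76) (nat_lit 10128195186) (nat_lit 80) (nat_lit 5) (nat_lit 83) (nat_lit 5) (nat_lit 81) (nat_lit 4) (nat_lit 454) (nat_lit 422) (nat_lit 324)) (XT.lf (nat_lit 0) (nat_lit 20948408500) (nat_lit 152) (nat_lit 12559495369) (nat_lit 76)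 (nat_lit 64862109752) (nat_lit 78) (nat_lit 5) (nat_lit 80) (nat_lit 5) (nat_lit 79) (nat_lit 5) (nat_lit 455) (nat_lit 422) (nat_lit 323))) (XT.nd (nat_lit 78) (nat_lit 152) (nat_lit 0) (XT.lf (nat_lit 0) (nat_lit 67236319855) (nat_lit 228) (nat_lit 14449216954) (nat_lit 76) (nat_lit 21741918471) (nat_lit 76) (nat_lit 5) (nat_lit 79) (nat_lit 5) (nat_lit 77) (nat_lit 4) (nat_lit 456) (nat_lit 422) (nat_lit 322)) (XT.lf (nat_lit 0) (nat_lit 10336513267) (nat_lit 152) (nat_lit 16348095185) (nat_lit 76) (nat_lit 82085094988) (nat_lit 74) (nat_lit 5) (nat_lit 76) (nat_lit 5) (nat_lit 75) (nat_lit 5) (nat_lit 457) (nat_lit 422) (nat_lit 321)))) (XT.nd (nat_lit 156) (nat_lit 304) (nat_lit 0) (XT.nd (nat_lit 78) (nat_lit 76) (nat_lit 0) (XT.lf (nat_lit 0) (nat_lit 61640278645) (nat_lit 228) (nat_lit 18678908019) (nat_lit 76) (nat_lit 34074386700) (nat_lit 72) (nat_lit 5) (nat_lit 75) (nat_lit 5) (nat_lit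 73) (nat_lit 4) (nat_lit 458) (nat_lit 422) (nat_lit 320)) (XT.lf (nat_lit 0) (nat_lit 99599313402) (nat_lit 76) (nat_lit 19739702008) (nat_lit 152) (nat_lit 1013804033) (nat_lit 71) (nat_lit 5) (nat_lit 72) (nat_lit 5) (nat_lit 73) (nat_lit 4) (nat_lit 459) (nat_lit 422) (nat_lit 319))) (XT.nd (nat_lit 78) (nat_lit 76) (nat_lit 0) (XT.lf (nat_lit 0) (nat_lit 55813944165) (nat_lit 228) (nat_lit 23723840024) (nat_lit 76) (nat_lit 47072935578) (nat_lit 68) (nat_lit 5) (nat_lit 71) (nat_lit 5) (nat_lit 69) (nat_lit 4) (nat_lit 460) (nat_lit 422) (nat_lit 318)) (XT.lf (nat_lit 0) (nat_lit 106866310210) (nat_lit 76) (nat_lit 12651814718) (nat_lit 152) (nat_lit 13732009684) (nat_lit 67) (nat_lit 5) (nat_lit 68) (nat_lit 5) (nat_lit 69) (nat_lit 4) (nat_lit 461) (nat_lit 422) (nat_lit 317))))) (XT.nd (nat_lit 312) (nat_lit 456) (nat_lit 0) (XT.nd (nat_lit 156) (nat_lit 228) (nat_lit 0) (XT.nd (nat_lit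 78) (nat_lit 76) (nat_lit 0) (XT.lf (nat_lit 0) (nat_lit 49494679864) (nat_lit 152) (nat_lit 30106394720) (nat_lit 76) (nat_lit 60625748282) (nat_lit 65) (nat_lit 5) (nat_lit 67) (nat_lit 5) (nat_lit 66) (nat_lit 4) (nat_lit 462) (nat_lit 422) (nat_lit 316)) (XT.lf (nat_lit 0) (nat_lit 113936485010) (nat_lit 76) (nat_lit 5824376548) (nat_lit 152) (nat_lit 27866405935) (nat_lit 64) (nat_lit 5) (nat_lit 65) (nat_lit 5) (nat_lit 66) (nat_lit 4) (nat_lit 463) (nat_lit 422) (nat_lit 315))) (XT.nd (nat_lit 78) (nat_lit 76) (nat_lit 0) (XT.lf (nat_lit 0) (nat_lit 42323774633) (nat_lit 152) (nat_lit 38546611581) (nat_lit 76) (nat_lit 74539296123) (nat_lit 62) (nat_lit 5) (nat_lit 64) (nat_lit 5) (nat_lit 63) (nat_lit 4) (nat_lit 464) (nat_lit 422) (nat_lit 314)) (XT.lf (nat_lit 0) (nat_lit 119739614383) (nat_lit 152) (nat_lit 43528644731) (nat_lit 0) (nat_lit 394252581) (nat_lit 61) (nat_lit 5) (nat_lit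 63) (nat_lit 4) (nat_lit 61) (nat_lit 4) (nat_lit 465) (nat_lit 422) (nat_lit 313)))) (XT.nd (nat_lit 156) (nat_lit 228) (nat_lit 0) (XT.nd (nat_lit 78) (nat_lit 76) (nat_lit 0) (XT.lf (nat_lit 0) (nat_lit 33815012697) (nat_lit 152) (nat_lit 50026596628) (nat_lit 76) (nat_lit 88508595754) (nat_lit 59) (nat_lit 5) (nat_lit 61) (nat_lit 5) (nat_lit 60) (nat_lit 4) (nat_lit 466) (nat_lit 422) (nat_lit 312)) (XT.lf (nat_lit 0) (nat_lit 119052595992) (nat_lit 152) (nat_lit 57116683044) (nat_lit 0) (nat_lit 5386658312) (nat_lit 58) (nat_lit 5) (nat_lit 60) (nat_lit 4) (nat_lit 58) (nat_lit 4) (nat_lit 467) (nat_lit 422) (nat_lit 311))) (XT.nd (nat_lit 78) (nat_lit 76) (nat_lit 0) (XT.lf (nat_lit 0) (nat_lit 23313727598) (nat_lit 152) (nat_lit 65874437993) (nat_lit 76) (nat_lit 102078136145) (nat_lit 56) (nat_lit 5) (nat_lit 58) (nat_lit 5) (nat_lit 57) (nat_lit 4) (nat_lit 468) (nat_lit 422) (nat_lit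 310)) (XT.lf (nat_lit 0) (nat_lit 116948218903) (nat_lit 152) (nat_lit 75905017337) (nat_lit 0) (nat_lit 8691933341) (nat_lit 55) (nat_lit 5) (nat_lit 57) (nat_lit 4) (nat_lit 55) (nat_lit 4) (nat_lit 469) (nat_lit 422) (nat_lit 309)))))) (XT.nd (nat_lit 624) (nat_lit 760) (nat_lit 0) (XT.nd (nat_lit 312) (nat_lit 456) (nat_lit 0) (XT.nd (nat_lit 156) (nat_lit 228) (nat_lit 0) (XT.nd (nat_lit 78) (nat_lit 76) (nat_lit 0) (XT.lf (nat_lit 0) (nat_lit 9943548456) (nat_lit 152) (nat_lit 87873351852) (nat_lit 76) (nat_lit 114590703556) (nat_lit 53) (nat_lit 5) (nat_lit 55) (nat_lit 5) (nat_lit 54) (nat_lit 4) (nat_lit 470) (nat_lit 422) (nat_lit 308)) (XT.lf (nat_lit 0) (nat_lit 112522619384) (nat_lit 152) (nat_lit 101956175875) (nat_lit 0) (nat_lit 9418936042) (nat_lit 52) (nat_lit 5) (nat_lit 54) (nat_lit 4) (nat_lit 52) (nat_lit 4) (nat_lit 471) (nat_lit 422) (nat_lit 307))) (XT.nd (nat_lit 78)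 (nat_lit 152) (nat_lit 0) (XT.lf (nat_lit 0) (nat_lit 117531381506) (nat_lit 76) (nat_lit 110814291292) (nat_lit 76) (nat_lit 7709513312) (nat_lit 51) (nat_lit 4) (nat_lit 52) (nat_lit 5) (nat_lit 52) (nat_lit 4) (nat_lit 472) (nat_lit 422) (nat_lit 306)) (XT.lf (nat_lit 0) (nat_lit 104551142695) (nat_lit 152) (nat_lit 138015640693) (nat_lit 0) (nat_lit 6355150757) (nat_lit 49) (nat_lit 5) (nat_lit 51) (nat_lit 4) (nat_lit 49) (nat_lit 4) (nat_lit 473) (nat_lit 422) (nat_lit 305)))) (XT.nd (nat_lit 156) (nat_lit 228) (nat_lit 0) (XT.nd (nat_lit 78) (nat_lit 152) (nat_lit 0) (XT.lf (nat_lit 0) (nat_lit 101417391656) (nat_lit 76) (nat_lit 129656807132) (nat_lit 76) (nat_lit 31459921408) (nat_lit 48) (nat_lit 4) (nat_lit 49) (nat_lit 5) (nat_lit 49) (nat_lit 4) (nat_lit 474) (nat_lit 422) (nat_lit 304)) (XT.lf (nat_lit 0) (nat_lit 89217328950) (nat_lit 76) (nat_lit 2204642881) (nat_lit 152) (nat_lit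 185550963970) (nat_lit 46) (nat_lit 5) (nat_lit 47) (nat_lit 5) (nat_lit 48) (nat_lit 4) (nat_lit 475) (nat_lit 422) (nat_lit 303))) (XT.nd (nat_lit 78) (nat_lit 152) (nat_lit 0) (XT.lf (nat_lit 0) (nat_lit 72530884225) (nat_lit 76) (nat_lit 156613470061) (nat_lit 76) (nat_lit 63091108553) (nat_lit 45) (nat_lit 4) (nat_lit 46) (nat_lit 5) (nat_lit 46) (nat_lit 4) (nat_lit 476) (nat_lit 422) (nat_lit 302)) (XT.lf (nat_lit 0) (nat_lit 52288103684) (nat_lit 76) (nat_lit 18839282131) (nat_lit 152) (nat_lit 237328833864) (nat_lit 43) (nat_lit 5) (nat_lit 44) (nat_lit 5) (nat_lit 45) (nat_lit 4) (nat_lit 477) (nat_lit 422) (nat_lit 301))))) (XT.nd (nat_lit 312) (nat_lit 456) (nat_lit 0) (XT.nd (nat_lit 156) (nat_lit 152) (nat_lit 0) (XT.nd (nat_lit 78) (nat_lit 76) (nat_lit 0) (XT.lf (nat_lit 0) (nat_lit 25767465783) (nat_lit 76) (nat_lit 194454091154) (nat_lit 76) (nat_lit 105383935998) (nat_lit 42)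 (nat_lit 4) (nat_lit 43) (nat_lit 5) (nat_lit 43) (nat_lit 4) (nat_lit 478) (nat_lit 422) (nat_lit 300)) (XT.lf (nat_lit 0) (nat_lit 40779659070) (nat_lit 152) (nat_lit 5472405804) (nat_lit 76) (nat_lit 297603115173) (nat_lit 41) (nat_lit 5) (nat_lit 43) (nat_lit 5) (nat_lit 42) (nat_lit 4) (nat_lit 479) (nat_lit 422) (nat_lit 299))) (XT.nd (nat_lit 78) (nat_lit 76) (nat_lit 0) (XT.lf (nat_lit 0) (nat_lit 201890428172) (nat_lit 152) (nat_lit 44180025418) (nat_lit 0) (nat_lit 117060696960) (nat_lit 40) (nat_lit 5) (nat_lit 42) (nat_lit 4) (nat_lit 40) (nat_lit 4) (nat_lit 480) (nat_lit 422) (nat_lit 298)) (XT.lf (nat_lit 0) (nat_lit 294210983618) (nat_lit 76) (nat_lit 87147488077) (nat_lit 76) (nat_lit 2317306361) (nat_lit 39) (nat_lit 4) (nat_lit 40) (nat_lit 5) (nat_lit 40) (nat_lit 4) (nat_lit 481) (nat_lit 422) (nat_lit 297)))) (XT.nd (nat_lit 156) (nat_lit 228) (nat_lit 0) (XT.nd (nat_lit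 78) (nat_lit 76) (nat_lit 0) (XT.lf (nat_lit 0) (nat_lit 170200060560) (nat_lit 152) (nat_lit 145807754476) (nat_lit 0) (nat_lit 89409014035) (nat_lit 37) (nat_lit 5) (nat_lit 39) (nat_lit 4) (nat_lit 37) (nat_lit 4) (nat_lit 482) (nat_lit 422) (nat_lit 296)) (XT.lf (nat_lit 0) (nat_lit 216372064295) (nat_lit 76) (nat_lit 146496533213) (nat_lit 76) (nat_lit 65705118844) (nat_lit 36) (nat_lit 4) (nat_lit 37) (nat_lit 5) (nat_lit 37) (nat_lit 4) (nat_lit 483) (nat_lit 422) (nat_lit 295))) (XT.nd (nat_lit 78) (nat_lit 76) (nat_lit 0) (XT.lf (nat_lit 0) (nat_lit 119414509359) (nat_lit 152) (nat_lit 291316865772) (nat_lit 0) (nat_lit 42469980822) (nat_lit 34) (nat_lit 5) (nat_lit 36) (nat_lit 4) (nat_lit 34) (nat_lit 4) (nat_lit 484) (nat_lit 422) (nat_lit 294)) (XT.lf (nat_lit 0) (nat_lit 93201840434) (nat_lit 76) (nat_lit 231551381721) (nat_lit 76) (nat_lit 154606552835) (nat_lit 33) (nat_lit 4)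 (nat_lit 34) (nat_lit 5) (nat_lit 34) (nat_lit 4) (nat_lit 485) (nat_lit 422) (nat_lit 293))))))) (XT.nd (nat_lit 1248) (nat_lit 228) (nat_lit 0) (XT.nd (nat_lit 624) (nat_lit 608) (nat_lit 0) (XT.nd (nat_lit 312) (nat_lit 304) (nat_lit 0) (XT.nd (nat_lit 156) (nat_lit 228) (nat_lit 0) (XT.nd (nat_lit 78) (nat_lit 0) (nat_lit 0) (XT.lf (nat_lit 0) (nat_lit 11192100803) (nat_lit 76) (nat_lit 31801659094) (nat_lit 152) (nat_lit 464320189398) (nat_lit 31) (nat_lit 5) (nat_lit 32) (nat_lit 5) (nat_lit 33) (nat_lit 4) (nat_lit 486) (nat_lit 422) (nat_lit 292)) (XT.lf (nat_lit 0) (nat_lit 260764842901) (nat_lit 152) (nat_lit 88640374287) (nat_lit 0) (nat_lit 187483543389) (nat_lit 31) (nat_lit 5) (nat_lit 33) (nat_lit 4) (nat_lit 31) (nat_lit 4) (nat_lit 487) (nat_lit 422) (nat_lit 291))) (XT.nd (nat_lit 78) (nat_lit 152) (nat_lit 0) (XT.lf (nat_lit 0) (nat_lit 362502860936) (nat_lit 76) (nat_lit 139649248779)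 (nat_lit 76) (nat_lit 66367722193) (nat_lit 30) (nat_lit 4) (nat_lit 31) (nat_lit 5) (nat_lit 31) (nat_lit 4) (nat_lit 488) (nat_lit 422) (nat_lit 290)) (XT.lf (nat_lit 0) (nat_lit 162095604083) (nat_lit 152) (nat_lit 347804624658) (nat_lit 0) (nat_lit 92303473761) (nat_lit 28) (nat_lit 5) (nat_lit 30) (nat_lit 4) (nat_lit 28) (nat_lit 4) (nat_lit 489) (nat_lit 422) (nat_lit 289)))) (XT.nd (nat_lit 156) (nat_lit 152) (nat_lit 0) (XT.nd (nat_lit 78) (nat_lit 76) (nat_lit 0) (XT.lf (nat_lit 0) (nat_lit 120937749262) (nat_lit 76) (nat_lit 293493220351) (nat_lit 76) (nat_lit 223700904621) (nat_lit 27) (nat_lit 4) (nat_lit 28) (nat_lit 5) (nat_lit 28) (nat_lit 4) (nat_lit 490) (nat_lit 422) (nat_lit 288)) (XT.lf (nat_lit 0) (nat_lit 15854745635) (nat_lit 152) (nat_lit 37290258850) (nat_lit 76) (nat_lit 623473646733) (nat_lit 26) (nat_lit 5) (nat_lit 28) (nat_lit 5) (nat_lit 27) (nat_lit 4) (nat_lit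 491) (nat_lit 422) (nat_lit 287))) (XT.nd (nat_lit 78) (nat_lit 76) (nat_lit 0) (XT.lf (nat_lit 0) (nat_lit 277949278169) (nat_lit 152) (nat_lit 228011048627) (nat_lit 0) (nat_lit 211480091158) (nat_lit 25) (nat_lit 5) (nat_lit 27) (nat_lit 4) (nat_lit 25) (nat_lit 4) (nat_lit 492) (nat_lit 422) (nat_lit 286)) (XT.lf (nat_lit 0) (nat_lit 307040812715) (nat_lit 76) (nat_lit 260319496845) (nat_lit 76) (nat_lit 193850169659) (nat_lit 24) (nat_lit 4) (nat_lit 25) (nat_lit 5) (nat_lit 25) (nat_lit 4) (nat_lit 493) (nat_lit 422) (nat_lit 285))))) (XT.nd (nat_lit 312) (nat_lit 228) (nat_lit 0) (XT.nd (nat_lit 156) (nat_lit 228) (nat_lit 0) (XT.nd (nat_lit 78) (nat_lit 0) (nat_lit 0) (XT.lf (nat_lit 0) (nat_lit 74723386488) (nat_lit 152) (nat_lit 722005451544) (nat_lit 0) (nat_lit 11419141748) (nat_lit 22) (nat_lit 5) (nat_lit 24) (nat_lit 4) (nat_lit 22) (nat_lit 4) (nat_lit 494) (nat_lit 422) (nat_lit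 284)) (XT.lf (nat_lit 0) (nat_lit 370511447918) (nat_lit 152) (nat_lit 180337040840) (nat_lit 0) (nat_lit 307207088724) (nat_lit 22) (nat_lit 5) (nat_lit 24) (nat_lit 4) (nat_lit 22) (nat_lit 4) (nat_lit 495) (nat_lit 422) (nat_lit 283))) (XT.nd (nat_lit 78) (nat_lit 152) (nat_lit 0) (XT.lf (nat_lit 0) (nat_lit 418042733821) (nat_lit 76) (nat_lit 278445612378) (nat_lit 76) (nat_lit 215141147208) (nat_lit 21) (nat_lit 4) (nat_lit 22) (nat_lit 5) (nat_lit 22) (nat_lit 4) (nat_lit 496) (nat_lit 422) (nat_lit 282)) (XT.lf (nat_lit 0) (nat_lit 81675348128) (nat_lit 152) (nat_lit 866109398929) (nat_lit 0) (nat_lit 21385287846) (nat_lit 19) (nat_lit 5) (nat_lit 21) (nat_lit 4) (nat_lit 19) (nat_lit 4) (nat_lit 497) (nat_lit 422) (nat_lit 281)))) (XT.nd (nat_lit 156) (nat_lit 152) (nat_lit 0) (XT.nd (nat_lit 78) (nat_lit 76) (nat_lit 0) (XT.lf (nat_lit 0) (nat_lit 408233479044) (nat_lit 152) (nat_lit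 274283972554) (nat_lit 0) (nat_lit 347943332231) (nat_lit 19) (nat_lit 5) (nat_lit 21) (nat_lit 4) (nat_lit 19) (nat_lit 4) (nat_lit 498) (nat_lit 422) (nat_lit 280)) (XT.lf (nat_lit 0) (nat_lit 376950428412) (nat_lit 76) (nat_lit 389850186728) (nat_lit 76) (nat_lit 329559959795) (nat_lit 18) (nat_lit 4) (nat_lit 19) (nat_lit 5) (nat_lit 19) (nat_lit 4) (nat_lit 499) (nat_lit 422) (nat_lit 279))) (XT.nd (nat_lit 78) (nat_lit 152) (nat_lit 0) (XT.lf (nat_lit 0) (nat_lit 1090076425722) (nat_lit 76) (nat_lit 68753687584) (nat_lit 76) (nat_lit 8463386465) (nat_lit 18) (nat_lit 4) (nat_lit 19) (nat_lit 5) (nat_lit 19) (nat_lit 4) (nat_lit 500) (nat_lit 422) (nat_lit 278)) (XT.lf (nat_lit 0) (nat_lit 341936640350) (nat_lit 152) (nat_lit 616460865353) (nat_lit 0) (nat_lit 284517240530) (nat_lit 16) (nat_lit 5) (nat_lit 18) (nat_lit 4) (nat_lit 16) (nat_lit 4) (nat_lit 501) (nat_lit 422) (nat_lit 277))))))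 (XT.nd (nat_lit 56628) (nat_lit 0) (nat_lit 9728) (XT.nd (nat_lit 56316) (nat_lit 0) (nat_lit 11400) (XT.nd (nat_lit 156) (nat_lit 152) (nat_lit 0) (XT.nd (nat_lit 78) (nat_lit 0) (nat_lit 0) (XT.lf (nat_lit 0) (nat_lit 65425834397) (nat_lit 76) (nat_lit 658197413249) (nat_lit 76) (nat_lit 600777952855) (nat_lit 15) (nat_lit 4) (nat_lit 16) (nat_lit 5) (nat_lit 16) (nat_lit 4) (nat_lit 502) (nat_lit 422) (nat_lit 276)) (XT.lf (nat_lit 0) (nat_lit 823875558497) (nat_lit 76) (nat_lit 322706824560) (nat_lit 76) (nat_lit 265287308079) (nat_lit 15) (nat_lit 4) (nat_lit 16) (nat_lit 5) (nat_lit 16) (nat_lit 4) (nat_lit 503) (nat_lit 422) (nat_lit 275))) (XT.nd (nat_lit 78) (nat_lit 0) (nat_lit 0) (XT.lf (nat_lit 0) (nat_lit 96794923463) (nat_lit 152) (nat_lit 1367212446805) (nat_lit 0) (nat_lit 42109620212) (nat_lit 13) (nat_lit 5) (nat_lit 15) (nat_lit 4) (nat_lit 13) (nat_lit 4) (nat_lit 504) (nat_lit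 422) (nat_lit 274)) (XT.lf (nat_lit 0) (nat_lit 494524742435) (nat_lit 152) (nat_lit 672523720142) (nat_lit 0) (nat_lit 439839393388) (nat_lit 13) (nat_lit 5) (nat_lit 15) (nat_lit 4) (nat_lit 13) (nat_lit 4) (nat_lit 505) (nat_lit 422) (nat_lit 273)))) (XT.nd (nat_lit 156) (nat_lit 0) (nat_lit 76) (XT.nd (nat_lit 78) (nat_lit 0) (nat_lit 76) (XT.lf (nat_lit 0) (nat_lit 4499072502) (nat_lit 836) (nat_lit 3727764775) (nat_lit 836) (nat_lit 3727764775) (nat_lit 163) (nat_lit 3) (nat_lit 174) (nat_lit 3) (nat_lit 174) (nat_lit 5) (nat_lit 423) (nat_lit 423) (nat_lit 354)) (XT.lf (nat_lit 0) (nat_lit 9758274108) (nat_lit 760) (nat_lit 12906409511) (nat_lit 836) (nat_lit 2180864746) (nat_lit 164) (nat_lit 5) (nat_lit 174) (nat_lit 5) (nat_lit 175) (nat_lit 5) (nat_lit 424) (nat_lit 423) (nat_lit 353))) (XT.nd (nat_lit 78) (nat_lit 0) (nat_lit 76) (XT.lf (nat_lit 76) (nat_lit 7242866421) (nat_lit 0)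 (nat_lit 3841032517) (nat_lit 836) (nat_lit 14747668329) (nat_lit 165) (nat_lit 5) (nat_lit 164) (nat_lit 5) (nat_lit 175) (nat_lit 5) (nat_lit 425) (nat_lit 423) (nat_lit 352)) (XT.lf (nat_lit 76) (nat_lit 2383757077) (nat_lit 0) (nat_lit 10638400063) (nat_lit 836) (nat_lit 13848982647) (nat_lit 166) (nat_lit 5) (nat_lit 165) (nat_lit 5) (nat_lit 176) (nat_lit 5) (nat_lit 426) (nat_lit 423) (nat_lit 351))))) (XT.nd (nat_lit 312) (nat_lit 1292) (nat_lit 0) (XT.nd (nat_lit 156) (nat_lit 608) (nat_lit 0) (XT.nd (nat_lit 78) (nat_lit 0) (nat_lit 76) (XT.lf (nat_lit 0) (nat_lit 15645690103) (nat_lit 760) (nat_lit 2513256141) (nat_lit 836) (nat_lit 9808422337) (nat_lit 166) (nat_lit 5) (nat_lit 176) (nat_lit 5) (nat_lit 177) (nat_lit 5) (nat_lit 427) (nat_lit 423) (nat_lit 350)) (XT.lf (nat_lit 0) (nat_lit 19026158769) (nat_lit 760) (nat_lit 7444825627) (nat_lit 836) (nat_lit 2652959721) (nat_lit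 167) (nat_lit 5) (nat_lit 177) (nat_lit 5) (nat_lit 178) (nat_lit 5) (nat_lit 428) (nat_lit 423) (nat_lit 349))) (XT.nd (nat_lit 78) (nat_lit 684) (nat_lit 0) (XT.lf (nat_lit 76) (nat_lit 17776903487) (nat_lit 0) (nat_lit 5515054968) (nat_lit 836) (nat_lit 7050343574) (nat_lit 168) (nat_lit 5) (nat_lit 167) (nat_lit 5) (nat_lit 178) (nat_lit 5) (nat_lit 429) (nat_lit 423) (nat_lit 348)) (XT.lf (nat_lit 0) (nat_lit 13791501653) (nat_lit 760) (nat_lit 14709417877) (nat_lit 836) (nat_lit 3127115110) (nat_lit 158) (nat_lit 5) (nat_lit 168) (nat_lit 5) (nat_lit 169) (nat_lit 5) (nat_lit 430) (nat_lit 423) (nat_lit 347)))) (XT.nd (nat_lit 156) (nat_lit 380) (nat_lit 0) (XT.nd (nat_lit 78) (nat_lit 380) (nat_lit 0) (XT.lf (nat_lit 0) (nat_lit 1662935073) (nat_lit 532) (nat_lit 23231738948) (nat_lit 76) (nat_lit 8091661700) (nat_lit 151) (nat_lit 5) (nat_lit 158) (nat_lit 5) (nat_lit 152) (nat_lit 5)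 (nat_lit 431) (nat_lit 423) (nat_lit 346)) (XT.lf (nat_lit 0) (nat_lit 5614931396) (nat_lit 380) (nat_lit 1753458466) (nat_lit 456) (nat_lit 27050260610) (nat_lit 146) (nat_lit 5) (nat_lit 151) (nat_lit 5) (nat_lit 152) (nat_lit 5) (nat_lit 432) (nat_lit 423) (nat_lit 345))) (XT.nd (nat_lit 78) (nat_lit 0) (nat_lit 0) (XT.lf (nat_lit 0) (nat_lit 1315085363) (nat_lit 380) (nat_lit 12999339904) (nat_lit 456) (nat_lit 21611918633) (nat_lit 141) (nat_lit 5) (nat_lit 146) (nat_lit 5) (nat_lit 147) (nat_lit 5) (nat_lit 433) (nat_lit 423) (nat_lit 344)) (XT.lf (nat_lit 0) (nat_lit 22532119435) (nat_lit 456) (nat_lit 2892924219) (nat_lit 76) (nat_lit 12093811005) (nat_lit 141) (nat_lit 5) (nat_lit 147) (nat_lit 5) (nat_lit 142) (nat_lit 5) (nat_lit 434) (nat_lit 423) (nat_lit 343))))))))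
noncomputable def xc80 : XT := (XT.nd (nat_lit 2418) (nat_lit 3116) (nat_lit 0) (XT.nd (nat_lit 1170) (nat_lit 2356) (nat_lit 0) (XT.nd (nat_lit 546) (nat_lit 1520) (nat_lit 0) (XT.nd (nat_lit 234) (nat_lit 1140) (nat_lit 0) (XT.nd (nat_lit 78) (nat_lit 684) (nat_lit 0) (XT.lf (nat_lit 0) (nat_lit 32120056111) (nat_lit 380) (nat_lit 7041077804) (nat_lit 76) (nat_lit 41991622) (nat_lit 137) (nat_lit 5) (nat_lit 142) (nat_lit 5) (nat_lit 138) (nat_lit 5) (nat_lit 435) (nat_lit 423) (nat_lit 342)) (XT.nd (nat_lit 78) (nat_lit 304) (nat_lit 0) (XT.lf (nat_lit 0) (nat_lit 2355280866) (nat_lit 380) (nat_lit 11400379149) (nat_lit 76) (nat_lit 27217899781) (nat_lit 132) (nat_lit 5) (nat_lit 137) (nat_lit 5) (nat_lit 133) (nat_lit 5) (nat_lit 436) (nat_lit 423) (nat_lit 341)) (XT.lf (nat_lit 0) (nat_lit 13069863746) (nat_lit 380) (nat_lit 15848721304) (nat_lit 76) (nat_lit 13922772408) (nat_lit 128) (nat_lit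 5) (nat_lit 133) (nat_lit 5) (nat_lit 129) (nat_lit 5) (nat_lit 437) (nat_lit 423) (nat_lit 340)))) (XT.nd (nat_lit 156) (nat_lit 608) (nat_lit 0) (XT.nd (nat_lit 78) (nat_lit 228) (nat_lit 0) (XT.lf (nat_lit 0) (nat_lit 24556245415) (nat_lit 304) (nat_lit 894654039) (nat_lit 380) (nat_lit 19367215625) (nat_lit 124) (nat_lit 5) (nat_lit 128) (nat_lit 5) (nat_lit 129) (nat_lit 5) (nat_lit 438) (nat_lit 423) (nat_lit 339)) (XT.lf (nat_lit 0) (nat_lit 22053141983) (nat_lit 228) (nat_lit 17845261276) (nat_lit 304) (nat_lit 7000811215) (nat_lit 121) (nat_lit 5) (nat_lit 124) (nat_lit 5) (nat_lit 125) (nat_lit 5) (nat_lit 439) (nat_lit 423) (nat_lit 338))) (XT.nd (nat_lit 78) (nat_lit 228) (nat_lit 0) (XT.lf (nat_lit 0) (nat_lit 7031452271) (nat_lit 380) (nat_lit 29458048925) (nat_lit 76) (nat_lit 12608342935) (nat_lit 116) (nat_lit 5) (nat_lit 121) (nat_lit 5) (nat_lit 117) (nat_lit 5) (nat_lit 440)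 (nat_lit 423) (nat_lit 337)) (XT.lf (nat_lit 0) (nat_lit 17237062063) (nat_lit 228) (nat_lit 5710304896) (nat_lit 304) (nat_lit 28468941956) (nat_lit 113) (nat_lit 5) (nat_lit 116) (nat_lit 5) (nat_lit 117) (nat_lit 5) (nat_lit 441) (nat_lit 423) (nat_lit 336))))) (XT.nd (nat_lit 312) (nat_lit 684) (nat_lit 0) (XT.nd (nat_lit 156) (nat_lit 380) (nat_lit 0) (XT.nd (nat_lit 78) (nat_lit 228) (nat_lit 0) (XT.lf (nat_lit 0) (nat_lit 14852751420) (nat_lit 228) (nat_lit 26460554764) (nat_lit 304) (nat_lit 12548107451) (nat_lit 110) (nat_lit 5) (nat_lit 113) (nat_lit 5) (nat_lit 114) (nat_lit 5) (nat_lit 442) (nat_lit 423) (nat_lit 335)) (XT.lf (nat_lit 0) (nat_lit 5507579582) (nat_lit 228) (nat_lit 43792535863) (nat_lit 76) (nat_lit 7147889439) (nat_lit 107) (nat_lit 5) (nat_lit 110) (nat_lit 5) (nat_lit 108) (nat_lit 5) (nat_lit 443) (nat_lit 423) (nat_lit 334))) (XT.nd (nat_lit 78) (nat_lit 152)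 (nat_lit 0) (XT.lf (nat_lit 0) (nat_lit 10289452097) (nat_lit 228) (nat_lit 15575976082) (nat_lit 304) (nat_lit 33300943624) (nat_lit 104) (nat_lit 5) (nat_lit 107) (nat_lit 5) (nat_lit 108) (nat_lit 5) (nat_lit 444) (nat_lit 423) (nat_lit 333)) (XT.lf (nat_lit 0) (nat_lit 8110373808) (nat_lit 152) (nat_lit 40963215072) (nat_lit 228) (nat_lit 12967535230) (nat_lit 102) (nat_lit 5) (nat_lit 104) (nat_lit 5) (nat_lit 105) (nat_lit 5) (nat_lit 445) (nat_lit 423) (nat_lit 332)))) (XT.nd (nat_lit 156) (nat_lit 228) (nat_lit 0) (XT.nd (nat_lit 78) (nat_lit 152) (nat_lit 0) (XT.lf (nat_lit 0) (nat_lit 6067153943) (nat_lit 228) (nat_lit 3854752188) (nat_lit 304) (nat_lit 55156071843) (nat_lit 98) (nat_lit 5) (nat_lit 101) (nat_lit 5) (nat_lit 102) (nat_lit 5) (nat_lit 446) (nat_lit 423) (nat_lit 331)) (XT.lf (nat_lit 0) (nat_lit 3793132182) (nat_lit 152) (nat_lit 31975401449) (nat_lit 228) (nat_lit 32499600085)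 (nat_lit 96) (nat_lit 5) (nat_lit 98) (nat_lit 5) (nat_lit 99) (nat_lit 5) (nat_lit 447) (nat_lit 423) (nat_lit 330))) (XT.nd (nat_lit 78) (nat_lit 76) (nat_lit 0) (XT.lf (nat_lit 0) (nat_lit 1916766206) (nat_lit 152) (nat_lit 63021576355) (nat_lit 228) (nat_lit 6712386975) (nat_lit 94) (nat_lit 5) (nat_lit 96) (nat_lit 5) (nat_lit 97) (nat_lit 5) (nat_lit 448) (nat_lit 423) (nat_lit 329)) (XT.lf (nat_lit 0) (nat_lit 22137019823) (nat_lit 228) (nat_lit 221354981) (nat_lit 76) (nat_lit 52845269446) (nat_lit 93) (nat_lit 5) (nat_lit 96) (nat_lit 5) (nat_lit 94) (nat_lit 5) (nat_lit 449) (nat_lit 423) (nat_lit 328)))))) (XT.nd (nat_lit 624) (nat_lit 1064) (nat_lit 0) (XT.nd (nat_lit 312) (nat_lit 608) (nat_lit 0) (XT.nd (nat_lit 156) (nat_lit 304) (nat_lit 0) (XT.nd (nat_lit 78) (nat_lit 228) (nat_lit 0) (XT.lf (nat_lit 0) (nat_lit 54621281377) (nat_lit 228) (nat_lit 2130830750) (nat_lit 76) (nat_lit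 22205074631) (nat_lit 91) (nat_lit 5) (nat_lit 94) (nat_lit 5) (nat_lit 92) (nat_lit 5) (nat_lit 450) (nat_lit 423) (nat_lit 327)) (XT.lf (nat_lit 0) (nat_lit 8118317179) (nat_lit 228) (nat_lit 3876467951) (nat_lit 76) (nat_lit 70929039008) (nat_lit 88) (nat_lit 5) (nat_lit 91) (nat_lit 5) (nat_lit 89) (nat_lit 5) (nat_lit 451) (nat_lit 423) (nat_lit 326))) (XT.nd (nat_lit 78) (nat_lit 152) (nat_lit 0) (XT.lf (nat_lit 0) (nat_lit 44233761849) (nat_lit 228) (nat_lit 5927915751) (nat_lit 76) (nat_lit 36930292773) (nat_lit 86) (nat_lit 5) (nat_lit 89) (nat_lit 5) (nat_lit 87) (nat_lit 5) (nat_lit 452) (nat_lit 423) (nat_lit 325)) (XT.lf (nat_lit 0) (nat_lit 84035221912) (nat_lit 152) (nat_lit 782049870) (nat_lit 228) (nat_lit 6697355155) (nat_lit 84) (nat_lit 5) (nat_lit 86) (nat_lit 5) (nat_lit 87) (nat_lit 5) (nat_lit 453) (nat_lit 423) (nat_lit 324)))) (XT.nd (nat_lit 156) (nat_lit 304) (nat_lit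 0) (XT.nd (nat_lit 78) (nat_lit 152) (nat_lit 0) (XT.lf (nat_lit 0) (nat_lit 33639145780) (nat_lit 152) (nat_lit 9640450926) (nat_lit 76) (nat_lit 52870321487) (nat_lit 82) (nat_lit 5) (nat_lit 84) (nat_lit 5) (nat_lit 83) (nat_lit 5) (nat_lit 454) (nat_lit 423) (nat_lit 323)) (XT.lf (nat_lit 0) (nat_lit 78693458742) (nat_lit 228) (nat_lit 11373912113) (nat_lit 76) (nat_lit 10996895617) (nat_lit 80) (nat_lit 5) (nat_lit 83) (nat_lit 5) (nat_lit 81) (nat_lit 4) (nat_lit 455) (nat_lit 423) (nat_lit 322))) (XT.nd (nat_lit 78) (nat_lit 152) (nat_lit 0) (XT.lf (nat_lit 0) (nat_lit 22699181308) (nat_lit 152) (nat_lit 13428199113) (nat_lit 76) (nat_lit 70108487693) (nat_lit 78) (nat_lit 5) (nat_lit 80) (nat_lit 5) (nat_lit 79) (nat_lit 5) (nat_lit 456) (nat_lit 423) (nat_lit 321)) (XT.lf (nat_lit 0) (nat_lit 72687526706) (nat_lit 228) (nat_lit 15472357977) (nat_lit 76) (nat_lit 23538150482) (nat_lit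 76) (nat_lit 5) (nat_lit 79) (nat_lit 5) (nat_lit 77) (nat_lit 4) (nat_lit 457) (nat_lit 423) (nat_lit 320))))) (XT.nd (nat_lit 312) (nat_lit 456) (nat_lit 0) (XT.nd (nat_lit 156) (nat_lit 304) (nat_lit 0) (XT.nd (nat_lit 78) (nat_lit 152) (nat_lit 0) (XT.lf (nat_lit 0) (nat_lit 11233494462) (nat_lit 152) (nat_lit 17526599830) (nat_lit 76) (nat_lit 88707681116) (nat_lit 74) (nat_lit 5) (nat_lit 76) (nat_lit 5) (nat_lit 75) (nat_lit 5) (nat_lit 458) (nat_lit 423) (nat_lit 319)) (XT.lf (nat_lit 0) (nat_lit 66639191754) (nat_lit 228) (nat_lit 20047046146) (nat_lit 76) (nat_lit 36855435590) (nat_lit 72) (nat_lit 5) (nat_lit 75) (nat_lit 5) (nat_lit 73) (nat_lit 4) (nat_lit 459) (nat_lit 423) (nat_lit 318))) (XT.nd (nat_lit 78) (nat_lit 228) (nat_lit 0) (XT.lf (nat_lit 0) (nat_lit 107687949598) (nat_lit 76) (nat_lit 21262748053) (nat_lit 152) (nat_lit 1027118182) (nat_lit 71) (nat_lit 5) (nat_lit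 72) (nat_lit 5) (nat_lit 73) (nat_lit 4) (nat_lit 460) (nat_lit 423) (nat_lit 317)) (XT.lf (nat_lit 0) (nat_lit 60342511821) (nat_lit 228) (nat_lit 25501951630) (nat_lit 76) (nat_lit 50891940309) (nat_lit 68) (nat_lit 5) (nat_lit 71) (nat_lit 5) (nat_lit 69) (nat_lit 4) (nat_lit 461) (nat_lit 423) (nat_lit 316)))) (XT.nd (nat_lit 156) (nat_lit 228) (nat_lit 0) (XT.nd (nat_lit 78) (nat_lit 152) (nat_lit 0) (XT.lf (nat_lit 0) (nat_lit 115530204452) (nat_lit 76) (nat_lit 13609911497) (nat_lit 152) (nat_lit 14767001471) (nat_lit 67) (nat_lit 5) (nat_lit 68) (nat_lit 5) (nat_lit 69) (nat_lit 4) (nat_lit 462) (nat_lit 423) (nat_lit 315)) (XT.lf (nat_lit 0) (nat_lit 53513797201) (nat_lit 152) (nat_lit 32401238033) (nat_lit 76) (nat_lit 65526955511) (nat_lit 65) (nat_lit 5) (nat_lit 67) (nat_lit 5) (nat_lit 66) (nat_lit 4) (nat_lit 463) (nat_lit 423) (nat_lit 314))) (XT.nd (nat_lit 78) (nat_lit 152)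 (nat_lit 0) (XT.lf (nat_lit 0) (nat_lit 123160132191) (nat_lit 76) (nat_lit 6238428207) (nat_lit 152) (nat_lit 30036046257) (nat_lit 64) (nat_lit 5) (nat_lit 65) (nat_lit 5) (nat_lit 66) (nat_lit 4) (nat_lit 464) (nat_lit 423) (nat_lit 313)) (XT.lf (nat_lit 0) (nat_lit 45765603991) (nat_lit 152) (nat_lit 41522543812) (nat_lit 76) (nat_lit 80551512096) (nat_lit 62) (nat_lit 5) (nat_lit 64) (nat_lit 5) (nat_lit 63) (nat_lit 4) (nat_lit 465) (nat_lit 423) (nat_lit 312))))))) (XT.nd (nat_lit 1248) (nat_lit 1444) (nat_lit 0) (XT.nd (nat_lit 624) (nat_lit 836) (nat_lit 0) (XT.nd (nat_lit 312) (nat_lit 380) (nat_lit 0) (XT.nd (nat_lit 156) (nat_lit 228) (nat_lit 0) (XT.nd (nat_lit 78) (nat_lit 152) (nat_lit 0) (XT.lf (nat_lit 0) (nat_lit 129372954248) (nat_lit 152) (nat_lit 46905930226) (nat_lit 0) (nat_lit 473919014) (nat_lit 61) (nat_lit 5) (nat_lit 63) (nat_lit 4) (nat_lit 61) (nat_lit 4) (nat_lit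 466) (nat_lit 423) (nat_lit 311)) (XT.lf (nat_lit 0) (nat_lit 36572788488) (nat_lit 152) (nat_lit 53926542818) (nat_lit 76) (nat_lit 95636260907) (nat_lit 59) (nat_lit 5) (nat_lit 61) (nat_lit 5) (nat_lit 60) (nat_lit 4) (nat_lit 467) (nat_lit 423) (nat_lit 310))) (XT.nd (nat_lit 78) (nat_lit 152) (nat_lit 0) (XT.lf (nat_lit 0) (nat_lit 128627752174) (nat_lit 152) (nat_lit 61586508165) (nat_lit 0) (nat_lit 5863604076) (nat_lit 58) (nat_lit 5) (nat_lit 60) (nat_lit 4) (nat_lit 58) (nat_lit 4) (nat_lit 468) (nat_lit 423) (nat_lit 309)) (XT.lf (nat_lit 0) (nat_lit 25228284609) (nat_lit 152) (nat_lit 71047572305) (nat_lit 76) (nat_lit 110289275585) (nat_lit 56) (nat_lit 5) (nat_lit 58) (nat_lit 5) (nat_lit 57) (nat_lit 4) (nat_lit 469) (nat_lit 423) (nat_lit 308)))) (XT.nd (nat_lit 156) (nat_lit 152) (nat_lit 0) (XT.nd (nat_lit 78) (nat_lit 152) (nat_lit 0) (XT.lf (nat_lit 0) (nat_lit 126352025934)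 (nat_lit 152) (nat_lit 81883151629) (nat_lit 0) (nat_lit 9431207705) (nat_lit 55) (nat_lit 5) (nat_lit 57) (nat_lit 4) (nat_lit 55) (nat_lit 4) (nat_lit 470) (nat_lit 423) (nat_lit 307)) (XT.lf (nat_lit 0) (nat_lit 10785589120) (nat_lit 152) (nat_lit 94811509904) (nat_lit 76) (nat_lit 123800784954) (nat_lit 53) (nat_lit 5) (nat_lit 55) (nat_lit 5) (nat_lit 54) (nat_lit 4) (nat_lit 471) (nat_lit 423) (nat_lit 306))) (XT.nd (nat_lit 78) (nat_lit 76) (nat_lit 0) (XT.lf (nat_lit 0) (nat_lit 121569581898) (nat_lit 152) (nat_lit 110023396442) (nat_lit 0) (nat_lit 10214313486) (nat_lit 52) (nat_lit 5) (nat_lit 54) (nat_lit 4) (nat_lit 52) (nat_lit 4) (nat_lit 472) (nat_lit 423) (nat_lit 305)) (XT.lf (nat_lit 0) (nat_lit 127019285811) (nat_lit 76) (nat_lit 119637182346) (nat_lit 76) (nat_lit 8280975458) (nat_lit 51) (nat_lit 4) (nat_lit 52) (nat_lit 5) (nat_lit 52) (nat_lit 4) (nat_lit 473) (nat_lit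 423) (nat_lit 304))))) (XT.nd (nat_lit 312) (nat_lit 380) (nat_lit 0) (XT.nd (nat_lit 156) (nat_lit 228) (nat_lit 0) (XT.nd (nat_lit 78) (nat_lit 76) (nat_lit 0) (XT.lf (nat_lit 0) (nat_lit 112957774861) (nat_lit 152) (nat_lit 148972369797) (nat_lit 0) (nat_lit 6903416911) (nat_lit 49) (nat_lit 5) (nat_lit 51) (nat_lit 4) (nat_lit 49) (nat_lit 4) (nat_lit 474) (nat_lit 423) (nat_lit 303)) (XT.lf (nat_lit 0) (nat_lit 109611631911) (nat_lit 76) (nat_lit 139989154643) (nat_lit 76) (nat_lit 33934030415) (nat_lit 48) (nat_lit 4) (nat_lit 49) (nat_lit 5) (nat_lit 49) (nat_lit 4) (nat_lit 475) (nat_lit 423) (nat_lit 302))) (XT.nd (nat_lit 78) (nat_lit 76) (nat_lit 0) (XT.lf (nat_lit 0) (nat_lit 96433357624) (nat_lit 76) (nat_lit 2341857677) (nat_lit 152) (nat_lit 200353580858) (nat_lit 46) (nat_lit 5) (nat_lit 47) (nat_lit 5) (nat_lit 48) (nat_lit 4) (nat_lit 476) (nat_lit 423) (nat_lit 301)) (XT.lf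 (nat_lit 0) (nat_lit 78409883541) (nat_lit 76) (nat_lit 169104340829) (nat_lit 76) (nat_lit 68098159205) (nat_lit 45) (nat_lit 4) (nat_lit 46) (nat_lit 5) (nat_lit 46) (nat_lit 4) (nat_lit 477) (nat_lit 423) (nat_lit 300)))) (XT.nd (nat_lit 156) (nat_lit 152) (nat_lit 0) (XT.nd (nat_lit 78) (nat_lit 76) (nat_lit 0) (XT.lf (nat_lit 0) (nat_lit 56545586802) (nat_lit 76) (nat_lit 20309216980) (nat_lit 152) (nat_lit 256276051936) (nat_lit 43) (nat_lit 5) (nat_lit 44) (nat_lit 5) (nat_lit 45) (nat_lit 4) (nat_lit 478) (nat_lit 423) (nat_lit 299)) (XT.lf (nat_lit 0) (nat_lit 27901287987) (nat_lit 76) (nat_lit 209974131687) (nat_lit 76) (nat_lit 113776705621) (nat_lit 42) (nat_lit 4) (nat_lit 43) (nat_lit 5) (nat_lit 43) (nat_lit 4) (nat_lit 479) (nat_lit 423) (nat_lit 298))) (XT.nd (nat_lit 78) (nat_lit 76) (nat_lit 0) (XT.lf (nat_lit 0) (nat_lit 44076041770) (nat_lit 152) (nat_lit 5842013468) (nat_lit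 76) (nat_lit 321443838568) (nat_lit 41) (nat_lit 5) (nat_lit 43) (nat_lit 5) (nat_lit 42) (nat_lit 4) (nat_lit 480) (nat_lit 423) (nat_lit 297)) (XT.lf (nat_lit 0) (nat_lit 218074682168) (nat_lit 152) (nat_lit 47648091028) (nat_lit 0) (nat_lit 126457218275) (nat_lit 40) (nat_lit 5) (nat_lit 42) (nat_lit 4) (nat_lit 40) (nat_lit 4) (nat_lit 481) (nat_lit 423) (nat_lit 296)))))) (XT.nd (nat_lit 624) (nat_lit 684) (nat_lit 0) (XT.nd (nat_lit 312) (nat_lit 304) (nat_lit 0) (XT.nd (nat_lit 156) (nat_lit 228) (nat_lit 0) (XT.nd (nat_lit 78) (nat_lit 152) (nat_lit 0) (XT.lf (nat_lit 0) (nat_lit 317811315831) (nat_lit 76) (nat_lit 94087398123) (nat_lit 76) (nat_lit 2469547994) (nat_lit 39) (nat_lit 4) (nat_lit 40) (nat_lit 5) (nat_lit 40) (nat_lit 4) (nat_lit 482) (nat_lit 423) (nat_lit 295)) (XT.lf (nat_lit 0) (nat_lit 183847219172) (nat_lit 152) (nat_lit 157409615209) (nat_lit 0) (nat_lit 96591783216)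 (nat_lit 37) (nat_lit 5) (nat_lit 39) (nat_lit 4) (nat_lit 37) (nat_lit 4) (nat_lit 483) (nat_lit 423) (nat_lit 294))) (XT.nd (nat_lit 78) (nat_lit 152) (nat_lit 0) (XT.lf (nat_lit 0) (nat_lit 233741861606) (nat_lit 76) (nat_lit 158186007053) (nat_lit 76) (nat_lit 70930255730) (nat_lit 36) (nat_lit 4) (nat_lit 37) (nat_lit 5) (nat_lit 37) (nat_lit 4) (nat_lit 484) (nat_lit 423) (nat_lit 293)) (XT.lf (nat_lit 0) (nat_lit 128997070589) (nat_lit 152) (nat_lit 314562846783) (nat_lit 0) (nat_lit 45896076942) (nat_lit 34) (nat_lit 5) (nat_lit 36) (nat_lit 4) (nat_lit 34) (nat_lit 4) (nat_lit 485) (nat_lit 423) (nat_lit 292)))) (XT.nd (nat_lit 156) (nat_lit 76) (nat_lit 0) (XT.nd (nat_lit 78) (nat_lit 152) (nat_lit 0) (XT.lf (nat_lit 0) (nat_lit 100714775847) (nat_lit 76) (nat_lit 250046813371) (nat_lit 76) (nat_lit 166945562223) (nat_lit 33) (nat_lit 4) (nat_lit 34) (nat_lit 5) (nat_lit 34) (nat_lit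 4) (nat_lit 486) (nat_lit 423) (nat_lit 291)) (XT.lf (nat_lit 0) (nat_lit 12142692782) (nat_lit 76) (nat_lit 34317883976) (nat_lit 152) (nat_lit 501437122602) (nat_lit 31) (nat_lit 5) (nat_lit 32) (nat_lit 5) (nat_lit 33) (nat_lit 4) (nat_lit 487) (nat_lit 423) (nat_lit 290))) (XT.nd (nat_lit 78) (nat_lit 76) (nat_lit 0) (XT.lf (nat_lit 0) (nat_lit 281651726435) (nat_lit 152) (nat_lit 95679609718) (nat_lit 0) (nat_lit 202507240397) (nat_lit 31) (nat_lit 5) (nat_lit 33) (nat_lit 4) (nat_lit 31) (nat_lit 4) (nat_lit 488) (nat_lit 423) (nat_lit 289)) (XT.lf (nat_lit 0) (nat_lit 391552824705) (nat_lit 76) (nat_lit 150796022975) (nat_lit 76) (nat_lit 71651342258) (nat_lit 30) (nat_lit 4) (nat_lit 31) (nat_lit 5) (nat_lit 31) (nat_lit 4) (nat_lit 489) (nat_lit 423) (nat_lit 288))))) (XT.nd (nat_lit 312) (nat_lit 304) (nat_lit 0) (XT.nd (nat_lit 156) (nat_lit 152) (nat_lit 0) (XT.nd (nat_lit 78) (nat_lit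 76) (nat_lit 0) (XT.lf (nat_lit 0) (nat_lit 175087512036) (nat_lit 152) (nat_lit 375579819665) (nat_lit 0) (nat_lit 99711453965) (nat_lit 28) (nat_lit 5) (nat_lit 30) (nat_lit 4) (nat_lit 28) (nat_lit 4) (nat_lit 490) (nat_lit 423) (nat_lit 287)) (XT.lf (nat_lit 0) (nat_lit 130659807085) (nat_lit 76) (nat_lit 316948837107) (nat_lit 76) (nat_lit 241572620079) (nat_lit 27) (nat_lit 4) (nat_lit 28) (nat_lit 5) (nat_lit 28) (nat_lit 4) (nat_lit 491) (nat_lit 423) (nat_lit 286))) (XT.nd (nat_lit 78) (nat_lit 76) (nat_lit 0) (XT.lf (nat_lit 0) (nat_lit 17144956155) (nat_lit 152) (nat_lit 40229204091) (nat_lit 76) (nat_lit 673372891480) (nat_lit 26) (nat_lit 5) (nat_lit 28) (nat_lit 5) (nat_lit 27) (nat_lit 4) (nat_lit 492) (nat_lit 423) (nat_lit 285)) (XT.lf (nat_lit 0) (nat_lit 300206430718) (nat_lit 152) (nat_lit 246208872723) (nat_lit 0) (nat_lit 228419287393) (nat_lit 25) (nat_lit 5) (nat_lit 27)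 (nat_lit 4) (nat_lit 25) (nat_lit 4) (nat_lit 493) (nat_lit 423) (nat_lit 284)))) (XT.nd (nat_lit 156) (nat_lit 76) (nat_lit 0) (XT.nd (nat_lit 78) (nat_lit 152) (nat_lit 0) (XT.lf (nat_lit 0) (nat_lit 331645266201) (nat_lit 76) (nat_lit 281124150353) (nat_lit 76) (nat_lit 209336886851) (nat_lit 24) (nat_lit 4) (nat_lit 25) (nat_lit 5) (nat_lit 25) (nat_lit 4) (nat_lit 494) (nat_lit 423) (nat_lit 283)) (XT.lf (nat_lit 0) (nat_lit 80721287976) (nat_lit 152) (nat_lit 779725169007) (nat_lit 0) (nat_lit 12352359617) (nat_lit 22) (nat_lit 5) (nat_lit 24) (nat_lit 4) (nat_lit 22) (nat_lit 4) (nat_lit 495) (nat_lit 423) (nat_lit 282))) (XT.nd (nat_lit 78) (nat_lit 76) (nat_lit 0) (XT.lf (nat_lit 0) (nat_lit 400170910575) (nat_lit 152) (nat_lit 194726301644) (nat_lit 0) (nat_lit 331801884090) (nat_lit 22) (nat_lit 5) (nat_lit 24) (nat_lit 4) (nat_lit 22) (nat_lit 4) (nat_lit 496) (nat_lit 423) (nat_lit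 281)) (XT.lf (nat_lit 0) (nat_lit 451522216487) (nat_lit 76) (nat_lit 300702933452) (nat_lit 76) (nat_lit 232333816109) (nat_lit 21) (nat_lit 4) (nat_lit 22) (nat_lit 5) (nat_lit 22) (nat_lit 4) (nat_lit 497) (nat_lit 423) (nat_lit 280))))))))
noncomputable def xc81 : XT := (XT.nd (nat_lit 58578) (nat_lit 0) (nat_lit 2280) (XT.nd (nat_lit 57330) (nat_lit 0) (nat_lit 6460) (XT.nd (nat_lit 56706) (nat_lit 0) (nat_lit 11020) (XT.nd (nat_lit 312) (nat_lit 380) (nat_lit 0) (XT.nd (nat_lit 156) (nat_lit 76) (nat_lit 0) (XT.nd (nat_lit 78) (nat_lit 0) (nat_lit 0) (XT.lf (nat_lit 0) (nat_lit 88226893319) (nat_lit 152) (nat_lit 935362500373) (nat_lit 0) (nat_lit 23113368110) (nat_lit 19) (nat_lit 5) (nat_lit 21) (nat_lit 4) (nat_lit 19) (nat_lit 4) (nat_lit 498) (nat_lit 423) (nat_lit 279)) (XT.lf (nat_lit 0) (nat_lit 440908377127) (nat_lit 152) (nat_lit 296193680664) (nat_lit 0) (nat_lit 375794777732)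 (nat_lit 19) (nat_lit 5) (nat_lit 21) (nat_lit 4) (nat_lit 19) (nat_lit 4) (nat_lit 499) (nat_lit 423) (nat_lit 278))) (XT.nd (nat_lit 78) (nat_lit 0) (nat_lit 0) (XT.lf (nat_lit 0) (nat_lit 407138037818) (nat_lit 76) (nat_lit 421022137806) (nat_lit 76) (nat_lit 355908469720) (nat_lit 18) (nat_lit 4) (nat_lit 19) (nat_lit 5) (nat_lit 19) (nat_lit 4) (nat_lit 500) (nat_lit 423) (nat_lit 277)) (XT.lf (nat_lit 0) (nat_lit 1177311776015) (nat_lit 76) (nat_lit 74239108646) (nat_lit 76) (nat_lit 9125376957) (nat_lit 18) (nat_lit 4) (nat_lit 19) (nat_lit 5) (nat_lit 19) (nat_lit 4) (nat_lit 501) (nat_lit 423) (nat_lit 276)))) (XT.nd (nat_lit 156) (nat_lit 152) (nat_lit 0) (XT.nd (nat_lit 78) (nat_lit 76) (nat_lit 0) (XT.lf (nat_lit 0) (nat_lit 369305757723) (nat_lit 152) (nat_lit 665748835047) (nat_lit 0) (nat_lit 307292623836) (nat_lit 16) (nat_lit 5) (nat_lit 18) (nat_lit 4) (nat_lit 16) (nat_lit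 4) (nat_lit 502) (nat_lit 423) (nat_lit 275)) (XT.lf (nat_lit 0) (nat_lit 70687544745) (nat_lit 76) (nat_lit 710839129626) (nat_lit 76) (nat_lit 648825943808) (nat_lit 15) (nat_lit 4) (nat_lit 16) (nat_lit 5) (nat_lit 16) (nat_lit 4) (nat_lit 503) (nat_lit 423) (nat_lit 274))) (XT.nd (nat_lit 78) (nat_lit 152) (nat_lit 0) (XT.lf (nat_lit 0) (nat_lit 889811199098) (nat_lit 76) (nat_lit 348510336560) (nat_lit 76) (nat_lit 286497102655) (nat_lit 15) (nat_lit 4) (nat_lit 16) (nat_lit 5) (nat_lit 16) (nat_lit 4) (nat_lit 504) (nat_lit 423) (nat_lit 273)) (XT.lf (nat_lit 0) (nat_lit 104550925955) (nat_lit 152) (nat_lit 1476564142534) (nat_lit 0) (nat_lit 45490660785) (nat_lit 13) (nat_lit 5) (nat_lit 15) (nat_lit 4) (nat_lit 13) (nat_lit 4) (nat_lit 505) (nat_lit 423) (nat_lit 272))))) (XT.nd (nat_lit 312) (nat_lit 380) (nat_lit 0) (XT.nd (nat_lit 156) (nat_lit 0) (nat_lit 76) (XT.nd (nat_lit 78) (nat_lit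 0) (nat_lit 76) (XT.lf (nat_lit 0) (nat_lit 5032764249) (nat_lit 836) (nat_lit 3934752130) (nat_lit 836) (nat_lit 3934752130) (nat_lit 163) (nat_lit 3) (nat_lit 174) (nat_lit 3) (nat_lit 174) (nat_lit 5) (nat_lit 424) (nat_lit 424) (nat_lit 352)) (XT.lf (nat_lit 0) (nat_lit 10861108306) (nat_lit 760) (nat_lit 13745792367) (nat_lit 836) (nat_lit 2210158112) (nat_lit 164) (nat_lit 5) (nat_lit 174) (nat_lit 5) (nat_lit 175) (nat_lit 5) (nat_lit 425) (nat_lit 424) (nat_lit 351))) (XT.nd (nat_lit 78) (nat_lit 0) (nat_lit 76) (XT.lf (nat_lit 76) (nat_lit 8007032449) (nat_lit 0) (nat_lit 4264770319) (nat_lit 836) (nat_lit 15611207290) (nat_lit 165) (nat_lit 5) (nat_lit 164) (nat_lit 5) (nat_lit 175) (nat_lit 5) (nat_lit 426) (nat_lit 424) (nat_lit 350)) (XT.lf (nat_lit 76) (nat_lit 2767332221) (nat_lit 0) (nat_lit 11576806694) (nat_lit 836) (nat_lit 14662660302) (nat_lit 166) (nat_lit 5) (nat_lit 165)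 (nat_lit 5) (nat_lit 176) (nat_lit 5) (nat_lit 427) (nat_lit 424) (nat_lit 349)))) (XT.nd (nat_lit 156) (nat_lit 608) (nat_lit 0) (XT.nd (nat_lit 78) (nat_lit 0) (nat_lit 76) (XT.lf (nat_lit 0) (nat_lit 17155535742) (nat_lit 760) (nat_lit 2521474161) (nat_lit 836) (nat_lit 10514818927) (nat_lit 166) (nat_lit 5) (nat_lit 176) (nat_lit 5) (nat_lit 177) (nat_lit 5) (nat_lit 428) (nat_lit 424) (nat_lit 348)) (XT.lf (nat_lit 0) (nat_lit 20789299172) (nat_lit 760) (nat_lit 7842936913) (nat_lit 836) (nat_lit 2809552920) (nat_lit 167) (nat_lit 5) (nat_lit 177) (nat_lit 5) (nat_lit 178) (nat_lit 5) (nat_lit 429) (nat_lit 424) (nat_lit 347))) (XT.nd (nat_lit 78) (nat_lit 684) (nat_lit 0) (XT.lf (nat_lit 76) (nat_lit 19387948517) (nat_lit 0) (nat_lit 5993508076) (nat_lit 836) (nat_lit 7376905622) (nat_lit 168) (nat_lit 5) (nat_lit 167) (nat_lit 5) (nat_lit 178) (nat_lit 5) (nat_lit 430) (nat_lit 424) (nat_lit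 346)) (XT.lf (nat_lit 0) (nat_lit 15086893620) (nat_lit 760) (nat_lit 15905950016) (nat_lit 836) (nat_lit 3154825597) (nat_lit 158) (nat_lit 5) (nat_lit 168) (nat_lit 5) (nat_lit 169) (nat_lit 5) (nat_lit 431) (nat_lit 424) (nat_lit 345)))))) (XT.nd (nat_lit 624) (nat_lit 1976) (nat_lit 0) (XT.nd (nat_lit 312) (nat_lit 1292) (nat_lit 0) (XT.nd (nat_lit 156) (nat_lit 380) (nat_lit 0) (XT.nd (nat_lit 78) (nat_lit 380) (nat_lit 0) (XT.lf (nat_lit 0) (nat_lit 1998148097) (nat_lit 532) (nat_lit 24889412170) (nat_lit 76) (nat_lit 8727559600) (nat_lit 151) (nat_lit 5) (nat_lit 158) (nat_lit 5) (nat_lit 152) (nat_lit 5) (nat_lit 432) (nat_lit 424) (nat_lit 344)) (XT.lf (nat_lit 0) (nat_lit 6256262415) (nat_lit 380) (nat_lit 1891800479) (nat_lit 456) (nat_lit 29014556745) (nat_lit 146) (nat_lit 5) (nat_lit 151) (nat_lit 5) (nat_lit 152) (nat_lit 5) (nat_lit 433) (nat_lit 424) (nat_lit 343))) (XT.nd (nat_lit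 78) (nat_lit 0) (nat_lit 0) (XT.lf (nat_lit 0) (nat_lit 1613158806) (nat_lit 380) (nat_lit 14025572456) (nat_lit 456) (nat_lit 23152750719) (nat_lit 141) (nat_lit 5) (nat_lit 146) (nat_lit 5) (nat_lit 147) (nat_lit 5) (nat_lit 434) (nat_lit 424) (nat_lit 342)) (XT.lf (nat_lit 0) (nat_lit 24500768710) (nat_lit 456) (nat_lit 2937671192) (nat_lit 76) (nat_lit 13073608187) (nat_lit 141) (nat_lit 5) (nat_lit 147) (nat_lit 5) (nat_lit 142) (nat_lit 5) (nat_lit 435) (nat_lit 424) (nat_lit 341)))) (XT.nd (nat_lit 156) (nat_lit 608) (nat_lit 0) (XT.nd (nat_lit 78) (nat_lit 380) (nat_lit 0) (XT.lf (nat_lit 0) (nat_lit 34846569766) (nat_lit 380) (nat_lit 7418295439) (nat_lit 76) (nat_lit 66654771) (nat_lit 137) (nat_lit 5) (nat_lit 142) (nat_lit 5) (nat_lit 138) (nat_lit 5) (nat_lit 436) (nat_lit 424) (nat_lit 340)) (XT.lf (nat_lit 0) (nat_lit 2694204791) (nat_lit 380) (nat_lit 12129442003) (nat_lit 76)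 (nat_lit 29420263768) (nat_lit 132) (nat_lit 5) (nat_lit 137) (nat_lit 5) (nat_lit 133) (nat_lit 5) (nat_lit 437) (nat_lit 424) (nat_lit 339))) (XT.nd (nat_lit 78) (nat_lit 304) (nat_lit 0) (XT.lf (nat_lit 0) (nat_lit 14258052667) (nat_lit 380) (nat_lit 16935004640) (nat_lit 76) (nat_lit 15068470472) (nat_lit 128) (nat_lit 5) (nat_lit 133) (nat_lit 5) (nat_lit 129) (nat_lit 5) (nat_lit 438) (nat_lit 424) (nat_lit 338)) (XT.lf (nat_lit 0) (nat_lit 26694466678) (nat_lit 304) (nat_lit 927253887) (nat_lit 380) (nat_lit 20775098594) (nat_lit 124) (nat_lit 5) (nat_lit 128) (nat_lit 5) (nat_lit 129) (nat_lit 5) (nat_lit 439) (nat_lit 424) (nat_lit 337))))) (XT.nd (nat_lit 312) (nat_lit 912) (nat_lit 0) (XT.nd (nat_lit 156) (nat_lit 456) (nat_lit 0) (XT.nd (nat_lit 78) (nat_lit 380) (nat_lit 0) (XT.lf (nat_lit 0) (nat_lit 23989435207) (nat_lit 228) (nat_lit 19228857501) (nat_lit 304) (nat_lit 7426450963)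 (nat_lit 121) (nat_lit 5) (nat_lit 124) (nat_lit 5) (nat_lit 125) (nat_lit 5) (nat_lit 440) (nat_lit 424) (nat_lit 336)) (XT.lf (nat_lit 0) (nat_lit 7717797583) (nat_lit 380) (nat_lit 31640555090) (nat_lit 76) (nat_lit 13661121270) (nat_lit 116) (nat_lit 5) (nat_lit 121) (nat_lit 5) (nat_lit 117) (nat_lit 5) (nat_lit 441) (nat_lit 424) (nat_lit 335))) (XT.nd (nat_lit 78) (nat_lit 228) (nat_lit 0) (XT.lf (nat_lit 0) (nat_lit 18782596962) (nat_lit 228) (nat_lit 6117816579) (nat_lit 304) (nat_lit 30623331428) (nat_lit 113) (nat_lit 5) (nat_lit 116) (nat_lit 5) (nat_lit 117) (nat_lit 5) (nat_lit 442) (nat_lit 424) (nat_lit 334)) (XT.lf (nat_lit 0) (nat_lit 16205179707) (nat_lit 228) (nat_lit 28525039106) (nat_lit 304) (nat_lit 13434510138) (nat_lit 110) (nat_lit 5) (nat_lit 113) (nat_lit 5) (nat_lit 114) (nat_lit 5) (nat_lit 443) (nat_lit 424) (nat_lit 333)))) (XT.nd (nat_lit 156) (nat_lit 456) (nat_lit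 0) (XT.nd (nat_lit 78) (nat_lit 228) (nat_lit 0) (XT.lf (nat_lit 0) (nat_lit 6056786039) (nat_lit 228) (nat_lit 47130698760) (nat_lit 76) (nat_lit 7770925737) (nat_lit 107) (nat_lit 5) (nat_lit 110) (nat_lit 5) (nat_lit 108) (nat_lit 5) (nat_lit 444) (nat_lit 424) (nat_lit 332)) (XT.lf (nat_lit 0) (nat_lit 11270667110) (nat_lit 228) (nat_lit 16767018705) (nat_lit 304) (nat_lit 35856840180) (nat_lit 104) (nat_lit 5) (nat_lit 107) (nat_lit 5) (nat_lit 108) (nat_lit 5) (nat_lit 445) (nat_lit 424) (nat_lit 331))) (XT.nd (nat_lit 78) (nat_lit 304) (nat_lit 0) (XT.lf (nat_lit 0) (nat_lit 8914503096) (nat_lit 152) (nat_lit 44183585181) (nat_lit 228) (nat_lit 13901391088) (nat_lit 102) (nat_lit 5) (nat_lit 104) (nat_lit 5) (nat_lit 105) (nat_lit 5) (nat_lit 446) (nat_lit 424) (nat_lit 330)) (XT.lf (nat_lit 0) (nat_lit 6704250338) (nat_lit 228) (nat_lit 4106585281) (nat_lit 304) (nat_lit 59468618164)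 (nat_lit 98) (nat_lit 5) (nat_lit 101) (nat_lit 5) (nat_lit 102) (nat_lit 5) (nat_lit 447) (nat_lit 424) (nat_lit 329))))))) (XT.nd (nat_lit 1248) (nat_lit 1824) (nat_lit 0) (XT.nd (nat_lit 624) (nat_lit 1140) (nat_lit 0) (XT.nd (nat_lit 312) (nat_lit 684) (nat_lit 0) (XT.nd (nat_lit 156) (nat_lit 228) (nat_lit 0) (XT.nd (nat_lit 78) (nat_lit 152) (nat_lit 0) (XT.lf (nat_lit 0) (nat_lit 4245424061) (nat_lit 152) (nat_lit 34475860399) (nat_lit 228) (nat_lit 35003733230) (nat_lit 96) (nat_lit 5) (nat_lit 98) (nat_lit 5) (nat_lit 99) (nat_lit 5) (nat_lit 448) (nat_lit 424) (nat_lit 328)) (XT.lf (nat_lit 0) (nat_lit 2215988789) (nat_lit 152) (nat_lit 68005038625) (nat_lit 228) (nat_lit 7157376544) (nat_lit 94) (nat_lit 5) (nat_lit 96) (nat_lit 5) (nat_lit 97) (nat_lit 5) (nat_lit 449) (nat_lit 424) (nat_lit 327))) (XT.nd (nat_lit 78) (nat_lit 152) (nat_lit 0) (XT.lf (nat_lit 0) (nat_lit 23990441381)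 (nat_lit 228) (nat_lit 101258910) (nat_lit 76) (nat_lit 57124109795) (nat_lit 93) (nat_lit 5) (nat_lit 96) (nat_lit 5) (nat_lit 94) (nat_lit 5) (nat_lit 450) (nat_lit 424) (nat_lit 326)) (XT.lf (nat_lit 0) (nat_lit 59070227539) (nat_lit 228) (nat_lit 2166392372) (nat_lit 76) (nat_lit 24033177100) (nat_lit 91) (nat_lit 5) (nat_lit 94) (nat_lit 5) (nat_lit 92) (nat_lit 5) (nat_lit 451) (nat_lit 424) (nat_lit 325)))) (XT.nd (nat_lit 156) (nat_lit 304) (nat_lit 0) (XT.nd (nat_lit 78) (nat_lit 152) (nat_lit 0) (XT.lf (nat_lit 0) (nat_lit 8844409136) (nat_lit 228) (nat_lit 4055007518) (nat_lit 76) (nat_lit 76654479878) (nat_lit 88) (nat_lit 5) (nat_lit 91) (nat_lit 5) (nat_lit 89) (nat_lit 5) (nat_lit 452) (nat_lit 424) (nat_lit 324)) (XT.lf (nat_lit 0) (nat_lit 47846204964) (nat_lit 228) (nat_lit 6273468137) (nat_lit 76) (nat_lit 39935965748) (nat_lit 86) (nat_lit 5) (nat_lit 89) (nat_lit 5) (nat_lit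 87) (nat_lit 5) (nat_lit 453) (nat_lit 424) (nat_lit 323))) (XT.nd (nat_lit 78) (nat_lit 152) (nat_lit 0) (XT.lf (nat_lit 0) (nat_lit 90881128225) (nat_lit 152) (nat_lit 791726841) (nat_lit 228) (nat_lit 7159430055) (nat_lit 84) (nat_lit 5) (nat_lit 86) (nat_lit 5) (nat_lit 87) (nat_lit 5) (nat_lit 454) (nat_lit 424) (nat_lit 322)) (XT.lf (nat_lit 0) (nat_lit 36399032399) (nat_lit 152) (nat_lit 10289103183) (nat_lit 76) (nat_lit 57150336648) (nat_lit 82) (nat_lit 5) (nat_lit 84) (nat_lit 5) (nat_lit 83) (nat_lit 5) (nat_lit 455) (nat_lit 424) (nat_lit 321))))) (XT.nd (nat_lit 312) (nat_lit 532) (nat_lit 0) (XT.nd (nat_lit 156) (nat_lit 304) (nat_lit 0) (XT.nd (nat_lit 78) (nat_lit 152) (nat_lit 0) (XT.lf (nat_lit 0) (nat_lit 85055236318) (nat_lit 228) (nat_lit 12164100605) (nat_lit 76) (nat_lit 11926754277) (nat_lit 80) (nat_lit 5) (nat_lit 83) (nat_lit 5) (nat_lit 81) (nat_lit 4) (nat_lit 456)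 (nat_lit 424) (nat_lit 320)) (XT.lf (nat_lit 0) (nat_lit 24579330599) (nat_lit 152) (nat_lit 14385809050) (nat_lit 76) (nat_lit 75766385810) (nat_lit 78) (nat_lit 5) (nat_lit 80) (nat_lit 5) (nat_lit 79) (nat_lit 5) (nat_lit 457) (nat_lit 424) (nat_lit 319))) (XT.nd (nat_lit 78) (nat_lit 152) (nat_lit 0) (XT.lf (nat_lit 0) (nat_lit 78564515523) (nat_lit 228) (nat_lit 16596295163) (nat_lit 76) (nat_lit 25469966696) (nat_lit 76) (nat_lit 5) (nat_lit 79) (nat_lit 5) (nat_lit 77) (nat_lit 4) (nat_lit 458) (nat_lit 424) (nat_lit 318)) (XT.lf (nat_lit 0) (nat_lit 12192239292) (nat_lit 152) (nat_lit 18817837067) (nat_lit 76) (nat_lit 95852116705) (nat_lit 74) (nat_lit 5) (nat_lit 76) (nat_lit 5) (nat_lit 75) (nat_lit 5) (nat_lit 459) (nat_lit 424) (nat_lit 317)))) (XT.nd (nat_lit 156) (nat_lit 304) (nat_lit 0) (XT.nd (nat_lit 78) (nat_lit 76) (nat_lit 0) (XT.lf (nat_lit 0) (nat_lit 72028361059) (nat_lit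 228) (nat_lit 21542635527) (nat_lit 76) (nat_lit 39851108053) (nat_lit 72) (nat_lit 5) (nat_lit 75) (nat_lit 5) (nat_lit 73) (nat_lit 4) (nat_lit 460) (nat_lit 424) (nat_lit 316)) (XT.lf (nat_lit 0) (nat_lit 116406458752) (nat_lit 76) (nat_lit 22915645370) (nat_lit 152) (nat_lit 1051168490) (nat_lit 71) (nat_lit 5) (nat_lit 72) (nat_lit 5) (nat_lit 73) (nat_lit 4) (nat_lit 461) (nat_lit 424) (nat_lit 315))) (XT.nd (nat_lit 78) (nat_lit 76) (nat_lit 0) (XT.lf (nat_lit 0) (nat_lit 65224312735) (nat_lit 228) (nat_lit 27439402345) (nat_lit 76) (nat_lit 55008880141) (nat_lit 68) (nat_lit 5) (nat_lit 71) (nat_lit 5) (nat_lit 69) (nat_lit 4) (nat_lit 462) (nat_lit 424) (nat_lit 314)) (XT.lf (nat_lit 0) (nat_lit 124870862771) (nat_lit 76) (nat_lit 14652366627) (nat_lit 152) (nat_lit 15893861427) (nat_lit 67) (nat_lit 5) (nat_lit 68) (nat_lit 5) (nat_lit 69) (nat_lit 4) (nat_lit 463) (nat_lit 424) (nat_lit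 313)))))) (XT.nd (nat_lit 624) (nat_lit 912) (nat_lit 0) (XT.nd (nat_lit 312) (nat_lit 456) (nat_lit 0) (XT.nd (nat_lit 156) (nat_lit 228) (nat_lit 0) (XT.nd (nat_lit 78) (nat_lit 76) (nat_lit 0) (XT.lf (nat_lit 0) (nat_lit 57845949459) (nat_lit 152) (nat_lit 34895884860) (nat_lit 76) (nat_lit 70812962575) (nat_lit 65) (nat_lit 5) (nat_lit 67) (nat_lit 5) (nat_lit 66) (nat_lit 4) (nat_lit 464) (nat_lit 424) (nat_lit 312)) (XT.lf (nat_lit 0) (nat_lit 133106159827) (nat_lit 76) (nat_lit 6693007894) (nat_lit 152) (nat_lit 32387770705) (nat_lit 64) (nat_lit 5) (nat_lit 65) (nat_lit 5) (nat_lit 66) (nat_lit 4) (nat_lit 465) (nat_lit 424) (nat_lit 311))) (XT.nd (nat_lit 78) (nat_lit 76) (nat_lit 0) (XT.lf (nat_lit 0) (nat_lit 49474801031) (nat_lit 152) (nat_lit 44751929026) (nat_lit 76) (nat_lit 87037704638) (nat_lit 62) (nat_lit 5) (nat_lit 64) (nat_lit 5) (nat_lit 63) (nat_lit 4) (nat_lit 466) (nat_lit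 424) (nat_lit 310)) (XT.lf (nat_lit 0) (nat_lit 139769233244) (nat_lit 152) (nat_lit 50568378852) (nat_lit 0) (nat_lit 553093018) (nat_lit 61) (nat_lit 5) (nat_lit 63) (nat_lit 4) (nat_lit 61) (nat_lit 4) (nat_lit 467) (nat_lit 424) (nat_lit 309)))) (XT.nd (nat_lit 156) (nat_lit 228) (nat_lit 0) (XT.nd (nat_lit 78) (nat_lit 76) (nat_lit 0) (XT.lf (nat_lit 0) (nat_lit 39543685963) (nat_lit 152) (nat_lit 58153062041) (nat_lit 76) (nat_lit 103327437408) (nat_lit 59) (nat_lit 5) (nat_lit 61) (nat_lit 5) (nat_lit 60) (nat_lit 4) (nat_lit 468) (nat_lit 424) (nat_lit 308)) (XT.lf (nat_lit 0) (nat_lit 138961652477) (nat_lit 152) (nat_lit 66428115442) (nat_lit 0) (nat_lit 6372141219) (nat_lit 58) (nat_lit 5) (nat_lit 60) (nat_lit 4) (nat_lit 58) (nat_lit 4) (nat_lit 469) (nat_lit 424) (nat_lit 307))) (XT.nd (nat_lit 78) (nat_lit 76) (nat_lit 0) (XT.lf (nat_lit 0) (nat_lit 27288950329) (nat_lit 152) (nat_lit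 76648369921) (nat_lit 76) (nat_lit 119150902327) (nat_lit 56) (nat_lit 5) (nat_lit 58) (nat_lit 5) (nat_lit 57) (nat_lit 4) (nat_lit 470) (nat_lit 424) (nat_lit 306)) (XT.lf (nat_lit 0) (nat_lit 136501296993) (nat_lit 152) (nat_lit 88352984919) (nat_lit 0) (nat_lit 10223358382) (nat_lit 55) (nat_lit 5) (nat_lit 57) (nat_lit 4) (nat_lit 55) (nat_lit 4) (nat_lit 471) (nat_lit 424) (nat_lit 305))))) (XT.nd (nat_lit 312) (nat_lit 456) (nat_lit 0) (XT.nd (nat_lit 156) (nat_lit 228) (nat_lit 0) (XT.nd (nat_lit 78) (nat_lit 76) (nat_lit 0) (XT.lf (nat_lit 0) (nat_lit 11688351190) (nat_lit 152) (nat_lit 102317804070) (nat_lit 76) (nat_lit 133741563383) (nat_lit 53) (nat_lit 5) (nat_lit 55) (nat_lit 5) (nat_lit 54) (nat_lit 4) (nat_lit 472) (nat_lit 424) (nat_lit 304)) (XT.lf (nat_lit 0) (nat_lit 131333859838) (nat_lit 152) (nat_lit 118748730518) (nat_lit 0) (nat_lit 11067348964) (nat_lit 52) (nat_lit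 5) (nat_lit 54) (nat_lit 4) (nat_lit 52) (nat_lit 4) (nat_lit 473) (nat_lit 424) (nat_lit 303))) (XT.nd (nat_lit 78) (nat_lit 152) (nat_lit 0) (XT.lf (nat_lit 0) (nat_lit 137254040083) (nat_lit 76) (nat_lit 129171932440) (nat_lit 76) (nat_lit 8904616974) (nat_lit 51) (nat_lit 4) (nat_lit 52) (nat_lit 5) (nat_lit 52) (nat_lit 4) (nat_lit 474) (nat_lit 424) (nat_lit 302)) (XT.lf (nat_lit 0) (nat_lit 122030868687) (nat_lit 152) (nat_lit 160817695259) (nat_lit 0) (nat_lit 7489858726) (nat_lit 49) (nat_lit 5) (nat_lit 51) (nat_lit 4) (nat_lit 49) (nat_lit 4) (nat_lit 475) (nat_lit 424) (nat_lit 301)))) (XT.nd (nat_lit 156) (nat_lit 228) (nat_lit 0) (XT.nd (nat_lit 78) (nat_lit 152) (nat_lit 0) (XT.lf (nat_lit 0) (nat_lit 118449877383) (nat_lit 76) (nat_lit 151153824515) (nat_lit 76) (nat_lit 36612157594) (nat_lit 48) (nat_lit 4) (nat_lit 49) (nat_lit 5) (nat_lit 49) (nat_lit 4) (nat_lit 476) (nat_lit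 424) (nat_lit 300)) (XT.lf (nat_lit 0) (nat_lit 104215449381) (nat_lit 76) (nat_lit 2495635788) (nat_lit 152) (nat_lit 216346321862) (nat_lit 46) (nat_lit 5) (nat_lit 47) (nat_lit 5) (nat_lit 48) (nat_lit 4) (nat_lit 477) (nat_lit 424) (nat_lit 299))) (XT.nd (nat_lit 78) (nat_lit 152) (nat_lit 0) (XT.lf (nat_lit 0) (nat_lit 84748285145) (nat_lit 76) (nat_lit 182599931891) (nat_lit 76) (nat_lit 73511514315) (nat_lit 45) (nat_lit 4) (nat_lit 46) (nat_lit 5) (nat_lit 46) (nat_lit 4) (nat_lit 478) (nat_lit 424) (nat_lit 298)) (XT.lf (nat_lit 0) (nat_lit 61133049610) (nat_lit 76) (nat_lit 21902054715) (nat_lit 152) (nat_lit 276744623884) (nat_lit 43) (nat_lit 5) (nat_lit 44) (nat_lit 5) (nat_lit 45) (nat_lit 4) (nat_lit 479) (nat_lit 424) (nat_lit 297))))))))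
noncomputable def xc82 : XT := (XT.nd (nat_lit 58578) (nat_lit 0) (nat_lit 4332) (XT.nd (nat_lit 1170) (nat_lit 760) (nat_lit 0) (XT.nd (nat_lit 546) (nat_lit 684) (nat_lit 0) (XT.nd (nat_lit 234) (nat_lit 456) (nat_lit 0) (XT.nd (nat_lit 78) (nat_lit 152) (nat_lit 0) (XT.lf (nat_lit 0) (nat_lit 30195483739) (nat_lit 76) (nat_lit 226740952175) (nat_lit 76) (nat_lit 122846310129) (nat_lit 42) (nat_lit 4) (nat_lit 43) (nat_lit 5) (nat_lit 43) (nat_lit 4) (nat_lit 480) (nat_lit 424) (nat_lit 296)) (XT.nd (nat_lit 78) (nat_lit 76) (nat_lit 0) (XT.lf (nat_lit 0) (nat_lit 47631283182) (nat_lit 152) (nat_lit 6250917069) (nat_lit 76) (nat_lit 347187187030) (nat_lit 41) (nat_lit 5) (nat_lit 43) (nat_lit 5) (nat_lit 42) (nat_lit 4) (nat_lit 481) (nat_lit 424) (nat_lit 295)) (XT.lf (nat_lit 0) (nat_lit 235548965849) (nat_lit 152) (nat_lit 51403065519) (nat_lit 0) (nat_lit 136600943849) (nat_lit 40) (nat_lit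 5) (nat_lit 42) (nat_lit 4) (nat_lit 40) (nat_lit 4) (nat_lit 482) (nat_lit 424) (nat_lit 294)))) (XT.nd (nat_lit 156) (nat_lit 228) (nat_lit 0) (XT.nd (nat_lit 78) (nat_lit 152) (nat_lit 0) (XT.lf (nat_lit 0) (nat_lit 343290622266) (nat_lit 76) (nat_lit 101587050295) (nat_lit 76) (nat_lit 2638697160) (nat_lit 39) (nat_lit 4) (nat_lit 40) (nat_lit 5) (nat_lit 40) (nat_lit 4) (nat_lit 483) (nat_lit 424) (nat_lit 293)) (XT.lf (nat_lit 0) (nat_lit 198581706041) (nat_lit 152) (nat_lit 169948578163) (nat_lit 0) (nat_lit 104344887239) (nat_lit 37) (nat_lit 5) (nat_lit 39) (nat_lit 4) (nat_lit 37) (nat_lit 4) (nat_lit 484) (nat_lit 424) (nat_lit 292))) (XT.nd (nat_lit 78) (nat_lit 152) (nat_lit 0) (XT.lf (nat_lit 0) (nat_lit 252492678443) (nat_lit 76) (nat_lit 170814954133) (nat_lit 76) (nat_lit 76577864956) (nat_lit 36) (nat_lit 4) (nat_lit 37) (nat_lit 5) (nat_lit 37) (nat_lit 4) (nat_lit 485) (nat_lit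 424) (nat_lit 291)) (XT.lf (nat_lit 0) (nat_lit 139342042410) (nat_lit 152) (nat_lit 339676975820) (nat_lit 0) (nat_lit 49592195243) (nat_lit 34) (nat_lit 5) (nat_lit 36) (nat_lit 4) (nat_lit 34) (nat_lit 4) (nat_lit 486) (nat_lit 424) (nat_lit 290))))) (XT.nd (nat_lit 312) (nat_lit 380) (nat_lit 0) (XT.nd (nat_lit 156) (nat_lit 76) (nat_lit 0) (XT.nd (nat_lit 78) (nat_lit 152) (nat_lit 0) (XT.lf (nat_lit 0) (nat_lit 108820644625) (nat_lit 76) (nat_lit 270025970916) (nat_lit 76) (nat_lit 180275902984) (nat_lit 33) (nat_lit 4) (nat_lit 34) (nat_lit 5) (nat_lit 34) (nat_lit 4) (nat_lit 487) (nat_lit 424) (nat_lit 289)) (XT.lf (nat_lit 0) (nat_lit 13161453811) (nat_lit 76) (nat_lit 37039388215) (nat_lit 152) (nat_lit 541527502263) (nat_lit 31) (nat_lit 5) (nat_lit 32) (nat_lit 5) (nat_lit 33) (nat_lit 4) (nat_lit 488) (nat_lit 424) (nat_lit 288))) (XT.nd (nat_lit 78) (nat_lit 76) (nat_lit 0) (XT.lf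 (nat_lit 0) (nat_lit 304205894815) (nat_lit 152) (nat_lit 103289401582) (nat_lit 0) (nat_lit 218729264705) (nat_lit 31) (nat_lit 5) (nat_lit 33) (nat_lit 4) (nat_lit 31) (nat_lit 4) (nat_lit 489) (nat_lit 424) (nat_lit 287)) (XT.lf (nat_lit 0) (nat_lit 422919690337) (nat_lit 76) (nat_lit 162838129276) (nat_lit 76) (nat_lit 77361332260) (nat_lit 30) (nat_lit 4) (nat_lit 31) (nat_lit 5) (nat_lit 31) (nat_lit 4) (nat_lit 490) (nat_lit 424) (nat_lit 286)))) (XT.nd (nat_lit 156) (nat_lit 152) (nat_lit 0) (XT.nd (nat_lit 78) (nat_lit 76) (nat_lit 0) (XT.lf (nat_lit 0) (nat_lit 189115311718) (nat_lit 152) (nat_lit 405584045632) (nat_lit 0) (nat_lit 107708691186) (nat_lit 28) (nat_lit 5) (nat_lit 30) (nat_lit 4) (nat_lit 28) (nat_lit 4) (nat_lit 491) (nat_lit 424) (nat_lit 285)) (XT.lf (nat_lit 0) (nat_lit 141152919053) (nat_lit 76) (nat_lit 342284304371) (nat_lit 76) (nat_lit 260877547559) (nat_lit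 27) (nat_lit 4) (nat_lit 28) (nat_lit 5) (nat_lit 28) (nat_lit 4) (nat_lit 492) (nat_lit 424) (nat_lit 284))) (XT.nd (nat_lit 78) (nat_lit 76) (nat_lit 0) (XT.lf (nat_lit 0) (nat_lit 18535269099) (nat_lit 152) (nat_lit 43409581343) (nat_lit 76) (nat_lit 727261029562) (nat_lit 26) (nat_lit 5) (nat_lit 28) (nat_lit 5) (nat_lit 27) (nat_lit 4) (nat_lit 493) (nat_lit 424) (nat_lit 283)) (XT.lf (nat_lit 0) (nat_lit 324241129586) (nat_lit 152) (nat_lit 265868665707) (nat_lit 0) (nat_lit 246710653552) (nat_lit 25) (nat_lit 5) (nat_lit 27) (nat_lit 4) (nat_lit 25) (nat_lit 4) (nat_lit 494) (nat_lit 424) (nat_lit 282)))))) (XT.nd (nat_lit 624) (nat_lit 228) (nat_lit 0) (XT.nd (nat_lit 312) (nat_lit 228) (nat_lit 0) (XT.nd (nat_lit 156) (nat_lit 76) (nat_lit 0) (XT.nd (nat_lit 78) (nat_lit 152) (nat_lit 0) (XT.lf (nat_lit 0) (nat_lit 358212199970) (nat_lit 76) (nat_lit 303596158652) (nat_lit 76) (nat_lit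 226065579585) (nat_lit 24) (nat_lit 4) (nat_lit 25) (nat_lit 5) (nat_lit 25) (nat_lit 4) (nat_lit 495) (nat_lit 424) (nat_lit 281)) (XT.lf (nat_lit 0) (nat_lit 87196163998) (nat_lit 152) (nat_lit 842068272839) (nat_lit 0) (nat_lit 13357426411) (nat_lit 22) (nat_lit 5) (nat_lit 24) (nat_lit 4) (nat_lit 22) (nat_lit 4) (nat_lit 496) (nat_lit 424) (nat_lit 280))) (XT.nd (nat_lit 78) (nat_lit 76) (nat_lit 0) (XT.lf (nat_lit 0) (nat_lit 432200484333) (nat_lit 152) (nat_lit 210272081990) (nat_lit 0) (nat_lit 358361662618) (nat_lit 22) (nat_lit 5) (nat_lit 24) (nat_lit 4) (nat_lit 22) (nat_lit 4) (nat_lit 497) (nat_lit 424) (nat_lit 279)) (XT.lf (nat_lit 0) (nat_lit 487674912840) (nat_lit 76) (nat_lit 324743454894) (nat_lit 76) (nat_lit 250904555284) (nat_lit 21) (nat_lit 4) (nat_lit 22) (nat_lit 5) (nat_lit 22) (nat_lit 4) (nat_lit 498) (nat_lit 424) (nat_lit 278)))) (XT.nd (nat_lit 156) (nat_lit 76)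 (nat_lit 0) (XT.nd (nat_lit 78) (nat_lit 0) (nat_lit 0) (XT.lf (nat_lit 0) (nat_lit 95300063081) (nat_lit 152) (nat_lit 1010160935871) (nat_lit 0) (nat_lit 24977232857) (nat_lit 19) (nat_lit 5) (nat_lit 21) (nat_lit 4) (nat_lit 19) (nat_lit 4) (nat_lit 499) (nat_lit 424) (nat_lit 277)) (XT.lf (nat_lit 0) (nat_lit 476194953128) (nat_lit 152) (nat_lit 319860874624) (nat_lit 0) (nat_lit 405872059301) (nat_lit 19) (nat_lit 5) (nat_lit 21) (nat_lit 4) (nat_lit 19) (nat_lit 4) (nat_lit 500) (nat_lit 424) (nat_lit 276))) (XT.nd (nat_lit 78) (nat_lit 0) (nat_lit 0) (XT.lf (nat_lit 0) (nat_lit 439736151431) (nat_lit 76) (nat_lit 454690136659) (nat_lit 76) (nat_lit 384367183941) (nat_lit 18) (nat_lit 4) (nat_lit 19) (nat_lit 5) (nat_lit 19) (nat_lit 4) (nat_lit 501) (nat_lit 424) (nat_lit 275)) (XT.lf (nat_lit 0) (nat_lit 1271521783455) (nat_lit 76) (nat_lit 80165485328) (nat_lit 76) (nat_lit 9842478080)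 (nat_lit 18) (nat_lit 4) (nat_lit 19) (nat_lit 5) (nat_lit 19) (nat_lit 4) (nat_lit 502) (nat_lit 424) (nat_lit 274))))) (XT.nd (nat_lit 56472) (nat_lit 0) (nat_lit 11324) (XT.nd (nat_lit 156) (nat_lit 0) (nat_lit 0) (XT.nd (nat_lit 78) (nat_lit 76) (nat_lit 0) (XT.lf (nat_lit 0) (nat_lit 398862380673) (nat_lit 152) (nat_lit 718983965159) (nat_lit 0) (nat_lit 331888039971) (nat_lit 16) (nat_lit 5) (nat_lit 18) (nat_lit 4) (nat_lit 16) (nat_lit 4) (nat_lit 503) (nat_lit 424) (nat_lit 273)) (XT.lf (nat_lit 0) (nat_lit 76366248252) (nat_lit 76) (nat_lit 767694191510) (nat_lit 76) (nat_lit 700719806284) (nat_lit 15) (nat_lit 4) (nat_lit 16) (nat_lit 5) (nat_lit 16) (nat_lit 4) (nat_lit 504) (nat_lit 424) (nat_lit 272))) (XT.nd (nat_lit 56238) (nat_lit 0) (nat_lit 11248) (XT.lf (nat_lit 0) (nat_lit 961018039403) (nat_lit 76) (nat_lit 376379988960) (nat_lit 76) (nat_lit 309405562508) (nat_lit 15) (nat_lit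 4) (nat_lit 16) (nat_lit 5) (nat_lit 16) (nat_lit 4) (nat_lit 505) (nat_lit 424) (nat_lit 271)) (XT.lf (nat_lit 0) (nat_lit 5584361680) (nat_lit 836) (nat_lit 4171313998) (nat_lit 836) (nat_lit 4171313998) (nat_lit 163) (nat_lit 3) (nat_lit 174) (nat_lit 3) (nat_lit 174) (nat_lit 5) (nat_lit 425) (nat_lit 425) (nat_lit 350)))) (XT.nd (nat_lit 156) (nat_lit 0) (nat_lit 76) (XT.nd (nat_lit 78) (nat_lit 0) (nat_lit 0) (XT.lf (nat_lit 0) (nat_lit 12006207764) (nat_lit 760) (nat_lit 14679877991) (nat_lit 836) (nat_lit 2262505900) (nat_lit 164) (nat_lit 5) (nat_lit 174) (nat_lit 5) (nat_lit 175) (nat_lit 5) (nat_lit 426) (nat_lit 425) (nat_lit 349)) (XT.lf (nat_lit 76) (nat_lit 8805977002) (nat_lit 0) (nat_lit 4705793508) (nat_lit 836) (nat_lit 16588949461) (nat_lit 165) (nat_lit 5) (nat_lit 164) (nat_lit 5) (nat_lit 175) (nat_lit 5) (nat_lit 427) (nat_lit 425) (nat_lit 348))) (XT.nd (nat_lit 78) (nat_lit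 0) (nat_lit 76) (XT.lf (nat_lit 76) (nat_lit 3154077662) (nat_lit 0) (nat_lit 12577826594) (nat_lit 836) (nat_lit 15583408931) (nat_lit 166) (nat_lit 5) (nat_lit 165) (nat_lit 5) (nat_lit 176) (nat_lit 5) (nat_lit 428) (nat_lit 425) (nat_lit 347)) (XT.lf (nat_lit 0) (nat_lit 18749335281) (nat_lit 760) (nat_lit 2557860756) (nat_lit 836) (nat_lit 11288894362) (nat_lit 166) (nat_lit 5) (nat_lit 176) (nat_lit 5) (nat_lit 177) (nat_lit 5) (nat_lit 429) (nat_lit 425) (nat_lit 346))))))) (XT.nd (nat_lit 1248) (nat_lit 2660) (nat_lit 0) (XT.nd (nat_lit 624) (nat_lit 2280) (nat_lit 0) (XT.nd (nat_lit 312) (nat_lit 1064) (nat_lit 0) (XT.nd (nat_lit 156) (nat_lit 1216) (nat_lit 0) (XT.nd (nat_lit 78) (nat_lit 0) (nat_lit 0) (XT.lf (nat_lit 0) (nat_lit 22659102659) (nat_lit 760) (nat_lit 8301069085) (nat_lit 836) (nat_lit 2986611754) (nat_lit 167) (nat_lit 5) (nat_lit 177) (nat_lit 5) (nat_lit 178) (nat_lit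 5) (nat_lit 430) (nat_lit 425) (nat_lit 345)) (XT.lf (nat_lit 76) (nat_lit 21100929487) (nat_lit 0) (nat_lit 6504923488) (nat_lit 836) (nat_lit 7763469734) (nat_lit 168) (nat_lit 5) (nat_lit 167) (nat_lit 5) (nat_lit 178) (nat_lit 5) (nat_lit 431) (nat_lit 425) (nat_lit 344))) (XT.nd (nat_lit 78) (nat_lit 532) (nat_lit 0) (XT.lf (nat_lit 0) (nat_lit 16458515750) (nat_lit 760) (nat_lit 17195383072) (nat_lit 836) (nat_lit 3216489147) (nat_lit 158) (nat_lit 5) (nat_lit 168) (nat_lit 5) (nat_lit 169) (nat_lit 5) (nat_lit 432) (nat_lit 425) (nat_lit 343)) (XT.lf (nat_lit 0) (nat_lit 2331335180) (nat_lit 532) (nat_lit 26708355016) (nat_lit 76) (nat_lit 9415960667) (nat_lit 151) (nat_lit 5) (nat_lit 158) (nat_lit 5) (nat_lit 152) (nat_lit 5) (nat_lit 433) (nat_lit 425) (nat_lit 342)))) (XT.nd (nat_lit 156) (nat_lit 304) (nat_lit 0) (XT.nd (nat_lit 78) (nat_lit 380) (nat_lit 0) (XT.lf (nat_lit 0) (nat_lit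 6921489494) (nat_lit 380) (nat_lit 2041485855) (nat_lit 456) (nat_lit 31164489534) (nat_lit 146) (nat_lit 5) (nat_lit 151) (nat_lit 5) (nat_lit 152) (nat_lit 5) (nat_lit 434) (nat_lit 425) (nat_lit 341)) (XT.lf (nat_lit 0) (nat_lit 1907563546) (nat_lit 380) (nat_lit 15135860158) (nat_lit 456) (nat_lit 24843686993) (nat_lit 141) (nat_lit 5) (nat_lit 146) (nat_lit 5) (nat_lit 147) (nat_lit 5) (nat_lit 435) (nat_lit 425) (nat_lit 340))) (XT.nd (nat_lit 78) (nat_lit 304) (nat_lit 0) (XT.lf (nat_lit 0) (nat_lit 26603216798) (nat_lit 456) (nat_lit 3012630906) (nat_lit 76) (nat_lit 14130035510) (nat_lit 141) (nat_lit 5) (nat_lit 147) (nat_lit 5) (nat_lit 142) (nat_lit 5) (nat_lit 436) (nat_lit 425) (nat_lit 339)) (XT.lf (nat_lit 0) (nat_lit 37768819666) (nat_lit 380) (nat_lit 7852235250) (nat_lit 76) (nat_lit 90251745) (nat_lit 137) (nat_lit 5) (nat_lit 142) (nat_lit 5) (nat_lit 138) (nat_lit 5) (nat_lit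 437) (nat_lit 425) (nat_lit 338))))) (XT.nd (nat_lit 312) (nat_lit 1064) (nat_lit 0) (XT.nd (nat_lit 156) (nat_lit 532) (nat_lit 0) (XT.nd (nat_lit 78) (nat_lit 304) (nat_lit 0) (XT.lf (nat_lit 0) (nat_lit 3038771914) (nat_lit 380) (nat_lit 12942932242) (nat_lit 76) (nat_lit 31795260044) (nat_lit 132) (nat_lit 5) (nat_lit 137) (nat_lit 5) (nat_lit 133) (nat_lit 5) (nat_lit 438) (nat_lit 425) (nat_lit 337)) (XT.lf (nat_lit 0) (nat_lit 15520953244) (nat_lit 380) (nat_lit 18134099963) (nat_lit 76) (nat_lit 16301276876) (nat_lit 128) (nat_lit 5) (nat_lit 133) (nat_lit 5) (nat_lit 129) (nat_lit 5) (nat_lit 439) (nat_lit 425) (nat_lit 336))) (XT.nd (nat_lit 78) (nat_lit 228) (nat_lit 0) (XT.lf (nat_lit 0) (nat_lit 28978962309) (nat_lit 304) (nat_lit 968021582) (nat_lit 380) (nat_lit 22315797941) (nat_lit 124) (nat_lit 5) (nat_lit 128) (nat_lit 5) (nat_lit 129) (nat_lit 5) (nat_lit 440) (nat_lit 425)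 (nat_lit 335)) (XT.lf (nat_lit 0) (nat_lit 26056088193) (nat_lit 228) (nat_lit 20729422037) (nat_lit 304) (nat_lit 7905319141) (nat_lit 121) (nat_lit 5) (nat_lit 124) (nat_lit 5) (nat_lit 125) (nat_lit 5) (nat_lit 441) (nat_lit 425) (nat_lit 334)))) (XT.nd (nat_lit 156) (nat_lit 456) (nat_lit 0) (XT.nd (nat_lit 78) (nat_lit 228) (nat_lit 0) (XT.lf (nat_lit 0) (nat_lit 8441384909) (nat_lit 380) (nat_lit 34022504446) (nat_lit 76) (nat_lit 14791828959) (nat_lit 116) (nat_lit 5) (nat_lit 121) (nat_lit 5) (nat_lit 117) (nat_lit 5) (nat_lit 442) (nat_lit 425) (nat_lit 333)) (XT.lf (nat_lit 0) (nat_lit 20428011590) (nat_lit 228) (nat_lit 6564964205) (nat_lit 304) (nat_lit 32967637341) (nat_lit 113) (nat_lit 5) (nat_lit 116) (nat_lit 5) (nat_lit 117) (nat_lit 5) (nat_lit 443) (nat_lit 425) (nat_lit 332))) (XT.nd (nat_lit 78) (nat_lit 228) (nat_lit 0) (XT.lf (nat_lit 0) (nat_lit 17642376124) (nat_lit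 228) (nat_lit 30762151941) (nat_lit 304) (nat_lit 14408580011) (nat_lit 110) (nat_lit 5) (nat_lit 113) (nat_lit 5) (nat_lit 114) (nat_lit 5) (nat_lit 444) (nat_lit 425) (nat_lit 331)) (XT.lf (nat_lit 0) (nat_lit 6634435996) (nat_lit 228) (nat_lit 50759488018) (nat_lit 76) (nat_lit 8436499953) (nat_lit 107) (nat_lit 5) (nat_lit 110) (nat_lit 5) (nat_lit 108) (nat_lit 5) (nat_lit 445) (nat_lit 425) (nat_lit 330)))))) (XT.nd (nat_lit 624) (nat_lit 1216) (nat_lit 0) (XT.nd (nat_lit 312) (nat_lit 608) (nat_lit 0) (XT.nd (nat_lit 156) (nat_lit 456) (nat_lit 0) (XT.nd (nat_lit 78) (nat_lit 152) (nat_lit 0) (XT.lf (nat_lit 0) (nat_lit 12307830462) (nat_lit 228) (nat_lit 18061196162) (nat_lit 304) (nat_lit 38632641395) (nat_lit 104) (nat_lit 5) (nat_lit 107) (nat_lit 5) (nat_lit 108) (nat_lit 5) (nat_lit 446) (nat_lit 425) (nat_lit 329)) (XT.lf (nat_lit 0) (nat_lit 9760807533) (nat_lit 152) (nat_lit 47669671948)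 (nat_lit 228) (nat_lit 14924727546) (nat_lit 102) (nat_lit 5) (nat_lit 104) (nat_lit 5) (nat_lit 105) (nat_lit 5) (nat_lit 447) (nat_lit 425) (nat_lit 328))) (XT.nd (nat_lit 78) (nat_lit 152) (nat_lit 0) (XT.lf (nat_lit 0) (nat_lit 7370669309) (nat_lit 228) (nat_lit 4386632094) (nat_lit 304) (nat_lit 64140425668) (nat_lit 98) (nat_lit 5) (nat_lit 101) (nat_lit 5) (nat_lit 102) (nat_lit 5) (nat_lit 448) (nat_lit 425) (nat_lit 327)) (XT.lf (nat_lit 0) (nat_lit 4712665415) (nat_lit 152) (nat_lit 37184569522) (nat_lit 228) (nat_lit 37721868942) (nat_lit 96) (nat_lit 5) (nat_lit 98) (nat_lit 5) (nat_lit 99) (nat_lit 5) (nat_lit 449) (nat_lit 425) (nat_lit 326)))) (XT.nd (nat_lit 156) (nat_lit 228) (nat_lit 0) (XT.nd (nat_lit 78) (nat_lit 228) (nat_lit 0) (XT.lf (nat_lit 0) (nat_lit 2518337582) (nat_lit 152) (nat_lit 73395489865) (nat_lit 228) (nat_lit 7651090306) (nat_lit 94) (nat_lit 5) (nat_lit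 96) (nat_lit 5) (nat_lit 97) (nat_lit 5) (nat_lit 450) (nat_lit 425) (nat_lit 325)) (XT.lf (nat_lit 0) (nat_lit 9075987) (nat_lit 152) (nat_lit 25971438541) (nat_lit 228) (nat_lit 61729016154) (nat_lit 91) (nat_lit 5) (nat_lit 93) (nat_lit 5) (nat_lit 94) (nat_lit 5) (nat_lit 451) (nat_lit 425) (nat_lit 324))) (XT.nd (nat_lit 78) (nat_lit 228) (nat_lit 0) (XT.lf (nat_lit 0) (nat_lit 63863784402) (nat_lit 228) (nat_lit 2224044606) (nat_lit 76) (nat_lit 26000152683) (nat_lit 91) (nat_lit 5) (nat_lit 94) (nat_lit 5) (nat_lit 92) (nat_lit 5) (nat_lit 452) (nat_lit 425) (nat_lit 323)) (XT.lf (nat_lit 0) (nat_lit 9617656810) (nat_lit 228) (nat_lit 4266601304) (nat_lit 76) (nat_lit 82830663498) (nat_lit 88) (nat_lit 5) (nat_lit 91) (nat_lit 5) (nat_lit 89) (nat_lit 5) (nat_lit 453) (nat_lit 425) (nat_lit 322))))) (XT.nd (nat_lit 312) (nat_lit 608) (nat_lit 0) (XT.nd (nat_lit 156) (nat_lit 304) (nat_lit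 0) (XT.nd (nat_lit 78) (nat_lit 152) (nat_lit 0) (XT.lf (nat_lit 0) (nat_lit 51737123383) (nat_lit 228) (nat_lit 6665022480) (nat_lit 76) (nat_lit 43174781239) (nat_lit 86) (nat_lit 5) (nat_lit 89) (nat_lit 5) (nat_lit 87) (nat_lit 5) (nat_lit 454) (nat_lit 425) (nat_lit 321)) (XT.lf (nat_lit 0) (nat_lit 98257147083) (nat_lit 152) (nat_lit 809722895) (nat_lit 228) (nat_lit 7668987003) (nat_lit 84) (nat_lit 5) (nat_lit 86) (nat_lit 5) (nat_lit 87) (nat_lit 5) (nat_lit 455) (nat_lit 425) (nat_lit 320))) (XT.nd (nat_lit 78) (nat_lit 152) (nat_lit 0) (XT.lf (nat_lit 0) (nat_lit 39369901284) (nat_lit 152) (nat_lit 11007135574) (nat_lit 76) (nat_lit 61765564404) (nat_lit 82) (nat_lit 5) (nat_lit 84) (nat_lit 5) (nat_lit 83) (nat_lit 5) (nat_lit 456) (nat_lit 425) (nat_lit 319)) (XT.lf (nat_lit 0) (nat_lit 91916497539) (nat_lit 228) (nat_lit 13034584211) (nat_lit 76) (nat_lit 12923853304) (nat_lit 80)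 (nat_lit 5) (nat_lit 83) (nat_lit 5) (nat_lit 81) (nat_lit 4) (nat_lit 457) (nat_lit 425) (nat_lit 318)))) (XT.nd (nat_lit 156) (nat_lit 304) (nat_lit 0) (XT.nd (nat_lit 78) (nat_lit 152) (nat_lit 0) (XT.lf (nat_lit 0) (nat_lit 26600730877) (nat_lit 152) (nat_lit 15436668637) (nat_lit 76) (nat_lit 81869894122) (nat_lit 78) (nat_lit 5) (nat_lit 80) (nat_lit 5) (nat_lit 79) (nat_lit 5) (nat_lit 458) (nat_lit 425) (nat_lit 317)) (XT.lf (nat_lit 0) (nat_lit 84902820352) (nat_lit 228) (nat_lit 17826389507) (nat_lit 76) (nat_lit 27549371451) (nat_lit 76) (nat_lit 5) (nat_lit 79) (nat_lit 5) (nat_lit 77) (nat_lit 4) (nat_lit 459) (nat_lit 425) (nat_lit 316))) (XT.nd (nat_lit 78) (nat_lit 152) (nat_lit 0) (XT.lf (nat_lit 0) (nat_lit 13219114726) (nat_lit 152) (nat_lit 20228193088) (nat_lit 76) (nat_lit 103561284925) (nat_lit 74) (nat_lit 5) (nat_lit 76) (nat_lit 5) (nat_lit 75) (nat_lit 5) (nat_lit 460)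 (nat_lit 425) (nat_lit 315)) (XT.lf (nat_lit 0) (nat_lit 77840384715) (nat_lit 228) (nat_lit 23173304334) (nat_lit 76) (nat_lit 43079695339) (nat_lit 72) (nat_lit 5) (nat_lit 75) (nat_lit 5) (nat_lit 73) (nat_lit 4) (nat_lit 461) (nat_lit 425) (nat_lit 314))))))))
noncomputable def xc83 : XT := (XT.nd (nat_lit 2496) (nat_lit 836) (nat_lit 0) (XT.nd (nat_lit 1248) (nat_lit 1596) (nat_lit 0) (XT.nd (nat_lit 624) (nat_lit 836) (nat_lit 0) (XT.nd (nat_lit 312) (nat_lit 456) (nat_lit 0) (XT.nd (nat_lit 156) (nat_lit 228) (nat_lit 0) (XT.nd (nat_lit 78) (nat_lit 228) (nat_lit 0) (XT.lf (nat_lit 0) (nat_lit 125807687032) (nat_lit 76) (nat_lit 24707639689) (nat_lit 152) (nat_lit 1085434168) (nat_lit 71) (nat_lit 5) (nat_lit 72) (nat_lit 5) (nat_lit 73) (nat_lit 4) (nat_lit 462) (nat_lit 425) (nat_lit 313)) (XT.lf (nat_lit 0) (nat_lit 70488896958) (nat_lit 228) (nat_lit 29546501193) (nat_lit 76) (nat_lit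 59448672005) (nat_lit 68) (nat_lit 5) (nat_lit 71) (nat_lit 5) (nat_lit 69) (nat_lit 4) (nat_lit 463) (nat_lit 425) (nat_lit 312))) (XT.nd (nat_lit 78) (nat_lit 152) (nat_lit 0) (XT.lf (nat_lit 0) (nat_lit 134944758442) (nat_lit 76) (nat_lit 15784828771) (nat_lit 152) (nat_lit 17118645237) (nat_lit 67) (nat_lit 5) (nat_lit 68) (nat_lit 5) (nat_lit 69) (nat_lit 4) (nat_lit 464) (nat_lit 425) (nat_lit 311)) (XT.lf (nat_lit 0) (nat_lit 62517391261) (nat_lit 152) (nat_lit 37604006081) (nat_lit 76) (nat_lit 76515594422) (nat_lit 65) (nat_lit 5) (nat_lit 67) (nat_lit 5) (nat_lit 66) (nat_lit 4) (nat_lit 465) (nat_lit 425) (nat_lit 310)))) (XT.nd (nat_lit 156) (nat_lit 228) (nat_lit 0) (XT.nd (nat_lit 78) (nat_lit 152) (nat_lit 0) (XT.lf (nat_lit 0) (nat_lit 143834571219) (nat_lit 76) (nat_lit 7190301604) (nat_lit 152) (nat_lit 34934931548) (nat_lit 64) (nat_lit 5) (nat_lit 65) (nat_lit 5) (nat_lit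 66) (nat_lit 4) (nat_lit 466) (nat_lit 425) (nat_lit 309)) (XT.lf (nat_lit 0) (nat_lit 53473893412) (nat_lit 152) (nat_lit 48252849558) (nat_lit 76) (nat_lit 94036790603) (nat_lit 62) (nat_lit 5) (nat_lit 64) (nat_lit 5) (nat_lit 63) (nat_lit 4) (nat_lit 467) (nat_lit 425) (nat_lit 308))) (XT.nd (nat_lit 78) (nat_lit 152) (nat_lit 0) (XT.lf (nat_lit 0) (nat_lit 150990588996) (nat_lit 152) (nat_lit 54536666555) (nat_lit 0) (nat_lit 632714673) (nat_lit 61) (nat_lit 5) (nat_lit 63) (nat_lit 4) (nat_lit 61) (nat_lit 4) (nat_lit 468) (nat_lit 425) (nat_lit 307)) (XT.lf (nat_lit 0) (nat_lit 42745824869) (nat_lit 152) (nat_lit 62730200521) (nat_lit 76) (nat_lit 111628162260) (nat_lit 59) (nat_lit 5) (nat_lit 61) (nat_lit 5) (nat_lit 60) (nat_lit 4) (nat_lit 469) (nat_lit 425) (nat_lit 306))))) (XT.nd (nat_lit 312) (nat_lit 380) (nat_lit 0) (XT.nd (nat_lit 156) (nat_lit 228) (nat_lit 0) (XT.nd (nat_lit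 78) (nat_lit 152) (nat_lit 0) (XT.lf (nat_lit 0) (nat_lit 150116033346) (nat_lit 152) (nat_lit 71669222209) (nat_lit 0) (nat_lit 6915733518) (nat_lit 58) (nat_lit 5) (nat_lit 60) (nat_lit 4) (nat_lit 58) (nat_lit 4) (nat_lit 470) (nat_lit 425) (nat_lit 305)) (XT.lf (nat_lit 0) (nat_lit 29508420052) (nat_lit 152) (nat_lit 82709073390) (nat_lit 76) (nat_lit 128715968936) (nat_lit 56) (nat_lit 5) (nat_lit 58) (nat_lit 5) (nat_lit 57) (nat_lit 4) (nat_lit 471) (nat_lit 425) (nat_lit 304))) (XT.nd (nat_lit 78) (nat_lit 152) (nat_lit 0) (XT.lf (nat_lit 0) (nat_lit 147456645080) (nat_lit 152) (nat_lit 95351934584) (nat_lit 0) (nat_lit 11073509341) (nat_lit 55) (nat_lit 5) (nat_lit 57) (nat_lit 4) (nat_lit 55) (nat_lit 4) (nat_lit 472) (nat_lit 425) (nat_lit 303)) (XT.lf (nat_lit 0) (nat_lit 12657639913) (nat_lit 152) (nat_lit 110435818737) (nat_lit 76) (nat_lit 144472366191) (nat_lit 53) (nat_lit 5)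 (nat_lit 55) (nat_lit 5) (nat_lit 54) (nat_lit 4) (nat_lit 473) (nat_lit 425) (nat_lit 302)))) (XT.nd (nat_lit 156) (nat_lit 228) (nat_lit 0) (XT.nd (nat_lit 78) (nat_lit 76) (nat_lit 0) (XT.lf (nat_lit 0) (nat_lit 141873757402) (nat_lit 152) (nat_lit 128183010270) (nat_lit 0) (nat_lit 11983507113) (nat_lit 52) (nat_lit 5) (nat_lit 54) (nat_lit 4) (nat_lit 52) (nat_lit 4) (nat_lit 474) (nat_lit 425) (nat_lit 301)) (XT.lf (nat_lit 0) (nat_lit 148297130271) (nat_lit 76) (nat_lit 139474630371) (nat_lit 76) (nat_lit 9583690274) (nat_lit 51) (nat_lit 4) (nat_lit 52) (nat_lit 5) (nat_lit 52) (nat_lit 4) (nat_lit 475) (nat_lit 425) (nat_lit 300))) (XT.nd (nat_lit 78) (nat_lit 76) (nat_lit 0) (XT.lf (nat_lit 0) (nat_lit 131824606904) (nat_lit 152) (nat_lit 173620984575) (nat_lit 0) (nat_lit 8118341373) (nat_lit 49) (nat_lit 5) (nat_lit 51) (nat_lit 4) (nat_lit 49) (nat_lit 4) (nat_lit 476) (nat_lit 425)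 (nat_lit 299)) (XT.lf (nat_lit 0) (nat_lit 127985293945) (nat_lit 76) (nat_lit 163216584437) (nat_lit 76) (nat_lit 39509755669) (nat_lit 48) (nat_lit 4) (nat_lit 49) (nat_lit 5) (nat_lit 49) (nat_lit 4) (nat_lit 477) (nat_lit 425) (nat_lit 298)))))) (XT.nd (nat_lit 624) (nat_lit 760) (nat_lit 0) (XT.nd (nat_lit 312) (nat_lit 380) (nat_lit 0) (XT.nd (nat_lit 156) (nat_lit 228) (nat_lit 0) (XT.nd (nat_lit 78) (nat_lit 76) (nat_lit 0) (XT.lf (nat_lit 0) (nat_lit 112610489813) (nat_lit 76) (nat_lit 2666505356) (nat_lit 152) (nat_lit 233623553104) (nat_lit 46) (nat_lit 5) (nat_lit 47) (nat_lit 5) (nat_lit 48) (nat_lit 4) (nat_lit 478) (nat_lit 425) (nat_lit 297)) (XT.lf (nat_lit 0) (nat_lit 91584398746) (nat_lit 76) (nat_lit 197179843277) (nat_lit 76) (nat_lit 79362859306) (nat_lit 45) (nat_lit 4) (nat_lit 46) (nat_lit 5) (nat_lit 46) (nat_lit 4) (nat_lit 479) (nat_lit 425) (nat_lit 296))) (XT.nd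 (nat_lit 78) (nat_lit 76) (nat_lit 0) (XT.lf (nat_lit 0) (nat_lit 66078405396) (nat_lit 76) (nat_lit 23626870306) (nat_lit 152) (nat_lit 298855462480) (nat_lit 43) (nat_lit 5) (nat_lit 44) (nat_lit 5) (nat_lit 45) (nat_lit 4) (nat_lit 480) (nat_lit 425) (nat_lit 295)) (XT.lf (nat_lit 0) (nat_lit 32664356932) (nat_lit 76) (nat_lit 244853556498) (nat_lit 76) (nat_lit 132646124043) (nat_lit 42) (nat_lit 4) (nat_lit 43) (nat_lit 5) (nat_lit 43) (nat_lit 4) (nat_lit 481) (nat_lit 425) (nat_lit 294)))) (XT.nd (nat_lit 156) (nat_lit 228) (nat_lit 0) (XT.nd (nat_lit 78) (nat_lit 76) (nat_lit 0) (XT.lf (nat_lit 0) (nat_lit 51466784183) (nat_lit 152) (nat_lit 6700872571) (nat_lit 76) (nat_lit 374986031485) (nat_lit 41) (nat_lit 5) (nat_lit 43) (nat_lit 5) (nat_lit 42) (nat_lit 4) (nat_lit 482) (nat_lit 425) (nat_lit 293)) (XT.lf (nat_lit 0) (nat_lit 254417153614) (nat_lit 152) (nat_lit 55466551509) (nat_lit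 0) (nat_lit 147552294487) (nat_lit 40) (nat_lit 5) (nat_lit 42) (nat_lit 4) (nat_lit 40) (nat_lit 4) (nat_lit 483) (nat_lit 425) (nat_lit 292))) (XT.nd (nat_lit 78) (nat_lit 152) (nat_lit 0) (XT.lf (nat_lit 0) (nat_lit 370800512281) (nat_lit 76) (nat_lit 109690574952) (nat_lit 76) (nat_lit 2825431930) (nat_lit 39) (nat_lit 4) (nat_lit 40) (nat_lit 5) (nat_lit 40) (nat_lit 4) (nat_lit 484) (nat_lit 425) (nat_lit 291)) (XT.lf (nat_lit 0) (nat_lit 214491141473) (nat_lit 152) (nat_lit 183498334218) (nat_lit 0) (nat_lit 112714564438) (nat_lit 37) (nat_lit 5) (nat_lit 39) (nat_lit 4) (nat_lit 37) (nat_lit 4) (nat_lit 485) (nat_lit 425) (nat_lit 290))))) (XT.nd (nat_lit 312) (nat_lit 304) (nat_lit 0) (XT.nd (nat_lit 156) (nat_lit 228) (nat_lit 0) (XT.nd (nat_lit 78) (nat_lit 152) (nat_lit 0) (XT.lf (nat_lit 0) (nat_lit 272736218154) (nat_lit 76) (nat_lit 184457916681) (nat_lit 76) (nat_lit 82681107842)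 (nat_lit 36) (nat_lit 4) (nat_lit 37) (nat_lit 5) (nat_lit 37) (nat_lit 4) (nat_lit 486) (nat_lit 425) (nat_lit 289)) (XT.lf (nat_lit 0) (nat_lit 150511016034) (nat_lit 152) (nat_lit 366807496450) (nat_lit 0) (nat_lit 53580517489) (nat_lit 34) (nat_lit 5) (nat_lit 36) (nat_lit 4) (nat_lit 34) (nat_lit 4) (nat_lit 487) (nat_lit 425) (nat_lit 288))) (XT.nd (nat_lit 78) (nat_lit 152) (nat_lit 0) (XT.lf (nat_lit 0) (nat_lit 117568037202) (nat_lit 76) (nat_lit 291606968751) (nat_lit 76) (nat_lit 194676280935) (nat_lit 33) (nat_lit 4) (nat_lit 34) (nat_lit 5) (nat_lit 34) (nat_lit 4) (nat_lit 488) (nat_lit 425) (nat_lit 287)) (XT.lf (nat_lit 0) (nat_lit 14254961342) (nat_lit 76) (nat_lit 39982026173) (nat_lit 152) (nat_lit 584828620357) (nat_lit 31) (nat_lit 5) (nat_lit 32) (nat_lit 5) (nat_lit 33) (nat_lit 4) (nat_lit 489) (nat_lit 425) (nat_lit 286)))) (XT.nd (nat_lit 156) (nat_lit 228) (nat_lit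 0) (XT.nd (nat_lit 78) (nat_lit 76) (nat_lit 0) (XT.lf (nat_lit 0) (nat_lit 328561253802) (nat_lit 152) (nat_lit 111514336190) (nat_lit 0) (nat_lit 236245991578) (nat_lit 31) (nat_lit 5) (nat_lit 33) (nat_lit 4) (nat_lit 31) (nat_lit 4) (nat_lit 490) (nat_lit 425) (nat_lit 285)) (XT.lf (nat_lit 0) (nat_lit 456789822195) (nat_lit 76) (nat_lit 175846682073) (nat_lit 76) (nat_lit 83531276754) (nat_lit 30) (nat_lit 4) (nat_lit 31) (nat_lit 5) (nat_lit 31) (nat_lit 4) (nat_lit 491) (nat_lit 425) (nat_lit 284))) (XT.nd (nat_lit 78) (nat_lit 76) (nat_lit 0) (XT.lf (nat_lit 0) (nat_lit 204262368204) (nat_lit 152) (nat_lit 437994624215) (nat_lit 0) (nat_lit 116342808381) (nat_lit 28) (nat_lit 5) (nat_lit 30) (nat_lit 4) (nat_lit 28) (nat_lit 4) (nat_lit 492) (nat_lit 425) (nat_lit 283)) (XT.lf (nat_lit 0) (nat_lit 152479726825) (nat_lit 76) (nat_lit 369649524968) (nat_lit 76) (nat_lit 281729848307) (nat_lit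 27) (nat_lit 4) (nat_lit 28) (nat_lit 5) (nat_lit 28) (nat_lit 4) (nat_lit 493) (nat_lit 425) (nat_lit 282))))))) (XT.nd (nat_lit 57564) (nat_lit 0) (nat_lit 6916) (XT.nd (nat_lit 624) (nat_lit 228) (nat_lit 0) (XT.nd (nat_lit 312) (nat_lit 228) (nat_lit 0) (XT.nd (nat_lit 156) (nat_lit 228) (nat_lit 0) (XT.nd (nat_lit 78) (nat_lit 76) (nat_lit 0) (XT.lf (nat_lit 0) (nat_lit 20034136968) (nat_lit 152) (nat_lit 46849804060) (nat_lit 76) (nat_lit 785457607026) (nat_lit 26) (nat_lit 5) (nat_lit 28) (nat_lit 5) (nat_lit 27) (nat_lit 4) (nat_lit 494) (nat_lit 425) (nat_lit 281)) (XT.lf (nat_lit 0) (nat_lit 350196010153) (nat_lit 152) (nat_lit 287106508728) (nat_lit 0) (nat_lit 266462786329) (nat_lit 25) (nat_lit 5) (nat_lit 27) (nat_lit 4) (nat_lit 25) (nat_lit 4) (nat_lit 495) (nat_lit 425) (nat_lit 280))) (XT.nd (nat_lit 78) (nat_lit 152) (nat_lit 0) (XT.lf (nat_lit 0) (nat_lit 386899450722) (nat_lit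 76) (nat_lit 327868484634) (nat_lit 76) (nat_lit 244135172476) (nat_lit 24) (nat_lit 4) (nat_lit 25) (nat_lit 5) (nat_lit 25) (nat_lit 4) (nat_lit 496) (nat_lit 425) (nat_lit 279)) (XT.lf (nat_lit 0) (nat_lit 94186580185) (nat_lit 152) (nat_lit 909403805234) (nat_lit 0) (nat_lit 14440490710) (nat_lit 22) (nat_lit 5) (nat_lit 24) (nat_lit 4) (nat_lit 22) (nat_lit 4) (nat_lit 497) (nat_lit 425) (nat_lit 278)))) (XT.nd (nat_lit 156) (nat_lit 152) (nat_lit 0) (XT.nd (nat_lit 78) (nat_lit 76) (nat_lit 0) (XT.lf (nat_lit 0) (nat_lit 466790155548) (nat_lit 152) (nat_lit 227066136113) (nat_lit 0) (nat_lit 387043993948) (nat_lit 22) (nat_lit 5) (nat_lit 24) (nat_lit 4) (nat_lit 22) (nat_lit 4) (nat_lit 498) (nat_lit 425) (nat_lit 277)) (XT.lf (nat_lit 0) (nat_lit 526715413954) (nat_lit 76) (nat_lit 350709459719) (nat_lit 76) (nat_lit 270963231337) (nat_lit 21) (nat_lit 4) (nat_lit 22) (nat_lit 5) (nat_lit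 22) (nat_lit 4) (nat_lit 499) (nat_lit 425) (nat_lit 276))) (XT.nd (nat_lit 78) (nat_lit 0) (nat_lit 0) (XT.lf (nat_lit 0) (nat_lit 102936943896) (nat_lit 152) (nat_lit 1090947606581) (nat_lit 0) (nat_lit 26988096069) (nat_lit 19) (nat_lit 5) (nat_lit 21) (nat_lit 4) (nat_lit 19) (nat_lit 4) (nat_lit 500) (nat_lit 425) (nat_lit 275)) (XT.lf (nat_lit 0) (nat_lit 514302471386) (nat_lit 152) (nat_lit 345425481483) (nat_lit 0) (nat_lit 438353569029) (nat_lit 19) (nat_lit 5) (nat_lit 21) (nat_lit 4) (nat_lit 19) (nat_lit 4) (nat_lit 501) (nat_lit 425) (nat_lit 274))))) (XT.nd (nat_lit 56628) (nat_lit 0) (nat_lit 11248) (XT.nd (nat_lit 156) (nat_lit 152) (nat_lit 0) (XT.nd (nat_lit 78) (nat_lit 0) (nat_lit 0) (XT.lf (nat_lit 0) (nat_lit 474938252212) (nat_lit 76) (nat_lit 491053540175) (nat_lit 76) (nat_lit 415104587329) (nat_lit 18) (nat_lit 4) (nat_lit 19) (nat_lit 5) (nat_lit 19) (nat_lit 4) (nat_lit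 502) (nat_lit 425) (nat_lit 273)) (XT.lf (nat_lit 0) (nat_lit 1373265015637) (nat_lit 76) (nat_lit 86567791360) (nat_lit 76) (nat_lit 10618791764) (nat_lit 18) (nat_lit 4) (nat_lit 19) (nat_lit 5) (nat_lit 19) (nat_lit 4) (nat_lit 503) (nat_lit 425) (nat_lit 272))) (XT.nd (nat_lit 56394) (nat_lit 0) (nat_lit 11172) (XT.lf (nat_lit 0) (nat_lit 430781798367) (nat_lit 152) (nat_lit 776481440351) (nat_lit 0) (nat_lit 358449376573) (nat_lit 16) (nat_lit 5) (nat_lit 18) (nat_lit 4) (nat_lit 16) (nat_lit 4) (nat_lit 504) (nat_lit 425) (nat_lit 271)) (XT.lf (nat_lit 0) (nat_lit 6158833773) (nat_lit 836) (nat_lit 4437959531) (nat_lit 836) (nat_lit 4437959531) (nat_lit 163) (nat_lit 3) (nat_lit 174) (nat_lit 3) (nat_lit 174) (nat_lit 5) (nat_lit 426) (nat_lit 426) (nat_lit 348)))) (XT.nd (nat_lit 156) (nat_lit 0) (nat_lit 76) (XT.nd (nat_lit 78) (nat_lit 0) (nat_lit 0) (XT.lf (nat_lit 0) (nat_lit 13203510621)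 (nat_lit 760) (nat_lit 15712311985) (nat_lit 836) (nat_lit 2336797815) (nat_lit 164) (nat_lit 5) (nat_lit 174) (nat_lit 5) (nat_lit 175) (nat_lit 5) (nat_lit 427) (nat_lit 426) (nat_lit 347)) (XT.lf (nat_lit 76) (nat_lit 9646242163) (nat_lit 0) (nat_lit 5167855037) (nat_lit 836) (nat_lit 17683594214) (nat_lit 165) (nat_lit 5) (nat_lit 164) (nat_lit 5) (nat_lit 175) (nat_lit 5) (nat_lit 428) (nat_lit 426) (nat_lit 346))) (XT.nd (nat_lit 78) (nat_lit 0) (nat_lit 76) (XT.lf (nat_lit 76) (nat_lit 3548172448) (nat_lit 0) (nat_lit 13648246279) (nat_lit 836) (nat_lit 16613805759) (nat_lit 166) (nat_lit 5) (nat_lit 165) (nat_lit 5) (nat_lit 176) (nat_lit 5) (nat_lit 429) (nat_lit 426) (nat_lit 345)) (XT.lf (nat_lit 0) (nat_lit 20439059778) (nat_lit 760) (nat_lit 2620744643) (nat_lit 836) (nat_lit 12134469835) (nat_lit 166) (nat_lit 5) (nat_lit 176) (nat_lit 5) (nat_lit 177) (nat_lit 5) (nat_lit 430)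 (nat_lit 426) (nat_lit 344)))))) (XT.nd (nat_lit 624) (nat_lit 2280) (nat_lit 0) (XT.nd (nat_lit 312) (nat_lit 1064) (nat_lit 0) (XT.nd (nat_lit 156) (nat_lit 1216) (nat_lit 0) (XT.nd (nat_lit 78) (nat_lit 0) (nat_lit 0) (XT.lf (nat_lit 0) (nat_lit 24649008129) (nat_lit 760) (nat_lit 8820004765) (nat_lit 836) (nat_lit 3184641003) (nat_lit 167) (nat_lit 5) (nat_lit 177) (nat_lit 5) (nat_lit 178) (nat_lit 5) (nat_lit 431) (nat_lit 426) (nat_lit 343)) (XT.lf (nat_lit 76) (nat_lit 22927845657) (nat_lit 0) (nat_lit 7052696281) (nat_lit 836) (nat_lit 8210003126) (nat_lit 168) (nat_lit 5) (nat_lit 167) (nat_lit 5) (nat_lit 178) (nat_lit 5) (nat_lit 432) (nat_lit 426) (nat_lit 342))) (XT.nd (nat_lit 78) (nat_lit 532) (nat_lit 0) (XT.lf (nat_lit 0) (nat_lit 17916375543) (nat_lit 760) (nat_lit 18585551659) (nat_lit 836) (nat_lit 3310294477) (nat_lit 158) (nat_lit 5) (nat_lit 168) (nat_lit 5) (nat_lit 169)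 (nat_lit 5) (nat_lit 433) (nat_lit 426) (nat_lit 341)) (XT.lf (nat_lit 0) (nat_lit 2666449020) (nat_lit 532) (nat_lit 28697380988) (nat_lit 76) (nat_lit 10160832428) (nat_lit 151) (nat_lit 5) (nat_lit 158) (nat_lit 5) (nat_lit 152) (nat_lit 5) (nat_lit 434) (nat_lit 426) (nat_lit 340)))) (XT.nd (nat_lit 156) (nat_lit 304) (nat_lit 0) (XT.nd (nat_lit 78) (nat_lit 380) (nat_lit 0) (XT.lf (nat_lit 0) (nat_lit 7616434722) (nat_lit 380) (nat_lit 2203382688) (nat_lit 456) (nat_lit 33510845069) (nat_lit 146) (nat_lit 5) (nat_lit 151) (nat_lit 5) (nat_lit 152) (nat_lit 5) (nat_lit 435) (nat_lit 426) (nat_lit 339)) (XT.lf (nat_lit 0) (nat_lit 2201931349) (nat_lit 380) (nat_lit 16336648301) (nat_lit 456) (nat_lit 26692907103) (nat_lit 141) (nat_lit 5) (nat_lit 146) (nat_lit 5) (nat_lit 147) (nat_lit 5) (nat_lit 436) (nat_lit 426) (nat_lit 338))) (XT.nd (nat_lit 78) (nat_lit 304) (nat_lit 0) (XT.lf (nat_lit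 0) (nat_lit 28853547694) (nat_lit 456) (nat_lit 3116420887) (nat_lit 76) (nat_lit 15269473560) (nat_lit 141) (nat_lit 5) (nat_lit 147) (nat_lit 5) (nat_lit 142) (nat_lit 5) (nat_lit 437) (nat_lit 426) (nat_lit 337)) (XT.lf (nat_lit 0) (nat_lit 40905658161) (nat_lit 380) (nat_lit 8343648103) (nat_lit 76) (nat_lit 113130828) (nat_lit 137) (nat_lit 5) (nat_lit 142) (nat_lit 5) (nat_lit 138) (nat_lit 5) (nat_lit 438) (nat_lit 426) (nat_lit 336))))) (XT.nd (nat_lit 312) (nat_lit 1064) (nat_lit 0) (XT.nd (nat_lit 156) (nat_lit 532) (nat_lit 0) (XT.nd (nat_lit 78) (nat_lit 304) (nat_lit 0) (XT.lf (nat_lit 0) (nat_lit 3392496730) (nat_lit 380) (nat_lit 13843880263) (nat_lit 76) (nat_lit 34357206615) (nat_lit 132) (nat_lit 5) (nat_lit 137) (nat_lit 5) (nat_lit 133) (nat_lit 5) (nat_lit 439) (nat_lit 426) (nat_lit 335)) (XT.lf (nat_lit 0) (nat_lit 16867444630) (nat_lit 380) (nat_lit 19451335978) (nat_lit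 76) (nat_lit 17628809037) (nat_lit 128) (nat_lit 5) (nat_lit 133) (nat_lit 5) (nat_lit 129) (nat_lit 5) (nat_lit 440) (nat_lit 426) (nat_lit 334))) (XT.nd (nat_lit 78) (nat_lit 228) (nat_lit 0) (XT.lf (nat_lit 0) (nat_lit 31424969877) (nat_lit 304) (nat_lit 1016817376) (nat_lit 380) (nat_lit 23997059256) (nat_lit 124) (nat_lit 5) (nat_lit 128) (nat_lit 5) (nat_lit 129) (nat_lit 5) (nat_lit 441) (nat_lit 426) (nat_lit 333)) (XT.lf (nat_lit 0) (nat_lit 28267031155) (nat_lit 228) (nat_lit 22355416349) (nat_lit 304) (nat_lit 8438938175) (nat_lit 121) (nat_lit 5) (nat_lit 124) (nat_lit 5) (nat_lit 125) (nat_lit 5) (nat_lit 442) (nat_lit 426) (nat_lit 332)))) (XT.nd (nat_lit 156) (nat_lit 456) (nat_lit 0) (XT.nd (nat_lit 78) (nat_lit 228) (nat_lit 0) (XT.lf (nat_lit 0) (nat_lit 9207713809) (nat_lit 380) (nat_lit 36616308357) (nat_lit 76) (nat_lit 16007598104) (nat_lit 116) (nat_lit 5) (nat_lit 121)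 (nat_lit 5) (nat_lit 117) (nat_lit 5) (nat_lit 443) (nat_lit 426) (nat_lit 331)) (XT.lf (nat_lit 0) (nat_lit 22184686392) (nat_lit 228) (nat_lit 7053915028) (nat_lit 304) (nat_lit 35514547128) (nat_lit 113) (nat_lit 5) (nat_lit 116) (nat_lit 5) (nat_lit 117) (nat_lit 5) (nat_lit 444) (nat_lit 426) (nat_lit 330))) (XT.nd (nat_lit 78) (nat_lit 228) (nat_lit 0) (XT.lf (nat_lit 0) (nat_lit 19174464123) (nat_lit 228) (nat_lit 33184637905) (nat_lit 304) (nat_lit 15474940162) (nat_lit 110) (nat_lit 5) (nat_lit 113) (nat_lit 5) (nat_lit 114) (nat_lit 5) (nat_lit 445) (nat_lit 426) (nat_lit 329)) (XT.lf (nat_lit 0) (nat_lit 7245015184) (nat_lit 228) (nat_lit 54698790747) (nat_lit 76) (nat_lit 9149057258) (nat_lit 107) (nat_lit 5) (nat_lit 110) (nat_lit 5) (nat_lit 108) (nat_lit 5) (nat_lit 446) (nat_lit 426) (nat_lit 328))))))))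
noncomputable def xc84 : XT := (XT.nd (nat_lit 2418) (nat_lit 2356) (nat_lit 0) (XT.nd (nat_lit 1170) (nat_lit 1900) (nat_lit 0) (XT.nd (nat_lit 546) (nat_lit 1292) (nat_lit 0) (XT.nd (nat_lit 234) (nat_lit 532) (nat_lit 0) (XT.nd (nat_lit 78) (nat_lit 456) (nat_lit 0) (XT.lf (nat_lit 0) (nat_lit 13408634868) (nat_lit 228) (nat_lit 19465639147) (nat_lit 304) (nat_lit 41643737961) (nat_lit 104) (nat_lit 5) (nat_lit 107) (nat_lit 5) (nat_lit 108) (nat_lit 5) (nat_lit 447) (nat_lit 426) (nat_lit 327)) (XT.nd (nat_lit 78) (nat_lit 304) (nat_lit 0) (XT.lf (nat_lit 0) (nat_lit 10655821819) (nat_lit 152) (nat_lit 51441578996) (nat_lit 228) (nat_lit 16042595642) (nat_lit 102) (nat_lit 5) (nat_lit 104) (nat_lit 5) (nat_lit 105) (nat_lit 5) (nat_lit 448) (nat_lit 426) (nat_lit 326)) (XT.lf (nat_lit 0) (nat_lit 8071844581) (nat_lit 228) (nat_lit 4695998867) (nat_lit 304) (nat_lit 69198201260) (nat_lit 98)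 (nat_lit 5) (nat_lit 101) (nat_lit 5) (nat_lit 102) (nat_lit 5) (nat_lit 449) (nat_lit 426) (nat_lit 325)))) (XT.nd (nat_lit 156) (nat_lit 228) (nat_lit 0) (XT.nd (nat_lit 78) (nat_lit 152) (nat_lit 0) (XT.lf (nat_lit 0) (nat_lit 5199081451) (nat_lit 152) (nat_lit 40117017089) (nat_lit 228) (nat_lit 40669176973) (nat_lit 96) (nat_lit 5) (nat_lit 98) (nat_lit 5) (nat_lit 99) (nat_lit 5) (nat_lit 450) (nat_lit 426) (nat_lit 324)) (XT.lf (nat_lit 0) (nat_lit 2827031689) (nat_lit 152) (nat_lit 79224303393) (nat_lit 228) (nat_lit 8195553763) (nat_lit 94) (nat_lit 5) (nat_lit 96) (nat_lit 5) (nat_lit 97) (nat_lit 5) (nat_lit 451) (nat_lit 426) (nat_lit 323))) (XT.nd (nat_lit 78) (nat_lit 0) (nat_lit 0) (XT.lf (nat_lit 0) (nat_lit 114441583) (nat_lit 152) (nat_lit 28006758365) (nat_lit 228) (nat_lit 66601978987) (nat_lit 91) (nat_lit 5) (nat_lit 93) (nat_lit 5) (nat_lit 94) (nat_lit 5) (nat_lit 452)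 (nat_lit 426) (nat_lit 322)) (XT.lf (nat_lit 0) (nat_lit 69031133604) (nat_lit 228) (nat_lit 2302809091) (nat_lit 76) (nat_lit 28118163367) (nat_lit 91) (nat_lit 5) (nat_lit 94) (nat_lit 5) (nat_lit 92) (nat_lit 5) (nat_lit 453) (nat_lit 426) (nat_lit 321))))) (XT.nd (nat_lit 312) (nat_lit 608) (nat_lit 0) (XT.nd (nat_lit 156) (nat_lit 304) (nat_lit 0) (XT.nd (nat_lit 78) (nat_lit 152) (nat_lit 0) (XT.lf (nat_lit 0) (nat_lit 10443392180) (nat_lit 228) (nat_lit 4511215746) (nat_lit 76) (nat_lit 89494689649) (nat_lit 88) (nat_lit 5) (nat_lit 91) (nat_lit 5) (nat_lit 89) (nat_lit 5) (nat_lit 454) (nat_lit 426) (nat_lit 320)) (XT.lf (nat_lit 0) (nat_lit 55930295948) (nat_lit 228) (nat_lit 7103639995) (nat_lit 76) (nat_lit 46666433690) (nat_lit 86) (nat_lit 5) (nat_lit 89) (nat_lit 5) (nat_lit 87) (nat_lit 5) (nat_lit 455) (nat_lit 426) (nat_lit 319))) (XT.nd (nat_lit 78) (nat_lit 152) (nat_lit 0)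 (XT.lf (nat_lit 0) (nat_lit 106208192616) (nat_lit 152) (nat_lit 835627189) (nat_lit 228) (nat_lit 8228324331) (nat_lit 84) (nat_lit 5) (nat_lit 86) (nat_lit 5) (nat_lit 87) (nat_lit 5) (nat_lit 456) (nat_lit 426) (nat_lit 318)) (XT.lf (nat_lit 0) (nat_lit 42570030332) (nat_lit 152) (nat_lit 11797603655) (nat_lit 76) (nat_lit 66743847300) (nat_lit 82) (nat_lit 5) (nat_lit 84) (nat_lit 5) (nat_lit 83) (nat_lit 5) (nat_lit 457) (nat_lit 426) (nat_lit 317)))) (XT.nd (nat_lit 156) (nat_lit 304) (nat_lit 0) (XT.nd (nat_lit 78) (nat_lit 152) (nat_lit 0) (XT.lf (nat_lit 0) (nat_lit 99318550466) (nat_lit 228) (nat_lit 13989349884) (nat_lit 76) (nat_lit 13994591716) (nat_lit 80) (nat_lit 5) (nat_lit 83) (nat_lit 5) (nat_lit 81) (nat_lit 4) (nat_lit 458) (nat_lit 426) (nat_lit 316)) (XT.lf (nat_lit 0) (nat_lit 28775989132) (nat_lit 152) (nat_lit 16585863842) (nat_lit 76) (nat_lit 88455663161) (nat_lit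 78) (nat_lit 5) (nat_lit 80) (nat_lit 5) (nat_lit 79) (nat_lit 5) (nat_lit 459) (nat_lit 426) (nat_lit 315))) (XT.nd (nat_lit 78) (nat_lit 152) (nat_lit 0) (XT.lf (nat_lit 0) (nat_lit 91740608040) (nat_lit 228) (nat_lit 19168816452) (nat_lit 76) (nat_lit 29789164292) (nat_lit 76) (nat_lit 5) (nat_lit 79) (nat_lit 5) (nat_lit 77) (nat_lit 4) (nat_lit 460) (nat_lit 426) (nat_lit 314)) (XT.lf (nat_lit 0) (nat_lit 14320793673) (nat_lit 152) (nat_lit 21764940525) (nat_lit 76) (nat_lit 111881337655) (nat_lit 74) (nat_lit 5) (nat_lit 76) (nat_lit 5) (nat_lit 75) (nat_lit 5) (nat_lit 461) (nat_lit 426) (nat_lit 313)))))) (XT.nd (nat_lit 624) (nat_lit 912) (nat_lit 0) (XT.nd (nat_lit 312) (nat_lit 456) (nat_lit 0) (XT.nd (nat_lit 156) (nat_lit 304) (nat_lit 0) (XT.nd (nat_lit 78) (nat_lit 76) (nat_lit 0) (XT.lf (nat_lit 0) (nat_lit 84110272189) (nat_lit 228) (nat_lit 24947657334) (nat_lit 76) (nat_lit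 46560792024) (nat_lit 72) (nat_lit 5) (nat_lit 75) (nat_lit 5) (nat_lit 73) (nat_lit 4) (nat_lit 462) (nat_lit 426) (nat_lit 312)) (XT.lf (nat_lit 0) (nat_lit 135948357875) (nat_lit 76) (nat_lit 26648879370) (nat_lit 152) (nat_lit 1129549594) (nat_lit 71) (nat_lit 5) (nat_lit 72) (nat_lit 5) (nat_lit 73) (nat_lit 4) (nat_lit 463) (nat_lit 426) (nat_lit 311))) (XT.nd (nat_lit 78) (nat_lit 76) (nat_lit 0) (XT.lf (nat_lit 0) (nat_lit 76167994316) (nat_lit 228) (nat_lit 31834729742) (nat_lit 76) (nat_lit 64238071812) (nat_lit 68) (nat_lit 5) (nat_lit 71) (nat_lit 5) (nat_lit 69) (nat_lit 4) (nat_lit 464) (nat_lit 426) (nat_lit 310)) (XT.lf (nat_lit 0) (nat_lit 145812549893) (nat_lit 76) (nat_lit 17013555414) (nat_lit 152) (nat_lit 18448077610) (nat_lit 67) (nat_lit 5) (nat_lit 68) (nat_lit 5) (nat_lit 69) (nat_lit 4) (nat_lit 465) (nat_lit 426) (nat_lit 309)))) (XT.nd (nat_lit 156) (nat_lit 228)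 (nat_lit 0) (XT.nd (nat_lit 78) (nat_lit 76) (nat_lit 0) (XT.lf (nat_lit 0) (nat_lit 67556304719) (nat_lit 152) (nat_lit 40540696280) (nat_lit 76) (nat_lit 82669073492) (nat_lit 65) (nat_lit 5) (nat_lit 67) (nat_lit 5) (nat_lit 66) (nat_lit 4) (nat_lit 466) (nat_lit 426) (nat_lit 308)) (XT.lf (nat_lit 0) (nat_lit 155409854239) (nat_lit 76) (nat_lit 7732820896) (nat_lit 152) (nat_lit 37692122493) (nat_lit 64) (nat_lit 5) (nat_lit 65) (nat_lit 5) (nat_lit 66) (nat_lit 4) (nat_lit 467) (nat_lit 426) (nat_lit 307))) (XT.nd (nat_lit 78) (nat_lit 76) (nat_lit 0) (XT.lf (nat_lit 0) (nat_lit 57787048626) (nat_lit 152) (nat_lit 52045147320) (nat_lit 76) (nat_lit 101590657714) (nat_lit 62) (nat_lit 5) (nat_lit 64) (nat_lit 5) (nat_lit 63) (nat_lit 4) (nat_lit 468) (nat_lit 426) (nat_lit 306)) (XT.lf (nat_lit 0) (nat_lit 163103972855) (nat_lit 152) (nat_lit 58833428235) (nat_lit 0) (nat_lit 713659534) (nat_lit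 61) (nat_lit 5) (nat_lit 63) (nat_lit 4) (nat_lit 61) (nat_lit 4) (nat_lit 469) (nat_lit 426) (nat_lit 305))))) (XT.nd (nat_lit 312) (nat_lit 456) (nat_lit 0) (XT.nd (nat_lit 156) (nat_lit 228) (nat_lit 0) (XT.nd (nat_lit 78) (nat_lit 76) (nat_lit 0) (XT.lf (nat_lit 0) (nat_lit 46198621885) (nat_lit 152) (nat_lit 67684224859) (nat_lit 76) (nat_lit 120588019030) (nat_lit 59) (nat_lit 5) (nat_lit 61) (nat_lit 5) (nat_lit 60) (nat_lit 4) (nat_lit 470) (nat_lit 426) (nat_lit 304)) (XT.lf (nat_lit 0) (nat_lit 162157422212) (nat_lit 152) (nat_lit 77340052107) (nat_lit 0) (nat_lit 7497988256) (nat_lit 58) (nat_lit 5) (nat_lit 60) (nat_lit 4) (nat_lit 58) (nat_lit 4) (nat_lit 471) (nat_lit 426) (nat_lit 303))) (XT.nd (nat_lit 78) (nat_lit 76) (nat_lit 0) (XT.lf (nat_lit 0) (nat_lit 31900261091) (nat_lit 152) (nat_lit 89264785780) (nat_lit 76) (nat_lit 139041533850) (nat_lit 56) (nat_lit 5) (nat_lit 58)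 (nat_lit 5) (nat_lit 57) (nat_lit 4) (nat_lit 472) (nat_lit 426) (nat_lit 302)) (XT.lf (nat_lit 0) (nat_lit 159283393016) (nat_lit 152) (nat_lit 102920685090) (nat_lit 0) (nat_lit 11987066947) (nat_lit 55) (nat_lit 5) (nat_lit 57) (nat_lit 4) (nat_lit 55) (nat_lit 4) (nat_lit 473) (nat_lit 426) (nat_lit 301)))) (XT.nd (nat_lit 156) (nat_lit 228) (nat_lit 0) (XT.nd (nat_lit 78) (nat_lit 76) (nat_lit 0) (XT.lf (nat_lit 0) (nat_lit 13699589779) (nat_lit 152) (nat_lit 119212891319) (nat_lit 76) (nat_lit 156057142572) (nat_lit 53) (nat_lit 5) (nat_lit 55) (nat_lit 5) (nat_lit 54) (nat_lit 4) (nat_lit 474) (nat_lit 426) (nat_lit 300)) (XT.lf (nat_lit 0) (nat_lit 153252112020) (nat_lit 152) (nat_lit 138381393641) (nat_lit 0) (nat_lit 12968568197) (nat_lit 52) (nat_lit 5) (nat_lit 54) (nat_lit 4) (nat_lit 52) (nat_lit 4) (nat_lit 475) (nat_lit 426) (nat_lit 299))) (XT.nd (nat_lit 78) (nat_lit 152) (nat_lit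 0) (XT.lf (nat_lit 0) (nat_lit 160214713263) (nat_lit 76) (nat_lit 150605974717) (nat_lit 76) (nat_lit 10321839494) (nat_lit 51) (nat_lit 4) (nat_lit 52) (nat_lit 5) (nat_lit 52) (nat_lit 4) (nat_lit 476) (nat_lit 426) (nat_lit 298)) (XT.lf (nat_lit 0) (nat_lit 142397383346) (nat_lit 152) (nat_lit 187457400048) (nat_lit 0) (nat_lit 8792923523) (nat_lit 49) (nat_lit 5) (nat_lit 51) (nat_lit 4) (nat_lit 49) (nat_lit 4) (nat_lit 477) (nat_lit 426) (nat_lit 297))))))) (XT.nd (nat_lit 1248) (nat_lit 760) (nat_lit 0) (XT.nd (nat_lit 624) (nat_lit 836) (nat_lit 0) (XT.nd (nat_lit 312) (nat_lit 304) (nat_lit 0) (XT.nd (nat_lit 156) (nat_lit 228) (nat_lit 0) (XT.nd (nat_lit 78) (nat_lit 152) (nat_lit 0) (XT.lf (nat_lit 0) (nat_lit 138275065996) (nat_lit 76) (nat_lit 176248580226) (nat_lit 76) (nat_lit 42643637517) (nat_lit 48) (nat_lit 4) (nat_lit 49) (nat_lit 5) (nat_lit 49) (nat_lit 4) (nat_lit 478)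 (nat_lit 426) (nat_lit 296)) (XT.lf (nat_lit 0) (nat_lit 121668887024) (nat_lit 76) (nat_lit 2855150462) (nat_lit 152) (nat_lit 252287310375) (nat_lit 46) (nat_lit 5) (nat_lit 47) (nat_lit 5) (nat_lit 48) (nat_lit 4) (nat_lit 479) (nat_lit 426) (nat_lit 295))) (XT.nd (nat_lit 78) (nat_lit 152) (nat_lit 0) (XT.lf (nat_lit 0) (nat_lit 98959376630) (nat_lit 76) (nat_lit 212930153951) (nat_lit 76) (nat_lit 85686531265) (nat_lit 45) (nat_lit 4) (nat_lit 46) (nat_lit 5) (nat_lit 46) (nat_lit 4) (nat_lit 480) (nat_lit 426) (nat_lit 294)) (XT.lf (nat_lit 0) (nat_lit 71411584393) (nat_lit 76) (nat_lit 25493572755) (nat_lit 152) (nat_lit 322739267007) (nat_lit 43) (nat_lit 5) (nat_lit 44) (nat_lit 5) (nat_lit 45) (nat_lit 4) (nat_lit 481) (nat_lit 426) (nat_lit 293)))) (XT.nd (nat_lit 156) (nat_lit 152) (nat_lit 0) (XT.nd (nat_lit 78) (nat_lit 76) (nat_lit 0) (XT.lf (nat_lit 0) (nat_lit 35323145484) (nat_lit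 76) (nat_lit 264418974204) (nat_lit 76) (nat_lit 143233902018) (nat_lit 42) (nat_lit 4) (nat_lit 43) (nat_lit 5) (nat_lit 43) (nat_lit 4) (nat_lit 482) (nat_lit 426) (nat_lit 292)) (XT.lf (nat_lit 0) (nat_lit 55605558970) (nat_lit 152) (nat_lit 7193974386) (nat_lit 76) (nat_lit 405005378246) (nat_lit 41) (nat_lit 5) (nat_lit 43) (nat_lit 5) (nat_lit 42) (nat_lit 4) (nat_lit 483) (nat_lit 426) (nat_lit 291))) (XT.nd (nat_lit 78) (nat_lit 76) (nat_lit 0) (XT.lf (nat_lit 0) (nat_lit 274791333942) (nat_lit 152) (nat_lit 59862072430) (nat_lit 0) (nat_lit 159376432718) (nat_lit 40) (nat_lit 5) (nat_lit 42) (nat_lit 4) (nat_lit 40) (nat_lit 4) (nat_lit 484) (nat_lit 426) (nat_lit 290)) (XT.lf (nat_lit 0) (nat_lit 400504539747) (nat_lit 76) (nat_lit 118445725469) (nat_lit 76) (nat_lit 3030580852) (nat_lit 39) (nat_lit 4) (nat_lit 40) (nat_lit 5) (nat_lit 40) (nat_lit 4) (nat_lit 485) (nat_lit 426) (nat_lit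 289))))) (XT.nd (nat_lit 312) (nat_lit 380) (nat_lit 0) (XT.nd (nat_lit 156) (nat_lit 228) (nat_lit 0) (XT.nd (nat_lit 78) (nat_lit 76) (nat_lit 0) (XT.lf (nat_lit 0) (nat_lit 231670064950) (nat_lit 152) (nat_lit 198138651746) (nat_lit 0) (nat_lit 121750664967) (nat_lit 37) (nat_lit 5) (nat_lit 39) (nat_lit 4) (nat_lit 37) (nat_lit 4) (nat_lit 486) (nat_lit 426) (nat_lit 288)) (XT.lf (nat_lit 0) (nat_lit 294592946056) (nat_lit 76) (nat_lit 199195488130) (nat_lit 76) (nat_lit 89275889412) (nat_lit 36) (nat_lit 4) (nat_lit 37) (nat_lit 5) (nat_lit 37) (nat_lit 4) (nat_lit 487) (nat_lit 426) (nat_lit 287))) (XT.nd (nat_lit 78) (nat_lit 76) (nat_lit 0) (XT.lf (nat_lit 0) (nat_lit 162570424607) (nat_lit 152) (nat_lit 396114684098) (nat_lit 0) (nat_lit 57884917245) (nat_lit 34) (nat_lit 5) (nat_lit 36) (nat_lit 4) (nat_lit 34) (nat_lit 4) (nat_lit 488) (nat_lit 426) (nat_lit 286)) (XT.lf (nat_lit 0)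 (nat_lit 127009266363) (nat_lit 76) (nat_lit 314917453687) (nat_lit 76) (nat_lit 210231784055) (nat_lit 33) (nat_lit 4) (nat_lit 34) (nat_lit 5) (nat_lit 34) (nat_lit 4) (nat_lit 489) (nat_lit 426) (nat_lit 285)))) (XT.nd (nat_lit 156) (nat_lit 228) (nat_lit 0) (XT.nd (nat_lit 78) (nat_lit 0) (nat_lit 0) (XT.lf (nat_lit 0) (nat_lit 15430158684) (nat_lit 76) (nat_lit 43163001591) (nat_lit 152) (nat_lit 631596835493) (nat_lit 31) (nat_lit 5) (nat_lit 32) (nat_lit 5) (nat_lit 33) (nat_lit 4) (nat_lit 490) (nat_lit 426) (nat_lit 284)) (XT.lf (nat_lit 0) (nat_lit 354862347009) (nat_lit 152) (nat_lit 120402717723) (nat_lit 0) (nat_lit 255161433675) (nat_lit 31) (nat_lit 5) (nat_lit 33) (nat_lit 4) (nat_lit 31) (nat_lit 4) (nat_lit 491) (nat_lit 426) (nat_lit 283))) (XT.nd (nat_lit 78) (nat_lit 152) (nat_lit 0) (XT.lf (nat_lit 0) (nat_lit 493364349391) (nat_lit 76) (nat_lit 189898557975) (nat_lit 76)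 (nat_lit 90197521960) (nat_lit 30) (nat_lit 4) (nat_lit 31) (nat_lit 5) (nat_lit 31) (nat_lit 4) (nat_lit 492) (nat_lit 426) (nat_lit 282)) (XT.lf (nat_lit 0) (nat_lit 220618645340) (nat_lit 152) (nat_lit 473003205582) (nat_lit 0) (nat_lit 125665169523) (nat_lit 28) (nat_lit 5) (nat_lit 30) (nat_lit 4) (nat_lit 28) (nat_lit 4) (nat_lit 493) (nat_lit 426) (nat_lit 281)))))) (XT.nd (nat_lit 624) (nat_lit 76) (nat_lit 0) (XT.nd (nat_lit 312) (nat_lit 380) (nat_lit 0) (XT.nd (nat_lit 156) (nat_lit 152) (nat_lit 0) (XT.nd (nat_lit 78) (nat_lit 76) (nat_lit 0) (XT.lf (nat_lit 0) (nat_lit 164707746815) (nat_lit 76) (nat_lit 399206463172) (nat_lit 76) (nat_lit 304252887185) (nat_lit 27) (nat_lit 4) (nat_lit 28) (nat_lit 5) (nat_lit 28) (nat_lit 4) (nat_lit 494) (nat_lit 426) (nat_lit 280)) (XT.lf (nat_lit 0) (nat_lit 21650625076) (nat_lit 152) (nat_lit 50569887331) (nat_lit 76) (nat_lit 848307671605)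 (nat_lit 26) (nat_lit 5) (nat_lit 28) (nat_lit 5) (nat_lit 27) (nat_lit 4) (nat_lit 495) (nat_lit 426) (nat_lit 279))) (XT.nd (nat_lit 78) (nat_lit 76) (nat_lit 0) (XT.lf (nat_lit 0) (nat_lit 378225057050) (nat_lit 152) (nat_lit 310047894452) (nat_lit 0) (nat_lit 287792909795) (nat_lit 25) (nat_lit 5) (nat_lit 27) (nat_lit 4) (nat_lit 25) (nat_lit 4) (nat_lit 496) (nat_lit 426) (nat_lit 278)) (XT.lf (nat_lit 0) (nat_lit 417877362502) (nat_lit 76) (nat_lit 354084788928) (nat_lit 76) (nat_lit 263652565942) (nat_lit 24) (nat_lit 4) (nat_lit 25) (nat_lit 5) (nat_lit 25) (nat_lit 4) (nat_lit 497) (nat_lit 426) (nat_lit 277)))) (XT.nd (nat_lit 156) (nat_lit 228) (nat_lit 0) (XT.nd (nat_lit 78) (nat_lit 0) (nat_lit 0) (XT.lf (nat_lit 0) (nat_lit 101734129256) (nat_lit 152) (nat_lit 982130449990) (nat_lit 0) (nat_lit 15608135820) (nat_lit 22) (nat_lit 5) (nat_lit 24) (nat_lit 4) (nat_lit 22) (nat_lit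 4) (nat_lit 498) (nat_lit 426) (nat_lit 276)) (XT.lf (nat_lit 0) (nat_lit 504145055637) (nat_lit 152) (nat_lit 245207668054) (nat_lit 0) (nat_lit 418019000364) (nat_lit 22) (nat_lit 5) (nat_lit 24) (nat_lit 4) (nat_lit 22) (nat_lit 4) (nat_lit 499) (nat_lit 426) (nat_lit 275))) (XT.nd (nat_lit 78) (nat_lit 152) (nat_lit 0) (XT.lf (nat_lit 0) (nat_lit 568875373483) (nat_lit 76) (nat_lit 378754666801) (nat_lit 76) (nat_lit 292628554273) (nat_lit 21) (nat_lit 4) (nat_lit 22) (nat_lit 5) (nat_lit 22) (nat_lit 4) (nat_lit 500) (nat_lit 426) (nat_lit 274)) (XT.lf (nat_lit 0) (nat_lit 111182938304) (nat_lit 152) (nat_lit 1178200949264) (nat_lit 0) (nat_lit 29158018740) (nat_lit 19) (nat_lit 5) (nat_lit 21) (nat_lit 4) (nat_lit 19) (nat_lit 4) (nat_lit 501) (nat_lit 426) (nat_lit 273))))) (XT.nd (nat_lit 56706) (nat_lit 0) (nat_lit 11096) (XT.nd (nat_lit 156) (nat_lit 0) (nat_lit 0) (XT.nd (nat_lit 78)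 (nat_lit 76) (nat_lit 0) (XT.lf (nat_lit 0) (nat_lit 555456890297) (nat_lit 152) (nat_lit 373038718295) (nat_lit 0) (nat_lit 473431923983) (nat_lit 19) (nat_lit 5) (nat_lit 21) (nat_lit 4) (nat_lit 19) (nat_lit 4) (nat_lit 502) (nat_lit 426) (nat_lit 272)) (XT.lf (nat_lit 0) (nat_lit 512953210079) (nat_lit 76) (nat_lit 530327700432) (nat_lit 76) (nat_lit 448302690831) (nat_lit 18) (nat_lit 4) (nat_lit 19) (nat_lit 5) (nat_lit 19) (nat_lit 4) (nat_lit 503) (nat_lit 426) (nat_lit 271))) (XT.nd (nat_lit 56472) (nat_lit 0) (nat_lit 11020) (XT.lf (nat_lit 0) (nat_lit 1483144640675) (nat_lit 76) (nat_lit 93483841561) (nat_lit 76) (nat_lit 11458791879) (nat_lit 18) (nat_lit 4) (nat_lit 19) (nat_lit 5) (nat_lit 19) (nat_lit 4) (nat_lit 504) (nat_lit 426) (nat_lit 270)) (XT.lf (nat_lit 0) (nat_lit 6761042497) (nat_lit 836) (nat_lit 4735503507) (nat_lit 836) (nat_lit 4735503507) (nat_lit 163) (nat_lit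 3) (nat_lit 174) (nat_lit 3) (nat_lit 174) (nat_lit 5) (nat_lit 427) (nat_lit 427) (nat_lit 346)))) (XT.nd (nat_lit 156) (nat_lit 0) (nat_lit 76) (XT.nd (nat_lit 78) (nat_lit 0) (nat_lit 0) (XT.lf (nat_lit 0) (nat_lit 14462814649) (nat_lit 760) (nat_lit 16847592344) (nat_lit 836) (nat_lit 2432256253) (nat_lit 164) (nat_lit 5) (nat_lit 174) (nat_lit 5) (nat_lit 175) (nat_lit 5) (nat_lit 428) (nat_lit 427) (nat_lit 345)) (XT.lf (nat_lit 76) (nat_lit 10534357002) (nat_lit 0) (nat_lit 5654669970) (nat_lit 836) (nat_lit 18898975163) (nat_lit 165) (nat_lit 5) (nat_lit 164) (nat_lit 5) (nat_lit 175) (nat_lit 5) (nat_lit 429) (nat_lit 427) (nat_lit 344))) (XT.nd (nat_lit 78) (nat_lit 0) (nat_lit 76) (XT.lf (nat_lit 76) (nat_lit 3953569945) (nat_lit 0) (nat_lit 14795141610) (nat_lit 836) (nat_lit 17757488506) (nat_lit 166) (nat_lit 5) (nat_lit 165) (nat_lit 5) (nat_lit 176) (nat_lit 5) (nat_lit 430) (nat_lit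 427) (nat_lit 343)) (XT.lf (nat_lit 0) (nat_lit 22236888328) (nat_lit 760) (nat_lit 2708880747) (nat_lit 836) (nat_lit 13055899510) (nat_lit 166) (nat_lit 5) (nat_lit 176) (nat_lit 5) (nat_lit 177) (nat_lit 5) (nat_lit 431) (nat_lit 427) (nat_lit 342))))))))
noncomputable def xc85 : XT := (XT.nd (nat_lit 2496) (nat_lit 3420) (nat_lit 0) (XT.nd (nat_lit 1248) (nat_lit 2660) (nat_lit 0) (XT.nd (nat_lit 624) (nat_lit 2280) (nat_lit 0) (XT.nd (nat_lit 312) (nat_lit 1064) (nat_lit 0) (XT.nd (nat_lit 156) (nat_lit 1216) (nat_lit 0) (XT.nd (nat_lit 78) (nat_lit 0) (nat_lit 0) (XT.lf (nat_lit 0) (nat_lit 26772829720) (nat_lit 760) (nat_lit 9401162548) (nat_lit 836) (nat_lit 3404347390) (nat_lit 167) (nat_lit 5) (nat_lit 177) (nat_lit 5) (nat_lit 178) (nat_lit 5) (nat_lit 432) (nat_lit 427) (nat_lit 341)) (XT.lf (nat_lit 76) (nat_lit 24881107784) (nat_lit 0) (nat_lit 7640384990) (nat_lit 836) (nat_lit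 8717159870) (nat_lit 168) (nat_lit 5) (nat_lit 167) (nat_lit 5) (nat_lit 178) (nat_lit 5) (nat_lit 433) (nat_lit 427) (nat_lit 340))) (XT.nd (nat_lit 78) (nat_lit 532) (nat_lit 0) (XT.lf (nat_lit 0) (nat_lit 19470723423) (nat_lit 760) (nat_lit 20084859733) (nat_lit 836) (nat_lit 3434931305) (nat_lit 158) (nat_lit 5) (nat_lit 168) (nat_lit 5) (nat_lit 169) (nat_lit 5) (nat_lit 434) (nat_lit 427) (nat_lit 339)) (XT.lf (nat_lit 0) (nat_lit 3007171514) (nat_lit 532) (nat_lit 30866591882) (nat_lit 76) (nat_lit 10966493010) (nat_lit 151) (nat_lit 5) (nat_lit 158) (nat_lit 5) (nat_lit 152) (nat_lit 5) (nat_lit 435) (nat_lit 427) (nat_lit 338)))) (XT.nd (nat_lit 156) (nat_lit 304) (nat_lit 0) (XT.nd (nat_lit 78) (nat_lit 380) (nat_lit 0) (XT.lf (nat_lit 0) (nat_lit 8346828091) (nat_lit 380) (nat_lit 2378434137) (nat_lit 456) (nat_lit 36065852226) (nat_lit 146) (nat_lit 5) (nat_lit 151) (nat_lit 5) (nat_lit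 152) (nat_lit 5) (nat_lit 436) (nat_lit 427) (nat_lit 337)) (XT.lf (nat_lit 0) (nat_lit 2499624539) (nat_lit 380) (nat_lit 17634937615) (nat_lit 456) (nat_lit 28709791276) (nat_lit 141) (nat_lit 5) (nat_lit 146) (nat_lit 5) (nat_lit 147) (nat_lit 5) (nat_lit 437) (nat_lit 427) (nat_lit 336))) (XT.nd (nat_lit 78) (nat_lit 304) (nat_lit 0) (XT.lf (nat_lit 0) (nat_lit 31266489905) (nat_lit 456) (nat_lit 3248090103) (nat_lit 76) (nat_lit 16498777680) (nat_lit 141) (nat_lit 5) (nat_lit 147) (nat_lit 5) (nat_lit 142) (nat_lit 5) (nat_lit 438) (nat_lit 427) (nat_lit 335)) (XT.lf (nat_lit 0) (nat_lit 44276990204) (nat_lit 380) (nat_lit 8893885178) (nat_lit 76) (nat_lit 135606315) (nat_lit 137) (nat_lit 5) (nat_lit 142) (nat_lit 5) (nat_lit 138) (nat_lit 5) (nat_lit 439) (nat_lit 427) (nat_lit 334))))) (XT.nd (nat_lit 312) (nat_lit 1064) (nat_lit 0) (XT.nd (nat_lit 156) (nat_lit 532) (nat_lit 0) (XT.nd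 (nat_lit 78) (nat_lit 304) (nat_lit 0) (XT.lf (nat_lit 0) (nat_lit 3758737914) (nat_lit 380) (nat_lit 14836090137) (nat_lit 76) (nat_lit 37121494536) (nat_lit 132) (nat_lit 5) (nat_lit 137) (nat_lit 5) (nat_lit 133) (nat_lit 5) (nat_lit 440) (nat_lit 427) (nat_lit 333)) (XT.lf (nat_lit 0) (nat_lit 18306702277) (nat_lit 380) (nat_lit 20892994997) (nat_lit 76) (nat_lit 19059201219) (nat_lit 128) (nat_lit 5) (nat_lit 133) (nat_lit 5) (nat_lit 129) (nat_lit 5) (nat_lit 441) (nat_lit 427) (nat_lit 332))) (XT.nd (nat_lit 78) (nat_lit 228) (nat_lit 0) (XT.lf (nat_lit 0) (nat_lit 34048441561) (nat_lit 304) (nat_lit 1073603496) (nat_lit 380) (nat_lit 25827658599) (nat_lit 124) (nat_lit 5) (nat_lit 128) (nat_lit 5) (nat_lit 129) (nat_lit 5) (nat_lit 442) (nat_lit 427) (nat_lit 331)) (XT.lf (nat_lit 0) (nat_lit 30636809205) (nat_lit 228) (nat_lit 24116106643) (nat_lit 304) (nat_lit 9029342583) (nat_lit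 121) (nat_lit 5) (nat_lit 124) (nat_lit 5) (nat_lit 125) (nat_lit 5) (nat_lit 443) (nat_lit 427) (nat_lit 330)))) (XT.nd (nat_lit 156) (nat_lit 456) (nat_lit 0) (XT.nd (nat_lit 78) (nat_lit 228) (nat_lit 0) (XT.lf (nat_lit 0) (nat_lit 10022364271) (nat_lit 380) (nat_lit 39435876706) (nat_lit 76) (nat_lit 17316003302) (nat_lit 116) (nat_lit 5) (nat_lit 121) (nat_lit 5) (nat_lit 117) (nat_lit 5) (nat_lit 444) (nat_lit 427) (nat_lit 329)) (XT.lf (nat_lit 0) (nat_lit 24064428617) (nat_lit 228) (nat_lit 7587152859) (nat_lit 304) (nat_lit 38278120705) (nat_lit 113) (nat_lit 5) (nat_lit 116) (nat_lit 5) (nat_lit 117) (nat_lit 5) (nat_lit 445) (nat_lit 427) (nat_lit 328))) (XT.nd (nat_lit 78) (nat_lit 228) (nat_lit 0) (XT.lf (nat_lit 0) (nat_lit 20811900256) (nat_lit 228) (nat_lit 35806413231) (nat_lit 304) (nat_lit 16638924531) (nat_lit 110) (nat_lit 5) (nat_lit 113) (nat_lit 5) (nat_lit 114) (nat_lit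 5) (nat_lit 446) (nat_lit 427) (nat_lit 327)) (XT.lf (nat_lit 0) (nat_lit 7893052877) (nat_lit 228) (nat_lit 58970564795) (nat_lit 76) (nat_lit 9913249765) (nat_lit 107) (nat_lit 5) (nat_lit 110) (nat_lit 5) (nat_lit 108) (nat_lit 5) (nat_lit 447) (nat_lit 427) (nat_lit 326)))))) (XT.nd (nat_lit 624) (nat_lit 1216) (nat_lit 0) (XT.nd (nat_lit 312) (nat_lit 608) (nat_lit 0) (XT.nd (nat_lit 156) (nat_lit 456) (nat_lit 0) (XT.nd (nat_lit 78) (nat_lit 152) (nat_lit 0) (XT.lf (nat_lit 0) (nat_lit 14580929541) (nat_lit 228) (nat_lit 20988208601) (nat_lit 304) (nat_lit 44907065920) (nat_lit 104) (nat_lit 5) (nat_lit 107) (nat_lit 5) (nat_lit 108) (nat_lit 5) (nat_lit 448) (nat_lit 427) (nat_lit 325)) (XT.lf (nat_lit 0) (nat_lit 11606152518) (nat_lit 152) (nat_lit 55521182830) (nat_lit 228) (nat_lit 17260751144) (nat_lit 102) (nat_lit 5) (nat_lit 104) (nat_lit 5) (nat_lit 105) (nat_lit 5) (nat_lit 449)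 (nat_lit 427) (nat_lit 324))) (XT.nd (nat_lit 78) (nat_lit 152) (nat_lit 0) (XT.lf (nat_lit 0) (nat_lit 8813204054) (nat_lit 228) (nat_lit 5036044523) (nat_lit 304) (nat_lit 74671078571) (nat_lit 98) (nat_lit 5) (nat_lit 101) (nat_lit 5) (nat_lit 102) (nat_lit 5) (nat_lit 450) (nat_lit 427) (nat_lit 323)) (XT.lf (nat_lit 0) (nat_lit 5708803237) (nat_lit 152) (nat_lit 43290097596) (nat_lit 228) (nat_lit 43862318912) (nat_lit 96) (nat_lit 5) (nat_lit 98) (nat_lit 5) (nat_lit 99) (nat_lit 5) (nat_lit 451) (nat_lit 427) (nat_lit 322)))) (XT.nd (nat_lit 156) (nat_lit 228) (nat_lit 0) (XT.nd (nat_lit 78) (nat_lit 228) (nat_lit 0) (XT.lf (nat_lit 0) (nat_lit 3145124180) (nat_lit 152) (nat_lit 85525531563) (nat_lit 228) (nat_lit 8793221583) (nat_lit 94) (nat_lit 5) (nat_lit 96) (nat_lit 5) (nat_lit 97) (nat_lit 5) (nat_lit 452) (nat_lit 427) (nat_lit 321)) (XT.lf (nat_lit 0) (nat_lit 213308430) (nat_lit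 152) (nat_lit 30210951931) (nat_lit 228) (nat_lit 71874102962) (nat_lit 91) (nat_lit 5) (nat_lit 93) (nat_lit 5) (nat_lit 94) (nat_lit 5) (nat_lit 453) (nat_lit 427) (nat_lit 320))) (XT.nd (nat_lit 78) (nat_lit 228) (nat_lit 0) (XT.lf (nat_lit 0) (nat_lit 74603561235) (nat_lit 228) (nat_lit 2402020886) (nat_lit 76) (nat_lit 30400194000) (nat_lit 91) (nat_lit 5) (nat_lit 94) (nat_lit 5) (nat_lit 92) (nat_lit 5) (nat_lit 454) (nat_lit 427) (nat_lit 319)) (XT.lf (nat_lit 0) (nat_lit 11327151300) (nat_lit 228) (nat_lit 4789196629) (nat_lit 76) (nat_lit 96686477674) (nat_lit 88) (nat_lit 5) (nat_lit 91) (nat_lit 5) (nat_lit 89) (nat_lit 5) (nat_lit 455) (nat_lit 427) (nat_lit 318))))) (XT.nd (nat_lit 312) (nat_lit 608) (nat_lit 0) (XT.nd (nat_lit 156) (nat_lit 304) (nat_lit 0) (XT.nd (nat_lit 78) (nat_lit 152) (nat_lit 0) (XT.lf (nat_lit 0) (nat_lit 60451189697) (nat_lit 228) (nat_lit 7590840416)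 (nat_lit 76) (nat_lit 50432044297) (nat_lit 86) (nat_lit 5) (nat_lit 89) (nat_lit 5) (nat_lit 87) (nat_lit 5) (nat_lit 456) (nat_lit 427) (nat_lit 317)) (XT.lf (nat_lit 0) (nat_lit 114782414697) (nat_lit 152) (nat_lit 869149571) (nat_lit 228) (nat_lit 8840138261) (nat_lit 84) (nat_lit 5) (nat_lit 86) (nat_lit 5) (nat_lit 87) (nat_lit 5) (nat_lit 457) (nat_lit 427) (nat_lit 316))) (XT.nd (nat_lit 78) (nat_lit 152) (nat_lit 0) (XT.lf (nat_lit 0) (nat_lit 46018960044) (nat_lit 152) (nat_lit 12664163350) (nat_lit 76) (nat_lit 72115108979) (nat_lit 82) (nat_lit 5) (nat_lit 84) (nat_lit 5) (nat_lit 83) (nat_lit 5) (nat_lit 458) (nat_lit 427) (nat_lit 315)) (XT.lf (nat_lit 0) (nat_lit 107305815301) (nat_lit 228) (nat_lit 15033051145) (nat_lit 76) (nat_lit 15145734970) (nat_lit 80) (nat_lit 5) (nat_lit 83) (nat_lit 5) (nat_lit 81) (nat_lit 4) (nat_lit 459) (nat_lit 427) (nat_lit 314)))) (XT.nd (nat_lit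 156) (nat_lit 304) (nat_lit 0) (XT.nd (nat_lit 78) (nat_lit 152) (nat_lit 0) (XT.lf (nat_lit 0) (nat_lit 31118534471) (nat_lit 152) (nat_lit 17839226188) (nat_lit 76) (nat_lit 95563132597) (nat_lit 78) (nat_lit 5) (nat_lit 80) (nat_lit 5) (nat_lit 79) (nat_lit 5) (nat_lit 460) (nat_lit 427) (nat_lit 313)) (XT.lf (nat_lit 0) (nat_lit 99118918806) (nat_lit 228) (nat_lit 20630576042) (nat_lit 76) (nat_lit 32203027137) (nat_lit 76) (nat_lit 5) (nat_lit 79) (nat_lit 5) (nat_lit 77) (nat_lit 4) (nat_lit 461) (nat_lit 427) (nat_lit 312))) (XT.nd (nat_lit 78) (nat_lit 152) (nat_lit 0) (XT.lf (nat_lit 0) (nat_lit 15504308477) (nat_lit 152) (nat_lit 23436255785) (nat_lit 76) (nat_lit 120861980071) (nat_lit 74) (nat_lit 5) (nat_lit 76) (nat_lit 5) (nat_lit 75) (nat_lit 5) (nat_lit 462) (nat_lit 427) (nat_lit 311)) (XT.lf (nat_lit 0) (nat_lit 90875665206) (nat_lit 228) (nat_lit 26875301756) (nat_lit 76)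 (nat_lit 50315423096) (nat_lit 72) (nat_lit 5) (nat_lit 75) (nat_lit 5) (nat_lit 73) (nat_lit 4) (nat_lit 463) (nat_lit 427) (nat_lit 310))))))) (XT.nd (nat_lit 1248) (nat_lit 1596) (nat_lit 0) (XT.nd (nat_lit 624) (nat_lit 836) (nat_lit 0) (XT.nd (nat_lit 312) (nat_lit 456) (nat_lit 0) (XT.nd (nat_lit 156) (nat_lit 228) (nat_lit 0) (XT.nd (nat_lit 78) (nat_lit 228) (nat_lit 0) (XT.lf (nat_lit 0) (nat_lit 146889432165) (nat_lit 76) (nat_lit 28750464365) (nat_lit 152) (nat_lit 1183288640) (nat_lit 71) (nat_lit 5) (nat_lit 72) (nat_lit 5) (nat_lit 73) (nat_lit 4) (nat_lit 464) (nat_lit 427) (nat_lit 309)) (XT.lf (nat_lit 0) (nat_lit 82295715068) (nat_lit 228) (nat_lit 34316786288) (nat_lit 76) (nat_lit 69405843591) (nat_lit 68) (nat_lit 5) (nat_lit 71) (nat_lit 5) (nat_lit 69) (nat_lit 4) (nat_lit 465) (nat_lit 427) (nat_lit 308))) (XT.nd (nat_lit 78) (nat_lit 152) (nat_lit 0) (XT.lf (nat_lit 0)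 (nat_lit 157539462985) (nat_lit 76) (nat_lit 18345439180) (nat_lit 152) (nat_lit 19889579472) (nat_lit 67) (nat_lit 5) (nat_lit 68) (nat_lit 5) (nat_lit 69) (nat_lit 4) (nat_lit 466) (nat_lit 427) (nat_lit 307)) (XT.lf (nat_lit 0) (nat_lit 72992978299) (nat_lit 152) (nat_lit 43722540556) (nat_lit 76) (nat_lit 89310232702) (nat_lit 65) (nat_lit 5) (nat_lit 67) (nat_lit 5) (nat_lit 66) (nat_lit 4) (nat_lit 467) (nat_lit 427) (nat_lit 306)))) (XT.nd (nat_lit 156) (nat_lit 228) (nat_lit 0) (XT.nd (nat_lit 78) (nat_lit 152) (nat_lit 0) (XT.lf (nat_lit 0) (nat_lit 167901385139) (nat_lit 76) (nat_lit 8323407441) (nat_lit 152) (nat_lit 40675253285) (nat_lit 64) (nat_lit 5) (nat_lit 65) (nat_lit 5) (nat_lit 66) (nat_lit 4) (nat_lit 468) (nat_lit 427) (nat_lit 305)) (XT.lf (nat_lit 0) (nat_lit 62440228344) (nat_lit 152) (nat_lit 56150519905) (nat_lit 76) (nat_lit 109744422559) (nat_lit 62) (nat_lit 5)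 (nat_lit 64) (nat_lit 5) (nat_lit 63) (nat_lit 4) (nat_lit 469) (nat_lit 427) (nat_lit 304))) (XT.nd (nat_lit 78) (nat_lit 152) (nat_lit 0) (XT.lf (nat_lit 0) (nat_lit 176181557435) (nat_lit 152) (nat_lit 63483370974) (nat_lit 0) (nat_lit 796753399) (nat_lit 61) (nat_lit 5) (nat_lit 63) (nat_lit 4) (nat_lit 61) (nat_lit 4) (nat_lit 470) (nat_lit 427) (nat_lit 303)) (XT.lf (nat_lit 0) (nat_lit 49922916150) (nat_lit 152) (nat_lit 73043757341) (nat_lit 76) (nat_lit 130260441030) (nat_lit 59) (nat_lit 5) (nat_lit 61) (nat_lit 5) (nat_lit 60) (nat_lit 4) (nat_lit 471) (nat_lit 427) (nat_lit 302))))) (XT.nd (nat_lit 312) (nat_lit 380) (nat_lit 0) (XT.nd (nat_lit 156) (nat_lit 228) (nat_lit 0) (XT.nd (nat_lit 78) (nat_lit 152) (nat_lit 0) (XT.lf (nat_lit 0) (nat_lit 175157541880) (nat_lit 152) (nat_lit 83473494377) (nat_lit 0) (nat_lit 8122686763) (nat_lit 58) (nat_lit 5) (nat_lit 60) (nat_lit 4) (nat_lit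 58) (nat_lit 4) (nat_lit 472) (nat_lit 427) (nat_lit 301)) (XT.lf (nat_lit 0) (nat_lit 34479003031) (nat_lit 152) (nat_lit 96353659416) (nat_lit 76) (nat_lit 150189108444) (nat_lit 56) (nat_lit 5) (nat_lit 58) (nat_lit 5) (nat_lit 57) (nat_lit 4) (nat_lit 473) (nat_lit 427) (nat_lit 300))) (XT.nd (nat_lit 78) (nat_lit 152) (nat_lit 0) (XT.lf (nat_lit 0) (nat_lit 172051970090) (nat_lit 152) (nat_lit 111103410319) (nat_lit 0) (nat_lit 12969760748) (nat_lit 55) (nat_lit 5) (nat_lit 57) (nat_lit 4) (nat_lit 55) (nat_lit 4) (nat_lit 474) (nat_lit 427) (nat_lit 299)) (XT.lf (nat_lit 0) (nat_lit 14820710145) (nat_lit 152) (nat_lit 128700374513) (nat_lit 76) (nat_lit 168564851055) (nat_lit 53) (nat_lit 5) (nat_lit 55) (nat_lit 5) (nat_lit 54) (nat_lit 4) (nat_lit 475) (nat_lit 427) (nat_lit 298)))) (XT.nd (nat_lit 156) (nat_lit 228) (nat_lit 0) (XT.nd (nat_lit 78) (nat_lit 76) (nat_lit 0) (XT.lf (nat_lit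 0) (nat_lit 165536675723) (nat_lit 152) (nat_lit 149403673437) (nat_lit 0) (nat_lit 14028670691) (nat_lit 52) (nat_lit 5) (nat_lit 54) (nat_lit 4) (nat_lit 52) (nat_lit 4) (nat_lit 476) (nat_lit 427) (nat_lit 297)) (XT.lf (nat_lit 0) (nat_lit 173078025929) (nat_lit 76) (nat_lit 162631625119) (nat_lit 76) (nat_lit 11123113058) (nat_lit 51) (nat_lit 4) (nat_lit 52) (nat_lit 5) (nat_lit 52) (nat_lit 4) (nat_lit 477) (nat_lit 427) (nat_lit 296))) (XT.nd (nat_lit 78) (nat_lit 76) (nat_lit 0) (XT.lf (nat_lit 0) (nat_lit 153812157458) (nat_lit 152) (nat_lit 202408327363) (nat_lit 0) (nat_lit 9517889331) (nat_lit 49) (nat_lit 5) (nat_lit 51) (nat_lit 4) (nat_lit 49) (nat_lit 4) (nat_lit 478) (nat_lit 427) (nat_lit 295)) (XT.lf (nat_lit 0) (nat_lit 149380751433) (nat_lit 76) (nat_lit 190326749423) (nat_lit 76) (nat_lit 46032067301) (nat_lit 48) (nat_lit 4) (nat_lit 49) (nat_lit 5) (nat_lit 49) (nat_lit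 4) (nat_lit 479) (nat_lit 427) (nat_lit 294)))))) (XT.nd (nat_lit 624) (nat_lit 760) (nat_lit 0) (XT.nd (nat_lit 312) (nat_lit 380) (nat_lit 0) (XT.nd (nat_lit 156) (nat_lit 228) (nat_lit 0) (XT.nd (nat_lit 78) (nat_lit 76) (nat_lit 0) (XT.lf (nat_lit 0) (nat_lit 131444886005) (nat_lit 76) (nat_lit 3062407388) (nat_lit 152) (nat_lit 272447895532) (nat_lit 46) (nat_lit 5) (nat_lit 47) (nat_lit 5) (nat_lit 48) (nat_lit 4) (nat_lit 480) (nat_lit 427) (nat_lit 293)) (XT.lf (nat_lit 0) (nat_lit 106917472770) (nat_lit 76) (nat_lit 229943924302) (nat_lit 76) (nat_lit 92519714409) (nat_lit 45) (nat_lit 4) (nat_lit 46) (nat_lit 5) (nat_lit 46) (nat_lit 4) (nat_lit 481) (nat_lit 427) (nat_lit 292))) (XT.nd (nat_lit 78) (nat_lit 76) (nat_lit 0) (XT.lf (nat_lit 0) (nat_lit 77164725964) (nat_lit 76) (nat_lit 27512956402) (nat_lit 152) (nat_lit 348537289993) (nat_lit 43) (nat_lit 5) (nat_lit 44) (nat_lit 5)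 (nat_lit 45) (nat_lit 4) (nat_lit 482) (nat_lit 427) (nat_lit 291)) (XT.lf (nat_lit 0) (nat_lit 38188126065) (nat_lit 76) (nat_lit 285552887534) (nat_lit 76) (nat_lit 154672113537) (nat_lit 42) (nat_lit 4) (nat_lit 43) (nat_lit 5) (nat_lit 43) (nat_lit 4) (nat_lit 483) (nat_lit 427) (nat_lit 290)))) (XT.nd (nat_lit 156) (nat_lit 228) (nat_lit 0) (XT.nd (nat_lit 78) (nat_lit 76) (nat_lit 0) (XT.lf (nat_lit 0) (nat_lit 60072378218) (nat_lit 152) (nat_lit 7732654211) (nat_lit 76) (nat_lit 437423353295) (nat_lit 41) (nat_lit 5) (nat_lit 43) (nat_lit 5) (nat_lit 42) (nat_lit 4) (nat_lit 484) (nat_lit 427) (nat_lit 289)) (XT.lf (nat_lit 0) (nat_lit 296792480197) (nat_lit 152) (nat_lit 64615198719) (nat_lit 0) (nat_lit 172143655251) (nat_lit 40) (nat_lit 5) (nat_lit 42) (nat_lit 4) (nat_lit 40) (nat_lit 4) (nat_lit 485) (nat_lit 427) (nat_lit 288))) (XT.nd (nat_lit 78) (nat_lit 152) (nat_lit 0) (XT.lf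 (nat_lit 0) (nat_lit 432579184891) (nat_lit 76) (nat_lit 127904154872) (nat_lit 76) (nat_lit 3255121256) (nat_lit 39) (nat_lit 4) (nat_lit 40) (nat_lit 5) (nat_lit 40) (nat_lit 4) (nat_lit 486) (nat_lit 427) (nat_lit 287)) (XT.lf (nat_lit 0) (nat_lit 250220501557) (nat_lit 152) (nat_lit 213955836814) (nat_lit 0) (nat_lit 131506952195) (nat_lit 37) (nat_lit 5) (nat_lit 39) (nat_lit 4) (nat_lit 37) (nat_lit 4) (nat_lit 487) (nat_lit 427) (nat_lit 286))))) (XT.nd (nat_lit 312) (nat_lit 304) (nat_lit 0) (XT.nd (nat_lit 156) (nat_lit 228) (nat_lit 0) (XT.nd (nat_lit 78) (nat_lit 152) (nat_lit 0) (XT.lf (nat_lit 0) (nat_lit 318192815252) (nat_lit 76) (nat_lit 215114784686) (nat_lit 76) (nat_lit 96401064941) (nat_lit 36) (nat_lit 4) (nat_lit 37) (nat_lit 5) (nat_lit 37) (nat_lit 4) (nat_lit 488) (nat_lit 427) (nat_lit 285)) (XT.lf (nat_lit 0) (nat_lit 175591942741) (nat_lit 152) (nat_lit 427771784007)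 (nat_lit 0) (nat_lit 62531107020) (nat_lit 34) (nat_lit 5) (nat_lit 36) (nat_lit 4) (nat_lit 34) (nat_lit 4) (nat_lit 489) (nat_lit 427) (nat_lit 284))) (XT.nd (nat_lit 78) (nat_lit 152) (nat_lit 0) (XT.lf (nat_lit 0) (nat_lit 137200688558) (nat_lit 76) (nat_lit 340095355671) (nat_lit 76) (nat_lit 227034380830) (nat_lit 33) (nat_lit 4) (nat_lit 34) (nat_lit 5) (nat_lit 34) (nat_lit 4) (nat_lit 490) (nat_lit 427) (nat_lit 283)) (XT.lf (nat_lit 0) (nat_lit 16694407142) (nat_lit 76) (nat_lit 46600963978) (nat_lit 152) (nat_lit 682109086369) (nat_lit 31) (nat_lit 5) (nat_lit 32) (nat_lit 5) (nat_lit 33) (nat_lit 4) (nat_lit 491) (nat_lit 427) (nat_lit 282)))) (XT.nd (nat_lit 156) (nat_lit 228) (nat_lit 0) (XT.nd (nat_lit 78) (nat_lit 76) (nat_lit 0) (XT.lf (nat_lit 0) (nat_lit 383265217574) (nat_lit 152) (nat_lit 130006844124) (nat_lit 0) (nat_lit 275587862405) (nat_lit 31) (nat_lit 5) (nat_lit 33)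 (nat_lit 4) (nat_lit 31) (nat_lit 4) (nat_lit 492) (nat_lit 427) (nat_lit 281)) (XT.lf (nat_lit 0) (nat_lit 532860367558) (nat_lit 76) (nat_lit 205076846365) (nat_lit 76) (nat_lit 97399386017) (nat_lit 30) (nat_lit 4) (nat_lit 31) (nat_lit 5) (nat_lit 31) (nat_lit 4) (nat_lit 493) (nat_lit 427) (nat_lit 280))) (XT.nd (nat_lit 78) (nat_lit 76) (nat_lit 0) (XT.lf (nat_lit 0) (nat_lit 238281243688) (nat_lit 152) (nat_lit 510816894325) (nat_lit 0) (nat_lit 135731188701) (nat_lit 28) (nat_lit 5) (nat_lit 30) (nat_lit 4) (nat_lit 28) (nat_lit 4) (nat_lit 494) (nat_lit 427) (nat_lit 279)) (XT.lf (nat_lit 0) (nat_lit 177909779664) (nat_lit 76) (nat_lit 431130099745) (nat_lit 76) (nat_lit 328579958878) (nat_lit 27) (nat_lit 4) (nat_lit 28) (nat_lit 5) (nat_lit 28) (nat_lit 4) (nat_lit 495) (nat_lit 427) (nat_lit 278))))))))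
noncomputable def xc86 : XT := (XT.nd (nat_lit 58890) (nat_lit 0) (nat_lit 2128) (XT.nd (nat_lit 57642) (nat_lit 0) (nat_lit 6536) (XT.nd (nat_lit 546) (nat_lit 76) (nat_lit 0) (XT.nd (nat_lit 234) (nat_lit 380) (nat_lit 0) (XT.nd (nat_lit 78) (nat_lit 152) (nat_lit 0) (XT.lf (nat_lit 0) (nat_lit 23394469621) (nat_lit 152) (nat_lit 54591557660) (nat_lit 76) (nat_lit 916183821700) (nat_lit 26) (nat_lit 5) (nat_lit 28) (nat_lit 5) (nat_lit 27) (nat_lit 4) (nat_lit 496) (nat_lit 427) (nat_lit 277)) (XT.nd (nat_lit 78) (nat_lit 76) (nat_lit 0) (XT.lf (nat_lit 0) (nat_lit 408494520876) (nat_lit 152) (nat_lit 334828462140) (nat_lit 0) (nat_lit 310827574198) (nat_lit 25) (nat_lit 5) (nat_lit 27) (nat_lit 4) (nat_lit 25) (nat_lit 4) (nat_lit 497) (nat_lit 427) (nat_lit 276)) (XT.lf (nat_lit 0) (nat_lit 451329804350) (nat_lit 76) (nat_lit 382400277053) (nat_lit 76) (nat_lit 284733265446) (nat_lit 24)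 (nat_lit 4) (nat_lit 25) (nat_lit 5) (nat_lit 25) (nat_lit 4) (nat_lit 498) (nat_lit 427) (nat_lit 275)))) (XT.nd (nat_lit 156) (nat_lit 228) (nat_lit 0) (XT.nd (nat_lit 78) (nat_lit 0) (nat_lit 0) (XT.lf (nat_lit 0) (nat_lit 109883681490) (nat_lit 152) (nat_lit 1060678886964) (nat_lit 0) (nat_lit 16867422704) (nat_lit 22) (nat_lit 5) (nat_lit 24) (nat_lit 4) (nat_lit 22) (nat_lit 4) (nat_lit 499) (nat_lit 427) (nat_lit 274)) (XT.lf (nat_lit 0) (nat_lit 544486680359) (nat_lit 152) (nat_lit 264803912030) (nat_lit 0) (nat_lit 451470368559) (nat_lit 22) (nat_lit 5) (nat_lit 24) (nat_lit 4) (nat_lit 22) (nat_lit 4) (nat_lit 500) (nat_lit 427) (nat_lit 273))) (XT.nd (nat_lit 78) (nat_lit 152) (nat_lit 0) (XT.lf (nat_lit 0) (nat_lit 614404887598) (nat_lit 76) (nat_lit 409045138142) (nat_lit 76) (nat_lit 316028777254) (nat_lit 21) (nat_lit 4) (nat_lit 22) (nat_lit 5) (nat_lit 22) (nat_lit 4) (nat_lit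 501) (nat_lit 427) (nat_lit 272)) (XT.lf (nat_lit 0) (nat_lit 120087037443) (nat_lit 152) (nat_lit 1272437764365) (nat_lit 0) (nat_lit 31499983787) (nat_lit 19) (nat_lit 5) (nat_lit 21) (nat_lit 4) (nat_lit 19) (nat_lit 4) (nat_lit 502) (nat_lit 427) (nat_lit 271))))) (XT.nd (nat_lit 56784) (nat_lit 0) (nat_lit 11096) (XT.nd (nat_lit 56628) (nat_lit 0) (nat_lit 11020) (XT.nd (nat_lit 78) (nat_lit 76) (nat_lit 0) (XT.lf (nat_lit 0) (nat_lit 599902204553) (nat_lit 152) (nat_lit 402863981648) (nat_lit 0) (nat_lit 511315110816) (nat_lit 19) (nat_lit 5) (nat_lit 21) (nat_lit 4) (nat_lit 19) (nat_lit 4) (nat_lit 503) (nat_lit 427) (nat_lit 270)) (XT.lf (nat_lit 0) (nat_lit 554006525947) (nat_lit 76) (nat_lit 572745237663) (nat_lit 76) (nat_lit 484158106815) (nat_lit 18) (nat_lit 4) (nat_lit 19) (nat_lit 5) (nat_lit 19) (nat_lit 4) (nat_lit 504) (nat_lit 427) (nat_lit 269))) (XT.nd (nat_lit 78) (nat_lit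 0) (nat_lit 76) (XT.lf (nat_lit 0) (nat_lit 7395806231) (nat_lit 836) (nat_lit 5065052989) (nat_lit 836) (nat_lit 5065052989) (nat_lit 163) (nat_lit 3) (nat_lit 174) (nat_lit 3) (nat_lit 174) (nat_lit 5) (nat_lit 428) (nat_lit 428) (nat_lit 344)) (XT.lf (nat_lit 0) (nat_lit 15793899474) (nat_lit 760) (nat_lit 18091057653) (nat_lit 836) (nat_lit 2548402778) (nat_lit 164) (nat_lit 5) (nat_lit 174) (nat_lit 5) (nat_lit 175) (nat_lit 5) (nat_lit 429) (nat_lit 428) (nat_lit 343)))) (XT.nd (nat_lit 156) (nat_lit 0) (nat_lit 152) (XT.nd (nat_lit 78) (nat_lit 0) (nat_lit 76) (XT.lf (nat_lit 76) (nat_lit 11476913061) (nat_lit 0) (nat_lit 6169960688) (nat_lit 836) (nat_lit 20240019902) (nat_lit 165) (nat_lit 5) (nat_lit 164) (nat_lit 5) (nat_lit 175) (nat_lit 5) (nat_lit 430) (nat_lit 428) (nat_lit 342)) (XT.lf (nat_lit 76) (nat_lit 4374059674) (nat_lit 0) (nat_lit 16025937119) (nat_lit 836) (nat_lit 19019118353)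 (nat_lit 166) (nat_lit 5) (nat_lit 165) (nat_lit 5) (nat_lit 176) (nat_lit 5) (nat_lit 431) (nat_lit 428) (nat_lit 341))) (XT.nd (nat_lit 78) (nat_lit 0) (nat_lit 76) (XT.lf (nat_lit 0) (nat_lit 24155331651) (nat_lit 760) (nat_lit 2821404419) (nat_lit 836) (nat_lit 14058080738) (nat_lit 166) (nat_lit 5) (nat_lit 176) (nat_lit 5) (nat_lit 177) (nat_lit 5) (nat_lit 432) (nat_lit 428) (nat_lit 340)) (XT.lf (nat_lit 0) (nat_lit 29044886670) (nat_lit 760) (nat_lit 10046566082) (nat_lit 836) (nat_lit 3646632687) (nat_lit 167) (nat_lit 5) (nat_lit 177) (nat_lit 5) (nat_lit 178) (nat_lit 5) (nat_lit 433) (nat_lit 428) (nat_lit 339)))))) (XT.nd (nat_lit 624) (nat_lit 2128) (nat_lit 0) (XT.nd (nat_lit 312) (nat_lit 1064) (nat_lit 0) (XT.nd (nat_lit 156) (nat_lit 912) (nat_lit 0) (XT.nd (nat_lit 78) (nat_lit 684) (nat_lit 0) (XT.lf (nat_lit 76) (nat_lit 26973649283) (nat_lit 0) (nat_lit 8271740109) (nat_lit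 836) (nat_lit 9286237473) (nat_lit 168) (nat_lit 5) (nat_lit 167) (nat_lit 5) (nat_lit 178) (nat_lit 5) (nat_lit 434) (nat_lit 428) (nat_lit 338)) (XT.lf (nat_lit 0) (nat_lit 21132151733) (nat_lit 760) (nat_lit 21702334333) (nat_lit 836) (nat_lit 3589538285) (nat_lit 158) (nat_lit 5) (nat_lit 168) (nat_lit 5) (nat_lit 169) (nat_lit 5) (nat_lit 435) (nat_lit 428) (nat_lit 337))) (XT.nd (nat_lit 78) (nat_lit 380) (nat_lit 0) (XT.lf (nat_lit 0) (nat_lit 3356975835) (nat_lit 532) (nat_lit 33227397640) (nat_lit 76) (nat_lit 11837634456) (nat_lit 151) (nat_lit 5) (nat_lit 158) (nat_lit 5) (nat_lit 152) (nat_lit 5) (nat_lit 436) (nat_lit 428) (nat_lit 336)) (XT.lf (nat_lit 0) (nat_lit 9118379714) (nat_lit 380) (nat_lit 2567663629) (nat_lit 456) (nat_lit 38843215356) (nat_lit 146) (nat_lit 5) (nat_lit 151) (nat_lit 5) (nat_lit 152) (nat_lit 5) (nat_lit 437) (nat_lit 428) (nat_lit 335)))) (XT.nd (nat_lit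 156) (nat_lit 684) (nat_lit 0) (XT.nd (nat_lit 78) (nat_lit 0) (nat_lit 0) (XT.lf (nat_lit 0) (nat_lit 2803794333) (nat_lit 380) (nat_lit 19038323031) (nat_lit 456) (nat_lit 30904938436) (nat_lit 141) (nat_lit 5) (nat_lit 146) (nat_lit 5) (nat_lit 147) (nat_lit 5) (nat_lit 438) (nat_lit 428) (nat_lit 334)) (XT.lf (nat_lit 0) (nat_lit 33857536803) (nat_lit 456) (nat_lit 3407076153) (nat_lit 76) (nat_lit 17825321043) (nat_lit 141) (nat_lit 5) (nat_lit 147) (nat_lit 5) (nat_lit 142) (nat_lit 5) (nat_lit 439) (nat_lit 428) (nat_lit 333))) (XT.nd (nat_lit 78) (nat_lit 380) (nat_lit 0) (XT.lf (nat_lit 0) (nat_lit 47903922561) (nat_lit 380) (nat_lit 9504868924) (nat_lit 76) (nat_lit 157964611) (nat_lit 137) (nat_lit 5) (nat_lit 142) (nat_lit 5) (nat_lit 138) (nat_lit 5) (nat_lit 440) (nat_lit 428) (nat_lit 332)) (XT.lf (nat_lit 0) (nat_lit 4140748201) (nat_lit 380) (nat_lit 15924125713) (nat_lit 76)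 (nat_lit 40104684085) (nat_lit 132) (nat_lit 5) (nat_lit 137) (nat_lit 5) (nat_lit 133) (nat_lit 5) (nat_lit 441) (nat_lit 428) (nat_lit 331))))) (XT.nd (nat_lit 312) (nat_lit 912) (nat_lit 0) (XT.nd (nat_lit 156) (nat_lit 608) (nat_lit 0) (XT.nd (nat_lit 78) (nat_lit 304) (nat_lit 0) (XT.lf (nat_lit 0) (nat_lit 19848280706) (nat_lit 380) (nat_lit 22466314005) (nat_lit 76) (nat_lit 20601159074) (nat_lit 128) (nat_lit 5) (nat_lit 133) (nat_lit 5) (nat_lit 129) (nat_lit 5) (nat_lit 442) (nat_lit 428) (nat_lit 330)) (XT.lf (nat_lit 0) (nat_lit 36866173277) (nat_lit 304) (nat_lit 1138436159) (nat_lit 380) (nat_lit 27817426329) (nat_lit 124) (nat_lit 5) (nat_lit 128) (nat_lit 5) (nat_lit 129) (nat_lit 5) (nat_lit 443) (nat_lit 428) (nat_lit 329))) (XT.nd (nat_lit 78) (nat_lit 380) (nat_lit 0) (XT.lf (nat_lit 0) (nat_lit 33180702808) (nat_lit 228) (nat_lit 26021610012) (nat_lit 304) (nat_lit 9679064265)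 (nat_lit 121) (nat_lit 5) (nat_lit 124) (nat_lit 5) (nat_lit 125) (nat_lit 5) (nat_lit 444) (nat_lit 428) (nat_lit 328)) (XT.lf (nat_lit 0) (nat_lit 10891054438) (nat_lit 380) (nat_lit 42496665635) (nat_lit 76) (nat_lit 18725115313) (nat_lit 116) (nat_lit 5) (nat_lit 121) (nat_lit 5) (nat_lit 117) (nat_lit 5) (nat_lit 445) (nat_lit 428) (nat_lit 327)))) (XT.nd (nat_lit 156) (nat_lit 456) (nat_lit 0) (XT.nd (nat_lit 78) (nat_lit 228) (nat_lit 0) (XT.lf (nat_lit 0) (nat_lit 26079575459) (nat_lit 228) (nat_lit 8167482966) (nat_lit 304) (nat_lit 41273849277) (nat_lit 113) (nat_lit 5) (nat_lit 116) (nat_lit 5) (nat_lit 117) (nat_lit 5) (nat_lit 446) (nat_lit 428) (nat_lit 326)) (XT.lf (nat_lit 0) (nat_lit 22565568843) (nat_lit 228) (nat_lit 38642637790) (nat_lit 304) (nat_lit 17906586123) (nat_lit 110) (nat_lit 5) (nat_lit 113) (nat_lit 5) (nat_lit 114) (nat_lit 5) (nat_lit 447) (nat_lit 428) (nat_lit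 325))) (XT.nd (nat_lit 78) (nat_lit 228) (nat_lit 0) (XT.lf (nat_lit 0) (nat_lit 8583170358) (nat_lit 228) (nat_lit 63598935963) (nat_lit 76) (nat_lit 10733974291) (nat_lit 107) (nat_lit 5) (nat_lit 110) (nat_lit 5) (nat_lit 108) (nat_lit 5) (nat_lit 448) (nat_lit 428) (nat_lit 324)) (XT.lf (nat_lit 0) (nat_lit 15832798180) (nat_lit 228) (nat_lit 22637531341) (nat_lit 304) (nat_lit 48441185482) (nat_lit 104) (nat_lit 5) (nat_lit 107) (nat_lit 5) (nat_lit 108) (nat_lit 5) (nat_lit 449) (nat_lit 428) (nat_lit 323))))))) (XT.nd (nat_lit 1248) (nat_lit 1900) (nat_lit 0) (XT.nd (nat_lit 624) (nat_lit 1140) (nat_lit 0) (XT.nd (nat_lit 312) (nat_lit 608) (nat_lit 0) (XT.nd (nat_lit 156) (nat_lit 304) (nat_lit 0) (XT.nd (nat_lit 78) (nat_lit 304) (nat_lit 0) (XT.lf (nat_lit 0) (nat_lit 12618548144) (nat_lit 152) (nat_lit 59932251182) (nat_lit 228) (nat_lit 18585668035) (nat_lit 102) (nat_lit 5) (nat_lit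 104) (nat_lit 5) (nat_lit 105) (nat_lit 5) (nat_lit 450) (nat_lit 428) (nat_lit 322)) (XT.lf (nat_lit 0) (nat_lit 9600232177) (nat_lit 228) (nat_lit 5408377455) (nat_lit 304) (nat_lit 80590770694) (nat_lit 98) (nat_lit 5) (nat_lit 101) (nat_lit 5) (nat_lit 102) (nat_lit 5) (nat_lit 451) (nat_lit 428) (nat_lit 321))) (XT.nd (nat_lit 78) (nat_lit 152) (nat_lit 0) (XT.lf (nat_lit 0) (nat_lit 6245921822) (nat_lit 152) (nat_lit 46722200414) (nat_lit 228) (nat_lit 47319527832) (nat_lit 96) (nat_lit 5) (nat_lit 98) (nat_lit 5) (nat_lit 99) (nat_lit 5) (nat_lit 452) (nat_lit 428) (nat_lit 320)) (XT.lf (nat_lit 0) (nat_lit 3475549234) (nat_lit 152) (nat_lit 92336095949) (nat_lit 228) (nat_lit 9446973822) (nat_lit 94) (nat_lit 5) (nat_lit 96) (nat_lit 5) (nat_lit 97) (nat_lit 5) (nat_lit 453) (nat_lit 428) (nat_lit 319)))) (XT.nd (nat_lit 156) (nat_lit 380) (nat_lit 0) (XT.nd (nat_lit 78) (nat_lit 0) (nat_lit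 0) (XT.lf (nat_lit 0) (nat_lit 307286274) (nat_lit 152) (nat_lit 32596666304) (nat_lit 228) (nat_lit 77575990780) (nat_lit 91) (nat_lit 5) (nat_lit 93) (nat_lit 5) (nat_lit 94) (nat_lit 5) (nat_lit 454) (nat_lit 428) (nat_lit 318)) (XT.lf (nat_lit 0) (nat_lit 80614659013) (nat_lit 228) (nat_lit 2521297670) (nat_lit 76) (nat_lit 32860139529) (nat_lit 91) (nat_lit 5) (nat_lit 94) (nat_lit 5) (nat_lit 92) (nat_lit 5) (nat_lit 455) (nat_lit 428) (nat_lit 317))) (XT.nd (nat_lit 78) (nat_lit 152) (nat_lit 0) (XT.lf (nat_lit 0) (nat_lit 12274722362) (nat_lit 228) (nat_lit 5101244930) (nat_lit 76) (nat_lit 104449013217) (nat_lit 88) (nat_lit 5) (nat_lit 91) (nat_lit 5) (nat_lit 89) (nat_lit 5) (nat_lit 456) (nat_lit 428) (nat_lit 316)) (XT.lf (nat_lit 0) (nat_lit 65327125471) (nat_lit 228) (nat_lit 8128585377) (nat_lit 76) (nat_lit 54494296379) (nat_lit 86) (nat_lit 5) (nat_lit 89) (nat_lit 5) (nat_lit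 87) (nat_lit 5) (nat_lit 457) (nat_lit 428) (nat_lit 315))))) (XT.nd (nat_lit 312) (nat_lit 532) (nat_lit 0) (XT.nd (nat_lit 156) (nat_lit 304) (nat_lit 0) (XT.nd (nat_lit 78) (nat_lit 152) (nat_lit 0) (XT.lf (nat_lit 0) (nat_lit 124031508792) (nat_lit 152) (nat_lit 910108326) (nat_lit 228) (nat_lit 9507524204) (nat_lit 84) (nat_lit 5) (nat_lit 86) (nat_lit 5) (nat_lit 87) (nat_lit 5) (nat_lit 458) (nat_lit 428) (nat_lit 314)) (XT.lf (nat_lit 0) (nat_lit 49737623011) (nat_lit 152) (nat_lit 13611068196) (nat_lit 76) (nat_lit 77911541545) (nat_lit 82) (nat_lit 5) (nat_lit 84) (nat_lit 5) (nat_lit 83) (nat_lit 5) (nat_lit 459) (nat_lit 428) (nat_lit 313))) (XT.nd (nat_lit 78) (nat_lit 152) (nat_lit 0) (XT.lf (nat_lit 0) (nat_lit 115926100826) (nat_lit 228) (nat_lit 16171011827) (nat_lit 76) (nat_lit 16384465026) (nat_lit 80) (nat_lit 5) (nat_lit 83) (nat_lit 5) (nat_lit 81) (nat_lit 4) (nat_lit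 460) (nat_lit 428) (nat_lit 312)) (XT.lf (nat_lit 0) (nat_lit 33642710480) (nat_lit 152) (nat_lit 19203344083) (nat_lit 76) (nat_lit 103234774754) (nat_lit 78) (nat_lit 5) (nat_lit 80) (nat_lit 5) (nat_lit 79) (nat_lit 5) (nat_lit 461) (nat_lit 428) (nat_lit 311)))) (XT.nd (nat_lit 156) (nat_lit 228) (nat_lit 0) (XT.nd (nat_lit 78) (nat_lit 152) (nat_lit 0) (XT.lf (nat_lit 0) (nat_lit 107081921785) (nat_lit 228) (nat_lit 22219511728) (nat_lit 76) (nat_lit 34805615074) (nat_lit 76) (nat_lit 5) (nat_lit 79) (nat_lit 5) (nat_lit 77) (nat_lit 4) (nat_lit 462) (nat_lit 428) (nat_lit 310)) (XT.lf (nat_lit 0) (nat_lit 16777104553) (nat_lit 152) (nat_lit 25251245426) (nat_lit 76) (nat_lit 130556774729) (nat_lit 74) (nat_lit 5) (nat_lit 76) (nat_lit 5) (nat_lit 75) (nat_lit 5) (nat_lit 463) (nat_lit 428) (nat_lit 309))) (XT.nd (nat_lit 78) (nat_lit 76) (nat_lit 0) (XT.lf (nat_lit 0) (nat_lit 98177072368)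 (nat_lit 228) (nat_lit 28966882683) (nat_lit 76) (nat_lit 54366177957) (nat_lit 72) (nat_lit 5) (nat_lit 75) (nat_lit 5) (nat_lit 73) (nat_lit 4) (nat_lit 464) (nat_lit 428) (nat_lit 308)) (XT.lf (nat_lit 0) (nat_lit 158696490081) (nat_lit 76) (nat_lit 31024502410) (nat_lit 152) (nat_lit 1246551765) (nat_lit 71) (nat_lit 5) (nat_lit 72) (nat_lit 5) (nat_lit 73) (nat_lit 4) (nat_lit 465) (nat_lit 428) (nat_lit 307)))))) (XT.nd (nat_lit 624) (nat_lit 912) (nat_lit 0) (XT.nd (nat_lit 312) (nat_lit 456) (nat_lit 0) (XT.nd (nat_lit 156) (nat_lit 228) (nat_lit 0) (XT.nd (nat_lit 78) (nat_lit 76) (nat_lit 0) (XT.lf (nat_lit 0) (nat_lit 88908762884) (nat_lit 228) (nat_lit 37006640651) (nat_lit 76) (nat_lit 74982939023) (nat_lit 68) (nat_lit 5) (nat_lit 71) (nat_lit 5) (nat_lit 69) (nat_lit 4) (nat_lit 466) (nat_lit 428) (nat_lit 306)) (XT.lf (nat_lit 0) (nat_lit 170195697100) (nat_lit 76) (nat_lit 19788039448)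 (nat_lit 152) (nat_lit 21451301089) (nat_lit 67) (nat_lit 5) (nat_lit 68) (nat_lit 5) (nat_lit 69) (nat_lit 4) (nat_lit 467) (nat_lit 428) (nat_lit 305))) (XT.nd (nat_lit 78) (nat_lit 76) (nat_lit 0) (XT.lf (nat_lit 0) (nat_lit 78859996469) (nat_lit 152) (nat_lit 47167693401) (nat_lit 76) (nat_lit 96478742446) (nat_lit 65) (nat_lit 5) (nat_lit 67) (nat_lit 5) (nat_lit 66) (nat_lit 4) (nat_lit 468) (nat_lit 428) (nat_lit 304)) (XT.lf (nat_lit 0) (nat_lit 181383858228) (nat_lit 76) (nat_lit 8965241005) (nat_lit 152) (nat_lit 43901633795) (nat_lit 64) (nat_lit 5) (nat_lit 65) (nat_lit 5) (nat_lit 66) (nat_lit 4) (nat_lit 469) (nat_lit 428) (nat_lit 303)))) (XT.nd (nat_lit 156) (nat_lit 228) (nat_lit 0) (XT.nd (nat_lit 78) (nat_lit 76) (nat_lit 0) (XT.lf (nat_lit 0) (nat_lit 67461351813) (nat_lit 152) (nat_lit 60592630770) (nat_lit 76) (nat_lit 118546706326) (nat_lit 62) (nat_lit 5) (nat_lit 64)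 (nat_lit 5) (nat_lit 63) (nat_lit 4) (nat_lit 470) (nat_lit 428) (nat_lit 302)) (XT.lf (nat_lit 0) (nat_lit 190301173552) (nat_lit 152) (nat_lit 68513402518) (nat_lit 0) (nat_lit 882785426) (nat_lit 61) (nat_lit 5) (nat_lit 63) (nat_lit 4) (nat_lit 61) (nat_lit 4) (nat_lit 471) (nat_lit 428) (nat_lit 301))) (XT.nd (nat_lit 78) (nat_lit 76) (nat_lit 0) (XT.lf (nat_lit 0) (nat_lit 53941101736) (nat_lit 152) (nat_lit 78839928104) (nat_lit 76) (nat_lit 140703035981) (nat_lit 59) (nat_lit 5) (nat_lit 61) (nat_lit 5) (nat_lit 60) (nat_lit 4) (nat_lit 472) (nat_lit 428) (nat_lit 300)) (XT.lf (nat_lit 0) (nat_lit 189193744245) (nat_lit 152) (nat_lit 90105281765) (nat_lit 0) (nat_lit 8793814672) (nat_lit 58) (nat_lit 5) (nat_lit 60) (nat_lit 4) (nat_lit 58) (nat_lit 4) (nat_lit 473) (nat_lit 428) (nat_lit 299))))) (XT.nd (nat_lit 312) (nat_lit 456) (nat_lit 0) (XT.nd (nat_lit 156) (nat_lit 228) (nat_lit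 0) (XT.nd (nat_lit 78) (nat_lit 76) (nat_lit 0) (XT.lf (nat_lit 0) (nat_lit 37260232269) (nat_lit 152) (nat_lit 104017105439) (nat_lit 76) (nat_lit 162225029202) (nat_lit 56) (nat_lit 5) (nat_lit 58) (nat_lit 5) (nat_lit 57) (nat_lit 4) (nat_lit 474) (nat_lit 428) (nat_lit 298)) (XT.lf (nat_lit 0) (nat_lit 185838337602) (nat_lit 152) (nat_lit 119948019240) (nat_lit 0) (nat_lit 14027684925) (nat_lit 55) (nat_lit 5) (nat_lit 57) (nat_lit 4) (nat_lit 55) (nat_lit 4) (nat_lit 475) (nat_lit 428) (nat_lit 297))) (XT.nd (nat_lit 78) (nat_lit 76) (nat_lit 0) (XT.lf (nat_lit 0) (nat_lit 16027931757) (nat_lit 152) (nat_lit 138953924955) (nat_lit 76) (nat_lit 182069875453) (nat_lit 53) (nat_lit 5) (nat_lit 55) (nat_lit 5) (nat_lit 54) (nat_lit 4) (nat_lit 476) (nat_lit 428) (nat_lit 296)) (XT.lf (nat_lit 0) (nat_lit 178800524340) (nat_lit 152) (nat_lit 161314616407) (nat_lit 0) (nat_lit 15170354812) (nat_lit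 52) (nat_lit 5) (nat_lit 54) (nat_lit 4) (nat_lit 52) (nat_lit 4) (nat_lit 477) (nat_lit 428) (nat_lit 295)))) (XT.nd (nat_lit 156) (nat_lit 228) (nat_lit 0) (XT.nd (nat_lit 78) (nat_lit 152) (nat_lit 0) (XT.lf (nat_lit 0) (nat_lit 186963821848) (nat_lit 76) (nat_lit 175622584161) (nat_lit 76) (nat_lit 11991979938) (nat_lit 51) (nat_lit 4) (nat_lit 52) (nat_lit 5) (nat_lit 52) (nat_lit 4) (nat_lit 478) (nat_lit 428) (nat_lit 294)) (XT.lf (nat_lit 0) (nat_lit 166136834653) (nat_lit 152) (nat_lit 218561843442) (nat_lit 0) (nat_lit 10297780635) (nat_lit 49) (nat_lit 5) (nat_lit 51) (nat_lit 4) (nat_lit 49) (nat_lit 4) (nat_lit 479) (nat_lit 428) (nat_lit 293))) (XT.nd (nat_lit 78) (nat_lit 152) (nat_lit 0) (XT.lf (nat_lit 0) (nat_lit 161368660242) (nat_lit 76) (nat_lit 205534270361) (nat_lit 76) (nat_lit 49694861407) (nat_lit 48) (nat_lit 4) (nat_lit 49) (nat_lit 5) (nat_lit 49) (nat_lit 4) (nat_lit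 480) (nat_lit 428) (nat_lit 292)) (XT.lf (nat_lit 0) (nat_lit 141996903514) (nat_lit 76) (nat_lit 3289262881) (nat_lit 152) (nat_lit 294224523066) (nat_lit 46) (nat_lit 5) (nat_lit 47) (nat_lit 5) (nat_lit 48) (nat_lit 4) (nat_lit 481) (nat_lit 428) (nat_lit 291))))))))
noncomputable def xc87 : XT := (XT.nd (nat_lit 59046) (nat_lit 0) (nat_lit 3496) (XT.nd (nat_lit 1248) (nat_lit 532) (nat_lit 0) (XT.nd (nat_lit 624) (nat_lit 760) (nat_lit 0) (XT.nd (nat_lit 312) (nat_lit 380) (nat_lit 0) (XT.nd (nat_lit 156) (nat_lit 152) (nat_lit 0) (XT.nd (nat_lit 78) (nat_lit 152) (nat_lit 0) (XT.lf (nat_lit 0) (nat_lit 115506318131) (nat_lit 76) (nat_lit 248321741089) (nat_lit 76) (nat_lit 99902653568) (nat_lit 45) (nat_lit 4) (nat_lit 46) (nat_lit 5) (nat_lit 46) (nat_lit 4) (nat_lit 482) (nat_lit 428) (nat_lit 290)) (XT.lf (nat_lit 0) (nat_lit 83372381767) (nat_lit 76) (nat_lit 29696758540) (nat_lit 152)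 (nat_lit 376402167590) (nat_lit 43) (nat_lit 5) (nat_lit 44) (nat_lit 5) (nat_lit 45) (nat_lit 4) (nat_lit 483) (nat_lit 428) (nat_lit 289))) (XT.nd (nat_lit 78) (nat_lit 76) (nat_lit 0) (XT.lf (nat_lit 0) (nat_lit 41276722911) (nat_lit 76) (nat_lit 308380310746) (nat_lit 76) (nat_lit 167028306624) (nat_lit 42) (nat_lit 4) (nat_lit 43) (nat_lit 5) (nat_lit 43) (nat_lit 4) (nat_lit 484) (nat_lit 428) (nat_lit 288)) (XT.lf (nat_lit 0) (nat_lit 64893921674) (nat_lit 152) (nat_lit 8319683793) (nat_lit 76) (nat_lit 472432263388) (nat_lit 41) (nat_lit 5) (nat_lit 43) (nat_lit 5) (nat_lit 42) (nat_lit 4) (nat_lit 485) (nat_lit 428) (nat_lit 287)))) (XT.nd (nat_lit 156) (nat_lit 228) (nat_lit 0) (XT.nd (nat_lit 78) (nat_lit 76) (nat_lit 0) (XT.lf (nat_lit 0) (nat_lit 320551173143) (nat_lit 152) (nat_lit 69753688018) (nat_lit 0) (nat_lit 185929814952) (nat_lit 40) (nat_lit 5) (nat_lit 42) (nat_lit 4)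 (nat_lit 40) (nat_lit 4) (nat_lit 486) (nat_lit 428) (nat_lit 286)) (XT.lf (nat_lit 0) (nat_lit 467214910941) (nat_lit 76) (nat_lit 138121716485) (nat_lit 76) (nat_lit 3500179392) (nat_lit 39) (nat_lit 4) (nat_lit 40) (nat_lit 5) (nat_lit 40) (nat_lit 4) (nat_lit 487) (nat_lit 428) (nat_lit 285))) (XT.nd (nat_lit 78) (nat_lit 76) (nat_lit 0) (XT.lf (nat_lit 0) (nat_lit 270252571904) (nat_lit 152) (nat_lit 231043233909) (nat_lit 0) (nat_lit 142041426435) (nat_lit 37) (nat_lit 5) (nat_lit 39) (nat_lit 4) (nat_lit 37) (nat_lit 4) (nat_lit 488) (nat_lit 428) (nat_lit 284)) (XT.lf (nat_lit 0) (nat_lit 343676046982) (nat_lit 76) (nat_lit 232309956406) (nat_lit 76) (nat_lit 104098664861) (nat_lit 36) (nat_lit 4) (nat_lit 37) (nat_lit 5) (nat_lit 37) (nat_lit 4) (nat_lit 489) (nat_lit 428) (nat_lit 283))))) (XT.nd (nat_lit 312) (nat_lit 380) (nat_lit 0) (XT.nd (nat_lit 156) (nat_lit 152) (nat_lit 0)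 (XT.nd (nat_lit 78) (nat_lit 76) (nat_lit 0) (XT.lf (nat_lit 0) (nat_lit 189652916272) (nat_lit 152) (nat_lit 461966027741) (nat_lit 0) (nat_lit 67546795510) (nat_lit 34) (nat_lit 5) (nat_lit 36) (nat_lit 4) (nat_lit 34) (nat_lit 4) (nat_lit 490) (nat_lit 428) (nat_lit 282)) (XT.lf (nat_lit 0) (nat_lit 148203047557) (nat_lit 76) (nat_lit 367289700250) (nat_lit 76) (nat_lit 245183460216) (nat_lit 33) (nat_lit 4) (nat_lit 34) (nat_lit 5) (nat_lit 34) (nat_lit 4) (nat_lit 491) (nat_lit 428) (nat_lit 281))) (XT.nd (nat_lit 78) (nat_lit 0) (nat_lit 0) (XT.lf (nat_lit 0) (nat_lit 18055539071) (nat_lit 76) (nat_lit 50316114364) (nat_lit 152) (nat_lit 736664527987) (nat_lit 31) (nat_lit 5) (nat_lit 32) (nat_lit 5) (nat_lit 33) (nat_lit 4) (nat_lit 492) (nat_lit 428) (nat_lit 280)) (XT.lf (nat_lit 0) (nat_lit 413938337247) (nat_lit 152) (nat_lit 140383308135) (nat_lit 0) (nat_lit 297646477505) (nat_lit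 31) (nat_lit 5) (nat_lit 33) (nat_lit 4) (nat_lit 31) (nat_lit 4) (nat_lit 493) (nat_lit 428) (nat_lit 279)))) (XT.nd (nat_lit 156) (nat_lit 152) (nat_lit 0) (XT.nd (nat_lit 78) (nat_lit 152) (nat_lit 0) (XT.lf (nat_lit 0) (nat_lit 575512233841) (nat_lit 76) (nat_lit 221471337483) (nat_lit 76) (nat_lit 105179387567) (nat_lit 30) (nat_lit 4) (nat_lit 31) (nat_lit 5) (nat_lit 31) (nat_lit 4) (nat_lit 494) (nat_lit 428) (nat_lit 278)) (XT.lf (nat_lit 0) (nat_lit 257354980084) (nat_lit 152) (nat_lit 551659468348) (nat_lit 0) (nat_lit 146600662550) (nat_lit 28) (nat_lit 5) (nat_lit 30) (nat_lit 4) (nat_lit 28) (nat_lit 4) (nat_lit 495) (nat_lit 428) (nat_lit 277))) (XT.nd (nat_lit 78) (nat_lit 76) (nat_lit 0) (XT.lf (nat_lit 0) (nat_lit 192164349677) (nat_lit 76) (nat_lit 465609464788) (nat_lit 76) (nat_lit 354855073626) (nat_lit 27) (nat_lit 4) (nat_lit 28) (nat_lit 5) (nat_lit 28) (nat_lit 4) (nat_lit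 496) (nat_lit 428) (nat_lit 276)) (XT.lf (nat_lit 0) (nat_lit 25276139107) (nat_lit 152) (nat_lit 58938374165) (nat_lit 76) (nat_lit 989488418011) (nat_lit 26) (nat_lit 5) (nat_lit 28) (nat_lit 5) (nat_lit 27) (nat_lit 4) (nat_lit 497) (nat_lit 428) (nat_lit 275)))))) (XT.nd (nat_lit 57174) (nat_lit 0) (nat_lit 10032) (XT.nd (nat_lit 312) (nat_lit 228) (nat_lit 0) (XT.nd (nat_lit 156) (nat_lit 152) (nat_lit 0) (XT.nd (nat_lit 78) (nat_lit 76) (nat_lit 0) (XT.lf (nat_lit 0) (nat_lit 441183907017) (nat_lit 152) (nat_lit 361594794095) (nat_lit 0) (nat_lit 335703409436) (nat_lit 25) (nat_lit 5) (nat_lit 27) (nat_lit 4) (nat_lit 25) (nat_lit 4) (nat_lit 498) (nat_lit 428) (nat_lit 274)) (XT.lf (nat_lit 0) (nat_lit 487455266929) (nat_lit 76) (nat_lit 412982615583) (nat_lit 76) (nat_lit 307502062337) (nat_lit 24) (nat_lit 4) (nat_lit 25) (nat_lit 5) (nat_lit 25) (nat_lit 4) (nat_lit 499) (nat_lit 428)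 (nat_lit 273))) (XT.nd (nat_lit 78) (nat_lit 0) (nat_lit 0) (XT.lf (nat_lit 0) (nat_lit 118683654038) (nat_lit 152) (nat_lit 1145514337302) (nat_lit 0) (nat_lit 18225935192) (nat_lit 22) (nat_lit 5) (nat_lit 24) (nat_lit 4) (nat_lit 22) (nat_lit 4) (nat_lit 500) (nat_lit 428) (nat_lit 272)) (XT.lf (nat_lit 0) (nat_lit 588054205556) (nat_lit 152) (nat_lit 285970761457) (nat_lit 0) (nat_lit 487596441259) (nat_lit 22) (nat_lit 5) (nat_lit 24) (nat_lit 4) (nat_lit 22) (nat_lit 4) (nat_lit 501) (nat_lit 428) (nat_lit 271)))) (XT.nd (nat_lit 156) (nat_lit 0) (nat_lit 0) (XT.nd (nat_lit 78) (nat_lit 152) (nat_lit 0) (XT.lf (nat_lit 0) (nat_lit 663573983198) (nat_lit 76) (nat_lit 441760259822) (nat_lit 76) (nat_lit 341302453440) (nat_lit 21) (nat_lit 4) (nat_lit 22) (nat_lit 5) (nat_lit 22) (nat_lit 4) (nat_lit 502) (nat_lit 428) (nat_lit 270)) (XT.lf (nat_lit 0) (nat_lit 129702114357) (nat_lit 152)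 (nat_lit 1374216272449) (nat_lit 0) (nat_lit 34027975930) (nat_lit 19) (nat_lit 5) (nat_lit 21) (nat_lit 4) (nat_lit 19) (nat_lit 4) (nat_lit 503) (nat_lit 428) (nat_lit 269))) (XT.nd (nat_lit 56628) (nat_lit 0) (nat_lit 10944) (XT.lf (nat_lit 0) (nat_lit 647901893804) (nat_lit 152) (nat_lit 435077810305) (nat_lit 0) (nat_lit 552227721014) (nat_lit 19) (nat_lit 5) (nat_lit 21) (nat_lit 4) (nat_lit 19) (nat_lit 4) (nat_lit 504) (nat_lit 428) (nat_lit 268)) (XT.lf (nat_lit 0) (nat_lit 8067957984) (nat_lit 836) (nat_lit 5427998313) (nat_lit 836) (nat_lit 5427998313) (nat_lit 163) (nat_lit 3) (nat_lit 174) (nat_lit 3) (nat_lit 174) (nat_lit 5) (nat_lit 429) (nat_lit 429) (nat_lit 342))))) (XT.nd (nat_lit 312) (nat_lit 988) (nat_lit 0) (XT.nd (nat_lit 156) (nat_lit 0) (nat_lit 76) (XT.nd (nat_lit 78) (nat_lit 0) (nat_lit 0) (XT.lf (nat_lit 0) (nat_lit 17206639529) (nat_lit 760) (nat_lit 19448885751)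 (nat_lit 836) (nat_lit 2685030509) (nat_lit 164) (nat_lit 5) (nat_lit 174) (nat_lit 5) (nat_lit 175) (nat_lit 5) (nat_lit 430) (nat_lit 429) (nat_lit 341)) (XT.lf (nat_lit 76) (nat_lit 12480634949) (nat_lit 0) (nat_lit 6717498834) (nat_lit 836) (nat_lit 21712725202) (nat_lit 165) (nat_lit 5) (nat_lit 164) (nat_lit 5) (nat_lit 175) (nat_lit 5) (nat_lit 431) (nat_lit 429) (nat_lit 340))) (XT.nd (nat_lit 78) (nat_lit 0) (nat_lit 76) (XT.lf (nat_lit 76) (nat_lit 4813322697) (nat_lit 0) (nat_lit 17348464919) (nat_lit 836) (nat_lit 20404357326) (nat_lit 166) (nat_lit 5) (nat_lit 165) (nat_lit 5) (nat_lit 176) (nat_lit 5) (nat_lit 432) (nat_lit 429) (nat_lit 339)) (XT.lf (nat_lit 0) (nat_lit 26207350310) (nat_lit 760) (nat_lit 2957793396) (nat_lit 836) (nat_lit 15146469709) (nat_lit 166) (nat_lit 5) (nat_lit 176) (nat_lit 5) (nat_lit 177) (nat_lit 5) (nat_lit 433) (nat_lit 429) (nat_lit 338)))) (XT.nd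 (nat_lit 156) (nat_lit 1216) (nat_lit 0) (XT.nd (nat_lit 78) (nat_lit 0) (nat_lit 0) (XT.lf (nat_lit 0) (nat_lit 31480129330) (nat_lit 760) (nat_lit 10758822343) (nat_lit 836) (nat_lit 3912589559) (nat_lit 167) (nat_lit 5) (nat_lit 177) (nat_lit 5) (nat_lit 178) (nat_lit 5) (nat_lit 434) (nat_lit 429) (nat_lit 337)) (XT.lf (nat_lit 76) (nat_lit 29219035118) (nat_lit 0) (nat_lit 8950732678) (nat_lit 836) (nat_lit 9919144026) (nat_lit 168) (nat_lit 5) (nat_lit 167) (nat_lit 5) (nat_lit 178) (nat_lit 5) (nat_lit 435) (nat_lit 429) (nat_lit 336))) (XT.nd (nat_lit 78) (nat_lit 532) (nat_lit 0) (XT.lf (nat_lit 0) (nat_lit 22911690295) (nat_lit 760) (nat_lit 23447682448) (nat_lit 836) (nat_lit 3773659916) (nat_lit 158) (nat_lit 5) (nat_lit 168) (nat_lit 5) (nat_lit 169) (nat_lit 5) (nat_lit 436) (nat_lit 429) (nat_lit 335)) (XT.lf (nat_lit 0) (nat_lit 3719181536) (nat_lit 532) (nat_lit 35792549678)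 (nat_lit 76) (nat_lit 12779348578) (nat_lit 151) (nat_lit 5) (nat_lit 158) (nat_lit 5) (nat_lit 152) (nat_lit 5) (nat_lit 437) (nat_lit 429) (nat_lit 334))))))) (XT.nd (nat_lit 1248) (nat_lit 2356) (nat_lit 0) (XT.nd (nat_lit 624) (nat_lit 1900) (nat_lit 0) (XT.nd (nat_lit 312) (nat_lit 1216) (nat_lit 0) (XT.nd (nat_lit 156) (nat_lit 304) (nat_lit 0) (XT.nd (nat_lit 78) (nat_lit 380) (nat_lit 0) (XT.lf (nat_lit 0) (nat_lit 9936846470) (nat_lit 380) (nat_lit 2772180596) (nat_lit 456) (nat_lit 41858161398) (nat_lit 146) (nat_lit 5) (nat_lit 151) (nat_lit 5) (nat_lit 152) (nat_lit 5) (nat_lit 438) (nat_lit 429) (nat_lit 333)) (XT.lf (nat_lit 0) (nat_lit 3117432440) (nat_lit 380) (nat_lit 20555036342) (nat_lit 456) (nat_lit 33290196902) (nat_lit 141) (nat_lit 5) (nat_lit 146) (nat_lit 5) (nat_lit 147) (nat_lit 5) (nat_lit 439) (nat_lit 429) (nat_lit 332))) (XT.nd (nat_lit 78) (nat_lit 304) (nat_lit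 0) (XT.lf (nat_lit 0) (nat_lit 36643066792) (nat_lit 456) (nat_lit 3593170059) (nat_lit 76) (nat_lit 19257040440) (nat_lit 141) (nat_lit 5) (nat_lit 147) (nat_lit 5) (nat_lit 142) (nat_lit 5) (nat_lit 440) (nat_lit 429) (nat_lit 331)) (XT.lf (nat_lit 0) (nat_lit 51808915669) (nat_lit 380) (nat_lit 10179072679) (nat_lit 76) (nat_lit 180469570) (nat_lit 137) (nat_lit 5) (nat_lit 142) (nat_lit 5) (nat_lit 138) (nat_lit 5) (nat_lit 441) (nat_lit 429) (nat_lit 330)))) (XT.nd (nat_lit 156) (nat_lit 532) (nat_lit 0) (XT.nd (nat_lit 78) (nat_lit 304) (nat_lit 0) (XT.lf (nat_lit 0) (nat_lit 4541719351) (nat_lit 380) (nat_lit 17113306425) (nat_lit 76) (nat_lit 43324607154) (nat_lit 132) (nat_lit 5) (nat_lit 137) (nat_lit 5) (nat_lit 133) (nat_lit 5) (nat_lit 442) (nat_lit 429) (nat_lit 329)) (XT.lf (nat_lit 0) (nat_lit 21502194471) (nat_lit 380) (nat_lit 24179496533) (nat_lit 76) (nat_lit 22264016682)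 (nat_lit 128) (nat_lit 5) (nat_lit 133) (nat_lit 5) (nat_lit 129) (nat_lit 5) (nat_lit 443) (nat_lit 429) (nat_lit 328))) (XT.nd (nat_lit 78) (nat_lit 228) (nat_lit 0) (XT.lf (nat_lit 0) (nat_lit 39895933867) (nat_lit 304) (nat_lit 1211459255) (nat_lit 380) (nat_lit 29977281206) (nat_lit 124) (nat_lit 5) (nat_lit 128) (nat_lit 5) (nat_lit 129) (nat_lit 5) (nat_lit 444) (nat_lit 429) (nat_lit 327)) (XT.lf (nat_lit 0) (nat_lit 35914847704) (nat_lit 228) (nat_lit 28082946869) (nat_lit 304) (nat_lit 10391124552) (nat_lit 121) (nat_lit 5) (nat_lit 124) (nat_lit 5) (nat_lit 125) (nat_lit 5) (nat_lit 445) (nat_lit 429) (nat_lit 326))))) (XT.nd (nat_lit 312) (nat_lit 836) (nat_lit 0) (XT.nd (nat_lit 156) (nat_lit 456) (nat_lit 0) (XT.nd (nat_lit 78) (nat_lit 228) (nat_lit 0) (XT.lf (nat_lit 0) (nat_lit 11819695640) (nat_lit 380) (nat_lit 45815739415) (nat_lit 76) (nat_lit 20243556419) (nat_lit 116) (nat_lit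 5) (nat_lit 121) (nat_lit 5) (nat_lit 117) (nat_lit 5) (nat_lit 446) (nat_lit 429) (nat_lit 325)) (XT.lf (nat_lit 0) (nat_lit 28243095604) (nat_lit 228) (nat_lit 8798040277) (nat_lit 304) (nat_lit 44518726111) (nat_lit 113) (nat_lit 5) (nat_lit 116) (nat_lit 5) (nat_lit 117) (nat_lit 5) (nat_lit 447) (nat_lit 429) (nat_lit 324))) (XT.nd (nat_lit 78) (nat_lit 228) (nat_lit 0) (XT.lf (nat_lit 0) (nat_lit 24446874507) (nat_lit 228) (nat_lit 41709795984) (nat_lit 304) (nat_lit 19284712832) (nat_lit 110) (nat_lit 5) (nat_lit 113) (nat_lit 5) (nat_lit 114) (nat_lit 5) (nat_lit 448) (nat_lit 429) (nat_lit 323)) (XT.lf (nat_lit 0) (nat_lit 9320126841) (nat_lit 228) (nat_lit 68610312760) (nat_lit 76) (nat_lit 11616410123) (nat_lit 107) (nat_lit 5) (nat_lit 110) (nat_lit 5) (nat_lit 108) (nat_lit 5) (nat_lit 449) (nat_lit 429) (nat_lit 322)))) (XT.nd (nat_lit 156) (nat_lit 456) (nat_lit 0) (XT.nd (nat_lit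 78) (nat_lit 152) (nat_lit 0) (XT.lf (nat_lit 0) (nat_lit 17172633862) (nat_lit 228) (nat_lit 24423041779) (nat_lit 304) (nat_lit 52266372543) (nat_lit 104) (nat_lit 5) (nat_lit 107) (nat_lit 5) (nat_lit 108) (nat_lit 5) (nat_lit 450) (nat_lit 429) (nat_lit 321)) (XT.lf (nat_lit 0) (nat_lit 13699965659) (nat_lit 152) (nat_lit 64700574183) (nat_lit 228) (nat_lit 20024559200) (nat_lit 102) (nat_lit 5) (nat_lit 104) (nat_lit 5) (nat_lit 105) (nat_lit 5) (nat_lit 451) (nat_lit 429) (nat_lit 320))) (XT.nd (nat_lit 78) (nat_lit 152) (nat_lit 0) (XT.lf (nat_lit 0) (nat_lit 10438528357) (nat_lit 228) (nat_lit 5814855411) (nat_lit 304) (nat_lit 86991741059) (nat_lit 98) (nat_lit 5) (nat_lit 101) (nat_lit 5) (nat_lit 102) (nat_lit 5) (nat_lit 452) (nat_lit 429) (nat_lit 319)) (XT.lf (nat_lit 0) (nat_lit 6814537891) (nat_lit 152) (nat_lit 50433308932) (nat_lit 228) (nat_lit 51060699975) (nat_lit 96) (nat_lit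 5) (nat_lit 98) (nat_lit 5) (nat_lit 99) (nat_lit 5) (nat_lit 453) (nat_lit 429) (nat_lit 318)))))) (XT.nd (nat_lit 624) (nat_lit 1140) (nat_lit 0) (XT.nd (nat_lit 312) (nat_lit 608) (nat_lit 0) (XT.nd (nat_lit 156) (nat_lit 228) (nat_lit 0) (XT.nd (nat_lit 78) (nat_lit 228) (nat_lit 0) (XT.lf (nat_lit 0) (nat_lit 3821164435) (nat_lit 152) (nat_lit 99695996195) (nat_lit 228) (nat_lit 10160117284) (nat_lit 94) (nat_lit 5) (nat_lit 96) (nat_lit 5) (nat_lit 97) (nat_lit 5) (nat_lit 454) (nat_lit 429) (nat_lit 317)) (XT.lf (nat_lit 0) (nat_lit 397809821) (nat_lit 152) (nat_lit 35177683403) (nat_lit 228) (nat_lit 83740883127) (nat_lit 91) (nat_lit 5) (nat_lit 93) (nat_lit 5) (nat_lit 94) (nat_lit 5) (nat_lit 455) (nat_lit 429) (nat_lit 316))) (XT.nd (nat_lit 78) (nat_lit 228) (nat_lit 0) (XT.lf (nat_lit 0) (nat_lit 87100536878) (nat_lit 228) (nat_lit 2660514441) (nat_lit 76) (nat_lit 35512896173)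 (nat_lit 91) (nat_lit 5) (nat_lit 94) (nat_lit 5) (nat_lit 92) (nat_lit 5) (nat_lit 456) (nat_lit 429) (nat_lit 315)) (XT.lf (nat_lit 0) (nat_lit 13292193084) (nat_lit 228) (nat_lit 5448398513) (nat_lit 76) (nat_lit 112828611683) (nat_lit 88) (nat_lit 5) (nat_lit 91) (nat_lit 5) (nat_lit 89) (nat_lit 5) (nat_lit 457) (nat_lit 429) (nat_lit 314)))) (XT.nd (nat_lit 156) (nat_lit 304) (nat_lit 0) (XT.nd (nat_lit 78) (nat_lit 152) (nat_lit 0) (XT.lf (nat_lit 0) (nat_lit 70587452401) (nat_lit 228) (nat_lit 8719268065) (nat_lit 76) (nat_lit 58877578549) (nat_lit 86) (nat_lit 5) (nat_lit 89) (nat_lit 5) (nat_lit 87) (nat_lit 5) (nat_lit 458) (nat_lit 429) (nat_lit 313)) (XT.lf (nat_lit 0) (nat_lit 134011043315) (nat_lit 152) (nat_lit 958420070) (nat_lit 228) (nat_lit 10233982521) (nat_lit 84) (nat_lit 5) (nat_lit 86) (nat_lit 5) (nat_lit 87) (nat_lit 5) (nat_lit 459) (nat_lit 429) (nat_lit 312))) (XT.nd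 (nat_lit 78) (nat_lit 152) (nat_lit 0) (XT.lf (nat_lit 0) (nat_lit 53748479701) (nat_lit 152) (nat_lit 14643173626) (nat_lit 76) (nat_lit 84167804930) (nat_lit 82) (nat_lit 5) (nat_lit 84) (nat_lit 5) (nat_lit 83) (nat_lit 5) (nat_lit 460) (nat_lit 429) (nat_lit 311)) (XT.lf (nat_lit 0) (nat_lit 125230899027) (nat_lit 228) (nat_lit 17409237175) (nat_lit 76) (nat_lit 17718431469) (nat_lit 80) (nat_lit 5) (nat_lit 83) (nat_lit 5) (nat_lit 81) (nat_lit 4) (nat_lit 461) (nat_lit 429) (nat_lit 310))))) (XT.nd (nat_lit 312) (nat_lit 532) (nat_lit 0) (XT.nd (nat_lit 156) (nat_lit 304) (nat_lit 0) (XT.nd (nat_lit 78) (nat_lit 152) (nat_lit 0) (XT.lf (nat_lit 0) (nat_lit 36363871190) (nat_lit 152) (nat_lit 20685581945) (nat_lit 76) (nat_lit 111516354702) (nat_lit 78) (nat_lit 5) (nat_lit 80) (nat_lit 5) (nat_lit 79) (nat_lit 5) (nat_lit 462) (nat_lit 429) (nat_lit 309)) (XT.lf (nat_lit 0) (nat_lit 115677187354)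 (nat_lit 228) (nat_lit 23944337416) (nat_lit 76) (nat_lit 37612651528) (nat_lit 76) (nat_lit 5) (nat_lit 79) (nat_lit 5) (nat_lit 77) (nat_lit 4) (nat_lit 463) (nat_lit 429) (nat_lit 308))) (XT.nd (nat_lit 78) (nat_lit 152) (nat_lit 0) (XT.lf (nat_lit 0) (nat_lit 18147094761) (nat_lit 152) (nat_lit 27219981187) (nat_lit 76) (nat_lit 141023467129) (nat_lit 74) (nat_lit 5) (nat_lit 76) (nat_lit 5) (nat_lit 75) (nat_lit 5) (nat_lit 464) (nat_lit 429) (nat_lit 307)) (XT.lf (nat_lit 0) (nat_lit 106058119112) (nat_lit 228) (nat_lit 31234127662) (nat_lit 76) (nat_lit 58737352350) (nat_lit 72) (nat_lit 5) (nat_lit 75) (nat_lit 5) (nat_lit 73) (nat_lit 4) (nat_lit 465) (nat_lit 429) (nat_lit 306)))) (XT.nd (nat_lit 156) (nat_lit 228) (nat_lit 0) (XT.nd (nat_lit 78) (nat_lit 228) (nat_lit 0) (XT.lf (nat_lit 0) (nat_lit 171440137393) (nat_lit 76) (nat_lit 33484172562) (nat_lit 152) (nat_lit 1319355496)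 (nat_lit 71) (nat_lit 5) (nat_lit 72) (nat_lit 5) (nat_lit 73) (nat_lit 4) (nat_lit 466) (nat_lit 429) (nat_lit 305)) (XT.lf (nat_lit 0) (nat_lit 96046661626) (nat_lit 228) (nat_lit 39919599424) (nat_lit 76) (nat_lit 81002688638) (nat_lit 68) (nat_lit 5) (nat_lit 71) (nat_lit 5) (nat_lit 69) (nat_lit 4) (nat_lit 467) (nat_lit 429) (nat_lit 304))) (XT.nd (nat_lit 78) (nat_lit 152) (nat_lit 0) (XT.lf (nat_lit 0) (nat_lit 183856857906) (nat_lit 76) (nat_lit 21349619241) (nat_lit 152) (nat_lit 23142161056) (nat_lit 67) (nat_lit 5) (nat_lit 68) (nat_lit 5) (nat_lit 69) (nat_lit 4) (nat_lit 468) (nat_lit 429) (nat_lit 303)) (XT.lf (nat_lit 0) (nat_lit 85192441511) (nat_lit 152) (nat_lit 50895969641) (nat_lit 76) (nat_lit 104217353164) (nat_lit 65) (nat_lit 5) (nat_lit 67) (nat_lit 5) (nat_lit 66) (nat_lit 4) (nat_lit 469) (nat_lit 429) (nat_lit 302))))))))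
noncomputable def xc88 : XT := (XT.nd (nat_lit 2418) (nat_lit 380) (nat_lit 0) (XT.nd (nat_lit 1170) (nat_lit 1444) (nat_lit 0) (XT.nd (nat_lit 546) (nat_lit 912) (nat_lit 0) (XT.nd (nat_lit 234) (nat_lit 456) (nat_lit 0) (XT.nd (nat_lit 78) (nat_lit 228) (nat_lit 0) (XT.lf (nat_lit 0) (nat_lit 195937744422) (nat_lit 76) (nat_lit 9661850691) (nat_lit 152) (nat_lit 47390067866) (nat_lit 64) (nat_lit 5) (nat_lit 65) (nat_lit 5) (nat_lit 66) (nat_lit 4) (nat_lit 470) (nat_lit 429) (nat_lit 301)) (XT.nd (nat_lit 78) (nat_lit 76) (nat_lit 0) (XT.lf (nat_lit 0) (nat_lit 72880469493) (nat_lit 152) (nat_lit 65397233681) (nat_lit 76) (nat_lit 128049930111) (nat_lit 62) (nat_lit 5) (nat_lit 64) (nat_lit 5) (nat_lit 63) (nat_lit 4) (nat_lit 471) (nat_lit 429) (nat_lit 300)) (XT.lf (nat_lit 0) (nat_lit 205546779372) (nat_lit 152) (nat_lit 73952775359) (nat_lit 0) (nat_lit 972519847) (nat_lit 61) (nat_lit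 5) (nat_lit 63) (nat_lit 4) (nat_lit 61) (nat_lit 4) (nat_lit 472) (nat_lit 429) (nat_lit 299)))) (XT.nd (nat_lit 156) (nat_lit 228) (nat_lit 0) (XT.nd (nat_lit 78) (nat_lit 76) (nat_lit 0) (XT.lf (nat_lit 0) (nat_lit 58277268041) (nat_lit 152) (nat_lit 85106544656) (nat_lit 76) (nat_lit 151977934269) (nat_lit 59) (nat_lit 5) (nat_lit 61) (nat_lit 5) (nat_lit 60) (nat_lit 4) (nat_lit 473) (nat_lit 429) (nat_lit 298)) (XT.lf (nat_lit 0) (nat_lit 204349476136) (nat_lit 152) (nat_lit 97274187706) (nat_lit 0) (nat_lit 9515592280) (nat_lit 58) (nat_lit 5) (nat_lit 60) (nat_lit 4) (nat_lit 58) (nat_lit 4) (nat_lit 474) (nat_lit 429) (nat_lit 297))) (XT.nd (nat_lit 78) (nat_lit 76) (nat_lit 0) (XT.lf (nat_lit 0) (nat_lit 40260691621) (nat_lit 152) (nat_lit 112300025031) (nat_lit 76) (nat_lit 175220857399) (nat_lit 56) (nat_lit 5) (nat_lit 58) (nat_lit 5) (nat_lit 57) (nat_lit 4) (nat_lit 475) (nat_lit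 429) (nat_lit 296)) (XT.lf (nat_lit 0) (nat_lit 200724446024) (nat_lit 152) (nat_lit 129506426018) (nat_lit 0) (nat_lit 15167340835) (nat_lit 55) (nat_lit 5) (nat_lit 57) (nat_lit 4) (nat_lit 55) (nat_lit 4) (nat_lit 476) (nat_lit 429) (nat_lit 295))))) (XT.nd (nat_lit 312) (nat_lit 456) (nat_lit 0) (XT.nd (nat_lit 156) (nat_lit 228) (nat_lit 0) (XT.nd (nat_lit 78) (nat_lit 76) (nat_lit 0) (XT.lf (nat_lit 0) (nat_lit 17328654638) (nat_lit 152) (nat_lit 150033819611) (nat_lit 76) (nat_lit 196652471931) (nat_lit 53) (nat_lit 5) (nat_lit 55) (nat_lit 5) (nat_lit 54) (nat_lit 4) (nat_lit 477) (nat_lit 429) (nat_lit 294)) (XT.lf (nat_lit 0) (nat_lit 193122497150) (nat_lit 152) (nat_lit 174184333983) (nat_lit 0) (nat_lit 16400607396) (nat_lit 52) (nat_lit 5) (nat_lit 54) (nat_lit 4) (nat_lit 52) (nat_lit 4) (nat_lit 478) (nat_lit 429) (nat_lit 293))) (XT.nd (nat_lit 78) (nat_lit 152) (nat_lit 0) (XT.lf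 (nat_lit 0) (nat_lit 201954838643) (nat_lit 76) (nat_lit 189655611945) (nat_lit 76) (nat_lit 12933349510) (nat_lit 51) (nat_lit 4) (nat_lit 52) (nat_lit 5) (nat_lit 52) (nat_lit 4) (nat_lit 479) (nat_lit 429) (nat_lit 292)) (XT.lf (nat_lit 0) (nat_lit 179444674943) (nat_lit 152) (nat_lit 236013226007) (nat_lit 0) (nat_lit 11137429694) (nat_lit 49) (nat_lit 5) (nat_lit 51) (nat_lit 4) (nat_lit 49) (nat_lit 4) (nat_lit 480) (nat_lit 429) (nat_lit 291)))) (XT.nd (nat_lit 156) (nat_lit 228) (nat_lit 0) (XT.nd (nat_lit 78) (nat_lit 152) (nat_lit 0) (XT.lf (nat_lit 0) (nat_lit 174310259280) (nat_lit 76) (nat_lit 221961049185) (nat_lit 76) (nat_lit 53653499636) (nat_lit 48) (nat_lit 4) (nat_lit 49) (nat_lit 5) (nat_lit 49) (nat_lit 4) (nat_lit 481) (nat_lit 429) (nat_lit 290)) (XT.lf (nat_lit 0) (nat_lit 153387885758) (nat_lit 76) (nat_lit 3536854273) (nat_lit 152) (nat_lit 317746020484) (nat_lit 46)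 (nat_lit 5) (nat_lit 47) (nat_lit 5) (nat_lit 48) (nat_lit 4) (nat_lit 482) (nat_lit 429) (nat_lit 289))) (XT.nd (nat_lit 78) (nat_lit 152) (nat_lit 0) (XT.lf (nat_lit 0) (nat_lit 124777214132) (nat_lit 76) (nat_lit 268172307915) (nat_lit 76) (nat_lit 107878886777) (nat_lit 45) (nat_lit 4) (nat_lit 46) (nat_lit 5) (nat_lit 46) (nat_lit 4) (nat_lit 483) (nat_lit 429) (nat_lit 288)) (XT.lf (nat_lit 0) (nat_lit 90071731401) (nat_lit 76) (nat_lit 32057723525) (nat_lit 152) (nat_lit 406498818361) (nat_lit 43) (nat_lit 5) (nat_lit 44) (nat_lit 5) (nat_lit 45) (nat_lit 4) (nat_lit 484) (nat_lit 429) (nat_lit 287)))))) (XT.nd (nat_lit 624) (nat_lit 684) (nat_lit 0) (XT.nd (nat_lit 312) (nat_lit 456) (nat_lit 0) (XT.nd (nat_lit 156) (nat_lit 152) (nat_lit 0) (XT.nd (nat_lit 78) (nat_lit 76) (nat_lit 0) (XT.lf (nat_lit 0) (nat_lit 44607621685) (nat_lit 76) (nat_lit 333036325634) (nat_lit 76) (nat_lit 180375502571)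 (nat_lit 42) (nat_lit 4) (nat_lit 43) (nat_lit 5) (nat_lit 43) (nat_lit 4) (nat_lit 485) (nat_lit 429) (nat_lit 286)) (XT.lf (nat_lit 0) (nat_lit 70098941237) (nat_lit 152) (nat_lit 8958181374) (nat_lit 76) (nat_lit 510239740404) (nat_lit 41) (nat_lit 5) (nat_lit 43) (nat_lit 5) (nat_lit 42) (nat_lit 4) (nat_lit 486) (nat_lit 429) (nat_lit 285))) (XT.nd (nat_lit 78) (nat_lit 76) (nat_lit 0) (XT.lf (nat_lit 0) (nat_lit 346208379588) (nat_lit 152) (nat_lit 75307639953) (nat_lit 0) (nat_lit 200816774976) (nat_lit 40) (nat_lit 5) (nat_lit 42) (nat_lit 4) (nat_lit 40) (nat_lit 4) (nat_lit 487) (nat_lit 429) (nat_lit 284)) (XT.lf (nat_lit 0) (nat_lit 504617302083) (nat_lit 76) (nat_lit 149158790243) (nat_lit 76) (nat_lit 3767032252) (nat_lit 39) (nat_lit 4) (nat_lit 40) (nat_lit 5) (nat_lit 40) (nat_lit 4) (nat_lit 488) (nat_lit 429) (nat_lit 283)))) (XT.nd (nat_lit 156) (nat_lit 228) (nat_lit 0) (XT.nd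 (nat_lit 78) (nat_lit 76) (nat_lit 0) (XT.lf (nat_lit 0) (nat_lit 291885149246) (nat_lit 152) (nat_lit 249501769911) (nat_lit 0) (nat_lit 153416673047) (nat_lit 37) (nat_lit 5) (nat_lit 39) (nat_lit 4) (nat_lit 37) (nat_lit 4) (nat_lit 489) (nat_lit 429) (nat_lit 282)) (XT.lf (nat_lit 0) (nat_lit 371193970340) (nat_lit 76) (nat_lit 250882740698) (nat_lit 76) (nat_lit 112414139262) (nat_lit 36) (nat_lit 4) (nat_lit 37) (nat_lit 5) (nat_lit 37) (nat_lit 4) (nat_lit 490) (nat_lit 429) (nat_lit 281))) (XT.nd (nat_lit 78) (nat_lit 76) (nat_lit 0) (XT.lf (nat_lit 0) (nat_lit 204836824909) (nat_lit 152) (nat_lit 498899734011) (nat_lit 0) (nat_lit 72961855961) (nat_lit 34) (nat_lit 5) (nat_lit 36) (nat_lit 4) (nat_lit 34) (nat_lit 4) (nat_lit 491) (nat_lit 429) (nat_lit 280)) (XT.lf (nat_lit 0) (nat_lit 160081842728) (nat_lit 76) (nat_lit 396661487489) (nat_lit 76) (nat_lit 264786416284) (nat_lit 33)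 (nat_lit 4) (nat_lit 34) (nat_lit 5) (nat_lit 34) (nat_lit 4) (nat_lit 492) (nat_lit 429) (nat_lit 279))))) (XT.nd (nat_lit 312) (nat_lit 304) (nat_lit 0) (XT.nd (nat_lit 156) (nat_lit 228) (nat_lit 0) (XT.nd (nat_lit 78) (nat_lit 0) (nat_lit 0) (XT.lf (nat_lit 0) (nat_lit 19521912373) (nat_lit 76) (nat_lit 54330320924) (nat_lit 152) (nat_lit 795586300230) (nat_lit 31) (nat_lit 5) (nat_lit 32) (nat_lit 5) (nat_lit 33) (nat_lit 4) (nat_lit 493) (nat_lit 429) (nat_lit 278)) (XT.lf (nat_lit 0) (nat_lit 447063608502) (nat_lit 152) (nat_lit 151593325049) (nat_lit 0) (nat_lit 321468128925) (nat_lit 31) (nat_lit 5) (nat_lit 33) (nat_lit 4) (nat_lit 31) (nat_lit 4) (nat_lit 494) (nat_lit 429) (nat_lit 277))) (XT.nd (nat_lit 78) (nat_lit 152) (nat_lit 0) (XT.lf (nat_lit 0) (nat_lit 621572962959) (nat_lit 76) (nat_lit 239179050834) (nat_lit 76) (nat_lit 113583493947) (nat_lit 30) (nat_lit 4) (nat_lit 31)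 (nat_lit 5) (nat_lit 31) (nat_lit 4) (nat_lit 495) (nat_lit 429) (nat_lit 276)) (XT.lf (nat_lit 0) (nat_lit 277953012321) (nat_lit 152) (nat_lit 595772697760) (nat_lit 0) (nat_lit 158338128064) (nat_lit 28) (nat_lit 5) (nat_lit 30) (nat_lit 4) (nat_lit 28) (nat_lit 4) (nat_lit 496) (nat_lit 429) (nat_lit 275)))) (XT.nd (nat_lit 156) (nat_lit 152) (nat_lit 0) (XT.nd (nat_lit 78) (nat_lit 76) (nat_lit 0) (XT.lf (nat_lit 0) (nat_lit 207556177041) (nat_lit 76) (nat_lit 502848754432) (nat_lit 76) (nat_lit 383233807051) (nat_lit 27) (nat_lit 4) (nat_lit 28) (nat_lit 5) (nat_lit 28) (nat_lit 4) (nat_lit 497) (nat_lit 429) (nat_lit 274)) (XT.lf (nat_lit 0) (nat_lit 27306899574) (nat_lit 152) (nat_lit 63635861702) (nat_lit 76) (nat_lit 1068655971025) (nat_lit 26) (nat_lit 5) (nat_lit 28) (nat_lit 5) (nat_lit 27) (nat_lit 4) (nat_lit 498) (nat_lit 429) (nat_lit 273))) (XT.nd (nat_lit 78) (nat_lit 76) (nat_lit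 0) (XT.lf (nat_lit 0) (nat_lit 476487042479) (nat_lit 152) (nat_lit 390505277986) (nat_lit 0) (nat_lit 362567937766) (nat_lit 25) (nat_lit 5) (nat_lit 27) (nat_lit 4) (nat_lit 25) (nat_lit 4) (nat_lit 499) (nat_lit 429) (nat_lit 272)) (XT.lf (nat_lit 0) (nat_lit 526468044791) (nat_lit 76) (nat_lit 446012922675) (nat_lit 76) (nat_lit 332093770238) (nat_lit 24) (nat_lit 4) (nat_lit 25) (nat_lit 5) (nat_lit 25) (nat_lit 4) (nat_lit 500) (nat_lit 429) (nat_lit 271))))))) (XT.nd (nat_lit 57876) (nat_lit 0) (nat_lit 5472) (XT.nd (nat_lit 57252) (nat_lit 0) (nat_lit 9272) (XT.nd (nat_lit 56940) (nat_lit 0) (nat_lit 10944) (XT.nd (nat_lit 156) (nat_lit 228) (nat_lit 0) (XT.nd (nat_lit 78) (nat_lit 0) (nat_lit 0) (XT.lf (nat_lit 0) (nat_lit 128186300776) (nat_lit 152) (nat_lit 1237139314346) (nat_lit 0) (nat_lit 19691827799) (nat_lit 22) (nat_lit 5) (nat_lit 24) (nat_lit 4) (nat_lit 22) (nat_lit 4) (nat_lit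 501) (nat_lit 429) (nat_lit 270)) (XT.lf (nat_lit 0) (nat_lit 635105907199) (nat_lit 152) (nat_lit 308833450207) (nat_lit 0) (nat_lit 526611395255) (nat_lit 22) (nat_lit 5) (nat_lit 24) (nat_lit 4) (nat_lit 22) (nat_lit 4) (nat_lit 502) (nat_lit 429) (nat_lit 269))) (XT.nd (nat_lit 78) (nat_lit 152) (nat_lit 0) (XT.lf (nat_lit 0) (nat_lit 716674223348) (nat_lit 76) (nat_lit 477093802340) (nat_lit 76) (nat_lit 368599254315) (nat_lit 21) (nat_lit 4) (nat_lit 22) (nat_lit 5) (nat_lit 22) (nat_lit 4) (nat_lit 503) (nat_lit 429) (nat_lit 268)) (XT.lf (nat_lit 0) (nat_lit 140085239883) (nat_lit 152) (nat_lit 1484139416953) (nat_lit 0) (nat_lit 36757067090) (nat_lit 19) (nat_lit 5) (nat_lit 21) (nat_lit 4) (nat_lit 19) (nat_lit 4) (nat_lit 504) (nat_lit 429) (nat_lit 267)))) (XT.nd (nat_lit 156) (nat_lit 0) (nat_lit 76) (XT.nd (nat_lit 78) (nat_lit 0) (nat_lit 76) (XT.lf (nat_lit 0) (nat_lit 8782399471)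 (nat_lit 836) (nat_lit 5826007970) (nat_lit 836) (nat_lit 5826007970) (nat_lit 163) (nat_lit 3) (nat_lit 174) (nat_lit 3) (nat_lit 174) (nat_lit 5) (nat_lit 430) (nat_lit 430) (nat_lit 340)) (XT.lf (nat_lit 0) (nat_lit 18711109732) (nat_lit 760) (nat_lit 20928102068) (nat_lit 836) (nat_lit 2842181637) (nat_lit 164) (nat_lit 5) (nat_lit 174) (nat_lit 5) (nat_lit 175) (nat_lit 5) (nat_lit 431) (nat_lit 430) (nat_lit 339))) (XT.nd (nat_lit 78) (nat_lit 0) (nat_lit 76) (XT.lf (nat_lit 76) (nat_lit 13552447237) (nat_lit 0) (nat_lit 7301144703) (nat_lit 836) (nat_lit 23324146260) (nat_lit 165) (nat_lit 5) (nat_lit 164) (nat_lit 5) (nat_lit 175) (nat_lit 5) (nat_lit 432) (nat_lit 430) (nat_lit 338)) (XT.lf (nat_lit 76) (nat_lit 5274981662) (nat_lit 0) (nat_lit 18771023893) (nat_lit 836) (nat_lit 21919858780) (nat_lit 166) (nat_lit 5) (nat_lit 165) (nat_lit 5) (nat_lit 176) (nat_lit 5) (nat_lit 433)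 (nat_lit 430) (nat_lit 337))))) (XT.nd (nat_lit 312) (nat_lit 1292) (nat_lit 0) (XT.nd (nat_lit 156) (nat_lit 608) (nat_lit 0) (XT.nd (nat_lit 78) (nat_lit 0) (nat_lit 76) (XT.lf (nat_lit 0) (nat_lit 28406469307) (nat_lit 760) (nat_lit 3117836469) (nat_lit 836) (nat_lit 16327102334) (nat_lit 166) (nat_lit 5) (nat_lit 176) (nat_lit 5) (nat_lit 177) (nat_lit 5) (nat_lit 434) (nat_lit 430) (nat_lit 336)) (XT.lf (nat_lit 0) (nat_lit 34094263035) (nat_lit 760) (nat_lit 11541108185) (nat_lit 836) (nat_lit 4203499894) (nat_lit 167) (nat_lit 5) (nat_lit 177) (nat_lit 5) (nat_lit 178) (nat_lit 5) (nat_lit 435) (nat_lit 430) (nat_lit 335))) (XT.nd (nat_lit 78) (nat_lit 684) (nat_lit 0) (XT.lf (nat_lit 76) (nat_lit 31631569838) (nat_lit 0) (nat_lit 9681583268) (nat_lit 836) (nat_lit 10618374755) (nat_lit 168) (nat_lit 5) (nat_lit 167) (nat_lit 5) (nat_lit 178) (nat_lit 5) (nat_lit 436) (nat_lit 430) (nat_lit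 334)) (XT.lf (nat_lit 0) (nat_lit 24820899887) (nat_lit 760) (nat_lit 25331351441) (nat_lit 836) (nat_lit 3987211290) (nat_lit 158) (nat_lit 5) (nat_lit 168) (nat_lit 5) (nat_lit 169) (nat_lit 5) (nat_lit 437) (nat_lit 430) (nat_lit 333)))) (XT.nd (nat_lit 156) (nat_lit 380) (nat_lit 0) (XT.nd (nat_lit 78) (nat_lit 380) (nat_lit 0) (XT.lf (nat_lit 0) (nat_lit 4097003811) (nat_lit 532) (nat_lit 38576187042) (nat_lit 76) (nat_lit 13797155454) (nat_lit 151) (nat_lit 5) (nat_lit 158) (nat_lit 5) (nat_lit 152) (nat_lit 5) (nat_lit 438) (nat_lit 430) (nat_lit 332)) (XT.lf (nat_lit 0) (nat_lit 10808094239) (nat_lit 380) (nat_lit 2993186762) (nat_lit 456) (nat_lit 45127500878) (nat_lit 146) (nat_lit 5) (nat_lit 151) (nat_lit 5) (nat_lit 152) (nat_lit 5) (nat_lit 439) (nat_lit 430) (nat_lit 331))) (XT.nd (nat_lit 78) (nat_lit 0) (nat_lit 0) (XT.lf (nat_lit 0) (nat_lit 3443417021) (nat_lit 380) (nat_lit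 22193992977) (nat_lit 456) (nat_lit 35878707055) (nat_lit 141) (nat_lit 5) (nat_lit 146) (nat_lit 5) (nat_lit 147) (nat_lit 5) (nat_lit 440) (nat_lit 430) (nat_lit 330)) (XT.lf (nat_lit 0) (nat_lit 39640464678) (nat_lit 456) (nat_lit 3806487702) (nat_lit 76) (nat_lit 20802485118) (nat_lit 141) (nat_lit 5) (nat_lit 147) (nat_lit 5) (nat_lit 142) (nat_lit 5) (nat_lit 441) (nat_lit 430) (nat_lit 329)))))) (XT.nd (nat_lit 624) (nat_lit 1444) (nat_lit 0) (XT.nd (nat_lit 312) (nat_lit 1064) (nat_lit 0) (XT.nd (nat_lit 156) (nat_lit 608) (nat_lit 0) (XT.nd (nat_lit 78) (nat_lit 380) (nat_lit 0) (XT.lf (nat_lit 0) (nat_lit 56015939712) (nat_lit 380) (nat_lit 10919508097) (nat_lit 76) (nat_lit 203367176) (nat_lit 137) (nat_lit 5) (nat_lit 142) (nat_lit 5) (nat_lit 138) (nat_lit 5) (nat_lit 442) (nat_lit 430) (nat_lit 328)) (XT.lf (nat_lit 0) (nat_lit 4964823098) (nat_lit 380) (nat_lit 18409712037) (nat_lit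 76) (nat_lit 46800476568) (nat_lit 132) (nat_lit 5) (nat_lit 137) (nat_lit 5) (nat_lit 133) (nat_lit 5) (nat_lit 443) (nat_lit 430) (nat_lit 327))) (XT.nd (nat_lit 78) (nat_lit 304) (nat_lit 0) (XT.lf (nat_lit 0) (nat_lit 23278998380) (nat_lit 380) (nat_lit 26041734691) (nat_lit 76) (nat_lit 24057796523) (nat_lit 128) (nat_lit 5) (nat_lit 133) (nat_lit 5) (nat_lit 129) (nat_lit 5) (nat_lit 444) (nat_lit 430) (nat_lit 326)) (XT.lf (nat_lit 0) (nat_lit 43156595825) (nat_lit 304) (nat_lit 1292899490) (nat_lit 380) (nat_lit 32319274377) (nat_lit 124) (nat_lit 5) (nat_lit 128) (nat_lit 5) (nat_lit 129) (nat_lit 5) (nat_lit 445) (nat_lit 430) (nat_lit 325)))) (XT.nd (nat_lit 156) (nat_lit 456) (nat_lit 0) (XT.nd (nat_lit 78) (nat_lit 380) (nat_lit 0) (XT.lf (nat_lit 0) (nat_lit 38856355712) (nat_lit 228) (nat_lit 30312099814) (nat_lit 304) (nat_lit 11169032440) (nat_lit 121) (nat_lit 5) (nat_lit 124)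 (nat_lit 5) (nat_lit 125) (nat_lit 5) (nat_lit 446) (nat_lit 430) (nat_lit 324)) (XT.lf (nat_lit 0) (nat_lit 12814445543) (nat_lit 380) (nat_lit 49411846072) (nat_lit 76) (nat_lit 21880557978) (nat_lit 116) (nat_lit 5) (nat_lit 121) (nat_lit 5) (nat_lit 117) (nat_lit 5) (nat_lit 447) (nat_lit 430) (nat_lit 323))) (XT.nd (nat_lit 78) (nat_lit 228) (nat_lit 0) (XT.lf (nat_lit 0) (nat_lit 30568690465) (nat_lit 228) (nat_lit 9482300744) (nat_lit 304) (nat_lit 48031329217) (nat_lit 113) (nat_lit 5) (nat_lit 116) (nat_lit 5) (nat_lit 117) (nat_lit 5) (nat_lit 448) (nat_lit 430) (nat_lit 322)) (XT.lf (nat_lit 0) (nat_lit 26467833792) (nat_lit 228) (nat_lit 45025786771) (nat_lit 304) (nat_lit 20780850472) (nat_lit 110) (nat_lit 5) (nat_lit 113) (nat_lit 5) (nat_lit 114) (nat_lit 5) (nat_lit 449) (nat_lit 430) (nat_lit 321))))) (XT.nd (nat_lit 312) (nat_lit 532) (nat_lit 0) (XT.nd (nat_lit 156) (nat_lit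 456) (nat_lit 0) (XT.nd (nat_lit 78) (nat_lit 228) (nat_lit 0) (XT.lf (nat_lit 0) (nat_lit 10108863578) (nat_lit 228) (nat_lit 74033518715) (nat_lit 76) (nat_lit 12566057200) (nat_lit 107) (nat_lit 5) (nat_lit 110) (nat_lit 5) (nat_lit 108) (nat_lit 5) (nat_lit 450) (nat_lit 430) (nat_lit 320)) (XT.lf (nat_lit 0) (nat_lit 18609211913) (nat_lit 228) (nat_lit 26355029782) (nat_lit 304) (nat_lit 56404723003) (nat_lit 104) (nat_lit 5) (nat_lit 107) (nat_lit 5) (nat_lit 108) (nat_lit 5) (nat_lit 451) (nat_lit 430) (nat_lit 319))) (XT.nd (nat_lit 78) (nat_lit 304) (nat_lit 0) (XT.lf (nat_lit 0) (nat_lit 14857634434) (nat_lit 152) (nat_lit 69854108892) (nat_lit 228) (nat_lit 21585404013) (nat_lit 102) (nat_lit 5) (nat_lit 104) (nat_lit 5) (nat_lit 105) (nat_lit 5) (nat_lit 452) (nat_lit 430) (nat_lit 318)) (XT.lf (nat_lit 0) (nat_lit 11333862345) (nat_lit 228) (nat_lit 6257588220) (nat_lit 304) (nat_lit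 93911393022) (nat_lit 98) (nat_lit 5) (nat_lit 101) (nat_lit 5) (nat_lit 102) (nat_lit 5) (nat_lit 453) (nat_lit 430) (nat_lit 317)))) (XT.nd (nat_lit 156) (nat_lit 228) (nat_lit 0) (XT.nd (nat_lit 78) (nat_lit 152) (nat_lit 0) (XT.lf (nat_lit 0) (nat_lit 7418807853) (nat_lit 152) (nat_lit 54445110551) (nat_lit 228) (nat_lit 55107498631) (nat_lit 96) (nat_lit 5) (nat_lit 98) (nat_lit 5) (nat_lit 99) (nat_lit 5) (nat_lit 454) (nat_lit 430) (nat_lit 316)) (XT.lf (nat_lit 0) (nat_lit 4184789055) (nat_lit 152) (nat_lit 107648538518) (nat_lit 228) (nat_lit 10936391650) (nat_lit 94) (nat_lit 5) (nat_lit 96) (nat_lit 5) (nat_lit 97) (nat_lit 5) (nat_lit 455) (nat_lit 430) (nat_lit 315))) (XT.nd (nat_lit 78) (nat_lit 0) (nat_lit 0) (XT.lf (nat_lit 0) (nat_lit 486168083) (nat_lit 152) (nat_lit 37968993235) (nat_lit 228) (nat_lit 90404842635) (nat_lit 91) (nat_lit 5) (nat_lit 93) (nat_lit 5) (nat_lit 94)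 (nat_lit 5) (nat_lit 456) (nat_lit 430) (nat_lit 314)) (XT.lf (nat_lit 0) (nat_lit 94100048573) (nat_lit 228) (nat_lit 2819783028) (nat_lit 76) (nat_lit 38374457258) (nat_lit 91) (nat_lit 5) (nat_lit 94) (nat_lit 5) (nat_lit 92) (nat_lit 5) (nat_lit 457) (nat_lit 430) (nat_lit 313))))))))
noncomputable def xc89 : XT := (XT.nd (nat_lit 2496) (nat_lit 1368) (nat_lit 0) (XT.nd (nat_lit 1248) (nat_lit 1672) (nat_lit 0) (XT.nd (nat_lit 624) (nat_lit 988) (nat_lit 0) (XT.nd (nat_lit 312) (nat_lit 608) (nat_lit 0) (XT.nd (nat_lit 156) (nat_lit 304) (nat_lit 0) (XT.nd (nat_lit 78) (nat_lit 152) (nat_lit 0) (XT.lf (nat_lit 0) (nat_lit 14385998001) (nat_lit 228) (nat_lit 5832019011) (nat_lit 76) (nat_lit 121875200179) (nat_lit 88) (nat_lit 5) (nat_lit 91) (nat_lit 5) (nat_lit 89) (nat_lit 5) (nat_lit 458) (nat_lit 430) (nat_lit 312)) (XT.lf (nat_lit 0) (nat_lit 76263732622) (nat_lit 228) (nat_lit 9365708564)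 (nat_lit 76) (nat_lit 63608136736) (nat_lit 86) (nat_lit 5) (nat_lit 89) (nat_lit 5) (nat_lit 87) (nat_lit 5) (nat_lit 459) (nat_lit 430) (nat_lit 311))) (XT.nd (nat_lit 78) (nat_lit 152) (nat_lit 0) (XT.lf (nat_lit 0) (nat_lit 144780806941) (nat_lit 152) (nat_lit 1014091513) (nat_lit 228) (nat_lit 11023428473) (nat_lit 84) (nat_lit 5) (nat_lit 86) (nat_lit 5) (nat_lit 87) (nat_lit 5) (nat_lit 460) (nat_lit 430) (nat_lit 310)) (XT.lf (nat_lit 0) (nat_lit 58075661616) (nat_lit 152) (nat_lit 15765947796) (nat_lit 76) (nat_lit 90921239665) (nat_lit 82) (nat_lit 5) (nat_lit 84) (nat_lit 5) (nat_lit 83) (nat_lit 5) (nat_lit 461) (nat_lit 430) (nat_lit 309)))) (XT.nd (nat_lit 156) (nat_lit 304) (nat_lit 0) (XT.nd (nat_lit 78) (nat_lit 152) (nat_lit 0) (XT.lf (nat_lit 0) (nat_lit 135275699939) (nat_lit 228) (nat_lit 18754431912) (nat_lit 76) (nat_lit 19155804169) (nat_lit 80) (nat_lit 5) (nat_lit 83)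 (nat_lit 5) (nat_lit 81) (nat_lit 4) (nat_lit 462) (nat_lit 430) (nat_lit 308)) (XT.lf (nat_lit 0) (nat_lit 39298481460) (nat_lit 152) (nat_lit 22294106773) (nat_lit 76) (nat_lit 120457208660) (nat_lit 78) (nat_lit 5) (nat_lit 80) (nat_lit 5) (nat_lit 79) (nat_lit 5) (nat_lit 463) (nat_lit 430) (nat_lit 307))) (XT.nd (nat_lit 78) (nat_lit 152) (nat_lit 0) (XT.lf (nat_lit 0) (nat_lit 124955978106) (nat_lit 228) (nat_lit 25814672431) (nat_lit 76) (nat_lit 40641028575) (nat_lit 76) (nat_lit 5) (nat_lit 79) (nat_lit 5) (nat_lit 77) (nat_lit 4) (nat_lit 464) (nat_lit 430) (nat_lit 306)) (XT.lf (nat_lit 0) (nat_lit 19622715088) (nat_lit 152) (nat_lit 29353543440) (nat_lit 76) (nat_lit 152324334915) (nat_lit 74) (nat_lit 5) (nat_lit 76) (nat_lit 5) (nat_lit 75) (nat_lit 5) (nat_lit 465) (nat_lit 430) (nat_lit 305))))) (XT.nd (nat_lit 312) (nat_lit 456) (nat_lit 0) (XT.nd (nat_lit 156) (nat_lit 304)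 (nat_lit 0) (XT.nd (nat_lit 78) (nat_lit 76) (nat_lit 0) (XT.lf (nat_lit 0) (nat_lit 114565814727) (nat_lit 228) (nat_lit 33689900368) (nat_lit 76) (nat_lit 63455099245) (nat_lit 72) (nat_lit 5) (nat_lit 75) (nat_lit 5) (nat_lit 73) (nat_lit 4) (nat_lit 466) (nat_lit 430) (nat_lit 304)) (XT.lf (nat_lit 0) (nat_lit 185196439011) (nat_lit 76) (nat_lit 36143796249) (nat_lit 152) (nat_lit 1401824023) (nat_lit 71) (nat_lit 5) (nat_lit 72) (nat_lit 5) (nat_lit 73) (nat_lit 4) (nat_lit 467) (nat_lit 430) (nat_lit 303))) (XT.nd (nat_lit 78) (nat_lit 76) (nat_lit 0) (XT.lf (nat_lit 0) (nat_lit 103751997532) (nat_lit 228) (nat_lit 43072381645) (nat_lit 76) (nat_lit 87501006004) (nat_lit 68) (nat_lit 5) (nat_lit 71) (nat_lit 5) (nat_lit 69) (nat_lit 4) (nat_lit 468) (nat_lit 430) (nat_lit 302)) (XT.lf (nat_lit 0) (nat_lit 198604419773) (nat_lit 76) (nat_lit 23039187407) (nat_lit 152) (nat_lit 24971891177)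 (nat_lit 67) (nat_lit 5) (nat_lit 68) (nat_lit 5) (nat_lit 69) (nat_lit 4) (nat_lit 469) (nat_lit 430) (nat_lit 301)))) (XT.nd (nat_lit 156) (nat_lit 228) (nat_lit 0) (XT.nd (nat_lit 78) (nat_lit 76) (nat_lit 0) (XT.lf (nat_lit 0) (nat_lit 92028108886) (nat_lit 152) (nat_lit 54928947597) (nat_lit 76) (nat_lit 112572155103) (nat_lit 65) (nat_lit 5) (nat_lit 67) (nat_lit 5) (nat_lit 66) (nat_lit 4) (nat_lit 470) (nat_lit 430) (nat_lit 300)) (XT.lf (nat_lit 0) (nat_lit 211649781753) (nat_lit 76) (nat_lit 10417129341) (nat_lit 152) (nat_lit 51160957252) (nat_lit 64) (nat_lit 5) (nat_lit 65) (nat_lit 5) (nat_lit 66) (nat_lit 4) (nat_lit 471) (nat_lit 430) (nat_lit 299))) (XT.nd (nat_lit 78) (nat_lit 76) (nat_lit 0) (XT.lf (nat_lit 0) (nat_lit 78729948149) (nat_lit 152) (nat_lit 70592311800) (nat_lit 76) (nat_lit 138310631721) (nat_lit 62) (nat_lit 5) (nat_lit 64) (nat_lit 5) (nat_lit 63) (nat_lit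 4) (nat_lit 472) (nat_lit 430) (nat_lit 298)) (XT.lf (nat_lit 0) (nat_lit 222008964739) (nat_lit 152) (nat_lit 79833246907) (nat_lit 0) (nat_lit 1066706541) (nat_lit 61) (nat_lit 5) (nat_lit 63) (nat_lit 4) (nat_lit 61) (nat_lit 4) (nat_lit 473) (nat_lit 430) (nat_lit 297)))))) (XT.nd (nat_lit 624) (nat_lit 760) (nat_lit 0) (XT.nd (nat_lit 312) (nat_lit 456) (nat_lit 0) (XT.nd (nat_lit 156) (nat_lit 228) (nat_lit 0) (XT.nd (nat_lit 78) (nat_lit 76) (nat_lit 0) (XT.lf (nat_lit 0) (nat_lit 62957349147) (nat_lit 152) (nat_lit 91880279395) (nat_lit 76) (nat_lit 164152163016) (nat_lit 59) (nat_lit 5) (nat_lit 61) (nat_lit 5) (nat_lit 60) (nat_lit 4) (nat_lit 474) (nat_lit 430) (nat_lit 296)) (XT.lf (nat_lit 0) (nat_lit 220714780207) (nat_lit 152) (nat_lit 105022243607) (nat_lit 0) (nat_lit 10292505330) (nat_lit 58) (nat_lit 5) (nat_lit 60) (nat_lit 4) (nat_lit 58) (nat_lit 4) (nat_lit 475) (nat_lit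 430) (nat_lit 295))) (XT.nd (nat_lit 78) (nat_lit 76) (nat_lit 0) (XT.lf (nat_lit 0) (nat_lit 43498385746) (nat_lit 152) (nat_lit 121251063348) (nat_lit 76) (nat_lit 189253808792) (nat_lit 56) (nat_lit 5) (nat_lit 58) (nat_lit 5) (nat_lit 57) (nat_lit 4) (nat_lit 476) (nat_lit 430) (nat_lit 294)) (XT.lf (nat_lit 0) (nat_lit 216798726649) (nat_lit 152) (nat_lit 139834845826) (nat_lit 0) (nat_lit 16395681048) (nat_lit 55) (nat_lit 5) (nat_lit 57) (nat_lit 4) (nat_lit 55) (nat_lit 4) (nat_lit 477) (nat_lit 430) (nat_lit 293)))) (XT.nd (nat_lit 156) (nat_lit 228) (nat_lit 0) (XT.nd (nat_lit 78) (nat_lit 76) (nat_lit 0) (XT.lf (nat_lit 0) (nat_lit 18730797781) (nat_lit 152) (nat_lit 162005301465) (nat_lit 76) (nat_lit 212399249968) (nat_lit 53) (nat_lit 5) (nat_lit 55) (nat_lit 5) (nat_lit 54) (nat_lit 4) (nat_lit 478) (nat_lit 430) (nat_lit 292)) (XT.lf (nat_lit 0) (nat_lit 208587669747) (nat_lit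 152) (nat_lit 188088686552) (nat_lit 0) (nat_lit 17726908559) (nat_lit 52) (nat_lit 5) (nat_lit 54) (nat_lit 4) (nat_lit 52) (nat_lit 4) (nat_lit 479) (nat_lit 430) (nat_lit 291))) (XT.nd (nat_lit 78) (nat_lit 152) (nat_lit 0) (XT.lf (nat_lit 0) (nat_lit 218140298992) (nat_lit 76) (nat_lit 204813675656) (nat_lit 76) (nat_lit 13952594953) (nat_lit 51) (nat_lit 4) (nat_lit 52) (nat_lit 5) (nat_lit 52) (nat_lit 4) (nat_lit 480) (nat_lit 430) (nat_lit 290)) (XT.lf (nat_lit 0) (nat_lit 193814732407) (nat_lit 152) (nat_lit 254865507588) (nat_lit 0) (nat_lit 12041992836) (nat_lit 49) (nat_lit 5) (nat_lit 51) (nat_lit 4) (nat_lit 49) (nat_lit 4) (nat_lit 481) (nat_lit 430) (nat_lit 289))))) (XT.nd (nat_lit 312) (nat_lit 304) (nat_lit 0) (XT.nd (nat_lit 156) (nat_lit 228) (nat_lit 0) (XT.nd (nat_lit 78) (nat_lit 152) (nat_lit 0) (XT.lf (nat_lit 0) (nat_lit 188282605931) (nat_lit 76) (nat_lit 239704247587)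 (nat_lit 76) (nat_lit 57931247128) (nat_lit 48) (nat_lit 4) (nat_lit 49) (nat_lit 5) (nat_lit 49) (nat_lit 4) (nat_lit 482) (nat_lit 430) (nat_lit 288)) (XT.lf (nat_lit 0) (nat_lit 165685691278) (nat_lit 76) (nat_lit 3806471306) (nat_lit 152) (nat_lit 343151586529) (nat_lit 46) (nat_lit 5) (nat_lit 47) (nat_lit 5) (nat_lit 48) (nat_lit 4) (nat_lit 483) (nat_lit 430) (nat_lit 287))) (XT.nd (nat_lit 78) (nat_lit 152) (nat_lit 0) (XT.lf (nat_lit 0) (nat_lit 134785446262) (nat_lit 76) (nat_lit 289613084609) (nat_lit 76) (nat_lit 116495498237) (nat_lit 45) (nat_lit 4) (nat_lit 46) (nat_lit 5) (nat_lit 46) (nat_lit 4) (nat_lit 484) (nat_lit 430) (nat_lit 286)) (XT.lf (nat_lit 0) (nat_lit 97302812070) (nat_lit 76) (nat_lit 34609673627) (nat_lit 152) (nat_lit 439005415672) (nat_lit 43) (nat_lit 5) (nat_lit 44) (nat_lit 5) (nat_lit 45) (nat_lit 4) (nat_lit 485) (nat_lit 430) (nat_lit 285)))) (XT.nd (nat_lit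 156) (nat_lit 152) (nat_lit 0) (XT.nd (nat_lit 78) (nat_lit 76) (nat_lit 0) (XT.lf (nat_lit 0) (nat_lit 48200889290) (nat_lit 76) (nat_lit 359666877457) (nat_lit 76) (nat_lit 194792623895) (nat_lit 42) (nat_lit 4) (nat_lit 43) (nat_lit 5) (nat_lit 43) (nat_lit 4) (nat_lit 486) (nat_lit 430) (nat_lit 284)) (XT.lf (nat_lit 0) (nat_lit 75718435607) (nat_lit 152) (nat_lit 9651621615) (nat_lit 76) (nat_lit 551069975829) (nat_lit 41) (nat_lit 5) (nat_lit 43) (nat_lit 5) (nat_lit 42) (nat_lit 4) (nat_lit 487) (nat_lit 430) (nat_lit 283))) (XT.nd (nat_lit 78) (nat_lit 76) (nat_lit 0) (XT.lf (nat_lit 0) (nat_lit 373916291891) (nat_lit 152) (nat_lit 81309666181) (nat_lit 0) (nat_lit 216892897863) (nat_lit 40) (nat_lit 5) (nat_lit 42) (nat_lit 4) (nat_lit 40) (nat_lit 4) (nat_lit 488) (nat_lit 430) (nat_lit 282)) (XT.lf (nat_lit 0) (nat_lit 545008289703) (nat_lit 76) (nat_lit 161080636500) (nat_lit 76)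 (nat_lit 4057110974) (nat_lit 39) (nat_lit 4) (nat_lit 40) (nat_lit 5) (nat_lit 40) (nat_lit 4) (nat_lit 489) (nat_lit 430) (nat_lit 281))))))) (XT.nd (nat_lit 57954) (nat_lit 0) (nat_lit 7600) (XT.nd (nat_lit 624) (nat_lit 532) (nat_lit 0) (XT.nd (nat_lit 312) (nat_lit 380) (nat_lit 0) (XT.nd (nat_lit 156) (nat_lit 228) (nat_lit 0) (XT.nd (nat_lit 78) (nat_lit 76) (nat_lit 0) (XT.lf (nat_lit 0) (nat_lit 315246567830) (nat_lit 152) (nat_lit 269440544297) (nat_lit 0) (nat_lit 165700237084) (nat_lit 37) (nat_lit 5) (nat_lit 39) (nat_lit 4) (nat_lit 37) (nat_lit 4) (nat_lit 490) (nat_lit 430) (nat_lit 280)) (XT.lf (nat_lit 0) (nat_lit 400909926582) (nat_lit 76) (nat_lit 270943061410) (nat_lit 76) (nat_lit 121396623294) (nat_lit 36) (nat_lit 4) (nat_lit 37) (nat_lit 5) (nat_lit 37) (nat_lit 4) (nat_lit 491) (nat_lit 430) (nat_lit 279))) (XT.nd (nat_lit 78) (nat_lit 76) (nat_lit 0) (XT.lf (nat_lit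 0) (nat_lit 221233780620) (nat_lit 152) (nat_lit 538791500156) (nat_lit 0) (nat_lit 78808506779) (nat_lit 34) (nat_lit 5) (nat_lit 36) (nat_lit 4) (nat_lit 34) (nat_lit 4) (nat_lit 492) (nat_lit 430) (nat_lit 278)) (XT.lf (nat_lit 0) (nat_lit 172907724309) (nat_lit 76) (nat_lit 428384642445) (nat_lit 76) (nat_lit 285959280935) (nat_lit 33) (nat_lit 4) (nat_lit 34) (nat_lit 5) (nat_lit 34) (nat_lit 4) (nat_lit 493) (nat_lit 430) (nat_lit 277)))) (XT.nd (nat_lit 156) (nat_lit 228) (nat_lit 0) (XT.nd (nat_lit 78) (nat_lit 0) (nat_lit 0) (XT.lf (nat_lit 0) (nat_lit 21102466955) (nat_lit 76) (nat_lit 58667245064) (nat_lit 152) (nat_lit 859223439163) (nat_lit 31) (nat_lit 5) (nat_lit 32) (nat_lit 5) (nat_lit 33) (nat_lit 4) (nat_lit 494) (nat_lit 430) (nat_lit 276)) (XT.lf (nat_lit 0) (nat_lit 482837445704) (nat_lit 152) (nat_lit 163703088948) (nat_lit 0) (nat_lit 347194095374) (nat_lit 31) (nat_lit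 5) (nat_lit 33) (nat_lit 4) (nat_lit 31) (nat_lit 4) (nat_lit 495) (nat_lit 430) (nat_lit 275))) (XT.nd (nat_lit 78) (nat_lit 152) (nat_lit 0) (XT.lf (nat_lit 0) (nat_lit 671315732790) (nat_lit 76) (nat_lit 258304806958) (nat_lit 76) (nat_lit 122661390347) (nat_lit 30) (nat_lit 4) (nat_lit 31) (nat_lit 5) (nat_lit 31) (nat_lit 4) (nat_lit 496) (nat_lit 430) (nat_lit 274)) (XT.lf (nat_lit 0) (nat_lit 300197512765) (nat_lit 152) (nat_lit 643417771421) (nat_lit 0) (nat_lit 171013248020) (nat_lit 28) (nat_lit 5) (nat_lit 30) (nat_lit 4) (nat_lit 28) (nat_lit 4) (nat_lit 497) (nat_lit 430) (nat_lit 273))))) (XT.nd (nat_lit 312) (nat_lit 228) (nat_lit 0) (XT.nd (nat_lit 156) (nat_lit 152) (nat_lit 0) (XT.nd (nat_lit 78) (nat_lit 76) (nat_lit 0) (XT.lf (nat_lit 0) (nat_lit 224176685771) (nat_lit 76) (nat_lit 543068537899) (nat_lit 76) (nat_lit 413884219036) (nat_lit 27) (nat_lit 4) (nat_lit 28) (nat_lit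 5) (nat_lit 28) (nat_lit 4) (nat_lit 498) (nat_lit 430) (nat_lit 272)) (XT.lf (nat_lit 0) (nat_lit 29498884100) (nat_lit 152) (nat_lit 68711656566) (nat_lit 76) (nat_lit 1154155718575) (nat_lit 26) (nat_lit 5) (nat_lit 28) (nat_lit 5) (nat_lit 27) (nat_lit 4) (nat_lit 499) (nat_lit 430) (nat_lit 271))) (XT.nd (nat_lit 78) (nat_lit 76) (nat_lit 0) (XT.lf (nat_lit 0) (nat_lit 514613227157) (nat_lit 152) (nat_lit 421731040042) (nat_lit 0) (nat_lit 391580450612) (nat_lit 25) (nat_lit 5) (nat_lit 27) (nat_lit 4) (nat_lit 25) (nat_lit 4) (nat_lit 500) (nat_lit 430) (nat_lit 270)) (XT.lf (nat_lit 0) (nat_lit 568599511443) (nat_lit 76) (nat_lit 481686838729) (nat_lit 76) (nat_lit 358654021269) (nat_lit 24) (nat_lit 4) (nat_lit 25) (nat_lit 5) (nat_lit 25) (nat_lit 4) (nat_lit 501) (nat_lit 430) (nat_lit 269)))) (XT.nd (nat_lit 156) (nat_lit 76) (nat_lit 0) (XT.nd (nat_lit 78) (nat_lit 0) (nat_lit 0)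 (XT.lf (nat_lit 0) (nat_lit 138448024466) (nat_lit 152) (nat_lit 1336096596376) (nat_lit 0) (nat_lit 21273876519) (nat_lit 22) (nat_lit 5) (nat_lit 24) (nat_lit 4) (nat_lit 22) (nat_lit 4) (nat_lit 502) (nat_lit 430) (nat_lit 268)) (XT.lf (nat_lit 0) (nat_lit 685920694246) (nat_lit 152) (nat_lit 333527290003) (nat_lit 0) (nat_lit 568746512890) (nat_lit 22) (nat_lit 5) (nat_lit 24) (nat_lit 4) (nat_lit 22) (nat_lit 4) (nat_lit 503) (nat_lit 430) (nat_lit 267))) (XT.nd (nat_lit 56784) (nat_lit 0) (nat_lit 10792) (XT.lf (nat_lit 0) (nat_lit 774020439590) (nat_lit 76) (nat_lit 515255066585) (nat_lit 76) (nat_lit 398080854296) (nat_lit 21) (nat_lit 4) (nat_lit 22) (nat_lit 5) (nat_lit 22) (nat_lit 4) (nat_lit 504) (nat_lit 430) (nat_lit 266)) (XT.lf (nat_lit 0) (nat_lit 9544151964) (nat_lit 836) (nat_lit 6261027044) (nat_lit 836) (nat_lit 6261027044) (nat_lit 163) (nat_lit 3) (nat_lit 174) (nat_lit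 3) (nat_lit 174) (nat_lit 5) (nat_lit 431) (nat_lit 431) (nat_lit 338)))))) (XT.nd (nat_lit 624) (nat_lit 2280) (nat_lit 0) (XT.nd (nat_lit 312) (nat_lit 988) (nat_lit 0) (XT.nd (nat_lit 156) (nat_lit 0) (nat_lit 76) (XT.nd (nat_lit 78) (nat_lit 0) (nat_lit 0) (XT.lf (nat_lit 0) (nat_lit 20317685617) (nat_lit 760) (nat_lit 22536597025) (nat_lit 836) (nat_lit 3020129459) (nat_lit 164) (nat_lit 5) (nat_lit 174) (nat_lit 5) (nat_lit 175) (nat_lit 5) (nat_lit 432) (nat_lit 431) (nat_lit 337)) (XT.lf (nat_lit 76) (nat_lit 14699538670) (nat_lit 0) (nat_lit 7924884738) (nat_lit 836) (nat_lit 25082398814) (nat_lit 165) (nat_lit 5) (nat_lit 164) (nat_lit 5) (nat_lit 175) (nat_lit 5) (nat_lit 433) (nat_lit 431) (nat_lit 336))) (XT.nd (nat_lit 78) (nat_lit 0) (nat_lit 76) (XT.lf (nat_lit 76) (nat_lit 5762646475) (nat_lit 0) (nat_lit 20302439843) (nat_lit 836) (nat_lit 23573269899) (nat_lit 166) (nat_lit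 5) (nat_lit 165) (nat_lit 5) (nat_lit 176) (nat_lit 5) (nat_lit 434) (nat_lit 431) (nat_lit 335)) (XT.lf (nat_lit 0) (nat_lit 30766890635) (nat_lit 760) (nat_lit 3301608037) (nat_lit 836) (nat_lit 17606620185) (nat_lit 166) (nat_lit 5) (nat_lit 176) (nat_lit 5) (nat_lit 177) (nat_lit 5) (nat_lit 435) (nat_lit 431) (nat_lit 334)))) (XT.nd (nat_lit 156) (nat_lit 1216) (nat_lit 0) (XT.nd (nat_lit 78) (nat_lit 0) (nat_lit 0) (XT.lf (nat_lit 0) (nat_lit 36903871430) (nat_lit 760) (nat_lit 12397164376) (nat_lit 836) (nat_lit 4520835414) (nat_lit 167) (nat_lit 5) (nat_lit 177) (nat_lit 5) (nat_lit 178) (nat_lit 5) (nat_lit 436) (nat_lit 431) (nat_lit 333)) (XT.lf (nat_lit 76) (nat_lit 34226406048) (nat_lit 0) (nat_lit 10468791664) (nat_lit 836) (nat_lit 11386997006) (nat_lit 168) (nat_lit 5) (nat_lit 167) (nat_lit 5) (nat_lit 178) (nat_lit 5) (nat_lit 437) (nat_lit 431) (nat_lit 332))) (XT.nd (nat_lit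 78) (nat_lit 532) (nat_lit 0) (XT.lf (nat_lit 0) (nat_lit 26871964855) (nat_lit 760) (nat_lit 27364593437) (nat_lit 836) (nat_lit 4230449666) (nat_lit 158) (nat_lit 5) (nat_lit 168) (nat_lit 5) (nat_lit 169) (nat_lit 5) (nat_lit 438) (nat_lit 431) (nat_lit 331)) (XT.lf (nat_lit 0) (nat_lit 4493597923) (nat_lit 532) (nat_lit 41593894994) (nat_lit 76) (nat_lit 14897034706) (nat_lit 151) (nat_lit 5) (nat_lit 158) (nat_lit 5) (nat_lit 152) (nat_lit 5) (nat_lit 439) (nat_lit 431) (nat_lit 330))))) (XT.nd (nat_lit 312) (nat_lit 1216) (nat_lit 0) (XT.nd (nat_lit 156) (nat_lit 304) (nat_lit 0) (XT.nd (nat_lit 78) (nat_lit 380) (nat_lit 0) (XT.lf (nat_lit 0) (nat_lit 11738156773) (nat_lit 380) (nat_lit 3231983025) (nat_lit 456) (nat_lit 48669702464) (nat_lit 146) (nat_lit 5) (nat_lit 151) (nat_lit 5) (nat_lit 152) (nat_lit 5) (nat_lit 440) (nat_lit 431) (nat_lit 329)) (XT.lf (nat_lit 0) (nat_lit 3784553951)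 (nat_lit 380) (nat_lit 23964843114) (nat_lit 456) (nat_lit 38684955610) (nat_lit 141) (nat_lit 5) (nat_lit 146) (nat_lit 5) (nat_lit 147) (nat_lit 5) (nat_lit 441) (nat_lit 431) (nat_lit 328))) (XT.nd (nat_lit 78) (nat_lit 304) (nat_lit 0) (XT.lf (nat_lit 0) (nat_lit 42868245527) (nat_lit 456) (nat_lit 4047447080) (nat_lit 76) (nat_lit 22470868977) (nat_lit 141) (nat_lit 5) (nat_lit 147) (nat_lit 5) (nat_lit 142) (nat_lit 5) (nat_lit 442) (nat_lit 431) (nat_lit 327)) (XT.lf (nat_lit 0) (nat_lit 60550636347) (nat_lit 380) (nat_lit 11729719640) (nat_lit 76) (nat_lit 226889671) (nat_lit 137) (nat_lit 5) (nat_lit 142) (nat_lit 5) (nat_lit 138) (nat_lit 5) (nat_lit 443) (nat_lit 431) (nat_lit 326)))) (XT.nd (nat_lit 156) (nat_lit 532) (nat_lit 0) (XT.nd (nat_lit 78) (nat_lit 304) (nat_lit 0) (XT.lf (nat_lit 0) (nat_lit 5413248828) (nat_lit 380) (nat_lit 19820195701) (nat_lit 76) (nat_lit 50553003069)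 (nat_lit 132) (nat_lit 5) (nat_lit 137) (nat_lit 5) (nat_lit 133) (nat_lit 5) (nat_lit 444) (nat_lit 431) (nat_lit 325)) (XT.lf (nat_lit 0) (nat_lit 25189867935) (nat_lit 380) (nat_lit 28063240849) (nat_lit 76) (nat_lit 25993272874) (nat_lit 128) (nat_lit 5) (nat_lit 133) (nat_lit 5) (nat_lit 129) (nat_lit 5) (nat_lit 445) (nat_lit 431) (nat_lit 324))) (XT.nd (nat_lit 78) (nat_lit 228) (nat_lit 0) (XT.lf (nat_lit 0) (nat_lit 46668268938) (nat_lit 304) (nat_lit 1383062839) (nat_lit 380) (nat_lit 34856643037) (nat_lit 124) (nat_lit 5) (nat_lit 128) (nat_lit 5) (nat_lit 129) (nat_lit 5) (nat_lit 446) (nat_lit 431) (nat_lit 323)) (XT.lf (nat_lit 0) (nat_lit 42023437721) (nat_lit 228) (nat_lit 32722079112) (nat_lit 304) (nat_lit 12016788509) (nat_lit 121) (nat_lit 5) (nat_lit 124) (nat_lit 5) (nat_lit 125) (nat_lit 5) (nat_lit 447) (nat_lit 431) (nat_lit 322))))))))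
noncomputable def xc90 : XT := (XT.nd (nat_lit 2418) (nat_lit 2508) (nat_lit 0) (XT.nd (nat_lit 1170) (nat_lit 2052) (nat_lit 0) (XT.nd (nat_lit 546) (nat_lit 1216) (nat_lit 0) (XT.nd (nat_lit 234) (nat_lit 912) (nat_lit 0) (XT.nd (nat_lit 78) (nat_lit 456) (nat_lit 0) (XT.lf (nat_lit 0) (nat_lit 13881760181) (nat_lit 380) (nat_lit 53305506639) (nat_lit 76) (nat_lit 23646020660) (nat_lit 116) (nat_lit 5) (nat_lit 121) (nat_lit 5) (nat_lit 117) (nat_lit 5) (nat_lit 448) (nat_lit 431) (nat_lit 321)) (XT.nd (nat_lit 78) (nat_lit 228) (nat_lit 0) (XT.lf (nat_lit 0) (nat_lit 33070896276) (nat_lit 228) (nat_lit 10224095748) (nat_lit 304) (nat_lit 51831915987) (nat_lit 113) (nat_lit 5) (nat_lit 116) (nat_lit 5) (nat_lit 117) (nat_lit 5) (nat_lit 449) (nat_lit 431) (nat_lit 320)) (XT.lf (nat_lit 0) (nat_lit 28641166981) (nat_lit 228) (nat_lit 48610023159) (nat_lit 304) (nat_lit 22403332753) (nat_lit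 110) (nat_lit 5) (nat_lit 113) (nat_lit 5) (nat_lit 114) (nat_lit 5) (nat_lit 450) (nat_lit 431) (nat_lit 319)))) (XT.nd (nat_lit 156) (nat_lit 456) (nat_lit 0) (XT.nd (nat_lit 78) (nat_lit 228) (nat_lit 0) (XT.lf (nat_lit 0) (nat_lit 10954546765) (nat_lit 228) (nat_lit 79899942439) (nat_lit 76) (nat_lit 13588775132) (nat_lit 107) (nat_lit 5) (nat_lit 110) (nat_lit 5) (nat_lit 108) (nat_lit 5) (nat_lit 451) (nat_lit 431) (nat_lit 318)) (XT.lf (nat_lit 0) (nat_lit 20151761745) (nat_lit 228) (nat_lit 28444694733) (nat_lit 304) (nat_lit 60880270131) (nat_lit 104) (nat_lit 5) (nat_lit 107) (nat_lit 5) (nat_lit 108) (nat_lit 5) (nat_lit 452) (nat_lit 431) (nat_lit 317))) (XT.nd (nat_lit 78) (nat_lit 304) (nat_lit 0) (XT.lf (nat_lit 0) (nat_lit 16099118578) (nat_lit 152) (nat_lit 75423137856) (nat_lit 228) (nat_lit 23276982628) (nat_lit 102) (nat_lit 5) (nat_lit 104) (nat_lit 5) (nat_lit 105) (nat_lit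 5) (nat_lit 453) (nat_lit 431) (nat_lit 316)) (XT.lf (nat_lit 0) (nat_lit 12292227471) (nat_lit 228) (nat_lit 6738943198) (nat_lit 304) (nat_lit 101390278983) (nat_lit 98) (nat_lit 5) (nat_lit 101) (nat_lit 5) (nat_lit 102) (nat_lit 5) (nat_lit 454) (nat_lit 431) (nat_lit 315))))) (XT.nd (nat_lit 312) (nat_lit 684) (nat_lit 0) (XT.nd (nat_lit 156) (nat_lit 228) (nat_lit 0) (XT.nd (nat_lit 78) (nat_lit 152) (nat_lit 0) (XT.lf (nat_lit 0) (nat_lit 8062987147) (nat_lit 152) (nat_lit 58781117975) (nat_lit 228) (nat_lit 59483470484) (nat_lit 96) (nat_lit 5) (nat_lit 98) (nat_lit 5) (nat_lit 99) (nat_lit 5) (nat_lit 455) (nat_lit 431) (nat_lit 314)) (XT.lf (nat_lit 0) (nat_lit 4569239074) (nat_lit 152) (nat_lit 116240585033) (nat_lit 228) (nat_lit 11779980093) (nat_lit 94) (nat_lit 5) (nat_lit 96) (nat_lit 5) (nat_lit 97) (nat_lit 5) (nat_lit 456) (nat_lit 431) (nat_lit 313))) (XT.nd (nat_lit 78) (nat_lit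 0) (nat_lit 0) (XT.lf (nat_lit 0) (nat_lit 573529872) (nat_lit 152) (nat_lit 40986875486) (nat_lit 228) (nat_lit 97606956433) (nat_lit 91) (nat_lit 5) (nat_lit 93) (nat_lit 5) (nat_lit 94) (nat_lit 5) (nat_lit 457) (nat_lit 431) (nat_lit 312)) (XT.lf (nat_lit 0) (nat_lit 101655031835) (nat_lit 228) (nat_lit 2999435829) (nat_lit 76) (nat_lit 41462014482) (nat_lit 91) (nat_lit 5) (nat_lit 94) (nat_lit 5) (nat_lit 92) (nat_lit 5) (nat_lit 458) (nat_lit 431) (nat_lit 311)))) (XT.nd (nat_lit 156) (nat_lit 304) (nat_lit 0) (XT.nd (nat_lit 78) (nat_lit 152) (nat_lit 0) (XT.lf (nat_lit 0) (nat_lit 15562966207) (nat_lit 228) (nat_lit 6253783394) (nat_lit 76) (nat_lit 131642619795) (nat_lit 88) (nat_lit 5) (nat_lit 91) (nat_lit 5) (nat_lit 89) (nat_lit 5) (nat_lit 459) (nat_lit 431) (nat_lit 310)) (XT.lf (nat_lit 0) (nat_lit 82389937566) (nat_lit 228) (nat_lit 10071154425) (nat_lit 76) (nat_lit 68714236151)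 (nat_lit 86) (nat_lit 5) (nat_lit 89) (nat_lit 5) (nat_lit 87) (nat_lit 5) (nat_lit 460) (nat_lit 431) (nat_lit 309))) (XT.nd (nat_lit 78) (nat_lit 152) (nat_lit 0) (XT.lf (nat_lit 0) (nat_lit 156405178355) (nat_lit 152) (nat_lit 1077212864) (nat_lit 228) (nat_lit 11880206172) (nat_lit 84) (nat_lit 5) (nat_lit 86) (nat_lit 5) (nat_lit 87) (nat_lit 5) (nat_lit 461) (nat_lit 431) (nat_lit 308)) (XT.lf (nat_lit 0) (nat_lit 62745122929) (nat_lit 152) (nat_lit 16985488606) (nat_lit 76) (nat_lit 98212094480) (nat_lit 82) (nat_lit 5) (nat_lit 84) (nat_lit 5) (nat_lit 83) (nat_lit 5) (nat_lit 462) (nat_lit 431) (nat_lit 307)))))) (XT.nd (nat_lit 624) (nat_lit 912) (nat_lit 0) (XT.nd (nat_lit 312) (nat_lit 532) (nat_lit 0) (XT.nd (nat_lit 156) (nat_lit 304) (nat_lit 0) (XT.nd (nat_lit 78) (nat_lit 152) (nat_lit 0) (XT.lf (nat_lit 0) (nat_lit 146120328800) (nat_lit 228) (nat_lit 20214024945) (nat_lit 76)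 (nat_lit 20705327988) (nat_lit 80) (nat_lit 5) (nat_lit 83) (nat_lit 5) (nat_lit 81) (nat_lit 4) (nat_lit 463) (nat_lit 431) (nat_lit 306)) (XT.lf (nat_lit 0) (nat_lit 42464222610) (nat_lit 152) (nat_lit 24037921898) (nat_lit 76) (nat_lit 130110542540) (nat_lit 78) (nat_lit 5) (nat_lit 80) (nat_lit 5) (nat_lit 79) (nat_lit 5) (nat_lit 464) (nat_lit 431) (nat_lit 305))) (XT.nd (nat_lit 78) (nat_lit 152) (nat_lit 0) (XT.lf (nat_lit 0) (nat_lit 134973560404) (nat_lit 228) (nat_lit 27841084242) (nat_lit 76) (nat_lit 43908913163) (nat_lit 76) (nat_lit 5) (nat_lit 79) (nat_lit 5) (nat_lit 77) (nat_lit 4) (nat_lit 465) (nat_lit 431) (nat_lit 304)) (XT.lf (nat_lit 0) (nat_lit 21212982181) (nat_lit 152) (nat_lit 31664072935) (nat_lit 76) (nat_lit 164526562930) (nat_lit 74) (nat_lit 5) (nat_lit 76) (nat_lit 5) (nat_lit 75) (nat_lit 5) (nat_lit 466) (nat_lit 431) (nat_lit 303)))) (XT.nd (nat_lit 156) (nat_lit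 304) (nat_lit 0) (XT.nd (nat_lit 78) (nat_lit 76) (nat_lit 0) (XT.lf (nat_lit 0) (nat_lit 123750838210) (nat_lit 228) (nat_lit 36348263260) (nat_lit 76) (nat_lit 68547589752) (nat_lit 72) (nat_lit 5) (nat_lit 75) (nat_lit 5) (nat_lit 73) (nat_lit 4) (nat_lit 467) (nat_lit 431) (nat_lit 302)) (XT.lf (nat_lit 0) (nat_lit 200047382720) (nat_lit 76) (nat_lit 39018916104) (nat_lit 152) (nat_lit 1494182639) (nat_lit 71) (nat_lit 5) (nat_lit 72) (nat_lit 5) (nat_lit 73) (nat_lit 4) (nat_lit 468) (nat_lit 431) (nat_lit 301))) (XT.nd (nat_lit 78) (nat_lit 76) (nat_lit 0) (XT.lf (nat_lit 0) (nat_lit 112070678404) (nat_lit 228) (nat_lit 46483204984) (nat_lit 76) (nat_lit 94516606267) (nat_lit 68) (nat_lit 5) (nat_lit 71) (nat_lit 5) (nat_lit 69) (nat_lit 4) (nat_lit 469) (nat_lit 431) (nat_lit 300)) (XT.lf (nat_lit 0) (nat_lit 214526220916) (nat_lit 76) (nat_lit 24866546187) (nat_lit 152) (nat_lit 26951087289)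 (nat_lit 67) (nat_lit 5) (nat_lit 68) (nat_lit 5) (nat_lit 69) (nat_lit 4) (nat_lit 470) (nat_lit 431) (nat_lit 299))))) (XT.nd (nat_lit 312) (nat_lit 456) (nat_lit 0) (XT.nd (nat_lit 156) (nat_lit 228) (nat_lit 0) (XT.nd (nat_lit 78) (nat_lit 76) (nat_lit 0) (XT.lf (nat_lit 0) (nat_lit 99407737617) (nat_lit 152) (nat_lit 59290084722) (nat_lit 76) (nat_lit 121592856940) (nat_lit 65) (nat_lit 5) (nat_lit 67) (nat_lit 5) (nat_lit 66) (nat_lit 4) (nat_lit 471) (nat_lit 431) (nat_lit 298)) (XT.lf (nat_lit 0) (nat_lit 228613501071) (nat_lit 76) (nat_lit 11235351021) (nat_lit 152) (nat_lit 55236416100) (nat_lit 64) (nat_lit 5) (nat_lit 65) (nat_lit 5) (nat_lit 66) (nat_lit 4) (nat_lit 472) (nat_lit 431) (nat_lit 297))) (XT.nd (nat_lit 78) (nat_lit 76) (nat_lit 0) (XT.lf (nat_lit 0) (nat_lit 85044668672) (nat_lit 152) (nat_lit 76208231917) (nat_lit 76) (nat_lit 149389805991) (nat_lit 62) (nat_lit 5)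 (nat_lit 64) (nat_lit 5) (nat_lit 63) (nat_lit 4) (nat_lit 473) (nat_lit 431) (nat_lit 296)) (XT.lf (nat_lit 0) (nat_lit 239785493834) (nat_lit 152) (nat_lit 86189256385) (nat_lit 0) (nat_lit 1166090651) (nat_lit 61) (nat_lit 5) (nat_lit 63) (nat_lit 4) (nat_lit 61) (nat_lit 4) (nat_lit 474) (nat_lit 431) (nat_lit 295)))) (XT.nd (nat_lit 156) (nat_lit 228) (nat_lit 0) (XT.nd (nat_lit 78) (nat_lit 76) (nat_lit 0) (XT.lf (nat_lit 0) (nat_lit 68009283155) (nat_lit 152) (nat_lit 99200875929) (nat_lit 76) (nat_lit 177298048340) (nat_lit 59) (nat_lit 5) (nat_lit 61) (nat_lit 5) (nat_lit 60) (nat_lit 4) (nat_lit 475) (nat_lit 431) (nat_lit 294)) (XT.lf (nat_lit 0) (nat_lit 238386834006) (nat_lit 152) (nat_lit 113394977215) (nat_lit 0) (nat_lit 11129336542) (nat_lit 58) (nat_lit 5) (nat_lit 60) (nat_lit 4) (nat_lit 58) (nat_lit 4) (nat_lit 476) (nat_lit 431) (nat_lit 293))) (XT.nd (nat_lit 78) (nat_lit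 76) (nat_lit 0) (XT.lf (nat_lit 0) (nat_lit 46992693159) (nat_lit 152) (nat_lit 130922887369) (nat_lit 76) (nat_lit 204407216035) (nat_lit 56) (nat_lit 5) (nat_lit 58) (nat_lit 5) (nat_lit 57) (nat_lit 4) (nat_lit 477) (nat_lit 431) (nat_lit 292)) (XT.lf (nat_lit 0) (nat_lit 234156620789) (nat_lit 152) (nat_lit 150994117826) (nat_lit 0) (nat_lit 17720155272) (nat_lit 55) (nat_lit 5) (nat_lit 57) (nat_lit 4) (nat_lit 55) (nat_lit 4) (nat_lit 478) (nat_lit 431) (nat_lit 291))))))) (XT.nd (nat_lit 1248) (nat_lit 836) (nat_lit 0) (XT.nd (nat_lit 624) (nat_lit 760) (nat_lit 0) (XT.nd (nat_lit 312) (nat_lit 456) (nat_lit 0) (XT.nd (nat_lit 156) (nat_lit 228) (nat_lit 0) (XT.nd (nat_lit 78) (nat_lit 76) (nat_lit 0) (XT.lf (nat_lit 0) (nat_lit 20242851086) (nat_lit 152) (nat_lit 174938956279) (nat_lit 76) (nat_lit 229403690208) (nat_lit 53) (nat_lit 5) (nat_lit 55) (nat_lit 5) (nat_lit 54) (nat_lit 4)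 (nat_lit 479) (nat_lit 431) (nat_lit 290)) (XT.lf (nat_lit 0) (nat_lit 225287863046) (nat_lit 152) (nat_lit 203109723392) (nat_lit 0) (nat_lit 19157280526) (nat_lit 52) (nat_lit 5) (nat_lit 54) (nat_lit 4) (nat_lit 52) (nat_lit 4) (nat_lit 480) (nat_lit 431) (nat_lit 289))) (XT.nd (nat_lit 78) (nat_lit 152) (nat_lit 0) (XT.lf (nat_lit 0) (nat_lit 235616448543) (nat_lit 76) (nat_lit 221186436679) (nat_lit 76) (nat_lit 15055580227) (nat_lit 51) (nat_lit 4) (nat_lit 52) (nat_lit 5) (nat_lit 52) (nat_lit 4) (nat_lit 481) (nat_lit 431) (nat_lit 288)) (XT.lf (nat_lit 0) (nat_lit 209332328239) (nat_lit 152) (nat_lit 275230076985) (nat_lit 0) (nat_lit 13016985293) (nat_lit 49) (nat_lit 5) (nat_lit 51) (nat_lit 4) (nat_lit 49) (nat_lit 4) (nat_lit 482) (nat_lit 431) (nat_lit 287)))) (XT.nd (nat_lit 156) (nat_lit 228) (nat_lit 0) (XT.nd (nat_lit 78) (nat_lit 152) (nat_lit 0) (XT.lf (nat_lit 0) (nat_lit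 203368813435) (nat_lit 76) (nat_lit 258868854255) (nat_lit 76) (nat_lit 62553287640) (nat_lit 48) (nat_lit 4) (nat_lit 49) (nat_lit 5) (nat_lit 49) (nat_lit 4) (nat_lit 483) (nat_lit 431) (nat_lit 286)) (XT.lf (nat_lit 0) (nat_lit 178963501535) (nat_lit 76) (nat_lit 4099559562) (nat_lit 152) (nat_lit 370591611606) (nat_lit 46) (nat_lit 5) (nat_lit 47) (nat_lit 5) (nat_lit 48) (nat_lit 4) (nat_lit 484) (nat_lit 431) (nat_lit 285))) (XT.nd (nat_lit 78) (nat_lit 152) (nat_lit 0) (XT.lf (nat_lit 0) (nat_lit 145590619925) (nat_lit 76) (nat_lit 312770979167) (nat_lit 76) (nat_lit 125803392998) (nat_lit 45) (nat_lit 4) (nat_lit 46) (nat_lit 5) (nat_lit 46) (nat_lit 4) (nat_lit 485) (nat_lit 431) (nat_lit 284)) (XT.lf (nat_lit 0) (nat_lit 105108763851) (nat_lit 76) (nat_lit 37367586938) (nat_lit 152) (nat_lit 474114439326) (nat_lit 43) (nat_lit 5) (nat_lit 44) (nat_lit 5) (nat_lit 45) (nat_lit 4) (nat_lit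 486) (nat_lit 431) (nat_lit 283))))) (XT.nd (nat_lit 312) (nat_lit 456) (nat_lit 0) (XT.nd (nat_lit 156) (nat_lit 152) (nat_lit 0) (XT.nd (nat_lit 78) (nat_lit 76) (nat_lit 0) (XT.lf (nat_lit 0) (nat_lit 52078100584) (nat_lit 76) (nat_lit 388429635894) (nat_lit 76) (nat_lit 210364957948) (nat_lit 42) (nat_lit 4) (nat_lit 43) (nat_lit 5) (nat_lit 43) (nat_lit 4) (nat_lit 487) (nat_lit 431) (nat_lit 282)) (XT.lf (nat_lit 0) (nat_lit 81785837642) (nat_lit 152) (nat_lit 10403848851) (nat_lit 76) (nat_lit 595165052800) (nat_lit 41) (nat_lit 5) (nat_lit 43) (nat_lit 5) (nat_lit 42) (nat_lit 4) (nat_lit 488) (nat_lit 431) (nat_lit 281))) (XT.nd (nat_lit 78) (nat_lit 76) (nat_lit 0) (XT.lf (nat_lit 0) (nat_lit 403839233391) (nat_lit 152) (nat_lit 87795076506) (nat_lit 0) (nat_lit 234253572567) (nat_lit 40) (nat_lit 5) (nat_lit 42) (nat_lit 4) (nat_lit 40) (nat_lit 4) (nat_lit 489) (nat_lit 431) (nat_lit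 280)) (XT.lf (nat_lit 0) (nat_lit 588627474358) (nat_lit 76) (nat_lit 173957779325) (nat_lit 76) (nat_lit 4372005763) (nat_lit 39) (nat_lit 4) (nat_lit 40) (nat_lit 5) (nat_lit 40) (nat_lit 4) (nat_lit 490) (nat_lit 431) (nat_lit 279)))) (XT.nd (nat_lit 156) (nat_lit 228) (nat_lit 0) (XT.nd (nat_lit 78) (nat_lit 76) (nat_lit 0) (XT.lf (nat_lit 0) (nat_lit 340475386744) (nat_lit 152) (nat_lit 290977468905) (nat_lit 0) (nat_lit 178965026792) (nat_lit 37) (nat_lit 5) (nat_lit 39) (nat_lit 4) (nat_lit 37) (nat_lit 4) (nat_lit 491) (nat_lit 431) (nat_lit 278)) (XT.lf (nat_lit 0) (nat_lit 433000243526) (nat_lit 76) (nat_lit 292609676982) (nat_lit 76) (nat_lit 131099224977) (nat_lit 36) (nat_lit 4) (nat_lit 37) (nat_lit 5) (nat_lit 37) (nat_lit 4) (nat_lit 492) (nat_lit 431) (nat_lit 277))) (XT.nd (nat_lit 78) (nat_lit 76) (nat_lit 0) (XT.lf (nat_lit 0) (nat_lit 238941064790) (nat_lit 152) (nat_lit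 581877491142) (nat_lit 0) (nat_lit 85121505516) (nat_lit 34) (nat_lit 5) (nat_lit 36) (nat_lit 4) (nat_lit 34) (nat_lit 4) (nat_lit 493) (nat_lit 431) (nat_lit 276)) (XT.lf (nat_lit 0) (nat_lit 186756918182) (nat_lit 76) (nat_lit 462647042746) (nat_lit 76) (nat_lit 308827408309) (nat_lit 33) (nat_lit 4) (nat_lit 34) (nat_lit 5) (nat_lit 34) (nat_lit 4) (nat_lit 494) (nat_lit 431) (nat_lit 275)))))) (XT.nd (nat_lit 624) (nat_lit 152) (nat_lit 0) (XT.nd (nat_lit 312) (nat_lit 304) (nat_lit 0) (XT.nd (nat_lit 156) (nat_lit 228) (nat_lit 0) (XT.nd (nat_lit 78) (nat_lit 0) (nat_lit 0) (XT.lf (nat_lit 0) (nat_lit 22806783646) (nat_lit 76) (nat_lit 63352478635) (nat_lit 152) (nat_lit 927952942309) (nat_lit 31) (nat_lit 5) (nat_lit 32) (nat_lit 5) (nat_lit 33) (nat_lit 4) (nat_lit 495) (nat_lit 431) (nat_lit 274)) (XT.lf (nat_lit 0) (nat_lit 521471941808) (nat_lit 152) (nat_lit 176784159361) (nat_lit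 0) (nat_lit 374976924216) (nat_lit 31) (nat_lit 5) (nat_lit 33) (nat_lit 4) (nat_lit 31) (nat_lit 4) (nat_lit 496) (nat_lit 431) (nat_lit 273))) (XT.nd (nat_lit 78) (nat_lit 152) (nat_lit 0) (XT.lf (nat_lit 0) (nat_lit 725035508554) (nat_lit 76) (nat_lit 278961845885) (nat_lit 76) (nat_lit 132466771469) (nat_lit 30) (nat_lit 4) (nat_lit 31) (nat_lit 5) (nat_lit 31) (nat_lit 4) (nat_lit 497) (nat_lit 431) (nat_lit 272)) (XT.lf (nat_lit 0) (nat_lit 324220394939) (nat_lit 152) (nat_lit 694876839431) (nat_lit 0) (nat_lit 184701226338) (nat_lit 28) (nat_lit 5) (nat_lit 30) (nat_lit 4) (nat_lit 28) (nat_lit 4) (nat_lit 498) (nat_lit 431) (nat_lit 271)))) (XT.nd (nat_lit 156) (nat_lit 152) (nat_lit 0) (XT.nd (nat_lit 78) (nat_lit 76) (nat_lit 0) (XT.lf (nat_lit 0) (nat_lit 242124550542) (nat_lit 76) (nat_lit 586507062008) (nat_lit 76) (nat_lit 446987847008) (nat_lit 27) (nat_lit 4) (nat_lit 28) (nat_lit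 5) (nat_lit 28) (nat_lit 4) (nat_lit 499) (nat_lit 431) (nat_lit 270)) (XT.lf (nat_lit 0) (nat_lit 31865167051) (nat_lit 152) (nat_lit 74195665505) (nat_lit 76) (nat_lit 1246494408800) (nat_lit 26) (nat_lit 5) (nat_lit 28) (nat_lit 5) (nat_lit 27) (nat_lit 4) (nat_lit 500) (nat_lit 431) (nat_lit 269))) (XT.nd (nat_lit 78) (nat_lit 76) (nat_lit 0) (XT.lf (nat_lit 0) (nat_lit 555788476413) (nat_lit 152) (nat_lit 455456954502) (nat_lit 0) (nat_lit 422912954756) (nat_lit 25) (nat_lit 5) (nat_lit 27) (nat_lit 4) (nat_lit 25) (nat_lit 4) (nat_lit 501) (nat_lit 431) (nat_lit 268)) (XT.lf (nat_lit 0) (nat_lit 614099494880) (nat_lit 76) (nat_lit 520215683496) (nat_lit 76) (nat_lit 387340126760) (nat_lit 24) (nat_lit 4) (nat_lit 25) (nat_lit 5) (nat_lit 25) (nat_lit 4) (nat_lit 502) (nat_lit 431) (nat_lit 267))))) (XT.nd (nat_lit 57096) (nat_lit 0) (nat_lit 10792) (XT.nd (nat_lit 56940) (nat_lit 0) (nat_lit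 10716) (XT.nd (nat_lit 78) (nat_lit 0) (nat_lit 0) (XT.lf (nat_lit 0) (nat_lit 149529713156) (nat_lit 152) (nat_lit 1442972438697) (nat_lit 0) (nat_lit 22981532951) (nat_lit 22) (nat_lit 5) (nat_lit 24) (nat_lit 4) (nat_lit 22) (nat_lit 4) (nat_lit 503) (nat_lit 431) (nat_lit 266)) (XT.lf (nat_lit 0) (nat_lit 740799763426) (nat_lit 152) (nat_lit 360198468214) (nat_lit 0) (nat_lit 614251554579) (nat_lit 22) (nat_lit 5) (nat_lit 24) (nat_lit 4) (nat_lit 22) (nat_lit 4) (nat_lit 504) (nat_lit 431) (nat_lit 265))) (XT.nd (nat_lit 78) (nat_lit 0) (nat_lit 76) (XT.lf (nat_lit 0) (nat_lit 10358404744) (nat_lit 836) (nat_lit 6735278923) (nat_lit 836) (nat_lit 6735278923) (nat_lit 163) (nat_lit 3) (nat_lit 174) (nat_lit 3) (nat_lit 174) (nat_lit 5) (nat_lit 432) (nat_lit 432) (nat_lit 336)) (XT.lf (nat_lit 0) (nat_lit 22037139481) (nat_lit 760) (nat_lit 24283152009) (nat_lit 836) (nat_lit 3219364380)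 (nat_lit 164) (nat_lit 5) (nat_lit 174) (nat_lit 5) (nat_lit 175) (nat_lit 5) (nat_lit 433) (nat_lit 432) (nat_lit 335)))) (XT.nd (nat_lit 156) (nat_lit 0) (nat_lit 152) (XT.nd (nat_lit 78) (nat_lit 0) (nat_lit 76) (XT.lf (nat_lit 76) (nat_lit 15929424649) (nat_lit 0) (nat_lit 8592867679) (nat_lit 836) (nat_lit 26996673205) (nat_lit 165) (nat_lit 5) (nat_lit 164) (nat_lit 5) (nat_lit 175) (nat_lit 5) (nat_lit 434) (nat_lit 432) (nat_lit 334)) (XT.lf (nat_lit 76) (nat_lit 6279956443) (nat_lit 0) (nat_lit 21952127175) (nat_lit 836) (nat_lit 25373245361) (nat_lit 166) (nat_lit 5) (nat_lit 165) (nat_lit 5) (nat_lit 176) (nat_lit 5) (nat_lit 435) (nat_lit 432) (nat_lit 333))) (XT.nd (nat_lit 78) (nat_lit 0) (nat_lit 76) (XT.lf (nat_lit 0) (nat_lit 33303605211) (nat_lit 760) (nat_lit 3509447801) (nat_lit 836) (nat_lit 18992301433) (nat_lit 166) (nat_lit 5) (nat_lit 176) (nat_lit 5) (nat_lit 177) (nat_lit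 5) (nat_lit 436) (nat_lit 432) (nat_lit 332)) (XT.lf (nat_lit 0) (nat_lit 39926540671) (nat_lit 760) (nat_lit 13331296525) (nat_lit 836) (nat_lit 4866260417) (nat_lit 167) (nat_lit 5) (nat_lit 177) (nat_lit 5) (nat_lit 178) (nat_lit 5) (nat_lit 437) (nat_lit 432) (nat_lit 331))))))))
noncomputable def xc91 : XT := (XT.nd (nat_lit 2496) (nat_lit 3420) (nat_lit 0) (XT.nd (nat_lit 1248) (nat_lit 2508) (nat_lit 0) (XT.nd (nat_lit 624) (nat_lit 2128) (nat_lit 0) (XT.nd (nat_lit 312) (nat_lit 1064) (nat_lit 0) (XT.nd (nat_lit 156) (nat_lit 912) (nat_lit 0) (XT.nd (nat_lit 78) (nat_lit 684) (nat_lit 0) (XT.lf (nat_lit 76) (nat_lit 37019654525) (nat_lit 0) (nat_lit 11317167541) (nat_lit 836) (nat_lit 12228642868) (nat_lit 168) (nat_lit 5) (nat_lit 167) (nat_lit 5) (nat_lit 178) (nat_lit 5) (nat_lit 438) (nat_lit 432) (nat_lit 330)) (XT.lf (nat_lit 0) (nat_lit 29077785981) (nat_lit 760) (nat_lit 29559534128)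 (nat_lit 836) (nat_lit 4503952059) (nat_lit 158) (nat_lit 5) (nat_lit 168) (nat_lit 5) (nat_lit 169) (nat_lit 5) (nat_lit 439) (nat_lit 432) (nat_lit 329))) (XT.nd (nat_lit 78) (nat_lit 380) (nat_lit 0) (XT.lf (nat_lit 0) (nat_lit 4912099651) (nat_lit 532) (nat_lit 44862775754) (nat_lit 76) (nat_lit 16085459705) (nat_lit 151) (nat_lit 5) (nat_lit 158) (nat_lit 5) (nat_lit 152) (nat_lit 5) (nat_lit 440) (nat_lit 432) (nat_lit 328)) (XT.lf (nat_lit 0) (nat_lit 12733292130) (nat_lit 380) (nat_lit 3489976957) (nat_lit 456) (nat_lit 52504980921) (nat_lit 146) (nat_lit 5) (nat_lit 151) (nat_lit 5) (nat_lit 152) (nat_lit 5) (nat_lit 441) (nat_lit 432) (nat_lit 327)))) (XT.nd (nat_lit 156) (nat_lit 684) (nat_lit 0) (XT.nd (nat_lit 78) (nat_lit 0) (nat_lit 0) (XT.lf (nat_lit 0) (nat_lit 4143614194) (nat_lit 380) (nat_lit 25878027391) (nat_lit 456) (nat_lit 41724841214) (nat_lit 141) (nat_lit 5) (nat_lit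 146) (nat_lit 5) (nat_lit 147) (nat_lit 5) (nat_lit 442) (nat_lit 432) (nat_lit 326)) (XT.lf (nat_lit 0) (nat_lit 46346182256) (nat_lit 456) (nat_lit 4316750701) (nat_lit 76) (nat_lit 24272126501) (nat_lit 141) (nat_lit 5) (nat_lit 147) (nat_lit 5) (nat_lit 142) (nat_lit 5) (nat_lit 443) (nat_lit 432) (nat_lit 325))) (XT.nd (nat_lit 78) (nat_lit 380) (nat_lit 0) (XT.lf (nat_lit 0) (nat_lit 65440487544) (nat_lit 380) (nat_lit 12613785564) (nat_lit 76) (nat_lit 251259227) (nat_lit 137) (nat_lit 5) (nat_lit 142) (nat_lit 5) (nat_lit 138) (nat_lit 5) (nat_lit 444) (nat_lit 432) (nat_lit 324)) (XT.lf (nat_lit 0) (nat_lit 5890238675) (nat_lit 380) (nat_lit 21352404895) (nat_lit 76) (nat_lit 54604520729) (nat_lit 132) (nat_lit 5) (nat_lit 137) (nat_lit 5) (nat_lit 133) (nat_lit 5) (nat_lit 445) (nat_lit 432) (nat_lit 323))))) (XT.nd (nat_lit 312) (nat_lit 912) (nat_lit 0) (XT.nd (nat_lit 156) (nat_lit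 608) (nat_lit 0) (XT.nd (nat_lit 78) (nat_lit 304) (nat_lit 0) (XT.lf (nat_lit 0) (nat_lit 27246680898) (nat_lit 380) (nat_lit 30255288614) (nat_lit 76) (nat_lit 28082039083) (nat_lit 128) (nat_lit 5) (nat_lit 133) (nat_lit 5) (nat_lit 129) (nat_lit 5) (nat_lit 446) (nat_lit 432) (nat_lit 322)) (XT.lf (nat_lit 0) (nat_lit 50452438141) (nat_lit 304) (nat_lit 1482332173) (nat_lit 380) (nat_lit 37603873648) (nat_lit 124) (nat_lit 5) (nat_lit 128) (nat_lit 5) (nat_lit 129) (nat_lit 5) (nat_lit 447) (nat_lit 432) (nat_lit 321))) (XT.nd (nat_lit 78) (nat_lit 380) (nat_lit 0) (XT.lf (nat_lit 0) (nat_lit 45435530119) (nat_lit 228) (nat_lit 35326995058) (nat_lit 304) (nat_lit 12938894170) (nat_lit 121) (nat_lit 5) (nat_lit 124) (nat_lit 5) (nat_lit 125) (nat_lit 5) (nat_lit 448) (nat_lit 432) (nat_lit 320)) (XT.lf (nat_lit 0) (nat_lit 15028445538) (nat_lit 380) (nat_lit 57519118021) (nat_lit 76) (nat_lit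 25550577864) (nat_lit 116) (nat_lit 5) (nat_lit 121) (nat_lit 5) (nat_lit 117) (nat_lit 5) (nat_lit 449) (nat_lit 432) (nat_lit 319)))) (XT.nd (nat_lit 156) (nat_lit 456) (nat_lit 0) (XT.nd (nat_lit 78) (nat_lit 228) (nat_lit 0) (XT.lf (nat_lit 0) (nat_lit 35765188154) (nat_lit 228) (nat_lit 11027629498) (nat_lit 304) (nat_lit 55942529994) (nat_lit 113) (nat_lit 5) (nat_lit 116) (nat_lit 5) (nat_lit 117) (nat_lit 5) (nat_lit 450) (nat_lit 432) (nat_lit 318)) (XT.lf (nat_lit 0) (nat_lit 30980391139) (nat_lit 228) (nat_lit 52483541616) (nat_lit 304) (nat_lit 24161318032) (nat_lit 110) (nat_lit 5) (nat_lit 113) (nat_lit 5) (nat_lit 114) (nat_lit 5) (nat_lit 451) (nat_lit 432) (nat_lit 317))) (XT.nd (nat_lit 78) (nat_lit 228) (nat_lit 0) (XT.lf (nat_lit 0) (nat_lit 11862609837) (nat_lit 228) (nat_lit 86243705861) (nat_lit 76) (nat_lit 14690823436) (nat_lit 107) (nat_lit 5) (nat_lit 110) (nat_lit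 5) (nat_lit 108) (nat_lit 5) (nat_lit 452) (nat_lit 432) (nat_lit 316)) (XT.lf (nat_lit 0) (nat_lit 21810038555) (nat_lit 228) (nat_lit 30704205985) (nat_lit 304) (nat_lit 65719115342) (nat_lit 104) (nat_lit 5) (nat_lit 107) (nat_lit 5) (nat_lit 108) (nat_lit 5) (nat_lit 453) (nat_lit 432) (nat_lit 315)))))) (XT.nd (nat_lit 624) (nat_lit 1140) (nat_lit 0) (XT.nd (nat_lit 312) (nat_lit 608) (nat_lit 0) (XT.nd (nat_lit 156) (nat_lit 304) (nat_lit 0) (XT.nd (nat_lit 78) (nat_lit 304) (nat_lit 0) (XT.lf (nat_lit 0) (nat_lit 17432378474) (nat_lit 152) (nat_lit 81440442461) (nat_lit 228) (nat_lit 25108916868) (nat_lit 102) (nat_lit 5) (nat_lit 104) (nat_lit 5) (nat_lit 105) (nat_lit 5) (nat_lit 454) (nat_lit 432) (nat_lit 314)) (XT.lf (nat_lit 0) (nat_lit 13319892481) (nat_lit 228) (nat_lit 7261553100) (nat_lit 304) (nat_lit 109472329936) (nat_lit 98) (nat_lit 5) (nat_lit 101) (nat_lit 5) (nat_lit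 102) (nat_lit 5) (nat_lit 455) (nat_lit 432) (nat_lit 313))) (XT.nd (nat_lit 78) (nat_lit 152) (nat_lit 0) (XT.lf (nat_lit 0) (nat_lit 8751471476) (nat_lit 152) (nat_lit 63466802355) (nat_lit 228) (nat_lit 64214174841) (nat_lit 96) (nat_lit 5) (nat_lit 98) (nat_lit 5) (nat_lit 99) (nat_lit 5) (nat_lit 456) (nat_lit 432) (nat_lit 312)) (XT.lf (nat_lit 0) (nat_lit 4977359557) (nat_lit 152) (nat_lit 125522825176) (nat_lit 228) (nat_lit 12695524172) (nat_lit 94) (nat_lit 5) (nat_lit 96) (nat_lit 5) (nat_lit 97) (nat_lit 5) (nat_lit 457) (nat_lit 432) (nat_lit 311)))) (XT.nd (nat_lit 156) (nat_lit 380) (nat_lit 0) (XT.nd (nat_lit 78) (nat_lit 0) (nat_lit 0) (XT.lf (nat_lit 0) (nat_lit 660966054) (nat_lit 152) (nat_lit 44248989783) (nat_lit 228) (nat_lit 105389558204) (nat_lit 91) (nat_lit 5) (nat_lit 93) (nat_lit 5) (nat_lit 94) (nat_lit 5) (nat_lit 458) (nat_lit 432) (nat_lit 310)) (XT.lf (nat_lit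 0) (nat_lit 109810564849) (nat_lit 228) (nat_lit 3200013259) (nat_lit 76) (nat_lit 44794065356) (nat_lit 91) (nat_lit 5) (nat_lit 94) (nat_lit 5) (nat_lit 92) (nat_lit 5) (nat_lit 459) (nat_lit 432) (nat_lit 309))) (XT.nd (nat_lit 78) (nat_lit 152) (nat_lit 0) (XT.lf (nat_lit 0) (nat_lit 16830370073) (nat_lit 228) (nat_lit 6715679740) (nat_lit 76) (nat_lit 142188950162) (nat_lit 88) (nat_lit 5) (nat_lit 91) (nat_lit 5) (nat_lit 89) (nat_lit 5) (nat_lit 460) (nat_lit 432) (nat_lit 308)) (XT.lf (nat_lit 0) (nat_lit 89002657207) (nat_lit 228) (nat_lit 10839286059) (nat_lit 76) (nat_lit 74226334299) (nat_lit 86) (nat_lit 5) (nat_lit 89) (nat_lit 5) (nat_lit 87) (nat_lit 5) (nat_lit 461) (nat_lit 432) (nat_lit 307))))) (XT.nd (nat_lit 312) (nat_lit 532) (nat_lit 0) (XT.nd (nat_lit 156) (nat_lit 304) (nat_lit 0) (XT.nd (nat_lit 78) (nat_lit 152) (nat_lit 0) (XT.lf (nat_lit 0) (nat_lit 168953521001)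 (nat_lit 152) (nat_lit 1147952677) (nat_lit 228) (nat_lit 12809106394) (nat_lit 84) (nat_lit 5) (nat_lit 86) (nat_lit 5) (nat_lit 87) (nat_lit 5) (nat_lit 462) (nat_lit 432) (nat_lit 306)) (XT.lf (nat_lit 0) (nat_lit 67784801680) (nat_lit 152) (nat_lit 18308546647) (nat_lit 76) (nat_lit 106083770236) (nat_lit 82) (nat_lit 5) (nat_lit 84) (nat_lit 5) (nat_lit 83) (nat_lit 5) (nat_lit 463) (nat_lit 432) (nat_lit 305))) (XT.nd (nat_lit 78) (nat_lit 152) (nat_lit 0) (XT.lf (nat_lit 0) (nat_lit 157829307698) (nat_lit 228) (nat_lit 21796200507) (nat_lit 76) (nat_lit 22376379985) (nat_lit 80) (nat_lit 5) (nat_lit 83) (nat_lit 5) (nat_lit 81) (nat_lit 4) (nat_lit 464) (nat_lit 432) (nat_lit 304)) (XT.lf (nat_lit 0) (nat_lit 45880104103) (nat_lit 152) (nat_lit 25926907797) (nat_lit 76) (nat_lit 140533752530) (nat_lit 78) (nat_lit 5) (nat_lit 80) (nat_lit 5) (nat_lit 79) (nat_lit 5) (nat_lit 465) (nat_lit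 432) (nat_lit 303)))) (XT.nd (nat_lit 156) (nat_lit 228) (nat_lit 0) (XT.nd (nat_lit 78) (nat_lit 152) (nat_lit 0) (XT.lf (nat_lit 0) (nat_lit 145789538558) (nat_lit 228) (nat_lit 30035138828) (nat_lit 76) (nat_lit 47435860014) (nat_lit 76) (nat_lit 5) (nat_lit 79) (nat_lit 5) (nat_lit 77) (nat_lit 4) (nat_lit 466) (nat_lit 432) (nat_lit 302)) (XT.lf (nat_lit 0) (nat_lit 22927553236) (nat_lit 152) (nat_lit 34164830818) (nat_lit 76) (nat_lit 177702646487) (nat_lit 74) (nat_lit 5) (nat_lit 76) (nat_lit 5) (nat_lit 75) (nat_lit 5) (nat_lit 467) (nat_lit 432) (nat_lit 301))) (XT.nd (nat_lit 78) (nat_lit 76) (nat_lit 0) (XT.lf (nat_lit 0) (nat_lit 133667844827) (nat_lit 228) (nat_lit 39224549270) (nat_lit 76) (nat_lit 74045185142) (nat_lit 72) (nat_lit 5) (nat_lit 75) (nat_lit 5) (nat_lit 73) (nat_lit 4) (nat_lit 468) (nat_lit 432) (nat_lit 300)) (XT.lf (nat_lit 0) (nat_lit 216081376175) (nat_lit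 76) (nat_lit 42126382885) (nat_lit 152) (nat_lit 1596752825) (nat_lit 71) (nat_lit 5) (nat_lit 72) (nat_lit 5) (nat_lit 73) (nat_lit 4) (nat_lit 469) (nat_lit 432) (nat_lit 299))))))) (XT.nd (nat_lit 1248) (nat_lit 1520) (nat_lit 0) (XT.nd (nat_lit 624) (nat_lit 912) (nat_lit 0) (XT.nd (nat_lit 312) (nat_lit 456) (nat_lit 0) (XT.nd (nat_lit 156) (nat_lit 228) (nat_lit 0) (XT.nd (nat_lit 78) (nat_lit 76) (nat_lit 0) (XT.lf (nat_lit 0) (nat_lit 121052211509) (nat_lit 228) (nat_lit 50171882651) (nat_lit 76) (nat_lit 102091240480) (nat_lit 68) (nat_lit 5) (nat_lit 71) (nat_lit 5) (nat_lit 69) (nat_lit 4) (nat_lit 470) (nat_lit 432) (nat_lit 298)) (XT.lf (nat_lit 0) (nat_lit 231716994482) (nat_lit 76) (nat_lit 26842344323) (nat_lit 152) (nat_lit 29091266195) (nat_lit 67) (nat_lit 5) (nat_lit 68) (nat_lit 5) (nat_lit 69) (nat_lit 4) (nat_lit 471) (nat_lit 432) (nat_lit 297))) (XT.nd (nat_lit 78) (nat_lit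 76) (nat_lit 0) (XT.lf (nat_lit 0) (nat_lit 107375257191) (nat_lit 152) (nat_lit 64004846127) (nat_lit 76) (nat_lit 131333085074) (nat_lit 65) (nat_lit 5) (nat_lit 67) (nat_lit 5) (nat_lit 66) (nat_lit 4) (nat_lit 472) (nat_lit 432) (nat_lit 296)) (XT.lf (nat_lit 0) (nat_lit 246929790328) (nat_lit 76) (nat_lit 12121191562) (nat_lit 152) (nat_lit 59640396489) (nat_lit 64) (nat_lit 5) (nat_lit 65) (nat_lit 5) (nat_lit 66) (nat_lit 4) (nat_lit 473) (nat_lit 432) (nat_lit 295)))) (XT.nd (nat_lit 156) (nat_lit 228) (nat_lit 0) (XT.nd (nat_lit 78) (nat_lit 76) (nat_lit 0) (XT.lf (nat_lit 0) (nat_lit 91862237940) (nat_lit 152) (nat_lit 82277914452) (nat_lit 76) (nat_lit 161353270762) (nat_lit 62) (nat_lit 5) (nat_lit 64) (nat_lit 5) (nat_lit 63) (nat_lit 4) (nat_lit 474) (nat_lit 432) (nat_lit 294)) (XT.lf (nat_lit 0) (nat_lit 258981889509) (nat_lit 152) (nat_lit 93058119225) (nat_lit 0) (nat_lit 1271421445)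 (nat_lit 61) (nat_lit 5) (nat_lit 63) (nat_lit 4) (nat_lit 61) (nat_lit 4) (nat_lit 475) (nat_lit 432) (nat_lit 293))) (XT.nd (nat_lit 78) (nat_lit 76) (nat_lit 0) (XT.lf (nat_lit 0) (nat_lit 73463182594) (nat_lit 152) (nat_lit 107111375172) (nat_lit 76) (nat_lit 191493648279) (nat_lit 59) (nat_lit 5) (nat_lit 61) (nat_lit 5) (nat_lit 60) (nat_lit 4) (nat_lit 476) (nat_lit 432) (nat_lit 292)) (XT.lf (nat_lit 0) (nat_lit 257470530540) (nat_lit 152) (nat_lit 122441673231) (nat_lit 0) (nat_lit 12031198199) (nat_lit 58) (nat_lit 5) (nat_lit 60) (nat_lit 4) (nat_lit 58) (nat_lit 4) (nat_lit 477) (nat_lit 432) (nat_lit 291))))) (XT.nd (nat_lit 312) (nat_lit 456) (nat_lit 0) (XT.nd (nat_lit 156) (nat_lit 228) (nat_lit 0) (XT.nd (nat_lit 78) (nat_lit 76) (nat_lit 0) (XT.lf (nat_lit 0) (nat_lit 50764485629) (nat_lit 152) (nat_lit 141372489065) (nat_lit 76) (nat_lit 220771026634) (nat_lit 56) (nat_lit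 5) (nat_lit 58) (nat_lit 5) (nat_lit 57) (nat_lit 4) (nat_lit 478) (nat_lit 432) (nat_lit 290)) (XT.lf (nat_lit 0) (nat_lit 252901149772) (nat_lit 152) (nat_lit 163050057003) (nat_lit 0) (nat_lit 19148758555) (nat_lit 55) (nat_lit 5) (nat_lit 57) (nat_lit 4) (nat_lit 55) (nat_lit 4) (nat_lit 479) (nat_lit 432) (nat_lit 289))) (XT.nd (nat_lit 78) (nat_lit 76) (nat_lit 0) (XT.lf (nat_lit 0) (nat_lit 21873929964) (nat_lit 152) (nat_lit 188911122419) (nat_lit 76) (nat_lit 247766702368) (nat_lit 53) (nat_lit 5) (nat_lit 55) (nat_lit 5) (nat_lit 54) (nat_lit 4) (nat_lit 480) (nat_lit 432) (nat_lit 288)) (XT.lf (nat_lit 0) (nat_lit 243322191575) (nat_lit 152) (nat_lit 219336160656) (nat_lit 0) (nat_lit 20700339034) (nat_lit 52) (nat_lit 5) (nat_lit 54) (nat_lit 4) (nat_lit 52) (nat_lit 4) (nat_lit 481) (nat_lit 432) (nat_lit 287)))) (XT.nd (nat_lit 156) (nat_lit 228) (nat_lit 0) (XT.nd (nat_lit 78)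 (nat_lit 152) (nat_lit 0) (XT.lf (nat_lit 0) (nat_lit 254487134138) (nat_lit 76) (nat_lit 238870778030) (nat_lit 76) (nat_lit 16248690635) (nat_lit 51) (nat_lit 4) (nat_lit 52) (nat_lit 5) (nat_lit 52) (nat_lit 4) (nat_lit 482) (nat_lit 432) (nat_lit 286)) (XT.lf (nat_lit 0) (nat_lit 226089560280) (nat_lit 152) (nat_lit 297227331557) (nat_lit 0) (nat_lit 14068317565) (nat_lit 49) (nat_lit 5) (nat_lit 51) (nat_lit 4) (nat_lit 49) (nat_lit 4) (nat_lit 483) (nat_lit 432) (nat_lit 285))) (XT.nd (nat_lit 78) (nat_lit 152) (nat_lit 0) (XT.lf (nat_lit 0) (nat_lit 219658550874) (nat_lit 76) (nat_lit 279568303320) (nat_lit 76) (nat_lit 67546868845) (nat_lit 48) (nat_lit 4) (nat_lit 49) (nat_lit 5) (nat_lit 49) (nat_lit 4) (nat_lit 484) (nat_lit 432) (nat_lit 284)) (XT.lf (nat_lit 0) (nat_lit 193300261832) (nat_lit 76) (nat_lit 4417725418) (nat_lit 152) (nat_lit 400228565152) (nat_lit 46) (nat_lit 5) (nat_lit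 47) (nat_lit 5) (nat_lit 48) (nat_lit 4) (nat_lit 485) (nat_lit 432) (nat_lit 283)))))) (XT.nd (nat_lit 624) (nat_lit 760) (nat_lit 0) (XT.nd (nat_lit 312) (nat_lit 380) (nat_lit 0) (XT.nd (nat_lit 156) (nat_lit 152) (nat_lit 0) (XT.nd (nat_lit 78) (nat_lit 152) (nat_lit 0) (XT.lf (nat_lit 0) (nat_lit 157257020722) (nat_lit 76) (nat_lit 337783096276) (nat_lit 76) (nat_lit 135857594910) (nat_lit 45) (nat_lit 4) (nat_lit 46) (nat_lit 5) (nat_lit 46) (nat_lit 4) (nat_lit 486) (nat_lit 432) (nat_lit 282)) (XT.lf (nat_lit 0) (nat_lit 113536092202) (nat_lit 76) (nat_lit 40347682697) (nat_lit 152) (nat_lit 512033812578) (nat_lit 43) (nat_lit 5) (nat_lit 44) (nat_lit 5) (nat_lit 45) (nat_lit 4) (nat_lit 487) (nat_lit 432) (nat_lit 281))) (XT.nd (nat_lit 78) (nat_lit 76) (nat_lit 0) (XT.lf (nat_lit 0) (nat_lit 56262472901) (nat_lit 76) (nat_lit 419494926040) (nat_lit 76) (nat_lit 227184658820) (nat_lit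 42) (nat_lit 4) (nat_lit 43) (nat_lit 5) (nat_lit 43) (nat_lit 4) (nat_lit 488) (nat_lit 432) (nat_lit 280)) (XT.lf (nat_lit 0) (nat_lit 88337215617) (nat_lit 152) (nat_lit 11219093579) (nat_lit 76) (nat_lit 642786383656) (nat_lit 41) (nat_lit 5) (nat_lit 43) (nat_lit 5) (nat_lit 42) (nat_lit 4) (nat_lit 489) (nat_lit 432) (nat_lit 279)))) (XT.nd (nat_lit 156) (nat_lit 228) (nat_lit 0) (XT.nd (nat_lit 78) (nat_lit 76) (nat_lit 0) (XT.lf (nat_lit 0) (nat_lit 436154635221) (nat_lit 152) (nat_lit 94802082001) (nat_lit 0) (nat_lit 253001782647) (nat_lit 40) (nat_lit 5) (nat_lit 42) (nat_lit 4) (nat_lit 40) (nat_lit 4) (nat_lit 490) (nat_lit 432) (nat_lit 278)) (XT.lf (nat_lit 0) (nat_lit 635733551489) (nat_lit 76) (nat_lit 187866421480) (nat_lit 76) (nat_lit 4713472251) (nat_lit 39) (nat_lit 4) (nat_lit 40) (nat_lit 5) (nat_lit 40) (nat_lit 4) (nat_lit 491) (nat_lit 432) (nat_lit 277))) (XT.nd (nat_lit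 78) (nat_lit 76) (nat_lit 0) (XT.lf (nat_lit 0) (nat_lit 367721213884) (nat_lit 152) (nat_lit 314239960882) (nat_lit 0) (nat_lit 193289748433) (nat_lit 37) (nat_lit 5) (nat_lit 39) (nat_lit 4) (nat_lit 37) (nat_lit 4) (nat_lit 492) (nat_lit 432) (nat_lit 276)) (XT.lf (nat_lit 0) (nat_lit 467655286000) (nat_lit 76) (nat_lit 316010881403) (nat_lit 76) (nat_lit 141579337032) (nat_lit 36) (nat_lit 4) (nat_lit 37) (nat_lit 5) (nat_lit 37) (nat_lit 4) (nat_lit 493) (nat_lit 432) (nat_lit 275))))) (XT.nd (nat_lit 312) (nat_lit 380) (nat_lit 0) (XT.nd (nat_lit 156) (nat_lit 152) (nat_lit 0) (XT.nd (nat_lit 78) (nat_lit 76) (nat_lit 0) (XT.lf (nat_lit 0) (nat_lit 258063707415) (nat_lit 152) (nat_lit 628412833587) (nat_lit 0) (nat_lit 91938357467) (nat_lit 34) (nat_lit 5) (nat_lit 36) (nat_lit 4) (nat_lit 34) (nat_lit 4) (nat_lit 494) (nat_lit 432) (nat_lit 274)) (XT.lf (nat_lit 0) (nat_lit 201711682823)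 (nat_lit 76) (nat_lit 499651629302) (nat_lit 76) (nat_lit 333526214914) (nat_lit 33) (nat_lit 4) (nat_lit 34) (nat_lit 5) (nat_lit 34) (nat_lit 4) (nat_lit 495) (nat_lit 432) (nat_lit 273))) (XT.nd (nat_lit 78) (nat_lit 0) (nat_lit 0) (XT.lf (nat_lit 0) (nat_lit 24645146069) (nat_lit 76) (nat_lit 68413693015) (nat_lit 152) (nat_lit 1002182000064) (nat_lit 31) (nat_lit 5) (nat_lit 32) (nat_lit 5) (nat_lit 33) (nat_lit 4) (nat_lit 496) (nat_lit 432) (nat_lit 272)) (XT.lf (nat_lit 0) (nat_lit 563196127577) (nat_lit 152) (nat_lit 190913880534) (nat_lit 0) (nat_lit 404981337767) (nat_lit 31) (nat_lit 5) (nat_lit 33) (nat_lit 4) (nat_lit 31) (nat_lit 4) (nat_lit 497) (nat_lit 432) (nat_lit 271)))) (XT.nd (nat_lit 156) (nat_lit 152) (nat_lit 0) (XT.nd (nat_lit 78) (nat_lit 152) (nat_lit 0) (XT.lf (nat_lit 0) (nat_lit 783050795348) (nat_lit 76) (nat_lit 301272495862) (nat_lit 76) (nat_lit 143057657334)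 (nat_lit 30) (nat_lit 4) (nat_lit 31) (nat_lit 5) (nat_lit 31) (nat_lit 4) (nat_lit 498) (nat_lit 432) (nat_lit 270)) (XT.lf (nat_lit 0) (nat_lit 350164097482) (nat_lit 152) (nat_lit 750454680598) (nat_lit 0) (nat_lit 199483255923) (nat_lit 28) (nat_lit 5) (nat_lit 30) (nat_lit 4) (nat_lit 28) (nat_lit 4) (nat_lit 499) (nat_lit 432) (nat_lit 269))) (XT.nd (nat_lit 78) (nat_lit 76) (nat_lit 0) (XT.lf (nat_lit 0) (nat_lit 261506285769) (nat_lit 76) (nat_lit 633421660813) (nat_lit 76) (nat_lit 482740779475) (nat_lit 27) (nat_lit 4) (nat_lit 28) (nat_lit 5) (nat_lit 28) (nat_lit 4) (nat_lit 500) (nat_lit 432) (nat_lit 268)) (XT.lf (nat_lit 0) (nat_lit 34419843569) (nat_lit 152) (nat_lit 80120238853) (nat_lit 76) (nat_lit 1346219305074) (nat_lit 26) (nat_lit 5) (nat_lit 28) (nat_lit 5) (nat_lit 27) (nat_lit 4) (nat_lit 501) (nat_lit 432) (nat_lit 267))))))))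
noncomputable def xc92 : XT := (XT.nd (nat_lit 59280) (nat_lit 0) (nat_lit 1292) (XT.nd (nat_lit 58032) (nat_lit 0) (nat_lit 5244) (XT.nd (nat_lit 57408) (nat_lit 0) (nat_lit 9044) (XT.nd (nat_lit 57096) (nat_lit 0) (nat_lit 10716) (XT.nd (nat_lit 78) (nat_lit 228) (nat_lit 0) (XT.lf (nat_lit 0) (nat_lit 600256862381) (nat_lit 152) (nat_lit 491882735190) (nat_lit 0) (nat_lit 456751193549) (nat_lit 25) (nat_lit 5) (nat_lit 27) (nat_lit 4) (nat_lit 25) (nat_lit 4) (nat_lit 502) (nat_lit 432) (nat_lit 266)) (XT.nd (nat_lit 78) (nat_lit 152) (nat_lit 0) (XT.lf (nat_lit 0) (nat_lit 663237761845) (nat_lit 76) (nat_lit 561827706409) (nat_lit 76) (nat_lit 418322007502) (nat_lit 24) (nat_lit 4) (nat_lit 25) (nat_lit 5) (nat_lit 25) (nat_lit 4) (nat_lit 503) (nat_lit 432) (nat_lit 265)) (XT.lf (nat_lit 0) (nat_lit 161497102839) (nat_lit 152) (nat_lit 1558400043988) (nat_lit 0) (nat_lit 24824982122) (nat_lit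 22) (nat_lit 5) (nat_lit 24) (nat_lit 4) (nat_lit 22) (nat_lit 4) (nat_lit 504) (nat_lit 432) (nat_lit 264)))) (XT.nd (nat_lit 156) (nat_lit 0) (nat_lit 76) (XT.nd (nat_lit 78) (nat_lit 0) (nat_lit 76) (XT.lf (nat_lit 0) (nat_lit 11230561883) (nat_lit 836) (nat_lit 7251270060) (nat_lit 836) (nat_lit 7251270060) (nat_lit 163) (nat_lit 3) (nat_lit 174) (nat_lit 3) (nat_lit 174) (nat_lit 5) (nat_lit 433) (nat_lit 433) (nat_lit 334)) (XT.lf (nat_lit 0) (nat_lit 23880733937) (nat_lit 760) (nat_lit 26177473599) (nat_lit 836) (nat_lit 3440583424) (nat_lit 164) (nat_lit 5) (nat_lit 174) (nat_lit 5) (nat_lit 175) (nat_lit 5) (nat_lit 434) (nat_lit 433) (nat_lit 333))) (XT.nd (nat_lit 78) (nat_lit 0) (nat_lit 76) (XT.lf (nat_lit 76) (nat_lit 17250008805) (nat_lit 0) (nat_lit 9309439894) (nat_lit 836) (nat_lit 29077259674) (nat_lit 165) (nat_lit 5) (nat_lit 164) (nat_lit 5) (nat_lit 175) (nat_lit 5) (nat_lit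 435) (nat_lit 433) (nat_lit 332)) (XT.lf (nat_lit 76) (nat_lit 6830619635) (nat_lit 0) (nat_lit 23730152754) (nat_lit 836) (nat_lit 27329471476) (nat_lit 166) (nat_lit 5) (nat_lit 165) (nat_lit 5) (nat_lit 176) (nat_lit 5) (nat_lit 436) (nat_lit 433) (nat_lit 331))))) (XT.nd (nat_lit 312) (nat_lit 1292) (nat_lit 0) (XT.nd (nat_lit 156) (nat_lit 608) (nat_lit 0) (XT.nd (nat_lit 78) (nat_lit 0) (nat_lit 76) (XT.lf (nat_lit 0) (nat_lit 36032505533) (nat_lit 760) (nat_lit 3741944984) (nat_lit 836) (nat_lit 20492096755) (nat_lit 166) (nat_lit 5) (nat_lit 176) (nat_lit 5) (nat_lit 177) (nat_lit 5) (nat_lit 437) (nat_lit 433) (nat_lit 330)) (XT.lf (nat_lit 0) (nat_lit 43180985878) (nat_lit 760) (nat_lit 14348382380) (nat_lit 836) (nat_lit 5241636499) (nat_lit 167) (nat_lit 5) (nat_lit 177) (nat_lit 5) (nat_lit 178) (nat_lit 5) (nat_lit 438) (nat_lit 433) (nat_lit 329))) (XT.nd (nat_lit 78) (nat_lit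 684) (nat_lit 0) (XT.lf (nat_lit 76) (nat_lit 40028497115) (nat_lit 0) (nat_lit 12231862398) (nat_lit 836) (nat_lit 13147508803) (nat_lit 168) (nat_lit 5) (nat_lit 167) (nat_lit 5) (nat_lit 178) (nat_lit 5) (nat_lit 439) (nat_lit 433) (nat_lit 328)) (XT.lf (nat_lit 0) (nat_lit 31452074650) (nat_lit 760) (nat_lit 31929246461) (nat_lit 836) (nat_lit 4808598144) (nat_lit 158) (nat_lit 5) (nat_lit 168) (nat_lit 5) (nat_lit 169) (nat_lit 5) (nat_lit 440) (nat_lit 433) (nat_lit 327)))) (XT.nd (nat_lit 156) (nat_lit 380) (nat_lit 0) (XT.nd (nat_lit 78) (nat_lit 380) (nat_lit 0) (XT.lf (nat_lit 0) (nat_lit 5355662526) (nat_lit 532) (nat_lit 48401531319) (nat_lit 76) (nat_lit 17369434874) (nat_lit 151) (nat_lit 5) (nat_lit 158) (nat_lit 5) (nat_lit 152) (nat_lit 5) (nat_lit 441) (nat_lit 433) (nat_lit 326)) (XT.lf (nat_lit 0) (nat_lit 13800037474) (nat_lit 380) (nat_lit 3768690966) (nat_lit 456) (nat_lit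 56655398478) (nat_lit 146) (nat_lit 5) (nat_lit 151) (nat_lit 5) (nat_lit 152) (nat_lit 5) (nat_lit 442) (nat_lit 433) (nat_lit 325))) (XT.nd (nat_lit 78) (nat_lit 0) (nat_lit 0) (XT.lf (nat_lit 0) (nat_lit 4523368012) (nat_lit 380) (nat_lit 27944837507) (nat_lit 456) (nat_lit 45015751313) (nat_lit 141) (nat_lit 5) (nat_lit 146) (nat_lit 5) (nat_lit 147) (nat_lit 5) (nat_lit 443) (nat_lit 433) (nat_lit 324)) (XT.lf (nat_lit 0) (nat_lit 50095438125) (nat_lit 456) (nat_lit 4615372526) (nat_lit 76) (nat_lit 26216972758) (nat_lit 141) (nat_lit 5) (nat_lit 147) (nat_lit 5) (nat_lit 142) (nat_lit 5) (nat_lit 444) (nat_lit 433) (nat_lit 323)))))) (XT.nd (nat_lit 624) (nat_lit 1444) (nat_lit 0) (XT.nd (nat_lit 312) (nat_lit 1064) (nat_lit 0) (XT.nd (nat_lit 156) (nat_lit 608) (nat_lit 0) (XT.nd (nat_lit 78) (nat_lit 380) (nat_lit 0) (XT.lf (nat_lit 0) (nat_lit 70714992914) (nat_lit 380) (nat_lit 13576324925)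 (nat_lit 76) (nat_lit 276691225) (nat_lit 137) (nat_lit 5) (nat_lit 142) (nat_lit 5) (nat_lit 138) (nat_lit 5) (nat_lit 445) (nat_lit 433) (nat_lit 322)) (XT.lf (nat_lit 0) (nat_lit 6399120612) (nat_lit 380) (nat_lit 23014809853) (nat_lit 76) (nat_lit 58979121597) (nat_lit 132) (nat_lit 5) (nat_lit 137) (nat_lit 5) (nat_lit 133) (nat_lit 5) (nat_lit 446) (nat_lit 433) (nat_lit 321))) (XT.nd (nat_lit 78) (nat_lit 304) (nat_lit 0) (XT.lf (nat_lit 0) (nat_lit 29462100837) (nat_lit 380) (nat_lit 32630262884) (nat_lit 76) (nat_lit 30336579216) (nat_lit 128) (nat_lit 5) (nat_lit 133) (nat_lit 5) (nat_lit 129) (nat_lit 5) (nat_lit 447) (nat_lit 433) (nat_lit 320)) (XT.lf (nat_lit 0) (nat_lit 54532106861) (nat_lit 304) (nat_lit 1591165922) (nat_lit 380) (nat_lit 40576774734) (nat_lit 124) (nat_lit 5) (nat_lit 128) (nat_lit 5) (nat_lit 129) (nat_lit 5) (nat_lit 448) (nat_lit 433) (nat_lit 319)))) (XT.nd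 (nat_lit 156) (nat_lit 456) (nat_lit 0) (XT.nd (nat_lit 78) (nat_lit 380) (nat_lit 0) (XT.lf (nat_lit 0) (nat_lit 49113425838) (nat_lit 228) (nat_lit 38142137530) (nat_lit 304) (nat_lit 13940365941) (nat_lit 121) (nat_lit 5) (nat_lit 124) (nat_lit 5) (nat_lit 125) (nat_lit 5) (nat_lit 449) (nat_lit 433) (nat_lit 318)) (XT.lf (nat_lit 0) (nat_lit 16261709300) (nat_lit 380) (nat_lit 62077069660) (nat_lit 76) (nat_lit 27605662803) (nat_lit 116) (nat_lit 5) (nat_lit 121) (nat_lit 5) (nat_lit 117) (nat_lit 5) (nat_lit 450) (nat_lit 433) (nat_lit 317))) (XT.nd (nat_lit 78) (nat_lit 228) (nat_lit 0) (XT.lf (nat_lit 0) (nat_lit 38668087171) (nat_lit 228) (nat_lit 11897499400) (nat_lit 304) (nat_lit 60387120261) (nat_lit 113) (nat_lit 5) (nat_lit 116) (nat_lit 5) (nat_lit 117) (nat_lit 5) (nat_lit 451) (nat_lit 433) (nat_lit 316)) (XT.lf (nat_lit 0) (nat_lit 33499915366) (nat_lit 228) (nat_lit 56669121897)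 (nat_lit 304) (nat_lit 26064832750) (nat_lit 110) (nat_lit 5) (nat_lit 113) (nat_lit 5) (nat_lit 114) (nat_lit 5) (nat_lit 452) (nat_lit 433) (nat_lit 315))))) (XT.nd (nat_lit 312) (nat_lit 532) (nat_lit 0) (XT.nd (nat_lit 156) (nat_lit 456) (nat_lit 0) (XT.nd (nat_lit 78) (nat_lit 228) (nat_lit 0) (XT.lf (nat_lit 0) (nat_lit 12838795691) (nat_lit 228) (nat_lit 93101851187) (nat_lit 76) (nat_lit 15878903348) (nat_lit 107) (nat_lit 5) (nat_lit 110) (nat_lit 5) (nat_lit 108) (nat_lit 5) (nat_lit 453) (nat_lit 433) (nat_lit 314)) (XT.lf (nat_lit 0) (nat_lit 23594395711) (nat_lit 228) (nat_lit 33146769892) (nat_lit 304) (nat_lit 70949572896) (nat_lit 104) (nat_lit 5) (nat_lit 107) (nat_lit 5) (nat_lit 108) (nat_lit 5) (nat_lit 454) (nat_lit 433) (nat_lit 313))) (XT.nd (nat_lit 78) (nat_lit 304) (nat_lit 0) (XT.lf (nat_lit 0) (nat_lit 18865832272) (nat_lit 152) (nat_lit 87941491967) (nat_lit 228)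 (nat_lit 27091717691) (nat_lit 102) (nat_lit 5) (nat_lit 104) (nat_lit 5) (nat_lit 105) (nat_lit 5) (nat_lit 455) (nat_lit 433) (nat_lit 312)) (XT.lf (nat_lit 0) (nat_lit 14423452683) (nat_lit 228) (nat_lit 7828326495) (nat_lit 304) (nat_lit 118205106587) (nat_lit 98) (nat_lit 5) (nat_lit 101) (nat_lit 5) (nat_lit 102) (nat_lit 5) (nat_lit 456) (nat_lit 433) (nat_lit 311)))) (XT.nd (nat_lit 156) (nat_lit 228) (nat_lit 0) (XT.nd (nat_lit 78) (nat_lit 152) (nat_lit 0) (XT.lf (nat_lit 0) (nat_lit 9488836587) (nat_lit 152) (nat_lit 68529738915) (nat_lit 228) (nat_lit 69327326247) (nat_lit 96) (nat_lit 5) (nat_lit 98) (nat_lit 5) (nat_lit 99) (nat_lit 5) (nat_lit 457) (nat_lit 433) (nat_lit 310)) (XT.lf (nat_lit 0) (nat_lit 5412054972) (nat_lit 152) (nat_lit 135550070721) (nat_lit 228) (nat_lit 13688142848) (nat_lit 94) (nat_lit 5) (nat_lit 96) (nat_lit 5) (nat_lit 97) (nat_lit 5) (nat_lit 458) (nat_lit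 433) (nat_lit 309))) (XT.nd (nat_lit 78) (nat_lit 0) (nat_lit 0) (XT.lf (nat_lit 0) (nat_lit 749469018) (nat_lit 152) (nat_lit 47774475032) (nat_lit 228) (nat_lit 113798470852) (nat_lit 91) (nat_lit 5) (nat_lit 93) (nat_lit 5) (nat_lit 94) (nat_lit 5) (nat_lit 459) (nat_lit 433) (nat_lit 308)) (XT.lf (nat_lit 0) (nat_lit 118615240684) (nat_lit 228) (nat_lit 3422254514) (nat_lit 76) (nat_lit 48390527583) (nat_lit 91) (nat_lit 5) (nat_lit 94) (nat_lit 5) (nat_lit 92) (nat_lit 5) (nat_lit 460) (nat_lit 433) (nat_lit 307))))))) (XT.nd (nat_lit 1248) (nat_lit 1672) (nat_lit 0) (XT.nd (nat_lit 624) (nat_lit 988) (nat_lit 0) (XT.nd (nat_lit 312) (nat_lit 608) (nat_lit 0) (XT.nd (nat_lit 156) (nat_lit 304) (nat_lit 0) (XT.nd (nat_lit 78) (nat_lit 152) (nat_lit 0) (XT.lf (nat_lit 0) (nat_lit 18195975406) (nat_lit 228) (nat_lit 7220006885) (nat_lit 76) (nat_lit 153576858342) (nat_lit 88) (nat_lit 5) (nat_lit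 91) (nat_lit 5) (nat_lit 89) (nat_lit 5) (nat_lit 461) (nat_lit 433) (nat_lit 306)) (XT.lf (nat_lit 0) (nat_lit 96141323689) (nat_lit 228) (nat_lit 11674226680) (nat_lit 76) (nat_lit 80177266194) (nat_lit 86) (nat_lit 5) (nat_lit 89) (nat_lit 5) (nat_lit 87) (nat_lit 5) (nat_lit 462) (nat_lit 433) (nat_lit 305))) (XT.nd (nat_lit 78) (nat_lit 152) (nat_lit 0) (XT.lf (nat_lit 0) (nat_lit 182500605474) (nat_lit 152) (nat_lit 1226553966) (nat_lit 228) (nat_lit 13815388170) (nat_lit 84) (nat_lit 5) (nat_lit 86) (nat_lit 5) (nat_lit 87) (nat_lit 5) (nat_lit 463) (nat_lit 433) (nat_lit 304)) (XT.lf (nat_lit 0) (nat_lit 73224791676) (nat_lit 152) (nat_lit 19742553898) (nat_lit 76) (nat_lit 114583081763) (nat_lit 82) (nat_lit 5) (nat_lit 84) (nat_lit 5) (nat_lit 83) (nat_lit 5) (nat_lit 464) (nat_lit 433) (nat_lit 303)))) (XT.nd (nat_lit 156) (nat_lit 304) (nat_lit 0) (XT.nd (nat_lit 78) (nat_lit 152)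 (nat_lit 0) (XT.lf (nat_lit 0) (nat_lit 170472244044) (nat_lit 228) (nat_lit 23509935613) (nat_lit 76) (nat_lit 24179029615) (nat_lit 80) (nat_lit 5) (nat_lit 83) (nat_lit 5) (nat_lit 81) (nat_lit 4) (nat_lit 465) (nat_lit 433) (nat_lit 302)) (XT.lf (nat_lit 0) (nat_lit 49566582120) (nat_lit 152) (nat_lit 27971869875) (nat_lit 76) (nat_lit 151788769765) (nat_lit 78) (nat_lit 5) (nat_lit 80) (nat_lit 5) (nat_lit 79) (nat_lit 5) (nat_lit 466) (nat_lit 433) (nat_lit 301))) (XT.nd (nat_lit 78) (nat_lit 152) (nat_lit 0) (XT.lf (nat_lit 0) (nat_lit 157468213749) (nat_lit 228) (nat_lit 32409458719) (nat_lit 76) (nat_lit 51242932003) (nat_lit 76) (nat_lit 5) (nat_lit 79) (nat_lit 5) (nat_lit 77) (nat_lit 4) (nat_lit 467) (nat_lit 433) (nat_lit 300)) (XT.lf (nat_lit 0) (nat_lit 24776788771) (nat_lit 152) (nat_lit 36870266981) (nat_lit 76) (nat_lit 191930825389) (nat_lit 74) (nat_lit 5) (nat_lit 76) (nat_lit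 5) (nat_lit 75) (nat_lit 5) (nat_lit 468) (nat_lit 433) (nat_lit 299))))) (XT.nd (nat_lit 312) (nat_lit 456) (nat_lit 0) (XT.nd (nat_lit 156) (nat_lit 304) (nat_lit 0) (XT.nd (nat_lit 78) (nat_lit 76) (nat_lit 0) (XT.lf (nat_lit 0) (nat_lit 144375795357) (nat_lit 228) (nat_lit 42335442696) (nat_lit 76) (nat_lit 79980621121) (nat_lit 72) (nat_lit 5) (nat_lit 75) (nat_lit 5) (nat_lit 73) (nat_lit 4) (nat_lit 469) (nat_lit 433) (nat_lit 298)) (XT.lf (nat_lit 0) (nat_lit 233393780333) (nat_lit 76) (nat_lit 45484450900) (nat_lit 152) (nat_lit 1709948791) (nat_lit 71) (nat_lit 5) (nat_lit 72) (nat_lit 5) (nat_lit 73) (nat_lit 4) (nat_lit 470) (nat_lit 433) (nat_lit 297))) (XT.nd (nat_lit 78) (nat_lit 76) (nat_lit 0) (XT.lf (nat_lit 0) (nat_lit 130750001969) (nat_lit 228) (nat_lit 54159931332) (nat_lit 76) (nat_lit 110269947222) (nat_lit 68) (nat_lit 5) (nat_lit 71) (nat_lit 5) (nat_lit 69) (nat_lit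 4) (nat_lit 471) (nat_lit 433) (nat_lit 296)) (XT.lf (nat_lit 0) (nat_lit 250278938997) (nat_lit 76) (nat_lit 28978135882) (nat_lit 152) (nat_lit 31404928878) (nat_lit 67) (nat_lit 5) (nat_lit 68) (nat_lit 5) (nat_lit 69) (nat_lit 4) (nat_lit 472) (nat_lit 433) (nat_lit 295)))) (XT.nd (nat_lit 156) (nat_lit 228) (nat_lit 0) (XT.nd (nat_lit 78) (nat_lit 76) (nat_lit 0) (XT.lf (nat_lit 0) (nat_lit 115978052599) (nat_lit 152) (nat_lit 69100846494) (nat_lit 76) (nat_lit 141850705456) (nat_lit 65) (nat_lit 5) (nat_lit 67) (nat_lit 5) (nat_lit 66) (nat_lit 4) (nat_lit 473) (nat_lit 433) (nat_lit 294)) (XT.lf (nat_lit 0) (nat_lit 266707501034) (nat_lit 76) (nat_lit 13079752164) (nat_lit 152) (nat_lit 64398825655) (nat_lit 64) (nat_lit 5) (nat_lit 65) (nat_lit 5) (nat_lit 66) (nat_lit 4) (nat_lit 474) (nat_lit 433) (nat_lit 293))) (XT.nd (nat_lit 78) (nat_lit 76) (nat_lit 0) (XT.lf (nat_lit 0) (nat_lit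 99223216096) (nat_lit 152) (nat_lit 88837020020) (nat_lit 76) (nat_lit 174272060793) (nat_lit 62) (nat_lit 5) (nat_lit 64) (nat_lit 5) (nat_lit 63) (nat_lit 4) (nat_lit 475) (nat_lit 433) (nat_lit 292)) (XT.lf (nat_lit 0) (nat_lit 279712062900) (nat_lit 152) (nat_lit 100480239896) (nat_lit 0) (nat_lit 1383460556) (nat_lit 61) (nat_lit 5) (nat_lit 63) (nat_lit 4) (nat_lit 61) (nat_lit 4) (nat_lit 476) (nat_lit 433) (nat_lit 291)))))) (XT.nd (nat_lit 624) (nat_lit 760) (nat_lit 0) (XT.nd (nat_lit 312) (nat_lit 456) (nat_lit 0) (XT.nd (nat_lit 156) (nat_lit 228) (nat_lit 0) (XT.nd (nat_lit 78) (nat_lit 76) (nat_lit 0) (XT.lf (nat_lit 0) (nat_lit 79351517025) (nat_lit 152) (nat_lit 115658362319) (nat_lit 76) (nat_lit 206823219078) (nat_lit 59) (nat_lit 5) (nat_lit 61) (nat_lit 5) (nat_lit 60) (nat_lit 4) (nat_lit 477) (nat_lit 433) (nat_lit 290)) (XT.lf (nat_lit 0) (nat_lit 278079103893) (nat_lit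 152) (nat_lit 132215657500) (nat_lit 0) (nat_lit 13003566082) (nat_lit 58) (nat_lit 5) (nat_lit 60) (nat_lit 4) (nat_lit 58) (nat_lit 4) (nat_lit 478) (nat_lit 433) (nat_lit 289))) (XT.nd (nat_lit 78) (nat_lit 76) (nat_lit 0) (XT.lf (nat_lit 0) (nat_lit 54836255777) (nat_lit 152) (nat_lit 152661515477) (nat_lit 76) (nat_lit 238442339522) (nat_lit 56) (nat_lit 5) (nat_lit 58) (nat_lit 5) (nat_lit 57) (nat_lit 4) (nat_lit 479) (nat_lit 433) (nat_lit 288)) (XT.lf (nat_lit 0) (nat_lit 273143529237) (nat_lit 152) (nat_lit 176073836727) (nat_lit 0) (nat_lit 20690082132) (nat_lit 55) (nat_lit 5) (nat_lit 57) (nat_lit 4) (nat_lit 55) (nat_lit 4) (nat_lit 480) (nat_lit 433) (nat_lit 287)))) (XT.nd (nat_lit 156) (nat_lit 228) (nat_lit 0) (XT.nd (nat_lit 78) (nat_lit 76) (nat_lit 0) (XT.lf (nat_lit 0) (nat_lit 23633833036) (nat_lit 152) (nat_lit 204004335976) (nat_lit 76) (nat_lit 267597226609) (nat_lit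 53) (nat_lit 5) (nat_lit 55) (nat_lit 5) (nat_lit 54) (nat_lit 4) (nat_lit 481) (nat_lit 433) (nat_lit 286)) (XT.lf (nat_lit 0) (nat_lit 262797654389) (nat_lit 152) (nat_lit 236863900039) (nat_lit 0) (nat_lit 22365347694) (nat_lit 52) (nat_lit 5) (nat_lit 54) (nat_lit 4) (nat_lit 52) (nat_lit 4) (nat_lit 482) (nat_lit 433) (nat_lit 285))) (XT.nd (nat_lit 78) (nat_lit 152) (nat_lit 0) (XT.lf (nat_lit 0) (nat_lit 274864425953) (nat_lit 76) (nat_lit 257971375128) (nat_lit 76) (nat_lit 17538867084) (nat_lit 51) (nat_lit 4) (nat_lit 52) (nat_lit 5) (nat_lit 52) (nat_lit 4) (nat_lit 483) (nat_lit 433) (nat_lit 284)) (XT.lf (nat_lit 0) (nat_lit 244185852144) (nat_lit 152) (nat_lit 320987384006) (nat_lit 0) (nat_lit 15202333595) (nat_lit 49) (nat_lit 5) (nat_lit 51) (nat_lit 4) (nat_lit 49) (nat_lit 4) (nat_lit 484) (nat_lit 433) (nat_lit 283))))) (XT.nd (nat_lit 312) (nat_lit 304) (nat_lit 0) (XT.nd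 (nat_lit 156) (nat_lit 228) (nat_lit 0) (XT.nd (nat_lit 78) (nat_lit 152) (nat_lit 0) (XT.lf (nat_lit 0) (nat_lit 237248580936) (nat_lit 76) (nat_lit 301925143379) (nat_lit 76) (nat_lit 72941460426) (nat_lit 48) (nat_lit 4) (nat_lit 49) (nat_lit 5) (nat_lit 49) (nat_lit 4) (nat_lit 485) (nat_lit 433) (nat_lit 282)) (XT.lf (nat_lit 0) (nat_lit 208781155355) (nat_lit 76) (nat_lit 4762742465) (nat_lit 152) (nat_lit 432237955146) (nat_lit 46) (nat_lit 5) (nat_lit 47) (nat_lit 5) (nat_lit 48) (nat_lit 4) (nat_lit 486) (nat_lit 433) (nat_lit 281))) (XT.nd (nat_lit 78) (nat_lit 152) (nat_lit 0) (XT.lf (nat_lit 0) (nat_lit 169854001449) (nat_lit 76) (nat_lit 364797546770) (nat_lit 76) (nat_lit 146717569505) (nat_lit 45) (nat_lit 4) (nat_lit 46) (nat_lit 5) (nat_lit 46) (nat_lit 4) (nat_lit 487) (nat_lit 433) (nat_lit 280)) (XT.lf (nat_lit 0) (nat_lit 122634949436) (nat_lit 76) (nat_lit 43567514463) (nat_lit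 152) (nat_lit 552988131187) (nat_lit 43) (nat_lit 5) (nat_lit 44) (nat_lit 5) (nat_lit 45) (nat_lit 4) (nat_lit 488) (nat_lit 433) (nat_lit 279)))) (XT.nd (nat_lit 156) (nat_lit 152) (nat_lit 0) (XT.nd (nat_lit 78) (nat_lit 76) (nat_lit 0) (XT.lf (nat_lit 0) (nat_lit 60779009375) (nat_lit 76) (nat_lit 453046734864) (nat_lit 76) (nat_lit 245351290439) (nat_lit 42) (nat_lit 4) (nat_lit 43) (nat_lit 5) (nat_lit 43) (nat_lit 4) (nat_lit 489) (nat_lit 433) (nat_lit 278)) (XT.lf (nat_lit 0) (nat_lit 95411489645) (nat_lit 152) (nat_lit 12101992139) (nat_lit 76) (nat_lit 694216261626) (nat_lit 41) (nat_lit 5) (nat_lit 43) (nat_lit 5) (nat_lit 42) (nat_lit 4) (nat_lit 490) (nat_lit 433) (nat_lit 277))) (XT.nd (nat_lit 78) (nat_lit 76) (nat_lit 0) (XT.lf (nat_lit 0) (nat_lit 471054090365) (nat_lit 152) (nat_lit 102372016200) (nat_lit 0) (nat_lit 273248719048) (nat_lit 40) (nat_lit 5) (nat_lit 42) (nat_lit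 4) (nat_lit 40) (nat_lit 4) (nat_lit 491) (nat_lit 433) (nat_lit 276)) (XT.lf (nat_lit 0) (nat_lit 686605849448) (nat_lit 76) (nat_lit 202888893470) (nat_lit 76) (nat_lit 5083439287) (nat_lit 39) (nat_lit 4) (nat_lit 40) (nat_lit 5) (nat_lit 40) (nat_lit 4) (nat_lit 492) (nat_lit 433) (nat_lit 275))))))))
noncomputable def xc93 : XT := (XT.nd (nat_lit 59436) (nat_lit 0) (nat_lit 1900) (XT.nd (nat_lit 58188) (nat_lit 0) (nat_lit 6536) (XT.nd (nat_lit 624) (nat_lit 304) (nat_lit 0) (XT.nd (nat_lit 312) (nat_lit 380) (nat_lit 0) (XT.nd (nat_lit 156) (nat_lit 228) (nat_lit 0) (XT.nd (nat_lit 78) (nat_lit 76) (nat_lit 0) (XT.lf (nat_lit 0) (nat_lit 397145594980) (nat_lit 152) (nat_lit 339365692788) (nat_lit 0) (nat_lit 208759375064) (nat_lit 37) (nat_lit 5) (nat_lit 39) (nat_lit 4) (nat_lit 37) (nat_lit 4) (nat_lit 493) (nat_lit 433) (nat_lit 274)) (XT.lf (nat_lit 0) (nat_lit 505080588674) (nat_lit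 76) (nat_lit 341285262086) (nat_lit 76) (nat_lit 152898974509) (nat_lit 36) (nat_lit 4) (nat_lit 37) (nat_lit 5) (nat_lit 37) (nat_lit 4) (nat_lit 494) (nat_lit 433) (nat_lit 273))) (XT.nd (nat_lit 78) (nat_lit 76) (nat_lit 0) (XT.lf (nat_lit 0) (nat_lit 278715111829) (nat_lit 152) (nat_lit 678673122922) (nat_lit 0) (nat_lit 99299540185) (nat_lit 34) (nat_lit 5) (nat_lit 36) (nat_lit 4) (nat_lit 34) (nat_lit 4) (nat_lit 495) (nat_lit 433) (nat_lit 272)) (XT.lf (nat_lit 0) (nat_lit 217860801251) (nat_lit 76) (nat_lit 539617606642) (nat_lit 76) (nat_lit 360201979752) (nat_lit 33) (nat_lit 4) (nat_lit 34) (nat_lit 5) (nat_lit 34) (nat_lit 4) (nat_lit 496) (nat_lit 433) (nat_lit 271)))) (XT.nd (nat_lit 156) (nat_lit 228) (nat_lit 0) (XT.nd (nat_lit 78) (nat_lit 0) (nat_lit 0) (XT.lf (nat_lit 0) (nat_lit 26628605946) (nat_lit 76) (nat_lit 73880800878) (nat_lit 152) (nat_lit 1082350406409) (nat_lit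 31) (nat_lit 5) (nat_lit 32) (nat_lit 5) (nat_lit 33) (nat_lit 4) (nat_lit 497) (nat_lit 433) (nat_lit 270)) (XT.lf (nat_lit 0) (nat_lit 608257330835) (nat_lit 152) (nat_lit 206175835647) (nat_lit 0) (nat_lit 437385211398) (nat_lit 31) (nat_lit 5) (nat_lit 33) (nat_lit 4) (nat_lit 31) (nat_lit 4) (nat_lit 498) (nat_lit 433) (nat_lit 269))) (XT.nd (nat_lit 78) (nat_lit 152) (nat_lit 0) (XT.lf (nat_lit 0) (nat_lit 845705529508) (nat_lit 76) (nat_lit 325368896274) (nat_lit 76) (nat_lit 154496735069) (nat_lit 30) (nat_lit 4) (nat_lit 31) (nat_lit 5) (nat_lit 31) (nat_lit 4) (nat_lit 499) (nat_lit 433) (nat_lit 268)) (XT.lf (nat_lit 0) (nat_lit 378182430140) (nat_lit 152) (nat_lit 810480504645) (nat_lit 0) (nat_lit 215447001684) (nat_lit 28) (nat_lit 5) (nat_lit 30) (nat_lit 4) (nat_lit 28) (nat_lit 4) (nat_lit 500) (nat_lit 433) (nat_lit 267))))) (XT.nd (nat_lit 57252) (nat_lit 0) (nat_lit 10564)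 (XT.nd (nat_lit 156) (nat_lit 152) (nat_lit 0) (XT.nd (nat_lit 78) (nat_lit 76) (nat_lit 0) (XT.lf (nat_lit 0) (nat_lit 282436880524) (nat_lit 76) (nat_lit 684090278662) (nat_lit 76) (nat_lit 521354816102) (nat_lit 27) (nat_lit 4) (nat_lit 28) (nat_lit 5) (nat_lit 28) (nat_lit 4) (nat_lit 501) (nat_lit 433) (nat_lit 266)) (XT.lf (nat_lit 0) (nat_lit 37178114828) (nat_lit 152) (nat_lit 86520358739) (nat_lit 76) (nat_lit 1453921430730) (nat_lit 26) (nat_lit 5) (nat_lit 28) (nat_lit 5) (nat_lit 27) (nat_lit 4) (nat_lit 502) (nat_lit 433) (nat_lit 265))) (XT.nd (nat_lit 78) (nat_lit 76) (nat_lit 0) (XT.lf (nat_lit 0) (nat_lit 648281962003) (nat_lit 152) (nat_lit 531224115603) (nat_lit 0) (nat_lit 493295749263) (nat_lit 25) (nat_lit 5) (nat_lit 27) (nat_lit 4) (nat_lit 25) (nat_lit 4) (nat_lit 503) (nat_lit 433) (nat_lit 264)) (XT.lf (nat_lit 0) (nat_lit 716305619705) (nat_lit 76) (nat_lit 606769437526)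 (nat_lit 76) (nat_lit 451783199002) (nat_lit 24) (nat_lit 4) (nat_lit 25) (nat_lit 5) (nat_lit 25) (nat_lit 4) (nat_lit 504) (nat_lit 433) (nat_lit 263)))) (XT.nd (nat_lit 156) (nat_lit 0) (nat_lit 76) (XT.nd (nat_lit 78) (nat_lit 0) (nat_lit 76) (XT.lf (nat_lit 0) (nat_lit 12166288006) (nat_lit 836) (nat_lit 7811797611) (nat_lit 836) (nat_lit 7811797611) (nat_lit 163) (nat_lit 3) (nat_lit 174) (nat_lit 3) (nat_lit 174) (nat_lit 5) (nat_lit 434) (nat_lit 434) (nat_lit 332)) (XT.lf (nat_lit 0) (nat_lit 25860314135) (nat_lit 760) (nat_lit 28230235812) (nat_lit 836) (nat_lit 3684682887) (nat_lit 164) (nat_lit 5) (nat_lit 174) (nat_lit 5) (nat_lit 175) (nat_lit 5) (nat_lit 435) (nat_lit 434) (nat_lit 331))) (XT.nd (nat_lit 78) (nat_lit 0) (nat_lit 76) (XT.lf (nat_lit 76) (nat_lit 18669644440) (nat_lit 0) (nat_lit 10079180340) (nat_lit 836) (nat_lit 31335584319) (nat_lit 165) (nat_lit 5) (nat_lit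 164) (nat_lit 5) (nat_lit 175) (nat_lit 5) (nat_lit 436) (nat_lit 434) (nat_lit 330)) (XT.lf (nat_lit 76) (nat_lit 7418450101) (nat_lit 0) (nat_lit 25647302462) (nat_lit 836) (nat_lit 29452700325) (nat_lit 166) (nat_lit 5) (nat_lit 165) (nat_lit 5) (nat_lit 176) (nat_lit 5) (nat_lit 437) (nat_lit 434) (nat_lit 329)))))) (XT.nd (nat_lit 624) (nat_lit 2356) (nat_lit 0) (XT.nd (nat_lit 312) (nat_lit 1292) (nat_lit 0) (XT.nd (nat_lit 156) (nat_lit 608) (nat_lit 0) (XT.nd (nat_lit 78) (nat_lit 0) (nat_lit 76) (XT.lf (nat_lit 0) (nat_lit 38970500270) (nat_lit 760) (nat_lit 3999926576) (nat_lit 836) (nat_lit 22114670263) (nat_lit 166) (nat_lit 5) (nat_lit 176) (nat_lit 5) (nat_lit 177) (nat_lit 5) (nat_lit 438) (nat_lit 434) (nat_lit 328)) (XT.lf (nat_lit 0) (nat_lit 46687181101) (nat_lit 760) (nat_lit 15453885113) (nat_lit 836) (nat_lit 5649029189) (nat_lit 167) (nat_lit 5) (nat_lit 177) (nat_lit 5)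 (nat_lit 178) (nat_lit 5) (nat_lit 439) (nat_lit 434) (nat_lit 327))) (XT.nd (nat_lit 78) (nat_lit 684) (nat_lit 0) (XT.lf (nat_lit 76) (nat_lit 43271303485) (nat_lit 0) (nat_lit 13218403034) (nat_lit 836) (nat_lit 14148361723) (nat_lit 168) (nat_lit 5) (nat_lit 167) (nat_lit 5) (nat_lit 178) (nat_lit 5) (nat_lit 440) (nat_lit 434) (nat_lit 326)) (XT.lf (nat_lit 0) (nat_lit 34009449290) (nat_lit 760) (nat_lit 34487829664) (nat_lit 836) (nat_lit 5145557876) (nat_lit 158) (nat_lit 5) (nat_lit 168) (nat_lit 5) (nat_lit 169) (nat_lit 5) (nat_lit 441) (nat_lit 434) (nat_lit 325)))) (XT.nd (nat_lit 156) (nat_lit 380) (nat_lit 0) (XT.nd (nat_lit 78) (nat_lit 380) (nat_lit 0) (XT.lf (nat_lit 0) (nat_lit 5827492502) (nat_lit 532) (nat_lit 52230558407) (nat_lit 76) (nat_lit 18756536298) (nat_lit 151) (nat_lit 5) (nat_lit 158) (nat_lit 5) (nat_lit 152) (nat_lit 5) (nat_lit 442) (nat_lit 434) (nat_lit 324))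 (XT.lf (nat_lit 0) (nat_lit 14945263015) (nat_lit 380) (nat_lit 4069771165) (nat_lit 456) (nat_lit 61144979777) (nat_lit 146) (nat_lit 5) (nat_lit 151) (nat_lit 5) (nat_lit 152) (nat_lit 5) (nat_lit 443) (nat_lit 434) (nat_lit 323))) (XT.nd (nat_lit 78) (nat_lit 0) (nat_lit 0) (XT.lf (nat_lit 0) (nat_lit 4926616639) (nat_lit 380) (nat_lit 30177482056) (nat_lit 456) (nat_lit 48576650307) (nat_lit 141) (nat_lit 5) (nat_lit 146) (nat_lit 5) (nat_lit 147) (nat_lit 5) (nat_lit 444) (nat_lit 434) (nat_lit 322)) (XT.lf (nat_lit 0) (nat_lit 54138705282) (nat_lit 456) (nat_lit 4944548974) (nat_lit 76) (nat_lit 28316967870) (nat_lit 141) (nat_lit 5) (nat_lit 147) (nat_lit 5) (nat_lit 142) (nat_lit 5) (nat_lit 445) (nat_lit 434) (nat_lit 321))))) (XT.nd (nat_lit 312) (nat_lit 1064) (nat_lit 0) (XT.nd (nat_lit 156) (nat_lit 608) (nat_lit 0) (XT.nd (nat_lit 78) (nat_lit 380) (nat_lit 0) (XT.lf (nat_lit 0)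 (nat_lit 76405856928) (nat_lit 380) (nat_lit 14622510237) (nat_lit 76) (nat_lit 303397219) (nat_lit 137) (nat_lit 5) (nat_lit 142) (nat_lit 5) (nat_lit 138) (nat_lit 5) (nat_lit 446) (nat_lit 434) (nat_lit 320)) (XT.lf (nat_lit 0) (nat_lit 6943340078) (nat_lit 380) (nat_lit 24816739297) (nat_lit 76) (nat_lit 63702800442) (nat_lit 132) (nat_lit 5) (nat_lit 137) (nat_lit 5) (nat_lit 133) (nat_lit 5) (nat_lit 447) (nat_lit 434) (nat_lit 319))) (XT.nd (nat_lit 78) (nat_lit 304) (nat_lit 0) (XT.lf (nat_lit 0) (nat_lit 31849663440) (nat_lit 380) (nat_lit 35201718878) (nat_lit 76) (nat_lit 32770344551) (nat_lit 128) (nat_lit 5) (nat_lit 133) (nat_lit 5) (nat_lit 129) (nat_lit 5) (nat_lit 448) (nat_lit 434) (nat_lit 318)) (XT.lf (nat_lit 0) (nat_lit 58931947074) (nat_lit 304) (nat_lit 1710097721) (nat_lit 380) (nat_lit 43792559368) (nat_lit 124) (nat_lit 5) (nat_lit 128) (nat_lit 5) (nat_lit 129) (nat_lit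 5) (nat_lit 449) (nat_lit 434) (nat_lit 317)))) (XT.nd (nat_lit 156) (nat_lit 456) (nat_lit 0) (XT.nd (nat_lit 78) (nat_lit 380) (nat_lit 0) (XT.lf (nat_lit 0) (nat_lit 53079411179) (nat_lit 228) (nat_lit 41184063117) (nat_lit 304) (nat_lit 15026754541) (nat_lit 121) (nat_lit 5) (nat_lit 124) (nat_lit 5) (nat_lit 125) (nat_lit 5) (nat_lit 450) (nat_lit 434) (nat_lit 316)) (XT.lf (nat_lit 0) (nat_lit 17589213362) (nat_lit 380) (nat_lit 67005874291) (nat_lit 76) (nat_lit 29823579742) (nat_lit 116) (nat_lit 5) (nat_lit 121) (nat_lit 5) (nat_lit 117) (nat_lit 5) (nat_lit 451) (nat_lit 434) (nat_lit 315))) (XT.nd (nat_lit 78) (nat_lit 228) (nat_lit 0) (XT.lf (nat_lit 0) (nat_lit 41797271426) (nat_lit 228) (nat_lit 12838719399) (nat_lit 304) (nat_lit 65191673444) (nat_lit 113) (nat_lit 5) (nat_lit 116) (nat_lit 5) (nat_lit 117) (nat_lit 5) (nat_lit 452) (nat_lit 434) (nat_lit 314)) (XT.lf (nat_lit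 0) (nat_lit 36215139165) (nat_lit 228) (nat_lit 61191417896) (nat_lit 304) (nat_lit 28124821560) (nat_lit 110) (nat_lit 5) (nat_lit 113) (nat_lit 5) (nat_lit 114) (nat_lit 5) (nat_lit 453) (nat_lit 434) (nat_lit 313))))))) (XT.nd (nat_lit 1248) (nat_lit 1900) (nat_lit 0) (XT.nd (nat_lit 624) (nat_lit 1292) (nat_lit 0) (XT.nd (nat_lit 312) (nat_lit 532) (nat_lit 0) (XT.nd (nat_lit 156) (nat_lit 456) (nat_lit 0) (XT.nd (nat_lit 78) (nat_lit 228) (nat_lit 0) (XT.lf (nat_lit 0) (nat_lit 13889199302) (nat_lit 228) (nat_lit 100514547343) (nat_lit 76) (nat_lit 17160201588) (nat_lit 107) (nat_lit 5) (nat_lit 110) (nat_lit 5) (nat_lit 108) (nat_lit 5) (nat_lit 454) (nat_lit 434) (nat_lit 312)) (XT.lf (nat_lit 0) (nat_lit 25515858610) (nat_lit 228) (nat_lit 35786703724) (nat_lit 304) (nat_lit 76602329131) (nat_lit 104) (nat_lit 5) (nat_lit 107) (nat_lit 5) (nat_lit 108) (nat_lit 5) (nat_lit 455) (nat_lit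 434) (nat_lit 311))) (XT.nd (nat_lit 78) (nat_lit 304) (nat_lit 0) (XT.lf (nat_lit 0) (nat_lit 20408418058) (nat_lit 152) (nat_lit 94964649210) (nat_lit 228) (nat_lit 29236839292) (nat_lit 102) (nat_lit 5) (nat_lit 104) (nat_lit 5) (nat_lit 105) (nat_lit 5) (nat_lit 456) (nat_lit 434) (nat_lit 310)) (XT.lf (nat_lit 0) (nat_lit 15609881027) (nat_lit 228) (nat_lit 8442460540) (nat_lit 304) (nat_lit 127640073289) (nat_lit 98) (nat_lit 5) (nat_lit 101) (nat_lit 5) (nat_lit 102) (nat_lit 5) (nat_lit 457) (nat_lit 434) (nat_lit 309)))) (XT.nd (nat_lit 156) (nat_lit 228) (nat_lit 0) (XT.nd (nat_lit 78) (nat_lit 152) (nat_lit 0) (XT.lf (nat_lit 0) (nat_lit 10279877149) (nat_lit 152) (nat_lit 73999765808) (nat_lit 228) (nat_lit 74852951149) (nat_lit 96) (nat_lit 5) (nat_lit 98) (nat_lit 5) (nat_lit 99) (nat_lit 5) (nat_lit 458) (nat_lit 434) (nat_lit 308)) (XT.lf (nat_lit 0) (nat_lit 5876317938) (nat_lit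 152) (nat_lit 146381575977) (nat_lit 228) (nat_lit 14763455542) (nat_lit 94) (nat_lit 5) (nat_lit 96) (nat_lit 5) (nat_lit 97) (nat_lit 5) (nat_lit 459) (nat_lit 434) (nat_lit 307))) (XT.nd (nat_lit 78) (nat_lit 0) (nat_lit 0) (XT.lf (nat_lit 0) (nat_lit 839969817) (nat_lit 152) (nat_lit 51584058262) (nat_lit 228) (nat_lit 122883271009) (nat_lit 91) (nat_lit 5) (nat_lit 93) (nat_lit 5) (nat_lit 94) (nat_lit 5) (nat_lit 460) (nat_lit 434) (nat_lit 306)) (XT.lf (nat_lit 0) (nat_lit 128121461522) (nat_lit 228) (nat_lit 3667091284) (nat_lit 76) (nat_lit 52272861181) (nat_lit 91) (nat_lit 5) (nat_lit 94) (nat_lit 5) (nat_lit 92) (nat_lit 5) (nat_lit 461) (nat_lit 434) (nat_lit 305))))) (XT.nd (nat_lit 312) (nat_lit 608) (nat_lit 0) (XT.nd (nat_lit 156) (nat_lit 304) (nat_lit 0) (XT.nd (nat_lit 78) (nat_lit 152) (nat_lit 0) (XT.lf (nat_lit 0) (nat_lit 19668093535) (nat_lit 228) (nat_lit 7769377640)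 (nat_lit 76) (nat_lit 165873974231) (nat_lit 88) (nat_lit 5) (nat_lit 91) (nat_lit 5) (nat_lit 89) (nat_lit 5) (nat_lit 462) (nat_lit 434) (nat_lit 304)) (XT.lf (nat_lit 0) (nat_lit 103848450834) (nat_lit 228) (nat_lit 12580556563) (nat_lit 76) (nat_lit 86602442989) (nat_lit 86) (nat_lit 5) (nat_lit 89) (nat_lit 5) (nat_lit 87) (nat_lit 5) (nat_lit 463) (nat_lit 434) (nat_lit 303))) (XT.nd (nat_lit 78) (nat_lit 152) (nat_lit 0) (XT.lf (nat_lit 0) (nat_lit 197127062342) (nat_lit 152) (nat_lit 1313331469) (nat_lit 228) (nat_lit 14904804122) (nat_lit 84) (nat_lit 5) (nat_lit 86) (nat_lit 5) (nat_lit 87) (nat_lit 5) (nat_lit 464) (nat_lit 434) (nat_lit 302)) (XT.lf (nat_lit 0) (nat_lit 79097526262) (nat_lit 152) (nat_lit 21295658072) (nat_lit 76) (nat_lit 123760539269) (nat_lit 82) (nat_lit 5) (nat_lit 84) (nat_lit 5) (nat_lit 83) (nat_lit 5) (nat_lit 465) (nat_lit 434) (nat_lit 301)))) (XT.nd (nat_lit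 156) (nat_lit 304) (nat_lit 0) (XT.nd (nat_lit 78) (nat_lit 152) (nat_lit 0) (XT.lf (nat_lit 0) (nat_lit 184124248301) (nat_lit 228) (nat_lit 25365043790) (nat_lit 76) (nat_lit 26124102353) (nat_lit 80) (nat_lit 5) (nat_lit 83) (nat_lit 5) (nat_lit 81) (nat_lit 4) (nat_lit 466) (nat_lit 434) (nat_lit 300)) (XT.lf (nat_lit 0) (nat_lit 53545685857) (nat_lit 152) (nat_lit 30184593276) (nat_lit 76) (nat_lit 163942431216) (nat_lit 78) (nat_lit 5) (nat_lit 80) (nat_lit 5) (nat_lit 79) (nat_lit 5) (nat_lit 467) (nat_lit 434) (nat_lit 299))) (XT.nd (nat_lit 78) (nat_lit 152) (nat_lit 0) (XT.lf (nat_lit 0) (nat_lit 170078969980) (nat_lit 228) (nat_lit 34977788792) (nat_lit 76) (nat_lit 55352828829) (nat_lit 76) (nat_lit 5) (nat_lit 79) (nat_lit 5) (nat_lit 77) (nat_lit 4) (nat_lit 468) (nat_lit 434) (nat_lit 298)) (XT.lf (nat_lit 0) (nat_lit 26771818769) (nat_lit 152) (nat_lit 39796096928) (nat_lit 76)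 (nat_lit 207295551352) (nat_lit 74) (nat_lit 5) (nat_lit 76) (nat_lit 5) (nat_lit 75) (nat_lit 5) (nat_lit 469) (nat_lit 434) (nat_lit 297)))))) (XT.nd (nat_lit 624) (nat_lit 912) (nat_lit 0) (XT.nd (nat_lit 312) (nat_lit 456) (nat_lit 0) (XT.nd (nat_lit 156) (nat_lit 304) (nat_lit 0) (XT.nd (nat_lit 78) (nat_lit 76) (nat_lit 0) (XT.lf (nat_lit 0) (nat_lit 155938310069) (nat_lit 228) (nat_lit 45699069508) (nat_lit 76) (nat_lit 86389205557) (nat_lit 72) (nat_lit 5) (nat_lit 75) (nat_lit 5) (nat_lit 73) (nat_lit 4) (nat_lit 470) (nat_lit 434) (nat_lit 296)) (XT.lf (nat_lit 0) (nat_lit 252087482746) (nat_lit 76) (nat_lit 49112882370) (nat_lit 152) (nat_lit 1834275336) (nat_lit 71) (nat_lit 5) (nat_lit 72) (nat_lit 5) (nat_lit 73) (nat_lit 4) (nat_lit 471) (nat_lit 434) (nat_lit 295))) (XT.nd (nat_lit 78) (nat_lit 76) (nat_lit 0) (XT.lf (nat_lit 0) (nat_lit 141221673542) (nat_lit 228) (nat_lit 58470690576)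 (nat_lit 76) (nat_lit 119101323096) (nat_lit 68) (nat_lit 5) (nat_lit 71) (nat_lit 5) (nat_lit 69) (nat_lit 4) (nat_lit 472) (nat_lit 434) (nat_lit 294)) (XT.lf (nat_lit 0) (nat_lit 270322331753) (nat_lit 76) (nat_lit 31286445063) (nat_lit 152) (nat_lit 33905630276) (nat_lit 67) (nat_lit 5) (nat_lit 68) (nat_lit 5) (nat_lit 69) (nat_lit 4) (nat_lit 473) (nat_lit 434) (nat_lit 293)))) (XT.nd (nat_lit 156) (nat_lit 228) (nat_lit 0) (XT.nd (nat_lit 78) (nat_lit 76) (nat_lit 0) (XT.lf (nat_lit 0) (nat_lit 125267249167) (nat_lit 152) (nat_lit 74608006016) (nat_lit 76) (nat_lit 153208169965) (nat_lit 65) (nat_lit 5) (nat_lit 67) (nat_lit 5) (nat_lit 66) (nat_lit 4) (nat_lit 474) (nat_lit 434) (nat_lit 292)) (XT.lf (nat_lit 0) (nat_lit 288064100670) (nat_lit 76) (nat_lit 14116586107) (nat_lit 152) (nat_lit 69539755581) (nat_lit 64) (nat_lit 5) (nat_lit 65) (nat_lit 5) (nat_lit 66) (nat_lit 4) (nat_lit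 475) (nat_lit 434) (nat_lit 291))) (XT.nd (nat_lit 78) (nat_lit 76) (nat_lit 0) (XT.lf (nat_lit 0) (nat_lit 107171360696) (nat_lit 152) (nat_lit 95924153443) (nat_lit 76) (nat_lit 188222852037) (nat_lit 62) (nat_lit 5) (nat_lit 64) (nat_lit 5) (nat_lit 63) (nat_lit 4) (nat_lit 476) (nat_lit 434) (nat_lit 290)) (XT.lf (nat_lit 0) (nat_lit 302098992120) (nat_lit 152) (nat_lit 108499344216) (nat_lit 0) (nat_lit 1502989763) (nat_lit 61) (nat_lit 5) (nat_lit 63) (nat_lit 4) (nat_lit 61) (nat_lit 4) (nat_lit 477) (nat_lit 434) (nat_lit 289))))) (XT.nd (nat_lit 312) (nat_lit 456) (nat_lit 0) (XT.nd (nat_lit 156) (nat_lit 228) (nat_lit 0) (XT.nd (nat_lit 78) (nat_lit 76) (nat_lit 0) (XT.lf (nat_lit 0) (nat_lit 85709309018) (nat_lit 152) (nat_lit 124892235980) (nat_lit 76) (nat_lit 223377717669) (nat_lit 59) (nat_lit 5) (nat_lit 61) (nat_lit 5) (nat_lit 60) (nat_lit 4) (nat_lit 478) (nat_lit 434) (nat_lit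 288)) (XT.lf (nat_lit 0) (nat_lit 300334803698) (nat_lit 152) (nat_lit 142774606268) (nat_lit 0) (nat_lit 14052315042) (nat_lit 58) (nat_lit 5) (nat_lit 60) (nat_lit 4) (nat_lit 58) (nat_lit 4) (nat_lit 479) (nat_lit 434) (nat_lit 287))) (XT.nd (nat_lit 78) (nat_lit 76) (nat_lit 0) (XT.lf (nat_lit 0) (nat_lit 59232253716) (nat_lit 152) (nat_lit 164856627462) (nat_lit 76) (nat_lit 257525983506) (nat_lit 56) (nat_lit 5) (nat_lit 58) (nat_lit 5) (nat_lit 57) (nat_lit 4) (nat_lit 480) (nat_lit 434) (nat_lit 286)) (XT.lf (nat_lit 0) (nat_lit 295003831435) (nat_lit 152) (nat_lit 190142404128) (nat_lit 0) (nat_lit 22353367314) (nat_lit 55) (nat_lit 5) (nat_lit 57) (nat_lit 4) (nat_lit 55) (nat_lit 4) (nat_lit 481) (nat_lit 434) (nat_lit 285)))) (XT.nd (nat_lit 156) (nat_lit 228) (nat_lit 0) (XT.nd (nat_lit 78) (nat_lit 76) (nat_lit 0) (XT.lf (nat_lit 0) (nat_lit 25533103358) (nat_lit 152) (nat_lit 220307813652)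 (nat_lit 76) (nat_lit 289012882011) (nat_lit 53) (nat_lit 5) (nat_lit 55) (nat_lit 5) (nat_lit 54) (nat_lit 4) (nat_lit 482) (nat_lit 434) (nat_lit 284)) (XT.lf (nat_lit 0) (nat_lit 283829772199) (nat_lit 152) (nat_lit 255796591028) (nat_lit 0) (nat_lit 24162275730) (nat_lit 52) (nat_lit 5) (nat_lit 54) (nat_lit 4) (nat_lit 52) (nat_lit 4) (nat_lit 483) (nat_lit 434) (nat_lit 283))) (XT.nd (nat_lit 78) (nat_lit 152) (nat_lit 0) (XT.lf (nat_lit 0) (nat_lit 296869287405) (nat_lit 76) (nat_lit 278601313238) (nat_lit 76) (nat_lit 18933644145) (nat_lit 51) (nat_lit 4) (nat_lit 52) (nat_lit 5) (nat_lit 52) (nat_lit 4) (nat_lit 484) (nat_lit 434) (nat_lit 282)) (XT.lf (nat_lit 0) (nat_lit 263728545283) (nat_lit 152) (nat_lit 346650827679) (nat_lit 0) (nat_lit 16425851065) (nat_lit 49) (nat_lit 5) (nat_lit 51) (nat_lit 4) (nat_lit 49) (nat_lit 4) (nat_lit 485) (nat_lit 434) (nat_lit 281))))))))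
noncomputable def xc94 : XT := (XT.nd (nat_lit 59436) (nat_lit 0) (nat_lit 2736) (XT.nd (nat_lit 1170) (nat_lit 380) (nat_lit 0) (XT.nd (nat_lit 546) (nat_lit 760) (nat_lit 0) (XT.nd (nat_lit 234) (nat_lit 380) (nat_lit 0) (XT.nd (nat_lit 78) (nat_lit 228) (nat_lit 0) (XT.lf (nat_lit 0) (nat_lit 256243338802) (nat_lit 76) (nat_lit 326071760982) (nat_lit 76) (nat_lit 78768925814) (nat_lit 48) (nat_lit 4) (nat_lit 49) (nat_lit 5) (nat_lit 49) (nat_lit 4) (nat_lit 486) (nat_lit 434) (nat_lit 280)) (XT.nd (nat_lit 78) (nat_lit 76) (nat_lit 0) (XT.lf (nat_lit 0) (nat_lit 225498113299) (nat_lit 76) (nat_lit 5136559371) (nat_lit 152) (nat_lit 466809365342) (nat_lit 46) (nat_lit 5) (nat_lit 47) (nat_lit 5) (nat_lit 48) (nat_lit 4) (nat_lit 487) (nat_lit 434) (nat_lit 279)) (XT.lf (nat_lit 0) (nat_lit 183456398270) (nat_lit 76) (nat_lit 393974322727) (nat_lit 76) (nat_lit 158447573662) (nat_lit 45) (nat_lit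 4) (nat_lit 46) (nat_lit 5) (nat_lit 46) (nat_lit 4) (nat_lit 488) (nat_lit 434) (nat_lit 278)))) (XT.nd (nat_lit 156) (nat_lit 152) (nat_lit 0) (XT.nd (nat_lit 78) (nat_lit 76) (nat_lit 0) (XT.lf (nat_lit 0) (nat_lit 132459436970) (nat_lit 76) (nat_lit 47046071613) (nat_lit 152) (nat_lit 597219991699) (nat_lit 43) (nat_lit 5) (nat_lit 44) (nat_lit 5) (nat_lit 45) (nat_lit 4) (nat_lit 489) (nat_lit 434) (nat_lit 277)) (XT.lf (nat_lit 0) (nat_lit 65654652005) (nat_lit 76) (nat_lit 489283799048) (nat_lit 76) (nat_lit 264972414004) (nat_lit 42) (nat_lit 4) (nat_lit 43) (nat_lit 5) (nat_lit 43) (nat_lit 4) (nat_lit 490) (nat_lit 434) (nat_lit 276))) (XT.nd (nat_lit 78) (nat_lit 76) (nat_lit 0) (XT.lf (nat_lit 0) (nat_lit 103050664628) (nat_lit 152) (nat_lit 13057609564) (nat_lit 76) (nat_lit 749759535873) (nat_lit 41) (nat_lit 5) (nat_lit 43) (nat_lit 5) (nat_lit 42) (nat_lit 4) (nat_lit 491) (nat_lit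 434) (nat_lit 275)) (XT.lf (nat_lit 0) (nat_lit 508744491263) (nat_lit 152) (nat_lit 110549575541) (nat_lit 0) (nat_lit 295114441150) (nat_lit 40) (nat_lit 5) (nat_lit 42) (nat_lit 4) (nat_lit 40) (nat_lit 4) (nat_lit 492) (nat_lit 434) (nat_lit 274))))) (XT.nd (nat_lit 312) (nat_lit 304) (nat_lit 0) (XT.nd (nat_lit 156) (nat_lit 228) (nat_lit 0) (XT.nd (nat_lit 78) (nat_lit 152) (nat_lit 0) (XT.lf (nat_lit 0) (nat_lit 741545989077) (nat_lit 76) (nat_lit 219114139269) (nat_lit 76) (nat_lit 5484018113) (nat_lit 39) (nat_lit 4) (nat_lit 40) (nat_lit 5) (nat_lit 40) (nat_lit 4) (nat_lit 493) (nat_lit 434) (nat_lit 273)) (XT.lf (nat_lit 0) (nat_lit 428922973018) (nat_lit 152) (nat_lit 366503404173) (nat_lit 0) (nat_lit 225465652124) (nat_lit 37) (nat_lit 5) (nat_lit 39) (nat_lit 4) (nat_lit 37) (nat_lit 4) (nat_lit 494) (nat_lit 434) (nat_lit 272))) (XT.nd (nat_lit 78) (nat_lit 152) (nat_lit 0) (XT.lf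 (nat_lit 0) (nat_lit 545498078116) (nat_lit 76) (nat_lit 368582519070) (nat_lit 76) (nat_lit 165125140168) (nat_lit 36) (nat_lit 4) (nat_lit 37) (nat_lit 5) (nat_lit 37) (nat_lit 4) (nat_lit 495) (nat_lit 434) (nat_lit 271)) (XT.lf (nat_lit 0) (nat_lit 301017728715) (nat_lit 152) (nat_lit 732956052530) (nat_lit 0) (nat_lit 107248745273) (nat_lit 34) (nat_lit 5) (nat_lit 36) (nat_lit 4) (nat_lit 34) (nat_lit 4) (nat_lit 496) (nat_lit 434) (nat_lit 270)))) (XT.nd (nat_lit 156) (nat_lit 76) (nat_lit 0) (XT.nd (nat_lit 78) (nat_lit 152) (nat_lit 0) (XT.lf (nat_lit 0) (nat_lit 235300110997) (nat_lit 76) (nat_lit 582781739964) (nat_lit 76) (nat_lit 389012709158) (nat_lit 33) (nat_lit 4) (nat_lit 34) (nat_lit 5) (nat_lit 34) (nat_lit 4) (nat_lit 497) (nat_lit 434) (nat_lit 269)) (XT.lf (nat_lit 0) (nat_lit 28769052337) (nat_lit 76) (nat_lit 79786131565) (nat_lit 152) (nat_lit 1168933163149) (nat_lit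 31) (nat_lit 5) (nat_lit 32) (nat_lit 5) (nat_lit 33) (nat_lit 4) (nat_lit 498) (nat_lit 434) (nat_lit 268))) (XT.nd (nat_lit 78) (nat_lit 76) (nat_lit 0) (XT.lf (nat_lit 0) (nat_lit 656922643856) (nat_lit 152) (nat_lit 222660338602) (nat_lit 0) (nat_lit 472380629313) (nat_lit 31) (nat_lit 5) (nat_lit 33) (nat_lit 4) (nat_lit 31) (nat_lit 4) (nat_lit 499) (nat_lit 434) (nat_lit 267)) (XT.lf (nat_lit 0) (nat_lit 913371120130) (nat_lit 76) (nat_lit 351393778983) (nat_lit 76) (nat_lit 166851728630) (nat_lit 30) (nat_lit 4) (nat_lit 31) (nat_lit 5) (nat_lit 31) (nat_lit 4) (nat_lit 500) (nat_lit 434) (nat_lit 266)))))) (XT.nd (nat_lit 57642) (nat_lit 0) (nat_lit 8816) (XT.nd (nat_lit 57330) (nat_lit 0) (nat_lit 10488) (XT.nd (nat_lit 156) (nat_lit 152) (nat_lit 0) (XT.nd (nat_lit 78) (nat_lit 76) (nat_lit 0) (XT.lf (nat_lit 0) (nat_lit 408441486879) (nat_lit 152) (nat_lit 875309899749) (nat_lit 0)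 (nat_lit 232687121632) (nat_lit 28) (nat_lit 5) (nat_lit 30) (nat_lit 4) (nat_lit 28) (nat_lit 4) (nat_lit 501) (nat_lit 434) (nat_lit 265)) (XT.lf (nat_lit 0) (nat_lit 305040483138) (nat_lit 76) (nat_lit 738813115653) (nat_lit 76) (nat_lit 563058721167) (nat_lit 27) (nat_lit 4) (nat_lit 28) (nat_lit 5) (nat_lit 28) (nat_lit 4) (nat_lit 502) (nat_lit 434) (nat_lit 264))) (XT.nd (nat_lit 78) (nat_lit 76) (nat_lit 0) (XT.lf (nat_lit 0) (nat_lit 40156379595) (nat_lit 152) (nat_lit 93433843387) (nat_lit 76) (nat_lit 1570239072871) (nat_lit 26) (nat_lit 5) (nat_lit 28) (nat_lit 5) (nat_lit 27) (nat_lit 4) (nat_lit 503) (nat_lit 434) (nat_lit 263)) (XT.lf (nat_lit 0) (nat_lit 700148420396) (nat_lit 152) (nat_lit 573714124411) (nat_lit 0) (nat_lit 532763233133) (nat_lit 25) (nat_lit 5) (nat_lit 27) (nat_lit 4) (nat_lit 25) (nat_lit 4) (nat_lit 504) (nat_lit 434) (nat_lit 262)))) (XT.nd (nat_lit 156)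 (nat_lit 0) (nat_lit 76) (XT.nd (nat_lit 78) (nat_lit 0) (nat_lit 76) (XT.lf (nat_lit 0) (nat_lit 13171553643) (nat_lit 836) (nat_lit 8419959823) (nat_lit 836) (nat_lit 8419959823) (nat_lit 163) (nat_lit 3) (nat_lit 174) (nat_lit 3) (nat_lit 174) (nat_lit 5) (nat_lit 435) (nat_lit 435) (nat_lit 330)) (XT.lf (nat_lit 0) (nat_lit 27988399796) (nat_lit 760) (nat_lit 30453130264) (nat_lit 836) (nat_lit 3952753806) (nat_lit 164) (nat_lit 5) (nat_lit 174) (nat_lit 5) (nat_lit 175) (nat_lit 5) (nat_lit 436) (nat_lit 435) (nat_lit 329))) (XT.nd (nat_lit 78) (nat_lit 0) (nat_lit 76) (XT.lf (nat_lit 76) (nat_lit 20197196561) (nat_lit 0) (nat_lit 10906935596) (nat_lit 836) (nat_lit 33784255372) (nat_lit 165) (nat_lit 5) (nat_lit 164) (nat_lit 5) (nat_lit 175) (nat_lit 5) (nat_lit 437) (nat_lit 435) (nat_lit 328)) (XT.lf (nat_lit 76) (nat_lit 8047403557) (nat_lit 0) (nat_lit 27715151034) (nat_lit 836) (nat_lit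 31754793520) (nat_lit 166) (nat_lit 5) (nat_lit 165) (nat_lit 5) (nat_lit 176) (nat_lit 5) (nat_lit 438) (nat_lit 435) (nat_lit 327))))) (XT.nd (nat_lit 312) (nat_lit 1292) (nat_lit 0) (XT.nd (nat_lit 156) (nat_lit 608) (nat_lit 0) (XT.nd (nat_lit 78) (nat_lit 0) (nat_lit 76) (XT.lf (nat_lit 0) (nat_lit 42135631970) (nat_lit 760) (nat_lit 4284449160) (nat_lit 836) (nat_lit 23869445537) (nat_lit 166) (nat_lit 5) (nat_lit 176) (nat_lit 5) (nat_lit 177) (nat_lit 5) (nat_lit 439) (nat_lit 435) (nat_lit 326)) (XT.lf (nat_lit 0) (nat_lit 50466494026) (nat_lit 760) (nat_lit 16653872314) (nat_lit 836) (nat_lit 6090716417) (nat_lit 167) (nat_lit 5) (nat_lit 177) (nat_lit 5) (nat_lit 178) (nat_lit 5) (nat_lit 440) (nat_lit 435) (nat_lit 325))) (XT.nd (nat_lit 78) (nat_lit 684) (nat_lit 0) (XT.lf (nat_lit 76) (nat_lit 46767752793) (nat_lit 0) (nat_lit 14282726823) (nat_lit 836) (nat_lit 15236551148) (nat_lit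 168) (nat_lit 5) (nat_lit 167) (nat_lit 5) (nat_lit 178) (nat_lit 5) (nat_lit 441) (nat_lit 435) (nat_lit 324)) (XT.lf (nat_lit 0) (nat_lit 36765535024) (nat_lit 760) (nat_lit 37250494143) (nat_lit 836) (nat_lit 5516283336) (nat_lit 158) (nat_lit 5) (nat_lit 168) (nat_lit 5) (nat_lit 169) (nat_lit 5) (nat_lit 442) (nat_lit 435) (nat_lit 323)))) (XT.nd (nat_lit 156) (nat_lit 380) (nat_lit 0) (XT.nd (nat_lit 78) (nat_lit 380) (nat_lit 0) (XT.lf (nat_lit 0) (nat_lit 6330880667) (nat_lit 532) (nat_lit 56372055706) (nat_lit 76) (nat_lit 20254955835) (nat_lit 151) (nat_lit 5) (nat_lit 158) (nat_lit 5) (nat_lit 152) (nat_lit 5) (nat_lit 443) (nat_lit 435) (nat_lit 322)) (XT.lf (nat_lit 0) (nat_lit 16176225743) (nat_lit 380) (nat_lit 4394996995) (nat_lit 456) (nat_lit 65999840694) (nat_lit 146) (nat_lit 5) (nat_lit 151) (nat_lit 5) (nat_lit 152) (nat_lit 5) (nat_lit 444) (nat_lit 435) (nat_lit 321)))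 (XT.nd (nat_lit 78) (nat_lit 0) (nat_lit 0) (XT.lf (nat_lit 0) (nat_lit 5356221953) (nat_lit 380) (nat_lit 32589157942) (nat_lit 456) (nat_lit 52428179185) (nat_lit 141) (nat_lit 5) (nat_lit 146) (nat_lit 5) (nat_lit 147) (nat_lit 5) (nat_lit 445) (nat_lit 435) (nat_lit 320)) (XT.lf (nat_lit 0) (nat_lit 58500350492) (nat_lit 456) (nat_lit 5305773597) (nat_lit 76) (nat_lit 30584586352) (nat_lit 141) (nat_lit 5) (nat_lit 147) (nat_lit 5) (nat_lit 142) (nat_lit 5) (nat_lit 446) (nat_lit 435) (nat_lit 319))))))) (XT.nd (nat_lit 1248) (nat_lit 2280) (nat_lit 0) (XT.nd (nat_lit 624) (nat_lit 1444) (nat_lit 0) (XT.nd (nat_lit 312) (nat_lit 1064) (nat_lit 0) (XT.nd (nat_lit 156) (nat_lit 608) (nat_lit 0) (XT.nd (nat_lit 78) (nat_lit 380) (nat_lit 0) (XT.lf (nat_lit 0) (nat_lit 82547187434) (nat_lit 380) (nat_lit 15758085506) (nat_lit 76) (nat_lit 331587632) (nat_lit 137) (nat_lit 5) (nat_lit 142) (nat_lit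 5) (nat_lit 138) (nat_lit 5) (nat_lit 447) (nat_lit 435) (nat_lit 318)) (XT.lf (nat_lit 0) (nat_lit 7526490598) (nat_lit 380) (nat_lit 26768423310) (nat_lit 76) (nat_lit 68803610483) (nat_lit 132) (nat_lit 5) (nat_lit 137) (nat_lit 5) (nat_lit 133) (nat_lit 5) (nat_lit 448) (nat_lit 435) (nat_lit 317))) (XT.nd (nat_lit 78) (nat_lit 304) (nat_lit 0) (XT.lf (nat_lit 0) (nat_lit 34423866399) (nat_lit 380) (nat_lit 37984450149) (nat_lit 76) (nat_lit 35397835453) (nat_lit 128) (nat_lit 5) (nat_lit 133) (nat_lit 5) (nat_lit 129) (nat_lit 5) (nat_lit 449) (nat_lit 435) (nat_lit 316)) (XT.lf (nat_lit 0) (nat_lit 63678457284) (nat_lit 304) (nat_lit 1839736922) (nat_lit 380) (nat_lit 47269937588) (nat_lit 124) (nat_lit 5) (nat_lit 128) (nat_lit 5) (nat_lit 129) (nat_lit 5) (nat_lit 450) (nat_lit 435) (nat_lit 315)))) (XT.nd (nat_lit 156) (nat_lit 456) (nat_lit 0) (XT.nd (nat_lit 78) (nat_lit 380) (nat_lit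 0) (XT.lf (nat_lit 0) (nat_lit 57357409541) (nat_lit 228) (nat_lit 44470690245) (nat_lit 304) (nat_lit 16204168675) (nat_lit 121) (nat_lit 5) (nat_lit 124) (nat_lit 5) (nat_lit 125) (nat_lit 5) (nat_lit 451) (nat_lit 435) (nat_lit 314)) (XT.lf (nat_lit 0) (nat_lit 19019127624) (nat_lit 380) (nat_lit 72334313248) (nat_lit 76) (nat_lit 32217579902) (nat_lit 116) (nat_lit 5) (nat_lit 121) (nat_lit 5) (nat_lit 117) (nat_lit 5) (nat_lit 452) (nat_lit 435) (nat_lit 313))) (XT.nd (nat_lit 78) (nat_lit 228) (nat_lit 0) (XT.lf (nat_lit 0) (nat_lit 45171692098) (nat_lit 228) (nat_lit 13856746346) (nat_lit 304) (nat_lit 70384359482) (nat_lit 113) (nat_lit 5) (nat_lit 116) (nat_lit 5) (nat_lit 117) (nat_lit 5) (nat_lit 453) (nat_lit 435) (nat_lit 312)) (XT.lf (nat_lit 0) (nat_lit 39142554833) (nat_lit 228) (nat_lit 66077100196) (nat_lit 304) (nat_lit 30353204225) (nat_lit 110) (nat_lit 5) (nat_lit 113) (nat_lit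 5) (nat_lit 114) (nat_lit 5) (nat_lit 454) (nat_lit 435) (nat_lit 311))))) (XT.nd (nat_lit 312) (nat_lit 532) (nat_lit 0) (XT.nd (nat_lit 156) (nat_lit 456) (nat_lit 0) (XT.nd (nat_lit 78) (nat_lit 228) (nat_lit 0) (XT.lf (nat_lit 0) (nat_lit 15020311202) (nat_lit 228) (nat_lit 108525316806) (nat_lit 76) (nat_lit 18542436415) (nat_lit 107) (nat_lit 5) (nat_lit 110) (nat_lit 5) (nat_lit 108) (nat_lit 5) (nat_lit 455) (nat_lit 435) (nat_lit 310)) (XT.lf (nat_lit 0) (nat_lit 27586200723) (nat_lit 228) (nat_lit 38639516771) (nat_lit 304) (nat_lit 82710616974) (nat_lit 104) (nat_lit 5) (nat_lit 107) (nat_lit 5) (nat_lit 108) (nat_lit 5) (nat_lit 456) (nat_lit 435) (nat_lit 309))) (XT.nd (nat_lit 78) (nat_lit 304) (nat_lit 0) (XT.lf (nat_lit 0) (nat_lit 22069657349) (nat_lit 152) (nat_lit 102551394094) (nat_lit 228) (nat_lit 31556739954) (nat_lit 102) (nat_lit 5) (nat_lit 104) (nat_lit 5) (nat_lit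 105) (nat_lit 5) (nat_lit 457) (nat_lit 435) (nat_lit 308)) (XT.lf (nat_lit 0) (nat_lit 16886579714) (nat_lit 228) (nat_lit 9107456084) (nat_lit 304) (nat_lit 137832896244) (nat_lit 98) (nat_lit 5) (nat_lit 101) (nat_lit 5) (nat_lit 102) (nat_lit 5) (nat_lit 458) (nat_lit 435) (nat_lit 307)))) (XT.nd (nat_lit 156) (nat_lit 228) (nat_lit 0) (XT.nd (nat_lit 78) (nat_lit 152) (nat_lit 0) (XT.lf (nat_lit 0) (nat_lit 11129645266) (nat_lit 152) (nat_lit 79909157036) (nat_lit 228) (nat_lit 80823559328) (nat_lit 96) (nat_lit 5) (nat_lit 98) (nat_lit 5) (nat_lit 99) (nat_lit 5) (nat_lit 459) (nat_lit 435) (nat_lit 306)) (XT.lf (nat_lit 0) (nat_lit 6373256851) (nat_lit 152) (nat_lit 158081384975) (nat_lit 228) (nat_lit 15927609204) (nat_lit 94) (nat_lit 5) (nat_lit 96) (nat_lit 5) (nat_lit 97) (nat_lit 5) (nat_lit 460) (nat_lit 435) (nat_lit 305))) (XT.nd (nat_lit 78) (nat_lit 0) (nat_lit 0) (XT.lf (nat_lit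 0) (nat_lit 933353340) (nat_lit 152) (nat_lit 55700173550) (nat_lit 228) (nat_lit 132697576798) (nat_lit 91) (nat_lit 5) (nat_lit 93) (nat_lit 5) (nat_lit 94) (nat_lit 5) (nat_lit 461) (nat_lit 435) (nat_lit 304)) (XT.lf (nat_lit 0) (nat_lit 138385754561) (nat_lit 228) (nat_lit 3935644122) (nat_lit 76) (nat_lit 56464199155) (nat_lit 91) (nat_lit 5) (nat_lit 94) (nat_lit 5) (nat_lit 92) (nat_lit 5) (nat_lit 462) (nat_lit 435) (nat_lit 303)))))) (XT.nd (nat_lit 624) (nat_lit 988) (nat_lit 0) (XT.nd (nat_lit 312) (nat_lit 608) (nat_lit 0) (XT.nd (nat_lit 156) (nat_lit 304) (nat_lit 0) (XT.nd (nat_lit 78) (nat_lit 152) (nat_lit 0) (XT.lf (nat_lit 0) (nat_lit 21255635750) (nat_lit 228) (nat_lit 8366725351) (nat_lit 76) (nat_lit 179153294794) (nat_lit 88) (nat_lit 5) (nat_lit 91) (nat_lit 5) (nat_lit 89) (nat_lit 5) (nat_lit 463) (nat_lit 435) (nat_lit 302)) (XT.lf (nat_lit 0) (nat_lit 112169891072)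 (nat_lit 228) (nat_lit 13563331463) (nat_lit 76) (nat_lit 93540065297) (nat_lit 86) (nat_lit 5) (nat_lit 89) (nat_lit 5) (nat_lit 87) (nat_lit 5) (nat_lit 464) (nat_lit 435) (nat_lit 301))) (XT.nd (nat_lit 78) (nat_lit 152) (nat_lit 0) (XT.lf (nat_lit 0) (nat_lit 212919868301) (nat_lit 152) (nat_lit 1408669921) (nat_lit 228) (nat_lit 16083629551) (nat_lit 84) (nat_lit 5) (nat_lit 86) (nat_lit 5) (nat_lit 87) (nat_lit 5) (nat_lit 465) (nat_lit 435) (nat_lit 300)) (XT.lf (nat_lit 0) (nat_lit 85437975185) (nat_lit 152) (nat_lit 22976762589) (nat_lit 76) (nat_lit 133670651070) (nat_lit 82) (nat_lit 5) (nat_lit 84) (nat_lit 5) (nat_lit 83) (nat_lit 5) (nat_lit 466) (nat_lit 435) (nat_lit 299)))) (XT.nd (nat_lit 156) (nat_lit 304) (nat_lit 0) (XT.nd (nat_lit 78) (nat_lit 152) (nat_lit 0) (XT.lf (nat_lit 0) (nat_lit 198866383582) (nat_lit 228) (nat_lit 27372225113) (nat_lit 76) (nat_lit 28223247250)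 (nat_lit 80) (nat_lit 5) (nat_lit 83) (nat_lit 5) (nat_lit 81) (nat_lit 4) (nat_lit 467) (nat_lit 435) (nat_lit 298)) (XT.lf (nat_lit 0) (nat_lit 57841152426) (nat_lit 152) (nat_lit 32577904815) (nat_lit 76) (nat_lit 177066879100) (nat_lit 78) (nat_lit 5) (nat_lit 80) (nat_lit 5) (nat_lit 79) (nat_lit 5) (nat_lit 468) (nat_lit 435) (nat_lit 297))) (XT.nd (nat_lit 78) (nat_lit 152) (nat_lit 0) (XT.lf (nat_lit 0) (nat_lit 183696689439) (nat_lit 228) (nat_lit 37755070001) (nat_lit 76) (nat_lit 59790024843) (nat_lit 76) (nat_lit 5) (nat_lit 79) (nat_lit 5) (nat_lit 77) (nat_lit 4) (nat_lit 469) (nat_lit 435) (nat_lit 296)) (XT.lf (nat_lit 0) (nat_lit 28924612707) (nat_lit 152) (nat_lit 42959387382) (nat_lit 76) (nat_lit 223887991697) (nat_lit 74) (nat_lit 5) (nat_lit 76) (nat_lit 5) (nat_lit 75) (nat_lit 5) (nat_lit 470) (nat_lit 435) (nat_lit 295))))) (XT.nd (nat_lit 312) (nat_lit 456) (nat_lit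 0) (XT.nd (nat_lit 156) (nat_lit 304) (nat_lit 0) (XT.nd (nat_lit 78) (nat_lit 76) (nat_lit 0) (XT.lf (nat_lit 0) (nat_lit 168424049671) (nat_lit 228) (nat_lit 49335097431) (nat_lit 76) (nat_lit 93309030912) (nat_lit 72) (nat_lit 5) (nat_lit 75) (nat_lit 5) (nat_lit 73) (nat_lit 4) (nat_lit 471) (nat_lit 435) (nat_lit 294)) (XT.lf (nat_lit 0) (nat_lit 272273514276) (nat_lit 76) (nat_lit 53033061278) (nat_lit 152) (nat_lit 1970326897) (nat_lit 71) (nat_lit 5) (nat_lit 72) (nat_lit 5) (nat_lit 73) (nat_lit 4) (nat_lit 472) (nat_lit 435) (nat_lit 293))) (XT.nd (nat_lit 78) (nat_lit 76) (nat_lit 0) (XT.lf (nat_lit 0) (nat_lit 152529413783) (nat_lit 228) (nat_lit 63129454136) (nat_lit 76) (nat_lit 128637813799) (nat_lit 68) (nat_lit 5) (nat_lit 71) (nat_lit 5) (nat_lit 69) (nat_lit 4) (nat_lit 473) (nat_lit 435) (nat_lit 292)) (XT.lf (nat_lit 0) (nat_lit 291966188970) (nat_lit 76) (nat_lit 33780837272)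 (nat_lit 152) (nat_lit 36608055911) (nat_lit 67) (nat_lit 5) (nat_lit 68) (nat_lit 5) (nat_lit 69) (nat_lit 4) (nat_lit 474) (nat_lit 435) (nat_lit 291)))) (XT.nd (nat_lit 156) (nat_lit 228) (nat_lit 0) (XT.nd (nat_lit 78) (nat_lit 76) (nat_lit 0) (XT.lf (nat_lit 0) (nat_lit 135298018984) (nat_lit 152) (nat_lit 80558721087) (nat_lit 76) (nat_lit 165472889468) (nat_lit 65) (nat_lit 5) (nat_lit 67) (nat_lit 5) (nat_lit 66) (nat_lit 4) (nat_lit 475) (nat_lit 435) (nat_lit 290)) (XT.lf (nat_lit 0) (nat_lit 311126375117) (nat_lit 76) (nat_lit 15237728642) (nat_lit 152) (nat_lit 75093525769) (nat_lit 64) (nat_lit 5) (nat_lit 65) (nat_lit 5) (nat_lit 66) (nat_lit 4) (nat_lit 476) (nat_lit 435) (nat_lit 289))) (XT.nd (nat_lit 78) (nat_lit 76) (nat_lit 0) (XT.lf (nat_lit 0) (nat_lit 115753889264) (nat_lit 152) (nat_lit 103581086251) (nat_lit 76) (nat_lit 203288418867) (nat_lit 62) (nat_lit 5) (nat_lit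 64) (nat_lit 5) (nat_lit 63) (nat_lit 4) (nat_lit 477) (nat_lit 435) (nat_lit 288)) (XT.lf (nat_lit 0) (nat_lit 326275454176) (nat_lit 152) (nat_lit 117162732363) (nat_lit 0) (nat_lit 1630818418) (nat_lit 61) (nat_lit 5) (nat_lit 63) (nat_lit 4) (nat_lit 61) (nat_lit 4) (nat_lit 478) (nat_lit 435) (nat_lit 287))))))))
noncomputable def xc95 : XT := (XT.nd (nat_lit 59670) (nat_lit 0) (nat_lit 3116) (XT.nd (nat_lit 1248) (nat_lit 912) (nat_lit 0) (XT.nd (nat_lit 624) (nat_lit 760) (nat_lit 0) (XT.nd (nat_lit 312) (nat_lit 456) (nat_lit 0) (XT.nd (nat_lit 156) (nat_lit 228) (nat_lit 0) (XT.nd (nat_lit 78) (nat_lit 76) (nat_lit 0) (XT.lf (nat_lit 0) (nat_lit 92574344746) (nat_lit 152) (nat_lit 134867500897) (nat_lit 76) (nat_lit 241255343402) (nat_lit 59) (nat_lit 5) (nat_lit 61) (nat_lit 5) (nat_lit 60) (nat_lit 4) (nat_lit 479) (nat_lit 435) (nat_lit 286)) (XT.lf (nat_lit 0) (nat_lit 324369622539)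 (nat_lit 152) (nat_lit 154180882183) (nat_lit 0) (nat_lit 15183756480) (nat_lit 58) (nat_lit 5) (nat_lit 60) (nat_lit 4) (nat_lit 58) (nat_lit 4) (nat_lit 480) (nat_lit 435) (nat_lit 285))) (XT.nd (nat_lit 78) (nat_lit 76) (nat_lit 0) (XT.lf (nat_lit 0) (nat_lit 63978633634) (nat_lit 152) (nat_lit 178029889094) (nat_lit 76) (nat_lit 278135141081) (nat_lit 56) (nat_lit 5) (nat_lit 58) (nat_lit 5) (nat_lit 57) (nat_lit 4) (nat_lit 481) (nat_lit 435) (nat_lit 284)) (XT.lf (nat_lit 0) (nat_lit 318611699557) (nat_lit 152) (nat_lit 205338930600) (nat_lit 0) (nat_lit 24148562806) (nat_lit 55) (nat_lit 5) (nat_lit 57) (nat_lit 4) (nat_lit 55) (nat_lit 4) (nat_lit 482) (nat_lit 435) (nat_lit 283)))) (XT.nd (nat_lit 156) (nat_lit 228) (nat_lit 0) (XT.nd (nat_lit 78) (nat_lit 76) (nat_lit 0) (XT.lf (nat_lit 0) (nat_lit 27583093601) (nat_lit 152) (nat_lit 237917976123) (nat_lit 76) (nat_lit 312140666064)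 (nat_lit 53) (nat_lit 5) (nat_lit 55) (nat_lit 5) (nat_lit 54) (nat_lit 4) (nat_lit 483) (nat_lit 435) (nat_lit 282)) (XT.lf (nat_lit 0) (nat_lit 306543274567) (nat_lit 152) (nat_lit 276246239939) (nat_lit 0) (nat_lit 26101859487) (nat_lit 52) (nat_lit 5) (nat_lit 54) (nat_lit 4) (nat_lit 52) (nat_lit 4) (nat_lit 484) (nat_lit 435) (nat_lit 281))) (XT.nd (nat_lit 78) (nat_lit 152) (nat_lit 0) (XT.lf (nat_lit 0) (nat_lit 320632296941) (nat_lit 76) (nat_lit 300882755145) (nat_lit 76) (nat_lit 20441192067) (nat_lit 51) (nat_lit 4) (nat_lit 52) (nat_lit 5) (nat_lit 52) (nat_lit 4) (nat_lit 485) (nat_lit 435) (nat_lit 280)) (XT.lf (nat_lit 0) (nat_lit 284833537554) (nat_lit 152) (nat_lit 374369564806) (nat_lit 0) (nat_lit 17746204114) (nat_lit 49) (nat_lit 5) (nat_lit 51) (nat_lit 4) (nat_lit 49) (nat_lit 4) (nat_lit 486) (nat_lit 435) (nat_lit 279))))) (XT.nd (nat_lit 312) (nat_lit 304) (nat_lit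 0) (XT.nd (nat_lit 156) (nat_lit 228) (nat_lit 0) (XT.nd (nat_lit 78) (nat_lit 152) (nat_lit 0) (XT.lf (nat_lit 0) (nat_lit 276755555728) (nat_lit 76) (nat_lit 352151162811) (nat_lit 76) (nat_lit 85063708529) (nat_lit 48) (nat_lit 4) (nat_lit 49) (nat_lit 5) (nat_lit 49) (nat_lit 4) (nat_lit 487) (nat_lit 435) (nat_lit 278)) (XT.lf (nat_lit 0) (nat_lit 243550364211) (nat_lit 76) (nat_lit 5541309146) (nat_lit 152) (nat_lit 504147576319) (nat_lit 46) (nat_lit 5) (nat_lit 47) (nat_lit 5) (nat_lit 48) (nat_lit 4) (nat_lit 488) (nat_lit 435) (nat_lit 277))) (XT.nd (nat_lit 78) (nat_lit 152) (nat_lit 0) (XT.lf (nat_lit 0) (nat_lit 198144978638) (nat_lit 76) (nat_lit 425486243352) (nat_lit 76) (nat_lit 171117034044) (nat_lit 45) (nat_lit 4) (nat_lit 46) (nat_lit 5) (nat_lit 46) (nat_lit 4) (nat_lit 489) (nat_lit 435) (nat_lit 276)) (XT.lf (nat_lit 0) (nat_lit 143067930250) (nat_lit 76) (nat_lit 50803889709)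 (nat_lit 152) (nat_lit 644991426782) (nat_lit 43) (nat_lit 5) (nat_lit 44) (nat_lit 5) (nat_lit 45) (nat_lit 4) (nat_lit 490) (nat_lit 435) (nat_lit 275)))) (XT.nd (nat_lit 156) (nat_lit 152) (nat_lit 0) (XT.nd (nat_lit 78) (nat_lit 76) (nat_lit 0) (XT.lf (nat_lit 0) (nat_lit 70918445531) (nat_lit 76) (nat_lit 528420780574) (nat_lit 76) (nat_lit 286164223183) (nat_lit 42) (nat_lit 4) (nat_lit 43) (nat_lit 5) (nat_lit 43) (nat_lit 4) (nat_lit 491) (nat_lit 435) (nat_lit 274)) (XT.lf (nat_lit 0) (nat_lit 111300081149) (nat_lit 152) (nat_lit 14091465631) (nat_lit 76) (nat_lit 809745419900) (nat_lit 41) (nat_lit 5) (nat_lit 43) (nat_lit 5) (nat_lit 42) (nat_lit 4) (nat_lit 492) (nat_lit 435) (nat_lit 273))) (XT.nd (nat_lit 78) (nat_lit 76) (nat_lit 0) (XT.lf (nat_lit 0) (nat_lit 549449257755) (nat_lit 152) (nat_lit 119383080374) (nat_lit 0) (nat_lit 318728590080) (nat_lit 40) (nat_lit 5) (nat_lit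 42) (nat_lit 4) (nat_lit 40) (nat_lit 4) (nat_lit 493) (nat_lit 435) (nat_lit 272)) (XT.lf (nat_lit 0) (nat_lit 800879674782) (nat_lit 76) (nat_lit 236638241537) (nat_lit 76) (nat_lit 5917512952) (nat_lit 39) (nat_lit 4) (nat_lit 40) (nat_lit 5) (nat_lit 40) (nat_lit 4) (nat_lit 494) (nat_lit 435) (nat_lit 271)))))) (XT.nd (nat_lit 624) (nat_lit 76) (nat_lit 0) (XT.nd (nat_lit 312) (nat_lit 380) (nat_lit 0) (XT.nd (nat_lit 156) (nat_lit 228) (nat_lit 0) (XT.nd (nat_lit 78) (nat_lit 76) (nat_lit 0) (XT.lf (nat_lit 0) (nat_lit 463241723788) (nat_lit 152) (nat_lit 395813779356) (nat_lit 0) (nat_lit 243507642853) (nat_lit 37) (nat_lit 5) (nat_lit 39) (nat_lit 4) (nat_lit 37) (nat_lit 4) (nat_lit 495) (nat_lit 435) (nat_lit 270)) (XT.lf (nat_lit 0) (nat_lit 589147391398) (nat_lit 76) (nat_lit 398064350378) (nat_lit 76) (nat_lit 178330219710) (nat_lit 36) (nat_lit 4) (nat_lit 37) (nat_lit 5) (nat_lit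 37) (nat_lit 4) (nat_lit 496) (nat_lit 435) (nat_lit 269))) (XT.nd (nat_lit 78) (nat_lit 76) (nat_lit 0) (XT.lf (nat_lit 0) (nat_lit 325103783449) (nat_lit 152) (nat_lit 791583174398) (nat_lit 0) (nat_lit 115833138956) (nat_lit 34) (nat_lit 5) (nat_lit 36) (nat_lit 4) (nat_lit 34) (nat_lit 4) (nat_lit 497) (nat_lit 435) (nat_lit 268)) (XT.lf (nat_lit 0) (nat_lit 254133075335) (nat_lit 76) (nat_lit 629399756520) (nat_lit 76) (nat_lit 420129071420) (nat_lit 33) (nat_lit 4) (nat_lit 34) (nat_lit 5) (nat_lit 34) (nat_lit 4) (nat_lit 498) (nat_lit 435) (nat_lit 267)))) (XT.nd (nat_lit 156) (nat_lit 228) (nat_lit 0) (XT.nd (nat_lit 78) (nat_lit 0) (nat_lit 0) (XT.lf (nat_lit 0) (nat_lit 31079285299) (nat_lit 76) (nat_lit 86164621041) (nat_lit 152) (nat_lit 1262443293077) (nat_lit 31) (nat_lit 5) (nat_lit 32) (nat_lit 5) (nat_lit 33) (nat_lit 4) (nat_lit 499) (nat_lit 435) (nat_lit 266)) (XT.lf (nat_lit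 0) (nat_lit 709480507623) (nat_lit 152) (nat_lit 240464966190) (nat_lit 0) (nat_lit 510175024276) (nat_lit 31) (nat_lit 5) (nat_lit 33) (nat_lit 4) (nat_lit 31) (nat_lit 4) (nat_lit 500) (nat_lit 435) (nat_lit 265))) (XT.nd (nat_lit 78) (nat_lit 152) (nat_lit 0) (XT.lf (nat_lit 0) (nat_lit 986448652900) (nat_lit 76) (nat_lit 379501312687) (nat_lit 76) (nat_lit 180195798639) (nat_lit 30) (nat_lit 4) (nat_lit 31) (nat_lit 5) (nat_lit 31) (nat_lit 4) (nat_lit 501) (nat_lit 435) (nat_lit 264)) (XT.lf (nat_lit 0) (nat_lit 441120631556) (nat_lit 152) (nat_lit 945326936869) (nat_lit 0) (nat_lit 251305829200) (nat_lit 28) (nat_lit 5) (nat_lit 30) (nat_lit 4) (nat_lit 28) (nat_lit 4) (nat_lit 502) (nat_lit 435) (nat_lit 263))))) (XT.nd (nat_lit 57486) (nat_lit 0) (nat_lit 10488) (XT.nd (nat_lit 57330) (nat_lit 0) (nat_lit 10412) (XT.nd (nat_lit 57252) (nat_lit 0) (nat_lit 10336) (XT.lf (nat_lit 0) (nat_lit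 329451139631) (nat_lit 76) (nat_lit 797914405216) (nat_lit 76) (nat_lit 608099577792) (nat_lit 27) (nat_lit 4) (nat_lit 28) (nat_lit 5) (nat_lit 28) (nat_lit 4) (nat_lit 503) (nat_lit 435) (nat_lit 262)) (XT.lf (nat_lit 0) (nat_lit 14252680709) (nat_lit 836) (nat_lit 9079169095) (nat_lit 836) (nat_lit 9079169095) (nat_lit 163) (nat_lit 3) (nat_lit 174) (nat_lit 3) (nat_lit 174) (nat_lit 5) (nat_lit 436) (nat_lit 436) (nat_lit 328))) (XT.nd (nat_lit 78) (nat_lit 0) (nat_lit 0) (XT.lf (nat_lit 0) (nat_lit 30278278133) (nat_lit 760) (nat_lit 32858924227) (nat_lit 836) (nat_lit 4246079981) (nat_lit 164) (nat_lit 5) (nat_lit 174) (nat_lit 5) (nat_lit 175) (nat_lit 5) (nat_lit 437) (nat_lit 436) (nat_lit 327)) (XT.lf (nat_lit 76) (nat_lit 21842105143) (nat_lit 0) (nat_lit 11797855352) (nat_lit 836) (nat_lit 36437119521) (nat_lit 165) (nat_lit 5) (nat_lit 164) (nat_lit 5) (nat_lit 175) (nat_lit 5) (nat_lit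 438) (nat_lit 436) (nat_lit 326)))) (XT.nd (nat_lit 156) (nat_lit 0) (nat_lit 152) (XT.nd (nat_lit 78) (nat_lit 0) (nat_lit 76) (XT.lf (nat_lit 76) (nat_lit 8721612034) (nat_lit 0) (nat_lit 29946135729) (nat_lit 836) (nat_lit 34248775398) (nat_lit 166) (nat_lit 5) (nat_lit 165) (nat_lit 5) (nat_lit 176) (nat_lit 5) (nat_lit 439) (nat_lit 436) (nat_lit 325)) (XT.lf (nat_lit 0) (nat_lit 45547198988) (nat_lit 760) (nat_lit 4596793963) (nat_lit 836) (nat_lit 25766656918) (nat_lit 166) (nat_lit 5) (nat_lit 176) (nat_lit 5) (nat_lit 177) (nat_lit 5) (nat_lit 440) (nat_lit 436) (nat_lit 324))) (XT.nd (nat_lit 78) (nat_lit 0) (nat_lit 0) (XT.lf (nat_lit 0) (nat_lit 54541826611) (nat_lit 760) (nat_lit 17955040460) (nat_lit 836) (nat_lit 6569198775) (nat_lit 167) (nat_lit 5) (nat_lit 177) (nat_lit 5) (nat_lit 178) (nat_lit 5) (nat_lit 441) (nat_lit 436) (nat_lit 323)) (XT.lf (nat_lit 76) (nat_lit 50538961278)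 (nat_lit 0) (nat_lit 15431219066) (nat_lit 836) (nat_lit 16418027097) (nat_lit 168) (nat_lit 5) (nat_lit 167) (nat_lit 5) (nat_lit 178) (nat_lit 5) (nat_lit 442) (nat_lit 436) (nat_lit 322))))))) (XT.nd (nat_lit 1248) (nat_lit 2584) (nat_lit 0) (XT.nd (nat_lit 624) (nat_lit 1976) (nat_lit 0) (XT.nd (nat_lit 312) (nat_lit 988) (nat_lit 0) (XT.nd (nat_lit 156) (nat_lit 760) (nat_lit 0) (XT.nd (nat_lit 78) (nat_lit 532) (nat_lit 0) (XT.lf (nat_lit 0) (nat_lit 39737067427) (nat_lit 760) (nat_lit 40233652764) (nat_lit 836) (nat_lit 5922504410) (nat_lit 158) (nat_lit 5) (nat_lit 168) (nat_lit 5) (nat_lit 169) (nat_lit 5) (nat_lit 443) (nat_lit 436) (nat_lit 321)) (XT.lf (nat_lit 0) (nat_lit 6869234491) (nat_lit 532) (nat_lit 60850143744) (nat_lit 76) (nat_lit 21873549005) (nat_lit 151) (nat_lit 5) (nat_lit 158) (nat_lit 5) (nat_lit 152) (nat_lit 5) (nat_lit 444) (nat_lit 436) (nat_lit 320))) (XT.nd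 (nat_lit 78) (nat_lit 380) (nat_lit 0) (XT.lf (nat_lit 0) (nat_lit 17500623602) (nat_lit 380) (nat_lit 4746291659) (nat_lit 456) (nat_lit 71248331495) (nat_lit 146) (nat_lit 5) (nat_lit 151) (nat_lit 5) (nat_lit 152) (nat_lit 5) (nat_lit 445) (nat_lit 436) (nat_lit 319)) (XT.lf (nat_lit 0) (nat_lit 5815134647) (nat_lit 380) (nat_lit 35194127788) (nat_lit 456) (nat_lit 56592766899) (nat_lit 141) (nat_lit 5) (nat_lit 146) (nat_lit 5) (nat_lit 147) (nat_lit 5) (nat_lit 446) (nat_lit 436) (nat_lit 318)))) (XT.nd (nat_lit 156) (nat_lit 684) (nat_lit 0) (XT.nd (nat_lit 78) (nat_lit 304) (nat_lit 0) (XT.lf (nat_lit 0) (nat_lit 63206569193) (nat_lit 456) (nat_lit 5700795075) (nat_lit 76) (nat_lit 33033291748) (nat_lit 141) (nat_lit 5) (nat_lit 147) (nat_lit 5) (nat_lit 142) (nat_lit 5) (nat_lit 447) (nat_lit 436) (nat_lit 317)) (XT.lf (nat_lit 0) (nat_lit 89175706900) (nat_lit 380) (nat_lit 16989389453)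 (nat_lit 76) (nat_lit 361474241) (nat_lit 137) (nat_lit 5) (nat_lit 142) (nat_lit 5) (nat_lit 138) (nat_lit 5) (nat_lit 448) (nat_lit 436) (nat_lit 316))) (XT.nd (nat_lit 78) (nat_lit 304) (nat_lit 0) (XT.lf (nat_lit 0) (nat_lit 8152343826) (nat_lit 380) (nat_lit 28881043325) (nat_lit 76) (nat_lit 74311831082) (nat_lit 132) (nat_lit 5) (nat_lit 137) (nat_lit 5) (nat_lit 133) (nat_lit 5) (nat_lit 449) (nat_lit 436) (nat_lit 315)) (XT.lf (nat_lit 0) (nat_lit 37200263609) (nat_lit 380) (nat_lit 40994565695) (nat_lit 76) (nat_lit 38234689156) (nat_lit 128) (nat_lit 5) (nat_lit 133) (nat_lit 5) (nat_lit 129) (nat_lit 5) (nat_lit 450) (nat_lit 436) (nat_lit 314))))) (XT.nd (nat_lit 312) (nat_lit 836) (nat_lit 0) (XT.nd (nat_lit 156) (nat_lit 608) (nat_lit 0) (XT.nd (nat_lit 78) (nat_lit 228) (nat_lit 0) (XT.lf (nat_lit 0) (nat_lit 68800129653) (nat_lit 304) (nat_lit 1980769943) (nat_lit 380) (nat_lit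 51029219041) (nat_lit 124) (nat_lit 5) (nat_lit 128) (nat_lit 5) (nat_lit 129) (nat_lit 5) (nat_lit 451) (nat_lit 436) (nat_lit 313)) (XT.lf (nat_lit 0) (nat_lit 61973133193) (nat_lit 228) (nat_lit 48021402802) (nat_lit 304) (nat_lit 17479303412) (nat_lit 121) (nat_lit 5) (nat_lit 124) (nat_lit 5) (nat_lit 125) (nat_lit 5) (nat_lit 452) (nat_lit 436) (nat_lit 312))) (XT.nd (nat_lit 78) (nat_lit 228) (nat_lit 0) (XT.lf (nat_lit 0) (nat_lit 20560185606) (nat_lit 380) (nat_lit 78093596901) (nat_lit 76) (nat_lit 34801942554) (nat_lit 116) (nat_lit 5) (nat_lit 121) (nat_lit 5) (nat_lit 117) (nat_lit 5) (nat_lit 453) (nat_lit 436) (nat_lit 311)) (XT.lf (nat_lit 0) (nat_lit 48811695434) (nat_lit 228) (nat_lit 14957509472) (nat_lit 304) (nat_lit 75995691370) (nat_lit 113) (nat_lit 5) (nat_lit 116) (nat_lit 5) (nat_lit 117) (nat_lit 5) (nat_lit 454) (nat_lit 436) (nat_lit 310)))) (XT.nd (nat_lit 156)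 (nat_lit 380) (nat_lit 0) (XT.nd (nat_lit 78) (nat_lit 228) (nat_lit 0) (XT.lf (nat_lit 0) (nat_lit 42299854739) (nat_lit 228) (nat_lit 71355011068) (nat_lit 304) (nat_lit 32762939421) (nat_lit 110) (nat_lit 5) (nat_lit 113) (nat_lit 5) (nat_lit 114) (nat_lit 5) (nat_lit 455) (nat_lit 436) (nat_lit 309)) (XT.lf (nat_lit 0) (nat_lit 16239062260) (nat_lit 228) (nat_lit 117181283916) (nat_lit 76) (nat_lit 20033906345) (nat_lit 107) (nat_lit 5) (nat_lit 110) (nat_lit 5) (nat_lit 108) (nat_lit 5) (nat_lit 456) (nat_lit 436) (nat_lit 308))) (XT.nd (nat_lit 78) (nat_lit 152) (nat_lit 0) (XT.lf (nat_lit 0) (nat_lit 29818022556) (nat_lit 228) (nat_lit 41721999056) (nat_lit 304) (nat_lit 89310406586) (nat_lit 104) (nat_lit 5) (nat_lit 107) (nat_lit 5) (nat_lit 108) (nat_lit 5) (nat_lit 457) (nat_lit 436) (nat_lit 307)) (XT.lf (nat_lit 0) (nat_lit 23859720547) (nat_lit 152) (nat_lit 110746566104) (nat_lit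 228) (nat_lit 34064949864) (nat_lit 102) (nat_lit 5) (nat_lit 104) (nat_lit 5) (nat_lit 105) (nat_lit 5) (nat_lit 458) (nat_lit 436) (nat_lit 306)))))) (XT.nd (nat_lit 624) (nat_lit 1216) (nat_lit 0) (XT.nd (nat_lit 312) (nat_lit 532) (nat_lit 0) (XT.nd (nat_lit 156) (nat_lit 380) (nat_lit 0) (XT.nd (nat_lit 78) (nat_lit 152) (nat_lit 0) (XT.lf (nat_lit 0) (nat_lit 18261432878) (nat_lit 228) (nat_lit 9827135133) (nat_lit 304) (nat_lit 148843767562) (nat_lit 98) (nat_lit 5) (nat_lit 101) (nat_lit 5) (nat_lit 102) (nat_lit 5) (nat_lit 459) (nat_lit 436) (nat_lit 305)) (XT.lf (nat_lit 0) (nat_lit 12043489062) (nat_lit 152) (nat_lit 86292810349) (nat_lit 228) (nat_lit 87274330980) (nat_lit 96) (nat_lit 5) (nat_lit 98) (nat_lit 5) (nat_lit 99) (nat_lit 5) (nat_lit 460) (nat_lit 436) (nat_lit 304))) (XT.nd (nat_lit 78) (nat_lit 228) (nat_lit 0) (XT.lf (nat_lit 0) (nat_lit 6906122781) (nat_lit 152)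 (nat_lit 170718707605) (nat_lit 228) (nat_lit 17187309382) (nat_lit 94) (nat_lit 5) (nat_lit 96) (nat_lit 5) (nat_lit 97) (nat_lit 5) (nat_lit 461) (nat_lit 436) (nat_lit 303)) (XT.lf (nat_lit 0) (nat_lit 1030471828) (nat_lit 152) (nat_lit 60147091607) (nat_lit 228) (nat_lit 143299360402) (nat_lit 91) (nat_lit 5) (nat_lit 93) (nat_lit 5) (nat_lit 94) (nat_lit 5) (nat_lit 462) (nat_lit 436) (nat_lit 302)))) (XT.nd (nat_lit 156) (nat_lit 304) (nat_lit 0) (XT.nd (nat_lit 78) (nat_lit 228) (nat_lit 0) (XT.lf (nat_lit 0) (nat_lit 149469111598) (nat_lit 228) (nat_lit 4229221249) (nat_lit 76) (nat_lit 60989487591) (nat_lit 91) (nat_lit 5) (nat_lit 94) (nat_lit 5) (nat_lit 92) (nat_lit 5) (nat_lit 463) (nat_lit 436) (nat_lit 301)) (XT.lf (nat_lit 0) (nat_lit 22968170571) (nat_lit 228) (nat_lit 9015313636) (nat_lit 76) (nat_lit 193493619612) (nat_lit 88) (nat_lit 5) (nat_lit 91) (nat_lit 5) (nat_lit 89)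 (nat_lit 5) (nat_lit 464) (nat_lit 436) (nat_lit 300))) (XT.nd (nat_lit 78) (nat_lit 152) (nat_lit 0) (XT.lf (nat_lit 0) (nat_lit 121155111449) (nat_lit 228) (nat_lit 14628105092) (nat_lit 76) (nat_lit 101031352541) (nat_lit 86) (nat_lit 5) (nat_lit 89) (nat_lit 5) (nat_lit 87) (nat_lit 5) (nat_lit 465) (nat_lit 436) (nat_lit 299)) (XT.lf (nat_lit 0) (nat_lit 229972868750) (nat_lit 152) (nat_lit 1513023267) (nat_lit 228) (nat_lit 17358695343) (nat_lit 84) (nat_lit 5) (nat_lit 86) (nat_lit 5) (nat_lit 87) (nat_lit 5) (nat_lit 466) (nat_lit 436) (nat_lit 298))))) (XT.nd (nat_lit 312) (nat_lit 608) (nat_lit 0) (XT.nd (nat_lit 156) (nat_lit 304) (nat_lit 0) (XT.nd (nat_lit 78) (nat_lit 152) (nat_lit 0) (XT.lf (nat_lit 0) (nat_lit 92283855811) (nat_lit 152) (nat_lit 24795572209) (nat_lit 76) (nat_lit 144372249537) (nat_lit 82) (nat_lit 5) (nat_lit 84) (nat_lit 5) (nat_lit 83) (nat_lit 5) (nat_lit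 467) (nat_lit 436) (nat_lit 297)) (XT.lf (nat_lit 0) (nat_lit 214786149873) (nat_lit 228) (nat_lit 29543122651) (nat_lit 76) (nat_lit 30489008872) (nat_lit 80) (nat_lit 5) (nat_lit 83) (nat_lit 5) (nat_lit 81) (nat_lit 4) (nat_lit 468) (nat_lit 436) (nat_lit 296))) (XT.nd (nat_lit 78) (nat_lit 152) (nat_lit 0) (XT.lf (nat_lit 0) (nat_lit 62478571249) (nat_lit 152) (nat_lit 35165742205) (nat_lit 76) (nat_lit 191239991248) (nat_lit 78) (nat_lit 5) (nat_lit 80) (nat_lit 5) (nat_lit 79) (nat_lit 5) (nat_lit 469) (nat_lit 436) (nat_lit 295)) (XT.lf (nat_lit 0) (nat_lit 198402199853) (nat_lit 228) (nat_lit 40757521303) (nat_lit 76) (nat_lit 64580916908) (nat_lit 76) (nat_lit 5) (nat_lit 79) (nat_lit 5) (nat_lit 77) (nat_lit 4) (nat_lit 470) (nat_lit 436) (nat_lit 294)))) (XT.nd (nat_lit 156) (nat_lit 304) (nat_lit 0) (XT.nd (nat_lit 78) (nat_lit 152) (nat_lit 0) (XT.lf (nat_lit 0) (nat_lit 31248053978)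 (nat_lit 152) (nat_lit 46378650975) (nat_lit 76) (nat_lit 241806572388) (nat_lit 74) (nat_lit 5) (nat_lit 76) (nat_lit 5) (nat_lit 75) (nat_lit 5) (nat_lit 471) (nat_lit 436) (nat_lit 293)) (XT.lf (nat_lit 0) (nat_lit 181907125563) (nat_lit 228) (nat_lit 53264846208) (nat_lit 76) (nat_lit 100781202726) (nat_lit 72) (nat_lit 5) (nat_lit 75) (nat_lit 5) (nat_lit 73) (nat_lit 4) (nat_lit 472) (nat_lit 436) (nat_lit 292))) (XT.nd (nat_lit 78) (nat_lit 228) (nat_lit 0) (XT.lf (nat_lit 0) (nat_lit 294071713071) (nat_lit 76) (nat_lit 57268117290) (nat_lit 152) (nat_lit 2118787698) (nat_lit 71) (nat_lit 5) (nat_lit 72) (nat_lit 5) (nat_lit 73) (nat_lit 4) (nat_lit 473) (nat_lit 436) (nat_lit 291)) (XT.lf (nat_lit 0) (nat_lit 164740345724) (nat_lit 228) (nat_lit 68163613891) (nat_lit 76) (nat_lit 138936027565) (nat_lit 68) (nat_lit 5) (nat_lit 71) (nat_lit 5) (nat_lit 69) (nat_lit 4) (nat_lit 474) (nat_lit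 436) (nat_lit 290))))))))
noncomputable def xc96 : XT := (XT.nd (nat_lit 59670) (nat_lit 0) (nat_lit 3800) (XT.nd (nat_lit 1170) (nat_lit 1368) (nat_lit 0) (XT.nd (nat_lit 546) (nat_lit 912) (nat_lit 0) (XT.nd (nat_lit 234) (nat_lit 456) (nat_lit 0) (XT.nd (nat_lit 78) (nat_lit 228) (nat_lit 0) (XT.lf (nat_lit 0) (nat_lit 315338976780) (nat_lit 76) (nat_lit 36475996815) (nat_lit 152) (nat_lit 39528105744) (nat_lit 67) (nat_lit 5) (nat_lit 68) (nat_lit 5) (nat_lit 69) (nat_lit 4) (nat_lit 475) (nat_lit 436) (nat_lit 289)) (XT.nd (nat_lit 78) (nat_lit 76) (nat_lit 0) (XT.lf (nat_lit 0) (nat_lit 146129910815) (nat_lit 152) (nat_lit 86988050624) (nat_lit 76) (nat_lit 178717635839) (nat_lit 65) (nat_lit 5) (nat_lit 67) (nat_lit 5) (nat_lit 66) (nat_lit 4) (nat_lit 476) (nat_lit 436) (nat_lit 288)) (XT.lf (nat_lit 0) (nat_lit 336031185395) (nat_lit 76) (nat_lit 16449730170) (nat_lit 152) (nat_lit 81092940050)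 (nat_lit 64) (nat_lit 5) (nat_lit 65) (nat_lit 5) (nat_lit 66) (nat_lit 4) (nat_lit 477) (nat_lit 436) (nat_lit 287)))) (XT.nd (nat_lit 156) (nat_lit 228) (nat_lit 0) (XT.nd (nat_lit 78) (nat_lit 76) (nat_lit 0) (XT.lf (nat_lit 0) (nat_lit 125021761886) (nat_lit 152) (nat_lit 111852998848) (nat_lit 76) (nat_lit 219558127036) (nat_lit 62) (nat_lit 5) (nat_lit 64) (nat_lit 5) (nat_lit 63) (nat_lit 4) (nat_lit 478) (nat_lit 436) (nat_lit 286)) (XT.lf (nat_lit 0) (nat_lit 352384814486) (nat_lit 152) (nat_lit 126521553945) (nat_lit 0) (nat_lit 1767790642) (nat_lit 61) (nat_lit 5) (nat_lit 63) (nat_lit 4) (nat_lit 61) (nat_lit 4) (nat_lit 479) (nat_lit 436) (nat_lit 285))) (XT.nd (nat_lit 78) (nat_lit 76) (nat_lit 0) (XT.lf (nat_lit 0) (nat_lit 99987400528) (nat_lit 152) (nat_lit 145643085845) (nat_lit 76) (nat_lit 260562122314) (nat_lit 59) (nat_lit 5) (nat_lit 61) (nat_lit 5) (nat_lit 60) (nat_lit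 4) (nat_lit 480) (nat_lit 436) (nat_lit 284)) (XT.lf (nat_lit 0) (nat_lit 350326080670) (nat_lit 152) (nat_lit 166501898895) (nat_lit 0) (nat_lit 16404678051) (nat_lit 58) (nat_lit 5) (nat_lit 60) (nat_lit 4) (nat_lit 58) (nat_lit 4) (nat_lit 481) (nat_lit 436) (nat_lit 283))))) (XT.nd (nat_lit 312) (nat_lit 456) (nat_lit 0) (XT.nd (nat_lit 156) (nat_lit 228) (nat_lit 0) (XT.nd (nat_lit 78) (nat_lit 76) (nat_lit 0) (XT.lf (nat_lit 0) (nat_lit 69103611242) (nat_lit 152) (nat_lit 192259189888) (nat_lit 76) (nat_lit 300392021378) (nat_lit 56) (nat_lit 5) (nat_lit 58) (nat_lit 5) (nat_lit 57) (nat_lit 4) (nat_lit 482) (nat_lit 436) (nat_lit 282)) (XT.lf (nat_lit 0) (nat_lit 344107118381) (nat_lit 152) (nat_lit 221753299970) (nat_lit 0) (nat_lit 26086385851) (nat_lit 55) (nat_lit 5) (nat_lit 57) (nat_lit 4) (nat_lit 55) (nat_lit 4) (nat_lit 483) (nat_lit 436) (nat_lit 281))) (XT.nd (nat_lit 78) (nat_lit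 76) (nat_lit 0) (XT.lf (nat_lit 0) (nat_lit 29796035649) (nat_lit 152) (nat_lit 256939014846) (nat_lit 76) (nat_lit 337117709380) (nat_lit 53) (nat_lit 5) (nat_lit 55) (nat_lit 5) (nat_lit 54) (nat_lit 4) (nat_lit 484) (nat_lit 436) (nat_lit 280)) (XT.lf (nat_lit 0) (nat_lit 331072841293) (nat_lit 152) (nat_lit 298333869199) (nat_lit 0) (nat_lit 28195668138) (nat_lit 52) (nat_lit 5) (nat_lit 54) (nat_lit 4) (nat_lit 52) (nat_lit 4) (nat_lit 485) (nat_lit 436) (nat_lit 279)))) (XT.nd (nat_lit 156) (nat_lit 228) (nat_lit 0) (XT.nd (nat_lit 78) (nat_lit 152) (nat_lit 0) (XT.lf (nat_lit 0) (nat_lit 346294426086) (nat_lit 76) (nat_lit 324947662978) (nat_lit 76) (nat_lit 22070362939) (nat_lit 51) (nat_lit 4) (nat_lit 52) (nat_lit 5) (nat_lit 52) (nat_lit 4) (nat_lit 486) (nat_lit 436) (nat_lit 278)) (XT.lf (nat_lit 0) (nat_lit 307625972143) (nat_lit 152) (nat_lit 404307702446) (nat_lit 0) (nat_lit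 19171288787) (nat_lit 49) (nat_lit 5) (nat_lit 51) (nat_lit 4) (nat_lit 49) (nat_lit 4) (nat_lit 487) (nat_lit 436) (nat_lit 277))) (XT.nd (nat_lit 78) (nat_lit 152) (nat_lit 0) (XT.lf (nat_lit 0) (nat_lit 298906931103) (nat_lit 76) (nat_lit 380317821122) (nat_lit 76) (nat_lit 91863034164) (nat_lit 48) (nat_lit 4) (nat_lit 49) (nat_lit 5) (nat_lit 49) (nat_lit 4) (nat_lit 488) (nat_lit 436) (nat_lit 276)) (XT.lf (nat_lit 0) (nat_lit 263045025933) (nat_lit 76) (nat_lit 5979319831) (nat_lit 152) (nat_lit 544473776928) (nat_lit 46) (nat_lit 5) (nat_lit 47) (nat_lit 5) (nat_lit 48) (nat_lit 4) (nat_lit 489) (nat_lit 436) (nat_lit 275)))))) (XT.nd (nat_lit 624) (nat_lit 608) (nat_lit 0) (XT.nd (nat_lit 312) (nat_lit 380) (nat_lit 0) (XT.nd (nat_lit 156) (nat_lit 152) (nat_lit 0) (XT.nd (nat_lit 78) (nat_lit 152) (nat_lit 0) (XT.lf (nat_lit 0) (nat_lit 214006923727) (nat_lit 76) (nat_lit 459519977189)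 (nat_lit 76) (nat_lit 184800956514) (nat_lit 45) (nat_lit 4) (nat_lit 46) (nat_lit 5) (nat_lit 46) (nat_lit 4) (nat_lit 490) (nat_lit 436) (nat_lit 274)) (XT.lf (nat_lit 0) (nat_lit 154523428390) (nat_lit 76) (nat_lit 54863170337) (nat_lit 152) (nat_lit 696585456072) (nat_lit 43) (nat_lit 5) (nat_lit 44) (nat_lit 5) (nat_lit 45) (nat_lit 4) (nat_lit 491) (nat_lit 436) (nat_lit 273))) (XT.nd (nat_lit 78) (nat_lit 76) (nat_lit 0) (XT.lf (nat_lit 0) (nat_lit 76601713153) (nat_lit 76) (nat_lit 570689536986) (nat_lit 76) (nat_lit 309052230771) (nat_lit 42) (nat_lit 4) (nat_lit 43) (nat_lit 5) (nat_lit 43) (nat_lit 4) (nat_lit 492) (nat_lit 436) (nat_lit 272)) (XT.lf (nat_lit 0) (nat_lit 120208685850) (nat_lit 152) (nat_lit 15209564176) (nat_lit 76) (nat_lit 874529444059) (nat_lit 41) (nat_lit 5) (nat_lit 43) (nat_lit 5) (nat_lit 42) (nat_lit 4) (nat_lit 493) (nat_lit 436) (nat_lit 271)))) (XT.nd (nat_lit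 156) (nat_lit 228) (nat_lit 0) (XT.nd (nat_lit 78) (nat_lit 76) (nat_lit 0) (XT.lf (nat_lit 0) (nat_lit 593409662703) (nat_lit 152) (nat_lit 128924758003) (nat_lit 0) (nat_lit 344231158526) (nat_lit 40) (nat_lit 5) (nat_lit 42) (nat_lit 4) (nat_lit 40) (nat_lit 4) (nat_lit 494) (nat_lit 436) (nat_lit 270)) (XT.lf (nat_lit 0) (nat_lit 864958627793) (nat_lit 76) (nat_lit 255564989411) (nat_lit 76) (nat_lit 6386433013) (nat_lit 39) (nat_lit 4) (nat_lit 40) (nat_lit 5) (nat_lit 40) (nat_lit 4) (nat_lit 495) (nat_lit 436) (nat_lit 269))) (XT.nd (nat_lit 78) (nat_lit 76) (nat_lit 0) (XT.lf (nat_lit 0) (nat_lit 500305273736) (nat_lit 152) (nat_lit 427470396493) (nat_lit 0) (nat_lit 262992316832) (nat_lit 37) (nat_lit 5) (nat_lit 39) (nat_lit 4) (nat_lit 37) (nat_lit 4) (nat_lit 496) (nat_lit 436) (nat_lit 268)) (XT.lf (nat_lit 0) (nat_lit 636287299165) (nat_lit 76) (nat_lit 429905408715) (nat_lit 76)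 (nat_lit 192592409173) (nat_lit 36) (nat_lit 4) (nat_lit 37) (nat_lit 5) (nat_lit 37) (nat_lit 4) (nat_lit 497) (nat_lit 436) (nat_lit 267))))) (XT.nd (nat_lit 312) (nat_lit 228) (nat_lit 0) (XT.nd (nat_lit 156) (nat_lit 152) (nat_lit 0) (XT.nd (nat_lit 78) (nat_lit 76) (nat_lit 0) (XT.lf (nat_lit 0) (nat_lit 351116061122) (nat_lit 152) (nat_lit 854901801658) (nat_lit 0) (nat_lit 125103643006) (nat_lit 34) (nat_lit 5) (nat_lit 36) (nat_lit 4) (nat_lit 34) (nat_lit 4) (nat_lit 498) (nat_lit 436) (nat_lit 266)) (XT.lf (nat_lit 0) (nat_lit 274471399224) (nat_lit 76) (nat_lit 679747859605) (nat_lit 76) (nat_lit 453735406675) (nat_lit 33) (nat_lit 4) (nat_lit 34) (nat_lit 5) (nat_lit 34) (nat_lit 4) (nat_lit 499) (nat_lit 436) (nat_lit 265))) (XT.nd (nat_lit 78) (nat_lit 0) (nat_lit 0) (XT.lf (nat_lit 0) (nat_lit 33573094493) (nat_lit 76) (nat_lit 93054017535) (nat_lit 152) (nat_lit 1363434878674)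 (nat_lit 31) (nat_lit 5) (nat_lit 32) (nat_lit 5) (nat_lit 33) (nat_lit 4) (nat_lit 500) (nat_lit 436) (nat_lit 264)) (XT.lf (nat_lit 0) (nat_lit 766242422391) (nat_lit 152) (nat_lit 259695133736) (nat_lit 0) (nat_lit 550992408092) (nat_lit 31) (nat_lit 5) (nat_lit 33) (nat_lit 4) (nat_lit 31) (nat_lit 4) (nat_lit 501) (nat_lit 436) (nat_lit 263)))) (XT.nd (nat_lit 57408) (nat_lit 0) (nat_lit 10260) (XT.nd (nat_lit 78) (nat_lit 152) (nat_lit 0) (XT.lf (nat_lit 0) (nat_lit 1065371269378) (nat_lit 76) (nat_lit 409858015254) (nat_lit 76) (nat_lit 194607974634) (nat_lit 30) (nat_lit 4) (nat_lit 31) (nat_lit 5) (nat_lit 31) (nat_lit 4) (nat_lit 502) (nat_lit 436) (nat_lit 262)) (XT.lf (nat_lit 0) (nat_lit 476413562025) (nat_lit 152) (nat_lit 1020946443277) (nat_lit 0) (nat_lit 271413500129) (nat_lit 28) (nat_lit 5) (nat_lit 30) (nat_lit 4) (nat_lit 28) (nat_lit 4) (nat_lit 503) (nat_lit 436) (nat_lit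 261))) (XT.nd (nat_lit 78) (nat_lit 0) (nat_lit 76) (XT.lf (nat_lit 0) (nat_lit 15416388628) (nat_lit 836) (nat_lit 9793167648) (nat_lit 836) (nat_lit 9793167648) (nat_lit 163) (nat_lit 3) (nat_lit 174) (nat_lit 3) (nat_lit 174) (nat_lit 5) (nat_lit 437) (nat_lit 437) (nat_lit 326)) (XT.lf (nat_lit 0) (nat_lit 32744098643) (nat_lit 760) (nat_lit 35461526662) (nat_lit 836) (nat_lit 4566138353) (nat_lit 164) (nat_lit 5) (nat_lit 174) (nat_lit 5) (nat_lit 175) (nat_lit 5) (nat_lit 438) (nat_lit 437) (nat_lit 325))))))) (XT.nd (nat_lit 1248) (nat_lit 2888) (nat_lit 0) (XT.nd (nat_lit 624) (nat_lit 2280) (nat_lit 0) (XT.nd (nat_lit 312) (nat_lit 1368) (nat_lit 0) (XT.nd (nat_lit 156) (nat_lit 0) (nat_lit 152) (XT.nd (nat_lit 78) (nat_lit 0) (nat_lit 76) (XT.lf (nat_lit 76) (nat_lit 23614450284) (nat_lit 0) (nat_lit 12757428728) (nat_lit 836) (nat_lit 39309328212) (nat_lit 165) (nat_lit 5) (nat_lit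 164) (nat_lit 5) (nat_lit 175) (nat_lit 5) (nat_lit 439) (nat_lit 437) (nat_lit 324)) (XT.lf (nat_lit 76) (nat_lit 9445417980) (nat_lit 0) (nat_lit 32353634383) (nat_lit 836) (nat_lit 36948895533) (nat_lit 166) (nat_lit 5) (nat_lit 165) (nat_lit 5) (nat_lit 176) (nat_lit 5) (nat_lit 440) (nat_lit 437) (nat_lit 323))) (XT.nd (nat_lit 78) (nat_lit 0) (nat_lit 76) (XT.lf (nat_lit 0) (nat_lit 49225882708) (nat_lit 760) (nat_lit 4938464838) (nat_lit 836) (nat_lit 27817406256) (nat_lit 166) (nat_lit 5) (nat_lit 176) (nat_lit 5) (nat_lit 177) (nat_lit 5) (nat_lit 441) (nat_lit 437) (nat_lit 322)) (XT.lf (nat_lit 0) (nat_lit 58937762814) (nat_lit 760) (nat_lit 19364744761) (nat_lit 836) (nat_lit 7087211567) (nat_lit 167) (nat_lit 5) (nat_lit 177) (nat_lit 5) (nat_lit 178) (nat_lit 5) (nat_lit 442) (nat_lit 437) (nat_lit 321)))) (XT.nd (nat_lit 156) (nat_lit 912) (nat_lit 0) (XT.nd (nat_lit 78) (nat_lit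 684) (nat_lit 0) (XT.lf (nat_lit 76) (nat_lit 54607616813) (nat_lit 0) (nat_lit 16670752683) (nat_lit 836) (nat_lit 17699363519) (nat_lit 168) (nat_lit 5) (nat_lit 167) (nat_lit 5) (nat_lit 178) (nat_lit 5) (nat_lit 443) (nat_lit 437) (nat_lit 320)) (XT.lf (nat_lit 0) (nat_lit 42942001272) (nat_lit 760) (nat_lit 43455019101) (nat_lit 836) (nat_lit 6366227951) (nat_lit 158) (nat_lit 5) (nat_lit 168) (nat_lit 5) (nat_lit 169) (nat_lit 5) (nat_lit 444) (nat_lit 437) (nat_lit 319))) (XT.nd (nat_lit 78) (nat_lit 380) (nat_lit 0) (XT.lf (nat_lit 0) (nat_lit 7446108102) (nat_lit 532) (nat_lit 65690997820) (nat_lit 76) (nat_lit 23621886888) (nat_lit 151) (nat_lit 5) (nat_lit 158) (nat_lit 5) (nat_lit 152) (nat_lit 5) (nat_lit 445) (nat_lit 437) (nat_lit 318)) (XT.lf (nat_lit 0) (nat_lit 18926650685) (nat_lit 380) (nat_lit 5125733422) (nat_lit 456) (nat_lit 76921194881) (nat_lit 146) (nat_lit 5) (nat_lit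 151) (nat_lit 5) (nat_lit 152) (nat_lit 5) (nat_lit 446) (nat_lit 437) (nat_lit 317))))) (XT.nd (nat_lit 312) (nat_lit 1216) (nat_lit 0) (XT.nd (nat_lit 156) (nat_lit 684) (nat_lit 0) (XT.nd (nat_lit 78) (nat_lit 0) (nat_lit 0) (XT.lf (nat_lit 0) (nat_lit 6306421325) (nat_lit 380) (nat_lit 38007803767) (nat_lit 456) (nat_lit 61094753906) (nat_lit 141) (nat_lit 5) (nat_lit 146) (nat_lit 5) (nat_lit 147) (nat_lit 5) (nat_lit 447) (nat_lit 437) (nat_lit 316)) (XT.lf (nat_lit 0) (nat_lit 68285549000) (nat_lit 456) (nat_lit 6131618274) (nat_lit 76) (nat_lit 35677617029) (nat_lit 141) (nat_lit 5) (nat_lit 147) (nat_lit 5) (nat_lit 142) (nat_lit 5) (nat_lit 448) (nat_lit 437) (nat_lit 315))) (XT.nd (nat_lit 78) (nat_lit 380) (nat_lit 0) (XT.lf (nat_lit 0) (nat_lit 96330977848) (nat_lit 380) (nat_lit 18323383808) (nat_lit 76) (nat_lit 393272495) (nat_lit 137) (nat_lit 5) (nat_lit 142) (nat_lit 5) (nat_lit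 138) (nat_lit 5) (nat_lit 449) (nat_lit 437) (nat_lit 314)) (XT.lf (nat_lit 0) (nat_lit 8824879394) (nat_lit 380) (nat_lit 31166789265) (nat_lit 76) (nat_lit 80260148420) (nat_lit 132) (nat_lit 5) (nat_lit 137) (nat_lit 5) (nat_lit 133) (nat_lit 5) (nat_lit 450) (nat_lit 437) (nat_lit 313)))) (XT.nd (nat_lit 156) (nat_lit 608) (nat_lit 0) (XT.nd (nat_lit 78) (nat_lit 304) (nat_lit 0) (XT.lf (nat_lit 0) (nat_lit 40195564445) (nat_lit 380) (nat_lit 44249576368) (nat_lit 76) (nat_lit 41297774016) (nat_lit 128) (nat_lit 5) (nat_lit 133) (nat_lit 5) (nat_lit 129) (nat_lit 5) (nat_lit 451) (nat_lit 437) (nat_lit 312)) (XT.lf (nat_lit 0) (nat_lit 74327627496) (nat_lit 304) (nat_lit 2133962391) (nat_lit 380) (nat_lit 55092426288) (nat_lit 124) (nat_lit 5) (nat_lit 128) (nat_lit 5) (nat_lit 129) (nat_lit 5) (nat_lit 452) (nat_lit 437) (nat_lit 311))) (XT.nd (nat_lit 78) (nat_lit 380) (nat_lit 0) (XT.lf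 (nat_lit 0) (nat_lit 66954244212) (nat_lit 228) (nat_lit 51857162813) (nat_lit 304) (nat_lit 18859473168) (nat_lit 121) (nat_lit 5) (nat_lit 124) (nat_lit 5) (nat_lit 125) (nat_lit 5) (nat_lit 453) (nat_lit 437) (nat_lit 310)) (XT.lf (nat_lit 0) (nat_lit 22221742371) (nat_lit 380) (nat_lit 84317540922) (nat_lit 76) (nat_lit 37592061830) (nat_lit 116) (nat_lit 5) (nat_lit 121) (nat_lit 5) (nat_lit 117) (nat_lit 5) (nat_lit 454) (nat_lit 437) (nat_lit 309)))))) (XT.nd (nat_lit 624) (nat_lit 1216) (nat_lit 0) (XT.nd (nat_lit 312) (nat_lit 760) (nat_lit 0) (XT.nd (nat_lit 156) (nat_lit 456) (nat_lit 0) (XT.nd (nat_lit 78) (nat_lit 228) (nat_lit 0) (XT.lf (nat_lit 0) (nat_lit 52739151618) (nat_lit 228) (nat_lit 16147443065) (nat_lit 304) (nat_lit 82058699842) (nat_lit 113) (nat_lit 5) (nat_lit 116) (nat_lit 5) (nat_lit 117) (nat_lit 5) (nat_lit 455) (nat_lit 437) (nat_lit 308)) (XT.lf (nat_lit 0)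 (nat_lit 45706044353) (nat_lit 228) (nat_lit 77056332784) (nat_lit 304) (nat_lit 35368095681) (nat_lit 110) (nat_lit 5) (nat_lit 113) (nat_lit 5) (nat_lit 114) (nat_lit 5) (nat_lit 456) (nat_lit 437) (nat_lit 307))) (XT.nd (nat_lit 78) (nat_lit 228) (nat_lit 0) (XT.lf (nat_lit 0) (nat_lit 17552870165) (nat_lit 228) (nat_lit 126533445894) (nat_lit 76) (nat_lit 21643541879) (nat_lit 107) (nat_lit 5) (nat_lit 110) (nat_lit 5) (nat_lit 108) (nat_lit 5) (nat_lit 457) (nat_lit 437) (nat_lit 306)) (XT.lf (nat_lit 0) (nat_lit 32224834195) (nat_lit 228) (nat_lit 45052318089) (nat_lit 304) (nat_lit 96440613130) (nat_lit 104) (nat_lit 5) (nat_lit 107) (nat_lit 5) (nat_lit 108) (nat_lit 5) (nat_lit 458) (nat_lit 437) (nat_lit 305)))) (XT.nd (nat_lit 156) (nat_lit 304) (nat_lit 0) (XT.nd (nat_lit 78) (nat_lit 304) (nat_lit 0) (XT.lf (nat_lit 0) (nat_lit 25789494942) (nat_lit 152) (nat_lit 119598627197) (nat_lit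 228) (nat_lit 36776146121) (nat_lit 102) (nat_lit 5) (nat_lit 104) (nat_lit 5) (nat_lit 105) (nat_lit 5) (nat_lit 459) (nat_lit 437) (nat_lit 304)) (XT.lf (nat_lit 0) (nat_lit 19742860871) (nat_lit 228) (nat_lit 10605660678) (nat_lit 304) (nat_lit 160737756980) (nat_lit 98) (nat_lit 5) (nat_lit 101) (nat_lit 5) (nat_lit 102) (nat_lit 5) (nat_lit 460) (nat_lit 437) (nat_lit 303))) (XT.nd (nat_lit 78) (nat_lit 152) (nat_lit 0) (XT.lf (nat_lit 0) (nat_lit 13027091794) (nat_lit 152) (nat_lit 93188451183) (nat_lit 228) (nat_lit 94243320417) (nat_lit 96) (nat_lit 5) (nat_lit 98) (nat_lit 5) (nat_lit 99) (nat_lit 5) (nat_lit 461) (nat_lit 437) (nat_lit 302)) (XT.lf (nat_lit 0) (nat_lit 7478336011) (nat_lit 152) (nat_lit 184368326839) (nat_lit 228) (nat_lit 18549855383) (nat_lit 94) (nat_lit 5) (nat_lit 96) (nat_lit 5) (nat_lit 97) (nat_lit 5) (nat_lit 462) (nat_lit 437) (nat_lit 301))))) (XT.nd (nat_lit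 312) (nat_lit 608) (nat_lit 0) (XT.nd (nat_lit 156) (nat_lit 380) (nat_lit 0) (XT.nd (nat_lit 78) (nat_lit 0) (nat_lit 0) (XT.lf (nat_lit 0) (nat_lit 1132157020) (nat_lit 152) (nat_lit 64951060730) (nat_lit 228) (nat_lit 154751287166) (nat_lit 91) (nat_lit 5) (nat_lit 93) (nat_lit 5) (nat_lit 94) (nat_lit 5) (nat_lit 463) (nat_lit 437) (nat_lit 300)) (XT.lf (nat_lit 0) (nat_lit 161437354407) (nat_lit 228) (nat_lit 4549319576) (nat_lit 76) (nat_lit 65875636057) (nat_lit 91) (nat_lit 5) (nat_lit 94) (nat_lit 5) (nat_lit 92) (nat_lit 5) (nat_lit 464) (nat_lit 437) (nat_lit 299))) (XT.nd (nat_lit 78) (nat_lit 152) (nat_lit 0) (XT.lf (nat_lit 0) (nat_lit 24815984266) (nat_lit 228) (nat_lit 9718749167) (nat_lit 76) (nat_lit 208980020391) (nat_lit 88) (nat_lit 5) (nat_lit 91) (nat_lit 5) (nat_lit 89) (nat_lit 5) (nat_lit 465) (nat_lit 437) (nat_lit 298)) (XT.lf (nat_lit 0) (nat_lit 130857490436) (nat_lit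 228) (nat_lit 15780955618) (nat_lit 76) (nat_lit 109120789774) (nat_lit 86) (nat_lit 5) (nat_lit 89) (nat_lit 5) (nat_lit 87) (nat_lit 5) (nat_lit 466) (nat_lit 437) (nat_lit 297)))) (XT.nd (nat_lit 156) (nat_lit 304) (nat_lit 0) (XT.nd (nat_lit 78) (nat_lit 152) (nat_lit 0) (XT.lf (nat_lit 0) (nat_lit 248387340040) (nat_lit 152) (nat_lit 1626914710) (nat_lit 228) (nat_lit 18737424773) (nat_lit 84) (nat_lit 5) (nat_lit 86) (nat_lit 5) (nat_lit 87) (nat_lit 5) (nat_lit 467) (nat_lit 437) (nat_lit 296)) (XT.lf (nat_lit 0) (nat_lit 99675860067) (nat_lit 152) (nat_lit 26762644438) (nat_lit 76) (nat_lit 155928842241) (nat_lit 82) (nat_lit 5) (nat_lit 84) (nat_lit 5) (nat_lit 83) (nat_lit 5) (nat_lit 468) (nat_lit 437) (nat_lit 295))) (XT.nd (nat_lit 78) (nat_lit 152) (nat_lit 0) (XT.lf (nat_lit 0) (nat_lit 231978005858) (nat_lit 228) (nat_lit 31890385503) (nat_lit 76) (nat_lit 32934904138) (nat_lit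 80) (nat_lit 5) (nat_lit 83) (nat_lit 5) (nat_lit 81) (nat_lit 4) (nat_lit 469) (nat_lit 437) (nat_lit 294)) (XT.lf (nat_lit 0) (nat_lit 67485538902) (nat_lit 152) (nat_lit 37963230838) (nat_lit 76) (nat_lit 206545845057) (nat_lit 78) (nat_lit 5) (nat_lit 80) (nat_lit 5) (nat_lit 79) (nat_lit 5) (nat_lit 470) (nat_lit 437) (nat_lit 293))))))))
noncomputable def xc97 : XT := (XT.nd (nat_lit 2496) (nat_lit 76) (nat_lit 0) (XT.nd (nat_lit 1248) (nat_lit 1596) (nat_lit 0) (XT.nd (nat_lit 624) (nat_lit 912) (nat_lit 0) (XT.nd (nat_lit 312) (nat_lit 532) (nat_lit 0) (XT.nd (nat_lit 156) (nat_lit 228) (nat_lit 0) (XT.nd (nat_lit 78) (nat_lit 152) (nat_lit 0) (XT.lf (nat_lit 0) (nat_lit 214282756550) (nat_lit 228) (nat_lit 44002730090) (nat_lit 76) (nat_lit 69753983263) (nat_lit 76) (nat_lit 5) (nat_lit 79) (nat_lit 5) (nat_lit 77) (nat_lit 4) (nat_lit 471) (nat_lit 437) (nat_lit 292)) (XT.lf (nat_lit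 0) (nat_lit 33756019227) (nat_lit 152) (nat_lit 50073950428) (nat_lit 76) (nat_lit 261157563676) (nat_lit 74) (nat_lit 5) (nat_lit 76) (nat_lit 5) (nat_lit 75) (nat_lit 5) (nat_lit 472) (nat_lit 437) (nat_lit 291))) (XT.nd (nat_lit 78) (nat_lit 76) (nat_lit 0) (XT.lf (nat_lit 0) (nat_lit 196467541902) (nat_lit 228) (nat_lit 57511408548) (nat_lit 76) (nat_lit 108850085553) (nat_lit 72) (nat_lit 5) (nat_lit 75) (nat_lit 5) (nat_lit 73) (nat_lit 4) (nat_lit 473) (nat_lit 437) (nat_lit 290)) (XT.lf (nat_lit 0) (nat_lit 317611439874) (nat_lit 76) (nat_lit 61843060422) (nat_lit 152) (nat_lit 2280432903) (nat_lit 71) (nat_lit 5) (nat_lit 72) (nat_lit 5) (nat_lit 73) (nat_lit 4) (nat_lit 474) (nat_lit 437) (nat_lit 289)))) (XT.nd (nat_lit 156) (nat_lit 228) (nat_lit 0) (XT.nd (nat_lit 78) (nat_lit 76) (nat_lit 0) (XT.lf (nat_lit 0) (nat_lit 177926928354) (nat_lit 228) (nat_lit 73602817049) (nat_lit 76)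 (nat_lit 150057072890) (nat_lit 68) (nat_lit 5) (nat_lit 71) (nat_lit 5) (nat_lit 69) (nat_lit 4) (nat_lit 475) (nat_lit 437) (nat_lit 288)) (XT.lf (nat_lit 0) (nat_lit 340579377410) (nat_lit 76) (nat_lit 39387811609) (nat_lit 152) (nat_lit 42682985686) (nat_lit 67) (nat_lit 5) (nat_lit 68) (nat_lit 5) (nat_lit 69) (nat_lit 4) (nat_lit 476) (nat_lit 437) (nat_lit 287))) (XT.nd (nat_lit 78) (nat_lit 76) (nat_lit 0) (XT.lf (nat_lit 0) (nat_lit 157827205525) (nat_lit 152) (nat_lit 93933918963) (nat_lit 76) (nat_lit 193020975388) (nat_lit 65) (nat_lit 5) (nat_lit 67) (nat_lit 5) (nat_lit 66) (nat_lit 4) (nat_lit 477) (nat_lit 437) (nat_lit 286)) (XT.lf (nat_lit 0) (nat_lit 362926283338) (nat_lit 76) (nat_lit 17759692839) (nat_lit 152) (nat_lit 87573458433) (nat_lit 64) (nat_lit 5) (nat_lit 65) (nat_lit 5) (nat_lit 66) (nat_lit 4) (nat_lit 478) (nat_lit 437) (nat_lit 285))))) (XT.nd (nat_lit 312)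 (nat_lit 456) (nat_lit 0) (XT.nd (nat_lit 156) (nat_lit 228) (nat_lit 0) (XT.nd (nat_lit 78) (nat_lit 76) (nat_lit 0) (XT.lf (nat_lit 0) (nat_lit 135029985589) (nat_lit 152) (nat_lit 120788743640) (nat_lit 76) (nat_lit 237128465350) (nat_lit 62) (nat_lit 5) (nat_lit 64) (nat_lit 5) (nat_lit 63) (nat_lit 4) (nat_lit 479) (nat_lit 437) (nat_lit 284)) (XT.lf (nat_lit 0) (nat_lit 380581878774) (nat_lit 152) (nat_lit 136631106614) (nat_lit 0) (nat_lit 1914792384) (nat_lit 61) (nat_lit 5) (nat_lit 63) (nat_lit 4) (nat_lit 61) (nat_lit 4) (nat_lit 480) (nat_lit 437) (nat_lit 283))) (XT.nd (nat_lit 78) (nat_lit 76) (nat_lit 0) (XT.lf (nat_lit 0) (nat_lit 107992486709) (nat_lit 152) (nat_lit 157282688470) (nat_lit 76) (nat_lit 281412537435) (nat_lit 59) (nat_lit 5) (nat_lit 61) (nat_lit 5) (nat_lit 60) (nat_lit 4) (nat_lit 481) (nat_lit 437) (nat_lit 282)) (XT.lf (nat_lit 0) (nat_lit 378358072754) (nat_lit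 152) (nat_lit 179810516288) (nat_lit 0) (nat_lit 17722385845) (nat_lit 58) (nat_lit 5) (nat_lit 60) (nat_lit 4) (nat_lit 58) (nat_lit 4) (nat_lit 482) (nat_lit 437) (nat_lit 281)))) (XT.nd (nat_lit 156) (nat_lit 228) (nat_lit 0) (XT.nd (nat_lit 78) (nat_lit 76) (nat_lit 0) (XT.lf (nat_lit 0) (nat_lit 74637633095) (nat_lit 152) (nat_lit 207628702229) (nat_lit 76) (nat_lit 324428586287) (nat_lit 56) (nat_lit 5) (nat_lit 58) (nat_lit 5) (nat_lit 57) (nat_lit 4) (nat_lit 483) (nat_lit 437) (nat_lit 280)) (XT.lf (nat_lit 0) (nat_lit 371641245859) (nat_lit 152) (nat_lit 239482637118) (nat_lit 0) (nat_lit 28178387615) (nat_lit 55) (nat_lit 5) (nat_lit 57) (nat_lit 4) (nat_lit 55) (nat_lit 4) (nat_lit 484) (nat_lit 437) (nat_lit 279))) (XT.nd (nat_lit 78) (nat_lit 76) (nat_lit 0) (XT.lf (nat_lit 0) (nat_lit 32185115071) (nat_lit 152) (nat_lit 277483505575) (nat_lit 76) (nat_lit 364092090148) (nat_lit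 53) (nat_lit 5) (nat_lit 55) (nat_lit 5) (nat_lit 54) (nat_lit 4) (nat_lit 485) (nat_lit 437) (nat_lit 278)) (XT.lf (nat_lit 0) (nat_lit 357563902445) (nat_lit 152) (nat_lit 322190230711) (nat_lit 0) (nat_lit 30456174034) (nat_lit 52) (nat_lit 5) (nat_lit 54) (nat_lit 4) (nat_lit 52) (nat_lit 4) (nat_lit 486) (nat_lit 437) (nat_lit 277)))))) (XT.nd (nat_lit 624) (nat_lit 760) (nat_lit 0) (XT.nd (nat_lit 312) (nat_lit 380) (nat_lit 0) (XT.nd (nat_lit 156) (nat_lit 228) (nat_lit 0) (XT.nd (nat_lit 78) (nat_lit 152) (nat_lit 0) (XT.lf (nat_lit 0) (nat_lit 374007878485) (nat_lit 76) (nat_lit 350938578401) (nat_lit 76) (nat_lit 23830741208) (nat_lit 51) (nat_lit 4) (nat_lit 52) (nat_lit 5) (nat_lit 52) (nat_lit 4) (nat_lit 487) (nat_lit 437) (nat_lit 276)) (XT.lf (nat_lit 0) (nat_lit 332240980971) (nat_lit 152) (nat_lit 436642521365) (nat_lit 0) (nat_lit 20709611527) (nat_lit 49) (nat_lit 5) (nat_lit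 51) (nat_lit 4) (nat_lit 49) (nat_lit 4) (nat_lit 488) (nat_lit 437) (nat_lit 275))) (XT.nd (nat_lit 78) (nat_lit 152) (nat_lit 0) (XT.lf (nat_lit 0) (nat_lit 322828857091) (nat_lit 76) (nat_lit 410738587421) (nat_lit 76) (nat_lit 99207129154) (nat_lit 48) (nat_lit 4) (nat_lit 49) (nat_lit 5) (nat_lit 49) (nat_lit 4) (nat_lit 489) (nat_lit 437) (nat_lit 274)) (XT.lf (nat_lit 0) (nat_lit 284097743737) (nat_lit 76) (nat_lit 6453126627) (nat_lit 152) (nat_lit 588026873273) (nat_lit 46) (nat_lit 5) (nat_lit 47) (nat_lit 5) (nat_lit 48) (nat_lit 4) (nat_lit 490) (nat_lit 437) (nat_lit 273)))) (XT.nd (nat_lit 156) (nat_lit 152) (nat_lit 0) (XT.nd (nat_lit 78) (nat_lit 152) (nat_lit 0) (XT.lf (nat_lit 0) (nat_lit 231136348338) (nat_lit 76) (nat_lit 496277146667) (nat_lit 76) (nat_lit 199580368895) (nat_lit 45) (nat_lit 4) (nat_lit 46) (nat_lit 5) (nat_lit 46) (nat_lit 4) (nat_lit 491) (nat_lit 437)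 (nat_lit 272)) (XT.lf (nat_lit 0) (nat_lit 166893930678) (nat_lit 76) (nat_lit 59247911078) (nat_lit 152) (nat_lit 752307761649) (nat_lit 43) (nat_lit 5) (nat_lit 44) (nat_lit 5) (nat_lit 45) (nat_lit 4) (nat_lit 492) (nat_lit 437) (nat_lit 271))) (XT.nd (nat_lit 78) (nat_lit 76) (nat_lit 0) (XT.lf (nat_lit 0) (nat_lit 82738245250) (nat_lit 76) (nat_lit 616340493812) (nat_lit 76) (nat_lit 333772010857) (nat_lit 42) (nat_lit 4) (nat_lit 43) (nat_lit 5) (nat_lit 43) (nat_lit 4) (nat_lit 493) (nat_lit 437) (nat_lit 270)) (XT.lf (nat_lit 0) (nat_lit 129829322940) (nat_lit 152) (nat_lit 16418425756) (nat_lit 76) (nat_lit 944495563787) (nat_lit 41) (nat_lit 5) (nat_lit 43) (nat_lit 5) (nat_lit 42) (nat_lit 4) (nat_lit 494) (nat_lit 437) (nat_lit 269))))) (XT.nd (nat_lit 312) (nat_lit 380) (nat_lit 0) (XT.nd (nat_lit 156) (nat_lit 228) (nat_lit 0) (XT.nd (nat_lit 78) (nat_lit 76) (nat_lit 0) (XT.lf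 (nat_lit 0) (nat_lit 640886263161) (nat_lit 152) (nat_lit 139231049341) (nat_lit 0) (nat_lit 371773321680) (nat_lit 40) (nat_lit 5) (nat_lit 42) (nat_lit 4) (nat_lit 40) (nat_lit 4) (nat_lit 495) (nat_lit 437) (nat_lit 268)) (XT.lf (nat_lit 0) (nat_lit 934162673150) (nat_lit 76) (nat_lit 276006492191) (nat_lit 76) (nat_lit 6893505941) (nat_lit 39) (nat_lit 4) (nat_lit 40) (nat_lit 5) (nat_lit 40) (nat_lit 4) (nat_lit 496) (nat_lit 437) (nat_lit 267))) (XT.nd (nat_lit 78) (nat_lit 76) (nat_lit 0) (XT.lf (nat_lit 0) (nat_lit 540333306784) (nat_lit 152) (nat_lit 461660753510) (nat_lit 0) (nat_lit 284035185161) (nat_lit 37) (nat_lit 5) (nat_lit 39) (nat_lit 4) (nat_lit 37) (nat_lit 4) (nat_lit 497) (nat_lit 437) (nat_lit 266)) (XT.lf (nat_lit 0) (nat_lit 687197241650) (nat_lit 76) (nat_lit 464294335159) (nat_lit 76) (nat_lit 207996176981) (nat_lit 36) (nat_lit 4) (nat_lit 37) (nat_lit 5) (nat_lit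 37) (nat_lit 4) (nat_lit 498) (nat_lit 437) (nat_lit 265)))) (XT.nd (nat_lit 156) (nat_lit 152) (nat_lit 0) (XT.nd (nat_lit 78) (nat_lit 76) (nat_lit 0) (XT.lf (nat_lit 0) (nat_lit 379208753930) (nat_lit 152) (nat_lit 923287064196) (nat_lit 0) (nat_lit 135115237716) (nat_lit 34) (nat_lit 5) (nat_lit 36) (nat_lit 4) (nat_lit 34) (nat_lit 4) (nat_lit 499) (nat_lit 437) (nat_lit 264)) (XT.lf (nat_lit 0) (nat_lit 296435693691) (nat_lit 76) (nat_lit 734124364097) (nat_lit 76) (nat_lit 490030818034) (nat_lit 33) (nat_lit 4) (nat_lit 34) (nat_lit 5) (nat_lit 34) (nat_lit 4) (nat_lit 500) (nat_lit 437) (nat_lit 263))) (XT.nd (nat_lit 78) (nat_lit 0) (nat_lit 0) (XT.lf (nat_lit 0) (nat_lit 36265343262) (nat_lit 76) (nat_lit 100495104035) (nat_lit 152) (nat_lit 1472506344336) (nat_lit 31) (nat_lit 5) (nat_lit 32) (nat_lit 5) (nat_lit 33) (nat_lit 4) (nat_lit 501) (nat_lit 437) (nat_lit 262)) (XT.lf (nat_lit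 0) (nat_lit 827544794713) (nat_lit 152) (nat_lit 280464717557) (nat_lit 0) (nat_lit 595074700152) (nat_lit 31) (nat_lit 5) (nat_lit 33) (nat_lit 4) (nat_lit 31) (nat_lit 4) (nat_lit 502) (nat_lit 437) (nat_lit 261))))))) (XT.nd (nat_lit 58578) (nat_lit 0) (nat_lit 4104) (XT.nd (nat_lit 57954) (nat_lit 0) (nat_lit 7448) (XT.nd (nat_lit 57642) (nat_lit 0) (nat_lit 10260) (XT.nd (nat_lit 57486) (nat_lit 0) (nat_lit 10184) (XT.nd (nat_lit 57408) (nat_lit 0) (nat_lit 10108) (XT.lf (nat_lit 0) (nat_lit 1150606735885) (nat_lit 76) (nat_lit 442643739424) (nat_lit 76) (nat_lit 210173622296) (nat_lit 30) (nat_lit 4) (nat_lit 31) (nat_lit 5) (nat_lit 31) (nat_lit 4) (nat_lit 503) (nat_lit 437) (nat_lit 260)) (XT.lf (nat_lit 0) (nat_lit 16669841576) (nat_lit 836) (nat_lit 10566045808) (nat_lit 836) (nat_lit 10566045808) (nat_lit 163) (nat_lit 3) (nat_lit 174) (nat_lit 3) (nat_lit 174) (nat_lit 5) (nat_lit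 438) (nat_lit 438) (nat_lit 324))) (XT.nd (nat_lit 78) (nat_lit 0) (nat_lit 0) (XT.lf (nat_lit 0) (nat_lit 35400970721) (nat_lit 760) (nat_lit 38276062389) (nat_lit 836) (nat_lit 4914601553) (nat_lit 164) (nat_lit 5) (nat_lit 174) (nat_lit 5) (nat_lit 175) (nat_lit 5) (nat_lit 439) (nat_lit 438) (nat_lit 323)) (XT.lf (nat_lit 76) (nat_lit 25525019827) (nat_lit 0) (nat_lit 13791521782) (nat_lit 836) (nat_lit 42417413914) (nat_lit 165) (nat_lit 5) (nat_lit 164) (nat_lit 5) (nat_lit 175) (nat_lit 5) (nat_lit 440) (nat_lit 438) (nat_lit 322)))) (XT.nd (nat_lit 156) (nat_lit 0) (nat_lit 152) (XT.nd (nat_lit 78) (nat_lit 0) (nat_lit 76) (XT.lf (nat_lit 76) (nat_lit 10223408229) (nat_lit 0) (nat_lit 34952048415) (nat_lit 836) (nat_lit 39870700612) (nat_lit 166) (nat_lit 5) (nat_lit 165) (nat_lit 5) (nat_lit 176) (nat_lit 5) (nat_lit 441) (nat_lit 438) (nat_lit 321)) (XT.lf (nat_lit 0) (nat_lit 53193881139)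 (nat_lit 760) (nat_lit 5311188937) (nat_lit 836) (nat_lit 30033725356) (nat_lit 166) (nat_lit 5) (nat_lit 176) (nat_lit 5) (nat_lit 177) (nat_lit 5) (nat_lit 442) (nat_lit 438) (nat_lit 320))) (XT.nd (nat_lit 78) (nat_lit 0) (nat_lit 0) (XT.lf (nat_lit 0) (nat_lit 63680724575) (nat_lit 760) (nat_lit 20891034307) (nat_lit 836) (nat_lit 7647738638) (nat_lit 167) (nat_lit 5) (nat_lit 177) (nat_lit 5) (nat_lit 178) (nat_lit 5) (nat_lit 443) (nat_lit 438) (nat_lit 319)) (XT.lf (nat_lit 76) (nat_lit 58998121420) (nat_lit 0) (nat_lit 18008730534) (nat_lit 836) (nat_lit 19087787098) (nat_lit 168) (nat_lit 5) (nat_lit 167) (nat_lit 5) (nat_lit 178) (nat_lit 5) (nat_lit 444) (nat_lit 438) (nat_lit 318))))) (XT.nd (nat_lit 312) (nat_lit 988) (nat_lit 0) (XT.nd (nat_lit 156) (nat_lit 760) (nat_lit 0) (XT.nd (nat_lit 78) (nat_lit 532) (nat_lit 0) (XT.lf (nat_lit 0) (nat_lit 46399625135) (nat_lit 760) (nat_lit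 46933713253) (nat_lit 836) (nat_lit 6849740169) (nat_lit 158) (nat_lit 5) (nat_lit 168) (nat_lit 5) (nat_lit 169) (nat_lit 5) (nat_lit 445) (nat_lit 438) (nat_lit 317)) (XT.lf (nat_lit 0) (nat_lit 8065231980) (nat_lit 532) (nat_lit 70922994533) (nat_lit 76) (nat_lit 25510312361) (nat_lit 151) (nat_lit 5) (nat_lit 158) (nat_lit 5) (nat_lit 152) (nat_lit 5) (nat_lit 446) (nat_lit 438) (nat_lit 316))) (XT.nd (nat_lit 78) (nat_lit 380) (nat_lit 0) (XT.lf (nat_lit 0) (nat_lit 20463053998) (nat_lit 380) (nat_lit 5535567842) (nat_lit 456) (nat_lit 83051739637) (nat_lit 146) (nat_lit 5) (nat_lit 151) (nat_lit 5) (nat_lit 152) (nat_lit 5) (nat_lit 447) (nat_lit 438) (nat_lit 315)) (XT.lf (nat_lit 0) (nat_lit 6833290918) (nat_lit 380) (nat_lit 41046838354) (nat_lit 456) (nat_lit 65960528366) (nat_lit 141) (nat_lit 5) (nat_lit 146) (nat_lit 5) (nat_lit 147) (nat_lit 5) (nat_lit 448) (nat_lit 438) (nat_lit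 314)))) (XT.nd (nat_lit 156) (nat_lit 684) (nat_lit 0) (XT.nd (nat_lit 78) (nat_lit 304) (nat_lit 0) (XT.lf (nat_lit 0) (nat_lit 73767643838) (nat_lit 456) (nat_lit 6600508155) (nat_lit 76) (nat_lit 38533251238) (nat_lit 141) (nat_lit 5) (nat_lit 147) (nat_lit 5) (nat_lit 142) (nat_lit 5) (nat_lit 449) (nat_lit 438) (nat_lit 313)) (XT.lf (nat_lit 0) (nat_lit 104055644001) (nat_lit 380) (nat_lit 19767686610) (nat_lit 76) (nat_lit 427203699) (nat_lit 137) (nat_lit 5) (nat_lit 142) (nat_lit 5) (nat_lit 138) (nat_lit 5) (nat_lit 450) (nat_lit 438) (nat_lit 312))) (XT.nd (nat_lit 78) (nat_lit 304) (nat_lit 0) (XT.lf (nat_lit 0) (nat_lit 9548314930) (nat_lit 380) (nat_lit 33638923965) (nat_lit 76) (nat_lit 86683850254) (nat_lit 132) (nat_lit 5) (nat_lit 137) (nat_lit 5) (nat_lit 133) (nat_lit 5) (nat_lit 451) (nat_lit 438) (nat_lit 311)) (XT.lf (nat_lit 0) (nat_lit 43427738876) (nat_lit 380) (nat_lit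 47768490881) (nat_lit 76) (nat_lit 44605290835) (nat_lit 128) (nat_lit 5) (nat_lit 133) (nat_lit 5) (nat_lit 129) (nat_lit 5) (nat_lit 452) (nat_lit 438) (nat_lit 310)))))) (XT.nd (nat_lit 624) (nat_lit 1368) (nat_lit 0) (XT.nd (nat_lit 312) (nat_lit 836) (nat_lit 0) (XT.nd (nat_lit 156) (nat_lit 608) (nat_lit 0) (XT.nd (nat_lit 78) (nat_lit 228) (nat_lit 0) (XT.lf (nat_lit 0) (nat_lit 80293974416) (nat_lit 304) (nat_lit 2300161937) (nat_lit 380) (nat_lit 59483419262) (nat_lit 124) (nat_lit 5) (nat_lit 128) (nat_lit 5) (nat_lit 129) (nat_lit 5) (nat_lit 453) (nat_lit 438) (nat_lit 309)) (XT.lf (nat_lit 0) (nat_lit 72330525762) (nat_lit 228) (nat_lit 56000632774) (nat_lit 304) (nat_lit 20352649302) (nat_lit 121) (nat_lit 5) (nat_lit 124) (nat_lit 5) (nat_lit 125) (nat_lit 5) (nat_lit 454) (nat_lit 438) (nat_lit 308))) (XT.nd (nat_lit 78) (nat_lit 228) (nat_lit 0) (XT.lf (nat_lit 0) (nat_lit 24013835256)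 (nat_lit 380) (nat_lit 91042759241) (nat_lit 76) (nat_lit 40604539835) (nat_lit 116) (nat_lit 5) (nat_lit 121) (nat_lit 5) (nat_lit 117) (nat_lit 5) (nat_lit 455) (nat_lit 438) (nat_lit 307)) (XT.lf (nat_lit 0) (nat_lit 56977591488) (nat_lit 228) (nat_lit 17433522490) (nat_lit 304) (nat_lit 88609123850) (nat_lit 113) (nat_lit 5) (nat_lit 116) (nat_lit 5) (nat_lit 117) (nat_lit 5) (nat_lit 456) (nat_lit 438) (nat_lit 306)))) (XT.nd (nat_lit 156) (nat_lit 380) (nat_lit 0) (XT.nd (nat_lit 78) (nat_lit 228) (nat_lit 0) (XT.lf (nat_lit 0) (nat_lit 49381561881) (nat_lit 228) (nat_lit 83214770160) (nat_lit 304) (nat_lit 38183929743) (nat_lit 110) (nat_lit 5) (nat_lit 113) (nat_lit 5) (nat_lit 114) (nat_lit 5) (nat_lit 457) (nat_lit 438) (nat_lit 305)) (XT.lf (nat_lit 0) (nat_lit 18969688018) (nat_lit 228) (nat_lit 136636967985) (nat_lit 76) (nat_lit 23380960607) (nat_lit 107) (nat_lit 5) (nat_lit 110)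 (nat_lit 5) (nat_lit 108) (nat_lit 5) (nat_lit 458) (nat_lit 438) (nat_lit 304))) (XT.nd (nat_lit 78) (nat_lit 152) (nat_lit 0) (XT.lf (nat_lit 0) (nat_lit 34821142120) (nat_lit 228) (nat_lit 48650124171) (nat_lit 304) (nat_lit 104143322758) (nat_lit 104) (nat_lit 5) (nat_lit 107) (nat_lit 5) (nat_lit 108) (nat_lit 5) (nat_lit 459) (nat_lit 438) (nat_lit 303)) (XT.lf (nat_lit 0) (nat_lit 27870655866) (nat_lit 152) (nat_lit 129159946560) (nat_lit 228) (nat_lit 39706235298) (nat_lit 102) (nat_lit 5) (nat_lit 104) (nat_lit 5) (nat_lit 105) (nat_lit 5) (nat_lit 460) (nat_lit 438) (nat_lit 302))))) (XT.nd (nat_lit 312) (nat_lit 532) (nat_lit 0) (XT.nd (nat_lit 156) (nat_lit 380) (nat_lit 0) (XT.nd (nat_lit 78) (nat_lit 152) (nat_lit 0) (XT.lf (nat_lit 0) (nat_lit 21339876643) (nat_lit 228) (nat_lit 11447558950) (nat_lit 304) (nat_lit 173585193188) (nat_lit 98) (nat_lit 5) (nat_lit 101) (nat_lit 5)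 (nat_lit 102) (nat_lit 5) (nat_lit 461) (nat_lit 438) (nat_lit 301)) (XT.lf (nat_lit 0) (nat_lit 14086511888) (nat_lit 152) (nat_lit 100636853758) (nat_lit 228) (nat_lit 101771677475) (nat_lit 96) (nat_lit 5) (nat_lit 98) (nat_lit 5) (nat_lit 99) (nat_lit 5) (nat_lit 462) (nat_lit 438) (nat_lit 300))) (XT.nd (nat_lit 78) (nat_lit 228) (nat_lit 0) (XT.lf (nat_lit 0) (nat_lit 8093512535) (nat_lit 152) (nat_lit 199111039408) (nat_lit 228) (nat_lit 20023179590) (nat_lit 94) (nat_lit 5) (nat_lit 96) (nat_lit 5) (nat_lit 97) (nat_lit 5) (nat_lit 463) (nat_lit 438) (nat_lit 299)) (XT.lf (nat_lit 0) (nat_lit 1239231164) (nat_lit 152) (nat_lit 70140459884) (nat_lit 228) (nat_lit 167121083154) (nat_lit 91) (nat_lit 5) (nat_lit 93) (nat_lit 5) (nat_lit 94) (nat_lit 5) (nat_lit 464) (nat_lit 438) (nat_lit 298)))) (XT.nd (nat_lit 156) (nat_lit 304) (nat_lit 0) (XT.nd (nat_lit 78) (nat_lit 228) (nat_lit 0)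 (XT.lf (nat_lit 0) (nat_lit 174361528186) (nat_lit 228) (nat_lit 4897627821) (nat_lit 76) (nat_lit 71151679275) (nat_lit 91) (nat_lit 5) (nat_lit 94) (nat_lit 5) (nat_lit 92) (nat_lit 5) (nat_lit 465) (nat_lit 438) (nat_lit 297)) (XT.lf (nat_lit 0) (nat_lit 26810145080) (nat_lit 228) (nat_lit 10480997420) (nat_lit 76) (nat_lit 225704347271) (nat_lit 88) (nat_lit 5) (nat_lit 91) (nat_lit 5) (nat_lit 89) (nat_lit 5) (nat_lit 466) (nat_lit 438) (nat_lit 296))) (XT.nd (nat_lit 78) (nat_lit 152) (nat_lit 0) (XT.lf (nat_lit 0) (nat_lit 141334637400) (nat_lit 228) (nat_lit 17028516189) (nat_lit 76) (nat_lit 117856393483) (nat_lit 86) (nat_lit 5) (nat_lit 89) (nat_lit 5) (nat_lit 87) (nat_lit 5) (nat_lit 467) (nat_lit 438) (nat_lit 295)) (XT.lf (nat_lit 0) (nat_lit 268272594896) (nat_lit 152) (nat_lit 1750937556) (nat_lit 228) (nat_lit 20227874348) (nat_lit 84) (nat_lit 5) (nat_lit 86) (nat_lit 5) (nat_lit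 87) (nat_lit 5) (nat_lit 468) (nat_lit 438) (nat_lit 294))))))))
noncomputable def xc98 : XT := (XT.nd (nat_lit 2418) (nat_lit 380) (nat_lit 0) (XT.nd (nat_lit 1170) (nat_lit 1672) (nat_lit 0) (XT.nd (nat_lit 546) (nat_lit 988) (nat_lit 0) (XT.nd (nat_lit 234) (nat_lit 532) (nat_lit 0) (XT.nd (nat_lit 78) (nat_lit 304) (nat_lit 0) (XT.lf (nat_lit 0) (nat_lit 107657898516) (nat_lit 152) (nat_lit 28889446847) (nat_lit 76) (nat_lit 168408990448) (nat_lit 82) (nat_lit 5) (nat_lit 84) (nat_lit 5) (nat_lit 83) (nat_lit 5) (nat_lit 469) (nat_lit 438) (nat_lit 293)) (XT.nd (nat_lit 78) (nat_lit 152) (nat_lit 0) (XT.lf (nat_lit 0) (nat_lit 250543931508) (nat_lit 228) (nat_lit 34427738633) (nat_lit 76) (nat_lit 35575504560) (nat_lit 80) (nat_lit 5) (nat_lit 83) (nat_lit 5) (nat_lit 81) (nat_lit 4) (nat_lit 470) (nat_lit 438) (nat_lit 292)) (XT.lf (nat_lit 0) (nat_lit 72891825389) (nat_lit 152) (nat_lit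 40986768434) (nat_lit 76) (nat_lit 223075217831) (nat_lit 78) (nat_lit 5) (nat_lit 80) (nat_lit 5) (nat_lit 79) (nat_lit 5) (nat_lit 471) (nat_lit 438) (nat_lit 291)))) (XT.nd (nat_lit 156) (nat_lit 228) (nat_lit 0) (XT.nd (nat_lit 78) (nat_lit 152) (nat_lit 0) (XT.lf (nat_lit 0) (nat_lit 231432562180) (nat_lit 228) (nat_lit 47509751552) (nat_lit 76) (nat_lit 75339954361) (nat_lit 76) (nat_lit 5) (nat_lit 79) (nat_lit 5) (nat_lit 77) (nat_lit 4) (nat_lit 472) (nat_lit 438) (nat_lit 290)) (XT.lf (nat_lit 0) (nat_lit 36463463154) (nat_lit 152) (nat_lit 54067012703) (nat_lit 76) (nat_lit 282055711892) (nat_lit 74) (nat_lit 5) (nat_lit 76) (nat_lit 5) (nat_lit 75) (nat_lit 5) (nat_lit 473) (nat_lit 438) (nat_lit 289))) (XT.nd (nat_lit 78) (nat_lit 76) (nat_lit 0) (XT.lf (nat_lit 0) (nat_lit 212191672187) (nat_lit 228) (nat_lit 62099782345) (nat_lit 76) (nat_lit 117563567885) (nat_lit 72) (nat_lit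 5) (nat_lit 75) (nat_lit 5) (nat_lit 73) (nat_lit 4) (nat_lit 474) (nat_lit 438) (nat_lit 288)) (XT.lf (nat_lit 0) (nat_lit 343032349026) (nat_lit 76) (nat_lit 66784927195) (nat_lit 152) (nat_lit 2456130729) (nat_lit 71) (nat_lit 5) (nat_lit 72) (nat_lit 5) (nat_lit 73) (nat_lit 4) (nat_lit 475) (nat_lit 438) (nat_lit 287))))) (XT.nd (nat_lit 312) (nat_lit 456) (nat_lit 0) (XT.nd (nat_lit 156) (nat_lit 228) (nat_lit 0) (XT.nd (nat_lit 78) (nat_lit 76) (nat_lit 0) (XT.lf (nat_lit 0) (nat_lit 192167388325) (nat_lit 228) (nat_lit 79479137446) (nat_lit 76) (nat_lit 162066922603) (nat_lit 68) (nat_lit 5) (nat_lit 71) (nat_lit 5) (nat_lit 69) (nat_lit 4) (nat_lit 476) (nat_lit 438) (nat_lit 286)) (XT.lf (nat_lit 0) (nat_lit 367837115194) (nat_lit 76) (nat_lit 42533465352) (nat_lit 152) (nat_lit 46091307224) (nat_lit 67) (nat_lit 5) (nat_lit 68) (nat_lit 5) (nat_lit 69) (nat_lit 4) (nat_lit 477) (nat_lit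 438) (nat_lit 285))) (XT.nd (nat_lit 78) (nat_lit 76) (nat_lit 0) (XT.lf (nat_lit 0) (nat_lit 170459299186) (nat_lit 152) (nat_lit 101437336431) (nat_lit 76) (nat_lit 208467736308) (nat_lit 65) (nat_lit 5) (nat_lit 67) (nat_lit 5) (nat_lit 66) (nat_lit 4) (nat_lit 478) (nat_lit 438) (nat_lit 284)) (XT.lf (nat_lit 0) (nat_lit 391971191141) (nat_lit 76) (nat_lit 19175310735) (nat_lit 152) (nat_lit 94573405048) (nat_lit 64) (nat_lit 5) (nat_lit 65) (nat_lit 5) (nat_lit 66) (nat_lit 4) (nat_lit 479) (nat_lit 438) (nat_lit 283)))) (XT.nd (nat_lit 156) (nat_lit 228) (nat_lit 0) (XT.nd (nat_lit 78) (nat_lit 76) (nat_lit 0) (XT.lf (nat_lit 0) (nat_lit 145837942351) (nat_lit 152) (nat_lit 130441130583) (nat_lit 76) (nat_lit 256103619250) (nat_lit 62) (nat_lit 5) (nat_lit 64) (nat_lit 5) (nat_lit 63) (nat_lit 4) (nat_lit 480) (nat_lit 438) (nat_lit 282)) (XT.lf (nat_lit 0) (nat_lit 411033812417) (nat_lit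 152) (nat_lit 147551159919) (nat_lit 0) (nat_lit 2072758431) (nat_lit 61) (nat_lit 5) (nat_lit 63) (nat_lit 4) (nat_lit 61) (nat_lit 4) (nat_lit 481) (nat_lit 438) (nat_lit 281))) (XT.nd (nat_lit 78) (nat_lit 76) (nat_lit 0) (XT.lf (nat_lit 0) (nat_lit 116637110386) (nat_lit 152) (nat_lit 169855149018) (nat_lit 76) (nat_lit 303930208928) (nat_lit 59) (nat_lit 5) (nat_lit 61) (nat_lit 5) (nat_lit 60) (nat_lit 4) (nat_lit 482) (nat_lit 438) (nat_lit 280)) (XT.lf (nat_lit 0) (nat_lit 408631781701) (nat_lit 152) (nat_lit 194185468600) (nat_lit 0) (nat_lit 19144749371) (nat_lit 58) (nat_lit 5) (nat_lit 60) (nat_lit 4) (nat_lit 58) (nat_lit 4) (nat_lit 483) (nat_lit 438) (nat_lit 279)))))) (XT.nd (nat_lit 624) (nat_lit 760) (nat_lit 0) (XT.nd (nat_lit 312) (nat_lit 456) (nat_lit 0) (XT.nd (nat_lit 156) (nat_lit 228) (nat_lit 0) (XT.nd (nat_lit 78) (nat_lit 76) (nat_lit 0) (XT.lf (nat_lit 0) (nat_lit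 80613558827) (nat_lit 152) (nat_lit 224229376622) (nat_lit 76) (nat_lit 350387334094) (nat_lit 56) (nat_lit 5) (nat_lit 58) (nat_lit 5) (nat_lit 57) (nat_lit 4) (nat_lit 484) (nat_lit 438) (nat_lit 278)) (XT.lf (nat_lit 0) (nat_lit 401377310623) (nat_lit 152) (nat_lit 258631880075) (nat_lit 0) (nat_lit 30437023246) (nat_lit 55) (nat_lit 5) (nat_lit 57) (nat_lit 4) (nat_lit 55) (nat_lit 4) (nat_lit 485) (nat_lit 438) (nat_lit 277))) (XT.nd (nat_lit 78) (nat_lit 76) (nat_lit 0) (XT.lf (nat_lit 0) (nat_lit 34764550966) (nat_lit 152) (nat_lit 299673072116) (nat_lit 76) (nat_lit 393223713206) (nat_lit 53) (nat_lit 5) (nat_lit 55) (nat_lit 5) (nat_lit 54) (nat_lit 4) (nat_lit 486) (nat_lit 438) (nat_lit 276)) (XT.lf (nat_lit 0) (nat_lit 386173501821) (nat_lit 152) (nat_lit 347956577405) (nat_lit 0) (nat_lit 32896828147) (nat_lit 52) (nat_lit 5) (nat_lit 54) (nat_lit 4) (nat_lit 52) (nat_lit 4) (nat_lit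 487) (nat_lit 438) (nat_lit 275)))) (XT.nd (nat_lit 156) (nat_lit 228) (nat_lit 0) (XT.nd (nat_lit 78) (nat_lit 152) (nat_lit 0) (XT.lf (nat_lit 0) (nat_lit 403936994970) (nat_lit 76) (nat_lit 379009465757) (nat_lit 76) (nat_lit 25732698819) (nat_lit 51) (nat_lit 4) (nat_lit 52) (nat_lit 5) (nat_lit 52) (nat_lit 4) (nat_lit 488) (nat_lit 438) (nat_lit 274)) (XT.lf (nat_lit 0) (nat_lit 358824487036) (nat_lit 152) (nat_lit 471565523488) (nat_lit 0) (nat_lit 22370341042) (nat_lit 49) (nat_lit 5) (nat_lit 51) (nat_lit 4) (nat_lit 49) (nat_lit 4) (nat_lit 489) (nat_lit 438) (nat_lit 273))) (XT.nd (nat_lit 78) (nat_lit 152) (nat_lit 0) (XT.lf (nat_lit 0) (nat_lit 348663200208) (nat_lit 76) (nat_lit 443593679738) (nat_lit 76) (nat_lit 107139457594) (nat_lit 48) (nat_lit 4) (nat_lit 49) (nat_lit 5) (nat_lit 49) (nat_lit 4) (nat_lit 490) (nat_lit 438) (nat_lit 272)) (XT.lf (nat_lit 0) (nat_lit 306833378503)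 (nat_lit 76) (nat_lit 6965485475) (nat_lit 152) (nat_lit 635064902928) (nat_lit 46) (nat_lit 5) (nat_lit 47) (nat_lit 5) (nat_lit 48) (nat_lit 4) (nat_lit 491) (nat_lit 438) (nat_lit 271))))) (XT.nd (nat_lit 312) (nat_lit 380) (nat_lit 0) (XT.nd (nat_lit 156) (nat_lit 152) (nat_lit 0) (XT.nd (nat_lit 78) (nat_lit 152) (nat_lit 0) (XT.lf (nat_lit 0) (nat_lit 249634861411) (nat_lit 76) (nat_lit 535975521507) (nat_lit 76) (nat_lit 215542799659) (nat_lit 45) (nat_lit 4) (nat_lit 46) (nat_lit 5) (nat_lit 46) (nat_lit 4) (nat_lit 492) (nat_lit 438) (nat_lit 270)) (XT.lf (nat_lit 0) (nat_lit 180252842267) (nat_lit 76) (nat_lit 63984046361) (nat_lit 152) (nat_lit 812488498056) (nat_lit 43) (nat_lit 5) (nat_lit 44) (nat_lit 5) (nat_lit 45) (nat_lit 4) (nat_lit 493) (nat_lit 438) (nat_lit 269))) (XT.nd (nat_lit 78) (nat_lit 76) (nat_lit 0) (XT.lf (nat_lit 0) (nat_lit 89364502267) (nat_lit 76) (nat_lit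 665644127235) (nat_lit 76) (nat_lit 360470000828) (nat_lit 42) (nat_lit 4) (nat_lit 43) (nat_lit 5) (nat_lit 43) (nat_lit 4) (nat_lit 494) (nat_lit 438) (nat_lit 268)) (XT.lf (nat_lit 0) (nat_lit 140219048596) (nat_lit 152) (nat_lit 17725123793) (nat_lit 76) (nat_lit 1020058436087) (nat_lit 41) (nat_lit 5) (nat_lit 43) (nat_lit 5) (nat_lit 42) (nat_lit 4) (nat_lit 495) (nat_lit 438) (nat_lit 267)))) (XT.nd (nat_lit 156) (nat_lit 228) (nat_lit 0) (XT.nd (nat_lit 78) (nat_lit 76) (nat_lit 0) (XT.lf (nat_lit 0) (nat_lit 692160445628) (nat_lit 152) (nat_lit 150362940952) (nat_lit 0) (nat_lit 401518334254) (nat_lit 40) (nat_lit 5) (nat_lit 42) (nat_lit 4) (nat_lit 40) (nat_lit 4) (nat_lit 496) (nat_lit 438) (nat_lit 266)) (XT.lf (nat_lit 0) (nat_lit 1008901992844) (nat_lit 76) (nat_lit 298083842522) (nat_lit 76) (nat_lit 7441692765) (nat_lit 39) (nat_lit 4) (nat_lit 40) (nat_lit 5) (nat_lit 40) (nat_lit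 4) (nat_lit 497) (nat_lit 438) (nat_lit 265))) (XT.nd (nat_lit 78) (nat_lit 76) (nat_lit 0) (XT.lf (nat_lit 0) (nat_lit 583563067305) (nat_lit 152) (nat_lit 498587376907) (nat_lit 0) (nat_lit 306760986070) (nat_lit 37) (nat_lit 5) (nat_lit 39) (nat_lit 4) (nat_lit 37) (nat_lit 4) (nat_lit 498) (nat_lit 438) (nat_lit 264)) (XT.lf (nat_lit 0) (nat_lit 742178986819) (nat_lit 76) (nat_lit 501434875925) (nat_lit 76) (nat_lit 224632763350) (nat_lit 36) (nat_lit 4) (nat_lit 37) (nat_lit 5) (nat_lit 37) (nat_lit 4) (nat_lit 499) (nat_lit 438) (nat_lit 263))))))) (XT.nd (nat_lit 58656) (nat_lit 0) (nat_lit 4560) (XT.nd (nat_lit 58032) (nat_lit 0) (nat_lit 8360) (XT.nd (nat_lit 57720) (nat_lit 0) (nat_lit 10032) (XT.nd (nat_lit 156) (nat_lit 152) (nat_lit 0) (XT.nd (nat_lit 78) (nat_lit 76) (nat_lit 0) (XT.lf (nat_lit 0) (nat_lit 409548375986) (nat_lit 152) (nat_lit 997144129473) (nat_lit 0) (nat_lit 145927288754)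 (nat_lit 34) (nat_lit 5) (nat_lit 36) (nat_lit 4) (nat_lit 34) (nat_lit 4) (nat_lit 500) (nat_lit 438) (nat_lit 262)) (XT.lf (nat_lit 0) (nat_lit 320156192644) (nat_lit 76) (nat_lit 792851463193) (nat_lit 76) (nat_lit 529230350371) (nat_lit 33) (nat_lit 4) (nat_lit 34) (nat_lit 5) (nat_lit 34) (nat_lit 4) (nat_lit 501) (nat_lit 438) (nat_lit 261))) (XT.nd (nat_lit 78) (nat_lit 0) (nat_lit 0) (XT.lf (nat_lit 0) (nat_lit 39172058729) (nat_lit 76) (nat_lit 108531938951) (nat_lit 152) (nat_lit 1590304001548) (nat_lit 31) (nat_lit 5) (nat_lit 32) (nat_lit 5) (nat_lit 33) (nat_lit 4) (nat_lit 502) (nat_lit 438) (nat_lit 260)) (XT.lf (nat_lit 0) (nat_lit 893750931900) (nat_lit 152) (nat_lit 302896727886) (nat_lit 0) (nat_lit 642683161942) (nat_lit 31) (nat_lit 5) (nat_lit 33) (nat_lit 4) (nat_lit 31) (nat_lit 4) (nat_lit 503) (nat_lit 438) (nat_lit 259)))) (XT.nd (nat_lit 156) (nat_lit 0) (nat_lit 76)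 (XT.nd (nat_lit 78) (nat_lit 0) (nat_lit 76) (XT.lf (nat_lit 0) (nat_lit 18020697299) (nat_lit 836) (nat_lit 11402262898) (nat_lit 836) (nat_lit 11402262898) (nat_lit 163) (nat_lit 3) (nat_lit 174) (nat_lit 3) (nat_lit 174) (nat_lit 5) (nat_lit 439) (nat_lit 439) (nat_lit 322)) (XT.lf (nat_lit 0) (nat_lit 38265064999) (nat_lit 760) (nat_lit 41318954645) (nat_lit 836) (nat_lit 5293342492) (nat_lit 164) (nat_lit 5) (nat_lit 174) (nat_lit 5) (nat_lit 175) (nat_lit 5) (nat_lit 440) (nat_lit 439) (nat_lit 321))) (XT.nd (nat_lit 78) (nat_lit 0) (nat_lit 76) (XT.lf (nat_lit 76) (nat_lit 27585380055) (nat_lit 0) (nat_lit 14906416532) (nat_lit 836) (nat_lit 45779376511) (nat_lit 165) (nat_lit 5) (nat_lit 164) (nat_lit 5) (nat_lit 175) (nat_lit 5) (nat_lit 441) (nat_lit 439) (nat_lit 320)) (XT.lf (nat_lit 76) (nat_lit 11060448248) (nat_lit 0) (nat_lit 37756891370) (nat_lit 836) (nat_lit 43031115779) (nat_lit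 166) (nat_lit 5) (nat_lit 165) (nat_lit 5) (nat_lit 176) (nat_lit 5) (nat_lit 442) (nat_lit 439) (nat_lit 319))))) (XT.nd (nat_lit 312) (nat_lit 1292) (nat_lit 0) (XT.nd (nat_lit 156) (nat_lit 608) (nat_lit 0) (XT.nd (nat_lit 78) (nat_lit 0) (nat_lit 76) (XT.lf (nat_lit 0) (nat_lit 57475049906) (nat_lit 760) (nat_lit 5716919881) (nat_lit 836) (nat_lit 32428644405) (nat_lit 166) (nat_lit 5) (nat_lit 176) (nat_lit 5) (nat_lit 177) (nat_lit 5) (nat_lit 443) (nat_lit 439) (nat_lit 318)) (XT.lf (nat_lit 0) (nat_lit 68799137219) (nat_lit 760) (nat_lit 22542692536) (nat_lit 836) (nat_lit 8254028018) (nat_lit 167) (nat_lit 5) (nat_lit 177) (nat_lit 5) (nat_lit 178) (nat_lit 5) (nat_lit 444) (nat_lit 439) (nat_lit 317))) (XT.nd (nat_lit 78) (nat_lit 684) (nat_lit 0) (XT.lf (nat_lit 76) (nat_lit 63736742791) (nat_lit 0) (nat_lit 19453130655) (nat_lit 836) (nat_lit 20591211384) (nat_lit 168) (nat_lit 5)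 (nat_lit 167) (nat_lit 5) (nat_lit 178) (nat_lit 5) (nat_lit 445) (nat_lit 439) (nat_lit 316)) (XT.lf (nat_lit 0) (nat_lit 50130682733) (nat_lit 760) (nat_lit 50690375869) (nat_lit 836) (nat_lit 7375612028) (nat_lit 158) (nat_lit 5) (nat_lit 168) (nat_lit 5) (nat_lit 169) (nat_lit 5) (nat_lit 446) (nat_lit 439) (nat_lit 315)))) (XT.nd (nat_lit 156) (nat_lit 380) (nat_lit 0) (XT.nd (nat_lit 78) (nat_lit 380) (nat_lit 0) (XT.lf (nat_lit 0) (nat_lit 8730542470) (nat_lit 532) (nat_lit 76576872579) (nat_lit 76) (nat_lit 27550000967) (nat_lit 151) (nat_lit 5) (nat_lit 158) (nat_lit 5) (nat_lit 152) (nat_lit 5) (nat_lit 447) (nat_lit 439) (nat_lit 314)) (XT.lf (nat_lit 0) (nat_lit 22119192331) (nat_lit 380) (nat_lit 5978221007) (nat_lit 456) (nat_lit 89676030698) (nat_lit 146) (nat_lit 5) (nat_lit 151) (nat_lit 5) (nat_lit 152) (nat_lit 5) (nat_lit 448) (nat_lit 439) (nat_lit 313))) (XT.nd (nat_lit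 78) (nat_lit 0) (nat_lit 0) (XT.lf (nat_lit 0) (nat_lit 7399120761) (nat_lit 380) (nat_lit 44329222498) (nat_lit 456) (nat_lit 71218675632) (nat_lit 141) (nat_lit 5) (nat_lit 146) (nat_lit 5) (nat_lit 147) (nat_lit 5) (nat_lit 449) (nat_lit 439) (nat_lit 312)) (XT.lf (nat_lit 0) (nat_lit 79685559905) (nat_lit 456) (nat_lit 7109996355) (nat_lit 76) (nat_lit 41617132913) (nat_lit 141) (nat_lit 5) (nat_lit 147) (nat_lit 5) (nat_lit 142) (nat_lit 5) (nat_lit 450) (nat_lit 439) (nat_lit 311)))))) (XT.nd (nat_lit 624) (nat_lit 1444) (nat_lit 0) (XT.nd (nat_lit 312) (nat_lit 1064) (nat_lit 0) (XT.nd (nat_lit 156) (nat_lit 608) (nat_lit 0) (XT.nd (nat_lit 78) (nat_lit 380) (nat_lit 0) (XT.lf (nat_lit 0) (nat_lit 112395688735) (nat_lit 380) (nat_lit 21330610539) (nat_lit 76) (nat_lit 463497112) (nat_lit 137) (nat_lit 5) (nat_lit 142) (nat_lit 5) (nat_lit 138) (nat_lit 5) (nat_lit 451) (nat_lit 439) (nat_lit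 310)) (XT.lf (nat_lit 0) (nat_lit 10327136557) (nat_lit 380) (nat_lit 36311855063) (nat_lit 76) (nat_lit 93621035951) (nat_lit 132) (nat_lit 5) (nat_lit 137) (nat_lit 5) (nat_lit 133) (nat_lit 5) (nat_lit 452) (nat_lit 439) (nat_lit 309))) (XT.nd (nat_lit 78) (nat_lit 304) (nat_lit 0) (XT.lf (nat_lit 0) (nat_lit 46916129177) (nat_lit 380) (nat_lit 51571921800) (nat_lit 76) (nat_lit 48176881881) (nat_lit 128) (nat_lit 5) (nat_lit 133) (nat_lit 5) (nat_lit 129) (nat_lit 5) (nat_lit 453) (nat_lit 439) (nat_lit 308)) (XT.lf (nat_lit 0) (nat_lit 86734756361) (nat_lit 304) (nat_lit 2480301912) (nat_lit 380) (nat_lit 64228031479) (nat_lit 124) (nat_lit 5) (nat_lit 128) (nat_lit 5) (nat_lit 129) (nat_lit 5) (nat_lit 454) (nat_lit 439) (nat_lit 307)))) (XT.nd (nat_lit 156) (nat_lit 456) (nat_lit 0) (XT.nd (nat_lit 78) (nat_lit 380) (nat_lit 0) (XT.lf (nat_lit 0) (nat_lit 78134064884) (nat_lit 228) (nat_lit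 60476308341) (nat_lit 304) (nat_lit 21967502433) (nat_lit 121) (nat_lit 5) (nat_lit 124) (nat_lit 5) (nat_lit 125) (nat_lit 5) (nat_lit 455) (nat_lit 439) (nat_lit 306)) (XT.lf (nat_lit 0) (nat_lit 25947247885) (nat_lit 380) (nat_lit 98308874636) (nat_lit 76) (nat_lit 43857286645) (nat_lit 116) (nat_lit 5) (nat_lit 121) (nat_lit 5) (nat_lit 117) (nat_lit 5) (nat_lit 456) (nat_lit 439) (nat_lit 305))) (XT.nd (nat_lit 78) (nat_lit 228) (nat_lit 0) (XT.lf (nat_lit 0) (nat_lit 61552352083) (nat_lit 228) (nat_lit 18823303724) (nat_lit 304) (nat_lit 95685617837) (nat_lit 113) (nat_lit 5) (nat_lit 116) (nat_lit 5) (nat_lit 117) (nat_lit 5) (nat_lit 457) (nat_lit 439) (nat_lit 304)) (XT.lf (nat_lit 0) (nat_lit 53348405402) (nat_lit 228) (nat_lit 89866748371) (nat_lit 304) (nat_lit 41226972661) (nat_lit 110) (nat_lit 5) (nat_lit 113) (nat_lit 5) (nat_lit 114) (nat_lit 5) (nat_lit 458) (nat_lit 439) (nat_lit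 303))))) (XT.nd (nat_lit 312) (nat_lit 532) (nat_lit 0) (XT.nd (nat_lit 156) (nat_lit 456) (nat_lit 0) (XT.nd (nat_lit 78) (nat_lit 228) (nat_lit 0) (XT.lf (nat_lit 0) (nat_lit 20498055447) (nat_lit 228) (nat_lit 147551504316) (nat_lit 76) (nat_lit 25256526087) (nat_lit 107) (nat_lit 5) (nat_lit 110) (nat_lit 5) (nat_lit 108) (nat_lit 5) (nat_lit 459) (nat_lit 439) (nat_lit 302)) (XT.lf (nat_lit 0) (nat_lit 37622540956) (nat_lit 228) (nat_lit 52536664827) (nat_lit 304) (nat_lit 112464038045) (nat_lit 104) (nat_lit 5) (nat_lit 107) (nat_lit 5) (nat_lit 108) (nat_lit 5) (nat_lit 460) (nat_lit 439) (nat_lit 301))) (XT.nd (nat_lit 78) (nat_lit 304) (nat_lit 0) (XT.lf (nat_lit 0) (nat_lit 30115741574) (nat_lit 152) (nat_lit 139487108873) (nat_lit 228) (nat_lit 42872443901) (nat_lit 102) (nat_lit 5) (nat_lit 104) (nat_lit 5) (nat_lit 105) (nat_lit 5) (nat_lit 461) (nat_lit 439) (nat_lit 300)) (XT.lf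 (nat_lit 0) (nat_lit 23062144709) (nat_lit 228) (nat_lit 12357744168) (nat_lit 304) (nat_lit 187462076930) (nat_lit 98) (nat_lit 5) (nat_lit 101) (nat_lit 5) (nat_lit 102) (nat_lit 5) (nat_lit 462) (nat_lit 439) (nat_lit 299)))) (XT.nd (nat_lit 156) (nat_lit 228) (nat_lit 0) (XT.nd (nat_lit 78) (nat_lit 152) (nat_lit 0) (XT.lf (nat_lit 0) (nat_lit 15228224290) (nat_lit 152) (nat_lit 108682080591) (nat_lit 228) (nat_lit 109903887860) (nat_lit 96) (nat_lit 5) (nat_lit 98) (nat_lit 5) (nat_lit 99) (nat_lit 5) (nat_lit 463) (nat_lit 439) (nat_lit 298)) (XT.lf (nat_lit 0) (nat_lit 8755490831) (nat_lit 152) (nat_lit 215034132456) (nat_lit 228) (nat_lit 21615891105) (nat_lit 94) (nat_lit 5) (nat_lit 96) (nat_lit 5) (nat_lit 97) (nat_lit 5) (nat_lit 464) (nat_lit 439) (nat_lit 297))) (XT.nd (nat_lit 78) (nat_lit 0) (nat_lit 0) (XT.lf (nat_lit 0) (nat_lit 1352517105) (nat_lit 152) (nat_lit 75745964761)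 (nat_lit 228) (nat_lit 180481933227) (nat_lit 91) (nat_lit 5) (nat_lit 93) (nat_lit 5) (nat_lit 94) (nat_lit 5) (nat_lit 465) (nat_lit 439) (nat_lit 296)) (XT.lf (nat_lit 0) (nat_lit 188318325464) (nat_lit 228) (nat_lit 5276031563) (nat_lit 76) (nat_lit 76848951077) (nat_lit 91) (nat_lit 5) (nat_lit 94) (nat_lit 5) (nat_lit 92) (nat_lit 5) (nat_lit 466) (nat_lit 439) (nat_lit 295))))))))
noncomputable def xc99 : XT := (XT.nd (nat_lit 2496) (nat_lit 608) (nat_lit 0) (XT.nd (nat_lit 1248) (nat_lit 1672) (nat_lit 0) (XT.nd (nat_lit 624) (nat_lit 988) (nat_lit 0) (XT.nd (nat_lit 312) (nat_lit 608) (nat_lit 0) (XT.nd (nat_lit 156) (nat_lit 304) (nat_lit 0) (XT.nd (nat_lit 78) (nat_lit 152) (nat_lit 0) (XT.lf (nat_lit 0) (nat_lit 28962571631) (nat_lit 228) (nat_lit 11306401356) (nat_lit 76) (nat_lit 243765774998) (nat_lit 88) (nat_lit 5) (nat_lit 91) (nat_lit 5) (nat_lit 89) (nat_lit 5) (nat_lit 467)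 (nat_lit 439) (nat_lit 294)) (XT.lf (nat_lit 0) (nat_lit 152648736692) (nat_lit 228) (nat_lit 18378009522) (nat_lit 76) (nat_lit 127289998005) (nat_lit 86) (nat_lit 5) (nat_lit 89) (nat_lit 5) (nat_lit 87) (nat_lit 5) (nat_lit 468) (nat_lit 439) (nat_lit 293))) (XT.nd (nat_lit 78) (nat_lit 152) (nat_lit 0) (XT.lf (nat_lit 0) (nat_lit 289746634701) (nat_lit 152) (nat_lit 1885756790) (nat_lit 228) (nat_lit 21838778843) (nat_lit 84) (nat_lit 5) (nat_lit 86) (nat_lit 5) (nat_lit 87) (nat_lit 5) (nat_lit 469) (nat_lit 439) (nat_lit 292)) (XT.lf (nat_lit 0) (nat_lit 116277363081) (nat_lit 152) (nat_lit 31188420542) (nat_lit 76) (nat_lit 181886717252) (nat_lit 82) (nat_lit 5) (nat_lit 84) (nat_lit 5) (nat_lit 83) (nat_lit 5) (nat_lit 470) (nat_lit 439) (nat_lit 291)))) (XT.nd (nat_lit 156) (nat_lit 304) (nat_lit 0) (XT.nd (nat_lit 78) (nat_lit 152) (nat_lit 0) (XT.lf (nat_lit 0) (nat_lit 270594034833)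 (nat_lit 228) (nat_lit 37170059825) (nat_lit 76) (nat_lit 38426524425) (nat_lit 80) (nat_lit 5) (nat_lit 83) (nat_lit 5) (nat_lit 81) (nat_lit 4) (nat_lit 471) (nat_lit 439) (nat_lit 290)) (XT.lf (nat_lit 0) (nat_lit 78729552914) (nat_lit 152) (nat_lit 44254117941) (nat_lit 76) (nat_lit 240926126521) (nat_lit 78) (nat_lit 5) (nat_lit 80) (nat_lit 5) (nat_lit 79) (nat_lit 5) (nat_lit 472) (nat_lit 439) (nat_lit 289))) (XT.nd (nat_lit 78) (nat_lit 152) (nat_lit 0) (XT.lf (nat_lit 0) (nat_lit 249953327226) (nat_lit 228) (nat_lit 51299217423) (nat_lit 76) (nat_lit 81371996764) (nat_lit 76) (nat_lit 5) (nat_lit 79) (nat_lit 5) (nat_lit 77) (nat_lit 4) (nat_lit 473) (nat_lit 439) (nat_lit 288)) (XT.lf (nat_lit 0) (nat_lit 39386509333) (nat_lit 152) (nat_lit 58381353692) (nat_lit 76) (nat_lit 304624921177) (nat_lit 74) (nat_lit 5) (nat_lit 76) (nat_lit 5) (nat_lit 75) (nat_lit 5) (nat_lit 474) (nat_lit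 439) (nat_lit 287))))) (XT.nd (nat_lit 312) (nat_lit 456) (nat_lit 0) (XT.nd (nat_lit 156) (nat_lit 304) (nat_lit 0) (XT.nd (nat_lit 78) (nat_lit 76) (nat_lit 0) (XT.lf (nat_lit 0) (nat_lit 229172773223) (nat_lit 228) (nat_lit 67057014858) (nat_lit 76) (nat_lit 126973347664) (nat_lit 72) (nat_lit 5) (nat_lit 75) (nat_lit 5) (nat_lit 73) (nat_lit 4) (nat_lit 475) (nat_lit 439) (nat_lit 286)) (XT.lf (nat_lit 0) (nat_lit 370485219838) (nat_lit 76) (nat_lit 72122939082) (nat_lit 152) (nat_lit 2646845461) (nat_lit 71) (nat_lit 5) (nat_lit 72) (nat_lit 5) (nat_lit 73) (nat_lit 4) (nat_lit 476) (nat_lit 439) (nat_lit 285))) (XT.nd (nat_lit 78) (nat_lit 76) (nat_lit 0) (XT.lf (nat_lit 0) (nat_lit 207546185515) (nat_lit 228) (nat_lit 85827261852) (nat_lit 76) (nat_lit 175036806487) (nat_lit 68) (nat_lit 5) (nat_lit 71) (nat_lit 5) (nat_lit 69) (nat_lit 4) (nat_lit 477) (nat_lit 439) (nat_lit 284)) (XT.lf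 (nat_lit 0) (nat_lit 397273847434) (nat_lit 76) (nat_lit 45931537654) (nat_lit 152) (nat_lit 49773195722) (nat_lit 67) (nat_lit 5) (nat_lit 68) (nat_lit 5) (nat_lit 69) (nat_lit 4) (nat_lit 478) (nat_lit 439) (nat_lit 283)))) (XT.nd (nat_lit 156) (nat_lit 228) (nat_lit 0) (XT.nd (nat_lit 78) (nat_lit 76) (nat_lit 0) (XT.lf (nat_lit 0) (nat_lit 184101116183) (nat_lit 152) (nat_lit 109542638804) (nat_lit 76) (nat_lit 225149512971) (nat_lit 65) (nat_lit 5) (nat_lit 67) (nat_lit 5) (nat_lit 66) (nat_lit 4) (nat_lit 479) (nat_lit 439) (nat_lit 282)) (XT.lf (nat_lit 0) (nat_lit 423338150095) (nat_lit 76) (nat_lit 20704913842) (nat_lit 152) (nat_lit 102134193382) (nat_lit 64) (nat_lit 5) (nat_lit 65) (nat_lit 5) (nat_lit 66) (nat_lit 4) (nat_lit 480) (nat_lit 439) (nat_lit 281))) (XT.nd (nat_lit 78) (nat_lit 76) (nat_lit 0) (XT.lf (nat_lit 0) (nat_lit 157509742755) (nat_lit 152) (nat_lit 140867236746)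 (nat_lit 76) (nat_lit 276596089751) (nat_lit 62) (nat_lit 5) (nat_lit 64) (nat_lit 5) (nat_lit 63) (nat_lit 4) (nat_lit 481) (nat_lit 439) (nat_lit 280)) (XT.lf (nat_lit 0) (nat_lit 443921132758) (nat_lit 152) (nat_lit 159346306190) (nat_lit 0) (nat_lit 2242679462) (nat_lit 61) (nat_lit 5) (nat_lit 63) (nat_lit 4) (nat_lit 61) (nat_lit 4) (nat_lit 482) (nat_lit 439) (nat_lit 279)))))) (XT.nd (nat_lit 624) (nat_lit 760) (nat_lit 0) (XT.nd (nat_lit 312) (nat_lit 456) (nat_lit 0) (XT.nd (nat_lit 156) (nat_lit 228) (nat_lit 0) (XT.nd (nat_lit 78) (nat_lit 76) (nat_lit 0) (XT.lf (nat_lit 0) (nat_lit 125972558590) (nat_lit 152) (nat_lit 183434855068) (nat_lit 76) (nat_lit 328248628126) (nat_lit 59) (nat_lit 5) (nat_lit 61) (nat_lit 5) (nat_lit 60) (nat_lit 4) (nat_lit 483) (nat_lit 439) (nat_lit 278)) (XT.lf (nat_lit 0) (nat_lit 441326665051) (nat_lit 152) (nat_lit 209711827873) (nat_lit 0) (nat_lit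 20680249639) (nat_lit 58) (nat_lit 5) (nat_lit 60) (nat_lit 4) (nat_lit 58) (nat_lit 4) (nat_lit 484) (nat_lit 439) (nat_lit 277))) (XT.nd (nat_lit 78) (nat_lit 76) (nat_lit 0) (XT.lf (nat_lit 0) (nat_lit 87066857425) (nat_lit 152) (nat_lit 242159477621) (nat_lit 76) (nat_lit 378422145328) (nat_lit 56) (nat_lit 5) (nat_lit 58) (nat_lit 5) (nat_lit 57) (nat_lit 4) (nat_lit 485) (nat_lit 439) (nat_lit 276)) (XT.lf (nat_lit 0) (nat_lit 433491580774) (nat_lit 152) (nat_lit 279314398921) (nat_lit 0) (nat_lit 32875727066) (nat_lit 55) (nat_lit 5) (nat_lit 57) (nat_lit 4) (nat_lit 55) (nat_lit 4) (nat_lit 486) (nat_lit 439) (nat_lit 275)))) (XT.nd (nat_lit 156) (nat_lit 228) (nat_lit 0) (XT.nd (nat_lit 78) (nat_lit 76) (nat_lit 0) (XT.lf (nat_lit 0) (nat_lit 37549681683) (nat_lit 152) (nat_lit 323639104181) (nat_lit 76) (nat_lit 424685258964) (nat_lit 53) (nat_lit 5) (nat_lit 55) (nat_lit 5) (nat_lit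 54) (nat_lit 4) (nat_lit 487) (nat_lit 439) (nat_lit 274)) (XT.lf (nat_lit 0) (nat_lit 417071229002) (nat_lit 152) (nat_lit 375785497491) (nat_lit 0) (nat_lit 35532141090) (nat_lit 52) (nat_lit 5) (nat_lit 54) (nat_lit 4) (nat_lit 52) (nat_lit 4) (nat_lit 488) (nat_lit 439) (nat_lit 273))) (XT.nd (nat_lit 78) (nat_lit 152) (nat_lit 0) (XT.lf (nat_lit 0) (nat_lit 436259230122) (nat_lit 76) (nat_lit 409326623124) (nat_lit 76) (nat_lit 27787455255) (nat_lit 51) (nat_lit 4) (nat_lit 52) (nat_lit 5) (nat_lit 52) (nat_lit 4) (nat_lit 489) (nat_lit 439) (nat_lit 272)) (XT.lf (nat_lit 0) (nat_lit 387534070472) (nat_lit 152) (nat_lit 509283564076) (nat_lit 0) (nat_lit 24163363896) (nat_lit 49) (nat_lit 5) (nat_lit 51) (nat_lit 4) (nat_lit 49) (nat_lit 4) (nat_lit 490) (nat_lit 439) (nat_lit 271))))) (XT.nd (nat_lit 312) (nat_lit 304) (nat_lit 0) (XT.nd (nat_lit 156) (nat_lit 228) (nat_lit 0) (XT.nd (nat_lit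 78) (nat_lit 152) (nat_lit 0) (XT.lf (nat_lit 0) (nat_lit 376563144557) (nat_lit 76) (nat_lit 479077749326) (nat_lit 76) (nat_lit 115706977463) (nat_lit 48) (nat_lit 4) (nat_lit 49) (nat_lit 5) (nat_lit 49) (nat_lit 4) (nat_lit 491) (nat_lit 439) (nat_lit 270)) (XT.lf (nat_lit 0) (nat_lit 331386749116) (nat_lit 76) (nat_lit 7519388166) (nat_lit 152) (nat_lit 685866562748) (nat_lit 46) (nat_lit 5) (nat_lit 47) (nat_lit 5) (nat_lit 48) (nat_lit 4) (nat_lit 492) (nat_lit 439) (nat_lit 269))) (XT.nd (nat_lit 78) (nat_lit 152) (nat_lit 0) (XT.lf (nat_lit 0) (nat_lit 269612170562) (nat_lit 76) (nat_lit 578850308004) (nat_lit 76) (nat_lit 232782795349) (nat_lit 45) (nat_lit 4) (nat_lit 46) (nat_lit 5) (nat_lit 46) (nat_lit 4) (nat_lit 493) (nat_lit 439) (nat_lit 268)) (XT.lf (nat_lit 0) (nat_lit 194679411498) (nat_lit 76) (nat_lit 69099599970) (nat_lit 152) (nat_lit 877484247547) (nat_lit 43) (nat_lit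 5) (nat_lit 44) (nat_lit 5) (nat_lit 45) (nat_lit 4) (nat_lit 494) (nat_lit 439) (nat_lit 267)))) (XT.nd (nat_lit 156) (nat_lit 152) (nat_lit 0) (XT.nd (nat_lit 78) (nat_lit 76) (nat_lit 0) (XT.lf (nat_lit 0) (nat_lit 96519833057) (nat_lit 76) (nat_lit 718892565781) (nat_lit 76) (nat_lit 389304367956) (nat_lit 42) (nat_lit 4) (nat_lit 43) (nat_lit 5) (nat_lit 43) (nat_lit 4) (nat_lit 495) (nat_lit 439) (nat_lit 266)) (XT.lf (nat_lit 0) (nat_lit 151439470135) (nat_lit 152) (nat_lit 19137324349) (nat_lit 76) (nat_lit 1101665877776) (nat_lit 41) (nat_lit 5) (nat_lit 43) (nat_lit 5) (nat_lit 42) (nat_lit 4) (nat_lit 496) (nat_lit 439) (nat_lit 265))) (XT.nd (nat_lit 78) (nat_lit 76) (nat_lit 0) (XT.lf (nat_lit 0) (nat_lit 747536094561) (nat_lit 152) (nat_lit 162386324362) (nat_lit 0) (nat_lit 433642498901) (nat_lit 40) (nat_lit 5) (nat_lit 42) (nat_lit 4) (nat_lit 40) (nat_lit 4) (nat_lit 497) (nat_lit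 439) (nat_lit 264)) (XT.lf (nat_lit 0) (nat_lit 1089619558514) (nat_lit 76) (nat_lit 321927832980) (nat_lit 76) (nat_lit 8034204412) (nat_lit 39) (nat_lit 4) (nat_lit 40) (nat_lit 5) (nat_lit 40) (nat_lit 4) (nat_lit 498) (nat_lit 439) (nat_lit 263))))))) (XT.nd (nat_lit 58734) (nat_lit 0) (nat_lit 4560) (XT.nd (nat_lit 58110) (nat_lit 0) (nat_lit 8360) (XT.nd (nat_lit 312) (nat_lit 152) (nat_lit 0) (XT.nd (nat_lit 156) (nat_lit 228) (nat_lit 0) (XT.nd (nat_lit 78) (nat_lit 76) (nat_lit 0) (XT.lf (nat_lit 0) (nat_lit 630250766992) (nat_lit 152) (nat_lit 538469019937) (nat_lit 0) (nat_lit 331304425051) (nat_lit 37) (nat_lit 5) (nat_lit 39) (nat_lit 4) (nat_lit 37) (nat_lit 4) (nat_lit 499) (nat_lit 439) (nat_lit 262)) (XT.lf (nat_lit 0) (nat_lit 801558420508) (nat_lit 76) (nat_lit 541547088799) (nat_lit 76) (nat_lit 242600719989) (nat_lit 36) (nat_lit 4) (nat_lit 37) (nat_lit 5) (nat_lit 37) (nat_lit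 4) (nat_lit 500) (nat_lit 439) (nat_lit 261))) (XT.nd (nat_lit 78) (nat_lit 76) (nat_lit 0) (XT.lf (nat_lit 0) (nat_lit 442314750988) (nat_lit 152) (nat_lit 1076910601654) (nat_lit 0) (nat_lit 157603899855) (nat_lit 34) (nat_lit 5) (nat_lit 36) (nat_lit 4) (nat_lit 34) (nat_lit 4) (nat_lit 501) (nat_lit 439) (nat_lit 260)) (XT.lf (nat_lit 0) (nat_lit 345773526411) (nat_lit 76) (nat_lit 856277136806) (nat_lit 76) (nat_lit 571566263735) (nat_lit 33) (nat_lit 4) (nat_lit 34) (nat_lit 5) (nat_lit 34) (nat_lit 4) (nat_lit 502) (nat_lit 439) (nat_lit 259)))) (XT.nd (nat_lit 57642) (nat_lit 0) (nat_lit 10108) (XT.nd (nat_lit 57564) (nat_lit 0) (nat_lit 10032) (XT.lf (nat_lit 0) (nat_lit 42310528507) (nat_lit 76) (nat_lit 117212116318) (nat_lit 152) (nat_lit 1717525877968) (nat_lit 31) (nat_lit 5) (nat_lit 32) (nat_lit 5) (nat_lit 33) (nat_lit 4) (nat_lit 503) (nat_lit 439) (nat_lit 258)) (XT.lf (nat_lit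 0) (nat_lit 19477157949) (nat_lit 836) (nat_lit 12306670804) (nat_lit 836) (nat_lit 12306670804) (nat_lit 163) (nat_lit 3) (nat_lit 174) (nat_lit 3) (nat_lit 174) (nat_lit 5) (nat_lit 440) (nat_lit 440) (nat_lit 320))) (XT.nd (nat_lit 78) (nat_lit 0) (nat_lit 0) (XT.lf (nat_lit 0) (nat_lit 41353719291) (nat_lit 760) (nat_lit 44608016340) (nat_lit 836) (nat_lit 5704440905) (nat_lit 164) (nat_lit 5) (nat_lit 174) (nat_lit 5) (nat_lit 175) (nat_lit 5) (nat_lit 441) (nat_lit 440) (nat_lit 319)) (XT.lf (nat_lit 76) (nat_lit 29807950036) (nat_lit 0) (nat_lit 16108851843) (nat_lit 836) (nat_lit 49414780029) (nat_lit 165) (nat_lit 5) (nat_lit 164) (nat_lit 5) (nat_lit 175) (nat_lit 5) (nat_lit 442) (nat_lit 440) (nat_lit 318))))) (XT.nd (nat_lit 312) (nat_lit 1824) (nat_lit 0) (XT.nd (nat_lit 156) (nat_lit 0) (nat_lit 152) (XT.nd (nat_lit 78) (nat_lit 0) (nat_lit 76) (XT.lf (nat_lit 76) (nat_lit 11961717031)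 (nat_lit 0) (nat_lit 40784883594) (nat_lit 836) (nat_lit 46448535699) (nat_lit 166) (nat_lit 5) (nat_lit 165) (nat_lit 5) (nat_lit 176) (nat_lit 5) (nat_lit 443) (nat_lit 440) (nat_lit 317)) (XT.lf (nat_lit 0) (nat_lit 62095051735) (nat_lit 760) (nat_lit 6157843284) (nat_lit 836) (nat_lit 35016266737) (nat_lit 166) (nat_lit 5) (nat_lit 176) (nat_lit 5) (nat_lit 177) (nat_lit 5) (nat_lit 444) (nat_lit 440) (nat_lit 316))) (XT.nd (nat_lit 78) (nat_lit 0) (nat_lit 0) (XT.lf (nat_lit 0) (nat_lit 74323605471) (nat_lit 760) (nat_lit 24329283080) (nat_lit 836) (nat_lit 8909609425) (nat_lit 167) (nat_lit 5) (nat_lit 177) (nat_lit 5) (nat_lit 178) (nat_lit 5) (nat_lit 445) (nat_lit 440) (nat_lit 315)) (XT.lf (nat_lit 76) (nat_lit 68851775886) (nat_lit 0) (nat_lit 21012554699) (nat_lit 836) (nat_lit 22218276229) (nat_lit 168) (nat_lit 5) (nat_lit 167) (nat_lit 5) (nat_lit 178) (nat_lit 5) (nat_lit 446)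 (nat_lit 440) (nat_lit 314)))) (XT.nd (nat_lit 156) (nat_lit 760) (nat_lit 0) (XT.nd (nat_lit 78) (nat_lit 532) (nat_lit 0) (XT.lf (nat_lit 0) (nat_lit 54157501880) (nat_lit 760) (nat_lit 54747291085) (nat_lit 836) (nat_lit 7946707497) (nat_lit 158) (nat_lit 5) (nat_lit 168) (nat_lit 5) (nat_lit 169) (nat_lit 5) (nat_lit 447) (nat_lit 440) (nat_lit 313)) (XT.lf (nat_lit 0) (nat_lit 9446211461) (nat_lit 532) (nat_lit 82685908602) (nat_lit 76) (nat_lit 29753026779) (nat_lit 151) (nat_lit 5) (nat_lit 158) (nat_lit 5) (nat_lit 152) (nat_lit 5) (nat_lit 448) (nat_lit 440) (nat_lit 312))) (XT.nd (nat_lit 78) (nat_lit 380) (nat_lit 0) (XT.lf (nat_lit 0) (nat_lit 23905097757) (nat_lit 380) (nat_lit 6456313855) (nat_lit 456) (nat_lit 96833096600) (nat_lit 146) (nat_lit 5) (nat_lit 151) (nat_lit 5) (nat_lit 152) (nat_lit 5) (nat_lit 449) (nat_lit 440) (nat_lit 311)) (XT.lf (nat_lit 0) (nat_lit 8007482667)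 (nat_lit 380) (nat_lit 47874391810) (nat_lit 456) (nat_lit 76900141730) (nat_lit 141) (nat_lit 5) (nat_lit 146) (nat_lit 5) (nat_lit 147) (nat_lit 5) (nat_lit 450) (nat_lit 440) (nat_lit 310)))))) (XT.nd (nat_lit 624) (nat_lit 1672) (nat_lit 0) (XT.nd (nat_lit 312) (nat_lit 1140) (nat_lit 0) (XT.nd (nat_lit 156) (nat_lit 684) (nat_lit 0) (XT.nd (nat_lit 78) (nat_lit 304) (nat_lit 0) (XT.lf (nat_lit 0) (nat_lit 86074554697) (nat_lit 456) (nat_lit 7662890326) (nat_lit 76) (nat_lit 44947550851) (nat_lit 141) (nat_lit 5) (nat_lit 147) (nat_lit 5) (nat_lit 142) (nat_lit 5) (nat_lit 451) (nat_lit 440) (nat_lit 309)) (XT.lf (nat_lit 0) (nat_lit 121400712502) (nat_lit 380) (nat_lit 23021206330) (nat_lit 76) (nat_lit 502391967) (nat_lit 137) (nat_lit 5) (nat_lit 142) (nat_lit 5) (nat_lit 138) (nat_lit 5) (nat_lit 452) (nat_lit 440) (nat_lit 308))) (XT.nd (nat_lit 78) (nat_lit 304) (nat_lit 0) (XT.lf (nat_lit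 0) (nat_lit 11166130213) (nat_lit 380) (nat_lit 39201214630) (nat_lit 76) (nat_lit 101112843035) (nat_lit 132) (nat_lit 5) (nat_lit 137) (nat_lit 5) (nat_lit 133) (nat_lit 5) (nat_lit 453) (nat_lit 440) (nat_lit 307)) (XT.lf (nat_lit 0) (nat_lit 50681569022) (nat_lit 380) (nat_lit 55682201991) (nat_lit 76) (nat_lit 52033748291) (nat_lit 128) (nat_lit 5) (nat_lit 133) (nat_lit 5) (nat_lit 129) (nat_lit 5) (nat_lit 454) (nat_lit 440) (nat_lit 306)))) (XT.nd (nat_lit 156) (nat_lit 608) (nat_lit 0) (XT.nd (nat_lit 78) (nat_lit 228) (nat_lit 0) (XT.lf (nat_lit 0) (nat_lit 93688337961) (nat_lit 304) (nat_lit 2675405608) (nat_lit 380) (nat_lit 69354218678) (nat_lit 124) (nat_lit 5) (nat_lit 128) (nat_lit 5) (nat_lit 129) (nat_lit 5) (nat_lit 455) (nat_lit 440) (nat_lit 305)) (XT.lf (nat_lit 0) (nat_lit 84399448050) (nat_lit 228) (nat_lit 65310662104) (nat_lit 304) (nat_lit 23713449599) (nat_lit 121)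 (nat_lit 5) (nat_lit 124) (nat_lit 5) (nat_lit 125) (nat_lit 5) (nat_lit 456) (nat_lit 440) (nat_lit 304))) (XT.nd (nat_lit 78) (nat_lit 228) (nat_lit 0) (XT.lf (nat_lit 0) (nat_lit 28033577964) (nat_lit 380) (nat_lit 106158748063) (nat_lit 76) (nat_lit 47369627828) (nat_lit 116) (nat_lit 5) (nat_lit 121) (nat_lit 5) (nat_lit 117) (nat_lit 5) (nat_lit 457) (nat_lit 440) (nat_lit 303)) (XT.lf (nat_lit 0) (nat_lit 66490732015) (nat_lit 228) (nat_lit 20324966577) (nat_lit 304) (nat_lit 103329976933) (nat_lit 113) (nat_lit 5) (nat_lit 116) (nat_lit 5) (nat_lit 117) (nat_lit 5) (nat_lit 458) (nat_lit 440) (nat_lit 302))))) (XT.nd (nat_lit 312) (nat_lit 836) (nat_lit 0) (XT.nd (nat_lit 156) (nat_lit 380) (nat_lit 0) (XT.nd (nat_lit 78) (nat_lit 228) (nat_lit 0) (XT.lf (nat_lit 0) (nat_lit 57630268378) (nat_lit 228) (nat_lit 97051627164) (nat_lit 304) (nat_lit 44515124077) (nat_lit 110) (nat_lit 5)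 (nat_lit 113) (nat_lit 5) (nat_lit 114) (nat_lit 5) (nat_lit 459) (nat_lit 440) (nat_lit 301)) (XT.lf (nat_lit 0) (nat_lit 22147152616) (nat_lit 228) (nat_lit 159341546209) (nat_lit 76) (nat_lit 27281410854) (nat_lit 107) (nat_lit 5) (nat_lit 110) (nat_lit 5) (nat_lit 108) (nat_lit 5) (nat_lit 460) (nat_lit 440) (nat_lit 300))) (XT.nd (nat_lit 78) (nat_lit 152) (nat_lit 0) (XT.lf (nat_lit 0) (nat_lit 40645810853) (nat_lit 228) (nat_lit 56734908989) (nat_lit 304) (nat_lit 121451944238) (nat_lit 104) (nat_lit 5) (nat_lit 107) (nat_lit 5) (nat_lit 108) (nat_lit 5) (nat_lit 461) (nat_lit 440) (nat_lit 299)) (XT.lf (nat_lit 0) (nat_lit 32538232414) (nat_lit 152) (nat_lit 150641247839) (nat_lit 228) (nat_lit 46293417207) (nat_lit 102) (nat_lit 5) (nat_lit 104) (nat_lit 5) (nat_lit 105) (nat_lit 5) (nat_lit 462) (nat_lit 440) (nat_lit 298)))) (XT.nd (nat_lit 156) (nat_lit 380) (nat_lit 0) (XT.nd (nat_lit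 78) (nat_lit 152) (nat_lit 0) (XT.lf (nat_lit 0) (nat_lit 24920043184) (nat_lit 228) (nat_lit 13341545887) (nat_lit 304) (nat_lit 202450528240) (nat_lit 98) (nat_lit 5) (nat_lit 101) (nat_lit 5) (nat_lit 102) (nat_lit 5) (nat_lit 463) (nat_lit 440) (nat_lit 297)) (XT.lf (nat_lit 0) (nat_lit 16459163520) (nat_lit 152) (nat_lit 117371741803) (nat_lit 228) (nat_lit 118688033754) (nat_lit 96) (nat_lit 5) (nat_lit 98) (nat_lit 5) (nat_lit 99) (nat_lit 5) (nat_lit 464) (nat_lit 440) (nat_lit 296))) (XT.nd (nat_lit 78) (nat_lit 228) (nat_lit 0) (XT.lf (nat_lit 0) (nat_lit 9468359189) (nat_lit 152) (nat_lit 232231898971) (nat_lit 228) (nat_lit 23337323870) (nat_lit 94) (nat_lit 5) (nat_lit 96) (nat_lit 5) (nat_lit 97) (nat_lit 5) (nat_lit 465) (nat_lit 440) (nat_lit 295)) (XT.lf (nat_lit 0) (nat_lit 1472847629) (nat_lit 152) (nat_lit 81800727750) (nat_lit 228) (nat_lit 194912911943) (nat_lit 91) (nat_lit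 5) (nat_lit 93) (nat_lit 5) (nat_lit 94) (nat_lit 5) (nat_lit 466) (nat_lit 440) (nat_lit 294))))))))
noncomputable def xc100 : XT := (XT.nd (nat_lit 2418) (nat_lit 608) (nat_lit 0) (XT.nd (nat_lit 1170) (nat_lit 1748) (nat_lit 0) (XT.nd (nat_lit 546) (nat_lit 1064) (nat_lit 0) (XT.nd (nat_lit 234) (nat_lit 608) (nat_lit 0) (XT.nd (nat_lit 78) (nat_lit 380) (nat_lit 0) (XT.lf (nat_lit 0) (nat_lit 203390543064) (nat_lit 228) (nat_lit 5686620190) (nat_lit 76) (nat_lit 83001271707) (nat_lit 91) (nat_lit 5) (nat_lit 94) (nat_lit 5) (nat_lit 92) (nat_lit 5) (nat_lit 467) (nat_lit 440) (nat_lit 293)) (XT.nd (nat_lit 78) (nat_lit 152) (nat_lit 0) (XT.lf (nat_lit 0) (nat_lit 31286105950) (nat_lit 228) (nat_lit 12199703024) (nat_lit 76) (nat_lit 263271392233) (nat_lit 88) (nat_lit 5) (nat_lit 91) (nat_lit 5) (nat_lit 89) (nat_lit 5) (nat_lit 468) (nat_lit 440) (nat_lit 292)) (XT.lf (nat_lit 0) (nat_lit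 164866918463) (nat_lit 228) (nat_lit 19837286667) (nat_lit 76) (nat_lit 137477564310) (nat_lit 86) (nat_lit 5) (nat_lit 89) (nat_lit 5) (nat_lit 87) (nat_lit 5) (nat_lit 469) (nat_lit 440) (nat_lit 291)))) (XT.nd (nat_lit 156) (nat_lit 304) (nat_lit 0) (XT.nd (nat_lit 78) (nat_lit 152) (nat_lit 0) (XT.lf (nat_lit 0) (nat_lit 312936852628) (nat_lit 152) (nat_lit 2032111357) (nat_lit 228) (nat_lit 23579600756) (nat_lit 84) (nat_lit 5) (nat_lit 86) (nat_lit 5) (nat_lit 87) (nat_lit 5) (nat_lit 470) (nat_lit 440) (nat_lit 290)) (XT.lf (nat_lit 0) (nat_lit 125585410053) (nat_lit 152) (nat_lit 33673050038) (nat_lit 76) (nat_lit 196441947815) (nat_lit 82) (nat_lit 5) (nat_lit 84) (nat_lit 5) (nat_lit 83) (nat_lit 5) (nat_lit 471) (nat_lit 440) (nat_lit 289))) (XT.nd (nat_lit 78) (nat_lit 152) (nat_lit 0) (XT.lf (nat_lit 0) (nat_lit 292247206458) (nat_lit 228) (nat_lit 40133464080) (nat_lit 76) (nat_lit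 41504915499) (nat_lit 80) (nat_lit 5) (nat_lit 83) (nat_lit 5) (nat_lit 81) (nat_lit 4) (nat_lit 472) (nat_lit 440) (nat_lit 288)) (XT.lf (nat_lit 0) (nat_lit 85033388250) (nat_lit 152) (nat_lit 47784509132) (nat_lit 76) (nat_lit 260204410112) (nat_lit 78) (nat_lit 5) (nat_lit 80) (nat_lit 5) (nat_lit 79) (nat_lit 5) (nat_lit 473) (nat_lit 440) (nat_lit 287))))) (XT.nd (nat_lit 312) (nat_lit 532) (nat_lit 0) (XT.nd (nat_lit 156) (nat_lit 228) (nat_lit 0) (XT.nd (nat_lit 78) (nat_lit 152) (nat_lit 0) (XT.lf (nat_lit 0) (nat_lit 269954874672) (nat_lit 228) (nat_lit 55393454668) (nat_lit 76) (nat_lit 87885911215) (nat_lit 76) (nat_lit 5) (nat_lit 79) (nat_lit 5) (nat_lit 77) (nat_lit 4) (nat_lit 474) (nat_lit 440) (nat_lit 286)) (XT.lf (nat_lit 0) (nat_lit 42542547644) (nat_lit 152) (nat_lit 63042414091) (nat_lit 76) (nat_lit 328998989231) (nat_lit 74) (nat_lit 5) (nat_lit 76) (nat_lit 5) (nat_lit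 75) (nat_lit 5) (nat_lit 475) (nat_lit 440) (nat_lit 285))) (XT.nd (nat_lit 78) (nat_lit 76) (nat_lit 0) (XT.lf (nat_lit 0) (nat_lit 247511539577) (nat_lit 228) (nat_lit 72412359591) (nat_lit 76) (nat_lit 137135240124) (nat_lit 72) (nat_lit 5) (nat_lit 75) (nat_lit 5) (nat_lit 73) (nat_lit 4) (nat_lit 476) (nat_lit 440) (nat_lit 284)) (XT.lf (nat_lit 0) (nat_lit 400132853345) (nat_lit 76) (nat_lit 77888674167) (nat_lit 152) (nat_lit 2853641344) (nat_lit 71) (nat_lit 5) (nat_lit 72) (nat_lit 5) (nat_lit 73) (nat_lit 4) (nat_lit 477) (nat_lit 440) (nat_lit 283)))) (XT.nd (nat_lit 156) (nat_lit 228) (nat_lit 0) (XT.nd (nat_lit 78) (nat_lit 76) (nat_lit 0) (XT.lf (nat_lit 0) (nat_lit 224154515236) (nat_lit 228) (nat_lit 92684692294) (nat_lit 76) (nat_lit 189043634817) (nat_lit 68) (nat_lit 5) (nat_lit 71) (nat_lit 5) (nat_lit 69) (nat_lit 4) (nat_lit 478) (nat_lit 440) (nat_lit 282)) (XT.lf (nat_lit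 0) (nat_lit 429064125448) (nat_lit 76) (nat_lit 49602112685) (nat_lit 152) (nat_lit 53750407963) (nat_lit 67) (nat_lit 5) (nat_lit 68) (nat_lit 5) (nat_lit 69) (nat_lit 4) (nat_lit 479) (nat_lit 440) (nat_lit 281))) (XT.nd (nat_lit 78) (nat_lit 76) (nat_lit 0) (XT.lf (nat_lit 0) (nat_lit 198833554811) (nat_lit 152) (nat_lit 118297746975) (nat_lit 76) (nat_lit 243165210083) (nat_lit 65) (nat_lit 5) (nat_lit 67) (nat_lit 5) (nat_lit 66) (nat_lit 4) (nat_lit 480) (nat_lit 440) (nat_lit 280)) (XT.lf (nat_lit 0) (nat_lit 457213144201) (nat_lit 76) (nat_lit 22357516010) (nat_lit 152) (nat_lit 110300570082) (nat_lit 64) (nat_lit 5) (nat_lit 65) (nat_lit 5) (nat_lit 66) (nat_lit 4) (nat_lit 481) (nat_lit 440) (nat_lit 279)))))) (XT.nd (nat_lit 624) (nat_lit 836) (nat_lit 0) (XT.nd (nat_lit 312) (nat_lit 456) (nat_lit 0) (XT.nd (nat_lit 156) (nat_lit 228) (nat_lit 0) (XT.nd (nat_lit 78) (nat_lit 76) (nat_lit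 0) (XT.lf (nat_lit 0) (nat_lit 170114607408) (nat_lit 152) (nat_lit 152128741643) (nat_lit 76) (nat_lit 298727361431) (nat_lit 62) (nat_lit 5) (nat_lit 64) (nat_lit 5) (nat_lit 63) (nat_lit 4) (nat_lit 482) (nat_lit 440) (nat_lit 278)) (XT.lf (nat_lit 0) (nat_lit 479438780295) (nat_lit 152) (nat_lit 172086340483) (nat_lit 0) (nat_lit 2425609214) (nat_lit 61) (nat_lit 5) (nat_lit 63) (nat_lit 4) (nat_lit 61) (nat_lit 4) (nat_lit 483) (nat_lit 440) (nat_lit 277))) (XT.nd (nat_lit 78) (nat_lit 76) (nat_lit 0) (XT.lf (nat_lit 0) (nat_lit 136054203618) (nat_lit 152) (nat_lit 198102179591) (nat_lit 76) (nat_lit 354511949862) (nat_lit 59) (nat_lit 5) (nat_lit 61) (nat_lit 5) (nat_lit 60) (nat_lit 4) (nat_lit 484) (nat_lit 440) (nat_lit 276)) (XT.lf (nat_lit 0) (nat_lit 476636519805) (nat_lit 152) (nat_lit 226481505399) (nat_lit 0) (nat_lit 22338030651) (nat_lit 58) (nat_lit 5) (nat_lit 60) (nat_lit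 4) (nat_lit 58) (nat_lit 4) (nat_lit 485) (nat_lit 440) (nat_lit 275)))) (XT.nd (nat_lit 156) (nat_lit 228) (nat_lit 0) (XT.nd (nat_lit 78) (nat_lit 76) (nat_lit 0) (XT.lf (nat_lit 0) (nat_lit 94035818753) (nat_lit 152) (nat_lit 261525163531) (nat_lit 76) (nat_lit 408699195852) (nat_lit 56) (nat_lit 5) (nat_lit 58) (nat_lit 5) (nat_lit 57) (nat_lit 4) (nat_lit 486) (nat_lit 440) (nat_lit 274)) (XT.lf (nat_lit 0) (nat_lit 468174409723) (nat_lit 152) (nat_lit 301652665066) (nat_lit 0) (nat_lit 35508993359) (nat_lit 55) (nat_lit 5) (nat_lit 57) (nat_lit 4) (nat_lit 55) (nat_lit 4) (nat_lit 487) (nat_lit 440) (nat_lit 273))) (XT.nd (nat_lit 78) (nat_lit 76) (nat_lit 0) (XT.lf (nat_lit 0) (nat_lit 40557056973) (nat_lit 152) (nat_lit 349523533524) (nat_lit 76) (nat_lit 458663207855) (nat_lit 53) (nat_lit 5) (nat_lit 55) (nat_lit 5) (nat_lit 54) (nat_lit 4) (nat_lit 488) (nat_lit 440) (nat_lit 272))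 (XT.lf (nat_lit 0) (nat_lit 450440225534) (nat_lit 152) (nat_lit 405841816280) (nat_lit 0) (nat_lit 38377770241) (nat_lit 52) (nat_lit 5) (nat_lit 54) (nat_lit 4) (nat_lit 52) (nat_lit 4) (nat_lit 489) (nat_lit 440) (nat_lit 271))))) (XT.nd (nat_lit 312) (nat_lit 380) (nat_lit 0) (XT.nd (nat_lit 156) (nat_lit 228) (nat_lit 0) (XT.nd (nat_lit 78) (nat_lit 152) (nat_lit 0) (XT.lf (nat_lit 0) (nat_lit 471166206147) (nat_lit 76) (nat_lit 442069666646) (nat_lit 76) (nat_lit 30007142802) (nat_lit 51) (nat_lit 4) (nat_lit 52) (nat_lit 5) (nat_lit 52) (nat_lit 4) (nat_lit 490) (nat_lit 440) (nat_lit 270)) (XT.lf (nat_lit 0) (nat_lit 418539903512) (nat_lit 152) (nat_lit 550020075256) (nat_lit 0) (nat_lit 26099344162) (nat_lit 49) (nat_lit 5) (nat_lit 51) (nat_lit 4) (nat_lit 49) (nat_lit 4) (nat_lit 491) (nat_lit 440) (nat_lit 269))) (XT.nd (nat_lit 78) (nat_lit 152) (nat_lit 0) (XT.lf (nat_lit 0) (nat_lit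 406694101756) (nat_lit 76) (nat_lit 517401033066) (nat_lit 76) (nat_lit 124960417743) (nat_lit 48) (nat_lit 4) (nat_lit 49) (nat_lit 5) (nat_lit 49) (nat_lit 4) (nat_lit 492) (nat_lit 440) (nat_lit 268)) (XT.lf (nat_lit 0) (nat_lit 357903433501) (nat_lit 76) (nat_lit 8118079011) (nat_lit 152) (nat_lit 740732859293) (nat_lit 46) (nat_lit 5) (nat_lit 47) (nat_lit 5) (nat_lit 48) (nat_lit 4) (nat_lit 493) (nat_lit 440) (nat_lit 267)))) (XT.nd (nat_lit 156) (nat_lit 152) (nat_lit 0) (XT.nd (nat_lit 78) (nat_lit 152) (nat_lit 0) (XT.lf (nat_lit 0) (nat_lit 291186734260) (nat_lit 76) (nat_lit 625155541814) (nat_lit 76) (nat_lit 251402479778) (nat_lit 45) (nat_lit 4) (nat_lit 46) (nat_lit 5) (nat_lit 46) (nat_lit 4) (nat_lit 494) (nat_lit 440) (nat_lit 266)) (XT.lf (nat_lit 0) (nat_lit 210259201533) (nat_lit 76) (nat_lit 74624850118) (nat_lit 152) (nat_lit 947680132110) (nat_lit 43) (nat_lit 5) (nat_lit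 44) (nat_lit 5) (nat_lit 45) (nat_lit 4) (nat_lit 495) (nat_lit 440) (nat_lit 265))) (XT.nd (nat_lit 78) (nat_lit 76) (nat_lit 0) (XT.lf (nat_lit 0) (nat_lit 104246710003) (nat_lit 76) (nat_lit 776401320466) (nat_lit 76) (nat_lit 420445945670) (nat_lit 42) (nat_lit 4) (nat_lit 43) (nat_lit 5) (nat_lit 43) (nat_lit 4) (nat_lit 496) (nat_lit 440) (nat_lit 264)) (XT.lf (nat_lit 0) (nat_lit 163557112015) (nat_lit 152) (nat_lit 20663329717) (nat_lit 76) (nat_lit 1189801520084) (nat_lit 41) (nat_lit 5) (nat_lit 43) (nat_lit 5) (nat_lit 42) (nat_lit 4) (nat_lit 497) (nat_lit 440) (nat_lit 263))))))) (XT.nd (nat_lit 58812) (nat_lit 0) (nat_lit 4636) (XT.nd (nat_lit 58188) (nat_lit 0) (nat_lit 8588) (XT.nd (nat_lit 312) (nat_lit 228) (nat_lit 0) (XT.nd (nat_lit 156) (nat_lit 228) (nat_lit 0) (XT.nd (nat_lit 78) (nat_lit 76) (nat_lit 0) (XT.lf (nat_lit 0) (nat_lit 807341394064) (nat_lit 152) (nat_lit 175372384746)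 (nat_lit 0) (nat_lit 468336211833) (nat_lit 40) (nat_lit 5) (nat_lit 42) (nat_lit 4) (nat_lit 40) (nat_lit 4) (nat_lit 498) (nat_lit 440) (nat_lit 262)) (XT.lf (nat_lit 0) (nat_lit 1176793758178) (nat_lit 76) (nat_lit 347679730277) (nat_lit 76) (nat_lit 8674519834) (nat_lit 39) (nat_lit 4) (nat_lit 40) (nat_lit 5) (nat_lit 40) (nat_lit 4) (nat_lit 499) (nat_lit 440) (nat_lit 261))) (XT.nd (nat_lit 78) (nat_lit 76) (nat_lit 0) (XT.lf (nat_lit 0) (nat_lit 680673103987) (nat_lit 152) (nat_lit 581541957236) (nat_lit 0) (nat_lit 357810973925) (nat_lit 37) (nat_lit 5) (nat_lit 39) (nat_lit 4) (nat_lit 37) (nat_lit 4) (nat_lit 500) (nat_lit 440) (nat_lit 260)) (XT.lf (nat_lit 0) (nat_lit 865687479217) (nat_lit 76) (nat_lit 584868646369) (nat_lit 76) (nat_lit 262006493270) (nat_lit 36) (nat_lit 4) (nat_lit 37) (nat_lit 5) (nat_lit 37) (nat_lit 4) (nat_lit 501) (nat_lit 440) (nat_lit 259)))) (XT.nd (nat_lit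 57720) (nat_lit 0) (nat_lit 9880) (XT.nd (nat_lit 78) (nat_lit 76) (nat_lit 0) (XT.lf (nat_lit 0) (nat_lit 477702078634) (nat_lit 152) (nat_lit 1163059113214) (nat_lit 0) (nat_lit 170214293464) (nat_lit 34) (nat_lit 5) (nat_lit 36) (nat_lit 4) (nat_lit 34) (nat_lit 4) (nat_lit 502) (nat_lit 440) (nat_lit 258)) (XT.lf (nat_lit 0) (nat_lit 373439556634) (nat_lit 76) (nat_lit 924777212893) (nat_lit 76) (nat_lit 617289408914) (nat_lit 33) (nat_lit 4) (nat_lit 34) (nat_lit 5) (nat_lit 34) (nat_lit 4) (nat_lit 503) (nat_lit 440) (nat_lit 257))) (XT.nd (nat_lit 78) (nat_lit 0) (nat_lit 76) (XT.lf (nat_lit 0) (nat_lit 21048023372) (nat_lit 836) (nat_lit 13284540265) (nat_lit 836) (nat_lit 13284540265) (nat_lit 163) (nat_lit 3) (nat_lit 174) (nat_lit 3) (nat_lit 174) (nat_lit 5) (nat_lit 441) (nat_lit 441) (nat_lit 318)) (XT.lf (nat_lit 0) (nat_lit 44685550007) (nat_lit 760) (nat_lit 48162550414) (nat_lit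 836) (nat_lit 6150191766) (nat_lit 164) (nat_lit 5) (nat_lit 174) (nat_lit 5) (nat_lit 175) (nat_lit 5) (nat_lit 442) (nat_lit 441) (nat_lit 317))))) (XT.nd (nat_lit 312) (nat_lit 1368) (nat_lit 0) (XT.nd (nat_lit 156) (nat_lit 0) (nat_lit 152) (XT.nd (nat_lit 78) (nat_lit 0) (nat_lit 76) (XT.lf (nat_lit 76) (nat_lit 32206080188) (nat_lit 0) (nat_lit 17406066496) (nat_lit 836) (nat_lit 53344860064) (nat_lit 165) (nat_lit 5) (nat_lit 164) (nat_lit 5) (nat_lit 175) (nat_lit 5) (nat_lit 443) (nat_lit 441) (nat_lit 316)) (XT.lf (nat_lit 76) (nat_lit 12932742976) (nat_lit 0) (nat_lit 44054053666) (nat_lit 836) (nat_lit 50142925634) (nat_lit 166) (nat_lit 5) (nat_lit 165) (nat_lit 5) (nat_lit 176) (nat_lit 5) (nat_lit 444) (nat_lit 441) (nat_lit 315))) (XT.nd (nat_lit 78) (nat_lit 0) (nat_lit 76) (XT.lf (nat_lit 0) (nat_lit 67081515473) (nat_lit 760) (nat_lit 6636384510) (nat_lit 836) (nat_lit 37811850295)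 (nat_lit 166) (nat_lit 5) (nat_lit 176) (nat_lit 5) (nat_lit 177) (nat_lit 5) (nat_lit 445) (nat_lit 441) (nat_lit 314)) (XT.lf (nat_lit 0) (nat_lit 80287101312) (nat_lit 760) (nat_lit 26261201122) (nat_lit 836) (nat_lit 9618313676) (nat_lit 167) (nat_lit 5) (nat_lit 177) (nat_lit 5) (nat_lit 178) (nat_lit 5) (nat_lit 446) (nat_lit 441) (nat_lit 313)))) (XT.nd (nat_lit 156) (nat_lit 912) (nat_lit 0) (XT.nd (nat_lit 78) (nat_lit 684) (nat_lit 0) (XT.lf (nat_lit 76) (nat_lit 74373715685) (nat_lit 0) (nat_lit 22696279918) (nat_lit 836) (nat_lit 23978392592) (nat_lit 168) (nat_lit 5) (nat_lit 167) (nat_lit 5) (nat_lit 178) (nat_lit 5) (nat_lit 447) (nat_lit 441) (nat_lit 312)) (XT.lf (nat_lit 0) (nat_lit 58504131977) (nat_lit 760) (nat_lit 59128519114) (nat_lit 836) (nat_lit 8566194532) (nat_lit 158) (nat_lit 5) (nat_lit 168) (nat_lit 5) (nat_lit 169) (nat_lit 5) (nat_lit 448) (nat_lit 441) (nat_lit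 311))) (XT.nd (nat_lit 78) (nat_lit 380) (nat_lit 0) (XT.lf (nat_lit 0) (nat_lit 10216676548) (nat_lit 532) (nat_lit 89286108979) (nat_lit 76) (nat_lit 32132433645) (nat_lit 151) (nat_lit 5) (nat_lit 158) (nat_lit 5) (nat_lit 152) (nat_lit 5) (nat_lit 449) (nat_lit 441) (nat_lit 310)) (XT.lf (nat_lit 0) (nat_lit 25831540247) (nat_lit 380) (nat_lit 6972677645) (nat_lit 456) (nat_lit 104565155375) (nat_lit 146) (nat_lit 5) (nat_lit 151) (nat_lit 5) (nat_lit 152) (nat_lit 5) (nat_lit 450) (nat_lit 441) (nat_lit 309)))))) (XT.nd (nat_lit 624) (nat_lit 1672) (nat_lit 0) (XT.nd (nat_lit 312) (nat_lit 1216) (nat_lit 0) (XT.nd (nat_lit 156) (nat_lit 684) (nat_lit 0) (XT.nd (nat_lit 78) (nat_lit 0) (nat_lit 0) (XT.lf (nat_lit 0) (nat_lit 8662169281) (nat_lit 380) (nat_lit 51703341364) (nat_lit 456) (nat_lit 83038411683) (nat_lit 141) (nat_lit 5) (nat_lit 146) (nat_lit 5) (nat_lit 147) (nat_lit 5) (nat_lit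 451) (nat_lit 441) (nat_lit 308)) (XT.lf (nat_lit 0) (nat_lit 92972650417) (nat_lit 456) (nat_lit 8262284945) (nat_lit 76) (nat_lit 48544252814) (nat_lit 141) (nat_lit 5) (nat_lit 147) (nat_lit 5) (nat_lit 142) (nat_lit 5) (nat_lit 452) (nat_lit 441) (nat_lit 307))) (XT.nd (nat_lit 78) (nat_lit 380) (nat_lit 0) (XT.lf (nat_lit 0) (nat_lit 131124230981) (nat_lit 380) (nat_lit 24849311400) (nat_lit 76) (nat_lit 544139469) (nat_lit 137) (nat_lit 5) (nat_lit 142) (nat_lit 5) (nat_lit 138) (nat_lit 5) (nat_lit 453) (nat_lit 441) (nat_lit 306)) (XT.lf (nat_lit 0) (nat_lit 12070414054) (nat_lit 380) (nat_lit 42323946885) (nat_lit 76) (nat_lit 109203691644) (nat_lit 132) (nat_lit 5) (nat_lit 137) (nat_lit 5) (nat_lit 133) (nat_lit 5) (nat_lit 454) (nat_lit 441) (nat_lit 305)))) (XT.nd (nat_lit 156) (nat_lit 608) (nat_lit 0) (XT.nd (nat_lit 78) (nat_lit 304) (nat_lit 0) (XT.lf (nat_lit 0) (nat_lit 54746510791)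 (nat_lit 380) (nat_lit 60123512073) (nat_lit 76) (nat_lit 56198776567) (nat_lit 128) (nat_lit 5) (nat_lit 133) (nat_lit 5) (nat_lit 129) (nat_lit 5) (nat_lit 455) (nat_lit 441) (nat_lit 304)) (XT.lf (nat_lit 0) (nat_lit 101196094548) (nat_lit 304) (nat_lit 2886591300) (nat_lit 380) (nat_lit 74892220679) (nat_lit 124) (nat_lit 5) (nat_lit 128) (nat_lit 5) (nat_lit 129) (nat_lit 5) (nat_lit 456) (nat_lit 441) (nat_lit 303))) (XT.nd (nat_lit 78) (nat_lit 380) (nat_lit 0) (XT.lf (nat_lit 0) (nat_lit 91163970744) (nat_lit 228) (nat_lit 70532299276) (nat_lit 304) (nat_lit 25600706441) (nat_lit 121) (nat_lit 5) (nat_lit 124) (nat_lit 5) (nat_lit 125) (nat_lit 5) (nat_lit 457) (nat_lit 441) (nat_lit 302)) (XT.lf (nat_lit 0) (nat_lit 30285309338) (nat_lit 380) (nat_lit 114638727963) (nat_lit 76) (nat_lit 51162420148) (nat_lit 116) (nat_lit 5) (nat_lit 121) (nat_lit 5) (nat_lit 117) (nat_lit 5) (nat_lit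 458) (nat_lit 441) (nat_lit 301))))) (XT.nd (nat_lit 312) (nat_lit 760) (nat_lit 0) (XT.nd (nat_lit 156) (nat_lit 456) (nat_lit 0) (XT.nd (nat_lit 78) (nat_lit 228) (nat_lit 0) (XT.lf (nat_lit 0) (nat_lit 71822157729) (nat_lit 228) (nat_lit 21947361841) (nat_lit 304) (nat_lit 111587381319) (nat_lit 113) (nat_lit 5) (nat_lit 116) (nat_lit 5) (nat_lit 117) (nat_lit 5) (nat_lit 459) (nat_lit 441) (nat_lit 300)) (XT.lf (nat_lit 0) (nat_lit 62252684485) (nat_lit 228) (nat_lit 104811932682) (nat_lit 304) (nat_lit 48067755131) (nat_lit 110) (nat_lit 5) (nat_lit 113) (nat_lit 5) (nat_lit 114) (nat_lit 5) (nat_lit 460) (nat_lit 441) (nat_lit 299))) (XT.nd (nat_lit 78) (nat_lit 228) (nat_lit 0) (XT.lf (nat_lit 0) (nat_lit 23926857552) (nat_lit 228) (nat_lit 172076799901) (nat_lit 76) (nat_lit 29467664018) (nat_lit 107) (nat_lit 5) (nat_lit 110) (nat_lit 5) (nat_lit 108) (nat_lit 5) (nat_lit 461) (nat_lit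 441) (nat_lit 298)) (XT.lf (nat_lit 0) (nat_lit 43909021178) (nat_lit 228) (nat_lit 61269681626) (nat_lit 304) (nat_lit 131160197814) (nat_lit 104) (nat_lit 5) (nat_lit 107) (nat_lit 5) (nat_lit 108) (nat_lit 5) (nat_lit 462) (nat_lit 441) (nat_lit 297)))) (XT.nd (nat_lit 156) (nat_lit 304) (nat_lit 0) (XT.nd (nat_lit 78) (nat_lit 304) (nat_lit 0) (XT.lf (nat_lit 0) (nat_lit 35152634899) (nat_lit 152) (nat_lit 162688406940) (nat_lit 228) (nat_lit 49989326964) (nat_lit 102) (nat_lit 5) (nat_lit 104) (nat_lit 5) (nat_lit 105) (nat_lit 5) (nat_lit 463) (nat_lit 441) (nat_lit 296)) (XT.lf (nat_lit 0) (nat_lit 26924729371) (nat_lit 228) (nat_lit 14404739059) (nat_lit 304) (nat_lit 218639270394) (nat_lit 98) (nat_lit 5) (nat_lit 101) (nat_lit 5) (nat_lit 102) (nat_lit 5) (nat_lit 464) (nat_lit 441) (nat_lit 295))) (XT.nd (nat_lit 78) (nat_lit 152) (nat_lit 0) (XT.lf (nat_lit 0) (nat_lit 17786768760)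 (nat_lit 152) (nat_lit 126757275697) (nat_lit 228) (nat_lit 128176076168) (nat_lit 96) (nat_lit 5) (nat_lit 98) (nat_lit 5) (nat_lit 99) (nat_lit 5) (nat_lit 465) (nat_lit 441) (nat_lit 294)) (XT.lf (nat_lit 0) (nat_lit 10236483868) (nat_lit 152) (nat_lit 250806194989) (nat_lit 228) (nat_lit 25197589511) (nat_lit 94) (nat_lit 5) (nat_lit 96) (nat_lit 5) (nat_lit 97) (nat_lit 5) (nat_lit 466) (nat_lit 441) (nat_lit 293))))))))
noncomputable def xc101 : XT := (XT.nd (nat_lit 2496) (nat_lit 532) (nat_lit 0) (XT.nd (nat_lit 1248) (nat_lit 1748) (nat_lit 0) (XT.nd (nat_lit 624) (nat_lit 1064) (nat_lit 0) (XT.nd (nat_lit 312) (nat_lit 608) (nat_lit 0) (XT.nd (nat_lit 156) (nat_lit 380) (nat_lit 0) (XT.nd (nat_lit 78) (nat_lit 0) (nat_lit 0) (XT.lf (nat_lit 0) (nat_lit 1601074236) (nat_lit 152) (nat_lit 88340572842) (nat_lit 228) (nat_lit 210499449749) (nat_lit 91) (nat_lit 5) (nat_lit 93) (nat_lit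 5) (nat_lit 94) (nat_lit 5) (nat_lit 467) (nat_lit 441) (nat_lit 292)) (XT.lf (nat_lit 0) (nat_lit 219667574886) (nat_lit 228) (nat_lit 6131695640) (nat_lit 76) (nat_lit 89645149630) (nat_lit 91) (nat_lit 5) (nat_lit 94) (nat_lit 5) (nat_lit 92) (nat_lit 5) (nat_lit 468) (nat_lit 441) (nat_lit 291))) (XT.nd (nat_lit 78) (nat_lit 152) (nat_lit 0) (XT.lf (nat_lit 0) (nat_lit 33794591638) (nat_lit 228) (nat_lit 13166068120) (nat_lit 76) (nat_lit 284336837523) (nat_lit 88) (nat_lit 5) (nat_lit 91) (nat_lit 5) (nat_lit 89) (nat_lit 5) (nat_lit 469) (nat_lit 441) (nat_lit 290)) (XT.lf (nat_lit 0) (nat_lit 178061658459) (nat_lit 228) (nat_lit 21414870067) (nat_lit 76) (nat_lit 148479512994) (nat_lit 86) (nat_lit 5) (nat_lit 89) (nat_lit 5) (nat_lit 87) (nat_lit 5) (nat_lit 470) (nat_lit 441) (nat_lit 289)))) (XT.nd (nat_lit 156) (nat_lit 304) (nat_lit 0) (XT.nd (nat_lit 78) (nat_lit 152) (nat_lit 0)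 (XT.lf (nat_lit 0) (nat_lit 337980791880) (nat_lit 152) (nat_lit 2190817117) (nat_lit 228) (nat_lit 25460584391) (nat_lit 84) (nat_lit 5) (nat_lit 86) (nat_lit 5) (nat_lit 87) (nat_lit 5) (nat_lit 471) (nat_lit 441) (nat_lit 288)) (XT.lf (nat_lit 0) (nat_lit 135637265084) (nat_lit 152) (nat_lit 36357939869) (nat_lit 76) (nat_lit 212160984353) (nat_lit 82) (nat_lit 5) (nat_lit 84) (nat_lit 5) (nat_lit 83) (nat_lit 5) (nat_lit 472) (nat_lit 441) (nat_lit 287))) (XT.nd (nat_lit 78) (nat_lit 152) (nat_lit 0) (XT.lf (nat_lit 0) (nat_lit 315631825942) (nat_lit 228) (nat_lit 43335395895) (nat_lit 76) (nat_lit 44828968821) (nat_lit 80) (nat_lit 5) (nat_lit 83) (nat_lit 5) (nat_lit 81) (nat_lit 4) (nat_lit 473) (nat_lit 441) (nat_lit 286)) (XT.lf (nat_lit 0) (nat_lit 91840749899) (nat_lit 152) (nat_lit 51598749421) (nat_lit 76) (nat_lit 281024358146) (nat_lit 78) (nat_lit 5) (nat_lit 80) (nat_lit 5) (nat_lit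 79) (nat_lit 5) (nat_lit 474) (nat_lit 441) (nat_lit 285))))) (XT.nd (nat_lit 312) (nat_lit 532) (nat_lit 0) (XT.nd (nat_lit 156) (nat_lit 228) (nat_lit 0) (XT.nd (nat_lit 78) (nat_lit 152) (nat_lit 0) (XT.lf (nat_lit 0) (nat_lit 291555792482) (nat_lit 228) (nat_lit 59816614727) (nat_lit 76) (nat_lit 94920346106) (nat_lit 76) (nat_lit 5) (nat_lit 79) (nat_lit 5) (nat_lit 77) (nat_lit 4) (nat_lit 475) (nat_lit 441) (nat_lit 284)) (XT.lf (nat_lit 0) (nat_lit 45950338942) (nat_lit 152) (nat_lit 68077707169) (nat_lit 76) (nat_lit 355322401476) (nat_lit 74) (nat_lit 5) (nat_lit 76) (nat_lit 5) (nat_lit 75) (nat_lit 5) (nat_lit 476) (nat_lit 441) (nat_lit 283))) (XT.nd (nat_lit 78) (nat_lit 76) (nat_lit 0) (XT.lf (nat_lit 0) (nat_lit 267316701852) (nat_lit 228) (nat_lit 78197446732) (nat_lit 76) (nat_lit 148109509820) (nat_lit 72) (nat_lit 5) (nat_lit 75) (nat_lit 5) (nat_lit 73) (nat_lit 4) (nat_lit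 477) (nat_lit 441) (nat_lit 282)) (XT.lf (nat_lit 0) (nat_lit 432151039843) (nat_lit 76) (nat_lit 84116252976) (nat_lit 152) (nat_lit 3077687321) (nat_lit 71) (nat_lit 5) (nat_lit 72) (nat_lit 5) (nat_lit 73) (nat_lit 4) (nat_lit 478) (nat_lit 441) (nat_lit 281)))) (XT.nd (nat_lit 156) (nat_lit 228) (nat_lit 0) (XT.nd (nat_lit 78) (nat_lit 76) (nat_lit 0) (XT.lf (nat_lit 0) (nat_lit 242090850117) (nat_lit 228) (nat_lit 100091965529) (nat_lit 76) (nat_lit 204170455344) (nat_lit 68) (nat_lit 5) (nat_lit 71) (nat_lit 5) (nat_lit 69) (nat_lit 4) (nat_lit 479) (nat_lit 441) (nat_lit 280)) (XT.lf (nat_lit 0) (nat_lit 463396431598) (nat_lit 76) (nat_lit 53566896942) (nat_lit 152) (nat_lit 58046459619) (nat_lit 67) (nat_lit 5) (nat_lit 68) (nat_lit 5) (nat_lit 69) (nat_lit 4) (nat_lit 480) (nat_lit 441) (nat_lit 279))) (XT.nd (nat_lit 78) (nat_lit 76) (nat_lit 0) (XT.lf (nat_lit 0) (nat_lit 214743968048)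 (nat_lit 152) (nat_lit 127754448307) (nat_lit 76) (nat_lit 262621629972) (nat_lit 65) (nat_lit 5) (nat_lit 67) (nat_lit 5) (nat_lit 66) (nat_lit 4) (nat_lit 481) (nat_lit 441) (nat_lit 278)) (XT.lf (nat_lit 0) (nat_lit 493797004806) (nat_lit 76) (nat_lit 24142867172) (nat_lit 152) (nat_lit 119120878746) (nat_lit 64) (nat_lit 5) (nat_lit 65) (nat_lit 5) (nat_lit 66) (nat_lit 4) (nat_lit 482) (nat_lit 441) (nat_lit 277)))))) (XT.nd (nat_lit 624) (nat_lit 836) (nat_lit 0) (XT.nd (nat_lit 312) (nat_lit 456) (nat_lit 0) (XT.nd (nat_lit 156) (nat_lit 228) (nat_lit 0) (XT.nd (nat_lit 78) (nat_lit 76) (nat_lit 0) (XT.lf (nat_lit 0) (nat_lit 183727278430) (nat_lit 152) (nat_lit 164292290252) (nat_lit 76) (nat_lit 322628623477) (nat_lit 62) (nat_lit 5) (nat_lit 64) (nat_lit 5) (nat_lit 63) (nat_lit 4) (nat_lit 483) (nat_lit 441) (nat_lit 276)) (XT.lf (nat_lit 0) (nat_lit 517797275136) (nat_lit 152) (nat_lit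 185846671761) (nat_lit 0) (nat_lit 2622671836) (nat_lit 61) (nat_lit 5) (nat_lit 63) (nat_lit 4) (nat_lit 61) (nat_lit 4) (nat_lit 484) (nat_lit 441) (nat_lit 275))) (XT.nd (nat_lit 78) (nat_lit 76) (nat_lit 0) (XT.lf (nat_lit 0) (nat_lit 146941832381) (nat_lit 152) (nat_lit 213943954883) (nat_lit 76) (nat_lit 382875847796) (nat_lit 59) (nat_lit 5) (nat_lit 61) (nat_lit 5) (nat_lit 60) (nat_lit 4) (nat_lit 485) (nat_lit 441) (nat_lit 274)) (XT.lf (nat_lit 0) (nat_lit 514770632017) (nat_lit 152) (nat_lit 244593794089) (nat_lit 0) (nat_lit 24127954654) (nat_lit 58) (nat_lit 5) (nat_lit 60) (nat_lit 4) (nat_lit 58) (nat_lit 4) (nat_lit 486) (nat_lit 441) (nat_lit 273)))) (XT.nd (nat_lit 156) (nat_lit 228) (nat_lit 0) (XT.nd (nat_lit 78) (nat_lit 76) (nat_lit 0) (XT.lf (nat_lit 0) (nat_lit 101561781590) (nat_lit 152) (nat_lit 282441113257) (nat_lit 76) (nat_lit 441397942646) (nat_lit 56) (nat_lit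 5) (nat_lit 58) (nat_lit 5) (nat_lit 57) (nat_lit 4) (nat_lit 487) (nat_lit 441) (nat_lit 272)) (XT.lf (nat_lit 0) (nat_lit 505631365319) (nat_lit 152) (nat_lit 325778974834) (nat_lit 0) (nat_lit 38352463280) (nat_lit 55) (nat_lit 5) (nat_lit 57) (nat_lit 4) (nat_lit 55) (nat_lit 4) (nat_lit 488) (nat_lit 441) (nat_lit 271))) (XT.nd (nat_lit 78) (nat_lit 76) (nat_lit 0) (XT.lf (nat_lit 0) (nat_lit 43804537130) (nat_lit 152) (nat_lit 377479672900) (nat_lit 76) (nat_lit 495358946388) (nat_lit 53) (nat_lit 5) (nat_lit 55) (nat_lit 5) (nat_lit 54) (nat_lit 4) (nat_lit 489) (nat_lit 441) (nat_lit 270)) (XT.lf (nat_lit 0) (nat_lit 486478271262) (nat_lit 152) (nat_lit 438303570867) (nat_lit 0) (nat_lit 41450613486) (nat_lit 52) (nat_lit 5) (nat_lit 54) (nat_lit 4) (nat_lit 52) (nat_lit 4) (nat_lit 490) (nat_lit 441) (nat_lit 269))))) (XT.nd (nat_lit 312) (nat_lit 380) (nat_lit 0) (XT.nd (nat_lit 156)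 (nat_lit 228) (nat_lit 0) (XT.nd (nat_lit 78) (nat_lit 152) (nat_lit 0) (XT.lf (nat_lit 0) (nat_lit 508864850389) (nat_lit 76) (nat_lit 477432593949) (nat_lit 76) (nat_lit 32404877401) (nat_lit 51) (nat_lit 4) (nat_lit 52) (nat_lit 5) (nat_lit 52) (nat_lit 4) (nat_lit 491) (nat_lit 441) (nat_lit 268)) (XT.lf (nat_lit 0) (nat_lit 452025759890) (nat_lit 152) (nat_lit 594016388112) (nat_lit 0) (nat_lit 28189787541) (nat_lit 49) (nat_lit 5) (nat_lit 51) (nat_lit 4) (nat_lit 49) (nat_lit 4) (nat_lit 492) (nat_lit 441) (nat_lit 267))) (XT.nd (nat_lit 78) (nat_lit 152) (nat_lit 0) (XT.lf (nat_lit 0) (nat_lit 439234693026) (nat_lit 76) (nat_lit 558790598387) (nat_lit 76) (nat_lit 134954578051) (nat_lit 48) (nat_lit 4) (nat_lit 49) (nat_lit 5) (nat_lit 49) (nat_lit 4) (nat_lit 493) (nat_lit 441) (nat_lit 266)) (XT.lf (nat_lit 0) (nat_lit 386540633125) (nat_lit 76) (nat_lit 8765073164) (nat_lit 152) (nat_lit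 799988891607) (nat_lit 46) (nat_lit 5) (nat_lit 47) (nat_lit 5) (nat_lit 48) (nat_lit 4) (nat_lit 494) (nat_lit 441) (nat_lit 265)))) (XT.nd (nat_lit 156) (nat_lit 152) (nat_lit 0) (XT.nd (nat_lit 78) (nat_lit 152) (nat_lit 0) (XT.lf (nat_lit 0) (nat_lit 314486465571) (nat_lit 76) (nat_lit 675165592472) (nat_lit 76) (nat_lit 271512158271) (nat_lit 45) (nat_lit 4) (nat_lit 46) (nat_lit 5) (nat_lit 46) (nat_lit 4) (nat_lit 495) (nat_lit 441) (nat_lit 264)) (XT.lf (nat_lit 0) (nat_lit 227084599105) (nat_lit 76) (nat_lit 80592508010) (nat_lit 152) (nat_lit 1023492094769) (nat_lit 43) (nat_lit 5) (nat_lit 44) (nat_lit 5) (nat_lit 45) (nat_lit 4) (nat_lit 496) (nat_lit 441) (nat_lit 263))) (XT.nd (nat_lit 78) (nat_lit 76) (nat_lit 0) (XT.lf (nat_lit 0) (nat_lit 112590982385) (nat_lit 76) (nat_lit 838511153660) (nat_lit 76) (nat_lit 454079245018) (nat_lit 42) (nat_lit 4) (nat_lit 43) (nat_lit 5) (nat_lit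 43) (nat_lit 4) (nat_lit 497) (nat_lit 441) (nat_lit 262)) (XT.lf (nat_lit 0) (nat_lit 176643810836) (nat_lit 152) (nat_lit 22312126050) (nat_lit 76) (nat_lit 1284987675373) (nat_lit 41) (nat_lit 5) (nat_lit 43) (nat_lit 5) (nat_lit 42) (nat_lit 4) (nat_lit 498) (nat_lit 441) (nat_lit 261))))))) (XT.nd (nat_lit 58890) (nat_lit 0) (nat_lit 4332) (XT.nd (nat_lit 58266) (nat_lit 0) (nat_lit 8132) (XT.nd (nat_lit 312) (nat_lit 152) (nat_lit 0) (XT.nd (nat_lit 156) (nat_lit 228) (nat_lit 0) (XT.nd (nat_lit 78) (nat_lit 76) (nat_lit 0) (XT.lf (nat_lit 0) (nat_lit 871930773436) (nat_lit 152) (nat_lit 189398021236) (nat_lit 0) (nat_lit 505805091822) (nat_lit 40) (nat_lit 5) (nat_lit 42) (nat_lit 4) (nat_lit 40) (nat_lit 4) (nat_lit 499) (nat_lit 441) (nat_lit 260)) (XT.lf (nat_lit 0) (nat_lit 1270941232582) (nat_lit 76) (nat_lit 375492111664) (nat_lit 76) (nat_lit 9366405862) (nat_lit 39) (nat_lit 4)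 (nat_lit 40) (nat_lit 5) (nat_lit 40) (nat_lit 4) (nat_lit 500) (nat_lit 441) (nat_lit 259))) (XT.nd (nat_lit 78) (nat_lit 76) (nat_lit 0) (XT.lf (nat_lit 0) (nat_lit 735128903298) (nat_lit 152) (nat_lit 628061383520) (nat_lit 0) (nat_lit 386437733586) (nat_lit 37) (nat_lit 5) (nat_lit 39) (nat_lit 4) (nat_lit 37) (nat_lit 4) (nat_lit 501) (nat_lit 441) (nat_lit 258)) (XT.lf (nat_lit 0) (nat_lit 934946237043) (nat_lit 76) (nat_lit 631656243759) (nat_lit 76) (nat_lit 282965054297) (nat_lit 36) (nat_lit 4) (nat_lit 37) (nat_lit 5) (nat_lit 37) (nat_lit 4) (nat_lit 502) (nat_lit 441) (nat_lit 257)))) (XT.nd (nat_lit 57798) (nat_lit 0) (nat_lit 9880) (XT.nd (nat_lit 57720) (nat_lit 0) (nat_lit 9804) (XT.lf (nat_lit 0) (nat_lit 515920086117) (nat_lit 152) (nat_lit 1256100124360) (nat_lit 0) (nat_lit 183833221595) (nat_lit 34) (nat_lit 5) (nat_lit 36) (nat_lit 4) (nat_lit 34) (nat_lit 4) (nat_lit 503)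 (nat_lit 441) (nat_lit 256)) (XT.lf (nat_lit 0) (nat_lit 22742747260) (nat_lit 836) (nat_lit 14341590006) (nat_lit 836) (nat_lit 14341590006) (nat_lit 163) (nat_lit 3) (nat_lit 174) (nat_lit 3) (nat_lit 174) (nat_lit 5) (nat_lit 442) (nat_lit 442) (nat_lit 316))) (XT.nd (nat_lit 78) (nat_lit 0) (nat_lit 0) (XT.lf (nat_lit 0) (nat_lit 48280569909) (nat_lit 760) (nat_lit 52003459769) (nat_lit 836) (nat_lit 6633115534) (nat_lit 164) (nat_lit 5) (nat_lit 174) (nat_lit 5) (nat_lit 175) (nat_lit 5) (nat_lit 443) (nat_lit 442) (nat_lit 315)) (XT.lf (nat_lit 76) (nat_lit 34794135662) (nat_lit 0) (nat_lit 18805844773) (nat_lit 836) (nat_lit 57592642312) (nat_lit 165) (nat_lit 5) (nat_lit 164) (nat_lit 5) (nat_lit 175) (nat_lit 5) (nat_lit 444) (nat_lit 442) (nat_lit 314))))) (XT.nd (nat_lit 312) (nat_lit 1824) (nat_lit 0) (XT.nd (nat_lit 156) (nat_lit 0) (nat_lit 152) (XT.nd (nat_lit 78) (nat_lit 0) (nat_lit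 76) (XT.lf (nat_lit 76) (nat_lit 13979441103) (nat_lit 0) (nat_lit 47583847253) (nat_lit 836) (nat_lit 54135932970) (nat_lit 166) (nat_lit 5) (nat_lit 165) (nat_lit 5) (nat_lit 176) (nat_lit 5) (nat_lit 445) (nat_lit 442) (nat_lit 313)) (XT.lf (nat_lit 0) (nat_lit 72464205777) (nat_lit 760) (nat_lit 7155218592) (nat_lit 836) (nat_lit 40831896242) (nat_lit 166) (nat_lit 5) (nat_lit 176) (nat_lit 5) (nat_lit 177) (nat_lit 5) (nat_lit 446) (nat_lit 442) (nat_lit 312))) (XT.nd (nat_lit 78) (nat_lit 0) (nat_lit 0) (XT.lf (nat_lit 0) (nat_lit 86725164928) (nat_lit 760) (nat_lit 28349730438) (nat_lit 836) (nat_lit 10384294115) (nat_lit 167) (nat_lit 5) (nat_lit 177) (nat_lit 5) (nat_lit 178) (nat_lit 5) (nat_lit 447) (nat_lit 442) (nat_lit 311)) (XT.lf (nat_lit 76) (nat_lit 80335442269) (nat_lit 0) (nat_lit 24514314996) (nat_lit 836) (nat_lit 25881792827) (nat_lit 168) (nat_lit 5) (nat_lit 167) (nat_lit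 5) (nat_lit 178) (nat_lit 5) (nat_lit 448) (nat_lit 442) (nat_lit 310)))) (XT.nd (nat_lit 156) (nat_lit 760) (nat_lit 0) (XT.nd (nat_lit 78) (nat_lit 532) (nat_lit 0) (XT.lf (nat_lit 0) (nat_lit 63196490953) (nat_lit 760) (nat_lit 63860039276) (nat_lit 836) (nat_lit 9237558711) (nat_lit 158) (nat_lit 5) (nat_lit 168) (nat_lit 5) (nat_lit 169) (nat_lit 5) (nat_lit 449) (nat_lit 442) (nat_lit 309)) (XT.lf (nat_lit 0) (nat_lit 11046671997) (nat_lit 532) (nat_lit 96416418556) (nat_lit 76) (nat_lit 34702312223) (nat_lit 151) (nat_lit 5) (nat_lit 158) (nat_lit 5) (nat_lit 152) (nat_lit 5) (nat_lit 450) (nat_lit 442) (nat_lit 308))) (XT.nd (nat_lit 78) (nat_lit 380) (nat_lit 0) (XT.lf (nat_lit 0) (nat_lit 27910095934) (nat_lit 380) (nat_lit 7530370699) (nat_lit 456) (nat_lit 112917860129) (nat_lit 146) (nat_lit 5) (nat_lit 151) (nat_lit 5) (nat_lit 152) (nat_lit 5) (nat_lit 451) (nat_lit 442) (nat_lit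 307)) (XT.lf (nat_lit 0) (nat_lit 9367221013) (nat_lit 380) (nat_lit 55838749800) (nat_lit 456) (nat_lit 89669703595) (nat_lit 141) (nat_lit 5) (nat_lit 146) (nat_lit 5) (nat_lit 147) (nat_lit 5) (nat_lit 452) (nat_lit 442) (nat_lit 306)))))) (XT.nd (nat_lit 624) (nat_lit 1672) (nat_lit 0) (XT.nd (nat_lit 312) (nat_lit 1140) (nat_lit 0) (XT.nd (nat_lit 156) (nat_lit 684) (nat_lit 0) (XT.nd (nat_lit 78) (nat_lit 304) (nat_lit 0) (XT.lf (nat_lit 0) (nat_lit 100420863123) (nat_lit 456) (nat_lit 8911576549) (nat_lit 76) (nat_lit 52428562839) (nat_lit 141) (nat_lit 5) (nat_lit 147) (nat_lit 5) (nat_lit 142) (nat_lit 5) (nat_lit 453) (nat_lit 442) (nat_lit 305)) (XT.lf (nat_lit 0) (nat_lit 141623995829) (nat_lit 380) (nat_lit 26825603845) (nat_lit 76) (nat_lit 589004769) (nat_lit 137) (nat_lit 5) (nat_lit 142) (nat_lit 5) (nat_lit 138) (nat_lit 5) (nat_lit 454) (nat_lit 442) (nat_lit 304))) (XT.nd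 (nat_lit 78) (nat_lit 304) (nat_lit 0) (XT.lf (nat_lit 0) (nat_lit 13045472269) (nat_lit 380) (nat_lit 45698404375) (nat_lit 76) (nat_lit 117941548331) (nat_lit 132) (nat_lit 5) (nat_lit 137) (nat_lit 5) (nat_lit 133) (nat_lit 5) (nat_lit 455) (nat_lit 442) (nat_lit 303)) (XT.lf (nat_lit 0) (nat_lit 59135161908) (nat_lit 380) (nat_lit 64922019516) (nat_lit 76) (nat_lit 60696674930) (nat_lit 128) (nat_lit 5) (nat_lit 133) (nat_lit 5) (nat_lit 129) (nat_lit 5) (nat_lit 456) (nat_lit 442) (nat_lit 302)))) (XT.nd (nat_lit 156) (nat_lit 608) (nat_lit 0) (XT.nd (nat_lit 78) (nat_lit 228) (nat_lit 0) (XT.lf (nat_lit 0) (nat_lit 109302661355) (nat_lit 304) (nat_lit 3115077969) (nat_lit 380) (nat_lit 80874737314) (nat_lit 124) (nat_lit 5) (nat_lit 128) (nat_lit 5) (nat_lit 129) (nat_lit 5) (nat_lit 457) (nat_lit 442) (nat_lit 301)) (XT.lf (nat_lit 0) (nat_lit 98467862453) (nat_lit 228) (nat_lit 76172126191)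 (nat_lit 304) (nat_lit 27640344638) (nat_lit 121) (nat_lit 5) (nat_lit 124) (nat_lit 5) (nat_lit 125) (nat_lit 5) (nat_lit 458) (nat_lit 442) (nat_lit 300))) (XT.nd (nat_lit 78) (nat_lit 228) (nat_lit 0) (XT.lf (nat_lit 0) (nat_lit 32715888831) (nat_lit 380) (nat_lit 123798920897) (nat_lit 76) (nat_lit 55258176187) (nat_lit 116) (nat_lit 5) (nat_lit 121) (nat_lit 5) (nat_lit 117) (nat_lit 5) (nat_lit 459) (nat_lit 442) (nat_lit 299)) (XT.lf (nat_lit 0) (nat_lit 77578361718) (nat_lit 228) (nat_lit 23700062601) (nat_lit 304) (nat_lit 120506661118) (nat_lit 113) (nat_lit 5) (nat_lit 116) (nat_lit 5) (nat_lit 117) (nat_lit 5) (nat_lit 460) (nat_lit 442) (nat_lit 298))))) (XT.nd (nat_lit 312) (nat_lit 836) (nat_lit 0) (XT.nd (nat_lit 156) (nat_lit 380) (nat_lit 0) (XT.nd (nat_lit 78) (nat_lit 228) (nat_lit 0) (XT.lf (nat_lit 0) (nat_lit 67243182711) (nat_lit 228) (nat_lit 113193608271) (nat_lit 304)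 (nat_lit 51905820541) (nat_lit 110) (nat_lit 5) (nat_lit 113) (nat_lit 5) (nat_lit 114) (nat_lit 5) (nat_lit 461) (nat_lit 442) (nat_lit 297)) (XT.lf (nat_lit 0) (nat_lit 25847807191) (nat_lit 228) (nat_lit 185832595810) (nat_lit 76) (nat_lit 31828283840) (nat_lit 107) (nat_lit 5) (nat_lit 110) (nat_lit 5) (nat_lit 108) (nat_lit 5) (nat_lit 462) (nat_lit 442) (nat_lit 296))) (XT.nd (nat_lit 78) (nat_lit 152) (nat_lit 0) (XT.lf (nat_lit 0) (nat_lit 47431641240) (nat_lit 228) (nat_lit 66167809583) (nat_lit 304) (nat_lit 141646238979) (nat_lit 104) (nat_lit 5) (nat_lit 107) (nat_lit 5) (nat_lit 108) (nat_lit 5) (nat_lit 463) (nat_lit 442) (nat_lit 295)) (XT.lf (nat_lit 0) (nat_lit 37974571249) (nat_lit 152) (nat_lit 175699929490) (nat_lit 228) (nat_lit 53981988537) (nat_lit 102) (nat_lit 5) (nat_lit 104) (nat_lit 5) (nat_lit 105) (nat_lit 5) (nat_lit 464) (nat_lit 442) (nat_lit 294)))) (XT.nd (nat_lit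 156) (nat_lit 380) (nat_lit 0) (XT.nd (nat_lit 78) (nat_lit 152) (nat_lit 0) (XT.lf (nat_lit 0) (nat_lit 29088209377) (nat_lit 228) (nat_lit 15553576947) (nat_lit 304) (nat_lit 236124153361) (nat_lit 98) (nat_lit 5) (nat_lit 101) (nat_lit 5) (nat_lit 102) (nat_lit 5) (nat_lit 465) (nat_lit 442) (nat_lit 293)) (XT.lf (nat_lit 0) (nat_lit 19219031384) (nat_lit 152) (nat_lit 136894252258) (nat_lit 228) (nat_lit 138424160643) (nat_lit 96) (nat_lit 5) (nat_lit 98) (nat_lit 5) (nat_lit 99) (nat_lit 5) (nat_lit 466) (nat_lit 442) (nat_lit 292))) (XT.nd (nat_lit 78) (nat_lit 228) (nat_lit 0) (XT.lf (nat_lit 0) (nat_lit 11064538331) (nat_lit 152) (nat_lit 270867041840) (nat_lit 228) (nat_lit 27207635123) (nat_lit 94) (nat_lit 5) (nat_lit 96) (nat_lit 5) (nat_lit 97) (nat_lit 5) (nat_lit 467) (nat_lit 442) (nat_lit 291)) (XT.lf (nat_lit 0) (nat_lit 1738075466) (nat_lit 152) (nat_lit 95404206591) (nat_lit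 228) (nat_lit 227333837186) (nat_lit 91) (nat_lit 5) (nat_lit 93) (nat_lit 5) (nat_lit 94) (nat_lit 5) (nat_lit 468) (nat_lit 442) (nat_lit 290))))))))
noncomputable def xc102 : XT := (XT.nd (nat_lit 2418) (nat_lit 380) (nat_lit 0) (XT.nd (nat_lit 1170) (nat_lit 1748) (nat_lit 0) (XT.nd (nat_lit 546) (nat_lit 1064) (nat_lit 0) (XT.nd (nat_lit 234) (nat_lit 608) (nat_lit 0) (XT.nd (nat_lit 78) (nat_lit 380) (nat_lit 0) (XT.lf (nat_lit 0) (nat_lit 237245943477) (nat_lit 228) (nat_lit 6613782933) (nat_lit 76) (nat_lit 96819999072) (nat_lit 91) (nat_lit 5) (nat_lit 94) (nat_lit 5) (nat_lit 92) (nat_lit 5) (nat_lit 469) (nat_lit 442) (nat_lit 289)) (XT.nd (nat_lit 78) (nat_lit 152) (nat_lit 0) (XT.lf (nat_lit 0) (nat_lit 36502957677) (nat_lit 228) (nat_lit 14211113562) (nat_lit 76) (nat_lit 307086985752) (nat_lit 88) (nat_lit 5) (nat_lit 91) (nat_lit 5) (nat_lit 89) (nat_lit 5) (nat_lit 470) (nat_lit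 442) (nat_lit 288)) (XT.lf (nat_lit 0) (nat_lit 192311209208) (nat_lit 228) (nat_lit 23120001087) (nat_lit 76) (nat_lit 160361083515) (nat_lit 86) (nat_lit 5) (nat_lit 89) (nat_lit 5) (nat_lit 87) (nat_lit 5) (nat_lit 471) (nat_lit 442) (nat_lit 287)))) (XT.nd (nat_lit 156) (nat_lit 304) (nat_lit 0) (XT.nd (nat_lit 78) (nat_lit 152) (nat_lit 0) (XT.lf (nat_lit 0) (nat_lit 365026963599) (nat_lit 152) (nat_lit 2362770459) (nat_lit 228) (nat_lit 27492814864) (nat_lit 84) (nat_lit 5) (nat_lit 86) (nat_lit 5) (nat_lit 87) (nat_lit 5) (nat_lit 472) (nat_lit 442) (nat_lit 286)) (XT.lf (nat_lit 0) (nat_lit 146492552041) (nat_lit 152) (nat_lit 39258898299) (nat_lit 76) (nat_lit 229137018718) (nat_lit 82) (nat_lit 5) (nat_lit 84) (nat_lit 5) (nat_lit 83) (nat_lit 5) (nat_lit 473) (nat_lit 442) (nat_lit 285))) (XT.nd (nat_lit 78) (nat_lit 152) (nat_lit 0) (XT.lf (nat_lit 0) (nat_lit 340886524082) (nat_lit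 228) (nat_lit 46794729872) (nat_lit 76) (nat_lit 48418424257) (nat_lit 80) (nat_lit 5) (nat_lit 83) (nat_lit 5) (nat_lit 81) (nat_lit 4) (nat_lit 474) (nat_lit 442) (nat_lit 284)) (XT.lf (nat_lit 0) (nat_lit 99192031315) (nat_lit 152) (nat_lit 55719344469) (nat_lit 76) (nat_lit 303509389123) (nat_lit 78) (nat_lit 5) (nat_lit 80) (nat_lit 5) (nat_lit 79) (nat_lit 5) (nat_lit 475) (nat_lit 442) (nat_lit 283))))) (XT.nd (nat_lit 312) (nat_lit 532) (nat_lit 0) (XT.nd (nat_lit 156) (nat_lit 228) (nat_lit 0) (XT.nd (nat_lit 78) (nat_lit 152) (nat_lit 0) (XT.lf (nat_lit 0) (nat_lit 314884137770) (nat_lit 228) (nat_lit 64594814007) (nat_lit 76) (nat_lit 102517027630) (nat_lit 76) (nat_lit 5) (nat_lit 79) (nat_lit 5) (nat_lit 77) (nat_lit 4) (nat_lit 476) (nat_lit 442) (nat_lit 282)) (XT.lf (nat_lit 0) (nat_lit 49630127620) (nat_lit 152) (nat_lit 73516979257) (nat_lit 76) (nat_lit 383751188370) (nat_lit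 74) (nat_lit 5) (nat_lit 76) (nat_lit 5) (nat_lit 75) (nat_lit 5) (nat_lit 477) (nat_lit 442) (nat_lit 281))) (XT.nd (nat_lit 78) (nat_lit 76) (nat_lit 0) (XT.lf (nat_lit 0) (nat_lit 288705672353) (nat_lit 228) (nat_lit 84446468101) (nat_lit 76) (nat_lit 159961228841) (nat_lit 72) (nat_lit 5) (nat_lit 75) (nat_lit 5) (nat_lit 73) (nat_lit 4) (nat_lit 478) (nat_lit 442) (nat_lit 280)) (XT.lf (nat_lit 0) (nat_lit 466729602995) (nat_lit 76) (nat_lit 90842539561) (nat_lit 152) (nat_lit 3320262620) (nat_lit 71) (nat_lit 5) (nat_lit 72) (nat_lit 5) (nat_lit 73) (nat_lit 4) (nat_lit 479) (nat_lit 442) (nat_lit 279)))) (XT.nd (nat_lit 156) (nat_lit 228) (nat_lit 0) (XT.nd (nat_lit 78) (nat_lit 76) (nat_lit 0) (XT.lf (nat_lit 0) (nat_lit 261461524901) (nat_lit 228) (nat_lit 108092890889) (nat_lit 76) (nat_lit 220506946488) (nat_lit 68) (nat_lit 5) (nat_lit 71) (nat_lit 5) (nat_lit 69) (nat_lit 4) (nat_lit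 480) (nat_lit 442) (nat_lit 278)) (XT.lf (nat_lit 0) (nat_lit 500474298487) (nat_lit 76) (nat_lit 57849346813) (nat_lit 152) (nat_lit 62686763339) (nat_lit 67) (nat_lit 5) (nat_lit 68) (nat_lit 5) (nat_lit 69) (nat_lit 4) (nat_lit 481) (nat_lit 442) (nat_lit 277))) (XT.nd (nat_lit 78) (nat_lit 76) (nat_lit 0) (XT.lf (nat_lit 0) (nat_lit 231926682381) (nat_lit 152) (nat_lit 137968701267) (nat_lit 76) (nat_lit 283634106497) (nat_lit 65) (nat_lit 5) (nat_lit 67) (nat_lit 5) (nat_lit 66) (nat_lit 4) (nat_lit 482) (nat_lit 442) (nat_lit 276)) (XT.lf (nat_lit 0) (nat_lit 533306602869) (nat_lit 76) (nat_lit 26071510092) (nat_lit 152) (nat_lit 128647345219) (nat_lit 64) (nat_lit 5) (nat_lit 65) (nat_lit 5) (nat_lit 66) (nat_lit 4) (nat_lit 483) (nat_lit 442) (nat_lit 275)))))) (XT.nd (nat_lit 624) (nat_lit 836) (nat_lit 0) (XT.nd (nat_lit 312) (nat_lit 456) (nat_lit 0) (XT.nd (nat_lit 156) (nat_lit 228)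 (nat_lit 0) (XT.nd (nat_lit 78) (nat_lit 76) (nat_lit 0) (XT.lf (nat_lit 0) (nat_lit 198428463472) (nat_lit 152) (nat_lit 177429885816) (nat_lit 76) (nat_lit 348441548069) (nat_lit 62) (nat_lit 5) (nat_lit 64) (nat_lit 5) (nat_lit 63) (nat_lit 4) (nat_lit 484) (nat_lit 442) (nat_lit 274)) (XT.lf (nat_lit 0) (nat_lit 559223965599) (nat_lit 152) (nat_lit 200708767674) (nat_lit 0) (nat_lit 2835069503) (nat_lit 61) (nat_lit 5) (nat_lit 63) (nat_lit 4) (nat_lit 61) (nat_lit 4) (nat_lit 485) (nat_lit 442) (nat_lit 273))) (XT.nd (nat_lit 78) (nat_lit 76) (nat_lit 0) (XT.lf (nat_lit 0) (nat_lit 158700001736) (nat_lit 152) (nat_lit 231053985097) (nat_lit 76) (nat_lit 413508437864) (nat_lit 59) (nat_lit 5) (nat_lit 61) (nat_lit 5) (nat_lit 60) (nat_lit 4) (nat_lit 486) (nat_lit 442) (nat_lit 272)) (XT.lf (nat_lit 0) (nat_lit 555955018028) (nat_lit 152) (nat_lit 264155954902) (nat_lit 0) (nat_lit 26060661492)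 (nat_lit 58) (nat_lit 5) (nat_lit 60) (nat_lit 4) (nat_lit 58) (nat_lit 4) (nat_lit 487) (nat_lit 442) (nat_lit 271)))) (XT.nd (nat_lit 156) (nat_lit 228) (nat_lit 0) (XT.nd (nat_lit 78) (nat_lit 76) (nat_lit 0) (XT.lf (nat_lit 0) (nat_lit 109689379584) (nat_lit 152) (nat_lit 305031203966) (nat_lit 76) (nat_lit 476712188146) (nat_lit 56) (nat_lit 5) (nat_lit 58) (nat_lit 5) (nat_lit 57) (nat_lit 4) (nat_lit 488) (nat_lit 442) (nat_lit 270)) (XT.lf (nat_lit 0) (nat_lit 546084448978) (nat_lit 152) (nat_lit 351836231575) (nat_lit 0) (nat_lit 41423018412) (nat_lit 55) (nat_lit 5) (nat_lit 57) (nat_lit 4) (nat_lit 55) (nat_lit 4) (nat_lit 489) (nat_lit 442) (nat_lit 269))) (XT.nd (nat_lit 78) (nat_lit 76) (nat_lit 0) (XT.lf (nat_lit 0) (nat_lit 47311399757) (nat_lit 152) (nat_lit 407673122773) (nat_lit 76) (nat_lit 534989961400) (nat_lit 53) (nat_lit 5) (nat_lit 55) (nat_lit 5) (nat_lit 54) (nat_lit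 4) (nat_lit 490) (nat_lit 442) (nat_lit 268)) (XT.lf (nat_lit 0) (nat_lit 525398957247) (nat_lit 152) (nat_lit 473363063399) (nat_lit 0) (nat_lit 44768910186) (nat_lit 52) (nat_lit 5) (nat_lit 54) (nat_lit 4) (nat_lit 52) (nat_lit 4) (nat_lit 491) (nat_lit 442) (nat_lit 267))))) (XT.nd (nat_lit 312) (nat_lit 380) (nat_lit 0) (XT.nd (nat_lit 156) (nat_lit 228) (nat_lit 0) (XT.nd (nat_lit 78) (nat_lit 152) (nat_lit 0) (XT.lf (nat_lit 0) (nat_lit 549578623253) (nat_lit 76) (nat_lit 515624932921) (nat_lit 76) (nat_lit 34994835472) (nat_lit 51) (nat_lit 4) (nat_lit 52) (nat_lit 5) (nat_lit 52) (nat_lit 4) (nat_lit 492) (nat_lit 442) (nat_lit 266)) (XT.lf (nat_lit 0) (nat_lit 488190104714) (nat_lit 152) (nat_lit 641533161126) (nat_lit 0) (nat_lit 30447110330) (nat_lit 49) (nat_lit 5) (nat_lit 51) (nat_lit 4) (nat_lit 49) (nat_lit 4) (nat_lit 493) (nat_lit 442) (nat_lit 265))) (XT.nd (nat_lit 78) (nat_lit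 152) (nat_lit 0) (XT.lf (nat_lit 0) (nat_lit 474377809286) (nat_lit 76) (nat_lit 603491688059) (nat_lit 76) (nat_lit 145748652532) (nat_lit 48) (nat_lit 4) (nat_lit 49) (nat_lit 5) (nat_lit 49) (nat_lit 4) (nat_lit 494) (nat_lit 442) (nat_lit 264)) (XT.lf (nat_lit 0) (nat_lit 417468106121) (nat_lit 76) (nat_lit 9464176679) (nat_lit 152) (nat_lit 863985776916) (nat_lit 46) (nat_lit 5) (nat_lit 47) (nat_lit 5) (nat_lit 48) (nat_lit 4) (nat_lit 495) (nat_lit 442) (nat_lit 263)))) (XT.nd (nat_lit 156) (nat_lit 152) (nat_lit 0) (XT.nd (nat_lit 78) (nat_lit 152) (nat_lit 0) (XT.lf (nat_lit 0) (nat_lit 339649491673) (nat_lit 76) (nat_lit 729176788526) (nat_lit 76) (nat_lit 293230970533) (nat_lit 45) (nat_lit 4) (nat_lit 46) (nat_lit 5) (nat_lit 46) (nat_lit 4) (nat_lit 496) (nat_lit 442) (nat_lit 262)) (XT.lf (nat_lit 0) (nat_lit 245255363475) (nat_lit 76) (nat_lit 87037910950) (nat_lit 152) (nat_lit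 1105369363663) (nat_lit 43) (nat_lit 5) (nat_lit 44) (nat_lit 5) (nat_lit 45) (nat_lit 4) (nat_lit 497) (nat_lit 442) (nat_lit 261))) (XT.nd (nat_lit 78) (nat_lit 76) (nat_lit 0) (XT.lf (nat_lit 0) (nat_lit 121602149505) (nat_lit 76) (nat_lit 905590097700) (nat_lit 76) (nat_lit 490403547320) (nat_lit 42) (nat_lit 4) (nat_lit 43) (nat_lit 5) (nat_lit 43) (nat_lit 4) (nat_lit 498) (nat_lit 442) (nat_lit 260)) (XT.lf (nat_lit 0) (nat_lit 190777141715) (nat_lit 152) (nat_lit 24093435260) (nat_lit 76) (nat_lit 1387788432957) (nat_lit 41) (nat_lit 5) (nat_lit 43) (nat_lit 5) (nat_lit 42) (nat_lit 4) (nat_lit 499) (nat_lit 442) (nat_lit 259))))))) (XT.nd (nat_lit 58968) (nat_lit 0) (nat_lit 4180) (XT.nd (nat_lit 58344) (nat_lit 0) (nat_lit 7980) (XT.nd (nat_lit 58032) (nat_lit 0) (nat_lit 9652) (XT.nd (nat_lit 156) (nat_lit 228) (nat_lit 0) (XT.nd (nat_lit 78) (nat_lit 76) (nat_lit 0) (XT.lf (nat_lit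 0) (nat_lit 941687008157) (nat_lit 152) (nat_lit 204546301300) (nat_lit 0) (nat_lit 546271199307) (nat_lit 40) (nat_lit 5) (nat_lit 42) (nat_lit 4) (nat_lit 40) (nat_lit 4) (nat_lit 500) (nat_lit 442) (nat_lit 258)) (XT.lf (nat_lit 0) (nat_lit 1372619938039) (nat_lit 76) (nat_lit 405529768461) (nat_lit 76) (nat_lit 10113938874) (nat_lit 39) (nat_lit 4) (nat_lit 40) (nat_lit 5) (nat_lit 40) (nat_lit 4) (nat_lit 501) (nat_lit 442) (nat_lit 257))) (XT.nd (nat_lit 78) (nat_lit 76) (nat_lit 0) (XT.lf (nat_lit 0) (nat_lit 793940888223) (nat_lit 152) (nat_lit 678302924607) (nat_lit 0) (nat_lit 417354365567) (nat_lit 37) (nat_lit 5) (nat_lit 39) (nat_lit 4) (nat_lit 37) (nat_lit 4) (nat_lit 502) (nat_lit 442) (nat_lit 256)) (XT.lf (nat_lit 0) (nat_lit 1009745159163) (nat_lit 76) (nat_lit 682187119186) (nat_lit 76) (nat_lit 305600579599) (nat_lit 36) (nat_lit 4) (nat_lit 37) (nat_lit 5) (nat_lit 37) (nat_lit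 4) (nat_lit 503) (nat_lit 442) (nat_lit 255)))) (XT.nd (nat_lit 156) (nat_lit 0) (nat_lit 76) (XT.nd (nat_lit 78) (nat_lit 0) (nat_lit 76) (XT.lf (nat_lit 0) (nat_lit 24571496618) (nat_lit 836) (nat_lit 15484018819) (nat_lit 836) (nat_lit 15484018819) (nat_lit 163) (nat_lit 3) (nat_lit 174) (nat_lit 3) (nat_lit 174) (nat_lit 5) (nat_lit 443) (nat_lit 443) (nat_lit 314)) (XT.lf (nat_lit 0) (nat_lit 52160313086) (nat_lit 760) (nat_lit 56153367313) (nat_lit 836) (nat_lit 7155970217) (nat_lit 164) (nat_lit 5) (nat_lit 174) (nat_lit 5) (nat_lit 175) (nat_lit 5) (nat_lit 444) (nat_lit 443) (nat_lit 313))) (XT.nd (nat_lit 78) (nat_lit 0) (nat_lit 76) (XT.lf (nat_lit 76) (nat_lit 37587585118) (nat_lit 0) (nat_lit 20316564891) (nat_lit 836) (nat_lit 62183072766) (nat_lit 165) (nat_lit 5) (nat_lit 164) (nat_lit 5) (nat_lit 175) (nat_lit 5) (nat_lit 445) (nat_lit 443) (nat_lit 312)) (XT.lf (nat_lit 76)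 (nat_lit 15108151920) (nat_lit 0) (nat_lit 51395244072) (nat_lit 836) (nat_lit 58451009669) (nat_lit 166) (nat_lit 5) (nat_lit 165) (nat_lit 5) (nat_lit 176) (nat_lit 5) (nat_lit 446) (nat_lit 443) (nat_lit 311))))) (XT.nd (nat_lit 312) (nat_lit 1292) (nat_lit 0) (XT.nd (nat_lit 156) (nat_lit 608) (nat_lit 0) (XT.nd (nat_lit 78) (nat_lit 0) (nat_lit 76) (XT.lf (nat_lit 0) (nat_lit 78275204608) (nat_lit 760) (nat_lit 7717282275) (nat_lit 836) (nat_lit 44094245201) (nat_lit 166) (nat_lit 5) (nat_lit 176) (nat_lit 5) (nat_lit 177) (nat_lit 5) (nat_lit 447) (nat_lit 443) (nat_lit 310)) (XT.lf (nat_lit 0) (nat_lit 93676120089) (nat_lit 760) (nat_lit 30607106359) (nat_lit 836) (nat_lit 11212050114) (nat_lit 167) (nat_lit 5) (nat_lit 177) (nat_lit 5) (nat_lit 178) (nat_lit 5) (nat_lit 448) (nat_lit 443) (nat_lit 309))) (XT.nd (nat_lit 78) (nat_lit 684) (nat_lit 0) (XT.lf (nat_lit 76) (nat_lit 86772419393)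 (nat_lit 0) (nat_lit 26477460097) (nat_lit 836) (nat_lit 27939586619) (nat_lit 168) (nat_lit 5) (nat_lit 167) (nat_lit 5) (nat_lit 178) (nat_lit 5) (nat_lit 449) (nat_lit 443) (nat_lit 308)) (XT.lf (nat_lit 0) (nat_lit 68262522658) (nat_lit 760) (nat_lit 68969904347) (nat_lit 836) (nat_lit 9964619492) (nat_lit 158) (nat_lit 5) (nat_lit 168) (nat_lit 5) (nat_lit 169) (nat_lit 5) (nat_lit 450) (nat_lit 443) (nat_lit 307)))) (XT.nd (nat_lit 156) (nat_lit 380) (nat_lit 0) (XT.nd (nat_lit 78) (nat_lit 380) (nat_lit 0) (XT.lf (nat_lit 0) (nat_lit 11941260802) (nat_lit 532) (nat_lit 104118947454) (nat_lit 76) (nat_lit 37477883248) (nat_lit 151) (nat_lit 5) (nat_lit 158) (nat_lit 5) (nat_lit 152) (nat_lit 5) (nat_lit 451) (nat_lit 443) (nat_lit 306)) (XT.lf (nat_lit 0) (nat_lit 30153219510) (nat_lit 380) (nat_lit 8132696482) (nat_lit 456) (nat_lit 121940565624) (nat_lit 146) (nat_lit 5) (nat_lit 151)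 (nat_lit 5) (nat_lit 152) (nat_lit 5) (nat_lit 452) (nat_lit 443) (nat_lit 305))) (XT.nd (nat_lit 78) (nat_lit 0) (nat_lit 0) (XT.lf (nat_lit 0) (nat_lit 10126953796) (nat_lit 380) (nat_lit 60305113439) (nat_lit 456) (nat_lit 96833179554) (nat_lit 141) (nat_lit 5) (nat_lit 146) (nat_lit 5) (nat_lit 147) (nat_lit 5) (nat_lit 453) (nat_lit 443) (nat_lit 304)) (XT.lf (nat_lit 0) (nat_lit 108463449072) (nat_lit 456) (nat_lit 9614479360) (nat_lit 76) (nat_lit 56623507846) (nat_lit 141) (nat_lit 5) (nat_lit 147) (nat_lit 5) (nat_lit 142) (nat_lit 5) (nat_lit 454) (nat_lit 443) (nat_lit 303)))))) (XT.nd (nat_lit 624) (nat_lit 1444) (nat_lit 0) (XT.nd (nat_lit 312) (nat_lit 1064) (nat_lit 0) (XT.nd (nat_lit 156) (nat_lit 608) (nat_lit 0) (XT.nd (nat_lit 78) (nat_lit 380) (nat_lit 0) (XT.lf (nat_lit 0) (nat_lit 152962340024) (nat_lit 380) (nat_lit 28961662041) (nat_lit 76) (nat_lit 637268963) (nat_lit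 137) (nat_lit 5) (nat_lit 142) (nat_lit 5) (nat_lit 138) (nat_lit 5) (nat_lit 455) (nat_lit 443) (nat_lit 302)) (XT.lf (nat_lit 0) (nat_lit 14097190546) (nat_lit 380) (nat_lit 49344453114) (nat_lit 76) (nat_lit 127378210809) (nat_lit 132) (nat_lit 5) (nat_lit 137) (nat_lit 5) (nat_lit 133) (nat_lit 5) (nat_lit 456) (nat_lit 443) (nat_lit 301))) (XT.nd (nat_lit 78) (nat_lit 304) (nat_lit 0) (XT.lf (nat_lit 0) (nat_lit 63873631114) (nat_lit 380) (nat_lit 70106030115) (nat_lit 76) (nat_lit 65554120377) (nat_lit 128) (nat_lit 5) (nat_lit 133) (nat_lit 5) (nat_lit 129) (nat_lit 5) (nat_lit 457) (nat_lit 443) (nat_lit 300)) (XT.lf (nat_lit 0) (nat_lit 118056201461) (nat_lit 304) (nat_lit 3362191756) (nat_lit 380) (nat_lit 87337119404) (nat_lit 124) (nat_lit 5) (nat_lit 128) (nat_lit 5) (nat_lit 129) (nat_lit 5) (nat_lit 458) (nat_lit 443) (nat_lit 299)))) (XT.nd (nat_lit 156) (nat_lit 456) (nat_lit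 0) (XT.nd (nat_lit 78) (nat_lit 380) (nat_lit 0) (XT.lf (nat_lit 0) (nat_lit 106354528459) (nat_lit 228) (nat_lit 82263532581) (nat_lit 304) (nat_lit 29844354858) (nat_lit 121) (nat_lit 5) (nat_lit 124) (nat_lit 5) (nat_lit 125) (nat_lit 5) (nat_lit 459) (nat_lit 443) (nat_lit 298)) (XT.lf (nat_lit 0) (nat_lit 35339808384) (nat_lit 380) (nat_lit 133693485029) (nat_lit 76) (nat_lit 59681198617) (nat_lit 116) (nat_lit 5) (nat_lit 121) (nat_lit 5) (nat_lit 117) (nat_lit 5) (nat_lit 460) (nat_lit 443) (nat_lit 297))) (XT.nd (nat_lit 78) (nat_lit 228) (nat_lit 0) (XT.lf (nat_lit 0) (nat_lit 83793573876) (nat_lit 228) (nat_lit 25593419986) (nat_lit 304) (nat_lit 130140583320) (nat_lit 113) (nat_lit 5) (nat_lit 116) (nat_lit 5) (nat_lit 117) (nat_lit 5) (nat_lit 461) (nat_lit 443) (nat_lit 296)) (XT.lf (nat_lit 0) (nat_lit 72631453743) (nat_lit 228) (nat_lit 122246285697) (nat_lit 304) (nat_lit 56051980457)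 (nat_lit 110) (nat_lit 5) (nat_lit 113) (nat_lit 5) (nat_lit 114) (nat_lit 5) (nat_lit 462) (nat_lit 443) (nat_lit 295))))) (XT.nd (nat_lit 312) (nat_lit 532) (nat_lit 0) (XT.nd (nat_lit 156) (nat_lit 456) (nat_lit 0) (XT.nd (nat_lit 78) (nat_lit 228) (nat_lit 0) (XT.lf (nat_lit 0) (nat_lit 27921462557) (nat_lit 228) (nat_lit 200690331661) (nat_lit 76) (nat_lit 34377295776) (nat_lit 107) (nat_lit 5) (nat_lit 110) (nat_lit 5) (nat_lit 108) (nat_lit 5) (nat_lit 463) (nat_lit 443) (nat_lit 294)) (XT.lf (nat_lit 0) (nat_lit 51234658795) (nat_lit 228) (nat_lit 71458279470) (nat_lit 304) (nat_lit 152972129919) (nat_lit 104) (nat_lit 5) (nat_lit 107) (nat_lit 5) (nat_lit 108) (nat_lit 5) (nat_lit 464) (nat_lit 443) (nat_lit 293))) (XT.nd (nat_lit 78) (nat_lit 304) (nat_lit 0) (XT.lf (nat_lit 0) (nat_lit 41020875047) (nat_lit 152) (nat_lit 189752880292) (nat_lit 228) (nat_lit 58294988134) (nat_lit 102)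 (nat_lit 5) (nat_lit 104) (nat_lit 5) (nat_lit 105) (nat_lit 5) (nat_lit 465) (nat_lit 443) (nat_lit 292)) (XT.lf (nat_lit 0) (nat_lit 31423412266) (nat_lit 228) (nat_lit 16794827063) (nat_lit 304) (nat_lit 255008719834) (nat_lit 98) (nat_lit 5) (nat_lit 101) (nat_lit 5) (nat_lit 102) (nat_lit 5) (nat_lit 466) (nat_lit 443) (nat_lit 291)))) (XT.nd (nat_lit 156) (nat_lit 228) (nat_lit 0) (XT.nd (nat_lit 78) (nat_lit 152) (nat_lit 0) (XT.lf (nat_lit 0) (nat_lit 20764545256) (nat_lit 152) (nat_lit 147842701308) (nat_lit 228) (nat_lit 149492948075) (nat_lit 96) (nat_lit 5) (nat_lit 98) (nat_lit 5) (nat_lit 99) (nat_lit 5) (nat_lit 467) (nat_lit 443) (nat_lit 290)) (XT.lf (nat_lit 0) (nat_lit 11957533834) (nat_lit 152) (nat_lit 292533276973) (nat_lit 228) (nat_lit 29379306335) (nat_lit 94) (nat_lit 5) (nat_lit 96) (nat_lit 5) (nat_lit 97) (nat_lit 5) (nat_lit 468) (nat_lit 443) (nat_lit 289))) (XT.nd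 (nat_lit 78) (nat_lit 0) (nat_lit 0) (XT.lf (nat_lit 0) (nat_lit 1884764929) (nat_lit 152) (nat_lit 103033446344) (nat_lit 228) (nat_lit 245515770032) (nat_lit 91) (nat_lit 5) (nat_lit 93) (nat_lit 5) (nat_lit 94) (nat_lit 5) (nat_lit 469) (nat_lit 443) (nat_lit 288)) (XT.lf (nat_lit 0) (nat_lit 256229873585) (nat_lit 228) (nat_lit 7135642462) (nat_lit 76) (nat_lit 104568374607) (nat_lit 91) (nat_lit 5) (nat_lit 94) (nat_lit 5) (nat_lit 92) (nat_lit 5) (nat_lit 470) (nat_lit 443) (nat_lit 287))))))))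
noncomputable def xc103 : XT := (XT.nd (nat_lit 60372) (nat_lit 0) (nat_lit 3268) (XT.nd (nat_lit 1248) (nat_lit 1672) (nat_lit 0) (XT.nd (nat_lit 624) (nat_lit 988) (nat_lit 0) (XT.nd (nat_lit 312) (nat_lit 608) (nat_lit 0) (XT.nd (nat_lit 156) (nat_lit 304) (nat_lit 0) (XT.nd (nat_lit 78) (nat_lit 152) (nat_lit 0) (XT.lf (nat_lit 0) (nat_lit 39427308409) (nat_lit 228) (nat_lit 15340938167) (nat_lit 76) (nat_lit 331656689149) (nat_lit 88) (nat_lit 5) (nat_lit 91) (nat_lit 5) (nat_lit 89) (nat_lit 5) (nat_lit 471) (nat_lit 443) (nat_lit 286)) (XT.lf (nat_lit 0) (nat_lit 207700065197) (nat_lit 228) (nat_lit 24962692236) (nat_lit 76) (nat_lit 173192721810) (nat_lit 86) (nat_lit 5) (nat_lit 89) (nat_lit 5) (nat_lit 87) (nat_lit 5) (nat_lit 472) (nat_lit 443) (nat_lit 285))) (XT.nd (nat_lit 78) (nat_lit 152) (nat_lit 0) (XT.lf (nat_lit 0) (nat_lit 394235729371) (nat_lit 152) (nat_lit 2548952566)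 (nat_lit 228) (nat_lit 29688282340) (nat_lit 84) (nat_lit 5) (nat_lit 86) (nat_lit 5) (nat_lit 87) (nat_lit 5) (nat_lit 473) (nat_lit 443) (nat_lit 284)) (XT.lf (nat_lit 0) (nat_lit 158215647691) (nat_lit 152) (nat_lit 42393028579) (nat_lit 76) (nat_lit 247470685649) (nat_lit 82) (nat_lit 5) (nat_lit 84) (nat_lit 5) (nat_lit 83) (nat_lit 5) (nat_lit 474) (nat_lit 443) (nat_lit 283)))) (XT.nd (nat_lit 156) (nat_lit 304) (nat_lit 0) (XT.nd (nat_lit 78) (nat_lit 152) (nat_lit 0) (XT.lf (nat_lit 0) (nat_lit 368161005735) (nat_lit 228) (nat_lit 50531880197) (nat_lit 76) (nat_lit 52294588467) (nat_lit 80) (nat_lit 5) (nat_lit 83) (nat_lit 5) (nat_lit 81) (nat_lit 4) (nat_lit 475) (nat_lit 443) (nat_lit 282)) (XT.lf (nat_lit 0) (nat_lit 107130841543) (nat_lit 152) (nat_lit 60170629247) (nat_lit 76) (nat_lit 327792782850) (nat_lit 78) (nat_lit 5) (nat_lit 80) (nat_lit 5) (nat_lit 79) (nat_lit 5) (nat_lit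 476) (nat_lit 443) (nat_lit 281))) (XT.nd (nat_lit 78) (nat_lit 152) (nat_lit 0) (XT.lf (nat_lit 0) (nat_lit 340078196886) (nat_lit 228) (nat_lit 69756286388) (nat_lit 76) (nat_lit 110721008013) (nat_lit 76) (nat_lit 5) (nat_lit 79) (nat_lit 5) (nat_lit 77) (nat_lit 4) (nat_lit 477) (nat_lit 443) (nat_lit 280)) (XT.lf (nat_lit 0) (nat_lit 53603762762) (nat_lit 152) (nat_lit 79392383820) (nat_lit 76) (nat_lit 414453850977) (nat_lit 74) (nat_lit 5) (nat_lit 76) (nat_lit 5) (nat_lit 75) (nat_lit 5) (nat_lit 478) (nat_lit 443) (nat_lit 279))))) (XT.nd (nat_lit 312) (nat_lit 456) (nat_lit 0) (XT.nd (nat_lit 156) (nat_lit 304) (nat_lit 0) (XT.nd (nat_lit 78) (nat_lit 76) (nat_lit 0) (XT.lf (nat_lit 0) (nat_lit 311805242013) (nat_lit 228) (nat_lit 91196377618) (nat_lit 76) (nat_lit 172760663359) (nat_lit 72) (nat_lit 5) (nat_lit 75) (nat_lit 5) (nat_lit 73) (nat_lit 4) (nat_lit 479) (nat_lit 443) (nat_lit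 278)) (XT.lf (nat_lit 0) (nat_lit 504073526760) (nat_lit 76) (nat_lit 98107359004) (nat_lit 152) (nat_lit 3582763184) (nat_lit 71) (nat_lit 5) (nat_lit 72) (nat_lit 5) (nat_lit 73) (nat_lit 4) (nat_lit 480) (nat_lit 443) (nat_lit 277))) (XT.nd (nat_lit 78) (nat_lit 76) (nat_lit 0) (XT.lf (nat_lit 0) (nat_lit 282381367654) (nat_lit 228) (nat_lit 116734807857) (nat_lit 76) (nat_lit 238149949667) (nat_lit 68) (nat_lit 5) (nat_lit 71) (nat_lit 5) (nat_lit 69) (nat_lit 4) (nat_lit 481) (nat_lit 443) (nat_lit 276)) (XT.lf (nat_lit 0) (nat_lit 540517517025) (nat_lit 76) (nat_lit 62474806659) (nat_lit 152) (nat_lit 67698778266) (nat_lit 67) (nat_lit 5) (nat_lit 68) (nat_lit 5) (nat_lit 69) (nat_lit 4) (nat_lit 482) (nat_lit 443) (nat_lit 275)))) (XT.nd (nat_lit 156) (nat_lit 228) (nat_lit 0) (XT.nd (nat_lit 78) (nat_lit 76) (nat_lit 0) (XT.lf (nat_lit 0) (nat_lit 250483557789) (nat_lit 152) (nat_lit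 149000965113) (nat_lit 76) (nat_lit 306327189378) (nat_lit 65) (nat_lit 5) (nat_lit 67) (nat_lit 5) (nat_lit 66) (nat_lit 4) (nat_lit 483) (nat_lit 443) (nat_lit 274)) (XT.lf (nat_lit 0) (nat_lit 575976135968) (nat_lit 76) (nat_lit 28154841965) (nat_lit 152) (nat_lit 138936386071) (nat_lit 64) (nat_lit 5) (nat_lit 65) (nat_lit 5) (nat_lit 66) (nat_lit 4) (nat_lit 484) (nat_lit 443) (nat_lit 273))) (XT.nd (nat_lit 78) (nat_lit 76) (nat_lit 0) (XT.lf (nat_lit 0) (nat_lit 214305314940) (nat_lit 152) (nat_lit 191619314699) (nat_lit 76) (nat_lit 376319130758) (nat_lit 62) (nat_lit 5) (nat_lit 64) (nat_lit 5) (nat_lit 63) (nat_lit 4) (nat_lit 485) (nat_lit 443) (nat_lit 272)) (XT.lf (nat_lit 0) (nat_lit 603964376375) (nat_lit 152) (nat_lit 216760635560) (nat_lit 0) (nat_lit 3064090358) (nat_lit 61) (nat_lit 5) (nat_lit 63) (nat_lit 4) (nat_lit 61) (nat_lit 4) (nat_lit 486) (nat_lit 443) (nat_lit 271))))))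 (XT.nd (nat_lit 624) (nat_lit 760) (nat_lit 0) (XT.nd (nat_lit 312) (nat_lit 456) (nat_lit 0) (XT.nd (nat_lit 156) (nat_lit 228) (nat_lit 0) (XT.nd (nat_lit 78) (nat_lit 76) (nat_lit 0) (XT.lf (nat_lit 0) (nat_lit 171398421941) (nat_lit 152) (nat_lit 249533600394) (nat_lit 76) (nat_lit 446591275311) (nat_lit 59) (nat_lit 5) (nat_lit 61) (nat_lit 5) (nat_lit 60) (nat_lit 4) (nat_lit 487) (nat_lit 443) (nat_lit 270)) (XT.lf (nat_lit 0) (nat_lit 600433764678) (nat_lit 152) (nat_lit 285283850778) (nat_lit 0) (nat_lit 28147632437) (nat_lit 58) (nat_lit 5) (nat_lit 60) (nat_lit 4) (nat_lit 58) (nat_lit 4) (nat_lit 488) (nat_lit 443) (nat_lit 269))) (XT.nd (nat_lit 78) (nat_lit 76) (nat_lit 0) (XT.lf (nat_lit 0) (nat_lit 118466806585) (nat_lit 152) (nat_lit 329429243535) (nat_lit 76) (nat_lit 514851229459) (nat_lit 56) (nat_lit 5) (nat_lit 58) (nat_lit 5) (nat_lit 57) (nat_lit 4) (nat_lit 489) (nat_lit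 443) (nat_lit 268)) (XT.lf (nat_lit 0) (nat_lit 589773412057) (nat_lit 152) (nat_lit 379978790899) (nat_lit 0) (nat_lit 44738881550) (nat_lit 55) (nat_lit 5) (nat_lit 57) (nat_lit 4) (nat_lit 55) (nat_lit 4) (nat_lit 490) (nat_lit 443) (nat_lit 267)))) (XT.nd (nat_lit 156) (nat_lit 228) (nat_lit 0) (XT.nd (nat_lit 78) (nat_lit 76) (nat_lit 0) (XT.lf (nat_lit 0) (nat_lit 51098454789) (nat_lit 152) (nat_lit 440282751093) (nat_lit 76) (nat_lit 577791129592) (nat_lit 53) (nat_lit 5) (nat_lit 55) (nat_lit 5) (nat_lit 54) (nat_lit 4) (nat_lit 491) (nat_lit 443) (nat_lit 266)) (XT.lf (nat_lit 0) (nat_lit 567432952260) (nat_lit 152) (nat_lit 511227999129) (nat_lit 0) (nat_lit 48352349973) (nat_lit 52) (nat_lit 5) (nat_lit 54) (nat_lit 4) (nat_lit 52) (nat_lit 4) (nat_lit 492) (nat_lit 443) (nat_lit 265))) (XT.nd (nat_lit 78) (nat_lit 152) (nat_lit 0) (XT.lf (nat_lit 0) (nat_lit 593548843869) (nat_lit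 76) (nat_lit 556872982644) (nat_lit 76) (nat_lit 37792337158) (nat_lit 51) (nat_lit 4) (nat_lit 52) (nat_lit 5) (nat_lit 52) (nat_lit 4) (nat_lit 493) (nat_lit 443) (nat_lit 264)) (XT.lf (nat_lit 0) (nat_lit 527247271282) (nat_lit 152) (nat_lit 692851923383) (nat_lit 0) (nat_lit 32884713678) (nat_lit 49) (nat_lit 5) (nat_lit 51) (nat_lit 4) (nat_lit 49) (nat_lit 4) (nat_lit 494) (nat_lit 443) (nat_lit 263))))) (XT.nd (nat_lit 312) (nat_lit 304) (nat_lit 0) (XT.nd (nat_lit 156) (nat_lit 228) (nat_lit 0) (XT.nd (nat_lit 78) (nat_lit 152) (nat_lit 0) (XT.lf (nat_lit 0) (nat_lit 512331755580) (nat_lit 76) (nat_lit 651769172795) (nat_lit 76) (nat_lit 157406579918) (nat_lit 48) (nat_lit 4) (nat_lit 49) (nat_lit 5) (nat_lit 49) (nat_lit 4) (nat_lit 495) (nat_lit 443) (nat_lit 262)) (XT.lf (nat_lit 0) (nat_lit 450869174592) (nat_lit 76) (nat_lit 10219508397) (nat_lit 152) (nat_lit 933102730616) (nat_lit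 46) (nat_lit 5) (nat_lit 47) (nat_lit 5) (nat_lit 48) (nat_lit 4) (nat_lit 496) (nat_lit 443) (nat_lit 261))) (XT.nd (nat_lit 78) (nat_lit 152) (nat_lit 0) (XT.lf (nat_lit 0) (nat_lit 366824973688) (nat_lit 76) (nat_lit 787509172912) (nat_lit 76) (nat_lit 316687595982) (nat_lit 45) (nat_lit 4) (nat_lit 46) (nat_lit 5) (nat_lit 46) (nat_lit 4) (nat_lit 497) (nat_lit 443) (nat_lit 260)) (XT.lf (nat_lit 0) (nat_lit 264879218857) (nat_lit 76) (nat_lit 93999231120) (nat_lit 152) (nat_lit 1193797113469) (nat_lit 43) (nat_lit 5) (nat_lit 44) (nat_lit 5) (nat_lit 45) (nat_lit 4) (nat_lit 498) (nat_lit 443) (nat_lit 259)))) (XT.nd (nat_lit 156) (nat_lit 152) (nat_lit 0) (XT.nd (nat_lit 78) (nat_lit 76) (nat_lit 0) (XT.lf (nat_lit 0) (nat_lit 131333655254) (nat_lit 76) (nat_lit 978035635202) (nat_lit 76) (nat_lit 529634084450) (nat_lit 42) (nat_lit 4) (nat_lit 43) (nat_lit 5) (nat_lit 43) (nat_lit 4) (nat_lit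 499) (nat_lit 443) (nat_lit 258)) (XT.lf (nat_lit 0) (nat_lit 206040878563) (nat_lit 152) (nat_lit 26017771470) (nat_lit 76) (nat_lit 1498813002411) (nat_lit 41) (nat_lit 5) (nat_lit 43) (nat_lit 5) (nat_lit 42) (nat_lit 4) (nat_lit 500) (nat_lit 443) (nat_lit 257))) (XT.nd (nat_lit 78) (nat_lit 76) (nat_lit 0) (XT.lf (nat_lit 0) (nat_lit 1017023488739) (nat_lit 152) (nat_lit 220906951877) (nat_lit 0) (nat_lit 589974352847) (nat_lit 40) (nat_lit 5) (nat_lit 42) (nat_lit 4) (nat_lit 40) (nat_lit 4) (nat_lit 501) (nat_lit 443) (nat_lit 256)) (XT.lf (nat_lit 0) (nat_lit 1482432453907) (nat_lit 76) (nat_lit 437970682058) (nat_lit 76) (nat_lit 10921528386) (nat_lit 39) (nat_lit 4) (nat_lit 40) (nat_lit 5) (nat_lit 40) (nat_lit 4) (nat_lit 502) (nat_lit 443) (nat_lit 255))))))) (XT.nd (nat_lit 1248) (nat_lit 3192) (nat_lit 0) (XT.nd (nat_lit 624) (nat_lit 2584) (nat_lit 0) (XT.nd (nat_lit 312) (nat_lit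 380) (nat_lit 0) (XT.nd (nat_lit 156) (nat_lit 0) (nat_lit 76) (XT.nd (nat_lit 78) (nat_lit 0) (nat_lit 76) (XT.lf (nat_lit 0) (nat_lit 26545214957) (nat_lit 836) (nat_lit 16718540746) (nat_lit 836) (nat_lit 16718540746) (nat_lit 163) (nat_lit 3) (nat_lit 174) (nat_lit 3) (nat_lit 174) (nat_lit 5) (nat_lit 444) (nat_lit 444) (nat_lit 312)) (XT.lf (nat_lit 0) (nat_lit 56347968023) (nat_lit 760) (nat_lit 60636746749) (nat_lit 836) (nat_lit 7721765256) (nat_lit 164) (nat_lit 5) (nat_lit 174) (nat_lit 5) (nat_lit 175) (nat_lit 5) (nat_lit 445) (nat_lit 444) (nat_lit 311))) (XT.nd (nat_lit 78) (nat_lit 0) (nat_lit 76) (XT.lf (nat_lit 76) (nat_lit 40603095531) (nat_lit 0) (nat_lit 21947250624) (nat_lit 836) (nat_lit 67143160177) (nat_lit 165) (nat_lit 5) (nat_lit 164) (nat_lit 5) (nat_lit 175) (nat_lit 5) (nat_lit 446) (nat_lit 444) (nat_lit 310)) (XT.lf (nat_lit 76) (nat_lit 16325682271) (nat_lit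 0) (nat_lit 55510883692) (nat_lit 836) (nat_lit 63113546256) (nat_lit 166) (nat_lit 5) (nat_lit 165) (nat_lit 5) (nat_lit 176) (nat_lit 5) (nat_lit 447) (nat_lit 444) (nat_lit 309)))) (XT.nd (nat_lit 156) (nat_lit 608) (nat_lit 0) (XT.nd (nat_lit 78) (nat_lit 0) (nat_lit 76) (XT.lf (nat_lit 0) (nat_lit 84549105723) (nat_lit 760) (nat_lit 8325788138) (nat_lit 836) (nat_lit 47618181645) (nat_lit 166) (nat_lit 5) (nat_lit 176) (nat_lit 5) (nat_lit 177) (nat_lit 5) (nat_lit 448) (nat_lit 444) (nat_lit 308)) (XT.lf (nat_lit 0) (nat_lit 101181305347) (nat_lit 760) (nat_lit 33046584920) (nat_lit 836) (nat_lit 12106452797) (nat_lit 167) (nat_lit 5) (nat_lit 177) (nat_lit 5) (nat_lit 178) (nat_lit 5) (nat_lit 449) (nat_lit 444) (nat_lit 307))) (XT.nd (nat_lit 78) (nat_lit 684) (nat_lit 0) (XT.lf (nat_lit 76) (nat_lit 93722907854) (nat_lit 0) (nat_lit 28597371498) (nat_lit 836) (nat_lit 30163822793) (nat_lit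 168) (nat_lit 5) (nat_lit 167) (nat_lit 5) (nat_lit 178) (nat_lit 5) (nat_lit 450) (nat_lit 444) (nat_lit 306)) (XT.lf (nat_lit 0) (nat_lit 73732365716) (nat_lit 760) (nat_lit 74488407127) (nat_lit 836) (nat_lit 10751549069) (nat_lit 158) (nat_lit 5) (nat_lit 168) (nat_lit 5) (nat_lit 169) (nat_lit 5) (nat_lit 451) (nat_lit 444) (nat_lit 305))))) (XT.nd (nat_lit 312) (nat_lit 1292) (nat_lit 0) (XT.nd (nat_lit 156) (nat_lit 380) (nat_lit 0) (XT.nd (nat_lit 78) (nat_lit 380) (nat_lit 0) (XT.lf (nat_lit 0) (nat_lit 12905868119) (nat_lit 532) (nat_lit 112439217206) (nat_lit 76) (nat_lit 40475587542) (nat_lit 151) (nat_lit 5) (nat_lit 158) (nat_lit 5) (nat_lit 152) (nat_lit 5) (nat_lit 452) (nat_lit 444) (nat_lit 304)) (XT.lf (nat_lit 0) (nat_lit 32574321294) (nat_lit 380) (nat_lit 8783223146) (nat_lit 456) (nat_lit 131686617359) (nat_lit 146) (nat_lit 5) (nat_lit 151) (nat_lit 5) (nat_lit 152) (nat_lit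 5) (nat_lit 453) (nat_lit 444) (nat_lit 303))) (XT.nd (nat_lit 78) (nat_lit 0) (nat_lit 0) (XT.lf (nat_lit 0) (nat_lit 10945987930) (nat_lit 380) (nat_lit 65128891216) (nat_lit 456) (nat_lit 104571174514) (nat_lit 141) (nat_lit 5) (nat_lit 146) (nat_lit 5) (nat_lit 147) (nat_lit 5) (nat_lit 454) (nat_lit 444) (nat_lit 302)) (XT.lf (nat_lit 0) (nat_lit 117148169803) (nat_lit 456) (nat_lit 10375044334) (nat_lit 76) (nat_lit 61153954300) (nat_lit 141) (nat_lit 5) (nat_lit 147) (nat_lit 5) (nat_lit 142) (nat_lit 5) (nat_lit 455) (nat_lit 444) (nat_lit 301)))) (XT.nd (nat_lit 156) (nat_lit 608) (nat_lit 0) (XT.nd (nat_lit 78) (nat_lit 380) (nat_lit 0) (XT.lf (nat_lit 0) (nat_lit 165206549901) (nat_lit 380) (nat_lit 31270030093) (nat_lit 76) (nat_lit 689231115) (nat_lit 137) (nat_lit 5) (nat_lit 142) (nat_lit 5) (nat_lit 138) (nat_lit 5) (nat_lit 456) (nat_lit 444) (nat_lit 300)) (XT.lf (nat_lit 0)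 (nat_lit 15231893512) (nat_lit 380) (nat_lit 53283587199) (nat_lit 76) (nat_lit 137569615317) (nat_lit 132) (nat_lit 5) (nat_lit 137) (nat_lit 5) (nat_lit 133) (nat_lit 5) (nat_lit 457) (nat_lit 444) (nat_lit 299))) (XT.nd (nat_lit 78) (nat_lit 304) (nat_lit 0) (XT.lf (nat_lit 0) (nat_lit 68990085606) (nat_lit 380) (nat_lit 75706152645) (nat_lit 76) (nat_lit 70799917302) (nat_lit 128) (nat_lit 5) (nat_lit 133) (nat_lit 5) (nat_lit 129) (nat_lit 5) (nat_lit 458) (nat_lit 444) (nat_lit 298)) (XT.lf (nat_lit 0) (nat_lit 127508694147) (nat_lit 304) (nat_lit 3629373157) (nat_lit 380) (nat_lit 94317575842) (nat_lit 124) (nat_lit 5) (nat_lit 128) (nat_lit 5) (nat_lit 129) (nat_lit 5) (nat_lit 459) (nat_lit 444) (nat_lit 297)))))) (XT.nd (nat_lit 624) (nat_lit 1216) (nat_lit 0) (XT.nd (nat_lit 312) (nat_lit 912) (nat_lit 0) (XT.nd (nat_lit 156) (nat_lit 456) (nat_lit 0) (XT.nd (nat_lit 78) (nat_lit 380)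 (nat_lit 0) (XT.lf (nat_lit 0) (nat_lit 114870809984) (nat_lit 228) (nat_lit 88842588690) (nat_lit 304) (nat_lit 32225715532) (nat_lit 121) (nat_lit 5) (nat_lit 124) (nat_lit 5) (nat_lit 125) (nat_lit 5) (nat_lit 460) (nat_lit 444) (nat_lit 296)) (XT.lf (nat_lit 0) (nat_lit 38172693025) (nat_lit 380) (nat_lit 144380948109) (nat_lit 76) (nat_lit 64457724972) (nat_lit 116) (nat_lit 5) (nat_lit 121) (nat_lit 5) (nat_lit 117) (nat_lit 5) (nat_lit 461) (nat_lit 444) (nat_lit 295))) (XT.nd (nat_lit 78) (nat_lit 228) (nat_lit 0) (XT.lf (nat_lit 0) (nat_lit 90504727155) (nat_lit 228) (nat_lit 27638623675) (nat_lit 304) (nat_lit 140546162386) (nat_lit 113) (nat_lit 5) (nat_lit 116) (nat_lit 5) (nat_lit 117) (nat_lit 5) (nat_lit 462) (nat_lit 444) (nat_lit 294)) (XT.lf (nat_lit 0) (nat_lit 78449528698) (nat_lit 228) (nat_lit 132023578371) (nat_lit 304) (nat_lit 60530732749) (nat_lit 110) (nat_lit 5) (nat_lit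 113) (nat_lit 5) (nat_lit 114) (nat_lit 5) (nat_lit 463) (nat_lit 444) (nat_lit 293)))) (XT.nd (nat_lit 156) (nat_lit 456) (nat_lit 0) (XT.nd (nat_lit 78) (nat_lit 228) (nat_lit 0) (XT.lf (nat_lit 0) (nat_lit 30160178525) (nat_lit 228) (nat_lit 216737952044) (nat_lit 76) (nat_lit 37129836458) (nat_lit 107) (nat_lit 5) (nat_lit 110) (nat_lit 5) (nat_lit 108) (nat_lit 5) (nat_lit 464) (nat_lit 444) (nat_lit 292)) (XT.lf (nat_lit 0) (nat_lit 55340707094) (nat_lit 228) (nat_lit 77172408494) (nat_lit 304) (nat_lit 165204920735) (nat_lit 104) (nat_lit 5) (nat_lit 107) (nat_lit 5) (nat_lit 108) (nat_lit 5) (nat_lit 465) (nat_lit 444) (nat_lit 291))) (XT.nd (nat_lit 78) (nat_lit 304) (nat_lit 0) (XT.lf (nat_lit 0) (nat_lit 44309693626) (nat_lit 152) (nat_lit 204930501355) (nat_lit 228) (nat_lit 62953820821) (nat_lit 102) (nat_lit 5) (nat_lit 104) (nat_lit 5) (nat_lit 105) (nat_lit 5) (nat_lit 466) (nat_lit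 444) (nat_lit 290)) (XT.lf (nat_lit 0) (nat_lit 33944269248) (nat_lit 228) (nat_lit 18135810313) (nat_lit 304) (nat_lit 275404817116) (nat_lit 98) (nat_lit 5) (nat_lit 101) (nat_lit 5) (nat_lit 102) (nat_lit 5) (nat_lit 467) (nat_lit 444) (nat_lit 289))))) (XT.nd (nat_lit 312) (nat_lit 684) (nat_lit 0) (XT.nd (nat_lit 156) (nat_lit 228) (nat_lit 0) (XT.nd (nat_lit 78) (nat_lit 152) (nat_lit 0) (XT.lf (nat_lit 0) (nat_lit 22432560181) (nat_lit 152) (nat_lit 159667467266) (nat_lit 228) (nat_lit 161447972553) (nat_lit 96) (nat_lit 5) (nat_lit 98) (nat_lit 5) (nat_lit 99) (nat_lit 5) (nat_lit 468) (nat_lit 444) (nat_lit 288)) (XT.lf (nat_lit 0) (nat_lit 12920851592) (nat_lit 152) (nat_lit 315933257192) (nat_lit 228) (nat_lit 31725415932) (nat_lit 94) (nat_lit 5) (nat_lit 96) (nat_lit 5) (nat_lit 97) (nat_lit 5) (nat_lit 469) (nat_lit 444) (nat_lit 287))) (XT.nd (nat_lit 78) (nat_lit 0) (nat_lit 0)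 (XT.lf (nat_lit 0) (nat_lit 2042099129) (nat_lit 152) (nat_lit 111273467066) (nat_lit 228) (nat_lit 265152938589) (nat_lit 91) (nat_lit 5) (nat_lit 93) (nat_lit 5) (nat_lit 94) (nat_lit 5) (nat_lit 470) (nat_lit 444) (nat_lit 286)) (XT.lf (nat_lit 0) (nat_lit 276731911131) (nat_lit 228) (nat_lit 7700284063) (nat_lit 76) (nat_lit 112936224214) (nat_lit 91) (nat_lit 5) (nat_lit 94) (nat_lit 5) (nat_lit 92) (nat_lit 5) (nat_lit 471) (nat_lit 444) (nat_lit 285)))) (XT.nd (nat_lit 156) (nat_lit 304) (nat_lit 0) (XT.nd (nat_lit 78) (nat_lit 152) (nat_lit 0) (XT.lf (nat_lit 0) (nat_lit 42585020275) (nat_lit 228) (nat_lit 16562156569) (nat_lit 76) (nat_lit 358191577278) (nat_lit 88) (nat_lit 5) (nat_lit 91) (nat_lit 5) (nat_lit 89) (nat_lit 5) (nat_lit 472) (nat_lit 444) (nat_lit 284)) (XT.lf (nat_lit 0) (nat_lit 224319464834) (nat_lit 228) (nat_lit 26953784315) (nat_lit 76) (nat_lit 187050498619) (nat_lit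 86) (nat_lit 5) (nat_lit 89) (nat_lit 5) (nat_lit 87) (nat_lit 5) (nat_lit 473) (nat_lit 444) (nat_lit 283))) (XT.nd (nat_lit 78) (nat_lit 152) (nat_lit 0) (XT.lf (nat_lit 0) (nat_lit 425780253602) (nat_lit 152) (nat_lit 2750434333) (nat_lit 228) (nat_lit 32059951825) (nat_lit 84) (nat_lit 5) (nat_lit 86) (nat_lit 5) (nat_lit 87) (nat_lit 5) (nat_lit 474) (nat_lit 444) (nat_lit 282)) (XT.lf (nat_lit 0) (nat_lit 170876064361) (nat_lit 152) (nat_lit 45778828218) (nat_lit 76) (nat_lit 267270659974) (nat_lit 82) (nat_lit 5) (nat_lit 84) (nat_lit 5) (nat_lit 83) (nat_lit 5) (nat_lit 475) (nat_lit 444) (nat_lit 281))))))))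
noncomputable def xc104 : XT := (XT.nd (nat_lit 60372) (nat_lit 0) (nat_lit 2584) (XT.nd (nat_lit 1170) (nat_lit 1216) (nat_lit 0) (XT.nd (nat_lit 546) (nat_lit 912) (nat_lit 0) (XT.nd (nat_lit 234) (nat_lit 608) (nat_lit 0) (XT.nd (nat_lit 78) (nat_lit 304) (nat_lit 0) (XT.lf (nat_lit 0) (nat_lit 397616938085) (nat_lit 228) (nat_lit 54568919584) (nat_lit 76) (nat_lit 56480462017) (nat_lit 80) (nat_lit 5) (nat_lit 83) (nat_lit 5) (nat_lit 81) (nat_lit 4) (nat_lit 476) (nat_lit 444) (nat_lit 280)) (XT.nd (nat_lit 78) (nat_lit 152) (nat_lit 0) (XT.lf (nat_lit 0) (nat_lit 115704264733) (nat_lit 152) (nat_lit 64978910263) (nat_lit 76) (nat_lit 354018471079) (nat_lit 78) (nat_lit 5) (nat_lit 80) (nat_lit 5) (nat_lit 79) (nat_lit 5) (nat_lit 477) (nat_lit 444) (nat_lit 279)) (XT.lf (nat_lit 0) (nat_lit 367287305942) (nat_lit 228) (nat_lit 75331548611) (nat_lit 76) (nat_lit 119580933314) (nat_lit 76)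 (nat_lit 5) (nat_lit 79) (nat_lit 5) (nat_lit 77) (nat_lit 4) (nat_lit 478) (nat_lit 444) (nat_lit 278)))) (XT.nd (nat_lit 156) (nat_lit 304) (nat_lit 0) (XT.nd (nat_lit 78) (nat_lit 152) (nat_lit 0) (XT.lf (nat_lit 0) (nat_lit 57894828644) (nat_lit 152) (nat_lit 85738670120) (nat_lit 76) (nat_lit 447612360306) (nat_lit 74) (nat_lit 5) (nat_lit 76) (nat_lit 5) (nat_lit 75) (nat_lit 5) (nat_lit 479) (nat_lit 444) (nat_lit 277)) (XT.lf (nat_lit 0) (nat_lit 336752332731) (nat_lit 228) (nat_lit 98487108463) (nat_lit 76) (nat_lit 186583690819) (nat_lit 72) (nat_lit 5) (nat_lit 75) (nat_lit 5) (nat_lit 73) (nat_lit 4) (nat_lit 480) (nat_lit 444) (nat_lit 276))) (XT.nd (nat_lit 78) (nat_lit 228) (nat_lit 0) (XT.lf (nat_lit 0) (nat_lit 544404171868) (nat_lit 76) (nat_lit 105953732600) (nat_lit 152) (nat_lit 3866708961) (nat_lit 71) (nat_lit 5) (nat_lit 72) (nat_lit 5) (nat_lit 73) (nat_lit 4) (nat_lit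 481) (nat_lit 444) (nat_lit 275)) (XT.lf (nat_lit 0) (nat_lit 304974381148) (nat_lit 228) (nat_lit 126068864859) (nat_lit 76) (nat_lit 257204043942) (nat_lit 68) (nat_lit 5) (nat_lit 71) (nat_lit 5) (nat_lit 69) (nat_lit 4) (nat_lit 482) (nat_lit 444) (nat_lit 274))))) (XT.nd (nat_lit 312) (nat_lit 456) (nat_lit 0) (XT.nd (nat_lit 156) (nat_lit 228) (nat_lit 0) (XT.nd (nat_lit 78) (nat_lit 152) (nat_lit 0) (XT.lf (nat_lit 0) (nat_lit 583763440556) (nat_lit 76) (nat_lit 67470658220) (nat_lit 152) (nat_lit 73112171835) (nat_lit 67) (nat_lit 5) (nat_lit 68) (nat_lit 5) (nat_lit 69) (nat_lit 4) (nat_lit 483) (nat_lit 444) (nat_lit 273)) (XT.lf (nat_lit 0) (nat_lit 270524592221) (nat_lit 152) (nat_lit 160916556505) (nat_lit 76) (nat_lit 330835383013) (nat_lit 65) (nat_lit 5) (nat_lit 67) (nat_lit 5) (nat_lit 66) (nat_lit 4) (nat_lit 484) (nat_lit 444) (nat_lit 272))) (XT.nd (nat_lit 78) (nat_lit 152)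 (nat_lit 0) (XT.lf (nat_lit 0) (nat_lit 622058517713) (nat_lit 76) (nat_lit 30405181195) (nat_lit 152) (nat_lit 150048942049) (nat_lit 64) (nat_lit 5) (nat_lit 65) (nat_lit 5) (nat_lit 66) (nat_lit 4) (nat_lit 485) (nat_lit 444) (nat_lit 271)) (XT.lf (nat_lit 0) (nat_lit 231451947260) (nat_lit 152) (nat_lit 206944605775) (nat_lit 76) (nat_lit 406426597813) (nat_lit 62) (nat_lit 5) (nat_lit 64) (nat_lit 5) (nat_lit 63) (nat_lit 4) (nat_lit 486) (nat_lit 444) (nat_lit 270)))) (XT.nd (nat_lit 156) (nat_lit 228) (nat_lit 0) (XT.nd (nat_lit 78) (nat_lit 152) (nat_lit 0) (XT.lf (nat_lit 0) (nat_lit 652283664284) (nat_lit 152) (nat_lit 234097342434) (nat_lit 0) (nat_lit 3311116845) (nat_lit 61) (nat_lit 5) (nat_lit 63) (nat_lit 4) (nat_lit 61) (nat_lit 4) (nat_lit 487) (nat_lit 444) (nat_lit 269)) (XT.lf (nat_lit 0) (nat_lit 185112370513) (nat_lit 152) (nat_lit 269492255922) (nat_lit 76) (nat_lit 482320431261)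 (nat_lit 59) (nat_lit 5) (nat_lit 61) (nat_lit 5) (nat_lit 60) (nat_lit 4) (nat_lit 488) (nat_lit 444) (nat_lit 268))) (XT.nd (nat_lit 78) (nat_lit 152) (nat_lit 0) (XT.lf (nat_lit 0) (nat_lit 648470476489) (nat_lit 152) (nat_lit 308102631786) (nat_lit 0) (nat_lit 30401258898) (nat_lit 58) (nat_lit 5) (nat_lit 60) (nat_lit 4) (nat_lit 58) (nat_lit 4) (nat_lit 489) (nat_lit 444) (nat_lit 267)) (XT.lf (nat_lit 0) (nat_lit 127946102960) (nat_lit 152) (nat_lit 355779762074) (nat_lit 76) (nat_lit 556041099303) (nat_lit 56) (nat_lit 5) (nat_lit 58) (nat_lit 5) (nat_lit 57) (nat_lit 4) (nat_lit 490) (nat_lit 444) (nat_lit 266)))))) (XT.nd (nat_lit 624) (nat_lit 380) (nat_lit 0) (XT.nd (nat_lit 312) (nat_lit 456) (nat_lit 0) (XT.nd (nat_lit 156) (nat_lit 152) (nat_lit 0) (XT.nd (nat_lit 78) (nat_lit 152) (nat_lit 0) (XT.lf (nat_lit 0) (nat_lit 636957177306) (nat_lit 152) (nat_lit 410373374004) (nat_lit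 0) (nat_lit 48319725326) (nat_lit 55) (nat_lit 5) (nat_lit 57) (nat_lit 4) (nat_lit 55) (nat_lit 4) (nat_lit 491) (nat_lit 444) (nat_lit 265)) (XT.lf (nat_lit 0) (nat_lit 55188168495) (nat_lit 152) (nat_lit 475501751924) (nat_lit 76) (nat_lit 624016110014) (nat_lit 53) (nat_lit 5) (nat_lit 55) (nat_lit 5) (nat_lit 54) (nat_lit 4) (nat_lit 492) (nat_lit 444) (nat_lit 264))) (XT.nd (nat_lit 78) (nat_lit 76) (nat_lit 0) (XT.lf (nat_lit 0) (nat_lit 612829370362) (nat_lit 152) (nat_lit 552122715960) (nat_lit 0) (nat_lit 52222190040) (nat_lit 52) (nat_lit 5) (nat_lit 54) (nat_lit 4) (nat_lit 52) (nat_lit 4) (nat_lit 493) (nat_lit 444) (nat_lit 263)) (XT.lf (nat_lit 0) (nat_lit 641036121368) (nat_lit 76) (nat_lit 601421153808) (nat_lit 76) (nat_lit 40813936450) (nat_lit 51) (nat_lit 4) (nat_lit 52) (nat_lit 5) (nat_lit 52) (nat_lit 4) (nat_lit 494) (nat_lit 444) (nat_lit 262)))) (XT.nd (nat_lit 156)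 (nat_lit 228) (nat_lit 0) (XT.nd (nat_lit 78) (nat_lit 76) (nat_lit 0) (XT.lf (nat_lit 0) (nat_lit 569428731817) (nat_lit 152) (nat_lit 748276741662) (nat_lit 0) (nat_lit 35517063578) (nat_lit 49) (nat_lit 5) (nat_lit 51) (nat_lit 4) (nat_lit 49) (nat_lit 4) (nat_lit 495) (nat_lit 444) (nat_lit 261)) (XT.lf (nat_lit 0) (nat_lit 553321486657) (nat_lit 76) (nat_lit 703909120278) (nat_lit 76) (nat_lit 169997421798) (nat_lit 48) (nat_lit 4) (nat_lit 49) (nat_lit 5) (nat_lit 49) (nat_lit 4) (nat_lit 496) (nat_lit 444) (nat_lit 260))) (XT.nd (nat_lit 78) (nat_lit 76) (nat_lit 0) (XT.lf (nat_lit 0) (nat_lit 486941812110) (nat_lit 76) (nat_lit 11035523787) (nat_lit 152) (nat_lit 1007749312875) (nat_lit 46) (nat_lit 5) (nat_lit 47) (nat_lit 5) (nat_lit 48) (nat_lit 4) (nat_lit 497) (nat_lit 444) (nat_lit 259)) (XT.lf (nat_lit 0) (nat_lit 396173991715) (nat_lit 76) (nat_lit 850508398947) (nat_lit 76) (nat_lit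 342021015702) (nat_lit 45) (nat_lit 4) (nat_lit 46) (nat_lit 5) (nat_lit 46) (nat_lit 4) (nat_lit 498) (nat_lit 444) (nat_lit 258))))) (XT.nd (nat_lit 58266) (nat_lit 0) (nat_lit 9348) (XT.nd (nat_lit 156) (nat_lit 152) (nat_lit 0) (XT.nd (nat_lit 78) (nat_lit 76) (nat_lit 0) (XT.lf (nat_lit 0) (nat_lit 286072493869) (nat_lit 76) (nat_lit 101517701240) (nat_lit 152) (nat_lit 1289299339949) (nat_lit 43) (nat_lit 5) (nat_lit 44) (nat_lit 5) (nat_lit 45) (nat_lit 4) (nat_lit 499) (nat_lit 444) (nat_lit 257)) (XT.lf (nat_lit 0) (nat_lit 141843205859) (nat_lit 76) (nat_lit 1056277053994) (nat_lit 76) (nat_lit 572003313731) (nat_lit 42) (nat_lit 4) (nat_lit 43) (nat_lit 5) (nat_lit 43) (nat_lit 4) (nat_lit 500) (nat_lit 444) (nat_lit 256))) (XT.nd (nat_lit 78) (nat_lit 76) (nat_lit 0) (XT.lf (nat_lit 0) (nat_lit 222525491021) (nat_lit 152) (nat_lit 28096502336) (nat_lit 76) (nat_lit 1618719324168)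 (nat_lit 41) (nat_lit 5) (nat_lit 43) (nat_lit 5) (nat_lit 42) (nat_lit 4) (nat_lit 501) (nat_lit 444) (nat_lit 255)) (XT.lf (nat_lit 0) (nat_lit 1098386670933) (nat_lit 152) (nat_lit 238576890119) (nat_lit 0) (nat_lit 637173550727) (nat_lit 40) (nat_lit 5) (nat_lit 42) (nat_lit 4) (nat_lit 40) (nat_lit 4) (nat_lit 502) (nat_lit 444) (nat_lit 254)))) (XT.nd (nat_lit 156) (nat_lit 0) (nat_lit 76) (XT.nd (nat_lit 78) (nat_lit 0) (nat_lit 76) (XT.lf (nat_lit 0) (nat_lit 28675689671) (nat_lit 836) (nat_lit 18052423545) (nat_lit 836) (nat_lit 18052423545) (nat_lit 163) (nat_lit 3) (nat_lit 174) (nat_lit 3) (nat_lit 174) (nat_lit 5) (nat_lit 445) (nat_lit 445) (nat_lit 310)) (XT.lf (nat_lit 0) (nat_lit 60868519705) (nat_lit 760) (nat_lit 65480064790) (nat_lit 836) (nat_lit 8333777243) (nat_lit 164) (nat_lit 5) (nat_lit 174) (nat_lit 5) (nat_lit 175) (nat_lit 5) (nat_lit 446) (nat_lit 445) (nat_lit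 309))) (XT.nd (nat_lit 78) (nat_lit 0) (nat_lit 76) (XT.lf (nat_lit 76) (nat_lit 43858633643) (nat_lit 0) (nat_lit 23707626474) (nat_lit 836) (nat_lit 72502131501) (nat_lit 165) (nat_lit 5) (nat_lit 164) (nat_lit 5) (nat_lit 175) (nat_lit 5) (nat_lit 447) (nat_lit 445) (nat_lit 308)) (XT.lf (nat_lit 76) (nat_lit 17639348475) (nat_lit 0) (nat_lit 59955200970) (nat_lit 836) (nat_lit 68151018001) (nat_lit 166) (nat_lit 5) (nat_lit 165) (nat_lit 5) (nat_lit 176) (nat_lit 5) (nat_lit 448) (nat_lit 445) (nat_lit 307))))))) (XT.nd (nat_lit 1248) (nat_lit 2736) (nat_lit 0) (XT.nd (nat_lit 624) (nat_lit 2356) (nat_lit 0) (XT.nd (nat_lit 312) (nat_lit 1292) (nat_lit 0) (XT.nd (nat_lit 156) (nat_lit 608) (nat_lit 0) (XT.nd (nat_lit 78) (nat_lit 0) (nat_lit 76) (XT.lf (nat_lit 0) (nat_lit 91323223435) (nat_lit 760) (nat_lit 8984240833) (nat_lit 836) (nat_lit 51424547037) (nat_lit 166) (nat_lit 5) (nat_lit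 176) (nat_lit 5) (nat_lit 177) (nat_lit 5) (nat_lit 449) (nat_lit 445) (nat_lit 306)) (XT.lf (nat_lit 0) (nat_lit 109285322507) (nat_lit 760) (nat_lit 35682518548) (nat_lit 836) (nat_lit 13072773097) (nat_lit 167) (nat_lit 5) (nat_lit 177) (nat_lit 5) (nat_lit 178) (nat_lit 5) (nat_lit 450) (nat_lit 445) (nat_lit 305))) (XT.nd (nat_lit 78) (nat_lit 684) (nat_lit 0) (XT.lf (nat_lit 76) (nat_lit 101228194966) (nat_lit 0) (nat_lit 30886631205) (nat_lit 836) (nat_lit 32567557256) (nat_lit 168) (nat_lit 5) (nat_lit 167) (nat_lit 5) (nat_lit 178) (nat_lit 5) (nat_lit 451) (nat_lit 445) (nat_lit 304)) (XT.lf (nat_lit 0) (nat_lit 79638534917) (nat_lit 760) (nat_lit 80448260247) (nat_lit 836) (nat_lit 11602893860) (nat_lit 158) (nat_lit 5) (nat_lit 168) (nat_lit 5) (nat_lit 169) (nat_lit 5) (nat_lit 452) (nat_lit 445) (nat_lit 303)))) (XT.nd (nat_lit 156) (nat_lit 380) (nat_lit 0) (XT.nd (nat_lit 78)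 (nat_lit 380) (nat_lit 0) (XT.lf (nat_lit 0) (nat_lit 13946316351) (nat_lit 532) (nat_lit 121426427589) (nat_lit 76) (nat_lit 43713183272) (nat_lit 151) (nat_lit 5) (nat_lit 158) (nat_lit 5) (nat_lit 152) (nat_lit 5) (nat_lit 453) (nat_lit 445) (nat_lit 302)) (XT.lf (nat_lit 0) (nat_lit 35187849493) (nat_lit 380) (nat_lit 9485804648) (nat_lit 456) (nat_lit 142213664790) (nat_lit 146) (nat_lit 5) (nat_lit 151) (nat_lit 5) (nat_lit 152) (nat_lit 5) (nat_lit 454) (nat_lit 445) (nat_lit 301))) (XT.nd (nat_lit 78) (nat_lit 0) (nat_lit 0) (XT.lf (nat_lit 0) (nat_lit 11829278273) (nat_lit 380) (nat_lit 70338661277) (nat_lit 456) (nat_lit 112929444432) (nat_lit 141) (nat_lit 5) (nat_lit 146) (nat_lit 5) (nat_lit 147) (nat_lit 5) (nat_lit 455) (nat_lit 445) (nat_lit 300)) (XT.lf (nat_lit 0) (nat_lit 126526577575) (nat_lit 456) (nat_lit 11197680446) (nat_lit 76) (nat_lit 66046755749) (nat_lit 141) (nat_lit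 5) (nat_lit 147) (nat_lit 5) (nat_lit 142) (nat_lit 5) (nat_lit 456) (nat_lit 445) (nat_lit 299))))) (XT.nd (nat_lit 312) (nat_lit 1064) (nat_lit 0) (XT.nd (nat_lit 156) (nat_lit 608) (nat_lit 0) (XT.nd (nat_lit 78) (nat_lit 380) (nat_lit 0) (XT.lf (nat_lit 0) (nat_lit 178429266174) (nat_lit 380) (nat_lit 33764289470) (nat_lit 76) (nat_lit 745210340) (nat_lit 137) (nat_lit 5) (nat_lit 142) (nat_lit 5) (nat_lit 138) (nat_lit 5) (nat_lit 457) (nat_lit 445) (nat_lit 298)) (XT.lf (nat_lit 0) (nat_lit 16456384398) (nat_lit 380) (nat_lit 57539053527) (nat_lit 76) (nat_lit 148576168462) (nat_lit 132) (nat_lit 5) (nat_lit 137) (nat_lit 5) (nat_lit 133) (nat_lit 5) (nat_lit 458) (nat_lit 445) (nat_lit 297))) (XT.nd (nat_lit 78) (nat_lit 304) (nat_lit 0) (XT.lf (nat_lit 0) (nat_lit 74514920029) (nat_lit 380) (nat_lit 81755477608) (nat_lit 76) (nat_lit 76465168654) (nat_lit 128) (nat_lit 5) (nat_lit 133)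 (nat_lit 5) (nat_lit 129) (nat_lit 5) (nat_lit 459) (nat_lit 445) (nat_lit 296)) (XT.lf (nat_lit 0) (nat_lit 137716245447) (nat_lit 304) (nat_lit 3918184996) (nat_lit 380) (nat_lit 101857397964) (nat_lit 124) (nat_lit 5) (nat_lit 128) (nat_lit 5) (nat_lit 129) (nat_lit 5) (nat_lit 460) (nat_lit 445) (nat_lit 295)))) (XT.nd (nat_lit 156) (nat_lit 456) (nat_lit 0) (XT.nd (nat_lit 78) (nat_lit 380) (nat_lit 0) (XT.lf (nat_lit 0) (nat_lit 124067264261) (nat_lit 228) (nat_lit 95948258391) (nat_lit 304) (nat_lit 34798467806) (nat_lit 121) (nat_lit 5) (nat_lit 124) (nat_lit 5) (nat_lit 125) (nat_lit 5) (nat_lit 461) (nat_lit 445) (nat_lit 294)) (XT.lf (nat_lit 0) (nat_lit 41231395273) (nat_lit 380) (nat_lit 155924551767) (nat_lit 76) (nat_lit 69616083767) (nat_lit 116) (nat_lit 5) (nat_lit 121) (nat_lit 5) (nat_lit 117) (nat_lit 5) (nat_lit 462) (nat_lit 445) (nat_lit 293))) (XT.nd (nat_lit 78) (nat_lit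 228) (nat_lit 0) (XT.lf (nat_lit 0) (nat_lit 97751678861) (nat_lit 228) (nat_lit 29847767487) (nat_lit 304) (nat_lit 151784996324) (nat_lit 113) (nat_lit 5) (nat_lit 116) (nat_lit 5) (nat_lit 117) (nat_lit 5) (nat_lit 463) (nat_lit 445) (nat_lit 292)) (XT.lf (nat_lit 0) (nat_lit 84731971323) (nat_lit 228) (nat_lit 142583398299) (nat_lit 304) (nat_lit 65368556471) (nat_lit 110) (nat_lit 5) (nat_lit 113) (nat_lit 5) (nat_lit 114) (nat_lit 5) (nat_lit 464) (nat_lit 445) (nat_lit 291)))))) (XT.nd (nat_lit 624) (nat_lit 1292) (nat_lit 0) (XT.nd (nat_lit 312) (nat_lit 532) (nat_lit 0) (XT.nd (nat_lit 156) (nat_lit 456) (nat_lit 0) (XT.nd (nat_lit 78) (nat_lit 228) (nat_lit 0) (XT.lf (nat_lit 0) (nat_lit 32577278613) (nat_lit 228) (nat_lit 234070467159) (nat_lit 76) (nat_lit 40102244140) (nat_lit 107) (nat_lit 5) (nat_lit 110) (nat_lit 5) (nat_lit 108) (nat_lit 5) (nat_lit 465) (nat_lit 445) (nat_lit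 290)) (XT.lf (nat_lit 0) (nat_lit 59774201313) (nat_lit 228) (nat_lit 83344029248) (nat_lit 304) (nat_lit 178417045209) (nat_lit 104) (nat_lit 5) (nat_lit 107) (nat_lit 5) (nat_lit 108) (nat_lit 5) (nat_lit 466) (nat_lit 445) (nat_lit 289))) (XT.nd (nat_lit 78) (nat_lit 304) (nat_lit 0) (XT.lf (nat_lit 0) (nat_lit 47860597868) (nat_lit 152) (nat_lit 221322704358) (nat_lit 228) (nat_lit 67986040099) (nat_lit 102) (nat_lit 5) (nat_lit 104) (nat_lit 5) (nat_lit 105) (nat_lit 5) (nat_lit 467) (nat_lit 445) (nat_lit 288)) (XT.lf (nat_lit 0) (nat_lit 36665798443) (nat_lit 228) (nat_lit 19584443558) (nat_lit 304) (nat_lit 297433258465) (nat_lit 98) (nat_lit 5) (nat_lit 101) (nat_lit 5) (nat_lit 102) (nat_lit 5) (nat_lit 468) (nat_lit 445) (nat_lit 287)))) (XT.nd (nat_lit 156) (nat_lit 228) (nat_lit 0) (XT.nd (nat_lit 78) (nat_lit 152) (nat_lit 0) (XT.lf (nat_lit 0) (nat_lit 24233038885) (nat_lit 152)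 (nat_lit 172438592574) (nat_lit 228) (nat_lit 174360028320) (nat_lit 96) (nat_lit 5) (nat_lit 98) (nat_lit 5) (nat_lit 99) (nat_lit 5) (nat_lit 469) (nat_lit 445) (nat_lit 286)) (XT.lf (nat_lit 0) (nat_lit 13960276794) (nat_lit 152) (nat_lit 341205618437) (nat_lit 228) (nat_lit 34259818454) (nat_lit 94) (nat_lit 5) (nat_lit 96) (nat_lit 5) (nat_lit 97) (nat_lit 5) (nat_lit 470) (nat_lit 445) (nat_lit 285))) (XT.nd (nat_lit 78) (nat_lit 0) (nat_lit 0) (XT.lf (nat_lit 0) (nat_lit 2211085205) (nat_lit 152) (nat_lit 120173068209) (nat_lit 228) (nat_lit 286361664549) (nat_lit 91) (nat_lit 5) (nat_lit 93) (nat_lit 5) (nat_lit 94) (nat_lit 5) (nat_lit 471) (nat_lit 445) (nat_lit 284)) (XT.lf (nat_lit 0) (nat_lit 298873591302) (nat_lit 228) (nat_lit 8310982890) (nat_lit 76) (nat_lit 121973162307) (nat_lit 91) (nat_lit 5) (nat_lit 94) (nat_lit 5) (nat_lit 92) (nat_lit 5) (nat_lit 472) (nat_lit 445) (nat_lit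 283))))) (XT.nd (nat_lit 312) (nat_lit 608) (nat_lit 0) (XT.nd (nat_lit 156) (nat_lit 304) (nat_lit 0) (XT.nd (nat_lit 78) (nat_lit 152) (nat_lit 0) (XT.lf (nat_lit 0) (nat_lit 45994845896) (nat_lit 228) (nat_lit 17881936491) (nat_lit 76) (nat_lit 386848920777) (nat_lit 88) (nat_lit 5) (nat_lit 91) (nat_lit 5) (nat_lit 89) (nat_lit 5) (nat_lit 473) (nat_lit 445) (nat_lit 282)) (XT.lf (nat_lit 0) (nat_lit 242267932189) (nat_lit 228) (nat_lit 29105008784) (nat_lit 76) (nat_lit 202016561026) (nat_lit 86) (nat_lit 5) (nat_lit 89) (nat_lit 5) (nat_lit 87) (nat_lit 5) (nat_lit 474) (nat_lit 445) (nat_lit 281))) (XT.nd (nat_lit 78) (nat_lit 152) (nat_lit 0) (XT.lf (nat_lit 0) (nat_lit 459847531470) (nat_lit 152) (nat_lit 2968381940) (nat_lit 228) (nat_lit 34621838933) (nat_lit 84) (nat_lit 5) (nat_lit 86) (nat_lit 5) (nat_lit 87) (nat_lit 5) (nat_lit 475) (nat_lit 445) (nat_lit 280)) (XT.lf (nat_lit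 0) (nat_lit 184548862863) (nat_lit 152) (nat_lit 49436296815) (nat_lit 76) (nat_lit 288654301346) (nat_lit 82) (nat_lit 5) (nat_lit 84) (nat_lit 5) (nat_lit 83) (nat_lit 5) (nat_lit 476) (nat_lit 445) (nat_lit 279)))) (XT.nd (nat_lit 156) (nat_lit 304) (nat_lit 0) (XT.nd (nat_lit 78) (nat_lit 152) (nat_lit 0) (XT.lf (nat_lit 0) (nat_lit 429428909636) (nat_lit 228) (nat_lit 58929708331) (nat_lit 76) (nat_lit 61000876406) (nat_lit 80) (nat_lit 5) (nat_lit 83) (nat_lit 5) (nat_lit 81) (nat_lit 4) (nat_lit 477) (nat_lit 445) (nat_lit 278)) (XT.lf (nat_lit 0) (nat_lit 124963140090) (nat_lit 152) (nat_lit 70172619754) (nat_lit 76) (nat_lit 382341891153) (nat_lit 78) (nat_lit 5) (nat_lit 80) (nat_lit 5) (nat_lit 79) (nat_lit 5) (nat_lit 478) (nat_lit 445) (nat_lit 277))) (XT.nd (nat_lit 78) (nat_lit 152) (nat_lit 0) (XT.lf (nat_lit 0) (nat_lit 396672736666) (nat_lit 228) (nat_lit 81353579454) (nat_lit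 76) (nat_lit 129149332414) (nat_lit 76) (nat_lit 5) (nat_lit 79) (nat_lit 5) (nat_lit 77) (nat_lit 4) (nat_lit 479) (nat_lit 445) (nat_lit 276)) (XT.lf (nat_lit 0) (nat_lit 62528785358) (nat_lit 152) (nat_lit 92593387526) (nat_lit 76) (nat_lit 483423236347) (nat_lit 74) (nat_lit 5) (nat_lit 76) (nat_lit 5) (nat_lit 75) (nat_lit 5) (nat_lit 480) (nat_lit 445) (nat_lit 275))))))))
noncomputable def xc105 : XT := (XT.nd (nat_lit 60528) (nat_lit 0) (nat_lit 1748) (XT.nd (nat_lit 1248) (nat_lit 608) (nat_lit 0) (XT.nd (nat_lit 624) (nat_lit 912) (nat_lit 0) (XT.nd (nat_lit 312) (nat_lit 456) (nat_lit 0) (XT.nd (nat_lit 156) (nat_lit 304) (nat_lit 0) (XT.nd (nat_lit 78) (nat_lit 76) (nat_lit 0) (XT.lf (nat_lit 0) (nat_lit 363694809609) (nat_lit 228) (nat_lit 106361808138) (nat_lit 76) (nat_lit 201512250275) (nat_lit 72) (nat_lit 5) (nat_lit 75) (nat_lit 5) (nat_lit 73) (nat_lit 4) (nat_lit 481) (nat_lit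 445) (nat_lit 274)) (XT.lf (nat_lit 0) (nat_lit 587960589094) (nat_lit 76) (nat_lit 114428132096) (nat_lit 152) (nat_lit 4173752057) (nat_lit 71) (nat_lit 5) (nat_lit 72) (nat_lit 5) (nat_lit 73) (nat_lit 4) (nat_lit 482) (nat_lit 445) (nat_lit 273))) (XT.nd (nat_lit 78) (nat_lit 76) (nat_lit 0) (XT.lf (nat_lit 0) (nat_lit 329374478486) (nat_lit 228) (nat_lit 136150320870) (nat_lit 76) (nat_lit 277782166413) (nat_lit 68) (nat_lit 5) (nat_lit 71) (nat_lit 5) (nat_lit 69) (nat_lit 4) (nat_lit 483) (nat_lit 445) (nat_lit 272)) (XT.lf (nat_lit 0) (nat_lit 630468392832) (nat_lit 76) (nat_lit 72866482199) (nat_lit 152) (nat_lit 78958994781) (nat_lit 67) (nat_lit 5) (nat_lit 68) (nat_lit 5) (nat_lit 69) (nat_lit 4) (nat_lit 484) (nat_lit 445) (nat_lit 271)))) (XT.nd (nat_lit 156) (nat_lit 228) (nat_lit 0) (XT.nd (nat_lit 78) (nat_lit 76) (nat_lit 0) (XT.lf (nat_lit 0) (nat_lit 292168574182) (nat_lit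 152) (nat_lit 173786035161) (nat_lit 76) (nat_lit 357303944180) (nat_lit 65) (nat_lit 5) (nat_lit 67) (nat_lit 5) (nat_lit 66) (nat_lit 4) (nat_lit 485) (nat_lit 445) (nat_lit 270)) (XT.lf (nat_lit 0) (nat_lit 671826877858) (nat_lit 76) (nat_lit 32835839752) (nat_lit 152) (nat_lit 162050838459) (nat_lit 64) (nat_lit 5) (nat_lit 65) (nat_lit 5) (nat_lit 66) (nat_lit 4) (nat_lit 486) (nat_lit 445) (nat_lit 269))) (XT.nd (nat_lit 78) (nat_lit 76) (nat_lit 0) (XT.lf (nat_lit 0) (nat_lit 249969995294) (nat_lit 152) (nat_lit 223496527031) (nat_lit 76) (nat_lit 438942385955) (nat_lit 62) (nat_lit 5) (nat_lit 64) (nat_lit 5) (nat_lit 63) (nat_lit 4) (nat_lit 487) (nat_lit 445) (nat_lit 268)) (XT.lf (nat_lit 0) (nat_lit 704468190245) (nat_lit 152) (nat_lit 252821577041) (nat_lit 0) (nat_lit 3577634501) (nat_lit 61) (nat_lit 5) (nat_lit 63) (nat_lit 4) (nat_lit 61) (nat_lit 4) (nat_lit 488) (nat_lit 445)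 (nat_lit 267))))) (XT.nd (nat_lit 312) (nat_lit 456) (nat_lit 0) (XT.nd (nat_lit 156) (nat_lit 228) (nat_lit 0) (XT.nd (nat_lit 78) (nat_lit 76) (nat_lit 0) (XT.lf (nat_lit 0) (nat_lit 199923138975) (nat_lit 152) (nat_lit 291048179174) (nat_lit 76) (nat_lit 520907655204) (nat_lit 59) (nat_lit 5) (nat_lit 61) (nat_lit 5) (nat_lit 60) (nat_lit 4) (nat_lit 489) (nat_lit 445) (nat_lit 266)) (XT.lf (nat_lit 0) (nat_lit 700349838406) (nat_lit 152) (nat_lit 332747475513) (nat_lit 0) (nat_lit 32834916423) (nat_lit 58) (nat_lit 5) (nat_lit 60) (nat_lit 4) (nat_lit 58) (nat_lit 4) (nat_lit 490) (nat_lit 445) (nat_lit 265))) (XT.nd (nat_lit 78) (nat_lit 76) (nat_lit 0) (XT.lf (nat_lit 0) (nat_lit 138183464591) (nat_lit 152) (nat_lit 384238867197) (nat_lit 76) (nat_lit 600525906011) (nat_lit 56) (nat_lit 5) (nat_lit 58) (nat_lit 5) (nat_lit 57) (nat_lit 4) (nat_lit 491) (nat_lit 445) (nat_lit 264)) (XT.lf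 (nat_lit 0) (nat_lit 687915373820) (nat_lit 152) (nat_lit 443200054481) (nat_lit 0) (nat_lit 52186789336) (nat_lit 55) (nat_lit 5) (nat_lit 57) (nat_lit 4) (nat_lit 55) (nat_lit 4) (nat_lit 492) (nat_lit 445) (nat_lit 263)))) (XT.nd (nat_lit 156) (nat_lit 228) (nat_lit 0) (XT.nd (nat_lit 78) (nat_lit 76) (nat_lit 0) (XT.lf (nat_lit 0) (nat_lit 59604797182) (nat_lit 152) (nat_lit 513538789148) (nat_lit 76) (nat_lit 673938847765) (nat_lit 53) (nat_lit 5) (nat_lit 55) (nat_lit 5) (nat_lit 54) (nat_lit 4) (nat_lit 493) (nat_lit 445) (nat_lit 262)) (XT.lf (nat_lit 0) (nat_lit 661857247702) (nat_lit 152) (nat_lit 596289512747) (nat_lit 0) (nat_lit 56401381625) (nat_lit 52) (nat_lit 5) (nat_lit 54) (nat_lit 4) (nat_lit 52) (nat_lit 4) (nat_lit 494) (nat_lit 445) (nat_lit 261))) (XT.nd (nat_lit 78) (nat_lit 152) (nat_lit 0) (XT.lf (nat_lit 0) (nat_lit 692321900300) (nat_lit 76) (nat_lit 649533416546)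 (nat_lit 76) (nat_lit 44077518717) (nat_lit 51) (nat_lit 4) (nat_lit 52) (nat_lit 5) (nat_lit 52) (nat_lit 4) (nat_lit 495) (nat_lit 445) (nat_lit 260)) (XT.lf (nat_lit 0) (nat_lit 614984469691) (nat_lit 152) (nat_lit 808136021263) (nat_lit 0) (nat_lit 38359777092) (nat_lit 49) (nat_lit 5) (nat_lit 51) (nat_lit 4) (nat_lit 49) (nat_lit 4) (nat_lit 496) (nat_lit 445) (nat_lit 259)))))) (XT.nd (nat_lit 58656) (nat_lit 0) (nat_lit 7980) (XT.nd (nat_lit 312) (nat_lit 152) (nat_lit 0) (XT.nd (nat_lit 156) (nat_lit 228) (nat_lit 0) (XT.nd (nat_lit 78) (nat_lit 152) (nat_lit 0) (XT.lf (nat_lit 0) (nat_lit 597589941040) (nat_lit 76) (nat_lit 760220489868) (nat_lit 76) (nat_lit 183595771343) (nat_lit 48) (nat_lit 4) (nat_lit 49) (nat_lit 5) (nat_lit 49) (nat_lit 4) (nat_lit 497) (nat_lit 445) (nat_lit 258)) (XT.lf (nat_lit 0) (nat_lit 525899817873) (nat_lit 76) (nat_lit 11917040860) (nat_lit 152) (nat_lit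 1088367855135) (nat_lit 46) (nat_lit 5) (nat_lit 47) (nat_lit 5) (nat_lit 48) (nat_lit 4) (nat_lit 498) (nat_lit 445) (nat_lit 257))) (XT.nd (nat_lit 78) (nat_lit 152) (nat_lit 0) (XT.lf (nat_lit 0) (nat_lit 427870500329) (nat_lit 76) (nat_lit 918547778168) (nat_lit 76) (nat_lit 369381335540) (nat_lit 45) (nat_lit 4) (nat_lit 46) (nat_lit 5) (nat_lit 46) (nat_lit 4) (nat_lit 499) (nat_lit 445) (nat_lit 256)) (XT.lf (nat_lit 0) (nat_lit 308960811815) (nat_lit 76) (nat_lit 109637858449) (nat_lit 152) (nat_lit 1392441964616) (nat_lit 43) (nat_lit 5) (nat_lit 44) (nat_lit 5) (nat_lit 45) (nat_lit 4) (nat_lit 500) (nat_lit 445) (nat_lit 255)))) (XT.nd (nat_lit 58188) (nat_lit 0) (nat_lit 9272) (XT.nd (nat_lit 78) (nat_lit 76) (nat_lit 0) (XT.lf (nat_lit 0) (nat_lit 153193112762) (nat_lit 76) (nat_lit 1140777990583) (nat_lit 76) (nat_lit 617762294985) (nat_lit 42) (nat_lit 4) (nat_lit 43) (nat_lit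 5) (nat_lit 43) (nat_lit 4) (nat_lit 501) (nat_lit 445) (nat_lit 254)) (XT.lf (nat_lit 0) (nat_lit 240328681000) (nat_lit 152) (nat_lit 30341915551) (nat_lit 76) (nat_lit 1748217968837) (nat_lit 41) (nat_lit 5) (nat_lit 43) (nat_lit 5) (nat_lit 42) (nat_lit 4) (nat_lit 502) (nat_lit 445) (nat_lit 253))) (XT.nd (nat_lit 78) (nat_lit 0) (nat_lit 76) (XT.lf (nat_lit 0) (nat_lit 30975624061) (nat_lit 836) (nat_lit 19493530613) (nat_lit 836) (nat_lit 19493530613) (nat_lit 163) (nat_lit 3) (nat_lit 174) (nat_lit 3) (nat_lit 174) (nat_lit 5) (nat_lit 446) (nat_lit 446) (nat_lit 308)) (XT.lf (nat_lit 0) (nat_lit 65748901694) (nat_lit 760) (nat_lit 70711935594) (nat_lit 836) (nat_lit 8995567528) (nat_lit 164) (nat_lit 5) (nat_lit 174) (nat_lit 5) (nat_lit 175) (nat_lit 5) (nat_lit 447) (nat_lit 446) (nat_lit 307))))) (XT.nd (nat_lit 312) (nat_lit 1368) (nat_lit 0) (XT.nd (nat_lit 156) (nat_lit 0) (nat_lit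 152) (XT.nd (nat_lit 78) (nat_lit 0) (nat_lit 76) (XT.lf (nat_lit 76) (nat_lit 47373574737) (nat_lit 0) (nat_lit 25608176750) (nat_lit 836) (nat_lit 78291601154) (nat_lit 165) (nat_lit 5) (nat_lit 164) (nat_lit 5) (nat_lit 175) (nat_lit 5) (nat_lit 448) (nat_lit 446) (nat_lit 306)) (XT.lf (nat_lit 76) (nat_lit 19057022093) (nat_lit 0) (nat_lit 64754571937) (nat_lit 836) (nat_lit 73593144060) (nat_lit 166) (nat_lit 5) (nat_lit 165) (nat_lit 5) (nat_lit 176) (nat_lit 5) (nat_lit 449) (nat_lit 446) (nat_lit 305))) (XT.nd (nat_lit 78) (nat_lit 0) (nat_lit 76) (XT.lf (nat_lit 0) (nat_lit 98637816954) (nat_lit 760) (nat_lit 9696455447) (nat_lit 836) (nat_lit 55535862360) (nat_lit 166) (nat_lit 5) (nat_lit 176) (nat_lit 5) (nat_lit 177) (nat_lit 5) (nat_lit 450) (nat_lit 446) (nat_lit 304)) (XT.lf (nat_lit 0) (nat_lit 118036303942) (nat_lit 760) (nat_lit 38530438649) (nat_lit 836) (nat_lit 14116712294)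 (nat_lit 167) (nat_lit 5) (nat_lit 177) (nat_lit 5) (nat_lit 178) (nat_lit 5) (nat_lit 451) (nat_lit 446) (nat_lit 303)))) (XT.nd (nat_lit 156) (nat_lit 912) (nat_lit 0) (XT.nd (nat_lit 78) (nat_lit 684) (nat_lit 0) (XT.lf (nat_lit 76) (nat_lit 109332841582) (nat_lit 0) (nat_lit 33358821979) (nat_lit 836) (nat_lit 35164927404) (nat_lit 168) (nat_lit 5) (nat_lit 167) (nat_lit 5) (nat_lit 178) (nat_lit 5) (nat_lit 452) (nat_lit 446) (nat_lit 302)) (XT.lf (nat_lit 0) (nat_lit 86016116290) (nat_lit 760) (nat_lit 86884790261) (nat_lit 836) (nat_lit 12523598676) (nat_lit 158) (nat_lit 5) (nat_lit 168) (nat_lit 5) (nat_lit 169) (nat_lit 5) (nat_lit 453) (nat_lit 446) (nat_lit 301))) (XT.nd (nat_lit 78) (nat_lit 380) (nat_lit 0) (XT.lf (nat_lit 0) (nat_lit 15068862179) (nat_lit 532) (nat_lit 131133745678) (nat_lit 76) (nat_lit 47209851040) (nat_lit 151) (nat_lit 5) (nat_lit 158) (nat_lit 5) (nat_lit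 152) (nat_lit 5) (nat_lit 454) (nat_lit 446) (nat_lit 300)) (XT.lf (nat_lit 0) (nat_lit 38009378220) (nat_lit 380) (nat_lit 10244603562) (nat_lit 456) (nat_lit 153584000465) (nat_lit 146) (nat_lit 5) (nat_lit 151) (nat_lit 5) (nat_lit 152) (nat_lit 5) (nat_lit 455) (nat_lit 446) (nat_lit 299))))))) (XT.nd (nat_lit 1248) (nat_lit 2280) (nat_lit 0) (XT.nd (nat_lit 624) (nat_lit 1672) (nat_lit 0) (XT.nd (nat_lit 312) (nat_lit 1216) (nat_lit 0) (XT.nd (nat_lit 156) (nat_lit 684) (nat_lit 0) (XT.nd (nat_lit 78) (nat_lit 0) (nat_lit 0) (XT.lf (nat_lit 0) (nat_lit 12782146005) (nat_lit 380) (nat_lit 75965290157) (nat_lit 456) (nat_lit 121957435066) (nat_lit 141) (nat_lit 5) (nat_lit 146) (nat_lit 5) (nat_lit 147) (nat_lit 5) (nat_lit 456) (nat_lit 446) (nat_lit 298)) (XT.lf (nat_lit 0) (nat_lit 136654322940) (nat_lit 456) (nat_lit 12087178495) (nat_lit 76) (nat_lit 71330912108) (nat_lit 141) (nat_lit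 5) (nat_lit 147) (nat_lit 5) (nat_lit 142) (nat_lit 5) (nat_lit 457) (nat_lit 446) (nat_lit 297))) (XT.nd (nat_lit 78) (nat_lit 380) (nat_lit 0) (XT.lf (nat_lit 0) (nat_lit 192708916350) (nat_lit 380) (nat_lit 36459137163) (nat_lit 76) (nat_lit 805547963) (nat_lit 137) (nat_lit 5) (nat_lit 142) (nat_lit 5) (nat_lit 138) (nat_lit 5) (nat_lit 458) (nat_lit 446) (nat_lit 296)) (XT.lf (nat_lit 0) (nat_lit 17777987233) (nat_lit 380) (nat_lit 62135987267) (nat_lit 76) (nat_lit 160463105491) (nat_lit 132) (nat_lit 5) (nat_lit 137) (nat_lit 5) (nat_lit 133) (nat_lit 5) (nat_lit 459) (nat_lit 446) (nat_lit 295)))) (XT.nd (nat_lit 156) (nat_lit 608) (nat_lit 0) (XT.nd (nat_lit 78) (nat_lit 304) (nat_lit 0) (XT.lf (nat_lit 0) (nat_lit 80480938369) (nat_lit 380) (nat_lit 88289771057) (nat_lit 76) (nat_lit 82583460652) (nat_lit 128) (nat_lit 5) (nat_lit 133) (nat_lit 5) (nat_lit 129) (nat_lit 5) (nat_lit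 460) (nat_lit 446) (nat_lit 294)) (XT.lf (nat_lit 0) (nat_lit 148739422800) (nat_lit 304) (nat_lit 4230321197) (nat_lit 380) (nat_lit 110001202468) (nat_lit 124) (nat_lit 5) (nat_lit 128) (nat_lit 5) (nat_lit 129) (nat_lit 5) (nat_lit 461) (nat_lit 446) (nat_lit 293))) (XT.nd (nat_lit 78) (nat_lit 380) (nat_lit 0) (XT.lf (nat_lit 0) (nat_lit 133998466285) (nat_lit 228) (nat_lit 103622629527) (nat_lit 304) (nat_lit 37577797076) (nat_lit 121) (nat_lit 5) (nat_lit 124) (nat_lit 5) (nat_lit 125) (nat_lit 5) (nat_lit 462) (nat_lit 446) (nat_lit 292)) (XT.lf (nat_lit 0) (nat_lit 44534096543) (nat_lit 380) (nat_lit 168392624112) (nat_lit 76) (nat_lit 75186862922) (nat_lit 116) (nat_lit 5) (nat_lit 121) (nat_lit 5) (nat_lit 117) (nat_lit 5) (nat_lit 463) (nat_lit 446) (nat_lit 291))))) (XT.nd (nat_lit 312) (nat_lit 760) (nat_lit 0) (XT.nd (nat_lit 156) (nat_lit 456) (nat_lit 0) (XT.nd (nat_lit 78) (nat_lit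 228) (nat_lit 0) (XT.lf (nat_lit 0) (nat_lit 105577448916) (nat_lit 228) (nat_lit 32233920434) (nat_lit 304) (nat_lit 163923630175) (nat_lit 113) (nat_lit 5) (nat_lit 116) (nat_lit 5) (nat_lit 117) (nat_lit 5) (nat_lit 464) (nat_lit 446) (nat_lit 290)) (XT.lf (nat_lit 0) (nat_lit 91516084866) (nat_lit 228) (nat_lit 153988298608) (nat_lit 304) (nat_lit 70594067311) (nat_lit 110) (nat_lit 5) (nat_lit 113) (nat_lit 5) (nat_lit 114) (nat_lit 5) (nat_lit 465) (nat_lit 446) (nat_lit 289))) (XT.nd (nat_lit 78) (nat_lit 228) (nat_lit 0) (XT.lf (nat_lit 0) (nat_lit 35187135289) (nat_lit 228) (nat_lit 252790513785) (nat_lit 76) (nat_lit 43312156152) (nat_lit 107) (nat_lit 5) (nat_lit 110) (nat_lit 5) (nat_lit 108) (nat_lit 5) (nat_lit 466) (nat_lit 446) (nat_lit 288)) (XT.lf (nat_lit 0) (nat_lit 64561485198) (nat_lit 228) (nat_lit 90009689512) (nat_lit 304) (nat_lit 192686748687) (nat_lit 104) (nat_lit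 5) (nat_lit 107) (nat_lit 5) (nat_lit 108) (nat_lit 5) (nat_lit 467) (nat_lit 446) (nat_lit 287)))) (XT.nd (nat_lit 156) (nat_lit 304) (nat_lit 0) (XT.nd (nat_lit 78) (nat_lit 304) (nat_lit 0) (XT.lf (nat_lit 0) (nat_lit 51694700114) (nat_lit 152) (nat_lit 239026602750) (nat_lit 228) (nat_lit 73421419887) (nat_lit 102) (nat_lit 5) (nat_lit 104) (nat_lit 5) (nat_lit 105) (nat_lit 5) (nat_lit 468) (nat_lit 446) (nat_lit 286)) (XT.lf (nat_lit 0) (nat_lit 39604195768) (nat_lit 228) (nat_lit 21149285822) (nat_lit 304) (nat_lit 321224537781) (nat_lit 98) (nat_lit 5) (nat_lit 101) (nat_lit 5) (nat_lit 102) (nat_lit 5) (nat_lit 469) (nat_lit 446) (nat_lit 285))) (XT.nd (nat_lit 78) (nat_lit 152) (nat_lit 0) (XT.lf (nat_lit 0) (nat_lit 26176717909) (nat_lit 152) (nat_lit 186231732043) (nat_lit 228) (nat_lit 188305588099) (nat_lit 96) (nat_lit 5) (nat_lit 98) (nat_lit 5) (nat_lit 99) (nat_lit 5) (nat_lit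 470) (nat_lit 446) (nat_lit 284)) (XT.lf (nat_lit 0) (nat_lit 15082034702) (nat_lit 152) (nat_lit 368500096607) (nat_lit 228) (nat_lit 36997491145) (nat_lit 94) (nat_lit 5) (nat_lit 96) (nat_lit 5) (nat_lit 97) (nat_lit 5) (nat_lit 471) (nat_lit 446) (nat_lit 283)))))) (XT.nd (nat_lit 624) (nat_lit 1064) (nat_lit 0) (XT.nd (nat_lit 312) (nat_lit 608) (nat_lit 0) (XT.nd (nat_lit 156) (nat_lit 380) (nat_lit 0) (XT.nd (nat_lit 78) (nat_lit 0) (nat_lit 0) (XT.lf (nat_lit 0) (nat_lit 2392788676) (nat_lit 152) (nat_lit 129784962173) (nat_lit 228) (nat_lit 309267589202) (nat_lit 91) (nat_lit 5) (nat_lit 93) (nat_lit 5) (nat_lit 94) (nat_lit 5) (nat_lit 472) (nat_lit 446) (nat_lit 282)) (XT.lf (nat_lit 0) (nat_lit 322786159744) (nat_lit 228) (nat_lit 8971297136) (nat_lit 76) (nat_lit 131732764397) (nat_lit 91) (nat_lit 5) (nat_lit 94) (nat_lit 5) (nat_lit 92) (nat_lit 5) (nat_lit 473) (nat_lit 446) (nat_lit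 281))) (XT.nd (nat_lit 78) (nat_lit 152) (nat_lit 0) (XT.lf (nat_lit 0) (nat_lit 49677026160) (nat_lit 228) (nat_lit 19308039590) (nat_lit 76) (nat_lit 417798563963) (nat_lit 88) (nat_lit 5) (nat_lit 91) (nat_lit 5) (nat_lit 89) (nat_lit 5) (nat_lit 474) (nat_lit 446) (nat_lit 280)) (XT.lf (nat_lit 0) (nat_lit 261651861765) (nat_lit 228) (nat_lit 31429055684) (nat_lit 76) (nat_lit 218179619892) (nat_lit 86) (nat_lit 5) (nat_lit 89) (nat_lit 5) (nat_lit 87) (nat_lit 5) (nat_lit 475) (nat_lit 446) (nat_lit 279)))) (XT.nd (nat_lit 156) (nat_lit 304) (nat_lit 0) (XT.nd (nat_lit 78) (nat_lit 152) (nat_lit 0) (XT.lf (nat_lit 0) (nat_lit 496639498580) (nat_lit 152) (nat_lit 3204063110) (nat_lit 228) (nat_lit 37389092017) (nat_lit 84) (nat_lit 5) (nat_lit 86) (nat_lit 5) (nat_lit 87) (nat_lit 5) (nat_lit 476) (nat_lit 446) (nat_lit 278)) (XT.lf (nat_lit 0) (nat_lit 199315098155) (nat_lit 152) (nat_lit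 53387053046) (nat_lit 76) (nat_lit 311748350336) (nat_lit 82) (nat_lit 5) (nat_lit 84) (nat_lit 5) (nat_lit 83) (nat_lit 5) (nat_lit 477) (nat_lit 446) (nat_lit 277))) (XT.nd (nat_lit 78) (nat_lit 152) (nat_lit 0) (XT.lf (nat_lit 0) (nat_lit 463785465638) (nat_lit 228) (nat_lit 63640034226) (nat_lit 76) (nat_lit 65882641845) (nat_lit 80) (nat_lit 5) (nat_lit 83) (nat_lit 5) (nat_lit 81) (nat_lit 4) (nat_lit 478) (nat_lit 446) (nat_lit 276)) (XT.lf (nat_lit 0) (nat_lit 134962363948) (nat_lit 152) (nat_lit 75782482721) (nat_lit 76) (nat_lit 412930907730) (nat_lit 78) (nat_lit 5) (nat_lit 80) (nat_lit 5) (nat_lit 79) (nat_lit 5) (nat_lit 479) (nat_lit 446) (nat_lit 275))))) (XT.nd (nat_lit 312) (nat_lit 532) (nat_lit 0) (XT.nd (nat_lit 156) (nat_lit 228) (nat_lit 0) (XT.nd (nat_lit 78) (nat_lit 152) (nat_lit 0) (XT.lf (nat_lit 0) (nat_lit 428408652863) (nat_lit 228) (nat_lit 87858013747) (nat_lit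 76) (nat_lit 139482928900) (nat_lit 76) (nat_lit 5) (nat_lit 79) (nat_lit 5) (nat_lit 77) (nat_lit 4) (nat_lit 480) (nat_lit 446) (nat_lit 274)) (XT.lf (nat_lit 0) (nat_lit 67533120442) (nat_lit 152) (nat_lit 99997106638) (nat_lit 76) (nat_lit 522098713239) (nat_lit 74) (nat_lit 5) (nat_lit 76) (nat_lit 5) (nat_lit 75) (nat_lit 5) (nat_lit 481) (nat_lit 446) (nat_lit 273))) (XT.nd (nat_lit 78) (nat_lit 76) (nat_lit 0) (XT.lf (nat_lit 0) (nat_lit 392792357905) (nat_lit 228) (nat_lit 114867092807) (nat_lit 76) (nat_lit 217634828540) (nat_lit 72) (nat_lit 5) (nat_lit 75) (nat_lit 5) (nat_lit 73) (nat_lit 4) (nat_lit 482) (nat_lit 446) (nat_lit 272)) (XT.lf (nat_lit 0) (nat_lit 635000937145) (nat_lit 76) (nat_lit 123580754480) (nat_lit 152) (nat_lit 4505685812) (nat_lit 71) (nat_lit 5) (nat_lit 72) (nat_lit 5) (nat_lit 73) (nat_lit 4) (nat_lit 483) (nat_lit 446) (nat_lit 271)))) (XT.nd (nat_lit 156)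 (nat_lit 228) (nat_lit 0) (XT.nd (nat_lit 78) (nat_lit 76) (nat_lit 0) (XT.lf (nat_lit 0) (nat_lit 355726277339) (nat_lit 228) (nat_lit 147038871594) (nat_lit 76) (nat_lit 300006282041) (nat_lit 68) (nat_lit 5) (nat_lit 71) (nat_lit 5) (nat_lit 69) (nat_lit 4) (nat_lit 484) (nat_lit 446) (nat_lit 270)) (XT.lf (nat_lit 0) (nat_lit 680909188188) (nat_lit 76) (nat_lit 78694232977) (nat_lit 152) (nat_lit 85273870399) (nat_lit 67) (nat_lit 5) (nat_lit 68) (nat_lit 5) (nat_lit 69) (nat_lit 4) (nat_lit 485) (nat_lit 446) (nat_lit 269))) (XT.nd (nat_lit 78) (nat_lit 76) (nat_lit 0) (XT.lf (nat_lit 0) (nat_lit 315543787296) (nat_lit 152) (nat_lit 187685620765) (nat_lit 76) (nat_lit 385889743361) (nat_lit 65) (nat_lit 5) (nat_lit 67) (nat_lit 5) (nat_lit 66) (nat_lit 4) (nat_lit 486) (nat_lit 446) (nat_lit 268)) (XT.lf (nat_lit 0) (nat_lit 725576182003) (nat_lit 76) (nat_lit 35461201499) (nat_lit 152)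 (nat_lit 175013174607) (nat_lit 64) (nat_lit 5) (nat_lit 65) (nat_lit 5) (nat_lit 66) (nat_lit 4) (nat_lit 487) (nat_lit 446) (nat_lit 267))))))))
noncomputable def xc106 : XT := (XT.nd (nat_lit 60528) (nat_lit 0) (nat_lit 988) (XT.nd (nat_lit 59280) (nat_lit 0) (nat_lit 6232) (XT.nd (nat_lit 546) (nat_lit 836) (nat_lit 0) (XT.nd (nat_lit 234) (nat_lit 456) (nat_lit 0) (XT.nd (nat_lit 78) (nat_lit 228) (nat_lit 0) (XT.lf (nat_lit 0) (nat_lit 269969217220) (nat_lit 152) (nat_lit 241373122303) (nat_lit 76) (nat_lit 474059200285) (nat_lit 62) (nat_lit 5) (nat_lit 64) (nat_lit 5) (nat_lit 63) (nat_lit 4) (nat_lit 488) (nat_lit 446) (nat_lit 266)) (XT.nd (nat_lit 78) (nat_lit 152) (nat_lit 0) (XT.lf (nat_lit 0) (nat_lit 760827216811) (nat_lit 152) (nat_lit 273044257262) (nat_lit 0) (nat_lit 3865241273) (nat_lit 61) (nat_lit 5) (nat_lit 63) (nat_lit 4) (nat_lit 61) (nat_lit 4) (nat_lit 489) (nat_lit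 446) (nat_lit 265)) (XT.lf (nat_lit 0) (nat_lit 215918515145) (nat_lit 152) (nat_lit 314329069498) (nat_lit 76) (nat_lit 562581630310) (nat_lit 59) (nat_lit 5) (nat_lit 61) (nat_lit 5) (nat_lit 60) (nat_lit 4) (nat_lit 490) (nat_lit 446) (nat_lit 264)))) (XT.nd (nat_lit 156) (nat_lit 228) (nat_lit 0) (XT.nd (nat_lit 78) (nat_lit 152) (nat_lit 0) (XT.lf (nat_lit 0) (nat_lit 756379303356) (nat_lit 152) (nat_lit 359364387052) (nat_lit 0) (nat_lit 35463044452) (nat_lit 58) (nat_lit 5) (nat_lit 60) (nat_lit 4) (nat_lit 58) (nat_lit 4) (nat_lit 491) (nat_lit 446) (nat_lit 263)) (XT.lf (nat_lit 0) (nat_lit 149239576425) (nat_lit 152) (nat_lit 414975168065) (nat_lit 76) (nat_lit 648569280587) (nat_lit 56) (nat_lit 5) (nat_lit 58) (nat_lit 5) (nat_lit 57) (nat_lit 4) (nat_lit 492) (nat_lit 446) (nat_lit 262))) (XT.nd (nat_lit 78) (nat_lit 152) (nat_lit 0) (XT.lf (nat_lit 0) (nat_lit 742949994612) (nat_lit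 152) (nat_lit 478653324406) (nat_lit 0) (nat_lit 56363006474) (nat_lit 55) (nat_lit 5) (nat_lit 57) (nat_lit 4) (nat_lit 55) (nat_lit 4) (nat_lit 493) (nat_lit 446) (nat_lit 261)) (XT.lf (nat_lit 0) (nat_lit 64374531443) (nat_lit 152) (nat_lit 554619232018) (nat_lit 76) (nat_lit 727855197827) (nat_lit 53) (nat_lit 5) (nat_lit 55) (nat_lit 5) (nat_lit 54) (nat_lit 4) (nat_lit 494) (nat_lit 446) (nat_lit 260))))) (XT.nd (nat_lit 312) (nat_lit 456) (nat_lit 0) (XT.nd (nat_lit 156) (nat_lit 228) (nat_lit 0) (XT.nd (nat_lit 78) (nat_lit 76) (nat_lit 0) (XT.lf (nat_lit 0) (nat_lit 714807137283) (nat_lit 152) (nat_lit 643990084184) (nat_lit 0) (nat_lit 60914706475) (nat_lit 52) (nat_lit 5) (nat_lit 54) (nat_lit 4) (nat_lit 52) (nat_lit 4) (nat_lit 495) (nat_lit 446) (nat_lit 259)) (XT.lf (nat_lit 0) (nat_lit 747710129367) (nat_lit 76) (nat_lit 701494864246) (nat_lit 76) (nat_lit 47602406216) (nat_lit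 51) (nat_lit 4) (nat_lit 52) (nat_lit 5) (nat_lit 52) (nat_lit 4) (nat_lit 496) (nat_lit 446) (nat_lit 258))) (XT.nd (nat_lit 78) (nat_lit 76) (nat_lit 0) (XT.lf (nat_lit 0) (nat_lit 664184461259) (nat_lit 152) (nat_lit 872784451205) (nat_lit 0) (nat_lit 41429715319) (nat_lit 49) (nat_lit 5) (nat_lit 51) (nat_lit 4) (nat_lit 49) (nat_lit 4) (nat_lit 497) (nat_lit 446) (nat_lit 257)) (XT.lf (nat_lit 0) (nat_lit 645399481532) (nat_lit 76) (nat_lit 821036963050) (nat_lit 76) (nat_lit 198282194883) (nat_lit 48) (nat_lit 4) (nat_lit 49) (nat_lit 5) (nat_lit 49) (nat_lit 4) (nat_lit 498) (nat_lit 446) (nat_lit 256)))) (XT.nd (nat_lit 156) (nat_lit 228) (nat_lit 0) (XT.nd (nat_lit 78) (nat_lit 76) (nat_lit 0) (XT.lf (nat_lit 0) (nat_lit 567974084505) (nat_lit 76) (nat_lit 12869268301) (nat_lit 152) (nat_lit 1175436080896) (nat_lit 46) (nat_lit 5) (nat_lit 47) (nat_lit 5) (nat_lit 48) (nat_lit 4) (nat_lit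 499) (nat_lit 446) (nat_lit 255)) (XT.lf (nat_lit 0) (nat_lit 462102360242) (nat_lit 76) (nat_lit 992030492145) (nat_lit 76) (nat_lit 398930675187) (nat_lit 45) (nat_lit 4) (nat_lit 46) (nat_lit 5) (nat_lit 46) (nat_lit 4) (nat_lit 500) (nat_lit 446) (nat_lit 254))) (XT.nd (nat_lit 78) (nat_lit 76) (nat_lit 0) (XT.lf (nat_lit 0) (nat_lit 333679835913) (nat_lit 76) (nat_lit 118407807830) (nat_lit 152) (nat_lit 1503836187929) (nat_lit 43) (nat_lit 5) (nat_lit 44) (nat_lit 5) (nat_lit 45) (nat_lit 4) (nat_lit 501) (nat_lit 446) (nat_lit 253)) (XT.lf (nat_lit 0) (nat_lit 165450662634) (nat_lit 76) (nat_lit 1232039177249) (nat_lit 76) (nat_lit 667182177895) (nat_lit 42) (nat_lit 4) (nat_lit 43) (nat_lit 5) (nat_lit 43) (nat_lit 4) (nat_lit 502) (nat_lit 446) (nat_lit 252)))))) (XT.nd (nat_lit 624) (nat_lit 2584) (nat_lit 0) (XT.nd (nat_lit 312) (nat_lit 380) (nat_lit 0) (XT.nd (nat_lit 156) (nat_lit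 0) (nat_lit 76) (XT.nd (nat_lit 78) (nat_lit 0) (nat_lit 76) (XT.lf (nat_lit 0) (nat_lit 33458714466) (nat_lit 836) (nat_lit 21050366615) (nat_lit 836) (nat_lit 21050366615) (nat_lit 163) (nat_lit 3) (nat_lit 174) (nat_lit 3) (nat_lit 174) (nat_lit 5) (nat_lit 447) (nat_lit 447) (nat_lit 306)) (XT.lf (nat_lit 0) (nat_lit 71018159176) (nat_lit 760) (nat_lit 76363288265) (nat_lit 836) (nat_lit 9711001773) (nat_lit 164) (nat_lit 5) (nat_lit 174) (nat_lit 5) (nat_lit 175) (nat_lit 5) (nat_lit 448) (nat_lit 447) (nat_lit 305))) (XT.nd (nat_lit 78) (nat_lit 0) (nat_lit 76) (XT.lf (nat_lit 76) (nat_lit 51168819428) (nat_lit 0) (nat_lit 27660208941) (nat_lit 836) (nat_lit 84545754978) (nat_lit 165) (nat_lit 5) (nat_lit 164) (nat_lit 5) (nat_lit 175) (nat_lit 5) (nat_lit 449) (nat_lit 447) (nat_lit 304)) (XT.lf (nat_lit 76) (nat_lit 20587178630) (nat_lit 0) (nat_lit 69937471034) (nat_lit 836) (nat_lit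 79472060450) (nat_lit 166) (nat_lit 5) (nat_lit 165) (nat_lit 5) (nat_lit 176) (nat_lit 5) (nat_lit 450) (nat_lit 447) (nat_lit 303)))) (XT.nd (nat_lit 156) (nat_lit 608) (nat_lit 0) (XT.nd (nat_lit 78) (nat_lit 0) (nat_lit 76) (XT.lf (nat_lit 0) (nat_lit 106536331716) (nat_lit 760) (nat_lit 10466578044) (nat_lit 836) (nat_lit 59976460739) (nat_lit 166) (nat_lit 5) (nat_lit 176) (nat_lit 5) (nat_lit 177) (nat_lit 5) (nat_lit 451) (nat_lit 447) (nat_lit 302)) (XT.lf (nat_lit 0) (nat_lit 127486200399) (nat_lit 760) (nat_lit 41607145532) (nat_lit 836) (nat_lit 15244435207) (nat_lit 167) (nat_lit 5) (nat_lit 177) (nat_lit 5) (nat_lit 178) (nat_lit 5) (nat_lit 452) (nat_lit 447) (nat_lit 301))) (XT.nd (nat_lit 78) (nat_lit 684) (nat_lit 0) (XT.lf (nat_lit 76) (nat_lit 118084948176) (nat_lit 0) (nat_lit 36028608221) (nat_lit 836) (nat_lit 37971233366) (nat_lit 168) (nat_lit 5) (nat_lit 167) (nat_lit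 5) (nat_lit 178) (nat_lit 5) (nat_lit 453) (nat_lit 447) (nat_lit 300)) (XT.lf (nat_lit 0) (nat_lit 92902977078) (nat_lit 760) (nat_lit 93836147209) (nat_lit 836) (nat_lit 13519033644) (nat_lit 158) (nat_lit 5) (nat_lit 168) (nat_lit 5) (nat_lit 169) (nat_lit 5) (nat_lit 454) (nat_lit 447) (nat_lit 299))))) (XT.nd (nat_lit 312) (nat_lit 1292) (nat_lit 0) (XT.nd (nat_lit 156) (nat_lit 380) (nat_lit 0) (XT.nd (nat_lit 78) (nat_lit 380) (nat_lit 0) (XT.lf (nat_lit 0) (nat_lit 16280235797) (nat_lit 532) (nat_lit 141618618756) (nat_lit 76) (nat_lit 50986307424) (nat_lit 151) (nat_lit 5) (nat_lit 158) (nat_lit 5) (nat_lit 152) (nat_lit 5) (nat_lit 455) (nat_lit 447) (nat_lit 298)) (XT.lf (nat_lit 0) (nat_lit 41055701839) (nat_lit 380) (nat_lit 11064115728) (nat_lit 456) (nat_lit 165864927029) (nat_lit 146) (nat_lit 5) (nat_lit 151) (nat_lit 5) (nat_lit 152) (nat_lit 5) (nat_lit 456) (nat_lit 447) (nat_lit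 297))) (XT.nd (nat_lit 78) (nat_lit 0) (nat_lit 0) (XT.lf (nat_lit 0) (nat_lit 13810312224) (nat_lit 380) (nat_lit 82042115545) (nat_lit 456) (nat_lit 131708572979) (nat_lit 141) (nat_lit 5) (nat_lit 146) (nat_lit 5) (nat_lit 147) (nat_lit 5) (nat_lit 457) (nat_lit 447) (nat_lit 296)) (XT.lf (nat_lit 0) (nat_lit 147591486299) (nat_lit 456) (nat_lit 13048737490) (nat_lit 76) (nat_lit 77037741643) (nat_lit 141) (nat_lit 5) (nat_lit 147) (nat_lit 5) (nat_lit 142) (nat_lit 5) (nat_lit 458) (nat_lit 447) (nat_lit 295)))) (XT.nd (nat_lit 156) (nat_lit 608) (nat_lit 0) (XT.nd (nat_lit 78) (nat_lit 380) (nat_lit 0) (XT.lf (nat_lit 0) (nat_lit 208130181168) (nat_lit 380) (nat_lit 39370470789) (nat_lit 76) (nat_lit 870609767) (nat_lit 137) (nat_lit 5) (nat_lit 142) (nat_lit 5) (nat_lit 138) (nat_lit 5) (nat_lit 459) (nat_lit 447) (nat_lit 294)) (XT.lf (nat_lit 0) (nat_lit 19204591852) (nat_lit 380) (nat_lit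 67101558857) (nat_lit 76) (nat_lit 173300877141) (nat_lit 132) (nat_lit 5) (nat_lit 137) (nat_lit 5) (nat_lit 133) (nat_lit 5) (nat_lit 460) (nat_lit 447) (nat_lit 293))) (XT.nd (nat_lit 78) (nat_lit 304) (nat_lit 0) (XT.lf (nat_lit 0) (nat_lit 86923549874) (nat_lit 380) (nat_lit 95347684599) (nat_lit 76) (nat_lit 89191062149) (nat_lit 128) (nat_lit 5) (nat_lit 133) (nat_lit 5) (nat_lit 129) (nat_lit 5) (nat_lit 461) (nat_lit 447) (nat_lit 292)) (XT.lf (nat_lit 0) (nat_lit 160643615819) (nat_lit 304) (nat_lit 4567616406) (nat_lit 380) (nat_lit 118797194299) (nat_lit 124) (nat_lit 5) (nat_lit 128) (nat_lit 5) (nat_lit 129) (nat_lit 5) (nat_lit 462) (nat_lit 447) (nat_lit 291))))))) (XT.nd (nat_lit 1248) (nat_lit 2052) (nat_lit 0) (XT.nd (nat_lit 624) (nat_lit 1216) (nat_lit 0) (XT.nd (nat_lit 312) (nat_lit 912) (nat_lit 0) (XT.nd (nat_lit 156) (nat_lit 456) (nat_lit 0) (XT.nd (nat_lit 78) (nat_lit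 380) (nat_lit 0) (XT.lf (nat_lit 0) (nat_lit 144723334057) (nat_lit 228) (nat_lit 111911162852) (nat_lit 304) (nat_lit 40580121532) (nat_lit 121) (nat_lit 5) (nat_lit 124) (nat_lit 5) (nat_lit 125) (nat_lit 5) (nat_lit 463) (nat_lit 447) (nat_lit 290)) (XT.lf (nat_lit 0) (nat_lit 48100416215) (nat_lit 380) (nat_lit 181858982776) (nat_lit 76) (nat_lit 81203091494) (nat_lit 116) (nat_lit 5) (nat_lit 121) (nat_lit 5) (nat_lit 117) (nat_lit 5) (nat_lit 464) (nat_lit 447) (nat_lit 289))) (XT.nd (nat_lit 78) (nat_lit 228) (nat_lit 0) (XT.lf (nat_lit 0) (nat_lit 114028476573) (nat_lit 228) (nat_lit 34811203641) (nat_lit 304) (nat_lit 177033949041) (nat_lit 113) (nat_lit 5) (nat_lit 116) (nat_lit 5) (nat_lit 117) (nat_lit 5) (nat_lit 465) (nat_lit 447) (nat_lit 288)) (XT.lf (nat_lit 0) (nat_lit 98842134891) (nat_lit 228) (nat_lit 166305843673) (nat_lit 304) (nat_lit 76238185908) (nat_lit 110) (nat_lit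 5) (nat_lit 113) (nat_lit 5) (nat_lit 114) (nat_lit 5) (nat_lit 466) (nat_lit 447) (nat_lit 287)))) (XT.nd (nat_lit 156) (nat_lit 456) (nat_lit 0) (XT.nd (nat_lit 78) (nat_lit 228) (nat_lit 0) (XT.lf (nat_lit 0) (nat_lit 38005256308) (nat_lit 228) (nat_lit 273008961723) (nat_lit 76) (nat_lit 46778613967) (nat_lit 107) (nat_lit 5) (nat_lit 110) (nat_lit 5) (nat_lit 108) (nat_lit 5) (nat_lit 467) (nat_lit 447) (nat_lit 286)) (XT.lf (nat_lit 0) (nat_lit 69730988874) (nat_lit 228) (nat_lit 97208868243) (nat_lit 304) (nat_lit 208098550604) (nat_lit 104) (nat_lit 5) (nat_lit 107) (nat_lit 5) (nat_lit 108) (nat_lit 5) (nat_lit 468) (nat_lit 447) (nat_lit 285))) (XT.nd (nat_lit 78) (nat_lit 304) (nat_lit 0) (XT.lf (nat_lit 0) (nat_lit 55834780938) (nat_lit 152) (nat_lit 258147086630) (nat_lit 228) (nat_lit 79292129861) (nat_lit 102) (nat_lit 5) (nat_lit 104) (nat_lit 5) (nat_lit 105) (nat_lit 5) (nat_lit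 469) (nat_lit 447) (nat_lit 284)) (XT.lf (nat_lit 0) (nat_lit 42776932534) (nat_lit 228) (nat_lit 22839588410) (nat_lit 304) (nat_lit 346919601831) (nat_lit 98) (nat_lit 5) (nat_lit 101) (nat_lit 5) (nat_lit 102) (nat_lit 5) (nat_lit 470) (nat_lit 447) (nat_lit 283))))) (XT.nd (nat_lit 312) (nat_lit 684) (nat_lit 0) (XT.nd (nat_lit 156) (nat_lit 228) (nat_lit 0) (XT.nd (nat_lit 78) (nat_lit 152) (nat_lit 0) (XT.lf (nat_lit 0) (nat_lit 28275172825) (nat_lit 152) (nat_lit 201128600565) (nat_lit 228) (nat_lit 203367255236) (nat_lit 96) (nat_lit 5) (nat_lit 98) (nat_lit 5) (nat_lit 99) (nat_lit 5) (nat_lit 471) (nat_lit 447) (nat_lit 282)) (XT.lf (nat_lit 0) (nat_lit 16292829099) (nat_lit 152) (nat_lit 397978414260) (nat_lit 228) (nat_lit 39954621725) (nat_lit 94) (nat_lit 5) (nat_lit 96) (nat_lit 5) (nat_lit 97) (nat_lit 5) (nat_lit 472) (nat_lit 447) (nat_lit 281))) (XT.nd (nat_lit 78) (nat_lit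 0) (nat_lit 0) (XT.lf (nat_lit 0) (nat_lit 2588341275) (nat_lit 152) (nat_lit 140166086055) (nat_lit 228) (nat_lit 334006417025) (nat_lit 91) (nat_lit 5) (nat_lit 93) (nat_lit 5) (nat_lit 94) (nat_lit 5) (nat_lit 473) (nat_lit 447) (nat_lit 280)) (XT.lf (nat_lit 0) (nat_lit 348611351168) (nat_lit 228) (nat_lit 9685087682) (nat_lit 76) (nat_lit 142272885124) (nat_lit 91) (nat_lit 5) (nat_lit 94) (nat_lit 5) (nat_lit 92) (nat_lit 5) (nat_lit 474) (nat_lit 447) (nat_lit 279)))) (XT.nd (nat_lit 156) (nat_lit 304) (nat_lit 0) (XT.nd (nat_lit 78) (nat_lit 152) (nat_lit 0) (XT.lf (nat_lit 0) (nat_lit 53653410983) (nat_lit 228) (nat_lit 20848866040) (nat_lit 76) (nat_lit 451223931867) (nat_lit 88) (nat_lit 5) (nat_lit 91) (nat_lit 5) (nat_lit 89) (nat_lit 5) (nat_lit 475) (nat_lit 447) (nat_lit 278)) (XT.lf (nat_lit 0) (nat_lit 282586149767) (nat_lit 228) (nat_lit 33939647455) (nat_lit 76) (nat_lit 235635476094)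 (nat_lit 86) (nat_lit 5) (nat_lit 89) (nat_lit 5) (nat_lit 87) (nat_lit 5) (nat_lit 476) (nat_lit 447) (nat_lit 277))) (XT.nd (nat_lit 78) (nat_lit 152) (nat_lit 0) (XT.lf (nat_lit 0) (nat_lit 536374228932) (nat_lit 152) (nat_lit 3458854050) (nat_lit 228) (nat_lit 40378081148) (nat_lit 84) (nat_lit 5) (nat_lit 86) (nat_lit 5) (nat_lit 87) (nat_lit 5) (nat_lit 477) (nat_lit 447) (nat_lit 276)) (XT.lf (nat_lit 0) (nat_lit 215262300402) (nat_lit 152) (nat_lit 57654461464) (nat_lit 76) (nat_lit 336689680024) (nat_lit 82) (nat_lit 5) (nat_lit 84) (nat_lit 5) (nat_lit 83) (nat_lit 5) (nat_lit 478) (nat_lit 447) (nat_lit 275)))))) (XT.nd (nat_lit 624) (nat_lit 912) (nat_lit 0) (XT.nd (nat_lit 312) (nat_lit 532) (nat_lit 0) (XT.nd (nat_lit 156) (nat_lit 304) (nat_lit 0) (XT.nd (nat_lit 78) (nat_lit 152) (nat_lit 0) (XT.lf (nat_lit 0) (nat_lit 500890226099) (nat_lit 228) (nat_lit 68727764081) (nat_lit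 76) (nat_lit 71154706661) (nat_lit 80) (nat_lit 5) (nat_lit 83) (nat_lit 5) (nat_lit 81) (nat_lit 4) (nat_lit 479) (nat_lit 447) (nat_lit 274)) (XT.lf (nat_lit 0) (nat_lit 145761215761) (nat_lit 152) (nat_lit 81841697754) (nat_lit 76) (nat_lit 445966808062) (nat_lit 78) (nat_lit 5) (nat_lit 80) (nat_lit 5) (nat_lit 79) (nat_lit 5) (nat_lit 480) (nat_lit 447) (nat_lit 273))) (XT.nd (nat_lit 78) (nat_lit 152) (nat_lit 0) (XT.lf (nat_lit 0) (nat_lit 462683143159) (nat_lit 228) (nat_lit 94883352325) (nat_lit 76) (nat_lit 150642977729) (nat_lit 76) (nat_lit 5) (nat_lit 79) (nat_lit 5) (nat_lit 77) (nat_lit 4) (nat_lit 481) (nat_lit 447) (nat_lit 272)) (XT.lf (nat_lit 0) (nat_lit 72937512408) (nat_lit 152) (nat_lit 107993658528) (nat_lit 76) (nat_lit 563867997459) (nat_lit 74) (nat_lit 5) (nat_lit 76) (nat_lit 5) (nat_lit 75) (nat_lit 5) (nat_lit 482) (nat_lit 447) (nat_lit 271)))) (XT.nd (nat_lit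 156) (nat_lit 304) (nat_lit 0) (XT.nd (nat_lit 78) (nat_lit 76) (nat_lit 0) (XT.lf (nat_lit 0) (nat_lit 424217429946) (nat_lit 228) (nat_lit 124053322387) (nat_lit 76) (nat_lit 235046985059) (nat_lit 72) (nat_lit 5) (nat_lit 75) (nat_lit 5) (nat_lit 73) (nat_lit 4) (nat_lit 483) (nat_lit 447) (nat_lit 270)) (XT.lf (nat_lit 0) (nat_lit 685804013594) (nat_lit 76) (nat_lit 133465818934) (nat_lit 152) (nat_lit 4864454798) (nat_lit 71) (nat_lit 5) (nat_lit 72) (nat_lit 5) (nat_lit 73) (nat_lit 4) (nat_lit 484) (nat_lit 447) (nat_lit 269))) (XT.nd (nat_lit 78) (nat_lit 76) (nat_lit 0) (XT.lf (nat_lit 0) (nat_lit 384185957522) (nat_lit 228) (nat_lit 158799002115) (nat_lit 76) (nat_lit 324008106891) (nat_lit 68) (nat_lit 5) (nat_lit 71) (nat_lit 5) (nat_lit 69) (nat_lit 4) (nat_lit 485) (nat_lit 447) (nat_lit 268)) (XT.lf (nat_lit 0) (nat_lit 735384772976) (nat_lit 76) (nat_lit 84988427481) (nat_lit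 152) (nat_lit 92094199129) (nat_lit 67) (nat_lit 5) (nat_lit 68) (nat_lit 5) (nat_lit 69) (nat_lit 4) (nat_lit 486) (nat_lit 447) (nat_lit 267))))) (XT.nd (nat_lit 312) (nat_lit 456) (nat_lit 0) (XT.nd (nat_lit 156) (nat_lit 228) (nat_lit 0) (XT.nd (nat_lit 78) (nat_lit 76) (nat_lit 0) (XT.lf (nat_lit 0) (nat_lit 340788771059) (nat_lit 152) (nat_lit 202697643601) (nat_lit 76) (nat_lit 416762194818) (nat_lit 65) (nat_lit 5) (nat_lit 67) (nat_lit 5) (nat_lit 66) (nat_lit 4) (nat_lit 487) (nat_lit 447) (nat_lit 266)) (XT.lf (nat_lit 0) (nat_lit 783624980539) (nat_lit 76) (nat_lit 38296806951) (nat_lit 152) (nat_lit 189012744585) (nat_lit 64) (nat_lit 5) (nat_lit 65) (nat_lit 5) (nat_lit 66) (nat_lit 4) (nat_lit 488) (nat_lit 447) (nat_lit 265))) (XT.nd (nat_lit 78) (nat_lit 76) (nat_lit 0) (XT.lf (nat_lit 0) (nat_lit 291568145460) (nat_lit 152) (nat_lit 260680291283) (nat_lit 76) (nat_lit 511985156691)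 (nat_lit 62) (nat_lit 5) (nat_lit 64) (nat_lit 5) (nat_lit 63) (nat_lit 4) (nat_lit 489) (nat_lit 447) (nat_lit 264)) (XT.lf (nat_lit 0) (nat_lit 821694741331) (nat_lit 152) (nat_lit 294885186438) (nat_lit 0) (nat_lit 4175657430) (nat_lit 61) (nat_lit 5) (nat_lit 63) (nat_lit 4) (nat_lit 61) (nat_lit 4) (nat_lit 490) (nat_lit 447) (nat_lit 263)))) (XT.nd (nat_lit 156) (nat_lit 228) (nat_lit 0) (XT.nd (nat_lit 78) (nat_lit 76) (nat_lit 0) (XT.lf (nat_lit 0) (nat_lit 233193303843) (nat_lit 152) (nat_lit 339472853897) (nat_lit 76) (nat_lit 607589329022) (nat_lit 59) (nat_lit 5) (nat_lit 61) (nat_lit 5) (nat_lit 60) (nat_lit 4) (nat_lit 491) (nat_lit 447) (nat_lit 262)) (XT.lf (nat_lit 0) (nat_lit 816890914667) (nat_lit 152) (nat_lit 388111063306) (nat_lit 0) (nat_lit 38301232312) (nat_lit 58) (nat_lit 5) (nat_lit 60) (nat_lit 4) (nat_lit 58) (nat_lit 4) (nat_lit 492) (nat_lit 447) (nat_lit 261)))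 (XT.nd (nat_lit 78) (nat_lit 76) (nat_lit 0) (XT.lf (nat_lit 0) (nat_lit 161179972534) (nat_lit 152) (nat_lit 448170773668) (nat_lit 76) (nat_lit 700455939371) (nat_lit 56) (nat_lit 5) (nat_lit 58) (nat_lit 5) (nat_lit 57) (nat_lit 4) (nat_lit 493) (nat_lit 447) (nat_lit 260)) (XT.lf (nat_lit 0) (nat_lit 802387186641) (nat_lit 152) (nat_lit 516943246022) (nat_lit 0) (nat_lit 60873139235) (nat_lit 55) (nat_lit 5) (nat_lit 57) (nat_lit 4) (nat_lit 55) (nat_lit 4) (nat_lit 494) (nat_lit 447) (nat_lit 259))))))))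
noncomputable def xc107 : XT := (XT.nd (nat_lit 60684) (nat_lit 0) (nat_lit 152) (XT.nd (nat_lit 59436) (nat_lit 0) (nat_lit 4180) (XT.nd (nat_lit 58812) (nat_lit 0) (nat_lit 8740) (XT.nd (nat_lit 312) (nat_lit 456) (nat_lit 0) (XT.nd (nat_lit 156) (nat_lit 228) (nat_lit 0) (XT.nd (nat_lit 78) (nat_lit 76) (nat_lit 0) (XT.lf (nat_lit 0) (nat_lit 69525651783) (nat_lit 152) (nat_lit 598986489834) (nat_lit 76) (nat_lit 786084678674) (nat_lit 53) (nat_lit 5) (nat_lit 55) (nat_lit 5) (nat_lit 54) (nat_lit 4) (nat_lit 495) (nat_lit 447) (nat_lit 258)) (XT.lf (nat_lit 0) (nat_lit 771992831178) (nat_lit 152) (nat_lit 695507070769) (nat_lit 0) (nat_lit 65788924077) (nat_lit 52) (nat_lit 5) (nat_lit 54) (nat_lit 4) (nat_lit 52) (nat_lit 4) (nat_lit 496) (nat_lit 447) (nat_lit 257))) (XT.nd (nat_lit 78) (nat_lit 152) (nat_lit 0) (XT.lf (nat_lit 0) (nat_lit 807529063381) (nat_lit 76) (nat_lit 757613402611)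 (nat_lit 76) (nat_lit 51409472170) (nat_lit 51) (nat_lit 4) (nat_lit 52) (nat_lit 5) (nat_lit 52) (nat_lit 4) (nat_lit 497) (nat_lit 447) (nat_lit 256)) (XT.lf (nat_lit 0) (nat_lit 717320276109) (nat_lit 152) (nat_lit 942605105314) (nat_lit 0) (nat_lit 44745083679) (nat_lit 49) (nat_lit 5) (nat_lit 51) (nat_lit 4) (nat_lit 49) (nat_lit 4) (nat_lit 498) (nat_lit 447) (nat_lit 255)))) (XT.nd (nat_lit 156) (nat_lit 228) (nat_lit 0) (XT.nd (nat_lit 78) (nat_lit 152) (nat_lit 0) (XT.lf (nat_lit 0) (nat_lit 697033450693) (nat_lit 76) (nat_lit 886718920430) (nat_lit 76) (nat_lit 214143708944) (nat_lit 48) (nat_lit 4) (nat_lit 49) (nat_lit 5) (nat_lit 49) (nat_lit 4) (nat_lit 499) (nat_lit 447) (nat_lit 254)) (XT.lf (nat_lit 0) (nat_lit 613413967029) (nat_lit 76) (nat_lit 13897835975) (nat_lit 152) (nat_lit 1269469936290) (nat_lit 46) (nat_lit 5) (nat_lit 47) (nat_lit 5) (nat_lit 48) (nat_lit 4) (nat_lit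 500) (nat_lit 447) (nat_lit 253))) (XT.nd (nat_lit 78) (nat_lit 152) (nat_lit 0) (XT.lf (nat_lit 0) (nat_lit 499072452257) (nat_lit 76) (nat_lit 1071391981347) (nat_lit 76) (nat_lit 430844128519) (nat_lit 45) (nat_lit 4) (nat_lit 46) (nat_lit 5) (nat_lit 46) (nat_lit 4) (nat_lit 501) (nat_lit 447) (nat_lit 252)) (XT.lf (nat_lit 0) (nat_lit 360376073912) (nat_lit 76) (nat_lit 127879507135) (nat_lit 152) (nat_lit 1624142110865) (nat_lit 43) (nat_lit 5) (nat_lit 44) (nat_lit 5) (nat_lit 45) (nat_lit 4) (nat_lit 502) (nat_lit 447) (nat_lit 251))))) (XT.nd (nat_lit 312) (nat_lit 380) (nat_lit 0) (XT.nd (nat_lit 156) (nat_lit 0) (nat_lit 76) (XT.nd (nat_lit 78) (nat_lit 0) (nat_lit 76) (XT.lf (nat_lit 0) (nat_lit 36139733023) (nat_lit 836) (nat_lit 22732127043) (nat_lit 836) (nat_lit 22732127043) (nat_lit 163) (nat_lit 3) (nat_lit 174) (nat_lit 3) (nat_lit 174) (nat_lit 5) (nat_lit 448) (nat_lit 448)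 (nat_lit 304)) (XT.lf (nat_lit 0) (nat_lit 76707624038) (nat_lit 760) (nat_lit 82467548364) (nat_lit 836) (nat_lit 10484271525) (nat_lit 164) (nat_lit 5) (nat_lit 174) (nat_lit 5) (nat_lit 175) (nat_lit 5) (nat_lit 449) (nat_lit 448) (nat_lit 303))) (XT.nd (nat_lit 78) (nat_lit 0) (nat_lit 76) (XT.lf (nat_lit 76) (nat_lit 55266919215) (nat_lit 0) (nat_lit 29875921790) (nat_lit 836) (nat_lit 91301549920) (nat_lit 165) (nat_lit 5) (nat_lit 164) (nat_lit 5) (nat_lit 175) (nat_lit 5) (nat_lit 450) (nat_lit 448) (nat_lit 302)) (XT.lf (nat_lit 76) (nat_lit 22238949534) (nat_lit 0) (nat_lit 75534640648) (nat_lit 836) (nat_lit 85822507784) (nat_lit 166) (nat_lit 5) (nat_lit 165) (nat_lit 5) (nat_lit 176) (nat_lit 5) (nat_lit 451) (nat_lit 448) (nat_lit 301)))) (XT.nd (nat_lit 156) (nat_lit 608) (nat_lit 0) (XT.nd (nat_lit 78) (nat_lit 0) (nat_lit 76) (XT.lf (nat_lit 0) (nat_lit 115065659212) (nat_lit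 760) (nat_lit 11299108472) (nat_lit 836) (nat_lit 64772630917) (nat_lit 166) (nat_lit 5) (nat_lit 176) (nat_lit 5) (nat_lit 177) (nat_lit 5) (nat_lit 452) (nat_lit 448) (nat_lit 300)) (XT.lf (nat_lit 0) (nat_lit 137691091066) (nat_lit 760) (nat_lit 44930806159) (nat_lit 836) (nat_lit 16462606219) (nat_lit 167) (nat_lit 5) (nat_lit 177) (nat_lit 5) (nat_lit 178) (nat_lit 5) (nat_lit 453) (nat_lit 448) (nat_lit 299))) (XT.nd (nat_lit 78) (nat_lit 684) (nat_lit 0) (XT.lf (nat_lit 76) (nat_lit 127536441619) (nat_lit 0) (nat_lit 38911823220) (nat_lit 836) (nat_lit 41003026489) (nat_lit 168) (nat_lit 5) (nat_lit 167) (nat_lit 5) (nat_lit 178) (nat_lit 5) (nat_lit 454) (nat_lit 448) (nat_lit 298)) (XT.lf (nat_lit 0) (nat_lit 100339991894) (nat_lit 760) (nat_lit 101343530864) (nat_lit 836) (nat_lit 14595023992) (nat_lit 158) (nat_lit 5) (nat_lit 168) (nat_lit 5) (nat_lit 169) (nat_lit 5) (nat_lit 455)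 (nat_lit 448) (nat_lit 297)))))) (XT.nd (nat_lit 624) (nat_lit 1976) (nat_lit 0) (XT.nd (nat_lit 312) (nat_lit 1292) (nat_lit 0) (XT.nd (nat_lit 156) (nat_lit 380) (nat_lit 0) (XT.nd (nat_lit 78) (nat_lit 380) (nat_lit 0) (XT.lf (nat_lit 0) (nat_lit 17587682647) (nat_lit 532) (nat_lit 152943112906) (nat_lit 76) (nat_lit 55064927639) (nat_lit 151) (nat_lit 5) (nat_lit 158) (nat_lit 5) (nat_lit 152) (nat_lit 5) (nat_lit 456) (nat_lit 448) (nat_lit 296)) (XT.lf (nat_lit 0) (nat_lit 44344936244) (nat_lit 380) (nat_lit 11949196873) (nat_lit 456) (nat_lit 179129154221) (nat_lit 146) (nat_lit 5) (nat_lit 151) (nat_lit 5) (nat_lit 152) (nat_lit 5) (nat_lit 457) (nat_lit 448) (nat_lit 295))) (XT.nd (nat_lit 78) (nat_lit 0) (nat_lit 0) (XT.lf (nat_lit 0) (nat_lit 14919933617) (nat_lit 380) (nat_lit 88605143718) (nat_lit 456) (nat_lit 142240580410) (nat_lit 141) (nat_lit 5) (nat_lit 146) (nat_lit 5) (nat_lit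 147) (nat_lit 5) (nat_lit 458) (nat_lit 448) (nat_lit 294)) (XT.lf (nat_lit 0) (nat_lit 159402935453) (nat_lit 456) (nat_lit 14087993756) (nat_lit 76) (nat_lit 83201066672) (nat_lit 141) (nat_lit 5) (nat_lit 147) (nat_lit 5) (nat_lit 142) (nat_lit 5) (nat_lit 459) (nat_lit 448) (nat_lit 293)))) (XT.nd (nat_lit 156) (nat_lit 608) (nat_lit 0) (XT.nd (nat_lit 78) (nat_lit 380) (nat_lit 0) (XT.lf (nat_lit 0) (nat_lit 224784497848) (nat_lit 380) (nat_lit 42515481097) (nat_lit 76) (nat_lit 940788355) (nat_lit 137) (nat_lit 5) (nat_lit 142) (nat_lit 5) (nat_lit 138) (nat_lit 5) (nat_lit 460) (nat_lit 448) (nat_lit 292)) (XT.lf (nat_lit 0) (nat_lit 20744702033) (nat_lit 380) (nat_lit 72465133333) (nat_lit 76) (nat_lit 187165567348) (nat_lit 132) (nat_lit 5) (nat_lit 137) (nat_lit 5) (nat_lit 133) (nat_lit 5) (nat_lit 461) (nat_lit 448) (nat_lit 291))) (XT.nd (nat_lit 78) (nat_lit 304) (nat_lit 0) (XT.lf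 (nat_lit 0) (nat_lit 93880980191) (nat_lit 380) (nat_lit 102970982785) (nat_lit 76) (nat_lit 96327139854) (nat_lit 128) (nat_lit 5) (nat_lit 133) (nat_lit 5) (nat_lit 129) (nat_lit 5) (nat_lit 462) (nat_lit 448) (nat_lit 290)) (XT.lf (nat_lit 0) (nat_lit 173499425381) (nat_lit 304) (nat_lit 4932056509) (nat_lit 380) (nat_lit 128297451011) (nat_lit 124) (nat_lit 5) (nat_lit 128) (nat_lit 5) (nat_lit 129) (nat_lit 5) (nat_lit 463) (nat_lit 448) (nat_lit 289))))) (XT.nd (nat_lit 312) (nat_lit 912) (nat_lit 0) (XT.nd (nat_lit 156) (nat_lit 456) (nat_lit 0) (XT.nd (nat_lit 78) (nat_lit 380) (nat_lit 0) (XT.lf (nat_lit 0) (nat_lit 156305479305) (nat_lit 228) (nat_lit 120862961027) (nat_lit 304) (nat_lit 43823188224) (nat_lit 121) (nat_lit 5) (nat_lit 124) (nat_lit 5) (nat_lit 125) (nat_lit 5) (nat_lit 464) (nat_lit 448) (nat_lit 288)) (XT.lf (nat_lit 0) (nat_lit 51951529028) (nat_lit 380) (nat_lit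 196403370752) (nat_lit 76) (nat_lit 87700435811) (nat_lit 116) (nat_lit 5) (nat_lit 121) (nat_lit 5) (nat_lit 117) (nat_lit 5) (nat_lit 465) (nat_lit 448) (nat_lit 287))) (XT.nd (nat_lit 78) (nat_lit 228) (nat_lit 0) (XT.lf (nat_lit 0) (nat_lit 123154897140) (nat_lit 228) (nat_lit 37594873570) (nat_lit 304) (nat_lit 191193602936) (nat_lit 113) (nat_lit 5) (nat_lit 116) (nat_lit 5) (nat_lit 117) (nat_lit 5) (nat_lit 466) (nat_lit 448) (nat_lit 286)) (XT.lf (nat_lit 0) (nat_lit 106753589388) (nat_lit 228) (nat_lit 179609009021) (nat_lit 304) (nat_lit 82334320009) (nat_lit 110) (nat_lit 5) (nat_lit 113) (nat_lit 5) (nat_lit 114) (nat_lit 5) (nat_lit 467) (nat_lit 448) (nat_lit 285)))) (XT.nd (nat_lit 156) (nat_lit 456) (nat_lit 0) (XT.nd (nat_lit 78) (nat_lit 228) (nat_lit 0) (XT.lf (nat_lit 0) (nat_lit 41048377597) (nat_lit 228) (nat_lit 294845569294) (nat_lit 76) (nat_lit 50522176509) (nat_lit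 107) (nat_lit 5) (nat_lit 110) (nat_lit 5) (nat_lit 108) (nat_lit 5) (nat_lit 468) (nat_lit 448) (nat_lit 284)) (XT.lf (nat_lit 0) (nat_lit 75313398762) (nat_lit 228) (nat_lit 104984209021) (nat_lit 304) (nat_lit 224743744342) (nat_lit 104) (nat_lit 5) (nat_lit 107) (nat_lit 5) (nat_lit 108) (nat_lit 5) (nat_lit 469) (nat_lit 448) (nat_lit 283))) (XT.nd (nat_lit 78) (nat_lit 304) (nat_lit 0) (XT.lf (nat_lit 0) (nat_lit 60305425566) (nat_lit 152) (nat_lit 278797443805) (nat_lit 228) (nat_lit 85632925132) (nat_lit 102) (nat_lit 5) (nat_lit 104) (nat_lit 5) (nat_lit 105) (nat_lit 5) (nat_lit 470) (nat_lit 448) (nat_lit 282)) (XT.lf (nat_lit 0) (nat_lit 46202860375) (nat_lit 228) (nat_lit 24665349209) (nat_lit 304) (nat_lit 374670684576) (nat_lit 98) (nat_lit 5) (nat_lit 101) (nat_lit 5) (nat_lit 102) (nat_lit 5) (nat_lit 471) (nat_lit 448) (nat_lit 281))))))) (XT.nd (nat_lit 1248) (nat_lit 1672)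 (nat_lit 0) (XT.nd (nat_lit 624) (nat_lit 1140) (nat_lit 0) (XT.nd (nat_lit 312) (nat_lit 684) (nat_lit 0) (XT.nd (nat_lit 156) (nat_lit 228) (nat_lit 0) (XT.nd (nat_lit 78) (nat_lit 152) (nat_lit 0) (XT.lf (nat_lit 0) (nat_lit 30540888198) (nat_lit 152) (nat_lit 217217456818) (nat_lit 228) (nat_lit 219634252330) (nat_lit 96) (nat_lit 5) (nat_lit 98) (nat_lit 5) (nat_lit 99) (nat_lit 5) (nat_lit 472) (nat_lit 448) (nat_lit 280)) (XT.lf (nat_lit 0) (nat_lit 17599883361) (nat_lit 152) (nat_lit 429815238432) (nat_lit 228) (nat_lit 43148703473) (nat_lit 94) (nat_lit 5) (nat_lit 96) (nat_lit 5) (nat_lit 97) (nat_lit 5) (nat_lit 473) (nat_lit 448) (nat_lit 279))) (XT.nd (nat_lit 78) (nat_lit 0) (nat_lit 0) (XT.lf (nat_lit 0) (nat_lit 2798948962) (nat_lit 152) (nat_lit 151377938534) (nat_lit 228) (nat_lit 360724719042) (nat_lit 91) (nat_lit 5) (nat_lit 93) (nat_lit 5) (nat_lit 94) (nat_lit 5) (nat_lit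 474) (nat_lit 448) (nat_lit 278)) (XT.lf (nat_lit 0) (nat_lit 376502229978) (nat_lit 228) (nat_lit 10456539737) (nat_lit 76) (nat_lit 153656001579) (nat_lit 91) (nat_lit 5) (nat_lit 94) (nat_lit 5) (nat_lit 92) (nat_lit 5) (nat_lit 475) (nat_lit 448) (nat_lit 277)))) (XT.nd (nat_lit 156) (nat_lit 304) (nat_lit 0) (XT.nd (nat_lit 78) (nat_lit 152) (nat_lit 0) (XT.lf (nat_lit 0) (nat_lit 57947589495) (nat_lit 228) (nat_lit 22513503102) (nat_lit 76) (nat_lit 487323117668) (nat_lit 88) (nat_lit 5) (nat_lit 91) (nat_lit 5) (nat_lit 89) (nat_lit 5) (nat_lit 476) (nat_lit 448) (nat_lit 276)) (XT.lf (nat_lit 0) (nat_lit 305194875648) (nat_lit 228) (nat_lit 36651619076) (nat_lit 76) (nat_lit 254487588711) (nat_lit 86) (nat_lit 5) (nat_lit 89) (nat_lit 5) (nat_lit 87) (nat_lit 5) (nat_lit 477) (nat_lit 448) (nat_lit 275))) (XT.nd (nat_lit 78) (nat_lit 152) (nat_lit 0) (XT.lf (nat_lit 0) (nat_lit 579287228346)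 (nat_lit 152) (nat_lit 3734247122) (nat_lit 228) (nat_lit 43606494453) (nat_lit 84) (nat_lit 5) (nat_lit 86) (nat_lit 5) (nat_lit 87) (nat_lit 5) (nat_lit 478) (nat_lit 448) (nat_lit 274)) (XT.lf (nat_lit 0) (nat_lit 232484994307) (nat_lit 152) (nat_lit 62263769834) (nat_lit 76) (nat_lit 363626107565) (nat_lit 82) (nat_lit 5) (nat_lit 84) (nat_lit 5) (nat_lit 83) (nat_lit 5) (nat_lit 479) (nat_lit 448) (nat_lit 273))))) (XT.nd (nat_lit 312) (nat_lit 532) (nat_lit 0) (XT.nd (nat_lit 156) (nat_lit 304) (nat_lit 0) (XT.nd (nat_lit 78) (nat_lit 152) (nat_lit 0) (XT.lf (nat_lit 0) (nat_lit 540963093028) (nat_lit 228) (nat_lit 74223007770) (nat_lit 76) (nat_lit 76848329310) (nat_lit 80) (nat_lit 5) (nat_lit 83) (nat_lit 5) (nat_lit 81) (nat_lit 4) (nat_lit 480) (nat_lit 448) (nat_lit 272)) (XT.lf (nat_lit 0) (nat_lit 157423709985) (nat_lit 152) (nat_lit 88386132695) (nat_lit 76) (nat_lit 481645376740)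 (nat_lit 78) (nat_lit 5) (nat_lit 80) (nat_lit 5) (nat_lit 79) (nat_lit 5) (nat_lit 481) (nat_lit 448) (nat_lit 271))) (XT.nd (nat_lit 78) (nat_lit 152) (nat_lit 0) (XT.lf (nat_lit 0) (nat_lit 499699336163) (nat_lit 228) (nat_lit 102471189130) (nat_lit 76) (nat_lit 162695628667) (nat_lit 76) (nat_lit 5) (nat_lit 79) (nat_lit 5) (nat_lit 77) (nat_lit 4) (nat_lit 482) (nat_lit 448) (nat_lit 270)) (XT.lf (nat_lit 0) (nat_lit 78774007169) (nat_lit 152) (nat_lit 116630393460) (nat_lit 76) (nat_lit 608978626523) (nat_lit 74) (nat_lit 5) (nat_lit 76) (nat_lit 5) (nat_lit 75) (nat_lit 5) (nat_lit 483) (nat_lit 448) (nat_lit 269)))) (XT.nd (nat_lit 156) (nat_lit 304) (nat_lit 0) (XT.nd (nat_lit 78) (nat_lit 76) (nat_lit 0) (XT.lf (nat_lit 0) (nat_lit 458156267593) (nat_lit 228) (nat_lit 133974897983) (nat_lit 76) (nat_lit 253851918619) (nat_lit 72) (nat_lit 5) (nat_lit 75) (nat_lit 5) (nat_lit 73) (nat_lit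 4) (nat_lit 484) (nat_lit 448) (nat_lit 268)) (XT.lf (nat_lit 0) (nat_lit 740670907965) (nat_lit 76) (nat_lit 144141887686) (nat_lit 152) (nat_lit 5252165812) (nat_lit 71) (nat_lit 5) (nat_lit 72) (nat_lit 5) (nat_lit 73) (nat_lit 4) (nat_lit 485) (nat_lit 448) (nat_lit 267))) (XT.nd (nat_lit 78) (nat_lit 76) (nat_lit 0) (XT.lf (nat_lit 0) (nat_lit 414922187001) (nat_lit 228) (nat_lit 171500368095) (nat_lit 76) (nat_lit 349929889089) (nat_lit 68) (nat_lit 5) (nat_lit 71) (nat_lit 5) (nat_lit 69) (nat_lit 4) (nat_lit 486) (nat_lit 448) (nat_lit 266)) (XT.lf (nat_lit 0) (nat_lit 794217998002) (nat_lit 76) (nat_lit 91786349301) (nat_lit 152) (nat_lit 99460379690) (nat_lit 67) (nat_lit 5) (nat_lit 68) (nat_lit 5) (nat_lit 69) (nat_lit 4) (nat_lit 487) (nat_lit 448) (nat_lit 265)))))) (XT.nd (nat_lit 624) (nat_lit 760) (nat_lit 0) (XT.nd (nat_lit 312) (nat_lit 456) (nat_lit 0) (XT.nd (nat_lit 156)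 (nat_lit 228) (nat_lit 0) (XT.nd (nat_lit 78) (nat_lit 76) (nat_lit 0) (XT.lf (nat_lit 0) (nat_lit 368053142272) (nat_lit 152) (nat_lit 218911031542) (nat_lit 76) (nat_lit 450104260928) (nat_lit 65) (nat_lit 5) (nat_lit 67) (nat_lit 5) (nat_lit 66) (nat_lit 4) (nat_lit 488) (nat_lit 448) (nat_lit 264)) (XT.lf (nat_lit 0) (nat_lit 846317297204) (nat_lit 76) (nat_lit 41359444968) (nat_lit 152) (nat_lit 204132491868) (nat_lit 64) (nat_lit 5) (nat_lit 65) (nat_lit 5) (nat_lit 66) (nat_lit 4) (nat_lit 489) (nat_lit 448) (nat_lit 263))) (XT.nd (nat_lit 78) (nat_lit 76) (nat_lit 0) (XT.lf (nat_lit 0) (nat_lit 314894789538) (nat_lit 152) (nat_lit 281532416228) (nat_lit 76) (nat_lit 552945015508) (nat_lit 62) (nat_lit 5) (nat_lit 64) (nat_lit 5) (nat_lit 63) (nat_lit 4) (nat_lit 490) (nat_lit 448) (nat_lit 262)) (XT.lf (nat_lit 0) (nat_lit 887431475624) (nat_lit 152) (nat_lit 318473762495) (nat_lit 0)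 (nat_lit 4510736135) (nat_lit 61) (nat_lit 5) (nat_lit 63) (nat_lit 4) (nat_lit 61) (nat_lit 4) (nat_lit 491) (nat_lit 448) (nat_lit 261)))) (XT.nd (nat_lit 156) (nat_lit 228) (nat_lit 0) (XT.nd (nat_lit 78) (nat_lit 76) (nat_lit 0) (XT.lf (nat_lit 0) (nat_lit 251849889109) (nat_lit 152) (nat_lit 366628503573) (nat_lit 76) (nat_lit 656197476962) (nat_lit 59) (nat_lit 5) (nat_lit 61) (nat_lit 5) (nat_lit 60) (nat_lit 4) (nat_lit 492) (nat_lit 448) (nat_lit 260)) (XT.lf (nat_lit 0) (nat_lit 882243274126) (nat_lit 152) (nat_lit 419157826705) (nat_lit 0) (nat_lit 41366311952) (nat_lit 58) (nat_lit 5) (nat_lit 60) (nat_lit 4) (nat_lit 58) (nat_lit 4) (nat_lit 493) (nat_lit 448) (nat_lit 259))) (XT.nd (nat_lit 78) (nat_lit 76) (nat_lit 0) (XT.lf (nat_lit 0) (nat_lit 174075424859) (nat_lit 152) (nat_lit 484022371224) (nat_lit 76) (nat_lit 756493371600) (nat_lit 56) (nat_lit 5) (nat_lit 58) (nat_lit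 5) (nat_lit 57) (nat_lit 4) (nat_lit 494) (nat_lit 448) (nat_lit 258)) (XT.lf (nat_lit 0) (nat_lit 866579183915) (nat_lit 152) (nat_lit 558296695814) (nat_lit 0) (nat_lit 65743926795) (nat_lit 55) (nat_lit 5) (nat_lit 57) (nat_lit 4) (nat_lit 55) (nat_lit 4) (nat_lit 495) (nat_lit 448) (nat_lit 257))))) (XT.nd (nat_lit 312) (nat_lit 304) (nat_lit 0) (XT.nd (nat_lit 156) (nat_lit 228) (nat_lit 0) (XT.nd (nat_lit 78) (nat_lit 76) (nat_lit 0) (XT.lf (nat_lit 0) (nat_lit 75088696573) (nat_lit 152) (nat_lit 646903453649) (nat_lit 76) (nat_lit 848972366052) (nat_lit 53) (nat_lit 5) (nat_lit 55) (nat_lit 5) (nat_lit 54) (nat_lit 4) (nat_lit 496) (nat_lit 448) (nat_lit 256)) (XT.lf (nat_lit 0) (nat_lit 833753220389) (nat_lit 152) (nat_lit 751145733010) (nat_lit 0) (nat_lit 71052930564) (nat_lit 52) (nat_lit 5) (nat_lit 54) (nat_lit 4) (nat_lit 52) (nat_lit 4) (nat_lit 497) (nat_lit 448) (nat_lit 255)))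 (XT.nd (nat_lit 78) (nat_lit 152) (nat_lit 0) (XT.lf (nat_lit 0) (nat_lit 872133209152) (nat_lit 76) (nat_lit 818221573950) (nat_lit 76) (nat_lit 55521264116) (nat_lit 51) (nat_lit 4) (nat_lit 52) (nat_lit 5) (nat_lit 52) (nat_lit 4) (nat_lit 498) (nat_lit 448) (nat_lit 254)) (XT.lf (nat_lit 0) (nat_lit 774706805219) (nat_lit 152) (nat_lit 1018011711623) (nat_lit 0) (nat_lit 48325540112) (nat_lit 49) (nat_lit 5) (nat_lit 51) (nat_lit 4) (nat_lit 49) (nat_lit 4) (nat_lit 499) (nat_lit 448) (nat_lit 253)))) (XT.nd (nat_lit 156) (nat_lit 76) (nat_lit 0) (XT.nd (nat_lit 78) (nat_lit 152) (nat_lit 0) (XT.lf (nat_lit 0) (nat_lit 752797850547) (nat_lit 76) (nat_lit 957655577014) (nat_lit 76) (nat_lit 231274295569) (nat_lit 48) (nat_lit 4) (nat_lit 49) (nat_lit 5) (nat_lit 49) (nat_lit 4) (nat_lit 500) (nat_lit 448) (nat_lit 252)) (XT.lf (nat_lit 0) (nat_lit 662488761143) (nat_lit 76) (nat_lit 15008827986)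 (nat_lit 152) (nat_lit 1371026647211) (nat_lit 46) (nat_lit 5) (nat_lit 47) (nat_lit 5) (nat_lit 48) (nat_lit 4) (nat_lit 501) (nat_lit 448) (nat_lit 251))) (XT.nd (nat_lit 58344) (nat_lit 0) (nat_lit 8968) (XT.lf (nat_lit 0) (nat_lit 538999880121) (nat_lit 76) (nat_lit 1157102525238) (nat_lit 76) (nat_lit 465310800877) (nat_lit 45) (nat_lit 4) (nat_lit 46) (nat_lit 5) (nat_lit 46) (nat_lit 4) (nat_lit 502) (nat_lit 448) (nat_lit 250)) (XT.lf (nat_lit 0) (nat_lit 39034616568) (nat_lit 836) (nat_lit 24548751989) (nat_lit 836) (nat_lit 24548751989) (nat_lit 163) (nat_lit 3) (nat_lit 174) (nat_lit 3) (nat_lit 174) (nat_lit 5) (nat_lit 449) (nat_lit 449) (nat_lit 302))))))))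
noncomputable def xc108 : XT := (XT.nd (nat_lit 2418) (nat_lit 2736) (nat_lit 0) (XT.nd (nat_lit 1170) (nat_lit 3192) (nat_lit 0) (XT.nd (nat_lit 546) (nat_lit 2584) (nat_lit 0) (XT.nd (nat_lit 234) (nat_lit 456) (nat_lit 0) (XT.nd (nat_lit 78) (nat_lit 0) (nat_lit 0) (XT.lf (nat_lit 0) (nat_lit 82851103070) (nat_lit 760) (nat_lit 89060834466) (nat_lit 836) (nat_lit 11319917921) (nat_lit 164) (nat_lit 5) (nat_lit 174) (nat_lit 5) (nat_lit 175) (nat_lit 5) (nat_lit 450) (nat_lit 449) (nat_lit 301)) (XT.nd (nat_lit 78) (nat_lit 0) (nat_lit 76) (XT.lf (nat_lit 76) (nat_lit 59692211566) (nat_lit 0) (nat_lit 32268478501) (nat_lit 836) (nat_lit 98598930553) (nat_lit 165) (nat_lit 5) (nat_lit 164) (nat_lit 5) (nat_lit 175) (nat_lit 5) (nat_lit 451) (nat_lit 449) (nat_lit 300)) (XT.lf (nat_lit 76) (nat_lit 24022177820) (nat_lit 0) (nat_lit 81579273982) (nat_lit 836) (nat_lit 92682034828) (nat_lit 166)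 (nat_lit 5) (nat_lit 165) (nat_lit 5) (nat_lit 176) (nat_lit 5) (nat_lit 452) (nat_lit 449) (nat_lit 299)))) (XT.nd (nat_lit 156) (nat_lit 608) (nat_lit 0) (XT.nd (nat_lit 78) (nat_lit 0) (nat_lit 76) (XT.lf (nat_lit 0) (nat_lit 124276416886) (nat_lit 760) (nat_lit 12198925512) (nat_lit 836) (nat_lit 69952772424) (nat_lit 166) (nat_lit 5) (nat_lit 176) (nat_lit 5) (nat_lit 177) (nat_lit 5) (nat_lit 453) (nat_lit 449) (nat_lit 298)) (XT.lf (nat_lit 0) (nat_lit 148711517785) (nat_lit 760) (nat_lit 48521060247) (nat_lit 836) (nat_lit 17778428327) (nat_lit 167) (nat_lit 5) (nat_lit 177) (nat_lit 5) (nat_lit 178) (nat_lit 5) (nat_lit 454) (nat_lit 449) (nat_lit 297))) (XT.nd (nat_lit 78) (nat_lit 684) (nat_lit 0) (XT.lf (nat_lit 76) (nat_lit 137743384374) (nat_lit 0) (nat_lit 42025563266) (nat_lit 836) (nat_lit 44278205553) (nat_lit 168) (nat_lit 5) (nat_lit 167) (nat_lit 5) (nat_lit 178) (nat_lit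 5) (nat_lit 455) (nat_lit 449) (nat_lit 296)) (XT.lf (nat_lit 0) (nat_lit 108371286453) (nat_lit 760) (nat_lit 109451435040) (nat_lit 836) (nat_lit 15757882818) (nat_lit 158) (nat_lit 5) (nat_lit 168) (nat_lit 5) (nat_lit 169) (nat_lit 5) (nat_lit 456) (nat_lit 449) (nat_lit 295))))) (XT.nd (nat_lit 312) (nat_lit 1292) (nat_lit 0) (XT.nd (nat_lit 156) (nat_lit 380) (nat_lit 0) (XT.nd (nat_lit 78) (nat_lit 380) (nat_lit 0) (XT.lf (nat_lit 0) (nat_lit 18999007947) (nat_lit 532) (nat_lit 165174279231) (nat_lit 76) (nat_lit 59469878041) (nat_lit 151) (nat_lit 5) (nat_lit 158) (nat_lit 5) (nat_lit 152) (nat_lit 5) (nat_lit 457) (nat_lit 449) (nat_lit 294)) (XT.lf (nat_lit 0) (nat_lit 47896627730) (nat_lit 380) (nat_lit 12905091374) (nat_lit 456) (nat_lit 193455228182) (nat_lit 146) (nat_lit 5) (nat_lit 151) (nat_lit 5) (nat_lit 152) (nat_lit 5) (nat_lit 458) (nat_lit 449) (nat_lit 293))) (XT.nd (nat_lit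 78) (nat_lit 0) (nat_lit 0) (XT.lf (nat_lit 0) (nat_lit 16117640460) (nat_lit 380) (nat_lit 95693262802) (nat_lit 456) (nat_lit 153615815864) (nat_lit 141) (nat_lit 5) (nat_lit 146) (nat_lit 5) (nat_lit 147) (nat_lit 5) (nat_lit 459) (nat_lit 449) (nat_lit 292)) (XT.lf (nat_lit 0) (nat_lit 172158711313) (nat_lit 456) (nat_lit 15211052861) (nat_lit 76) (nat_lit 89857414093) (nat_lit 141) (nat_lit 5) (nat_lit 147) (nat_lit 5) (nat_lit 142) (nat_lit 5) (nat_lit 460) (nat_lit 449) (nat_lit 291)))) (XT.nd (nat_lit 156) (nat_lit 608) (nat_lit 0) (XT.nd (nat_lit 78) (nat_lit 380) (nat_lit 0) (XT.lf (nat_lit 0) (nat_lit 242770603173) (nat_lit 380) (nat_lit 45912752374) (nat_lit 76) (nat_lit 1016505647) (nat_lit 137) (nat_lit 5) (nat_lit 142) (nat_lit 5) (nat_lit 138) (nat_lit 5) (nat_lit 461) (nat_lit 449) (nat_lit 290)) (XT.lf (nat_lit 0) (nat_lit 22407487072) (nat_lit 380) (nat_lit 78258442908) (nat_lit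 76) (nat_lit 202139344317) (nat_lit 132) (nat_lit 5) (nat_lit 137) (nat_lit 5) (nat_lit 133) (nat_lit 5) (nat_lit 462) (nat_lit 449) (nat_lit 289))) (XT.nd (nat_lit 78) (nat_lit 304) (nat_lit 0) (XT.lf (nat_lit 0) (nat_lit 101394499010) (nat_lit 380) (nat_lit 111204789166) (nat_lit 76) (nat_lit 104033990684) (nat_lit 128) (nat_lit 5) (nat_lit 133) (nat_lit 5) (nat_lit 129) (nat_lit 5) (nat_lit 463) (nat_lit 449) (nat_lit 288)) (XT.lf (nat_lit 0) (nat_lit 187383083371) (nat_lit 304) (nat_lit 5325790089) (nat_lit 380) (nat_lit 138558230260) (nat_lit 124) (nat_lit 5) (nat_lit 128) (nat_lit 5) (nat_lit 129) (nat_lit 5) (nat_lit 464) (nat_lit 449) (nat_lit 287)))))) (XT.nd (nat_lit 624) (nat_lit 1216) (nat_lit 0) (XT.nd (nat_lit 312) (nat_lit 912) (nat_lit 0) (XT.nd (nat_lit 156) (nat_lit 456) (nat_lit 0) (XT.nd (nat_lit 78) (nat_lit 380) (nat_lit 0) (XT.lf (nat_lit 0) (nat_lit 168813585794) (nat_lit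 228) (nat_lit 130531059249) (nat_lit 304) (nat_lit 47326177173) (nat_lit 121) (nat_lit 5) (nat_lit 124) (nat_lit 5) (nat_lit 125) (nat_lit 5) (nat_lit 465) (nat_lit 449) (nat_lit 286)) (XT.lf (nat_lit 0) (nat_lit 56110291540) (nat_lit 380) (nat_lit 212111927582) (nat_lit 76) (nat_lit 94717411174) (nat_lit 116) (nat_lit 5) (nat_lit 121) (nat_lit 5) (nat_lit 117) (nat_lit 5) (nat_lit 466) (nat_lit 449) (nat_lit 285))) (XT.nd (nat_lit 78) (nat_lit 228) (nat_lit 0) (XT.lf (nat_lit 0) (nat_lit 133010840387) (nat_lit 228) (nat_lit 40601412048) (nat_lit 304) (nat_lit 206486465976) (nat_lit 113) (nat_lit 5) (nat_lit 116) (nat_lit 5) (nat_lit 117) (nat_lit 5) (nat_lit 467) (nat_lit 449) (nat_lit 284)) (XT.lf (nat_lit 0) (nat_lit 115297377659) (nat_lit 228) (nat_lit 193976613362) (nat_lit 304) (nat_lit 88918561518) (nat_lit 110) (nat_lit 5) (nat_lit 113) (nat_lit 5) (nat_lit 114) (nat_lit 5) (nat_lit 468)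 (nat_lit 449) (nat_lit 283)))) (XT.nd (nat_lit 156) (nat_lit 456) (nat_lit 0) (XT.nd (nat_lit 78) (nat_lit 228) (nat_lit 0) (XT.lf (nat_lit 0) (nat_lit 44334563292) (nat_lit 228) (nat_lit 318429691719) (nat_lit 76) (nat_lit 54565042386) (nat_lit 107) (nat_lit 5) (nat_lit 110) (nat_lit 5) (nat_lit 108) (nat_lit 5) (nat_lit 469) (nat_lit 449) (nat_lit 282)) (XT.lf (nat_lit 0) (nat_lit 81341840672) (nat_lit 228) (nat_lit 113381772319) (nat_lit 304) (nat_lit 242720937381) (nat_lit 104) (nat_lit 5) (nat_lit 107) (nat_lit 5) (nat_lit 108) (nat_lit 5) (nat_lit 470) (nat_lit 449) (nat_lit 281))) (XT.nd (nat_lit 78) (nat_lit 304) (nat_lit 0) (XT.lf (nat_lit 0) (nat_lit 65133170785) (nat_lit 152) (nat_lit 301100030671) (nat_lit 228) (nat_lit 92481351395) (nat_lit 102) (nat_lit 5) (nat_lit 104) (nat_lit 5) (nat_lit 105) (nat_lit 5) (nat_lit 471) (nat_lit 449) (nat_lit 280)) (XT.lf (nat_lit 0) (nat_lit 49902324149)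 (nat_lit 228) (nat_lit 26637371492) (nat_lit 304) (nat_lit 404642208511) (nat_lit 98) (nat_lit 5) (nat_lit 101) (nat_lit 5) (nat_lit 102) (nat_lit 5) (nat_lit 472) (nat_lit 449) (nat_lit 279))))) (XT.nd (nat_lit 312) (nat_lit 684) (nat_lit 0) (XT.nd (nat_lit 156) (nat_lit 228) (nat_lit 0) (XT.nd (nat_lit 78) (nat_lit 152) (nat_lit 0) (XT.lf (nat_lit 0) (nat_lit 32987332733) (nat_lit 152) (nat_lit 234593625833) (nat_lit 228) (nat_lit 237202949200) (nat_lit 96) (nat_lit 5) (nat_lit 98) (nat_lit 5) (nat_lit 99) (nat_lit 5) (nat_lit 473) (nat_lit 449) (nat_lit 278)) (XT.lf (nat_lit 0) (nat_lit 19010984398) (nat_lit 152) (nat_lit 464199215250) (nat_lit 228) (nat_lit 46598638168) (nat_lit 94) (nat_lit 5) (nat_lit 96) (nat_lit 5) (nat_lit 97) (nat_lit 5) (nat_lit 474) (nat_lit 449) (nat_lit 277))) (XT.nd (nat_lit 78) (nat_lit 0) (nat_lit 0) (XT.lf (nat_lit 0) (nat_lit 3025900189) (nat_lit 152) (nat_lit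 163486943845) (nat_lit 228) (nat_lit 389580800693) (nat_lit 91) (nat_lit 5) (nat_lit 93) (nat_lit 5) (nat_lit 94) (nat_lit 5) (nat_lit 475) (nat_lit 449) (nat_lit 276)) (XT.lf (nat_lit 0) (nat_lit 406624097949) (nat_lit 228) (nat_lit 11290186579) (nat_lit 76) (nat_lit 165949583938) (nat_lit 91) (nat_lit 5) (nat_lit 94) (nat_lit 5) (nat_lit 92) (nat_lit 5) (nat_lit 476) (nat_lit 449) (nat_lit 275)))) (XT.nd (nat_lit 156) (nat_lit 304) (nat_lit 0) (XT.nd (nat_lit 78) (nat_lit 152) (nat_lit 0) (XT.lf (nat_lit 0) (nat_lit 62585030427) (nat_lit 228) (nat_lit 24311777948) (nat_lit 76) (nat_lit 526310056975) (nat_lit 88) (nat_lit 5) (nat_lit 91) (nat_lit 5) (nat_lit 89) (nat_lit 5) (nat_lit 477) (nat_lit 449) (nat_lit 274)) (XT.lf (nat_lit 0) (nat_lit 329612037974) (nat_lit 228) (nat_lit 39581004968) (nat_lit 76) (nat_lit 274847688511) (nat_lit 86) (nat_lit 5) (nat_lit 89) (nat_lit 5) (nat_lit 87) (nat_lit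 5) (nat_lit 478) (nat_lit 449) (nat_lit 273))) (XT.nd (nat_lit 78) (nat_lit 152) (nat_lit 0) (XT.lf (nat_lit 0) (nat_lit 625632831013) (nat_lit 152) (nat_lit 4031859276) (nat_lit 228) (nat_lit 47093442347) (nat_lit 84) (nat_lit 5) (nat_lit 86) (nat_lit 5) (nat_lit 87) (nat_lit 5) (nat_lit 479) (nat_lit 449) (nat_lit 272)) (XT.lf (nat_lit 0) (nat_lit 251085259792) (nat_lit 152) (nat_lit 67242257784) (nat_lit 76) (nat_lit 392717270535) (nat_lit 82) (nat_lit 5) (nat_lit 84) (nat_lit 5) (nat_lit 83) (nat_lit 5) (nat_lit 480) (nat_lit 449) (nat_lit 271))))))) (XT.nd (nat_lit 1248) (nat_lit 684) (nat_lit 0) (XT.nd (nat_lit 624) (nat_lit 912) (nat_lit 0) (XT.nd (nat_lit 312) (nat_lit 532) (nat_lit 0) (XT.nd (nat_lit 156) (nat_lit 304) (nat_lit 0) (XT.nd (nat_lit 78) (nat_lit 152) (nat_lit 0) (XT.lf (nat_lit 0) (nat_lit 584241554087) (nat_lit 228) (nat_lit 80158295719) (nat_lit 76) (nat_lit 82997263998)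 (nat_lit 80) (nat_lit 5) (nat_lit 83) (nat_lit 5) (nat_lit 81) (nat_lit 4) (nat_lit 481) (nat_lit 449) (nat_lit 270)) (XT.lf (nat_lit 0) (nat_lit 170018975922) (nat_lit 152) (nat_lit 95454536275) (nat_lit 76) (nat_lit 520178056291) (nat_lit 78) (nat_lit 5) (nat_lit 80) (nat_lit 5) (nat_lit 79) (nat_lit 5) (nat_lit 482) (nat_lit 449) (nat_lit 269))) (XT.nd (nat_lit 78) (nat_lit 152) (nat_lit 0) (XT.lf (nat_lit 0) (nat_lit 539676604688) (nat_lit 228) (nat_lit 110666456807) (nat_lit 76) (nat_lit 175712318673) (nat_lit 76) (nat_lit 5) (nat_lit 79) (nat_lit 5) (nat_lit 77) (nat_lit 4) (nat_lit 483) (nat_lit 449) (nat_lit 268)) (XT.lf (nat_lit 0) (nat_lit 85077208408) (nat_lit 152) (nat_lit 125958460610) (nat_lit 76) (nat_lit 657697936249) (nat_lit 74) (nat_lit 5) (nat_lit 76) (nat_lit 5) (nat_lit 75) (nat_lit 5) (nat_lit 484) (nat_lit 449) (nat_lit 267)))) (XT.nd (nat_lit 156) (nat_lit 304) (nat_lit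 0) (XT.nd (nat_lit 78) (nat_lit 76) (nat_lit 0) (XT.lf (nat_lit 0) (nat_lit 494810006356) (nat_lit 228) (nat_lit 144690583412) (nat_lit 76) (nat_lit 274161079273) (nat_lit 72) (nat_lit 5) (nat_lit 75) (nat_lit 5) (nat_lit 73) (nat_lit 4) (nat_lit 485) (nat_lit 449) (nat_lit 266)) (XT.lf (nat_lit 0) (nat_lit 799926786778) (nat_lit 76) (nat_lit 155672212670) (nat_lit 152) (nat_lit 5671099906) (nat_lit 71) (nat_lit 5) (nat_lit 72) (nat_lit 5) (nat_lit 73) (nat_lit 4) (nat_lit 486) (nat_lit 449) (nat_lit 265))) (XT.nd (nat_lit 78) (nat_lit 76) (nat_lit 0) (XT.lf (nat_lit 0) (nat_lit 448117121836) (nat_lit 228) (nat_lit 185218207737) (nat_lit 76) (nat_lit 377925252136) (nat_lit 68) (nat_lit 5) (nat_lit 71) (nat_lit 5) (nat_lit 69) (nat_lit 4) (nat_lit 487) (nat_lit 449) (nat_lit 264)) (XT.lf (nat_lit 0) (nat_lit 857757532481) (nat_lit 76) (nat_lit 99128269267) (nat_lit 152) (nat_lit 107416048055)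 (nat_lit 67) (nat_lit 5) (nat_lit 68) (nat_lit 5) (nat_lit 69) (nat_lit 4) (nat_lit 488) (nat_lit 449) (nat_lit 263))))) (XT.nd (nat_lit 312) (nat_lit 456) (nat_lit 0) (XT.nd (nat_lit 156) (nat_lit 228) (nat_lit 0) (XT.nd (nat_lit 78) (nat_lit 76) (nat_lit 0) (XT.lf (nat_lit 0) (nat_lit 397498482070) (nat_lit 152) (nat_lit 236421836264) (nat_lit 76) (nat_lit 486113536751) (nat_lit 65) (nat_lit 5) (nat_lit 67) (nat_lit 5) (nat_lit 66) (nat_lit 4) (nat_lit 489) (nat_lit 449) (nat_lit 262)) (XT.lf (nat_lit 0) (nat_lit 914024668483) (nat_lit 76) (nat_lit 44667251887) (nat_lit 152) (nat_lit 220462000439) (nat_lit 64) (nat_lit 5) (nat_lit 65) (nat_lit 5) (nat_lit 66) (nat_lit 4) (nat_lit 490) (nat_lit 449) (nat_lit 261))) (XT.nd (nat_lit 78) (nat_lit 76) (nat_lit 0) (XT.lf (nat_lit 0) (nat_lit 340087395026) (nat_lit 152) (nat_lit 304053039054) (nat_lit 76) (nat_lit 597181513766) (nat_lit 62) (nat_lit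 5) (nat_lit 64) (nat_lit 5) (nat_lit 63) (nat_lit 4) (nat_lit 491) (nat_lit 449) (nat_lit 260)) (XT.lf (nat_lit 0) (nat_lit 958426983889) (nat_lit 152) (nat_lit 343949744034) (nat_lit 0) (nat_lit 4872474750) (nat_lit 61) (nat_lit 5) (nat_lit 63) (nat_lit 4) (nat_lit 61) (nat_lit 4) (nat_lit 492) (nat_lit 449) (nat_lit 259)))) (XT.nd (nat_lit 156) (nat_lit 228) (nat_lit 0) (XT.nd (nat_lit 78) (nat_lit 76) (nat_lit 0) (XT.lf (nat_lit 0) (nat_lit 271998841279) (nat_lit 152) (nat_lit 395956916029) (nat_lit 76) (nat_lit 708694133844) (nat_lit 59) (nat_lit 5) (nat_lit 61) (nat_lit 5) (nat_lit 60) (nat_lit 4) (nat_lit 493) (nat_lit 449) (nat_lit 258)) (XT.lf (nat_lit 0) (nat_lit 952823667370) (nat_lit 152) (nat_lit 452688633856) (nat_lit 0) (nat_lit 44676458006) (nat_lit 58) (nat_lit 5) (nat_lit 60) (nat_lit 4) (nat_lit 58) (nat_lit 4) (nat_lit 494) (nat_lit 449) (nat_lit 257))) (XT.nd (nat_lit 78)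 (nat_lit 76) (nat_lit 0) (XT.lf (nat_lit 0) (nat_lit 188002362930) (nat_lit 152) (nat_lit 522742391086) (nat_lit 76) (nat_lit 817013661869) (nat_lit 56) (nat_lit 5) (nat_lit 58) (nat_lit 5) (nat_lit 57) (nat_lit 4) (nat_lit 495) (nat_lit 449) (nat_lit 256)) (XT.lf (nat_lit 0) (nat_lit 935906395122) (nat_lit 152) (nat_lit 602958708322) (nat_lit 0) (nat_lit 71004243770) (nat_lit 55) (nat_lit 5) (nat_lit 57) (nat_lit 4) (nat_lit 55) (nat_lit 4) (nat_lit 496) (nat_lit 449) (nat_lit 255)))))) (XT.nd (nat_lit 58968) (nat_lit 0) (nat_lit 7600) (XT.nd (nat_lit 312) (nat_lit 228) (nat_lit 0) (XT.nd (nat_lit 156) (nat_lit 228) (nat_lit 0) (XT.nd (nat_lit 78) (nat_lit 76) (nat_lit 0) (XT.lf (nat_lit 0) (nat_lit 81096643335) (nat_lit 152) (nat_lit 698654053525) (nat_lit 76) (nat_lit 916890938159) (nat_lit 53) (nat_lit 5) (nat_lit 55) (nat_lit 5) (nat_lit 54) (nat_lit 4) (nat_lit 497) (nat_lit 449) (nat_lit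 254)) (XT.lf (nat_lit 0) (nat_lit 900454303395) (nat_lit 152) (nat_lit 811235759774) (nat_lit 0) (nat_lit 76737930237) (nat_lit 52) (nat_lit 5) (nat_lit 54) (nat_lit 4) (nat_lit 52) (nat_lit 4) (nat_lit 498) (nat_lit 449) (nat_lit 253))) (XT.nd (nat_lit 78) (nat_lit 152) (nat_lit 0) (XT.lf (nat_lit 0) (nat_lit 941905426842) (nat_lit 76) (nat_lit 883678527516) (nat_lit 76) (nat_lit 59962137202) (nat_lit 51) (nat_lit 4) (nat_lit 52) (nat_lit 5) (nat_lit 52) (nat_lit 4) (nat_lit 499) (nat_lit 449) (nat_lit 252)) (XT.lf (nat_lit 0) (nat_lit 836684127261) (nat_lit 152) (nat_lit 1099451103528) (nat_lit 0) (nat_lit 52192311835) (nat_lit 49) (nat_lit 5) (nat_lit 51) (nat_lit 4) (nat_lit 49) (nat_lit 4) (nat_lit 500) (nat_lit 449) (nat_lit 251)))) (XT.nd (nat_lit 58500) (nat_lit 0) (nat_lit 8892) (XT.nd (nat_lit 78) (nat_lit 152) (nat_lit 0) (XT.lf (nat_lit 0) (nat_lit 813023156470) (nat_lit 76) (nat_lit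 1034267288392) (nat_lit 76) (nat_lit 249775458959) (nat_lit 48) (nat_lit 4) (nat_lit 49) (nat_lit 5) (nat_lit 49) (nat_lit 4) (nat_lit 501) (nat_lit 449) (nat_lit 250)) (XT.lf (nat_lit 0) (nat_lit 715489299578) (nat_lit 76) (nat_lit 16208818461) (nat_lit 152) (nat_lit 1480708021115) (nat_lit 46) (nat_lit 5) (nat_lit 47) (nat_lit 5) (nat_lit 48) (nat_lit 4) (nat_lit 502) (nat_lit 449) (nat_lit 249))) (XT.nd (nat_lit 78) (nat_lit 0) (nat_lit 76) (XT.lf (nat_lit 0) (nat_lit 42160562251) (nat_lit 836) (nat_lit 26510984438) (nat_lit 836) (nat_lit 26510984438) (nat_lit 163) (nat_lit 3) (nat_lit 174) (nat_lit 3) (nat_lit 174) (nat_lit 5) (nat_lit 450) (nat_lit 450) (nat_lit 300)) (XT.lf (nat_lit 0) (nat_lit 89485080469) (nat_lit 760) (nat_lit 96182170902) (nat_lit 836) (nat_lit 12222857611) (nat_lit 164) (nat_lit 5) (nat_lit 174) (nat_lit 5) (nat_lit 175) (nat_lit 5) (nat_lit 451) (nat_lit 450) (nat_lit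 299))))) (XT.nd (nat_lit 312) (nat_lit 1368) (nat_lit 0) (XT.nd (nat_lit 156) (nat_lit 0) (nat_lit 152) (XT.nd (nat_lit 78) (nat_lit 0) (nat_lit 76) (XT.lf (nat_lit 76) (nat_lit 64470965389) (nat_lit 0) (nat_lit 34852085526) (nat_lit 836) (nat_lit 106481063652) (nat_lit 165) (nat_lit 5) (nat_lit 164) (nat_lit 5) (nat_lit 175) (nat_lit 5) (nat_lit 452) (nat_lit 450) (nat_lit 298)) (XT.lf (nat_lit 76) (nat_lit 25947477700) (nat_lit 0) (nat_lit 88107212335) (nat_lit 836) (nat_lit 100091219032) (nat_lit 166) (nat_lit 5) (nat_lit 165) (nat_lit 5) (nat_lit 176) (nat_lit 5) (nat_lit 453) (nat_lit 450) (nat_lit 297))) (XT.nd (nat_lit 78) (nat_lit 0) (nat_lit 76) (XT.lf (nat_lit 0) (nat_lit 134223249834) (nat_lit 760) (nat_lit 13171314485) (nat_lit 836) (nat_lit 75547563349) (nat_lit 166) (nat_lit 5) (nat_lit 176) (nat_lit 5) (nat_lit 177) (nat_lit 5) (nat_lit 454) (nat_lit 450) (nat_lit 296)) (XT.lf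 (nat_lit 0) (nat_lit 160612845443) (nat_lit 760) (nat_lit 52399135324) (nat_lit 836) (nat_lit 19199685456) (nat_lit 167) (nat_lit 5) (nat_lit 177) (nat_lit 5) (nat_lit 178) (nat_lit 5) (nat_lit 455) (nat_lit 450) (nat_lit 295)))) (XT.nd (nat_lit 156) (nat_lit 912) (nat_lit 0) (XT.nd (nat_lit 78) (nat_lit 684) (nat_lit 0) (XT.lf (nat_lit 76) (nat_lit 148766307993) (nat_lit 0) (nat_lit 45388289216) (nat_lit 836) (nat_lit 47816121244) (nat_lit 168) (nat_lit 5) (nat_lit 167) (nat_lit 5) (nat_lit 178) (nat_lit 5) (nat_lit 456) (nat_lit 450) (nat_lit 294)) (XT.lf (nat_lit 0) (nat_lit 117044500350) (nat_lit 760) (nat_lit 118207911388) (nat_lit 836) (nat_lit 17014447006) (nat_lit 158) (nat_lit 5) (nat_lit 168) (nat_lit 5) (nat_lit 169) (nat_lit 5) (nat_lit 457) (nat_lit 450) (nat_lit 293))) (XT.nd (nat_lit 78) (nat_lit 380) (nat_lit 0) (XT.lf (nat_lit 0) (nat_lit 20522624303) (nat_lit 532) (nat_lit 178384549838)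 (nat_lit 76) (nat_lit 64227259257) (nat_lit 151) (nat_lit 5) (nat_lit 158) (nat_lit 5) (nat_lit 152) (nat_lit 5) (nat_lit 458) (nat_lit 450) (nat_lit 292)) (XT.lf (nat_lit 0) (nat_lit 51731870111) (nat_lit 380) (nat_lit 13937463319) (nat_lit 456) (nat_lit 208927995566) (nat_lit 146) (nat_lit 5) (nat_lit 151) (nat_lit 5) (nat_lit 152) (nat_lit 5) (nat_lit 459) (nat_lit 450) (nat_lit 291))))))))
noncomputable def xc109 : XT := (XT.nd (nat_lit 2496) (nat_lit 1216) (nat_lit 0) (XT.nd (nat_lit 1248) (nat_lit 2280) (nat_lit 0) (XT.nd (nat_lit 624) (nat_lit 1672) (nat_lit 0) (XT.nd (nat_lit 312) (nat_lit 1216) (nat_lit 0) (XT.nd (nat_lit 156) (nat_lit 684) (nat_lit 0) (XT.nd (nat_lit 78) (nat_lit 0) (nat_lit 0) (XT.lf (nat_lit 0) (nat_lit 17410577205) (nat_lit 380) (nat_lit 103348473130) (nat_lit 456) (nat_lit 165901642365) (nat_lit 141) (nat_lit 5) (nat_lit 146) (nat_lit 5) (nat_lit 147) (nat_lit 5)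 (nat_lit 460) (nat_lit 450) (nat_lit 290)) (XT.lf (nat_lit 0) (nat_lit 185934444075) (nat_lit 456) (nat_lit 16424524543) (nat_lit 76) (nat_lit 97046231918) (nat_lit 141) (nat_lit 5) (nat_lit 147) (nat_lit 5) (nat_lit 142) (nat_lit 5) (nat_lit 461) (nat_lit 450) (nat_lit 289))) (XT.nd (nat_lit 78) (nat_lit 380) (nat_lit 0) (XT.lf (nat_lit 0) (nat_lit 262195119650) (nat_lit 380) (nat_lit 49582371320) (nat_lit 76) (nat_lit 1098215522) (nat_lit 137) (nat_lit 5) (nat_lit 142) (nat_lit 5) (nat_lit 138) (nat_lit 5) (nat_lit 462) (nat_lit 450) (nat_lit 288)) (XT.lf (nat_lit 0) (nat_lit 24202837131) (nat_lit 380) (nat_lit 84515773783) (nat_lit 76) (nat_lit 218310947607) (nat_lit 132) (nat_lit 5) (nat_lit 137) (nat_lit 5) (nat_lit 133) (nat_lit 5) (nat_lit 463) (nat_lit 450) (nat_lit 287)))) (XT.nd (nat_lit 156) (nat_lit 608) (nat_lit 0) (XT.nd (nat_lit 78) (nat_lit 304) (nat_lit 0) (XT.lf (nat_lit 0)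 (nat_lit 109508665586) (nat_lit 380) (nat_lit 120097852477) (nat_lit 76) (nat_lit 112357292621) (nat_lit 128) (nat_lit 5) (nat_lit 133) (nat_lit 5) (nat_lit 129) (nat_lit 5) (nat_lit 464) (nat_lit 450) (nat_lit 286)) (XT.lf (nat_lit 0) (nat_lit 202376905588) (nat_lit 304) (nat_lit 5751140898) (nat_lit 380) (nat_lit 149640302233) (nat_lit 124) (nat_lit 5) (nat_lit 128) (nat_lit 5) (nat_lit 129) (nat_lit 5) (nat_lit 465) (nat_lit 450) (nat_lit 285))) (XT.nd (nat_lit 78) (nat_lit 380) (nat_lit 0) (XT.lf (nat_lit 0) (nat_lit 182321817499) (nat_lit 228) (nat_lit 140972739239) (nat_lit 304) (nat_lit 51109814120) (nat_lit 121) (nat_lit 5) (nat_lit 124) (nat_lit 5) (nat_lit 125) (nat_lit 5) (nat_lit 466) (nat_lit 450) (nat_lit 284)) (XT.lf (nat_lit 0) (nat_lit 60601378400) (nat_lit 380) (nat_lit 229077698635) (nat_lit 76) (nat_lit 102295610394) (nat_lit 116) (nat_lit 5) (nat_lit 121) (nat_lit 5) (nat_lit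 117) (nat_lit 5) (nat_lit 467) (nat_lit 450) (nat_lit 283))))) (XT.nd (nat_lit 312) (nat_lit 760) (nat_lit 0) (XT.nd (nat_lit 156) (nat_lit 456) (nat_lit 0) (XT.nd (nat_lit 78) (nat_lit 228) (nat_lit 0) (XT.lf (nat_lit 0) (nat_lit 143654752435) (nat_lit 228) (nat_lit 43848623600) (nat_lit 304) (nat_lit 223003132572) (nat_lit 113) (nat_lit 5) (nat_lit 116) (nat_lit 5) (nat_lit 117) (nat_lit 5) (nat_lit 468) (nat_lit 450) (nat_lit 282)) (XT.lf (nat_lit 0) (nat_lit 124524169518) (nat_lit 228) (nat_lit 209493785315) (nat_lit 304) (nat_lit 96029899585) (nat_lit 110) (nat_lit 5) (nat_lit 113) (nat_lit 5) (nat_lit 114) (nat_lit 5) (nat_lit 469) (nat_lit 450) (nat_lit 281))) (XT.nd (nat_lit 78) (nat_lit 228) (nat_lit 0) (XT.lf (nat_lit 0) (nat_lit 47883313512) (nat_lit 228) (nat_lit 343901046550) (nat_lit 76) (nat_lit 58931181782) (nat_lit 107) (nat_lit 5) (nat_lit 110) (nat_lit 5) (nat_lit 108) (nat_lit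 5) (nat_lit 470) (nat_lit 450) (nat_lit 280)) (XT.lf (nat_lit 0) (nat_lit 87852077165) (nat_lit 228) (nat_lit 122451308082) (nat_lit 304) (nat_lit 262136634913) (nat_lit 104) (nat_lit 5) (nat_lit 107) (nat_lit 5) (nat_lit 108) (nat_lit 5) (nat_lit 471) (nat_lit 450) (nat_lit 279)))) (XT.nd (nat_lit 156) (nat_lit 304) (nat_lit 0) (XT.nd (nat_lit 78) (nat_lit 304) (nat_lit 0) (XT.lf (nat_lit 0) (nat_lit 70346663246) (nat_lit 152) (nat_lit 325186996912) (nat_lit 228) (nat_lit 99877966718) (nat_lit 102) (nat_lit 5) (nat_lit 104) (nat_lit 5) (nat_lit 105) (nat_lit 5) (nat_lit 472) (nat_lit 450) (nat_lit 278)) (XT.lf (nat_lit 0) (nat_lit 53897283524) (nat_lit 228) (nat_lit 28767327558) (nat_lit 304) (nat_lit 437011758347) (nat_lit 98) (nat_lit 5) (nat_lit 101) (nat_lit 5) (nat_lit 102) (nat_lit 5) (nat_lit 473) (nat_lit 450) (nat_lit 277))) (XT.nd (nat_lit 78) (nat_lit 152) (nat_lit 0) (XT.lf (nat_lit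 0) (nat_lit 35629040099) (nat_lit 152) (nat_lit 253360063490) (nat_lit 228) (nat_lit 256177433321) (nat_lit 96) (nat_lit 5) (nat_lit 98) (nat_lit 5) (nat_lit 99) (nat_lit 5) (nat_lit 474) (nat_lit 450) (nat_lit 276)) (XT.lf (nat_lit 0) (nat_lit 20534529789) (nat_lit 152) (nat_lit 501334087436) (nat_lit 228) (nat_lit 50324847481) (nat_lit 94) (nat_lit 5) (nat_lit 96) (nat_lit 5) (nat_lit 97) (nat_lit 5) (nat_lit 475) (nat_lit 450) (nat_lit 275)))))) (XT.nd (nat_lit 624) (nat_lit 1064) (nat_lit 0) (XT.nd (nat_lit 312) (nat_lit 608) (nat_lit 0) (XT.nd (nat_lit 156) (nat_lit 380) (nat_lit 0) (XT.nd (nat_lit 78) (nat_lit 0) (nat_lit 0) (XT.lf (nat_lit 0) (nat_lit 3270574493) (nat_lit 152) (nat_lit 176564845021) (nat_lit 228) (nat_lit 420745639343) (nat_lit 91) (nat_lit 5) (nat_lit 93) (nat_lit 5) (nat_lit 94) (nat_lit 5) (nat_lit 476) (nat_lit 450) (nat_lit 274)) (XT.lf (nat_lit 0) (nat_lit 439155474320)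 (nat_lit 228) (nat_lit 12190935510) (nat_lit 76) (nat_lit 179226495640) (nat_lit 91) (nat_lit 5) (nat_lit 94) (nat_lit 5) (nat_lit 92) (nat_lit 5) (nat_lit 477) (nat_lit 450) (nat_lit 273))) (XT.nd (nat_lit 78) (nat_lit 152) (nat_lit 0) (XT.lf (nat_lit 0) (nat_lit 67593233558) (nat_lit 228) (nat_lit 26254315004) (nat_lit 76) (nat_lit 568415795941) (nat_lit 88) (nat_lit 5) (nat_lit 91) (nat_lit 5) (nat_lit 89) (nat_lit 5) (nat_lit 478) (nat_lit 450) (nat_lit 272)) (XT.lf (nat_lit 0) (nat_lit 355982348983) (nat_lit 228) (nat_lit 42745133141) (nat_lit 76) (nat_lit 296836440409) (nat_lit 86) (nat_lit 5) (nat_lit 89) (nat_lit 5) (nat_lit 87) (nat_lit 5) (nat_lit 479) (nat_lit 450) (nat_lit 271)))) (XT.nd (nat_lit 156) (nat_lit 304) (nat_lit 0) (XT.nd (nat_lit 78) (nat_lit 152) (nat_lit 0) (XT.lf (nat_lit 0) (nat_lit 675685707494) (nat_lit 152) (nat_lit 4353441269) (nat_lit 228) (nat_lit 50859570287)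 (nat_lit 84) (nat_lit 5) (nat_lit 86) (nat_lit 5) (nat_lit 87) (nat_lit 5) (nat_lit 480) (nat_lit 450) (nat_lit 270)) (XT.lf (nat_lit 0) (nat_lit 271173337383) (nat_lit 152) (nat_lit 72619397633) (nat_lit 76) (nat_lit 424135573273) (nat_lit 82) (nat_lit 5) (nat_lit 84) (nat_lit 5) (nat_lit 83) (nat_lit 5) (nat_lit 481) (nat_lit 450) (nat_lit 269))) (XT.nd (nat_lit 78) (nat_lit 152) (nat_lit 0) (XT.lf (nat_lit 0) (nat_lit 630982090362) (nat_lit 228) (nat_lit 86568770871) (nat_lit 76) (nat_lit 89637961049) (nat_lit 80) (nat_lit 5) (nat_lit 83) (nat_lit 5) (nat_lit 81) (nat_lit 4) (nat_lit 482) (nat_lit 450) (nat_lit 268)) (XT.lf (nat_lit 0) (nat_lit 183621667811) (nat_lit 152) (nat_lit 103088766945) (nat_lit 76) (nat_lit 561793200496) (nat_lit 78) (nat_lit 5) (nat_lit 80) (nat_lit 5) (nat_lit 79) (nat_lit 5) (nat_lit 483) (nat_lit 450) (nat_lit 267))))) (XT.nd (nat_lit 312) (nat_lit 532) (nat_lit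 0) (XT.nd (nat_lit 156) (nat_lit 228) (nat_lit 0) (XT.nd (nat_lit 78) (nat_lit 152) (nat_lit 0) (XT.lf (nat_lit 0) (nat_lit 582851866150) (nat_lit 228) (nat_lit 119517692202) (nat_lit 76) (nat_lit 189770195552) (nat_lit 76) (nat_lit 5) (nat_lit 79) (nat_lit 5) (nat_lit 77) (nat_lit 4) (nat_lit 484) (nat_lit 450) (nat_lit 266)) (XT.lf (nat_lit 0) (nat_lit 91884483045) (nat_lit 152) (nat_lit 136033110429) (nat_lit 76) (nat_lit 710314645295) (nat_lit 74) (nat_lit 5) (nat_lit 76) (nat_lit 5) (nat_lit 75) (nat_lit 5) (nat_lit 485) (nat_lit 450) (nat_lit 265))) (XT.nd (nat_lit 78) (nat_lit 76) (nat_lit 0) (XT.lf (nat_lit 0) (nat_lit 534395867697) (nat_lit 228) (nat_lit 156263852711) (nat_lit 76) (nat_lit 296094829096) (nat_lit 72) (nat_lit 5) (nat_lit 75) (nat_lit 5) (nat_lit 73) (nat_lit 4) (nat_lit 486) (nat_lit 450) (nat_lit 264)) (XT.lf (nat_lit 0) (nat_lit 863922821160) (nat_lit 76) (nat_lit 168125110027)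 (nat_lit 152) (nat_lit 6123725508) (nat_lit 71) (nat_lit 5) (nat_lit 72) (nat_lit 5) (nat_lit 73) (nat_lit 4) (nat_lit 487) (nat_lit 450) (nat_lit 263)))) (XT.nd (nat_lit 156) (nat_lit 228) (nat_lit 0) (XT.nd (nat_lit 78) (nat_lit 76) (nat_lit 0) (XT.lf (nat_lit 0) (nat_lit 483967485988) (nat_lit 228) (nat_lit 200033786950) (nat_lit 76) (nat_lit 408160105572) (nat_lit 68) (nat_lit 5) (nat_lit 71) (nat_lit 5) (nat_lit 69) (nat_lit 4) (nat_lit 488) (nat_lit 450) (nat_lit 262)) (XT.lf (nat_lit 0) (nat_lit 926379930896) (nat_lit 76) (nat_lit 107057683776) (nat_lit 152) (nat_lit 116008335663) (nat_lit 67) (nat_lit 5) (nat_lit 68) (nat_lit 5) (nat_lit 69) (nat_lit 4) (nat_lit 489) (nat_lit 450) (nat_lit 261))) (XT.nd (nat_lit 78) (nat_lit 76) (nat_lit 0) (XT.lf (nat_lit 0) (nat_lit 429299293778) (nat_lit 152) (nat_lit 255333801786) (nat_lit 76) (nat_lit 525003421260) (nat_lit 65) (nat_lit 5) (nat_lit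 67) (nat_lit 5) (nat_lit 66) (nat_lit 4) (nat_lit 490) (nat_lit 450) (nat_lit 260)) (XT.lf (nat_lit 0) (nat_lit 987148345925) (nat_lit 76) (nat_lit 48239818699) (nat_lit 152) (nat_lit 238098025308) (nat_lit 64) (nat_lit 5) (nat_lit 65) (nat_lit 5) (nat_lit 66) (nat_lit 4) (nat_lit 491) (nat_lit 450) (nat_lit 259))))))) (XT.nd (nat_lit 59670) (nat_lit 0) (nat_lit 4484) (XT.nd (nat_lit 624) (nat_lit 304) (nat_lit 0) (XT.nd (nat_lit 312) (nat_lit 456) (nat_lit 0) (XT.nd (nat_lit 156) (nat_lit 228) (nat_lit 0) (XT.nd (nat_lit 78) (nat_lit 76) (nat_lit 0) (XT.lf (nat_lit 0) (nat_lit 367295263108) (nat_lit 152) (nat_lit 328375592817) (nat_lit 76) (nat_lit 644956803915) (nat_lit 62) (nat_lit 5) (nat_lit 64) (nat_lit 5) (nat_lit 63) (nat_lit 4) (nat_lit 492) (nat_lit 450) (nat_lit 258)) (XT.lf (nat_lit 0) (nat_lit 1035101991549) (nat_lit 152) (nat_lit 371464077929) (nat_lit 0) (nat_lit 5263026951) (nat_lit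 61) (nat_lit 5) (nat_lit 63) (nat_lit 4) (nat_lit 61) (nat_lit 4) (nat_lit 493) (nat_lit 450) (nat_lit 257))) (XT.nd (nat_lit 78) (nat_lit 76) (nat_lit 0) (XT.lf (nat_lit 0) (nat_lit 293759572520) (nat_lit 152) (nat_lit 427631867949) (nat_lit 76) (nat_lit 765390400771) (nat_lit 59) (nat_lit 5) (nat_lit 61) (nat_lit 5) (nat_lit 60) (nat_lit 4) (nat_lit 494) (nat_lit 450) (nat_lit 256)) (XT.lf (nat_lit 0) (nat_lit 1029050359211) (nat_lit 152) (nat_lit 488902165077) (nat_lit 0) (nat_lit 48251295752) (nat_lit 58) (nat_lit 5) (nat_lit 60) (nat_lit 4) (nat_lit 58) (nat_lit 4) (nat_lit 495) (nat_lit 450) (nat_lit 255)))) (XT.nd (nat_lit 156) (nat_lit 228) (nat_lit 0) (XT.nd (nat_lit 78) (nat_lit 76) (nat_lit 0) (XT.lf (nat_lit 0) (nat_lit 203043327070) (nat_lit 152) (nat_lit 564560265024) (nat_lit 76) (nat_lit 882375458300) (nat_lit 56) (nat_lit 5) (nat_lit 58) (nat_lit 5) (nat_lit 57) (nat_lit 4) (nat_lit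 496) (nat_lit 450) (nat_lit 254)) (XT.lf (nat_lit 0) (nat_lit 1010779658185) (nat_lit 152) (nat_lit 651193927659) (nat_lit 0) (nat_lit 76685271569) (nat_lit 55) (nat_lit 5) (nat_lit 57) (nat_lit 4) (nat_lit 55) (nat_lit 4) (nat_lit 497) (nat_lit 450) (nat_lit 253))) (XT.nd (nat_lit 78) (nat_lit 76) (nat_lit 0) (XT.lf (nat_lit 0) (nat_lit 87585104427) (nat_lit 152) (nat_lit 754544940550) (nat_lit 76) (nat_lit 990242884356) (nat_lit 53) (nat_lit 5) (nat_lit 55) (nat_lit 5) (nat_lit 54) (nat_lit 4) (nat_lit 498) (nat_lit 450) (nat_lit 252)) (XT.lf (nat_lit 0) (nat_lit 972491355292) (nat_lit 152) (nat_lit 876133221485) (nat_lit 0) (nat_lit 82877620715) (nat_lit 52) (nat_lit 5) (nat_lit 54) (nat_lit 4) (nat_lit 52) (nat_lit 4) (nat_lit 499) (nat_lit 450) (nat_lit 251))))) (XT.nd (nat_lit 58734) (nat_lit 0) (nat_lit 8816) (XT.nd (nat_lit 156) (nat_lit 76) (nat_lit 0) (XT.nd (nat_lit 78) (nat_lit 152)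 (nat_lit 0) (XT.lf (nat_lit 0) (nat_lit 1017259199258) (nat_lit 76) (nat_lit 954372147551) (nat_lit 76) (nat_lit 64758398266) (nat_lit 51) (nat_lit 4) (nat_lit 52) (nat_lit 5) (nat_lit 52) (nat_lit 4) (nat_lit 500) (nat_lit 450) (nat_lit 250)) (XT.lf (nat_lit 0) (nat_lit 903619524129) (nat_lit 152) (nat_lit 1187405867202) (nat_lit 0) (nat_lit 56368321364) (nat_lit 49) (nat_lit 5) (nat_lit 51) (nat_lit 4) (nat_lit 49) (nat_lit 4) (nat_lit 501) (nat_lit 450) (nat_lit 249))) (XT.nd (nat_lit 58500) (nat_lit 0) (nat_lit 8740) (XT.lf (nat_lit 0) (nat_lit 878066276031) (nat_lit 76) (nat_lit 1117008041506) (nat_lit 76) (nat_lit 269756826732) (nat_lit 48) (nat_lit 4) (nat_lit 49) (nat_lit 5) (nat_lit 49) (nat_lit 4) (nat_lit 502) (nat_lit 450) (nat_lit 248)) (XT.lf (nat_lit 0) (nat_lit 45536130446) (nat_lit 836) (nat_lit 28630433400) (nat_lit 836) (nat_lit 28630433400) (nat_lit 163) (nat_lit 3) (nat_lit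 174) (nat_lit 3) (nat_lit 174) (nat_lit 5) (nat_lit 451) (nat_lit 451) (nat_lit 298)))) (XT.nd (nat_lit 156) (nat_lit 0) (nat_lit 76) (XT.nd (nat_lit 78) (nat_lit 0) (nat_lit 0) (XT.lf (nat_lit 0) (nat_lit 96648935907) (nat_lit 760) (nat_lit 103873717892) (nat_lit 836) (nat_lit 13198411062) (nat_lit 164) (nat_lit 5) (nat_lit 174) (nat_lit 5) (nat_lit 175) (nat_lit 5) (nat_lit 452) (nat_lit 451) (nat_lit 297)) (XT.lf (nat_lit 76) (nat_lit 69631537766) (nat_lit 0) (nat_lit 37642077424) (nat_lit 836) (nat_lit 114994592173) (nat_lit 165) (nat_lit 5) (nat_lit 164) (nat_lit 5) (nat_lit 175) (nat_lit 5) (nat_lit 453) (nat_lit 451) (nat_lit 296))) (XT.nd (nat_lit 78) (nat_lit 0) (nat_lit 76) (XT.lf (nat_lit 76) (nat_lit 28026298596) (nat_lit 0) (nat_lit 95157158007) (nat_lit 836) (nat_lit 108093905287) (nat_lit 166) (nat_lit 5) (nat_lit 165) (nat_lit 5) (nat_lit 176) (nat_lit 5) (nat_lit 454) (nat_lit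 451) (nat_lit 295)) (XT.lf (nat_lit 0) (nat_lit 144965156114) (nat_lit 760) (nat_lit 14221997467) (nat_lit 836) (nat_lit 81590141677) (nat_lit 166) (nat_lit 5) (nat_lit 176) (nat_lit 5) (nat_lit 177) (nat_lit 5) (nat_lit 455) (nat_lit 451) (nat_lit 294)))))) (XT.nd (nat_lit 624) (nat_lit 2280) (nat_lit 0) (XT.nd (nat_lit 312) (nat_lit 1064) (nat_lit 0) (XT.nd (nat_lit 156) (nat_lit 1216) (nat_lit 0) (XT.nd (nat_lit 78) (nat_lit 0) (nat_lit 0) (XT.lf (nat_lit 0) (nat_lit 173465650715) (nat_lit 760) (nat_lit 56587971377) (nat_lit 836) (nat_lit 20734788261) (nat_lit 167) (nat_lit 5) (nat_lit 177) (nat_lit 5) (nat_lit 178) (nat_lit 5) (nat_lit 456) (nat_lit 451) (nat_lit 293)) (XT.lf (nat_lit 76) (nat_lit 160670572910) (nat_lit 0) (nat_lit 49019936105) (nat_lit 836) (nat_lit 51637689447) (nat_lit 168) (nat_lit 5) (nat_lit 167) (nat_lit 5) (nat_lit 178) (nat_lit 5) (nat_lit 457) (nat_lit 451) (nat_lit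 292))) (XT.nd (nat_lit 78) (nat_lit 532) (nat_lit 0) (XT.lf (nat_lit 0) (nat_lit 126411070478) (nat_lit 760) (nat_lit 127664854266) (nat_lit 836) (nat_lit 18372116451) (nat_lit 158) (nat_lit 5) (nat_lit 168) (nat_lit 5) (nat_lit 169) (nat_lit 5) (nat_lit 458) (nat_lit 451) (nat_lit 291)) (XT.lf (nat_lit 0) (nat_lit 22167602731) (nat_lit 532) (nat_lit 192652165907) (nat_lit 76) (nat_lit 69365260791) (nat_lit 151) (nat_lit 5) (nat_lit 158) (nat_lit 5) (nat_lit 152) (nat_lit 5) (nat_lit 459) (nat_lit 451) (nat_lit 290)))) (XT.nd (nat_lit 156) (nat_lit 304) (nat_lit 0) (XT.nd (nat_lit 78) (nat_lit 380) (nat_lit 0) (XT.lf (nat_lit 0) (nat_lit 55873430833) (nat_lit 380) (nat_lit 15052430065) (nat_lit 456) (nat_lit 225639105177) (nat_lit 146) (nat_lit 5) (nat_lit 151) (nat_lit 5) (nat_lit 152) (nat_lit 5) (nat_lit 460) (nat_lit 451) (nat_lit 289)) (XT.lf (nat_lit 0) (nat_lit 18806445937) (nat_lit 380)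 (nat_lit 111616136048) (nat_lit 456) (nat_lit 179170825564) (nat_lit 141) (nat_lit 5) (nat_lit 146) (nat_lit 5) (nat_lit 147) (nat_lit 5) (nat_lit 461) (nat_lit 451) (nat_lit 288))) (XT.nd (nat_lit 78) (nat_lit 304) (nat_lit 0) (XT.lf (nat_lit 0) (nat_lit 200811802359) (nat_lit 456) (nat_lit 17735560797) (nat_lit 76) (nat_lit 104810123113) (nat_lit 141) (nat_lit 5) (nat_lit 147) (nat_lit 5) (nat_lit 142) (nat_lit 5) (nat_lit 462) (nat_lit 451) (nat_lit 287)) (XT.lf (nat_lit 0) (nat_lit 283173188262) (nat_lit 380) (nat_lit 53546045008) (nat_lit 76) (nat_lit 1186406632) (nat_lit 137) (nat_lit 5) (nat_lit 142) (nat_lit 5) (nat_lit 138) (nat_lit 5) (nat_lit 463) (nat_lit 451) (nat_lit 286))))) (XT.nd (nat_lit 312) (nat_lit 1064) (nat_lit 0) (XT.nd (nat_lit 156) (nat_lit 532) (nat_lit 0) (XT.nd (nat_lit 78) (nat_lit 304) (nat_lit 0) (XT.lf (nat_lit 0) (nat_lit 26141422722) (nat_lit 380) (nat_lit 91274168267)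 (nat_lit 76) (nat_lit 235776214144) (nat_lit 132) (nat_lit 5) (nat_lit 137) (nat_lit 5) (nat_lit 133) (nat_lit 5) (nat_lit 464) (nat_lit 451) (nat_lit 285)) (XT.lf (nat_lit 0) (nat_lit 118271593620) (nat_lit 380) (nat_lit 129702834462) (nat_lit 76) (nat_lit 121346375588) (nat_lit 128) (nat_lit 5) (nat_lit 133) (nat_lit 5) (nat_lit 129) (nat_lit 5) (nat_lit 465) (nat_lit 451) (nat_lit 284))) (XT.nd (nat_lit 78) (nat_lit 228) (nat_lit 0) (XT.lf (nat_lit 0) (nat_lit 218569780555) (nat_lit 304) (nat_lit 6210621403) (nat_lit 380) (nat_lit 161609308950) (nat_lit 124) (nat_lit 5) (nat_lit 128) (nat_lit 5) (nat_lit 129) (nat_lit 5) (nat_lit 466) (nat_lit 451) (nat_lit 283)) (XT.lf (nat_lit 0) (nat_lit 196910259095) (nat_lit 228) (nat_lit 152249868435) (nat_lit 304) (nat_lit 55196492574) (nat_lit 121) (nat_lit 5) (nat_lit 124) (nat_lit 5) (nat_lit 125) (nat_lit 5) (nat_lit 467) (nat_lit 451) (nat_lit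 282)))) (XT.nd (nat_lit 156) (nat_lit 456) (nat_lit 0) (XT.nd (nat_lit 78) (nat_lit 228) (nat_lit 0) (XT.lf (nat_lit 0) (nat_lit 65451429290) (nat_lit 380) (nat_lit 247401185484) (nat_lit 76) (nat_lit 110479950520) (nat_lit 116) (nat_lit 5) (nat_lit 121) (nat_lit 5) (nat_lit 117) (nat_lit 5) (nat_lit 468) (nat_lit 451) (nat_lit 281)) (XT.lf (nat_lit 0) (nat_lit 155149743071) (nat_lit 228) (nat_lit 47355740672) (nat_lit 304) (nat_lit 240841453581) (nat_lit 113) (nat_lit 5) (nat_lit 116) (nat_lit 5) (nat_lit 117) (nat_lit 5) (nat_lit 469) (nat_lit 451) (nat_lit 280))) (XT.nd (nat_lit 78) (nat_lit 228) (nat_lit 0) (XT.lf (nat_lit 0) (nat_lit 134488676507) (nat_lit 228) (nat_lit 226252467567) (nat_lit 304) (nat_lit 103710450970) (nat_lit 110) (nat_lit 5) (nat_lit 113) (nat_lit 5) (nat_lit 114) (nat_lit 5) (nat_lit 470) (nat_lit 451) (nat_lit 279)) (XT.lf (nat_lit 0) (nat_lit 51715680546) (nat_lit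 228) (nat_lit 371410540676) (nat_lit 76) (nat_lit 63646478799) (nat_lit 107) (nat_lit 5) (nat_lit 110) (nat_lit 5) (nat_lit 108) (nat_lit 5) (nat_lit 471) (nat_lit 451) (nat_lit 278))))))))
noncomputable def xc110 : XT := (XT.nd (nat_lit 60996) (nat_lit 0) (nat_lit 2204) (XT.nd (nat_lit 1170) (nat_lit 1748) (nat_lit 0) (XT.nd (nat_lit 546) (nat_lit 1292) (nat_lit 0) (XT.nd (nat_lit 234) (nat_lit 532) (nat_lit 0) (XT.nd (nat_lit 78) (nat_lit 456) (nat_lit 0) (XT.lf (nat_lit 0) (nat_lit 94882720395) (nat_lit 228) (nat_lit 132246550228) (nat_lit 304) (nat_lit 283105870354) (nat_lit 104) (nat_lit 5) (nat_lit 107) (nat_lit 5) (nat_lit 108) (nat_lit 5) (nat_lit 472) (nat_lit 451) (nat_lit 277)) (XT.nd (nat_lit 78) (nat_lit 304) (nat_lit 0) (XT.lf (nat_lit 0) (nat_lit 75976830117) (nat_lit 152) (nat_lit 351201068279) (nat_lit 228) (nat_lit 107866581294) (nat_lit 102) (nat_lit 5) (nat_lit 104) (nat_lit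 5) (nat_lit 105) (nat_lit 5) (nat_lit 473) (nat_lit 451) (nat_lit 276)) (XT.lf (nat_lit 0) (nat_lit 58211443986) (nat_lit 228) (nat_lit 31067827572) (nat_lit 304) (nat_lit 471971132790) (nat_lit 98) (nat_lit 5) (nat_lit 101) (nat_lit 5) (nat_lit 102) (nat_lit 5) (nat_lit 474) (nat_lit 451) (nat_lit 275)))) (XT.nd (nat_lit 156) (nat_lit 228) (nat_lit 0) (XT.nd (nat_lit 78) (nat_lit 152) (nat_lit 0) (XT.lf (nat_lit 0) (nat_lit 38481695909) (nat_lit 152) (nat_lit 273627966298) (nat_lit 228) (nat_lit 276670126088) (nat_lit 96) (nat_lit 5) (nat_lit 98) (nat_lit 5) (nat_lit 99) (nat_lit 5) (nat_lit 475) (nat_lit 451) (nat_lit 274)) (XT.lf (nat_lit 0) (nat_lit 22179578386) (nat_lit 152) (nat_lit 541439901335) (nat_lit 228) (nat_lit 54349393457) (nat_lit 94) (nat_lit 5) (nat_lit 96) (nat_lit 5) (nat_lit 97) (nat_lit 5) (nat_lit 476) (nat_lit 451) (nat_lit 273))) (XT.nd (nat_lit 78) (nat_lit 0) (nat_lit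 0) (XT.lf (nat_lit 0) (nat_lit 3534451495) (nat_lit 152) (nat_lit 190689128704) (nat_lit 228) (nat_lit 454403896968) (nat_lit 91) (nat_lit 5) (nat_lit 93) (nat_lit 5) (nat_lit 94) (nat_lit 5) (nat_lit 477) (nat_lit 451) (nat_lit 272)) (XT.lf (nat_lit 0) (nat_lit 474289154152) (nat_lit 228) (nat_lit 13164096158) (nat_lit 76) (nat_lit 193565425465) (nat_lit 91) (nat_lit 5) (nat_lit 94) (nat_lit 5) (nat_lit 92) (nat_lit 5) (nat_lit 478) (nat_lit 451) (nat_lit 271))))) (XT.nd (nat_lit 312) (nat_lit 608) (nat_lit 0) (XT.nd (nat_lit 156) (nat_lit 304) (nat_lit 0) (XT.nd (nat_lit 78) (nat_lit 152) (nat_lit 0) (XT.lf (nat_lit 0) (nat_lit 73001893115) (nat_lit 228) (nat_lit 28352598151) (nat_lit 76) (nat_lit 613889860720) (nat_lit 88) (nat_lit 5) (nat_lit 91) (nat_lit 5) (nat_lit 89) (nat_lit 5) (nat_lit 479) (nat_lit 451) (nat_lit 270)) (XT.lf (nat_lit 0) (nat_lit 384462092569) (nat_lit 228) (nat_lit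 46162727139) (nat_lit 76) (nat_lit 320584158812) (nat_lit 86) (nat_lit 5) (nat_lit 89) (nat_lit 5) (nat_lit 87) (nat_lit 5) (nat_lit 480) (nat_lit 451) (nat_lit 269))) (XT.nd (nat_lit 78) (nat_lit 152) (nat_lit 0) (XT.lf (nat_lit 0) (nat_lit 729742493105) (nat_lit 152) (nat_lit 4700887739) (nat_lit 228) (nat_lit 54927180691) (nat_lit 84) (nat_lit 5) (nat_lit 86) (nat_lit 5) (nat_lit 87) (nat_lit 5) (nat_lit 481) (nat_lit 451) (nat_lit 268)) (XT.lf (nat_lit 0) (nat_lit 292868281883) (nat_lit 152) (nat_lit 78427028343) (nat_lit 76) (nat_lit 458067208825) (nat_lit 82) (nat_lit 5) (nat_lit 84) (nat_lit 5) (nat_lit 83) (nat_lit 5) (nat_lit 482) (nat_lit 451) (nat_lit 267)))) (XT.nd (nat_lit 156) (nat_lit 304) (nat_lit 0) (XT.nd (nat_lit 78) (nat_lit 152) (nat_lit 0) (XT.lf (nat_lit 0) (nat_lit 681461696641) (nat_lit 228) (nat_lit 93492396250) (nat_lit 76) (nat_lit 96809783197) (nat_lit 80) (nat_lit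 5) (nat_lit 83) (nat_lit 5) (nat_lit 81) (nat_lit 4) (nat_lit 483) (nat_lit 451) (nat_lit 266)) (XT.lf (nat_lit 0) (nat_lit 198312407593) (nat_lit 152) (nat_lit 111334040255) (nat_lit 76) (nat_lit 606737427885) (nat_lit 78) (nat_lit 5) (nat_lit 80) (nat_lit 5) (nat_lit 79) (nat_lit 5) (nat_lit 484) (nat_lit 451) (nat_lit 265))) (XT.nd (nat_lit 78) (nat_lit 152) (nat_lit 0) (XT.lf (nat_lit 0) (nat_lit 629480986881) (nat_lit 228) (nat_lit 129077323328) (nat_lit 76) (nat_lit 204952575416) (nat_lit 76) (nat_lit 5) (nat_lit 79) (nat_lit 5) (nat_lit 77) (nat_lit 4) (nat_lit 485) (nat_lit 451) (nat_lit 264)) (XT.lf (nat_lit 0) (nat_lit 99236183016) (nat_lit 152) (nat_lit 146914021412) (nat_lit 76) (nat_lit 767140566359) (nat_lit 74) (nat_lit 5) (nat_lit 76) (nat_lit 5) (nat_lit 75) (nat_lit 5) (nat_lit 486) (nat_lit 451) (nat_lit 263)))))) (XT.nd (nat_lit 624) (nat_lit 760) (nat_lit 0) (XT.nd (nat_lit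 312) (nat_lit 456) (nat_lit 0) (XT.nd (nat_lit 156) (nat_lit 304) (nat_lit 0) (XT.nd (nat_lit 78) (nat_lit 76) (nat_lit 0) (XT.lf (nat_lit 0) (nat_lit 577148446606) (nat_lit 228) (nat_lit 168763265649) (nat_lit 76) (nat_lit 319783155719) (nat_lit 72) (nat_lit 5) (nat_lit 75) (nat_lit 5) (nat_lit 73) (nat_lit 4) (nat_lit 487) (nat_lit 451) (nat_lit 262)) (XT.lf (nat_lit 0) (nat_lit 933038268457) (nat_lit 76) (nat_lit 181574364665) (nat_lit 152) (nat_lit 6612712721) (nat_lit 71) (nat_lit 5) (nat_lit 72) (nat_lit 5) (nat_lit 73) (nat_lit 4) (nat_lit 488) (nat_lit 451) (nat_lit 261))) (XT.nd (nat_lit 78) (nat_lit 76) (nat_lit 0) (XT.lf (nat_lit 0) (nat_lit 522685737409) (nat_lit 228) (nat_lit 216034880334) (nat_lit 76) (nat_lit 440813628407) (nat_lit 68) (nat_lit 5) (nat_lit 71) (nat_lit 5) (nat_lit 69) (nat_lit 4) (nat_lit 489) (nat_lit 451) (nat_lit 260)) (XT.lf (nat_lit 0) (nat_lit 1000491864990)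 (nat_lit 76) (nat_lit 115621572284) (nat_lit 152) (nat_lit 125288148404) (nat_lit 67) (nat_lit 5) (nat_lit 68) (nat_lit 5) (nat_lit 69) (nat_lit 4) (nat_lit 490) (nat_lit 451) (nat_lit 259)))) (XT.nd (nat_lit 156) (nat_lit 228) (nat_lit 0) (XT.nd (nat_lit 78) (nat_lit 76) (nat_lit 0) (XT.lf (nat_lit 0) (nat_lit 463644037298) (nat_lit 152) (nat_lit 275758978683) (nat_lit 76) (nat_lit 567004382176) (nat_lit 65) (nat_lit 5) (nat_lit 67) (nat_lit 5) (nat_lit 66) (nat_lit 4) (nat_lit 491) (nat_lit 451) (nat_lit 258)) (XT.lf (nat_lit 0) (nat_lit 1066121674472) (nat_lit 76) (nat_lit 52098306888) (nat_lit 152) (nat_lit 257145065578) (nat_lit 64) (nat_lit 5) (nat_lit 65) (nat_lit 5) (nat_lit 66) (nat_lit 4) (nat_lit 492) (nat_lit 451) (nat_lit 257))) (XT.nd (nat_lit 78) (nat_lit 76) (nat_lit 0) (XT.lf (nat_lit 0) (nat_lit 396679635596) (nat_lit 152) (nat_lit 354644191887) (nat_lit 76) (nat_lit 696554007563)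 (nat_lit 62) (nat_lit 5) (nat_lit 64) (nat_lit 5) (nat_lit 63) (nat_lit 4) (nat_lit 493) (nat_lit 451) (nat_lit 256)) (XT.lf (nat_lit 0) (nat_lit 1117910878710) (nat_lit 152) (nat_lit 401179793302) (nat_lit 0) (nat_lit 5684715731) (nat_lit 61) (nat_lit 5) (nat_lit 63) (nat_lit 4) (nat_lit 61) (nat_lit 4) (nat_lit 494) (nat_lit 451) (nat_lit 255))))) (XT.nd (nat_lit 312) (nat_lit 304) (nat_lit 0) (XT.nd (nat_lit 156) (nat_lit 228) (nat_lit 0) (XT.nd (nat_lit 78) (nat_lit 76) (nat_lit 0) (XT.lf (nat_lit 0) (nat_lit 317261044715) (nat_lit 152) (nat_lit 461841044475) (nat_lit 76) (nat_lit 826622264022) (nat_lit 59) (nat_lit 5) (nat_lit 61) (nat_lit 5) (nat_lit 60) (nat_lit 4) (nat_lit 495) (nat_lit 451) (nat_lit 254)) (XT.lf (nat_lit 0) (nat_lit 1111375072491) (nat_lit 152) (nat_lit 528013001274) (nat_lit 0) (nat_lit 52112017643) (nat_lit 58) (nat_lit 5) (nat_lit 60) (nat_lit 4) (nat_lit 58) (nat_lit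 4) (nat_lit 496) (nat_lit 451) (nat_lit 253))) (XT.nd (nat_lit 78) (nat_lit 76) (nat_lit 0) (XT.lf (nat_lit 0) (nat_lit 219287457764) (nat_lit 152) (nat_lit 609723785343) (nat_lit 76) (nat_lit 952966098086) (nat_lit 56) (nat_lit 5) (nat_lit 58) (nat_lit 5) (nat_lit 57) (nat_lit 4) (nat_lit 497) (nat_lit 451) (nat_lit 252)) (XT.lf (nat_lit 0) (nat_lit 1091642675089) (nat_lit 152) (nat_lit 703288175300) (nat_lit 0) (nat_lit 82820683400) (nat_lit 55) (nat_lit 5) (nat_lit 57) (nat_lit 4) (nat_lit 55) (nat_lit 4) (nat_lit 498) (nat_lit 451) (nat_lit 251)))) (XT.nd (nat_lit 156) (nat_lit 76) (nat_lit 0) (XT.nd (nat_lit 78) (nat_lit 76) (nat_lit 0) (XT.lf (nat_lit 0) (nat_lit 94592538318) (nat_lit 152) (nat_lit 814907303578) (nat_lit 76) (nat_lit 1069462890502) (nat_lit 53) (nat_lit 5) (nat_lit 55) (nat_lit 5) (nat_lit 54) (nat_lit 4) (nat_lit 499) (nat_lit 451) (nat_lit 250)) (XT.lf (nat_lit 0) (nat_lit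 1050291270390) (nat_lit 152) (nat_lit 946222679726) (nat_lit 0) (nat_lit 89508392837) (nat_lit 52) (nat_lit 5) (nat_lit 54) (nat_lit 4) (nat_lit 52) (nat_lit 4) (nat_lit 500) (nat_lit 451) (nat_lit 249))) (XT.nd (nat_lit 58656) (nat_lit 0) (nat_lit 8512) (XT.lf (nat_lit 0) (nat_lit 1098641082549) (nat_lit 76) (nat_lit 1030721351654) (nat_lit 76) (nat_lit 69938461491) (nat_lit 51) (nat_lit 4) (nat_lit 52) (nat_lit 5) (nat_lit 52) (nat_lit 4) (nat_lit 501) (nat_lit 451) (nat_lit 248)) (XT.lf (nat_lit 0) (nat_lit 49181355599) (nat_lit 836) (nat_lit 30919642256) (nat_lit 836) (nat_lit 30919642256) (nat_lit 163) (nat_lit 3) (nat_lit 174) (nat_lit 3) (nat_lit 174) (nat_lit 5) (nat_lit 452) (nat_lit 452) (nat_lit 296))))))) (XT.nd (nat_lit 1248) (nat_lit 3116) (nat_lit 0) (XT.nd (nat_lit 624) (nat_lit 2280) (nat_lit 0) (XT.nd (nat_lit 312) (nat_lit 988) (nat_lit 0) (XT.nd (nat_lit 156) (nat_lit 0) (nat_lit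 76) (XT.nd (nat_lit 78) (nat_lit 0) (nat_lit 0) (XT.lf (nat_lit 0) (nat_lit 104385179483) (nat_lit 760) (nat_lit 112181020432) (nat_lit 836) (nat_lit 14252333366) (nat_lit 164) (nat_lit 5) (nat_lit 174) (nat_lit 5) (nat_lit 175) (nat_lit 5) (nat_lit 453) (nat_lit 452) (nat_lit 295)) (XT.lf (nat_lit 76) (nat_lit 75204542908) (nat_lit 0) (nat_lit 40655008309) (nat_lit 836) (nat_lit 124189910085) (nat_lit 165) (nat_lit 5) (nat_lit 164) (nat_lit 5) (nat_lit 175) (nat_lit 5) (nat_lit 454) (nat_lit 452) (nat_lit 294))) (XT.nd (nat_lit 78) (nat_lit 0) (nat_lit 76) (XT.lf (nat_lit 76) (nat_lit 30270993945) (nat_lit 0) (nat_lit 102770904075) (nat_lit 836) (nat_lit 116737464291) (nat_lit 166) (nat_lit 5) (nat_lit 165) (nat_lit 5) (nat_lit 176) (nat_lit 5) (nat_lit 455) (nat_lit 452) (nat_lit 293)) (XT.lf (nat_lit 0) (nat_lit 156565837647) (nat_lit 760) (nat_lit 15357166235) (nat_lit 836) (nat_lit 88116301279)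 (nat_lit 166) (nat_lit 5) (nat_lit 176) (nat_lit 5) (nat_lit 177) (nat_lit 5) (nat_lit 456) (nat_lit 452) (nat_lit 292)))) (XT.nd (nat_lit 156) (nat_lit 1216) (nat_lit 0) (XT.nd (nat_lit 78) (nat_lit 0) (nat_lit 0) (XT.lf (nat_lit 0) (nat_lit 187346141487) (nat_lit 760) (nat_lit 61112355818) (nat_lit 836) (nat_lit 22392823695) (nat_lit 167) (nat_lit 5) (nat_lit 177) (nat_lit 5) (nat_lit 178) (nat_lit 5) (nat_lit 457) (nat_lit 452) (nat_lit 291)) (XT.lf (nat_lit 76) (nat_lit 173526756704) (nat_lit 0) (nat_lit 52942031467) (nat_lit 836) (nat_lit 55765514019) (nat_lit 168) (nat_lit 5) (nat_lit 167) (nat_lit 5) (nat_lit 178) (nat_lit 5) (nat_lit 458) (nat_lit 452) (nat_lit 290))) (XT.nd (nat_lit 78) (nat_lit 532) (nat_lit 0) (XT.lf (nat_lit 0) (nat_lit 136526536791) (nat_lit 760) (nat_lit 137878308354) (nat_lit 836) (nat_lit 19838896814) (nat_lit 158) (nat_lit 5) (nat_lit 168) (nat_lit 5) (nat_lit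 169) (nat_lit 5) (nat_lit 459) (nat_lit 452) (nat_lit 289)) (XT.lf (nat_lit 0) (nat_lit 23943727414) (nat_lit 532) (nat_lit 208061640347) (nat_lit 76) (nat_lit 74914328013) (nat_lit 151) (nat_lit 5) (nat_lit 158) (nat_lit 5) (nat_lit 152) (nat_lit 5) (nat_lit 460) (nat_lit 452) (nat_lit 288))))) (XT.nd (nat_lit 312) (nat_lit 1216) (nat_lit 0) (XT.nd (nat_lit 156) (nat_lit 304) (nat_lit 0) (XT.nd (nat_lit 78) (nat_lit 380) (nat_lit 0) (XT.lf (nat_lit 0) (nat_lit 60345886844) (nat_lit 380) (nat_lit 16256598476) (nat_lit 456) (nat_lit 243687550092) (nat_lit 146) (nat_lit 5) (nat_lit 151) (nat_lit 5) (nat_lit 152) (nat_lit 5) (nat_lit 461) (nat_lit 452) (nat_lit 287)) (XT.lf (nat_lit 0) (nat_lit 20313552966) (nat_lit 380) (nat_lit 120545242662) (nat_lit 456) (nat_lit 193501964012) (nat_lit 141) (nat_lit 5) (nat_lit 146) (nat_lit 5) (nat_lit 147) (nat_lit 5) (nat_lit 462) (nat_lit 452) (nat_lit 286)))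 (XT.nd (nat_lit 78) (nat_lit 304) (nat_lit 0) (XT.lf (nat_lit 0) (nat_lit 216878977994) (nat_lit 456) (nat_lit 19151897336) (nat_lit 76) (nat_lit 113195098122) (nat_lit 141) (nat_lit 5) (nat_lit 147) (nat_lit 5) (nat_lit 142) (nat_lit 5) (nat_lit 463) (nat_lit 452) (nat_lit 285)) (XT.lf (nat_lit 0) (nat_lit 305829151553) (nat_lit 380) (nat_lit 57827228593) (nat_lit 76) (nat_lit 1281605400) (nat_lit 137) (nat_lit 5) (nat_lit 142) (nat_lit 5) (nat_lit 138) (nat_lit 5) (nat_lit 464) (nat_lit 452) (nat_lit 284)))) (XT.nd (nat_lit 156) (nat_lit 532) (nat_lit 0) (XT.nd (nat_lit 78) (nat_lit 304) (nat_lit 0) (XT.lf (nat_lit 0) (nat_lit 28234758676) (nat_lit 380) (nat_lit 98573643379) (nat_lit 76) (nat_lit 254638646261) (nat_lit 132) (nat_lit 5) (nat_lit 137) (nat_lit 5) (nat_lit 133) (nat_lit 5) (nat_lit 465) (nat_lit 452) (nat_lit 283)) (XT.lf (nat_lit 0) (nat_lit 127735237080) (nat_lit 380) (nat_lit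 140076621050) (nat_lit 76) (nat_lit 131054513924) (nat_lit 128) (nat_lit 5) (nat_lit 133) (nat_lit 5) (nat_lit 129) (nat_lit 5) (nat_lit 466) (nat_lit 452) (nat_lit 282))) (XT.nd (nat_lit 78) (nat_lit 228) (nat_lit 0) (XT.lf (nat_lit 0) (nat_lit 236057697121) (nat_lit 304) (nat_lit 6706947482) (nat_lit 380) (nat_lit 174536152551) (nat_lit 124) (nat_lit 5) (nat_lit 128) (nat_lit 5) (nat_lit 129) (nat_lit 5) (nat_lit 467) (nat_lit 452) (nat_lit 281)) (XT.lf (nat_lit 0) (nat_lit 212665391375) (nat_lit 228) (nat_lit 164429266395) (nat_lit 304) (nat_lit 59610405845) (nat_lit 121) (nat_lit 5) (nat_lit 124) (nat_lit 5) (nat_lit 125) (nat_lit 5) (nat_lit 468) (nat_lit 452) (nat_lit 280)))))) (XT.nd (nat_lit 624) (nat_lit 1216) (nat_lit 0) (XT.nd (nat_lit 312) (nat_lit 836) (nat_lit 0) (XT.nd (nat_lit 156) (nat_lit 456) (nat_lit 0) (XT.nd (nat_lit 78) (nat_lit 228) (nat_lit 0) (XT.lf (nat_lit 0) (nat_lit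 70689207400) (nat_lit 380) (nat_lit 267190940609) (nat_lit 76) (nat_lit 119318939236) (nat_lit 116) (nat_lit 5) (nat_lit 121) (nat_lit 5) (nat_lit 117) (nat_lit 5) (nat_lit 469) (nat_lit 452) (nat_lit 279)) (XT.lf (nat_lit 0) (nat_lit 167563960549) (nat_lit 228) (nat_lit 51143537361) (nat_lit 304) (nat_lit 260107115550) (nat_lit 113) (nat_lit 5) (nat_lit 116) (nat_lit 5) (nat_lit 117) (nat_lit 5) (nat_lit 470) (nat_lit 452) (nat_lit 278))) (XT.nd (nat_lit 78) (nat_lit 228) (nat_lit 0) (XT.lf (nat_lit 0) (nat_lit 145249976928) (nat_lit 228) (nat_lit 244351961464) (nat_lit 304) (nat_lit 112005709046) (nat_lit 110) (nat_lit 5) (nat_lit 113) (nat_lit 5) (nat_lit 114) (nat_lit 5) (nat_lit 471) (nat_lit 452) (nat_lit 277)) (XT.lf (nat_lit 0) (nat_lit 55854394139) (nat_lit 228) (nat_lit 401121163767) (nat_lit 76) (nat_lit 68738885094) (nat_lit 107) (nat_lit 5) (nat_lit 110) (nat_lit 5) (nat_lit 108)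 (nat_lit 5) (nat_lit 472) (nat_lit 452) (nat_lit 276)))) (XT.nd (nat_lit 156) (nat_lit 456) (nat_lit 0) (XT.nd (nat_lit 78) (nat_lit 152) (nat_lit 0) (XT.lf (nat_lit 0) (nat_lit 102475461704) (nat_lit 228) (nat_lit 142825534790) (nat_lit 304) (nat_lit 305752886492) (nat_lit 104) (nat_lit 5) (nat_lit 107) (nat_lit 5) (nat_lit 108) (nat_lit 5) (nat_lit 473) (nat_lit 452) (nat_lit 275)) (XT.lf (nat_lit 0) (nat_lit 82057063127) (nat_lit 152) (nat_lit 379296392094) (nat_lit 228) (nat_lit 116494516542) (nat_lit 102) (nat_lit 5) (nat_lit 104) (nat_lit 5) (nat_lit 105) (nat_lit 5) (nat_lit 474) (nat_lit 452) (nat_lit 274))) (XT.nd (nat_lit 78) (nat_lit 152) (nat_lit 0) (XT.lf (nat_lit 0) (nat_lit 62870398069) (nat_lit 228) (nat_lit 33552494012) (nat_lit 304) (nat_lit 509727480628) (nat_lit 98) (nat_lit 5) (nat_lit 101) (nat_lit 5) (nat_lit 102) (nat_lit 5) (nat_lit 475) (nat_lit 452) (nat_lit 273)) (XT.lf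 (nat_lit 0) (nat_lit 41562231412) (nat_lit 152) (nat_lit 295517430049) (nat_lit 228) (nat_lit 298802448539) (nat_lit 96) (nat_lit 5) (nat_lit 98) (nat_lit 5) (nat_lit 99) (nat_lit 5) (nat_lit 476) (nat_lit 452) (nat_lit 272))))) (XT.nd (nat_lit 312) (nat_lit 608) (nat_lit 0) (XT.nd (nat_lit 156) (nat_lit 228) (nat_lit 0) (XT.nd (nat_lit 78) (nat_lit 228) (nat_lit 0) (XT.lf (nat_lit 0) (nat_lit 23955904717) (nat_lit 152) (nat_lit 584754310609) (nat_lit 228) (nat_lit 58696108804) (nat_lit 94) (nat_lit 5) (nat_lit 96) (nat_lit 5) (nat_lit 97) (nat_lit 5) (nat_lit 477) (nat_lit 452) (nat_lit 271)) (XT.lf (nat_lit 0) (nat_lit 3819120375) (nat_lit 152) (nat_lit 205943484036) (nat_lit 228) (nat_lit 490755014005) (nat_lit 91) (nat_lit 5) (nat_lit 93) (nat_lit 5) (nat_lit 94) (nat_lit 5) (nat_lit 478) (nat_lit 452) (nat_lit 270))) (XT.nd (nat_lit 78) (nat_lit 228) (nat_lit 0) (XT.lf (nat_lit 0) (nat_lit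 512233351201) (nat_lit 228) (nat_lit 14215411270) (nat_lit 76) (nat_lit 209051354096) (nat_lit 91) (nat_lit 5) (nat_lit 94) (nat_lit 5) (nat_lit 92) (nat_lit 5) (nat_lit 479) (nat_lit 452) (nat_lit 269)) (XT.lf (nat_lit 0) (nat_lit 78843074118) (nat_lit 228) (nat_lit 30619038124) (nat_lit 76) (nat_lit 663001736395) (nat_lit 88) (nat_lit 5) (nat_lit 91) (nat_lit 5) (nat_lit 89) (nat_lit 5) (nat_lit 480) (nat_lit 452) (nat_lit 268)))) (XT.nd (nat_lit 156) (nat_lit 304) (nat_lit 0) (XT.nd (nat_lit 78) (nat_lit 152) (nat_lit 0) (XT.lf (nat_lit 0) (nat_lit 415220050774) (nat_lit 228) (nat_lit 49854016355) (nat_lit 76) (nat_lit 346231580105) (nat_lit 86) (nat_lit 5) (nat_lit 89) (nat_lit 5) (nat_lit 87) (nat_lit 5) (nat_lit 481) (nat_lit 452) (nat_lit 267)) (XT.lf (nat_lit 0) (nat_lit 788123546370) (nat_lit 152) (nat_lit 5076248169) (nat_lit 228) (nat_lit 59320364732) (nat_lit 84) (nat_lit 5) (nat_lit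 86) (nat_lit 5) (nat_lit 87) (nat_lit 5) (nat_lit 482) (nat_lit 452) (nat_lit 266))) (XT.nd (nat_lit 78) (nat_lit 152) (nat_lit 0) (XT.lf (nat_lit 0) (nat_lit 316298668225) (nat_lit 152) (nat_lit 84699543575) (nat_lit 76) (nat_lit 494713262563) (nat_lit 82) (nat_lit 5) (nat_lit 84) (nat_lit 5) (nat_lit 83) (nat_lit 5) (nat_lit 483) (nat_lit 452) (nat_lit 265)) (XT.lf (nat_lit 0) (nat_lit 735979523190) (nat_lit 228) (nat_lit 100970179333) (nat_lit 76) (nat_lit 104555239090) (nat_lit 80) (nat_lit 5) (nat_lit 83) (nat_lit 5) (nat_lit 81) (nat_lit 4) (nat_lit 484) (nat_lit 452) (nat_lit 264))))))))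
noncomputable def xc111 : XT := (XT.nd (nat_lit 61152) (nat_lit 0) (nat_lit 304) (XT.nd (nat_lit 1248) (nat_lit 76) (nat_lit 0) (XT.nd (nat_lit 624) (nat_lit 912) (nat_lit 0) (XT.nd (nat_lit 312) (nat_lit 532) (nat_lit 0) (XT.nd (nat_lit 156) (nat_lit 304) (nat_lit 0) (XT.nd (nat_lit 78) (nat_lit 152) (nat_lit 0) (XT.lf (nat_lit 0) (nat_lit 214178262990) (nat_lit 152) (nat_lit 120239196221) (nat_lit 76) (nat_lit 655277083423) (nat_lit 78) (nat_lit 5) (nat_lit 80) (nat_lit 5) (nat_lit 79) (nat_lit 5) (nat_lit 485) (nat_lit 452) (nat_lit 263)) (XT.lf (nat_lit 0) (nat_lit 679840298684) (nat_lit 228) (nat_lit 139401979487) (nat_lit 76) (nat_lit 221349436644) (nat_lit 76) (nat_lit 5) (nat_lit 79) (nat_lit 5) (nat_lit 77) (nat_lit 4) (nat_lit 486) (nat_lit 452) (nat_lit 262))) (XT.nd (nat_lit 78) (nat_lit 152) (nat_lit 0) (XT.lf (nat_lit 0) (nat_lit 107175884694) (nat_lit 152) (nat_lit 158665653198)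 (nat_lit 76) (nat_lit 828512454192) (nat_lit 74) (nat_lit 5) (nat_lit 76) (nat_lit 5) (nat_lit 75) (nat_lit 5) (nat_lit 487) (nat_lit 452) (nat_lit 261)) (XT.lf (nat_lit 0) (nat_lit 623321102078) (nat_lit 228) (nat_lit 182262873471) (nat_lit 76) (nat_lit 345366442861) (nat_lit 72) (nat_lit 5) (nat_lit 75) (nat_lit 5) (nat_lit 73) (nat_lit 4) (nat_lit 488) (nat_lit 452) (nat_lit 260)))) (XT.nd (nat_lit 156) (nat_lit 228) (nat_lit 0) (XT.nd (nat_lit 78) (nat_lit 228) (nat_lit 0) (XT.lf (nat_lit 0) (nat_lit 1007682720199) (nat_lit 76) (nat_lit 196099667265) (nat_lit 152) (nat_lit 7140948850) (nat_lit 71) (nat_lit 5) (nat_lit 72) (nat_lit 5) (nat_lit 73) (nat_lit 4) (nat_lit 489) (nat_lit 452) (nat_lit 259)) (XT.lf (nat_lit 0) (nat_lit 564501327319) (nat_lit 228) (nat_lit 233316290812) (nat_lit 76) (nat_lit 476079331154) (nat_lit 68) (nat_lit 5) (nat_lit 71) (nat_lit 5) (nat_lit 69) (nat_lit 4) (nat_lit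 490) (nat_lit 452) (nat_lit 258))) (XT.nd (nat_lit 78) (nat_lit 152) (nat_lit 0) (XT.lf (nat_lit 0) (nat_lit 1080532534167) (nat_lit 76) (nat_lit 124870675473) (nat_lit 152) (nat_lit 135310468012) (nat_lit 67) (nat_lit 5) (nat_lit 68) (nat_lit 5) (nat_lit 69) (nat_lit 4) (nat_lit 491) (nat_lit 452) (nat_lit 257)) (XT.lf (nat_lit 0) (nat_lit 500736246169) (nat_lit 152) (nat_lit 297818387611) (nat_lit 76) (nat_lit 612365321927) (nat_lit 65) (nat_lit 5) (nat_lit 67) (nat_lit 5) (nat_lit 66) (nat_lit 4) (nat_lit 492) (nat_lit 452) (nat_lit 256))))) (XT.nd (nat_lit 312) (nat_lit 456) (nat_lit 0) (XT.nd (nat_lit 156) (nat_lit 228) (nat_lit 0) (XT.nd (nat_lit 78) (nat_lit 152) (nat_lit 0) (XT.lf (nat_lit 0) (nat_lit 1151412660894) (nat_lit 76) (nat_lit 56265573610) (nat_lit 152) (nat_lit 277715983449) (nat_lit 64) (nat_lit 5) (nat_lit 65) (nat_lit 5) (nat_lit 66) (nat_lit 4) (nat_lit 493) (nat_lit 452)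 (nat_lit 255)) (XT.lf (nat_lit 0) (nat_lit 428414650683) (nat_lit 152) (nat_lit 383014485507) (nat_lit 76) (nat_lit 752278893442) (nat_lit 62) (nat_lit 5) (nat_lit 64) (nat_lit 5) (nat_lit 63) (nat_lit 4) (nat_lit 494) (nat_lit 452) (nat_lit 254))) (XT.nd (nat_lit 78) (nat_lit 152) (nat_lit 0) (XT.lf (nat_lit 0) (nat_lit 1207344373010) (nat_lit 152) (nat_lit 433272967181) (nat_lit 0) (nat_lit 6140047365) (nat_lit 61) (nat_lit 5) (nat_lit 63) (nat_lit 4) (nat_lit 61) (nat_lit 4) (nat_lit 495) (nat_lit 452) (nat_lit 253)) (XT.lf (nat_lit 0) (nat_lit 342642533912) (nat_lit 152) (nat_lit 498787150984) (nat_lit 76) (nat_lit 892752586287) (nat_lit 59) (nat_lit 5) (nat_lit 61) (nat_lit 5) (nat_lit 60) (nat_lit 4) (nat_lit 496) (nat_lit 452) (nat_lit 252)))) (XT.nd (nat_lit 156) (nat_lit 228) (nat_lit 0) (XT.nd (nat_lit 78) (nat_lit 152) (nat_lit 0) (XT.lf (nat_lit 0) (nat_lit 1200285665177) (nat_lit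 152) (nat_lit 570252895106) (nat_lit 0) (nat_lit 56281509089) (nat_lit 58) (nat_lit 5) (nat_lit 60) (nat_lit 4) (nat_lit 58) (nat_lit 4) (nat_lit 497) (nat_lit 452) (nat_lit 251)) (XT.lf (nat_lit 0) (nat_lit 236831024111) (nat_lit 152) (nat_lit 658500572874) (nat_lit 76) (nat_lit 1029203903013) (nat_lit 56) (nat_lit 5) (nat_lit 58) (nat_lit 5) (nat_lit 57) (nat_lit 4) (nat_lit 498) (nat_lit 452) (nat_lit 250))) (XT.nd (nat_lit 78) (nat_lit 152) (nat_lit 0) (XT.lf (nat_lit 0) (nat_lit 1178974641436) (nat_lit 152) (nat_lit 759550143442) (nat_lit 0) (nat_lit 89446843991) (nat_lit 55) (nat_lit 5) (nat_lit 57) (nat_lit 4) (nat_lit 55) (nat_lit 4) (nat_lit 499) (nat_lit 452) (nat_lit 249)) (XT.lf (nat_lit 0) (nat_lit 102160477681) (nat_lit 152) (nat_lit 880098831438) (nat_lit 76) (nat_lit 1155020415053) (nat_lit 53) (nat_lit 5) (nat_lit 55) (nat_lit 5) (nat_lit 54) (nat_lit 4) (nat_lit 500) (nat_lit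 452) (nat_lit 248)))))) (XT.nd (nat_lit 59280) (nat_lit 0) (nat_lit 5776) (XT.nd (nat_lit 58968) (nat_lit 0) (nat_lit 8588) (XT.nd (nat_lit 58812) (nat_lit 0) (nat_lit 8512) (XT.nd (nat_lit 58734) (nat_lit 0) (nat_lit 8436) (XT.lf (nat_lit 0) (nat_lit 1134315092147) (nat_lit 152) (nat_lit 1021919465745) (nat_lit 0) (nat_lit 96669546487) (nat_lit 52) (nat_lit 5) (nat_lit 54) (nat_lit 4) (nat_lit 52) (nat_lit 4) (nat_lit 501) (nat_lit 452) (nat_lit 247)) (XT.lf (nat_lit 0) (nat_lit 53117865691) (nat_lit 836) (nat_lit 33392162696) (nat_lit 836) (nat_lit 33392162696) (nat_lit 163) (nat_lit 3) (nat_lit 174) (nat_lit 3) (nat_lit 174) (nat_lit 5) (nat_lit 453) (nat_lit 453) (nat_lit 294))) (XT.nd (nat_lit 78) (nat_lit 0) (nat_lit 0) (XT.lf (nat_lit 0) (nat_lit 112739705007) (nat_lit 760) (nat_lit 121153277365) (nat_lit 836) (nat_lit 15390847727) (nat_lit 164) (nat_lit 5) (nat_lit 174) (nat_lit 5) (nat_lit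 175) (nat_lit 5) (nat_lit 454) (nat_lit 453) (nat_lit 293)) (XT.lf (nat_lit 76) (nat_lit 81223034359) (nat_lit 0) (nat_lit 43908750444) (nat_lit 836) (nat_lit 134121459664) (nat_lit 165) (nat_lit 5) (nat_lit 164) (nat_lit 5) (nat_lit 175) (nat_lit 5) (nat_lit 455) (nat_lit 453) (nat_lit 292)))) (XT.nd (nat_lit 156) (nat_lit 0) (nat_lit 152) (XT.nd (nat_lit 78) (nat_lit 0) (nat_lit 76) (XT.lf (nat_lit 76) (nat_lit 32694895221) (nat_lit 0) (nat_lit 110993582426) (nat_lit 836) (nat_lit 126073072015) (nat_lit 166) (nat_lit 5) (nat_lit 165) (nat_lit 5) (nat_lit 176) (nat_lit 5) (nat_lit 456) (nat_lit 453) (nat_lit 291)) (XT.lf (nat_lit 0) (nat_lit 169094078805) (nat_lit 760) (nat_lit 16583518143) (nat_lit 836) (nat_lit 95164703691) (nat_lit 166) (nat_lit 5) (nat_lit 176) (nat_lit 5) (nat_lit 177) (nat_lit 5) (nat_lit 457) (nat_lit 453) (nat_lit 290))) (XT.nd (nat_lit 78) (nat_lit 0) (nat_lit 0) (XT.lf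 (nat_lit 0) (nat_lit 202336609482) (nat_lit 760) (nat_lit 65999069533) (nat_lit 836) (nat_lit 24183608621) (nat_lit 167) (nat_lit 5) (nat_lit 177) (nat_lit 5) (nat_lit 178) (nat_lit 5) (nat_lit 458) (nat_lit 453) (nat_lit 289)) (XT.lf (nat_lit 76) (nat_lit 187411073133) (nat_lit 0) (nat_lit 57177823060) (nat_lit 836) (nat_lit 60224019730) (nat_lit 168) (nat_lit 5) (nat_lit 167) (nat_lit 5) (nat_lit 178) (nat_lit 5) (nat_lit 459) (nat_lit 453) (nat_lit 288))))) (XT.nd (nat_lit 312) (nat_lit 988) (nat_lit 0) (XT.nd (nat_lit 156) (nat_lit 760) (nat_lit 0) (XT.nd (nat_lit 78) (nat_lit 532) (nat_lit 0) (XT.lf (nat_lit 0) (nat_lit 147450872248) (nat_lit 760) (nat_lit 148908800857) (nat_lit 836) (nat_lit 21423446013) (nat_lit 158) (nat_lit 5) (nat_lit 168) (nat_lit 5) (nat_lit 169) (nat_lit 5) (nat_lit 460) (nat_lit 453) (nat_lit 287)) (XT.lf (nat_lit 0) (nat_lit 25861554538) (nat_lit 532) (nat_lit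 224704257761) (nat_lit 76) (nat_lit 80907342532) (nat_lit 151) (nat_lit 5) (nat_lit 158) (nat_lit 5) (nat_lit 152) (nat_lit 5) (nat_lit 461) (nat_lit 453) (nat_lit 286))) (XT.nd (nat_lit 78) (nat_lit 380) (nat_lit 0) (XT.lf (nat_lit 0) (nat_lit 65175771050) (nat_lit 380) (nat_lit 17557104068) (nat_lit 456) (nat_lit 263180253431) (nat_lit 146) (nat_lit 5) (nat_lit 151) (nat_lit 5) (nat_lit 152) (nat_lit 5) (nat_lit 462) (nat_lit 453) (nat_lit 285)) (XT.lf (nat_lit 0) (nat_lit 21940858872) (nat_lit 380) (nat_lit 130188704093) (nat_lit 456) (nat_lit 208979954125) (nat_lit 141) (nat_lit 5) (nat_lit 146) (nat_lit 5) (nat_lit 147) (nat_lit 5) (nat_lit 463) (nat_lit 453) (nat_lit 284)))) (XT.nd (nat_lit 156) (nat_lit 684) (nat_lit 0) (XT.nd (nat_lit 78) (nat_lit 304) (nat_lit 0) (XT.lf (nat_lit 0) (nat_lit 234231209338) (nat_lit 456) (nat_lit 20681898639) (nat_lit 76) (nat_lit 122250847569) (nat_lit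 141) (nat_lit 5) (nat_lit 147) (nat_lit 5) (nat_lit 142) (nat_lit 5) (nat_lit 464) (nat_lit 453) (nat_lit 283)) (XT.lf (nat_lit 0) (nat_lit 330297291145) (nat_lit 380) (nat_lit 62451263519) (nat_lit 76) (nat_lit 1384379235) (nat_lit 137) (nat_lit 5) (nat_lit 142) (nat_lit 5) (nat_lit 138) (nat_lit 5) (nat_lit 465) (nat_lit 453) (nat_lit 282))) (XT.nd (nat_lit 78) (nat_lit 304) (nat_lit 0) (XT.lf (nat_lit 0) (nat_lit 30495273025) (nat_lit 380) (nat_lit 106457427212) (nat_lit 76) (nat_lit 275010025159) (nat_lit 132) (nat_lit 5) (nat_lit 137) (nat_lit 5) (nat_lit 133) (nat_lit 5) (nat_lit 466) (nat_lit 453) (nat_lit 281)) (XT.lf (nat_lit 0) (nat_lit 137955698682) (nat_lit 380) (nat_lit 151280658683) (nat_lit 76) (nat_lit 141539242227) (nat_lit 128) (nat_lit 5) (nat_lit 133) (nat_lit 5) (nat_lit 129) (nat_lit 5) (nat_lit 467) (nat_lit 453) (nat_lit 280))))))) (XT.nd (nat_lit 1248) (nat_lit 2128)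 (nat_lit 0) (XT.nd (nat_lit 624) (nat_lit 1368) (nat_lit 0) (XT.nd (nat_lit 312) (nat_lit 836) (nat_lit 0) (XT.nd (nat_lit 156) (nat_lit 608) (nat_lit 0) (XT.nd (nat_lit 78) (nat_lit 228) (nat_lit 0) (XT.lf (nat_lit 0) (nat_lit 254944314025) (nat_lit 304) (nat_lit 7243054349) (nat_lit 380) (nat_lit 188497414854) (nat_lit 124) (nat_lit 5) (nat_lit 128) (nat_lit 5) (nat_lit 129) (nat_lit 5) (nat_lit 468) (nat_lit 453) (nat_lit 279)) (XT.lf (nat_lit 0) (nat_lit 229680604469) (nat_lit 228) (nat_lit 177583100578) (nat_lit 304) (nat_lit 64377689843) (nat_lit 121) (nat_lit 5) (nat_lit 124) (nat_lit 5) (nat_lit 125) (nat_lit 5) (nat_lit 469) (nat_lit 453) (nat_lit 278))) (XT.nd (nat_lit 78) (nat_lit 228) (nat_lit 0) (XT.lf (nat_lit 0) (nat_lit 76345770404) (nat_lit 380) (nat_lit 288564209931) (nat_lit 76) (nat_lit 128864962496) (nat_lit 116) (nat_lit 5) (nat_lit 121) (nat_lit 5) (nat_lit 117) (nat_lit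 5) (nat_lit 470) (nat_lit 453) (nat_lit 277)) (XT.lf (nat_lit 0) (nat_lit 180970996144) (nat_lit 228) (nat_lit 55234452307) (nat_lit 304) (nat_lit 280914266483) (nat_lit 113) (nat_lit 5) (nat_lit 116) (nat_lit 5) (nat_lit 117) (nat_lit 5) (nat_lit 471) (nat_lit 453) (nat_lit 276)))) (XT.nd (nat_lit 156) (nat_lit 380) (nat_lit 0) (XT.nd (nat_lit 78) (nat_lit 228) (nat_lit 0) (XT.lf (nat_lit 0) (nat_lit 156871866628) (nat_lit 228) (nat_lit 263899515236) (nat_lit 304) (nat_lit 120964812887) (nat_lit 110) (nat_lit 5) (nat_lit 113) (nat_lit 5) (nat_lit 114) (nat_lit 5) (nat_lit 472) (nat_lit 453) (nat_lit 275)) (XT.lf (nat_lit 0) (nat_lit 60323996656) (nat_lit 228) (nat_lit 433208953437) (nat_lit 76) (nat_lit 74238585744) (nat_lit 107) (nat_lit 5) (nat_lit 110) (nat_lit 5) (nat_lit 108) (nat_lit 5) (nat_lit 473) (nat_lit 453) (nat_lit 274))) (XT.nd (nat_lit 78) (nat_lit 152) (nat_lit 0) (XT.lf (nat_lit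 0) (nat_lit 110675319352) (nat_lit 228) (nat_lit 154250943609) (nat_lit 304) (nat_lit 330211871277) (nat_lit 104) (nat_lit 5) (nat_lit 107) (nat_lit 5) (nat_lit 108) (nat_lit 5) (nat_lit 474) (nat_lit 453) (nat_lit 273)) (XT.lf (nat_lit 0) (nat_lit 88623417102) (nat_lit 152) (nat_lit 409639450472) (nat_lit 228) (nat_lit 125812885087) (nat_lit 102) (nat_lit 5) (nat_lit 104) (nat_lit 5) (nat_lit 105) (nat_lit 5) (nat_lit 475) (nat_lit 453) (nat_lit 272))))) (XT.nd (nat_lit 312) (nat_lit 532) (nat_lit 0) (XT.nd (nat_lit 156) (nat_lit 380) (nat_lit 0) (XT.nd (nat_lit 78) (nat_lit 152) (nat_lit 0) (XT.lf (nat_lit 0) (nat_lit 67901777654) (nat_lit 228) (nat_lit 36236042156) (nat_lit 304) (nat_lit 550504527857) (nat_lit 98) (nat_lit 5) (nat_lit 101) (nat_lit 5) (nat_lit 102) (nat_lit 5) (nat_lit 476) (nat_lit 453) (nat_lit 271)) (XT.lf (nat_lit 0) (nat_lit 44888924458) (nat_lit 152) (nat_lit 319158161256)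 (nat_lit 228) (nat_lit 322705540481) (nat_lit 96) (nat_lit 5) (nat_lit 98) (nat_lit 5) (nat_lit 99) (nat_lit 5) (nat_lit 477) (nat_lit 453) (nat_lit 270))) (XT.nd (nat_lit 78) (nat_lit 228) (nat_lit 0) (XT.lf (nat_lit 0) (nat_lit 25874057529) (nat_lit 152) (nat_lit 631533984305) (nat_lit 228) (nat_lit 63390737726) (nat_lit 94) (nat_lit 5) (nat_lit 96) (nat_lit 5) (nat_lit 97) (nat_lit 5) (nat_lit 478) (nat_lit 453) (nat_lit 269)) (XT.lf (nat_lit 0) (nat_lit 4126289888) (nat_lit 152) (nat_lit 222418298351) (nat_lit 228) (nat_lit 530014390844) (nat_lit 91) (nat_lit 5) (nat_lit 93) (nat_lit 5) (nat_lit 94) (nat_lit 5) (nat_lit 479) (nat_lit 453) (nat_lit 268)))) (XT.nd (nat_lit 156) (nat_lit 304) (nat_lit 0) (XT.nd (nat_lit 78) (nat_lit 228) (nat_lit 0) (XT.lf (nat_lit 0) (nat_lit 553212932120) (nat_lit 228) (nat_lit 15351090177) (nat_lit 76) (nat_lit 225776057926) (nat_lit 91) (nat_lit 5) (nat_lit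 94) (nat_lit 5) (nat_lit 92) (nat_lit 5) (nat_lit 480) (nat_lit 453) (nat_lit 267)) (XT.lf (nat_lit 0) (nat_lit 85151402724) (nat_lit 228) (nat_lit 33067045502) (nat_lit 76) (nat_lit 716042464143) (nat_lit 88) (nat_lit 5) (nat_lit 91) (nat_lit 5) (nat_lit 89) (nat_lit 5) (nat_lit 481) (nat_lit 453) (nat_lit 266))) (XT.nd (nat_lit 78) (nat_lit 152) (nat_lit 0) (XT.lf (nat_lit 0) (nat_lit 448438504286) (nat_lit 228) (nat_lit 53840855363) (nat_lit 76) (nat_lit 373930696867) (nat_lit 86) (nat_lit 5) (nat_lit 89) (nat_lit 5) (nat_lit 87) (nat_lit 5) (nat_lit 482) (nat_lit 453) (nat_lit 265)) (XT.lf (nat_lit 0) (nat_lit 851174847961) (nat_lit 152) (nat_lit 5481738806) (nat_lit 228) (nat_lit 64065144790) (nat_lit 84) (nat_lit 5) (nat_lit 86) (nat_lit 5) (nat_lit 87) (nat_lit 5) (nat_lit 483) (nat_lit 453) (nat_lit 264)))))) (XT.nd (nat_lit 624) (nat_lit 912) (nat_lit 0) (XT.nd (nat_lit 312) (nat_lit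 608) (nat_lit 0) (XT.nd (nat_lit 156) (nat_lit 304) (nat_lit 0) (XT.nd (nat_lit 78) (nat_lit 152) (nat_lit 0) (XT.lf (nat_lit 0) (nat_lit 341603353685) (nat_lit 152) (nat_lit 91474094994) (nat_lit 76) (nat_lit 534290904014) (nat_lit 82) (nat_lit 5) (nat_lit 84) (nat_lit 5) (nat_lit 83) (nat_lit 5) (nat_lit 484) (nat_lit 453) (nat_lit 263)) (XT.lf (nat_lit 0) (nat_lit 794858648778) (nat_lit 228) (nat_lit 109046414550) (nat_lit 76) (nat_lit 112920235410) (nat_lit 80) (nat_lit 5) (nat_lit 83) (nat_lit 5) (nat_lit 81) (nat_lit 4) (nat_lit 485) (nat_lit 453) (nat_lit 262))) (XT.nd (nat_lit 78) (nat_lit 152) (nat_lit 0) (XT.lf (nat_lit 0) (nat_lit 231313263732) (nat_lit 152) (nat_lit 129856988251) (nat_lit 76) (nat_lit 707699817061) (nat_lit 78) (nat_lit 5) (nat_lit 80) (nat_lit 5) (nat_lit 79) (nat_lit 5) (nat_lit 486) (nat_lit 453) (nat_lit 261)) (XT.lf (nat_lit 0) (nat_lit 734228236616) (nat_lit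 228) (nat_lit 150552826369) (nat_lit 76) (nat_lit 239057953300) (nat_lit 76) (nat_lit 5) (nat_lit 79) (nat_lit 5) (nat_lit 77) (nat_lit 4) (nat_lit 487) (nat_lit 453) (nat_lit 260)))) (XT.nd (nat_lit 156) (nat_lit 304) (nat_lit 0) (XT.nd (nat_lit 78) (nat_lit 152) (nat_lit 0) (XT.lf (nat_lit 0) (nat_lit 115750647373) (nat_lit 152) (nat_lit 171357628082) (nat_lit 76) (nat_lit 894794001388) (nat_lit 74) (nat_lit 5) (nat_lit 76) (nat_lit 5) (nat_lit 75) (nat_lit 5) (nat_lit 488) (nat_lit 453) (nat_lit 259)) (XT.lf (nat_lit 0) (nat_lit 673187458749) (nat_lit 228) (nat_lit 196842657268) (nat_lit 76) (nat_lit 372996302429) (nat_lit 72) (nat_lit 5) (nat_lit 75) (nat_lit 5) (nat_lit 73) (nat_lit 4) (nat_lit 489) (nat_lit 453) (nat_lit 258))) (XT.nd (nat_lit 78) (nat_lit 228) (nat_lit 0) (XT.lf (nat_lit 0) (nat_lit 1088298529743) (nat_lit 76) (nat_lit 211787086313) (nat_lit 152) (nat_lit 7711555272) (nat_lit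 71) (nat_lit 5) (nat_lit 72) (nat_lit 5) (nat_lit 73) (nat_lit 4) (nat_lit 490) (nat_lit 453) (nat_lit 257)) (XT.lf (nat_lit 0) (nat_lit 609662060148) (nat_lit 228) (nat_lit 251980410993) (nat_lit 76) (nat_lit 514166202745) (nat_lit 68) (nat_lit 5) (nat_lit 71) (nat_lit 5) (nat_lit 69) (nat_lit 4) (nat_lit 491) (nat_lit 453) (nat_lit 256))))) (XT.nd (nat_lit 312) (nat_lit 456) (nat_lit 0) (XT.nd (nat_lit 156) (nat_lit 228) (nat_lit 0) (XT.nd (nat_lit 78) (nat_lit 152) (nat_lit 0) (XT.lf (nat_lit 0) (nat_lit 1166976268569) (nat_lit 76) (nat_lit 134859795736) (nat_lit 152) (nat_lit 146134677655) (nat_lit 67) (nat_lit 5) (nat_lit 68) (nat_lit 5) (nat_lit 69) (nat_lit 4) (nat_lit 492) (nat_lit 453) (nat_lit 255)) (XT.lf (nat_lit 0) (nat_lit 540795733900) (nat_lit 152) (nat_lit 321642736049) (nat_lit 76) (nat_lit 661355052805) (nat_lit 65) (nat_lit 5) (nat_lit 67) (nat_lit 5) (nat_lit 66) (nat_lit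 4) (nat_lit 493) (nat_lit 453) (nat_lit 254))) (XT.nd (nat_lit 78) (nat_lit 152) (nat_lit 0) (XT.lf (nat_lit 0) (nat_lit 1243526747551) (nat_lit 76) (nat_lit 60766306957) (nat_lit 152) (nat_lit 299932672811) (nat_lit 64) (nat_lit 5) (nat_lit 65) (nat_lit 5) (nat_lit 66) (nat_lit 4) (nat_lit 494) (nat_lit 453) (nat_lit 253)) (XT.lf (nat_lit 0) (nat_lit 462688375068) (nat_lit 152) (nat_lit 413654579763) (nat_lit 76) (nat_lit 812461689548) (nat_lit 62) (nat_lit 5) (nat_lit 64) (nat_lit 5) (nat_lit 63) (nat_lit 4) (nat_lit 495) (nat_lit 453) (nat_lit 252)))) (XT.nd (nat_lit 156) (nat_lit 228) (nat_lit 0) (XT.nd (nat_lit 78) (nat_lit 152) (nat_lit 0) (XT.lf (nat_lit 0) (nat_lit 1303932457833) (nat_lit 152) (nat_lit 467933767530) (nat_lit 0) (nat_lit 6631726442) (nat_lit 61) (nat_lit 5) (nat_lit 63) (nat_lit 4) (nat_lit 61) (nat_lit 4) (nat_lit 496) (nat_lit 453) (nat_lit 251)) (XT.lf (nat_lit 0) (nat_lit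 370054455846) (nat_lit 152) (nat_lit 538689113932) (nat_lit 76) (nat_lit 964173257132) (nat_lit 59) (nat_lit 5) (nat_lit 61) (nat_lit 5) (nat_lit 60) (nat_lit 4) (nat_lit 497) (nat_lit 453) (nat_lit 250))) (XT.nd (nat_lit 78) (nat_lit 152) (nat_lit 0) (XT.lf (nat_lit 0) (nat_lit 1296309021551) (nat_lit 152) (nat_lit 615872143973) (nat_lit 0) (nat_lit 60784484235) (nat_lit 58) (nat_lit 5) (nat_lit 60) (nat_lit 4) (nat_lit 58) (nat_lit 4) (nat_lit 498) (nat_lit 453) (nat_lit 249)) (XT.lf (nat_lit 0) (nat_lit 255777994488) (nat_lit 152) (nat_lit 711179662517) (nat_lit 76) (nat_lit 1111540658567) (nat_lit 56) (nat_lit 5) (nat_lit 58) (nat_lit 5) (nat_lit 57) (nat_lit 4) (nat_lit 499) (nat_lit 453) (nat_lit 248))))))))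
noncomputable def xc112 : XT := (XT.nd (nat_lit 61152) (nat_lit 0) (nat_lit 152) (XT.nd (nat_lit 59904) (nat_lit 0) (nat_lit 2660) (XT.nd (nat_lit 59280) (nat_lit 0) (nat_lit 6384) (XT.nd (nat_lit 58968) (nat_lit 0) (nat_lit 8436) (XT.nd (nat_lit 78) (nat_lit 152) (nat_lit 0) (XT.lf (nat_lit 0) (nat_lit 1273293086293) (nat_lit 152) (nat_lit 820313223950) (nat_lit 0) (nat_lit 96603025255) (nat_lit 55) (nat_lit 5) (nat_lit 57) (nat_lit 4) (nat_lit 55) (nat_lit 4) (nat_lit 500) (nat_lit 453) (nat_lit 247)) (XT.nd (nat_lit 58812) (nat_lit 0) (nat_lit 8360) (XT.lf (nat_lit 0) (nat_lit 110333775683) (nat_lit 152) (nat_lit 950505832237) (nat_lit 76) (nat_lit 1247422471192) (nat_lit 53) (nat_lit 5) (nat_lit 55) (nat_lit 5) (nat_lit 54) (nat_lit 4) (nat_lit 501) (nat_lit 453) (nat_lit 246)) (XT.lf (nat_lit 0) (nat_lit 57369011034) (nat_lit 836) (nat_lit 36062634700) (nat_lit 836) (nat_lit 36062634700)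 (nat_lit 163) (nat_lit 3) (nat_lit 174) (nat_lit 3) (nat_lit 174) (nat_lit 5) (nat_lit 454) (nat_lit 454) (nat_lit 292)))) (XT.nd (nat_lit 156) (nat_lit 0) (nat_lit 76) (XT.nd (nat_lit 78) (nat_lit 0) (nat_lit 0) (XT.lf (nat_lit 0) (nat_lit 121762063134) (nat_lit 760) (nat_lit 130843632232) (nat_lit 836) (nat_lit 16620681810) (nat_lit 164) (nat_lit 5) (nat_lit 174) (nat_lit 5) (nat_lit 175) (nat_lit 5) (nat_lit 455) (nat_lit 454) (nat_lit 291)) (XT.lf (nat_lit 76) (nat_lit 87722701540) (nat_lit 0) (nat_lit 47422600574) (nat_lit 836) (nat_lit 144848052956) (nat_lit 165) (nat_lit 5) (nat_lit 164) (nat_lit 5) (nat_lit 175) (nat_lit 5) (nat_lit 456) (nat_lit 454) (nat_lit 290))) (XT.nd (nat_lit 78) (nat_lit 0) (nat_lit 76) (XT.lf (nat_lit 76) (nat_lit 35312391640) (nat_lit 0) (nat_lit 119873931524) (nat_lit 836) (nat_lit 136156011896) (nat_lit 166) (nat_lit 5) (nat_lit 165) (nat_lit 5) (nat_lit 176)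 (nat_lit 5) (nat_lit 457) (nat_lit 454) (nat_lit 289)) (XT.lf (nat_lit 0) (nat_lit 182624154961) (nat_lit 760) (nat_lit 17908295111) (nat_lit 836) (nat_lit 102777106932) (nat_lit 166) (nat_lit 5) (nat_lit 176) (nat_lit 5) (nat_lit 177) (nat_lit 5) (nat_lit 458) (nat_lit 454) (nat_lit 288))))) (XT.nd (nat_lit 312) (nat_lit 1064) (nat_lit 0) (XT.nd (nat_lit 156) (nat_lit 1216) (nat_lit 0) (XT.nd (nat_lit 78) (nat_lit 0) (nat_lit 0) (XT.lf (nat_lit 0) (nat_lit 218525918792) (nat_lit 760) (nat_lit 71277044863) (nat_lit 836) (nat_lit 26117747783) (nat_lit 167) (nat_lit 5) (nat_lit 177) (nat_lit 5) (nat_lit 178) (nat_lit 5) (nat_lit 459) (nat_lit 454) (nat_lit 287)) (XT.lf (nat_lit 76) (nat_lit 202405824461) (nat_lit 0) (nat_lit 61752416767) (nat_lit 836) (nat_lit 65039596134) (nat_lit 168) (nat_lit 5) (nat_lit 167) (nat_lit 5) (nat_lit 178) (nat_lit 5) (nat_lit 460) (nat_lit 454) (nat_lit 286))) (XT.nd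 (nat_lit 78) (nat_lit 532) (nat_lit 0) (XT.lf (nat_lit 0) (nat_lit 159248838901) (nat_lit 760) (nat_lit 160821700257) (nat_lit 836) (nat_lit 23135124725) (nat_lit 158) (nat_lit 5) (nat_lit 168) (nat_lit 5) (nat_lit 169) (nat_lit 5) (nat_lit 461) (nat_lit 454) (nat_lit 285)) (XT.lf (nat_lit 0) (nat_lit 27932475584) (nat_lit 532) (nat_lit 242678614660) (nat_lit 76) (nat_lit 87379817004) (nat_lit 151) (nat_lit 5) (nat_lit 158) (nat_lit 5) (nat_lit 152) (nat_lit 5) (nat_lit 462) (nat_lit 454) (nat_lit 284)))) (XT.nd (nat_lit 156) (nat_lit 304) (nat_lit 0) (XT.nd (nat_lit 78) (nat_lit 380) (nat_lit 0) (XT.lf (nat_lit 0) (nat_lit 70391730246) (nat_lit 380) (nat_lit 18961653287) (nat_lit 456) (nat_lit 284232701254) (nat_lit 146) (nat_lit 5) (nat_lit 151) (nat_lit 5) (nat_lit 152) (nat_lit 5) (nat_lit 463) (nat_lit 454) (nat_lit 283)) (XT.lf (nat_lit 0) (nat_lit 23698032304) (nat_lit 380) (nat_lit 140603664977)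 (nat_lit 456) (nat_lit 225696492596) (nat_lit 141) (nat_lit 5) (nat_lit 146) (nat_lit 5) (nat_lit 147) (nat_lit 5) (nat_lit 464) (nat_lit 454) (nat_lit 282))) (XT.nd (nat_lit 78) (nat_lit 304) (nat_lit 0) (XT.lf (nat_lit 0) (nat_lit 252971346264) (nat_lit 456) (nat_lit 22334606837) (nat_lit 76) (nat_lit 132031036772) (nat_lit 141) (nat_lit 5) (nat_lit 147) (nat_lit 5) (nat_lit 142) (nat_lit 5) (nat_lit 465) (nat_lit 454) (nat_lit 281)) (XT.lf (nat_lit 0) (nat_lit 356722624048) (nat_lit 380) (nat_lit 67445527015) (nat_lit 76) (nat_lit 1495339967) (nat_lit 137) (nat_lit 5) (nat_lit 142) (nat_lit 5) (nat_lit 138) (nat_lit 5) (nat_lit 466) (nat_lit 454) (nat_lit 280)))))) (XT.nd (nat_lit 624) (nat_lit 1444) (nat_lit 0) (XT.nd (nat_lit 312) (nat_lit 1064) (nat_lit 0) (XT.nd (nat_lit 156) (nat_lit 532) (nat_lit 0) (XT.nd (nat_lit 78) (nat_lit 304) (nat_lit 0) (XT.lf (nat_lit 0) (nat_lit 32936381198)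 (nat_lit 380) (nat_lit 114972214428) (nat_lit 76) (nat_lit 297011073397) (nat_lit 132) (nat_lit 5) (nat_lit 137) (nat_lit 5) (nat_lit 133) (nat_lit 5) (nat_lit 467) (nat_lit 454) (nat_lit 279)) (XT.lf (nat_lit 0) (nat_lit 148993562871) (nat_lit 380) (nat_lit 163381317780) (nat_lit 76) (nat_lit 152862696411) (nat_lit 128) (nat_lit 5) (nat_lit 133) (nat_lit 5) (nat_lit 129) (nat_lit 5) (nat_lit 468) (nat_lit 454) (nat_lit 278))) (XT.nd (nat_lit 78) (nat_lit 228) (nat_lit 0) (XT.lf (nat_lit 0) (nat_lit 275341574796) (nat_lit 304) (nat_lit 7822113810) (nat_lit 380) (nat_lit 203575810666) (nat_lit 124) (nat_lit 5) (nat_lit 128) (nat_lit 5) (nat_lit 129) (nat_lit 5) (nat_lit 469) (nat_lit 454) (nat_lit 277)) (XT.lf (nat_lit 0) (nat_lit 248056751887) (nat_lit 228) (nat_lit 191789313843) (nat_lit 304) (nat_lit 69526577467) (nat_lit 121) (nat_lit 5) (nat_lit 124) (nat_lit 5) (nat_lit 125) (nat_lit 5)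 (nat_lit 470) (nat_lit 454) (nat_lit 276)))) (XT.nd (nat_lit 156) (nat_lit 456) (nat_lit 0) (XT.nd (nat_lit 78) (nat_lit 228) (nat_lit 0) (XT.lf (nat_lit 0) (nat_lit 82454654955) (nat_lit 380) (nat_lit 311647626967) (nat_lit 76) (nat_lit 139174595129) (nat_lit 116) (nat_lit 5) (nat_lit 121) (nat_lit 5) (nat_lit 117) (nat_lit 5) (nat_lit 471) (nat_lit 454) (nat_lit 275)) (XT.lf (nat_lit 0) (nat_lit 195450320856) (nat_lit 228) (nat_lit 59652721486) (nat_lit 304) (nat_lit 303386191828) (nat_lit 113) (nat_lit 5) (nat_lit 116) (nat_lit 5) (nat_lit 117) (nat_lit 5) (nat_lit 472) (nat_lit 454) (nat_lit 274))) (XT.nd (nat_lit 78) (nat_lit 228) (nat_lit 0) (XT.lf (nat_lit 0) (nat_lit 169423237654) (nat_lit 228) (nat_lit 285010959354) (nat_lit 304) (nat_lit 130640838040) (nat_lit 110) (nat_lit 5) (nat_lit 113) (nat_lit 5) (nat_lit 114) (nat_lit 5) (nat_lit 473) (nat_lit 454) (nat_lit 273)) (XT.lf (nat_lit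 0) (nat_lit 65150988907) (nat_lit 228) (nat_lit 467864037826) (nat_lit 76) (nat_lit 80178178298) (nat_lit 107) (nat_lit 5) (nat_lit 110) (nat_lit 5) (nat_lit 108) (nat_lit 5) (nat_lit 474) (nat_lit 454) (nat_lit 272))))) (XT.nd (nat_lit 312) (nat_lit 608) (nat_lit 0) (XT.nd (nat_lit 156) (nat_lit 456) (nat_lit 0) (XT.nd (nat_lit 78) (nat_lit 152) (nat_lit 0) (XT.lf (nat_lit 0) (nat_lit 119530905866) (nat_lit 228) (nat_lit 166590475575) (nat_lit 304) (nat_lit 356627752619) (nat_lit 104) (nat_lit 5) (nat_lit 107) (nat_lit 5) (nat_lit 108) (nat_lit 5) (nat_lit 475) (nat_lit 454) (nat_lit 271)) (XT.lf (nat_lit 0) (nat_lit 95714824184) (nat_lit 152) (nat_lit 442410046676) (nat_lit 228) (nat_lit 135876893280) (nat_lit 102) (nat_lit 5) (nat_lit 104) (nat_lit 5) (nat_lit 105) (nat_lit 5) (nat_lit 476) (nat_lit 454) (nat_lit 270))) (XT.nd (nat_lit 78) (nat_lit 152) (nat_lit 0) (XT.lf (nat_lit 0) (nat_lit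 73335418271) (nat_lit 228) (nat_lit 39134367077) (nat_lit 304) (nat_lit 594543903098) (nat_lit 98) (nat_lit 5) (nat_lit 101) (nat_lit 5) (nat_lit 102) (nat_lit 5) (nat_lit 477) (nat_lit 454) (nat_lit 269)) (XT.lf (nat_lit 0) (nat_lit 48481508349) (nat_lit 152) (nat_lit 344690245573) (nat_lit 228) (nat_lit 348521037268) (nat_lit 96) (nat_lit 5) (nat_lit 98) (nat_lit 5) (nat_lit 99) (nat_lit 5) (nat_lit 478) (nat_lit 454) (nat_lit 268)))) (XT.nd (nat_lit 156) (nat_lit 228) (nat_lit 0) (XT.nd (nat_lit 78) (nat_lit 228) (nat_lit 0) (XT.lf (nat_lit 0) (nat_lit 27945422834) (nat_lit 152) (nat_lit 682056127645) (nat_lit 228) (nat_lit 68461088152) (nat_lit 94) (nat_lit 5) (nat_lit 96) (nat_lit 5) (nat_lit 97) (nat_lit 5) (nat_lit 479) (nat_lit 454) (nat_lit 267)) (XT.lf (nat_lit 0) (nat_lit 4457799014) (nat_lit 152) (nat_lit 240211192597) (nat_lit 228) (nat_lit 572414663956) (nat_lit 91) (nat_lit 5)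 (nat_lit 93) (nat_lit 5) (nat_lit 94) (nat_lit 5) (nat_lit 480) (nat_lit 454) (nat_lit 266))) (XT.nd (nat_lit 78) (nat_lit 228) (nat_lit 0) (XT.lf (nat_lit 0) (nat_lit 597470749289) (nat_lit 228) (nat_lit 16577845090) (nat_lit 76) (nat_lit 243838653107) (nat_lit 91) (nat_lit 5) (nat_lit 94) (nat_lit 5) (nat_lit 92) (nat_lit 5) (nat_lit 481) (nat_lit 454) (nat_lit 265)) (XT.lf (nat_lit 0) (nat_lit 91964271695) (nat_lit 228) (nat_lit 35711109699) (nat_lit 76) (nat_lit 773326366105) (nat_lit 88) (nat_lit 5) (nat_lit 91) (nat_lit 5) (nat_lit 89) (nat_lit 5) (nat_lit 482) (nat_lit 454) (nat_lit 264))))))) (XT.nd (nat_lit 1248) (nat_lit 304) (nat_lit 0) (XT.nd (nat_lit 624) (nat_lit 988) (nat_lit 0) (XT.nd (nat_lit 312) (nat_lit 608) (nat_lit 0) (XT.nd (nat_lit 156) (nat_lit 304) (nat_lit 0) (XT.nd (nat_lit 78) (nat_lit 152) (nat_lit 0) (XT.lf (nat_lit 0) (nat_lit 484314312896) (nat_lit 228) (nat_lit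 58146852959) (nat_lit 76) (nat_lit 403845658750) (nat_lit 86) (nat_lit 5) (nat_lit 89) (nat_lit 5) (nat_lit 87) (nat_lit 5) (nat_lit 483) (nat_lit 454) (nat_lit 263)) (XT.lf (nat_lit 0) (nat_lit 919270051403) (nat_lit 152) (nat_lit 5919755606) (nat_lit 228) (nat_lit 69189628390) (nat_lit 84) (nat_lit 5) (nat_lit 86) (nat_lit 5) (nat_lit 87) (nat_lit 5) (nat_lit 484) (nat_lit 454) (nat_lit 262))) (XT.nd (nat_lit 78) (nat_lit 152) (nat_lit 0) (XT.lf (nat_lit 0) (nat_lit 368932300993) (nat_lit 152) (nat_lit 98790811974) (nat_lit 76) (nat_lit 577034673974) (nat_lit 82) (nat_lit 5) (nat_lit 84) (nat_lit 5) (nat_lit 83) (nat_lit 5) (nat_lit 485) (nat_lit 454) (nat_lit 261)) (XT.lf (nat_lit 0) (nat_lit 858447995458) (nat_lit 228) (nat_lit 117768945332) (nat_lit 76) (nat_lit 121954349093) (nat_lit 80) (nat_lit 5) (nat_lit 83) (nat_lit 5) (nat_lit 81) (nat_lit 4) (nat_lit 486) (nat_lit 454) (nat_lit 260))))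 (XT.nd (nat_lit 156) (nat_lit 304) (nat_lit 0) (XT.nd (nat_lit 78) (nat_lit 152) (nat_lit 0) (XT.lf (nat_lit 0) (nat_lit 249818959006) (nat_lit 152) (nat_lit 140244395332) (nat_lit 76) (nat_lit 764316288507) (nat_lit 78) (nat_lit 5) (nat_lit 80) (nat_lit 5) (nat_lit 79) (nat_lit 5) (nat_lit 487) (nat_lit 454) (nat_lit 259)) (XT.lf (nat_lit 0) (nat_lit 792967107716) (nat_lit 228) (nat_lit 162595928098) (nat_lit 76) (nat_lit 258183071151) (nat_lit 76) (nat_lit 5) (nat_lit 79) (nat_lit 5) (nat_lit 77) (nat_lit 4) (nat_lit 488) (nat_lit 454) (nat_lit 258))) (XT.nd (nat_lit 78) (nat_lit 152) (nat_lit 0) (XT.lf (nat_lit 0) (nat_lit 125011292359) (nat_lit 152) (nat_lit 185065143188) (nat_lit 76) (nat_lit 966377993773) (nat_lit 74) (nat_lit 5) (nat_lit 76) (nat_lit 5) (nat_lit 75) (nat_lit 5) (nat_lit 489) (nat_lit 454) (nat_lit 257)) (XT.lf (nat_lit 0) (nat_lit 727043028584) (nat_lit 228) (nat_lit 212589001536)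 (nat_lit 76) (nat_lit 402836473135) (nat_lit 72) (nat_lit 5) (nat_lit 75) (nat_lit 5) (nat_lit 73) (nat_lit 4) (nat_lit 490) (nat_lit 454) (nat_lit 256))))) (XT.nd (nat_lit 312) (nat_lit 456) (nat_lit 0) (XT.nd (nat_lit 156) (nat_lit 228) (nat_lit 0) (XT.nd (nat_lit 78) (nat_lit 228) (nat_lit 0) (XT.lf (nat_lit 0) (nat_lit 1175363434008) (nat_lit 76) (nat_lit 228729577967) (nat_lit 152) (nat_lit 8327905718) (nat_lit 71) (nat_lit 5) (nat_lit 72) (nat_lit 5) (nat_lit 73) (nat_lit 4) (nat_lit 491) (nat_lit 454) (nat_lit 255)) (XT.lf (nat_lit 0) (nat_lit 658435562207) (nat_lit 228) (nat_lit 272137829569) (nat_lit 76) (nat_lit 555299949151) (nat_lit 68) (nat_lit 5) (nat_lit 71) (nat_lit 5) (nat_lit 69) (nat_lit 4) (nat_lit 492) (nat_lit 454) (nat_lit 254))) (XT.nd (nat_lit 78) (nat_lit 152) (nat_lit 0) (XT.lf (nat_lit 0) (nat_lit 1260335340278) (nat_lit 76) (nat_lit 145648121770) (nat_lit 152) (nat_lit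 157824913632) (nat_lit 67) (nat_lit 5) (nat_lit 68) (nat_lit 5) (nat_lit 69) (nat_lit 4) (nat_lit 493) (nat_lit 454) (nat_lit 253)) (XT.lf (nat_lit 0) (nat_lit 584059896760) (nat_lit 152) (nat_lit 347373192509) (nat_lit 76) (nat_lit 714263890092) (nat_lit 65) (nat_lit 5) (nat_lit 67) (nat_lit 5) (nat_lit 66) (nat_lit 4) (nat_lit 494) (nat_lit 454) (nat_lit 252)))) (XT.nd (nat_lit 156) (nat_lit 228) (nat_lit 0) (XT.nd (nat_lit 78) (nat_lit 152) (nat_lit 0) (XT.lf (nat_lit 0) (nat_lit 1343009807953) (nat_lit 76) (nat_lit 65627172092) (nat_lit 152) (nat_lit 323926781395) (nat_lit 64) (nat_lit 5) (nat_lit 65) (nat_lit 5) (nat_lit 66) (nat_lit 4) (nat_lit 495) (nat_lit 454) (nat_lit 251)) (XT.lf (nat_lit 0) (nat_lit 499703918608) (nat_lit 152) (nat_lit 446746033434) (nat_lit 76) (nat_lit 877459040204) (nat_lit 62) (nat_lit 5) (nat_lit 64) (nat_lit 5) (nat_lit 63) (nat_lit 4) (nat_lit 496) (nat_lit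 454) (nat_lit 250))) (XT.nd (nat_lit 78) (nat_lit 152) (nat_lit 0) (XT.lf (nat_lit 0) (nat_lit 1408247513121) (nat_lit 152) (nat_lit 505367579851) (nat_lit 0) (nat_lit 7162672040) (nat_lit 61) (nat_lit 5) (nat_lit 63) (nat_lit 4) (nat_lit 61) (nat_lit 4) (nat_lit 497) (nat_lit 454) (nat_lit 249)) (XT.lf (nat_lit 0) (nat_lit 399659257461) (nat_lit 152) (nat_lit 581783377881) (nat_lit 76) (nat_lit 1041307515459) (nat_lit 59) (nat_lit 5) (nat_lit 61) (nat_lit 5) (nat_lit 60) (nat_lit 4) (nat_lit 498) (nat_lit 454) (nat_lit 248)))))) (XT.nd (nat_lit 59436) (nat_lit 0) (nat_lit 6232) (XT.nd (nat_lit 59124) (nat_lit 0) (nat_lit 8284) (XT.nd (nat_lit 156) (nat_lit 76) (nat_lit 0) (XT.nd (nat_lit 78) (nat_lit 152) (nat_lit 0) (XT.lf (nat_lit 0) (nat_lit 1400014174653) (nat_lit 152) (nat_lit 665141072949) (nat_lit 0) (nat_lit 65647632564) (nat_lit 58) (nat_lit 5) (nat_lit 60) (nat_lit 4) (nat_lit 58)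 (nat_lit 4) (nat_lit 499) (nat_lit 454) (nat_lit 247)) (XT.lf (nat_lit 0) (nat_lit 276240652812) (nat_lit 152) (nat_lit 768073215741) (nat_lit 76) (nat_lit 1200464291322) (nat_lit 56) (nat_lit 5) (nat_lit 58) (nat_lit 5) (nat_lit 57) (nat_lit 4) (nat_lit 500) (nat_lit 454) (nat_lit 246))) (XT.nd (nat_lit 58890) (nat_lit 0) (nat_lit 8208) (XT.lf (nat_lit 0) (nat_lit 1375156939183) (nat_lit 152) (nat_lit 885937483711) (nat_lit 0) (nat_lit 104331639142) (nat_lit 55) (nat_lit 5) (nat_lit 57) (nat_lit 4) (nat_lit 55) (nat_lit 4) (nat_lit 501) (nat_lit 454) (nat_lit 245)) (XT.lf (nat_lit 0) (nat_lit 61960003184) (nat_lit 836) (nat_lit 38946873003) (nat_lit 836) (nat_lit 38946873003) (nat_lit 163) (nat_lit 3) (nat_lit 174) (nat_lit 3) (nat_lit 174) (nat_lit 5) (nat_lit 455) (nat_lit 455) (nat_lit 290)))) (XT.nd (nat_lit 156) (nat_lit 0) (nat_lit 76) (XT.nd (nat_lit 78) (nat_lit 0) (nat_lit 0) (XT.lf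 (nat_lit 0) (nat_lit 131505756002) (nat_lit 760) (nat_lit 141309487589) (nat_lit 836) (nat_lit 17949107158) (nat_lit 164) (nat_lit 5) (nat_lit 174) (nat_lit 5) (nat_lit 175) (nat_lit 5) (nat_lit 456) (nat_lit 455) (nat_lit 289)) (XT.lf (nat_lit 76) (nat_lit 94742081821) (nat_lit 0) (nat_lit 51217394640) (nat_lit 836) (nat_lit 156433219311) (nat_lit 165) (nat_lit 5) (nat_lit 164) (nat_lit 5) (nat_lit 175) (nat_lit 5) (nat_lit 457) (nat_lit 455) (nat_lit 288))) (XT.nd (nat_lit 78) (nat_lit 0) (nat_lit 76) (XT.lf (nat_lit 76) (nat_lit 38139016031) (nat_lit 0) (nat_lit 129464585504) (nat_lit 836) (nat_lit 147046001523) (nat_lit 166) (nat_lit 5) (nat_lit 165) (nat_lit 5) (nat_lit 176) (nat_lit 5) (nat_lit 458) (nat_lit 455) (nat_lit 287)) (XT.lf (nat_lit 0) (nat_lit 197236273444) (nat_lit 760) (nat_lit 19339325932) (nat_lit 836) (nat_lit 110998612718) (nat_lit 166) (nat_lit 5) (nat_lit 176) (nat_lit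 5) (nat_lit 177) (nat_lit 5) (nat_lit 459) (nat_lit 455) (nat_lit 286))))) (XT.nd (nat_lit 312) (nat_lit 1064) (nat_lit 0) (XT.nd (nat_lit 156) (nat_lit 1216) (nat_lit 0) (XT.nd (nat_lit 78) (nat_lit 0) (nat_lit 0) (XT.lf (nat_lit 0) (nat_lit 236010033235) (nat_lit 760) (nat_lit 76977536443) (nat_lit 836) (nat_lit 28206696475) (nat_lit 167) (nat_lit 5) (nat_lit 177) (nat_lit 5) (nat_lit 178) (nat_lit 5) (nat_lit 460) (nat_lit 455) (nat_lit 285)) (XT.lf (nat_lit 76) (nat_lit 218599889764) (nat_lit 0) (nat_lit 66692925492) (nat_lit 836) (nat_lit 70240753216) (nat_lit 168) (nat_lit 5) (nat_lit 167) (nat_lit 5) (nat_lit 178) (nat_lit 5) (nat_lit 461) (nat_lit 455) (nat_lit 284))) (XT.nd (nat_lit 78) (nat_lit 532) (nat_lit 0) (XT.lf (nat_lit 0) (nat_lit 171990372277) (nat_lit 760) (nat_lit 173687603743) (nat_lit 836) (nat_lit 24984051155) (nat_lit 158) (nat_lit 5) (nat_lit 168) (nat_lit 5) (nat_lit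 169) (nat_lit 5) (nat_lit 462) (nat_lit 455) (nat_lit 283)) (XT.lf (nat_lit 0) (nat_lit 30168785464) (nat_lit 532) (nat_lit 262091203111) (nat_lit 76) (nat_lit 94370105544) (nat_lit 151) (nat_lit 5) (nat_lit 158) (nat_lit 5) (nat_lit 152) (nat_lit 5) (nat_lit 463) (nat_lit 455) (nat_lit 282)))) (XT.nd (nat_lit 156) (nat_lit 304) (nat_lit 0) (XT.nd (nat_lit 78) (nat_lit 380) (nat_lit 0) (XT.lf (nat_lit 0) (nat_lit 76024695476) (nat_lit 380) (nat_lit 20478569170) (nat_lit 456) (nat_lit 306969626294) (nat_lit 146) (nat_lit 5) (nat_lit 151) (nat_lit 5) (nat_lit 152) (nat_lit 5) (nat_lit 464) (nat_lit 455) (nat_lit 281)) (XT.lf (nat_lit 0) (nat_lit 25595507881) (nat_lit 380) (nat_lit 151851842054) (nat_lit 456) (nat_lit 243750619188) (nat_lit 141) (nat_lit 5) (nat_lit 146) (nat_lit 5) (nat_lit 147) (nat_lit 5) (nat_lit 465) (nat_lit 455) (nat_lit 280))) (XT.nd (nat_lit 78) (nat_lit 304) (nat_lit 0)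 (XT.lf (nat_lit 0) (nat_lit 273210460155) (nat_lit 456) (nat_lit 24119794715) (nat_lit 76) (nat_lit 142593623792) (nat_lit 141) (nat_lit 5) (nat_lit 147) (nat_lit 5) (nat_lit 142) (nat_lit 5) (nat_lit 466) (nat_lit 455) (nat_lit 279)) (XT.lf (nat_lit 0) (nat_lit 385261762515) (nat_lit 380) (nat_lit 72839593742) (nat_lit 76) (nat_lit 1615147543) (nat_lit 137) (nat_lit 5) (nat_lit 142) (nat_lit 5) (nat_lit 138) (nat_lit 5) (nat_lit 467) (nat_lit 455) (nat_lit 278))))))))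
noncomputable def xc113 : XT := (XT.nd (nat_lit 2496) (nat_lit 228) (nat_lit 0) (XT.nd (nat_lit 1248) (nat_lit 2204) (nat_lit 0) (XT.nd (nat_lit 624) (nat_lit 1444) (nat_lit 0) (XT.nd (nat_lit 312) (nat_lit 1064) (nat_lit 0) (XT.nd (nat_lit 156) (nat_lit 532) (nat_lit 0) (XT.nd (nat_lit 78) (nat_lit 304) (nat_lit 0) (XT.lf (nat_lit 0) (nat_lit 35572565983) (nat_lit 380) (nat_lit 124168442406) (nat_lit 76) (nat_lit 320772170366) (nat_lit 132) (nat_lit 5) (nat_lit 137) (nat_lit 5) (nat_lit 133) (nat_lit 5) (nat_lit 468) (nat_lit 455) (nat_lit 277)) (XT.lf (nat_lit 0) (nat_lit 160914255287) (nat_lit 380) (nat_lit 176450285482) (nat_lit 76) (nat_lit 165091982019) (nat_lit 128) (nat_lit 5) (nat_lit 133) (nat_lit 5) (nat_lit 129) (nat_lit 5) (nat_lit 469) (nat_lit 455) (nat_lit 276))) (XT.nd (nat_lit 78) (nat_lit 228) (nat_lit 0) (XT.lf (nat_lit 0) (nat_lit 297370371673) (nat_lit 304) (nat_lit 8447552937)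 (nat_lit 380) (nat_lit 219860677494) (nat_lit 124) (nat_lit 5) (nat_lit 128) (nat_lit 5) (nat_lit 129) (nat_lit 5) (nat_lit 470) (nat_lit 455) (nat_lit 275)) (XT.lf (nat_lit 0) (nat_lit 267902748708) (nat_lit 228) (nat_lit 207132086195) (nat_lit 304) (nat_lit 75087565493) (nat_lit 121) (nat_lit 5) (nat_lit 124) (nat_lit 5) (nat_lit 125) (nat_lit 5) (nat_lit 471) (nat_lit 455) (nat_lit 274)))) (XT.nd (nat_lit 156) (nat_lit 456) (nat_lit 0) (XT.nd (nat_lit 78) (nat_lit 228) (nat_lit 0) (XT.lf (nat_lit 0) (nat_lit 89052075807) (nat_lit 380) (nat_lit 336577962708) (nat_lit 76) (nat_lit 150308936224) (nat_lit 116) (nat_lit 5) (nat_lit 121) (nat_lit 5) (nat_lit 117) (nat_lit 5) (nat_lit 472) (nat_lit 455) (nat_lit 273)) (XT.lf (nat_lit 0) (nat_lit 211087756865) (nat_lit 228) (nat_lit 64424521677) (nat_lit 304) (nat_lit 327656044673) (nat_lit 113) (nat_lit 5) (nat_lit 116) (nat_lit 5) (nat_lit 117)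 (nat_lit 5) (nat_lit 473) (nat_lit 455) (nat_lit 272))) (XT.nd (nat_lit 78) (nat_lit 228) (nat_lit 0) (XT.lf (nat_lit 0) (nat_lit 182978487010) (nat_lit 228) (nat_lit 307811392773) (nat_lit 304) (nat_lit 141091110674) (nat_lit 110) (nat_lit 5) (nat_lit 113) (nat_lit 5) (nat_lit 114) (nat_lit 5) (nat_lit 474) (nat_lit 455) (nat_lit 271)) (XT.lf (nat_lit 0) (nat_lit 70363987532) (nat_lit 228) (nat_lit 505291761773) (nat_lit 76) (nat_lit 86592866114) (nat_lit 107) (nat_lit 5) (nat_lit 110) (nat_lit 5) (nat_lit 108) (nat_lit 5) (nat_lit 475) (nat_lit 455) (nat_lit 270))))) (XT.nd (nat_lit 312) (nat_lit 608) (nat_lit 0) (XT.nd (nat_lit 156) (nat_lit 456) (nat_lit 0) (XT.nd (nat_lit 78) (nat_lit 152) (nat_lit 0) (XT.lf (nat_lit 0) (nat_lit 129094716612) (nat_lit 228) (nat_lit 179917247639) (nat_lit 304) (nat_lit 385157056883) (nat_lit 104) (nat_lit 5) (nat_lit 107) (nat_lit 5) (nat_lit 108) (nat_lit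 5) (nat_lit 476) (nat_lit 455) (nat_lit 269)) (XT.lf (nat_lit 0) (nat_lit 103373325031) (nat_lit 152) (nat_lit 477802370444) (nat_lit 228) (nat_lit 146746168015) (nat_lit 102) (nat_lit 5) (nat_lit 104) (nat_lit 5) (nat_lit 105) (nat_lit 5) (nat_lit 477) (nat_lit 455) (nat_lit 268))) (XT.nd (nat_lit 78) (nat_lit 152) (nat_lit 0) (XT.lf (nat_lit 0) (nat_lit 79203536373) (nat_lit 228) (nat_lit 42264637662) (nat_lit 304) (nat_lit 642106569164) (nat_lit 98) (nat_lit 5) (nat_lit 101) (nat_lit 5) (nat_lit 102) (nat_lit 5) (nat_lit 478) (nat_lit 455) (nat_lit 267)) (XT.lf (nat_lit 0) (nat_lit 52361289250) (nat_lit 152) (nat_lit 372264977749) (nat_lit 228) (nat_lit 376401908821) (nat_lit 96) (nat_lit 5) (nat_lit 98) (nat_lit 5) (nat_lit 99) (nat_lit 5) (nat_lit 479) (nat_lit 455) (nat_lit 266)))) (XT.nd (nat_lit 156) (nat_lit 228) (nat_lit 0) (XT.nd (nat_lit 78) (nat_lit 228) (nat_lit 0) (XT.lf (nat_lit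 0) (nat_lit 30182291831) (nat_lit 152) (nat_lit 736620124539) (nat_lit 228) (nat_lit 73937196233) (nat_lit 94) (nat_lit 5) (nat_lit 96) (nat_lit 5) (nat_lit 97) (nat_lit 5) (nat_lit 480) (nat_lit 455) (nat_lit 265)) (XT.lf (nat_lit 0) (nat_lit 4815628299) (nat_lit 152) (nat_lit 259427599645) (nat_lit 228) (nat_lit 618207084196) (nat_lit 91) (nat_lit 5) (nat_lit 93) (nat_lit 5) (nat_lit 94) (nat_lit 5) (nat_lit 481) (nat_lit 455) (nat_lit 264))) (XT.nd (nat_lit 78) (nat_lit 228) (nat_lit 0) (XT.lf (nat_lit 0) (nat_lit 645269080184) (nat_lit 228) (nat_lit 17902930464) (nat_lit 76) (nat_lit 263346183068) (nat_lit 91) (nat_lit 5) (nat_lit 94) (nat_lit 5) (nat_lit 92) (nat_lit 5) (nat_lit 482) (nat_lit 455) (nat_lit 263)) (XT.lf (nat_lit 0) (nat_lit 99322062224) (nat_lit 228) (nat_lit 38566884411) (nat_lit 76) (nat_lit 835192908205) (nat_lit 88) (nat_lit 5) (nat_lit 91) (nat_lit 5) (nat_lit 89) (nat_lit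 5) (nat_lit 483) (nat_lit 455) (nat_lit 262)))))) (XT.nd (nat_lit 624) (nat_lit 988) (nat_lit 0) (XT.nd (nat_lit 312) (nat_lit 608) (nat_lit 0) (XT.nd (nat_lit 156) (nat_lit 304) (nat_lit 0) (XT.nd (nat_lit 78) (nat_lit 152) (nat_lit 0) (XT.lf (nat_lit 0) (nat_lit 523060082300) (nat_lit 228) (nat_lit 62797511661) (nat_lit 76) (nat_lit 436153745377) (nat_lit 86) (nat_lit 5) (nat_lit 89) (nat_lit 5) (nat_lit 87) (nat_lit 5) (nat_lit 484) (nat_lit 455) (nat_lit 261)) (XT.lf (nat_lit 0) (nat_lit 992812697700) (nat_lit 152) (nat_lit 6392888263) (nat_lit 228) (nat_lit 74724174532) (nat_lit 84) (nat_lit 5) (nat_lit 86) (nat_lit 5) (nat_lit 87) (nat_lit 5) (nat_lit 485) (nat_lit 455) (nat_lit 260))) (XT.nd (nat_lit 78) (nat_lit 152) (nat_lit 0) (XT.lf (nat_lit 0) (nat_lit 398447467218) (nat_lit 152) (nat_lit 106693039020) (nat_lit 76) (nat_lit 623197874537) (nat_lit 82) (nat_lit 5) (nat_lit 84) (nat_lit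 5) (nat_lit 83) (nat_lit 5) (nat_lit 486) (nat_lit 455) (nat_lit 259)) (XT.lf (nat_lit 0) (nat_lit 927124396462) (nat_lit 228) (nat_lit 127189447257) (nat_lit 76) (nat_lit 131711121274) (nat_lit 80) (nat_lit 5) (nat_lit 83) (nat_lit 5) (nat_lit 81) (nat_lit 4) (nat_lit 487) (nat_lit 455) (nat_lit 258)))) (XT.nd (nat_lit 156) (nat_lit 304) (nat_lit 0) (XT.nd (nat_lit 78) (nat_lit 152) (nat_lit 0) (XT.lf (nat_lit 0) (nat_lit 269805019430) (nat_lit 152) (nat_lit 151462959322) (nat_lit 76) (nat_lit 825462008323) (nat_lit 78) (nat_lit 5) (nat_lit 80) (nat_lit 5) (nat_lit 79) (nat_lit 5) (nat_lit 488) (nat_lit 455) (nat_lit 257)) (XT.lf (nat_lit 0) (nat_lit 856405001172) (nat_lit 228) (nat_lit 175602638371) (nat_lit 76) (nat_lit 278838129728) (nat_lit 76) (nat_lit 5) (nat_lit 79) (nat_lit 5) (nat_lit 77) (nat_lit 4) (nat_lit 489) (nat_lit 455) (nat_lit 256))) (XT.nd (nat_lit 78) (nat_lit 152) (nat_lit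 0) (XT.lf (nat_lit 0) (nat_lit 135012704317) (nat_lit 152) (nat_lit 199869415736) (nat_lit 76) (nat_lit 1043688638174) (nat_lit 74) (nat_lit 5) (nat_lit 76) (nat_lit 5) (nat_lit 75) (nat_lit 5) (nat_lit 490) (nat_lit 455) (nat_lit 255)) (XT.lf (nat_lit 0) (nat_lit 785206962242) (nat_lit 228) (nat_lit 229595205752) (nat_lit 76) (nat_lit 435063790945) (nat_lit 72) (nat_lit 5) (nat_lit 75) (nat_lit 5) (nat_lit 73) (nat_lit 4) (nat_lit 491) (nat_lit 455) (nat_lit 254))))) (XT.nd (nat_lit 312) (nat_lit 456) (nat_lit 0) (XT.nd (nat_lit 156) (nat_lit 228) (nat_lit 0) (XT.nd (nat_lit 78) (nat_lit 228) (nat_lit 0) (XT.lf (nat_lit 0) (nat_lit 1269393384831) (nat_lit 76) (nat_lit 247027536753) (nat_lit 152) (nat_lit 8993646083) (nat_lit 71) (nat_lit 5) (nat_lit 72) (nat_lit 5) (nat_lit 73) (nat_lit 4) (nat_lit 492) (nat_lit 455) (nat_lit 253)) (XT.lf (nat_lit 0) (nat_lit 711110867785) (nat_lit 228) (nat_lit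 293907986332) (nat_lit 76) (nat_lit 599724331046) (nat_lit 68) (nat_lit 5) (nat_lit 71) (nat_lit 5) (nat_lit 69) (nat_lit 4) (nat_lit 493) (nat_lit 455) (nat_lit 252))) (XT.nd (nat_lit 78) (nat_lit 152) (nat_lit 0) (XT.lf (nat_lit 0) (nat_lit 1361162999310) (nat_lit 76) (nat_lit 157299579172) (nat_lit 152) (nat_lit 170450445273) (nat_lit 67) (nat_lit 5) (nat_lit 68) (nat_lit 5) (nat_lit 69) (nat_lit 4) (nat_lit 494) (nat_lit 455) (nat_lit 251)) (XT.lf (nat_lit 0) (nat_lit 630785120726) (nat_lit 152) (nat_lit 375162222786) (nat_lit 76) (nat_lit 771405372580) (nat_lit 65) (nat_lit 5) (nat_lit 67) (nat_lit 5) (nat_lit 66) (nat_lit 4) (nat_lit 495) (nat_lit 455) (nat_lit 250)))) (XT.nd (nat_lit 156) (nat_lit 228) (nat_lit 0) (XT.nd (nat_lit 78) (nat_lit 152) (nat_lit 0) (XT.lf (nat_lit 0) (nat_lit 1450451381854) (nat_lit 76) (nat_lit 70876969126) (nat_lit 152) (nat_lit 349840490744) (nat_lit 64)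 (nat_lit 5) (nat_lit 65) (nat_lit 5) (nat_lit 66) (nat_lit 4) (nat_lit 496) (nat_lit 455) (nat_lit 249)) (XT.lf (nat_lit 0) (nat_lit 539680638076) (nat_lit 152) (nat_lit 482484933608) (nat_lit 76) (nat_lit 947656119639) (nat_lit 62) (nat_lit 5) (nat_lit 64) (nat_lit 5) (nat_lit 63) (nat_lit 4) (nat_lit 497) (nat_lit 455) (nat_lit 248))) (XT.nd (nat_lit 78) (nat_lit 152) (nat_lit 0) (XT.lf (nat_lit 0) (nat_lit 1520907707398) (nat_lit 152) (nat_lit 545796223995) (nat_lit 0) (nat_lit 7736035153) (nat_lit 61) (nat_lit 5) (nat_lit 63) (nat_lit 4) (nat_lit 61) (nat_lit 4) (nat_lit 498) (nat_lit 455) (nat_lit 247)) (XT.lf (nat_lit 0) (nat_lit 431632379701) (nat_lit 152) (nat_lit 628325306370) (nat_lit 76) (nat_lit 1124612457708) (nat_lit 59) (nat_lit 5) (nat_lit 61) (nat_lit 5) (nat_lit 60) (nat_lit 4) (nat_lit 499) (nat_lit 455) (nat_lit 246))))))) (XT.nd (nat_lit 60138) (nat_lit 0) (nat_lit 2280)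 (XT.nd (nat_lit 59514) (nat_lit 0) (nat_lit 5776) (XT.nd (nat_lit 59202) (nat_lit 0) (nat_lit 8208) (XT.nd (nat_lit 59046) (nat_lit 0) (nat_lit 8132) (XT.nd (nat_lit 78) (nat_lit 152) (nat_lit 0) (XT.lf (nat_lit 0) (nat_lit 1512015678463) (nat_lit 152) (nat_lit 718351636440) (nat_lit 0) (nat_lit 70899777181) (nat_lit 58) (nat_lit 5) (nat_lit 60) (nat_lit 4) (nat_lit 58) (nat_lit 4) (nat_lit 500) (nat_lit 455) (nat_lit 245)) (XT.lf (nat_lit 0) (nat_lit 298340264061) (nat_lit 152) (nat_lit 829518370174) (nat_lit 76) (nat_lit 1296501760476) (nat_lit 56) (nat_lit 5) (nat_lit 58) (nat_lit 5) (nat_lit 57) (nat_lit 4) (nat_lit 501) (nat_lit 455) (nat_lit 244))) (XT.nd (nat_lit 78) (nat_lit 0) (nat_lit 76) (XT.lf (nat_lit 0) (nat_lit 66918064814) (nat_lit 836) (nat_lit 42061960573) (nat_lit 836) (nat_lit 42061960573) (nat_lit 163) (nat_lit 3) (nat_lit 174) (nat_lit 3) (nat_lit 174) (nat_lit 5) (nat_lit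 456) (nat_lit 456) (nat_lit 288)) (XT.lf (nat_lit 0) (nat_lit 142028555146) (nat_lit 760) (nat_lit 152612844657) (nat_lit 836) (nat_lit 19383981893) (nat_lit 164) (nat_lit 5) (nat_lit 174) (nat_lit 5) (nat_lit 175) (nat_lit 5) (nat_lit 457) (nat_lit 456) (nat_lit 287)))) (XT.nd (nat_lit 156) (nat_lit 0) (nat_lit 152) (XT.nd (nat_lit 78) (nat_lit 0) (nat_lit 76) (XT.lf (nat_lit 76) (nat_lit 102322789379) (nat_lit 0) (nat_lit 55315631565) (nat_lit 836) (nat_lit 168945581004) (nat_lit 165) (nat_lit 5) (nat_lit 164) (nat_lit 5) (nat_lit 175) (nat_lit 5) (nat_lit 458) (nat_lit 456) (nat_lit 286)) (XT.lf (nat_lit 76) (nat_lit 41191537399) (nat_lit 0) (nat_lit 139822386311) (nat_lit 836) (nat_lit 158807545736) (nat_lit 166) (nat_lit 5) (nat_lit 165) (nat_lit 5) (nat_lit 176) (nat_lit 5) (nat_lit 459) (nat_lit 456) (nat_lit 285))) (XT.nd (nat_lit 78) (nat_lit 0) (nat_lit 76) (XT.lf (nat_lit 0) (nat_lit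 213017049536) (nat_lit 760) (nat_lit 20885072153) (nat_lit 836) (nat_lit 119877933517) (nat_lit 166) (nat_lit 5) (nat_lit 176) (nat_lit 5) (nat_lit 177) (nat_lit 5) (nat_lit 460) (nat_lit 456) (nat_lit 284)) (XT.lf (nat_lit 0) (nat_lit 254892585671) (nat_lit 760) (nat_lit 83134305879) (nat_lit 836) (nat_lit 30462828273) (nat_lit 167) (nat_lit 5) (nat_lit 177) (nat_lit 5) (nat_lit 178) (nat_lit 5) (nat_lit 461) (nat_lit 456) (nat_lit 283))))) (XT.nd (nat_lit 312) (nat_lit 1064) (nat_lit 0) (XT.nd (nat_lit 156) (nat_lit 912) (nat_lit 0) (XT.nd (nat_lit 78) (nat_lit 684) (nat_lit 0) (XT.lf (nat_lit 76) (nat_lit 236089252127) (nat_lit 0) (nat_lit 72028629921) (nat_lit 836) (nat_lit 75858289700) (nat_lit 168) (nat_lit 5) (nat_lit 167) (nat_lit 5) (nat_lit 178) (nat_lit 5) (nat_lit 462) (nat_lit 456) (nat_lit 282)) (XT.lf (nat_lit 0) (nat_lit 185750996317) (nat_lit 760) (nat_lit 187582755617) (nat_lit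 836) (nat_lit 26981160409) (nat_lit 158) (nat_lit 5) (nat_lit 168) (nat_lit 5) (nat_lit 169) (nat_lit 5) (nat_lit 463) (nat_lit 456) (nat_lit 281))) (XT.nd (nat_lit 78) (nat_lit 380) (nat_lit 0) (XT.lf (nat_lit 0) (nat_lit 32583755923) (nat_lit 532) (nat_lit 283057041265) (nat_lit 76) (nat_lit 101919630980) (nat_lit 151) (nat_lit 5) (nat_lit 158) (nat_lit 5) (nat_lit 152) (nat_lit 5) (nat_lit 464) (nat_lit 456) (nat_lit 280)) (XT.lf (nat_lit 0) (nat_lit 82108065843) (nat_lit 380) (nat_lit 22116840659) (nat_lit 456) (nat_lit 331525746587) (nat_lit 146) (nat_lit 5) (nat_lit 151) (nat_lit 5) (nat_lit 152) (nat_lit 5) (nat_lit 465) (nat_lit 456) (nat_lit 279)))) (XT.nd (nat_lit 156) (nat_lit 684) (nat_lit 0) (XT.nd (nat_lit 78) (nat_lit 0) (nat_lit 0) (XT.lf (nat_lit 0) (nat_lit 27644548540) (nat_lit 380) (nat_lit 163999889863) (nat_lit 456) (nat_lit 263249303141) (nat_lit 141) (nat_lit 5) (nat_lit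 146) (nat_lit 5) (nat_lit 147) (nat_lit 5) (nat_lit 466) (nat_lit 456) (nat_lit 278)) (XT.lf (nat_lit 0) (nat_lit 295068502548) (nat_lit 456) (nat_lit 26048023122) (nat_lit 76) (nat_lit 154001202925) (nat_lit 141) (nat_lit 5) (nat_lit 147) (nat_lit 5) (nat_lit 142) (nat_lit 5) (nat_lit 467) (nat_lit 456) (nat_lit 277))) (XT.nd (nat_lit 78) (nat_lit 380) (nat_lit 0) (XT.lf (nat_lit 0) (nat_lit 416083842527) (nat_lit 380) (nat_lit 78665410561) (nat_lit 76) (nat_lit 1744513992) (nat_lit 137) (nat_lit 5) (nat_lit 142) (nat_lit 5) (nat_lit 138) (nat_lit 5) (nat_lit 468) (nat_lit 456) (nat_lit 276)) (XT.lf (nat_lit 0) (nat_lit 38419463758) (nat_lit 380) (nat_lit 134100589628) (nat_lit 76) (nat_lit 346434124978) (nat_lit 132) (nat_lit 5) (nat_lit 137) (nat_lit 5) (nat_lit 133) (nat_lit 5) (nat_lit 469) (nat_lit 456) (nat_lit 275)))))) (XT.nd (nat_lit 624) (nat_lit 1368) (nat_lit 0) (XT.nd (nat_lit 312)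 (nat_lit 912) (nat_lit 0) (XT.nd (nat_lit 156) (nat_lit 608) (nat_lit 0) (XT.nd (nat_lit 78) (nat_lit 304) (nat_lit 0) (XT.lf (nat_lit 0) (nat_lit 173788430849) (nat_lit 380) (nat_lit 190564989974) (nat_lit 76) (nat_lit 178299571971) (nat_lit 128) (nat_lit 5) (nat_lit 133) (nat_lit 5) (nat_lit 129) (nat_lit 5) (nat_lit 470) (nat_lit 456) (nat_lit 274)) (XT.lf (nat_lit 0) (nat_lit 321161262460) (nat_lit 304) (nat_lit 9123074269) (nat_lit 380) (nat_lit 237448504579) (nat_lit 124) (nat_lit 5) (nat_lit 128) (nat_lit 5) (nat_lit 129) (nat_lit 5) (nat_lit 471) (nat_lit 456) (nat_lit 273))) (XT.nd (nat_lit 78) (nat_lit 380) (nat_lit 0) (XT.lf (nat_lit 0) (nat_lit 289336217465) (nat_lit 228) (nat_lit 223702333514) (nat_lit 304) (nat_lit 81093594934) (nat_lit 121) (nat_lit 5) (nat_lit 124) (nat_lit 5) (nat_lit 125) (nat_lit 5) (nat_lit 472) (nat_lit 456) (nat_lit 272)) (XT.lf (nat_lit 0) (nat_lit 96177140753)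 (nat_lit 380) (nat_lit 363502935651) (nat_lit 76) (nat_lit 162333971325) (nat_lit 116) (nat_lit 5) (nat_lit 121) (nat_lit 5) (nat_lit 117) (nat_lit 5) (nat_lit 473) (nat_lit 456) (nat_lit 271)))) (XT.nd (nat_lit 156) (nat_lit 456) (nat_lit 0) (XT.nd (nat_lit 78) (nat_lit 228) (nat_lit 0) (XT.lf (nat_lit 0) (nat_lit 227975986553) (nat_lit 228) (nat_lit 69578125448) (nat_lit 304) (nat_lit 353867634470) (nat_lit 113) (nat_lit 5) (nat_lit 116) (nat_lit 5) (nat_lit 117) (nat_lit 5) (nat_lit 474) (nat_lit 456) (nat_lit 270)) (XT.lf (nat_lit 0) (nat_lit 197617957965) (nat_lit 228) (nat_lit 332435924110) (nat_lit 304) (nat_lit 152377546982) (nat_lit 110) (nat_lit 5) (nat_lit 113) (nat_lit 5) (nat_lit 114) (nat_lit 5) (nat_lit 475) (nat_lit 456) (nat_lit 269))) (XT.nd (nat_lit 78) (nat_lit 228) (nat_lit 0) (XT.lf (nat_lit 0) (nat_lit 75993894868) (nat_lit 228) (nat_lit 545713903230) (nat_lit 76) (nat_lit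 93520667103) (nat_lit 107) (nat_lit 5) (nat_lit 110) (nat_lit 5) (nat_lit 108) (nat_lit 5) (nat_lit 476) (nat_lit 456) (nat_lit 268)) (XT.lf (nat_lit 0) (nat_lit 139423441298) (nat_lit 228) (nat_lit 194310227945) (nat_lit 304) (nat_lit 415968836158) (nat_lit 104) (nat_lit 5) (nat_lit 107) (nat_lit 5) (nat_lit 108) (nat_lit 5) (nat_lit 477) (nat_lit 456) (nat_lit 267))))) (XT.nd (nat_lit 312) (nat_lit 608) (nat_lit 0) (XT.nd (nat_lit 156) (nat_lit 304) (nat_lit 0) (XT.nd (nat_lit 78) (nat_lit 304) (nat_lit 0) (XT.lf (nat_lit 0) (nat_lit 111644318359) (nat_lit 152) (nat_lit 516026148585) (nat_lit 228) (nat_lit 158485109804) (nat_lit 102) (nat_lit 5) (nat_lit 104) (nat_lit 5) (nat_lit 105) (nat_lit 5) (nat_lit 478) (nat_lit 456) (nat_lit 266)) (XT.lf (nat_lit 0) (nat_lit 85540920655) (nat_lit 228) (nat_lit 45645398197) (nat_lit 304) (nat_lit 693474369232) (nat_lit 98) (nat_lit 5) (nat_lit 101) (nat_lit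 5) (nat_lit 102) (nat_lit 5) (nat_lit 479) (nat_lit 456) (nat_lit 265))) (XT.nd (nat_lit 78) (nat_lit 152) (nat_lit 0) (XT.lf (nat_lit 0) (nat_lit 56551272836) (nat_lit 152) (nat_lit 402045758043) (nat_lit 228) (nat_lit 406513365857) (nat_lit 96) (nat_lit 5) (nat_lit 98) (nat_lit 5) (nat_lit 99) (nat_lit 5) (nat_lit 480) (nat_lit 456) (nat_lit 264)) (XT.lf (nat_lit 0) (nat_lit 32597934136) (nat_lit 152) (nat_lit 795549311562) (nat_lit 228) (nat_lit 79851504089) (nat_lit 94) (nat_lit 5) (nat_lit 96) (nat_lit 5) (nat_lit 97) (nat_lit 5) (nat_lit 481) (nat_lit 456) (nat_lit 263)))) (XT.nd (nat_lit 156) (nat_lit 380) (nat_lit 0) (XT.nd (nat_lit 78) (nat_lit 0) (nat_lit 0) (XT.lf (nat_lit 0) (nat_lit 5201911967) (nat_lit 152) (nat_lit 280181388927) (nat_lit 228) (nat_lit 667663005461) (nat_lit 91) (nat_lit 5) (nat_lit 93) (nat_lit 5) (nat_lit 94) (nat_lit 5) (nat_lit 482) (nat_lit 456) (nat_lit 262))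 (XT.lf (nat_lit 0) (nat_lit 696891181832) (nat_lit 228) (nat_lit 19334185621) (nat_lit 76) (nat_lit 284414252981) (nat_lit 91) (nat_lit 5) (nat_lit 94) (nat_lit 5) (nat_lit 92) (nat_lit 5) (nat_lit 483) (nat_lit 456) (nat_lit 261))) (XT.nd (nat_lit 78) (nat_lit 152) (nat_lit 0) (XT.lf (nat_lit 0) (nat_lit 107268383438) (nat_lit 228) (nat_lit 41651280034) (nat_lit 76) (nat_lit 902008711928) (nat_lit 88) (nat_lit 5) (nat_lit 91) (nat_lit 5) (nat_lit 89) (nat_lit 5) (nat_lit 484) (nat_lit 456) (nat_lit 260)) (XT.lf (nat_lit 0) (nat_lit 564905424181) (nat_lit 228) (nat_lit 67820378493) (nat_lit 76) (nat_lit 471046417030) (nat_lit 86) (nat_lit 5) (nat_lit 89) (nat_lit 5) (nat_lit 87) (nat_lit 5) (nat_lit 485) (nat_lit 456) (nat_lit 259))))))))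
noncomputable def xc114 : XT := (XT.nd (nat_lit 61386) (nat_lit 0) (nat_lit 76) (XT.nd (nat_lit 1170) (nat_lit 76) (nat_lit 0) (XT.nd (nat_lit 546) (nat_lit 988) (nat_lit 0) (XT.nd (nat_lit 234) (nat_lit 608) (nat_lit 0) (XT.nd (nat_lit 78) (nat_lit 304) (nat_lit 0) (XT.lf (nat_lit 0) (nat_lit 1072238607022) (nat_lit 152) (nat_lit 6903935415) (nat_lit 228) (nat_lit 80701573405) (nat_lit 84) (nat_lit 5) (nat_lit 86) (nat_lit 5) (nat_lit 87) (nat_lit 5) (nat_lit 486) (nat_lit 456) (nat_lit 258)) (XT.nd (nat_lit 78) (nat_lit 152) (nat_lit 0) (XT.lf (nat_lit 0) (nat_lit 430323763691) (nat_lit 152) (nat_lit 115227592300) (nat_lit 76) (nat_lit 673054070279) (nat_lit 82) (nat_lit 5) (nat_lit 84) (nat_lit 5) (nat_lit 83) (nat_lit 5) (nat_lit 487) (nat_lit 456) (nat_lit 257)) (XT.lf (nat_lit 0) (nat_lit 1001294829460) (nat_lit 228) (nat_lit 137363733952) (nat_lit 76) (nat_lit 142248374705) (nat_lit 80)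 (nat_lit 5) (nat_lit 83) (nat_lit 5) (nat_lit 81) (nat_lit 4) (nat_lit 488) (nat_lit 456) (nat_lit 256)))) (XT.nd (nat_lit 156) (nat_lit 304) (nat_lit 0) (XT.nd (nat_lit 78) (nat_lit 152) (nat_lit 0) (XT.lf (nat_lit 0) (nat_lit 291389887123) (nat_lit 152) (nat_lit 163579149329) (nat_lit 76) (nat_lit 891499326273) (nat_lit 78) (nat_lit 5) (nat_lit 80) (nat_lit 5) (nat_lit 79) (nat_lit 5) (nat_lit 489) (nat_lit 456) (nat_lit 255)) (XT.lf (nat_lit 0) (nat_lit 924917851230) (nat_lit 228) (nat_lit 189650022988) (nat_lit 76) (nat_lit 301145534087) (nat_lit 76) (nat_lit 5) (nat_lit 79) (nat_lit 5) (nat_lit 77) (nat_lit 4) (nat_lit 490) (nat_lit 456) (nat_lit 254))) (XT.nd (nat_lit 78) (nat_lit 152) (nat_lit 0) (XT.lf (nat_lit 0) (nat_lit 145814156679) (nat_lit 152) (nat_lit 215858164034) (nat_lit 76) (nat_lit 1127184076363) (nat_lit 74) (nat_lit 5) (nat_lit 76) (nat_lit 5) (nat_lit 75) (nat_lit 5) (nat_lit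 491) (nat_lit 456) (nat_lit 253)) (XT.lf (nat_lit 0) (nat_lit 848023940493) (nat_lit 228) (nat_lit 247962036970) (nat_lit 76) (nat_lit 469869237120) (nat_lit 72) (nat_lit 5) (nat_lit 75) (nat_lit 5) (nat_lit 73) (nat_lit 4) (nat_lit 492) (nat_lit 456) (nat_lit 252))))) (XT.nd (nat_lit 312) (nat_lit 456) (nat_lit 0) (XT.nd (nat_lit 156) (nat_lit 228) (nat_lit 0) (XT.nd (nat_lit 78) (nat_lit 228) (nat_lit 0) (XT.lf (nat_lit 0) (nat_lit 1370945606735) (nat_lit 76) (nat_lit 266789390370) (nat_lit 152) (nat_lit 9712715880) (nat_lit 71) (nat_lit 5) (nat_lit 72) (nat_lit 5) (nat_lit 73) (nat_lit 4) (nat_lit 493) (nat_lit 456) (nat_lit 251)) (XT.lf (nat_lit 0) (nat_lit 768000132100) (nat_lit 228) (nat_lit 317419879695) (nat_lit 76) (nat_lit 647702608431) (nat_lit 68) (nat_lit 5) (nat_lit 71) (nat_lit 5) (nat_lit 69) (nat_lit 4) (nat_lit 494) (nat_lit 456) (nat_lit 250))) (XT.nd (nat_lit 78) (nat_lit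 152) (nat_lit 0) (XT.lf (nat_lit 0) (nat_lit 1470056752398) (nat_lit 76) (nat_lit 169883209137) (nat_lit 152) (nat_lit 184086085275) (nat_lit 67) (nat_lit 5) (nat_lit 68) (nat_lit 5) (nat_lit 69) (nat_lit 4) (nat_lit 495) (nat_lit 456) (nat_lit 249)) (XT.lf (nat_lit 0) (nat_lit 681248300947) (nat_lit 152) (nat_lit 405174493199) (nat_lit 76) (nat_lit 833118120701) (nat_lit 65) (nat_lit 5) (nat_lit 67) (nat_lit 5) (nat_lit 66) (nat_lit 4) (nat_lit 496) (nat_lit 456) (nat_lit 248)))) (XT.nd (nat_lit 156) (nat_lit 228) (nat_lit 0) (XT.nd (nat_lit 78) (nat_lit 152) (nat_lit 0) (XT.lf (nat_lit 0) (nat_lit 1566488169069) (nat_lit 76) (nat_lit 76546803668) (nat_lit 152) (nat_lit 377827358636) (nat_lit 64) (nat_lit 5) (nat_lit 65) (nat_lit 5) (nat_lit 66) (nat_lit 4) (nat_lit 497) (nat_lit 456) (nat_lit 247)) (XT.lf (nat_lit 0) (nat_lit 582855437184) (nat_lit 152) (nat_lit 521083057428) (nat_lit 76) (nat_lit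 1023468914609) (nat_lit 62) (nat_lit 5) (nat_lit 64) (nat_lit 5) (nat_lit 63) (nat_lit 4) (nat_lit 498) (nat_lit 456) (nat_lit 246))) (XT.nd (nat_lit 78) (nat_lit 152) (nat_lit 0) (XT.lf (nat_lit 0) (nat_lit 1642580661120) (nat_lit 152) (nat_lit 589459268413) (nat_lit 0) (nat_lit 8355217478) (nat_lit 61) (nat_lit 5) (nat_lit 63) (nat_lit 4) (nat_lit 61) (nat_lit 4) (nat_lit 499) (nat_lit 456) (nat_lit 245)) (XT.lf (nat_lit 0) (nat_lit 466163297274) (nat_lit 152) (nat_lit 678590694957) (nat_lit 76) (nat_lit 1214581746687) (nat_lit 59) (nat_lit 5) (nat_lit 61) (nat_lit 5) (nat_lit 60) (nat_lit 4) (nat_lit 500) (nat_lit 456) (nat_lit 244)))))) (XT.nd (nat_lit 59592) (nat_lit 0) (nat_lit 5320) (XT.nd (nat_lit 59280) (nat_lit 0) (nat_lit 8132) (XT.nd (nat_lit 59124) (nat_lit 0) (nat_lit 8056) (XT.nd (nat_lit 59046) (nat_lit 0) (nat_lit 7980) (XT.lf (nat_lit 0) (nat_lit 1632977249817) (nat_lit 152)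 (nat_lit 775819148062) (nat_lit 0) (nat_lit 76572045716) (nat_lit 58) (nat_lit 5) (nat_lit 60) (nat_lit 4) (nat_lit 58) (nat_lit 4) (nat_lit 501) (nat_lit 456) (nat_lit 243)) (XT.lf (nat_lit 0) (nat_lit 72272591426) (nat_lit 836) (nat_lit 45426349628) (nat_lit 836) (nat_lit 45426349628) (nat_lit 163) (nat_lit 3) (nat_lit 174) (nat_lit 3) (nat_lit 174) (nat_lit 5) (nat_lit 457) (nat_lit 457) (nat_lit 286))) (XT.nd (nat_lit 78) (nat_lit 0) (nat_lit 0) (XT.lf (nat_lit 0) (nat_lit 153392844585) (nat_lit 760) (nat_lit 164820670292) (nat_lit 836) (nat_lit 20933796948) (nat_lit 164) (nat_lit 5) (nat_lit 174) (nat_lit 5) (nat_lit 175) (nat_lit 5) (nat_lit 458) (nat_lit 457) (nat_lit 285)) (XT.lf (nat_lit 76) (nat_lit 110509762232) (nat_lit 0) (nat_lit 59741606845) (nat_lit 836) (nat_lit 182459259162) (nat_lit 165) (nat_lit 5) (nat_lit 164) (nat_lit 5) (nat_lit 175) (nat_lit 5) (nat_lit 459) (nat_lit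 457) (nat_lit 284)))) (XT.nd (nat_lit 156) (nat_lit 0) (nat_lit 152) (XT.nd (nat_lit 78) (nat_lit 0) (nat_lit 76) (XT.lf (nat_lit 76) (nat_lit 44488060739) (nat_lit 0) (nat_lit 151008720739) (nat_lit 836) (nat_lit 171510318197) (nat_lit 166) (nat_lit 5) (nat_lit 165) (nat_lit 5) (nat_lit 176) (nat_lit 5) (nat_lit 460) (nat_lit 457) (nat_lit 283)) (XT.lf (nat_lit 0) (nat_lit 230060020338) (nat_lit 760) (nat_lit 22554677778) (nat_lit 836) (nat_lit 129467681043) (nat_lit 166) (nat_lit 5) (nat_lit 176) (nat_lit 5) (nat_lit 177) (nat_lit 5) (nat_lit 461) (nat_lit 457) (nat_lit 282))) (XT.nd (nat_lit 78) (nat_lit 0) (nat_lit 0) (XT.lf (nat_lit 0) (nat_lit 275285492676) (nat_lit 760) (nat_lit 89783821373) (nat_lit 836) (nat_lit 32899508239) (nat_lit 167) (nat_lit 5) (nat_lit 177) (nat_lit 5) (nat_lit 178) (nat_lit 5) (nat_lit 462) (nat_lit 457) (nat_lit 281)) (XT.lf (nat_lit 76) (nat_lit 254977567864)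 (nat_lit 0) (nat_lit 77791152131) (nat_lit 836) (nat_lit 81925475019) (nat_lit 168) (nat_lit 5) (nat_lit 167) (nat_lit 5) (nat_lit 178) (nat_lit 5) (nat_lit 463) (nat_lit 457) (nat_lit 280))))) (XT.nd (nat_lit 312) (nat_lit 988) (nat_lit 0) (XT.nd (nat_lit 156) (nat_lit 760) (nat_lit 0) (XT.nd (nat_lit 78) (nat_lit 532) (nat_lit 0) (XT.lf (nat_lit 0) (nat_lit 200612271375) (nat_lit 760) (nat_lit 202589499159) (nat_lit 836) (nat_lit 29138268778) (nat_lit 158) (nat_lit 5) (nat_lit 168) (nat_lit 5) (nat_lit 169) (nat_lit 5) (nat_lit 464) (nat_lit 457) (nat_lit 279)) (XT.lf (nat_lit 0) (nat_lit 35191714645) (nat_lit 532) (nat_lit 305700354484) (nat_lit 76) (nat_lit 110073130293) (nat_lit 151) (nat_lit 5) (nat_lit 158) (nat_lit 5) (nat_lit 152) (nat_lit 5) (nat_lit 465) (nat_lit 457) (nat_lit 278))) (XT.nd (nat_lit 78) (nat_lit 380) (nat_lit 0) (XT.lf (nat_lit 0) (nat_lit 88677906865) (nat_lit 380)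 (nat_lit 23886175872) (nat_lit 456) (nat_lit 358046563334) (nat_lit 146) (nat_lit 5) (nat_lit 151) (nat_lit 5) (nat_lit 152) (nat_lit 5) (nat_lit 466) (nat_lit 457) (nat_lit 277)) (XT.lf (nat_lit 0) (nat_lit 29857312721) (nat_lit 380) (nat_lit 177119795700) (nat_lit 456) (nat_lit 284308076626) (nat_lit 141) (nat_lit 5) (nat_lit 146) (nat_lit 5) (nat_lit 147) (nat_lit 5) (nat_lit 467) (nat_lit 457) (nat_lit 276)))) (XT.nd (nat_lit 156) (nat_lit 684) (nat_lit 0) (XT.nd (nat_lit 78) (nat_lit 304) (nat_lit 0) (XT.lf (nat_lit 0) (nat_lit 318675016343) (nat_lit 456) (nat_lit 28130703133) (nat_lit 76) (nat_lit 166321375660) (nat_lit 141) (nat_lit 5) (nat_lit 147) (nat_lit 5) (nat_lit 142) (nat_lit 5) (nat_lit 468) (nat_lit 457) (nat_lit 275)) (XT.lf (nat_lit 0) (nat_lit 449371526448) (nat_lit 380) (nat_lit 84957485414) (nat_lit 76) (nat_lit 1884207695) (nat_lit 137) (nat_lit 5) (nat_lit 142) (nat_lit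 5) (nat_lit 138) (nat_lit 5) (nat_lit 469) (nat_lit 457) (nat_lit 274))) (XT.nd (nat_lit 78) (nat_lit 304) (nat_lit 0) (XT.lf (nat_lit 0) (nat_lit 41493957499) (nat_lit 380) (nat_lit 144827498107) (nat_lit 76) (nat_lit 374149010140) (nat_lit 132) (nat_lit 5) (nat_lit 137) (nat_lit 5) (nat_lit 133) (nat_lit 5) (nat_lit 470) (nat_lit 457) (nat_lit 273)) (XT.lf (nat_lit 0) (nat_lit 187692392782) (nat_lit 380) (nat_lit 205809058901) (nat_lit 76) (nat_lit 192563736110) (nat_lit 128) (nat_lit 5) (nat_lit 133) (nat_lit 5) (nat_lit 129) (nat_lit 5) (nat_lit 471) (nat_lit 457) (nat_lit 272))))))) (XT.nd (nat_lit 1248) (nat_lit 1900) (nat_lit 0) (XT.nd (nat_lit 624) (nat_lit 1368) (nat_lit 0) (XT.nd (nat_lit 312) (nat_lit 836) (nat_lit 0) (XT.nd (nat_lit 156) (nat_lit 608) (nat_lit 0) (XT.nd (nat_lit 78) (nat_lit 228) (nat_lit 0) (XT.lf (nat_lit 0) (nat_lit 346855244607) (nat_lit 304) (nat_lit 9852677667)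 (nat_lit 380) (nat_lit 256443504361) (nat_lit 124) (nat_lit 5) (nat_lit 128) (nat_lit 5) (nat_lit 129) (nat_lit 5) (nat_lit 472) (nat_lit 457) (nat_lit 271)) (XT.lf (nat_lit 0) (nat_lit 312484185559) (nat_lit 228) (nat_lit 241598246209) (nat_lit 304) (nat_lit 87580245938) (nat_lit 121) (nat_lit 5) (nat_lit 124) (nat_lit 5) (nat_lit 125) (nat_lit 5) (nat_lit 473) (nat_lit 457) (nat_lit 270))) (XT.nd (nat_lit 78) (nat_lit 228) (nat_lit 0) (XT.lf (nat_lit 0) (nat_lit 103872082659) (nat_lit 380) (nat_lit 392582086763) (nat_lit 76) (nat_lit 175320963554) (nat_lit 116) (nat_lit 5) (nat_lit 121) (nat_lit 5) (nat_lit 117) (nat_lit 5) (nat_lit 474) (nat_lit 457) (nat_lit 269)) (XT.lf (nat_lit 0) (nat_lit 246215102119) (nat_lit 228) (nat_lit 75144068588) (nat_lit 304) (nat_lit 382176278958) (nat_lit 113) (nat_lit 5) (nat_lit 116) (nat_lit 5) (nat_lit 117) (nat_lit 5) (nat_lit 475) (nat_lit 457) (nat_lit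 268)))) (XT.nd (nat_lit 156) (nat_lit 380) (nat_lit 0) (XT.nd (nat_lit 78) (nat_lit 228) (nat_lit 0) (XT.lf (nat_lit 0) (nat_lit 213428416546) (nat_lit 228) (nat_lit 359030472179) (nat_lit 304) (nat_lit 164567019821) (nat_lit 110) (nat_lit 5) (nat_lit 113) (nat_lit 5) (nat_lit 114) (nat_lit 5) (nat_lit 476) (nat_lit 457) (nat_lit 267)) (XT.lf (nat_lit 0) (nat_lit 82074082326) (nat_lit 228) (nat_lit 589369987123) (nat_lit 76) (nat_lit 101002639145) (nat_lit 107) (nat_lit 5) (nat_lit 110) (nat_lit 5) (nat_lit 108) (nat_lit 5) (nat_lit 477) (nat_lit 457) (nat_lit 266))) (XT.nd (nat_lit 78) (nat_lit 152) (nat_lit 0) (XT.lf (nat_lit 0) (nat_lit 150578300275) (nat_lit 228) (nat_lit 209854703669) (nat_lit 304) (nat_lit 449245669803) (nat_lit 104) (nat_lit 5) (nat_lit 107) (nat_lit 5) (nat_lit 108) (nat_lit 5) (nat_lit 478) (nat_lit 457) (nat_lit 265)) (XT.lf (nat_lit 0) (nat_lit 120576830328) (nat_lit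 152) (nat_lit 557307887682) (nat_lit 228) (nat_lit 171163274167) (nat_lit 102) (nat_lit 5) (nat_lit 104) (nat_lit 5) (nat_lit 105) (nat_lit 5) (nat_lit 479) (nat_lit 457) (nat_lit 264))))) (XT.nd (nat_lit 312) (nat_lit 532) (nat_lit 0) (XT.nd (nat_lit 156) (nat_lit 380) (nat_lit 0) (XT.nd (nat_lit 78) (nat_lit 152) (nat_lit 0) (XT.lf (nat_lit 0) (nat_lit 92385138557) (nat_lit 228) (nat_lit 49296678134) (nat_lit 304) (nat_lit 748951696801) (nat_lit 98) (nat_lit 5) (nat_lit 101) (nat_lit 5) (nat_lit 102) (nat_lit 5) (nat_lit 480) (nat_lit 457) (nat_lit 263)) (XT.lf (nat_lit 0) (nat_lit 61076300971) (nat_lit 152) (nat_lit 434209060382) (nat_lit 228) (nat_lit 439033838700) (nat_lit 96) (nat_lit 5) (nat_lit 98) (nat_lit 5) (nat_lit 99) (nat_lit 5) (nat_lit 481) (nat_lit 457) (nat_lit 262))) (XT.nd (nat_lit 78) (nat_lit 228) (nat_lit 0) (XT.lf (nat_lit 0) (nat_lit 35206676754) (nat_lit 152) (nat_lit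 859192893884) (nat_lit 228) (nat_lit 86239051849) (nat_lit 94) (nat_lit 5) (nat_lit 96) (nat_lit 5) (nat_lit 97) (nat_lit 5) (nat_lit 482) (nat_lit 457) (nat_lit 261)) (XT.lf (nat_lit 0) (nat_lit 5618950903) (nat_lit 152) (nat_lit 302595541083) (nat_lit 228) (nat_lit 721075492511) (nat_lit 91) (nat_lit 5) (nat_lit 93) (nat_lit 5) (nat_lit 94) (nat_lit 5) (nat_lit 483) (nat_lit 457) (nat_lit 260)))) (XT.nd (nat_lit 156) (nat_lit 304) (nat_lit 0) (XT.nd (nat_lit 78) (nat_lit 228) (nat_lit 0) (XT.lf (nat_lit 0) (nat_lit 752642969549) (nat_lit 228) (nat_lit 20880080895) (nat_lit 76) (nat_lit 307167714950) (nat_lit 91) (nat_lit 5) (nat_lit 94) (nat_lit 5) (nat_lit 92) (nat_lit 5) (nat_lit 484) (nat_lit 457) (nat_lit 259)) (XT.lf (nat_lit 0) (nat_lit 115850330996) (nat_lit 228) (nat_lit 44982563567) (nat_lit 76) (nat_lit 974169727012) (nat_lit 88) (nat_lit 5) (nat_lit 91) (nat_lit 5) (nat_lit 89) (nat_lit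 5) (nat_lit 485) (nat_lit 457) (nat_lit 258))) (XT.nd (nat_lit 78) (nat_lit 152) (nat_lit 0) (XT.lf (nat_lit 0) (nat_lit 610098317048) (nat_lit 228) (nat_lit 73245207932) (nat_lit 76) (nat_lit 508730449343) (nat_lit 86) (nat_lit 5) (nat_lit 89) (nat_lit 5) (nat_lit 87) (nat_lit 5) (nat_lit 486) (nat_lit 457) (nat_lit 257)) (XT.lf (nat_lit 0) (nat_lit 1158018461621) (nat_lit 152) (nat_lit 7455921107) (nat_lit 228) (nat_lit 87157240524) (nat_lit 84) (nat_lit 5) (nat_lit 86) (nat_lit 5) (nat_lit 87) (nat_lit 5) (nat_lit 487) (nat_lit 457) (nat_lit 256)))))) (XT.nd (nat_lit 624) (nat_lit 684) (nat_lit 0) (XT.nd (nat_lit 312) (nat_lit 608) (nat_lit 0) (XT.nd (nat_lit 156) (nat_lit 304) (nat_lit 0) (XT.nd (nat_lit 78) (nat_lit 152) (nat_lit 0) (XT.lf (nat_lit 0) (nat_lit 464750092680) (nat_lit 152) (nat_lit 124445036788) (nat_lit 76) (nat_lit 726898709499) (nat_lit 82) (nat_lit 5) (nat_lit 84) (nat_lit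 5) (nat_lit 83) (nat_lit 5) (nat_lit 488) (nat_lit 457) (nat_lit 255)) (XT.lf (nat_lit 0) (nat_lit 1081398828438) (nat_lit 228) (nat_lit 148352087567) (nat_lit 76) (nat_lit 153628556520) (nat_lit 80) (nat_lit 5) (nat_lit 83) (nat_lit 5) (nat_lit 81) (nat_lit 4) (nat_lit 489) (nat_lit 457) (nat_lit 254))) (XT.nd (nat_lit 78) (nat_lit 152) (nat_lit 0) (XT.lf (nat_lit 0) (nat_lit 314701477731) (nat_lit 152) (nat_lit 176664755334) (nat_lit 76) (nat_lit 962819578688) (nat_lit 78) (nat_lit 5) (nat_lit 80) (nat_lit 5) (nat_lit 79) (nat_lit 5) (nat_lit 490) (nat_lit 457) (nat_lit 253)) (XT.lf (nat_lit 0) (nat_lit 998911665100) (nat_lit 228) (nat_lit 204821316277) (nat_lit 76) (nat_lit 325237480296) (nat_lit 76) (nat_lit 5) (nat_lit 79) (nat_lit 5) (nat_lit 77) (nat_lit 4) (nat_lit 491) (nat_lit 457) (nat_lit 252)))) (XT.nd (nat_lit 156) (nat_lit 304) (nat_lit 0) (XT.nd (nat_lit 78) (nat_lit 152) (nat_lit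 0) (XT.lf (nat_lit 0) (nat_lit 157479663028) (nat_lit 152) (nat_lit 233126127032) (nat_lit 76) (nat_lit 1217359100085) (nat_lit 74) (nat_lit 5) (nat_lit 76) (nat_lit 5) (nat_lit 75) (nat_lit 5) (nat_lit 492) (nat_lit 457) (nat_lit 251)) (XT.lf (nat_lit 0) (nat_lit 915866216904) (nat_lit 228) (nat_lit 267798326708) (nat_lit 76) (nat_lit 507459070071) (nat_lit 72) (nat_lit 5) (nat_lit 75) (nat_lit 5) (nat_lit 73) (nat_lit 4) (nat_lit 493) (nat_lit 457) (nat_lit 250))) (XT.nd (nat_lit 78) (nat_lit 228) (nat_lit 0) (XT.lf (nat_lit 0) (nat_lit 1480621899235) (nat_lit 76) (nat_lit 288132242111) (nat_lit 152) (nat_lit 10489371448) (nat_lit 71) (nat_lit 5) (nat_lit 72) (nat_lit 5) (nat_lit 73) (nat_lit 4) (nat_lit 494) (nat_lit 457) (nat_lit 249)) (XT.lf (nat_lit 0) (nat_lit 829440481224) (nat_lit 228) (nat_lit 342812830888) (nat_lit 76) (nat_lit 699519100800) (nat_lit 68) (nat_lit 5) (nat_lit 71) (nat_lit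 5) (nat_lit 69) (nat_lit 4) (nat_lit 495) (nat_lit 457) (nat_lit 248))))) (XT.nd (nat_lit 312) (nat_lit 228) (nat_lit 0) (XT.nd (nat_lit 156) (nat_lit 228) (nat_lit 0) (XT.nd (nat_lit 78) (nat_lit 152) (nat_lit 0) (XT.lf (nat_lit 0) (nat_lit 1587661903995) (nat_lit 76) (nat_lit 183473577487) (nat_lit 152) (nat_lit 198812632917) (nat_lit 67) (nat_lit 5) (nat_lit 68) (nat_lit 5) (nat_lit 69) (nat_lit 4) (nat_lit 496) (nat_lit 457) (nat_lit 247)) (XT.lf (nat_lit 0) (nat_lit 735748482721) (nat_lit 152) (nat_lit 437587846165) (nat_lit 76) (nat_lit 899767843259) (nat_lit 65) (nat_lit 5) (nat_lit 67) (nat_lit 5) (nat_lit 66) (nat_lit 4) (nat_lit 497) (nat_lit 457) (nat_lit 246))) (XT.nd (nat_lit 78) (nat_lit 152) (nat_lit 0) (XT.lf (nat_lit 0) (nat_lit 1691807802728) (nat_lit 76) (nat_lit 82670271051) (nat_lit 152) (nat_lit 408053228939) (nat_lit 64) (nat_lit 5) (nat_lit 65) (nat_lit 5) (nat_lit 66)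 (nat_lit 4) (nat_lit 498) (nat_lit 457) (nat_lit 245)) (XT.lf (nat_lit 0) (nat_lit 629484170566) (nat_lit 152) (nat_lit 562769126860) (nat_lit 76) (nat_lit 1105346689609) (nat_lit 62) (nat_lit 5) (nat_lit 64) (nat_lit 5) (nat_lit 63) (nat_lit 4) (nat_lit 499) (nat_lit 457) (nat_lit 244)))) (XT.nd (nat_lit 59202) (nat_lit 0) (nat_lit 7904) (XT.nd (nat_lit 78) (nat_lit 152) (nat_lit 0) (XT.lf (nat_lit 0) (nat_lit 1773987403043) (nat_lit 152) (nat_lit 636615449614) (nat_lit 0) (nat_lit 9023891659) (nat_lit 61) (nat_lit 5) (nat_lit 63) (nat_lit 4) (nat_lit 61) (nat_lit 4) (nat_lit 500) (nat_lit 457) (nat_lit 243)) (XT.lf (nat_lit 0) (nat_lit 503456641575) (nat_lit 152) (nat_lit 732877405352) (nat_lit 76) (nat_lit 1311748537076) (nat_lit 59) (nat_lit 5) (nat_lit 61) (nat_lit 5) (nat_lit 60) (nat_lit 4) (nat_lit 501) (nat_lit 457) (nat_lit 242))) (XT.nd (nat_lit 78) (nat_lit 0) (nat_lit 76) (XT.lf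 (nat_lit 0) (nat_lit 78055325888) (nat_lit 836) (nat_lit 49059970810) (nat_lit 836) (nat_lit 49059970810) (nat_lit 163) (nat_lit 3) (nat_lit 174) (nat_lit 3) (nat_lit 174) (nat_lit 5) (nat_lit 458) (nat_lit 458) (nat_lit 284)) (XT.lf (nat_lit 0) (nat_lit 165665991140) (nat_lit 760) (nat_lit 178005293449) (nat_lit 836) (nat_lit 22607726101) (nat_lit 164) (nat_lit 5) (nat_lit 174) (nat_lit 5) (nat_lit 175) (nat_lit 5) (nat_lit 459) (nat_lit 458) (nat_lit 283))))))))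
noncomputable def xc115 : XT := (XT.nd (nat_lit 2496) (nat_lit 1216) (nat_lit 0) (XT.nd (nat_lit 1248) (nat_lit 2888) (nat_lit 0) (XT.nd (nat_lit 624) (nat_lit 2280) (nat_lit 0) (XT.nd (nat_lit 312) (nat_lit 1368) (nat_lit 0) (XT.nd (nat_lit 156) (nat_lit 0) (nat_lit 152) (XT.nd (nat_lit 78) (nat_lit 0) (nat_lit 76) (XT.lf (nat_lit 76) (nat_lit 119351528894) (nat_lit 0) (nat_lit 64521556753) (nat_lit 836) (nat_lit 197054312375) (nat_lit 165) (nat_lit 5) (nat_lit 164) (nat_lit 5) (nat_lit 175) (nat_lit 5) (nat_lit 460) (nat_lit 458) (nat_lit 282)) (XT.lf (nat_lit 76) (nat_lit 48048134703) (nat_lit 0) (nat_lit 163089884383) (nat_lit 836) (nat_lit 185229573695) (nat_lit 166) (nat_lit 5) (nat_lit 165) (nat_lit 5) (nat_lit 176) (nat_lit 5) (nat_lit 461) (nat_lit 458) (nat_lit 281))) (XT.nd (nat_lit 78) (nat_lit 0) (nat_lit 76) (XT.lf (nat_lit 0) (nat_lit 248466199570) (nat_lit 760) (nat_lit 24358023066)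 (nat_lit 836) (nat_lit 139824677870) (nat_lit 166) (nat_lit 5) (nat_lit 176) (nat_lit 5) (nat_lit 177) (nat_lit 5) (nat_lit 462) (nat_lit 458) (nat_lit 280)) (XT.lf (nat_lit 0) (nat_lit 297309618229) (nat_lit 760) (nat_lit 96965473433) (nat_lit 836) (nat_lit 35531172006) (nat_lit 167) (nat_lit 5) (nat_lit 177) (nat_lit 5) (nat_lit 178) (nat_lit 5) (nat_lit 463) (nat_lit 458) (nat_lit 279)))) (XT.nd (nat_lit 156) (nat_lit 912) (nat_lit 0) (XT.nd (nat_lit 78) (nat_lit 684) (nat_lit 0) (XT.lf (nat_lit 76) (nat_lit 275376781153) (nat_lit 0) (nat_lit 84014643046) (nat_lit 836) (nat_lit 88478245996) (nat_lit 168) (nat_lit 5) (nat_lit 167) (nat_lit 5) (nat_lit 178) (nat_lit 5) (nat_lit 464) (nat_lit 458) (nat_lit 278)) (XT.lf (nat_lit 0) (nat_lit 216662277907) (nat_lit 760) (nat_lit 218796764623) (nat_lit 836) (nat_lit 31468143326) (nat_lit 158) (nat_lit 5) (nat_lit 168) (nat_lit 5) (nat_lit 169) (nat_lit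 5) (nat_lit 465) (nat_lit 458) (nat_lit 277))) (XT.nd (nat_lit 78) (nat_lit 380) (nat_lit 0) (XT.lf (nat_lit 0) (nat_lit 38008130562) (nat_lit 532) (nat_lit 330155311100) (nat_lit 76) (nat_lit 118878919704) (nat_lit 151) (nat_lit 5) (nat_lit 158) (nat_lit 5) (nat_lit 152) (nat_lit 5) (nat_lit 466) (nat_lit 458) (nat_lit 276)) (XT.lf (nat_lit 0) (nat_lit 95773164581) (nat_lit 380) (nat_lit 25797059619) (nat_lit 456) (nat_lit 386689222747) (nat_lit 146) (nat_lit 5) (nat_lit 151) (nat_lit 5) (nat_lit 152) (nat_lit 5) (nat_lit 467) (nat_lit 458) (nat_lit 275))))) (XT.nd (nat_lit 312) (nat_lit 1216) (nat_lit 0) (XT.nd (nat_lit 156) (nat_lit 684) (nat_lit 0) (XT.nd (nat_lit 78) (nat_lit 0) (nat_lit 0) (XT.lf (nat_lit 0) (nat_lit 32246926801) (nat_lit 380) (nat_lit 191289306179) (nat_lit 456) (nat_lit 307051719012) (nat_lit 141) (nat_lit 5) (nat_lit 146) (nat_lit 5) (nat_lit 147) (nat_lit 5) (nat_lit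 468) (nat_lit 458) (nat_lit 274)) (XT.lf (nat_lit 0) (nat_lit 344169903788) (nat_lit 456) (nat_lit 30380163293) (nat_lit 76) (nat_lit 179627151300) (nat_lit 141) (nat_lit 5) (nat_lit 147) (nat_lit 5) (nat_lit 142) (nat_lit 5) (nat_lit 469) (nat_lit 458) (nat_lit 273))) (XT.nd (nat_lit 78) (nat_lit 380) (nat_lit 0) (XT.lf (nat_lit 0) (nat_lit 485322085771) (nat_lit 380) (nat_lit 91753091457) (nat_lit 76) (nat_lit 2035057980) (nat_lit 137) (nat_lit 5) (nat_lit 142) (nat_lit 5) (nat_lit 138) (nat_lit 5) (nat_lit 470) (nat_lit 458) (nat_lit 272)) (XT.lf (nat_lit 0) (nat_lit 44814277118) (nat_lit 380) (nat_lit 156412721712) (nat_lit 76) (nat_lit 404081063979) (nat_lit 132) (nat_lit 5) (nat_lit 137) (nat_lit 5) (nat_lit 133) (nat_lit 5) (nat_lit 471) (nat_lit 458) (nat_lit 271)))) (XT.nd (nat_lit 156) (nat_lit 608) (nat_lit 0) (XT.nd (nat_lit 78) (nat_lit 304) (nat_lit 0) (XT.lf (nat_lit 0) (nat_lit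 202708545062) (nat_lit 380) (nat_lit 222272814589) (nat_lit 76) (nat_lit 207969005078) (nat_lit 128) (nat_lit 5) (nat_lit 133) (nat_lit 5) (nat_lit 129) (nat_lit 5) (nat_lit 472) (nat_lit 458) (nat_lit 270)) (XT.lf (nat_lit 0) (nat_lit 374604591088) (nat_lit 304) (nat_lit 10640683938) (nat_lit 380) (nat_lit 276958229751) (nat_lit 124) (nat_lit 5) (nat_lit 128) (nat_lit 5) (nat_lit 129) (nat_lit 5) (nat_lit 473) (nat_lit 458) (nat_lit 269))) (XT.nd (nat_lit 78) (nat_lit 380) (nat_lit 0) (XT.lf (nat_lit 0) (nat_lit 337483838353) (nat_lit 228) (nat_lit 260925871007) (nat_lit 304) (nat_lit 94585948372) (nat_lit 121) (nat_lit 5) (nat_lit 124) (nat_lit 5) (nat_lit 125) (nat_lit 5) (nat_lit 474) (nat_lit 458) (nat_lit 268)) (XT.lf (nat_lit 0) (nat_lit 112182509977) (nat_lit 380) (nat_lit 423987724572) (nat_lit 76) (nat_lit 189346875997) (nat_lit 116) (nat_lit 5) (nat_lit 121) (nat_lit 5) (nat_lit 117)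 (nat_lit 5) (nat_lit 475) (nat_lit 458) (nat_lit 267)))))) (XT.nd (nat_lit 624) (nat_lit 1216) (nat_lit 0) (XT.nd (nat_lit 312) (nat_lit 760) (nat_lit 0) (XT.nd (nat_lit 156) (nat_lit 456) (nat_lit 0) (XT.nd (nat_lit 78) (nat_lit 228) (nat_lit 0) (XT.lf (nat_lit 0) (nat_lit 265913199042) (nat_lit 228) (nat_lit 81155330961) (nat_lit 304) (nat_lit 412749724323) (nat_lit 113) (nat_lit 5) (nat_lit 116) (nat_lit 5) (nat_lit 117) (nat_lit 5) (nat_lit 476) (nat_lit 458) (nat_lit 266)) (XT.lf (nat_lit 0) (nat_lit 230503566022) (nat_lit 228) (nat_lit 387752630580) (nat_lit 304) (nat_lit 177731754760) (nat_lit 110) (nat_lit 5) (nat_lit 113) (nat_lit 5) (nat_lit 114) (nat_lit 5) (nat_lit 477) (nat_lit 458) (nat_lit 265))) (XT.nd (nat_lit 78) (nat_lit 228) (nat_lit 0) (XT.lf (nat_lit 0) (nat_lit 88640588360) (nat_lit 228) (nat_lit 636518704436) (nat_lit 76) (nat_lit 109083123488) (nat_lit 107) (nat_lit 5)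 (nat_lit 110) (nat_lit 5) (nat_lit 108) (nat_lit 5) (nat_lit 478) (nat_lit 458) (nat_lit 264)) (XT.lf (nat_lit 0) (nat_lit 162625407638) (nat_lit 228) (nat_lit 226642786315) (nat_lit 304) (nat_lit 485184746186) (nat_lit 104) (nat_lit 5) (nat_lit 107) (nat_lit 5) (nat_lit 108) (nat_lit 5) (nat_lit 479) (nat_lit 458) (nat_lit 263)))) (XT.nd (nat_lit 156) (nat_lit 304) (nat_lit 0) (XT.nd (nat_lit 78) (nat_lit 304) (nat_lit 0) (XT.lf (nat_lit 0) (nat_lit 130223805373) (nat_lit 152) (nat_lit 601892216235) (nat_lit 228) (nat_lit 184855783614) (nat_lit 102) (nat_lit 5) (nat_lit 104) (nat_lit 5) (nat_lit 105) (nat_lit 5) (nat_lit 480) (nat_lit 458) (nat_lit 262)) (XT.lf (nat_lit 0) (nat_lit 99776759183) (nat_lit 228) (nat_lit 53240110671) (nat_lit 304) (nat_lit 808867299307) (nat_lit 98) (nat_lit 5) (nat_lit 101) (nat_lit 5) (nat_lit 102) (nat_lit 5) (nat_lit 481) (nat_lit 458) (nat_lit 261))) (XT.nd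 (nat_lit 78) (nat_lit 152) (nat_lit 0) (XT.lf (nat_lit 0) (nat_lit 65963199209) (nat_lit 152) (nat_lit 468945478024) (nat_lit 228) (nat_lit 474156034458) (nat_lit 96) (nat_lit 5) (nat_lit 98) (nat_lit 5) (nat_lit 99) (nat_lit 5) (nat_lit 482) (nat_lit 458) (nat_lit 260)) (XT.lf (nat_lit 0) (nat_lit 38023989261) (nat_lit 152) (nat_lit 927928014522) (nat_lit 228) (nat_lit 93137685113) (nat_lit 94) (nat_lit 5) (nat_lit 96) (nat_lit 5) (nat_lit 97) (nat_lit 5) (nat_lit 483) (nat_lit 458) (nat_lit 259))))) (XT.nd (nat_lit 312) (nat_lit 608) (nat_lit 0) (XT.nd (nat_lit 156) (nat_lit 380) (nat_lit 0) (XT.nd (nat_lit 78) (nat_lit 0) (nat_lit 0) (XT.lf (nat_lit 0) (nat_lit 6069226558) (nat_lit 152) (nat_lit 326802876621) (nat_lit 228) (nat_lit 778761057472) (nat_lit 91) (nat_lit 5) (nat_lit 93) (nat_lit 5) (nat_lit 94) (nat_lit 5) (nat_lit 484) (nat_lit 458) (nat_lit 258)) (XT.lf (nat_lit 0) (nat_lit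 812854829927) (nat_lit 228) (nat_lit 22549767567) (nat_lit 76) (nat_lit 331741407979) (nat_lit 91) (nat_lit 5) (nat_lit 94) (nat_lit 5) (nat_lit 92) (nat_lit 5) (nat_lit 485) (nat_lit 458) (nat_lit 257))) (XT.nd (nat_lit 78) (nat_lit 152) (nat_lit 0) (XT.lf (nat_lit 0) (nat_lit 125118766326) (nat_lit 228) (nat_lit 48580466603) (nat_lit 76) (nat_lit 1052103577918) (nat_lit 88) (nat_lit 5) (nat_lit 91) (nat_lit 5) (nat_lit 89) (nat_lit 5) (nat_lit 486) (nat_lit 458) (nat_lit 256)) (XT.lf (nat_lit 0) (nat_lit 658906575871) (nat_lit 228) (nat_lit 79104137975) (nat_lit 76) (nat_lit 549429158738) (nat_lit 86) (nat_lit 5) (nat_lit 89) (nat_lit 5) (nat_lit 87) (nat_lit 5) (nat_lit 487) (nat_lit 458) (nat_lit 255)))) (XT.nd (nat_lit 156) (nat_lit 304) (nat_lit 0) (XT.nd (nat_lit 78) (nat_lit 152) (nat_lit 0) (XT.lf (nat_lit 0) (nat_lit 1250660595304) (nat_lit 152) (nat_lit 8052112611) (nat_lit 228) (nat_lit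 94129426459) (nat_lit 84) (nat_lit 5) (nat_lit 86) (nat_lit 5) (nat_lit 87) (nat_lit 5) (nat_lit 488) (nat_lit 458) (nat_lit 254)) (XT.lf (nat_lit 0) (nat_lit 501930466945) (nat_lit 152) (nat_lit 134399985671) (nat_lit 76) (nat_lit 785050875117) (nat_lit 82) (nat_lit 5) (nat_lit 84) (nat_lit 5) (nat_lit 83) (nat_lit 5) (nat_lit 489) (nat_lit 458) (nat_lit 253))) (XT.nd (nat_lit 78) (nat_lit 152) (nat_lit 0) (XT.lf (nat_lit 0) (nat_lit 1167911088469) (nat_lit 228) (nat_lit 160219615769) (nat_lit 76) (nat_lit 165919108394) (nat_lit 80) (nat_lit 5) (nat_lit 83) (nat_lit 5) (nat_lit 81) (nat_lit 4) (nat_lit 490) (nat_lit 458) (nat_lit 252)) (XT.lf (nat_lit 0) (nat_lit 339877938575) (nat_lit 152) (nat_lit 190797313382) (nat_lit 76) (nat_lit 1039845407598) (nat_lit 78) (nat_lit 5) (nat_lit 80) (nat_lit 5) (nat_lit 79) (nat_lit 5) (nat_lit 491) (nat_lit 458) (nat_lit 251))))))) (XT.nd (nat_lit 60450)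 (nat_lit 0) (nat_lit 3040) (XT.nd (nat_lit 624) (nat_lit 152) (nat_lit 0) (XT.nd (nat_lit 312) (nat_lit 532) (nat_lit 0) (XT.nd (nat_lit 156) (nat_lit 228) (nat_lit 0) (XT.nd (nat_lit 78) (nat_lit 152) (nat_lit 0) (XT.lf (nat_lit 0) (nat_lit 1078824929046) (nat_lit 228) (nat_lit 221206414111) (nat_lit 76) (nat_lit 351256738907) (nat_lit 76) (nat_lit 5) (nat_lit 79) (nat_lit 5) (nat_lit 77) (nat_lit 4) (nat_lit 492) (nat_lit 458) (nat_lit 250)) (XT.lf (nat_lit 0) (nat_lit 170078356555) (nat_lit 152) (nat_lit 251775625524) (nat_lit 76) (nat_lit 1314748083247) (nat_lit 74) (nat_lit 5) (nat_lit 76) (nat_lit 5) (nat_lit 75) (nat_lit 5) (nat_lit 493) (nat_lit 458) (nat_lit 249))) (XT.nd (nat_lit 78) (nat_lit 76) (nat_lit 0) (XT.lf (nat_lit 0) (nat_lit 989135823904) (nat_lit 228) (nat_lit 289221615669) (nat_lit 76) (nat_lit 548056047719) (nat_lit 72) (nat_lit 5) (nat_lit 75) (nat_lit 5) (nat_lit 73)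 (nat_lit 4) (nat_lit 494) (nat_lit 458) (nat_lit 248)) (XT.lf (nat_lit 0) (nat_lit 1599072203267) (nat_lit 76) (nat_lit 311182564716) (nat_lit 152) (nat_lit 11328211063) (nat_lit 71) (nat_lit 5) (nat_lit 72) (nat_lit 5) (nat_lit 73) (nat_lit 4) (nat_lit 495) (nat_lit 458) (nat_lit 247)))) (XT.nd (nat_lit 156) (nat_lit 228) (nat_lit 0) (XT.nd (nat_lit 78) (nat_lit 76) (nat_lit 0) (XT.lf (nat_lit 0) (nat_lit 895796009979) (nat_lit 228) (nat_lit 370237309362) (nat_lit 76) (nat_lit 755480872086) (nat_lit 68) (nat_lit 5) (nat_lit 71) (nat_lit 5) (nat_lit 69) (nat_lit 4) (nat_lit 496) (nat_lit 458) (nat_lit 246)) (XT.lf (nat_lit 0) (nat_lit 1714675380496) (nat_lit 76) (nat_lit 198151216445) (nat_lit 152) (nat_lit 214717352759) (nat_lit 67) (nat_lit 5) (nat_lit 68) (nat_lit 5) (nat_lit 69) (nat_lit 4) (nat_lit 497) (nat_lit 458) (nat_lit 245))) (XT.nd (nat_lit 78) (nat_lit 76) (nat_lit 0) (XT.lf (nat_lit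 0) (nat_lit 794608633714) (nat_lit 152) (nat_lit 472594353890) (nat_lit 76) (nat_lit 971749504690) (nat_lit 65) (nat_lit 5) (nat_lit 67) (nat_lit 5) (nat_lit 66) (nat_lit 4) (nat_lit 498) (nat_lit 458) (nat_lit 244)) (XT.lf (nat_lit 0) (nat_lit 1827152924316) (nat_lit 76) (nat_lit 89283655329) (nat_lit 152) (nat_lit 440697214288) (nat_lit 64) (nat_lit 5) (nat_lit 65) (nat_lit 5) (nat_lit 66) (nat_lit 4) (nat_lit 499) (nat_lit 458) (nat_lit 243))))) (XT.nd (nat_lit 59514) (nat_lit 0) (nat_lit 7828) (XT.nd (nat_lit 59358) (nat_lit 0) (nat_lit 7752) (XT.nd (nat_lit 59280) (nat_lit 0) (nat_lit 7676) (XT.lf (nat_lit 0) (nat_lit 679843160048) (nat_lit 152) (nat_lit 607790163900) (nat_lit 76) (nat_lit 1193774649256) (nat_lit 62) (nat_lit 5) (nat_lit 64) (nat_lit 5) (nat_lit 63) (nat_lit 4) (nat_lit 500) (nat_lit 458) (nat_lit 242)) (XT.lf (nat_lit 0) (nat_lit 84300546840) (nat_lit 836) (nat_lit 52984351132)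 (nat_lit 836) (nat_lit 52984351132) (nat_lit 163) (nat_lit 3) (nat_lit 174) (nat_lit 3) (nat_lit 174) (nat_lit 5) (nat_lit 459) (nat_lit 459) (nat_lit 282))) (XT.nd (nat_lit 78) (nat_lit 0) (nat_lit 0) (XT.lf (nat_lit 0) (nat_lit 178920744186) (nat_lit 760) (nat_lit 192244833465) (nat_lit 836) (nat_lit 24415680092) (nat_lit 164) (nat_lit 5) (nat_lit 174) (nat_lit 5) (nat_lit 175) (nat_lit 5) (nat_lit 460) (nat_lit 459) (nat_lit 281)) (XT.lf (nat_lit 76) (nat_lit 128900496272) (nat_lit 0) (nat_lit 69683814010) (nat_lit 836) (nat_lit 212817210589) (nat_lit 165) (nat_lit 5) (nat_lit 164) (nat_lit 5) (nat_lit 175) (nat_lit 5) (nat_lit 461) (nat_lit 459) (nat_lit 280)))) (XT.nd (nat_lit 156) (nat_lit 0) (nat_lit 152) (XT.nd (nat_lit 78) (nat_lit 0) (nat_lit 76) (XT.lf (nat_lit 76) (nat_lit 51892867771) (nat_lit 0) (nat_lit 176137474640) (nat_lit 836) (nat_lit 200046593606) (nat_lit 166) (nat_lit 5)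 (nat_lit 165) (nat_lit 5) (nat_lit 176) (nat_lit 5) (nat_lit 462) (nat_lit 459) (nat_lit 279)) (XT.lf (nat_lit 0) (nat_lit 268344676610) (nat_lit 760) (nat_lit 26305782767) (nat_lit 836) (nat_lit 151010294026) (nat_lit 166) (nat_lit 5) (nat_lit 176) (nat_lit 5) (nat_lit 177) (nat_lit 5) (nat_lit 463) (nat_lit 459) (nat_lit 278))) (XT.nd (nat_lit 78) (nat_lit 0) (nat_lit 0) (XT.lf (nat_lit 0) (nat_lit 321095490343) (nat_lit 760) (nat_lit 104721807973) (nat_lit 836) (nat_lit 38373411228) (nat_lit 167) (nat_lit 5) (nat_lit 177) (nat_lit 5) (nat_lit 178) (nat_lit 5) (nat_lit 464) (nat_lit 459) (nat_lit 277)) (XT.lf (nat_lit 76) (nat_lit 297407787722) (nat_lit 0) (nat_lit 90735984882) (nat_lit 836) (nat_lit 95555419406) (nat_lit 168) (nat_lit 5) (nat_lit 167) (nat_lit 5) (nat_lit 178) (nat_lit 5) (nat_lit 465) (nat_lit 459) (nat_lit 276)))))) (XT.nd (nat_lit 624) (nat_lit 1976) (nat_lit 0) (XT.nd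 (nat_lit 312) (nat_lit 988) (nat_lit 0) (XT.nd (nat_lit 156) (nat_lit 760) (nat_lit 0) (XT.nd (nat_lit 78) (nat_lit 532) (nat_lit 0) (XT.lf (nat_lit 0) (nat_lit 233996138759) (nat_lit 760) (nat_lit 236300596270) (nat_lit 836) (nat_lit 33984577170) (nat_lit 158) (nat_lit 5) (nat_lit 168) (nat_lit 5) (nat_lit 169) (nat_lit 5) (nat_lit 466) (nat_lit 459) (nat_lit 275)) (XT.lf (nat_lit 0) (nat_lit 41049705858) (nat_lit 532) (nat_lit 356566817140) (nat_lit 76) (nat_lit 128389180972) (nat_lit 151) (nat_lit 5) (nat_lit 158) (nat_lit 5) (nat_lit 152) (nat_lit 5) (nat_lit 467) (nat_lit 459) (nat_lit 274))) (XT.nd (nat_lit 78) (nat_lit 380) (nat_lit 0) (XT.lf (nat_lit 0) (nat_lit 103435896662) (nat_lit 380) (nat_lit 27860815539) (nat_lit 456) (nat_lit 417623446939) (nat_lit 146) (nat_lit 5) (nat_lit 151) (nat_lit 5) (nat_lit 152) (nat_lit 5) (nat_lit 468) (nat_lit 459) (nat_lit 273)) (XT.lf (nat_lit 0)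 (nat_lit 34827563201) (nat_lit 380) (nat_lit 206592387937) (nat_lit 456) (nat_lit 331614995985) (nat_lit 141) (nat_lit 5) (nat_lit 146) (nat_lit 5) (nat_lit 147) (nat_lit 5) (nat_lit 469) (nat_lit 459) (nat_lit 272)))) (XT.nd (nat_lit 156) (nat_lit 684) (nat_lit 0) (XT.nd (nat_lit 78) (nat_lit 304) (nat_lit 0) (XT.lf (nat_lit 0) (nat_lit 371704255811) (nat_lit 456) (nat_lit 32809722370) (nat_lit 76) (nat_lit 193997379634) (nat_lit 141) (nat_lit 5) (nat_lit 147) (nat_lit 5) (nat_lit 142) (nat_lit 5) (nat_lit 470) (nat_lit 459) (nat_lit 271)) (XT.lf (nat_lit 0) (nat_lit 524148570403) (nat_lit 380) (nat_lit 99092487615) (nat_lit 76) (nat_lit 2197960071) (nat_lit 137) (nat_lit 5) (nat_lit 142) (nat_lit 5) (nat_lit 138) (nat_lit 5) (nat_lit 471) (nat_lit 459) (nat_lit 270))) (XT.nd (nat_lit 78) (nat_lit 304) (nat_lit 0) (XT.lf (nat_lit 0) (nat_lit 48400107746) (nat_lit 380) (nat_lit 168924902477)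 (nat_lit 76) (nat_lit 436407663147) (nat_lit 132) (nat_lit 5) (nat_lit 137) (nat_lit 5) (nat_lit 133) (nat_lit 5) (nat_lit 472) (nat_lit 459) (nat_lit 269)) (XT.lf (nat_lit 0) (nat_lit 218925880981) (nat_lit 380) (nat_lit 240053808973) (nat_lit 76) (nat_lit 224606671301) (nat_lit 128) (nat_lit 5) (nat_lit 133) (nat_lit 5) (nat_lit 129) (nat_lit 5) (nat_lit 473) (nat_lit 459) (nat_lit 268))))) (XT.nd (nat_lit 312) (nat_lit 836) (nat_lit 0) (XT.nd (nat_lit 156) (nat_lit 608) (nat_lit 0) (XT.nd (nat_lit 78) (nat_lit 228) (nat_lit 0) (XT.lf (nat_lit 0) (nat_lit 404573753053) (nat_lit 304) (nat_lit 11491760376) (nat_lit 380) (nat_lit 299114240875) (nat_lit 124) (nat_lit 5) (nat_lit 128) (nat_lit 5) (nat_lit 129) (nat_lit 5) (nat_lit 474) (nat_lit 459) (nat_lit 267)) (XT.lf (nat_lit 0) (nat_lit 364483332415) (nat_lit 228) (nat_lit 281799739299) (nat_lit 304) (nat_lit 102152209324) (nat_lit 121) (nat_lit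 5) (nat_lit 124) (nat_lit 5) (nat_lit 125) (nat_lit 5) (nat_lit 475) (nat_lit 459) (nat_lit 266))) (XT.nd (nat_lit 78) (nat_lit 228) (nat_lit 0) (XT.lf (nat_lit 0) (nat_lit 121157677223) (nat_lit 380) (nat_lit 457905945956) (nat_lit 76) (nat_lit 204494827859) (nat_lit 116) (nat_lit 5) (nat_lit 121) (nat_lit 5) (nat_lit 117) (nat_lit 5) (nat_lit 476) (nat_lit 459) (nat_lit 265)) (XT.lf (nat_lit 0) (nat_lit 287187016928) (nat_lit 228) (nat_lit 87647531860) (nat_lit 304) (nat_lit 445769139038) (nat_lit 113) (nat_lit 5) (nat_lit 116) (nat_lit 5) (nat_lit 117) (nat_lit 5) (nat_lit 477) (nat_lit 459) (nat_lit 264)))) (XT.nd (nat_lit 156) (nat_lit 380) (nat_lit 0) (XT.nd (nat_lit 78) (nat_lit 228) (nat_lit 0) (XT.lf (nat_lit 0) (nat_lit 248944602462) (nat_lit 228) (nat_lit 418772601509) (nat_lit 304) (nat_lit 191949757892) (nat_lit 110) (nat_lit 5) (nat_lit 113) (nat_lit 5) (nat_lit 114) (nat_lit 5)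 (nat_lit 478) (nat_lit 459) (nat_lit 263)) (XT.lf (nat_lit 0) (nat_lit 95732332213) (nat_lit 228) (nat_lit 687439444912) (nat_lit 76) (nat_lit 117810007601) (nat_lit 107) (nat_lit 5) (nat_lit 110) (nat_lit 5) (nat_lit 108) (nat_lit 5) (nat_lit 479) (nat_lit 459) (nat_lit 262))) (XT.nd (nat_lit 78) (nat_lit 152) (nat_lit 0) (XT.lf (nat_lit 0) (nat_lit 175636163279) (nat_lit 228) (nat_lit 244773957464) (nat_lit 304) (nat_lit 523999031023) (nat_lit 104) (nat_lit 5) (nat_lit 107) (nat_lit 5) (nat_lit 108) (nat_lit 5) (nat_lit 480) (nat_lit 459) (nat_lit 261)) (XT.lf (nat_lit 0) (nat_lit 140642420209) (nat_lit 152) (nat_lit 650043334223) (nat_lit 228) (nat_lit 199643772635) (nat_lit 102) (nat_lit 5) (nat_lit 104) (nat_lit 5) (nat_lit 105) (nat_lit 5) (nat_lit 481) (nat_lit 459) (nat_lit 260))))))))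
noncomputable def xc116 : XT := (XT.nd (nat_lit 61698) (nat_lit 0) (nat_lit 76) (XT.nd (nat_lit 1170) (nat_lit 532) (nat_lit 0) (XT.nd (nat_lit 546) (nat_lit 1140) (nat_lit 0) (XT.nd (nat_lit 234) (nat_lit 608) (nat_lit 0) (XT.nd (nat_lit 78) (nat_lit 304) (nat_lit 0) (XT.lf (nat_lit 0) (nat_lit 107759593969) (nat_lit 228) (nat_lit 57499060854) (nat_lit 304) (nat_lit 873576226085) (nat_lit 98) (nat_lit 5) (nat_lit 101) (nat_lit 5) (nat_lit 102) (nat_lit 5) (nat_lit 482) (nat_lit 459) (nat_lit 259)) (XT.nd (nat_lit 78) (nat_lit 152) (nat_lit 0) (XT.lf (nat_lit 0) (nat_lit 71240936010) (nat_lit 152) (nat_lit 506460852902) (nat_lit 228) (nat_lit 512088078825) (nat_lit 96) (nat_lit 5) (nat_lit 98) (nat_lit 5) (nat_lit 99) (nat_lit 5) (nat_lit 483) (nat_lit 459) (nat_lit 258)) (XT.lf (nat_lit 0) (nat_lit 41066575726) (nat_lit 152) (nat_lit 1002161989159) (nat_lit 228) (nat_lit 100588279068) (nat_lit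 94) (nat_lit 5) (nat_lit 96) (nat_lit 5) (nat_lit 97) (nat_lit 5) (nat_lit 484) (nat_lit 459) (nat_lit 257)))) (XT.nd (nat_lit 156) (nat_lit 380) (nat_lit 0) (XT.nd (nat_lit 78) (nat_lit 0) (nat_lit 0) (XT.lf (nat_lit 0) (nat_lit 6555415903) (nat_lit 152) (nat_lit 352946842905) (nat_lit 228) (nat_lit 841061535314) (nat_lit 91) (nat_lit 5) (nat_lit 93) (nat_lit 5) (nat_lit 94) (nat_lit 5) (nat_lit 485) (nat_lit 459) (nat_lit 256)) (XT.lf (nat_lit 0) (nat_lit 877883578815) (nat_lit 228) (nat_lit 24353131859) (nat_lit 76) (nat_lit 358280957100) (nat_lit 91) (nat_lit 5) (nat_lit 94) (nat_lit 5) (nat_lit 92) (nat_lit 5) (nat_lit 486) (nat_lit 459) (nat_lit 255))) (XT.nd (nat_lit 78) (nat_lit 152) (nat_lit 0) (XT.lf (nat_lit 0) (nat_lit 135128618155) (nat_lit 228) (nat_lit 52466302037) (nat_lit 76) (nat_lit 1136272097986) (nat_lit 88) (nat_lit 5) (nat_lit 91) (nat_lit 5) (nat_lit 89) (nat_lit 5) (nat_lit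 487) (nat_lit 459) (nat_lit 254)) (XT.lf (nat_lit 0) (nat_lit 711619439270) (nat_lit 228) (nat_lit 85431880371) (nat_lit 76) (nat_lit 593383725875) (nat_lit 86) (nat_lit 5) (nat_lit 89) (nat_lit 5) (nat_lit 87) (nat_lit 5) (nat_lit 488) (nat_lit 459) (nat_lit 253))))) (XT.nd (nat_lit 312) (nat_lit 532) (nat_lit 0) (XT.nd (nat_lit 156) (nat_lit 304) (nat_lit 0) (XT.nd (nat_lit 78) (nat_lit 152) (nat_lit 0) (XT.lf (nat_lit 0) (nat_lit 1350714005989) (nat_lit 152) (nat_lit 8696039692) (nat_lit 228) (nat_lit 101659443378) (nat_lit 84) (nat_lit 5) (nat_lit 86) (nat_lit 5) (nat_lit 87) (nat_lit 5) (nat_lit 489) (nat_lit 459) (nat_lit 252)) (XT.lf (nat_lit 0) (nat_lit 542085218815) (nat_lit 152) (nat_lit 145151423773) (nat_lit 76) (nat_lit 847855175630) (nat_lit 82) (nat_lit 5) (nat_lit 84) (nat_lit 5) (nat_lit 83) (nat_lit 5) (nat_lit 490) (nat_lit 459) (nat_lit 251))) (XT.nd (nat_lit 78) (nat_lit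 152) (nat_lit 0) (XT.lf (nat_lit 0) (nat_lit 1261344278835) (nat_lit 228) (nat_lit 173036637359) (nat_lit 76) (nat_lit 179192866277) (nat_lit 80) (nat_lit 5) (nat_lit 83) (nat_lit 5) (nat_lit 81) (nat_lit 4) (nat_lit 491) (nat_lit 459) (nat_lit 250)) (XT.lf (nat_lit 0) (nat_lit 367068467408) (nat_lit 152) (nat_lit 206060564864) (nat_lit 76) (nat_lit 1123033265355) (nat_lit 78) (nat_lit 5) (nat_lit 80) (nat_lit 5) (nat_lit 79) (nat_lit 5) (nat_lit 492) (nat_lit 459) (nat_lit 249)))) (XT.nd (nat_lit 156) (nat_lit 228) (nat_lit 0) (XT.nd (nat_lit 78) (nat_lit 152) (nat_lit 0) (XT.lf (nat_lit 0) (nat_lit 1165131206923) (nat_lit 228) (nat_lit 238902406435) (nat_lit 76) (nat_lit 379357501088) (nat_lit 76) (nat_lit 5) (nat_lit 79) (nat_lit 5) (nat_lit 77) (nat_lit 4) (nat_lit 493) (nat_lit 459) (nat_lit 248)) (XT.lf (nat_lit 0) (nat_lit 183684899844) (nat_lit 152) (nat_lit 271917168304) (nat_lit 76)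 (nat_lit 1419928148661) (nat_lit 74) (nat_lit 5) (nat_lit 76) (nat_lit 5) (nat_lit 75) (nat_lit 5) (nat_lit 494) (nat_lit 459) (nat_lit 247))) (XT.nd (nat_lit 78) (nat_lit 76) (nat_lit 0) (XT.lf (nat_lit 0) (nat_lit 1068266955288) (nat_lit 228) (nat_lit 312358850086) (nat_lit 76) (nat_lit 591900747622) (nat_lit 72) (nat_lit 5) (nat_lit 75) (nat_lit 5) (nat_lit 73) (nat_lit 4) (nat_lit 495) (nat_lit 459) (nat_lit 246)) (XT.lf (nat_lit 0) (nat_lit 1726998452860) (nat_lit 76) (nat_lit 336076949761) (nat_lit 152) (nat_lit 12234202086) (nat_lit 71) (nat_lit 5) (nat_lit 72) (nat_lit 5) (nat_lit 73) (nat_lit 4) (nat_lit 496) (nat_lit 459) (nat_lit 245)))))) (XT.nd (nat_lit 59904) (nat_lit 0) (nat_lit 5852) (XT.nd (nat_lit 59592) (nat_lit 0) (nat_lit 7524) (XT.nd (nat_lit 156) (nat_lit 228) (nat_lit 0) (XT.nd (nat_lit 78) (nat_lit 76) (nat_lit 0) (XT.lf (nat_lit 0) (nat_lit 967459939627) (nat_lit 228)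 (nat_lit 399855824292) (nat_lit 76) (nat_lit 815919550376) (nat_lit 68) (nat_lit 5) (nat_lit 71) (nat_lit 5) (nat_lit 69) (nat_lit 4) (nat_lit 497) (nat_lit 459) (nat_lit 244)) (XT.lf (nat_lit 0) (nat_lit 1851849860337) (nat_lit 76) (nat_lit 214003101792) (nat_lit 152) (nat_lit 231894491672) (nat_lit 67) (nat_lit 5) (nat_lit 68) (nat_lit 5) (nat_lit 69) (nat_lit 4) (nat_lit 498) (nat_lit 459) (nat_lit 243))) (XT.nd (nat_lit 78) (nat_lit 76) (nat_lit 0) (XT.lf (nat_lit 0) (nat_lit 858177557929) (nat_lit 152) (nat_lit 510401456413) (nat_lit 76) (nat_lit 1049489665657) (nat_lit 65) (nat_lit 5) (nat_lit 67) (nat_lit 5) (nat_lit 66) (nat_lit 4) (nat_lit 499) (nat_lit 459) (nat_lit 242)) (XT.lf (nat_lit 0) (nat_lit 1973325584677) (nat_lit 76) (nat_lit 96426144218) (nat_lit 152) (nat_lit 475952757407) (nat_lit 64) (nat_lit 5) (nat_lit 65) (nat_lit 5) (nat_lit 66) (nat_lit 4) (nat_lit 500) (nat_lit 459)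 (nat_lit 241)))) (XT.nd (nat_lit 156) (nat_lit 0) (nat_lit 76) (XT.nd (nat_lit 78) (nat_lit 0) (nat_lit 76) (XT.lf (nat_lit 0) (nat_lit 91045272069) (nat_lit 836) (nat_lit 57222741418) (nat_lit 836) (nat_lit 57222741418) (nat_lit 163) (nat_lit 3) (nat_lit 174) (nat_lit 3) (nat_lit 174) (nat_lit 5) (nat_lit 460) (nat_lit 460) (nat_lit 280)) (XT.lf (nat_lit 0) (nat_lit 193235667228) (nat_lit 760) (nat_lit 207623662718) (nat_lit 836) (nat_lit 26368365144) (nat_lit 164) (nat_lit 5) (nat_lit 174) (nat_lit 5) (nat_lit 175) (nat_lit 5) (nat_lit 461) (nat_lit 460) (nat_lit 279))) (XT.nd (nat_lit 78) (nat_lit 0) (nat_lit 76) (XT.lf (nat_lit 76) (nat_lit 139213260481) (nat_lit 0) (nat_lit 75258975849) (nat_lit 836) (nat_lit 229841347059) (nat_lit 165) (nat_lit 5) (nat_lit 164) (nat_lit 5) (nat_lit 175) (nat_lit 5) (nat_lit 462) (nat_lit 460) (nat_lit 278)) (XT.lf (nat_lit 76) (nat_lit 56045053615) (nat_lit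 0) (nat_lit 190228815123) (nat_lit 836) (nat_lit 216049167129) (nat_lit 166) (nat_lit 5) (nat_lit 165) (nat_lit 5) (nat_lit 176) (nat_lit 5) (nat_lit 463) (nat_lit 460) (nat_lit 277))))) (XT.nd (nat_lit 312) (nat_lit 1292) (nat_lit 0) (XT.nd (nat_lit 156) (nat_lit 608) (nat_lit 0) (XT.nd (nat_lit 78) (nat_lit 0) (nat_lit 76) (XT.lf (nat_lit 0) (nat_lit 289813263320) (nat_lit 760) (nat_lit 28409489092) (nat_lit 836) (nat_lit 163090810557) (nat_lit 166) (nat_lit 5) (nat_lit 176) (nat_lit 5) (nat_lit 177) (nat_lit 5) (nat_lit 464) (nat_lit 460) (nat_lit 276)) (XT.lf (nat_lit 0) (nat_lit 346784074921) (nat_lit 760) (nat_lit 113098778147) (nat_lit 836) (nat_lit 41443065902) (nat_lit 167) (nat_lit 5) (nat_lit 177) (nat_lit 5) (nat_lit 178) (nat_lit 5) (nat_lit 465) (nat_lit 460) (nat_lit 275))) (XT.nd (nat_lit 78) (nat_lit 684) (nat_lit 0) (XT.lf (nat_lit 76) (nat_lit 321201151547) (nat_lit 0) (nat_lit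 97995009756) (nat_lit 836) (nat_lit 103198921658) (nat_lit 168) (nat_lit 5) (nat_lit 167) (nat_lit 5) (nat_lit 178) (nat_lit 5) (nat_lit 466) (nat_lit 460) (nat_lit 274)) (XT.lf (nat_lit 0) (nat_lit 252716583134) (nat_lit 760) (nat_lit 255204721540) (nat_lit 836) (nat_lit 36702470896) (nat_lit 158) (nat_lit 5) (nat_lit 168) (nat_lit 5) (nat_lit 169) (nat_lit 5) (nat_lit 467) (nat_lit 460) (nat_lit 273)))) (XT.nd (nat_lit 156) (nat_lit 380) (nat_lit 0) (XT.nd (nat_lit 78) (nat_lit 380) (nat_lit 0) (XT.lf (nat_lit 0) (nat_lit 44334475237) (nat_lit 532) (nat_lit 385091374748) (nat_lit 76) (nat_lit 138660270603) (nat_lit 151) (nat_lit 5) (nat_lit 158) (nat_lit 5) (nat_lit 152) (nat_lit 5) (nat_lit 468) (nat_lit 460) (nat_lit 272)) (XT.lf (nat_lit 0) (nat_lit 111711521924) (nat_lit 380) (nat_lit 30089673194) (nat_lit 456) (nat_lit 451032539407) (nat_lit 146) (nat_lit 5) (nat_lit 151) (nat_lit 5) (nat_lit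 152) (nat_lit 5) (nat_lit 469) (nat_lit 460) (nat_lit 271))) (XT.nd (nat_lit 78) (nat_lit 0) (nat_lit 0) (XT.lf (nat_lit 0) (nat_lit 37614524648) (nat_lit 380) (nat_lit 223119725186) (nat_lit 456) (nat_lit 358143457882) (nat_lit 141) (nat_lit 5) (nat_lit 146) (nat_lit 5) (nat_lit 147) (nat_lit 5) (nat_lit 470) (nat_lit 460) (nat_lit 270)) (XT.lf (nat_lit 0) (nat_lit 401441247614) (nat_lit 456) (nat_lit 35433768004) (nat_lit 76) (nat_lit 209517218214) (nat_lit 141) (nat_lit 5) (nat_lit 147) (nat_lit 5) (nat_lit 142) (nat_lit 5) (nat_lit 471) (nat_lit 460) (nat_lit 269))))))) (XT.nd (nat_lit 1248) (nat_lit 1976) (nat_lit 0) (XT.nd (nat_lit 624) (nat_lit 1444) (nat_lit 0) (XT.nd (nat_lit 312) (nat_lit 1064) (nat_lit 0) (XT.nd (nat_lit 156) (nat_lit 608) (nat_lit 0) (XT.nd (nat_lit 78) (nat_lit 380) (nat_lit 0) (XT.lf (nat_lit 0) (nat_lit 566081071407) (nat_lit 380) (nat_lit 107019156894) (nat_lit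 76) (nat_lit 2373880427) (nat_lit 137) (nat_lit 5) (nat_lit 142) (nat_lit 5) (nat_lit 138) (nat_lit 5) (nat_lit 472) (nat_lit 460) (nat_lit 268)) (XT.lf (nat_lit 0) (nat_lit 52272706608) (nat_lit 380) (nat_lit 182438177106) (nat_lit 76) (nat_lit 471320373978) (nat_lit 132) (nat_lit 5) (nat_lit 137) (nat_lit 5) (nat_lit 133) (nat_lit 5) (nat_lit 473) (nat_lit 460) (nat_lit 267))) (XT.nd (nat_lit 78) (nat_lit 304) (nat_lit 0) (XT.lf (nat_lit 0) (nat_lit 236440510712) (nat_lit 380) (nat_lit 259257401429) (nat_lit 76) (nat_lit 242575330018) (nat_lit 128) (nat_lit 5) (nat_lit 133) (nat_lit 5) (nat_lit 129) (nat_lit 5) (nat_lit 474) (nat_lit 460) (nat_lit 266)) (XT.lf (nat_lit 0) (nat_lit 436940334605) (nat_lit 304) (nat_lit 12410948362) (nat_lit 380) (nat_lit 323042825228) (nat_lit 124) (nat_lit 5) (nat_lit 128) (nat_lit 5) (nat_lit 129) (nat_lit 5) (nat_lit 475) (nat_lit 460) (nat_lit 265)))) (XT.nd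 (nat_lit 156) (nat_lit 456) (nat_lit 0) (XT.nd (nat_lit 78) (nat_lit 380) (nat_lit 0) (XT.lf (nat_lit 0) (nat_lit 393642673728) (nat_lit 228) (nat_lit 304343545786) (nat_lit 304) (nat_lit 110323858876) (nat_lit 121) (nat_lit 5) (nat_lit 124) (nat_lit 5) (nat_lit 125) (nat_lit 5) (nat_lit 476) (nat_lit 460) (nat_lit 264)) (XT.lf (nat_lit 0) (nat_lit 130850777039) (nat_lit 380) (nat_lit 494537738693) (nat_lit 76) (nat_lit 220854587084) (nat_lit 116) (nat_lit 5) (nat_lit 121) (nat_lit 5) (nat_lit 117) (nat_lit 5) (nat_lit 477) (nat_lit 460) (nat_lit 263))) (XT.nd (nat_lit 78) (nat_lit 228) (nat_lit 0) (XT.lf (nat_lit 0) (nat_lit 310162631543) (nat_lit 228) (nat_lit 94659141013) (nat_lit 304) (nat_lit 481430187281) (nat_lit 113) (nat_lit 5) (nat_lit 116) (nat_lit 5) (nat_lit 117) (nat_lit 5) (nat_lit 478) (nat_lit 460) (nat_lit 262)) (XT.lf (nat_lit 0) (nat_lit 268860814657) (nat_lit 228) (nat_lit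 452274204282) (nat_lit 304) (nat_lit 207305277920) (nat_lit 110) (nat_lit 5) (nat_lit 113) (nat_lit 5) (nat_lit 114) (nat_lit 5) (nat_lit 479) (nat_lit 460) (nat_lit 261))))) (XT.nd (nat_lit 312) (nat_lit 532) (nat_lit 0) (XT.nd (nat_lit 156) (nat_lit 456) (nat_lit 0) (XT.nd (nat_lit 78) (nat_lit 228) (nat_lit 0) (XT.lf (nat_lit 0) (nat_lit 103391344702) (nat_lit 228) (nat_lit 742433952461) (nat_lit 76) (nat_lit 127235009028) (nat_lit 107) (nat_lit 5) (nat_lit 110) (nat_lit 5) (nat_lit 108) (nat_lit 5) (nat_lit 480) (nat_lit 460) (nat_lit 260)) (XT.lf (nat_lit 0) (nat_lit 189687676222) (nat_lit 228) (nat_lit 264355658221) (nat_lit 304) (nat_lit 565918529245) (nat_lit 104) (nat_lit 5) (nat_lit 107) (nat_lit 5) (nat_lit 108) (nat_lit 5) (nat_lit 481) (nat_lit 460) (nat_lit 259))) (XT.nd (nat_lit 78) (nat_lit 304) (nat_lit 0) (XT.lf (nat_lit 0) (nat_lit 151894422884) (nat_lit 152) (nat_lit 702046578643)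 (nat_lit 228) (nat_lit 215614868351) (nat_lit 102) (nat_lit 5) (nat_lit 104) (nat_lit 5) (nat_lit 105) (nat_lit 5) (nat_lit 482) (nat_lit 460) (nat_lit 258)) (XT.lf (nat_lit 0) (nat_lit 116380956524) (nat_lit 228) (nat_lit 62098763954) (nat_lit 304) (nat_lit 943461932226) (nat_lit 98) (nat_lit 5) (nat_lit 101) (nat_lit 5) (nat_lit 102) (nat_lit 5) (nat_lit 483) (nat_lit 460) (nat_lit 257)))) (XT.nd (nat_lit 156) (nat_lit 228) (nat_lit 0) (XT.nd (nat_lit 78) (nat_lit 152) (nat_lit 0) (XT.lf (nat_lit 0) (nat_lit 76940794622) (nat_lit 152) (nat_lit 546977495341) (nat_lit 228) (nat_lit 553054749282) (nat_lit 96) (nat_lit 5) (nat_lit 98) (nat_lit 5) (nat_lit 99) (nat_lit 5) (nat_lit 484) (nat_lit 460) (nat_lit 256)) (XT.lf (nat_lit 0) (nat_lit 44352473907) (nat_lit 152) (nat_lit 1082334719791) (nat_lit 228) (nat_lit 108634980579) (nat_lit 94) (nat_lit 5) (nat_lit 96) (nat_lit 5) (nat_lit 97) (nat_lit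 5) (nat_lit 485) (nat_lit 460) (nat_lit 255))) (XT.nd (nat_lit 78) (nat_lit 0) (nat_lit 0) (XT.lf (nat_lit 0) (nat_lit 7080407492) (nat_lit 152) (nat_lit 381182364132) (nat_lit 228) (nat_lit 908346109411) (nat_lit 91) (nat_lit 5) (nat_lit 93) (nat_lit 5) (nat_lit 94) (nat_lit 5) (nat_lit 486) (nat_lit 460) (nat_lit 254)) (XT.lf (nat_lit 0) (nat_lit 948114575901) (nat_lit 228) (nat_lit 26300853333) (nat_lit 76) (nat_lit 386943636413) (nat_lit 91) (nat_lit 5) (nat_lit 94) (nat_lit 5) (nat_lit 92) (nat_lit 5) (nat_lit 487) (nat_lit 460) (nat_lit 253)))))) (XT.nd (nat_lit 624) (nat_lit 684) (nat_lit 0) (XT.nd (nat_lit 312) (nat_lit 608) (nat_lit 0) (XT.nd (nat_lit 156) (nat_lit 304) (nat_lit 0) (XT.nd (nat_lit 78) (nat_lit 152) (nat_lit 0) (XT.lf (nat_lit 0) (nat_lit 145939208125) (nat_lit 228) (nat_lit 56663090173) (nat_lit 76) (nat_lit 1227174066300) (nat_lit 88) (nat_lit 5) (nat_lit 91) (nat_lit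 5) (nat_lit 89) (nat_lit 5) (nat_lit 488) (nat_lit 460) (nat_lit 252)) (XT.lf (nat_lit 0) (nat_lit 768549283616) (nat_lit 228) (nat_lit 92265926135) (nat_lit 76) (nat_lit 640854624937) (nat_lit 86) (nat_lit 5) (nat_lit 89) (nat_lit 5) (nat_lit 87) (nat_lit 5) (nat_lit 489) (nat_lit 460) (nat_lit 251))) (XT.nd (nat_lit 78) (nat_lit 152) (nat_lit 0) (XT.lf (nat_lit 0) (nat_lit 1458771609201) (nat_lit 152) (nat_lit 9391515453) (nat_lit 228) (nat_lit 109791909756) (nat_lit 84) (nat_lit 5) (nat_lit 86) (nat_lit 5) (nat_lit 87) (nat_lit 5) (nat_lit 490) (nat_lit 460) (nat_lit 250)) (XT.lf (nat_lit 0) (nat_lit 585452305966) (nat_lit 152) (nat_lit 156763056922) (nat_lit 76) (nat_lit 915683787299) (nat_lit 82) (nat_lit 5) (nat_lit 84) (nat_lit 5) (nat_lit 83) (nat_lit 5) (nat_lit 491) (nat_lit 460) (nat_lit 249)))) (XT.nd (nat_lit 156) (nat_lit 304) (nat_lit 0) (XT.nd (nat_lit 78) (nat_lit 152) (nat_lit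 0) (XT.lf (nat_lit 0) (nat_lit 1362252081163) (nat_lit 228) (nat_lit 186879098808) (nat_lit 76) (nat_lit 193528492090) (nat_lit 80) (nat_lit 5) (nat_lit 83) (nat_lit 5) (nat_lit 81) (nat_lit 4) (nat_lit 492) (nat_lit 460) (nat_lit 248)) (XT.lf (nat_lit 0) (nat_lit 396434196640) (nat_lit 152) (nat_lit 222544952586) (nat_lit 76) (nat_lit 1212876119613) (nat_lit 78) (nat_lit 5) (nat_lit 80) (nat_lit 5) (nat_lit 79) (nat_lit 5) (nat_lit 493) (nat_lit 460) (nat_lit 247))) (XT.nd (nat_lit 78) (nat_lit 152) (nat_lit 0) (XT.lf (nat_lit 0) (nat_lit 1258341946579) (nat_lit 228) (nat_lit 258014152443) (nat_lit 76) (nat_lit 409706292420) (nat_lit 76) (nat_lit 5) (nat_lit 79) (nat_lit 5) (nat_lit 77) (nat_lit 4) (nat_lit 494) (nat_lit 460) (nat_lit 246)) (XT.lf (nat_lit 0) (nat_lit 198379927398) (nat_lit 152) (nat_lit 293670106873) (nat_lit 76) (nat_lit 1533522588101) (nat_lit 74) (nat_lit 5) (nat_lit 76)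 (nat_lit 5) (nat_lit 75) (nat_lit 5) (nat_lit 495) (nat_lit 460) (nat_lit 245))))) (XT.nd (nat_lit 312) (nat_lit 152) (nat_lit 0) (XT.nd (nat_lit 156) (nat_lit 304) (nat_lit 0) (XT.nd (nat_lit 78) (nat_lit 76) (nat_lit 0) (XT.lf (nat_lit 0) (nat_lit 1153728539311) (nat_lit 228) (nat_lit 337347133851) (nat_lit 76) (nat_lit 639252992690) (nat_lit 72) (nat_lit 5) (nat_lit 75) (nat_lit 5) (nat_lit 73) (nat_lit 4) (nat_lit 496) (nat_lit 460) (nat_lit 244)) (XT.lf (nat_lit 0) (nat_lit 1865158734894) (nat_lit 76) (nat_lit 362962917013) (nat_lit 152) (nat_lit 13212710319) (nat_lit 71) (nat_lit 5) (nat_lit 72) (nat_lit 5) (nat_lit 73) (nat_lit 4) (nat_lit 497) (nat_lit 460) (nat_lit 243))) (XT.nd (nat_lit 78) (nat_lit 76) (nat_lit 0) (XT.lf (nat_lit 0) (nat_lit 1044856948145) (nat_lit 228) (nat_lit 431843887442) (nat_lit 76) (nat_lit 881193293182) (nat_lit 68) (nat_lit 5) (nat_lit 71) (nat_lit 5) (nat_lit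 69) (nat_lit 4) (nat_lit 498) (nat_lit 460) (nat_lit 242)) (XT.lf (nat_lit 0) (nat_lit 1999998234453) (nat_lit 76) (nat_lit 231123168206) (nat_lit 152) (nat_lit 250445837265) (nat_lit 67) (nat_lit 5) (nat_lit 68) (nat_lit 5) (nat_lit 69) (nat_lit 4) (nat_lit 499) (nat_lit 460) (nat_lit 241)))) (XT.nd (nat_lit 59514) (nat_lit 0) (nat_lit 7524) (XT.nd (nat_lit 59436) (nat_lit 0) (nat_lit 7448) (XT.lf (nat_lit 0) (nat_lit 926831962767) (nat_lit 152) (nat_lit 551233190734) (nat_lit 76) (nat_lit 1133449010885) (nat_lit 65) (nat_lit 5) (nat_lit 67) (nat_lit 5) (nat_lit 66) (nat_lit 4) (nat_lit 500) (nat_lit 460) (nat_lit 240)) (XT.lf (nat_lit 0) (nat_lit 98329478095) (nat_lit 836) (nat_lit 61800253972) (nat_lit 836) (nat_lit 61800253972) (nat_lit 163) (nat_lit 3) (nat_lit 174) (nat_lit 3) (nat_lit 174) (nat_lit 5) (nat_lit 461) (nat_lit 461) (nat_lit 278))) (XT.nd (nat_lit 78) (nat_lit 0) (nat_lit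 0) (XT.lf (nat_lit 0) (nat_lit 208695603861) (nat_lit 760) (nat_lit 224232906367) (nat_lit 836) (nat_lit 28477346224) (nat_lit 164) (nat_lit 5) (nat_lit 174) (nat_lit 5) (nat_lit 175) (nat_lit 5) (nat_lit 462) (nat_lit 461) (nat_lit 277)) (XT.lf (nat_lit 76) (nat_lit 150350942467) (nat_lit 0) (nat_lit 81280085480) (nat_lit 836) (nat_lit 248227591401) (nat_lit 165) (nat_lit 5) (nat_lit 164) (nat_lit 5) (nat_lit 175) (nat_lit 5) (nat_lit 463) (nat_lit 461) (nat_lit 276))))))))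
noncomputable def xc117 : XT := (XT.nd (nat_lit 2496) (nat_lit 684) (nat_lit 0) (XT.nd (nat_lit 1248) (nat_lit 2812) (nat_lit 0) (XT.nd (nat_lit 624) (nat_lit 2128) (nat_lit 0) (XT.nd (nat_lit 312) (nat_lit 1824) (nat_lit 0) (XT.nd (nat_lit 156) (nat_lit 0) (nat_lit 152) (XT.nd (nat_lit 78) (nat_lit 0) (nat_lit 76) (XT.lf (nat_lit 76) (nat_lit 60529306415) (nat_lit 0) (nat_lit 205447413982) (nat_lit 836) (nat_lit 233332111160) (nat_lit 166) (nat_lit 5) (nat_lit 165) (nat_lit 5) (nat_lit 176) (nat_lit 5) (nat_lit 464) (nat_lit 461) (nat_lit 275)) (XT.lf (nat_lit 0) (nat_lit 312999192510) (nat_lit 760) (nat_lit 30681599816) (nat_lit 836) (nat_lit 176137812207) (nat_lit 166) (nat_lit 5) (nat_lit 176) (nat_lit 5) (nat_lit 177) (nat_lit 5) (nat_lit 465) (nat_lit 461) (nat_lit 274))) (XT.nd (nat_lit 78) (nat_lit 0) (nat_lit 0) (XT.lf (nat_lit 0) (nat_lit 374527611400) (nat_lit 760) (nat_lit 122146016421)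 (nat_lit 836) (nat_lit 44758324081) (nat_lit 167) (nat_lit 5) (nat_lit 177) (nat_lit 5) (nat_lit 178) (nat_lit 5) (nat_lit 466) (nat_lit 461) (nat_lit 273)) (XT.lf (nat_lit 76) (nat_lit 346897878793) (nat_lit 0) (nat_lit 105834735779) (nat_lit 836) (nat_lit 111454036950) (nat_lit 168) (nat_lit 5) (nat_lit 167) (nat_lit 5) (nat_lit 178) (nat_lit 5) (nat_lit 467) (nat_lit 461) (nat_lit 272)))) (XT.nd (nat_lit 156) (nat_lit 760) (nat_lit 0) (XT.nd (nat_lit 78) (nat_lit 532) (nat_lit 0) (XT.lf (nat_lit 0) (nat_lit 272934555596) (nat_lit 760) (nat_lit 275621165766) (nat_lit 836) (nat_lit 39637920585) (nat_lit 158) (nat_lit 5) (nat_lit 168) (nat_lit 5) (nat_lit 169) (nat_lit 5) (nat_lit 468) (nat_lit 461) (nat_lit 271)) (XT.lf (nat_lit 0) (nat_lit 47881913048) (nat_lit 532) (nat_lit 415898009348) (nat_lit 76) (nat_lit 149753053803) (nat_lit 151) (nat_lit 5) (nat_lit 158) (nat_lit 5) (nat_lit 152) (nat_lit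 5) (nat_lit 469) (nat_lit 461) (nat_lit 270))) (XT.nd (nat_lit 78) (nat_lit 380) (nat_lit 0) (XT.lf (nat_lit 0) (nat_lit 120649089706) (nat_lit 380) (nat_lit 32496840545) (nat_lit 456) (nat_lit 487114471016) (nat_lit 146) (nat_lit 5) (nat_lit 151) (nat_lit 5) (nat_lit 152) (nat_lit 5) (nat_lit 470) (nat_lit 461) (nat_lit 269)) (XT.lf (nat_lit 0) (nat_lit 40624335104) (nat_lit 380) (nat_lit 240969257087) (nat_lit 456) (nat_lit 386794301984) (nat_lit 141) (nat_lit 5) (nat_lit 146) (nat_lit 5) (nat_lit 147) (nat_lit 5) (nat_lit 471) (nat_lit 461) (nat_lit 268))))) (XT.nd (nat_lit 312) (nat_lit 1140) (nat_lit 0) (XT.nd (nat_lit 156) (nat_lit 684) (nat_lit 0) (XT.nd (nat_lit 78) (nat_lit 304) (nat_lit 0) (XT.lf (nat_lit 0) (nat_lit 433557105840) (nat_lit 456) (nat_lit 38267841738) (nat_lit 76) (nat_lit 226278637002) (nat_lit 141) (nat_lit 5) (nat_lit 147) (nat_lit 5) (nat_lit 142) (nat_lit 5) (nat_lit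 472) (nat_lit 461) (nat_lit 267)) (XT.lf (nat_lit 0) (nat_lit 611368084702) (nat_lit 380) (nat_lit 115580063819) (nat_lit 76) (nat_lit 2563862492) (nat_lit 137) (nat_lit 5) (nat_lit 142) (nat_lit 5) (nat_lit 138) (nat_lit 5) (nat_lit 473) (nat_lit 461) (nat_lit 266))) (XT.nd (nat_lit 78) (nat_lit 304) (nat_lit 0) (XT.lf (nat_lit 0) (nat_lit 56455029174) (nat_lit 380) (nat_lit 197032616075) (nat_lit 76) (nat_lit 509026087726) (nat_lit 132) (nat_lit 5) (nat_lit 137) (nat_lit 5) (nat_lit 133) (nat_lit 5) (nat_lit 474) (nat_lit 461) (nat_lit 265)) (XT.lf (nat_lit 0) (nat_lit 255356231039) (nat_lit 380) (nat_lit 279997382893) (nat_lit 76) (nat_lit 261981463599) (nat_lit 128) (nat_lit 5) (nat_lit 133) (nat_lit 5) (nat_lit 129) (nat_lit 5) (nat_lit 475) (nat_lit 461) (nat_lit 264)))) (XT.nd (nat_lit 156) (nat_lit 608) (nat_lit 0) (XT.nd (nat_lit 78) (nat_lit 228) (nat_lit 0) (XT.lf (nat_lit 0) (nat_lit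 471896145485) (nat_lit 304) (nat_lit 13403693193) (nat_lit 380) (nat_lit 348885775494) (nat_lit 124) (nat_lit 5) (nat_lit 128) (nat_lit 5) (nat_lit 129) (nat_lit 5) (nat_lit 476) (nat_lit 461) (nat_lit 263)) (XT.lf (nat_lit 0) (nat_lit 425134666091) (nat_lit 228) (nat_lit 328690881422) (nat_lit 304) (nat_lit 119149315603) (nat_lit 121) (nat_lit 5) (nat_lit 124) (nat_lit 5) (nat_lit 125) (nat_lit 5) (nat_lit 477) (nat_lit 461) (nat_lit 262))) (XT.nd (nat_lit 78) (nat_lit 228) (nat_lit 0) (XT.lf (nat_lit 0) (nat_lit 141319255558) (nat_lit 380) (nat_lit 534100172277) (nat_lit 76) (nat_lit 238523102367) (nat_lit 116) (nat_lit 5) (nat_lit 121) (nat_lit 5) (nat_lit 117) (nat_lit 5) (nat_lit 478) (nat_lit 461) (nat_lit 261)) (XT.lf (nat_lit 0) (nat_lit 334976202132) (nat_lit 228) (nat_lit 102231706487) (nat_lit 304) (nat_lit 519944188272) (nat_lit 113) (nat_lit 5) (nat_lit 116) (nat_lit 5) (nat_lit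 117) (nat_lit 5) (nat_lit 479) (nat_lit 461) (nat_lit 260)))))) (XT.nd (nat_lit 624) (nat_lit 1140) (nat_lit 0) (XT.nd (nat_lit 312) (nat_lit 836) (nat_lit 0) (XT.nd (nat_lit 156) (nat_lit 380) (nat_lit 0) (XT.nd (nat_lit 78) (nat_lit 228) (nat_lit 0) (XT.lf (nat_lit 0) (nat_lit 290370231954) (nat_lit 228) (nat_lit 488455964572) (nat_lit 304) (nat_lit 223889305260) (nat_lit 110) (nat_lit 5) (nat_lit 113) (nat_lit 5) (nat_lit 114) (nat_lit 5) (nat_lit 480) (nat_lit 461) (nat_lit 259)) (XT.lf (nat_lit 0) (nat_lit 111663017429) (nat_lit 228) (nat_lit 801828113064) (nat_lit 76) (nat_lit 137413981919) (nat_lit 107) (nat_lit 5) (nat_lit 110) (nat_lit 5) (nat_lit 108) (nat_lit 5) (nat_lit 481) (nat_lit 461) (nat_lit 258))) (XT.nd (nat_lit 78) (nat_lit 152) (nat_lit 0) (XT.lf (nat_lit 0) (nat_lit 204863221768) (nat_lit 228) (nat_lit 285503925831) (nat_lit 304) (nat_lit 611191647850) (nat_lit 104) (nat_lit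 5) (nat_lit 107) (nat_lit 5) (nat_lit 108) (nat_lit 5) (nat_lit 482) (nat_lit 461) (nat_lit 257)) (XT.lf (nat_lit 0) (nat_lit 164046498885) (nat_lit 152) (nat_lit 758210114333) (nat_lit 228) (nat_lit 232863709659) (nat_lit 102) (nat_lit 5) (nat_lit 104) (nat_lit 5) (nat_lit 105) (nat_lit 5) (nat_lit 483) (nat_lit 461) (nat_lit 256)))) (XT.nd (nat_lit 156) (nat_lit 380) (nat_lit 0) (XT.nd (nat_lit 78) (nat_lit 152) (nat_lit 0) (XT.lf (nat_lit 0) (nat_lit 125691943195) (nat_lit 228) (nat_lit 67066474940) (nat_lit 304) (nat_lit 1018938550773) (nat_lit 98) (nat_lit 5) (nat_lit 101) (nat_lit 5) (nat_lit 102) (nat_lit 5) (nat_lit 484) (nat_lit 461) (nat_lit 255)) (XT.lf (nat_lit 0) (nat_lit 83096558648) (nat_lit 152) (nat_lit 590735501388) (nat_lit 228) (nat_lit 597298806995) (nat_lit 96) (nat_lit 5) (nat_lit 98) (nat_lit 5) (nat_lit 99) (nat_lit 5) (nat_lit 485) (nat_lit 461) (nat_lit 254))) (XT.nd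 (nat_lit 78) (nat_lit 228) (nat_lit 0) (XT.lf (nat_lit 0) (nat_lit 47901162322) (nat_lit 152) (nat_lit 1168921301471) (nat_lit 228) (nat_lit 117325469685) (nat_lit 94) (nat_lit 5) (nat_lit 96) (nat_lit 5) (nat_lit 97) (nat_lit 5) (nat_lit 486) (nat_lit 461) (nat_lit 253)) (XT.lf (nat_lit 0) (nat_lit 7647318757) (nat_lit 152) (nat_lit 411676759329) (nat_lit 228) (nat_lit 981013499186) (nat_lit 91) (nat_lit 5) (nat_lit 93) (nat_lit 5) (nat_lit 94) (nat_lit 5) (nat_lit 487) (nat_lit 461) (nat_lit 252))))) (XT.nd (nat_lit 312) (nat_lit 608) (nat_lit 0) (XT.nd (nat_lit 156) (nat_lit 304) (nat_lit 0) (XT.nd (nat_lit 78) (nat_lit 228) (nat_lit 0) (XT.lf (nat_lit 0) (nat_lit 1023964008418) (nat_lit 228) (nat_lit 28404468003) (nat_lit 76) (nat_lit 417899301148) (nat_lit 91) (nat_lit 5) (nat_lit 94) (nat_lit 5) (nat_lit 92) (nat_lit 5) (nat_lit 488) (nat_lit 461) (nat_lit 251)) (XT.lf (nat_lit 0) (nat_lit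 157614602420) (nat_lit 228) (nat_lit 61195694977) (nat_lit 76) (nat_lit 1325348163479) (nat_lit 88) (nat_lit 5) (nat_lit 91) (nat_lit 5) (nat_lit 89) (nat_lit 5) (nat_lit 489) (nat_lit 461) (nat_lit 250))) (XT.nd (nat_lit 78) (nat_lit 152) (nat_lit 0) (XT.lf (nat_lit 0) (nat_lit 830033474252) (nat_lit 228) (nat_lit 99646767557) (nat_lit 76) (nat_lit 692123167251) (nat_lit 86) (nat_lit 5) (nat_lit 89) (nat_lit 5) (nat_lit 87) (nat_lit 5) (nat_lit 490) (nat_lit 461) (nat_lit 249)) (XT.lf (nat_lit 0) (nat_lit 1575473751803) (nat_lit 152) (nat_lit 10142658865) (nat_lit 228) (nat_lit 118575014686) (nat_lit 84) (nat_lit 5) (nat_lit 86) (nat_lit 5) (nat_lit 87) (nat_lit 5) (nat_lit 491) (nat_lit 461) (nat_lit 248)))) (XT.nd (nat_lit 156) (nat_lit 304) (nat_lit 0) (XT.nd (nat_lit 78) (nat_lit 152) (nat_lit 0) (XT.lf (nat_lit 0) (nat_lit 632288721621) (nat_lit 152) (nat_lit 169303689306) (nat_lit 76)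 (nat_lit 988938659710) (nat_lit 82) (nat_lit 5) (nat_lit 84) (nat_lit 5) (nat_lit 83) (nat_lit 5) (nat_lit 492) (nat_lit 461) (nat_lit 247)) (XT.lf (nat_lit 0) (nat_lit 1471232470583) (nat_lit 228) (nat_lit 201829024158) (nat_lit 76) (nat_lit 209010939934) (nat_lit 80) (nat_lit 5) (nat_lit 83) (nat_lit 5) (nat_lit 81) (nat_lit 4) (nat_lit 493) (nat_lit 461) (nat_lit 246))) (XT.nd (nat_lit 78) (nat_lit 152) (nat_lit 0) (XT.lf (nat_lit 0) (nat_lit 428149148284) (nat_lit 152) (nat_lit 240348156589) (nat_lit 76) (nat_lit 1309906374673) (nat_lit 78) (nat_lit 5) (nat_lit 80) (nat_lit 5) (nat_lit 79) (nat_lit 5) (nat_lit 494) (nat_lit 461) (nat_lit 245)) (XT.lf (nat_lit 0) (nat_lit 1359009510726) (nat_lit 228) (nat_lit 278654901830) (nat_lit 76) (nat_lit 442482959776) (nat_lit 76) (nat_lit 5) (nat_lit 79) (nat_lit 5) (nat_lit 77) (nat_lit 4) (nat_lit 495) (nat_lit 461) (nat_lit 244))))))) (XT.nd (nat_lit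 60684) (nat_lit 0) (nat_lit 1824) (XT.nd (nat_lit 60060) (nat_lit 0) (nat_lit 5624) (XT.nd (nat_lit 312) (nat_lit 76) (nat_lit 0) (XT.nd (nat_lit 156) (nat_lit 304) (nat_lit 0) (XT.nd (nat_lit 78) (nat_lit 152) (nat_lit 0) (XT.lf (nat_lit 0) (nat_lit 214250523550) (nat_lit 152) (nat_lit 317163342570) (nat_lit 76) (nat_lit 1656204555940) (nat_lit 74) (nat_lit 5) (nat_lit 76) (nat_lit 5) (nat_lit 75) (nat_lit 5) (nat_lit 496) (nat_lit 461) (nat_lit 243)) (XT.lf (nat_lit 0) (nat_lit 1246027017586) (nat_lit 228) (nat_lit 364334540840) (nat_lit 76) (nat_lit 690393390934) (nat_lit 72) (nat_lit 5) (nat_lit 75) (nat_lit 5) (nat_lit 73) (nat_lit 4) (nat_lit 497) (nat_lit 461) (nat_lit 242))) (XT.nd (nat_lit 78) (nat_lit 228) (nat_lit 0) (XT.lf (nat_lit 0) (nat_lit 2014371781598) (nat_lit 76) (nat_lit 391999788569) (nat_lit 152) (nat_lit 14269531728) (nat_lit 71) (nat_lit 5) (nat_lit 72) (nat_lit 5) (nat_lit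 73) (nat_lit 4) (nat_lit 498) (nat_lit 461) (nat_lit 241)) (XT.lf (nat_lit 0) (nat_lit 1128445686908) (nat_lit 228) (nat_lit 466391053106) (nat_lit 76) (nat_lit 951688909907) (nat_lit 68) (nat_lit 5) (nat_lit 71) (nat_lit 5) (nat_lit 69) (nat_lit 4) (nat_lit 499) (nat_lit 461) (nat_lit 240)))) (XT.nd (nat_lit 59592) (nat_lit 0) (nat_lit 7372) (XT.nd (nat_lit 59514) (nat_lit 0) (nat_lit 7296) (XT.lf (nat_lit 0) (nat_lit 2159998423533) (nat_lit 76) (nat_lit 249612865859) (nat_lit 152) (nat_lit 270481320999) (nat_lit 67) (nat_lit 5) (nat_lit 68) (nat_lit 5) (nat_lit 69) (nat_lit 4) (nat_lit 500) (nat_lit 461) (nat_lit 239)) (XT.lf (nat_lit 0) (nat_lit 106196337252) (nat_lit 836) (nat_lit 66744011293) (nat_lit 836) (nat_lit 66744011293) (nat_lit 163) (nat_lit 3) (nat_lit 174) (nat_lit 3) (nat_lit 174) (nat_lit 5) (nat_lit 462) (nat_lit 462) (nat_lit 276))) (XT.nd (nat_lit 78) (nat_lit 0) (nat_lit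 0) (XT.lf (nat_lit 0) (nat_lit 225392180885) (nat_lit 760) (nat_lit 242170982147) (nat_lit 836) (nat_lit 30755115429) (nat_lit 164) (nat_lit 5) (nat_lit 174) (nat_lit 5) (nat_lit 175) (nat_lit 5) (nat_lit 463) (nat_lit 462) (nat_lit 275)) (XT.lf (nat_lit 76) (nat_lit 162379550399) (nat_lit 0) (nat_lit 87782828020) (nat_lit 836) (nat_lit 268084886998) (nat_lit 165) (nat_lit 5) (nat_lit 164) (nat_lit 5) (nat_lit 175) (nat_lit 5) (nat_lit 464) (nat_lit 462) (nat_lit 274))))) (XT.nd (nat_lit 312) (nat_lit 1824) (nat_lit 0) (XT.nd (nat_lit 156) (nat_lit 0) (nat_lit 152) (XT.nd (nat_lit 78) (nat_lit 0) (nat_lit 76) (XT.lf (nat_lit 76) (nat_lit 65372206922) (nat_lit 0) (nat_lit 221883458857) (nat_lit 836) (nat_lit 251997831854) (nat_lit 166) (nat_lit 5) (nat_lit 165) (nat_lit 5) (nat_lit 176) (nat_lit 5) (nat_lit 465) (nat_lit 462) (nat_lit 273)) (XT.lf (nat_lit 0) (nat_lit 338039872188) (nat_lit 760)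 (nat_lit 33135571901) (nat_lit 836) (nat_lit 190228611537) (nat_lit 166) (nat_lit 5) (nat_lit 176) (nat_lit 5) (nat_lit 177) (nat_lit 5) (nat_lit 466) (nat_lit 462) (nat_lit 272))) (XT.nd (nat_lit 78) (nat_lit 0) (nat_lit 0) (XT.lf (nat_lit 0) (nat_lit 404490515172) (nat_lit 760) (nat_lit 131917128480) (nat_lit 836) (nat_lit 48338829606) (nat_lit 167) (nat_lit 5) (nat_lit 177) (nat_lit 5) (nat_lit 178) (nat_lit 5) (nat_lit 467) (nat_lit 462) (nat_lit 271)) (XT.lf (nat_lit 76) (nat_lit 374650253611) (nat_lit 0) (nat_lit 114301622017) (nat_lit 836) (nat_lit 120369675372) (nat_lit 168) (nat_lit 5) (nat_lit 167) (nat_lit 5) (nat_lit 178) (nat_lit 5) (nat_lit 468) (nat_lit 462) (nat_lit 270)))) (XT.nd (nat_lit 156) (nat_lit 760) (nat_lit 0) (XT.nd (nat_lit 78) (nat_lit 532) (nat_lit 0) (XT.lf (nat_lit 0) (nat_lit 294769873723) (nat_lit 760) (nat_lit 297670916043) (nat_lit 836) (nat_lit 42808312958)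 (nat_lit 158) (nat_lit 5) (nat_lit 168) (nat_lit 5) (nat_lit 169) (nat_lit 5) (nat_lit 469) (nat_lit 462) (nat_lit 269)) (XT.lf (nat_lit 0) (nat_lit 51713048905) (nat_lit 532) (nat_lit 449169271066) (nat_lit 76) (nat_lit 161733265144) (nat_lit 151) (nat_lit 5) (nat_lit 158) (nat_lit 5) (nat_lit 152) (nat_lit 5) (nat_lit 470) (nat_lit 462) (nat_lit 268))) (XT.nd (nat_lit 78) (nat_lit 380) (nat_lit 0) (XT.lf (nat_lit 0) (nat_lit 130301570749) (nat_lit 380) (nat_lit 35096582211) (nat_lit 456) (nat_lit 526083052957) (nat_lit 146) (nat_lit 5) (nat_lit 151) (nat_lit 5) (nat_lit 152) (nat_lit 5) (nat_lit 471) (nat_lit 462) (nat_lit 267)) (XT.lf (nat_lit 0) (nat_lit 43874837883) (nat_lit 380) (nat_lit 260246758119) (nat_lit 456) (nat_lit 417737303851) (nat_lit 141) (nat_lit 5) (nat_lit 146) (nat_lit 5) (nat_lit 147) (nat_lit 5) (nat_lit 472) (nat_lit 462) (nat_lit 266)))))) (XT.nd (nat_lit 624) (nat_lit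 1672) (nat_lit 0) (XT.nd (nat_lit 312) (nat_lit 1140) (nat_lit 0) (XT.nd (nat_lit 156) (nat_lit 684) (nat_lit 0) (XT.nd (nat_lit 78) (nat_lit 304) (nat_lit 0) (XT.lf (nat_lit 0) (nat_lit 468242153060) (nat_lit 456) (nat_lit 41328730921) (nat_lit 76) (nat_lit 244380963396) (nat_lit 141) (nat_lit 5) (nat_lit 147) (nat_lit 5) (nat_lit 142) (nat_lit 5) (nat_lit 473) (nat_lit 462) (nat_lit 265)) (XT.lf (nat_lit 0) (nat_lit 660277983795) (nat_lit 380) (nat_lit 124825932551) (nat_lit 76) (nat_lit 2769032903) (nat_lit 137) (nat_lit 5) (nat_lit 142) (nat_lit 5) (nat_lit 138) (nat_lit 5) (nat_lit 474) (nat_lit 462) (nat_lit 264))) (XT.nd (nat_lit 78) (nat_lit 304) (nat_lit 0) (XT.lf (nat_lit 0) (nat_lit 60971865353) (nat_lit 380) (nat_lit 212794697927) (nat_lit 76) (nat_lit 549748246615) (nat_lit 132) (nat_lit 5) (nat_lit 137) (nat_lit 5) (nat_lit 133) (nat_lit 5) (nat_lit 475) (nat_lit 462) (nat_lit 263))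 (XT.lf (nat_lit 0) (nat_lit 275785140590) (nat_lit 380) (nat_lit 302396649991) (nat_lit 76) (nat_lit 282940072575) (nat_lit 128) (nat_lit 5) (nat_lit 133) (nat_lit 5) (nat_lit 129) (nat_lit 5) (nat_lit 476) (nat_lit 462) (nat_lit 262)))) (XT.nd (nat_lit 156) (nat_lit 608) (nat_lit 0) (XT.nd (nat_lit 78) (nat_lit 228) (nat_lit 0) (XT.lf (nat_lit 0) (nat_lit 509648337906) (nat_lit 304) (nat_lit 14475876303) (nat_lit 380) (nat_lit 376796229652) (nat_lit 124) (nat_lit 5) (nat_lit 128) (nat_lit 5) (nat_lit 129) (nat_lit 5) (nat_lit 477) (nat_lit 462) (nat_lit 261)) (XT.lf (nat_lit 0) (nat_lit 459145935317) (nat_lit 228) (nat_lit 354986025028) (nat_lit 304) (nat_lit 128680873348) (nat_lit 121) (nat_lit 5) (nat_lit 124) (nat_lit 5) (nat_lit 125) (nat_lit 5) (nat_lit 478) (nat_lit 462) (nat_lit 260))) (XT.nd (nat_lit 78) (nat_lit 228) (nat_lit 0) (XT.lf (nat_lit 0) (nat_lit 152625152961) (nat_lit 380)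 (nat_lit 576827684078) (nat_lit 76) (nat_lit 257605077713) (nat_lit 116) (nat_lit 5) (nat_lit 121) (nat_lit 5) (nat_lit 117) (nat_lit 5) (nat_lit 479) (nat_lit 462) (nat_lit 259)) (XT.lf (nat_lit 0) (nat_lit 361774778468) (nat_lit 228) (nat_lit 110410100854) (nat_lit 304) (nat_lit 561539368403) (nat_lit 113) (nat_lit 5) (nat_lit 116) (nat_lit 5) (nat_lit 117) (nat_lit 5) (nat_lit 480) (nat_lit 462) (nat_lit 258))))) (XT.nd (nat_lit 312) (nat_lit 836) (nat_lit 0) (XT.nd (nat_lit 156) (nat_lit 380) (nat_lit 0) (XT.nd (nat_lit 78) (nat_lit 228) (nat_lit 0) (XT.lf (nat_lit 0) (nat_lit 313600323868) (nat_lit 228) (nat_lit 527532290801) (nat_lit 304) (nat_lit 241800111124) (nat_lit 110) (nat_lit 5) (nat_lit 113) (nat_lit 5) (nat_lit 114) (nat_lit 5) (nat_lit 481) (nat_lit 462) (nat_lit 257)) (XT.lf (nat_lit 0) (nat_lit 120596371881) (nat_lit 228) (nat_lit 865973885778) (nat_lit 76) (nat_lit 148407248080)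 (nat_lit 107) (nat_lit 5) (nat_lit 110) (nat_lit 5) (nat_lit 108) (nat_lit 5) (nat_lit 482) (nat_lit 462) (nat_lit 256))) (XT.nd (nat_lit 78) (nat_lit 152) (nat_lit 0) (XT.lf (nat_lit 0) (nat_lit 221252735141) (nat_lit 228) (nat_lit 308344081248) (nat_lit 304) (nat_lit 660086667834) (nat_lit 104) (nat_lit 5) (nat_lit 107) (nat_lit 5) (nat_lit 108) (nat_lit 5) (nat_lit 483) (nat_lit 462) (nat_lit 255)) (XT.lf (nat_lit 0) (nat_lit 177170666473) (nat_lit 152) (nat_lit 818866760070) (nat_lit 228) (nat_lit 251492507940) (nat_lit 102) (nat_lit 5) (nat_lit 104) (nat_lit 5) (nat_lit 105) (nat_lit 5) (nat_lit 484) (nat_lit 462) (nat_lit 254)))) (XT.nd (nat_lit 156) (nat_lit 380) (nat_lit 0) (XT.nd (nat_lit 78) (nat_lit 152) (nat_lit 0) (XT.lf (nat_lit 0) (nat_lit 135747736020) (nat_lit 228) (nat_lit 72431629929) (nat_lit 304) (nat_lit 1100453346743) (nat_lit 98) (nat_lit 5) (nat_lit 101) (nat_lit 5) (nat_lit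 102) (nat_lit 5) (nat_lit 485) (nat_lit 462) (nat_lit 253)) (XT.lf (nat_lit 0) (nat_lit 89744712400) (nat_lit 152) (nat_lit 637994175534) (nat_lit 228) (nat_lit 645082435295) (nat_lit 96) (nat_lit 5) (nat_lit 98) (nat_lit 5) (nat_lit 99) (nat_lit 5) (nat_lit 486) (nat_lit 462) (nat_lit 252))) (XT.nd (nat_lit 78) (nat_lit 228) (nat_lit 0) (XT.lf (nat_lit 0) (nat_lit 51733675836) (nat_lit 152) (nat_lit 1262434837634) (nat_lit 228) (nat_lit 126711242051) (nat_lit 94) (nat_lit 5) (nat_lit 96) (nat_lit 5) (nat_lit 97) (nat_lit 5) (nat_lit 487) (nat_lit 462) (nat_lit 251)) (XT.lf (nat_lit 0) (nat_lit 8259514637) (nat_lit 152) (nat_lit 444610733808) (nat_lit 228) (nat_lit 1059494322796) (nat_lit 91) (nat_lit 5) (nat_lit 93) (nat_lit 5) (nat_lit 94) (nat_lit 5) (nat_lit 488) (nat_lit 462) (nat_lit 250))))))))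
noncomputable def xc118 : XT := (XT.nd (nat_lit 61932) (nat_lit 0) (nat_lit 228) (XT.nd (nat_lit 60684) (nat_lit 0) (nat_lit 3420) (XT.nd (nat_lit 546) (nat_lit 760) (nat_lit 0) (XT.nd (nat_lit 234) (nat_lit 608) (nat_lit 0) (XT.nd (nat_lit 78) (nat_lit 380) (nat_lit 0) (XT.lf (nat_lit 0) (nat_lit 1105881357525) (nat_lit 228) (nat_lit 30676436558) (nat_lit 76) (nat_lit 451331394263) (nat_lit 91) (nat_lit 5) (nat_lit 94) (nat_lit 5) (nat_lit 92) (nat_lit 5) (nat_lit 489) (nat_lit 462) (nat_lit 249)) (XT.nd (nat_lit 78) (nat_lit 152) (nat_lit 0) (XT.lf (nat_lit 0) (nat_lit 170223991502) (nat_lit 228) (nat_lit 66090971280) (nat_lit 76) (nat_lit 1431376163913) (nat_lit 88) (nat_lit 5) (nat_lit 91) (nat_lit 5) (nat_lit 89) (nat_lit 5) (nat_lit 490) (nat_lit 462) (nat_lit 248)) (XT.lf (nat_lit 0) (nat_lit 896436364766) (nat_lit 228) (nat_lit 107618138017) (nat_lit 76) (nat_lit 747493168366) (nat_lit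 86) (nat_lit 5) (nat_lit 89) (nat_lit 5) (nat_lit 87) (nat_lit 5) (nat_lit 491) (nat_lit 462) (nat_lit 247)))) (XT.nd (nat_lit 156) (nat_lit 304) (nat_lit 0) (XT.nd (nat_lit 78) (nat_lit 152) (nat_lit 0) (XT.lf (nat_lit 0) (nat_lit 1701512006771) (nat_lit 152) (nat_lit 10953919119) (nat_lit 228) (nat_lit 128060803370) (nat_lit 84) (nat_lit 5) (nat_lit 86) (nat_lit 5) (nat_lit 87) (nat_lit 5) (nat_lit 492) (nat_lit 462) (nat_lit 246)) (XT.lf (nat_lit 0) (nat_lit 682872017549) (nat_lit 152) (nat_lit 182847631083) (nat_lit 76) (nat_lit 1068053897743) (nat_lit 82) (nat_lit 5) (nat_lit 84) (nat_lit 5) (nat_lit 83) (nat_lit 5) (nat_lit 493) (nat_lit 462) (nat_lit 245))) (XT.nd (nat_lit 78) (nat_lit 152) (nat_lit 0) (XT.lf (nat_lit 0) (nat_lit 1588931259353) (nat_lit 228) (nat_lit 217975000964) (nat_lit 76) (nat_lit 225731959571) (nat_lit 80) (nat_lit 5) (nat_lit 83) (nat_lit 5) (nat_lit 81) (nat_lit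 4) (nat_lit 494) (nat_lit 462) (nat_lit 244)) (XT.lf (nat_lit 0) (nat_lit 462401265256) (nat_lit 152) (nat_lit 259575672865) (nat_lit 76) (nat_lit 1414699026530) (nat_lit 78) (nat_lit 5) (nat_lit 80) (nat_lit 5) (nat_lit 79) (nat_lit 5) (nat_lit 495) (nat_lit 462) (nat_lit 243))))) (XT.nd (nat_lit 312) (nat_lit 228) (nat_lit 0) (XT.nd (nat_lit 156) (nat_lit 228) (nat_lit 0) (XT.nd (nat_lit 78) (nat_lit 152) (nat_lit 0) (XT.lf (nat_lit 0) (nat_lit 1467730450271) (nat_lit 228) (nat_lit 300946965781) (nat_lit 76) (nat_lit 477881737129) (nat_lit 76) (nat_lit 5) (nat_lit 79) (nat_lit 5) (nat_lit 77) (nat_lit 4) (nat_lit 496) (nat_lit 462) (nat_lit 242)) (XT.lf (nat_lit 0) (nat_lit 231390738582) (nat_lit 152) (nat_lit 342536090314) (nat_lit 76) (nat_lit 1788701058267) (nat_lit 74) (nat_lit 5) (nat_lit 76) (nat_lit 5) (nat_lit 75) (nat_lit 5) (nat_lit 497) (nat_lit 462) (nat_lit 241))) (XT.nd (nat_lit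 78) (nat_lit 76) (nat_lit 0) (XT.lf (nat_lit 0) (nat_lit 1345709346286) (nat_lit 228) (nat_lit 393480992276) (nat_lit 76) (nat_lit 745624998379) (nat_lit 72) (nat_lit 5) (nat_lit 75) (nat_lit 5) (nat_lit 73) (nat_lit 4) (nat_lit 498) (nat_lit 462) (nat_lit 240)) (XT.lf (nat_lit 0) (nat_lit 2175521822404) (nat_lit 76) (nat_lit 423359632934) (nat_lit 152) (nat_lit 15410926728) (nat_lit 71) (nat_lit 5) (nat_lit 72) (nat_lit 5) (nat_lit 73) (nat_lit 4) (nat_lit 499) (nat_lit 462) (nat_lit 239)))) (XT.nd (nat_lit 59670) (nat_lit 0) (nat_lit 7296) (XT.nd (nat_lit 59592) (nat_lit 0) (nat_lit 7220) (XT.lf (nat_lit 0) (nat_lit 1218721498678) (nat_lit 228) (nat_lit 503702041289) (nat_lit 76) (nat_lit 1027824154105) (nat_lit 68) (nat_lit 5) (nat_lit 71) (nat_lit 5) (nat_lit 69) (nat_lit 4) (nat_lit 500) (nat_lit 462) (nat_lit 238)) (XT.lf (nat_lit 0) (nat_lit 114692473682) (nat_lit 836) (nat_lit 72083306719)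 (nat_lit 836) (nat_lit 72083306719) (nat_lit 163) (nat_lit 3) (nat_lit 174) (nat_lit 3) (nat_lit 174) (nat_lit 5) (nat_lit 463) (nat_lit 463) (nat_lit 274))) (XT.nd (nat_lit 78) (nat_lit 0) (nat_lit 0) (XT.lf (nat_lit 0) (nat_lit 243424351580) (nat_lit 760) (nat_lit 261544183413) (nat_lit 836) (nat_lit 33215165872) (nat_lit 164) (nat_lit 5) (nat_lit 174) (nat_lit 5) (nat_lit 175) (nat_lit 5) (nat_lit 464) (nat_lit 463) (nat_lit 273)) (XT.lf (nat_lit 76) (nat_lit 175370370994) (nat_lit 0) (nat_lit 94805742071) (nat_lit 836) (nat_lit 289530896310) (nat_lit 165) (nat_lit 5) (nat_lit 164) (nat_lit 5) (nat_lit 175) (nat_lit 5) (nat_lit 465) (nat_lit 463) (nat_lit 272)))))) (XT.nd (nat_lit 624) (nat_lit 2128) (nat_lit 0) (XT.nd (nat_lit 312) (nat_lit 1824) (nat_lit 0) (XT.nd (nat_lit 156) (nat_lit 0) (nat_lit 152) (XT.nd (nat_lit 78) (nat_lit 0) (nat_lit 76) (XT.lf (nat_lit 76) (nat_lit 70602460150)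 (nat_lit 0) (nat_lit 239634351407) (nat_lit 836) (nat_lit 272156931209) (nat_lit 166) (nat_lit 5) (nat_lit 165) (nat_lit 5) (nat_lit 176) (nat_lit 5) (nat_lit 466) (nat_lit 463) (nat_lit 271)) (XT.lf (nat_lit 0) (nat_lit 365083700061) (nat_lit 760) (nat_lit 35785941058) (nat_lit 836) (nat_lit 205446707004) (nat_lit 166) (nat_lit 5) (nat_lit 176) (nat_lit 5) (nat_lit 177) (nat_lit 5) (nat_lit 467) (nat_lit 463) (nat_lit 270))) (XT.nd (nat_lit 78) (nat_lit 0) (nat_lit 0) (XT.lf (nat_lit 0) (nat_lit 436850352117) (nat_lit 760) (nat_lit 142470010715) (nat_lit 836) (nat_lit 52205798455) (nat_lit 167) (nat_lit 5) (nat_lit 177) (nat_lit 5) (nat_lit 178) (nat_lit 5) (nat_lit 468) (nat_lit 463) (nat_lit 269)) (XT.lf (nat_lit 76) (nat_lit 404622740734) (nat_lit 0) (nat_lit 123445843836) (nat_lit 836) (nat_lit 129998662525) (nat_lit 168) (nat_lit 5) (nat_lit 167) (nat_lit 5) (nat_lit 178) (nat_lit 5) (nat_lit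 469) (nat_lit 463) (nat_lit 268)))) (XT.nd (nat_lit 156) (nat_lit 760) (nat_lit 0) (XT.nd (nat_lit 78) (nat_lit 532) (nat_lit 0) (XT.lf (nat_lit 0) (nat_lit 318351938312) (nat_lit 760) (nat_lit 321484638208) (nat_lit 836) (nat_lit 46232428205) (nat_lit 158) (nat_lit 5) (nat_lit 168) (nat_lit 5) (nat_lit 169) (nat_lit 5) (nat_lit 470) (nat_lit 463) (nat_lit 267)) (XT.lf (nat_lit 0) (nat_lit 55850592485) (nat_lit 532) (nat_lit 485102316327) (nat_lit 76) (nat_lit 174671898094) (nat_lit 151) (nat_lit 5) (nat_lit 158) (nat_lit 5) (nat_lit 152) (nat_lit 5) (nat_lit 471) (nat_lit 463) (nat_lit 266))) (XT.nd (nat_lit 78) (nat_lit 380) (nat_lit 0) (XT.lf (nat_lit 0) (nat_lit 140726171259) (nat_lit 380) (nat_lit 37904304007) (nat_lit 456) (nat_lit 568169203590) (nat_lit 146) (nat_lit 5) (nat_lit 151) (nat_lit 5) (nat_lit 152) (nat_lit 5) (nat_lit 472) (nat_lit 463) (nat_lit 265)) (XT.lf (nat_lit 0) (nat_lit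 47385301568) (nat_lit 380) (nat_lit 281066464874) (nat_lit 456) (nat_lit 451155823232) (nat_lit 141) (nat_lit 5) (nat_lit 146) (nat_lit 5) (nat_lit 147) (nat_lit 5) (nat_lit 473) (nat_lit 463) (nat_lit 264))))) (XT.nd (nat_lit 312) (nat_lit 1140) (nat_lit 0) (XT.nd (nat_lit 156) (nat_lit 684) (nat_lit 0) (XT.nd (nat_lit 78) (nat_lit 304) (nat_lit 0) (XT.lf (nat_lit 0) (nat_lit 505701935758) (nat_lit 456) (nat_lit 44634568012) (nat_lit 76) (nat_lit 263931470848) (nat_lit 141) (nat_lit 5) (nat_lit 147) (nat_lit 5) (nat_lit 142) (nat_lit 5) (nat_lit 474) (nat_lit 463) (nat_lit 263)) (XT.lf (nat_lit 0) (nat_lit 713100610288) (nat_lit 380) (nat_lit 134811547301) (nat_lit 76) (nat_lit 2990608186) (nat_lit 137) (nat_lit 5) (nat_lit 142) (nat_lit 5) (nat_lit 138) (nat_lit 5) (nat_lit 475) (nat_lit 463) (nat_lit 262))) (XT.nd (nat_lit 78) (nat_lit 304) (nat_lit 0) (XT.lf (nat_lit 0) (nat_lit 65849986535)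 (nat_lit 380) (nat_lit 229817821571) (nat_lit 76) (nat_lit 593728167962) (nat_lit 132) (nat_lit 5) (nat_lit 137) (nat_lit 5) (nat_lit 133) (nat_lit 5) (nat_lit 476) (nat_lit 463) (nat_lit 261)) (XT.lf (nat_lit 0) (nat_lit 297848304262) (nat_lit 380) (nat_lit 326587933145) (nat_lit 76) (nat_lit 305575357161) (nat_lit 128) (nat_lit 5) (nat_lit 133) (nat_lit 5) (nat_lit 129) (nat_lit 5) (nat_lit 477) (nat_lit 463) (nat_lit 260)))) (XT.nd (nat_lit 156) (nat_lit 608) (nat_lit 0) (XT.nd (nat_lit 78) (nat_lit 228) (nat_lit 0) (XT.lf (nat_lit 0) (nat_lit 550420634278) (nat_lit 304) (nat_lit 15633850090) (nat_lit 380) (nat_lit 406939578332) (nat_lit 124) (nat_lit 5) (nat_lit 128) (nat_lit 5) (nat_lit 129) (nat_lit 5) (nat_lit 478) (nat_lit 463) (nat_lit 259)) (XT.lf (nat_lit 0) (nat_lit 495878035331) (nat_lit 228) (nat_lit 383384798226) (nat_lit 304) (nat_lit 138975010994) (nat_lit 121) (nat_lit 5) (nat_lit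 124) (nat_lit 5) (nat_lit 125) (nat_lit 5) (nat_lit 479) (nat_lit 463) (nat_lit 258))) (XT.nd (nat_lit 78) (nat_lit 228) (nat_lit 0) (XT.lf (nat_lit 0) (nat_lit 164835471232) (nat_lit 380) (nat_lit 622973468436) (nat_lit 76) (nat_lit 278213592947) (nat_lit 116) (nat_lit 5) (nat_lit 121) (nat_lit 5) (nat_lit 117) (nat_lit 5) (nat_lit 480) (nat_lit 463) (nat_lit 257)) (XT.lf (nat_lit 0) (nat_lit 390717172410) (nat_lit 228) (nat_lit 119242787050) (nat_lit 304) (nat_lit 606462213579) (nat_lit 113) (nat_lit 5) (nat_lit 116) (nat_lit 5) (nat_lit 117) (nat_lit 5) (nat_lit 481) (nat_lit 463) (nat_lit 256))))))) (XT.nd (nat_lit 1248) (nat_lit 380) (nat_lit 0) (XT.nd (nat_lit 624) (nat_lit 1140) (nat_lit 0) (XT.nd (nat_lit 312) (nat_lit 836) (nat_lit 0) (XT.nd (nat_lit 156) (nat_lit 380) (nat_lit 0) (XT.nd (nat_lit 78) (nat_lit 228) (nat_lit 0) (XT.lf (nat_lit 0) (nat_lit 338688755606) (nat_lit 228) (nat_lit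 569734744662) (nat_lit 304) (nat_lit 261143829755) (nat_lit 110) (nat_lit 5) (nat_lit 113) (nat_lit 5) (nat_lit 114) (nat_lit 5) (nat_lit 482) (nat_lit 463) (nat_lit 255)) (XT.lf (nat_lit 0) (nat_lit 130244350028) (nat_lit 228) (nat_lit 935251388262) (nat_lit 76) (nat_lit 160279954476) (nat_lit 107) (nat_lit 5) (nat_lit 110) (nat_lit 5) (nat_lit 108) (nat_lit 5) (nat_lit 483) (nat_lit 463) (nat_lit 254))) (XT.nd (nat_lit 78) (nat_lit 152) (nat_lit 0) (XT.lf (nat_lit 0) (nat_lit 238953344582) (nat_lit 228) (nat_lit 333011471732) (nat_lit 304) (nat_lit 712893333905) (nat_lit 104) (nat_lit 5) (nat_lit 107) (nat_lit 5) (nat_lit 108) (nat_lit 5) (nat_lit 484) (nat_lit 463) (nat_lit 253)) (XT.lf (nat_lit 0) (nat_lit 191344703601) (nat_lit 152) (nat_lit 884375960778) (nat_lit 228) (nat_lit 271611652667) (nat_lit 102) (nat_lit 5) (nat_lit 104) (nat_lit 5) (nat_lit 105) (nat_lit 5) (nat_lit 485) (nat_lit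 463) (nat_lit 252)))) (XT.nd (nat_lit 156) (nat_lit 380) (nat_lit 0) (XT.nd (nat_lit 78) (nat_lit 152) (nat_lit 0) (XT.lf (nat_lit 0) (nat_lit 146607929876) (nat_lit 228) (nat_lit 78226020571) (nat_lit 304) (nat_lit 1188489367490) (nat_lit 98) (nat_lit 5) (nat_lit 101) (nat_lit 5) (nat_lit 102) (nat_lit 5) (nat_lit 486) (nat_lit 463) (nat_lit 251)) (XT.lf (nat_lit 0) (nat_lit 96924657241) (nat_lit 152) (nat_lit 689033567290) (nat_lit 228) (nat_lit 696688793270) (nat_lit 96) (nat_lit 5) (nat_lit 98) (nat_lit 5) (nat_lit 99) (nat_lit 5) (nat_lit 487) (nat_lit 463) (nat_lit 250))) (XT.nd (nat_lit 78) (nat_lit 228) (nat_lit 0) (XT.lf (nat_lit 0) (nat_lit 55872730437) (nat_lit 152) (nat_lit 1363429480650) (nat_lit 228) (nat_lit 136847914040) (nat_lit 94) (nat_lit 5) (nat_lit 96) (nat_lit 5) (nat_lit 97) (nat_lit 5) (nat_lit 488) (nat_lit 463) (nat_lit 249)) (XT.lf (nat_lit 0) (nat_lit 8920627642)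 (nat_lit 152) (nat_lit 480179449965) (nat_lit 228) (nat_lit 1144253648862) (nat_lit 91) (nat_lit 5) (nat_lit 93) (nat_lit 5) (nat_lit 94) (nat_lit 5) (nat_lit 489) (nat_lit 463) (nat_lit 248))))) (XT.nd (nat_lit 312) (nat_lit 608) (nat_lit 0) (XT.nd (nat_lit 156) (nat_lit 304) (nat_lit 0) (XT.nd (nat_lit 78) (nat_lit 228) (nat_lit 0) (XT.lf (nat_lit 0) (nat_lit 1194352061971) (nat_lit 228) (nat_lit 33130218075) (nat_lit 76) (nat_lit 487438033568) (nat_lit 91) (nat_lit 5) (nat_lit 94) (nat_lit 5) (nat_lit 92) (nat_lit 5) (nat_lit 490) (nat_lit 463) (nat_lit 247)) (XT.lf (nat_lit 0) (nat_lit 183842100199) (nat_lit 228) (nat_lit 71377923798) (nat_lit 76) (nat_lit 1545886383360) (nat_lit 88) (nat_lit 5) (nat_lit 91) (nat_lit 5) (nat_lit 89) (nat_lit 5) (nat_lit 491) (nat_lit 463) (nat_lit 246))) (XT.nd (nat_lit 78) (nat_lit 152) (nat_lit 0) (XT.lf (nat_lit 0) (nat_lit 968151456196) (nat_lit 228)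 (nat_lit 116227271033) (nat_lit 76) (nat_lit 807292748495) (nat_lit 86) (nat_lit 5) (nat_lit 89) (nat_lit 5) (nat_lit 87) (nat_lit 5) (nat_lit 492) (nat_lit 463) (nat_lit 245)) (XT.lf (nat_lit 0) (nat_lit 1837633271517) (nat_lit 152) (nat_lit 11830101942) (nat_lit 228) (nat_lit 138305485462) (nat_lit 84) (nat_lit 5) (nat_lit 86) (nat_lit 5) (nat_lit 87) (nat_lit 5) (nat_lit 493) (nat_lit 463) (nat_lit 244)))) (XT.nd (nat_lit 156) (nat_lit 304) (nat_lit 0) (XT.nd (nat_lit 78) (nat_lit 152) (nat_lit 0) (XT.lf (nat_lit 0) (nat_lit 737501948875) (nat_lit 152) (nat_lit 197475138613) (nat_lit 76) (nat_lit 1153498334096) (nat_lit 82) (nat_lit 5) (nat_lit 84) (nat_lit 5) (nat_lit 83) (nat_lit 5) (nat_lit 494) (nat_lit 463) (nat_lit 243)) (XT.lf (nat_lit 0) (nat_lit 1716045923959) (nat_lit 228) (nat_lit 235412705152) (nat_lit 76) (nat_lit 243790640172) (nat_lit 80) (nat_lit 5) (nat_lit 83) (nat_lit 5)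 (nat_lit 81) (nat_lit 4) (nat_lit 495) (nat_lit 463) (nat_lit 242))) (XT.nd (nat_lit 78) (nat_lit 152) (nat_lit 0) (XT.lf (nat_lit 0) (nat_lit 499393525179) (nat_lit 152) (nat_lit 280341438412) (nat_lit 76) (nat_lit 1527875070293) (nat_lit 78) (nat_lit 5) (nat_lit 80) (nat_lit 5) (nat_lit 79) (nat_lit 5) (nat_lit 496) (nat_lit 463) (nat_lit 241)) (XT.lf (nat_lit 0) (nat_lit 1585149039488) (nat_lit 228) (nat_lit 325022441668) (nat_lit 76) (nat_lit 516112396616) (nat_lit 76) (nat_lit 5) (nat_lit 79) (nat_lit 5) (nat_lit 77) (nat_lit 4) (nat_lit 497) (nat_lit 463) (nat_lit 240)))))) (XT.nd (nat_lit 60216) (nat_lit 0) (nat_lit 5016) (XT.nd (nat_lit 59904) (nat_lit 0) (nat_lit 7068) (XT.nd (nat_lit 156) (nat_lit 76) (nat_lit 0) (XT.nd (nat_lit 78) (nat_lit 152) (nat_lit 0) (XT.lf (nat_lit 0) (nat_lit 249902146115) (nat_lit 152) (nat_lit 369938703481) (nat_lit 76) (nat_lit 1931797261115) (nat_lit 74)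 (nat_lit 5) (nat_lit 76) (nat_lit 5) (nat_lit 75) (nat_lit 5) (nat_lit 498) (nat_lit 463) (nat_lit 239)) (XT.lf (nat_lit 0) (nat_lit 1453366237415) (nat_lit 228) (nat_lit 424959204314) (nat_lit 76) (nat_lit 805275114994) (nat_lit 72) (nat_lit 5) (nat_lit 75) (nat_lit 5) (nat_lit 73) (nat_lit 4) (nat_lit 499) (nat_lit 463) (nat_lit 238))) (XT.nd (nat_lit 59670) (nat_lit 0) (nat_lit 6992) (XT.lf (nat_lit 0) (nat_lit 2349563823923) (nat_lit 76) (nat_lit 457228284637) (nat_lit 152) (nat_lit 16643657229) (nat_lit 71) (nat_lit 5) (nat_lit 72) (nat_lit 5) (nat_lit 73) (nat_lit 4) (nat_lit 500) (nat_lit 463) (nat_lit 237)) (XT.lf (nat_lit 0) (nat_lit 123868239760) (nat_lit 836) (nat_lit 77849777946) (nat_lit 836) (nat_lit 77849777946) (nat_lit 163) (nat_lit 3) (nat_lit 174) (nat_lit 3) (nat_lit 174) (nat_lit 5) (nat_lit 464) (nat_lit 464) (nat_lit 272)))) (XT.nd (nat_lit 156) (nat_lit 0) (nat_lit 76)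 (XT.nd (nat_lit 78) (nat_lit 0) (nat_lit 0) (XT.lf (nat_lit 0) (nat_lit 262898982340) (nat_lit 760) (nat_lit 282467308873) (nat_lit 836) (nat_lit 35872071537) (nat_lit 164) (nat_lit 5) (nat_lit 174) (nat_lit 5) (nat_lit 175) (nat_lit 5) (nat_lit 465) (nat_lit 464) (nat_lit 271)) (XT.lf (nat_lit 76) (nat_lit 189400392102) (nat_lit 0) (nat_lit 102390448188) (nat_lit 836) (nat_lit 312692697878) (nat_lit 165) (nat_lit 5) (nat_lit 164) (nat_lit 5) (nat_lit 175) (nat_lit 5) (nat_lit 466) (nat_lit 464) (nat_lit 270))) (XT.nd (nat_lit 78) (nat_lit 0) (nat_lit 76) (XT.lf (nat_lit 76) (nat_lit 76251065634) (nat_lit 0) (nat_lit 258805284568) (nat_lit 836) (nat_lit 293928862254) (nat_lit 166) (nat_lit 5) (nat_lit 165) (nat_lit 5) (nat_lit 176) (nat_lit 5) (nat_lit 467) (nat_lit 464) (nat_lit 269)) (XT.lf (nat_lit 0) (nat_lit 394290943132) (nat_lit 760) (nat_lit 38648407739) (nat_lit 836) (nat_lit 221882277707)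 (nat_lit 166) (nat_lit 5) (nat_lit 176) (nat_lit 5) (nat_lit 177) (nat_lit 5) (nat_lit 468) (nat_lit 464) (nat_lit 268))))) (XT.nd (nat_lit 312) (nat_lit 1064) (nat_lit 0) (XT.nd (nat_lit 156) (nat_lit 1216) (nat_lit 0) (XT.nd (nat_lit 78) (nat_lit 0) (nat_lit 0) (XT.lf (nat_lit 0) (nat_lit 471798891029) (nat_lit 760) (nat_lit 153867193154) (nat_lit 836) (nat_lit 56382144431) (nat_lit 167) (nat_lit 5) (nat_lit 177) (nat_lit 5) (nat_lit 178) (nat_lit 5) (nat_lit 469) (nat_lit 464) (nat_lit 267)) (XT.lf (nat_lit 76) (nat_lit 436992960227) (nat_lit 0) (nat_lit 133321590267) (nat_lit 836) (nat_lit 140398052374) (nat_lit 168) (nat_lit 5) (nat_lit 167) (nat_lit 5) (nat_lit 178) (nat_lit 5) (nat_lit 470) (nat_lit 464) (nat_lit 266))) (XT.nd (nat_lit 78) (nat_lit 532) (nat_lit 0) (XT.lf (nat_lit 0) (nat_lit 343820500347) (nat_lit 760) (nat_lit 347203451173) (nat_lit 836) (nat_lit 49930551105) (nat_lit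 158) (nat_lit 5) (nat_lit 168) (nat_lit 5) (nat_lit 169) (nat_lit 5) (nat_lit 471) (nat_lit 464) (nat_lit 265)) (XT.lf (nat_lit 0) (nat_lit 60319068269) (nat_lit 532) (nat_lit 523910076029) (nat_lit 76) (nat_lit 188645625713) (nat_lit 151) (nat_lit 5) (nat_lit 158) (nat_lit 5) (nat_lit 152) (nat_lit 5) (nat_lit 472) (nat_lit 464) (nat_lit 264)))) (XT.nd (nat_lit 156) (nat_lit 304) (nat_lit 0) (XT.nd (nat_lit 78) (nat_lit 380) (nat_lit 0) (XT.lf (nat_lit 0) (nat_lit 151984672068) (nat_lit 380) (nat_lit 40936644228) (nat_lit 456) (nat_lit 613622316691) (nat_lit 146) (nat_lit 5) (nat_lit 151) (nat_lit 5) (nat_lit 152) (nat_lit 5) (nat_lit 473) (nat_lit 464) (nat_lit 263)) (XT.lf (nat_lit 0) (nat_lit 51176534349) (nat_lit 380) (nat_lit 303551753005) (nat_lit 456) (nat_lit 487247890490) (nat_lit 141) (nat_lit 5) (nat_lit 146) (nat_lit 5) (nat_lit 147) (nat_lit 5) (nat_lit 474) (nat_lit 464) (nat_lit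 262))) (XT.nd (nat_lit 78) (nat_lit 304) (nat_lit 0) (XT.lf (nat_lit 0) (nat_lit 546158442516) (nat_lit 456) (nat_lit 48204937892) (nat_lit 76) (nat_lit 285046014561) (nat_lit 141) (nat_lit 5) (nat_lit 147) (nat_lit 5) (nat_lit 142) (nat_lit 5) (nat_lit 475) (nat_lit 464) (nat_lit 261)) (XT.lf (nat_lit 0) (nat_lit 770148991578) (nat_lit 380) (nat_lit 145596076834) (nat_lit 76) (nat_lit 3229901980) (nat_lit 137) (nat_lit 5) (nat_lit 142) (nat_lit 5) (nat_lit 138) (nat_lit 5) (nat_lit 476) (nat_lit 464) (nat_lit 260))))))))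
noncomputable def xc119 : XT := (XT.nd (nat_lit 62166) (nat_lit 0) (nat_lit 304) (XT.nd (nat_lit 1248) (nat_lit 1216) (nat_lit 0) (XT.nd (nat_lit 624) (nat_lit 1444) (nat_lit 0) (XT.nd (nat_lit 312) (nat_lit 1064) (nat_lit 0) (XT.nd (nat_lit 156) (nat_lit 532) (nat_lit 0) (XT.nd (nat_lit 78) (nat_lit 304) (nat_lit 0) (XT.lf (nat_lit 0) (nat_lit 71118304347) (nat_lit 380) (nat_lit 248202859616) (nat_lit 76) (nat_lit 641226474226) (nat_lit 132) (nat_lit 5) (nat_lit 137) (nat_lit 5) (nat_lit 133) (nat_lit 5) (nat_lit 477) (nat_lit 464) (nat_lit 259)) (XT.lf (nat_lit 0) (nat_lit 321676470750) (nat_lit 380) (nat_lit 352714582983) (nat_lit 76) (nat_lit 330021453275) (nat_lit 128) (nat_lit 5) (nat_lit 133) (nat_lit 5) (nat_lit 129) (nat_lit 5) (nat_lit 478) (nat_lit 464) (nat_lit 258))) (XT.nd (nat_lit 78) (nat_lit 228) (nat_lit 0) (XT.lf (nat_lit 0) (nat_lit 594454653110) (nat_lit 304) (nat_lit 16884475521)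 (nat_lit 380) (nat_lit 439494444794) (nat_lit 124) (nat_lit 5) (nat_lit 128) (nat_lit 5) (nat_lit 129) (nat_lit 5) (nat_lit 479) (nat_lit 464) (nat_lit 257)) (XT.lf (nat_lit 0) (nat_lit 535548642688) (nat_lit 228) (nat_lit 414055488803) (nat_lit 304) (nat_lit 150092727047) (nat_lit 121) (nat_lit 5) (nat_lit 124) (nat_lit 5) (nat_lit 125) (nat_lit 5) (nat_lit 480) (nat_lit 464) (nat_lit 256)))) (XT.nd (nat_lit 156) (nat_lit 456) (nat_lit 0) (XT.nd (nat_lit 78) (nat_lit 228) (nat_lit 0) (XT.lf (nat_lit 0) (nat_lit 178022571305) (nat_lit 380) (nat_lit 672810976940) (nat_lit 76) (nat_lit 300470773847) (nat_lit 116) (nat_lit 5) (nat_lit 121) (nat_lit 5) (nat_lit 117) (nat_lit 5) (nat_lit 481) (nat_lit 464) (nat_lit 255)) (XT.lf (nat_lit 0) (nat_lit 421974899140) (nat_lit 228) (nat_lit 128782105528) (nat_lit 304) (nat_lit 654978929780) (nat_lit 113) (nat_lit 5) (nat_lit 116) (nat_lit 5) (nat_lit 117)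 (nat_lit 5) (nat_lit 482) (nat_lit 464) (nat_lit 254))) (XT.nd (nat_lit 78) (nat_lit 228) (nat_lit 0) (XT.lf (nat_lit 0) (nat_lit 365784203986) (nat_lit 228) (nat_lit 615313413292) (nat_lit 304) (nat_lit 282035087285) (nat_lit 110) (nat_lit 5) (nat_lit 113) (nat_lit 5) (nat_lit 114) (nat_lit 5) (nat_lit 483) (nat_lit 464) (nat_lit 253)) (XT.lf (nat_lit 0) (nat_lit 140664128138) (nat_lit 228) (nat_lit 1010071149205) (nat_lit 76) (nat_lit 173102459330) (nat_lit 107) (nat_lit 5) (nat_lit 110) (nat_lit 5) (nat_lit 108) (nat_lit 5) (nat_lit 484) (nat_lit 464) (nat_lit 252))))) (XT.nd (nat_lit 312) (nat_lit 608) (nat_lit 0) (XT.nd (nat_lit 156) (nat_lit 456) (nat_lit 0) (XT.nd (nat_lit 78) (nat_lit 152) (nat_lit 0) (XT.lf (nat_lit 0) (nat_lit 258069947052) (nat_lit 228) (nat_lit 359652272859) (nat_lit 304) (nat_lit 769924571403) (nat_lit 104) (nat_lit 5) (nat_lit 107) (nat_lit 5) (nat_lit 108) (nat_lit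 5) (nat_lit 485) (nat_lit 464) (nat_lit 251)) (XT.lf (nat_lit 0) (nat_lit 206652608945) (nat_lit 152) (nat_lit 955125917529) (nat_lit 228) (nat_lit 293340365480) (nat_lit 102) (nat_lit 5) (nat_lit 104) (nat_lit 5) (nat_lit 105) (nat_lit 5) (nat_lit 486) (nat_lit 464) (nat_lit 250))) (XT.nd (nat_lit 78) (nat_lit 152) (nat_lit 0) (XT.lf (nat_lit 0) (nat_lit 158336885747) (nat_lit 228) (nat_lit 84483982403) (nat_lit 304) (nat_lit 1283568305133) (nat_lit 98) (nat_lit 5) (nat_lit 101) (nat_lit 5) (nat_lit 102) (nat_lit 5) (nat_lit 487) (nat_lit 464) (nat_lit 249)) (XT.lf (nat_lit 0) (nat_lit 104678945193) (nat_lit 152) (nat_lit 744156130684) (nat_lit 228) (nat_lit 752423693672) (nat_lit 96) (nat_lit 5) (nat_lit 98) (nat_lit 5) (nat_lit 99) (nat_lit 5) (nat_lit 488) (nat_lit 464) (nat_lit 248)))) (XT.nd (nat_lit 156) (nat_lit 228) (nat_lit 0) (XT.nd (nat_lit 78) (nat_lit 228) (nat_lit 0) (XT.lf (nat_lit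 0) (nat_lit 60342857972) (nat_lit 152) (nat_lit 1472503715650) (nat_lit 228) (nat_lit 147795552227) (nat_lit 94) (nat_lit 5) (nat_lit 96) (nat_lit 5) (nat_lit 97) (nat_lit 5) (nat_lit 489) (nat_lit 464) (nat_lit 247)) (XT.lf (nat_lit 0) (nat_lit 9634579495) (nat_lit 152) (nat_lit 518593683751) (nat_lit 228) (nat_lit 1235793752364) (nat_lit 91) (nat_lit 5) (nat_lit 93) (nat_lit 5) (nat_lit 94) (nat_lit 5) (nat_lit 490) (nat_lit 464) (nat_lit 246))) (XT.nd (nat_lit 78) (nat_lit 228) (nat_lit 0) (XT.lf (nat_lit 0) (nat_lit 1289900394834) (nat_lit 228) (nat_lit 35780349679) (nat_lit 76) (nat_lit 526433185791) (nat_lit 91) (nat_lit 5) (nat_lit 94) (nat_lit 5) (nat_lit 92) (nat_lit 5) (nat_lit 491) (nat_lit 464) (nat_lit 245)) (XT.lf (nat_lit 0) (nat_lit 198549630575) (nat_lit 228) (nat_lit 77087878909) (nat_lit 76) (nat_lit 1669557402340) (nat_lit 88) (nat_lit 5) (nat_lit 91) (nat_lit 5) (nat_lit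 89) (nat_lit 5) (nat_lit 492) (nat_lit 464) (nat_lit 244)))))) (XT.nd (nat_lit 60294) (nat_lit 0) (nat_lit 6536) (XT.nd (nat_lit 312) (nat_lit 608) (nat_lit 0) (XT.nd (nat_lit 156) (nat_lit 304) (nat_lit 0) (XT.nd (nat_lit 78) (nat_lit 152) (nat_lit 0) (XT.lf (nat_lit 0) (nat_lit 1045603728940) (nat_lit 228) (nat_lit 125525180061) (nat_lit 76) (nat_lit 871876276964) (nat_lit 86) (nat_lit 5) (nat_lit 89) (nat_lit 5) (nat_lit 87) (nat_lit 5) (nat_lit 493) (nat_lit 464) (nat_lit 243)) (XT.lf (nat_lit 0) (nat_lit 1984644194044) (nat_lit 152) (nat_lit 12776398038) (nat_lit 228) (nat_lit 149369768112) (nat_lit 84) (nat_lit 5) (nat_lit 86) (nat_lit 5) (nat_lit 87) (nat_lit 5) (nat_lit 494) (nat_lit 464) (nat_lit 242))) (XT.nd (nat_lit 78) (nat_lit 152) (nat_lit 0) (XT.lf (nat_lit 0) (nat_lit 796502250466) (nat_lit 152) (nat_lit 213272889965) (nat_lit 76) (nat_lit 1245778307591) (nat_lit 82) (nat_lit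 5) (nat_lit 84) (nat_lit 5) (nat_lit 83) (nat_lit 5) (nat_lit 495) (nat_lit 464) (nat_lit 241)) (XT.lf (nat_lit 0) (nat_lit 1853329738357) (nat_lit 228) (nat_lit 254245467886) (nat_lit 76) (nat_lit 263293997555) (nat_lit 80) (nat_lit 5) (nat_lit 83) (nat_lit 5) (nat_lit 81) (nat_lit 4) (nat_lit 496) (nat_lit 464) (nat_lit 240)))) (XT.nd (nat_lit 156) (nat_lit 304) (nat_lit 0) (XT.nd (nat_lit 78) (nat_lit 152) (nat_lit 0) (XT.lf (nat_lit 0) (nat_lit 539345143254) (nat_lit 152) (nat_lit 302768506330) (nat_lit 76) (nat_lit 1650105180204) (nat_lit 78) (nat_lit 5) (nat_lit 80) (nat_lit 5) (nat_lit 79) (nat_lit 5) (nat_lit 497) (nat_lit 464) (nat_lit 239)) (XT.lf (nat_lit 0) (nat_lit 1711961093987) (nat_lit 228) (nat_lit 351023995768) (nat_lit 76) (nat_lit 557401491669) (nat_lit 76) (nat_lit 5) (nat_lit 79) (nat_lit 5) (nat_lit 77) (nat_lit 4) (nat_lit 498) (nat_lit 464) (nat_lit 238))) (XT.nd (nat_lit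 78) (nat_lit 152) (nat_lit 0) (XT.lf (nat_lit 0) (nat_lit 269894445074) (nat_lit 152) (nat_lit 399533564799) (nat_lit 76) (nat_lit 2086341143330) (nat_lit 74) (nat_lit 5) (nat_lit 76) (nat_lit 5) (nat_lit 75) (nat_lit 5) (nat_lit 499) (nat_lit 464) (nat_lit 237)) (XT.lf (nat_lit 0) (nat_lit 1569635659374) (nat_lit 228) (nat_lit 458955711455) (nat_lit 76) (nat_lit 869697224283) (nat_lit 72) (nat_lit 5) (nat_lit 75) (nat_lit 5) (nat_lit 73) (nat_lit 4) (nat_lit 500) (nat_lit 464) (nat_lit 236))))) (XT.nd (nat_lit 312) (nat_lit 380) (nat_lit 0) (XT.nd (nat_lit 156) (nat_lit 0) (nat_lit 76) (XT.nd (nat_lit 78) (nat_lit 0) (nat_lit 76) (XT.lf (nat_lit 0) (nat_lit 133778014598) (nat_lit 836) (nat_lit 84077594449) (nat_lit 836) (nat_lit 84077594449) (nat_lit 163) (nat_lit 3) (nat_lit 174) (nat_lit 3) (nat_lit 174) (nat_lit 5) (nat_lit 465) (nat_lit 465) (nat_lit 270)) (XT.lf (nat_lit 0) (nat_lit 283931486176)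 (nat_lit 760) (nat_lit 305064342749) (nat_lit 836) (nat_lit 38741573538) (nat_lit 164) (nat_lit 5) (nat_lit 174) (nat_lit 5) (nat_lit 175) (nat_lit 5) (nat_lit 466) (nat_lit 465) (nat_lit 269))) (XT.nd (nat_lit 78) (nat_lit 0) (nat_lit 76) (XT.lf (nat_lit 76) (nat_lit 204552759058) (nat_lit 0) (nat_lit 110581895592) (nat_lit 836) (nat_lit 337707539173) (nat_lit 165) (nat_lit 5) (nat_lit 164) (nat_lit 5) (nat_lit 175) (nat_lit 5) (nat_lit 467) (nat_lit 465) (nat_lit 268)) (XT.lf (nat_lit 76) (nat_lit 82351501255) (nat_lit 0) (nat_lit 279509865983) (nat_lit 836) (nat_lit 317442636725) (nat_lit 166) (nat_lit 5) (nat_lit 165) (nat_lit 5) (nat_lit 176) (nat_lit 5) (nat_lit 468) (nat_lit 465) (nat_lit 267)))) (XT.nd (nat_lit 156) (nat_lit 608) (nat_lit 0) (XT.nd (nat_lit 78) (nat_lit 0) (nat_lit 76) (XT.lf (nat_lit 0) (nat_lit 425834687604) (nat_lit 760) (nat_lit 41739930046) (nat_lit 836) (nat_lit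 239632717727) (nat_lit 166) (nat_lit 5) (nat_lit 176) (nat_lit 5) (nat_lit 177) (nat_lit 5) (nat_lit 469) (nat_lit 465) (nat_lit 266)) (XT.lf (nat_lit 0) (nat_lit 509543240191) (nat_lit 760) (nat_lit 166176209879) (nat_lit 836) (nat_lit 60892614906) (nat_lit 167) (nat_lit 5) (nat_lit 177) (nat_lit 5) (nat_lit 178) (nat_lit 5) (nat_lit 470) (nat_lit 465) (nat_lit 265))) (XT.nd (nat_lit 78) (nat_lit 684) (nat_lit 0) (XT.lf (nat_lit 76) (nat_lit 471952740183) (nat_lit 0) (nat_lit 143987385154) (nat_lit 836) (nat_lit 151629465191) (nat_lit 168) (nat_lit 5) (nat_lit 167) (nat_lit 5) (nat_lit 178) (nat_lit 5) (nat_lit 471) (nat_lit 465) (nat_lit 264)) (XT.lf (nat_lit 0) (nat_lit 371326489287) (nat_lit 760) (nat_lit 374979763196) (nat_lit 836) (nat_lit 53924591082) (nat_lit 158) (nat_lit 5) (nat_lit 168) (nat_lit 5) (nat_lit 169) (nat_lit 5) (nat_lit 472) (nat_lit 465) (nat_lit 263))))))) (XT.nd (nat_lit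 1248) (nat_lit 1672) (nat_lit 0) (XT.nd (nat_lit 624) (nat_lit 1976) (nat_lit 0) (XT.nd (nat_lit 312) (nat_lit 1292) (nat_lit 0) (XT.nd (nat_lit 156) (nat_lit 380) (nat_lit 0) (XT.nd (nat_lit 78) (nat_lit 380) (nat_lit 0) (XT.lf (nat_lit 0) (nat_lit 65144961001) (nat_lit 532) (nat_lit 565822517225) (nat_lit 76) (nat_lit 203737254997) (nat_lit 151) (nat_lit 5) (nat_lit 158) (nat_lit 5) (nat_lit 152) (nat_lit 5) (nat_lit 473) (nat_lit 465) (nat_lit 262)) (XT.lf (nat_lit 0) (nat_lit 164143794863) (nat_lit 380) (nat_lit 44211572252) (nat_lit 456) (nat_lit 662711739212) (nat_lit 146) (nat_lit 5) (nat_lit 151) (nat_lit 5) (nat_lit 152) (nat_lit 5) (nat_lit 474) (nat_lit 465) (nat_lit 261))) (XT.nd (nat_lit 78) (nat_lit 0) (nat_lit 0) (XT.lf (nat_lit 0) (nat_lit 55271007452) (nat_lit 380) (nat_lit 327835868332) (nat_lit 456) (nat_lit 526227379994) (nat_lit 141) (nat_lit 5) (nat_lit 146) (nat_lit 5)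 (nat_lit 147) (nat_lit 5) (nat_lit 475) (nat_lit 465) (nat_lit 260)) (XT.lf (nat_lit 0) (nat_lit 589851419613) (nat_lit 456) (nat_lit 52060993793) (nat_lit 76) (nat_lit 307849718056) (nat_lit 141) (nat_lit 5) (nat_lit 147) (nat_lit 5) (nat_lit 142) (nat_lit 5) (nat_lit 476) (nat_lit 465) (nat_lit 259)))) (XT.nd (nat_lit 156) (nat_lit 608) (nat_lit 0) (XT.nd (nat_lit 78) (nat_lit 380) (nat_lit 0) (XT.lf (nat_lit 0) (nat_lit 831761195940) (nat_lit 380) (nat_lit 157243424974) (nat_lit 76) (nat_lit 3488332839) (nat_lit 137) (nat_lit 5) (nat_lit 142) (nat_lit 5) (nat_lit 138) (nat_lit 5) (nat_lit 477) (nat_lit 465) (nat_lit 258)) (XT.lf (nat_lit 0) (nat_lit 76808042091) (nat_lit 380) (nat_lit 268058756012) (nat_lit 76) (nat_lit 692524637455) (nat_lit 132) (nat_lit 5) (nat_lit 137) (nat_lit 5) (nat_lit 133) (nat_lit 5) (nat_lit 478) (nat_lit 465) (nat_lit 257))) (XT.nd (nat_lit 78) (nat_lit 304) (nat_lit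 0) (XT.lf (nat_lit 0) (nat_lit 347410847453) (nat_lit 380) (nat_lit 380931419707) (nat_lit 76) (nat_lit 356423227443) (nat_lit 128) (nat_lit 5) (nat_lit 133) (nat_lit 5) (nat_lit 129) (nat_lit 5) (nat_lit 479) (nat_lit 465) (nat_lit 256)) (XT.lf (nat_lit 0) (nat_lit 642011340936) (nat_lit 304) (nat_lit 18235162766) (nat_lit 380) (nat_lit 474653743344) (nat_lit 124) (nat_lit 5) (nat_lit 128) (nat_lit 5) (nat_lit 129) (nat_lit 5) (nat_lit 480) (nat_lit 465) (nat_lit 255))))) (XT.nd (nat_lit 312) (nat_lit 912) (nat_lit 0) (XT.nd (nat_lit 156) (nat_lit 456) (nat_lit 0) (XT.nd (nat_lit 78) (nat_lit 380) (nat_lit 0) (XT.lf (nat_lit 0) (nat_lit 578392846629) (nat_lit 228) (nat_lit 447179847933) (nat_lit 304) (nat_lit 162099901019) (nat_lit 121) (nat_lit 5) (nat_lit 124) (nat_lit 5) (nat_lit 125) (nat_lit 5) (nat_lit 481) (nat_lit 465) (nat_lit 254)) (XT.lf (nat_lit 0) (nat_lit 192264601954) (nat_lit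 380) (nat_lit 726635538762) (nat_lit 76) (nat_lit 324508515885) (nat_lit 116) (nat_lit 5) (nat_lit 121) (nat_lit 5) (nat_lit 117) (nat_lit 5) (nat_lit 482) (nat_lit 465) (nat_lit 253))) (XT.nd (nat_lit 78) (nat_lit 228) (nat_lit 0) (XT.lf (nat_lit 0) (nat_lit 455733193657) (nat_lit 228) (nat_lit 139084584390) (nat_lit 304) (nat_lit 707377020496) (nat_lit 113) (nat_lit 5) (nat_lit 116) (nat_lit 5) (nat_lit 117) (nat_lit 5) (nat_lit 483) (nat_lit 465) (nat_lit 252)) (XT.lf (nat_lit 0) (nat_lit 395047238600) (nat_lit 228) (nat_lit 664538391240) (nat_lit 304) (nat_lit 304597680920) (nat_lit 110) (nat_lit 5) (nat_lit 113) (nat_lit 5) (nat_lit 114) (nat_lit 5) (nat_lit 484) (nat_lit 465) (nat_lit 251)))) (XT.nd (nat_lit 156) (nat_lit 456) (nat_lit 0) (XT.nd (nat_lit 78) (nat_lit 228) (nat_lit 0) (XT.lf (nat_lit 0) (nat_lit 151917455668) (nat_lit 228) (nat_lit 1090876540971) (nat_lit 76) (nat_lit 186950749094)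 (nat_lit 107) (nat_lit 5) (nat_lit 110) (nat_lit 5) (nat_lit 108) (nat_lit 5) (nat_lit 485) (nat_lit 465) (nat_lit 250)) (XT.lf (nat_lit 0) (nat_lit 278715829941) (nat_lit 228) (nat_lit 388424354712) (nat_lit 304) (nat_lit 831518340601) (nat_lit 104) (nat_lit 5) (nat_lit 107) (nat_lit 5) (nat_lit 108) (nat_lit 5) (nat_lit 486) (nat_lit 465) (nat_lit 249))) (XT.nd (nat_lit 78) (nat_lit 304) (nat_lit 0) (XT.lf (nat_lit 0) (nat_lit 223185099772) (nat_lit 152) (nat_lit 1031535887955) (nat_lit 228) (nat_lit 316807406618) (nat_lit 102) (nat_lit 5) (nat_lit 104) (nat_lit 5) (nat_lit 105) (nat_lit 5) (nat_lit 487) (nat_lit 465) (nat_lit 248)) (XT.lf (nat_lit 0) (nat_lit 171004112224) (nat_lit 228) (nat_lit 91242598273) (nat_lit 304) (nat_lit 1386253587996) (nat_lit 98) (nat_lit 5) (nat_lit 101) (nat_lit 5) (nat_lit 102) (nat_lit 5) (nat_lit 488) (nat_lit 465) (nat_lit 247)))))) (XT.nd (nat_lit 624) (nat_lit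 456) (nat_lit 0) (XT.nd (nat_lit 312) (nat_lit 684) (nat_lit 0) (XT.nd (nat_lit 156) (nat_lit 228) (nat_lit 0) (XT.nd (nat_lit 78) (nat_lit 152) (nat_lit 0) (XT.lf (nat_lit 0) (nat_lit 113053531189) (nat_lit 152) (nat_lit 803688516553) (nat_lit 228) (nat_lit 812617415075) (nat_lit 96) (nat_lit 5) (nat_lit 98) (nat_lit 5) (nat_lit 99) (nat_lit 5) (nat_lit 489) (nat_lit 465) (nat_lit 246)) (XT.lf (nat_lit 0) (nat_lit 65170551613) (nat_lit 152) (nat_lit 1590303907061) (nat_lit 228) (nat_lit 159619029278) (nat_lit 94) (nat_lit 5) (nat_lit 96) (nat_lit 5) (nat_lit 97) (nat_lit 5) (nat_lit 490) (nat_lit 465) (nat_lit 245))) (XT.nd (nat_lit 78) (nat_lit 0) (nat_lit 0) (XT.lf (nat_lit 0) (nat_lit 10405604463) (nat_lit 152) (nat_lit 560081073674) (nat_lit 228) (nat_lit 1334657091025) (nat_lit 91) (nat_lit 5) (nat_lit 93) (nat_lit 5) (nat_lit 94) (nat_lit 5) (nat_lit 491) (nat_lit 465) (nat_lit 244)) (XT.lf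 (nat_lit 0) (nat_lit 1393092570372) (nat_lit 228) (nat_lit 38642532589) (nat_lit 76) (nat_lit 568547934564) (nat_lit 91) (nat_lit 5) (nat_lit 94) (nat_lit 5) (nat_lit 92) (nat_lit 5) (nat_lit 492) (nat_lit 465) (nat_lit 243)))) (XT.nd (nat_lit 156) (nat_lit 304) (nat_lit 0) (XT.nd (nat_lit 78) (nat_lit 152) (nat_lit 0) (XT.lf (nat_lit 0) (nat_lit 214433740219) (nat_lit 228) (nat_lit 83254670201) (nat_lit 76) (nat_lit 1803122087386) (nat_lit 88) (nat_lit 5) (nat_lit 91) (nat_lit 5) (nat_lit 89) (nat_lit 5) (nat_lit 493) (nat_lit 465) (nat_lit 242)) (XT.lf (nat_lit 0) (nat_lit 1129252161213) (nat_lit 228) (nat_lit 135566960708) (nat_lit 76) (nat_lit 941626472220) (nat_lit 86) (nat_lit 5) (nat_lit 89) (nat_lit 5) (nat_lit 87) (nat_lit 5) (nat_lit 494) (nat_lit 465) (nat_lit 241))) (XT.nd (nat_lit 78) (nat_lit 152) (nat_lit 0) (XT.lf (nat_lit 0) (nat_lit 2143415953166) (nat_lit 152) (nat_lit 13798413808)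 (nat_lit 228) (nat_lit 161319215655) (nat_lit 84) (nat_lit 5) (nat_lit 86) (nat_lit 5) (nat_lit 87) (nat_lit 5) (nat_lit 495) (nat_lit 465) (nat_lit 240)) (XT.lf (nat_lit 0) (nat_lit 860222555402) (nat_lit 152) (nat_lit 230334498481) (nat_lit 76) (nat_lit 1345440663734) (nat_lit 82) (nat_lit 5) (nat_lit 84) (nat_lit 5) (nat_lit 83) (nat_lit 5) (nat_lit 496) (nat_lit 465) (nat_lit 239))))) (XT.nd (nat_lit 60138) (nat_lit 0) (nat_lit 6688) (XT.nd (nat_lit 156) (nat_lit 152) (nat_lit 0) (XT.nd (nat_lit 78) (nat_lit 152) (nat_lit 0) (XT.lf (nat_lit 0) (nat_lit 2001596237865) (nat_lit 228) (nat_lit 274584887829) (nat_lit 76) (nat_lit 284357608383) (nat_lit 80) (nat_lit 5) (nat_lit 83) (nat_lit 5) (nat_lit 81) (nat_lit 4) (nat_lit 497) (nat_lit 465) (nat_lit 238)) (XT.lf (nat_lit 0) (nat_lit 582492871365) (nat_lit 152) (nat_lit 326989774941) (nat_lit 76) (nat_lit 1782113684031) (nat_lit 78) (nat_lit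 5) (nat_lit 80) (nat_lit 5) (nat_lit 79) (nat_lit 5) (nat_lit 498) (nat_lit 465) (nat_lit 237))) (XT.nd (nat_lit 59904) (nat_lit 0) (nat_lit 6612) (XT.lf (nat_lit 0) (nat_lit 1848918094109) (nat_lit 228) (nat_lit 379105708610) (nat_lit 76) (nat_lit 601993699586) (nat_lit 76) (nat_lit 5) (nat_lit 79) (nat_lit 5) (nat_lit 77) (nat_lit 4) (nat_lit 499) (nat_lit 465) (nat_lit 236)) (XT.lf (nat_lit 0) (nat_lit 144480526392) (nat_lit 836) (nat_lit 90803659916) (nat_lit 836) (nat_lit 90803659916) (nat_lit 163) (nat_lit 3) (nat_lit 174) (nat_lit 3) (nat_lit 174) (nat_lit 5) (nat_lit 466) (nat_lit 466) (nat_lit 268)))) (XT.nd (nat_lit 156) (nat_lit 0) (nat_lit 76) (XT.nd (nat_lit 78) (nat_lit 0) (nat_lit 0) (XT.lf (nat_lit 0) (nat_lit 306646506826) (nat_lit 760) (nat_lit 329469189385) (nat_lit 836) (nat_lit 41840673322) (nat_lit 164) (nat_lit 5) (nat_lit 174) (nat_lit 5) (nat_lit 175) (nat_lit 5) (nat_lit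 467) (nat_lit 466) (nat_lit 267)) (XT.lf (nat_lit 76) (nat_lit 220917267494) (nat_lit 0) (nat_lit 119428628608) (nat_lit 836) (nat_lit 364723649736) (nat_lit 165) (nat_lit 5) (nat_lit 164) (nat_lit 5) (nat_lit 175) (nat_lit 5) (nat_lit 468) (nat_lit 466) (nat_lit 266))) (XT.nd (nat_lit 78) (nat_lit 0) (nat_lit 76) (XT.lf (nat_lit 76) (nat_lit 88939921741) (nat_lit 0) (nat_lit 301870791278) (nat_lit 836) (nat_lit 342837589408) (nat_lit 166) (nat_lit 5) (nat_lit 165) (nat_lit 5) (nat_lit 176) (nat_lit 5) (nat_lit 469) (nat_lit 466) (nat_lit 265)) (XT.lf (nat_lit 0) (nat_lit 459901864722) (nat_lit 760) (nat_lit 45078824114) (nat_lit 836) (nat_lit 258803213235) (nat_lit 166) (nat_lit 5) (nat_lit 176) (nat_lit 5) (nat_lit 177) (nat_lit 5) (nat_lit 470) (nat_lit 466) (nat_lit 264))))))))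
noncomputable def xc120 : XT := (XT.nd (nat_lit 62322) (nat_lit 0) (nat_lit 152) (XT.nd (nat_lit 1170) (nat_lit 2432) (nat_lit 0) (XT.nd (nat_lit 546) (nat_lit 2356) (nat_lit 0) (XT.nd (nat_lit 234) (nat_lit 1292) (nat_lit 0) (XT.nd (nat_lit 78) (nat_lit 684) (nat_lit 0) (XT.lf (nat_lit 0) (nat_lit 550307074818) (nat_lit 760) (nat_lit 179469999119) (nat_lit 836) (nat_lit 65763937438) (nat_lit 167) (nat_lit 5) (nat_lit 177) (nat_lit 5) (nat_lit 178) (nat_lit 5) (nat_lit 471) (nat_lit 466) (nat_lit 263)) (XT.nd (nat_lit 78) (nat_lit 684) (nat_lit 0) (XT.lf (nat_lit 76) (nat_lit 509709253582) (nat_lit 0) (nat_lit 155506433978) (nat_lit 836) (nat_lit 163759452574) (nat_lit 168) (nat_lit 5) (nat_lit 167) (nat_lit 5) (nat_lit 178) (nat_lit 5) (nat_lit 472) (nat_lit 466) (nat_lit 262)) (XT.lf (nat_lit 0) (nat_lit 401032907566) (nat_lit 760) (nat_lit 404978175055) (nat_lit 836) (nat_lit 58238211908)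 (nat_lit 158) (nat_lit 5) (nat_lit 168) (nat_lit 5) (nat_lit 169) (nat_lit 5) (nat_lit 473) (nat_lit 466) (nat_lit 261)))) (XT.nd (nat_lit 156) (nat_lit 380) (nat_lit 0) (XT.nd (nat_lit 78) (nat_lit 380) (nat_lit 0) (XT.lf (nat_lit 0) (nat_lit 70356872757) (nat_lit 532) (nat_lit 611088005771) (nat_lit 76) (nat_lit 220036217588) (nat_lit 151) (nat_lit 5) (nat_lit 158) (nat_lit 5) (nat_lit 152) (nat_lit 5) (nat_lit 474) (nat_lit 466) (nat_lit 260)) (XT.lf (nat_lit 0) (nat_lit 177275597688) (nat_lit 380) (nat_lit 47748495019) (nat_lit 456) (nat_lit 715728367295) (nat_lit 146) (nat_lit 5) (nat_lit 151) (nat_lit 5) (nat_lit 152) (nat_lit 5) (nat_lit 475) (nat_lit 466) (nat_lit 259))) (XT.nd (nat_lit 78) (nat_lit 0) (nat_lit 0) (XT.lf (nat_lit 0) (nat_lit 59692988422) (nat_lit 380) (nat_lit 354062716439) (nat_lit 456) (nat_lit 568325277410) (nat_lit 141) (nat_lit 5) (nat_lit 146) (nat_lit 5) (nat_lit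 147) (nat_lit 5) (nat_lit 476) (nat_lit 466) (nat_lit 258)) (XT.lf (nat_lit 0) (nat_lit 637039791837) (nat_lit 456) (nat_lit 56225582548) (nat_lit 76) (nat_lit 332477714644) (nat_lit 141) (nat_lit 5) (nat_lit 147) (nat_lit 5) (nat_lit 142) (nat_lit 5) (nat_lit 477) (nat_lit 466) (nat_lit 257))))) (XT.nd (nat_lit 312) (nat_lit 1064) (nat_lit 0) (XT.nd (nat_lit 156) (nat_lit 608) (nat_lit 0) (XT.nd (nat_lit 78) (nat_lit 380) (nat_lit 0) (XT.lf (nat_lit 0) (nat_lit 898302335988) (nat_lit 380) (nat_lit 169822609186) (nat_lit 76) (nat_lit 3767432645) (nat_lit 137) (nat_lit 5) (nat_lit 142) (nat_lit 5) (nat_lit 138) (nat_lit 5) (nat_lit 478) (nat_lit 466) (nat_lit 256)) (XT.lf (nat_lit 0) (nat_lit 82952919852) (nat_lit 380) (nat_lit 289503171537) (nat_lit 76) (nat_lit 747926647281) (nat_lit 132) (nat_lit 5) (nat_lit 137) (nat_lit 5) (nat_lit 133) (nat_lit 5) (nat_lit 479) (nat_lit 466) (nat_lit 255)))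 (XT.nd (nat_lit 78) (nat_lit 304) (nat_lit 0) (XT.lf (nat_lit 0) (nat_lit 375203937336) (nat_lit 380) (nat_lit 411405650434) (nat_lit 76) (nat_lit 384937135283) (nat_lit 128) (nat_lit 5) (nat_lit 133) (nat_lit 5) (nat_lit 129) (nat_lit 5) (nat_lit 480) (nat_lit 466) (nat_lit 254)) (XT.lf (nat_lit 0) (nat_lit 693372518768) (nat_lit 304) (nat_lit 19693915091) (nat_lit 380) (nat_lit 512625822446) (nat_lit 124) (nat_lit 5) (nat_lit 128) (nat_lit 5) (nat_lit 129) (nat_lit 5) (nat_lit 481) (nat_lit 466) (nat_lit 253)))) (XT.nd (nat_lit 156) (nat_lit 456) (nat_lit 0) (XT.nd (nat_lit 78) (nat_lit 380) (nat_lit 0) (XT.lf (nat_lit 0) (nat_lit 624664542300) (nat_lit 228) (nat_lit 482954167203) (nat_lit 304) (nat_lit 175067683744) (nat_lit 121) (nat_lit 5) (nat_lit 124) (nat_lit 5) (nat_lit 125) (nat_lit 5) (nat_lit 482) (nat_lit 466) (nat_lit 252)) (XT.lf (nat_lit 0) (nat_lit 207645962964) (nat_lit 380)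 (nat_lit 784766110658) (nat_lit 76) (nat_lit 350469265855) (nat_lit 116) (nat_lit 5) (nat_lit 121) (nat_lit 5) (nat_lit 117) (nat_lit 5) (nat_lit 483) (nat_lit 466) (nat_lit 251))) (XT.nd (nat_lit 78) (nat_lit 228) (nat_lit 0) (XT.lf (nat_lit 0) (nat_lit 492192108568) (nat_lit 228) (nat_lit 150211274341) (nat_lit 304) (nat_lit 763966990378) (nat_lit 113) (nat_lit 5) (nat_lit 116) (nat_lit 5) (nat_lit 117) (nat_lit 5) (nat_lit 484) (nat_lit 466) (nat_lit 250)) (XT.lf (nat_lit 0) (nat_lit 426651273429) (nat_lit 228) (nat_lit 717701380992) (nat_lit 304) (nat_lit 328965312481) (nat_lit 110) (nat_lit 5) (nat_lit 113) (nat_lit 5) (nat_lit 114) (nat_lit 5) (nat_lit 485) (nat_lit 466) (nat_lit 249)))))) (XT.nd (nat_lit 624) (nat_lit 988) (nat_lit 0) (XT.nd (nat_lit 312) (nat_lit 532) (nat_lit 0) (XT.nd (nat_lit 156) (nat_lit 456) (nat_lit 0) (XT.nd (nat_lit 78) (nat_lit 228) (nat_lit 0) (XT.lf (nat_lit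 0) (nat_lit 164071021257) (nat_lit 228) (nat_lit 1178146406902) (nat_lit 76) (nat_lit 201906888769) (nat_lit 107) (nat_lit 5) (nat_lit 110) (nat_lit 5) (nat_lit 108) (nat_lit 5) (nat_lit 486) (nat_lit 466) (nat_lit 248)) (XT.lf (nat_lit 0) (nat_lit 301013342499) (nat_lit 228) (nat_lit 419498217376) (nat_lit 304) (nat_lit 898039639369) (nat_lit 104) (nat_lit 5) (nat_lit 107) (nat_lit 5) (nat_lit 108) (nat_lit 5) (nat_lit 487) (nat_lit 466) (nat_lit 247))) (XT.nd (nat_lit 78) (nat_lit 304) (nat_lit 0) (XT.lf (nat_lit 0) (nat_lit 241040149620) (nat_lit 152) (nat_lit 1114058670706) (nat_lit 228) (nat_lit 342151837882) (nat_lit 102) (nat_lit 5) (nat_lit 104) (nat_lit 5) (nat_lit 105) (nat_lit 5) (nat_lit 488) (nat_lit 466) (nat_lit 246)) (XT.lf (nat_lit 0) (nat_lit 184684677499) (nat_lit 228) (nat_lit 98541918068) (nat_lit 304) (nat_lit 1497153719389) (nat_lit 98) (nat_lit 5) (nat_lit 101) (nat_lit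 5) (nat_lit 102) (nat_lit 5) (nat_lit 489) (nat_lit 466) (nat_lit 245)))) (XT.nd (nat_lit 156) (nat_lit 228) (nat_lit 0) (XT.nd (nat_lit 78) (nat_lit 152) (nat_lit 0) (XT.lf (nat_lit 0) (nat_lit 122098045492) (nat_lit 152) (nat_lit 867983508212) (nat_lit 228) (nat_lit 877626659027) (nat_lit 96) (nat_lit 5) (nat_lit 98) (nat_lit 5) (nat_lit 99) (nat_lit 5) (nat_lit 490) (nat_lit 466) (nat_lit 244)) (XT.lf (nat_lit 0) (nat_lit 70384422940) (nat_lit 152) (nat_lit 1717528128885) (nat_lit 228) (nat_lit 172388408336) (nat_lit 94) (nat_lit 5) (nat_lit 96) (nat_lit 5) (nat_lit 97) (nat_lit 5) (nat_lit 491) (nat_lit 466) (nat_lit 243))) (XT.nd (nat_lit 78) (nat_lit 0) (nat_lit 0) (XT.lf (nat_lit 0) (nat_lit 11238274535) (nat_lit 152) (nat_lit 604887469739) (nat_lit 228) (nat_lit 1441429519823) (nat_lit 91) (nat_lit 5) (nat_lit 93) (nat_lit 5) (nat_lit 94) (nat_lit 5) (nat_lit 492) (nat_lit 466) (nat_lit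 242)) (XT.lf (nat_lit 0) (nat_lit 1504540099418) (nat_lit 228) (nat_lit 41733725093) (nat_lit 76) (nat_lit 614031849842) (nat_lit 91) (nat_lit 5) (nat_lit 94) (nat_lit 5) (nat_lit 92) (nat_lit 5) (nat_lit 493) (nat_lit 466) (nat_lit 241))))) (XT.nd (nat_lit 312) (nat_lit 304) (nat_lit 0) (XT.nd (nat_lit 156) (nat_lit 304) (nat_lit 0) (XT.nd (nat_lit 78) (nat_lit 152) (nat_lit 0) (XT.lf (nat_lit 0) (nat_lit 231588558776) (nat_lit 228) (nat_lit 89914838896) (nat_lit 76) (nat_lit 1947371933988) (nat_lit 88) (nat_lit 5) (nat_lit 91) (nat_lit 5) (nat_lit 89) (nat_lit 5) (nat_lit 494) (nat_lit 466) (nat_lit 240)) (XT.lf (nat_lit 0) (nat_lit 1219592448957) (nat_lit 228) (nat_lit 146412117155) (nat_lit 76) (nat_lit 1016956669814) (nat_lit 86) (nat_lit 5) (nat_lit 89) (nat_lit 5) (nat_lit 87) (nat_lit 5) (nat_lit 495) (nat_lit 466) (nat_lit 239))) (XT.nd (nat_lit 78) (nat_lit 152) (nat_lit 0) (XT.lf (nat_lit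 0) (nat_lit 2314889421120) (nat_lit 152) (nat_lit 14902204546) (nat_lit 228) (nat_lit 174224638105) (nat_lit 84) (nat_lit 5) (nat_lit 86) (nat_lit 5) (nat_lit 87) (nat_lit 5) (nat_lit 496) (nat_lit 466) (nat_lit 238)) (XT.lf (nat_lit 0) (nat_lit 929040466914) (nat_lit 152) (nat_lit 248761067445) (nat_lit 76) (nat_lit 1453075995310) (nat_lit 82) (nat_lit 5) (nat_lit 84) (nat_lit 5) (nat_lit 83) (nat_lit 5) (nat_lit 497) (nat_lit 466) (nat_lit 237)))) (XT.nd (nat_lit 60060) (nat_lit 0) (nat_lit 6460) (XT.nd (nat_lit 78) (nat_lit 152) (nat_lit 0) (XT.lf (nat_lit 0) (nat_lit 2161724040153) (nat_lit 228) (nat_lit 296551492395) (nat_lit 76) (nat_lit 307106295091) (nat_lit 80) (nat_lit 5) (nat_lit 83) (nat_lit 5) (nat_lit 81) (nat_lit 4) (nat_lit 498) (nat_lit 466) (nat_lit 236)) (XT.lf (nat_lit 0) (nat_lit 629092401084) (nat_lit 152) (nat_lit 353148775270) (nat_lit 76) (nat_lit 1924682855408) (nat_lit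 78) (nat_lit 5) (nat_lit 80) (nat_lit 5) (nat_lit 79) (nat_lit 5) (nat_lit 499) (nat_lit 466) (nat_lit 235))) (XT.nd (nat_lit 78) (nat_lit 0) (nat_lit 76) (XT.lf (nat_lit 0) (nat_lit 156039200522) (nat_lit 836) (nat_lit 98067830891) (nat_lit 836) (nat_lit 98067830891) (nat_lit 163) (nat_lit 3) (nat_lit 174) (nat_lit 3) (nat_lit 174) (nat_lit 5) (nat_lit 467) (nat_lit 467) (nat_lit 266)) (XT.lf (nat_lit 0) (nat_lit 331178657547) (nat_lit 760) (nat_lit 355826466663) (nat_lit 836) (nat_lit 45187733344) (nat_lit 164) (nat_lit 5) (nat_lit 174) (nat_lit 5) (nat_lit 175) (nat_lit 5) (nat_lit 468) (nat_lit 467) (nat_lit 265))))))) (XT.nd (nat_lit 1248) (nat_lit 2736) (nat_lit 0) (XT.nd (nat_lit 624) (nat_lit 2280) (nat_lit 0) (XT.nd (nat_lit 312) (nat_lit 1368) (nat_lit 0) (XT.nd (nat_lit 156) (nat_lit 0) (nat_lit 152) (XT.nd (nat_lit 78) (nat_lit 0) (nat_lit 76) (XT.lf (nat_lit 76) (nat_lit 238590895560)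 (nat_lit 0) (nat_lit 128983074392) (nat_lit 836) (nat_lit 393901119415) (nat_lit 165) (nat_lit 5) (nat_lit 164) (nat_lit 5) (nat_lit 175) (nat_lit 5) (nat_lit 469) (nat_lit 467) (nat_lit 264)) (XT.lf (nat_lit 76) (nat_lit 96055373013) (nat_lit 0) (nat_lit 326020571192) (nat_lit 836) (nat_lit 370264203680) (nat_lit 166) (nat_lit 5) (nat_lit 165) (nat_lit 5) (nat_lit 176) (nat_lit 5) (nat_lit 470) (nat_lit 467) (nat_lit 263))) (XT.nd (nat_lit 78) (nat_lit 0) (nat_lit 76) (XT.lf (nat_lit 0) (nat_lit 496694358644) (nat_lit 760) (nat_lit 48684872553) (nat_lit 836) (nat_lit 279507365776) (nat_lit 166) (nat_lit 5) (nat_lit 176) (nat_lit 5) (nat_lit 177) (nat_lit 5) (nat_lit 471) (nat_lit 467) (nat_lit 262)) (XT.lf (nat_lit 0) (nat_lit 594331962659) (nat_lit 760) (nat_lit 193827335374) (nat_lit 836) (nat_lit 71024978136) (nat_lit 167) (nat_lit 5) (nat_lit 177) (nat_lit 5) (nat_lit 178) (nat_lit 5) (nat_lit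 472) (nat_lit 467) (nat_lit 261)))) (XT.nd (nat_lit 156) (nat_lit 912) (nat_lit 0) (XT.nd (nat_lit 78) (nat_lit 684) (nat_lit 0) (XT.lf (nat_lit 76) (nat_lit 550486246084) (nat_lit 0) (nat_lit 167946998432) (nat_lit 836) (nat_lit 176859891708) (nat_lit 168) (nat_lit 5) (nat_lit 167) (nat_lit 5) (nat_lit 178) (nat_lit 5) (nat_lit 473) (nat_lit 467) (nat_lit 260)) (XT.lf (nat_lit 0) (nat_lit 433115796632) (nat_lit 760) (nat_lit 437376455469) (nat_lit 836) (nat_lit 62896971826) (nat_lit 158) (nat_lit 5) (nat_lit 168) (nat_lit 5) (nat_lit 169) (nat_lit 5) (nat_lit 474) (nat_lit 467) (nat_lit 259))) (XT.nd (nat_lit 78) (nat_lit 380) (nat_lit 0) (XT.lf (nat_lit 0) (nat_lit 75985692532) (nat_lit 532) (nat_lit 659974778030) (nat_lit 76) (nat_lit 237639099727) (nat_lit 151) (nat_lit 5) (nat_lit 158) (nat_lit 5) (nat_lit 152) (nat_lit 5) (nat_lit 475) (nat_lit 467) (nat_lit 258)) (XT.lf (nat_lit 0) (nat_lit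 191457902050) (nat_lit 380) (nat_lit 51568372038) (nat_lit 456) (nat_lit 772986370000) (nat_lit 146) (nat_lit 5) (nat_lit 151) (nat_lit 5) (nat_lit 152) (nat_lit 5) (nat_lit 476) (nat_lit 467) (nat_lit 257))))) (XT.nd (nat_lit 312) (nat_lit 1216) (nat_lit 0) (XT.nd (nat_lit 156) (nat_lit 684) (nat_lit 0) (XT.nd (nat_lit 78) (nat_lit 0) (nat_lit 0) (XT.lf (nat_lit 0) (nat_lit 64468685018) (nat_lit 380) (nat_lit 382387715442) (nat_lit 456) (nat_lit 613791048417) (nat_lit 141) (nat_lit 5) (nat_lit 146) (nat_lit 5) (nat_lit 147) (nat_lit 5) (nat_lit 477) (nat_lit 467) (nat_lit 256)) (XT.lf (nat_lit 0) (nat_lit 688003196940) (nat_lit 456) (nat_lit 60723379881) (nat_lit 76) (nat_lit 359075948229) (nat_lit 141) (nat_lit 5) (nat_lit 147) (nat_lit 5) (nat_lit 142) (nat_lit 5) (nat_lit 478) (nat_lit 467) (nat_lit 255))) (XT.nd (nat_lit 78) (nat_lit 380) (nat_lit 0) (XT.lf (nat_lit 0) (nat_lit 970166732378)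 (nat_lit 380) (nat_lit 183408169476) (nat_lit 76) (nat_lit 4068855702) (nat_lit 137) (nat_lit 5) (nat_lit 142) (nat_lit 5) (nat_lit 138) (nat_lit 5) (nat_lit 479) (nat_lit 467) (nat_lit 254)) (XT.lf (nat_lit 0) (nat_lit 89589354394) (nat_lit 380) (nat_lit 312663180956) (nat_lit 76) (nat_lit 807760812354) (nat_lit 132) (nat_lit 5) (nat_lit 137) (nat_lit 5) (nat_lit 133) (nat_lit 5) (nat_lit 480) (nat_lit 467) (nat_lit 253)))) (XT.nd (nat_lit 156) (nat_lit 608) (nat_lit 0) (XT.nd (nat_lit 78) (nat_lit 304) (nat_lit 0) (XT.lf (nat_lit 0) (nat_lit 405220442727) (nat_lit 380) (nat_lit 444317859971) (nat_lit 76) (nat_lit 415732148667) (nat_lit 128) (nat_lit 5) (nat_lit 133) (nat_lit 5) (nat_lit 129) (nat_lit 5) (nat_lit 481) (nat_lit 467) (nat_lit 252)) (XT.lf (nat_lit 0) (nat_lit 748842552228) (nat_lit 304) (nat_lit 21269376261) (nat_lit 380) (nat_lit 553635699313) (nat_lit 124) (nat_lit 5) (nat_lit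 128) (nat_lit 5) (nat_lit 129) (nat_lit 5) (nat_lit 482) (nat_lit 467) (nat_lit 251))) (XT.nd (nat_lit 78) (nat_lit 380) (nat_lit 0) (XT.lf (nat_lit 0) (nat_lit 674637935400) (nat_lit 228) (nat_lit 521590441797) (nat_lit 304) (nat_lit 189072918955) (nat_lit 121) (nat_lit 5) (nat_lit 124) (nat_lit 5) (nat_lit 125) (nat_lit 5) (nat_lit 483) (nat_lit 467) (nat_lit 250)) (XT.lf (nat_lit 0) (nat_lit 224257805342) (nat_lit 380) (nat_lit 847547166996) (nat_lit 76) (nat_lit 378506866022) (nat_lit 116) (nat_lit 5) (nat_lit 121) (nat_lit 5) (nat_lit 117) (nat_lit 5) (nat_lit 484) (nat_lit 467) (nat_lit 249)))))) (XT.nd (nat_lit 624) (nat_lit 1064) (nat_lit 0) (XT.nd (nat_lit 312) (nat_lit 760) (nat_lit 0) (XT.nd (nat_lit 156) (nat_lit 456) (nat_lit 0) (XT.nd (nat_lit 78) (nat_lit 228) (nat_lit 0) (XT.lf (nat_lit 0) (nat_lit 531567699663) (nat_lit 228) (nat_lit 162228110445) (nat_lit 304) (nat_lit 825084185206)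 (nat_lit 113) (nat_lit 5) (nat_lit 116) (nat_lit 5) (nat_lit 117) (nat_lit 5) (nat_lit 485) (nat_lit 467) (nat_lit 248)) (XT.lf (nat_lit 0) (nat_lit 460783594559) (nat_lit 228) (nat_lit 775117421559) (nat_lit 304) (nat_lit 355282380662) (nat_lit 110) (nat_lit 5) (nat_lit 113) (nat_lit 5) (nat_lit 114) (nat_lit 5) (nat_lit 486) (nat_lit 467) (nat_lit 247))) (XT.nd (nat_lit 78) (nat_lit 228) (nat_lit 0) (XT.lf (nat_lit 0) (nat_lit 177196847964) (nat_lit 228) (nat_lit 1272397898820) (nat_lit 76) (nat_lit 218059508242) (nat_lit 107) (nat_lit 5) (nat_lit 110) (nat_lit 5) (nat_lit 108) (nat_lit 5) (nat_lit 487) (nat_lit 467) (nat_lit 246)) (XT.lf (nat_lit 0) (nat_lit 325094620945) (nat_lit 228) (nat_lit 453058001281) (nat_lit 304) (nat_lit 969882666075) (nat_lit 104) (nat_lit 5) (nat_lit 107) (nat_lit 5) (nat_lit 108) (nat_lit 5) (nat_lit 488) (nat_lit 467) (nat_lit 245)))) (XT.nd (nat_lit 156) (nat_lit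 304) (nat_lit 0) (XT.nd (nat_lit 78) (nat_lit 304) (nat_lit 0) (XT.lf (nat_lit 0) (nat_lit 260323568950) (nat_lit 152) (nat_lit 1203183288672) (nat_lit 228) (nat_lit 369523846654) (nat_lit 102) (nat_lit 5) (nat_lit 104) (nat_lit 5) (nat_lit 105) (nat_lit 5) (nat_lit 489) (nat_lit 467) (nat_lit 244)) (XT.lf (nat_lit 0) (nat_lit 199459654286) (nat_lit 228) (nat_lit 106425196010) (nat_lit 304) (nat_lit 1616925883498) (nat_lit 98) (nat_lit 5) (nat_lit 101) (nat_lit 5) (nat_lit 102) (nat_lit 5) (nat_lit 490) (nat_lit 467) (nat_lit 243))) (XT.nd (nat_lit 78) (nat_lit 152) (nat_lit 0) (XT.lf (nat_lit 0) (nat_lit 131866087869) (nat_lit 152) (nat_lit 937422111996) (nat_lit 228) (nat_lit 947836663787) (nat_lit 96) (nat_lit 5) (nat_lit 98) (nat_lit 5) (nat_lit 99) (nat_lit 5) (nat_lit 491) (nat_lit 467) (nat_lit 242)) (XT.lf (nat_lit 0) (nat_lit 76015371561) (nat_lit 152) (nat_lit 1854930301400) (nat_lit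 228) (nat_lit 186179358160) (nat_lit 94) (nat_lit 5) (nat_lit 96) (nat_lit 5) (nat_lit 97) (nat_lit 5) (nat_lit 492) (nat_lit 467) (nat_lit 241))))) (XT.nd (nat_lit 312) (nat_lit 456) (nat_lit 0) (XT.nd (nat_lit 156) (nat_lit 380) (nat_lit 0) (XT.nd (nat_lit 78) (nat_lit 0) (nat_lit 0) (XT.lf (nat_lit 0) (nat_lit 12137526583) (nat_lit 152) (nat_lit 653278390305) (nat_lit 228) (nat_lit 1556743762680) (nat_lit 91) (nat_lit 5) (nat_lit 93) (nat_lit 5) (nat_lit 94) (nat_lit 5) (nat_lit 493) (nat_lit 467) (nat_lit 240)) (XT.lf (nat_lit 0) (nat_lit 1624903413180) (nat_lit 228) (nat_lit 45072242971) (nat_lit 76) (nat_lit 663154466857) (nat_lit 91) (nat_lit 5) (nat_lit 94) (nat_lit 5) (nat_lit 92) (nat_lit 5) (nat_lit 494) (nat_lit 467) (nat_lit 239))) (XT.nd (nat_lit 78) (nat_lit 152) (nat_lit 0) (XT.lf (nat_lit 0) (nat_lit 250115745792) (nat_lit 228) (nat_lit 97107850320) (nat_lit 76) (nat_lit 2103161756961)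 (nat_lit 88) (nat_lit 5) (nat_lit 91) (nat_lit 5) (nat_lit 89) (nat_lit 5) (nat_lit 495) (nat_lit 467) (nat_lit 238)) (XT.lf (nat_lit 0) (nat_lit 1317159943337) (nat_lit 228) (nat_lit 158124914709) (nat_lit 76) (nat_lit 1098313271830) (nat_lit 86) (nat_lit 5) (nat_lit 89) (nat_lit 5) (nat_lit 87) (nat_lit 5) (nat_lit 496) (nat_lit 467) (nat_lit 237)))) (XT.nd (nat_lit 156) (nat_lit 152) (nat_lit 0) (XT.nd (nat_lit 78) (nat_lit 152) (nat_lit 0) (XT.lf (nat_lit 0) (nat_lit 2500080739161) (nat_lit 152) (nat_lit 16094310293) (nat_lit 228) (nat_lit 188162510728) (nat_lit 84) (nat_lit 5) (nat_lit 86) (nat_lit 5) (nat_lit 87) (nat_lit 5) (nat_lit 497) (nat_lit 467) (nat_lit 236)) (XT.lf (nat_lit 0) (nat_lit 1003363796071) (nat_lit 152) (nat_lit 268661789163) (nat_lit 76) (nat_lit 1569322142217) (nat_lit 82) (nat_lit 5) (nat_lit 84) (nat_lit 5) (nat_lit 83) (nat_lit 5) (nat_lit 498) (nat_lit 467) (nat_lit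 235))) (XT.nd (nat_lit 60060) (nat_lit 0) (nat_lit 6308) (XT.lf (nat_lit 0) (nat_lit 2334662051892) (nat_lit 228) (nat_lit 320275451926) (nat_lit 76) (nat_lit 331674865603) (nat_lit 80) (nat_lit 5) (nat_lit 83) (nat_lit 5) (nat_lit 81) (nat_lit 4) (nat_lit 499) (nat_lit 467) (nat_lit 234)) (XT.lf (nat_lit 0) (nat_lit 168522535481) (nat_lit 836) (nat_lit 105913152923) (nat_lit 836) (nat_lit 105913152923) (nat_lit 163) (nat_lit 3) (nat_lit 174) (nat_lit 3) (nat_lit 174) (nat_lit 5) (nat_lit 468) (nat_lit 468) (nat_lit 264))))))))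
noncomputable def xc121 : XT := (XT.nd (nat_lit 62634) (nat_lit 0) (nat_lit 152) (XT.nd (nat_lit 1248) (nat_lit 2964) (nat_lit 0) (XT.nd (nat_lit 624) (nat_lit 2280) (nat_lit 0) (XT.nd (nat_lit 312) (nat_lit 988) (nat_lit 0) (XT.nd (nat_lit 156) (nat_lit 0) (nat_lit 76) (XT.nd (nat_lit 78) (nat_lit 0) (nat_lit 0) (XT.lf (nat_lit 0) (nat_lit 357673318957) (nat_lit 760) (nat_lit 384292362911) (nat_lit 836) (nat_lit 48802585822) (nat_lit 164) (nat_lit 5) (nat_lit 174) (nat_lit 5) (nat_lit 175) (nat_lit 5) (nat_lit 469) (nat_lit 468) (nat_lit 263)) (XT.lf (nat_lit 76) (nat_lit 257678378682) (nat_lit 0) (nat_lit 139301853655) (nat_lit 836) (nat_lit 425412846914) (nat_lit 165) (nat_lit 5) (nat_lit 164) (nat_lit 5) (nat_lit 175) (nat_lit 5) (nat_lit 470) (nat_lit 468) (nat_lit 262))) (XT.nd (nat_lit 78) (nat_lit 0) (nat_lit 76) (XT.lf (nat_lit 76) (nat_lit 103740023646) (nat_lit 0) (nat_lit 352102316863)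 (nat_lit 836) (nat_lit 399885003143) (nat_lit 166) (nat_lit 5) (nat_lit 165) (nat_lit 5) (nat_lit 176) (nat_lit 5) (nat_lit 471) (nat_lit 468) (nat_lit 261)) (XT.lf (nat_lit 0) (nat_lit 536430202898) (nat_lit 760) (nat_lit 52579441602) (nat_lit 836) (nat_lit 301867865430) (nat_lit 166) (nat_lit 5) (nat_lit 176) (nat_lit 5) (nat_lit 177) (nat_lit 5) (nat_lit 472) (nat_lit 468) (nat_lit 260)))) (XT.nd (nat_lit 156) (nat_lit 1216) (nat_lit 0) (XT.nd (nat_lit 78) (nat_lit 0) (nat_lit 0) (XT.lf (nat_lit 0) (nat_lit 641878795610) (nat_lit 760) (nat_lit 209333296145) (nat_lit 836) (nat_lit 76706912689) (nat_lit 167) (nat_lit 5) (nat_lit 177) (nat_lit 5) (nat_lit 178) (nat_lit 5) (nat_lit 473) (nat_lit 468) (nat_lit 259)) (XT.lf (nat_lit 76) (nat_lit 594525362005) (nat_lit 0) (nat_lit 181382800947) (nat_lit 836) (nat_lit 191008411207) (nat_lit 168) (nat_lit 5) (nat_lit 167) (nat_lit 5) (nat_lit 178)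 (nat_lit 5) (nat_lit 474) (nat_lit 468) (nat_lit 258))) (XT.nd (nat_lit 78) (nat_lit 532) (nat_lit 0) (XT.lf (nat_lit 0) (nat_lit 467765280236) (nat_lit 760) (nat_lit 472366594548) (nat_lit 836) (nat_lit 67928474913) (nat_lit 158) (nat_lit 5) (nat_lit 168) (nat_lit 5) (nat_lit 169) (nat_lit 5) (nat_lit 475) (nat_lit 468) (nat_lit 257)) (XT.lf (nat_lit 0) (nat_lit 82064779378) (nat_lit 532) (nat_lit 712772530332) (nat_lit 76) (nat_lit 256650214615) (nat_lit 151) (nat_lit 5) (nat_lit 158) (nat_lit 5) (nat_lit 152) (nat_lit 5) (nat_lit 476) (nat_lit 468) (nat_lit 256))))) (XT.nd (nat_lit 312) (nat_lit 1216) (nat_lit 0) (XT.nd (nat_lit 156) (nat_lit 304) (nat_lit 0) (XT.nd (nat_lit 78) (nat_lit 380) (nat_lit 0) (XT.lf (nat_lit 0) (nat_lit 206774754162) (nat_lit 380) (nat_lit 55693839586) (nat_lit 456) (nat_lit 834825050965) (nat_lit 146) (nat_lit 5) (nat_lit 151) (nat_lit 5) (nat_lit 152) (nat_lit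 5) (nat_lit 477) (nat_lit 468) (nat_lit 255)) (XT.lf (nat_lit 0) (nat_lit 69626400603) (nat_lit 380) (nat_lit 412978716978) (nat_lit 456) (nat_lit 662894116939) (nat_lit 141) (nat_lit 5) (nat_lit 146) (nat_lit 5) (nat_lit 147) (nat_lit 5) (nat_lit 478) (nat_lit 468) (nat_lit 254))) (XT.nd (nat_lit 78) (nat_lit 304) (nat_lit 0) (XT.lf (nat_lit 0) (nat_lit 743043642814) (nat_lit 456) (nat_lit 65581036562) (nat_lit 76) (nat_lit 387802038159) (nat_lit 141) (nat_lit 5) (nat_lit 147) (nat_lit 5) (nat_lit 142) (nat_lit 5) (nat_lit 479) (nat_lit 468) (nat_lit 253)) (XT.lf (nat_lit 0) (nat_lit 1047780250589) (nat_lit 380) (nat_lit 198080610032) (nat_lit 76) (nat_lit 4394388546) (nat_lit 137) (nat_lit 5) (nat_lit 142) (nat_lit 5) (nat_lit 138) (nat_lit 5) (nat_lit 480) (nat_lit 468) (nat_lit 252)))) (XT.nd (nat_lit 156) (nat_lit 532) (nat_lit 0) (XT.nd (nat_lit 78) (nat_lit 304) (nat_lit 0) (XT.lf (nat_lit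 0) (nat_lit 96756675032) (nat_lit 380) (nat_lit 337676025981) (nat_lit 76) (nat_lit 872381705883) (nat_lit 132) (nat_lit 5) (nat_lit 137) (nat_lit 5) (nat_lit 133) (nat_lit 5) (nat_lit 481) (nat_lit 468) (nat_lit 251)) (XT.lf (nat_lit 0) (nat_lit 437638241386) (nat_lit 380) (nat_lit 479863080867) (nat_lit 76) (nat_lit 448990757051) (nat_lit 128) (nat_lit 5) (nat_lit 133) (nat_lit 5) (nat_lit 129) (nat_lit 5) (nat_lit 482) (nat_lit 468) (nat_lit 250))) (XT.nd (nat_lit 78) (nat_lit 228) (nat_lit 0) (XT.lf (nat_lit 0) (nat_lit 808750155274) (nat_lit 304) (nat_lit 22970881749) (nat_lit 380) (nat_lit 597926393283) (nat_lit 124) (nat_lit 5) (nat_lit 128) (nat_lit 5) (nat_lit 129) (nat_lit 5) (nat_lit 483) (nat_lit 468) (nat_lit 249)) (XT.lf (nat_lit 0) (nat_lit 728609167177) (nat_lit 228) (nat_lit 563317626743) (nat_lit 304) (nat_lit 204198598589) (nat_lit 121) (nat_lit 5) (nat_lit 124) (nat_lit 5)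 (nat_lit 125) (nat_lit 5) (nat_lit 484) (nat_lit 468) (nat_lit 248)))))) (XT.nd (nat_lit 624) (nat_lit 1064) (nat_lit 0) (XT.nd (nat_lit 312) (nat_lit 836) (nat_lit 0) (XT.nd (nat_lit 156) (nat_lit 456) (nat_lit 0) (XT.nd (nat_lit 78) (nat_lit 228) (nat_lit 0) (XT.lf (nat_lit 0) (nat_lit 242198571522) (nat_lit 380) (nat_lit 915350741013) (nat_lit 76) (nat_lit 408787465800) (nat_lit 116) (nat_lit 5) (nat_lit 121) (nat_lit 5) (nat_lit 117) (nat_lit 5) (nat_lit 485) (nat_lit 468) (nat_lit 247)) (XT.lf (nat_lit 0) (nat_lit 574093306316) (nat_lit 228) (nat_lit 175206302830) (nat_lit 304) (nat_lit 891090779075) (nat_lit 113) (nat_lit 5) (nat_lit 116) (nat_lit 5) (nat_lit 117) (nat_lit 5) (nat_lit 486) (nat_lit 468) (nat_lit 246))) (XT.nd (nat_lit 78) (nat_lit 228) (nat_lit 0) (XT.lf (nat_lit 0) (nat_lit 497646470101) (nat_lit 228) (nat_lit 837126755345) (nat_lit 304) (nat_lit 383704836669) (nat_lit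 110) (nat_lit 5) (nat_lit 113) (nat_lit 5) (nat_lit 114) (nat_lit 5) (nat_lit 487) (nat_lit 468) (nat_lit 245)) (XT.lf (nat_lit 0) (nat_lit 191372720121) (nat_lit 228) (nat_lit 1374189541568) (nat_lit 76) (nat_lit 235504327518) (nat_lit 107) (nat_lit 5) (nat_lit 110) (nat_lit 5) (nat_lit 108) (nat_lit 5) (nat_lit 488) (nat_lit 468) (nat_lit 244)))) (XT.nd (nat_lit 156) (nat_lit 456) (nat_lit 0) (XT.nd (nat_lit 78) (nat_lit 152) (nat_lit 0) (XT.lf (nat_lit 0) (nat_lit 351102371558) (nat_lit 228) (nat_lit 489302578382) (nat_lit 304) (nat_lit 1047473155523) (nat_lit 104) (nat_lit 5) (nat_lit 107) (nat_lit 5) (nat_lit 108) (nat_lit 5) (nat_lit 489) (nat_lit 468) (nat_lit 243)) (XT.lf (nat_lit 0) (nat_lit 281149632245) (nat_lit 152) (nat_lit 1299437886874) (nat_lit 228) (nat_lit 399085635851) (nat_lit 102) (nat_lit 5) (nat_lit 104) (nat_lit 5) (nat_lit 105) (nat_lit 5) (nat_lit 490) (nat_lit 468)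 (nat_lit 242))) (XT.nd (nat_lit 78) (nat_lit 152) (nat_lit 0) (XT.lf (nat_lit 0) (nat_lit 215416600315) (nat_lit 228) (nat_lit 114939146958) (nat_lit 304) (nat_lit 1746279839772) (nat_lit 98) (nat_lit 5) (nat_lit 101) (nat_lit 5) (nat_lit 102) (nat_lit 5) (nat_lit 491) (nat_lit 468) (nat_lit 241)) (XT.lf (nat_lit 0) (nat_lit 142415545284) (nat_lit 152) (nat_lit 1012415815049) (nat_lit 228) (nat_lit 1023663487183) (nat_lit 96) (nat_lit 5) (nat_lit 98) (nat_lit 5) (nat_lit 99) (nat_lit 5) (nat_lit 492) (nat_lit 468) (nat_lit 240))))) (XT.nd (nat_lit 390) (nat_lit 456) (nat_lit 0) (XT.nd (nat_lit 156) (nat_lit 228) (nat_lit 0) (XT.nd (nat_lit 78) (nat_lit 228) (nat_lit 0) (XT.lf (nat_lit 0) (nat_lit 82096768283) (nat_lit 152) (nat_lit 2003324658815) (nat_lit 228) (nat_lit 201073601494) (nat_lit 94) (nat_lit 5) (nat_lit 96) (nat_lit 5) (nat_lit 97) (nat_lit 5) (nat_lit 493) (nat_lit 468) (nat_lit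 239)) (XT.lf (nat_lit 0) (nat_lit 13108691677) (nat_lit 152) (nat_lit 705540595502) (nat_lit 228) (nat_lit 1681283161904) (nat_lit 91) (nat_lit 5) (nat_lit 93) (nat_lit 5) (nat_lit 94) (nat_lit 5) (nat_lit 494) (nat_lit 468) (nat_lit 238))) (XT.nd (nat_lit 78) (nat_lit 228) (nat_lit 0) (XT.lf (nat_lit 0) (nat_lit 1754895776948) (nat_lit 228) (nat_lit 48677867977) (nat_lit 76) (nat_lit 716206883385) (nat_lit 91) (nat_lit 5) (nat_lit 94) (nat_lit 5) (nat_lit 92) (nat_lit 5) (nat_lit 495) (nat_lit 468) (nat_lit 237)) (XT.lf (nat_lit 0) (nat_lit 270125093174) (nat_lit 228) (nat_lit 104876327723) (nat_lit 76) (nat_lit 2271414756035) (nat_lit 88) (nat_lit 5) (nat_lit 91) (nat_lit 5) (nat_lit 89) (nat_lit 5) (nat_lit 496) (nat_lit 468) (nat_lit 236)))) (XT.nd (nat_lit 60216) (nat_lit 0) (nat_lit 6156) (XT.nd (nat_lit 78) (nat_lit 152) (nat_lit 0) (XT.lf (nat_lit 0) (nat_lit 2700087339199) (nat_lit 152)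 (nat_lit 17381794574) (nat_lit 228) (nat_lit 203215427203) (nat_lit 84) (nat_lit 5) (nat_lit 86) (nat_lit 5) (nat_lit 87) (nat_lit 5) (nat_lit 498) (nat_lit 468) (nat_lit 234)) (XT.lf (nat_lit 0) (nat_lit 1083632978464) (nat_lit 152) (nat_lit 290154591969) (nat_lit 76) (nat_lit 1694867971277) (nat_lit 82) (nat_lit 5) (nat_lit 84) (nat_lit 5) (nat_lit 83) (nat_lit 5) (nat_lit 499) (nat_lit 468) (nat_lit 233))) (XT.nd (nat_lit 78) (nat_lit 0) (nat_lit 76) (XT.lf (nat_lit 0) (nat_lit 182004508860) (nat_lit 836) (nat_lit 114386115616) (nat_lit 836) (nat_lit 114386115616) (nat_lit 163) (nat_lit 3) (nat_lit 174) (nat_lit 3) (nat_lit 174) (nat_lit 5) (nat_lit 469) (nat_lit 469) (nat_lit 262)) (XT.lf (nat_lit 0) (nat_lit 386287500665) (nat_lit 760) (nat_lit 415035562399) (nat_lit 836) (nat_lit 52706650207) (nat_lit 164) (nat_lit 5) (nat_lit 174) (nat_lit 5) (nat_lit 175) (nat_lit 5) (nat_lit 470) (nat_lit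 469) (nat_lit 261))))))) (XT.nd (nat_lit 1248) (nat_lit 2432) (nat_lit 0) (XT.nd (nat_lit 624) (nat_lit 2280) (nat_lit 0) (XT.nd (nat_lit 312) (nat_lit 1368) (nat_lit 0) (XT.nd (nat_lit 156) (nat_lit 0) (nat_lit 152) (XT.nd (nat_lit 78) (nat_lit 0) (nat_lit 76) (XT.lf (nat_lit 76) (nat_lit 278292830284) (nat_lit 0) (nat_lit 150446116241) (nat_lit 836) (nat_lit 459445564264) (nat_lit 165) (nat_lit 5) (nat_lit 164) (nat_lit 5) (nat_lit 175) (nat_lit 5) (nat_lit 471) (nat_lit 469) (nat_lit 260)) (XT.lf (nat_lit 76) (nat_lit 112039414832) (nat_lit 0) (nat_lit 380270587926) (nat_lit 836) (nat_lit 431875514616) (nat_lit 166) (nat_lit 5) (nat_lit 165) (nat_lit 5) (nat_lit 176) (nat_lit 5) (nat_lit 472) (nat_lit 469) (nat_lit 259))) (XT.nd (nat_lit 78) (nat_lit 0) (nat_lit 76) (XT.lf (nat_lit 0) (nat_lit 579344872527) (nat_lit 760) (nat_lit 56785607668) (nat_lit 836) (nat_lit 326017217841) (nat_lit 166)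 (nat_lit 5) (nat_lit 176) (nat_lit 5) (nat_lit 177) (nat_lit 5) (nat_lit 473) (nat_lit 469) (nat_lit 258)) (XT.lf (nat_lit 0) (nat_lit 693229335832) (nat_lit 760) (nat_lit 226079766028) (nat_lit 836) (nat_lit 82843411093) (nat_lit 167) (nat_lit 5) (nat_lit 177) (nat_lit 5) (nat_lit 178) (nat_lit 5) (nat_lit 474) (nat_lit 469) (nat_lit 257)))) (XT.nd (nat_lit 156) (nat_lit 912) (nat_lit 0) (XT.nd (nat_lit 78) (nat_lit 684) (nat_lit 0) (XT.lf (nat_lit 76) (nat_lit 642087576352) (nat_lit 0) (nat_lit 195893461580) (nat_lit 836) (nat_lit 206288851047) (nat_lit 168) (nat_lit 5) (nat_lit 167) (nat_lit 5) (nat_lit 178) (nat_lit 5) (nat_lit 475) (nat_lit 469) (nat_lit 256)) (XT.lf (nat_lit 0) (nat_lit 505186691161) (nat_lit 760) (nat_lit 510155941523) (nat_lit 836) (nat_lit 73362534578) (nat_lit 158) (nat_lit 5) (nat_lit 168) (nat_lit 5) (nat_lit 169) (nat_lit 5) (nat_lit 476) (nat_lit 469) (nat_lit 255)))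 (XT.nd (nat_lit 78) (nat_lit 380) (nat_lit 0) (XT.lf (nat_lit 0) (nat_lit 88630160153) (nat_lit 532) (nat_lit 769794135621) (nat_lit 76) (nat_lit 277182220561) (nat_lit 151) (nat_lit 5) (nat_lit 158) (nat_lit 5) (nat_lit 152) (nat_lit 5) (nat_lit 477) (nat_lit 469) (nat_lit 254)) (XT.lf (nat_lit 0) (nat_lit 223316923065) (nat_lit 380) (nat_lit 60149344854) (nat_lit 456) (nat_lit 901610859026) (nat_lit 146) (nat_lit 5) (nat_lit 151) (nat_lit 5) (nat_lit 152) (nat_lit 5) (nat_lit 478) (nat_lit 469) (nat_lit 253))))) (XT.nd (nat_lit 312) (nat_lit 1216) (nat_lit 0) (XT.nd (nat_lit 156) (nat_lit 684) (nat_lit 0) (XT.nd (nat_lit 78) (nat_lit 0) (nat_lit 0) (XT.lf (nat_lit 0) (nat_lit 75196701937) (nat_lit 380) (nat_lit 446017000876) (nat_lit 456) (nat_lit 715925461665) (nat_lit 141) (nat_lit 5) (nat_lit 146) (nat_lit 5) (nat_lit 147) (nat_lit 5) (nat_lit 479) (nat_lit 469) (nat_lit 252)) (XT.lf (nat_lit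 0) (nat_lit 802487297236) (nat_lit 456) (nat_lit 70827336266) (nat_lit 76) (nat_lit 418826213276) (nat_lit 141) (nat_lit 5) (nat_lit 147) (nat_lit 5) (nat_lit 142) (nat_lit 5) (nat_lit 480) (nat_lit 469) (nat_lit 251))) (XT.nd (nat_lit 78) (nat_lit 380) (nat_lit 0) (XT.lf (nat_lit 0) (nat_lit 1131602824633) (nat_lit 380) (nat_lit 213926876221) (nat_lit 76) (nat_lit 4745960538) (nat_lit 137) (nat_lit 5) (nat_lit 142) (nat_lit 5) (nat_lit 138) (nat_lit 5) (nat_lit 481) (nat_lit 469) (nat_lit 250)) (XT.lf (nat_lit 0) (nat_lit 104497356742) (nat_lit 380) (nat_lit 364689928489) (nat_lit 76) (nat_lit 942172266823) (nat_lit 132) (nat_lit 5) (nat_lit 137) (nat_lit 5) (nat_lit 133) (nat_lit 5) (nat_lit 482) (nat_lit 469) (nat_lit 249)))) (XT.nd (nat_lit 156) (nat_lit 608) (nat_lit 0) (XT.nd (nat_lit 78) (nat_lit 304) (nat_lit 0) (XT.lf (nat_lit 0) (nat_lit 472649440649) (nat_lit 380) (nat_lit 518251949093)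 (nat_lit 76) (nat_lit 484910048900) (nat_lit 128) (nat_lit 5) (nat_lit 133) (nat_lit 5) (nat_lit 129) (nat_lit 5) (nat_lit 483) (nat_lit 469) (nat_lit 248)) (XT.lf (nat_lit 0) (nat_lit 873450338193) (nat_lit 304) (nat_lit 24808514040) (nat_lit 380) (nat_lit 645760365879) (nat_lit 124) (nat_lit 5) (nat_lit 128) (nat_lit 5) (nat_lit 129) (nat_lit 5) (nat_lit 484) (nat_lit 469) (nat_lit 247))) (XT.nd (nat_lit 78) (nat_lit 380) (nat_lit 0) (XT.lf (nat_lit 0) (nat_lit 786898069399) (nat_lit 228) (nat_lit 608382993675) (nat_lit 304) (nat_lit 220534354546) (nat_lit 121) (nat_lit 5) (nat_lit 124) (nat_lit 5) (nat_lit 125) (nat_lit 5) (nat_lit 485) (nat_lit 469) (nat_lit 246)) (XT.lf (nat_lit 0) (nat_lit 261574578774) (nat_lit 380) (nat_lit 988578629389) (nat_lit 76) (nat_lit 441490506356) (nat_lit 116) (nat_lit 5) (nat_lit 121) (nat_lit 5) (nat_lit 117) (nat_lit 5) (nat_lit 486) (nat_lit 469) (nat_lit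 245)))))) (XT.nd (nat_lit 624) (nat_lit 760) (nat_lit 0) (XT.nd (nat_lit 312) (nat_lit 760) (nat_lit 0) (XT.nd (nat_lit 156) (nat_lit 456) (nat_lit 0) (XT.nd (nat_lit 78) (nat_lit 228) (nat_lit 0) (XT.lf (nat_lit 0) (nat_lit 620020934300) (nat_lit 228) (nat_lit 189222758659) (nat_lit 304) (nat_lit 962377920560) (nat_lit 113) (nat_lit 5) (nat_lit 116) (nat_lit 5) (nat_lit 117) (nat_lit 5) (nat_lit 487) (nat_lit 469) (nat_lit 244)) (XT.lf (nat_lit 0) (nat_lit 537458348869) (nat_lit 228) (nat_lit 904096844384) (nat_lit 304) (nat_lit 414401108337) (nat_lit 110) (nat_lit 5) (nat_lit 113) (nat_lit 5) (nat_lit 114) (nat_lit 5) (nat_lit 488) (nat_lit 469) (nat_lit 243))) (XT.nd (nat_lit 78) (nat_lit 228) (nat_lit 0) (XT.lf (nat_lit 0) (nat_lit 206682644315) (nat_lit 228) (nat_lit 1484124542721) (nat_lit 76) (nat_lit 254344723974) (nat_lit 107) (nat_lit 5) (nat_lit 110) (nat_lit 5) (nat_lit 108) (nat_lit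 5) (nat_lit 489) (nat_lit 469) (nat_lit 242)) (XT.lf (nat_lit 0) (nat_lit 379190716407) (nat_lit 228) (nat_lit 528446730638) (nat_lit 304) (nat_lit 1131270901794) (nat_lit 104) (nat_lit 5) (nat_lit 107) (nat_lit 5) (nat_lit 108) (nat_lit 5) (nat_lit 490) (nat_lit 469) (nat_lit 241)))) (XT.nd (nat_lit 156) (nat_lit 304) (nat_lit 0) (XT.nd (nat_lit 78) (nat_lit 304) (nat_lit 0) (XT.lf (nat_lit 0) (nat_lit 303641755241) (nat_lit 152) (nat_lit 1403392862189) (nat_lit 228) (nat_lit 431012385094) (nat_lit 102) (nat_lit 5) (nat_lit 104) (nat_lit 5) (nat_lit 105) (nat_lit 5) (nat_lit 491) (nat_lit 469) (nat_lit 240)) (XT.lf (nat_lit 0) (nat_lit 232650077247) (nat_lit 228) (nat_lit 124134223218) (nat_lit 304) (nat_lit 1885982128870) (nat_lit 98) (nat_lit 5) (nat_lit 101) (nat_lit 5) (nat_lit 102) (nat_lit 5) (nat_lit 492) (nat_lit 469) (nat_lit 239))) (XT.nd (nat_lit 78) (nat_lit 152) (nat_lit 0) (XT.lf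 (nat_lit 0) (nat_lit 153808934985) (nat_lit 152) (nat_lit 1093409023748) (nat_lit 228) (nat_lit 1105556472102) (nat_lit 96) (nat_lit 5) (nat_lit 98) (nat_lit 5) (nat_lit 99) (nat_lit 5) (nat_lit 493) (nat_lit 469) (nat_lit 238)) (XT.lf (nat_lit 0) (nat_lit 88664652919) (nat_lit 152) (nat_lit 2163590574338) (nat_lit 228) (nat_lit 217159399320) (nat_lit 94) (nat_lit 5) (nat_lit 96) (nat_lit 5) (nat_lit 97) (nat_lit 5) (nat_lit 494) (nat_lit 469) (nat_lit 237))))) (XT.nd (nat_lit 60528) (nat_lit 0) (nat_lit 6004) (XT.nd (nat_lit 234) (nat_lit 532) (nat_lit 0) (XT.nd (nat_lit 78) (nat_lit 0) (nat_lit 0) (XT.lf (nat_lit 0) (nat_lit 14157526729) (nat_lit 152) (nat_lit 761983786535) (nat_lit 228) (nat_lit 1815785727588) (nat_lit 91) (nat_lit 5) (nat_lit 93) (nat_lit 5) (nat_lit 94) (nat_lit 5) (nat_lit 495) (nat_lit 469) (nat_lit 236)) (XT.lf (nat_lit 0) (nat_lit 1895287516876) (nat_lit 228) (nat_lit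 52571965015) (nat_lit 76) (nat_lit 773503484792) (nat_lit 91) (nat_lit 5) (nat_lit 94) (nat_lit 5) (nat_lit 92) (nat_lit 5) (nat_lit 496) (nat_lit 469) (nat_lit 235))) (XT.nd (nat_lit 78) (nat_lit 152) (nat_lit 0) (XT.lf (nat_lit 0) (nat_lit 1536335521450) (nat_lit 228) (nat_lit 184436615133) (nat_lit 76) (nat_lit 1281072713922) (nat_lit 86) (nat_lit 5) (nat_lit 89) (nat_lit 5) (nat_lit 87) (nat_lit 5) (nat_lit 498) (nat_lit 469) (nat_lit 233)) (XT.lf (nat_lit 0) (nat_lit 2916094447139) (nat_lit 152) (nat_lit 18772286235) (nat_lit 228) (nat_lit 219472589035) (nat_lit 84) (nat_lit 5) (nat_lit 86) (nat_lit 5) (nat_lit 87) (nat_lit 5) (nat_lit 499) (nat_lit 469) (nat_lit 232)))) (XT.nd (nat_lit 156) (nat_lit 0) (nat_lit 76) (XT.nd (nat_lit 78) (nat_lit 0) (nat_lit 76) (XT.lf (nat_lit 0) (nat_lit 196565015780) (nat_lit 836) (nat_lit 123536928099) (nat_lit 836) (nat_lit 123536928099) (nat_lit 163)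 (nat_lit 3) (nat_lit 174) (nat_lit 3) (nat_lit 174) (nat_lit 5) (nat_lit 470) (nat_lit 470) (nat_lit 260)) (XT.lf (nat_lit 0) (nat_lit 417190771801) (nat_lit 760) (nat_lit 448238244887) (nat_lit 836) (nat_lit 56923060069) (nat_lit 164) (nat_lit 5) (nat_lit 174) (nat_lit 5) (nat_lit 175) (nat_lit 5) (nat_lit 471) (nat_lit 470) (nat_lit 259))) (XT.nd (nat_lit 78) (nat_lit 0) (nat_lit 76) (XT.lf (nat_lit 76) (nat_lit 300556412148) (nat_lit 0) (nat_lit 162481903528) (nat_lit 836) (nat_lit 496200943285) (nat_lit 165) (nat_lit 5) (nat_lit 164) (nat_lit 5) (nat_lit 175) (nat_lit 5) (nat_lit 472) (nat_lit 470) (nat_lit 258)) (XT.lf (nat_lit 76) (nat_lit 121002730308) (nat_lit 0) (nat_lit 410692308445) (nat_lit 836) (nat_lit 466425308204) (nat_lit 166) (nat_lit 5) (nat_lit 165) (nat_lit 5) (nat_lit 176) (nat_lit 5) (nat_lit 473) (nat_lit 470) (nat_lit 257))))))))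
noncomputable def xc122 : XT := (XT.nd (nat_lit 62634) (nat_lit 0) (nat_lit 152) (XT.nd (nat_lit 1170) (nat_lit 2052) (nat_lit 0) (XT.nd (nat_lit 546) (nat_lit 2128) (nat_lit 0) (XT.nd (nat_lit 234) (nat_lit 1900) (nat_lit 0) (XT.nd (nat_lit 78) (nat_lit 0) (nat_lit 76) (XT.lf (nat_lit 0) (nat_lit 625692679577) (nat_lit 760) (nat_lit 61328294019) (nat_lit 836) (nat_lit 352098529404) (nat_lit 166) (nat_lit 5) (nat_lit 176) (nat_lit 5) (nat_lit 177) (nat_lit 5) (nat_lit 474) (nat_lit 470) (nat_lit 256)) (XT.nd (nat_lit 78) (nat_lit 0) (nat_lit 0) (XT.lf (nat_lit 0) (nat_lit 748687885521) (nat_lit 760) (nat_lit 244165981151) (nat_lit 836) (nat_lit 89470837161) (nat_lit 167) (nat_lit 5) (nat_lit 177) (nat_lit 5) (nat_lit 178) (nat_lit 5) (nat_lit 475) (nat_lit 470) (nat_lit 255)) (XT.lf (nat_lit 76) (nat_lit 693454741399) (nat_lit 0) (nat_lit 211564969848) (nat_lit 836) (nat_lit 222791759322) (nat_lit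 168) (nat_lit 5) (nat_lit 167) (nat_lit 5) (nat_lit 178) (nat_lit 5) (nat_lit 476) (nat_lit 470) (nat_lit 254)))) (XT.nd (nat_lit 156) (nat_lit 760) (nat_lit 0) (XT.nd (nat_lit 78) (nat_lit 532) (nat_lit 0) (XT.lf (nat_lit 0) (nat_lit 545601788068) (nat_lit 760) (nat_lit 550968433488) (nat_lit 836) (nat_lit 79231350162) (nat_lit 158) (nat_lit 5) (nat_lit 168) (nat_lit 5) (nat_lit 169) (nat_lit 5) (nat_lit 477) (nat_lit 470) (nat_lit 253)) (XT.lf (nat_lit 0) (nat_lit 95720743083) (nat_lit 532) (nat_lit 831377497458) (nat_lit 76) (nat_lit 299356788584) (nat_lit 151) (nat_lit 5) (nat_lit 158) (nat_lit 5) (nat_lit 152) (nat_lit 5) (nat_lit 478) (nat_lit 470) (nat_lit 252))) (XT.nd (nat_lit 78) (nat_lit 380) (nat_lit 0) (XT.lf (nat_lit 0) (nat_lit 241182438578) (nat_lit 380) (nat_lit 64961290815) (nat_lit 456) (nat_lit 973739559695) (nat_lit 146) (nat_lit 5) (nat_lit 151) (nat_lit 5) (nat_lit 152)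 (nat_lit 5) (nat_lit 479) (nat_lit 470) (nat_lit 251)) (XT.lf (nat_lit 0) (nat_lit 81212600375) (nat_lit 380) (nat_lit 481698349406) (nat_lit 456) (nat_lit 773199340308) (nat_lit 141) (nat_lit 5) (nat_lit 146) (nat_lit 5) (nat_lit 147) (nat_lit 5) (nat_lit 480) (nat_lit 470) (nat_lit 250))))) (XT.nd (nat_lit 312) (nat_lit 1140) (nat_lit 0) (XT.nd (nat_lit 156) (nat_lit 684) (nat_lit 0) (XT.nd (nat_lit 78) (nat_lit 304) (nat_lit 0) (XT.lf (nat_lit 0) (nat_lit 866686420758) (nat_lit 456) (nat_lit 76493366085) (nat_lit 76) (nat_lit 452332320681) (nat_lit 141) (nat_lit 5) (nat_lit 147) (nat_lit 5) (nat_lit 142) (nat_lit 5) (nat_lit 481) (nat_lit 470) (nat_lit 249)) (XT.lf (nat_lit 0) (nat_lit 1222131182630) (nat_lit 380) (nat_lit 231040869756) (nat_lit 76) (nat_lit 5125655306) (nat_lit 137) (nat_lit 5) (nat_lit 142) (nat_lit 5) (nat_lit 138) (nat_lit 5) (nat_lit 482) (nat_lit 470) (nat_lit 248)))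 (XT.nd (nat_lit 78) (nat_lit 304) (nat_lit 0) (XT.lf (nat_lit 0) (nat_lit 112857271917) (nat_lit 380) (nat_lit 393864968815) (nat_lit 76) (nat_lit 1017546069147) (nat_lit 132) (nat_lit 5) (nat_lit 137) (nat_lit 5) (nat_lit 133) (nat_lit 5) (nat_lit 483) (nat_lit 470) (nat_lit 247)) (XT.lf (nat_lit 0) (nat_lit 510461515888) (nat_lit 380) (nat_lit 559711952206) (nat_lit 76) (nat_lit 523702879633) (nat_lit 128) (nat_lit 5) (nat_lit 133) (nat_lit 5) (nat_lit 129) (nat_lit 5) (nat_lit 484) (nat_lit 470) (nat_lit 246)))) (XT.nd (nat_lit 156) (nat_lit 608) (nat_lit 0) (XT.nd (nat_lit 78) (nat_lit 228) (nat_lit 0) (XT.lf (nat_lit 0) (nat_lit 943326511421) (nat_lit 304) (nat_lit 26793162370) (nat_lit 380) (nat_lit 697421076092) (nat_lit 124) (nat_lit 5) (nat_lit 128) (nat_lit 5) (nat_lit 129) (nat_lit 5) (nat_lit 485) (nat_lit 470) (nat_lit 245)) (XT.lf (nat_lit 0) (nat_lit 849850059711) (nat_lit 228)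 (nat_lit 657053596126) (nat_lit 304) (nat_lit 238176989801) (nat_lit 121) (nat_lit 5) (nat_lit 124) (nat_lit 5) (nat_lit 125) (nat_lit 5) (nat_lit 486) (nat_lit 470) (nat_lit 244))) (XT.nd (nat_lit 78) (nat_lit 228) (nat_lit 0) (XT.lf (nat_lit 0) (nat_lit 282500649269) (nat_lit 380) (nat_lit 1067664773216) (nat_lit 76) (nat_lit 476809783980) (nat_lit 116) (nat_lit 5) (nat_lit 121) (nat_lit 5) (nat_lit 117) (nat_lit 5) (nat_lit 487) (nat_lit 470) (nat_lit 243)) (XT.lf (nat_lit 0) (nat_lit 669622749199) (nat_lit 228) (nat_lit 204360537859) (nat_lit 304) (nat_lit 1039368050604) (nat_lit 113) (nat_lit 5) (nat_lit 116) (nat_lit 5) (nat_lit 117) (nat_lit 5) (nat_lit 488) (nat_lit 470) (nat_lit 242)))))) (XT.nd (nat_lit 624) (nat_lit 380) (nat_lit 0) (XT.nd (nat_lit 312) (nat_lit 836) (nat_lit 0) (XT.nd (nat_lit 156) (nat_lit 380) (nat_lit 0) (XT.nd (nat_lit 78) (nat_lit 228) (nat_lit 0) (XT.lf (nat_lit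 0) (nat_lit 580455154947) (nat_lit 228) (nat_lit 976424547878) (nat_lit 304) (nat_lit 447553098182) (nat_lit 110) (nat_lit 5) (nat_lit 113) (nat_lit 5) (nat_lit 114) (nat_lit 5) (nat_lit 489) (nat_lit 470) (nat_lit 241)) (XT.lf (nat_lit 0) (nat_lit 223217347239) (nat_lit 228) (nat_lit 1602854367102) (nat_lit 76) (nat_lit 274692344977) (nat_lit 107) (nat_lit 5) (nat_lit 110) (nat_lit 5) (nat_lit 108) (nat_lit 5) (nat_lit 490) (nat_lit 470) (nat_lit 240))) (XT.nd (nat_lit 78) (nat_lit 152) (nat_lit 0) (XT.lf (nat_lit 0) (nat_lit 409526106714) (nat_lit 228) (nat_lit 570722422781) (nat_lit 304) (nat_lit 1221772482914) (nat_lit 104) (nat_lit 5) (nat_lit 107) (nat_lit 5) (nat_lit 108) (nat_lit 5) (nat_lit 491) (nat_lit 470) (nat_lit 239)) (XT.lf (nat_lit 0) (nat_lit 327933226333) (nat_lit 152) (nat_lit 1515664243466) (nat_lit 228) (nat_lit 465493288775) (nat_lit 102) (nat_lit 5) (nat_lit 104) (nat_lit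 5) (nat_lit 105) (nat_lit 5) (nat_lit 492) (nat_lit 470) (nat_lit 238)))) (XT.nd (nat_lit 156) (nat_lit 380) (nat_lit 0) (XT.nd (nat_lit 78) (nat_lit 152) (nat_lit 0) (XT.lf (nat_lit 0) (nat_lit 251262211091) (nat_lit 228) (nat_lit 134064913495) (nat_lit 304) (nat_lit 2036860615088) (nat_lit 98) (nat_lit 5) (nat_lit 101) (nat_lit 5) (nat_lit 102) (nat_lit 5) (nat_lit 493) (nat_lit 470) (nat_lit 237)) (XT.lf (nat_lit 0) (nat_lit 166113775023) (nat_lit 152) (nat_lit 1180881697205) (nat_lit 228) (nat_lit 1194000909233) (nat_lit 96) (nat_lit 5) (nat_lit 98) (nat_lit 5) (nat_lit 99) (nat_lit 5) (nat_lit 494) (nat_lit 470) (nat_lit 236))) (XT.nd (nat_lit 78) (nat_lit 228) (nat_lit 0) (XT.lf (nat_lit 0) (nat_lit 95757947900) (nat_lit 152) (nat_lit 2336677771261) (nat_lit 228) (nat_lit 234532073854) (nat_lit 94) (nat_lit 5) (nat_lit 96) (nat_lit 5) (nat_lit 97) (nat_lit 5) (nat_lit 495) (nat_lit 470)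 (nat_lit 235)) (XT.lf (nat_lit 0) (nat_lit 15290248653) (nat_lit 152) (nat_lit 822942440926) (nat_lit 228) (nat_lit 1961048510976) (nat_lit 91) (nat_lit 5) (nat_lit 93) (nat_lit 5) (nat_lit 94) (nat_lit 5) (nat_lit 496) (nat_lit 470) (nat_lit 234))))) (XT.nd (nat_lit 60528) (nat_lit 0) (nat_lit 5928) (XT.nd (nat_lit 156) (nat_lit 152) (nat_lit 0) (XT.nd (nat_lit 78) (nat_lit 228) (nat_lit 0) (XT.lf (nat_lit 0) (nat_lit 2046910584904) (nat_lit 228) (nat_lit 56777608704) (nat_lit 76) (nat_lit 835383807074) (nat_lit 91) (nat_lit 5) (nat_lit 94) (nat_lit 5) (nat_lit 92) (nat_lit 5) (nat_lit 497) (nat_lit 470) (nat_lit 233)) (XT.lf (nat_lit 0) (nat_lit 315074054374) (nat_lit 228) (nat_lit 122327498477) (nat_lit 76) (nat_lit 2649378268634) (nat_lit 88) (nat_lit 5) (nat_lit 91) (nat_lit 5) (nat_lit 89) (nat_lit 5) (nat_lit 498) (nat_lit 470) (nat_lit 232))) (XT.nd (nat_lit 60294) (nat_lit 0) (nat_lit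 5852) (XT.lf (nat_lit 0) (nat_lit 1659242425215) (nat_lit 228) (nat_lit 199191436069) (nat_lit 76) (nat_lit 1383558574158) (nat_lit 86) (nat_lit 5) (nat_lit 89) (nat_lit 5) (nat_lit 87) (nat_lit 5) (nat_lit 499) (nat_lit 470) (nat_lit 231)) (XT.lf (nat_lit 0) (nat_lit 212290342394) (nat_lit 836) (nat_lit 133419816533) (nat_lit 836) (nat_lit 133419816533) (nat_lit 163) (nat_lit 3) (nat_lit 174) (nat_lit 3) (nat_lit 174) (nat_lit 5) (nat_lit 471) (nat_lit 471) (nat_lit 258)))) (XT.nd (nat_lit 156) (nat_lit 0) (nat_lit 76) (XT.nd (nat_lit 78) (nat_lit 0) (nat_lit 0) (XT.lf (nat_lit 0) (nat_lit 450566265955) (nat_lit 760) (nat_lit 484097165157) (nat_lit 836) (nat_lit 61476800147) (nat_lit 164) (nat_lit 5) (nat_lit 174) (nat_lit 5) (nat_lit 175) (nat_lit 5) (nat_lit 472) (nat_lit 471) (nat_lit 257)) (XT.lf (nat_lit 76) (nat_lit 324601058387) (nat_lit 0) (nat_lit 175480539820) (nat_lit 836) (nat_lit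 535896790592) (nat_lit 165) (nat_lit 5) (nat_lit 164) (nat_lit 5) (nat_lit 175) (nat_lit 5) (nat_lit 473) (nat_lit 471) (nat_lit 256))) (XT.nd (nat_lit 78) (nat_lit 0) (nat_lit 76) (XT.lf (nat_lit 76) (nat_lit 130683087870) (nat_lit 0) (nat_lit 443547756123) (nat_lit 836) (nat_lit 503739120600) (nat_lit 166) (nat_lit 5) (nat_lit 165) (nat_lit 5) (nat_lit 176) (nat_lit 5) (nat_lit 474) (nat_lit 471) (nat_lit 255)) (XT.lf (nat_lit 0) (nat_lit 675748280198) (nat_lit 760) (nat_lit 66234418427) (nat_lit 836) (nat_lit 380266355288) (nat_lit 166) (nat_lit 5) (nat_lit 176) (nat_lit 5) (nat_lit 177) (nat_lit 5) (nat_lit 475) (nat_lit 471) (nat_lit 254))))))) (XT.nd (nat_lit 1248) (nat_lit 1444) (nat_lit 0) (XT.nd (nat_lit 624) (nat_lit 2280) (nat_lit 0) (XT.nd (nat_lit 312) (nat_lit 1064) (nat_lit 0) (XT.nd (nat_lit 156) (nat_lit 1216) (nat_lit 0) (XT.nd (nat_lit 78) (nat_lit 0) (nat_lit 0) (XT.lf (nat_lit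 0) (nat_lit 808583090251) (nat_lit 760) (nat_lit 263699117187) (nat_lit 836) (nat_lit 96628463994) (nat_lit 167) (nat_lit 5) (nat_lit 177) (nat_lit 5) (nat_lit 178) (nat_lit 5) (nat_lit 476) (nat_lit 471) (nat_lit 253)) (XT.lf (nat_lit 76) (nat_lit 748931256975) (nat_lit 0) (nat_lit 228490194307) (nat_lit 836) (nat_lit 240614928763) (nat_lit 168) (nat_lit 5) (nat_lit 167) (nat_lit 5) (nat_lit 178) (nat_lit 5) (nat_lit 477) (nat_lit 471) (nat_lit 252))) (XT.nd (nat_lit 78) (nat_lit 532) (nat_lit 0) (XT.lf (nat_lit 0) (nat_lit 589250069671) (nat_lit 760) (nat_lit 595045922435) (nat_lit 836) (nat_lit 85569697697) (nat_lit 158) (nat_lit 5) (nat_lit 168) (nat_lit 5) (nat_lit 169) (nat_lit 5) (nat_lit 478) (nat_lit 471) (nat_lit 251)) (XT.lf (nat_lit 0) (nat_lit 103378548378) (nat_lit 532) (nat_lit 897887552353) (nat_lit 76) (nat_lit 323305323422) (nat_lit 151) (nat_lit 5) (nat_lit 158) (nat_lit 5)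 (nat_lit 152) (nat_lit 5) (nat_lit 479) (nat_lit 471) (nat_lit 250)))) (XT.nd (nat_lit 156) (nat_lit 304) (nat_lit 0) (XT.nd (nat_lit 78) (nat_lit 380) (nat_lit 0) (XT.lf (nat_lit 0) (nat_lit 260477172269) (nat_lit 380) (nat_lit 70158192684) (nat_lit 456) (nat_lit 1051638580392) (nat_lit 146) (nat_lit 5) (nat_lit 151) (nat_lit 5) (nat_lit 152) (nat_lit 5) (nat_lit 480) (nat_lit 471) (nat_lit 249)) (XT.lf (nat_lit 0) (nat_lit 87709747536) (nat_lit 380) (nat_lit 520234207465) (nat_lit 456) (nat_lit 835055151825) (nat_lit 141) (nat_lit 5) (nat_lit 146) (nat_lit 5) (nat_lit 147) (nat_lit 5) (nat_lit 481) (nat_lit 471) (nat_lit 248))) (XT.nd (nat_lit 78) (nat_lit 304) (nat_lit 0) (XT.lf (nat_lit 0) (nat_lit 936021454226) (nat_lit 456) (nat_lit 82612700698) (nat_lit 76) (nat_lit 488518915203) (nat_lit 141) (nat_lit 5) (nat_lit 147) (nat_lit 5) (nat_lit 142) (nat_lit 5) (nat_lit 482) (nat_lit 471) (nat_lit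 247)) (XT.lf (nat_lit 0) (nat_lit 1319901790433) (nat_lit 380) (nat_lit 249524005109) (nat_lit 76) (nat_lit 5535723099) (nat_lit 137) (nat_lit 5) (nat_lit 142) (nat_lit 5) (nat_lit 138) (nat_lit 5) (nat_lit 483) (nat_lit 471) (nat_lit 246))))) (XT.nd (nat_lit 312) (nat_lit 1064) (nat_lit 0) (XT.nd (nat_lit 156) (nat_lit 532) (nat_lit 0) (XT.nd (nat_lit 78) (nat_lit 304) (nat_lit 0) (XT.lf (nat_lit 0) (nat_lit 121885962240) (nat_lit 380) (nat_lit 425374034330) (nat_lit 76) (nat_lit 1098949772664) (nat_lit 132) (nat_lit 5) (nat_lit 137) (nat_lit 5) (nat_lit 133) (nat_lit 5) (nat_lit 484) (nat_lit 471) (nat_lit 245)) (XT.lf (nat_lit 0) (nat_lit 551298540028) (nat_lit 380) (nat_lit 604488777369) (nat_lit 76) (nat_lit 565599132999) (nat_lit 128) (nat_lit 5) (nat_lit 133) (nat_lit 5) (nat_lit 129) (nat_lit 5) (nat_lit 485) (nat_lit 471) (nat_lit 244))) (XT.nd (nat_lit 78) (nat_lit 228) (nat_lit 0)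 (XT.lf (nat_lit 0) (nat_lit 1018792757655) (nat_lit 304) (nat_lit 28936587246) (nat_lit 380) (nat_lit 753214660108) (nat_lit 124) (nat_lit 5) (nat_lit 128) (nat_lit 5) (nat_lit 129) (nat_lit 5) (nat_lit 486) (nat_lit 471) (nat_lit 243)) (XT.lf (nat_lit 0) (nat_lit 917838188596) (nat_lit 228) (nat_lit 709617852057) (nat_lit 304) (nat_lit 257231052013) (nat_lit 121) (nat_lit 5) (nat_lit 124) (nat_lit 5) (nat_lit 125) (nat_lit 5) (nat_lit 487) (nat_lit 471) (nat_lit 242)))) (XT.nd (nat_lit 156) (nat_lit 456) (nat_lit 0) (XT.nd (nat_lit 78) (nat_lit 228) (nat_lit 0) (XT.lf (nat_lit 0) (nat_lit 305100790539) (nat_lit 380) (nat_lit 1153077829453) (nat_lit 76) (nat_lit 514954598520) (nat_lit 116) (nat_lit 5) (nat_lit 121) (nat_lit 5) (nat_lit 117) (nat_lit 5) (nat_lit 488) (nat_lit 471) (nat_lit 241)) (XT.lf (nat_lit 0) (nat_lit 723192689296) (nat_lit 228) (nat_lit 220709345314) (nat_lit 304) (nat_lit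 1122517405832) (nat_lit 113) (nat_lit 5) (nat_lit 116) (nat_lit 5) (nat_lit 117) (nat_lit 5) (nat_lit 489) (nat_lit 471) (nat_lit 240))) (XT.nd (nat_lit 78) (nat_lit 228) (nat_lit 0) (XT.lf (nat_lit 0) (nat_lit 626891685800) (nat_lit 228) (nat_lit 1054538473937) (nat_lit 304) (nat_lit 483357261313) (nat_lit 110) (nat_lit 5) (nat_lit 113) (nat_lit 5) (nat_lit 114) (nat_lit 5) (nat_lit 490) (nat_lit 471) (nat_lit 239)) (XT.lf (nat_lit 0) (nat_lit 241074813361) (nat_lit 228) (nat_lit 1731082597268) (nat_lit 76) (nat_lit 296667769514) (nat_lit 107) (nat_lit 5) (nat_lit 110) (nat_lit 5) (nat_lit 108) (nat_lit 5) (nat_lit 491) (nat_lit 471) (nat_lit 238)))))) (XT.nd (nat_lit 60918) (nat_lit 0) (nat_lit 5320) (XT.nd (nat_lit 312) (nat_lit 608) (nat_lit 0) (XT.nd (nat_lit 156) (nat_lit 456) (nat_lit 0) (XT.nd (nat_lit 78) (nat_lit 152) (nat_lit 0) (XT.lf (nat_lit 0) (nat_lit 442288309272) (nat_lit 228)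 (nat_lit 616380176902) (nat_lit 304) (nat_lit 1319514203508) (nat_lit 104) (nat_lit 5) (nat_lit 107) (nat_lit 5) (nat_lit 108) (nat_lit 5) (nat_lit 492) (nat_lit 471) (nat_lit 237)) (XT.lf (nat_lit 0) (nat_lit 354167996470) (nat_lit 152) (nat_lit 1636917342051) (nat_lit 228) (nat_lit 502732677180) (nat_lit 102) (nat_lit 5) (nat_lit 104) (nat_lit 5) (nat_lit 105) (nat_lit 5) (nat_lit 493) (nat_lit 471) (nat_lit 236))) (XT.nd (nat_lit 78) (nat_lit 152) (nat_lit 0) (XT.lf (nat_lit 0) (nat_lit 271363297430) (nat_lit 228) (nat_lit 144790065782) (nat_lit 304) (nat_lit 2199809392200) (nat_lit 98) (nat_lit 5) (nat_lit 101) (nat_lit 5) (nat_lit 102) (nat_lit 5) (nat_lit 494) (nat_lit 471) (nat_lit 235)) (XT.lf (nat_lit 0) (nat_lit 179402984396) (nat_lit 152) (nat_lit 1275352191449) (nat_lit 228) (nat_lit 1289520912838) (nat_lit 96) (nat_lit 5) (nat_lit 98) (nat_lit 5) (nat_lit 99) (nat_lit 5) (nat_lit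 495) (nat_lit 471) (nat_lit 234)))) (XT.nd (nat_lit 156) (nat_lit 228) (nat_lit 0) (XT.nd (nat_lit 78) (nat_lit 228) (nat_lit 0) (XT.lf (nat_lit 0) (nat_lit 103418688969) (nat_lit 152) (nat_lit 2523611950931) (nat_lit 228) (nat_lit 253294573394) (nat_lit 94) (nat_lit 5) (nat_lit 96) (nat_lit 5) (nat_lit 97) (nat_lit 5) (nat_lit 496) (nat_lit 471) (nat_lit 233)) (XT.lf (nat_lit 0) (nat_lit 16513571242) (nat_lit 152) (nat_lit 888777794591) (nat_lit 228) (nat_lit 2117932327709) (nat_lit 91) (nat_lit 5) (nat_lit 93) (nat_lit 5) (nat_lit 94) (nat_lit 5) (nat_lit 497) (nat_lit 471) (nat_lit 232))) (XT.nd (nat_lit 78) (nat_lit 228) (nat_lit 0) (XT.lf (nat_lit 0) (nat_lit 2210663488862) (nat_lit 228) (nat_lit 61319720082) (nat_lit 76) (nat_lit 902214548933) (nat_lit 91) (nat_lit 5) (nat_lit 94) (nat_lit 5) (nat_lit 92) (nat_lit 5) (nat_lit 498) (nat_lit 471) (nat_lit 231)) (XT.lf (nat_lit 0) (nat_lit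 340280034001) (nat_lit 228) (nat_lit 132113603437) (nat_lit 76) (nat_lit 2861328567000) (nat_lit 88) (nat_lit 5) (nat_lit 91) (nat_lit 5) (nat_lit 89) (nat_lit 5) (nat_lit 499) (nat_lit 471) (nat_lit 230))))) (XT.nd (nat_lit 312) (nat_lit 380) (nat_lit 0) (XT.nd (nat_lit 156) (nat_lit 0) (nat_lit 76) (XT.nd (nat_lit 78) (nat_lit 0) (nat_lit 76) (XT.lf (nat_lit 0) (nat_lit 229273677255) (nat_lit 836) (nat_lit 144093345430) (nat_lit 836) (nat_lit 144093345430) (nat_lit 163) (nat_lit 3) (nat_lit 174) (nat_lit 3) (nat_lit 174) (nat_lit 5) (nat_lit 472) (nat_lit 472) (nat_lit 256)) (XT.lf (nat_lit 0) (nat_lit 486611766486) (nat_lit 760) (nat_lit 522824818925) (nat_lit 836) (nat_lit 66394854372) (nat_lit 164) (nat_lit 5) (nat_lit 174) (nat_lit 5) (nat_lit 175) (nat_lit 5) (nat_lit 473) (nat_lit 472) (nat_lit 255))) (XT.nd (nat_lit 78) (nat_lit 0) (nat_lit 76) (XT.lf (nat_lit 76) (nat_lit 350569257312)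 (nat_lit 0) (nat_lit 189519055029) (nat_lit 836) (nat_lit 578768338233) (nat_lit 165) (nat_lit 5) (nat_lit 164) (nat_lit 5) (nat_lit 175) (nat_lit 5) (nat_lit 474) (nat_lit 472) (nat_lit 254)) (XT.lf (nat_lit 76) (nat_lit 141137854186) (nat_lit 0) (nat_lit 479031630627) (nat_lit 836) (nat_lit 544038068268) (nat_lit 166) (nat_lit 5) (nat_lit 165) (nat_lit 5) (nat_lit 176) (nat_lit 5) (nat_lit 475) (nat_lit 472) (nat_lit 253)))) (XT.nd (nat_lit 156) (nat_lit 608) (nat_lit 0) (XT.nd (nat_lit 78) (nat_lit 0) (nat_lit 76) (XT.lf (nat_lit 0) (nat_lit 729808302297) (nat_lit 760) (nat_lit 71533052633) (nat_lit 836) (nat_lit 410687615299) (nat_lit 166) (nat_lit 5) (nat_lit 176) (nat_lit 5) (nat_lit 177) (nat_lit 5) (nat_lit 476) (nat_lit 472) (nat_lit 252)) (XT.lf (nat_lit 0) (nat_lit 873269886553) (nat_lit 760) (nat_lit 284794924430) (nat_lit 836) (nat_lit 104358706699) (nat_lit 167) (nat_lit 5) (nat_lit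 177) (nat_lit 5) (nat_lit 178) (nat_lit 5) (nat_lit 477) (nat_lit 472) (nat_lit 251))) (XT.nd (nat_lit 78) (nat_lit 684) (nat_lit 0) (XT.lf (nat_lit 76) (nat_lit 808845874358) (nat_lit 0) (nat_lit 246769432888) (nat_lit 836) (nat_lit 259863976199) (nat_lit 168) (nat_lit 5) (nat_lit 167) (nat_lit 5) (nat_lit 178) (nat_lit 5) (nat_lit 478) (nat_lit 472) (nat_lit 250)) (XT.lf (nat_lit 0) (nat_lit 636390194036) (nat_lit 760) (nat_lit 642649608462) (nat_lit 836) (nat_lit 92415135928) (nat_lit 158) (nat_lit 5) (nat_lit 168) (nat_lit 5) (nat_lit 169) (nat_lit 5) (nat_lit 479) (nat_lit 472) (nat_lit 249))))))))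
noncomputable def xc123 : XT := (XT.nd (nat_lit 62946) (nat_lit 0) (nat_lit 228) (XT.nd (nat_lit 1248) (nat_lit 532) (nat_lit 0) (XT.nd (nat_lit 624) (nat_lit 1976) (nat_lit 0) (XT.nd (nat_lit 312) (nat_lit 1292) (nat_lit 0) (XT.nd (nat_lit 156) (nat_lit 380) (nat_lit 0) (XT.nd (nat_lit 78) (nat_lit 380) (nat_lit 0) (XT.lf (nat_lit 0) (nat_lit 111648957289) (nat_lit 532) (nat_lit 969718432311) (nat_lit 76) (nat_lit 349169742223) (nat_lit 151) (nat_lit 5) (nat_lit 158) (nat_lit 5) (nat_lit 152) (nat_lit 5) (nat_lit 480) (nat_lit 472) (nat_lit 248)) (XT.lf (nat_lit 0) (nat_lit 281315464881) (nat_lit 380) (nat_lit 75770846903) (nat_lit 456) (nat_lit 1135769543299) (nat_lit 146) (nat_lit 5) (nat_lit 151) (nat_lit 5) (nat_lit 152) (nat_lit 5) (nat_lit 481) (nat_lit 472) (nat_lit 247))) (XT.nd (nat_lit 78) (nat_lit 0) (nat_lit 0) (XT.lf (nat_lit 0) (nat_lit 94726646621) (nat_lit 380) (nat_lit 561852935580)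 (nat_lit 456) (nat_lit 901859447624) (nat_lit 141) (nat_lit 5) (nat_lit 146) (nat_lit 5) (nat_lit 147) (nat_lit 5) (nat_lit 482) (nat_lit 472) (nat_lit 246)) (XT.lf (nat_lit 0) (nat_lit 1010903273280) (nat_lit 456) (nat_lit 89221601294) (nat_lit 76) (nat_lit 527600436022) (nat_lit 141) (nat_lit 5) (nat_lit 147) (nat_lit 5) (nat_lit 142) (nat_lit 5) (nat_lit 483) (nat_lit 472) (nat_lit 245)))) (XT.nd (nat_lit 156) (nat_lit 608) (nat_lit 0) (XT.nd (nat_lit 78) (nat_lit 380) (nat_lit 0) (XT.lf (nat_lit 0) (nat_lit 1425494030711) (nat_lit 380) (nat_lit 269485810440) (nat_lit 76) (nat_lit 5978594123) (nat_lit 137) (nat_lit 5) (nat_lit 142) (nat_lit 5) (nat_lit 138) (nat_lit 5) (nat_lit 484) (nat_lit 472) (nat_lit 244)) (XT.lf (nat_lit 0) (nat_lit 131636932300) (nat_lit 380) (nat_lit 459403843916) (nat_lit 76) (nat_lit 1186865769897) (nat_lit 132) (nat_lit 5) (nat_lit 137) (nat_lit 5) (nat_lit 133)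 (nat_lit 5) (nat_lit 485) (nat_lit 472) (nat_lit 243))) (XT.nd (nat_lit 78) (nat_lit 304) (nat_lit 0) (XT.lf (nat_lit 0) (nat_lit 595402511425) (nat_lit 380) (nat_lit 652847767235) (nat_lit 76) (nat_lit 610847083354) (nat_lit 128) (nat_lit 5) (nat_lit 133) (nat_lit 5) (nat_lit 129) (nat_lit 5) (nat_lit 486) (nat_lit 472) (nat_lit 242)) (XT.lf (nat_lit 0) (nat_lit 1100296285710) (nat_lit 304) (nat_lit 31251490122) (nat_lit 380) (nat_lit 813471745406) (nat_lit 124) (nat_lit 5) (nat_lit 128) (nat_lit 5) (nat_lit 129) (nat_lit 5) (nat_lit 487) (nat_lit 472) (nat_lit 241))))) (XT.nd (nat_lit 312) (nat_lit 912) (nat_lit 0) (XT.nd (nat_lit 156) (nat_lit 456) (nat_lit 0) (XT.nd (nat_lit 78) (nat_lit 380) (nat_lit 0) (XT.lf (nat_lit 0) (nat_lit 991265350087) (nat_lit 228) (nat_lit 766387252994) (nat_lit 304) (nat_lit 277809453036) (nat_lit 121) (nat_lit 5) (nat_lit 124) (nat_lit 5) (nat_lit 125) (nat_lit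 5) (nat_lit 488) (nat_lit 472) (nat_lit 240)) (XT.lf (nat_lit 0) (nat_lit 329508930367) (nat_lit 380) (nat_lit 1245323948110) (nat_lit 76) (nat_lit 556150993683) (nat_lit 116) (nat_lit 5) (nat_lit 121) (nat_lit 5) (nat_lit 117) (nat_lit 5) (nat_lit 489) (nat_lit 472) (nat_lit 239))) (XT.nd (nat_lit 78) (nat_lit 228) (nat_lit 0) (XT.lf (nat_lit 0) (nat_lit 781048207459) (nat_lit 228) (nat_lit 238366062441) (nat_lit 304) (nat_lit 1212318722148) (nat_lit 113) (nat_lit 5) (nat_lit 116) (nat_lit 5) (nat_lit 117) (nat_lit 5) (nat_lit 490) (nat_lit 472) (nat_lit 238)) (XT.lf (nat_lit 0) (nat_lit 677043122222) (nat_lit 228) (nat_lit 1138901519469) (nat_lit 304) (nat_lit 522025769582) (nat_lit 110) (nat_lit 5) (nat_lit 113) (nat_lit 5) (nat_lit 114) (nat_lit 5) (nat_lit 491) (nat_lit 472) (nat_lit 237)))) (XT.nd (nat_lit 156) (nat_lit 456) (nat_lit 0) (XT.nd (nat_lit 78) (nat_lit 228) (nat_lit 0) (XT.lf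 (nat_lit 0) (nat_lit 260360865595) (nat_lit 228) (nat_lit 1869569102853) (nat_lit 76) (nat_lit 320401222744) (nat_lit 107) (nat_lit 5) (nat_lit 110) (nat_lit 5) (nat_lit 108) (nat_lit 5) (nat_lit 492) (nat_lit 472) (nat_lit 236)) (XT.lf (nat_lit 0) (nat_lit 477671471769) (nat_lit 228) (nat_lit 665690557017) (nat_lit 304) (nat_lit 1425075272883) (nat_lit 104) (nat_lit 5) (nat_lit 107) (nat_lit 5) (nat_lit 108) (nat_lit 5) (nat_lit 493) (nat_lit 472) (nat_lit 235))) (XT.nd (nat_lit 78) (nat_lit 304) (nat_lit 0) (XT.lf (nat_lit 0) (nat_lit 382501532236) (nat_lit 152) (nat_lit 1767870694355) (nat_lit 228) (nat_lit 542951227313) (nat_lit 102) (nat_lit 5) (nat_lit 104) (nat_lit 5) (nat_lit 105) (nat_lit 5) (nat_lit 494) (nat_lit 472) (nat_lit 234)) (XT.lf (nat_lit 0) (nat_lit 293072455062) (nat_lit 228) (nat_lit 156373236072) (nat_lit 304) (nat_lit 2375794081767) (nat_lit 98) (nat_lit 5) (nat_lit 101)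 (nat_lit 5) (nat_lit 102) (nat_lit 5) (nat_lit 495) (nat_lit 472) (nat_lit 233)))))) (XT.nd (nat_lit 61074) (nat_lit 0) (nat_lit 3496) (XT.nd (nat_lit 60762) (nat_lit 0) (nat_lit 5548) (XT.nd (nat_lit 156) (nat_lit 228) (nat_lit 0) (XT.nd (nat_lit 78) (nat_lit 152) (nat_lit 0) (XT.lf (nat_lit 0) (nat_lit 193755315202) (nat_lit 152) (nat_lit 1377380331157) (nat_lit 228) (nat_lit 1392682526594) (nat_lit 96) (nat_lit 5) (nat_lit 98) (nat_lit 5) (nat_lit 99) (nat_lit 5) (nat_lit 496) (nat_lit 472) (nat_lit 232)) (XT.lf (nat_lit 0) (nat_lit 111692274310) (nat_lit 152) (nat_lit 2725500870971) (nat_lit 228) (nat_lit 273558082365) (nat_lit 94) (nat_lit 5) (nat_lit 96) (nat_lit 5) (nat_lit 97) (nat_lit 5) (nat_lit 497) (nat_lit 472) (nat_lit 231))) (XT.nd (nat_lit 60528) (nat_lit 0) (nat_lit 5472) (XT.lf (nat_lit 0) (nat_lit 17834744988) (nat_lit 152) (nat_lit 959879982486) (nat_lit 228) (nat_lit 2287366858932)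 (nat_lit 91) (nat_lit 5) (nat_lit 93) (nat_lit 5) (nat_lit 94) (nat_lit 5) (nat_lit 498) (nat_lit 472) (nat_lit 230)) (XT.lf (nat_lit 0) (nat_lit 247615663573) (nat_lit 836) (nat_lit 155620764688) (nat_lit 836) (nat_lit 155620764688) (nat_lit 163) (nat_lit 3) (nat_lit 174) (nat_lit 3) (nat_lit 174) (nat_lit 5) (nat_lit 473) (nat_lit 473) (nat_lit 254)))) (XT.nd (nat_lit 156) (nat_lit 0) (nat_lit 76) (XT.nd (nat_lit 78) (nat_lit 0) (nat_lit 0) (XT.lf (nat_lit 0) (nat_lit 525540878633) (nat_lit 760) (nat_lit 564650702034) (nat_lit 836) (nat_lit 71706365744) (nat_lit 164) (nat_lit 5) (nat_lit 174) (nat_lit 5) (nat_lit 175) (nat_lit 5) (nat_lit 474) (nat_lit 473) (nat_lit 253)) (XT.lf (nat_lit 76) (nat_lit 378614895852) (nat_lit 0) (nat_lit 204680641181) (nat_lit 836) (nat_lit 625069637590) (nat_lit 165) (nat_lit 5) (nat_lit 164) (nat_lit 5) (nat_lit 175) (nat_lit 5) (nat_lit 475) (nat_lit 473) (nat_lit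 252))) (XT.nd (nat_lit 78) (nat_lit 0) (nat_lit 76) (XT.lf (nat_lit 76) (nat_lit 152428984791) (nat_lit 0) (nat_lit 517354207385) (nat_lit 836) (nat_lit 587560957712) (nat_lit 166) (nat_lit 5) (nat_lit 165) (nat_lit 5) (nat_lit 176) (nat_lit 5) (nat_lit 476) (nat_lit 473) (nat_lit 251)) (XT.lf (nat_lit 0) (nat_lit 788193103384) (nat_lit 760) (nat_lit 77255594592) (nat_lit 836) (nat_lit 443542583017) (nat_lit 166) (nat_lit 5) (nat_lit 176) (nat_lit 5) (nat_lit 177) (nat_lit 5) (nat_lit 477) (nat_lit 473) (nat_lit 250))))) (XT.nd (nat_lit 312) (nat_lit 1064) (nat_lit 0) (XT.nd (nat_lit 156) (nat_lit 1216) (nat_lit 0) (XT.nd (nat_lit 78) (nat_lit 0) (nat_lit 0) (XT.lf (nat_lit 0) (nat_lit 943131605290) (nat_lit 760) (nat_lit 307578413676) (nat_lit 836) (nat_lit 112707373731) (nat_lit 167) (nat_lit 5) (nat_lit 177) (nat_lit 5) (nat_lit 178) (nat_lit 5) (nat_lit 478) (nat_lit 473) (nat_lit 249)) (XT.lf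 (nat_lit 76) (nat_lit 873553644465) (nat_lit 0) (nat_lit 266511007270) (nat_lit 836) (nat_lit 280652968381) (nat_lit 168) (nat_lit 5) (nat_lit 167) (nat_lit 5) (nat_lit 178) (nat_lit 5) (nat_lit 479) (nat_lit 473) (nat_lit 248))) (XT.nd (nat_lit 78) (nat_lit 532) (nat_lit 0) (XT.lf (nat_lit 0) (nat_lit 687301511402) (nat_lit 760) (nat_lit 694061587627) (nat_lit 836) (nat_lit 99808228846) (nat_lit 158) (nat_lit 5) (nat_lit 168) (nat_lit 5) (nat_lit 169) (nat_lit 5) (nat_lit 480) (nat_lit 473) (nat_lit 247)) (XT.lf (nat_lit 0) (nat_lit 120580981075) (nat_lit 532) (nat_lit 1047295800389) (nat_lit 76) (nat_lit 377103315538) (nat_lit 151) (nat_lit 5) (nat_lit 158) (nat_lit 5) (nat_lit 152) (nat_lit 5) (nat_lit 481) (nat_lit 473) (nat_lit 246)))) (XT.nd (nat_lit 156) (nat_lit 304) (nat_lit 0) (XT.nd (nat_lit 78) (nat_lit 380) (nat_lit 0) (XT.lf (nat_lit 0) (nat_lit 303820803950) (nat_lit 380) (nat_lit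 81832513629) (nat_lit 456) (nat_lit 1226631000862) (nat_lit 146) (nat_lit 5) (nat_lit 151) (nat_lit 5) (nat_lit 152) (nat_lit 5) (nat_lit 482) (nat_lit 473) (nat_lit 245)) (XT.lf (nat_lit 0) (nat_lit 102304880616) (nat_lit 380) (nat_lit 606801163155) (nat_lit 456) (nat_lit 974008103684) (nat_lit 141) (nat_lit 5) (nat_lit 146) (nat_lit 5) (nat_lit 147) (nat_lit 5) (nat_lit 483) (nat_lit 473) (nat_lit 244))) (XT.nd (nat_lit 78) (nat_lit 304) (nat_lit 0) (XT.lf (nat_lit 0) (nat_lit 1091775623204) (nat_lit 456) (nat_lit 96359230408) (nat_lit 76) (nat_lit 569808477422) (nat_lit 141) (nat_lit 5) (nat_lit 147) (nat_lit 5) (nat_lit 142) (nat_lit 5) (nat_lit 484) (nat_lit 473) (nat_lit 243)) (XT.lf (nat_lit 0) (nat_lit 1539533636368) (nat_lit 380) (nat_lit 291044576614) (nat_lit 76) (nat_lit 6456892949) (nat_lit 137) (nat_lit 5) (nat_lit 142) (nat_lit 5) (nat_lit 138) (nat_lit 5) (nat_lit 485) (nat_lit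 473) (nat_lit 242))))))) (XT.nd (nat_lit 61776) (nat_lit 0) (nat_lit 1444) (XT.nd (nat_lit 624) (nat_lit 988) (nat_lit 0) (XT.nd (nat_lit 312) (nat_lit 1064) (nat_lit 0) (XT.nd (nat_lit 156) (nat_lit 532) (nat_lit 0) (XT.nd (nat_lit 78) (nat_lit 304) (nat_lit 0) (XT.lf (nat_lit 0) (nat_lit 142167966686) (nat_lit 380) (nat_lit 496156054413) (nat_lit 76) (nat_lit 1281815044709) (nat_lit 132) (nat_lit 5) (nat_lit 137) (nat_lit 5) (nat_lit 133) (nat_lit 5) (nat_lit 486) (nat_lit 473) (nat_lit 241)) (XT.lf (nat_lit 0) (nat_lit 643034787951) (nat_lit 380) (nat_lit 705075492315) (nat_lit 76) (nat_lit 659714866924) (nat_lit 128) (nat_lit 5) (nat_lit 133) (nat_lit 5) (nat_lit 129) (nat_lit 5) (nat_lit 487) (nat_lit 473) (nat_lit 240))) (XT.nd (nat_lit 78) (nat_lit 228) (nat_lit 0) (XT.lf (nat_lit 0) (nat_lit 1188320080680) (nat_lit 304) (nat_lit 33751588667) (nat_lit 380) (nat_lit 878549410013) (nat_lit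 124) (nat_lit 5) (nat_lit 128) (nat_lit 5) (nat_lit 129) (nat_lit 5) (nat_lit 488) (nat_lit 473) (nat_lit 239)) (XT.lf (nat_lit 0) (nat_lit 1070566669317) (nat_lit 228) (nat_lit 827698209890) (nat_lit 304) (nat_lit 300034138002) (nat_lit 121) (nat_lit 5) (nat_lit 124) (nat_lit 5) (nat_lit 125) (nat_lit 5) (nat_lit 489) (nat_lit 473) (nat_lit 238)))) (XT.nd (nat_lit 156) (nat_lit 456) (nat_lit 0) (XT.nd (nat_lit 78) (nat_lit 228) (nat_lit 0) (XT.lf (nat_lit 0) (nat_lit 355869710455) (nat_lit 380) (nat_lit 1344949771624) (nat_lit 76) (nat_lit 600643096567) (nat_lit 116) (nat_lit 5) (nat_lit 121) (nat_lit 5) (nat_lit 117) (nat_lit 5) (nat_lit 490) (nat_lit 473) (nat_lit 237)) (XT.lf (nat_lit 0) (nat_lit 843532152377) (nat_lit 228) (nat_lit 257435321288) (nat_lit 304) (nat_lit 1309304154634) (nat_lit 113) (nat_lit 5) (nat_lit 116) (nat_lit 5) (nat_lit 117) (nat_lit 5) (nat_lit 491) (nat_lit 473)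 (nat_lit 236))) (XT.nd (nat_lit 78) (nat_lit 228) (nat_lit 0) (XT.lf (nat_lit 0) (nat_lit 731206659070) (nat_lit 228) (nat_lit 1230013613263) (nat_lit 304) (nat_lit 563787768874) (nat_lit 110) (nat_lit 5) (nat_lit 113) (nat_lit 5) (nat_lit 114) (nat_lit 5) (nat_lit 492) (nat_lit 473) (nat_lit 235)) (XT.lf (nat_lit 0) (nat_lit 281189792427) (nat_lit 228) (nat_lit 2019134543465) (nat_lit 76) (nat_lit 346033347715) (nat_lit 107) (nat_lit 5) (nat_lit 110) (nat_lit 5) (nat_lit 108) (nat_lit 5) (nat_lit 493) (nat_lit 473) (nat_lit 234))))) (XT.nd (nat_lit 312) (nat_lit 152) (nat_lit 0) (XT.nd (nat_lit 156) (nat_lit 456) (nat_lit 0) (XT.nd (nat_lit 78) (nat_lit 152) (nat_lit 0) (XT.lf (nat_lit 0) (nat_lit 515885273319) (nat_lit 228) (nat_lit 718945772396) (nat_lit 304) (nat_lit 1539081237353) (nat_lit 104) (nat_lit 5) (nat_lit 107) (nat_lit 5) (nat_lit 108) (nat_lit 5) (nat_lit 494) (nat_lit 473) (nat_lit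 233)) (XT.lf (nat_lit 0) (nat_lit 413101737161) (nat_lit 152) (nat_lit 1909300319846) (nat_lit 228) (nat_lit 586387270594) (nat_lit 102) (nat_lit 5) (nat_lit 104) (nat_lit 5) (nat_lit 105) (nat_lit 5) (nat_lit 495) (nat_lit 473) (nat_lit 232))) (XT.nd (nat_lit 78) (nat_lit 152) (nat_lit 0) (XT.lf (nat_lit 0) (nat_lit 316518331917) (nat_lit 228) (nat_lit 168883064975) (nat_lit 304) (nat_lit 2565857555316) (nat_lit 98) (nat_lit 5) (nat_lit 101) (nat_lit 5) (nat_lit 102) (nat_lit 5) (nat_lit 496) (nat_lit 473) (nat_lit 231)) (XT.lf (nat_lit 0) (nat_lit 209255819340) (nat_lit 152) (nat_lit 1487570727122) (nat_lit 228) (nat_lit 1504097077906) (nat_lit 96) (nat_lit 5) (nat_lit 98) (nat_lit 5) (nat_lit 99) (nat_lit 5) (nat_lit 497) (nat_lit 473) (nat_lit 230)))) (XT.nd (nat_lit 60684) (nat_lit 0) (nat_lit 5320) (XT.nd (nat_lit 60606) (nat_lit 0) (nat_lit 5244) (XT.lf (nat_lit 0) (nat_lit 120627733606)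 (nat_lit 152) (nat_lit 2943540909755) (nat_lit 228) (nat_lit 295442680171) (nat_lit 94) (nat_lit 5) (nat_lit 96) (nat_lit 5) (nat_lit 97) (nat_lit 5) (nat_lit 498) (nat_lit 473) (nat_lit 229)) (XT.lf (nat_lit 0) (nat_lit 267424995652) (nat_lit 836) (nat_lit 168070384389) (nat_lit 836) (nat_lit 168070384389) (nat_lit 163) (nat_lit 3) (nat_lit 174) (nat_lit 3) (nat_lit 174) (nat_lit 5) (nat_lit 474) (nat_lit 474) (nat_lit 252))) (XT.nd (nat_lit 78) (nat_lit 0) (nat_lit 0) (XT.lf (nat_lit 0) (nat_lit 567584295382) (nat_lit 760) (nat_lit 609822670401) (nat_lit 836) (nat_lit 77442809007) (nat_lit 164) (nat_lit 5) (nat_lit 174) (nat_lit 5) (nat_lit 175) (nat_lit 5) (nat_lit 475) (nat_lit 474) (nat_lit 251)) (XT.lf (nat_lit 76) (nat_lit 408904171500) (nat_lit 0) (nat_lit 221055145415) (nat_lit 836) (nat_lit 675075064821) (nat_lit 165) (nat_lit 5) (nat_lit 164) (nat_lit 5) (nat_lit 175) (nat_lit 5) (nat_lit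 476) (nat_lit 474) (nat_lit 250)))))) (XT.nd (nat_lit 624) (nat_lit 2128) (nat_lit 0) (XT.nd (nat_lit 312) (nat_lit 1824) (nat_lit 0) (XT.nd (nat_lit 156) (nat_lit 0) (nat_lit 152) (XT.nd (nat_lit 78) (nat_lit 0) (nat_lit 76) (XT.lf (nat_lit 76) (nat_lit 164623391254) (nat_lit 0) (nat_lit 558742583678) (nat_lit 836) (nat_lit 634565700568) (nat_lit 166) (nat_lit 5) (nat_lit 165) (nat_lit 5) (nat_lit 176) (nat_lit 5) (nat_lit 477) (nat_lit 474) (nat_lit 249)) (XT.lf (nat_lit 0) (nat_lit 851248669026) (nat_lit 760) (nat_lit 83435954494) (nat_lit 836) (nat_lit 479025954074) (nat_lit 166) (nat_lit 5) (nat_lit 176) (nat_lit 5) (nat_lit 177) (nat_lit 5) (nat_lit 478) (nat_lit 474) (nat_lit 248))) (XT.nd (nat_lit 78) (nat_lit 0) (nat_lit 0) (XT.lf (nat_lit 0) (nat_lit 1018582243292) (nat_lit 760) (nat_lit 332184596999) (nat_lit 836) (nat_lit 121723938334) (nat_lit 167) (nat_lit 5) (nat_lit 177) (nat_lit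 5) (nat_lit 178) (nat_lit 5) (nat_lit 479) (nat_lit 474) (nat_lit 247)) (XT.lf (nat_lit 76) (nat_lit 943438021892) (nat_lit 0) (nat_lit 287831904785) (nat_lit 836) (nat_lit 303105097901) (nat_lit 168) (nat_lit 5) (nat_lit 167) (nat_lit 5) (nat_lit 178) (nat_lit 5) (nat_lit 480) (nat_lit 474) (nat_lit 246)))) (XT.nd (nat_lit 156) (nat_lit 760) (nat_lit 0) (XT.nd (nat_lit 78) (nat_lit 532) (nat_lit 0) (XT.lf (nat_lit 0) (nat_lit 742285719630) (nat_lit 760) (nat_lit 749586523628) (nat_lit 836) (nat_lit 107792786025) (nat_lit 158) (nat_lit 5) (nat_lit 168) (nat_lit 5) (nat_lit 169) (nat_lit 5) (nat_lit 481) (nat_lit 474) (nat_lit 245)) (XT.lf (nat_lit 0) (nat_lit 130227551471) (nat_lit 532) (nat_lit 1131079373108) (nat_lit 76) (nat_lit 407271575583) (nat_lit 151) (nat_lit 5) (nat_lit 158) (nat_lit 5) (nat_lit 152) (nat_lit 5) (nat_lit 482) (nat_lit 474) (nat_lit 244))) (XT.nd (nat_lit 78) (nat_lit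 380) (nat_lit 0) (XT.lf (nat_lit 0) (nat_lit 328126555610) (nat_lit 380) (nat_lit 88379113840) (nat_lit 456) (nat_lit 1324761390137) (nat_lit 146) (nat_lit 5) (nat_lit 151) (nat_lit 5) (nat_lit 152) (nat_lit 5) (nat_lit 483) (nat_lit 474) (nat_lit 243)) (XT.lf (nat_lit 0) (nat_lit 110489358742) (nat_lit 380) (nat_lit 655345249973) (nat_lit 456) (nat_lit 1051928666460) (nat_lit 141) (nat_lit 5) (nat_lit 146) (nat_lit 5) (nat_lit 147) (nat_lit 5) (nat_lit 484) (nat_lit 474) (nat_lit 242))))) (XT.nd (nat_lit 312) (nat_lit 1140) (nat_lit 0) (XT.nd (nat_lit 156) (nat_lit 684) (nat_lit 0) (XT.nd (nat_lit 78) (nat_lit 304) (nat_lit 0) (XT.lf (nat_lit 0) (nat_lit 1179117748560) (nat_lit 456) (nat_lit 104067883974) (nat_lit 76) (nat_lit 615393161203) (nat_lit 141) (nat_lit 5) (nat_lit 147) (nat_lit 5) (nat_lit 142) (nat_lit 5) (nat_lit 485) (nat_lit 474) (nat_lit 241)) (XT.lf (nat_lit 0) (nat_lit 1662696398607)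 (nat_lit 380) (nat_lit 314328058158) (nat_lit 76) (nat_lit 6973454069) (nat_lit 137) (nat_lit 5) (nat_lit 142) (nat_lit 5) (nat_lit 138) (nat_lit 5) (nat_lit 486) (nat_lit 474) (nat_lit 240))) (XT.nd (nat_lit 78) (nat_lit 304) (nat_lit 0) (XT.lf (nat_lit 0) (nat_lit 153541472438) (nat_lit 380) (nat_lit 535848455590) (nat_lit 76) (nat_lit 1384360259619) (nat_lit 132) (nat_lit 5) (nat_lit 137) (nat_lit 5) (nat_lit 133) (nat_lit 5) (nat_lit 487) (nat_lit 474) (nat_lit 239)) (XT.lf (nat_lit 0) (nat_lit 694477635812) (nat_lit 380) (nat_lit 761481449139) (nat_lit 76) (nat_lit 712492070769) (nat_lit 128) (nat_lit 5) (nat_lit 133) (nat_lit 5) (nat_lit 129) (nat_lit 5) (nat_lit 488) (nat_lit 474) (nat_lit 238)))) (XT.nd (nat_lit 156) (nat_lit 608) (nat_lit 0) (XT.nd (nat_lit 78) (nat_lit 228) (nat_lit 0) (XT.lf (nat_lit 0) (nat_lit 1283385766108) (nat_lit 304) (nat_lit 36451698044) (nat_lit 380) (nat_lit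 948833298492) (nat_lit 124) (nat_lit 5) (nat_lit 128) (nat_lit 5) (nat_lit 129) (nat_lit 5) (nat_lit 489) (nat_lit 474) (nat_lit 237)) (XT.lf (nat_lit 0) (nat_lit 1156212081072) (nat_lit 228) (nat_lit 893914046668) (nat_lit 304) (nat_lit 324036807933) (nat_lit 121) (nat_lit 5) (nat_lit 124) (nat_lit 5) (nat_lit 125) (nat_lit 5) (nat_lit 490) (nat_lit 474) (nat_lit 236))) (XT.nd (nat_lit 78) (nat_lit 228) (nat_lit 0) (XT.lf (nat_lit 0) (nat_lit 384339343584) (nat_lit 380) (nat_lit 1452545674192) (nat_lit 76) (nat_lit 648694564345) (nat_lit 116) (nat_lit 5) (nat_lit 121) (nat_lit 5) (nat_lit 117) (nat_lit 5) (nat_lit 491) (nat_lit 474) (nat_lit 235)) (XT.lf (nat_lit 0) (nat_lit 911014800290) (nat_lit 228) (nat_lit 278030124574) (nat_lit 304) (nat_lit 1414048431032) (nat_lit 113) (nat_lit 5) (nat_lit 116) (nat_lit 5) (nat_lit 117) (nat_lit 5) (nat_lit 492) (nat_lit 474) (nat_lit 234))))))))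
noncomputable def xc124 : XT := (XT.nd (nat_lit 123786) (nat_lit 0) (nat_lit 456) (XT.nd (nat_lit 61776) (nat_lit 0) (nat_lit 152) (XT.nd (nat_lit 61152) (nat_lit 0) (nat_lit 4180) (XT.nd (nat_lit 234) (nat_lit 608) (nat_lit 0) (XT.nd (nat_lit 78) (nat_lit 456) (nat_lit 0) (XT.lf (nat_lit 0) (nat_lit 789703266444) (nat_lit 228) (nat_lit 1328414678521) (nat_lit 304) (nat_lit 608890736993) (nat_lit 110) (nat_lit 5) (nat_lit 113) (nat_lit 5) (nat_lit 114) (nat_lit 5) (nat_lit 493) (nat_lit 474) (nat_lit 233)) (XT.nd (nat_lit 78) (nat_lit 228) (nat_lit 0) (XT.lf (nat_lit 0) (nat_lit 303685025190) (nat_lit 228) (nat_lit 2180665231825) (nat_lit 76) (nat_lit 373716038810) (nat_lit 107) (nat_lit 5) (nat_lit 110) (nat_lit 5) (nat_lit 108) (nat_lit 5) (nat_lit 494) (nat_lit 474) (nat_lit 232)) (XT.lf (nat_lit 0) (nat_lit 557156167038) (nat_lit 228) (nat_lit 776461409169) (nat_lit 304) (nat_lit 1662207687164)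 (nat_lit 104) (nat_lit 5) (nat_lit 107) (nat_lit 5) (nat_lit 108) (nat_lit 5) (nat_lit 495) (nat_lit 474) (nat_lit 231)))) (XT.nd (nat_lit 156) (nat_lit 152) (nat_lit 0) (XT.nd (nat_lit 78) (nat_lit 304) (nat_lit 0) (XT.lf (nat_lit 0) (nat_lit 446149946732) (nat_lit 152) (nat_lit 2062044319664) (nat_lit 228) (nat_lit 633298205169) (nat_lit 102) (nat_lit 5) (nat_lit 104) (nat_lit 5) (nat_lit 105) (nat_lit 5) (nat_lit 496) (nat_lit 474) (nat_lit 230)) (XT.lf (nat_lit 0) (nat_lit 341839867443) (nat_lit 228) (nat_lit 182393684467) (nat_lit 304) (nat_lit 2771126114310) (nat_lit 98) (nat_lit 5) (nat_lit 101) (nat_lit 5) (nat_lit 102) (nat_lit 5) (nat_lit 497) (nat_lit 474) (nat_lit 229))) (XT.nd (nat_lit 60684) (nat_lit 0) (nat_lit 5092) (XT.lf (nat_lit 0) (nat_lit 225996352549) (nat_lit 152) (nat_lit 1606576359120) (nat_lit 228) (nat_lit 1624424800572) (nat_lit 96) (nat_lit 5) (nat_lit 98) (nat_lit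 5) (nat_lit 99) (nat_lit 5) (nat_lit 498) (nat_lit 474) (nat_lit 228)) (XT.lf (nat_lit 0) (nat_lit 288819063028) (nat_lit 836) (nat_lit 181515979583) (nat_lit 836) (nat_lit 181515979583) (nat_lit 163) (nat_lit 3) (nat_lit 174) (nat_lit 3) (nat_lit 174) (nat_lit 5) (nat_lit 475) (nat_lit 475) (nat_lit 250))))) (XT.nd (nat_lit 312) (nat_lit 988) (nat_lit 0) (XT.nd (nat_lit 156) (nat_lit 0) (nat_lit 76) (XT.nd (nat_lit 78) (nat_lit 0) (nat_lit 0) (XT.lf (nat_lit 0) (nat_lit 612991164577) (nat_lit 760) (nat_lit 658608408762) (nat_lit 836) (nat_lit 83638177147) (nat_lit 164) (nat_lit 5) (nat_lit 174) (nat_lit 5) (nat_lit 175) (nat_lit 5) (nat_lit 476) (nat_lit 475) (nat_lit 249)) (XT.lf (nat_lit 76) (nat_lit 441616577220) (nat_lit 0) (nat_lit 238739602436) (nat_lit 836) (nat_lit 729080946741) (nat_lit 165) (nat_lit 5) (nat_lit 164) (nat_lit 5) (nat_lit 175) (nat_lit 5) (nat_lit 477) (nat_lit 475)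 (nat_lit 248))) (XT.nd (nat_lit 78) (nat_lit 0) (nat_lit 76) (XT.lf (nat_lit 76) (nat_lit 177793337726) (nat_lit 0) (nat_lit 603442024410) (nat_lit 836) (nat_lit 685330841936) (nat_lit 166) (nat_lit 5) (nat_lit 165) (nat_lit 5) (nat_lit 176) (nat_lit 5) (nat_lit 478) (nat_lit 475) (nat_lit 247)) (XT.lf (nat_lit 0) (nat_lit 919348663176) (nat_lit 760) (nat_lit 90110755694) (nat_lit 836) (nat_lit 517347999893) (nat_lit 166) (nat_lit 5) (nat_lit 176) (nat_lit 5) (nat_lit 177) (nat_lit 5) (nat_lit 479) (nat_lit 475) (nat_lit 246)))) (XT.nd (nat_lit 156) (nat_lit 1216) (nat_lit 0) (XT.nd (nat_lit 78) (nat_lit 0) (nat_lit 0) (XT.lf (nat_lit 0) (nat_lit 1100068916702) (nat_lit 760) (nat_lit 358759287794) (nat_lit 836) (nat_lit 131461831714) (nat_lit 167) (nat_lit 5) (nat_lit 177) (nat_lit 5) (nat_lit 178) (nat_lit 5) (nat_lit 480) (nat_lit 475) (nat_lit 245)) (XT.lf (nat_lit 76) (nat_lit 1018913137263)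 (nat_lit 0) (nat_lit 310858471685) (nat_lit 836) (nat_lit 327353413183) (nat_lit 168) (nat_lit 5) (nat_lit 167) (nat_lit 5) (nat_lit 178) (nat_lit 5) (nat_lit 481) (nat_lit 475) (nat_lit 244))) (XT.nd (nat_lit 78) (nat_lit 532) (nat_lit 0) (XT.lf (nat_lit 0) (nat_lit 801668652058) (nat_lit 760) (nat_lit 809553453227) (nat_lit 836) (nat_lit 116416122206) (nat_lit 158) (nat_lit 5) (nat_lit 168) (nat_lit 5) (nat_lit 169) (nat_lit 5) (nat_lit 482) (nat_lit 475) (nat_lit 243)) (XT.lf (nat_lit 0) (nat_lit 140645834386) (nat_lit 532) (nat_lit 1221565644671) (nat_lit 76) (nat_lit 439853297173) (nat_lit 151) (nat_lit 5) (nat_lit 158) (nat_lit 5) (nat_lit 152) (nat_lit 5) (nat_lit 483) (nat_lit 475) (nat_lit 242)))))) (XT.nd (nat_lit 624) (nat_lit 1748) (nat_lit 0) (XT.nd (nat_lit 312) (nat_lit 1216) (nat_lit 0) (XT.nd (nat_lit 156) (nat_lit 304) (nat_lit 0) (XT.nd (nat_lit 78) (nat_lit 380) (nat_lit 0)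 (XT.lf (nat_lit 0) (nat_lit 354376754943) (nat_lit 380) (nat_lit 95449442193) (nat_lit 456) (nat_lit 1430742223507) (nat_lit 146) (nat_lit 5) (nat_lit 151) (nat_lit 5) (nat_lit 152) (nat_lit 5) (nat_lit 484) (nat_lit 475) (nat_lit 241)) (XT.lf (nat_lit 0) (nat_lit 119328582609) (nat_lit 380) (nat_lit 707772864625) (nat_lit 456) (nat_lit 1136082886458) (nat_lit 141) (nat_lit 5) (nat_lit 146) (nat_lit 5) (nat_lit 147) (nat_lit 5) (nat_lit 485) (nat_lit 475) (nat_lit 240))) (XT.nd (nat_lit 78) (nat_lit 304) (nat_lit 0) (XT.lf (nat_lit 0) (nat_lit 1273447233173) (nat_lit 456) (nat_lit 112393241932) (nat_lit 76) (nat_lit 664624618890) (nat_lit 141) (nat_lit 5) (nat_lit 147) (nat_lit 5) (nat_lit 142) (nat_lit 5) (nat_lit 486) (nat_lit 475) (nat_lit 239)) (XT.lf (nat_lit 0) (nat_lit 1795712171650) (nat_lit 380) (nat_lit 339474230292) (nat_lit 76) (nat_lit 7531338698) (nat_lit 137) (nat_lit 5) (nat_lit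 142) (nat_lit 5) (nat_lit 138) (nat_lit 5) (nat_lit 487) (nat_lit 475) (nat_lit 238)))) (XT.nd (nat_lit 156) (nat_lit 532) (nat_lit 0) (XT.nd (nat_lit 78) (nat_lit 304) (nat_lit 0) (XT.lf (nat_lit 0) (nat_lit 165824848890) (nat_lit 380) (nat_lit 578716260727) (nat_lit 76) (nat_lit 1495109090106) (nat_lit 132) (nat_lit 5) (nat_lit 137) (nat_lit 5) (nat_lit 133) (nat_lit 5) (nat_lit 488) (nat_lit 475) (nat_lit 237)) (XT.lf (nat_lit 0) (nat_lit 750035902254) (nat_lit 380) (nat_lit 822399894288) (nat_lit 76) (nat_lit 769491448854) (nat_lit 128) (nat_lit 5) (nat_lit 133) (nat_lit 5) (nat_lit 129) (nat_lit 5) (nat_lit 489) (nat_lit 475) (nat_lit 236))) (XT.nd (nat_lit 78) (nat_lit 228) (nat_lit 0) (XT.lf (nat_lit 0) (nat_lit 1386056695103) (nat_lit 304) (nat_lit 39367818698) (nat_lit 380) (nat_lit 1024739907225) (nat_lit 124) (nat_lit 5) (nat_lit 128) (nat_lit 5) (nat_lit 129) (nat_lit 5) (nat_lit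 490) (nat_lit 475) (nat_lit 235)) (XT.lf (nat_lit 0) (nat_lit 1248709114609) (nat_lit 228) (nat_lit 965427153243) (nat_lit 304) (nat_lit 349959700177) (nat_lit 121) (nat_lit 5) (nat_lit 124) (nat_lit 5) (nat_lit 125) (nat_lit 5) (nat_lit 491) (nat_lit 475) (nat_lit 234))))) (XT.nd (nat_lit 390) (nat_lit 684) (nat_lit 0) (XT.nd (nat_lit 156) (nat_lit 456) (nat_lit 0) (XT.nd (nat_lit 78) (nat_lit 228) (nat_lit 0) (XT.lf (nat_lit 0) (nat_lit 415086539332) (nat_lit 380) (nat_lit 1568749260259) (nat_lit 76) (nat_lit 700590146684) (nat_lit 116) (nat_lit 5) (nat_lit 121) (nat_lit 5) (nat_lit 117) (nat_lit 5) (nat_lit 492) (nat_lit 475) (nat_lit 233)) (XT.lf (nat_lit 0) (nat_lit 983896049232) (nat_lit 228) (nat_lit 300272515321) (nat_lit 304) (nat_lit 1527172257528) (nat_lit 113) (nat_lit 5) (nat_lit 116) (nat_lit 5) (nat_lit 117) (nat_lit 5) (nat_lit 493) (nat_lit 475) (nat_lit 232))) (XT.nd (nat_lit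 78) (nat_lit 228) (nat_lit 0) (XT.lf (nat_lit 0) (nat_lit 852879591758) (nat_lit 228) (nat_lit 1434687832396) (nat_lit 304) (nat_lit 657601950179) (nat_lit 110) (nat_lit 5) (nat_lit 113) (nat_lit 5) (nat_lit 114) (nat_lit 5) (nat_lit 494) (nat_lit 475) (nat_lit 231)) (XT.lf (nat_lit 0) (nat_lit 327979869532) (nat_lit 228) (nat_lit 2355118385970) (nat_lit 76) (nat_lit 403613341871) (nat_lit 107) (nat_lit 5) (nat_lit 110) (nat_lit 5) (nat_lit 108) (nat_lit 5) (nat_lit 495) (nat_lit 475) (nat_lit 230)))) (XT.nd (nat_lit 60840) (nat_lit 0) (nat_lit 4940) (XT.nd (nat_lit 78) (nat_lit 304) (nat_lit 0) (XT.lf (nat_lit 0) (nat_lit 481842002997) (nat_lit 152) (nat_lit 2227007843144) (nat_lit 228) (nat_lit 683962021226) (nat_lit 102) (nat_lit 5) (nat_lit 104) (nat_lit 5) (nat_lit 105) (nat_lit 5) (nat_lit 497) (nat_lit 475) (nat_lit 228)) (XT.lf (nat_lit 0) (nat_lit 369187115972) (nat_lit 228) (nat_lit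 196985157185) (nat_lit 304) (nat_lit 2992816164504) (nat_lit 98) (nat_lit 5) (nat_lit 101) (nat_lit 5) (nat_lit 102) (nat_lit 5) (nat_lit 498) (nat_lit 475) (nat_lit 227))) (XT.nd (nat_lit 78) (nat_lit 0) (nat_lit 76) (XT.lf (nat_lit 0) (nat_lit 311924646132) (nat_lit 836) (nat_lit 196037227464) (nat_lit 836) (nat_lit 196037227464) (nat_lit 163) (nat_lit 3) (nat_lit 174) (nat_lit 3) (nat_lit 174) (nat_lit 5) (nat_lit 476) (nat_lit 476) (nat_lit 248)) (XT.lf (nat_lit 0) (nat_lit 662030565394) (nat_lit 760) (nat_lit 711297016930) (nat_lit 836) (nat_lit 90329182809) (nat_lit 164) (nat_lit 5) (nat_lit 174) (nat_lit 5) (nat_lit 175) (nat_lit 5) (nat_lit 477) (nat_lit 476) (nat_lit 247))))))) (XT.nd (nat_lit 1248) (nat_lit 1064) (nat_lit 0) (XT.nd (nat_lit 624) (nat_lit 2280) (nat_lit 0) (XT.nd (nat_lit 312) (nat_lit 1368) (nat_lit 0) (XT.nd (nat_lit 156) (nat_lit 0) (nat_lit 152) (XT.nd (nat_lit 78)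 (nat_lit 0) (nat_lit 76) (XT.lf (nat_lit 76) (nat_lit 476945965125) (nat_lit 0) (nat_lit 257838809544) (nat_lit 836) (nat_lit 787407316800) (nat_lit 165) (nat_lit 5) (nat_lit 164) (nat_lit 5) (nat_lit 175) (nat_lit 5) (nat_lit 478) (nat_lit 476) (nat_lit 246)) (XT.lf (nat_lit 76) (nat_lit 192016869191) (nat_lit 0) (nat_lit 651717415545) (nat_lit 836) (nat_lit 740157210973) (nat_lit 166) (nat_lit 5) (nat_lit 165) (nat_lit 5) (nat_lit 176) (nat_lit 5) (nat_lit 479) (nat_lit 476) (nat_lit 245))) (XT.nd (nat_lit 78) (nat_lit 0) (nat_lit 76) (XT.lf (nat_lit 0) (nat_lit 992896642502) (nat_lit 760) (nat_lit 97319551714) (nat_lit 836) (nat_lit 558735813728) (nat_lit 166) (nat_lit 5) (nat_lit 176) (nat_lit 5) (nat_lit 177) (nat_lit 5) (nat_lit 480) (nat_lit 476) (nat_lit 244)) (XT.lf (nat_lit 0) (nat_lit 1188074510582) (nat_lit 760) (nat_lit 387459964834) (nat_lit 836) (nat_lit 141978759658) (nat_lit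 167) (nat_lit 5) (nat_lit 177) (nat_lit 5) (nat_lit 178) (nat_lit 5) (nat_lit 481) (nat_lit 476) (nat_lit 243)))) (XT.nd (nat_lit 156) (nat_lit 912) (nat_lit 0) (XT.nd (nat_lit 78) (nat_lit 684) (nat_lit 0) (XT.lf (nat_lit 76) (nat_lit 1100426251360) (nat_lit 0) (nat_lit 335727161866) (nat_lit 836) (nat_lit 353541606891) (nat_lit 168) (nat_lit 5) (nat_lit 167) (nat_lit 5) (nat_lit 178) (nat_lit 5) (nat_lit 482) (nat_lit 476) (nat_lit 242)) (XT.lf (nat_lit 0) (nat_lit 865802208402) (nat_lit 760) (nat_lit 874317736094) (nat_lit 836) (nat_lit 125729337650) (nat_lit 158) (nat_lit 5) (nat_lit 168) (nat_lit 5) (nat_lit 169) (nat_lit 5) (nat_lit 483) (nat_lit 476) (nat_lit 241))) (XT.nd (nat_lit 78) (nat_lit 380) (nat_lit 0) (XT.lf (nat_lit 0) (nat_lit 151897568692) (nat_lit 532) (nat_lit 1319290829127) (nat_lit 76) (nat_lit 475041557126) (nat_lit 151) (nat_lit 5) (nat_lit 158) (nat_lit 5) (nat_lit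 152) (nat_lit 5) (nat_lit 484) (nat_lit 476) (nat_lit 240)) (XT.lf (nat_lit 0) (nat_lit 382726959539) (nat_lit 380) (nat_lit 103085396922) (nat_lit 456) (nat_lit 1545201534651) (nat_lit 146) (nat_lit 5) (nat_lit 151) (nat_lit 5) (nat_lit 152) (nat_lit 5) (nat_lit 485) (nat_lit 476) (nat_lit 239))))) (XT.nd (nat_lit 312) (nat_lit 1216) (nat_lit 0) (XT.nd (nat_lit 156) (nat_lit 684) (nat_lit 0) (XT.nd (nat_lit 78) (nat_lit 0) (nat_lit 0) (XT.lf (nat_lit 0) (nat_lit 128874933663) (nat_lit 380) (nat_lit 764394689213) (nat_lit 456) (nat_lit 1226969454516) (nat_lit 141) (nat_lit 5) (nat_lit 146) (nat_lit 5) (nat_lit 147) (nat_lit 5) (nat_lit 486) (nat_lit 476) (nat_lit 238)) (XT.lf (nat_lit 0) (nat_lit 1375323067321) (nat_lit 456) (nat_lit 121384638907) (nat_lit 76) (nat_lit 717794592509) (nat_lit 141) (nat_lit 5) (nat_lit 147) (nat_lit 5) (nat_lit 142) (nat_lit 5) (nat_lit 487) (nat_lit 476) (nat_lit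 237))) (XT.nd (nat_lit 78) (nat_lit 380) (nat_lit 0) (XT.lf (nat_lit 0) (nat_lit 1939369197812) (nat_lit 380) (nat_lit 366632106542) (nat_lit 76) (nat_lit 8133852912) (nat_lit 137) (nat_lit 5) (nat_lit 142) (nat_lit 5) (nat_lit 138) (nat_lit 5) (nat_lit 488) (nat_lit 476) (nat_lit 236)) (XT.lf (nat_lit 0) (nat_lit 179090887089) (nat_lit 380) (nat_lit 625013500448) (nat_lit 76) (nat_lit 1614717825645) (nat_lit 132) (nat_lit 5) (nat_lit 137) (nat_lit 5) (nat_lit 133) (nat_lit 5) (nat_lit 489) (nat_lit 476) (nat_lit 235)))) (XT.nd (nat_lit 156) (nat_lit 608) (nat_lit 0) (XT.nd (nat_lit 78) (nat_lit 304) (nat_lit 0) (XT.lf (nat_lit 0) (nat_lit 810038822083) (nat_lit 380) (nat_lit 888191825146) (nat_lit 76) (nat_lit 831050775413) (nat_lit 128) (nat_lit 5) (nat_lit 133) (nat_lit 5) (nat_lit 129) (nat_lit 5) (nat_lit 490) (nat_lit 476) (nat_lit 234)) (XT.lf (nat_lit 0) (nat_lit 1496941288759) (nat_lit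 304) (nat_lit 42517231172) (nat_lit 380) (nat_lit 1106719052524) (nat_lit 124) (nat_lit 5) (nat_lit 128) (nat_lit 5) (nat_lit 129) (nat_lit 5) (nat_lit 491) (nat_lit 476) (nat_lit 233))) (XT.nd (nat_lit 78) (nat_lit 380) (nat_lit 0) (XT.lf (nat_lit 0) (nat_lit 1348605901264) (nat_lit 228) (nat_lit 1042661310792) (nat_lit 304) (nat_lit 377956431274) (nat_lit 121) (nat_lit 5) (nat_lit 124) (nat_lit 5) (nat_lit 125) (nat_lit 5) (nat_lit 492) (nat_lit 476) (nat_lit 232)) (XT.lf (nat_lit 0) (nat_lit 448293503855) (nat_lit 380) (nat_lit 1694249142893) (nat_lit 76) (nat_lit 756637373158) (nat_lit 116) (nat_lit 5) (nat_lit 121) (nat_lit 5) (nat_lit 117) (nat_lit 5) (nat_lit 493) (nat_lit 476) (nat_lit 231)))))) (XT.nd (nat_lit 61464) (nat_lit 0) (nat_lit 2964) (XT.nd (nat_lit 61152) (nat_lit 0) (nat_lit 4636) (XT.nd (nat_lit 234) (nat_lit 608) (nat_lit 0) (XT.nd (nat_lit 78) (nat_lit 228) (nat_lit 0)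 (XT.lf (nat_lit 0) (nat_lit 1062607788828) (nat_lit 228) (nat_lit 324294300069) (nat_lit 304) (nat_lit 1649345996989) (nat_lit 113) (nat_lit 5) (nat_lit 116) (nat_lit 5) (nat_lit 117) (nat_lit 5) (nat_lit 494) (nat_lit 476) (nat_lit 230)) (XT.lf (nat_lit 0) (nat_lit 921110013967) (nat_lit 228) (nat_lit 1549462841492) (nat_lit 304) (nat_lit 710210066950) (nat_lit 110) (nat_lit 5) (nat_lit 113) (nat_lit 5) (nat_lit 114) (nat_lit 5) (nat_lit 495) (nat_lit 476) (nat_lit 229))) (XT.nd (nat_lit 78) (nat_lit 152) (nat_lit 0) (XT.lf (nat_lit 0) (nat_lit 649867072577) (nat_lit 228) (nat_lit 905664546100) (nat_lit 304) (nat_lit 1938798964626) (nat_lit 104) (nat_lit 5) (nat_lit 107) (nat_lit 5) (nat_lit 108) (nat_lit 5) (nat_lit 497) (nat_lit 476) (nat_lit 227)) (XT.lf (nat_lit 0) (nat_lit 520389415129) (nat_lit 152) (nat_lit 2405168451654) (nat_lit 228) (nat_lit 738678948325) (nat_lit 102) (nat_lit 5)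 (nat_lit 104) (nat_lit 5) (nat_lit 105) (nat_lit 5) (nat_lit 498) (nat_lit 476) (nat_lit 226)))) (XT.nd (nat_lit 156) (nat_lit 0) (nat_lit 76) (XT.nd (nat_lit 78) (nat_lit 0) (nat_lit 76) (XT.lf (nat_lit 0) (nat_lit 336878667602) (nat_lit 836) (nat_lit 211720179526) (nat_lit 836) (nat_lit 211720179526) (nat_lit 163) (nat_lit 3) (nat_lit 174) (nat_lit 3) (nat_lit 174) (nat_lit 5) (nat_lit 477) (nat_lit 477) (nat_lit 246)) (XT.lf (nat_lit 0) (nat_lit 714993102918) (nat_lit 760) (nat_lit 768200722959) (nat_lit 836) (nat_lit 97555475845) (nat_lit 164) (nat_lit 5) (nat_lit 174) (nat_lit 5) (nat_lit 175) (nat_lit 5) (nat_lit 478) (nat_lit 477) (nat_lit 245))) (XT.nd (nat_lit 78) (nat_lit 0) (nat_lit 76) (XT.lf (nat_lit 76) (nat_lit 515101695257) (nat_lit 0) (nat_lit 278465947668) (nat_lit 836) (nat_lit 850399811540) (nat_lit 165) (nat_lit 5) (nat_lit 164) (nat_lit 5) (nat_lit 175) (nat_lit 5) (nat_lit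 479) (nat_lit 477) (nat_lit 244)) (XT.lf (nat_lit 76) (nat_lit 207378273980) (nat_lit 0) (nat_lit 703854833808) (nat_lit 836) (nat_lit 799369703559) (nat_lit 166) (nat_lit 5) (nat_lit 165) (nat_lit 5) (nat_lit 176) (nat_lit 5) (nat_lit 480) (nat_lit 477) (nat_lit 243))))) (XT.nd (nat_lit 312) (nat_lit 1292) (nat_lit 0) (XT.nd (nat_lit 156) (nat_lit 608) (nat_lit 0) (XT.nd (nat_lit 78) (nat_lit 0) (nat_lit 76) (XT.lf (nat_lit 0) (nat_lit 1072328447867) (nat_lit 760) (nat_lit 105105060607) (nat_lit 836) (nat_lit 603434656403) (nat_lit 166) (nat_lit 5) (nat_lit 176) (nat_lit 5) (nat_lit 177) (nat_lit 5) (nat_lit 481) (nat_lit 477) (nat_lit 242)) (XT.lf (nat_lit 0) (nat_lit 1283120540482) (nat_lit 760) (nat_lit 418456705449) (nat_lit 836) (nat_lit 153337044491) (nat_lit 167) (nat_lit 5) (nat_lit 177) (nat_lit 5) (nat_lit 178) (nat_lit 5) (nat_lit 482) (nat_lit 477) (nat_lit 241))) (XT.nd (nat_lit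 78) (nat_lit 684) (nat_lit 0) (XT.lf (nat_lit 76) (nat_lit 1188460405582) (nat_lit 0) (nat_lit 362585345486) (nat_lit 836) (nat_lit 381824867415) (nat_lit 168) (nat_lit 5) (nat_lit 167) (nat_lit 5) (nat_lit 178) (nat_lit 5) (nat_lit 483) (nat_lit 477) (nat_lit 240)) (XT.lf (nat_lit 0) (nat_lit 935066440097) (nat_lit 760) (nat_lit 944263160648) (nat_lit 836) (nat_lit 135787620933) (nat_lit 158) (nat_lit 5) (nat_lit 168) (nat_lit 5) (nat_lit 169) (nat_lit 5) (nat_lit 484) (nat_lit 477) (nat_lit 239)))) (XT.nd (nat_lit 156) (nat_lit 380) (nat_lit 0) (XT.nd (nat_lit 78) (nat_lit 380) (nat_lit 0) (XT.lf (nat_lit 0) (nat_lit 164049432106) (nat_lit 532) (nat_lit 1424834037915) (nat_lit 76) (nat_lit 513044878420) (nat_lit 151) (nat_lit 5) (nat_lit 158) (nat_lit 5) (nat_lit 152) (nat_lit 5) (nat_lit 485) (nat_lit 477) (nat_lit 238)) (XT.lf (nat_lit 0) (nat_lit 413345171344) (nat_lit 380) (nat_lit 111332228122)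 (nat_lit 456) (nat_lit 1668817600208) (nat_lit 146) (nat_lit 5) (nat_lit 151) (nat_lit 5) (nat_lit 152) (nat_lit 5) (nat_lit 486) (nat_lit 477) (nat_lit 237))) (XT.nd (nat_lit 78) (nat_lit 0) (nat_lit 0) (XT.lf (nat_lit 0) (nat_lit 139184983607) (nat_lit 380) (nat_lit 825546260421) (nat_lit 456) (nat_lit 1325126956985) (nat_lit 141) (nat_lit 5) (nat_lit 146) (nat_lit 5) (nat_lit 147) (nat_lit 5) (nat_lit 487) (nat_lit 477) (nat_lit 236)) (XT.lf (nat_lit 0) (nat_lit 1485348960283) (nat_lit 456) (nat_lit 131095356539) (nat_lit 76) (nat_lit 775218163431) (nat_lit 141) (nat_lit 5) (nat_lit 147) (nat_lit 5) (nat_lit 142) (nat_lit 5) (nat_lit 488) (nat_lit 477) (nat_lit 235))))))))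
noncomputable def xc125 : XT := (XT.nd (nat_lit 124332) (nat_lit 0) (nat_lit 684) (XT.nd (nat_lit 62088) (nat_lit 0) (nat_lit 456) (XT.nd (nat_lit 624) (nat_lit 456) (nat_lit 0) (XT.nd (nat_lit 312) (nat_lit 1064) (nat_lit 0) (XT.nd (nat_lit 156) (nat_lit 608) (nat_lit 0) (XT.nd (nat_lit 78) (nat_lit 380) (nat_lit 0) (XT.lf (nat_lit 0) (nat_lit 2094518778587) (nat_lit 380) (nat_lit 395962621762) (nat_lit 76) (nat_lit 8784567248) (nat_lit 137) (nat_lit 5) (nat_lit 142) (nat_lit 5) (nat_lit 138) (nat_lit 5) (nat_lit 489) (nat_lit 477) (nat_lit 234)) (XT.lf (nat_lit 0) (nat_lit 193418201171) (nat_lit 380) (nat_lit 675014528069) (nat_lit 76) (nat_lit 1743895258839) (nat_lit 132) (nat_lit 5) (nat_lit 137) (nat_lit 5) (nat_lit 133) (nat_lit 5) (nat_lit 490) (nat_lit 477) (nat_lit 233))) (XT.nd (nat_lit 78) (nat_lit 304) (nat_lit 0) (XT.lf (nat_lit 0) (nat_lit 874841968700) (nat_lit 380) (nat_lit 959247119130)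 (nat_lit 76) (nat_lit 897534846578) (nat_lit 128) (nat_lit 5) (nat_lit 133) (nat_lit 5) (nat_lit 129) (nat_lit 5) (nat_lit 491) (nat_lit 477) (nat_lit 232)) (XT.lf (nat_lit 0) (nat_lit 1616696641626) (nat_lit 304) (nat_lit 45918598501) (nat_lit 380) (nat_lit 1195256536192) (nat_lit 124) (nat_lit 5) (nat_lit 128) (nat_lit 5) (nat_lit 129) (nat_lit 5) (nat_lit 492) (nat_lit 477) (nat_lit 231)))) (XT.nd (nat_lit 156) (nat_lit 456) (nat_lit 0) (XT.nd (nat_lit 78) (nat_lit 380) (nat_lit 0) (XT.lf (nat_lit 0) (nat_lit 1456494422651) (nat_lit 228) (nat_lit 1126074203044) (nat_lit 304) (nat_lit 408192907267) (nat_lit 121) (nat_lit 5) (nat_lit 124) (nat_lit 5) (nat_lit 125) (nat_lit 5) (nat_lit 493) (nat_lit 477) (nat_lit 230)) (XT.lf (nat_lit 0) (nat_lit 484157019637) (nat_lit 380) (nat_lit 1829789024439) (nat_lit 76) (nat_lit 817168375647) (nat_lit 116) (nat_lit 5) (nat_lit 121) (nat_lit 5) (nat_lit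 117) (nat_lit 5) (nat_lit 494) (nat_lit 477) (nat_lit 229))) (XT.nd (nat_lit 78) (nat_lit 228) (nat_lit 0) (XT.lf (nat_lit 0) (nat_lit 1147616459652) (nat_lit 228) (nat_lit 350237829948) (nat_lit 304) (nat_lit 1781293641476) (nat_lit 113) (nat_lit 5) (nat_lit 116) (nat_lit 5) (nat_lit 117) (nat_lit 5) (nat_lit 495) (nat_lit 477) (nat_lit 228)) (XT.lf (nat_lit 0) (nat_lit 994798862126) (nat_lit 228) (nat_lit 1673419853812) (nat_lit 304) (nat_lit 767026838661) (nat_lit 110) (nat_lit 5) (nat_lit 113) (nat_lit 5) (nat_lit 114) (nat_lit 5) (nat_lit 496) (nat_lit 477) (nat_lit 227))))) (XT.nd (nat_lit 61152) (nat_lit 0) (nat_lit 4560) (XT.nd (nat_lit 60996) (nat_lit 0) (nat_lit 4484) (XT.nd (nat_lit 78) (nat_lit 228) (nat_lit 0) (XT.lf (nat_lit 0) (nat_lit 382555790123) (nat_lit 228) (nat_lit 2747009978429) (nat_lit 76) (nat_lit 470774635106) (nat_lit 107) (nat_lit 5) (nat_lit 110) (nat_lit 5) (nat_lit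 108) (nat_lit 5) (nat_lit 497) (nat_lit 477) (nat_lit 226)) (XT.lf (nat_lit 0) (nat_lit 701856483663) (nat_lit 228) (nat_lit 978117694021) (nat_lit 304) (nat_lit 2093902850806) (nat_lit 104) (nat_lit 5) (nat_lit 107) (nat_lit 5) (nat_lit 108) (nat_lit 5) (nat_lit 498) (nat_lit 477) (nat_lit 225))) (XT.nd (nat_lit 78) (nat_lit 0) (nat_lit 76) (XT.lf (nat_lit 0) (nat_lit 363829003688) (nat_lit 836) (nat_lit 228657771480) (nat_lit 836) (nat_lit 228657771480) (nat_lit 163) (nat_lit 3) (nat_lit 174) (nat_lit 3) (nat_lit 174) (nat_lit 5) (nat_lit 478) (nat_lit 478) (nat_lit 244)) (XT.lf (nat_lit 0) (nat_lit 772192630279) (nat_lit 760) (nat_lit 829656733362) (nat_lit 836) (nat_lit 105359878257) (nat_lit 164) (nat_lit 5) (nat_lit 174) (nat_lit 5) (nat_lit 175) (nat_lit 5) (nat_lit 479) (nat_lit 478) (nat_lit 243)))) (XT.nd (nat_lit 156) (nat_lit 0) (nat_lit 152) (XT.nd (nat_lit 78) (nat_lit 0) (nat_lit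 76) (XT.lf (nat_lit 76) (nat_lit 556309876250) (nat_lit 0) (nat_lit 300743252083) (nat_lit 836) (nat_lit 918431718785) (nat_lit 165) (nat_lit 5) (nat_lit 164) (nat_lit 5) (nat_lit 175) (nat_lit 5) (nat_lit 480) (nat_lit 478) (nat_lit 242)) (XT.lf (nat_lit 76) (nat_lit 223968583269) (nat_lit 0) (nat_lit 760163241962) (nat_lit 836) (nat_lit 863319207577) (nat_lit 166) (nat_lit 5) (nat_lit 165) (nat_lit 5) (nat_lit 176) (nat_lit 5) (nat_lit 481) (nat_lit 478) (nat_lit 241))) (XT.nd (nat_lit 78) (nat_lit 0) (nat_lit 76) (XT.lf (nat_lit 0) (nat_lit 1158114787109) (nat_lit 760) (nat_lit 113513418093) (nat_lit 836) (nat_lit 651709409690) (nat_lit 166) (nat_lit 5) (nat_lit 176) (nat_lit 5) (nat_lit 177) (nat_lit 5) (nat_lit 482) (nat_lit 478) (nat_lit 240)) (XT.lf (nat_lit 0) (nat_lit 1385770242922) (nat_lit 760) (nat_lit 451933193385) (nat_lit 836) (nat_lit 165603994384) (nat_lit 167) (nat_lit 5) (nat_lit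 177) (nat_lit 5) (nat_lit 178) (nat_lit 5) (nat_lit 483) (nat_lit 478) (nat_lit 239)))))) (XT.nd (nat_lit 624) (nat_lit 1672) (nat_lit 0) (XT.nd (nat_lit 312) (nat_lit 1064) (nat_lit 0) (XT.nd (nat_lit 156) (nat_lit 912) (nat_lit 0) (XT.nd (nat_lit 78) (nat_lit 684) (nat_lit 0) (XT.lf (nat_lit 76) (nat_lit 1283537284421) (nat_lit 0) (nat_lit 391592182274) (nat_lit 836) (nat_lit 412370798486) (nat_lit 168) (nat_lit 5) (nat_lit 167) (nat_lit 5) (nat_lit 178) (nat_lit 5) (nat_lit 484) (nat_lit 478) (nat_lit 238)) (XT.lf (nat_lit 0) (nat_lit 1009871802479) (nat_lit 760) (nat_lit 1019804218357) (nat_lit 836) (nat_lit 146650575972) (nat_lit 158) (nat_lit 5) (nat_lit 168) (nat_lit 5) (nat_lit 169) (nat_lit 5) (nat_lit 485) (nat_lit 478) (nat_lit 237))) (XT.nd (nat_lit 78) (nat_lit 380) (nat_lit 0) (XT.lf (nat_lit 0) (nat_lit 177173436330) (nat_lit 532) (nat_lit 1538820711615) (nat_lit 76) (nat_lit 554088465885)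 (nat_lit 151) (nat_lit 5) (nat_lit 158) (nat_lit 5) (nat_lit 152) (nat_lit 5) (nat_lit 486) (nat_lit 478) (nat_lit 236)) (XT.lf (nat_lit 0) (nat_lit 446412832240) (nat_lit 380) (nat_lit 120238805896) (nat_lit 456) (nat_lit 1802322959171) (nat_lit 146) (nat_lit 5) (nat_lit 151) (nat_lit 5) (nat_lit 152) (nat_lit 5) (nat_lit 487) (nat_lit 478) (nat_lit 235)))) (XT.nd (nat_lit 156) (nat_lit 684) (nat_lit 0) (XT.nd (nat_lit 78) (nat_lit 0) (nat_lit 0) (XT.lf (nat_lit 0) (nat_lit 150319829664) (nat_lit 380) (nat_lit 891589957886) (nat_lit 456) (nat_lit 1431137067341) (nat_lit 141) (nat_lit 5) (nat_lit 146) (nat_lit 5) (nat_lit 147) (nat_lit 5) (nat_lit 488) (nat_lit 478) (nat_lit 234)) (XT.lf (nat_lit 0) (nat_lit 1604176917896) (nat_lit 456) (nat_lit 141582939212) (nat_lit 76) (nat_lit 837235619525) (nat_lit 141) (nat_lit 5) (nat_lit 147) (nat_lit 5) (nat_lit 142) (nat_lit 5) (nat_lit 489) (nat_lit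 478) (nat_lit 233))) (XT.nd (nat_lit 78) (nat_lit 380) (nat_lit 0) (XT.lf (nat_lit 0) (nat_lit 2262080319411) (nat_lit 380) (nat_lit 427639585804) (nat_lit 76) (nat_lit 9487337861) (nat_lit 137) (nat_lit 5) (nat_lit 142) (nat_lit 5) (nat_lit 138) (nat_lit 5) (nat_lit 490) (nat_lit 478) (nat_lit 232)) (XT.lf (nat_lit 0) (nat_lit 208891694228) (nat_lit 380) (nat_lit 729015645378) (nat_lit 76) (nat_lit 1883406885670) (nat_lit 132) (nat_lit 5) (nat_lit 137) (nat_lit 5) (nat_lit 133) (nat_lit 5) (nat_lit 491) (nat_lit 478) (nat_lit 231))))) (XT.nd (nat_lit 312) (nat_lit 456) (nat_lit 0) (XT.nd (nat_lit 156) (nat_lit 608) (nat_lit 0) (XT.nd (nat_lit 78) (nat_lit 304) (nat_lit 0) (XT.lf (nat_lit 0) (nat_lit 944829361219) (nat_lit 380) (nat_lit 1035986844056) (nat_lit 76) (nat_lit 969337642133) (nat_lit 128) (nat_lit 5) (nat_lit 133) (nat_lit 5) (nat_lit 129) (nat_lit 5) (nat_lit 492) (nat_lit 478) (nat_lit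 230)) (XT.lf (nat_lit 0) (nat_lit 1746032415623) (nat_lit 304) (nat_lit 49592076810) (nat_lit 380) (nat_lit 1290877024336) (nat_lit 124) (nat_lit 5) (nat_lit 128) (nat_lit 5) (nat_lit 129) (nat_lit 5) (nat_lit 493) (nat_lit 478) (nat_lit 229))) (XT.nd (nat_lit 78) (nat_lit 380) (nat_lit 0) (XT.lf (nat_lit 0) (nat_lit 1573014018717) (nat_lit 228) (nat_lit 1216160128475) (nat_lit 304) (nat_lit 440848306833) (nat_lit 121) (nat_lit 5) (nat_lit 124) (nat_lit 5) (nat_lit 125) (nat_lit 5) (nat_lit 494) (nat_lit 478) (nat_lit 228)) (XT.lf (nat_lit 0) (nat_lit 522889611621) (nat_lit 380) (nat_lit 1976172103625) (nat_lit 76) (nat_lit 882541856533) (nat_lit 116) (nat_lit 5) (nat_lit 121) (nat_lit 5) (nat_lit 117) (nat_lit 5) (nat_lit 495) (nat_lit 478) (nat_lit 227)))) (XT.nd (nat_lit 61152) (nat_lit 0) (nat_lit 4028) (XT.nd (nat_lit 78) (nat_lit 228) (nat_lit 0) (XT.lf (nat_lit 0) (nat_lit 1239425817335)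 (nat_lit 228) (nat_lit 378256844233) (nat_lit 304) (nat_lit 1923797102554) (nat_lit 113) (nat_lit 5) (nat_lit 116) (nat_lit 5) (nat_lit 117) (nat_lit 5) (nat_lit 496) (nat_lit 478) (nat_lit 226)) (XT.lf (nat_lit 0) (nat_lit 1074382811426) (nat_lit 228) (nat_lit 1807293429257) (nat_lit 304) (nat_lit 828388956909) (nat_lit 110) (nat_lit 5) (nat_lit 113) (nat_lit 5) (nat_lit 114) (nat_lit 5) (nat_lit 497) (nat_lit 478) (nat_lit 225))) (XT.nd (nat_lit 78) (nat_lit 0) (nat_lit 76) (XT.lf (nat_lit 0) (nat_lit 392935360572) (nat_lit 836) (nat_lit 246950373988) (nat_lit 836) (nat_lit 246950373988) (nat_lit 163) (nat_lit 3) (nat_lit 174) (nat_lit 3) (nat_lit 174) (nat_lit 5) (nat_lit 479) (nat_lit 479) (nat_lit 242)) (XT.lf (nat_lit 0) (nat_lit 833968108539) (nat_lit 760) (nat_lit 896029231364) (nat_lit 836) (nat_lit 113788637949) (nat_lit 164) (nat_lit 5) (nat_lit 174) (nat_lit 5) (nat_lit 175) (nat_lit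 5) (nat_lit 480) (nat_lit 479) (nat_lit 241))))))) (XT.nd (nat_lit 1248) (nat_lit 228) (nat_lit 0) (XT.nd (nat_lit 624) (nat_lit 2280) (nat_lit 0) (XT.nd (nat_lit 312) (nat_lit 1368) (nat_lit 0) (XT.nd (nat_lit 156) (nat_lit 0) (nat_lit 152) (XT.nd (nat_lit 78) (nat_lit 0) (nat_lit 76) (XT.lf (nat_lit 76) (nat_lit 600814705249) (nat_lit 0) (nat_lit 324802736772) (nat_lit 836) (nat_lit 991906189692) (nat_lit 165) (nat_lit 5) (nat_lit 164) (nat_lit 5) (nat_lit 175) (nat_lit 5) (nat_lit 481) (nat_lit 479) (nat_lit 240)) (XT.lf (nat_lit 76) (nat_lit 241886110543) (nat_lit 0) (nat_lit 820976319709) (nat_lit 836) (nat_lit 932384682226) (nat_lit 166) (nat_lit 5) (nat_lit 165) (nat_lit 5) (nat_lit 176) (nat_lit 5) (nat_lit 482) (nat_lit 479) (nat_lit 239))) (XT.nd (nat_lit 78) (nat_lit 0) (nat_lit 76) (XT.lf (nat_lit 0) (nat_lit 1250764024443) (nat_lit 760) (nat_lit 122594450934) (nat_lit 836) (nat_lit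 703846145982) (nat_lit 166) (nat_lit 5) (nat_lit 176) (nat_lit 5) (nat_lit 177) (nat_lit 5) (nat_lit 483) (nat_lit 479) (nat_lit 238)) (XT.lf (nat_lit 0) (nat_lit 1496631913113) (nat_lit 760) (nat_lit 488087807274) (nat_lit 836) (nat_lit 178852302218) (nat_lit 167) (nat_lit 5) (nat_lit 177) (nat_lit 5) (nat_lit 178) (nat_lit 5) (nat_lit 484) (nat_lit 479) (nat_lit 237)))) (XT.nd (nat_lit 156) (nat_lit 912) (nat_lit 0) (XT.nd (nat_lit 78) (nat_lit 684) (nat_lit 0) (XT.lf (nat_lit 76) (nat_lit 1386220306949) (nat_lit 0) (nat_lit 422919564699) (nat_lit 836) (nat_lit 445360412363) (nat_lit 168) (nat_lit 5) (nat_lit 167) (nat_lit 5) (nat_lit 178) (nat_lit 5) (nat_lit 485) (nat_lit 479) (nat_lit 236)) (XT.lf (nat_lit 0) (nat_lit 1090661587121) (nat_lit 760) (nat_lit 1101388559990) (nat_lit 836) (nat_lit 158382575207) (nat_lit 158) (nat_lit 5) (nat_lit 168) (nat_lit 5) (nat_lit 169) (nat_lit 5) (nat_lit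 486) (nat_lit 479) (nat_lit 235))) (XT.nd (nat_lit 78) (nat_lit 380) (nat_lit 0) (XT.lf (nat_lit 0) (nat_lit 191347353809) (nat_lit 532) (nat_lit 1661926326249) (nat_lit 76) (nat_lit 598415540748) (nat_lit 151) (nat_lit 5) (nat_lit 158) (nat_lit 5) (nat_lit 152) (nat_lit 5) (nat_lit 487) (nat_lit 479) (nat_lit 234)) (XT.lf (nat_lit 0) (nat_lit 482125899277) (nat_lit 380) (nat_lit 129857909961) (nat_lit 456) (nat_lit 1946508753850) (nat_lit 146) (nat_lit 5) (nat_lit 151) (nat_lit 5) (nat_lit 152) (nat_lit 5) (nat_lit 488) (nat_lit 479) (nat_lit 233))))) (XT.nd (nat_lit 312) (nat_lit 1216) (nat_lit 0) (XT.nd (nat_lit 156) (nat_lit 684) (nat_lit 0) (XT.nd (nat_lit 78) (nat_lit 0) (nat_lit 0) (XT.lf (nat_lit 0) (nat_lit 162345456648) (nat_lit 380) (nat_lit 962917151629) (nat_lit 456) (nat_lit 1545627993117) (nat_lit 141) (nat_lit 5) (nat_lit 146) (nat_lit 5) (nat_lit 147) (nat_lit 5) (nat_lit 489)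 (nat_lit 479) (nat_lit 232)) (XT.lf (nat_lit 0) (nat_lit 1732511106298) (nat_lit 456) (nat_lit 152909535039) (nat_lit 76) (nat_lit 904214471675) (nat_lit 141) (nat_lit 5) (nat_lit 147) (nat_lit 5) (nat_lit 142) (nat_lit 5) (nat_lit 490) (nat_lit 479) (nat_lit 231))) (XT.nd (nat_lit 78) (nat_lit 380) (nat_lit 0) (XT.lf (nat_lit 0) (nat_lit 2443046778003) (nat_lit 380) (nat_lit 461850713489) (nat_lit 76) (nat_lit 10246329375) (nat_lit 137) (nat_lit 5) (nat_lit 142) (nat_lit 5) (nat_lit 138) (nat_lit 5) (nat_lit 491) (nat_lit 479) (nat_lit 230)) (XT.lf (nat_lit 0) (nat_lit 225603061457) (nat_lit 380) (nat_lit 787336858481) (nat_lit 76) (nat_lit 2034079441773) (nat_lit 132) (nat_lit 5) (nat_lit 137) (nat_lit 5) (nat_lit 133) (nat_lit 5) (nat_lit 492) (nat_lit 479) (nat_lit 229)))) (XT.nd (nat_lit 156) (nat_lit 608) (nat_lit 0) (XT.nd (nat_lit 78) (nat_lit 304) (nat_lit 0) (XT.lf (nat_lit 0) (nat_lit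 1020415740144) (nat_lit 380) (nat_lit 1118865753338) (nat_lit 76) (nat_lit 1046884660216) (nat_lit 128) (nat_lit 5) (nat_lit 133) (nat_lit 5) (nat_lit 129) (nat_lit 5) (nat_lit 493) (nat_lit 479) (nat_lit 228)) (XT.lf (nat_lit 0) (nat_lit 1885715045452) (nat_lit 304) (nat_lit 53559434748) (nat_lit 380) (nat_lit 1394147156489) (nat_lit 124) (nat_lit 5) (nat_lit 128) (nat_lit 5) (nat_lit 129) (nat_lit 5) (nat_lit 494) (nat_lit 479) (nat_lit 227))) (XT.nd (nat_lit 78) (nat_lit 380) (nat_lit 0) (XT.lf (nat_lit 0) (nat_lit 1698855176440) (nat_lit 228) (nat_lit 1313452929483) (nat_lit 304) (nat_lit 476116143074) (nat_lit 121) (nat_lit 5) (nat_lit 124) (nat_lit 5) (nat_lit 125) (nat_lit 5) (nat_lit 495) (nat_lit 479) (nat_lit 226)) (XT.lf (nat_lit 0) (nat_lit 564720806624) (nat_lit 380) (nat_lit 2134265835248) (nat_lit 76) (nat_lit 953145214344) (nat_lit 116) (nat_lit 5) (nat_lit 121) (nat_lit 5) (nat_lit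 117) (nat_lit 5) (nat_lit 496) (nat_lit 479) (nat_lit 225)))))) (XT.nd (nat_lit 61698) (nat_lit 0) (nat_lit 1140) (XT.nd (nat_lit 61386) (nat_lit 0) (nat_lit 3952) (XT.nd (nat_lit 61230) (nat_lit 0) (nat_lit 3876) (XT.nd (nat_lit 61152) (nat_lit 0) (nat_lit 3800) (XT.lf (nat_lit 0) (nat_lit 1338579917795) (nat_lit 228) (nat_lit 408517381388) (nat_lit 304) (nat_lit 2077700844832) (nat_lit 113) (nat_lit 5) (nat_lit 116) (nat_lit 5) (nat_lit 117) (nat_lit 5) (nat_lit 497) (nat_lit 479) (nat_lit 224)) (XT.lf (nat_lit 0) (nat_lit 424370220787) (nat_lit 836) (nat_lit 266706387437) (nat_lit 836) (nat_lit 266706387437) (nat_lit 163) (nat_lit 3) (nat_lit 174) (nat_lit 3) (nat_lit 174) (nat_lit 5) (nat_lit 480) (nat_lit 480) (nat_lit 240))) (XT.nd (nat_lit 78) (nat_lit 0) (nat_lit 0) (XT.lf (nat_lit 0) (nat_lit 900685615383) (nat_lit 760) (nat_lit 967711535009) (nat_lit 836) (nat_lit 122891702777) (nat_lit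 164) (nat_lit 5) (nat_lit 174) (nat_lit 5) (nat_lit 175) (nat_lit 5) (nat_lit 481) (nat_lit 480) (nat_lit 239)) (XT.lf (nat_lit 76) (nat_lit 648879915019) (nat_lit 0) (nat_lit 350786976737) (nat_lit 836) (nat_lit 1071258627772) (nat_lit 165) (nat_lit 5) (nat_lit 164) (nat_lit 5) (nat_lit 175) (nat_lit 5) (nat_lit 482) (nat_lit 480) (nat_lit 238)))) (XT.nd (nat_lit 156) (nat_lit 0) (nat_lit 152) (XT.nd (nat_lit 78) (nat_lit 0) (nat_lit 76) (XT.lf (nat_lit 76) (nat_lit 261237034205) (nat_lit 0) (nat_lit 886654441051) (nat_lit 836) (nat_lit 1006975403686) (nat_lit 166) (nat_lit 5) (nat_lit 165) (nat_lit 5) (nat_lit 176) (nat_lit 5) (nat_lit 483) (nat_lit 480) (nat_lit 237)) (XT.lf (nat_lit 0) (nat_lit 1350825193009) (nat_lit 760) (nat_lit 132401972196) (nat_lit 836) (nat_lit 760153823530) (nat_lit 166) (nat_lit 5) (nat_lit 176) (nat_lit 5) (nat_lit 177) (nat_lit 5) (nat_lit 484) (nat_lit 480) (nat_lit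 236))) (XT.nd (nat_lit 78) (nat_lit 0) (nat_lit 0) (XT.lf (nat_lit 0) (nat_lit 1616362509677) (nat_lit 760) (nat_lit 527134796207) (nat_lit 836) (nat_lit 193160476350) (nat_lit 167) (nat_lit 5) (nat_lit 177) (nat_lit 5) (nat_lit 178) (nat_lit 5) (nat_lit 485) (nat_lit 480) (nat_lit 235)) (XT.lf (nat_lit 76) (nat_lit 1497117965605) (nat_lit 0) (nat_lit 456753136599) (nat_lit 836) (nat_lit 480989202484) (nat_lit 168) (nat_lit 5) (nat_lit 167) (nat_lit 5) (nat_lit 178) (nat_lit 5) (nat_lit 486) (nat_lit 480) (nat_lit 234))))) (XT.nd (nat_lit 312) (nat_lit 988) (nat_lit 0) (XT.nd (nat_lit 156) (nat_lit 760) (nat_lit 0) (XT.nd (nat_lit 78) (nat_lit 532) (nat_lit 0) (XT.lf (nat_lit 0) (nat_lit 1177914548764) (nat_lit 760) (nat_lit 1189499648360) (nat_lit 836) (nat_lit 171053141064) (nat_lit 158) (nat_lit 5) (nat_lit 168) (nat_lit 5) (nat_lit 169) (nat_lit 5) (nat_lit 487) (nat_lit 480) (nat_lit 233))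 (XT.lf (nat_lit 0) (nat_lit 206655178612) (nat_lit 532) (nat_lit 1794880396087) (nat_lit 76) (nat_lit 646288781944) (nat_lit 151) (nat_lit 5) (nat_lit 158) (nat_lit 5) (nat_lit 152) (nat_lit 5) (nat_lit 488) (nat_lit 480) (nat_lit 232))) (XT.nd (nat_lit 78) (nat_lit 380) (nat_lit 0) (XT.lf (nat_lit 0) (nat_lit 520696005905) (nat_lit 380) (nat_lit 140246542409) (nat_lit 456) (nat_lit 2102229418102) (nat_lit 146) (nat_lit 5) (nat_lit 151) (nat_lit 5) (nat_lit 152) (nat_lit 5) (nat_lit 489) (nat_lit 480) (nat_lit 231)) (XT.lf (nat_lit 0) (nat_lit 175333127997) (nat_lit 380) (nat_lit 1039950521284) (nat_lit 456) (nat_lit 1669278198605) (nat_lit 141) (nat_lit 5) (nat_lit 146) (nat_lit 5) (nat_lit 147) (nat_lit 5) (nat_lit 490) (nat_lit 480) (nat_lit 230)))) (XT.nd (nat_lit 156) (nat_lit 684) (nat_lit 0) (XT.nd (nat_lit 78) (nat_lit 304) (nat_lit 0) (XT.lf (nat_lit 0) (nat_lit 1871112024784) (nat_lit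 456) (nat_lit 165142264140) (nat_lit 76) (nat_lit 976551631628) (nat_lit 141) (nat_lit 5) (nat_lit 147) (nat_lit 5) (nat_lit 142) (nat_lit 5) (nat_lit 491) (nat_lit 480) (nat_lit 229)) (XT.lf (nat_lit 0) (nat_lit 2638490548570) (nat_lit 380) (nat_lit 498798736978) (nat_lit 76) (nat_lit 11066039571) (nat_lit 137) (nat_lit 5) (nat_lit 142) (nat_lit 5) (nat_lit 138) (nat_lit 5) (nat_lit 492) (nat_lit 480) (nat_lit 228))) (XT.nd (nat_lit 78) (nat_lit 304) (nat_lit 0) (XT.lf (nat_lit 0) (nat_lit 243651333543) (nat_lit 380) (nat_lit 850323774129) (nat_lit 76) (nat_lit 2196805801616) (nat_lit 132) (nat_lit 5) (nat_lit 137) (nat_lit 5) (nat_lit 133) (nat_lit 5) (nat_lit 493) (nat_lit 480) (nat_lit 227)) (XT.lf (nat_lit 0) (nat_lit 1102049025098) (nat_lit 380) (nat_lit 1208374980819) (nat_lit 76) (nat_lit 1130635438788) (nat_lit 128) (nat_lit 5) (nat_lit 133) (nat_lit 5) (nat_lit 129) (nat_lit 5) (nat_lit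 494) (nat_lit 480) (nat_lit 226))))))))
noncomputable def xc126 : XT := (XT.nd (nat_lit 124800) (nat_lit 0) (nat_lit 608) (XT.nd (nat_lit 62322) (nat_lit 0) (nat_lit 380) (XT.nd (nat_lit 61698) (nat_lit 0) (nat_lit 1900) (XT.nd (nat_lit 61386) (nat_lit 0) (nat_lit 3572) (XT.nd (nat_lit 78) (nat_lit 608) (nat_lit 0) (XT.lf (nat_lit 0) (nat_lit 2036572280450) (nat_lit 304) (nat_lit 57844182493) (nat_lit 380) (nat_lit 1505678903465) (nat_lit 124) (nat_lit 5) (nat_lit 128) (nat_lit 5) (nat_lit 129) (nat_lit 5) (nat_lit 495) (nat_lit 480) (nat_lit 225)) (XT.nd (nat_lit 78) (nat_lit 380) (nat_lit 0) (XT.lf (nat_lit 0) (nat_lit 1834763621614) (nat_lit 228) (nat_lit 1418529155894) (nat_lit 304) (nat_lit 514205410253) (nat_lit 121) (nat_lit 5) (nat_lit 124) (nat_lit 5) (nat_lit 125) (nat_lit 5) (nat_lit 496) (nat_lit 480) (nat_lit 224)) (XT.lf (nat_lit 0) (nat_lit 609898493509) (nat_lit 380) (nat_lit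 2305007070632) (nat_lit 76) (nat_lit 1029396839454) (nat_lit 116) (nat_lit 5) (nat_lit 121) (nat_lit 5) (nat_lit 117) (nat_lit 5) (nat_lit 497) (nat_lit 480) (nat_lit 223)))) (XT.nd (nat_lit 156) (nat_lit 0) (nat_lit 76) (XT.nd (nat_lit 78) (nat_lit 0) (nat_lit 76) (XT.lf (nat_lit 0) (nat_lit 458319865344) (nat_lit 836) (nat_lit 288042884312) (nat_lit 836) (nat_lit 288042884312) (nat_lit 163) (nat_lit 3) (nat_lit 174) (nat_lit 3) (nat_lit 174) (nat_lit 5) (nat_lit 481) (nat_lit 481) (nat_lit 238)) (XT.lf (nat_lit 0) (nat_lit 972740514477) (nat_lit 760) (nat_lit 1045128427918) (nat_lit 836) (nat_lit 132723016530) (nat_lit 164) (nat_lit 5) (nat_lit 174) (nat_lit 5) (nat_lit 175) (nat_lit 5) (nat_lit 482) (nat_lit 481) (nat_lit 237))) (XT.nd (nat_lit 78) (nat_lit 0) (nat_lit 76) (XT.lf (nat_lit 76) (nat_lit 700790336812) (nat_lit 0) (nat_lit 378849952900) (nat_lit 836) (nat_lit 1156959269043) (nat_lit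 165) (nat_lit 5) (nat_lit 164) (nat_lit 5) (nat_lit 175) (nat_lit 5) (nat_lit 483) (nat_lit 481) (nat_lit 236)) (XT.lf (nat_lit 76) (nat_lit 282136026793) (nat_lit 0) (nat_lit 957586809853) (nat_lit 836) (nat_lit 1087533390441) (nat_lit 166) (nat_lit 5) (nat_lit 165) (nat_lit 5) (nat_lit 176) (nat_lit 5) (nat_lit 484) (nat_lit 481) (nat_lit 235))))) (XT.nd (nat_lit 312) (nat_lit 1292) (nat_lit 0) (XT.nd (nat_lit 156) (nat_lit 608) (nat_lit 0) (XT.nd (nat_lit 78) (nat_lit 0) (nat_lit 76) (XT.lf (nat_lit 0) (nat_lit 1458891248410) (nat_lit 760) (nat_lit 142994100125) (nat_lit 836) (nat_lit 820966117297) (nat_lit 166) (nat_lit 5) (nat_lit 176) (nat_lit 5) (nat_lit 177) (nat_lit 5) (nat_lit 485) (nat_lit 481) (nat_lit 234)) (XT.lf (nat_lit 0) (nat_lit 1745671547759) (nat_lit 760) (nat_lit 569305549340) (nat_lit 836) (nat_lit 208613305846) (nat_lit 167) (nat_lit 5) (nat_lit 177) (nat_lit 5) (nat_lit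 178) (nat_lit 5) (nat_lit 486) (nat_lit 481) (nat_lit 233))) (XT.nd (nat_lit 78) (nat_lit 684) (nat_lit 0) (XT.lf (nat_lit 76) (nat_lit 1616887432089) (nat_lit 0) (nat_lit 493293393292) (nat_lit 836) (nat_lit 519468301930) (nat_lit 168) (nat_lit 5) (nat_lit 167) (nat_lit 5) (nat_lit 178) (nat_lit 5) (nat_lit 487) (nat_lit 481) (nat_lit 232)) (XT.lf (nat_lit 0) (nat_lit 1272147742393) (nat_lit 760) (nat_lit 1284659623290) (nat_lit 836) (nat_lit 184737357919) (nat_lit 158) (nat_lit 5) (nat_lit 168) (nat_lit 5) (nat_lit 169) (nat_lit 5) (nat_lit 488) (nat_lit 481) (nat_lit 231)))) (XT.nd (nat_lit 156) (nat_lit 380) (nat_lit 0) (XT.nd (nat_lit 78) (nat_lit 380) (nat_lit 0) (XT.lf (nat_lit 0) (nat_lit 223187624192) (nat_lit 532) (nat_lit 1938470796686) (nat_lit 76) (nat_lit 697991882730) (nat_lit 151) (nat_lit 5) (nat_lit 158) (nat_lit 5) (nat_lit 152) (nat_lit 5) (nat_lit 489) (nat_lit 481) (nat_lit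 230)) (XT.lf (nat_lit 0) (nat_lit 562351716115) (nat_lit 380) (nat_lit 151466265502) (nat_lit 456) (nat_lit 2270407740639) (nat_lit 146) (nat_lit 5) (nat_lit 151) (nat_lit 5) (nat_lit 152) (nat_lit 5) (nat_lit 490) (nat_lit 481) (nat_lit 229))) (XT.nd (nat_lit 78) (nat_lit 0) (nat_lit 0) (XT.lf (nat_lit 0) (nat_lit 189359808088) (nat_lit 380) (nat_lit 1123146560864) (nat_lit 456) (nat_lit 1802820425378) (nat_lit 141) (nat_lit 5) (nat_lit 146) (nat_lit 5) (nat_lit 147) (nat_lit 5) (nat_lit 491) (nat_lit 481) (nat_lit 228)) (XT.lf (nat_lit 0) (nat_lit 2020801012471) (nat_lit 456) (nat_lit 178353616377) (nat_lit 76) (nat_lit 1054675764061) (nat_lit 141) (nat_lit 5) (nat_lit 147) (nat_lit 5) (nat_lit 142) (nat_lit 5) (nat_lit 492) (nat_lit 481) (nat_lit 227)))))) (XT.nd (nat_lit 61854) (nat_lit 0) (nat_lit 1520) (XT.nd (nat_lit 312) (nat_lit 228) (nat_lit 0) (XT.nd (nat_lit 156) (nat_lit 608) (nat_lit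 0) (XT.nd (nat_lit 78) (nat_lit 380) (nat_lit 0) (XT.lf (nat_lit 0) (nat_lit 2849569816741) (nat_lit 380) (nat_lit 538702607138) (nat_lit 76) (nat_lit 11951326034) (nat_lit 137) (nat_lit 5) (nat_lit 142) (nat_lit 5) (nat_lit 138) (nat_lit 5) (nat_lit 493) (nat_lit 481) (nat_lit 226)) (XT.lf (nat_lit 0) (nat_lit 263143463520) (nat_lit 380) (nat_lit 918349647742) (nat_lit 76) (nat_lit 2372550269604) (nat_lit 132) (nat_lit 5) (nat_lit 137) (nat_lit 5) (nat_lit 133) (nat_lit 5) (nat_lit 494) (nat_lit 481) (nat_lit 225))) (XT.nd (nat_lit 78) (nat_lit 304) (nat_lit 0) (XT.lf (nat_lit 0) (nat_lit 1190212969176) (nat_lit 380) (nat_lit 1305044951176) (nat_lit 76) (nat_lit 1221086278824) (nat_lit 128) (nat_lit 5) (nat_lit 133) (nat_lit 5) (nat_lit 129) (nat_lit 5) (nat_lit 495) (nat_lit 481) (nat_lit 224)) (XT.lf (nat_lit 0) (nat_lit 2199498089773) (nat_lit 304) (nat_lit 62471711060) (nat_lit 380) (nat_lit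 1626133193842) (nat_lit 124) (nat_lit 5) (nat_lit 128) (nat_lit 5) (nat_lit 129) (nat_lit 5) (nat_lit 496) (nat_lit 481) (nat_lit 223)))) (XT.nd (nat_lit 61386) (nat_lit 0) (nat_lit 3268) (XT.nd (nat_lit 61308) (nat_lit 0) (nat_lit 3192) (XT.lf (nat_lit 0) (nat_lit 1981544737970) (nat_lit 228) (nat_lit 1532011481551) (nat_lit 304) (nat_lit 555341822268) (nat_lit 121) (nat_lit 5) (nat_lit 124) (nat_lit 5) (nat_lit 125) (nat_lit 5) (nat_lit 497) (nat_lit 481) (nat_lit 222)) (XT.lf (nat_lit 0) (nat_lit 494985477629) (nat_lit 836) (nat_lit 311086302951) (nat_lit 836) (nat_lit 311086302951) (nat_lit 163) (nat_lit 3) (nat_lit 174) (nat_lit 3) (nat_lit 174) (nat_lit 5) (nat_lit 482) (nat_lit 482) (nat_lit 236))) (XT.nd (nat_lit 78) (nat_lit 0) (nat_lit 0) (XT.lf (nat_lit 0) (nat_lit 1050559798384) (nat_lit 760) (nat_lit 1128738676525) (nat_lit 836) (nat_lit 143340838589) (nat_lit 164) (nat_lit 5) (nat_lit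 174) (nat_lit 5) (nat_lit 175) (nat_lit 5) (nat_lit 483) (nat_lit 482) (nat_lit 235)) (XT.lf (nat_lit 76) (nat_lit 756853588271) (nat_lit 0) (nat_lit 409157964584) (nat_lit 836) (nat_lit 1249515968599) (nat_lit 165) (nat_lit 5) (nat_lit 164) (nat_lit 5) (nat_lit 175) (nat_lit 5) (nat_lit 484) (nat_lit 482) (nat_lit 234))))) (XT.nd (nat_lit 312) (nat_lit 1824) (nat_lit 0) (XT.nd (nat_lit 156) (nat_lit 0) (nat_lit 152) (XT.nd (nat_lit 78) (nat_lit 0) (nat_lit 76) (XT.lf (nat_lit 76) (nat_lit 304706934530) (nat_lit 0) (nat_lit 1034193766229) (nat_lit 836) (nat_lit 1174536022633) (nat_lit 166) (nat_lit 5) (nat_lit 165) (nat_lit 5) (nat_lit 176) (nat_lit 5) (nat_lit 485) (nat_lit 482) (nat_lit 233)) (XT.lf (nat_lit 0) (nat_lit 1575602582543) (nat_lit 760) (nat_lit 154433602546) (nat_lit 836) (nat_lit 886643396294) (nat_lit 166) (nat_lit 5) (nat_lit 176) (nat_lit 5) (nat_lit 177) (nat_lit 5) (nat_lit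 486) (nat_lit 482) (nat_lit 232))) (XT.nd (nat_lit 78) (nat_lit 0) (nat_lit 0) (XT.lf (nat_lit 0) (nat_lit 1885325303564) (nat_lit 760) (nat_lit 614849967084) (nat_lit 836) (nat_lit 225302362931) (nat_lit 167) (nat_lit 5) (nat_lit 177) (nat_lit 5) (nat_lit 178) (nat_lit 5) (nat_lit 487) (nat_lit 482) (nat_lit 231)) (XT.lf (nat_lit 76) (nat_lit 1746238451720) (nat_lit 0) (nat_lit 532756869698) (nat_lit 836) (nat_lit 561025734574) (nat_lit 168) (nat_lit 5) (nat_lit 167) (nat_lit 5) (nat_lit 178) (nat_lit 5) (nat_lit 488) (nat_lit 482) (nat_lit 230)))) (XT.nd (nat_lit 156) (nat_lit 760) (nat_lit 0) (XT.nd (nat_lit 78) (nat_lit 532) (nat_lit 0) (XT.lf (nat_lit 0) (nat_lit 1373919587271) (nat_lit 760) (nat_lit 1387432395778) (nat_lit 836) (nat_lit 199516317034) (nat_lit 158) (nat_lit 5) (nat_lit 168) (nat_lit 5) (nat_lit 169) (nat_lit 5) (nat_lit 489) (nat_lit 482) (nat_lit 229)) (XT.lf (nat_lit 0)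 (nat_lit 241042660955) (nat_lit 532) (nat_lit 2093548433767) (nat_lit 76) (nat_lit 753831231831) (nat_lit 151) (nat_lit 5) (nat_lit 158) (nat_lit 5) (nat_lit 152) (nat_lit 5) (nat_lit 490) (nat_lit 482) (nat_lit 228))) (XT.nd (nat_lit 78) (nat_lit 380) (nat_lit 0) (XT.lf (nat_lit 0) (nat_lit 607339878899) (nat_lit 380) (nat_lit 163583566485) (nat_lit 456) (nat_lit 2452040333388) (nat_lit 146) (nat_lit 5) (nat_lit 151) (nat_lit 5) (nat_lit 152) (nat_lit 5) (nat_lit 491) (nat_lit 482) (nat_lit 227)) (XT.lf (nat_lit 0) (nat_lit 204508618326) (nat_lit 380) (nat_lit 1212998283913) (nat_lit 456) (nat_lit 1947046034446) (nat_lit 141) (nat_lit 5) (nat_lit 146) (nat_lit 5) (nat_lit 147) (nat_lit 5) (nat_lit 492) (nat_lit 482) (nat_lit 226))))))) (XT.nd (nat_lit 62556) (nat_lit 0) (nat_lit 304) (XT.nd (nat_lit 61932) (nat_lit 0) (nat_lit 1292) (XT.nd (nat_lit 312) (nat_lit 304) (nat_lit 0) (XT.nd (nat_lit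 156) (nat_lit 684) (nat_lit 0) (XT.nd (nat_lit 78) (nat_lit 304) (nat_lit 0) (XT.lf (nat_lit 0) (nat_lit 2182465115506) (nat_lit 456) (nat_lit 192621880916) (nat_lit 76) (nat_lit 1139049826817) (nat_lit 141) (nat_lit 5) (nat_lit 147) (nat_lit 5) (nat_lit 142) (nat_lit 5) (nat_lit 493) (nat_lit 482) (nat_lit 225)) (XT.lf (nat_lit 0) (nat_lit 3077535422901) (nat_lit 380) (nat_lit 581798791019) (nat_lit 76) (nat_lit 12907434944) (nat_lit 137) (nat_lit 5) (nat_lit 142) (nat_lit 5) (nat_lit 138) (nat_lit 5) (nat_lit 494) (nat_lit 482) (nat_lit 224))) (XT.nd (nat_lit 78) (nat_lit 304) (nat_lit 0) (XT.lf (nat_lit 0) (nat_lit 284194960572) (nat_lit 380) (nat_lit 991817595283) (nat_lit 76) (nat_lit 2562354294481) (nat_lit 132) (nat_lit 5) (nat_lit 137) (nat_lit 5) (nat_lit 133) (nat_lit 5) (nat_lit 495) (nat_lit 482) (nat_lit 223)) (XT.lf (nat_lit 0) (nat_lit 1285430025632) (nat_lit 380) (nat_lit 1409448523172)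 (nat_lit 76) (nat_lit 1318773185360) (nat_lit 128) (nat_lit 5) (nat_lit 133) (nat_lit 5) (nat_lit 129) (nat_lit 5) (nat_lit 496) (nat_lit 482) (nat_lit 222)))) (XT.nd (nat_lit 61464) (nat_lit 0) (nat_lit 3040) (XT.nd (nat_lit 61386) (nat_lit 0) (nat_lit 2964) (XT.lf (nat_lit 0) (nat_lit 2375457960006) (nat_lit 304) (nat_lit 67469442774) (nat_lit 380) (nat_lit 1756223830575) (nat_lit 124) (nat_lit 5) (nat_lit 128) (nat_lit 5) (nat_lit 129) (nat_lit 5) (nat_lit 497) (nat_lit 482) (nat_lit 221)) (XT.lf (nat_lit 0) (nat_lit 534584335607) (nat_lit 836) (nat_lit 335973196808) (nat_lit 836) (nat_lit 335973196808) (nat_lit 163) (nat_lit 3) (nat_lit 174) (nat_lit 3) (nat_lit 174) (nat_lit 5) (nat_lit 483) (nat_lit 483) (nat_lit 234))) (XT.nd (nat_lit 78) (nat_lit 0) (nat_lit 0) (XT.lf (nat_lit 0) (nat_lit 1134604618906) (nat_lit 760) (nat_lit 1219037748676) (nat_lit 836) (nat_lit 154808089161) (nat_lit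 164) (nat_lit 5) (nat_lit 174) (nat_lit 5) (nat_lit 175) (nat_lit 5) (nat_lit 484) (nat_lit 483) (nat_lit 233)) (XT.lf (nat_lit 76) (nat_lit 817401896348) (nat_lit 0) (nat_lit 441890614999) (nat_lit 836) (nat_lit 1349477210107) (nat_lit 165) (nat_lit 5) (nat_lit 164) (nat_lit 5) (nat_lit 175) (nat_lit 5) (nat_lit 485) (nat_lit 483) (nat_lit 232))))) (XT.nd (nat_lit 312) (nat_lit 1824) (nat_lit 0) (XT.nd (nat_lit 156) (nat_lit 0) (nat_lit 152) (XT.nd (nat_lit 78) (nat_lit 0) (nat_lit 76) (XT.lf (nat_lit 76) (nat_lit 329083511234) (nat_lit 0) (nat_lit 1116929277463) (nat_lit 836) (nat_lit 1268498870970) (nat_lit 166) (nat_lit 5) (nat_lit 165) (nat_lit 5) (nat_lit 176) (nat_lit 5) (nat_lit 486) (nat_lit 483) (nat_lit 231)) (XT.lf (nat_lit 0) (nat_lit 1701650818519) (nat_lit 760) (nat_lit 166788268812) (nat_lit 836) (nat_lit 957574859093) (nat_lit 166) (nat_lit 5) (nat_lit 176) (nat_lit 5) (nat_lit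 177) (nat_lit 5) (nat_lit 487) (nat_lit 483) (nat_lit 230))) (XT.nd (nat_lit 78) (nat_lit 0) (nat_lit 0) (XT.lf (nat_lit 0) (nat_lit 2036151355272) (nat_lit 760) (nat_lit 664037941986) (nat_lit 836) (nat_lit 243326545635) (nat_lit 167) (nat_lit 5) (nat_lit 177) (nat_lit 5) (nat_lit 178) (nat_lit 5) (nat_lit 488) (nat_lit 483) (nat_lit 229)) (XT.lf (nat_lit 76) (nat_lit 1885937549347) (nat_lit 0) (nat_lit 575377423512) (nat_lit 836) (nat_lit 605907766326) (nat_lit 168) (nat_lit 5) (nat_lit 167) (nat_lit 5) (nat_lit 178) (nat_lit 5) (nat_lit 489) (nat_lit 483) (nat_lit 228)))) (XT.nd (nat_lit 156) (nat_lit 760) (nat_lit 0) (XT.nd (nat_lit 78) (nat_lit 532) (nat_lit 0) (XT.lf (nat_lit 0) (nat_lit 1483833176103) (nat_lit 760) (nat_lit 1498426989690) (nat_lit 836) (nat_lit 215477597090) (nat_lit 158) (nat_lit 5) (nat_lit 168) (nat_lit 5) (nat_lit 169) (nat_lit 5) (nat_lit 490) (nat_lit 483) (nat_lit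 227)) (XT.lf (nat_lit 0) (nat_lit 260326096832) (nat_lit 532) (nat_lit 2261032285618) (nat_lit 76) (nat_lit 814137729076) (nat_lit 151) (nat_lit 5) (nat_lit 158) (nat_lit 5) (nat_lit 152) (nat_lit 5) (nat_lit 491) (nat_lit 483) (nat_lit 226))) (XT.nd (nat_lit 78) (nat_lit 380) (nat_lit 0) (XT.lf (nat_lit 0) (nat_lit 655927091068) (nat_lit 380) (nat_lit 176670251584) (nat_lit 456) (nat_lit 2648203537338) (nat_lit 146) (nat_lit 5) (nat_lit 151) (nat_lit 5) (nat_lit 152) (nat_lit 5) (nat_lit 492) (nat_lit 483) (nat_lit 225)) (XT.lf (nat_lit 0) (nat_lit 220869329733) (nat_lit 380) (nat_lit 1310038145066) (nat_lit 456) (nat_lit 2102809695800) (nat_lit 141) (nat_lit 5) (nat_lit 146) (nat_lit 5) (nat_lit 147) (nat_lit 5) (nat_lit 493) (nat_lit 483) (nat_lit 224)))))) (XT.nd (nat_lit 62010) (nat_lit 0) (nat_lit 988) (XT.nd (nat_lit 61698) (nat_lit 0) (nat_lit 2660) (XT.nd (nat_lit 156) (nat_lit 684)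 (nat_lit 0) (XT.nd (nat_lit 78) (nat_lit 304) (nat_lit 0) (XT.lf (nat_lit 0) (nat_lit 2357062343640) (nat_lit 456) (nat_lit 208031610151) (nat_lit 76) (nat_lit 1230173814361) (nat_lit 141) (nat_lit 5) (nat_lit 147) (nat_lit 5) (nat_lit 142) (nat_lit 5) (nat_lit 494) (nat_lit 483) (nat_lit 223)) (XT.lf (nat_lit 0) (nat_lit 3323738274583) (nat_lit 380) (nat_lit 628342673133) (nat_lit 76) (nat_lit 13940032163) (nat_lit 137) (nat_lit 5) (nat_lit 142) (nat_lit 5) (nat_lit 138) (nat_lit 5) (nat_lit 495) (nat_lit 483) (nat_lit 222))) (XT.nd (nat_lit 78) (nat_lit 304) (nat_lit 0) (XT.lf (nat_lit 0) (nat_lit 306930574539) (nat_lit 380) (nat_lit 1071162982091) (nat_lit 76) (nat_lit 2767342640876) (nat_lit 132) (nat_lit 5) (nat_lit 137) (nat_lit 5) (nat_lit 133) (nat_lit 5) (nat_lit 496) (nat_lit 483) (nat_lit 221)) (XT.lf (nat_lit 0) (nat_lit 1388264443905) (nat_lit 380) (nat_lit 1522204384365) (nat_lit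 76) (nat_lit 1424275043815) (nat_lit 128) (nat_lit 5) (nat_lit 133) (nat_lit 5) (nat_lit 129) (nat_lit 5) (nat_lit 497) (nat_lit 483) (nat_lit 220)))) (XT.nd (nat_lit 156) (nat_lit 0) (nat_lit 76) (XT.nd (nat_lit 78) (nat_lit 0) (nat_lit 76) (XT.lf (nat_lit 0) (nat_lit 577351099404) (nat_lit 836) (nat_lit 362851043654) (nat_lit 836) (nat_lit 362851043654) (nat_lit 163) (nat_lit 3) (nat_lit 174) (nat_lit 3) (nat_lit 174) (nat_lit 5) (nat_lit 484) (nat_lit 484) (nat_lit 232)) (XT.lf (nat_lit 0) (nat_lit 1225373019841) (nat_lit 760) (nat_lit 1316560749734) (nat_lit 836) (nat_lit 167192722134) (nat_lit 164) (nat_lit 5) (nat_lit 174) (nat_lit 5) (nat_lit 175) (nat_lit 5) (nat_lit 485) (nat_lit 484) (nat_lit 231))) (XT.nd (nat_lit 78) (nat_lit 0) (nat_lit 76) (XT.lf (nat_lit 76) (nat_lit 882794066074) (nat_lit 0) (nat_lit 477241875557) (nat_lit 836) (nat_lit 1457435356069) (nat_lit 165) (nat_lit 5)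 (nat_lit 164) (nat_lit 5) (nat_lit 175) (nat_lit 5) (nat_lit 486) (nat_lit 484) (nat_lit 230)) (XT.lf (nat_lit 76) (nat_lit 355410210944) (nat_lit 0) (nat_lit 1206283628178) (nat_lit 836) (nat_lit 1369978751950) (nat_lit 166) (nat_lit 5) (nat_lit 165) (nat_lit 5) (nat_lit 176) (nat_lit 5) (nat_lit 487) (nat_lit 484) (nat_lit 229))))) (XT.nd (nat_lit 312) (nat_lit 1292) (nat_lit 0) (XT.nd (nat_lit 156) (nat_lit 608) (nat_lit 0) (XT.nd (nat_lit 78) (nat_lit 0) (nat_lit 76) (XT.lf (nat_lit 0) (nat_lit 1837782909182) (nat_lit 760) (nat_lit 180131311508) (nat_lit 836) (nat_lit 1034180840186) (nat_lit 166) (nat_lit 5) (nat_lit 176) (nat_lit 5) (nat_lit 177) (nat_lit 5) (nat_lit 488) (nat_lit 484) (nat_lit 228)) (XT.lf (nat_lit 0) (nat_lit 2199043487203) (nat_lit 760) (nat_lit 717160958085) (nat_lit 836) (nat_lit 262792663859) (nat_lit 167) (nat_lit 5) (nat_lit 177) (nat_lit 5) (nat_lit 178) (nat_lit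 5) (nat_lit 489) (nat_lit 484) (nat_lit 227))) (XT.nd (nat_lit 78) (nat_lit 684) (nat_lit 0) (XT.lf (nat_lit 76) (nat_lit 2036812571718) (nat_lit 0) (nat_lit 621407621026) (nat_lit 836) (nat_lit 654380364471) (nat_lit 168) (nat_lit 5) (nat_lit 167) (nat_lit 5) (nat_lit 178) (nat_lit 5) (nat_lit 490) (nat_lit 484) (nat_lit 226)) (XT.lf (nat_lit 0) (nat_lit 1602539848925) (nat_lit 760) (nat_lit 1618301150795) (nat_lit 836) (nat_lit 232715783160) (nat_lit 158) (nat_lit 5) (nat_lit 168) (nat_lit 5) (nat_lit 169) (nat_lit 5) (nat_lit 491) (nat_lit 484) (nat_lit 225)))) (XT.nd (nat_lit 156) (nat_lit 380) (nat_lit 0) (XT.nd (nat_lit 78) (nat_lit 380) (nat_lit 0) (XT.lf (nat_lit 0) (nat_lit 281152204297) (nat_lit 532) (nat_lit 2441914848876) (nat_lit 76) (nat_lit 879268746287) (nat_lit 151) (nat_lit 5) (nat_lit 158) (nat_lit 5) (nat_lit 152) (nat_lit 5) (nat_lit 492) (nat_lit 484) (nat_lit 224)) (XT.lf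 (nat_lit 0) (nat_lit 708401277094) (nat_lit 380) (nat_lit 190803871522) (nat_lit 456) (nat_lit 2860059800846) (nat_lit 146) (nat_lit 5) (nat_lit 151) (nat_lit 5) (nat_lit 152) (nat_lit 5) (nat_lit 493) (nat_lit 484) (nat_lit 223))) (XT.nd (nat_lit 78) (nat_lit 0) (nat_lit 0) (XT.lf (nat_lit 0) (nat_lit 238538894923) (nat_lit 380) (nat_lit 1414841195334) (nat_lit 456) (nat_lit 2271034453117) (nat_lit 141) (nat_lit 5) (nat_lit 146) (nat_lit 5) (nat_lit 147) (nat_lit 5) (nat_lit 494) (nat_lit 484) (nat_lit 222)) (XT.lf (nat_lit 0) (nat_lit 2545627347330) (nat_lit 456) (nat_lit 224674120755) (nat_lit 76) (nat_lit 1328587720709) (nat_lit 141) (nat_lit 5) (nat_lit 147) (nat_lit 5) (nat_lit 142) (nat_lit 5) (nat_lit 495) (nat_lit 484) (nat_lit 221))))))))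
noncomputable def xc127 : XT := (XT.nd (nat_lit 187356) (nat_lit 0) (nat_lit 684) (XT.nd (nat_lit 124410) (nat_lit 0) (nat_lit 304) (XT.nd (nat_lit 62166) (nat_lit 0) (nat_lit 304) (XT.nd (nat_lit 61854) (nat_lit 0) (nat_lit 2128) (XT.nd (nat_lit 61698) (nat_lit 0) (nat_lit 2052) (XT.nd (nat_lit 61620) (nat_lit 0) (nat_lit 1976) (XT.lf (nat_lit 0) (nat_lit 3589637351853) (nat_lit 380) (nat_lit 678610068836) (nat_lit 76) (nat_lit 15055236814) (nat_lit 137) (nat_lit 5) (nat_lit 142) (nat_lit 5) (nat_lit 138) (nat_lit 5) (nat_lit 496) (nat_lit 484) (nat_lit 220)) (XT.lf (nat_lit 0) (nat_lit 623539201886) (nat_lit 836) (nat_lit 391879119518) (nat_lit 836) (nat_lit 391879119518) (nat_lit 163) (nat_lit 3) (nat_lit 174) (nat_lit 3) (nat_lit 174) (nat_lit 5) (nat_lit 485) (nat_lit 485) (nat_lit 230))) (XT.nd (nat_lit 78) (nat_lit 0) (nat_lit 0) (XT.lf (nat_lit 0) (nat_lit 1323402888368) (nat_lit 760)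 (nat_lit 1421885593564) (nat_lit 836) (nat_lit 180568127766) (nat_lit 164) (nat_lit 5) (nat_lit 174) (nat_lit 5) (nat_lit 175) (nat_lit 5) (nat_lit 486) (nat_lit 485) (nat_lit 229)) (XT.lf (nat_lit 76) (nat_lit 953417606807) (nat_lit 0) (nat_lit 515421235340) (nat_lit 836) (nat_lit 1574030158108) (nat_lit 165) (nat_lit 5) (nat_lit 164) (nat_lit 5) (nat_lit 175) (nat_lit 5) (nat_lit 487) (nat_lit 485) (nat_lit 228)))) (XT.nd (nat_lit 156) (nat_lit 0) (nat_lit 152) (XT.nd (nat_lit 78) (nat_lit 0) (nat_lit 76) (XT.lf (nat_lit 76) (nat_lit 383843043948) (nat_lit 0) (nat_lit 1302786325735) (nat_lit 836) (nat_lit 1479577027502) (nat_lit 166) (nat_lit 5) (nat_lit 165) (nat_lit 5) (nat_lit 176) (nat_lit 5) (nat_lit 488) (nat_lit 485) (nat_lit 227)) (XT.lf (nat_lit 0) (nat_lit 1984805563506) (nat_lit 760) (nat_lit 194541800304) (nat_lit 836) (nat_lit 1116915300855) (nat_lit 166) (nat_lit 5) (nat_lit 176)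 (nat_lit 5) (nat_lit 177) (nat_lit 5) (nat_lit 489) (nat_lit 485) (nat_lit 226))) (XT.nd (nat_lit 78) (nat_lit 0) (nat_lit 0) (XT.lf (nat_lit 0) (nat_lit 2374966986336) (nat_lit 760) (nat_lit 774533818219) (nat_lit 836) (nat_lit 283816072315) (nat_lit 167) (nat_lit 5) (nat_lit 177) (nat_lit 5) (nat_lit 178) (nat_lit 5) (nat_lit 490) (nat_lit 485) (nat_lit 225)) (XT.lf (nat_lit 76) (nat_lit 2199757593250) (nat_lit 0) (nat_lit 671120233823) (nat_lit 836) (nat_lit 706730773773) (nat_lit 168) (nat_lit 5) (nat_lit 167) (nat_lit 5) (nat_lit 178) (nat_lit 5) (nat_lit 491) (nat_lit 485) (nat_lit 224))))) (XT.nd (nat_lit 312) (nat_lit 0) (nat_lit 0) (XT.nd (nat_lit 156) (nat_lit 760) (nat_lit 0) (XT.nd (nat_lit 78) (nat_lit 532) (nat_lit 0) (XT.lf (nat_lit 0) (nat_lit 1730743052899) (nat_lit 760) (nat_lit 1747765244512) (nat_lit 836) (nat_lit 251333027211) (nat_lit 158) (nat_lit 5) (nat_lit 168) (nat_lit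 5) (nat_lit 169) (nat_lit 5) (nat_lit 492) (nat_lit 485) (nat_lit 223)) (XT.lf (nat_lit 0) (nat_lit 303644397547) (nat_lit 532) (nat_lit 2637268019990) (nat_lit 76) (nat_lit 949610245034) (nat_lit 151) (nat_lit 5) (nat_lit 158) (nat_lit 5) (nat_lit 152) (nat_lit 5) (nat_lit 493) (nat_lit 485) (nat_lit 222))) (XT.nd (nat_lit 78) (nat_lit 380) (nat_lit 0) (XT.lf (nat_lit 0) (nat_lit 765073395327) (nat_lit 380) (nat_lit 206068181082) (nat_lit 456) (nat_lit 3088864568213) (nat_lit 146) (nat_lit 5) (nat_lit 151) (nat_lit 5) (nat_lit 152) (nat_lit 5) (nat_lit 494) (nat_lit 485) (nat_lit 221)) (XT.lf (nat_lit 0) (nat_lit 257622022644) (nat_lit 380) (nat_lit 1528028489814) (nat_lit 456) (nat_lit 2452717193635) (nat_lit 141) (nat_lit 5) (nat_lit 146) (nat_lit 5) (nat_lit 147) (nat_lit 5) (nat_lit 495) (nat_lit 485) (nat_lit 220)))) (XT.nd (nat_lit 61776) (nat_lit 0) (nat_lit 1748) (XT.nd (nat_lit 61698)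 (nat_lit 0) (nat_lit 1672) (XT.lf (nat_lit 0) (nat_lit 2749277549003) (nat_lit 456) (nat_lit 242648034805) (nat_lit 76) (nat_lit 1434874739393) (nat_lit 141) (nat_lit 5) (nat_lit 147) (nat_lit 5) (nat_lit 142) (nat_lit 5) (nat_lit 496) (nat_lit 485) (nat_lit 219)) (XT.lf (nat_lit 0) (nat_lit 673422350494) (nat_lit 836) (nat_lit 423229442539) (nat_lit 836) (nat_lit 423229442539) (nat_lit 163) (nat_lit 3) (nat_lit 174) (nat_lit 3) (nat_lit 174) (nat_lit 5) (nat_lit 486) (nat_lit 486) (nat_lit 228))) (XT.nd (nat_lit 78) (nat_lit 0) (nat_lit 0) (XT.lf (nat_lit 0) (nat_lit 1429275142534) (nat_lit 760) (nat_lit 1535636427203) (nat_lit 836) (nat_lit 195013567579) (nat_lit 164) (nat_lit 5) (nat_lit 174) (nat_lit 5) (nat_lit 175) (nat_lit 5) (nat_lit 487) (nat_lit 486) (nat_lit 227)) (XT.lf (nat_lit 76) (nat_lit 1029691028596) (nat_lit 0) (nat_lit 556654942515) (nat_lit 836) (nat_lit 1699952548083) (nat_lit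 165) (nat_lit 5) (nat_lit 164) (nat_lit 5) (nat_lit 175) (nat_lit 5) (nat_lit 488) (nat_lit 486) (nat_lit 226)))))) (XT.nd (nat_lit 62322) (nat_lit 0) (nat_lit 1292) (XT.nd (nat_lit 312) (nat_lit 1824) (nat_lit 0) (XT.nd (nat_lit 156) (nat_lit 0) (nat_lit 152) (XT.nd (nat_lit 78) (nat_lit 0) (nat_lit 76) (XT.lf (nat_lit 76) (nat_lit 414550501291) (nat_lit 0) (nat_lit 1407009238055) (nat_lit 836) (nat_lit 1597943168608) (nat_lit 166) (nat_lit 5) (nat_lit 165) (nat_lit 5) (nat_lit 176) (nat_lit 5) (nat_lit 489) (nat_lit 486) (nat_lit 225)) (XT.lf (nat_lit 0) (nat_lit 2143590027096) (nat_lit 760) (nat_lit 210105130504) (nat_lit 836) (nat_lit 1206268519312) (nat_lit 166) (nat_lit 5) (nat_lit 176) (nat_lit 5) (nat_lit 177) (nat_lit 5) (nat_lit 490) (nat_lit 486) (nat_lit 224))) (XT.nd (nat_lit 78) (nat_lit 0) (nat_lit 0) (XT.lf (nat_lit 0) (nat_lit 2564964362523) (nat_lit 760) (nat_lit 836496509520)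 (nat_lit 836) (nat_lit 306521354111) (nat_lit 167) (nat_lit 5) (nat_lit 177) (nat_lit 5) (nat_lit 178) (nat_lit 5) (nat_lit 491) (nat_lit 486) (nat_lit 223)) (XT.lf (nat_lit 76) (nat_lit 2375738214252) (nat_lit 0) (nat_lit 724809855199) (nat_lit 836) (nat_lit 763269218651) (nat_lit 168) (nat_lit 5) (nat_lit 167) (nat_lit 5) (nat_lit 178) (nat_lit 5) (nat_lit 492) (nat_lit 486) (nat_lit 222)))) (XT.nd (nat_lit 156) (nat_lit 760) (nat_lit 0) (XT.nd (nat_lit 78) (nat_lit 532) (nat_lit 0) (XT.lf (nat_lit 0) (nat_lit 1869202510901) (nat_lit 760) (nat_lit 1887586465491) (nat_lit 836) (nat_lit 271439653440) (nat_lit 158) (nat_lit 5) (nat_lit 168) (nat_lit 5) (nat_lit 169) (nat_lit 5) (nat_lit 493) (nat_lit 486) (nat_lit 221)) (XT.lf (nat_lit 0) (nat_lit 327935963845) (nat_lit 532) (nat_lit 2848249447190) (nat_lit 76) (nat_lit 1025579063817) (nat_lit 151) (nat_lit 5) (nat_lit 158) (nat_lit 5) (nat_lit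 152) (nat_lit 5) (nat_lit 494) (nat_lit 486) (nat_lit 220))) (XT.nd (nat_lit 78) (nat_lit 380) (nat_lit 0) (XT.lf (nat_lit 0) (nat_lit 826279280728) (nat_lit 380) (nat_lit 222553635430) (nat_lit 456) (nat_lit 3335973719352) (nat_lit 146) (nat_lit 5) (nat_lit 151) (nat_lit 5) (nat_lit 152) (nat_lit 5) (nat_lit 495) (nat_lit 486) (nat_lit 219)) (XT.lf (nat_lit 0) (nat_lit 278231798282) (nat_lit 380) (nat_lit 1650270768016) (nat_lit 456) (nat_lit 2648934555640) (nat_lit 141) (nat_lit 5) (nat_lit 146) (nat_lit 5) (nat_lit 147) (nat_lit 5) (nat_lit 496) (nat_lit 486) (nat_lit 218))))) (XT.nd (nat_lit 312) (nat_lit 380) (nat_lit 0) (XT.nd (nat_lit 156) (nat_lit 0) (nat_lit 76) (XT.nd (nat_lit 78) (nat_lit 0) (nat_lit 76) (XT.lf (nat_lit 0) (nat_lit 727296149214) (nat_lit 836) (nat_lit 457087792335) (nat_lit 836) (nat_lit 457087792335) (nat_lit 163) (nat_lit 3) (nat_lit 174) (nat_lit 3) (nat_lit 174)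 (nat_lit 5) (nat_lit 487) (nat_lit 487) (nat_lit 226)) (XT.lf (nat_lit 0) (nat_lit 1543617173738) (nat_lit 760) (nat_lit 1658487329509) (nat_lit 836) (nat_lit 210614644063) (nat_lit 164) (nat_lit 5) (nat_lit 174) (nat_lit 5) (nat_lit 175) (nat_lit 5) (nat_lit 488) (nat_lit 487) (nat_lit 225))) (XT.nd (nat_lit 78) (nat_lit 0) (nat_lit 76) (XT.lf (nat_lit 76) (nat_lit 1112066322238) (nat_lit 0) (nat_lit 601187345074) (nat_lit 836) (nat_lit 1835948732491) (nat_lit 165) (nat_lit 5) (nat_lit 164) (nat_lit 5) (nat_lit 175) (nat_lit 5) (nat_lit 489) (nat_lit 487) (nat_lit 224)) (XT.lf (nat_lit 76) (nat_lit 447714553248) (nat_lit 0) (nat_lit 1519569982467) (nat_lit 836) (nat_lit 1725778604012) (nat_lit 166) (nat_lit 5) (nat_lit 165) (nat_lit 5) (nat_lit 176) (nat_lit 5) (nat_lit 490) (nat_lit 487) (nat_lit 223)))) (XT.nd (nat_lit 156) (nat_lit 608) (nat_lit 0) (XT.nd (nat_lit 78) (nat_lit 0) (nat_lit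 76) (XT.lf (nat_lit 0) (nat_lit 2315077245133) (nat_lit 760) (nat_lit 226913529092) (nat_lit 836) (nat_lit 1302769996046) (nat_lit 166) (nat_lit 5) (nat_lit 176) (nat_lit 5) (nat_lit 177) (nat_lit 5) (nat_lit 491) (nat_lit 487) (nat_lit 222)) (XT.lf (nat_lit 0) (nat_lit 2770161526340) (nat_lit 760) (nat_lit 903416218144) (nat_lit 836) (nat_lit 331043059020) (nat_lit 167) (nat_lit 5) (nat_lit 177) (nat_lit 5) (nat_lit 178) (nat_lit 5) (nat_lit 492) (nat_lit 487) (nat_lit 221))) (XT.nd (nat_lit 78) (nat_lit 684) (nat_lit 0) (XT.lf (nat_lit 76) (nat_lit 2565797283002) (nat_lit 0) (nat_lit 782794645904) (nat_lit 836) (nat_lit 824330741548) (nat_lit 168) (nat_lit 5) (nat_lit 167) (nat_lit 5) (nat_lit 178) (nat_lit 5) (nat_lit 493) (nat_lit 487) (nat_lit 220)) (XT.lf (nat_lit 0) (nat_lit 2018738723578) (nat_lit 760) (nat_lit 2038593383946) (nat_lit 836) (nat_lit 293154812043) (nat_lit 158) (nat_lit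 5) (nat_lit 168) (nat_lit 5) (nat_lit 169) (nat_lit 5) (nat_lit 494) (nat_lit 487) (nat_lit 219))))))) (XT.nd (nat_lit 124878) (nat_lit 0) (nat_lit 1292) (XT.nd (nat_lit 62400) (nat_lit 0) (nat_lit 380) (XT.nd (nat_lit 62088) (nat_lit 0) (nat_lit 1368) (XT.nd (nat_lit 61932) (nat_lit 0) (nat_lit 1292) (XT.nd (nat_lit 78) (nat_lit 380) (nat_lit 0) (XT.lf (nat_lit 0) (nat_lit 354170853379) (nat_lit 532) (nat_lit 3076109390619) (nat_lit 76) (nat_lit 1107625388220) (nat_lit 151) (nat_lit 5) (nat_lit 158) (nat_lit 5) (nat_lit 152) (nat_lit 5) (nat_lit 495) (nat_lit 487) (nat_lit 218)) (XT.lf (nat_lit 0) (nat_lit 892381634995) (nat_lit 380) (nat_lit 240357926146) (nat_lit 456) (nat_lit 3602851604624) (nat_lit 146) (nat_lit 5) (nat_lit 151) (nat_lit 5) (nat_lit 152) (nat_lit 5) (nat_lit 496) (nat_lit 487) (nat_lit 217))) (XT.nd (nat_lit 78) (nat_lit 0) (nat_lit 76) (XT.lf (nat_lit 0) (nat_lit 785479850308)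 (nat_lit 836) (nat_lit 493654810914) (nat_lit 836) (nat_lit 493654810914) (nat_lit 163) (nat_lit 3) (nat_lit 174) (nat_lit 3) (nat_lit 174) (nat_lit 5) (nat_lit 488) (nat_lit 488) (nat_lit 224)) (XT.lf (nat_lit 0) (nat_lit 1667106564613) (nat_lit 760) (nat_lit 1791166305694) (nat_lit 836) (nat_lit 227463807938) (nat_lit 164) (nat_lit 5) (nat_lit 174) (nat_lit 5) (nat_lit 175) (nat_lit 5) (nat_lit 489) (nat_lit 488) (nat_lit 223)))) (XT.nd (nat_lit 156) (nat_lit 0) (nat_lit 152) (XT.nd (nat_lit 78) (nat_lit 0) (nat_lit 76) (XT.lf (nat_lit 76) (nat_lit 1201031637751) (nat_lit 0) (nat_lit 649282338817) (nat_lit 836) (nat_lit 1982824614425) (nat_lit 165) (nat_lit 5) (nat_lit 164) (nat_lit 5) (nat_lit 175) (nat_lit 5) (nat_lit 490) (nat_lit 488) (nat_lit 222)) (XT.lf (nat_lit 76) (nat_lit 483531727672) (nat_lit 0) (nat_lit 1641135585667) (nat_lit 836) (nat_lit 1863840876829) (nat_lit 166) (nat_lit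 5) (nat_lit 165) (nat_lit 5) (nat_lit 176) (nat_lit 5) (nat_lit 491) (nat_lit 488) (nat_lit 221))) (XT.nd (nat_lit 78) (nat_lit 0) (nat_lit 76) (XT.lf (nat_lit 0) (nat_lit 2500283438348) (nat_lit 760) (nat_lit 245066601257) (nat_lit 836) (nat_lit 1406991591605) (nat_lit 166) (nat_lit 5) (nat_lit 176) (nat_lit 5) (nat_lit 177) (nat_lit 5) (nat_lit 492) (nat_lit 488) (nat_lit 220)) (XT.lf (nat_lit 0) (nat_lit 2991774461149) (nat_lit 760) (nat_lit 975689505190) (nat_lit 836) (nat_lit 357526500810) (nat_lit 167) (nat_lit 5) (nat_lit 177) (nat_lit 5) (nat_lit 178) (nat_lit 5) (nat_lit 493) (nat_lit 488) (nat_lit 219))))) (XT.nd (nat_lit 62166) (nat_lit 0) (nat_lit 988) (XT.nd (nat_lit 156) (nat_lit 532) (nat_lit 0) (XT.nd (nat_lit 78) (nat_lit 684) (nat_lit 0) (XT.lf (nat_lit 76) (nat_lit 2771061075595) (nat_lit 0) (nat_lit 845418219539) (nat_lit 836) (nat_lit 890277188359) (nat_lit 168) (nat_lit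 5) (nat_lit 167) (nat_lit 5) (nat_lit 178) (nat_lit 5) (nat_lit 494) (nat_lit 488) (nat_lit 218)) (XT.lf (nat_lit 0) (nat_lit 2180237831585) (nat_lit 760) (nat_lit 2201680855704) (nat_lit 836) (nat_lit 316607185284) (nat_lit 158) (nat_lit 5) (nat_lit 168) (nat_lit 5) (nat_lit 169) (nat_lit 5) (nat_lit 495) (nat_lit 488) (nat_lit 217))) (XT.nd (nat_lit 61932) (nat_lit 0) (nat_lit 912) (XT.lf (nat_lit 0) (nat_lit 382504532302) (nat_lit 532) (nat_lit 3322198131284) (nat_lit 76) (nat_lit 1196235418675) (nat_lit 151) (nat_lit 5) (nat_lit 158) (nat_lit 5) (nat_lit 152) (nat_lit 5) (nat_lit 496) (nat_lit 488) (nat_lit 216)) (XT.lf (nat_lit 0) (nat_lit 848318246182) (nat_lit 836) (nat_lit 533147191666) (nat_lit 836) (nat_lit 533147191666) (nat_lit 163) (nat_lit 3) (nat_lit 174) (nat_lit 3) (nat_lit 174) (nat_lit 5) (nat_lit 489) (nat_lit 489) (nat_lit 222)))) (XT.nd (nat_lit 156) (nat_lit 0) (nat_lit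 76) (XT.nd (nat_lit 78) (nat_lit 0) (nat_lit 0) (XT.lf (nat_lit 0) (nat_lit 1800475104337) (nat_lit 760) (nat_lit 1934459601424) (nat_lit 836) (nat_lit 245660906015) (nat_lit 164) (nat_lit 5) (nat_lit 174) (nat_lit 5) (nat_lit 175) (nat_lit 5) (nat_lit 490) (nat_lit 489) (nat_lit 221)) (XT.lf (nat_lit 76) (nat_lit 1297114177117) (nat_lit 0) (nat_lit 701224931183) (nat_lit 836) (nat_lit 2141450569291) (nat_lit 165) (nat_lit 5) (nat_lit 164) (nat_lit 5) (nat_lit 175) (nat_lit 5) (nat_lit 491) (nat_lit 489) (nat_lit 220))) (XT.nd (nat_lit 78) (nat_lit 0) (nat_lit 76) (XT.lf (nat_lit 76) (nat_lit 522214274599) (nat_lit 0) (nat_lit 1772426436466) (nat_lit 836) (nat_lit 2012948133682) (nat_lit 166) (nat_lit 5) (nat_lit 165) (nat_lit 5) (nat_lit 176) (nat_lit 5) (nat_lit 492) (nat_lit 489) (nat_lit 219)) (XT.lf (nat_lit 0) (nat_lit 2700306125080) (nat_lit 760) (nat_lit 264671920646) (nat_lit 836) (nat_lit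 1519550915397) (nat_lit 166) (nat_lit 5) (nat_lit 176) (nat_lit 5) (nat_lit 177) (nat_lit 5) (nat_lit 493) (nat_lit 489) (nat_lit 218)))))) (XT.nd (nat_lit 124722) (nat_lit 0) (nat_lit 0) (XT.nd (nat_lit 62322) (nat_lit 0) (nat_lit 76) (XT.nd (nat_lit 62166) (nat_lit 304) (nat_lit 0) (XT.nd (nat_lit 78) (nat_lit 0) (nat_lit 0) (XT.lf (nat_lit 0) (nat_lit 3231116428931) (nat_lit 760) (nat_lit 1053744656684) (nat_lit 836) (nat_lit 386128618361) (nat_lit 167) (nat_lit 5) (nat_lit 177) (nat_lit 5) (nat_lit 178) (nat_lit 5) (nat_lit 494) (nat_lit 489) (nat_lit 217)) (XT.lf (nat_lit 76) (nat_lit 2992745970177) (nat_lit 0) (nat_lit 913051678785) (nat_lit 836) (nat_lit 961499352699) (nat_lit 168) (nat_lit 5) (nat_lit 167) (nat_lit 5) (nat_lit 178) (nat_lit 5) (nat_lit 495) (nat_lit 489) (nat_lit 216))) (XT.nd (nat_lit 78) (nat_lit 0) (nat_lit 76) (XT.lf (nat_lit 0) (nat_lit 916183712607) (nat_lit 836)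 (nat_lit 575798963465) (nat_lit 836) (nat_lit 575798963465) (nat_lit 163) (nat_lit 3) (nat_lit 174) (nat_lit 3) (nat_lit 174) (nat_lit 5) (nat_lit 490) (nat_lit 490) (nat_lit 220)) (XT.lf (nat_lit 0) (nat_lit 1944513125162) (nat_lit 760) (nat_lit 2089216362058) (nat_lit 836) (nat_lit 265313772873) (nat_lit 164) (nat_lit 5) (nat_lit 174) (nat_lit 5) (nat_lit 175) (nat_lit 5) (nat_lit 491) (nat_lit 490) (nat_lit 219)))) (XT.nd (nat_lit 156) (nat_lit 0) (nat_lit 152) (XT.nd (nat_lit 78) (nat_lit 0) (nat_lit 76) (XT.lf (nat_lit 76) (nat_lit 1400883318441) (nat_lit 0) (nat_lit 757322930188) (nat_lit 836) (nat_lit 2312766602584) (nat_lit 165) (nat_lit 5) (nat_lit 164) (nat_lit 5) (nat_lit 175) (nat_lit 5) (nat_lit 492) (nat_lit 490) (nat_lit 218)) (XT.lf (nat_lit 76) (nat_lit 563991424037) (nat_lit 0) (nat_lit 1914220554765) (nat_lit 836) (nat_lit 2173983972981) (nat_lit 166) (nat_lit 5) (nat_lit 165)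 (nat_lit 5) (nat_lit 176) (nat_lit 5) (nat_lit 493) (nat_lit 490) (nat_lit 217))) (XT.nd (nat_lit 78) (nat_lit 0) (nat_lit 76) (XT.lf (nat_lit 0) (nat_lit 2916330625087) (nat_lit 760) (nat_lit 285845666829) (nat_lit 836) (nat_lit 1641114985597) (nat_lit 166) (nat_lit 5) (nat_lit 176) (nat_lit 5) (nat_lit 177) (nat_lit 5) (nat_lit 494) (nat_lit 490) (nat_lit 216)) (XT.lf (nat_lit 0) (nat_lit 3489605752581) (nat_lit 760) (nat_lit 1138044221570) (nat_lit 836) (nat_lit 417018905674) (nat_lit 167) (nat_lit 5) (nat_lit 177) (nat_lit 5) (nat_lit 178) (nat_lit 5) (nat_lit 495) (nat_lit 490) (nat_lit 215))))) (XT.nd (nat_lit 312) (nat_lit 0) (nat_lit 76) (XT.nd (nat_lit 156) (nat_lit 0) (nat_lit 76) (XT.nd (nat_lit 78) (nat_lit 0) (nat_lit 76) (XT.lf (nat_lit 0) (nat_lit 989478415386) (nat_lit 836) (nat_lit 621862877513) (nat_lit 836) (nat_lit 621862877513) (nat_lit 163) (nat_lit 3) (nat_lit 174) (nat_lit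 3) (nat_lit 174) (nat_lit 5) (nat_lit 491) (nat_lit 491) (nat_lit 218)) (XT.lf (nat_lit 0) (nat_lit 2100074185873) (nat_lit 760) (nat_lit 2256353664609) (nat_lit 836) (nat_lit 286538869882) (nat_lit 164) (nat_lit 5) (nat_lit 174) (nat_lit 5) (nat_lit 175) (nat_lit 5) (nat_lit 492) (nat_lit 491) (nat_lit 217))) (XT.nd (nat_lit 78) (nat_lit 0) (nat_lit 76) (XT.lf (nat_lit 76) (nat_lit 1512953990051) (nat_lit 0) (nat_lit 817908768470) (nat_lit 836) (nat_lit 2497787920289) (nat_lit 165) (nat_lit 5) (nat_lit 164) (nat_lit 5) (nat_lit 175) (nat_lit 5) (nat_lit 493) (nat_lit 491) (nat_lit 216)) (XT.lf (nat_lit 76) (nat_lit 609110744365) (nat_lit 0) (nat_lit 2067358202047) (nat_lit 836) (nat_lit 2347902681049) (nat_lit 166) (nat_lit 5) (nat_lit 165) (nat_lit 5) (nat_lit 176) (nat_lit 5) (nat_lit 494) (nat_lit 491) (nat_lit 215)))) (XT.nd (nat_lit 62400) (nat_lit 0) (nat_lit 0) (XT.nd (nat_lit 62322)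 (nat_lit 152) (nat_lit 0) (XT.lf (nat_lit 0) (nat_lit 3149637083668) (nat_lit 760) (nat_lit 308713313771) (nat_lit 836) (nat_lit 1772404181846) (nat_lit 166) (nat_lit 5) (nat_lit 176) (nat_lit 5) (nat_lit 177) (nat_lit 5) (nat_lit 495) (nat_lit 491) (nat_lit 214)) (XT.lf (nat_lit 0) (nat_lit 2268080129915) (nat_lit 760) (nat_lit 2436861952280) (nat_lit 836) (nat_lit 309461975340) (nat_lit 164) (nat_lit 5) (nat_lit 174) (nat_lit 5) (nat_lit 175) (nat_lit 5) (nat_lit 493) (nat_lit 492) (nat_lit 215))) (XT.nd (nat_lit 62478) (nat_lit 0) (nat_lit 0) (XT.lf (nat_lit 76) (nat_lit 1633990314515) (nat_lit 0) (nat_lit 883341473264) (nat_lit 836) (nat_lit 2697610944908) (nat_lit 165) (nat_lit 5) (nat_lit 164) (nat_lit 5) (nat_lit 175) (nat_lit 5) (nat_lit 494) (nat_lit 492) (nat_lit 214)) (XT.lf (nat_lit 0) (nat_lit 2449526548172) (nat_lit 760) (nat_lit 2631810903749) (nat_lit 836) (nat_lit 334218929824)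 (nat_lit 164) (nat_lit 5) (nat_lit 174) (nat_lit 5) (nat_lit 175) (nat_lit 5) (nat_lit 494) (nat_lit 493) (nat_lit 213))))))))

set_option maxRecDepth 10000000 in
noncomputable def Tp : PT := (PT.nd (nat_lit 12760956) (PT.nd (nat_lit 12074244) (PT.nd (nat_lit 11012742) (PT.nd (nat_lit 10076118) pc0 pc1) (PT.nd (nat_lit 686790) pc2 pc3)) (PT.nd (nat_lit 436722) (PT.nd (nat_lit 249600) pc4 pc5) (PT.nd (nat_lit 125268) pc6 pc7))) (PT.nd (nat_lit 498264) (PT.nd (nat_lit 187512) (PT.nd (nat_lit 124176) pc8 pc9) (PT.nd (nat_lit 123864) pc10 pc11)) (PT.nd (nat_lit 440622) (PT.nd (nat_lit 248976) pc12 pc13) (PT.nd (nat_lit 250068) pc14 pc15))))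

set_option maxRecDepth 10000000 in
noncomputable def Tx : XT := (XT.nd (nat_lit 21657012) (nat_lit 0) (nat_lit 76) XT.nil (XT.nd (nat_lit 9183252) (nat_lit 0) (nat_lit 0) (XT.nd (nat_lit 4059042) (nat_lit 0) (nat_lit 456) (XT.nd (nat_lit 2807298) (nat_lit 0) (nat_lit 0) (XT.nd (nat_lit 1994928) (nat_lit 0) (nat_lit 0) (XT.nd (nat_lit 1373424) (nat_lit 0) (nat_lit 0) (XT.nd (nat_lit 937092) (nat_lit 0) (nat_lit 0) (XT.nd (nat_lit 686010) (nat_lit 0) (nat_lit 0) (XT.nd (nat_lit 498576) (nat_lit 0) (nat_lit 0) xc0 xc1) (XT.nd (nat_lit 125814) (nat_lit 0) (nat_lit 0) xc2 xc3)) (XT.nd (nat_lit 248820) (nat_lit 0) (nat_lit 0) (XT.nd (nat_lit 124644) (nat_lit 0) (nat_lit 0) xc4 xc5) (XT.nd (nat_lit 123474) (nat_lit 0) (nat_lit 0) xc6 xc7))) (XT.nd (nat_lit 312702) (nat_lit 0) (nat_lit 0) (XT.nd (nat_lit 186108) (nat_lit 0) (nat_lit 0) (XT.nd (nat_lit 122538) (nat_lit 0) (nat_lit 0) xc8 xc9) (XT.nd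 (nat_lit 63336) (nat_lit 0) (nat_lit 0) xc10 xc11)) (XT.nd (nat_lit 183768) (nat_lit 0) (nat_lit 0) (XT.nd (nat_lit 63024) (nat_lit 0) (nat_lit 0) xc12 xc13) (XT.nd (nat_lit 62556) (nat_lit 0) (nat_lit 0) xc14 xc15)))) (XT.nd (nat_lit 437658) (nat_lit 0) (nat_lit 0) (XT.nd (nat_lit 191334) (nat_lit 0) (nat_lit 0) (XT.nd (nat_lit 124410) (nat_lit 0) (nat_lit 0) (XT.nd (nat_lit 62244) (nat_lit 0) (nat_lit 0) xc16 xc17) (XT.nd (nat_lit 61932) (nat_lit 0) (nat_lit 0) xc18 xc19)) (XT.nd (nat_lit 123474) (nat_lit 0) (nat_lit 0) (XT.nd (nat_lit 61776) (nat_lit 0) (nat_lit 0) xc20 xc21) (XT.nd (nat_lit 61464) (nat_lit 0) (nat_lit 0) xc22 xc23))) (XT.nd (nat_lit 188058) (nat_lit 0) (nat_lit 0) (XT.nd (nat_lit 66144) (nat_lit 0) (nat_lit 0) (XT.nd (nat_lit 61152) (nat_lit 0) (nat_lit 0) xc24 xc25) (XT.nd (nat_lit 60996) (nat_lit 0) (nat_lit 0) xc26 xc27)) (XT.nd (nat_lit 65676) (nat_lit 0) (nat_lit 0)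 (XT.nd (nat_lit 60684) (nat_lit 0) (nat_lit 152) xc28 xc29) (XT.nd (nat_lit 60528) (nat_lit 0) (nat_lit 0) xc30 xc31))))) (XT.nd (nat_lit 626106) (nat_lit 0) (nat_lit 228) (XT.nd (nat_lit 314808) (nat_lit 0) (nat_lit 152) (XT.nd (nat_lit 185328) (nat_lit 0) (nat_lit 152) (XT.nd (nat_lit 65130) (nat_lit 0) (nat_lit 152) (XT.nd (nat_lit 60216) (nat_lit 0) (nat_lit 456) xc32 xc33) (XT.nd (nat_lit 60138) (nat_lit 0) (nat_lit 0) xc34 xc35)) (XT.nd (nat_lit 64818) (nat_lit 0) (nat_lit 0) (XT.nd (nat_lit 4914) (nat_lit 304) (nat_lit 0) xc36 xc37) (XT.nd (nat_lit 59670) (nat_lit 0) (nat_lit 532) xc38 xc39))) (XT.nd (nat_lit 183144) (nat_lit 0) (nat_lit 0) (XT.nd (nat_lit 118950) (nat_lit 0) (nat_lit 0) (XT.nd (nat_lit 59514) (nat_lit 0) (nat_lit 0) xc40 xc41) (XT.nd (nat_lit 4914) (nat_lit 1444) (nat_lit 0) xc42 xc43)) (XT.nd (nat_lit 64038) (nat_lit 0) (nat_lit 0) (XT.nd (nat_lit 4914) (nat_lit 304)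 (nat_lit 0) xc44 xc45) (XT.nd (nat_lit 59124) (nat_lit 0) (nat_lit 1748) xc46 xc47)))) (XT.nd (nat_lit 311844) (nat_lit 0) (nat_lit 0) (XT.nd (nat_lit 182910) (nat_lit 0) (nat_lit 0) (XT.nd (nat_lit 64194) (nat_lit 0) (nat_lit 0) (XT.nd (nat_lit 59202) (nat_lit 0) (nat_lit 380) xc48 xc49) (XT.nd (nat_lit 59280) (nat_lit 0) (nat_lit 0) xc50 xc51)) (XT.nd (nat_lit 64428) (nat_lit 0) (nat_lit 0) (XT.nd (nat_lit 4914) (nat_lit 1520) (nat_lit 0) xc52 xc53) (XT.nd (nat_lit 4914) (nat_lit 228) (nat_lit 0) xc54 xc55))) (XT.nd (nat_lit 184080) (nat_lit 0) (nat_lit 152) (XT.nd (nat_lit 64584) (nat_lit 0) (nat_lit 152) (XT.nd (nat_lit 59592) (nat_lit 0) (nat_lit 684) xc56 xc57) (XT.nd (nat_lit 59670) (nat_lit 0) (nat_lit 0) xc58 xc59)) (XT.nd (nat_lit 64818) (nat_lit 0) (nat_lit 0) (XT.nd (nat_lit 4914) (nat_lit 1140) (nat_lit 0) xc60 xc61) (XT.nd (nat_lit 59904) (nat_lit 0) (nat_lit 1444) xc62 xc63))))))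 (XT.nd (nat_lit 1561404) (nat_lit 0) (nat_lit 1596) (XT.nd (nat_lit 746070) (nat_lit 0) (nat_lit 456) (XT.nd (nat_lit 371592) (nat_lit 0) (nat_lit 228) (XT.nd (nat_lit 185406) (nat_lit 0) (nat_lit 152) (XT.nd (nat_lit 120198) (nat_lit 0) (nat_lit 0) (XT.nd (nat_lit 60060) (nat_lit 0) (nat_lit 0) xc64 xc65) (XT.nd (nat_lit 4914) (nat_lit 1368) (nat_lit 0) xc66 xc67)) (XT.nd (nat_lit 65286) (nat_lit 0) (nat_lit 0) (XT.nd (nat_lit 60294) (nat_lit 0) (nat_lit 760) xc68 xc69) (XT.nd (nat_lit 60372) (nat_lit 0) (nat_lit 0) xc70 xc71))) (XT.nd (nat_lit 186888) (nat_lit 0) (nat_lit 152) (XT.nd (nat_lit 65520) (nat_lit 0) (nat_lit 0) (XT.nd (nat_lit 4914) (nat_lit 152) (nat_lit 0) xc72 xc73) (XT.nd (nat_lit 60606) (nat_lit 0) (nat_lit 152) xc74 xc75)) (XT.nd (nat_lit 65754) (nat_lit 0) (nat_lit 0) (XT.nd (nat_lit 4914) (nat_lit 532) (nat_lit 0) xc76 xc77) (XT.nd (nat_lit 60840) (nat_lit 0) (nat_lit 76)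 xc78 xc79)))) (XT.nd (nat_lit 377598) (nat_lit 0) (nat_lit 456) (XT.nd (nat_lit 188370) (nat_lit 0) (nat_lit 380) (XT.nd (nat_lit 65988) (nat_lit 0) (nat_lit 152) (XT.nd (nat_lit 4914) (nat_lit 608) (nat_lit 0) xc80 xc81) (XT.nd (nat_lit 61074) (nat_lit 0) (nat_lit 76) xc82 xc83)) (XT.nd (nat_lit 66300) (nat_lit 0) (nat_lit 0) (XT.nd (nat_lit 61308) (nat_lit 0) (nat_lit 684) xc84 xc85) (XT.nd (nat_lit 61386) (nat_lit 0) (nat_lit 76) xc86 xc87))) (XT.nd (nat_lit 189930) (nat_lit 0) (nat_lit 228) (XT.nd (nat_lit 123240) (nat_lit 0) (nat_lit 228) (XT.nd (nat_lit 61542) (nat_lit 0) (nat_lit 152) xc88 xc89) (XT.nd (nat_lit 61698) (nat_lit 0) (nat_lit 304) xc90 xc91)) (XT.nd (nat_lit 123708) (nat_lit 0) (nat_lit 228) (XT.nd (nat_lit 61776) (nat_lit 0) (nat_lit 152) xc92 xc93) (XT.nd (nat_lit 61932) (nat_lit 0) (nat_lit 152) xc94 xc95))))) (XT.nd (nat_lit 1064076) (nat_lit 0) (nat_lit 1900) (XT.nd (nat_lit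 499902) (nat_lit 0) (nat_lit 912) (XT.nd (nat_lit 249288) (nat_lit 0) (nat_lit 380) (XT.nd (nat_lit 124488) (nat_lit 0) (nat_lit 228) (XT.nd (nat_lit 62166) (nat_lit 0) (nat_lit 152) xc96 xc97) (XT.nd (nat_lit 62322) (nat_lit 0) (nat_lit 0) xc98 xc99)) (XT.nd (nat_lit 125112) (nat_lit 0) (nat_lit 228) (XT.nd (nat_lit 62478) (nat_lit 0) (nat_lit 76) xc100 xc101) (XT.nd (nat_lit 62634) (nat_lit 0) (nat_lit 228) xc102 xc103))) (XT.nd (nat_lit 310362) (nat_lit 0) (nat_lit 456) (XT.nd (nat_lit 125892) (nat_lit 0) (nat_lit 152) (XT.nd (nat_lit 62868) (nat_lit 0) (nat_lit 76) xc104 xc105) (XT.nd (nat_lit 63024) (nat_lit 0) (nat_lit 76) xc106 xc107)) (XT.nd (nat_lit 126672) (nat_lit 0) (nat_lit 380) (XT.nd (nat_lit 63258) (nat_lit 0) (nat_lit 152) xc108 xc109) (XT.nd (nat_lit 63492) (nat_lit 0) (nat_lit 76) xc110 xc111)))) (XT.nd (nat_lit 809952) (nat_lit 0) (nat_lit 1900) (XT.nd (nat_lit 373464) (nat_lit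 0) (nat_lit 836) (XT.nd (nat_lit 186342) (nat_lit 0) (nat_lit 380) (XT.nd (nat_lit 122460) (nat_lit 0) (nat_lit 228) xc112 xc113) (XT.nd (nat_lit 122928) (nat_lit 0) (nat_lit 304) xc114 xc115)) (XT.nd (nat_lit 187980) (nat_lit 0) (nat_lit 304) (XT.nd (nat_lit 123552) (nat_lit 0) (nat_lit 228) xc116 xc117) (XT.nd (nat_lit 124020) (nat_lit 0) (nat_lit 304) xc118 xc119))) (XT.nd (nat_lit 501540) (nat_lit 0) (nat_lit 1368) (XT.nd (nat_lit 250146) (nat_lit 0) (nat_lit 608) (XT.nd (nat_lit 124800) (nat_lit 0) (nat_lit 304) xc120 xc121) (XT.nd (nat_lit 125424) (nat_lit 0) (nat_lit 380) xc122 xc123)) (XT.nd (nat_lit 375024) (nat_lit 0) (nat_lit 1520) (XT.nd (nat_lit 187122) (nat_lit 0) (nat_lit 608) xc124 xc125) (XT.nd (nat_lit 249990) (nat_lit 0) (nat_lit 1596) xc126 xc127))))))) XT.nil))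

set_option maxRecDepth 10000000 in
noncomputable def Te : XT := XT.nil

set_option maxRecDepth 10000000 in
noncomputable def Tz : ZL := (ZL.cons (nat_lit 76) (nat_lit 3) (nat_lit 294996543690112623804) (ZL.cons (nat_lit 152) (nat_lit 6) (nat_lit 568209160626385940182) (ZL.cons (nat_lit 228) (nat_lit 6) (nat_lit 548045984743680070456) (ZL.cons (nat_lit 304) (nat_lit 3) (nat_lit 273214467128705279869) (ZL.cons (nat_lit 380) (nat_lit 6) (nat_lit 526269754790357731152) (ZL.cons (nat_lit 456) (nat_lit 6) (nat_lit 507612160420978252476) (ZL.cons (nat_lit 532) (nat_lit 3) (nat_lit 253057445726105093499) (ZL.cons (nat_lit 608) (nat_lit 6) (nat_lit 487461958502048415508) (ZL.cons (nat_lit 684) (nat_lit 6) (nat_lit 470200420040908495074) (ZL.cons (nat_lit 760) (nat_lit 3) (nat_lit 234407029942320883888) (ZL.cons (nat_lit 836) (nat_lit 6) (nat_lit 451557958502877381006) (ZL.cons (nat_lit 912) (nat_lit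 6) (nat_lit 435591395978196651420) (ZL.cons (nat_lit 988) (nat_lit 3) (nat_lit 217153864583419285295) (ZL.cons (nat_lit 1064) (nat_lit 6) (nat_lit 418347508451541463466) (ZL.cons (nat_lit 1140) (nat_lit 6) (nat_lit 403582717271265780480) (ZL.cons (nat_lit 1216) (nat_lit 3) (nat_lit 201197068445189334301) (ZL.cons (nat_lit 1292) (nat_lit 6) (nat_lit 387636742796568042856) (ZL.cons (nat_lit 1368) (nat_lit 6) (nat_lit 373987874945849967708) (ZL.cons (nat_lit 1444) (nat_lit 3) (nat_lit 186443668778069839465) (ZL.cons (nat_lit 1520) (nat_lit 6) (nat_lit 359247097667074446546) (ZL.cons (nat_lit 1596) (nat_lit 6) (nat_lit 346635192078177885070) (ZL.cons (nat_lit 1672) (nat_lit 3) (nat_lit 172808087988297142175) (ZL.cons (nat_lit 1748) (nat_lit 6) (nat_lit 333014334042169598676) (ZL.cons (nat_lit 1824) (nat_lit 6) (nat_lit 321366894281966761752) (ZL.cons (nat_lit 1900) (nat_lit 3) (nat_lit 160211680427287269433)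 (ZL.cons (nat_lit 1976) (nat_lit 6) (nat_lit 308787659340947697878) (ZL.cons (nat_lit 2052) (nat_lit 6) (nat_lit 298038277196023138880) (ZL.cons (nat_lit 2128) (nat_lit 3) (nat_lit 148582317566811466250) (ZL.cons (nat_lit 2204) (nat_lit 6) (nat_lit 286428944479504615158) (ZL.cons (nat_lit 2280) (nat_lit 6) (nat_lit 276516968471012785456) (ZL.cons (nat_lit 2356) (nat_lit 3) (nat_lit 137854020317728519404) (ZL.cons (nat_lit 2432) (nat_lit 6) (nat_lit 265812034381841609378) (ZL.cons (nat_lit 2508) (nat_lit 6) (nat_lit 256682282718636902094) (ZL.cons (nat_lit 2584) (nat_lit 3) (nat_lit 127966637731746346119) (ZL.cons (nat_lit 2660) (nat_lit 6) (nat_lit 246822150922375818230) (ZL.cons (nat_lit 2736) (nat_lit 6) (nat_lit 238424668909358442916) (ZL.cons (nat_lit 2812) (nat_lit 3) (nat_lit 118865571836556902079) (ZL.cons (nat_lit 2888) (nat_lit 6) (nat_lit 229355388335299677578) (ZL.cons (nat_lit 2964)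 (nat_lit 6) (nat_lit 221645250803227873292) (ZL.cons (nat_lit 3040) (nat_lit 3) (nat_lit 110501548903352529814) (ZL.cons (nat_lit 3116) (nat_lit 6) (nat_lit 213318302268590324664) (ZL.cons (nat_lit 3192) (nat_lit 6) (nat_lit 206255462191840718698) (ZL.cons (nat_lit 3268) (nat_lit 3) (nat_lit 102830438041974612283) (ZL.cons (nat_lit 3344) (nat_lit 6) (nat_lit 198627594908951144256) (ZL.cons (nat_lit 3420) (nat_lit 6) (nat_lit 192176780040336835856) (ZL.cons (nat_lit 3496) (nat_lit 3) (nat_lit 95813118673922355828) (ZL.cons (nat_lit 3572) (nat_lit 6) (nat_lit 185209899982233382782) (ZL.cons (nat_lit 3648) (nat_lit 6) (nat_lit 179340560072172794198) (ZL.cons (nat_lit 3724) (nat_lit 3) (nat_lit 89415399159932635897) (ZL.cons (nat_lit 3800) (nat_lit 6) (nat_lit 173983436344121846124) (ZL.cons (nat_lit 3876) (nat_lit 6) (nat_lit 173001672969307358530) (ZL.cons (nat_lit 3952) (nat_lit 6) (nat_lit 167687980965519299798)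 (ZL.cons (nat_lit 4028) (nat_lit 3) (nat_lit 83607989671506167304) (ZL.cons (nat_lit 4104) (nat_lit 6) (nat_lit 162858233763293462662) (ZL.cons (nat_lit 4180) (nat_lit 6) (nat_lit 161949193601428196370) (ZL.cons (nat_lit 4256) (nat_lit 6) (nat_lit 157170105162382593364) (ZL.cons (nat_lit 4332) (nat_lit 3) (nat_lit 78366533311512146131) (ZL.cons (nat_lit 4408) (nat_lit 6) (nat_lit 152850393501792292390) (ZL.cons (nat_lit 4484) (nat_lit 6) (nat_lit 152008689648213342118) (ZL.cons (nat_lit 4560) (nat_lit 6) (nat_lit 147748066368996466234) (ZL.cons (nat_lit 4636) (nat_lit 3) (nat_lit 73671700527387908532) (ZL.cons (nat_lit 4712) (nat_lit 6) (nat_lit 143925948647422749786) (ZL.cons (nat_lit 4788) (nat_lit 6) (nat_lit 143146593227442240276) (ZL.cons (nat_lit 4864) (nat_lit 6) (nat_lit 140519686896993978162) (ZL.cons (nat_lit 4940) (nat_lit 6) (nat_lit 139393396193902486856) (ZL.cons (nat_lit 5016)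 (nat_lit 3) (nat_lit 69509353044071313258) (ZL.cons (nat_lit 5092) (nat_lit 6) (nat_lit 136061568786550395298) (ZL.cons (nat_lit 5168) (nat_lit 6) (nat_lit 135339943397679553162) (ZL.cons (nat_lit 5244) (nat_lit 6) (nat_lit 133131366842972027286) (ZL.cons (nat_lit 5320) (nat_lit 6) (nat_lit 132088505080850276076) (ZL.cons (nat_lit 5396) (nat_lit 3) (nat_lit 65870784898869647140) (ZL.cons (nat_lit 5472) (nat_lit 6) (nat_lit 130585426203501733230) (ZL.cons (nat_lit 5548) (nat_lit 6) (nat_lit 129245123355036547696) (ZL.cons (nat_lit 5624) (nat_lit 6) (nat_lit 128576951698674656826) (ZL.cons (nat_lit 5700) (nat_lit 6) (nat_lit 128408659812498207684) (ZL.cons (nat_lit 5776) (nat_lit 6) (nat_lit 126792948550752064442) (ZL.cons (nat_lit 5852) (nat_lit 6) (nat_lit 125827335808046739248) (ZL.cons (nat_lit 5928) (nat_lit 3) (nat_lit 62753049717397915087) (ZL.cons (nat_lit 6004) (nat_lit 6) (nat_lit 124717449261749214560)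 (ZL.cons (nat_lit 6080) (nat_lit 6) (nat_lit 123476428105762931658) (ZL.cons (nat_lit 6156) (nat_lit 6) (nat_lit 122857750646168588260) (ZL.cons (nat_lit 6232) (nat_lit 6) (nat_lit 123006326232982055240) (ZL.cons (nat_lit 6308) (nat_lit 6) (nat_lit 121510297286920811494) (ZL.cons (nat_lit 6384) (nat_lit 6) (nat_lit 120616211414045510388) (ZL.cons (nat_lit 6460) (nat_lit 3) (nat_lit 60159385163851038032) (ZL.cons (nat_lit 6536) (nat_lit 6) (nat_lit 119634010884238370162) (ZL.cons (nat_lit 6612) (nat_lit 6) (nat_lit 119968263065199922384) (ZL.cons (nat_lit 6688) (nat_lit 6) (nat_lit 120638748180787984178) (ZL.cons (nat_lit 6764) (nat_lit 6) (nat_lit 121649439476131966276) (ZL.cons (nat_lit 6840) (nat_lit 6) (nat_lit 119917292205927240270) (ZL.cons (nat_lit 6916) (nat_lit 6) (nat_lit 118768198542976978320) (ZL.cons (nat_lit 6992) (nat_lit 6) (nat_lit 118195349043352586288) (ZL.cons (nat_lit 7068)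 (nat_lit 3) (nat_lit 58559904887605864442) (ZL.cons (nat_lit 7144) (nat_lit 6) (nat_lit 117293363792249457920) (ZL.cons (nat_lit 7220) (nat_lit 6) (nat_lit 117815054311611757506) (ZL.cons (nat_lit 7296) (nat_lit 6) (nat_lit 118687972832672626450) (ZL.cons (nat_lit 7372) (nat_lit 6) (nat_lit 117302760845578882240) (ZL.cons (nat_lit 7448) (nat_lit 6) (nat_lit 116474903555879529364) (ZL.cons (nat_lit 7524) (nat_lit 3) (nat_lit 58099747571299285828) (ZL.cons (nat_lit 7600) (nat_lit 6) (nat_lit 115126097966333798438) (ZL.cons (nat_lit 7676) (nat_lit 6) (nat_lit 115487090321772274838) (ZL.cons (nat_lit 7752) (nat_lit 6) (nat_lit 116211214246607381574) (ZL.cons (nat_lit 7828) (nat_lit 6) (nat_lit 115147238632764546438) (ZL.cons (nat_lit 7904) (nat_lit 6) (nat_lit 114616822429408627886) (ZL.cons (nat_lit 7980) (nat_lit 3) (nat_lit 56726811265353388533) (ZL.cons (nat_lit 8056) (nat_lit 6) (nat_lit 113641060869107524430)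 (ZL.cons (nat_lit 8132) (nat_lit 6) (nat_lit 114204486630018807980) (ZL.cons (nat_lit 8208) (nat_lit 6) (nat_lit 113437952102519407168) (ZL.cons (nat_lit 8284) (nat_lit 3) (nat_lit 56591472156222223162) (ZL.cons (nat_lit 8360) (nat_lit 6) (nat_lit 112266026519823937382) (ZL.cons (nat_lit 8436) (nat_lit 6) (nat_lit 112655898263697491896) (ZL.cons (nat_lit 8512) (nat_lit 6) (nat_lit 112164772149479048792) (ZL.cons (nat_lit 8588) (nat_lit 3) (nat_lit 55676919461111027703) (ZL.cons (nat_lit 8664) (nat_lit 6) (nat_lit 111556272327694862556) (ZL.cons (nat_lit 8740) (nat_lit 3) (nat_lit 55660077001775690148) (ZL.cons (nat_lit 8816) (nat_lit 6) (nat_lit 110899092520167941424) (ZL.cons (nat_lit 8892) (nat_lit 1) (nat_lit 18446744073709551617) ZL.nil)))))))))))))))))))))))))))))))))))))))))))))))))))))))))))))))))))))))))))))))))))))))))))))))))))))))))))))))))))))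

noncomputable def vl : XL := ⟨(nat_lit 0), (nat_lit 76), (nat_lit 91225250), (nat_lit 228), (nat_lit 20291461), (nat_lit 76), (nat_lit 91225250), (nat_lit 1), (nat_lit 5), (nat_lit 3), (nat_lit 4), (nat_lit 1), (nat_lit 4), (nat_lit 0), (nat_lit 0), (nat_lit 0)⟩

noncomputable def cp0 : Nat := (nat_lit 36523534149797767554912755018474945136932480102033177965356990561610940007938438163703596345820863685859721522994838113391732429208895405144039442433576972191222827107060076941619511608756462646118431275863822629218479356442006675281267514872857024241620770413877710453251568457622473241148590594487345524314572801720651941819382282236651401231314016123294329707469357538415178927101401267175555872234813615087765949318295874941249250257250467977150134985492520037405501926383220945009762302685483889768543610349006136063108791586318426328649774338366004510938627128355515050597264238962904507358637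93492504569491954786476669873113013618262677897570446638597877279091629206966907813660439428041834471692336005530277599789501788899150013578128100118980451133653072497314173777798657922021501422363206768062959467554222490994385255921133017626225593240089286624780214814222554870343097183962855421277552249927774354166320941679228814582959387181664407525982729325317526504385098271695511616299564073936729063152788157278723236212139231312354904501411452114862617367925076305653296880743745174053443632684232562162928901852810887432879011830067499818724451981773553879371287771495954978793105171025035178142094192087909042250341830613843536089327019558626769121831694702689569894082491154495877766451668967801295591091664315017599522922804729051312761118628370576602087226362928269433948717423418890910813419593976912670647427576064738237396195171393858054636719291022757042264661937783892178007778578510594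5071847652173729167959911204405301301933832151063076500197471380544343777656726200166225614962903908979773623321895953078949928488167235341617815557446927727516440893175622220983747160054753403860561337826171791906461438426927983248986671310018110795732145122530990234016637650109326932504000773925645709933358743370168761124910751554541564730469033486917263719004809714653966243778633266001806517205944471394867973563319769916824930299910584425168229346203620453964986789782095186987275873750637532317954312888755754783780190575144538614492241499473669116658964599216813908525100660456864487545202416591292460139145249666402832405847661974615650193891989432580320385603689803676949285914195686999038335721276837430294640192286854397640612091265026701810314983114930307922934350119847574425342725801071164774431425417134796142579713082249830526427427641769720108571326772390085207848593387970599602505303264558553410368345016224800638011112634580784921337272154620154860030325163693554425984611900948142441128594641688112010329503571577912517795098296149760190741402183800362266327983360061233356608624613624528090059939851803985294507103585594059626377142761446312345522439750625343123226624)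

noncomputable def cp1 : Nat := (nat_lit 43610789165084352878728049958350565241316043714091905926779559101705536370332447054582789418458561501330632004908924496831713826085880079971106712733853422140170854339929926497646455326880109459124825114640778538344123384237011152183201407305858273539743705921387608539307028191012232998375629204414278483242841144332536291222592802501240596591816340757902413066317960347985555408071783172594936818888463466959486368588557244966676823569753655545501017723215379703989195251725450369057974010208279953441340311217753020667498719674696369417211177190531206451276872863178866829350317533240225092396082107226447791127829796917427159099089013204797677173286092070328032368758803339398328422979273921440225286339533922150615732556734093464925914935003815850402444876988320498971948273768045349641859011514471169071190204474243342392895953668293632006303498420833798712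88980581659674736089304653281155336827093620934555149039878597422756258058007407270759597144015007028904426603550544346958302794572247352895511338191880066994582961046987741454845032308015456811271869318103524443343733352437360533340374374874459945520166180099129170115854854955329988323045067492883521554133706128798172482956089575335413334627349966010694079363652650775692322452937192018079059625731549770813861857555852856427503996785216186567875380215317354445899697694092219021408528015159297225737157620478214575583716998465232759783900546177528701574639921657239151442396404805242745680388548889042109196878608361657809102945430764333180557495105847863959407115844676276648236020498927834345056576154976848437491045558290571745590407408443629197853467101607597234734362996404180288345288891547337876382608705388317208456227487389684349988522480127110738171160566198303658476645126395877826414360602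92586154428731788184041266518343384635829400986240684357019870493828848906715400888885298687764646207853365935540732114185230029120594169508540590096899328853158363267173407056046311559496349668985396080334864229764184581164242421260524490439308497456816299862535827151673458165087047317102777896931137167092045683820551151387447322435485745876367601421656212420945095099592317704170748332932437297516590331620548291217681588033312500282754529081547839895075009608960538798887647004446098292130948004602290889303393481224050268995096422220235711738863769944306075445294921430198142465373384430139568357114452018554886265080980328636956223855063773905852638344715672624091752807504972330909295520497324204312785976425320352774538418829163327619708081388728396226311151765720949886287714031612615271675365879831109896730474917697907829351806655227118625522726047604598726710881533212933772785173835892174689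69634929451126206196750788048510545934125527505954806428791110527142107703435371996835644091149782584900633137932761802723459272706900003841860486977908616143946971372952722993591865873240470742824736431229351661202477090737810502544426543661557971104765283001464637906460221622007764114042034231229216253172237548684758076606103232517281110332325913693428495833394530538073074035307860515764167392875420382982652733155336769390691940757734710498565930277306591971043328424830998431281714458123787830028158901350621683133263312494163662330327889580932876094668225569021516620619045875852651123165534910177382647599854616964706100166698256948519226528064089944720473154983635833542617618083931329801276661942769975010041035010685987952581910768109656577607600652324743278080105049563563308938351389474447155970718507476070184157594602600480725555502606302098242998143451055666691025170177708227172682485910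99679802697030310254999837770784351912919104026919568485829018433161579431886976833471915855231899088064937700991164387848335672500490387815838857633367099531414647650516580679028523341262767594704384846273529347864336240232230536326572375045632472438827399407919022647941632053350139540862791247382518512074172682703366728123487355135219546122751988103690045670672407607136652382162050774017498155447673062841176395412329425416546435643026852564720782873681332193069914406769293895924562369082283031935461359199953891898955605653295786832337378221233877570014747684530370973716814937424333948843897690771777464342692649735362170647316262981019637273960214937523210590429213544242315775926664379783793922565534219767611114424654769902314245527223169335499507608894866285637144059357799433740848618782192300468598441341909657492475580841822558819103112718527445965522901174467292370829892963621917947501879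89628770923883800170191837338557112949059737951891408835757811103740129654110805298770635907166408144942028526386600172132355579149590044019864733520056792291682752247083513642070718541751418961087154019644983019673063957369542408499223151315332555034927442520768162686988381288230964386432716789158621172611246259016195629961404803059044099267658722654465110169922166873026796963041961250342385717025625374343678538316064727458908355468443188500832806194896508071354014939098698621356540237808381914163007476106545646316347770725497851237837172068977576343911043733234566763689965336809783260344550479865320850455889027538156850035818496)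

noncomputable def rc0 : Nat := (nat_lit 43610789165084352878728049958350565241316043714091905926779559101705536370332447054582789418458561501330632004908924496831713826085880079971106712733853422140170854339929926497646455326880109459124825114640778538344123384237011152183201407305858273539743705921387608539307028191012232998375629204414278483242841144332536291222592802501240596591816340757902413066317960347985555408071783172594936818888463466959486368588557244966676823569753655545501017723215379703989195251725450369057974010208279953441340311217753020667498719674696369417211177190531206451276872863178866829350317533240225092396082107226447791127829796917427159099089013204797677173286092070328032368758803339398328422979273921440225286339533922150615732556734093464925914935003815850402444876988320498971948273768045349641859011514471169071190204474243342392895953668293632006303498420833798712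88980581659674736089304653281155336827093620934555149039878597422756258058007407270759597144015007028904426603550544346958302794572247352895511338191880066994582961046987741454845032308015456811271869318103524443343733352437360533340374374874459945520166180099129170115854854955329988323045067492883521554133706128798172482956089575335413334627349966010694079363652650775692322452937192018079059625731549770813861857555852856427503996785216186567875380215317354445899697694092219021408528015159297225737157620478214575583716998465232759783900546177528701574639921657239151442396404805242745680388548889042109196878608361657809102945430764333180557495105847863959407115844676276648236020498927834345056576154976848437491045558290571745590407408443629197853467101607597234734362996404180288345288891547337876382608705388317208456227487389684349988522480127110738171160566198303658476645126395877826414360602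92586154428731788184041266518343384635829400986240684357019870493828848906715400888885298687764646207853365935540732114185230029120594169508540590096899328853158363267173407056046311559496349668985396080334864229764184581164242421260524490439308497456816299862535827151673458165087047317102777896931137167092045683820551151387447322435485745876367601421656212420945095099592317704170748332932437297516590331620548291217681588033312500282754529081547839895075009608960538798887647004446098292130948004602290889303393481224050268995096422220235711738863769944306075445294921430198142465373384430139568357114452018554886265080980328636956223855063773905852638344715672624091752807504972330909295520497324204312785976425320352774538418829163327619708081388728396226311151765720949886287714031612615271675365879831109896730474917697907829351806655227118625522726047604598726710881533212933772785173835892174689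69634929451126206196750788048510545934125527505954806428791110527142107703435371996835644091149782584900633137932761802723459272706900003841860486977908616143946971372952722993591865873240470742824736431229351661202477090737810502544426543661557971104765283001464637906460221622007764114042034231229216253172237548684758076606103232517281110332325913693428495833394530538073074035307860515764167392875420382982652733155336769390691940757734710498565930277306591971043328424830998431281714458123787830028158901350621683133263312494163662330327889580932876094668225569021516620619045875852651123165534910177382647599854616964706100166698256948519226528064089944720473154983635833542617618083931329801276661942769975010041035010685987952581910768109656577607600652324743278080105049563563308938351389474447155970718507476070184157594602600480725555502606302098242998143451055666691025170177708227172682485910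99679802697030310254999837770784351912919104026919568485829018433161579431886976833471915855231899088064937700991164387848335672500490387815838857633367099531414647650516580679028523341262767594704384846273529347864336240232230536326572375045632472438827399407919022647941632053350139540862791247382518512074172682703366728123487355135219546122751988103690045670672407607136652382162050774017498155447673062841176395412329425416546435643026852564720782873681332193069914406769293895924562369082283031935461359199953891898955605653295786832337378221233877570014747684530370973716814937424333948843897690771777464342692649735362170647316262981019637273960214937523210590429213544242315775926664379783793922565534219767611114424654769902314245527223169335499507608894866285637144059357799433740848618782192300468598441341909657492475580841822558819103112718527445965522901174467292370829892963621917947501879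89628770923883800170191837338557112949059737951891408835757811103740129654110805298770635907166408144942028526386600172132355579149590044019864733520056792291682752247083513642070718541751418961087154019644983019673063957369542408499223151315332555034927442520768162686988381288230964386432716789158621172611246259016195629961404803059044099267658722654465110169922166873026796963041961250342385717025625374343678538316064727458908355468443188500832806194896508071354014939098698621356540237808381914163007476106545646316347770725497851237837172068977576343911043733234566763689965336809783260344550479865320850455889027538156850035818496)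

end Vale.Agent.Lib.P154.PChain.BB.S3
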