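import Vale.Agent.Lib.P154.PChain.BB.R3_0

set_option linter.all false

namespace Vale.Agent.Lib.P154.PChain.BB.S4

open Vale.Agent.Lib.P154.Chain

noncomputable def pc0 : PT := (PT.nd (nat_lit 7640958) (PT.nd (nat_lit 7391280) (PT.nd (nat_lit 7266402) (PT.nd (nat_lit 7266246) (PT.nd (nat_lit 7203924) (PT.nd (nat_lit 7203846) PT.nil (PT.lf (nat_lit 76) (nat_lit 6) (nat_lit 1) (nat_lit 3) (nat_lit 242) (nat_lit 115) (nat_lit 243))) (PT.lf (nat_lit 76) (nat_lit 6) (nat_lit 1) (nat_lit 1) (nat_lit 243) (nat_lit 115) (nat_lit 242))) (PT.nd (nat_lit 78) (PT.lf (nat_lit 152) (nat_lit 6) (nat_lit 2) (nat_lit 3) (nat_lit 241) (nat_lit 116) (nat_lit 243)) (PT.lf (nat_lit 228) (nat_lit 3) (nat_lit 3) (nat_lit 1) (nat_lit 242) (nat_lit 116) (nat_lit 242)))) (PT.nd (nat_lit 62400) (PT.nd (nat_lit 62322) (PT.lf (nat_lit 152) (nat_lit 6) (nat_lit 2) (nat_lit 1) (nat_lit 243) (nat_lit 116) (nat_lit 241)) (PT.lf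 (nat_lit 304) (nat_lit 6) (nat_lit 4) (nat_lit 3) (nat_lit 241) (nat_lit 117) (nat_lit 242))) (PT.nd (nat_lit 62322) (PT.lf (nat_lit 304) (nat_lit 6) (nat_lit 4) (nat_lit 1) (nat_lit 242) (nat_lit 117) (nat_lit 241)) (PT.nd (nat_lit 78) (PT.lf (nat_lit 380) (nat_lit 6) (nat_lit 5) (nat_lit 3) (nat_lit 240) (nat_lit 118) (nat_lit 242)) (PT.lf (nat_lit 456) (nat_lit 3) (nat_lit 6) (nat_lit 1) (nat_lit 241) (nat_lit 118) (nat_lit 241)))))) (PT.nd (nat_lit 124800) (PT.nd (nat_lit 62400) (PT.nd (nat_lit 62322) (PT.lf (nat_lit 380) (nat_lit 6) (nat_lit 5) (nat_lit 1) (nat_lit 242) (nat_lit 118) (nat_lit 240)) (PT.lf (nat_lit 532) (nat_lit 6) (nat_lit 7) (nat_lit 3) (nat_lit 240) (nat_lit 119) (nat_lit 241))) (PT.nd (nat_lit 62322) (PT.lf (nat_lit 532) (nat_lit 6) (nat_lit 7) (nat_lit 1) (nat_lit 241) (nat_lit 119) (nat_lit 240)) (PT.lf (nat_lit 608) (nat_lit 6) (nat_lit 8) (nat_lit 3) (nat_lit 239) (nat_lit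 120) (nat_lit 241)))) (PT.nd (nat_lit 62400) (PT.nd (nat_lit 78) (PT.lf (nat_lit 684) (nat_lit 3) (nat_lit 9) (nat_lit 1) (nat_lit 240) (nat_lit 120) (nat_lit 240)) (PT.lf (nat_lit 608) (nat_lit 6) (nat_lit 8) (nat_lit 1) (nat_lit 241) (nat_lit 120) (nat_lit 239))) (PT.nd (nat_lit 78) (PT.lf (nat_lit 760) (nat_lit 6) (nat_lit 10) (nat_lit 3) (nat_lit 239) (nat_lit 121) (nat_lit 240)) (PT.nd (nat_lit 62322) (PT.lf (nat_lit 760) (nat_lit 6) (nat_lit 10) (nat_lit 1) (nat_lit 240) (nat_lit 121) (nat_lit 239)) (PT.lf (nat_lit 836) (nat_lit 6) (nat_lit 11) (nat_lit 3) (nat_lit 238) (nat_lit 122) (nat_lit 240))))))) (PT.nd (nat_lit 249678) (PT.nd (nat_lit 124800) (PT.nd (nat_lit 62400) (PT.nd (nat_lit 78) (PT.lf (nat_lit 912) (nat_lit 3) (nat_lit 12) (nat_lit 1) (nat_lit 239) (nat_lit 122) (nat_lit 239)) (PT.lf (nat_lit 836) (nat_lit 6) (nat_lit 11) (nat_lit 1) (nat_lit 240) (nat_lit 122) (nat_lit 238)))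 (PT.nd (nat_lit 78) (PT.lf (nat_lit 988) (nat_lit 6) (nat_lit 13) (nat_lit 3) (nat_lit 238) (nat_lit 123) (nat_lit 239)) (PT.lf (nat_lit 988) (nat_lit 6) (nat_lit 13) (nat_lit 1) (nat_lit 239) (nat_lit 123) (nat_lit 238)))) (PT.nd (nat_lit 156) (PT.nd (nat_lit 78) (PT.lf (nat_lit 1064) (nat_lit 6) (nat_lit 14) (nat_lit 3) (nat_lit 237) (nat_lit 124) (nat_lit 239)) (PT.lf (nat_lit 1140) (nat_lit 3) (nat_lit 15) (nat_lit 1) (nat_lit 238) (nat_lit 124) (nat_lit 238))) (PT.nd (nat_lit 62322) (PT.lf (nat_lit 1064) (nat_lit 6) (nat_lit 14) (nat_lit 1) (nat_lit 239) (nat_lit 124) (nat_lit 237)) (PT.nd (nat_lit 78) (PT.lf (nat_lit 1216) (nat_lit 6) (nat_lit 16) (nat_lit 3) (nat_lit 237) (nat_lit 125) (nat_lit 238)) (PT.lf (nat_lit 1216) (nat_lit 6) (nat_lit 16) (nat_lit 1) (nat_lit 238) (nat_lit 125) (nat_lit 237)))))) (PT.nd (nat_lit 124878) (PT.nd (nat_lit 156) (PT.nd (nat_lit 78) (PT.lf (nat_lit 1292)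 (nat_lit 6) (nat_lit 17) (nat_lit 3) (nat_lit 236) (nat_lit 126) (nat_lit 238)) (PT.lf (nat_lit 1368) (nat_lit 3) (nat_lit 18) (nat_lit 1) (nat_lit 237) (nat_lit 126) (nat_lit 237))) (PT.nd (nat_lit 62322) (PT.lf (nat_lit 1292) (nat_lit 6) (nat_lit 17) (nat_lit 1) (nat_lit 238) (nat_lit 126) (nat_lit 236)) (PT.nd (nat_lit 78) (PT.lf (nat_lit 1444) (nat_lit 6) (nat_lit 19) (nat_lit 3) (nat_lit 236) (nat_lit 127) (nat_lit 237)) (PT.lf (nat_lit 1444) (nat_lit 6) (nat_lit 19) (nat_lit 1) (nat_lit 237) (nat_lit 127) (nat_lit 236))))) (PT.nd (nat_lit 156) (PT.nd (nat_lit 78) (PT.lf (nat_lit 1520) (nat_lit 6) (nat_lit 20) (nat_lit 3) (nat_lit 235) (nat_lit 128) (nat_lit 237)) (PT.lf (nat_lit 1596) (nat_lit 3) (nat_lit 21) (nat_lit 1) (nat_lit 236) (nat_lit 128) (nat_lit 236))) (PT.nd (nat_lit 62322) (PT.lf (nat_lit 1520) (nat_lit 6) (nat_lit 20) (nat_lit 1) (nat_lit 237) (nat_lit 128) (nat_lit 235)) (PT.nd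 (nat_lit 78) (PT.lf (nat_lit 1672) (nat_lit 6) (nat_lit 22) (nat_lit 3) (nat_lit 235) (nat_lit 129) (nat_lit 236)) (PT.lf (nat_lit 1672) (nat_lit 6) (nat_lit 22) (nat_lit 1) (nat_lit 236) (nat_lit 129) (nat_lit 235))))))))
noncomputable def pc1 : PT := (PT.nd (nat_lit 437112) (PT.nd (nat_lit 187434) (PT.nd (nat_lit 62556) (PT.nd (nat_lit 156) (PT.nd (nat_lit 78) (PT.lf (nat_lit 1748) (nat_lit 6) (nat_lit 23) (nat_lit 3) (nat_lit 234) (nat_lit 130) (nat_lit 236)) (PT.lf (nat_lit 1824) (nat_lit 3) (nat_lit 24) (nat_lit 1) (nat_lit 235) (nat_lit 130) (nat_lit 235))) (PT.nd (nat_lit 62322) (PT.lf (nat_lit 1748) (nat_lit 6) (nat_lit 23) (nat_lit 1) (nat_lit 236) (nat_lit 130) (nat_lit 234)) (PT.lf (nat_lit 1900) (nat_lit 6) (nat_lit 25) (nat_lit 3) (nat_lit 234) (nat_lit 131) (nat_lit 235)))) (PT.nd (nat_lit 62400) (PT.nd (nat_lit 62322) (PT.lf (nat_lit 1900) (nat_lit 6) (nat_lit 25) (nat_lit 1) (nat_lit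 235) (nat_lit 131) (nat_lit 234)) (PT.lf (nat_lit 1976) (nat_lit 6) (nat_lit 26) (nat_lit 3) (nat_lit 233) (nat_lit 132) (nat_lit 235))) (PT.nd (nat_lit 78) (PT.lf (nat_lit 2052) (nat_lit 3) (nat_lit 27) (nat_lit 1) (nat_lit 234) (nat_lit 132) (nat_lit 234)) (PT.nd (nat_lit 62322) (PT.lf (nat_lit 1976) (nat_lit 6) (nat_lit 26) (nat_lit 1) (nat_lit 235) (nat_lit 132) (nat_lit 233)) (PT.lf (nat_lit 2128) (nat_lit 6) (nat_lit 28) (nat_lit 3) (nat_lit 233) (nat_lit 133) (nat_lit 234)))))) (PT.nd (nat_lit 124800) (PT.nd (nat_lit 62400) (PT.nd (nat_lit 62322) (PT.lf (nat_lit 2128) (nat_lit 6) (nat_lit 28) (nat_lit 1) (nat_lit 234) (nat_lit 133) (nat_lit 233)) (PT.lf (nat_lit 2204) (nat_lit 6) (nat_lit 29) (nat_lit 3) (nat_lit 232) (nat_lit 134) (nat_lit 234))) (PT.nd (nat_lit 78) (PT.lf (nat_lit 2280) (nat_lit 3) (nat_lit 30) (nat_lit 1) (nat_lit 233) (nat_lit 134) (nat_lit 233)) (PT.lf (nat_lit 2204)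 (nat_lit 6) (nat_lit 29) (nat_lit 1) (nat_lit 234) (nat_lit 134) (nat_lit 232)))) (PT.nd (nat_lit 62400) (PT.nd (nat_lit 78) (PT.lf (nat_lit 2356) (nat_lit 6) (nat_lit 31) (nat_lit 3) (nat_lit 232) (nat_lit 135) (nat_lit 233)) (PT.lf (nat_lit 2356) (nat_lit 6) (nat_lit 31) (nat_lit 1) (nat_lit 233) (nat_lit 135) (nat_lit 232))) (PT.nd (nat_lit 78) (PT.lf (nat_lit 2432) (nat_lit 6) (nat_lit 32) (nat_lit 3) (nat_lit 231) (nat_lit 136) (nat_lit 233)) (PT.nd (nat_lit 78) (PT.lf (nat_lit 2508) (nat_lit 3) (nat_lit 33) (nat_lit 1) (nat_lit 232) (nat_lit 136) (nat_lit 232)) (PT.lf (nat_lit 2432) (nat_lit 6) (nat_lit 32) (nat_lit 1) (nat_lit 233) (nat_lit 136) (nat_lit 231))))))) (PT.nd (nat_lit 187434) (PT.nd (nat_lit 62556) (PT.nd (nat_lit 62400) (PT.nd (nat_lit 78) (PT.lf (nat_lit 2584) (nat_lit 6) (nat_lit 34) (nat_lit 3) (nat_lit 231) (nat_lit 137) (nat_lit 232)) (PT.lf (nat_lit 2584) (nat_lit 6)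 (nat_lit 34) (nat_lit 1) (nat_lit 232) (nat_lit 137) (nat_lit 231))) (PT.nd (nat_lit 78) (PT.lf (nat_lit 2660) (nat_lit 6) (nat_lit 35) (nat_lit 3) (nat_lit 230) (nat_lit 138) (nat_lit 232)) (PT.lf (nat_lit 2736) (nat_lit 3) (nat_lit 36) (nat_lit 1) (nat_lit 231) (nat_lit 138) (nat_lit 231)))) (PT.nd (nat_lit 62400) (PT.nd (nat_lit 62322) (PT.lf (nat_lit 2660) (nat_lit 6) (nat_lit 35) (nat_lit 1) (nat_lit 232) (nat_lit 138) (nat_lit 230)) (PT.lf (nat_lit 2812) (nat_lit 6) (nat_lit 37) (nat_lit 3) (nat_lit 230) (nat_lit 139) (nat_lit 231))) (PT.nd (nat_lit 62322) (PT.lf (nat_lit 2812) (nat_lit 6) (nat_lit 37) (nat_lit 1) (nat_lit 231) (nat_lit 139) (nat_lit 230)) (PT.nd (nat_lit 78) (PT.lf (nat_lit 2888) (nat_lit 6) (nat_lit 38) (nat_lit 3) (nat_lit 229) (nat_lit 140) (nat_lit 231)) (PT.lf (nat_lit 2964) (nat_lit 3) (nat_lit 39) (nat_lit 1) (nat_lit 230) (nat_lit 140) (nat_lit 230)))))) (PT.nd (nat_lit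 124878) (PT.nd (nat_lit 62400) (PT.nd (nat_lit 62322) (PT.lf (nat_lit 2888) (nat_lit 6) (nat_lit 38) (nat_lit 1) (nat_lit 231) (nat_lit 140) (nat_lit 229)) (PT.lf (nat_lit 3040) (nat_lit 6) (nat_lit 40) (nat_lit 3) (nat_lit 229) (nat_lit 141) (nat_lit 230))) (PT.nd (nat_lit 62322) (PT.lf (nat_lit 3040) (nat_lit 6) (nat_lit 40) (nat_lit 1) (nat_lit 230) (nat_lit 141) (nat_lit 229)) (PT.nd (nat_lit 78) (PT.lf (nat_lit 3116) (nat_lit 6) (nat_lit 41) (nat_lit 3) (nat_lit 228) (nat_lit 142) (nat_lit 230)) (PT.lf (nat_lit 3192) (nat_lit 3) (nat_lit 42) (nat_lit 1) (nat_lit 229) (nat_lit 142) (nat_lit 229))))) (PT.nd (nat_lit 62400) (PT.nd (nat_lit 62322) (PT.lf (nat_lit 3116) (nat_lit 6) (nat_lit 41) (nat_lit 1) (nat_lit 230) (nat_lit 142) (nat_lit 228)) (PT.lf (nat_lit 3268) (nat_lit 6) (nat_lit 43) (nat_lit 3) (nat_lit 228) (nat_lit 143) (nat_lit 229))) (PT.nd (nat_lit 62322) (PT.lf (nat_lit 3268)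 (nat_lit 6) (nat_lit 43) (nat_lit 1) (nat_lit 229) (nat_lit 143) (nat_lit 228)) (PT.nd (nat_lit 78) (PT.lf (nat_lit 3344) (nat_lit 6) (nat_lit 44) (nat_lit 3) (nat_lit 227) (nat_lit 144) (nat_lit 229)) (PT.lf (nat_lit 3420) (nat_lit 3) (nat_lit 45) (nat_lit 1) (nat_lit 228) (nat_lit 144) (nat_lit 228))))))))
noncomputable def pc2 : PT := (PT.nd (nat_lit 499356) (PT.nd (nat_lit 249678) (PT.nd (nat_lit 124800) (PT.nd (nat_lit 62400) (PT.nd (nat_lit 62322) (PT.lf (nat_lit 3344) (nat_lit 6) (nat_lit 44) (nat_lit 1) (nat_lit 229) (nat_lit 144) (nat_lit 227)) (PT.lf (nat_lit 3496) (nat_lit 6) (nat_lit 46) (nat_lit 3) (nat_lit 227) (nat_lit 145) (nat_lit 228))) (PT.nd (nat_lit 62322) (PT.lf (nat_lit 3496) (nat_lit 6) (nat_lit 46) (nat_lit 1) (nat_lit 228) (nat_lit 145) (nat_lit 227)) (PT.lf (nat_lit 3572) (nat_lit 6) (nat_lit 47) (nat_lit 3) (nat_lit 226) (nat_lit 146) (nat_lit 228)))) (PT.nd (nat_lit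 62400) (PT.nd (nat_lit 78) (PT.lf (nat_lit 3648) (nat_lit 3) (nat_lit 48) (nat_lit 1) (nat_lit 227) (nat_lit 146) (nat_lit 227)) (PT.lf (nat_lit 3572) (nat_lit 6) (nat_lit 47) (nat_lit 1) (nat_lit 228) (nat_lit 146) (nat_lit 226))) (PT.nd (nat_lit 78) (PT.lf (nat_lit 3724) (nat_lit 6) (nat_lit 49) (nat_lit 3) (nat_lit 226) (nat_lit 147) (nat_lit 227)) (PT.nd (nat_lit 62322) (PT.lf (nat_lit 3724) (nat_lit 6) (nat_lit 49) (nat_lit 1) (nat_lit 227) (nat_lit 147) (nat_lit 226)) (PT.lf (nat_lit 3800) (nat_lit 6) (nat_lit 50) (nat_lit 3) (nat_lit 225) (nat_lit 148) (nat_lit 227)))))) (PT.nd (nat_lit 124800) (PT.nd (nat_lit 62400) (PT.nd (nat_lit 78) (PT.lf (nat_lit 3876) (nat_lit 3) (nat_lit 51) (nat_lit 1) (nat_lit 226) (nat_lit 148) (nat_lit 226)) (PT.lf (nat_lit 3800) (nat_lit 6) (nat_lit 50) (nat_lit 1) (nat_lit 227) (nat_lit 148) (nat_lit 225))) (PT.nd (nat_lit 78) (PT.lf (nat_lit 3952) (nat_lit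 6) (nat_lit 52) (nat_lit 3) (nat_lit 225) (nat_lit 149) (nat_lit 226)) (PT.lf (nat_lit 3952) (nat_lit 6) (nat_lit 52) (nat_lit 1) (nat_lit 226) (nat_lit 149) (nat_lit 225)))) (PT.nd (nat_lit 156) (PT.nd (nat_lit 78) (PT.lf (nat_lit 4028) (nat_lit 6) (nat_lit 53) (nat_lit 3) (nat_lit 224) (nat_lit 150) (nat_lit 226)) (PT.lf (nat_lit 4104) (nat_lit 3) (nat_lit 54) (nat_lit 1) (nat_lit 225) (nat_lit 150) (nat_lit 225))) (PT.nd (nat_lit 62322) (PT.lf (nat_lit 4028) (nat_lit 6) (nat_lit 53) (nat_lit 1) (nat_lit 226) (nat_lit 150) (nat_lit 224)) (PT.nd (nat_lit 78) (PT.lf (nat_lit 4180) (nat_lit 6) (nat_lit 55) (nat_lit 3) (nat_lit 224) (nat_lit 151) (nat_lit 225)) (PT.lf (nat_lit 4180) (nat_lit 6) (nat_lit 55) (nat_lit 1) (nat_lit 225) (nat_lit 151) (nat_lit 224))))))) (PT.nd (nat_lit 187434) (PT.nd (nat_lit 62556) (PT.nd (nat_lit 156) (PT.nd (nat_lit 78) (PT.lf (nat_lit 4256) (nat_lit 6) (nat_lit 56)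 (nat_lit 3) (nat_lit 223) (nat_lit 152) (nat_lit 225)) (PT.lf (nat_lit 4332) (nat_lit 3) (nat_lit 57) (nat_lit 1) (nat_lit 224) (nat_lit 152) (nat_lit 224))) (PT.nd (nat_lit 62322) (PT.lf (nat_lit 4256) (nat_lit 6) (nat_lit 56) (nat_lit 1) (nat_lit 225) (nat_lit 152) (nat_lit 223)) (PT.lf (nat_lit 4408) (nat_lit 6) (nat_lit 58) (nat_lit 3) (nat_lit 223) (nat_lit 153) (nat_lit 224)))) (PT.nd (nat_lit 62400) (PT.nd (nat_lit 62322) (PT.lf (nat_lit 4408) (nat_lit 6) (nat_lit 58) (nat_lit 1) (nat_lit 224) (nat_lit 153) (nat_lit 223)) (PT.lf (nat_lit 4484) (nat_lit 6) (nat_lit 59) (nat_lit 3) (nat_lit 222) (nat_lit 154) (nat_lit 224))) (PT.nd (nat_lit 78) (PT.lf (nat_lit 4560) (nat_lit 3) (nat_lit 60) (nat_lit 1) (nat_lit 223) (nat_lit 154) (nat_lit 223)) (PT.nd (nat_lit 62322) (PT.lf (nat_lit 4484) (nat_lit 6) (nat_lit 59) (nat_lit 1) (nat_lit 224) (nat_lit 154) (nat_lit 222)) (PT.lf (nat_lit 4636)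 (nat_lit 6) (nat_lit 61) (nat_lit 3) (nat_lit 222) (nat_lit 155) (nat_lit 223)))))) (PT.nd (nat_lit 124878) (PT.nd (nat_lit 62400) (PT.nd (nat_lit 62322) (PT.lf (nat_lit 4636) (nat_lit 6) (nat_lit 61) (nat_lit 1) (nat_lit 223) (nat_lit 155) (nat_lit 222)) (PT.lf (nat_lit 4712) (nat_lit 6) (nat_lit 62) (nat_lit 3) (nat_lit 221) (nat_lit 156) (nat_lit 223))) (PT.nd (nat_lit 78) (PT.lf (nat_lit 4788) (nat_lit 3) (nat_lit 63) (nat_lit 1) (nat_lit 222) (nat_lit 156) (nat_lit 222)) (PT.nd (nat_lit 62322) (PT.lf (nat_lit 4712) (nat_lit 6) (nat_lit 62) (nat_lit 1) (nat_lit 223) (nat_lit 156) (nat_lit 221)) (PT.lf (nat_lit 4864) (nat_lit 6) (nat_lit 64) (nat_lit 3) (nat_lit 221) (nat_lit 157) (nat_lit 222))))) (PT.nd (nat_lit 62400) (PT.nd (nat_lit 62322) (PT.lf (nat_lit 4864) (nat_lit 6) (nat_lit 64) (nat_lit 1) (nat_lit 222) (nat_lit 157) (nat_lit 221)) (PT.lf (nat_lit 4940) (nat_lit 6) (nat_lit 65) (nat_lit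 3) (nat_lit 220) (nat_lit 158) (nat_lit 222))) (PT.nd (nat_lit 78) (PT.lf (nat_lit 5016) (nat_lit 3) (nat_lit 66) (nat_lit 1) (nat_lit 221) (nat_lit 158) (nat_lit 221)) (PT.nd (nat_lit 62322) (PT.lf (nat_lit 4940) (nat_lit 6) (nat_lit 65) (nat_lit 1) (nat_lit 222) (nat_lit 158) (nat_lit 220)) (PT.lf (nat_lit 5092) (nat_lit 6) (nat_lit 67) (nat_lit 3) (nat_lit 220) (nat_lit 159) (nat_lit 221))))))))
noncomputable def pc3 : PT := (PT.nd (nat_lit 374556) (PT.nd (nat_lit 187278) (PT.nd (nat_lit 124722) (PT.nd (nat_lit 62400) (PT.nd (nat_lit 62322) (PT.lf (nat_lit 5092) (nat_lit 6) (nat_lit 67) (nat_lit 1) (nat_lit 221) (nat_lit 159) (nat_lit 220)) (PT.lf (nat_lit 5168) (nat_lit 6) (nat_lit 68) (nat_lit 3) (nat_lit 219) (nat_lit 160) (nat_lit 221))) (PT.nd (nat_lit 78) (PT.lf (nat_lit 5244) (nat_lit 3) (nat_lit 69) (nat_lit 1) (nat_lit 220) (nat_lit 160) (nat_lit 220)) (PT.lf (nat_lit 5168) (nat_lit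 6) (nat_lit 68) (nat_lit 1) (nat_lit 221) (nat_lit 160) (nat_lit 219)))) (PT.nd (nat_lit 156) (PT.nd (nat_lit 78) (PT.lf (nat_lit 5320) (nat_lit 6) (nat_lit 70) (nat_lit 3) (nat_lit 218) (nat_lit 161) (nat_lit 221)) (PT.lf (nat_lit 5396) (nat_lit 6) (nat_lit 71) (nat_lit 3) (nat_lit 219) (nat_lit 161) (nat_lit 220))) (PT.nd (nat_lit 78) (PT.lf (nat_lit 5396) (nat_lit 6) (nat_lit 71) (nat_lit 1) (nat_lit 220) (nat_lit 161) (nat_lit 219)) (PT.nd (nat_lit 62244) (PT.lf (nat_lit 5320) (nat_lit 6) (nat_lit 70) (nat_lit 1) (nat_lit 221) (nat_lit 161) (nat_lit 218)) (PT.lf (nat_lit 5472) (nat_lit 6) (nat_lit 72) (nat_lit 3) (nat_lit 218) (nat_lit 162) (nat_lit 220)))))) (PT.nd (nat_lit 62556) (PT.nd (nat_lit 62322) (PT.nd (nat_lit 78) (PT.lf (nat_lit 5548) (nat_lit 3) (nat_lit 73) (nat_lit 1) (nat_lit 219) (nat_lit 162) (nat_lit 219)) (PT.lf (nat_lit 5472) (nat_lit 6) (nat_lit 72) (nat_lit 1) (nat_lit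 220) (nat_lit 162) (nat_lit 218))) (PT.nd (nat_lit 78) (PT.lf (nat_lit 5624) (nat_lit 6) (nat_lit 74) (nat_lit 3) (nat_lit 217) (nat_lit 163) (nat_lit 220)) (PT.nd (nat_lit 78) (PT.lf (nat_lit 5700) (nat_lit 6) (nat_lit 75) (nat_lit 3) (nat_lit 218) (nat_lit 163) (nat_lit 219)) (PT.lf (nat_lit 5700) (nat_lit 6) (nat_lit 75) (nat_lit 1) (nat_lit 219) (nat_lit 163) (nat_lit 218))))) (PT.nd (nat_lit 62322) (PT.nd (nat_lit 62244) (PT.lf (nat_lit 5624) (nat_lit 6) (nat_lit 74) (nat_lit 1) (nat_lit 220) (nat_lit 163) (nat_lit 217)) (PT.lf (nat_lit 5776) (nat_lit 6) (nat_lit 76) (nat_lit 3) (nat_lit 217) (nat_lit 164) (nat_lit 219))) (PT.nd (nat_lit 78) (PT.lf (nat_lit 5852) (nat_lit 3) (nat_lit 77) (nat_lit 1) (nat_lit 218) (nat_lit 164) (nat_lit 218)) (PT.nd (nat_lit 62244) (PT.lf (nat_lit 5776) (nat_lit 6) (nat_lit 76) (nat_lit 1) (nat_lit 219) (nat_lit 164) (nat_lit 217)) (PT.lf (nat_lit 5928) (nat_lit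 6) (nat_lit 78) (nat_lit 3) (nat_lit 216) (nat_lit 165) (nat_lit 219))))))) (PT.nd (nat_lit 125034) (PT.nd (nat_lit 62478) (PT.nd (nat_lit 156) (PT.nd (nat_lit 78) (PT.lf (nat_lit 6004) (nat_lit 6) (nat_lit 79) (nat_lit 3) (nat_lit 217) (nat_lit 165) (nat_lit 218)) (PT.lf (nat_lit 6004) (nat_lit 6) (nat_lit 79) (nat_lit 1) (nat_lit 218) (nat_lit 165) (nat_lit 217))) (PT.nd (nat_lit 62244) (PT.lf (nat_lit 5928) (nat_lit 6) (nat_lit 78) (nat_lit 1) (nat_lit 219) (nat_lit 165) (nat_lit 216)) (PT.lf (nat_lit 6080) (nat_lit 6) (nat_lit 80) (nat_lit 3) (nat_lit 216) (nat_lit 166) (nat_lit 218)))) (PT.nd (nat_lit 62322) (PT.nd (nat_lit 78) (PT.lf (nat_lit 6156) (nat_lit 3) (nat_lit 81) (nat_lit 1) (nat_lit 217) (nat_lit 166) (nat_lit 217)) (PT.lf (nat_lit 6080) (nat_lit 6) (nat_lit 80) (nat_lit 1) (nat_lit 218) (nat_lit 166) (nat_lit 216))) (PT.nd (nat_lit 78) (PT.lf (nat_lit 6232) (nat_lit 6) (nat_lit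 82) (nat_lit 3) (nat_lit 215) (nat_lit 167) (nat_lit 218)) (PT.nd (nat_lit 78) (PT.lf (nat_lit 6308) (nat_lit 6) (nat_lit 83) (nat_lit 3) (nat_lit 216) (nat_lit 167) (nat_lit 217)) (PT.lf (nat_lit 6308) (nat_lit 6) (nat_lit 83) (nat_lit 1) (nat_lit 217) (nat_lit 167) (nat_lit 216)))))) (PT.nd (nat_lit 124722) (PT.nd (nat_lit 62322) (PT.nd (nat_lit 62244) (PT.lf (nat_lit 6232) (nat_lit 6) (nat_lit 82) (nat_lit 1) (nat_lit 218) (nat_lit 167) (nat_lit 215)) (PT.lf (nat_lit 6384) (nat_lit 6) (nat_lit 84) (nat_lit 3) (nat_lit 215) (nat_lit 168) (nat_lit 217))) (PT.nd (nat_lit 78) (PT.lf (nat_lit 6460) (nat_lit 3) (nat_lit 85) (nat_lit 1) (nat_lit 216) (nat_lit 168) (nat_lit 216)) (PT.nd (nat_lit 62244) (PT.lf (nat_lit 6384) (nat_lit 6) (nat_lit 84) (nat_lit 1) (nat_lit 217) (nat_lit 168) (nat_lit 215)) (PT.lf (nat_lit 6536) (nat_lit 6) (nat_lit 86) (nat_lit 3) (nat_lit 214) (nat_lit 169) (nat_lit 217)))))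 (PT.nd (nat_lit 156) (PT.nd (nat_lit 78) (PT.lf (nat_lit 6612) (nat_lit 6) (nat_lit 87) (nat_lit 3) (nat_lit 215) (nat_lit 169) (nat_lit 216)) (PT.lf (nat_lit 6612) (nat_lit 6) (nat_lit 87) (nat_lit 1) (nat_lit 216) (nat_lit 169) (nat_lit 215))) (PT.nd (nat_lit 62166) (PT.lf (nat_lit 6536) (nat_lit 6) (nat_lit 86) (nat_lit 1) (nat_lit 217) (nat_lit 169) (nat_lit 214)) (PT.nd (nat_lit 78) (PT.lf (nat_lit 6688) (nat_lit 6) (nat_lit 88) (nat_lit 3) (nat_lit 213) (nat_lit 170) (nat_lit 217)) (PT.lf (nat_lit 6764) (nat_lit 6) (nat_lit 89) (nat_lit 3) (nat_lit 214) (nat_lit 170) (nat_lit 216))))))))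
noncomputable def pc4 : PT := (PT.nd (nat_lit 249756) (PT.nd (nat_lit 124878) (PT.nd (nat_lit 62400) (PT.nd (nat_lit 156) (PT.nd (nat_lit 78) (PT.lf (nat_lit 6840) (nat_lit 3) (nat_lit 90) (nat_lit 1) (nat_lit 215) (nat_lit 170) (nat_lit 215)) (PT.lf (nat_lit 6764) (nat_lit 6) (nat_lit 89) (nat_lit 1) (nat_lit 216) (nat_lit 170) (nat_lit 214))) (PT.nd (nat_lit 62166) (PT.lf (nat_lit 6688) (nat_lit 6) (nat_lit 88) (nat_lit 1) (nat_lit 217) (nat_lit 170) (nat_lit 213)) (PT.lf (nat_lit 6916) (nat_lit 6) (nat_lit 91) (nat_lit 3) (nat_lit 213) (nat_lit 171) (nat_lit 216)))) (PT.nd (nat_lit 156) (PT.nd (nat_lit 78) (PT.lf (nat_lit 6992) (nat_lit 6) (nat_lit 92) (nat_lit 3) (nat_lit 214) (nat_lit 171) (nat_lit 215)) (PT.lf (nat_lit 6992) (nat_lit 6) (nat_lit 92) (nat_lit 1) (nat_lit 215) (nat_lit 171) (nat_lit 214))) (PT.nd (nat_lit 62166) (PT.lf (nat_lit 6916) (nat_lit 6) (nat_lit 91) (nat_lit 1) (nat_lit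 216) (nat_lit 171) (nat_lit 213)) (PT.nd (nat_lit 78) (PT.lf (nat_lit 7068) (nat_lit 6) (nat_lit 93) (nat_lit 3) (nat_lit 212) (nat_lit 172) (nat_lit 216)) (PT.lf (nat_lit 7144) (nat_lit 6) (nat_lit 94) (nat_lit 3) (nat_lit 213) (nat_lit 172) (nat_lit 215)))))) (PT.nd (nat_lit 62400) (PT.nd (nat_lit 156) (PT.nd (nat_lit 78) (PT.lf (nat_lit 7220) (nat_lit 3) (nat_lit 95) (nat_lit 1) (nat_lit 214) (nat_lit 172) (nat_lit 214)) (PT.lf (nat_lit 7144) (nat_lit 6) (nat_lit 94) (nat_lit 1) (nat_lit 215) (nat_lit 172) (nat_lit 213))) (PT.nd (nat_lit 62166) (PT.lf (nat_lit 7068) (nat_lit 6) (nat_lit 93) (nat_lit 1) (nat_lit 216) (nat_lit 172) (nat_lit 212)) (PT.lf (nat_lit 7296) (nat_lit 6) (nat_lit 96) (nat_lit 3) (nat_lit 212) (nat_lit 173) (nat_lit 215)))) (PT.nd (nat_lit 156) (PT.nd (nat_lit 78) (PT.lf (nat_lit 7372) (nat_lit 6) (nat_lit 97) (nat_lit 3) (nat_lit 213) (nat_lit 173) (nat_lit 214)) (PT.lf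 (nat_lit 7372) (nat_lit 6) (nat_lit 97) (nat_lit 1) (nat_lit 214) (nat_lit 173) (nat_lit 213))) (PT.nd (nat_lit 62166) (PT.lf (nat_lit 7296) (nat_lit 6) (nat_lit 96) (nat_lit 1) (nat_lit 215) (nat_lit 173) (nat_lit 212)) (PT.nd (nat_lit 78) (PT.lf (nat_lit 7448) (nat_lit 6) (nat_lit 98) (nat_lit 3) (nat_lit 211) (nat_lit 174) (nat_lit 215)) (PT.lf (nat_lit 7524) (nat_lit 6) (nat_lit 99) (nat_lit 3) (nat_lit 212) (nat_lit 174) (nat_lit 214))))))) (PT.nd (nat_lit 124722) (PT.nd (nat_lit 62322) (PT.nd (nat_lit 156) (PT.nd (nat_lit 78) (PT.lf (nat_lit 7600) (nat_lit 3) (nat_lit 100) (nat_lit 1) (nat_lit 213) (nat_lit 174) (nat_lit 213)) (PT.lf (nat_lit 7524) (nat_lit 6) (nat_lit 99) (nat_lit 1) (nat_lit 214) (nat_lit 174) (nat_lit 212))) (PT.nd (nat_lit 62088) (PT.lf (nat_lit 7448) (nat_lit 6) (nat_lit 98) (nat_lit 1) (nat_lit 215) (nat_lit 174) (nat_lit 211)) (PT.lf (nat_lit 7676) (nat_lit 6) (nat_lit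 101) (nat_lit 3) (nat_lit 210) (nat_lit 175) (nat_lit 215)))) (PT.nd (nat_lit 156) (PT.nd (nat_lit 78) (PT.lf (nat_lit 7752) (nat_lit 6) (nat_lit 102) (nat_lit 3) (nat_lit 211) (nat_lit 175) (nat_lit 214)) (PT.lf (nat_lit 7828) (nat_lit 6) (nat_lit 103) (nat_lit 3) (nat_lit 212) (nat_lit 175) (nat_lit 213))) (PT.nd (nat_lit 78) (PT.lf (nat_lit 7828) (nat_lit 6) (nat_lit 103) (nat_lit 1) (nat_lit 213) (nat_lit 175) (nat_lit 212)) (PT.nd (nat_lit 78) (PT.lf (nat_lit 7752) (nat_lit 6) (nat_lit 102) (nat_lit 1) (nat_lit 214) (nat_lit 175) (nat_lit 211)) (PT.lf (nat_lit 7676) (nat_lit 6) (nat_lit 101) (nat_lit 1) (nat_lit 215) (nat_lit 175) (nat_lit 210)))))) (PT.nd (nat_lit 62400) (PT.nd (nat_lit 156) (PT.nd (nat_lit 78) (PT.lf (nat_lit 7904) (nat_lit 6) (nat_lit 104) (nat_lit 3) (nat_lit 210) (nat_lit 176) (nat_lit 214)) (PT.lf (nat_lit 7980) (nat_lit 6) (nat_lit 105) (nat_lit 3) (nat_lit 211) (nat_lit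 176) (nat_lit 213))) (PT.nd (nat_lit 78) (PT.lf (nat_lit 8056) (nat_lit 3) (nat_lit 106) (nat_lit 1) (nat_lit 212) (nat_lit 176) (nat_lit 212)) (PT.nd (nat_lit 78) (PT.lf (nat_lit 7980) (nat_lit 6) (nat_lit 105) (nat_lit 1) (nat_lit 213) (nat_lit 176) (nat_lit 211)) (PT.lf (nat_lit 7904) (nat_lit 6) (nat_lit 104) (nat_lit 1) (nat_lit 214) (nat_lit 176) (nat_lit 210))))) (PT.nd (nat_lit 156) (PT.nd (nat_lit 78) (PT.lf (nat_lit 8132) (nat_lit 6) (nat_lit 107) (nat_lit 3) (nat_lit 209) (nat_lit 177) (nat_lit 214)) (PT.lf (nat_lit 8208) (nat_lit 6) (nat_lit 108) (nat_lit 3) (nat_lit 210) (nat_lit 177) (nat_lit 213))) (PT.nd (nat_lit 78) (PT.lf (nat_lit 8284) (nat_lit 6) (nat_lit 109) (nat_lit 3) (nat_lit 211) (nat_lit 177) (nat_lit 212)) (PT.nd (nat_lit 78) (PT.lf (nat_lit 8284) (nat_lit 6) (nat_lit 109) (nat_lit 1) (nat_lit 212) (nat_lit 177) (nat_lit 211)) (PT.lf (nat_lit 8208) (nat_lit 6) (nat_lit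 108) (nat_lit 1) (nat_lit 213) (nat_lit 177) (nat_lit 210))))))))
noncomputable def pc5 : PT := (PT.nd (nat_lit 187356) (PT.nd (nat_lit 124722) (PT.nd (nat_lit 62322) (PT.nd (nat_lit 62166) (PT.nd (nat_lit 62088) (PT.lf (nat_lit 8132) (nat_lit 6) (nat_lit 107) (nat_lit 1) (nat_lit 214) (nat_lit 177) (nat_lit 209)) (PT.lf (nat_lit 8360) (nat_lit 6) (nat_lit 110) (nat_lit 3) (nat_lit 209) (nat_lit 178) (nat_lit 213))) (PT.nd (nat_lit 78) (PT.lf (nat_lit 8436) (nat_lit 6) (nat_lit 111) (nat_lit 3) (nat_lit 210) (nat_lit 178) (nat_lit 212)) (PT.lf (nat_lit 8512) (nat_lit 3) (nat_lit 112) (nat_lit 1) (nat_lit 211) (nat_lit 178) (nat_lit 211)))) (PT.nd (nat_lit 62166) (PT.nd (nat_lit 78) (PT.lf (nat_lit 8436) (nat_lit 6) (nat_lit 111) (nat_lit 1) (nat_lit 212) (nat_lit 178) (nat_lit 210)) (PT.lf (nat_lit 8360) (nat_lit 6) (nat_lit 110) (nat_lit 1) (nat_lit 213) (nat_lit 178) (nat_lit 209))) (PT.nd (nat_lit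 78) (PT.lf (nat_lit 8588) (nat_lit 6) (nat_lit 113) (nat_lit 3) (nat_lit 208) (nat_lit 179) (nat_lit 213)) (PT.nd (nat_lit 78) (PT.lf (nat_lit 8664) (nat_lit 6) (nat_lit 114) (nat_lit 3) (nat_lit 209) (nat_lit 179) (nat_lit 212)) (PT.lf (nat_lit 8740) (nat_lit 6) (nat_lit 115) (nat_lit 3) (nat_lit 210) (nat_lit 179) (nat_lit 211)))))) (PT.nd (nat_lit 62244) (PT.nd (nat_lit 156) (PT.nd (nat_lit 78) (PT.lf (nat_lit 8740) (nat_lit 6) (nat_lit 115) (nat_lit 1) (nat_lit 211) (nat_lit 179) (nat_lit 210)) (PT.lf (nat_lit 8664) (nat_lit 6) (nat_lit 114) (nat_lit 1) (nat_lit 212) (nat_lit 179) (nat_lit 209))) (PT.nd (nat_lit 62010) (PT.lf (nat_lit 8588) (nat_lit 6) (nat_lit 113) (nat_lit 1) (nat_lit 213) (nat_lit 179) (nat_lit 208)) (PT.lf (nat_lit 8816) (nat_lit 6) (nat_lit 116) (nat_lit 3) (nat_lit 207) (nat_lit 180) (nat_lit 213)))) (PT.nd (nat_lit 156) (PT.nd (nat_lit 78) (PT.lf (nat_lit 8892) (nat_lit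 6) (nat_lit 117) (nat_lit 3) (nat_lit 208) (nat_lit 180) (nat_lit 212)) (PT.lf (nat_lit 8968) (nat_lit 6) (nat_lit 118) (nat_lit 3) (nat_lit 209) (nat_lit 180) (nat_lit 211))) (PT.nd (nat_lit 78) (PT.lf (nat_lit 9044) (nat_lit 3) (nat_lit 119) (nat_lit 1) (nat_lit 210) (nat_lit 180) (nat_lit 210)) (PT.nd (nat_lit 78) (PT.lf (nat_lit 8968) (nat_lit 6) (nat_lit 118) (nat_lit 1) (nat_lit 211) (nat_lit 180) (nat_lit 209)) (PT.lf (nat_lit 8892) (nat_lit 6) (nat_lit 117) (nat_lit 1) (nat_lit 212) (nat_lit 180) (nat_lit 208))))))) (PT.nd (nat_lit 124410) (PT.nd (nat_lit 62166) (PT.nd (nat_lit 62010) (PT.nd (nat_lit 61932) (PT.lf (nat_lit 8816) (nat_lit 6) (nat_lit 116) (nat_lit 1) (nat_lit 213) (nat_lit 180) (nat_lit 207)) (PT.lf (nat_lit 9120) (nat_lit 6) (nat_lit 120) (nat_lit 3) (nat_lit 206) (nat_lit 181) (nat_lit 213))) (PT.nd (nat_lit 78) (PT.lf (nat_lit 9196) (nat_lit 6) (nat_lit 121) (nat_lit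 3) (nat_lit 207) (nat_lit 181) (nat_lit 212)) (PT.lf (nat_lit 9272) (nat_lit 6) (nat_lit 122) (nat_lit 3) (nat_lit 208) (nat_lit 181) (nat_lit 211)))) (PT.nd (nat_lit 156) (PT.nd (nat_lit 78) (PT.lf (nat_lit 9348) (nat_lit 6) (nat_lit 123) (nat_lit 3) (nat_lit 209) (nat_lit 181) (nat_lit 210)) (PT.lf (nat_lit 9348) (nat_lit 6) (nat_lit 123) (nat_lit 1) (nat_lit 210) (nat_lit 181) (nat_lit 209))) (PT.nd (nat_lit 78) (PT.lf (nat_lit 9272) (nat_lit 6) (nat_lit 122) (nat_lit 1) (nat_lit 211) (nat_lit 181) (nat_lit 208)) (PT.nd (nat_lit 78) (PT.lf (nat_lit 9196) (nat_lit 6) (nat_lit 121) (nat_lit 1) (nat_lit 212) (nat_lit 181) (nat_lit 207)) (PT.lf (nat_lit 9120) (nat_lit 6) (nat_lit 120) (nat_lit 1) (nat_lit 213) (nat_lit 181) (nat_lit 206)))))) (PT.nd (nat_lit 390) (PT.nd (nat_lit 156) (PT.nd (nat_lit 78) (PT.lf (nat_lit 9424) (nat_lit 6) (nat_lit 124) (nat_lit 3) (nat_lit 206) (nat_lit 182) (nat_lit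 212)) (PT.lf (nat_lit 9500) (nat_lit 6) (nat_lit 125) (nat_lit 3) (nat_lit 207) (nat_lit 182) (nat_lit 211))) (PT.nd (nat_lit 78) (PT.lf (nat_lit 9576) (nat_lit 6) (nat_lit 126) (nat_lit 3) (nat_lit 208) (nat_lit 182) (nat_lit 210)) (PT.nd (nat_lit 78) (PT.lf (nat_lit 9652) (nat_lit 3) (nat_lit 127) (nat_lit 1) (nat_lit 209) (nat_lit 182) (nat_lit 209)) (PT.lf (nat_lit 9576) (nat_lit 6) (nat_lit 126) (nat_lit 1) (nat_lit 210) (nat_lit 182) (nat_lit 208))))) (PT.nd (nat_lit 62010) (PT.nd (nat_lit 78) (PT.lf (nat_lit 9500) (nat_lit 6) (nat_lit 125) (nat_lit 1) (nat_lit 211) (nat_lit 182) (nat_lit 207)) (PT.lf (nat_lit 9424) (nat_lit 6) (nat_lit 124) (nat_lit 1) (nat_lit 212) (nat_lit 182) (nat_lit 206))) (PT.nd (nat_lit 78) (PT.lf (nat_lit 9728) (nat_lit 6) (nat_lit 128) (nat_lit 3) (nat_lit 205) (nat_lit 183) (nat_lit 212)) (PT.nd (nat_lit 78) (PT.lf (nat_lit 9804) (nat_lit 6) (nat_lit 129) (nat_lit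 3) (nat_lit 206) (nat_lit 183) (nat_lit 211)) (PT.lf (nat_lit 9880) (nat_lit 6) (nat_lit 130) (nat_lit 3) (nat_lit 207) (nat_lit 183) (nat_lit 210))))))))
noncomputable def pc6 : PT := (PT.nd (nat_lit 124956) (PT.nd (nat_lit 62478) (PT.nd (nat_lit 312) (PT.nd (nat_lit 156) (PT.nd (nat_lit 78) (PT.lf (nat_lit 9956) (nat_lit 6) (nat_lit 131) (nat_lit 3) (nat_lit 208) (nat_lit 183) (nat_lit 209)) (PT.lf (nat_lit 9956) (nat_lit 6) (nat_lit 131) (nat_lit 1) (nat_lit 209) (nat_lit 183) (nat_lit 208))) (PT.nd (nat_lit 78) (PT.lf (nat_lit 9880) (nat_lit 6) (nat_lit 130) (nat_lit 1) (nat_lit 210) (nat_lit 183) (nat_lit 207)) (PT.lf (nat_lit 9804) (nat_lit 6) (nat_lit 129) (nat_lit 1) (nat_lit 211) (nat_lit 183) (nat_lit 206)))) (PT.nd (nat_lit 61932) (PT.nd (nat_lit 61854) (PT.lf (nat_lit 9728) (nat_lit 6) (nat_lit 128) (nat_lit 1) (nat_lit 212) (nat_lit 183) (nat_lit 205)) (PT.lf (nat_lit 10032) (nat_lit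 6) (nat_lit 132) (nat_lit 3) (nat_lit 204) (nat_lit 184) (nat_lit 212))) (PT.nd (nat_lit 78) (PT.lf (nat_lit 10108) (nat_lit 6) (nat_lit 133) (nat_lit 3) (nat_lit 205) (nat_lit 184) (nat_lit 211)) (PT.nd (nat_lit 78) (PT.lf (nat_lit 10184) (nat_lit 6) (nat_lit 134) (nat_lit 3) (nat_lit 206) (nat_lit 184) (nat_lit 210)) (PT.lf (nat_lit 10260) (nat_lit 6) (nat_lit 135) (nat_lit 3) (nat_lit 207) (nat_lit 184) (nat_lit 209)))))) (PT.nd (nat_lit 312) (PT.nd (nat_lit 156) (PT.nd (nat_lit 78) (PT.lf (nat_lit 10336) (nat_lit 3) (nat_lit 136) (nat_lit 1) (nat_lit 208) (nat_lit 184) (nat_lit 208)) (PT.lf (nat_lit 10260) (nat_lit 6) (nat_lit 135) (nat_lit 1) (nat_lit 209) (nat_lit 184) (nat_lit 207))) (PT.nd (nat_lit 78) (PT.lf (nat_lit 10184) (nat_lit 6) (nat_lit 134) (nat_lit 1) (nat_lit 210) (nat_lit 184) (nat_lit 206)) (PT.lf (nat_lit 10108) (nat_lit 6) (nat_lit 133) (nat_lit 1) (nat_lit 211) (nat_lit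 184) (nat_lit 205)))) (PT.nd (nat_lit 61932) (PT.nd (nat_lit 61854) (PT.lf (nat_lit 10032) (nat_lit 6) (nat_lit 132) (nat_lit 1) (nat_lit 212) (nat_lit 184) (nat_lit 204)) (PT.lf (nat_lit 10412) (nat_lit 6) (nat_lit 137) (nat_lit 3) (nat_lit 204) (nat_lit 185) (nat_lit 211))) (PT.nd (nat_lit 78) (PT.lf (nat_lit 10488) (nat_lit 6) (nat_lit 138) (nat_lit 3) (nat_lit 205) (nat_lit 185) (nat_lit 210)) (PT.nd (nat_lit 78) (PT.lf (nat_lit 10564) (nat_lit 6) (nat_lit 139) (nat_lit 3) (nat_lit 206) (nat_lit 185) (nat_lit 209)) (PT.lf (nat_lit 10640) (nat_lit 6) (nat_lit 140) (nat_lit 3) (nat_lit 207) (nat_lit 185) (nat_lit 208))))))) (PT.nd (nat_lit 62478) (PT.nd (nat_lit 62088) (PT.nd (nat_lit 156) (PT.nd (nat_lit 78) (PT.lf (nat_lit 10640) (nat_lit 6) (nat_lit 140) (nat_lit 1) (nat_lit 208) (nat_lit 185) (nat_lit 207)) (PT.lf (nat_lit 10564) (nat_lit 6) (nat_lit 139) (nat_lit 1) (nat_lit 209) (nat_lit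 185) (nat_lit 206))) (PT.nd (nat_lit 78) (PT.lf (nat_lit 10488) (nat_lit 6) (nat_lit 138) (nat_lit 1) (nat_lit 210) (nat_lit 185) (nat_lit 205)) (PT.lf (nat_lit 10412) (nat_lit 6) (nat_lit 137) (nat_lit 1) (nat_lit 211) (nat_lit 185) (nat_lit 204)))) (PT.nd (nat_lit 156) (PT.nd (nat_lit 78) (PT.lf (nat_lit 10716) (nat_lit 6) (nat_lit 141) (nat_lit 3) (nat_lit 203) (nat_lit 186) (nat_lit 211)) (PT.lf (nat_lit 10792) (nat_lit 6) (nat_lit 142) (nat_lit 3) (nat_lit 204) (nat_lit 186) (nat_lit 210))) (PT.nd (nat_lit 78) (PT.lf (nat_lit 10868) (nat_lit 6) (nat_lit 143) (nat_lit 3) (nat_lit 205) (nat_lit 186) (nat_lit 209)) (PT.nd (nat_lit 78) (PT.lf (nat_lit 10944) (nat_lit 6) (nat_lit 144) (nat_lit 3) (nat_lit 206) (nat_lit 186) (nat_lit 208)) (PT.lf (nat_lit 11020) (nat_lit 3) (nat_lit 145) (nat_lit 1) (nat_lit 207) (nat_lit 186) (nat_lit 207)))))) (PT.nd (nat_lit 62088) (PT.nd (nat_lit 156) (PT.nd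 (nat_lit 78) (PT.lf (nat_lit 10944) (nat_lit 6) (nat_lit 144) (nat_lit 1) (nat_lit 208) (nat_lit 186) (nat_lit 206)) (PT.lf (nat_lit 10868) (nat_lit 6) (nat_lit 143) (nat_lit 1) (nat_lit 209) (nat_lit 186) (nat_lit 205))) (PT.nd (nat_lit 78) (PT.lf (nat_lit 10792) (nat_lit 6) (nat_lit 142) (nat_lit 1) (nat_lit 210) (nat_lit 186) (nat_lit 204)) (PT.nd (nat_lit 61776) (PT.lf (nat_lit 10716) (nat_lit 6) (nat_lit 141) (nat_lit 1) (nat_lit 211) (nat_lit 186) (nat_lit 203)) (PT.lf (nat_lit 11096) (nat_lit 6) (nat_lit 146) (nat_lit 3) (nat_lit 202) (nat_lit 187) (nat_lit 211))))) (PT.nd (nat_lit 156) (PT.nd (nat_lit 78) (PT.lf (nat_lit 11172) (nat_lit 6) (nat_lit 147) (nat_lit 3) (nat_lit 203) (nat_lit 187) (nat_lit 210)) (PT.lf (nat_lit 11248) (nat_lit 6) (nat_lit 148) (nat_lit 3) (nat_lit 204) (nat_lit 187) (nat_lit 209))) (PT.nd (nat_lit 78) (PT.lf (nat_lit 11324) (nat_lit 6) (nat_lit 149) (nat_lit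 3) (nat_lit 205) (nat_lit 187) (nat_lit 208)) (PT.nd (nat_lit 78) (PT.lf (nat_lit 11400) (nat_lit 6) (nat_lit 150) (nat_lit 3) (nat_lit 206) (nat_lit 187) (nat_lit 207)) (PT.lf (nat_lit 11400) (nat_lit 6) (nat_lit 150) (nat_lit 1) (nat_lit 207) (nat_lit 187) (nat_lit 206))))))))
noncomputable def pc7 : PT := (PT.nd (nat_lit 124644) (PT.nd (nat_lit 62322) (PT.nd (nat_lit 61932) (PT.nd (nat_lit 156) (PT.nd (nat_lit 78) (PT.lf (nat_lit 11324) (nat_lit 6) (nat_lit 149) (nat_lit 1) (nat_lit 208) (nat_lit 187) (nat_lit 205)) (PT.lf (nat_lit 11248) (nat_lit 6) (nat_lit 148) (nat_lit 1) (nat_lit 209) (nat_lit 187) (nat_lit 204))) (PT.nd (nat_lit 78) (PT.lf (nat_lit 11172) (nat_lit 6) (nat_lit 147) (nat_lit 1) (nat_lit 210) (nat_lit 187) (nat_lit 203)) (PT.lf (nat_lit 11096) (nat_lit 6) (nat_lit 146) (nat_lit 1) (nat_lit 211) (nat_lit 187) (nat_lit 202)))) (PT.nd (nat_lit 156) (PT.nd (nat_lit 78) (PT.lf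 (nat_lit 11476) (nat_lit 6) (nat_lit 151) (nat_lit 3) (nat_lit 201) (nat_lit 188) (nat_lit 211)) (PT.lf (nat_lit 11552) (nat_lit 6) (nat_lit 152) (nat_lit 3) (nat_lit 202) (nat_lit 188) (nat_lit 210))) (PT.nd (nat_lit 78) (PT.lf (nat_lit 11628) (nat_lit 6) (nat_lit 153) (nat_lit 3) (nat_lit 203) (nat_lit 188) (nat_lit 209)) (PT.nd (nat_lit 78) (PT.lf (nat_lit 11704) (nat_lit 6) (nat_lit 154) (nat_lit 3) (nat_lit 204) (nat_lit 188) (nat_lit 208)) (PT.lf (nat_lit 11780) (nat_lit 6) (nat_lit 155) (nat_lit 3) (nat_lit 205) (nat_lit 188) (nat_lit 207)))))) (PT.nd (nat_lit 390) (PT.nd (nat_lit 156) (PT.nd (nat_lit 78) (PT.lf (nat_lit 11856) (nat_lit 3) (nat_lit 156) (nat_lit 1) (nat_lit 206) (nat_lit 188) (nat_lit 206)) (PT.lf (nat_lit 11780) (nat_lit 6) (nat_lit 155) (nat_lit 1) (nat_lit 207) (nat_lit 188) (nat_lit 205))) (PT.nd (nat_lit 78) (PT.lf (nat_lit 11704) (nat_lit 6) (nat_lit 154) (nat_lit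 1) (nat_lit 208) (nat_lit 188) (nat_lit 204)) (PT.nd (nat_lit 78) (PT.lf (nat_lit 11628) (nat_lit 6) (nat_lit 153) (nat_lit 1) (nat_lit 209) (nat_lit 188) (nat_lit 203)) (PT.lf (nat_lit 11552) (nat_lit 6) (nat_lit 152) (nat_lit 1) (nat_lit 210) (nat_lit 188) (nat_lit 202))))) (PT.nd (nat_lit 61698) (PT.nd (nat_lit 61620) (PT.lf (nat_lit 11476) (nat_lit 6) (nat_lit 151) (nat_lit 1) (nat_lit 211) (nat_lit 188) (nat_lit 201)) (PT.lf (nat_lit 11932) (nat_lit 6) (nat_lit 157) (nat_lit 3) (nat_lit 200) (nat_lit 189) (nat_lit 211))) (PT.nd (nat_lit 78) (PT.lf (nat_lit 12008) (nat_lit 6) (nat_lit 158) (nat_lit 3) (nat_lit 201) (nat_lit 189) (nat_lit 210)) (PT.nd (nat_lit 78) (PT.lf (nat_lit 12084) (nat_lit 6) (nat_lit 159) (nat_lit 3) (nat_lit 202) (nat_lit 189) (nat_lit 209)) (PT.lf (nat_lit 12160) (nat_lit 6) (nat_lit 160) (nat_lit 3) (nat_lit 203) (nat_lit 189) (nat_lit 208))))))) (PT.nd (nat_lit 62244)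 (PT.nd (nat_lit 312) (PT.nd (nat_lit 156) (PT.nd (nat_lit 78) (PT.lf (nat_lit 12236) (nat_lit 6) (nat_lit 161) (nat_lit 3) (nat_lit 204) (nat_lit 189) (nat_lit 207)) (PT.lf (nat_lit 12312) (nat_lit 6) (nat_lit 162) (nat_lit 3) (nat_lit 205) (nat_lit 189) (nat_lit 206))) (PT.nd (nat_lit 78) (PT.lf (nat_lit 12312) (nat_lit 6) (nat_lit 162) (nat_lit 1) (nat_lit 206) (nat_lit 189) (nat_lit 205)) (PT.lf (nat_lit 12236) (nat_lit 6) (nat_lit 161) (nat_lit 1) (nat_lit 207) (nat_lit 189) (nat_lit 204)))) (PT.nd (nat_lit 156) (PT.nd (nat_lit 78) (PT.lf (nat_lit 12160) (nat_lit 6) (nat_lit 160) (nat_lit 1) (nat_lit 208) (nat_lit 189) (nat_lit 203)) (PT.lf (nat_lit 12084) (nat_lit 6) (nat_lit 159) (nat_lit 1) (nat_lit 209) (nat_lit 189) (nat_lit 202))) (PT.nd (nat_lit 78) (PT.lf (nat_lit 12008) (nat_lit 6) (nat_lit 158) (nat_lit 1) (nat_lit 210) (nat_lit 189) (nat_lit 201)) (PT.nd (nat_lit 61620) (PT.lf (nat_lit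 11932) (nat_lit 6) (nat_lit 157) (nat_lit 1) (nat_lit 211) (nat_lit 189) (nat_lit 200)) (PT.lf (nat_lit 12768) (nat_lit 6) (nat_lit 168) (nat_lit 3) (nat_lit 200) (nat_lit 190) (nat_lit 210)))))) (PT.nd (nat_lit 390) (PT.nd (nat_lit 156) (PT.nd (nat_lit 78) (PT.lf (nat_lit 12844) (nat_lit 6) (nat_lit 169) (nat_lit 3) (nat_lit 201) (nat_lit 190) (nat_lit 209)) (PT.lf (nat_lit 12920) (nat_lit 6) (nat_lit 170) (nat_lit 3) (nat_lit 202) (nat_lit 190) (nat_lit 208))) (PT.nd (nat_lit 78) (PT.lf (nat_lit 12996) (nat_lit 6) (nat_lit 171) (nat_lit 3) (nat_lit 203) (nat_lit 190) (nat_lit 207)) (PT.nd (nat_lit 78) (PT.lf (nat_lit 13072) (nat_lit 6) (nat_lit 172) (nat_lit 3) (nat_lit 204) (nat_lit 190) (nat_lit 206)) (PT.lf (nat_lit 13148) (nat_lit 3) (nat_lit 173) (nat_lit 1) (nat_lit 205) (nat_lit 190) (nat_lit 205))))) (PT.nd (nat_lit 156) (PT.nd (nat_lit 78) (PT.lf (nat_lit 13072) (nat_lit 6) (nat_lit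 172) (nat_lit 1) (nat_lit 206) (nat_lit 190) (nat_lit 204)) (PT.lf (nat_lit 12996) (nat_lit 6) (nat_lit 171) (nat_lit 1) (nat_lit 207) (nat_lit 190) (nat_lit 203))) (PT.nd (nat_lit 78) (PT.lf (nat_lit 12920) (nat_lit 6) (nat_lit 170) (nat_lit 1) (nat_lit 208) (nat_lit 190) (nat_lit 202)) (PT.nd (nat_lit 78) (PT.lf (nat_lit 12844) (nat_lit 6) (nat_lit 169) (nat_lit 1) (nat_lit 209) (nat_lit 190) (nat_lit 201)) (PT.lf (nat_lit 12768) (nat_lit 6) (nat_lit 168) (nat_lit 1) (nat_lit 210) (nat_lit 190) (nat_lit 200))))))))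
noncomputable def pc8 : PT := (PT.nd (nat_lit 62868) (PT.nd (nat_lit 702) (PT.nd (nat_lit 312) (PT.nd (nat_lit 156) (PT.nd (nat_lit 78) (PT.lf (nat_lit 12692) (nat_lit 6) (nat_lit 167) (nat_lit 3) (nat_lit 199) (nat_lit 191) (nat_lit 210)) (PT.lf (nat_lit 13528) (nat_lit 6) (nat_lit 178) (nat_lit 3) (nat_lit 200) (nat_lit 191) (nat_lit 209))) (PT.nd (nat_lit 78) (PT.lf (nat_lit 13604) (nat_lit 6) (nat_lit 179) (nat_lit 3) (nat_lit 201) (nat_lit 191) (nat_lit 208)) (PT.lf (nat_lit 13680) (nat_lit 6) (nat_lit 180) (nat_lit 3) (nat_lit 202) (nat_lit 191) (nat_lit 207)))) (PT.nd (nat_lit 156) (PT.nd (nat_lit 78) (PT.lf (nat_lit 13756) (nat_lit 6) (nat_lit 181) (nat_lit 3) (nat_lit 203) (nat_lit 191) (nat_lit 206)) (PT.lf (nat_lit 13832) (nat_lit 6) (nat_lit 182) (nat_lit 3) (nat_lit 204) (nat_lit 191) (nat_lit 205))) (PT.nd (nat_lit 78) (PT.lf (nat_lit 13832) (nat_lit 6) (nat_lit 182) (nat_lit 1) (nat_lit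 205) (nat_lit 191) (nat_lit 204)) (PT.nd (nat_lit 78) (PT.lf (nat_lit 13756) (nat_lit 6) (nat_lit 181) (nat_lit 1) (nat_lit 206) (nat_lit 191) (nat_lit 203)) (PT.lf (nat_lit 13680) (nat_lit 6) (nat_lit 180) (nat_lit 1) (nat_lit 207) (nat_lit 191) (nat_lit 202)))))) (PT.nd (nat_lit 61776) (PT.nd (nat_lit 156) (PT.nd (nat_lit 78) (PT.lf (nat_lit 13604) (nat_lit 6) (nat_lit 179) (nat_lit 1) (nat_lit 208) (nat_lit 191) (nat_lit 201)) (PT.lf (nat_lit 13528) (nat_lit 6) (nat_lit 178) (nat_lit 1) (nat_lit 209) (nat_lit 191) (nat_lit 200))) (PT.nd (nat_lit 61542) (PT.lf (nat_lit 12692) (nat_lit 6) (nat_lit 167) (nat_lit 1) (nat_lit 210) (nat_lit 191) (nat_lit 199)) (PT.lf (nat_lit 12616) (nat_lit 6) (nat_lit 166) (nat_lit 3) (nat_lit 198) (nat_lit 192) (nat_lit 210)))) (PT.nd (nat_lit 156) (PT.nd (nat_lit 78) (PT.lf (nat_lit 13452) (nat_lit 6) (nat_lit 177) (nat_lit 3) (nat_lit 199) (nat_lit 192) (nat_lit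 209)) (PT.lf (nat_lit 14212) (nat_lit 6) (nat_lit 187) (nat_lit 3) (nat_lit 200) (nat_lit 192) (nat_lit 208))) (PT.nd (nat_lit 78) (PT.lf (nat_lit 14288) (nat_lit 6) (nat_lit 188) (nat_lit 3) (nat_lit 201) (nat_lit 192) (nat_lit 207)) (PT.nd (nat_lit 78) (PT.lf (nat_lit 14364) (nat_lit 6) (nat_lit 189) (nat_lit 3) (nat_lit 202) (nat_lit 192) (nat_lit 206)) (PT.lf (nat_lit 14440) (nat_lit 6) (nat_lit 190) (nat_lit 3) (nat_lit 203) (nat_lit 192) (nat_lit 205))))))) (PT.nd (nat_lit 62088) (PT.nd (nat_lit 312) (PT.nd (nat_lit 156) (PT.nd (nat_lit 78) (PT.lf (nat_lit 14516) (nat_lit 3) (nat_lit 191) (nat_lit 1) (nat_lit 204) (nat_lit 192) (nat_lit 204)) (PT.lf (nat_lit 14440) (nat_lit 6) (nat_lit 190) (nat_lit 1) (nat_lit 205) (nat_lit 192) (nat_lit 203))) (PT.nd (nat_lit 78) (PT.lf (nat_lit 14364) (nat_lit 6) (nat_lit 189) (nat_lit 1) (nat_lit 206) (nat_lit 192) (nat_lit 202)) (PT.lf (nat_lit 14288)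 (nat_lit 6) (nat_lit 188) (nat_lit 1) (nat_lit 207) (nat_lit 192) (nat_lit 201)))) (PT.nd (nat_lit 156) (PT.nd (nat_lit 78) (PT.lf (nat_lit 14212) (nat_lit 6) (nat_lit 187) (nat_lit 1) (nat_lit 208) (nat_lit 192) (nat_lit 200)) (PT.lf (nat_lit 13452) (nat_lit 6) (nat_lit 177) (nat_lit 1) (nat_lit 209) (nat_lit 192) (nat_lit 199))) (PT.nd (nat_lit 61464) (PT.lf (nat_lit 12616) (nat_lit 6) (nat_lit 166) (nat_lit 1) (nat_lit 210) (nat_lit 192) (nat_lit 198)) (PT.nd (nat_lit 78) (PT.lf (nat_lit 12540) (nat_lit 6) (nat_lit 165) (nat_lit 3) (nat_lit 197) (nat_lit 193) (nat_lit 210)) (PT.lf (nat_lit 13376) (nat_lit 6) (nat_lit 176) (nat_lit 3) (nat_lit 198) (nat_lit 193) (nat_lit 209)))))) (PT.nd (nat_lit 390) (PT.nd (nat_lit 156) (PT.nd (nat_lit 78) (PT.lf (nat_lit 14136) (nat_lit 6) (nat_lit 186) (nat_lit 3) (nat_lit 199) (nat_lit 193) (nat_lit 208)) (PT.lf (nat_lit 14820) (nat_lit 6) (nat_lit 195)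 (nat_lit 3) (nat_lit 200) (nat_lit 193) (nat_lit 207))) (PT.nd (nat_lit 78) (PT.lf (nat_lit 14896) (nat_lit 6) (nat_lit 196) (nat_lit 3) (nat_lit 201) (nat_lit 193) (nat_lit 206)) (PT.nd (nat_lit 78) (PT.lf (nat_lit 14972) (nat_lit 6) (nat_lit 197) (nat_lit 3) (nat_lit 202) (nat_lit 193) (nat_lit 205)) (PT.lf (nat_lit 15048) (nat_lit 6) (nat_lit 198) (nat_lit 3) (nat_lit 203) (nat_lit 193) (nat_lit 204))))) (PT.nd (nat_lit 156) (PT.nd (nat_lit 78) (PT.lf (nat_lit 15048) (nat_lit 6) (nat_lit 198) (nat_lit 1) (nat_lit 204) (nat_lit 193) (nat_lit 203)) (PT.lf (nat_lit 14972) (nat_lit 6) (nat_lit 197) (nat_lit 1) (nat_lit 205) (nat_lit 193) (nat_lit 202))) (PT.nd (nat_lit 78) (PT.lf (nat_lit 14896) (nat_lit 6) (nat_lit 196) (nat_lit 1) (nat_lit 206) (nat_lit 193) (nat_lit 201)) (PT.nd (nat_lit 78) (PT.lf (nat_lit 14820) (nat_lit 6) (nat_lit 195) (nat_lit 1) (nat_lit 207) (nat_lit 193) (nat_lit 200))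 (PT.lf (nat_lit 14136) (nat_lit 6) (nat_lit 186) (nat_lit 1) (nat_lit 208) (nat_lit 193) (nat_lit 199))))))))
noncomputable def pc9 : PT := (PT.nd (nat_lit 123942) (PT.nd (nat_lit 62010) (PT.nd (nat_lit 61620) (PT.nd (nat_lit 61464) (PT.nd (nat_lit 78) (PT.lf (nat_lit 13376) (nat_lit 6) (nat_lit 176) (nat_lit 1) (nat_lit 209) (nat_lit 193) (nat_lit 198)) (PT.lf (nat_lit 12540) (nat_lit 6) (nat_lit 165) (nat_lit 1) (nat_lit 210) (nat_lit 193) (nat_lit 197))) (PT.nd (nat_lit 78) (PT.lf (nat_lit 12464) (nat_lit 6) (nat_lit 164) (nat_lit 3) (nat_lit 196) (nat_lit 194) (nat_lit 210)) (PT.lf (nat_lit 13300) (nat_lit 6) (nat_lit 175) (nat_lit 3) (nat_lit 197) (nat_lit 194) (nat_lit 209)))) (PT.nd (nat_lit 156) (PT.nd (nat_lit 78) (PT.lf (nat_lit 14060) (nat_lit 6) (nat_lit 185) (nat_lit 3) (nat_lit 198) (nat_lit 194) (nat_lit 208)) (PT.lf (nat_lit 14744) (nat_lit 6) (nat_lit 194) (nat_lit 3) (nat_lit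 199) (nat_lit 194) (nat_lit 207))) (PT.nd (nat_lit 78) (PT.lf (nat_lit 15352) (nat_lit 6) (nat_lit 202) (nat_lit 3) (nat_lit 200) (nat_lit 194) (nat_lit 206)) (PT.nd (nat_lit 78) (PT.lf (nat_lit 15428) (nat_lit 6) (nat_lit 203) (nat_lit 3) (nat_lit 201) (nat_lit 194) (nat_lit 205)) (PT.lf (nat_lit 15504) (nat_lit 6) (nat_lit 204) (nat_lit 3) (nat_lit 202) (nat_lit 194) (nat_lit 204)))))) (PT.nd (nat_lit 312) (PT.nd (nat_lit 156) (PT.nd (nat_lit 78) (PT.lf (nat_lit 15580) (nat_lit 3) (nat_lit 205) (nat_lit 1) (nat_lit 203) (nat_lit 194) (nat_lit 203)) (PT.lf (nat_lit 15504) (nat_lit 6) (nat_lit 204) (nat_lit 1) (nat_lit 204) (nat_lit 194) (nat_lit 202))) (PT.nd (nat_lit 78) (PT.lf (nat_lit 15428) (nat_lit 6) (nat_lit 203) (nat_lit 1) (nat_lit 205) (nat_lit 194) (nat_lit 201)) (PT.lf (nat_lit 15352) (nat_lit 6) (nat_lit 202) (nat_lit 1) (nat_lit 206) (nat_lit 194) (nat_lit 200)))) (PT.nd (nat_lit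 156) (PT.nd (nat_lit 78) (PT.lf (nat_lit 14744) (nat_lit 6) (nat_lit 194) (nat_lit 1) (nat_lit 207) (nat_lit 194) (nat_lit 199)) (PT.lf (nat_lit 14060) (nat_lit 6) (nat_lit 185) (nat_lit 1) (nat_lit 208) (nat_lit 194) (nat_lit 198))) (PT.nd (nat_lit 78) (PT.lf (nat_lit 13300) (nat_lit 6) (nat_lit 175) (nat_lit 1) (nat_lit 209) (nat_lit 194) (nat_lit 197)) (PT.nd (nat_lit 61308) (PT.lf (nat_lit 12464) (nat_lit 6) (nat_lit 164) (nat_lit 1) (nat_lit 210) (nat_lit 194) (nat_lit 196)) (PT.lf (nat_lit 12388) (nat_lit 3) (nat_lit 163) (nat_lit 3) (nat_lit 195) (nat_lit 195) (nat_lit 210))))))) (PT.nd (nat_lit 702) (PT.nd (nat_lit 312) (PT.nd (nat_lit 156) (PT.nd (nat_lit 78) (PT.lf (nat_lit 13224) (nat_lit 6) (nat_lit 174) (nat_lit 3) (nat_lit 196) (nat_lit 195) (nat_lit 209)) (PT.lf (nat_lit 13984) (nat_lit 6) (nat_lit 184) (nat_lit 3) (nat_lit 197) (nat_lit 195) (nat_lit 208))) (PT.nd (nat_lit 78) (PT.lf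 (nat_lit 14668) (nat_lit 6) (nat_lit 193) (nat_lit 3) (nat_lit 198) (nat_lit 195) (nat_lit 207)) (PT.lf (nat_lit 15276) (nat_lit 6) (nat_lit 201) (nat_lit 3) (nat_lit 199) (nat_lit 195) (nat_lit 206)))) (PT.nd (nat_lit 156) (PT.nd (nat_lit 78) (PT.lf (nat_lit 15808) (nat_lit 6) (nat_lit 208) (nat_lit 3) (nat_lit 200) (nat_lit 195) (nat_lit 205)) (PT.lf (nat_lit 15884) (nat_lit 6) (nat_lit 209) (nat_lit 3) (nat_lit 201) (nat_lit 195) (nat_lit 204))) (PT.nd (nat_lit 78) (PT.lf (nat_lit 15960) (nat_lit 6) (nat_lit 210) (nat_lit 3) (nat_lit 202) (nat_lit 195) (nat_lit 203)) (PT.nd (nat_lit 78) (PT.lf (nat_lit 15960) (nat_lit 6) (nat_lit 210) (nat_lit 1) (nat_lit 203) (nat_lit 195) (nat_lit 202)) (PT.lf (nat_lit 15884) (nat_lit 6) (nat_lit 209) (nat_lit 1) (nat_lit 204) (nat_lit 195) (nat_lit 201)))))) (PT.nd (nat_lit 390) (PT.nd (nat_lit 156) (PT.nd (nat_lit 78) (PT.lf (nat_lit 15808) (nat_lit 6) (nat_lit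 208) (nat_lit 1) (nat_lit 205) (nat_lit 195) (nat_lit 200)) (PT.lf (nat_lit 15276) (nat_lit 6) (nat_lit 201) (nat_lit 1) (nat_lit 206) (nat_lit 195) (nat_lit 199))) (PT.nd (nat_lit 78) (PT.lf (nat_lit 14668) (nat_lit 6) (nat_lit 193) (nat_lit 1) (nat_lit 207) (nat_lit 195) (nat_lit 198)) (PT.nd (nat_lit 78) (PT.lf (nat_lit 13984) (nat_lit 6) (nat_lit 184) (nat_lit 1) (nat_lit 208) (nat_lit 195) (nat_lit 197)) (PT.lf (nat_lit 13224) (nat_lit 6) (nat_lit 174) (nat_lit 1) (nat_lit 209) (nat_lit 195) (nat_lit 196))))) (PT.nd (nat_lit 61308) (PT.nd (nat_lit 61230) (PT.lf (nat_lit 12388) (nat_lit 3) (nat_lit 163) (nat_lit 0) (nat_lit 210) (nat_lit 195) (nat_lit 195)) (PT.lf (nat_lit 12464) (nat_lit 6) (nat_lit 164) (nat_lit 5) (nat_lit 194) (nat_lit 196) (nat_lit 210))) (PT.nd (nat_lit 78) (PT.lf (nat_lit 13224) (nat_lit 6) (nat_lit 174) (nat_lit 5) (nat_lit 195) (nat_lit 196) (nat_lit 209)) (PT.nd (nat_lit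 78) (PT.lf (nat_lit 13908) (nat_lit 3) (nat_lit 183) (nat_lit 3) (nat_lit 196) (nat_lit 196) (nat_lit 208)) (PT.lf (nat_lit 14592) (nat_lit 6) (nat_lit 192) (nat_lit 3) (nat_lit 197) (nat_lit 196) (nat_lit 207))))))))
noncomputable def pc10 : PT := (PT.nd (nat_lit 62478) (PT.nd (nat_lit 702) (PT.nd (nat_lit 312) (PT.nd (nat_lit 156) (PT.nd (nat_lit 78) (PT.lf (nat_lit 15200) (nat_lit 6) (nat_lit 200) (nat_lit 3) (nat_lit 198) (nat_lit 196) (nat_lit 206)) (PT.lf (nat_lit 15732) (nat_lit 6) (nat_lit 207) (nat_lit 3) (nat_lit 199) (nat_lit 196) (nat_lit 205))) (PT.nd (nat_lit 78) (PT.lf (nat_lit 16188) (nat_lit 6) (nat_lit 213) (nat_lit 3) (nat_lit 200) (nat_lit 196) (nat_lit 204)) (PT.lf (nat_lit 16264) (nat_lit 6) (nat_lit 214) (nat_lit 3) (nat_lit 201) (nat_lit 196) (nat_lit 203)))) (PT.nd (nat_lit 156) (PT.nd (nat_lit 78) (PT.lf (nat_lit 16340) (nat_lit 3) (nat_lit 215) (nat_lit 1) (nat_lit 202)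 (nat_lit 196) (nat_lit 202)) (PT.lf (nat_lit 16264) (nat_lit 6) (nat_lit 214) (nat_lit 1) (nat_lit 203) (nat_lit 196) (nat_lit 201))) (PT.nd (nat_lit 78) (PT.lf (nat_lit 16188) (nat_lit 6) (nat_lit 213) (nat_lit 1) (nat_lit 204) (nat_lit 196) (nat_lit 200)) (PT.nd (nat_lit 78) (PT.lf (nat_lit 15732) (nat_lit 6) (nat_lit 207) (nat_lit 1) (nat_lit 205) (nat_lit 196) (nat_lit 199)) (PT.lf (nat_lit 15200) (nat_lit 6) (nat_lit 200) (nat_lit 1) (nat_lit 206) (nat_lit 196) (nat_lit 198)))))) (PT.nd (nat_lit 61386) (PT.nd (nat_lit 156) (PT.nd (nat_lit 78) (PT.lf (nat_lit 14592) (nat_lit 6) (nat_lit 192) (nat_lit 1) (nat_lit 207) (nat_lit 196) (nat_lit 197)) (PT.lf (nat_lit 13908) (nat_lit 3) (nat_lit 183) (nat_lit 0) (nat_lit 208) (nat_lit 196) (nat_lit 196))) (PT.nd (nat_lit 78) (PT.lf (nat_lit 13224) (nat_lit 6) (nat_lit 174) (nat_lit 0) (nat_lit 209) (nat_lit 196) (nat_lit 195)) (PT.lf (nat_lit 12464)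 (nat_lit 6) (nat_lit 164) (nat_lit 0) (nat_lit 210) (nat_lit 196) (nat_lit 194)))) (PT.nd (nat_lit 156) (PT.nd (nat_lit 78) (PT.lf (nat_lit 12540) (nat_lit 6) (nat_lit 165) (nat_lit 5) (nat_lit 193) (nat_lit 197) (nat_lit 210)) (PT.lf (nat_lit 13300) (nat_lit 6) (nat_lit 175) (nat_lit 5) (nat_lit 194) (nat_lit 197) (nat_lit 209))) (PT.nd (nat_lit 78) (PT.lf (nat_lit 13984) (nat_lit 6) (nat_lit 184) (nat_lit 5) (nat_lit 195) (nat_lit 197) (nat_lit 208)) (PT.nd (nat_lit 78) (PT.lf (nat_lit 14592) (nat_lit 6) (nat_lit 192) (nat_lit 5) (nat_lit 196) (nat_lit 197) (nat_lit 207)) (PT.lf (nat_lit 15124) (nat_lit 3) (nat_lit 199) (nat_lit 3) (nat_lit 197) (nat_lit 197) (nat_lit 206))))))) (PT.nd (nat_lit 702) (PT.nd (nat_lit 312) (PT.nd (nat_lit 156) (PT.nd (nat_lit 78) (PT.lf (nat_lit 15656) (nat_lit 6) (nat_lit 206) (nat_lit 3) (nat_lit 198) (nat_lit 197) (nat_lit 205)) (PT.lf (nat_lit 16112) (nat_lit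 6) (nat_lit 212) (nat_lit 3) (nat_lit 199) (nat_lit 197) (nat_lit 204))) (PT.nd (nat_lit 78) (PT.lf (nat_lit 16492) (nat_lit 6) (nat_lit 217) (nat_lit 3) (nat_lit 200) (nat_lit 197) (nat_lit 203)) (PT.lf (nat_lit 16568) (nat_lit 6) (nat_lit 218) (nat_lit 3) (nat_lit 201) (nat_lit 197) (nat_lit 202)))) (PT.nd (nat_lit 156) (PT.nd (nat_lit 78) (PT.lf (nat_lit 16568) (nat_lit 6) (nat_lit 218) (nat_lit 1) (nat_lit 202) (nat_lit 197) (nat_lit 201)) (PT.lf (nat_lit 16492) (nat_lit 6) (nat_lit 217) (nat_lit 1) (nat_lit 203) (nat_lit 197) (nat_lit 200))) (PT.nd (nat_lit 78) (PT.lf (nat_lit 16112) (nat_lit 6) (nat_lit 212) (nat_lit 1) (nat_lit 204) (nat_lit 197) (nat_lit 199)) (PT.nd (nat_lit 78) (PT.lf (nat_lit 15656) (nat_lit 6) (nat_lit 206) (nat_lit 1) (nat_lit 205) (nat_lit 197) (nat_lit 198)) (PT.lf (nat_lit 15124) (nat_lit 3) (nat_lit 199) (nat_lit 0) (nat_lit 206) (nat_lit 197) (nat_lit 197))))))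 (PT.nd (nat_lit 61386) (PT.nd (nat_lit 156) (PT.nd (nat_lit 78) (PT.lf (nat_lit 14592) (nat_lit 6) (nat_lit 192) (nat_lit 0) (nat_lit 207) (nat_lit 197) (nat_lit 196)) (PT.lf (nat_lit 13984) (nat_lit 6) (nat_lit 184) (nat_lit 0) (nat_lit 208) (nat_lit 197) (nat_lit 195))) (PT.nd (nat_lit 78) (PT.lf (nat_lit 13300) (nat_lit 6) (nat_lit 175) (nat_lit 0) (nat_lit 209) (nat_lit 197) (nat_lit 194)) (PT.nd (nat_lit 61074) (PT.lf (nat_lit 12540) (nat_lit 6) (nat_lit 165) (nat_lit 0) (nat_lit 210) (nat_lit 197) (nat_lit 193)) (PT.lf (nat_lit 12616) (nat_lit 6) (nat_lit 166) (nat_lit 5) (nat_lit 192) (nat_lit 198) (nat_lit 210))))) (PT.nd (nat_lit 156) (PT.nd (nat_lit 78) (PT.lf (nat_lit 13376) (nat_lit 6) (nat_lit 176) (nat_lit 5) (nat_lit 193) (nat_lit 198) (nat_lit 209)) (PT.lf (nat_lit 14060) (nat_lit 6) (nat_lit 185) (nat_lit 5) (nat_lit 194) (nat_lit 198) (nat_lit 208))) (PT.nd (nat_lit 78) (PT.lf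 (nat_lit 14668) (nat_lit 6) (nat_lit 193) (nat_lit 5) (nat_lit 195) (nat_lit 198) (nat_lit 207)) (PT.nd (nat_lit 78) (PT.lf (nat_lit 15200) (nat_lit 6) (nat_lit 200) (nat_lit 5) (nat_lit 196) (nat_lit 198) (nat_lit 206)) (PT.lf (nat_lit 15656) (nat_lit 6) (nat_lit 206) (nat_lit 5) (nat_lit 197) (nat_lit 198) (nat_lit 205))))))))
noncomputable def pc11 : PT := (PT.nd (nat_lit 62400) (PT.nd (nat_lit 702) (PT.nd (nat_lit 312) (PT.nd (nat_lit 156) (PT.nd (nat_lit 78) (PT.lf (nat_lit 16036) (nat_lit 3) (nat_lit 211) (nat_lit 3) (nat_lit 198) (nat_lit 198) (nat_lit 204)) (PT.lf (nat_lit 16416) (nat_lit 6) (nat_lit 216) (nat_lit 3) (nat_lit 199) (nat_lit 198) (nat_lit 203))) (PT.nd (nat_lit 78) (PT.lf (nat_lit 16720) (nat_lit 6) (nat_lit 220) (nat_lit 3) (nat_lit 200) (nat_lit 198) (nat_lit 202)) (PT.lf (nat_lit 16796) (nat_lit 3) (nat_lit 221) (nat_lit 1) (nat_lit 201) (nat_lit 198) (nat_lit 201))))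 (PT.nd (nat_lit 156) (PT.nd (nat_lit 78) (PT.lf (nat_lit 16720) (nat_lit 6) (nat_lit 220) (nat_lit 1) (nat_lit 202) (nat_lit 198) (nat_lit 200)) (PT.lf (nat_lit 16416) (nat_lit 6) (nat_lit 216) (nat_lit 1) (nat_lit 203) (nat_lit 198) (nat_lit 199))) (PT.nd (nat_lit 78) (PT.lf (nat_lit 16036) (nat_lit 3) (nat_lit 211) (nat_lit 0) (nat_lit 204) (nat_lit 198) (nat_lit 198)) (PT.nd (nat_lit 78) (PT.lf (nat_lit 15656) (nat_lit 6) (nat_lit 206) (nat_lit 0) (nat_lit 205) (nat_lit 198) (nat_lit 197)) (PT.lf (nat_lit 15200) (nat_lit 6) (nat_lit 200) (nat_lit 0) (nat_lit 206) (nat_lit 198) (nat_lit 196)))))) (PT.nd (nat_lit 61308) (PT.nd (nat_lit 156) (PT.nd (nat_lit 78) (PT.lf (nat_lit 14668) (nat_lit 6) (nat_lit 193) (nat_lit 0) (nat_lit 207) (nat_lit 198) (nat_lit 195)) (PT.lf (nat_lit 14060) (nat_lit 6) (nat_lit 185) (nat_lit 0) (nat_lit 208) (nat_lit 198) (nat_lit 194))) (PT.nd (nat_lit 78) (PT.lf (nat_lit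 13376) (nat_lit 6) (nat_lit 176) (nat_lit 0) (nat_lit 209) (nat_lit 198) (nat_lit 193)) (PT.nd (nat_lit 60996) (PT.lf (nat_lit 12616) (nat_lit 6) (nat_lit 166) (nat_lit 0) (nat_lit 210) (nat_lit 198) (nat_lit 192)) (PT.lf (nat_lit 12692) (nat_lit 6) (nat_lit 167) (nat_lit 5) (nat_lit 191) (nat_lit 199) (nat_lit 210))))) (PT.nd (nat_lit 156) (PT.nd (nat_lit 78) (PT.lf (nat_lit 13452) (nat_lit 6) (nat_lit 177) (nat_lit 5) (nat_lit 192) (nat_lit 199) (nat_lit 209)) (PT.lf (nat_lit 14136) (nat_lit 6) (nat_lit 186) (nat_lit 5) (nat_lit 193) (nat_lit 199) (nat_lit 208))) (PT.nd (nat_lit 78) (PT.lf (nat_lit 14744) (nat_lit 6) (nat_lit 194) (nat_lit 5) (nat_lit 194) (nat_lit 199) (nat_lit 207)) (PT.nd (nat_lit 78) (PT.lf (nat_lit 15276) (nat_lit 6) (nat_lit 201) (nat_lit 5) (nat_lit 195) (nat_lit 199) (nat_lit 206)) (PT.lf (nat_lit 15732) (nat_lit 6) (nat_lit 207) (nat_lit 5) (nat_lit 196) (nat_lit 199)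 (nat_lit 205))))))) (PT.nd (nat_lit 702) (PT.nd (nat_lit 312) (PT.nd (nat_lit 156) (PT.nd (nat_lit 78) (PT.lf (nat_lit 16112) (nat_lit 6) (nat_lit 212) (nat_lit 5) (nat_lit 197) (nat_lit 199) (nat_lit 204)) (PT.lf (nat_lit 16416) (nat_lit 6) (nat_lit 216) (nat_lit 5) (nat_lit 198) (nat_lit 199) (nat_lit 203))) (PT.nd (nat_lit 78) (PT.lf (nat_lit 16644) (nat_lit 3) (nat_lit 219) (nat_lit 3) (nat_lit 199) (nat_lit 199) (nat_lit 202)) (PT.lf (nat_lit 16872) (nat_lit 6) (nat_lit 222) (nat_lit 3) (nat_lit 200) (nat_lit 199) (nat_lit 201)))) (PT.nd (nat_lit 156) (PT.nd (nat_lit 78) (PT.lf (nat_lit 16872) (nat_lit 6) (nat_lit 222) (nat_lit 1) (nat_lit 201) (nat_lit 199) (nat_lit 200)) (PT.lf (nat_lit 16644) (nat_lit 3) (nat_lit 219) (nat_lit 0) (nat_lit 202) (nat_lit 199) (nat_lit 199))) (PT.nd (nat_lit 78) (PT.lf (nat_lit 16416) (nat_lit 6) (nat_lit 216) (nat_lit 0) (nat_lit 203) (nat_lit 199) (nat_lit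 198)) (PT.nd (nat_lit 78) (PT.lf (nat_lit 16112) (nat_lit 6) (nat_lit 212) (nat_lit 0) (nat_lit 204) (nat_lit 199) (nat_lit 197)) (PT.lf (nat_lit 15732) (nat_lit 6) (nat_lit 207) (nat_lit 0) (nat_lit 205) (nat_lit 199) (nat_lit 196)))))) (PT.nd (nat_lit 61152) (PT.nd (nat_lit 156) (PT.nd (nat_lit 78) (PT.lf (nat_lit 15276) (nat_lit 6) (nat_lit 201) (nat_lit 0) (nat_lit 206) (nat_lit 199) (nat_lit 195)) (PT.lf (nat_lit 14744) (nat_lit 6) (nat_lit 194) (nat_lit 0) (nat_lit 207) (nat_lit 199) (nat_lit 194))) (PT.nd (nat_lit 78) (PT.lf (nat_lit 14136) (nat_lit 6) (nat_lit 186) (nat_lit 0) (nat_lit 208) (nat_lit 199) (nat_lit 193)) (PT.nd (nat_lit 78) (PT.lf (nat_lit 13452) (nat_lit 6) (nat_lit 177) (nat_lit 0) (nat_lit 209) (nat_lit 199) (nat_lit 192)) (PT.lf (nat_lit 12692) (nat_lit 6) (nat_lit 167) (nat_lit 0) (nat_lit 210) (nat_lit 199) (nat_lit 191))))) (PT.nd (nat_lit 156) (PT.nd (nat_lit 78)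 (PT.lf (nat_lit 11932) (nat_lit 6) (nat_lit 157) (nat_lit 5) (nat_lit 189) (nat_lit 200) (nat_lit 211)) (PT.lf (nat_lit 12768) (nat_lit 6) (nat_lit 168) (nat_lit 5) (nat_lit 190) (nat_lit 200) (nat_lit 210))) (PT.nd (nat_lit 78) (PT.lf (nat_lit 13528) (nat_lit 6) (nat_lit 178) (nat_lit 5) (nat_lit 191) (nat_lit 200) (nat_lit 209)) (PT.nd (nat_lit 78) (PT.lf (nat_lit 14212) (nat_lit 6) (nat_lit 187) (nat_lit 5) (nat_lit 192) (nat_lit 200) (nat_lit 208)) (PT.lf (nat_lit 14820) (nat_lit 6) (nat_lit 195) (nat_lit 5) (nat_lit 193) (nat_lit 200) (nat_lit 207))))))))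
noncomputable def pc12 : PT := (PT.nd (nat_lit 62010) (PT.nd (nat_lit 702) (PT.nd (nat_lit 312) (PT.nd (nat_lit 156) (PT.nd (nat_lit 78) (PT.lf (nat_lit 15352) (nat_lit 6) (nat_lit 202) (nat_lit 5) (nat_lit 194) (nat_lit 200) (nat_lit 206)) (PT.lf (nat_lit 15808) (nat_lit 6) (nat_lit 208) (nat_lit 5) (nat_lit 195) (nat_lit 200) (nat_lit 205))) (PT.nd (nat_lit 78) (PT.lf (nat_lit 16188) (nat_lit 6) (nat_lit 213) (nat_lit 5) (nat_lit 196) (nat_lit 200) (nat_lit 204)) (PT.lf (nat_lit 16492) (nat_lit 6) (nat_lit 217) (nat_lit 5) (nat_lit 197) (nat_lit 200) (nat_lit 203)))) (PT.nd (nat_lit 156) (PT.nd (nat_lit 78) (PT.lf (nat_lit 16720) (nat_lit 6) (nat_lit 220) (nat_lit 5) (nat_lit 198) (nat_lit 200) (nat_lit 202)) (PT.lf (nat_lit 16872) (nat_lit 6) (nat_lit 222) (nat_lit 5) (nat_lit 199) (nat_lit 200) (nat_lit 201))) (PT.nd (nat_lit 78) (PT.lf (nat_lit 16948) (nat_lit 1) (nat_lit 223) (nat_lit 0)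 (nat_lit 200) (nat_lit 200) (nat_lit 200)) (PT.nd (nat_lit 78) (PT.lf (nat_lit 16872) (nat_lit 6) (nat_lit 222) (nat_lit 0) (nat_lit 201) (nat_lit 200) (nat_lit 199)) (PT.lf (nat_lit 16720) (nat_lit 6) (nat_lit 220) (nat_lit 0) (nat_lit 202) (nat_lit 200) (nat_lit 198)))))) (PT.nd (nat_lit 312) (PT.nd (nat_lit 156) (PT.nd (nat_lit 78) (PT.lf (nat_lit 16492) (nat_lit 6) (nat_lit 217) (nat_lit 0) (nat_lit 203) (nat_lit 200) (nat_lit 197)) (PT.lf (nat_lit 16188) (nat_lit 6) (nat_lit 213) (nat_lit 0) (nat_lit 204) (nat_lit 200) (nat_lit 196))) (PT.nd (nat_lit 78) (PT.lf (nat_lit 15808) (nat_lit 6) (nat_lit 208) (nat_lit 0) (nat_lit 205) (nat_lit 200) (nat_lit 195)) (PT.lf (nat_lit 15352) (nat_lit 6) (nat_lit 202) (nat_lit 0) (nat_lit 206) (nat_lit 200) (nat_lit 194)))) (PT.nd (nat_lit 156) (PT.nd (nat_lit 78) (PT.lf (nat_lit 14820) (nat_lit 6) (nat_lit 195) (nat_lit 0) (nat_lit 207) (nat_lit 200) (nat_lit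 193)) (PT.lf (nat_lit 14212) (nat_lit 6) (nat_lit 187) (nat_lit 0) (nat_lit 208) (nat_lit 200) (nat_lit 192))) (PT.nd (nat_lit 78) (PT.lf (nat_lit 13528) (nat_lit 6) (nat_lit 178) (nat_lit 0) (nat_lit 209) (nat_lit 200) (nat_lit 191)) (PT.nd (nat_lit 78) (PT.lf (nat_lit 12768) (nat_lit 6) (nat_lit 168) (nat_lit 0) (nat_lit 210) (nat_lit 200) (nat_lit 190)) (PT.lf (nat_lit 11932) (nat_lit 6) (nat_lit 157) (nat_lit 0) (nat_lit 211) (nat_lit 200) (nat_lit 189))))))) (PT.nd (nat_lit 702) (PT.nd (nat_lit 312) (PT.nd (nat_lit 156) (PT.nd (nat_lit 78) (PT.lf (nat_lit 11476) (nat_lit 6) (nat_lit 151) (nat_lit 5) (nat_lit 188) (nat_lit 201) (nat_lit 211)) (PT.lf (nat_lit 12008) (nat_lit 6) (nat_lit 158) (nat_lit 5) (nat_lit 189) (nat_lit 201) (nat_lit 210))) (PT.nd (nat_lit 78) (PT.lf (nat_lit 12844) (nat_lit 6) (nat_lit 169) (nat_lit 5) (nat_lit 190) (nat_lit 201) (nat_lit 209)) (PT.lf (nat_lit 13604)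 (nat_lit 6) (nat_lit 179) (nat_lit 5) (nat_lit 191) (nat_lit 201) (nat_lit 208)))) (PT.nd (nat_lit 156) (PT.nd (nat_lit 78) (PT.lf (nat_lit 14288) (nat_lit 6) (nat_lit 188) (nat_lit 5) (nat_lit 192) (nat_lit 201) (nat_lit 207)) (PT.lf (nat_lit 14896) (nat_lit 6) (nat_lit 196) (nat_lit 5) (nat_lit 193) (nat_lit 201) (nat_lit 206))) (PT.nd (nat_lit 78) (PT.lf (nat_lit 15428) (nat_lit 6) (nat_lit 203) (nat_lit 5) (nat_lit 194) (nat_lit 201) (nat_lit 205)) (PT.nd (nat_lit 78) (PT.lf (nat_lit 15884) (nat_lit 6) (nat_lit 209) (nat_lit 5) (nat_lit 195) (nat_lit 201) (nat_lit 204)) (PT.lf (nat_lit 16264) (nat_lit 6) (nat_lit 214) (nat_lit 5) (nat_lit 196) (nat_lit 201) (nat_lit 203)))))) (PT.nd (nat_lit 390) (PT.nd (nat_lit 156) (PT.nd (nat_lit 78) (PT.lf (nat_lit 16568) (nat_lit 6) (nat_lit 218) (nat_lit 5) (nat_lit 197) (nat_lit 201) (nat_lit 202)) (PT.lf (nat_lit 16796) (nat_lit 3) (nat_lit 221) (nat_lit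 4) (nat_lit 198) (nat_lit 201) (nat_lit 201))) (PT.nd (nat_lit 78) (PT.lf (nat_lit 16872) (nat_lit 6) (nat_lit 222) (nat_lit 4) (nat_lit 199) (nat_lit 201) (nat_lit 200)) (PT.nd (nat_lit 78) (PT.lf (nat_lit 16872) (nat_lit 6) (nat_lit 222) (nat_lit 2) (nat_lit 200) (nat_lit 201) (nat_lit 199)) (PT.lf (nat_lit 16796) (nat_lit 3) (nat_lit 221) (nat_lit 0) (nat_lit 201) (nat_lit 201) (nat_lit 198))))) (PT.nd (nat_lit 156) (PT.nd (nat_lit 78) (PT.lf (nat_lit 16568) (nat_lit 6) (nat_lit 218) (nat_lit 0) (nat_lit 202) (nat_lit 201) (nat_lit 197)) (PT.lf (nat_lit 16264) (nat_lit 6) (nat_lit 214) (nat_lit 0) (nat_lit 203) (nat_lit 201) (nat_lit 196))) (PT.nd (nat_lit 78) (PT.lf (nat_lit 15884) (nat_lit 6) (nat_lit 209) (nat_lit 0) (nat_lit 204) (nat_lit 201) (nat_lit 195)) (PT.nd (nat_lit 78) (PT.lf (nat_lit 15428) (nat_lit 6) (nat_lit 203) (nat_lit 0) (nat_lit 205) (nat_lit 201) (nat_lit 194)) (PT.lf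 (nat_lit 14896) (nat_lit 6) (nat_lit 196) (nat_lit 0) (nat_lit 206) (nat_lit 201) (nat_lit 193))))))))
noncomputable def pc13 : PT := (PT.nd (nat_lit 61932) (PT.nd (nat_lit 61230) (PT.nd (nat_lit 312) (PT.nd (nat_lit 156) (PT.nd (nat_lit 78) (PT.lf (nat_lit 14288) (nat_lit 6) (nat_lit 188) (nat_lit 0) (nat_lit 207) (nat_lit 201) (nat_lit 192)) (PT.lf (nat_lit 13604) (nat_lit 6) (nat_lit 179) (nat_lit 0) (nat_lit 208) (nat_lit 201) (nat_lit 191))) (PT.nd (nat_lit 78) (PT.lf (nat_lit 12844) (nat_lit 6) (nat_lit 169) (nat_lit 0) (nat_lit 209) (nat_lit 201) (nat_lit 190)) (PT.lf (nat_lit 12008) (nat_lit 6) (nat_lit 158) (nat_lit 0) (nat_lit 210) (nat_lit 201) (nat_lit 189)))) (PT.nd (nat_lit 60684) (PT.nd (nat_lit 60606) (PT.lf (nat_lit 11476) (nat_lit 6) (nat_lit 151) (nat_lit 0) (nat_lit 211) (nat_lit 201) (nat_lit 188)) (PT.lf (nat_lit 11096) (nat_lit 6) (nat_lit 146) (nat_lit 5) (nat_lit 187) (nat_lit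 202) (nat_lit 211))) (PT.nd (nat_lit 78) (PT.lf (nat_lit 11552) (nat_lit 6) (nat_lit 152) (nat_lit 5) (nat_lit 188) (nat_lit 202) (nat_lit 210)) (PT.nd (nat_lit 78) (PT.lf (nat_lit 12084) (nat_lit 6) (nat_lit 159) (nat_lit 5) (nat_lit 189) (nat_lit 202) (nat_lit 209)) (PT.lf (nat_lit 12920) (nat_lit 6) (nat_lit 170) (nat_lit 5) (nat_lit 190) (nat_lit 202) (nat_lit 208)))))) (PT.nd (nat_lit 312) (PT.nd (nat_lit 156) (PT.nd (nat_lit 78) (PT.lf (nat_lit 13680) (nat_lit 6) (nat_lit 180) (nat_lit 5) (nat_lit 191) (nat_lit 202) (nat_lit 207)) (PT.lf (nat_lit 14364) (nat_lit 6) (nat_lit 189) (nat_lit 5) (nat_lit 192) (nat_lit 202) (nat_lit 206))) (PT.nd (nat_lit 78) (PT.lf (nat_lit 14972) (nat_lit 6) (nat_lit 197) (nat_lit 5) (nat_lit 193) (nat_lit 202) (nat_lit 205)) (PT.lf (nat_lit 15504) (nat_lit 6) (nat_lit 204) (nat_lit 5) (nat_lit 194) (nat_lit 202) (nat_lit 204)))) (PT.nd (nat_lit 156) (PT.nd (nat_lit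 78) (PT.lf (nat_lit 15960) (nat_lit 6) (nat_lit 210) (nat_lit 5) (nat_lit 195) (nat_lit 202) (nat_lit 203)) (PT.lf (nat_lit 16340) (nat_lit 3) (nat_lit 215) (nat_lit 4) (nat_lit 196) (nat_lit 202) (nat_lit 202))) (PT.nd (nat_lit 78) (PT.lf (nat_lit 16568) (nat_lit 6) (nat_lit 218) (nat_lit 4) (nat_lit 197) (nat_lit 202) (nat_lit 201)) (PT.nd (nat_lit 78) (PT.lf (nat_lit 16720) (nat_lit 6) (nat_lit 220) (nat_lit 4) (nat_lit 198) (nat_lit 202) (nat_lit 200)) (PT.lf (nat_lit 16644) (nat_lit 3) (nat_lit 219) (nat_lit 2) (nat_lit 199) (nat_lit 202) (nat_lit 199))))))) (PT.nd (nat_lit 702) (PT.nd (nat_lit 312) (PT.nd (nat_lit 156) (PT.nd (nat_lit 78) (PT.lf (nat_lit 16720) (nat_lit 6) (nat_lit 220) (nat_lit 2) (nat_lit 200) (nat_lit 202) (nat_lit 198)) (PT.lf (nat_lit 16568) (nat_lit 6) (nat_lit 218) (nat_lit 2) (nat_lit 201) (nat_lit 202) (nat_lit 197))) (PT.nd (nat_lit 78) (PT.lf (nat_lit 16340) (nat_lit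 3) (nat_lit 215) (nat_lit 0) (nat_lit 202) (nat_lit 202) (nat_lit 196)) (PT.lf (nat_lit 15960) (nat_lit 6) (nat_lit 210) (nat_lit 0) (nat_lit 203) (nat_lit 202) (nat_lit 195)))) (PT.nd (nat_lit 156) (PT.nd (nat_lit 78) (PT.lf (nat_lit 15504) (nat_lit 6) (nat_lit 204) (nat_lit 0) (nat_lit 204) (nat_lit 202) (nat_lit 194)) (PT.lf (nat_lit 14972) (nat_lit 6) (nat_lit 197) (nat_lit 0) (nat_lit 205) (nat_lit 202) (nat_lit 193))) (PT.nd (nat_lit 78) (PT.lf (nat_lit 14364) (nat_lit 6) (nat_lit 189) (nat_lit 0) (nat_lit 206) (nat_lit 202) (nat_lit 192)) (PT.nd (nat_lit 78) (PT.lf (nat_lit 13680) (nat_lit 6) (nat_lit 180) (nat_lit 0) (nat_lit 207) (nat_lit 202) (nat_lit 191)) (PT.lf (nat_lit 12920) (nat_lit 6) (nat_lit 170) (nat_lit 0) (nat_lit 208) (nat_lit 202) (nat_lit 190)))))) (PT.nd (nat_lit 60840) (PT.nd (nat_lit 156) (PT.nd (nat_lit 78) (PT.lf (nat_lit 12084) (nat_lit 6) (nat_lit 159) (nat_lit 0)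 (nat_lit 209) (nat_lit 202) (nat_lit 189)) (PT.lf (nat_lit 11552) (nat_lit 6) (nat_lit 152) (nat_lit 0) (nat_lit 210) (nat_lit 202) (nat_lit 188))) (PT.nd (nat_lit 60528) (PT.lf (nat_lit 11096) (nat_lit 6) (nat_lit 146) (nat_lit 0) (nat_lit 211) (nat_lit 202) (nat_lit 187)) (PT.nd (nat_lit 78) (PT.lf (nat_lit 10716) (nat_lit 6) (nat_lit 141) (nat_lit 5) (nat_lit 186) (nat_lit 203) (nat_lit 211)) (PT.lf (nat_lit 11172) (nat_lit 6) (nat_lit 147) (nat_lit 5) (nat_lit 187) (nat_lit 203) (nat_lit 210))))) (PT.nd (nat_lit 156) (PT.nd (nat_lit 78) (PT.lf (nat_lit 11628) (nat_lit 6) (nat_lit 153) (nat_lit 5) (nat_lit 188) (nat_lit 203) (nat_lit 209)) (PT.lf (nat_lit 12160) (nat_lit 6) (nat_lit 160) (nat_lit 5) (nat_lit 189) (nat_lit 203) (nat_lit 208))) (PT.nd (nat_lit 78) (PT.lf (nat_lit 12996) (nat_lit 6) (nat_lit 171) (nat_lit 5) (nat_lit 190) (nat_lit 203) (nat_lit 207)) (PT.nd (nat_lit 78) (PT.lf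 (nat_lit 13756) (nat_lit 6) (nat_lit 181) (nat_lit 5) (nat_lit 191) (nat_lit 203) (nat_lit 206)) (PT.lf (nat_lit 14440) (nat_lit 6) (nat_lit 190) (nat_lit 5) (nat_lit 192) (nat_lit 203) (nat_lit 205))))))))
noncomputable def pc14 : PT := (PT.nd (nat_lit 1404) (PT.nd (nat_lit 702) (PT.nd (nat_lit 312) (PT.nd (nat_lit 156) (PT.nd (nat_lit 78) (PT.lf (nat_lit 15048) (nat_lit 6) (nat_lit 198) (nat_lit 5) (nat_lit 193) (nat_lit 203) (nat_lit 204)) (PT.lf (nat_lit 15580) (nat_lit 3) (nat_lit 205) (nat_lit 4) (nat_lit 194) (nat_lit 203) (nat_lit 203))) (PT.nd (nat_lit 78) (PT.lf (nat_lit 15960) (nat_lit 6) (nat_lit 210) (nat_lit 4) (nat_lit 195) (nat_lit 203) (nat_lit 202)) (PT.lf (nat_lit 16264) (nat_lit 6) (nat_lit 214) (nat_lit 4) (nat_lit 196) (nat_lit 203) (nat_lit 201)))) (PT.nd (nat_lit 156) (PT.nd (nat_lit 78) (PT.lf (nat_lit 16492) (nat_lit 6) (nat_lit 217) (nat_lit 4) (nat_lit 197) (nat_lit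 203) (nat_lit 200)) (PT.lf (nat_lit 16416) (nat_lit 6) (nat_lit 216) (nat_lit 4) (nat_lit 198) (nat_lit 203) (nat_lit 199))) (PT.nd (nat_lit 78) (PT.lf (nat_lit 16416) (nat_lit 6) (nat_lit 216) (nat_lit 2) (nat_lit 199) (nat_lit 203) (nat_lit 198)) (PT.nd (nat_lit 78) (PT.lf (nat_lit 16492) (nat_lit 6) (nat_lit 217) (nat_lit 2) (nat_lit 200) (nat_lit 203) (nat_lit 197)) (PT.lf (nat_lit 16264) (nat_lit 6) (nat_lit 214) (nat_lit 2) (nat_lit 201) (nat_lit 203) (nat_lit 196)))))) (PT.nd (nat_lit 312) (PT.nd (nat_lit 156) (PT.nd (nat_lit 78) (PT.lf (nat_lit 15960) (nat_lit 6) (nat_lit 210) (nat_lit 2) (nat_lit 202) (nat_lit 203) (nat_lit 195)) (PT.lf (nat_lit 15580) (nat_lit 3) (nat_lit 205) (nat_lit 0) (nat_lit 203) (nat_lit 203) (nat_lit 194))) (PT.nd (nat_lit 78) (PT.lf (nat_lit 15048) (nat_lit 6) (nat_lit 198) (nat_lit 0) (nat_lit 204) (nat_lit 203) (nat_lit 193)) (PT.lf (nat_lit 14440) (nat_lit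 6) (nat_lit 190) (nat_lit 0) (nat_lit 205) (nat_lit 203) (nat_lit 192)))) (PT.nd (nat_lit 156) (PT.nd (nat_lit 78) (PT.lf (nat_lit 13756) (nat_lit 6) (nat_lit 181) (nat_lit 0) (nat_lit 206) (nat_lit 203) (nat_lit 191)) (PT.lf (nat_lit 12996) (nat_lit 6) (nat_lit 171) (nat_lit 0) (nat_lit 207) (nat_lit 203) (nat_lit 190))) (PT.nd (nat_lit 78) (PT.lf (nat_lit 12160) (nat_lit 6) (nat_lit 160) (nat_lit 0) (nat_lit 208) (nat_lit 203) (nat_lit 189)) (PT.nd (nat_lit 78) (PT.lf (nat_lit 11628) (nat_lit 6) (nat_lit 153) (nat_lit 0) (nat_lit 209) (nat_lit 203) (nat_lit 188)) (PT.lf (nat_lit 11172) (nat_lit 6) (nat_lit 147) (nat_lit 0) (nat_lit 210) (nat_lit 203) (nat_lit 187))))))) (PT.nd (nat_lit 60996) (PT.nd (nat_lit 60606) (PT.nd (nat_lit 60450) (PT.nd (nat_lit 60372) (PT.lf (nat_lit 10716) (nat_lit 6) (nat_lit 141) (nat_lit 0) (nat_lit 211) (nat_lit 203) (nat_lit 186)) (PT.lf (nat_lit 10032) (nat_lit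 6) (nat_lit 132) (nat_lit 5) (nat_lit 184) (nat_lit 204) (nat_lit 212))) (PT.nd (nat_lit 78) (PT.lf (nat_lit 10412) (nat_lit 6) (nat_lit 137) (nat_lit 5) (nat_lit 185) (nat_lit 204) (nat_lit 211)) (PT.lf (nat_lit 10792) (nat_lit 6) (nat_lit 142) (nat_lit 5) (nat_lit 186) (nat_lit 204) (nat_lit 210)))) (PT.nd (nat_lit 156) (PT.nd (nat_lit 78) (PT.lf (nat_lit 11248) (nat_lit 6) (nat_lit 148) (nat_lit 5) (nat_lit 187) (nat_lit 204) (nat_lit 209)) (PT.lf (nat_lit 11704) (nat_lit 6) (nat_lit 154) (nat_lit 5) (nat_lit 188) (nat_lit 204) (nat_lit 208))) (PT.nd (nat_lit 78) (PT.lf (nat_lit 12236) (nat_lit 6) (nat_lit 161) (nat_lit 5) (nat_lit 189) (nat_lit 204) (nat_lit 207)) (PT.nd (nat_lit 78) (PT.lf (nat_lit 13072) (nat_lit 6) (nat_lit 172) (nat_lit 5) (nat_lit 190) (nat_lit 204) (nat_lit 206)) (PT.lf (nat_lit 13832) (nat_lit 6) (nat_lit 182) (nat_lit 5) (nat_lit 191) (nat_lit 204) (nat_lit 205))))))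 (PT.nd (nat_lit 390) (PT.nd (nat_lit 156) (PT.nd (nat_lit 78) (PT.lf (nat_lit 14516) (nat_lit 3) (nat_lit 191) (nat_lit 4) (nat_lit 192) (nat_lit 204) (nat_lit 204)) (PT.lf (nat_lit 15048) (nat_lit 6) (nat_lit 198) (nat_lit 4) (nat_lit 193) (nat_lit 204) (nat_lit 203))) (PT.nd (nat_lit 78) (PT.lf (nat_lit 15504) (nat_lit 6) (nat_lit 204) (nat_lit 4) (nat_lit 194) (nat_lit 204) (nat_lit 202)) (PT.nd (nat_lit 78) (PT.lf (nat_lit 15884) (nat_lit 6) (nat_lit 209) (nat_lit 4) (nat_lit 195) (nat_lit 204) (nat_lit 201)) (PT.lf (nat_lit 16188) (nat_lit 6) (nat_lit 213) (nat_lit 4) (nat_lit 196) (nat_lit 204) (nat_lit 200))))) (PT.nd (nat_lit 156) (PT.nd (nat_lit 78) (PT.lf (nat_lit 16112) (nat_lit 6) (nat_lit 212) (nat_lit 4) (nat_lit 197) (nat_lit 204) (nat_lit 199)) (PT.lf (nat_lit 16036) (nat_lit 3) (nat_lit 211) (nat_lit 2) (nat_lit 198) (nat_lit 204) (nat_lit 198))) (PT.nd (nat_lit 78) (PT.lf (nat_lit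 16112) (nat_lit 6) (nat_lit 212) (nat_lit 2) (nat_lit 199) (nat_lit 204) (nat_lit 197)) (PT.nd (nat_lit 78) (PT.lf (nat_lit 16188) (nat_lit 6) (nat_lit 213) (nat_lit 2) (nat_lit 200) (nat_lit 204) (nat_lit 196)) (PT.lf (nat_lit 15884) (nat_lit 6) (nat_lit 209) (nat_lit 2) (nat_lit 201) (nat_lit 204) (nat_lit 195))))))))
noncomputable def pc15 : PT := (PT.nd (nat_lit 61620) (PT.nd (nat_lit 702) (PT.nd (nat_lit 312) (PT.nd (nat_lit 156) (PT.nd (nat_lit 78) (PT.lf (nat_lit 15504) (nat_lit 6) (nat_lit 204) (nat_lit 2) (nat_lit 202) (nat_lit 204) (nat_lit 194)) (PT.lf (nat_lit 15048) (nat_lit 6) (nat_lit 198) (nat_lit 2) (nat_lit 203) (nat_lit 204) (nat_lit 193))) (PT.nd (nat_lit 78) (PT.lf (nat_lit 14516) (nat_lit 3) (nat_lit 191) (nat_lit 0) (nat_lit 204) (nat_lit 204) (nat_lit 192)) (PT.lf (nat_lit 13832) (nat_lit 6) (nat_lit 182) (nat_lit 0) (nat_lit 205) (nat_lit 204) (nat_lit 191)))) (PT.nd (nat_lit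 156) (PT.nd (nat_lit 78) (PT.lf (nat_lit 13072) (nat_lit 6) (nat_lit 172) (nat_lit 0) (nat_lit 206) (nat_lit 204) (nat_lit 190)) (PT.lf (nat_lit 12236) (nat_lit 6) (nat_lit 161) (nat_lit 0) (nat_lit 207) (nat_lit 204) (nat_lit 189))) (PT.nd (nat_lit 78) (PT.lf (nat_lit 11704) (nat_lit 6) (nat_lit 154) (nat_lit 0) (nat_lit 208) (nat_lit 204) (nat_lit 188)) (PT.nd (nat_lit 78) (PT.lf (nat_lit 11248) (nat_lit 6) (nat_lit 148) (nat_lit 0) (nat_lit 209) (nat_lit 204) (nat_lit 187)) (PT.lf (nat_lit 10792) (nat_lit 6) (nat_lit 142) (nat_lit 0) (nat_lit 210) (nat_lit 204) (nat_lit 186)))))) (PT.nd (nat_lit 60528) (PT.nd (nat_lit 60294) (PT.nd (nat_lit 78) (PT.lf (nat_lit 10412) (nat_lit 6) (nat_lit 137) (nat_lit 0) (nat_lit 211) (nat_lit 204) (nat_lit 185)) (PT.lf (nat_lit 10032) (nat_lit 6) (nat_lit 132) (nat_lit 0) (nat_lit 212) (nat_lit 204) (nat_lit 184))) (PT.nd (nat_lit 78) (PT.lf (nat_lit 9728)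 (nat_lit 6) (nat_lit 128) (nat_lit 5) (nat_lit 183) (nat_lit 205) (nat_lit 212)) (PT.nd (nat_lit 78) (PT.lf (nat_lit 10108) (nat_lit 6) (nat_lit 133) (nat_lit 5) (nat_lit 184) (nat_lit 205) (nat_lit 211)) (PT.lf (nat_lit 10488) (nat_lit 6) (nat_lit 138) (nat_lit 5) (nat_lit 185) (nat_lit 205) (nat_lit 210))))) (PT.nd (nat_lit 156) (PT.nd (nat_lit 78) (PT.lf (nat_lit 10868) (nat_lit 6) (nat_lit 143) (nat_lit 5) (nat_lit 186) (nat_lit 205) (nat_lit 209)) (PT.lf (nat_lit 11324) (nat_lit 6) (nat_lit 149) (nat_lit 5) (nat_lit 187) (nat_lit 205) (nat_lit 208))) (PT.nd (nat_lit 78) (PT.lf (nat_lit 11780) (nat_lit 6) (nat_lit 155) (nat_lit 5) (nat_lit 188) (nat_lit 205) (nat_lit 207)) (PT.nd (nat_lit 78) (PT.lf (nat_lit 12312) (nat_lit 6) (nat_lit 162) (nat_lit 5) (nat_lit 189) (nat_lit 205) (nat_lit 206)) (PT.lf (nat_lit 13148) (nat_lit 3) (nat_lit 173) (nat_lit 4) (nat_lit 190) (nat_lit 205) (nat_lit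 205))))))) (PT.nd (nat_lit 702) (PT.nd (nat_lit 312) (PT.nd (nat_lit 156) (PT.nd (nat_lit 78) (PT.lf (nat_lit 13832) (nat_lit 6) (nat_lit 182) (nat_lit 4) (nat_lit 191) (nat_lit 205) (nat_lit 204)) (PT.lf (nat_lit 14440) (nat_lit 6) (nat_lit 190) (nat_lit 4) (nat_lit 192) (nat_lit 205) (nat_lit 203))) (PT.nd (nat_lit 78) (PT.lf (nat_lit 14972) (nat_lit 6) (nat_lit 197) (nat_lit 4) (nat_lit 193) (nat_lit 205) (nat_lit 202)) (PT.lf (nat_lit 15428) (nat_lit 6) (nat_lit 203) (nat_lit 4) (nat_lit 194) (nat_lit 205) (nat_lit 201)))) (PT.nd (nat_lit 156) (PT.nd (nat_lit 78) (PT.lf (nat_lit 15808) (nat_lit 6) (nat_lit 208) (nat_lit 4) (nat_lit 195) (nat_lit 205) (nat_lit 200)) (PT.lf (nat_lit 15732) (nat_lit 6) (nat_lit 207) (nat_lit 4) (nat_lit 196) (nat_lit 205) (nat_lit 199))) (PT.nd (nat_lit 78) (PT.lf (nat_lit 15656) (nat_lit 6) (nat_lit 206) (nat_lit 4) (nat_lit 197) (nat_lit 205) (nat_lit 198))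 (PT.nd (nat_lit 78) (PT.lf (nat_lit 15656) (nat_lit 6) (nat_lit 206) (nat_lit 2) (nat_lit 198) (nat_lit 205) (nat_lit 197)) (PT.lf (nat_lit 15732) (nat_lit 6) (nat_lit 207) (nat_lit 2) (nat_lit 199) (nat_lit 205) (nat_lit 196)))))) (PT.nd (nat_lit 390) (PT.nd (nat_lit 156) (PT.nd (nat_lit 78) (PT.lf (nat_lit 15808) (nat_lit 6) (nat_lit 208) (nat_lit 2) (nat_lit 200) (nat_lit 205) (nat_lit 195)) (PT.lf (nat_lit 15428) (nat_lit 6) (nat_lit 203) (nat_lit 2) (nat_lit 201) (nat_lit 205) (nat_lit 194))) (PT.nd (nat_lit 78) (PT.lf (nat_lit 14972) (nat_lit 6) (nat_lit 197) (nat_lit 2) (nat_lit 202) (nat_lit 205) (nat_lit 193)) (PT.nd (nat_lit 78) (PT.lf (nat_lit 14440) (nat_lit 6) (nat_lit 190) (nat_lit 2) (nat_lit 203) (nat_lit 205) (nat_lit 192)) (PT.lf (nat_lit 13832) (nat_lit 6) (nat_lit 182) (nat_lit 2) (nat_lit 204) (nat_lit 205) (nat_lit 191))))) (PT.nd (nat_lit 156) (PT.nd (nat_lit 78) (PT.lf (nat_lit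 13148) (nat_lit 3) (nat_lit 173) (nat_lit 0) (nat_lit 205) (nat_lit 205) (nat_lit 190)) (PT.lf (nat_lit 12312) (nat_lit 6) (nat_lit 162) (nat_lit 0) (nat_lit 206) (nat_lit 205) (nat_lit 189))) (PT.nd (nat_lit 78) (PT.lf (nat_lit 11780) (nat_lit 6) (nat_lit 155) (nat_lit 0) (nat_lit 207) (nat_lit 205) (nat_lit 188)) (PT.nd (nat_lit 78) (PT.lf (nat_lit 11324) (nat_lit 6) (nat_lit 149) (nat_lit 0) (nat_lit 208) (nat_lit 205) (nat_lit 187)) (PT.lf (nat_lit 10868) (nat_lit 6) (nat_lit 143) (nat_lit 0) (nat_lit 209) (nat_lit 205) (nat_lit 186))))))))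
noncomputable def pc16 : PT := (PT.nd (nat_lit 61386) (PT.nd (nat_lit 60684) (PT.nd (nat_lit 60294) (PT.nd (nat_lit 156) (PT.nd (nat_lit 78) (PT.lf (nat_lit 10488) (nat_lit 6) (nat_lit 138) (nat_lit 0) (nat_lit 210) (nat_lit 205) (nat_lit 185)) (PT.lf (nat_lit 10108) (nat_lit 6) (nat_lit 133) (nat_lit 0) (nat_lit 211) (nat_lit 205) (nat_lit 184))) (PT.nd (nat_lit 60060) (PT.lf (nat_lit 9728) (nat_lit 6) (nat_lit 128) (nat_lit 0) (nat_lit 212) (nat_lit 205) (nat_lit 183)) (PT.lf (nat_lit 9120) (nat_lit 6) (nat_lit 120) (nat_lit 5) (nat_lit 181) (nat_lit 206) (nat_lit 213)))) (PT.nd (nat_lit 156) (PT.nd (nat_lit 78) (PT.lf (nat_lit 9424) (nat_lit 6) (nat_lit 124) (nat_lit 5) (nat_lit 182) (nat_lit 206) (nat_lit 212)) (PT.lf (nat_lit 9804) (nat_lit 6) (nat_lit 129) (nat_lit 5) (nat_lit 183) (nat_lit 206) (nat_lit 211))) (PT.nd (nat_lit 78) (PT.lf (nat_lit 10184) (nat_lit 6) (nat_lit 134) (nat_lit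 5) (nat_lit 184) (nat_lit 206) (nat_lit 210)) (PT.nd (nat_lit 78) (PT.lf (nat_lit 10564) (nat_lit 6) (nat_lit 139) (nat_lit 5) (nat_lit 185) (nat_lit 206) (nat_lit 209)) (PT.lf (nat_lit 10944) (nat_lit 6) (nat_lit 144) (nat_lit 5) (nat_lit 186) (nat_lit 206) (nat_lit 208)))))) (PT.nd (nat_lit 312) (PT.nd (nat_lit 156) (PT.nd (nat_lit 78) (PT.lf (nat_lit 11400) (nat_lit 6) (nat_lit 150) (nat_lit 5) (nat_lit 187) (nat_lit 206) (nat_lit 207)) (PT.lf (nat_lit 11856) (nat_lit 3) (nat_lit 156) (nat_lit 4) (nat_lit 188) (nat_lit 206) (nat_lit 206))) (PT.nd (nat_lit 78) (PT.lf (nat_lit 12312) (nat_lit 6) (nat_lit 162) (nat_lit 4) (nat_lit 189) (nat_lit 206) (nat_lit 205)) (PT.lf (nat_lit 13072) (nat_lit 6) (nat_lit 172) (nat_lit 4) (nat_lit 190) (nat_lit 206) (nat_lit 204)))) (PT.nd (nat_lit 156) (PT.nd (nat_lit 78) (PT.lf (nat_lit 13756) (nat_lit 6) (nat_lit 181) (nat_lit 4) (nat_lit 191) (nat_lit 206)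 (nat_lit 203)) (PT.lf (nat_lit 14364) (nat_lit 6) (nat_lit 189) (nat_lit 4) (nat_lit 192) (nat_lit 206) (nat_lit 202))) (PT.nd (nat_lit 78) (PT.lf (nat_lit 14896) (nat_lit 6) (nat_lit 196) (nat_lit 4) (nat_lit 193) (nat_lit 206) (nat_lit 201)) (PT.nd (nat_lit 78) (PT.lf (nat_lit 15352) (nat_lit 6) (nat_lit 202) (nat_lit 4) (nat_lit 194) (nat_lit 206) (nat_lit 200)) (PT.lf (nat_lit 15276) (nat_lit 6) (nat_lit 201) (nat_lit 4) (nat_lit 195) (nat_lit 206) (nat_lit 199))))))) (PT.nd (nat_lit 702) (PT.nd (nat_lit 312) (PT.nd (nat_lit 156) (PT.nd (nat_lit 78) (PT.lf (nat_lit 15200) (nat_lit 6) (nat_lit 200) (nat_lit 4) (nat_lit 196) (nat_lit 206) (nat_lit 198)) (PT.lf (nat_lit 15124) (nat_lit 3) (nat_lit 199) (nat_lit 2) (nat_lit 197) (nat_lit 206) (nat_lit 197))) (PT.nd (nat_lit 78) (PT.lf (nat_lit 15200) (nat_lit 6) (nat_lit 200) (nat_lit 2) (nat_lit 198) (nat_lit 206) (nat_lit 196)) (PT.lf (nat_lit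 15276) (nat_lit 6) (nat_lit 201) (nat_lit 2) (nat_lit 199) (nat_lit 206) (nat_lit 195)))) (PT.nd (nat_lit 156) (PT.nd (nat_lit 78) (PT.lf (nat_lit 15352) (nat_lit 6) (nat_lit 202) (nat_lit 2) (nat_lit 200) (nat_lit 206) (nat_lit 194)) (PT.lf (nat_lit 14896) (nat_lit 6) (nat_lit 196) (nat_lit 2) (nat_lit 201) (nat_lit 206) (nat_lit 193))) (PT.nd (nat_lit 78) (PT.lf (nat_lit 14364) (nat_lit 6) (nat_lit 189) (nat_lit 2) (nat_lit 202) (nat_lit 206) (nat_lit 192)) (PT.nd (nat_lit 78) (PT.lf (nat_lit 13756) (nat_lit 6) (nat_lit 181) (nat_lit 2) (nat_lit 203) (nat_lit 206) (nat_lit 191)) (PT.lf (nat_lit 13072) (nat_lit 6) (nat_lit 172) (nat_lit 2) (nat_lit 204) (nat_lit 206) (nat_lit 190)))))) (PT.nd (nat_lit 390) (PT.nd (nat_lit 156) (PT.nd (nat_lit 78) (PT.lf (nat_lit 12312) (nat_lit 6) (nat_lit 162) (nat_lit 2) (nat_lit 205) (nat_lit 206) (nat_lit 189)) (PT.lf (nat_lit 11856) (nat_lit 3) (nat_lit 156)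 (nat_lit 0) (nat_lit 206) (nat_lit 206) (nat_lit 188))) (PT.nd (nat_lit 78) (PT.lf (nat_lit 11400) (nat_lit 6) (nat_lit 150) (nat_lit 0) (nat_lit 207) (nat_lit 206) (nat_lit 187)) (PT.nd (nat_lit 78) (PT.lf (nat_lit 10944) (nat_lit 6) (nat_lit 144) (nat_lit 0) (nat_lit 208) (nat_lit 206) (nat_lit 186)) (PT.lf (nat_lit 10564) (nat_lit 6) (nat_lit 139) (nat_lit 0) (nat_lit 209) (nat_lit 206) (nat_lit 185))))) (PT.nd (nat_lit 156) (PT.nd (nat_lit 78) (PT.lf (nat_lit 10184) (nat_lit 6) (nat_lit 134) (nat_lit 0) (nat_lit 210) (nat_lit 206) (nat_lit 184)) (PT.lf (nat_lit 9804) (nat_lit 6) (nat_lit 129) (nat_lit 0) (nat_lit 211) (nat_lit 206) (nat_lit 183))) (PT.nd (nat_lit 78) (PT.lf (nat_lit 9424) (nat_lit 6) (nat_lit 124) (nat_lit 0) (nat_lit 212) (nat_lit 206) (nat_lit 182)) (PT.nd (nat_lit 59904) (PT.lf (nat_lit 9120) (nat_lit 6) (nat_lit 120) (nat_lit 0) (nat_lit 213) (nat_lit 206) (nat_lit 181))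 (PT.lf (nat_lit 8816) (nat_lit 6) (nat_lit 116) (nat_lit 5) (nat_lit 180) (nat_lit 207) (nat_lit 213))))))))
noncomputable def pc17 : PT := (PT.nd (nat_lit 1404) (PT.nd (nat_lit 702) (PT.nd (nat_lit 312) (PT.nd (nat_lit 156) (PT.nd (nat_lit 78) (PT.lf (nat_lit 9196) (nat_lit 6) (nat_lit 121) (nat_lit 5) (nat_lit 181) (nat_lit 207) (nat_lit 212)) (PT.lf (nat_lit 9500) (nat_lit 6) (nat_lit 125) (nat_lit 5) (nat_lit 182) (nat_lit 207) (nat_lit 211))) (PT.nd (nat_lit 78) (PT.lf (nat_lit 9880) (nat_lit 6) (nat_lit 130) (nat_lit 5) (nat_lit 183) (nat_lit 207) (nat_lit 210)) (PT.lf (nat_lit 10260) (nat_lit 6) (nat_lit 135) (nat_lit 5) (nat_lit 184) (nat_lit 207) (nat_lit 209)))) (PT.nd (nat_lit 156) (PT.nd (nat_lit 78) (PT.lf (nat_lit 10640) (nat_lit 6) (nat_lit 140) (nat_lit 5) (nat_lit 185) (nat_lit 207) (nat_lit 208)) (PT.lf (nat_lit 11020) (nat_lit 3) (nat_lit 145) (nat_lit 4) (nat_lit 186) (nat_lit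 207) (nat_lit 207))) (PT.nd (nat_lit 78) (PT.lf (nat_lit 11400) (nat_lit 6) (nat_lit 150) (nat_lit 4) (nat_lit 187) (nat_lit 207) (nat_lit 206)) (PT.nd (nat_lit 78) (PT.lf (nat_lit 11780) (nat_lit 6) (nat_lit 155) (nat_lit 4) (nat_lit 188) (nat_lit 207) (nat_lit 205)) (PT.lf (nat_lit 12236) (nat_lit 6) (nat_lit 161) (nat_lit 4) (nat_lit 189) (nat_lit 207) (nat_lit 204)))))) (PT.nd (nat_lit 312) (PT.nd (nat_lit 156) (PT.nd (nat_lit 78) (PT.lf (nat_lit 12996) (nat_lit 6) (nat_lit 171) (nat_lit 4) (nat_lit 190) (nat_lit 207) (nat_lit 203)) (PT.lf (nat_lit 13680) (nat_lit 6) (nat_lit 180) (nat_lit 4) (nat_lit 191) (nat_lit 207) (nat_lit 202))) (PT.nd (nat_lit 78) (PT.lf (nat_lit 14288) (nat_lit 6) (nat_lit 188) (nat_lit 4) (nat_lit 192) (nat_lit 207) (nat_lit 201)) (PT.lf (nat_lit 14820) (nat_lit 6) (nat_lit 195) (nat_lit 4) (nat_lit 193) (nat_lit 207) (nat_lit 200)))) (PT.nd (nat_lit 156) (PT.nd (nat_lit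 78) (PT.lf (nat_lit 14744) (nat_lit 6) (nat_lit 194) (nat_lit 4) (nat_lit 194) (nat_lit 207) (nat_lit 199)) (PT.lf (nat_lit 14668) (nat_lit 6) (nat_lit 193) (nat_lit 4) (nat_lit 195) (nat_lit 207) (nat_lit 198))) (PT.nd (nat_lit 78) (PT.lf (nat_lit 14592) (nat_lit 6) (nat_lit 192) (nat_lit 4) (nat_lit 196) (nat_lit 207) (nat_lit 197)) (PT.nd (nat_lit 78) (PT.lf (nat_lit 14592) (nat_lit 6) (nat_lit 192) (nat_lit 2) (nat_lit 197) (nat_lit 207) (nat_lit 196)) (PT.lf (nat_lit 14668) (nat_lit 6) (nat_lit 193) (nat_lit 2) (nat_lit 198) (nat_lit 207) (nat_lit 195))))))) (PT.nd (nat_lit 702) (PT.nd (nat_lit 312) (PT.nd (nat_lit 156) (PT.nd (nat_lit 78) (PT.lf (nat_lit 14744) (nat_lit 6) (nat_lit 194) (nat_lit 2) (nat_lit 199) (nat_lit 207) (nat_lit 194)) (PT.lf (nat_lit 14820) (nat_lit 6) (nat_lit 195) (nat_lit 2) (nat_lit 200) (nat_lit 207) (nat_lit 193))) (PT.nd (nat_lit 78) (PT.lf (nat_lit 14288) (nat_lit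 6) (nat_lit 188) (nat_lit 2) (nat_lit 201) (nat_lit 207) (nat_lit 192)) (PT.lf (nat_lit 13680) (nat_lit 6) (nat_lit 180) (nat_lit 2) (nat_lit 202) (nat_lit 207) (nat_lit 191)))) (PT.nd (nat_lit 156) (PT.nd (nat_lit 78) (PT.lf (nat_lit 12996) (nat_lit 6) (nat_lit 171) (nat_lit 2) (nat_lit 203) (nat_lit 207) (nat_lit 190)) (PT.lf (nat_lit 12236) (nat_lit 6) (nat_lit 161) (nat_lit 2) (nat_lit 204) (nat_lit 207) (nat_lit 189))) (PT.nd (nat_lit 78) (PT.lf (nat_lit 11780) (nat_lit 6) (nat_lit 155) (nat_lit 2) (nat_lit 205) (nat_lit 207) (nat_lit 188)) (PT.nd (nat_lit 78) (PT.lf (nat_lit 11400) (nat_lit 6) (nat_lit 150) (nat_lit 2) (nat_lit 206) (nat_lit 207) (nat_lit 187)) (PT.lf (nat_lit 11020) (nat_lit 3) (nat_lit 145) (nat_lit 0) (nat_lit 207) (nat_lit 207) (nat_lit 186)))))) (PT.nd (nat_lit 390) (PT.nd (nat_lit 156) (PT.nd (nat_lit 78) (PT.lf (nat_lit 10640) (nat_lit 6) (nat_lit 140) (nat_lit 0)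 (nat_lit 208) (nat_lit 207) (nat_lit 185)) (PT.lf (nat_lit 10260) (nat_lit 6) (nat_lit 135) (nat_lit 0) (nat_lit 209) (nat_lit 207) (nat_lit 184))) (PT.nd (nat_lit 78) (PT.lf (nat_lit 9880) (nat_lit 6) (nat_lit 130) (nat_lit 0) (nat_lit 210) (nat_lit 207) (nat_lit 183)) (PT.nd (nat_lit 78) (PT.lf (nat_lit 9500) (nat_lit 6) (nat_lit 125) (nat_lit 0) (nat_lit 211) (nat_lit 207) (nat_lit 182)) (PT.lf (nat_lit 9196) (nat_lit 6) (nat_lit 121) (nat_lit 0) (nat_lit 212) (nat_lit 207) (nat_lit 181))))) (PT.nd (nat_lit 59904) (PT.nd (nat_lit 59826) (PT.lf (nat_lit 8816) (nat_lit 6) (nat_lit 116) (nat_lit 0) (nat_lit 213) (nat_lit 207) (nat_lit 180)) (PT.lf (nat_lit 8588) (nat_lit 6) (nat_lit 113) (nat_lit 5) (nat_lit 179) (nat_lit 208) (nat_lit 213))) (PT.nd (nat_lit 78) (PT.lf (nat_lit 8892) (nat_lit 6) (nat_lit 117) (nat_lit 5) (nat_lit 180) (nat_lit 208) (nat_lit 212)) (PT.nd (nat_lit 78) (PT.lf (nat_lit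 9272) (nat_lit 6) (nat_lit 122) (nat_lit 5) (nat_lit 181) (nat_lit 208) (nat_lit 211)) (PT.lf (nat_lit 9576) (nat_lit 6) (nat_lit 126) (nat_lit 5) (nat_lit 182) (nat_lit 208) (nat_lit 210))))))))
noncomputable def pc18 : PT := (PT.nd (nat_lit 1404) (PT.nd (nat_lit 702) (PT.nd (nat_lit 312) (PT.nd (nat_lit 156) (PT.nd (nat_lit 78) (PT.lf (nat_lit 9956) (nat_lit 6) (nat_lit 131) (nat_lit 5) (nat_lit 183) (nat_lit 208) (nat_lit 209)) (PT.lf (nat_lit 10336) (nat_lit 3) (nat_lit 136) (nat_lit 4) (nat_lit 184) (nat_lit 208) (nat_lit 208))) (PT.nd (nat_lit 78) (PT.lf (nat_lit 10640) (nat_lit 6) (nat_lit 140) (nat_lit 4) (nat_lit 185) (nat_lit 208) (nat_lit 207)) (PT.lf (nat_lit 10944) (nat_lit 6) (nat_lit 144) (nat_lit 4) (nat_lit 186) (nat_lit 208) (nat_lit 206)))) (PT.nd (nat_lit 156) (PT.nd (nat_lit 78) (PT.lf (nat_lit 11324) (nat_lit 6) (nat_lit 149) (nat_lit 4) (nat_lit 187) (nat_lit 208) (nat_lit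 205)) (PT.lf (nat_lit 11704) (nat_lit 6) (nat_lit 154) (nat_lit 4) (nat_lit 188) (nat_lit 208) (nat_lit 204))) (PT.nd (nat_lit 78) (PT.lf (nat_lit 12160) (nat_lit 6) (nat_lit 160) (nat_lit 4) (nat_lit 189) (nat_lit 208) (nat_lit 203)) (PT.nd (nat_lit 78) (PT.lf (nat_lit 12920) (nat_lit 6) (nat_lit 170) (nat_lit 4) (nat_lit 190) (nat_lit 208) (nat_lit 202)) (PT.lf (nat_lit 13604) (nat_lit 6) (nat_lit 179) (nat_lit 4) (nat_lit 191) (nat_lit 208) (nat_lit 201)))))) (PT.nd (nat_lit 312) (PT.nd (nat_lit 156) (PT.nd (nat_lit 78) (PT.lf (nat_lit 14212) (nat_lit 6) (nat_lit 187) (nat_lit 4) (nat_lit 192) (nat_lit 208) (nat_lit 200)) (PT.lf (nat_lit 14136) (nat_lit 6) (nat_lit 186) (nat_lit 4) (nat_lit 193) (nat_lit 208) (nat_lit 199))) (PT.nd (nat_lit 78) (PT.lf (nat_lit 14060) (nat_lit 6) (nat_lit 185) (nat_lit 4) (nat_lit 194) (nat_lit 208) (nat_lit 198)) (PT.lf (nat_lit 13984) (nat_lit 6) (nat_lit 184)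 (nat_lit 4) (nat_lit 195) (nat_lit 208) (nat_lit 197)))) (PT.nd (nat_lit 156) (PT.nd (nat_lit 78) (PT.lf (nat_lit 13908) (nat_lit 3) (nat_lit 183) (nat_lit 2) (nat_lit 196) (nat_lit 208) (nat_lit 196)) (PT.lf (nat_lit 13984) (nat_lit 6) (nat_lit 184) (nat_lit 2) (nat_lit 197) (nat_lit 208) (nat_lit 195))) (PT.nd (nat_lit 78) (PT.lf (nat_lit 14060) (nat_lit 6) (nat_lit 185) (nat_lit 2) (nat_lit 198) (nat_lit 208) (nat_lit 194)) (PT.nd (nat_lit 78) (PT.lf (nat_lit 14136) (nat_lit 6) (nat_lit 186) (nat_lit 2) (nat_lit 199) (nat_lit 208) (nat_lit 193)) (PT.lf (nat_lit 14212) (nat_lit 6) (nat_lit 187) (nat_lit 2) (nat_lit 200) (nat_lit 208) (nat_lit 192))))))) (PT.nd (nat_lit 702) (PT.nd (nat_lit 312) (PT.nd (nat_lit 156) (PT.nd (nat_lit 78) (PT.lf (nat_lit 13604) (nat_lit 6) (nat_lit 179) (nat_lit 2) (nat_lit 201) (nat_lit 208) (nat_lit 191)) (PT.lf (nat_lit 12920) (nat_lit 6) (nat_lit 170) (nat_lit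 2) (nat_lit 202) (nat_lit 208) (nat_lit 190))) (PT.nd (nat_lit 78) (PT.lf (nat_lit 12160) (nat_lit 6) (nat_lit 160) (nat_lit 2) (nat_lit 203) (nat_lit 208) (nat_lit 189)) (PT.lf (nat_lit 11704) (nat_lit 6) (nat_lit 154) (nat_lit 2) (nat_lit 204) (nat_lit 208) (nat_lit 188)))) (PT.nd (nat_lit 156) (PT.nd (nat_lit 78) (PT.lf (nat_lit 11324) (nat_lit 6) (nat_lit 149) (nat_lit 2) (nat_lit 205) (nat_lit 208) (nat_lit 187)) (PT.lf (nat_lit 10944) (nat_lit 6) (nat_lit 144) (nat_lit 2) (nat_lit 206) (nat_lit 208) (nat_lit 186))) (PT.nd (nat_lit 78) (PT.lf (nat_lit 10640) (nat_lit 6) (nat_lit 140) (nat_lit 2) (nat_lit 207) (nat_lit 208) (nat_lit 185)) (PT.nd (nat_lit 78) (PT.lf (nat_lit 10336) (nat_lit 3) (nat_lit 136) (nat_lit 0) (nat_lit 208) (nat_lit 208) (nat_lit 184)) (PT.lf (nat_lit 9956) (nat_lit 6) (nat_lit 131) (nat_lit 0) (nat_lit 209) (nat_lit 208) (nat_lit 183)))))) (PT.nd (nat_lit 59982) (PT.nd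 (nat_lit 156) (PT.nd (nat_lit 78) (PT.lf (nat_lit 9576) (nat_lit 6) (nat_lit 126) (nat_lit 0) (nat_lit 210) (nat_lit 208) (nat_lit 182)) (PT.lf (nat_lit 9272) (nat_lit 6) (nat_lit 122) (nat_lit 0) (nat_lit 211) (nat_lit 208) (nat_lit 181))) (PT.nd (nat_lit 78) (PT.lf (nat_lit 8892) (nat_lit 6) (nat_lit 117) (nat_lit 0) (nat_lit 212) (nat_lit 208) (nat_lit 180)) (PT.nd (nat_lit 59670) (PT.lf (nat_lit 8588) (nat_lit 6) (nat_lit 113) (nat_lit 0) (nat_lit 213) (nat_lit 208) (nat_lit 179)) (PT.lf (nat_lit 8132) (nat_lit 6) (nat_lit 107) (nat_lit 5) (nat_lit 177) (nat_lit 209) (nat_lit 214))))) (PT.nd (nat_lit 156) (PT.nd (nat_lit 78) (PT.lf (nat_lit 8360) (nat_lit 6) (nat_lit 110) (nat_lit 5) (nat_lit 178) (nat_lit 209) (nat_lit 213)) (PT.lf (nat_lit 8664) (nat_lit 6) (nat_lit 114) (nat_lit 5) (nat_lit 179) (nat_lit 209) (nat_lit 212))) (PT.nd (nat_lit 78) (PT.lf (nat_lit 8968) (nat_lit 6) (nat_lit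 118) (nat_lit 5) (nat_lit 180) (nat_lit 209) (nat_lit 211)) (PT.nd (nat_lit 78) (PT.lf (nat_lit 9348) (nat_lit 6) (nat_lit 123) (nat_lit 5) (nat_lit 181) (nat_lit 209) (nat_lit 210)) (PT.lf (nat_lit 9652) (nat_lit 3) (nat_lit 127) (nat_lit 4) (nat_lit 182) (nat_lit 209) (nat_lit 209))))))))
noncomputable def pc19 : PT := (PT.nd (nat_lit 1482) (PT.nd (nat_lit 702) (PT.nd (nat_lit 312) (PT.nd (nat_lit 156) (PT.nd (nat_lit 78) (PT.lf (nat_lit 9956) (nat_lit 6) (nat_lit 131) (nat_lit 4) (nat_lit 183) (nat_lit 209) (nat_lit 208)) (PT.lf (nat_lit 10260) (nat_lit 6) (nat_lit 135) (nat_lit 4) (nat_lit 184) (nat_lit 209) (nat_lit 207))) (PT.nd (nat_lit 78) (PT.lf (nat_lit 10564) (nat_lit 6) (nat_lit 139) (nat_lit 4) (nat_lit 185) (nat_lit 209) (nat_lit 206)) (PT.lf (nat_lit 10868) (nat_lit 6) (nat_lit 143) (nat_lit 4) (nat_lit 186) (nat_lit 209) (nat_lit 205)))) (PT.nd (nat_lit 156) (PT.nd (nat_lit 78)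 (PT.lf (nat_lit 11248) (nat_lit 6) (nat_lit 148) (nat_lit 4) (nat_lit 187) (nat_lit 209) (nat_lit 204)) (PT.lf (nat_lit 11628) (nat_lit 6) (nat_lit 153) (nat_lit 4) (nat_lit 188) (nat_lit 209) (nat_lit 203))) (PT.nd (nat_lit 78) (PT.lf (nat_lit 12084) (nat_lit 6) (nat_lit 159) (nat_lit 4) (nat_lit 189) (nat_lit 209) (nat_lit 202)) (PT.nd (nat_lit 78) (PT.lf (nat_lit 12844) (nat_lit 6) (nat_lit 169) (nat_lit 4) (nat_lit 190) (nat_lit 209) (nat_lit 201)) (PT.lf (nat_lit 13528) (nat_lit 6) (nat_lit 178) (nat_lit 4) (nat_lit 191) (nat_lit 209) (nat_lit 200)))))) (PT.nd (nat_lit 390) (PT.nd (nat_lit 156) (PT.nd (nat_lit 78) (PT.lf (nat_lit 13452) (nat_lit 6) (nat_lit 177) (nat_lit 4) (nat_lit 192) (nat_lit 209) (nat_lit 199)) (PT.lf (nat_lit 13376) (nat_lit 6) (nat_lit 176) (nat_lit 4) (nat_lit 193) (nat_lit 209) (nat_lit 198))) (PT.nd (nat_lit 78) (PT.lf (nat_lit 13300) (nat_lit 6) (nat_lit 175) (nat_lit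 4) (nat_lit 194) (nat_lit 209) (nat_lit 197)) (PT.nd (nat_lit 78) (PT.lf (nat_lit 13224) (nat_lit 6) (nat_lit 174) (nat_lit 4) (nat_lit 195) (nat_lit 209) (nat_lit 196)) (PT.lf (nat_lit 13224) (nat_lit 6) (nat_lit 174) (nat_lit 2) (nat_lit 196) (nat_lit 209) (nat_lit 195))))) (PT.nd (nat_lit 156) (PT.nd (nat_lit 78) (PT.lf (nat_lit 13300) (nat_lit 6) (nat_lit 175) (nat_lit 2) (nat_lit 197) (nat_lit 209) (nat_lit 194)) (PT.lf (nat_lit 13376) (nat_lit 6) (nat_lit 176) (nat_lit 2) (nat_lit 198) (nat_lit 209) (nat_lit 193))) (PT.nd (nat_lit 78) (PT.lf (nat_lit 13452) (nat_lit 6) (nat_lit 177) (nat_lit 2) (nat_lit 199) (nat_lit 209) (nat_lit 192)) (PT.nd (nat_lit 78) (PT.lf (nat_lit 13528) (nat_lit 6) (nat_lit 178) (nat_lit 2) (nat_lit 200) (nat_lit 209) (nat_lit 191)) (PT.lf (nat_lit 12844) (nat_lit 6) (nat_lit 169) (nat_lit 2) (nat_lit 201) (nat_lit 209) (nat_lit 190))))))) (PT.nd (nat_lit 702) (PT.nd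 (nat_lit 312) (PT.nd (nat_lit 156) (PT.nd (nat_lit 78) (PT.lf (nat_lit 12084) (nat_lit 6) (nat_lit 159) (nat_lit 2) (nat_lit 202) (nat_lit 209) (nat_lit 189)) (PT.lf (nat_lit 11628) (nat_lit 6) (nat_lit 153) (nat_lit 2) (nat_lit 203) (nat_lit 209) (nat_lit 188))) (PT.nd (nat_lit 78) (PT.lf (nat_lit 11248) (nat_lit 6) (nat_lit 148) (nat_lit 2) (nat_lit 204) (nat_lit 209) (nat_lit 187)) (PT.lf (nat_lit 10868) (nat_lit 6) (nat_lit 143) (nat_lit 2) (nat_lit 205) (nat_lit 209) (nat_lit 186)))) (PT.nd (nat_lit 156) (PT.nd (nat_lit 78) (PT.lf (nat_lit 10564) (nat_lit 6) (nat_lit 139) (nat_lit 2) (nat_lit 206) (nat_lit 209) (nat_lit 185)) (PT.lf (nat_lit 10260) (nat_lit 6) (nat_lit 135) (nat_lit 2) (nat_lit 207) (nat_lit 209) (nat_lit 184))) (PT.nd (nat_lit 78) (PT.lf (nat_lit 9956) (nat_lit 6) (nat_lit 131) (nat_lit 2) (nat_lit 208) (nat_lit 209) (nat_lit 183)) (PT.nd (nat_lit 78) (PT.lf (nat_lit 9652)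 (nat_lit 3) (nat_lit 127) (nat_lit 0) (nat_lit 209) (nat_lit 209) (nat_lit 182)) (PT.lf (nat_lit 9348) (nat_lit 6) (nat_lit 123) (nat_lit 0) (nat_lit 210) (nat_lit 209) (nat_lit 181)))))) (PT.nd (nat_lit 59748) (PT.nd (nat_lit 156) (PT.nd (nat_lit 78) (PT.lf (nat_lit 8968) (nat_lit 6) (nat_lit 118) (nat_lit 0) (nat_lit 211) (nat_lit 209) (nat_lit 180)) (PT.lf (nat_lit 8664) (nat_lit 6) (nat_lit 114) (nat_lit 0) (nat_lit 212) (nat_lit 209) (nat_lit 179))) (PT.nd (nat_lit 78) (PT.lf (nat_lit 8360) (nat_lit 6) (nat_lit 110) (nat_lit 0) (nat_lit 213) (nat_lit 209) (nat_lit 178)) (PT.nd (nat_lit 59436) (PT.lf (nat_lit 8132) (nat_lit 6) (nat_lit 107) (nat_lit 0) (nat_lit 214) (nat_lit 209) (nat_lit 177)) (PT.lf (nat_lit 7676) (nat_lit 6) (nat_lit 101) (nat_lit 5) (nat_lit 175) (nat_lit 210) (nat_lit 215))))) (PT.nd (nat_lit 156) (PT.nd (nat_lit 78) (PT.lf (nat_lit 7904) (nat_lit 6) (nat_lit 104) (nat_lit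 5) (nat_lit 176) (nat_lit 210) (nat_lit 214)) (PT.lf (nat_lit 8208) (nat_lit 6) (nat_lit 108) (nat_lit 5) (nat_lit 177) (nat_lit 210) (nat_lit 213))) (PT.nd (nat_lit 78) (PT.lf (nat_lit 8436) (nat_lit 6) (nat_lit 111) (nat_lit 5) (nat_lit 178) (nat_lit 210) (nat_lit 212)) (PT.nd (nat_lit 78) (PT.lf (nat_lit 8740) (nat_lit 6) (nat_lit 115) (nat_lit 5) (nat_lit 179) (nat_lit 210) (nat_lit 211)) (PT.lf (nat_lit 9044) (nat_lit 3) (nat_lit 119) (nat_lit 4) (nat_lit 180) (nat_lit 210) (nat_lit 210))))))))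
noncomputable def pc20 : PT := (PT.nd (nat_lit 1404) (PT.nd (nat_lit 702) (PT.nd (nat_lit 312) (PT.nd (nat_lit 156) (PT.nd (nat_lit 78) (PT.lf (nat_lit 9348) (nat_lit 6) (nat_lit 123) (nat_lit 4) (nat_lit 181) (nat_lit 210) (nat_lit 209)) (PT.lf (nat_lit 9576) (nat_lit 6) (nat_lit 126) (nat_lit 4) (nat_lit 182) (nat_lit 210) (nat_lit 208))) (PT.nd (nat_lit 78) (PT.lf (nat_lit 9880) (nat_lit 6) (nat_lit 130) (nat_lit 4) (nat_lit 183) (nat_lit 210) (nat_lit 207)) (PT.lf (nat_lit 10184) (nat_lit 6) (nat_lit 134) (nat_lit 4) (nat_lit 184) (nat_lit 210) (nat_lit 206)))) (PT.nd (nat_lit 156) (PT.nd (nat_lit 78) (PT.lf (nat_lit 10488) (nat_lit 6) (nat_lit 138) (nat_lit 4) (nat_lit 185) (nat_lit 210) (nat_lit 205)) (PT.lf (nat_lit 10792) (nat_lit 6) (nat_lit 142) (nat_lit 4) (nat_lit 186) (nat_lit 210) (nat_lit 204))) (PT.nd (nat_lit 78) (PT.lf (nat_lit 11172) (nat_lit 6) (nat_lit 147) (nat_lit 4) (nat_lit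 187) (nat_lit 210) (nat_lit 203)) (PT.nd (nat_lit 78) (PT.lf (nat_lit 11552) (nat_lit 6) (nat_lit 152) (nat_lit 4) (nat_lit 188) (nat_lit 210) (nat_lit 202)) (PT.lf (nat_lit 12008) (nat_lit 6) (nat_lit 158) (nat_lit 4) (nat_lit 189) (nat_lit 210) (nat_lit 201)))))) (PT.nd (nat_lit 312) (PT.nd (nat_lit 156) (PT.nd (nat_lit 78) (PT.lf (nat_lit 12768) (nat_lit 6) (nat_lit 168) (nat_lit 4) (nat_lit 190) (nat_lit 210) (nat_lit 200)) (PT.lf (nat_lit 12692) (nat_lit 6) (nat_lit 167) (nat_lit 4) (nat_lit 191) (nat_lit 210) (nat_lit 199))) (PT.nd (nat_lit 78) (PT.lf (nat_lit 12616) (nat_lit 6) (nat_lit 166) (nat_lit 4) (nat_lit 192) (nat_lit 210) (nat_lit 198)) (PT.lf (nat_lit 12540) (nat_lit 6) (nat_lit 165) (nat_lit 4) (nat_lit 193) (nat_lit 210) (nat_lit 197)))) (PT.nd (nat_lit 156) (PT.nd (nat_lit 78) (PT.lf (nat_lit 12464) (nat_lit 6) (nat_lit 164) (nat_lit 4) (nat_lit 194) (nat_lit 210) (nat_lit 196))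 (PT.lf (nat_lit 12388) (nat_lit 3) (nat_lit 163) (nat_lit 2) (nat_lit 195) (nat_lit 210) (nat_lit 195))) (PT.nd (nat_lit 78) (PT.lf (nat_lit 12464) (nat_lit 6) (nat_lit 164) (nat_lit 2) (nat_lit 196) (nat_lit 210) (nat_lit 194)) (PT.nd (nat_lit 78) (PT.lf (nat_lit 12540) (nat_lit 6) (nat_lit 165) (nat_lit 2) (nat_lit 197) (nat_lit 210) (nat_lit 193)) (PT.lf (nat_lit 12616) (nat_lit 6) (nat_lit 166) (nat_lit 2) (nat_lit 198) (nat_lit 210) (nat_lit 192))))))) (PT.nd (nat_lit 702) (PT.nd (nat_lit 312) (PT.nd (nat_lit 156) (PT.nd (nat_lit 78) (PT.lf (nat_lit 12692) (nat_lit 6) (nat_lit 167) (nat_lit 2) (nat_lit 199) (nat_lit 210) (nat_lit 191)) (PT.lf (nat_lit 12768) (nat_lit 6) (nat_lit 168) (nat_lit 2) (nat_lit 200) (nat_lit 210) (nat_lit 190))) (PT.nd (nat_lit 78) (PT.lf (nat_lit 12008) (nat_lit 6) (nat_lit 158) (nat_lit 2) (nat_lit 201) (nat_lit 210) (nat_lit 189)) (PT.lf (nat_lit 11552) (nat_lit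 6) (nat_lit 152) (nat_lit 2) (nat_lit 202) (nat_lit 210) (nat_lit 188)))) (PT.nd (nat_lit 156) (PT.nd (nat_lit 78) (PT.lf (nat_lit 11172) (nat_lit 6) (nat_lit 147) (nat_lit 2) (nat_lit 203) (nat_lit 210) (nat_lit 187)) (PT.lf (nat_lit 10792) (nat_lit 6) (nat_lit 142) (nat_lit 2) (nat_lit 204) (nat_lit 210) (nat_lit 186))) (PT.nd (nat_lit 78) (PT.lf (nat_lit 10488) (nat_lit 6) (nat_lit 138) (nat_lit 2) (nat_lit 205) (nat_lit 210) (nat_lit 185)) (PT.nd (nat_lit 78) (PT.lf (nat_lit 10184) (nat_lit 6) (nat_lit 134) (nat_lit 2) (nat_lit 206) (nat_lit 210) (nat_lit 184)) (PT.lf (nat_lit 9880) (nat_lit 6) (nat_lit 130) (nat_lit 2) (nat_lit 207) (nat_lit 210) (nat_lit 183)))))) (PT.nd (nat_lit 390) (PT.nd (nat_lit 156) (PT.nd (nat_lit 78) (PT.lf (nat_lit 9576) (nat_lit 6) (nat_lit 126) (nat_lit 2) (nat_lit 208) (nat_lit 210) (nat_lit 182)) (PT.lf (nat_lit 9348) (nat_lit 6) (nat_lit 123) (nat_lit 2) (nat_lit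 209) (nat_lit 210) (nat_lit 181))) (PT.nd (nat_lit 78) (PT.lf (nat_lit 9044) (nat_lit 3) (nat_lit 119) (nat_lit 0) (nat_lit 210) (nat_lit 210) (nat_lit 180)) (PT.nd (nat_lit 78) (PT.lf (nat_lit 8740) (nat_lit 6) (nat_lit 115) (nat_lit 0) (nat_lit 211) (nat_lit 210) (nat_lit 179)) (PT.lf (nat_lit 8436) (nat_lit 6) (nat_lit 111) (nat_lit 0) (nat_lit 212) (nat_lit 210) (nat_lit 178))))) (PT.nd (nat_lit 156) (PT.nd (nat_lit 78) (PT.lf (nat_lit 8208) (nat_lit 6) (nat_lit 108) (nat_lit 0) (nat_lit 213) (nat_lit 210) (nat_lit 177)) (PT.lf (nat_lit 7904) (nat_lit 6) (nat_lit 104) (nat_lit 0) (nat_lit 214) (nat_lit 210) (nat_lit 176))) (PT.nd (nat_lit 59280) (PT.lf (nat_lit 7676) (nat_lit 6) (nat_lit 101) (nat_lit 0) (nat_lit 215) (nat_lit 210) (nat_lit 175)) (PT.nd (nat_lit 78) (PT.lf (nat_lit 7448) (nat_lit 6) (nat_lit 98) (nat_lit 5) (nat_lit 174) (nat_lit 211) (nat_lit 215)) (PT.lf (nat_lit 7752) (nat_lit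 6) (nat_lit 102) (nat_lit 5) (nat_lit 175) (nat_lit 211) (nat_lit 214))))))))
noncomputable def pc21 : PT := (PT.nd (nat_lit 2184) (PT.nd (nat_lit 702) (PT.nd (nat_lit 312) (PT.nd (nat_lit 156) (PT.nd (nat_lit 78) (PT.lf (nat_lit 7980) (nat_lit 6) (nat_lit 105) (nat_lit 5) (nat_lit 176) (nat_lit 211) (nat_lit 213)) (PT.lf (nat_lit 8284) (nat_lit 6) (nat_lit 109) (nat_lit 5) (nat_lit 177) (nat_lit 211) (nat_lit 212))) (PT.nd (nat_lit 78) (PT.lf (nat_lit 8512) (nat_lit 3) (nat_lit 112) (nat_lit 4) (nat_lit 178) (nat_lit 211) (nat_lit 211)) (PT.lf (nat_lit 8740) (nat_lit 6) (nat_lit 115) (nat_lit 4) (nat_lit 179) (nat_lit 211) (nat_lit 210)))) (PT.nd (nat_lit 156) (PT.nd (nat_lit 78) (PT.lf (nat_lit 8968) (nat_lit 6) (nat_lit 118) (nat_lit 4) (nat_lit 180) (nat_lit 211) (nat_lit 209)) (PT.lf (nat_lit 9272) (nat_lit 6) (nat_lit 122) (nat_lit 4) (nat_lit 181) (nat_lit 211) (nat_lit 208))) (PT.nd (nat_lit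 78) (PT.lf (nat_lit 9500) (nat_lit 6) (nat_lit 125) (nat_lit 4) (nat_lit 182) (nat_lit 211) (nat_lit 207)) (PT.nd (nat_lit 78) (PT.lf (nat_lit 9804) (nat_lit 6) (nat_lit 129) (nat_lit 4) (nat_lit 183) (nat_lit 211) (nat_lit 206)) (PT.lf (nat_lit 10108) (nat_lit 6) (nat_lit 133) (nat_lit 4) (nat_lit 184) (nat_lit 211) (nat_lit 205)))))) (PT.nd (nat_lit 312) (PT.nd (nat_lit 156) (PT.nd (nat_lit 78) (PT.lf (nat_lit 10412) (nat_lit 6) (nat_lit 137) (nat_lit 4) (nat_lit 185) (nat_lit 211) (nat_lit 204)) (PT.lf (nat_lit 10716) (nat_lit 6) (nat_lit 141) (nat_lit 4) (nat_lit 186) (nat_lit 211) (nat_lit 203))) (PT.nd (nat_lit 78) (PT.lf (nat_lit 11096) (nat_lit 6) (nat_lit 146) (nat_lit 4) (nat_lit 187) (nat_lit 211) (nat_lit 202)) (PT.lf (nat_lit 11476) (nat_lit 6) (nat_lit 151) (nat_lit 4) (nat_lit 188) (nat_lit 211) (nat_lit 201)))) (PT.nd (nat_lit 936) (PT.nd (nat_lit 858) (PT.lf (nat_lit 11932) (nat_lit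 6) (nat_lit 157) (nat_lit 4) (nat_lit 189) (nat_lit 211) (nat_lit 200)) (PT.lf (nat_lit 11932) (nat_lit 6) (nat_lit 157) (nat_lit 2) (nat_lit 200) (nat_lit 211) (nat_lit 189))) (PT.nd (nat_lit 78) (PT.lf (nat_lit 11476) (nat_lit 6) (nat_lit 151) (nat_lit 2) (nat_lit 201) (nat_lit 211) (nat_lit 188)) (PT.nd (nat_lit 78) (PT.lf (nat_lit 11096) (nat_lit 6) (nat_lit 146) (nat_lit 2) (nat_lit 202) (nat_lit 211) (nat_lit 187)) (PT.lf (nat_lit 10716) (nat_lit 6) (nat_lit 141) (nat_lit 2) (nat_lit 203) (nat_lit 211) (nat_lit 186))))))) (PT.nd (nat_lit 702) (PT.nd (nat_lit 312) (PT.nd (nat_lit 156) (PT.nd (nat_lit 78) (PT.lf (nat_lit 10412) (nat_lit 6) (nat_lit 137) (nat_lit 2) (nat_lit 204) (nat_lit 211) (nat_lit 185)) (PT.lf (nat_lit 10108) (nat_lit 6) (nat_lit 133) (nat_lit 2) (nat_lit 205) (nat_lit 211) (nat_lit 184))) (PT.nd (nat_lit 78) (PT.lf (nat_lit 9804) (nat_lit 6) (nat_lit 129) (nat_lit 2) (nat_lit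 206) (nat_lit 211) (nat_lit 183)) (PT.lf (nat_lit 9500) (nat_lit 6) (nat_lit 125) (nat_lit 2) (nat_lit 207) (nat_lit 211) (nat_lit 182)))) (PT.nd (nat_lit 156) (PT.nd (nat_lit 78) (PT.lf (nat_lit 9272) (nat_lit 6) (nat_lit 122) (nat_lit 2) (nat_lit 208) (nat_lit 211) (nat_lit 181)) (PT.lf (nat_lit 8968) (nat_lit 6) (nat_lit 118) (nat_lit 2) (nat_lit 209) (nat_lit 211) (nat_lit 180))) (PT.nd (nat_lit 78) (PT.lf (nat_lit 8740) (nat_lit 6) (nat_lit 115) (nat_lit 2) (nat_lit 210) (nat_lit 211) (nat_lit 179)) (PT.nd (nat_lit 78) (PT.lf (nat_lit 8512) (nat_lit 3) (nat_lit 112) (nat_lit 0) (nat_lit 211) (nat_lit 211) (nat_lit 178)) (PT.lf (nat_lit 8284) (nat_lit 6) (nat_lit 109) (nat_lit 0) (nat_lit 212) (nat_lit 211) (nat_lit 177)))))) (PT.nd (nat_lit 59436) (PT.nd (nat_lit 156) (PT.nd (nat_lit 78) (PT.lf (nat_lit 7980) (nat_lit 6) (nat_lit 105) (nat_lit 0) (nat_lit 213) (nat_lit 211) (nat_lit 176))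 (PT.lf (nat_lit 7752) (nat_lit 6) (nat_lit 102) (nat_lit 0) (nat_lit 214) (nat_lit 211) (nat_lit 175))) (PT.nd (nat_lit 59124) (PT.lf (nat_lit 7448) (nat_lit 6) (nat_lit 98) (nat_lit 0) (nat_lit 215) (nat_lit 211) (nat_lit 174)) (PT.nd (nat_lit 78) (PT.lf (nat_lit 7068) (nat_lit 6) (nat_lit 93) (nat_lit 5) (nat_lit 172) (nat_lit 212) (nat_lit 216)) (PT.lf (nat_lit 7296) (nat_lit 6) (nat_lit 96) (nat_lit 5) (nat_lit 173) (nat_lit 212) (nat_lit 215))))) (PT.nd (nat_lit 156) (PT.nd (nat_lit 78) (PT.lf (nat_lit 7524) (nat_lit 6) (nat_lit 99) (nat_lit 5) (nat_lit 174) (nat_lit 212) (nat_lit 214)) (PT.lf (nat_lit 7828) (nat_lit 6) (nat_lit 103) (nat_lit 5) (nat_lit 175) (nat_lit 212) (nat_lit 213))) (PT.nd (nat_lit 78) (PT.lf (nat_lit 8056) (nat_lit 3) (nat_lit 106) (nat_lit 4) (nat_lit 176) (nat_lit 212) (nat_lit 212)) (PT.nd (nat_lit 78) (PT.lf (nat_lit 8284) (nat_lit 6) (nat_lit 109) (nat_lit 4) (nat_lit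 177) (nat_lit 212) (nat_lit 211)) (PT.lf (nat_lit 8436) (nat_lit 6) (nat_lit 111) (nat_lit 4) (nat_lit 178) (nat_lit 212) (nat_lit 210))))))))
noncomputable def pc22 : PT := (PT.nd (nat_lit 2886) (PT.nd (nat_lit 2184) (PT.nd (nat_lit 312) (PT.nd (nat_lit 156) (PT.nd (nat_lit 78) (PT.lf (nat_lit 8664) (nat_lit 6) (nat_lit 114) (nat_lit 4) (nat_lit 179) (nat_lit 212) (nat_lit 209)) (PT.lf (nat_lit 8892) (nat_lit 6) (nat_lit 117) (nat_lit 4) (nat_lit 180) (nat_lit 212) (nat_lit 208))) (PT.nd (nat_lit 78) (PT.lf (nat_lit 9196) (nat_lit 6) (nat_lit 121) (nat_lit 4) (nat_lit 181) (nat_lit 212) (nat_lit 207)) (PT.lf (nat_lit 9424) (nat_lit 6) (nat_lit 124) (nat_lit 4) (nat_lit 182) (nat_lit 212) (nat_lit 206)))) (PT.nd (nat_lit 1638) (PT.nd (nat_lit 78) (PT.lf (nat_lit 9728) (nat_lit 6) (nat_lit 128) (nat_lit 4) (nat_lit 183) (nat_lit 212) (nat_lit 205)) (PT.lf (nat_lit 10032) (nat_lit 6) (nat_lit 132)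 (nat_lit 4) (nat_lit 184) (nat_lit 212) (nat_lit 204))) (PT.nd (nat_lit 78) (PT.lf (nat_lit 10032) (nat_lit 6) (nat_lit 132) (nat_lit 2) (nat_lit 204) (nat_lit 212) (nat_lit 184)) (PT.nd (nat_lit 78) (PT.lf (nat_lit 9728) (nat_lit 6) (nat_lit 128) (nat_lit 2) (nat_lit 205) (nat_lit 212) (nat_lit 183)) (PT.lf (nat_lit 9424) (nat_lit 6) (nat_lit 124) (nat_lit 2) (nat_lit 206) (nat_lit 212) (nat_lit 182)))))) (PT.nd (nat_lit 312) (PT.nd (nat_lit 156) (PT.nd (nat_lit 78) (PT.lf (nat_lit 9196) (nat_lit 6) (nat_lit 121) (nat_lit 2) (nat_lit 207) (nat_lit 212) (nat_lit 181)) (PT.lf (nat_lit 8892) (nat_lit 6) (nat_lit 117) (nat_lit 2) (nat_lit 208) (nat_lit 212) (nat_lit 180))) (PT.nd (nat_lit 78) (PT.lf (nat_lit 8664) (nat_lit 6) (nat_lit 114) (nat_lit 2) (nat_lit 209) (nat_lit 212) (nat_lit 179)) (PT.lf (nat_lit 8436) (nat_lit 6) (nat_lit 111) (nat_lit 2) (nat_lit 210) (nat_lit 212) (nat_lit 178))))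 (PT.nd (nat_lit 156) (PT.nd (nat_lit 78) (PT.lf (nat_lit 8284) (nat_lit 6) (nat_lit 109) (nat_lit 2) (nat_lit 211) (nat_lit 212) (nat_lit 177)) (PT.lf (nat_lit 8056) (nat_lit 3) (nat_lit 106) (nat_lit 0) (nat_lit 212) (nat_lit 212) (nat_lit 176))) (PT.nd (nat_lit 78) (PT.lf (nat_lit 7828) (nat_lit 6) (nat_lit 103) (nat_lit 0) (nat_lit 213) (nat_lit 212) (nat_lit 175)) (PT.nd (nat_lit 78) (PT.lf (nat_lit 7524) (nat_lit 6) (nat_lit 99) (nat_lit 0) (nat_lit 214) (nat_lit 212) (nat_lit 174)) (PT.lf (nat_lit 7296) (nat_lit 6) (nat_lit 96) (nat_lit 0) (nat_lit 215) (nat_lit 212) (nat_lit 173))))))) (PT.nd (nat_lit 59514) (PT.nd (nat_lit 59124) (PT.nd (nat_lit 58968) (PT.nd (nat_lit 58890) (PT.lf (nat_lit 7068) (nat_lit 6) (nat_lit 93) (nat_lit 0) (nat_lit 216) (nat_lit 212) (nat_lit 172)) (PT.lf (nat_lit 6688) (nat_lit 6) (nat_lit 88) (nat_lit 5) (nat_lit 170) (nat_lit 213) (nat_lit 217))) (PT.nd (nat_lit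 78) (PT.lf (nat_lit 6916) (nat_lit 6) (nat_lit 91) (nat_lit 5) (nat_lit 171) (nat_lit 213) (nat_lit 216)) (PT.lf (nat_lit 7144) (nat_lit 6) (nat_lit 94) (nat_lit 5) (nat_lit 172) (nat_lit 213) (nat_lit 215)))) (PT.nd (nat_lit 156) (PT.nd (nat_lit 78) (PT.lf (nat_lit 7372) (nat_lit 6) (nat_lit 97) (nat_lit 5) (nat_lit 173) (nat_lit 213) (nat_lit 214)) (PT.lf (nat_lit 7600) (nat_lit 3) (nat_lit 100) (nat_lit 4) (nat_lit 174) (nat_lit 213) (nat_lit 213))) (PT.nd (nat_lit 78) (PT.lf (nat_lit 7828) (nat_lit 6) (nat_lit 103) (nat_lit 4) (nat_lit 175) (nat_lit 213) (nat_lit 212)) (PT.nd (nat_lit 78) (PT.lf (nat_lit 7980) (nat_lit 6) (nat_lit 105) (nat_lit 4) (nat_lit 176) (nat_lit 213) (nat_lit 211)) (PT.lf (nat_lit 8208) (nat_lit 6) (nat_lit 108) (nat_lit 4) (nat_lit 177) (nat_lit 213) (nat_lit 210)))))) (PT.nd (nat_lit 2262) (PT.nd (nat_lit 156) (PT.nd (nat_lit 78) (PT.lf (nat_lit 8360) (nat_lit 6)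 (nat_lit 110) (nat_lit 4) (nat_lit 178) (nat_lit 213) (nat_lit 209)) (PT.lf (nat_lit 8588) (nat_lit 6) (nat_lit 113) (nat_lit 4) (nat_lit 179) (nat_lit 213) (nat_lit 208))) (PT.nd (nat_lit 78) (PT.lf (nat_lit 8816) (nat_lit 6) (nat_lit 116) (nat_lit 4) (nat_lit 180) (nat_lit 213) (nat_lit 207)) (PT.nd (nat_lit 1950) (PT.lf (nat_lit 9120) (nat_lit 6) (nat_lit 120) (nat_lit 4) (nat_lit 181) (nat_lit 213) (nat_lit 206)) (PT.lf (nat_lit 9120) (nat_lit 6) (nat_lit 120) (nat_lit 2) (nat_lit 206) (nat_lit 213) (nat_lit 181))))) (PT.nd (nat_lit 156) (PT.nd (nat_lit 78) (PT.lf (nat_lit 8816) (nat_lit 6) (nat_lit 116) (nat_lit 2) (nat_lit 207) (nat_lit 213) (nat_lit 180)) (PT.lf (nat_lit 8588) (nat_lit 6) (nat_lit 113) (nat_lit 2) (nat_lit 208) (nat_lit 213) (nat_lit 179))) (PT.nd (nat_lit 78) (PT.lf (nat_lit 8360) (nat_lit 6) (nat_lit 110) (nat_lit 2) (nat_lit 209) (nat_lit 213) (nat_lit 178)) (PT.nd (nat_lit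 78) (PT.lf (nat_lit 8208) (nat_lit 6) (nat_lit 108) (nat_lit 2) (nat_lit 210) (nat_lit 213) (nat_lit 177)) (PT.lf (nat_lit 7980) (nat_lit 6) (nat_lit 105) (nat_lit 2) (nat_lit 211) (nat_lit 213) (nat_lit 176))))))))
noncomputable def pc23 : PT := (PT.nd (nat_lit 62556) (PT.nd (nat_lit 59358) (PT.nd (nat_lit 312) (PT.nd (nat_lit 156) (PT.nd (nat_lit 78) (PT.lf (nat_lit 7828) (nat_lit 6) (nat_lit 103) (nat_lit 2) (nat_lit 212) (nat_lit 213) (nat_lit 175)) (PT.lf (nat_lit 7600) (nat_lit 3) (nat_lit 100) (nat_lit 0) (nat_lit 213) (nat_lit 213) (nat_lit 174))) (PT.nd (nat_lit 78) (PT.lf (nat_lit 7372) (nat_lit 6) (nat_lit 97) (nat_lit 0) (nat_lit 214) (nat_lit 213) (nat_lit 173)) (PT.lf (nat_lit 7144) (nat_lit 6) (nat_lit 94) (nat_lit 0) (nat_lit 215) (nat_lit 213) (nat_lit 172)))) (PT.nd (nat_lit 58812) (PT.nd (nat_lit 78) (PT.lf (nat_lit 6916) (nat_lit 6) (nat_lit 91) (nat_lit 0) (nat_lit 216) (nat_lit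 213) (nat_lit 171)) (PT.lf (nat_lit 6688) (nat_lit 6) (nat_lit 88) (nat_lit 0) (nat_lit 217) (nat_lit 213) (nat_lit 170))) (PT.nd (nat_lit 78) (PT.lf (nat_lit 6536) (nat_lit 6) (nat_lit 86) (nat_lit 5) (nat_lit 169) (nat_lit 214) (nat_lit 217)) (PT.nd (nat_lit 78) (PT.lf (nat_lit 6764) (nat_lit 6) (nat_lit 89) (nat_lit 5) (nat_lit 170) (nat_lit 214) (nat_lit 216)) (PT.lf (nat_lit 6992) (nat_lit 6) (nat_lit 92) (nat_lit 5) (nat_lit 171) (nat_lit 214) (nat_lit 215)))))) (PT.nd (nat_lit 390) (PT.nd (nat_lit 156) (PT.nd (nat_lit 78) (PT.lf (nat_lit 7220) (nat_lit 3) (nat_lit 95) (nat_lit 4) (nat_lit 172) (nat_lit 214) (nat_lit 214)) (PT.lf (nat_lit 7372) (nat_lit 6) (nat_lit 97) (nat_lit 4) (nat_lit 173) (nat_lit 214) (nat_lit 213))) (PT.nd (nat_lit 78) (PT.lf (nat_lit 7524) (nat_lit 6) (nat_lit 99) (nat_lit 4) (nat_lit 174) (nat_lit 214) (nat_lit 212)) (PT.nd (nat_lit 78) (PT.lf (nat_lit 7752) (nat_lit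 6) (nat_lit 102) (nat_lit 4) (nat_lit 175) (nat_lit 214) (nat_lit 211)) (PT.lf (nat_lit 7904) (nat_lit 6) (nat_lit 104) (nat_lit 4) (nat_lit 176) (nat_lit 214) (nat_lit 210))))) (PT.nd (nat_lit 2574) (PT.nd (nat_lit 2496) (PT.lf (nat_lit 8132) (nat_lit 6) (nat_lit 107) (nat_lit 4) (nat_lit 177) (nat_lit 214) (nat_lit 209)) (PT.lf (nat_lit 8132) (nat_lit 6) (nat_lit 107) (nat_lit 2) (nat_lit 209) (nat_lit 214) (nat_lit 177))) (PT.nd (nat_lit 78) (PT.lf (nat_lit 7904) (nat_lit 6) (nat_lit 104) (nat_lit 2) (nat_lit 210) (nat_lit 214) (nat_lit 176)) (PT.nd (nat_lit 78) (PT.lf (nat_lit 7752) (nat_lit 6) (nat_lit 102) (nat_lit 2) (nat_lit 211) (nat_lit 214) (nat_lit 175)) (PT.lf (nat_lit 7524) (nat_lit 6) (nat_lit 99) (nat_lit 2) (nat_lit 212) (nat_lit 214) (nat_lit 174))))))) (PT.nd (nat_lit 59202) (PT.nd (nat_lit 312) (PT.nd (nat_lit 156) (PT.nd (nat_lit 78) (PT.lf (nat_lit 7372) (nat_lit 6) (nat_lit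 97) (nat_lit 2) (nat_lit 213) (nat_lit 214) (nat_lit 173)) (PT.lf (nat_lit 7220) (nat_lit 3) (nat_lit 95) (nat_lit 0) (nat_lit 214) (nat_lit 214) (nat_lit 172))) (PT.nd (nat_lit 78) (PT.lf (nat_lit 6992) (nat_lit 6) (nat_lit 92) (nat_lit 0) (nat_lit 215) (nat_lit 214) (nat_lit 171)) (PT.lf (nat_lit 6764) (nat_lit 6) (nat_lit 89) (nat_lit 0) (nat_lit 216) (nat_lit 214) (nat_lit 170)))) (PT.nd (nat_lit 58656) (PT.nd (nat_lit 58578) (PT.lf (nat_lit 6536) (nat_lit 6) (nat_lit 86) (nat_lit 0) (nat_lit 217) (nat_lit 214) (nat_lit 169)) (PT.lf (nat_lit 6232) (nat_lit 6) (nat_lit 82) (nat_lit 5) (nat_lit 167) (nat_lit 215) (nat_lit 218))) (PT.nd (nat_lit 78) (PT.lf (nat_lit 6384) (nat_lit 6) (nat_lit 84) (nat_lit 5) (nat_lit 168) (nat_lit 215) (nat_lit 217)) (PT.nd (nat_lit 78) (PT.lf (nat_lit 6612) (nat_lit 6) (nat_lit 87) (nat_lit 5) (nat_lit 169) (nat_lit 215) (nat_lit 216)) (PT.lf (nat_lit 6840) (nat_lit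 3) (nat_lit 90) (nat_lit 4) (nat_lit 170) (nat_lit 215) (nat_lit 215)))))) (PT.nd (nat_lit 3042) (PT.nd (nat_lit 156) (PT.nd (nat_lit 78) (PT.lf (nat_lit 6992) (nat_lit 6) (nat_lit 92) (nat_lit 4) (nat_lit 171) (nat_lit 215) (nat_lit 214)) (PT.lf (nat_lit 7144) (nat_lit 6) (nat_lit 94) (nat_lit 4) (nat_lit 172) (nat_lit 215) (nat_lit 213))) (PT.nd (nat_lit 78) (PT.lf (nat_lit 7296) (nat_lit 6) (nat_lit 96) (nat_lit 4) (nat_lit 173) (nat_lit 215) (nat_lit 212)) (PT.nd (nat_lit 78) (PT.lf (nat_lit 7448) (nat_lit 6) (nat_lit 98) (nat_lit 4) (nat_lit 174) (nat_lit 215) (nat_lit 211)) (PT.lf (nat_lit 7676) (nat_lit 6) (nat_lit 101) (nat_lit 4) (nat_lit 175) (nat_lit 215) (nat_lit 210))))) (PT.nd (nat_lit 156) (PT.nd (nat_lit 78) (PT.lf (nat_lit 7676) (nat_lit 6) (nat_lit 101) (nat_lit 2) (nat_lit 210) (nat_lit 215) (nat_lit 175)) (PT.lf (nat_lit 7448) (nat_lit 6) (nat_lit 98) (nat_lit 2) (nat_lit 211)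 (nat_lit 215) (nat_lit 174))) (PT.nd (nat_lit 78) (PT.lf (nat_lit 7296) (nat_lit 6) (nat_lit 96) (nat_lit 2) (nat_lit 212) (nat_lit 215) (nat_lit 173)) (PT.nd (nat_lit 78) (PT.lf (nat_lit 7144) (nat_lit 6) (nat_lit 94) (nat_lit 2) (nat_lit 213) (nat_lit 215) (nat_lit 172)) (PT.lf (nat_lit 6992) (nat_lit 6) (nat_lit 92) (nat_lit 2) (nat_lit 214) (nat_lit 215) (nat_lit 171))))))))
noncomputable def pc24 : PT := (PT.nd (nat_lit 62712) (PT.nd (nat_lit 58968) (PT.nd (nat_lit 58578) (PT.nd (nat_lit 156) (PT.nd (nat_lit 78) (PT.lf (nat_lit 6840) (nat_lit 3) (nat_lit 90) (nat_lit 0) (nat_lit 215) (nat_lit 215) (nat_lit 170)) (PT.lf (nat_lit 6612) (nat_lit 6) (nat_lit 87) (nat_lit 0) (nat_lit 216) (nat_lit 215) (nat_lit 169))) (PT.nd (nat_lit 78) (PT.lf (nat_lit 6384) (nat_lit 6) (nat_lit 84) (nat_lit 0) (nat_lit 217) (nat_lit 215) (nat_lit 168)) (PT.lf (nat_lit 6232) (nat_lit 6) (nat_lit 82) (nat_lit 0)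 (nat_lit 218) (nat_lit 215) (nat_lit 167)))) (PT.nd (nat_lit 156) (PT.nd (nat_lit 78) (PT.lf (nat_lit 5928) (nat_lit 6) (nat_lit 78) (nat_lit 5) (nat_lit 165) (nat_lit 216) (nat_lit 219)) (PT.lf (nat_lit 6080) (nat_lit 6) (nat_lit 80) (nat_lit 5) (nat_lit 166) (nat_lit 216) (nat_lit 218))) (PT.nd (nat_lit 78) (PT.lf (nat_lit 6308) (nat_lit 6) (nat_lit 83) (nat_lit 5) (nat_lit 167) (nat_lit 216) (nat_lit 217)) (PT.nd (nat_lit 78) (PT.lf (nat_lit 6460) (nat_lit 3) (nat_lit 85) (nat_lit 4) (nat_lit 168) (nat_lit 216) (nat_lit 216)) (PT.lf (nat_lit 6612) (nat_lit 6) (nat_lit 87) (nat_lit 4) (nat_lit 169) (nat_lit 216) (nat_lit 215)))))) (PT.nd (nat_lit 3354) (PT.nd (nat_lit 156) (PT.nd (nat_lit 78) (PT.lf (nat_lit 6764) (nat_lit 6) (nat_lit 89) (nat_lit 4) (nat_lit 170) (nat_lit 216) (nat_lit 214)) (PT.lf (nat_lit 6916) (nat_lit 6) (nat_lit 91) (nat_lit 4) (nat_lit 171) (nat_lit 216) (nat_lit 213)))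 (PT.nd (nat_lit 3120) (PT.lf (nat_lit 7068) (nat_lit 6) (nat_lit 93) (nat_lit 4) (nat_lit 172) (nat_lit 216) (nat_lit 212)) (PT.lf (nat_lit 7068) (nat_lit 6) (nat_lit 93) (nat_lit 2) (nat_lit 212) (nat_lit 216) (nat_lit 172)))) (PT.nd (nat_lit 156) (PT.nd (nat_lit 78) (PT.lf (nat_lit 6916) (nat_lit 6) (nat_lit 91) (nat_lit 2) (nat_lit 213) (nat_lit 216) (nat_lit 171)) (PT.lf (nat_lit 6764) (nat_lit 6) (nat_lit 89) (nat_lit 2) (nat_lit 214) (nat_lit 216) (nat_lit 170))) (PT.nd (nat_lit 78) (PT.lf (nat_lit 6612) (nat_lit 6) (nat_lit 87) (nat_lit 2) (nat_lit 215) (nat_lit 216) (nat_lit 169)) (PT.nd (nat_lit 78) (PT.lf (nat_lit 6460) (nat_lit 3) (nat_lit 85) (nat_lit 0) (nat_lit 216) (nat_lit 216) (nat_lit 168)) (PT.lf (nat_lit 6308) (nat_lit 6) (nat_lit 83) (nat_lit 0) (nat_lit 217) (nat_lit 216) (nat_lit 167))))))) (PT.nd (nat_lit 58734) (PT.nd (nat_lit 58344) (PT.nd (nat_lit 58188) (PT.nd (nat_lit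 78) (PT.lf (nat_lit 6080) (nat_lit 6) (nat_lit 80) (nat_lit 0) (nat_lit 218) (nat_lit 216) (nat_lit 166)) (PT.lf (nat_lit 5928) (nat_lit 6) (nat_lit 78) (nat_lit 0) (nat_lit 219) (nat_lit 216) (nat_lit 165))) (PT.nd (nat_lit 78) (PT.lf (nat_lit 5624) (nat_lit 6) (nat_lit 74) (nat_lit 5) (nat_lit 163) (nat_lit 217) (nat_lit 220)) (PT.lf (nat_lit 5776) (nat_lit 6) (nat_lit 76) (nat_lit 5) (nat_lit 164) (nat_lit 217) (nat_lit 219)))) (PT.nd (nat_lit 156) (PT.nd (nat_lit 78) (PT.lf (nat_lit 6004) (nat_lit 6) (nat_lit 79) (nat_lit 5) (nat_lit 165) (nat_lit 217) (nat_lit 218)) (PT.lf (nat_lit 6156) (nat_lit 3) (nat_lit 81) (nat_lit 4) (nat_lit 166) (nat_lit 217) (nat_lit 217))) (PT.nd (nat_lit 78) (PT.lf (nat_lit 6308) (nat_lit 6) (nat_lit 83) (nat_lit 4) (nat_lit 167) (nat_lit 217) (nat_lit 216)) (PT.nd (nat_lit 78) (PT.lf (nat_lit 6384) (nat_lit 6) (nat_lit 84) (nat_lit 4) (nat_lit 168) (nat_lit 217)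 (nat_lit 215)) (PT.lf (nat_lit 6536) (nat_lit 6) (nat_lit 86) (nat_lit 4) (nat_lit 169) (nat_lit 217) (nat_lit 214)))))) (PT.nd (nat_lit 3666) (PT.nd (nat_lit 3432) (PT.nd (nat_lit 3354) (PT.lf (nat_lit 6688) (nat_lit 6) (nat_lit 88) (nat_lit 4) (nat_lit 170) (nat_lit 217) (nat_lit 213)) (PT.lf (nat_lit 6688) (nat_lit 6) (nat_lit 88) (nat_lit 2) (nat_lit 213) (nat_lit 217) (nat_lit 170))) (PT.nd (nat_lit 78) (PT.lf (nat_lit 6536) (nat_lit 6) (nat_lit 86) (nat_lit 2) (nat_lit 214) (nat_lit 217) (nat_lit 169)) (PT.nd (nat_lit 78) (PT.lf (nat_lit 6384) (nat_lit 6) (nat_lit 84) (nat_lit 2) (nat_lit 215) (nat_lit 217) (nat_lit 168)) (PT.lf (nat_lit 6308) (nat_lit 6) (nat_lit 83) (nat_lit 2) (nat_lit 216) (nat_lit 217) (nat_lit 167))))) (PT.nd (nat_lit 156) (PT.nd (nat_lit 78) (PT.lf (nat_lit 6156) (nat_lit 3) (nat_lit 81) (nat_lit 0) (nat_lit 217) (nat_lit 217) (nat_lit 166)) (PT.lf (nat_lit 6004) (nat_lit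 6) (nat_lit 79) (nat_lit 0) (nat_lit 218) (nat_lit 217) (nat_lit 165))) (PT.nd (nat_lit 78) (PT.lf (nat_lit 5776) (nat_lit 6) (nat_lit 76) (nat_lit 0) (nat_lit 219) (nat_lit 217) (nat_lit 164)) (PT.nd (nat_lit 57876) (PT.lf (nat_lit 5624) (nat_lit 6) (nat_lit 74) (nat_lit 0) (nat_lit 220) (nat_lit 217) (nat_lit 163)) (PT.lf (nat_lit 5320) (nat_lit 6) (nat_lit 70) (nat_lit 5) (nat_lit 161) (nat_lit 218) (nat_lit 221))))))))
noncomputable def pc25 : PT := (PT.nd (nat_lit 62712) (PT.nd (nat_lit 4368) (PT.nd (nat_lit 312) (PT.nd (nat_lit 156) (PT.nd (nat_lit 78) (PT.lf (nat_lit 5472) (nat_lit 6) (nat_lit 72) (nat_lit 5) (nat_lit 162) (nat_lit 218) (nat_lit 220)) (PT.lf (nat_lit 5700) (nat_lit 6) (nat_lit 75) (nat_lit 5) (nat_lit 163) (nat_lit 218) (nat_lit 219))) (PT.nd (nat_lit 78) (PT.lf (nat_lit 5852) (nat_lit 3) (nat_lit 77) (nat_lit 4) (nat_lit 164) (nat_lit 218) (nat_lit 218)) (PT.lf (nat_lit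 6004) (nat_lit 6) (nat_lit 79) (nat_lit 4) (nat_lit 165) (nat_lit 218) (nat_lit 217)))) (PT.nd (nat_lit 3822) (PT.nd (nat_lit 78) (PT.lf (nat_lit 6080) (nat_lit 6) (nat_lit 80) (nat_lit 4) (nat_lit 166) (nat_lit 218) (nat_lit 216)) (PT.lf (nat_lit 6232) (nat_lit 6) (nat_lit 82) (nat_lit 4) (nat_lit 167) (nat_lit 218) (nat_lit 215))) (PT.nd (nat_lit 78) (PT.lf (nat_lit 6232) (nat_lit 6) (nat_lit 82) (nat_lit 2) (nat_lit 215) (nat_lit 218) (nat_lit 167)) (PT.nd (nat_lit 78) (PT.lf (nat_lit 6080) (nat_lit 6) (nat_lit 80) (nat_lit 2) (nat_lit 216) (nat_lit 218) (nat_lit 166)) (PT.lf (nat_lit 6004) (nat_lit 6) (nat_lit 79) (nat_lit 2) (nat_lit 217) (nat_lit 218) (nat_lit 165)))))) (PT.nd (nat_lit 57954) (PT.nd (nat_lit 156) (PT.nd (nat_lit 78) (PT.lf (nat_lit 5852) (nat_lit 3) (nat_lit 77) (nat_lit 0) (nat_lit 218) (nat_lit 218) (nat_lit 164)) (PT.lf (nat_lit 5700) (nat_lit 6) (nat_lit 75) (nat_lit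 0) (nat_lit 219) (nat_lit 218) (nat_lit 163))) (PT.nd (nat_lit 78) (PT.lf (nat_lit 5472) (nat_lit 6) (nat_lit 72) (nat_lit 0) (nat_lit 220) (nat_lit 218) (nat_lit 162)) (PT.lf (nat_lit 5320) (nat_lit 6) (nat_lit 70) (nat_lit 0) (nat_lit 221) (nat_lit 218) (nat_lit 161)))) (PT.nd (nat_lit 156) (PT.nd (nat_lit 78) (PT.lf (nat_lit 5168) (nat_lit 6) (nat_lit 68) (nat_lit 5) (nat_lit 160) (nat_lit 219) (nat_lit 221)) (PT.lf (nat_lit 5396) (nat_lit 6) (nat_lit 71) (nat_lit 5) (nat_lit 161) (nat_lit 219) (nat_lit 220))) (PT.nd (nat_lit 78) (PT.lf (nat_lit 5548) (nat_lit 3) (nat_lit 73) (nat_lit 4) (nat_lit 162) (nat_lit 219) (nat_lit 219)) (PT.nd (nat_lit 78) (PT.lf (nat_lit 5700) (nat_lit 6) (nat_lit 75) (nat_lit 4) (nat_lit 163) (nat_lit 219) (nat_lit 218)) (PT.lf (nat_lit 5776) (nat_lit 6) (nat_lit 76) (nat_lit 4) (nat_lit 164) (nat_lit 219) (nat_lit 217))))))) (PT.nd (nat_lit 62088) (PT.nd (nat_lit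 4212) (PT.nd (nat_lit 4056) (PT.nd (nat_lit 3978) (PT.lf (nat_lit 5928) (nat_lit 6) (nat_lit 78) (nat_lit 4) (nat_lit 165) (nat_lit 219) (nat_lit 216)) (PT.lf (nat_lit 5928) (nat_lit 6) (nat_lit 78) (nat_lit 2) (nat_lit 216) (nat_lit 219) (nat_lit 165))) (PT.nd (nat_lit 78) (PT.lf (nat_lit 5776) (nat_lit 6) (nat_lit 76) (nat_lit 2) (nat_lit 217) (nat_lit 219) (nat_lit 164)) (PT.lf (nat_lit 5700) (nat_lit 6) (nat_lit 75) (nat_lit 2) (nat_lit 218) (nat_lit 219) (nat_lit 163)))) (PT.nd (nat_lit 156) (PT.nd (nat_lit 78) (PT.lf (nat_lit 5548) (nat_lit 3) (nat_lit 73) (nat_lit 0) (nat_lit 219) (nat_lit 219) (nat_lit 162)) (PT.lf (nat_lit 5396) (nat_lit 6) (nat_lit 71) (nat_lit 0) (nat_lit 220) (nat_lit 219) (nat_lit 161))) (PT.nd (nat_lit 57564) (PT.lf (nat_lit 5168) (nat_lit 6) (nat_lit 68) (nat_lit 0) (nat_lit 221) (nat_lit 219) (nat_lit 160)) (PT.nd (nat_lit 78) (PT.lf (nat_lit 4940) (nat_lit 6) (nat_lit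 65) (nat_lit 5) (nat_lit 158) (nat_lit 220) (nat_lit 222)) (PT.lf (nat_lit 5092) (nat_lit 6) (nat_lit 67) (nat_lit 5) (nat_lit 159) (nat_lit 220) (nat_lit 221)))))) (PT.nd (nat_lit 4524) (PT.nd (nat_lit 156) (PT.nd (nat_lit 78) (PT.lf (nat_lit 5244) (nat_lit 3) (nat_lit 69) (nat_lit 4) (nat_lit 160) (nat_lit 220) (nat_lit 220)) (PT.lf (nat_lit 5396) (nat_lit 6) (nat_lit 71) (nat_lit 4) (nat_lit 161) (nat_lit 220) (nat_lit 219))) (PT.nd (nat_lit 78) (PT.lf (nat_lit 5472) (nat_lit 6) (nat_lit 72) (nat_lit 4) (nat_lit 162) (nat_lit 220) (nat_lit 218)) (PT.nd (nat_lit 4212) (PT.lf (nat_lit 5624) (nat_lit 6) (nat_lit 74) (nat_lit 4) (nat_lit 163) (nat_lit 220) (nat_lit 217)) (PT.lf (nat_lit 5624) (nat_lit 6) (nat_lit 74) (nat_lit 2) (nat_lit 217) (nat_lit 220) (nat_lit 163))))) (PT.nd (nat_lit 156) (PT.nd (nat_lit 78) (PT.lf (nat_lit 5472) (nat_lit 6) (nat_lit 72) (nat_lit 2) (nat_lit 218) (nat_lit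 220) (nat_lit 162)) (PT.lf (nat_lit 5396) (nat_lit 6) (nat_lit 71) (nat_lit 2) (nat_lit 219) (nat_lit 220) (nat_lit 161))) (PT.nd (nat_lit 78) (PT.lf (nat_lit 5244) (nat_lit 3) (nat_lit 69) (nat_lit 0) (nat_lit 220) (nat_lit 220) (nat_lit 160)) (PT.nd (nat_lit 78) (PT.lf (nat_lit 5092) (nat_lit 6) (nat_lit 67) (nat_lit 0) (nat_lit 221) (nat_lit 220) (nat_lit 159)) (PT.lf (nat_lit 4940) (nat_lit 6) (nat_lit 65) (nat_lit 0) (nat_lit 222) (nat_lit 220) (nat_lit 158))))))))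
noncomputable def pc26 : PT := (PT.nd (nat_lit 67548) (PT.nd (nat_lit 5070) (PT.nd (nat_lit 312) (PT.nd (nat_lit 156) (PT.nd (nat_lit 78) (PT.lf (nat_lit 4712) (nat_lit 6) (nat_lit 62) (nat_lit 5) (nat_lit 156) (nat_lit 221) (nat_lit 223)) (PT.lf (nat_lit 4864) (nat_lit 6) (nat_lit 64) (nat_lit 5) (nat_lit 157) (nat_lit 221) (nat_lit 222))) (PT.nd (nat_lit 78) (PT.lf (nat_lit 5016) (nat_lit 3) (nat_lit 66) (nat_lit 4) (nat_lit 158) (nat_lit 221) (nat_lit 221)) (PT.lf (nat_lit 5092) (nat_lit 6) (nat_lit 67) (nat_lit 4) (nat_lit 159) (nat_lit 221) (nat_lit 220)))) (PT.nd (nat_lit 4524) (PT.nd (nat_lit 78) (PT.lf (nat_lit 5168) (nat_lit 6) (nat_lit 68) (nat_lit 4) (nat_lit 160) (nat_lit 221) (nat_lit 219)) (PT.lf (nat_lit 5320) (nat_lit 6) (nat_lit 70) (nat_lit 4) (nat_lit 161) (nat_lit 221) (nat_lit 218))) (PT.nd (nat_lit 78) (PT.lf (nat_lit 5320) (nat_lit 6) (nat_lit 70) (nat_lit 2) (nat_lit 218)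 (nat_lit 221) (nat_lit 161)) (PT.nd (nat_lit 78) (PT.lf (nat_lit 5168) (nat_lit 6) (nat_lit 68) (nat_lit 2) (nat_lit 219) (nat_lit 221) (nat_lit 160)) (PT.lf (nat_lit 5092) (nat_lit 6) (nat_lit 67) (nat_lit 2) (nat_lit 220) (nat_lit 221) (nat_lit 159)))))) (PT.nd (nat_lit 57330) (PT.nd (nat_lit 156) (PT.nd (nat_lit 78) (PT.lf (nat_lit 5016) (nat_lit 3) (nat_lit 66) (nat_lit 0) (nat_lit 221) (nat_lit 221) (nat_lit 158)) (PT.lf (nat_lit 4864) (nat_lit 6) (nat_lit 64) (nat_lit 0) (nat_lit 222) (nat_lit 221) (nat_lit 157))) (PT.nd (nat_lit 57096) (PT.lf (nat_lit 4712) (nat_lit 6) (nat_lit 62) (nat_lit 0) (nat_lit 223) (nat_lit 221) (nat_lit 156)) (PT.lf (nat_lit 4484) (nat_lit 6) (nat_lit 59) (nat_lit 5) (nat_lit 154) (nat_lit 222) (nat_lit 224)))) (PT.nd (nat_lit 156) (PT.nd (nat_lit 78) (PT.lf (nat_lit 4636) (nat_lit 6) (nat_lit 61) (nat_lit 5) (nat_lit 155) (nat_lit 222) (nat_lit 223)) (PT.lf (nat_lit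 4788) (nat_lit 3) (nat_lit 63) (nat_lit 4) (nat_lit 156) (nat_lit 222) (nat_lit 222))) (PT.nd (nat_lit 78) (PT.lf (nat_lit 4864) (nat_lit 6) (nat_lit 64) (nat_lit 4) (nat_lit 157) (nat_lit 222) (nat_lit 221)) (PT.nd (nat_lit 4836) (PT.lf (nat_lit 4940) (nat_lit 6) (nat_lit 65) (nat_lit 4) (nat_lit 158) (nat_lit 222) (nat_lit 220)) (PT.lf (nat_lit 4940) (nat_lit 6) (nat_lit 65) (nat_lit 2) (nat_lit 220) (nat_lit 222) (nat_lit 158))))))) (PT.nd (nat_lit 62478) (PT.nd (nat_lit 57096) (PT.nd (nat_lit 156) (PT.nd (nat_lit 78) (PT.lf (nat_lit 4864) (nat_lit 6) (nat_lit 64) (nat_lit 2) (nat_lit 221) (nat_lit 222) (nat_lit 157)) (PT.lf (nat_lit 4788) (nat_lit 3) (nat_lit 63) (nat_lit 0) (nat_lit 222) (nat_lit 222) (nat_lit 156))) (PT.nd (nat_lit 78) (PT.lf (nat_lit 4636) (nat_lit 6) (nat_lit 61) (nat_lit 0) (nat_lit 223) (nat_lit 222) (nat_lit 155)) (PT.lf (nat_lit 4484) (nat_lit 6) (nat_lit 59) (nat_lit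 0) (nat_lit 224) (nat_lit 222) (nat_lit 154)))) (PT.nd (nat_lit 156) (PT.nd (nat_lit 78) (PT.lf (nat_lit 4256) (nat_lit 6) (nat_lit 56) (nat_lit 5) (nat_lit 152) (nat_lit 223) (nat_lit 225)) (PT.lf (nat_lit 4408) (nat_lit 6) (nat_lit 58) (nat_lit 5) (nat_lit 153) (nat_lit 223) (nat_lit 224))) (PT.nd (nat_lit 78) (PT.lf (nat_lit 4560) (nat_lit 3) (nat_lit 60) (nat_lit 4) (nat_lit 154) (nat_lit 223) (nat_lit 223)) (PT.nd (nat_lit 78) (PT.lf (nat_lit 4636) (nat_lit 6) (nat_lit 61) (nat_lit 4) (nat_lit 155) (nat_lit 223) (nat_lit 222)) (PT.lf (nat_lit 4712) (nat_lit 6) (nat_lit 62) (nat_lit 4) (nat_lit 156) (nat_lit 223) (nat_lit 221)))))) (PT.nd (nat_lit 56940) (PT.nd (nat_lit 156) (PT.nd (nat_lit 78) (PT.lf (nat_lit 4712) (nat_lit 6) (nat_lit 62) (nat_lit 2) (nat_lit 221) (nat_lit 223) (nat_lit 156)) (PT.lf (nat_lit 4636) (nat_lit 6) (nat_lit 61) (nat_lit 2) (nat_lit 222) (nat_lit 223) (nat_lit 155)))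 (PT.nd (nat_lit 78) (PT.lf (nat_lit 4560) (nat_lit 3) (nat_lit 60) (nat_lit 0) (nat_lit 223) (nat_lit 223) (nat_lit 154)) (PT.nd (nat_lit 78) (PT.lf (nat_lit 4408) (nat_lit 6) (nat_lit 58) (nat_lit 0) (nat_lit 224) (nat_lit 223) (nat_lit 153)) (PT.lf (nat_lit 4256) (nat_lit 6) (nat_lit 56) (nat_lit 0) (nat_lit 225) (nat_lit 223) (nat_lit 152))))) (PT.nd (nat_lit 156) (PT.nd (nat_lit 78) (PT.lf (nat_lit 4028) (nat_lit 6) (nat_lit 53) (nat_lit 5) (nat_lit 150) (nat_lit 224) (nat_lit 226)) (PT.lf (nat_lit 4180) (nat_lit 6) (nat_lit 55) (nat_lit 5) (nat_lit 151) (nat_lit 224) (nat_lit 225))) (PT.nd (nat_lit 78) (PT.lf (nat_lit 4332) (nat_lit 3) (nat_lit 57) (nat_lit 4) (nat_lit 152) (nat_lit 224) (nat_lit 224)) (PT.nd (nat_lit 78) (PT.lf (nat_lit 4408) (nat_lit 6) (nat_lit 58) (nat_lit 4) (nat_lit 153) (nat_lit 224) (nat_lit 223)) (PT.lf (nat_lit 4484) (nat_lit 6) (nat_lit 59) (nat_lit 4) (nat_lit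 154) (nat_lit 224) (nat_lit 222))))))))
noncomputable def pc27 : PT := (PT.nd (nat_lit 119340) (PT.nd (nat_lit 57018) (PT.nd (nat_lit 312) (PT.nd (nat_lit 156) (PT.nd (nat_lit 78) (PT.lf (nat_lit 4484) (nat_lit 6) (nat_lit 59) (nat_lit 2) (nat_lit 222) (nat_lit 224) (nat_lit 154)) (PT.lf (nat_lit 4408) (nat_lit 6) (nat_lit 58) (nat_lit 2) (nat_lit 223) (nat_lit 224) (nat_lit 153))) (PT.nd (nat_lit 78) (PT.lf (nat_lit 4332) (nat_lit 3) (nat_lit 57) (nat_lit 0) (nat_lit 224) (nat_lit 224) (nat_lit 152)) (PT.lf (nat_lit 4180) (nat_lit 6) (nat_lit 55) (nat_lit 0) (nat_lit 225) (nat_lit 224) (nat_lit 151)))) (PT.nd (nat_lit 56472) (PT.nd (nat_lit 56394) (PT.lf (nat_lit 4028) (nat_lit 6) (nat_lit 53) (nat_lit 0) (nat_lit 226) (nat_lit 224) (nat_lit 150)) (PT.lf (nat_lit 3800) (nat_lit 6) (nat_lit 50) (nat_lit 5) (nat_lit 148) (nat_lit 225) (nat_lit 227))) (PT.nd (nat_lit 78) (PT.lf (nat_lit 3952) (nat_lit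 6) (nat_lit 52) (nat_lit 5) (nat_lit 149) (nat_lit 225) (nat_lit 226)) (PT.nd (nat_lit 78) (PT.lf (nat_lit 4104) (nat_lit 3) (nat_lit 54) (nat_lit 4) (nat_lit 150) (nat_lit 225) (nat_lit 225)) (PT.lf (nat_lit 4180) (nat_lit 6) (nat_lit 55) (nat_lit 4) (nat_lit 151) (nat_lit 225) (nat_lit 224)))))) (PT.nd (nat_lit 5850) (PT.nd (nat_lit 5616) (PT.nd (nat_lit 5538) (PT.lf (nat_lit 4256) (nat_lit 6) (nat_lit 56) (nat_lit 4) (nat_lit 152) (nat_lit 225) (nat_lit 223)) (PT.lf (nat_lit 4256) (nat_lit 6) (nat_lit 56) (nat_lit 2) (nat_lit 223) (nat_lit 225) (nat_lit 152))) (PT.nd (nat_lit 78) (PT.lf (nat_lit 4180) (nat_lit 6) (nat_lit 55) (nat_lit 2) (nat_lit 224) (nat_lit 225) (nat_lit 151)) (PT.nd (nat_lit 78) (PT.lf (nat_lit 4104) (nat_lit 3) (nat_lit 54) (nat_lit 0) (nat_lit 225) (nat_lit 225) (nat_lit 150)) (PT.lf (nat_lit 3952) (nat_lit 6) (nat_lit 52) (nat_lit 0) (nat_lit 226) (nat_lit 225) (nat_lit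 149))))) (PT.nd (nat_lit 56238) (PT.nd (nat_lit 56160) (PT.lf (nat_lit 3800) (nat_lit 6) (nat_lit 50) (nat_lit 0) (nat_lit 227) (nat_lit 225) (nat_lit 148)) (PT.lf (nat_lit 3572) (nat_lit 6) (nat_lit 47) (nat_lit 5) (nat_lit 146) (nat_lit 226) (nat_lit 228))) (PT.nd (nat_lit 78) (PT.lf (nat_lit 3724) (nat_lit 6) (nat_lit 49) (nat_lit 5) (nat_lit 147) (nat_lit 226) (nat_lit 227)) (PT.nd (nat_lit 78) (PT.lf (nat_lit 3876) (nat_lit 3) (nat_lit 51) (nat_lit 4) (nat_lit 148) (nat_lit 226) (nat_lit 226)) (PT.lf (nat_lit 3952) (nat_lit 6) (nat_lit 52) (nat_lit 4) (nat_lit 149) (nat_lit 226) (nat_lit 225))))))) (PT.nd (nat_lit 62244) (PT.nd (nat_lit 6006) (PT.nd (nat_lit 5850) (PT.nd (nat_lit 5772) (PT.lf (nat_lit 4028) (nat_lit 6) (nat_lit 53) (nat_lit 4) (nat_lit 150) (nat_lit 226) (nat_lit 224)) (PT.lf (nat_lit 4028) (nat_lit 6) (nat_lit 53) (nat_lit 2) (nat_lit 224) (nat_lit 226) (nat_lit 150))) (PT.nd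 (nat_lit 78) (PT.lf (nat_lit 3952) (nat_lit 6) (nat_lit 52) (nat_lit 2) (nat_lit 225) (nat_lit 226) (nat_lit 149)) (PT.lf (nat_lit 3876) (nat_lit 3) (nat_lit 51) (nat_lit 0) (nat_lit 226) (nat_lit 226) (nat_lit 148)))) (PT.nd (nat_lit 56004) (PT.nd (nat_lit 78) (PT.lf (nat_lit 3724) (nat_lit 6) (nat_lit 49) (nat_lit 0) (nat_lit 227) (nat_lit 226) (nat_lit 147)) (PT.lf (nat_lit 3572) (nat_lit 6) (nat_lit 47) (nat_lit 0) (nat_lit 228) (nat_lit 226) (nat_lit 146))) (PT.nd (nat_lit 78) (PT.lf (nat_lit 3344) (nat_lit 6) (nat_lit 44) (nat_lit 5) (nat_lit 144) (nat_lit 227) (nat_lit 229)) (PT.nd (nat_lit 78) (PT.lf (nat_lit 3496) (nat_lit 6) (nat_lit 46) (nat_lit 5) (nat_lit 145) (nat_lit 227) (nat_lit 228)) (PT.lf (nat_lit 3648) (nat_lit 3) (nat_lit 48) (nat_lit 4) (nat_lit 146) (nat_lit 227) (nat_lit 227)))))) (PT.nd (nat_lit 6318) (PT.nd (nat_lit 6084) (PT.nd (nat_lit 78) (PT.lf (nat_lit 3724) (nat_lit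 6) (nat_lit 49) (nat_lit 4) (nat_lit 147) (nat_lit 227) (nat_lit 226)) (PT.lf (nat_lit 3800) (nat_lit 6) (nat_lit 50) (nat_lit 4) (nat_lit 148) (nat_lit 227) (nat_lit 225))) (PT.nd (nat_lit 78) (PT.lf (nat_lit 3800) (nat_lit 6) (nat_lit 50) (nat_lit 2) (nat_lit 225) (nat_lit 227) (nat_lit 148)) (PT.nd (nat_lit 78) (PT.lf (nat_lit 3724) (nat_lit 6) (nat_lit 49) (nat_lit 2) (nat_lit 226) (nat_lit 227) (nat_lit 147)) (PT.lf (nat_lit 3648) (nat_lit 3) (nat_lit 48) (nat_lit 0) (nat_lit 227) (nat_lit 227) (nat_lit 146))))) (PT.nd (nat_lit 55770) (PT.nd (nat_lit 78) (PT.lf (nat_lit 3496) (nat_lit 6) (nat_lit 46) (nat_lit 0) (nat_lit 228) (nat_lit 227) (nat_lit 145)) (PT.lf (nat_lit 3344) (nat_lit 6) (nat_lit 44) (nat_lit 0) (nat_lit 229) (nat_lit 227) (nat_lit 144))) (PT.nd (nat_lit 78) (PT.lf (nat_lit 3116) (nat_lit 6) (nat_lit 41) (nat_lit 5) (nat_lit 142) (nat_lit 228) (nat_lit 230)) (PT.nd (nat_lit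 78) (PT.lf (nat_lit 3268) (nat_lit 6) (nat_lit 43) (nat_lit 5) (nat_lit 143) (nat_lit 228) (nat_lit 229)) (PT.lf (nat_lit 3420) (nat_lit 3) (nat_lit 45) (nat_lit 4) (nat_lit 144) (nat_lit 228) (nat_lit 228))))))))
noncomputable def pc28 : PT := (PT.nd (nat_lit 124488) (PT.nd (nat_lit 62244) (PT.nd (nat_lit 6474) (PT.nd (nat_lit 6318) (PT.nd (nat_lit 78) (PT.lf (nat_lit 3496) (nat_lit 6) (nat_lit 46) (nat_lit 4) (nat_lit 145) (nat_lit 228) (nat_lit 227)) (PT.lf (nat_lit 3572) (nat_lit 6) (nat_lit 47) (nat_lit 4) (nat_lit 146) (nat_lit 228) (nat_lit 226))) (PT.nd (nat_lit 78) (PT.lf (nat_lit 3572) (nat_lit 6) (nat_lit 47) (nat_lit 2) (nat_lit 226) (nat_lit 228) (nat_lit 146)) (PT.lf (nat_lit 3496) (nat_lit 6) (nat_lit 46) (nat_lit 2) (nat_lit 227) (nat_lit 228) (nat_lit 145)))) (PT.nd (nat_lit 156) (PT.nd (nat_lit 78) (PT.lf (nat_lit 3420) (nat_lit 3) (nat_lit 45) (nat_lit 0) (nat_lit 228) (nat_lit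 228) (nat_lit 144)) (PT.lf (nat_lit 3268) (nat_lit 6) (nat_lit 43) (nat_lit 0) (nat_lit 229) (nat_lit 228) (nat_lit 143))) (PT.nd (nat_lit 55458) (PT.lf (nat_lit 3116) (nat_lit 6) (nat_lit 41) (nat_lit 0) (nat_lit 230) (nat_lit 228) (nat_lit 142)) (PT.nd (nat_lit 78) (PT.lf (nat_lit 2888) (nat_lit 6) (nat_lit 38) (nat_lit 5) (nat_lit 140) (nat_lit 229) (nat_lit 231)) (PT.lf (nat_lit 3040) (nat_lit 6) (nat_lit 40) (nat_lit 5) (nat_lit 141) (nat_lit 229) (nat_lit 230)))))) (PT.nd (nat_lit 6708) (PT.nd (nat_lit 156) (PT.nd (nat_lit 78) (PT.lf (nat_lit 3192) (nat_lit 3) (nat_lit 42) (nat_lit 4) (nat_lit 142) (nat_lit 229) (nat_lit 229)) (PT.lf (nat_lit 3268) (nat_lit 6) (nat_lit 43) (nat_lit 4) (nat_lit 143) (nat_lit 229) (nat_lit 228))) (PT.nd (nat_lit 6474) (PT.lf (nat_lit 3344) (nat_lit 6) (nat_lit 44) (nat_lit 4) (nat_lit 144) (nat_lit 229) (nat_lit 227)) (PT.lf (nat_lit 3344) (nat_lit 6) (nat_lit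 44) (nat_lit 2) (nat_lit 227) (nat_lit 229) (nat_lit 144)))) (PT.nd (nat_lit 156) (PT.nd (nat_lit 78) (PT.lf (nat_lit 3268) (nat_lit 6) (nat_lit 43) (nat_lit 2) (nat_lit 228) (nat_lit 229) (nat_lit 143)) (PT.lf (nat_lit 3192) (nat_lit 3) (nat_lit 42) (nat_lit 0) (nat_lit 229) (nat_lit 229) (nat_lit 142))) (PT.nd (nat_lit 78) (PT.lf (nat_lit 3040) (nat_lit 6) (nat_lit 40) (nat_lit 0) (nat_lit 230) (nat_lit 229) (nat_lit 141)) (PT.nd (nat_lit 55224) (PT.lf (nat_lit 2888) (nat_lit 6) (nat_lit 38) (nat_lit 0) (nat_lit 231) (nat_lit 229) (nat_lit 140)) (PT.lf (nat_lit 2660) (nat_lit 6) (nat_lit 35) (nat_lit 5) (nat_lit 138) (nat_lit 230) (nat_lit 232))))))) (PT.nd (nat_lit 62244) (PT.nd (nat_lit 6942) (PT.nd (nat_lit 156) (PT.nd (nat_lit 78) (PT.lf (nat_lit 2812) (nat_lit 6) (nat_lit 37) (nat_lit 5) (nat_lit 139) (nat_lit 230) (nat_lit 231)) (PT.lf (nat_lit 2964) (nat_lit 3) (nat_lit 39) (nat_lit 4)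 (nat_lit 140) (nat_lit 230) (nat_lit 230))) (PT.nd (nat_lit 78) (PT.lf (nat_lit 3040) (nat_lit 6) (nat_lit 40) (nat_lit 4) (nat_lit 141) (nat_lit 230) (nat_lit 229)) (PT.lf (nat_lit 3116) (nat_lit 6) (nat_lit 41) (nat_lit 4) (nat_lit 142) (nat_lit 230) (nat_lit 228)))) (PT.nd (nat_lit 156) (PT.nd (nat_lit 78) (PT.lf (nat_lit 3116) (nat_lit 6) (nat_lit 41) (nat_lit 2) (nat_lit 228) (nat_lit 230) (nat_lit 142)) (PT.lf (nat_lit 3040) (nat_lit 6) (nat_lit 40) (nat_lit 2) (nat_lit 229) (nat_lit 230) (nat_lit 141))) (PT.nd (nat_lit 78) (PT.lf (nat_lit 2964) (nat_lit 3) (nat_lit 39) (nat_lit 0) (nat_lit 230) (nat_lit 230) (nat_lit 140)) (PT.nd (nat_lit 78) (PT.lf (nat_lit 2812) (nat_lit 6) (nat_lit 37) (nat_lit 0) (nat_lit 231) (nat_lit 230) (nat_lit 139)) (PT.lf (nat_lit 2660) (nat_lit 6) (nat_lit 35) (nat_lit 0) (nat_lit 232) (nat_lit 230) (nat_lit 138)))))) (PT.nd (nat_lit 7254) (PT.nd (nat_lit 156)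 (PT.nd (nat_lit 78) (PT.lf (nat_lit 2432) (nat_lit 6) (nat_lit 32) (nat_lit 5) (nat_lit 136) (nat_lit 231) (nat_lit 233)) (PT.lf (nat_lit 2584) (nat_lit 6) (nat_lit 34) (nat_lit 5) (nat_lit 137) (nat_lit 231) (nat_lit 232))) (PT.nd (nat_lit 78) (PT.lf (nat_lit 2736) (nat_lit 3) (nat_lit 36) (nat_lit 4) (nat_lit 138) (nat_lit 231) (nat_lit 231)) (PT.nd (nat_lit 78) (PT.lf (nat_lit 2812) (nat_lit 6) (nat_lit 37) (nat_lit 4) (nat_lit 139) (nat_lit 231) (nat_lit 230)) (PT.lf (nat_lit 2888) (nat_lit 6) (nat_lit 38) (nat_lit 4) (nat_lit 140) (nat_lit 231) (nat_lit 229))))) (PT.nd (nat_lit 156) (PT.nd (nat_lit 78) (PT.lf (nat_lit 2888) (nat_lit 6) (nat_lit 38) (nat_lit 2) (nat_lit 229) (nat_lit 231) (nat_lit 140)) (PT.lf (nat_lit 2812) (nat_lit 6) (nat_lit 37) (nat_lit 2) (nat_lit 230) (nat_lit 231) (nat_lit 139))) (PT.nd (nat_lit 78) (PT.lf (nat_lit 2736) (nat_lit 3) (nat_lit 36) (nat_lit 0) (nat_lit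 231) (nat_lit 231) (nat_lit 138)) (PT.nd (nat_lit 78) (PT.lf (nat_lit 2584) (nat_lit 6) (nat_lit 34) (nat_lit 0) (nat_lit 232) (nat_lit 231) (nat_lit 137)) (PT.lf (nat_lit 2432) (nat_lit 6) (nat_lit 32) (nat_lit 0) (nat_lit 233) (nat_lit 231) (nat_lit 136))))))))
noncomputable def pc29 : PT := (PT.nd (nat_lit 70278) (PT.nd (nat_lit 7800) (PT.nd (nat_lit 312) (PT.nd (nat_lit 156) (PT.nd (nat_lit 78) (PT.lf (nat_lit 2204) (nat_lit 6) (nat_lit 29) (nat_lit 5) (nat_lit 134) (nat_lit 232) (nat_lit 234)) (PT.lf (nat_lit 2356) (nat_lit 6) (nat_lit 31) (nat_lit 5) (nat_lit 135) (nat_lit 232) (nat_lit 233))) (PT.nd (nat_lit 78) (PT.lf (nat_lit 2508) (nat_lit 3) (nat_lit 33) (nat_lit 4) (nat_lit 136) (nat_lit 232) (nat_lit 232)) (PT.lf (nat_lit 2584) (nat_lit 6) (nat_lit 34) (nat_lit 4) (nat_lit 137) (nat_lit 232) (nat_lit 231)))) (PT.nd (nat_lit 7254) (PT.nd (nat_lit 7176) (PT.lf (nat_lit 2660) (nat_lit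 6) (nat_lit 35) (nat_lit 4) (nat_lit 138) (nat_lit 232) (nat_lit 230)) (PT.lf (nat_lit 2660) (nat_lit 6) (nat_lit 35) (nat_lit 2) (nat_lit 230) (nat_lit 232) (nat_lit 138))) (PT.nd (nat_lit 78) (PT.lf (nat_lit 2584) (nat_lit 6) (nat_lit 34) (nat_lit 2) (nat_lit 231) (nat_lit 232) (nat_lit 137)) (PT.nd (nat_lit 78) (PT.lf (nat_lit 2508) (nat_lit 3) (nat_lit 33) (nat_lit 0) (nat_lit 232) (nat_lit 232) (nat_lit 136)) (PT.lf (nat_lit 2356) (nat_lit 6) (nat_lit 31) (nat_lit 0) (nat_lit 233) (nat_lit 232) (nat_lit 135)))))) (PT.nd (nat_lit 54756) (PT.nd (nat_lit 54600) (PT.nd (nat_lit 54522) (PT.lf (nat_lit 2204) (nat_lit 6) (nat_lit 29) (nat_lit 0) (nat_lit 234) (nat_lit 232) (nat_lit 134)) (PT.lf (nat_lit 1976) (nat_lit 6) (nat_lit 26) (nat_lit 5) (nat_lit 132) (nat_lit 233) (nat_lit 235))) (PT.nd (nat_lit 78) (PT.lf (nat_lit 2128) (nat_lit 6) (nat_lit 28) (nat_lit 5) (nat_lit 133) (nat_lit 233) (nat_lit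 234)) (PT.lf (nat_lit 2280) (nat_lit 3) (nat_lit 30) (nat_lit 4) (nat_lit 134) (nat_lit 233) (nat_lit 233)))) (PT.nd (nat_lit 7488) (PT.nd (nat_lit 78) (PT.lf (nat_lit 2356) (nat_lit 6) (nat_lit 31) (nat_lit 4) (nat_lit 135) (nat_lit 233) (nat_lit 232)) (PT.lf (nat_lit 2432) (nat_lit 6) (nat_lit 32) (nat_lit 4) (nat_lit 136) (nat_lit 233) (nat_lit 231))) (PT.nd (nat_lit 78) (PT.lf (nat_lit 2432) (nat_lit 6) (nat_lit 32) (nat_lit 2) (nat_lit 231) (nat_lit 233) (nat_lit 136)) (PT.nd (nat_lit 78) (PT.lf (nat_lit 2356) (nat_lit 6) (nat_lit 31) (nat_lit 2) (nat_lit 232) (nat_lit 233) (nat_lit 135)) (PT.lf (nat_lit 2280) (nat_lit 3) (nat_lit 30) (nat_lit 0) (nat_lit 233) (nat_lit 233) (nat_lit 134))))))) (PT.nd (nat_lit 62478) (PT.nd (nat_lit 54522) (PT.nd (nat_lit 54366) (PT.nd (nat_lit 78) (PT.lf (nat_lit 2128) (nat_lit 6) (nat_lit 28) (nat_lit 0) (nat_lit 234) (nat_lit 233) (nat_lit 133)) (PT.lf (nat_lit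 1976) (nat_lit 6) (nat_lit 26) (nat_lit 0) (nat_lit 235) (nat_lit 233) (nat_lit 132))) (PT.nd (nat_lit 78) (PT.lf (nat_lit 1748) (nat_lit 6) (nat_lit 23) (nat_lit 5) (nat_lit 130) (nat_lit 234) (nat_lit 236)) (PT.lf (nat_lit 1900) (nat_lit 6) (nat_lit 25) (nat_lit 5) (nat_lit 131) (nat_lit 234) (nat_lit 235)))) (PT.nd (nat_lit 156) (PT.nd (nat_lit 78) (PT.lf (nat_lit 2052) (nat_lit 3) (nat_lit 27) (nat_lit 4) (nat_lit 132) (nat_lit 234) (nat_lit 234)) (PT.lf (nat_lit 2128) (nat_lit 6) (nat_lit 28) (nat_lit 4) (nat_lit 133) (nat_lit 234) (nat_lit 233))) (PT.nd (nat_lit 7644) (PT.lf (nat_lit 2204) (nat_lit 6) (nat_lit 29) (nat_lit 4) (nat_lit 134) (nat_lit 234) (nat_lit 232)) (PT.nd (nat_lit 78) (PT.lf (nat_lit 2204) (nat_lit 6) (nat_lit 29) (nat_lit 2) (nat_lit 232) (nat_lit 234) (nat_lit 134)) (PT.lf (nat_lit 2128) (nat_lit 6) (nat_lit 28) (nat_lit 2) (nat_lit 233) (nat_lit 234) (nat_lit 133))))))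 (PT.nd (nat_lit 54366) (PT.nd (nat_lit 156) (PT.nd (nat_lit 78) (PT.lf (nat_lit 2052) (nat_lit 3) (nat_lit 27) (nat_lit 0) (nat_lit 234) (nat_lit 234) (nat_lit 132)) (PT.lf (nat_lit 1900) (nat_lit 6) (nat_lit 25) (nat_lit 0) (nat_lit 235) (nat_lit 234) (nat_lit 131))) (PT.nd (nat_lit 54054) (PT.lf (nat_lit 1748) (nat_lit 6) (nat_lit 23) (nat_lit 0) (nat_lit 236) (nat_lit 234) (nat_lit 130)) (PT.nd (nat_lit 78) (PT.lf (nat_lit 1520) (nat_lit 6) (nat_lit 20) (nat_lit 5) (nat_lit 128) (nat_lit 235) (nat_lit 237)) (PT.lf (nat_lit 1672) (nat_lit 6) (nat_lit 22) (nat_lit 5) (nat_lit 129) (nat_lit 235) (nat_lit 236))))) (PT.nd (nat_lit 156) (PT.nd (nat_lit 78) (PT.lf (nat_lit 1824) (nat_lit 3) (nat_lit 24) (nat_lit 4) (nat_lit 130) (nat_lit 235) (nat_lit 235)) (PT.lf (nat_lit 1900) (nat_lit 6) (nat_lit 25) (nat_lit 4) (nat_lit 131) (nat_lit 235) (nat_lit 234))) (PT.nd (nat_lit 7878) (PT.lf (nat_lit 1976)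 (nat_lit 6) (nat_lit 26) (nat_lit 4) (nat_lit 132) (nat_lit 235) (nat_lit 233)) (PT.nd (nat_lit 78) (PT.lf (nat_lit 1976) (nat_lit 6) (nat_lit 26) (nat_lit 2) (nat_lit 233) (nat_lit 235) (nat_lit 132)) (PT.lf (nat_lit 1900) (nat_lit 6) (nat_lit 25) (nat_lit 2) (nat_lit 234) (nat_lit 235) (nat_lit 131))))))))
noncomputable def pc30 : PT := (PT.nd (nat_lit 124956) (PT.nd (nat_lit 62478) (PT.nd (nat_lit 54054) (PT.nd (nat_lit 156) (PT.nd (nat_lit 78) (PT.lf (nat_lit 1824) (nat_lit 3) (nat_lit 24) (nat_lit 0) (nat_lit 235) (nat_lit 235) (nat_lit 130)) (PT.lf (nat_lit 1672) (nat_lit 6) (nat_lit 22) (nat_lit 0) (nat_lit 236) (nat_lit 235) (nat_lit 129))) (PT.nd (nat_lit 53820) (PT.lf (nat_lit 1520) (nat_lit 6) (nat_lit 20) (nat_lit 0) (nat_lit 237) (nat_lit 235) (nat_lit 128)) (PT.lf (nat_lit 1292) (nat_lit 6) (nat_lit 17) (nat_lit 5) (nat_lit 126) (nat_lit 236) (nat_lit 238)))) (PT.nd (nat_lit 156)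 (PT.nd (nat_lit 78) (PT.lf (nat_lit 1444) (nat_lit 6) (nat_lit 19) (nat_lit 5) (nat_lit 127) (nat_lit 236) (nat_lit 237)) (PT.lf (nat_lit 1596) (nat_lit 3) (nat_lit 21) (nat_lit 4) (nat_lit 128) (nat_lit 236) (nat_lit 236))) (PT.nd (nat_lit 78) (PT.lf (nat_lit 1672) (nat_lit 6) (nat_lit 22) (nat_lit 4) (nat_lit 129) (nat_lit 236) (nat_lit 235)) (PT.nd (nat_lit 8112) (PT.lf (nat_lit 1748) (nat_lit 6) (nat_lit 23) (nat_lit 4) (nat_lit 130) (nat_lit 236) (nat_lit 234)) (PT.lf (nat_lit 1748) (nat_lit 6) (nat_lit 23) (nat_lit 2) (nat_lit 234) (nat_lit 236) (nat_lit 130)))))) (PT.nd (nat_lit 53820) (PT.nd (nat_lit 156) (PT.nd (nat_lit 78) (PT.lf (nat_lit 1672) (nat_lit 6) (nat_lit 22) (nat_lit 2) (nat_lit 235) (nat_lit 236) (nat_lit 129)) (PT.lf (nat_lit 1596) (nat_lit 3) (nat_lit 21) (nat_lit 0) (nat_lit 236) (nat_lit 236) (nat_lit 128))) (PT.nd (nat_lit 78) (PT.lf (nat_lit 1444) (nat_lit 6) (nat_lit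 19) (nat_lit 0) (nat_lit 237) (nat_lit 236) (nat_lit 127)) (PT.lf (nat_lit 1292) (nat_lit 6) (nat_lit 17) (nat_lit 0) (nat_lit 238) (nat_lit 236) (nat_lit 126)))) (PT.nd (nat_lit 156) (PT.nd (nat_lit 78) (PT.lf (nat_lit 1064) (nat_lit 6) (nat_lit 14) (nat_lit 5) (nat_lit 124) (nat_lit 237) (nat_lit 239)) (PT.lf (nat_lit 1216) (nat_lit 6) (nat_lit 16) (nat_lit 5) (nat_lit 125) (nat_lit 237) (nat_lit 238))) (PT.nd (nat_lit 78) (PT.lf (nat_lit 1368) (nat_lit 3) (nat_lit 18) (nat_lit 4) (nat_lit 126) (nat_lit 237) (nat_lit 237)) (PT.nd (nat_lit 78) (PT.lf (nat_lit 1444) (nat_lit 6) (nat_lit 19) (nat_lit 4) (nat_lit 127) (nat_lit 237) (nat_lit 236)) (PT.lf (nat_lit 1520) (nat_lit 6) (nat_lit 20) (nat_lit 4) (nat_lit 128) (nat_lit 237) (nat_lit 235))))))) (PT.nd (nat_lit 53976) (PT.nd (nat_lit 312) (PT.nd (nat_lit 156) (PT.nd (nat_lit 78) (PT.lf (nat_lit 1520) (nat_lit 6) (nat_lit 20) (nat_lit 2) (nat_lit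 235) (nat_lit 237) (nat_lit 128)) (PT.lf (nat_lit 1444) (nat_lit 6) (nat_lit 19) (nat_lit 2) (nat_lit 236) (nat_lit 237) (nat_lit 127))) (PT.nd (nat_lit 78) (PT.lf (nat_lit 1368) (nat_lit 3) (nat_lit 18) (nat_lit 0) (nat_lit 237) (nat_lit 237) (nat_lit 126)) (PT.lf (nat_lit 1216) (nat_lit 6) (nat_lit 16) (nat_lit 0) (nat_lit 238) (nat_lit 237) (nat_lit 125)))) (PT.nd (nat_lit 53430) (PT.nd (nat_lit 53352) (PT.lf (nat_lit 1064) (nat_lit 6) (nat_lit 14) (nat_lit 0) (nat_lit 239) (nat_lit 237) (nat_lit 124)) (PT.lf (nat_lit 836) (nat_lit 6) (nat_lit 11) (nat_lit 5) (nat_lit 122) (nat_lit 238) (nat_lit 240))) (PT.nd (nat_lit 78) (PT.lf (nat_lit 988) (nat_lit 6) (nat_lit 13) (nat_lit 5) (nat_lit 123) (nat_lit 238) (nat_lit 239)) (PT.nd (nat_lit 78) (PT.lf (nat_lit 1140) (nat_lit 3) (nat_lit 15) (nat_lit 4) (nat_lit 124) (nat_lit 238) (nat_lit 238)) (PT.lf (nat_lit 1216) (nat_lit 6) (nat_lit 16) (nat_lit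 4) (nat_lit 125) (nat_lit 238) (nat_lit 237)))))) (PT.nd (nat_lit 8892) (PT.nd (nat_lit 8658) (PT.nd (nat_lit 8580) (PT.lf (nat_lit 1292) (nat_lit 6) (nat_lit 17) (nat_lit 4) (nat_lit 126) (nat_lit 238) (nat_lit 236)) (PT.lf (nat_lit 1292) (nat_lit 6) (nat_lit 17) (nat_lit 2) (nat_lit 236) (nat_lit 238) (nat_lit 126))) (PT.nd (nat_lit 78) (PT.lf (nat_lit 1216) (nat_lit 6) (nat_lit 16) (nat_lit 2) (nat_lit 237) (nat_lit 238) (nat_lit 125)) (PT.nd (nat_lit 78) (PT.lf (nat_lit 1140) (nat_lit 3) (nat_lit 15) (nat_lit 0) (nat_lit 238) (nat_lit 238) (nat_lit 124)) (PT.lf (nat_lit 988) (nat_lit 6) (nat_lit 13) (nat_lit 0) (nat_lit 239) (nat_lit 238) (nat_lit 123))))) (PT.nd (nat_lit 53196) (PT.nd (nat_lit 53118) (PT.lf (nat_lit 836) (nat_lit 6) (nat_lit 11) (nat_lit 0) (nat_lit 240) (nat_lit 238) (nat_lit 122)) (PT.lf (nat_lit 608) (nat_lit 6) (nat_lit 8) (nat_lit 5) (nat_lit 120) (nat_lit 239) (nat_lit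 241))) (PT.nd (nat_lit 78) (PT.lf (nat_lit 760) (nat_lit 6) (nat_lit 10) (nat_lit 5) (nat_lit 121) (nat_lit 239) (nat_lit 240)) (PT.nd (nat_lit 78) (PT.lf (nat_lit 912) (nat_lit 3) (nat_lit 12) (nat_lit 4) (nat_lit 122) (nat_lit 239) (nat_lit 239)) (PT.lf (nat_lit 988) (nat_lit 6) (nat_lit 13) (nat_lit 4) (nat_lit 123) (nat_lit 239) (nat_lit 238))))))))
noncomputable def pc31 : PT := (PT.nd (nat_lit 124566) (PT.nd (nat_lit 62244) (PT.nd (nat_lit 9048) (PT.nd (nat_lit 8892) (PT.nd (nat_lit 8814) (PT.lf (nat_lit 1064) (nat_lit 6) (nat_lit 14) (nat_lit 4) (nat_lit 124) (nat_lit 239) (nat_lit 237)) (PT.lf (nat_lit 1064) (nat_lit 6) (nat_lit 14) (nat_lit 2) (nat_lit 237) (nat_lit 239) (nat_lit 124))) (PT.nd (nat_lit 78) (PT.lf (nat_lit 988) (nat_lit 6) (nat_lit 13) (nat_lit 2) (nat_lit 238) (nat_lit 239) (nat_lit 123)) (PT.lf (nat_lit 912) (nat_lit 3) (nat_lit 12) (nat_lit 0) (nat_lit 239) (nat_lit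 239) (nat_lit 122)))) (PT.nd (nat_lit 52962) (PT.nd (nat_lit 78) (PT.lf (nat_lit 760) (nat_lit 6) (nat_lit 10) (nat_lit 0) (nat_lit 240) (nat_lit 239) (nat_lit 121)) (PT.lf (nat_lit 608) (nat_lit 6) (nat_lit 8) (nat_lit 0) (nat_lit 241) (nat_lit 239) (nat_lit 120))) (PT.nd (nat_lit 78) (PT.lf (nat_lit 380) (nat_lit 6) (nat_lit 5) (nat_lit 5) (nat_lit 118) (nat_lit 240) (nat_lit 242)) (PT.nd (nat_lit 78) (PT.lf (nat_lit 532) (nat_lit 6) (nat_lit 7) (nat_lit 5) (nat_lit 119) (nat_lit 240) (nat_lit 241)) (PT.lf (nat_lit 684) (nat_lit 3) (nat_lit 9) (nat_lit 4) (nat_lit 120) (nat_lit 240) (nat_lit 240)))))) (PT.nd (nat_lit 9360) (PT.nd (nat_lit 9126) (PT.nd (nat_lit 78) (PT.lf (nat_lit 760) (nat_lit 6) (nat_lit 10) (nat_lit 4) (nat_lit 121) (nat_lit 240) (nat_lit 239)) (PT.lf (nat_lit 836) (nat_lit 6) (nat_lit 11) (nat_lit 4) (nat_lit 122) (nat_lit 240) (nat_lit 238))) (PT.nd (nat_lit 78) (PT.lf (nat_lit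 836) (nat_lit 6) (nat_lit 11) (nat_lit 2) (nat_lit 238) (nat_lit 240) (nat_lit 122)) (PT.nd (nat_lit 78) (PT.lf (nat_lit 760) (nat_lit 6) (nat_lit 10) (nat_lit 2) (nat_lit 239) (nat_lit 240) (nat_lit 121)) (PT.lf (nat_lit 684) (nat_lit 3) (nat_lit 9) (nat_lit 0) (nat_lit 240) (nat_lit 240) (nat_lit 120))))) (PT.nd (nat_lit 52728) (PT.nd (nat_lit 78) (PT.lf (nat_lit 532) (nat_lit 6) (nat_lit 7) (nat_lit 0) (nat_lit 241) (nat_lit 240) (nat_lit 119)) (PT.lf (nat_lit 380) (nat_lit 6) (nat_lit 5) (nat_lit 0) (nat_lit 242) (nat_lit 240) (nat_lit 118))) (PT.nd (nat_lit 78) (PT.lf (nat_lit 152) (nat_lit 6) (nat_lit 2) (nat_lit 5) (nat_lit 116) (nat_lit 241) (nat_lit 243)) (PT.nd (nat_lit 78) (PT.lf (nat_lit 304) (nat_lit 6) (nat_lit 4) (nat_lit 5) (nat_lit 117) (nat_lit 241) (nat_lit 242)) (PT.lf (nat_lit 456) (nat_lit 3) (nat_lit 6) (nat_lit 4) (nat_lit 118) (nat_lit 241) (nat_lit 241))))))) (PT.nd (nat_lit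 62322) (PT.nd (nat_lit 9516) (PT.nd (nat_lit 9360) (PT.nd (nat_lit 78) (PT.lf (nat_lit 532) (nat_lit 6) (nat_lit 7) (nat_lit 4) (nat_lit 119) (nat_lit 241) (nat_lit 240)) (PT.lf (nat_lit 608) (nat_lit 6) (nat_lit 8) (nat_lit 4) (nat_lit 120) (nat_lit 241) (nat_lit 239))) (PT.nd (nat_lit 78) (PT.lf (nat_lit 608) (nat_lit 6) (nat_lit 8) (nat_lit 2) (nat_lit 239) (nat_lit 241) (nat_lit 120)) (PT.lf (nat_lit 532) (nat_lit 6) (nat_lit 7) (nat_lit 2) (nat_lit 240) (nat_lit 241) (nat_lit 119)))) (PT.nd (nat_lit 156) (PT.nd (nat_lit 78) (PT.lf (nat_lit 456) (nat_lit 3) (nat_lit 6) (nat_lit 0) (nat_lit 241) (nat_lit 241) (nat_lit 118)) (PT.lf (nat_lit 304) (nat_lit 6) (nat_lit 4) (nat_lit 0) (nat_lit 242) (nat_lit 241) (nat_lit 117))) (PT.nd (nat_lit 52494) (PT.lf (nat_lit 152) (nat_lit 6) (nat_lit 2) (nat_lit 0) (nat_lit 243) (nat_lit 241) (nat_lit 116)) (PT.nd (nat_lit 78) (PT.lf (nat_lit 76) (nat_lit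 6) (nat_lit 1) (nat_lit 5) (nat_lit 115) (nat_lit 242) (nat_lit 243)) (PT.lf (nat_lit 228) (nat_lit 3) (nat_lit 3) (nat_lit 4) (nat_lit 116) (nat_lit 242) (nat_lit 242)))))) (PT.nd (nat_lit 9828) (PT.nd (nat_lit 9594) (PT.nd (nat_lit 78) (PT.lf (nat_lit 304) (nat_lit 6) (nat_lit 4) (nat_lit 4) (nat_lit 117) (nat_lit 242) (nat_lit 241)) (PT.lf (nat_lit 380) (nat_lit 6) (nat_lit 5) (nat_lit 4) (nat_lit 118) (nat_lit 242) (nat_lit 240))) (PT.nd (nat_lit 78) (PT.lf (nat_lit 380) (nat_lit 6) (nat_lit 5) (nat_lit 2) (nat_lit 240) (nat_lit 242) (nat_lit 118)) (PT.nd (nat_lit 78) (PT.lf (nat_lit 304) (nat_lit 6) (nat_lit 4) (nat_lit 2) (nat_lit 241) (nat_lit 242) (nat_lit 117)) (PT.lf (nat_lit 228) (nat_lit 3) (nat_lit 3) (nat_lit 0) (nat_lit 242) (nat_lit 242) (nat_lit 116))))) (PT.nd (nat_lit 52572) (PT.nd (nat_lit 52494) (PT.lf (nat_lit 76) (nat_lit 6) (nat_lit 1) (nat_lit 0) (nat_lit 243) (nat_lit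 242) (nat_lit 115)) (PT.lf (nat_lit 76) (nat_lit 6) (nat_lit 1) (nat_lit 4) (nat_lit 115) (nat_lit 243) (nat_lit 242))) (PT.nd (nat_lit 9750) (PT.lf (nat_lit 152) (nat_lit 6) (nat_lit 2) (nat_lit 4) (nat_lit 116) (nat_lit 243) (nat_lit 241)) (PT.nd (nat_lit 78) (PT.lf (nat_lit 152) (nat_lit 6) (nat_lit 2) (nat_lit 2) (nat_lit 241) (nat_lit 243) (nat_lit 116)) (PT.lf (nat_lit 76) (nat_lit 6) (nat_lit 1) (nat_lit 2) (nat_lit 242) (nat_lit 243) (nat_lit 115))))))))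
noncomputable def xc0 : XT := (XT.nd (nat_lit 187278) (nat_lit 0) (nat_lit 0) (XT.nd (nat_lit 124800) (nat_lit 0) (nat_lit 0) (XT.nd (nat_lit 62478) (nat_lit 0) (nat_lit 0) (XT.nd (nat_lit 62322) (nat_lit 0) (nat_lit 0) (XT.nd (nat_lit 78) (nat_lit 0) (nat_lit 0) (XT.lf (nat_lit 0) (nat_lit 154690743169) (nat_lit 152) (nat_lit 101814014738) (nat_lit 0) (nat_lit 154690743169) (nat_lit 1) (nat_lit 5) (nat_lit 3) (nat_lit 4) (nat_lit 1) (nat_lit 4) (nat_lit 556) (nat_lit 322) (nat_lit 322)) (XT.lf (nat_lit 0) (nat_lit 329233376380) (nat_lit 152) (nat_lit 204832961959) (nat_lit 0) (nat_lit 329224610186) (nat_lit 1) (nat_lit 5) (nat_lit 3) (nat_lit 4) (nat_lit 1) (nat_lit 4) (nat_lit 557) (nat_lit 322) (nat_lit 321))) (XT.nd (nat_lit 78) (nat_lit 0) (nat_lit 0) (XT.lf (nat_lit 0) (nat_lit 136068508383) (nat_lit 152) (nat_lit 101042112532) (nat_lit 0) (nat_lit 136068508383) (nat_lit 1) (nat_lit 5) (nat_lit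 3) (nat_lit 4) (nat_lit 1) (nat_lit 4) (nat_lit 554) (nat_lit 323) (nat_lit 323)) (XT.lf (nat_lit 0) (nat_lit 290345824115) (nat_lit 152) (nat_lit 202763143877) (nat_lit 0) (nat_lit 290336619611) (nat_lit 1) (nat_lit 5) (nat_lit 3) (nat_lit 4) (nat_lit 1) (nat_lit 4) (nat_lit 555) (nat_lit 323) (nat_lit 322)))) (XT.nd (nat_lit 62166) (nat_lit 0) (nat_lit 0) (XT.nd (nat_lit 78) (nat_lit 0) (nat_lit 0) (XT.lf (nat_lit 0) (nat_lit 309319851807) (nat_lit 152) (nat_lit 203772811234) (nat_lit 0) (nat_lit 309301881109) (nat_lit 1) (nat_lit 5) (nat_lit 3) (nat_lit 4) (nat_lit 1) (nat_lit 4) (nat_lit 556) (nat_lit 323) (nat_lit 321)) (XT.lf (nat_lit 0) (nat_lit 329104276100) (nat_lit 152) (nat_lit 205115631105) (nat_lit 0) (nat_lit 329077956645) (nat_lit 1) (nat_lit 5) (nat_lit 3) (nat_lit 4) (nat_lit 1) (nat_lit 4) (nat_lit 557) (nat_lit 323) (nat_lit 320))) (XT.nd (nat_lit 78) (nat_lit 0) (nat_lit 0)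 (XT.lf (nat_lit 0) (nat_lit 118965564691) (nat_lit 152) (nat_lit 100776664469) (nat_lit 0) (nat_lit 118965564691) (nat_lit 1) (nat_lit 5) (nat_lit 3) (nat_lit 4) (nat_lit 1) (nat_lit 4) (nat_lit 552) (nat_lit 324) (nat_lit 324)) (XT.lf (nat_lit 0) (nat_lit 254659740187) (nat_lit 152) (nat_lit 201734438322) (nat_lit 0) (nat_lit 254650075458) (nat_lit 1) (nat_lit 5) (nat_lit 3) (nat_lit 4) (nat_lit 1) (nat_lit 4) (nat_lit 553) (nat_lit 324) (nat_lit 323))))) (XT.nd (nat_lit 62166) (nat_lit 0) (nat_lit 0) (XT.nd (nat_lit 156) (nat_lit 0) (nat_lit 0) (XT.nd (nat_lit 78) (nat_lit 0) (nat_lit 0) (XT.lf (nat_lit 0) (nat_lit 272072300508) (nat_lit 152) (nat_lit 202236245910) (nat_lit 0) (nat_lit 272053431274) (nat_lit 1) (nat_lit 5) (nat_lit 3) (nat_lit 4) (nat_lit 1) (nat_lit 4) (nat_lit 554) (nat_lit 324) (nat_lit 322)) (XT.lf (nat_lit 0) (nat_lit 290210268820) (nat_lit 152) (nat_lit 203059946480) (nat_lit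 0) (nat_lit 290182633393) (nat_lit 1) (nat_lit 5) (nat_lit 3) (nat_lit 4) (nat_lit 1) (nat_lit 4) (nat_lit 555) (nat_lit 324) (nat_lit 321))) (XT.nd (nat_lit 78) (nat_lit 0) (nat_lit 0) (XT.lf (nat_lit 0) (nat_lit 309116830764) (nat_lit 152) (nat_lit 204207501226) (nat_lit 0) (nat_lit 309080846580) (nat_lit 1) (nat_lit 5) (nat_lit 3) (nat_lit 4) (nat_lit 1) (nat_lit 4) (nat_lit 556) (nat_lit 324) (nat_lit 320)) (XT.lf (nat_lit 0) (nat_lit 328837001963) (nat_lit 152) (nat_lit 205681642420) (nat_lit 0) (nat_lit 328793066582) (nat_lit 1) (nat_lit 5) (nat_lit 3) (nat_lit 4) (nat_lit 1) (nat_lit 4) (nat_lit 557) (nat_lit 324) (nat_lit 319)))) (XT.nd (nat_lit 156) (nat_lit 0) (nat_lit 0) (XT.nd (nat_lit 78) (nat_lit 0) (nat_lit 0) (XT.lf (nat_lit 0) (nat_lit 103230061419) (nat_lit 152) (nat_lit 100992319742) (nat_lit 0) (nat_lit 103230061419) (nat_lit 1) (nat_lit 5) (nat_lit 3) (nat_lit 4) (nat_lit 1)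 (nat_lit 4) (nat_lit 550) (nat_lit 325) (nat_lit 325)) (XT.lf (nat_lit 0) (nat_lit 221856786033) (nat_lit 152) (nat_lit 201692486543) (nat_lit 0) (nat_lit 221846638067) (nat_lit 1) (nat_lit 5) (nat_lit 3) (nat_lit 4) (nat_lit 1) (nat_lit 4) (nat_lit 551) (nat_lit 325) (nat_lit 324))) (XT.nd (nat_lit 78) (nat_lit 0) (nat_lit 0) (XT.lf (nat_lit 0) (nat_lit 237863177311) (nat_lit 152) (nat_lit 201712950826) (nat_lit 0) (nat_lit 237843364616) (nat_lit 1) (nat_lit 5) (nat_lit 3) (nat_lit 4) (nat_lit 1) (nat_lit 4) (nat_lit 552) (nat_lit 325) (nat_lit 323)) (XT.lf (nat_lit 0) (nat_lit 254517407128) (nat_lit 152) (nat_lit 202046081056) (nat_lit 0) (nat_lit 254488389929) (nat_lit 1) (nat_lit 5) (nat_lit 3) (nat_lit 4) (nat_lit 1) (nat_lit 4) (nat_lit 553) (nat_lit 325) (nat_lit 322)))))) (XT.nd (nat_lit 62322) (nat_lit 0) (nat_lit 0) (XT.nd (nat_lit 62010) (nat_lit 0) (nat_lit 0) (XT.nd (nat_lit 156) (nat_lit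 0) (nat_lit 0) (XT.nd (nat_lit 78) (nat_lit 0) (nat_lit 0) (XT.lf (nat_lit 0) (nat_lit 271859128413) (nat_lit 152) (nat_lit 202692670401) (nat_lit 0) (nat_lit 271821345019) (nat_lit 1) (nat_lit 5) (nat_lit 3) (nat_lit 4) (nat_lit 1) (nat_lit 4) (nat_lit 554) (nat_lit 325) (nat_lit 321)) (XT.lf (nat_lit 0) (nat_lit 289929630977) (nat_lit 152) (nat_lit 203654258361) (nat_lit 0) (nat_lit 289883498827) (nat_lit 1) (nat_lit 5) (nat_lit 3) (nat_lit 4) (nat_lit 1) (nat_lit 4) (nat_lit 555) (nat_lit 325) (nat_lit 320))) (XT.nd (nat_lit 78) (nat_lit 0) (nat_lit 0) (XT.lf (nat_lit 0) (nat_lit 308771939827) (nat_lit 152) (nat_lit 204933134429) (nat_lit 0) (nat_lit 308717856480) (nat_lit 1) (nat_lit 5) (nat_lit 3) (nat_lit 4) (nat_lit 1) (nat_lit 4) (nat_lit 556) (nat_lit 325) (nat_lit 319)) (XT.lf (nat_lit 0) (nat_lit 328430917603) (nat_lit 152) (nat_lit 206532343549) (nat_lit 0) (nat_lit 328369261688) (nat_lit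 1) (nat_lit 5) (nat_lit 3) (nat_lit 4) (nat_lit 1) (nat_lit 4) (nat_lit 557) (nat_lit 325) (nat_lit 318)))) (XT.nd (nat_lit 156) (nat_lit 0) (nat_lit 0) (XT.nd (nat_lit 78) (nat_lit 0) (nat_lit 0) (XT.lf (nat_lit 0) (nat_lit 88723735459) (nat_lit 152) (nat_lit 101667171149) (nat_lit 0) (nat_lit 88723735459) (nat_lit 1) (nat_lit 5) (nat_lit 3) (nat_lit 4) (nat_lit 1) (nat_lit 4) (nat_lit 548) (nat_lit 326) (nat_lit 326)) (XT.lf (nat_lit 0) (nat_lit 191647184370) (nat_lit 152) (nat_lit 202590105252) (nat_lit 0) (nat_lit 191636529006) (nat_lit 1) (nat_lit 5) (nat_lit 3) (nat_lit 4) (nat_lit 1) (nat_lit 4) (nat_lit 549) (nat_lit 326) (nat_lit 325))) (XT.nd (nat_lit 78) (nat_lit 0) (nat_lit 0) (XT.lf (nat_lit 0) (nat_lit 206388773163) (nat_lit 152) (nat_lit 202152242467) (nat_lit 0) (nat_lit 206367969834) (nat_lit 1) (nat_lit 5) (nat_lit 3) (nat_lit 4) (nat_lit 1) (nat_lit 4) (nat_lit 550) (nat_lit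 326) (nat_lit 324)) (XT.lf (nat_lit 0) (nat_lit 221707336321) (nat_lit 152) (nat_lit 202019711414) (nat_lit 0) (nat_lit 221676868262) (nat_lit 1) (nat_lit 5) (nat_lit 3) (nat_lit 4) (nat_lit 1) (nat_lit 4) (nat_lit 551) (nat_lit 326) (nat_lit 323))))) (XT.nd (nat_lit 312) (nat_lit 0) (nat_lit 0) (XT.nd (nat_lit 156) (nat_lit 0) (nat_lit 0) (XT.nd (nat_lit 78) (nat_lit 0) (nat_lit 0) (XT.lf (nat_lit 0) (nat_lit 237639346611) (nat_lit 152) (nat_lit 202192196542) (nat_lit 0) (nat_lit 237599674048) (nat_lit 1) (nat_lit 5) (nat_lit 3) (nat_lit 4) (nat_lit 1) (nat_lit 4) (nat_lit 552) (nat_lit 326) (nat_lit 322)) (XT.lf (nat_lit 0) (nat_lit 254222737393) (nat_lit 152) (nat_lit 202670108530) (nat_lit 0) (nat_lit 254174298635) (nat_lit 1) (nat_lit 5) (nat_lit 3) (nat_lit 4) (nat_lit 1) (nat_lit 4) (nat_lit 553) (nat_lit 326) (nat_lit 321))) (XT.nd (nat_lit 78) (nat_lit 0) (nat_lit 0) (XT.lf (nat_lit 0)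 (nat_lit 271496992928) (nat_lit 152) (nat_lit 203454585264) (nat_lit 0) (nat_lit 271440205414) (nat_lit 1) (nat_lit 5) (nat_lit 3) (nat_lit 4) (nat_lit 1) (nat_lit 4) (nat_lit 554) (nat_lit 326) (nat_lit 320)) (XT.lf (nat_lit 0) (nat_lit 289503242399) (nat_lit 152) (nat_lit 204547494546) (nat_lit 0) (nat_lit 289438503688) (nat_lit 1) (nat_lit 5) (nat_lit 3) (nat_lit 4) (nat_lit 1) (nat_lit 4) (nat_lit 555) (nat_lit 326) (nat_lit 319)))) (XT.nd (nat_lit 61698) (nat_lit 0) (nat_lit 0) (XT.nd (nat_lit 78) (nat_lit 0) (nat_lit 0) (XT.lf (nat_lit 0) (nat_lit 308284357826) (nat_lit 152) (nat_lit 205951438540) (nat_lit 0) (nat_lit 308212046547) (nat_lit 1) (nat_lit 5) (nat_lit 3) (nat_lit 4) (nat_lit 1) (nat_lit 4) (nat_lit 556) (nat_lit 326) (nat_lit 318)) (XT.lf (nat_lit 0) (nat_lit 327885056152) (nat_lit 152) (nat_lit 207669759970) (nat_lit 0) (nat_lit 327805532903) (nat_lit 1) (nat_lit 5) (nat_lit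 3) (nat_lit 4) (nat_lit 1) (nat_lit 4) (nat_lit 557) (nat_lit 326) (nat_lit 317))) (XT.nd (nat_lit 78) (nat_lit 0) (nat_lit 0) (XT.lf (nat_lit 0) (nat_lit 75320621524) (nat_lit 152) (nat_lit 102782489271) (nat_lit 0) (nat_lit 75320621524) (nat_lit 1) (nat_lit 5) (nat_lit 3) (nat_lit 4) (nat_lit 1) (nat_lit 4) (nat_lit 546) (nat_lit 327) (nat_lit 327)) (XT.lf (nat_lit 0) (nat_lit 163767012101) (nat_lit 152) (nat_lit 204386725599) (nat_lit 0) (nat_lit 163755823969) (nat_lit 1) (nat_lit 5) (nat_lit 3) (nat_lit 4) (nat_lit 1) (nat_lit 4) (nat_lit 547) (nat_lit 327) (nat_lit 326)))))))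
noncomputable def xc1 : XT := (XT.nd (nat_lit 62634) (nat_lit 0) (nat_lit 0) (XT.nd (nat_lit 624) (nat_lit 0) (nat_lit 0) (XT.nd (nat_lit 312) (nat_lit 0) (nat_lit 0) (XT.nd (nat_lit 156) (nat_lit 0) (nat_lit 0) (XT.nd (nat_lit 78) (nat_lit 0) (nat_lit 0) (XT.lf (nat_lit 0) (nat_lit 177372553760) (nat_lit 152) (nat_lit 203510325430) (nat_lit 0) (nat_lit 177350710264) (nat_lit 1) (nat_lit 5) (nat_lit 3) (nat_lit 4) (nat_lit 1) (nat_lit 4) (nat_lit 548) (nat_lit 327) (nat_lit 325)) (XT.lf (nat_lit 0) (nat_lit 191490262172) (nat_lit 152) (nat_lit 202933691366) (nat_lit 0) (nat_lit 191458270710) (nat_lit 1) (nat_lit 5) (nat_lit 3) (nat_lit 4) (nat_lit 1) (nat_lit 4) (nat_lit 549) (nat_lit 327) (nat_lit 324))) (XT.nd (nat_lit 78) (nat_lit 0) (nat_lit 0) (XT.lf (nat_lit 0) (nat_lit 206153750929) (nat_lit 152) (nat_lit 202655450469) (nat_lit 0) (nat_lit 206112094737) (nat_lit 1) (nat_lit 5) (nat_lit 3)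 (nat_lit 4) (nat_lit 1) (nat_lit 4) (nat_lit 550) (nat_lit 327) (nat_lit 323)) (XT.lf (nat_lit 0) (nat_lit 221397933098) (nat_lit 152) (nat_lit 202674940262) (nat_lit 0) (nat_lit 221347072403) (nat_lit 1) (nat_lit 5) (nat_lit 3) (nat_lit 4) (nat_lit 1) (nat_lit 4) (nat_lit 551) (nat_lit 327) (nat_lit 322)))) (XT.nd (nat_lit 156) (nat_lit 0) (nat_lit 0) (XT.nd (nat_lit 78) (nat_lit 0) (nat_lit 0) (XT.lf (nat_lit 0) (nat_lit 237259104353) (nat_lit 152) (nat_lit 202992207148) (nat_lit 0) (nat_lit 237199477463) (nat_lit 1) (nat_lit 5) (nat_lit 3) (nat_lit 4) (nat_lit 1) (nat_lit 4) (nat_lit 552) (nat_lit 327) (nat_lit 321)) (XT.lf (nat_lit 0) (nat_lit 253775029386) (nat_lit 152) (nat_lit 203608006525) (nat_lit 0) (nat_lit 253707053739) (nat_lit 1) (nat_lit 5) (nat_lit 3) (nat_lit 4) (nat_lit 1) (nat_lit 4) (nat_lit 553) (nat_lit 327) (nat_lit 320))) (XT.nd (nat_lit 78) (nat_lit 0) (nat_lit 0) (XT.lf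 (nat_lit 0) (nat_lit 270985031828) (nat_lit 152) (nat_lit 204523804581) (nat_lit 0) (nat_lit 270909104985) (nat_lit 1) (nat_lit 5) (nat_lit 3) (nat_lit 4) (nat_lit 1) (nat_lit 4) (nat_lit 554) (nat_lit 327) (nat_lit 319)) (XT.lf (nat_lit 0) (nat_lit 288930087875) (nat_lit 152) (nat_lit 205741781789) (nat_lit 0) (nat_lit 288846588464) (nat_lit 1) (nat_lit 5) (nat_lit 3) (nat_lit 4) (nat_lit 1) (nat_lit 4) (nat_lit 555) (nat_lit 327) (nat_lit 318))))) (XT.nd (nat_lit 61698) (nat_lit 0) (nat_lit 0) (XT.nd (nat_lit 61542) (nat_lit 0) (nat_lit 0) (XT.nd (nat_lit 78) (nat_lit 0) (nat_lit 0) (XT.lf (nat_lit 0) (nat_lit 307652923852) (nat_lit 152) (nat_lit 207264838093) (nat_lit 0) (nat_lit 307562212471) (nat_lit 1) (nat_lit 5) (nat_lit 3) (nat_lit 4) (nat_lit 1) (nat_lit 4) (nat_lit 556) (nat_lit 327) (nat_lit 317)) (XT.lf (nat_lit 0) (nat_lit 327198117940) (nat_lit 152) (nat_lit 209096599820) (nat_lit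 0) (nat_lit 327100538016) (nat_lit 1) (nat_lit 5) (nat_lit 3) (nat_lit 4) (nat_lit 1) (nat_lit 4) (nat_lit 557) (nat_lit 327) (nat_lit 316))) (XT.nd (nat_lit 78) (nat_lit 0) (nat_lit 0) (XT.lf (nat_lit 0) (nat_lit 62905880982) (nat_lit 152) (nat_lit 104322484087) (nat_lit 0) (nat_lit 62905880982) (nat_lit 1) (nat_lit 5) (nat_lit 3) (nat_lit 4) (nat_lit 1) (nat_lit 4) (nat_lit 544) (nat_lit 328) (nat_lit 328)) (XT.lf (nat_lit 0) (nat_lit 137975742309) (nat_lit 152) (nat_lit 207047889621) (nat_lit 0) (nat_lit 137963994770) (nat_lit 1) (nat_lit 5) (nat_lit 3) (nat_lit 4) (nat_lit 1) (nat_lit 4) (nat_lit 545) (nat_lit 328) (nat_lit 327)))) (XT.nd (nat_lit 156) (nat_lit 0) (nat_lit 0) (XT.nd (nat_lit 78) (nat_lit 0) (nat_lit 0) (XT.lf (nat_lit 0) (nat_lit 150562580031) (nat_lit 152) (nat_lit 205749760830) (nat_lit 0) (nat_lit 150539644360) (nat_lit 1) (nat_lit 5) (nat_lit 3) (nat_lit 4) (nat_lit 1)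 (nat_lit 4) (nat_lit 546) (nat_lit 328) (nat_lit 326)) (XT.lf (nat_lit 0) (nat_lit 163602243793) (nat_lit 152) (nat_lit 204747491019) (nat_lit 0) (nat_lit 163568652758) (nat_lit 1) (nat_lit 5) (nat_lit 3) (nat_lit 4) (nat_lit 1) (nat_lit 4) (nat_lit 547) (nat_lit 328) (nat_lit 325))) (XT.nd (nat_lit 78) (nat_lit 0) (nat_lit 0) (XT.lf (nat_lit 0) (nat_lit 177125780413) (nat_lit 152) (nat_lit 204038693832) (nat_lit 0) (nat_lit 177082041412) (nat_lit 1) (nat_lit 5) (nat_lit 3) (nat_lit 4) (nat_lit 1) (nat_lit 4) (nat_lit 548) (nat_lit 328) (nat_lit 324)) (XT.lf (nat_lit 0) (nat_lit 191165388788) (nat_lit 152) (nat_lit 203621681656) (nat_lit 0) (nat_lit 191111985058) (nat_lit 1) (nat_lit 5) (nat_lit 3) (nat_lit 4) (nat_lit 1) (nat_lit 4) (nat_lit 549) (nat_lit 328) (nat_lit 323)))))) (XT.nd (nat_lit 61854) (nat_lit 0) (nat_lit 0) (XT.nd (nat_lit 312) (nat_lit 0) (nat_lit 0) (XT.nd (nat_lit 156) (nat_lit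 0) (nat_lit 0) (XT.nd (nat_lit 78) (nat_lit 0) (nat_lit 0) (XT.lf (nat_lit 0) (nat_lit 205754496557) (nat_lit 152) (nat_lit 203495461606) (nat_lit 0) (nat_lit 205691888323) (nat_lit 1) (nat_lit 5) (nat_lit 3) (nat_lit 4) (nat_lit 1) (nat_lit 4) (nat_lit 550) (nat_lit 328) (nat_lit 322)) (XT.lf (nat_lit 0) (nat_lit 220927839691) (nat_lit 152) (nat_lit 203659733156) (nat_lit 0) (nat_lit 220856465262) (nat_lit 1) (nat_lit 5) (nat_lit 3) (nat_lit 4) (nat_lit 1) (nat_lit 4) (nat_lit 551) (nat_lit 328) (nat_lit 321))) (XT.nd (nat_lit 78) (nat_lit 0) (nat_lit 0) (XT.lf (nat_lit 0) (nat_lit 236721545197) (nat_lit 152) (nat_lit 204114887431) (nat_lit 0) (nat_lit 236641822012) (nat_lit 1) (nat_lit 5) (nat_lit 3) (nat_lit 4) (nat_lit 1) (nat_lit 4) (nat_lit 552) (nat_lit 328) (nat_lit 320)) (XT.lf (nat_lit 0) (nat_lit 253173217136) (nat_lit 152) (nat_lit 204862008130) (nat_lit 0) (nat_lit 253085542754) (nat_lit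 1) (nat_lit 5) (nat_lit 3) (nat_lit 4) (nat_lit 1) (nat_lit 4) (nat_lit 553) (nat_lit 328) (nat_lit 319)))) (XT.nd (nat_lit 156) (nat_lit 0) (nat_lit 0) (XT.nd (nat_lit 78) (nat_lit 0) (nat_lit 0) (XT.lf (nat_lit 0) (nat_lit 270322026155) (nat_lit 152) (nat_lit 205902874112) (nat_lit 0) (nat_lit 270226779205) (nat_lit 1) (nat_lit 5) (nat_lit 3) (nat_lit 4) (nat_lit 1) (nat_lit 4) (nat_lit 554) (nat_lit 328) (nat_lit 318)) (XT.lf (nat_lit 0) (nat_lit 288208802753) (nat_lit 152) (nat_lit 207239963631) (nat_lit 0) (nat_lit 288106343833) (nat_lit 1) (nat_lit 5) (nat_lit 3) (nat_lit 4) (nat_lit 1) (nat_lit 4) (nat_lit 555) (nat_lit 328) (nat_lit 317))) (XT.nd (nat_lit 78) (nat_lit 0) (nat_lit 0) (XT.lf (nat_lit 0) (nat_lit 306876134492) (nat_lit 152) (nat_lit 208876460231) (nat_lit 0) (nat_lit 306766807029) (nat_lit 1) (nat_lit 5) (nat_lit 3) (nat_lit 4) (nat_lit 1) (nat_lit 4) (nat_lit 556) (nat_lit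 328) (nat_lit 316)) (XT.lf (nat_lit 0) (nat_lit 326368467400) (nat_lit 152) (nat_lit 210816260334) (nat_lit 0) (nat_lit 326252598468) (nat_lit 1) (nat_lit 5) (nat_lit 3) (nat_lit 4) (nat_lit 1) (nat_lit 4) (nat_lit 557) (nat_lit 328) (nat_lit 315))))) (XT.nd (nat_lit 312) (nat_lit 0) (nat_lit 0) (XT.nd (nat_lit 156) (nat_lit 0) (nat_lit 0) (XT.nd (nat_lit 78) (nat_lit 0) (nat_lit 0) (XT.lf (nat_lit 0) (nat_lit 51374738190) (nat_lit 152) (nat_lit 106274091605) (nat_lit 0) (nat_lit 51374738190) (nat_lit 1) (nat_lit 5) (nat_lit 3) (nat_lit 4) (nat_lit 1) (nat_lit 4) (nat_lit 542) (nat_lit 329) (nat_lit 329)) (XT.lf (nat_lit 0) (nat_lit 114054012058) (nat_lit 152) (nat_lit 210544799060) (nat_lit 0) (nat_lit 114041677142) (nat_lit 1) (nat_lit 5) (nat_lit 3) (nat_lit 4) (nat_lit 1) (nat_lit 4) (nat_lit 543) (nat_lit 329) (nat_lit 328))) (XT.nd (nat_lit 78) (nat_lit 0) (nat_lit 0) (XT.lf (nat_lit 0) (nat_lit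 125729165798) (nat_lit 152) (nat_lit 208838989578) (nat_lit 0) (nat_lit 125705083343) (nat_lit 1) (nat_lit 5) (nat_lit 3) (nat_lit 4) (nat_lit 1) (nat_lit 4) (nat_lit 544) (nat_lit 329) (nat_lit 327)) (XT.lf (nat_lit 0) (nat_lit 137802735586) (nat_lit 152) (nat_lit 207426693312) (nat_lit 0) (nat_lit 137767464999) (nat_lit 1) (nat_lit 5) (nat_lit 3) (nat_lit 4) (nat_lit 1) (nat_lit 4) (nat_lit 545) (nat_lit 329) (nat_lit 326)))) (XT.nd (nat_lit 156) (nat_lit 0) (nat_lit 0) (XT.nd (nat_lit 78) (nat_lit 0) (nat_lit 0) (XT.lf (nat_lit 0) (nat_lit 150303468017) (nat_lit 152) (nat_lit 206304547652) (nat_lit 0) (nat_lit 150257542066) (nat_lit 1) (nat_lit 5) (nat_lit 3) (nat_lit 4) (nat_lit 1) (nat_lit 4) (nat_lit 546) (nat_lit 329) (nat_lit 325)) (XT.lf (nat_lit 0) (nat_lit 163261126740) (nat_lit 152) (nat_lit 205469880824) (nat_lit 0) (nat_lit 163205052824) (nat_lit 1) (nat_lit 5) (nat_lit 3) (nat_lit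 4) (nat_lit 1) (nat_lit 4) (nat_lit 547) (nat_lit 329) (nat_lit 324))) (XT.nd (nat_lit 78) (nat_lit 0) (nat_lit 0) (XT.lf (nat_lit 0) (nat_lit 176706563323) (nat_lit 152) (nat_lit 204920705525) (nat_lit 0) (nat_lit 176640824677) (nat_lit 1) (nat_lit 5) (nat_lit 3) (nat_lit 4) (nat_lit 1) (nat_lit 4) (nat_lit 548) (nat_lit 329) (nat_lit 323)) (XT.nd (nat_lit 78) (nat_lit 0) (nat_lit 0) (XT.lf (nat_lit 0) (nat_lit 190671790711) (nat_lit 152) (nat_lit 204655714195) (nat_lit 0) (nat_lit 190596847561) (nat_lit 1) (nat_lit 5) (nat_lit 3) (nat_lit 4) (nat_lit 1) (nat_lit 4) (nat_lit 549) (nat_lit 329) (nat_lit 322)) (XT.lf (nat_lit 0) (nat_lit 205190059444) (nat_lit 152) (nat_lit 204674275903) (nat_lit 0) (nat_lit 205106350099) (nat_lit 1) (nat_lit 5) (nat_lit 3) (nat_lit 4) (nat_lit 1) (nat_lit 4) (nat_lit 550) (nat_lit 329) (nat_lit 321))))))))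
noncomputable def xc2 : XT := (XT.nd (nat_lit 62322) (nat_lit 0) (nat_lit 0) (XT.nd (nat_lit 61698) (nat_lit 0) (nat_lit 0) (XT.nd (nat_lit 312) (nat_lit 0) (nat_lit 0) (XT.nd (nat_lit 156) (nat_lit 0) (nat_lit 0) (XT.nd (nat_lit 78) (nat_lit 0) (nat_lit 0) (XT.lf (nat_lit 0) (nat_lit 220295936829) (nat_lit 152) (nat_lit 204976434842) (nat_lit 0) (nat_lit 220203878728) (nat_lit 1) (nat_lit 5) (nat_lit 3) (nat_lit 4) (nat_lit 1) (nat_lit 4) (nat_lit 551) (nat_lit 329) (nat_lit 320)) (XT.lf (nat_lit 0) (nat_lit 236025389241) (nat_lit 152) (nat_lit 205562910438) (nat_lit 0) (nat_lit 235925379943) (nat_lit 1) (nat_lit 5) (nat_lit 3) (nat_lit 4) (nat_lit 1) (nat_lit 4) (nat_lit 552) (nat_lit 329) (nat_lit 319))) (XT.nd (nat_lit 78) (nat_lit 0) (nat_lit 0) (XT.lf (nat_lit 0) (nat_lit 252415867757) (nat_lit 152) (nat_lit 206435099064) (nat_lit 0) (nat_lit 252308285891) (nat_lit 1) (nat_lit 5) (nat_lit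 3) (nat_lit 4) (nat_lit 1) (nat_lit 4) (nat_lit 553) (nat_lit 329) (nat_lit 318)) (XT.lf (nat_lit 0) (nat_lit 269506397326) (nat_lit 152) (nat_lit 207595077357) (nat_lit 0) (nat_lit 269391603491) (nat_lit 1) (nat_lit 5) (nat_lit 3) (nat_lit 4) (nat_lit 1) (nat_lit 4) (nat_lit 554) (nat_lit 329) (nat_lit 317)))) (XT.nd (nat_lit 156) (nat_lit 0) (nat_lit 0) (XT.nd (nat_lit 78) (nat_lit 0) (nat_lit 0) (XT.lf (nat_lit 0) (nat_lit 287337669686) (nat_lit 152) (nat_lit 209045607171) (nat_lit 0) (nat_lit 287216007307) (nat_lit 1) (nat_lit 5) (nat_lit 3) (nat_lit 4) (nat_lit 1) (nat_lit 4) (nat_lit 555) (nat_lit 329) (nat_lit 316)) (XT.lf (nat_lit 0) (nat_lit 305952140245) (nat_lit 152) (nat_lit 210790142148) (nat_lit 0) (nat_lit 305823936398) (nat_lit 1) (nat_lit 5) (nat_lit 3) (nat_lit 4) (nat_lit 1) (nat_lit 4) (nat_lit 556) (nat_lit 329) (nat_lit 315))) (XT.nd (nat_lit 61152) (nat_lit 0) (nat_lit 0)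 (XT.lf (nat_lit 0) (nat_lit 325394129173) (nat_lit 152) (nat_lit 212832835943) (nat_lit 0) (nat_lit 325259695355) (nat_lit 1) (nat_lit 5) (nat_lit 3) (nat_lit 4) (nat_lit 1) (nat_lit 4) (nat_lit 557) (nat_lit 329) (nat_lit 314)) (XT.lf (nat_lit 0) (nat_lit 40631514246) (nat_lit 152) (nat_lit 108626783318) (nat_lit 0) (nat_lit 40631514246) (nat_lit 1) (nat_lit 5) (nat_lit 3) (nat_lit 4) (nat_lit 1) (nat_lit 4) (nat_lit 540) (nat_lit 330) (nat_lit 330))))) (XT.nd (nat_lit 312) (nat_lit 0) (nat_lit 0) (XT.nd (nat_lit 156) (nat_lit 0) (nat_lit 0) (XT.nd (nat_lit 78) (nat_lit 0) (nat_lit 0) (XT.lf (nat_lit 0) (nat_lit 91801594868) (nat_lit 152) (nat_lit 214853911991) (nat_lit 0) (nat_lit 91788643206) (nat_lit 1) (nat_lit 5) (nat_lit 3) (nat_lit 4) (nat_lit 1) (nat_lit 4) (nat_lit 541) (nat_lit 330) (nat_lit 329)) (XT.lf (nat_lit 0) (nat_lit 102662750405) (nat_lit 152) (nat_lit 212751905683) (nat_lit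 0) (nat_lit 102637463828) (nat_lit 1) (nat_lit 5) (nat_lit 3) (nat_lit 4) (nat_lit 1) (nat_lit 4) (nat_lit 542) (nat_lit 330) (nat_lit 328))) (XT.nd (nat_lit 78) (nat_lit 0) (nat_lit 0) (XT.lf (nat_lit 0) (nat_lit 113872354999) (nat_lit 152) (nat_lit 210942542935) (nat_lit 0) (nat_lit 113835320882) (nat_lit 1) (nat_lit 5) (nat_lit 3) (nat_lit 4) (nat_lit 1) (nat_lit 4) (nat_lit 543) (nat_lit 330) (nat_lit 327)) (XT.lf (nat_lit 0) (nat_lit 125457098183) (nat_lit 152) (nat_lit 209421515741) (nat_lit 0) (nat_lit 125408875935) (nat_lit 1) (nat_lit 5) (nat_lit 3) (nat_lit 4) (nat_lit 1) (nat_lit 4) (nat_lit 544) (nat_lit 330) (nat_lit 326)))) (XT.nd (nat_lit 156) (nat_lit 0) (nat_lit 0) (XT.nd (nat_lit 78) (nat_lit 0) (nat_lit 0) (XT.lf (nat_lit 0) (nat_lit 137444562681) (nat_lit 152) (nat_lit 208185202607) (nat_lit 0) (nat_lit 137385685068) (nat_lit 1) (nat_lit 5) (nat_lit 3) (nat_lit 4) (nat_lit 1)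 (nat_lit 4) (nat_lit 545) (nat_lit 330) (nat_lit 325)) (XT.lf (nat_lit 0) (nat_lit 149863290073) (nat_lit 152) (nat_lit 207230659930) (nat_lit 0) (nat_lit 149794264495) (nat_lit 1) (nat_lit 5) (nat_lit 3) (nat_lit 4) (nat_lit 1) (nat_lit 4) (nat_lit 546) (nat_lit 330) (nat_lit 324))) (XT.nd (nat_lit 78) (nat_lit 0) (nat_lit 0) (XT.lf (nat_lit 0) (nat_lit 162742848759) (nat_lit 152) (nat_lit 206555614990) (nat_lit 0) (nat_lit 162664158451) (nat_lit 1) (nat_lit 5) (nat_lit 3) (nat_lit 4) (nat_lit 1) (nat_lit 4) (nat_lit 547) (nat_lit 330) (nat_lit 323)) (XT.lf (nat_lit 0) (nat_lit 176113904354) (nat_lit 152) (nat_lit 206158460537) (nat_lit 0) (nat_lit 176026009542) (nat_lit 1) (nat_lit 5) (nat_lit 3) (nat_lit 4) (nat_lit 1) (nat_lit 4) (nat_lit 548) (nat_lit 330) (nat_lit 322)))))) (XT.nd (nat_lit 624) (nat_lit 0) (nat_lit 0) (XT.nd (nat_lit 312) (nat_lit 0) (nat_lit 0) (XT.nd (nat_lit 156) (nat_lit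 0) (nat_lit 0) (XT.nd (nat_lit 78) (nat_lit 0) (nat_lit 0) (XT.lf (nat_lit 0) (nat_lit 190008292705) (nat_lit 152) (nat_lit 206038250965) (nat_lit 0) (nat_lit 189911631699) (nat_lit 1) (nat_lit 5) (nat_lit 3) (nat_lit 4) (nat_lit 1) (nat_lit 4) (nat_lit 549) (nat_lit 330) (nat_lit 321)) (XT.lf (nat_lit 0) (nat_lit 204459095690) (nat_lit 152) (nat_lit 206194700061) (nat_lit 0) (nat_lit 204354085927) (nat_lit 1) (nat_lit 5) (nat_lit 3) (nat_lit 4) (nat_lit 1) (nat_lit 4) (nat_lit 550) (nat_lit 330) (nat_lit 320))) (XT.nd (nat_lit 78) (nat_lit 0) (nat_lit 0) (XT.lf (nat_lit 0) (nat_lit 219500719981) (nat_lit 152) (nat_lit 206628180322) (nat_lit 0) (nat_lit 219387759022) (nat_lit 1) (nat_lit 5) (nat_lit 3) (nat_lit 4) (nat_lit 1) (nat_lit 4) (nat_lit 551) (nat_lit 330) (nat_lit 319)) (XT.lf (nat_lit 0) (nat_lit 235168978971) (nat_lit 152) (nat_lit 207339723845) (nat_lit 0) (nat_lit 235048445443) (nat_lit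 1) (nat_lit 5) (nat_lit 3) (nat_lit 4) (nat_lit 1) (nat_lit 4) (nat_lit 552) (nat_lit 330) (nat_lit 318)))) (XT.nd (nat_lit 156) (nat_lit 0) (nat_lit 0) (XT.nd (nat_lit 78) (nat_lit 0) (nat_lit 0) (XT.lf (nat_lit 0) (nat_lit 251501178037) (nat_lit 152) (nat_lit 208331024781) (nat_lit 0) (nat_lit 251373432540) (nat_lit 1) (nat_lit 5) (nat_lit 3) (nat_lit 4) (nat_lit 1) (nat_lit 4) (nat_lit 553) (nat_lit 330) (nat_lit 317)) (XT.lf (nat_lit 0) (nat_lit 268536203368) (nat_lit 152) (nat_lit 209604443369) (nat_lit 0) (nat_lit 268401589328) (nat_lit 1) (nat_lit 5) (nat_lit 3) (nat_lit 4) (nat_lit 1) (nat_lit 4) (nat_lit 554) (nat_lit 330) (nat_lit 316))) (XT.nd (nat_lit 78) (nat_lit 0) (nat_lit 0) (XT.lf (nat_lit 0) (nat_lit 286314614548) (nat_lit 152) (nat_lit 211163011560) (nat_lit 0) (nat_lit 286173459038) (nat_lit 1) (nat_lit 5) (nat_lit 3) (nat_lit 4) (nat_lit 1) (nat_lit 4) (nat_lit 555) (nat_lit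 330) (nat_lit 315)) (XT.lf (nat_lit 0) (nat_lit 304878741127) (nat_lit 152) (nat_lit 213010440230) (nat_lit 0) (nat_lit 304731355647) (nat_lit 1) (nat_lit 5) (nat_lit 3) (nat_lit 4) (nat_lit 1) (nat_lit 4) (nat_lit 556) (nat_lit 330) (nat_lit 314))))) (XT.nd (nat_lit 61230) (nat_lit 0) (nat_lit 0) (XT.nd (nat_lit 61074) (nat_lit 0) (nat_lit 0) (XT.nd (nat_lit 60996) (nat_lit 0) (nat_lit 0) (XT.lf (nat_lit 0) (nat_lit 324272783407) (nat_lit 152) (nat_lit 215151128018) (nat_lit 0) (nat_lit 324119464622) (nat_lit 1) (nat_lit 5) (nat_lit 3) (nat_lit 4) (nat_lit 1) (nat_lit 4) (nat_lit 557) (nat_lit 330) (nat_lit 313)) (XT.lf (nat_lit 0) (nat_lit 30588749048) (nat_lit 152) (nat_lit 111372396527) (nat_lit 0) (nat_lit 30588749048) (nat_lit 1) (nat_lit 5) (nat_lit 3) (nat_lit 4) (nat_lit 1) (nat_lit 4) (nat_lit 538) (nat_lit 331) (nat_lit 331))) (XT.nd (nat_lit 78) (nat_lit 0) (nat_lit 0) (XT.lf (nat_lit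 0) (nat_lit 71035558699) (nat_lit 152) (nat_lit 219956583081) (nat_lit 0) (nat_lit 71021959455) (nat_lit 1) (nat_lit 5) (nat_lit 3) (nat_lit 4) (nat_lit 1) (nat_lit 4) (nat_lit 539) (nat_lit 331) (nat_lit 330)) (XT.lf (nat_lit 0) (nat_lit 81171966218) (nat_lit 152) (nat_lit 217467475232) (nat_lit 0) (nat_lit 81145415312) (nat_lit 1) (nat_lit 5) (nat_lit 3) (nat_lit 4) (nat_lit 1) (nat_lit 4) (nat_lit 540) (nat_lit 331) (nat_lit 329)))) (XT.nd (nat_lit 156) (nat_lit 0) (nat_lit 0) (XT.nd (nat_lit 78) (nat_lit 0) (nat_lit 0) (XT.lf (nat_lit 0) (nat_lit 91610854956) (nat_lit 152) (nat_lit 215271543060) (nat_lit 0) (nat_lit 91571969134) (nat_lit 1) (nat_lit 5) (nat_lit 3) (nat_lit 4) (nat_lit 1) (nat_lit 4) (nat_lit 541) (nat_lit 331) (nat_lit 328)) (XT.lf (nat_lit 0) (nat_lit 102377079410) (nat_lit 152) (nat_lit 213363558155) (nat_lit 0) (nat_lit 102326446049) (nat_lit 1) (nat_lit 5) (nat_lit 3) (nat_lit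 4) (nat_lit 1) (nat_lit 4) (nat_lit 542) (nat_lit 331) (nat_lit 327))) (XT.nd (nat_lit 78) (nat_lit 0) (nat_lit 0) (XT.lf (nat_lit 0) (nat_lit 113496273448) (nat_lit 152) (nat_lit 211738977695) (nat_lit 0) (nat_lit 113434451955) (nat_lit 1) (nat_lit 5) (nat_lit 3) (nat_lit 4) (nat_lit 1) (nat_lit 4) (nat_lit 543) (nat_lit 331) (nat_lit 326)) (XT.nd (nat_lit 78) (nat_lit 0) (nat_lit 0) (XT.lf (nat_lit 0) (nat_lit 124994911342) (nat_lit 152) (nat_lit 210393933633) (nat_lit 0) (nat_lit 124922434484) (nat_lit 1) (nat_lit 5) (nat_lit 3) (nat_lit 4) (nat_lit 1) (nat_lit 4) (nat_lit 544) (nat_lit 331) (nat_lit 325)) (XT.lf (nat_lit 0) (nat_lit 136900370800) (nat_lit 152) (nat_lit 209325223481) (nat_lit 0) (nat_lit 136817745977) (nat_lit 1) (nat_lit 5) (nat_lit 3) (nat_lit 4) (nat_lit 1) (nat_lit 4) (nat_lit 545) (nat_lit 331) (nat_lit 324))))))))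
noncomputable def xc3 : XT := (XT.nd (nat_lit 62010) (nat_lit 0) (nat_lit 0) (XT.nd (nat_lit 624) (nat_lit 0) (nat_lit 0) (XT.nd (nat_lit 312) (nat_lit 0) (nat_lit 0) (XT.nd (nat_lit 156) (nat_lit 0) (nat_lit 0) (XT.nd (nat_lit 78) (nat_lit 0) (nat_lit 0) (XT.lf (nat_lit 0) (nat_lit 149240998155) (nat_lit 152) (nat_lit 208530302692) (nat_lit 0) (nat_lit 149148708603) (nat_lit 1) (nat_lit 5) (nat_lit 3) (nat_lit 4) (nat_lit 1) (nat_lit 4) (nat_lit 546) (nat_lit 331) (nat_lit 323)) (XT.lf (nat_lit 0) (nat_lit 162046175853) (nat_lit 152) (nat_lit 208007278598) (nat_lit 0) (nat_lit 161944681797) (nat_lit 1) (nat_lit 5) (nat_lit 3) (nat_lit 4) (nat_lit 1) (nat_lit 4) (nat_lit 547) (nat_lit 331) (nat_lit 322))) (XT.nd (nat_lit 78) (nat_lit 0) (nat_lit 0) (XT.lf (nat_lit 0) (nat_lit 175346392413) (nat_lit 152) (nat_lit 207754905903) (nat_lit 0) (nat_lit 175236132162) (nat_lit 1) (nat_lit 5) (nat_lit 3)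 (nat_lit 4) (nat_lit 1) (nat_lit 4) (nat_lit 548) (nat_lit 331) (nat_lit 321)) (XT.lf (nat_lit 0) (nat_lit 189173315015) (nat_lit 152) (nat_lit 207772583719) (nat_lit 0) (nat_lit 189054706008) (nat_lit 1) (nat_lit 5) (nat_lit 3) (nat_lit 4) (nat_lit 1) (nat_lit 4) (nat_lit 549) (nat_lit 331) (nat_lit 320)))) (XT.nd (nat_lit 156) (nat_lit 0) (nat_lit 0) (XT.nd (nat_lit 78) (nat_lit 0) (nat_lit 0) (XT.lf (nat_lit 0) (nat_lit 203559864906) (nat_lit 152) (nat_lit 208060354137) (nat_lit 0) (nat_lit 203433304702) (nat_lit 1) (nat_lit 5) (nat_lit 3) (nat_lit 4) (nat_lit 1) (nat_lit 4) (nat_lit 550) (nat_lit 331) (nat_lit 319)) (XT.lf (nat_lit 0) (nat_lit 218540295775) (nat_lit 152) (nat_lit 208618902325) (nat_lit 0) (nat_lit 218406163003) (nat_lit 1) (nat_lit 5) (nat_lit 3) (nat_lit 4) (nat_lit 1) (nat_lit 4) (nat_lit 551) (nat_lit 331) (nat_lit 318))) (XT.nd (nat_lit 78) (nat_lit 0) (nat_lit 0) (XT.lf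 (nat_lit 0) (nat_lit 234150275314) (nat_lit 152) (nat_lit 209449558158) (nat_lit 0) (nat_lit 234008930572) (nat_lit 1) (nat_lit 5) (nat_lit 3) (nat_lit 4) (nat_lit 1) (nat_lit 4) (nat_lit 552) (nat_lit 331) (nat_lit 317)) (XT.lf (nat_lit 0) (nat_lit 250426970142) (nat_lit 152) (nat_lit 210554299390) (nat_lit 0) (nat_lit 250278756857) (nat_lit 1) (nat_lit 5) (nat_lit 3) (nat_lit 4) (nat_lit 1) (nat_lit 4) (nat_lit 553) (nat_lit 331) (nat_lit 316))))) (XT.nd (nat_lit 61074) (nat_lit 0) (nat_lit 0) (XT.nd (nat_lit 156) (nat_lit 0) (nat_lit 0) (XT.nd (nat_lit 78) (nat_lit 0) (nat_lit 0) (XT.lf (nat_lit 0) (nat_lit 267409134294) (nat_lit 152) (nat_lit 211935756356) (nat_lit 0) (nat_lit 267254379540) (nat_lit 1) (nat_lit 5) (nat_lit 3) (nat_lit 4) (nat_lit 1) (nat_lit 4) (nat_lit 554) (nat_lit 331) (nat_lit 315)) (XT.lf (nat_lit 0) (nat_lit 285137201493) (nat_lit 152) (nat_lit 213597218239) (nat_lit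 0) (nat_lit 284976216769) (nat_lit 1) (nat_lit 5) (nat_lit 3) (nat_lit 4) (nat_lit 1) (nat_lit 4) (nat_lit 555) (nat_lit 331) (nat_lit 314))) (XT.nd (nat_lit 78) (nat_lit 0) (nat_lit 0) (XT.lf (nat_lit 0) (nat_lit 303653381425) (nat_lit 152) (nat_lit 215542640901) (nat_lit 0) (nat_lit 303486463395) (nat_lit 1) (nat_lit 5) (nat_lit 3) (nat_lit 4) (nat_lit 1) (nat_lit 4) (nat_lit 556) (nat_lit 331) (nat_lit 313)) (XT.lf (nat_lit 0) (nat_lit 323001760230) (nat_lit 152) (nat_lit 217776656301) (nat_lit 0) (nat_lit 322829191434) (nat_lit 1) (nat_lit 5) (nat_lit 3) (nat_lit 4) (nat_lit 1) (nat_lit 4) (nat_lit 557) (nat_lit 331) (nat_lit 312)))) (XT.nd (nat_lit 156) (nat_lit 0) (nat_lit 0) (XT.nd (nat_lit 78) (nat_lit 0) (nat_lit 0) (XT.lf (nat_lit 0) (nat_lit 21166403362) (nat_lit 152) (nat_lit 114504983739) (nat_lit 0) (nat_lit 21166403362) (nat_lit 1) (nat_lit 5) (nat_lit 3) (nat_lit 4) (nat_lit 1)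 (nat_lit 4) (nat_lit 536) (nat_lit 332) (nat_lit 332)) (XT.lf (nat_lit 0) (nat_lit 51588592043) (nat_lit 152) (nat_lit 225838743745) (nat_lit 0) (nat_lit 51574312836) (nat_lit 1) (nat_lit 5) (nat_lit 3) (nat_lit 4) (nat_lit 1) (nat_lit 4) (nat_lit 537) (nat_lit 332) (nat_lit 331))) (XT.nd (nat_lit 78) (nat_lit 0) (nat_lit 0) (XT.lf (nat_lit 0) (nat_lit 61081882708) (nat_lit 152) (nat_lit 222969397080) (nat_lit 0) (nat_lit 61054004256) (nat_lit 1) (nat_lit 5) (nat_lit 3) (nat_lit 4) (nat_lit 1) (nat_lit 4) (nat_lit 538) (nat_lit 332) (nat_lit 330)) (XT.lf (nat_lit 0) (nat_lit 70835281792) (nat_lit 152) (nat_lit 220395095704) (nat_lit 0) (nat_lit 70794451678) (nat_lit 1) (nat_lit 5) (nat_lit 3) (nat_lit 4) (nat_lit 1) (nat_lit 4) (nat_lit 539) (nat_lit 332) (nat_lit 329)))))) (XT.nd (nat_lit 624) (nat_lit 0) (nat_lit 0) (XT.nd (nat_lit 312) (nat_lit 0) (nat_lit 0) (XT.nd (nat_lit 156) (nat_lit 0)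 (nat_lit 0) (XT.nd (nat_lit 78) (nat_lit 0) (nat_lit 0) (XT.lf (nat_lit 0) (nat_lit 80872011673) (nat_lit 152) (nat_lit 218109710328) (nat_lit 0) (nat_lit 80818846644) (nat_lit 1) (nat_lit 5) (nat_lit 3) (nat_lit 4) (nat_lit 1) (nat_lit 4) (nat_lit 540) (nat_lit 332) (nat_lit 328)) (XT.lf (nat_lit 0) (nat_lit 91215969327) (nat_lit 152) (nat_lit 216107799558) (nat_lit 0) (nat_lit 91151056760) (nat_lit 1) (nat_lit 5) (nat_lit 3) (nat_lit 4) (nat_lit 1) (nat_lit 4) (nat_lit 541) (nat_lit 332) (nat_lit 327))) (XT.nd (nat_lit 78) (nat_lit 0) (nat_lit 0) (XT.lf (nat_lit 0) (nat_lit 101891783226) (nat_lit 152) (nat_lit 214384596941) (nat_lit 0) (nat_lit 101815682526) (nat_lit 1) (nat_lit 5) (nat_lit 3) (nat_lit 4) (nat_lit 1) (nat_lit 4) (nat_lit 542) (nat_lit 332) (nat_lit 326)) (XT.lf (nat_lit 0) (nat_lit 112924871973) (nat_lit 152) (nat_lit 212935999613) (nat_lit 0) (nat_lit 112838115909) (nat_lit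 1) (nat_lit 5) (nat_lit 3) (nat_lit 4) (nat_lit 1) (nat_lit 4) (nat_lit 543) (nat_lit 332) (nat_lit 325)))) (XT.nd (nat_lit 156) (nat_lit 0) (nat_lit 0) (XT.nd (nat_lit 78) (nat_lit 0) (nat_lit 0) (XT.lf (nat_lit 0) (nat_lit 124341504828) (nat_lit 152) (nat_lit 211758558533) (nat_lit 0) (nat_lit 124244600798) (nat_lit 1) (nat_lit 5) (nat_lit 3) (nat_lit 4) (nat_lit 1) (nat_lit 4) (nat_lit 544) (nat_lit 332) (nat_lit 324)) (XT.lf (nat_lit 0) (nat_lit 136168864249) (nat_lit 152) (nat_lit 210849470269) (nat_lit 0) (nat_lit 136062295490) (nat_lit 1) (nat_lit 5) (nat_lit 3) (nat_lit 4) (nat_lit 1) (nat_lit 4) (nat_lit 545) (nat_lit 332) (nat_lit 323))) (XT.nd (nat_lit 78) (nat_lit 0) (nat_lit 0) (XT.lf (nat_lit 0) (nat_lit 148435110617) (nat_lit 152) (nat_lit 210206570327) (nat_lit 0) (nat_lit 148319337353) (nat_lit 1) (nat_lit 5) (nat_lit 3) (nat_lit 4) (nat_lit 1) (nat_lit 4) (nat_lit 546) (nat_lit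 332) (nat_lit 322)) (XT.lf (nat_lit 0) (nat_lit 161169449279) (nat_lit 152) (nat_lit 209828327990) (nat_lit 0) (nat_lit 161044909821) (nat_lit 1) (nat_lit 5) (nat_lit 3) (nat_lit 4) (nat_lit 1) (nat_lit 4) (nat_lit 547) (nat_lit 332) (nat_lit 321))))) (XT.nd (nat_lit 312) (nat_lit 0) (nat_lit 0) (XT.nd (nat_lit 156) (nat_lit 0) (nat_lit 0) (XT.nd (nat_lit 78) (nat_lit 0) (nat_lit 0) (XT.lf (nat_lit 0) (nat_lit 174402200090) (nat_lit 152) (nat_lit 209713842684) (nat_lit 0) (nat_lit 174269311876) (nat_lit 1) (nat_lit 5) (nat_lit 3) (nat_lit 4) (nat_lit 1) (nat_lit 4) (nat_lit 548) (nat_lit 332) (nat_lit 320)) (XT.lf (nat_lit 0) (nat_lit 188164869599) (nat_lit 152) (nat_lit 209862841822) (nat_lit 0) (nat_lit 188024030188) (nat_lit 1) (nat_lit 5) (nat_lit 3) (nat_lit 4) (nat_lit 1) (nat_lit 4) (nat_lit 549) (nat_lit 332) (nat_lit 319))) (XT.nd (nat_lit 78) (nat_lit 0) (nat_lit 0) (XT.lf (nat_lit 0)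 (nat_lit 202490226067) (nat_lit 152) (nat_lit 210275680167) (nat_lit 0) (nat_lit 202341814088) (nat_lit 1) (nat_lit 5) (nat_lit 3) (nat_lit 4) (nat_lit 1) (nat_lit 4) (nat_lit 550) (nat_lit 332) (nat_lit 318)) (XT.lf (nat_lit 0) (nat_lit 217412377485) (nat_lit 152) (nat_lit 210953340665) (nat_lit 0) (nat_lit 217256753536) (nat_lit 1) (nat_lit 5) (nat_lit 3) (nat_lit 4) (nat_lit 1) (nat_lit 4) (nat_lit 551) (nat_lit 332) (nat_lit 317)))) (XT.nd (nat_lit 156) (nat_lit 0) (nat_lit 0) (XT.nd (nat_lit 78) (nat_lit 0) (nat_lit 0) (XT.lf (nat_lit 0) (nat_lit 232966852786) (nat_lit 152) (nat_lit 211897436794) (nat_lit 0) (nat_lit 232804360295) (nat_lit 1) (nat_lit 5) (nat_lit 3) (nat_lit 4) (nat_lit 1) (nat_lit 4) (nat_lit 552) (nat_lit 332) (nat_lit 316)) (XT.lf (nat_lit 0) (nat_lit 249190686435) (nat_lit 152) (nat_lit 213110216402) (nat_lit 0) (nat_lit 249021652474) (nat_lit 1) (nat_lit 5) (nat_lit 3)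 (nat_lit 4) (nat_lit 1) (nat_lit 4) (nat_lit 553) (nat_lit 332) (nat_lit 315))) (XT.nd (nat_lit 78) (nat_lit 0) (nat_lit 0) (XT.lf (nat_lit 0) (nat_lit 266122506606) (nat_lit 152) (nat_lit 214594567060) (nat_lit 0) (nat_lit 265947242675) (nat_lit 1) (nat_lit 5) (nat_lit 3) (nat_lit 4) (nat_lit 1) (nat_lit 4) (nat_lit 554) (nat_lit 332) (nat_lit 314)) (XT.nd (nat_lit 78) (nat_lit 0) (nat_lit 0) (XT.lf (nat_lit 0) (nat_lit 283802627158) (nat_lit 152) (nat_lit 216354022936) (nat_lit 0) (nat_lit 283621429921) (nat_lit 1) (nat_lit 5) (nat_lit 3) (nat_lit 4) (nat_lit 1) (nat_lit 4) (nat_lit 555) (nat_lit 332) (nat_lit 313)) (XT.lf (nat_lit 0) (nat_lit 302273143615) (nat_lit 152) (nat_lit 218392773210) (nat_lit 0) (nat_lit 302086295611) (nat_lit 1) (nat_lit 5) (nat_lit 3) (nat_lit 4) (nat_lit 1) (nat_lit 4) (nat_lit 556) (nat_lit 332) (nat_lit 312))))))))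
noncomputable def xc4 : XT := (XT.nd (nat_lit 61854) (nat_lit 0) (nat_lit 0) (XT.nd (nat_lit 61230) (nat_lit 0) (nat_lit 0) (XT.nd (nat_lit 60918) (nat_lit 0) (nat_lit 0) (XT.nd (nat_lit 60762) (nat_lit 0) (nat_lit 0) (XT.nd (nat_lit 60684) (nat_lit 0) (nat_lit 0) (XT.lf (nat_lit 0) (nat_lit 321578033398) (nat_lit 152) (nat_lit 220715672051) (nat_lit 0) (nat_lit 321385803711) (nat_lit 1) (nat_lit 5) (nat_lit 3) (nat_lit 4) (nat_lit 1) (nat_lit 4) (nat_lit 557) (nat_lit 332) (nat_lit 311)) (XT.lf (nat_lit 0) (nat_lit 12291133381) (nat_lit 152) (nat_lit 118020679534) (nat_lit 0) (nat_lit 12291133381) (nat_lit 1) (nat_lit 5) (nat_lit 3) (nat_lit 4) (nat_lit 1) (nat_lit 4) (nat_lit 534) (nat_lit 333) (nat_lit 333))) (XT.nd (nat_lit 78) (nat_lit 0) (nat_lit 0) (XT.lf (nat_lit 0) (nat_lit 33307482333) (nat_lit 152) (nat_lit 232490618811) (nat_lit 0) (nat_lit 33292489166) (nat_lit 1) (nat_lit 5) (nat_lit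 3) (nat_lit 4) (nat_lit 1) (nat_lit 4) (nat_lit 535) (nat_lit 333) (nat_lit 332)) (XT.lf (nat_lit 0) (nat_lit 42232410566) (nat_lit 152) (nat_lit 229245801706) (nat_lit 0) (nat_lit 42203138192) (nat_lit 1) (nat_lit 5) (nat_lit 3) (nat_lit 4) (nat_lit 1) (nat_lit 4) (nat_lit 536) (nat_lit 333) (nat_lit 331)))) (XT.nd (nat_lit 156) (nat_lit 0) (nat_lit 0) (XT.nd (nat_lit 78) (nat_lit 0) (nat_lit 0) (XT.lf (nat_lit 0) (nat_lit 51378301290) (nat_lit 152) (nat_lit 226299181999) (nat_lit 0) (nat_lit 51335429671) (nat_lit 1) (nat_lit 5) (nat_lit 3) (nat_lit 4) (nat_lit 1) (nat_lit 4) (nat_lit 537) (nat_lit 333) (nat_lit 330)) (XT.lf (nat_lit 0) (nat_lit 60766930436) (nat_lit 152) (nat_lit 223643743930) (nat_lit 0) (nat_lit 60711107155) (nat_lit 1) (nat_lit 5) (nat_lit 3) (nat_lit 4) (nat_lit 1) (nat_lit 4) (nat_lit 538) (nat_lit 333) (nat_lit 329))) (XT.nd (nat_lit 78) (nat_lit 0) (nat_lit 0) (XT.lf (nat_lit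 0) (nat_lit 70420651882) (nat_lit 152) (nat_lit 221273165026) (nat_lit 0) (nat_lit 70352493686) (nat_lit 1) (nat_lit 5) (nat_lit 3) (nat_lit 4) (nat_lit 1) (nat_lit 4) (nat_lit 539) (nat_lit 333) (nat_lit 328)) (XT.lf (nat_lit 0) (nat_lit 80362450680) (nat_lit 152) (nat_lit 219181801053) (nat_lit 0) (nat_lit 80282544945) (nat_lit 1) (nat_lit 5) (nat_lit 3) (nat_lit 4) (nat_lit 1) (nat_lit 4) (nat_lit 540) (nat_lit 333) (nat_lit 327))))) (XT.nd (nat_lit 312) (nat_lit 0) (nat_lit 0) (XT.nd (nat_lit 156) (nat_lit 0) (nat_lit 0) (XT.nd (nat_lit 78) (nat_lit 0) (nat_lit 0) (XT.lf (nat_lit 0) (nat_lit 90615997779) (nat_lit 152) (nat_lit 217364672572) (nat_lit 0) (nat_lit 90524903912) (nat_lit 1) (nat_lit 5) (nat_lit 3) (nat_lit 4) (nat_lit 1) (nat_lit 4) (nat_lit 541) (nat_lit 333) (nat_lit 326)) (XT.lf (nat_lit 0) (nat_lit 101205706387) (nat_lit 152) (nat_lit 215817453087) (nat_lit 0) (nat_lit 101103957155)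 (nat_lit 1) (nat_lit 5) (nat_lit 3) (nat_lit 4) (nat_lit 1) (nat_lit 4) (nat_lit 542) (nat_lit 333) (nat_lit 325))) (XT.nd (nat_lit 78) (nat_lit 0) (nat_lit 0) (XT.lf (nat_lit 0) (nat_lit 112156790095) (nat_lit 152) (nat_lit 214536458741) (nat_lit 0) (nat_lit 112044892898) (nat_lit 1) (nat_lit 5) (nat_lit 3) (nat_lit 4) (nat_lit 1) (nat_lit 4) (nat_lit 543) (nat_lit 333) (nat_lit 324)) (XT.lf (nat_lit 0) (nat_lit 123495322912) (nat_lit 152) (nat_lit 213518639549) (nat_lit 0) (nat_lit 123373760986) (nat_lit 1) (nat_lit 5) (nat_lit 3) (nat_lit 4) (nat_lit 1) (nat_lit 4) (nat_lit 544) (nat_lit 333) (nat_lit 323)))) (XT.nd (nat_lit 156) (nat_lit 0) (nat_lit 0) (XT.nd (nat_lit 78) (nat_lit 0) (nat_lit 0) (XT.lf (nat_lit 0) (nat_lit 135248301346) (nat_lit 152) (nat_lit 212761572131) (nat_lit 0) (nat_lit 135117534916) (nat_lit 1) (nat_lit 5) (nat_lit 3) (nat_lit 4) (nat_lit 1) (nat_lit 4) (nat_lit 545)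 (nat_lit 333) (nat_lit 322)) (XT.lf (nat_lit 0) (nat_lit 147443708678) (nat_lit 152) (nat_lit 212263453946) (nat_lit 0) (nat_lit 147304176053) (nat_lit 1) (nat_lit 5) (nat_lit 3) (nat_lit 4) (nat_lit 1) (nat_lit 4) (nat_lit 546) (nat_lit 333) (nat_lit 321))) (XT.nd (nat_lit 78) (nat_lit 0) (nat_lit 0) (XT.lf (nat_lit 0) (nat_lit 160110581591) (nat_lit 152) (nat_lit 212023098998) (nat_lit 0) (nat_lit 159962700210) (nat_lit 1) (nat_lit 5) (nat_lit 3) (nat_lit 4) (nat_lit 1) (nat_lit 4) (nat_lit 547) (nat_lit 333) (nat_lit 320)) (XT.lf (nat_lit 0) (nat_lit 173279079308) (nat_lit 152) (nat_lit 212039935014) (nat_lit 0) (nat_lit 173123246730) (nat_lit 1) (nat_lit 5) (nat_lit 3) (nat_lit 4) (nat_lit 1) (nat_lit 4) (nat_lit 548) (nat_lit 333) (nat_lit 319)))))) (XT.nd (nat_lit 624) (nat_lit 0) (nat_lit 0) (XT.nd (nat_lit 312) (nat_lit 0) (nat_lit 0) (XT.nd (nat_lit 156) (nat_lit 0) (nat_lit 0) (XT.nd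 (nat_lit 78) (nat_lit 0) (nat_lit 0) (XT.lf (nat_lit 0) (nat_lit 186980555395) (nat_lit 152) (nat_lit 212314002079) (nat_lit 0) (nat_lit 186817150248) (nat_lit 1) (nat_lit 5) (nat_lit 3) (nat_lit 4) (nat_lit 1) (nat_lit 4) (nat_lit 549) (nat_lit 333) (nat_lit 318)) (XT.lf (nat_lit 0) (nat_lit 201247632412) (nat_lit 152) (nat_lit 212845952734) (nat_lit 0) (nat_lit 201077015296) (nat_lit 1) (nat_lit 5) (nat_lit 3) (nat_lit 4) (nat_lit 1) (nat_lit 4) (nat_lit 550) (nat_lit 333) (nat_lit 317))) (XT.nd (nat_lit 78) (nat_lit 0) (nat_lit 0) (XT.lf (nat_lit 0) (nat_lit 216114279593) (nat_lit 152) (nat_lit 213637053528) (nat_lit 0) (nat_lit 215936793934) (nat_lit 1) (nat_lit 5) (nat_lit 3) (nat_lit 4) (nat_lit 1) (nat_lit 4) (nat_lit 551) (nat_lit 333) (nat_lit 316)) (XT.lf (nat_lit 0) (nat_lit 231615893714) (nat_lit 152) (nat_lit 214689188034) (nat_lit 0) (nat_lit 231431866586) (nat_lit 1) (nat_lit 5)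 (nat_lit 3) (nat_lit 4) (nat_lit 1) (nat_lit 4) (nat_lit 552) (nat_lit 333) (nat_lit 315)))) (XT.nd (nat_lit 156) (nat_lit 0) (nat_lit 0) (XT.nd (nat_lit 78) (nat_lit 0) (nat_lit 0) (XT.lf (nat_lit 0) (nat_lit 247789383383) (nat_lit 152) (nat_lit 216004861334) (nat_lit 0) (nat_lit 247599126284) (nat_lit 1) (nat_lit 5) (nat_lit 3) (nat_lit 4) (nat_lit 1) (nat_lit 4) (nat_lit 553) (nat_lit 333) (nat_lit 314)) (XT.lf (nat_lit 0) (nat_lit 264673256906) (nat_lit 152) (nat_lit 217587205985) (nat_lit 0) (nat_lit 264477066502) (nat_lit 1) (nat_lit 5) (nat_lit 3) (nat_lit 4) (nat_lit 1) (nat_lit 4) (nat_lit 554) (nat_lit 333) (nat_lit 313))) (XT.nd (nat_lit 78) (nat_lit 0) (nat_lit 0) (XT.lf (nat_lit 0) (nat_lit 282307713984) (nat_lit 152) (nat_lit 219439989473) (nat_lit 0) (nat_lit 282105872812) (nat_lit 1) (nat_lit 5) (nat_lit 3) (nat_lit 4) (nat_lit 1) (nat_lit 4) (nat_lit 555) (nat_lit 333) (nat_lit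 312)) (XT.lf (nat_lit 0) (nat_lit 300734741418) (nat_lit 152) (nat_lit 221567623187) (nat_lit 0) (nat_lit 300527518564) (nat_lit 1) (nat_lit 5) (nat_lit 3) (nat_lit 4) (nat_lit 1) (nat_lit 4) (nat_lit 556) (nat_lit 333) (nat_lit 311))))) (XT.nd (nat_lit 60762) (nat_lit 0) (nat_lit 0) (XT.nd (nat_lit 60606) (nat_lit 0) (nat_lit 0) (XT.nd (nat_lit 60528) (nat_lit 0) (nat_lit 0) (XT.lf (nat_lit 0) (nat_lit 319998213083) (nat_lit 152) (nat_lit 223975172923) (nat_lit 0) (nat_lit 319785864817) (nat_lit 1) (nat_lit 5) (nat_lit 3) (nat_lit 4) (nat_lit 1) (nat_lit 4) (nat_lit 557) (nat_lit 333) (nat_lit 310)) (XT.lf (nat_lit 0) (nat_lit 3895630959) (nat_lit 152) (nat_lit 121917583451) (nat_lit 0) (nat_lit 3895630959) (nat_lit 1) (nat_lit 5) (nat_lit 3) (nat_lit 4) (nat_lit 1) (nat_lit 4) (nat_lit 532) (nat_lit 334) (nat_lit 334))) (XT.nd (nat_lit 78) (nat_lit 0) (nat_lit 0) (XT.lf (nat_lit 0) (nat_lit 16051732357)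 (nat_lit 152) (nat_lit 239906476625) (nat_lit 0) (nat_lit 16035989532) (nat_lit 1) (nat_lit 5) (nat_lit 3) (nat_lit 4) (nat_lit 1) (nat_lit 4) (nat_lit 533) (nat_lit 334) (nat_lit 333)) (XT.lf (nat_lit 0) (nat_lit 24476850797) (nat_lit 152) (nat_lit 236288985008) (nat_lit 0) (nat_lit 24446114804) (nat_lit 1) (nat_lit 5) (nat_lit 3) (nat_lit 4) (nat_lit 1) (nat_lit 4) (nat_lit 534) (nat_lit 334) (nat_lit 332)))) (XT.nd (nat_lit 156) (nat_lit 0) (nat_lit 0) (XT.nd (nat_lit 78) (nat_lit 0) (nat_lit 0) (XT.lf (nat_lit 0) (nat_lit 33086677043) (nat_lit 152) (nat_lit 232974078977) (nat_lit 0) (nat_lit 33041661843) (nat_lit 1) (nat_lit 5) (nat_lit 3) (nat_lit 4) (nat_lit 1) (nat_lit 4) (nat_lit 535) (nat_lit 334) (nat_lit 331)) (XT.lf (nat_lit 0) (nat_lit 41901710680) (nat_lit 152) (nat_lit 229953865898) (nat_lit 0) (nat_lit 41843096236) (nat_lit 1) (nat_lit 5) (nat_lit 3) (nat_lit 4) (nat_lit 1) (nat_lit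 4) (nat_lit 536) (nat_lit 334) (nat_lit 330))) (XT.nd (nat_lit 78) (nat_lit 0) (nat_lit 0) (XT.lf (nat_lit 0) (nat_lit 50942939885) (nat_lit 152) (nat_lit 227221154788) (nat_lit 0) (nat_lit 50871373779) (nat_lit 1) (nat_lit 5) (nat_lit 3) (nat_lit 4) (nat_lit 1) (nat_lit 4) (nat_lit 537) (nat_lit 334) (nat_lit 329)) (XT.nd (nat_lit 78) (nat_lit 0) (nat_lit 0) (XT.lf (nat_lit 0) (nat_lit 60231891393) (nat_lit 152) (nat_lit 224769439192) (nat_lit 0) (nat_lit 60147990371) (nat_lit 1) (nat_lit 5) (nat_lit 3) (nat_lit 4) (nat_lit 1) (nat_lit 4) (nat_lit 538) (nat_lit 334) (nat_lit 328)) (XT.lf (nat_lit 0) (nat_lit 69790681756) (nat_lit 152) (nat_lit 222592881691) (nat_lit 0) (nat_lit 69695033195) (nat_lit 1) (nat_lit 5) (nat_lit 3) (nat_lit 4) (nat_lit 1) (nat_lit 4) (nat_lit 539) (nat_lit 334) (nat_lit 327))))))))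
noncomputable def xc5 : XT := (XT.nd (nat_lit 1248) (nat_lit 0) (nat_lit 0) (XT.nd (nat_lit 624) (nat_lit 0) (nat_lit 0) (XT.nd (nat_lit 312) (nat_lit 0) (nat_lit 0) (XT.nd (nat_lit 156) (nat_lit 0) (nat_lit 0) (XT.nd (nat_lit 78) (nat_lit 0) (nat_lit 0) (XT.lf (nat_lit 0) (nat_lit 79642069999) (nat_lit 152) (nat_lit 220686300006) (nat_lit 0) (nat_lit 79535233306) (nat_lit 1) (nat_lit 5) (nat_lit 3) (nat_lit 4) (nat_lit 1) (nat_lit 4) (nat_lit 540) (nat_lit 334) (nat_lit 326)) (XT.lf (nat_lit 0) (nat_lit 89809511807) (nat_lit 152) (nat_lit 219045154656) (nat_lit 0) (nat_lit 89692019750) (nat_lit 1) (nat_lit 5) (nat_lit 3) (nat_lit 4) (nat_lit 1) (nat_lit 4) (nat_lit 541) (nat_lit 334) (nat_lit 325))) (XT.nd (nat_lit 78) (nat_lit 0) (nat_lit 0) (XT.lf (nat_lit 0) (nat_lit 100317215376) (nat_lit 152) (nat_lit 217665538153) (nat_lit 0) (nat_lit 100189575353) (nat_lit 1) (nat_lit 5) (nat_lit 3) (nat_lit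 4) (nat_lit 1) (nat_lit 4) (nat_lit 542) (nat_lit 334) (nat_lit 324)) (XT.lf (nat_lit 0) (nat_lit 111190199047) (nat_lit 152) (nat_lit 216544165696) (nat_lit 0) (nat_lit 111052894295) (nat_lit 1) (nat_lit 5) (nat_lit 3) (nat_lit 4) (nat_lit 1) (nat_lit 4) (nat_lit 543) (nat_lit 334) (nat_lit 323)))) (XT.nd (nat_lit 156) (nat_lit 0) (nat_lit 0) (XT.nd (nat_lit 78) (nat_lit 0) (nat_lit 0) (XT.lf (nat_lit 0) (nat_lit 122454350876) (nat_lit 152) (nat_lit 215678367350) (nat_lit 0) (nat_lit 122307841620) (nat_lit 1) (nat_lit 5) (nat_lit 3) (nat_lit 4) (nat_lit 1) (nat_lit 4) (nat_lit 544) (nat_lit 334) (nat_lit 322)) (XT.lf (nat_lit 0) (nat_lit 134136490274) (nat_lit 152) (nat_lit 215066081690) (nat_lit 0) (nat_lit 133981214824) (nat_lit 1) (nat_lit 5) (nat_lit 3) (nat_lit 4) (nat_lit 1) (nat_lit 4) (nat_lit 545) (nat_lit 334) (nat_lit 321))) (XT.nd (nat_lit 78) (nat_lit 0) (nat_lit 0) (XT.lf (nat_lit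 0) (nat_lit 146264431857) (nat_lit 152) (nat_lit 214705850893) (nat_lit 0) (nat_lit 146100807650) (nat_lit 1) (nat_lit 5) (nat_lit 3) (nat_lit 4) (nat_lit 1) (nat_lit 4) (nat_lit 546) (nat_lit 334) (nat_lit 320)) (XT.lf (nat_lit 0) (nat_lit 158867051677) (nat_lit 152) (nat_lit 214596817268) (nat_lit 0) (nat_lit 158695476273) (nat_lit 1) (nat_lit 5) (nat_lit 3) (nat_lit 4) (nat_lit 1) (nat_lit 4) (nat_lit 547) (nat_lit 334) (nat_lit 319))))) (XT.nd (nat_lit 312) (nat_lit 0) (nat_lit 0) (XT.nd (nat_lit 156) (nat_lit 0) (nat_lit 0) (XT.nd (nat_lit 78) (nat_lit 0) (nat_lit 0) (XT.lf (nat_lit 0) (nat_lit 171974355971) (nat_lit 152) (nat_lit 214738721210) (nat_lit 0) (nat_lit 171795207999) (nat_lit 1) (nat_lit 5) (nat_lit 3) (nat_lit 4) (nat_lit 1) (nat_lit 4) (nat_lit 548) (nat_lit 334) (nat_lit 318)) (XT.lf (nat_lit 0) (nat_lit 185617552607) (nat_lit 152) (nat_lit 215131900585) (nat_lit 0) (nat_lit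 185431192666) (nat_lit 1) (nat_lit 5) (nat_lit 3) (nat_lit 4) (nat_lit 1) (nat_lit 4) (nat_lit 549) (nat_lit 334) (nat_lit 317))) (XT.nd (nat_lit 78) (nat_lit 0) (nat_lit 0) (XT.lf (nat_lit 0) (nat_lit 199829125387) (nat_lit 152) (nat_lit 215777291536) (nat_lit 0) (nat_lit 199635896903) (nat_lit 1) (nat_lit 5) (nat_lit 3) (nat_lit 4) (nat_lit 1) (nat_lit 4) (nat_lit 550) (nat_lit 334) (nat_lit 316)) (XT.lf (nat_lit 0) (nat_lit 214642911388) (nat_lit 152) (nat_lit 216676430706) (nat_lit 0) (nat_lit 214443141434) (nat_lit 1) (nat_lit 5) (nat_lit 3) (nat_lit 4) (nat_lit 1) (nat_lit 4) (nat_lit 551) (nat_lit 334) (nat_lit 315)))) (XT.nd (nat_lit 156) (nat_lit 0) (nat_lit 0) (XT.nd (nat_lit 78) (nat_lit 0) (nat_lit 0) (XT.lf (nat_lit 0) (nat_lit 230094181529) (nat_lit 152) (nat_lit 217831458905) (nat_lit 0) (nat_lit 229888181605) (nat_lit 1) (nat_lit 5) (nat_lit 3) (nat_lit 4) (nat_lit 1) (nat_lit 4)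 (nat_lit 552) (nat_lit 334) (nat_lit 314)) (XT.lf (nat_lit 0) (nat_lit 246219724550) (nat_lit 152) (nat_lit 219245126198) (nat_lit 0) (nat_lit 246007791320) (nat_lit 1) (nat_lit 5) (nat_lit 3) (nat_lit 4) (nat_lit 1) (nat_lit 4) (nat_lit 553) (nat_lit 334) (nat_lit 313))) (XT.nd (nat_lit 78) (nat_lit 0) (nat_lit 0) (XT.lf (nat_lit 0) (nat_lit 263057934599) (nat_lit 152) (nat_lit 220920798461) (nat_lit 0) (nat_lit 262840350602) (nat_lit 1) (nat_lit 5) (nat_lit 3) (nat_lit 4) (nat_lit 1) (nat_lit 4) (nat_lit 554) (nat_lit 334) (nat_lit 312)) (XT.lf (nat_lit 0) (nat_lit 280648902653) (nat_lit 152) (nat_lit 222862465389) (nat_lit 0) (nat_lit 280425936974) (nat_lit 1) (nat_lit 5) (nat_lit 3) (nat_lit 4) (nat_lit 1) (nat_lit 4) (nat_lit 555) (nat_lit 334) (nat_lit 311)))))) (XT.nd (nat_lit 60918) (nat_lit 0) (nat_lit 0) (XT.nd (nat_lit 60606) (nat_lit 0) (nat_lit 0) (XT.nd (nat_lit 60450) (nat_lit 0)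 (nat_lit 152) (XT.nd (nat_lit 78) (nat_lit 0) (nat_lit 0) (XT.lf (nat_lit 0) (nat_lit 299034511970) (nat_lit 152) (nat_lit 225074749998) (nat_lit 0) (nat_lit 298806420879) (nat_lit 1) (nat_lit 5) (nat_lit 3) (nat_lit 4) (nat_lit 1) (nat_lit 4) (nat_lit 556) (nat_lit 334) (nat_lit 310)) (XT.lf (nat_lit 0) (nat_lit 318258537810) (nat_lit 152) (nat_lit 227562919634) (nat_lit 0) (nat_lit 318025565373) (nat_lit 1) (nat_lit 5) (nat_lit 3) (nat_lit 4) (nat_lit 1) (nat_lit 4) (nat_lit 557) (nat_lit 334) (nat_lit 309))) (XT.nd (nat_lit 78) (nat_lit 0) (nat_lit 0) (XT.lf (nat_lit 0) (nat_lit 109986573330) (nat_lit 76) (nat_lit 4016138357) (nat_lit 76) (nat_lit 4016138357) (nat_lit 3) (nat_lit 4) (nat_lit 4) (nat_lit 5) (nat_lit 4) (nat_lit 4) (nat_lit 530) (nat_lit 335) (nat_lit 335)) (XT.lf (nat_lit 0) (nat_lit 246829753961) (nat_lit 76) (nat_lit 319545374) (nat_lit 76) (nat_lit 302188909) (nat_lit 3) (nat_lit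 4) (nat_lit 4) (nat_lit 5) (nat_lit 4) (nat_lit 4) (nat_lit 531) (nat_lit 335) (nat_lit 334)))) (XT.nd (nat_lit 156) (nat_lit 0) (nat_lit 0) (XT.nd (nat_lit 78) (nat_lit 0) (nat_lit 0) (XT.lf (nat_lit 0) (nat_lit 7680575154) (nat_lit 152) (nat_lit 244095174138) (nat_lit 0) (nat_lit 7648302361) (nat_lit 1) (nat_lit 5) (nat_lit 3) (nat_lit 4) (nat_lit 1) (nat_lit 4) (nat_lit 532) (nat_lit 335) (nat_lit 333)) (XT.lf (nat_lit 0) (nat_lit 15819886802) (nat_lit 152) (nat_lit 240414109799) (nat_lit 0) (nat_lit 15772620843) (nat_lit 1) (nat_lit 5) (nat_lit 3) (nat_lit 4) (nat_lit 1) (nat_lit 4) (nat_lit 533) (nat_lit 335) (nat_lit 332))) (XT.nd (nat_lit 78) (nat_lit 0) (nat_lit 0) (XT.lf (nat_lit 0) (nat_lit 24129615917) (nat_lit 152) (nat_lit 237032452410) (nat_lit 0) (nat_lit 24068070750) (nat_lit 1) (nat_lit 5) (nat_lit 3) (nat_lit 4) (nat_lit 1) (nat_lit 4) (nat_lit 534) (nat_lit 335) (nat_lit 331))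 (XT.lf (nat_lit 0) (nat_lit 32629547567) (nat_lit 152) (nat_lit 233942150406) (nat_lit 0) (nat_lit 32554403156) (nat_lit 1) (nat_lit 5) (nat_lit 3) (nat_lit 4) (nat_lit 1) (nat_lit 4) (nat_lit 535) (nat_lit 335) (nat_lit 330))))) (XT.nd (nat_lit 312) (nat_lit 0) (nat_lit 0) (XT.nd (nat_lit 156) (nat_lit 0) (nat_lit 0) (XT.nd (nat_lit 78) (nat_lit 0) (nat_lit 0) (XT.lf (nat_lit 0) (nat_lit 41339919685) (nat_lit 152) (nat_lit 231135845923) (nat_lit 0) (nat_lit 41251823612) (nat_lit 1) (nat_lit 5) (nat_lit 3) (nat_lit 4) (nat_lit 1) (nat_lit 4) (nat_lit 536) (nat_lit 335) (nat_lit 329)) (XT.lf (nat_lit 0) (nat_lit 50281471253) (nat_lit 152) (nat_lit 228606857286) (nat_lit 0) (nat_lit 50181040264) (nat_lit 1) (nat_lit 5) (nat_lit 3) (nat_lit 4) (nat_lit 1) (nat_lit 4) (nat_lit 537) (nat_lit 335) (nat_lit 328))) (XT.nd (nat_lit 78) (nat_lit 0) (nat_lit 0) (XT.lf (nat_lit 0) (nat_lit 59475491678) (nat_lit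 152) (nat_lit 226349163092) (nat_lit 0) (nat_lit 59363313150) (nat_lit 1) (nat_lit 5) (nat_lit 3) (nat_lit 4) (nat_lit 1) (nat_lit 4) (nat_lit 538) (nat_lit 335) (nat_lit 327)) (XT.lf (nat_lit 0) (nat_lit 68943871485) (nat_lit 152) (nat_lit 224357387879) (nat_lit 0) (nat_lit 68820504825) (nat_lit 1) (nat_lit 5) (nat_lit 3) (nat_lit 4) (nat_lit 1) (nat_lit 4) (nat_lit 539) (nat_lit 335) (nat_lit 326)))) (XT.nd (nat_lit 156) (nat_lit 0) (nat_lit 0) (XT.nd (nat_lit 78) (nat_lit 0) (nat_lit 0) (XT.lf (nat_lit 0) (nat_lit 78709154437) (nat_lit 152) (nat_lit 222626789326) (nat_lit 0) (nat_lit 78575132413) (nat_lit 1) (nat_lit 5) (nat_lit 3) (nat_lit 4) (nat_lit 1) (nat_lit 4) (nat_lit 540) (nat_lit 335) (nat_lit 325)) (XT.lf (nat_lit 0) (nat_lit 88794591206) (nat_lit 152) (nat_lit 221153246959) (nat_lit 0) (nat_lit 88650421217) (nat_lit 1) (nat_lit 5) (nat_lit 3) (nat_lit 4) (nat_lit 1) (nat_lit 4) (nat_lit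 541) (nat_lit 335) (nat_lit 324))) (XT.nd (nat_lit 78) (nat_lit 0) (nat_lit 0) (XT.lf (nat_lit 0) (nat_lit 99224194738) (nat_lit 152) (nat_lit 219933252344) (nat_lit 0) (nat_lit 99070360019) (nat_lit 1) (nat_lit 5) (nat_lit 3) (nat_lit 4) (nat_lit 1) (nat_lit 4) (nat_lit 542) (nat_lit 335) (nat_lit 323)) (XT.nd (nat_lit 78) (nat_lit 0) (nat_lit 0) (XT.lf (nat_lit 0) (nat_lit 110022797421) (nat_lit 152) (nat_lit 218963900733) (nat_lit 0) (nat_lit 109859758198) (nat_lit 1) (nat_lit 5) (nat_lit 3) (nat_lit 4) (nat_lit 1) (nat_lit 4) (nat_lit 543) (nat_lit 335) (nat_lit 322)) (XT.lf (nat_lit 0) (nat_lit 121216110215) (nat_lit 152) (nat_lit 218242884144) (nat_lit 0) (nat_lit 121044304798) (nat_lit 1) (nat_lit 5) (nat_lit 3) (nat_lit 4) (nat_lit 1) (nat_lit 4) (nat_lit 544) (nat_lit 335) (nat_lit 321))))))))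
noncomputable def xc6 : XT := (XT.nd (nat_lit 61386) (nat_lit 0) (nat_lit 0) (XT.nd (nat_lit 624) (nat_lit 0) (nat_lit 0) (XT.nd (nat_lit 312) (nat_lit 0) (nat_lit 0) (XT.nd (nat_lit 156) (nat_lit 0) (nat_lit 0) (XT.nd (nat_lit 78) (nat_lit 0) (nat_lit 0) (XT.lf (nat_lit 0) (nat_lit 132830783864) (nat_lit 152) (nat_lit 217768485873) (nat_lit 0) (nat_lit 132650629690) (nat_lit 1) (nat_lit 5) (nat_lit 3) (nat_lit 4) (nat_lit 1) (nat_lit 4) (nat_lit 545) (nat_lit 335) (nat_lit 320)) (XT.lf (nat_lit 0) (nat_lit 144894472353) (nat_lit 152) (nat_lit 217539576399) (nat_lit 0) (nat_lit 144706366983) (nat_lit 1) (nat_lit 5) (nat_lit 3) (nat_lit 4) (nat_lit 1) (nat_lit 4) (nat_lit 546) (nat_lit 335) (nat_lit 319))) (XT.nd (nat_lit 78) (nat_lit 0) (nat_lit 0) (XT.lf (nat_lit 0) (nat_lit 157435898750) (nat_lit 152) (nat_lit 217555610699) (nat_lit 0) (nat_lit 157240220812) (nat_lit 1) (nat_lit 5) (nat_lit 3)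 (nat_lit 4) (nat_lit 1) (nat_lit 4) (nat_lit 547) (nat_lit 335) (nat_lit 318)) (XT.lf (nat_lit 0) (nat_lit 170484923594) (nat_lit 152) (nat_lit 217816626952) (nat_lit 0) (nat_lit 170282033686) (nat_lit 1) (nat_lit 5) (nat_lit 3) (nat_lit 4) (nat_lit 1) (nat_lit 4) (nat_lit 548) (nat_lit 335) (nat_lit 317)))) (XT.nd (nat_lit 156) (nat_lit 0) (nat_lit 0) (XT.nd (nat_lit 78) (nat_lit 0) (nat_lit 0) (XT.lf (nat_lit 0) (nat_lit 184072615992) (nat_lit 152) (nat_lit 218323246623) (nat_lit 0) (nat_lit 183862857541) (nat_lit 1) (nat_lit 5) (nat_lit 3) (nat_lit 4) (nat_lit 1) (nat_lit 4) (nat_lit 549) (nat_lit 335) (nat_lit 316)) (XT.lf (nat_lit 0) (nat_lit 198231327593) (nat_lit 152) (nat_lit 219076675950) (nat_lit 0) (nat_lit 198015027672) (nat_lit 1) (nat_lit 5) (nat_lit 3) (nat_lit 4) (nat_lit 1) (nat_lit 4) (nat_lit 550) (nat_lit 335) (nat_lit 315))) (XT.nd (nat_lit 78) (nat_lit 0) (nat_lit 0) (XT.lf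 (nat_lit 0) (nat_lit 212994769613) (nat_lit 152) (nat_lit 220078708813) (nat_lit 0) (nat_lit 212772239722) (nat_lit 1) (nat_lit 5) (nat_lit 3) (nat_lit 4) (nat_lit 1) (nat_lit 4) (nat_lit 551) (nat_lit 335) (nat_lit 314)) (XT.lf (nat_lit 0) (nat_lit 228398093107) (nat_lit 152) (nat_lit 221331731004) (nat_lit 0) (nat_lit 228169629910) (nat_lit 1) (nat_lit 5) (nat_lit 3) (nat_lit 4) (nat_lit 1) (nat_lit 4) (nat_lit 552) (nat_lit 335) (nat_lit 313))))) (XT.nd (nat_lit 312) (nat_lit 0) (nat_lit 0) (XT.nd (nat_lit 156) (nat_lit 0) (nat_lit 0) (XT.nd (nat_lit 78) (nat_lit 0) (nat_lit 0) (XT.lf (nat_lit 0) (nat_lit 244477972653) (nat_lit 152) (nat_lit 222838725910) (nat_lit 0) (nat_lit 244243858689) (nat_lit 1) (nat_lit 5) (nat_lit 3) (nat_lit 4) (nat_lit 1) (nat_lit 4) (nat_lit 553) (nat_lit 335) (nat_lit 312)) (XT.lf (nat_lit 0) (nat_lit 261272693679) (nat_lit 152) (nat_lit 224603281612) (nat_lit 0)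 (nat_lit 261033198033) (nat_lit 1) (nat_lit 5) (nat_lit 3) (nat_lit 4) (nat_lit 1) (nat_lit 4) (nat_lit 554) (nat_lit 335) (nat_lit 311))) (XT.nd (nat_lit 78) (nat_lit 0) (nat_lit 0) (XT.lf (nat_lit 0) (nat_lit 278822243616) (nat_lit 152) (nat_lit 226629599436) (nat_lit 0) (nat_lit 278577622558) (nat_lit 1) (nat_lit 5) (nat_lit 3) (nat_lit 4) (nat_lit 1) (nat_lit 4) (nat_lit 555) (nat_lit 335) (nat_lit 310)) (XT.lf (nat_lit 0) (nat_lit 297168407108) (nat_lit 152) (nat_lit 228922503946) (nat_lit 0) (nat_lit 296918904704) (nat_lit 1) (nat_lit 5) (nat_lit 3) (nat_lit 4) (nat_lit 1) (nat_lit 4) (nat_lit 556) (nat_lit 335) (nat_lit 309)))) (XT.nd (nat_lit 60294) (nat_lit 0) (nat_lit 152) (XT.nd (nat_lit 60216) (nat_lit 0) (nat_lit 152) (XT.lf (nat_lit 0) (nat_lit 316354865494) (nat_lit 152) (nat_lit 231487454439) (nat_lit 0) (nat_lit 316100714190) (nat_lit 1) (nat_lit 5) (nat_lit 3) (nat_lit 4) (nat_lit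 1) (nat_lit 4) (nat_lit 557) (nat_lit 335) (nat_lit 308)) (XT.lf (nat_lit 0) (nat_lit 84402481365) (nat_lit 76) (nat_lit 11509985157) (nat_lit 76) (nat_lit 11509985157) (nat_lit 3) (nat_lit 4) (nat_lit 4) (nat_lit 5) (nat_lit 4) (nat_lit 4) (nat_lit 528) (nat_lit 336) (nat_lit 336))) (XT.nd (nat_lit 78) (nat_lit 0) (nat_lit 0) (XT.lf (nat_lit 0) (nat_lit 193896058333) (nat_lit 76) (nat_lit 15650906395) (nat_lit 76) (nat_lit 15632682107) (nat_lit 3) (nat_lit 4) (nat_lit 4) (nat_lit 5) (nat_lit 4) (nat_lit 4) (nat_lit 529) (nat_lit 336) (nat_lit 335)) (XT.lf (nat_lit 0) (nat_lit 219717373274) (nat_lit 76) (nat_lit 8181083599) (nat_lit 76) (nat_lit 8145502845) (nat_lit 3) (nat_lit 4) (nat_lit 4) (nat_lit 5) (nat_lit 4) (nat_lit 4) (nat_lit 530) (nat_lit 336) (nat_lit 334)))))) (XT.nd (nat_lit 624) (nat_lit 0) (nat_lit 0) (XT.nd (nat_lit 312) (nat_lit 0) (nat_lit 0) (XT.nd (nat_lit 156) (nat_lit 0)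 (nat_lit 0) (XT.nd (nat_lit 78) (nat_lit 152) (nat_lit 0) (XT.lf (nat_lit 0) (nat_lit 246330386873) (nat_lit 76) (nat_lit 592716634) (nat_lit 76) (nat_lit 540605913) (nat_lit 3) (nat_lit 4) (nat_lit 4) (nat_lit 5) (nat_lit 4) (nat_lit 4) (nat_lit 531) (nat_lit 336) (nat_lit 333)) (XT.lf (nat_lit 0) (nat_lit 7315978530) (nat_lit 152) (nat_lit 244875814910) (nat_lit 0) (nat_lit 7251356105) (nat_lit 1) (nat_lit 5) (nat_lit 3) (nat_lit 4) (nat_lit 1) (nat_lit 4) (nat_lit 532) (nat_lit 336) (nat_lit 332))) (XT.nd (nat_lit 78) (nat_lit 0) (nat_lit 0) (XT.lf (nat_lit 0) (nat_lit 15339900853) (nat_lit 152) (nat_lit 241430584799) (nat_lit 0) (nat_lit 15260999221) (nat_lit 1) (nat_lit 5) (nat_lit 3) (nat_lit 4) (nat_lit 1) (nat_lit 4) (nat_lit 533) (nat_lit 336) (nat_lit 331)) (XT.lf (nat_lit 0) (nat_lit 23539735372) (nat_lit 152) (nat_lit 238273531437) (nat_lit 0) (nat_lit 23447234496) (nat_lit 1) (nat_lit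 5) (nat_lit 3) (nat_lit 4) (nat_lit 1) (nat_lit 4) (nat_lit 534) (nat_lit 336) (nat_lit 330)))) (XT.nd (nat_lit 156) (nat_lit 0) (nat_lit 0) (XT.nd (nat_lit 78) (nat_lit 0) (nat_lit 0) (XT.lf (nat_lit 0) (nat_lit 31935005503) (nat_lit 152) (nat_lit 235397138028) (nat_lit 0) (nat_lit 31829552965) (nat_lit 1) (nat_lit 5) (nat_lit 3) (nat_lit 4) (nat_lit 1) (nat_lit 4) (nat_lit 535) (nat_lit 336) (nat_lit 329)) (XT.lf (nat_lit 0) (nat_lit 40545699984) (nat_lit 152) (nat_lit 232794556019) (nat_lit 0) (nat_lit 40427912530) (nat_lit 1) (nat_lit 5) (nat_lit 3) (nat_lit 4) (nat_lit 1) (nat_lit 4) (nat_lit 536) (nat_lit 336) (nat_lit 328))) (XT.nd (nat_lit 78) (nat_lit 0) (nat_lit 0) (XT.lf (nat_lit 0) (nat_lit 49392320468) (nat_lit 152) (nat_lit 230459588784) (nat_lit 0) (nat_lit 49262785475) (nat_lit 1) (nat_lit 5) (nat_lit 3) (nat_lit 4) (nat_lit 1) (nat_lit 4) (nat_lit 537) (nat_lit 336) (nat_lit 327))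 (XT.lf (nat_lit 0) (nat_lit 58495930338) (nat_lit 152) (nat_lit 228386676878) (nat_lit 0) (nat_lit 58355207213) (nat_lit 1) (nat_lit 5) (nat_lit 3) (nat_lit 4) (nat_lit 1) (nat_lit 4) (nat_lit 538) (nat_lit 336) (nat_lit 326))))) (XT.nd (nat_lit 312) (nat_lit 0) (nat_lit 0) (XT.nd (nat_lit 156) (nat_lit 0) (nat_lit 0) (XT.nd (nat_lit 78) (nat_lit 0) (nat_lit 0) (XT.lf (nat_lit 0) (nat_lit 67878204854) (nat_lit 152) (nat_lit 226570884797) (nat_lit 0) (nat_lit 67726826365) (nat_lit 1) (nat_lit 5) (nat_lit 3) (nat_lit 4) (nat_lit 1) (nat_lit 4) (nat_lit 539) (nat_lit 336) (nat_lit 325)) (XT.lf (nat_lit 0) (nat_lit 77561482767) (nat_lit 152) (nat_lit 225007889226) (nat_lit 0) (nat_lit 77399956312) (nat_lit 1) (nat_lit 5) (nat_lit 3) (nat_lit 4) (nat_lit 1) (nat_lit 4) (nat_lit 540) (nat_lit 336) (nat_lit 324))) (XT.nd (nat_lit 78) (nat_lit 0) (nat_lit 0) (XT.lf (nat_lit 0) (nat_lit 87568819499) (nat_lit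 152) (nat_lit 223693968747) (nat_lit 0) (nat_lit 87397628315) (nat_lit 1) (nat_lit 5) (nat_lit 3) (nat_lit 4) (nat_lit 1) (nat_lit 4) (nat_lit 541) (nat_lit 336) (nat_lit 323)) (XT.lf (nat_lit 0) (nat_lit 97924042043) (nat_lit 152) (nat_lit 222625994978) (nat_lit 0) (nat_lit 97743646355) (nat_lit 1) (nat_lit 5) (nat_lit 3) (nat_lit 4) (nat_lit 1) (nat_lit 4) (nat_lit 542) (nat_lit 336) (nat_lit 322)))) (XT.nd (nat_lit 156) (nat_lit 0) (nat_lit 0) (XT.nd (nat_lit 78) (nat_lit 0) (nat_lit 0) (XT.lf (nat_lit 0) (nat_lit 108651805690) (nat_lit 152) (nat_lit 221801425125) (nat_lit 0) (nat_lit 108462643808) (nat_lit 1) (nat_lit 5) (nat_lit 3) (nat_lit 4) (nat_lit 1) (nat_lit 4) (nat_lit 543) (nat_lit 336) (nat_lit 321)) (XT.lf (nat_lit 0) (nat_lit 119777652736) (nat_lit 152) (nat_lit 221218295925) (nat_lit 0) (nat_lit 119580142097) (nat_lit 1) (nat_lit 5) (nat_lit 3) (nat_lit 4) (nat_lit 1) (nat_lit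 4) (nat_lit 544) (nat_lit 336) (nat_lit 320))) (XT.nd (nat_lit 78) (nat_lit 0) (nat_lit 0) (XT.lf (nat_lit 0) (nat_lit 131328073291) (nat_lit 152) (nat_lit 220875218976) (nat_lit 0) (nat_lit 131122611455) (nat_lit 1) (nat_lit 5) (nat_lit 3) (nat_lit 4) (nat_lit 1) (nat_lit 4) (nat_lit 545) (nat_lit 336) (nat_lit 319)) (XT.nd (nat_lit 78) (nat_lit 0) (nat_lit 0) (XT.lf (nat_lit 0) (nat_lit 143330568358) (nat_lit 152) (nat_lit 220771377428) (nat_lit 0) (nat_lit 143117533954) (nat_lit 1) (nat_lit 5) (nat_lit 3) (nat_lit 4) (nat_lit 1) (nat_lit 4) (nat_lit 546) (nat_lit 336) (nat_lit 318)) (XT.lf (nat_lit 0) (nat_lit 155813715305) (nat_lit 152) (nat_lit 220906524039) (nat_lit 0) (nat_lit 155593468931) (nat_lit 1) (nat_lit 5) (nat_lit 3) (nat_lit 4) (nat_lit 1) (nat_lit 4) (nat_lit 547) (nat_lit 336) (nat_lit 317))))))))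
noncomputable def xc7 : XT := (XT.nd (nat_lit 61230) (nat_lit 0) (nat_lit 0) (XT.nd (nat_lit 624) (nat_lit 0) (nat_lit 0) (XT.nd (nat_lit 312) (nat_lit 0) (nat_lit 0) (XT.nd (nat_lit 156) (nat_lit 0) (nat_lit 0) (XT.nd (nat_lit 78) (nat_lit 0) (nat_lit 0) (XT.lf (nat_lit 0) (nat_lit 168807235910) (nat_lit 152) (nat_lit 221280980587) (nat_lit 0) (nat_lit 168580120994) (nat_lit 1) (nat_lit 5) (nat_lit 3) (nat_lit 4) (nat_lit 1) (nat_lit 4) (nat_lit 548) (nat_lit 336) (nat_lit 316)) (XT.lf (nat_lit 0) (nat_lit 182342067129) (nat_lit 152) (nat_lit 221895638635) (nat_lit 0) (nat_lit 182108410743) (nat_lit 1) (nat_lit 5) (nat_lit 3) (nat_lit 4) (nat_lit 1) (nat_lit 4) (nat_lit 549) (nat_lit 336) (nat_lit 315))) (XT.nd (nat_lit 78) (nat_lit 0) (nat_lit 0) (XT.lf (nat_lit 0) (nat_lit 196450434749) (nat_lit 152) (nat_lit 222751961655) (nat_lit 0) (nat_lit 196210548393) (nat_lit 1) (nat_lit 5) (nat_lit 3)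 (nat_lit 4) (nat_lit 1) (nat_lit 4) (nat_lit 550) (nat_lit 336) (nat_lit 314)) (XT.lf (nat_lit 0) (nat_lit 211165930122) (nat_lit 152) (nat_lit 223851988510) (nat_lit 0) (nat_lit 210920110460) (nat_lit 1) (nat_lit 5) (nat_lit 3) (nat_lit 4) (nat_lit 1) (nat_lit 4) (nat_lit 551) (nat_lit 336) (nat_lit 313)))) (XT.nd (nat_lit 156) (nat_lit 0) (nat_lit 0) (XT.nd (nat_lit 78) (nat_lit 0) (nat_lit 0) (XT.lf (nat_lit 0) (nat_lit 226523590141) (nat_lit 152) (nat_lit 225198338314) (nat_lit 0) (nat_lit 226272119712) (nat_lit 1) (nat_lit 5) (nat_lit 3) (nat_lit 4) (nat_lit 1) (nat_lit 4) (nat_lit 552) (nat_lit 336) (nat_lit 312)) (XT.lf (nat_lit 0) (nat_lit 242559980664) (nat_lit 152) (nat_lit 226794216659) (nat_lit 0) (nat_lit 242303128553) (nat_lit 1) (nat_lit 5) (nat_lit 3) (nat_lit 4) (nat_lit 1) (nat_lit 4) (nat_lit 553) (nat_lit 336) (nat_lit 311))) (XT.nd (nat_lit 78) (nat_lit 0) (nat_lit 0) (XT.lf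 (nat_lit 0) (nat_lit 259313283573) (nat_lit 152) (nat_lit 228643423257) (nat_lit 0) (nat_lit 259051306049) (nat_lit 1) (nat_lit 5) (nat_lit 3) (nat_lit 4) (nat_lit 1) (nat_lit 4) (nat_lit 554) (nat_lit 336) (nat_lit 310)) (XT.lf (nat_lit 0) (nat_lit 276823387685) (nat_lit 152) (nat_lit 230750360981) (nat_lit 0) (nat_lit 276556528816) (nat_lit 1) (nat_lit 5) (nat_lit 3) (nat_lit 4) (nat_lit 1) (nat_lit 4) (nat_lit 555) (nat_lit 336) (nat_lit 309))))) (XT.nd (nat_lit 60294) (nat_lit 0) (nat_lit 152) (XT.nd (nat_lit 60138) (nat_lit 0) (nat_lit 152) (XT.nd (nat_lit 78) (nat_lit 0) (nat_lit 0) (XT.lf (nat_lit 0) (nat_lit 295131983723) (nat_lit 152) (nat_lit 233120046348) (nat_lit 0) (nat_lit 294860475954) (nat_lit 1) (nat_lit 5) (nat_lit 3) (nat_lit 4) (nat_lit 1) (nat_lit 4) (nat_lit 556) (nat_lit 336) (nat_lit 308)) (XT.lf (nat_lit 0) (nat_lit 314282663582) (nat_lit 152) (nat_lit 235758121467) (nat_lit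 0) (nat_lit 314006728290) (nat_lit 1) (nat_lit 5) (nat_lit 3) (nat_lit 4) (nat_lit 1) (nat_lit 4) (nat_lit 557) (nat_lit 336) (nat_lit 307))) (XT.nd (nat_lit 78) (nat_lit 0) (nat_lit 0) (XT.lf (nat_lit 0) (nat_lit 60429026629) (nat_lit 76) (nat_lit 18700486575) (nat_lit 76) (nat_lit 18700486575) (nat_lit 3) (nat_lit 4) (nat_lit 4) (nat_lit 5) (nat_lit 4) (nat_lit 4) (nat_lit 526) (nat_lit 337) (nat_lit 337)) (XT.lf (nat_lit 0) (nat_lit 144384345761) (nat_lit 76) (nat_lit 30324956252) (nat_lit 76) (nat_lit 30305820749) (nat_lit 3) (nat_lit 4) (nat_lit 4) (nat_lit 5) (nat_lit 4) (nat_lit 4) (nat_lit 527) (nat_lit 337) (nat_lit 336)))) (XT.nd (nat_lit 156) (nat_lit 0) (nat_lit 0) (XT.nd (nat_lit 78) (nat_lit 0) (nat_lit 0) (XT.lf (nat_lit 0) (nat_lit 168536400674) (nat_lit 76) (nat_lit 23176217543) (nat_lit 76) (nat_lit 23138857751) (nat_lit 3) (nat_lit 4) (nat_lit 4) (nat_lit 5) (nat_lit 4) (nat_lit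 4) (nat_lit 528) (nat_lit 337) (nat_lit 335)) (XT.lf (nat_lit 0) (nat_lit 193371722890) (nat_lit 76) (nat_lit 15937736218) (nat_lit 76) (nat_lit 15883019961) (nat_lit 3) (nat_lit 4) (nat_lit 4) (nat_lit 5) (nat_lit 4) (nat_lit 4) (nat_lit 529) (nat_lit 337) (nat_lit 334))) (XT.nd (nat_lit 78) (nat_lit 0) (nat_lit 0) (XT.lf (nat_lit 0) (nat_lit 218949444130) (nat_lit 76) (nat_lit 8592277798) (nat_lit 76) (nat_lit 8521031574) (nat_lit 3) (nat_lit 4) (nat_lit 4) (nat_lit 5) (nat_lit 4) (nat_lit 4) (nat_lit 530) (nat_lit 337) (nat_lit 333)) (XT.lf (nat_lit 0) (nat_lit 245330463728) (nat_lit 76) (nat_lit 1122353096) (nat_lit 76) (nat_lit 1035364047) (nat_lit 3) (nat_lit 4) (nat_lit 4) (nat_lit 5) (nat_lit 4) (nat_lit 4) (nat_lit 531) (nat_lit 337) (nat_lit 332)))))) (XT.nd (nat_lit 624) (nat_lit 0) (nat_lit 0) (XT.nd (nat_lit 312) (nat_lit 0) (nat_lit 0) (XT.nd (nat_lit 156) (nat_lit 0) (nat_lit 0)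 (XT.nd (nat_lit 78) (nat_lit 0) (nat_lit 0) (XT.lf (nat_lit 0) (nat_lit 6696603958) (nat_lit 152) (nat_lit 246178947888) (nat_lit 0) (nat_lit 6599478038) (nat_lit 1) (nat_lit 5) (nat_lit 3) (nat_lit 4) (nat_lit 1) (nat_lit 4) (nat_lit 532) (nat_lit 337) (nat_lit 331)) (XT.lf (nat_lit 0) (nat_lit 14610631686) (nat_lit 152) (nat_lit 242958321803) (nat_lit 0) (nat_lit 14499906521) (nat_lit 1) (nat_lit 5) (nat_lit 3) (nat_lit 4) (nat_lit 1) (nat_lit 4) (nat_lit 533) (nat_lit 337) (nat_lit 330))) (XT.nd (nat_lit 78) (nat_lit 0) (nat_lit 0) (XT.lf (nat_lit 0) (nat_lit 22705804686) (nat_lit 152) (nat_lit 240015177037) (nat_lit 0) (nat_lit 22582127860) (nat_lit 1) (nat_lit 5) (nat_lit 3) (nat_lit 4) (nat_lit 1) (nat_lit 4) (nat_lit 534) (nat_lit 337) (nat_lit 329)) (XT.lf (nat_lit 0) (nat_lit 31001397180) (nat_lit 152) (nat_lit 237342506101) (nat_lit 0) (nat_lit 30865385437) (nat_lit 1) (nat_lit 5) (nat_lit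 3) (nat_lit 4) (nat_lit 1) (nat_lit 4) (nat_lit 535) (nat_lit 337) (nat_lit 328)))) (XT.nd (nat_lit 156) (nat_lit 0) (nat_lit 0) (XT.nd (nat_lit 78) (nat_lit 0) (nat_lit 0) (XT.lf (nat_lit 0) (nat_lit 39517160577) (nat_lit 152) (nat_lit 234933945494) (nat_lit 0) (nat_lit 39369401296) (nat_lit 1) (nat_lit 5) (nat_lit 3) (nat_lit 4) (nat_lit 1) (nat_lit 4) (nat_lit 536) (nat_lit 337) (nat_lit 327)) (XT.lf (nat_lit 0) (nat_lit 48273370506) (nat_lit 152) (nat_lit 232783760547) (nat_lit 0) (nat_lit 48114423092) (nat_lit 1) (nat_lit 5) (nat_lit 3) (nat_lit 4) (nat_lit 1) (nat_lit 4) (nat_lit 537) (nat_lit 337) (nat_lit 326))) (XT.nd (nat_lit 78) (nat_lit 0) (nat_lit 0) (XT.lf (nat_lit 0) (nat_lit 57290875085) (nat_lit 152) (nat_lit 230886831773) (nat_lit 0) (nat_lit 57121272307) (nat_lit 1) (nat_lit 5) (nat_lit 3) (nat_lit 4) (nat_lit 1) (nat_lit 4) (nat_lit 538) (nat_lit 337) (nat_lit 325)) (XT.lf (nat_lit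 0) (nat_lit 66591144562) (nat_lit 152) (nat_lit 229238642675) (nat_lit 0) (nat_lit 66411393819) (nat_lit 1) (nat_lit 5) (nat_lit 3) (nat_lit 4) (nat_lit 1) (nat_lit 4) (nat_lit 539) (nat_lit 337) (nat_lit 324))))) (XT.nd (nat_lit 312) (nat_lit 0) (nat_lit 0) (XT.nd (nat_lit 156) (nat_lit 0) (nat_lit 0) (XT.nd (nat_lit 78) (nat_lit 0) (nat_lit 0) (XT.lf (nat_lit 0) (nat_lit 76196322438) (nat_lit 152) (nat_lit 227835268992) (nat_lit 0) (nat_lit 76006906965) (nat_lit 1) (nat_lit 5) (nat_lit 3) (nat_lit 4) (nat_lit 1) (nat_lit 4) (nat_lit 540) (nat_lit 337) (nat_lit 323)) (XT.lf (nat_lit 0) (nat_lit 86129278182) (nat_lit 152) (nat_lit 226673369359) (nat_lit 0) (nat_lit 85930658205) (nat_lit 1) (nat_lit 5) (nat_lit 3) (nat_lit 4) (nat_lit 1) (nat_lit 4) (nat_lit 541) (nat_lit 337) (nat_lit 322))) (XT.nd (nat_lit 78) (nat_lit 0) (nat_lit 0) (XT.lf (nat_lit 0) (nat_lit 96413661690) (nat_lit 152) (nat_lit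 225750177348) (nat_lit 0) (nat_lit 96206275519) (nat_lit 1) (nat_lit 5) (nat_lit 3) (nat_lit 4) (nat_lit 1) (nat_lit 4) (nat_lit 542) (nat_lit 337) (nat_lit 321)) (XT.lf (nat_lit 0) (nat_lit 107073959589) (nat_lit 152) (nat_lit 225063494883) (nat_lit 0) (nat_lit 106858224661) (nat_lit 1) (nat_lit 5) (nat_lit 3) (nat_lit 4) (nat_lit 1) (nat_lit 4) (nat_lit 543) (nat_lit 337) (nat_lit 320)))) (XT.nd (nat_lit 156) (nat_lit 0) (nat_lit 0) (XT.nd (nat_lit 78) (nat_lit 0) (nat_lit 0) (XT.lf (nat_lit 0) (nat_lit 118135553540) (nat_lit 152) (nat_lit 224611687005) (nat_lit 0) (nat_lit 117911867416) (nat_lit 1) (nat_lit 5) (nat_lit 3) (nat_lit 4) (nat_lit 1) (nat_lit 4) (nat_lit 544) (nat_lit 337) (nat_lit 319)) (XT.lf (nat_lit 0) (nat_lit 129624780673) (nat_lit 152) (nat_lit 224393677982) (nat_lit 0) (nat_lit 129393521981) (nat_lit 1) (nat_lit 5) (nat_lit 3) (nat_lit 4) (nat_lit 1) (nat_lit 4) (nat_lit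 545) (nat_lit 337) (nat_lit 318))) (XT.nd (nat_lit 78) (nat_lit 0) (nat_lit 0) (XT.lf (nat_lit 0) (nat_lit 141568996289) (nat_lit 152) (nat_lit 224408948745) (nat_lit 0) (nat_lit 141330525627) (nat_lit 1) (nat_lit 5) (nat_lit 3) (nat_lit 4) (nat_lit 1) (nat_lit 4) (nat_lit 546) (nat_lit 337) (nat_lit 317)) (XT.nd (nat_lit 78) (nat_lit 0) (nat_lit 0) (XT.lf (nat_lit 0) (nat_lit 153996638998) (nat_lit 152) (nat_lit 224657535652) (nat_lit 0) (nat_lit 153751299793) (nat_lit 1) (nat_lit 5) (nat_lit 3) (nat_lit 4) (nat_lit 1) (nat_lit 4) (nat_lit 547) (nat_lit 337) (nat_lit 316)) (XT.lf (nat_lit 0) (nat_lit 166937298425) (nat_lit 152) (nat_lit 225140030577) (nat_lit 0) (nat_lit 166685417751) (nat_lit 1) (nat_lit 5) (nat_lit 3) (nat_lit 4) (nat_lit 1) (nat_lit 4) (nat_lit 548) (nat_lit 337) (nat_lit 315))))))))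
noncomputable def xc8 : XT := (XT.nd (nat_lit 61074) (nat_lit 0) (nat_lit 0) (XT.nd (nat_lit 624) (nat_lit 0) (nat_lit 0) (XT.nd (nat_lit 312) (nat_lit 0) (nat_lit 0) (XT.nd (nat_lit 156) (nat_lit 0) (nat_lit 0) (XT.nd (nat_lit 78) (nat_lit 0) (nat_lit 0) (XT.lf (nat_lit 0) (nat_lit 180421785663) (nat_lit 152) (nat_lit 225857582317) (nat_lit 0) (nat_lit 180163675018) (nat_lit 1) (nat_lit 5) (nat_lit 3) (nat_lit 4) (nat_lit 1) (nat_lit 4) (nat_lit 549) (nat_lit 337) (nat_lit 314)) (XT.lf (nat_lit 0) (nat_lit 194482206635) (nat_lit 152) (nat_lit 226811899330) (nat_lit 0) (nat_lit 194218162685) (nat_lit 1) (nat_lit 5) (nat_lit 3) (nat_lit 4) (nat_lit 1) (nat_lit 4) (nat_lit 550) (nat_lit 337) (nat_lit 313))) (XT.nd (nat_lit 78) (nat_lit 0) (nat_lit 0) (XT.lf (nat_lit 0) (nat_lit 209152038534) (nat_lit 152) (nat_lit 228005253797) (nat_lit 0) (nat_lit 208882343816) (nat_lit 1) (nat_lit 5) (nat_lit 3)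 (nat_lit 4) (nat_lit 1) (nat_lit 4) (nat_lit 551) (nat_lit 337) (nat_lit 312)) (XT.lf (nat_lit 0) (nat_lit 224466209530) (nat_lit 152) (nat_lit 229440487040) (nat_lit 0) (nat_lit 224191133130) (nat_lit 1) (nat_lit 5) (nat_lit 3) (nat_lit 4) (nat_lit 1) (nat_lit 4) (nat_lit 552) (nat_lit 337) (nat_lit 311)))) (XT.nd (nat_lit 156) (nat_lit 0) (nat_lit 0) (XT.nd (nat_lit 78) (nat_lit 0) (nat_lit 0) (XT.lf (nat_lit 0) (nat_lit 240461181936) (nat_lit 152) (nat_lit 231121016281) (nat_lit 0) (nat_lit 240180980123) (nat_lit 1) (nat_lit 5) (nat_lit 3) (nat_lit 4) (nat_lit 1) (nat_lit 4) (nat_lit 553) (nat_lit 337) (nat_lit 310)) (XT.lf (nat_lit 0) (nat_lit 257175039019) (nat_lit 152) (nat_lit 233050842779) (nat_lit 0) (nat_lit 256889955862) (nat_lit 1) (nat_lit 5) (nat_lit 3) (nat_lit 4) (nat_lit 1) (nat_lit 4) (nat_lit 554) (nat_lit 337) (nat_lit 309))) (XT.nd (nat_lit 78) (nat_lit 0) (nat_lit 0) (XT.lf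 (nat_lit 0) (nat_lit 274647575677) (nat_lit 152) (nat_lit 235234561360) (nat_lit 0) (nat_lit 274357843620) (nat_lit 1) (nat_lit 5) (nat_lit 3) (nat_lit 4) (nat_lit 1) (nat_lit 4) (nat_lit 555) (nat_lit 337) (nat_lit 308)) (XT.lf (nat_lit 0) (nat_lit 292920393188) (nat_lit 152) (nat_lit 237677371354) (nat_lit 0) (nat_lit 292626233607) (nat_lit 1) (nat_lit 5) (nat_lit 3) (nat_lit 4) (nat_lit 1) (nat_lit 4) (nat_lit 556) (nat_lit 337) (nat_lit 307))))) (XT.nd (nat_lit 60138) (nat_lit 0) (nat_lit 152) (XT.nd (nat_lit 59982) (nat_lit 0) (nat_lit 152) (XT.nd (nat_lit 59904) (nat_lit 0) (nat_lit 152) (XT.lf (nat_lit 0) (nat_lit 312036998261) (nat_lit 152) (nat_lit 240385088974) (nat_lit 0) (nat_lit 311738621990) (nat_lit 1) (nat_lit 5) (nat_lit 3) (nat_lit 4) (nat_lit 1) (nat_lit 4) (nat_lit 557) (nat_lit 337) (nat_lit 306)) (XT.lf (nat_lit 0) (nat_lit 37878070881) (nat_lit 76) (nat_lit 25635512864) (nat_lit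 76) (nat_lit 25635512864) (nat_lit 3) (nat_lit 4) (nat_lit 4) (nat_lit 5) (nat_lit 4) (nat_lit 4) (nat_lit 524) (nat_lit 338) (nat_lit 338))) (XT.nd (nat_lit 78) (nat_lit 0) (nat_lit 0) (XT.lf (nat_lit 0) (nat_lit 97901508183) (nat_lit 76) (nat_lit 44441208179) (nat_lit 76) (nat_lit 44421115901) (nat_lit 3) (nat_lit 4) (nat_lit 4) (nat_lit 5) (nat_lit 4) (nat_lit 4) (nat_lit 525) (nat_lit 338) (nat_lit 337)) (XT.lf (nat_lit 0) (nat_lit 120576063099) (nat_lit 76) (nat_lit 37565032740) (nat_lit 76) (nat_lit 37525804960) (nat_lit 3) (nat_lit 4) (nat_lit 4) (nat_lit 5) (nat_lit 4) (nat_lit 4) (nat_lit 526) (nat_lit 338) (nat_lit 336)))) (XT.nd (nat_lit 156) (nat_lit 0) (nat_lit 0) (XT.nd (nat_lit 78) (nat_lit 0) (nat_lit 0) (XT.lf (nat_lit 0) (nat_lit 143833793546) (nat_lit 76) (nat_lit 30626127565) (nat_lit 76) (nat_lit 30568675496) (nat_lit 3) (nat_lit 4) (nat_lit 4) (nat_lit 5) (nat_lit 4) (nat_lit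 4) (nat_lit 527) (nat_lit 338) (nat_lit 335)) (XT.lf (nat_lit 0) (nat_lit 167730075073) (nat_lit 76) (nat_lit 23607971451) (nat_lit 76) (nat_lit 23533162917) (nat_lit 3) (nat_lit 4) (nat_lit 4) (nat_lit 5) (nat_lit 4) (nat_lit 4) (nat_lit 528) (nat_lit 338) (nat_lit 334))) (XT.nd (nat_lit 78) (nat_lit 0) (nat_lit 0) (XT.lf (nat_lit 0) (nat_lit 192321803588) (nat_lit 76) (nat_lit 16493854503) (nat_lit 76) (nat_lit 16402516001) (nat_lit 3) (nat_lit 4) (nat_lit 4) (nat_lit 5) (nat_lit 4) (nat_lit 4) (nat_lit 529) (nat_lit 338) (nat_lit 333)) (XT.lf (nat_lit 0) (nat_lit 217667530826) (nat_lit 76) (nat_lit 9266838346) (nat_lit 76) (nat_lit 9159757018) (nat_lit 3) (nat_lit 4) (nat_lit 4) (nat_lit 5) (nat_lit 4) (nat_lit 4) (nat_lit 530) (nat_lit 338) (nat_lit 332)))))) (XT.nd (nat_lit 624) (nat_lit 0) (nat_lit 0) (XT.nd (nat_lit 312) (nat_lit 0) (nat_lit 0) (XT.nd (nat_lit 156) (nat_lit 0) (nat_lit 0)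 (XT.nd (nat_lit 78) (nat_lit 152) (nat_lit 0) (XT.lf (nat_lit 0) (nat_lit 243827603756) (nat_lit 76) (nat_lit 1909715799) (nat_lit 76) (nat_lit 1787641305) (nat_lit 3) (nat_lit 4) (nat_lit 4) (nat_lit 5) (nat_lit 4) (nat_lit 4) (nat_lit 531) (nat_lit 338) (nat_lit 331)) (XT.lf (nat_lit 0) (nat_lit 5820976737) (nat_lit 152) (nat_lit 248007675768) (nat_lit 0) (nat_lit 5691116069) (nat_lit 1) (nat_lit 5) (nat_lit 3) (nat_lit 4) (nat_lit 1) (nat_lit 4) (nat_lit 532) (nat_lit 338) (nat_lit 330))) (XT.nd (nat_lit 78) (nat_lit 0) (nat_lit 0) (XT.lf (nat_lit 0) (nat_lit 13630342946) (nat_lit 152) (nat_lit 245000958279) (nat_lit 0) (nat_lit 13487530617) (nat_lit 1) (nat_lit 5) (nat_lit 3) (nat_lit 4) (nat_lit 1) (nat_lit 4) (nat_lit 533) (nat_lit 338) (nat_lit 329)) (XT.lf (nat_lit 0) (nat_lit 21625838309) (nat_lit 152) (nat_lit 242261535986) (nat_lit 0) (nat_lit 21470691064) (nat_lit 1) (nat_lit 5) (nat_lit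 3) (nat_lit 4) (nat_lit 1) (nat_lit 4) (nat_lit 534) (nat_lit 338) (nat_lit 328)))) (XT.nd (nat_lit 156) (nat_lit 0) (nat_lit 0) (XT.nd (nat_lit 78) (nat_lit 0) (nat_lit 0) (XT.lf (nat_lit 0) (nat_lit 29826499719) (nat_lit 152) (nat_lit 239782886453) (nat_lit 0) (nat_lit 29659604935) (nat_lit 1) (nat_lit 5) (nat_lit 3) (nat_lit 4) (nat_lit 1) (nat_lit 4) (nat_lit 535) (nat_lit 338) (nat_lit 327)) (XT.lf (nat_lit 0) (nat_lit 38251852561) (nat_lit 152) (nat_lit 237559108134) (nat_lit 0) (nat_lit 38073769645) (nat_lit 1) (nat_lit 5) (nat_lit 3) (nat_lit 4) (nat_lit 1) (nat_lit 4) (nat_lit 536) (nat_lit 338) (nat_lit 326))) (XT.nd (nat_lit 78) (nat_lit 0) (nat_lit 0) (XT.lf (nat_lit 0) (nat_lit 46921957199) (nat_lit 152) (nat_lit 235584906319) (nat_lit 0) (nat_lit 46733218919) (nat_lit 1) (nat_lit 5) (nat_lit 3) (nat_lit 4) (nat_lit 1) (nat_lit 4) (nat_lit 537) (nat_lit 338) (nat_lit 325)) (XT.lf (nat_lit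 0) (nat_lit 55857456739) (nat_lit 152) (nat_lit 233855580528) (nat_lit 0) (nat_lit 55658570493) (nat_lit 1) (nat_lit 5) (nat_lit 3) (nat_lit 4) (nat_lit 1) (nat_lit 4) (nat_lit 538) (nat_lit 338) (nat_lit 324))))) (XT.nd (nat_lit 312) (nat_lit 0) (nat_lit 0) (XT.nd (nat_lit 156) (nat_lit 0) (nat_lit 0) (XT.nd (nat_lit 78) (nat_lit 0) (nat_lit 0) (XT.lf (nat_lit 0) (nat_lit 65079626179) (nat_lit 152) (nat_lit 232367013317) (nat_lit 0) (nat_lit 64871075204) (nat_lit 1) (nat_lit 5) (nat_lit 3) (nat_lit 4) (nat_lit 1) (nat_lit 4) (nat_lit 539) (nat_lit 338) (nat_lit 323)) (XT.lf (nat_lit 0) (nat_lit 74610423067) (nat_lit 152) (nat_lit 231115660480) (nat_lit 0) (nat_lit 74392667588) (nat_lit 1) (nat_lit 5) (nat_lit 3) (nat_lit 4) (nat_lit 1) (nat_lit 4) (nat_lit 540) (nat_lit 338) (nat_lit 322))) (XT.nd (nat_lit 78) (nat_lit 0) (nat_lit 0) (XT.lf (nat_lit 0) (nat_lit 84472539775) (nat_lit 152) (nat_lit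 230098542605) (nat_lit 0) (nat_lit 84246018102) (nat_lit 1) (nat_lit 5) (nat_lit 3) (nat_lit 4) (nat_lit 1) (nat_lit 4) (nat_lit 541) (nat_lit 338) (nat_lit 321)) (XT.lf (nat_lit 0) (nat_lit 94689457535) (nat_lit 152) (nat_lit 229313237983) (nat_lit 0) (nat_lit 94454587105) (nat_lit 1) (nat_lit 5) (nat_lit 3) (nat_lit 4) (nat_lit 1) (nat_lit 4) (nat_lit 542) (nat_lit 338) (nat_lit 320)))) (XT.nd (nat_lit 156) (nat_lit 0) (nat_lit 0) (XT.nd (nat_lit 78) (nat_lit 0) (nat_lit 0) (XT.lf (nat_lit 0) (nat_lit 105285502340) (nat_lit 152) (nat_lit 228757876840) (nat_lit 0) (nat_lit 105042680713) (nat_lit 1) (nat_lit 5) (nat_lit 3) (nat_lit 4) (nat_lit 1) (nat_lit 4) (nat_lit 543) (nat_lit 338) (nat_lit 319)) (XT.lf (nat_lit 0) (nat_lit 116285902869) (nat_lit 152) (nat_lit 228431136888) (nat_lit 0) (nat_lit 116035508673) (nat_lit 1) (nat_lit 5) (nat_lit 3) (nat_lit 4) (nat_lit 1) (nat_lit 4) (nat_lit 544)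 (nat_lit 338) (nat_lit 318))) (XT.nd (nat_lit 78) (nat_lit 0) (nat_lit 0) (XT.lf (nat_lit 0) (nat_lit 127716850551) (nat_lit 152) (nat_lit 228332240176) (nat_lit 0) (nat_lit 127459244386) (nat_lit 1) (nat_lit 5) (nat_lit 3) (nat_lit 4) (nat_lit 1) (nat_lit 4) (nat_lit 545) (nat_lit 338) (nat_lit 317)) (XT.lf (nat_lit 0) (nat_lit 139605561929) (nat_lit 152) (nat_lit 228460951234) (nat_lit 0) (nat_lit 139341087221) (nat_lit 1) (nat_lit 5) (nat_lit 3) (nat_lit 4) (nat_lit 1) (nat_lit 4) (nat_lit 546) (nat_lit 338) (nat_lit 316)))))))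
noncomputable def xc9 : XT := (XT.nd (nat_lit 60918) (nat_lit 0) (nat_lit 0) (XT.nd (nat_lit 624) (nat_lit 0) (nat_lit 0) (XT.nd (nat_lit 312) (nat_lit 0) (nat_lit 0) (XT.nd (nat_lit 156) (nat_lit 0) (nat_lit 0) (XT.nd (nat_lit 78) (nat_lit 0) (nat_lit 0) (XT.lf (nat_lit 0) (nat_lit 151980343459) (nat_lit 152) (nat_lit 228817576518) (nat_lit 0) (nat_lit 151709327282) (nat_lit 1) (nat_lit 5) (nat_lit 3) (nat_lit 4) (nat_lit 1) (nat_lit 4) (nat_lit 547) (nat_lit 338) (nat_lit 315)) (XT.lf (nat_lit 0) (nat_lit 164870658905) (nat_lit 152) (nat_lit 229402965135) (nat_lit 0) (nat_lit 164593412757) (nat_lit 1) (nat_lit 5) (nat_lit 3) (nat_lit 4) (nat_lit 1) (nat_lit 4) (nat_lit 548) (nat_lit 338) (nat_lit 314))) (XT.nd (nat_lit 78) (nat_lit 0) (nat_lit 0) (XT.lf (nat_lit 0) (nat_lit 178307199495) (nat_lit 152) (nat_lit 230218510868) (nat_lit 0) (nat_lit 178024020042) (nat_lit 1) (nat_lit 5) (nat_lit 3)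 (nat_lit 4) (nat_lit 1) (nat_lit 4) (nat_lit 549) (nat_lit 338) (nat_lit 313)) (XT.lf (nat_lit 0) (nat_lit 192321956993) (nat_lit 152) (nat_lit 231266155493) (nat_lit 0) (nat_lit 192033126773) (nat_lit 1) (nat_lit 5) (nat_lit 3) (nat_lit 4) (nat_lit 1) (nat_lit 4) (nat_lit 550) (nat_lit 338) (nat_lit 312)))) (XT.nd (nat_lit 156) (nat_lit 0) (nat_lit 0) (XT.nd (nat_lit 78) (nat_lit 0) (nat_lit 0) (XT.lf (nat_lit 0) (nat_lit 206948299869) (nat_lit 152) (nat_lit 232548393400) (nat_lit 0) (nat_lit 206654087966) (nat_lit 1) (nat_lit 5) (nat_lit 3) (nat_lit 4) (nat_lit 1) (nat_lit 4) (nat_lit 551) (nat_lit 338) (nat_lit 311)) (XT.lf (nat_lit 0) (nat_lit 222221052748) (nat_lit 152) (nat_lit 234068277539) (nat_lit 0) (nat_lit 221921715433) (nat_lit 1) (nat_lit 5) (nat_lit 3) (nat_lit 4) (nat_lit 1) (nat_lit 4) (nat_lit 552) (nat_lit 338) (nat_lit 310))) (XT.nd (nat_lit 78) (nat_lit 0) (nat_lit 0) (XT.lf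 (nat_lit 0) (nat_lit 238176579328) (nat_lit 152) (nat_lit 235829426680) (nat_lit 0) (nat_lit 237872360668) (nat_lit 1) (nat_lit 5) (nat_lit 3) (nat_lit 4) (nat_lit 1) (nat_lit 4) (nat_lit 553) (nat_lit 338) (nat_lit 309)) (XT.lf (nat_lit 0) (nat_lit 254852868958) (nat_lit 152) (nat_lit 237836034036) (nat_lit 0) (nat_lit 254544001398) (nat_lit 1) (nat_lit 5) (nat_lit 3) (nat_lit 4) (nat_lit 1) (nat_lit 4) (nat_lit 554) (nat_lit 338) (nat_lit 308))))) (XT.nd (nat_lit 59982) (nat_lit 0) (nat_lit 152) (XT.nd (nat_lit 156) (nat_lit 0) (nat_lit 0) (XT.nd (nat_lit 78) (nat_lit 0) (nat_lit 0) (XT.lf (nat_lit 0) (nat_lit 272289627089) (nat_lit 152) (nat_lit 240092877243) (nat_lit 0) (nat_lit 271976332005) (nat_lit 1) (nat_lit 5) (nat_lit 3) (nat_lit 4) (nat_lit 1) (nat_lit 4) (nat_lit 555) (nat_lit 338) (nat_lit 307)) (XT.lf (nat_lit 0) (nat_lit 290528369813) (nat_lit 152) (nat_lit 242605329737) (nat_lit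 0) (nat_lit 290210858039) (nat_lit 1) (nat_lit 5) (nat_lit 3) (nat_lit 4) (nat_lit 1) (nat_lit 4) (nat_lit 556) (nat_lit 338) (nat_lit 306))) (XT.nd (nat_lit 59748) (nat_lit 0) (nat_lit 152) (XT.lf (nat_lit 0) (nat_lit 309612522707) (nat_lit 152) (nat_lit 245379373549) (nat_lit 0) (nat_lit 309290995038) (nat_lit 1) (nat_lit 5) (nat_lit 3) (nat_lit 4) (nat_lit 1) (nat_lit 4) (nat_lit 557) (nat_lit 338) (nat_lit 305)) (XT.lf (nat_lit 0) (nat_lit 16577047370) (nat_lit 76) (nat_lit 32359467155) (nat_lit 76) (nat_lit 32359467155) (nat_lit 3) (nat_lit 4) (nat_lit 4) (nat_lit 5) (nat_lit 4) (nat_lit 4) (nat_lit 522) (nat_lit 339) (nat_lit 339)))) (XT.nd (nat_lit 156) (nat_lit 0) (nat_lit 0) (XT.nd (nat_lit 78) (nat_lit 0) (nat_lit 0) (XT.lf (nat_lit 0) (nat_lit 54087236776) (nat_lit 76) (nat_lit 58091843749) (nat_lit 76) (nat_lit 58070746857) (nat_lit 3) (nat_lit 4) (nat_lit 4) (nat_lit 5) (nat_lit 4)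 (nat_lit 4) (nat_lit 523) (nat_lit 339) (nat_lit 338)) (XT.lf (nat_lit 0) (nat_lit 75460052097) (nat_lit 76) (nat_lit 51443288297) (nat_lit 76) (nat_lit 51402099127) (nat_lit 3) (nat_lit 4) (nat_lit 4) (nat_lit 5) (nat_lit 4) (nat_lit 4) (nat_lit 524) (nat_lit 339) (nat_lit 337))) (XT.nd (nat_lit 78) (nat_lit 0) (nat_lit 0) (XT.lf (nat_lit 0) (nat_lit 97323428358) (nat_lit 76) (nat_lit 44757438059) (nat_lit 76) (nat_lit 44697113386) (nat_lit 3) (nat_lit 4) (nat_lit 4) (nat_lit 5) (nat_lit 4) (nat_lit 4) (nat_lit 525) (nat_lit 339) (nat_lit 336)) (XT.lf (nat_lit 0) (nat_lit 119729421218) (nat_lit 76) (nat_lit 38018374345) (nat_lit 76) (nat_lit 37939825383) (nat_lit 3) (nat_lit 4) (nat_lit 4) (nat_lit 5) (nat_lit 4) (nat_lit 4) (nat_lit 526) (nat_lit 339) (nat_lit 335)))))) (XT.nd (nat_lit 624) (nat_lit 0) (nat_lit 0) (XT.nd (nat_lit 312) (nat_lit 152) (nat_lit 0) (XT.nd (nat_lit 156) (nat_lit 0)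 (nat_lit 0) (XT.nd (nat_lit 78) (nat_lit 0) (nat_lit 0) (XT.lf (nat_lit 0) (nat_lit 142731378278) (nat_lit 76) (nat_lit 31210051765) (nat_lit 76) (nat_lit 31114146338) (nat_lit 3) (nat_lit 4) (nat_lit 4) (nat_lit 5) (nat_lit 4) (nat_lit 4) (nat_lit 527) (nat_lit 339) (nat_lit 334)) (XT.lf (nat_lit 0) (nat_lit 166384066103) (nat_lit 76) (nat_lit 24316260027) (nat_lit 76) (nat_lit 24203824633) (nat_lit 3) (nat_lit 4) (nat_lit 4) (nat_lit 5) (nat_lit 4) (nat_lit 4) (nat_lit 528) (nat_lit 339) (nat_lit 333))) (XT.nd (nat_lit 78) (nat_lit 0) (nat_lit 0) (XT.lf (nat_lit 0) (nat_lit 190743800617) (nat_lit 76) (nat_lit 17320585341) (nat_lit 76) (nat_lit 17192407122) (nat_lit 3) (nat_lit 4) (nat_lit 4) (nat_lit 5) (nat_lit 4) (nat_lit 4) (nat_lit 529) (nat_lit 339) (nat_lit 332)) (XT.lf (nat_lit 0) (nat_lit 215868581187) (nat_lit 76) (nat_lit 10206371339) (nat_lit 76) (nat_lit 10063199953) (nat_lit 3) (nat_lit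 4) (nat_lit 4) (nat_lit 5) (nat_lit 4) (nat_lit 4) (nat_lit 530) (nat_lit 339) (nat_lit 331)))) (XT.nd (nat_lit 156) (nat_lit 0) (nat_lit 0) (XT.nd (nat_lit 78) (nat_lit 152) (nat_lit 0) (XT.lf (nat_lit 0) (nat_lit 241818228719) (nat_lit 76) (nat_lit 2956679417) (nat_lit 76) (nat_lit 2799228823) (nat_lit 3) (nat_lit 4) (nat_lit 4) (nat_lit 5) (nat_lit 4) (nat_lit 4) (nat_lit 531) (nat_lit 339) (nat_lit 330)) (XT.lf (nat_lit 0) (nat_lit 4687012041) (nat_lit 152) (nat_lit 250366352665) (nat_lit 0) (nat_lit 4524107434) (nat_lit 1) (nat_lit 5) (nat_lit 3) (nat_lit 4) (nat_lit 1) (nat_lit 4) (nat_lit 532) (nat_lit 339) (nat_lit 329))) (XT.nd (nat_lit 78) (nat_lit 0) (nat_lit 0) (XT.lf (nat_lit 0) (nat_lit 12396700613) (nat_lit 152) (nat_lit 247563357649) (nat_lit 0) (nat_lit 12221461090) (nat_lit 1) (nat_lit 5) (nat_lit 3) (nat_lit 4) (nat_lit 1) (nat_lit 4) (nat_lit 533) (nat_lit 339) (nat_lit 328))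 (XT.lf (nat_lit 0) (nat_lit 20297264892) (nat_lit 152) (nat_lit 245017956758) (nat_lit 0) (nat_lit 20110277830) (nat_lit 1) (nat_lit 5) (nat_lit 3) (nat_lit 4) (nat_lit 1) (nat_lit 4) (nat_lit 534) (nat_lit 339) (nat_lit 327))))) (XT.nd (nat_lit 312) (nat_lit 0) (nat_lit 0) (XT.nd (nat_lit 156) (nat_lit 0) (nat_lit 0) (XT.nd (nat_lit 78) (nat_lit 0) (nat_lit 0) (XT.lf (nat_lit 0) (nat_lit 28407515747) (nat_lit 152) (nat_lit 242724089513) (nat_lit 0) (nat_lit 28209340553) (nat_lit 1) (nat_lit 5) (nat_lit 3) (nat_lit 4) (nat_lit 1) (nat_lit 4) (nat_lit 535) (nat_lit 339) (nat_lit 326)) (XT.lf (nat_lit 0) (nat_lit 36746763298) (nat_lit 152) (nat_lit 240676294326) (nat_lit 0) (nat_lit 36537932740) (nat_lit 1) (nat_lit 5) (nat_lit 3) (nat_lit 4) (nat_lit 1) (nat_lit 4) (nat_lit 536) (nat_lit 339) (nat_lit 325))) (XT.nd (nat_lit 78) (nat_lit 0) (nat_lit 0) (XT.lf (nat_lit 0) (nat_lit 45334862897) (nat_lit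 152) (nat_lit 238869695494) (nat_lit 0) (nat_lit 45115884373) (nat_lit 1) (nat_lit 5) (nat_lit 3) (nat_lit 4) (nat_lit 1) (nat_lit 4) (nat_lit 537) (nat_lit 339) (nat_lit 324)) (XT.lf (nat_lit 0) (nat_lit 54192262399) (nat_lit 152) (nat_lit 237299991590) (nat_lit 0) (nat_lit 53963619146) (nat_lit 1) (nat_lit 5) (nat_lit 3) (nat_lit 4) (nat_lit 1) (nat_lit 4) (nat_lit 538) (nat_lit 339) (nat_lit 323)))) (XT.nd (nat_lit 156) (nat_lit 0) (nat_lit 0) (XT.nd (nat_lit 78) (nat_lit 0) (nat_lit 0) (XT.lf (nat_lit 0) (nat_lit 63340050852) (nat_lit 152) (nat_lit 235963445226) (nat_lit 0) (nat_lit 63102203095) (nat_lit 1) (nat_lit 5) (nat_lit 3) (nat_lit 4) (nat_lit 1) (nat_lit 4) (nat_lit 539) (nat_lit 339) (nat_lit 322)) (XT.lf (nat_lit 0) (nat_lit 72800008704) (nat_lit 152) (nat_lit 234856874146) (nat_lit 0) (nat_lit 72553394752) (nat_lit 1) (nat_lit 5) (nat_lit 3) (nat_lit 4) (nat_lit 1) (nat_lit 4) (nat_lit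 540) (nat_lit 339) (nat_lit 321))) (XT.nd (nat_lit 78) (nat_lit 0) (nat_lit 0) (XT.lf (nat_lit 0) (nat_lit 82594659664) (nat_lit 152) (nat_lit 233977643660) (nat_lit 0) (nat_lit 82339696956) (nat_lit 1) (nat_lit 5) (nat_lit 3) (nat_lit 4) (nat_lit 1) (nat_lit 4) (nat_lit 541) (nat_lit 339) (nat_lit 320)) (XT.nd (nat_lit 78) (nat_lit 0) (nat_lit 0) (XT.lf (nat_lit 0) (nat_lit 92747324330) (nat_lit 152) (nat_lit 233323660360) (nat_lit 0) (nat_lit 92484410425) (nat_lit 1) (nat_lit 5) (nat_lit 3) (nat_lit 4) (nat_lit 1) (nat_lit 4) (nat_lit 542) (nat_lit 339) (nat_lit 319)) (XT.lf (nat_lit 0) (nat_lit 103282175712) (nat_lit 152) (nat_lit 232893367143) (nat_lit 0) (nat_lit 103011689239) (nat_lit 1) (nat_lit 5) (nat_lit 3) (nat_lit 4) (nat_lit 1) (nat_lit 4) (nat_lit 543) (nat_lit 339) (nat_lit 318))))))))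
noncomputable def xc10 : XT := (XT.nd (nat_lit 60762) (nat_lit 0) (nat_lit 0) (XT.nd (nat_lit 624) (nat_lit 0) (nat_lit 0) (XT.nd (nat_lit 312) (nat_lit 0) (nat_lit 0) (XT.nd (nat_lit 156) (nat_lit 0) (nat_lit 0) (XT.nd (nat_lit 78) (nat_lit 0) (nat_lit 0) (XT.lf (nat_lit 0) (nat_lit 114224296791) (nat_lit 152) (nat_lit 232685739502) (nat_lit 0) (nat_lit 113946598347) (nat_lit 1) (nat_lit 5) (nat_lit 3) (nat_lit 4) (nat_lit 1) (nat_lit 4) (nat_lit 544) (nat_lit 339) (nat_lit 317)) (XT.lf (nat_lit 0) (nat_lit 125599740235) (nat_lit 152) (nat_lit 232700283085) (nat_lit 0) (nat_lit 125315173249) (nat_lit 1) (nat_lit 5) (nat_lit 3) (nat_lit 4) (nat_lit 1) (nat_lit 4) (nat_lit 545) (nat_lit 339) (nat_lit 316))) (XT.nd (nat_lit 78) (nat_lit 0) (nat_lit 0) (XT.lf (nat_lit 0) (nat_lit 137435590434) (nat_lit 152) (nat_lit 232937032521) (nat_lit 0) (nat_lit 137144481979) (nat_lit 1) (nat_lit 5) (nat_lit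 3) (nat_lit 4) (nat_lit 1) (nat_lit 4) (nat_lit 546) (nat_lit 339) (nat_lit 315)) (XT.lf (nat_lit 0) (nat_lit 149760027983) (nat_lit 152) (nat_lit 233396551497) (nat_lit 0) (nat_lit 149462689557) (nat_lit 1) (nat_lit 5) (nat_lit 3) (nat_lit 4) (nat_lit 1) (nat_lit 4) (nat_lit 547) (nat_lit 339) (nat_lit 314)))) (XT.nd (nat_lit 156) (nat_lit 0) (nat_lit 0) (XT.nd (nat_lit 78) (nat_lit 0) (nat_lit 0) (XT.lf (nat_lit 0) (nat_lit 162602396781) (nat_lit 152) (nat_lit 234079934107) (nat_lit 0) (nat_lit 162299125050) (nat_lit 1) (nat_lit 5) (nat_lit 3) (nat_lit 4) (nat_lit 1) (nat_lit 4) (nat_lit 548) (nat_lit 339) (nat_lit 313)) (XT.lf (nat_lit 0) (nat_lit 175993273897) (nat_lit 152) (nat_lit 234988807452) (nat_lit 0) (nat_lit 175684351399) (nat_lit 1) (nat_lit 5) (nat_lit 3) (nat_lit 4) (nat_lit 1) (nat_lit 4) (nat_lit 549) (nat_lit 339) (nat_lit 312))) (XT.nd (nat_lit 78) (nat_lit 0) (nat_lit 0) (XT.lf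 (nat_lit 0) (nat_lit 189964542372) (nat_lit 152) (nat_lit 236125335516) (nat_lit 0) (nat_lit 189650238191) (nat_lit 1) (nat_lit 5) (nat_lit 3) (nat_lit 4) (nat_lit 1) (nat_lit 4) (nat_lit 550) (nat_lit 339) (nat_lit 311)) (XT.lf (nat_lit 0) (nat_lit 204549467131) (nat_lit 152) (nat_lit 237492224319) (nat_lit 0) (nat_lit 204230037537) (nat_lit 1) (nat_lit 5) (nat_lit 3) (nat_lit 4) (nat_lit 1) (nat_lit 4) (nat_lit 551) (nat_lit 339) (nat_lit 310))))) (XT.nd (nat_lit 312) (nat_lit 0) (nat_lit 0) (XT.nd (nat_lit 156) (nat_lit 0) (nat_lit 0) (XT.nd (nat_lit 78) (nat_lit 0) (nat_lit 0) (XT.lf (nat_lit 0) (nat_lit 219782774184) (nat_lit 152) (nat_lit 239092728358) (nat_lit 0) (nat_lit 219458463245) (nat_lit 1) (nat_lit 5) (nat_lit 3) (nat_lit 4) (nat_lit 1) (nat_lit 4) (nat_lit 552) (nat_lit 339) (nat_lit 309)) (XT.lf (nat_lit 0) (nat_lit 235700733311) (nat_lit 152) (nat_lit 240930658356) (nat_lit 0)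 (nat_lit 235371773472) (nat_lit 1) (nat_lit 5) (nat_lit 3) (nat_lit 4) (nat_lit 1) (nat_lit 4) (nat_lit 553) (nat_lit 339) (nat_lit 308))) (XT.nd (nat_lit 78) (nat_lit 0) (nat_lit 0) (XT.lf (nat_lit 0) (nat_lit 252341244414) (nat_lit 152) (nat_lit 243010390338) (nat_lit 0) (nat_lit 252007857052) (nat_lit 1) (nat_lit 5) (nat_lit 3) (nat_lit 4) (nat_lit 1) (nat_lit 4) (nat_lit 554) (nat_lit 339) (nat_lit 307)) (XT.lf (nat_lit 0) (nat_lit 269743927758) (nat_lit 152) (nat_lit 245336876046) (nat_lit 0) (nat_lit 269406323706) (nat_lit 1) (nat_lit 5) (nat_lit 3) (nat_lit 4) (nat_lit 1) (nat_lit 4) (nat_lit 555) (nat_lit 339) (nat_lit 306)))) (XT.nd (nat_lit 59670) (nat_lit 0) (nat_lit 152) (XT.nd (nat_lit 78) (nat_lit 0) (nat_lit 0) (XT.lf (nat_lit 0) (nat_lit 287950218303) (nat_lit 152) (nat_lit 247915654732) (nat_lit 0) (nat_lit 287608598356) (nat_lit 1) (nat_lit 5) (nat_lit 3) (nat_lit 4) (nat_lit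 1) (nat_lit 4) (nat_lit 556) (nat_lit 339) (nat_lit 305)) (XT.lf (nat_lit 0) (nat_lit 307003464360) (nat_lit 152) (nat_lit 250752866346) (nat_lit 0) (nat_lit 306658019752) (nat_lit 1) (nat_lit 5) (nat_lit 3) (nat_lit 4) (nat_lit 1) (nat_lit 4) (nat_lit 557) (nat_lit 339) (nat_lit 304))) (XT.nd (nat_lit 78) (nat_lit 76) (nat_lit 0) (XT.lf (nat_lit 0) (nat_lit 35337788922) (nat_lit 152) (nat_lit 3516317513) (nat_lit 0) (nat_lit 35337788922) (nat_lit 4) (nat_lit 5) (nat_lit 6) (nat_lit 4) (nat_lit 4) (nat_lit 4) (nat_lit 520) (nat_lit 340) (nat_lit 340)) (XT.lf (nat_lit 0) (nat_lit 12610785176) (nat_lit 76) (nat_lit 71362490505) (nat_lit 76) (nat_lit 71340338768) (nat_lit 3) (nat_lit 4) (nat_lit 4) (nat_lit 5) (nat_lit 4) (nat_lit 4) (nat_lit 521) (nat_lit 340) (nat_lit 339)))))) (XT.nd (nat_lit 624) (nat_lit 152) (nat_lit 0) (XT.nd (nat_lit 312) (nat_lit 0) (nat_lit 0) (XT.nd (nat_lit 156) (nat_lit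 0) (nat_lit 0) (XT.nd (nat_lit 78) (nat_lit 0) (nat_lit 0) (XT.lf (nat_lit 0) (nat_lit 32843200591) (nat_lit 76) (nat_lit 64899810008) (nat_lit 76) (nat_lit 64856561379) (nat_lit 3) (nat_lit 4) (nat_lit 4) (nat_lit 5) (nat_lit 4) (nat_lit 4) (nat_lit 522) (nat_lit 340) (nat_lit 338)) (XT.lf (nat_lit 0) (nat_lit 53480252960) (nat_lit 76) (nat_lit 58423885123) (nat_lit 76) (nat_lit 58360544216) (nat_lit 3) (nat_lit 4) (nat_lit 4) (nat_lit 5) (nat_lit 4) (nat_lit 4) (nat_lit 523) (nat_lit 340) (nat_lit 337))) (XT.nd (nat_lit 78) (nat_lit 0) (nat_lit 0) (XT.lf (nat_lit 0) (nat_lit 74571078121) (nat_lit 76) (nat_lit 51919296981) (nat_lit 76) (nat_lit 51836820572) (nat_lit 3) (nat_lit 4) (nat_lit 4) (nat_lit 5) (nat_lit 4) (nat_lit 4) (nat_lit 524) (nat_lit 340) (nat_lit 336)) (XT.lf (nat_lit 0) (nat_lit 96165892327) (nat_lit 76) (nat_lit 45370558468) (nat_lit 76) (nat_lit 45269857770) (nat_lit 3) (nat_lit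 4) (nat_lit 4) (nat_lit 5) (nat_lit 4) (nat_lit 4) (nat_lit 525) (nat_lit 340) (nat_lit 335)))) (XT.nd (nat_lit 156) (nat_lit 0) (nat_lit 0) (XT.nd (nat_lit 78) (nat_lit 0) (nat_lit 0) (XT.lf (nat_lit 0) (nat_lit 118316111800) (nat_lit 76) (nat_lit 38762077349) (nat_lit 76) (nat_lit 38644020185) (nat_lit 3) (nat_lit 4) (nat_lit 4) (nat_lit 5) (nat_lit 4) (nat_lit 4) (nat_lit 526) (nat_lit 340) (nat_lit 334)) (XT.lf (nat_lit 0) (nat_lit 141074475159) (nat_lit 76) (nat_lit 32078119145) (nat_lit 76) (nat_lit 31943532015) (nat_lit 3) (nat_lit 4) (nat_lit 4) (nat_lit 5) (nat_lit 4) (nat_lit 4) (nat_lit 527) (nat_lit 340) (nat_lit 333))) (XT.nd (nat_lit 78) (nat_lit 0) (nat_lit 0) (XT.lf (nat_lit 0) (nat_lit 164495168983) (nat_lit 76) (nat_lit 25302769670) (nat_lit 76) (nat_lit 25152439714) (nat_lit 3) (nat_lit 4) (nat_lit 4) (nat_lit 5) (nat_lit 4) (nat_lit 4) (nat_lit 528) (nat_lit 340) (nat_lit 332))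 (XT.lf (nat_lit 0) (nat_lit 188633956828) (nat_lit 76) (nat_lit 18419897139) (nat_lit 76) (nat_lit 18254574016) (nat_lit 3) (nat_lit 4) (nat_lit 4) (nat_lit 5) (nat_lit 4) (nat_lit 4) (nat_lit 529) (nat_lit 340) (nat_lit 331))))) (XT.nd (nat_lit 312) (nat_lit 0) (nat_lit 0) (XT.nd (nat_lit 156) (nat_lit 152) (nat_lit 0) (XT.nd (nat_lit 78) (nat_lit 0) (nat_lit 0) (XT.lf (nat_lit 0) (nat_lit 213548312000) (nat_lit 76) (nat_lit 11413113762) (nat_lit 76) (nat_lit 11233511432) (nat_lit 3) (nat_lit 4) (nat_lit 4) (nat_lit 5) (nat_lit 4) (nat_lit 4) (nat_lit 530) (nat_lit 340) (nat_lit 330)) (XT.lf (nat_lit 0) (nat_lit 239297554391) (nat_lit 76) (nat_lit 4265736719) (nat_lit 76) (nat_lit 4072535145) (nat_lit 3) (nat_lit 4) (nat_lit 4) (nat_lit 5) (nat_lit 4) (nat_lit 4) (nat_lit 531) (nat_lit 340) (nat_lit 329))) (XT.nd (nat_lit 78) (nat_lit 0) (nat_lit 0) (XT.lf (nat_lit 0) (nat_lit 3292009954) (nat_lit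 152) (nat_lit 253260594475) (nat_lit 0) (nat_lit 3095673538) (nat_lit 1) (nat_lit 5) (nat_lit 3) (nat_lit 4) (nat_lit 1) (nat_lit 4) (nat_lit 532) (nat_lit 340) (nat_lit 328)) (XT.lf (nat_lit 0) (nat_lit 10906767442) (nat_lit 152) (nat_lit 250651620862) (nat_lit 0) (nat_lit 10698683488) (nat_lit 1) (nat_lit 5) (nat_lit 3) (nat_lit 4) (nat_lit 1) (nat_lit 4) (nat_lit 533) (nat_lit 340) (nat_lit 327)))) (XT.nd (nat_lit 156) (nat_lit 0) (nat_lit 0) (XT.nd (nat_lit 78) (nat_lit 0) (nat_lit 0) (XT.lf (nat_lit 0) (nat_lit 18716921166) (nat_lit 152) (nat_lit 248291002259) (nat_lit 0) (nat_lit 18497649080) (nat_lit 1) (nat_lit 5) (nat_lit 3) (nat_lit 4) (nat_lit 1) (nat_lit 4) (nat_lit 534) (nat_lit 340) (nat_lit 326)) (XT.lf (nat_lit 0) (nat_lit 26741066730) (nat_lit 152) (nat_lit 246173118146) (nat_lit 0) (nat_lit 26511139280) (nat_lit 1) (nat_lit 5) (nat_lit 3) (nat_lit 4) (nat_lit 1) (nat_lit 4) (nat_lit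 535) (nat_lit 340) (nat_lit 325))) (XT.nd (nat_lit 78) (nat_lit 0) (nat_lit 0) (XT.lf (nat_lit 0) (nat_lit 34998309242) (nat_lit 152) (nat_lit 244292925942) (nat_lit 0) (nat_lit 34758233826) (nat_lit 1) (nat_lit 5) (nat_lit 3) (nat_lit 4) (nat_lit 1) (nat_lit 4) (nat_lit 536) (nat_lit 340) (nat_lit 324)) (XT.nd (nat_lit 78) (nat_lit 0) (nat_lit 0) (XT.lf (nat_lit 0) (nat_lit 43508308804) (nat_lit 152) (nat_lit 242645948997) (nat_lit 0) (nat_lit 43258568658) (nat_lit 1) (nat_lit 5) (nat_lit 3) (nat_lit 4) (nat_lit 1) (nat_lit 4) (nat_lit 537) (nat_lit 340) (nat_lit 323)) (XT.lf (nat_lit 0) (nat_lit 52291327318) (nat_lit 152) (nat_lit 241228265940) (nat_lit 0) (nat_lit 52032382669) (nat_lit 1) (nat_lit 5) (nat_lit 3) (nat_lit 4) (nat_lit 1) (nat_lit 4) (nat_lit 538) (nat_lit 340) (nat_lit 322))))))))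
noncomputable def xc11 : XT := (XT.nd (nat_lit 1248) (nat_lit 0) (nat_lit 0) (XT.nd (nat_lit 624) (nat_lit 0) (nat_lit 0) (XT.nd (nat_lit 312) (nat_lit 0) (nat_lit 0) (XT.nd (nat_lit 156) (nat_lit 0) (nat_lit 0) (XT.nd (nat_lit 78) (nat_lit 0) (nat_lit 0) (XT.lf (nat_lit 0) (nat_lit 61368276735) (nat_lit 152) (nat_lit 240036501333) (nat_lit 0) (nat_lit 61100565891) (nat_lit 1) (nat_lit 5) (nat_lit 3) (nat_lit 4) (nat_lit 1) (nat_lit 4) (nat_lit 539) (nat_lit 340) (nat_lit 321)) (XT.lf (nat_lit 0) (nat_lit 70760768839) (nat_lit 152) (nat_lit 239067817642) (nat_lit 0) (nat_lit 70484709238) (nat_lit 1) (nat_lit 5) (nat_lit 3) (nat_lit 4) (nat_lit 1) (nat_lit 4) (nat_lit 540) (nat_lit 340) (nat_lit 320))) (XT.nd (nat_lit 78) (nat_lit 0) (nat_lit 0) (XT.lf (nat_lit 0) (nat_lit 80491166705) (nat_lit 152) (nat_lit 238319908478) (nat_lit 0) (nat_lit 80207155908) (nat_lit 1) (nat_lit 5) (nat_lit 3) (nat_lit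 4) (nat_lit 1) (nat_lit 4) (nat_lit 541) (nat_lit 340) (nat_lit 319)) (XT.lf (nat_lit 0) (nat_lit 90582637948) (nat_lit 152) (nat_lit 237790993104) (nat_lit 0) (nat_lit 90291054582) (nat_lit 1) (nat_lit 5) (nat_lit 3) (nat_lit 4) (nat_lit 1) (nat_lit 4) (nat_lit 542) (nat_lit 340) (nat_lit 318)))) (XT.nd (nat_lit 156) (nat_lit 0) (nat_lit 0) (XT.nd (nat_lit 78) (nat_lit 0) (nat_lit 0) (XT.lf (nat_lit 0) (nat_lit 101059209880) (nat_lit 152) (nat_lit 237479812198) (nat_lit 0) (nat_lit 100760414545) (nat_lit 1) (nat_lit 5) (nat_lit 3) (nat_lit 4) (nat_lit 1) (nat_lit 4) (nat_lit 543) (nat_lit 340) (nat_lit 317)) (XT.lf (nat_lit 0) (nat_lit 111945826720) (nat_lit 152) (nat_lit 237385624853) (nat_lit 0) (nat_lit 111640162842) (nat_lit 1) (nat_lit 5) (nat_lit 3) (nat_lit 4) (nat_lit 1) (nat_lit 4) (nat_lit 544) (nat_lit 340) (nat_lit 316))) (XT.nd (nat_lit 78) (nat_lit 0) (nat_lit 0) (XT.lf (nat_lit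 0) (nat_lit 123268408985) (nat_lit 152) (nat_lit 237508206813) (nat_lit 0) (nat_lit 122956203638) (nat_lit 1) (nat_lit 5) (nat_lit 3) (nat_lit 4) (nat_lit 1) (nat_lit 4) (nat_lit 545) (nat_lit 340) (nat_lit 315)) (XT.lf (nat_lit 0) (nat_lit 135053915204) (nat_lit 152) (nat_lit 237847849940) (nat_lit 0) (nat_lit 134735479886) (nat_lit 1) (nat_lit 5) (nat_lit 3) (nat_lit 4) (nat_lit 1) (nat_lit 4) (nat_lit 546) (nat_lit 340) (nat_lit 314))))) (XT.nd (nat_lit 312) (nat_lit 0) (nat_lit 0) (XT.nd (nat_lit 156) (nat_lit 0) (nat_lit 0) (XT.nd (nat_lit 78) (nat_lit 0) (nat_lit 0) (XT.lf (nat_lit 0) (nat_lit 147330406105) (nat_lit 152) (nat_lit 238405362909) (nat_lit 0) (nat_lit 147006037482) (nat_lit 1) (nat_lit 5) (nat_lit 3) (nat_lit 4) (nat_lit 1) (nat_lit 4) (nat_lit 547) (nat_lit 340) (nat_lit 313)) (XT.lf (nat_lit 0) (nat_lit 160127111429) (nat_lit 152) (nat_lit 239182073131) (nat_lit 0) (nat_lit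 159797092039) (nat_lit 1) (nat_lit 5) (nat_lit 3) (nat_lit 4) (nat_lit 1) (nat_lit 4) (nat_lit 548) (nat_lit 340) (nat_lit 312))) (XT.nd (nat_lit 78) (nat_lit 0) (nat_lit 0) (XT.lf (nat_lit 0) (nat_lit 173474499522) (nat_lit 152) (nat_lit 240179829916) (nat_lit 0) (nat_lit 173139098449) (nat_lit 1) (nat_lit 5) (nat_lit 3) (nat_lit 4) (nat_lit 1) (nat_lit 4) (nat_lit 549) (nat_lit 340) (nat_lit 311)) (XT.lf (nat_lit 0) (nat_lit 187404349880) (nat_lit 152) (nat_lit 241401008876) (nat_lit 0) (nat_lit 187063823395) (nat_lit 1) (nat_lit 5) (nat_lit 3) (nat_lit 4) (nat_lit 1) (nat_lit 4) (nat_lit 550) (nat_lit 340) (nat_lit 310)))) (XT.nd (nat_lit 156) (nat_lit 0) (nat_lit 0) (XT.nd (nat_lit 78) (nat_lit 0) (nat_lit 0) (XT.lf (nat_lit 0) (nat_lit 201949828812) (nat_lit 152) (nat_lit 242848517580) (nat_lit 0) (nat_lit 201604420982) (nat_lit 1) (nat_lit 5) (nat_lit 3) (nat_lit 4) (nat_lit 1) (nat_lit 4)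 (nat_lit 551) (nat_lit 340) (nat_lit 309)) (XT.lf (nat_lit 0) (nat_lit 217145568413) (nat_lit 152) (nat_lit 244525802476) (nat_lit 0) (nat_lit 216795511682) (nat_lit 1) (nat_lit 5) (nat_lit 3) (nat_lit 4) (nat_lit 1) (nat_lit 4) (nat_lit 552) (nat_lit 340) (nat_lit 308))) (XT.nd (nat_lit 78) (nat_lit 0) (nat_lit 0) (XT.lf (nat_lit 0) (nat_lit 233027749012) (nat_lit 152) (nat_lit 246436857100) (nat_lit 0) (nat_lit 232673264758) (nat_lit 1) (nat_lit 5) (nat_lit 3) (nat_lit 4) (nat_lit 1) (nat_lit 4) (nat_lit 553) (nat_lit 340) (nat_lit 307)) (XT.lf (nat_lit 0) (nat_lit 249634185328) (nat_lit 152) (nat_lit 248586231583) (nat_lit 0) (nat_lit 249275484384) (nat_lit 1) (nat_lit 5) (nat_lit 3) (nat_lit 4) (nat_lit 1) (nat_lit 4) (nat_lit 554) (nat_lit 340) (nat_lit 306)))))) (XT.nd (nat_lit 59982) (nat_lit 0) (nat_lit 152) (XT.nd (nat_lit 59670) (nat_lit 0) (nat_lit 152) (XT.nd (nat_lit 156) (nat_lit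 0) (nat_lit 0) (XT.nd (nat_lit 78) (nat_lit 0) (nat_lit 0) (XT.lf (nat_lit 0) (nat_lit 267004416493) (nat_lit 152) (nat_lit 250979043483) (nat_lit 0) (nat_lit 266641699655) (nat_lit 1) (nat_lit 5) (nat_lit 3) (nat_lit 4) (nat_lit 1) (nat_lit 4) (nat_lit 555) (nat_lit 340) (nat_lit 305)) (XT.lf (nat_lit 0) (nat_lit 285179800202) (nat_lit 152) (nat_lit 253620989970) (nat_lit 0) (nat_lit 284813258702) (nat_lit 1) (nat_lit 5) (nat_lit 3) (nat_lit 4) (nat_lit 1) (nat_lit 4) (nat_lit 556) (nat_lit 340) (nat_lit 304))) (XT.nd (nat_lit 59436) (nat_lit 0) (nat_lit 228) (XT.lf (nat_lit 0) (nat_lit 304203611176) (nat_lit 152) (nat_lit 256518361394) (nat_lit 0) (nat_lit 303833427141) (nat_lit 1) (nat_lit 5) (nat_lit 3) (nat_lit 4) (nat_lit 1) (nat_lit 4) (nat_lit 557) (nat_lit 340) (nat_lit 303)) (XT.lf (nat_lit 0) (nat_lit 22797379995) (nat_lit 152) (nat_lit 22163897343) (nat_lit 0) (nat_lit 22797379995)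 (nat_lit 4) (nat_lit 5) (nat_lit 6) (nat_lit 4) (nat_lit 4) (nat_lit 4) (nat_lit 518) (nat_lit 341) (nat_lit 341)))) (XT.nd (nat_lit 156) (nat_lit 76) (nat_lit 0) (XT.nd (nat_lit 78) (nat_lit 0) (nat_lit 0) (XT.lf (nat_lit 0) (nat_lit 57919878700) (nat_lit 152) (nat_lit 25973184943) (nat_lit 0) (nat_lit 57896619376) (nat_lit 4) (nat_lit 5) (nat_lit 6) (nat_lit 4) (nat_lit 4) (nat_lit 4) (nat_lit 519) (nat_lit 341) (nat_lit 340)) (XT.lf (nat_lit 0) (nat_lit 70544155093) (nat_lit 152) (nat_lit 7348625802) (nat_lit 0) (nat_lit 70498744033) (nat_lit 4) (nat_lit 5) (nat_lit 6) (nat_lit 4) (nat_lit 4) (nat_lit 4) (nat_lit 520) (nat_lit 341) (nat_lit 339))) (XT.nd (nat_lit 78) (nat_lit 0) (nat_lit 0) (XT.lf (nat_lit 0) (nat_lit 11973452168) (nat_lit 76) (nat_lit 71711133947) (nat_lit 76) (nat_lit 71644625995) (nat_lit 3) (nat_lit 4) (nat_lit 4) (nat_lit 5) (nat_lit 4) (nat_lit 4) (nat_lit 521) (nat_lit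 341) (nat_lit 338)) (XT.lf (nat_lit 0) (nat_lit 31909777917) (nat_lit 76) (nat_lit 65399619126) (nat_lit 76) (nat_lit 65313018896) (nat_lit 3) (nat_lit 4) (nat_lit 4) (nat_lit 5) (nat_lit 4) (nat_lit 4) (nat_lit 522) (nat_lit 341) (nat_lit 337))))) (XT.nd (nat_lit 312) (nat_lit 0) (nat_lit 0) (XT.nd (nat_lit 156) (nat_lit 0) (nat_lit 0) (XT.nd (nat_lit 78) (nat_lit 0) (nat_lit 0) (XT.lf (nat_lit 0) (nat_lit 52264840127) (nat_lit 76) (nat_lit 59067661552) (nat_lit 76) (nat_lit 58961925819) (nat_lit 3) (nat_lit 4) (nat_lit 4) (nat_lit 5) (nat_lit 4) (nat_lit 4) (nat_lit 523) (nat_lit 341) (nat_lit 336)) (XT.lf (nat_lit 0) (nat_lit 73087103233) (nat_lit 76) (nat_lit 52700185135) (nat_lit 76) (nat_lit 52576225114) (nat_lit 3) (nat_lit 4) (nat_lit 4) (nat_lit 5) (nat_lit 4) (nat_lit 4) (nat_lit 524) (nat_lit 341) (nat_lit 335))) (XT.nd (nat_lit 78) (nat_lit 0) (nat_lit 0) (XT.lf (nat_lit 0) (nat_lit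 94426144052) (nat_lit 76) (nat_lit 46282029217) (nat_lit 76) (nat_lit 46140712730) (nat_lit 3) (nat_lit 4) (nat_lit 4) (nat_lit 5) (nat_lit 4) (nat_lit 4) (nat_lit 525) (nat_lit 341) (nat_lit 334)) (XT.lf (nat_lit 0) (nat_lit 116332769823) (nat_lit 76) (nat_lit 39797912474) (nat_lit 76) (nat_lit 39640066021) (nat_lit 3) (nat_lit 4) (nat_lit 4) (nat_lit 5) (nat_lit 4) (nat_lit 4) (nat_lit 526) (nat_lit 341) (nat_lit 333)))) (XT.nd (nat_lit 156) (nat_lit 0) (nat_lit 0) (XT.nd (nat_lit 78) (nat_lit 0) (nat_lit 0) (XT.lf (nat_lit 0) (nat_lit 138859139181) (nat_lit 76) (nat_lit 33232396533) (nat_lit 76) (nat_lit 33058807254) (nat_lit 3) (nat_lit 4) (nat_lit 4) (nat_lit 5) (nat_lit 4) (nat_lit 4) (nat_lit 527) (nat_lit 341) (nat_lit 332)) (XT.lf (nat_lit 0) (nat_lit 162058886336) (nat_lit 76) (nat_lit 26569849213) (nat_lit 76) (nat_lit 26381266767) (nat_lit 3) (nat_lit 4) (nat_lit 4) (nat_lit 5) (nat_lit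 4) (nat_lit 4) (nat_lit 528) (nat_lit 341) (nat_lit 331))) (XT.nd (nat_lit 78) (nat_lit 0) (nat_lit 0) (XT.lf (nat_lit 0) (nat_lit 185987248784) (nat_lit 76) (nat_lit 19794407307) (nat_lit 76) (nat_lit 19591545654) (nat_lit 3) (nat_lit 4) (nat_lit 4) (nat_lit 5) (nat_lit 4) (nat_lit 4) (nat_lit 529) (nat_lit 341) (nat_lit 330)) (XT.nd (nat_lit 78) (nat_lit 0) (nat_lit 0) (XT.lf (nat_lit 0) (nat_lit 210701198814) (nat_lit 76) (nat_lit 12889938809) (nat_lit 76) (nat_lit 12673477911) (nat_lit 3) (nat_lit 4) (nat_lit 4) (nat_lit 5) (nat_lit 4) (nat_lit 4) (nat_lit 530) (nat_lit 341) (nat_lit 329)) (XT.lf (nat_lit 0) (nat_lit 236259579166) (nat_lit 76) (nat_lit 5840004510) (nat_lit 76) (nat_lit 5610591950) (nat_lit 3) (nat_lit 4) (nat_lit 4) (nat_lit 5) (nat_lit 4) (nat_lit 4) (nat_lit 531) (nat_lit 341) (nat_lit 328))))))))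
noncomputable def xc12 : XT := (XT.nd (nat_lit 1248) (nat_lit 0) (nat_lit 0) (XT.nd (nat_lit 624) (nat_lit 0) (nat_lit 0) (XT.nd (nat_lit 312) (nat_lit 0) (nat_lit 0) (XT.nd (nat_lit 156) (nat_lit 0) (nat_lit 0) (XT.nd (nat_lit 78) (nat_lit 0) (nat_lit 0) (XT.lf (nat_lit 0) (nat_lit 1632649041) (nat_lit 152) (nat_lit 256697292252) (nat_lit 0) (nat_lit 1402413351) (nat_lit 1) (nat_lit 5) (nat_lit 3) (nat_lit 4) (nat_lit 1) (nat_lit 4) (nat_lit 532) (nat_lit 341) (nat_lit 327)) (XT.lf (nat_lit 0) (nat_lit 9156995974) (nat_lit 152) (nat_lit 254273100927) (nat_lit 0) (nat_lit 8915572151) (nat_lit 1) (nat_lit 5) (nat_lit 3) (nat_lit 4) (nat_lit 1) (nat_lit 4) (nat_lit 533) (nat_lit 341) (nat_lit 326))) (XT.nd (nat_lit 78) (nat_lit 0) (nat_lit 0) (XT.lf (nat_lit 0) (nat_lit 16881044407) (nat_lit 152) (nat_lit 252088465456) (nat_lit 0) (nat_lit 16628965220) (nat_lit 1) (nat_lit 5) (nat_lit 3) (nat_lit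 4) (nat_lit 1) (nat_lit 4) (nat_lit 534) (nat_lit 341) (nat_lit 325)) (XT.lf (nat_lit 0) (nat_lit 24823184932) (nat_lit 152) (nat_lit 250138184325) (nat_lit 0) (nat_lit 24560957779) (nat_lit 1) (nat_lit 5) (nat_lit 3) (nat_lit 4) (nat_lit 1) (nat_lit 4) (nat_lit 535) (nat_lit 341) (nat_lit 324)))) (XT.nd (nat_lit 156) (nat_lit 0) (nat_lit 0) (XT.nd (nat_lit 78) (nat_lit 0) (nat_lit 0) (XT.lf (nat_lit 0) (nat_lit 33002327407) (nat_lit 152) (nat_lit 248417614009) (nat_lit 0) (nat_lit 32730435525) (nat_lit 1) (nat_lit 5) (nat_lit 3) (nat_lit 4) (nat_lit 1) (nat_lit 4) (nat_lit 536) (nat_lit 341) (nat_lit 323)) (XT.lf (nat_lit 0) (nat_lit 41437945981) (nat_lit 152) (nat_lit 246922657910) (nat_lit 0) (nat_lit 41156849595) (nat_lit 1) (nat_lit 5) (nat_lit 3) (nat_lit 4) (nat_lit 1) (nat_lit 4) (nat_lit 537) (nat_lit 341) (nat_lit 322))) (XT.nd (nat_lit 78) (nat_lit 0) (nat_lit 0) (XT.lf (nat_lit 0) (nat_lit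 50150125460) (nat_lit 152) (nat_lit 245649756611) (nat_lit 0) (nat_lit 49860262879) (nat_lit 1) (nat_lit 5) (nat_lit 3) (nat_lit 4) (nat_lit 1) (nat_lit 4) (nat_lit 538) (nat_lit 341) (nat_lit 321)) (XT.lf (nat_lit 0) (nat_lit 59159609128) (nat_lit 152) (nat_lit 244595879392) (nat_lit 0) (nat_lit 58861397791) (nat_lit 1) (nat_lit 5) (nat_lit 3) (nat_lit 4) (nat_lit 1) (nat_lit 4) (nat_lit 539) (nat_lit 341) (nat_lit 320))))) (XT.nd (nat_lit 312) (nat_lit 0) (nat_lit 0) (XT.nd (nat_lit 156) (nat_lit 0) (nat_lit 0) (XT.nd (nat_lit 78) (nat_lit 0) (nat_lit 0) (XT.lf (nat_lit 0) (nat_lit 68487848138) (nat_lit 152) (nat_lit 243758517024) (nat_lit 0) (nat_lit 68181685604) (nat_lit 1) (nat_lit 5) (nat_lit 3) (nat_lit 4) (nat_lit 1) (nat_lit 4) (nat_lit 540) (nat_lit 341) (nat_lit 319)) (XT.lf (nat_lit 0) (nat_lit 78157052581) (nat_lit 152) (nat_lit 243135675786) (nat_lit 0) (nat_lit 77843317479) (nat_lit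 1) (nat_lit 5) (nat_lit 3) (nat_lit 4) (nat_lit 1) (nat_lit 4) (nat_lit 541) (nat_lit 341) (nat_lit 318))) (XT.nd (nat_lit 78) (nat_lit 0) (nat_lit 0) (XT.lf (nat_lit 0) (nat_lit 88190244374) (nat_lit 152) (nat_lit 242725872722) (nat_lit 0) (nat_lit 87869297302) (nat_lit 1) (nat_lit 5) (nat_lit 3) (nat_lit 4) (nat_lit 1) (nat_lit 4) (nat_lit 542) (nat_lit 341) (nat_lit 317)) (XT.lf (nat_lit 0) (nat_lit 98611312068) (nat_lit 152) (nat_lit 242528132112) (nat_lit 0) (nat_lit 98283496453) (nat_lit 1) (nat_lit 5) (nat_lit 3) (nat_lit 4) (nat_lit 1) (nat_lit 4) (nat_lit 543) (nat_lit 341) (nat_lit 316)))) (XT.nd (nat_lit 156) (nat_lit 0) (nat_lit 0) (XT.nd (nat_lit 78) (nat_lit 0) (nat_lit 0) (XT.lf (nat_lit 0) (nat_lit 109445067729) (nat_lit 152) (nat_lit 242541983144) (nat_lit 0) (nat_lit 109110710645) (nat_lit 1) (nat_lit 5) (nat_lit 3) (nat_lit 4) (nat_lit 1) (nat_lit 4) (nat_lit 544) (nat_lit 341)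 (nat_lit 315)) (XT.lf (nat_lit 0) (nat_lit 120717306013) (nat_lit 152) (nat_lit 242767458796) (nat_lit 0) (nat_lit 120376718959) (nat_lit 1) (nat_lit 5) (nat_lit 3) (nat_lit 4) (nat_lit 1) (nat_lit 4) (nat_lit 545) (nat_lit 341) (nat_lit 314))) (XT.nd (nat_lit 78) (nat_lit 0) (nat_lit 0) (XT.lf (nat_lit 0) (nat_lit 132454865584) (nat_lit 152) (nat_lit 243205095916) (nat_lit 0) (nat_lit 132108345224) (nat_lit 1) (nat_lit 5) (nat_lit 3) (nat_lit 4) (nat_lit 1) (nat_lit 4) (nat_lit 546) (nat_lit 341) (nat_lit 313)) (XT.lf (nat_lit 0) (nat_lit 144685693011) (nat_lit 152) (nat_lit 243855936497) (nat_lit 0) (nat_lit 144333521884) (nat_lit 1) (nat_lit 5) (nat_lit 3) (nat_lit 4) (nat_lit 1) (nat_lit 4) (nat_lit 547) (nat_lit 341) (nat_lit 312)))))) (XT.nd (nat_lit 624) (nat_lit 0) (nat_lit 0) (XT.nd (nat_lit 312) (nat_lit 0) (nat_lit 0) (XT.nd (nat_lit 156) (nat_lit 0) (nat_lit 0) (XT.nd (nat_lit 78) (nat_lit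 0) (nat_lit 0) (XT.lf (nat_lit 0) (nat_lit 157438909312) (nat_lit 152) (nat_lit 244721530159) (nat_lit 0) (nat_lit 157081356503) (nat_lit 1) (nat_lit 5) (nat_lit 3) (nat_lit 4) (nat_lit 1) (nat_lit 4) (nat_lit 548) (nat_lit 341) (nat_lit 311)) (XT.lf (nat_lit 0) (nat_lit 170744879288) (nat_lit 152) (nat_lit 245803937840) (nat_lit 0) (nat_lit 170382201066) (nat_lit 1) (nat_lit 5) (nat_lit 3) (nat_lit 4) (nat_lit 1) (nat_lit 4) (nat_lit 549) (nat_lit 341) (nat_lit 310))) (XT.nd (nat_lit 78) (nat_lit 0) (nat_lit 0) (XT.lf (nat_lit 0) (nat_lit 184635283820) (nat_lit 152) (nat_lit 247105736700) (nat_lit 0) (nat_lit 184267724253) (nat_lit 1) (nat_lit 5) (nat_lit 3) (nat_lit 4) (nat_lit 1) (nat_lit 4) (nat_lit 550) (nat_lit 341) (nat_lit 309)) (XT.lf (nat_lit 0) (nat_lit 199143195299) (nat_lit 152) (nat_lit 248630026260) (nat_lit 0) (nat_lit 198770986832) (nat_lit 1) (nat_lit 5) (nat_lit 3) (nat_lit 4)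 (nat_lit 1) (nat_lit 4) (nat_lit 551) (nat_lit 341) (nat_lit 308)))) (XT.nd (nat_lit 156) (nat_lit 0) (nat_lit 0) (XT.nd (nat_lit 78) (nat_lit 0) (nat_lit 0) (XT.lf (nat_lit 0) (nat_lit 214303156372) (nat_lit 152) (nat_lit 250380435783) (nat_lit 0) (nat_lit 213926520382) (nat_lit 1) (nat_lit 5) (nat_lit 3) (nat_lit 4) (nat_lit 1) (nat_lit 4) (nat_lit 552) (nat_lit 341) (nat_lit 307)) (XT.lf (nat_lit 0) (nat_lit 230151262185) (nat_lit 152) (nat_lit 252361132908) (nat_lit 0) (nat_lit 229770409505) (nat_lit 1) (nat_lit 5) (nat_lit 3) (nat_lit 4) (nat_lit 1) (nat_lit 4) (nat_lit 553) (nat_lit 341) (nat_lit 306))) (XT.nd (nat_lit 78) (nat_lit 0) (nat_lit 0) (XT.lf (nat_lit 0) (nat_lit 246725246322) (nat_lit 152) (nat_lit 254576833583) (nat_lit 0) (nat_lit 246340377747) (nat_lit 1) (nat_lit 5) (nat_lit 3) (nat_lit 4) (nat_lit 1) (nat_lit 4) (nat_lit 554) (nat_lit 341) (nat_lit 305)) (XT.lf (nat_lit 0)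 (nat_lit 264064570651) (nat_lit 152) (nat_lit 257032813284) (nat_lit 0) (nat_lit 263675877414) (nat_lit 1) (nat_lit 5) (nat_lit 3) (nat_lit 4) (nat_lit 1) (nat_lit 4) (nat_lit 555) (nat_lit 341) (nat_lit 304))))) (XT.nd (nat_lit 59514) (nat_lit 0) (nat_lit 152) (XT.nd (nat_lit 59358) (nat_lit 0) (nat_lit 228) (XT.nd (nat_lit 78) (nat_lit 0) (nat_lit 0) (XT.lf (nat_lit 0) (nat_lit 282210519276) (nat_lit 152) (nat_lit 259734919582) (nat_lit 0) (nat_lit 281818183505) (nat_lit 1) (nat_lit 5) (nat_lit 3) (nat_lit 4) (nat_lit 1) (nat_lit 4) (nat_lit 556) (nat_lit 341) (nat_lit 303)) (XT.lf (nat_lit 0) (nat_lit 301206296839) (nat_lit 152) (nat_lit 262689586064) (nat_lit 0) (nat_lit 300810491987) (nat_lit 1) (nat_lit 5) (nat_lit 3) (nat_lit 4) (nat_lit 1) (nat_lit 4) (nat_lit 557) (nat_lit 341) (nat_lit 302))) (XT.nd (nat_lit 78) (nat_lit 0) (nat_lit 0) (XT.lf (nat_lit 0) (nat_lit 10960107614) (nat_lit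 152) (nat_lit 40026526636) (nat_lit 0) (nat_lit 10960107614) (nat_lit 4) (nat_lit 5) (nat_lit 6) (nat_lit 4) (nat_lit 4) (nat_lit 4) (nat_lit 516) (nat_lit 342) (nat_lit 342)) (XT.lf (nat_lit 0) (nat_lit 33563875735) (nat_lit 152) (nat_lit 62456156484) (nat_lit 0) (nat_lit 33539453445) (nat_lit 4) (nat_lit 5) (nat_lit 6) (nat_lit 4) (nat_lit 4) (nat_lit 4) (nat_lit 517) (nat_lit 342) (nat_lit 341)))) (XT.nd (nat_lit 156) (nat_lit 76) (nat_lit 0) (XT.nd (nat_lit 78) (nat_lit 0) (nat_lit 0) (XT.lf (nat_lit 0) (nat_lit 45456766103) (nat_lit 152) (nat_lit 44659585001) (nat_lit 0) (nat_lit 45409084490) (nat_lit 4) (nat_lit 5) (nat_lit 6) (nat_lit 4) (nat_lit 4) (nat_lit 4) (nat_lit 518) (nat_lit 342) (nat_lit 340)) (XT.lf (nat_lit 0) (nat_lit 57627202738) (nat_lit 152) (nat_lit 26620966033) (nat_lit 0) (nat_lit 57557369389) (nat_lit 4) (nat_lit 5) (nat_lit 6) (nat_lit 4) (nat_lit 4) (nat_lit 4) (nat_lit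 519) (nat_lit 342) (nat_lit 339))) (XT.nd (nat_lit 78) (nat_lit 76) (nat_lit 0) (XT.lf (nat_lit 0) (nat_lit 70104162871) (nat_lit 152) (nat_lit 8297350488) (nat_lit 0) (nat_lit 70013232629) (nat_lit 4) (nat_lit 5) (nat_lit 6) (nat_lit 4) (nat_lit 4) (nat_lit 4) (nat_lit 520) (nat_lit 342) (nat_lit 338)) (XT.nd (nat_lit 78) (nat_lit 0) (nat_lit 0) (XT.lf (nat_lit 0) (nat_lit 10697268694) (nat_lit 76) (nat_lit 72387099198) (nat_lit 76) (nat_lit 72276076678) (nat_lit 3) (nat_lit 4) (nat_lit 4) (nat_lit 5) (nat_lit 4) (nat_lit 4) (nat_lit 521) (nat_lit 342) (nat_lit 337)) (XT.lf (nat_lit 0) (nat_lit 30351604283) (nat_lit 76) (nat_lit 66219551688) (nat_lit 76) (nat_lit 66089393666) (nat_lit 3) (nat_lit 4) (nat_lit 4) (nat_lit 5) (nat_lit 4) (nat_lit 4) (nat_lit 522) (nat_lit 342) (nat_lit 336))))))))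
noncomputable def xc13 : XT := (XT.nd (nat_lit 1248) (nat_lit 0) (nat_lit 0) (XT.nd (nat_lit 624) (nat_lit 152) (nat_lit 0) (XT.nd (nat_lit 312) (nat_lit 0) (nat_lit 0) (XT.nd (nat_lit 156) (nat_lit 0) (nat_lit 0) (XT.nd (nat_lit 78) (nat_lit 0) (nat_lit 0) (XT.lf (nat_lit 0) (nat_lit 50438104438) (nat_lit 76) (nat_lit 60024705839) (nat_lit 76) (nat_lit 59876323528) (nat_lit 3) (nat_lit 4) (nat_lit 4) (nat_lit 5) (nat_lit 4) (nat_lit 4) (nat_lit 523) (nat_lit 342) (nat_lit 335)) (XT.lf (nat_lit 0) (nat_lit 71004594157) (nat_lit 76) (nat_lit 53787812017) (nat_lit 76) (nat_lit 53622073241) (nat_lit 3) (nat_lit 4) (nat_lit 4) (nat_lit 5) (nat_lit 4) (nat_lit 4) (nat_lit 524) (nat_lit 342) (nat_lit 334))) (XT.nd (nat_lit 78) (nat_lit 0) (nat_lit 0) (XT.lf (nat_lit 0) (nat_lit 92100041274) (nat_lit 76) (nat_lit 47494020475) (nat_lit 76) (nat_lit 47311751732) (nat_lit 3) (nat_lit 4) (nat_lit 4) (nat_lit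 5) (nat_lit 4) (nat_lit 4) (nat_lit 525) (nat_lit 342) (nat_lit 333)) (XT.lf (nat_lit 0) (nat_lit 113774673045) (nat_lit 76) (nat_lit 41128345995) (nat_lit 76) (nat_lit 40930334426) (nat_lit 3) (nat_lit 4) (nat_lit 4) (nat_lit 5) (nat_lit 4) (nat_lit 4) (nat_lit 526) (nat_lit 342) (nat_lit 332)))) (XT.nd (nat_lit 156) (nat_lit 0) (nat_lit 0) (XT.nd (nat_lit 78) (nat_lit 0) (nat_lit 0) (XT.lf (nat_lit 0) (nat_lit 136080095734) (nat_lit 76) (nat_lit 34675632209) (nat_lit 76) (nat_lit 34462627473) (nat_lit 3) (nat_lit 4) (nat_lit 4) (nat_lit 5) (nat_lit 4) (nat_lit 4) (nat_lit 527) (nat_lit 342) (nat_lit 331)) (XT.lf (nat_lit 0) (nat_lit 159069417492) (nat_lit 76) (nat_lit 28120515514) (nat_lit 76) (nat_lit 27893231571) (nat_lit 3) (nat_lit 4) (nat_lit 4) (nat_lit 5) (nat_lit 4) (nat_lit 4) (nat_lit 528) (nat_lit 342) (nat_lit 330))) (XT.nd (nat_lit 78) (nat_lit 0) (nat_lit 0) (XT.lf (nat_lit 0) (nat_lit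 182797374798) (nat_lit 76) (nat_lit 21447388487) (nat_lit 76) (nat_lit 21206505300) (nat_lit 3) (nat_lit 4) (nat_lit 4) (nat_lit 5) (nat_lit 4) (nat_lit 4) (nat_lit 529) (nat_lit 342) (nat_lit 329)) (XT.lf (nat_lit 0) (nat_lit 207320462789) (nat_lit 76) (nat_lit 14640362732) (nat_lit 76) (nat_lit 14386527883) (nat_lit 3) (nat_lit 4) (nat_lit 4) (nat_lit 5) (nat_lit 4) (nat_lit 4) (nat_lit 530) (nat_lit 342) (nat_lit 328))))) (XT.nd (nat_lit 312) (nat_lit 0) (nat_lit 0) (XT.nd (nat_lit 156) (nat_lit 152) (nat_lit 0) (XT.nd (nat_lit 78) (nat_lit 0) (nat_lit 0) (XT.lf (nat_lit 0) (nat_lit 232697069771) (nat_lit 76) (nat_lit 7683231045) (nat_lit 76) (nat_lit 7417061280) (nat_lit 3) (nat_lit 4) (nat_lit 4) (nat_lit 5) (nat_lit 4) (nat_lit 4) (nat_lit 531) (nat_lit 342) (nat_lit 327)) (XT.lf (nat_lit 0) (nat_lit 258987616235) (nat_lit 76) (nat_lit 559428826) (nat_lit 76) (nat_lit 281511522) (nat_lit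 3) (nat_lit 4) (nat_lit 4) (nat_lit 5) (nat_lit 4) (nat_lit 4) (nat_lit 532) (nat_lit 342) (nat_lit 326))) (XT.nd (nat_lit 78) (nat_lit 0) (nat_lit 0) (XT.lf (nat_lit 0) (nat_lit 7143220086) (nat_lit 152) (nat_lit 258436420415) (nat_lit 0) (nat_lit 6867881576) (nat_lit 1) (nat_lit 5) (nat_lit 3) (nat_lit 4) (nat_lit 1) (nat_lit 4) (nat_lit 533) (nat_lit 342) (nat_lit 325)) (XT.lf (nat_lit 0) (nat_lit 14785263480) (nat_lit 152) (nat_lit 256419387926) (nat_lit 0) (nat_lit 14499777004) (nat_lit 1) (nat_lit 5) (nat_lit 3) (nat_lit 4) (nat_lit 1) (nat_lit 4) (nat_lit 534) (nat_lit 342) (nat_lit 324)))) (XT.nd (nat_lit 156) (nat_lit 0) (nat_lit 0) (XT.nd (nat_lit 78) (nat_lit 0) (nat_lit 0) (XT.lf (nat_lit 0) (nat_lit 22649303968) (nat_lit 152) (nat_lit 254628728684) (nat_lit 0) (nat_lit 22354152763) (nat_lit 1) (nat_lit 5) (nat_lit 3) (nat_lit 4) (nat_lit 1) (nat_lit 4) (nat_lit 535) (nat_lit 342) (nat_lit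 323)) (XT.lf (nat_lit 0) (nat_lit 30754065455) (nat_lit 152) (nat_lit 253060179213) (nat_lit 0) (nat_lit 30449709746) (nat_lit 1) (nat_lit 5) (nat_lit 3) (nat_lit 4) (nat_lit 1) (nat_lit 4) (nat_lit 536) (nat_lit 342) (nat_lit 322))) (XT.nd (nat_lit 78) (nat_lit 0) (nat_lit 0) (XT.lf (nat_lit 0) (nat_lit 39118844993) (nat_lit 152) (nat_lit 251710004872) (nat_lit 0) (nat_lit 38805723089) (nat_lit 1) (nat_lit 5) (nat_lit 3) (nat_lit 4) (nat_lit 1) (nat_lit 4) (nat_lit 537) (nat_lit 342) (nat_lit 321)) (XT.lf (nat_lit 0) (nat_lit 47763558724) (nat_lit 152) (nat_lit 250574990961) (nat_lit 0) (nat_lit 47442088063) (nat_lit 1) (nat_lit 5) (nat_lit 3) (nat_lit 4) (nat_lit 1) (nat_lit 4) (nat_lit 538) (nat_lit 342) (nat_lit 320)))))) (XT.nd (nat_lit 624) (nat_lit 0) (nat_lit 0) (XT.nd (nat_lit 312) (nat_lit 0) (nat_lit 0) (XT.nd (nat_lit 156) (nat_lit 0) (nat_lit 0) (XT.nd (nat_lit 78) (nat_lit 0) (nat_lit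 0) (XT.lf (nat_lit 0) (nat_lit 56708789298) (nat_lit 152) (nat_lit 249652435065) (nat_lit 0) (nat_lit 56379367441) (nat_lit 1) (nat_lit 5) (nat_lit 3) (nat_lit 4) (nat_lit 1) (nat_lit 4) (nat_lit 539) (nat_lit 342) (nat_lit 319)) (XT.lf (nat_lit 0) (nat_lit 65975834885) (nat_lit 152) (nat_lit 248940140623) (nat_lit 0) (nat_lit 65638840460) (nat_lit 1) (nat_lit 5) (nat_lit 3) (nat_lit 4) (nat_lit 1) (nat_lit 4) (nat_lit 540) (nat_lit 342) (nat_lit 318))) (XT.nd (nat_lit 78) (nat_lit 0) (nat_lit 0) (XT.lf (nat_lit 0) (nat_lit 75586759878) (nat_lit 152) (nat_lit 248436411696) (nat_lit 0) (nat_lit 75242553483) (nat_lit 1) (nat_lit 5) (nat_lit 3) (nat_lit 4) (nat_lit 1) (nat_lit 4) (nat_lit 541) (nat_lit 342) (nat_lit 317)) (XT.lf (nat_lit 0) (nat_lit 85564447433) (nat_lit 152) (nat_lit 248140048928) (nat_lit 0) (nat_lit 85213372495) (nat_lit 1) (nat_lit 5) (nat_lit 3) (nat_lit 4) (nat_lit 1) (nat_lit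 4) (nat_lit 542) (nat_lit 342) (nat_lit 316)))) (XT.nd (nat_lit 156) (nat_lit 0) (nat_lit 0) (XT.nd (nat_lit 78) (nat_lit 0) (nat_lit 0) (XT.lf (nat_lit 0) (nat_lit 95932653947) (nat_lit 152) (nat_lit 248050346694) (nat_lit 0) (nat_lit 95575037540) (nat_lit 1) (nat_lit 5) (nat_lit 3) (nat_lit 4) (nat_lit 1) (nat_lit 4) (nat_lit 543) (nat_lit 342) (nat_lit 315)) (XT.lf (nat_lit 0) (nat_lit 106716065628) (nat_lit 152) (nat_lit 248167091418) (nat_lit 0) (nat_lit 106352219250) (nat_lit 1) (nat_lit 5) (nat_lit 3) (nat_lit 4) (nat_lit 1) (nat_lit 4) (nat_lit 544) (nat_lit 342) (nat_lit 314))) (XT.nd (nat_lit 78) (nat_lit 0) (nat_lit 0) (XT.lf (nat_lit 0) (nat_lit 117940357265) (nat_lit 152) (nat_lit 248490561064) (nat_lit 0) (nat_lit 117570577582) (nat_lit 1) (nat_lit 5) (nat_lit 3) (nat_lit 4) (nat_lit 1) (nat_lit 4) (nat_lit 545) (nat_lit 342) (nat_lit 313)) (XT.lf (nat_lit 0) (nat_lit 129632253361)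 (nat_lit 152) (nat_lit 249021525796) (nat_lit 0) (nat_lit 129256822911) (nat_lit 1) (nat_lit 5) (nat_lit 3) (nat_lit 4) (nat_lit 1) (nat_lit 4) (nat_lit 546) (nat_lit 342) (nat_lit 312))))) (XT.nd (nat_lit 312) (nat_lit 0) (nat_lit 0) (XT.nd (nat_lit 156) (nat_lit 0) (nat_lit 0) (XT.nd (nat_lit 78) (nat_lit 0) (nat_lit 0) (XT.lf (nat_lit 0) (nat_lit 141819591765) (nat_lit 152) (nat_lit 249761249817) (nat_lit 0) (nat_lit 141438779632) (nat_lit 1) (nat_lit 5) (nat_lit 3) (nat_lit 4) (nat_lit 1) (nat_lit 4) (nat_lit 547) (nat_lit 342) (nat_lit 311)) (XT.lf (nat_lit 0) (nat_lit 154531389949) (nat_lit 152) (nat_lit 250711494374) (nat_lit 0) (nat_lit 154145452404) (nat_lit 1) (nat_lit 5) (nat_lit 3) (nat_lit 4) (nat_lit 1) (nat_lit 4) (nat_lit 548) (nat_lit 342) (nat_lit 310))) (XT.nd (nat_lit 78) (nat_lit 0) (nat_lit 0) (XT.lf (nat_lit 0) (nat_lit 167797914099) (nat_lit 152) (nat_lit 251874521955) (nat_lit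 0) (nat_lit 167407095209) (nat_lit 1) (nat_lit 5) (nat_lit 3) (nat_lit 4) (nat_lit 1) (nat_lit 4) (nat_lit 549) (nat_lit 342) (nat_lit 309)) (XT.lf (nat_lit 0) (nat_lit 181650751178) (nat_lit 152) (nat_lit 253253101672) (nat_lit 0) (nat_lit 181255283388) (nat_lit 1) (nat_lit 5) (nat_lit 3) (nat_lit 4) (nat_lit 1) (nat_lit 4) (nat_lit 550) (nat_lit 342) (nat_lit 308)))) (XT.nd (nat_lit 156) (nat_lit 0) (nat_lit 0) (XT.nd (nat_lit 78) (nat_lit 0) (nat_lit 0) (XT.lf (nat_lit 0) (nat_lit 196122884130) (nat_lit 152) (nat_lit 254850515859) (nat_lit 0) (nat_lit 195722988816) (nat_lit 1) (nat_lit 5) (nat_lit 3) (nat_lit 4) (nat_lit 1) (nat_lit 4) (nat_lit 551) (nat_lit 342) (nat_lit 307)) (XT.lf (nat_lit 0) (nat_lit 211248770416) (nat_lit 152) (nat_lit 256670567882) (nat_lit 0) (nat_lit 210844658413) (nat_lit 1) (nat_lit 5) (nat_lit 3) (nat_lit 4) (nat_lit 1) (nat_lit 4) (nat_lit 552) (nat_lit 342) (nat_lit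 306))) (XT.nd (nat_lit 78) (nat_lit 0) (nat_lit 0) (XT.lf (nat_lit 0) (nat_lit 227064424050) (nat_lit 152) (nat_lit 258717591199) (nat_lit 0) (nat_lit 226656296152) (nat_lit 1) (nat_lit 5) (nat_lit 3) (nat_lit 4) (nat_lit 1) (nat_lit 4) (nat_lit 553) (nat_lit 342) (nat_lit 305)) (XT.nd (nat_lit 78) (nat_lit 0) (nat_lit 0) (XT.lf (nat_lit 0) (nat_lit 243607501350) (nat_lit 152) (nat_lit 260996459675) (nat_lit 0) (nat_lit 243195548790) (nat_lit 1) (nat_lit 5) (nat_lit 3) (nat_lit 4) (nat_lit 1) (nat_lit 4) (nat_lit 554) (nat_lit 342) (nat_lit 304)) (XT.lf (nat_lit 0) (nat_lit 260917390596) (nat_lit 152) (nat_lit 263512599187) (nat_lit 0) (nat_lit 260501795502) (nat_lit 1) (nat_lit 5) (nat_lit 3) (nat_lit 4) (nat_lit 1) (nat_lit 4) (nat_lit 555) (nat_lit 342) (nat_lit 303))))))))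
noncomputable def xc14 : XT := (XT.nd (nat_lit 60294) (nat_lit 0) (nat_lit 0) (XT.nd (nat_lit 59670) (nat_lit 0) (nat_lit 152) (XT.nd (nat_lit 59358) (nat_lit 0) (nat_lit 228) (XT.nd (nat_lit 59202) (nat_lit 0) (nat_lit 228) (XT.nd (nat_lit 78) (nat_lit 0) (nat_lit 0) (XT.lf (nat_lit 0) (nat_lit 279035305810) (nat_lit 152) (nat_lit 266272000543) (nat_lit 0) (nat_lit 278616241634) (nat_lit 1) (nat_lit 5) (nat_lit 3) (nat_lit 4) (nat_lit 1) (nat_lit 4) (nat_lit 556) (nat_lit 342) (nat_lit 302)) (XT.lf (nat_lit 0) (nat_lit 298004384885) (nat_lit 152) (nat_lit 269281233747) (nat_lit 0) (nat_lit 297582016823) (nat_lit 1) (nat_lit 5) (nat_lit 3) (nat_lit 4) (nat_lit 1) (nat_lit 4) (nat_lit 557) (nat_lit 342) (nat_lit 301))) (XT.nd (nat_lit 78) (nat_lit 152) (nat_lit 0) (XT.lf (nat_lit 0) (nat_lit 56182113953) (nat_lit 76) (nat_lit 258302319) (nat_lit 76) (nat_lit 258302319) (nat_lit 6) (nat_lit 4) (nat_lit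 7) (nat_lit 5) (nat_lit 7) (nat_lit 4) (nat_lit 514) (nat_lit 343) (nat_lit 343)) (XT.lf (nat_lit 0) (nat_lit 10523704987) (nat_lit 152) (nat_lit 97492172737) (nat_lit 0) (nat_lit 10498061583) (nat_lit 4) (nat_lit 5) (nat_lit 6) (nat_lit 4) (nat_lit 4) (nat_lit 4) (nat_lit 515) (nat_lit 343) (nat_lit 342)))) (XT.nd (nat_lit 156) (nat_lit 0) (nat_lit 0) (XT.nd (nat_lit 78) (nat_lit 0) (nat_lit 0) (XT.lf (nat_lit 0) (nat_lit 21775321646) (nat_lit 152) (nat_lit 80401433101) (nat_lit 0) (nat_lit 21725255953) (nat_lit 4) (nat_lit 5) (nat_lit 6) (nat_lit 4) (nat_lit 4) (nat_lit 4) (nat_lit 516) (nat_lit 343) (nat_lit 341)) (XT.lf (nat_lit 0) (nat_lit 33256565975) (nat_lit 152) (nat_lit 63136326628) (nat_lit 0) (nat_lit 33183240958) (nat_lit 4) (nat_lit 5) (nat_lit 6) (nat_lit 4) (nat_lit 4) (nat_lit 4) (nat_lit 517) (nat_lit 343) (nat_lit 340))) (XT.nd (nat_lit 78) (nat_lit 0) (nat_lit 0) (XT.lf (nat_lit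 0) (nat_lit 44994774270) (nat_lit 152) (nat_lit 45655745920) (nat_lit 0) (nat_lit 44899297516) (nat_lit 4) (nat_lit 5) (nat_lit 6) (nat_lit 4) (nat_lit 4) (nat_lit 4) (nat_lit 518) (nat_lit 343) (nat_lit 339)) (XT.lf (nat_lit 0) (nat_lit 57017894644) (nat_lit 152) (nat_lit 27918070548) (nat_lit 0) (nat_lit 56901320999) (nat_lit 4) (nat_lit 5) (nat_lit 6) (nat_lit 4) (nat_lit 4) (nat_lit 4) (nat_lit 519) (nat_lit 343) (nat_lit 338))))) (XT.nd (nat_lit 312) (nat_lit 0) (nat_lit 0) (XT.nd (nat_lit 156) (nat_lit 0) (nat_lit 0) (XT.nd (nat_lit 78) (nat_lit 76) (nat_lit 0) (XT.lf (nat_lit 0) (nat_lit 69354553576) (nat_lit 152) (nat_lit 9881067951) (nat_lit 0) (nat_lit 69217887653) (nat_lit 4) (nat_lit 5) (nat_lit 6) (nat_lit 4) (nat_lit 4) (nat_lit 4) (nat_lit 520) (nat_lit 343) (nat_lit 337)) (XT.lf (nat_lit 0) (nat_lit 8779196221) (nat_lit 76) (nat_lit 73391995699) (nat_lit 76) (nat_lit 73236194272)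 (nat_lit 3) (nat_lit 4) (nat_lit 4) (nat_lit 5) (nat_lit 4) (nat_lit 4) (nat_lit 521) (nat_lit 343) (nat_lit 336))) (XT.nd (nat_lit 78) (nat_lit 0) (nat_lit 0) (XT.lf (nat_lit 0) (nat_lit 28164969754) (nat_lit 76) (nat_lit 67361559914) (nat_lit 76) (nat_lit 67187534199) (nat_lit 3) (nat_lit 4) (nat_lit 4) (nat_lit 5) (nat_lit 4) (nat_lit 4) (nat_lit 522) (nat_lit 343) (nat_lit 335)) (XT.lf (nat_lit 0) (nat_lit 47995696522) (nat_lit 76) (nat_lit 61297296660) (nat_lit 76) (nat_lit 61105914480) (nat_lit 3) (nat_lit 4) (nat_lit 4) (nat_lit 5) (nat_lit 4) (nat_lit 4) (nat_lit 523) (nat_lit 343) (nat_lit 334)))) (XT.nd (nat_lit 156) (nat_lit 0) (nat_lit 0) (XT.nd (nat_lit 78) (nat_lit 0) (nat_lit 0) (XT.lf (nat_lit 0) (nat_lit 68318592540) (nat_lit 76) (nat_lit 55184767214) (nat_lit 76) (nat_lit 54976855067) (nat_lit 3) (nat_lit 4) (nat_lit 4) (nat_lit 5) (nat_lit 4) (nat_lit 4) (nat_lit 524) (nat_lit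 343) (nat_lit 333)) (XT.lf (nat_lit 0) (nat_lit 89182045656) (nat_lit 76) (nat_lit 49009417935) (nat_lit 76) (nat_lit 48785762962) (nat_lit 3) (nat_lit 4) (nat_lit 4) (nat_lit 5) (nat_lit 4) (nat_lit 4) (nat_lit 525) (nat_lit 343) (nat_lit 332))) (XT.nd (nat_lit 78) (nat_lit 0) (nat_lit 0) (XT.lf (nat_lit 0) (nat_lit 110635730758) (nat_lit 76) (nat_lit 42756545610) (nat_lit 76) (nat_lit 42517897470) (nat_lit 3) (nat_lit 4) (nat_lit 4) (nat_lit 5) (nat_lit 4) (nat_lit 4) (nat_lit 526) (nat_lit 343) (nat_lit 331)) (XT.lf (nat_lit 0) (nat_lit 132730728049) (nat_lit 76) (nat_lit 36411262448) (nat_lit 76) (nat_lit 36158335102) (nat_lit 3) (nat_lit 4) (nat_lit 4) (nat_lit 5) (nat_lit 4) (nat_lit 4) (nat_lit 527) (nat_lit 343) (nat_lit 330)))))) (XT.nd (nat_lit 624) (nat_lit 0) (nat_lit 0) (XT.nd (nat_lit 312) (nat_lit 152) (nat_lit 0) (XT.nd (nat_lit 156) (nat_lit 0) (nat_lit 0) (XT.nd (nat_lit 78) (nat_lit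 0) (nat_lit 0) (XT.lf (nat_lit 0) (nat_lit 155519644665) (nat_lit 76) (nat_lit 29958460633) (nat_lit 76) (nat_lit 29691934041) (nat_lit 3) (nat_lit 4) (nat_lit 4) (nat_lit 5) (nat_lit 4) (nat_lit 4) (nat_lit 528) (nat_lit 343) (nat_lit 329)) (XT.lf (nat_lit 0) (nat_lit 179056739933) (nat_lit 76) (nat_lit 23382776349) (nat_lit 76) (nat_lit 23103298096) (nat_lit 3) (nat_lit 4) (nat_lit 4) (nat_lit 5) (nat_lit 4) (nat_lit 4) (nat_lit 529) (nat_lit 343) (nat_lit 328))) (XT.nd (nat_lit 78) (nat_lit 0) (nat_lit 0) (XT.lf (nat_lit 0) (nat_lit 203398054553) (nat_lit 76) (nat_lit 16668553207) (nat_lit 76) (nat_lit 16376740038) (nat_lit 3) (nat_lit 4) (nat_lit 4) (nat_lit 5) (nat_lit 4) (nat_lit 4) (nat_lit 530) (nat_lit 343) (nat_lit 327)) (XT.lf (nat_lit 0) (nat_lit 228601544039) (nat_lit 76) (nat_lit 9799804960) (nat_lit 76) (nat_lit 9496244252) (nat_lit 3) (nat_lit 4) (nat_lit 4) (nat_lit 5) (nat_lit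 4) (nat_lit 4) (nat_lit 531) (nat_lit 343) (nat_lit 326)))) (XT.nd (nat_lit 156) (nat_lit 0) (nat_lit 0) (XT.nd (nat_lit 78) (nat_lit 152) (nat_lit 0) (XT.lf (nat_lit 0) (nat_lit 254727216697) (nat_lit 76) (nat_lit 2760177446) (nat_lit 76) (nat_lit 2445428606) (nat_lit 3) (nat_lit 4) (nat_lit 4) (nat_lit 5) (nat_lit 4) (nat_lit 4) (nat_lit 532) (nat_lit 343) (nat_lit 325)) (XT.lf (nat_lit 0) (nat_lit 4860645074) (nat_lit 152) (nat_lit 263151491991) (nat_lit 0) (nat_lit 4550736308) (nat_lit 1) (nat_lit 5) (nat_lit 3) (nat_lit 4) (nat_lit 1) (nat_lit 4) (nat_lit 533) (nat_lit 343) (nat_lit 324))) (XT.nd (nat_lit 78) (nat_lit 0) (nat_lit 0) (XT.lf (nat_lit 0) (nat_lit 12424588431) (nat_lit 152) (nat_lit 261294081391) (nat_lit 0) (nat_lit 12105014936) (nat_lit 1) (nat_lit 5) (nat_lit 3) (nat_lit 4) (nat_lit 1) (nat_lit 4) (nat_lit 534) (nat_lit 343) (nat_lit 323)) (XT.lf (nat_lit 0) (nat_lit 20214247931)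 (nat_lit 152) (nat_lit 259655442994) (nat_lit 0) (nat_lit 19885469932) (nat_lit 1) (nat_lit 5) (nat_lit 3) (nat_lit 4) (nat_lit 1) (nat_lit 4) (nat_lit 535) (nat_lit 343) (nat_lit 322))))) (XT.nd (nat_lit 312) (nat_lit 0) (nat_lit 0) (XT.nd (nat_lit 156) (nat_lit 0) (nat_lit 0) (XT.nd (nat_lit 78) (nat_lit 0) (nat_lit 0) (XT.lf (nat_lit 0) (nat_lit 28248170382) (nat_lit 152) (nat_lit 258231675281) (nat_lit 0) (nat_lit 27910626189) (nat_lit 1) (nat_lit 5) (nat_lit 3) (nat_lit 4) (nat_lit 1) (nat_lit 4) (nat_lit 536) (nat_lit 343) (nat_lit 321)) (XT.lf (nat_lit 0) (nat_lit 36545484172) (nat_lit 152) (nat_lit 257019388329) (nat_lit 0) (nat_lit 36199591222) (nat_lit 1) (nat_lit 5) (nat_lit 3) (nat_lit 4) (nat_lit 1) (nat_lit 4) (nat_lit 537) (nat_lit 343) (nat_lit 320))) (XT.nd (nat_lit 78) (nat_lit 0) (nat_lit 0) (XT.lf (nat_lit 0) (nat_lit 45125944808) (nat_lit 152) (nat_lit 256015695740) (nat_lit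 0) (nat_lit 44772100662) (nat_lit 1) (nat_lit 5) (nat_lit 3) (nat_lit 4) (nat_lit 1) (nat_lit 4) (nat_lit 538) (nat_lit 343) (nat_lit 319)) (XT.lf (nat_lit 0) (nat_lit 54009981960) (nat_lit 152) (nat_lit 255218207771) (nat_lit 0) (nat_lit 53648565245) (nat_lit 1) (nat_lit 5) (nat_lit 3) (nat_lit 4) (nat_lit 1) (nat_lit 4) (nat_lit 539) (nat_lit 343) (nat_lit 318)))) (XT.nd (nat_lit 156) (nat_lit 0) (nat_lit 0) (XT.nd (nat_lit 78) (nat_lit 0) (nat_lit 0) (XT.lf (nat_lit 0) (nat_lit 63218748097) (nat_lit 152) (nat_lit 254625025639) (nat_lit 0) (nat_lit 62850119412) (nat_lit 1) (nat_lit 5) (nat_lit 3) (nat_lit 4) (nat_lit 1) (nat_lit 4) (nat_lit 540) (nat_lit 343) (nat_lit 317)) (XT.lf (nat_lit 0) (nat_lit 72774168852) (nat_lit 152) (nat_lit 254234737007) (nat_lit 0) (nat_lit 72398671624) (nat_lit 1) (nat_lit 5) (nat_lit 3) (nat_lit 4) (nat_lit 1) (nat_lit 4) (nat_lit 541) (nat_lit 343) (nat_lit 316)))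 (XT.nd (nat_lit 78) (nat_lit 0) (nat_lit 0) (XT.lf (nat_lit 0) (nat_lit 82698995227) (nat_lit 152) (nat_lit 254046412616) (nat_lit 0) (nat_lit 82316956530) (nat_lit 1) (nat_lit 5) (nat_lit 3) (nat_lit 4) (nat_lit 1) (nat_lit 4) (nat_lit 542) (nat_lit 343) (nat_lit 315)) (XT.nd (nat_lit 78) (nat_lit 0) (nat_lit 0) (XT.lf (nat_lit 0) (nat_lit 93016857761) (nat_lit 152) (nat_lit 254059604075) (nat_lit 0) (nat_lit 92628589094) (nat_lit 1) (nat_lit 5) (nat_lit 3) (nat_lit 4) (nat_lit 1) (nat_lit 4) (nat_lit 543) (nat_lit 343) (nat_lit 314)) (XT.lf (nat_lit 0) (nat_lit 103752322794) (nat_lit 152) (nat_lit 254274342792) (nat_lit 0) (nat_lit 103358120822) (nat_lit 1) (nat_lit 5) (nat_lit 3) (nat_lit 4) (nat_lit 1) (nat_lit 4) (nat_lit 544) (nat_lit 343) (nat_lit 313))))))))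
noncomputable def xc15 : XT := (XT.nd (nat_lit 60138) (nat_lit 0) (nat_lit 152) (XT.nd (nat_lit 624) (nat_lit 0) (nat_lit 0) (XT.nd (nat_lit 312) (nat_lit 0) (nat_lit 0) (XT.nd (nat_lit 156) (nat_lit 0) (nat_lit 0) (XT.nd (nat_lit 78) (nat_lit 0) (nat_lit 0) (XT.lf (nat_lit 0) (nat_lit 114930950957) (nat_lit 152) (nat_lit 254691140049) (nat_lit 0) (nat_lit 114531098217) (nat_lit 1) (nat_lit 5) (nat_lit 3) (nat_lit 4) (nat_lit 1) (nat_lit 4) (nat_lit 545) (nat_lit 343) (nat_lit 312)) (XT.lf (nat_lit 0) (nat_lit 126579358030) (nat_lit 152) (nat_lit 255310988221) (nat_lit 0) (nat_lit 126174123608) (nat_lit 1) (nat_lit 5) (nat_lit 3) (nat_lit 4) (nat_lit 1) (nat_lit 4) (nat_lit 546) (nat_lit 343) (nat_lit 311))) (XT.nd (nat_lit 78) (nat_lit 0) (nat_lit 0) (XT.lf (nat_lit 0) (nat_lit 138725278317) (nat_lit 152) (nat_lit 256135363137) (nat_lit 0) (nat_lit 138314918482) (nat_lit 1) (nat_lit 5) (nat_lit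 3) (nat_lit 4) (nat_lit 1) (nat_lit 4) (nat_lit 547) (nat_lit 343) (nat_lit 310)) (XT.lf (nat_lit 0) (nat_lit 151397630675) (nat_lit 152) (nat_lit 257166227595) (nat_lit 0) (nat_lit 150982389495) (nat_lit 1) (nat_lit 5) (nat_lit 3) (nat_lit 4) (nat_lit 1) (nat_lit 4) (nat_lit 548) (nat_lit 343) (nat_lit 309)))) (XT.nd (nat_lit 156) (nat_lit 0) (nat_lit 0) (XT.nd (nat_lit 78) (nat_lit 0) (nat_lit 0) (XT.lf (nat_lit 0) (nat_lit 164626587372) (nat_lit 152) (nat_lit 258406036033) (nat_lit 0) (nat_lit 164206697292) (nat_lit 1) (nat_lit 5) (nat_lit 3) (nat_lit 4) (nat_lit 1) (nat_lit 4) (nat_lit 549) (nat_lit 343) (nat_lit 308)) (XT.lf (nat_lit 0) (nat_lit 178443645924) (nat_lit 152) (nat_lit 259857740377) (nat_lit 0) (nat_lit 178019328320) (nat_lit 1) (nat_lit 5) (nat_lit 3) (nat_lit 4) (nat_lit 1) (nat_lit 4) (nat_lit 550) (nat_lit 343) (nat_lit 307))) (XT.nd (nat_lit 78) (nat_lit 0) (nat_lit 0) (XT.lf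 (nat_lit 0) (nat_lit 192881704089) (nat_lit 152) (nat_lit 261524797065) (nat_lit 0) (nat_lit 192453169796) (nat_lit 1) (nat_lit 5) (nat_lit 3) (nat_lit 4) (nat_lit 1) (nat_lit 4) (nat_lit 551) (nat_lit 343) (nat_lit 306)) (XT.lf (nat_lit 0) (nat_lit 207975138196) (nat_lit 152) (nat_lit 263411175279) (nat_lit 0) (nat_lit 207542588008) (nat_lit 1) (nat_lit 5) (nat_lit 3) (nat_lit 4) (nat_lit 1) (nat_lit 4) (nat_lit 552) (nat_lit 343) (nat_lit 305))))) (XT.nd (nat_lit 312) (nat_lit 0) (nat_lit 0) (XT.nd (nat_lit 156) (nat_lit 0) (nat_lit 0) (XT.nd (nat_lit 78) (nat_lit 0) (nat_lit 0) (XT.lf (nat_lit 0) (nat_lit 223759884993) (nat_lit 152) (nat_lit 265521366398) (nat_lit 0) (nat_lit 223323510144) (nat_lit 1) (nat_lit 5) (nat_lit 3) (nat_lit 4) (nat_lit 1) (nat_lit 4) (nat_lit 553) (nat_lit 343) (nat_lit 304)) (XT.lf (nat_lit 0) (nat_lit 240273527211) (nat_lit 152) (nat_lit 267860394684) (nat_lit 0)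 (nat_lit 239833509826) (nat_lit 1) (nat_lit 5) (nat_lit 3) (nat_lit 4) (nat_lit 1) (nat_lit 4) (nat_lit 554) (nat_lit 343) (nat_lit 303))) (XT.nd (nat_lit 78) (nat_lit 0) (nat_lit 0) (XT.lf (nat_lit 0) (nat_lit 257555383045) (nat_lit 152) (nat_lit 270433829254) (nat_lit 0) (nat_lit 257111896580) (nat_lit 1) (nat_lit 5) (nat_lit 3) (nat_lit 4) (nat_lit 1) (nat_lit 4) (nat_lit 555) (nat_lit 343) (nat_lit 302)) (XT.lf (nat_lit 0) (nat_lit 275646599771) (nat_lit 152) (nat_lit 273247797332) (nat_lit 0) (nat_lit 275199809419) (nat_lit 1) (nat_lit 5) (nat_lit 3) (nat_lit 4) (nat_lit 1) (nat_lit 4) (nat_lit 556) (nat_lit 343) (nat_lit 301)))) (XT.nd (nat_lit 59046) (nat_lit 0) (nat_lit 380) (XT.nd (nat_lit 58968) (nat_lit 0) (nat_lit 380) (XT.lf (nat_lit 0) (nat_lit 294590251714) (nat_lit 152) (nat_lit 276308998843) (nat_lit 0) (nat_lit 294140314804) (nat_lit 1) (nat_lit 5) (nat_lit 3) (nat_lit 4) (nat_lit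 1) (nat_lit 4) (nat_lit 557) (nat_lit 343) (nat_lit 300)) (XT.lf (nat_lit 0) (nat_lit 30380606852) (nat_lit 76) (nat_lit 10775344953) (nat_lit 76) (nat_lit 10775344953) (nat_lit 6) (nat_lit 4) (nat_lit 7) (nat_lit 5) (nat_lit 7) (nat_lit 4) (nat_lit 512) (nat_lit 344) (nat_lit 344))) (XT.nd (nat_lit 78) (nat_lit 0) (nat_lit 0) (XT.lf (nat_lit 0) (nat_lit 86108944234) (nat_lit 76) (nat_lit 11214383159) (nat_lit 76) (nat_lit 11186111306) (nat_lit 6) (nat_lit 4) (nat_lit 7) (nat_lit 5) (nat_lit 7) (nat_lit 4) (nat_lit 513) (nat_lit 344) (nat_lit 343)) (XT.lf (nat_lit 0) (nat_lit 112021529444) (nat_lit 76) (nat_lit 719748315) (nat_lit 76) (nat_lit 664550888) (nat_lit 6) (nat_lit 4) (nat_lit 7) (nat_lit 5) (nat_lit 7) (nat_lit 4) (nat_lit 514) (nat_lit 344) (nat_lit 342)))))) (XT.nd (nat_lit 624) (nat_lit 0) (nat_lit 0) (XT.nd (nat_lit 312) (nat_lit 76) (nat_lit 0) (XT.nd (nat_lit 156) (nat_lit 0) (nat_lit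 0) (XT.nd (nat_lit 78) (nat_lit 0) (nat_lit 0) (XT.lf (nat_lit 0) (nat_lit 10201029739) (nat_lit 152) (nat_lit 98206351389) (nat_lit 0) (nat_lit 10124038471) (nat_lit 4) (nat_lit 5) (nat_lit 6) (nat_lit 4) (nat_lit 4) (nat_lit 4) (nat_lit 515) (nat_lit 344) (nat_lit 341)) (XT.lf (nat_lit 0) (nat_lit 21290230221) (nat_lit 152) (nat_lit 81447402067) (nat_lit 0) (nat_lit 21189979630) (nat_lit 4) (nat_lit 5) (nat_lit 6) (nat_lit 4) (nat_lit 4) (nat_lit 4) (nat_lit 516) (nat_lit 344) (nat_lit 340))) (XT.nd (nat_lit 78) (nat_lit 0) (nat_lit 0) (XT.lf (nat_lit 0) (nat_lit 32616792477) (nat_lit 152) (nat_lit 64498286369) (nat_lit 0) (nat_lit 32494390149) (nat_lit 4) (nat_lit 5) (nat_lit 6) (nat_lit 4) (nat_lit 4) (nat_lit 4) (nat_lit 517) (nat_lit 344) (nat_lit 339)) (XT.lf (nat_lit 0) (nat_lit 44207684510) (nat_lit 152) (nat_lit 47318649256) (nat_lit 0) (nat_lit 44064185290) (nat_lit 4) (nat_lit 5) (nat_lit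 6) (nat_lit 4) (nat_lit 4) (nat_lit 4) (nat_lit 518) (nat_lit 344) (nat_lit 338)))) (XT.nd (nat_lit 156) (nat_lit 76) (nat_lit 0) (XT.nd (nat_lit 78) (nat_lit 0) (nat_lit 0) (XT.lf (nat_lit 0) (nat_lit 56090503684) (nat_lit 152) (nat_lit 29867586832) (nat_lit 0) (nat_lit 55926912186) (nat_lit 4) (nat_lit 5) (nat_lit 6) (nat_lit 4) (nat_lit 4) (nat_lit 4) (nat_lit 519) (nat_lit 344) (nat_lit 337)) (XT.lf (nat_lit 0) (nat_lit 68293542425) (nat_lit 152) (nat_lit 12103548948) (nat_lit 0) (nat_lit 68110815424) (nat_lit 4) (nat_lit 5) (nat_lit 6) (nat_lit 4) (nat_lit 4) (nat_lit 4) (nat_lit 520) (nat_lit 344) (nat_lit 336))) (XT.nd (nat_lit 78) (nat_lit 0) (nat_lit 0) (XT.lf (nat_lit 0) (nat_lit 6214667909) (nat_lit 76) (nat_lit 74728216061) (nat_lit 76) (nat_lit 74527264771) (nat_lit 3) (nat_lit 4) (nat_lit 4) (nat_lit 5) (nat_lit 4) (nat_lit 4) (nat_lit 521) (nat_lit 344) (nat_lit 335)) (XT.lf (nat_lit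 0) (nat_lit 25344668056) (nat_lit 76) (nat_lit 68828362871) (nat_lit 76) (nat_lit 68610055116) (nat_lit 3) (nat_lit 4) (nat_lit 4) (nat_lit 5) (nat_lit 4) (nat_lit 4) (nat_lit 522) (nat_lit 344) (nat_lit 334))))) (XT.nd (nat_lit 312) (nat_lit 0) (nat_lit 0) (XT.nd (nat_lit 156) (nat_lit 0) (nat_lit 0) (XT.nd (nat_lit 78) (nat_lit 0) (nat_lit 0) (XT.lf (nat_lit 0) (nat_lit 44931801122) (nat_lit 76) (nat_lit 62888463993) (nat_lit 76) (nat_lit 62653626271) (nat_lit 3) (nat_lit 4) (nat_lit 4) (nat_lit 5) (nat_lit 4) (nat_lit 4) (nat_lit 523) (nat_lit 344) (nat_lit 333)) (XT.lf (nat_lit 0) (nat_lit 65022703138) (nat_lit 76) (nat_lit 56894376810) (nat_lit 76) (nat_lit 56643796263) (nat_lit 3) (nat_lit 4) (nat_lit 4) (nat_lit 5) (nat_lit 4) (nat_lit 4) (nat_lit 524) (nat_lit 344) (nat_lit 332))) (XT.nd (nat_lit 78) (nat_lit 0) (nat_lit 0) (XT.lf (nat_lit 0) (nat_lit 85665209586) (nat_lit 76) (nat_lit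 50831829686) (nat_lit 76) (nat_lit 50566255972) (nat_lit 3) (nat_lit 4) (nat_lit 4) (nat_lit 5) (nat_lit 4) (nat_lit 4) (nat_lit 525) (nat_lit 344) (nat_lit 331)) (XT.lf (nat_lit 0) (nat_lit 106908469290) (nat_lit 76) (nat_lit 44686387985) (nat_lit 76) (nat_lit 44406535064) (nat_lit 3) (nat_lit 4) (nat_lit 4) (nat_lit 5) (nat_lit 4) (nat_lit 4) (nat_lit 526) (nat_lit 344) (nat_lit 330)))) (XT.nd (nat_lit 156) (nat_lit 0) (nat_lit 0) (XT.nd (nat_lit 78) (nat_lit 0) (nat_lit 0) (XT.lf (nat_lit 0) (nat_lit 128803061440) (nat_lit 76) (nat_lit 38443419704) (nat_lit 76) (nat_lit 38149967538) (nat_lit 3) (nat_lit 4) (nat_lit 4) (nat_lit 5) (nat_lit 4) (nat_lit 4) (nat_lit 527) (nat_lit 344) (nat_lit 329)) (XT.lf (nat_lit 0) (nat_lit 151401116018) (nat_lit 76) (nat_lit 32088060631) (nat_lit 76) (nat_lit 31781656804) (nat_lit 3) (nat_lit 4) (nat_lit 4) (nat_lit 5) (nat_lit 4) (nat_lit 4) (nat_lit 528) (nat_lit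 344) (nat_lit 328))) (XT.nd (nat_lit 78) (nat_lit 0) (nat_lit 0) (XT.lf (nat_lit 0) (nat_lit 174756437914) (nat_lit 76) (nat_lit 25605178960) (nat_lit 76) (nat_lit 25286440217) (nat_lit 3) (nat_lit 4) (nat_lit 4) (nat_lit 5) (nat_lit 4) (nat_lit 4) (nat_lit 529) (nat_lit 344) (nat_lit 327)) (XT.nd (nat_lit 78) (nat_lit 0) (nat_lit 0) (XT.lf (nat_lit 0) (nat_lit 198924635039) (nat_lit 76) (nat_lit 18979339258) (nat_lit 76) (nat_lit 18648852976) (nat_lit 3) (nat_lit 4) (nat_lit 4) (nat_lit 5) (nat_lit 4) (nat_lit 4) (nat_lit 530) (nat_lit 344) (nat_lit 326)) (XT.lf (nat_lit 0) (nat_lit 223963250719) (nat_lit 76) (nat_lit 12194765716) (nat_lit 76) (nat_lit 11853091301) (nat_lit 3) (nat_lit 4) (nat_lit 4) (nat_lit 5) (nat_lit 4) (nat_lit 4) (nat_lit 531) (nat_lit 344) (nat_lit 325))))))))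
noncomputable def xc16 : XT := (XT.nd (nat_lit 1248) (nat_lit 0) (nat_lit 0) (XT.nd (nat_lit 624) (nat_lit 0) (nat_lit 0) (XT.nd (nat_lit 312) (nat_lit 0) (nat_lit 0) (XT.nd (nat_lit 156) (nat_lit 0) (nat_lit 0) (XT.nd (nat_lit 78) (nat_lit 152) (nat_lit 0) (XT.lf (nat_lit 0) (nat_lit 249931900706) (nat_lit 76) (nat_lit 5235304587) (nat_lit 76) (nat_lit 4882974809) (nat_lit 3) (nat_lit 4) (nat_lit 4) (nat_lit 5) (nat_lit 4) (nat_lit 4) (nat_lit 532) (nat_lit 344) (nat_lit 324)) (XT.lf (nat_lit 0) (nat_lit 2303836235) (nat_lit 152) (nat_lit 268429542017) (nat_lit 0) (nat_lit 1958619336) (nat_lit 1) (nat_lit 5) (nat_lit 3) (nat_lit 4) (nat_lit 1) (nat_lit 4) (nat_lit 533) (nat_lit 344) (nat_lit 323))) (XT.nd (nat_lit 78) (nat_lit 0) (nat_lit 0) (XT.lf (nat_lit 0) (nat_lit 9793398604) (nat_lit 152) (nat_lit 266724152262) (nat_lit 0) (nat_lit 9438977201) (nat_lit 1) (nat_lit 5) (nat_lit 3) (nat_lit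 4) (nat_lit 1) (nat_lit 4) (nat_lit 534) (nat_lit 344) (nat_lit 322)) (XT.lf (nat_lit 0) (nat_lit 17512219068) (nat_lit 152) (nat_lit 265230295624) (nat_lit 0) (nat_lit 17149031471) (nat_lit 1) (nat_lit 5) (nat_lit 3) (nat_lit 4) (nat_lit 1) (nat_lit 4) (nat_lit 535) (nat_lit 344) (nat_lit 321)))) (XT.nd (nat_lit 156) (nat_lit 0) (nat_lit 0) (XT.nd (nat_lit 78) (nat_lit 0) (nat_lit 0) (XT.lf (nat_lit 0) (nat_lit 25478675771) (nat_lit 152) (nat_lit 263944415299) (nat_lit 0) (nat_lit 25107139417) (nat_lit 1) (nat_lit 5) (nat_lit 3) (nat_lit 4) (nat_lit 1) (nat_lit 4) (nat_lit 536) (nat_lit 344) (nat_lit 320)) (XT.lf (nat_lit 0) (nat_lit 33711736467) (nat_lit 152) (nat_lit 262863449670) (nat_lit 0) (nat_lit 33332248916) (nat_lit 1) (nat_lit 5) (nat_lit 3) (nat_lit 4) (nat_lit 1) (nat_lit 4) (nat_lit 537) (nat_lit 344) (nat_lit 319))) (XT.nd (nat_lit 78) (nat_lit 0) (nat_lit 0) (XT.lf (nat_lit 0) (nat_lit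 42231003681) (nat_lit 152) (nat_lit 261984825007) (nat_lit 0) (nat_lit 41843943562) (nat_lit 1) (nat_lit 5) (nat_lit 3) (nat_lit 4) (nat_lit 1) (nat_lit 4) (nat_lit 538) (nat_lit 344) (nat_lit 318)) (XT.lf (nat_lit 0) (nat_lit 51056761382) (nat_lit 152) (nat_lit 261306449348) (nat_lit 0) (nat_lit 50662489294) (nat_lit 1) (nat_lit 5) (nat_lit 3) (nat_lit 4) (nat_lit 1) (nat_lit 4) (nat_lit 539) (nat_lit 344) (nat_lit 317))))) (XT.nd (nat_lit 312) (nat_lit 0) (nat_lit 0) (XT.nd (nat_lit 156) (nat_lit 0) (nat_lit 0) (XT.nd (nat_lit 78) (nat_lit 0) (nat_lit 0) (XT.lf (nat_lit 0) (nat_lit 60210023281) (nat_lit 152) (nat_lit 260826707512) (nat_lit 0) (nat_lit 59808882649) (nat_lit 1) (nat_lit 5) (nat_lit 3) (nat_lit 4) (nat_lit 1) (nat_lit 4) (nat_lit 540) (nat_lit 344) (nat_lit 316)) (XT.lf (nat_lit 0) (nat_lit 69712582856) (nat_lit 152) (nat_lit 260544457257) (nat_lit 0) (nat_lit 69304900756) (nat_lit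 1) (nat_lit 5) (nat_lit 3) (nat_lit 4) (nat_lit 1) (nat_lit 4) (nat_lit 541) (nat_lit 344) (nat_lit 315))) (XT.nd (nat_lit 78) (nat_lit 0) (nat_lit 0) (XT.lf (nat_lit 0) (nat_lit 79587065251) (nat_lit 152) (nat_lit 260459026558) (nat_lit 0) (nat_lit 79173153180) (nat_lit 1) (nat_lit 5) (nat_lit 3) (nat_lit 4) (nat_lit 1) (nat_lit 4) (nat_lit 542) (nat_lit 344) (nat_lit 314)) (XT.lf (nat_lit 0) (nat_lit 89856981138) (nat_lit 152) (nat_lit 260570212010) (nat_lit 0) (nat_lit 89437135761) (nat_lit 1) (nat_lit 5) (nat_lit 3) (nat_lit 4) (nat_lit 1) (nat_lit 4) (nat_lit 543) (nat_lit 344) (nat_lit 313)))) (XT.nd (nat_lit 156) (nat_lit 0) (nat_lit 0) (XT.nd (nat_lit 78) (nat_lit 0) (nat_lit 0) (XT.lf (nat_lit 0) (nat_lit 100546782697) (nat_lit 152) (nat_lit 260878278338) (nat_lit 0) (nat_lit 100121286553) (nat_lit 1) (nat_lit 5) (nat_lit 3) (nat_lit 4) (nat_lit 1) (nat_lit 4) (nat_lit 544) (nat_lit 344)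 (nat_lit 312)) (XT.lf (nat_lit 0) (nat_lit 111681921836) (nat_lit 152) (nat_lit 261383959036) (nat_lit 0) (nat_lit 111251044009) (nat_lit 1) (nat_lit 5) (nat_lit 3) (nat_lit 4) (nat_lit 1) (nat_lit 4) (nat_lit 545) (nat_lit 344) (nat_lit 311))) (XT.nd (nat_lit 78) (nat_lit 0) (nat_lit 0) (XT.lf (nat_lit 0) (nat_lit 123288910792) (nat_lit 152) (nat_lit 262088458103) (nat_lit 0) (nat_lit 122852907553) (nat_lit 1) (nat_lit 5) (nat_lit 3) (nat_lit 4) (nat_lit 1) (nat_lit 4) (nat_lit 546) (nat_lit 344) (nat_lit 310)) (XT.lf (nat_lit 0) (nat_lit 135395385253) (nat_lit 152) (nat_lit 262993452920) (nat_lit 0) (nat_lit 134954500669) (nat_lit 1) (nat_lit 5) (nat_lit 3) (nat_lit 4) (nat_lit 1) (nat_lit 4) (nat_lit 547) (nat_lit 344) (nat_lit 309)))))) (XT.nd (nat_lit 624) (nat_lit 0) (nat_lit 0) (XT.nd (nat_lit 312) (nat_lit 0) (nat_lit 0) (XT.nd (nat_lit 156) (nat_lit 0) (nat_lit 0) (XT.nd (nat_lit 78) (nat_lit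 0) (nat_lit 0) (XT.lf (nat_lit 0) (nat_lit 148030170158) (nat_lit 152) (nat_lit 264101098235) (nat_lit 0) (nat_lit 147584636674) (nat_lit 1) (nat_lit 5) (nat_lit 3) (nat_lit 4) (nat_lit 1) (nat_lit 4) (nat_lit 548) (nat_lit 344) (nat_lit 308)) (XT.lf (nat_lit 0) (nat_lit 161223348328) (nat_lit 152) (nat_lit 265414031299) (nat_lit 0) (nat_lit 160773387320) (nat_lit 1) (nat_lit 5) (nat_lit 3) (nat_lit 4) (nat_lit 1) (nat_lit 4) (nat_lit 549) (nat_lit 344) (nat_lit 307))) (XT.nd (nat_lit 78) (nat_lit 0) (nat_lit 0) (XT.lf (nat_lit 0) (nat_lit 175006332092) (nat_lit 152) (nat_lit 266935378144) (nat_lit 0) (nat_lit 174552154395) (nat_lit 1) (nat_lit 5) (nat_lit 3) (nat_lit 4) (nat_lit 1) (nat_lit 4) (nat_lit 550) (nat_lit 344) (nat_lit 306)) (XT.lf (nat_lit 0) (nat_lit 189411938079) (nat_lit 152) (nat_lit 268668761023) (nat_lit 0) (nat_lit 188953744487) (nat_lit 1) (nat_lit 5) (nat_lit 3) (nat_lit 4)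 (nat_lit 1) (nat_lit 4) (nat_lit 551) (nat_lit 344) (nat_lit 305)))) (XT.nd (nat_lit 156) (nat_lit 0) (nat_lit 0) (XT.nd (nat_lit 78) (nat_lit 0) (nat_lit 0) (XT.lf (nat_lit 0) (nat_lit 204474465349) (nat_lit 152) (nat_lit 270618307039) (nat_lit 0) (nat_lit 204012447096) (nat_lit 1) (nat_lit 5) (nat_lit 3) (nat_lit 4) (nat_lit 1) (nat_lit 4) (nat_lit 552) (nat_lit 344) (nat_lit 304)) (XT.lf (nat_lit 0) (nat_lit 220229777064) (nat_lit 152) (nat_lit 272788657969) (nat_lit 0) (nat_lit 219764116276) (nat_lit 1) (nat_lit 5) (nat_lit 3) (nat_lit 4) (nat_lit 1) (nat_lit 4) (nat_lit 553) (nat_lit 344) (nat_lit 303))) (XT.nd (nat_lit 78) (nat_lit 0) (nat_lit 0) (XT.lf (nat_lit 0) (nat_lit 236715385869) (nat_lit 152) (nat_lit 275184981313) (nat_lit 0) (nat_lit 236246256000) (nat_lit 1) (nat_lit 5) (nat_lit 3) (nat_lit 4) (nat_lit 1) (nat_lit 4) (nat_lit 554) (nat_lit 344) (nat_lit 302)) (XT.lf (nat_lit 0)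 (nat_lit 253970543216) (nat_lit 152) (nat_lit 277812982605) (nat_lit 0) (nat_lit 253498109460) (nat_lit 1) (nat_lit 5) (nat_lit 3) (nat_lit 4) (nat_lit 1) (nat_lit 4) (nat_lit 555) (nat_lit 344) (nat_lit 301))))) (XT.nd (nat_lit 59046) (nat_lit 0) (nat_lit 228) (XT.nd (nat_lit 58890) (nat_lit 0) (nat_lit 380) (XT.nd (nat_lit 78) (nat_lit 0) (nat_lit 0) (XT.lf (nat_lit 0) (nat_lit 272036332811) (nat_lit 152) (nat_lit 280678918989) (nat_lit 0) (nat_lit 271560752497) (nat_lit 1) (nat_lit 5) (nat_lit 3) (nat_lit 4) (nat_lit 1) (nat_lit 4) (nat_lit 556) (nat_lit 344) (nat_lit 300)) (XT.lf (nat_lit 0) (nat_lit 290955768439) (nat_lit 152) (nat_lit 283789614125) (nat_lit 0) (nat_lit 290477191403) (nat_lit 1) (nat_lit 5) (nat_lit 3) (nat_lit 4) (nat_lit 1) (nat_lit 4) (nat_lit 557) (nat_lit 344) (nat_lit 299))) (XT.nd (nat_lit 78) (nat_lit 0) (nat_lit 0) (XT.lf (nat_lit 0) (nat_lit 5948967990) (nat_lit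 76) (nat_lit 20841665504) (nat_lit 76) (nat_lit 20841665504) (nat_lit 6) (nat_lit 4) (nat_lit 7) (nat_lit 5) (nat_lit 7) (nat_lit 4) (nat_lit 510) (nat_lit 345) (nat_lit 345)) (XT.lf (nat_lit 0) (nat_lit 35917986116) (nat_lit 76) (nat_lit 31782964256) (nat_lit 76) (nat_lit 31753278810) (nat_lit 6) (nat_lit 4) (nat_lit 7) (nat_lit 5) (nat_lit 7) (nat_lit 4) (nat_lit 511) (nat_lit 345) (nat_lit 344)))) (XT.nd (nat_lit 156) (nat_lit 152) (nat_lit 0) (XT.nd (nat_lit 78) (nat_lit 0) (nat_lit 0) (XT.lf (nat_lit 0) (nat_lit 60401380320) (nat_lit 76) (nat_lit 21763990767) (nat_lit 76) (nat_lit 21706033469) (nat_lit 6) (nat_lit 4) (nat_lit 7) (nat_lit 5) (nat_lit 7) (nat_lit 4) (nat_lit 512) (nat_lit 345) (nat_lit 343)) (XT.lf (nat_lit 0) (nat_lit 85406412388) (nat_lit 76) (nat_lit 11602555845) (nat_lit 76) (nat_lit 11517672972) (nat_lit 6) (nat_lit 4) (nat_lit 7) (nat_lit 5) (nat_lit 7) (nat_lit 4) (nat_lit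 513) (nat_lit 345) (nat_lit 342))) (XT.nd (nat_lit 78) (nat_lit 152) (nat_lit 0) (XT.lf (nat_lit 0) (nat_lit 110992618111) (nat_lit 76) (nat_lit 1274465597) (nat_lit 76) (nat_lit 1163939320) (nat_lit 6) (nat_lit 4) (nat_lit 7) (nat_lit 5) (nat_lit 7) (nat_lit 4) (nat_lit 514) (nat_lit 345) (nat_lit 341)) (XT.lf (nat_lit 0) (nat_lit 9529267565) (nat_lit 152) (nat_lit 99636409116) (nat_lit 0) (nat_lit 9400745121) (nat_lit 4) (nat_lit 5) (nat_lit 6) (nat_lit 4) (nat_lit 4) (nat_lit 4) (nat_lit 515) (nat_lit 345) (nat_lit 340)))))))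
noncomputable def xc17 : XT := (XT.nd (nat_lit 1248) (nat_lit 152) (nat_lit 0) (XT.nd (nat_lit 624) (nat_lit 0) (nat_lit 0) (XT.nd (nat_lit 312) (nat_lit 76) (nat_lit 0) (XT.nd (nat_lit 156) (nat_lit 0) (nat_lit 0) (XT.nd (nat_lit 78) (nat_lit 0) (nat_lit 0) (XT.lf (nat_lit 0) (nat_lit 20463785974) (nat_lit 152) (nat_lit 83193450570) (nat_lit 0) (nat_lit 20313111793) (nat_lit 4) (nat_lit 5) (nat_lit 6) (nat_lit 4) (nat_lit 4) (nat_lit 4) (nat_lit 516) (nat_lit 345) (nat_lit 339)) (XT.lf (nat_lit 0) (nat_lit 31643031969) (nat_lit 152) (nat_lit 66545278467) (nat_lit 0) (nat_lit 31471260896) (nat_lit 4) (nat_lit 5) (nat_lit 6) (nat_lit 4) (nat_lit 4) (nat_lit 4) (nat_lit 517) (nat_lit 345) (nat_lit 338))) (XT.nd (nat_lit 78) (nat_lit 0) (nat_lit 0) (XT.lf (nat_lit 0) (nat_lit 43093622801) (nat_lit 152) (nat_lit 49652254303) (nat_lit 0) (nat_lit 42901759451) (nat_lit 4) (nat_lit 5) (nat_lit 6) (nat_lit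 4) (nat_lit 4) (nat_lit 4) (nat_lit 518) (nat_lit 345) (nat_lit 337)) (XT.lf (nat_lit 0) (nat_lit 54842821784) (nat_lit 152) (nat_lit 32474156592) (nat_lit 0) (nat_lit 54631822931) (nat_lit 4) (nat_lit 5) (nat_lit 6) (nat_lit 4) (nat_lit 4) (nat_lit 4) (nat_lit 519) (nat_lit 345) (nat_lit 336)))) (XT.nd (nat_lit 156) (nat_lit 0) (nat_lit 0) (XT.nd (nat_lit 78) (nat_lit 76) (nat_lit 0) (XT.lf (nat_lit 0) (nat_lit 66918603200) (nat_lit 152) (nat_lit 14970085100) (nat_lit 0) (nat_lit 66689380058) (nat_lit 4) (nat_lit 5) (nat_lit 6) (nat_lit 4) (nat_lit 4) (nat_lit 4) (nat_lit 520) (nat_lit 345) (nat_lit 335)) (XT.lf (nat_lit 0) (nat_lit 2997577739) (nat_lit 76) (nat_lit 76398941760) (nat_lit 76) (nat_lit 76152362153) (nat_lit 3) (nat_lit 4) (nat_lit 4) (nat_lit 5) (nat_lit 4) (nat_lit 4) (nat_lit 521) (nat_lit 345) (nat_lit 334))) (XT.nd (nat_lit 78) (nat_lit 0) (nat_lit 0) (XT.lf (nat_lit 0) (nat_lit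 21883984184) (nat_lit 76) (nat_lit 70623452946) (nat_lit 76) (nat_lit 70360343372) (nat_lit 3) (nat_lit 4) (nat_lit 4) (nat_lit 5) (nat_lit 4) (nat_lit 4) (nat_lit 522) (nat_lit 345) (nat_lit 333)) (XT.lf (nat_lit 0) (nat_lit 41239123249) (nat_lit 76) (nat_lit 64801996331) (nat_lit 76) (nat_lit 64523143931) (nat_lit 3) (nat_lit 4) (nat_lit 4) (nat_lit 5) (nat_lit 4) (nat_lit 4) (nat_lit 523) (nat_lit 345) (nat_lit 332))))) (XT.nd (nat_lit 312) (nat_lit 0) (nat_lit 0) (XT.nd (nat_lit 156) (nat_lit 0) (nat_lit 0) (XT.nd (nat_lit 78) (nat_lit 0) (nat_lit 0) (XT.lf (nat_lit 0) (nat_lit 61109078597) (nat_lit 76) (nat_lit 58920711304) (nat_lit 76) (nat_lit 58626865737) (nat_lit 3) (nat_lit 4) (nat_lit 4) (nat_lit 5) (nat_lit 4) (nat_lit 4) (nat_lit 524) (nat_lit 345) (nat_lit 331)) (XT.lf (nat_lit 0) (nat_lit 81541159647) (nat_lit 76) (nat_lit 52965594804) (nat_lit 76) (nat_lit 52657470030) (nat_lit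 3) (nat_lit 4) (nat_lit 4) (nat_lit 5) (nat_lit 4) (nat_lit 4) (nat_lit 525) (nat_lit 345) (nat_lit 330))) (XT.nd (nat_lit 78) (nat_lit 0) (nat_lit 0) (XT.lf (nat_lit 0) (nat_lit 102584014210) (nat_lit 76) (nat_lit 46922467983) (nat_lit 76) (nat_lit 46600743965) (nat_lit 3) (nat_lit 4) (nat_lit 4) (nat_lit 5) (nat_lit 4) (nat_lit 4) (nat_lit 526) (nat_lit 345) (nat_lit 329)) (XT.lf (nat_lit 0) (nat_lit 124287744321) (nat_lit 76) (nat_lit 40776942445) (nat_lit 76) (nat_lit 40442266764) (nat_lit 3) (nat_lit 4) (nat_lit 4) (nat_lit 5) (nat_lit 4) (nat_lit 4) (nat_lit 527) (nat_lit 345) (nat_lit 328)))) (XT.nd (nat_lit 156) (nat_lit 0) (nat_lit 0) (XT.nd (nat_lit 78) (nat_lit 0) (nat_lit 0) (XT.lf (nat_lit 0) (nat_lit 146704025528) (nat_lit 76) (nat_lit 34514385984) (nat_lit 76) (nat_lit 34167375388) (nat_lit 3) (nat_lit 4) (nat_lit 4) (nat_lit 5) (nat_lit 4) (nat_lit 4) (nat_lit 528) (nat_lit 345)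 (nat_lit 327)) (XT.lf (nat_lit 0) (nat_lit 169886229929) (nat_lit 76) (nat_lit 28119887753) (nat_lit 76) (nat_lit 27761129618) (nat_lit 3) (nat_lit 4) (nat_lit 4) (nat_lit 5) (nat_lit 4) (nat_lit 4) (nat_lit 529) (nat_lit 345) (nat_lit 326))) (XT.nd (nat_lit 78) (nat_lit 0) (nat_lit 0) (XT.lf (nat_lit 0) (nat_lit 193889553248) (nat_lit 76) (nat_lit 21578222756) (nat_lit 76) (nat_lit 21208276489) (nat_lit 3) (nat_lit 4) (nat_lit 4) (nat_lit 5) (nat_lit 4) (nat_lit 4) (nat_lit 530) (nat_lit 345) (nat_lit 325)) (XT.lf (nat_lit 0) (nat_lit 218771146256) (nat_lit 76) (nat_lit 14873815600) (nat_lit 76) (nat_lit 14493213969) (nat_lit 3) (nat_lit 4) (nat_lit 4) (nat_lit 5) (nat_lit 4) (nat_lit 4) (nat_lit 531) (nat_lit 345) (nat_lit 324)))))) (XT.nd (nat_lit 624) (nat_lit 0) (nat_lit 0) (XT.nd (nat_lit 312) (nat_lit 0) (nat_lit 0) (XT.nd (nat_lit 156) (nat_lit 152) (nat_lit 0) (XT.nd (nat_lit 78) (nat_lit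 0) (nat_lit 0) (XT.lf (nat_lit 0) (nat_lit 244590250841) (nat_lit 76) (nat_lit 7990703410) (nat_lit 76) (nat_lit 7599953813) (nat_lit 3) (nat_lit 4) (nat_lit 4) (nat_lit 5) (nat_lit 4) (nat_lit 4) (nat_lit 532) (nat_lit 345) (nat_lit 323)) (XT.lf (nat_lit 0) (nat_lit 271408341061) (nat_lit 76) (nat_lit 912497825) (nat_lit 76) (nat_lit 512083499) (nat_lit 3) (nat_lit 4) (nat_lit 4) (nat_lit 5) (nat_lit 4) (nat_lit 4) (nat_lit 533) (nat_lit 345) (nat_lit 322))) (XT.nd (nat_lit 78) (nat_lit 0) (nat_lit 0) (XT.lf (nat_lit 0) (nat_lit 6885429263) (nat_lit 152) (nat_lit 272722529281) (nat_lit 0) (nat_lit 6495316091) (nat_lit 1) (nat_lit 5) (nat_lit 3) (nat_lit 4) (nat_lit 1) (nat_lit 4) (nat_lit 534) (nat_lit 345) (nat_lit 321)) (XT.lf (nat_lit 0) (nat_lit 14536783978) (nat_lit 152) (nat_lit 271366560031) (nat_lit 0) (nat_lit 14138322050) (nat_lit 1) (nat_lit 5) (nat_lit 3) (nat_lit 4) (nat_lit 1) (nat_lit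 4) (nat_lit 535) (nat_lit 345) (nat_lit 320)))) (XT.nd (nat_lit 156) (nat_lit 0) (nat_lit 0) (XT.nd (nat_lit 78) (nat_lit 0) (nat_lit 0) (XT.lf (nat_lit 0) (nat_lit 22438987587) (nat_lit 152) (nat_lit 270212001029) (nat_lit 0) (nat_lit 22032574462) (nat_lit 1) (nat_lit 5) (nat_lit 3) (nat_lit 4) (nat_lit 1) (nat_lit 4) (nat_lit 536) (nat_lit 345) (nat_lit 319)) (XT.lf (nat_lit 0) (nat_lit 30610854860) (nat_lit 152) (nat_lit 269256103325) (nat_lit 0) (nat_lit 30196869167) (nat_lit 1) (nat_lit 5) (nat_lit 3) (nat_lit 4) (nat_lit 1) (nat_lit 4) (nat_lit 537) (nat_lit 345) (nat_lit 318))) (XT.nd (nat_lit 78) (nat_lit 0) (nat_lit 0) (XT.lf (nat_lit 0) (nat_lit 39071842624) (nat_lit 152) (nat_lit 268496590973) (nat_lit 0) (nat_lit 38650644961) (nat_lit 1) (nat_lit 5) (nat_lit 3) (nat_lit 4) (nat_lit 1) (nat_lit 4) (nat_lit 538) (nat_lit 345) (nat_lit 317)) (XT.lf (nat_lit 0) (nat_lit 47842096087) (nat_lit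 152) (nat_lit 267931655610) (nat_lit 0) (nat_lit 47414029882) (nat_lit 1) (nat_lit 5) (nat_lit 3) (nat_lit 4) (nat_lit 1) (nat_lit 4) (nat_lit 539) (nat_lit 345) (nat_lit 316))))) (XT.nd (nat_lit 312) (nat_lit 0) (nat_lit 0) (XT.nd (nat_lit 156) (nat_lit 0) (nat_lit 0) (XT.nd (nat_lit 78) (nat_lit 0) (nat_lit 0) (XT.lf (nat_lit 0) (nat_lit 56942496806) (nat_lit 152) (nat_lit 267559952151) (nat_lit 0) (nat_lit 56507889132) (nat_lit 1) (nat_lit 5) (nat_lit 3) (nat_lit 4) (nat_lit 1) (nat_lit 4) (nat_lit 540) (nat_lit 345) (nat_lit 315)) (XT.lf (nat_lit 0) (nat_lit 66394712402) (nat_lit 152) (nat_lit 267380595588) (nat_lit 0) (nat_lit 65953874756) (nat_lit 1) (nat_lit 5) (nat_lit 3) (nat_lit 4) (nat_lit 1) (nat_lit 4) (nat_lit 541) (nat_lit 345) (nat_lit 314))) (XT.nd (nat_lit 78) (nat_lit 0) (nat_lit 0) (XT.lf (nat_lit 0) (nat_lit 76221248149) (nat_lit 152) (nat_lit 267393158882) (nat_lit 0) (nat_lit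 75774477198) (nat_lit 1) (nat_lit 5) (nat_lit 3) (nat_lit 4) (nat_lit 1) (nat_lit 4) (nat_lit 542) (nat_lit 345) (nat_lit 313)) (XT.lf (nat_lit 0) (nat_lit 86445500561) (nat_lit 152) (nat_lit 267597671946) (nat_lit 0) (nat_lit 85993078843) (nat_lit 1) (nat_lit 5) (nat_lit 3) (nat_lit 4) (nat_lit 1) (nat_lit 4) (nat_lit 543) (nat_lit 345) (nat_lit 312)))) (XT.nd (nat_lit 156) (nat_lit 0) (nat_lit 0) (XT.nd (nat_lit 78) (nat_lit 0) (nat_lit 0) (XT.lf (nat_lit 0) (nat_lit 97091813097) (nat_lit 152) (nat_lit 267994621715) (nat_lit 0) (nat_lit 96634009696) (nat_lit 1) (nat_lit 5) (nat_lit 3) (nat_lit 4) (nat_lit 1) (nat_lit 4) (nat_lit 544) (nat_lit 345) (nat_lit 311)) (XT.lf (nat_lit 0) (nat_lit 108185534119) (nat_lit 152) (nat_lit 268584953307) (nat_lit 0) (nat_lit 107722605306) (nat_lit 1) (nat_lit 5) (nat_lit 3) (nat_lit 4) (nat_lit 1) (nat_lit 4) (nat_lit 545) (nat_lit 345) (nat_lit 310))) (XT.nd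 (nat_lit 78) (nat_lit 0) (nat_lit 0) (XT.lf (nat_lit 0) (nat_lit 119753077249) (nat_lit 152) (nat_lit 269370072275) (nat_lit 0) (nat_lit 119285267091) (nat_lit 1) (nat_lit 5) (nat_lit 3) (nat_lit 4) (nat_lit 1) (nat_lit 4) (nat_lit 546) (nat_lit 345) (nat_lit 309)) (XT.nd (nat_lit 78) (nat_lit 0) (nat_lit 0) (XT.lf (nat_lit 0) (nat_lit 131821984257) (nat_lit 152) (nat_lit 270351847949) (nat_lit 0) (nat_lit 131349525199) (nat_lit 1) (nat_lit 5) (nat_lit 3) (nat_lit 4) (nat_lit 1) (nat_lit 4) (nat_lit 547) (nat_lit 345) (nat_lit 308)) (XT.lf (nat_lit 0) (nat_lit 144420990635) (nat_lit 152) (nat_lit 271532617890) (nat_lit 0) (nat_lit 143944104053) (nat_lit 1) (nat_lit 5) (nat_lit 3) (nat_lit 4) (nat_lit 1) (nat_lit 4) (nat_lit 548) (nat_lit 345) (nat_lit 307))))))))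
noncomputable def xc18 : XT := (XT.nd (nat_lit 59826) (nat_lit 0) (nat_lit 152) (XT.nd (nat_lit 624) (nat_lit 0) (nat_lit 0) (XT.nd (nat_lit 312) (nat_lit 0) (nat_lit 0) (XT.nd (nat_lit 156) (nat_lit 0) (nat_lit 0) (XT.nd (nat_lit 78) (nat_lit 0) (nat_lit 0) (XT.lf (nat_lit 0) (nat_lit 157580094018) (nat_lit 152) (nat_lit 272915193455) (nat_lit 0) (nat_lit 157098990746) (nat_lit 1) (nat_lit 5) (nat_lit 3) (nat_lit 4) (nat_lit 1) (nat_lit 4) (nat_lit 549) (nat_lit 345) (nat_lit 306)) (XT.lf (nat_lit 0) (nat_lit 171330625603) (nat_lit 152) (nat_lit 274502866491) (nat_lit 0) (nat_lit 170845506437) (nat_lit 1) (nat_lit 5) (nat_lit 3) (nat_lit 4) (nat_lit 1) (nat_lit 4) (nat_lit 550) (nat_lit 345) (nat_lit 305))) (XT.nd (nat_lit 78) (nat_lit 0) (nat_lit 0) (XT.lf (nat_lit 0) (nat_lit 185705324753) (nat_lit 152) (nat_lit 276299417172) (nat_lit 0) (nat_lit 185216380926) (nat_lit 1) (nat_lit 5) (nat_lit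 3) (nat_lit 4) (nat_lit 1) (nat_lit 4) (nat_lit 551) (nat_lit 345) (nat_lit 304)) (XT.lf (nat_lit 0) (nat_lit 200738416941) (nat_lit 152) (nat_lit 278309122999) (nat_lit 0) (nat_lit 200245830578) (nat_lit 1) (nat_lit 5) (nat_lit 3) (nat_lit 4) (nat_lit 1) (nat_lit 4) (nat_lit 552) (nat_lit 345) (nat_lit 303)))) (XT.nd (nat_lit 156) (nat_lit 0) (nat_lit 0) (XT.nd (nat_lit 78) (nat_lit 0) (nat_lit 0) (XT.lf (nat_lit 0) (nat_lit 216465695243) (nat_lit 152) (nat_lit 280536768987) (nat_lit 0) (nat_lit 215969639800) (nat_lit 1) (nat_lit 5) (nat_lit 3) (nat_lit 4) (nat_lit 1) (nat_lit 4) (nat_lit 553) (nat_lit 345) (nat_lit 302)) (XT.lf (nat_lit 0) (nat_lit 232924605561) (nat_lit 152) (nat_lit 282987659053) (nat_lit 0) (nat_lit 232425246232) (nat_lit 1) (nat_lit 5) (nat_lit 3) (nat_lit 4) (nat_lit 1) (nat_lit 4) (nat_lit 554) (nat_lit 345) (nat_lit 301))) (XT.nd (nat_lit 78) (nat_lit 0) (nat_lit 0) (XT.lf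 (nat_lit 0) (nat_lit 250154335777) (nat_lit 152) (nat_lit 285667628651) (nat_lit 0) (nat_lit 249651829889) (nat_lit 1) (nat_lit 5) (nat_lit 3) (nat_lit 4) (nat_lit 1) (nat_lit 4) (nat_lit 555) (nat_lit 345) (nat_lit 300)) (XT.lf (nat_lit 0) (nat_lit 268195909056) (nat_lit 152) (nat_lit 288583058661) (nat_lit 0) (nat_lit 267690406446) (nat_lit 1) (nat_lit 5) (nat_lit 3) (nat_lit 4) (nat_lit 1) (nat_lit 4) (nat_lit 556) (nat_lit 345) (nat_lit 299))))) (XT.nd (nat_lit 58890) (nat_lit 0) (nat_lit 380) (XT.nd (nat_lit 58734) (nat_lit 0) (nat_lit 380) (XT.nd (nat_lit 58656) (nat_lit 0) (nat_lit 456) (XT.lf (nat_lit 0) (nat_lit 287092281527) (nat_lit 152) (nat_lit 291740890583) (nat_lit 0) (nat_lit 286583924895) (nat_lit 1) (nat_lit 5) (nat_lit 3) (nat_lit 4) (nat_lit 1) (nat_lit 4) (nat_lit 557) (nat_lit 345) (nat_lit 298)) (XT.lf (nat_lit 0) (nat_lit 13503885343) (nat_lit 152) (nat_lit 16738166197)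 (nat_lit 0) (nat_lit 13503885343) (nat_lit 7) (nat_lit 5) (nat_lit 9) (nat_lit 4) (nat_lit 7) (nat_lit 4) (nat_lit 508) (nat_lit 346) (nat_lit 346))) (XT.nd (nat_lit 78) (nat_lit 76) (nat_lit 0) (XT.lf (nat_lit 0) (nat_lit 39986791347) (nat_lit 152) (nat_lit 11340976771) (nat_lit 0) (nat_lit 39955621629) (nat_lit 7) (nat_lit 5) (nat_lit 9) (nat_lit 4) (nat_lit 7) (nat_lit 4) (nat_lit 509) (nat_lit 346) (nat_lit 345)) (XT.lf (nat_lit 0) (nat_lit 11520110927) (nat_lit 76) (nat_lit 41907296914) (nat_lit 76) (nat_lit 41846441751) (nat_lit 6) (nat_lit 4) (nat_lit 7) (nat_lit 5) (nat_lit 7) (nat_lit 4) (nat_lit 510) (nat_lit 346) (nat_lit 344)))) (XT.nd (nat_lit 156) (nat_lit 0) (nat_lit 0) (XT.nd (nat_lit 78) (nat_lit 0) (nat_lit 0) (XT.lf (nat_lit 0) (nat_lit 35180327678) (nat_lit 76) (nat_lit 32190545577) (nat_lit 76) (nat_lit 32101418560) (nat_lit 6) (nat_lit 4) (nat_lit 7) (nat_lit 5) (nat_lit 7)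 (nat_lit 4) (nat_lit 511) (nat_lit 346) (nat_lit 343)) (XT.lf (nat_lit 0) (nat_lit 59321023420) (nat_lit 76) (nat_lit 22346443913) (nat_lit 76) (nat_lit 22230391322) (nat_lit 6) (nat_lit 4) (nat_lit 7) (nat_lit 5) (nat_lit 7) (nat_lit 4) (nat_lit 512) (nat_lit 346) (nat_lit 342))) (XT.nd (nat_lit 78) (nat_lit 0) (nat_lit 0) (XT.lf (nat_lit 0) (nat_lit 83999676001) (nat_lit 76) (nat_lit 12351553586) (nat_lit 76) (nat_lit 12209857591) (nat_lit 6) (nat_lit 4) (nat_lit 7) (nat_lit 5) (nat_lit 7) (nat_lit 4) (nat_lit 513) (nat_lit 346) (nat_lit 341)) (XT.lf (nat_lit 0) (nat_lit 109275044117) (nat_lit 76) (nat_lit 2182077238) (nat_lit 76) (nat_lit 2015958954) (nat_lit 6) (nat_lit 4) (nat_lit 7) (nat_lit 5) (nat_lit 7) (nat_lit 4) (nat_lit 514) (nat_lit 346) (nat_lit 340)))))) (XT.nd (nat_lit 624) (nat_lit 0) (nat_lit 0) (XT.nd (nat_lit 312) (nat_lit 76) (nat_lit 0) (XT.nd (nat_lit 156) (nat_lit 0) (nat_lit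 0) (XT.nd (nat_lit 78) (nat_lit 0) (nat_lit 0) (XT.lf (nat_lit 0) (nat_lit 8506819032) (nat_lit 152) (nat_lit 101785750820) (nat_lit 0) (nat_lit 8326459406) (nat_lit 4) (nat_lit 5) (nat_lit 6) (nat_lit 4) (nat_lit 4) (nat_lit 4) (nat_lit 515) (nat_lit 346) (nat_lit 339)) (XT.lf (nat_lit 0) (nat_lit 19294021180) (nat_lit 152) (nat_lit 85643735869) (nat_lit 0) (nat_lit 19092564662) (nat_lit 4) (nat_lit 5) (nat_lit 6) (nat_lit 4) (nat_lit 4) (nat_lit 4) (nat_lit 516) (nat_lit 346) (nat_lit 338))) (XT.nd (nat_lit 78) (nat_lit 0) (nat_lit 0) (XT.lf (nat_lit 0) (nat_lit 30332965974) (nat_lit 152) (nat_lit 69282176715) (nat_lit 0) (nat_lit 30111417177) (nat_lit 4) (nat_lit 5) (nat_lit 6) (nat_lit 4) (nat_lit 4) (nat_lit 4) (nat_lit 517) (nat_lit 346) (nat_lit 337)) (XT.lf (nat_lit 0) (nat_lit 41649936616) (nat_lit 152) (nat_lit 52662117263) (nat_lit 0) (nat_lit 41409252316) (nat_lit 4) (nat_lit 5) (nat_lit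 6) (nat_lit 4) (nat_lit 4) (nat_lit 4) (nat_lit 518) (nat_lit 346) (nat_lit 336)))) (XT.nd (nat_lit 156) (nat_lit 76) (nat_lit 0) (XT.nd (nat_lit 78) (nat_lit 0) (nat_lit 0) (XT.lf (nat_lit 0) (nat_lit 53271878274) (nat_lit 152) (nat_lit 35743985945) (nat_lit 0) (nat_lit 53012969686) (nat_lit 4) (nat_lit 5) (nat_lit 6) (nat_lit 4) (nat_lit 4) (nat_lit 4) (nat_lit 519) (nat_lit 346) (nat_lit 335)) (XT.lf (nat_lit 0) (nat_lit 65226462237) (nat_lit 152) (nat_lit 18487501494) (nat_lit 0) (nat_lit 64950197184) (nat_lit 4) (nat_lit 5) (nat_lit 6) (nat_lit 4) (nat_lit 4) (nat_lit 4) (nat_lit 520) (nat_lit 346) (nat_lit 334))) (XT.nd (nat_lit 78) (nat_lit 76) (nat_lit 0) (XT.lf (nat_lit 0) (nat_lit 77542151802) (nat_lit 152) (nat_lit 851577044) (nat_lit 0) (nat_lit 77249356782) (nat_lit 4) (nat_lit 5) (nat_lit 6) (nat_lit 4) (nat_lit 4) (nat_lit 4) (nat_lit 521) (nat_lit 346) (nat_lit 333)) (XT.lf (nat_lit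 0) (nat_lit 17774678416) (nat_lit 76) (nat_lit 72751104165) (nat_lit 76) (nat_lit 72442566320) (nat_lit 3) (nat_lit 4) (nat_lit 4) (nat_lit 5) (nat_lit 4) (nat_lit 4) (nat_lit 522) (nat_lit 346) (nat_lit 332))))) (XT.nd (nat_lit 312) (nat_lit 0) (nat_lit 0) (XT.nd (nat_lit 156) (nat_lit 0) (nat_lit 0) (XT.nd (nat_lit 78) (nat_lit 0) (nat_lit 0) (XT.lf (nat_lit 0) (nat_lit 36908870813) (nat_lit 76) (nat_lit 67042449705) (nat_lit 76) (nat_lit 66718918693) (nat_lit 3) (nat_lit 4) (nat_lit 4) (nat_lit 5) (nat_lit 4) (nat_lit 4) (nat_lit 523) (nat_lit 346) (nat_lit 331)) (XT.lf (nat_lit 0) (nat_lit 56568400763) (nat_lit 76) (nat_lit 61268595302) (nat_lit 76) (nat_lit 60930785082) (nat_lit 3) (nat_lit 4) (nat_lit 4) (nat_lit 5) (nat_lit 4) (nat_lit 4) (nat_lit 524) (nat_lit 346) (nat_lit 330))) (XT.nd (nat_lit 78) (nat_lit 0) (nat_lit 0) (XT.lf (nat_lit 0) (nat_lit 76800076672) (nat_lit 76) (nat_lit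 55415793682) (nat_lit 76) (nat_lit 55064384218) (nat_lit 3) (nat_lit 4) (nat_lit 4) (nat_lit 5) (nat_lit 4) (nat_lit 4) (nat_lit 525) (nat_lit 346) (nat_lit 329)) (XT.lf (nat_lit 0) (nat_lit 97652069196) (nat_lit 76) (nat_lit 49470109604) (nat_lit 76) (nat_lit 49105748478) (nat_lit 3) (nat_lit 4) (nat_lit 4) (nat_lit 5) (nat_lit 4) (nat_lit 4) (nat_lit 526) (nat_lit 346) (nat_lit 328)))) (XT.nd (nat_lit 156) (nat_lit 0) (nat_lit 0) (XT.nd (nat_lit 78) (nat_lit 0) (nat_lit 0) (XT.lf (nat_lit 0) (nat_lit 119174025936) (nat_lit 76) (nat_lit 43417386678) (nat_lit 76) (nat_lit 43040690636) (nat_lit 3) (nat_lit 4) (nat_lit 4) (nat_lit 5) (nat_lit 4) (nat_lit 4) (nat_lit 527) (nat_lit 346) (nat_lit 327)) (XT.lf (nat_lit 0) (nat_lit 141417189647) (nat_lit 76) (nat_lit 37243213658) (nat_lit 76) (nat_lit 36854770077) (nat_lit 3) (nat_lit 4) (nat_lit 4) (nat_lit 5) (nat_lit 4) (nat_lit 4) (nat_lit 528) (nat_lit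 346) (nat_lit 326))) (XT.nd (nat_lit 78) (nat_lit 0) (nat_lit 0) (XT.lf (nat_lit 0) (nat_lit 164434520243) (nat_lit 76) (nat_lit 30932890132) (nat_lit 76) (nat_lit 30533258419) (nat_lit 3) (nat_lit 4) (nat_lit 4) (nat_lit 5) (nat_lit 4) (nat_lit 4) (nat_lit 529) (nat_lit 346) (nat_lit 325)) (XT.nd (nat_lit 78) (nat_lit 0) (nat_lit 0) (XT.lf (nat_lit 0) (nat_lit 188280820890) (nat_lit 76) (nat_lit 24471391520) (nat_lit 76) (nat_lit 24061104444) (nat_lit 3) (nat_lit 4) (nat_lit 4) (nat_lit 5) (nat_lit 4) (nat_lit 4) (nat_lit 530) (nat_lit 346) (nat_lit 324)) (XT.lf (nat_lit 0) (nat_lit 213012868496) (nat_lit 76) (nat_lit 17843333303) (nat_lit 76) (nat_lit 17422898260) (nat_lit 3) (nat_lit 4) (nat_lit 4) (nat_lit 5) (nat_lit 4) (nat_lit 4) (nat_lit 531) (nat_lit 346) (nat_lit 323))))))))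
noncomputable def xc19 : XT := (XT.nd (nat_lit 1248) (nat_lit 0) (nat_lit 0) (XT.nd (nat_lit 624) (nat_lit 0) (nat_lit 0) (XT.nd (nat_lit 312) (nat_lit 0) (nat_lit 0) (XT.nd (nat_lit 156) (nat_lit 152) (nat_lit 0) (XT.nd (nat_lit 78) (nat_lit 0) (nat_lit 0) (XT.lf (nat_lit 0) (nat_lit 238689548889) (nat_lit 76) (nat_lit 11032934388) (nat_lit 76) (nat_lit 10602834617) (nat_lit 3) (nat_lit 4) (nat_lit 4) (nat_lit 5) (nat_lit 4) (nat_lit 4) (nat_lit 532) (nat_lit 346) (nat_lit 322)) (XT.lf (nat_lit 0) (nat_lit 265371997021) (nat_lit 76) (nat_lit 4023979541) (nat_lit 76) (nat_lit 3584675265) (nat_lit 3) (nat_lit 4) (nat_lit 4) (nat_lit 5) (nat_lit 4) (nat_lit 4) (nat_lit 533) (nat_lit 346) (nat_lit 321))) (XT.nd (nat_lit 78) (nat_lit 0) (nat_lit 0) (XT.lf (nat_lit 0) (nat_lit 3693756670) (nat_lit 152) (nat_lit 279303494298) (nat_lit 0) (nat_lit 3267022889) (nat_lit 1) (nat_lit 5) (nat_lit 3) (nat_lit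 4) (nat_lit 1) (nat_lit 4) (nat_lit 534) (nat_lit 346) (nat_lit 320)) (XT.lf (nat_lit 0) (nat_lit 11280858291) (nat_lit 152) (nat_lit 278078846370) (nat_lit 0) (nat_lit 10846173314) (nat_lit 1) (nat_lit 5) (nat_lit 3) (nat_lit 4) (nat_lit 1) (nat_lit 4) (nat_lit 535) (nat_lit 346) (nat_lit 319)))) (XT.nd (nat_lit 156) (nat_lit 0) (nat_lit 0) (XT.nd (nat_lit 78) (nat_lit 0) (nat_lit 0) (XT.lf (nat_lit 0) (nat_lit 19121868478) (nat_lit 152) (nat_lit 277049355294) (nat_lit 0) (nat_lit 18679610932) (nat_lit 1) (nat_lit 5) (nat_lit 3) (nat_lit 4) (nat_lit 1) (nat_lit 4) (nat_lit 536) (nat_lit 346) (nat_lit 318)) (XT.lf (nat_lit 0) (nat_lit 27235456300) (nat_lit 152) (nat_lit 276212569901) (nat_lit 0) (nat_lit 26785986785) (nat_lit 1) (nat_lit 5) (nat_lit 3) (nat_lit 4) (nat_lit 1) (nat_lit 4) (nat_lit 537) (nat_lit 346) (nat_lit 317))) (XT.nd (nat_lit 78) (nat_lit 0) (nat_lit 0) (XT.lf (nat_lit 0) (nat_lit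 35640939826) (nat_lit 152) (nat_lit 275566497844) (nat_lit 0) (nat_lit 35184601767) (nat_lit 1) (nat_lit 5) (nat_lit 3) (nat_lit 4) (nat_lit 1) (nat_lit 4) (nat_lit 538) (nat_lit 346) (nat_lit 316)) (XT.lf (nat_lit 0) (nat_lit 44358332110) (nat_lit 152) (nat_lit 275109600858) (nat_lit 0) (nat_lit 43895452582) (nat_lit 1) (nat_lit 5) (nat_lit 3) (nat_lit 4) (nat_lit 1) (nat_lit 4) (nat_lit 539) (nat_lit 346) (nat_lit 315))))) (XT.nd (nat_lit 312) (nat_lit 0) (nat_lit 0) (XT.nd (nat_lit 156) (nat_lit 0) (nat_lit 0) (XT.nd (nat_lit 78) (nat_lit 0) (nat_lit 0) (XT.lf (nat_lit 0) (nat_lit 53408388849) (nat_lit 152) (nat_lit 274840791091) (nat_lit 0) (nat_lit 52939279350) (nat_lit 1) (nat_lit 5) (nat_lit 3) (nat_lit 4) (nat_lit 1) (nat_lit 4) (nat_lit 540) (nat_lit 346) (nat_lit 314)) (XT.lf (nat_lit 0) (nat_lit 62812657796) (nat_lit 152) (nat_lit 274759428521) (nat_lit 0) (nat_lit 62337614992) (nat_lit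 1) (nat_lit 5) (nat_lit 3) (nat_lit 4) (nat_lit 1) (nat_lit 4) (nat_lit 541) (nat_lit 346) (nat_lit 313))) (XT.nd (nat_lit 78) (nat_lit 0) (nat_lit 0) (XT.lf (nat_lit 0) (nat_lit 72593530069) (nat_lit 152) (nat_lit 274865319427) (nat_lit 0) (nat_lit 72112836498) (nat_lit 1) (nat_lit 5) (nat_lit 3) (nat_lit 4) (nat_lit 1) (nat_lit 4) (nat_lit 542) (nat_lit 346) (nat_lit 312)) (XT.lf (nat_lit 0) (nat_lit 82774293458) (nat_lit 152) (nat_lit 275158715931) (nat_lit 0) (nat_lit 82288218205) (nat_lit 1) (nat_lit 5) (nat_lit 3) (nat_lit 4) (nat_lit 1) (nat_lit 4) (nat_lit 543) (nat_lit 346) (nat_lit 311)))) (XT.nd (nat_lit 156) (nat_lit 0) (nat_lit 0) (XT.nd (nat_lit 78) (nat_lit 0) (nat_lit 0) (XT.lf (nat_lit 0) (nat_lit 93379187877) (nat_lit 152) (nat_lit 275640316595) (nat_lit 0) (nat_lit 92887987211) (nat_lit 1) (nat_lit 5) (nat_lit 3) (nat_lit 4) (nat_lit 1) (nat_lit 4) (nat_lit 544) (nat_lit 346)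 (nat_lit 310)) (XT.lf (nat_lit 0) (nat_lit 104433463073) (nat_lit 152) (nat_lit 276311268088) (nat_lit 0) (nat_lit 103937381062) (nat_lit 1) (nat_lit 5) (nat_lit 3) (nat_lit 4) (nat_lit 1) (nat_lit 4) (nat_lit 545) (nat_lit 346) (nat_lit 309))) (XT.nd (nat_lit 78) (nat_lit 0) (nat_lit 0) (XT.lf (nat_lit 0) (nat_lit 115963438750) (nat_lit 152) (nat_lit 277173167913) (nat_lit 0) (nat_lit 115462707839) (nat_lit 1) (nat_lit 5) (nat_lit 3) (nat_lit 4) (nat_lit 1) (nat_lit 4) (nat_lit 546) (nat_lit 346) (nat_lit 308)) (XT.lf (nat_lit 0) (nat_lit 127996567231) (nat_lit 152) (nat_lit 278228068213) (nat_lit 0) (nat_lit 127491408796) (nat_lit 1) (nat_lit 5) (nat_lit 3) (nat_lit 4) (nat_lit 1) (nat_lit 4) (nat_lit 547) (nat_lit 346) (nat_lit 307)))))) (XT.nd (nat_lit 624) (nat_lit 0) (nat_lit 0) (XT.nd (nat_lit 312) (nat_lit 0) (nat_lit 0) (XT.nd (nat_lit 156) (nat_lit 0) (nat_lit 0) (XT.nd (nat_lit 78) (nat_lit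 0) (nat_lit 0) (XT.lf (nat_lit 0) (nat_lit 140561498822) (nat_lit 152) (nat_lit 279478480655) (nat_lit 0) (nat_lit 140052123697) (nat_lit 1) (nat_lit 5) (nat_lit 3) (nat_lit 4) (nat_lit 1) (nat_lit 4) (nat_lit 548) (nat_lit 346) (nat_lit 306)) (XT.lf (nat_lit 0) (nat_lit 153688150026) (nat_lit 152) (nat_lit 280927382412) (nat_lit 0) (nat_lit 153174759007) (nat_lit 1) (nat_lit 5) (nat_lit 3) (nat_lit 4) (nat_lit 1) (nat_lit 4) (nat_lit 549) (nat_lit 346) (nat_lit 305))) (XT.nd (nat_lit 78) (nat_lit 0) (nat_lit 0) (XT.lf (nat_lit 0) (nat_lit 167407774775) (nat_lit 152) (nat_lit 282578223249) (nat_lit 0) (nat_lit 166890559094) (nat_lit 1) (nat_lit 5) (nat_lit 3) (nat_lit 4) (nat_lit 1) (nat_lit 4) (nat_lit 550) (nat_lit 346) (nat_lit 304)) (XT.lf (nat_lit 0) (nat_lit 181753038842) (nat_lit 152) (nat_lit 284434933741) (nat_lit 0) (nat_lit 181232180626) (nat_lit 1) (nat_lit 5) (nat_lit 3) (nat_lit 4)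 (nat_lit 1) (nat_lit 4) (nat_lit 551) (nat_lit 346) (nat_lit 303)))) (XT.nd (nat_lit 156) (nat_lit 0) (nat_lit 0) (XT.nd (nat_lit 78) (nat_lit 0) (nat_lit 0) (XT.lf (nat_lit 0) (nat_lit 196758097618) (nat_lit 152) (nat_lit 286501934626) (nat_lit 0) (nat_lit 196233770321) (nat_lit 1) (nat_lit 5) (nat_lit 3) (nat_lit 4) (nat_lit 1) (nat_lit 4) (nat_lit 552) (nat_lit 346) (nat_lit 302)) (XT.lf (nat_lit 0) (nat_lit 212458677432) (nat_lit 152) (nat_lit 288784147335) (nat_lit 0) (nat_lit 211931046250) (nat_lit 1) (nat_lit 5) (nat_lit 3) (nat_lit 4) (nat_lit 1) (nat_lit 4) (nat_lit 553) (nat_lit 346) (nat_lit 301))) (XT.nd (nat_lit 78) (nat_lit 0) (nat_lit 0) (XT.lf (nat_lit 0) (nat_lit 228892160619) (nat_lit 152) (nat_lit 291287005708) (nat_lit 0) (nat_lit 228361382878) (nat_lit 1) (nat_lit 5) (nat_lit 3) (nat_lit 4) (nat_lit 1) (nat_lit 4) (nat_lit 554) (nat_lit 346) (nat_lit 300)) (XT.lf (nat_lit 0)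 (nat_lit 246097674519) (nat_lit 152) (nat_lit 294016468932) (nat_lit 0) (nat_lit 245563900056) (nat_lit 1) (nat_lit 5) (nat_lit 3) (nat_lit 4) (nat_lit 1) (nat_lit 4) (nat_lit 555) (nat_lit 346) (nat_lit 299))))) (XT.nd (nat_lit 58734) (nat_lit 0) (nat_lit 380) (XT.nd (nat_lit 58578) (nat_lit 0) (nat_lit 456) (XT.nd (nat_lit 78) (nat_lit 0) (nat_lit 0) (XT.lf (nat_lit 0) (nat_lit 264116184642) (nat_lit 152) (nat_lit 296979035728) (nat_lit 0) (nat_lit 263579556157) (nat_lit 1) (nat_lit 5) (nat_lit 3) (nat_lit 4) (nat_lit 1) (nat_lit 4) (nat_lit 556) (nat_lit 346) (nat_lit 298)) (XT.lf (nat_lit 0) (nat_lit 282990592201) (nat_lit 152) (nat_lit 300181759827) (nat_lit 0) (nat_lit 282451245600) (nat_lit 1) (nat_lit 5) (nat_lit 3) (nat_lit 4) (nat_lit 1) (nat_lit 4) (nat_lit 557) (nat_lit 346) (nat_lit 297))) (XT.nd (nat_lit 78) (nat_lit 0) (nat_lit 0) (XT.lf (nat_lit 0) (nat_lit 1001069849) (nat_lit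 152) (nat_lit 38241431200) (nat_lit 0) (nat_lit 1001069849) (nat_lit 7) (nat_lit 5) (nat_lit 9) (nat_lit 4) (nat_lit 7) (nat_lit 4) (nat_lit 506) (nat_lit 347) (nat_lit 347)) (XT.lf (nat_lit 0) (nat_lit 14312310416) (nat_lit 152) (nat_lit 55307374665) (nat_lit 0) (nat_lit 14279582212) (nat_lit 7) (nat_lit 5) (nat_lit 9) (nat_lit 4) (nat_lit 7) (nat_lit 4) (nat_lit 507) (nat_lit 347) (nat_lit 346)))) (XT.nd (nat_lit 156) (nat_lit 76) (nat_lit 0) (XT.nd (nat_lit 78) (nat_lit 0) (nat_lit 0) (XT.lf (nat_lit 0) (nat_lit 26852412433) (nat_lit 152) (nat_lit 33860351302) (nat_lit 0) (nat_lit 26788514511) (nat_lit 7) (nat_lit 5) (nat_lit 9) (nat_lit 4) (nat_lit 7) (nat_lit 4) (nat_lit 508) (nat_lit 347) (nat_lit 345)) (XT.lf (nat_lit 0) (nat_lit 39652303135) (nat_lit 152) (nat_lit 12090727971) (nat_lit 0) (nat_lit 39558719768) (nat_lit 7) (nat_lit 5) (nat_lit 9) (nat_lit 4) (nat_lit 7) (nat_lit 4) (nat_lit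 509) (nat_lit 347) (nat_lit 344))) (XT.nd (nat_lit 78) (nat_lit 0) (nat_lit 0) (XT.lf (nat_lit 0) (nat_lit 10385736182) (nat_lit 76) (nat_lit 42518872717) (nat_lit 76) (nat_lit 42397017497) (nat_lit 6) (nat_lit 4) (nat_lit 7) (nat_lit 5) (nat_lit 7) (nat_lit 4) (nat_lit 510) (nat_lit 347) (nat_lit 343)) (XT.nd (nat_lit 78) (nat_lit 0) (nat_lit 0) (XT.lf (nat_lit 0) (nat_lit 33703254472) (nat_lit 76) (nat_lit 32976993204) (nat_lit 76) (nat_lit 32828212410) (nat_lit 6) (nat_lit 4) (nat_lit 7) (nat_lit 5) (nat_lit 7) (nat_lit 4) (nat_lit 511) (nat_lit 347) (nat_lit 342)) (XT.lf (nat_lit 0) (nat_lit 57517570727) (nat_lit 76) (nat_lit 23299436136) (nat_lit 76) (nat_lit 23125011937) (nat_lit 6) (nat_lit 4) (nat_lit 7) (nat_lit 5) (nat_lit 7) (nat_lit 4) (nat_lit 512) (nat_lit 347) (nat_lit 341))))))))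
noncomputable def xc20 : XT := (XT.nd (nat_lit 1248) (nat_lit 152) (nat_lit 0) (XT.nd (nat_lit 624) (nat_lit 76) (nat_lit 0) (XT.nd (nat_lit 312) (nat_lit 0) (nat_lit 0) (XT.nd (nat_lit 156) (nat_lit 152) (nat_lit 0) (XT.nd (nat_lit 78) (nat_lit 0) (nat_lit 0) (XT.lf (nat_lit 0) (nat_lit 81885385701) (nat_lit 76) (nat_lit 13463159709) (nat_lit 76) (nat_lit 13264313221) (nat_lit 6) (nat_lit 4) (nat_lit 7) (nat_lit 5) (nat_lit 7) (nat_lit 4) (nat_lit 513) (nat_lit 347) (nat_lit 340)) (XT.lf (nat_lit 0) (nat_lit 106864718001) (nat_lit 76) (nat_lit 3444744218) (nat_lit 76) (nat_lit 3222638407) (nat_lit 6) (nat_lit 4) (nat_lit 7) (nat_lit 5) (nat_lit 7) (nat_lit 4) (nat_lit 514) (nat_lit 347) (nat_lit 339))) (XT.nd (nat_lit 78) (nat_lit 0) (nat_lit 0) (XT.lf (nat_lit 0) (nat_lit 7131249737) (nat_lit 152) (nat_lit 104659493980) (nat_lit 0) (nat_lit 6898623501) (nat_lit 4) (nat_lit 5) (nat_lit 6) (nat_lit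 4) (nat_lit 4) (nat_lit 4) (nat_lit 515) (nat_lit 347) (nat_lit 338)) (XT.lf (nat_lit 0) (nat_lit 17778150685) (nat_lit 152) (nat_lit 88804091977) (nat_lit 0) (nat_lit 17525432170) (nat_lit 4) (nat_lit 5) (nat_lit 6) (nat_lit 4) (nat_lit 4) (nat_lit 4) (nat_lit 516) (nat_lit 347) (nat_lit 337)))) (XT.nd (nat_lit 156) (nat_lit 0) (nat_lit 0) (XT.nd (nat_lit 78) (nat_lit 0) (nat_lit 0) (XT.lf (nat_lit 0) (nat_lit 28683475287) (nat_lit 152) (nat_lit 72715497535) (nat_lit 0) (nat_lit 28411621270) (nat_lit 4) (nat_lit 5) (nat_lit 6) (nat_lit 4) (nat_lit 4) (nat_lit 4) (nat_lit 517) (nat_lit 347) (nat_lit 336)) (XT.lf (nat_lit 0) (nat_lit 39873188604) (nat_lit 152) (nat_lit 56355404477) (nat_lit 0) (nat_lit 39583110299) (nat_lit 4) (nat_lit 5) (nat_lit 6) (nat_lit 4) (nat_lit 4) (nat_lit 4) (nat_lit 518) (nat_lit 347) (nat_lit 335))) (XT.nd (nat_lit 78) (nat_lit 0) (nat_lit 0) (XT.lf (nat_lit 0) (nat_lit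 51373932810) (nat_lit 152) (nat_lit 39684860199) (nat_lit 0) (nat_lit 51066498039) (nat_lit 4) (nat_lit 5) (nat_lit 6) (nat_lit 4) (nat_lit 4) (nat_lit 4) (nat_lit 519) (nat_lit 347) (nat_lit 334)) (XT.lf (nat_lit 0) (nat_lit 63213090629) (nat_lit 152) (nat_lit 22664172930) (nat_lit 0) (nat_lit 62889125891) (nat_lit 4) (nat_lit 5) (nat_lit 6) (nat_lit 4) (nat_lit 4) (nat_lit 4) (nat_lit 520) (nat_lit 347) (nat_lit 333))))) (XT.nd (nat_lit 312) (nat_lit 0) (nat_lit 0) (XT.nd (nat_lit 156) (nat_lit 0) (nat_lit 0) (XT.nd (nat_lit 78) (nat_lit 76) (nat_lit 0) (XT.lf (nat_lit 0) (nat_lit 75418850532) (nat_lit 152) (nat_lit 5252817225) (nat_lit 0) (nat_lit 75079142969) (nat_lit 4) (nat_lit 5) (nat_lit 6) (nat_lit 4) (nat_lit 4) (nat_lit 4) (nat_lit 521) (nat_lit 347) (nat_lit 332)) (XT.lf (nat_lit 0) (nat_lit 13006966691) (nat_lit 76) (nat_lit 75216382363) (nat_lit 76) (nat_lit 74861681632) (nat_lit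 3) (nat_lit 4) (nat_lit 4) (nat_lit 5) (nat_lit 4) (nat_lit 4) (nat_lit 522) (nat_lit 347) (nat_lit 331))) (XT.nd (nat_lit 78) (nat_lit 0) (nat_lit 0) (XT.lf (nat_lit 0) (nat_lit 31930733689) (nat_lit 76) (nat_lit 69615158527) (nat_lit 76) (nat_lit 69246178590) (nat_lit 3) (nat_lit 4) (nat_lit 4) (nat_lit 5) (nat_lit 4) (nat_lit 4) (nat_lit 523) (nat_lit 347) (nat_lit 330)) (XT.lf (nat_lit 0) (nat_lit 51389858498) (nat_lit 76) (nat_lit 63943619003) (nat_lit 76) (nat_lit 63561039821) (nat_lit 3) (nat_lit 4) (nat_lit 4) (nat_lit 5) (nat_lit 4) (nat_lit 4) (nat_lit 524) (nat_lit 347) (nat_lit 329)))) (XT.nd (nat_lit 156) (nat_lit 0) (nat_lit 0) (XT.nd (nat_lit 78) (nat_lit 0) (nat_lit 0) (XT.lf (nat_lit 0) (nat_lit 71430672368) (nat_lit 76) (nat_lit 58188260127) (nat_lit 76) (nat_lit 57792729283) (nat_lit 3) (nat_lit 4) (nat_lit 4) (nat_lit 5) (nat_lit 4) (nat_lit 4) (nat_lit 525) (nat_lit 347) (nat_lit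 328)) (XT.lf (nat_lit 0) (nat_lit 92100891521) (nat_lit 76) (nat_lit 52335378661) (nat_lit 76) (nat_lit 51927512902) (nat_lit 3) (nat_lit 4) (nat_lit 4) (nat_lit 5) (nat_lit 4) (nat_lit 4) (nat_lit 526) (nat_lit 347) (nat_lit 327))) (XT.nd (nat_lit 78) (nat_lit 0) (nat_lit 0) (XT.lf (nat_lit 0) (nat_lit 113449730766) (nat_lit 76) (nat_lit 46371039175) (nat_lit 76) (nat_lit 45951425877) (nat_lit 3) (nat_lit 4) (nat_lit 4) (nat_lit 5) (nat_lit 4) (nat_lit 4) (nat_lit 527) (nat_lit 347) (nat_lit 326)) (XT.lf (nat_lit 0) (nat_lit 135528020671) (nat_lit 76) (nat_lit 40281040860) (nat_lit 76) (nat_lit 39850239429) (nat_lit 3) (nat_lit 4) (nat_lit 4) (nat_lit 5) (nat_lit 4) (nat_lit 4) (nat_lit 528) (nat_lit 347) (nat_lit 325)))))) (XT.nd (nat_lit 624) (nat_lit 0) (nat_lit 0) (XT.nd (nat_lit 312) (nat_lit 152) (nat_lit 0) (XT.nd (nat_lit 156) (nat_lit 0) (nat_lit 0) (XT.nd (nat_lit 78) (nat_lit 0) (nat_lit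 0) (XT.lf (nat_lit 0) (nat_lit 158388328595) (nat_lit 76) (nat_lit 34050883720) (nat_lit 76) (nat_lit 33609426925) (nat_lit 3) (nat_lit 4) (nat_lit 4) (nat_lit 5) (nat_lit 4) (nat_lit 4) (nat_lit 529) (nat_lit 347) (nat_lit 324)) (XT.lf (nat_lit 0) (nat_lit 182085083840) (nat_lit 76) (nat_lit 27665734047) (nat_lit 76) (nat_lit 27214129287) (nat_lit 3) (nat_lit 4) (nat_lit 4) (nat_lit 5) (nat_lit 4) (nat_lit 4) (nat_lit 530) (nat_lit 347) (nat_lit 323))) (XT.nd (nat_lit 78) (nat_lit 0) (nat_lit 0) (XT.lf (nat_lit 0) (nat_lit 206674707254) (nat_lit 76) (nat_lit 21110389105) (nat_lit 76) (nat_lit 20649119615) (nat_lit 3) (nat_lit 4) (nat_lit 4) (nat_lit 5) (nat_lit 4) (nat_lit 4) (nat_lit 531) (nat_lit 347) (nat_lit 322)) (XT.lf (nat_lit 0) (nat_lit 232215745559) (nat_lit 76) (nat_lit 14369240928) (nat_lit 76) (nat_lit 13898766935) (nat_lit 3) (nat_lit 4) (nat_lit 4) (nat_lit 5) (nat_lit 4) (nat_lit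 4) (nat_lit 532) (nat_lit 347) (nat_lit 321)))) (XT.nd (nat_lit 156) (nat_lit 76) (nat_lit 0) (XT.nd (nat_lit 78) (nat_lit 76) (nat_lit 0) (XT.lf (nat_lit 0) (nat_lit 258769010750) (nat_lit 76) (nat_lit 7426239165) (nat_lit 76) (nat_lit 6946998977) (nat_lit 3) (nat_lit 4) (nat_lit 4) (nat_lit 5) (nat_lit 4) (nat_lit 4) (nat_lit 533) (nat_lit 347) (nat_lit 320)) (XT.lf (nat_lit 0) (nat_lit 215607139) (nat_lit 152) (nat_lit 45594308) (nat_lit 76) (nat_lit 286178466338) (nat_lit 2) (nat_lit 5) (nat_lit 4) (nat_lit 5) (nat_lit 3) (nat_lit 4) (nat_lit 534) (nat_lit 347) (nat_lit 319))) (XT.nd (nat_lit 78) (nat_lit 0) (nat_lit 0) (XT.lf (nat_lit 0) (nat_lit 7736689804) (nat_lit 152) (nat_lit 285383136274) (nat_lit 0) (nat_lit 7264746812) (nat_lit 1) (nat_lit 5) (nat_lit 3) (nat_lit 4) (nat_lit 1) (nat_lit 4) (nat_lit 535) (nat_lit 347) (nat_lit 318)) (XT.lf (nat_lit 0) (nat_lit 15519420540) (nat_lit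 152) (nat_lit 284472757508) (nat_lit 0) (nat_lit 15040265578) (nat_lit 1) (nat_lit 5) (nat_lit 3) (nat_lit 4) (nat_lit 1) (nat_lit 4) (nat_lit 536) (nat_lit 347) (nat_lit 317))))) (XT.nd (nat_lit 312) (nat_lit 0) (nat_lit 0) (XT.nd (nat_lit 156) (nat_lit 0) (nat_lit 0) (XT.nd (nat_lit 78) (nat_lit 0) (nat_lit 0) (XT.lf (nat_lit 0) (nat_lit 23577504124) (nat_lit 152) (nat_lit 283749412411) (nat_lit 0) (nat_lit 23091480620) (nat_lit 1) (nat_lit 5) (nat_lit 3) (nat_lit 4) (nat_lit 1) (nat_lit 4) (nat_lit 537) (nat_lit 347) (nat_lit 316)) (XT.lf (nat_lit 0) (nat_lit 31930126470) (nat_lit 152) (nat_lit 283211378732) (nat_lit 0) (nat_lit 31437561497) (nat_lit 1) (nat_lit 5) (nat_lit 3) (nat_lit 4) (nat_lit 1) (nat_lit 4) (nat_lit 538) (nat_lit 347) (nat_lit 315))) (XT.nd (nat_lit 78) (nat_lit 0) (nat_lit 0) (XT.lf (nat_lit 0) (nat_lit 40597174774) (nat_lit 152) (nat_lit 282857375437) (nat_lit 0) (nat_lit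 40098379830) (nat_lit 1) (nat_lit 5) (nat_lit 3) (nat_lit 4) (nat_lit 1) (nat_lit 4) (nat_lit 539) (nat_lit 347) (nat_lit 314)) (XT.lf (nat_lit 0) (nat_lit 49599284865) (nat_lit 152) (nat_lit 282686559663) (nat_lit 0) (nat_lit 49094556616) (nat_lit 1) (nat_lit 5) (nat_lit 3) (nat_lit 4) (nat_lit 1) (nat_lit 4) (nat_lit 540) (nat_lit 347) (nat_lit 313)))) (XT.nd (nat_lit 156) (nat_lit 0) (nat_lit 0) (XT.nd (nat_lit 78) (nat_lit 0) (nat_lit 0) (XT.lf (nat_lit 0) (nat_lit 58957890338) (nat_lit 152) (nat_lit 282698524705) (nat_lit 0) (nat_lit 58447511322) (nat_lit 1) (nat_lit 5) (nat_lit 3) (nat_lit 4) (nat_lit 1) (nat_lit 4) (nat_lit 541) (nat_lit 347) (nat_lit 312)) (XT.lf (nat_lit 0) (nat_lit 68695273588) (nat_lit 152) (nat_lit 282893299052) (nat_lit 0) (nat_lit 68179512889) (nat_lit 1) (nat_lit 5) (nat_lit 3) (nat_lit 4) (nat_lit 1) (nat_lit 4) (nat_lit 542) (nat_lit 347) (nat_lit 311))) (XT.nd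 (nat_lit 78) (nat_lit 0) (nat_lit 0) (XT.lf (nat_lit 0) (nat_lit 78834618860) (nat_lit 152) (nat_lit 283271346451) (nat_lit 0) (nat_lit 78313732749) (nat_lit 1) (nat_lit 5) (nat_lit 3) (nat_lit 4) (nat_lit 1) (nat_lit 4) (nat_lit 543) (nat_lit 347) (nat_lit 310)) (XT.nd (nat_lit 78) (nat_lit 0) (nat_lit 0) (XT.lf (nat_lit 0) (nat_lit 89400067453) (nat_lit 152) (nat_lit 283833567015) (nat_lit 0) (nat_lit 88874299996) (nat_lit 1) (nat_lit 5) (nat_lit 3) (nat_lit 4) (nat_lit 1) (nat_lit 4) (nat_lit 544) (nat_lit 347) (nat_lit 309)) (XT.lf (nat_lit 0) (nat_lit 100416775196) (nat_lit 152) (nat_lit 284581299365) (nat_lit 0) (nat_lit 99886358839) (nat_lit 1) (nat_lit 5) (nat_lit 3) (nat_lit 4) (nat_lit 1) (nat_lit 4) (nat_lit 545) (nat_lit 347) (nat_lit 308))))))))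
noncomputable def xc21 : XT := (XT.nd (nat_lit 59514) (nat_lit 0) (nat_lit 152) (XT.nd (nat_lit 624) (nat_lit 0) (nat_lit 0) (XT.nd (nat_lit 312) (nat_lit 0) (nat_lit 0) (XT.nd (nat_lit 156) (nat_lit 0) (nat_lit 0) (XT.nd (nat_lit 78) (nat_lit 0) (nat_lit 0) (XT.lf (nat_lit 0) (nat_lit 111910972346) (nat_lit 152) (nat_lit 285516323817) (nat_lit 0) (nat_lit 111376128466) (nat_lit 1) (nat_lit 5) (nat_lit 3) (nat_lit 4) (nat_lit 1) (nat_lit 4) (nat_lit 546) (nat_lit 347) (nat_lit 307)) (XT.lf (nat_lit 0) (nat_lit 123910026040) (nat_lit 152) (nat_lit 286640866618) (nat_lit 0) (nat_lit 123370965470) (nat_lit 1) (nat_lit 5) (nat_lit 3) (nat_lit 4) (nat_lit 1) (nat_lit 4) (nat_lit 547) (nat_lit 347) (nat_lit 306))) (XT.nd (nat_lit 78) (nat_lit 0) (nat_lit 0) (XT.lf (nat_lit 0) (nat_lit 136442505452) (nat_lit 152) (nat_lit 287957605251) (nat_lit 0) (nat_lit 135899428987) (nat_lit 1) (nat_lit 5) (nat_lit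 3) (nat_lit 4) (nat_lit 1) (nat_lit 4) (nat_lit 548) (nat_lit 347) (nat_lit 305)) (XT.lf (nat_lit 0) (nat_lit 149538249819) (nat_lit 152) (nat_lit 289469674809) (nat_lit 0) (nat_lit 148991348693) (nat_lit 1) (nat_lit 5) (nat_lit 3) (nat_lit 4) (nat_lit 1) (nat_lit 4) (nat_lit 549) (nat_lit 347) (nat_lit 304)))) (XT.nd (nat_lit 156) (nat_lit 0) (nat_lit 0) (XT.nd (nat_lit 78) (nat_lit 0) (nat_lit 0) (XT.lf (nat_lit 0) (nat_lit 163228439485) (nat_lit 152) (nat_lit 291180675458) (nat_lit 0) (nat_lit 162677895824) (nat_lit 1) (nat_lit 5) (nat_lit 3) (nat_lit 4) (nat_lit 1) (nat_lit 4) (nat_lit 550) (nat_lit 347) (nat_lit 303)) (XT.lf (nat_lit 0) (nat_lit 177545670140) (nat_lit 152) (nat_lit 293094681007) (nat_lit 0) (nat_lit 176991657399) (nat_lit 1) (nat_lit 5) (nat_lit 3) (nat_lit 4) (nat_lit 1) (nat_lit 4) (nat_lit 551) (nat_lit 347) (nat_lit 302))) (XT.nd (nat_lit 78) (nat_lit 0) (nat_lit 0) (XT.lf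 (nat_lit 0) (nat_lit 192524030428) (nat_lit 152) (nat_lit 295216248614) (nat_lit 0) (nat_lit 191966713800) (nat_lit 1) (nat_lit 5) (nat_lit 3) (nat_lit 4) (nat_lit 1) (nat_lit 4) (nat_lit 552) (nat_lit 347) (nat_lit 301)) (XT.lf (nat_lit 0) (nat_lit 208199183112) (nat_lit 152) (nat_lit 297550429630) (nat_lit 0) (nat_lit 207638719926) (nat_lit 1) (nat_lit 5) (nat_lit 3) (nat_lit 4) (nat_lit 1) (nat_lit 4) (nat_lit 553) (nat_lit 347) (nat_lit 300))))) (XT.nd (nat_lit 58578) (nat_lit 0) (nat_lit 456) (XT.nd (nat_lit 156) (nat_lit 0) (nat_lit 0) (XT.nd (nat_lit 78) (nat_lit 0) (nat_lit 0) (XT.lf (nat_lit 0) (nat_lit 224608449984) (nat_lit 152) (nat_lit 300102781628) (nat_lit 0) (nat_lit 224044990075) (nat_lit 1) (nat_lit 5) (nat_lit 3) (nat_lit 4) (nat_lit 1) (nat_lit 4) (nat_lit 554) (nat_lit 347) (nat_lit 299)) (XT.lf (nat_lit 0) (nat_lit 241790900727) (nat_lit 152) (nat_lit 302879381638) (nat_lit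 0) (nat_lit 241224586796) (nat_lit 1) (nat_lit 5) (nat_lit 3) (nat_lit 4) (nat_lit 1) (nat_lit 4) (nat_lit 555) (nat_lit 347) (nat_lit 298))) (XT.nd (nat_lit 78) (nat_lit 0) (nat_lit 0) (XT.lf (nat_lit 0) (nat_lit 259787445937) (nat_lit 152) (nat_lit 305886840611) (nat_lit 0) (nat_lit 259218413891) (nat_lit 1) (nat_lit 5) (nat_lit 3) (nat_lit 4) (nat_lit 1) (nat_lit 4) (nat_lit 556) (nat_lit 347) (nat_lit 297)) (XT.lf (nat_lit 0) (nat_lit 278640934532) (nat_lit 152) (nat_lit 309132319164) (nat_lit 0) (nat_lit 278069313805) (nat_lit 1) (nat_lit 5) (nat_lit 3) (nat_lit 4) (nat_lit 1) (nat_lit 4) (nat_lit 557) (nat_lit 347) (nat_lit 296)))) (XT.nd (nat_lit 156) (nat_lit 152) (nat_lit 0) (XT.nd (nat_lit 78) (nat_lit 0) (nat_lit 0) (XT.lf (nat_lit 0) (nat_lit 15608956430) (nat_lit 76) (nat_lit 10725885785) (nat_lit 76) (nat_lit 10725885785) (nat_lit 9) (nat_lit 4) (nat_lit 10) (nat_lit 5) (nat_lit 10)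 (nat_lit 4) (nat_lit 504) (nat_lit 348) (nat_lit 348)) (XT.lf (nat_lit 0) (nat_lit 57370040026) (nat_lit 76) (nat_lit 9945523163) (nat_lit 76) (nat_lit 9909440318) (nat_lit 9) (nat_lit 4) (nat_lit 10) (nat_lit 5) (nat_lit 10) (nat_lit 4) (nat_lit 505) (nat_lit 348) (nat_lit 347))) (XT.nd (nat_lit 78) (nat_lit 0) (nat_lit 0) (XT.lf (nat_lit 0) (nat_lit 1839013532) (nat_lit 152) (nat_lit 76886082254) (nat_lit 0) (nat_lit 1771920714) (nat_lit 7) (nat_lit 5) (nat_lit 9) (nat_lit 4) (nat_lit 7) (nat_lit 4) (nat_lit 506) (nat_lit 348) (nat_lit 346)) (XT.lf (nat_lit 0) (nat_lit 13961097793) (nat_lit 152) (nat_lit 56094613425) (nat_lit 0) (nat_lit 13862835257) (nat_lit 7) (nat_lit 5) (nat_lit 9) (nat_lit 4) (nat_lit 7) (nat_lit 4) (nat_lit 507) (nat_lit 348) (nat_lit 345)))))) (XT.nd (nat_lit 624) (nat_lit 76) (nat_lit 0) (XT.nd (nat_lit 312) (nat_lit 152) (nat_lit 0) (XT.nd (nat_lit 156) (nat_lit 76)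 (nat_lit 0) (XT.nd (nat_lit 78) (nat_lit 0) (nat_lit 0) (XT.lf (nat_lit 0) (nat_lit 26322069851) (nat_lit 152) (nat_lit 35013322355) (nat_lit 0) (nat_lit 26194121870) (nat_lit 7) (nat_lit 5) (nat_lit 9) (nat_lit 4) (nat_lit 7) (nat_lit 4) (nat_lit 508) (nat_lit 348) (nat_lit 344)) (XT.lf (nat_lit 0) (nat_lit 38951360592) (nat_lit 152) (nat_lit 13592015492) (nat_lit 0) (nat_lit 38795140758) (nat_lit 7) (nat_lit 5) (nat_lit 9) (nat_lit 4) (nat_lit 7) (nat_lit 4) (nat_lit 509) (nat_lit 348) (nat_lit 343))) (XT.nd (nat_lit 78) (nat_lit 0) (nat_lit 0) (XT.lf (nat_lit 0) (nat_lit 8492110854) (nat_lit 76) (nat_lit 43519514551) (nat_lit 76) (nat_lit 43336369143) (nat_lit 6) (nat_lit 4) (nat_lit 7) (nat_lit 5) (nat_lit 7) (nat_lit 4) (nat_lit 510) (nat_lit 348) (nat_lit 342)) (XT.lf (nat_lit 0) (nat_lit 31483249656) (nat_lit 76) (nat_lit 34144179633) (nat_lit 76) (nat_lit 33935390821) (nat_lit 6) (nat_lit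 4) (nat_lit 7) (nat_lit 5) (nat_lit 7) (nat_lit 4) (nat_lit 511) (nat_lit 348) (nat_lit 341)))) (XT.nd (nat_lit 156) (nat_lit 152) (nat_lit 0) (XT.nd (nat_lit 78) (nat_lit 0) (nat_lit 0) (XT.lf (nat_lit 0) (nat_lit 54986728305) (nat_lit 76) (nat_lit 24625236465) (nat_lit 76) (nat_lit 24392025363) (nat_lit 6) (nat_lit 4) (nat_lit 7) (nat_lit 5) (nat_lit 7) (nat_lit 4) (nat_lit 512) (nat_lit 348) (nat_lit 340)) (XT.lf (nat_lit 0) (nat_lit 79058507463) (nat_lit 76) (nat_lit 14940020895) (nat_lit 76) (nat_lit 14683550470) (nat_lit 6) (nat_lit 4) (nat_lit 7) (nat_lit 5) (nat_lit 7) (nat_lit 4) (nat_lit 513) (nat_lit 348) (nat_lit 339))) (XT.nd (nat_lit 78) (nat_lit 152) (nat_lit 0) (XT.lf (nat_lit 0) (nat_lit 103755900890) (nat_lit 76) (nat_lit 5065472887) (nat_lit 76) (nat_lit 4786850725) (nat_lit 6) (nat_lit 4) (nat_lit 7) (nat_lit 5) (nat_lit 7) (nat_lit 4) (nat_lit 514) (nat_lit 348) (nat_lit 338))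 (XT.lf (nat_lit 0) (nat_lit 5399284517) (nat_lit 152) (nat_lit 108264480842) (nat_lit 0) (nat_lit 5113837799) (nat_lit 4) (nat_lit 5) (nat_lit 6) (nat_lit 4) (nat_lit 4) (nat_lit 4) (nat_lit 515) (nat_lit 348) (nat_lit 337))))) (XT.nd (nat_lit 312) (nat_lit 76) (nat_lit 0) (XT.nd (nat_lit 156) (nat_lit 0) (nat_lit 0) (XT.nd (nat_lit 78) (nat_lit 0) (nat_lit 0) (XT.lf (nat_lit 0) (nat_lit 15912565273) (nat_lit 152) (nat_lit 92682043552) (nat_lit 0) (nat_lit 15607983052) (nat_lit 4) (nat_lit 5) (nat_lit 6) (nat_lit 4) (nat_lit 4) (nat_lit 4) (nat_lit 516) (nat_lit 348) (nat_lit 336)) (XT.lf (nat_lit 0) (nat_lit 26690632551) (nat_lit 152) (nat_lit 76853415503) (nat_lit 0) (nat_lit 26367826041) (nat_lit 4) (nat_lit 5) (nat_lit 6) (nat_lit 4) (nat_lit 4) (nat_lit 4) (nat_lit 517) (nat_lit 348) (nat_lit 335))) (XT.nd (nat_lit 78) (nat_lit 0) (nat_lit 0) (XT.lf (nat_lit 0) (nat_lit 37759148416) (nat_lit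 152) (nat_lit 60740909485) (nat_lit 0) (nat_lit 37418985441) (nat_lit 4) (nat_lit 5) (nat_lit 6) (nat_lit 4) (nat_lit 4) (nat_lit 4) (nat_lit 518) (nat_lit 348) (nat_lit 334)) (XT.lf (nat_lit 0) (nat_lit 49144466476) (nat_lit 152) (nat_lit 44306162389) (nat_lit 0) (nat_lit 48787773535) (nat_lit 4) (nat_lit 5) (nat_lit 6) (nat_lit 4) (nat_lit 4) (nat_lit 4) (nat_lit 519) (nat_lit 348) (nat_lit 333)))) (XT.nd (nat_lit 156) (nat_lit 76) (nat_lit 0) (XT.nd (nat_lit 78) (nat_lit 0) (nat_lit 0) (XT.lf (nat_lit 0) (nat_lit 60873694633) (nat_lit 152) (nat_lit 27510043865) (nat_lit 0) (nat_lit 60501258866) (nat_lit 4) (nat_lit 5) (nat_lit 6) (nat_lit 4) (nat_lit 4) (nat_lit 4) (nat_lit 520) (nat_lit 348) (nat_lit 332)) (XT.lf (nat_lit 0) (nat_lit 72974759620) (nat_lit 152) (nat_lit 10312563154) (nat_lit 0) (nat_lit 72587330686) (nat_lit 4) (nat_lit 5) (nat_lit 6) (nat_lit 4) (nat_lit 4) (nat_lit 4) (nat_lit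 521) (nat_lit 348) (nat_lit 331))) (XT.nd (nat_lit 78) (nat_lit 0) (nat_lit 0) (XT.lf (nat_lit 0) (nat_lit 7569497312) (nat_lit 76) (nat_lit 78025157250) (nat_lit 76) (nat_lit 77623449109) (nat_lit 3) (nat_lit 4) (nat_lit 4) (nat_lit 5) (nat_lit 4) (nat_lit 4) (nat_lit 522) (nat_lit 348) (nat_lit 330)) (XT.nd (nat_lit 78) (nat_lit 0) (nat_lit 0) (XT.lf (nat_lit 0) (nat_lit 26292859170) (nat_lit 76) (nat_lit 72526248294) (nat_lit 76) (nat_lit 72110940908) (nat_lit 3) (nat_lit 4) (nat_lit 4) (nat_lit 5) (nat_lit 4) (nat_lit 4) (nat_lit 523) (nat_lit 348) (nat_lit 329)) (XT.lf (nat_lit 0) (nat_lit 45561121940) (nat_lit 76) (nat_lit 66952151513) (nat_lit 76) (nat_lit 66523892466) (nat_lit 3) (nat_lit 4) (nat_lit 4) (nat_lit 5) (nat_lit 4) (nat_lit 4) (nat_lit 524) (nat_lit 348) (nat_lit 328))))))))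
noncomputable def xc22 : XT := (XT.nd (nat_lit 1248) (nat_lit 0) (nat_lit 0) (XT.nd (nat_lit 624) (nat_lit 152) (nat_lit 0) (XT.nd (nat_lit 312) (nat_lit 0) (nat_lit 0) (XT.nd (nat_lit 156) (nat_lit 0) (nat_lit 0) (XT.nd (nat_lit 78) (nat_lit 0) (nat_lit 0) (XT.lf (nat_lit 0) (nat_lit 65420162439) (nat_lit 76) (nat_lit 61289595249) (nat_lit 76) (nat_lit 60849001286) (nat_lit 3) (nat_lit 4) (nat_lit 4) (nat_lit 5) (nat_lit 4) (nat_lit 4) (nat_lit 525) (nat_lit 348) (nat_lit 327)) (XT.lf (nat_lit 0) (nat_lit 85917264096) (nat_lit 76) (nat_lit 55525097224) (nat_lit 76) (nat_lit 55072755722) (nat_lit 3) (nat_lit 4) (nat_lit 4) (nat_lit 5) (nat_lit 4) (nat_lit 4) (nat_lit 526) (nat_lit 348) (nat_lit 326))) (XT.nd (nat_lit 78) (nat_lit 0) (nat_lit 0) (XT.lf (nat_lit 0) (nat_lit 107101229536) (nat_lit 76) (nat_lit 49644932443) (nat_lit 76) (nat_lit 49181402808) (nat_lit 3) (nat_lit 4) (nat_lit 4) (nat_lit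 5) (nat_lit 4) (nat_lit 4) (nat_lit 527) (nat_lit 348) (nat_lit 325)) (XT.lf (nat_lit 0) (nat_lit 129022496769) (nat_lit 76) (nat_lit 43635100513) (nat_lit 76) (nat_lit 43160915515) (nat_lit 3) (nat_lit 4) (nat_lit 4) (nat_lit 5) (nat_lit 4) (nat_lit 4) (nat_lit 528) (nat_lit 348) (nat_lit 324)))) (XT.nd (nat_lit 156) (nat_lit 0) (nat_lit 0) (XT.nd (nat_lit 78) (nat_lit 0) (nat_lit 0) (XT.lf (nat_lit 0) (nat_lit 151733259291) (nat_lit 76) (nat_lit 37481292312) (nat_lit 76) (nat_lit 36996959348) (nat_lit 3) (nat_lit 4) (nat_lit 4) (nat_lit 5) (nat_lit 4) (nat_lit 4) (nat_lit 529) (nat_lit 348) (nat_lit 323)) (XT.lf (nat_lit 0) (nat_lit 175287590344) (nat_lit 76) (nat_lit 31168855914) (nat_lit 76) (nat_lit 30674858221) (nat_lit 3) (nat_lit 4) (nat_lit 4) (nat_lit 5) (nat_lit 4) (nat_lit 4) (nat_lit 530) (nat_lit 348) (nat_lit 322))) (XT.nd (nat_lit 78) (nat_lit 0) (nat_lit 0) (XT.lf (nat_lit 0) (nat_lit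 199741571670) (nat_lit 76) (nat_lit 24682761710) (nat_lit 76) (nat_lit 24179559513) (nat_lit 3) (nat_lit 4) (nat_lit 4) (nat_lit 5) (nat_lit 4) (nat_lit 4) (nat_lit 531) (nat_lit 348) (nat_lit 321)) (XT.lf (nat_lit 0) (nat_lit 225153427034) (nat_lit 76) (nat_lit 18007566618) (nat_lit 76) (nat_lit 17495598226) (nat_lit 3) (nat_lit 4) (nat_lit 4) (nat_lit 5) (nat_lit 4) (nat_lit 4) (nat_lit 532) (nat_lit 348) (nat_lit 320))))) (XT.nd (nat_lit 312) (nat_lit 0) (nat_lit 0) (XT.nd (nat_lit 156) (nat_lit 152) (nat_lit 0) (XT.nd (nat_lit 78) (nat_lit 0) (nat_lit 0) (XT.lf (nat_lit 0) (nat_lit 251583660853) (nat_lit 76) (nat_lit 11127377315) (nat_lit 76) (nat_lit 10607060167) (nat_lit 3) (nat_lit 4) (nat_lit 4) (nat_lit 5) (nat_lit 4) (nat_lit 4) (nat_lit 533) (nat_lit 348) (nat_lit 319)) (XT.lf (nat_lit 0) (nat_lit 279095202256) (nat_lit 76) (nat_lit 4025812400) (nat_lit 76) (nat_lit 3497544055) (nat_lit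 3) (nat_lit 4) (nat_lit 4) (nat_lit 5) (nat_lit 4) (nat_lit 4) (nat_lit 534) (nat_lit 348) (nat_lit 318))) (XT.nd (nat_lit 78) (nat_lit 0) (nat_lit 0) (XT.lf (nat_lit 0) (nat_lit 3895840019) (nat_lit 152) (nat_lit 293296820910) (nat_lit 0) (nat_lit 3385515339) (nat_lit 1) (nat_lit 5) (nat_lit 3) (nat_lit 4) (nat_lit 1) (nat_lit 4) (nat_lit 535) (nat_lit 348) (nat_lit 317)) (XT.lf (nat_lit 0) (nat_lit 11623066516) (nat_lit 152) (nat_lit 292499882440) (nat_lit 0) (nat_lit 11105873294) (nat_lit 1) (nat_lit 5) (nat_lit 3) (nat_lit 4) (nat_lit 1) (nat_lit 4) (nat_lit 536) (nat_lit 348) (nat_lit 316)))) (XT.nd (nat_lit 156) (nat_lit 0) (nat_lit 0) (XT.nd (nat_lit 78) (nat_lit 0) (nat_lit 0) (XT.lf (nat_lit 0) (nat_lit 19628288922) (nat_lit 152) (nat_lit 291884575720) (nat_lit 0) (nat_lit 19104554230) (nat_lit 1) (nat_lit 5) (nat_lit 3) (nat_lit 4) (nat_lit 1) (nat_lit 4) (nat_lit 537) (nat_lit 348) (nat_lit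 315)) (XT.lf (nat_lit 0) (nat_lit 27930567287) (nat_lit 152) (nat_lit 291449435733) (nat_lit 0) (nat_lit 27400602626) (nat_lit 1) (nat_lit 5) (nat_lit 3) (nat_lit 4) (nat_lit 1) (nat_lit 4) (nat_lit 538) (nat_lit 348) (nat_lit 314))) (XT.nd (nat_lit 78) (nat_lit 0) (nat_lit 0) (XT.lf (nat_lit 0) (nat_lit 36549668943) (nat_lit 152) (nat_lit 291193426431) (nat_lit 0) (nat_lit 36013770976) (nat_lit 1) (nat_lit 5) (nat_lit 3) (nat_lit 4) (nat_lit 1) (nat_lit 4) (nat_lit 539) (nat_lit 348) (nat_lit 313)) (XT.lf (nat_lit 0) (nat_lit 45506115560) (nat_lit 152) (nat_lit 291115938269) (nat_lit 0) (nat_lit 44964566826) (nat_lit 1) (nat_lit 5) (nat_lit 3) (nat_lit 4) (nat_lit 1) (nat_lit 4) (nat_lit 540) (nat_lit 348) (nat_lit 312)))))) (XT.nd (nat_lit 624) (nat_lit 0) (nat_lit 0) (XT.nd (nat_lit 312) (nat_lit 0) (nat_lit 0) (XT.nd (nat_lit 156) (nat_lit 0) (nat_lit 0) (XT.nd (nat_lit 78) (nat_lit 0) (nat_lit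 0) (XT.lf (nat_lit 0) (nat_lit 54821232010) (nat_lit 152) (nat_lit 291216786751) (nat_lit 0) (nat_lit 54274301593) (nat_lit 1) (nat_lit 5) (nat_lit 3) (nat_lit 4) (nat_lit 1) (nat_lit 4) (nat_lit 541) (nat_lit 348) (nat_lit 311)) (XT.lf (nat_lit 0) (nat_lit 64517197143) (nat_lit 152) (nat_lit 291496211993) (nat_lit 0) (nat_lit 63965141313) (nat_lit 1) (nat_lit 5) (nat_lit 3) (nat_lit 4) (nat_lit 1) (nat_lit 4) (nat_lit 542) (nat_lit 348) (nat_lit 310))) (XT.nd (nat_lit 78) (nat_lit 0) (nat_lit 0) (XT.lf (nat_lit 0) (nat_lit 74617096589) (nat_lit 152) (nat_lit 291954879292) (nat_lit 0) (nat_lit 74060159415) (nat_lit 1) (nat_lit 5) (nat_lit 3) (nat_lit 4) (nat_lit 1) (nat_lit 4) (nat_lit 543) (nat_lit 348) (nat_lit 309)) (XT.lf (nat_lit 0) (nat_lit 85144977729) (nat_lit 152) (nat_lit 292593880714) (nat_lit 0) (nat_lit 84583391654) (nat_lit 1) (nat_lit 5) (nat_lit 3) (nat_lit 4) (nat_lit 1) (nat_lit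 4) (nat_lit 544) (nat_lit 348) (nat_lit 308)))) (XT.nd (nat_lit 156) (nat_lit 0) (nat_lit 0) (XT.nd (nat_lit 78) (nat_lit 0) (nat_lit 0) (XT.lf (nat_lit 0) (nat_lit 96125906945) (nat_lit 152) (nat_lit 293414737690) (nat_lit 0) (nat_lit 95559893347) (nat_lit 1) (nat_lit 5) (nat_lit 3) (nat_lit 4) (nat_lit 1) (nat_lit 4) (nat_lit 545) (nat_lit 348) (nat_lit 307)) (XT.lf (nat_lit 0) (nat_lit 107586029308) (nat_lit 152) (nat_lit 294419404642) (nat_lit 0) (nat_lit 107015799020) (nat_lit 1) (nat_lit 5) (nat_lit 3) (nat_lit 4) (nat_lit 1) (nat_lit 4) (nat_lit 546) (nat_lit 348) (nat_lit 306))) (XT.nd (nat_lit 78) (nat_lit 0) (nat_lit 0) (XT.lf (nat_lit 0) (nat_lit 119552630822) (nat_lit 152) (nat_lit 295610273635) (nat_lit 0) (nat_lit 118978384640) (nat_lit 1) (nat_lit 5) (nat_lit 3) (nat_lit 4) (nat_lit 1) (nat_lit 4) (nat_lit 547) (nat_lit 348) (nat_lit 305)) (XT.lf (nat_lit 0) (nat_lit 132054203398)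 (nat_lit 152) (nat_lit 296990180070) (nat_lit 0) (nat_lit 131476132554) (nat_lit 1) (nat_lit 5) (nat_lit 3) (nat_lit 4) (nat_lit 1) (nat_lit 4) (nat_lit 548) (nat_lit 348) (nat_lit 304))))) (XT.nd (nat_lit 312) (nat_lit 0) (nat_lit 0) (XT.nd (nat_lit 156) (nat_lit 0) (nat_lit 0) (XT.nd (nat_lit 78) (nat_lit 0) (nat_lit 0) (XT.lf (nat_lit 0) (nat_lit 145120512682) (nat_lit 152) (nat_lit 298562409439) (nat_lit 0) (nat_lit 144538799304) (nat_lit 1) (nat_lit 5) (nat_lit 3) (nat_lit 4) (nat_lit 1) (nat_lit 4) (nat_lit 549) (nat_lit 348) (nat_lit 303)) (XT.lf (nat_lit 0) (nat_lit 158782668937) (nat_lit 152) (nat_lit 300330705145) (nat_lit 0) (nat_lit 158197486477) (nat_lit 1) (nat_lit 5) (nat_lit 3) (nat_lit 4) (nat_lit 1) (nat_lit 4) (nat_lit 550) (nat_lit 348) (nat_lit 302))) (XT.nd (nat_lit 78) (nat_lit 0) (nat_lit 0) (XT.lf (nat_lit 0) (nat_lit 173073201104) (nat_lit 152) (nat_lit 302299277417) (nat_lit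 0) (nat_lit 172484714758) (nat_lit 1) (nat_lit 5) (nat_lit 3) (nat_lit 4) (nat_lit 1) (nat_lit 4) (nat_lit 551) (nat_lit 348) (nat_lit 301)) (XT.lf (nat_lit 0) (nat_lit 188026134261) (nat_lit 152) (nat_lit 304472813330) (nat_lit 0) (nat_lit 187434501357) (nat_lit 1) (nat_lit 5) (nat_lit 3) (nat_lit 4) (nat_lit 1) (nat_lit 4) (nat_lit 552) (nat_lit 348) (nat_lit 300)))) (XT.nd (nat_lit 156) (nat_lit 0) (nat_lit 0) (XT.nd (nat_lit 78) (nat_lit 0) (nat_lit 0) (XT.lf (nat_lit 0) (nat_lit 203677070630) (nat_lit 152) (nat_lit 306856487971) (nat_lit 0) (nat_lit 203082441003) (nat_lit 1) (nat_lit 5) (nat_lit 3) (nat_lit 4) (nat_lit 1) (nat_lit 4) (nat_lit 553) (nat_lit 348) (nat_lit 299)) (XT.lf (nat_lit 0) (nat_lit 220063274344) (nat_lit 152) (nat_lit 309455976755) (nat_lit 0) (nat_lit 219465790696) (nat_lit 1) (nat_lit 5) (nat_lit 3) (nat_lit 4) (nat_lit 1) (nat_lit 4) (nat_lit 554) (nat_lit 348) (nat_lit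 298))) (XT.nd (nat_lit 78) (nat_lit 0) (nat_lit 0) (XT.lf (nat_lit 0) (nat_lit 237223760175) (nat_lit 152) (nat_lit 312277468942) (nat_lit 0) (nat_lit 236623558411) (nat_lit 1) (nat_lit 5) (nat_lit 3) (nat_lit 4) (nat_lit 1) (nat_lit 4) (nat_lit 555) (nat_lit 348) (nat_lit 297)) (XT.nd (nat_lit 78) (nat_lit 0) (nat_lit 0) (XT.lf (nat_lit 0) (nat_lit 255199386421) (nat_lit 152) (nat_lit 315327682369) (nat_lit 0) (nat_lit 254596595976) (nat_lit 1) (nat_lit 5) (nat_lit 3) (nat_lit 4) (nat_lit 1) (nat_lit 4) (nat_lit 556) (nat_lit 348) (nat_lit 296)) (XT.lf (nat_lit 0) (nat_lit 274032952194) (nat_lit 152) (nat_lit 318613879451) (nat_lit 0) (nat_lit 273427696338) (nat_lit 1) (nat_lit 5) (nat_lit 3) (nat_lit 4) (nat_lit 1) (nat_lit 4) (nat_lit 557) (nat_lit 348) (nat_lit 295))))))))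
noncomputable def xc23 : XT := (XT.nd (nat_lit 1248) (nat_lit 76) (nat_lit 0) (XT.nd (nat_lit 624) (nat_lit 228) (nat_lit 0) (XT.nd (nat_lit 312) (nat_lit 152) (nat_lit 0) (XT.nd (nat_lit 156) (nat_lit 0) (nat_lit 0) (XT.nd (nat_lit 78) (nat_lit 76) (nat_lit 0) (XT.lf (nat_lit 0) (nat_lit 12420632597) (nat_lit 152) (nat_lit 9349919103) (nat_lit 0) (nat_lit 12420632597) (nat_lit 10) (nat_lit 5) (nat_lit 12) (nat_lit 4) (nat_lit 10) (nat_lit 4) (nat_lit 502) (nat_lit 349) (nat_lit 349)) (XT.lf (nat_lit 0) (nat_lit 5536746825) (nat_lit 76) (nat_lit 32842905084) (nat_lit 76) (nat_lit 32805018097) (nat_lit 9) (nat_lit 4) (nat_lit 10) (nat_lit 5) (nat_lit 10) (nat_lit 4) (nat_lit 503) (nat_lit 349) (nat_lit 348))) (XT.nd (nat_lit 78) (nat_lit 0) (nat_lit 0) (XT.lf (nat_lit 0) (nat_lit 30821280094) (nat_lit 76) (nat_lit 21691931945) (nat_lit 76) (nat_lit 21617962114) (nat_lit 9) (nat_lit 4) (nat_lit 10)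 (nat_lit 5) (nat_lit 10) (nat_lit 4) (nat_lit 504) (nat_lit 349) (nat_lit 347)) (XT.lf (nat_lit 0) (nat_lit 56595661768) (nat_lit 76) (nat_lit 10378324858) (nat_lit 76) (nat_lit 10269990413) (nat_lit 9) (nat_lit 4) (nat_lit 10) (nat_lit 5) (nat_lit 10) (nat_lit 4) (nat_lit 505) (nat_lit 349) (nat_lit 346)))) (XT.nd (nat_lit 156) (nat_lit 0) (nat_lit 0) (XT.nd (nat_lit 78) (nat_lit 0) (nat_lit 0) (XT.lf (nat_lit 0) (nat_lit 1282153821) (nat_lit 152) (nat_lit 78096701858) (nat_lit 0) (nat_lit 1147808441) (nat_lit 7) (nat_lit 5) (nat_lit 9) (nat_lit 4) (nat_lit 7) (nat_lit 4) (nat_lit 506) (nat_lit 349) (nat_lit 345)) (XT.lf (nat_lit 0) (nat_lit 13225108123) (nat_lit 152) (nat_lit 57670965322) (nat_lit 0) (nat_lit 13061077297) (nat_lit 7) (nat_lit 5) (nat_lit 9) (nat_lit 4) (nat_lit 7) (nat_lit 4) (nat_lit 507) (nat_lit 349) (nat_lit 344))) (XT.nd (nat_lit 78) (nat_lit 0) (nat_lit 0) (XT.lf (nat_lit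 0) (nat_lit 25415480220) (nat_lit 152) (nat_lit 36937990721) (nat_lit 0) (nat_lit 25223177542) (nat_lit 7) (nat_lit 5) (nat_lit 9) (nat_lit 4) (nat_lit 7) (nat_lit 4) (nat_lit 508) (nat_lit 349) (nat_lit 343)) (XT.lf (nat_lit 0) (nat_lit 37882294808) (nat_lit 152) (nat_lit 15848413829) (nat_lit 0) (nat_lit 37663066555) (nat_lit 7) (nat_lit 5) (nat_lit 9) (nat_lit 4) (nat_lit 7) (nat_lit 4) (nat_lit 509) (nat_lit 349) (nat_lit 342))))) (XT.nd (nat_lit 312) (nat_lit 152) (nat_lit 0) (XT.nd (nat_lit 156) (nat_lit 0) (nat_lit 0) (XT.nd (nat_lit 78) (nat_lit 0) (nat_lit 0) (XT.lf (nat_lit 0) (nat_lit 5834726311) (nat_lit 76) (nat_lit 44911604897) (nat_lit 76) (nat_lit 44666733240) (nat_lit 6) (nat_lit 4) (nat_lit 7) (nat_lit 5) (nat_lit 7) (nat_lit 4) (nat_lit 510) (nat_lit 349) (nat_lit 341)) (XT.lf (nat_lit 0) (nat_lit 28515027506) (nat_lit 76) (nat_lit 35694883879) (nat_lit 76) (nat_lit 35425589932)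 (nat_lit 6) (nat_lit 4) (nat_lit 7) (nat_lit 5) (nat_lit 7) (nat_lit 4) (nat_lit 511) (nat_lit 349) (nat_lit 340))) (XT.nd (nat_lit 78) (nat_lit 0) (nat_lit 0) (XT.lf (nat_lit 0) (nat_lit 51722470338) (nat_lit 76) (nat_lit 26327001568) (nat_lit 76) (nat_lit 26034448298) (nat_lit 6) (nat_lit 4) (nat_lit 7) (nat_lit 5) (nat_lit 7) (nat_lit 4) (nat_lit 512) (nat_lit 349) (nat_lit 339)) (XT.lf (nat_lit 0) (nat_lit 75512310624) (nat_lit 76) (nat_lit 16785653481) (nat_lit 76) (nat_lit 16470948475) (nat_lit 6) (nat_lit 4) (nat_lit 7) (nat_lit 5) (nat_lit 7) (nat_lit 4) (nat_lit 513) (nat_lit 349) (nat_lit 338)))) (XT.nd (nat_lit 156) (nat_lit 0) (nat_lit 0) (XT.nd (nat_lit 78) (nat_lit 152) (nat_lit 0) (XT.lf (nat_lit 0) (nat_lit 99941190840) (nat_lit 76) (nat_lit 7048122124) (nat_lit 76) (nat_lit 6712320225) (nat_lit 6) (nat_lit 4) (nat_lit 7) (nat_lit 5) (nat_lit 7) (nat_lit 4) (nat_lit 514) (nat_lit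 349) (nat_lit 337)) (XT.lf (nat_lit 0) (nat_lit 3306799643) (nat_lit 152) (nat_lit 112609294707) (nat_lit 0) (nat_lit 2967852809) (nat_lit 4) (nat_lit 5) (nat_lit 6) (nat_lit 4) (nat_lit 4) (nat_lit 4) (nat_lit 515) (nat_lit 349) (nat_lit 336))) (XT.nd (nat_lit 78) (nat_lit 0) (nat_lit 0) (XT.lf (nat_lit 0) (nat_lit 13692823075) (nat_lit 152) (nat_lit 97286823810) (nat_lit 0) (nat_lit 13335651951) (nat_lit 4) (nat_lit 5) (nat_lit 6) (nat_lit 4) (nat_lit 4) (nat_lit 4) (nat_lit 516) (nat_lit 349) (nat_lit 335)) (XT.lf (nat_lit 0) (nat_lit 24349692900) (nat_lit 152) (nat_lit 81705782802) (nat_lit 0) (nat_lit 23975165312) (nat_lit 4) (nat_lit 5) (nat_lit 6) (nat_lit 4) (nat_lit 4) (nat_lit 4) (nat_lit 517) (nat_lit 349) (nat_lit 334)))))) (XT.nd (nat_lit 624) (nat_lit 0) (nat_lit 0) (XT.nd (nat_lit 312) (nat_lit 76) (nat_lit 0) (XT.nd (nat_lit 156) (nat_lit 0) (nat_lit 0) (XT.nd (nat_lit 78) (nat_lit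 0) (nat_lit 0) (XT.lf (nat_lit 0) (nat_lit 35302782620) (nat_lit 152) (nat_lit 65829073966) (nat_lit 0) (nat_lit 34911725065) (nat_lit 4) (nat_lit 5) (nat_lit 6) (nat_lit 4) (nat_lit 4) (nat_lit 4) (nat_lit 518) (nat_lit 349) (nat_lit 333)) (XT.lf (nat_lit 0) (nat_lit 46578171019) (nat_lit 152) (nat_lit 49618895615) (nat_lit 0) (nat_lit 46171370638) (nat_lit 4) (nat_lit 5) (nat_lit 6) (nat_lit 4) (nat_lit 4) (nat_lit 4) (nat_lit 519) (nat_lit 349) (nat_lit 332))) (XT.nd (nat_lit 78) (nat_lit 0) (nat_lit 0) (XT.lf (nat_lit 0) (nat_lit 58202704260) (nat_lit 152) (nat_lit 33036652085) (nat_lit 0) (nat_lit 57780910712) (nat_lit 4) (nat_lit 5) (nat_lit 6) (nat_lit 4) (nat_lit 4) (nat_lit 4) (nat_lit 520) (nat_lit 349) (nat_lit 331)) (XT.lf (nat_lit 0) (nat_lit 70204059803) (nat_lit 152) (nat_lit 16042861846) (nat_lit 0) (nat_lit 69767987048) (nat_lit 4) (nat_lit 5) (nat_lit 6) (nat_lit 4) (nat_lit 4)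 (nat_lit 4) (nat_lit 521) (nat_lit 349) (nat_lit 330)))) (XT.nd (nat_lit 156) (nat_lit 0) (nat_lit 0) (XT.nd (nat_lit 78) (nat_lit 0) (nat_lit 0) (XT.lf (nat_lit 0) (nat_lit 1449323926) (nat_lit 76) (nat_lit 81184116385) (nat_lit 76) (nat_lit 80734444386) (nat_lit 3) (nat_lit 4) (nat_lit 4) (nat_lit 5) (nat_lit 4) (nat_lit 4) (nat_lit 522) (nat_lit 349) (nat_lit 329)) (XT.lf (nat_lit 0) (nat_lit 19981823744) (nat_lit 76) (nat_lit 75782650173) (nat_lit 76) (nat_lit 75320026511) (nat_lit 3) (nat_lit 4) (nat_lit 4) (nat_lit 5) (nat_lit 4) (nat_lit 4) (nat_lit 523) (nat_lit 349) (nat_lit 328))) (XT.nd (nat_lit 78) (nat_lit 0) (nat_lit 0) (XT.lf (nat_lit 0) (nat_lit 39068313144) (nat_lit 76) (nat_lit 70301356004) (nat_lit 76) (nat_lit 69826397427) (nat_lit 3) (nat_lit 4) (nat_lit 4) (nat_lit 5) (nat_lit 4) (nat_lit 4) (nat_lit 524) (nat_lit 349) (nat_lit 327)) (XT.lf (nat_lit 0) (nat_lit 58754236147)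 (nat_lit 76) (nat_lit 64727183180) (nat_lit 76) (nat_lit 64240477064) (nat_lit 3) (nat_lit 4) (nat_lit 4) (nat_lit 5) (nat_lit 4) (nat_lit 4) (nat_lit 525) (nat_lit 349) (nat_lit 326))))) (XT.nd (nat_lit 312) (nat_lit 0) (nat_lit 0) (XT.nd (nat_lit 156) (nat_lit 0) (nat_lit 0) (XT.nd (nat_lit 78) (nat_lit 0) (nat_lit 0) (XT.lf (nat_lit 0) (nat_lit 79086463999) (nat_lit 76) (nat_lit 59046859860) (nat_lit 76) (nat_lit 58548965612) (nat_lit 3) (nat_lit 4) (nat_lit 4) (nat_lit 5) (nat_lit 4) (nat_lit 4) (nat_lit 526) (nat_lit 349) (nat_lit 325)) (XT.lf (nat_lit 0) (nat_lit 100113406766) (nat_lit 76) (nat_lit 53246861464) (nat_lit 76) (nat_lit 52738311852) (nat_lit 3) (nat_lit 4) (nat_lit 4) (nat_lit 5) (nat_lit 4) (nat_lit 4) (nat_lit 527) (nat_lit 349) (nat_lit 324))) (XT.nd (nat_lit 78) (nat_lit 0) (nat_lit 0) (XT.lf (nat_lit 0) (nat_lit 121885128598) (nat_lit 76) (nat_lit 47313378474) (nat_lit 76)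 (nat_lit 46794680896) (nat_lit 3) (nat_lit 4) (nat_lit 4) (nat_lit 5) (nat_lit 4) (nat_lit 4) (nat_lit 528) (nat_lit 349) (nat_lit 323)) (XT.lf (nat_lit 0) (nat_lit 144453466927) (nat_lit 76) (nat_lit 41232283548) (nat_lit 76) (nat_lit 40703921240) (nat_lit 3) (nat_lit 4) (nat_lit 4) (nat_lit 5) (nat_lit 4) (nat_lit 4) (nat_lit 529) (nat_lit 349) (nat_lit 322)))) (XT.nd (nat_lit 156) (nat_lit 0) (nat_lit 0) (XT.nd (nat_lit 78) (nat_lit 0) (nat_lit 0) (XT.lf (nat_lit 0) (nat_lit 167872155893) (nat_lit 76) (nat_lit 34989097888) (nat_lit 76) (nat_lit 34451531077) (nat_lit 3) (nat_lit 4) (nat_lit 4) (nat_lit 5) (nat_lit 4) (nat_lit 4) (nat_lit 530) (nat_lit 349) (nat_lit 321)) (XT.lf (nat_lit 0) (nat_lit 192196954278) (nat_lit 76) (nat_lit 28568956768) (nat_lit 76) (nat_lit 28022623762) (nat_lit 3) (nat_lit 4) (nat_lit 4) (nat_lit 5) (nat_lit 4) (nat_lit 4) (nat_lit 531) (nat_lit 349) (nat_lit 320)))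 (XT.nd (nat_lit 78) (nat_lit 0) (nat_lit 0) (XT.lf (nat_lit 0) (nat_lit 217485778270) (nat_lit 76) (nat_lit 21956574136) (nat_lit 76) (nat_lit 21401892374) (nat_lit 3) (nat_lit 4) (nat_lit 4) (nat_lit 5) (nat_lit 4) (nat_lit 4) (nat_lit 532) (nat_lit 349) (nat_lit 319)) (XT.nd (nat_lit 78) (nat_lit 0) (nat_lit 0) (XT.lf (nat_lit 0) (nat_lit 243798839354) (nat_lit 76) (nat_lit 15136206225) (nat_lit 76) (nat_lit 14573573266) (nat_lit 3) (nat_lit 4) (nat_lit 4) (nat_lit 5) (nat_lit 4) (nat_lit 4) (nat_lit 533) (nat_lit 349) (nat_lit 318)) (XT.lf (nat_lit 0) (nat_lit 271198787675) (nat_lit 76) (nat_lit 8091614064) (nat_lit 76) (nat_lit 7521408537) (nat_lit 3) (nat_lit 4) (nat_lit 4) (nat_lit 5) (nat_lit 4) (nat_lit 4) (nat_lit 534) (nat_lit 349) (nat_lit 317))))))))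
noncomputable def xc24 : XT := (XT.nd (nat_lit 1248) (nat_lit 0) (nat_lit 0) (XT.nd (nat_lit 624) (nat_lit 0) (nat_lit 0) (XT.nd (nat_lit 312) (nat_lit 0) (nat_lit 0) (XT.nd (nat_lit 156) (nat_lit 0) (nat_lit 0) (XT.nd (nat_lit 78) (nat_lit 152) (nat_lit 0) (XT.lf (nat_lit 0) (nat_lit 299750861205) (nat_lit 76) (nat_lit 806024813) (nat_lit 76) (nat_lit 228607316) (nat_lit 3) (nat_lit 4) (nat_lit 4) (nat_lit 5) (nat_lit 4) (nat_lit 4) (nat_lit 535) (nat_lit 349) (nat_lit 316)) (XT.lf (nat_lit 0) (nat_lit 7423529374) (nat_lit 152) (nat_lit 301149842291) (nat_lit 0) (nat_lit 6867066479) (nat_lit 1) (nat_lit 5) (nat_lit 3) (nat_lit 4) (nat_lit 1) (nat_lit 4) (nat_lit 536) (nat_lit 349) (nat_lit 315))) (XT.nd (nat_lit 78) (nat_lit 0) (nat_lit 0) (XT.lf (nat_lit 0) (nat_lit 15378407799) (nat_lit 152) (nat_lit 300637429263) (nat_lit 0) (nat_lit 14815714934) (nat_lit 1) (nat_lit 5) (nat_lit 3) (nat_lit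 4) (nat_lit 1) (nat_lit 4) (nat_lit 537) (nat_lit 349) (nat_lit 314)) (XT.lf (nat_lit 0) (nat_lit 23632739517) (nat_lit 152) (nat_lit 300300283268) (nat_lit 0) (nat_lit 23064113346) (nat_lit 1) (nat_lit 5) (nat_lit 3) (nat_lit 4) (nat_lit 1) (nat_lit 4) (nat_lit 538) (nat_lit 349) (nat_lit 313)))) (XT.nd (nat_lit 156) (nat_lit 0) (nat_lit 0) (XT.nd (nat_lit 78) (nat_lit 0) (nat_lit 0) (XT.lf (nat_lit 0) (nat_lit 32206177699) (nat_lit 152) (nat_lit 300137601579) (nat_lit 0) (nat_lit 31631900761) (nat_lit 1) (nat_lit 5) (nat_lit 3) (nat_lit 4) (nat_lit 1) (nat_lit 4) (nat_lit 539) (nat_lit 349) (nat_lit 312)) (XT.lf (nat_lit 0) (nat_lit 41119135293) (nat_lit 152) (nat_lit 300148996857) (nat_lit 0) (nat_lit 40539476672) (nat_lit 1) (nat_lit 5) (nat_lit 3) (nat_lit 4) (nat_lit 1) (nat_lit 4) (nat_lit 540) (nat_lit 349) (nat_lit 311))) (XT.nd (nat_lit 78) (nat_lit 0) (nat_lit 0) (XT.lf (nat_lit 0) (nat_lit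 50392833626) (nat_lit 152) (nat_lit 300334496234) (nat_lit 0) (nat_lit 49808049592) (nat_lit 1) (nat_lit 5) (nat_lit 3) (nat_lit 4) (nat_lit 1) (nat_lit 4) (nat_lit 541) (nat_lit 349) (nat_lit 310)) (XT.lf (nat_lit 0) (nat_lit 60049352933) (nat_lit 152) (nat_lit 300694541376) (nat_lit 0) (nat_lit 59459687554) (nat_lit 1) (nat_lit 5) (nat_lit 3) (nat_lit 4) (nat_lit 1) (nat_lit 4) (nat_lit 542) (nat_lit 349) (nat_lit 309))))) (XT.nd (nat_lit 312) (nat_lit 0) (nat_lit 0) (XT.nd (nat_lit 156) (nat_lit 0) (nat_lit 0) (XT.nd (nat_lit 78) (nat_lit 0) (nat_lit 0) (XT.lf (nat_lit 0) (nat_lit 70111684925) (nat_lit 152) (nat_lit 301229989533) (nat_lit 0) (nat_lit 69517370647) (nat_lit 1) (nat_lit 5) (nat_lit 3) (nat_lit 4) (nat_lit 1) (nat_lit 4) (nat_lit 543) (nat_lit 349) (nat_lit 308)) (XT.lf (nat_lit 0) (nat_lit 80603787538) (nat_lit 152) (nat_lit 301942115581) (nat_lit 0) (nat_lit 80005045736) (nat_lit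 1) (nat_lit 5) (nat_lit 3) (nat_lit 4) (nat_lit 1) (nat_lit 4) (nat_lit 544) (nat_lit 349) (nat_lit 307))) (XT.nd (nat_lit 78) (nat_lit 0) (nat_lit 0) (XT.lf (nat_lit 0) (nat_lit 91550641967) (nat_lit 152) (nat_lit 302832615058) (nat_lit 0) (nat_lit 90947683475) (nat_lit 1) (nat_lit 5) (nat_lit 3) (nat_lit 4) (nat_lit 1) (nat_lit 4) (nat_lit 545) (nat_lit 349) (nat_lit 306)) (XT.lf (nat_lit 0) (nat_lit 102978312151) (nat_lit 152) (nat_lit 303903608202) (nat_lit 0) (nat_lit 102371337765) (nat_lit 1) (nat_lit 5) (nat_lit 3) (nat_lit 4) (nat_lit 1) (nat_lit 4) (nat_lit 546) (nat_lit 349) (nat_lit 305)))) (XT.nd (nat_lit 156) (nat_lit 0) (nat_lit 0) (XT.nd (nat_lit 78) (nat_lit 0) (nat_lit 0) (XT.lf (nat_lit 0) (nat_lit 114914006829) (nat_lit 152) (nat_lit 305157644996) (nat_lit 0) (nat_lit 114303207781) (nat_lit 1) (nat_lit 5) (nat_lit 3) (nat_lit 4) (nat_lit 1) (nat_lit 4) (nat_lit 547) (nat_lit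 349) (nat_lit 304)) (XT.lf (nat_lit 0) (nat_lit 127386144322) (nat_lit 152) (nat_lit 306597711242) (nat_lit 0) (nat_lit 126771702739) (nat_lit 1) (nat_lit 5) (nat_lit 3) (nat_lit 4) (nat_lit 1) (nat_lit 4) (nat_lit 548) (nat_lit 349) (nat_lit 303))) (XT.nd (nat_lit 78) (nat_lit 0) (nat_lit 0) (XT.lf (nat_lit 0) (nat_lit 140424420194) (nat_lit 152) (nat_lit 308227235669) (nat_lit 0) (nat_lit 139806509531) (nat_lit 1) (nat_lit 5) (nat_lit 3) (nat_lit 4) (nat_lit 1) (nat_lit 4) (nat_lit 549) (nat_lit 349) (nat_lit 302)) (XT.lf (nat_lit 0) (nat_lit 154059877961) (nat_lit 152) (nat_lit 310050098097) (nat_lit 0) (nat_lit 153438663411) (nat_lit 1) (nat_lit 5) (nat_lit 3) (nat_lit 4) (nat_lit 1) (nat_lit 4) (nat_lit 550) (nat_lit 349) (nat_lit 301)))))) (XT.nd (nat_lit 58578) (nat_lit 0) (nat_lit 456) (XT.nd (nat_lit 312) (nat_lit 0) (nat_lit 0) (XT.nd (nat_lit 156) (nat_lit 0) (nat_lit 0) (XT.nd (nat_lit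 78) (nat_lit 0) (nat_lit 0) (XT.lf (nat_lit 0) (nat_lit 168324982997) (nat_lit 152) (nat_lit 312070638675) (nat_lit 0) (nat_lit 167700621889) (nat_lit 1) (nat_lit 5) (nat_lit 3) (nat_lit 4) (nat_lit 1) (nat_lit 4) (nat_lit 551) (nat_lit 349) (nat_lit 300)) (XT.lf (nat_lit 0) (nat_lit 183253699839) (nat_lit 152) (nat_lit 314293668214) (nat_lit 0) (nat_lit 182626342008) (nat_lit 1) (nat_lit 5) (nat_lit 3) (nat_lit 4) (nat_lit 1) (nat_lit 4) (nat_lit 552) (nat_lit 349) (nat_lit 299))) (XT.nd (nat_lit 78) (nat_lit 0) (nat_lit 0) (XT.lf (nat_lit 0) (nat_lit 198881573050) (nat_lit 152) (nat_lit 316724479641) (nat_lit 0) (nat_lit 198251361198) (nat_lit 1) (nat_lit 5) (nat_lit 3) (nat_lit 4) (nat_lit 1) (nat_lit 4) (nat_lit 553) (nat_lit 349) (nat_lit 298)) (XT.lf (nat_lit 0) (nat_lit 215245811853) (nat_lit 152) (nat_lit 319368860602) (nat_lit 0) (nat_lit 214612881885) (nat_lit 1) (nat_lit 5) (nat_lit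 3) (nat_lit 4) (nat_lit 1) (nat_lit 4) (nat_lit 554) (nat_lit 349) (nat_lit 297)))) (XT.nd (nat_lit 156) (nat_lit 0) (nat_lit 0) (XT.nd (nat_lit 78) (nat_lit 0) (nat_lit 0) (XT.lf (nat_lit 0) (nat_lit 232385378720) (nat_lit 152) (nat_lit 322233107243) (nat_lit 0) (nat_lit 231749860071) (nat_lit 1) (nat_lit 5) (nat_lit 3) (nat_lit 4) (nat_lit 1) (nat_lit 4) (nat_lit 555) (nat_lit 349) (nat_lit 296)) (XT.lf (nat_lit 0) (nat_lit 250341082144) (nat_lit 152) (nat_lit 325324039198) (nat_lit 0) (nat_lit 249703098084) (nat_lit 1) (nat_lit 5) (nat_lit 3) (nat_lit 4) (nat_lit 1) (nat_lit 4) (nat_lit 556) (nat_lit 349) (nat_lit 295))) (XT.nd (nat_lit 58032) (nat_lit 0) (nat_lit 836) (XT.lf (nat_lit 0) (nat_lit 269155673800) (nat_lit 152) (nat_lit 328649015830) (nat_lit 0) (nat_lit 268515341730) (nat_lit 1) (nat_lit 5) (nat_lit 3) (nat_lit 4) (nat_lit 1) (nat_lit 4) (nat_lit 557) (nat_lit 349) (nat_lit 294))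 (XT.lf (nat_lit 0) (nat_lit 30539045831) (nat_lit 76) (nat_lit 532434724) (nat_lit 76) (nat_lit 532434724) (nat_lit 12) (nat_lit 4) (nat_lit 13) (nat_lit 5) (nat_lit 13) (nat_lit 4) (nat_lit 500) (nat_lit 350) (nat_lit 350))))) (XT.nd (nat_lit 312) (nat_lit 152) (nat_lit 0) (XT.nd (nat_lit 156) (nat_lit 76) (nat_lit 0) (XT.nd (nat_lit 78) (nat_lit 0) (nat_lit 0) (XT.lf (nat_lit 0) (nat_lit 11683930644) (nat_lit 152) (nat_lit 42400601243) (nat_lit 0) (nat_lit 11644149307) (nat_lit 10) (nat_lit 5) (nat_lit 12) (nat_lit 4) (nat_lit 10) (nat_lit 4) (nat_lit 501) (nat_lit 350) (nat_lit 349)) (XT.lf (nat_lit 0) (nat_lit 24683471359) (nat_lit 152) (nat_lit 19102973149) (nat_lit 0) (nat_lit 24605803036) (nat_lit 10) (nat_lit 5) (nat_lit 12) (nat_lit 4) (nat_lit 10) (nat_lit 4) (nat_lit 502) (nat_lit 350) (nat_lit 348))) (XT.nd (nat_lit 78) (nat_lit 0) (nat_lit 0) (XT.lf (nat_lit 0) (nat_lit 4723649654)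 (nat_lit 76) (nat_lit 33297346864) (nat_lit 76) (nat_lit 33183595696) (nat_lit 9) (nat_lit 4) (nat_lit 10) (nat_lit 5) (nat_lit 10) (nat_lit 4) (nat_lit 503) (nat_lit 350) (nat_lit 347)) (XT.lf (nat_lit 0) (nat_lit 29630437431) (nat_lit 76) (nat_lit 22339015046) (nat_lit 76) (nat_lit 22190899264) (nat_lit 9) (nat_lit 4) (nat_lit 10) (nat_lit 5) (nat_lit 10) (nat_lit 4) (nat_lit 504) (nat_lit 350) (nat_lit 346)))) (XT.nd (nat_lit 156) (nat_lit 0) (nat_lit 0) (XT.nd (nat_lit 78) (nat_lit 152) (nat_lit 0) (XT.lf (nat_lit 0) (nat_lit 55045061493) (nat_lit 76) (nat_lit 11208875884) (nat_lit 76) (nat_lit 11028031898) (nat_lit 9) (nat_lit 4) (nat_lit 10) (nat_lit 5) (nat_lit 10) (nat_lit 4) (nat_lit 505) (nat_lit 350) (nat_lit 345)) (XT.lf (nat_lit 0) (nat_lit 330234709) (nat_lit 152) (nat_lit 80117603643) (nat_lit 0) (nat_lit 128316896) (nat_lit 7) (nat_lit 5) (nat_lit 9) (nat_lit 4) (nat_lit 7) (nat_lit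 4) (nat_lit 506) (nat_lit 350) (nat_lit 344))) (XT.nd (nat_lit 78) (nat_lit 0) (nat_lit 0) (XT.lf (nat_lit 0) (nat_lit 12102589050) (nat_lit 152) (nat_lit 60040183576) (nat_lit 0) (nat_lit 11872399384) (nat_lit 7) (nat_lit 5) (nat_lit 9) (nat_lit 4) (nat_lit 7) (nat_lit 4) (nat_lit 507) (nat_lit 350) (nat_lit 343)) (XT.lf (nat_lit 0) (nat_lit 24130484994) (nat_lit 152) (nat_lit 39638938945) (nat_lit 0) (nat_lit 23873369754) (nat_lit 7) (nat_lit 5) (nat_lit 9) (nat_lit 4) (nat_lit 7) (nat_lit 4) (nat_lit 508) (nat_lit 350) (nat_lit 342)))))))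
noncomputable def xc25 : XT := (XT.nd (nat_lit 1248) (nat_lit 152) (nat_lit 0) (XT.nd (nat_lit 624) (nat_lit 76) (nat_lit 0) (XT.nd (nat_lit 312) (nat_lit 152) (nat_lit 0) (XT.nd (nat_lit 156) (nat_lit 0) (nat_lit 0) (XT.nd (nat_lit 78) (nat_lit 76) (nat_lit 0) (XT.lf (nat_lit 0) (nat_lit 36442560388) (nat_lit 152) (nat_lit 18865295359) (nat_lit 0) (nat_lit 36159801744) (nat_lit 7) (nat_lit 5) (nat_lit 9) (nat_lit 4) (nat_lit 7) (nat_lit 4) (nat_lit 509) (nat_lit 350) (nat_lit 341)) (XT.lf (nat_lit 0) (nat_lit 2407255446) (nat_lit 76) (nat_lit 46698458255) (nat_lit 76) (nat_lit 46391277321) (nat_lit 6) (nat_lit 4) (nat_lit 7) (nat_lit 5) (nat_lit 7) (nat_lit 4) (nat_lit 510) (nat_lit 350) (nat_lit 340))) (XT.nd (nat_lit 78) (nat_lit 0) (nat_lit 0) (XT.lf (nat_lit 0) (nat_lit 24791520826) (nat_lit 76) (nat_lit 37632798094) (nat_lit 76) (nat_lit 37302357837) (nat_lit 6) (nat_lit 4) (nat_lit 7) (nat_lit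 5) (nat_lit 7) (nat_lit 4) (nat_lit 511) (nat_lit 350) (nat_lit 339)) (XT.lf (nat_lit 0) (nat_lit 47717024786) (nat_lit 76) (nat_lit 28408783266) (nat_lit 76) (nat_lit 28056191273) (nat_lit 6) (nat_lit 4) (nat_lit 7) (nat_lit 5) (nat_lit 7) (nat_lit 4) (nat_lit 512) (nat_lit 350) (nat_lit 338)))) (XT.nd (nat_lit 156) (nat_lit 152) (nat_lit 0) (XT.nd (nat_lit 78) (nat_lit 0) (nat_lit 0) (XT.lf (nat_lit 0) (nat_lit 71238351859) (nat_lit 76) (nat_lit 19004451830) (nat_lit 76) (nat_lit 18630762945) (nat_lit 6) (nat_lit 4) (nat_lit 7) (nat_lit 5) (nat_lit 7) (nat_lit 4) (nat_lit 513) (nat_lit 350) (nat_lit 337)) (XT.lf (nat_lit 0) (nat_lit 95411505207) (nat_lit 76) (nat_lit 9397412521) (nat_lit 76) (nat_lit 9003631357) (nat_lit 6) (nat_lit 4) (nat_lit 7) (nat_lit 5) (nat_lit 7) (nat_lit 4) (nat_lit 514) (nat_lit 350) (nat_lit 336))) (XT.nd (nat_lit 78) (nat_lit 0) (nat_lit 0) (XT.lf (nat_lit 0) (nat_lit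 848813010) (nat_lit 152) (nat_lit 117704280371) (nat_lit 0) (nat_lit 455559042) (nat_lit 4) (nat_lit 5) (nat_lit 6) (nat_lit 4) (nat_lit 4) (nat_lit 4) (nat_lit 515) (nat_lit 350) (nat_lit 335)) (XT.lf (nat_lit 0) (nat_lit 11113638989) (nat_lit 152) (nat_lit 102629396515) (nat_lit 0) (nat_lit 10703028556) (nat_lit 4) (nat_lit 5) (nat_lit 6) (nat_lit 4) (nat_lit 4) (nat_lit 4) (nat_lit 516) (nat_lit 350) (nat_lit 334))))) (XT.nd (nat_lit 312) (nat_lit 76) (nat_lit 0) (XT.nd (nat_lit 156) (nat_lit 0) (nat_lit 0) (XT.nd (nat_lit 78) (nat_lit 0) (nat_lit 0) (XT.lf (nat_lit 0) (nat_lit 21655082670) (nat_lit 152) (nat_lit 87284152689) (nat_lit 0) (nat_lit 21227942270) (nat_lit 4) (nat_lit 5) (nat_lit 6) (nat_lit 4) (nat_lit 4) (nat_lit 4) (nat_lit 517) (nat_lit 350) (nat_lit 333)) (XT.lf (nat_lit 0) (nat_lit 32498242728) (nat_lit 152) (nat_lit 71632012598) (nat_lit 0) (nat_lit 32055359502) (nat_lit 4)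 (nat_lit 5) (nat_lit 6) (nat_lit 4) (nat_lit 4) (nat_lit 4) (nat_lit 518) (nat_lit 350) (nat_lit 332))) (XT.nd (nat_lit 78) (nat_lit 0) (nat_lit 0) (XT.lf (nat_lit 0) (nat_lit 43668936211) (nat_lit 152) (nat_lit 55635709241) (nat_lit 0) (nat_lit 43211059818) (nat_lit 4) (nat_lit 5) (nat_lit 6) (nat_lit 4) (nat_lit 4) (nat_lit 4) (nat_lit 519) (nat_lit 350) (nat_lit 331)) (XT.lf (nat_lit 0) (nat_lit 55193760008) (nat_lit 152) (nat_lit 39257156183) (nat_lit 0) (nat_lit 54721604408) (nat_lit 4) (nat_lit 5) (nat_lit 6) (nat_lit 4) (nat_lit 4) (nat_lit 4) (nat_lit 520) (nat_lit 350) (nat_lit 330)))) (XT.nd (nat_lit 156) (nat_lit 76) (nat_lit 0) (XT.nd (nat_lit 78) (nat_lit 0) (nat_lit 0) (XT.lf (nat_lit 0) (nat_lit 67100154175) (nat_lit 152) (nat_lit 22457356868) (nat_lit 0) (nat_lit 66614399331) (nat_lit 4) (nat_lit 5) (nat_lit 6) (nat_lit 4) (nat_lit 4) (nat_lit 4) (nat_lit 521) (nat_lit 350) (nat_lit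 329)) (XT.lf (nat_lit 0) (nat_lit 79416467271) (nat_lit 152) (nat_lit 5196311774) (nat_lit 0) (nat_lit 78917760765) (nat_lit 4) (nat_lit 5) (nat_lit 6) (nat_lit 4) (nat_lit 4) (nat_lit 4) (nat_lit 522) (nat_lit 350) (nat_lit 328))) (XT.nd (nat_lit 78) (nat_lit 0) (nat_lit 0) (XT.lf (nat_lit 0) (nat_lit 12982601138) (nat_lit 76) (nat_lit 79392117500) (nat_lit 76) (nat_lit 78881076078) (nat_lit 3) (nat_lit 4) (nat_lit 4) (nat_lit 5) (nat_lit 4) (nat_lit 4) (nat_lit 523) (nat_lit 350) (nat_lit 327)) (XT.lf (nat_lit 0) (nat_lit 31895973042) (nat_lit 76) (nat_lit 73999206772) (nat_lit 76) (nat_lit 73476417811) (nat_lit 3) (nat_lit 4) (nat_lit 4) (nat_lit 5) (nat_lit 4) (nat_lit 4) (nat_lit 524) (nat_lit 350) (nat_lit 326)))))) (XT.nd (nat_lit 624) (nat_lit 152) (nat_lit 0) (XT.nd (nat_lit 312) (nat_lit 0) (nat_lit 0) (XT.nd (nat_lit 156) (nat_lit 0) (nat_lit 0) (XT.nd (nat_lit 78) (nat_lit 0) (nat_lit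 0) (XT.lf (nat_lit 0) (nat_lit 51417022239) (nat_lit 76) (nat_lit 68509208653) (nat_lit 76) (nat_lit 67975231560) (nat_lit 3) (nat_lit 4) (nat_lit 4) (nat_lit 5) (nat_lit 4) (nat_lit 4) (nat_lit 525) (nat_lit 350) (nat_lit 325)) (XT.lf (nat_lit 0) (nat_lit 71592227419) (nat_lit 76) (nat_lit 62909051718) (nat_lit 76) (nat_lit 62364419261) (nat_lit 3) (nat_lit 4) (nat_lit 4) (nat_lit 5) (nat_lit 4) (nat_lit 4) (nat_lit 526) (nat_lit 350) (nat_lit 324))) (XT.nd (nat_lit 78) (nat_lit 0) (nat_lit 0) (XT.lf (nat_lit 0) (nat_lit 92469624785) (nat_lit 76) (nat_lit 57185402262) (nat_lit 76) (nat_lit 56630621839) (nat_lit 3) (nat_lit 4) (nat_lit 4) (nat_lit 5) (nat_lit 4) (nat_lit 4) (nat_lit 527) (nat_lit 350) (nat_lit 323)) (XT.lf (nat_lit 0) (nat_lit 114098922424) (nat_lit 76) (nat_lit 51324632546) (nat_lit 76) (nat_lit 50760187394) (nat_lit 3) (nat_lit 4) (nat_lit 4) (nat_lit 5) (nat_lit 4) (nat_lit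 4) (nat_lit 528) (nat_lit 350) (nat_lit 322)))) (XT.nd (nat_lit 156) (nat_lit 0) (nat_lit 0) (XT.nd (nat_lit 78) (nat_lit 0) (nat_lit 0) (XT.lf (nat_lit 0) (nat_lit 136531618666) (nat_lit 76) (nat_lit 45312788358) (nat_lit 76) (nat_lit 44739138702) (nat_lit 3) (nat_lit 4) (nat_lit 4) (nat_lit 5) (nat_lit 4) (nat_lit 4) (nat_lit 529) (nat_lit 350) (nat_lit 321)) (XT.lf (nat_lit 0) (nat_lit 159821124691) (nat_lit 76) (nat_lit 39135555783) (nat_lit 76) (nat_lit 38553139932) (nat_lit 3) (nat_lit 4) (nat_lit 4) (nat_lit 5) (nat_lit 4) (nat_lit 4) (nat_lit 530) (nat_lit 350) (nat_lit 320))) (XT.nd (nat_lit 78) (nat_lit 0) (nat_lit 0) (XT.lf (nat_lit 0) (nat_lit 184022891704) (nat_lit 76) (nat_lit 32778227123) (nat_lit 76) (nat_lit 32187462516) (nat_lit 3) (nat_lit 4) (nat_lit 4) (nat_lit 5) (nat_lit 4) (nat_lit 4) (nat_lit 531) (nat_lit 350) (nat_lit 319)) (XT.lf (nat_lit 0) (nat_lit 209194542960) (nat_lit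 76) (nat_lit 26225665883) (nat_lit 76) (nat_lit 25626950079) (nat_lit 3) (nat_lit 4) (nat_lit 4) (nat_lit 5) (nat_lit 4) (nat_lit 4) (nat_lit 532) (nat_lit 350) (nat_lit 318))))) (XT.nd (nat_lit 312) (nat_lit 0) (nat_lit 0) (XT.nd (nat_lit 156) (nat_lit 152) (nat_lit 0) (XT.nd (nat_lit 78) (nat_lit 0) (nat_lit 0) (XT.lf (nat_lit 0) (nat_lit 235396010962) (nat_lit 76) (nat_lit 19462270726) (nat_lit 76) (nat_lit 18855982354) (nat_lit 3) (nat_lit 4) (nat_lit 4) (nat_lit 5) (nat_lit 4) (nat_lit 4) (nat_lit 533) (nat_lit 350) (nat_lit 317)) (XT.lf (nat_lit 0) (nat_lit 262689680158) (nat_lit 76) (nat_lit 12471938330) (nat_lit 76) (nat_lit 11858437988) (nat_lit 3) (nat_lit 4) (nat_lit 4) (nat_lit 5) (nat_lit 4) (nat_lit 4) (nat_lit 534) (nat_lit 350) (nat_lit 316))) (XT.nd (nat_lit 78) (nat_lit 152) (nat_lit 0) (XT.lf (nat_lit 0) (nat_lit 291140535475) (nat_lit 76) (nat_lit 5238025046) (nat_lit 76) (nat_lit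 4617656162) (nat_lit 3) (nat_lit 4) (nat_lit 4) (nat_lit 5) (nat_lit 4) (nat_lit 4) (nat_lit 535) (nat_lit 350) (nat_lit 315)) (XT.lf (nat_lit 0) (nat_lit 2910810216) (nat_lit 152) (nat_lit 310443232204) (nat_lit 0) (nat_lit 2313752736) (nat_lit 1) (nat_lit 5) (nat_lit 3) (nat_lit 4) (nat_lit 1) (nat_lit 4) (nat_lit 536) (nat_lit 350) (nat_lit 314)))) (XT.nd (nat_lit 156) (nat_lit 0) (nat_lit 0) (XT.nd (nat_lit 78) (nat_lit 0) (nat_lit 0) (XT.lf (nat_lit 0) (nat_lit 10817741993) (nat_lit 152) (nat_lit 310028813168) (nat_lit 0) (nat_lit 10214751208) (nat_lit 1) (nat_lit 5) (nat_lit 3) (nat_lit 4) (nat_lit 1) (nat_lit 4) (nat_lit 537) (nat_lit 350) (nat_lit 313)) (XT.lf (nat_lit 0) (nat_lit 19026410236) (nat_lit 152) (nat_lit 309784994786) (nat_lit 0) (nat_lit 18417768684) (nat_lit 1) (nat_lit 5) (nat_lit 3) (nat_lit 4) (nat_lit 1) (nat_lit 4) (nat_lit 538) (nat_lit 350) (nat_lit 312))) (XT.nd (nat_lit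 78) (nat_lit 0) (nat_lit 0) (XT.lf (nat_lit 0) (nat_lit 27556359395) (nat_lit 152) (nat_lit 309711196536) (nat_lit 0) (nat_lit 26942336160) (nat_lit 1) (nat_lit 5) (nat_lit 3) (nat_lit 4) (nat_lit 1) (nat_lit 4) (nat_lit 539) (nat_lit 350) (nat_lit 311)) (XT.nd (nat_lit 78) (nat_lit 0) (nat_lit 0) (XT.lf (nat_lit 0) (nat_lit 36427898872) (nat_lit 152) (nat_lit 309807242710) (nat_lit 0) (nat_lit 35808750224) (nat_lit 1) (nat_lit 5) (nat_lit 3) (nat_lit 4) (nat_lit 1) (nat_lit 4) (nat_lit 540) (nat_lit 350) (nat_lit 310)) (XT.lf (nat_lit 0) (nat_lit 45662151379) (nat_lit 152) (nat_lit 310073361987) (nat_lit 0) (nat_lit 45038121387) (nat_lit 1) (nat_lit 5) (nat_lit 3) (nat_lit 4) (nat_lit 1) (nat_lit 4) (nat_lit 541) (nat_lit 350) (nat_lit 309))))))))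
noncomputable def xc26 : XT := (XT.nd (nat_lit 59046) (nat_lit 0) (nat_lit 380) (XT.nd (nat_lit 624) (nat_lit 0) (nat_lit 0) (XT.nd (nat_lit 312) (nat_lit 0) (nat_lit 0) (XT.nd (nat_lit 156) (nat_lit 0) (nat_lit 0) (XT.nd (nat_lit 78) (nat_lit 0) (nat_lit 0) (XT.lf (nat_lit 0) (nat_lit 55281103232) (nat_lit 152) (nat_lit 310510187987) (nat_lit 0) (nat_lit 54652424340) (nat_lit 1) (nat_lit 5) (nat_lit 3) (nat_lit 4) (nat_lit 1) (nat_lit 4) (nat_lit 542) (nat_lit 350) (nat_lit 308)) (XT.lf (nat_lit 0) (nat_lit 65307656699) (nat_lit 152) (nat_lit 311118760769) (nat_lit 0) (nat_lit 64674550282) (nat_lit 1) (nat_lit 5) (nat_lit 3) (nat_lit 4) (nat_lit 1) (nat_lit 4) (nat_lit 543) (nat_lit 350) (nat_lit 307))) (XT.nd (nat_lit 78) (nat_lit 0) (nat_lit 0) (XT.lf (nat_lit 0) (nat_lit 75765684524) (nat_lit 152) (nat_lit 311900529318) (nat_lit 0) (nat_lit 75128361418) (nat_lit 1) (nat_lit 5) (nat_lit 3) (nat_lit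 4) (nat_lit 1) (nat_lit 4) (nat_lit 544) (nat_lit 350) (nat_lit 306)) (XT.lf (nat_lit 0) (nat_lit 86680086774) (nat_lit 152) (nat_lit 312857354987) (nat_lit 0) (nat_lit 86038747774) (nat_lit 1) (nat_lit 5) (nat_lit 3) (nat_lit 4) (nat_lit 1) (nat_lit 4) (nat_lit 545) (nat_lit 350) (nat_lit 305)))) (XT.nd (nat_lit 156) (nat_lit 0) (nat_lit 0) (XT.nd (nat_lit 78) (nat_lit 0) (nat_lit 0) (XT.lf (nat_lit 0) (nat_lit 98076850121) (nat_lit 152) (nat_lit 313991515932) (nat_lit 0) (nat_lit 97431686460) (nat_lit 1) (nat_lit 5) (nat_lit 3) (nat_lit 4) (nat_lit 1) (nat_lit 4) (nat_lit 546) (nat_lit 350) (nat_lit 304)) (XT.lf (nat_lit 0) (nat_lit 109983109717) (nat_lit 152) (nat_lit 315305712537) (nat_lit 0) (nat_lit 109334303520) (nat_lit 1) (nat_lit 5) (nat_lit 3) (nat_lit 4) (nat_lit 1) (nat_lit 4) (nat_lit 547) (nat_lit 350) (nat_lit 303))) (XT.nd (nat_lit 78) (nat_lit 0) (nat_lit 0) (XT.lf (nat_lit 0)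 (nat_lit 122427213797) (nat_lit 152) (nat_lit 316803073841) (nat_lit 0) (nat_lit 121774938520) (nat_lit 1) (nat_lit 5) (nat_lit 3) (nat_lit 4) (nat_lit 1) (nat_lit 4) (nat_lit 548) (nat_lit 350) (nat_lit 302)) (XT.lf (nat_lit 0) (nat_lit 135438791182) (nat_lit 152) (nat_lit 318487164990) (nat_lit 0) (nat_lit 134783212019) (nat_lit 1) (nat_lit 5) (nat_lit 3) (nat_lit 4) (nat_lit 1) (nat_lit 4) (nat_lit 549) (nat_lit 350) (nat_lit 301))))) (XT.nd (nat_lit 312) (nat_lit 0) (nat_lit 0) (XT.nd (nat_lit 156) (nat_lit 0) (nat_lit 0) (XT.nd (nat_lit 78) (nat_lit 0) (nat_lit 0) (XT.lf (nat_lit 0) (nat_lit 149048821818) (nat_lit 152) (nat_lit 320361995725) (nat_lit 0) (nat_lit 148390096096) (nat_lit 1) (nat_lit 5) (nat_lit 3) (nat_lit 4) (nat_lit 1) (nat_lit 4) (nat_lit 550) (nat_lit 350) (nat_lit 300)) (XT.lf (nat_lit 0) (nat_lit 163289710539) (nat_lit 152) (nat_lit 322432029928) (nat_lit 0) (nat_lit 162627988094)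 (nat_lit 1) (nat_lit 5) (nat_lit 3) (nat_lit 4) (nat_lit 1) (nat_lit 4) (nat_lit 551) (nat_lit 350) (nat_lit 299))) (XT.nd (nat_lit 78) (nat_lit 0) (nat_lit 0) (XT.lf (nat_lit 0) (nat_lit 178195364223) (nat_lit 152) (nat_lit 324702196253) (nat_lit 0) (nat_lit 177530787757) (nat_lit 1) (nat_lit 5) (nat_lit 3) (nat_lit 4) (nat_lit 1) (nat_lit 4) (nat_lit 552) (nat_lit 350) (nat_lit 298)) (XT.lf (nat_lit 0) (nat_lit 193801272523) (nat_lit 152) (nat_lit 327177899857) (nat_lit 0) (nat_lit 193133977941) (nat_lit 1) (nat_lit 5) (nat_lit 3) (nat_lit 4) (nat_lit 1) (nat_lit 4) (nat_lit 553) (nat_lit 350) (nat_lit 297)))) (XT.nd (nat_lit 156) (nat_lit 0) (nat_lit 0) (XT.nd (nat_lit 78) (nat_lit 0) (nat_lit 0) (XT.lf (nat_lit 0) (nat_lit 210144592361) (nat_lit 152) (nat_lit 329865035272) (nat_lit 0) (nat_lit 209474709098) (nat_lit 1) (nat_lit 5) (nat_lit 3) (nat_lit 4) (nat_lit 1) (nat_lit 4) (nat_lit 554)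 (nat_lit 350) (nat_lit 296)) (XT.lf (nat_lit 0) (nat_lit 227264236406) (nat_lit 152) (nat_lit 332770000441) (nat_lit 0) (nat_lit 226591887732) (nat_lit 1) (nat_lit 5) (nat_lit 3) (nat_lit 4) (nat_lit 1) (nat_lit 4) (nat_lit 555) (nat_lit 350) (nat_lit 295))) (XT.nd (nat_lit 78) (nat_lit 0) (nat_lit 0) (XT.lf (nat_lit 0) (nat_lit 245200965713) (nat_lit 152) (nat_lit 335899711947) (nat_lit 0) (nat_lit 244526269029) (nat_lit 1) (nat_lit 5) (nat_lit 3) (nat_lit 4) (nat_lit 1) (nat_lit 4) (nat_lit 556) (nat_lit 350) (nat_lit 294)) (XT.lf (nat_lit 0) (nat_lit 263997486782) (nat_lit 152) (nat_lit 339261621484) (nat_lit 0) (nat_lit 263320553897) (nat_lit 1) (nat_lit 5) (nat_lit 3) (nat_lit 4) (nat_lit 1) (nat_lit 4) (nat_lit 557) (nat_lit 350) (nat_lit 293)))))) (XT.nd (nat_lit 624) (nat_lit 228) (nat_lit 0) (XT.nd (nat_lit 312) (nat_lit 76) (nat_lit 0) (XT.nd (nat_lit 156) (nat_lit 152) (nat_lit 0) (XT.nd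 (nat_lit 78) (nat_lit 0) (nat_lit 0) (XT.lf (nat_lit 0) (nat_lit 3888768633) (nat_lit 76) (nat_lit 12680371226) (nat_lit 76) (nat_lit 12680371226) (nat_lit 12) (nat_lit 4) (nat_lit 13) (nat_lit 5) (nat_lit 13) (nat_lit 4) (nat_lit 498) (nat_lit 351) (nat_lit 351)) (XT.lf (nat_lit 0) (nat_lit 33980911538) (nat_lit 76) (nat_lit 13426984655) (nat_lit 76) (nat_lit 13383125732) (nat_lit 12) (nat_lit 4) (nat_lit 13) (nat_lit 5) (nat_lit 13) (nat_lit 4) (nat_lit 499) (nat_lit 351) (nat_lit 350))) (XT.nd (nat_lit 78) (nat_lit 152) (nat_lit 0) (XT.lf (nat_lit 0) (nat_lit 60681555604) (nat_lit 76) (nat_lit 1310813519) (nat_lit 76) (nat_lit 1225184192) (nat_lit 12) (nat_lit 4) (nat_lit 13) (nat_lit 5) (nat_lit 13) (nat_lit 4) (nat_lit 500) (nat_lit 351) (nat_lit 349)) (XT.lf (nat_lit 0) (nat_lit 11320671944) (nat_lit 152) (nat_lit 43227027876) (nat_lit 0) (nat_lit 11201233218) (nat_lit 10) (nat_lit 5) (nat_lit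 12) (nat_lit 4) (nat_lit 10) (nat_lit 4) (nat_lit 501) (nat_lit 351) (nat_lit 348)))) (XT.nd (nat_lit 156) (nat_lit 0) (nat_lit 0) (XT.nd (nat_lit 78) (nat_lit 76) (nat_lit 0) (XT.lf (nat_lit 0) (nat_lit 24132045830) (nat_lit 152) (nat_lit 20313337823) (nat_lit 0) (nat_lit 23976524259) (nat_lit 10) (nat_lit 5) (nat_lit 12) (nat_lit 4) (nat_lit 10) (nat_lit 4) (nat_lit 502) (nat_lit 351) (nat_lit 347)) (XT.lf (nat_lit 0) (nat_lit 3095519365) (nat_lit 76) (nat_lit 34169425441) (nat_lit 76) (nat_lit 33979539256) (nat_lit 9) (nat_lit 4) (nat_lit 10) (nat_lit 5) (nat_lit 10) (nat_lit 4) (nat_lit 503) (nat_lit 351) (nat_lit 346))) (XT.nd (nat_lit 78) (nat_lit 0) (nat_lit 0) (XT.lf (nat_lit 0) (nat_lit 27642549531) (nat_lit 76) (nat_lit 23394561548) (nat_lit 76) (nat_lit 23171947159) (nat_lit 9) (nat_lit 4) (nat_lit 10) (nat_lit 5) (nat_lit 10) (nat_lit 4) (nat_lit 504) (nat_lit 351) (nat_lit 345)) (XT.lf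 (nat_lit 0) (nat_lit 52714547297) (nat_lit 76) (nat_lit 12439153742) (nat_lit 76) (nat_lit 12185369636) (nat_lit 9) (nat_lit 4) (nat_lit 10) (nat_lit 5) (nat_lit 10) (nat_lit 4) (nat_lit 505) (nat_lit 351) (nat_lit 344))))) (XT.nd (nat_lit 312) (nat_lit 76) (nat_lit 0) (XT.nd (nat_lit 156) (nat_lit 0) (nat_lit 0) (XT.nd (nat_lit 78) (nat_lit 152) (nat_lit 0) (XT.lf (nat_lit 0) (nat_lit 78371207897) (nat_lit 76) (nat_lit 1277117720) (nat_lit 76) (nat_lit 993648168) (nat_lit 9) (nat_lit 4) (nat_lit 10) (nat_lit 5) (nat_lit 10) (nat_lit 4) (nat_lit 506) (nat_lit 351) (nat_lit 343)) (XT.lf (nat_lit 0) (nat_lit 10590867909) (nat_lit 152) (nat_lit 63207909182) (nat_lit 0) (nat_lit 10293971333) (nat_lit 7) (nat_lit 5) (nat_lit 9) (nat_lit 4) (nat_lit 7) (nat_lit 4) (nat_lit 507) (nat_lit 351) (nat_lit 342))) (XT.nd (nat_lit 78) (nat_lit 0) (nat_lit 0) (XT.lf (nat_lit 0) (nat_lit 22464024659) (nat_lit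 152) (nat_lit 43122597857) (nat_lit 0) (nat_lit 22141484679) (nat_lit 7) (nat_lit 5) (nat_lit 9) (nat_lit 4) (nat_lit 7) (nat_lit 4) (nat_lit 508) (nat_lit 351) (nat_lit 341)) (XT.lf (nat_lit 0) (nat_lit 34628729393) (nat_lit 152) (nat_lit 22649843133) (nat_lit 0) (nat_lit 34281767123) (nat_lit 7) (nat_lit 5) (nat_lit 9) (nat_lit 4) (nat_lit 7) (nat_lit 4) (nat_lit 509) (nat_lit 351) (nat_lit 340)))) (XT.nd (nat_lit 156) (nat_lit 0) (nat_lit 0) (XT.nd (nat_lit 78) (nat_lit 76) (nat_lit 0) (XT.lf (nat_lit 0) (nat_lit 47113945692) (nat_lit 152) (nat_lit 1740900355) (nat_lit 0) (nat_lit 46743724099) (nat_lit 7) (nat_lit 5) (nat_lit 9) (nat_lit 4) (nat_lit 7) (nat_lit 4) (nat_lit 510) (nat_lit 351) (nat_lit 339)) (XT.lf (nat_lit 0) (nat_lit 20303864123) (nat_lit 76) (nat_lit 39962536361) (nat_lit 76) (nat_lit 39570163031) (nat_lit 6) (nat_lit 4) (nat_lit 7) (nat_lit 5) (nat_lit 7) (nat_lit 4) (nat_lit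 511) (nat_lit 351) (nat_lit 338))) (XT.nd (nat_lit 78) (nat_lit 0) (nat_lit 0) (XT.lf (nat_lit 0) (nat_lit 42960854871) (nat_lit 76) (nat_lit 30875538183) (nat_lit 76) (nat_lit 30462067961) (nat_lit 6) (nat_lit 4) (nat_lit 7) (nat_lit 5) (nat_lit 7) (nat_lit 4) (nat_lit 512) (nat_lit 351) (nat_lit 337)) (XT.nd (nat_lit 78) (nat_lit 0) (nat_lit 0) (XT.lf (nat_lit 0) (nat_lit 66226455076) (nat_lit 76) (nat_lit 21601698795) (nat_lit 76) (nat_lit 21168136295) (nat_lit 6) (nat_lit 4) (nat_lit 7) (nat_lit 5) (nat_lit 7) (nat_lit 4) (nat_lit 513) (nat_lit 351) (nat_lit 336)) (XT.lf (nat_lit 0) (nat_lit 90156059025) (nat_lit 76) (nat_lit 12118937627) (nat_lit 76) (nat_lit 11666239624) (nat_lit 6) (nat_lit 4) (nat_lit 7) (nat_lit 5) (nat_lit 7) (nat_lit 4) (nat_lit 514) (nat_lit 351) (nat_lit 335))))))))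
noncomputable def xc27 : XT := (XT.nd (nat_lit 1248) (nat_lit 152) (nat_lit 0) (XT.nd (nat_lit 624) (nat_lit 76) (nat_lit 0) (XT.nd (nat_lit 312) (nat_lit 0) (nat_lit 0) (XT.nd (nat_lit 156) (nat_lit 0) (nat_lit 0) (XT.nd (nat_lit 78) (nat_lit 152) (nat_lit 0) (XT.lf (nat_lit 0) (nat_lit 114806641965) (nat_lit 76) (nat_lit 2404676676) (nat_lit 76) (nat_lit 1933754385) (nat_lit 6) (nat_lit 4) (nat_lit 7) (nat_lit 5) (nat_lit 7) (nat_lit 4) (nat_lit 515) (nat_lit 351) (nat_lit 334)) (XT.lf (nat_lit 0) (nat_lit 8168872103) (nat_lit 152) (nat_lit 108722482078) (nat_lit 0) (nat_lit 7703844716) (nat_lit 4) (nat_lit 5) (nat_lit 6) (nat_lit 4) (nat_lit 4) (nat_lit 4) (nat_lit 516) (nat_lit 351) (nat_lit 333))) (XT.nd (nat_lit 78) (nat_lit 0) (nat_lit 0) (XT.lf (nat_lit 0) (nat_lit 18600386121) (nat_lit 152) (nat_lit 93601806997) (nat_lit 0) (nat_lit 18119615909) (nat_lit 4) (nat_lit 5) (nat_lit 6) (nat_lit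 4) (nat_lit 4) (nat_lit 4) (nat_lit 517) (nat_lit 351) (nat_lit 332)) (XT.lf (nat_lit 0) (nat_lit 29338851263) (nat_lit 152) (nat_lit 78163541900) (nat_lit 0) (nat_lit 28843087883) (nat_lit 4) (nat_lit 5) (nat_lit 6) (nat_lit 4) (nat_lit 4) (nat_lit 4) (nat_lit 518) (nat_lit 351) (nat_lit 331)))) (XT.nd (nat_lit 156) (nat_lit 0) (nat_lit 0) (XT.nd (nat_lit 78) (nat_lit 0) (nat_lit 0) (XT.lf (nat_lit 0) (nat_lit 40409835302) (nat_lit 152) (nat_lit 62370929015) (nat_lit 0) (nat_lit 39899792715) (nat_lit 4) (nat_lit 5) (nat_lit 6) (nat_lit 4) (nat_lit 4) (nat_lit 4) (nat_lit 519) (nat_lit 351) (nat_lit 330)) (XT.lf (nat_lit 0) (nat_lit 51839697724) (nat_lit 152) (nat_lit 46186366882) (nat_lit 0) (nat_lit 51316055893) (nat_lit 4) (nat_lit 5) (nat_lit 6) (nat_lit 4) (nat_lit 4) (nat_lit 4) (nat_lit 520) (nat_lit 351) (nat_lit 329))) (XT.nd (nat_lit 78) (nat_lit 0) (nat_lit 0) (XT.lf (nat_lit 0) (nat_lit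 63655652487) (nat_lit 152) (nat_lit 29571320829) (nat_lit 0) (nat_lit 63119058994) (nat_lit 4) (nat_lit 5) (nat_lit 6) (nat_lit 4) (nat_lit 4) (nat_lit 4) (nat_lit 521) (nat_lit 351) (nat_lit 328)) (XT.lf (nat_lit 0) (nat_lit 75885832816) (nat_lit 152) (nat_lit 12486231223) (nat_lit 0) (nat_lit 75336904408) (nat_lit 4) (nat_lit 5) (nat_lit 6) (nat_lit 4) (nat_lit 4) (nat_lit 4) (nat_lit 522) (nat_lit 351) (nat_lit 327))))) (XT.nd (nat_lit 312) (nat_lit 0) (nat_lit 0) (XT.nd (nat_lit 156) (nat_lit 0) (nat_lit 0) (XT.nd (nat_lit 78) (nat_lit 0) (nat_lit 0) (XT.lf (nat_lit 0) (nat_lit 5278526535) (nat_lit 76) (nat_lit 83363244246) (nat_lit 76) (nat_lit 82802568299) (nat_lit 3) (nat_lit 4) (nat_lit 4) (nat_lit 5) (nat_lit 4) (nat_lit 4) (nat_lit 523) (nat_lit 351) (nat_lit 326)) (XT.lf (nat_lit 0) (nat_lit 24027024633) (nat_lit 76) (nat_lit 78054508223) (nat_lit 76) (nat_lit 77482644144) (nat_lit 3)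 (nat_lit 4) (nat_lit 4) (nat_lit 5) (nat_lit 4) (nat_lit 4) (nat_lit 524) (nat_lit 351) (nat_lit 325))) (XT.nd (nat_lit 78) (nat_lit 0) (nat_lit 0) (XT.lf (nat_lit 0) (nat_lit 43391051159) (nat_lit 76) (nat_lit 72644676490) (nat_lit 76) (nat_lit 72062157046) (nat_lit 3) (nat_lit 4) (nat_lit 4) (nat_lit 5) (nat_lit 4) (nat_lit 4) (nat_lit 525) (nat_lit 351) (nat_lit 324)) (XT.lf (nat_lit 0) (nat_lit 63416710937) (nat_lit 76) (nat_lit 67120868494) (nat_lit 76) (nat_lit 66528201085) (nat_lit 3) (nat_lit 4) (nat_lit 4) (nat_lit 5) (nat_lit 4) (nat_lit 4) (nat_lit 526) (nat_lit 351) (nat_lit 323)))) (XT.nd (nat_lit 156) (nat_lit 0) (nat_lit 0) (XT.nd (nat_lit 78) (nat_lit 0) (nat_lit 0) (XT.lf (nat_lit 0) (nat_lit 84151684110) (nat_lit 76) (nat_lit 61469932313) (nat_lit 76) (nat_lit 60867600174) (nat_lit 3) (nat_lit 4) (nat_lit 4) (nat_lit 5) (nat_lit 4) (nat_lit 4) (nat_lit 527) (nat_lit 351) (nat_lit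 322)) (XT.lf (nat_lit 0) (nat_lit 105645339662) (nat_lit 76) (nat_lit 55678413335) (nat_lit 76) (nat_lit 55066876692) (nat_lit 3) (nat_lit 4) (nat_lit 4) (nat_lit 5) (nat_lit 4) (nat_lit 4) (nat_lit 528) (nat_lit 351) (nat_lit 321))) (XT.nd (nat_lit 78) (nat_lit 0) (nat_lit 0) (XT.lf (nat_lit 0) (nat_lit 127948852962) (nat_lit 76) (nat_lit 49732522231) (nat_lit 76) (nat_lit 49112219394) (nat_lit 3) (nat_lit 4) (nat_lit 4) (nat_lit 5) (nat_lit 4) (nat_lit 4) (nat_lit 529) (nat_lit 351) (nat_lit 320)) (XT.lf (nat_lit 0) (nat_lit 151115327615) (nat_lit 76) (nat_lit 43618102117) (nat_lit 76) (nat_lit 42989450523) (nat_lit 3) (nat_lit 4) (nat_lit 4) (nat_lit 5) (nat_lit 4) (nat_lit 4) (nat_lit 530) (nat_lit 351) (nat_lit 319)))))) (XT.nd (nat_lit 624) (nat_lit 0) (nat_lit 0) (XT.nd (nat_lit 312) (nat_lit 152) (nat_lit 0) (XT.nd (nat_lit 156) (nat_lit 0) (nat_lit 0) (XT.nd (nat_lit 78) (nat_lit 0) (nat_lit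 0) (XT.lf (nat_lit 0) (nat_lit 175199921893) (nat_lit 76) (nat_lit 37320594848) (nat_lit 76) (nat_lit 36683992058) (nat_lit 3) (nat_lit 4) (nat_lit 4) (nat_lit 5) (nat_lit 4) (nat_lit 4) (nat_lit 531) (nat_lit 351) (nat_lit 318)) (XT.lf (nat_lit 0) (nat_lit 200259980068) (nat_lit 76) (nat_lit 30825006362) (nat_lit 76) (nat_lit 30180831003) (nat_lit 3) (nat_lit 4) (nat_lit 4) (nat_lit 5) (nat_lit 4) (nat_lit 4) (nat_lit 532) (nat_lit 351) (nat_lit 317))) (XT.nd (nat_lit 78) (nat_lit 0) (nat_lit 0) (XT.lf (nat_lit 0) (nat_lit 226355168945) (nat_lit 76) (nat_lit 24115870970) (nat_lit 76) (nat_lit 23464483641) (nat_lit 3) (nat_lit 4) (nat_lit 4) (nat_lit 5) (nat_lit 4) (nat_lit 4) (nat_lit 533) (nat_lit 351) (nat_lit 316)) (XT.lf (nat_lit 0) (nat_lit 253547619927) (nat_lit 76) (nat_lit 17177214541) (nat_lit 76) (nat_lit 16518958670) (nat_lit 3) (nat_lit 4) (nat_lit 4) (nat_lit 5) (nat_lit 4) (nat_lit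 4) (nat_lit 534) (nat_lit 351) (nat_lit 315)))) (XT.nd (nat_lit 156) (nat_lit 152) (nat_lit 0) (XT.nd (nat_lit 78) (nat_lit 0) (nat_lit 0) (XT.lf (nat_lit 0) (nat_lit 281902076943) (nat_lit 76) (nat_lit 9992516464) (nat_lit 76) (nat_lit 9327719124) (nat_lit 3) (nat_lit 4) (nat_lit 4) (nat_lit 5) (nat_lit 4) (nat_lit 4) (nat_lit 535) (nat_lit 351) (nat_lit 314)) (XT.lf (nat_lit 0) (nat_lit 311486050608) (nat_lit 76) (nat_lit 2544670316) (nat_lit 76) (nat_lit 1873643005) (nat_lit 3) (nat_lit 4) (nat_lit 4) (nat_lit 5) (nat_lit 4) (nat_lit 4) (nat_lit 536) (nat_lit 351) (nat_lit 313))) (XT.nd (nat_lit 78) (nat_lit 0) (nat_lit 0) (XT.lf (nat_lit 0) (nat_lit 5935432774) (nat_lit 152) (nat_lit 320081087874) (nat_lit 0) (nat_lit 5290708377) (nat_lit 1) (nat_lit 5) (nat_lit 3) (nat_lit 4) (nat_lit 1) (nat_lit 4) (nat_lit 537) (nat_lit 351) (nat_lit 312)) (XT.lf (nat_lit 0) (nat_lit 14100611994) (nat_lit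 152) (nat_lit 319926152931) (nat_lit 0) (nat_lit 13450505915) (nat_lit 1) (nat_lit 5) (nat_lit 3) (nat_lit 4) (nat_lit 1) (nat_lit 4) (nat_lit 538) (nat_lit 351) (nat_lit 311))))) (XT.nd (nat_lit 312) (nat_lit 0) (nat_lit 0) (XT.nd (nat_lit 156) (nat_lit 0) (nat_lit 0) (XT.nd (nat_lit 78) (nat_lit 0) (nat_lit 0) (XT.lf (nat_lit 0) (nat_lit 22589143036) (nat_lit 152) (nat_lit 319937005577) (nat_lit 0) (nat_lit 21933911544) (nat_lit 1) (nat_lit 5) (nat_lit 3) (nat_lit 4) (nat_lit 1) (nat_lit 4) (nat_lit 539) (nat_lit 351) (nat_lit 310)) (XT.lf (nat_lit 0) (nat_lit 31421236686) (nat_lit 152) (nat_lit 320113671651) (nat_lit 0) (nat_lit 30761123850) (nat_lit 1) (nat_lit 5) (nat_lit 3) (nat_lit 4) (nat_lit 1) (nat_lit 4) (nat_lit 540) (nat_lit 351) (nat_lit 309))) (XT.nd (nat_lit 78) (nat_lit 0) (nat_lit 0) (XT.lf (nat_lit 0) (nat_lit 40617921741) (nat_lit 152) (nat_lit 320456571786) (nat_lit 0) (nat_lit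 39953160004) (nat_lit 1) (nat_lit 5) (nat_lit 3) (nat_lit 4) (nat_lit 1) (nat_lit 4) (nat_lit 541) (nat_lit 351) (nat_lit 308)) (XT.lf (nat_lit 0) (nat_lit 50201095067) (nat_lit 152) (nat_lit 320966522411) (nat_lit 0) (nat_lit 49531905806) (nat_lit 1) (nat_lit 5) (nat_lit 3) (nat_lit 4) (nat_lit 1) (nat_lit 4) (nat_lit 542) (nat_lit 351) (nat_lit 307)))) (XT.nd (nat_lit 156) (nat_lit 0) (nat_lit 0) (XT.nd (nat_lit 78) (nat_lit 0) (nat_lit 0) (XT.lf (nat_lit 0) (nat_lit 60193573746) (nat_lit 152) (nat_lit 321644737695) (nat_lit 0) (nat_lit 59520167796) (nat_lit 1) (nat_lit 5) (nat_lit 3) (nat_lit 4) (nat_lit 1) (nat_lit 4) (nat_lit 543) (nat_lit 351) (nat_lit 306)) (XT.lf (nat_lit 0) (nat_lit 70619149392) (nat_lit 152) (nat_lit 322492832435) (nat_lit 0) (nat_lit 69941727547) (nat_lit 1) (nat_lit 5) (nat_lit 3) (nat_lit 4) (nat_lit 1) (nat_lit 4) (nat_lit 544) (nat_lit 351) (nat_lit 305))) (XT.nd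 (nat_lit 78) (nat_lit 0) (nat_lit 0) (XT.lf (nat_lit 0) (nat_lit 81502644806) (nat_lit 152) (nat_lit 323512825905) (nat_lit 0) (nat_lit 80821398299) (nat_lit 1) (nat_lit 5) (nat_lit 3) (nat_lit 4) (nat_lit 1) (nat_lit 4) (nat_lit 545) (nat_lit 351) (nat_lit 304)) (XT.nd (nat_lit 78) (nat_lit 0) (nat_lit 0) (XT.lf (nat_lit 0) (nat_lit 92869973071) (nat_lit 152) (nat_lit 324707146662) (nat_lit 0) (nat_lit 92185084029) (nat_lit 1) (nat_lit 5) (nat_lit 3) (nat_lit 4) (nat_lit 1) (nat_lit 4) (nat_lit 546) (nat_lit 351) (nat_lit 303)) (XT.lf (nat_lit 0) (nat_lit 104748199254) (nat_lit 152) (nat_lit 326078638324) (nat_lit 0) (nat_lit 104059841132) (nat_lit 1) (nat_lit 5) (nat_lit 3) (nat_lit 4) (nat_lit 1) (nat_lit 4) (nat_lit 547) (nat_lit 351) (nat_lit 302))))))))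
noncomputable def xc28 : XT := (XT.nd (nat_lit 58890) (nat_lit 0) (nat_lit 228) (XT.nd (nat_lit 624) (nat_lit 0) (nat_lit 0) (XT.nd (nat_lit 312) (nat_lit 0) (nat_lit 0) (XT.nd (nat_lit 156) (nat_lit 0) (nat_lit 0) (XT.nd (nat_lit 78) (nat_lit 0) (nat_lit 0) (XT.lf (nat_lit 0) (nat_lit 117165604847) (nat_lit 152) (nat_lit 327630566350) (nat_lit 0) (nat_lit 116473942839) (nat_lit 1) (nat_lit 5) (nat_lit 3) (nat_lit 4) (nat_lit 1) (nat_lit 4) (nat_lit 548) (nat_lit 351) (nat_lit 301)) (XT.lf (nat_lit 0) (nat_lit 130151755101) (nat_lit 152) (nat_lit 329366625805) (nat_lit 0) (nat_lit 129456946534) (nat_lit 1) (nat_lit 5) (nat_lit 3) (nat_lit 4) (nat_lit 1) (nat_lit 4) (nat_lit 549) (nat_lit 351) (nat_lit 300))) (XT.nd (nat_lit 78) (nat_lit 0) (nat_lit 0) (XT.lf (nat_lit 0) (nat_lit 143737569421) (nat_lit 152) (nat_lit 331290950166) (nat_lit 0) (nat_lit 143039764132) (nat_lit 1) (nat_lit 5) (nat_lit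 3) (nat_lit 4) (nat_lit 1) (nat_lit 4) (nat_lit 550) (nat_lit 351) (nat_lit 299)) (XT.lf (nat_lit 0) (nat_lit 157955394985) (nat_lit 152) (nat_lit 333408121155) (nat_lit 0) (nat_lit 157254735674) (nat_lit 1) (nat_lit 5) (nat_lit 3) (nat_lit 4) (nat_lit 1) (nat_lit 4) (nat_lit 551) (nat_lit 351) (nat_lit 298)))) (XT.nd (nat_lit 156) (nat_lit 0) (nat_lit 0) (XT.nd (nat_lit 78) (nat_lit 0) (nat_lit 0) (XT.lf (nat_lit 0) (nat_lit 172839083758) (nat_lit 152) (nat_lit 335723179657) (nat_lit 0) (nat_lit 172135706331) (nat_lit 1) (nat_lit 5) (nat_lit 3) (nat_lit 4) (nat_lit 1) (nat_lit 4) (nat_lit 552) (nat_lit 351) (nat_lit 297)) (XT.lf (nat_lit 0) (nat_lit 188424073093) (nat_lit 152) (nat_lit 338241637715) (nat_lit 0) (nat_lit 187718106985) (nat_lit 1) (nat_lit 5) (nat_lit 3) (nat_lit 4) (nat_lit 1) (nat_lit 4) (nat_lit 553) (nat_lit 351) (nat_lit 296))) (XT.nd (nat_lit 78) (nat_lit 0) (nat_lit 0) (XT.lf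 (nat_lit 0) (nat_lit 204747470109) (nat_lit 152) (nat_lit 340969491659) (nat_lit 0) (nat_lit 204039038591) (nat_lit 1) (nat_lit 5) (nat_lit 3) (nat_lit 4) (nat_lit 1) (nat_lit 4) (nat_lit 554) (nat_lit 351) (nat_lit 295)) (XT.lf (nat_lit 0) (nat_lit 221848140037) (nat_lit 152) (nat_lit 343913236378) (nat_lit 0) (nat_lit 221137360508) (nat_lit 1) (nat_lit 5) (nat_lit 3) (nat_lit 4) (nat_lit 1) (nat_lit 4) (nat_lit 555) (nat_lit 351) (nat_lit 294))))) (XT.nd (nat_lit 57954) (nat_lit 0) (nat_lit 684) (XT.nd (nat_lit 57798) (nat_lit 0) (nat_lit 912) (XT.nd (nat_lit 78) (nat_lit 0) (nat_lit 0) (XT.lf (nat_lit 0) (nat_lit 239766798757) (nat_lit 152) (nat_lit 347079880790) (nat_lit 0) (nat_lit 239053783028) (nat_lit 1) (nat_lit 5) (nat_lit 3) (nat_lit 4) (nat_lit 1) (nat_lit 4) (nat_lit 556) (nat_lit 351) (nat_lit 293)) (XT.lf (nat_lit 0) (nat_lit 258546109743) (nat_lit 152) (nat_lit 350476964522) (nat_lit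 0) (nat_lit 257830964299) (nat_lit 1) (nat_lit 5) (nat_lit 3) (nat_lit 4) (nat_lit 1) (nat_lit 4) (nat_lit 557) (nat_lit 351) (nat_lit 292))) (XT.nd (nat_lit 78) (nat_lit 0) (nat_lit 0) (XT.lf (nat_lit 0) (nat_lit 3169684003) (nat_lit 152) (nat_lit 20787056730) (nat_lit 0) (nat_lit 3169684003) (nat_lit 13) (nat_lit 5) (nat_lit 15) (nat_lit 4) (nat_lit 13) (nat_lit 4) (nat_lit 496) (nat_lit 352) (nat_lit 352)) (XT.lf (nat_lit 0) (nat_lit 19476485538) (nat_lit 152) (nat_lit 17415133243) (nat_lit 0) (nat_lit 19430433669) (nat_lit 13) (nat_lit 5) (nat_lit 15) (nat_lit 4) (nat_lit 13) (nat_lit 4) (nat_lit 497) (nat_lit 352) (nat_lit 351)))) (XT.nd (nat_lit 156) (nat_lit 152) (nat_lit 0) (XT.nd (nat_lit 78) (nat_lit 0) (nat_lit 0) (XT.lf (nat_lit 0) (nat_lit 7361174405) (nat_lit 76) (nat_lit 25618983726) (nat_lit 76) (nat_lit 25529072934) (nat_lit 12) (nat_lit 4) (nat_lit 13) (nat_lit 5) (nat_lit 13)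 (nat_lit 4) (nat_lit 498) (nat_lit 352) (nat_lit 350)) (XT.lf (nat_lit 0) (nat_lit 33168012618) (nat_lit 76) (nat_lit 13887311075) (nat_lit 76) (nat_lit 13755629880) (nat_lit 12) (nat_lit 4) (nat_lit 13) (nat_lit 5) (nat_lit 13) (nat_lit 4) (nat_lit 499) (nat_lit 352) (nat_lit 349))) (XT.nd (nat_lit 78) (nat_lit 152) (nat_lit 0) (XT.lf (nat_lit 0) (nat_lit 59491003295) (nat_lit 76) (nat_lit 1963601983) (nat_lit 76) (nat_lit 1792139451) (nat_lit 12) (nat_lit 4) (nat_lit 13) (nat_lit 5) (nat_lit 13) (nat_lit 4) (nat_lit 500) (nat_lit 352) (nat_lit 348)) (XT.lf (nat_lit 0) (nat_lit 10553508308) (nat_lit 152) (nat_lit 44881848825) (nat_lit 0) (nat_lit 10354127814) (nat_lit 10) (nat_lit 5) (nat_lit 12) (nat_lit 4) (nat_lit 10) (nat_lit 4) (nat_lit 501) (nat_lit 352) (nat_lit 347)))))) (XT.nd (nat_lit 624) (nat_lit 228) (nat_lit 0) (XT.nd (nat_lit 312) (nat_lit 152) (nat_lit 0) (XT.nd (nat_lit 156) (nat_lit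 0) (nat_lit 0) (XT.nd (nat_lit 78) (nat_lit 76) (nat_lit 0) (XT.lf (nat_lit 0) (nat_lit 23185675688) (nat_lit 152) (nat_lit 22333814049) (nat_lit 0) (nat_lit 22951930580) (nat_lit 10) (nat_lit 5) (nat_lit 12) (nat_lit 4) (nat_lit 10) (nat_lit 4) (nat_lit 502) (nat_lit 352) (nat_lit 346)) (XT.lf (nat_lit 0) (nat_lit 648479459) (nat_lit 76) (nat_lit 35461217192) (nat_lit 76) (nat_lit 35194743880) (nat_lit 9) (nat_lit 4) (nat_lit 10) (nat_lit 5) (nat_lit 10) (nat_lit 4) (nat_lit 503) (nat_lit 352) (nat_lit 345))) (XT.nd (nat_lit 78) (nat_lit 0) (nat_lit 0) (XT.lf (nat_lit 0) (nat_lit 24852883329) (nat_lit 76) (nat_lit 24861084656) (nat_lit 76) (nat_lit 24563441627) (nat_lit 9) (nat_lit 4) (nat_lit 10) (nat_lit 5) (nat_lit 10) (nat_lit 4) (nat_lit 504) (nat_lit 352) (nat_lit 344)) (XT.lf (nat_lit 0) (nat_lit 49598570336) (nat_lit 76) (nat_lit 14072087667) (nat_lit 76) (nat_lit 13744759192) (nat_lit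 9) (nat_lit 4) (nat_lit 10) (nat_lit 5) (nat_lit 10) (nat_lit 4) (nat_lit 505) (nat_lit 352) (nat_lit 343)))) (XT.nd (nat_lit 156) (nat_lit 0) (nat_lit 0) (XT.nd (nat_lit 78) (nat_lit 152) (nat_lit 0) (XT.lf (nat_lit 0) (nat_lit 74944458785) (nat_lit 76) (nat_lit 3068538136) (nat_lit 76) (nat_lit 2712937808) (nat_lit 9) (nat_lit 4) (nat_lit 10) (nat_lit 5) (nat_lit 10) (nat_lit 4) (nat_lit 506) (nat_lit 352) (nat_lit 342)) (XT.lf (nat_lit 0) (nat_lit 8686345364) (nat_lit 152) (nat_lit 67181684344) (nat_lit 0) (nat_lit 8322034980) (nat_lit 7) (nat_lit 5) (nat_lit 9) (nat_lit 4) (nat_lit 7) (nat_lit 4) (nat_lit 507) (nat_lit 352) (nat_lit 341))) (XT.nd (nat_lit 78) (nat_lit 0) (nat_lit 0) (XT.lf (nat_lit 0) (nat_lit 20412131453) (nat_lit 152) (nat_lit 47397261881) (nat_lit 0) (nat_lit 20023398781) (nat_lit 7) (nat_lit 5) (nat_lit 9) (nat_lit 4) (nat_lit 7) (nat_lit 4) (nat_lit 508) (nat_lit 352)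 (nat_lit 340)) (XT.lf (nat_lit 0) (nat_lit 32436483177) (nat_lit 152) (nat_lit 27211067978) (nat_lit 0) (nat_lit 32024491181) (nat_lit 7) (nat_lit 5) (nat_lit 9) (nat_lit 4) (nat_lit 7) (nat_lit 4) (nat_lit 509) (nat_lit 352) (nat_lit 339))))) (XT.nd (nat_lit 312) (nat_lit 152) (nat_lit 0) (XT.nd (nat_lit 156) (nat_lit 0) (nat_lit 0) (XT.nd (nat_lit 78) (nat_lit 76) (nat_lit 0) (XT.lf (nat_lit 0) (nat_lit 44788029943) (nat_lit 152) (nat_lit 6575040269) (nat_lit 0) (nat_lit 44353886210) (nat_lit 7) (nat_lit 5) (nat_lit 9) (nat_lit 4) (nat_lit 7) (nat_lit 4) (nat_lit 510) (nat_lit 352) (nat_lit 338)) (XT.lf (nat_lit 0) (nat_lit 15041372500) (nat_lit 76) (nat_lit 42689645674) (nat_lit 76) (nat_lit 42234405049) (nat_lit 6) (nat_lit 4) (nat_lit 7) (nat_lit 5) (nat_lit 7) (nat_lit 4) (nat_lit 511) (nat_lit 352) (nat_lit 337))) (XT.nd (nat_lit 78) (nat_lit 0) (nat_lit 0) (XT.lf (nat_lit 0) (nat_lit 37442636380)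 (nat_lit 76) (nat_lit 33733139544) (nat_lit 76) (nat_lit 33257806641) (nat_lit 6) (nat_lit 4) (nat_lit 7) (nat_lit 5) (nat_lit 7) (nat_lit 4) (nat_lit 512) (nat_lit 352) (nat_lit 336)) (XT.lf (nat_lit 0) (nat_lit 60464687187) (nat_lit 76) (nat_lit 24583578297) (nat_lit 76) (nat_lit 24089109892) (nat_lit 6) (nat_lit 4) (nat_lit 7) (nat_lit 5) (nat_lit 7) (nat_lit 4) (nat_lit 513) (nat_lit 352) (nat_lit 335)))) (XT.nd (nat_lit 156) (nat_lit 152) (nat_lit 0) (XT.nd (nat_lit 78) (nat_lit 0) (nat_lit 0) (XT.lf (nat_lit 0) (nat_lit 84162339328) (nat_lit 76) (nat_lit 15219177264) (nat_lit 76) (nat_lit 14706484569) (nat_lit 6) (nat_lit 4) (nat_lit 7) (nat_lit 5) (nat_lit 7) (nat_lit 4) (nat_lit 514) (nat_lit 352) (nat_lit 334)) (XT.lf (nat_lit 0) (nat_lit 108592015784) (nat_lit 76) (nat_lit 5617640250) (nat_lit 76) (nat_lit 5087591091) (nat_lit 6) (nat_lit 4) (nat_lit 7) (nat_lit 5) (nat_lit 7) (nat_lit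 4) (nat_lit 515) (nat_lit 352) (nat_lit 333))) (XT.nd (nat_lit 78) (nat_lit 0) (nat_lit 0) (XT.lf (nat_lit 0) (nat_lit 4851511065) (nat_lit 152) (nat_lit 115580587846) (nat_lit 0) (nat_lit 4330959516) (nat_lit 4) (nat_lit 5) (nat_lit 6) (nat_lit 4) (nat_lit 4) (nat_lit 4) (nat_lit 516) (nat_lit 352) (nat_lit 332)) (XT.nd (nat_lit 78) (nat_lit 0) (nat_lit 0) (XT.lf (nat_lit 0) (nat_lit 15178330167) (nat_lit 152) (nat_lit 100673787759) (nat_lit 0) (nat_lit 14642785451) (nat_lit 4) (nat_lit 5) (nat_lit 6) (nat_lit 4) (nat_lit 4) (nat_lit 4) (nat_lit 517) (nat_lit 352) (nat_lit 331)) (XT.lf (nat_lit 0) (nat_lit 25817085865) (nat_lit 152) (nat_lit 85439213134) (nat_lit 0) (nat_lit 25267261942) (nat_lit 4) (nat_lit 5) (nat_lit 6) (nat_lit 4) (nat_lit 4) (nat_lit 4) (nat_lit 518) (nat_lit 352) (nat_lit 330))))))))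
noncomputable def xc29 : XT := (XT.nd (nat_lit 1248) (nat_lit 152) (nat_lit 0) (XT.nd (nat_lit 624) (nat_lit 0) (nat_lit 0) (XT.nd (nat_lit 312) (nat_lit 76) (nat_lit 0) (XT.nd (nat_lit 156) (nat_lit 0) (nat_lit 0) (XT.nd (nat_lit 78) (nat_lit 0) (nat_lit 0) (XT.lf (nat_lit 0) (nat_lit 36793108529) (nat_lit 152) (nat_lit 69840591174) (nat_lit 0) (nat_lit 36229685361) (nat_lit 4) (nat_lit 5) (nat_lit 6) (nat_lit 4) (nat_lit 4) (nat_lit 4) (nat_lit 519) (nat_lit 352) (nat_lit 329)) (XT.lf (nat_lit 0) (nat_lit 48132531546) (nat_lit 152) (nat_lit 53840782302) (nat_lit 0) (nat_lit 47556156717) (nat_lit 4) (nat_lit 5) (nat_lit 6) (nat_lit 4) (nat_lit 4) (nat_lit 4) (nat_lit 520) (nat_lit 352) (nat_lit 328))) (XT.nd (nat_lit 78) (nat_lit 0) (nat_lit 0) (XT.lf (nat_lit 0) (nat_lit 59862353542) (nat_lit 152) (nat_lit 37401691737) (nat_lit 0) (nat_lit 59273643797) (nat_lit 4) (nat_lit 5) (nat_lit 6) (nat_lit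 4) (nat_lit 4) (nat_lit 4) (nat_lit 521) (nat_lit 352) (nat_lit 327)) (XT.lf (nat_lit 0) (nat_lit 72010502665) (nat_lit 152) (nat_lit 20484178785) (nat_lit 0) (nat_lit 71410045382) (nat_lit 4) (nat_lit 5) (nat_lit 6) (nat_lit 4) (nat_lit 4) (nat_lit 4) (nat_lit 522) (nat_lit 352) (nat_lit 326)))) (XT.nd (nat_lit 156) (nat_lit 0) (nat_lit 0) (XT.nd (nat_lit 78) (nat_lit 76) (nat_lit 0) (XT.lf (nat_lit 0) (nat_lit 84605903080) (nat_lit 152) (nat_lit 3047963655) (nat_lit 0) (nat_lit 83994257664) (nat_lit 4) (nat_lit 5) (nat_lit 6) (nat_lit 4) (nat_lit 4) (nat_lit 4) (nat_lit 523) (nat_lit 352) (nat_lit 325)) (XT.lf (nat_lit 0) (nat_lit 15442732326) (nat_lit 76) (nat_lit 82476915838) (nat_lit 76) (nat_lit 81854615058) (nat_lit 3) (nat_lit 4) (nat_lit 4) (nat_lit 5) (nat_lit 4) (nat_lit 4) (nat_lit 524) (nat_lit 352) (nat_lit 324))) (XT.nd (nat_lit 78) (nat_lit 0) (nat_lit 0) (XT.lf (nat_lit 0) (nat_lit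 34657213450) (nat_lit 76) (nat_lit 77143433044) (nat_lit 76) (nat_lit 76510984298) (nat_lit 3) (nat_lit 4) (nat_lit 4) (nat_lit 5) (nat_lit 4) (nat_lit 4) (nat_lit 525) (nat_lit 352) (nat_lit 323)) (XT.lf (nat_lit 0) (nat_lit 54540449036) (nat_lit 76) (nat_lit 71692338323) (nat_lit 76) (nat_lit 71050224848) (nat_lit 3) (nat_lit 4) (nat_lit 4) (nat_lit 5) (nat_lit 4) (nat_lit 4) (nat_lit 526) (nat_lit 352) (nat_lit 322))))) (XT.nd (nat_lit 312) (nat_lit 0) (nat_lit 0) (XT.nd (nat_lit 156) (nat_lit 0) (nat_lit 0) (XT.nd (nat_lit 78) (nat_lit 0) (nat_lit 0) (XT.lf (nat_lit 0) (nat_lit 75139780122) (nat_lit 76) (nat_lit 66110652880) (nat_lit 76) (nat_lit 65459334900) (nat_lit 3) (nat_lit 4) (nat_lit 4) (nat_lit 5) (nat_lit 4) (nat_lit 4) (nat_lit 527) (nat_lit 352) (nat_lit 321)) (XT.lf (nat_lit 0) (nat_lit 96504252733) (nat_lit 76) (nat_lit 60385086986) (nat_lit 76) (nat_lit 59725002813) (nat_lit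 3) (nat_lit 4) (nat_lit 4) (nat_lit 5) (nat_lit 4) (nat_lit 4) (nat_lit 528) (nat_lit 352) (nat_lit 320))) (XT.nd (nat_lit 78) (nat_lit 0) (nat_lit 0) (XT.lf (nat_lit 0) (nat_lit 118684734661) (nat_lit 76) (nat_lit 54502008343) (nat_lit 76) (nat_lit 53833575413) (nat_lit 3) (nat_lit 4) (nat_lit 4) (nat_lit 5) (nat_lit 4) (nat_lit 4) (nat_lit 529) (nat_lit 352) (nat_lit 319)) (XT.lf (nat_lit 0) (nat_lit 141734036578) (nat_lit 76) (nat_lit 48447409619) (nat_lit 76) (nat_lit 47771025493) (nat_lit 3) (nat_lit 4) (nat_lit 4) (nat_lit 5) (nat_lit 4) (nat_lit 4) (nat_lit 530) (nat_lit 352) (nat_lit 318)))) (XT.nd (nat_lit 156) (nat_lit 0) (nat_lit 0) (XT.nd (nat_lit 78) (nat_lit 0) (nat_lit 0) (XT.lf (nat_lit 0) (nat_lit 165707037775) (nat_lit 76) (nat_lit 42206875105) (nat_lit 76) (nat_lit 41522918410) (nat_lit 3) (nat_lit 4) (nat_lit 4) (nat_lit 5) (nat_lit 4) (nat_lit 4) (nat_lit 531) (nat_lit 352)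 (nat_lit 317)) (XT.lf (nat_lit 0) (nat_lit 190660816825) (nat_lit 76) (nat_lit 35765546384) (nat_lit 76) (nat_lit 35074377719) (nat_lit 3) (nat_lit 4) (nat_lit 4) (nat_lit 5) (nat_lit 4) (nat_lit 4) (nat_lit 532) (nat_lit 352) (nat_lit 316))) (XT.nd (nat_lit 78) (nat_lit 0) (nat_lit 0) (XT.lf (nat_lit 0) (nat_lit 216654787487) (nat_lit 76) (nat_lit 29108086959) (nat_lit 76) (nat_lit 28410049752) (nat_lit 3) (nat_lit 4) (nat_lit 4) (nat_lit 5) (nat_lit 4) (nat_lit 4) (nat_lit 533) (nat_lit 352) (nat_lit 315)) (XT.lf (nat_lit 0) (nat_lit 243750840170) (nat_lit 76) (nat_lit 22218645737) (nat_lit 76) (nat_lit 21514067060) (nat_lit 3) (nat_lit 4) (nat_lit 4) (nat_lit 5) (nat_lit 4) (nat_lit 4) (nat_lit 534) (nat_lit 352) (nat_lit 314)))))) (XT.nd (nat_lit 624) (nat_lit 0) (nat_lit 0) (XT.nd (nat_lit 312) (nat_lit 0) (nat_lit 0) (XT.nd (nat_lit 156) (nat_lit 152) (nat_lit 0) (XT.nd (nat_lit 78) (nat_lit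 0) (nat_lit 0) (XT.lf (nat_lit 0) (nat_lit 272013489282) (nat_lit 76) (nat_lit 15080819285) (nat_lit 76) (nat_lit 14370010638) (nat_lit 3) (nat_lit 4) (nat_lit 4) (nat_lit 5) (nat_lit 4) (nat_lit 4) (nat_lit 535) (nat_lit 352) (nat_lit 313)) (XT.lf (nat_lit 0) (nat_lit 301510026847) (nat_lit 76) (nat_lit 7677612780) (nat_lit 76) (nat_lit 6960870827) (nat_lit 3) (nat_lit 4) (nat_lit 4) (nat_lit 5) (nat_lit 4) (nat_lit 4) (nat_lit 536) (nat_lit 352) (nat_lit 312))) (XT.nd (nat_lit 78) (nat_lit 0) (nat_lit 0) (XT.lf (nat_lit 0) (nat_lit 719855596) (nat_lit 152) (nat_lit 330818187366) (nat_lit 0) (nat_lit 31862530) (nat_lit 1) (nat_lit 5) (nat_lit 3) (nat_lit 4) (nat_lit 1) (nat_lit 4) (nat_lit 537) (nat_lit 352) (nat_lit 311)) (XT.lf (nat_lit 0) (nat_lit 8843616700) (nat_lit 152) (nat_lit 330747903319) (nat_lit 0) (nat_lit 8150498221) (nat_lit 1) (nat_lit 5) (nat_lit 3) (nat_lit 4) (nat_lit 1) (nat_lit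 4) (nat_lit 538) (nat_lit 352) (nat_lit 310)))) (XT.nd (nat_lit 156) (nat_lit 0) (nat_lit 0) (XT.nd (nat_lit 78) (nat_lit 0) (nat_lit 0) (XT.lf (nat_lit 0) (nat_lit 17292701916) (nat_lit 152) (nat_lit 330839375865) (nat_lit 0) (nat_lit 16594702092) (nat_lit 1) (nat_lit 5) (nat_lit 3) (nat_lit 4) (nat_lit 1) (nat_lit 4) (nat_lit 539) (nat_lit 352) (nat_lit 309)) (XT.lf (nat_lit 0) (nat_lit 26087228113) (nat_lit 152) (nat_lit 331092822796) (nat_lit 0) (nat_lit 25384579389) (nat_lit 1) (nat_lit 5) (nat_lit 3) (nat_lit 4) (nat_lit 1) (nat_lit 4) (nat_lit 540) (nat_lit 352) (nat_lit 308))) (XT.nd (nat_lit 78) (nat_lit 0) (nat_lit 0) (XT.lf (nat_lit 0) (nat_lit 35248134640) (nat_lit 152) (nat_lit 331508847557) (nat_lit 0) (nat_lit 34541058393) (nat_lit 1) (nat_lit 5) (nat_lit 3) (nat_lit 4) (nat_lit 1) (nat_lit 4) (nat_lit 541) (nat_lit 352) (nat_lit 307)) (XT.lf (nat_lit 0) (nat_lit 44797233179) (nat_lit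 152) (nat_lit 332088440684) (nat_lit 0) (nat_lit 44085940242) (nat_lit 1) (nat_lit 5) (nat_lit 3) (nat_lit 4) (nat_lit 1) (nat_lit 4) (nat_lit 542) (nat_lit 352) (nat_lit 306))))) (XT.nd (nat_lit 312) (nat_lit 0) (nat_lit 0) (XT.nd (nat_lit 156) (nat_lit 0) (nat_lit 0) (XT.nd (nat_lit 78) (nat_lit 0) (nat_lit 0) (XT.lf (nat_lit 0) (nat_lit 54757259679) (nat_lit 152) (nat_lit 332832982159) (nat_lit 0) (nat_lit 54041950848) (nat_lit 1) (nat_lit 5) (nat_lit 3) (nat_lit 4) (nat_lit 1) (nat_lit 4) (nat_lit 543) (nat_lit 352) (nat_lit 305)) (XT.lf (nat_lit 0) (nat_lit 65151928489) (nat_lit 152) (nat_lit 333744244701) (nat_lit 0) (nat_lit 64432794996) (nat_lit 1) (nat_lit 5) (nat_lit 3) (nat_lit 4) (nat_lit 1) (nat_lit 4) (nat_lit 544) (nat_lit 352) (nat_lit 304))) (XT.nd (nat_lit 78) (nat_lit 0) (nat_lit 0) (XT.lf (nat_lit 0) (nat_lit 76005988820) (nat_lit 152) (nat_lit 334824397982) (nat_lit 0) (nat_lit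 75283212792) (nat_lit 1) (nat_lit 5) (nat_lit 3) (nat_lit 4) (nat_lit 1) (nat_lit 4) (nat_lit 545) (nat_lit 352) (nat_lit 303)) (XT.lf (nat_lit 0) (nat_lit 87345283673) (nat_lit 152) (nat_lit 336076013796) (nat_lit 0) (nat_lit 86619038564) (nat_lit 1) (nat_lit 5) (nat_lit 3) (nat_lit 4) (nat_lit 1) (nat_lit 4) (nat_lit 546) (nat_lit 352) (nat_lit 302)))) (XT.nd (nat_lit 156) (nat_lit 0) (nat_lit 0) (XT.nd (nat_lit 78) (nat_lit 0) (nat_lit 0) (XT.lf (nat_lit 0) (nat_lit 99196811369) (nat_lit 152) (nat_lit 337502072181) (nat_lit 0) (nat_lit 98467262373) (nat_lit 1) (nat_lit 5) (nat_lit 3) (nat_lit 4) (nat_lit 1) (nat_lit 4) (nat_lit 547) (nat_lit 352) (nat_lit 301)) (XT.lf (nat_lit 0) (nat_lit 111588789831) (nat_lit 152) (nat_lit 339105968513) (nat_lit 0) (nat_lit 110856094277) (nat_lit 1) (nat_lit 5) (nat_lit 3) (nat_lit 4) (nat_lit 1) (nat_lit 4) (nat_lit 548) (nat_lit 352) (nat_lit 300))) (XT.nd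 (nat_lit 78) (nat_lit 0) (nat_lit 0) (XT.lf (nat_lit 0) (nat_lit 124550723769) (nat_lit 152) (nat_lit 340891521594) (nat_lit 0) (nat_lit 123815031493) (nat_lit 1) (nat_lit 5) (nat_lit 3) (nat_lit 4) (nat_lit 1) (nat_lit 4) (nat_lit 549) (nat_lit 352) (nat_lit 299)) (XT.nd (nat_lit 78) (nat_lit 0) (nat_lit 0) (XT.lf (nat_lit 0) (nat_lit 138113474932) (nat_lit 152) (nat_lit 342862982740) (nat_lit 0) (nat_lit 137374928635) (nat_lit 1) (nat_lit 5) (nat_lit 3) (nat_lit 4) (nat_lit 1) (nat_lit 4) (nat_lit 550) (nat_lit 352) (nat_lit 298)) (XT.lf (nat_lit 0) (nat_lit 152309335584) (nat_lit 152) (nat_lit 345025045906) (nat_lit 0) (nat_lit 151568071171) (nat_lit 1) (nat_lit 5) (nat_lit 3) (nat_lit 4) (nat_lit 1) (nat_lit 4) (nat_lit 551) (nat_lit 352) (nat_lit 297))))))))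
noncomputable def xc30 : XT := (XT.nd (nat_lit 58734) (nat_lit 0) (nat_lit 228) (XT.nd (nat_lit 58110) (nat_lit 0) (nat_lit 684) (XT.nd (nat_lit 312) (nat_lit 0) (nat_lit 0) (XT.nd (nat_lit 156) (nat_lit 0) (nat_lit 0) (XT.nd (nat_lit 78) (nat_lit 0) (nat_lit 0) (XT.lf (nat_lit 0) (nat_lit 167172105393) (nat_lit 152) (nat_lit 347382858862) (nat_lit 0) (nat_lit 166428252298) (nat_lit 1) (nat_lit 5) (nat_lit 3) (nat_lit 4) (nat_lit 1) (nat_lit 4) (nat_lit 552) (nat_lit 352) (nat_lit 296)) (XT.lf (nat_lit 0) (nat_lit 182737171906) (nat_lit 152) (nat_lit 349942035449) (nat_lit 0) (nat_lit 181990853400) (nat_lit 1) (nat_lit 5) (nat_lit 3) (nat_lit 4) (nat_lit 1) (nat_lit 4) (nat_lit 553) (nat_lit 352) (nat_lit 295))) (XT.nd (nat_lit 78) (nat_lit 0) (nat_lit 0) (XT.lf (nat_lit 0) (nat_lit 199041594806) (nat_lit 152) (nat_lit 352708668943) (nat_lit 0) (nat_lit 198292928289) (nat_lit 1) (nat_lit 5) (nat_lit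 3) (nat_lit 4) (nat_lit 1) (nat_lit 4) (nat_lit 554) (nat_lit 352) (nat_lit 294)) (XT.lf (nat_lit 0) (nat_lit 216124194146) (nat_lit 152) (nat_lit 355689346568) (nat_lit 0) (nat_lit 215373291430) (nat_lit 1) (nat_lit 5) (nat_lit 3) (nat_lit 4) (nat_lit 1) (nat_lit 4) (nat_lit 555) (nat_lit 352) (nat_lit 293)))) (XT.nd (nat_lit 57642) (nat_lit 0) (nat_lit 1064) (XT.nd (nat_lit 78) (nat_lit 0) (nat_lit 0) (XT.lf (nat_lit 0) (nat_lit 234025642783) (nat_lit 152) (nat_lit 358891165174) (nat_lit 0) (nat_lit 233272610352) (nat_lit 1) (nat_lit 5) (nat_lit 3) (nat_lit 4) (nat_lit 1) (nat_lit 4) (nat_lit 556) (nat_lit 352) (nat_lit 292)) (XT.lf (nat_lit 0) (nat_lit 252788563213) (nat_lit 152) (nat_lit 362321748141) (nat_lit 0) (nat_lit 252033502483) (nat_lit 1) (nat_lit 5) (nat_lit 3) (nat_lit 4) (nat_lit 1) (nat_lit 4) (nat_lit 557) (nat_lit 352) (nat_lit 291))) (XT.nd (nat_lit 78) (nat_lit 0) (nat_lit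 0) (XT.lf (nat_lit 0) (nat_lit 6466448323) (nat_lit 76) (nat_lit 9365610168) (nat_lit 76) (nat_lit 9365610168) (nat_lit 15) (nat_lit 4) (nat_lit 16) (nat_lit 5) (nat_lit 16) (nat_lit 4) (nat_lit 494) (nat_lit 353) (nat_lit 353)) (XT.lf (nat_lit 0) (nat_lit 39386750839) (nat_lit 76) (nat_lit 6472913563) (nat_lit 76) (nat_lit 6422141377) (nat_lit 15) (nat_lit 4) (nat_lit 16) (nat_lit 5) (nat_lit 16) (nat_lit 4) (nat_lit 495) (nat_lit 353) (nat_lit 352))))) (XT.nd (nat_lit 312) (nat_lit 152) (nat_lit 0) (XT.nd (nat_lit 156) (nat_lit 76) (nat_lit 0) (XT.nd (nat_lit 78) (nat_lit 0) (nat_lit 0) (XT.lf (nat_lit 0) (nat_lit 6180165960) (nat_lit 152) (nat_lit 41997301942) (nat_lit 0) (nat_lit 6085759628) (nat_lit 13) (nat_lit 5) (nat_lit 15) (nat_lit 4) (nat_lit 13) (nat_lit 4) (nat_lit 496) (nat_lit 353) (nat_lit 351)) (XT.lf (nat_lit 0) (nat_lit 19119610625) (nat_lit 152) (nat_lit 18241358375) (nat_lit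 0) (nat_lit 18981345370) (nat_lit 13) (nat_lit 5) (nat_lit 15) (nat_lit 4) (nat_lit 13) (nat_lit 4) (nat_lit 497) (nat_lit 353) (nat_lit 350))) (XT.nd (nat_lit 78) (nat_lit 0) (nat_lit 0) (XT.lf (nat_lit 0) (nat_lit 6111094481) (nat_lit 76) (nat_lit 26304411614) (nat_lit 76) (nat_lit 26124375956) (nat_lit 12) (nat_lit 4) (nat_lit 13) (nat_lit 5) (nat_lit 13) (nat_lit 4) (nat_lit 498) (nat_lit 353) (nat_lit 349)) (XT.lf (nat_lit 0) (nat_lit 31540279305) (nat_lit 76) (nat_lit 14765201008) (nat_lit 76) (nat_lit 14545384013) (nat_lit 12) (nat_lit 4) (nat_lit 13) (nat_lit 5) (nat_lit 13) (nat_lit 4) (nat_lit 499) (nat_lit 353) (nat_lit 348)))) (XT.nd (nat_lit 156) (nat_lit 0) (nat_lit 0) (XT.nd (nat_lit 78) (nat_lit 152) (nat_lit 0) (XT.lf (nat_lit 0) (nat_lit 57503600087) (nat_lit 76) (nat_lit 3024789101) (nat_lit 76) (nat_lit 2767085119) (nat_lit 12) (nat_lit 4) (nat_lit 13) (nat_lit 5) (nat_lit 13)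 (nat_lit 4) (nat_lit 500) (nat_lit 353) (nat_lit 347)) (XT.lf (nat_lit 0) (nat_lit 9380613154) (nat_lit 152) (nat_lit 47369004139) (nat_lit 0) (nat_lit 9100816177) (nat_lit 10) (nat_lit 5) (nat_lit 12) (nat_lit 4) (nat_lit 10) (nat_lit 4) (nat_lit 501) (nat_lit 353) (nat_lit 346))) (XT.nd (nat_lit 78) (nat_lit 0) (nat_lit 0) (XT.lf (nat_lit 0) (nat_lit 21842107672) (nat_lit 152) (nat_lit 25169212484) (nat_lit 0) (nat_lit 21529582491) (nat_lit 10) (nat_lit 5) (nat_lit 12) (nat_lit 4) (nat_lit 10) (nat_lit 4) (nat_lit 502) (nat_lit 353) (nat_lit 345)) (XT.lf (nat_lit 0) (nat_lit 34593458472) (nat_lit 152) (nat_lit 2539334483) (nat_lit 0) (nat_lit 34249763573) (nat_lit 10) (nat_lit 5) (nat_lit 12) (nat_lit 4) (nat_lit 10) (nat_lit 4) (nat_lit 503) (nat_lit 353) (nat_lit 344)))))) (XT.nd (nat_lit 624) (nat_lit 152) (nat_lit 0) (XT.nd (nat_lit 312) (nat_lit 76) (nat_lit 0) (XT.nd (nat_lit 156) (nat_lit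 152) (nat_lit 0) (XT.nd (nat_lit 78) (nat_lit 0) (nat_lit 0) (XT.lf (nat_lit 0) (nat_lit 21254796761) (nat_lit 76) (nat_lit 26742076094) (nat_lit 76) (nat_lit 26368695749) (nat_lit 9) (nat_lit 4) (nat_lit 10) (nat_lit 5) (nat_lit 10) (nat_lit 4) (nat_lit 504) (nat_lit 353) (nat_lit 343)) (XT.lf (nat_lit 0) (nat_lit 45689711618) (nat_lit 76) (nat_lit 16111565596) (nat_lit 76) (nat_lit 15709913398) (nat_lit 9) (nat_lit 4) (nat_lit 10) (nat_lit 5) (nat_lit 10) (nat_lit 4) (nat_lit 505) (nat_lit 353) (nat_lit 342))) (XT.nd (nat_lit 78) (nat_lit 152) (nat_lit 0) (XT.lf (nat_lit 0) (nat_lit 70739626589) (nat_lit 76) (nat_lit 5258955580) (nat_lit 76) (nat_lit 4830377809) (nat_lit 9) (nat_lit 4) (nat_lit 10) (nat_lit 5) (nat_lit 10) (nat_lit 4) (nat_lit 506) (nat_lit 353) (nat_lit 341)) (XT.lf (nat_lit 0) (nat_lit 6384486837) (nat_lit 152) (nat_lit 71970970432) (nat_lit 0) (nat_lit 5951895241) (nat_lit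 7) (nat_lit 5) (nat_lit 9) (nat_lit 4) (nat_lit 7) (nat_lit 4) (nat_lit 507) (nat_lit 353) (nat_lit 340)))) (XT.nd (nat_lit 156) (nat_lit 76) (nat_lit 0) (XT.nd (nat_lit 78) (nat_lit 0) (nat_lit 0) (XT.lf (nat_lit 0) (nat_lit 17969919917) (nat_lit 152) (nat_lit 52473108790) (nat_lit 0) (nat_lit 17514068997) (nat_lit 7) (nat_lit 5) (nat_lit 9) (nat_lit 4) (nat_lit 7) (nat_lit 4) (nat_lit 508) (nat_lit 353) (nat_lit 339)) (XT.lf (nat_lit 0) (nat_lit 29860602107) (nat_lit 152) (nat_lit 32559829955) (nat_lit 0) (nat_lit 29382599451) (nat_lit 7) (nat_lit 5) (nat_lit 9) (nat_lit 4) (nat_lit 7) (nat_lit 4) (nat_lit 509) (nat_lit 353) (nat_lit 338))) (XT.nd (nat_lit 78) (nat_lit 76) (nat_lit 0) (XT.lf (nat_lit 0) (nat_lit 42084844555) (nat_lit 152) (nat_lit 12183721358) (nat_lit 0) (nat_lit 41585745008) (nat_lit 7) (nat_lit 5) (nat_lit 9) (nat_lit 4) (nat_lit 7) (nat_lit 4) (nat_lit 510) (nat_lit 353)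 (nat_lit 337)) (XT.lf (nat_lit 0) (nat_lit 8991516217) (nat_lit 76) (nat_lit 45820619151) (nat_lit 76) (nat_lit 45301427325) (nat_lit 6) (nat_lit 4) (nat_lit 7) (nat_lit 5) (nat_lit 7) (nat_lit 4) (nat_lit 511) (nat_lit 353) (nat_lit 336))))) (XT.nd (nat_lit 312) (nat_lit 152) (nat_lit 0) (XT.nd (nat_lit 156) (nat_lit 0) (nat_lit 0) (XT.nd (nat_lit 78) (nat_lit 0) (nat_lit 0) (XT.lf (nat_lit 0) (nat_lit 31149230698) (nat_lit 76) (nat_lit 36988391163) (nat_lit 76) (nat_lit 36450063834) (nat_lit 6) (nat_lit 4) (nat_lit 7) (nat_lit 5) (nat_lit 7) (nat_lit 4) (nat_lit 512) (nat_lit 353) (nat_lit 335)) (XT.lf (nat_lit 0) (nat_lit 53939329697) (nat_lit 76) (nat_lit 27957190050) (nat_lit 76) (nat_lit 27400638433) (nat_lit 6) (nat_lit 4) (nat_lit 7) (nat_lit 5) (nat_lit 7) (nat_lit 4) (nat_lit 513) (nat_lit 353) (nat_lit 334))) (XT.nd (nat_lit 78) (nat_lit 0) (nat_lit 0) (XT.lf (nat_lit 0) (nat_lit 77416075354)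 (nat_lit 76) (nat_lit 18705512954) (nat_lit 76) (nat_lit 18131604871) (nat_lit 6) (nat_lit 4) (nat_lit 7) (nat_lit 5) (nat_lit 7) (nat_lit 4) (nat_lit 514) (nat_lit 353) (nat_lit 333)) (XT.lf (nat_lit 0) (nat_lit 101635364683) (nat_lit 76) (nat_lit 9211332071) (nat_lit 76) (nat_lit 8620894022) (nat_lit 6) (nat_lit 4) (nat_lit 7) (nat_lit 5) (nat_lit 7) (nat_lit 4) (nat_lit 515) (nat_lit 353) (nat_lit 332)))) (XT.nd (nat_lit 156) (nat_lit 0) (nat_lit 0) (XT.nd (nat_lit 78) (nat_lit 0) (nat_lit 0) (XT.lf (nat_lit 0) (nat_lit 1153657397) (nat_lit 152) (nat_lit 123220042641) (nat_lit 0) (nat_lit 576342278) (nat_lit 4) (nat_lit 5) (nat_lit 6) (nat_lit 4) (nat_lit 4) (nat_lit 4) (nat_lit 516) (nat_lit 353) (nat_lit 331)) (XT.lf (nat_lit 0) (nat_lit 11380767056) (nat_lit 152) (nat_lit 108516933026) (nat_lit 0) (nat_lit 10789172730) (nat_lit 4) (nat_lit 5) (nat_lit 6) (nat_lit 4) (nat_lit 4) (nat_lit 4)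 (nat_lit 517) (nat_lit 353) (nat_lit 330))) (XT.nd (nat_lit 78) (nat_lit 0) (nat_lit 0) (XT.lf (nat_lit 0) (nat_lit 21924561378) (nat_lit 152) (nat_lit 93476349325) (nat_lit 0) (nat_lit 21319367808) (nat_lit 4) (nat_lit 5) (nat_lit 6) (nat_lit 4) (nat_lit 4) (nat_lit 4) (nat_lit 518) (nat_lit 353) (nat_lit 329)) (XT.nd (nat_lit 78) (nat_lit 0) (nat_lit 0) (XT.lf (nat_lit 0) (nat_lit 32810144637) (nat_lit 152) (nat_lit 78062480627) (nat_lit 0) (nat_lit 32191999405) (nat_lit 4) (nat_lit 5) (nat_lit 6) (nat_lit 4) (nat_lit 4) (nat_lit 4) (nat_lit 519) (nat_lit 353) (nat_lit 328)) (XT.lf (nat_lit 0) (nat_lit 44063434887) (nat_lit 152) (nat_lit 62238627243) (nat_lit 0) (nat_lit 43432954740) (nat_lit 4) (nat_lit 5) (nat_lit 6) (nat_lit 4) (nat_lit 4) (nat_lit 4) (nat_lit 520) (nat_lit 353) (nat_lit 327))))))))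
noncomputable def xc31 : XT := (XT.nd (nat_lit 1248) (nat_lit 152) (nat_lit 0) (XT.nd (nat_lit 624) (nat_lit 0) (nat_lit 0) (XT.nd (nat_lit 312) (nat_lit 0) (nat_lit 0) (XT.nd (nat_lit 156) (nat_lit 76) (nat_lit 0) (XT.nd (nat_lit 78) (nat_lit 0) (nat_lit 0) (XT.lf (nat_lit 0) (nat_lit 55711225677) (nat_lit 152) (nat_lit 45967113333) (nat_lit 0) (nat_lit 55068997991) (nat_lit 4) (nat_lit 5) (nat_lit 6) (nat_lit 4) (nat_lit 4) (nat_lit 4) (nat_lit 521) (nat_lit 353) (nat_lit 326)) (XT.lf (nat_lit 0) (nat_lit 67781249842) (nat_lit 152) (nat_lit 29209197195) (nat_lit 0) (nat_lit 67127834023) (nat_lit 4) (nat_lit 5) (nat_lit 6) (nat_lit 4) (nat_lit 4) (nat_lit 4) (nat_lit 522) (nat_lit 353) (nat_lit 325))) (XT.nd (nat_lit 78) (nat_lit 76) (nat_lit 0) (XT.lf (nat_lit 0) (nat_lit 80302245535) (nat_lit 152) (nat_lit 11924979031) (nat_lit 0) (nat_lit 79638174352) (nat_lit 4) (nat_lit 5) (nat_lit 6) (nat_lit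 4) (nat_lit 4) (nat_lit 4) (nat_lit 523) (nat_lit 353) (nat_lit 324)) (XT.lf (nat_lit 0) (nat_lit 6122657331) (nat_lit 76) (nat_lit 87276959158) (nat_lit 76) (nat_lit 86602740009) (nat_lit 3) (nat_lit 4) (nat_lit 4) (nat_lit 5) (nat_lit 4) (nat_lit 4) (nat_lit 524) (nat_lit 353) (nat_lit 323)))) (XT.nd (nat_lit 156) (nat_lit 0) (nat_lit 0) (XT.nd (nat_lit 78) (nat_lit 0) (nat_lit 0) (XT.lf (nat_lit 0) (nat_lit 25194714262) (nat_lit 76) (nat_lit 82016189639) (nat_lit 76) (nat_lit 81332305761) (nat_lit 3) (nat_lit 4) (nat_lit 4) (nat_lit 5) (nat_lit 4) (nat_lit 4) (nat_lit 525) (nat_lit 353) (nat_lit 322)) (XT.lf (nat_lit 0) (nat_lit 44942307761) (nat_lit 76) (nat_lit 76634345656) (nat_lit 76) (nat_lit 75941257274) (nat_lit 3) (nat_lit 4) (nat_lit 4) (nat_lit 5) (nat_lit 4) (nat_lit 4) (nat_lit 526) (nat_lit 353) (nat_lit 321))) (XT.nd (nat_lit 78) (nat_lit 0) (nat_lit 0) (XT.lf (nat_lit 0) (nat_lit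 65412455905) (nat_lit 76) (nat_lit 71118613297) (nat_lit 76) (nat_lit 70416758720) (nat_lit 3) (nat_lit 4) (nat_lit 4) (nat_lit 5) (nat_lit 4) (nat_lit 4) (nat_lit 527) (nat_lit 353) (nat_lit 320)) (XT.lf (nat_lit 0) (nat_lit 86653897144) (nat_lit 76) (nat_lit 65455859864) (nat_lit 76) (nat_lit 64745656531) (nat_lit 3) (nat_lit 4) (nat_lit 4) (nat_lit 5) (nat_lit 4) (nat_lit 4) (nat_lit 528) (nat_lit 353) (nat_lit 319))))) (XT.nd (nat_lit 312) (nat_lit 0) (nat_lit 0) (XT.nd (nat_lit 156) (nat_lit 0) (nat_lit 0) (XT.nd (nat_lit 78) (nat_lit 0) (nat_lit 0) (XT.lf (nat_lit 0) (nat_lit 108717206337) (nat_lit 76) (nat_lit 59632602612) (nat_lit 76) (nat_lit 58914448082) (nat_lit 3) (nat_lit 4) (nat_lit 4) (nat_lit 5) (nat_lit 4) (nat_lit 4) (nat_lit 529) (nat_lit 353) (nat_lit 318)) (XT.lf (nat_lit 0) (nat_lit 131654915173) (nat_lit 76) (nat_lit 53634976642) (nat_lit 76) (nat_lit 52909249544) (nat_lit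 3) (nat_lit 4) (nat_lit 4) (nat_lit 5) (nat_lit 4) (nat_lit 4) (nat_lit 530) (nat_lit 353) (nat_lit 317))) (XT.nd (nat_lit 78) (nat_lit 0) (nat_lit 0) (XT.lf (nat_lit 0) (nat_lit 155521637244) (nat_lit 76) (nat_lit 47448701893) (nat_lit 76) (nat_lit 46715762826) (nat_lit 3) (nat_lit 4) (nat_lit 4) (nat_lit 5) (nat_lit 4) (nat_lit 4) (nat_lit 531) (nat_lit 353) (nat_lit 316)) (XT.lf (nat_lit 0) (nat_lit 180374198080) (nat_lit 76) (nat_lit 41059049139) (nat_lit 76) (nat_lit 40319241529) (nat_lit 3) (nat_lit 4) (nat_lit 4) (nat_lit 5) (nat_lit 4) (nat_lit 4) (nat_lit 532) (nat_lit 353) (nat_lit 315)))) (XT.nd (nat_lit 156) (nat_lit 0) (nat_lit 0) (XT.nd (nat_lit 78) (nat_lit 0) (nat_lit 0) (XT.lf (nat_lit 0) (nat_lit 206271770443) (nat_lit 76) (nat_lit 34450804921) (nat_lit 76) (nat_lit 33704455841) (nat_lit 3) (nat_lit 4) (nat_lit 4) (nat_lit 5) (nat_lit 4) (nat_lit 4) (nat_lit 533) (nat_lit 353)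 (nat_lit 314)) (XT.lf (nat_lit 0) (nat_lit 233276015221) (nat_lit 76) (nat_lit 27608235324) (nat_lit 76) (nat_lit 26855656274) (nat_lit 3) (nat_lit 4) (nat_lit 4) (nat_lit 5) (nat_lit 4) (nat_lit 4) (nat_lit 534) (nat_lit 353) (nat_lit 313))) (XT.nd (nat_lit 78) (nat_lit 0) (nat_lit 0) (XT.lf (nat_lit 0) (nat_lit 261451228235) (nat_lit 76) (nat_lit 20515048516) (nat_lit 76) (nat_lit 19756536160) (nat_lit 3) (nat_lit 4) (nat_lit 4) (nat_lit 5) (nat_lit 4) (nat_lit 4) (nat_lit 535) (nat_lit 353) (nat_lit 312)) (XT.lf (nat_lit 0) (nat_lit 290864493324) (nat_lit 76) (nat_lit 13154355957) (nat_lit 76) (nat_lit 12390192834) (nat_lit 3) (nat_lit 4) (nat_lit 4) (nat_lit 5) (nat_lit 4) (nat_lit 4) (nat_lit 536) (nat_lit 353) (nat_lit 311)))))) (XT.nd (nat_lit 624) (nat_lit 0) (nat_lit 0) (XT.nd (nat_lit 312) (nat_lit 0) (nat_lit 0) (XT.nd (nat_lit 156) (nat_lit 0) (nat_lit 0) (XT.nd (nat_lit 78) (nat_lit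 152) (nat_lit 0) (XT.lf (nat_lit 0) (nat_lit 321585842073) (nat_lit 76) (nat_lit 5508632188) (nat_lit 76) (nat_lit 4739087382) (nat_lit 3) (nat_lit 4) (nat_lit 4) (nat_lit 5) (nat_lit 4) (nat_lit 4) (nat_lit 537) (nat_lit 353) (nat_lit 310)) (XT.lf (nat_lit 0) (nat_lit 3242907698) (nat_lit 152) (nat_lit 342276012022) (nat_lit 0) (nat_lit 2505126538) (nat_lit 1) (nat_lit 5) (nat_lit 3) (nat_lit 4) (nat_lit 1) (nat_lit 4) (nat_lit 538) (nat_lit 353) (nat_lit 309))) (XT.nd (nat_lit 78) (nat_lit 0) (nat_lit 0) (XT.lf (nat_lit 0) (nat_lit 11654425460) (nat_lit 152) (nat_lit 342444265426) (nat_lit 0) (nat_lit 10911995400) (nat_lit 1) (nat_lit 5) (nat_lit 3) (nat_lit 4) (nat_lit 1) (nat_lit 4) (nat_lit 539) (nat_lit 353) (nat_lit 308)) (XT.lf (nat_lit 0) (nat_lit 20413173131) (nat_lit 152) (nat_lit 342770836983) (nat_lit 0) (nat_lit 19666315547) (nat_lit 1) (nat_lit 5) (nat_lit 3) (nat_lit 4) (nat_lit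 1) (nat_lit 4) (nat_lit 540) (nat_lit 353) (nat_lit 307)))) (XT.nd (nat_lit 156) (nat_lit 0) (nat_lit 0) (XT.nd (nat_lit 78) (nat_lit 0) (nat_lit 0) (XT.lf (nat_lit 0) (nat_lit 29540004870) (nat_lit 152) (nat_lit 343256504245) (nat_lit 0) (nat_lit 28788930597) (nat_lit 1) (nat_lit 5) (nat_lit 3) (nat_lit 4) (nat_lit 1) (nat_lit 4) (nat_lit 541) (nat_lit 353) (nat_lit 306)) (XT.lf (nat_lit 0) (nat_lit 39056651231) (nat_lit 152) (nat_lit 343902423563) (nat_lit 0) (nat_lit 38301561063) (nat_lit 1) (nat_lit 5) (nat_lit 3) (nat_lit 4) (nat_lit 1) (nat_lit 4) (nat_lit 542) (nat_lit 353) (nat_lit 305))) (XT.nd (nat_lit 78) (nat_lit 0) (nat_lit 0) (XT.lf (nat_lit 0) (nat_lit 48985770894) (nat_lit 152) (nat_lit 344710132839) (nat_lit 0) (nat_lit 48226856065) (nat_lit 1) (nat_lit 5) (nat_lit 3) (nat_lit 4) (nat_lit 1) (nat_lit 4) (nat_lit 543) (nat_lit 353) (nat_lit 304)) (XT.lf (nat_lit 0) (nat_lit 59351004622)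 (nat_lit 152) (nat_lit 345681555192) (nat_lit 0) (nat_lit 58588447257) (nat_lit 1) (nat_lit 5) (nat_lit 3) (nat_lit 4) (nat_lit 1) (nat_lit 4) (nat_lit 544) (nat_lit 353) (nat_lit 303))))) (XT.nd (nat_lit 312) (nat_lit 0) (nat_lit 0) (XT.nd (nat_lit 156) (nat_lit 0) (nat_lit 0) (XT.nd (nat_lit 78) (nat_lit 0) (nat_lit 0) (XT.lf (nat_lit 0) (nat_lit 70177031540) (nat_lit 152) (nat_lit 346819003531) (nat_lit 0) (nat_lit 69411005095) (nat_lit 1) (nat_lit 5) (nat_lit 3) (nat_lit 4) (nat_lit 1) (nat_lit 4) (nat_lit 545) (nat_lit 353) (nat_lit 302)) (XT.lf (nat_lit 0) (nat_lit 81489627906) (nat_lit 152) (nat_lit 348125186067) (nat_lit 0) (nat_lit 80720297574) (nat_lit 1) (nat_lit 5) (nat_lit 3) (nat_lit 4) (nat_lit 1) (nat_lit 4) (nat_lit 546) (nat_lit 353) (nat_lit 301))) (XT.nd (nat_lit 78) (nat_lit 0) (nat_lit 0) (XT.lf (nat_lit 0) (nat_lit 93315728470) (nat_lit 152) (nat_lit 349603212758) (nat_lit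 0) (nat_lit 92543251580) (nat_lit 1) (nat_lit 5) (nat_lit 3) (nat_lit 4) (nat_lit 1) (nat_lit 4) (nat_lit 547) (nat_lit 353) (nat_lit 300)) (XT.lf (nat_lit 0) (nat_lit 105683490617) (nat_lit 152) (nat_lit 351256602716) (nat_lit 0) (nat_lit 104908017005) (nat_lit 1) (nat_lit 5) (nat_lit 3) (nat_lit 4) (nat_lit 1) (nat_lit 4) (nat_lit 548) (nat_lit 353) (nat_lit 299)))) (XT.nd (nat_lit 156) (nat_lit 0) (nat_lit 0) (XT.nd (nat_lit 78) (nat_lit 0) (nat_lit 0) (XT.lf (nat_lit 0) (nat_lit 118622361398) (nat_lit 152) (nat_lit 353089292583) (nat_lit 0) (nat_lit 117844033765) (nat_lit 1) (nat_lit 5) (nat_lit 3) (nat_lit 4) (nat_lit 1) (nat_lit 4) (nat_lit 549) (nat_lit 353) (nat_lit 298)) (XT.lf (nat_lit 0) (nat_lit 132163147649) (nat_lit 152) (nat_lit 355105645906) (nat_lit 0) (nat_lit 131382101900) (nat_lit 1) (nat_lit 5) (nat_lit 3) (nat_lit 4) (nat_lit 1) (nat_lit 4) (nat_lit 550) (nat_lit 353) (nat_lit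 297))) (XT.nd (nat_lit 78) (nat_lit 0) (nat_lit 0) (XT.lf (nat_lit 0) (nat_lit 146338089337) (nat_lit 152) (nat_lit 357310463527) (nat_lit 0) (nat_lit 145554454907) (nat_lit 1) (nat_lit 5) (nat_lit 3) (nat_lit 4) (nat_lit 1) (nat_lit 4) (nat_lit 551) (nat_lit 353) (nat_lit 296)) (XT.nd (nat_lit 78) (nat_lit 0) (nat_lit 0) (XT.lf (nat_lit 0) (nat_lit 161180936324) (nat_lit 152) (nat_lit 359708995011) (nat_lit 0) (nat_lit 160394836482) (nat_lit 1) (nat_lit 5) (nat_lit 3) (nat_lit 4) (nat_lit 1) (nat_lit 4) (nat_lit 552) (nat_lit 353) (nat_lit 295)) (XT.lf (nat_lit 0) (nat_lit 176727028720) (nat_lit 152) (nat_lit 362306951148) (nat_lit 0) (nat_lit 175938580868) (nat_lit 1) (nat_lit 5) (nat_lit 3) (nat_lit 4) (nat_lit 1) (nat_lit 4) (nat_lit 553) (nat_lit 353) (nat_lit 294))))))))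
noncomputable def xc32 : XT := (XT.nd (nat_lit 58578) (nat_lit 0) (nat_lit 228) (XT.nd (nat_lit 57954) (nat_lit 0) (nat_lit 684) (XT.nd (nat_lit 57642) (nat_lit 0) (nat_lit 1064) (XT.nd (nat_lit 156) (nat_lit 0) (nat_lit 0) (XT.nd (nat_lit 78) (nat_lit 0) (nat_lit 0) (XT.lf (nat_lit 0) (nat_lit 193013381032) (nat_lit 152) (nat_lit 365110517547) (nat_lit 0) (nat_lit 192222696980) (nat_lit 1) (nat_lit 5) (nat_lit 3) (nat_lit 4) (nat_lit 1) (nat_lit 4) (nat_lit 554) (nat_lit 353) (nat_lit 293)) (XT.lf (nat_lit 0) (nat_lit 210078770290) (nat_lit 152) (nat_lit 368126369367) (nat_lit 0) (nat_lit 209285956522) (nat_lit 1) (nat_lit 5) (nat_lit 3) (nat_lit 4) (nat_lit 1) (nat_lit 4) (nat_lit 555) (nat_lit 353) (nat_lit 292))) (XT.nd (nat_lit 78) (nat_lit 0) (nat_lit 0) (XT.lf (nat_lit 0) (nat_lit 227963828371) (nat_lit 152) (nat_lit 371361687208) (nat_lit 0) (nat_lit 227168986304) (nat_lit 1) (nat_lit 5)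 (nat_lit 3) (nat_lit 4) (nat_lit 1) (nat_lit 4) (nat_lit 556) (nat_lit 353) (nat_lit 291)) (XT.lf (nat_lit 0) (nat_lit 246711138749) (nat_lit 152) (nat_lit 374824174206) (nat_lit 0) (nat_lit 245914364968) (nat_lit 1) (nat_lit 5) (nat_lit 3) (nat_lit 4) (nat_lit 1) (nat_lit 4) (nat_lit 557) (nat_lit 353) (nat_lit 290)))) (XT.nd (nat_lit 156) (nat_lit 76) (nat_lit 0) (XT.nd (nat_lit 78) (nat_lit 0) (nat_lit 0) (XT.lf (nat_lit 0) (nat_lit 2468213382) (nat_lit 152) (nat_lit 18517024242) (nat_lit 0) (nat_lit 2468213382) (nat_lit 16) (nat_lit 5) (nat_lit 18) (nat_lit 4) (nat_lit 16) (nat_lit 4) (nat_lit 492) (nat_lit 354) (nat_lit 354)) (XT.lf (nat_lit 0) (nat_lit 18003137745) (nat_lit 152) (nat_lit 12655472544) (nat_lit 0) (nat_lit 17949826950) (nat_lit 16) (nat_lit 5) (nat_lit 18) (nat_lit 4) (nat_lit 16) (nat_lit 4) (nat_lit 493) (nat_lit 354) (nat_lit 353))) (XT.nd (nat_lit 78) (nat_lit 0) (nat_lit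 0) (XT.lf (nat_lit 0) (nat_lit 12516651335) (nat_lit 76) (nat_lit 18996491728) (nat_lit 76) (nat_lit 18892408747) (nat_lit 15) (nat_lit 4) (nat_lit 16) (nat_lit 5) (nat_lit 16) (nat_lit 4) (nat_lit 494) (nat_lit 354) (nat_lit 352)) (XT.lf (nat_lit 0) (nat_lit 38574081419) (nat_lit 76) (nat_lit 6940052190) (nat_lit 76) (nat_lit 6787614746) (nat_lit 15) (nat_lit 4) (nat_lit 16) (nat_lit 5) (nat_lit 16) (nat_lit 4) (nat_lit 495) (nat_lit 354) (nat_lit 351))))) (XT.nd (nat_lit 312) (nat_lit 152) (nat_lit 0) (XT.nd (nat_lit 156) (nat_lit 76) (nat_lit 0) (XT.nd (nat_lit 78) (nat_lit 0) (nat_lit 0) (XT.lf (nat_lit 0) (nat_lit 5607774435) (nat_lit 152) (nat_lit 43267874980) (nat_lit 0) (nat_lit 5418736994) (nat_lit 13) (nat_lit 5) (nat_lit 15) (nat_lit 4) (nat_lit 13) (nat_lit 4) (nat_lit 496) (nat_lit 354) (nat_lit 350)) (XT.lf (nat_lit 0) (nat_lit 18358959227) (nat_lit 152) (nat_lit 19895775841) (nat_lit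 0) (nat_lit 18128151383) (nat_lit 13) (nat_lit 5) (nat_lit 15) (nat_lit 4) (nat_lit 13) (nat_lit 4) (nat_lit 497) (nat_lit 354) (nat_lit 349))) (XT.nd (nat_lit 78) (nat_lit 0) (nat_lit 0) (XT.lf (nat_lit 0) (nat_lit 4024321113) (nat_lit 76) (nat_lit 27418658087) (nat_lit 76) (nat_lit 27148068907) (nat_lit 12) (nat_lit 4) (nat_lit 13) (nat_lit 5) (nat_lit 13) (nat_lit 4) (nat_lit 498) (nat_lit 354) (nat_lit 348)) (XT.lf (nat_lit 0) (nat_lit 29093836042) (nat_lit 76) (nat_lit 16062744666) (nat_lit 76) (nat_lit 15754268499) (nat_lit 12) (nat_lit 4) (nat_lit 13) (nat_lit 5) (nat_lit 13) (nat_lit 4) (nat_lit 499) (nat_lit 354) (nat_lit 347)))) (XT.nd (nat_lit 156) (nat_lit 0) (nat_lit 0) (XT.nd (nat_lit 78) (nat_lit 152) (nat_lit 0) (XT.lf (nat_lit 0) (nat_lit 54714614068) (nat_lit 76) (nat_lit 4496901507) (nat_lit 76) (nat_lit 4152342495) (nat_lit 12) (nat_lit 4) (nat_lit 13) (nat_lit 5) (nat_lit 13)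 (nat_lit 4) (nat_lit 500) (nat_lit 354) (nat_lit 346)) (XT.lf (nat_lit 0) (nat_lit 7799193875) (nat_lit 152) (nat_lit 50694415617) (nat_lit 0) (nat_lit 7438314232) (nat_lit 10) (nat_lit 5) (nat_lit 12) (nat_lit 4) (nat_lit 10) (nat_lit 4) (nat_lit 501) (nat_lit 354) (nat_lit 345))) (XT.nd (nat_lit 78) (nat_lit 0) (nat_lit 0) (XT.lf (nat_lit 0) (nat_lit 20098142811) (nat_lit 152) (nat_lit 28826284077) (nat_lit 0) (nat_lit 19706093449) (nat_lit 10) (nat_lit 5) (nat_lit 12) (nat_lit 4) (nat_lit 10) (nat_lit 4) (nat_lit 502) (nat_lit 354) (nat_lit 344)) (XT.lf (nat_lit 0) (nat_lit 32694688293) (nat_lit 152) (nat_lit 6512272853) (nat_lit 0) (nat_lit 32272953486) (nat_lit 10) (nat_lit 5) (nat_lit 12) (nat_lit 4) (nat_lit 10) (nat_lit 4) (nat_lit 503) (nat_lit 354) (nat_lit 343)))))) (XT.nd (nat_lit 624) (nat_lit 152) (nat_lit 0) (XT.nd (nat_lit 312) (nat_lit 76) (nat_lit 0) (XT.nd (nat_lit 156) (nat_lit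 152) (nat_lit 0) (XT.nd (nat_lit 78) (nat_lit 0) (nat_lit 0) (XT.lf (nat_lit 0) (nat_lit 16839722955) (nat_lit 76) (nat_lit 29042014410) (nat_lit 76) (nat_lit 28592007750) (nat_lit 9) (nat_lit 4) (nat_lit 10) (nat_lit 5) (nat_lit 10) (nat_lit 4) (nat_lit 504) (nat_lit 354) (nat_lit 342)) (XT.lf (nat_lit 0) (nat_lit 40978664335) (nat_lit 76) (nat_lit 18562443428) (nat_lit 76) (nat_lit 18085511194) (nat_lit 9) (nat_lit 4) (nat_lit 10) (nat_lit 5) (nat_lit 10) (nat_lit 4) (nat_lit 505) (nat_lit 354) (nat_lit 341))) (XT.nd (nat_lit 78) (nat_lit 152) (nat_lit 0) (XT.lf (nat_lit 0) (nat_lit 65746699804) (nat_lit 76) (nat_lit 7853585333) (nat_lit 76) (nat_lit 7351009694) (nat_lit 9) (nat_lit 4) (nat_lit 10) (nat_lit 5) (nat_lit 10) (nat_lit 4) (nat_lit 506) (nat_lit 354) (nat_lit 340)) (XT.lf (nat_lit 0) (nat_lit 3679811714) (nat_lit 152) (nat_lit 77587170508) (nat_lit 0) (nat_lit 3177908925) (nat_lit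 7) (nat_lit 5) (nat_lit 9) (nat_lit 4) (nat_lit 7) (nat_lit 4) (nat_lit 507) (nat_lit 354) (nat_lit 339)))) (XT.nd (nat_lit 156) (nat_lit 76) (nat_lit 0) (XT.nd (nat_lit 78) (nat_lit 0) (nat_lit 0) (XT.lf (nat_lit 0) (nat_lit 15131575260) (nat_lit 152) (nat_lit 58362223933) (nat_lit 0) (nat_lit 14607520735) (nat_lit 7) (nat_lit 5) (nat_lit 9) (nat_lit 4) (nat_lit 7) (nat_lit 4) (nat_lit 508) (nat_lit 354) (nat_lit 338)) (XT.lf (nat_lit 0) (nat_lit 26894953132) (nat_lit 152) (nat_lit 38708864210) (nat_lit 0) (nat_lit 26349801715) (nat_lit 7) (nat_lit 5) (nat_lit 9) (nat_lit 4) (nat_lit 7) (nat_lit 4) (nat_lit 509) (nat_lit 354) (nat_lit 337))) (XT.nd (nat_lit 78) (nat_lit 76) (nat_lit 0) (XT.lf (nat_lit 0) (nat_lit 38997953374) (nat_lit 152) (nat_lit 18580297624) (nat_lit 0) (nat_lit 38432709679) (nat_lit 7) (nat_lit 5) (nat_lit 9) (nat_lit 4) (nat_lit 7) (nat_lit 4) (nat_lit 510) (nat_lit 354)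 (nat_lit 336)) (XT.lf (nat_lit 0) (nat_lit 2139890852) (nat_lit 76) (nat_lit 49362911492) (nat_lit 76) (nat_lit 48778532294) (nat_lit 6) (nat_lit 4) (nat_lit 7) (nat_lit 5) (nat_lit 7) (nat_lit 4) (nat_lit 511) (nat_lit 354) (nat_lit 335))))) (XT.nd (nat_lit 312) (nat_lit 152) (nat_lit 0) (XT.nd (nat_lit 156) (nat_lit 0) (nat_lit 0) (XT.nd (nat_lit 78) (nat_lit 0) (nat_lit 0) (XT.lf (nat_lit 0) (nat_lit 24065653526) (nat_lit 76) (nat_lit 40649043638) (nat_lit 76) (nat_lit 40046440151) (nat_lit 6) (nat_lit 4) (nat_lit 7) (nat_lit 5) (nat_lit 7) (nat_lit 4) (nat_lit 512) (nat_lit 354) (nat_lit 334)) (XT.lf (nat_lit 0) (nat_lit 46634846041) (nat_lit 76) (nat_lit 31730566463) (nat_lit 76) (nat_lit 31110606511) (nat_lit 6) (nat_lit 4) (nat_lit 7) (nat_lit 5) (nat_lit 7) (nat_lit 4) (nat_lit 513) (nat_lit 354) (nat_lit 333))) (XT.nd (nat_lit 78) (nat_lit 0) (nat_lit 0) (XT.lf (nat_lit 0) (nat_lit 69901204570)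 (nat_lit 76) (nat_lit 22586245497) (nat_lit 76) (nat_lit 21949755579) (nat_lit 6) (nat_lit 4) (nat_lit 7) (nat_lit 5) (nat_lit 7) (nat_lit 4) (nat_lit 514) (nat_lit 354) (nat_lit 332)) (XT.lf (nat_lit 0) (nat_lit 93920125206) (nat_lit 76) (nat_lit 13194308549) (nat_lit 76) (nat_lit 12542075805) (nat_lit 6) (nat_lit 4) (nat_lit 7) (nat_lit 5) (nat_lit 7) (nat_lit 4) (nat_lit 515) (nat_lit 354) (nat_lit 331)))) (XT.nd (nat_lit 156) (nat_lit 0) (nat_lit 0) (XT.nd (nat_lit 78) (nat_lit 152) (nat_lit 0) (XT.lf (nat_lit 0) (nat_lit 118748795854) (nat_lit 76) (nat_lit 3532393863) (nat_lit 76) (nat_lit 2865167951) (nat_lit 6) (nat_lit 4) (nat_lit 7) (nat_lit 5) (nat_lit 7) (nat_lit 4) (nat_lit 516) (nat_lit 354) (nat_lit 330)) (XT.lf (nat_lit 0) (nat_lit 7198654969) (nat_lit 152) (nat_lit 117149916952) (nat_lit 0) (nat_lit 6549602475) (nat_lit 4) (nat_lit 5) (nat_lit 6) (nat_lit 4) (nat_lit 4) (nat_lit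 4) (nat_lit 517) (nat_lit 354) (nat_lit 329))) (XT.nd (nat_lit 78) (nat_lit 0) (nat_lit 0) (XT.lf (nat_lit 0) (nat_lit 17652009887) (nat_lit 152) (nat_lit 102294086514) (nat_lit 0) (nat_lit 16990005732) (nat_lit 4) (nat_lit 5) (nat_lit 6) (nat_lit 4) (nat_lit 4) (nat_lit 4) (nat_lit 518) (nat_lit 354) (nat_lit 328)) (XT.lf (nat_lit 0) (nat_lit 28451460379) (nat_lit 152) (nat_lit 87056173303) (nat_lit 0) (nat_lit 27777121308) (nat_lit 4) (nat_lit 5) (nat_lit 6) (nat_lit 4) (nat_lit 4) (nat_lit 4) (nat_lit 519) (nat_lit 354) (nat_lit 327)))))))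
noncomputable def xc33 : XT := (XT.nd (nat_lit 1248) (nat_lit 152) (nat_lit 0) (XT.nd (nat_lit 624) (nat_lit 0) (nat_lit 0) (XT.nd (nat_lit 312) (nat_lit 76) (nat_lit 0) (XT.nd (nat_lit 156) (nat_lit 0) (nat_lit 0) (XT.nd (nat_lit 78) (nat_lit 0) (nat_lit 0) (XT.lf (nat_lit 0) (nat_lit 39622719423) (nat_lit 152) (nat_lit 71399896574) (nat_lit 0) (nat_lit 38936632813) (nat_lit 4) (nat_lit 5) (nat_lit 6) (nat_lit 4) (nat_lit 4) (nat_lit 4) (nat_lit 520) (nat_lit 354) (nat_lit 326)) (XT.lf (nat_lit 0) (nat_lit 51192385255) (nat_lit 152) (nat_lit 55287979477) (nat_lit 0) (nat_lit 50495110513) (nat_lit 4) (nat_lit 5) (nat_lit 6) (nat_lit 4) (nat_lit 4) (nat_lit 4) (nat_lit 521) (nat_lit 354) (nat_lit 325))) (XT.nd (nat_lit 78) (nat_lit 0) (nat_lit 0) (XT.lf (nat_lit 0) (nat_lit 63188004698) (nat_lit 152) (nat_lit 38682060306) (nat_lit 0) (nat_lit 62480074592) (nat_lit 4) (nat_lit 5) (nat_lit 6) (nat_lit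 4) (nat_lit 4) (nat_lit 4) (nat_lit 522) (nat_lit 354) (nat_lit 324)) (XT.lf (nat_lit 0) (nat_lit 75638138750) (nat_lit 152) (nat_lit 21542601157) (nat_lit 0) (nat_lit 74920060678) (nat_lit 4) (nat_lit 5) (nat_lit 6) (nat_lit 4) (nat_lit 4) (nat_lit 4) (nat_lit 523) (nat_lit 354) (nat_lit 323)))) (XT.nd (nat_lit 156) (nat_lit 0) (nat_lit 0) (XT.nd (nat_lit 78) (nat_lit 76) (nat_lit 0) (XT.lf (nat_lit 0) (nat_lit 88572430589) (nat_lit 152) (nat_lit 3828793794) (nat_lit 0) (nat_lit 87844687787) (nat_lit 4) (nat_lit 5) (nat_lit 6) (nat_lit 4) (nat_lit 4) (nat_lit 4) (nat_lit 524) (nat_lit 354) (nat_lit 322)) (XT.lf (nat_lit 0) (nat_lit 14981023835) (nat_lit 76) (nat_lit 87274548077) (nat_lit 76) (nat_lit 86537600771) (nat_lit 3) (nat_lit 4) (nat_lit 4) (nat_lit 5) (nat_lit 4) (nat_lit 4) (nat_lit 525) (nat_lit 354) (nat_lit 321))) (XT.nd (nat_lit 78) (nat_lit 0) (nat_lit 0) (XT.lf (nat_lit 0) (nat_lit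 34599434393) (nat_lit 76) (nat_lit 81958657178) (nat_lit 76) (nat_lit 81212943678) (nat_lit 3) (nat_lit 4) (nat_lit 4) (nat_lit 5) (nat_lit 4) (nat_lit 4) (nat_lit 526) (nat_lit 354) (nat_lit 320)) (XT.lf (nat_lit 0) (nat_lit 54946551165) (nat_lit 76) (nat_lit 76505737280) (nat_lit 76) (nat_lit 75751675023) (nat_lit 3) (nat_lit 4) (nat_lit 4) (nat_lit 5) (nat_lit 4) (nat_lit 4) (nat_lit 527) (nat_lit 354) (nat_lit 319))))) (XT.nd (nat_lit 312) (nat_lit 0) (nat_lit 0) (XT.nd (nat_lit 156) (nat_lit 0) (nat_lit 0) (XT.nd (nat_lit 78) (nat_lit 0) (nat_lit 0) (XT.lf (nat_lit 0) (nat_lit 76070819668) (nat_lit 76) (nat_lit 70902805238) (nat_lit 76) (nat_lit 70140791785) (nat_lit 3) (nat_lit 4) (nat_lit 4) (nat_lit 5) (nat_lit 4) (nat_lit 4) (nat_lit 528) (nat_lit 354) (nat_lit 318)) (XT.lf (nat_lit 0) (nat_lit 98022535780) (nat_lit 76) (nat_lit 65136520740) (nat_lit 76) (nat_lit 64366934719) (nat_lit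 3) (nat_lit 4) (nat_lit 4) (nat_lit 5) (nat_lit 4) (nat_lit 4) (nat_lit 529) (nat_lit 354) (nat_lit 317))) (XT.nd (nat_lit 78) (nat_lit 0) (nat_lit 0) (XT.lf (nat_lit 0) (nat_lit 120853965491) (nat_lit 76) (nat_lit 59193154536) (nat_lit 76) (nat_lit 58416356545) (nat_lit 3) (nat_lit 4) (nat_lit 4) (nat_lit 5) (nat_lit 4) (nat_lit 4) (nat_lit 530) (nat_lit 354) (nat_lit 316)) (XT.lf (nat_lit 0) (nat_lit 144619469348) (nat_lit 76) (nat_lit 53058555754) (nat_lit 76) (nat_lit 52274889220) (nat_lit 3) (nat_lit 4) (nat_lit 4) (nat_lit 5) (nat_lit 4) (nat_lit 4) (nat_lit 531) (nat_lit 354) (nat_lit 315)))) (XT.nd (nat_lit 156) (nat_lit 0) (nat_lit 0) (XT.nd (nat_lit 78) (nat_lit 0) (nat_lit 0) (XT.lf (nat_lit 0) (nat_lit 169375631884) (nat_lit 76) (nat_lit 46718118206) (nat_lit 76) (nat_lit 45927910203) (nat_lit 3) (nat_lit 4) (nat_lit 4) (nat_lit 5) (nat_lit 4) (nat_lit 4) (nat_lit 532) (nat_lit 354)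 (nat_lit 314)) (XT.lf (nat_lit 0) (nat_lit 195181396343) (nat_lit 76) (nat_lit 40156745613) (nat_lit 76) (nat_lit 39360307640) (nat_lit 3) (nat_lit 4) (nat_lit 4) (nat_lit 5) (nat_lit 4) (nat_lit 4) (nat_lit 533) (nat_lit 354) (nat_lit 313))) (XT.nd (nat_lit 78) (nat_lit 0) (nat_lit 0) (XT.lf (nat_lit 0) (nat_lit 222098205022) (nat_lit 76) (nat_lit 33358815660) (nat_lit 76) (nat_lit 32556444381) (nat_lit 3) (nat_lit 4) (nat_lit 4) (nat_lit 5) (nat_lit 4) (nat_lit 4) (nat_lit 534) (nat_lit 354) (nat_lit 312)) (XT.lf (nat_lit 0) (nat_lit 250190145560) (nat_lit 76) (nat_lit 26308142798) (nat_lit 76) (nat_lit 25500120752) (nat_lit 3) (nat_lit 4) (nat_lit 4) (nat_lit 5) (nat_lit 4) (nat_lit 4) (nat_lit 535) (nat_lit 354) (nat_lit 311)))))) (XT.nd (nat_lit 624) (nat_lit 0) (nat_lit 0) (XT.nd (nat_lit 312) (nat_lit 0) (nat_lit 0) (XT.nd (nat_lit 156) (nat_lit 152) (nat_lit 0) (XT.nd (nat_lit 78) (nat_lit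 0) (nat_lit 0) (XT.lf (nat_lit 0) (nat_lit 279524103530) (nat_lit 76) (nat_lit 18987939711) (nat_lit 76) (nat_lit 18174535982) (nat_lit 3) (nat_lit 4) (nat_lit 4) (nat_lit 5) (nat_lit 4) (nat_lit 4) (nat_lit 536) (nat_lit 354) (nat_lit 310)) (XT.lf (nat_lit 0) (nat_lit 310169921689) (nat_lit 76) (nat_lit 11380777344) (nat_lit 76) (nat_lit 10562248203) (nat_lit 3) (nat_lit 4) (nat_lit 4) (nat_lit 5) (nat_lit 4) (nat_lit 4) (nat_lit 537) (nat_lit 354) (nat_lit 309))) (XT.nd (nat_lit 78) (nat_lit 152) (nat_lit 0) (XT.lf (nat_lit 0) (nat_lit 342200566271) (nat_lit 76) (nat_lit 3468543406) (nat_lit 76) (nat_lit 2645132920) (nat_lit 3) (nat_lit 4) (nat_lit 4) (nat_lit 5) (nat_lit 4) (nat_lit 4) (nat_lit 538) (nat_lit 354) (nat_lit 308)) (XT.lf (nat_lit 0) (nat_lit 5660889202) (nat_lit 152) (nat_lit 354779304948) (nat_lit 0) (nat_lit 4872261215) (nat_lit 1) (nat_lit 5) (nat_lit 3) (nat_lit 4) (nat_lit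 1) (nat_lit 4) (nat_lit 539) (nat_lit 354) (nat_lit 307)))) (XT.nd (nat_lit 156) (nat_lit 0) (nat_lit 0) (XT.nd (nat_lit 78) (nat_lit 0) (nat_lit 0) (XT.lf (nat_lit 0) (nat_lit 14385562085) (nat_lit 152) (nat_lit 355175519006) (nat_lit 0) (nat_lit 13592717409) (nat_lit 1) (nat_lit 5) (nat_lit 3) (nat_lit 4) (nat_lit 1) (nat_lit 4) (nat_lit 540) (nat_lit 354) (nat_lit 306)) (XT.lf (nat_lit 0) (nat_lit 23479941646) (nat_lit 152) (nat_lit 355727512459) (nat_lit 0) (nat_lit 22683081075) (nat_lit 1) (nat_lit 5) (nat_lit 3) (nat_lit 4) (nat_lit 1) (nat_lit 4) (nat_lit 541) (nat_lit 354) (nat_lit 305))) (XT.nd (nat_lit 78) (nat_lit 0) (nat_lit 0) (XT.lf (nat_lit 0) (nat_lit 32965681170) (nat_lit 152) (nat_lit 356436599579) (nat_lit 0) (nat_lit 32164995938) (nat_lit 1) (nat_lit 5) (nat_lit 3) (nat_lit 4) (nat_lit 1) (nat_lit 4) (nat_lit 542) (nat_lit 354) (nat_lit 304)) (XT.lf (nat_lit 0) (nat_lit 42865365751)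 (nat_lit 152) (nat_lit 357304468666) (nat_lit 0) (nat_lit 42061037983) (nat_lit 1) (nat_lit 5) (nat_lit 3) (nat_lit 4) (nat_lit 1) (nat_lit 4) (nat_lit 543) (nat_lit 354) (nat_lit 303))))) (XT.nd (nat_lit 312) (nat_lit 0) (nat_lit 0) (XT.nd (nat_lit 156) (nat_lit 0) (nat_lit 0) (XT.nd (nat_lit 78) (nat_lit 0) (nat_lit 0) (XT.lf (nat_lit 0) (nat_lit 53202566066) (nat_lit 152) (nat_lit 358333186077) (nat_lit 0) (nat_lit 52394769218) (nat_lit 1) (nat_lit 5) (nat_lit 3) (nat_lit 4) (nat_lit 1) (nat_lit 4) (nat_lit 544) (nat_lit 354) (nat_lit 302)) (XT.lf (nat_lit 0) (nat_lit 64001894497) (nat_lit 152) (nat_lit 359525201138) (nat_lit 0) (nat_lit 63190793763) (nat_lit 1) (nat_lit 5) (nat_lit 3) (nat_lit 4) (nat_lit 1) (nat_lit 4) (nat_lit 545) (nat_lit 354) (nat_lit 301))) (XT.nd (nat_lit 78) (nat_lit 0) (nat_lit 0) (XT.lf (nat_lit 0) (nat_lit 75289063731) (nat_lit 152) (nat_lit 360883351980) (nat_lit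 0) (nat_lit 74474816438) (nat_lit 1) (nat_lit 5) (nat_lit 3) (nat_lit 4) (nat_lit 1) (nat_lit 4) (nat_lit 546) (nat_lit 354) (nat_lit 300)) (XT.lf (nat_lit 0) (nat_lit 87090947981) (nat_lit 152) (nat_lit 362410872297) (nat_lit 0) (nat_lit 86273703965) (nat_lit 1) (nat_lit 5) (nat_lit 3) (nat_lit 4) (nat_lit 1) (nat_lit 4) (nat_lit 547) (nat_lit 354) (nat_lit 299)))) (XT.nd (nat_lit 156) (nat_lit 0) (nat_lit 0) (XT.nd (nat_lit 78) (nat_lit 0) (nat_lit 0) (XT.lf (nat_lit 0) (nat_lit 99435646970) (nat_lit 152) (nat_lit 364111399040) (nat_lit 0) (nat_lit 98615548933) (nat_lit 1) (nat_lit 5) (nat_lit 3) (nat_lit 4) (nat_lit 1) (nat_lit 4) (nat_lit 548) (nat_lit 354) (nat_lit 298)) (XT.lf (nat_lit 0) (nat_lit 112352552839) (nat_lit 152) (nat_lit 365988981084) (nat_lit 0) (nat_lit 111529736687) (nat_lit 1) (nat_lit 5) (nat_lit 3) (nat_lit 4) (nat_lit 1) (nat_lit 4) (nat_lit 549) (nat_lit 354) (nat_lit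 297))) (XT.nd (nat_lit 78) (nat_lit 0) (nat_lit 0) (XT.lf (nat_lit 0) (nat_lit 125872420127) (nat_lit 152) (nat_lit 368048088862) (nat_lit 0) (nat_lit 125047015293) (nat_lit 1) (nat_lit 5) (nat_lit 3) (nat_lit 4) (nat_lit 1) (nat_lit 4) (nat_lit 550) (nat_lit 354) (nat_lit 296)) (XT.nd (nat_lit 78) (nat_lit 0) (nat_lit 0) (XT.lf (nat_lit 0) (nat_lit 140027438992) (nat_lit 152) (nat_lit 370293625010) (nat_lit 0) (nat_lit 139199568748) (nat_lit 1) (nat_lit 5) (nat_lit 3) (nat_lit 4) (nat_lit 1) (nat_lit 4) (nat_lit 551) (nat_lit 354) (nat_lit 295)) (XT.lf (nat_lit 0) (nat_lit 154851311862) (nat_lit 152) (nat_lit 372730936045) (nat_lit 0) (nat_lit 154021093607) (nat_lit 1) (nat_lit 5) (nat_lit 3) (nat_lit 4) (nat_lit 1) (nat_lit 4) (nat_lit 552) (nat_lit 354) (nat_lit 294))))))))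
noncomputable def xc34 : XT := (XT.nd (nat_lit 58422) (nat_lit 0) (nat_lit 228) (XT.nd (nat_lit 57798) (nat_lit 0) (nat_lit 836) (XT.nd (nat_lit 312) (nat_lit 0) (nat_lit 0) (XT.nd (nat_lit 156) (nat_lit 0) (nat_lit 0) (XT.nd (nat_lit 78) (nat_lit 0) (nat_lit 0) (XT.lf (nat_lit 0) (nat_lit 170379333671) (nat_lit 152) (nat_lit 375365825087) (nat_lit 0) (nat_lit 169546879215) (nat_lit 1) (nat_lit 5) (nat_lit 3) (nat_lit 4) (nat_lit 1) (nat_lit 4) (nat_lit 553) (nat_lit 354) (nat_lit 293)) (XT.lf (nat_lit 0) (nat_lit 186648475900) (nat_lit 152) (nat_lit 378204565682) (nat_lit 0) (nat_lit 185813891730) (nat_lit 1) (nat_lit 5) (nat_lit 3) (nat_lit 4) (nat_lit 1) (nat_lit 4) (nat_lit 554) (nat_lit 354) (nat_lit 292))) (XT.nd (nat_lit 78) (nat_lit 0) (nat_lit 0) (XT.lf (nat_lit 0) (nat_lit 203697474602) (nat_lit 152) (nat_lit 381253916736) (nat_lit 0) (nat_lit 202860862132) (nat_lit 1) (nat_lit 5) (nat_lit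 3) (nat_lit 4) (nat_lit 1) (nat_lit 4) (nat_lit 555) (nat_lit 354) (nat_lit 291)) (XT.lf (nat_lit 0) (nat_lit 221566922631) (nat_lit 152) (nat_lit 384521138609) (nat_lit 0) (nat_lit 220728378447) (nat_lit 1) (nat_lit 5) (nat_lit 3) (nat_lit 4) (nat_lit 1) (nat_lit 4) (nat_lit 556) (nat_lit 354) (nat_lit 290)))) (XT.nd (nat_lit 57330) (nat_lit 0) (nat_lit 1140) (XT.nd (nat_lit 57252) (nat_lit 0) (nat_lit 1292) (XT.lf (nat_lit 0) (nat_lit 240299366291) (nat_lit 152) (nat_lit 388014010399) (nat_lit 0) (nat_lit 239458982380) (nat_lit 1) (nat_lit 5) (nat_lit 3) (nat_lit 4) (nat_lit 1) (nat_lit 4) (nat_lit 557) (nat_lit 354) (nat_lit 289)) (XT.lf (nat_lit 0) (nat_lit 1888746635) (nat_lit 76) (nat_lit 9987896792) (nat_lit 76) (nat_lit 9987896792) (nat_lit 18) (nat_lit 4) (nat_lit 19) (nat_lit 5) (nat_lit 19) (nat_lit 4) (nat_lit 490) (nat_lit 355) (nat_lit 355))) (XT.nd (nat_lit 78) (nat_lit 152) (nat_lit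 0) (XT.lf (nat_lit 0) (nat_lit 29765140465) (nat_lit 76) (nat_lit 7787734494) (nat_lit 76) (nat_lit 7728959343) (nat_lit 18) (nat_lit 4) (nat_lit 19) (nat_lit 5) (nat_lit 19) (nat_lit 4) (nat_lit 491) (nat_lit 355) (nat_lit 354)) (XT.lf (nat_lit 0) (nat_lit 4784727841) (nat_lit 152) (nat_lit 37457117491) (nat_lit 0) (nat_lit 4675440711) (nat_lit 16) (nat_lit 5) (nat_lit 18) (nat_lit 4) (nat_lit 16) (nat_lit 4) (nat_lit 492) (nat_lit 355) (nat_lit 353))))) (XT.nd (nat_lit 312) (nat_lit 76) (nat_lit 0) (XT.nd (nat_lit 156) (nat_lit 152) (nat_lit 0) (XT.nd (nat_lit 78) (nat_lit 76) (nat_lit 0) (XT.lf (nat_lit 0) (nat_lit 17653652863) (nat_lit 152) (nat_lit 13481464413) (nat_lit 0) (nat_lit 17493593546) (nat_lit 16) (nat_lit 5) (nat_lit 18) (nat_lit 4) (nat_lit 16) (nat_lit 4) (nat_lit 493) (nat_lit 355) (nat_lit 352)) (XT.lf (nat_lit 0) (nat_lit 11266924338) (nat_lit 76) (nat_lit 19688854521) (nat_lit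 76) (nat_lit 19480440742) (nat_lit 15) (nat_lit 4) (nat_lit 16) (nat_lit 5) (nat_lit 16) (nat_lit 4) (nat_lit 494) (nat_lit 355) (nat_lit 351))) (XT.nd (nat_lit 78) (nat_lit 152) (nat_lit 0) (XT.lf (nat_lit 0) (nat_lit 36946807654) (nat_lit 76) (nat_lit 7824669493) (nat_lit 76) (nat_lit 7570203844) (nat_lit 15) (nat_lit 4) (nat_lit 16) (nat_lit 5) (nat_lit 16) (nat_lit 4) (nat_lit 495) (nat_lit 355) (nat_lit 350)) (XT.lf (nat_lit 0) (nat_lit 4620830595) (nat_lit 152) (nat_lit 45388857748) (nat_lit 0) (nat_lit 4336711956) (nat_lit 13) (nat_lit 5) (nat_lit 15) (nat_lit 4) (nat_lit 13) (nat_lit 4) (nat_lit 496) (nat_lit 355) (nat_lit 349)))) (XT.nd (nat_lit 156) (nat_lit 0) (nat_lit 0) (XT.nd (nat_lit 78) (nat_lit 76) (nat_lit 0) (XT.lf (nat_lit 0) (nat_lit 17192720271) (nat_lit 152) (nat_lit 22382324730) (nat_lit 0) (nat_lit 16868820295) (nat_lit 13) (nat_lit 5) (nat_lit 15) (nat_lit 4) (nat_lit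 13) (nat_lit 4) (nat_lit 497) (nat_lit 355) (nat_lit 348)) (XT.lf (nat_lit 0) (nat_lit 1095885793) (nat_lit 76) (nat_lit 28964376114) (nat_lit 76) (nat_lit 28602589151) (nat_lit 12) (nat_lit 4) (nat_lit 13) (nat_lit 5) (nat_lit 13) (nat_lit 4) (nat_lit 498) (nat_lit 355) (nat_lit 347))) (XT.nd (nat_lit 78) (nat_lit 0) (nat_lit 0) (XT.lf (nat_lit 0) (nat_lit 25822857966) (nat_lit 76) (nat_lit 17783031441) (nat_lit 76) (nat_lit 17385161634) (nat_lit 12) (nat_lit 4) (nat_lit 13) (nat_lit 5) (nat_lit 13) (nat_lit 4) (nat_lit 499) (nat_lit 355) (nat_lit 346)) (XT.lf (nat_lit 0) (nat_lit 51117404795) (nat_lit 76) (nat_lit 6383444232) (nat_lit 76) (nat_lit 5951209811) (nat_lit 12) (nat_lit 4) (nat_lit 13) (nat_lit 5) (nat_lit 13) (nat_lit 4) (nat_lit 500) (nat_lit 355) (nat_lit 345)))))) (XT.nd (nat_lit 624) (nat_lit 228) (nat_lit 0) (XT.nd (nat_lit 312) (nat_lit 152) (nat_lit 0) (XT.nd (nat_lit 156)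 (nat_lit 76) (nat_lit 0) (XT.nd (nat_lit 78) (nat_lit 0) (nat_lit 0) (XT.lf (nat_lit 0) (nat_lit 5805485188) (nat_lit 152) (nat_lit 54866000905) (nat_lit 0) (nat_lit 5362663640) (nat_lit 10) (nat_lit 5) (nat_lit 12) (nat_lit 4) (nat_lit 10) (nat_lit 4) (nat_lit 501) (nat_lit 355) (nat_lit 344)) (XT.lf (nat_lit 0) (nat_lit 17949628806) (nat_lit 152) (nat_lit 33313736142) (nat_lit 0) (nat_lit 17477121813) (nat_lit 10) (nat_lit 5) (nat_lit 12) (nat_lit 4) (nat_lit 10) (nat_lit 4) (nat_lit 502) (nat_lit 355) (nat_lit 343))) (XT.nd (nat_lit 78) (nat_lit 76) (nat_lit 0) (XT.lf (nat_lit 0) (nat_lit 30398740654) (nat_lit 152) (nat_lit 11300550419) (nat_lit 0) (nat_lit 29897961807) (nat_lit 10) (nat_lit 5) (nat_lit 12) (nat_lit 4) (nat_lit 10) (nat_lit 4) (nat_lit 503) (nat_lit 355) (nat_lit 342)) (XT.lf (nat_lit 0) (nat_lit 11597149831) (nat_lit 76) (nat_lit 31766375650) (nat_lit 76) (nat_lit 31238671230)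 (nat_lit 9) (nat_lit 4) (nat_lit 10) (nat_lit 5) (nat_lit 10) (nat_lit 4) (nat_lit 504) (nat_lit 355) (nat_lit 341)))) (XT.nd (nat_lit 156) (nat_lit 152) (nat_lit 0) (XT.nd (nat_lit 78) (nat_lit 0) (nat_lit 0) (XT.lf (nat_lit 0) (nat_lit 35454211708) (nat_lit 76) (nat_lit 21430556588) (nat_lit 76) (nat_lit 20877208763) (nat_lit 9) (nat_lit 4) (nat_lit 10) (nat_lit 5) (nat_lit 10) (nat_lit 4) (nat_lit 505) (nat_lit 355) (nat_lit 340)) (XT.lf (nat_lit 0) (nat_lit 59953790509) (nat_lit 76) (nat_lit 10858605083) (nat_lit 76) (nat_lit 10280834969) (nat_lit 9) (nat_lit 4) (nat_lit 10) (nat_lit 5) (nat_lit 10) (nat_lit 4) (nat_lit 506) (nat_lit 355) (nat_lit 339))) (XT.nd (nat_lit 78) (nat_lit 0) (nat_lit 0) (XT.lf (nat_lit 0) (nat_lit 559241027) (nat_lit 76) (nat_lit 6744565) (nat_lit 152) (nat_lit 84037017212) (nat_lit 7) (nat_lit 5) (nat_lit 8) (nat_lit 5) (nat_lit 9) (nat_lit 4) (nat_lit 507) (nat_lit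 355) (nat_lit 338)) (XT.lf (nat_lit 0) (nat_lit 11890339519) (nat_lit 152) (nat_lit 65078629014) (nat_lit 0) (nat_lit 11296833639) (nat_lit 7) (nat_lit 5) (nat_lit 9) (nat_lit 4) (nat_lit 7) (nat_lit 4) (nat_lit 508) (nat_lit 355) (nat_lit 337))))) (XT.nd (nat_lit 312) (nat_lit 152) (nat_lit 0) (XT.nd (nat_lit 156) (nat_lit 76) (nat_lit 0) (XT.nd (nat_lit 78) (nat_lit 0) (nat_lit 0) (XT.lf (nat_lit 0) (nat_lit 23532475184) (nat_lit 152) (nat_lit 45672811302) (nat_lit 0) (nat_lit 22918877026) (nat_lit 7) (nat_lit 5) (nat_lit 9) (nat_lit 4) (nat_lit 7) (nat_lit 4) (nat_lit 509) (nat_lit 355) (nat_lit 336)) (XT.lf (nat_lit 0) (nat_lit 35520006657) (nat_lit 152) (nat_lit 25779999013) (nat_lit 0) (nat_lit 34887272996) (nat_lit 7) (nat_lit 5) (nat_lit 9) (nat_lit 4) (nat_lit 7) (nat_lit 4) (nat_lit 510) (nat_lit 355) (nat_lit 335))) (XT.nd (nat_lit 78) (nat_lit 76) (nat_lit 0) (XT.lf (nat_lit 0) (nat_lit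 47881475679) (nat_lit 152) (nat_lit 5352828308) (nat_lit 0) (nat_lit 47230517730) (nat_lit 7) (nat_lit 5) (nat_lit 9) (nat_lit 4) (nat_lit 7) (nat_lit 4) (nat_lit 511) (nat_lit 355) (nat_lit 334)) (XT.lf (nat_lit 0) (nat_lit 16175039203) (nat_lit 76) (nat_lit 44723812808) (nat_lit 76) (nat_lit 44055498394) (nat_lit 6) (nat_lit 4) (nat_lit 7) (nat_lit 5) (nat_lit 7) (nat_lit 4) (nat_lit 512) (nat_lit 355) (nat_lit 333)))) (XT.nd (nat_lit 156) (nat_lit 152) (nat_lit 0) (XT.nd (nat_lit 78) (nat_lit 0) (nat_lit 0) (XT.lf (nat_lit 0) (nat_lit 38533844590) (nat_lit 76) (nat_lit 35912691764) (nat_lit 76) (nat_lit 35227847383) (nat_lit 6) (nat_lit 4) (nat_lit 7) (nat_lit 5) (nat_lit 7) (nat_lit 4) (nat_lit 513) (nat_lit 355) (nat_lit 332)) (XT.lf (nat_lit 0) (nat_lit 61599834427) (nat_lit 76) (nat_lit 26870614733) (nat_lit 76) (nat_lit 26170027526) (nat_lit 6) (nat_lit 4) (nat_lit 7) (nat_lit 5) (nat_lit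 7) (nat_lit 4) (nat_lit 514) (nat_lit 355) (nat_lit 331))) (XT.nd (nat_lit 78) (nat_lit 152) (nat_lit 0) (XT.lf (nat_lit 0) (nat_lit 85427927736) (nat_lit 76) (nat_lit 17576052960) (nat_lit 76) (nat_lit 16860472586) (nat_lit 6) (nat_lit 4) (nat_lit 7) (nat_lit 5) (nat_lit 7) (nat_lit 4) (nat_lit 515) (nat_lit 355) (nat_lit 330)) (XT.nd (nat_lit 78) (nat_lit 152) (nat_lit 0) (XT.lf (nat_lit 0) (nat_lit 110074858073) (nat_lit 76) (nat_lit 8006876536) (nat_lit 76) (nat_lit 7277016955) (nat_lit 6) (nat_lit 4) (nat_lit 7) (nat_lit 5) (nat_lit 7) (nat_lit 4) (nat_lit 516) (nat_lit 355) (nat_lit 329)) (XT.lf (nat_lit 0) (nat_lit 2622036498) (nat_lit 152) (nat_lit 126593294261) (nat_lit 0) (nat_lit 1913980474) (nat_lit 4) (nat_lit 5) (nat_lit 6) (nat_lit 4) (nat_lit 4) (nat_lit 4) (nat_lit 517) (nat_lit 355) (nat_lit 328))))))))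
noncomputable def xc35 : XT := (XT.nd (nat_lit 1248) (nat_lit 152) (nat_lit 0) (XT.nd (nat_lit 624) (nat_lit 0) (nat_lit 0) (XT.nd (nat_lit 312) (nat_lit 76) (nat_lit 0) (XT.nd (nat_lit 156) (nat_lit 0) (nat_lit 0) (XT.nd (nat_lit 78) (nat_lit 0) (nat_lit 0) (XT.lf (nat_lit 0) (nat_lit 12989258650) (nat_lit 152) (nat_lit 111913419310) (nat_lit 0) (nat_lit 12268867709) (nat_lit 4) (nat_lit 5) (nat_lit 6) (nat_lit 4) (nat_lit 4) (nat_lit 4) (nat_lit 518) (nat_lit 355) (nat_lit 327)) (XT.lf (nat_lit 0) (nat_lit 23706677936) (nat_lit 152) (nat_lit 96843082754) (nat_lit 0) (nat_lit 22974539456) (nat_lit 4) (nat_lit 5) (nat_lit 6) (nat_lit 4) (nat_lit 4) (nat_lit 4) (nat_lit 519) (nat_lit 355) (nat_lit 326))) (XT.nd (nat_lit 78) (nat_lit 0) (nat_lit 0) (XT.lf (nat_lit 0) (nat_lit 34799812021) (nat_lit 152) (nat_lit 81346402840) (nat_lit 0) (nat_lit 34056485410) (nat_lit 4) (nat_lit 5) (nat_lit 6) (nat_lit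 4) (nat_lit 4) (nat_lit 4) (nat_lit 520) (nat_lit 355) (nat_lit 325)) (XT.lf (nat_lit 0) (nat_lit 46295073131) (nat_lit 152) (nat_lit 65386482709) (nat_lit 0) (nat_lit 45541091155) (nat_lit 4) (nat_lit 5) (nat_lit 6) (nat_lit 4) (nat_lit 4) (nat_lit 4) (nat_lit 521) (nat_lit 355) (nat_lit 324)))) (XT.nd (nat_lit 156) (nat_lit 76) (nat_lit 0) (XT.nd (nat_lit 78) (nat_lit 0) (nat_lit 0) (XT.lf (nat_lit 0) (nat_lit 58219830933) (nat_lit 152) (nat_lit 48925322552) (nat_lit 0) (nat_lit 57455700992) (nat_lit 4) (nat_lit 5) (nat_lit 6) (nat_lit 4) (nat_lit 4) (nat_lit 4) (nat_lit 522) (nat_lit 355) (nat_lit 323)) (XT.lf (nat_lit 0) (nat_lit 70602477709) (nat_lit 152) (nat_lit 31923729132) (nat_lit 0) (nat_lit 69828683039) (nat_lit 4) (nat_lit 5) (nat_lit 6) (nat_lit 4) (nat_lit 4) (nat_lit 4) (nat_lit 523) (nat_lit 355) (nat_lit 322))) (XT.nd (nat_lit 78) (nat_lit 76) (nat_lit 0) (XT.lf (nat_lit 0) (nat_lit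 83472495951) (nat_lit 152) (nat_lit 14341222463) (nat_lit 0) (nat_lit 82689496777) (nat_lit 4) (nat_lit 5) (nat_lit 6) (nat_lit 4) (nat_lit 4) (nat_lit 4) (nat_lit 524) (nat_lit 355) (nat_lit 321)) (XT.lf (nat_lit 0) (nat_lit 3991823858) (nat_lit 76) (nat_lit 92931028259) (nat_lit 76) (nat_lit 92139262890) (nat_lit 3) (nat_lit 4) (nat_lit 4) (nat_lit 5) (nat_lit 4) (nat_lit 4) (nat_lit 525) (nat_lit 355) (nat_lit 320))))) (XT.nd (nat_lit 312) (nat_lit 0) (nat_lit 0) (XT.nd (nat_lit 156) (nat_lit 0) (nat_lit 0) (XT.nd (nat_lit 78) (nat_lit 0) (nat_lit 0) (XT.lf (nat_lit 0) (nat_lit 23487203043) (nat_lit 76) (nat_lit 87677949821) (nat_lit 76) (nat_lit 86877835695) (nat_lit 3) (nat_lit 4) (nat_lit 4) (nat_lit 5) (nat_lit 4) (nat_lit 4) (nat_lit 526) (nat_lit 355) (nat_lit 319)) (XT.lf (nat_lit 0) (nat_lit 43717147080) (nat_lit 76) (nat_lit 82284851314) (nat_lit 76) (nat_lit 81476785992) (nat_lit 3)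 (nat_lit 4) (nat_lit 4) (nat_lit 5) (nat_lit 4) (nat_lit 4) (nat_lit 527) (nat_lit 355) (nat_lit 318))) (XT.nd (nat_lit 78) (nat_lit 0) (nat_lit 0) (XT.lf (nat_lit 0) (nat_lit 64729822502) (nat_lit 76) (nat_lit 76738892026) (nat_lit 76) (nat_lit 75923254136) (nat_lit 3) (nat_lit 4) (nat_lit 4) (nat_lit 5) (nat_lit 4) (nat_lit 4) (nat_lit 528) (nat_lit 355) (nat_lit 317)) (XT.lf (nat_lit 0) (nat_lit 86575259489) (nat_lit 76) (nat_lit 71026867293) (nat_lit 76) (nat_lit 70204017433) (nat_lit 3) (nat_lit 4) (nat_lit 4) (nat_lit 5) (nat_lit 4) (nat_lit 4) (nat_lit 529) (nat_lit 355) (nat_lit 316)))) (XT.nd (nat_lit 156) (nat_lit 0) (nat_lit 0) (XT.nd (nat_lit 78) (nat_lit 0) (nat_lit 0) (XT.lf (nat_lit 0) (nat_lit 109305470985) (nat_lit 76) (nat_lit 65135177056) (nat_lit 76) (nat_lit 64305458653) (nat_lit 3) (nat_lit 4) (nat_lit 4) (nat_lit 5) (nat_lit 4) (nat_lit 4) (nat_lit 530) (nat_lit 355) (nat_lit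 315)) (XT.lf (nat_lit 0) (nat_lit 132974576543) (nat_lit 76) (nat_lit 59049793481) (nat_lit 76) (nat_lit 58213533608) (nat_lit 3) (nat_lit 4) (nat_lit 4) (nat_lit 5) (nat_lit 4) (nat_lit 4) (nat_lit 531) (nat_lit 355) (nat_lit 314))) (XT.nd (nat_lit 78) (nat_lit 0) (nat_lit 0) (XT.lf (nat_lit 0) (nat_lit 157638931174) (nat_lit 76) (nat_lit 52756227559) (nat_lit 76) (nat_lit 51913737716) (nat_lit 3) (nat_lit 4) (nat_lit 4) (nat_lit 5) (nat_lit 4) (nat_lit 4) (nat_lit 532) (nat_lit 355) (nat_lit 313)) (XT.lf (nat_lit 0) (nat_lit 183357259534) (nat_lit 76) (nat_lit 46239494609) (nat_lit 76) (nat_lit 45391071461) (nat_lit 3) (nat_lit 4) (nat_lit 4) (nat_lit 5) (nat_lit 4) (nat_lit 4) (nat_lit 533) (nat_lit 355) (nat_lit 312)))))) (XT.nd (nat_lit 624) (nat_lit 0) (nat_lit 0) (XT.nd (nat_lit 312) (nat_lit 152) (nat_lit 0) (XT.nd (nat_lit 156) (nat_lit 0) (nat_lit 0) (XT.nd (nat_lit 78) (nat_lit 0) (nat_lit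 0) (XT.lf (nat_lit 0) (nat_lit 210190795738) (nat_lit 76) (nat_lit 39484078601) (nat_lit 76) (nat_lit 38630004686) (nat_lit 3) (nat_lit 4) (nat_lit 4) (nat_lit 5) (nat_lit 4) (nat_lit 4) (nat_lit 534) (nat_lit 355) (nat_lit 311)) (XT.lf (nat_lit 0) (nat_lit 238203429156) (nat_lit 76) (nat_lit 32473895212) (nat_lit 76) (nat_lit 31614439613) (nat_lit 3) (nat_lit 4) (nat_lit 4) (nat_lit 5) (nat_lit 4) (nat_lit 4) (nat_lit 535) (nat_lit 355) (nat_lit 310))) (XT.nd (nat_lit 78) (nat_lit 0) (nat_lit 0) (XT.lf (nat_lit 0) (nat_lit 267461856536) (nat_lit 76) (nat_lit 25192253527) (nat_lit 76) (nat_lit 24327672516) (nat_lit 3) (nat_lit 4) (nat_lit 4) (nat_lit 5) (nat_lit 4) (nat_lit 4) (nat_lit 536) (nat_lit 355) (nat_lit 309)) (XT.lf (nat_lit 0) (nat_lit 298035740800) (nat_lit 76) (nat_lit 17621816305) (nat_lit 76) (nat_lit 16752353950) (nat_lit 3) (nat_lit 4) (nat_lit 4) (nat_lit 5) (nat_lit 4) (nat_lit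 4) (nat_lit 537) (nat_lit 355) (nat_lit 308)))) (XT.nd (nat_lit 156) (nat_lit 152) (nat_lit 0) (XT.nd (nat_lit 78) (nat_lit 0) (nat_lit 0) (XT.lf (nat_lit 0) (nat_lit 329997876910) (nat_lit 76) (nat_lit 9744558696) (nat_lit 76) (nat_lit 8870447440) (nat_lit 3) (nat_lit 4) (nat_lit 4) (nat_lit 5) (nat_lit 4) (nat_lit 4) (nat_lit 538) (nat_lit 355) (nat_lit 307)) (XT.lf (nat_lit 0) (nat_lit 363424365191) (nat_lit 76) (nat_lit 1541725324) (nat_lit 76) (nat_lit 663186544) (nat_lit 3) (nat_lit 4) (nat_lit 4) (nat_lit 5) (nat_lit 4) (nat_lit 4) (nat_lit 539) (nat_lit 355) (nat_lit 306))) (XT.nd (nat_lit 78) (nat_lit 0) (nat_lit 0) (XT.lf (nat_lit 0) (nat_lit 7990043521) (nat_lit 152) (nat_lit 368336403822) (nat_lit 0) (nat_lit 7149324027) (nat_lit 1) (nat_lit 5) (nat_lit 3) (nat_lit 4) (nat_lit 1) (nat_lit 4) (nat_lit 540) (nat_lit 355) (nat_lit 305)) (XT.lf (nat_lit 0) (nat_lit 17053516245) (nat_lit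 152) (nat_lit 368951565077) (nat_lit 0) (nat_lit 16208972090) (nat_lit 1) (nat_lit 5) (nat_lit 3) (nat_lit 4) (nat_lit 1) (nat_lit 4) (nat_lit 541) (nat_lit 355) (nat_lit 304))))) (XT.nd (nat_lit 312) (nat_lit 0) (nat_lit 0) (XT.nd (nat_lit 156) (nat_lit 0) (nat_lit 0) (XT.nd (nat_lit 78) (nat_lit 0) (nat_lit 0) (XT.lf (nat_lit 0) (nat_lit 26509820687) (nat_lit 152) (nat_lit 369720812008) (nat_lit 0) (nat_lit 25661633996) (nat_lit 1) (nat_lit 5) (nat_lit 3) (nat_lit 4) (nat_lit 1) (nat_lit 4) (nat_lit 542) (nat_lit 355) (nat_lit 303)) (XT.lf (nat_lit 0) (nat_lit 36381471855) (nat_lit 152) (nat_lit 370645976153) (nat_lit 0) (nat_lit 35529816084) (nat_lit 1) (nat_lit 5) (nat_lit 3) (nat_lit 4) (nat_lit 1) (nat_lit 4) (nat_lit 543) (nat_lit 355) (nat_lit 302))) (XT.nd (nat_lit 78) (nat_lit 0) (nat_lit 0) (XT.lf (nat_lit 0) (nat_lit 46691973683) (nat_lit 152) (nat_lit 371729260285) (nat_lit 0) (nat_lit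 45837014025) (nat_lit 1) (nat_lit 5) (nat_lit 3) (nat_lit 4) (nat_lit 1) (nat_lit 4) (nat_lit 544) (nat_lit 355) (nat_lit 301)) (XT.lf (nat_lit 0) (nat_lit 57465874983) (nat_lit 152) (nat_lit 372973243653) (nat_lit 0) (nat_lit 56607768767) (nat_lit 1) (nat_lit 5) (nat_lit 3) (nat_lit 4) (nat_lit 1) (nat_lit 4) (nat_lit 545) (nat_lit 355) (nat_lit 300)))) (XT.nd (nat_lit 156) (nat_lit 0) (nat_lit 0) (XT.nd (nat_lit 78) (nat_lit 0) (nat_lit 0) (XT.lf (nat_lit 0) (nat_lit 68728827902) (nat_lit 152) (nat_lit 374380888121) (nat_lit 0) (nat_lit 67867724963) (nat_lit 1) (nat_lit 5) (nat_lit 3) (nat_lit 4) (nat_lit 1) (nat_lit 4) (nat_lit 546) (nat_lit 355) (nat_lit 299)) (XT.lf (nat_lit 0) (nat_lit 80507648994) (nat_lit 152) (nat_lit 375955545223) (nat_lit 0) (nat_lit 79643692034) (nat_lit 1) (nat_lit 5) (nat_lit 3) (nat_lit 4) (nat_lit 1) (nat_lit 4) (nat_lit 547) (nat_lit 355) (nat_lit 298))) (XT.nd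 (nat_lit 78) (nat_lit 0) (nat_lit 0) (XT.lf (nat_lit 0) (nat_lit 92830383071) (nat_lit 152) (nat_lit 377700964144) (nat_lit 0) (nat_lit 91963707996) (nat_lit 1) (nat_lit 5) (nat_lit 3) (nat_lit 4) (nat_lit 1) (nat_lit 4) (nat_lit 548) (nat_lit 355) (nat_lit 297)) (XT.nd (nat_lit 78) (nat_lit 0) (nat_lit 0) (XT.lf (nat_lit 0) (nat_lit 105726369977) (nat_lit 152) (nat_lit 379621300642) (nat_lit 0) (nat_lit 104857106220) (nat_lit 1) (nat_lit 5) (nat_lit 3) (nat_lit 4) (nat_lit 1) (nat_lit 4) (nat_lit 549) (nat_lit 355) (nat_lit 296)) (XT.lf (nat_lit 0) (nat_lit 119226314442) (nat_lit 152) (nat_lit 381721126948) (nat_lit 0) (nat_lit 118354585274) (nat_lit 1) (nat_lit 5) (nat_lit 3) (nat_lit 4) (nat_lit 1) (nat_lit 4) (nat_lit 550) (nat_lit 355) (nat_lit 295))))))))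
noncomputable def xc36 : XT := (XT.nd (nat_lit 58266) (nat_lit 0) (nat_lit 380) (XT.nd (nat_lit 57642) (nat_lit 0) (nat_lit 912) (XT.nd (nat_lit 312) (nat_lit 0) (nat_lit 0) (XT.nd (nat_lit 156) (nat_lit 0) (nat_lit 0) (XT.nd (nat_lit 78) (nat_lit 0) (nat_lit 0) (XT.lf (nat_lit 0) (nat_lit 133362359191) (nat_lit 152) (nat_lit 384005442647) (nat_lit 0) (nat_lit 132488282012) (nat_lit 1) (nat_lit 5) (nat_lit 3) (nat_lit 4) (nat_lit 1) (nat_lit 4) (nat_lit 551) (nat_lit 355) (nat_lit 294)) (XT.lf (nat_lit 0) (nat_lit 148168161473) (nat_lit 152) (nat_lit 386479686587) (nat_lit 0) (nat_lit 147291848094) (nat_lit 1) (nat_lit 5) (nat_lit 3) (nat_lit 4) (nat_lit 1) (nat_lit 4) (nat_lit 552) (nat_lit 355) (nat_lit 293))) (XT.nd (nat_lit 78) (nat_lit 0) (nat_lit 0) (XT.lf (nat_lit 0) (nat_lit 163678973199) (nat_lit 152) (nat_lit 389149749824) (nat_lit 0) (nat_lit 162800530106) (nat_lit 1) (nat_lit 5) (nat_lit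 3) (nat_lit 4) (nat_lit 1) (nat_lit 4) (nat_lit 553) (nat_lit 355) (nat_lit 292)) (XT.lf (nat_lit 0) (nat_lit 179931724873) (nat_lit 152) (nat_lit 392021989653) (nat_lit 0) (nat_lit 179051253479) (nat_lit 1) (nat_lit 5) (nat_lit 3) (nat_lit 4) (nat_lit 1) (nat_lit 4) (nat_lit 554) (nat_lit 355) (nat_lit 291)))) (XT.nd (nat_lit 156) (nat_lit 0) (nat_lit 0) (XT.nd (nat_lit 78) (nat_lit 0) (nat_lit 0) (XT.lf (nat_lit 0) (nat_lit 196965113522) (nat_lit 152) (nat_lit 395103244739) (nat_lit 0) (nat_lit 196082710415) (nat_lit 1) (nat_lit 5) (nat_lit 3) (nat_lit 4) (nat_lit 1) (nat_lit 4) (nat_lit 555) (nat_lit 355) (nat_lit 290)) (XT.lf (nat_lit 0) (nat_lit 214819694834) (nat_lit 152) (nat_lit 398400851404) (nat_lit 0) (nat_lit 213935451999) (nat_lit 1) (nat_lit 5) (nat_lit 3) (nat_lit 4) (nat_lit 1) (nat_lit 4) (nat_lit 556) (nat_lit 355) (nat_lit 289))) (XT.nd (nat_lit 57096) (nat_lit 0) (nat_lit 1520)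 (XT.lf (nat_lit 0) (nat_lit 233537979716) (nat_lit 152) (nat_lit 401922661093) (nat_lit 0) (nat_lit 232651984760) (nat_lit 1) (nat_lit 5) (nat_lit 3) (nat_lit 4) (nat_lit 1) (nat_lit 4) (nat_lit 557) (nat_lit 355) (nat_lit 288)) (XT.lf (nat_lit 0) (nat_lit 18356966001) (nat_lit 76) (nat_lit 1033542725) (nat_lit 76) (nat_lit 1033542725) (nat_lit 21) (nat_lit 4) (nat_lit 22) (nat_lit 5) (nat_lit 22) (nat_lit 4) (nat_lit 488) (nat_lit 356) (nat_lit 356))))) (XT.nd (nat_lit 312) (nat_lit 228) (nat_lit 0) (XT.nd (nat_lit 156) (nat_lit 152) (nat_lit 0) (XT.nd (nat_lit 78) (nat_lit 76) (nat_lit 0) (XT.lf (nat_lit 0) (nat_lit 10613568551) (nat_lit 152) (nat_lit 21087792987) (nat_lit 0) (nat_lit 10551854641) (nat_lit 19) (nat_lit 5) (nat_lit 21) (nat_lit 4) (nat_lit 19) (nat_lit 4) (nat_lit 489) (nat_lit 356) (nat_lit 355)) (XT.lf (nat_lit 0) (nat_lit 3361384036) (nat_lit 76) (nat_lit 20249203217) (nat_lit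 76) (nat_lit 20128714156) (nat_lit 18) (nat_lit 4) (nat_lit 19) (nat_lit 5) (nat_lit 19) (nat_lit 4) (nat_lit 490) (nat_lit 356) (nat_lit 354))) (XT.nd (nat_lit 78) (nat_lit 152) (nat_lit 0) (XT.lf (nat_lit 0) (nat_lit 28952736722) (nat_lit 76) (nat_lit 8262759102) (nat_lit 76) (nat_lit 8086293706) (nat_lit 18) (nat_lit 4) (nat_lit 19) (nat_lit 5) (nat_lit 19) (nat_lit 4) (nat_lit 491) (nat_lit 356) (nat_lit 353)) (XT.lf (nat_lit 0) (nat_lit 4219982755) (nat_lit 152) (nat_lit 38727331816) (nat_lit 0) (nat_lit 4001148287) (nat_lit 16) (nat_lit 5) (nat_lit 18) (nat_lit 4) (nat_lit 16) (nat_lit 4) (nat_lit 492) (nat_lit 356) (nat_lit 352)))) (XT.nd (nat_lit 156) (nat_lit 152) (nat_lit 0) (XT.nd (nat_lit 78) (nat_lit 76) (nat_lit 0) (XT.lf (nat_lit 0) (nat_lit 16900540196) (nat_lit 152) (nat_lit 15135414798) (nat_lit 0) (nat_lit 16633351265) (nat_lit 16) (nat_lit 5) (nat_lit 18) (nat_lit 4) (nat_lit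 16) (nat_lit 4) (nat_lit 493) (nat_lit 356) (nat_lit 351)) (XT.lf (nat_lit 0) (nat_lit 9180740115) (nat_lit 76) (nat_lit 20809957198) (nat_lit 76) (nat_lit 20496716398) (nat_lit 15) (nat_lit 4) (nat_lit 16) (nat_lit 5) (nat_lit 16) (nat_lit 4) (nat_lit 494) (nat_lit 356) (nat_lit 350))) (XT.nd (nat_lit 78) (nat_lit 152) (nat_lit 0) (XT.lf (nat_lit 0) (nat_lit 34501055081) (nat_lit 76) (nat_lit 9128871703) (nat_lit 76) (nat_lit 8771771979) (nat_lit 15) (nat_lit 4) (nat_lit 16) (nat_lit 5) (nat_lit 16) (nat_lit 4) (nat_lit 495) (nat_lit 356) (nat_lit 349)) (XT.lf (nat_lit 0) (nat_lit 3216984574) (nat_lit 152) (nat_lit 48365300204) (nat_lit 0) (nat_lit 2837108263) (nat_lit 13) (nat_lit 5) (nat_lit 15) (nat_lit 4) (nat_lit 13) (nat_lit 4) (nat_lit 496) (nat_lit 356) (nat_lit 348)))))) (XT.nd (nat_lit 624) (nat_lit 228) (nat_lit 0) (XT.nd (nat_lit 312) (nat_lit 228) (nat_lit 0) (XT.nd (nat_lit 156)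 (nat_lit 76) (nat_lit 0) (XT.nd (nat_lit 78) (nat_lit 0) (nat_lit 0) (XT.lf (nat_lit 0) (nat_lit 15618116995) (nat_lit 152) (nat_lit 25706925398) (nat_lit 0) (nat_lit 15200353697) (nat_lit 13) (nat_lit 5) (nat_lit 15) (nat_lit 4) (nat_lit 13) (nat_lit 4) (nat_lit 497) (nat_lit 356) (nat_lit 347)) (XT.lf (nat_lit 0) (nat_lit 28305922827) (nat_lit 152) (nat_lit 2595369313) (nat_lit 0) (nat_lit 27852076684) (nat_lit 13) (nat_lit 5) (nat_lit 15) (nat_lit 4) (nat_lit 13) (nat_lit 4) (nat_lit 498) (nat_lit 356) (nat_lit 346))) (XT.nd (nat_lit 78) (nat_lit 0) (nat_lit 0) (XT.lf (nat_lit 0) (nat_lit 21719557032) (nat_lit 76) (nat_lit 19930157252) (nat_lit 76) (nat_lit 19441946496) (nat_lit 12) (nat_lit 4) (nat_lit 13) (nat_lit 5) (nat_lit 13) (nat_lit 4) (nat_lit 499) (nat_lit 356) (nat_lit 345)) (XT.lf (nat_lit 0) (nat_lit 46703407483) (nat_lit 76) (nat_lit 8688909044) (nat_lit 76) (nat_lit 8167970084)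 (nat_lit 12) (nat_lit 4) (nat_lit 13) (nat_lit 5) (nat_lit 13) (nat_lit 4) (nat_lit 500) (nat_lit 356) (nat_lit 344)))) (XT.nd (nat_lit 156) (nat_lit 76) (nat_lit 0) (XT.nd (nat_lit 78) (nat_lit 0) (nat_lit 0) (XT.lf (nat_lit 0) (nat_lit 3394740167) (nat_lit 152) (nat_lit 59893692350) (nat_lit 0) (nat_lit 2868922378) (nat_lit 10) (nat_lit 5) (nat_lit 12) (nat_lit 4) (nat_lit 10) (nat_lit 4) (nat_lit 501) (nat_lit 356) (nat_lit 343)) (XT.lf (nat_lit 0) (nat_lit 15391450150) (nat_lit 152) (nat_lit 38642253088) (nat_lit 0) (nat_lit 14837360508) (nat_lit 10) (nat_lit 5) (nat_lit 12) (nat_lit 4) (nat_lit 10) (nat_lit 4) (nat_lit 502) (nat_lit 356) (nat_lit 342))) (XT.nd (nat_lit 78) (nat_lit 76) (nat_lit 0) (XT.lf (nat_lit 0) (nat_lit 27700149011) (nat_lit 152) (nat_lit 16915567842) (nat_lit 0) (nat_lit 27119133795) (nat_lit 10) (nat_lit 5) (nat_lit 12) (nat_lit 4) (nat_lit 10) (nat_lit 4) (nat_lit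 503) (nat_lit 356) (nat_lit 341)) (XT.lf (nat_lit 0) (nat_lit 5514595071) (nat_lit 76) (nat_lit 34921646387) (nat_lit 76) (nat_lit 34314987768) (nat_lit 9) (nat_lit 4) (nat_lit 10) (nat_lit 5) (nat_lit 10) (nat_lit 4) (nat_lit 504) (nat_lit 356) (nat_lit 340))))) (XT.nd (nat_lit 312) (nat_lit 76) (nat_lit 0) (XT.nd (nat_lit 156) (nat_lit 152) (nat_lit 0) (XT.nd (nat_lit 78) (nat_lit 0) (nat_lit 0) (XT.lf (nat_lit 0) (nat_lit 29103200280) (nat_lit 76) (nat_lit 24722733916) (nat_lit 76) (nat_lit 24091653006) (nat_lit 9) (nat_lit 4) (nat_lit 10) (nat_lit 5) (nat_lit 10) (nat_lit 4) (nat_lit 505) (nat_lit 356) (nat_lit 339)) (XT.lf (nat_lit 0) (nat_lit 53347106063) (nat_lit 76) (nat_lit 14281169639) (nat_lit 76) (nat_lit 13626829406) (nat_lit 9) (nat_lit 4) (nat_lit 10) (nat_lit 5) (nat_lit 10) (nat_lit 4) (nat_lit 506) (nat_lit 356) (nat_lit 338))) (XT.nd (nat_lit 78) (nat_lit 152) (nat_lit 0) (XT.lf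 (nat_lit 0) (nat_lit 78304036005) (nat_lit 76) (nat_lit 3572092691) (nat_lit 76) (nat_lit 2895600722) (nat_lit 9) (nat_lit 4) (nat_lit 10) (nat_lit 5) (nat_lit 10) (nat_lit 4) (nat_lit 507) (nat_lit 356) (nat_lit 337)) (XT.lf (nat_lit 0) (nat_lit 8238495467) (nat_lit 152) (nat_lit 72638315472) (nat_lit 0) (nat_lit 7574125123) (nat_lit 7) (nat_lit 5) (nat_lit 9) (nat_lit 4) (nat_lit 7) (nat_lit 4) (nat_lit 508) (nat_lit 356) (nat_lit 336)))) (XT.nd (nat_lit 156) (nat_lit 76) (nat_lit 0) (XT.nd (nat_lit 78) (nat_lit 0) (nat_lit 0) (XT.lf (nat_lit 0) (nat_lit 19765162363) (nat_lit 152) (nat_lit 53468252057) (nat_lit 0) (nat_lit 19081656516) (nat_lit 7) (nat_lit 5) (nat_lit 9) (nat_lit 4) (nat_lit 7) (nat_lit 4) (nat_lit 509) (nat_lit 356) (nat_lit 335)) (XT.lf (nat_lit 0) (nat_lit 31642723580) (nat_lit 152) (nat_lit 33799967669) (nat_lit 0) (nat_lit 30940993445) (nat_lit 7) (nat_lit 5) (nat_lit 9)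 (nat_lit 4) (nat_lit 7) (nat_lit 4) (nat_lit 510) (nat_lit 356) (nat_lit 334))) (XT.nd (nat_lit 78) (nat_lit 76) (nat_lit 0) (XT.lf (nat_lit 0) (nat_lit 43899459025) (nat_lit 152) (nat_lit 13586633061) (nat_lit 0) (nat_lit 43180372424) (nat_lit 7) (nat_lit 5) (nat_lit 9) (nat_lit 4) (nat_lit 7) (nat_lit 4) (nat_lit 511) (nat_lit 356) (nat_lit 333)) (XT.nd (nat_lit 78) (nat_lit 0) (nat_lit 0) (XT.lf (nat_lit 0) (nat_lit 7458600552) (nat_lit 76) (nat_lit 49222400506) (nat_lit 76) (nat_lit 48486783938) (nat_lit 6) (nat_lit 4) (nat_lit 7) (nat_lit 5) (nat_lit 7) (nat_lit 4) (nat_lit 512) (nat_lit 356) (nat_lit 332)) (XT.lf (nat_lit 0) (nat_lit 29617037247) (nat_lit 76) (nat_lit 40513523396) (nat_lit 76) (nat_lit 39762164003) (nat_lit 6) (nat_lit 4) (nat_lit 7) (nat_lit 5) (nat_lit 7) (nat_lit 4) (nat_lit 513) (nat_lit 356) (nat_lit 331))))))))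
noncomputable def xc37 : XT := (XT.nd (nat_lit 1248) (nat_lit 152) (nat_lit 0) (XT.nd (nat_lit 624) (nat_lit 76) (nat_lit 0) (XT.nd (nat_lit 312) (nat_lit 152) (nat_lit 0) (XT.nd (nat_lit 156) (nat_lit 0) (nat_lit 0) (XT.nd (nat_lit 78) (nat_lit 0) (nat_lit 0) (XT.lf (nat_lit 0) (nat_lit 52492199757) (nat_lit 76) (nat_lit 31568821540) (nat_lit 76) (nat_lit 30802468980) (nat_lit 6) (nat_lit 4) (nat_lit 7) (nat_lit 5) (nat_lit 7) (nat_lit 4) (nat_lit 514) (nat_lit 356) (nat_lit 330)) (XT.lf (nat_lit 0) (nat_lit 76138552755) (nat_lit 76) (nat_lit 22366998029) (nat_lit 76) (nat_lit 21586366262) (nat_lit 6) (nat_lit 4) (nat_lit 7) (nat_lit 5) (nat_lit 7) (nat_lit 4) (nat_lit 515) (nat_lit 356) (nat_lit 329))) (XT.nd (nat_lit 78) (nat_lit 0) (nat_lit 0) (XT.lf (nat_lit 0) (nat_lit 100612397082) (nat_lit 76) (nat_lit 12886143760) (nat_lit 76) (nat_lit 12091912748) (nat_lit 6) (nat_lit 4) (nat_lit 7) (nat_lit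 5) (nat_lit 7) (nat_lit 4) (nat_lit 516) (nat_lit 356) (nat_lit 328)) (XT.lf (nat_lit 0) (nat_lit 125972003795) (nat_lit 76) (nat_lit 3103685270) (nat_lit 76) (nat_lit 2296502596) (nat_lit 6) (nat_lit 4) (nat_lit 7) (nat_lit 5) (nat_lit 7) (nat_lit 4) (nat_lit 517) (nat_lit 356) (nat_lit 327)))) (XT.nd (nat_lit 156) (nat_lit 0) (nat_lit 0) (XT.nd (nat_lit 78) (nat_lit 0) (nat_lit 0) (XT.lf (nat_lit 0) (nat_lit 7925205878) (nat_lit 152) (nat_lit 122357250890) (nat_lit 0) (nat_lit 7144712936) (nat_lit 4) (nat_lit 5) (nat_lit 6) (nat_lit 4) (nat_lit 4) (nat_lit 4) (nat_lit 518) (nat_lit 356) (nat_lit 326)) (XT.lf (nat_lit 0) (nat_lit 18564500205) (nat_lit 152) (nat_lit 107446511148) (nat_lit 0) (nat_lit 17772819131) (nat_lit 4) (nat_lit 5) (nat_lit 6) (nat_lit 4) (nat_lit 4) (nat_lit 4) (nat_lit 519) (nat_lit 356) (nat_lit 325))) (XT.nd (nat_lit 78) (nat_lit 0) (nat_lit 0) (XT.lf (nat_lit 0) (nat_lit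 29583229569) (nat_lit 152) (nat_lit 92101828199) (nat_lit 0) (nat_lit 28780893130) (nat_lit 4) (nat_lit 5) (nat_lit 6) (nat_lit 4) (nat_lit 4) (nat_lit 4) (nat_lit 520) (nat_lit 356) (nat_lit 324)) (XT.lf (nat_lit 0) (nat_lit 41007629038) (nat_lit 152) (nat_lit 76286667083) (nat_lit 0) (nat_lit 40195144634) (nat_lit 4) (nat_lit 5) (nat_lit 6) (nat_lit 4) (nat_lit 4) (nat_lit 4) (nat_lit 521) (nat_lit 356) (nat_lit 323))))) (XT.nd (nat_lit 312) (nat_lit 76) (nat_lit 0) (XT.nd (nat_lit 156) (nat_lit 0) (nat_lit 0) (XT.nd (nat_lit 78) (nat_lit 0) (nat_lit 0) (XT.lf (nat_lit 0) (nat_lit 52864899564) (nat_lit 152) (nat_lit 59963372655) (nat_lit 0) (nat_lit 52042750431) (nat_lit 4) (nat_lit 5) (nat_lit 6) (nat_lit 4) (nat_lit 4) (nat_lit 4) (nat_lit 522) (nat_lit 356) (nat_lit 322)) (XT.lf (nat_lit 0) (nat_lit 65183272744) (nat_lit 152) (nat_lit 43093079928) (nat_lit 0) (nat_lit 64351919106) (nat_lit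 4) (nat_lit 5) (nat_lit 6) (nat_lit 4) (nat_lit 4) (nat_lit 4) (nat_lit 523) (nat_lit 356) (nat_lit 321))) (XT.nd (nat_lit 78) (nat_lit 0) (nat_lit 0) (XT.lf (nat_lit 0) (nat_lit 77992078036) (nat_lit 152) (nat_lit 25635621539) (nat_lit 0) (nat_lit 77151958205) (nat_lit 4) (nat_lit 5) (nat_lit 6) (nat_lit 4) (nat_lit 4) (nat_lit 4) (nat_lit 524) (nat_lit 356) (nat_lit 320)) (XT.lf (nat_lit 0) (nat_lit 91321812598) (nat_lit 152) (nat_lit 7549432110) (nat_lit 0) (nat_lit 90473344009) (nat_lit 4) (nat_lit 5) (nat_lit 6) (nat_lit 4) (nat_lit 4) (nat_lit 4) (nat_lit 525) (nat_lit 356) (nat_lit 319)))) (XT.nd (nat_lit 156) (nat_lit 0) (nat_lit 0) (XT.nd (nat_lit 78) (nat_lit 0) (nat_lit 0) (XT.lf (nat_lit 0) (nat_lit 11579156019) (nat_lit 76) (nat_lit 93805840948) (nat_lit 76) (nat_lit 92949421163) (nat_lit 3) (nat_lit 4) (nat_lit 4) (nat_lit 5) (nat_lit 4) (nat_lit 4) (nat_lit 526) (nat_lit 356) (nat_lit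 318)) (XT.lf (nat_lit 0) (nat_lit 31697506974) (nat_lit 76) (nat_lit 88469715195) (nat_lit 76) (nat_lit 87605722841) (nat_lit 3) (nat_lit 4) (nat_lit 4) (nat_lit 5) (nat_lit 4) (nat_lit 4) (nat_lit 527) (nat_lit 356) (nat_lit 317))) (XT.nd (nat_lit 78) (nat_lit 0) (nat_lit 0) (XT.lf (nat_lit 0) (nat_lit 52603903271) (nat_lit 76) (nat_lit 82978015673) (nat_lit 76) (nat_lit 82106811349) (nat_lit 3) (nat_lit 4) (nat_lit 4) (nat_lit 5) (nat_lit 4) (nat_lit 4) (nat_lit 528) (nat_lit 356) (nat_lit 316)) (XT.lf (nat_lit 0) (nat_lit 74348122043) (nat_lit 76) (nat_lit 77317666907) (nat_lit 76) (nat_lit 76439594041) (nat_lit 3) (nat_lit 4) (nat_lit 4) (nat_lit 5) (nat_lit 4) (nat_lit 4) (nat_lit 529) (nat_lit 356) (nat_lit 315)))))) (XT.nd (nat_lit 624) (nat_lit 152) (nat_lit 0) (XT.nd (nat_lit 312) (nat_lit 0) (nat_lit 0) (XT.nd (nat_lit 156) (nat_lit 0) (nat_lit 0) (XT.nd (nat_lit 78) (nat_lit 0) (nat_lit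 0) (XT.lf (nat_lit 0) (nat_lit 96981935240) (nat_lit 76) (nat_lit 71475191876) (nat_lit 76) (nat_lit 70590577541) (nat_lit 3) (nat_lit 4) (nat_lit 4) (nat_lit 5) (nat_lit 4) (nat_lit 4) (nat_lit 530) (nat_lit 356) (nat_lit 314)) (XT.lf (nat_lit 0) (nat_lit 120559232894) (nat_lit 76) (nat_lit 65436679926) (nat_lit 76) (nat_lit 64545835620) (nat_lit 3) (nat_lit 4) (nat_lit 4) (nat_lit 5) (nat_lit 4) (nat_lit 4) (nat_lit 531) (nat_lit 356) (nat_lit 313))) (XT.nd (nat_lit 78) (nat_lit 0) (nat_lit 0) (XT.lf (nat_lit 0) (nat_lit 145136151426) (nat_lit 76) (nat_lit 59187753647) (nat_lit 76) (nat_lit 58290976036) (nat_lit 3) (nat_lit 4) (nat_lit 4) (nat_lit 5) (nat_lit 4) (nat_lit 4) (nat_lit 532) (nat_lit 356) (nat_lit 312)) (XT.lf (nat_lit 0) (nat_lit 170771207311) (nat_lit 76) (nat_lit 52713534644) (nat_lit 76) (nat_lit 51811106266) (nat_lit 3) (nat_lit 4) (nat_lit 4) (nat_lit 5) (nat_lit 4) (nat_lit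 4) (nat_lit 533) (nat_lit 356) (nat_lit 311)))) (XT.nd (nat_lit 156) (nat_lit 0) (nat_lit 0) (XT.nd (nat_lit 78) (nat_lit 0) (nat_lit 0) (XT.lf (nat_lit 0) (nat_lit 197525436395) (nat_lit 76) (nat_lit 45998608108) (nat_lit 76) (nat_lit 45090798047) (nat_lit 3) (nat_lit 4) (nat_lit 4) (nat_lit 5) (nat_lit 4) (nat_lit 4) (nat_lit 534) (nat_lit 356) (nat_lit 310)) (XT.lf (nat_lit 0) (nat_lit 225462539223) (nat_lit 76) (nat_lit 39026986121) (nat_lit 76) (nat_lit 38114050647) (nat_lit 3) (nat_lit 4) (nat_lit 4) (nat_lit 5) (nat_lit 4) (nat_lit 4) (nat_lit 535) (nat_lit 356) (nat_lit 309))) (XT.nd (nat_lit 78) (nat_lit 0) (nat_lit 0) (XT.lf (nat_lit 0) (nat_lit 254649032708) (nat_lit 76) (nat_lit 31782069581) (nat_lit 76) (nat_lit 30864252763) (nat_lit 3) (nat_lit 4) (nat_lit 4) (nat_lit 5) (nat_lit 4) (nat_lit 4) (nat_lit 536) (nat_lit 356) (nat_lit 308)) (XT.lf (nat_lit 0) (nat_lit 285154408500) (nat_lit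 76) (nat_lit 24246608688) (nat_lit 76) (nat_lit 23324142970) (nat_lit 3) (nat_lit 4) (nat_lit 4) (nat_lit 5) (nat_lit 4) (nat_lit 4) (nat_lit 537) (nat_lit 356) (nat_lit 307))))) (XT.nd (nat_lit 312) (nat_lit 0) (nat_lit 0) (XT.nd (nat_lit 156) (nat_lit 152) (nat_lit 0) (XT.nd (nat_lit 78) (nat_lit 0) (nat_lit 0) (XT.lf (nat_lit 0) (nat_lit 317051298447) (nat_lit 76) (nat_lit 16402661868) (nat_lit 76) (nat_lit 15475768625) (nat_lit 3) (nat_lit 4) (nat_lit 4) (nat_lit 5) (nat_lit 4) (nat_lit 4) (nat_lit 538) (nat_lit 356) (nat_lit 306)) (XT.lf (nat_lit 0) (nat_lit 350415647524) (nat_lit 76) (nat_lit 8231553057) (nat_lit 76) (nat_lit 7300443125) (nat_lit 3) (nat_lit 4) (nat_lit 4) (nat_lit 5) (nat_lit 4) (nat_lit 4) (nat_lit 539) (nat_lit 356) (nat_lit 305))) (XT.nd (nat_lit 78) (nat_lit 0) (nat_lit 0) (XT.lf (nat_lit 0) (nat_lit 1211390013) (nat_lit 152) (nat_lit 382284826873) (nat_lit 0) (nat_lit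 320793988) (nat_lit 1) (nat_lit 5) (nat_lit 3) (nat_lit 4) (nat_lit 1) (nat_lit 4) (nat_lit 540) (nat_lit 356) (nat_lit 304)) (XT.lf (nat_lit 0) (nat_lit 10245427655) (nat_lit 152) (nat_lit 382960147939) (nat_lit 0) (nat_lit 9351189095) (nat_lit 1) (nat_lit 5) (nat_lit 3) (nat_lit 4) (nat_lit 1) (nat_lit 4) (nat_lit 541) (nat_lit 356) (nat_lit 303)))) (XT.nd (nat_lit 156) (nat_lit 0) (nat_lit 0) (XT.nd (nat_lit 78) (nat_lit 0) (nat_lit 0) (XT.lf (nat_lit 0) (nat_lit 19673698684) (nat_lit 152) (nat_lit 383786689927) (nat_lit 0) (nat_lit 18775991044) (nat_lit 1) (nat_lit 5) (nat_lit 3) (nat_lit 4) (nat_lit 1) (nat_lit 4) (nat_lit 542) (nat_lit 356) (nat_lit 302)) (XT.lf (nat_lit 0) (nat_lit 29518651366) (nat_lit 152) (nat_lit 384766420794) (nat_lit 0) (nat_lit 28617639838) (nat_lit 1) (nat_lit 5) (nat_lit 3) (nat_lit 4) (nat_lit 1) (nat_lit 4) (nat_lit 543) (nat_lit 356) (nat_lit 301))) (XT.nd (nat_lit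 78) (nat_lit 0) (nat_lit 0) (XT.lf (nat_lit 0) (nat_lit 39803726062) (nat_lit 152) (nat_lit 385901673233) (nat_lit 0) (nat_lit 38899567976) (nat_lit 1) (nat_lit 5) (nat_lit 3) (nat_lit 4) (nat_lit 1) (nat_lit 4) (nat_lit 544) (nat_lit 356) (nat_lit 300)) (XT.nd (nat_lit 78) (nat_lit 0) (nat_lit 0) (XT.lf (nat_lit 0) (nat_lit 50553411047) (nat_lit 152) (nat_lit 387195150226) (nat_lit 0) (nat_lit 49646256239) (nat_lit 1) (nat_lit 5) (nat_lit 3) (nat_lit 4) (nat_lit 1) (nat_lit 4) (nat_lit 545) (nat_lit 356) (nat_lit 299)) (XT.lf (nat_lit 0) (nat_lit 61793300808) (nat_lit 152) (nat_lit 388649931480) (nat_lit 0) (nat_lit 60883291979) (nat_lit 1) (nat_lit 5) (nat_lit 3) (nat_lit 4) (nat_lit 1) (nat_lit 4) (nat_lit 546) (nat_lit 356) (nat_lit 298))))))))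
noncomputable def xc38 : XT := (XT.nd (nat_lit 58110) (nat_lit 0) (nat_lit 608) (XT.nd (nat_lit 624) (nat_lit 0) (nat_lit 0) (XT.nd (nat_lit 312) (nat_lit 0) (nat_lit 0) (XT.nd (nat_lit 156) (nat_lit 0) (nat_lit 0) (XT.nd (nat_lit 78) (nat_lit 0) (nat_lit 0) (XT.lf (nat_lit 0) (nat_lit 73550156989) (nat_lit 152) (nat_lit 390269480759) (nat_lit 0) (nat_lit 72637430044) (nat_lit 1) (nat_lit 5) (nat_lit 3) (nat_lit 4) (nat_lit 1) (nat_lit 4) (nat_lit 547) (nat_lit 356) (nat_lit 297)) (XT.lf (nat_lit 0) (nat_lit 85851972102) (nat_lit 152) (nat_lit 392057654134) (nat_lit 0) (nat_lit 84936656476) (nat_lit 1) (nat_lit 5) (nat_lit 3) (nat_lit 4) (nat_lit 1) (nat_lit 4) (nat_lit 548) (nat_lit 356) (nat_lit 296))) (XT.nd (nat_lit 78) (nat_lit 0) (nat_lit 0) (XT.lf (nat_lit 0) (nat_lit 98728036185) (nat_lit 152) (nat_lit 394018709160) (nat_lit 0) (nat_lit 97810255148) (nat_lit 1) (nat_lit 5) (nat_lit 3) (nat_lit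 4) (nat_lit 1) (nat_lit 4) (nat_lit 549) (nat_lit 356) (nat_lit 295)) (XT.lf (nat_lit 0) (nat_lit 112209006534) (nat_lit 152) (nat_lit 396157315016) (nat_lit 0) (nat_lit 111288877486) (nat_lit 1) (nat_lit 5) (nat_lit 3) (nat_lit 4) (nat_lit 1) (nat_lit 4) (nat_lit 550) (nat_lit 356) (nat_lit 294)))) (XT.nd (nat_lit 156) (nat_lit 0) (nat_lit 0) (XT.nd (nat_lit 78) (nat_lit 0) (nat_lit 0) (XT.lf (nat_lit 0) (nat_lit 126326980695) (nat_lit 152) (nat_lit 398478563621) (nat_lit 0) (nat_lit 125404615447) (nat_lit 1) (nat_lit 5) (nat_lit 3) (nat_lit 4) (nat_lit 1) (nat_lit 4) (nat_lit 551) (nat_lit 356) (nat_lit 293)) (XT.lf (nat_lit 0) (nat_lit 141115572894) (nat_lit 152) (nat_lit 400987981756) (nat_lit 0) (nat_lit 140191077931) (nat_lit 1) (nat_lit 5) (nat_lit 3) (nat_lit 4) (nat_lit 1) (nat_lit 4) (nat_lit 552) (nat_lit 356) (nat_lit 292))) (XT.nd (nat_lit 78) (nat_lit 0) (nat_lit 0) (XT.lf (nat_lit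 0) (nat_lit 156609994065) (nat_lit 152) (nat_lit 403691544228) (nat_lit 0) (nat_lit 155683470802) (nat_lit 1) (nat_lit 5) (nat_lit 3) (nat_lit 4) (nat_lit 1) (nat_lit 4) (nat_lit 553) (nat_lit 356) (nat_lit 291)) (XT.lf (nat_lit 0) (nat_lit 172847135686) (nat_lit 152) (nat_lit 406595688089) (nat_lit 0) (nat_lit 171918680709) (nat_lit 1) (nat_lit 5) (nat_lit 3) (nat_lit 4) (nat_lit 1) (nat_lit 4) (nat_lit 554) (nat_lit 356) (nat_lit 290))))) (XT.nd (nat_lit 57174) (nat_lit 0) (nat_lit 1292) (XT.nd (nat_lit 156) (nat_lit 0) (nat_lit 0) (XT.nd (nat_lit 78) (nat_lit 0) (nat_lit 0) (XT.lf (nat_lit 0) (nat_lit 189865657618) (nat_lit 152) (nat_lit 409707327967) (nat_lit 0) (nat_lit 188935362914) (nat_lit 1) (nat_lit 5) (nat_lit 3) (nat_lit 4) (nat_lit 1) (nat_lit 4) (nat_lit 555) (nat_lit 356) (nat_lit 289)) (XT.lf (nat_lit 0) (nat_lit 207706080152) (nat_lit 152) (nat_lit 413033872530) (nat_lit 0) (nat_lit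 206774033326) (nat_lit 1) (nat_lit 5) (nat_lit 3) (nat_lit 4) (nat_lit 1) (nat_lit 4) (nat_lit 556) (nat_lit 356) (nat_lit 288))) (XT.nd (nat_lit 56940) (nat_lit 0) (nat_lit 1596) (XT.lf (nat_lit 0) (nat_lit 226410880484) (nat_lit 152) (nat_lit 416583242121) (nat_lit 0) (nat_lit 225477164971) (nat_lit 1) (nat_lit 5) (nat_lit 3) (nat_lit 4) (nat_lit 1) (nat_lit 4) (nat_lit 557) (nat_lit 356) (nat_lit 287)) (XT.lf (nat_lit 0) (nat_lit 6097902561) (nat_lit 152) (nat_lit 6908787978) (nat_lit 0) (nat_lit 6097902561) (nat_lit 22) (nat_lit 5) (nat_lit 24) (nat_lit 4) (nat_lit 22) (nat_lit 4) (nat_lit 486) (nat_lit 357) (nat_lit 357)))) (XT.nd (nat_lit 156) (nat_lit 228) (nat_lit 0) (XT.nd (nat_lit 78) (nat_lit 0) (nat_lit 0) (XT.lf (nat_lit 0) (nat_lit 10800836058) (nat_lit 76) (nat_lit 14382192083) (nat_lit 76) (nat_lit 14314152497) (nat_lit 21) (nat_lit 4) (nat_lit 22) (nat_lit 5) (nat_lit 22) (nat_lit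 4) (nat_lit 487) (nat_lit 357) (nat_lit 356)) (XT.lf (nat_lit 0) (nat_lit 36317787520) (nat_lit 76) (nat_lit 2336447987) (nat_lit 76) (nat_lit 2203608797) (nat_lit 21) (nat_lit 4) (nat_lit 22) (nat_lit 5) (nat_lit 22) (nat_lit 4) (nat_lit 488) (nat_lit 357) (nat_lit 355))) (XT.nd (nat_lit 78) (nat_lit 76) (nat_lit 0) (XT.lf (nat_lit 0) (nat_lit 10272638552) (nat_lit 152) (nat_lit 21913514824) (nat_lit 0) (nat_lit 10087349886) (nat_lit 19) (nat_lit 5) (nat_lit 21) (nat_lit 4) (nat_lit 19) (nat_lit 4) (nat_lit 489) (nat_lit 357) (nat_lit 354)) (XT.lf (nat_lit 0) (nat_lit 2112065596) (nat_lit 76) (nat_lit 20949594030) (nat_lit 76) (nat_lit 20708329029) (nat_lit 18) (nat_lit 4) (nat_lit 19) (nat_lit 5) (nat_lit 19) (nat_lit 4) (nat_lit 490) (nat_lit 357) (nat_lit 353)))))) (XT.nd (nat_lit 624) (nat_lit 304) (nat_lit 0) (XT.nd (nat_lit 312) (nat_lit 152) (nat_lit 0) (XT.nd (nat_lit 156) (nat_lit 76)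 (nat_lit 0) (XT.nd (nat_lit 78) (nat_lit 152) (nat_lit 0) (XT.lf (nat_lit 0) (nat_lit 27325994941) (nat_lit 76) (nat_lit 9155164177) (nat_lit 76) (nat_lit 8860588380) (nat_lit 18) (nat_lit 4) (nat_lit 19) (nat_lit 5) (nat_lit 19) (nat_lit 4) (nat_lit 491) (nat_lit 357) (nat_lit 352)) (XT.lf (nat_lit 0) (nat_lit 3240846874) (nat_lit 152) (nat_lit 40847715780) (nat_lit 0) (nat_lit 2911944034) (nat_lit 16) (nat_lit 5) (nat_lit 18) (nat_lit 4) (nat_lit 16) (nat_lit 4) (nat_lit 492) (nat_lit 357) (nat_lit 351))) (XT.nd (nat_lit 78) (nat_lit 76) (nat_lit 0) (XT.lf (nat_lit 0) (nat_lit 15742006619) (nat_lit 152) (nat_lit 17621261675) (nat_lit 0) (nat_lit 15367051909) (nat_lit 16) (nat_lit 5) (nat_lit 18) (nat_lit 4) (nat_lit 16) (nat_lit 4) (nat_lit 493) (nat_lit 357) (nat_lit 350)) (XT.lf (nat_lit 0) (nat_lit 6253131563) (nat_lit 76) (nat_lit 22362469051) (nat_lit 76) (nat_lit 21943655419) (nat_lit 15)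 (nat_lit 4) (nat_lit 16) (nat_lit 5) (nat_lit 16) (nat_lit 4) (nat_lit 494) (nat_lit 357) (nat_lit 349)))) (XT.nd (nat_lit 156) (nat_lit 0) (nat_lit 0) (XT.nd (nat_lit 78) (nat_lit 152) (nat_lit 0) (XT.lf (nat_lit 0) (nat_lit 31231000480) (nat_lit 76) (nat_lit 10855764064) (nat_lit 76) (nat_lit 10395180028) (nat_lit 15) (nat_lit 4) (nat_lit 16) (nat_lit 5) (nat_lit 16) (nat_lit 4) (nat_lit 495) (nat_lit 357) (nat_lit 348)) (XT.lf (nat_lit 0) (nat_lit 1392893880) (nat_lit 152) (nat_lit 52204289117) (nat_lit 0) (nat_lit 916355431) (nat_lit 13) (nat_lit 5) (nat_lit 15) (nat_lit 4) (nat_lit 13) (nat_lit 4) (nat_lit 496) (nat_lit 357) (nat_lit 347))) (XT.nd (nat_lit 78) (nat_lit 0) (nat_lit 0) (XT.lf (nat_lit 0) (nat_lit 13631400345) (nat_lit 152) (nat_lit 29877493560) (nat_lit 0) (nat_lit 13118779051) (nat_lit 13) (nat_lit 5) (nat_lit 15) (nat_lit 4) (nat_lit 13) (nat_lit 4) (nat_lit 497) (nat_lit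 357) (nat_lit 346)) (XT.lf (nat_lit 0) (nat_lit 26164324314) (nat_lit 152) (nat_lit 7081727236) (nat_lit 0) (nat_lit 25617338406) (nat_lit 13) (nat_lit 5) (nat_lit 15) (nat_lit 4) (nat_lit 13) (nat_lit 4) (nat_lit 498) (nat_lit 357) (nat_lit 345))))) (XT.nd (nat_lit 312) (nat_lit 76) (nat_lit 0) (XT.nd (nat_lit 156) (nat_lit 152) (nat_lit 0) (XT.nd (nat_lit 78) (nat_lit 0) (nat_lit 0) (XT.lf (nat_lit 0) (nat_lit 16774163478) (nat_lit 76) (nat_lit 22509234305) (nat_lit 76) (nat_lit 21929520193) (nat_lit 12) (nat_lit 4) (nat_lit 13) (nat_lit 5) (nat_lit 13) (nat_lit 4) (nat_lit 499) (nat_lit 357) (nat_lit 344)) (XT.lf (nat_lit 0) (nat_lit 41462112617) (nat_lit 76) (nat_lit 11418785145) (nat_lit 76) (nat_lit 10807901315) (nat_lit 12) (nat_lit 4) (nat_lit 13) (nat_lit 5) (nat_lit 13) (nat_lit 4) (nat_lit 500) (nat_lit 357) (nat_lit 343))) (XT.nd (nat_lit 78) (nat_lit 0) (nat_lit 0) (XT.lf (nat_lit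 0) (nat_lit 511544659) (nat_lit 76) (nat_lit 50462137) (nat_lit 152) (nat_lit 65739786362) (nat_lit 10) (nat_lit 5) (nat_lit 11) (nat_lit 5) (nat_lit 12) (nat_lit 4) (nat_lit 501) (nat_lit 357) (nat_lit 342)) (XT.lf (nat_lit 0) (nat_lit 12417515939) (nat_lit 152) (nat_lit 44824521860) (nat_lit 0) (nat_lit 11780524388) (nat_lit 10) (nat_lit 5) (nat_lit 12) (nat_lit 4) (nat_lit 10) (nat_lit 4) (nat_lit 502) (nat_lit 357) (nat_lit 341)))) (XT.nd (nat_lit 156) (nat_lit 76) (nat_lit 0) (XT.nd (nat_lit 78) (nat_lit 0) (nat_lit 0) (XT.lf (nat_lit 0) (nat_lit 24592488147) (nat_lit 152) (nat_lit 23370694212) (nat_lit 0) (nat_lit 23929853192) (nat_lit 10) (nat_lit 5) (nat_lit 12) (nat_lit 4) (nat_lit 10) (nat_lit 4) (nat_lit 503) (nat_lit 357) (nat_lit 340)) (XT.lf (nat_lit 0) (nat_lit 37115123594) (nat_lit 152) (nat_lit 1376897158) (nat_lit 0) (nat_lit 36428066350) (nat_lit 10) (nat_lit 5) (nat_lit 12)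 (nat_lit 4) (nat_lit 10) (nat_lit 4) (nat_lit 504) (nat_lit 357) (nat_lit 339))) (XT.nd (nat_lit 78) (nat_lit 0) (nat_lit 0) (XT.lf (nat_lit 0) (nat_lit 21910508594) (nat_lit 76) (nat_lit 28446813929) (nat_lit 76) (nat_lit 27736497361) (nat_lit 9) (nat_lit 4) (nat_lit 10) (nat_lit 5) (nat_lit 10) (nat_lit 4) (nat_lit 505) (nat_lit 357) (nat_lit 338)) (XT.nd (nat_lit 78) (nat_lit 0) (nat_lit 0) (XT.lf (nat_lit 0) (nat_lit 45910916265) (nat_lit 76) (nat_lit 18129427966) (nat_lit 76) (nat_lit 17396959661) (nat_lit 9) (nat_lit 4) (nat_lit 10) (nat_lit 5) (nat_lit 10) (nat_lit 4) (nat_lit 506) (nat_lit 357) (nat_lit 337)) (XT.lf (nat_lit 0) (nat_lit 70635943243) (nat_lit 76) (nat_lit 7538616077) (nat_lit 76) (nat_lit 6785050881) (nat_lit 9) (nat_lit 4) (nat_lit 10) (nat_lit 5) (nat_lit 10) (nat_lit 4) (nat_lit 507) (nat_lit 357) (nat_lit 336))))))))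
noncomputable def xc39 : XT := (XT.nd (nat_lit 1248) (nat_lit 76) (nat_lit 0) (XT.nd (nat_lit 624) (nat_lit 152) (nat_lit 0) (XT.nd (nat_lit 312) (nat_lit 76) (nat_lit 0) (XT.nd (nat_lit 156) (nat_lit 0) (nat_lit 0) (XT.nd (nat_lit 78) (nat_lit 0) (nat_lit 0) (XT.lf (nat_lit 0) (nat_lit 4167348236) (nat_lit 152) (nat_lit 81059282561) (nat_lit 0) (nat_lit 3430531594) (nat_lit 7) (nat_lit 5) (nat_lit 9) (nat_lit 4) (nat_lit 7) (nat_lit 4) (nat_lit 508) (nat_lit 357) (nat_lit 335)) (XT.lf (nat_lit 0) (nat_lit 15584044877) (nat_lit 152) (nat_lit 62113747047) (nat_lit 0) (nat_lit 14829003946) (nat_lit 7) (nat_lit 5) (nat_lit 9) (nat_lit 4) (nat_lit 7) (nat_lit 4) (nat_lit 509) (nat_lit 357) (nat_lit 334))) (XT.nd (nat_lit 78) (nat_lit 0) (nat_lit 0) (XT.lf (nat_lit 0) (nat_lit 27356872516) (nat_lit 152) (nat_lit 42659298757) (nat_lit 0) (nat_lit 26584475120) (nat_lit 7) (nat_lit 5) (nat_lit 9) (nat_lit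 4) (nat_lit 7) (nat_lit 4) (nat_lit 510) (nat_lit 357) (nat_lit 333)) (XT.lf (nat_lit 0) (nat_lit 39513861697) (nat_lit 152) (nat_lit 22649617574) (nat_lit 0) (nat_lit 38724934334) (nat_lit 7) (nat_lit 5) (nat_lit 9) (nat_lit 4) (nat_lit 7) (nat_lit 4) (nat_lit 511) (nat_lit 357) (nat_lit 332)))) (XT.nd (nat_lit 156) (nat_lit 0) (nat_lit 0) (XT.nd (nat_lit 78) (nat_lit 76) (nat_lit 0) (XT.lf (nat_lit 0) (nat_lit 52083957631) (nat_lit 152) (nat_lit 2037061401) (nat_lit 0) (nat_lit 51279287443) (nat_lit 7) (nat_lit 5) (nat_lit 9) (nat_lit 4) (nat_lit 7) (nat_lit 4) (nat_lit 512) (nat_lit 357) (nat_lit 331)) (XT.lf (nat_lit 0) (nat_lit 19863193517) (nat_lit 76) (nat_lit 45544015719) (nat_lit 76) (nat_lit 44724352363) (nat_lit 6) (nat_lit 4) (nat_lit 7) (nat_lit 5) (nat_lit 7) (nat_lit 4) (nat_lit 513) (nat_lit 357) (nat_lit 330))) (XT.nd (nat_lit 78) (nat_lit 0) (nat_lit 0) (XT.lf (nat_lit 0) (nat_lit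 42556615716) (nat_lit 76) (nat_lit 36692052125) (nat_lit 76) (nat_lit 35858109563) (nat_lit 6) (nat_lit 4) (nat_lit 7) (nat_lit 5) (nat_lit 7) (nat_lit 4) (nat_lit 514) (nat_lit 357) (nat_lit 329)) (XT.lf (nat_lit 0) (nat_lit 66029882704) (nat_lit 76) (nat_lit 27578550769) (nat_lit 76) (nat_lit 26731008962) (nat_lit 6) (nat_lit 4) (nat_lit 7) (nat_lit 5) (nat_lit 7) (nat_lit 4) (nat_lit 515) (nat_lit 357) (nat_lit 328))))) (XT.nd (nat_lit 312) (nat_lit 0) (nat_lit 0) (XT.nd (nat_lit 156) (nat_lit 152) (nat_lit 0) (XT.nd (nat_lit 78) (nat_lit 0) (nat_lit 0) (XT.lf (nat_lit 0) (nat_lit 90338883211) (nat_lit 76) (nat_lit 18181812838) (nat_lit 76) (nat_lit 17321319369) (nat_lit 6) (nat_lit 4) (nat_lit 7) (nat_lit 5) (nat_lit 7) (nat_lit 4) (nat_lit 516) (nat_lit 357) (nat_lit 327)) (XT.lf (nat_lit 0) (nat_lit 115541495810) (nat_lit 76) (nat_lit 8479465145) (nat_lit 76) (nat_lit 7606636761) (nat_lit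 6) (nat_lit 4) (nat_lit 7) (nat_lit 5) (nat_lit 7) (nat_lit 4) (nat_lit 517) (nat_lit 357) (nat_lit 326))) (XT.nd (nat_lit 78) (nat_lit 0) (nat_lit 0) (XT.lf (nat_lit 0) (nat_lit 2447794302) (nat_lit 152) (nat_lit 133650447517) (nat_lit 0) (nat_lit 1605341042) (nat_lit 4) (nat_lit 5) (nat_lit 6) (nat_lit 4) (nat_lit 4) (nat_lit 4) (nat_lit 518) (nat_lit 357) (nat_lit 325)) (XT.lf (nat_lit 0) (nat_lit 13012683908) (nat_lit 152) (nat_lit 118891704740) (nat_lit 0) (nat_lit 12159575284) (nat_lit 4) (nat_lit 5) (nat_lit 6) (nat_lit 4) (nat_lit 4) (nat_lit 4) (nat_lit 519) (nat_lit 357) (nat_lit 324)))) (XT.nd (nat_lit 156) (nat_lit 0) (nat_lit 0) (XT.nd (nat_lit 78) (nat_lit 0) (nat_lit 0) (XT.lf (nat_lit 0) (nat_lit 23960551631) (nat_lit 152) (nat_lit 103691780806) (nat_lit 0) (nat_lit 23097295041) (nat_lit 4) (nat_lit 5) (nat_lit 6) (nat_lit 4) (nat_lit 4) (nat_lit 4) (nat_lit 520) (nat_lit 357) (nat_lit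 323)) (XT.lf (nat_lit 0) (nat_lit 35317463824) (nat_lit 152) (nat_lit 88014485419) (nat_lit 0) (nat_lit 34444542505) (nat_lit 4) (nat_lit 5) (nat_lit 6) (nat_lit 4) (nat_lit 4) (nat_lit 4) (nat_lit 521) (nat_lit 357) (nat_lit 322))) (XT.nd (nat_lit 78) (nat_lit 0) (nat_lit 0) (XT.lf (nat_lit 0) (nat_lit 47110460754) (nat_lit 152) (nat_lit 71822491685) (nat_lit 0) (nat_lit 46228334930) (nat_lit 4) (nat_lit 5) (nat_lit 6) (nat_lit 4) (nat_lit 4) (nat_lit 4) (nat_lit 522) (nat_lit 357) (nat_lit 321)) (XT.lf (nat_lit 0) (nat_lit 59367620984) (nat_lit 152) (nat_lit 55077247239) (nat_lit 0) (nat_lit 58476728966) (nat_lit 4) (nat_lit 5) (nat_lit 6) (nat_lit 4) (nat_lit 4) (nat_lit 4) (nat_lit 523) (nat_lit 357) (nat_lit 320)))))) (XT.nd (nat_lit 624) (nat_lit 0) (nat_lit 0) (XT.nd (nat_lit 312) (nat_lit 0) (nat_lit 0) (XT.nd (nat_lit 156) (nat_lit 76) (nat_lit 0) (XT.nd (nat_lit 78) (nat_lit 0) (nat_lit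 0) (XT.lf (nat_lit 0) (nat_lit 72118128230) (nat_lit 152) (nat_lit 37738882449) (nat_lit 0) (nat_lit 71218887456) (nat_lit 4) (nat_lit 5) (nat_lit 6) (nat_lit 4) (nat_lit 4) (nat_lit 4) (nat_lit 524) (nat_lit 357) (nat_lit 319)) (XT.lf (nat_lit 0) (nat_lit 85392340842) (nat_lit 152) (nat_lit 19766115497) (nat_lit 0) (nat_lit 84485148871) (nat_lit 4) (nat_lit 5) (nat_lit 6) (nat_lit 4) (nat_lit 4) (nat_lit 4) (nat_lit 525) (nat_lit 357) (nat_lit 318))) (XT.nd (nat_lit 78) (nat_lit 76) (nat_lit 0) (XT.lf (nat_lit 0) (nat_lit 99221864089) (nat_lit 152) (nat_lit 1116154078) (nat_lit 0) (nat_lit 98307099549) (nat_lit 4) (nat_lit 5) (nat_lit 6) (nat_lit 4) (nat_lit 4) (nat_lit 4) (nat_lit 526) (nat_lit 357) (nat_lit 317)) (XT.lf (nat_lit 0) (nat_lit 18859012656) (nat_lit 76) (nat_lit 95075054789) (nat_lit 76) (nat_lit 94153078280) (nat_lit 3) (nat_lit 4) (nat_lit 4) (nat_lit 5) (nat_lit 4) (nat_lit 4)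 (nat_lit 527) (nat_lit 357) (nat_lit 316)))) (XT.nd (nat_lit 156) (nat_lit 0) (nat_lit 0) (XT.nd (nat_lit 78) (nat_lit 0) (nat_lit 0) (XT.lf (nat_lit 0) (nat_lit 39664190739) (nat_lit 76) (nat_lit 89635031234) (nat_lit 76) (nat_lit 88706186182) (nat_lit 3) (nat_lit 4) (nat_lit 4) (nat_lit 5) (nat_lit 4) (nat_lit 4) (nat_lit 528) (nat_lit 357) (nat_lit 315)) (XT.lf (nat_lit 0) (nat_lit 61312011212) (nat_lit 76) (nat_lit 84023897674) (nat_lit 76) (nat_lit 83088511153) (nat_lit 3) (nat_lit 4) (nat_lit 4) (nat_lit 5) (nat_lit 4) (nat_lit 4) (nat_lit 529) (nat_lit 357) (nat_lit 314))) (XT.nd (nat_lit 78) (nat_lit 0) (nat_lit 0) (XT.lf (nat_lit 0) (nat_lit 83854016505) (nat_lit 76) (nat_lit 78228294269) (nat_lit 76) (nat_lit 77286677777) (nat_lit 3) (nat_lit 4) (nat_lit 4) (nat_lit 5) (nat_lit 4) (nat_lit 4) (nat_lit 530) (nat_lit 357) (nat_lit 313)) (XT.lf (nat_lit 0) (nat_lit 107343878059) (nat_lit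 76) (nat_lit 72234421962) (nat_lit 76) (nat_lit 71286872165) (nat_lit 3) (nat_lit 4) (nat_lit 4) (nat_lit 5) (nat_lit 4) (nat_lit 4) (nat_lit 531) (nat_lit 357) (nat_lit 312))))) (XT.nd (nat_lit 312) (nat_lit 0) (nat_lit 0) (XT.nd (nat_lit 156) (nat_lit 0) (nat_lit 0) (XT.nd (nat_lit 78) (nat_lit 0) (nat_lit 0) (XT.lf (nat_lit 0) (nat_lit 131837524116) (nat_lit 76) (nat_lit 66028009630) (nat_lit 76) (nat_lit 65074809065) (nat_lit 3) (nat_lit 4) (nat_lit 4) (nat_lit 5) (nat_lit 4) (nat_lit 4) (nat_lit 532) (nat_lit 357) (nat_lit 311)) (XT.lf (nat_lit 0) (nat_lit 157393272881) (nat_lit 76) (nat_lit 59594280098) (nat_lit 76) (nat_lit 58635697851) (nat_lit 3) (nat_lit 4) (nat_lit 4) (nat_lit 5) (nat_lit 4) (nat_lit 4) (nat_lit 533) (nat_lit 357) (nat_lit 310))) (XT.nd (nat_lit 78) (nat_lit 0) (nat_lit 0) (XT.lf (nat_lit 0) (nat_lit 184071971375) (nat_lit 76) (nat_lit 52917914965) (nat_lit 76) (nat_lit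 51954207306) (nat_lit 3) (nat_lit 4) (nat_lit 4) (nat_lit 5) (nat_lit 4) (nat_lit 4) (nat_lit 534) (nat_lit 357) (nat_lit 309)) (XT.lf (nat_lit 0) (nat_lit 211937140308) (nat_lit 76) (nat_lit 45983018123) (nat_lit 76) (nat_lit 45014429118) (nat_lit 3) (nat_lit 4) (nat_lit 4) (nat_lit 5) (nat_lit 4) (nat_lit 4) (nat_lit 535) (nat_lit 357) (nat_lit 308)))) (XT.nd (nat_lit 156) (nat_lit 0) (nat_lit 0) (XT.nd (nat_lit 78) (nat_lit 0) (nat_lit 0) (XT.lf (nat_lit 0) (nat_lit 241055125321) (nat_lit 76) (nat_lit 38773077912) (nat_lit 76) (nat_lit 37799840007) (nat_lit 3) (nat_lit 4) (nat_lit 4) (nat_lit 5) (nat_lit 4) (nat_lit 4) (nat_lit 536) (nat_lit 357) (nat_lit 307)) (XT.lf (nat_lit 0) (nat_lit 271495254950) (nat_lit 76) (nat_lit 31270927807) (nat_lit 76) (nat_lit 30293262379) (nat_lit 3) (nat_lit 4) (nat_lit 4) (nat_lit 5) (nat_lit 4) (nat_lit 4) (nat_lit 537) (nat_lit 357) (nat_lit 306))) (XT.nd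 (nat_lit 78) (nat_lit 0) (nat_lit 0) (XT.lf (nat_lit 0) (nat_lit 303330005693) (nat_lit 76) (nat_lit 23458705548) (nat_lit 76) (nat_lit 22476823431) (nat_lit 3) (nat_lit 4) (nat_lit 4) (nat_lit 5) (nat_lit 4) (nat_lit 4) (nat_lit 538) (nat_lit 357) (nat_lit 305)) (XT.nd (nat_lit 78) (nat_lit 0) (nat_lit 0) (XT.lf (nat_lit 0) (nat_lit 336635174577) (nat_lit 76) (nat_lit 15317810605) (nat_lit 76) (nat_lit 14331912593) (nat_lit 3) (nat_lit 4) (nat_lit 4) (nat_lit 5) (nat_lit 4) (nat_lit 4) (nat_lit 539) (nat_lit 357) (nat_lit 304)) (XT.lf (nat_lit 0) (nat_lit 371490059622) (nat_lit 76) (nat_lit 6828859894) (nat_lit 76) (nat_lit 5839137220) (nat_lit 3) (nat_lit 4) (nat_lit 4) (nat_lit 5) (nat_lit 4) (nat_lit 4) (nat_lit 540) (nat_lit 357) (nat_lit 303))))))))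
noncomputable def xc40 : XT := (XT.nd (nat_lit 1248) (nat_lit 0) (nat_lit 0) (XT.nd (nat_lit 624) (nat_lit 0) (nat_lit 0) (XT.nd (nat_lit 312) (nat_lit 0) (nat_lit 0) (XT.nd (nat_lit 156) (nat_lit 0) (nat_lit 0) (XT.nd (nat_lit 78) (nat_lit 0) (nat_lit 0) (XT.lf (nat_lit 0) (nat_lit 3039466141) (nat_lit 152) (nat_lit 397786614812) (nat_lit 0) (nat_lit 2093404037) (nat_lit 1) (nat_lit 5) (nat_lit 3) (nat_lit 4) (nat_lit 1) (nat_lit 4) (nat_lit 541) (nat_lit 357) (nat_lit 302)) (XT.lf (nat_lit 0) (nat_lit 12441038683) (nat_lit 152) (nat_lit 398667723522) (nat_lit 0) (nat_lit 11491672693) (nat_lit 1) (nat_lit 5) (nat_lit 3) (nat_lit 4) (nat_lit 1) (nat_lit 4) (nat_lit 542) (nat_lit 357) (nat_lit 301))) (XT.nd (nat_lit 78) (nat_lit 0) (nat_lit 0) (XT.lf (nat_lit 0) (nat_lit 22260564233) (nat_lit 152) (nat_lit 399699422695) (nat_lit 0) (nat_lit 21308051684) (nat_lit 1) (nat_lit 5) (nat_lit 3) (nat_lit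 4) (nat_lit 1) (nat_lit 4) (nat_lit 543) (nat_lit 357) (nat_lit 300)) (XT.lf (nat_lit 0) (nat_lit 32521422614) (nat_lit 152) (nat_lit 400884168760) (nat_lit 0) (nat_lit 31565913343) (nat_lit 1) (nat_lit 5) (nat_lit 3) (nat_lit 4) (nat_lit 1) (nat_lit 4) (nat_lit 544) (nat_lit 357) (nat_lit 299)))) (XT.nd (nat_lit 156) (nat_lit 0) (nat_lit 0) (XT.nd (nat_lit 78) (nat_lit 0) (nat_lit 0) (XT.lf (nat_lit 0) (nat_lit 43248044441) (nat_lit 152) (nat_lit 402224782539) (nat_lit 0) (nat_lit 42289681149) (nat_lit 1) (nat_lit 5) (nat_lit 3) (nat_lit 4) (nat_lit 1) (nat_lit 4) (nat_lit 545) (nat_lit 357) (nat_lit 298)) (XT.lf (nat_lit 0) (nat_lit 54465969291) (nat_lit 152) (nat_lit 403724455970) (nat_lit 0) (nat_lit 53504887883) (nat_lit 1) (nat_lit 5) (nat_lit 3) (nat_lit 4) (nat_lit 1) (nat_lit 4) (nat_lit 546) (nat_lit 357) (nat_lit 297))) (XT.nd (nat_lit 78) (nat_lit 0) (nat_lit 0) (XT.lf (nat_lit 0) (nat_lit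 66201906507) (nat_lit 152) (nat_lit 405386759703) (nat_lit 0) (nat_lit 65238236418) (nat_lit 1) (nat_lit 5) (nat_lit 3) (nat_lit 4) (nat_lit 1) (nat_lit 4) (nat_lit 547) (nat_lit 357) (nat_lit 296)) (XT.lf (nat_lit 0) (nat_lit 78483798799) (nat_lit 152) (nat_lit 407215651607) (nat_lit 0) (nat_lit 77517663298) (nat_lit 1) (nat_lit 5) (nat_lit 3) (nat_lit 4) (nat_lit 1) (nat_lit 4) (nat_lit 548) (nat_lit 357) (nat_lit 295))))) (XT.nd (nat_lit 312) (nat_lit 0) (nat_lit 0) (XT.nd (nat_lit 156) (nat_lit 0) (nat_lit 0) (XT.nd (nat_lit 78) (nat_lit 0) (nat_lit 0) (XT.lf (nat_lit 0) (nat_lit 91340888765) (nat_lit 152) (nat_lit 409215486183) (nat_lit 0) (nat_lit 90372405254) (nat_lit 1) (nat_lit 5) (nat_lit 3) (nat_lit 4) (nat_lit 1) (nat_lit 4) (nat_lit 549) (nat_lit 357) (nat_lit 294)) (XT.lf (nat_lit 0) (nat_lit 104803788526) (nat_lit 152) (nat_lit 411391024944) (nat_lit 0) (nat_lit 103833068815) (nat_lit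 1) (nat_lit 5) (nat_lit 3) (nat_lit 4) (nat_lit 1) (nat_lit 4) (nat_lit 550) (nat_lit 357) (nat_lit 293))) (XT.nd (nat_lit 78) (nat_lit 0) (nat_lit 0) (XT.lf (nat_lit 0) (nat_lit 118904552604) (nat_lit 152) (nat_lit 413747447744) (nat_lit 0) (nat_lit 117931703179) (nat_lit 1) (nat_lit 5) (nat_lit 3) (nat_lit 4) (nat_lit 1) (nat_lit 4) (nat_lit 551) (nat_lit 357) (nat_lit 292)) (XT.lf (nat_lit 0) (nat_lit 133676754248) (nat_lit 152) (nat_lit 416290365114) (nat_lit 0) (nat_lit 132701876523) (nat_lit 1) (nat_lit 5) (nat_lit 3) (nat_lit 4) (nat_lit 1) (nat_lit 4) (nat_lit 552) (nat_lit 357) (nat_lit 291)))) (XT.nd (nat_lit 156) (nat_lit 0) (nat_lit 0) (XT.nd (nat_lit 78) (nat_lit 0) (nat_lit 0) (XT.lf (nat_lit 0) (nat_lit 149155565366) (nat_lit 152) (nat_lit 419025831617) (nat_lit 0) (nat_lit 148178755926) (nat_lit 1) (nat_lit 5) (nat_lit 3) (nat_lit 4) (nat_lit 1) (nat_lit 4) (nat_lit 553) (nat_lit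 357) (nat_lit 290)) (XT.lf (nat_lit 0) (nat_lit 165377840270) (nat_lit 152) (nat_lit 421960360270) (nat_lit 0) (nat_lit 164399191103) (nat_lit 1) (nat_lit 5) (nat_lit 3) (nat_lit 4) (nat_lit 1) (nat_lit 4) (nat_lit 554) (nat_lit 357) (nat_lit 289))) (XT.nd (nat_lit 78) (nat_lit 0) (nat_lit 0) (XT.lf (nat_lit 0) (nat_lit 182382203424) (nat_lit 152) (nat_lit 425100938047) (nat_lit 0) (nat_lit 181401802135) (nat_lit 1) (nat_lit 5) (nat_lit 3) (nat_lit 4) (nat_lit 1) (nat_lit 4) (nat_lit 555) (nat_lit 357) (nat_lit 288)) (XT.lf (nat_lit 0) (nat_lit 200209141407) (nat_lit 152) (nat_lit 428455042512) (nat_lit 0) (nat_lit 199227071432) (nat_lit 1) (nat_lit 5) (nat_lit 3) (nat_lit 4) (nat_lit 1) (nat_lit 4) (nat_lit 556) (nat_lit 357) (nat_lit 287)))))) (XT.nd (nat_lit 57330) (nat_lit 0) (nat_lit 912) (XT.nd (nat_lit 57018) (nat_lit 0) (nat_lit 1292) (XT.nd (nat_lit 56862) (nat_lit 0) (nat_lit 1596) (XT.nd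 (nat_lit 56784) (nat_lit 0) (nat_lit 1748) (XT.lf (nat_lit 0) (nat_lit 218901099310) (nat_lit 152) (nat_lit 432030659629) (nat_lit 0) (nat_lit 217917440109) (nat_lit 1) (nat_lit 5) (nat_lit 3) (nat_lit 4) (nat_lit 1) (nat_lit 4) (nat_lit 557) (nat_lit 357) (nat_lit 286)) (XT.lf (nat_lit 0) (nat_lit 5584521052) (nat_lit 76) (nat_lit 6159445689) (nat_lit 76) (nat_lit 6159445689) (nat_lit 24) (nat_lit 4) (nat_lit 25) (nat_lit 5) (nat_lit 25) (nat_lit 4) (nat_lit 484) (nat_lit 358) (nat_lit 358))) (XT.nd (nat_lit 78) (nat_lit 152) (nat_lit 0) (XT.lf (nat_lit 0) (nat_lit 36277684393) (nat_lit 76) (nat_lit 395007855) (nat_lit 76) (nat_lit 319994212) (nat_lit 24) (nat_lit 4) (nat_lit 25) (nat_lit 5) (nat_lit 25) (nat_lit 4) (nat_lit 485) (nat_lit 358) (nat_lit 357)) (XT.lf (nat_lit 0) (nat_lit 12069178251) (nat_lit 152) (nat_lit 14220214611) (nat_lit 0) (nat_lit 11929697101) (nat_lit 22) (nat_lit 5) (nat_lit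 24) (nat_lit 4) (nat_lit 22) (nat_lit 4) (nat_lit 486) (nat_lit 358) (nat_lit 356)))) (XT.nd (nat_lit 156) (nat_lit 228) (nat_lit 0) (XT.nd (nat_lit 78) (nat_lit 0) (nat_lit 0) (XT.lf (nat_lit 0) (nat_lit 9988739868) (nat_lit 76) (nat_lit 14866345699) (nat_lit 76) (nat_lit 14662064945) (nat_lit 21) (nat_lit 4) (nat_lit 22) (nat_lit 5) (nat_lit 22) (nat_lit 4) (nat_lit 487) (nat_lit 358) (nat_lit 355)) (XT.lf (nat_lit 0) (nat_lit 35128410869) (nat_lit 76) (nat_lit 3012337749) (nat_lit 76) (nat_lit 2746343085) (nat_lit 21) (nat_lit 4) (nat_lit 22) (nat_lit 5) (nat_lit 22) (nat_lit 4) (nat_lit 488) (nat_lit 358) (nat_lit 354))) (XT.nd (nat_lit 78) (nat_lit 76) (nat_lit 0) (XT.lf (nat_lit 0) (nat_lit 9528252908) (nat_lit 152) (nat_lit 23566924504) (nat_lit 0) (nat_lit 9218948322) (nat_lit 19) (nat_lit 5) (nat_lit 21) (nat_lit 4) (nat_lit 19) (nat_lit 4) (nat_lit 489) (nat_lit 358) (nat_lit 353)) (XT.lf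 (nat_lit 0) (nat_lit 26563384) (nat_lit 76) (nat_lit 22078633620) (nat_lit 76) (nat_lit 21716018239) (nat_lit 18) (nat_lit 4) (nat_lit 19) (nat_lit 5) (nat_lit 19) (nat_lit 4) (nat_lit 490) (nat_lit 358) (nat_lit 352))))) (XT.nd (nat_lit 312) (nat_lit 152) (nat_lit 0) (XT.nd (nat_lit 156) (nat_lit 76) (nat_lit 0) (XT.nd (nat_lit 78) (nat_lit 152) (nat_lit 0) (XT.lf (nat_lit 0) (nat_lit 24881041927) (nat_lit 76) (nat_lit 10467074492) (nat_lit 76) (nat_lit 10053686925) (nat_lit 18) (nat_lit 4) (nat_lit 19) (nat_lit 5) (nat_lit 19) (nat_lit 4) (nat_lit 491) (nat_lit 358) (nat_lit 351)) (XT.lf (nat_lit 0) (nat_lit 1844988922) (nat_lit 152) (nat_lit 43823317915) (nat_lit 0) (nat_lit 1405234608) (nat_lit 16) (nat_lit 5) (nat_lit 18) (nat_lit 4) (nat_lit 16) (nat_lit 4) (nat_lit 492) (nat_lit 358) (nat_lit 350))) (XT.nd (nat_lit 78) (nat_lit 76) (nat_lit 0) (XT.lf (nat_lit 0) (nat_lit 14175293719) (nat_lit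 152) (nat_lit 20944923729) (nat_lit 0) (nat_lit 13691680481) (nat_lit 16) (nat_lit 5) (nat_lit 18) (nat_lit 4) (nat_lit 16) (nat_lit 4) (nat_lit 493) (nat_lit 358) (nat_lit 349)) (XT.lf (nat_lit 0) (nat_lit 2477128183) (nat_lit 76) (nat_lit 24350086538) (nat_lit 76) (nat_lit 23824702897) (nat_lit 15) (nat_lit 4) (nat_lit 16) (nat_lit 5) (nat_lit 16) (nat_lit 4) (nat_lit 494) (nat_lit 358) (nat_lit 348)))) (XT.nd (nat_lit 156) (nat_lit 152) (nat_lit 0) (XT.nd (nat_lit 78) (nat_lit 0) (nat_lit 0) (XT.lf (nat_lit 0) (nat_lit 27128858006) (nat_lit 76) (nat_lit 13009458224) (nat_lit 76) (nat_lit 12444293247) (nat_lit 15) (nat_lit 4) (nat_lit 16) (nat_lit 5) (nat_lit 16) (nat_lit 4) (nat_lit 495) (nat_lit 358) (nat_lit 347)) (XT.lf (nat_lit 0) (nat_lit 52376426566) (nat_lit 76) (nat_lit 1426043428) (nat_lit 76) (nat_lit 822991465) (nat_lit 15) (nat_lit 4) (nat_lit 16) (nat_lit 5) (nat_lit 16) (nat_lit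 4) (nat_lit 496) (nat_lit 358) (nat_lit 346))) (XT.nd (nat_lit 78) (nat_lit 0) (nat_lit 0) (XT.lf (nat_lit 0) (nat_lit 11227840044) (nat_lit 152) (nat_lit 34903959140) (nat_lit 0) (nat_lit 10619140226) (nat_lit 13) (nat_lit 5) (nat_lit 15) (nat_lit 4) (nat_lit 13) (nat_lit 4) (nat_lit 497) (nat_lit 358) (nat_lit 345)) (XT.lf (nat_lit 0) (nat_lit 23613257476) (nat_lit 152) (nat_lit 12408944969) (nat_lit 0) (nat_lit 22971829455) (nat_lit 13) (nat_lit 5) (nat_lit 15) (nat_lit 4) (nat_lit 13) (nat_lit 4) (nat_lit 498) (nat_lit 358) (nat_lit 344)))))))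
noncomputable def xc41 : XT := (XT.nd (nat_lit 1248) (nat_lit 228) (nat_lit 0) (XT.nd (nat_lit 624) (nat_lit 228) (nat_lit 0) (XT.nd (nat_lit 312) (nat_lit 76) (nat_lit 0) (XT.nd (nat_lit 156) (nat_lit 152) (nat_lit 0) (XT.nd (nat_lit 78) (nat_lit 0) (nat_lit 0) (XT.lf (nat_lit 0) (nat_lit 10974902555) (nat_lit 76) (nat_lit 25526403259) (nat_lit 76) (nat_lit 24853805520) (nat_lit 12) (nat_lit 4) (nat_lit 13) (nat_lit 5) (nat_lit 13) (nat_lit 4) (nat_lit 499) (nat_lit 358) (nat_lit 343)) (XT.lf (nat_lit 0) (nat_lit 35381040921) (nat_lit 76) (nat_lit 14579572239) (nat_lit 76) (nat_lit 13877289054) (nat_lit 12) (nat_lit 4) (nat_lit 13) (nat_lit 5) (nat_lit 13) (nat_lit 4) (nat_lit 500) (nat_lit 358) (nat_lit 342))) (XT.nd (nat_lit 78) (nat_lit 152) (nat_lit 0) (XT.lf (nat_lit 0) (nat_lit 60457284218) (nat_lit 76) (nat_lit 3365796991) (nat_lit 76) (nat_lit 2635241953) (nat_lit 12) (nat_lit 4) (nat_lit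 13) (nat_lit 5) (nat_lit 13) (nat_lit 4) (nat_lit 501) (nat_lit 358) (nat_lit 341)) (XT.lf (nat_lit 0) (nat_lit 9020745378) (nat_lit 152) (nat_lit 51875262146) (nat_lit 0) (nat_lit 8299335272) (nat_lit 10) (nat_lit 5) (nat_lit 12) (nat_lit 4) (nat_lit 10) (nat_lit 4) (nat_lit 502) (nat_lit 358) (nat_lit 340)))) (XT.nd (nat_lit 156) (nat_lit 76) (nat_lit 0) (XT.nd (nat_lit 78) (nat_lit 0) (nat_lit 0) (XT.lf (nat_lit 0) (nat_lit 21068358869) (nat_lit 152) (nat_lit 30681298876) (nat_lit 0) (nat_lit 20322526473) (nat_lit 10) (nat_lit 5) (nat_lit 12) (nat_lit 4) (nat_lit 10) (nat_lit 4) (nat_lit 503) (nat_lit 358) (nat_lit 339)) (XT.lf (nat_lit 0) (nat_lit 33469700300) (nat_lit 152) (nat_lit 8934991707) (nat_lit 0) (nat_lit 32700608580) (nat_lit 10) (nat_lit 5) (nat_lit 12) (nat_lit 4) (nat_lit 10) (nat_lit 4) (nat_lit 504) (nat_lit 358) (nat_lit 338))) (XT.nd (nat_lit 78) (nat_lit 0) (nat_lit 0) (XT.lf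 (nat_lit 0) (nat_lit 13859011194) (nat_lit 76) (nat_lit 32611663485) (nat_lit 76) (nat_lit 31820420029) (nat_lit 9) (nat_lit 4) (nat_lit 10) (nat_lit 5) (nat_lit 10) (nat_lit 4) (nat_lit 505) (nat_lit 358) (nat_lit 337)) (XT.lf (nat_lit 0) (nat_lit 37627515901) (nat_lit 76) (nat_lit 22412542582) (nat_lit 76) (nat_lit 21600202234) (nat_lit 9) (nat_lit 4) (nat_lit 10) (nat_lit 5) (nat_lit 10) (nat_lit 4) (nat_lit 506) (nat_lit 358) (nat_lit 336))))) (XT.nd (nat_lit 312) (nat_lit 76) (nat_lit 0) (XT.nd (nat_lit 156) (nat_lit 152) (nat_lit 0) (XT.nd (nat_lit 78) (nat_lit 0) (nat_lit 0) (XT.lf (nat_lit 0) (nat_lit 62131682913) (nat_lit 76) (nat_lit 11934364084) (nat_lit 76) (nat_lit 11101931458) (nat_lit 9) (nat_lit 4) (nat_lit 10) (nat_lit 5) (nat_lit 10) (nat_lit 4) (nat_lit 507) (nat_lit 358) (nat_lit 335)) (XT.lf (nat_lit 0) (nat_lit 87429855486) (nat_lit 76) (nat_lit 1152179948) (nat_lit 76) (nat_lit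 300611819) (nat_lit 9) (nat_lit 4) (nat_lit 10) (nat_lit 5) (nat_lit 10) (nat_lit 4) (nat_lit 508) (nat_lit 358) (nat_lit 334))) (XT.nd (nat_lit 78) (nat_lit 0) (nat_lit 0) (XT.lf (nat_lit 0) (nat_lit 10979167682) (nat_lit 152) (nat_lit 71629880786) (nat_lit 0) (nat_lit 10150793951) (nat_lit 7) (nat_lit 5) (nat_lit 9) (nat_lit 4) (nat_lit 7) (nat_lit 4) (nat_lit 509) (nat_lit 358) (nat_lit 333)) (XT.lf (nat_lit 0) (nat_lit 22652249058) (nat_lit 152) (nat_lit 52379085921) (nat_lit 0) (nat_lit 21807345360) (nat_lit 7) (nat_lit 5) (nat_lit 9) (nat_lit 4) (nat_lit 7) (nat_lit 4) (nat_lit 510) (nat_lit 358) (nat_lit 332)))) (XT.nd (nat_lit 156) (nat_lit 76) (nat_lit 0) (XT.nd (nat_lit 78) (nat_lit 0) (nat_lit 0) (XT.lf (nat_lit 0) (nat_lit 34714241797) (nat_lit 152) (nat_lit 32563360382) (nat_lit 0) (nat_lit 33853595274) (nat_lit 7) (nat_lit 5) (nat_lit 9) (nat_lit 4) (nat_lit 7) (nat_lit 4) (nat_lit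 511) (nat_lit 358) (nat_lit 331)) (XT.lf (nat_lit 0) (nat_lit 47193864930) (nat_lit 152) (nat_lit 12135523869) (nat_lit 0) (nat_lit 46318225239) (nat_lit 7) (nat_lit 5) (nat_lit 9) (nat_lit 4) (nat_lit 7) (nat_lit 4) (nat_lit 512) (nat_lit 358) (nat_lit 330))) (XT.nd (nat_lit 78) (nat_lit 0) (nat_lit 0) (XT.lf (nat_lit 0) (nat_lit 9249089963) (nat_lit 76) (nat_lit 51016146096) (nat_lit 76) (nat_lit 50126227198) (nat_lit 6) (nat_lit 4) (nat_lit 7) (nat_lit 5) (nat_lit 7) (nat_lit 4) (nat_lit 513) (nat_lit 358) (nat_lit 329)) (XT.lf (nat_lit 0) (nat_lit 31769426151) (nat_lit 76) (nat_lit 42252504657) (nat_lit 76) (nat_lit 41348986515) (nat_lit 6) (nat_lit 4) (nat_lit 7) (nat_lit 5) (nat_lit 7) (nat_lit 4) (nat_lit 514) (nat_lit 358) (nat_lit 328)))))) (XT.nd (nat_lit 624) (nat_lit 76) (nat_lit 0) (XT.nd (nat_lit 312) (nat_lit 152) (nat_lit 0) (XT.nd (nat_lit 156) (nat_lit 0) (nat_lit 0) (XT.nd (nat_lit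 78) (nat_lit 0) (nat_lit 0) (XT.lf (nat_lit 0) (nat_lit 55077849320) (nat_lit 76) (nat_lit 33223119639) (nat_lit 76) (nat_lit 32306649835) (nat_lit 6) (nat_lit 4) (nat_lit 7) (nat_lit 5) (nat_lit 7) (nat_lit 4) (nat_lit 515) (nat_lit 358) (nat_lit 327)) (XT.lf (nat_lit 0) (nat_lit 79229855713) (nat_lit 76) (nat_lit 23906492505) (nat_lit 76) (nat_lit 22977687785) (nat_lit 6) (nat_lit 4) (nat_lit 7) (nat_lit 5) (nat_lit 7) (nat_lit 4) (nat_lit 516) (nat_lit 358) (nat_lit 326))) (XT.nd (nat_lit 78) (nat_lit 0) (nat_lit 0) (XT.lf (nat_lit 0) (nat_lit 104282950109) (nat_lit 76) (nat_lit 14280440810) (nat_lit 76) (nat_lit 13339888552) (nat_lit 6) (nat_lit 4) (nat_lit 7) (nat_lit 5) (nat_lit 7) (nat_lit 4) (nat_lit 517) (nat_lit 358) (nat_lit 325)) (XT.lf (nat_lit 0) (nat_lit 130296782731) (nat_lit 76) (nat_lit 4322045384) (nat_lit 76) (nat_lit 3370304993) (nat_lit 6) (nat_lit 4) (nat_lit 7) (nat_lit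 5) (nat_lit 7) (nat_lit 4) (nat_lit 518) (nat_lit 358) (nat_lit 324)))) (XT.nd (nat_lit 156) (nat_lit 0) (nat_lit 0) (XT.nd (nat_lit 78) (nat_lit 0) (nat_lit 0) (XT.lf (nat_lit 0) (nat_lit 7038010433) (nat_lit 152) (nat_lit 131205913994) (nat_lit 0) (nat_lit 6121443048) (nat_lit 4) (nat_lit 5) (nat_lit 6) (nat_lit 4) (nat_lit 4) (nat_lit 4) (nat_lit 519) (nat_lit 358) (nat_lit 323)) (XT.lf (nat_lit 0) (nat_lit 17918390880) (nat_lit 152) (nat_lit 116143855788) (nat_lit 0) (nat_lit 16992158765) (nat_lit 4) (nat_lit 5) (nat_lit 6) (nat_lit 4) (nat_lit 4) (nat_lit 4) (nat_lit 520) (nat_lit 358) (nat_lit 322))) (XT.nd (nat_lit 78) (nat_lit 0) (nat_lit 0) (XT.lf (nat_lit 0) (nat_lit 29211029476) (nat_lit 152) (nat_lit 100597861095) (nat_lit 0) (nat_lit 28275592858) (nat_lit 4) (nat_lit 5) (nat_lit 6) (nat_lit 4) (nat_lit 4) (nat_lit 4) (nat_lit 521) (nat_lit 358) (nat_lit 321)) (XT.lf (nat_lit 0) (nat_lit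 40942813457) (nat_lit 152) (nat_lit 84530915641) (nat_lit 0) (nat_lit 39998610644) (nat_lit 4) (nat_lit 5) (nat_lit 6) (nat_lit 4) (nat_lit 4) (nat_lit 4) (nat_lit 522) (nat_lit 358) (nat_lit 320))))) (XT.nd (nat_lit 312) (nat_lit 76) (nat_lit 0) (XT.nd (nat_lit 156) (nat_lit 0) (nat_lit 0) (XT.nd (nat_lit 78) (nat_lit 0) (nat_lit 0) (XT.lf (nat_lit 0) (nat_lit 53141675640) (nat_lit 152) (nat_lit 67904764794) (nat_lit 0) (nat_lit 52189124071) (nat_lit 4) (nat_lit 5) (nat_lit 6) (nat_lit 4) (nat_lit 4) (nat_lit 4) (nat_lit 523) (nat_lit 358) (nat_lit 319)) (XT.lf (nat_lit 0) (nat_lit 65836660937) (nat_lit 152) (nat_lit 50679822481) (nat_lit 0) (nat_lit 64876158171) (nat_lit 4) (nat_lit 5) (nat_lit 6) (nat_lit 4) (nat_lit 4) (nat_lit 4) (nat_lit 524) (nat_lit 358) (nat_lit 318))) (XT.nd (nat_lit 78) (nat_lit 0) (nat_lit 0) (XT.lf (nat_lit 0) (nat_lit 79057995502) (nat_lit 152) (nat_lit 32815076934)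 (nat_lit 0) (nat_lit 78089920168) (nat_lit 4) (nat_lit 5) (nat_lit 6) (nat_lit 4) (nat_lit 4) (nat_lit 4) (nat_lit 525) (nat_lit 358) (nat_lit 317)) (XT.lf (nat_lit 0) (nat_lit 92837158704) (nat_lit 152) (nat_lit 14267993045) (nat_lit 0) (nat_lit 91861871400) (nat_lit 4) (nat_lit 5) (nat_lit 6) (nat_lit 4) (nat_lit 4) (nat_lit 4) (nat_lit 526) (nat_lit 358) (nat_lit 316)))) (XT.nd (nat_lit 156) (nat_lit 0) (nat_lit 0) (XT.nd (nat_lit 78) (nat_lit 0) (nat_lit 0) (XT.lf (nat_lit 0) (nat_lit 5171096283) (nat_lit 76) (nat_lit 102116597095) (nat_lit 76) (nat_lit 101134441248) (nat_lit 3) (nat_lit 4) (nat_lit 4) (nat_lit 5) (nat_lit 4) (nat_lit 4) (nat_lit 527) (nat_lit 358) (nat_lit 315)) (XT.lf (nat_lit 0) (nat_lit 25879876067) (nat_lit 76) (nat_lit 96725788746) (nat_lit 76) (nat_lit 95737091430) (nat_lit 3) (nat_lit 4) (nat_lit 4) (nat_lit 5) (nat_lit 4) (nat_lit 4) (nat_lit 528) (nat_lit 358) (nat_lit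 314))) (XT.nd (nat_lit 78) (nat_lit 0) (nat_lit 0) (XT.lf (nat_lit 0) (nat_lit 47435888635) (nat_lit 76) (nat_lit 91161526812) (nat_lit 76) (nat_lit 90166599526) (nat_lit 3) (nat_lit 4) (nat_lit 4) (nat_lit 5) (nat_lit 4) (nat_lit 4) (nat_lit 529) (nat_lit 358) (nat_lit 313)) (XT.nd (nat_lit 78) (nat_lit 0) (nat_lit 0) (XT.lf (nat_lit 0) (nat_lit 69890457829) (nat_lit 76) (nat_lit 85410563051) (nat_lit 76) (nat_lit 84409702458) (nat_lit 3) (nat_lit 4) (nat_lit 4) (nat_lit 5) (nat_lit 4) (nat_lit 4) (nat_lit 530) (nat_lit 358) (nat_lit 312)) (XT.lf (nat_lit 0) (nat_lit 93297046908) (nat_lit 76) (nat_lit 79459204690) (nat_lit 76) (nat_lit 78452693330) (nat_lit 3) (nat_lit 4) (nat_lit 4) (nat_lit 5) (nat_lit 4) (nat_lit 4) (nat_lit 531) (nat_lit 358) (nat_lit 311))))))))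
noncomputable def xc42 : XT := (XT.nd (nat_lit 1248) (nat_lit 0) (nat_lit 0) (XT.nd (nat_lit 624) (nat_lit 152) (nat_lit 0) (XT.nd (nat_lit 312) (nat_lit 0) (nat_lit 0) (XT.nd (nat_lit 156) (nat_lit 0) (nat_lit 0) (XT.nd (nat_lit 78) (nat_lit 0) (nat_lit 0) (XT.lf (nat_lit 0) (nat_lit 117711385845) (nat_lit 76) (nat_lit 73293281829) (nat_lit 76) (nat_lit 72281388787) (nat_lit 3) (nat_lit 4) (nat_lit 4) (nat_lit 5) (nat_lit 4) (nat_lit 4) (nat_lit 532) (nat_lit 358) (nat_lit 310)) (XT.lf (nat_lit 0) (nat_lit 143191604020) (nat_lit 76) (nat_lit 66898113700) (nat_lit 76) (nat_lit 65881095246) (nat_lit 3) (nat_lit 4) (nat_lit 4) (nat_lit 5) (nat_lit 4) (nat_lit 4) (nat_lit 533) (nat_lit 358) (nat_lit 309))) (XT.nd (nat_lit 78) (nat_lit 0) (nat_lit 0) (XT.lf (nat_lit 0) (nat_lit 169798368619) (nat_lit 76) (nat_lit 60258473712) (nat_lit 76) (nat_lit 59236573913) (nat_lit 3) (nat_lit 4) (nat_lit 4) (nat_lit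 5) (nat_lit 4) (nat_lit 4) (nat_lit 534) (nat_lit 358) (nat_lit 308)) (XT.lf (nat_lit 0) (nat_lit 197595029081) (nat_lit 76) (nat_lit 53358553198) (nat_lit 76) (nat_lit 52332004499) (nat_lit 3) (nat_lit 4) (nat_lit 4) (nat_lit 5) (nat_lit 4) (nat_lit 4) (nat_lit 535) (nat_lit 358) (nat_lit 307)))) (XT.nd (nat_lit 156) (nat_lit 0) (nat_lit 0) (XT.nd (nat_lit 78) (nat_lit 0) (nat_lit 0) (XT.lf (nat_lit 0) (nat_lit 226647767930) (nat_lit 76) (nat_lit 46181923776) (nat_lit 76) (nat_lit 45150947553) (nat_lit 3) (nat_lit 4) (nat_lit 4) (nat_lit 5) (nat_lit 4) (nat_lit 4) (nat_lit 536) (nat_lit 358) (nat_lit 306)) (XT.lf (nat_lit 0) (nat_lit 257025758356) (nat_lit 76) (nat_lit 38711498233) (nat_lit 76) (nat_lit 37676305320) (nat_lit 3) (nat_lit 4) (nat_lit 4) (nat_lit 5) (nat_lit 4) (nat_lit 4) (nat_lit 537) (nat_lit 358) (nat_lit 305))) (XT.nd (nat_lit 78) (nat_lit 0) (nat_lit 0) (XT.lf (nat_lit 0) (nat_lit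 288801328905) (nat_lit 76) (nat_lit 30929489842) (nat_lit 76) (nat_lit 29890281034) (nat_lit 3) (nat_lit 4) (nat_lit 4) (nat_lit 5) (nat_lit 4) (nat_lit 4) (nat_lit 538) (nat_lit 358) (nat_lit 304)) (XT.lf (nat_lit 0) (nat_lit 322050135700) (nat_lit 76) (nat_lit 22817370010) (nat_lit 76) (nat_lit 21774336541) (nat_lit 3) (nat_lit 4) (nat_lit 4) (nat_lit 5) (nat_lit 4) (nat_lit 4) (nat_lit 539) (nat_lit 358) (nat_lit 303))))) (XT.nd (nat_lit 312) (nat_lit 0) (nat_lit 0) (XT.nd (nat_lit 156) (nat_lit 152) (nat_lit 0) (XT.nd (nat_lit 78) (nat_lit 0) (nat_lit 0) (XT.lf (nat_lit 0) (nat_lit 356851342565) (nat_lit 76) (nat_lit 14355824168) (nat_lit 76) (nat_lit 13309148164) (nat_lit 3) (nat_lit 4) (nat_lit 4) (nat_lit 5) (nat_lit 4) (nat_lit 4) (nat_lit 540) (nat_lit 358) (nat_lit 302)) (XT.lf (nat_lit 0) (nat_lit 393287809516) (nat_lit 76) (nat_lit 5524705777) (nat_lit 76) (nat_lit 4474560693) (nat_lit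 3) (nat_lit 4) (nat_lit 4) (nat_lit 5) (nat_lit 4) (nat_lit 4) (nat_lit 541) (nat_lit 358) (nat_lit 301))) (XT.nd (nat_lit 78) (nat_lit 0) (nat_lit 0) (XT.lf (nat_lit 0) (nat_lit 4794620062) (nat_lit 152) (nat_lit 414399343825) (nat_lit 0) (nat_lit 3791335327) (nat_lit 1) (nat_lit 5) (nat_lit 3) (nat_lit 4) (nat_lit 1) (nat_lit 4) (nat_lit 542) (nat_lit 358) (nat_lit 300)) (XT.lf (nat_lit 0) (nat_lit 14589929297) (nat_lit 152) (nat_lit 415480536624) (nat_lit 0) (nat_lit 13583647840) (nat_lit 1) (nat_lit 5) (nat_lit 3) (nat_lit 4) (nat_lit 1) (nat_lit 4) (nat_lit 543) (nat_lit 358) (nat_lit 299)))) (XT.nd (nat_lit 156) (nat_lit 0) (nat_lit 0) (XT.nd (nat_lit 78) (nat_lit 0) (nat_lit 0) (XT.lf (nat_lit 0) (nat_lit 24827724520) (nat_lit 152) (nat_lit 416712419474) (nat_lit 0) (nat_lit 23818589042) (nat_lit 1) (nat_lit 5) (nat_lit 3) (nat_lit 4) (nat_lit 1) (nat_lit 4) (nat_lit 544) (nat_lit 358) (nat_lit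 298)) (XT.lf (nat_lit 0) (nat_lit 35532381436) (nat_lit 152) (nat_lit 418097925430) (nat_lit 0) (nat_lit 34520527842) (nat_lit 1) (nat_lit 5) (nat_lit 3) (nat_lit 4) (nat_lit 1) (nat_lit 4) (nat_lit 545) (nat_lit 358) (nat_lit 297))) (XT.nd (nat_lit 78) (nat_lit 0) (nat_lit 0) (XT.lf (nat_lit 0) (nat_lit 46729387322) (nat_lit 152) (nat_lit 419640353315) (nat_lit 0) (nat_lit 45714945047) (nat_lit 1) (nat_lit 5) (nat_lit 3) (nat_lit 4) (nat_lit 1) (nat_lit 4) (nat_lit 546) (nat_lit 358) (nat_lit 296)) (XT.lf (nat_lit 0) (nat_lit 58445401716) (nat_lit 152) (nat_lit 421343375577) (nat_lit 0) (nat_lit 57428494030) (nat_lit 1) (nat_lit 5) (nat_lit 3) (nat_lit 4) (nat_lit 1) (nat_lit 4) (nat_lit 547) (nat_lit 358) (nat_lit 295)))))) (XT.nd (nat_lit 624) (nat_lit 0) (nat_lit 0) (XT.nd (nat_lit 312) (nat_lit 0) (nat_lit 0) (XT.nd (nat_lit 156) (nat_lit 0) (nat_lit 0) (XT.nd (nat_lit 78) (nat_lit 0) (nat_lit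 0) (XT.lf (nat_lit 0) (nat_lit 70708319890) (nat_lit 152) (nat_lit 423211047031) (nat_lit 0) (nat_lit 69689064194) (nat_lit 1) (nat_lit 5) (nat_lit 3) (nat_lit 4) (nat_lit 1) (nat_lit 4) (nat_lit 548) (nat_lit 358) (nat_lit 294)) (XT.lf (nat_lit 0) (nat_lit 83547339270) (nat_lit 152) (nat_lit 425247814513) (nat_lit 0) (nat_lit 82525847373) (nat_lit 1) (nat_lit 5) (nat_lit 3) (nat_lit 4) (nat_lit 1) (nat_lit 4) (nat_lit 549) (nat_lit 358) (nat_lit 293))) (XT.nd (nat_lit 78) (nat_lit 0) (nat_lit 0) (XT.lf (nat_lit 0) (nat_lit 96993028947) (nat_lit 152) (nat_lit 427458527469) (nat_lit 0) (nat_lit 95969407336) (nat_lit 1) (nat_lit 5) (nat_lit 3) (nat_lit 4) (nat_lit 1) (nat_lit 4) (nat_lit 550) (nat_lit 358) (nat_lit 292)) (XT.lf (nat_lit 0) (nat_lit 111077402470) (nat_lit 152) (nat_lit 429848449503) (nat_lit 0) (nat_lit 110051752559) (nat_lit 1) (nat_lit 5) (nat_lit 3) (nat_lit 4) (nat_lit 1) (nat_lit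 4) (nat_lit 551) (nat_lit 358) (nat_lit 291)))) (XT.nd (nat_lit 156) (nat_lit 0) (nat_lit 0) (XT.nd (nat_lit 78) (nat_lit 0) (nat_lit 0) (XT.lf (nat_lit 0) (nat_lit 125833994061) (nat_lit 152) (nat_lit 432423270905) (nat_lit 0) (nat_lit 124806412436) (nat_lit 1) (nat_lit 5) (nat_lit 3) (nat_lit 4) (nat_lit 1) (nat_lit 4) (nat_lit 552) (nat_lit 358) (nat_lit 290)) (XT.lf (nat_lit 0) (nat_lit 141297938462) (nat_lit 152) (nat_lit 435189122201) (nat_lit 0) (nat_lit 140268517109) (nat_lit 1) (nat_lit 5) (nat_lit 3) (nat_lit 4) (nat_lit 1) (nat_lit 4) (nat_lit 553) (nat_lit 358) (nat_lit 289))) (XT.nd (nat_lit 78) (nat_lit 0) (nat_lit 0) (XT.lf (nat_lit 0) (nat_lit 157506054588) (nat_lit 152) (nat_lit 438152588752) (nat_lit 0) (nat_lit 156474881113) (nat_lit 1) (nat_lit 5) (nat_lit 3) (nat_lit 4) (nat_lit 1) (nat_lit 4) (nat_lit 554) (nat_lit 358) (nat_lit 288)) (XT.lf (nat_lit 0) (nat_lit 174496933192)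 (nat_lit 152) (nat_lit 441320726430) (nat_lit 0) (nat_lit 173464091030) (nat_lit 1) (nat_lit 5) (nat_lit 3) (nat_lit 4) (nat_lit 1) (nat_lit 4) (nat_lit 555) (nat_lit 358) (nat_lit 287))))) (XT.nd (nat_lit 56862) (nat_lit 0) (nat_lit 1520) (XT.nd (nat_lit 56706) (nat_lit 0) (nat_lit 1824) (XT.nd (nat_lit 78) (nat_lit 0) (nat_lit 0) (XT.lf (nat_lit 0) (nat_lit 192311028746) (nat_lit 152) (nat_lit 444701078422) (nat_lit 0) (nat_lit 191276597359) (nat_lit 1) (nat_lit 5) (nat_lit 3) (nat_lit 4) (nat_lit 1) (nat_lit 4) (nat_lit 556) (nat_lit 358) (nat_lit 286)) (XT.lf (nat_lit 0) (nat_lit 210990755764) (nat_lit 152) (nat_lit 448301693183) (nat_lit 0) (nat_lit 209954810828) (nat_lit 1) (nat_lit 5) (nat_lit 3) (nat_lit 4) (nat_lit 1) (nat_lit 4) (nat_lit 557) (nat_lit 358) (nat_lit 285))) (XT.nd (nat_lit 78) (nat_lit 152) (nat_lit 0) (XT.lf (nat_lit 0) (nat_lit 15525601555) (nat_lit 76) (nat_lit 641053459)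 (nat_lit 76) (nat_lit 641053459) (nat_lit 27) (nat_lit 4) (nat_lit 28) (nat_lit 5) (nat_lit 28) (nat_lit 4) (nat_lit 482) (nat_lit 359) (nat_lit 359)) (XT.lf (nat_lit 0) (nat_lit 10840136742) (nat_lit 152) (nat_lit 13084406837) (nat_lit 0) (nat_lit 10761372417) (nat_lit 25) (nat_lit 5) (nat_lit 27) (nat_lit 4) (nat_lit 25) (nat_lit 4) (nat_lit 483) (nat_lit 359) (nat_lit 358)))) (XT.nd (nat_lit 156) (nat_lit 228) (nat_lit 0) (XT.nd (nat_lit 78) (nat_lit 0) (nat_lit 0) (XT.lf (nat_lit 0) (nat_lit 10773071294) (nat_lit 76) (nat_lit 12598640603) (nat_lit 76) (nat_lit 12444862636) (nat_lit 24) (nat_lit 4) (nat_lit 25) (nat_lit 5) (nat_lit 25) (nat_lit 4) (nat_lit 484) (nat_lit 359) (nat_lit 357)) (XT.lf (nat_lit 0) (nat_lit 35504598527) (nat_lit 76) (nat_lit 866171269) (nat_lit 76) (nat_lit 640951737) (nat_lit 24) (nat_lit 4) (nat_lit 25) (nat_lit 5) (nat_lit 25) (nat_lit 4) (nat_lit 485) (nat_lit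 359) (nat_lit 356))) (XT.nd (nat_lit 78) (nat_lit 76) (nat_lit 0) (XT.lf (nat_lit 0) (nat_lit 11549514995) (nat_lit 152) (nat_lit 15429089239) (nat_lit 0) (nat_lit 11270220598) (nat_lit 22) (nat_lit 5) (nat_lit 24) (nat_lit 4) (nat_lit 22) (nat_lit 4) (nat_lit 486) (nat_lit 359) (nat_lit 355)) (XT.nd (nat_lit 78) (nat_lit 0) (nat_lit 0) (XT.lf (nat_lit 0) (nat_lit 8362613925) (nat_lit 76) (nat_lit 15767766093) (nat_lit 76) (nat_lit 15426757787) (nat_lit 21) (nat_lit 4) (nat_lit 22) (nat_lit 5) (nat_lit 22) (nat_lit 4) (nat_lit 487) (nat_lit 359) (nat_lit 354)) (XT.lf (nat_lit 0) (nat_lit 33142970202) (nat_lit 76) (nat_lit 4096363995) (nat_lit 76) (nat_lit 3696580537) (nat_lit 21) (nat_lit 4) (nat_lit 22) (nat_lit 5) (nat_lit 22) (nat_lit 4) (nat_lit 488) (nat_lit 359) (nat_lit 353))))))))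
noncomputable def xc43 : XT := (XT.nd (nat_lit 1248) (nat_lit 456) (nat_lit 0) (XT.nd (nat_lit 624) (nat_lit 380) (nat_lit 0) (XT.nd (nat_lit 312) (nat_lit 152) (nat_lit 0) (XT.nd (nat_lit 156) (nat_lit 152) (nat_lit 0) (XT.nd (nat_lit 78) (nat_lit 0) (nat_lit 0) (XT.lf (nat_lit 0) (nat_lit 8378639272) (nat_lit 152) (nat_lit 26051958715) (nat_lit 0) (nat_lit 7944582326) (nat_lit 19) (nat_lit 5) (nat_lit 21) (nat_lit 4) (nat_lit 19) (nat_lit 4) (nat_lit 489) (nat_lit 359) (nat_lit 352)) (XT.lf (nat_lit 0) (nat_lit 20784200598) (nat_lit 152) (nat_lit 2807267151) (nat_lit 0) (nat_lit 20299371466) (nat_lit 19) (nat_lit 5) (nat_lit 21) (nat_lit 4) (nat_lit 19) (nat_lit 4) (nat_lit 490) (nat_lit 359) (nat_lit 351))) (XT.nd (nat_lit 78) (nat_lit 76) (nat_lit 0) (XT.lf (nat_lit 0) (nat_lit 21612056363) (nat_lit 76) (nat_lit 12201613645) (nat_lit 76) (nat_lit 11668430050) (nat_lit 18) (nat_lit 4) (nat_lit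 19) (nat_lit 5) (nat_lit 19) (nat_lit 4) (nat_lit 491) (nat_lit 359) (nat_lit 350)) (XT.lf (nat_lit 0) (nat_lit 45356744) (nat_lit 152) (nat_lit 486254137) (nat_lit 76) (nat_lit 46635316578) (nat_lit 17) (nat_lit 5) (nat_lit 19) (nat_lit 5) (nat_lit 18) (nat_lit 4) (nat_lit 492) (nat_lit 359) (nat_lit 349)))) (XT.nd (nat_lit 156) (nat_lit 76) (nat_lit 0) (XT.nd (nat_lit 78) (nat_lit 0) (nat_lit 0) (XT.lf (nat_lit 0) (nat_lit 12196671227) (nat_lit 152) (nat_lit 25114314440) (nat_lit 0) (nat_lit 11603248001) (nat_lit 16) (nat_lit 5) (nat_lit 18) (nat_lit 4) (nat_lit 16) (nat_lit 4) (nat_lit 493) (nat_lit 359) (nat_lit 348)) (XT.lf (nat_lit 0) (nat_lit 24654946841) (nat_lit 152) (nat_lit 2087246705) (nat_lit 0) (nat_lit 24021742279) (nat_lit 16) (nat_lit 5) (nat_lit 18) (nat_lit 4) (nat_lit 16) (nat_lit 4) (nat_lit 494) (nat_lit 359) (nat_lit 347))) (XT.nd (nat_lit 78) (nat_lit 0) (nat_lit 0) (XT.lf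 (nat_lit 0) (nat_lit 22184860654) (nat_lit 76) (nat_lit 15595082026) (nat_lit 76) (nat_lit 14923990477) (nat_lit 15) (nat_lit 4) (nat_lit 16) (nat_lit 5) (nat_lit 16) (nat_lit 4) (nat_lit 495) (nat_lit 359) (nat_lit 346)) (XT.lf (nat_lit 0) (nat_lit 47136611441) (nat_lit 76) (nat_lit 4162303670) (nat_lit 76) (nat_lit 3455129276) (nat_lit 15) (nat_lit 4) (nat_lit 16) (nat_lit 5) (nat_lit 16) (nat_lit 4) (nat_lit 496) (nat_lit 359) (nat_lit 345))))) (XT.nd (nat_lit 312) (nat_lit 152) (nat_lit 0) (XT.nd (nat_lit 156) (nat_lit 76) (nat_lit 0) (XT.nd (nat_lit 78) (nat_lit 0) (nat_lit 0) (XT.lf (nat_lit 0) (nat_lit 8401713328) (nat_lit 152) (nat_lit 40798289914) (nat_lit 0) (nat_lit 7695485702) (nat_lit 13) (nat_lit 5) (nat_lit 15) (nat_lit 4) (nat_lit 13) (nat_lit 4) (nat_lit 497) (nat_lit 359) (nat_lit 344)) (XT.lf (nat_lit 0) (nat_lit 20646648345) (nat_lit 152) (nat_lit 18589706365) (nat_lit 0) (nat_lit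 19909251001) (nat_lit 13) (nat_lit 5) (nat_lit 15) (nat_lit 4) (nat_lit 13) (nat_lit 4) (nat_lit 498) (nat_lit 359) (nat_lit 343))) (XT.nd (nat_lit 78) (nat_lit 0) (nat_lit 0) (XT.lf (nat_lit 0) (nat_lit 4307966501) (nat_lit 76) (nat_lit 28988847849) (nat_lit 76) (nat_lit 28221765059) (nat_lit 12) (nat_lit 4) (nat_lit 13) (nat_lit 5) (nat_lit 13) (nat_lit 4) (nat_lit 499) (nat_lit 359) (nat_lit 342)) (XT.lf (nat_lit 0) (nat_lit 28445713654) (nat_lit 76) (nat_lit 18178796011) (nat_lit 76) (nat_lit 17383441368) (nat_lit 12) (nat_lit 4) (nat_lit 13) (nat_lit 5) (nat_lit 13) (nat_lit 4) (nat_lit 500) (nat_lit 359) (nat_lit 341)))) (XT.nd (nat_lit 156) (nat_lit 0) (nat_lit 0) (XT.nd (nat_lit 78) (nat_lit 152) (nat_lit 0) (XT.lf (nat_lit 0) (nat_lit 53266346272) (nat_lit 76) (nat_lit 7095286650) (nat_lit 76) (nat_lit 6273006433) (nat_lit 12) (nat_lit 4) (nat_lit 13) (nat_lit 5) (nat_lit 13) (nat_lit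 4) (nat_lit 501) (nat_lit 359) (nat_lit 340)) (XT.lf (nat_lit 0) (nat_lit 5193050919) (nat_lit 152) (nat_lit 59811261422) (nat_lit 0) (nat_lit 4385504613) (nat_lit 10) (nat_lit 5) (nat_lit 12) (nat_lit 4) (nat_lit 10) (nat_lit 4) (nat_lit 502) (nat_lit 359) (nat_lit 339))) (XT.nd (nat_lit 78) (nat_lit 0) (nat_lit 0) (XT.lf (nat_lit 0) (nat_lit 17119370393) (nat_lit 152) (nat_lit 38864788037) (nat_lit 0) (nat_lit 16288564764) (nat_lit 10) (nat_lit 5) (nat_lit 12) (nat_lit 4) (nat_lit 10) (nat_lit 4) (nat_lit 503) (nat_lit 359) (nat_lit 338)) (XT.lf (nat_lit 0) (nat_lit 29405193713) (nat_lit 152) (nat_lit 17354185519) (nat_lit 0) (nat_lit 28552236347) (nat_lit 10) (nat_lit 5) (nat_lit 12) (nat_lit 4) (nat_lit 10) (nat_lit 4) (nat_lit 504) (nat_lit 359) (nat_lit 337)))))) (XT.nd (nat_lit 624) (nat_lit 228) (nat_lit 0) (XT.nd (nat_lit 312) (nat_lit 152) (nat_lit 0) (XT.nd (nat_lit 156) (nat_lit 0)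 (nat_lit 0) (XT.nd (nat_lit 78) (nat_lit 0) (nat_lit 0) (XT.lf (nat_lit 0) (nat_lit 4929537848) (nat_lit 76) (nat_lit 37227198892) (nat_lit 76) (nat_lit 36353144634) (nat_lit 9) (nat_lit 4) (nat_lit 10) (nat_lit 5) (nat_lit 10) (nat_lit 4) (nat_lit 505) (nat_lit 359) (nat_lit 336)) (XT.lf (nat_lit 0) (nat_lit 28477182589) (nat_lit 76) (nat_lit 27140711379) (nat_lit 76) (nat_lit 26246564844) (nat_lit 9) (nat_lit 4) (nat_lit 10) (nat_lit 5) (nat_lit 10) (nat_lit 4) (nat_lit 506) (nat_lit 359) (nat_lit 335))) (XT.nd (nat_lit 78) (nat_lit 0) (nat_lit 0) (XT.lf (nat_lit 0) (nat_lit 52771006777) (nat_lit 76) (nat_lit 16769802778) (nat_lit 76) (nat_lit 15856520739) (nat_lit 9) (nat_lit 4) (nat_lit 10) (nat_lit 5) (nat_lit 10) (nat_lit 4) (nat_lit 507) (nat_lit 359) (nat_lit 334)) (XT.lf (nat_lit 0) (nat_lit 77868852850) (nat_lit 76) (nat_lit 6089780447) (nat_lit 76) (nat_lit 5158274121) (nat_lit 9) (nat_lit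 4) (nat_lit 10) (nat_lit 5) (nat_lit 10) (nat_lit 4) (nat_lit 508) (nat_lit 359) (nat_lit 333)))) (XT.nd (nat_lit 156) (nat_lit 0) (nat_lit 0) (XT.nd (nat_lit 78) (nat_lit 0) (nat_lit 0) (XT.lf (nat_lit 0) (nat_lit 5939566787) (nat_lit 152) (nat_lit 82039310734) (nat_lit 0) (nat_lit 5035887938) (nat_lit 7) (nat_lit 5) (nat_lit 9) (nat_lit 4) (nat_lit 7) (nat_lit 4) (nat_lit 509) (nat_lit 359) (nat_lit 332)) (XT.lf (nat_lit 0) (nat_lit 17517651722) (nat_lit 152) (nat_lit 62982471512) (nat_lit 0) (nat_lit 16598230046) (nat_lit 7) (nat_lit 5) (nat_lit 9) (nat_lit 4) (nat_lit 7) (nat_lit 4) (nat_lit 510) (nat_lit 359) (nat_lit 331))) (XT.nd (nat_lit 78) (nat_lit 0) (nat_lit 0) (XT.lf (nat_lit 0) (nat_lit 29489171659) (nat_lit 152) (nat_lit 43351465633) (nat_lit 0) (nat_lit 28554756817) (nat_lit 7) (nat_lit 5) (nat_lit 9) (nat_lit 4) (nat_lit 7) (nat_lit 4) (nat_lit 511) (nat_lit 359) (nat_lit 330))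 (XT.lf (nat_lit 0) (nat_lit 41882630218) (nat_lit 152) (nat_lit 23099552606) (nat_lit 0) (nat_lit 40933936169) (nat_lit 7) (nat_lit 5) (nat_lit 9) (nat_lit 4) (nat_lit 7) (nat_lit 4) (nat_lit 512) (nat_lit 359) (nat_lit 329))))) (XT.nd (nat_lit 312) (nat_lit 152) (nat_lit 0) (XT.nd (nat_lit 156) (nat_lit 0) (nat_lit 0) (XT.nd (nat_lit 78) (nat_lit 76) (nat_lit 0) (XT.lf (nat_lit 0) (nat_lit 54727535634) (nat_lit 152) (nat_lit 2178513592) (nat_lit 0) (nat_lit 53765242341) (nat_lit 7) (nat_lit 5) (nat_lit 9) (nat_lit 4) (nat_lit 7) (nat_lit 4) (nat_lit 513) (nat_lit 359) (nat_lit 328)) (XT.lf (nat_lit 0) (nat_lit 20104947279) (nat_lit 76) (nat_lit 48263418307) (nat_lit 76) (nat_lit 47288173352) (nat_lit 6) (nat_lit 4) (nat_lit 7) (nat_lit 5) (nat_lit 7) (nat_lit 4) (nat_lit 514) (nat_lit 359) (nat_lit 327))) (XT.nd (nat_lit 78) (nat_lit 0) (nat_lit 0) (XT.lf (nat_lit 0) (nat_lit 43256376333) (nat_lit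 76) (nat_lit 39314144087) (nat_lit 76) (nat_lit 38326564216) (nat_lit 6) (nat_lit 4) (nat_lit 7) (nat_lit 5) (nat_lit 7) (nat_lit 4) (nat_lit 515) (nat_lit 359) (nat_lit 326)) (XT.lf (nat_lit 0) (nat_lit 67258864523) (nat_lit 76) (nat_lit 30073812951) (nat_lit 76) (nat_lit 29074485541) (nat_lit 6) (nat_lit 4) (nat_lit 7) (nat_lit 5) (nat_lit 7) (nat_lit 4) (nat_lit 516) (nat_lit 359) (nat_lit 325)))) (XT.nd (nat_lit 156) (nat_lit 152) (nat_lit 0) (XT.nd (nat_lit 78) (nat_lit 0) (nat_lit 0) (XT.lf (nat_lit 0) (nat_lit 92169560629) (nat_lit 76) (nat_lit 20520424112) (nat_lit 76) (nat_lit 19509908569) (nat_lit 6) (nat_lit 4) (nat_lit 7) (nat_lit 5) (nat_lit 7) (nat_lit 4) (nat_lit 517) (nat_lit 359) (nat_lit 324)) (XT.lf (nat_lit 0) (nat_lit 118047775834) (nat_lit 76) (nat_lit 10631231404) (nat_lit 76) (nat_lit 9610060498) (nat_lit 6) (nat_lit 4) (nat_lit 7) (nat_lit 5) (nat_lit 7) (nat_lit 4) (nat_lit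 518) (nat_lit 359) (nat_lit 323))) (XT.nd (nat_lit 78) (nat_lit 0) (nat_lit 0) (XT.lf (nat_lit 0) (nat_lit 264272032) (nat_lit 76) (nat_lit 367723530) (nat_lit 152) (nat_lit 144056476118) (nat_lit 4) (nat_lit 5) (nat_lit 5) (nat_lit 5) (nat_lit 6) (nat_lit 4) (nat_lit 519) (nat_lit 359) (nat_lit 322)) (XT.nd (nat_lit 78) (nat_lit 0) (nat_lit 0) (XT.lf (nat_lit 0) (nat_lit 11442361218) (nat_lit 152) (nat_lit 129487700942) (nat_lit 0) (nat_lit 10450948265) (nat_lit 4) (nat_lit 5) (nat_lit 6) (nat_lit 4) (nat_lit 4) (nat_lit 4) (nat_lit 520) (nat_lit 359) (nat_lit 321)) (XT.lf (nat_lit 0) (nat_lit 22673786866) (nat_lit 152) (nat_lit 114066754529) (nat_lit 0) (nat_lit 21673607718) (nat_lit 4) (nat_lit 5) (nat_lit 6) (nat_lit 4) (nat_lit 4) (nat_lit 4) (nat_lit 521) (nat_lit 359) (nat_lit 320))))))))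
noncomputable def xc44 : XT := (XT.nd (nat_lit 1248) (nat_lit 152) (nat_lit 0) (XT.nd (nat_lit 624) (nat_lit 0) (nat_lit 0) (XT.nd (nat_lit 312) (nat_lit 76) (nat_lit 0) (XT.nd (nat_lit 156) (nat_lit 0) (nat_lit 0) (XT.nd (nat_lit 78) (nat_lit 0) (nat_lit 0) (XT.lf (nat_lit 0) (nat_lit 34347272799) (nat_lit 152) (nat_lit 98118902675) (nat_lit 0) (nat_lit 33338744895) (nat_lit 4) (nat_lit 5) (nat_lit 6) (nat_lit 4) (nat_lit 4) (nat_lit 4) (nat_lit 522) (nat_lit 359) (nat_lit 319)) (XT.lf (nat_lit 0) (nat_lit 46490613033) (nat_lit 152) (nat_lit 81606174304) (nat_lit 0) (nat_lit 45474133932) (nat_lit 4) (nat_lit 5) (nat_lit 6) (nat_lit 4) (nat_lit 4) (nat_lit 4) (nat_lit 523) (nat_lit 359) (nat_lit 318))) (XT.nd (nat_lit 78) (nat_lit 0) (nat_lit 0) (XT.lf (nat_lit 0) (nat_lit 59132720283) (nat_lit 152) (nat_lit 64489253397) (nat_lit 0) (nat_lit 58108668614) (nat_lit 4) (nat_lit 5) (nat_lit 6) (nat_lit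 4) (nat_lit 4) (nat_lit 4) (nat_lit 524) (nat_lit 359) (nat_lit 317)) (XT.lf (nat_lit 0) (nat_lit 72303694804) (nat_lit 152) (nat_lit 46727385379) (nat_lit 0) (nat_lit 71272431164) (nat_lit 4) (nat_lit 5) (nat_lit 6) (nat_lit 4) (nat_lit 4) (nat_lit 4) (nat_lit 525) (nat_lit 359) (nat_lit 316)))) (XT.nd (nat_lit 156) (nat_lit 76) (nat_lit 0) (XT.nd (nat_lit 78) (nat_lit 0) (nat_lit 0) (XT.lf (nat_lit 0) (nat_lit 86034896058) (nat_lit 152) (nat_lit 28278280089) (nat_lit 0) (nat_lit 84996763876) (nat_lit 4) (nat_lit 5) (nat_lit 6) (nat_lit 4) (nat_lit 4) (nat_lit 4) (nat_lit 526) (nat_lit 359) (nat_lit 315)) (XT.lf (nat_lit 0) (nat_lit 100359017383) (nat_lit 152) (nat_lit 9098011087) (nat_lit 0) (nat_lit 99314343732) (nat_lit 4) (nat_lit 5) (nat_lit 6) (nat_lit 4) (nat_lit 4) (nat_lit 4) (nat_lit 527) (nat_lit 359) (nat_lit 314))) (XT.nd (nat_lit 78) (nat_lit 0) (nat_lit 0) (XT.lf (nat_lit 0) (nat_lit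 11218139457) (nat_lit 76) (nat_lit 104267170967) (nat_lit 76) (nat_lit 103216267345) (nat_lit 3) (nat_lit 4) (nat_lit 4) (nat_lit 5) (nat_lit 4) (nat_lit 4) (nat_lit 528) (nat_lit 359) (nat_lit 313)) (XT.lf (nat_lit 0) (nat_lit 32686715926) (nat_lit 76) (nat_lit 98747548676) (nat_lit 76) (nat_lit 97690711749) (nat_lit 3) (nat_lit 4) (nat_lit 4) (nat_lit 5) (nat_lit 4) (nat_lit 4) (nat_lit 529) (nat_lit 359) (nat_lit 312))))) (XT.nd (nat_lit 312) (nat_lit 0) (nat_lit 0) (XT.nd (nat_lit 156) (nat_lit 0) (nat_lit 0) (XT.nd (nat_lit 78) (nat_lit 0) (nat_lit 0) (XT.lf (nat_lit 0) (nat_lit 55058012645) (nat_lit 76) (nat_lit 93039098860) (nat_lit 76) (nat_lit 91976611166) (nat_lit 3) (nat_lit 4) (nat_lit 4) (nat_lit 5) (nat_lit 4) (nat_lit 4) (nat_lit 530) (nat_lit 359) (nat_lit 311)) (XT.lf (nat_lit 0) (nat_lit 78385294604) (nat_lit 76) (nat_lit 87128229972) (nat_lit 76) (nat_lit 86060360595) (nat_lit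 3) (nat_lit 4) (nat_lit 4) (nat_lit 5) (nat_lit 4) (nat_lit 4) (nat_lit 531) (nat_lit 359) (nat_lit 310))) (XT.nd (nat_lit 78) (nat_lit 0) (nat_lit 0) (XT.lf (nat_lit 0) (nat_lit 102724102951) (nat_lit 76) (nat_lit 81000868514) (nat_lit 76) (nat_lit 79927873724) (nat_lit 3) (nat_lit 4) (nat_lit 4) (nat_lit 5) (nat_lit 4) (nat_lit 4) (nat_lit 532) (nat_lit 359) (nat_lit 309)) (XT.lf (nat_lit 0) (nat_lit 128132387231) (nat_lit 76) (nat_lit 74642425530) (nat_lit 76) (nat_lit 73564549395) (nat_lit 3) (nat_lit 4) (nat_lit 4) (nat_lit 5) (nat_lit 4) (nat_lit 4) (nat_lit 533) (nat_lit 359) (nat_lit 308)))) (XT.nd (nat_lit 156) (nat_lit 0) (nat_lit 0) (XT.nd (nat_lit 78) (nat_lit 0) (nat_lit 0) (XT.lf (nat_lit 0) (nat_lit 154670643358) (nat_lit 76) (nat_lit 68037761870) (nat_lit 76) (nat_lit 66955236836) (nat_lit 3) (nat_lit 4) (nat_lit 4) (nat_lit 5) (nat_lit 4) (nat_lit 4) (nat_lit 534) (nat_lit 359)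 (nat_lit 307)) (XT.lf (nat_lit 0) (nat_lit 182402057657) (nat_lit 76) (nat_lit 61171152145) (nat_lit 76) (nat_lit 60084199587) (nat_lit 3) (nat_lit 4) (nat_lit 4) (nat_lit 5) (nat_lit 4) (nat_lit 4) (nat_lit 535) (nat_lit 359) (nat_lit 306))) (XT.nd (nat_lit 78) (nat_lit 0) (nat_lit 0) (XT.lf (nat_lit 0) (nat_lit 211392657303) (nat_lit 76) (nat_lit 54026247284) (nat_lit 76) (nat_lit 52935078036) (nat_lit 3) (nat_lit 4) (nat_lit 4) (nat_lit 5) (nat_lit 4) (nat_lit 4) (nat_lit 536) (nat_lit 359) (nat_lit 305)) (XT.lf (nat_lit 0) (nat_lit 241711467535) (nat_lit 76) (nat_lit 46586035609) (nat_lit 76) (nat_lit 45490850466) (nat_lit 3) (nat_lit 4) (nat_lit 4) (nat_lit 5) (nat_lit 4) (nat_lit 4) (nat_lit 537) (nat_lit 359) (nat_lit 304)))))) (XT.nd (nat_lit 624) (nat_lit 0) (nat_lit 0) (XT.nd (nat_lit 312) (nat_lit 152) (nat_lit 0) (XT.nd (nat_lit 156) (nat_lit 0) (nat_lit 0) (XT.nd (nat_lit 78) (nat_lit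 0) (nat_lit 0) (XT.lf (nat_lit 0) (nat_lit 273430675995) (nat_lit 76) (nat_lit 38832802329) (nat_lit 76) (nat_lit 37733792525) (nat_lit 3) (nat_lit 4) (nat_lit 4) (nat_lit 5) (nat_lit 4) (nat_lit 4) (nat_lit 538) (nat_lit 359) (nat_lit 303)) (XT.lf (nat_lit 0) (nat_lit 306625804610) (nat_lit 76) (nat_lit 30748087367) (nat_lit 76) (nat_lit 29645435028) (nat_lit 3) (nat_lit 4) (nat_lit 4) (nat_lit 5) (nat_lit 4) (nat_lit 4) (nat_lit 539) (nat_lit 359) (nat_lit 302))) (XT.nd (nat_lit 78) (nat_lit 0) (nat_lit 0) (XT.lf (nat_lit 0) (nat_lit 341375889398) (nat_lit 76) (nat_lit 22312641399) (nat_lit 76) (nat_lit 21206519980) (nat_lit 3) (nat_lit 4) (nat_lit 4) (nat_lit 5) (nat_lit 4) (nat_lit 4) (nat_lit 540) (nat_lit 359) (nat_lit 301)) (XT.lf (nat_lit 0) (nat_lit 377763668658) (nat_lit 76) (nat_lit 13506380032) (nat_lit 76) (nat_lit 12396954726) (nat_lit 3) (nat_lit 4) (nat_lit 4) (nat_lit 5) (nat_lit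 4) (nat_lit 4) (nat_lit 541) (nat_lit 359) (nat_lit 300)))) (XT.nd (nat_lit 156) (nat_lit 0) (nat_lit 0) (XT.nd (nat_lit 78) (nat_lit 152) (nat_lit 0) (XT.lf (nat_lit 0) (nat_lit 415875779959) (nat_lit 76) (nat_lit 4308335976) (nat_lit 76) (nat_lit 3195764112) (nat_lit 3) (nat_lit 4) (nat_lit 4) (nat_lit 5) (nat_lit 4) (nat_lit 4) (nat_lit 542) (nat_lit 359) (nat_lit 299)) (XT.lf (nat_lit 0) (nat_lit 6488483141) (nat_lit 152) (nat_lit 432147336660) (nat_lit 0) (nat_lit 5426036868) (nat_lit 1) (nat_lit 5) (nat_lit 3) (nat_lit 4) (nat_lit 1) (nat_lit 4) (nat_lit 543) (nat_lit 359) (nat_lit 298))) (XT.nd (nat_lit 78) (nat_lit 0) (nat_lit 0) (XT.lf (nat_lit 0) (nat_lit 16704313453) (nat_lit 152) (nat_lit 433424111687) (nat_lit 0) (nat_lit 15639149064) (nat_lit 1) (nat_lit 5) (nat_lit 3) (nat_lit 4) (nat_lit 1) (nat_lit 4) (nat_lit 544) (nat_lit 359) (nat_lit 297)) (XT.lf (nat_lit 0) (nat_lit 27388051405)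 (nat_lit 152) (nat_lit 434852372098) (nat_lit 0) (nat_lit 26320298334) (nat_lit 1) (nat_lit 5) (nat_lit 3) (nat_lit 4) (nat_lit 1) (nat_lit 4) (nat_lit 545) (nat_lit 359) (nat_lit 296))))) (XT.nd (nat_lit 312) (nat_lit 0) (nat_lit 0) (XT.nd (nat_lit 156) (nat_lit 0) (nat_lit 0) (XT.nd (nat_lit 78) (nat_lit 0) (nat_lit 0) (XT.lf (nat_lit 0) (nat_lit 38565134468) (nat_lit 152) (nat_lit 436435518511) (nat_lit 0) (nat_lit 37494915987) (nat_lit 1) (nat_lit 5) (nat_lit 3) (nat_lit 4) (nat_lit 1) (nat_lit 4) (nat_lit 546) (nat_lit 359) (nat_lit 295)) (XT.lf (nat_lit 0) (nat_lit 50262174746) (nat_lit 152) (nat_lit 438177320323) (nat_lit 0) (nat_lit 49189608254) (nat_lit 1) (nat_lit 5) (nat_lit 3) (nat_lit 4) (nat_lit 1) (nat_lit 4) (nat_lit 547) (nat_lit 359) (nat_lit 294))) (XT.nd (nat_lit 78) (nat_lit 0) (nat_lit 0) (XT.lf (nat_lit 0) (nat_lit 62507022333) (nat_lit 152) (nat_lit 440081924682) (nat_lit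 0) (nat_lit 61432219641) (nat_lit 1) (nat_lit 5) (nat_lit 3) (nat_lit 4) (nat_lit 1) (nat_lit 4) (nat_lit 548) (nat_lit 359) (nat_lit 293)) (XT.lf (nat_lit 0) (nat_lit 75328831629) (nat_lit 152) (nat_lit 442153866360) (nat_lit 0) (nat_lit 74251899222) (nat_lit 1) (nat_lit 5) (nat_lit 3) (nat_lit 4) (nat_lit 1) (nat_lit 4) (nat_lit 549) (nat_lit 359) (nat_lit 292)))) (XT.nd (nat_lit 156) (nat_lit 0) (nat_lit 0) (XT.nd (nat_lit 78) (nat_lit 0) (nat_lit 0) (XT.lf (nat_lit 0) (nat_lit 88758130751) (nat_lit 152) (nat_lit 444398078550) (nat_lit 0) (nat_lit 87679170044) (nat_lit 1) (nat_lit 5) (nat_lit 3) (nat_lit 4) (nat_lit 1) (nat_lit 4) (nat_lit 550) (nat_lit 359) (nat_lit 291)) (XT.lf (nat_lit 0) (nat_lit 102826894221) (nat_lit 152) (nat_lit 446819904616) (nat_lit 0) (nat_lit 101746001801) (nat_lit 1) (nat_lit 5) (nat_lit 3) (nat_lit 4) (nat_lit 1) (nat_lit 4) (nat_lit 551) (nat_lit 359) (nat_lit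 290))) (XT.nd (nat_lit 78) (nat_lit 0) (nat_lit 0) (XT.lf (nat_lit 0) (nat_lit 117568619095) (nat_lit 152) (nat_lit 449425110810) (nat_lit 0) (nat_lit 116485886947) (nat_lit 1) (nat_lit 5) (nat_lit 3) (nat_lit 4) (nat_lit 1) (nat_lit 4) (nat_lit 552) (nat_lit 359) (nat_lit 289)) (XT.nd (nat_lit 78) (nat_lit 0) (nat_lit 0) (XT.lf (nat_lit 0) (nat_lit 133018404718) (nat_lit 152) (nat_lit 452219900003) (nat_lit 0) (nat_lit 131933920448) (nat_lit 1) (nat_lit 5) (nat_lit 3) (nat_lit 4) (nat_lit 1) (nat_lit 4) (nat_lit 553) (nat_lit 359) (nat_lit 288)) (XT.lf (nat_lit 0) (nat_lit 149213036294) (nat_lit 152) (nat_lit 455210926457) (nat_lit 0) (nat_lit 148126883337) (nat_lit 1) (nat_lit 5) (nat_lit 3) (nat_lit 4) (nat_lit 1) (nat_lit 4) (nat_lit 554) (nat_lit 359) (nat_lit 287))))))))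
noncomputable def xc45 : XT := (XT.nd (nat_lit 57642) (nat_lit 0) (nat_lit 532) (XT.nd (nat_lit 57018) (nat_lit 0) (nat_lit 1292) (XT.nd (nat_lit 56706) (nat_lit 0) (nat_lit 1748) (XT.nd (nat_lit 156) (nat_lit 0) (nat_lit 0) (XT.nd (nat_lit 78) (nat_lit 0) (nat_lit 0) (XT.lf (nat_lit 0) (nat_lit 166191072468) (nat_lit 152) (nat_lit 458405311662) (nat_lit 0) (nat_lit 165103330286) (nat_lit 1) (nat_lit 5) (nat_lit 3) (nat_lit 4) (nat_lit 1) (nat_lit 4) (nat_lit 555) (nat_lit 359) (nat_lit 286)) (XT.lf (nat_lit 0) (nat_lit 183992937138) (nat_lit 152) (nat_lit 461810661297) (nat_lit 0) (nat_lit 182903681407) (nat_lit 1) (nat_lit 5) (nat_lit 3) (nat_lit 4) (nat_lit 1) (nat_lit 4) (nat_lit 556) (nat_lit 359) (nat_lit 285))) (XT.nd (nat_lit 56472) (nat_lit 0) (nat_lit 2052) (XT.lf (nat_lit 0) (nat_lit 202661015694) (nat_lit 152) (nat_lit 465435083338) (nat_lit 0) (nat_lit 201570318488) (nat_lit 1) (nat_lit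 5) (nat_lit 3) (nat_lit 4) (nat_lit 1) (nat_lit 4) (nat_lit 557) (nat_lit 359) (nat_lit 284)) (XT.lf (nat_lit 0) (nat_lit 3759515705) (nat_lit 152) (nat_lit 8277494008) (nat_lit 0) (nat_lit 3759515705) (nat_lit 28) (nat_lit 5) (nat_lit 30) (nat_lit 4) (nat_lit 28) (nat_lit 4) (nat_lit 480) (nat_lit 360) (nat_lit 360)))) (XT.nd (nat_lit 156) (nat_lit 228) (nat_lit 0) (XT.nd (nat_lit 78) (nat_lit 0) (nat_lit 0) (XT.lf (nat_lit 0) (nat_lit 6580235927) (nat_lit 76) (nat_lit 13044125118) (nat_lit 76) (nat_lit 12957287450) (nat_lit 27) (nat_lit 4) (nat_lit 28) (nat_lit 5) (nat_lit 28) (nat_lit 4) (nat_lit 481) (nat_lit 360) (nat_lit 359)) (XT.lf (nat_lit 0) (nat_lit 30674279529) (nat_lit 76) (nat_lit 1559986074) (nat_lit 76) (nat_lit 1390445865) (nat_lit 27) (nat_lit 4) (nat_lit 28) (nat_lit 5) (nat_lit 28) (nat_lit 4) (nat_lit 482) (nat_lit 360) (nat_lit 358))) (XT.nd (nat_lit 78) (nat_lit 76) (nat_lit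 0) (XT.lf (nat_lit 0) (nat_lit 10535791706) (nat_lit 152) (nat_lit 13870166242) (nat_lit 0) (nat_lit 10299311198) (nat_lit 25) (nat_lit 5) (nat_lit 27) (nat_lit 4) (nat_lit 25) (nat_lit 4) (nat_lit 483) (nat_lit 360) (nat_lit 357)) (XT.lf (nat_lit 0) (nat_lit 9584216078) (nat_lit 76) (nat_lit 13284776378) (nat_lit 76) (nat_lit 12976854305) (nat_lit 24) (nat_lit 4) (nat_lit 25) (nat_lit 5) (nat_lit 25) (nat_lit 4) (nat_lit 484) (nat_lit 360) (nat_lit 356))))) (XT.nd (nat_lit 312) (nat_lit 228) (nat_lit 0) (XT.nd (nat_lit 156) (nat_lit 76) (nat_lit 0) (XT.nd (nat_lit 78) (nat_lit 152) (nat_lit 0) (XT.lf (nat_lit 0) (nat_lit 33956586114) (nat_lit 76) (nat_lit 1734606272) (nat_lit 76) (nat_lit 1358644615) (nat_lit 24) (nat_lit 4) (nat_lit 25) (nat_lit 5) (nat_lit 25) (nat_lit 4) (nat_lit 485) (nat_lit 360) (nat_lit 355)) (XT.lf (nat_lit 0) (nat_lit 10635578061) (nat_lit 152) (nat_lit 17447078114) (nat_lit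 0) (nat_lit 10215805430) (nat_lit 22) (nat_lit 5) (nat_lit 24) (nat_lit 4) (nat_lit 22) (nat_lit 4) (nat_lit 486) (nat_lit 360) (nat_lit 354))) (XT.nd (nat_lit 78) (nat_lit 0) (nat_lit 0) (XT.lf (nat_lit 0) (nat_lit 5918586500) (nat_lit 76) (nat_lit 17088599504) (nat_lit 76) (nat_lit 16610051722) (nat_lit 21) (nat_lit 4) (nat_lit 22) (nat_lit 5) (nat_lit 22) (nat_lit 4) (nat_lit 487) (nat_lit 360) (nat_lit 353)) (XT.lf (nat_lit 0) (nat_lit 30356738279) (nat_lit 76) (nat_lit 5591107742) (nat_lit 76) (nat_lit 5056583624) (nat_lit 21) (nat_lit 4) (nat_lit 22) (nat_lit 5) (nat_lit 22) (nat_lit 4) (nat_lit 488) (nat_lit 360) (nat_lit 352)))) (XT.nd (nat_lit 156) (nat_lit 76) (nat_lit 0) (XT.nd (nat_lit 78) (nat_lit 0) (nat_lit 0) (XT.lf (nat_lit 0) (nat_lit 6821060468) (nat_lit 152) (nat_lit 29374534205) (nat_lit 0) (nat_lit 6261217694) (nat_lit 19) (nat_lit 5) (nat_lit 21) (nat_lit 4) (nat_lit 19)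 (nat_lit 4) (nat_lit 489) (nat_lit 360) (nat_lit 351)) (XT.lf (nat_lit 0) (nat_lit 19063795087) (nat_lit 152) (nat_lit 6461219910) (nat_lit 0) (nat_lit 18455597850) (nat_lit 19) (nat_lit 5) (nat_lit 21) (nat_lit 4) (nat_lit 19) (nat_lit 4) (nat_lit 490) (nat_lit 360) (nat_lit 350))) (XT.nd (nat_lit 78) (nat_lit 0) (nat_lit 0) (XT.lf (nat_lit 0) (nat_lit 17511254952) (nat_lit 76) (nat_lit 14362911489) (nat_lit 76) (nat_lit 13708662383) (nat_lit 18) (nat_lit 4) (nat_lit 19) (nat_lit 5) (nat_lit 19) (nat_lit 4) (nat_lit 491) (nat_lit 360) (nat_lit 349)) (XT.lf (nat_lit 0) (nat_lit 42270132932) (nat_lit 76) (nat_lit 2851647473) (nat_lit 76) (nat_lit 2153539443) (nat_lit 18) (nat_lit 4) (nat_lit 19) (nat_lit 5) (nat_lit 19) (nat_lit 4) (nat_lit 492) (nat_lit 360) (nat_lit 348)))))) (XT.nd (nat_lit 624) (nat_lit 304) (nat_lit 0) (XT.nd (nat_lit 312) (nat_lit 228) (nat_lit 0) (XT.nd (nat_lit 156) (nat_lit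 76) (nat_lit 0) (XT.nd (nat_lit 78) (nat_lit 0) (nat_lit 0) (XT.lf (nat_lit 0) (nat_lit 9801428137) (nat_lit 152) (nat_lit 30139360929) (nat_lit 0) (nat_lit 9096782010) (nat_lit 16) (nat_lit 5) (nat_lit 18) (nat_lit 4) (nat_lit 16) (nat_lit 4) (nat_lit 493) (nat_lit 360) (nat_lit 347)) (XT.lf (nat_lit 0) (nat_lit 22112112822) (nat_lit 152) (nat_lit 7412960438) (nat_lit 0) (nat_lit 21369579709) (nat_lit 16) (nat_lit 5) (nat_lit 18) (nat_lit 4) (nat_lit 16) (nat_lit 4) (nat_lit 494) (nat_lit 360) (nat_lit 346))) (XT.nd (nat_lit 78) (nat_lit 0) (nat_lit 0) (XT.lf (nat_lit 0) (nat_lit 16387237001) (nat_lit 76) (nat_lit 18618791718) (nat_lit 76) (nat_lit 17840175760) (nat_lit 15) (nat_lit 4) (nat_lit 16) (nat_lit 5) (nat_lit 16) (nat_lit 4) (nat_lit 495) (nat_lit 360) (nat_lit 345)) (XT.lf (nat_lit 0) (nat_lit 41057256577) (nat_lit 76) (nat_lit 7329476637) (nat_lit 76) (nat_lit 6516496065) (nat_lit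 15) (nat_lit 4) (nat_lit 16) (nat_lit 5) (nat_lit 16) (nat_lit 4) (nat_lit 496) (nat_lit 360) (nat_lit 344)))) (XT.nd (nat_lit 156) (nat_lit 76) (nat_lit 0) (XT.nd (nat_lit 78) (nat_lit 0) (nat_lit 0) (XT.lf (nat_lit 0) (nat_lit 5146291324) (nat_lit 152) (nat_lit 47574520002) (nat_lit 0) (nat_lit 4340854395) (nat_lit 13) (nat_lit 5) (nat_lit 15) (nat_lit 4) (nat_lit 13) (nat_lit 4) (nat_lit 497) (nat_lit 360) (nat_lit 343)) (XT.lf (nat_lit 0) (nat_lit 17257433564) (nat_lit 152) (nat_lit 25638727521) (nat_lit 0) (nat_lit 16422311190) (nat_lit 13) (nat_lit 5) (nat_lit 15) (nat_lit 4) (nat_lit 13) (nat_lit 4) (nat_lit 498) (nat_lit 360) (nat_lit 342))) (XT.nd (nat_lit 78) (nat_lit 76) (nat_lit 0) (XT.lf (nat_lit 0) (nat_lit 29712918448) (nat_lit 152) (nat_lit 3138737504) (nat_lit 0) (nat_lit 28849524220) (nat_lit 13) (nat_lit 5) (nat_lit 15) (nat_lit 4) (nat_lit 13) (nat_lit 4) (nat_lit 499) (nat_lit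 360) (nat_lit 341)) (XT.lf (nat_lit 0) (nat_lit 20639618132) (nat_lit 76) (nat_lit 22225026040) (nat_lit 76) (nat_lit 21334706238) (nat_lit 12) (nat_lit 4) (nat_lit 13) (nat_lit 5) (nat_lit 13) (nat_lit 4) (nat_lit 500) (nat_lit 360) (nat_lit 340))))) (XT.nd (nat_lit 312) (nat_lit 152) (nat_lit 0) (XT.nd (nat_lit 156) (nat_lit 0) (nat_lit 0) (XT.nd (nat_lit 78) (nat_lit 152) (nat_lit 0) (XT.lf (nat_lit 0) (nat_lit 45216812008) (nat_lit 76) (nat_lit 11265579430) (nat_lit 76) (nat_lit 10349616224) (nat_lit 12) (nat_lit 4) (nat_lit 13) (nat_lit 5) (nat_lit 13) (nat_lit 4) (nat_lit 501) (nat_lit 360) (nat_lit 339)) (XT.lf (nat_lit 0) (nat_lit 925319003) (nat_lit 152) (nat_lit 68651414926) (nat_lit 0) (nat_lit 29713769) (nat_lit 10) (nat_lit 5) (nat_lit 12) (nat_lit 4) (nat_lit 10) (nat_lit 4) (nat_lit 502) (nat_lit 360) (nat_lit 338))) (XT.nd (nat_lit 78) (nat_lit 0) (nat_lit 0) (XT.lf (nat_lit 0)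 (nat_lit 12736120365) (nat_lit 152) (nat_lit 47940646193) (nat_lit 0) (nat_lit 11818363395) (nat_lit 10) (nat_lit 5) (nat_lit 12) (nat_lit 4) (nat_lit 10) (nat_lit 4) (nat_lit 503) (nat_lit 360) (nat_lit 337)) (XT.lf (nat_lit 0) (nat_lit 24911926437) (nat_lit 152) (nat_lit 26654524295) (nat_lit 0) (nat_lit 23973072575) (nat_lit 10) (nat_lit 5) (nat_lit 12) (nat_lit 4) (nat_lit 10) (nat_lit 4) (nat_lit 504) (nat_lit 360) (nat_lit 336)))) (XT.nd (nat_lit 156) (nat_lit 76) (nat_lit 0) (XT.nd (nat_lit 78) (nat_lit 76) (nat_lit 0) (XT.lf (nat_lit 0) (nat_lit 37481727231) (nat_lit 152) (nat_lit 4742367992) (nat_lit 0) (nat_lit 36522781091) (nat_lit 10) (nat_lit 5) (nat_lit 12) (nat_lit 4) (nat_lit 10) (nat_lit 4) (nat_lit 505) (nat_lit 360) (nat_lit 335)) (XT.lf (nat_lit 0) (nat_lit 18438129821) (nat_lit 76) (nat_lit 32325191903) (nat_lit 76) (nat_lit 31347110260) (nat_lit 9) (nat_lit 4) (nat_lit 10)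 (nat_lit 5) (nat_lit 10) (nat_lit 4) (nat_lit 506) (nat_lit 360) (nat_lit 334))) (XT.nd (nat_lit 78) (nat_lit 76) (nat_lit 0) (XT.lf (nat_lit 0) (nat_lit 42531627509) (nat_lit 76) (nat_lit 22056445107) (nat_lit 76) (nat_lit 21060139176) (nat_lit 9) (nat_lit 4) (nat_lit 10) (nat_lit 5) (nat_lit 10) (nat_lit 4) (nat_lit 507) (nat_lit 360) (nat_lit 333)) (XT.nd (nat_lit 78) (nat_lit 76) (nat_lit 0) (XT.lf (nat_lit 0) (nat_lit 67438686441) (nat_lit 76) (nat_lit 11473719735) (nat_lit 76) (nat_lit 10460057338) (nat_lit 9) (nat_lit 4) (nat_lit 10) (nat_lit 5) (nat_lit 10) (nat_lit 4) (nat_lit 508) (nat_lit 360) (nat_lit 332)) (XT.lf (nat_lit 0) (nat_lit 463062601) (nat_lit 152) (nat_lit 80914029) (nat_lit 76) (nat_lit 92747704344) (nat_lit 8) (nat_lit 5) (nat_lit 10) (nat_lit 5) (nat_lit 9) (nat_lit 4) (nat_lit 509) (nat_lit 360) (nat_lit 331))))))))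
noncomputable def xc46 : XT := (XT.nd (nat_lit 1248) (nat_lit 76) (nat_lit 0) (XT.nd (nat_lit 624) (nat_lit 152) (nat_lit 0) (XT.nd (nat_lit 312) (nat_lit 76) (nat_lit 0) (XT.nd (nat_lit 156) (nat_lit 0) (nat_lit 0) (XT.nd (nat_lit 78) (nat_lit 0) (nat_lit 0) (XT.lf (nat_lit 0) (nat_lit 11940855275) (nat_lit 152) (nat_lit 74494701687) (nat_lit 0) (nat_lit 10944726523) (nat_lit 7) (nat_lit 5) (nat_lit 9) (nat_lit 4) (nat_lit 7) (nat_lit 4) (nat_lit 510) (nat_lit 360) (nat_lit 330)) (XT.lf (nat_lit 0) (nat_lit 23826210639) (nat_lit 152) (nat_lit 55039619294) (nat_lit 0) (nat_lit 22815802680) (nat_lit 7) (nat_lit 5) (nat_lit 9) (nat_lit 4) (nat_lit 7) (nat_lit 4) (nat_lit 511) (nat_lit 360) (nat_lit 329))) (XT.nd (nat_lit 78) (nat_lit 0) (nat_lit 0) (XT.lf (nat_lit 0) (nat_lit 36137607700) (nat_lit 152) (nat_lit 34955252444) (nat_lit 0) (nat_lit 35113600497) (nat_lit 7) (nat_lit 5) (nat_lit 9) (nat_lit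 4) (nat_lit 7) (nat_lit 4) (nat_lit 512) (nat_lit 360) (nat_lit 328)) (XT.lf (nat_lit 0) (nat_lit 48904359309) (nat_lit 152) (nat_lit 14193781217) (nat_lit 0) (nat_lit 47867400444) (nat_lit 7) (nat_lit 5) (nat_lit 9) (nat_lit 4) (nat_lit 7) (nat_lit 4) (nat_lit 513) (nat_lit 360) (nat_lit 327)))) (XT.nd (nat_lit 156) (nat_lit 0) (nat_lit 0) (XT.nd (nat_lit 78) (nat_lit 0) (nat_lit 0) (XT.lf (nat_lit 0) (nat_lit 7535406529) (nat_lit 76) (nat_lit 54739104776) (nat_lit 76) (nat_lit 53689810995) (nat_lit 6) (nat_lit 4) (nat_lit 7) (nat_lit 5) (nat_lit 7) (nat_lit 4) (nat_lit 514) (nat_lit 360) (nat_lit 326)) (XT.lf (nat_lit 0) (nat_lit 30537317380) (nat_lit 76) (nat_lit 45866126553) (nat_lit 76) (nat_lit 44805085234) (nat_lit 6) (nat_lit 4) (nat_lit 7) (nat_lit 5) (nat_lit 7) (nat_lit 4) (nat_lit 515) (nat_lit 360) (nat_lit 325))) (XT.nd (nat_lit 78) (nat_lit 0) (nat_lit 0) (XT.lf (nat_lit 0) (nat_lit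 54397407281) (nat_lit 76) (nat_lit 36698458273) (nat_lit 76) (nat_lit 35626228821) (nat_lit 6) (nat_lit 4) (nat_lit 7) (nat_lit 5) (nat_lit 7) (nat_lit 4) (nat_lit 516) (nat_lit 360) (nat_lit 324)) (XT.lf (nat_lit 0) (nat_lit 79172485969) (nat_lit 76) (nat_lit 27214272152) (nat_lit 76) (nat_lit 26131387337) (nat_lit 6) (nat_lit 4) (nat_lit 7) (nat_lit 5) (nat_lit 7) (nat_lit 4) (nat_lit 517) (nat_lit 360) (nat_lit 323))))) (XT.nd (nat_lit 312) (nat_lit 0) (nat_lit 0) (XT.nd (nat_lit 156) (nat_lit 152) (nat_lit 0) (XT.nd (nat_lit 78) (nat_lit 0) (nat_lit 0) (XT.lf (nat_lit 0) (nat_lit 104921541727) (nat_lit 76) (nat_lit 17390986797) (nat_lit 76) (nat_lit 16297954015) (nat_lit 6) (nat_lit 4) (nat_lit 7) (nat_lit 5) (nat_lit 7) (nat_lit 4) (nat_lit 518) (nat_lit 360) (nat_lit 322)) (XT.lf (nat_lit 0) (nat_lit 131705881832) (nat_lit 76) (nat_lit 7205213432) (nat_lit 76) (nat_lit 6102515921) (nat_lit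 6) (nat_lit 4) (nat_lit 7) (nat_lit 5) (nat_lit 7) (nat_lit 4) (nat_lit 519) (nat_lit 360) (nat_lit 321))) (XT.nd (nat_lit 78) (nat_lit 0) (nat_lit 0) (XT.lf (nat_lit 0) (nat_lit 4517043528) (nat_lit 152) (nat_lit 143755087327) (nat_lit 0) (nat_lit 3458089228) (nat_lit 4) (nat_lit 5) (nat_lit 6) (nat_lit 4) (nat_lit 4) (nat_lit 4) (nat_lit 520) (nat_lit 360) (nat_lit 320)) (XT.lf (nat_lit 0) (nat_lit 15690171128) (nat_lit 152) (nat_lit 128453234514) (nat_lit 0) (nat_lit 14622868072) (nat_lit 4) (nat_lit 5) (nat_lit 6) (nat_lit 4) (nat_lit 4) (nat_lit 4) (nat_lit 521) (nat_lit 360) (nat_lit 319)))) (XT.nd (nat_lit 156) (nat_lit 0) (nat_lit 0) (XT.nd (nat_lit 78) (nat_lit 0) (nat_lit 0) (XT.lf (nat_lit 0) (nat_lit 27308135113) (nat_lit 152) (nat_lit 112618805136) (nat_lit 0) (nat_lit 26232880860) (nat_lit 4) (nat_lit 5) (nat_lit 6) (nat_lit 4) (nat_lit 4) (nat_lit 4) (nat_lit 522) (nat_lit 360) (nat_lit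 318)) (XT.lf (nat_lit 0) (nat_lit 39398597300) (nat_lit 152) (nat_lit 96214098171) (nat_lit 0) (nat_lit 38315770479) (nat_lit 4) (nat_lit 5) (nat_lit 6) (nat_lit 4) (nat_lit 4) (nat_lit 4) (nat_lit 523) (nat_lit 360) (nat_lit 317))) (XT.nd (nat_lit 78) (nat_lit 0) (nat_lit 0) (XT.lf (nat_lit 0) (nat_lit 51990344505) (nat_lit 152) (nat_lit 79200054793) (nat_lit 0) (nat_lit 50900305714) (nat_lit 4) (nat_lit 5) (nat_lit 6) (nat_lit 4) (nat_lit 4) (nat_lit 4) (nat_lit 524) (nat_lit 360) (nat_lit 316)) (XT.lf (nat_lit 0) (nat_lit 65113357078) (nat_lit 152) (nat_lit 61536165375) (nat_lit 0) (nat_lit 64016449744) (nat_lit 4) (nat_lit 5) (nat_lit 6) (nat_lit 4) (nat_lit 4) (nat_lit 4) (nat_lit 525) (nat_lit 360) (nat_lit 315)))))) (XT.nd (nat_lit 624) (nat_lit 0) (nat_lit 0) (XT.nd (nat_lit 312) (nat_lit 0) (nat_lit 0) (XT.nd (nat_lit 156) (nat_lit 76) (nat_lit 0) (XT.nd (nat_lit 78) (nat_lit 0) (nat_lit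 0) (XT.lf (nat_lit 0) (nat_lit 78798880287) (nat_lit 152) (nat_lit 43180373037) (nat_lit 0) (nat_lit 77695431484) (nat_lit 4) (nat_lit 5) (nat_lit 6) (nat_lit 4) (nat_lit 4) (nat_lit 4) (nat_lit 526) (nat_lit 360) (nat_lit 314)) (XT.lf (nat_lit 0) (nat_lit 93079498712) (nat_lit 152) (nat_lit 24088973512) (nat_lit 0) (nat_lit 91969819938) (nat_lit 4) (nat_lit 5) (nat_lit 6) (nat_lit 4) (nat_lit 4) (nat_lit 4) (nat_lit 527) (nat_lit 360) (nat_lit 313))) (XT.nd (nat_lit 78) (nat_lit 76) (nat_lit 0) (XT.lf (nat_lit 0) (nat_lit 107989213824) (nat_lit 152) (nat_lit 4216511087) (nat_lit 0) (nat_lit 106873601745) (nat_lit 4) (nat_lit 5) (nat_lit 6) (nat_lit 4) (nat_lit 4) (nat_lit 4) (nat_lit 528) (nat_lit 360) (nat_lit 312)) (XT.lf (nat_lit 0) (nat_lit 17029376007) (nat_lit 76) (nat_lit 106800025222) (nat_lit 76) (nat_lit 105678762376) (nat_lit 3) (nat_lit 4) (nat_lit 4) (nat_lit 5) (nat_lit 4) (nat_lit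 4) (nat_lit 529) (nat_lit 360) (nat_lit 311)))) (XT.nd (nat_lit 156) (nat_lit 0) (nat_lit 0) (XT.nd (nat_lit 78) (nat_lit 0) (nat_lit 0) (XT.lf (nat_lit 0) (nat_lit 39321365606) (nat_lit 76) (nat_lit 101132064879) (nat_lit 76) (nat_lit 100005420350) (nat_lit 3) (nat_lit 4) (nat_lit 4) (nat_lit 5) (nat_lit 4) (nat_lit 4) (nat_lit 530) (nat_lit 360) (nat_lit 310)) (XT.lf (nat_lit 0) (nat_lit 62573116975) (nat_lit 76) (nat_lit 95259757393) (nat_lit 76) (nat_lit 94127987451) (nat_lit 3) (nat_lit 4) (nat_lit 4) (nat_lit 5) (nat_lit 4) (nat_lit 4) (nat_lit 531) (nat_lit 360) (nat_lit 309))) (XT.nd (nat_lit 78) (nat_lit 0) (nat_lit 0) (XT.lf (nat_lit 0) (nat_lit 86839991428) (nat_lit 76) (nat_lit 89169121079) (nat_lit 76) (nat_lit 88032469793) (nat_lit 3) (nat_lit 4) (nat_lit 4) (nat_lit 5) (nat_lit 4) (nat_lit 4) (nat_lit 532) (nat_lit 360) (nat_lit 308)) (XT.lf (nat_lit 0) (nat_lit 112179767236) (nat_lit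 76) (nat_lit 82845654424) (nat_lit 76) (nat_lit 81704354238) (nat_lit 3) (nat_lit 4) (nat_lit 4) (nat_lit 5) (nat_lit 4) (nat_lit 4) (nat_lit 533) (nat_lit 360) (nat_lit 307))))) (XT.nd (nat_lit 312) (nat_lit 0) (nat_lit 0) (XT.nd (nat_lit 156) (nat_lit 0) (nat_lit 0) (XT.nd (nat_lit 78) (nat_lit 0) (nat_lit 0) (XT.lf (nat_lit 0) (nat_lit 138652777200) (nat_lit 76) (nat_lit 76274301554) (nat_lit 76) (nat_lit 75128573843) (nat_lit 3) (nat_lit 4) (nat_lit 4) (nat_lit 5) (nat_lit 4) (nat_lit 4) (nat_lit 534) (nat_lit 360) (nat_lit 306)) (XT.lf (nat_lit 0) (nat_lit 166322052295) (nat_lit 76) (nat_lit 69439416390) (nat_lit 76) (nat_lit 68289471990) (nat_lit 3) (nat_lit 4) (nat_lit 4) (nat_lit 5) (nat_lit 4) (nat_lit 4) (nat_lit 535) (nat_lit 360) (nat_lit 305))) (XT.nd (nat_lit 78) (nat_lit 0) (nat_lit 0) (XT.lf (nat_lit 0) (nat_lit 195253471747) (nat_lit 76) (nat_lit 62324725396) (nat_lit 76) (nat_lit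 61170765102) (nat_lit 3) (nat_lit 4) (nat_lit 4) (nat_lit 5) (nat_lit 4) (nat_lit 4) (nat_lit 536) (nat_lit 360) (nat_lit 304)) (XT.lf (nat_lit 0) (nat_lit 225515919890) (nat_lit 76) (nat_lit 54913288833) (nat_lit 76) (nat_lit 53755503877) (nat_lit 3) (nat_lit 4) (nat_lit 4) (nat_lit 5) (nat_lit 4) (nat_lit 4) (nat_lit 537) (nat_lit 360) (nat_lit 303)))) (XT.nd (nat_lit 156) (nat_lit 0) (nat_lit 0) (XT.nd (nat_lit 78) (nat_lit 0) (nat_lit 0) (XT.lf (nat_lit 0) (nat_lit 257181450170) (nat_lit 76) (nat_lit 47187460422) (nat_lit 76) (nat_lit 46026032932) (nat_lit 3) (nat_lit 4) (nat_lit 4) (nat_lit 5) (nat_lit 4) (nat_lit 4) (nat_lit 538) (nat_lit 360) (nat_lit 302)) (XT.lf (nat_lit 0) (nat_lit 290325456708) (nat_lit 76) (nat_lit 39128845334) (nat_lit 76) (nat_lit 37963948763) (nat_lit 3) (nat_lit 4) (nat_lit 4) (nat_lit 5) (nat_lit 4) (nat_lit 4) (nat_lit 539) (nat_lit 360) (nat_lit 301))) (XT.nd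 (nat_lit 78) (nat_lit 0) (nat_lit 0) (XT.lf (nat_lit 0) (nat_lit 325026853805) (nat_lit 76) (nat_lit 30718256391) (nat_lit 76) (nat_lit 29550055933) (nat_lit 3) (nat_lit 4) (nat_lit 4) (nat_lit 5) (nat_lit 4) (nat_lit 4) (nat_lit 540) (nat_lit 360) (nat_lit 300)) (XT.nd (nat_lit 78) (nat_lit 0) (nat_lit 0) (XT.lf (nat_lit 0) (nat_lit 361368263834) (nat_lit 76) (nat_lit 21935668380) (nat_lit 76) (nat_lit 20764321363) (nat_lit 3) (nat_lit 4) (nat_lit 4) (nat_lit 5) (nat_lit 4) (nat_lit 4) (nat_lit 541) (nat_lit 360) (nat_lit 299)) (XT.lf (nat_lit 0) (nat_lit 399436213964) (nat_lit 76) (nat_lit 12760170377) (nat_lit 76) (nat_lit 11585826638) (nat_lit 3) (nat_lit 4) (nat_lit 4) (nat_lit 5) (nat_lit 4) (nat_lit 4) (nat_lit 542) (nat_lit 360) (nat_lit 298))))))))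
noncomputable def xc47 : XT := (XT.nd (nat_lit 57486) (nat_lit 0) (nat_lit 1064) (XT.nd (nat_lit 624) (nat_lit 0) (nat_lit 0) (XT.nd (nat_lit 312) (nat_lit 0) (nat_lit 0) (XT.nd (nat_lit 156) (nat_lit 0) (nat_lit 0) (XT.nd (nat_lit 78) (nat_lit 152) (nat_lit 0) (XT.lf (nat_lit 0) (nat_lit 439321342169) (nat_lit 76) (nat_lit 3169915959) (nat_lit 76) (nat_lit 1992718199) (nat_lit 3) (nat_lit 4) (nat_lit 4) (nat_lit 5) (nat_lit 4) (nat_lit 4) (nat_lit 543) (nat_lit 360) (nat_lit 297)) (XT.lf (nat_lit 0) (nat_lit 8131847957) (nat_lit 152) (nat_lit 451059035143) (nat_lit 0) (nat_lit 7008118551) (nat_lit 1) (nat_lit 5) (nat_lit 3) (nat_lit 4) (nat_lit 1) (nat_lit 4) (nat_lit 544) (nat_lit 360) (nat_lit 296))) (XT.nd (nat_lit 78) (nat_lit 0) (nat_lit 0) (XT.lf (nat_lit 0) (nat_lit 18795663086) (nat_lit 152) (nat_lit 452528014081) (nat_lit 0) (nat_lit 17669468270) (nat_lit 1) (nat_lit 5) (nat_lit 3) (nat_lit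 4) (nat_lit 1) (nat_lit 4) (nat_lit 545) (nat_lit 360) (nat_lit 295)) (XT.lf (nat_lit 0) (nat_lit 29953772033) (nat_lit 152) (nat_lit 454149940045) (nat_lit 0) (nat_lit 28825229206) (nat_lit 1) (nat_lit 5) (nat_lit 3) (nat_lit 4) (nat_lit 1) (nat_lit 4) (nat_lit 546) (nat_lit 360) (nat_lit 294)))) (XT.nd (nat_lit 156) (nat_lit 0) (nat_lit 0) (XT.nd (nat_lit 78) (nat_lit 0) (nat_lit 0) (XT.lf (nat_lit 0) (nat_lit 41632741723) (nat_lit 152) (nat_lit 455928674763) (nat_lit 0) (nat_lit 40501962696) (nat_lit 1) (nat_lit 5) (nat_lit 3) (nat_lit 4) (nat_lit 1) (nat_lit 4) (nat_lit 547) (nat_lit 360) (nat_lit 293)) (XT.lf (nat_lit 0) (nat_lit 53860379227) (nat_lit 152) (nat_lit 457868453317) (nat_lit 0) (nat_lit 52727470485) (nat_lit 1) (nat_lit 5) (nat_lit 3) (nat_lit 4) (nat_lit 1) (nat_lit 4) (nat_lit 548) (nat_lit 360) (nat_lit 292))) (XT.nd (nat_lit 78) (nat_lit 0) (nat_lit 0) (XT.lf (nat_lit 0) (nat_lit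 66665797967) (nat_lit 152) (nat_lit 459973894228) (nat_lit 0) (nat_lit 65530860926) (nat_lit 1) (nat_lit 5) (nat_lit 3) (nat_lit 4) (nat_lit 1) (nat_lit 4) (nat_lit 549) (nat_lit 360) (nat_lit 291)) (XT.lf (nat_lit 0) (nat_lit 80079487037) (nat_lit 152) (nat_lit 462250010450) (nat_lit 0) (nat_lit 78942618281) (nat_lit 1) (nat_lit 5) (nat_lit 3) (nat_lit 4) (nat_lit 1) (nat_lit 4) (nat_lit 550) (nat_lit 360) (nat_lit 290))))) (XT.nd (nat_lit 312) (nat_lit 0) (nat_lit 0) (XT.nd (nat_lit 156) (nat_lit 0) (nat_lit 0) (XT.nd (nat_lit 78) (nat_lit 0) (nat_lit 0) (XT.lf (nat_lit 0) (nat_lit 94133383790) (nat_lit 152) (nat_lit 464702221309) (nat_lit 0) (nat_lit 92994675307) (nat_lit 1) (nat_lit 5) (nat_lit 3) (nat_lit 4) (nat_lit 1) (nat_lit 4) (nat_lit 551) (nat_lit 360) (nat_lit 289)) (XT.lf (nat_lit 0) (nat_lit 108860949886) (nat_lit 152) (nat_lit 467336365400) (nat_lit 0) (nat_lit 107720489282) (nat_lit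 1) (nat_lit 5) (nat_lit 3) (nat_lit 4) (nat_lit 1) (nat_lit 4) (nat_lit 552) (nat_lit 360) (nat_lit 288))) (XT.nd (nat_lit 78) (nat_lit 0) (nat_lit 0) (XT.lf (nat_lit 0) (nat_lit 124297250959) (nat_lit 152) (nat_lit 470158714497) (nat_lit 0) (nat_lit 123155121667) (nat_lit 1) (nat_lit 5) (nat_lit 3) (nat_lit 4) (nat_lit 1) (nat_lit 4) (nat_lit 553) (nat_lit 360) (nat_lit 287)) (XT.lf (nat_lit 0) (nat_lit 140479040105) (nat_lit 152) (nat_lit 473175988476) (nat_lit 0) (nat_lit 139335321587) (nat_lit 1) (nat_lit 5) (nat_lit 3) (nat_lit 4) (nat_lit 1) (nat_lit 4) (nat_lit 554) (nat_lit 360) (nat_lit 286)))) (XT.nd (nat_lit 156) (nat_lit 0) (nat_lit 0) (XT.nd (nat_lit 78) (nat_lit 0) (nat_lit 0) (XT.lf (nat_lit 0) (nat_lit 157444845395) (nat_lit 152) (nat_lit 476395371325) (nat_lit 0) (nat_lit 156299613329) (nat_lit 1) (nat_lit 5) (nat_lit 3) (nat_lit 4) (nat_lit 1) (nat_lit 4) (nat_lit 555) (nat_lit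 360) (nat_lit 285)) (XT.lf (nat_lit 0) (nat_lit 175235061603) (nat_lit 152) (nat_lit 479824528241) (nat_lit 0) (nat_lit 174088388062) (nat_lit 1) (nat_lit 5) (nat_lit 3) (nat_lit 4) (nat_lit 1) (nat_lit 4) (nat_lit 556) (nat_lit 360) (nat_lit 284))) (XT.nd (nat_lit 56316) (nat_lit 0) (nat_lit 2280) (XT.lf (nat_lit 0) (nat_lit 193892046386) (nat_lit 152) (nat_lit 483471623882) (nat_lit 0) (nat_lit 192744000012) (nat_lit 1) (nat_lit 5) (nat_lit 3) (nat_lit 4) (nat_lit 1) (nat_lit 4) (nat_lit 557) (nat_lit 360) (nat_lit 283)) (XT.lf (nat_lit 0) (nat_lit 7195977105) (nat_lit 152) (nat_lit 478452764) (nat_lit 0) (nat_lit 7195977105) (nat_lit 31) (nat_lit 5) (nat_lit 33) (nat_lit 4) (nat_lit 31) (nat_lit 4) (nat_lit 478) (nat_lit 361) (nat_lit 361)))))) (XT.nd (nat_lit 624) (nat_lit 532) (nat_lit 0) (XT.nd (nat_lit 312) (nat_lit 380) (nat_lit 0) (XT.nd (nat_lit 156) (nat_lit 76) (nat_lit 0) (XT.nd (nat_lit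 78) (nat_lit 152) (nat_lit 0) (XT.lf (nat_lit 0) (nat_lit 22317546936) (nat_lit 76) (nat_lit 4214970951) (nat_lit 76) (nat_lit 4119232422) (nat_lit 30) (nat_lit 4) (nat_lit 31) (nat_lit 5) (nat_lit 31) (nat_lit 4) (nat_lit 479) (nat_lit 361) (nat_lit 360)) (XT.lf (nat_lit 0) (nat_lit 7421213837) (nat_lit 152) (nat_lit 16938090672) (nat_lit 0) (nat_lit 7243196618) (nat_lit 28) (nat_lit 5) (nat_lit 30) (nat_lit 4) (nat_lit 28) (nat_lit 4) (nat_lit 480) (nat_lit 361) (nat_lit 359))) (XT.nd (nat_lit 78) (nat_lit 0) (nat_lit 0) (XT.lf (nat_lit 0) (nat_lit 5807542586) (nat_lit 76) (nat_lit 13526939718) (nat_lit 76) (nat_lit 13266219958) (nat_lit 27) (nat_lit 4) (nat_lit 28) (nat_lit 5) (nat_lit 28) (nat_lit 4) (nat_lit 481) (nat_lit 361) (nat_lit 358)) (XT.lf (nat_lit 0) (nat_lit 29542611348) (nat_lit 76) (nat_lit 2224744947) (nat_lit 76) (nat_lit 1885260862) (nat_lit 27) (nat_lit 4) (nat_lit 28) (nat_lit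 5) (nat_lit 28) (nat_lit 4) (nat_lit 482) (nat_lit 361) (nat_lit 357)))) (XT.nd (nat_lit 156) (nat_lit 152) (nat_lit 0) (XT.nd (nat_lit 78) (nat_lit 76) (nat_lit 0) (XT.lf (nat_lit 0) (nat_lit 9847612679) (nat_lit 152) (nat_lit 15443555907) (nat_lit 0) (nat_lit 9452852939) (nat_lit 25) (nat_lit 5) (nat_lit 27) (nat_lit 4) (nat_lit 25) (nat_lit 4) (nat_lit 483) (nat_lit 361) (nat_lit 356)) (XT.lf (nat_lit 0) (nat_lit 7599645848) (nat_lit 76) (nat_lit 14378932360) (nat_lit 76) (nat_lit 13916133035) (nat_lit 24) (nat_lit 4) (nat_lit 25) (nat_lit 5) (nat_lit 25) (nat_lit 4) (nat_lit 484) (nat_lit 361) (nat_lit 355))) (XT.nd (nat_lit 78) (nat_lit 152) (nat_lit 0) (XT.lf (nat_lit 0) (nat_lit 31629961411) (nat_lit 76) (nat_lit 3002380567) (nat_lit 76) (nat_lit 2474781637) (nat_lit 24) (nat_lit 4) (nat_lit 25) (nat_lit 5) (nat_lit 25) (nat_lit 4) (nat_lit 485) (nat_lit 361) (nat_lit 354)) (XT.lf (nat_lit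 0) (nat_lit 9325191409) (nat_lit 152) (nat_lit 20278985970) (nat_lit 0) (nat_lit 8763941086) (nat_lit 22) (nat_lit 5) (nat_lit 24) (nat_lit 4) (nat_lit 22) (nat_lit 4) (nat_lit 486) (nat_lit 361) (nat_lit 353))))) (XT.nd (nat_lit 312) (nat_lit 304) (nat_lit 0) (XT.nd (nat_lit 156) (nat_lit 152) (nat_lit 0) (XT.nd (nat_lit 78) (nat_lit 0) (nat_lit 0) (XT.lf (nat_lit 0) (nat_lit 2650838482) (nat_lit 76) (nat_lit 18831990774) (nat_lit 76) (nat_lit 18214764115) (nat_lit 21) (nat_lit 4) (nat_lit 22) (nat_lit 5) (nat_lit 22) (nat_lit 4) (nat_lit 487) (nat_lit 361) (nat_lit 352)) (XT.lf (nat_lit 0) (nat_lit 26763081214) (nat_lit 76) (nat_lit 7500127902) (nat_lit 76) (nat_lit 6829590449) (nat_lit 21) (nat_lit 4) (nat_lit 22) (nat_lit 5) (nat_lit 22) (nat_lit 4) (nat_lit 488) (nat_lit 361) (nat_lit 351))) (XT.nd (nat_lit 78) (nat_lit 0) (nat_lit 0) (XT.lf (nat_lit 0) (nat_lit 4851807975) (nat_lit 152) (nat_lit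 33542561869) (nat_lit 0) (nat_lit 4164846414) (nat_lit 19) (nat_lit 5) (nat_lit 21) (nat_lit 4) (nat_lit 19) (nat_lit 4) (nat_lit 489) (nat_lit 361) (nat_lit 350)) (XT.lf (nat_lit 0) (nat_lit 16939469540) (nat_lit 152) (nat_lit 10944844972) (nat_lit 0) (nat_lit 16206456109) (nat_lit 19) (nat_lit 5) (nat_lit 21) (nat_lit 4) (nat_lit 19) (nat_lit 4) (nat_lit 490) (nat_lit 361) (nat_lit 349)))) (XT.nd (nat_lit 156) (nat_lit 228) (nat_lit 0) (XT.nd (nat_lit 78) (nat_lit 0) (nat_lit 0) (XT.lf (nat_lit 0) (nat_lit 12568873879) (nat_lit 76) (nat_lit 16956113973) (nat_lit 76) (nat_lit 16179241619) (nat_lit 18) (nat_lit 4) (nat_lit 19) (nat_lit 5) (nat_lit 19) (nat_lit 4) (nat_lit 491) (nat_lit 361) (nat_lit 348)) (XT.lf (nat_lit 0) (nat_lit 37032030795) (nat_lit 76) (nat_lit 5595298155) (nat_lit 76) (nat_lit 4776655398) (nat_lit 18) (nat_lit 4) (nat_lit 19) (nat_lit 5) (nat_lit 19) (nat_lit 4) (nat_lit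 492) (nat_lit 361) (nat_lit 347))) (XT.nd (nat_lit 78) (nat_lit 76) (nat_lit 0) (XT.lf (nat_lit 0) (nat_lit 6983861489) (nat_lit 152) (nat_lit 36032027592) (nat_lit 0) (nat_lit 6166314733) (nat_lit 16) (nat_lit 5) (nat_lit 18) (nat_lit 4) (nat_lit 16) (nat_lit 4) (nat_lit 493) (nat_lit 361) (nat_lit 346)) (XT.nd (nat_lit 78) (nat_lit 76) (nat_lit 0) (XT.lf (nat_lit 0) (nat_lit 19153983386) (nat_lit 152) (nat_lit 13591976857) (nat_lit 0) (nat_lit 18300353786) (nat_lit 16) (nat_lit 5) (nat_lit 18) (nat_lit 4) (nat_lit 16) (nat_lit 4) (nat_lit 494) (nat_lit 361) (nat_lit 345)) (XT.lf (nat_lit 0) (nat_lit 9722183183) (nat_lit 76) (nat_lit 22087786609) (nat_lit 76) (nat_lit 21199792394) (nat_lit 15) (nat_lit 4) (nat_lit 16) (nat_lit 5) (nat_lit 16) (nat_lit 4) (nat_lit 495) (nat_lit 361) (nat_lit 344))))))))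
noncomputable def xc48 : XT := (XT.nd (nat_lit 1248) (nat_lit 228) (nat_lit 0) (XT.nd (nat_lit 624) (nat_lit 228) (nat_lit 0) (XT.nd (nat_lit 312) (nat_lit 228) (nat_lit 0) (XT.nd (nat_lit 156) (nat_lit 0) (nat_lit 0) (XT.nd (nat_lit 78) (nat_lit 152) (nat_lit 0) (XT.lf (nat_lit 0) (nat_lit 34123887319) (nat_lit 76) (nat_lit 10935103218) (nat_lit 76) (nat_lit 10014380800) (nat_lit 15) (nat_lit 4) (nat_lit 16) (nat_lit 5) (nat_lit 16) (nat_lit 4) (nat_lit 496) (nat_lit 361) (nat_lit 343)) (XT.lf (nat_lit 0) (nat_lit 1453823028) (nat_lit 152) (nat_lit 55248783285) (nat_lit 0) (nat_lit 547259089) (nat_lit 13) (nat_lit 5) (nat_lit 15) (nat_lit 4) (nat_lit 13) (nat_lit 4) (nat_lit 497) (nat_lit 361) (nat_lit 342))) (XT.nd (nat_lit 78) (nat_lit 0) (nat_lit 0) (XT.lf (nat_lit 0) (nat_lit 13437543576) (nat_lit 152) (nat_lit 33572791823) (nat_lit 0) (nat_lit 12502707784) (nat_lit 13) (nat_lit 5) (nat_lit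 15) (nat_lit 4) (nat_lit 13) (nat_lit 4) (nat_lit 498) (nat_lit 361) (nat_lit 341)) (XT.lf (nat_lit 0) (nat_lit 25771674467) (nat_lit 152) (nat_lit 11320231346) (nat_lit 0) (nat_lit 24809913101) (nat_lit 13) (nat_lit 5) (nat_lit 15) (nat_lit 4) (nat_lit 13) (nat_lit 4) (nat_lit 499) (nat_lit 361) (nat_lit 340)))) (XT.nd (nat_lit 156) (nat_lit 152) (nat_lit 0) (XT.nd (nat_lit 78) (nat_lit 0) (nat_lit 0) (XT.lf (nat_lit 0) (nat_lit 11944168413) (nat_lit 76) (nat_lit 26727896208) (nat_lit 76) (nat_lit 25740491438) (nat_lit 12) (nat_lit 4) (nat_lit 13) (nat_lit 5) (nat_lit 13) (nat_lit 4) (nat_lit 500) (nat_lit 361) (nat_lit 339)) (XT.lf (nat_lit 0) (nat_lit 36289515869) (nat_lit 76) (nat_lit 15886604598) (nat_lit 76) (nat_lit 14874777538) (nat_lit 12) (nat_lit 4) (nat_lit 13) (nat_lit 5) (nat_lit 13) (nat_lit 4) (nat_lit 501) (nat_lit 361) (nat_lit 338))) (XT.nd (nat_lit 78) (nat_lit 152) (nat_lit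 0) (XT.lf (nat_lit 0) (nat_lit 61399478161) (nat_lit 76) (nat_lit 4733931978) (nat_lit 76) (nat_lit 3698845595) (nat_lit 12) (nat_lit 4) (nat_lit 13) (nat_lit 5) (nat_lit 13) (nat_lit 4) (nat_lit 502) (nat_lit 361) (nat_lit 337)) (XT.lf (nat_lit 0) (nat_lit 7908172477) (nat_lit 152) (nat_lit 57930482528) (nat_lit 0) (nat_lit 6901279030) (nat_lit 10) (nat_lit 5) (nat_lit 12) (nat_lit 4) (nat_lit 10) (nat_lit 4) (nat_lit 503) (nat_lit 361) (nat_lit 336))))) (XT.nd (nat_lit 312) (nat_lit 152) (nat_lit 0) (XT.nd (nat_lit 156) (nat_lit 76) (nat_lit 0) (XT.nd (nat_lit 78) (nat_lit 0) (nat_lit 0) (XT.lf (nat_lit 0) (nat_lit 19979200216) (nat_lit 152) (nat_lit 36858151699) (nat_lit 0) (nat_lit 18952214491) (nat_lit 10) (nat_lit 5) (nat_lit 12) (nat_lit 4) (nat_lit 10) (nat_lit 4) (nat_lit 504) (nat_lit 361) (nat_lit 335)) (XT.lf (nat_lit 0) (nat_lit 32449212123) (nat_lit 152) (nat_lit 15149605935) (nat_lit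 0) (nat_lit 31403090895) (nat_lit 10) (nat_lit 5) (nat_lit 12) (nat_lit 4) (nat_lit 10) (nat_lit 4) (nat_lit 505) (nat_lit 361) (nat_lit 334))) (XT.nd (nat_lit 78) (nat_lit 0) (nat_lit 0) (XT.lf (nat_lit 0) (nat_lit 7486455091) (nat_lit 76) (nat_lit 37978328155) (nat_lit 76) (nat_lit 36913982638) (nat_lit 9) (nat_lit 4) (nat_lit 10) (nat_lit 5) (nat_lit 10) (nat_lit 4) (nat_lit 506) (nat_lit 361) (nat_lit 333)) (XT.lf (nat_lit 0) (nat_lit 31389165637) (nat_lit 76) (nat_lit 27806878317) (nat_lit 76) (nat_lit 26725176335) (nat_lit 9) (nat_lit 4) (nat_lit 10) (nat_lit 5) (nat_lit 10) (nat_lit 4) (nat_lit 507) (nat_lit 361) (nat_lit 332)))) (XT.nd (nat_lit 156) (nat_lit 152) (nat_lit 0) (XT.nd (nat_lit 78) (nat_lit 0) (nat_lit 0) (XT.lf (nat_lit 0) (nat_lit 56114522528) (nat_lit 76) (nat_lit 17316816713) (nat_lit 76) (nat_lit 16218584764) (nat_lit 9) (nat_lit 4) (nat_lit 10) (nat_lit 5) (nat_lit 10)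 (nat_lit 4) (nat_lit 508) (nat_lit 361) (nat_lit 331)) (XT.lf (nat_lit 0) (nat_lit 81721395661) (nat_lit 76) (nat_lit 6483167008) (nat_lit 76) (nat_lit 5369192233) (nat_lit 9) (nat_lit 4) (nat_lit 10) (nat_lit 5) (nat_lit 10) (nat_lit 4) (nat_lit 509) (nat_lit 361) (nat_lit 330))) (XT.nd (nat_lit 78) (nat_lit 0) (nat_lit 0) (XT.lf (nat_lit 0) (nat_lit 5908581630) (nat_lit 152) (nat_lit 86943186516) (nat_lit 0) (nat_lit 4833374067) (nat_lit 7) (nat_lit 5) (nat_lit 9) (nat_lit 4) (nat_lit 7) (nat_lit 4) (nat_lit 510) (nat_lit 361) (nat_lit 329)) (XT.lf (nat_lit 0) (nat_lit 17711875497) (nat_lit 152) (nat_lit 67655650301) (nat_lit 0) (nat_lit 16623068689) (nat_lit 7) (nat_lit 5) (nat_lit 9) (nat_lit 4) (nat_lit 7) (nat_lit 4) (nat_lit 511) (nat_lit 361) (nat_lit 328)))))) (XT.nd (nat_lit 624) (nat_lit 152) (nat_lit 0) (XT.nd (nat_lit 312) (nat_lit 0) (nat_lit 0) (XT.nd (nat_lit 156) (nat_lit 76) (nat_lit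 0) (XT.nd (nat_lit 78) (nat_lit 0) (nat_lit 0) (XT.lf (nat_lit 0) (nat_lit 29945118750) (nat_lit 152) (nat_lit 47730851239) (nat_lit 0) (nat_lit 28843360280) (nat_lit 7) (nat_lit 5) (nat_lit 9) (nat_lit 4) (nat_lit 7) (nat_lit 4) (nat_lit 512) (nat_lit 361) (nat_lit 327)) (XT.lf (nat_lit 0) (nat_lit 42637438161) (nat_lit 152) (nat_lit 27121349333) (nat_lit 0) (nat_lit 41523344775) (nat_lit 7) (nat_lit 5) (nat_lit 9) (nat_lit 4) (nat_lit 7) (nat_lit 4) (nat_lit 513) (nat_lit 361) (nat_lit 326))) (XT.nd (nat_lit 78) (nat_lit 76) (nat_lit 0) (XT.lf (nat_lit 0) (nat_lit 55819053536) (nat_lit 152) (nat_lit 5778074342) (nat_lit 0) (nat_lit 54693212612) (nat_lit 7) (nat_lit 5) (nat_lit 9) (nat_lit 4) (nat_lit 7) (nat_lit 4) (nat_lit 514) (nat_lit 361) (nat_lit 325)) (XT.lf (nat_lit 0) (nat_lit 16890388987) (nat_lit 76) (nat_lit 52894666996) (nat_lit 76) (nat_lit 51757637939) (nat_lit 6) (nat_lit 4) (nat_lit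 7) (nat_lit 5) (nat_lit 7) (nat_lit 4) (nat_lit 515) (nat_lit 361) (nat_lit 324)))) (XT.nd (nat_lit 156) (nat_lit 0) (nat_lit 0) (XT.nd (nat_lit 78) (nat_lit 0) (nat_lit 0) (XT.lf (nat_lit 0) (nat_lit 40614861469) (nat_lit 76) (nat_lit 43796201435) (nat_lit 76) (nat_lit 42648517014) (nat_lit 6) (nat_lit 4) (nat_lit 7) (nat_lit 5) (nat_lit 7) (nat_lit 4) (nat_lit 516) (nat_lit 361) (nat_lit 323)) (XT.lf (nat_lit 0) (nat_lit 65260780711) (nat_lit 76) (nat_lit 34377922666) (nat_lit 76) (nat_lit 33220090280) (nat_lit 6) (nat_lit 4) (nat_lit 7) (nat_lit 5) (nat_lit 7) (nat_lit 4) (nat_lit 517) (nat_lit 361) (nat_lit 322))) (XT.nd (nat_lit 78) (nat_lit 0) (nat_lit 0) (XT.lf (nat_lit 0) (nat_lit 90886827474) (nat_lit 76) (nat_lit 24617406217) (nat_lit 76) (nat_lit 23449909101) (nat_lit 6) (nat_lit 4) (nat_lit 7) (nat_lit 5) (nat_lit 7) (nat_lit 4) (nat_lit 518) (nat_lit 361) (nat_lit 321)) (XT.lf (nat_lit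 0) (nat_lit 117554016153) (nat_lit 76) (nat_lit 14491412762) (nat_lit 76) (nat_lit 13314711143) (nat_lit 6) (nat_lit 4) (nat_lit 7) (nat_lit 5) (nat_lit 7) (nat_lit 4) (nat_lit 519) (nat_lit 361) (nat_lit 320))))) (XT.nd (nat_lit 312) (nat_lit 0) (nat_lit 0) (XT.nd (nat_lit 156) (nat_lit 0) (nat_lit 0) (XT.nd (nat_lit 78) (nat_lit 152) (nat_lit 0) (XT.lf (nat_lit 0) (nat_lit 145325840056) (nat_lit 76) (nat_lit 3975832794) (nat_lit 76) (nat_lit 2790364980) (nat_lit 6) (nat_lit 4) (nat_lit 7) (nat_lit 5) (nat_lit 7) (nat_lit 4) (nat_lit 520) (nat_lit 361) (nat_lit 319)) (XT.lf (nat_lit 0) (nat_lit 8243554608) (nat_lit 152) (nat_lit 143791554574) (nat_lit 0) (nat_lit 7106586446) (nat_lit 4) (nat_lit 5) (nat_lit 6) (nat_lit 4) (nat_lit 4) (nat_lit 4) (nat_lit 521) (nat_lit 361) (nat_lit 318))) (XT.nd (nat_lit 78) (nat_lit 0) (nat_lit 0) (XT.lf (nat_lit 0) (nat_lit 19808640546) (nat_lit 152) (nat_lit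 128065146602) (nat_lit 0) (nat_lit 18664099815) (nat_lit 4) (nat_lit 5) (nat_lit 6) (nat_lit 4) (nat_lit 4) (nat_lit 4) (nat_lit 522) (nat_lit 361) (nat_lit 317)) (XT.lf (nat_lit 0) (nat_lit 31848742688) (nat_lit 152) (nat_lit 111763317166) (nat_lit 0) (nat_lit 30696989988) (nat_lit 4) (nat_lit 5) (nat_lit 6) (nat_lit 4) (nat_lit 4) (nat_lit 4) (nat_lit 523) (nat_lit 361) (nat_lit 316)))) (XT.nd (nat_lit 156) (nat_lit 0) (nat_lit 0) (XT.nd (nat_lit 78) (nat_lit 0) (nat_lit 0) (XT.lf (nat_lit 0) (nat_lit 44392527946) (nat_lit 152) (nat_lit 94847252388) (nat_lit 0) (nat_lit 43233906703) (nat_lit 4) (nat_lit 5) (nat_lit 6) (nat_lit 4) (nat_lit 4) (nat_lit 4) (nat_lit 524) (nat_lit 361) (nat_lit 315)) (XT.lf (nat_lit 0) (nat_lit 57469862474) (nat_lit 152) (nat_lit 77276675921) (nat_lit 0) (nat_lit 56304699761) (nat_lit 4) (nat_lit 5) (nat_lit 6) (nat_lit 4) (nat_lit 4) (nat_lit 4) (nat_lit 525) (nat_lit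 361) (nat_lit 314))) (XT.nd (nat_lit 78) (nat_lit 0) (nat_lit 0) (XT.lf (nat_lit 0) (nat_lit 71111882783) (nat_lit 152) (nat_lit 59009753061) (nat_lit 0) (nat_lit 69940490100) (nat_lit 4) (nat_lit 5) (nat_lit 6) (nat_lit 4) (nat_lit 4) (nat_lit 4) (nat_lit 526) (nat_lit 361) (nat_lit 313)) (XT.lf (nat_lit 0) (nat_lit 85351069874) (nat_lit 152) (nat_lit 40002991134) (nat_lit 0) (nat_lit 84173743886) (nat_lit 4) (nat_lit 5) (nat_lit 6) (nat_lit 4) (nat_lit 4) (nat_lit 4) (nat_lit 527) (nat_lit 361) (nat_lit 312)))))))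
noncomputable def xc49 : XT := (XT.nd (nat_lit 1248) (nat_lit 152) (nat_lit 0) (XT.nd (nat_lit 624) (nat_lit 0) (nat_lit 0) (XT.nd (nat_lit 312) (nat_lit 0) (nat_lit 0) (XT.nd (nat_lit 156) (nat_lit 0) (nat_lit 0) (XT.nd (nat_lit 78) (nat_lit 76) (nat_lit 0) (XT.lf (nat_lit 0) (nat_lit 100221326574) (nat_lit 152) (nat_lit 20211135945) (nat_lit 0) (nat_lit 99038349818) (nat_lit 4) (nat_lit 5) (nat_lit 6) (nat_lit 4) (nat_lit 4) (nat_lit 4) (nat_lit 528) (nat_lit 361) (nat_lit 311)) (XT.lf (nat_lit 0) (nat_lit 426589498) (nat_lit 76) (nat_lit 115338129014) (nat_lit 76) (nat_lit 114149770576) (nat_lit 3) (nat_lit 4) (nat_lit 4) (nat_lit 5) (nat_lit 4) (nat_lit 4) (nat_lit 529) (nat_lit 361) (nat_lit 310))) (XT.nd (nat_lit 78) (nat_lit 0) (nat_lit 0) (XT.lf (nat_lit 0) (nat_lit 22643048506) (nat_lit 76) (nat_lit 109708730073) (nat_lit 76) (nat_lit 108515246222) (nat_lit 3) (nat_lit 4) (nat_lit 4) (nat_lit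 5) (nat_lit 4) (nat_lit 4) (nat_lit 530) (nat_lit 361) (nat_lit 309)) (XT.lf (nat_lit 0) (nat_lit 45822865980) (nat_lit 76) (nat_lit 103873147732) (nat_lit 76) (nat_lit 102674782536) (nat_lit 3) (nat_lit 4) (nat_lit 4) (nat_lit 5) (nat_lit 4) (nat_lit 4) (nat_lit 531) (nat_lit 361) (nat_lit 308)))) (XT.nd (nat_lit 156) (nat_lit 0) (nat_lit 0) (XT.nd (nat_lit 78) (nat_lit 0) (nat_lit 0) (XT.lf (nat_lit 0) (nat_lit 70021231961) (nat_lit 76) (nat_lit 97817487747) (nat_lit 76) (nat_lit 96614473651) (nat_lit 3) (nat_lit 4) (nat_lit 4) (nat_lit 5) (nat_lit 4) (nat_lit 4) (nat_lit 532) (nat_lit 361) (nat_lit 307)) (XT.lf (nat_lit 0) (nat_lit 95295761606) (nat_lit 76) (nat_lit 91527331881) (nat_lit 76) (nat_lit 90319890261) (nat_lit 3) (nat_lit 4) (nat_lit 4) (nat_lit 5) (nat_lit 4) (nat_lit 4) (nat_lit 533) (nat_lit 361) (nat_lit 306))) (XT.nd (nat_lit 78) (nat_lit 0) (nat_lit 0) (XT.lf (nat_lit 0) (nat_lit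 121706632366) (nat_lit 76) (nat_lit 84987703571) (nat_lit 76) (nat_lit 83776045262) (nat_lit 3) (nat_lit 4) (nat_lit 4) (nat_lit 5) (nat_lit 4) (nat_lit 4) (nat_lit 534) (nat_lit 361) (nat_lit 305)) (XT.lf (nat_lit 0) (nat_lit 149316727267) (nat_lit 76) (nat_lit 78183032275) (nat_lit 76) (nat_lit 76967358071) (nat_lit 3) (nat_lit 4) (nat_lit 4) (nat_lit 5) (nat_lit 4) (nat_lit 4) (nat_lit 535) (nat_lit 361) (nat_lit 304))))) (XT.nd (nat_lit 312) (nat_lit 0) (nat_lit 0) (XT.nd (nat_lit 156) (nat_lit 0) (nat_lit 0) (XT.nd (nat_lit 78) (nat_lit 0) (nat_lit 0) (XT.lf (nat_lit 0) (nat_lit 178191784631) (nat_lit 76) (nat_lit 71097116394) (nat_lit 76) (nat_lit 69877617529) (nat_lit 3) (nat_lit 4) (nat_lit 4) (nat_lit 5) (nat_lit 4) (nat_lit 4) (nat_lit 536) (nat_lit 361) (nat_lit 303)) (XT.lf (nat_lit 0) (nat_lit 208400554593) (nat_lit 76) (nat_lit 63713084699) (nat_lit 76) (nat_lit 62489943299) (nat_lit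 3) (nat_lit 4) (nat_lit 4) (nat_lit 5) (nat_lit 4) (nat_lit 4) (nat_lit 537) (nat_lit 361) (nat_lit 302))) (XT.nd (nat_lit 78) (nat_lit 0) (nat_lit 0) (XT.lf (nat_lit 0) (nat_lit 240014962798) (nat_lit 76) (nat_lit 56013356163) (nat_lit 76) (nat_lit 54786745682) (nat_lit 3) (nat_lit 4) (nat_lit 4) (nat_lit 5) (nat_lit 4) (nat_lit 4) (nat_lit 538) (nat_lit 361) (nat_lit 301)) (XT.lf (nat_lit 0) (nat_lit 273110281644) (nat_lit 76) (nat_lit 47979598099) (nat_lit 76) (nat_lit 46749683732) (nat_lit 3) (nat_lit 4) (nat_lit 4) (nat_lit 5) (nat_lit 4) (nat_lit 4) (nat_lit 539) (nat_lit 361) (nat_lit 300)))) (XT.nd (nat_lit 156) (nat_lit 0) (nat_lit 0) (XT.nd (nat_lit 78) (nat_lit 0) (nat_lit 0) (XT.lf (nat_lit 0) (nat_lit 307765309510) (nat_lit 76) (nat_lit 39592682511) (nat_lit 76) (nat_lit 38359621586) (nat_lit 3) (nat_lit 4) (nat_lit 4) (nat_lit 5) (nat_lit 4) (nat_lit 4) (nat_lit 540) (nat_lit 361)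 (nat_lit 299)) (XT.lf (nat_lit 0) (nat_lit 344062558368) (nat_lit 76) (nat_lit 30832640553) (nat_lit 76) (nat_lit 29596582905) (nat_lit 3) (nat_lit 4) (nat_lit 4) (nat_lit 5) (nat_lit 4) (nat_lit 4) (nat_lit 541) (nat_lit 361) (nat_lit 298))) (XT.nd (nat_lit 78) (nat_lit 0) (nat_lit 0) (XT.lf (nat_lit 0) (nat_lit 382088450239) (nat_lit 76) (nat_lit 21678614982) (nat_lit 76) (nat_lit 20439703313) (nat_lit 3) (nat_lit 4) (nat_lit 4) (nat_lit 5) (nat_lit 4) (nat_lit 4) (nat_lit 542) (nat_lit 361) (nat_lit 297)) (XT.lf (nat_lit 0) (nat_lit 421933522959) (nat_lit 76) (nat_lit 12108810500) (nat_lit 76) (nat_lit 10867180714) (nat_lit 3) (nat_lit 4) (nat_lit 4) (nat_lit 5) (nat_lit 4) (nat_lit 4) (nat_lit 543) (nat_lit 361) (nat_lit 296)))))) (XT.nd (nat_lit 624) (nat_lit 0) (nat_lit 0) (XT.nd (nat_lit 312) (nat_lit 0) (nat_lit 0) (XT.nd (nat_lit 156) (nat_lit 0) (nat_lit 0) (XT.nd (nat_lit 78) (nat_lit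 152) (nat_lit 0) (XT.lf (nat_lit 0) (nat_lit 463692645751) (nat_lit 76) (nat_lit 2100441856) (nat_lit 76) (nat_lit 856223389) (nat_lit 3) (nat_lit 4) (nat_lit 4) (nat_lit 5) (nat_lit 4) (nat_lit 4) (nat_lit 544) (nat_lit 361) (nat_lit 295)) (XT.lf (nat_lit 0) (nat_lit 9734758412) (nat_lit 152) (nat_lit 471166936242) (nat_lit 0) (nat_lit 8547440434) (nat_lit 1) (nat_lit 5) (nat_lit 3) (nat_lit 4) (nat_lit 1) (nat_lit 4) (nat_lit 545) (nat_lit 361) (nat_lit 294))) (XT.nd (nat_lit 78) (nat_lit 0) (nat_lit 0) (XT.lf (nat_lit 0) (nat_lit 20874796772) (nat_lit 152) (nat_lit 472825795111) (nat_lit 0) (nat_lit 19685242593) (nat_lit 1) (nat_lit 5) (nat_lit 3) (nat_lit 4) (nat_lit 1) (nat_lit 4) (nat_lit 546) (nat_lit 361) (nat_lit 293)) (XT.lf (nat_lit 0) (nat_lit 32536556378) (nat_lit 152) (nat_lit 474639704024) (nat_lit 0) (nat_lit 31344872485) (nat_lit 1) (nat_lit 5) (nat_lit 3) (nat_lit 4) (nat_lit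 1) (nat_lit 4) (nat_lit 547) (nat_lit 361) (nat_lit 292)))) (XT.nd (nat_lit 156) (nat_lit 0) (nat_lit 0) (XT.nd (nat_lit 78) (nat_lit 0) (nat_lit 0) (XT.lf (nat_lit 0) (nat_lit 44747803327) (nat_lit 152) (nat_lit 476612981812) (nat_lit 0) (nat_lit 43554091134) (nat_lit 1) (nat_lit 5) (nat_lit 3) (nat_lit 4) (nat_lit 1) (nat_lit 4) (nat_lit 548) (nat_lit 361) (nat_lit 291)) (XT.lf (nat_lit 0) (nat_lit 57537612015) (nat_lit 152) (nat_lit 478750326755) (nat_lit 0) (nat_lit 56341968107) (nat_lit 1) (nat_lit 5) (nat_lit 3) (nat_lit 4) (nat_lit 1) (nat_lit 4) (nat_lit 549) (nat_lit 361) (nat_lit 290))) (XT.nd (nat_lit 78) (nat_lit 0) (nat_lit 0) (XT.lf (nat_lit 0) (nat_lit 70936434367) (nat_lit 152) (nat_lit 481056827771) (nat_lit 0) (nat_lit 69738950732) (nat_lit 1) (nat_lit 5) (nat_lit 3) (nat_lit 4) (nat_lit 1) (nat_lit 4) (nat_lit 550) (nat_lit 361) (nat_lit 289)) (XT.lf (nat_lit 0) (nat_lit 84976172343)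 (nat_lit 152) (nat_lit 483537976527) (nat_lit 0) (nat_lit 83776936586) (nat_lit 1) (nat_lit 5) (nat_lit 3) (nat_lit 4) (nat_lit 1) (nat_lit 4) (nat_lit 551) (nat_lit 361) (nat_lit 288))))) (XT.nd (nat_lit 312) (nat_lit 0) (nat_lit 0) (XT.nd (nat_lit 156) (nat_lit 0) (nat_lit 0) (XT.nd (nat_lit 78) (nat_lit 0) (nat_lit 0) (XT.lf (nat_lit 0) (nat_lit 99690253888) (nat_lit 152) (nat_lit 486199680521) (nat_lit 0) (nat_lit 98489349445) (nat_lit 1) (nat_lit 5) (nat_lit 3) (nat_lit 4) (nat_lit 1) (nat_lit 4) (nat_lit 552) (nat_lit 361) (nat_lit 287)) (XT.lf (nat_lit 0) (nat_lit 115113712532) (nat_lit 152) (nat_lit 489048277143) (nat_lit 0) (nat_lit 113911218862) (nat_lit 1) (nat_lit 5) (nat_lit 3) (nat_lit 4) (nat_lit 1) (nat_lit 4) (nat_lit 553) (nat_lit 361) (nat_lit 286))) (XT.nd (nat_lit 78) (nat_lit 0) (nat_lit 0) (XT.lf (nat_lit 0) (nat_lit 131283270793) (nat_lit 152) (nat_lit 492090548767) (nat_lit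 0) (nat_lit 130079263575) (nat_lit 1) (nat_lit 5) (nat_lit 3) (nat_lit 4) (nat_lit 1) (nat_lit 4) (nat_lit 554) (nat_lit 361) (nat_lit 285)) (XT.lf (nat_lit 0) (nat_lit 148237427621) (nat_lit 152) (nat_lit 495333738896) (nat_lit 0) (nat_lit 147031978929) (nat_lit 1) (nat_lit 5) (nat_lit 3) (nat_lit 4) (nat_lit 1) (nat_lit 4) (nat_lit 555) (nat_lit 361) (nat_lit 284)))) (XT.nd (nat_lit 56238) (nat_lit 0) (nat_lit 2280) (XT.nd (nat_lit 78) (nat_lit 0) (nat_lit 0) (XT.lf (nat_lit 0) (nat_lit 166016550056) (nat_lit 152) (nat_lit 498785569411) (nat_lit 0) (nat_lit 164809728530) (nat_lit 1) (nat_lit 5) (nat_lit 3) (nat_lit 4) (nat_lit 1) (nat_lit 4) (nat_lit 556) (nat_lit 361) (nat_lit 283)) (XT.lf (nat_lit 0) (nat_lit 184662969341) (nat_lit 152) (nat_lit 502454258957) (nat_lit 0) (nat_lit 183454840356) (nat_lit 1) (nat_lit 5) (nat_lit 3) (nat_lit 4) (nat_lit 1) (nat_lit 4) (nat_lit 557) (nat_lit 361)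 (nat_lit 282))) (XT.nd (nat_lit 78) (nat_lit 152) (nat_lit 0) (XT.lf (nat_lit 0) (nat_lit 5848750371) (nat_lit 76) (nat_lit 4083583273) (nat_lit 76) (nat_lit 4083583273) (nat_lit 33) (nat_lit 4) (nat_lit 34) (nat_lit 5) (nat_lit 34) (nat_lit 4) (nat_lit 476) (nat_lit 362) (nat_lit 362)) (XT.nd (nat_lit 78) (nat_lit 0) (nat_lit 0) (XT.lf (nat_lit 0) (nat_lit 2910045589) (nat_lit 152) (nat_lit 23154690353) (nat_lit 0) (nat_lit 2809520134) (nat_lit 31) (nat_lit 5) (nat_lit 33) (nat_lit 4) (nat_lit 31) (nat_lit 4) (nat_lit 477) (nat_lit 362) (nat_lit 361)) (XT.lf (nat_lit 0) (nat_lit 14312269151) (nat_lit 152) (nat_lit 1321550640) (nat_lit 0) (nat_lit 14116005166) (nat_lit 31) (nat_lit 5) (nat_lit 33) (nat_lit 4) (nat_lit 31) (nat_lit 4) (nat_lit 478) (nat_lit 362) (nat_lit 360))))))))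
noncomputable def xc50 : XT := (XT.nd (nat_lit 1248) (nat_lit 684) (nat_lit 0) (XT.nd (nat_lit 624) (nat_lit 456) (nat_lit 0) (XT.nd (nat_lit 312) (nat_lit 380) (nat_lit 0) (XT.nd (nat_lit 156) (nat_lit 76) (nat_lit 0) (XT.nd (nat_lit 78) (nat_lit 152) (nat_lit 0) (XT.lf (nat_lit 0) (nat_lit 21582081273) (nat_lit 76) (nat_lit 4687639811) (nat_lit 76) (nat_lit 4400196276) (nat_lit 30) (nat_lit 4) (nat_lit 31) (nat_lit 5) (nat_lit 31) (nat_lit 4) (nat_lit 479) (nat_lit 362) (nat_lit 359)) (XT.lf (nat_lit 0) (nat_lit 6949511001) (nat_lit 152) (nat_lit 18088310791) (nat_lit 0) (nat_lit 6593052712) (nat_lit 28) (nat_lit 5) (nat_lit 30) (nat_lit 4) (nat_lit 28) (nat_lit 4) (nat_lit 480) (nat_lit 362) (nat_lit 358))) (XT.nd (nat_lit 78) (nat_lit 0) (nat_lit 0) (XT.lf (nat_lit 0) (nat_lit 4260316156) (nat_lit 76) (nat_lit 14406880807) (nat_lit 76) (nat_lit 13971658194) (nat_lit 27) (nat_lit 4) (nat_lit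 28) (nat_lit 5) (nat_lit 28) (nat_lit 4) (nat_lit 481) (nat_lit 362) (nat_lit 357)) (XT.lf (nat_lit 0) (nat_lit 27653504119) (nat_lit 76) (nat_lit 3277966296) (nat_lit 76) (nat_lit 2767730040) (nat_lit 27) (nat_lit 4) (nat_lit 28) (nat_lit 5) (nat_lit 28) (nat_lit 4) (nat_lit 482) (nat_lit 362) (nat_lit 356)))) (XT.nd (nat_lit 156) (nat_lit 152) (nat_lit 0) (XT.nd (nat_lit 78) (nat_lit 76) (nat_lit 0) (XT.lf (nat_lit 0) (nat_lit 8773961139) (nat_lit 152) (nat_lit 17808321999) (nat_lit 0) (nat_lit 8219982262) (nat_lit 25) (nat_lit 5) (nat_lit 27) (nat_lit 4) (nat_lit 25) (nat_lit 4) (nat_lit 483) (nat_lit 362) (nat_lit 355)) (XT.lf (nat_lit 0) (nat_lit 4814635437) (nat_lit 76) (nat_lit 15883713683) (nat_lit 76) (nat_lit 15264935201) (nat_lit 24) (nat_lit 4) (nat_lit 25) (nat_lit 5) (nat_lit 25) (nat_lit 4) (nat_lit 484) (nat_lit 362) (nat_lit 354))) (XT.nd (nat_lit 78) (nat_lit 152) (nat_lit 0)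 (XT.lf (nat_lit 0) (nat_lit 28519184835) (nat_lit 76) (nat_lit 4672512664) (nat_lit 76) (nat_lit 3992020273) (nat_lit 24) (nat_lit 4) (nat_lit 25) (nat_lit 5) (nat_lit 25) (nat_lit 4) (nat_lit 485) (nat_lit 362) (nat_lit 353)) (XT.lf (nat_lit 0) (nat_lit 7615235071) (nat_lit 152) (nat_lit 23931555446) (nat_lit 0) (nat_lit 6911170744) (nat_lit 22) (nat_lit 5) (nat_lit 24) (nat_lit 4) (nat_lit 22) (nat_lit 4) (nat_lit 486) (nat_lit 362) (nat_lit 352))))) (XT.nd (nat_lit 312) (nat_lit 228) (nat_lit 0) (XT.nd (nat_lit 156) (nat_lit 152) (nat_lit 0) (XT.nd (nat_lit 78) (nat_lit 76) (nat_lit 0) (XT.lf (nat_lit 0) (nat_lit 19576294098) (nat_lit 152) (nat_lit 1402052300) (nat_lit 0) (nat_lit 18818918977) (nat_lit 22) (nat_lit 5) (nat_lit 24) (nat_lit 4) (nat_lit 22) (nat_lit 4) (nat_lit 487) (nat_lit 362) (nat_lit 351)) (XT.lf (nat_lit 0) (nat_lit 22353442681) (nat_lit 76) (nat_lit 9827969763) (nat_lit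 76) (nat_lit 9019822455) (nat_lit 21) (nat_lit 4) (nat_lit 22) (nat_lit 5) (nat_lit 22) (nat_lit 4) (nat_lit 488) (nat_lit 362) (nat_lit 350))) (XT.nd (nat_lit 78) (nat_lit 0) (nat_lit 0) (XT.lf (nat_lit 0) (nat_lit 2466193097) (nat_lit 152) (nat_lit 38565965583) (nat_lit 0) (nat_lit 1650477125) (nat_lit 19) (nat_lit 5) (nat_lit 21) (nat_lit 4) (nat_lit 19) (nat_lit 4) (nat_lit 489) (nat_lit 362) (nat_lit 349)) (XT.lf (nat_lit 0) (nat_lit 14406166039) (nat_lit 152) (nat_lit 16268817636) (nat_lit 0) (nat_lit 13546591144) (nat_lit 19) (nat_lit 5) (nat_lit 21) (nat_lit 4) (nat_lit 19) (nat_lit 4) (nat_lit 490) (nat_lit 362) (nat_lit 348)))) (XT.nd (nat_lit 156) (nat_lit 152) (nat_lit 0) (XT.nd (nat_lit 78) (nat_lit 0) (nat_lit 0) (XT.lf (nat_lit 0) (nat_lit 6773145571) (nat_lit 76) (nat_lit 19987395387) (nat_lit 76) (nat_lit 19086050089) (nat_lit 18) (nat_lit 4) (nat_lit 19) (nat_lit 5) (nat_lit 19)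 (nat_lit 4) (nat_lit 491) (nat_lit 362) (nat_lit 347)) (XT.lf (nat_lit 0) (nat_lit 30954663379) (nat_lit 76) (nat_lit 8769863568) (nat_lit 76) (nat_lit 7828736934) (nat_lit 18) (nat_lit 4) (nat_lit 19) (nat_lit 5) (nat_lit 19) (nat_lit 4) (nat_lit 492) (nat_lit 362) (nat_lit 346))) (XT.nd (nat_lit 78) (nat_lit 0) (nat_lit 0) (XT.lf (nat_lit 0) (nat_lit 3737262791) (nat_lit 152) (nat_lit 42806344588) (nat_lit 0) (nat_lit 2804868867) (nat_lit 16) (nat_lit 5) (nat_lit 18) (nat_lit 4) (nat_lit 16) (nat_lit 4) (nat_lit 493) (nat_lit 362) (nat_lit 345)) (XT.lf (nat_lit 0) (nat_lit 15773515366) (nat_lit 152) (nat_lit 20639007907) (nat_lit 0) (nat_lit 14806756827) (nat_lit 16) (nat_lit 5) (nat_lit 18) (nat_lit 4) (nat_lit 16) (nat_lit 4) (nat_lit 494) (nat_lit 362) (nat_lit 344)))))) (XT.nd (nat_lit 624) (nat_lit 380) (nat_lit 0) (XT.nd (nat_lit 312) (nat_lit 76) (nat_lit 0) (XT.nd (nat_lit 156) (nat_lit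 152) (nat_lit 0) (XT.nd (nat_lit 78) (nat_lit 0) (nat_lit 0) (XT.lf (nat_lit 0) (nat_lit 2173830022) (nat_lit 76) (nat_lit 26010326209) (nat_lit 76) (nat_lit 25010839467) (nat_lit 15) (nat_lit 4) (nat_lit 16) (nat_lit 5) (nat_lit 16) (nat_lit 4) (nat_lit 495) (nat_lit 362) (nat_lit 343)) (XT.lf (nat_lit 0) (nat_lit 26319995644) (nat_lit 76) (nat_lit 14987768238) (nat_lit 76) (nat_lit 13957111777) (nat_lit 15) (nat_lit 4) (nat_lit 16) (nat_lit 5) (nat_lit 16) (nat_lit 4) (nat_lit 496) (nat_lit 362) (nat_lit 342))) (XT.nd (nat_lit 78) (nat_lit 152) (nat_lit 0) (XT.lf (nat_lit 0) (nat_lit 51174561020) (nat_lit 76) (nat_lit 3668136758) (nat_lit 76) (nat_lit 2607794852) (nat_lit 15) (nat_lit 4) (nat_lit 16) (nat_lit 5) (nat_lit 16) (nat_lit 4) (nat_lit 497) (nat_lit 362) (nat_lit 341)) (XT.lf (nat_lit 0) (nat_lit 9177883404) (nat_lit 152) (nat_lit 42410789898) (nat_lit 0) (nat_lit 8141108396) (nat_lit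 13) (nat_lit 5) (nat_lit 15) (nat_lit 4) (nat_lit 13) (nat_lit 4) (nat_lit 498) (nat_lit 362) (nat_lit 340)))) (XT.nd (nat_lit 156) (nat_lit 0) (nat_lit 0) (XT.nd (nat_lit 78) (nat_lit 76) (nat_lit 0) (XT.lf (nat_lit 0) (nat_lit 21396439064) (nat_lit 152) (nat_lit 20393876603) (nat_lit 0) (nat_lit 20334020652) (nat_lit 13) (nat_lit 5) (nat_lit 15) (nat_lit 4) (nat_lit 13) (nat_lit 4) (nat_lit 499) (nat_lit 362) (nat_lit 339)) (XT.lf (nat_lit 0) (nat_lit 2338661045) (nat_lit 76) (nat_lit 31698127635) (nat_lit 76) (nat_lit 30611286933) (nat_lit 12) (nat_lit 4) (nat_lit 13) (nat_lit 5) (nat_lit 13) (nat_lit 4) (nat_lit 500) (nat_lit 362) (nat_lit 338))) (XT.nd (nat_lit 78) (nat_lit 0) (nat_lit 0) (XT.lf (nat_lit 0) (nat_lit 26463202386) (nat_lit 76) (nat_lit 20969364596) (nat_lit 76) (nat_lit 19859264570) (nat_lit 12) (nat_lit 4) (nat_lit 13) (nat_lit 5) (nat_lit 13) (nat_lit 4) (nat_lit 501) (nat_lit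 362) (nat_lit 337)) (XT.lf (nat_lit 0) (nat_lit 51362873141) (nat_lit 76) (nat_lit 9923862044) (nat_lit 76) (nat_lit 8791610281) (nat_lit 12) (nat_lit 4) (nat_lit 13) (nat_lit 5) (nat_lit 13) (nat_lit 4) (nat_lit 502) (nat_lit 362) (nat_lit 336))))) (XT.nd (nat_lit 312) (nat_lit 228) (nat_lit 0) (XT.nd (nat_lit 156) (nat_lit 0) (nat_lit 0) (XT.nd (nat_lit 78) (nat_lit 0) (nat_lit 0) (XT.lf (nat_lit 0) (nat_lit 2624031614) (nat_lit 152) (nat_lit 68858082369) (nat_lit 0) (nat_lit 1525604324) (nat_lit 10) (nat_lit 5) (nat_lit 12) (nat_lit 4) (nat_lit 10) (nat_lit 4) (nat_lit 503) (nat_lit 362) (nat_lit 335)) (XT.lf (nat_lit 0) (nat_lit 14595270465) (nat_lit 152) (nat_lit 47989362080) (nat_lit 0) (nat_lit 13477707673) (nat_lit 10) (nat_lit 5) (nat_lit 12) (nat_lit 4) (nat_lit 10) (nat_lit 4) (nat_lit 504) (nat_lit 362) (nat_lit 334))) (XT.nd (nat_lit 78) (nat_lit 0) (nat_lit 0) (XT.lf (nat_lit 0) (nat_lit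 26970245336) (nat_lit 152) (nat_lit 26474731117) (nat_lit 0) (nat_lit 25834458255) (nat_lit 10) (nat_lit 5) (nat_lit 12) (nat_lit 4) (nat_lit 10) (nat_lit 4) (nat_lit 505) (nat_lit 362) (nat_lit 333)) (XT.lf (nat_lit 0) (nat_lit 39778420452) (nat_lit 152) (nat_lit 4262964169) (nat_lit 0) (nat_lit 38625276906) (nat_lit 10) (nat_lit 5) (nat_lit 12) (nat_lit 4) (nat_lit 10) (nat_lit 4) (nat_lit 506) (nat_lit 362) (nat_lit 332)))) (XT.nd (nat_lit 156) (nat_lit 152) (nat_lit 0) (XT.nd (nat_lit 78) (nat_lit 0) (nat_lit 0) (XT.lf (nat_lit 0) (nat_lit 19317091488) (nat_lit 76) (nat_lit 34034793913) (nat_lit 76) (nat_lit 32865120400) (nat_lit 9) (nat_lit 4) (nat_lit 10) (nat_lit 5) (nat_lit 10) (nat_lit 4) (nat_lit 507) (nat_lit 362) (nat_lit 331)) (XT.lf (nat_lit 0) (nat_lit 43869398817) (nat_lit 76) (nat_lit 23632983519) (nat_lit 76) (nat_lit 22447567180) (nat_lit 9) (nat_lit 4) (nat_lit 10) (nat_lit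 5) (nat_lit 10) (nat_lit 4) (nat_lit 508) (nat_lit 362) (nat_lit 330))) (XT.nd (nat_lit 78) (nat_lit 152) (nat_lit 0) (XT.lf (nat_lit 0) (nat_lit 69311462843) (nat_lit 76) (nat_lit 12883382583) (nat_lit 76) (nat_lit 11682973078) (nat_lit 9) (nat_lit 4) (nat_lit 10) (nat_lit 5) (nat_lit 10) (nat_lit 4) (nat_lit 509) (nat_lit 362) (nat_lit 329)) (XT.nd (nat_lit 78) (nat_lit 152) (nat_lit 0) (XT.lf (nat_lit 0) (nat_lit 95703859909) (nat_lit 76) (nat_lit 1760396820) (nat_lit 76) (nat_lit 545708107) (nat_lit 9) (nat_lit 4) (nat_lit 10) (nat_lit 5) (nat_lit 10) (nat_lit 4) (nat_lit 510) (nat_lit 362) (nat_lit 328)) (XT.lf (nat_lit 0) (nat_lit 11131608291) (nat_lit 152) (nat_lit 81229596823) (nat_lit 0) (nat_lit 9961810237) (nat_lit 7) (nat_lit 5) (nat_lit 9) (nat_lit 4) (nat_lit 7) (nat_lit 4) (nat_lit 511) (nat_lit 362) (nat_lit 327))))))))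
noncomputable def xc51 : XT := (XT.nd (nat_lit 1248) (nat_lit 76) (nat_lit 0) (XT.nd (nat_lit 624) (nat_lit 152) (nat_lit 0) (XT.nd (nat_lit 312) (nat_lit 0) (nat_lit 0) (XT.nd (nat_lit 156) (nat_lit 76) (nat_lit 0) (XT.nd (nat_lit 78) (nat_lit 0) (nat_lit 0) (XT.lf (nat_lit 0) (nat_lit 23290419347) (nat_lit 152) (nat_lit 61456767083) (nat_lit 0) (nat_lit 22108286376) (nat_lit 7) (nat_lit 5) (nat_lit 9) (nat_lit 4) (nat_lit 7) (nat_lit 4) (nat_lit 512) (nat_lit 362) (nat_lit 326)) (XT.lf (nat_lit 0) (nat_lit 35911850950) (nat_lit 152) (nat_lit 40991997864) (nat_lit 0) (nat_lit 34717970441) (nat_lit 7) (nat_lit 5) (nat_lit 9) (nat_lit 4) (nat_lit 7) (nat_lit 4) (nat_lit 513) (nat_lit 362) (nat_lit 325))) (XT.nd (nat_lit 78) (nat_lit 76) (nat_lit 0) (XT.lf (nat_lit 0) (nat_lit 49025954128) (nat_lit 152) (nat_lit 19786563527) (nat_lit 0) (nat_lit 47820885487) (nat_lit 7) (nat_lit 5) (nat_lit 9) (nat_lit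 4) (nat_lit 7) (nat_lit 4) (nat_lit 514) (nat_lit 362) (nat_lit 324)) (XT.lf (nat_lit 0) (nat_lit 2283098466) (nat_lit 76) (nat_lit 60416500035) (nat_lit 76) (nat_lit 59200776030) (nat_lit 6) (nat_lit 4) (nat_lit 7) (nat_lit 5) (nat_lit 7) (nat_lit 4) (nat_lit 515) (nat_lit 362) (nat_lit 323)))) (XT.nd (nat_lit 156) (nat_lit 0) (nat_lit 0) (XT.nd (nat_lit 78) (nat_lit 0) (nat_lit 0) (XT.lf (nat_lit 0) (nat_lit 25878411502) (nat_lit 76) (nat_lit 51383941826) (nat_lit 76) (nat_lit 50158069854) (nat_lit 6) (nat_lit 4) (nat_lit 7) (nat_lit 5) (nat_lit 7) (nat_lit 4) (nat_lit 516) (nat_lit 362) (nat_lit 322)) (XT.lf (nat_lit 0) (nat_lit 50401321749) (nat_lit 76) (nat_lit 42028431963) (nat_lit 76) (nat_lit 40792895263) (nat_lit 6) (nat_lit 4) (nat_lit 7) (nat_lit 5) (nat_lit 7) (nat_lit 4) (nat_lit 517) (nat_lit 362) (nat_lit 321))) (XT.nd (nat_lit 78) (nat_lit 0) (nat_lit 0) (XT.lf (nat_lit 0) (nat_lit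 75910217086) (nat_lit 76) (nat_lit 32327695425) (nat_lit 76) (nat_lit 31082954220) (nat_lit 6) (nat_lit 4) (nat_lit 7) (nat_lit 5) (nat_lit 7) (nat_lit 4) (nat_lit 518) (nat_lit 362) (nat_lit 320)) (XT.lf (nat_lit 0) (nat_lit 102465832980) (nat_lit 76) (nat_lit 22258635219) (nat_lit 76) (nat_lit 21005127820) (nat_lit 6) (nat_lit 4) (nat_lit 7) (nat_lit 5) (nat_lit 7) (nat_lit 4) (nat_lit 519) (nat_lit 362) (nat_lit 319))))) (XT.nd (nat_lit 312) (nat_lit 0) (nat_lit 0) (XT.nd (nat_lit 156) (nat_lit 76) (nat_lit 0) (XT.nd (nat_lit 78) (nat_lit 76) (nat_lit 0) (XT.lf (nat_lit 0) (nat_lit 130131397087) (nat_lit 76) (nat_lit 11797277392) (nat_lit 76) (nat_lit 10535421236) (nat_lit 6) (nat_lit 4) (nat_lit 7) (nat_lit 5) (nat_lit 7) (nat_lit 4) (nat_lit 520) (nat_lit 362) (nat_lit 318)) (XT.lf (nat_lit 0) (nat_lit 339856220) (nat_lit 152) (nat_lit 573102099) (nat_lit 76) (nat_lit 158627167948) (nat_lit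 5) (nat_lit 5) (nat_lit 7) (nat_lit 5) (nat_lit 6) (nat_lit 4) (nat_lit 521) (nat_lit 362) (nat_lit 317))) (XT.nd (nat_lit 78) (nat_lit 0) (nat_lit 0) (XT.lf (nat_lit 0) (nat_lit 11830933159) (nat_lit 152) (nat_lit 144494704076) (nat_lit 0) (nat_lit 10614380853) (nat_lit 4) (nat_lit 5) (nat_lit 6) (nat_lit 4) (nat_lit 4) (nat_lit 4) (nat_lit 522) (nat_lit 362) (nat_lit 316)) (XT.lf (nat_lit 0) (nat_lit 23823073354) (nat_lit 152) (nat_lit 128290853240) (nat_lit 0) (nat_lit 22599652506) (nat_lit 4) (nat_lit 5) (nat_lit 6) (nat_lit 4) (nat_lit 4) (nat_lit 4) (nat_lit 523) (nat_lit 362) (nat_lit 315)))) (XT.nd (nat_lit 156) (nat_lit 0) (nat_lit 0) (XT.nd (nat_lit 78) (nat_lit 0) (nat_lit 0) (XT.lf (nat_lit 0) (nat_lit 36321180566) (nat_lit 152) (nat_lit 111468101413) (nat_lit 0) (nat_lit 35091218249) (nat_lit 4) (nat_lit 5) (nat_lit 6) (nat_lit 4) (nat_lit 4) (nat_lit 4) (nat_lit 524) (nat_lit 362)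 (nat_lit 314)) (XT.lf (nat_lit 0) (nat_lit 49355012194) (nat_lit 152) (nat_lit 93986394425) (nat_lit 0) (nat_lit 48118819906) (nat_lit 4) (nat_lit 5) (nat_lit 6) (nat_lit 4) (nat_lit 4) (nat_lit 4) (nat_lit 525) (nat_lit 362) (nat_lit 313))) (XT.nd (nat_lit 78) (nat_lit 0) (nat_lit 0) (XT.lf (nat_lit 0) (nat_lit 62955601170) (nat_lit 152) (nat_lit 75804109163) (nat_lit 0) (nat_lit 61713475577) (nat_lit 4) (nat_lit 5) (nat_lit 6) (nat_lit 4) (nat_lit 4) (nat_lit 4) (nat_lit 526) (nat_lit 362) (nat_lit 312)) (XT.lf (nat_lit 0) (nat_lit 77155329848) (nat_lit 152) (nat_lit 56877954472) (nat_lit 0) (nat_lit 75907553488) (nat_lit 4) (nat_lit 5) (nat_lit 6) (nat_lit 4) (nat_lit 4) (nat_lit 4) (nat_lit 527) (nat_lit 362) (nat_lit 311)))))) (XT.nd (nat_lit 624) (nat_lit 0) (nat_lit 0) (XT.nd (nat_lit 312) (nat_lit 0) (nat_lit 0) (XT.nd (nat_lit 156) (nat_lit 76) (nat_lit 0) (XT.nd (nat_lit 78) (nat_lit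 0) (nat_lit 0) (XT.lf (nat_lit 0) (nat_lit 91988007107) (nat_lit 152) (nat_lit 37162868080) (nat_lit 0) (nat_lit 90734849064) (nat_lit 4) (nat_lit 5) (nat_lit 6) (nat_lit 4) (nat_lit 4) (nat_lit 4) (nat_lit 528) (nat_lit 362) (nat_lit 310)) (XT.lf (nat_lit 0) (nat_lit 107488948845) (nat_lit 152) (nat_lit 16611909303) (nat_lit 0) (nat_lit 106230665389) (nat_lit 4) (nat_lit 5) (nat_lit 6) (nat_lit 4) (nat_lit 4) (nat_lit 4) (nat_lit 529) (nat_lit 362) (nat_lit 309))) (XT.nd (nat_lit 78) (nat_lit 0) (nat_lit 0) (XT.lf (nat_lit 0) (nat_lit 4983351066) (nat_lit 76) (nat_lit 118789515074) (nat_lit 76) (nat_lit 117526350273) (nat_lit 3) (nat_lit 4) (nat_lit 4) (nat_lit 5) (nat_lit 4) (nat_lit 4) (nat_lit 530) (nat_lit 362) (nat_lit 308)) (XT.lf (nat_lit 0) (nat_lit 28094660069) (nat_lit 76) (nat_lit 112988909061) (nat_lit 76) (nat_lit 111721095361) (nat_lit 3) (nat_lit 4) (nat_lit 4) (nat_lit 5) (nat_lit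 4) (nat_lit 4) (nat_lit 531) (nat_lit 362) (nat_lit 307)))) (XT.nd (nat_lit 156) (nat_lit 0) (nat_lit 0) (XT.nd (nat_lit 78) (nat_lit 0) (nat_lit 0) (XT.lf (nat_lit 0) (nat_lit 52227779886) (nat_lit 76) (nat_lit 106966559866) (nat_lit 76) (nat_lit 105694318641) (nat_lit 3) (nat_lit 4) (nat_lit 4) (nat_lit 5) (nat_lit 4) (nat_lit 4) (nat_lit 532) (nat_lit 362) (nat_lit 306)) (XT.lf (nat_lit 0) (nat_lit 77440170327) (nat_lit 76) (nat_lit 100708128560) (nat_lit 76) (nat_lit 99431670647) (nat_lit 3) (nat_lit 4) (nat_lit 4) (nat_lit 5) (nat_lit 4) (nat_lit 4) (nat_lit 533) (nat_lit 362) (nat_lit 305))) (XT.nd (nat_lit 78) (nat_lit 0) (nat_lit 0) (XT.lf (nat_lit 0) (nat_lit 103791860894) (nat_lit 76) (nat_lit 94198714119) (nat_lit 76) (nat_lit 92918240310) (nat_lit 3) (nat_lit 4) (nat_lit 4) (nat_lit 5) (nat_lit 4) (nat_lit 4) (nat_lit 534) (nat_lit 362) (nat_lit 304)) (XT.lf (nat_lit 0) (nat_lit 131345593706)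 (nat_lit 76) (nat_lit 87422817934) (nat_lit 76) (nat_lit 86138519464) (nat_lit 3) (nat_lit 4) (nat_lit 4) (nat_lit 5) (nat_lit 4) (nat_lit 4) (nat_lit 535) (nat_lit 362) (nat_lit 303))))) (XT.nd (nat_lit 312) (nat_lit 0) (nat_lit 0) (XT.nd (nat_lit 156) (nat_lit 0) (nat_lit 0) (XT.nd (nat_lit 78) (nat_lit 0) (nat_lit 0) (XT.lf (nat_lit 0) (nat_lit 160166972890) (nat_lit 76) (nat_lit 80364306922) (nat_lit 76) (nat_lit 79076365917) (nat_lit 3) (nat_lit 4) (nat_lit 4) (nat_lit 5) (nat_lit 4) (nat_lit 4) (nat_lit 536) (nat_lit 362) (nat_lit 302)) (XT.lf (nat_lit 0) (nat_lit 190324620776) (nat_lit 76) (nat_lit 73006375102) (nat_lit 76) (nat_lit 71714965016) (nat_lit 3) (nat_lit 4) (nat_lit 4) (nat_lit 5) (nat_lit 4) (nat_lit 4) (nat_lit 537) (nat_lit 362) (nat_lit 301))) (XT.nd (nat_lit 78) (nat_lit 0) (nat_lit 0) (XT.lf (nat_lit 0) (nat_lit 221890341288) (nat_lit 76) (nat_lit 65331503590) (nat_lit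 76) (nat_lit 64036789618) (nat_lit 3) (nat_lit 4) (nat_lit 4) (nat_lit 5) (nat_lit 4) (nat_lit 4) (nat_lit 538) (nat_lit 362) (nat_lit 300)) (XT.lf (nat_lit 0) (nat_lit 254939290904) (nat_lit 76) (nat_lit 57321418882) (nat_lit 76) (nat_lit 56023558351) (nat_lit 3) (nat_lit 4) (nat_lit 4) (nat_lit 5) (nat_lit 4) (nat_lit 4) (nat_lit 539) (nat_lit 362) (nat_lit 299)))) (XT.nd (nat_lit 156) (nat_lit 0) (nat_lit 0) (XT.nd (nat_lit 78) (nat_lit 0) (nat_lit 0) (XT.lf (nat_lit 0) (nat_lit 289550157599) (nat_lit 76) (nat_lit 48957049347) (nat_lit 76) (nat_lit 47656192094) (nat_lit 3) (nat_lit 4) (nat_lit 4) (nat_lit 5) (nat_lit 4) (nat_lit 4) (nat_lit 540) (nat_lit 362) (nat_lit 298)) (XT.lf (nat_lit 0) (nat_lit 325805348198) (nat_lit 76) (nat_lit 40218479821) (nat_lit 76) (nat_lit 38914768546) (nat_lit 3) (nat_lit 4) (nat_lit 4) (nat_lit 5) (nat_lit 4) (nat_lit 4) (nat_lit 541) (nat_lit 362) (nat_lit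 297))) (XT.nd (nat_lit 78) (nat_lit 0) (nat_lit 0) (XT.lf (nat_lit 0) (nat_lit 363791184584) (nat_lit 76) (nat_lit 31084904185) (nat_lit 76) (nat_lit 29778474795) (nat_lit 3) (nat_lit 4) (nat_lit 4) (nat_lit 5) (nat_lit 4) (nat_lit 4) (nat_lit 542) (nat_lit 362) (nat_lit 296)) (XT.nd (nat_lit 78) (nat_lit 0) (nat_lit 0) (XT.lf (nat_lit 0) (nat_lit 403598109224) (nat_lit 76) (nat_lit 21534575830) (nat_lit 76) (nat_lit 20225557759) (nat_lit 3) (nat_lit 4) (nat_lit 4) (nat_lit 5) (nat_lit 4) (nat_lit 4) (nat_lit 543) (nat_lit 362) (nat_lit 295)) (XT.lf (nat_lit 0) (nat_lit 445320900511) (nat_lit 76) (nat_lit 11544755881) (nat_lit 76) (nat_lit 10233272398) (nat_lit 3) (nat_lit 4) (nat_lit 4) (nat_lit 5) (nat_lit 4) (nat_lit 4) (nat_lit 544) (nat_lit 362) (nat_lit 294))))))))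
noncomputable def xc52 : XT := (XT.nd (nat_lit 57174) (nat_lit 0) (nat_lit 1216) (XT.nd (nat_lit 624) (nat_lit 0) (nat_lit 0) (XT.nd (nat_lit 312) (nat_lit 0) (nat_lit 0) (XT.nd (nat_lit 156) (nat_lit 0) (nat_lit 0) (XT.nd (nat_lit 78) (nat_lit 76) (nat_lit 0) (XT.lf (nat_lit 0) (nat_lit 215061536) (nat_lit 152) (nat_lit 872955341) (nat_lit 76) (nat_lit 488840194715) (nat_lit 2) (nat_lit 5) (nat_lit 4) (nat_lit 5) (nat_lit 3) (nat_lit 4) (nat_lit 545) (nat_lit 362) (nat_lit 293)) (XT.lf (nat_lit 0) (nat_lit 11306592077) (nat_lit 152) (nat_lit 492507550031) (nat_lit 0) (nat_lit 10053194274) (nat_lit 1) (nat_lit 5) (nat_lit 3) (nat_lit 4) (nat_lit 1) (nat_lit 4) (nat_lit 546) (nat_lit 362) (nat_lit 292))) (XT.nd (nat_lit 78) (nat_lit 0) (nat_lit 0) (XT.lf (nat_lit 0) (nat_lit 22951961128) (nat_lit 152) (nat_lit 494354958178) (nat_lit 0) (nat_lit 21696535025) (nat_lit 1) (nat_lit 5) (nat_lit 3) (nat_lit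 4) (nat_lit 1) (nat_lit 4) (nat_lit 547) (nat_lit 362) (nat_lit 291)) (XT.lf (nat_lit 0) (nat_lit 35147598024) (nat_lit 152) (nat_lit 496360139998) (nat_lit 0) (nat_lit 33890240207) (nat_lit 1) (nat_lit 5) (nat_lit 3) (nat_lit 4) (nat_lit 1) (nat_lit 4) (nat_lit 548) (nat_lit 362) (nat_lit 290)))) (XT.nd (nat_lit 156) (nat_lit 0) (nat_lit 0) (XT.nd (nat_lit 78) (nat_lit 0) (nat_lit 0) (XT.lf (nat_lit 0) (nat_lit 47922539995) (nat_lit 152) (nat_lit 498527869734) (nat_lit 0) (nat_lit 46663342451) (nat_lit 1) (nat_lit 5) (nat_lit 3) (nat_lit 4) (nat_lit 1) (nat_lit 4) (nat_lit 549) (nat_lit 362) (nat_lit 289)) (XT.lf (nat_lit 0) (nat_lit 61307203570) (nat_lit 152) (nat_lit 500863308647) (nat_lit 0) (nat_lit 60046253904) (nat_lit 1) (nat_lit 5) (nat_lit 3) (nat_lit 4) (nat_lit 1) (nat_lit 4) (nat_lit 550) (nat_lit 362) (nat_lit 288))) (XT.nd (nat_lit 78) (nat_lit 0) (nat_lit 0) (XT.lf (nat_lit 0) (nat_lit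 75333456994) (nat_lit 152) (nat_lit 503372017305) (nat_lit 0) (nat_lit 74070838641) (nat_lit 1) (nat_lit 5) (nat_lit 3) (nat_lit 4) (nat_lit 1) (nat_lit 4) (nat_lit 551) (nat_lit 362) (nat_lit 287)) (XT.lf (nat_lit 0) (nat_lit 90034696111) (nat_lit 152) (nat_lit 506059968826) (nat_lit 0) (nat_lit 88770488532) (nat_lit 1) (nat_lit 5) (nat_lit 3) (nat_lit 4) (nat_lit 1) (nat_lit 4) (nat_lit 552) (nat_lit 362) (nat_lit 286))))) (XT.nd (nat_lit 312) (nat_lit 0) (nat_lit 0) (XT.nd (nat_lit 156) (nat_lit 0) (nat_lit 0) (XT.nd (nat_lit 78) (nat_lit 0) (nat_lit 0) (XT.lf (nat_lit 0) (nat_lit 105445923869) (nat_lit 152) (nat_lit 508933563092) (nat_lit 0) (nat_lit 104180202742) (nat_lit 1) (nat_lit 5) (nat_lit 3) (nat_lit 4) (nat_lit 1) (nat_lit 4) (nat_lit 553) (nat_lit 362) (nat_lit 285)) (XT.lf (nat_lit 0) (nat_lit 121603833669) (nat_lit 152) (nat_lit 511999641996) (nat_lit 0) (nat_lit 120336671067) (nat_lit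 1) (nat_lit 5) (nat_lit 3) (nat_lit 4) (nat_lit 1) (nat_lit 4) (nat_lit 554) (nat_lit 362) (nat_lit 284))) (XT.nd (nat_lit 78) (nat_lit 0) (nat_lit 0) (XT.lf (nat_lit 0) (nat_lit 138546896724) (nat_lit 152) (nat_lit 515265505725) (nat_lit 0) (nat_lit 137278361289) (nat_lit 1) (nat_lit 5) (nat_lit 3) (nat_lit 4) (nat_lit 1) (nat_lit 4) (nat_lit 555) (nat_lit 362) (nat_lit 283)) (XT.lf (nat_lit 0) (nat_lit 156315453661) (nat_lit 152) (nat_lit 518738930145) (nat_lit 0) (nat_lit 155045610766) (nat_lit 1) (nat_lit 5) (nat_lit 3) (nat_lit 4) (nat_lit 1) (nat_lit 4) (nat_lit 556) (nat_lit 362) (nat_lit 282)))) (XT.nd (nat_lit 56082) (nat_lit 0) (nat_lit 2432) (XT.nd (nat_lit 56004) (nat_lit 0) (nat_lit 2660) (XT.lf (nat_lit 0) (nat_lit 174951810567) (nat_lit 152) (nat_lit 522428185314) (nat_lit 0) (nat_lit 173680722472) (nat_lit 1) (nat_lit 5) (nat_lit 3) (nat_lit 4) (nat_lit 1) (nat_lit 4) (nat_lit 557)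 (nat_lit 362) (nat_lit 281)) (XT.lf (nat_lit 0) (nat_lit 10798013219) (nat_lit 76) (nat_lit 1215560420) (nat_lit 76) (nat_lit 1215560420) (nat_lit 36) (nat_lit 4) (nat_lit 37) (nat_lit 5) (nat_lit 37) (nat_lit 4) (nat_lit 474) (nat_lit 363) (nat_lit 363))) (XT.nd (nat_lit 78) (nat_lit 76) (nat_lit 0) (XT.lf (nat_lit 0) (nat_lit 8477463011) (nat_lit 152) (nat_lit 10385802625) (nat_lit 0) (nat_lit 8366633697) (nat_lit 34) (nat_lit 5) (nat_lit 36) (nat_lit 4) (nat_lit 34) (nat_lit 4) (nat_lit 475) (nat_lit 363) (nat_lit 362)) (XT.lf (nat_lit 0) (nat_lit 11338981380) (nat_lit 76) (nat_lit 8459053555) (nat_lit 76) (nat_lit 8242672512) (nat_lit 33) (nat_lit 4) (nat_lit 34) (nat_lit 5) (nat_lit 34) (nat_lit 4) (nat_lit 476) (nat_lit 363) (nat_lit 361)))))) (XT.nd (nat_lit 624) (nat_lit 532) (nat_lit 0) (XT.nd (nat_lit 312) (nat_lit 304) (nat_lit 0) (XT.nd (nat_lit 156) (nat_lit 228) (nat_lit 0) (XT.nd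 (nat_lit 78) (nat_lit 0) (nat_lit 0) (XT.lf (nat_lit 0) (nat_lit 2646165760) (nat_lit 152) (nat_lit 23902212830) (nat_lit 0) (nat_lit 2344350048) (nat_lit 31) (nat_lit 5) (nat_lit 33) (nat_lit 4) (nat_lit 31) (nat_lit 4) (nat_lit 477) (nat_lit 363) (nat_lit 360)) (XT.lf (nat_lit 0) (nat_lit 13876760259) (nat_lit 152) (nat_lit 2416354174) (nat_lit 0) (nat_lit 13483764996) (nat_lit 31) (nat_lit 5) (nat_lit 33) (nat_lit 4) (nat_lit 31) (nat_lit 4) (nat_lit 478) (nat_lit 363) (nat_lit 359))) (XT.nd (nat_lit 78) (nat_lit 152) (nat_lit 0) (XT.lf (nat_lit 0) (nat_lit 20109398838) (nat_lit 76) (nat_lit 5538364404) (nat_lit 76) (nat_lit 5058531473) (nat_lit 30) (nat_lit 4) (nat_lit 31) (nat_lit 5) (nat_lit 31) (nat_lit 4) (nat_lit 479) (nat_lit 363) (nat_lit 358)) (XT.lf (nat_lit 0) (nat_lit 6102799798) (nat_lit 152) (nat_lit 20008386991) (nat_lit 0) (nat_lit 5567051729) (nat_lit 28) (nat_lit 5) (nat_lit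 30) (nat_lit 4) (nat_lit 28) (nat_lit 4) (nat_lit 480) (nat_lit 363) (nat_lit 357)))) (XT.nd (nat_lit 156) (nat_lit 228) (nat_lit 0) (XT.nd (nat_lit 78) (nat_lit 0) (nat_lit 0) (XT.lf (nat_lit 0) (nat_lit 1934872766) (nat_lit 76) (nat_lit 15686043485) (nat_lit 76) (nat_lit 15075281773) (nat_lit 27) (nat_lit 4) (nat_lit 28) (nat_lit 5) (nat_lit 28) (nat_lit 4) (nat_lit 481) (nat_lit 363) (nat_lit 356)) (XT.lf (nat_lit 0) (nat_lit 25002459967) (nat_lit 76) (nat_lit 4722157793) (nat_lit 76) (nat_lit 4039954517) (nat_lit 27) (nat_lit 4) (nat_lit 28) (nat_lit 5) (nat_lit 28) (nat_lit 4) (nat_lit 482) (nat_lit 363) (nat_lit 355))) (XT.nd (nat_lit 78) (nat_lit 76) (nat_lit 0) (XT.lf (nat_lit 0) (nat_lit 7312280773) (nat_lit 152) (nat_lit 20970094912) (nat_lit 0) (nat_lit 6597763763) (nat_lit 25) (nat_lit 5) (nat_lit 27) (nat_lit 4) (nat_lit 25) (nat_lit 4) (nat_lit 483) (nat_lit 363) (nat_lit 354)) (XT.lf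 (nat_lit 0) (nat_lit 1222553867) (nat_lit 76) (nat_lit 17802703159) (nat_lit 76) (nat_lit 17026472239) (nat_lit 24) (nat_lit 4) (nat_lit 25) (nat_lit 5) (nat_lit 25) (nat_lit 4) (nat_lit 484) (nat_lit 363) (nat_lit 353))))) (XT.nd (nat_lit 312) (nat_lit 304) (nat_lit 0) (XT.nd (nat_lit 156) (nat_lit 76) (nat_lit 0) (XT.nd (nat_lit 78) (nat_lit 152) (nat_lit 0) (XT.lf (nat_lit 0) (nat_lit 24616849774) (nat_lit 76) (nat_lit 6748979068) (nat_lit 76) (nat_lit 5913972996) (nat_lit 24) (nat_lit 4) (nat_lit 25) (nat_lit 5) (nat_lit 25) (nat_lit 4) (nat_lit 485) (nat_lit 363) (nat_lit 352)) (XT.lf (nat_lit 0) (nat_lit 5501637721) (nat_lit 152) (nat_lit 28413483135) (nat_lit 0) (nat_lit 4653083048) (nat_lit 22) (nat_lit 5) (nat_lit 24) (nat_lit 4) (nat_lit 22) (nat_lit 4) (nat_lit 486) (nat_lit 363) (nat_lit 351))) (XT.nd (nat_lit 78) (nat_lit 76) (nat_lit 0) (XT.lf (nat_lit 0) (nat_lit 17314895033) (nat_lit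 152) (nat_lit 6184435153) (nat_lit 0) (nat_lit 16415568174) (nat_lit 22) (nat_lit 5) (nat_lit 24) (nat_lit 4) (nat_lit 22) (nat_lit 4) (nat_lit 487) (nat_lit 363) (nat_lit 350)) (XT.lf (nat_lit 0) (nat_lit 17117323541) (nat_lit 76) (nat_lit 12580175804) (nat_lit 76) (nat_lit 11632494482) (nat_lit 21) (nat_lit 4) (nat_lit 22) (nat_lit 5) (nat_lit 22) (nat_lit 4) (nat_lit 488) (nat_lit 363) (nat_lit 349)))) (XT.nd (nat_lit 156) (nat_lit 152) (nat_lit 0) (XT.nd (nat_lit 78) (nat_lit 152) (nat_lit 0) (XT.lf (nat_lit 0) (nat_lit 41221738194) (nat_lit 76) (nat_lit 1298397231) (nat_lit 76) (nat_lit 304664040) (nat_lit 21) (nat_lit 4) (nat_lit 22) (nat_lit 5) (nat_lit 22) (nat_lit 4) (nat_lit 489) (nat_lit 363) (nat_lit 348)) (XT.lf (nat_lit 0) (nat_lit 11457852909) (nat_lit 152) (nat_lit 22445814027) (nat_lit 0) (nat_lit 10469669944) (nat_lit 19) (nat_lit 5) (nat_lit 21) (nat_lit 4) (nat_lit 19) (nat_lit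 4) (nat_lit 490) (nat_lit 363) (nat_lit 347))) (XT.nd (nat_lit 78) (nat_lit 76) (nat_lit 0) (XT.lf (nat_lit 0) (nat_lit 110270675) (nat_lit 76) (nat_lit 23463973069) (nat_lit 76) (nat_lit 22436008767) (nat_lit 18) (nat_lit 4) (nat_lit 19) (nat_lit 5) (nat_lit 19) (nat_lit 4) (nat_lit 491) (nat_lit 363) (nat_lit 346)) (XT.nd (nat_lit 78) (nat_lit 76) (nat_lit 0) (XT.lf (nat_lit 0) (nat_lit 24023560760) (nat_lit 76) (nat_lit 12382902201) (nat_lit 76) (nat_lit 11317050912) (nat_lit 18) (nat_lit 4) (nat_lit 19) (nat_lit 5) (nat_lit 19) (nat_lit 4) (nat_lit 492) (nat_lit 363) (nat_lit 345)) (XT.lf (nat_lit 0) (nat_lit 84924592) (nat_lit 152) (nat_lit 927838719) (nat_lit 76) (nat_lit 48522469821) (nat_lit 17) (nat_lit 5) (nat_lit 19) (nat_lit 5) (nat_lit 18) (nat_lit 4) (nat_lit 493) (nat_lit 363) (nat_lit 344))))))))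
noncomputable def xc53 : XT := (XT.nd (nat_lit 1248) (nat_lit 380) (nat_lit 0) (XT.nd (nat_lit 624) (nat_lit 228) (nat_lit 0) (XT.nd (nat_lit 312) (nat_lit 228) (nat_lit 0) (XT.nd (nat_lit 156) (nat_lit 76) (nat_lit 0) (XT.nd (nat_lit 78) (nat_lit 0) (nat_lit 0) (XT.lf (nat_lit 0) (nat_lit 11962660028) (nat_lit 152) (nat_lit 28570832232) (nat_lit 0) (nat_lit 10880470745) (nat_lit 16) (nat_lit 5) (nat_lit 18) (nat_lit 4) (nat_lit 16) (nat_lit 4) (nat_lit 494) (nat_lit 363) (nat_lit 343)) (XT.lf (nat_lit 0) (nat_lit 24217937893) (nat_lit 152) (nat_lit 6074930125) (nat_lit 0) (nat_lit 23104578892) (nat_lit 16) (nat_lit 5) (nat_lit 18) (nat_lit 4) (nat_lit 16) (nat_lit 4) (nat_lit 495) (nat_lit 363) (nat_lit 342))) (XT.nd (nat_lit 78) (nat_lit 0) (nat_lit 0) (XT.lf (nat_lit 0) (nat_lit 17627000858) (nat_lit 76) (nat_lit 19497120899) (nat_lit 76) (nat_lit 18354076453) (nat_lit 15) (nat_lit 4) (nat_lit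 16) (nat_lit 5) (nat_lit 16) (nat_lit 4) (nat_lit 496) (nat_lit 363) (nat_lit 341)) (XT.lf (nat_lit 0) (nat_lit 42249785269) (nat_lit 76) (nat_lit 8295517011) (nat_lit 76) (nat_lit 7124200712) (nat_lit 15) (nat_lit 4) (nat_lit 16) (nat_lit 5) (nat_lit 16) (nat_lit 4) (nat_lit 497) (nat_lit 363) (nat_lit 340)))) (XT.nd (nat_lit 156) (nat_lit 76) (nat_lit 0) (XT.nd (nat_lit 78) (nat_lit 0) (nat_lit 0) (XT.lf (nat_lit 0) (nat_lit 4468311000) (nat_lit 152) (nat_lit 52173764599) (nat_lit 0) (nat_lit 3327128263) (nat_lit 13) (nat_lit 5) (nat_lit 15) (nat_lit 4) (nat_lit 13) (nat_lit 4) (nat_lit 498) (nat_lit 363) (nat_lit 339)) (XT.lf (nat_lit 0) (nat_lit 16576795012) (nat_lit 152) (nat_lit 30381277191) (nat_lit 0) (nat_lit 15411189985) (nat_lit 13) (nat_lit 5) (nat_lit 15) (nat_lit 4) (nat_lit 13) (nat_lit 4) (nat_lit 499) (nat_lit 363) (nat_lit 338))) (XT.nd (nat_lit 78) (nat_lit 76) (nat_lit 0) (XT.lf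 (nat_lit 0) (nat_lit 29075801434) (nat_lit 152) (nat_lit 7937330241) (nat_lit 0) (nat_lit 27886937084) (nat_lit 13) (nat_lit 5) (nat_lit 15) (nat_lit 4) (nat_lit 13) (nat_lit 4) (nat_lit 500) (nat_lit 363) (nat_lit 337)) (XT.lf (nat_lit 0) (nat_lit 15714475576) (nat_lit 76) (nat_lit 26525961233) (nat_lit 76) (nat_lit 25314945146) (nat_lit 12) (nat_lit 4) (nat_lit 13) (nat_lit 5) (nat_lit 13) (nat_lit 4) (nat_lit 501) (nat_lit 363) (nat_lit 336))))) (XT.nd (nat_lit 312) (nat_lit 76) (nat_lit 0) (XT.nd (nat_lit 156) (nat_lit 152) (nat_lit 0) (XT.nd (nat_lit 78) (nat_lit 0) (nat_lit 0) (XT.lf (nat_lit 0) (nat_lit 40413868676) (nat_lit 76) (nat_lit 15582525412) (nat_lit 76) (nat_lit 14350412433) (nat_lit 12) (nat_lit 4) (nat_lit 13) (nat_lit 5) (nat_lit 13) (nat_lit 4) (nat_lit 502) (nat_lit 363) (nat_lit 335)) (XT.lf (nat_lit 0) (nat_lit 65957213150) (nat_lit 76) (nat_lit 4291190942) (nat_lit 76)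 (nat_lit 3038985686) (nat_lit 12) (nat_lit 4) (nat_lit 13) (nat_lit 5) (nat_lit 13) (nat_lit 4) (nat_lit 503) (nat_lit 363) (nat_lit 334))) (XT.nd (nat_lit 78) (nat_lit 0) (nat_lit 0) (XT.lf (nat_lit 0) (nat_lit 8747318303) (nat_lit 152) (nat_lit 60074658321) (nat_lit 0) (nat_lit 7536517580) (nat_lit 10) (nat_lit 5) (nat_lit 12) (nat_lit 4) (nat_lit 10) (nat_lit 4) (nat_lit 504) (nat_lit 363) (nat_lit 333)) (XT.lf (nat_lit 0) (nat_lit 21031781711) (nat_lit 152) (nat_lit 38744708121) (nat_lit 0) (nat_lit 19803624523) (nat_lit 10) (nat_lit 5) (nat_lit 12) (nat_lit 4) (nat_lit 10) (nat_lit 4) (nat_lit 505) (nat_lit 363) (nat_lit 332)))) (XT.nd (nat_lit 156) (nat_lit 0) (nat_lit 0) (XT.nd (nat_lit 78) (nat_lit 76) (nat_lit 0) (XT.lf (nat_lit 0) (nat_lit 33753755434) (nat_lit 152) (nat_lit 16708827613) (nat_lit 0) (nat_lit 32509068279) (nat_lit 10) (nat_lit 5) (nat_lit 12) (nat_lit 4) (nat_lit 10) (nat_lit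 4) (nat_lit 506) (nat_lit 363) (nat_lit 331)) (XT.lf (nat_lit 0) (nat_lit 6286662030) (nat_lit 76) (nat_lit 40755020268) (nat_lit 76) (nat_lit 39494590286) (nat_lit 9) (nat_lit 4) (nat_lit 10) (nat_lit 5) (nat_lit 10) (nat_lit 4) (nat_lit 507) (nat_lit 363) (nat_lit 330))) (XT.nd (nat_lit 78) (nat_lit 0) (nat_lit 0) (XT.lf (nat_lit 0) (nat_lit 30674160252) (nat_lit 76) (nat_lit 30437258643) (nat_lit 76) (nat_lit 29161835495) (nat_lit 9) (nat_lit 4) (nat_lit 10) (nat_lit 5) (nat_lit 10) (nat_lit 4) (nat_lit 508) (nat_lit 363) (nat_lit 329)) (XT.lf (nat_lit 0) (nat_lit 55959263223) (nat_lit 76) (nat_lit 19767704156) (nat_lit 76) (nat_lit 18478001801) (nat_lit 9) (nat_lit 4) (nat_lit 10) (nat_lit 5) (nat_lit 10) (nat_lit 4) (nat_lit 509) (nat_lit 363) (nat_lit 328)))))) (XT.nd (nat_lit 624) (nat_lit 152) (nat_lit 0) (XT.nd (nat_lit 312) (nat_lit 76) (nat_lit 0) (XT.nd (nat_lit 156) (nat_lit 0) (nat_lit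 0) (XT.nd (nat_lit 78) (nat_lit 152) (nat_lit 0) (XT.lf (nat_lit 0) (nat_lit 82202173571) (nat_lit 76) (nat_lit 8720953105) (nat_lit 76) (nat_lit 7417651505) (nat_lit 9) (nat_lit 4) (nat_lit 10) (nat_lit 5) (nat_lit 10) (nat_lit 4) (nat_lit 510) (nat_lit 363) (nat_lit 327)) (XT.lf (nat_lit 0) (nat_lit 4069741720) (nat_lit 152) (nat_lit 95793777780) (nat_lit 0) (nat_lit 2816167185) (nat_lit 7) (nat_lit 5) (nat_lit 9) (nat_lit 4) (nat_lit 7) (nat_lit 4) (nat_lit 511) (nat_lit 363) (nat_lit 326))) (XT.nd (nat_lit 78) (nat_lit 0) (nat_lit 0) (XT.lf (nat_lit 0) (nat_lit 16157664968) (nat_lit 152) (nat_lit 76165680728) (nat_lit 0) (nat_lit 14892342895) (nat_lit 7) (nat_lit 5) (nat_lit 9) (nat_lit 4) (nat_lit 7) (nat_lit 4) (nat_lit 512) (nat_lit 363) (nat_lit 325)) (XT.lf (nat_lit 0) (nat_lit 28711584374) (nat_lit 152) (nat_lit 55838752164) (nat_lit 0) (nat_lit 27435074168) (nat_lit 7) (nat_lit 5) (nat_lit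 9) (nat_lit 4) (nat_lit 7) (nat_lit 4) (nat_lit 513) (nat_lit 363) (nat_lit 324)))) (XT.nd (nat_lit 156) (nat_lit 76) (nat_lit 0) (XT.nd (nat_lit 78) (nat_lit 0) (nat_lit 0) (XT.lf (nat_lit 0) (nat_lit 41761390221) (nat_lit 152) (nat_lit 34764594641) (nat_lit 0) (nat_lit 40474224651) (nat_lit 7) (nat_lit 5) (nat_lit 9) (nat_lit 4) (nat_lit 7) (nat_lit 4) (nat_lit 514) (nat_lit 363) (nat_lit 323)) (XT.lf (nat_lit 0) (nat_lit 55338153476) (nat_lit 152) (nat_lit 12893031593) (nat_lit 0) (nat_lit 54040839940) (nat_lit 7) (nat_lit 5) (nat_lit 9) (nat_lit 4) (nat_lit 7) (nat_lit 4) (nat_lit 515) (nat_lit 363) (nat_lit 322))) (XT.nd (nat_lit 78) (nat_lit 0) (nat_lit 0) (XT.lf (nat_lit 0) (nat_lit 10152970596) (nat_lit 76) (nat_lit 59479745494) (nat_lit 76) (nat_lit 58172767229) (nat_lit 6) (nat_lit 4) (nat_lit 7) (nat_lit 5) (nat_lit 7) (nat_lit 4) (nat_lit 516) (nat_lit 363) (nat_lit 321)) (XT.lf (nat_lit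 0) (nat_lit 34558729417) (nat_lit 76) (nat_lit 50184015542) (nat_lit 76) (nat_lit 48867832773) (nat_lit 6) (nat_lit 4) (nat_lit 7) (nat_lit 5) (nat_lit 7) (nat_lit 4) (nat_lit 517) (nat_lit 363) (nat_lit 320))))) (XT.nd (nat_lit 312) (nat_lit 152) (nat_lit 0) (XT.nd (nat_lit 156) (nat_lit 0) (nat_lit 0) (XT.nd (nat_lit 78) (nat_lit 0) (nat_lit 0) (XT.lf (nat_lit 0) (nat_lit 59956051969) (nat_lit 76) (nat_lit 40540212252) (nat_lit 76) (nat_lit 39215263289) (nat_lit 6) (nat_lit 4) (nat_lit 7) (nat_lit 5) (nat_lit 7) (nat_lit 4) (nat_lit 518) (nat_lit 363) (nat_lit 319)) (XT.lf (nat_lit 0) (nat_lit 86405408067) (nat_lit 76) (nat_lit 30525374188) (nat_lit 76) (nat_lit 29192076468) (nat_lit 6) (nat_lit 4) (nat_lit 7) (nat_lit 5) (nat_lit 7) (nat_lit 4) (nat_lit 519) (nat_lit 363) (nat_lit 318))) (XT.nd (nat_lit 78) (nat_lit 0) (nat_lit 0) (XT.lf (nat_lit 0) (nat_lit 113969772368) (nat_lit 76) (nat_lit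 20115656495) (nat_lit 76) (nat_lit 18774407579) (nat_lit 6) (nat_lit 4) (nat_lit 7) (nat_lit 5) (nat_lit 7) (nat_lit 4) (nat_lit 520) (nat_lit 363) (nat_lit 317)) (XT.lf (nat_lit 0) (nat_lit 142714774312) (nat_lit 76) (nat_lit 9286274134) (nat_lit 76) (nat_lit 7937452649) (nat_lit 6) (nat_lit 4) (nat_lit 7) (nat_lit 5) (nat_lit 7) (nat_lit 4) (nat_lit 521) (nat_lit 363) (nat_lit 316)))) (XT.nd (nat_lit 156) (nat_lit 0) (nat_lit 0) (XT.nd (nat_lit 78) (nat_lit 0) (nat_lit 0) (XT.lf (nat_lit 0) (nat_lit 3356018410) (nat_lit 152) (nat_lit 161946595553) (nat_lit 0) (nat_lit 2064557977) (nat_lit 4) (nat_lit 5) (nat_lit 6) (nat_lit 4) (nat_lit 4) (nat_lit 4) (nat_lit 522) (nat_lit 363) (nat_lit 315)) (XT.lf (nat_lit 0) (nat_lit 15302480560) (nat_lit 152) (nat_lit 145836057669) (nat_lit 0) (nat_lit 14004478658) (nat_lit 4) (nat_lit 5) (nat_lit 6) (nat_lit 4) (nat_lit 4) (nat_lit 4) (nat_lit 523) (nat_lit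 363) (nat_lit 314))) (XT.nd (nat_lit 78) (nat_lit 0) (nat_lit 0) (XT.lf (nat_lit 0) (nat_lit 27757084873) (nat_lit 152) (nat_lit 129102175320) (nat_lit 0) (nat_lit 26452853000) (nat_lit 4) (nat_lit 5) (nat_lit 6) (nat_lit 4) (nat_lit 4) (nat_lit 4) (nat_lit 524) (nat_lit 363) (nat_lit 313)) (XT.nd (nat_lit 78) (nat_lit 0) (nat_lit 0) (XT.lf (nat_lit 0) (nat_lit 40749485167) (nat_lit 152) (nat_lit 111705105930) (nat_lit 0) (nat_lit 39439319989) (nat_lit 4) (nat_lit 5) (nat_lit 6) (nat_lit 4) (nat_lit 4) (nat_lit 4) (nat_lit 525) (nat_lit 363) (nat_lit 312)) (XT.lf (nat_lit 0) (nat_lit 54310615730) (nat_lit 152) (nat_lit 93603427904) (nat_lit 0) (nat_lit 52994799785) (nat_lit 4) (nat_lit 5) (nat_lit 6) (nat_lit 4) (nat_lit 4) (nat_lit 4) (nat_lit 526) (nat_lit 363) (nat_lit 311))))))))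
noncomputable def xc54 : XT := (XT.nd (nat_lit 1248) (nat_lit 152) (nat_lit 0) (XT.nd (nat_lit 624) (nat_lit 0) (nat_lit 0) (XT.nd (nat_lit 312) (nat_lit 76) (nat_lit 0) (XT.nd (nat_lit 156) (nat_lit 0) (nat_lit 0) (XT.nd (nat_lit 78) (nat_lit 0) (nat_lit 0) (XT.lf (nat_lit 0) (nat_lit 68472764968) (nat_lit 152) (nat_lit 74754042010) (nat_lit 0) (nat_lit 67151567339) (nat_lit 4) (nat_lit 5) (nat_lit 6) (nat_lit 4) (nat_lit 4) (nat_lit 4) (nat_lit 527) (nat_lit 363) (nat_lit 310)) (XT.lf (nat_lit 0) (nat_lit 83269652283) (nat_lit 152) (nat_lit 55112068756) (nat_lit 0) (nat_lit 81943329242) (nat_lit 4) (nat_lit 5) (nat_lit 6) (nat_lit 4) (nat_lit 4) (nat_lit 4) (nat_lit 528) (nat_lit 363) (nat_lit 309))) (XT.nd (nat_lit 78) (nat_lit 0) (nat_lit 0) (XT.lf (nat_lit 0) (nat_lit 98736508360) (nat_lit 152) (nat_lit 34630741541) (nat_lit 0) (nat_lit 97405303974) (nat_lit 4) (nat_lit 5) (nat_lit 6) (nat_lit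 4) (nat_lit 4) (nat_lit 4) (nat_lit 529) (nat_lit 363) (nat_lit 308)) (XT.lf (nat_lit 0) (nat_lit 114910159046) (nat_lit 152) (nat_lit 13261295299) (nat_lit 0) (nat_lit 113574305760) (nat_lit 4) (nat_lit 5) (nat_lit 6) (nat_lit 4) (nat_lit 4) (nat_lit 4) (nat_lit 530) (nat_lit 363) (nat_lit 307)))) (XT.nd (nat_lit 156) (nat_lit 0) (nat_lit 0) (XT.nd (nat_lit 78) (nat_lit 0) (nat_lit 0) (XT.lf (nat_lit 0) (nat_lit 9346289226) (nat_lit 76) (nat_lit 122628745575) (nat_lit 76) (nat_lit 121288464765) (nat_lit 3) (nat_lit 4) (nat_lit 4) (nat_lit 5) (nat_lit 4) (nat_lit 4) (nat_lit 531) (nat_lit 363) (nat_lit 306)) (XT.lf (nat_lit 0) (nat_lit 33417269840) (nat_lit 76) (nat_lit 116638120940) (nat_lit 76) (nat_lit 115293623441) (nat_lit 3) (nat_lit 4) (nat_lit 4) (nat_lit 5) (nat_lit 4) (nat_lit 4) (nat_lit 532) (nat_lit 363) (nat_lit 305))) (XT.nd (nat_lit 78) (nat_lit 0) (nat_lit 0) (XT.lf (nat_lit 0)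 (nat_lit 58570480088) (nat_lit 76) (nat_lit 110409903503) (nat_lit 76) (nat_lit 109061390109) (nat_lit 3) (nat_lit 4) (nat_lit 4) (nat_lit 5) (nat_lit 4) (nat_lit 4) (nat_lit 533) (nat_lit 363) (nat_lit 304)) (XT.lf (nat_lit 0) (nat_lit 84865808566) (nat_lit 76) (nat_lit 103929264173) (nat_lit 76) (nat_lit 102576926118) (nat_lit 3) (nat_lit 4) (nat_lit 4) (nat_lit 5) (nat_lit 4) (nat_lit 4) (nat_lit 534) (nat_lit 363) (nat_lit 303))))) (XT.nd (nat_lit 312) (nat_lit 0) (nat_lit 0) (XT.nd (nat_lit 156) (nat_lit 0) (nat_lit 0) (XT.nd (nat_lit 78) (nat_lit 0) (nat_lit 0) (XT.lf (nat_lit 0) (nat_lit 112365863198) (nat_lit 76) (nat_lit 97180772858) (nat_lit 76) (nat_lit 95824792268) (nat_lit 3) (nat_lit 4) (nat_lit 4) (nat_lit 5) (nat_lit 4) (nat_lit 4) (nat_lit 535) (nat_lit 363) (nat_lit 302)) (XT.lf (nat_lit 0) (nat_lit 141136120305) (nat_lit 76) (nat_lit 90148361720) (nat_lit 76) (nat_lit 88788912049)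 (nat_lit 3) (nat_lit 4) (nat_lit 4) (nat_lit 5) (nat_lit 4) (nat_lit 4) (nat_lit 536) (nat_lit 363) (nat_lit 301))) (XT.nd (nat_lit 78) (nat_lit 0) (nat_lit 0) (XT.lf (nat_lit 0) (nat_lit 171245080499) (nat_lit 76) (nat_lit 82815286924) (nat_lit 76) (nat_lit 81452533367) (nat_lit 3) (nat_lit 4) (nat_lit 4) (nat_lit 5) (nat_lit 4) (nat_lit 4) (nat_lit 537) (nat_lit 363) (nat_lit 300)) (XT.lf (nat_lit 0) (nat_lit 202764431781) (nat_lit 76) (nat_lit 75164088767) (nat_lit 76) (nat_lit 73798188652) (nat_lit 3) (nat_lit 4) (nat_lit 4) (nat_lit 5) (nat_lit 4) (nat_lit 4) (nat_lit 538) (nat_lit 363) (nat_lit 299)))) (XT.nd (nat_lit 156) (nat_lit 0) (nat_lit 0) (XT.nd (nat_lit 78) (nat_lit 0) (nat_lit 0) (XT.lf (nat_lit 0) (nat_lit 235769220225) (nat_lit 76) (nat_lit 67176550112) (nat_lit 76) (nat_lit 65807653274) (nat_lit 3) (nat_lit 4) (nat_lit 4) (nat_lit 5) (nat_lit 4) (nat_lit 4) (nat_lit 539) (nat_lit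 363) (nat_lit 298)) (XT.lf (nat_lit 0) (nat_lit 270338028662) (nat_lit 76) (nat_lit 58833653010) (nat_lit 76) (nat_lit 57461902150) (nat_lit 3) (nat_lit 4) (nat_lit 4) (nat_lit 5) (nat_lit 4) (nat_lit 4) (nat_lit 540) (nat_lit 363) (nat_lit 297))) (XT.nd (nat_lit 78) (nat_lit 0) (nat_lit 0) (XT.lf (nat_lit 0) (nat_lit 306553163776) (nat_lit 76) (nat_lit 50115533418) (nat_lit 76) (nat_lit 48741064443) (nat_lit 3) (nat_lit 4) (nat_lit 4) (nat_lit 5) (nat_lit 4) (nat_lit 4) (nat_lit 541) (nat_lit 363) (nat_lit 296)) (XT.lf (nat_lit 0) (nat_lit 344500852082) (nat_lit 76) (nat_lit 41001433911) (nat_lit 76) (nat_lit 39624376254) (nat_lit 3) (nat_lit 4) (nat_lit 4) (nat_lit 5) (nat_lit 4) (nat_lit 4) (nat_lit 542) (nat_lit 363) (nat_lit 295)))))) (XT.nd (nat_lit 624) (nat_lit 0) (nat_lit 0) (XT.nd (nat_lit 312) (nat_lit 0) (nat_lit 0) (XT.nd (nat_lit 156) (nat_lit 152) (nat_lit 0) (XT.nd (nat_lit 78)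 (nat_lit 0) (nat_lit 0) (XT.lf (nat_lit 0) (nat_lit 384271445217) (nat_lit 76) (nat_lit 31469654250) (nat_lit 76) (nat_lit 30090131183) (nat_lit 3) (nat_lit 4) (nat_lit 4) (nat_lit 5) (nat_lit 4) (nat_lit 4) (nat_lit 543) (nat_lit 363) (nat_lit 294)) (XT.lf (nat_lit 0) (nat_lit 425959635070) (nat_lit 76) (nat_lit 21497499723) (nat_lit 76) (nat_lit 20115628645) (nat_lit 3) (nat_lit 4) (nat_lit 4) (nat_lit 5) (nat_lit 4) (nat_lit 4) (nat_lit 544) (nat_lit 363) (nat_lit 293))) (XT.nd (nat_lit 78) (nat_lit 152) (nat_lit 0) (XT.lf (nat_lit 0) (nat_lit 469664679236) (nat_lit 76) (nat_lit 11061227104) (nat_lit 76) (nat_lit 9677119826) (nat_lit 3) (nat_lit 4) (nat_lit 4) (nat_lit 5) (nat_lit 4) (nat_lit 4) (nat_lit 545) (nat_lit 363) (nat_lit 292)) (XT.lf (nat_lit 0) (nat_lit 1130937929) (nat_lit 76) (nat_lit 96952276) (nat_lit 152) (nat_lit 513146627547) (nat_lit 1) (nat_lit 5) (nat_lit 2) (nat_lit 5)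 (nat_lit 3) (nat_lit 4) (nat_lit 546) (nat_lit 363) (nat_lit 291)))) (XT.nd (nat_lit 156) (nat_lit 0) (nat_lit 0) (XT.nd (nat_lit 78) (nat_lit 0) (nat_lit 0) (XT.lf (nat_lit 0) (nat_lit 12856135507) (nat_lit 152) (nat_lit 515121378306) (nat_lit 0) (nat_lit 11533978086) (nat_lit 1) (nat_lit 5) (nat_lit 3) (nat_lit 4) (nat_lit 1) (nat_lit 4) (nat_lit 547) (nat_lit 363) (nat_lit 290)) (XT.lf (nat_lit 0) (nat_lit 25036905686) (nat_lit 152) (nat_lit 517156944918) (nat_lit 0) (nat_lit 23712908537) (nat_lit 1) (nat_lit 5) (nat_lit 3) (nat_lit 4) (nat_lit 1) (nat_lit 4) (nat_lit 548) (nat_lit 363) (nat_lit 289))) (XT.nd (nat_lit 78) (nat_lit 0) (nat_lit 0) (XT.lf (nat_lit 0) (nat_lit 37797688879) (nat_lit 152) (nat_lit 519353612552) (nat_lit 0) (nat_lit 36471939608) (nat_lit 1) (nat_lit 5) (nat_lit 3) (nat_lit 4) (nat_lit 1) (nat_lit 4) (nat_lit 549) (nat_lit 363) (nat_lit 288)) (XT.lf (nat_lit 0) (nat_lit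 51168867903) (nat_lit 152) (nat_lit 521716611367) (nat_lit 0) (nat_lit 49841449945) (nat_lit 1) (nat_lit 5) (nat_lit 3) (nat_lit 4) (nat_lit 1) (nat_lit 4) (nat_lit 550) (nat_lit 363) (nat_lit 287))))) (XT.nd (nat_lit 312) (nat_lit 0) (nat_lit 0) (XT.nd (nat_lit 156) (nat_lit 0) (nat_lit 0) (XT.nd (nat_lit 78) (nat_lit 0) (nat_lit 0) (XT.lf (nat_lit 0) (nat_lit 65182278899) (nat_lit 152) (nat_lit 524251567552) (nat_lit 0) (nat_lit 63853271715) (nat_lit 1) (nat_lit 5) (nat_lit 3) (nat_lit 4) (nat_lit 1) (nat_lit 4) (nat_lit 551) (nat_lit 363) (nat_lit 286)) (XT.lf (nat_lit 0) (nat_lit 79871287131) (nat_lit 152) (nat_lit 526964516716) (nat_lit 0) (nat_lit 78540766398) (nat_lit 1) (nat_lit 5) (nat_lit 3) (nat_lit 4) (nat_lit 1) (nat_lit 4) (nat_lit 552) (nat_lit 363) (nat_lit 285))) (XT.nd (nat_lit 78) (nat_lit 0) (nat_lit 0) (XT.lf (nat_lit 0) (nat_lit 95270866427) (nat_lit 152) (nat_lit 529861918263)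 (nat_lit 0) (nat_lit 93938904221) (nat_lit 1) (nat_lit 5) (nat_lit 3) (nat_lit 4) (nat_lit 1) (nat_lit 4) (nat_lit 553) (nat_lit 363) (nat_lit 284)) (XT.lf (nat_lit 0) (nat_lit 111417682454) (nat_lit 152) (nat_lit 532950670766) (nat_lit 0) (nat_lit 110084347414) (nat_lit 1) (nat_lit 5) (nat_lit 3) (nat_lit 4) (nat_lit 1) (nat_lit 4) (nat_lit 554) (nat_lit 363) (nat_lit 283)))) (XT.nd (nat_lit 156) (nat_lit 0) (nat_lit 0) (XT.nd (nat_lit 78) (nat_lit 0) (nat_lit 0) (XT.lf (nat_lit 0) (nat_lit 128350180011) (nat_lit 152) (nat_lit 536238128400) (nat_lit 0) (nat_lit 127015537511) (nat_lit 1) (nat_lit 5) (nat_lit 3) (nat_lit 4) (nat_lit 1) (nat_lit 4) (nat_lit 555) (nat_lit 363) (nat_lit 282)) (XT.lf (nat_lit 0) (nat_lit 146108674569) (nat_lit 152) (nat_lit 539732118444) (nat_lit 0) (nat_lit 144772786869) (nat_lit 1) (nat_lit 5) (nat_lit 3) (nat_lit 4) (nat_lit 1) (nat_lit 4) (nat_lit 556) (nat_lit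 363) (nat_lit 281))) (XT.nd (nat_lit 55848) (nat_lit 0) (nat_lit 2736) (XT.lf (nat_lit 0) (nat_lit 164735448257) (nat_lit 152) (nat_lit 543440959922) (nat_lit 0) (nat_lit 163398374652) (nat_lit 1) (nat_lit 5) (nat_lit 3) (nat_lit 4) (nat_lit 1) (nat_lit 4) (nat_lit 557) (nat_lit 363) (nat_lit 280)) (XT.nd (nat_lit 78) (nat_lit 0) (nat_lit 0) (XT.lf (nat_lit 0) (nat_lit 1074277122) (nat_lit 152) (nat_lit 10350549516) (nat_lit 0) (nat_lit 1074277122) (nat_lit 37) (nat_lit 5) (nat_lit 39) (nat_lit 4) (nat_lit 37) (nat_lit 4) (nat_lit 472) (nat_lit 364) (nat_lit 364)) (XT.lf (nat_lit 0) (nat_lit 12800136785) (nat_lit 152) (nat_lit 236372975) (nat_lit 0) (nat_lit 12677947466) (nat_lit 37) (nat_lit 5) (nat_lit 39) (nat_lit 4) (nat_lit 37) (nat_lit 4) (nat_lit 473) (nat_lit 364) (nat_lit 363))))))))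
noncomputable def xc55 : XT := (XT.nd (nat_lit 1248) (nat_lit 836) (nat_lit 0) (XT.nd (nat_lit 624) (nat_lit 532) (nat_lit 0) (XT.nd (nat_lit 312) (nat_lit 228) (nat_lit 0) (XT.nd (nat_lit 156) (nat_lit 228) (nat_lit 0) (XT.nd (nat_lit 78) (nat_lit 152) (nat_lit 0) (XT.lf (nat_lit 0) (nat_lit 21254848852) (nat_lit 76) (nat_lit 2725221628) (nat_lit 76) (nat_lit 2486661529) (nat_lit 36) (nat_lit 4) (nat_lit 37) (nat_lit 5) (nat_lit 37) (nat_lit 4) (nat_lit 474) (nat_lit 364) (nat_lit 362)) (XT.lf (nat_lit 0) (nat_lit 8241512231) (nat_lit 152) (nat_lit 11097243857) (nat_lit 0) (nat_lit 7908760408) (nat_lit 34) (nat_lit 5) (nat_lit 36) (nat_lit 4) (nat_lit 34) (nat_lit 4) (nat_lit 475) (nat_lit 364) (nat_lit 361))) (XT.nd (nat_lit 78) (nat_lit 152) (nat_lit 0) (XT.lf (nat_lit 0) (nat_lit 10262569677) (nat_lit 76) (nat_lit 9119028507) (nat_lit 76) (nat_lit 8685751229) (nat_lit 33) (nat_lit 4) (nat_lit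 34) (nat_lit 5) (nat_lit 34) (nat_lit 4) (nat_lit 476) (nat_lit 364) (nat_lit 360)) (XT.lf (nat_lit 0) (nat_lit 2017252362) (nat_lit 152) (nat_lit 25399037599) (nat_lit 0) (nat_lit 1513427784) (nat_lit 31) (nat_lit 5) (nat_lit 33) (nat_lit 4) (nat_lit 31) (nat_lit 4) (nat_lit 477) (nat_lit 364) (nat_lit 359)))) (XT.nd (nat_lit 156) (nat_lit 152) (nat_lit 0) (XT.nd (nat_lit 78) (nat_lit 76) (nat_lit 0) (XT.lf (nat_lit 0) (nat_lit 13084390611) (nat_lit 152) (nat_lit 4243922808) (nat_lit 0) (nat_lit 12493728365) (nat_lit 31) (nat_lit 5) (nat_lit 33) (nat_lit 4) (nat_lit 31) (nat_lit 4) (nat_lit 478) (nat_lit 364) (nat_lit 358)) (XT.lf (nat_lit 0) (nat_lit 17895993246) (nat_lit 76) (nat_lit 6769170265) (nat_lit 76) (nat_lit 6095805478) (nat_lit 30) (nat_lit 4) (nat_lit 31) (nat_lit 5) (nat_lit 31) (nat_lit 4) (nat_lit 479) (nat_lit 364) (nat_lit 357))) (XT.nd (nat_lit 78) (nat_lit 0) (nat_lit 0) (XT.lf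 (nat_lit 0) (nat_lit 4879064251) (nat_lit 152) (nat_lit 22702890882) (nat_lit 0) (nat_lit 4162750812) (nat_lit 28) (nat_lit 5) (nat_lit 30) (nat_lit 4) (nat_lit 28) (nat_lit 4) (nat_lit 480) (nat_lit 364) (nat_lit 356)) (XT.lf (nat_lit 0) (nat_lit 16211483516) (nat_lit 152) (nat_lit 1136738640) (nat_lit 0) (nat_lit 15423728512) (nat_lit 28) (nat_lit 5) (nat_lit 30) (nat_lit 4) (nat_lit 28) (nat_lit 4) (nat_lit 481) (nat_lit 364) (nat_lit 355))))) (XT.nd (nat_lit 312) (nat_lit 228) (nat_lit 0) (XT.nd (nat_lit 156) (nat_lit 76) (nat_lit 0) (XT.nd (nat_lit 78) (nat_lit 152) (nat_lit 0) (XT.lf (nat_lit 0) (nat_lit 21583166884) (nat_lit 76) (nat_lit 6560757988) (nat_lit 76) (nat_lit 5704963399) (nat_lit 27) (nat_lit 4) (nat_lit 28) (nat_lit 5) (nat_lit 28) (nat_lit 4) (nat_lit 482) (nat_lit 364) (nat_lit 354)) (XT.lf (nat_lit 0) (nat_lit 5459091390) (nat_lit 152) (nat_lit 24936402678) (nat_lit 0) (nat_lit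 4582335015) (nat_lit 25) (nat_lit 5) (nat_lit 27) (nat_lit 4) (nat_lit 25) (nat_lit 4) (nat_lit 483) (nat_lit 364) (nat_lit 353))) (XT.nd (nat_lit 78) (nat_lit 76) (nat_lit 0) (XT.lf (nat_lit 0) (nat_lit 17005047515) (nat_lit 152) (nat_lit 3083206698) (nat_lit 0) (nat_lit 16069515988) (nat_lit 25) (nat_lit 5) (nat_lit 27) (nat_lit 4) (nat_lit 25) (nat_lit 4) (nat_lit 484) (nat_lit 364) (nat_lit 352)) (XT.lf (nat_lit 0) (nat_lit 19913664956) (nat_lit 76) (nat_lit 9236723746) (nat_lit 76) (nat_lit 8245215884) (nat_lit 24) (nat_lit 4) (nat_lit 25) (nat_lit 5) (nat_lit 25) (nat_lit 4) (nat_lit 485) (nat_lit 364) (nat_lit 351)))) (XT.nd (nat_lit 156) (nat_lit 76) (nat_lit 0) (XT.nd (nat_lit 78) (nat_lit 0) (nat_lit 0) (XT.lf (nat_lit 0) (nat_lit 2979366986) (nat_lit 152) (nat_lit 33735440294) (nat_lit 0) (nat_lit 1984301598) (nat_lit 22) (nat_lit 5) (nat_lit 24) (nat_lit 4) (nat_lit 22) (nat_lit 4)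 (nat_lit 486) (nat_lit 364) (nat_lit 350)) (XT.lf (nat_lit 0) (nat_lit 14651860758) (nat_lit 152) (nat_lit 11792540087) (nat_lit 0) (nat_lit 13608440907) (nat_lit 22) (nat_lit 5) (nat_lit 24) (nat_lit 4) (nat_lit 22) (nat_lit 4) (nat_lit 487) (nat_lit 364) (nat_lit 349))) (XT.nd (nat_lit 78) (nat_lit 0) (nat_lit 0) (XT.lf (nat_lit 0) (nat_lit 11042256843) (nat_lit 76) (nat_lit 15763298897) (nat_lit 76) (nat_lit 14673827177) (nat_lit 21) (nat_lit 4) (nat_lit 22) (nat_lit 5) (nat_lit 22) (nat_lit 4) (nat_lit 488) (nat_lit 364) (nat_lit 348)) (XT.lf (nat_lit 0) (nat_lit 34878545317) (nat_lit 76) (nat_lit 4617783623) (nat_lit 76) (nat_lit 3484452980) (nat_lit 21) (nat_lit 4) (nat_lit 22) (nat_lit 5) (nat_lit 22) (nat_lit 4) (nat_lit 489) (nat_lit 364) (nat_lit 347)))))) (XT.nd (nat_lit 624) (nat_lit 380) (nat_lit 0) (XT.nd (nat_lit 312) (nat_lit 228) (nat_lit 0) (XT.nd (nat_lit 156) (nat_lit 76) (nat_lit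 0) (XT.nd (nat_lit 78) (nat_lit 0) (nat_lit 0) (XT.lf (nat_lit 0) (nat_lit 8087510357) (nat_lit 152) (nat_lit 29490541279) (nat_lit 0) (nat_lit 6968366504) (nat_lit 19) (nat_lit 5) (nat_lit 21) (nat_lit 4) (nat_lit 19) (nat_lit 4) (nat_lit 490) (nat_lit 364) (nat_lit 346)) (XT.lf (nat_lit 0) (nat_lit 20074600573) (nat_lit 152) (nat_lit 7197628687) (nat_lit 0) (nat_lit 18917569733) (nat_lit 19) (nat_lit 5) (nat_lit 21) (nat_lit 4) (nat_lit 19) (nat_lit 4) (nat_lit 491) (nat_lit 364) (nat_lit 345))) (XT.nd (nat_lit 78) (nat_lit 0) (nat_lit 0) (XT.lf (nat_lit 0) (nat_lit 16222220313) (nat_lit 76) (nat_lit 16443016527) (nat_lit 76) (nat_lit 15249902842) (nat_lit 18) (nat_lit 4) (nat_lit 19) (nat_lit 5) (nat_lit 19) (nat_lit 4) (nat_lit 492) (nat_lit 364) (nat_lit 344)) (XT.lf (nat_lit 0) (nat_lit 40564201755) (nat_lit 76) (nat_lit 5198089982) (nat_lit 76) (nat_lit 3970611683) (nat_lit 18) (nat_lit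 4) (nat_lit 19) (nat_lit 5) (nat_lit 19) (nat_lit 4) (nat_lit 493) (nat_lit 364) (nat_lit 343)))) (XT.nd (nat_lit 156) (nat_lit 76) (nat_lit 0) (XT.nd (nat_lit 78) (nat_lit 0) (nat_lit 0) (XT.lf (nat_lit 0) (nat_lit 7712343909) (nat_lit 152) (nat_lit 37406335129) (nat_lit 0) (nat_lit 6512147240) (nat_lit 16) (nat_lit 5) (nat_lit 18) (nat_lit 4) (nat_lit 16) (nat_lit 4) (nat_lit 494) (nat_lit 364) (nat_lit 342)) (XT.lf (nat_lit 0) (nat_lit 19851980420) (nat_lit 152) (nat_lit 15146013675) (nat_lit 0) (nat_lit 18622098305) (nat_lit 16) (nat_lit 5) (nat_lit 18) (nat_lit 4) (nat_lit 16) (nat_lit 4) (nat_lit 495) (nat_lit 364) (nat_lit 341))) (XT.nd (nat_lit 78) (nat_lit 0) (nat_lit 0) (XT.lf (nat_lit 0) (nat_lit 8024205355) (nat_lit 76) (nat_lit 24473897757) (nat_lit 76) (nat_lit 23215743789) (nat_lit 15) (nat_lit 4) (nat_lit 16) (nat_lit 5) (nat_lit 16) (nat_lit 4) (nat_lit 496) (nat_lit 364) (nat_lit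 340)) (XT.lf (nat_lit 0) (nat_lit 32426245990) (nat_lit 76) (nat_lit 13384701098) (nat_lit 76) (nat_lit 12099621556) (nat_lit 15) (nat_lit 4) (nat_lit 16) (nat_lit 5) (nat_lit 16) (nat_lit 4) (nat_lit 497) (nat_lit 364) (nat_lit 339))))) (XT.nd (nat_lit 312) (nat_lit 152) (nat_lit 0) (XT.nd (nat_lit 156) (nat_lit 76) (nat_lit 0) (XT.nd (nat_lit 78) (nat_lit 152) (nat_lit 0) (XT.lf (nat_lit 0) (nat_lit 57617412713) (nat_lit 76) (nat_lit 1960506342) (nat_lit 76) (nat_lit 649783396) (nat_lit 15) (nat_lit 4) (nat_lit 16) (nat_lit 5) (nat_lit 16) (nat_lit 4) (nat_lit 498) (nat_lit 364) (nat_lit 338)) (XT.lf (nat_lit 0) (nat_lit 11301266967) (nat_lit 152) (nat_lit 41306212637) (nat_lit 0) (nat_lit 10029700075) (nat_lit 13) (nat_lit 5) (nat_lit 15) (nat_lit 4) (nat_lit 13) (nat_lit 4) (nat_lit 499) (nat_lit 364) (nat_lit 337))) (XT.nd (nat_lit 78) (nat_lit 76) (nat_lit 0) (XT.lf (nat_lit 0) (nat_lit 23700435159)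 (nat_lit 152) (nat_lit 19065826583) (nat_lit 0) (nat_lit 22406716531) (nat_lit 13) (nat_lit 5) (nat_lit 15) (nat_lit 4) (nat_lit 13) (nat_lit 4) (nat_lit 500) (nat_lit 364) (nat_lit 336)) (XT.lf (nat_lit 0) (nat_lit 4017743233) (nat_lit 76) (nat_lit 32569624501) (nat_lit 76) (nat_lit 31254808981) (nat_lit 12) (nat_lit 4) (nat_lit 13) (nat_lit 5) (nat_lit 13) (nat_lit 4) (nat_lit 501) (nat_lit 364) (nat_lit 335)))) (XT.nd (nat_lit 156) (nat_lit 152) (nat_lit 0) (XT.nd (nat_lit 78) (nat_lit 0) (nat_lit 0) (XT.lf (nat_lit 0) (nat_lit 28526395708) (nat_lit 76) (nat_lit 21723395091) (nat_lit 76) (nat_lit 20388487293) (nat_lit 12) (nat_lit 4) (nat_lit 13) (nat_lit 5) (nat_lit 13) (nat_lit 4) (nat_lit 502) (nat_lit 364) (nat_lit 334)) (XT.lf (nat_lit 0) (nat_lit 53888082445) (nat_lit 76) (nat_lit 10524638156) (nat_lit 76) (nat_lit 9170594855) (nat_lit 12) (nat_lit 4) (nat_lit 13) (nat_lit 5) (nat_lit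 13) (nat_lit 4) (nat_lit 503) (nat_lit 364) (nat_lit 333))) (XT.nd (nat_lit 78) (nat_lit 0) (nat_lit 0) (XT.lf (nat_lit 0) (nat_lit 2421420035) (nat_lit 152) (nat_lit 73142814937) (nat_lit 0) (nat_lit 1114498521) (nat_lit 10) (nat_lit 5) (nat_lit 12) (nat_lit 4) (nat_lit 10) (nat_lit 4) (nat_lit 504) (nat_lit 364) (nat_lit 332)) (XT.nd (nat_lit 78) (nat_lit 0) (nat_lit 0) (XT.lf (nat_lit 0) (nat_lit 14619682050) (nat_lit 152) (nat_lit 51988751177) (nat_lit 0) (nat_lit 13296230570) (nat_lit 10) (nat_lit 5) (nat_lit 12) (nat_lit 4) (nat_lit 10) (nat_lit 4) (nat_lit 505) (nat_lit 364) (nat_lit 331)) (XT.lf (nat_lit 0) (nat_lit 27259559208) (nat_lit 152) (nat_lit 30120381564) (nat_lit 0) (nat_lit 25920364902) (nat_lit 10) (nat_lit 5) (nat_lit 12) (nat_lit 4) (nat_lit 10) (nat_lit 4) (nat_lit 506) (nat_lit 364) (nat_lit 330))))))))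
noncomputable def xc56 : XT := (XT.nd (nat_lit 1248) (nat_lit 228) (nat_lit 0) (XT.nd (nat_lit 624) (nat_lit 76) (nat_lit 0) (XT.nd (nat_lit 312) (nat_lit 152) (nat_lit 0) (XT.nd (nat_lit 156) (nat_lit 0) (nat_lit 0) (XT.nd (nat_lit 78) (nat_lit 76) (nat_lit 0) (XT.lf (nat_lit 0) (nat_lit 40371146454) (nat_lit 152) (nat_lit 7485638553) (nat_lit 0) (nat_lit 39016958981) (nat_lit 10) (nat_lit 5) (nat_lit 12) (nat_lit 4) (nat_lit 10) (nat_lit 4) (nat_lit 507) (nat_lit 364) (nat_lit 329)) (XT.lf (nat_lit 0) (nat_lit 16497389597) (nat_lit 76) (nat_lit 37745842743) (nat_lit 76) (nat_lit 36377376063) (nat_lit 9) (nat_lit 4) (nat_lit 10) (nat_lit 5) (nat_lit 10) (nat_lit 4) (nat_lit 508) (nat_lit 364) (nat_lit 328))) (XT.nd (nat_lit 78) (nat_lit 0) (nat_lit 0) (XT.lf (nat_lit 0) (nat_lit 41633005850) (nat_lit 76) (nat_lit 27152522967) (nat_lit 76) (nat_lit 25770457043) (nat_lit 9) (nat_lit 4) (nat_lit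 10) (nat_lit 5) (nat_lit 10) (nat_lit 4) (nat_lit 509) (nat_lit 364) (nat_lit 327)) (XT.lf (nat_lit 0) (nat_lit 67733547895) (nat_lit 76) (nat_lit 16178376404) (nat_lit 76) (nat_lit 14783358818) (nat_lit 9) (nat_lit 4) (nat_lit 10) (nat_lit 5) (nat_lit 10) (nat_lit 4) (nat_lit 510) (nat_lit 364) (nat_lit 326)))) (XT.nd (nat_lit 156) (nat_lit 0) (nat_lit 0) (XT.nd (nat_lit 78) (nat_lit 152) (nat_lit 0) (XT.lf (nat_lit 0) (nat_lit 94861159879) (nat_lit 76) (nat_lit 4797274131) (nat_lit 76) (nat_lit 3389921629) (nat_lit 9) (nat_lit 4) (nat_lit 10) (nat_lit 5) (nat_lit 10) (nat_lit 4) (nat_lit 511) (nat_lit 364) (nat_lit 325)) (XT.lf (nat_lit 0) (nat_lit 8529872866) (nat_lit 152) (nat_lit 91892613397) (nat_lit 0) (nat_lit 7178349017) (nat_lit 7) (nat_lit 5) (nat_lit 9) (nat_lit 4) (nat_lit 7) (nat_lit 4) (nat_lit 512) (nat_lit 364) (nat_lit 324))) (XT.nd (nat_lit 78) (nat_lit 0) (nat_lit 0) (XT.lf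 (nat_lit 0) (nat_lit 21019494940) (nat_lit 152) (nat_lit 71696961647) (nat_lit 0) (nat_lit 19657315727) (nat_lit 7) (nat_lit 5) (nat_lit 9) (nat_lit 4) (nat_lit 7) (nat_lit 4) (nat_lit 513) (nat_lit 364) (nat_lit 323)) (XT.lf (nat_lit 0) (nat_lit 34008065234) (nat_lit 152) (nat_lit 50747829661) (nat_lit 0) (nat_lit 32635738055) (nat_lit 7) (nat_lit 5) (nat_lit 9) (nat_lit 4) (nat_lit 7) (nat_lit 4) (nat_lit 514) (nat_lit 364) (nat_lit 322))))) (XT.nd (nat_lit 312) (nat_lit 0) (nat_lit 0) (XT.nd (nat_lit 156) (nat_lit 76) (nat_lit 0) (XT.nd (nat_lit 78) (nat_lit 0) (nat_lit 0) (XT.lf (nat_lit 0) (nat_lit 47526508914) (nat_lit 152) (nat_lit 28995338553) (nat_lit 0) (nat_lit 46144517006) (nat_lit 7) (nat_lit 5) (nat_lit 9) (nat_lit 4) (nat_lit 7) (nat_lit 4) (nat_lit 515) (nat_lit 364) (nat_lit 321)) (XT.lf (nat_lit 0) (nat_lit 61607012752) (nat_lit 152) (nat_lit 6387696677) (nat_lit 0) (nat_lit 60215816340)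 (nat_lit 7) (nat_lit 5) (nat_lit 9) (nat_lit 4) (nat_lit 7) (nat_lit 4) (nat_lit 516) (nat_lit 364) (nat_lit 320))) (XT.nd (nat_lit 78) (nat_lit 0) (nat_lit 0) (XT.lf (nat_lit 0) (nat_lit 17695283258) (nat_lit 76) (nat_lit 58864091460) (nat_lit 76) (nat_lit 57464128854) (nat_lit 6) (nat_lit 4) (nat_lit 7) (nat_lit 5) (nat_lit 7) (nat_lit 4) (nat_lit 517) (nat_lit 364) (nat_lit 319)) (XT.lf (nat_lit 0) (nat_lit 42986346014) (nat_lit 76) (nat_lit 49274510311) (nat_lit 76) (nat_lit 47866198949) (nat_lit 6) (nat_lit 4) (nat_lit 7) (nat_lit 5) (nat_lit 7) (nat_lit 4) (nat_lit 518) (nat_lit 364) (nat_lit 318)))) (XT.nd (nat_lit 156) (nat_lit 0) (nat_lit 0) (XT.nd (nat_lit 78) (nat_lit 0) (nat_lit 0) (XT.lf (nat_lit 0) (nat_lit 69334502306) (nat_lit 76) (nat_lit 39311312381) (nat_lit 76) (nat_lit 37895049822) (nat_lit 6) (nat_lit 4) (nat_lit 7) (nat_lit 5) (nat_lit 7) (nat_lit 4) (nat_lit 519) (nat_lit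 364) (nat_lit 317)) (XT.lf (nat_lit 0) (nat_lit 96802485841) (nat_lit 76) (nat_lit 28950775769) (nat_lit 76) (nat_lit 27526940642) (nat_lit 6) (nat_lit 4) (nat_lit 7) (nat_lit 5) (nat_lit 7) (nat_lit 4) (nat_lit 520) (nat_lit 364) (nat_lit 316))) (XT.nd (nat_lit 78) (nat_lit 0) (nat_lit 0) (XT.lf (nat_lit 0) (nat_lit 125455696578) (nat_lit 76) (nat_lit 18168232532) (nat_lit 76) (nat_lit 16737185434) (nat_lit 6) (nat_lit 4) (nat_lit 7) (nat_lit 5) (nat_lit 7) (nat_lit 4) (nat_lit 521) (nat_lit 364) (nat_lit 315)) (XT.lf (nat_lit 0) (nat_lit 155362356448) (nat_lit 76) (nat_lit 6938009947) (nat_lit 76) (nat_lit 5500094307) (nat_lit 6) (nat_lit 4) (nat_lit 7) (nat_lit 5) (nat_lit 7) (nat_lit 4) (nat_lit 522) (nat_lit 364) (nat_lit 314)))))) (XT.nd (nat_lit 624) (nat_lit 76) (nat_lit 0) (XT.nd (nat_lit 312) (nat_lit 0) (nat_lit 0) (XT.nd (nat_lit 156) (nat_lit 0) (nat_lit 0) (XT.nd (nat_lit 78) (nat_lit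 0) (nat_lit 0) (XT.lf (nat_lit 0) (nat_lit 6266677182) (nat_lit 152) (nat_lit 164440704749) (nat_lit 0) (nat_lit 4891003744) (nat_lit 4) (nat_lit 5) (nat_lit 6) (nat_lit 4) (nat_lit 4) (nat_lit 4) (nat_lit 523) (nat_lit 364) (nat_lit 313)) (XT.lf (nat_lit 0) (nat_lit 18679850161) (nat_lit 152) (nat_lit 147791459998) (nat_lit 0) (nat_lit 17298243418) (nat_lit 4) (nat_lit 5) (nat_lit 6) (nat_lit 4) (nat_lit 4) (nat_lit 4) (nat_lit 524) (nat_lit 364) (nat_lit 312))) (XT.nd (nat_lit 78) (nat_lit 0) (nat_lit 0) (XT.lf (nat_lit 0) (nat_lit 31632792042) (nat_lit 152) (nat_lit 130474997844) (nat_lit 0) (nat_lit 30245534533) (nat_lit 4) (nat_lit 5) (nat_lit 6) (nat_lit 4) (nat_lit 4) (nat_lit 4) (nat_lit 525) (nat_lit 364) (nat_lit 311)) (XT.lf (nat_lit 0) (nat_lit 45156343165) (nat_lit 152) (nat_lit 112450088615) (nat_lit 0) (nat_lit 43763703972) (nat_lit 4) (nat_lit 5) (nat_lit 6) (nat_lit 4) (nat_lit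 4) (nat_lit 4) (nat_lit 526) (nat_lit 364) (nat_lit 310)))) (XT.nd (nat_lit 156) (nat_lit 0) (nat_lit 0) (XT.nd (nat_lit 78) (nat_lit 0) (nat_lit 0) (XT.lf (nat_lit 0) (nat_lit 59282702459) (nat_lit 152) (nat_lit 93673815860) (nat_lit 0) (nat_lit 57884937854) (nat_lit 4) (nat_lit 5) (nat_lit 6) (nat_lit 4) (nat_lit 4) (nat_lit 4) (nat_lit 527) (nat_lit 364) (nat_lit 309)) (XT.lf (nat_lit 0) (nat_lit 74045504113) (nat_lit 152) (nat_lit 74101474168) (nat_lit 0) (nat_lit 72642858163) (nat_lit 4) (nat_lit 5) (nat_lit 6) (nat_lit 4) (nat_lit 4) (nat_lit 4) (nat_lit 528) (nat_lit 364) (nat_lit 308))) (XT.nd (nat_lit 78) (nat_lit 0) (nat_lit 0) (XT.lf (nat_lit 0) (nat_lit 89479897656) (nat_lit 152) (nat_lit 53686462725) (nat_lit 0) (nat_lit 88072602806) (nat_lit 4) (nat_lit 5) (nat_lit 6) (nat_lit 4) (nat_lit 4) (nat_lit 4) (nat_lit 529) (nat_lit 364) (nat_lit 307)) (XT.lf (nat_lit 0) (nat_lit 105622631644)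 (nat_lit 152) (nat_lit 32380174362) (nat_lit 0) (nat_lit 104210909270) (nat_lit 4) (nat_lit 5) (nat_lit 6) (nat_lit 4) (nat_lit 4) (nat_lit 4) (nat_lit 530) (nat_lit 364) (nat_lit 306))))) (XT.nd (nat_lit 312) (nat_lit 0) (nat_lit 0) (XT.nd (nat_lit 156) (nat_lit 0) (nat_lit 0) (XT.nd (nat_lit 78) (nat_lit 76) (nat_lit 0) (XT.lf (nat_lit 0) (nat_lit 122512141156) (nat_lit 152) (nat_lit 10131879820) (nat_lit 0) (nat_lit 121096202093) (nat_lit 4) (nat_lit 5) (nat_lit 6) (nat_lit 4) (nat_lit 4) (nat_lit 4) (nat_lit 531) (nat_lit 364) (nat_lit 305)) (XT.lf (nat_lit 0) (nat_lit 13544914896) (nat_lit 76) (nat_lit 126855198498) (nat_lit 76) (nat_lit 125435243540) (nat_lit 3) (nat_lit 4) (nat_lit 4) (nat_lit 5) (nat_lit 4) (nat_lit 4) (nat_lit 532) (nat_lit 364) (nat_lit 304))) (XT.nd (nat_lit 78) (nat_lit 0) (nat_lit 0) (XT.lf (nat_lit 0) (nat_lit 38641763054) (nat_lit 76) (nat_lit 120655756172) (nat_lit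 76) (nat_lit 119231976553) (nat_lit 3) (nat_lit 4) (nat_lit 4) (nat_lit 5) (nat_lit 4) (nat_lit 4) (nat_lit 533) (nat_lit 364) (nat_lit 303)) (XT.lf (nat_lit 0) (nat_lit 64883413351) (nat_lit 76) (nat_lit 114202521711) (nat_lit 76) (nat_lit 112775099557) (nat_lit 3) (nat_lit 4) (nat_lit 4) (nat_lit 5) (nat_lit 4) (nat_lit 4) (nat_lit 534) (nat_lit 364) (nat_lit 302)))) (XT.nd (nat_lit 156) (nat_lit 0) (nat_lit 0) (XT.nd (nat_lit 78) (nat_lit 0) (nat_lit 0) (XT.lf (nat_lit 0) (nat_lit 92332345907) (nat_lit 76) (nat_lit 107480130270) (nat_lit 76) (nat_lit 106049239035) (nat_lit 3) (nat_lit 4) (nat_lit 4) (nat_lit 5) (nat_lit 4) (nat_lit 4) (nat_lit 535) (nat_lit 364) (nat_lit 301)) (XT.lf (nat_lit 0) (nat_lit 121053915322) (nat_lit 76) (nat_lit 100472576156) (nat_lit 76) (nat_lit 99038381035) (nat_lit 3) (nat_lit 4) (nat_lit 4) (nat_lit 5) (nat_lit 4) (nat_lit 4) (nat_lit 536) (nat_lit 364) (nat_lit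 300))) (XT.nd (nat_lit 78) (nat_lit 0) (nat_lit 0) (XT.lf (nat_lit 0) (nat_lit 151116506287) (nat_lit 76) (nat_lit 93163174716) (nat_lit 76) (nat_lit 91725833036) (nat_lit 3) (nat_lit 4) (nat_lit 4) (nat_lit 5) (nat_lit 4) (nat_lit 4) (nat_lit 537) (nat_lit 364) (nat_lit 299)) (XT.lf (nat_lit 0) (nat_lit 182591696397) (nat_lit 76) (nat_lit 85534522613) (nat_lit 76) (nat_lit 84094184211) (nat_lit 3) (nat_lit 4) (nat_lit 4) (nat_lit 5) (nat_lit 4) (nat_lit 4) (nat_lit 538) (nat_lit 364) (nat_lit 298)))))))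
noncomputable def xc57 : XT := (XT.nd (nat_lit 1248) (nat_lit 0) (nat_lit 0) (XT.nd (nat_lit 624) (nat_lit 152) (nat_lit 0) (XT.nd (nat_lit 312) (nat_lit 0) (nat_lit 0) (XT.nd (nat_lit 156) (nat_lit 0) (nat_lit 0) (XT.nd (nat_lit 78) (nat_lit 0) (nat_lit 0) (XT.lf (nat_lit 0) (nat_lit 215554426583) (nat_lit 76) (nat_lit 77568456390) (nat_lit 76) (nat_lit 76125263966) (nat_lit 3) (nat_lit 4) (nat_lit 4) (nat_lit 5) (nat_lit 4) (nat_lit 4) (nat_lit 539) (nat_lit 364) (nat_lit 297)) (XT.lf (nat_lit 0) (nat_lit 250083179534) (nat_lit 76) (nat_lit 69246009222) (nat_lit 76) (nat_lit 67800098682) (nat_lit 3) (nat_lit 4) (nat_lit 4) (nat_lit 5) (nat_lit 4) (nat_lit 4) (nat_lit 540) (nat_lit 364) (nat_lit 296))) (XT.nd (nat_lit 78) (nat_lit 0) (nat_lit 0) (XT.lf (nat_lit 0) (nat_lit 286260166568) (nat_lit 76) (nat_lit 60547365759) (nat_lit 76) (nat_lit 59098866538) (nat_lit 3) (nat_lit 4) (nat_lit 4) (nat_lit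 5) (nat_lit 4) (nat_lit 4) (nat_lit 541) (nat_lit 364) (nat_lit 295)) (XT.lf (nat_lit 0) (nat_lit 324171523369) (nat_lit 76) (nat_lit 51451814945) (nat_lit 76) (nat_lit 50000850313) (nat_lit 3) (nat_lit 4) (nat_lit 4) (nat_lit 5) (nat_lit 4) (nat_lit 4) (nat_lit 542) (nat_lit 364) (nat_lit 294)))) (XT.nd (nat_lit 156) (nat_lit 0) (nat_lit 0) (XT.nd (nat_lit 78) (nat_lit 0) (nat_lit 0) (XT.lf (nat_lit 0) (nat_lit 363907515070) (nat_lit 76) (nat_lit 41937700707) (nat_lit 76) (nat_lit 40484388065) (nat_lit 3) (nat_lit 4) (nat_lit 4) (nat_lit 5) (nat_lit 4) (nat_lit 4) (nat_lit 543) (nat_lit 364) (nat_lit 293)) (XT.lf (nat_lit 0) (nat_lit 405562751177) (nat_lit 76) (nat_lit 31982370392) (nat_lit 76) (nat_lit 30526821549) (nat_lit 3) (nat_lit 4) (nat_lit 4) (nat_lit 5) (nat_lit 4) (nat_lit 4) (nat_lit 544) (nat_lit 364) (nat_lit 292))) (XT.nd (nat_lit 78) (nat_lit 0) (nat_lit 0) (XT.lf (nat_lit 0) (nat_lit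 449236410823) (nat_lit 76) (nat_lit 21562120832) (nat_lit 76) (nat_lit 20104442275) (nat_lit 3) (nat_lit 4) (nat_lit 4) (nat_lit 5) (nat_lit 4) (nat_lit 4) (nat_lit 545) (nat_lit 364) (nat_lit 291)) (XT.lf (nat_lit 0) (nat_lit 495032478911) (nat_lit 76) (nat_lit 10652141910) (nat_lit 76) (nat_lit 9192435053) (nat_lit 3) (nat_lit 4) (nat_lit 4) (nat_lit 5) (nat_lit 4) (nat_lit 4) (nat_lit 546) (nat_lit 364) (nat_lit 290))))) (XT.nd (nat_lit 312) (nat_lit 0) (nat_lit 0) (XT.nd (nat_lit 156) (nat_lit 0) (nat_lit 0) (XT.nd (nat_lit 78) (nat_lit 0) (nat_lit 0) (XT.lf (nat_lit 0) (nat_lit 2225041836) (nat_lit 152) (nat_lit 536988408264) (nat_lit 0) (nat_lit 833005101) (nat_lit 1) (nat_lit 5) (nat_lit 3) (nat_lit 4) (nat_lit 1) (nat_lit 4) (nat_lit 547) (nat_lit 364) (nat_lit 289)) (XT.lf (nat_lit 0) (nat_lit 14391653237) (nat_lit 152) (nat_lit 539052912775) (nat_lit 0) (nat_lit 12997864381) (nat_lit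 1) (nat_lit 5) (nat_lit 3) (nat_lit 4) (nat_lit 1) (nat_lit 4) (nat_lit 548) (nat_lit 364) (nat_lit 288))) (XT.nd (nat_lit 78) (nat_lit 0) (nat_lit 0) (XT.lf (nat_lit 0) (nat_lit 27138951879) (nat_lit 152) (nat_lit 541277140311) (nat_lit 0) (nat_lit 25743494336) (nat_lit 1) (nat_lit 5) (nat_lit 3) (nat_lit 4) (nat_lit 1) (nat_lit 4) (nat_lit 549) (nat_lit 364) (nat_lit 287)) (XT.lf (nat_lit 0) (nat_lit 40497288474) (nat_lit 152) (nat_lit 543666386652) (nat_lit 0) (nat_lit 39100241705) (nat_lit 1) (nat_lit 5) (nat_lit 3) (nat_lit 4) (nat_lit 1) (nat_lit 4) (nat_lit 550) (nat_lit 364) (nat_lit 286)))) (XT.nd (nat_lit 156) (nat_lit 0) (nat_lit 0) (XT.nd (nat_lit 78) (nat_lit 0) (nat_lit 0) (XT.lf (nat_lit 0) (nat_lit 54498468585) (nat_lit 152) (nat_lit 546226340481) (nat_lit 0) (nat_lit 53099908268) (nat_lit 1) (nat_lit 5) (nat_lit 3) (nat_lit 4) (nat_lit 1) (nat_lit 4) (nat_lit 551) (nat_lit 364)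 (nat_lit 285)) (XT.lf (nat_lit 0) (nat_lit 69175828355) (nat_lit 152) (nat_lit 548963096925) (nat_lit 0) (nat_lit 67775826563) (nat_lit 1) (nat_lit 5) (nat_lit 3) (nat_lit 4) (nat_lit 1) (nat_lit 4) (nat_lit 552) (nat_lit 364) (nat_lit 284))) (XT.nd (nat_lit 78) (nat_lit 0) (nat_lit 0) (XT.lf (nat_lit 0) (nat_lit 84564313879) (nat_lit 152) (nat_lit 551883172072) (nat_lit 0) (nat_lit 83162939254) (nat_lit 1) (nat_lit 5) (nat_lit 3) (nat_lit 4) (nat_lit 1) (nat_lit 4) (nat_lit 553) (nat_lit 364) (nat_lit 283)) (XT.lf (nat_lit 0) (nat_lit 100700564407) (nat_lit 152) (nat_lit 554993518480) (nat_lit 0) (nat_lit 99297882322) (nat_lit 1) (nat_lit 5) (nat_lit 3) (nat_lit 4) (nat_lit 1) (nat_lit 4) (nat_lit 554) (nat_lit 364) (nat_lit 282)))))) (XT.nd (nat_lit 56238) (nat_lit 0) (nat_lit 1824) (XT.nd (nat_lit 55926) (nat_lit 0) (nat_lit 2660) (XT.nd (nat_lit 156) (nat_lit 0) (nat_lit 0) (XT.nd (nat_lit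 78) (nat_lit 0) (nat_lit 0) (XT.lf (nat_lit 0) (nat_lit 117622999585) (nat_lit 152) (nat_lit 558301541737) (nat_lit 0) (nat_lit 116219072300) (nat_lit 1) (nat_lit 5) (nat_lit 3) (nat_lit 4) (nat_lit 1) (nat_lit 4) (nat_lit 555) (nat_lit 364) (nat_lit 281)) (XT.lf (nat_lit 0) (nat_lit 135371910924) (nat_lit 152) (nat_lit 561815118089) (nat_lit 0) (nat_lit 133966797734) (nat_lit 1) (nat_lit 5) (nat_lit 3) (nat_lit 4) (nat_lit 1) (nat_lit 4) (nat_lit 556) (nat_lit 364) (nat_lit 280))) (XT.nd (nat_lit 55692) (nat_lit 0) (nat_lit 2964) (XT.lf (nat_lit 0) (nat_lit 153989557738) (nat_lit 152) (nat_lit 565542613194) (nat_lit 0) (nat_lit 152583315114) (nat_lit 1) (nat_lit 5) (nat_lit 3) (nat_lit 4) (nat_lit 1) (nat_lit 4) (nat_lit 557) (nat_lit 364) (nat_lit 279)) (XT.lf (nat_lit 0) (nat_lit 2891863170) (nat_lit 152) (nat_lit 6036413580) (nat_lit 0) (nat_lit 2891863170) (nat_lit 40) (nat_lit 5) (nat_lit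 42) (nat_lit 4) (nat_lit 40) (nat_lit 4) (nat_lit 470) (nat_lit 365) (nat_lit 365)))) (XT.nd (nat_lit 156) (nat_lit 76) (nat_lit 0) (XT.nd (nat_lit 78) (nat_lit 152) (nat_lit 0) (XT.lf (nat_lit 0) (nat_lit 8038063166) (nat_lit 76) (nat_lit 8201742687) (nat_lit 76) (nat_lit 8067028963) (nat_lit 39) (nat_lit 4) (nat_lit 40) (nat_lit 5) (nat_lit 40) (nat_lit 4) (nat_lit 471) (nat_lit 365) (nat_lit 364)) (XT.lf (nat_lit 0) (nat_lit 2104716682) (nat_lit 152) (nat_lit 21047869693) (nat_lit 0) (nat_lit 1854228578) (nat_lit 37) (nat_lit 5) (nat_lit 39) (nat_lit 4) (nat_lit 37) (nat_lit 4) (nat_lit 472) (nat_lit 365) (nat_lit 363))) (XT.nd (nat_lit 78) (nat_lit 76) (nat_lit 0) (XT.lf (nat_lit 0) (nat_lit 12592359842) (nat_lit 152) (nat_lit 913401409) (nat_lit 0) (nat_lit 12225500957) (nat_lit 37) (nat_lit 5) (nat_lit 39) (nat_lit 4) (nat_lit 37) (nat_lit 4) (nat_lit 473) (nat_lit 365) (nat_lit 362)) (XT.lf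 (nat_lit 0) (nat_lit 20230503765) (nat_lit 76) (nat_lit 3369664132) (nat_lit 76) (nat_lit 2891975932) (nat_lit 36) (nat_lit 4) (nat_lit 37) (nat_lit 5) (nat_lit 37) (nat_lit 4) (nat_lit 474) (nat_lit 365) (nat_lit 361))))) (XT.nd (nat_lit 312) (nat_lit 456) (nat_lit 0) (XT.nd (nat_lit 156) (nat_lit 152) (nat_lit 0) (XT.nd (nat_lit 78) (nat_lit 76) (nat_lit 0) (XT.lf (nat_lit 0) (nat_lit 7658219569) (nat_lit 152) (nat_lit 12521820227) (nat_lit 0) (nat_lit 7102752972) (nat_lit 34) (nat_lit 5) (nat_lit 36) (nat_lit 4) (nat_lit 34) (nat_lit 4) (nat_lit 475) (nat_lit 365) (nat_lit 360)) (XT.lf (nat_lit 0) (nat_lit 8465702749) (nat_lit 76) (nat_lit 10148662771) (nat_lit 76) (nat_lit 9497457645) (nat_lit 33) (nat_lit 4) (nat_lit 34) (nat_lit 5) (nat_lit 34) (nat_lit 4) (nat_lit 476) (nat_lit 365) (nat_lit 359))) (XT.nd (nat_lit 78) (nat_lit 0) (nat_lit 0) (XT.lf (nat_lit 0) (nat_lit 1021807981) (nat_lit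 152) (nat_lit 27648728529) (nat_lit 0) (nat_lit 314774955) (nat_lit 31) (nat_lit 5) (nat_lit 33) (nat_lit 4) (nat_lit 31) (nat_lit 4) (nat_lit 477) (nat_lit 365) (nat_lit 358)) (XT.lf (nat_lit 0) (nat_lit 11933273611) (nat_lit 152) (nat_lit 6808607895) (nat_lit 0) (nat_lit 11143538044) (nat_lit 31) (nat_lit 5) (nat_lit 33) (nat_lit 4) (nat_lit 31) (nat_lit 4) (nat_lit 478) (nat_lit 365) (nat_lit 357)))) (XT.nd (nat_lit 156) (nat_lit 228) (nat_lit 0) (XT.nd (nat_lit 78) (nat_lit 152) (nat_lit 0) (XT.lf (nat_lit 0) (nat_lit 14936594481) (nat_lit 76) (nat_lit 8382987884) (nat_lit 76) (nat_lit 7514487992) (nat_lit 30) (nat_lit 4) (nat_lit 31) (nat_lit 5) (nat_lit 31) (nat_lit 4) (nat_lit 479) (nat_lit 365) (nat_lit 356)) (XT.lf (nat_lit 0) (nat_lit 3275390704) (nat_lit 152) (nat_lit 26178237951) (nat_lit 0) (nat_lit 2376806385) (nat_lit 28) (nat_lit 5) (nat_lit 30) (nat_lit 4) (nat_lit 28) (nat_lit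 4) (nat_lit 480) (nat_lit 365) (nat_lit 355))) (XT.nd (nat_lit 78) (nat_lit 228) (nat_lit 0) (XT.lf (nat_lit 0) (nat_lit 14459725776) (nat_lit 152) (nat_lit 4912256664) (nat_lit 0) (nat_lit 13493101873) (nat_lit 28) (nat_lit 5) (nat_lit 30) (nat_lit 4) (nat_lit 28) (nat_lit 4) (nat_lit 481) (nat_lit 365) (nat_lit 354)) (XT.nd (nat_lit 78) (nat_lit 152) (nat_lit 0) (XT.lf (nat_lit 0) (nat_lit 17387483694) (nat_lit 76) (nat_lit 8798144501) (nat_lit 76) (nat_lit 7766720992) (nat_lit 27) (nat_lit 4) (nat_lit 28) (nat_lit 5) (nat_lit 28) (nat_lit 4) (nat_lit 482) (nat_lit 365) (nat_lit 353)) (XT.lf (nat_lit 0) (nat_lit 3209980633) (nat_lit 152) (nat_lit 29716688887) (nat_lit 0) (nat_lit 2168897378) (nat_lit 25) (nat_lit 5) (nat_lit 27) (nat_lit 4) (nat_lit 25) (nat_lit 4) (nat_lit 483) (nat_lit 365) (nat_lit 352))))))))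
noncomputable def xc58 : XT := (XT.nd (nat_lit 1248) (nat_lit 456) (nat_lit 0) (XT.nd (nat_lit 624) (nat_lit 456) (nat_lit 0) (XT.nd (nat_lit 312) (nat_lit 228) (nat_lit 0) (XT.nd (nat_lit 156) (nat_lit 152) (nat_lit 0) (XT.nd (nat_lit 78) (nat_lit 76) (nat_lit 0) (XT.lf (nat_lit 0) (nat_lit 14615048533) (nat_lit 152) (nat_lit 8149515231) (nat_lit 0) (nat_lit 13517988943) (nat_lit 25) (nat_lit 5) (nat_lit 27) (nat_lit 4) (nat_lit 25) (nat_lit 4) (nat_lit 484) (nat_lit 365) (nat_lit 351)) (XT.lf (nat_lit 0) (nat_lit 14398432321) (nat_lit 76) (nat_lit 12141669901) (nat_lit 76) (nat_lit 10991299515) (nat_lit 24) (nat_lit 4) (nat_lit 25) (nat_lit 5) (nat_lit 25) (nat_lit 4) (nat_lit 485) (nat_lit 365) (nat_lit 350))) (XT.nd (nat_lit 78) (nat_lit 76) (nat_lit 0) (XT.lf (nat_lit 0) (nat_lit 77010973) (nat_lit 152) (nat_lit 1043270075) (nat_lit 76) (nat_lit 37728977136) (nat_lit 23) (nat_lit 5) (nat_lit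 25) (nat_lit 5) (nat_lit 24) (nat_lit 4) (nat_lit 486) (nat_lit 365) (nat_lit 349)) (XT.lf (nat_lit 0) (nat_lit 11580850717) (nat_lit 152) (nat_lit 18239719733) (nat_lit 0) (nat_lit 10390853541) (nat_lit 22) (nat_lit 5) (nat_lit 24) (nat_lit 4) (nat_lit 22) (nat_lit 4) (nat_lit 487) (nat_lit 365) (nat_lit 348)))) (XT.nd (nat_lit 156) (nat_lit 152) (nat_lit 0) (XT.nd (nat_lit 78) (nat_lit 0) (nat_lit 0) (XT.lf (nat_lit 0) (nat_lit 4113778143) (nat_lit 76) (nat_lit 19384917907) (nat_lit 76) (nat_lit 18151061809) (nat_lit 21) (nat_lit 4) (nat_lit 22) (nat_lit 5) (nat_lit 22) (nat_lit 4) (nat_lit 488) (nat_lit 365) (nat_lit 347)) (XT.lf (nat_lit 0) (nat_lit 27694708351) (nat_lit 76) (nat_lit 8369177203) (nat_lit 76) (nat_lit 7093550701) (nat_lit 21) (nat_lit 4) (nat_lit 22) (nat_lit 5) (nat_lit 22) (nat_lit 4) (nat_lit 489) (nat_lit 365) (nat_lit 346))) (XT.nd (nat_lit 78) (nat_lit 0) (nat_lit 0) (XT.lf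 (nat_lit 0) (nat_lit 4287113758) (nat_lit 152) (nat_lit 37419772552) (nat_lit 0) (nat_lit 3034344389) (nat_lit 19) (nat_lit 5) (nat_lit 21) (nat_lit 4) (nat_lit 19) (nat_lit 4) (nat_lit 490) (nat_lit 365) (nat_lit 345)) (XT.lf (nat_lit 0) (nat_lit 16152700178) (nat_lit 152) (nat_lit 15374138780) (nat_lit 0) (nat_lit 14863847965) (nat_lit 19) (nat_lit 5) (nat_lit 21) (nat_lit 4) (nat_lit 19) (nat_lit 4) (nat_lit 491) (nat_lit 365) (nat_lit 344))))) (XT.nd (nat_lit 312) (nat_lit 228) (nat_lit 0) (XT.nd (nat_lit 156) (nat_lit 152) (nat_lit 0) (XT.nd (nat_lit 78) (nat_lit 0) (nat_lit 0) (XT.lf (nat_lit 0) (nat_lit 7532067419) (nat_lit 76) (nat_lit 20959873485) (nat_lit 76) (nat_lit 19636656657) (nat_lit 18) (nat_lit 4) (nat_lit 19) (nat_lit 5) (nat_lit 19) (nat_lit 4) (nat_lit 492) (nat_lit 365) (nat_lit 343)) (XT.lf (nat_lit 0) (nat_lit 31642343669) (nat_lit 76) (nat_lit 9832827040) (nat_lit 76) (nat_lit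 8476882008) (nat_lit 18) (nat_lit 4) (nat_lit 19) (nat_lit 5) (nat_lit 19) (nat_lit 4) (nat_lit 493) (nat_lit 365) (nat_lit 342))) (XT.nd (nat_lit 78) (nat_lit 0) (nat_lit 0) (XT.lf (nat_lit 0) (nat_lit 3012447208) (nat_lit 152) (nat_lit 47166553509) (nat_lit 0) (nat_lit 1691385542) (nat_lit 16) (nat_lit 5) (nat_lit 18) (nat_lit 4) (nat_lit 16) (nat_lit 4) (nat_lit 494) (nat_lit 365) (nat_lit 341)) (XT.lf (nat_lit 0) (nat_lit 15041949095) (nat_lit 152) (nat_lit 25130594582) (nat_lit 0) (nat_lit 13692615576) (nat_lit 16) (nat_lit 5) (nat_lit 18) (nat_lit 4) (nat_lit 16) (nat_lit 4) (nat_lit 495) (nat_lit 365) (nat_lit 340)))) (XT.nd (nat_lit 156) (nat_lit 152) (nat_lit 0) (XT.nd (nat_lit 78) (nat_lit 76) (nat_lit 0) (XT.lf (nat_lit 0) (nat_lit 27457901336) (nat_lit 152) (nat_lit 2430878832) (nat_lit 0) (nat_lit 26081642243) (nat_lit 16) (nat_lit 5) (nat_lit 18) (nat_lit 4) (nat_lit 16) (nat_lit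 4) (nat_lit 496) (nat_lit 365) (nat_lit 339)) (XT.lf (nat_lit 0) (nat_lit 21680553802) (nat_lit 76) (nat_lit 18947806124) (nat_lit 76) (nat_lit 17545903627) (nat_lit 15) (nat_lit 4) (nat_lit 16) (nat_lit 5) (nat_lit 16) (nat_lit 4) (nat_lit 497) (nat_lit 365) (nat_lit 338))) (XT.nd (nat_lit 78) (nat_lit 152) (nat_lit 0) (XT.lf (nat_lit 0) (nat_lit 46671499413) (nat_lit 76) (nat_lit 7625568039) (nat_lit 76) (nat_lit 6199243252) (nat_lit 15) (nat_lit 4) (nat_lit 16) (nat_lit 5) (nat_lit 16) (nat_lit 4) (nat_lit 498) (nat_lit 365) (nat_lit 337)) (XT.lf (nat_lit 0) (nat_lit 5557294148) (nat_lit 152) (nat_lit 53194694692) (nat_lit 0) (nat_lit 4176737852) (nat_lit 13) (nat_lit 5) (nat_lit 15) (nat_lit 4) (nat_lit 13) (nat_lit 4) (nat_lit 499) (nat_lit 365) (nat_lit 336)))))) (XT.nd (nat_lit 624) (nat_lit 228) (nat_lit 0) (XT.nd (nat_lit 312) (nat_lit 152) (nat_lit 0) (XT.nd (nat_lit 156) (nat_lit 76)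 (nat_lit 0) (XT.nd (nat_lit 78) (nat_lit 0) (nat_lit 0) (XT.lf (nat_lit 0) (nat_lit 17861378312) (nat_lit 152) (nat_lit 31148176157) (nat_lit 0) (nat_lit 16459725124) (nat_lit 13) (nat_lit 5) (nat_lit 15) (nat_lit 4) (nat_lit 13) (nat_lit 4) (nat_lit 500) (nat_lit 365) (nat_lit 335)) (XT.lf (nat_lit 0) (nat_lit 30595026438) (nat_lit 152) (nat_lit 8377834948) (nat_lit 0) (nat_lit 29173280972) (nat_lit 13) (nat_lit 5) (nat_lit 15) (nat_lit 4) (nat_lit 13) (nat_lit 4) (nat_lit 501) (nat_lit 365) (nat_lit 334))) (XT.nd (nat_lit 78) (nat_lit 0) (nat_lit 0) (XT.lf (nat_lit 0) (nat_lit 15672150730) (nat_lit 76) (nat_lit 28361092199) (nat_lit 76) (nat_lit 26920211231) (nat_lit 12) (nat_lit 4) (nat_lit 13) (nat_lit 5) (nat_lit 13) (nat_lit 4) (nat_lit 502) (nat_lit 365) (nat_lit 333)) (XT.lf (nat_lit 0) (nat_lit 40860830099) (nat_lit 76) (nat_lit 17250504344) (nat_lit 76) (nat_lit 15791399087) (nat_lit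 12) (nat_lit 4) (nat_lit 13) (nat_lit 5) (nat_lit 13) (nat_lit 4) (nat_lit 503) (nat_lit 365) (nat_lit 332)))) (XT.nd (nat_lit 156) (nat_lit 0) (nat_lit 0) (XT.nd (nat_lit 78) (nat_lit 152) (nat_lit 0) (XT.lf (nat_lit 0) (nat_lit 66971167144) (nat_lit 76) (nat_lit 5756526728) (nat_lit 76) (nat_lit 4280065006) (nat_lit 12) (nat_lit 4) (nat_lit 13) (nat_lit 5) (nat_lit 13) (nat_lit 4) (nat_lit 504) (nat_lit 365) (nat_lit 331)) (XT.lf (nat_lit 0) (nat_lit 7718679447) (nat_lit 152) (nat_lit 66238393722) (nat_lit 0) (nat_lit 6296782601) (nat_lit 10) (nat_lit 5) (nat_lit 12) (nat_lit 4) (nat_lit 10) (nat_lit 4) (nat_lit 505) (nat_lit 365) (nat_lit 330))) (XT.nd (nat_lit 78) (nat_lit 0) (nat_lit 0) (XT.lf (nat_lit 0) (nat_lit 20280369401) (nat_lit 152) (nat_lit 44529558296) (nat_lit 0) (nat_lit 18843479387) (nat_lit 10) (nat_lit 5) (nat_lit 12) (nat_lit 4) (nat_lit 10) (nat_lit 4) (nat_lit 506) (nat_lit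 365) (nat_lit 329)) (XT.lf (nat_lit 0) (nat_lit 33317492643) (nat_lit 152) (nat_lit 22046752604) (nat_lit 0) (nat_lit 31866323422) (nat_lit 10) (nat_lit 5) (nat_lit 12) (nat_lit 4) (nat_lit 10) (nat_lit 4) (nat_lit 507) (nat_lit 365) (nat_lit 328))))) (XT.nd (nat_lit 312) (nat_lit 152) (nat_lit 0) (XT.nd (nat_lit 156) (nat_lit 0) (nat_lit 0) (XT.nd (nat_lit 78) (nat_lit 0) (nat_lit 0) (XT.lf (nat_lit 0) (nat_lit 1305332637) (nat_lit 76) (nat_lit 45576137207) (nat_lit 76) (nat_lit 44111368741) (nat_lit 9) (nat_lit 4) (nat_lit 10) (nat_lit 5) (nat_lit 10) (nat_lit 4) (nat_lit 508) (nat_lit 365) (nat_lit 327)) (XT.lf (nat_lit 0) (nat_lit 26298580587) (nat_lit 76) (nat_lit 35055421920) (nat_lit 76) (nat_lit 33577701792) (nat_lit 9) (nat_lit 4) (nat_lit 10) (nat_lit 5) (nat_lit 10) (nat_lit 4) (nat_lit 509) (nat_lit 365) (nat_lit 326))) (XT.nd (nat_lit 78) (nat_lit 0) (nat_lit 0) (XT.lf (nat_lit 0)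 (nat_lit 52263533772) (nat_lit 76) (nat_lit 24150422487) (nat_lit 76) (nat_lit 22660367444) (nat_lit 9) (nat_lit 4) (nat_lit 10) (nat_lit 5) (nat_lit 10) (nat_lit 4) (nat_lit 510) (nat_lit 365) (nat_lit 325)) (XT.lf (nat_lit 0) (nat_lit 79262013508) (nat_lit 76) (nat_lit 12835174625) (nat_lit 76) (nat_lit 11333372044) (nat_lit 9) (nat_lit 4) (nat_lit 10) (nat_lit 5) (nat_lit 10) (nat_lit 4) (nat_lit 511) (nat_lit 365) (nat_lit 324)))) (XT.nd (nat_lit 156) (nat_lit 0) (nat_lit 0) (XT.nd (nat_lit 78) (nat_lit 76) (nat_lit 0) (XT.lf (nat_lit 0) (nat_lit 416482648) (nat_lit 152) (nat_lit 659201283) (nat_lit 76) (nat_lit 106934765906) (nat_lit 8) (nat_lit 5) (nat_lit 10) (nat_lit 5) (nat_lit 9) (nat_lit 4) (nat_lit 512) (nat_lit 365) (nat_lit 323)) (XT.lf (nat_lit 0) (nat_lit 12817268150) (nat_lit 152) (nat_lit 88604383955) (nat_lit 0) (nat_lit 11366176647) (nat_lit 7) (nat_lit 5) (nat_lit 9) (nat_lit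 4) (nat_lit 7) (nat_lit 4) (nat_lit 513) (nat_lit 365) (nat_lit 322))) (XT.nd (nat_lit 78) (nat_lit 0) (nat_lit 0) (XT.lf (nat_lit 0) (nat_lit 25747518869) (nat_lit 152) (nat_lit 67774323909) (nat_lit 0) (nat_lit 24286762637) (nat_lit 7) (nat_lit 5) (nat_lit 9) (nat_lit 4) (nat_lit 7) (nat_lit 4) (nat_lit 514) (nat_lit 365) (nat_lit 321)) (XT.nd (nat_lit 78) (nat_lit 0) (nat_lit 0) (XT.lf (nat_lit 0) (nat_lit 39210420097) (nat_lit 152) (nat_lit 46135234649) (nat_lit 0) (nat_lit 37740459361) (nat_lit 7) (nat_lit 5) (nat_lit 9) (nat_lit 4) (nat_lit 7) (nat_lit 4) (nat_lit 515) (nat_lit 365) (nat_lit 320)) (XT.lf (nat_lit 0) (nat_lit 53238026362) (nat_lit 152) (nat_lit 23635594533) (nat_lit 0) (nat_lit 51759299431) (nat_lit 7) (nat_lit 5) (nat_lit 9) (nat_lit 4) (nat_lit 7) (nat_lit 4) (nat_lit 516) (nat_lit 365) (nat_lit 319))))))))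
noncomputable def xc59 : XT := (XT.nd (nat_lit 1248) (nat_lit 228) (nat_lit 0) (XT.nd (nat_lit 624) (nat_lit 0) (nat_lit 0) (XT.nd (nat_lit 312) (nat_lit 152) (nat_lit 0) (XT.nd (nat_lit 156) (nat_lit 0) (nat_lit 0) (XT.nd (nat_lit 78) (nat_lit 76) (nat_lit 0) (XT.lf (nat_lit 0) (nat_lit 67863736724) (nat_lit 152) (nat_lit 221832989) (nat_lit 0) (nat_lit 66376661037) (nat_lit 7) (nat_lit 5) (nat_lit 9) (nat_lit 4) (nat_lit 7) (nat_lit 4) (nat_lit 517) (nat_lit 365) (nat_lit 318)) (XT.lf (nat_lit 0) (nat_lit 24960695160) (nat_lit 76) (nat_lit 58551385548) (nat_lit 76) (nat_lit 57056358665) (nat_lit 6) (nat_lit 4) (nat_lit 7) (nat_lit 5) (nat_lit 7) (nat_lit 4) (nat_lit 518) (nat_lit 365) (nat_lit 317))) (XT.nd (nat_lit 78) (nat_lit 0) (nat_lit 0) (XT.lf (nat_lit 0) (nat_lit 51212470685) (nat_lit 76) (nat_lit 48637368699) (nat_lit 76) (nat_lit 47134769247) (nat_lit 6) (nat_lit 4) (nat_lit 7) (nat_lit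 5) (nat_lit 7) (nat_lit 4) (nat_lit 519) (nat_lit 365) (nat_lit 316)) (XT.lf (nat_lit 0) (nat_lit 78588663013) (nat_lit 76) (nat_lit 38323671211) (nat_lit 76) (nat_lit 36813859789) (nat_lit 6) (nat_lit 4) (nat_lit 7) (nat_lit 5) (nat_lit 7) (nat_lit 4) (nat_lit 520) (nat_lit 365) (nat_lit 315)))) (XT.nd (nat_lit 156) (nat_lit 152) (nat_lit 0) (XT.nd (nat_lit 78) (nat_lit 0) (nat_lit 0) (XT.lf (nat_lit 0) (nat_lit 107154453553) (nat_lit 76) (nat_lit 27585736664) (nat_lit 76) (nat_lit 26069056699) (nat_lit 6) (nat_lit 4) (nat_lit 7) (nat_lit 5) (nat_lit 7) (nat_lit 4) (nat_lit 521) (nat_lit 365) (nat_lit 314)) (XT.lf (nat_lit 0) (nat_lit 136977856093) (nat_lit 76) (nat_lit 16397998545) (nat_lit 76) (nat_lit 14874777111) (nat_lit 6) (nat_lit 4) (nat_lit 7) (nat_lit 5) (nat_lit 7) (nat_lit 4) (nat_lit 522) (nat_lit 365) (nat_lit 313))) (XT.nd (nat_lit 78) (nat_lit 152) (nat_lit 0) (XT.lf (nat_lit 0)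 (nat_lit 168129878733) (nat_lit 76) (nat_lit 4733819384) (nat_lit 76) (nat_lit 3204367979) (nat_lit 6) (nat_lit 4) (nat_lit 7) (nat_lit 5) (nat_lit 7) (nat_lit 4) (nat_lit 523) (nat_lit 365) (nat_lit 312)) (XT.lf (nat_lit 0) (nat_lit 9067863967) (nat_lit 152) (nat_lit 167580453744) (nat_lit 0) (nat_lit 7605592815) (nat_lit 4) (nat_lit 5) (nat_lit 6) (nat_lit 4) (nat_lit 4) (nat_lit 4) (nat_lit 524) (nat_lit 365) (nat_lit 311))))) (XT.nd (nat_lit 312) (nat_lit 0) (nat_lit 0) (XT.nd (nat_lit 156) (nat_lit 0) (nat_lit 0) (XT.nd (nat_lit 78) (nat_lit 0) (nat_lit 0) (XT.lf (nat_lit 0) (nat_lit 21983226408) (nat_lit 152) (nat_lit 150340760386) (nat_lit 0) (nat_lit 20515573573) (nat_lit 4) (nat_lit 5) (nat_lit 6) (nat_lit 4) (nat_lit 4) (nat_lit 4) (nat_lit 525) (nat_lit 365) (nat_lit 310)) (XT.lf (nat_lit 0) (nat_lit 35470987586) (nat_lit 152) (nat_lit 132388964297) (nat_lit 0) (nat_lit 33998209339)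 (nat_lit 4) (nat_lit 5) (nat_lit 6) (nat_lit 4) (nat_lit 4) (nat_lit 4) (nat_lit 526) (nat_lit 365) (nat_lit 309))) (XT.nd (nat_lit 78) (nat_lit 0) (nat_lit 0) (XT.lf (nat_lit 0) (nat_lit 49563261220) (nat_lit 152) (nat_lit 113682323103) (nat_lit 0) (nat_lit 48085601628) (nat_lit 4) (nat_lit 5) (nat_lit 6) (nat_lit 4) (nat_lit 4) (nat_lit 4) (nat_lit 527) (nat_lit 365) (nat_lit 308)) (XT.lf (nat_lit 0) (nat_lit 64293600341) (nat_lit 152) (nat_lit 94176297184) (nat_lit 0) (nat_lit 62811291848) (nat_lit 4) (nat_lit 5) (nat_lit 6) (nat_lit 4) (nat_lit 4) (nat_lit 4) (nat_lit 528) (nat_lit 365) (nat_lit 307)))) (XT.nd (nat_lit 156) (nat_lit 0) (nat_lit 0) (XT.nd (nat_lit 78) (nat_lit 0) (nat_lit 0) (XT.lf (nat_lit 0) (nat_lit 79697077185) (nat_lit 152) (nat_lit 73824443620) (nat_lit 0) (nat_lit 78210341169) (nat_lit 4) (nat_lit 5) (nat_lit 6) (nat_lit 4) (nat_lit 4) (nat_lit 4) (nat_lit 529) (nat_lit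 365) (nat_lit 306)) (XT.lf (nat_lit 0) (nat_lit 95810366697) (nat_lit 152) (nat_lit 52578305617) (nat_lit 0) (nat_lit 94319413991) (nat_lit 4) (nat_lit 5) (nat_lit 6) (nat_lit 4) (nat_lit 4) (nat_lit 4) (nat_lit 530) (nat_lit 365) (nat_lit 305))) (XT.nd (nat_lit 78) (nat_lit 0) (nat_lit 0) (XT.lf (nat_lit 0) (nat_lit 112671833853) (nat_lit 152) (nat_lit 30387297133) (nat_lit 0) (nat_lit 111176865252) (nat_lit 4) (nat_lit 5) (nat_lit 6) (nat_lit 4) (nat_lit 4) (nat_lit 4) (nat_lit 531) (nat_lit 365) (nat_lit 304)) (XT.lf (nat_lit 0) (nat_lit 130321625002) (nat_lit 152) (nat_lit 7198582433) (nat_lit 0) (nat_lit 128822831740) (nat_lit 4) (nat_lit 5) (nat_lit 6) (nat_lit 4) (nat_lit 4) (nat_lit 4) (nat_lit 532) (nat_lit 365) (nat_lit 303)))))) (XT.nd (nat_lit 624) (nat_lit 152) (nat_lit 0) (XT.nd (nat_lit 312) (nat_lit 0) (nat_lit 0) (XT.nd (nat_lit 156) (nat_lit 0) (nat_lit 0) (XT.nd (nat_lit 78)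 (nat_lit 0) (nat_lit 0) (XT.lf (nat_lit 0) (nat_lit 17606569899) (nat_lit 76) (nat_lit 131470081455) (nat_lit 76) (nat_lit 129967645659) (nat_lit 3) (nat_lit 4) (nat_lit 4) (nat_lit 5) (nat_lit 4) (nat_lit 4) (nat_lit 533) (nat_lit 365) (nat_lit 302)) (XT.lf (nat_lit 0) (nat_lit 43797098120) (nat_lit 76) (nat_lit 125042946869) (nat_lit 76) (nat_lit 123537041992) (nat_lit 3) (nat_lit 4) (nat_lit 4) (nat_lit 5) (nat_lit 4) (nat_lit 4) (nat_lit 534) (nat_lit 365) (nat_lit 301))) (XT.nd (nat_lit 78) (nat_lit 0) (nat_lit 0) (XT.lf (nat_lit 0) (nat_lit 71197342984) (nat_lit 76) (nat_lit 118345412452) (nat_lit 76) (nat_lit 116836203688) (nat_lit 3) (nat_lit 4) (nat_lit 4) (nat_lit 5) (nat_lit 4) (nat_lit 4) (nat_lit 535) (nat_lit 365) (nat_lit 300)) (XT.lf (nat_lit 0) (nat_lit 99872543169) (nat_lit 76) (nat_lit 111361531694) (nat_lit 76) (nat_lit 109849176371) (nat_lit 3) (nat_lit 4) (nat_lit 4) (nat_lit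 5) (nat_lit 4) (nat_lit 4) (nat_lit 536) (nat_lit 365) (nat_lit 299)))) (XT.nd (nat_lit 156) (nat_lit 0) (nat_lit 0) (XT.nd (nat_lit 78) (nat_lit 0) (nat_lit 0) (XT.lf (nat_lit 0) (nat_lit 129890972962) (nat_lit 76) (nat_lit 104074676307) (nat_lit 76) (nat_lit 102559324262) (nat_lit 3) (nat_lit 4) (nat_lit 4) (nat_lit 5) (nat_lit 4) (nat_lit 4) (nat_lit 537) (nat_lit 365) (nat_lit 298)) (XT.lf (nat_lit 0) (nat_lit 161324104813) (nat_lit 76) (nat_lit 96467496636) (nat_lit 76) (nat_lit 94949290569) (nat_lit 3) (nat_lit 4) (nat_lit 4) (nat_lit 5) (nat_lit 4) (nat_lit 4) (nat_lit 538) (nat_lit 365) (nat_lit 297))) (XT.nd (nat_lit 78) (nat_lit 0) (nat_lit 0) (XT.lf (nat_lit 0) (nat_lit 194246779514) (nat_lit 76) (nat_lit 88521880347) (nat_lit 76) (nat_lit 87000956165) (nat_lit 3) (nat_lit 4) (nat_lit 4) (nat_lit 5) (nat_lit 4) (nat_lit 4) (nat_lit 539) (nat_lit 365) (nat_lit 296)) (XT.lf (nat_lit 0)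 (nat_lit 228737384385) (nat_lit 76) (nat_lit 80218909308) (nat_lit 76) (nat_lit 78695396445) (nat_lit 3) (nat_lit 4) (nat_lit 4) (nat_lit 5) (nat_lit 4) (nat_lit 4) (nat_lit 540) (nat_lit 365) (nat_lit 295))))) (XT.nd (nat_lit 312) (nat_lit 152) (nat_lit 0) (XT.nd (nat_lit 156) (nat_lit 0) (nat_lit 0) (XT.nd (nat_lit 78) (nat_lit 0) (nat_lit 0) (XT.lf (nat_lit 0) (nat_lit 264878039914) (nat_lit 76) (nat_lit 71538814539) (nat_lit 76) (nat_lit 70012836264) (nat_lit 3) (nat_lit 4) (nat_lit 4) (nat_lit 5) (nat_lit 4) (nat_lit 4) (nat_lit 541) (nat_lit 365) (nat_lit 294)) (XT.lf (nat_lit 0) (nat_lit 302754795281) (nat_lit 76) (nat_lit 62460929148) (nat_lit 76) (nat_lit 60932602863) (nat_lit 3) (nat_lit 4) (nat_lit 4) (nat_lit 5) (nat_lit 4) (nat_lit 4) (nat_lit 542) (nat_lit 365) (nat_lit 293))) (XT.nd (nat_lit 78) (nat_lit 0) (nat_lit 0) (XT.lf (nat_lit 0) (nat_lit 342457833237) (nat_lit 76) (nat_lit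 52963639122) (nat_lit 76) (nat_lit 51433076637) (nat_lit 3) (nat_lit 4) (nat_lit 4) (nat_lit 5) (nat_lit 4) (nat_lit 4) (nat_lit 543) (nat_lit 365) (nat_lit 292)) (XT.lf (nat_lit 0) (nat_lit 384081684823) (nat_lit 76) (nat_lit 43024331866) (nat_lit 76) (nat_lit 41491639666) (nat_lit 3) (nat_lit 4) (nat_lit 4) (nat_lit 5) (nat_lit 4) (nat_lit 4) (nat_lit 544) (nat_lit 365) (nat_lit 291)))) (XT.nd (nat_lit 156) (nat_lit 152) (nat_lit 0) (XT.nd (nat_lit 78) (nat_lit 0) (nat_lit 0) (XT.lf (nat_lit 0) (nat_lit 427725454450) (nat_lit 76) (nat_lit 32619342362) (nat_lit 76) (nat_lit 31084621863) (nat_lit 3) (nat_lit 4) (nat_lit 4) (nat_lit 5) (nat_lit 4) (nat_lit 4) (nat_lit 545) (nat_lit 365) (nat_lit 290)) (XT.lf (nat_lit 0) (nat_lit 473493055853) (nat_lit 76) (nat_lit 21723896827) (nat_lit 76) (nat_lit 20187244614) (nat_lit 3) (nat_lit 4) (nat_lit 4) (nat_lit 5) (nat_lit 4) (nat_lit 4) (nat_lit 546)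 (nat_lit 365) (nat_lit 289))) (XT.nd (nat_lit 78) (nat_lit 152) (nat_lit 0) (XT.lf (nat_lit 0) (nat_lit 521493459513) (nat_lit 76) (nat_lit 10312053723) (nat_lit 76) (nat_lit 8773561782) (nat_lit 3) (nat_lit 4) (nat_lit 4) (nat_lit 5) (nat_lit 4) (nat_lit 4) (nat_lit 547) (nat_lit 365) (nat_lit 288)) (XT.nd (nat_lit 78) (nat_lit 0) (nat_lit 0) (XT.lf (nat_lit 0) (nat_lit 3186494836) (nat_lit 152) (nat_lit 562100176824) (nat_lit 0) (nat_lit 1719595729) (nat_lit 1) (nat_lit 5) (nat_lit 3) (nat_lit 4) (nat_lit 1) (nat_lit 4) (nat_lit 548) (nat_lit 365) (nat_lit 287)) (XT.lf (nat_lit 0) (nat_lit 15920951049) (nat_lit 152) (nat_lit 564350651886) (nat_lit 0) (nat_lit 14452462716) (nat_lit 1) (nat_lit 5) (nat_lit 3) (nat_lit 4) (nat_lit 1) (nat_lit 4) (nat_lit 549) (nat_lit 365) (nat_lit 286))))))))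
noncomputable def xc60 : XT := (XT.nd (nat_lit 56706) (nat_lit 0) (nat_lit 1368) (XT.nd (nat_lit 56082) (nat_lit 0) (nat_lit 2508) (XT.nd (nat_lit 312) (nat_lit 0) (nat_lit 0) (XT.nd (nat_lit 156) (nat_lit 0) (nat_lit 0) (XT.nd (nat_lit 78) (nat_lit 0) (nat_lit 0) (XT.lf (nat_lit 0) (nat_lit 29267056760) (nat_lit 152) (nat_lit 566764895872) (nat_lit 0) (nat_lit 27797054878) (nat_lit 1) (nat_lit 5) (nat_lit 3) (nat_lit 4) (nat_lit 1) (nat_lit 4) (nat_lit 550) (nat_lit 365) (nat_lit 285)) (XT.lf (nat_lit 0) (nat_lit 43256588409) (nat_lit 152) (nat_lit 569348656980) (nat_lit 0) (nat_lit 41785145053) (nat_lit 1) (nat_lit 5) (nat_lit 3) (nat_lit 4) (nat_lit 1) (nat_lit 4) (nat_lit 551) (nat_lit 365) (nat_lit 284))) (XT.nd (nat_lit 78) (nat_lit 0) (nat_lit 0) (XT.lf (nat_lit 0) (nat_lit 57922854406) (nat_lit 152) (nat_lit 572108087025) (nat_lit 0) (nat_lit 56450038216) (nat_lit 1) (nat_lit 5) (nat_lit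 3) (nat_lit 4) (nat_lit 1) (nat_lit 4) (nat_lit 552) (nat_lit 365) (nat_lit 283)) (XT.lf (nat_lit 0) (nat_lit 73300774431) (nat_lit 152) (nat_lit 575049756076) (nat_lit 0) (nat_lit 71826650782) (nat_lit 1) (nat_lit 5) (nat_lit 3) (nat_lit 4) (nat_lit 1) (nat_lit 4) (nat_lit 553) (nat_lit 365) (nat_lit 282)))) (XT.nd (nat_lit 156) (nat_lit 0) (nat_lit 0) (XT.nd (nat_lit 78) (nat_lit 0) (nat_lit 0) (XT.lf (nat_lit 0) (nat_lit 89426962581) (nat_lit 152) (nat_lit 578180668108) (nat_lit 0) (nat_lit 87951593731) (nat_lit 1) (nat_lit 5) (nat_lit 3) (nat_lit 4) (nat_lit 1) (nat_lit 4) (nat_lit 554) (nat_lit 365) (nat_lit 281)) (XT.lf (nat_lit 0) (nat_lit 106339814540) (nat_lit 152) (nat_lit 581508277673) (nat_lit 0) (nat_lit 104863259786) (nat_lit 1) (nat_lit 5) (nat_lit 3) (nat_lit 4) (nat_lit 1) (nat_lit 4) (nat_lit 555) (nat_lit 365) (nat_lit 280))) (XT.nd (nat_lit 78) (nat_lit 0) (nat_lit 0) (XT.lf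 (nat_lit 0) (nat_lit 124079599005) (nat_lit 152) (nat_lit 585040507652) (nat_lit 0) (nat_lit 122601914817) (nat_lit 1) (nat_lit 5) (nat_lit 3) (nat_lit 4) (nat_lit 1) (nat_lit 4) (nat_lit 556) (nat_lit 365) (nat_lit 279)) (XT.lf (nat_lit 0) (nat_lit 142688553557) (nat_lit 152) (nat_lit 588785768116) (nat_lit 0) (nat_lit 141209793719) (nat_lit 1) (nat_lit 5) (nat_lit 3) (nat_lit 4) (nat_lit 1) (nat_lit 4) (nat_lit 557) (nat_lit 365) (nat_lit 278))))) (XT.nd (nat_lit 312) (nat_lit 380) (nat_lit 0) (XT.nd (nat_lit 156) (nat_lit 228) (nat_lit 0) (XT.nd (nat_lit 78) (nat_lit 76) (nat_lit 0) (XT.lf (nat_lit 0) (nat_lit 4310200623) (nat_lit 152) (nat_lit 2569732329) (nat_lit 0) (nat_lit 4310200623) (nat_lit 43) (nat_lit 5) (nat_lit 45) (nat_lit 4) (nat_lit 43) (nat_lit 4) (nat_lit 468) (nat_lit 366) (nat_lit 366)) (XT.lf (nat_lit 0) (nat_lit 14531119660) (nat_lit 76) (nat_lit 4309684992) (nat_lit 76)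 (nat_lit 4161163111) (nat_lit 42) (nat_lit 4) (nat_lit 43) (nat_lit 5) (nat_lit 43) (nat_lit 4) (nat_lit 469) (nat_lit 366) (nat_lit 365))) (XT.nd (nat_lit 78) (nat_lit 76) (nat_lit 0) (XT.lf (nat_lit 0) (nat_lit 5760936301) (nat_lit 152) (nat_lit 12402783023) (nat_lit 0) (nat_lit 5484773166) (nat_lit 40) (nat_lit 5) (nat_lit 42) (nat_lit 4) (nat_lit 40) (nat_lit 4) (nat_lit 470) (nat_lit 366) (nat_lit 364)) (XT.lf (nat_lit 0) (nat_lit 7372563479) (nat_lit 76) (nat_lit 8677643496) (nat_lit 76) (nat_lit 8273181575) (nat_lit 39) (nat_lit 4) (nat_lit 40) (nat_lit 5) (nat_lit 40) (nat_lit 4) (nat_lit 471) (nat_lit 366) (nat_lit 363)))) (XT.nd (nat_lit 156) (nat_lit 228) (nat_lit 0) (XT.nd (nat_lit 78) (nat_lit 0) (nat_lit 0) (XT.lf (nat_lit 0) (nat_lit 1722611512) (nat_lit 152) (nat_lit 22089007322) (nat_lit 0) (nat_lit 1221038903) (nat_lit 37) (nat_lit 5) (nat_lit 39) (nat_lit 4) (nat_lit 37) (nat_lit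 4) (nat_lit 472) (nat_lit 366) (nat_lit 362)) (XT.lf (nat_lit 0) (nat_lit 12054121930) (nat_lit 152) (nat_lit 2269070250) (nat_lit 0) (nat_lit 11441720006) (nat_lit 37) (nat_lit 5) (nat_lit 39) (nat_lit 4) (nat_lit 37) (nat_lit 4) (nat_lit 473) (nat_lit 366) (nat_lit 361))) (XT.nd (nat_lit 78) (nat_lit 152) (nat_lit 0) (XT.lf (nat_lit 0) (nat_lit 18520552262) (nat_lit 76) (nat_lit 4365982738) (nat_lit 76) (nat_lit 3648029086) (nat_lit 36) (nat_lit 4) (nat_lit 37) (nat_lit 5) (nat_lit 37) (nat_lit 4) (nat_lit 474) (nat_lit 366) (nat_lit 360)) (XT.lf (nat_lit 0) (nat_lit 6726196233) (nat_lit 152) (nat_lit 14662923585) (nat_lit 0) (nat_lit 5946692322) (nat_lit 34) (nat_lit 5) (nat_lit 36) (nat_lit 4) (nat_lit 34) (nat_lit 4) (nat_lit 475) (nat_lit 366) (nat_lit 359)))))) (XT.nd (nat_lit 624) (nat_lit 532) (nat_lit 0) (XT.nd (nat_lit 312) (nat_lit 304) (nat_lit 0) (XT.nd (nat_lit 156) (nat_lit 228)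 (nat_lit 0) (XT.nd (nat_lit 78) (nat_lit 0) (nat_lit 0) (XT.lf (nat_lit 0) (nat_lit 5944102340) (nat_lit 76) (nat_lit 11550407858) (nat_lit 76) (nat_lit 10679724395) (nat_lit 33) (nat_lit 4) (nat_lit 34) (nat_lit 5) (nat_lit 34) (nat_lit 4) (nat_lit 476) (nat_lit 366) (nat_lit 358)) (XT.lf (nat_lit 0) (nat_lit 27485885889) (nat_lit 76) (nat_lit 1264381464) (nat_lit 76) (nat_lit 306860334) (nat_lit 33) (nat_lit 4) (nat_lit 34) (nat_lit 5) (nat_lit 34) (nat_lit 4) (nat_lit 477) (nat_lit 366) (nat_lit 357))) (XT.nd (nat_lit 78) (nat_lit 76) (nat_lit 0) (XT.lf (nat_lit 0) (nat_lit 10420668505) (nat_lit 152) (nat_lit 10116515829) (nat_lit 0) (nat_lit 9429979294) (nat_lit 31) (nat_lit 5) (nat_lit 33) (nat_lit 4) (nat_lit 31) (nat_lit 4) (nat_lit 478) (nat_lit 366) (nat_lit 356)) (XT.lf (nat_lit 0) (nat_lit 11224156358) (nat_lit 76) (nat_lit 10383659683) (nat_lit 76) (nat_lit 9317956829) (nat_lit 30)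 (nat_lit 4) (nat_lit 31) (nat_lit 5) (nat_lit 31) (nat_lit 4) (nat_lit 479) (nat_lit 366) (nat_lit 355)))) (XT.nd (nat_lit 156) (nat_lit 152) (nat_lit 0) (XT.nd (nat_lit 78) (nat_lit 0) (nat_lit 0) (XT.lf (nat_lit 0) (nat_lit 1287960884) (nat_lit 152) (nat_lit 30442702832) (nat_lit 0) (nat_lit 204966201) (nat_lit 28) (nat_lit 5) (nat_lit 30) (nat_lit 4) (nat_lit 28) (nat_lit 4) (nat_lit 480) (nat_lit 366) (nat_lit 354)) (XT.lf (nat_lit 0) (nat_lit 12331263393) (nat_lit 152) (nat_lit 9462598646) (nat_lit 0) (nat_lit 11183469105) (nat_lit 28) (nat_lit 5) (nat_lit 30) (nat_lit 4) (nat_lit 28) (nat_lit 4) (nat_lit 481) (nat_lit 366) (nat_lit 353))) (XT.nd (nat_lit 78) (nat_lit 76) (nat_lit 0) (XT.lf (nat_lit 0) (nat_lit 12405420677) (nat_lit 76) (nat_lit 11439644442) (nat_lit 76) (nat_lit 10230136244) (nat_lit 27) (nat_lit 4) (nat_lit 28) (nat_lit 5) (nat_lit 28) (nat_lit 4) (nat_lit 482) (nat_lit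 366) (nat_lit 352)) (XT.lf (nat_lit 0) (nat_lit 571606158) (nat_lit 152) (nat_lit 96490724) (nat_lit 76) (nat_lit 34564935707) (nat_lit 26) (nat_lit 5) (nat_lit 28) (nat_lit 5) (nat_lit 27) (nat_lit 4) (nat_lit 483) (nat_lit 366) (nat_lit 351))))) (XT.nd (nat_lit 312) (nat_lit 228) (nat_lit 0) (XT.nd (nat_lit 156) (nat_lit 152) (nat_lit 0) (XT.nd (nat_lit 78) (nat_lit 76) (nat_lit 0) (XT.lf (nat_lit 0) (nat_lit 11830482117) (nat_lit 152) (nat_lit 14027563731) (nat_lit 0) (nat_lit 10569282417) (nat_lit 25) (nat_lit 5) (nat_lit 27) (nat_lit 4) (nat_lit 25) (nat_lit 4) (nat_lit 484) (nat_lit 366) (nat_lit 350)) (XT.lf (nat_lit 0) (nat_lit 8058020362) (nat_lit 76) (nat_lit 15470734070) (nat_lit 76) (nat_lit 14158762184) (nat_lit 24) (nat_lit 4) (nat_lit 25) (nat_lit 5) (nat_lit 25) (nat_lit 4) (nat_lit 485) (nat_lit 366) (nat_lit 349))) (XT.nd (nat_lit 78) (nat_lit 152) (nat_lit 0) (XT.lf (nat_lit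 0) (nat_lit 31211634054) (nat_lit 76) (nat_lit 4580206094) (nat_lit 76) (nat_lit 3219879745) (nat_lit 24) (nat_lit 4) (nat_lit 25) (nat_lit 5) (nat_lit 25) (nat_lit 4) (nat_lit 486) (nat_lit 366) (nat_lit 348)) (XT.lf (nat_lit 0) (nat_lit 8094552980) (nat_lit 152) (nat_lit 25541324518) (nat_lit 0) (nat_lit 6755145154) (nat_lit 22) (nat_lit 5) (nat_lit 24) (nat_lit 4) (nat_lit 22) (nat_lit 4) (nat_lit 487) (nat_lit 366) (nat_lit 347)))) (XT.nd (nat_lit 156) (nat_lit 152) (nat_lit 0) (XT.nd (nat_lit 78) (nat_lit 76) (nat_lit 0) (XT.lf (nat_lit 0) (nat_lit 19826573871) (nat_lit 152) (nat_lit 3566678440) (nat_lit 0) (nat_lit 18445395641) (nat_lit 22) (nat_lit 5) (nat_lit 24) (nat_lit 4) (nat_lit 22) (nat_lit 4) (nat_lit 488) (nat_lit 366) (nat_lit 346)) (XT.lf (nat_lit 0) (nat_lit 19653122922) (nat_lit 76) (nat_lit 12561509860) (nat_lit 76) (nat_lit 11140550294) (nat_lit 21) (nat_lit 4) (nat_lit 22)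 (nat_lit 5) (nat_lit 22) (nat_lit 4) (nat_lit 489) (nat_lit 366) (nat_lit 345))) (XT.nd (nat_lit 78) (nat_lit 76) (nat_lit 0) (XT.lf (nat_lit 0) (nat_lit 89815951) (nat_lit 152) (nat_lit 1274723852) (nat_lit 76) (nat_lit 43591588523) (nat_lit 20) (nat_lit 5) (nat_lit 22) (nat_lit 5) (nat_lit 21) (nat_lit 4) (nat_lit 490) (nat_lit 366) (nat_lit 344)) (XT.nd (nat_lit 78) (nat_lit 0) (nat_lit 0) (XT.lf (nat_lit 0) (nat_lit 11797483068) (nat_lit 152) (nat_lit 24442256834) (nat_lit 0) (nat_lit 10373740785) (nat_lit 19) (nat_lit 5) (nat_lit 21) (nat_lit 4) (nat_lit 19) (nat_lit 4) (nat_lit 491) (nat_lit 366) (nat_lit 343)) (XT.lf (nat_lit 0) (nat_lit 23908919589) (nat_lit 152) (nat_lit 2001413009) (nat_lit 0) (nat_lit 22452449102) (nat_lit 19) (nat_lit 5) (nat_lit 21) (nat_lit 4) (nat_lit 19) (nat_lit 4) (nat_lit 492) (nat_lit 366) (nat_lit 342))))))))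
noncomputable def xc61 : XT := (XT.nd (nat_lit 1248) (nat_lit 456) (nat_lit 0) (XT.nd (nat_lit 624) (nat_lit 228) (nat_lit 0) (XT.nd (nat_lit 312) (nat_lit 228) (nat_lit 0) (XT.nd (nat_lit 156) (nat_lit 152) (nat_lit 0) (XT.nd (nat_lit 78) (nat_lit 0) (nat_lit 0) (XT.lf (nat_lit 0) (nat_lit 21822015876) (nat_lit 76) (nat_lit 14929447813) (nat_lit 76) (nat_lit 13441807608) (nat_lit 18) (nat_lit 4) (nat_lit 19) (nat_lit 5) (nat_lit 19) (nat_lit 4) (nat_lit 493) (nat_lit 366) (nat_lit 341)) (XT.lf (nat_lit 0) (nat_lit 46475265696) (nat_lit 76) (nat_lit 3583116633) (nat_lit 76) (nat_lit 2065790983) (nat_lit 18) (nat_lit 4) (nat_lit 19) (nat_lit 5) (nat_lit 19) (nat_lit 4) (nat_lit 494) (nat_lit 366) (nat_lit 340))) (XT.nd (nat_lit 78) (nat_lit 0) (nat_lit 0) (XT.lf (nat_lit 0) (nat_lit 9776391464) (nat_lit 152) (nat_lit 36052445658) (nat_lit 0) (nat_lit 8304393842) (nat_lit 16) (nat_lit 5) (nat_lit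 18) (nat_lit 4) (nat_lit 16) (nat_lit 4) (nat_lit 495) (nat_lit 366) (nat_lit 339)) (XT.lf (nat_lit 0) (nat_lit 22092448355) (nat_lit 152) (nat_lit 13556233333) (nat_lit 0) (nat_lit 20594807329) (nat_lit 16) (nat_lit 5) (nat_lit 18) (nat_lit 4) (nat_lit 16) (nat_lit 4) (nat_lit 496) (nat_lit 366) (nat_lit 338)))) (XT.nd (nat_lit 156) (nat_lit 152) (nat_lit 0) (XT.nd (nat_lit 78) (nat_lit 0) (nat_lit 0) (XT.lf (nat_lit 0) (nat_lit 9987123726) (nat_lit 76) (nat_lit 24998077577) (nat_lit 76) (nat_lit 23476014262) (nat_lit 15) (nat_lit 4) (nat_lit 16) (nat_lit 5) (nat_lit 16) (nat_lit 4) (nat_lit 497) (nat_lit 366) (nat_lit 337)) (XT.lf (nat_lit 0) (nat_lit 34787382563) (nat_lit 76) (nat_lit 13772941084) (nat_lit 76) (nat_lit 12227618444) (nat_lit 15) (nat_lit 4) (nat_lit 16) (nat_lit 5) (nat_lit 16) (nat_lit 4) (nat_lit 498) (nat_lit 366) (nat_lit 336))) (XT.nd (nat_lit 78) (nat_lit 152) (nat_lit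 0) (XT.lf (nat_lit 0) (nat_lit 60455361117) (nat_lit 76) (nat_lit 2176127063) (nat_lit 76) (nat_lit 608652687) (nat_lit 15) (nat_lit 4) (nat_lit 16) (nat_lit 5) (nat_lit 16) (nat_lit 4) (nat_lit 499) (nat_lit 366) (nat_lit 335)) (XT.lf (nat_lit 0) (nat_lit 11544728376) (nat_lit 152) (nat_lit 44213146462) (nat_lit 0) (nat_lit 10031803359) (nat_lit 13) (nat_lit 5) (nat_lit 15) (nat_lit 4) (nat_lit 13) (nat_lit 4) (nat_lit 500) (nat_lit 366) (nat_lit 334))))) (XT.nd (nat_lit 312) (nat_lit 152) (nat_lit 0) (XT.nd (nat_lit 156) (nat_lit 0) (nat_lit 0) (XT.nd (nat_lit 78) (nat_lit 76) (nat_lit 0) (XT.lf (nat_lit 0) (nat_lit 24192132485) (nat_lit 152) (nat_lit 21618648808) (nat_lit 0) (nat_lit 22660071965) (nat_lit 13) (nat_lit 5) (nat_lit 15) (nat_lit 4) (nat_lit 13) (nat_lit 4) (nat_lit 501) (nat_lit 366) (nat_lit 333)) (XT.lf (nat_lit 0) (nat_lit 1820528397) (nat_lit 76) (nat_lit 35511420777) (nat_lit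 76) (nat_lit 33961135968) (nat_lit 12) (nat_lit 4) (nat_lit 13) (nat_lit 5) (nat_lit 13) (nat_lit 4) (nat_lit 502) (nat_lit 366) (nat_lit 332))) (XT.nd (nat_lit 78) (nat_lit 0) (nat_lit 0) (XT.lf (nat_lit 0) (nat_lit 26844438843) (nat_lit 76) (nat_lit 24484803474) (nat_lit 76) (nat_lit 22917162200) (nat_lit 12) (nat_lit 4) (nat_lit 13) (nat_lit 5) (nat_lit 13) (nat_lit 4) (nat_lit 503) (nat_lit 366) (nat_lit 331)) (XT.lf (nat_lit 0) (nat_lit 52797853105) (nat_lit 76) (nat_lit 13070797813) (nat_lit 76) (nat_lit 11486626573) (nat_lit 12) (nat_lit 4) (nat_lit 13) (nat_lit 5) (nat_lit 13) (nat_lit 4) (nat_lit 504) (nat_lit 366) (nat_lit 330)))) (XT.nd (nat_lit 156) (nat_lit 0) (nat_lit 0) (XT.nd (nat_lit 78) (nat_lit 76) (nat_lit 0) (XT.lf (nat_lit 0) (nat_lit 346238273) (nat_lit 152) (nat_lit 890125604) (nat_lit 76) (nat_lit 79390463040) (nat_lit 11) (nat_lit 5) (nat_lit 13) (nat_lit 5) (nat_lit 12)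 (nat_lit 4) (nat_lit 505) (nat_lit 366) (nat_lit 329)) (XT.lf (nat_lit 0) (nat_lit 12799568894) (nat_lit 152) (nat_lit 59970665370) (nat_lit 0) (nat_lit 11261562005) (nat_lit 10) (nat_lit 5) (nat_lit 12) (nat_lit 4) (nat_lit 10) (nat_lit 4) (nat_lit 506) (nat_lit 366) (nat_lit 328))) (XT.nd (nat_lit 78) (nat_lit 0) (nat_lit 0) (XT.lf (nat_lit 0) (nat_lit 25765774037) (nat_lit 152) (nat_lit 37632561888) (nat_lit 0) (nat_lit 24214167904) (nat_lit 10) (nat_lit 5) (nat_lit 12) (nat_lit 4) (nat_lit 10) (nat_lit 4) (nat_lit 507) (nat_lit 366) (nat_lit 327)) (XT.lf (nat_lit 0) (nat_lit 39241830291) (nat_lit 152) (nat_lit 14460067071) (nat_lit 0) (nat_lit 37677272495) (nat_lit 10) (nat_lit 5) (nat_lit 12) (nat_lit 4) (nat_lit 10) (nat_lit 4) (nat_lit 508) (nat_lit 366) (nat_lit 326)))))) (XT.nd (nat_lit 624) (nat_lit 228) (nat_lit 0) (XT.nd (nat_lit 312) (nat_lit 152) (nat_lit 0) (XT.nd (nat_lit 156) (nat_lit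 0) (nat_lit 0) (XT.nd (nat_lit 78) (nat_lit 0) (nat_lit 0) (XT.lf (nat_lit 0) (nat_lit 9919476898) (nat_lit 76) (nat_lit 43495217438) (nat_lit 76) (nat_lit 41918324728) (nat_lit 9) (nat_lit 4) (nat_lit 10) (nat_lit 5) (nat_lit 10) (nat_lit 4) (nat_lit 509) (nat_lit 366) (nat_lit 325)) (XT.lf (nat_lit 0) (nat_lit 35755297835) (nat_lit 76) (nat_lit 32656072417) (nat_lit 76) (nat_lit 31067432167) (nat_lit 9) (nat_lit 4) (nat_lit 10) (nat_lit 5) (nat_lit 10) (nat_lit 4) (nat_lit 510) (nat_lit 366) (nat_lit 324))) (XT.nd (nat_lit 78) (nat_lit 0) (nat_lit 0) (XT.lf (nat_lit 0) (nat_lit 62630794478) (nat_lit 76) (nat_lit 21403543041) (nat_lit 76) (nat_lit 19803714659) (nat_lit 9) (nat_lit 4) (nat_lit 10) (nat_lit 5) (nat_lit 10) (nat_lit 4) (nat_lit 511) (nat_lit 366) (nat_lit 323)) (XT.lf (nat_lit 0) (nat_lit 90609956105) (nat_lit 76) (nat_lit 9710837575) (nat_lit 76) (nat_lit 8100353829) (nat_lit 9)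 (nat_lit 4) (nat_lit 10) (nat_lit 5) (nat_lit 10) (nat_lit 4) (nat_lit 512) (nat_lit 366) (nat_lit 322)))) (XT.nd (nat_lit 156) (nat_lit 0) (nat_lit 0) (XT.nd (nat_lit 78) (nat_lit 0) (nat_lit 0) (XT.lf (nat_lit 0) (nat_lit 4085374893) (nat_lit 152) (nat_lit 106601274856) (nat_lit 0) (nat_lit 2541916120) (nat_lit 7) (nat_lit 5) (nat_lit 9) (nat_lit 4) (nat_lit 7) (nat_lit 4) (nat_lit 513) (nat_lit 366) (nat_lit 321)) (XT.lf (nat_lit 0) (nat_lit 16960083160) (nat_lit 152) (nat_lit 85884616658) (nat_lit 0) (nat_lit 15407419882) (nat_lit 7) (nat_lit 5) (nat_lit 9) (nat_lit 4) (nat_lit 7) (nat_lit 4) (nat_lit 514) (nat_lit 366) (nat_lit 320))) (XT.nd (nat_lit 78) (nat_lit 0) (nat_lit 0) (XT.lf (nat_lit 0) (nat_lit 30370086814) (nat_lit 152) (nat_lit 64353529157) (nat_lit 0) (nat_lit 28808657343) (nat_lit 7) (nat_lit 5) (nat_lit 9) (nat_lit 4) (nat_lit 7) (nat_lit 4) (nat_lit 515) (nat_lit 366) (nat_lit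 319)) (XT.lf (nat_lit 0) (nat_lit 44347314437) (nat_lit 152) (nat_lit 41956747859) (nat_lit 0) (nat_lit 42777536209) (nat_lit 7) (nat_lit 5) (nat_lit 9) (nat_lit 4) (nat_lit 7) (nat_lit 4) (nat_lit 516) (nat_lit 366) (nat_lit 318))))) (XT.nd (nat_lit 312) (nat_lit 152) (nat_lit 0) (XT.nd (nat_lit 156) (nat_lit 0) (nat_lit 0) (XT.nd (nat_lit 78) (nat_lit 76) (nat_lit 0) (XT.lf (nat_lit 0) (nat_lit 58925045142) (nat_lit 152) (nat_lit 18640947095) (nat_lit 0) (nat_lit 57347315717) (nat_lit 7) (nat_lit 5) (nat_lit 9) (nat_lit 4) (nat_lit 7) (nat_lit 4) (nat_lit 517) (nat_lit 366) (nat_lit 317)) (XT.lf (nat_lit 0) (nat_lit 5836181191) (nat_lit 76) (nat_lit 68392925763) (nat_lit 76) (nat_lit 66807623770) (nat_lit 6) (nat_lit 4) (nat_lit 7) (nat_lit 5) (nat_lit 7) (nat_lit 4) (nat_lit 518) (nat_lit 366) (nat_lit 316))) (XT.nd (nat_lit 78) (nat_lit 0) (nat_lit 0) (XT.lf (nat_lit 0) (nat_lit 31996165509)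 (nat_lit 76) (nat_lit 58525748037) (nat_lit 76) (nat_lit 56933234075) (nat_lit 6) (nat_lit 4) (nat_lit 7) (nat_lit 5) (nat_lit 7) (nat_lit 4) (nat_lit 519) (nat_lit 366) (nat_lit 315)) (XT.lf (nat_lit 0) (nat_lit 59284937640) (nat_lit 76) (nat_lit 48256659240) (nat_lit 76) (nat_lit 46657276734) (nat_lit 6) (nat_lit 4) (nat_lit 7) (nat_lit 5) (nat_lit 7) (nat_lit 4) (nat_lit 520) (nat_lit 366) (nat_lit 314)))) (XT.nd (nat_lit 156) (nat_lit 152) (nat_lit 0) (XT.nd (nat_lit 78) (nat_lit 0) (nat_lit 0) (XT.lf (nat_lit 0) (nat_lit 87767470850) (nat_lit 76) (nat_lit 37561209159) (nat_lit 76) (nat_lit 35955285184) (nat_lit 6) (nat_lit 4) (nat_lit 7) (nat_lit 5) (nat_lit 7) (nat_lit 4) (nat_lit 521) (nat_lit 366) (nat_lit 313)) (XT.lf (nat_lit 0) (nat_lit 117511580694) (nat_lit 76) (nat_lit 26413932437) (nat_lit 76) (nat_lit 24801778491) (nat_lit 6) (nat_lit 4) (nat_lit 7) (nat_lit 5) (nat_lit 7) (nat_lit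 4) (nat_lit 522) (nat_lit 366) (nat_lit 312))) (XT.nd (nat_lit 78) (nat_lit 152) (nat_lit 0) (XT.lf (nat_lit 0) (nat_lit 148588086481) (nat_lit 76) (nat_lit 14788287939) (nat_lit 76) (nat_lit 13170200688) (nat_lit 6) (nat_lit 4) (nat_lit 7) (nat_lit 5) (nat_lit 7) (nat_lit 4) (nat_lit 523) (nat_lit 366) (nat_lit 311)) (XT.nd (nat_lit 78) (nat_lit 152) (nat_lit 0) (XT.lf (nat_lit 0) (nat_lit 181070979892) (nat_lit 76) (nat_lit 2656595559) (nat_lit 76) (nat_lit 1032857541) (nat_lit 6) (nat_lit 4) (nat_lit 7) (nat_lit 5) (nat_lit 7) (nat_lit 4) (nat_lit 524) (nat_lit 366) (nat_lit 310)) (XT.lf (nat_lit 0) (nat_lit 11777813107) (nat_lit 152) (nat_lit 171349692992) (nat_lit 0) (nat_lit 10226270535) (nat_lit 4) (nat_lit 5) (nat_lit 6) (nat_lit 4) (nat_lit 4) (nat_lit 4) (nat_lit 525) (nat_lit 366) (nat_lit 309))))))))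
noncomputable def xc62 : XT := (XT.nd (nat_lit 1248) (nat_lit 152) (nat_lit 0) (XT.nd (nat_lit 624) (nat_lit 76) (nat_lit 0) (XT.nd (nat_lit 312) (nat_lit 0) (nat_lit 0) (XT.nd (nat_lit 156) (nat_lit 0) (nat_lit 0) (XT.nd (nat_lit 78) (nat_lit 0) (nat_lit 0) (XT.lf (nat_lit 0) (nat_lit 25231488625) (nat_lit 152) (nat_lit 153467528463) (nat_lit 0) (nat_lit 23675064708) (nat_lit 4) (nat_lit 5) (nat_lit 6) (nat_lit 4) (nat_lit 4) (nat_lit 4) (nat_lit 526) (nat_lit 366) (nat_lit 308)) (XT.lf (nat_lit 0) (nat_lit 39291299725) (nat_lit 152) (nat_lit 134827203042) (nat_lit 0) (nat_lit 37730226908) (nat_lit 4) (nat_lit 5) (nat_lit 6) (nat_lit 4) (nat_lit 4) (nat_lit 4) (nat_lit 527) (nat_lit 366) (nat_lit 307))) (XT.nd (nat_lit 78) (nat_lit 0) (nat_lit 0) (XT.lf (nat_lit 0) (nat_lit 53990722147) (nat_lit 152) (nat_lit 115384335002) (nat_lit 0) (nat_lit 52425221806) (nat_lit 4) (nat_lit 5) (nat_lit 6) (nat_lit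 4) (nat_lit 4) (nat_lit 4) (nat_lit 528) (nat_lit 366) (nat_lit 306)) (XT.lf (nat_lit 0) (nat_lit 69364754516) (nat_lit 152) (nat_lit 95092631799) (nat_lit 0) (nat_lit 67795037486) (nat_lit 4) (nat_lit 5) (nat_lit 6) (nat_lit 4) (nat_lit 4) (nat_lit 4) (nat_lit 529) (nat_lit 366) (nat_lit 305)))) (XT.nd (nat_lit 156) (nat_lit 0) (nat_lit 0) (XT.nd (nat_lit 78) (nat_lit 0) (nat_lit 0) (XT.lf (nat_lit 0) (nat_lit 85450001671) (nat_lit 152) (nat_lit 73903779854) (nat_lit 0) (nat_lit 83876268746) (nat_lit 4) (nat_lit 5) (nat_lit 6) (nat_lit 4) (nat_lit 4) (nat_lit 4) (nat_lit 530) (nat_lit 366) (nat_lit 304)) (XT.lf (nat_lit 0) (nat_lit 102284761819) (nat_lit 152) (nat_lit 51767329520) (nat_lit 0) (nat_lit 100707204233) (nat_lit 4) (nat_lit 5) (nat_lit 6) (nat_lit 4) (nat_lit 4) (nat_lit 4) (nat_lit 531) (nat_lit 366) (nat_lit 303))) (XT.nd (nat_lit 78) (nat_lit 0) (nat_lit 0) (XT.lf (nat_lit 0) (nat_lit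 119909117724) (nat_lit 152) (nat_lit 28630574964) (nat_lit 0) (nat_lit 118327917602) (nat_lit 4) (nat_lit 5) (nat_lit 6) (nat_lit 4) (nat_lit 4) (nat_lit 4) (nat_lit 532) (nat_lit 366) (nat_lit 302)) (XT.lf (nat_lit 0) (nat_lit 138365032136) (nat_lit 152) (nat_lit 4438428673) (nat_lit 0) (nat_lit 136780362934) (nat_lit 4) (nat_lit 5) (nat_lit 6) (nat_lit 4) (nat_lit 4) (nat_lit 4) (nat_lit 533) (nat_lit 366) (nat_lit 301))))) (XT.nd (nat_lit 312) (nat_lit 0) (nat_lit 0) (XT.nd (nat_lit 156) (nat_lit 0) (nat_lit 0) (XT.nd (nat_lit 78) (nat_lit 0) (nat_lit 0) (XT.lf (nat_lit 0) (nat_lit 21556657359) (nat_lit 76) (nat_lit 136476350184) (nat_lit 76) (nat_lit 134888377095) (nat_lit 3) (nat_lit 4) (nat_lit 4) (nat_lit 5) (nat_lit 4) (nat_lit 4) (nat_lit 534) (nat_lit 366) (nat_lit 300)) (XT.lf (nat_lit 0) (nat_lit 48910532993) (nat_lit 76) (nat_lit 129802489123) (nat_lit 76) (nat_lit 128211369476) (nat_lit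 3) (nat_lit 4) (nat_lit 4) (nat_lit 5) (nat_lit 4) (nat_lit 4) (nat_lit 535) (nat_lit 366) (nat_lit 299))) (XT.nd (nat_lit 78) (nat_lit 0) (nat_lit 0) (XT.lf (nat_lit 0) (nat_lit 77541572006) (nat_lit 76) (nat_lit 122841154418) (nat_lit 76) (nat_lit 121247038048) (nat_lit 3) (nat_lit 4) (nat_lit 4) (nat_lit 5) (nat_lit 4) (nat_lit 4) (nat_lit 536) (nat_lit 366) (nat_lit 298)) (XT.lf (nat_lit 0) (nat_lit 107517943540) (nat_lit 76) (nat_lit 115575771463) (nat_lit 76) (nat_lit 113978801072) (nat_lit 3) (nat_lit 4) (nat_lit 4) (nat_lit 5) (nat_lit 4) (nat_lit 4) (nat_lit 537) (nat_lit 366) (nat_lit 297)))) (XT.nd (nat_lit 156) (nat_lit 0) (nat_lit 0) (XT.nd (nat_lit 78) (nat_lit 0) (nat_lit 0) (XT.lf (nat_lit 0) (nat_lit 138911019907) (nat_lit 76) (nat_lit 107989041726) (nat_lit 76) (nat_lit 106389353220) (nat_lit 3) (nat_lit 4) (nat_lit 4) (nat_lit 5) (nat_lit 4) (nat_lit 4) (nat_lit 538) (nat_lit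 366) (nat_lit 296)) (XT.lf (nat_lit 0) (nat_lit 171795546528) (nat_lit 76) (nat_lit 100062901566) (nat_lit 76) (nat_lit 98460624378) (nat_lit 3) (nat_lit 4) (nat_lit 4) (nat_lit 5) (nat_lit 4) (nat_lit 4) (nat_lit 539) (nat_lit 366) (nat_lit 295))) (XT.nd (nat_lit 78) (nat_lit 0) (nat_lit 0) (XT.lf (nat_lit 0) (nat_lit 206249819894) (nat_lit 76) (nat_lit 91778479221) (nat_lit 76) (nat_lit 90173736622) (nat_lit 3) (nat_lit 4) (nat_lit 4) (nat_lit 5) (nat_lit 4) (nat_lit 4) (nat_lit 540) (nat_lit 366) (nat_lit 294)) (XT.lf (nat_lit 0) (nat_lit 242355873989) (nat_lit 76) (nat_lit 83116049874) (nat_lit 76) (nat_lit 81508959265) (nat_lit 3) (nat_lit 4) (nat_lit 4) (nat_lit 5) (nat_lit 4) (nat_lit 4) (nat_lit 541) (nat_lit 366) (nat_lit 293)))))) (XT.nd (nat_lit 624) (nat_lit 0) (nat_lit 0) (XT.nd (nat_lit 312) (nat_lit 152) (nat_lit 0) (XT.nd (nat_lit 156) (nat_lit 0) (nat_lit 0) (XT.nd (nat_lit 78)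 (nat_lit 0) (nat_lit 0) (XT.lf (nat_lit 0) (nat_lit 280199675610) (nat_lit 76) (nat_lit 74054988695) (nat_lit 76) (nat_lit 72445661885) (nat_lit 3) (nat_lit 4) (nat_lit 4) (nat_lit 5) (nat_lit 4) (nat_lit 4) (nat_lit 542) (nat_lit 366) (nat_lit 292)) (XT.lf (nat_lit 0) (nat_lit 319871329045) (nat_lit 76) (nat_lit 64573721728) (nat_lit 76) (nat_lit 62962265204) (nat_lit 3) (nat_lit 4) (nat_lit 4) (nat_lit 5) (nat_lit 4) (nat_lit 4) (nat_lit 543) (nat_lit 366) (nat_lit 291))) (XT.nd (nat_lit 78) (nat_lit 0) (nat_lit 0) (XT.lf (nat_lit 0) (nat_lit 361465290612) (nat_lit 76) (nat_lit 54649674529) (nat_lit 76) (nat_lit 53036189705) (nat_lit 3) (nat_lit 4) (nat_lit 4) (nat_lit 5) (nat_lit 4) (nat_lit 4) (nat_lit 544) (nat_lit 366) (nat_lit 290)) (XT.lf (nat_lit 0) (nat_lit 405080593554) (nat_lit 76) (nat_lit 44259218412) (nat_lit 76) (nat_lit 42643801874) (nat_lit 3) (nat_lit 4) (nat_lit 4) (nat_lit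 5) (nat_lit 4) (nat_lit 4) (nat_lit 545) (nat_lit 366) (nat_lit 289)))) (XT.nd (nat_lit 156) (nat_lit 152) (nat_lit 0) (XT.nd (nat_lit 78) (nat_lit 0) (nat_lit 0) (XT.lf (nat_lit 0) (nat_lit 450821083829) (nat_lit 76) (nat_lit 33377614198) (nat_lit 76) (nat_lit 31760357932) (nat_lit 3) (nat_lit 4) (nat_lit 4) (nat_lit 5) (nat_lit 4) (nat_lit 4) (nat_lit 546) (nat_lit 366) (nat_lit 288)) (XT.lf (nat_lit 0) (nat_lit 498795667366) (nat_lit 76) (nat_lit 21978953304) (nat_lit 76) (nat_lit 20359944917) (nat_lit 3) (nat_lit 4) (nat_lit 4) (nat_lit 5) (nat_lit 4) (nat_lit 4) (nat_lit 547) (nat_lit 366) (nat_lit 287))) (XT.nd (nat_lit 78) (nat_lit 152) (nat_lit 0) (XT.lf (nat_lit 0) (nat_lit 549118569366) (nat_lit 76) (nat_lit 10036096062) (nat_lit 76) (nat_lit 8415418987) (nat_lit 3) (nat_lit 4) (nat_lit 4) (nat_lit 5) (nat_lit 4) (nat_lit 4) (nat_lit 548) (nat_lit 366) (nat_lit 286)) (XT.lf (nat_lit 0)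 (nat_lit 4116976864) (nat_lit 152) (nat_lit 588629084211) (nat_lit 0) (nat_lit 2571961340) (nat_lit 1) (nat_lit 5) (nat_lit 3) (nat_lit 4) (nat_lit 1) (nat_lit 4) (nat_lit 549) (nat_lit 366) (nat_lit 285))))) (XT.nd (nat_lit 312) (nat_lit 0) (nat_lit 0) (XT.nd (nat_lit 156) (nat_lit 0) (nat_lit 0) (XT.nd (nat_lit 78) (nat_lit 0) (nat_lit 0) (XT.lf (nat_lit 0) (nat_lit 17451434113) (nat_lit 152) (nat_lit 591067135476) (nat_lit 0) (nat_lit 15904977114) (nat_lit 1) (nat_lit 5) (nat_lit 3) (nat_lit 4) (nat_lit 1) (nat_lit 4) (nat_lit 550) (nat_lit 366) (nat_lit 284)) (XT.lf (nat_lit 0) (nat_lit 31429871989) (nat_lit 152) (nat_lit 593673570185) (nat_lit 0) (nat_lit 29882042157) (nat_lit 1) (nat_lit 5) (nat_lit 3) (nat_lit 4) (nat_lit 1) (nat_lit 4) (nat_lit 551) (nat_lit 366) (nat_lit 283))) (XT.nd (nat_lit 78) (nat_lit 0) (nat_lit 0) (XT.lf (nat_lit 0) (nat_lit 46085572488) (nat_lit 152) (nat_lit 596454594134)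 (nat_lit 0) (nat_lit 44536435196) (nat_lit 1) (nat_lit 5) (nat_lit 3) (nat_lit 4) (nat_lit 1) (nat_lit 4) (nat_lit 552) (nat_lit 366) (nat_lit 282)) (XT.lf (nat_lit 0) (nat_lit 61453430134) (nat_lit 152) (nat_lit 599416828809) (nat_lit 0) (nat_lit 59903047642) (nat_lit 1) (nat_lit 5) (nat_lit 3) (nat_lit 4) (nat_lit 1) (nat_lit 4) (nat_lit 553) (nat_lit 366) (nat_lit 281)))) (XT.nd (nat_lit 156) (nat_lit 0) (nat_lit 0) (XT.nd (nat_lit 78) (nat_lit 0) (nat_lit 0) (XT.lf (nat_lit 0) (nat_lit 77570035065) (nat_lit 152) (nat_lit 602567327149) (nat_lit 0) (nat_lit 76018466669) (nat_lit 1) (nat_lit 5) (nat_lit 3) (nat_lit 4) (nat_lit 1) (nat_lit 4) (nat_lit 554) (nat_lit 366) (nat_lit 280)) (XT.lf (nat_lit 0) (nat_lit 94473760150) (nat_lit 152) (nat_lit 605913590341) (nat_lit 0) (nat_lit 92921062320) (nat_lit 1) (nat_lit 5) (nat_lit 3) (nat_lit 4) (nat_lit 1) (nat_lit 4) (nat_lit 555) (nat_lit 366) (nat_lit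 279))) (XT.nd (nat_lit 78) (nat_lit 0) (nat_lit 0) (XT.lf (nat_lit 0) (nat_lit 112204852353) (nat_lit 152) (nat_lit 609463585679) (nat_lit 0) (nat_lit 110651078873) (nat_lit 1) (nat_lit 5) (nat_lit 3) (nat_lit 4) (nat_lit 1) (nat_lit 4) (nat_lit 556) (nat_lit 366) (nat_lit 278)) (XT.nd (nat_lit 55380) (nat_lit 0) (nat_lit 3344) (XT.lf (nat_lit 0) (nat_lit 130805528561) (nat_lit 152) (nat_lit 613225765532) (nat_lit 0) (nat_lit 129250730651) (nat_lit 1) (nat_lit 5) (nat_lit 3) (nat_lit 4) (nat_lit 1) (nat_lit 4) (nat_lit 557) (nat_lit 366) (nat_lit 277)) (XT.lf (nat_lit 0) (nat_lit 214169059) (nat_lit 76) (nat_lit 5194825635) (nat_lit 76) (nat_lit 5194825635) (nat_lit 45) (nat_lit 4) (nat_lit 46) (nat_lit 5) (nat_lit 46) (nat_lit 4) (nat_lit 466) (nat_lit 367) (nat_lit 367))))))))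
noncomputable def xc63 : XT := (XT.nd (nat_lit 1248) (nat_lit 912) (nat_lit 0) (XT.nd (nat_lit 624) (nat_lit 684) (nat_lit 0) (XT.nd (nat_lit 312) (nat_lit 304) (nat_lit 0) (XT.nd (nat_lit 156) (nat_lit 228) (nat_lit 0) (XT.nd (nat_lit 78) (nat_lit 152) (nat_lit 0) (XT.lf (nat_lit 0) (nat_lit 19574810489) (nat_lit 76) (nat_lit 1189031194) (nat_lit 76) (nat_lit 1025285820) (nat_lit 45) (nat_lit 4) (nat_lit 46) (nat_lit 5) (nat_lit 46) (nat_lit 4) (nat_lit 467) (nat_lit 367) (nat_lit 366)) (XT.lf (nat_lit 0) (nat_lit 8619599870) (nat_lit 152) (nat_lit 5453375481) (nat_lit 0) (nat_lit 8315130013) (nat_lit 43) (nat_lit 5) (nat_lit 45) (nat_lit 4) (nat_lit 43) (nat_lit 4) (nat_lit 468) (nat_lit 367) (nat_lit 365))) (XT.nd (nat_lit 78) (nat_lit 152) (nat_lit 0) (XT.lf (nat_lit 0) (nat_lit 13897981784) (nat_lit 76) (nat_lit 4782851338) (nat_lit 76) (nat_lit 4336932071) (nat_lit 42) (nat_lit 4) (nat_lit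 43) (nat_lit 5) (nat_lit 43) (nat_lit 4) (nat_lit 469) (nat_lit 367) (nat_lit 364)) (XT.lf (nat_lit 0) (nat_lit 5416348785) (nat_lit 152) (nat_lit 13393436219) (nat_lit 0) (nat_lit 4863364984) (nat_lit 40) (nat_lit 5) (nat_lit 42) (nat_lit 4) (nat_lit 40) (nat_lit 4) (nat_lit 470) (nat_lit 367) (nat_lit 363)))) (XT.nd (nat_lit 156) (nat_lit 76) (nat_lit 0) (XT.nd (nat_lit 78) (nat_lit 152) (nat_lit 0) (XT.lf (nat_lit 0) (nat_lit 6039979582) (nat_lit 76) (nat_lit 9495864485) (nat_lit 76) (nat_lit 8820691364) (nat_lit 39) (nat_lit 4) (nat_lit 40) (nat_lit 5) (nat_lit 40) (nat_lit 4) (nat_lit 471) (nat_lit 367) (nat_lit 362)) (XT.lf (nat_lit 0) (nat_lit 1001328962) (nat_lit 152) (nat_lit 23826990817) (nat_lit 0) (nat_lit 247477628) (nat_lit 37) (nat_lit 5) (nat_lit 39) (nat_lit 4) (nat_lit 37) (nat_lit 4) (nat_lit 472) (nat_lit 367) (nat_lit 361))) (XT.nd (nat_lit 78) (nat_lit 76) (nat_lit 0) (XT.lf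 (nat_lit 0) (nat_lit 11184141529) (nat_lit 152) (nat_lit 4306607281) (nat_lit 0) (nat_lit 10324738467) (nat_lit 37) (nat_lit 5) (nat_lit 39) (nat_lit 4) (nat_lit 37) (nat_lit 4) (nat_lit 473) (nat_lit 367) (nat_lit 360)) (XT.lf (nat_lit 0) (nat_lit 16120923029) (nat_lit 76) (nat_lit 5716549633) (nat_lit 76) (nat_lit 4756621115) (nat_lit 36) (nat_lit 4) (nat_lit 37) (nat_lit 5) (nat_lit 37) (nat_lit 4) (nat_lit 474) (nat_lit 367) (nat_lit 359))))) (XT.nd (nat_lit 312) (nat_lit 304) (nat_lit 0) (XT.nd (nat_lit 156) (nat_lit 152) (nat_lit 0) (XT.nd (nat_lit 78) (nat_lit 76) (nat_lit 0) (XT.lf (nat_lit 0) (nat_lit 5443223120) (nat_lit 152) (nat_lit 17525651796) (nat_lit 0) (nat_lit 4437825933) (nat_lit 34) (nat_lit 5) (nat_lit 36) (nat_lit 4) (nat_lit 34) (nat_lit 4) (nat_lit 475) (nat_lit 367) (nat_lit 358)) (XT.lf (nat_lit 0) (nat_lit 2691764640) (nat_lit 76) (nat_lit 13327601256) (nat_lit 76) (nat_lit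 12235366400) (nat_lit 33) (nat_lit 4) (nat_lit 34) (nat_lit 5) (nat_lit 34) (nat_lit 4) (nat_lit 476) (nat_lit 367) (nat_lit 357))) (XT.nd (nat_lit 78) (nat_lit 152) (nat_lit 0) (XT.lf (nat_lit 0) (nat_lit 23952638888) (nat_lit 76) (nat_lit 3183438303) (nat_lit 76) (nat_lit 2008500907) (nat_lit 33) (nat_lit 4) (nat_lit 34) (nat_lit 5) (nat_lit 34) (nat_lit 4) (nat_lit 477) (nat_lit 367) (nat_lit 356)) (XT.lf (nat_lit 0) (nat_lit 8542973852) (nat_lit 152) (nat_lit 14175522579) (nat_lit 0) (nat_lit 7348972213) (nat_lit 31) (nat_lit 5) (nat_lit 33) (nat_lit 4) (nat_lit 31) (nat_lit 4) (nat_lit 478) (nat_lit 367) (nat_lit 355)))) (XT.nd (nat_lit 156) (nat_lit 228) (nat_lit 0) (XT.nd (nat_lit 78) (nat_lit 0) (nat_lit 0) (XT.lf (nat_lit 0) (nat_lit 6749839737) (nat_lit 76) (nat_lit 12775949168) (nat_lit 76) (nat_lit 11510505965) (nat_lit 30) (nat_lit 4) (nat_lit 31) (nat_lit 5) (nat_lit 31) (nat_lit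 4) (nat_lit 479) (nat_lit 367) (nat_lit 354)) (XT.lf (nat_lit 0) (nat_lit 28664796504) (nat_lit 76) (nat_lit 2361900879) (nat_lit 76) (nat_lit 1028418091) (nat_lit 30) (nat_lit 4) (nat_lit 31) (nat_lit 5) (nat_lit 31) (nat_lit 4) (nat_lit 480) (nat_lit 367) (nat_lit 353))) (XT.nd (nat_lit 78) (nat_lit 76) (nat_lit 0) (XT.lf (nat_lit 0) (nat_lit 9821028600) (nat_lit 152) (nat_lit 14798598733) (nat_lit 0) (nat_lit 8489331082) (nat_lit 28) (nat_lit 5) (nat_lit 30) (nat_lit 4) (nat_lit 28) (nat_lit 4) (nat_lit 481) (nat_lit 367) (nat_lit 352)) (XT.lf (nat_lit 0) (nat_lit 6625115776) (nat_lit 76) (nat_lit 14491547097) (nat_lit 76) (nat_lit 13101074428) (nat_lit 27) (nat_lit 4) (nat_lit 28) (nat_lit 5) (nat_lit 28) (nat_lit 4) (nat_lit 482) (nat_lit 367) (nat_lit 351)))))) (XT.nd (nat_lit 624) (nat_lit 456) (nat_lit 0) (XT.nd (nat_lit 312) (nat_lit 228) (nat_lit 0) (XT.nd (nat_lit 156) (nat_lit 76) (nat_lit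 0) (XT.nd (nat_lit 78) (nat_lit 152) (nat_lit 0) (XT.lf (nat_lit 0) (nat_lit 29110800676) (nat_lit 76) (nat_lit 3858984363) (nat_lit 76) (nat_lit 2412535359) (nat_lit 27) (nat_lit 4) (nat_lit 28) (nat_lit 5) (nat_lit 28) (nat_lit 4) (nat_lit 483) (nat_lit 367) (nat_lit 350)) (XT.lf (nat_lit 0) (nat_lit 8644718344) (nat_lit 152) (nat_lit 20731347549) (nat_lit 0) (nat_lit 7216375678) (nat_lit 25) (nat_lit 5) (nat_lit 27) (nat_lit 4) (nat_lit 25) (nat_lit 4) (nat_lit 484) (nat_lit 367) (nat_lit 349))) (XT.nd (nat_lit 78) (nat_lit 0) (nat_lit 0) (XT.lf (nat_lit 0) (nat_lit 877332862) (nat_lit 76) (nat_lit 19231842597) (nat_lit 76) (nat_lit 17755145468) (nat_lit 24) (nat_lit 4) (nat_lit 25) (nat_lit 5) (nat_lit 25) (nat_lit 4) (nat_lit 485) (nat_lit 367) (nat_lit 348)) (XT.lf (nat_lit 0) (nat_lit 23787854826) (nat_lit 76) (nat_lit 8464701914) (nat_lit 76) (nat_lit 6941952916) (nat_lit 24) (nat_lit 4)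 (nat_lit 25) (nat_lit 5) (nat_lit 25) (nat_lit 4) (nat_lit 486) (nat_lit 367) (nat_lit 347)))) (XT.nd (nat_lit 156) (nat_lit 76) (nat_lit 0) (XT.nd (nat_lit 78) (nat_lit 0) (nat_lit 0) (XT.lf (nat_lit 0) (nat_lit 4184666840) (nat_lit 152) (nat_lit 33714739216) (nat_lit 0) (nat_lit 2692659295) (nat_lit 22) (nat_lit 5) (nat_lit 24) (nat_lit 4) (nat_lit 22) (nat_lit 4) (nat_lit 487) (nat_lit 367) (nat_lit 346)) (XT.lf (nat_lit 0) (nat_lit 15800881218) (nat_lit 152) (nat_lit 11975507620) (nat_lit 0) (nat_lit 14269092338) (nat_lit 22) (nat_lit 5) (nat_lit 24) (nat_lit 4) (nat_lit 22) (nat_lit 4) (nat_lit 488) (nat_lit 367) (nat_lit 345))) (XT.nd (nat_lit 78) (nat_lit 0) (nat_lit 0) (XT.lf (nat_lit 0) (nat_lit 10734642398) (nat_lit 76) (nat_lit 17204763340) (nat_lit 76) (nat_lit 15635087473) (nat_lit 21) (nat_lit 4) (nat_lit 22) (nat_lit 5) (nat_lit 22) (nat_lit 4) (nat_lit 489) (nat_lit 367) (nat_lit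 344)) (XT.lf (nat_lit 0) (nat_lit 34543856957) (nat_lit 76) (nat_lit 6121418512) (nat_lit 76) (nat_lit 4515659800) (nat_lit 21) (nat_lit 4) (nat_lit 22) (nat_lit 5) (nat_lit 22) (nat_lit 4) (nat_lit 490) (nat_lit 367) (nat_lit 343))))) (XT.nd (nat_lit 312) (nat_lit 228) (nat_lit 0) (XT.nd (nat_lit 156) (nat_lit 76) (nat_lit 0) (XT.nd (nat_lit 78) (nat_lit 0) (nat_lit 0) (XT.lf (nat_lit 0) (nat_lit 6998579678) (nat_lit 152) (nat_lit 34423573607) (nat_lit 0) (nat_lit 5436557462) (nat_lit 19) (nat_lit 5) (nat_lit 21) (nat_lit 4) (nat_lit 19) (nat_lit 4) (nat_lit 491) (nat_lit 367) (nat_lit 342)) (XT.lf (nat_lit 0) (nat_lit 19005056652) (nat_lit 152) (nat_lit 12196338523) (nat_lit 0) (nat_lit 17411864719) (nat_lit 19) (nat_lit 5) (nat_lit 21) (nat_lit 4) (nat_lit 19) (nat_lit 4) (nat_lit 492) (nat_lit 367) (nat_lit 341))) (XT.nd (nat_lit 78) (nat_lit 0) (nat_lit 0) (XT.lf (nat_lit 0) (nat_lit 11079836643)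 (nat_lit 76) (nat_lit 20500087112) (nat_lit 76) (nat_lit 18877209734) (nat_lit 18) (nat_lit 4) (nat_lit 19) (nat_lit 5) (nat_lit 19) (nat_lit 4) (nat_lit 493) (nat_lit 367) (nat_lit 340)) (XT.lf (nat_lit 0) (nat_lit 35532930807) (nat_lit 76) (nat_lit 9255585195) (nat_lit 76) (nat_lit 7604435964) (nat_lit 18) (nat_lit 4) (nat_lit 19) (nat_lit 5) (nat_lit 19) (nat_lit 4) (nat_lit 494) (nat_lit 367) (nat_lit 339)))) (XT.nd (nat_lit 156) (nat_lit 76) (nat_lit 0) (XT.nd (nat_lit 78) (nat_lit 0) (nat_lit 0) (XT.lf (nat_lit 0) (nat_lit 4042770484) (nat_lit 152) (nat_lit 47937571310) (nat_lit 0) (nat_lit 2444604002) (nat_lit 16) (nat_lit 5) (nat_lit 18) (nat_lit 4) (nat_lit 16) (nat_lit 4) (nat_lit 495) (nat_lit 367) (nat_lit 338)) (XT.lf (nat_lit 0) (nat_lit 16263688947) (nat_lit 152) (nat_lit 25635171771) (nat_lit 0) (nat_lit 14641100176) (nat_lit 16) (nat_lit 5) (nat_lit 18) (nat_lit 4) (nat_lit 16)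 (nat_lit 4) (nat_lit 496) (nat_lit 367) (nat_lit 337))) (XT.nd (nat_lit 78) (nat_lit 76) (nat_lit 0) (XT.lf (nat_lit 0) (nat_lit 28909906878) (nat_lit 152) (nat_lit 2596048648) (nat_lit 0) (nat_lit 27264058783) (nat_lit 16) (nat_lit 5) (nat_lit 18) (nat_lit 4) (nat_lit 16) (nat_lit 4) (nat_lit 497) (nat_lit 367) (nat_lit 336)) (XT.nd (nat_lit 78) (nat_lit 0) (nat_lit 0) (XT.lf (nat_lit 0) (nat_lit 21936766645) (nat_lit 76) (nat_lit 20417262078) (nat_lit 76) (nat_lit 18749262247) (nat_lit 15) (nat_lit 4) (nat_lit 16) (nat_lit 5) (nat_lit 16) (nat_lit 4) (nat_lit 498) (nat_lit 367) (nat_lit 335)) (XT.lf (nat_lit 0) (nat_lit 47431786675) (nat_lit 76) (nat_lit 8908522064) (nat_lit 76) (nat_lit 7219425340) (nat_lit 15) (nat_lit 4) (nat_lit 16) (nat_lit 5) (nat_lit 16) (nat_lit 4) (nat_lit 499) (nat_lit 367) (nat_lit 334))))))))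
noncomputable def xc64 : XT := (XT.nd (nat_lit 1248) (nat_lit 228) (nat_lit 0) (XT.nd (nat_lit 624) (nat_lit 228) (nat_lit 0) (XT.nd (nat_lit 312) (nat_lit 152) (nat_lit 0) (XT.nd (nat_lit 156) (nat_lit 76) (nat_lit 0) (XT.nd (nat_lit 78) (nat_lit 0) (nat_lit 0) (XT.lf (nat_lit 0) (nat_lit 4735445709) (nat_lit 152) (nat_lit 58291844571) (nat_lit 0) (nat_lit 3107646661) (nat_lit 13) (nat_lit 5) (nat_lit 15) (nat_lit 4) (nat_lit 13) (nat_lit 4) (nat_lit 500) (nat_lit 367) (nat_lit 333)) (XT.lf (nat_lit 0) (nat_lit 17300712660) (nat_lit 152) (nat_lit 35864816970) (nat_lit 0) (nat_lit 15654689322) (nat_lit 13) (nat_lit 5) (nat_lit 15) (nat_lit 4) (nat_lit 13) (nat_lit 4) (nat_lit 501) (nat_lit 367) (nat_lit 332))) (XT.nd (nat_lit 78) (nat_lit 76) (nat_lit 0) (XT.lf (nat_lit 0) (nat_lit 30333879933) (nat_lit 152) (nat_lit 12643403329) (nat_lit 0) (nat_lit 28670500131) (nat_lit 13) (nat_lit 5) (nat_lit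 15) (nat_lit 4) (nat_lit 13) (nat_lit 4) (nat_lit 502) (nat_lit 367) (nat_lit 331)) (XT.lf (nat_lit 0) (nat_lit 11805536319) (nat_lit 76) (nat_lit 32244760068) (nat_lit 76) (nat_lit 30564850299) (nat_lit 12) (nat_lit 4) (nat_lit 13) (nat_lit 5) (nat_lit 13) (nat_lit 4) (nat_lit 503) (nat_lit 367) (nat_lit 330)))) (XT.nd (nat_lit 156) (nat_lit 152) (nat_lit 0) (XT.nd (nat_lit 78) (nat_lit 0) (nat_lit 0) (XT.lf (nat_lit 0) (nat_lit 37609500311) (nat_lit 76) (nat_lit 20906918174) (nat_lit 76) (nat_lit 19211265579) (nat_lit 12) (nat_lit 4) (nat_lit 13) (nat_lit 5) (nat_lit 13) (nat_lit 4) (nat_lit 504) (nat_lit 367) (nat_lit 329)) (XT.lf (nat_lit 0) (nat_lit 64411878642) (nat_lit 76) (nat_lit 9150884872) (nat_lit 76) (nat_lit 7440239109) (nat_lit 12) (nat_lit 4) (nat_lit 13) (nat_lit 5) (nat_lit 13) (nat_lit 4) (nat_lit 505) (nat_lit 367) (nat_lit 328))) (XT.nd (nat_lit 78) (nat_lit 0) (nat_lit 0)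 (XT.lf (nat_lit 0) (nat_lit 4799346259) (nat_lit 152) (nat_lit 76480467327) (nat_lit 0) (nat_lit 3156560574) (nat_lit 10) (nat_lit 5) (nat_lit 12) (nat_lit 4) (nat_lit 10) (nat_lit 4) (nat_lit 506) (nat_lit 367) (nat_lit 327)) (XT.lf (nat_lit 0) (nat_lit 17698010355) (nat_lit 152) (nat_lit 54280175474) (nat_lit 0) (nat_lit 16042273008) (nat_lit 10) (nat_lit 5) (nat_lit 12) (nat_lit 4) (nat_lit 10) (nat_lit 4) (nat_lit 507) (nat_lit 367) (nat_lit 326))))) (XT.nd (nat_lit 312) (nat_lit 152) (nat_lit 0) (XT.nd (nat_lit 156) (nat_lit 76) (nat_lit 0) (XT.nd (nat_lit 78) (nat_lit 0) (nat_lit 0) (XT.lf (nat_lit 0) (nat_lit 31109741801) (nat_lit 152) (nat_lit 31238929826) (nat_lit 0) (nat_lit 29441669539) (nat_lit 10) (nat_lit 5) (nat_lit 12) (nat_lit 4) (nat_lit 10) (nat_lit 4) (nat_lit 508) (nat_lit 367) (nat_lit 325)) (XT.lf (nat_lit 0) (nat_lit 45066473293) (nat_lit 152) (nat_lit 7301870276) (nat_lit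 0) (nat_lit 43386653492) (nat_lit 10) (nat_lit 5) (nat_lit 12) (nat_lit 4) (nat_lit 10) (nat_lit 4) (nat_lit 509) (nat_lit 367) (nat_lit 324))) (XT.nd (nat_lit 78) (nat_lit 0) (nat_lit 0) (XT.lf (nat_lit 0) (nat_lit 18169534760) (nat_lit 76) (nat_lit 41715577740) (nat_lit 76) (nat_lit 40024569807) (nat_lit 9) (nat_lit 4) (nat_lit 10) (nat_lit 5) (nat_lit 10) (nat_lit 4) (nat_lit 510) (nat_lit 367) (nat_lit 323)) (XT.lf (nat_lit 0) (nat_lit 44927904648) (nat_lit 76) (nat_lit 30522780257) (nat_lit 76) (nat_lit 28821116959) (nat_lit 9) (nat_lit 4) (nat_lit 10) (nat_lit 5) (nat_lit 10) (nat_lit 4) (nat_lit 511) (nat_lit 367) (nat_lit 322)))) (XT.nd (nat_lit 156) (nat_lit 152) (nat_lit 0) (XT.nd (nat_lit 78) (nat_lit 0) (nat_lit 0) (XT.lf (nat_lit 0) (nat_lit 72795516984) (nat_lit 76) (nat_lit 18886962307) (nat_lit 76) (nat_lit 17175151044) (nat_lit 9) (nat_lit 4) (nat_lit 10) (nat_lit 5) (nat_lit 10)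 (nat_lit 4) (nat_lit 512) (nat_lit 367) (nat_lit 321)) (XT.lf (nat_lit 0) (nat_lit 101838723226) (nat_lit 76) (nat_lit 6780419562) (nat_lit 76) (nat_lit 5058943570) (nat_lit 9) (nat_lit 4) (nat_lit 10) (nat_lit 5) (nat_lit 10) (nat_lit 4) (nat_lit 513) (nat_lit 367) (nat_lit 320))) (XT.nd (nat_lit 78) (nat_lit 0) (nat_lit 0) (XT.lf (nat_lit 0) (nat_lit 7624835639) (nat_lit 152) (nat_lit 105121827651) (nat_lit 0) (nat_lit 5976568500) (nat_lit 7) (nat_lit 5) (nat_lit 9) (nat_lit 4) (nat_lit 7) (nat_lit 4) (nat_lit 514) (nat_lit 367) (nat_lit 319)) (XT.lf (nat_lit 0) (nat_lit 20984460653) (nat_lit 152) (nat_lit 83693598969) (nat_lit 0) (nat_lit 19327844757) (nat_lit 7) (nat_lit 5) (nat_lit 9) (nat_lit 4) (nat_lit 7) (nat_lit 4) (nat_lit 515) (nat_lit 367) (nat_lit 318)))))) (XT.nd (nat_lit 624) (nat_lit 152) (nat_lit 0) (XT.nd (nat_lit 312) (nat_lit 0) (nat_lit 0) (XT.nd (nat_lit 156) (nat_lit 76)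 (nat_lit 0) (XT.nd (nat_lit 78) (nat_lit 0) (nat_lit 0) (XT.lf (nat_lit 0) (nat_lit 34913708617) (nat_lit 152) (nat_lit 61394778451) (nat_lit 0) (nat_lit 33249141525) (nat_lit 7) (nat_lit 5) (nat_lit 9) (nat_lit 4) (nat_lit 7) (nat_lit 4) (nat_lit 516) (nat_lit 367) (nat_lit 317)) (XT.lf (nat_lit 0) (nat_lit 49445744409) (nat_lit 152) (nat_lit 38172273668) (nat_lit 0) (nat_lit 47773604748) (nat_lit 7) (nat_lit 5) (nat_lit 9) (nat_lit 4) (nat_lit 7) (nat_lit 4) (nat_lit 517) (nat_lit 367) (nat_lit 316))) (XT.nd (nat_lit 78) (nat_lit 76) (nat_lit 0) (XT.lf (nat_lit 0) (nat_lit 64615168113) (nat_lit 152) (nat_lit 13970792941) (nat_lit 0) (nat_lit 62935816482) (nat_lit 7) (nat_lit 5) (nat_lit 9) (nat_lit 4) (nat_lit 7) (nat_lit 4) (nat_lit 518) (nat_lit 367) (nat_lit 315)) (XT.lf (nat_lit 0) (nat_lit 11639833671) (nat_lit 76) (nat_lit 68999994157) (nat_lit 76) (nat_lit 67313773984) (nat_lit 6) (nat_lit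 4) (nat_lit 7) (nat_lit 5) (nat_lit 7) (nat_lit 4) (nat_lit 519) (nat_lit 367) (nat_lit 314)))) (XT.nd (nat_lit 156) (nat_lit 0) (nat_lit 0) (XT.nd (nat_lit 78) (nat_lit 0) (nat_lit 0) (XT.lf (nat_lit 0) (nat_lit 38845348471) (nat_lit 76) (nat_lit 58773389826) (nat_lit 76) (nat_lit 57080628184) (nat_lit 6) (nat_lit 4) (nat_lit 7) (nat_lit 5) (nat_lit 7) (nat_lit 4) (nat_lit 520) (nat_lit 367) (nat_lit 313)) (XT.lf (nat_lit 0) (nat_lit 67248588985) (nat_lit 76) (nat_lit 48118401142) (nat_lit 76) (nat_lit 46419409529) (nat_lit 6) (nat_lit 4) (nat_lit 7) (nat_lit 5) (nat_lit 7) (nat_lit 4) (nat_lit 521) (nat_lit 367) (nat_lit 312))) (XT.nd (nat_lit 78) (nat_lit 0) (nat_lit 0) (XT.lf (nat_lit 0) (nat_lit 96917181976) (nat_lit 76) (nat_lit 37009659083) (nat_lit 76) (nat_lit 35304734165) (nat_lit 6) (nat_lit 4) (nat_lit 7) (nat_lit 5) (nat_lit 7) (nat_lit 4) (nat_lit 522) (nat_lit 367) (nat_lit 311))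 (XT.lf (nat_lit 0) (nat_lit 127921766951) (nat_lit 76) (nat_lit 25420714265) (nat_lit 76) (nat_lit 23710138579) (nat_lit 6) (nat_lit 4) (nat_lit 7) (nat_lit 5) (nat_lit 7) (nat_lit 4) (nat_lit 523) (nat_lit 367) (nat_lit 310))))) (XT.nd (nat_lit 312) (nat_lit 0) (nat_lit 0) (XT.nd (nat_lit 156) (nat_lit 0) (nat_lit 0) (XT.nd (nat_lit 78) (nat_lit 152) (nat_lit 0) (XT.lf (nat_lit 0) (nat_lit 160336164350) (nat_lit 76) (nat_lit 13323973961) (nat_lit 76) (nat_lit 11608016592) (nat_lit 6) (nat_lit 4) (nat_lit 7) (nat_lit 5) (nat_lit 7) (nat_lit 4) (nat_lit 524) (nat_lit 367) (nat_lit 309)) (XT.lf (nat_lit 0) (nat_lit 334425512) (nat_lit 76) (nat_lit 668261460) (nat_lit 152) (nat_lit 192893988902) (nat_lit 4) (nat_lit 5) (nat_lit 5) (nat_lit 5) (nat_lit 6) (nat_lit 4) (nat_lit 525) (nat_lit 367) (nat_lit 308))) (XT.nd (nat_lit 78) (nat_lit 0) (nat_lit 0) (XT.lf (nat_lit 0) (nat_lit 14413466522) (nat_lit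 152) (nat_lit 175735968172) (nat_lit 0) (nat_lit 12769691164) (nat_lit 4) (nat_lit 5) (nat_lit 6) (nat_lit 4) (nat_lit 4) (nat_lit 4) (nat_lit 526) (nat_lit 367) (nat_lit 307)) (XT.lf (nat_lit 0) (nat_lit 28442360923) (nat_lit 152) (nat_lit 157158800630) (nat_lit 0) (nat_lit 26794158041) (nat_lit 4) (nat_lit 5) (nat_lit 6) (nat_lit 4) (nat_lit 4) (nat_lit 4) (nat_lit 527) (nat_lit 367) (nat_lit 306)))) (XT.nd (nat_lit 156) (nat_lit 0) (nat_lit 0) (XT.nd (nat_lit 78) (nat_lit 0) (nat_lit 0) (XT.lf (nat_lit 0) (nat_lit 43112338869) (nat_lit 152) (nat_lit 137776082950) (nat_lit 0) (nat_lit 41459919298) (nat_lit 4) (nat_lit 5) (nat_lit 6) (nat_lit 4) (nat_lit 4) (nat_lit 4) (nat_lit 528) (nat_lit 367) (nat_lit 305)) (XT.lf (nat_lit 0) (nat_lit 58458328881) (nat_lit 152) (nat_lit 117541665805) (nat_lit 0) (nat_lit 56801893415) (nat_lit 4) (nat_lit 5) (nat_lit 6) (nat_lit 4) (nat_lit 4) (nat_lit 4) (nat_lit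 529) (nat_lit 367) (nat_lit 304))) (XT.nd (nat_lit 78) (nat_lit 0) (nat_lit 0) (XT.lf (nat_lit 0) (nat_lit 74516869029) (nat_lit 152) (nat_lit 96407372011) (nat_lit 0) (nat_lit 72856608902) (nat_lit 4) (nat_lit 5) (nat_lit 6) (nat_lit 4) (nat_lit 4) (nat_lit 4) (nat_lit 530) (nat_lit 367) (nat_lit 303)) (XT.lf (nat_lit 0) (nat_lit 91326193933) (nat_lit 152) (nat_lit 74322881820) (nat_lit 0) (nat_lit 89662291271) (nat_lit 4) (nat_lit 5) (nat_lit 6) (nat_lit 4) (nat_lit 4) (nat_lit 4) (nat_lit 531) (nat_lit 367) (nat_lit 302)))))))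
noncomputable def xc65 : XT := (XT.nd (nat_lit 1248) (nat_lit 152) (nat_lit 0) (XT.nd (nat_lit 624) (nat_lit 0) (nat_lit 0) (XT.nd (nat_lit 312) (nat_lit 0) (nat_lit 0) (XT.nd (nat_lit 156) (nat_lit 76) (nat_lit 0) (XT.nd (nat_lit 78) (nat_lit 0) (nat_lit 0) (XT.lf (nat_lit 0) (nat_lit 108926325795) (nat_lit 152) (nat_lit 51235613114) (nat_lit 0) (nat_lit 107258954052) (nat_lit 4) (nat_lit 5) (nat_lit 6) (nat_lit 4) (nat_lit 4) (nat_lit 4) (nat_lit 532) (nat_lit 367) (nat_lit 301)) (XT.lf (nat_lit 0) (nat_lit 127359169690) (nat_lit 152) (nat_lit 27090596205) (nat_lit 0) (nat_lit 125688494061) (nat_lit 4) (nat_lit 5) (nat_lit 6) (nat_lit 4) (nat_lit 4) (nat_lit 4) (nat_lit 533) (nat_lit 367) (nat_lit 300))) (XT.nd (nat_lit 78) (nat_lit 76) (nat_lit 0) (XT.lf (nat_lit 0) (nat_lit 146668613343) (nat_lit 152) (nat_lit 1830342957) (nat_lit 0) (nat_lit 144994791155) (nat_lit 4) (nat_lit 5) (nat_lit 6)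 (nat_lit 4) (nat_lit 4) (nat_lit 4) (nat_lit 534) (nat_lit 367) (nat_lit 299)) (XT.lf (nat_lit 0) (nat_lit 25418852100) (nat_lit 76) (nat_lit 141878639036) (nat_lit 76) (nat_lit 140201820126) (nat_lit 3) (nat_lit 4) (nat_lit 4) (nat_lit 5) (nat_lit 4) (nat_lit 4) (nat_lit 535) (nat_lit 367) (nat_lit 298)))) (XT.nd (nat_lit 156) (nat_lit 0) (nat_lit 0) (XT.nd (nat_lit 78) (nat_lit 0) (nat_lit 0) (XT.lf (nat_lit 0) (nat_lit 54007832855) (nat_lit 76) (nat_lit 134938776763) (nat_lit 76) (nat_lit 133259103831) (nat_lit 3) (nat_lit 4) (nat_lit 4) (nat_lit 5) (nat_lit 4) (nat_lit 4) (nat_lit 536) (nat_lit 367) (nat_lit 297)) (XT.lf (nat_lit 0) (nat_lit 83944148904) (nat_lit 76) (nat_lit 127693843742) (nat_lit 76) (nat_lit 126011452695) (nat_lit 3) (nat_lit 4) (nat_lit 4) (nat_lit 5) (nat_lit 4) (nat_lit 4) (nat_lit 537) (nat_lit 367) (nat_lit 296))) (XT.nd (nat_lit 78) (nat_lit 0) (nat_lit 0) (XT.lf (nat_lit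 0) (nat_lit 115299077191) (nat_lit 76) (nat_lit 120126590134) (nat_lit 76) (nat_lit 118441610406) (nat_lit 3) (nat_lit 4) (nat_lit 4) (nat_lit 5) (nat_lit 4) (nat_lit 4) (nat_lit 538) (nat_lit 367) (nat_lit 295)) (XT.lf (nat_lit 0) (nat_lit 148147272306) (nat_lit 76) (nat_lit 112218998668) (nat_lit 76) (nat_lit 110531553529) (nat_lit 3) (nat_lit 4) (nat_lit 4) (nat_lit 5) (nat_lit 4) (nat_lit 4) (nat_lit 539) (nat_lit 367) (nat_lit 294))))) (XT.nd (nat_lit 312) (nat_lit 0) (nat_lit 0) (XT.nd (nat_lit 156) (nat_lit 0) (nat_lit 0) (XT.nd (nat_lit 78) (nat_lit 0) (nat_lit 0) (XT.lf (nat_lit 0) (nat_lit 182566944238) (nat_lit 76) (nat_lit 103952241745) (nat_lit 76) (nat_lit 102262448595) (nat_lit 3) (nat_lit 4) (nat_lit 4) (nat_lit 5) (nat_lit 4) (nat_lit 4) (nat_lit 540) (nat_lit 367) (nat_lit 293)) (XT.lf (nat_lit 0) (nat_lit 218640044588) (nat_lit 76) (nat_lit 95306636611) (nat_lit 76) (nat_lit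 93614607260) (nat_lit 3) (nat_lit 4) (nat_lit 4) (nat_lit 5) (nat_lit 4) (nat_lit 4) (nat_lit 541) (nat_lit 367) (nat_lit 292))) (XT.nd (nat_lit 78) (nat_lit 0) (nat_lit 0) (XT.lf (nat_lit 0) (nat_lit 256452461688) (nat_lit 76) (nat_lit 86261598491) (nat_lit 76) (nat_lit 84567439426) (nat_lit 3) (nat_lit 4) (nat_lit 4) (nat_lit 5) (nat_lit 4) (nat_lit 4) (nat_lit 542) (nat_lit 367) (nat_lit 291)) (XT.lf (nat_lit 0) (nat_lit 296094225104) (nat_lit 76) (nat_lit 76795591581) (nat_lit 76) (nat_lit 75099404216) (nat_lit 3) (nat_lit 4) (nat_lit 4) (nat_lit 5) (nat_lit 4) (nat_lit 4) (nat_lit 543) (nat_lit 367) (nat_lit 290)))) (XT.nd (nat_lit 156) (nat_lit 0) (nat_lit 0) (XT.nd (nat_lit 78) (nat_lit 0) (nat_lit 0) (XT.lf (nat_lit 0) (nat_lit 337659719986) (nat_lit 76) (nat_lit 66886077768) (nat_lit 76) (nat_lit 65187958689) (nat_lit 3) (nat_lit 4) (nat_lit 4) (nat_lit 5) (nat_lit 4) (nat_lit 4) (nat_lit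 544) (nat_lit 367) (nat_lit 289)) (XT.lf (nat_lit 0) (nat_lit 381247911799) (nat_lit 76) (nat_lit 56509462972) (nat_lit 76) (nat_lit 54809504166) (nat_lit 3) (nat_lit 4) (nat_lit 4) (nat_lit 5) (nat_lit 4) (nat_lit 4) (nat_lit 545) (nat_lit 367) (nat_lit 288))) (XT.nd (nat_lit 78) (nat_lit 0) (nat_lit 0) (XT.lf (nat_lit 0) (nat_lit 426962581952) (nat_lit 76) (nat_lit 45641040968) (nat_lit 76) (nat_lit 43939330040) (nat_lit 3) (nat_lit 4) (nat_lit 4) (nat_lit 5) (nat_lit 4) (nat_lit 4) (nat_lit 546) (nat_lit 367) (nat_lit 287)) (XT.lf (nat_lit 0) (nat_lit 474912574897) (nat_lit 76) (nat_lit 34254934560) (nat_lit 76) (nat_lit 32551554945) (nat_lit 3) (nat_lit 4) (nat_lit 4) (nat_lit 5) (nat_lit 4) (nat_lit 4) (nat_lit 547) (nat_lit 367) (nat_lit 286)))))) (XT.nd (nat_lit 624) (nat_lit 0) (nat_lit 0) (XT.nd (nat_lit 312) (nat_lit 0) (nat_lit 0) (XT.nd (nat_lit 156) (nat_lit 152) (nat_lit 0) (XT.nd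 (nat_lit 78) (nat_lit 0) (nat_lit 0) (XT.lf (nat_lit 0) (nat_lit 525212057284) (nat_lit 76) (nat_lit 22324033972) (nat_lit 76) (nat_lit 20619065130) (nat_lit 3) (nat_lit 4) (nat_lit 4) (nat_lit 5) (nat_lit 4) (nat_lit 4) (nat_lit 548) (nat_lit 367) (nat_lit 285)) (XT.lf (nat_lit 0) (nat_lit 577980789786) (nat_lit 76) (nat_lit 9819932296) (nat_lit 76) (nat_lit 8113449906) (nat_lit 3) (nat_lit 4) (nat_lit 4) (nat_lit 5) (nat_lit 4) (nat_lit 4) (nat_lit 549) (nat_lit 367) (nat_lit 284))) (XT.nd (nat_lit 78) (nat_lit 0) (nat_lit 0) (XT.lf (nat_lit 0) (nat_lit 5022288099) (nat_lit 152) (nat_lit 616630967941) (nat_lit 0) (nat_lit 3395693943) (nat_lit 1) (nat_lit 5) (nat_lit 3) (nat_lit 4) (nat_lit 1) (nat_lit 4) (nat_lit 550) (nat_lit 367) (nat_lit 283)) (XT.lf (nat_lit 0) (nat_lit 18990160477) (nat_lit 152) (nat_lit 619258996554) (nat_lit 0) (nat_lit 17362258860) (nat_lit 1) (nat_lit 5) (nat_lit 3)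 (nat_lit 4) (nat_lit 1) (nat_lit 4) (nat_lit 551) (nat_lit 367) (nat_lit 282)))) (XT.nd (nat_lit 156) (nat_lit 0) (nat_lit 0) (XT.nd (nat_lit 78) (nat_lit 0) (nat_lit 0) (XT.lf (nat_lit 0) (nat_lit 33635798597) (nat_lit 152) (nat_lit 622060586127) (nat_lit 0) (nat_lit 32006651780) (nat_lit 1) (nat_lit 5) (nat_lit 3) (nat_lit 4) (nat_lit 1) (nat_lit 4) (nat_lit 552) (nat_lit 367) (nat_lit 281)) (XT.lf (nat_lit 0) (nat_lit 48994073025) (nat_lit 152) (nat_lit 625042407110) (nat_lit 0) (nat_lit 47363740303) (nat_lit 1) (nat_lit 5) (nat_lit 3) (nat_lit 4) (nat_lit 1) (nat_lit 4) (nat_lit 553) (nat_lit 367) (nat_lit 280))) (XT.nd (nat_lit 78) (nat_lit 0) (nat_lit 0) (XT.lf (nat_lit 0) (nat_lit 65101551081) (nat_lit 152) (nat_lit 628211559077) (nat_lit 0) (nat_lit 63470088927) (nat_lit 1) (nat_lit 5) (nat_lit 3) (nat_lit 4) (nat_lit 1) (nat_lit 4) (nat_lit 554) (nat_lit 367) (nat_lit 279)) (XT.lf (nat_lit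 0) (nat_lit 81996583905) (nat_lit 152) (nat_lit 631575587628) (nat_lit 0) (nat_lit 80364046100) (nat_lit 1) (nat_lit 5) (nat_lit 3) (nat_lit 4) (nat_lit 1) (nat_lit 4) (nat_lit 555) (nat_lit 367) (nat_lit 278))))) (XT.nd (nat_lit 55458) (nat_lit 0) (nat_lit 2964) (XT.nd (nat_lit 55302) (nat_lit 0) (nat_lit 3420) (XT.nd (nat_lit 78) (nat_lit 0) (nat_lit 0) (XT.lf (nat_lit 0) (nat_lit 99719397764) (nat_lit 152) (nat_lit 635142502355) (nat_lit 0) (nat_lit 98085835529) (nat_lit 1) (nat_lit 5) (nat_lit 3) (nat_lit 4) (nat_lit 1) (nat_lit 4) (nat_lit 556) (nat_lit 367) (nat_lit 277)) (XT.lf (nat_lit 0) (nat_lit 118312189834) (nat_lit 152) (nat_lit 638920795912) (nat_lit 0) (nat_lit 116677651953) (nat_lit 1) (nat_lit 5) (nat_lit 3) (nat_lit 4) (nat_lit 1) (nat_lit 4) (nat_lit 557) (nat_lit 367) (nat_lit 276))) (XT.nd (nat_lit 78) (nat_lit 152) (nat_lit 0) (XT.lf (nat_lit 0) (nat_lit 2504745145) (nat_lit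 76) (nat_lit 3775327920) (nat_lit 76) (nat_lit 3775327920) (nat_lit 48) (nat_lit 4) (nat_lit 49) (nat_lit 5) (nat_lit 49) (nat_lit 4) (nat_lit 464) (nat_lit 368) (nat_lit 368)) (XT.lf (nat_lit 0) (nat_lit 1503516030) (nat_lit 152) (nat_lit 17819454135) (nat_lit 0) (nat_lit 1331583387) (nat_lit 46) (nat_lit 5) (nat_lit 48) (nat_lit 4) (nat_lit 46) (nat_lit 4) (nat_lit 465) (nat_lit 368) (nat_lit 367)))) (XT.nd (nat_lit 156) (nat_lit 380) (nat_lit 0) (XT.nd (nat_lit 78) (nat_lit 0) (nat_lit 0) (XT.lf (nat_lit 0) (nat_lit 119869481) (nat_lit 76) (nat_lit 10715586655) (nat_lit 76) (nat_lit 10379908638) (nat_lit 45) (nat_lit 4) (nat_lit 46) (nat_lit 5) (nat_lit 46) (nat_lit 4) (nat_lit 466) (nat_lit 368) (nat_lit 366)) (XT.lf (nat_lit 0) (nat_lit 18972562199) (nat_lit 76) (nat_lit 1661635857) (nat_lit 76) (nat_lit 1170009865) (nat_lit 45) (nat_lit 4) (nat_lit 46) (nat_lit 5) (nat_lit 46) (nat_lit 4)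 (nat_lit 467) (nat_lit 368) (nat_lit 365))) (XT.nd (nat_lit 78) (nat_lit 228) (nat_lit 0) (XT.lf (nat_lit 0) (nat_lit 8312723975) (nat_lit 152) (nat_lit 6395855354) (nat_lit 0) (nat_lit 7703059334) (nat_lit 43) (nat_lit 5) (nat_lit 45) (nat_lit 4) (nat_lit 43) (nat_lit 4) (nat_lit 468) (nat_lit 368) (nat_lit 364)) (XT.nd (nat_lit 78) (nat_lit 152) (nat_lit 0) (XT.lf (nat_lit 0) (nat_lit 12630198560) (nat_lit 76) (nat_lit 5581788735) (nat_lit 76) (nat_lit 4837410369) (nat_lit 42) (nat_lit 4) (nat_lit 43) (nat_lit 5) (nat_lit 43) (nat_lit 4) (nat_lit 469) (nat_lit 368) (nat_lit 363)) (XT.lf (nat_lit 0) (nat_lit 4749143347) (nat_lit 152) (nat_lit 15047145447) (nat_lit 0) (nat_lit 3918022251) (nat_lit 40) (nat_lit 5) (nat_lit 42) (nat_lit 4) (nat_lit 40) (nat_lit 4) (nat_lit 470) (nat_lit 368) (nat_lit 362))))))))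
noncomputable def xc66 : XT := (XT.nd (nat_lit 1248) (nat_lit 836) (nat_lit 0) (XT.nd (nat_lit 624) (nat_lit 532) (nat_lit 0) (XT.nd (nat_lit 312) (nat_lit 380) (nat_lit 0) (XT.nd (nat_lit 156) (nat_lit 228) (nat_lit 0) (XT.nd (nat_lit 78) (nat_lit 0) (nat_lit 0) (XT.lf (nat_lit 0) (nat_lit 4037138657) (nat_lit 76) (nat_lit 10658353800) (nat_lit 76) (nat_lit 9710861923) (nat_lit 39) (nat_lit 4) (nat_lit 40) (nat_lit 5) (nat_lit 40) (nat_lit 4) (nat_lit 471) (nat_lit 368) (nat_lit 361)) (XT.lf (nat_lit 0) (nat_lit 24023156228) (nat_lit 76) (nat_lit 1084861523) (nat_lit 76) (nat_lit 26540332) (nat_lit 39) (nat_lit 4) (nat_lit 40) (nat_lit 5) (nat_lit 40) (nat_lit 4) (nat_lit 472) (nat_lit 368) (nat_lit 360))) (XT.nd (nat_lit 78) (nat_lit 76) (nat_lit 0) (XT.lf (nat_lit 0) (nat_lit 9980347259) (nat_lit 152) (nat_lit 7030863780) (nat_lit 0) (nat_lit 8871896860) (nat_lit 37) (nat_lit 5) (nat_lit 39)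 (nat_lit 4) (nat_lit 37) (nat_lit 4) (nat_lit 473) (nat_lit 368) (nat_lit 359)) (XT.lf (nat_lit 0) (nat_lit 13025902662) (nat_lit 76) (nat_lit 7424580454) (nat_lit 76) (nat_lit 6220391526) (nat_lit 36) (nat_lit 4) (nat_lit 37) (nat_lit 5) (nat_lit 37) (nat_lit 4) (nat_lit 474) (nat_lit 368) (nat_lit 358)))) (XT.nd (nat_lit 156) (nat_lit 228) (nat_lit 0) (XT.nd (nat_lit 78) (nat_lit 0) (nat_lit 0) (XT.lf (nat_lit 0) (nat_lit 3806245532) (nat_lit 152) (nat_lit 21116820878) (nat_lit 0) (nat_lit 2572561266) (nat_lit 34) (nat_lit 5) (nat_lit 36) (nat_lit 4) (nat_lit 34) (nat_lit 4) (nat_lit 475) (nat_lit 368) (nat_lit 357)) (XT.lf (nat_lit 0) (nat_lit 14205702240) (nat_lit 152) (nat_lit 1257476169) (nat_lit 0) (nat_lit 12889315433) (nat_lit 34) (nat_lit 5) (nat_lit 36) (nat_lit 4) (nat_lit 34) (nat_lit 4) (nat_lit 476) (nat_lit 368) (nat_lit 356))) (XT.nd (nat_lit 78) (nat_lit 152) (nat_lit 0) (XT.lf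 (nat_lit 0) (nat_lit 19694287569) (nat_lit 76) (nat_lit 5475419464) (nat_lit 76) (nat_lit 4080268332) (nat_lit 33) (nat_lit 4) (nat_lit 34) (nat_lit 5) (nat_lit 34) (nat_lit 4) (nat_lit 477) (nat_lit 368) (nat_lit 355)) (XT.lf (nat_lit 0) (nat_lit 6295718950) (nat_lit 152) (nat_lit 18995292449) (nat_lit 0) (nat_lit 4895562022) (nat_lit 31) (nat_lit 5) (nat_lit 33) (nat_lit 4) (nat_lit 31) (nat_lit 4) (nat_lit 478) (nat_lit 368) (nat_lit 354))))) (XT.nd (nat_lit 312) (nat_lit 228) (nat_lit 0) (XT.nd (nat_lit 156) (nat_lit 228) (nat_lit 0) (XT.nd (nat_lit 78) (nat_lit 0) (nat_lit 0) (XT.lf (nat_lit 0) (nat_lit 1502991484) (nat_lit 76) (nat_lit 15565552265) (nat_lit 76) (nat_lit 14097355752) (nat_lit 30) (nat_lit 4) (nat_lit 31) (nat_lit 5) (nat_lit 31) (nat_lit 4) (nat_lit 479) (nat_lit 368) (nat_lit 353)) (XT.lf (nat_lit 0) (nat_lit 23162981560) (nat_lit 76) (nat_lit 5280516352) (nat_lit 76) (nat_lit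 3747520234) (nat_lit 30) (nat_lit 4) (nat_lit 31) (nat_lit 5) (nat_lit 31) (nat_lit 4) (nat_lit 480) (nat_lit 368) (nat_lit 352))) (XT.nd (nat_lit 78) (nat_lit 76) (nat_lit 0) (XT.lf (nat_lit 0) (nat_lit 6923044646) (nat_lit 152) (nat_lit 20932961688) (nat_lit 0) (nat_lit 5404273192) (nat_lit 28) (nat_lit 5) (nat_lit 30) (nat_lit 4) (nat_lit 28) (nat_lit 4) (nat_lit 481) (nat_lit 368) (nat_lit 351)) (XT.lf (nat_lit 0) (nat_lit 32806363) (nat_lit 76) (nat_lit 17961118901) (nat_lit 76) (nat_lit 16386371112) (nat_lit 27) (nat_lit 4) (nat_lit 28) (nat_lit 5) (nat_lit 28) (nat_lit 4) (nat_lit 482) (nat_lit 368) (nat_lit 350)))) (XT.nd (nat_lit 156) (nat_lit 76) (nat_lit 0) (XT.nd (nat_lit 78) (nat_lit 152) (nat_lit 0) (XT.lf (nat_lit 0) (nat_lit 22275522961) (nat_lit 76) (nat_lit 7451703213) (nat_lit 76) (nat_lit 5823644628) (nat_lit 27) (nat_lit 4) (nat_lit 28) (nat_lit 5) (nat_lit 28) (nat_lit 4)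 (nat_lit 483) (nat_lit 368) (nat_lit 349)) (XT.lf (nat_lit 0) (nat_lit 5050172064) (nat_lit 152) (nat_lit 28276828076) (nat_lit 0) (nat_lit 3451285616) (nat_lit 25) (nat_lit 5) (nat_lit 27) (nat_lit 4) (nat_lit 25) (nat_lit 4) (nat_lit 484) (nat_lit 368) (nat_lit 348))) (XT.nd (nat_lit 78) (nat_lit 76) (nat_lit 0) (XT.lf (nat_lit 0) (nat_lit 16385022463) (nat_lit 152) (nat_lit 6931539070) (nat_lit 0) (nat_lit 14740084145) (nat_lit 25) (nat_lit 5) (nat_lit 27) (nat_lit 4) (nat_lit 25) (nat_lit 4) (nat_lit 485) (nat_lit 368) (nat_lit 347)) (XT.lf (nat_lit 0) (nat_lit 15518278976) (nat_lit 76) (nat_lit 12784321527) (nat_lit 76) (nat_lit 11095524287) (nat_lit 24) (nat_lit 4) (nat_lit 25) (nat_lit 5) (nat_lit 25) (nat_lit 4) (nat_lit 486) (nat_lit 368) (nat_lit 346)))))) (XT.nd (nat_lit 624) (nat_lit 380) (nat_lit 0) (XT.nd (nat_lit 312) (nat_lit 228) (nat_lit 0) (XT.nd (nat_lit 156) (nat_lit 76) (nat_lit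 0) (XT.nd (nat_lit 78) (nat_lit 152) (nat_lit 0) (XT.lf (nat_lit 0) (nat_lit 38879228016) (nat_lit 76) (nat_lit 1831638725) (nat_lit 76) (nat_lit 101071082) (nat_lit 24) (nat_lit 4) (nat_lit 25) (nat_lit 5) (nat_lit 25) (nat_lit 4) (nat_lit 487) (nat_lit 368) (nat_lit 345)) (XT.lf (nat_lit 0) (nat_lit 11347805504) (nat_lit 152) (nat_lit 21264397012) (nat_lit 0) (nat_lit 9661758857) (nat_lit 22) (nat_lit 5) (nat_lit 24) (nat_lit 4) (nat_lit 22) (nat_lit 4) (nat_lit 488) (nat_lit 368) (nat_lit 344))) (XT.nd (nat_lit 78) (nat_lit 0) (nat_lit 0) (XT.lf (nat_lit 0) (nat_lit 918032303) (nat_lit 76) (nat_lit 22309993007) (nat_lit 76) (nat_lit 20587863515) (nat_lit 21) (nat_lit 4) (nat_lit 22) (nat_lit 5) (nat_lit 22) (nat_lit 4) (nat_lit 489) (nat_lit 368) (nat_lit 343)) (XT.lf (nat_lit 0) (nat_lit 24517162984) (nat_lit 76) (nat_lit 11333414039) (nat_lit 76) (nat_lit 9576919933) (nat_lit 21) (nat_lit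 4) (nat_lit 22) (nat_lit 5) (nat_lit 22) (nat_lit 4) (nat_lit 490) (nat_lit 368) (nat_lit 342)))) (XT.nd (nat_lit 156) (nat_lit 76) (nat_lit 0) (XT.nd (nat_lit 78) (nat_lit 0) (nat_lit 0) (XT.lf (nat_lit 0) (nat_lit 1744564046) (nat_lit 152) (nat_lit 45341854139) (nat_lit 0) (nat_lit 40542799) (nat_lit 19) (nat_lit 5) (nat_lit 21) (nat_lit 4) (nat_lit 19) (nat_lit 4) (nat_lit 491) (nat_lit 368) (nat_lit 341)) (XT.lf (nat_lit 0) (nat_lit 13651079548) (nat_lit 152) (nat_lit 23318055952) (nat_lit 0) (nat_lit 11917372854) (nat_lit 19) (nat_lit 5) (nat_lit 21) (nat_lit 4) (nat_lit 19) (nat_lit 4) (nat_lit 492) (nat_lit 368) (nat_lit 340))) (XT.nd (nat_lit 78) (nat_lit 76) (nat_lit 0) (XT.lf (nat_lit 0) (nat_lit 25957757947) (nat_lit 152) (nat_lit 590254177) (nat_lit 0) (nat_lit 24195779401) (nat_lit 19) (nat_lit 5) (nat_lit 21) (nat_lit 4) (nat_lit 19) (nat_lit 4) (nat_lit 493) (nat_lit 368) (nat_lit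 339)) (XT.lf (nat_lit 0) (nat_lit 23652699082) (nat_lit 76) (nat_lit 15410486698) (nat_lit 76) (nat_lit 13621582578) (nat_lit 18) (nat_lit 4) (nat_lit 19) (nat_lit 5) (nat_lit 19) (nat_lit 4) (nat_lit 494) (nat_lit 368) (nat_lit 338))))) (XT.nd (nat_lit 312) (nat_lit 152) (nat_lit 0) (XT.nd (nat_lit 156) (nat_lit 76) (nat_lit 0) (XT.nd (nat_lit 78) (nat_lit 152) (nat_lit 0) (XT.lf (nat_lit 0) (nat_lit 48756120782) (nat_lit 76) (nat_lit 3894931341) (nat_lit 76) (nat_lit 2080383817) (nat_lit 18) (nat_lit 4) (nat_lit 19) (nat_lit 5) (nat_lit 19) (nat_lit 4) (nat_lit 495) (nat_lit 368) (nat_lit 337)) (XT.lf (nat_lit 0) (nat_lit 9957745113) (nat_lit 152) (nat_lit 38696453523) (nat_lit 0) (nat_lit 8206345290) (nat_lit 16) (nat_lit 5) (nat_lit 18) (nat_lit 4) (nat_lit 16) (nat_lit 4) (nat_lit 496) (nat_lit 368) (nat_lit 336))) (XT.nd (nat_lit 78) (nat_lit 76) (nat_lit 0) (XT.lf (nat_lit 0) (nat_lit 22517669684)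 (nat_lit 152) (nat_lit 15833124310) (nat_lit 0) (nat_lit 20744118125) (nat_lit 16) (nat_lit 5) (nat_lit 18) (nat_lit 4) (nat_lit 16) (nat_lit 4) (nat_lit 497) (nat_lit 368) (nat_lit 335)) (XT.lf (nat_lit 0) (nat_lit 8089054956) (nat_lit 76) (nat_lit 27574350835) (nat_lit 76) (nat_lit 25779702384) (nat_lit 15) (nat_lit 4) (nat_lit 16) (nat_lit 5) (nat_lit 16) (nat_lit 4) (nat_lit 498) (nat_lit 368) (nat_lit 334)))) (XT.nd (nat_lit 156) (nat_lit 152) (nat_lit 0) (XT.nd (nat_lit 78) (nat_lit 0) (nat_lit 0) (XT.lf (nat_lit 0) (nat_lit 33419352582) (nat_lit 76) (nat_lit 16149490826) (nat_lit 76) (nat_lit 14334750096) (nat_lit 15) (nat_lit 4) (nat_lit 16) (nat_lit 5) (nat_lit 16) (nat_lit 4) (nat_lit 499) (nat_lit 368) (nat_lit 333)) (XT.lf (nat_lit 0) (nat_lit 59694564203) (nat_lit 76) (nat_lit 4317153541) (nat_lit 76) (nat_lit 2483277309) (nat_lit 15) (nat_lit 4) (nat_lit 16) (nat_lit 5) (nat_lit 16)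 (nat_lit 4) (nat_lit 500) (nat_lit 368) (nat_lit 332))) (XT.nd (nat_lit 78) (nat_lit 0) (nat_lit 0) (XT.lf (nat_lit 0) (nat_lit 9904358818) (nat_lit 152) (nat_lit 51150258880) (nat_lit 0) (nat_lit 8140453560) (nat_lit 13) (nat_lit 5) (nat_lit 15) (nat_lit 4) (nat_lit 13) (nat_lit 4) (nat_lit 501) (nat_lit 368) (nat_lit 331)) (XT.nd (nat_lit 78) (nat_lit 0) (nat_lit 0) (XT.lf (nat_lit 0) (nat_lit 22863025267) (nat_lit 152) (nat_lit 28080745514) (nat_lit 0) (nat_lit 21082590043) (nat_lit 13) (nat_lit 5) (nat_lit 15) (nat_lit 4) (nat_lit 13) (nat_lit 4) (nat_lit 502) (nat_lit 368) (nat_lit 330)) (XT.lf (nat_lit 0) (nat_lit 36324171049) (nat_lit 152) (nat_lit 4154323682) (nat_lit 0) (nat_lit 34527992998) (nat_lit 13) (nat_lit 5) (nat_lit 15) (nat_lit 4) (nat_lit 13) (nat_lit 4) (nat_lit 503) (nat_lit 368) (nat_lit 329))))))))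
noncomputable def xc67 : XT := (XT.nd (nat_lit 1248) (nat_lit 304) (nat_lit 0) (XT.nd (nat_lit 624) (nat_lit 152) (nat_lit 0) (XT.nd (nat_lit 312) (nat_lit 76) (nat_lit 0) (XT.nd (nat_lit 156) (nat_lit 152) (nat_lit 0) (XT.nd (nat_lit 78) (nat_lit 0) (nat_lit 0) (XT.lf (nat_lit 0) (nat_lit 21369946016) (nat_lit 76) (nat_lit 29283545239) (nat_lit 76) (nat_lit 27472374021) (nat_lit 12) (nat_lit 4) (nat_lit 13) (nat_lit 5) (nat_lit 13) (nat_lit 4) (nat_lit 504) (nat_lit 368) (nat_lit 328)) (XT.lf (nat_lit 0) (nat_lit 48036768547) (nat_lit 76) (nat_lit 17596594718) (nat_lit 76) (nat_lit 15771144294) (nat_lit 12) (nat_lit 4) (nat_lit 13) (nat_lit 5) (nat_lit 13) (nat_lit 4) (nat_lit 505) (nat_lit 368) (nat_lit 327))) (XT.nd (nat_lit 78) (nat_lit 152) (nat_lit 0) (XT.lf (nat_lit 0) (nat_lit 75772275641) (nat_lit 76) (nat_lit 5460172578) (nat_lit 76) (nat_lit 3621122909) (nat_lit 12) (nat_lit 4) (nat_lit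 13) (nat_lit 5) (nat_lit 13) (nat_lit 4) (nat_lit 506) (nat_lit 368) (nat_lit 326)) (XT.lf (nat_lit 0) (nat_lit 9094992634) (nat_lit 152) (nat_lit 72029230538) (nat_lit 0) (nat_lit 7331181843) (nat_lit 10) (nat_lit 5) (nat_lit 12) (nat_lit 4) (nat_lit 10) (nat_lit 4) (nat_lit 507) (nat_lit 368) (nat_lit 325)))) (XT.nd (nat_lit 156) (nat_lit 76) (nat_lit 0) (XT.nd (nat_lit 78) (nat_lit 0) (nat_lit 0) (XT.lf (nat_lit 0) (nat_lit 22445462360) (nat_lit 152) (nat_lit 49112984099) (nat_lit 0) (nat_lit 20669904030) (nat_lit 10) (nat_lit 5) (nat_lit 12) (nat_lit 4) (nat_lit 10) (nat_lit 4) (nat_lit 508) (nat_lit 368) (nat_lit 324)) (XT.lf (nat_lit 0) (nat_lit 36343849356) (nat_lit 152) (nat_lit 25294971414) (nat_lit 0) (nat_lit 34557102894) (nat_lit 10) (nat_lit 5) (nat_lit 12) (nat_lit 4) (nat_lit 10) (nat_lit 4) (nat_lit 509) (nat_lit 368) (nat_lit 323))) (XT.nd (nat_lit 78) (nat_lit 76) (nat_lit 0)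 (XT.lf (nat_lit 0) (nat_lit 50823245019) (nat_lit 152) (nat_lit 518482929) (nat_lit 0) (nat_lit 49025843193) (nat_lit 10) (nat_lit 5) (nat_lit 12) (nat_lit 4) (nat_lit 10) (nat_lit 4) (nat_lit 510) (nat_lit 368) (nat_lit 322)) (XT.lf (nat_lit 0) (nat_lit 26111194280) (nat_lit 76) (nat_lit 40214598740) (nat_lit 76) (nat_lit 38407048948) (nat_lit 9) (nat_lit 4) (nat_lit 10) (nat_lit 5) (nat_lit 10) (nat_lit 4) (nat_lit 511) (nat_lit 368) (nat_lit 321))))) (XT.nd (nat_lit 312) (nat_lit 0) (nat_lit 0) (XT.nd (nat_lit 156) (nat_lit 152) (nat_lit 0) (XT.nd (nat_lit 78) (nat_lit 0) (nat_lit 0) (XT.lf (nat_lit 0) (nat_lit 53872569196) (nat_lit 76) (nat_lit 28632959377) (nat_lit 76) (nat_lit 26815744856) (nat_lit 9) (nat_lit 4) (nat_lit 10) (nat_lit 5) (nat_lit 10) (nat_lit 4) (nat_lit 512) (nat_lit 368) (nat_lit 320)) (XT.lf (nat_lit 0) (nat_lit 82814596944) (nat_lit 76) (nat_lit 16578015287) (nat_lit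 76) (nat_lit 14751596261) (nat_lit 9) (nat_lit 4) (nat_lit 10) (nat_lit 5) (nat_lit 10) (nat_lit 4) (nat_lit 513) (nat_lit 368) (nat_lit 319))) (XT.nd (nat_lit 78) (nat_lit 152) (nat_lit 0) (XT.lf (nat_lit 0) (nat_lit 113006187112) (nat_lit 76) (nat_lit 4021064221) (nat_lit 76) (nat_lit 2185879001) (nat_lit 9) (nat_lit 4) (nat_lit 10) (nat_lit 5) (nat_lit 10) (nat_lit 4) (nat_lit 514) (nat_lit 368) (nat_lit 318)) (XT.lf (nat_lit 0) (nat_lit 11031194883) (nat_lit 152) (nat_lit 104201491870) (nat_lit 0) (nat_lit 9275448239) (nat_lit 7) (nat_lit 5) (nat_lit 9) (nat_lit 4) (nat_lit 7) (nat_lit 4) (nat_lit 515) (nat_lit 368) (nat_lit 317)))) (XT.nd (nat_lit 156) (nat_lit 0) (nat_lit 0) (XT.nd (nat_lit 78) (nat_lit 0) (nat_lit 0) (XT.lf (nat_lit 0) (nat_lit 24914747935) (nat_lit 152) (nat_lit 81995967333) (nat_lit 0) (nat_lit 23151428723) (nat_lit 7) (nat_lit 5) (nat_lit 9) (nat_lit 4) (nat_lit 7) (nat_lit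 4) (nat_lit 516) (nat_lit 368) (nat_lit 316)) (XT.lf (nat_lit 0) (nat_lit 39403264762) (nat_lit 152) (nat_lit 58862315865) (nat_lit 0) (nat_lit 37632733580) (nat_lit 7) (nat_lit 5) (nat_lit 9) (nat_lit 4) (nat_lit 7) (nat_lit 4) (nat_lit 517) (nat_lit 368) (nat_lit 315))) (XT.nd (nat_lit 78) (nat_lit 0) (nat_lit 0) (XT.lf (nat_lit 0) (nat_lit 54531241833) (nat_lit 152) (nat_lit 34745457343) (nat_lit 0) (nat_lit 52753842108) (nat_lit 7) (nat_lit 5) (nat_lit 9) (nat_lit 4) (nat_lit 7) (nat_lit 4) (nat_lit 518) (nat_lit 368) (nat_lit 314)) (XT.lf (nat_lit 0) (nat_lit 70334698141) (nat_lit 152) (nat_lit 9587970675) (nat_lit 0) (nat_lit 68550756947) (nat_lit 7) (nat_lit 5) (nat_lit 9) (nat_lit 4) (nat_lit 7) (nat_lit 4) (nat_lit 519) (nat_lit 368) (nat_lit 313)))))) (XT.nd (nat_lit 624) (nat_lit 76) (nat_lit 0) (XT.nd (nat_lit 312) (nat_lit 152) (nat_lit 0) (XT.nd (nat_lit 156) (nat_lit 0) (nat_lit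 0) (XT.nd (nat_lit 78) (nat_lit 0) (nat_lit 0) (XT.lf (nat_lit 0) (nat_lit 17221229817) (nat_lit 76) (nat_lit 69898902805) (nat_lit 76) (nat_lit 68108731640) (nat_lit 6) (nat_lit 4) (nat_lit 7) (nat_lit 5) (nat_lit 7) (nat_lit 4) (nat_lit 520) (nat_lit 368) (nat_lit 312)) (XT.lf (nat_lit 0) (nat_lit 45548953478) (nat_lit 76) (nat_lit 59282448784) (nat_lit 76) (nat_lit 57486344314) (nat_lit 6) (nat_lit 4) (nat_lit 7) (nat_lit 5) (nat_lit 7) (nat_lit 4) (nat_lit 521) (nat_lit 368) (nat_lit 311))) (XT.nd (nat_lit 78) (nat_lit 0) (nat_lit 0) (XT.lf (nat_lit 0) (nat_lit 75145625656) (nat_lit 76) (nat_lit 48210406405) (nat_lit 76) (nat_lit 46408651168) (nat_lit 6) (nat_lit 4) (nat_lit 7) (nat_lit 5) (nat_lit 7) (nat_lit 4) (nat_lit 522) (nat_lit 368) (nat_lit 310)) (XT.lf (nat_lit 0) (nat_lit 106081714620) (nat_lit 76) (nat_lit 36656413662) (nat_lit 76) (nat_lit 34849276743) (nat_lit 6) (nat_lit 4) (nat_lit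 7) (nat_lit 5) (nat_lit 7) (nat_lit 4) (nat_lit 523) (nat_lit 368) (nat_lit 309)))) (XT.nd (nat_lit 156) (nat_lit 152) (nat_lit 0) (XT.nd (nat_lit 78) (nat_lit 0) (nat_lit 0) (XT.lf (nat_lit 0) (nat_lit 138430877722) (nat_lit 76) (nat_lit 24592961050) (nat_lit 76) (nat_lit 22780698717) (nat_lit 6) (nat_lit 4) (nat_lit 7) (nat_lit 5) (nat_lit 7) (nat_lit 4) (nat_lit 524) (nat_lit 368) (nat_lit 308)) (XT.lf (nat_lit 0) (nat_lit 172270136781) (nat_lit 76) (nat_lit 11991326060) (nat_lit 76) (nat_lit 10174182383) (nat_lit 6) (nat_lit 4) (nat_lit 7) (nat_lit 5) (nat_lit 7) (nat_lit 4) (nat_lit 525) (nat_lit 368) (nat_lit 307))) (XT.nd (nat_lit 78) (nat_lit 0) (nat_lit 0) (XT.lf (nat_lit 0) (nat_lit 2991164080) (nat_lit 152) (nat_lit 199247303518) (nat_lit 0) (nat_lit 1256123530) (nat_lit 4) (nat_lit 5) (nat_lit 6) (nat_lit 4) (nat_lit 4) (nat_lit 4) (nat_lit 526) (nat_lit 368) (nat_lit 306)) (XT.lf (nat_lit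 0) (nat_lit 16990614006) (nat_lit 152) (nat_lit 180730286337) (nat_lit 0) (nat_lit 15251356767) (nat_lit 4) (nat_lit 5) (nat_lit 6) (nat_lit 4) (nat_lit 4) (nat_lit 4) (nat_lit 527) (nat_lit 368) (nat_lit 305))))) (XT.nd (nat_lit 312) (nat_lit 76) (nat_lit 0) (XT.nd (nat_lit 156) (nat_lit 0) (nat_lit 0) (XT.nd (nat_lit 78) (nat_lit 0) (nat_lit 0) (XT.lf (nat_lit 0) (nat_lit 31632549595) (nat_lit 152) (nat_lit 161404854715) (nat_lit 0) (nat_lit 29889276462) (nat_lit 4) (nat_lit 5) (nat_lit 6) (nat_lit 4) (nat_lit 4) (nat_lit 4) (nat_lit 528) (nat_lit 368) (nat_lit 304)) (XT.lf (nat_lit 0) (nat_lit 46951832600) (nat_lit 152) (nat_lit 141224995720) (nat_lit 0) (nat_lit 45204734805) (nat_lit 4) (nat_lit 5) (nat_lit 6) (nat_lit 4) (nat_lit 4) (nat_lit 4) (nat_lit 529) (nat_lit 368) (nat_lit 303))) (XT.nd (nat_lit 78) (nat_lit 0) (nat_lit 0) (XT.lf (nat_lit 0) (nat_lit 62984937504) (nat_lit 152) (nat_lit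 120142662069) (nat_lit 0) (nat_lit 61234197173) (nat_lit 4) (nat_lit 5) (nat_lit 6) (nat_lit 4) (nat_lit 4) (nat_lit 4) (nat_lit 530) (nat_lit 368) (nat_lit 302)) (XT.lf (nat_lit 0) (nat_lit 79770038365) (nat_lit 152) (nat_lit 98107657729) (nat_lit 0) (nat_lit 78015828954) (nat_lit 4) (nat_lit 5) (nat_lit 6) (nat_lit 4) (nat_lit 4) (nat_lit 4) (nat_lit 531) (nat_lit 368) (nat_lit 301)))) (XT.nd (nat_lit 156) (nat_lit 76) (nat_lit 0) (XT.nd (nat_lit 78) (nat_lit 0) (nat_lit 0) (XT.lf (nat_lit 0) (nat_lit 97347099710) (nat_lit 152) (nat_lit 75067518404) (nat_lit 0) (nat_lit 95589586412) (nat_lit 4) (nat_lit 5) (nat_lit 6) (nat_lit 4) (nat_lit 4) (nat_lit 4) (nat_lit 532) (nat_lit 368) (nat_lit 300)) (XT.lf (nat_lit 0) (nat_lit 115757971685) (nat_lit 152) (nat_lit 50967386620) (nat_lit 0) (nat_lit 113997311829) (nat_lit 4) (nat_lit 5) (nat_lit 6) (nat_lit 4) (nat_lit 4) (nat_lit 4) (nat_lit 533) (nat_lit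 368) (nat_lit 299))) (XT.nd (nat_lit 78) (nat_lit 76) (nat_lit 0) (XT.lf (nat_lit 0) (nat_lit 135046489699) (nat_lit 152) (nat_lit 25749881111) (nat_lit 0) (nat_lit 133282833120) (nat_lit 4) (nat_lit 5) (nat_lit 6) (nat_lit 4) (nat_lit 4) (nat_lit 4) (nat_lit 534) (nat_lit 368) (nat_lit 298)) (XT.nd (nat_lit 78) (nat_lit 0) (nat_lit 0) (XT.lf (nat_lit 0) (nat_lit 666367732) (nat_lit 76) (nat_lit 154602614930) (nat_lit 76) (nat_lit 152836104330) (nat_lit 3) (nat_lit 4) (nat_lit 4) (nat_lit 5) (nat_lit 4) (nat_lit 4) (nat_lit 535) (nat_lit 368) (nat_lit 297)) (XT.lf (nat_lit 0) (nat_lit 29215293002) (nat_lit 76) (nat_lit 147683202592) (nat_lit 76) (nat_lit 145913973876) (nat_lit 3) (nat_lit 4) (nat_lit 4) (nat_lit 5) (nat_lit 4) (nat_lit 4) (nat_lit 536) (nat_lit 368) (nat_lit 296))))))))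
noncomputable def xc68 : XT := (XT.nd (nat_lit 1248) (nat_lit 0) (nat_lit 0) (XT.nd (nat_lit 624) (nat_lit 152) (nat_lit 0) (XT.nd (nat_lit 312) (nat_lit 0) (nat_lit 0) (XT.nd (nat_lit 156) (nat_lit 0) (nat_lit 0) (XT.nd (nat_lit 78) (nat_lit 0) (nat_lit 0) (XT.lf (nat_lit 0) (nat_lit 59113460971) (nat_lit 76) (nat_lit 140457745700) (nat_lit 76) (nat_lit 138685928303) (nat_lit 3) (nat_lit 4) (nat_lit 4) (nat_lit 5) (nat_lit 4) (nat_lit 4) (nat_lit 537) (nat_lit 368) (nat_lit 295)) (XT.lf (nat_lit 0) (nat_lit 90432057753) (nat_lit 76) (nat_lit 132909040786) (nat_lit 76) (nat_lit 131134757978) (nat_lit 3) (nat_lit 4) (nat_lit 4) (nat_lit 5) (nat_lit 4) (nat_lit 4) (nat_lit 538) (nat_lit 368) (nat_lit 294))) (XT.nd (nat_lit 78) (nat_lit 0) (nat_lit 0) (XT.lf (nat_lit 0) (nat_lit 123245651435) (nat_lit 76) (nat_lit 125019114742) (nat_lit 76) (nat_lit 123242483924) (nat_lit 3) (nat_lit 4) (nat_lit 4)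 (nat_lit 5) (nat_lit 4) (nat_lit 4) (nat_lit 539) (nat_lit 368) (nat_lit 293)) (XT.lf (nat_lit 0) (nat_lit 157632369621) (nat_lit 76) (nat_lit 116769182031) (nat_lit 76) (nat_lit 114990315013) (nat_lit 3) (nat_lit 4) (nat_lit 4) (nat_lit 5) (nat_lit 4) (nat_lit 4) (nat_lit 540) (nat_lit 368) (nat_lit 292)))) (XT.nd (nat_lit 156) (nat_lit 0) (nat_lit 0) (XT.nd (nat_lit 78) (nat_lit 0) (nat_lit 0) (XT.lf (nat_lit 0) (nat_lit 193674085450) (nat_lit 76) (nat_lit 108139599956) (nat_lit 76) (nat_lit 106358603223) (nat_lit 3) (nat_lit 4) (nat_lit 4) (nat_lit 5) (nat_lit 4) (nat_lit 4) (nat_lit 541) (nat_lit 368) (nat_lit 291)) (XT.lf (nat_lit 0) (nat_lit 231456612531) (nat_lit 76) (nat_lit 99109821892) (nat_lit 76) (nat_lit 97326796859) (nat_lit 3) (nat_lit 4) (nat_lit 4) (nat_lit 5) (nat_lit 4) (nat_lit 4) (nat_lit 542) (nat_lit 368) (nat_lit 290))) (XT.nd (nat_lit 78) (nat_lit 0) (nat_lit 0) (XT.lf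 (nat_lit 0) (nat_lit 271069909262) (nat_lit 76) (nat_lit 89658348369) (nat_lit 76) (nat_lit 87873391622) (nat_lit 3) (nat_lit 4) (nat_lit 4) (nat_lit 5) (nat_lit 4) (nat_lit 4) (nat_lit 543) (nat_lit 368) (nat_lit 289)) (XT.lf (nat_lit 0) (nat_lit 312608293016) (nat_lit 76) (nat_lit 79762675877) (nat_lit 76) (nat_lit 77975879402) (nat_lit 3) (nat_lit 4) (nat_lit 4) (nat_lit 5) (nat_lit 4) (nat_lit 4) (nat_lit 544) (nat_lit 368) (nat_lit 288))))) (XT.nd (nat_lit 312) (nat_lit 152) (nat_lit 0) (XT.nd (nat_lit 156) (nat_lit 0) (nat_lit 0) (XT.nd (nat_lit 78) (nat_lit 0) (nat_lit 0) (XT.lf (nat_lit 0) (nat_lit 356170664706) (nat_lit 76) (nat_lit 69399243292) (nat_lit 76) (nat_lit 67610694696) (nat_lit 3) (nat_lit 4) (nat_lit 4) (nat_lit 5) (nat_lit 4) (nat_lit 4) (nat_lit 545) (nat_lit 368) (nat_lit 287)) (XT.lf (nat_lit 0) (nat_lit 401860744266) (nat_lit 76) (nat_lit 58543375774) (nat_lit 76) (nat_lit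 56753158490) (nat_lit 3) (nat_lit 4) (nat_lit 4) (nat_lit 5) (nat_lit 4) (nat_lit 4) (nat_lit 546) (nat_lit 368) (nat_lit 286))) (XT.nd (nat_lit 78) (nat_lit 0) (nat_lit 0) (XT.lf (nat_lit 0) (nat_lit 449787317598) (nat_lit 76) (nat_lit 47169226019) (nat_lit 76) (nat_lit 45377419510) (nat_lit 3) (nat_lit 4) (nat_lit 4) (nat_lit 5) (nat_lit 4) (nat_lit 4) (nat_lit 547) (nat_lit 368) (nat_lit 285)) (XT.lf (nat_lit 0) (nat_lit 500064495593) (nat_lit 76) (nat_lit 35249712720) (nat_lit 76) (nat_lit 33456392662) (nat_lit 3) (nat_lit 4) (nat_lit 4) (nat_lit 5) (nat_lit 4) (nat_lit 4) (nat_lit 548) (nat_lit 368) (nat_lit 284)))) (XT.nd (nat_lit 156) (nat_lit 152) (nat_lit 0) (XT.nd (nat_lit 78) (nat_lit 0) (nat_lit 0) (XT.lf (nat_lit 0) (nat_lit 552811985816) (nat_lit 76) (nat_lit 22756456081) (nat_lit 76) (nat_lit 20961694549) (nat_lit 3) (nat_lit 4) (nat_lit 4) (nat_lit 5) (nat_lit 4) (nat_lit 4) (nat_lit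 549) (nat_lit 368) (nat_lit 283)) (XT.lf (nat_lit 0) (nat_lit 608155377530) (nat_lit 76) (nat_lit 9659710254) (nat_lit 76) (nat_lit 7863575889) (nat_lit 3) (nat_lit 4) (nat_lit 4) (nat_lit 5) (nat_lit 4) (nat_lit 4) (nat_lit 550) (nat_lit 368) (nat_lit 282))) (XT.nd (nat_lit 78) (nat_lit 0) (nat_lit 0) (XT.lf (nat_lit 0) (nat_lit 5907835512) (nat_lit 152) (nat_lit 646165853771) (nat_lit 0) (nat_lit 4195986155) (nat_lit 1) (nat_lit 5) (nat_lit 3) (nat_lit 4) (nat_lit 1) (nat_lit 4) (nat_lit 551) (nat_lit 368) (nat_lit 281)) (XT.lf (nat_lit 0) (nat_lit 20543890413) (nat_lit 152) (nat_lit 648987029651) (nat_lit 0) (nat_lit 18830855151) (nat_lit 1) (nat_lit 5) (nat_lit 3) (nat_lit 4) (nat_lit 1) (nat_lit 4) (nat_lit 552) (nat_lit 368) (nat_lit 280)))))) (XT.nd (nat_lit 55614) (nat_lit 0) (nat_lit 2736) (XT.nd (nat_lit 312) (nat_lit 0) (nat_lit 0) (XT.nd (nat_lit 156) (nat_lit 0) (nat_lit 0) (XT.nd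 (nat_lit 78) (nat_lit 0) (nat_lit 0) (XT.lf (nat_lit 0) (nat_lit 35893037967) (nat_lit 152) (nat_lit 651987504261) (nat_lit 0) (nat_lit 34178873271) (nat_lit 1) (nat_lit 5) (nat_lit 3) (nat_lit 4) (nat_lit 1) (nat_lit 4) (nat_lit 553) (nat_lit 368) (nat_lit 279)) (XT.lf (nat_lit 0) (nat_lit 51991823762) (nat_lit 152) (nat_lit 655174421587) (nat_lit 0) (nat_lit 50276583416) (nat_lit 1) (nat_lit 5) (nat_lit 3) (nat_lit 4) (nat_lit 1) (nat_lit 4) (nat_lit 554) (nat_lit 368) (nat_lit 278))) (XT.nd (nat_lit 78) (nat_lit 0) (nat_lit 0) (XT.lf (nat_lit 0) (nat_lit 68878578241) (nat_lit 152) (nat_lit 658555369528) (nat_lit 0) (nat_lit 67162313466) (nat_lit 1) (nat_lit 5) (nat_lit 3) (nat_lit 4) (nat_lit 1) (nat_lit 4) (nat_lit 555) (nat_lit 368) (nat_lit 277)) (XT.lf (nat_lit 0) (nat_lit 86593507963) (nat_lit 152) (nat_lit 662138397959) (nat_lit 0) (nat_lit 84876267541) (nat_lit 1) (nat_lit 5) (nat_lit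 3) (nat_lit 4) (nat_lit 1) (nat_lit 4) (nat_lit 556) (nat_lit 368) (nat_lit 276)))) (XT.nd (nat_lit 55146) (nat_lit 0) (nat_lit 3572) (XT.nd (nat_lit 55068) (nat_lit 0) (nat_lit 3800) (XT.lf (nat_lit 0) (nat_lit 105178791331) (nat_lit 152) (nat_lit 665932037901) (nat_lit 0) (nat_lit 103460621721) (nat_lit 1) (nat_lit 5) (nat_lit 3) (nat_lit 4) (nat_lit 1) (nat_lit 4) (nat_lit 557) (nat_lit 368) (nat_lit 275)) (XT.lf (nat_lit 0) (nat_lit 4327441839) (nat_lit 76) (nat_lit 2607851015) (nat_lit 76) (nat_lit 2607851015) (nat_lit 51) (nat_lit 4) (nat_lit 52) (nat_lit 5) (nat_lit 52) (nat_lit 4) (nat_lit 462) (nat_lit 369) (nat_lit 369))) (XT.nd (nat_lit 78) (nat_lit 76) (nat_lit 0) (XT.lf (nat_lit 0) (nat_lit 3539168849) (nat_lit 152) (nat_lit 12704066005) (nat_lit 0) (nat_lit 3349613111) (nat_lit 49) (nat_lit 5) (nat_lit 51) (nat_lit 4) (nat_lit 49) (nat_lit 4) (nat_lit 463) (nat_lit 369) (nat_lit 368))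 (XT.lf (nat_lit 0) (nat_lit 4716128602) (nat_lit 76) (nat_lit 7886067293) (nat_lit 76) (nat_lit 7515982279) (nat_lit 48) (nat_lit 4) (nat_lit 49) (nat_lit 5) (nat_lit 49) (nat_lit 4) (nat_lit 464) (nat_lit 369) (nat_lit 367))))) (XT.nd (nat_lit 312) (nat_lit 456) (nat_lit 0) (XT.nd (nat_lit 156) (nat_lit 228) (nat_lit 0) (XT.nd (nat_lit 78) (nat_lit 0) (nat_lit 0) (XT.lf (nat_lit 0) (nat_lit 1377263143) (nat_lit 152) (nat_lit 18431575348) (nat_lit 0) (nat_lit 861055852) (nat_lit 46) (nat_lit 5) (nat_lit 48) (nat_lit 4) (nat_lit 46) (nat_lit 4) (nat_lit 465) (nat_lit 369) (nat_lit 366)) (XT.lf (nat_lit 0) (nat_lit 10564808100) (nat_lit 152) (nat_lit 780465173) (nat_lit 0) (nat_lit 9892652833) (nat_lit 46) (nat_lit 5) (nat_lit 48) (nat_lit 4) (nat_lit 46) (nat_lit 4) (nat_lit 466) (nat_lit 369) (nat_lit 365))) (XT.nd (nat_lit 78) (nat_lit 152) (nat_lit 0) (XT.lf (nat_lit 0) (nat_lit 17766631694)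 (nat_lit 76) (nat_lit 2444225057) (nat_lit 76) (nat_lit 1623547909) (nat_lit 45) (nat_lit 4) (nat_lit 46) (nat_lit 5) (nat_lit 46) (nat_lit 4) (nat_lit 467) (nat_lit 369) (nat_lit 364)) (XT.lf (nat_lit 0) (nat_lit 7699042906) (nat_lit 152) (nat_lit 7969148278) (nat_lit 0) (nat_lit 6782731898) (nat_lit 43) (nat_lit 5) (nat_lit 45) (nat_lit 4) (nat_lit 43) (nat_lit 4) (nat_lit 468) (nat_lit 369) (nat_lit 363)))) (XT.nd (nat_lit 156) (nat_lit 228) (nat_lit 0) (XT.nd (nat_lit 78) (nat_lit 152) (nat_lit 0) (XT.lf (nat_lit 0) (nat_lit 10724751459) (nat_lit 76) (nat_lit 6708399414) (nat_lit 76) (nat_lit 5663789621) (nat_lit 42) (nat_lit 4) (nat_lit 43) (nat_lit 5) (nat_lit 43) (nat_lit 4) (nat_lit 469) (nat_lit 369) (nat_lit 362)) (XT.lf (nat_lit 0) (nat_lit 3757731401) (nat_lit 152) (nat_lit 17367848110) (nat_lit 0) (nat_lit 2646494151) (nat_lit 40) (nat_lit 5) (nat_lit 42) (nat_lit 4) (nat_lit 40) (nat_lit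 4) (nat_lit 470) (nat_lit 369) (nat_lit 361))) (XT.nd (nat_lit 78) (nat_lit 152) (nat_lit 0) (XT.lf (nat_lit 0) (nat_lit 1359272034) (nat_lit 76) (nat_lit 12167879272) (nat_lit 76) (nat_lit 10945812707) (nat_lit 39) (nat_lit 4) (nat_lit 40) (nat_lit 5) (nat_lit 40) (nat_lit 4) (nat_lit 471) (nat_lit 369) (nat_lit 360)) (XT.nd (nat_lit 78) (nat_lit 152) (nat_lit 0) (XT.lf (nat_lit 0) (nat_lit 21078212415) (nat_lit 76) (nat_lit 2728608456) (nat_lit 76) (nat_lit 1400990163) (nat_lit 39) (nat_lit 4) (nat_lit 40) (nat_lit 5) (nat_lit 40) (nat_lit 4) (nat_lit 472) (nat_lit 369) (nat_lit 359)) (XT.lf (nat_lit 0) (nat_lit 8439872942) (nat_lit 152) (nat_lit 10448326072) (nat_lit 0) (nat_lit 7079736039) (nat_lit 37) (nat_lit 5) (nat_lit 39) (nat_lit 4) (nat_lit 37) (nat_lit 4) (nat_lit 473) (nat_lit 369) (nat_lit 358))))))))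
noncomputable def xc69 : XT := (XT.nd (nat_lit 1248) (nat_lit 760) (nat_lit 0) (XT.nd (nat_lit 624) (nat_lit 456) (nat_lit 0) (XT.nd (nat_lit 312) (nat_lit 380) (nat_lit 0) (XT.nd (nat_lit 156) (nat_lit 76) (nat_lit 0) (XT.nd (nat_lit 78) (nat_lit 152) (nat_lit 0) (XT.lf (nat_lit 0) (nat_lit 9228122067) (nat_lit 76) (nat_lit 9494141941) (nat_lit 76) (nat_lit 8042825486) (nat_lit 36) (nat_lit 4) (nat_lit 37) (nat_lit 5) (nat_lit 37) (nat_lit 4) (nat_lit 474) (nat_lit 369) (nat_lit 357)) (XT.lf (nat_lit 0) (nat_lit 1811365903) (nat_lit 152) (nat_lit 25444981236) (nat_lit 0) (nat_lit 346457215) (nat_lit 34) (nat_lit 5) (nat_lit 36) (nat_lit 4) (nat_lit 34) (nat_lit 4) (nat_lit 475) (nat_lit 369) (nat_lit 356))) (XT.nd (nat_lit 78) (nat_lit 76) (nat_lit 0) (XT.lf (nat_lit 0) (nat_lit 12082574917) (nat_lit 152) (nat_lit 5844606479) (nat_lit 0) (nat_lit 10538901904) (nat_lit 34) (nat_lit 5) (nat_lit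 36) (nat_lit 4) (nat_lit 34) (nat_lit 4) (nat_lit 476) (nat_lit 369) (nat_lit 355)) (XT.lf (nat_lit 0) (nat_lit 14700692999) (nat_lit 76) (nat_lit 8145782044) (nat_lit 76) (nat_lit 6527095388) (nat_lit 33) (nat_lit 4) (nat_lit 34) (nat_lit 5) (nat_lit 34) (nat_lit 4) (nat_lit 477) (nat_lit 369) (nat_lit 354)))) (XT.nd (nat_lit 156) (nat_lit 228) (nat_lit 0) (XT.nd (nat_lit 78) (nat_lit 0) (nat_lit 0) (XT.lf (nat_lit 0) (nat_lit 3673553193) (nat_lit 152) (nat_lit 24587301080) (nat_lit 0) (nat_lit 2063907269) (nat_lit 31) (nat_lit 5) (nat_lit 33) (nat_lit 4) (nat_lit 31) (nat_lit 4) (nat_lit 478) (nat_lit 369) (nat_lit 353)) (XT.lf (nat_lit 0) (nat_lit 14300938513) (nat_lit 152) (nat_lit 4383928424) (nat_lit 0) (nat_lit 12626492984) (nat_lit 31) (nat_lit 5) (nat_lit 33) (nat_lit 4) (nat_lit 31) (nat_lit 4) (nat_lit 479) (nat_lit 369) (nat_lit 352))) (XT.nd (nat_lit 78) (nat_lit 152) (nat_lit 0) (XT.lf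 (nat_lit 0) (nat_lit 16888283759) (nat_lit 76) (nat_lit 8596943903) (nat_lit 76) (nat_lit 6860784465) (nat_lit 30) (nat_lit 4) (nat_lit 31) (nat_lit 5) (nat_lit 31) (nat_lit 4) (nat_lit 480) (nat_lit 369) (nat_lit 351)) (XT.lf (nat_lit 0) (nat_lit 3630411570) (nat_lit 152) (nat_lit 27880293136) (nat_lit 0) (nat_lit 1920950057) (nat_lit 28) (nat_lit 5) (nat_lit 30) (nat_lit 4) (nat_lit 28) (nat_lit 4) (nat_lit 481) (nat_lit 369) (nat_lit 350))))) (XT.nd (nat_lit 312) (nat_lit 228) (nat_lit 0) (XT.nd (nat_lit 156) (nat_lit 152) (nat_lit 0) (XT.nd (nat_lit 78) (nat_lit 76) (nat_lit 0) (XT.lf (nat_lit 0) (nat_lit 14584752150) (nat_lit 152) (nat_lit 7150766891) (nat_lit 0) (nat_lit 12821979841) (nat_lit 28) (nat_lit 5) (nat_lit 30) (nat_lit 4) (nat_lit 28) (nat_lit 4) (nat_lit 482) (nat_lit 369) (nat_lit 349)) (XT.lf (nat_lit 0) (nat_lit 14624114677) (nat_lit 76) (nat_lit 11464487951) (nat_lit 76) (nat_lit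 9650943456) (nat_lit 27) (nat_lit 4) (nat_lit 28) (nat_lit 5) (nat_lit 28) (nat_lit 4) (nat_lit 483) (nat_lit 369) (nat_lit 348))) (XT.nd (nat_lit 78) (nat_lit 0) (nat_lit 0) (XT.lf (nat_lit 0) (nat_lit 290885792) (nat_lit 76) (nat_lit 759253109) (nat_lit 152) (nat_lit 35934571702) (nat_lit 25) (nat_lit 5) (nat_lit 26) (nat_lit 5) (nat_lit 27) (nat_lit 4) (nat_lit 484) (nat_lit 369) (nat_lit 347)) (XT.lf (nat_lit 0) (nat_lit 12262745621) (nat_lit 152) (nat_lit 15560787712) (nat_lit 0) (nat_lit 10445649595) (nat_lit 25) (nat_lit 5) (nat_lit 27) (nat_lit 4) (nat_lit 25) (nat_lit 4) (nat_lit 485) (nat_lit 369) (nat_lit 346)))) (XT.nd (nat_lit 156) (nat_lit 152) (nat_lit 0) (XT.nd (nat_lit 78) (nat_lit 0) (nat_lit 0) (XT.lf (nat_lit 0) (nat_lit 6383217040) (nat_lit 76) (nat_lit 17549349742) (nat_lit 76) (nat_lit 15690483313) (nat_lit 24) (nat_lit 4) (nat_lit 25) (nat_lit 5) (nat_lit 25) (nat_lit 4)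 (nat_lit 486) (nat_lit 369) (nat_lit 345)) (XT.lf (nat_lit 0) (nat_lit 29534174305) (nat_lit 76) (nat_lit 6703253523) (nat_lit 76) (nat_lit 4804605758) (nat_lit 24) (nat_lit 4) (nat_lit 25) (nat_lit 5) (nat_lit 25) (nat_lit 4) (nat_lit 487) (nat_lit 369) (nat_lit 344))) (XT.nd (nat_lit 78) (nat_lit 0) (nat_lit 0) (XT.lf (nat_lit 0) (nat_lit 6456744168) (nat_lit 152) (nat_lit 31455463017) (nat_lit 0) (nat_lit 4612425357) (nat_lit 22) (nat_lit 5) (nat_lit 24) (nat_lit 4) (nat_lit 22) (nat_lit 4) (nat_lit 488) (nat_lit 369) (nat_lit 343)) (XT.lf (nat_lit 0) (nat_lit 18222592898) (nat_lit 152) (nat_lit 9505776350) (nat_lit 0) (nat_lit 16343909472) (nat_lit 22) (nat_lit 5) (nat_lit 24) (nat_lit 4) (nat_lit 22) (nat_lit 4) (nat_lit 489) (nat_lit 369) (nat_lit 342)))))) (XT.nd (nat_lit 624) (nat_lit 304) (nat_lit 0) (XT.nd (nat_lit 312) (nat_lit 228) (nat_lit 0) (XT.nd (nat_lit 156) (nat_lit 152) (nat_lit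 0) (XT.nd (nat_lit 78) (nat_lit 0) (nat_lit 0) (XT.lf (nat_lit 0) (nat_lit 13578970551) (nat_lit 76) (nat_lit 17014456974) (nat_lit 76) (nat_lit 15103045344) (nat_lit 21) (nat_lit 4) (nat_lit 22) (nat_lit 5) (nat_lit 22) (nat_lit 4) (nat_lit 490) (nat_lit 369) (nat_lit 341)) (XT.lf (nat_lit 0) (nat_lit 37757341736) (nat_lit 76) (nat_lit 5794336471) (nat_lit 76) (nat_lit 3851755124) (nat_lit 21) (nat_lit 4) (nat_lit 22) (nat_lit 5) (nat_lit 22) (nat_lit 4) (nat_lit 491) (nat_lit 369) (nat_lit 340))) (XT.nd (nat_lit 78) (nat_lit 0) (nat_lit 0) (XT.lf (nat_lit 0) (nat_lit 7834240712) (nat_lit 152) (nat_lit 35393045574) (nat_lit 0) (nat_lit 5955891385) (nat_lit 19) (nat_lit 5) (nat_lit 21) (nat_lit 4) (nat_lit 19) (nat_lit 4) (nat_lit 492) (nat_lit 369) (nat_lit 339)) (XT.lf (nat_lit 0) (nat_lit 20050251109) (nat_lit 152) (nat_lit 12849767062) (nat_lit 0) (nat_lit 18144976208) (nat_lit 19) (nat_lit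 5) (nat_lit 21) (nat_lit 4) (nat_lit 19) (nat_lit 4) (nat_lit 493) (nat_lit 369) (nat_lit 338)))) (XT.nd (nat_lit 156) (nat_lit 152) (nat_lit 0) (XT.nd (nat_lit 78) (nat_lit 0) (nat_lit 0) (XT.lf (nat_lit 0) (nat_lit 10806284255) (nat_lit 76) (nat_lit 22062475670) (nat_lit 76) (nat_lit 20131557365) (nat_lit 18) (nat_lit 4) (nat_lit 19) (nat_lit 5) (nat_lit 19) (nat_lit 4) (nat_lit 494) (nat_lit 369) (nat_lit 337)) (XT.lf (nat_lit 0) (nat_lit 35736803974) (nat_lit 76) (nat_lit 10634884258) (nat_lit 76) (nat_lit 8679543664) (nat_lit 18) (nat_lit 4) (nat_lit 19) (nat_lit 5) (nat_lit 19) (nat_lit 4) (nat_lit 495) (nat_lit 369) (nat_lit 336))) (XT.nd (nat_lit 78) (nat_lit 0) (nat_lit 0) (XT.lf (nat_lit 0) (nat_lit 3159602701) (nat_lit 152) (nat_lit 52771176879) (nat_lit 0) (nat_lit 1275221827) (nat_lit 16) (nat_lit 5) (nat_lit 18) (nat_lit 4) (nat_lit 16) (nat_lit 4) (nat_lit 496) (nat_lit 369) (nat_lit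 335)) (XT.lf (nat_lit 0) (nat_lit 15637343121) (nat_lit 152) (nat_lit 30075270438) (nat_lit 0) (nat_lit 13731865355) (nat_lit 16) (nat_lit 5) (nat_lit 18) (nat_lit 4) (nat_lit 16) (nat_lit 4) (nat_lit 497) (nat_lit 369) (nat_lit 334))))) (XT.nd (nat_lit 312) (nat_lit 76) (nat_lit 0) (XT.nd (nat_lit 156) (nat_lit 152) (nat_lit 0) (XT.nd (nat_lit 78) (nat_lit 76) (nat_lit 0) (XT.lf (nat_lit 0) (nat_lit 28578515790) (nat_lit 152) (nat_lit 6571441705) (nat_lit 0) (nat_lit 26652945746) (nat_lit 16) (nat_lit 5) (nat_lit 18) (nat_lit 4) (nat_lit 16) (nat_lit 4) (nat_lit 498) (nat_lit 369) (nat_lit 333)) (XT.lf (nat_lit 0) (nat_lit 18384695899) (nat_lit 76) (nat_lit 23916273751) (nat_lit 76) (nat_lit 21971568205) (nat_lit 15) (nat_lit 4) (nat_lit 16) (nat_lit 5) (nat_lit 16) (nat_lit 4) (nat_lit 499) (nat_lit 369) (nat_lit 332))) (XT.nd (nat_lit 78) (nat_lit 152) (nat_lit 0) (XT.lf (nat_lit 0) (nat_lit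 44510499443) (nat_lit 76) (nat_lit 12160018105) (nat_lit 76) (nat_lit 10197088270) (nat_lit 15) (nat_lit 4) (nat_lit 16) (nat_lit 5) (nat_lit 16) (nat_lit 4) (nat_lit 500) (nat_lit 369) (nat_lit 331)) (XT.lf (nat_lit 0) (nat_lit 1985460595) (nat_lit 152) (nat_lit 67511368448) (nat_lit 0) (nat_lit 99473642) (nat_lit 13) (nat_lit 5) (nat_lit 15) (nat_lit 4) (nat_lit 13) (nat_lit 4) (nat_lit 501) (nat_lit 369) (nat_lit 330)))) (XT.nd (nat_lit 156) (nat_lit 76) (nat_lit 0) (XT.nd (nat_lit 78) (nat_lit 0) (nat_lit 0) (XT.lf (nat_lit 0) (nat_lit 14873173878) (nat_lit 152) (nat_lit 44586522010) (nat_lit 0) (nat_lit 12971444100) (nat_lit 13) (nat_lit 5) (nat_lit 15) (nat_lit 4) (nat_lit 13) (nat_lit 4) (nat_lit 502) (nat_lit 369) (nat_lit 329)) (XT.lf (nat_lit 0) (nat_lit 28266745215) (nat_lit 152) (nat_lit 20797878205) (nat_lit 0) (nat_lit 26350022270) (nat_lit 13) (nat_lit 5) (nat_lit 15) (nat_lit 4)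 (nat_lit 13) (nat_lit 4) (nat_lit 503) (nat_lit 369) (nat_lit 328))) (XT.nd (nat_lit 78) (nat_lit 0) (nat_lit 0) (XT.lf (nat_lit 0) (nat_lit 4040524616) (nat_lit 76) (nat_lit 38220623359) (nat_lit 76) (nat_lit 36289621207) (nat_lit 12) (nat_lit 4) (nat_lit 13) (nat_lit 5) (nat_lit 13) (nat_lit 4) (nat_lit 504) (nat_lit 369) (nat_lit 327)) (XT.nd (nat_lit 78) (nat_lit 0) (nat_lit 0) (XT.lf (nat_lit 0) (nat_lit 30578246384) (nat_lit 76) (nat_lit 26599465964) (nat_lit 76) (nat_lit 24654864566) (nat_lit 12) (nat_lit 4) (nat_lit 13) (nat_lit 5) (nat_lit 13) (nat_lit 4) (nat_lit 505) (nat_lit 369) (nat_lit 326)) (XT.lf (nat_lit 0) (nat_lit 58190800371) (nat_lit 76) (nat_lit 14525703942) (nat_lit 76) (nat_lit 12568150884) (nat_lit 12) (nat_lit 4) (nat_lit 13) (nat_lit 5) (nat_lit 13) (nat_lit 4) (nat_lit 506) (nat_lit 369) (nat_lit 325))))))))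
noncomputable def xc70 : XT := (XT.nd (nat_lit 1248) (nat_lit 228) (nat_lit 0) (XT.nd (nat_lit 624) (nat_lit 228) (nat_lit 0) (XT.nd (nat_lit 312) (nat_lit 76) (nat_lit 0) (XT.nd (nat_lit 156) (nat_lit 0) (nat_lit 0) (XT.nd (nat_lit 78) (nat_lit 152) (nat_lit 0) (XT.lf (nat_lit 0) (nat_lit 86943930753) (nat_lit 76) (nat_lit 1970590243) (nat_lit 76) (nat_lit 702269) (nat_lit 12) (nat_lit 4) (nat_lit 13) (nat_lit 5) (nat_lit 13) (nat_lit 4) (nat_lit 507) (nat_lit 369) (nat_lit 324)) (XT.lf (nat_lit 0) (nat_lit 13228362731) (nat_lit 152) (nat_lit 68124787161) (nat_lit 0) (nat_lit 11341090813) (nat_lit 10) (nat_lit 5) (nat_lit 12) (nat_lit 4) (nat_lit 10) (nat_lit 4) (nat_lit 508) (nat_lit 369) (nat_lit 323))) (XT.nd (nat_lit 78) (nat_lit 0) (nat_lit 0) (XT.lf (nat_lit 0) (nat_lit 27071183540) (nat_lit 152) (nat_lit 44420152444) (nat_lit 0) (nat_lit 25173256258) (nat_lit 10) (nat_lit 5) (nat_lit 12)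 (nat_lit 4) (nat_lit 10) (nat_lit 4) (nat_lit 509) (nat_lit 369) (nat_lit 322)) (XT.lf (nat_lit 0) (nat_lit 41497659026) (nat_lit 152) (nat_lit 19751642975) (nat_lit 0) (nat_lit 39589583778) (nat_lit 10) (nat_lit 5) (nat_lit 12) (nat_lit 4) (nat_lit 10) (nat_lit 4) (nat_lit 510) (nat_lit 369) (nat_lit 321)))) (XT.nd (nat_lit 156) (nat_lit 0) (nat_lit 0) (XT.nd (nat_lit 78) (nat_lit 0) (nat_lit 0) (XT.lf (nat_lit 0) (nat_lit 6135861684) (nat_lit 76) (nat_lit 50502074251) (nat_lit 76) (nat_lit 48584334275) (nat_lit 9) (nat_lit 4) (nat_lit 10) (nat_lit 5) (nat_lit 10) (nat_lit 4) (nat_lit 511) (nat_lit 369) (nat_lit 320)) (XT.lf (nat_lit 0) (nat_lit 33796058105) (nat_lit 76) (nat_lit 38972033542) (nat_lit 76) (nat_lit 37045089061) (nat_lit 9) (nat_lit 4) (nat_lit 10) (nat_lit 5) (nat_lit 10) (nat_lit 4) (nat_lit 512) (nat_lit 369) (nat_lit 319))) (XT.nd (nat_lit 78) (nat_lit 0) (nat_lit 0) (XT.lf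 (nat_lit 0) (nat_lit 62641725381) (nat_lit 76) (nat_lit 26966231027) (nat_lit 76) (nat_lit 25030520352) (nat_lit 9) (nat_lit 4) (nat_lit 10) (nat_lit 5) (nat_lit 10) (nat_lit 4) (nat_lit 513) (nat_lit 369) (nat_lit 318)) (XT.lf (nat_lit 0) (nat_lit 92741543672) (nat_lit 76) (nat_lit 14456081461) (nat_lit 76) (nat_lit 12512022029) (nat_lit 9) (nat_lit 4) (nat_lit 10) (nat_lit 5) (nat_lit 10) (nat_lit 4) (nat_lit 514) (nat_lit 369) (nat_lit 317))))) (XT.nd (nat_lit 312) (nat_lit 76) (nat_lit 0) (XT.nd (nat_lit 156) (nat_lit 0) (nat_lit 0) (XT.nd (nat_lit 78) (nat_lit 76) (nat_lit 0) (XT.lf (nat_lit 0) (nat_lit 522921700) (nat_lit 152) (nat_lit 880021142) (nat_lit 76) (nat_lit 123635401579) (nat_lit 8) (nat_lit 5) (nat_lit 10) (nat_lit 5) (nat_lit 9) (nat_lit 4) (nat_lit 515) (nat_lit 369) (nat_lit 316)) (XT.lf (nat_lit 0) (nat_lit 14326625341) (nat_lit 152) (nat_lit 103809364954) (nat_lit 0) (nat_lit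 12460355630) (nat_lit 7) (nat_lit 5) (nat_lit 9) (nat_lit 4) (nat_lit 7) (nat_lit 4) (nat_lit 516) (nat_lit 369) (nat_lit 315))) (XT.nd (nat_lit 78) (nat_lit 0) (nat_lit 0) (XT.lf (nat_lit 0) (nat_lit 28773695535) (nat_lit 152) (nat_lit 80760335691) (nat_lit 0) (nat_lit 26900557282) (nat_lit 7) (nat_lit 5) (nat_lit 9) (nat_lit 4) (nat_lit 7) (nat_lit 4) (nat_lit 517) (nat_lit 369) (nat_lit 314)) (XT.lf (nat_lit 0) (nat_lit 43862199623) (nat_lit 152) (nat_lit 56724069745) (nat_lit 0) (nat_lit 41982519900) (nat_lit 7) (nat_lit 5) (nat_lit 9) (nat_lit 4) (nat_lit 7) (nat_lit 4) (nat_lit 518) (nat_lit 369) (nat_lit 313)))) (XT.nd (nat_lit 156) (nat_lit 76) (nat_lit 0) (XT.nd (nat_lit 78) (nat_lit 0) (nat_lit 0) (XT.lf (nat_lit 0) (nat_lit 59628062613) (nat_lit 152) (nat_lit 31643337912) (nat_lit 0) (nat_lit 57742152919) (nat_lit 7) (nat_lit 5) (nat_lit 9) (nat_lit 4) (nat_lit 7) (nat_lit 4) (nat_lit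 519) (nat_lit 369) (nat_lit 312)) (XT.lf (nat_lit 0) (nat_lit 76108822275) (nat_lit 152) (nat_lit 5458424163) (nat_lit 0) (nat_lit 74216979276) (nat_lit 7) (nat_lit 5) (nat_lit 9) (nat_lit 4) (nat_lit 7) (nat_lit 4) (nat_lit 520) (nat_lit 369) (nat_lit 311))) (XT.nd (nat_lit 78) (nat_lit 0) (nat_lit 0) (XT.lf (nat_lit 0) (nat_lit 22616898530) (nat_lit 76) (nat_lit 71079933152) (nat_lit 76) (nat_lit 69182439386) (nat_lit 6) (nat_lit 4) (nat_lit 7) (nat_lit 5) (nat_lit 7) (nat_lit 4) (nat_lit 521) (nat_lit 369) (nat_lit 310)) (XT.lf (nat_lit 0) (nat_lit 52145074697) (nat_lit 76) (nat_lit 60042842848) (nat_lit 76) (nat_lit 58139967399) (nat_lit 6) (nat_lit 4) (nat_lit 7) (nat_lit 5) (nat_lit 7) (nat_lit 4) (nat_lit 522) (nat_lit 369) (nat_lit 309)))))) (XT.nd (nat_lit 624) (nat_lit 76) (nat_lit 0) (XT.nd (nat_lit 312) (nat_lit 152) (nat_lit 0) (XT.nd (nat_lit 156) (nat_lit 0) (nat_lit 0) (XT.nd (nat_lit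 78) (nat_lit 0) (nat_lit 0) (XT.lf (nat_lit 0) (nat_lit 83015929363) (nat_lit 76) (nat_lit 48522137797) (nat_lit 76) (nat_lit 46614136936) (nat_lit 6) (nat_lit 4) (nat_lit 7) (nat_lit 5) (nat_lit 7) (nat_lit 4) (nat_lit 523) (nat_lit 369) (nat_lit 308)) (XT.lf (nat_lit 0) (nat_lit 115302964564) (nat_lit 76) (nat_lit 36490387747) (nat_lit 76) (nat_lit 34577505541) (nat_lit 6) (nat_lit 4) (nat_lit 7) (nat_lit 5) (nat_lit 7) (nat_lit 4) (nat_lit 524) (nat_lit 369) (nat_lit 307))) (XT.nd (nat_lit 78) (nat_lit 0) (nat_lit 0) (XT.lf (nat_lit 0) (nat_lit 149083054193) (nat_lit 76) (nat_lit 23918945675) (nat_lit 76) (nat_lit 22001414569) (nat_lit 6) (nat_lit 4) (nat_lit 7) (nat_lit 5) (nat_lit 7) (nat_lit 4) (nat_lit 525) (nat_lit 369) (nat_lit 306)) (XT.lf (nat_lit 0) (nat_lit 184436627034) (nat_lit 76) (nat_lit 10777879575) (nat_lit 76) (nat_lit 8855920945) (nat_lit 6) (nat_lit 4) (nat_lit 7) (nat_lit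 5) (nat_lit 7) (nat_lit 4) (nat_lit 526) (nat_lit 369) (nat_lit 305)))) (XT.nd (nat_lit 156) (nat_lit 0) (nat_lit 0) (XT.nd (nat_lit 78) (nat_lit 0) (nat_lit 0) (XT.lf (nat_lit 0) (nat_lit 4908792911) (nat_lit 152) (nat_lit 205597782748) (nat_lit 0) (nat_lit 3074340226) (nat_lit 4) (nat_lit 5) (nat_lit 6) (nat_lit 4) (nat_lit 4) (nat_lit 4) (nat_lit 527) (nat_lit 369) (nat_lit 304)) (XT.lf (nat_lit 0) (nat_lit 19524021494) (nat_lit 152) (nat_lit 186326909276) (nat_lit 0) (nat_lit 17685744147) (nat_lit 4) (nat_lit 5) (nat_lit 6) (nat_lit 4) (nat_lit 4) (nat_lit 4) (nat_lit 528) (nat_lit 369) (nat_lit 303))) (XT.nd (nat_lit 78) (nat_lit 0) (nat_lit 0) (XT.lf (nat_lit 0) (nat_lit 34817869254) (nat_lit 152) (nat_lit 166199010424) (nat_lit 0) (nat_lit 32975949372) (nat_lit 4) (nat_lit 5) (nat_lit 6) (nat_lit 4) (nat_lit 4) (nat_lit 4) (nat_lit 529) (nat_lit 369) (nat_lit 302)) (XT.lf (nat_lit 0) (nat_lit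 50826750114) (nat_lit 152) (nat_lit 145166162624) (nat_lit 0) (nat_lit 48981361152) (nat_lit 4) (nat_lit 5) (nat_lit 6) (nat_lit 4) (nat_lit 4) (nat_lit 4) (nat_lit 530) (nat_lit 369) (nat_lit 301))))) (XT.nd (nat_lit 312) (nat_lit 76) (nat_lit 0) (XT.nd (nat_lit 156) (nat_lit 0) (nat_lit 0) (XT.nd (nat_lit 78) (nat_lit 0) (nat_lit 0) (XT.lf (nat_lit 0) (nat_lit 67588780459) (nat_lit 152) (nat_lit 123178287666) (nat_lit 0) (nat_lit 65740087610) (nat_lit 4) (nat_lit 5) (nat_lit 6) (nat_lit 4) (nat_lit 4) (nat_lit 4) (nat_lit 531) (nat_lit 369) (nat_lit 300)) (XT.lf (nat_lit 0) (nat_lit 85143869883) (nat_lit 152) (nat_lit 100183033466) (nat_lit 0) (nat_lit 83292030476) (nat_lit 4) (nat_lit 5) (nat_lit 6) (nat_lit 4) (nat_lit 4) (nat_lit 4) (nat_lit 532) (nat_lit 369) (nat_lit 299))) (XT.nd (nat_lit 78) (nat_lit 0) (nat_lit 0) (XT.lf (nat_lit 0) (nat_lit 103533816219) (nat_lit 152) (nat_lit 76125649420)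 (nat_lit 0) (nat_lit 101678980090) (nat_lit 4) (nat_lit 5) (nat_lit 6) (nat_lit 4) (nat_lit 4) (nat_lit 4) (nat_lit 533) (nat_lit 369) (nat_lit 298)) (XT.lf (nat_lit 0) (nat_lit 122802405054) (nat_lit 152) (nat_lit 50948856043) (nat_lit 0) (nat_lit 120944714902) (nat_lit 4) (nat_lit 5) (nat_lit 6) (nat_lit 4) (nat_lit 4) (nat_lit 4) (nat_lit 534) (nat_lit 369) (nat_lit 297)))) (XT.nd (nat_lit 156) (nat_lit 0) (nat_lit 0) (XT.nd (nat_lit 78) (nat_lit 76) (nat_lit 0) (XT.lf (nat_lit 0) (nat_lit 142995513979) (nat_lit 152) (nat_lit 24592708586) (nat_lit 0) (nat_lit 141135105712) (nat_lit 4) (nat_lit 5) (nat_lit 6) (nat_lit 4) (nat_lit 4) (nat_lit 4) (nat_lit 535) (nat_lit 369) (nat_lit 296)) (XT.lf (nat_lit 0) (nat_lit 3104922593) (nat_lit 76) (nat_lit 161104775775) (nat_lit 76) (nat_lit 159241778827) (nat_lit 3) (nat_lit 4) (nat_lit 4) (nat_lit 5) (nat_lit 4) (nat_lit 4) (nat_lit 536) (nat_lit 369)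 (nat_lit 295))) (XT.nd (nat_lit 78) (nat_lit 0) (nat_lit 0) (XT.lf (nat_lit 0) (nat_lit 32966759056) (nat_lit 76) (nat_lit 153897867577) (nat_lit 76) (nat_lit 152032405218) (nat_lit 3) (nat_lit 4) (nat_lit 4) (nat_lit 5) (nat_lit 4) (nat_lit 4) (nat_lit 537) (nat_lit 369) (nat_lit 294)) (XT.nd (nat_lit 78) (nat_lit 0) (nat_lit 0) (XT.lf (nat_lit 0) (nat_lit 64250754404) (nat_lit 76) (nat_lit 146366828086) (nat_lit 76) (nat_lit 144499017716) (nat_lit 3) (nat_lit 4) (nat_lit 4) (nat_lit 5) (nat_lit 4) (nat_lit 4) (nat_lit 538) (nat_lit 369) (nat_lit 293)) (XT.lf (nat_lit 0) (nat_lit 97031394340) (nat_lit 76) (nat_lit 138493726254) (nat_lit 76) (nat_lit 136623679684) (nat_lit 3) (nat_lit 4) (nat_lit 4) (nat_lit 5) (nat_lit 4) (nat_lit 4) (nat_lit 539) (nat_lit 369) (nat_lit 292))))))))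
noncomputable def xc71 : XT := (XT.nd (nat_lit 1248) (nat_lit 0) (nat_lit 0) (XT.nd (nat_lit 624) (nat_lit 152) (nat_lit 0) (XT.nd (nat_lit 312) (nat_lit 0) (nat_lit 0) (XT.nd (nat_lit 156) (nat_lit 0) (nat_lit 0) (XT.nd (nat_lit 78) (nat_lit 0) (nat_lit 0) (XT.lf (nat_lit 0) (nat_lit 131386728006) (nat_lit 76) (nat_lit 130259816603) (nat_lit 76) (nat_lit 128387640318) (nat_lit 3) (nat_lit 4) (nat_lit 4) (nat_lit 5) (nat_lit 4) (nat_lit 4) (nat_lit 540) (nat_lit 369) (nat_lit 291)) (XT.lf (nat_lit 0) (nat_lit 167398553816) (nat_lit 76) (nat_lit 121645494584) (nat_lit 76) (nat_lit 119771289999) (nat_lit 3) (nat_lit 4) (nat_lit 4) (nat_lit 5) (nat_lit 4) (nat_lit 4) (nat_lit 541) (nat_lit 369) (nat_lit 290))) (XT.nd (nat_lit 78) (nat_lit 0) (nat_lit 0) (XT.lf (nat_lit 0) (nat_lit 205152614212) (nat_lit 76) (nat_lit 112630249907) (nat_lit 76) (nat_lit 110754113609) (nat_lit 3) (nat_lit 4) (nat_lit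 4) (nat_lit 5) (nat_lit 4) (nat_lit 4) (nat_lit 542) (nat_lit 369) (nat_lit 289)) (XT.lf (nat_lit 0) (nat_lit 244738799814) (nat_lit 76) (nat_lit 103192617704) (nat_lit 76) (nat_lit 101314641678) (nat_lit 3) (nat_lit 4) (nat_lit 4) (nat_lit 5) (nat_lit 4) (nat_lit 4) (nat_lit 543) (nat_lit 369) (nat_lit 288)))) (XT.nd (nat_lit 156) (nat_lit 0) (nat_lit 0) (XT.nd (nat_lit 78) (nat_lit 0) (nat_lit 0) (XT.lf (nat_lit 0) (nat_lit 286251363445) (nat_lit 76) (nat_lit 93310127423) (nat_lit 76) (nat_lit 91430399275) (nat_lit 3) (nat_lit 4) (nat_lit 4) (nat_lit 5) (nat_lit 4) (nat_lit 4) (nat_lit 544) (nat_lit 369) (nat_lit 287)) (XT.lf (nat_lit 0) (nat_lit 329789144543) (nat_lit 76) (nat_lit 82959249324) (nat_lit 76) (nat_lit 81077852489) (nat_lit 3) (nat_lit 4) (nat_lit 4) (nat_lit 5) (nat_lit 4) (nat_lit 4) (nat_lit 545) (nat_lit 369) (nat_lit 286))) (XT.nd (nat_lit 78) (nat_lit 0) (nat_lit 0) (XT.lf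 (nat_lit 0) (nat_lit 375455804490) (nat_lit 76) (nat_lit 72115338459) (nat_lit 76) (nat_lit 70232352399) (nat_lit 3) (nat_lit 4) (nat_lit 4) (nat_lit 5) (nat_lit 4) (nat_lit 4) (nat_lit 546) (nat_lit 369) (nat_lit 285)) (XT.lf (nat_lit 0) (nat_lit 423360073431) (nat_lit 76) (nat_lit 60752575994) (nat_lit 76) (nat_lit 58868076385) (nat_lit 3) (nat_lit 4) (nat_lit 4) (nat_lit 5) (nat_lit 4) (nat_lit 4) (nat_lit 547) (nat_lit 369) (nat_lit 284))))) (XT.nd (nat_lit 312) (nat_lit 152) (nat_lit 0) (XT.nd (nat_lit 156) (nat_lit 0) (nat_lit 0) (XT.nd (nat_lit 78) (nat_lit 0) (nat_lit 0) (XT.lf (nat_lit 0) (nat_lit 473616009147) (nat_lit 76) (nat_lit 48843907731) (nat_lit 76) (nat_lit 46957966647) (nat_lit 3) (nat_lit 4) (nat_lit 4) (nat_lit 5) (nat_lit 4) (nat_lit 4) (nat_lit 548) (nat_lit 369) (nat_lit 283)) (XT.lf (nat_lit 0) (nat_lit 526343268628) (nat_lit 76) (nat_lit 36360979699) (nat_lit 76) (nat_lit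 34473665782) (nat_lit 3) (nat_lit 4) (nat_lit 4) (nat_lit 5) (nat_lit 4) (nat_lit 4) (nat_lit 549) (nat_lit 369) (nat_lit 282))) (XT.nd (nat_lit 78) (nat_lit 0) (nat_lit 0) (XT.lf (nat_lit 0) (nat_lit 581667392969) (nat_lit 76) (nat_lit 23274070641) (nat_lit 76) (nat_lit 21385449264) (nat_lit 3) (nat_lit 4) (nat_lit 4) (nat_lit 5) (nat_lit 4) (nat_lit 4) (nat_lit 550) (nat_lit 369) (nat_lit 281)) (XT.lf (nat_lit 0) (nat_lit 639720106276) (nat_lit 76) (nat_lit 9552021248) (nat_lit 76) (nat_lit 7662154672) (nat_lit 3) (nat_lit 4) (nat_lit 4) (nat_lit 5) (nat_lit 4) (nat_lit 4) (nat_lit 551) (nat_lit 369) (nat_lit 280)))) (XT.nd (nat_lit 156) (nat_lit 0) (nat_lit 0) (XT.nd (nat_lit 78) (nat_lit 0) (nat_lit 0) (XT.lf (nat_lit 0) (nat_lit 6778676728) (nat_lit 152) (nat_lit 677298035287) (nat_lit 0) (nat_lit 4977674365) (nat_lit 1) (nat_lit 5) (nat_lit 3) (nat_lit 4) (nat_lit 1) (nat_lit 4) (nat_lit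 552) (nat_lit 369) (nat_lit 279)) (XT.lf (nat_lit 0) (nat_lit 22119132020) (nat_lit 152) (nat_lit 680316275256) (nat_lit 0) (nat_lit 20317054006) (nat_lit 1) (nat_lit 5) (nat_lit 3) (nat_lit 4) (nat_lit 1) (nat_lit 4) (nat_lit 553) (nat_lit 369) (nat_lit 278))) (XT.nd (nat_lit 78) (nat_lit 0) (nat_lit 0) (XT.lf (nat_lit 0) (nat_lit 38209639471) (nat_lit 152) (nat_lit 683520111971) (nat_lit 0) (nat_lit 36406537028) (nat_lit 1) (nat_lit 5) (nat_lit 3) (nat_lit 4) (nat_lit 1) (nat_lit 4) (nat_lit 554) (nat_lit 369) (nat_lit 277)) (XT.lf (nat_lit 0) (nat_lit 55088509813) (nat_lit 152) (nat_lit 686917173616) (nat_lit 0) (nat_lit 53284431723) (nat_lit 1) (nat_lit 5) (nat_lit 3) (nat_lit 4) (nat_lit 1) (nat_lit 4) (nat_lit 555) (nat_lit 369) (nat_lit 276)))))) (XT.nd (nat_lit 55458) (nat_lit 0) (nat_lit 2660) (XT.nd (nat_lit 55146) (nat_lit 0) (nat_lit 3420) (XT.nd (nat_lit 54990) (nat_lit 0) (nat_lit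 3876) (XT.nd (nat_lit 78) (nat_lit 0) (nat_lit 0) (XT.lf (nat_lit 0) (nat_lit 72795930832) (nat_lit 152) (nat_lit 690515548432) (nat_lit 0) (nat_lit 70990923555) (nat_lit 1) (nat_lit 5) (nat_lit 3) (nat_lit 4) (nat_lit 1) (nat_lit 4) (nat_lit 556) (nat_lit 369) (nat_lit 275)) (XT.lf (nat_lit 0) (nat_lit 91374063055) (nat_lit 152) (nat_lit 694323803979) (nat_lit 0) (nat_lit 89568170837) (nat_lit 1) (nat_lit 5) (nat_lit 3) (nat_lit 4) (nat_lit 1) (nat_lit 4) (nat_lit 557) (nat_lit 369) (nat_lit 274))) (XT.nd (nat_lit 78) (nat_lit 152) (nat_lit 0) (XT.lf (nat_lit 0) (nat_lit 5773188758) (nat_lit 76) (nat_lit 1645298319) (nat_lit 76) (nat_lit 1645298319) (nat_lit 54) (nat_lit 4) (nat_lit 55) (nat_lit 5) (nat_lit 55) (nat_lit 4) (nat_lit 460) (nat_lit 370) (nat_lit 370)) (XT.lf (nat_lit 0) (nat_lit 5159057227) (nat_lit 152) (nat_lit 8491300686) (nat_lit 0) (nat_lit 4950072025) (nat_lit 52) (nat_lit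 5) (nat_lit 54) (nat_lit 4) (nat_lit 52) (nat_lit 4) (nat_lit 461) (nat_lit 370) (nat_lit 369)))) (XT.nd (nat_lit 156) (nat_lit 228) (nat_lit 0) (XT.nd (nat_lit 78) (nat_lit 152) (nat_lit 0) (XT.lf (nat_lit 0) (nat_lit 8375952403) (nat_lit 76) (nat_lit 5562700481) (nat_lit 76) (nat_lit 5154681753) (nat_lit 51) (nat_lit 4) (nat_lit 52) (nat_lit 5) (nat_lit 52) (nat_lit 4) (nat_lit 462) (nat_lit 370) (nat_lit 368)) (XT.lf (nat_lit 0) (nat_lit 3445204535) (nat_lit 152) (nat_lit 13286209182) (nat_lit 0) (nat_lit 2876085996) (nat_lit 49) (nat_lit 5) (nat_lit 51) (nat_lit 4) (nat_lit 49) (nat_lit 4) (nat_lit 463) (nat_lit 370) (nat_lit 367))) (XT.nd (nat_lit 78) (nat_lit 152) (nat_lit 0) (XT.lf (nat_lit 0) (nat_lit 3835345060) (nat_lit 76) (nat_lit 8523015235) (nat_lit 76) (nat_lit 7781964053) (nat_lit 48) (nat_lit 4) (nat_lit 49) (nat_lit 5) (nat_lit 49) (nat_lit 4) (nat_lit 464) (nat_lit 370) (nat_lit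 366)) (XT.lf (nat_lit 0) (nat_lit 952524126) (nat_lit 152) (nat_lit 19657275206) (nat_lit 0) (nat_lit 90813120) (nat_lit 46) (nat_lit 5) (nat_lit 48) (nat_lit 4) (nat_lit 46) (nat_lit 4) (nat_lit 465) (nat_lit 370) (nat_lit 365))))) (XT.nd (nat_lit 312) (nat_lit 456) (nat_lit 0) (XT.nd (nat_lit 156) (nat_lit 228) (nat_lit 0) (XT.nd (nat_lit 78) (nat_lit 76) (nat_lit 0) (XT.lf (nat_lit 0) (nat_lit 10004332270) (nat_lit 152) (nat_lit 2277000146) (nat_lit 0) (nat_lit 8994099383) (nat_lit 46) (nat_lit 5) (nat_lit 48) (nat_lit 4) (nat_lit 46) (nat_lit 4) (nat_lit 466) (nat_lit 370) (nat_lit 364)) (XT.lf (nat_lit 0) (nat_lit 15954147710) (nat_lit 76) (nat_lit 3538662103) (nat_lit 76) (nat_lit 2386979806) (nat_lit 45) (nat_lit 4) (nat_lit 46) (nat_lit 5) (nat_lit 46) (nat_lit 4) (nat_lit 467) (nat_lit 370) (nat_lit 363))) (XT.nd (nat_lit 78) (nat_lit 76) (nat_lit 0) (XT.lf (nat_lit 0) (nat_lit 6777095517)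 (nat_lit 152) (nat_lit 10177000188) (nat_lit 0) (nat_lit 5551956449) (nat_lit 43) (nat_lit 5) (nat_lit 45) (nat_lit 4) (nat_lit 43) (nat_lit 4) (nat_lit 468) (nat_lit 370) (nat_lit 362)) (XT.lf (nat_lit 0) (nat_lit 8177103700) (nat_lit 76) (nat_lit 8165365784) (nat_lit 76) (nat_lit 6818037396) (nat_lit 42) (nat_lit 4) (nat_lit 43) (nat_lit 5) (nat_lit 43) (nat_lit 4) (nat_lit 469) (nat_lit 370) (nat_lit 361)))) (XT.nd (nat_lit 156) (nat_lit 304) (nat_lit 0) (XT.nd (nat_lit 78) (nat_lit 0) (nat_lit 0) (XT.lf (nat_lit 0) (nat_lit 2439752444) (nat_lit 152) (nat_lit 20361069691) (nat_lit 0) (nat_lit 1045753236) (nat_lit 40) (nat_lit 5) (nat_lit 42) (nat_lit 4) (nat_lit 40) (nat_lit 4) (nat_lit 470) (nat_lit 370) (nat_lit 360)) (XT.lf (nat_lit 0) (nat_lit 12059264397) (nat_lit 152) (nat_lit 1935983792) (nat_lit 0) (nat_lit 10559713461) (nat_lit 40) (nat_lit 5) (nat_lit 42) (nat_lit 4) (nat_lit 40) (nat_lit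 4) (nat_lit 471) (nat_lit 370) (nat_lit 359))) (XT.nd (nat_lit 78) (nat_lit 228) (nat_lit 0) (XT.lf (nat_lit 0) (nat_lit 17464584993) (nat_lit 76) (nat_lit 4716594156) (nat_lit 76) (nat_lit 3116517765) (nat_lit 39) (nat_lit 4) (nat_lit 40) (nat_lit 5) (nat_lit 40) (nat_lit 4) (nat_lit 472) (nat_lit 370) (nat_lit 358)) (XT.nd (nat_lit 78) (nat_lit 76) (nat_lit 0) (XT.lf (nat_lit 0) (nat_lit 6559050782) (nat_lit 152) (nat_lit 14567130972) (nat_lit 0) (nat_lit 4943988953) (nat_lit 37) (nat_lit 5) (nat_lit 39) (nat_lit 4) (nat_lit 37) (nat_lit 4) (nat_lit 473) (nat_lit 370) (nat_lit 357)) (XT.lf (nat_lit 0) (nat_lit 4718538908) (nat_lit 76) (nat_lit 11930161619) (nat_lit 76) (nat_lit 10228262123) (nat_lit 36) (nat_lit 4) (nat_lit 37) (nat_lit 5) (nat_lit 37) (nat_lit 4) (nat_lit 474) (nat_lit 370) (nat_lit 356))))))))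
noncomputable def xc72 : XT := (XT.nd (nat_lit 1248) (nat_lit 684) (nat_lit 0) (XT.nd (nat_lit 624) (nat_lit 532) (nat_lit 0) (XT.nd (nat_lit 312) (nat_lit 304) (nat_lit 0) (XT.nd (nat_lit 156) (nat_lit 152) (nat_lit 0) (XT.nd (nat_lit 78) (nat_lit 152) (nat_lit 0) (XT.lf (nat_lit 0) (nat_lit 24977169668) (nat_lit 76) (nat_lit 2265761251) (nat_lit 76) (nat_lit 481159213) (nat_lit 36) (nat_lit 4) (nat_lit 37) (nat_lit 5) (nat_lit 37) (nat_lit 4) (nat_lit 475) (nat_lit 370) (nat_lit 355)) (XT.lf (nat_lit 0) (nat_lit 9602902872) (nat_lit 152) (nat_lit 11166701304) (nat_lit 0) (nat_lit 7828268242) (nat_lit 34) (nat_lit 5) (nat_lit 36) (nat_lit 4) (nat_lit 34) (nat_lit 4) (nat_lit 476) (nat_lit 370) (nat_lit 354))) (XT.nd (nat_lit 78) (nat_lit 76) (nat_lit 0) (XT.lf (nat_lit 0) (nat_lit 8959965667) (nat_lit 76) (nat_lit 11200884050) (nat_lit 76) (nat_lit 9354807855) (nat_lit 33) (nat_lit 4) (nat_lit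 34) (nat_lit 5) (nat_lit 34) (nat_lit 4) (nat_lit 477) (nat_lit 370) (nat_lit 353)) (XT.lf (nat_lit 0) (nat_lit 696663798) (nat_lit 152) (nat_lit 485954994) (nat_lit 76) (nat_lit 29298421712) (nat_lit 32) (nat_lit 5) (nat_lit 34) (nat_lit 5) (nat_lit 33) (nat_lit 4) (nat_lit 478) (nat_lit 370) (nat_lit 352)))) (XT.nd (nat_lit 156) (nat_lit 152) (nat_lit 0) (XT.nd (nat_lit 78) (nat_lit 76) (nat_lit 0) (XT.lf (nat_lit 0) (nat_lit 11181453343) (nat_lit 152) (nat_lit 10996543613) (nat_lit 0) (nat_lit 9296772024) (nat_lit 31) (nat_lit 5) (nat_lit 33) (nat_lit 4) (nat_lit 31) (nat_lit 4) (nat_lit 479) (nat_lit 370) (nat_lit 351)) (XT.lf (nat_lit 0) (nat_lit 9825763344) (nat_lit 76) (nat_lit 12319079788) (nat_lit 76) (nat_lit 10375623317) (nat_lit 30) (nat_lit 4) (nat_lit 31) (nat_lit 5) (nat_lit 31) (nat_lit 4) (nat_lit 480) (nat_lit 370) (nat_lit 350))) (XT.nd (nat_lit 78) (nat_lit 152) (nat_lit 0)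 (XT.lf (nat_lit 0) (nat_lit 31619448696) (nat_lit 76) (nat_lit 2000137151) (nat_lit 76) (nat_lit 704346) (nat_lit 30) (nat_lit 4) (nat_lit 31) (nat_lit 5) (nat_lit 31) (nat_lit 4) (nat_lit 481) (nat_lit 370) (nat_lit 349)) (XT.lf (nat_lit 0) (nat_lit 10779127645) (nat_lit 152) (nat_lit 15151600287) (nat_lit 0) (nat_lit 8824133740) (nat_lit 28) (nat_lit 5) (nat_lit 30) (nat_lit 4) (nat_lit 28) (nat_lit 4) (nat_lit 482) (nat_lit 370) (nat_lit 348))))) (XT.nd (nat_lit 312) (nat_lit 304) (nat_lit 0) (XT.nd (nat_lit 156) (nat_lit 152) (nat_lit 0) (XT.nd (nat_lit 78) (nat_lit 0) (nat_lit 0) (XT.lf (nat_lit 0) (nat_lit 6138358184) (nat_lit 76) (nat_lit 15906892829) (nat_lit 76) (nat_lit 13903544460) (nat_lit 27) (nat_lit 4) (nat_lit 28) (nat_lit 5) (nat_lit 28) (nat_lit 4) (nat_lit 483) (nat_lit 370) (nat_lit 347)) (XT.lf (nat_lit 0) (nat_lit 28588579364) (nat_lit 76) (nat_lit 5330513352) (nat_lit 76)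 (nat_lit 3281113114) (nat_lit 27) (nat_lit 4) (nat_lit 28) (nat_lit 5) (nat_lit 28) (nat_lit 4) (nat_lit 484) (nat_lit 370) (nat_lit 346))) (XT.nd (nat_lit 78) (nat_lit 0) (nat_lit 0) (XT.lf (nat_lit 0) (nat_lit 7718832364) (nat_lit 152) (nat_lit 25059039025) (nat_lit 0) (nat_lit 5725252211) (nat_lit 25) (nat_lit 5) (nat_lit 27) (nat_lit 4) (nat_lit 25) (nat_lit 4) (nat_lit 485) (nat_lit 370) (nat_lit 345)) (XT.lf (nat_lit 0) (nat_lit 19188866987) (nat_lit 152) (nat_lit 3522607807) (nat_lit 0) (nat_lit 17155505498) (nat_lit 25) (nat_lit 5) (nat_lit 27) (nat_lit 4) (nat_lit 25) (nat_lit 4) (nat_lit 486) (nat_lit 370) (nat_lit 344)))) (XT.nd (nat_lit 156) (nat_lit 76) (nat_lit 0) (XT.nd (nat_lit 78) (nat_lit 152) (nat_lit 0) (XT.lf (nat_lit 0) (nat_lit 19311883968) (nat_lit 76) (nat_lit 12026546676) (nat_lit 76) (nat_lit 9955298199) (nat_lit 24) (nat_lit 4) (nat_lit 25) (nat_lit 5) (nat_lit 25) (nat_lit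 4) (nat_lit 487) (nat_lit 370) (nat_lit 343)) (XT.lf (nat_lit 0) (nat_lit 210033104) (nat_lit 76) (nat_lit 920388566) (nat_lit 152) (nat_lit 41666951358) (nat_lit 22) (nat_lit 5) (nat_lit 23) (nat_lit 5) (nat_lit 24) (nat_lit 4) (nat_lit 488) (nat_lit 370) (nat_lit 342))) (XT.nd (nat_lit 78) (nat_lit 76) (nat_lit 0) (XT.lf (nat_lit 0) (nat_lit 12786626251) (nat_lit 152) (nat_lit 20816959489) (nat_lit 0) (nat_lit 10746915837) (nat_lit 22) (nat_lit 5) (nat_lit 24) (nat_lit 4) (nat_lit 22) (nat_lit 4) (nat_lit 489) (nat_lit 370) (nat_lit 341)) (XT.lf (nat_lit 0) (nat_lit 1703236345) (nat_lit 76) (nat_lit 23178073608) (nat_lit 76) (nat_lit 21107193476) (nat_lit 21) (nat_lit 4) (nat_lit 22) (nat_lit 5) (nat_lit 22) (nat_lit 4) (nat_lit 490) (nat_lit 370) (nat_lit 340)))))) (XT.nd (nat_lit 624) (nat_lit 304) (nat_lit 0) (XT.nd (nat_lit 312) (nat_lit 228) (nat_lit 0) (XT.nd (nat_lit 156) (nat_lit 0) (nat_lit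 0) (XT.nd (nat_lit 78) (nat_lit 152) (nat_lit 0) (XT.lf (nat_lit 0) (nat_lit 25700129177) (nat_lit 76) (nat_lit 12050181470) (nat_lit 76) (nat_lit 9949615892) (nat_lit 21) (nat_lit 4) (nat_lit 22) (nat_lit 5) (nat_lit 22) (nat_lit 4) (nat_lit 491) (nat_lit 370) (nat_lit 339)) (XT.lf (nat_lit 0) (nat_lit 1045673089) (nat_lit 76) (nat_lit 502868627) (nat_lit 152) (nat_lit 47955039926) (nat_lit 19) (nat_lit 5) (nat_lit 20) (nat_lit 5) (nat_lit 21) (nat_lit 4) (nat_lit 492) (nat_lit 370) (nat_lit 338))) (XT.nd (nat_lit 78) (nat_lit 0) (nat_lit 0) (XT.lf (nat_lit 0) (nat_lit 13670350446) (nat_lit 152) (nat_lit 26082515293) (nat_lit 0) (nat_lit 11617242822) (nat_lit 19) (nat_lit 5) (nat_lit 21) (nat_lit 4) (nat_lit 19) (nat_lit 4) (nat_lit 493) (nat_lit 370) (nat_lit 337)) (XT.lf (nat_lit 0) (nat_lit 26237904330) (nat_lit 152) (nat_lit 2939700596) (nat_lit 0) (nat_lit 24160374416) (nat_lit 19) (nat_lit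 5) (nat_lit 21) (nat_lit 4) (nat_lit 19) (nat_lit 4) (nat_lit 494) (nat_lit 370) (nat_lit 336)))) (XT.nd (nat_lit 156) (nat_lit 152) (nat_lit 0) (XT.nd (nat_lit 78) (nat_lit 0) (nat_lit 0) (XT.lf (nat_lit 0) (nat_lit 21728950790) (nat_lit 76) (nat_lit 17883573953) (nat_lit 76) (nat_lit 15782784716) (nat_lit 18) (nat_lit 4) (nat_lit 19) (nat_lit 5) (nat_lit 19) (nat_lit 4) (nat_lit 495) (nat_lit 370) (nat_lit 335)) (XT.lf (nat_lit 0) (nat_lit 47411598764) (nat_lit 76) (nat_lit 6136127995) (nat_lit 76) (nat_lit 4013187021) (nat_lit 18) (nat_lit 4) (nat_lit 19) (nat_lit 5) (nat_lit 19) (nat_lit 4) (nat_lit 496) (nat_lit 370) (nat_lit 334))) (XT.nd (nat_lit 78) (nat_lit 0) (nat_lit 0) (XT.lf (nat_lit 0) (nat_lit 8252545457) (nat_lit 152) (nat_lit 45356396903) (nat_lit 0) (nat_lit 6210604633) (nat_lit 16) (nat_lit 5) (nat_lit 18) (nat_lit 4) (nat_lit 16) (nat_lit 4) (nat_lit 497) (nat_lit 370) (nat_lit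 333)) (XT.lf (nat_lit 0) (nat_lit 21119174678) (nat_lit 152) (nat_lit 22004425559) (nat_lit 0) (nat_lit 19058098351) (nat_lit 16) (nat_lit 5) (nat_lit 18) (nat_lit 4) (nat_lit 16) (nat_lit 4) (nat_lit 498) (nat_lit 370) (nat_lit 332))))) (XT.nd (nat_lit 312) (nat_lit 76) (nat_lit 0) (XT.nd (nat_lit 156) (nat_lit 152) (nat_lit 0) (XT.nd (nat_lit 78) (nat_lit 0) (nat_lit 0) (XT.lf (nat_lit 0) (nat_lit 2292019824) (nat_lit 76) (nat_lit 32227363181) (nat_lit 76) (nat_lit 30148062565) (nat_lit 15) (nat_lit 4) (nat_lit 16) (nat_lit 5) (nat_lit 16) (nat_lit 4) (nat_lit 499) (nat_lit 370) (nat_lit 331)) (XT.lf (nat_lit 0) (nat_lit 28275529963) (nat_lit 76) (nat_lit 20543566237) (nat_lit 76) (nat_lit 18446909156) (nat_lit 15) (nat_lit 4) (nat_lit 16) (nat_lit 5) (nat_lit 16) (nat_lit 4) (nat_lit 500) (nat_lit 370) (nat_lit 330))) (XT.nd (nat_lit 78) (nat_lit 152) (nat_lit 0) (XT.lf (nat_lit 0) (nat_lit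 55280404672) (nat_lit 76) (nat_lit 8417046437) (nat_lit 76) (nat_lit 6303859389) (nat_lit 15) (nat_lit 4) (nat_lit 16) (nat_lit 5) (nat_lit 16) (nat_lit 4) (nat_lit 501) (nat_lit 370) (nat_lit 329)) (XT.lf (nat_lit 0) (nat_lit 6345302309) (nat_lit 152) (nat_lit 62200032286) (nat_lit 0) (nat_lit 4317750049) (nat_lit 13) (nat_lit 5) (nat_lit 15) (nat_lit 4) (nat_lit 13) (nat_lit 4) (nat_lit 502) (nat_lit 370) (nat_lit 328)))) (XT.nd (nat_lit 156) (nat_lit 76) (nat_lit 0) (XT.nd (nat_lit 78) (nat_lit 0) (nat_lit 0) (XT.lf (nat_lit 0) (nat_lit 19674517033) (nat_lit 152) (nat_lit 38542605649) (nat_lit 0) (nat_lit 17632685566) (nat_lit 13) (nat_lit 5) (nat_lit 15) (nat_lit 4) (nat_lit 13) (nat_lit 4) (nat_lit 503) (nat_lit 370) (nat_lit 327)) (XT.lf (nat_lit 0) (nat_lit 33544543868) (nat_lit 152) (nat_lit 13958493580) (nat_lit 0) (nat_lit 31489113156) (nat_lit 13) (nat_lit 5) (nat_lit 15) (nat_lit 4)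 (nat_lit 13) (nat_lit 4) (nat_lit 504) (nat_lit 370) (nat_lit 326))) (XT.nd (nat_lit 78) (nat_lit 0) (nat_lit 0) (XT.lf (nat_lit 0) (nat_lit 11994744243) (nat_lit 76) (nat_lit 36180934015) (nat_lit 76) (nat_lit 34112551642) (nat_lit 12) (nat_lit 4) (nat_lit 13) (nat_lit 5) (nat_lit 13) (nat_lit 4) (nat_lit 505) (nat_lit 370) (nat_lit 325)) (XT.lf (nat_lit 0) (nat_lit 39490200034) (nat_lit 76) (nat_lit 24166848298) (nat_lit 76) (nat_lit 22086131009) (nat_lit 12) (nat_lit 4) (nat_lit 13) (nat_lit 5) (nat_lit 13) (nat_lit 4) (nat_lit 506) (nat_lit 370) (nat_lit 324)))))))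
noncomputable def xc73 : XT := (XT.nd (nat_lit 1248) (nat_lit 228) (nat_lit 0) (XT.nd (nat_lit 624) (nat_lit 228) (nat_lit 0) (XT.nd (nat_lit 312) (nat_lit 76) (nat_lit 0) (XT.nd (nat_lit 156) (nat_lit 0) (nat_lit 0) (XT.nd (nat_lit 78) (nat_lit 152) (nat_lit 0) (XT.lf (nat_lit 0) (nat_lit 68131808323) (nat_lit 76) (nat_lit 11668569174) (nat_lit 76) (nat_lit 9576104346) (nat_lit 12) (nat_lit 4) (nat_lit 13) (nat_lit 5) (nat_lit 13) (nat_lit 4) (nat_lit 507) (nat_lit 370) (nat_lit 323)) (XT.lf (nat_lit 0) (nat_lit 3436497437) (nat_lit 152) (nat_lit 88319605209) (nat_lit 0) (nat_lit 1433018427) (nat_lit 10) (nat_lit 5) (nat_lit 12) (nat_lit 4) (nat_lit 10) (nat_lit 4) (nat_lit 508) (nat_lit 370) (nat_lit 322))) (XT.nd (nat_lit 78) (nat_lit 0) (nat_lit 0) (XT.lf (nat_lit 0) (nat_lit 17226398069) (nat_lit 152) (nat_lit 64722949509) (nat_lit 0) (nat_lit 15212771093) (nat_lit 10) (nat_lit 5) (nat_lit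 12) (nat_lit 4) (nat_lit 10) (nat_lit 4) (nat_lit 509) (nat_lit 370) (nat_lit 321)) (XT.lf (nat_lit 0) (nat_lit 31602473385) (nat_lit 152) (nat_lit 40157277199) (nat_lit 0) (nat_lit 29579181681) (nat_lit 10) (nat_lit 5) (nat_lit 12) (nat_lit 4) (nat_lit 10) (nat_lit 4) (nat_lit 510) (nat_lit 370) (nat_lit 320)))) (XT.nd (nat_lit 156) (nat_lit 0) (nat_lit 0) (XT.nd (nat_lit 78) (nat_lit 76) (nat_lit 0) (XT.lf (nat_lit 0) (nat_lit 46598952137) (nat_lit 152) (nat_lit 14564098584) (nat_lit 0) (nat_lit 44566455928) (nat_lit 10) (nat_lit 5) (nat_lit 12) (nat_lit 4) (nat_lit 10) (nat_lit 4) (nat_lit 511) (nat_lit 370) (nat_lit 319)) (XT.lf (nat_lit 0) (nat_lit 12518182492) (nat_lit 76) (nat_lit 49928801644) (nat_lit 76) (nat_lit 47887539241) (nat_lit 9) (nat_lit 4) (nat_lit 10) (nat_lit 5) (nat_lit 10) (nat_lit 4) (nat_lit 512) (nat_lit 370) (nat_lit 318))) (XT.nd (nat_lit 78) (nat_lit 0) (nat_lit 0)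 (XT.lf (nat_lit 0) (nat_lit 41272077891) (nat_lit 76) (nat_lit 37969800629) (nat_lit 76) (nat_lit 35920189470) (nat_lit 9) (nat_lit 4) (nat_lit 10) (nat_lit 5) (nat_lit 10) (nat_lit 4) (nat_lit 513) (nat_lit 370) (nat_lit 317)) (XT.lf (nat_lit 0) (nat_lit 71284494393) (nat_lit 76) (nat_lit 25504223921) (nat_lit 76) (nat_lit 23446661565) (nat_lit 9) (nat_lit 4) (nat_lit 10) (nat_lit 5) (nat_lit 10) (nat_lit 4) (nat_lit 514) (nat_lit 370) (nat_lit 316))))) (XT.nd (nat_lit 312) (nat_lit 76) (nat_lit 0) (XT.nd (nat_lit 156) (nat_lit 0) (nat_lit 0) (XT.nd (nat_lit 78) (nat_lit 152) (nat_lit 0) (XT.lf (nat_lit 0) (nat_lit 102626890135) (nat_lit 76) (nat_lit 12502391575) (nat_lit 76) (nat_lit 10437256650) (nat_lit 9) (nat_lit 4) (nat_lit 10) (nat_lit 5) (nat_lit 10) (nat_lit 4) (nat_lit 515) (nat_lit 370) (nat_lit 315)) (XT.lf (nat_lit 0) (nat_lit 3124131020) (nat_lit 152) (nat_lit 126886907976) (nat_lit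 0) (nat_lit 1150467311) (nat_lit 7) (nat_lit 5) (nat_lit 9) (nat_lit 4) (nat_lit 7) (nat_lit 4) (nat_lit 516) (nat_lit 370) (nat_lit 314))) (XT.nd (nat_lit 78) (nat_lit 0) (nat_lit 0) (XT.lf (nat_lit 0) (nat_lit 17531728231) (nat_lit 152) (nat_lit 103918471289) (nat_lit 0) (nat_lit 15551523053) (nat_lit 7) (nat_lit 5) (nat_lit 9) (nat_lit 4) (nat_lit 7) (nat_lit 4) (nat_lit 517) (nat_lit 370) (nat_lit 313)) (XT.lf (nat_lit 0) (nat_lit 32582639000) (nat_lit 152) (nat_lit 79958960177) (nat_lit 0) (nat_lit 30596203851) (nat_lit 7) (nat_lit 5) (nat_lit 9) (nat_lit 4) (nat_lit 7) (nat_lit 4) (nat_lit 518) (nat_lit 370) (nat_lit 312)))) (XT.nd (nat_lit 156) (nat_lit 76) (nat_lit 0) (XT.nd (nat_lit 78) (nat_lit 0) (nat_lit 0) (XT.lf (nat_lit 0) (nat_lit 48312698831) (nat_lit 152) (nat_lit 54951328186) (nat_lit 0) (nat_lit 46320330376) (nat_lit 7) (nat_lit 5) (nat_lit 9) (nat_lit 4) (nat_lit 7) (nat_lit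 4) (nat_lit 519) (nat_lit 370) (nat_lit 311)) (XT.lf (nat_lit 0) (nat_lit 64759360245) (nat_lit 152) (nat_lit 28836033335) (nat_lit 0) (nat_lit 62761341024) (nat_lit 7) (nat_lit 5) (nat_lit 9) (nat_lit 4) (nat_lit 7) (nat_lit 4) (nat_lit 520) (nat_lit 370) (nat_lit 310))) (XT.nd (nat_lit 78) (nat_lit 76) (nat_lit 0) (XT.lf (nat_lit 0) (nat_lit 81961781962) (nat_lit 152) (nat_lit 1550896350) (nat_lit 0) (nat_lit 79958381057) (nat_lit 7) (nat_lit 5) (nat_lit 9) (nat_lit 4) (nat_lit 7) (nat_lit 4) (nat_lit 521) (nat_lit 370) (nat_lit 309)) (XT.lf (nat_lit 0) (nat_lit 27860765881) (nat_lit 76) (nat_lit 72535140881) (nat_lit 76) (nat_lit 70526614564) (nat_lit 6) (nat_lit 4) (nat_lit 7) (nat_lit 5) (nat_lit 7) (nat_lit 4) (nat_lit 522) (nat_lit 370) (nat_lit 308)))))) (XT.nd (nat_lit 624) (nat_lit 76) (nat_lit 0) (XT.nd (nat_lit 312) (nat_lit 152) (nat_lit 0) (XT.nd (nat_lit 156) (nat_lit 0) (nat_lit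 0) (XT.nd (nat_lit 78) (nat_lit 0) (nat_lit 0) (XT.lf (nat_lit 0) (nat_lit 58669492645) (nat_lit 76) (nat_lit 61046138392) (nat_lit 76) (nat_lit 59032730731) (nat_lit 6) (nat_lit 4) (nat_lit 7) (nat_lit 5) (nat_lit 7) (nat_lit 4) (nat_lit 523) (nat_lit 370) (nat_lit 307)) (XT.lf (nat_lit 0) (nat_lit 90897358416) (nat_lit 76) (nat_lit 49044581259) (nat_lit 76) (nat_lit 47026524698) (nat_lit 6) (nat_lit 4) (nat_lit 7) (nat_lit 5) (nat_lit 7) (nat_lit 4) (nat_lit 524) (nat_lit 370) (nat_lit 306))) (XT.nd (nat_lit 78) (nat_lit 0) (nat_lit 0) (XT.lf (nat_lit 0) (nat_lit 124621096206) (nat_lit 76) (nat_lit 36501894346) (nat_lit 76) (nat_lit 34479410261) (nat_lit 6) (nat_lit 4) (nat_lit 7) (nat_lit 5) (nat_lit 7) (nat_lit 4) (nat_lit 525) (nat_lit 370) (nat_lit 305)) (XT.lf (nat_lit 0) (nat_lit 159921000629) (nat_lit 76) (nat_lit 23388214113) (nat_lit 76) (nat_lit 21361513338) (nat_lit 6) (nat_lit 4)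 (nat_lit 7) (nat_lit 5) (nat_lit 7) (nat_lit 4) (nat_lit 526) (nat_lit 370) (nat_lit 304)))) (XT.nd (nat_lit 156) (nat_lit 0) (nat_lit 0) (XT.nd (nat_lit 78) (nat_lit 152) (nat_lit 0) (XT.lf (nat_lit 0) (nat_lit 196881119078) (nat_lit 76) (nat_lit 9672317511) (nat_lit 76) (nat_lit 7641600841) (nat_lit 6) (nat_lit 4) (nat_lit 7) (nat_lit 5) (nat_lit 7) (nat_lit 4) (nat_lit 527) (nat_lit 370) (nat_lit 303)) (XT.lf (nat_lit 0) (nat_lit 6757924735) (nat_lit 152) (nat_lit 212601584859) (nat_lit 0) (nat_lit 4820266325) (nat_lit 4) (nat_lit 5) (nat_lit 6) (nat_lit 4) (nat_lit 4) (nat_lit 4) (nat_lit 528) (nat_lit 370) (nat_lit 302))) (XT.nd (nat_lit 78) (nat_lit 0) (nat_lit 0) (XT.lf (nat_lit 0) (nat_lit 22027548453) (nat_lit 152) (nat_lit 192523171858) (nat_lit 0) (nat_lit 20086420961) (nat_lit 4) (nat_lit 5) (nat_lit 6) (nat_lit 4) (nat_lit 4) (nat_lit 4) (nat_lit 529) (nat_lit 370) (nat_lit 301)) (XT.lf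 (nat_lit 0) (nat_lit 38013358797) (nat_lit 152) (nat_lit 171537453439) (nat_lit 0) (nat_lit 36068927419) (nat_lit 4) (nat_lit 5) (nat_lit 6) (nat_lit 4) (nat_lit 4) (nat_lit 4) (nat_lit 530) (nat_lit 370) (nat_lit 300))))) (XT.nd (nat_lit 312) (nat_lit 76) (nat_lit 0) (XT.nd (nat_lit 156) (nat_lit 0) (nat_lit 0) (XT.nd (nat_lit 78) (nat_lit 0) (nat_lit 0) (XT.lf (nat_lit 0) (nat_lit 54753417220) (nat_lit 152) (nat_lit 149594463606) (nat_lit 0) (nat_lit 52805839284) (nat_lit 4) (nat_lit 5) (nat_lit 6) (nat_lit 4) (nat_lit 4) (nat_lit 4) (nat_lit 531) (nat_lit 370) (nat_lit 299)) (XT.lf (nat_lit 0) (nat_lit 72287581006) (nat_lit 152) (nat_lit 126641957144) (nat_lit 0) (nat_lit 70337006347) (nat_lit 4) (nat_lit 5) (nat_lit 6) (nat_lit 4) (nat_lit 4) (nat_lit 4) (nat_lit 532) (nat_lit 370) (nat_lit 298))) (XT.nd (nat_lit 78) (nat_lit 0) (nat_lit 0) (XT.lf (nat_lit 0) (nat_lit 90657598162) (nat_lit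 152) (nat_lit 102625285231) (nat_lit 0) (nat_lit 88704169482) (nat_lit 4) (nat_lit 5) (nat_lit 6) (nat_lit 4) (nat_lit 4) (nat_lit 4) (nat_lit 533) (nat_lit 370) (nat_lit 297)) (XT.lf (nat_lit 0) (nat_lit 109907206825) (nat_lit 152) (nat_lit 77487265312) (nat_lit 0) (nat_lit 107951060030) (nat_lit 4) (nat_lit 5) (nat_lit 6) (nat_lit 4) (nat_lit 4) (nat_lit 4) (nat_lit 534) (nat_lit 370) (nat_lit 296)))) (XT.nd (nat_lit 156) (nat_lit 76) (nat_lit 0) (XT.nd (nat_lit 78) (nat_lit 0) (nat_lit 0) (XT.lf (nat_lit 0) (nat_lit 130082239397) (nat_lit 152) (nat_lit 51168044959) (nat_lit 0) (nat_lit 128123503920) (nat_lit 4) (nat_lit 5) (nat_lit 6) (nat_lit 4) (nat_lit 4) (nat_lit 4) (nat_lit 535) (nat_lit 370) (nat_lit 295)) (XT.lf (nat_lit 0) (nat_lit 151230731668) (nat_lit 152) (nat_lit 23604959363) (nat_lit 0) (nat_lit 149269530780) (nat_lit 4) (nat_lit 5) (nat_lit 6) (nat_lit 4) (nat_lit 4) (nat_lit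 4) (nat_lit 536) (nat_lit 370) (nat_lit 294))) (XT.nd (nat_lit 78) (nat_lit 0) (nat_lit 0) (XT.lf (nat_lit 0) (nat_lit 5441789107) (nat_lit 76) (nat_lit 168046209665) (nat_lit 76) (nat_lit 166082660767) (nat_lit 3) (nat_lit 4) (nat_lit 4) (nat_lit 5) (nat_lit 4) (nat_lit 4) (nat_lit 537) (nat_lit 370) (nat_lit 293)) (XT.nd (nat_lit 78) (nat_lit 0) (nat_lit 0) (XT.lf (nat_lit 0) (nat_lit 36692830708) (nat_lit 76) (nat_lit 160531994385) (nat_lit 76) (nat_lit 158566209287) (nat_lit 3) (nat_lit 4) (nat_lit 4) (nat_lit 5) (nat_lit 4) (nat_lit 4) (nat_lit 538) (nat_lit 370) (nat_lit 292)) (XT.lf (nat_lit 0) (nat_lit 69442086124) (nat_lit 76) (nat_lit 152674915613) (nat_lit 76) (nat_lit 150707000800) (nat_lit 3) (nat_lit 4) (nat_lit 4) (nat_lit 5) (nat_lit 4) (nat_lit 4) (nat_lit 539) (nat_lit 370) (nat_lit 291))))))))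
noncomputable def xc74 : XT := (XT.nd (nat_lit 1248) (nat_lit 0) (nat_lit 0) (XT.nd (nat_lit 624) (nat_lit 152) (nat_lit 0) (XT.nd (nat_lit 312) (nat_lit 0) (nat_lit 0) (XT.nd (nat_lit 156) (nat_lit 0) (nat_lit 0) (XT.nd (nat_lit 78) (nat_lit 0) (nat_lit 0) (XT.lf (nat_lit 0) (nat_lit 103767529771) (nat_lit 76) (nat_lit 144456266018) (nat_lit 76) (nat_lit 142486322905) (nat_lit 3) (nat_lit 4) (nat_lit 4) (nat_lit 5) (nat_lit 4) (nat_lit 4) (nat_lit 540) (nat_lit 370) (nat_lit 290)) (XT.lf (nat_lit 0) (nat_lit 139750888895) (nat_lit 76) (nat_lit 135856477386) (nat_lit 76) (nat_lit 133884602559) (nat_lit 3) (nat_lit 4) (nat_lit 4) (nat_lit 5) (nat_lit 4) (nat_lit 4) (nat_lit 541) (nat_lit 370) (nat_lit 289))) (XT.nd (nat_lit 78) (nat_lit 0) (nat_lit 0) (XT.lf (nat_lit 0) (nat_lit 177477838163) (nat_lit 76) (nat_lit 126855074030) (nat_lit 76) (nat_lit 124881359475) (nat_lit 3) (nat_lit 4) (nat_lit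 4) (nat_lit 5) (nat_lit 4) (nat_lit 4) (nat_lit 542) (nat_lit 370) (nat_lit 288)) (XT.lf (nat_lit 0) (nat_lit 217038203643) (nat_lit 76) (nat_lit 117430624038) (nat_lit 76) (nat_lit 115455157361) (nat_lit 3) (nat_lit 4) (nat_lit 4) (nat_lit 5) (nat_lit 4) (nat_lit 4) (nat_lit 543) (nat_lit 370) (nat_lit 287)))) (XT.nd (nat_lit 156) (nat_lit 0) (nat_lit 0) (XT.nd (nat_lit 78) (nat_lit 0) (nat_lit 0) (XT.lf (nat_lit 0) (nat_lit 258526176681) (nat_lit 76) (nat_lit 107560688242) (nat_lit 76) (nat_lit 105583552879) (nat_lit 3) (nat_lit 4) (nat_lit 4) (nat_lit 5) (nat_lit 4) (nat_lit 4) (nat_lit 544) (nat_lit 370) (nat_lit 286)) (XT.lf (nat_lit 0) (nat_lit 302040538167) (nat_lit 76) (nat_lit 97221766797) (nat_lit 76) (nat_lit 95243042207) (nat_lit 3) (nat_lit 4) (nat_lit 4) (nat_lit 5) (nat_lit 4) (nat_lit 4) (nat_lit 545) (nat_lit 370) (nat_lit 285))) (XT.nd (nat_lit 78) (nat_lit 0) (nat_lit 0) (XT.lf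 (nat_lit 0) (nat_lit 347684893722) (nat_lit 76) (nat_lit 86389243221) (nat_lit 76) (nat_lit 84409005083) (nat_lit 3) (nat_lit 4) (nat_lit 4) (nat_lit 5) (nat_lit 4) (nat_lit 4) (nat_lit 546) (nat_lit 370) (nat_lit 284)) (XT.lf (nat_lit 0) (nat_lit 395567920383) (nat_lit 76) (nat_lit 75037325793) (nat_lit 76) (nat_lit 73055646180) (nat_lit 3) (nat_lit 4) (nat_lit 4) (nat_lit 5) (nat_lit 4) (nat_lit 4) (nat_lit 547) (nat_lit 370) (nat_lit 283))))) (XT.nd (nat_lit 312) (nat_lit 152) (nat_lit 0) (XT.nd (nat_lit 156) (nat_lit 0) (nat_lit 0) (XT.nd (nat_lit 78) (nat_lit 0) (nat_lit 0) (XT.lf (nat_lit 0) (nat_lit 445803625358) (nat_lit 76) (nat_lit 63138986137) (nat_lit 76) (nat_lit 61155933691) (nat_lit 3) (nat_lit 4) (nat_lit 4) (nat_lit 5) (nat_lit 4) (nat_lit 4) (nat_lit 548) (nat_lit 370) (nat_lit 282)) (XT.lf (nat_lit 0) (nat_lit 498511617466) (nat_lit 76) (nat_lit 50665894873) (nat_lit 76) (nat_lit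 48681534967) (nat_lit 3) (nat_lit 4) (nat_lit 4) (nat_lit 5) (nat_lit 4) (nat_lit 4) (nat_lit 549) (nat_lit 370) (nat_lit 281))) (XT.nd (nat_lit 78) (nat_lit 0) (nat_lit 0) (XT.lf (nat_lit 0) (nat_lit 553817391928) (nat_lit 76) (nat_lit 37588354166) (nat_lit 76) (nat_lit 35602749060) (nat_lit 3) (nat_lit 4) (nat_lit 4) (nat_lit 5) (nat_lit 4) (nat_lit 4) (nat_lit 550) (nat_lit 370) (nat_lit 280)) (XT.lf (nat_lit 0) (nat_lit 611852629160) (nat_lit 76) (nat_lit 23875227012) (nat_lit 76) (nat_lit 21888436002) (nat_lit 3) (nat_lit 4) (nat_lit 4) (nat_lit 5) (nat_lit 4) (nat_lit 4) (nat_lit 551) (nat_lit 370) (nat_lit 279)))) (XT.nd (nat_lit 156) (nat_lit 0) (nat_lit 0) (XT.nd (nat_lit 78) (nat_lit 152) (nat_lit 0) (XT.lf (nat_lit 0) (nat_lit 672755508296) (nat_lit 76) (nat_lit 9493863110) (nat_lit 76) (nat_lit 7505942667) (nat_lit 3) (nat_lit 4) (nat_lit 4) (nat_lit 5) (nat_lit 4) (nat_lit 4) (nat_lit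 552) (nat_lit 370) (nat_lit 278)) (XT.lf (nat_lit 0) (nat_lit 7639560171) (nat_lit 152) (nat_lit 710096169549) (nat_lit 0) (nat_lit 5745278176) (nat_lit 1) (nat_lit 5) (nat_lit 3) (nat_lit 4) (nat_lit 1) (nat_lit 4) (nat_lit 553) (nat_lit 370) (nat_lit 277))) (XT.nd (nat_lit 78) (nat_lit 0) (nat_lit 0) (XT.lf (nat_lit 0) (nat_lit 23722183484) (nat_lit 152) (nat_lit 713316119968) (nat_lit 0) (nat_lit 21826925843) (nat_lit 1) (nat_lit 5) (nat_lit 3) (nat_lit 4) (nat_lit 1) (nat_lit 4) (nat_lit 554) (nat_lit 370) (nat_lit 276)) (XT.lf (nat_lit 0) (nat_lit 40593545124) (nat_lit 152) (nat_lit 716728527998) (nat_lit 0) (nat_lit 38697358295) (nat_lit 1) (nat_lit 5) (nat_lit 3) (nat_lit 4) (nat_lit 1) (nat_lit 4) (nat_lit 555) (nat_lit 370) (nat_lit 275)))))) (XT.nd (nat_lit 55380) (nat_lit 0) (nat_lit 2736) (XT.nd (nat_lit 55068) (nat_lit 0) (nat_lit 3572) (XT.nd (nat_lit 54912) (nat_lit 0) (nat_lit 4028)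 (XT.nd (nat_lit 54834) (nat_lit 0) (nat_lit 4256) (XT.lf (nat_lit 0) (nat_lit 58293814998) (nat_lit 152) (nat_lit 720341518419) (nat_lit 0) (nat_lit 56396743229) (nat_lit 1) (nat_lit 5) (nat_lit 3) (nat_lit 4) (nat_lit 1) (nat_lit 4) (nat_lit 556) (nat_lit 370) (nat_lit 274)) (XT.lf (nat_lit 0) (nat_lit 6916930162) (nat_lit 76) (nat_lit 848792561) (nat_lit 76) (nat_lit 848792561) (nat_lit 57) (nat_lit 4) (nat_lit 58) (nat_lit 5) (nat_lit 58) (nat_lit 4) (nat_lit 458) (nat_lit 371) (nat_lit 371))) (XT.nd (nat_lit 78) (nat_lit 76) (nat_lit 0) (XT.lf (nat_lit 0) (nat_lit 6445122083) (nat_lit 152) (nat_lit 5011340791) (nat_lit 0) (nat_lit 6214715898) (nat_lit 55) (nat_lit 5) (nat_lit 57) (nat_lit 4) (nat_lit 55) (nat_lit 4) (nat_lit 459) (nat_lit 371) (nat_lit 370)) (XT.lf (nat_lit 0) (nat_lit 11281236723) (nat_lit 76) (nat_lit 3651455122) (nat_lit 76) (nat_lit 3201614475) (nat_lit 54) (nat_lit 4)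 (nat_lit 55) (nat_lit 5) (nat_lit 55) (nat_lit 4) (nat_lit 460) (nat_lit 371) (nat_lit 369)))) (XT.nd (nat_lit 156) (nat_lit 228) (nat_lit 0) (XT.nd (nat_lit 78) (nat_lit 76) (nat_lit 0) (XT.lf (nat_lit 0) (nat_lit 5098537278) (nat_lit 152) (nat_lit 9044808337) (nat_lit 0) (nat_lit 4471084089) (nat_lit 52) (nat_lit 5) (nat_lit 54) (nat_lit 4) (nat_lit 52) (nat_lit 4) (nat_lit 461) (nat_lit 371) (nat_lit 368)) (XT.lf (nat_lit 0) (nat_lit 7538494455) (nat_lit 76) (nat_lit 6196503293) (nat_lit 76) (nat_lit 5379494365) (nat_lit 51) (nat_lit 4) (nat_lit 52) (nat_lit 5) (nat_lit 52) (nat_lit 4) (nat_lit 462) (nat_lit 371) (nat_lit 367))) (XT.nd (nat_lit 78) (nat_lit 76) (nat_lit 0) (XT.lf (nat_lit 0) (nat_lit 3067496444) (nat_lit 152) (nat_lit 14451881591) (nat_lit 0) (nat_lit 2117460060) (nat_lit 49) (nat_lit 5) (nat_lit 51) (nat_lit 4) (nat_lit 49) (nat_lit 4) (nat_lit 463) (nat_lit 371) (nat_lit 366))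 (XT.lf (nat_lit 0) (nat_lit 2365042558) (nat_lit 76) (nat_lit 9463016211) (nat_lit 76) (nat_lit 8349234453) (nat_lit 48) (nat_lit 4) (nat_lit 49) (nat_lit 5) (nat_lit 49) (nat_lit 4) (nat_lit 464) (nat_lit 371) (nat_lit 365))))) (XT.nd (nat_lit 312) (nat_lit 456) (nat_lit 0) (XT.nd (nat_lit 156) (nat_lit 228) (nat_lit 0) (XT.nd (nat_lit 78) (nat_lit 76) (nat_lit 0) (XT.lf (nat_lit 0) (nat_lit 256120928) (nat_lit 152) (nat_lit 744681829) (nat_lit 76) (nat_lit 19744586597) (nat_lit 47) (nat_lit 5) (nat_lit 49) (nat_lit 5) (nat_lit 48) (nat_lit 4) (nat_lit 465) (nat_lit 371) (nat_lit 364)) (XT.lf (nat_lit 0) (nat_lit 9150822684) (nat_lit 152) (nat_lit 4377135185) (nat_lit 0) (nat_lit 7800106861) (nat_lit 46) (nat_lit 5) (nat_lit 48) (nat_lit 4) (nat_lit 46) (nat_lit 4) (nat_lit 466) (nat_lit 371) (nat_lit 363))) (XT.nd (nat_lit 78) (nat_lit 152) (nat_lit 0) (XT.lf (nat_lit 0) (nat_lit 13530794811)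 (nat_lit 76) (nat_lit 4947552797) (nat_lit 76) (nat_lit 3462123249) (nat_lit 45) (nat_lit 4) (nat_lit 46) (nat_lit 5) (nat_lit 46) (nat_lit 4) (nat_lit 467) (nat_lit 371) (nat_lit 362)) (XT.lf (nat_lit 0) (nat_lit 5544686695) (nat_lit 152) (nat_lit 13024667875) (nat_lit 0) (nat_lit 4007802569) (nat_lit 43) (nat_lit 5) (nat_lit 45) (nat_lit 4) (nat_lit 43) (nat_lit 4) (nat_lit 468) (nat_lit 371) (nat_lit 361)))) (XT.nd (nat_lit 156) (nat_lit 304) (nat_lit 0) (XT.nd (nat_lit 78) (nat_lit 76) (nat_lit 0) (XT.lf (nat_lit 0) (nat_lit 4981189455) (nat_lit 76) (nat_lit 9956156809) (nat_lit 76) (nat_lit 8302901903) (nat_lit 42) (nat_lit 4) (nat_lit 43) (nat_lit 5) (nat_lit 43) (nat_lit 4) (nat_lit 469) (nat_lit 371) (nat_lit 360)) (XT.lf (nat_lit 0) (nat_lit 808123945) (nat_lit 152) (nat_lit 107430133) (nat_lit 76) (nat_lit 23021636702) (nat_lit 41) (nat_lit 5) (nat_lit 43) (nat_lit 5) (nat_lit 42) (nat_lit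 4) (nat_lit 470) (nat_lit 371) (nat_lit 359))) (XT.nd (nat_lit 78) (nat_lit 228) (nat_lit 0) (XT.lf (nat_lit 0) (nat_lit 10289022376) (nat_lit 152) (nat_lit 5855069152) (nat_lit 0) (nat_lit 8508416710) (nat_lit 40) (nat_lit 5) (nat_lit 42) (nat_lit 4) (nat_lit 40) (nat_lit 4) (nat_lit 471) (nat_lit 371) (nat_lit 358)) (XT.nd (nat_lit 78) (nat_lit 152) (nat_lit 0) (XT.lf (nat_lit 0) (nat_lit 13173670087) (nat_lit 76) (nat_lit 7053551924) (nat_lit 76) (nat_lit 5177207729) (nat_lit 39) (nat_lit 4) (nat_lit 40) (nat_lit 5) (nat_lit 40) (nat_lit 4) (nat_lit 472) (nat_lit 371) (nat_lit 357)) (XT.lf (nat_lit 0) (nat_lit 4333402631) (nat_lit 152) (nat_lit 19397085159) (nat_lit 0) (nat_lit 2459570492) (nat_lit 37) (nat_lit 5) (nat_lit 39) (nat_lit 4) (nat_lit 37) (nat_lit 4) (nat_lit 473) (nat_lit 371) (nat_lit 356))))))))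
noncomputable def xc75 : XT := (XT.nd (nat_lit 1248) (nat_lit 760) (nat_lit 0) (XT.nd (nat_lit 624) (nat_lit 608) (nat_lit 0) (XT.nd (nat_lit 312) (nat_lit 228) (nat_lit 0) (XT.nd (nat_lit 156) (nat_lit 228) (nat_lit 0) (XT.nd (nat_lit 78) (nat_lit 76) (nat_lit 0) (XT.lf (nat_lit 0) (nat_lit 14232874105) (nat_lit 152) (nat_lit 497146024) (nat_lit 0) (nat_lit 12276339424) (nat_lit 37) (nat_lit 5) (nat_lit 39) (nat_lit 4) (nat_lit 37) (nat_lit 4) (nat_lit 474) (nat_lit 371) (nat_lit 355)) (XT.lf (nat_lit 0) (nat_lit 19514124422) (nat_lit 76) (nat_lit 5190395618) (nat_lit 76) (nat_lit 3155096613) (nat_lit 36) (nat_lit 4) (nat_lit 37) (nat_lit 5) (nat_lit 37) (nat_lit 4) (nat_lit 475) (nat_lit 371) (nat_lit 354))) (XT.nd (nat_lit 78) (nat_lit 76) (nat_lit 0) (XT.lf (nat_lit 0) (nat_lit 6760782126) (nat_lit 152) (nat_lit 17236432299) (nat_lit 0) (nat_lit 4750960557) (nat_lit 34) (nat_lit 5) (nat_lit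 36) (nat_lit 4) (nat_lit 34) (nat_lit 4) (nat_lit 476) (nat_lit 371) (nat_lit 353)) (XT.lf (nat_lit 0) (nat_lit 2458437176) (nat_lit 76) (nat_lit 14647999534) (nat_lit 76) (nat_lit 12570138380) (nat_lit 33) (nat_lit 4) (nat_lit 34) (nat_lit 5) (nat_lit 34) (nat_lit 4) (nat_lit 477) (nat_lit 371) (nat_lit 352)))) (XT.nd (nat_lit 156) (nat_lit 76) (nat_lit 0) (XT.nd (nat_lit 78) (nat_lit 152) (nat_lit 0) (XT.lf (nat_lit 0) (nat_lit 23285255570) (nat_lit 76) (nat_lit 4752686332) (nat_lit 76) (nat_lit 2610025574) (nat_lit 33) (nat_lit 4) (nat_lit 34) (nat_lit 5) (nat_lit 34) (nat_lit 4) (nat_lit 478) (nat_lit 371) (nat_lit 351)) (XT.lf (nat_lit 0) (nat_lit 7679194986) (nat_lit 152) (nat_lit 18398703518) (nat_lit 0) (nat_lit 5579790540) (nat_lit 31) (nat_lit 5) (nat_lit 33) (nat_lit 4) (nat_lit 31) (nat_lit 4) (nat_lit 479) (nat_lit 371) (nat_lit 350))) (XT.nd (nat_lit 78) (nat_lit 0) (nat_lit 0) (XT.lf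 (nat_lit 0) (nat_lit 1958604791) (nat_lit 76) (nat_lit 16455786235) (nat_lit 76) (nat_lit 14300405454) (nat_lit 30) (nat_lit 4) (nat_lit 31) (nat_lit 5) (nat_lit 31) (nat_lit 4) (nat_lit 480) (nat_lit 371) (nat_lit 349)) (XT.lf (nat_lit 0) (nat_lit 23542528415) (nat_lit 76) (nat_lit 6242982400) (nat_lit 76) (nat_lit 4034290823) (nat_lit 30) (nat_lit 4) (nat_lit 31) (nat_lit 5) (nat_lit 31) (nat_lit 4) (nat_lit 481) (nat_lit 371) (nat_lit 348))))) (XT.nd (nat_lit 312) (nat_lit 228) (nat_lit 0) (XT.nd (nat_lit 156) (nat_lit 228) (nat_lit 0) (XT.nd (nat_lit 78) (nat_lit 0) (nat_lit 0) (XT.lf (nat_lit 0) (nat_lit 6567478541) (nat_lit 152) (nat_lit 23989793436) (nat_lit 0) (nat_lit 4415608291) (nat_lit 28) (nat_lit 5) (nat_lit 30) (nat_lit 4) (nat_lit 28) (nat_lit 4) (nat_lit 482) (nat_lit 371) (nat_lit 347)) (XT.lf (nat_lit 0) (nat_lit 17637535725) (nat_lit 152) (nat_lit 3099468278) (nat_lit 0) (nat_lit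 15439613606) (nat_lit 28) (nat_lit 5) (nat_lit 30) (nat_lit 4) (nat_lit 28) (nat_lit 4) (nat_lit 483) (nat_lit 371) (nat_lit 346))) (XT.nd (nat_lit 78) (nat_lit 152) (nat_lit 0) (XT.lf (nat_lit 0) (nat_lit 19048379858) (nat_lit 76) (nat_lit 10314428901) (nat_lit 76) (nat_lit 8072647859) (nat_lit 27) (nat_lit 4) (nat_lit 28) (nat_lit 5) (nat_lit 28) (nat_lit 4) (nat_lit 484) (nat_lit 371) (nat_lit 345)) (XT.lf (nat_lit 0) (nat_lit 2742463851) (nat_lit 152) (nat_lit 35448907892) (nat_lit 0) (nat_lit 567652951) (nat_lit 25) (nat_lit 5) (nat_lit 27) (nat_lit 4) (nat_lit 25) (nat_lit 4) (nat_lit 485) (nat_lit 371) (nat_lit 344)))) (XT.nd (nat_lit 156) (nat_lit 152) (nat_lit 0) (XT.nd (nat_lit 78) (nat_lit 76) (nat_lit 0) (XT.lf (nat_lit 0) (nat_lit 14117139778) (nat_lit 152) (nat_lit 14106067842) (nat_lit 0) (nat_lit 11904441891) (nat_lit 25) (nat_lit 5) (nat_lit 27) (nat_lit 4) (nat_lit 25) (nat_lit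 4) (nat_lit 486) (nat_lit 371) (nat_lit 343)) (XT.lf (nat_lit 0) (nat_lit 8188018218) (nat_lit 76) (nat_lit 17814192691) (nat_lit 76) (nat_lit 15565411959) (nat_lit 24) (nat_lit 4) (nat_lit 25) (nat_lit 5) (nat_lit 25) (nat_lit 4) (nat_lit 487) (nat_lit 371) (nat_lit 342))) (XT.nd (nat_lit 78) (nat_lit 152) (nat_lit 0) (XT.lf (nat_lit 0) (nat_lit 31714671886) (nat_lit 76) (nat_lit 6822639948) (nat_lit 76) (nat_lit 4539494602) (nat_lit 24) (nat_lit 4) (nat_lit 25) (nat_lit 5) (nat_lit 25) (nat_lit 4) (nat_lit 488) (nat_lit 371) (nat_lit 341)) (XT.lf (nat_lit 0) (nat_lit 6892849536) (nat_lit 152) (nat_lit 33071831270) (nat_lit 0) (nat_lit 4687255679) (nat_lit 22) (nat_lit 5) (nat_lit 24) (nat_lit 4) (nat_lit 22) (nat_lit 4) (nat_lit 489) (nat_lit 371) (nat_lit 340)))))) (XT.nd (nat_lit 624) (nat_lit 380) (nat_lit 0) (XT.nd (nat_lit 312) (nat_lit 152) (nat_lit 0) (XT.nd (nat_lit 156) (nat_lit 152)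 (nat_lit 0) (XT.nd (nat_lit 78) (nat_lit 76) (nat_lit 0) (XT.lf (nat_lit 0) (nat_lit 18874524343) (nat_lit 152) (nat_lit 10781819547) (nat_lit 0) (nat_lit 16639245041) (nat_lit 22) (nat_lit 5) (nat_lit 24) (nat_lit 4) (nat_lit 22) (nat_lit 4) (nat_lit 490) (nat_lit 371) (nat_lit 339)) (XT.lf (nat_lit 0) (nat_lit 12685741113) (nat_lit 76) (nat_lit 18798883620) (nat_lit 76) (nat_lit 16535332465) (nat_lit 21) (nat_lit 4) (nat_lit 22) (nat_lit 5) (nat_lit 22) (nat_lit 4) (nat_lit 491) (nat_lit 371) (nat_lit 338))) (XT.nd (nat_lit 78) (nat_lit 152) (nat_lit 0) (XT.lf (nat_lit 0) (nat_lit 37363557494) (nat_lit 76) (nat_lit 7378315620) (nat_lit 76) (nat_lit 5087838891) (nat_lit 21) (nat_lit 4) (nat_lit 22) (nat_lit 5) (nat_lit 22) (nat_lit 4) (nat_lit 492) (nat_lit 371) (nat_lit 337)) (XT.lf (nat_lit 0) (nat_lit 6802865720) (nat_lit 152) (nat_lit 40320005414) (nat_lit 0) (nat_lit 4597037021) (nat_lit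 19) (nat_lit 5) (nat_lit 21) (nat_lit 4) (nat_lit 19) (nat_lit 4) (nat_lit 493) (nat_lit 371) (nat_lit 336)))) (XT.nd (nat_lit 156) (nat_lit 76) (nat_lit 0) (XT.nd (nat_lit 78) (nat_lit 76) (nat_lit 0) (XT.lf (nat_lit 0) (nat_lit 19292097174) (nat_lit 152) (nat_lit 17336588849) (nat_lit 0) (nat_lit 17063009152) (nat_lit 19) (nat_lit 5) (nat_lit 21) (nat_lit 4) (nat_lit 19) (nat_lit 4) (nat_lit 494) (nat_lit 371) (nat_lit 335)) (XT.lf (nat_lit 0) (nat_lit 6699209199) (nat_lit 76) (nat_lit 25658259211) (nat_lit 76) (nat_lit 23407019452) (nat_lit 18) (nat_lit 4) (nat_lit 19) (nat_lit 5) (nat_lit 19) (nat_lit 4) (nat_lit 495) (nat_lit 371) (nat_lit 334))) (XT.nd (nat_lit 78) (nat_lit 76) (nat_lit 0) (XT.lf (nat_lit 0) (nat_lit 32232497941) (nat_lit 76) (nat_lit 13986799816) (nat_lit 76) (nat_lit 11714463166) (nat_lit 18) (nat_lit 4) (nat_lit 19) (nat_lit 5) (nat_lit 19) (nat_lit 4) (nat_lit 496) (nat_lit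 371) (nat_lit 333)) (XT.lf (nat_lit 0) (nat_lit 399110365) (nat_lit 152) (nat_lit 1474252678) (nat_lit 76) (nat_lit 58344975506) (nat_lit 17) (nat_lit 5) (nat_lit 19) (nat_lit 5) (nat_lit 18) (nat_lit 4) (nat_lit 497) (nat_lit 371) (nat_lit 332))))) (XT.nd (nat_lit 312) (nat_lit 228) (nat_lit 0) (XT.nd (nat_lit 156) (nat_lit 76) (nat_lit 0) (XT.nd (nat_lit 78) (nat_lit 0) (nat_lit 0) (XT.lf (nat_lit 0) (nat_lit 13141329303) (nat_lit 152) (nat_lit 38505542081) (nat_lit 0) (nat_lit 10939839368) (nat_lit 16) (nat_lit 5) (nat_lit 18) (nat_lit 4) (nat_lit 16) (nat_lit 4) (nat_lit 498) (nat_lit 371) (nat_lit 331)) (XT.lf (nat_lit 0) (nat_lit 26438139672) (nat_lit 152) (nat_lit 14420194773) (nat_lit 0) (nat_lit 24219293272) (nat_lit 16) (nat_lit 5) (nat_lit 18) (nat_lit 4) (nat_lit 16) (nat_lit 4) (nat_lit 499) (nat_lit 371) (nat_lit 330))) (XT.nd (nat_lit 78) (nat_lit 0) (nat_lit 0) (XT.lf (nat_lit 0)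 (nat_lit 10951001072) (nat_lit 76) (nat_lit 29487758766) (nat_lit 76) (nat_lit 27252382399) (nat_lit 15) (nat_lit 4) (nat_lit 16) (nat_lit 5) (nat_lit 16) (nat_lit 4) (nat_lit 500) (nat_lit 371) (nat_lit 329)) (XT.lf (nat_lit 0) (nat_lit 37826811467) (nat_lit 76) (nat_lit 17426961145) (nat_lit 76) (nat_lit 15175841953) (nat_lit 15) (nat_lit 4) (nat_lit 16) (nat_lit 5) (nat_lit 16) (nat_lit 4) (nat_lit 501) (nat_lit 371) (nat_lit 328)))) (XT.nd (nat_lit 156) (nat_lit 76) (nat_lit 0) (XT.nd (nat_lit 78) (nat_lit 152) (nat_lit 0) (XT.lf (nat_lit 0) (nat_lit 65794429673) (nat_lit 76) (nat_lit 4891438375) (nat_lit 76) (nat_lit 2625326015) (nat_lit 15) (nat_lit 4) (nat_lit 16) (nat_lit 5) (nat_lit 16) (nat_lit 4) (nat_lit 502) (nat_lit 371) (nat_lit 327)) (XT.lf (nat_lit 0) (nat_lit 10527028817) (nat_lit 152) (nat_lit 57430755365) (nat_lit 0) (nat_lit 8355227325) (nat_lit 13) (nat_lit 5) (nat_lit 15)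 (nat_lit 4) (nat_lit 13) (nat_lit 4) (nat_lit 503) (nat_lit 371) (nat_lit 326))) (XT.nd (nat_lit 78) (nat_lit 76) (nat_lit 0) (XT.lf (nat_lit 0) (nat_lit 24338682306) (nat_lit 152) (nat_lit 32965661137) (nat_lit 0) (nat_lit 22153929152) (nat_lit 13) (nat_lit 5) (nat_lit 15) (nat_lit 4) (nat_lit 13) (nat_lit 4) (nat_lit 504) (nat_lit 371) (nat_lit 325)) (XT.nd (nat_lit 78) (nat_lit 76) (nat_lit 0) (XT.lf (nat_lit 0) (nat_lit 38726951462) (nat_lit 152) (nat_lit 7509680360) (nat_lit 0) (nat_lit 36529863393) (nat_lit 13) (nat_lit 5) (nat_lit 15) (nat_lit 4) (nat_lit 13) (nat_lit 4) (nat_lit 505) (nat_lit 371) (nat_lit 324)) (XT.lf (nat_lit 0) (nat_lit 19625949390) (nat_lit 76) (nat_lit 34406560751) (nat_lit 76) (nat_lit 32197725143) (nat_lit 12) (nat_lit 4) (nat_lit 13) (nat_lit 5) (nat_lit 13) (nat_lit 4) (nat_lit 506) (nat_lit 371) (nat_lit 323))))))))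
noncomputable def xc76 : XT := (XT.nd (nat_lit 1248) (nat_lit 228) (nat_lit 0) (XT.nd (nat_lit 624) (nat_lit 228) (nat_lit 0) (XT.nd (nat_lit 312) (nat_lit 76) (nat_lit 0) (XT.nd (nat_lit 156) (nat_lit 152) (nat_lit 0) (XT.nd (nat_lit 78) (nat_lit 0) (nat_lit 0) (XT.lf (nat_lit 0) (nat_lit 48161346163) (nat_lit 76) (nat_lit 21962409794) (nat_lit 76) (nat_lit 19742386053) (nat_lit 12) (nat_lit 4) (nat_lit 13) (nat_lit 5) (nat_lit 13) (nat_lit 4) (nat_lit 507) (nat_lit 371) (nat_lit 322)) (XT.lf (nat_lit 0) (nat_lit 77916147432) (nat_lit 76) (nat_lit 9001730091) (nat_lit 76) (nat_lit 6771050986) (nat_lit 12) (nat_lit 4) (nat_lit 13) (nat_lit 5) (nat_lit 13) (nat_lit 4) (nat_lit 508) (nat_lit 371) (nat_lit 321))) (XT.nd (nat_lit 78) (nat_lit 0) (nat_lit 0) (XT.lf (nat_lit 0) (nat_lit 6786052977) (nat_lit 152) (nat_lit 86251702603) (nat_lit 0) (nat_lit 4651931958) (nat_lit 10) (nat_lit 5) (nat_lit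 12) (nat_lit 4) (nat_lit 10) (nat_lit 4) (nat_lit 509) (nat_lit 371) (nat_lit 320)) (XT.lf (nat_lit 0) (nat_lit 21114128132) (nat_lit 152) (nat_lit 61783970445) (nat_lit 0) (nat_lit 18970802609) (nat_lit 10) (nat_lit 5) (nat_lit 12) (nat_lit 4) (nat_lit 10) (nat_lit 4) (nat_lit 510) (nat_lit 371) (nat_lit 319)))) (XT.nd (nat_lit 156) (nat_lit 76) (nat_lit 0) (XT.nd (nat_lit 78) (nat_lit 0) (nat_lit 0) (XT.lf (nat_lit 0) (nat_lit 36064892445) (nat_lit 152) (nat_lit 36284068164) (nat_lit 0) (nat_lit 33912800727) (nat_lit 10) (nat_lit 5) (nat_lit 12) (nat_lit 4) (nat_lit 10) (nat_lit 4) (nat_lit 511) (nat_lit 371) (nat_lit 318)) (XT.lf (nat_lit 0) (nat_lit 51673942973) (nat_lit 152) (nat_lit 9691281709) (nat_lit 0) (nat_lit 49513502499) (nat_lit 10) (nat_lit 5) (nat_lit 12) (nat_lit 4) (nat_lit 10) (nat_lit 4) (nat_lit 512) (nat_lit 371) (nat_lit 317))) (XT.nd (nat_lit 78) (nat_lit 0) (nat_lit 0)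 (XT.lf (nat_lit 0) (nat_lit 18654774360) (nat_lit 76) (nat_lit 49614923069) (nat_lit 76) (nat_lit 47446531399) (nat_lit 9) (nat_lit 4) (nat_lit 10) (nat_lit 5) (nat_lit 10) (nat_lit 4) (nat_lit 513) (nat_lit 371) (nat_lit 316)) (XT.lf (nat_lit 0) (nat_lit 48583951065) (nat_lit 76) (nat_lit 37191796702) (nat_lit 76) (nat_lit 35015832462) (nat_lit 9) (nat_lit 4) (nat_lit 10) (nat_lit 5) (nat_lit 10) (nat_lit 4) (nat_lit 514) (nat_lit 371) (nat_lit 315))))) (XT.nd (nat_lit 312) (nat_lit 76) (nat_lit 0) (XT.nd (nat_lit 156) (nat_lit 152) (nat_lit 0) (XT.nd (nat_lit 78) (nat_lit 0) (nat_lit 0) (XT.lf (nat_lit 0) (nat_lit 79847070808) (nat_lit 76) (nat_lit 24230393251) (nat_lit 76) (nat_lit 22047217042) (nat_lit 9) (nat_lit 4) (nat_lit 10) (nat_lit 5) (nat_lit 10) (nat_lit 4) (nat_lit 515) (nat_lit 371) (nat_lit 314)) (XT.lf (nat_lit 0) (nat_lit 112518569589) (nat_lit 76) (nat_lit 10699852234) (nat_lit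 76) (nat_lit 8509807482) (nat_lit 9) (nat_lit 4) (nat_lit 10) (nat_lit 5) (nat_lit 10) (nat_lit 4) (nat_lit 516) (nat_lit 371) (nat_lit 313))) (XT.nd (nat_lit 78) (nat_lit 0) (nat_lit 0) (XT.lf (nat_lit 0) (nat_lit 5650596260) (nat_lit 152) (nat_lit 128391861077) (nat_lit 0) (nat_lit 3558609383) (nat_lit 7) (nat_lit 5) (nat_lit 9) (nat_lit 4) (nat_lit 7) (nat_lit 4) (nat_lit 517) (nat_lit 371) (nat_lit 312)) (XT.lf (nat_lit 0) (nat_lit 20665703869) (nat_lit 152) (nat_lit 104505449808) (nat_lit 0) (nat_lit 18567783687) (nat_lit 7) (nat_lit 5) (nat_lit 9) (nat_lit 4) (nat_lit 7) (nat_lit 4) (nat_lit 518) (nat_lit 371) (nat_lit 311)))) (XT.nd (nat_lit 156) (nat_lit 76) (nat_lit 0) (XT.nd (nat_lit 78) (nat_lit 0) (nat_lit 0) (XT.lf (nat_lit 0) (nat_lit 36361665452) (nat_lit 152) (nat_lit 79567436714) (nat_lit 0) (nat_lit 34258094503) (nat_lit 7) (nat_lit 5) (nat_lit 9) (nat_lit 4) (nat_lit 7) (nat_lit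 4) (nat_lit 519) (nat_lit 371) (nat_lit 310)) (XT.lf (nat_lit 0) (nat_lit 52775852345) (nat_lit 152) (nat_lit 53518445574) (nat_lit 0) (nat_lit 50666899713) (nat_lit 7) (nat_lit 5) (nat_lit 9) (nat_lit 4) (nat_lit 7) (nat_lit 4) (nat_lit 520) (nat_lit 371) (nat_lit 309))) (XT.nd (nat_lit 78) (nat_lit 76) (nat_lit 0) (XT.lf (nat_lit 0) (nat_lit 69947345946) (nat_lit 152) (nat_lit 26296454982) (nat_lit 0) (nat_lit 67833267901) (nat_lit 7) (nat_lit 5) (nat_lit 9) (nat_lit 4) (nat_lit 7) (nat_lit 4) (nat_lit 521) (nat_lit 371) (nat_lit 308)) (XT.lf (nat_lit 0) (nat_lit 2234879425) (nat_lit 76) (nat_lit 85717044069) (nat_lit 76) (nat_lit 83598084679) (nat_lit 6) (nat_lit 4) (nat_lit 7) (nat_lit 5) (nat_lit 7) (nat_lit 4) (nat_lit 522) (nat_lit 371) (nat_lit 307)))))) (XT.nd (nat_lit 624) (nat_lit 76) (nat_lit 0) (XT.nd (nat_lit 312) (nat_lit 152) (nat_lit 0) (XT.nd (nat_lit 156) (nat_lit 0) (nat_lit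 0) (XT.nd (nat_lit 78) (nat_lit 0) (nat_lit 0) (XT.lf (nat_lit 0) (nat_lit 32984436759) (nat_lit 76) (nat_lit 74258234497) (nat_lit 76) (nat_lit 72134626208) (nat_lit 6) (nat_lit 4) (nat_lit 7) (nat_lit 5) (nat_lit 7) (nat_lit 4) (nat_lit 523) (nat_lit 371) (nat_lit 306)) (XT.lf (nat_lit 0) (nat_lit 65155950691) (nat_lit 76) (nat_lit 62285432524) (nat_lit 76) (nat_lit 60157396710) (nat_lit 6) (nat_lit 4) (nat_lit 7) (nat_lit 5) (nat_lit 7) (nat_lit 4) (nat_lit 524) (nat_lit 371) (nat_lit 305))) (XT.nd (nat_lit 78) (nat_lit 0) (nat_lit 0) (XT.lf (nat_lit 0) (nat_lit 98826020064) (nat_lit 76) (nat_lit 49770131477) (nat_lit 76) (nat_lit 47637878974) (nat_lit 6) (nat_lit 4) (nat_lit 7) (nat_lit 5) (nat_lit 7) (nat_lit 4) (nat_lit 525) (nat_lit 371) (nat_lit 304)) (XT.lf (nat_lit 0) (nat_lit 134074811709) (nat_lit 76) (nat_lit 36682533020) (nat_lit 76) (nat_lit 34546264623) (nat_lit 6) (nat_lit 4) (nat_lit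 7) (nat_lit 5) (nat_lit 7) (nat_lit 4) (nat_lit 526) (nat_lit 371) (nat_lit 303)))) (XT.nd (nat_lit 156) (nat_lit 152) (nat_lit 0) (XT.nd (nat_lit 78) (nat_lit 0) (nat_lit 0) (XT.lf (nat_lit 0) (nat_lit 170986251320) (nat_lit 76) (nat_lit 22991476206) (nat_lit 76) (nat_lit 20851383147) (nat_lit 6) (nat_lit 4) (nat_lit 7) (nat_lit 5) (nat_lit 7) (nat_lit 4) (nat_lit 527) (nat_lit 371) (nat_lit 302)) (XT.lf (nat_lit 0) (nat_lit 209648223279) (nat_lit 76) (nat_lit 8664363279) (nat_lit 76) (nat_lit 6520627685) (nat_lit 6) (nat_lit 4) (nat_lit 7) (nat_lit 5) (nat_lit 7) (nat_lit 4) (nat_lit 528) (nat_lit 371) (nat_lit 301))) (XT.nd (nat_lit 78) (nat_lit 0) (nat_lit 0) (XT.lf (nat_lit 0) (nat_lit 8550417052) (nat_lit 152) (nat_lit 220260156595) (nat_lit 0) (nat_lit 6505460219) (nat_lit 4) (nat_lit 5) (nat_lit 6) (nat_lit 4) (nat_lit 4) (nat_lit 4) (nat_lit 529) (nat_lit 371) (nat_lit 300)) (XT.lf (nat_lit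 0) (nat_lit 24514255475) (nat_lit 152) (nat_lit 199319323301) (nat_lit 0) (nat_lit 22466152084) (nat_lit 4) (nat_lit 5) (nat_lit 6) (nat_lit 4) (nat_lit 4) (nat_lit 4) (nat_lit 530) (nat_lit 371) (nat_lit 299))))) (XT.nd (nat_lit 312) (nat_lit 76) (nat_lit 0) (XT.nd (nat_lit 156) (nat_lit 0) (nat_lit 0) (XT.nd (nat_lit 78) (nat_lit 0) (nat_lit 0) (XT.lf (nat_lit 0) (nat_lit 41233388260) (nat_lit 152) (nat_lit 177419081206) (nat_lit 0) (nat_lit 39182288146) (nat_lit 4) (nat_lit 5) (nat_lit 6) (nat_lit 4) (nat_lit 4) (nat_lit 4) (nat_lit 531) (nat_lit 371) (nat_lit 298)) (XT.lf (nat_lit 0) (nat_lit 58747622866) (nat_lit 152) (nat_lit 154507286877) (nat_lit 0) (nat_lit 56693668731) (nat_lit 4) (nat_lit 5) (nat_lit 6) (nat_lit 4) (nat_lit 4) (nat_lit 4) (nat_lit 532) (nat_lit 371) (nat_lit 297))) (XT.nd (nat_lit 78) (nat_lit 0) (nat_lit 0) (XT.lf (nat_lit 0) (nat_lit 77098659851) (nat_lit 152) (nat_lit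 130529388422) (nat_lit 0) (nat_lit 75041987600) (nat_lit 4) (nat_lit 5) (nat_lit 6) (nat_lit 4) (nat_lit 4) (nat_lit 4) (nat_lit 533) (nat_lit 371) (nat_lit 296)) (XT.lf (nat_lit 0) (nat_lit 96330192161) (nat_lit 152) (nat_lit 105428295607) (nat_lit 0) (nat_lit 94270931228) (nat_lit 4) (nat_lit 5) (nat_lit 6) (nat_lit 4) (nat_lit 4) (nat_lit 4) (nat_lit 534) (nat_lit 371) (nat_lit 295)))) (XT.nd (nat_lit 156) (nat_lit 76) (nat_lit 0) (XT.nd (nat_lit 78) (nat_lit 0) (nat_lit 0) (XT.lf (nat_lit 0) (nat_lit 116488009157) (nat_lit 152) (nat_lit 79144243924) (nat_lit 0) (nat_lit 114426282814) (nat_lit 4) (nat_lit 5) (nat_lit 6) (nat_lit 4) (nat_lit 4) (nat_lit 4) (nat_lit 535) (nat_lit 371) (nat_lit 294)) (XT.lf (nat_lit 0) (nat_lit 137620105644) (nat_lit 152) (nat_lit 51614652299) (nat_lit 0) (nat_lit 135556031290) (nat_lit 4) (nat_lit 5) (nat_lit 6) (nat_lit 4) (nat_lit 4) (nat_lit 4) (nat_lit 536)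 (nat_lit 371) (nat_lit 293))) (XT.nd (nat_lit 78) (nat_lit 76) (nat_lit 0) (XT.lf (nat_lit 0) (nat_lit 159776796135) (nat_lit 152) (nat_lit 22773974086) (nat_lit 0) (nat_lit 157710485581) (nat_lit 4) (nat_lit 5) (nat_lit 6) (nat_lit 4) (nat_lit 4) (nat_lit 4) (nat_lit 537) (nat_lit 371) (nat_lit 292)) (XT.nd (nat_lit 78) (nat_lit 0) (nat_lit 0) (XT.lf (nat_lit 0) (nat_lit 7692672561) (nat_lit 76) (nat_lit 175438266271) (nat_lit 76) (nat_lit 173369826003) (nat_lit 3) (nat_lit 4) (nat_lit 4) (nat_lit 5) (nat_lit 4) (nat_lit 4) (nat_lit 538) (nat_lit 371) (nat_lit 291)) (XT.lf (nat_lit 0) (nat_lit 40412037958) (nat_lit 76) (nat_lit 167596447556) (nat_lit 76) (nat_lit 165525978987) (nat_lit 3) (nat_lit 4) (nat_lit 4) (nat_lit 5) (nat_lit 4) (nat_lit 4) (nat_lit 539) (nat_lit 371) (nat_lit 290))))))))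
noncomputable def xc77 : XT := (XT.nd (nat_lit 1248) (nat_lit 0) (nat_lit 0) (XT.nd (nat_lit 624) (nat_lit 152) (nat_lit 0) (XT.nd (nat_lit 312) (nat_lit 0) (nat_lit 0) (XT.nd (nat_lit 156) (nat_lit 0) (nat_lit 0) (XT.nd (nat_lit 78) (nat_lit 0) (nat_lit 0) (XT.lf (nat_lit 0) (nat_lit 74709014919) (nat_lit 76) (nat_lit 159392331347) (nat_lit 76) (nat_lit 157319931064) (nat_lit 3) (nat_lit 4) (nat_lit 4) (nat_lit 5) (nat_lit 4) (nat_lit 4) (nat_lit 540) (nat_lit 371) (nat_lit 289)) (XT.lf (nat_lit 0) (nat_lit 110665262916) (nat_lit 76) (nat_lit 150806384036) (nat_lit 76) (nat_lit 148732144026) (nat_lit 3) (nat_lit 4) (nat_lit 4) (nat_lit 5) (nat_lit 4) (nat_lit 4) (nat_lit 541) (nat_lit 371) (nat_lit 288))) (XT.nd (nat_lit 78) (nat_lit 0) (nat_lit 0) (XT.lf (nat_lit 0) (nat_lit 148366392061) (nat_lit 76) (nat_lit 141818162890) (nat_lit 76) (nat_lit 139742170759) (nat_lit 3) (nat_lit 4) (nat_lit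 4) (nat_lit 5) (nat_lit 4) (nat_lit 4) (nat_lit 542) (nat_lit 371) (nat_lit 287)) (XT.lf (nat_lit 0) (nat_lit 187902166948) (nat_lit 76) (nat_lit 132406267384) (nat_lit 76) (nat_lit 130328606565) (nat_lit 3) (nat_lit 4) (nat_lit 4) (nat_lit 5) (nat_lit 4) (nat_lit 4) (nat_lit 543) (nat_lit 371) (nat_lit 286)))) (XT.nd (nat_lit 156) (nat_lit 0) (nat_lit 0) (XT.nd (nat_lit 78) (nat_lit 0) (nat_lit 0) (XT.lf (nat_lit 0) (nat_lit 229366720374) (nat_lit 76) (nat_lit 122548288242) (nat_lit 76) (nat_lit 120469038198) (nat_lit 3) (nat_lit 4) (nat_lit 4) (nat_lit 5) (nat_lit 4) (nat_lit 4) (nat_lit 544) (nat_lit 371) (nat_lit 285)) (XT.lf (nat_lit 0) (nat_lit 272858777467) (nat_lit 76) (nat_lit 112220754086) (nat_lit 76) (nat_lit 110139990492) (nat_lit 3) (nat_lit 4) (nat_lit 4) (nat_lit 5) (nat_lit 4) (nat_lit 4) (nat_lit 545) (nat_lit 371) (nat_lit 284))) (XT.nd (nat_lit 78) (nat_lit 0) (nat_lit 0) (XT.lf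 (nat_lit 0) (nat_lit 318481890743) (nat_lit 76) (nat_lit 101399075547) (nat_lit 76) (nat_lit 99316870479) (nat_lit 3) (nat_lit 4) (nat_lit 4) (nat_lit 5) (nat_lit 4) (nat_lit 4) (nat_lit 546) (nat_lit 371) (nat_lit 283)) (XT.lf (nat_lit 0) (nat_lit 366344686663) (nat_lit 76) (nat_lit 90057486725) (nat_lit 76) (nat_lit 87973908824) (nat_lit 3) (nat_lit 4) (nat_lit 4) (nat_lit 5) (nat_lit 4) (nat_lit 4) (nat_lit 547) (nat_lit 371) (nat_lit 282))))) (XT.nd (nat_lit 312) (nat_lit 152) (nat_lit 0) (XT.nd (nat_lit 156) (nat_lit 0) (nat_lit 0) (XT.nd (nat_lit 78) (nat_lit 0) (nat_lit 0) (XT.lf (nat_lit 0) (nat_lit 416561124265) (nat_lit 76) (nat_lit 78168983838) (nat_lit 76) (nat_lit 76084098477) (nat_lit 3) (nat_lit 4) (nat_lit 4) (nat_lit 5) (nat_lit 4) (nat_lit 4) (nat_lit 548) (nat_lit 371) (nat_lit 281)) (XT.lf (nat_lit 0) (nat_lit 469250766494) (nat_lit 76) (nat_lit 65705260925) (nat_lit 76) (nat_lit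 63619130364) (nat_lit 3) (nat_lit 4) (nat_lit 4) (nat_lit 5) (nat_lit 4) (nat_lit 4) (nat_lit 549) (nat_lit 371) (nat_lit 280))) (XT.nd (nat_lit 78) (nat_lit 0) (nat_lit 0) (XT.lf (nat_lit 0) (nat_lit 524539064881) (nat_lit 76) (nat_lit 52636642456) (nat_lit 76) (nat_lit 50549325990) (nat_lit 3) (nat_lit 4) (nat_lit 4) (nat_lit 5) (nat_lit 4) (nat_lit 4) (nat_lit 550) (nat_lit 371) (nat_lit 279)) (XT.lf (nat_lit 0) (nat_lit 582557658231) (nat_lit 76) (nat_lit 38932012673) (nat_lit 76) (nat_lit 36843566774) (nat_lit 3) (nat_lit 4) (nat_lit 4) (nat_lit 5) (nat_lit 4) (nat_lit 4) (nat_lit 551) (nat_lit 371) (nat_lit 278)))) (XT.nd (nat_lit 156) (nat_lit 152) (nat_lit 0) (XT.nd (nat_lit 78) (nat_lit 0) (nat_lit 0) (XT.lf (nat_lit 0) (nat_lit 643444686052) (nat_lit 76) (nat_lit 24558741505) (nat_lit 76) (nat_lit 22469219956) (nat_lit 3) (nat_lit 4) (nat_lit 4) (nat_lit 5) (nat_lit 4) (nat_lit 4) (nat_lit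 552) (nat_lit 371) (nat_lit 277)) (XT.lf (nat_lit 0) (nat_lit 707345117458) (nat_lit 76) (nat_lit 9482606878) (nat_lit 76) (nat_lit 7392060899) (nat_lit 3) (nat_lit 4) (nat_lit 4) (nat_lit 5) (nat_lit 4) (nat_lit 4) (nat_lit 553) (nat_lit 371) (nat_lit 276))) (XT.nd (nat_lit 78) (nat_lit 0) (nat_lit 0) (XT.lf (nat_lit 0) (nat_lit 8494961858) (nat_lit 152) (nat_lit 744633388454) (nat_lit 0) (nat_lit 6503036500) (nat_lit 1) (nat_lit 5) (nat_lit 3) (nat_lit 4) (nat_lit 1) (nat_lit 4) (nat_lit 554) (nat_lit 371) (nat_lit 275)) (XT.lf (nat_lit 0) (nat_lit 25359172352) (nat_lit 152) (nat_lit 748060412089) (nat_lit 0) (nat_lit 23366362054) (nat_lit 1) (nat_lit 5) (nat_lit 3) (nat_lit 4) (nat_lit 1) (nat_lit 4) (nat_lit 555) (nat_lit 371) (nat_lit 274)))))) (XT.nd (nat_lit 55224) (nat_lit 0) (nat_lit 2964) (XT.nd (nat_lit 54912) (nat_lit 0) (nat_lit 3800) (XT.nd (nat_lit 54756) (nat_lit 0) (nat_lit 4256)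 (XT.nd (nat_lit 54678) (nat_lit 0) (nat_lit 4484) (XT.lf (nat_lit 0) (nat_lit 43052631612) (nat_lit 152) (nat_lit 751687322133) (nat_lit 0) (nat_lit 41058978514) (nat_lit 1) (nat_lit 5) (nat_lit 3) (nat_lit 4) (nat_lit 1) (nat_lit 4) (nat_lit 556) (nat_lit 371) (nat_lit 273)) (XT.lf (nat_lit 0) (nat_lit 7820505528) (nat_lit 76) (nat_lit 186199568) (nat_lit 76) (nat_lit 186199568) (nat_lit 60) (nat_lit 4) (nat_lit 61) (nat_lit 5) (nat_lit 61) (nat_lit 4) (nat_lit 456) (nat_lit 372) (nat_lit 372))) (XT.nd (nat_lit 78) (nat_lit 76) (nat_lit 0) (XT.lf (nat_lit 0) (nat_lit 7464960208) (nat_lit 152) (nat_lit 2123919052) (nat_lit 0) (nat_lit 7210937389) (nat_lit 58) (nat_lit 5) (nat_lit 60) (nat_lit 4) (nat_lit 58) (nat_lit 4) (nat_lit 457) (nat_lit 372) (nat_lit 371)) (XT.lf (nat_lit 0) (nat_lit 13581905399) (nat_lit 76) (nat_lit 2074757971) (nat_lit 76) (nat_lit 1578808658) (nat_lit 57) (nat_lit 4)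 (nat_lit 58) (nat_lit 5) (nat_lit 58) (nat_lit 4) (nat_lit 458) (nat_lit 372) (nat_lit 370)))) (XT.nd (nat_lit 156) (nat_lit 228) (nat_lit 0) (XT.nd (nat_lit 78) (nat_lit 76) (nat_lit 0) (XT.lf (nat_lit 0) (nat_lit 6419423323) (nat_lit 152) (nat_lit 5537482786) (nat_lit 0) (nat_lit 5727656182) (nat_lit 55) (nat_lit 5) (nat_lit 57) (nat_lit 4) (nat_lit 55) (nat_lit 4) (nat_lit 459) (nat_lit 372) (nat_lit 369)) (XT.lf (nat_lit 0) (nat_lit 10485183057) (nat_lit 76) (nat_lit 4285049109) (nat_lit 76) (nat_lit 3384296766) (nat_lit 54) (nat_lit 4) (nat_lit 55) (nat_lit 5) (nat_lit 55) (nat_lit 4) (nat_lit 460) (nat_lit 372) (nat_lit 368))) (XT.nd (nat_lit 78) (nat_lit 76) (nat_lit 0) (XT.lf (nat_lit 0) (nat_lit 4768368084) (nat_lit 152) (nat_lit 10153141516) (nat_lit 0) (nat_lit 3720952970) (nat_lit 52) (nat_lit 5) (nat_lit 54) (nat_lit 4) (nat_lit 52) (nat_lit 4) (nat_lit 461) (nat_lit 372) (nat_lit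 367)) (XT.lf (nat_lit 0) (nat_lit 6140515887) (nat_lit 76) (nat_lit 7118619522) (nat_lit 76) (nat_lit 5890675134) (nat_lit 51) (nat_lit 4) (nat_lit 52) (nat_lit 5) (nat_lit 52) (nat_lit 4) (nat_lit 462) (nat_lit 372) (nat_lit 366))))) (XT.nd (nat_lit 312) (nat_lit 456) (nat_lit 0) (XT.nd (nat_lit 156) (nat_lit 152) (nat_lit 0) (XT.nd (nat_lit 78) (nat_lit 76) (nat_lit 0) (XT.lf (nat_lit 0) (nat_lit 2405145270) (nat_lit 152) (nat_lit 16203858642) (nat_lit 0) (nat_lit 1071929050) (nat_lit 49) (nat_lit 5) (nat_lit 51) (nat_lit 4) (nat_lit 49) (nat_lit 4) (nat_lit 463) (nat_lit 372) (nat_lit 365)) (XT.lf (nat_lit 0) (nat_lit 301720378) (nat_lit 76) (nat_lit 10708308317) (nat_lit 76) (nat_lit 9219144122) (nat_lit 48) (nat_lit 4) (nat_lit 49) (nat_lit 5) (nat_lit 49) (nat_lit 4) (nat_lit 464) (nat_lit 372) (nat_lit 364))) (XT.nd (nat_lit 78) (nat_lit 152) (nat_lit 0) (XT.lf (nat_lit 0) (nat_lit 17700373491)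 (nat_lit 76) (nat_lit 2370428252) (nat_lit 76) (nat_lit 732742176) (nat_lit 48) (nat_lit 4) (nat_lit 49) (nat_lit 5) (nat_lit 49) (nat_lit 4) (nat_lit 465) (nat_lit 372) (nat_lit 363)) (XT.lf (nat_lit 0) (nat_lit 8002247176) (nat_lit 152) (nat_lit 7085870614) (nat_lit 0) (nat_lit 6307832426) (nat_lit 46) (nat_lit 5) (nat_lit 48) (nat_lit 4) (nat_lit 46) (nat_lit 4) (nat_lit 466) (nat_lit 372) (nat_lit 362)))) (XT.nd (nat_lit 156) (nat_lit 228) (nat_lit 0) (XT.nd (nat_lit 78) (nat_lit 152) (nat_lit 0) (XT.lf (nat_lit 0) (nat_lit 10490803108) (nat_lit 76) (nat_lit 6674251640) (nat_lit 76) (nat_lit 4851538105) (nat_lit 45) (nat_lit 4) (nat_lit 46) (nat_lit 5) (nat_lit 46) (nat_lit 4) (nat_lit 467) (nat_lit 372) (nat_lit 361)) (XT.lf (nat_lit 0) (nat_lit 3998882134) (nat_lit 152) (nat_lit 16518931499) (nat_lit 0) (nat_lit 2146593701) (nat_lit 43) (nat_lit 5) (nat_lit 45) (nat_lit 4) (nat_lit 43) (nat_lit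 4) (nat_lit 468) (nat_lit 372) (nat_lit 360))) (XT.nd (nat_lit 78) (nat_lit 152) (nat_lit 0) (XT.lf (nat_lit 0) (nat_lit 1129399405) (nat_lit 76) (nat_lit 12085036280) (nat_lit 76) (nat_lit 10121918533) (nat_lit 42) (nat_lit 4) (nat_lit 43) (nat_lit 5) (nat_lit 43) (nat_lit 4) (nat_lit 469) (nat_lit 372) (nat_lit 359)) (XT.nd (nat_lit 78) (nat_lit 152) (nat_lit 0) (XT.lf (nat_lit 0) (nat_lit 19761189626) (nat_lit 76) (nat_lit 3173589389) (nat_lit 76) (nat_lit 1104919914) (nat_lit 42) (nat_lit 4) (nat_lit 43) (nat_lit 5) (nat_lit 43) (nat_lit 4) (nat_lit 470) (nat_lit 372) (nat_lit 358)) (XT.lf (nat_lit 0) (nat_lit 8190988337) (nat_lit 152) (nat_lit 10450820397) (nat_lit 0) (nat_lit 6125088403) (nat_lit 40) (nat_lit 5) (nat_lit 42) (nat_lit 4) (nat_lit 40) (nat_lit 4) (nat_lit 471) (nat_lit 372) (nat_lit 357))))))))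
noncomputable def xc78 : XT := (XT.nd (nat_lit 1248) (nat_lit 912) (nat_lit 0) (XT.nd (nat_lit 624) (nat_lit 456) (nat_lit 0) (XT.nd (nat_lit 312) (nat_lit 380) (nat_lit 0) (XT.nd (nat_lit 156) (nat_lit 76) (nat_lit 0) (XT.nd (nat_lit 78) (nat_lit 152) (nat_lit 0) (XT.lf (nat_lit 0) (nat_lit 8195251233) (nat_lit 76) (nat_lit 9745045944) (nat_lit 76) (nat_lit 7587966459) (nat_lit 39) (nat_lit 4) (nat_lit 40) (nat_lit 5) (nat_lit 40) (nat_lit 4) (nat_lit 472) (nat_lit 372) (nat_lit 356)) (XT.lf (nat_lit 0) (nat_lit 1371768791) (nat_lit 76) (nat_lit 391980449) (nat_lit 152) (nat_lit 24563827987) (nat_lit 37) (nat_lit 5) (nat_lit 38) (nat_lit 5) (nat_lit 39) (nat_lit 4) (nat_lit 473) (nat_lit 372) (nat_lit 355))) (XT.nd (nat_lit 78) (nat_lit 76) (nat_lit 0) (XT.lf (nat_lit 0) (nat_lit 11546140176) (nat_lit 152) (nat_lit 6273280849) (nat_lit 0) (nat_lit 9330311896) (nat_lit 37) (nat_lit 5) (nat_lit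 39) (nat_lit 4) (nat_lit 37) (nat_lit 4) (nat_lit 474) (nat_lit 372) (nat_lit 354)) (XT.lf (nat_lit 0) (nat_lit 13327078380) (nat_lit 76) (nat_lit 8488433817) (nat_lit 76) (nat_lit 6197591895) (nat_lit 36) (nat_lit 4) (nat_lit 37) (nat_lit 5) (nat_lit 37) (nat_lit 4) (nat_lit 475) (nat_lit 372) (nat_lit 353)))) (XT.nd (nat_lit 156) (nat_lit 228) (nat_lit 0) (XT.nd (nat_lit 78) (nat_lit 0) (nat_lit 0) (XT.lf (nat_lit 0) (nat_lit 3549445723) (nat_lit 152) (nat_lit 24068251206) (nat_lit 0) (nat_lit 1299651926) (nat_lit 34) (nat_lit 5) (nat_lit 36) (nat_lit 4) (nat_lit 34) (nat_lit 4) (nat_lit 476) (nat_lit 372) (nat_lit 352)) (XT.lf (nat_lit 0) (nat_lit 13751207519) (nat_lit 152) (nat_lit 4665122292) (nat_lit 0) (nat_lit 11436614117) (nat_lit 34) (nat_lit 5) (nat_lit 36) (nat_lit 4) (nat_lit 34) (nat_lit 4) (nat_lit 477) (nat_lit 372) (nat_lit 351))) (XT.nd (nat_lit 78) (nat_lit 152) (nat_lit 0) (XT.lf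 (nat_lit 0) (nat_lit 15797827244) (nat_lit 76) (nat_lit 8705883397) (nat_lit 76) (nat_lit 6329576086) (nat_lit 33) (nat_lit 4) (nat_lit 34) (nat_lit 5) (nat_lit 34) (nat_lit 4) (nat_lit 478) (nat_lit 372) (nat_lit 350)) (XT.lf (nat_lit 0) (nat_lit 3785824731) (nat_lit 152) (nat_lit 26608032328) (nat_lit 0) (nat_lit 1466698576) (nat_lit 31) (nat_lit 5) (nat_lit 33) (nat_lit 4) (nat_lit 31) (nat_lit 4) (nat_lit 479) (nat_lit 372) (nat_lit 349))))) (XT.nd (nat_lit 312) (nat_lit 228) (nat_lit 0) (XT.nd (nat_lit 156) (nat_lit 152) (nat_lit 0) (XT.nd (nat_lit 78) (nat_lit 76) (nat_lit 0) (XT.lf (nat_lit 0) (nat_lit 14390093503) (nat_lit 152) (nat_lit 6516459645) (nat_lit 0) (nat_lit 12017656553) (nat_lit 31) (nat_lit 5) (nat_lit 33) (nat_lit 4) (nat_lit 31) (nat_lit 4) (nat_lit 480) (nat_lit 372) (nat_lit 348)) (XT.lf (nat_lit 0) (nat_lit 14652227319) (nat_lit 76) (nat_lit 10905193283) (nat_lit 76) (nat_lit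 8481984146) (nat_lit 30) (nat_lit 4) (nat_lit 31) (nat_lit 5) (nat_lit 31) (nat_lit 4) (nat_lit 481) (nat_lit 372) (nat_lit 347))) (XT.nd (nat_lit 78) (nat_lit 0) (nat_lit 0) (XT.lf (nat_lit 0) (nat_lit 1518671243) (nat_lit 76) (nat_lit 427784777) (nat_lit 152) (nat_lit 33265283796) (nat_lit 28) (nat_lit 5) (nat_lit 29) (nat_lit 5) (nat_lit 30) (nat_lit 4) (nat_lit 482) (nat_lit 372) (nat_lit 346)) (XT.lf (nat_lit 0) (nat_lit 12914377895) (nat_lit 152) (nat_lit 12989557371) (nat_lit 0) (nat_lit 10516648877) (nat_lit 28) (nat_lit 5) (nat_lit 30) (nat_lit 4) (nat_lit 28) (nat_lit 4) (nat_lit 483) (nat_lit 372) (nat_lit 345)))) (XT.nd (nat_lit 156) (nat_lit 152) (nat_lit 0) (XT.nd (nat_lit 78) (nat_lit 0) (nat_lit 0) (XT.lf (nat_lit 0) (nat_lit 8640907734) (nat_lit 76) (nat_lit 15745342541) (nat_lit 76) (nat_lit 13305843120) (nat_lit 27) (nat_lit 4) (nat_lit 28) (nat_lit 5) (nat_lit 28) (nat_lit 4)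 (nat_lit 484) (nat_lit 372) (nat_lit 344)) (XT.lf (nat_lit 0) (nat_lit 31432185486) (nat_lit 76) (nat_lit 5036219672) (nat_lit 76) (nat_lit 2556938915) (nat_lit 27) (nat_lit 4) (nat_lit 28) (nat_lit 5) (nat_lit 28) (nat_lit 4) (nat_lit 485) (nat_lit 372) (nat_lit 343))) (XT.nd (nat_lit 78) (nat_lit 0) (nat_lit 0) (XT.lf (nat_lit 0) (nat_lit 8605649706) (nat_lit 152) (nat_lit 25596664588) (nat_lit 0) (nat_lit 6208347093) (nat_lit 25) (nat_lit 5) (nat_lit 27) (nat_lit 4) (nat_lit 25) (nat_lit 4) (nat_lit 486) (nat_lit 372) (nat_lit 342)) (XT.lf (nat_lit 0) (nat_lit 20276389778) (nat_lit 152) (nat_lit 3740239140) (nat_lit 0) (nat_lit 17844722551) (nat_lit 25) (nat_lit 5) (nat_lit 27) (nat_lit 4) (nat_lit 25) (nat_lit 4) (nat_lit 487) (nat_lit 372) (nat_lit 341)))))) (XT.nd (nat_lit 624) (nat_lit 456) (nat_lit 0) (XT.nd (nat_lit 312) (nat_lit 228) (nat_lit 0) (XT.nd (nat_lit 156) (nat_lit 76) (nat_lit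 0) (XT.nd (nat_lit 78) (nat_lit 76) (nat_lit 0) (XT.lf (nat_lit 0) (nat_lit 19489984577) (nat_lit 76) (nat_lit 13176107981) (nat_lit 76) (nat_lit 10711712551) (nat_lit 24) (nat_lit 4) (nat_lit 25) (nat_lit 5) (nat_lit 25) (nat_lit 4) (nat_lit 488) (nat_lit 372) (nat_lit 340)) (XT.lf (nat_lit 0) (nat_lit 578193923) (nat_lit 152) (nat_lit 1310267605) (nat_lit 76) (nat_lit 43086291418) (nat_lit 23) (nat_lit 5) (nat_lit 25) (nat_lit 5) (nat_lit 24) (nat_lit 4) (nat_lit 489) (nat_lit 372) (nat_lit 339))) (XT.nd (nat_lit 78) (nat_lit 0) (nat_lit 0) (XT.lf (nat_lit 0) (nat_lit 12426603231) (nat_lit 152) (nat_lit 24176862913) (nat_lit 0) (nat_lit 10021602665) (nat_lit 22) (nat_lit 5) (nat_lit 24) (nat_lit 4) (nat_lit 22) (nat_lit 4) (nat_lit 490) (nat_lit 372) (nat_lit 338)) (XT.lf (nat_lit 0) (nat_lit 24760261245) (nat_lit 152) (nat_lit 1274662980) (nat_lit 0) (nat_lit 22328335105) (nat_lit 22) (nat_lit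 5) (nat_lit 24) (nat_lit 4) (nat_lit 22) (nat_lit 4) (nat_lit 491) (nat_lit 372) (nat_lit 337)))) (XT.nd (nat_lit 156) (nat_lit 152) (nat_lit 0) (XT.nd (nat_lit 78) (nat_lit 0) (nat_lit 0) (XT.lf (nat_lit 0) (nat_lit 23204239462) (nat_lit 76) (nat_lit 14715613589) (nat_lit 76) (nat_lit 12258044044) (nat_lit 21) (nat_lit 4) (nat_lit 22) (nat_lit 5) (nat_lit 22) (nat_lit 4) (nat_lit 492) (nat_lit 372) (nat_lit 336)) (XT.lf (nat_lit 0) (nat_lit 48645269934) (nat_lit 76) (nat_lit 2963217866) (nat_lit 76) (nat_lit 481226032) (nat_lit 21) (nat_lit 4) (nat_lit 22) (nat_lit 5) (nat_lit 22) (nat_lit 4) (nat_lit 493) (nat_lit 372) (nat_lit 335))) (XT.nd (nat_lit 78) (nat_lit 0) (nat_lit 0) (XT.lf (nat_lit 0) (nat_lit 11846084440) (nat_lit 152) (nat_lit 32764527391) (nat_lit 0) (nat_lit 9460130957) (nat_lit 19) (nat_lit 5) (nat_lit 21) (nat_lit 4) (nat_lit 19) (nat_lit 4) (nat_lit 494) (nat_lit 372) (nat_lit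 334)) (XT.lf (nat_lit 0) (nat_lit 24735821493) (nat_lit 152) (nat_lit 9087724679) (nat_lit 0) (nat_lit 22328771118) (nat_lit 19) (nat_lit 5) (nat_lit 21) (nat_lit 4) (nat_lit 19) (nat_lit 4) (nat_lit 495) (nat_lit 372) (nat_lit 333))))) (XT.nd (nat_lit 312) (nat_lit 228) (nat_lit 0) (XT.nd (nat_lit 156) (nat_lit 152) (nat_lit 0) (XT.nd (nat_lit 78) (nat_lit 0) (nat_lit 0) (XT.lf (nat_lit 0) (nat_lit 16002835955) (nat_lit 76) (nat_lit 22378359948) (nat_lit 76) (nat_lit 19951217295) (nat_lit 18) (nat_lit 4) (nat_lit 19) (nat_lit 5) (nat_lit 19) (nat_lit 4) (nat_lit 496) (nat_lit 372) (nat_lit 332)) (XT.lf (nat_lit 0) (nat_lit 42385709787) (nat_lit 76) (nat_lit 10340604356) (nat_lit 76) (nat_lit 7894326200) (nat_lit 18) (nat_lit 4) (nat_lit 19) (nat_lit 5) (nat_lit 19) (nat_lit 4) (nat_lit 497) (nat_lit 372) (nat_lit 331))) (XT.nd (nat_lit 78) (nat_lit 0) (nat_lit 0) (XT.lf (nat_lit 0) (nat_lit 4625984793)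 (nat_lit 152) (nat_lit 56114079642) (nat_lit 0) (nat_lit 2278839608) (nat_lit 16) (nat_lit 5) (nat_lit 18) (nat_lit 4) (nat_lit 16) (nat_lit 4) (nat_lit 498) (nat_lit 372) (nat_lit 330)) (XT.lf (nat_lit 0) (nat_lit 17858401729) (nat_lit 152) (nat_lit 32159912457) (nat_lit 0) (nat_lit 15494726577) (nat_lit 16) (nat_lit 5) (nat_lit 18) (nat_lit 4) (nat_lit 16) (nat_lit 4) (nat_lit 499) (nat_lit 372) (nat_lit 329)))) (XT.nd (nat_lit 156) (nat_lit 152) (nat_lit 0) (XT.nd (nat_lit 78) (nat_lit 76) (nat_lit 0) (XT.lf (nat_lit 0) (nat_lit 31626719000) (nat_lit 152) (nat_lit 7264150486) (nat_lit 0) (nat_lit 29247301022) (nat_lit 16) (nat_lit 5) (nat_lit 18) (nat_lit 4) (nat_lit 16) (nat_lit 4) (nat_lit 500) (nat_lit 372) (nat_lit 328)) (XT.lf (nat_lit 0) (nat_lit 19248555893) (nat_lit 76) (nat_lit 27015686321) (nat_lit 76) (nat_lit 24621275176) (nat_lit 15) (nat_lit 4) (nat_lit 16) (nat_lit 5) (nat_lit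 16) (nat_lit 4) (nat_lit 501) (nat_lit 372) (nat_lit 327))) (XT.nd (nat_lit 78) (nat_lit 152) (nat_lit 0) (XT.lf (nat_lit 0) (nat_lit 47099108962) (nat_lit 76) (nat_lit 14539775504) (nat_lit 76) (nat_lit 12131085152) (nat_lit 15) (nat_lit 4) (nat_lit 16) (nat_lit 5) (nat_lit 16) (nat_lit 4) (nat_lit 502) (nat_lit 372) (nat_lit 326)) (XT.nd (nat_lit 78) (nat_lit 76) (nat_lit 0) (XT.lf (nat_lit 0) (nat_lit 838123072) (nat_lit 152) (nat_lit 704137297) (nat_lit 76) (nat_lit 75261316847) (nat_lit 14) (nat_lit 5) (nat_lit 16) (nat_lit 5) (nat_lit 15) (nat_lit 4) (nat_lit 503) (nat_lit 372) (nat_lit 325)) (XT.lf (nat_lit 0) (nat_lit 14558560658) (nat_lit 152) (nat_lit 53155555234) (nat_lit 0) (nat_lit 12239283270) (nat_lit 13) (nat_lit 5) (nat_lit 15) (nat_lit 4) (nat_lit 13) (nat_lit 4) (nat_lit 504) (nat_lit 372) (nat_lit 324))))))))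
noncomputable def xc79 : XT := (XT.nd (nat_lit 1248) (nat_lit 228) (nat_lit 0) (XT.nd (nat_lit 624) (nat_lit 228) (nat_lit 0) (XT.nd (nat_lit 312) (nat_lit 152) (nat_lit 0) (XT.nd (nat_lit 156) (nat_lit 76) (nat_lit 0) (XT.nd (nat_lit 78) (nat_lit 0) (nat_lit 0) (XT.lf (nat_lit 0) (nat_lit 28893883470) (nat_lit 152) (nat_lit 27807527146) (nat_lit 0) (nat_lit 26562858542) (nat_lit 13) (nat_lit 5) (nat_lit 15) (nat_lit 4) (nat_lit 13) (nat_lit 4) (nat_lit 505) (nat_lit 372) (nat_lit 323)) (XT.lf (nat_lit 0) (nat_lit 43842600986) (nat_lit 152) (nat_lit 1402862428) (nat_lit 0) (nat_lit 41500387927) (nat_lit 13) (nat_lit 5) (nat_lit 15) (nat_lit 4) (nat_lit 13) (nat_lit 4) (nat_lit 506) (nat_lit 372) (nat_lit 322))) (XT.nd (nat_lit 78) (nat_lit 0) (nat_lit 0) (XT.lf (nat_lit 0) (nat_lit 26984995552) (nat_lit 76) (nat_lit 32876621246) (nat_lit 76) (nat_lit 30523752823) (nat_lit 12) (nat_lit 4) (nat_lit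 13) (nat_lit 5) (nat_lit 13) (nat_lit 4) (nat_lit 507) (nat_lit 372) (nat_lit 321)) (XT.lf (nat_lit 0) (nat_lit 56643459845) (nat_lit 76) (nat_lit 19965037386) (nat_lit 76) (nat_lit 17602020997) (nat_lit 12) (nat_lit 4) (nat_lit 13) (nat_lit 5) (nat_lit 13) (nat_lit 4) (nat_lit 508) (nat_lit 372) (nat_lit 320)))) (XT.nd (nat_lit 156) (nat_lit 0) (nat_lit 0) (XT.nd (nat_lit 78) (nat_lit 152) (nat_lit 0) (XT.lf (nat_lit 0) (nat_lit 87596760875) (nat_lit 76) (nat_lit 6503728122) (nat_lit 76) (nat_lit 4131047003) (nat_lit 12) (nat_lit 4) (nat_lit 13) (nat_lit 5) (nat_lit 13) (nat_lit 4) (nat_lit 509) (nat_lit 372) (nat_lit 319)) (XT.lf (nat_lit 0) (nat_lit 10007651017) (nat_lit 152) (nat_lit 84683214838) (nat_lit 0) (nat_lit 7739188519) (nat_lit 10) (nat_lit 5) (nat_lit 12) (nat_lit 4) (nat_lit 10) (nat_lit 4) (nat_lit 510) (nat_lit 372) (nat_lit 318))) (XT.nd (nat_lit 78) (nat_lit 0) (nat_lit 0) (XT.lf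 (nat_lit 0) (nat_lit 24914877768) (nat_lit 152) (nat_lit 59272147162) (nat_lit 0) (nat_lit 22638066514) (nat_lit 10) (nat_lit 5) (nat_lit 12) (nat_lit 4) (nat_lit 10) (nat_lit 4) (nat_lit 511) (nat_lit 372) (nat_lit 317)) (XT.lf (nat_lit 0) (nat_lit 40482463952) (nat_lit 152) (nat_lit 32763965092) (nat_lit 0) (nat_lit 38197701501) (nat_lit 10) (nat_lit 5) (nat_lit 12) (nat_lit 4) (nat_lit 10) (nat_lit 4) (nat_lit 512) (nat_lit 372) (nat_lit 316))))) (XT.nd (nat_lit 312) (nat_lit 152) (nat_lit 0) (XT.nd (nat_lit 156) (nat_lit 0) (nat_lit 0) (XT.nd (nat_lit 78) (nat_lit 76) (nat_lit 0) (XT.lf (nat_lit 0) (nat_lit 56747475250) (nat_lit 152) (nat_lit 5095553908) (nat_lit 0) (nat_lit 54455140231) (nat_lit 10) (nat_lit 5) (nat_lit 12) (nat_lit 4) (nat_lit 10) (nat_lit 4) (nat_lit 513) (nat_lit 372) (nat_lit 315)) (XT.lf (nat_lit 0) (nat_lit 24585864773) (nat_lit 76) (nat_lit 49546627357) (nat_lit 76)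 (nat_lit 47247080368) (nat_lit 9) (nat_lit 4) (nat_lit 10) (nat_lit 5) (nat_lit 10) (nat_lit 4) (nat_lit 514) (nat_lit 372) (nat_lit 314))) (XT.nd (nat_lit 78) (nat_lit 0) (nat_lit 0) (XT.lf (nat_lit 0) (nat_lit 55773483565) (nat_lit 76) (nat_lit 36623727617) (nat_lit 76) (nat_lit 34317312085) (nat_lit 9) (nat_lit 4) (nat_lit 10) (nat_lit 5) (nat_lit 10) (nat_lit 4) (nat_lit 515) (nat_lit 372) (nat_lit 313)) (XT.lf (nat_lit 0) (nat_lit 88373076679) (nat_lit 76) (nat_lit 23129856799) (nat_lit 76) (nat_lit 20816899798) (nat_lit 9) (nat_lit 4) (nat_lit 10) (nat_lit 5) (nat_lit 10) (nat_lit 4) (nat_lit 516) (nat_lit 372) (nat_lit 312)))) (XT.nd (nat_lit 156) (nat_lit 0) (nat_lit 0) (XT.nd (nat_lit 78) (nat_lit 152) (nat_lit 0) (XT.lf (nat_lit 0) (nat_lit 122462262193) (nat_lit 76) (nat_lit 9032886641) (nat_lit 76) (nat_lit 6713699670) (nat_lit 9) (nat_lit 4) (nat_lit 10) (nat_lit 5) (nat_lit 10) (nat_lit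 4) (nat_lit 517) (nat_lit 372) (nat_lit 311)) (XT.lf (nat_lit 0) (nat_lit 8083020574) (nat_lit 152) (nat_lit 130421982659) (nat_lit 0) (nat_lit 5868620310) (nat_lit 7) (nat_lit 5) (nat_lit 9) (nat_lit 4) (nat_lit 7) (nat_lit 4) (nat_lit 518) (nat_lit 372) (nat_lit 310))) (XT.nd (nat_lit 78) (nat_lit 0) (nat_lit 0) (XT.lf (nat_lit 0) (nat_lit 23746507636) (nat_lit 152) (nat_lit 105550273277) (nat_lit 0) (nat_lit 21526725689) (nat_lit 7) (nat_lit 5) (nat_lit 9) (nat_lit 4) (nat_lit 7) (nat_lit 4) (nat_lit 519) (nat_lit 372) (nat_lit 309)) (XT.lf (nat_lit 0) (nat_lit 40129766413) (nat_lit 152) (nat_lit 79564428530) (nat_lit 0) (nat_lit 37904859054) (nat_lit 7) (nat_lit 5) (nat_lit 9) (nat_lit 4) (nat_lit 7) (nat_lit 4) (nat_lit 520) (nat_lit 372) (nat_lit 308)))))) (XT.nd (nat_lit 624) (nat_lit 152) (nat_lit 0) (XT.nd (nat_lit 312) (nat_lit 0) (nat_lit 0) (XT.nd (nat_lit 156) (nat_lit 76) (nat_lit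 0) (XT.nd (nat_lit 78) (nat_lit 0) (nat_lit 0) (XT.lf (nat_lit 0) (nat_lit 57271804666) (nat_lit 152) (nat_lit 52402577358) (nat_lit 0) (nat_lit 55042015962) (nat_lit 7) (nat_lit 5) (nat_lit 9) (nat_lit 4) (nat_lit 7) (nat_lit 4) (nat_lit 521) (nat_lit 372) (nat_lit 307)) (XT.lf (nat_lit 0) (nat_lit 75213436770) (nat_lit 152) (nat_lit 24000048688) (nat_lit 0) (nat_lit 72978999166) (nat_lit 7) (nat_lit 5) (nat_lit 9) (nat_lit 4) (nat_lit 7) (nat_lit 4) (nat_lit 522) (nat_lit 372) (nat_lit 306))) (XT.nd (nat_lit 78) (nat_lit 0) (nat_lit 0) (XT.lf (nat_lit 0) (nat_lit 5899606810) (nat_lit 76) (nat_lit 88189883484) (nat_lit 76) (nat_lit 85951018356) (nat_lit 6) (nat_lit 4) (nat_lit 7) (nat_lit 5) (nat_lit 7) (nat_lit 4) (nat_lit 523) (nat_lit 372) (nat_lit 305)) (XT.lf (nat_lit 0) (nat_lit 38017452324) (nat_lit 76) (nat_lit 76244467377) (nat_lit 76) (nat_lit 74001385559) (nat_lit 6) (nat_lit 4) (nat_lit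 7) (nat_lit 5) (nat_lit 7) (nat_lit 4) (nat_lit 524) (nat_lit 372) (nat_lit 304)))) (XT.nd (nat_lit 156) (nat_lit 0) (nat_lit 0) (XT.nd (nat_lit 78) (nat_lit 0) (nat_lit 0) (XT.lf (nat_lit 0) (nat_lit 71636408918) (nat_lit 76) (nat_lit 63755248107) (nat_lit 76) (nat_lit 61508150395) (nat_lit 6) (nat_lit 4) (nat_lit 7) (nat_lit 5) (nat_lit 7) (nat_lit 4) (nat_lit 525) (nat_lit 372) (nat_lit 303)) (XT.lf (nat_lit 0) (nat_lit 106836521726) (nat_lit 76) (nat_lit 50692489438) (nat_lit 76) (nat_lit 48441567064) (nat_lit 6) (nat_lit 4) (nat_lit 7) (nat_lit 5) (nat_lit 7) (nat_lit 4) (nat_lit 526) (nat_lit 372) (nat_lit 302))) (XT.nd (nat_lit 78) (nat_lit 0) (nat_lit 0) (XT.lf (nat_lit 0) (nat_lit 143701600541) (nat_lit 76) (nat_lit 37025089564) (nat_lit 76) (nat_lit 34770524656) (nat_lit 6) (nat_lit 4) (nat_lit 7) (nat_lit 5) (nat_lit 7) (nat_lit 4) (nat_lit 527) (nat_lit 372) (nat_lit 301)) (XT.lf (nat_lit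 0) (nat_lit 182319419360) (nat_lit 76) (nat_lit 22720507057) (nat_lit 76) (nat_lit 20462473067) (nat_lit 6) (nat_lit 4) (nat_lit 7) (nat_lit 5) (nat_lit 7) (nat_lit 4) (nat_lit 528) (nat_lit 372) (nat_lit 300))))) (XT.nd (nat_lit 312) (nat_lit 0) (nat_lit 0) (XT.nd (nat_lit 156) (nat_lit 0) (nat_lit 0) (XT.nd (nat_lit 78) (nat_lit 152) (nat_lit 0) (XT.lf (nat_lit 0) (nat_lit 222781925370) (nat_lit 76) (nat_lit 7744683386) (nat_lit 76) (nat_lit 5483345511) (nat_lit 6) (nat_lit 4) (nat_lit 7) (nat_lit 5) (nat_lit 7) (nat_lit 4) (nat_lit 529) (nat_lit 372) (nat_lit 299)) (XT.lf (nat_lit 0) (nat_lit 10297299429) (nat_lit 152) (nat_lit 228577919520) (nat_lit 0) (nat_lit 8140647587) (nat_lit 4) (nat_lit 5) (nat_lit 6) (nat_lit 4) (nat_lit 4) (nat_lit 4) (nat_lit 530) (nat_lit 372) (nat_lit 298))) (XT.nd (nat_lit 78) (nat_lit 0) (nat_lit 0) (XT.lf (nat_lit 0) (nat_lit 26996503034) (nat_lit 152) (nat_lit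 206718389557) (nat_lit 0) (nat_lit 24836997170) (nat_lit 4) (nat_lit 5) (nat_lit 6) (nat_lit 4) (nat_lit 4) (nat_lit 4) (nat_lit 531) (nat_lit 372) (nat_lit 297)) (XT.lf (nat_lit 0) (nat_lit 44491757468) (nat_lit 152) (nat_lit 183845368687) (nat_lit 0) (nat_lit 42329533489) (nat_lit 4) (nat_lit 5) (nat_lit 6) (nat_lit 4) (nat_lit 4) (nat_lit 4) (nat_lit 532) (nat_lit 372) (nat_lit 296)))) (XT.nd (nat_lit 156) (nat_lit 0) (nat_lit 0) (XT.nd (nat_lit 78) (nat_lit 0) (nat_lit 0) (XT.lf (nat_lit 0) (nat_lit 62824718100) (nat_lit 152) (nat_lit 159904397335) (nat_lit 0) (nat_lit 60659905439) (nat_lit 4) (nat_lit 5) (nat_lit 6) (nat_lit 4) (nat_lit 4) (nat_lit 4) (nat_lit 533) (nat_lit 372) (nat_lit 295)) (XT.lf (nat_lit 0) (nat_lit 82039034835) (nat_lit 152) (nat_lit 134838473190) (nat_lit 0) (nat_lit 79871756763) (nat_lit 4) (nat_lit 5) (nat_lit 6) (nat_lit 4) (nat_lit 4) (nat_lit 4) (nat_lit 534) (nat_lit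 372) (nat_lit 294))) (XT.nd (nat_lit 78) (nat_lit 0) (nat_lit 0) (XT.lf (nat_lit 0) (nat_lit 102180456046) (nat_lit 152) (nat_lit 108587915479) (nat_lit 0) (nat_lit 100010829964) (nat_lit 4) (nat_lit 5) (nat_lit 6) (nat_lit 4) (nat_lit 4) (nat_lit 4) (nat_lit 535) (nat_lit 372) (nat_lit 293)) (XT.nd (nat_lit 78) (nat_lit 0) (nat_lit 0) (XT.lf (nat_lit 0) (nat_lit 123296937498) (nat_lit 152) (nat_lit 81090222875) (nat_lit 0) (nat_lit 121125075216) (nat_lit 4) (nat_lit 5) (nat_lit 6) (nat_lit 4) (nat_lit 4) (nat_lit 4) (nat_lit 536) (nat_lit 372) (nat_lit 292)) (XT.lf (nat_lit 0) (nat_lit 145438756529) (nat_lit 152) (nat_lit 52279924681) (nat_lit 0) (nat_lit 143264764532) (nat_lit 4) (nat_lit 5) (nat_lit 6) (nat_lit 4) (nat_lit 4) (nat_lit 4) (nat_lit 537) (nat_lit 372) (nat_lit 291))))))))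
noncomputable def xc80 : XT := (XT.nd (nat_lit 1248) (nat_lit 152) (nat_lit 0) (XT.nd (nat_lit 624) (nat_lit 0) (nat_lit 0) (XT.nd (nat_lit 312) (nat_lit 0) (nat_lit 0) (XT.nd (nat_lit 156) (nat_lit 0) (nat_lit 0) (XT.nd (nat_lit 78) (nat_lit 76) (nat_lit 0) (XT.lf (nat_lit 0) (nat_lit 168658631754) (nat_lit 152) (nat_lit 22088424948) (nat_lit 0) (nat_lit 166482611457) (nat_lit 4) (nat_lit 5) (nat_lit 6) (nat_lit 4) (nat_lit 4) (nat_lit 4) (nat_lit 538) (nat_lit 372) (nat_lit 290)) (XT.lf (nat_lit 0) (nat_lit 9872130679) (nat_lit 76) (nat_lit 183293849538) (nat_lit 76) (nat_lit 181115897528) (nat_lit 3) (nat_lit 4) (nat_lit 4) (nat_lit 5) (nat_lit 4) (nat_lit 4) (nat_lit 539) (nat_lit 372) (nat_lit 289))) (XT.nd (nat_lit 78) (nat_lit 0) (nat_lit 0) (XT.lf (nat_lit 0) (nat_lit 44141996512) (nat_lit 76) (nat_lit 175103574651) (nat_lit 76) (nat_lit 172923782912) (nat_lit 3) (nat_lit 4) (nat_lit 4)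 (nat_lit 5) (nat_lit 4) (nat_lit 4) (nat_lit 540) (nat_lit 372) (nat_lit 288)) (XT.lf (nat_lit 0) (nat_lit 80072424386) (nat_lit 76) (nat_lit 166530809550) (nat_lit 76) (nat_lit 164349265690) (nat_lit 3) (nat_lit 4) (nat_lit 4) (nat_lit 5) (nat_lit 4) (nat_lit 4) (nat_lit 541) (nat_lit 372) (nat_lit 287)))) (XT.nd (nat_lit 156) (nat_lit 0) (nat_lit 0) (XT.nd (nat_lit 78) (nat_lit 0) (nat_lit 0) (XT.lf (nat_lit 0) (nat_lit 117748962938) (nat_lit 76) (nat_lit 157555142891) (nat_lit 76) (nat_lit 155371930344) (nat_lit 3) (nat_lit 4) (nat_lit 4) (nat_lit 5) (nat_lit 4) (nat_lit 4) (nat_lit 542) (nat_lit 372) (nat_lit 286)) (XT.lf (nat_lit 0) (nat_lit 157261318213) (nat_lit 76) (nat_lit 148155204038) (nat_lit 76) (nat_lit 145970402265) (nat_lit 3) (nat_lit 4) (nat_lit 4) (nat_lit 5) (nat_lit 4) (nat_lit 4) (nat_lit 543) (nat_lit 372) (nat_lit 285))) (XT.nd (nat_lit 78) (nat_lit 0) (nat_lit 0) (XT.lf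 (nat_lit 0) (nat_lit 198703567247) (nat_lit 76) (nat_lit 138308612185) (nat_lit 76) (nat_lit 136122296863) (nat_lit 3) (nat_lit 4) (nat_lit 4) (nat_lit 5) (nat_lit 4) (nat_lit 4) (nat_lit 544) (nat_lit 372) (nat_lit 284)) (XT.lf (nat_lit 0) (nat_lit 242174382061) (nat_lit 76) (nat_lit 127991923065) (nat_lit 76) (nat_lit 125804166269) (nat_lit 3) (nat_lit 4) (nat_lit 4) (nat_lit 5) (nat_lit 4) (nat_lit 4) (nat_lit 545) (nat_lit 372) (nat_lit 283))))) (XT.nd (nat_lit 312) (nat_lit 0) (nat_lit 0) (XT.nd (nat_lit 156) (nat_lit 0) (nat_lit 0) (XT.nd (nat_lit 78) (nat_lit 0) (nat_lit 0) (XT.lf (nat_lit 0) (nat_lit 287777264596) (nat_lit 76) (nat_lit 117180573133) (nat_lit 76) (nat_lit 114991443504) (nat_lit 3) (nat_lit 4) (nat_lit 4) (nat_lit 5) (nat_lit 4) (nat_lit 4) (nat_lit 546) (nat_lit 372) (nat_lit 282)) (XT.lf (nat_lit 0) (nat_lit 335620793143) (nat_lit 76) (nat_lit 105848821080) (nat_lit 76)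 (nat_lit 103658383991) (nat_lit 3) (nat_lit 4) (nat_lit 4) (nat_lit 5) (nat_lit 4) (nat_lit 4) (nat_lit 547) (nat_lit 372) (nat_lit 281))) (XT.nd (nat_lit 78) (nat_lit 0) (nat_lit 0) (XT.lf (nat_lit 0) (nat_lit 385818880865) (nat_lit 76) (nat_lit 93969686543) (nat_lit 76) (nat_lit 91778004254) (nat_lit 3) (nat_lit 4) (nat_lit 4) (nat_lit 5) (nat_lit 4) (nat_lit 4) (nat_lit 548) (nat_lit 372) (nat_lit 280)) (XT.lf (nat_lit 0) (nat_lit 438491047020) (nat_lit 76) (nat_lit 81514885869) (nat_lit 76) (nat_lit 79322017675) (nat_lit 3) (nat_lit 4) (nat_lit 4) (nat_lit 5) (nat_lit 4) (nat_lit 4) (nat_lit 549) (nat_lit 372) (nat_lit 279)))) (XT.nd (nat_lit 156) (nat_lit 0) (nat_lit 0) (XT.nd (nat_lit 78) (nat_lit 0) (nat_lit 0) (XT.lf (nat_lit 0) (nat_lit 493762701525) (nat_lit 76) (nat_lit 68454764771) (nat_lit 76) (nat_lit 66260767144) (nat_lit 3) (nat_lit 4) (nat_lit 4) (nat_lit 5) (nat_lit 4) (nat_lit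 4) (nat_lit 550) (nat_lit 372) (nat_lit 278)) (XT.lf (nat_lit 0) (nat_lit 551765443560) (nat_lit 76) (nat_lit 54758227722) (nat_lit 76) (nat_lit 52563154444) (nat_lit 3) (nat_lit 4) (nat_lit 4) (nat_lit 5) (nat_lit 4) (nat_lit 4) (nat_lit 551) (nat_lit 372) (nat_lit 277))) (XT.nd (nat_lit 78) (nat_lit 0) (nat_lit 0) (XT.lf (nat_lit 0) (nat_lit 612637374890) (nat_lit 76) (nat_lit 40392663919) (nat_lit 76) (nat_lit 38196566212) (nat_lit 3) (nat_lit 4) (nat_lit 4) (nat_lit 5) (nat_lit 4) (nat_lit 4) (nat_lit 552) (nat_lit 372) (nat_lit 276)) (XT.lf (nat_lit 0) (nat_lit 676523428686) (nat_lit 76) (nat_lit 25323869640) (nat_lit 76) (nat_lit 23126796286) (nat_lit 3) (nat_lit 4) (nat_lit 4) (nat_lit 5) (nat_lit 4) (nat_lit 4) (nat_lit 553) (nat_lit 372) (nat_lit 275)))))) (XT.nd (nat_lit 55068) (nat_lit 0) (nat_lit 3420) (XT.nd (nat_lit 54756) (nat_lit 0) (nat_lit 4256) (XT.nd (nat_lit 156) (nat_lit 0)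 (nat_lit 0) (XT.nd (nat_lit 78) (nat_lit 152) (nat_lit 0) (XT.lf (nat_lit 0) (nat_lit 743575714598) (nat_lit 76) (nat_lit 9515966802) (nat_lit 76) (nat_lit 7317964260) (nat_lit 3) (nat_lit 4) (nat_lit 4) (nat_lit 5) (nat_lit 4) (nat_lit 4) (nat_lit 554) (nat_lit 372) (nat_lit 274)) (XT.lf (nat_lit 0) (nat_lit 9349119183) (nat_lit 152) (nat_lit 780987425612) (nat_lit 0) (nat_lit 7254940629) (nat_lit 1) (nat_lit 5) (nat_lit 3) (nat_lit 4) (nat_lit 1) (nat_lit 4) (nat_lit 555) (nat_lit 372) (nat_lit 273))) (XT.nd (nat_lit 54522) (nat_lit 0) (nat_lit 4560) (XT.lf (nat_lit 0) (nat_lit 27036092144) (nat_lit 152) (nat_lit 784627592441) (nat_lit 0) (nat_lit 24941110923) (nat_lit 1) (nat_lit 5) (nat_lit 3) (nat_lit 4) (nat_lit 1) (nat_lit 4) (nat_lit 556) (nat_lit 372) (nat_lit 272)) (XT.lf (nat_lit 0) (nat_lit 375138524) (nat_lit 152) (nat_lit 7045388443) (nat_lit 0) (nat_lit 375138524) (nat_lit 61) (nat_lit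 5) (nat_lit 63) (nat_lit 4) (nat_lit 61) (nat_lit 4) (nat_lit 454) (nat_lit 373) (nat_lit 373)))) (XT.nd (nat_lit 156) (nat_lit 228) (nat_lit 0) (XT.nd (nat_lit 78) (nat_lit 0) (nat_lit 0) (XT.lf (nat_lit 0) (nat_lit 296488728) (nat_lit 76) (nat_lit 7982557968) (nat_lit 76) (nat_lit 7702497810) (nat_lit 60) (nat_lit 4) (nat_lit 61) (nat_lit 5) (nat_lit 61) (nat_lit 4) (nat_lit 455) (nat_lit 373) (nat_lit 372)) (XT.lf (nat_lit 0) (nat_lit 15401671511) (nat_lit 76) (nat_lit 768543033) (nat_lit 76) (nat_lit 221758915) (nat_lit 60) (nat_lit 4) (nat_lit 61) (nat_lit 5) (nat_lit 61) (nat_lit 4) (nat_lit 456) (nat_lit 373) (nat_lit 371))) (XT.nd (nat_lit 78) (nat_lit 76) (nat_lit 0) (XT.lf (nat_lit 0) (nat_lit 7475698262) (nat_lit 152) (nat_lit 2623895181) (nat_lit 0) (nat_lit 6713024988) (nat_lit 58) (nat_lit 5) (nat_lit 60) (nat_lit 4) (nat_lit 58) (nat_lit 4) (nat_lit 457) (nat_lit 373) (nat_lit 370))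 (XT.lf (nat_lit 0) (nat_lit 12825440729) (nat_lit 76) (nat_lit 2711225235) (nat_lit 76) (nat_lit 1718145776) (nat_lit 57) (nat_lit 4) (nat_lit 58) (nat_lit 5) (nat_lit 58) (nat_lit 4) (nat_lit 458) (nat_lit 373) (nat_lit 369))))) (XT.nd (nat_lit 312) (nat_lit 380) (nat_lit 0) (XT.nd (nat_lit 156) (nat_lit 228) (nat_lit 0) (XT.nd (nat_lit 78) (nat_lit 76) (nat_lit 0) (XT.lf (nat_lit 0) (nat_lit 6137558431) (nat_lit 152) (nat_lit 6591019495) (nat_lit 0) (nat_lit 4982783269) (nat_lit 55) (nat_lit 5) (nat_lit 57) (nat_lit 4) (nat_lit 55) (nat_lit 4) (nat_lit 459) (nat_lit 373) (nat_lit 368)) (XT.lf (nat_lit 0) (nat_lit 9156321151) (nat_lit 76) (nat_lit 5192887159) (nat_lit 76) (nat_lit 3839078471) (nat_lit 54) (nat_lit 4) (nat_lit 55) (nat_lit 5) (nat_lit 55) (nat_lit 4) (nat_lit 460) (nat_lit 373) (nat_lit 367))) (XT.nd (nat_lit 78) (nat_lit 76) (nat_lit 0) (XT.lf (nat_lit 0) (nat_lit 4167763526)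 (nat_lit 152) (nat_lit 11818939111) (nat_lit 0) (nat_lit 2697892644) (nat_lit 52) (nat_lit 5) (nat_lit 54) (nat_lit 4) (nat_lit 52) (nat_lit 4) (nat_lit 461) (nat_lit 373) (nat_lit 366)) (XT.lf (nat_lit 0) (nat_lit 4178688178) (nat_lit 76) (nat_lit 8331244681) (nat_lit 76) (nat_lit 6689441156) (nat_lit 51) (nat_lit 4) (nat_lit 52) (nat_lit 5) (nat_lit 52) (nat_lit 4) (nat_lit 462) (nat_lit 373) (nat_lit 365)))) (XT.nd (nat_lit 156) (nat_lit 228) (nat_lit 0) (XT.nd (nat_lit 78) (nat_lit 0) (nat_lit 0) (XT.lf (nat_lit 0) (nat_lit 1189123623) (nat_lit 76) (nat_lit 271692241) (nat_lit 152) (nat_lit 18278861346) (nat_lit 49) (nat_lit 5) (nat_lit 50) (nat_lit 5) (nat_lit 51) (nat_lit 4) (nat_lit 463) (nat_lit 373) (nat_lit 364)) (XT.lf (nat_lit 0) (nat_lit 9939161323) (nat_lit 152) (nat_lit 2284014324) (nat_lit 0) (nat_lit 8071069061) (nat_lit 49) (nat_lit 5) (nat_lit 51) (nat_lit 4) (nat_lit 49) (nat_lit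 4) (nat_lit 464) (nat_lit 373) (nat_lit 363))) (XT.nd (nat_lit 78) (nat_lit 152) (nat_lit 0) (XT.lf (nat_lit 0) (nat_lit 14809262402) (nat_lit 76) (nat_lit 4038258238) (nat_lit 76) (nat_lit 2028716566) (nat_lit 48) (nat_lit 4) (nat_lit 49) (nat_lit 5) (nat_lit 49) (nat_lit 4) (nat_lit 465) (nat_lit 373) (nat_lit 362)) (XT.lf (nat_lit 0) (nat_lit 6555871041) (nat_lit 152) (nat_lit 10409655802) (nat_lit 0) (nat_lit 4513723044) (nat_lit 46) (nat_lit 5) (nat_lit 48) (nat_lit 4) (nat_lit 46) (nat_lit 4) (nat_lit 466) (nat_lit 373) (nat_lit 361)))))))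
noncomputable def xc81 : XT := (XT.nd (nat_lit 1248) (nat_lit 1064) (nat_lit 0) (XT.nd (nat_lit 624) (nat_lit 532) (nat_lit 0) (XT.nd (nat_lit 312) (nat_lit 380) (nat_lit 0) (XT.nd (nat_lit 156) (nat_lit 76) (nat_lit 0) (XT.nd (nat_lit 78) (nat_lit 152) (nat_lit 0) (XT.lf (nat_lit 0) (nat_lit 6826934525) (nat_lit 76) (nat_lit 8722869821) (nat_lit 76) (nat_lit 6558532505) (nat_lit 45) (nat_lit 4) (nat_lit 46) (nat_lit 5) (nat_lit 46) (nat_lit 4) (nat_lit 467) (nat_lit 373) (nat_lit 360)) (XT.lf (nat_lit 0) (nat_lit 2099288345) (nat_lit 76) (nat_lit 37295284) (nat_lit 152) (nat_lit 20631397736) (nat_lit 43) (nat_lit 5) (nat_lit 44) (nat_lit 5) (nat_lit 45) (nat_lit 4) (nat_lit 468) (nat_lit 373) (nat_lit 359))) (XT.nd (nat_lit 78) (nat_lit 76) (nat_lit 0) (XT.lf (nat_lit 0) (nat_lit 11222522970) (nat_lit 152) (nat_lit 3279018226) (nat_lit 0) (nat_lit 8944868293) (nat_lit 43) (nat_lit 5) (nat_lit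 45) (nat_lit 4) (nat_lit 43) (nat_lit 4) (nat_lit 469) (nat_lit 373) (nat_lit 358)) (XT.lf (nat_lit 0) (nat_lit 15024860517) (nat_lit 76) (nat_lit 5755597369) (nat_lit 76) (nat_lit 3377417237) (nat_lit 42) (nat_lit 4) (nat_lit 43) (nat_lit 5) (nat_lit 43) (nat_lit 4) (nat_lit 470) (nat_lit 373) (nat_lit 357)))) (XT.nd (nat_lit 156) (nat_lit 152) (nat_lit 0) (XT.nd (nat_lit 78) (nat_lit 76) (nat_lit 0) (XT.lf (nat_lit 0) (nat_lit 5760166960) (nat_lit 152) (nat_lit 15734179790) (nat_lit 0) (nat_lit 3404053950) (nat_lit 40) (nat_lit 5) (nat_lit 42) (nat_lit 4) (nat_lit 40) (nat_lit 4) (nat_lit 471) (nat_lit 373) (nat_lit 356)) (XT.lf (nat_lit 0) (nat_lit 2517475052) (nat_lit 76) (nat_lit 12797484535) (nat_lit 76) (nat_lit 10354533857) (nat_lit 39) (nat_lit 4) (nat_lit 40) (nat_lit 5) (nat_lit 40) (nat_lit 4) (nat_lit 472) (nat_lit 373) (nat_lit 355))) (XT.nd (nat_lit 78) (nat_lit 152) (nat_lit 0)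 (XT.lf (nat_lit 0) (nat_lit 21798980800) (nat_lit 76) (nat_lit 3601580316) (nat_lit 76) (nat_lit 1075927097) (nat_lit 39) (nat_lit 4) (nat_lit 40) (nat_lit 5) (nat_lit 40) (nat_lit 4) (nat_lit 473) (nat_lit 373) (nat_lit 354)) (XT.lf (nat_lit 0) (nat_lit 8508432140) (nat_lit 152) (nat_lit 12774640980) (nat_lit 0) (nat_lit 6028034479) (nat_lit 37) (nat_lit 5) (nat_lit 39) (nat_lit 4) (nat_lit 37) (nat_lit 4) (nat_lit 474) (nat_lit 373) (nat_lit 353))))) (XT.nd (nat_lit 312) (nat_lit 228) (nat_lit 0) (XT.nd (nat_lit 156) (nat_lit 152) (nat_lit 0) (XT.nd (nat_lit 78) (nat_lit 76) (nat_lit 0) (XT.lf (nat_lit 0) (nat_lit 6401300480) (nat_lit 76) (nat_lit 12167728321) (nat_lit 76) (nat_lit 9615889095) (nat_lit 36) (nat_lit 4) (nat_lit 37) (nat_lit 5) (nat_lit 37) (nat_lit 4) (nat_lit 475) (nat_lit 373) (nat_lit 352)) (XT.lf (nat_lit 0) (nat_lit 42952484) (nat_lit 152) (nat_lit 2531826217) (nat_lit 76)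 (nat_lit 26526932888) (nat_lit 35) (nat_lit 5) (nat_lit 37) (nat_lit 5) (nat_lit 36) (nat_lit 4) (nat_lit 476) (nat_lit 373) (nat_lit 351))) (XT.nd (nat_lit 78) (nat_lit 76) (nat_lit 0) (XT.lf (nat_lit 0) (nat_lit 10062523996) (nat_lit 152) (nat_lit 12478205078) (nat_lit 0) (nat_lit 7505687410) (nat_lit 34) (nat_lit 5) (nat_lit 36) (nat_lit 4) (nat_lit 34) (nat_lit 4) (nat_lit 477) (nat_lit 373) (nat_lit 350)) (XT.lf (nat_lit 0) (nat_lit 7526771660) (nat_lit 76) (nat_lit 13063420697) (nat_lit 76) (nat_lit 10447808959) (nat_lit 33) (nat_lit 4) (nat_lit 34) (nat_lit 5) (nat_lit 34) (nat_lit 4) (nat_lit 478) (nat_lit 373) (nat_lit 349)))) (XT.nd (nat_lit 156) (nat_lit 76) (nat_lit 0) (XT.nd (nat_lit 78) (nat_lit 152) (nat_lit 0) (XT.lf (nat_lit 0) (nat_lit 28575444873) (nat_lit 76) (nat_lit 3087194697) (nat_lit 76) (nat_lit 415606624) (nat_lit 33) (nat_lit 4) (nat_lit 34) (nat_lit 5) (nat_lit 34)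 (nat_lit 4) (nat_lit 479) (nat_lit 373) (nat_lit 348)) (XT.lf (nat_lit 0) (nat_lit 10000771937) (nat_lit 152) (nat_lit 15745882470) (nat_lit 0) (nat_lit 7405630158) (nat_lit 31) (nat_lit 5) (nat_lit 33) (nat_lit 4) (nat_lit 31) (nat_lit 4) (nat_lit 480) (nat_lit 373) (nat_lit 347))) (XT.nd (nat_lit 78) (nat_lit 0) (nat_lit 0) (XT.lf (nat_lit 0) (nat_lit 4927378025) (nat_lit 76) (nat_lit 15997870303) (nat_lit 76) (nat_lit 13354374061) (nat_lit 30) (nat_lit 4) (nat_lit 31) (nat_lit 5) (nat_lit 31) (nat_lit 4) (nat_lit 481) (nat_lit 373) (nat_lit 346)) (XT.lf (nat_lit 0) (nat_lit 26809502893) (nat_lit 76) (nat_lit 5669607356) (nat_lit 76) (nat_lit 2980059244) (nat_lit 30) (nat_lit 4) (nat_lit 31) (nat_lit 5) (nat_lit 31) (nat_lit 4) (nat_lit 482) (nat_lit 373) (nat_lit 345)))))) (XT.nd (nat_lit 624) (nat_lit 456) (nat_lit 0) (XT.nd (nat_lit 312) (nat_lit 228) (nat_lit 0) (XT.nd (nat_lit 156) (nat_lit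 228) (nat_lit 0) (XT.nd (nat_lit 78) (nat_lit 0) (nat_lit 0) (XT.lf (nat_lit 0) (nat_lit 7768694933) (nat_lit 152) (nat_lit 23751922721) (nat_lit 0) (nat_lit 5165450139) (nat_lit 28) (nat_lit 5) (nat_lit 30) (nat_lit 4) (nat_lit 28) (nat_lit 4) (nat_lit 483) (nat_lit 373) (nat_lit 344)) (XT.lf (nat_lit 0) (nat_lit 19019076768) (nat_lit 152) (nat_lit 2573524368) (nat_lit 0) (nat_lit 16376050637) (nat_lit 28) (nat_lit 5) (nat_lit 30) (nat_lit 4) (nat_lit 28) (nat_lit 4) (nat_lit 484) (nat_lit 373) (nat_lit 343))) (XT.nd (nat_lit 78) (nat_lit 152) (nat_lit 0) (XT.lf (nat_lit 0) (nat_lit 19959988011) (nat_lit 76) (nat_lit 11014580454) (nat_lit 76) (nat_lit 8333667336) (nat_lit 27) (nat_lit 4) (nat_lit 28) (nat_lit 5) (nat_lit 28) (nat_lit 4) (nat_lit 485) (nat_lit 373) (nat_lit 342)) (XT.lf (nat_lit 0) (nat_lit 2641274176) (nat_lit 152) (nat_lit 38021756607) (nat_lit 0) (nat_lit 53658973) (nat_lit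 25) (nat_lit 5) (nat_lit 27) (nat_lit 4) (nat_lit 25) (nat_lit 4) (nat_lit 486) (nat_lit 373) (nat_lit 341)))) (XT.nd (nat_lit 156) (nat_lit 152) (nat_lit 0) (XT.nd (nat_lit 78) (nat_lit 76) (nat_lit 0) (XT.lf (nat_lit 0) (nat_lit 14229639821) (nat_lit 152) (nat_lit 16332562489) (nat_lit 0) (nat_lit 11609296415) (nat_lit 25) (nat_lit 5) (nat_lit 27) (nat_lit 4) (nat_lit 25) (nat_lit 4) (nat_lit 487) (nat_lit 373) (nat_lit 340)) (XT.lf (nat_lit 0) (nat_lit 6316768099) (nat_lit 76) (nat_lit 20018451839) (nat_lit 76) (nat_lit 17366938715) (nat_lit 24) (nat_lit 4) (nat_lit 25) (nat_lit 5) (nat_lit 25) (nat_lit 4) (nat_lit 488) (nat_lit 373) (nat_lit 339))) (XT.nd (nat_lit 78) (nat_lit 152) (nat_lit 0) (XT.lf (nat_lit 0) (nat_lit 30344361763) (nat_lit 76) (nat_lit 8820133930) (nat_lit 76) (nat_lit 6138935360) (nat_lit 24) (nat_lit 4) (nat_lit 25) (nat_lit 5) (nat_lit 25) (nat_lit 4) (nat_lit 489) (nat_lit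 373) (nat_lit 338)) (XT.lf (nat_lit 0) (nat_lit 5495602131) (nat_lit 152) (nat_lit 38568300913) (nat_lit 0) (nat_lit 2915154110) (nat_lit 22) (nat_lit 5) (nat_lit 24) (nat_lit 4) (nat_lit 22) (nat_lit 4) (nat_lit 490) (nat_lit 373) (nat_lit 337))))) (XT.nd (nat_lit 312) (nat_lit 228) (nat_lit 0) (XT.nd (nat_lit 156) (nat_lit 152) (nat_lit 0) (XT.nd (nat_lit 78) (nat_lit 76) (nat_lit 0) (XT.lf (nat_lit 0) (nat_lit 17754610235) (nat_lit 152) (nat_lit 15817851254) (nat_lit 0) (nat_lit 15148518809) (nat_lit 22) (nat_lit 5) (nat_lit 24) (nat_lit 4) (nat_lit 22) (nat_lit 4) (nat_lit 491) (nat_lit 373) (nat_lit 336)) (XT.lf (nat_lit 0) (nat_lit 8030885015) (nat_lit 76) (nat_lit 22575323287) (nat_lit 76) (nat_lit 19944809572) (nat_lit 21) (nat_lit 4) (nat_lit 22) (nat_lit 5) (nat_lit 22) (nat_lit 4) (nat_lit 492) (nat_lit 373) (nat_lit 335))) (XT.nd (nat_lit 78) (nat_lit 152) (nat_lit 0) (XT.lf (nat_lit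 0) (nat_lit 33329722449) (nat_lit 76) (nat_lit 10895190901) (nat_lit 76) (nat_lit 8241417863) (nat_lit 21) (nat_lit 4) (nat_lit 22) (nat_lit 5) (nat_lit 22) (nat_lit 4) (nat_lit 493) (nat_lit 373) (nat_lit 334)) (XT.lf (nat_lit 0) (nat_lit 3882137526) (nat_lit 152) (nat_lit 49260249409) (nat_lit 0) (nat_lit 1333637740) (nat_lit 19) (nat_lit 5) (nat_lit 21) (nat_lit 4) (nat_lit 19) (nat_lit 4) (nat_lit 494) (nat_lit 373) (nat_lit 333)))) (XT.nd (nat_lit 156) (nat_lit 228) (nat_lit 0) (XT.nd (nat_lit 78) (nat_lit 0) (nat_lit 0) (XT.lf (nat_lit 0) (nat_lit 16704216719) (nat_lit 152) (nat_lit 25721140796) (nat_lit 0) (nat_lit 14135624656) (nat_lit 19) (nat_lit 5) (nat_lit 21) (nat_lit 4) (nat_lit 19) (nat_lit 4) (nat_lit 495) (nat_lit 373) (nat_lit 332)) (XT.lf (nat_lit 0) (nat_lit 30035305956) (nat_lit 152) (nat_lit 1273908089) (nat_lit 0) (nat_lit 27447578389) (nat_lit 19) (nat_lit 5) (nat_lit 21)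 (nat_lit 4) (nat_lit 19) (nat_lit 4) (nat_lit 496) (nat_lit 373) (nat_lit 331))) (XT.nd (nat_lit 78) (nat_lit 152) (nat_lit 0) (XT.lf (nat_lit 0) (nat_lit 24937822467) (nat_lit 76) (nat_lit 19358672754) (nat_lit 76) (nat_lit 16752720899) (nat_lit 18) (nat_lit 4) (nat_lit 19) (nat_lit 5) (nat_lit 19) (nat_lit 4) (nat_lit 497) (nat_lit 373) (nat_lit 330)) (XT.nd (nat_lit 78) (nat_lit 152) (nat_lit 0) (XT.lf (nat_lit 0) (nat_lit 52252466432) (nat_lit 76) (nat_lit 6916105820) (nat_lit 76) (nat_lit 4292797500) (nat_lit 18) (nat_lit 4) (nat_lit 19) (nat_lit 5) (nat_lit 19) (nat_lit 4) (nat_lit 498) (nat_lit 373) (nat_lit 329)) (XT.lf (nat_lit 0) (nat_lit 8723956377) (nat_lit 152) (nat_lit 51042729598) (nat_lit 0) (nat_lit 6209824675) (nat_lit 16) (nat_lit 5) (nat_lit 18) (nat_lit 4) (nat_lit 16) (nat_lit 4) (nat_lit 499) (nat_lit 373) (nat_lit 328))))))))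
noncomputable def xc82 : XT := (XT.nd (nat_lit 1248) (nat_lit 380) (nat_lit 0) (XT.nd (nat_lit 624) (nat_lit 228) (nat_lit 0) (XT.nd (nat_lit 312) (nat_lit 228) (nat_lit 0) (XT.nd (nat_lit 156) (nat_lit 76) (nat_lit 0) (XT.nd (nat_lit 78) (nat_lit 0) (nat_lit 0) (XT.lf (nat_lit 0) (nat_lit 22433866906) (nat_lit 152) (nat_lit 26265951865) (nat_lit 0) (nat_lit 19904742037) (nat_lit 16) (nat_lit 5) (nat_lit 18) (nat_lit 4) (nat_lit 16) (nat_lit 4) (nat_lit 500) (nat_lit 373) (nat_lit 327)) (XT.lf (nat_lit 0) (nat_lit 36715240750) (nat_lit 152) (nat_lit 482637805) (nat_lit 0) (nat_lit 34171836674) (nat_lit 16) (nat_lit 5) (nat_lit 18) (nat_lit 4) (nat_lit 16) (nat_lit 4) (nat_lit 501) (nat_lit 373) (nat_lit 326))) (XT.nd (nat_lit 78) (nat_lit 0) (nat_lit 0) (XT.lf (nat_lit 0) (nat_lit 27240466470) (nat_lit 76) (nat_lit 24786914733) (nat_lit 76) (nat_lit 22229911412) (nat_lit 15) (nat_lit 4) (nat_lit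 16) (nat_lit 5) (nat_lit 16) (nat_lit 4) (nat_lit 502) (nat_lit 373) (nat_lit 325)) (XT.lf (nat_lit 0) (nat_lit 56148809917) (nat_lit 76) (nat_lit 11857663418) (nat_lit 76) (nat_lit 9287708436) (nat_lit 15) (nat_lit 4) (nat_lit 16) (nat_lit 5) (nat_lit 16) (nat_lit 4) (nat_lit 503) (nat_lit 373) (nat_lit 324)))) (XT.nd (nat_lit 156) (nat_lit 76) (nat_lit 0) (XT.nd (nat_lit 78) (nat_lit 0) (nat_lit 0) (XT.lf (nat_lit 0) (nat_lit 4180892921) (nat_lit 152) (nat_lit 74576247048) (nat_lit 0) (nat_lit 1721569209) (nat_lit 13) (nat_lit 5) (nat_lit 15) (nat_lit 4) (nat_lit 13) (nat_lit 4) (nat_lit 504) (nat_lit 373) (nat_lit 323)) (XT.lf (nat_lit 0) (nat_lit 18465790642) (nat_lit 152) (nat_lit 49331031045) (nat_lit 0) (nat_lit 15995278797) (nat_lit 13) (nat_lit 5) (nat_lit 15) (nat_lit 4) (nat_lit 13) (nat_lit 4) (nat_lit 505) (nat_lit 373) (nat_lit 322))) (XT.nd (nat_lit 78) (nat_lit 76) (nat_lit 0) (XT.lf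 (nat_lit 0) (nat_lit 33366484263) (nat_lit 152) (nat_lit 23024282598) (nat_lit 0) (nat_lit 30885317054) (nat_lit 13) (nat_lit 5) (nat_lit 15) (nat_lit 4) (nat_lit 13) (nat_lit 4) (nat_lit 506) (nat_lit 373) (nat_lit 321)) (XT.lf (nat_lit 0) (nat_lit 4552336608) (nat_lit 76) (nat_lit 44437189749) (nat_lit 76) (nat_lit 41945874575) (nat_lit 12) (nat_lit 4) (nat_lit 13) (nat_lit 5) (nat_lit 13) (nat_lit 4) (nat_lit 507) (nat_lit 373) (nat_lit 320))))) (XT.nd (nat_lit 312) (nat_lit 76) (nat_lit 0) (XT.nd (nat_lit 156) (nat_lit 152) (nat_lit 0) (XT.nd (nat_lit 78) (nat_lit 0) (nat_lit 0) (XT.lf (nat_lit 0) (nat_lit 34119051400) (nat_lit 76) (nat_lit 31572363835) (nat_lit 76) (nat_lit 29071383931) (nat_lit 12) (nat_lit 4) (nat_lit 13) (nat_lit 5) (nat_lit 13) (nat_lit 4) (nat_lit 508) (nat_lit 373) (nat_lit 319)) (XT.lf (nat_lit 0) (nat_lit 64984971952) (nat_lit 76) (nat_lit 18155585947) (nat_lit 76)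 (nat_lit 15645401539) (nat_lit 12) (nat_lit 4) (nat_lit 13) (nat_lit 5) (nat_lit 13) (nat_lit 4) (nat_lit 509) (nat_lit 373) (nat_lit 318))) (XT.nd (nat_lit 78) (nat_lit 152) (nat_lit 0) (XT.lf (nat_lit 0) (nat_lit 97223588551) (nat_lit 76) (nat_lit 4154911377) (nat_lit 76) (nat_lit 1635960775) (nat_lit 12) (nat_lit 4) (nat_lit 13) (nat_lit 5) (nat_lit 13) (nat_lit 4) (nat_lit 510) (nat_lit 373) (nat_lit 317)) (XT.lf (nat_lit 0) (nat_lit 13122360452) (nat_lit 152) (nat_lit 83583069100) (nat_lit 0) (nat_lit 10715408682) (nat_lit 10) (nat_lit 5) (nat_lit 12) (nat_lit 4) (nat_lit 10) (nat_lit 4) (nat_lit 511) (nat_lit 373) (nat_lit 316)))) (XT.nd (nat_lit 156) (nat_lit 76) (nat_lit 0) (XT.nd (nat_lit 78) (nat_lit 0) (nat_lit 0) (XT.lf (nat_lit 0) (nat_lit 28650456785) (nat_lit 152) (nat_lit 57155462634) (nat_lit 0) (nat_lit 26235932447) (nat_lit 10) (nat_lit 5) (nat_lit 12) (nat_lit 4) (nat_lit 10)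 (nat_lit 4) (nat_lit 512) (nat_lit 373) (nat_lit 315)) (XT.lf (nat_lit 0) (nat_lit 44877858701) (nat_lit 152) (nat_lit 29563790121) (nat_lit 0) (nat_lit 42456122392) (nat_lit 10) (nat_lit 5) (nat_lit 12) (nat_lit 4) (nat_lit 10) (nat_lit 4) (nat_lit 513) (nat_lit 373) (nat_lit 314))) (XT.nd (nat_lit 78) (nat_lit 76) (nat_lit 0) (XT.lf (nat_lit 0) (nat_lit 61843202871) (nat_lit 152) (nat_lit 742357103) (nat_lit 0) (nat_lit 59414598020) (nat_lit 10) (nat_lit 5) (nat_lit 12) (nat_lit 4) (nat_lit 10) (nat_lit 4) (nat_lit 514) (nat_lit 373) (nat_lit 313)) (XT.lf (nat_lit 0) (nat_lit 30348810342) (nat_lit 76) (nat_lit 49711902611) (nat_lit 76) (nat_lit 47276756291) (nat_lit 9) (nat_lit 4) (nat_lit 10) (nat_lit 5) (nat_lit 10) (nat_lit 4) (nat_lit 515) (nat_lit 373) (nat_lit 312)))))) (XT.nd (nat_lit 624) (nat_lit 228) (nat_lit 0) (XT.nd (nat_lit 312) (nat_lit 0) (nat_lit 0) (XT.nd (nat_lit 156) (nat_lit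 152) (nat_lit 0) (XT.nd (nat_lit 78) (nat_lit 0) (nat_lit 0) (XT.lf (nat_lit 0) (nat_lit 62879921868) (nat_lit 76) (nat_lit 36252955794) (nat_lit 76) (nat_lit 33811579503) (nat_lit 9) (nat_lit 4) (nat_lit 10) (nat_lit 5) (nat_lit 10) (nat_lit 4) (nat_lit 516) (nat_lit 373) (nat_lit 311)) (XT.lf (nat_lit 0) (nat_lit 96903886822) (nat_lit 76) (nat_lit 22189246588) (nat_lit 76) (nat_lit 19741936992) (nat_lit 9) (nat_lit 4) (nat_lit 10) (nat_lit 5) (nat_lit 10) (nat_lit 4) (nat_lit 517) (nat_lit 373) (nat_lit 310))) (XT.nd (nat_lit 78) (nat_lit 152) (nat_lit 0) (XT.lf (nat_lit 0) (nat_lit 132501714644) (nat_lit 76) (nat_lit 7487289972) (nat_lit 76) (nat_lit 5034329609) (nat_lit 9) (nat_lit 4) (nat_lit 10) (nat_lit 5) (nat_lit 10) (nat_lit 4) (nat_lit 518) (nat_lit 373) (nat_lit 309)) (XT.lf (nat_lit 0) (nat_lit 10437189292) (nat_lit 152) (nat_lit 132961701772) (nat_lit 0) (nat_lit 8095911152) (nat_lit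 7) (nat_lit 5) (nat_lit 9) (nat_lit 4) (nat_lit 7) (nat_lit 4) (nat_lit 519) (nat_lit 373) (nat_lit 308)))) (XT.nd (nat_lit 156) (nat_lit 0) (nat_lit 0) (XT.nd (nat_lit 78) (nat_lit 0) (nat_lit 0) (XT.lf (nat_lit 0) (nat_lit 26790992721) (nat_lit 152) (nat_lit 107035996445) (nat_lit 0) (nat_lit 24444833237) (nat_lit 7) (nat_lit 5) (nat_lit 9) (nat_lit 4) (nat_lit 7) (nat_lit 4) (nat_lit 520) (nat_lit 373) (nat_lit 307)) (XT.lf (nat_lit 0) (nat_lit 43904978261) (nat_lit 152) (nat_lit 79931420913) (nat_lit 0) (nat_lit 41554169877) (nat_lit 7) (nat_lit 5) (nat_lit 9) (nat_lit 4) (nat_lit 7) (nat_lit 4) (nat_lit 521) (nat_lit 373) (nat_lit 306))) (XT.nd (nat_lit 78) (nat_lit 0) (nat_lit 0) (XT.lf (nat_lit 0) (nat_lit 61819893497) (nat_lit 152) (nat_lit 51583440470) (nat_lit 0) (nat_lit 59464657588) (nat_lit 7) (nat_lit 5) (nat_lit 9) (nat_lit 4) (nat_lit 7) (nat_lit 4) (nat_lit 522) (nat_lit 373) (nat_lit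 305)) (XT.lf (nat_lit 0) (nat_lit 80578392987) (nat_lit 152) (nat_lit 21924559926) (nat_lit 0) (nat_lit 78218940390) (nat_lit 7) (nat_lit 5) (nat_lit 9) (nat_lit 4) (nat_lit 7) (nat_lit 4) (nat_lit 523) (nat_lit 373) (nat_lit 304))))) (XT.nd (nat_lit 312) (nat_lit 152) (nat_lit 0) (XT.nd (nat_lit 156) (nat_lit 0) (nat_lit 0) (XT.nd (nat_lit 78) (nat_lit 0) (nat_lit 0) (XT.lf (nat_lit 0) (nat_lit 9417247843) (nat_lit 76) (nat_lit 90954921615) (nat_lit 76) (nat_lit 88591453123) (nat_lit 6) (nat_lit 4) (nat_lit 7) (nat_lit 5) (nat_lit 7) (nat_lit 4) (nat_lit 524) (nat_lit 373) (nat_lit 303)) (XT.lf (nat_lit 0) (nat_lit 42987525600) (nat_lit 76) (nat_lit 78490542133) (nat_lit 76) (nat_lit 76123248979) (nat_lit 6) (nat_lit 4) (nat_lit 7) (nat_lit 5) (nat_lit 7) (nat_lit 4) (nat_lit 525) (nat_lit 373) (nat_lit 302))) (XT.nd (nat_lit 78) (nat_lit 0) (nat_lit 0) (XT.lf (nat_lit 0) (nat_lit 78141277611)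 (nat_lit 76) (nat_lit 65451440404) (nat_lit 76) (nat_lit 63080504716) (nat_lit 6) (nat_lit 4) (nat_lit 7) (nat_lit 5) (nat_lit 7) (nat_lit 4) (nat_lit 526) (nat_lit 373) (nat_lit 301)) (XT.lf (nat_lit 0) (nat_lit 114962203286) (nat_lit 76) (nat_lit 51806570950) (nat_lit 76) (nat_lit 49432166181) (nat_lit 6) (nat_lit 4) (nat_lit 7) (nat_lit 5) (nat_lit 7) (nat_lit 4) (nat_lit 527) (nat_lit 373) (nat_lit 300)))) (XT.nd (nat_lit 156) (nat_lit 152) (nat_lit 0) (XT.nd (nat_lit 78) (nat_lit 0) (nat_lit 0) (XT.lf (nat_lit 0) (nat_lit 153537971495) (nat_lit 76) (nat_lit 37523445986) (nat_lit 76) (nat_lit 35145737330) (nat_lit 6) (nat_lit 4) (nat_lit 7) (nat_lit 5) (nat_lit 7) (nat_lit 4) (nat_lit 528) (nat_lit 373) (nat_lit 299)) (XT.lf (nat_lit 0) (nat_lit 193960429306) (nat_lit 76) (nat_lit 22568058070) (nat_lit 76) (nat_lit 20187202855) (nat_lit 6) (nat_lit 4) (nat_lit 7) (nat_lit 5) (nat_lit 7) (nat_lit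 4) (nat_lit 529) (nat_lit 373) (nat_lit 298))) (XT.nd (nat_lit 78) (nat_lit 152) (nat_lit 0) (XT.lf (nat_lit 0) (nat_lit 236325820665) (nat_lit 76) (nat_lit 6904799137) (nat_lit 76) (nat_lit 4520947200) (nat_lit 6) (nat_lit 4) (nat_lit 7) (nat_lit 5) (nat_lit 7) (nat_lit 4) (nat_lit 530) (nat_lit 373) (nat_lit 297)) (XT.nd (nat_lit 78) (nat_lit 0) (nat_lit 0) (XT.lf (nat_lit 0) (nat_lit 12008864195) (nat_lit 152) (nat_lit 237562148916) (nat_lit 0) (nat_lit 9735810902) (nat_lit 4) (nat_lit 5) (nat_lit 6) (nat_lit 4) (nat_lit 4) (nat_lit 4) (nat_lit 531) (nat_lit 373) (nat_lit 296)) (XT.lf (nat_lit 0) (nat_lit 29486042276) (nat_lit 152) (nat_lit 214726055149) (nat_lit 0) (nat_lit 27210400301) (nat_lit 4) (nat_lit 5) (nat_lit 6) (nat_lit 4) (nat_lit 4) (nat_lit 4) (nat_lit 532) (nat_lit 373) (nat_lit 295))))))))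
noncomputable def xc83 : XT := (XT.nd (nat_lit 1248) (nat_lit 152) (nat_lit 0) (XT.nd (nat_lit 624) (nat_lit 0) (nat_lit 0) (XT.nd (nat_lit 312) (nat_lit 76) (nat_lit 0) (XT.nd (nat_lit 156) (nat_lit 0) (nat_lit 0) (XT.nd (nat_lit 78) (nat_lit 0) (nat_lit 0) (XT.lf (nat_lit 0) (nat_lit 47801787333) (nat_lit 152) (nat_lit 190820252468) (nat_lit 0) (nat_lit 45523679947) (nat_lit 4) (nat_lit 5) (nat_lit 6) (nat_lit 4) (nat_lit 4) (nat_lit 4) (nat_lit 533) (nat_lit 373) (nat_lit 294)) (XT.lf (nat_lit 0) (nat_lit 66999708282) (nat_lit 152) (nat_lit 165787822294) (nat_lit 0) (nat_lit 64719252886) (nat_lit 4) (nat_lit 5) (nat_lit 6) (nat_lit 4) (nat_lit 4) (nat_lit 4) (nat_lit 534) (nat_lit 373) (nat_lit 293))) (XT.nd (nat_lit 78) (nat_lit 0) (nat_lit 0) (XT.lf (nat_lit 0) (nat_lit 87125514459) (nat_lit 152) (nat_lit 139569163604) (nat_lit 0) (nat_lit 84842822863) (nat_lit 4) (nat_lit 5) (nat_lit 6) (nat_lit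 4) (nat_lit 4) (nat_lit 4) (nat_lit 535) (nat_lit 373) (nat_lit 292)) (XT.lf (nat_lit 0) (nat_lit 108227124451) (nat_lit 152) (nat_lit 112101851020) (nat_lit 0) (nat_lit 105942303140) (nat_lit 4) (nat_lit 5) (nat_lit 6) (nat_lit 4) (nat_lit 4) (nat_lit 4) (nat_lit 536) (nat_lit 373) (nat_lit 291)))) (XT.nd (nat_lit 156) (nat_lit 76) (nat_lit 0) (XT.nd (nat_lit 78) (nat_lit 0) (nat_lit 0) (XT.lf (nat_lit 0) (nat_lit 130354780185) (nat_lit 152) (nat_lit 83320486177) (nat_lit 0) (nat_lit 128067930574) (nat_lit 4) (nat_lit 5) (nat_lit 6) (nat_lit 4) (nat_lit 4) (nat_lit 4) (nat_lit 537) (nat_lit 373) (nat_lit 290)) (XT.lf (nat_lit 0) (nat_lit 153561166557) (nat_lit 152) (nat_lit 53156542018) (nat_lit 0) (nat_lit 151272385232) (nat_lit 4) (nat_lit 5) (nat_lit 6) (nat_lit 4) (nat_lit 4) (nat_lit 4) (nat_lit 538) (nat_lit 373) (nat_lit 289))) (XT.nd (nat_lit 78) (nat_lit 76) (nat_lit 0) (XT.lf (nat_lit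 0) (nat_lit 177901536867) (nat_lit 152) (nat_lit 21538199628) (nat_lit 0) (nat_lit 175610915815) (nat_lit 4) (nat_lit 5) (nat_lit 6) (nat_lit 4) (nat_lit 4) (nat_lit 4) (nat_lit 539) (nat_lit 373) (nat_lit 288)) (XT.lf (nat_lit 0) (nat_lit 11993695933) (nat_lit 76) (nat_lit 191627403651) (nat_lit 76) (nat_lit 189335030476) (nat_lit 3) (nat_lit 4) (nat_lit 4) (nat_lit 5) (nat_lit 4) (nat_lit 4) (nat_lit 540) (nat_lit 373) (nat_lit 287))))) (XT.nd (nat_lit 312) (nat_lit 0) (nat_lit 0) (XT.nd (nat_lit 156) (nat_lit 0) (nat_lit 0) (XT.nd (nat_lit 78) (nat_lit 0) (nat_lit 0) (XT.lf (nat_lit 0) (nat_lit 47899533214) (nat_lit 76) (nat_lit 183067193036) (nat_lit 76) (nat_lit 180773151174) (nat_lit 3) (nat_lit 4) (nat_lit 4) (nat_lit 5) (nat_lit 4) (nat_lit 4) (nat_lit 541) (nat_lit 373) (nat_lit 286)) (XT.lf (nat_lit 0) (nat_lit 85552652154) (nat_lit 76) (nat_lit 174103483030) (nat_lit 76) (nat_lit 171807851943)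 (nat_lit 3) (nat_lit 4) (nat_lit 4) (nat_lit 5) (nat_lit 4) (nat_lit 4) (nat_lit 542) (nat_lit 373) (nat_lit 285))) (XT.nd (nat_lit 78) (nat_lit 0) (nat_lit 0) (XT.lf (nat_lit 0) (nat_lit 125042703036) (nat_lit 76) (nat_lit 164714931466) (nat_lit 76) (nat_lit 162417786830) (nat_lit 3) (nat_lit 4) (nat_lit 4) (nat_lit 5) (nat_lit 4) (nat_lit 4) (nat_lit 543) (nat_lit 373) (nat_lit 284)) (XT.lf (nat_lit 0) (nat_lit 166463709792) (nat_lit 76) (nat_lit 154879184650) (nat_lit 76) (nat_lit 152580598540) (nat_lit 3) (nat_lit 4) (nat_lit 4) (nat_lit 5) (nat_lit 4) (nat_lit 4) (nat_lit 544) (nat_lit 373) (nat_lit 283)))) (XT.nd (nat_lit 156) (nat_lit 0) (nat_lit 0) (XT.nd (nat_lit 78) (nat_lit 0) (nat_lit 0) (XT.lf (nat_lit 0) (nat_lit 209914293864) (nat_lit 76) (nat_lit 144572824137) (nat_lit 76) (nat_lit 142272865194) (nat_lit 3) (nat_lit 4) (nat_lit 4) (nat_lit 5) (nat_lit 4) (nat_lit 4) (nat_lit 545)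 (nat_lit 373) (nat_lit 282)) (XT.lf (nat_lit 0) (nat_lit 255497909026) (nat_lit 76) (nat_lit 133771310974) (nat_lit 76) (nat_lit 131470044570) (nat_lit 3) (nat_lit 4) (nat_lit 4) (nat_lit 5) (nat_lit 4) (nat_lit 4) (nat_lit 546) (nat_lit 373) (nat_lit 281))) (XT.nd (nat_lit 78) (nat_lit 0) (nat_lit 0) (XT.lf (nat_lit 0) (nat_lit 303323087694) (nat_lit 76) (nat_lit 122448927271) (nat_lit 76) (nat_lit 120146415668) (nat_lit 3) (nat_lit 4) (nat_lit 4) (nat_lit 5) (nat_lit 4) (nat_lit 4) (nat_lit 547) (nat_lit 373) (nat_lit 280)) (XT.lf (nat_lit 0) (nat_lit 353503699342) (nat_lit 76) (nat_lit 110578714974) (nat_lit 76) (nat_lit 108275017465) (nat_lit 3) (nat_lit 4) (nat_lit 4) (nat_lit 5) (nat_lit 4) (nat_lit 4) (nat_lit 548) (nat_lit 373) (nat_lit 279)))))) (XT.nd (nat_lit 54912) (nat_lit 0) (nat_lit 4028) (XT.nd (nat_lit 312) (nat_lit 152) (nat_lit 0) (XT.nd (nat_lit 156) (nat_lit 0) (nat_lit 0)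 (XT.nd (nat_lit 78) (nat_lit 0) (nat_lit 0) (XT.lf (nat_lit 0) (nat_lit 406159221615) (nat_lit 76) (nat_lit 98132411670) (nat_lit 76) (nat_lit 95827584728) (nat_lit 3) (nat_lit 4) (nat_lit 4) (nat_lit 5) (nat_lit 4) (nat_lit 4) (nat_lit 549) (nat_lit 373) (nat_lit 278)) (XT.lf (nat_lit 0) (nat_lit 461415024805) (nat_lit 76) (nat_lit 85080383305) (nat_lit 76) (nat_lit 82774480713) (nat_lit 3) (nat_lit 4) (nat_lit 4) (nat_lit 5) (nat_lit 4) (nat_lit 4) (nat_lit 550) (nat_lit 373) (nat_lit 277))) (XT.nd (nat_lit 78) (nat_lit 0) (nat_lit 0) (XT.lf (nat_lit 0) (nat_lit 519402670349) (nat_lit 76) (nat_lit 71391553621) (nat_lit 76) (nat_lit 69084626600) (nat_lit 3) (nat_lit 4) (nat_lit 4) (nat_lit 5) (nat_lit 4) (nat_lit 4) (nat_lit 551) (nat_lit 373) (nat_lit 276)) (XT.lf (nat_lit 0) (nat_lit 580260224069) (nat_lit 76) (nat_lit 57033330167) (nat_lit 76) (nat_lit 54725427498) (nat_lit 3) (nat_lit 4) (nat_lit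 4) (nat_lit 5) (nat_lit 4) (nat_lit 4) (nat_lit 552) (nat_lit 373) (nat_lit 275)))) (XT.nd (nat_lit 156) (nat_lit 152) (nat_lit 0) (XT.nd (nat_lit 78) (nat_lit 0) (nat_lit 0) (XT.lf (nat_lit 0) (nat_lit 644132584902) (nat_lit 76) (nat_lit 41971526695) (nat_lit 76) (nat_lit 39662694839) (nat_lit 3) (nat_lit 4) (nat_lit 4) (nat_lit 5) (nat_lit 4) (nat_lit 4) (nat_lit 553) (nat_lit 373) (nat_lit 274)) (XT.lf (nat_lit 0) (nat_lit 711171829898) (nat_lit 76) (nat_lit 26170281769) (nat_lit 76) (nat_lit 23860564973) (nat_lit 3) (nat_lit 4) (nat_lit 4) (nat_lit 5) (nat_lit 4) (nat_lit 4) (nat_lit 554) (nat_lit 373) (nat_lit 273))) (XT.nd (nat_lit 78) (nat_lit 152) (nat_lit 0) (XT.lf (nat_lit 0) (nat_lit 781537576308) (nat_lit 76) (nat_lit 9591973378) (nat_lit 76) (nat_lit 7281413781) (nat_lit 3) (nat_lit 4) (nat_lit 4) (nat_lit 5) (nat_lit 4) (nat_lit 4) (nat_lit 555) (nat_lit 373) (nat_lit 272)) (XT.lf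 (nat_lit 0) (nat_lit 10206061975) (nat_lit 152) (nat_lit 819240758557) (nat_lit 0) (nat_lit 8004764581) (nat_lit 1) (nat_lit 5) (nat_lit 3) (nat_lit 4) (nat_lit 1) (nat_lit 4) (nat_lit 556) (nat_lit 373) (nat_lit 271))))) (XT.nd (nat_lit 312) (nat_lit 532) (nat_lit 0) (XT.nd (nat_lit 156) (nat_lit 152) (nat_lit 0) (XT.nd (nat_lit 78) (nat_lit 76) (nat_lit 0) (XT.lf (nat_lit 0) (nat_lit 852909185) (nat_lit 152) (nat_lit 5716004032) (nat_lit 0) (nat_lit 852909185) (nat_lit 64) (nat_lit 5) (nat_lit 66) (nat_lit 4) (nat_lit 64) (nat_lit 4) (nat_lit 452) (nat_lit 374) (nat_lit 374)) (XT.lf (nat_lit 0) (nat_lit 2394228258) (nat_lit 76) (nat_lit 6562879475) (nat_lit 76) (nat_lit 6254113151) (nat_lit 63) (nat_lit 4) (nat_lit 64) (nat_lit 5) (nat_lit 64) (nat_lit 4) (nat_lit 453) (nat_lit 374) (nat_lit 373))) (XT.nd (nat_lit 78) (nat_lit 0) (nat_lit 0) (XT.lf (nat_lit 0) (nat_lit 918845216) (nat_lit 152)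 (nat_lit 14334040031) (nat_lit 0) (nat_lit 344721892) (nat_lit 61) (nat_lit 5) (nat_lit 63) (nat_lit 4) (nat_lit 61) (nat_lit 4) (nat_lit 454) (nat_lit 374) (nat_lit 372)) (XT.lf (nat_lit 0) (nat_lit 8323466796) (nat_lit 152) (nat_lit 187943092) (nat_lit 0) (nat_lit 7482619513) (nat_lit 61) (nat_lit 5) (nat_lit 63) (nat_lit 4) (nat_lit 61) (nat_lit 4) (nat_lit 455) (nat_lit 374) (nat_lit 371)))) (XT.nd (nat_lit 156) (nat_lit 304) (nat_lit 0) (XT.nd (nat_lit 78) (nat_lit 152) (nat_lit 0) (XT.lf (nat_lit 0) (nat_lit 14683083019) (nat_lit 76) (nat_lit 1411133802) (nat_lit 76) (nat_lit 316263699) (nat_lit 60) (nat_lit 4) (nat_lit 61) (nat_lit 5) (nat_lit 61) (nat_lit 4) (nat_lit 456) (nat_lit 374) (nat_lit 370)) (XT.lf (nat_lit 0) (nat_lit 7243177117) (nat_lit 152) (nat_lit 3625037859) (nat_lit 0) (nat_lit 5970037501) (nat_lit 58) (nat_lit 5) (nat_lit 60) (nat_lit 4) (nat_lit 58) (nat_lit 4) (nat_lit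 457) (nat_lit 374) (nat_lit 369))) (XT.nd (nat_lit 78) (nat_lit 228) (nat_lit 0) (XT.lf (nat_lit 0) (nat_lit 11562665207) (nat_lit 76) (nat_lit 3608502311) (nat_lit 76) (nat_lit 2115928232) (nat_lit 57) (nat_lit 4) (nat_lit 58) (nat_lit 5) (nat_lit 58) (nat_lit 4) (nat_lit 458) (nat_lit 374) (nat_lit 368)) (XT.nd (nat_lit 78) (nat_lit 76) (nat_lit 0) (XT.lf (nat_lit 0) (nat_lit 5598856299) (nat_lit 152) (nat_lit 8174459339) (nat_lit 0) (nat_lit 3978323651) (nat_lit 55) (nat_lit 5) (nat_lit 57) (nat_lit 4) (nat_lit 55) (nat_lit 4) (nat_lit 459) (nat_lit 374) (nat_lit 367)) (XT.lf (nat_lit 0) (nat_lit 7291487050) (nat_lit 76) (nat_lit 6377130790) (nat_lit 76) (nat_lit 4567042403) (nat_lit 54) (nat_lit 4) (nat_lit 55) (nat_lit 5) (nat_lit 55) (nat_lit 4) (nat_lit 460) (nat_lit 374) (nat_lit 366))))))))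
noncomputable def xc84 : XT := (XT.nd (nat_lit 1248) (nat_lit 1140) (nat_lit 0) (XT.nd (nat_lit 624) (nat_lit 608) (nat_lit 0) (XT.nd (nat_lit 312) (nat_lit 380) (nat_lit 0) (XT.nd (nat_lit 156) (nat_lit 152) (nat_lit 0) (XT.nd (nat_lit 78) (nat_lit 76) (nat_lit 0) (XT.lf (nat_lit 0) (nat_lit 3295293595) (nat_lit 152) (nat_lit 14046167306) (nat_lit 0) (nat_lit 1399467251) (nat_lit 52) (nat_lit 5) (nat_lit 54) (nat_lit 4) (nat_lit 52) (nat_lit 4) (nat_lit 461) (nat_lit 374) (nat_lit 365)) (XT.lf (nat_lit 0) (nat_lit 1648340310) (nat_lit 76) (nat_lit 9837265974) (nat_lit 76) (nat_lit 7777694256) (nat_lit 51) (nat_lit 4) (nat_lit 52) (nat_lit 5) (nat_lit 52) (nat_lit 4) (nat_lit 462) (nat_lit 374) (nat_lit 364))) (XT.nd (nat_lit 78) (nat_lit 76) (nat_lit 0) (XT.lf (nat_lit 0) (nat_lit 276604341) (nat_lit 152) (nat_lit 1648480793) (nat_lit 76) (nat_lit 17885908345) (nat_lit 50) (nat_lit 5) (nat_lit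 52) (nat_lit 5) (nat_lit 51) (nat_lit 4) (nat_lit 463) (nat_lit 374) (nat_lit 363)) (XT.lf (nat_lit 0) (nat_lit 8590125343) (nat_lit 152) (nat_lit 5445020390) (nat_lit 0) (nat_lit 6338657176) (nat_lit 49) (nat_lit 5) (nat_lit 51) (nat_lit 4) (nat_lit 49) (nat_lit 4) (nat_lit 464) (nat_lit 374) (nat_lit 362)))) (XT.nd (nat_lit 156) (nat_lit 152) (nat_lit 0) (XT.nd (nat_lit 78) (nat_lit 152) (nat_lit 0) (XT.lf (nat_lit 0) (nat_lit 11324828191) (nat_lit 76) (nat_lit 6012601272) (nat_lit 76) (nat_lit 3626419381) (nat_lit 48) (nat_lit 4) (nat_lit 49) (nat_lit 5) (nat_lit 49) (nat_lit 4) (nat_lit 465) (nat_lit 374) (nat_lit 361)) (XT.lf (nat_lit 0) (nat_lit 4808250527) (nat_lit 152) (nat_lit 14356404523) (nat_lit 0) (nat_lit 2413507026) (nat_lit 46) (nat_lit 5) (nat_lit 48) (nat_lit 4) (nat_lit 46) (nat_lit 4) (nat_lit 466) (nat_lit 374) (nat_lit 360))) (XT.nd (nat_lit 78) (nat_lit 76) (nat_lit 0) (XT.lf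 (nat_lit 0) (nat_lit 2530465566) (nat_lit 76) (nat_lit 11098285001) (nat_lit 76) (nat_lit 8587170719) (nat_lit 45) (nat_lit 4) (nat_lit 46) (nat_lit 5) (nat_lit 46) (nat_lit 4) (nat_lit 467) (nat_lit 374) (nat_lit 359)) (XT.lf (nat_lit 0) (nat_lit 33835685) (nat_lit 152) (nat_lit 2552580439) (nat_lit 76) (nat_lit 20297685783) (nat_lit 44) (nat_lit 5) (nat_lit 46) (nat_lit 5) (nat_lit 45) (nat_lit 4) (nat_lit 468) (nat_lit 374) (nat_lit 358))))) (XT.nd (nat_lit 312) (nat_lit 304) (nat_lit 0) (XT.nd (nat_lit 156) (nat_lit 152) (nat_lit 0) (XT.nd (nat_lit 78) (nat_lit 76) (nat_lit 0) (XT.lf (nat_lit 0) (nat_lit 8932036393) (nat_lit 152) (nat_lit 8305459275) (nat_lit 0) (nat_lit 6334421799) (nat_lit 43) (nat_lit 5) (nat_lit 45) (nat_lit 4) (nat_lit 43) (nat_lit 4) (nat_lit 469) (nat_lit 374) (nat_lit 357)) (XT.lf (nat_lit 0) (nat_lit 9623182316) (nat_lit 76) (nat_lit 8681411629) (nat_lit 76) (nat_lit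 5988058506) (nat_lit 42) (nat_lit 4) (nat_lit 43) (nat_lit 5) (nat_lit 43) (nat_lit 4) (nat_lit 470) (nat_lit 374) (nat_lit 356))) (XT.nd (nat_lit 78) (nat_lit 0) (nat_lit 0) (XT.lf (nat_lit 0) (nat_lit 2990770576) (nat_lit 152) (nat_lit 21717726760) (nat_lit 0) (nat_lit 338834696) (nat_lit 40) (nat_lit 5) (nat_lit 42) (nat_lit 4) (nat_lit 40) (nat_lit 4) (nat_lit 471) (nat_lit 374) (nat_lit 355)) (XT.lf (nat_lit 0) (nat_lit 12405429588) (nat_lit 152) (nat_lit 3749211116) (nat_lit 0) (nat_lit 9670791167) (nat_lit 40) (nat_lit 5) (nat_lit 42) (nat_lit 4) (nat_lit 40) (nat_lit 4) (nat_lit 472) (nat_lit 374) (nat_lit 354)))) (XT.nd (nat_lit 156) (nat_lit 76) (nat_lit 0) (XT.nd (nat_lit 78) (nat_lit 152) (nat_lit 0) (XT.lf (nat_lit 0) (nat_lit 15209031668) (nat_lit 76) (nat_lit 7122389310) (nat_lit 76) (nat_lit 4308986564) (nat_lit 39) (nat_lit 4) (nat_lit 40) (nat_lit 5) (nat_lit 40) (nat_lit 4) (nat_lit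 473) (nat_lit 374) (nat_lit 353)) (XT.lf (nat_lit 0) (nat_lit 5112517358) (nat_lit 152) (nat_lit 20016705846) (nat_lit 0) (nat_lit 2361644607) (nat_lit 37) (nat_lit 5) (nat_lit 39) (nat_lit 4) (nat_lit 37) (nat_lit 4) (nat_lit 474) (nat_lit 374) (nat_lit 352))) (XT.nd (nat_lit 78) (nat_lit 76) (nat_lit 0) (XT.lf (nat_lit 0) (nat_lit 14977319820) (nat_lit 152) (nat_lit 1238740857) (nat_lit 0) (nat_lit 12158407484) (nat_lit 37) (nat_lit 5) (nat_lit 39) (nat_lit 4) (nat_lit 37) (nat_lit 4) (nat_lit 475) (nat_lit 374) (nat_lit 351)) (XT.lf (nat_lit 0) (nat_lit 18699632641) (nat_lit 76) (nat_lit 6740543893) (nat_lit 76) (nat_lit 3856831952) (nat_lit 36) (nat_lit 4) (nat_lit 37) (nat_lit 5) (nat_lit 37) (nat_lit 4) (nat_lit 476) (nat_lit 374) (nat_lit 350)))))) (XT.nd (nat_lit 624) (nat_lit 532) (nat_lit 0) (XT.nd (nat_lit 312) (nat_lit 228) (nat_lit 0) (XT.nd (nat_lit 156) (nat_lit 228) (nat_lit 0)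 (XT.nd (nat_lit 78) (nat_lit 0) (nat_lit 0) (XT.lf (nat_lit 0) (nat_lit 5993220470) (nat_lit 152) (nat_lit 21078099102) (nat_lit 0) (nat_lit 3188052993) (nat_lit 34) (nat_lit 5) (nat_lit 36) (nat_lit 4) (nat_lit 34) (nat_lit 4) (nat_lit 477) (nat_lit 374) (nat_lit 349)) (XT.lf (nat_lit 0) (nat_lit 16312231590) (nat_lit 152) (nat_lit 1498071171) (nat_lit 0) (nat_lit 13451087779) (nat_lit 34) (nat_lit 5) (nat_lit 36) (nat_lit 4) (nat_lit 34) (nat_lit 4) (nat_lit 478) (nat_lit 374) (nat_lit 348))) (XT.nd (nat_lit 78) (nat_lit 152) (nat_lit 0) (XT.lf (nat_lit 0) (nat_lit 19319992402) (nat_lit 76) (nat_lit 7950893760) (nat_lit 76) (nat_lit 5036439154) (nat_lit 33) (nat_lit 4) (nat_lit 34) (nat_lit 5) (nat_lit 34) (nat_lit 4) (nat_lit 479) (nat_lit 374) (nat_lit 347)) (XT.lf (nat_lit 0) (nat_lit 5205396252) (nat_lit 152) (nat_lit 25814326082) (nat_lit 0) (nat_lit 2381370735) (nat_lit 31) (nat_lit 5)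 (nat_lit 33) (nat_lit 4) (nat_lit 31) (nat_lit 4) (nat_lit 480) (nat_lit 374) (nat_lit 346)))) (XT.nd (nat_lit 156) (nat_lit 152) (nat_lit 0) (XT.nd (nat_lit 78) (nat_lit 76) (nat_lit 0) (XT.lf (nat_lit 0) (nat_lit 15966258125) (nat_lit 152) (nat_lit 5474172988) (nat_lit 0) (nat_lit 13096180739) (nat_lit 31) (nat_lit 5) (nat_lit 33) (nat_lit 4) (nat_lit 31) (nat_lit 4) (nat_lit 481) (nat_lit 374) (nat_lit 345)) (XT.lf (nat_lit 0) (nat_lit 16054379506) (nat_lit 76) (nat_lit 11292196588) (nat_lit 76) (nat_lit 8378260279) (nat_lit 30) (nat_lit 4) (nat_lit 31) (nat_lit 5) (nat_lit 31) (nat_lit 4) (nat_lit 482) (nat_lit 374) (nat_lit 344))) (XT.nd (nat_lit 78) (nat_lit 0) (nat_lit 0) (XT.lf (nat_lit 0) (nat_lit 1550897792) (nat_lit 76) (nat_lit 647445868) (nat_lit 152) (nat_lit 34774851584) (nat_lit 28) (nat_lit 5) (nat_lit 29) (nat_lit 5) (nat_lit 30) (nat_lit 4) (nat_lit 483) (nat_lit 374) (nat_lit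 343)) (XT.lf (nat_lit 0) (nat_lit 13356158231) (nat_lit 152) (nat_lit 14400937074) (nat_lit 0) (nat_lit 10503312471) (nat_lit 28) (nat_lit 5) (nat_lit 30) (nat_lit 4) (nat_lit 28) (nat_lit 4) (nat_lit 484) (nat_lit 374) (nat_lit 342))))) (XT.nd (nat_lit 312) (nat_lit 304) (nat_lit 0) (XT.nd (nat_lit 156) (nat_lit 152) (nat_lit 0) (XT.nd (nat_lit 78) (nat_lit 0) (nat_lit 0) (XT.lf (nat_lit 0) (nat_lit 7577057116) (nat_lit 76) (nat_lit 17462728349) (nat_lit 76) (nat_lit 14573799744) (nat_lit 27) (nat_lit 4) (nat_lit 28) (nat_lit 5) (nat_lit 28) (nat_lit 4) (nat_lit 485) (nat_lit 374) (nat_lit 341)) (XT.lf (nat_lit 0) (nat_lit 30832848990) (nat_lit 76) (nat_lit 6560294316) (nat_lit 76) (nat_lit 3637001097) (nat_lit 27) (nat_lit 4) (nat_lit 28) (nat_lit 5) (nat_lit 28) (nat_lit 4) (nat_lit 486) (nat_lit 374) (nat_lit 340))) (XT.nd (nat_lit 78) (nat_lit 0) (nat_lit 0) (XT.lf (nat_lit 0) (nat_lit 7719726104)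 (nat_lit 152) (nat_lit 29881001268) (nat_lit 0) (nat_lit 4904467606) (nat_lit 25) (nat_lit 5) (nat_lit 27) (nat_lit 4) (nat_lit 25) (nat_lit 4) (nat_lit 487) (nat_lit 374) (nat_lit 339)) (XT.lf (nat_lit 0) (nat_lit 19651967735) (nat_lit 152) (nat_lit 7585530453) (nat_lit 0) (nat_lit 16807023792) (nat_lit 25) (nat_lit 5) (nat_lit 27) (nat_lit 4) (nat_lit 25) (nat_lit 4) (nat_lit 488) (nat_lit 374) (nat_lit 338)))) (XT.nd (nat_lit 156) (nat_lit 228) (nat_lit 0) (XT.nd (nat_lit 78) (nat_lit 0) (nat_lit 0) (XT.lf (nat_lit 0) (nat_lit 16042014082) (nat_lit 76) (nat_lit 16243394002) (nat_lit 76) (nat_lit 13370178206) (nat_lit 24) (nat_lit 4) (nat_lit 25) (nat_lit 5) (nat_lit 25) (nat_lit 4) (nat_lit 489) (nat_lit 374) (nat_lit 337)) (XT.lf (nat_lit 0) (nat_lit 40822920401) (nat_lit 76) (nat_lit 4712587836) (nat_lit 76) (nat_lit 1812446466) (nat_lit 24) (nat_lit 4) (nat_lit 25) (nat_lit 5) (nat_lit 25)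 (nat_lit 4) (nat_lit 490) (nat_lit 374) (nat_lit 336))) (XT.nd (nat_lit 78) (nat_lit 76) (nat_lit 0) (XT.lf (nat_lit 0) (nat_lit 10252931611) (nat_lit 152) (nat_lit 31384473288) (nat_lit 0) (nat_lit 7466469921) (nat_lit 22) (nat_lit 5) (nat_lit 24) (nat_lit 4) (nat_lit 22) (nat_lit 4) (nat_lit 491) (nat_lit 374) (nat_lit 335)) (XT.nd (nat_lit 78) (nat_lit 76) (nat_lit 0) (XT.lf (nat_lit 0) (nat_lit 22911435388) (nat_lit 152) (nat_lit 7930417464) (nat_lit 0) (nat_lit 20101714374) (nat_lit 22) (nat_lit 5) (nat_lit 24) (nat_lit 4) (nat_lit 22) (nat_lit 4) (nat_lit 492) (nat_lit 374) (nat_lit 334)) (XT.lf (nat_lit 0) (nat_lit 16970782612) (nat_lit 76) (nat_lit 19364848149) (nat_lit 76) (nat_lit 16532975399) (nat_lit 21) (nat_lit 4) (nat_lit 22) (nat_lit 5) (nat_lit 22) (nat_lit 4) (nat_lit 493) (nat_lit 374) (nat_lit 333))))))))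
noncomputable def xc85 : XT := (XT.nd (nat_lit 1248) (nat_lit 456) (nat_lit 0) (XT.nd (nat_lit 624) (nat_lit 304) (nat_lit 0) (XT.nd (nat_lit 312) (nat_lit 152) (nat_lit 0) (XT.nd (nat_lit 156) (nat_lit 76) (nat_lit 0) (XT.nd (nat_lit 78) (nat_lit 152) (nat_lit 0) (XT.lf (nat_lit 0) (nat_lit 43127973664) (nat_lit 76) (nat_lit 7307339682) (nat_lit 76) (nat_lit 4454370040) (nat_lit 21) (nat_lit 4) (nat_lit 22) (nat_lit 5) (nat_lit 22) (nat_lit 4) (nat_lit 494) (nat_lit 374) (nat_lit 332)) (XT.lf (nat_lit 0) (nat_lit 8138937790) (nat_lit 152) (nat_lit 43455059056) (nat_lit 0) (nat_lit 5402688342) (nat_lit 19) (nat_lit 5) (nat_lit 21) (nat_lit 4) (nat_lit 19) (nat_lit 4) (nat_lit 495) (nat_lit 374) (nat_lit 331))) (XT.nd (nat_lit 78) (nat_lit 76) (nat_lit 0) (XT.lf (nat_lit 0) (nat_lit 21408659354) (nat_lit 152) (nat_lit 19132718956) (nat_lit 0) (nat_lit 18654185617) (nat_lit 19) (nat_lit 5) (nat_lit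 21) (nat_lit 4) (nat_lit 19) (nat_lit 4) (nat_lit 496) (nat_lit 374) (nat_lit 330)) (XT.lf (nat_lit 0) (nat_lit 6365640449) (nat_lit 76) (nat_lit 28955798956) (nat_lit 76) (nat_lit 26183968755) (nat_lit 18) (nat_lit 4) (nat_lit 19) (nat_lit 5) (nat_lit 19) (nat_lit 4) (nat_lit 497) (nat_lit 374) (nat_lit 329)))) (XT.nd (nat_lit 156) (nat_lit 152) (nat_lit 0) (XT.nd (nat_lit 78) (nat_lit 0) (nat_lit 0) (XT.lf (nat_lit 0) (nat_lit 33563257548) (nat_lit 76) (nat_lit 16572769483) (nat_lit 76) (nat_lit 13784409315) (nat_lit 18) (nat_lit 4) (nat_lit 19) (nat_lit 5) (nat_lit 19) (nat_lit 4) (nat_lit 498) (nat_lit 374) (nat_lit 328)) (XT.lf (nat_lit 0) (nat_lit 61892274476) (nat_lit 76) (nat_lit 3686828341) (nat_lit 76) (nat_lit 882725347) (nat_lit 18) (nat_lit 4) (nat_lit 19) (nat_lit 5) (nat_lit 19) (nat_lit 4) (nat_lit 499) (nat_lit 374) (nat_lit 327))) (XT.nd (nat_lit 78) (nat_lit 0) (nat_lit 0) (XT.lf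 (nat_lit 0) (nat_lit 12667339996) (nat_lit 152) (nat_lit 46450145873) (nat_lit 0) (nat_lit 9982486509) (nat_lit 16) (nat_lit 5) (nat_lit 18) (nat_lit 4) (nat_lit 16) (nat_lit 4) (nat_lit 500) (nat_lit 374) (nat_lit 326)) (XT.lf (nat_lit 0) (nat_lit 26895737203) (nat_lit 152) (nat_lit 20774754024) (nat_lit 0) (nat_lit 24197284472) (nat_lit 16) (nat_lit 5) (nat_lit 18) (nat_lit 4) (nat_lit 16) (nat_lit 4) (nat_lit 501) (nat_lit 374) (nat_lit 325))))) (XT.nd (nat_lit 312) (nat_lit 76) (nat_lit 0) (XT.nd (nat_lit 156) (nat_lit 152) (nat_lit 0) (XT.nd (nat_lit 78) (nat_lit 0) (nat_lit 0) (XT.lf (nat_lit 0) (nat_lit 6171219716) (nat_lit 76) (nat_lit 35657254012) (nat_lit 76) (nat_lit 32945849619) (nat_lit 15) (nat_lit 4) (nat_lit 16) (nat_lit 5) (nat_lit 16) (nat_lit 4) (nat_lit 502) (nat_lit 374) (nat_lit 324)) (XT.lf (nat_lit 0) (nat_lit 34978437896) (nat_lit 76) (nat_lit 22779497745) (nat_lit 76)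 (nat_lit 20055758436) (nat_lit 15) (nat_lit 4) (nat_lit 16) (nat_lit 5) (nat_lit 16) (nat_lit 4) (nat_lit 503) (nat_lit 374) (nat_lit 323))) (XT.nd (nat_lit 78) (nat_lit 152) (nat_lit 0) (XT.lf (nat_lit 0) (nat_lit 65028581939) (nat_lit 76) (nat_lit 9358391613) (nat_lit 76) (nat_lit 6622904765) (nat_lit 15) (nat_lit 4) (nat_lit 16) (nat_lit 5) (nat_lit 16) (nat_lit 4) (nat_lit 504) (nat_lit 374) (nat_lit 322)) (XT.lf (nat_lit 0) (nat_lit 7417844187) (nat_lit 152) (nat_lit 72131438496) (nat_lit 0) (nat_lit 4801963254) (nat_lit 13) (nat_lit 5) (nat_lit 15) (nat_lit 4) (nat_lit 13) (nat_lit 4) (nat_lit 505) (nat_lit 374) (nat_lit 321)))) (XT.nd (nat_lit 156) (nat_lit 76) (nat_lit 0) (XT.nd (nat_lit 78) (nat_lit 0) (nat_lit 0) (XT.lf (nat_lit 0) (nat_lit 22272800765) (nat_lit 152) (nat_lit 45917943641) (nat_lit 0) (nat_lit 19646771865) (nat_lit 13) (nat_lit 5) (nat_lit 15) (nat_lit 4) (nat_lit 13)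 (nat_lit 4) (nat_lit 506) (nat_lit 374) (nat_lit 320)) (XT.lf (nat_lit 0) (nat_lit 37781209038) (nat_lit 152) (nat_lit 18575840579) (nat_lit 0) (nat_lit 35145515410) (nat_lit 13) (nat_lit 5) (nat_lit 15) (nat_lit 4) (nat_lit 13) (nat_lit 4) (nat_lit 507) (nat_lit 374) (nat_lit 319))) (XT.nd (nat_lit 78) (nat_lit 0) (nat_lit 0) (XT.lf (nat_lit 0) (nat_lit 10289292554) (nat_lit 76) (nat_lit 43851345929) (nat_lit 76) (nat_lit 41206447796) (nat_lit 12) (nat_lit 4) (nat_lit 13) (nat_lit 5) (nat_lit 13) (nat_lit 4) (nat_lit 508) (nat_lit 374) (nat_lit 318)) (XT.lf (nat_lit 0) (nat_lit 41071993603) (nat_lit 76) (nat_lit 30476978876) (nat_lit 76) (nat_lit 27823314549) (nat_lit 12) (nat_lit 4) (nat_lit 13) (nat_lit 5) (nat_lit 13) (nat_lit 4) (nat_lit 509) (nat_lit 374) (nat_lit 317)))))) (XT.nd (nat_lit 624) (nat_lit 228) (nat_lit 0) (XT.nd (nat_lit 312) (nat_lit 76) (nat_lit 0) (XT.nd (nat_lit 156) (nat_lit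 76) (nat_lit 0) (XT.nd (nat_lit 78) (nat_lit 76) (nat_lit 0) (XT.lf (nat_lit 0) (nat_lit 73231353534) (nat_lit 76) (nat_lit 16516695577) (nat_lit 76) (nat_lit 13854682494) (nat_lit 12) (nat_lit 4) (nat_lit 13) (nat_lit 5) (nat_lit 13) (nat_lit 4) (nat_lit 510) (nat_lit 374) (nat_lit 316)) (XT.lf (nat_lit 0) (nat_lit 709255816) (nat_lit 152) (nat_lit 1215989856) (nat_lit 76) (nat_lit 106122674843) (nat_lit 11) (nat_lit 5) (nat_lit 13) (nat_lit 5) (nat_lit 12) (nat_lit 4) (nat_lit 511) (nat_lit 374) (nat_lit 315))) (XT.nd (nat_lit 78) (nat_lit 0) (nat_lit 0) (XT.lf (nat_lit 0) (nat_lit 16149750026) (nat_lit 152) (nat_lit 82923849330) (nat_lit 0) (nat_lit 13599714932) (nat_lit 10) (nat_lit 5) (nat_lit 12) (nat_lit 4) (nat_lit 10) (nat_lit 4) (nat_lit 512) (nat_lit 374) (nat_lit 314)) (XT.lf (nat_lit 0) (nat_lit 32341333483) (nat_lit 152) (nat_lit 55405261266) (nat_lit 0) (nat_lit 29784429846) (nat_lit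 10) (nat_lit 5) (nat_lit 12) (nat_lit 4) (nat_lit 10) (nat_lit 4) (nat_lit 513) (nat_lit 374) (nat_lit 313)))) (XT.nd (nat_lit 156) (nat_lit 0) (nat_lit 0) (XT.nd (nat_lit 78) (nat_lit 76) (nat_lit 0) (XT.lf (nat_lit 0) (nat_lit 49272564834) (nat_lit 152) (nat_lit 26653432484) (nat_lit 0) (nat_lit 46709119729) (nat_lit 10) (nat_lit 5) (nat_lit 12) (nat_lit 4) (nat_lit 10) (nat_lit 4) (nat_lit 514) (nat_lit 374) (nat_lit 312)) (XT.lf (nat_lit 0) (nat_lit 3512516203) (nat_lit 76) (nat_lit 63526080555) (nat_lit 76) (nat_lit 60956405479) (nat_lit 9) (nat_lit 4) (nat_lit 10) (nat_lit 5) (nat_lit 10) (nat_lit 4) (nat_lit 515) (nat_lit 374) (nat_lit 311))) (XT.nd (nat_lit 78) (nat_lit 0) (nat_lit 0) (XT.lf (nat_lit 0) (nat_lit 35978407169) (nat_lit 76) (nat_lit 50100394690) (nat_lit 76) (nat_lit 47524786308) (nat_lit 9) (nat_lit 4) (nat_lit 10) (nat_lit 5) (nat_lit 10) (nat_lit 4) (nat_lit 516) (nat_lit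 374) (nat_lit 310)) (XT.lf (nat_lit 0) (nat_lit 69940257303) (nat_lit 76) (nat_lit 36068362582) (nat_lit 76) (nat_lit 33487103433) (nat_lit 9) (nat_lit 4) (nat_lit 10) (nat_lit 5) (nat_lit 10) (nat_lit 4) (nat_lit 517) (nat_lit 374) (nat_lit 309))))) (XT.nd (nat_lit 312) (nat_lit 76) (nat_lit 0) (XT.nd (nat_lit 156) (nat_lit 152) (nat_lit 0) (XT.nd (nat_lit 78) (nat_lit 0) (nat_lit 0) (XT.lf (nat_lit 0) (nat_lit 105478928155) (nat_lit 76) (nat_lit 21396574631) (nat_lit 76) (nat_lit 18809933799) (nat_lit 9) (nat_lit 4) (nat_lit 10) (nat_lit 5) (nat_lit 10) (nat_lit 4) (nat_lit 518) (nat_lit 374) (nat_lit 308)) (XT.lf (nat_lit 0) (nat_lit 142679035607) (nat_lit 76) (nat_lit 6050098007) (nat_lit 76) (nat_lit 3458331763) (nat_lit 9) (nat_lit 4) (nat_lit 10) (nat_lit 5) (nat_lit 10) (nat_lit 4) (nat_lit 519) (nat_lit 374) (nat_lit 307))) (XT.nd (nat_lit 78) (nat_lit 0) (nat_lit 0) (XT.lf (nat_lit 0)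 (nat_lit 12727772283) (nat_lit 152) (nat_lit 135998557817) (nat_lit 0) (nat_lit 10254774580) (nat_lit 7) (nat_lit 5) (nat_lit 9) (nat_lit 4) (nat_lit 7) (nat_lit 4) (nat_lit 520) (nat_lit 374) (nat_lit 306)) (XT.lf (nat_lit 0) (nat_lit 29815040954) (nat_lit 152) (nat_lit 108948530512) (nat_lit 0) (nat_lit 27337615727) (nat_lit 7) (nat_lit 5) (nat_lit 9) (nat_lit 4) (nat_lit 7) (nat_lit 4) (nat_lit 521) (nat_lit 374) (nat_lit 305)))) (XT.nd (nat_lit 156) (nat_lit 76) (nat_lit 0) (XT.nd (nat_lit 78) (nat_lit 0) (nat_lit 0) (XT.lf (nat_lit 0) (nat_lit 47704511553) (nat_lit 152) (nat_lit 80652500763) (nat_lit 0) (nat_lit 45222869636) (nat_lit 7) (nat_lit 5) (nat_lit 9) (nat_lit 4) (nat_lit 7) (nat_lit 4) (nat_lit 522) (nat_lit 374) (nat_lit 304)) (XT.lf (nat_lit 0) (nat_lit 66438778056) (nat_lit 152) (nat_lit 51043097070) (nat_lit 0) (nat_lit 63953120244) (nat_lit 7) (nat_lit 5) (nat_lit 9) (nat_lit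 4) (nat_lit 7) (nat_lit 4) (nat_lit 523) (nat_lit 374) (nat_lit 303))) (XT.nd (nat_lit 78) (nat_lit 76) (nat_lit 0) (XT.lf (nat_lit 0) (nat_lit 86062445860) (nat_lit 152) (nat_lit 20049820852) (nat_lit 0) (nat_lit 83572963387) (nat_lit 7) (nat_lit 5) (nat_lit 9) (nat_lit 4) (nat_lit 7) (nat_lit 4) (nat_lit 524) (nat_lit 374) (nat_lit 302)) (XT.nd (nat_lit 78) (nat_lit 0) (nat_lit 0) (XT.lf (nat_lit 0) (nat_lit 12811158482) (nat_lit 76) (nat_lit 94011097588) (nat_lit 76) (nat_lit 91517972580) (nat_lit 6) (nat_lit 4) (nat_lit 7) (nat_lit 5) (nat_lit 7) (nat_lit 4) (nat_lit 525) (nat_lit 374) (nat_lit 301)) (XT.lf (nat_lit 0) (nat_lit 47920757353) (nat_lit 76) (nat_lit 80994526280) (nat_lit 76) (nat_lit 78497932191) (nat_lit 6) (nat_lit 4) (nat_lit 7) (nat_lit 5) (nat_lit 7) (nat_lit 4) (nat_lit 526) (nat_lit 374) (nat_lit 300))))))))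
noncomputable def xc86 : XT := (XT.nd (nat_lit 1248) (nat_lit 0) (nat_lit 0) (XT.nd (nat_lit 624) (nat_lit 76) (nat_lit 0) (XT.nd (nat_lit 312) (nat_lit 152) (nat_lit 0) (XT.nd (nat_lit 156) (nat_lit 0) (nat_lit 0) (XT.nd (nat_lit 78) (nat_lit 0) (nat_lit 0) (XT.lf (nat_lit 0) (nat_lit 84699632419) (nat_lit 76) (nat_lit 67371114368) (nat_lit 76) (nat_lit 64871216393) (nat_lit 6) (nat_lit 4) (nat_lit 7) (nat_lit 5) (nat_lit 7) (nat_lit 4) (nat_lit 527) (nat_lit 374) (nat_lit 299)) (XT.lf (nat_lit 0) (nat_lit 123235352429) (nat_lit 76) (nat_lit 53108425158) (nat_lit 76) (nat_lit 50605380624) (nat_lit 6) (nat_lit 4) (nat_lit 7) (nat_lit 5) (nat_lit 7) (nat_lit 4) (nat_lit 528) (nat_lit 374) (nat_lit 298))) (XT.nd (nat_lit 78) (nat_lit 0) (nat_lit 0) (XT.lf (nat_lit 0) (nat_lit 163619669097) (nat_lit 76) (nat_lit 38172499866) (nat_lit 76) (nat_lit 35666458610) (nat_lit 6) (nat_lit 4) (nat_lit 7) (nat_lit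 5) (nat_lit 7) (nat_lit 4) (nat_lit 529) (nat_lit 374) (nat_lit 297)) (XT.lf (nat_lit 0) (nat_lit 205948735559) (nat_lit 76) (nat_lit 22527776765) (nat_lit 76) (nat_lit 20018881488) (nat_lit 6) (nat_lit 4) (nat_lit 7) (nat_lit 5) (nat_lit 7) (nat_lit 4) (nat_lit 530) (nat_lit 374) (nat_lit 296)))) (XT.nd (nat_lit 156) (nat_lit 0) (nat_lit 0) (XT.nd (nat_lit 78) (nat_lit 152) (nat_lit 0) (XT.lf (nat_lit 0) (nat_lit 250323335306) (nat_lit 76) (nat_lit 6137006514) (nat_lit 76) (nat_lit 3625393121) (nat_lit 6) (nat_lit 4) (nat_lit 7) (nat_lit 5) (nat_lit 7) (nat_lit 4) (nat_lit 531) (nat_lit 374) (nat_lit 295)) (XT.lf (nat_lit 0) (nat_lit 13694749396) (nat_lit 152) (nat_lit 247222871709) (nat_lit 0) (nat_lit 11300271230) (nat_lit 4) (nat_lit 5) (nat_lit 6) (nat_lit 4) (nat_lit 4) (nat_lit 4) (nat_lit 532) (nat_lit 374) (nat_lit 294))) (XT.nd (nat_lit 78) (nat_lit 0) (nat_lit 0) (XT.lf (nat_lit 0) (nat_lit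 31994098667) (nat_lit 152) (nat_lit 223350562999) (nat_lit 0) (nat_lit 29597272490) (nat_lit 4) (nat_lit 5) (nat_lit 6) (nat_lit 4) (nat_lit 4) (nat_lit 4) (nat_lit 533) (nat_lit 374) (nat_lit 293)) (XT.lf (nat_lit 0) (nat_lit 51176404582) (nat_lit 152) (nat_lit 198350031846) (nat_lit 0) (nat_lit 48777342205) (nat_lit 4) (nat_lit 5) (nat_lit 6) (nat_lit 4) (nat_lit 4) (nat_lit 4) (nat_lit 534) (nat_lit 374) (nat_lit 292))))) (XT.nd (nat_lit 312) (nat_lit 76) (nat_lit 0) (XT.nd (nat_lit 156) (nat_lit 0) (nat_lit 0) (XT.nd (nat_lit 78) (nat_lit 0) (nat_lit 0) (XT.lf (nat_lit 0) (nat_lit 71287339299) (nat_lit 152) (nat_lit 172161753176) (nat_lit 0) (nat_lit 68886147207) (nat_lit 4) (nat_lit 5) (nat_lit 6) (nat_lit 4) (nat_lit 4) (nat_lit 4) (nat_lit 535) (nat_lit 374) (nat_lit 291)) (XT.lf (nat_lit 0) (nat_lit 92374785995) (nat_lit 152) (nat_lit 144723373943) (nat_lit 0) (nat_lit 89971565603) (nat_lit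 4) (nat_lit 5) (nat_lit 6) (nat_lit 4) (nat_lit 4) (nat_lit 4) (nat_lit 536) (nat_lit 374) (nat_lit 290))) (XT.nd (nat_lit 78) (nat_lit 0) (nat_lit 0) (XT.lf (nat_lit 0) (nat_lit 114488952876) (nat_lit 152) (nat_lit 115969564674) (nat_lit 0) (nat_lit 112083800770) (nat_lit 4) (nat_lit 5) (nat_lit 6) (nat_lit 4) (nat_lit 4) (nat_lit 4) (nat_lit 537) (nat_lit 374) (nat_lit 289)) (XT.lf (nat_lit 0) (nat_lit 137682492720) (nat_lit 152) (nat_lit 85831863918) (nat_lit 0) (nat_lit 135275500887) (nat_lit 4) (nat_lit 5) (nat_lit 6) (nat_lit 4) (nat_lit 4) (nat_lit 4) (nat_lit 538) (nat_lit 374) (nat_lit 288)))) (XT.nd (nat_lit 156) (nat_lit 76) (nat_lit 0) (XT.nd (nat_lit 78) (nat_lit 0) (nat_lit 0) (XT.lf (nat_lit 0) (nat_lit 162010628243) (nat_lit 152) (nat_lit 54238515245) (nat_lit 0) (nat_lit 159601884288) (nat_lit 4) (nat_lit 5) (nat_lit 6) (nat_lit 4) (nat_lit 4) (nat_lit 4) (nat_lit 539) (nat_lit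 374) (nat_lit 287)) (XT.lf (nat_lit 0) (nat_lit 187531283575) (nat_lit 152) (nat_lit 21114296395) (nat_lit 0) (nat_lit 185120870934) (nat_lit 4) (nat_lit 5) (nat_lit 6) (nat_lit 4) (nat_lit 4) (nat_lit 4) (nat_lit 540) (nat_lit 374) (nat_lit 286))) (XT.nd (nat_lit 78) (nat_lit 0) (nat_lit 0) (XT.lf (nat_lit 0) (nat_lit 14069987279) (nat_lit 76) (nat_lit 200454906836) (nat_lit 76) (nat_lit 198042904968) (nat_lit 3) (nat_lit 4) (nat_lit 4) (nat_lit 5) (nat_lit 4) (nat_lit 4) (nat_lit 541) (nat_lit 374) (nat_lit 285)) (XT.lf (nat_lit 0) (nat_lit 51700801826) (nat_lit 76) (nat_lit 191502584119) (nat_lit 76) (nat_lit 189089068703) (nat_lit 3) (nat_lit 4) (nat_lit 4) (nat_lit 5) (nat_lit 4) (nat_lit 4) (nat_lit 542) (nat_lit 374) (nat_lit 284)))))) (XT.nd (nat_lit 624) (nat_lit 0) (nat_lit 0) (XT.nd (nat_lit 312) (nat_lit 0) (nat_lit 0) (XT.nd (nat_lit 156) (nat_lit 0) (nat_lit 0) (XT.nd (nat_lit 78)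 (nat_lit 0) (nat_lit 0) (XT.lf (nat_lit 0) (nat_lit 91169610430) (nat_lit 76) (nat_lit 182124877592) (nat_lit 76) (nat_lit 179709920701) (nat_lit 3) (nat_lit 4) (nat_lit 4) (nat_lit 5) (nat_lit 4) (nat_lit 4) (nat_lit 543) (nat_lit 374) (nat_lit 283)) (XT.lf (nat_lit 0) (nat_lit 132570386444) (nat_lit 76) (nat_lit 172299459383) (nat_lit 76) (nat_lit 169883129659) (nat_lit 3) (nat_lit 4) (nat_lit 4) (nat_lit 5) (nat_lit 4) (nat_lit 4) (nat_lit 544) (nat_lit 374) (nat_lit 282))) (XT.nd (nat_lit 78) (nat_lit 0) (nat_lit 0) (XT.lf (nat_lit 0) (nat_lit 176001703143) (nat_lit 76) (nat_lit 162002935638) (nat_lit 76) (nat_lit 159585298455) (nat_lit 3) (nat_lit 4) (nat_lit 4) (nat_lit 5) (nat_lit 4) (nat_lit 4) (nat_lit 545) (nat_lit 374) (nat_lit 281)) (XT.lf (nat_lit 0) (nat_lit 221566968426) (nat_lit 76) (nat_lit 151210790826) (nat_lit 76) (nat_lit 148791908442) (nat_lit 3) (nat_lit 4) (nat_lit 4) (nat_lit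 5) (nat_lit 4) (nat_lit 4) (nat_lit 546) (nat_lit 374) (nat_lit 280)))) (XT.nd (nat_lit 156) (nat_lit 0) (nat_lit 0) (XT.nd (nat_lit 78) (nat_lit 0) (nat_lit 0) (XT.lf (nat_lit 0) (nat_lit 269374671019) (nat_lit 76) (nat_lit 139897329362) (nat_lit 76) (nat_lit 137477261073) (nat_lit 3) (nat_lit 4) (nat_lit 4) (nat_lit 5) (nat_lit 4) (nat_lit 4) (nat_lit 547) (nat_lit 374) (nat_lit 279)) (XT.lf (nat_lit 0) (nat_lit 319538638785) (nat_lit 76) (nat_lit 128035614435) (nat_lit 76) (nat_lit 125614416713) (nat_lit 3) (nat_lit 4) (nat_lit 4) (nat_lit 5) (nat_lit 4) (nat_lit 4) (nat_lit 548) (nat_lit 374) (nat_lit 278))) (XT.nd (nat_lit 78) (nat_lit 0) (nat_lit 0) (XT.lf (nat_lit 0) (nat_lit 372178309743) (nat_lit 76) (nat_lit 115597403865) (nat_lit 76) (nat_lit 113175130492) (nat_lit 3) (nat_lit 4) (nat_lit 4) (nat_lit 5) (nat_lit 4) (nat_lit 4) (nat_lit 549) (nat_lit 374) (nat_lit 277)) (XT.lf (nat_lit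 0) (nat_lit 427419016443) (nat_lit 76) (nat_lit 102553082865) (nat_lit 76) (nat_lit 100129785064) (nat_lit 3) (nat_lit 4) (nat_lit 4) (nat_lit 5) (nat_lit 4) (nat_lit 4) (nat_lit 550) (nat_lit 374) (nat_lit 276))))) (XT.nd (nat_lit 312) (nat_lit 0) (nat_lit 0) (XT.nd (nat_lit 156) (nat_lit 0) (nat_lit 0) (XT.nd (nat_lit 78) (nat_lit 0) (nat_lit 0) (XT.lf (nat_lit 0) (nat_lit 485392284376) (nat_lit 76) (nat_lit 88871593530) (nat_lit 76) (nat_lit 86447320081) (nat_lit 3) (nat_lit 4) (nat_lit 4) (nat_lit 5) (nat_lit 4) (nat_lit 4) (nat_lit 551) (nat_lit 374) (nat_lit 275)) (XT.lf (nat_lit 0) (nat_lit 546236145134) (nat_lit 76) (nat_lit 74520360882) (nat_lit 76) (nat_lit 72095158246) (nat_lit 3) (nat_lit 4) (nat_lit 4) (nat_lit 5) (nat_lit 4) (nat_lit 4) (nat_lit 552) (nat_lit 374) (nat_lit 274))) (XT.nd (nat_lit 78) (nat_lit 0) (nat_lit 0) (XT.lf (nat_lit 0) (nat_lit 610095465051) (nat_lit 76) (nat_lit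 59465215323) (nat_lit 76) (nat_lit 57039127746) (nat_lit 3) (nat_lit 4) (nat_lit 4) (nat_lit 5) (nat_lit 4) (nat_lit 4) (nat_lit 553) (nat_lit 374) (nat_lit 273)) (XT.lf (nat_lit 0) (nat_lit 677122290127) (nat_lit 76) (nat_lit 43670311265) (nat_lit 76) (nat_lit 41243380889) (nat_lit 3) (nat_lit 4) (nat_lit 4) (nat_lit 5) (nat_lit 4) (nat_lit 4) (nat_lit 554) (nat_lit 374) (nat_lit 272)))) (XT.nd (nat_lit 54288) (nat_lit 0) (nat_lit 4636) (XT.nd (nat_lit 78) (nat_lit 0) (nat_lit 0) (XT.lf (nat_lit 0) (nat_lit 747476208041) (nat_lit 76) (nat_lit 27098041796) (nat_lit 76) (nat_lit 24670308752) (nat_lit 3) (nat_lit 4) (nat_lit 4) (nat_lit 5) (nat_lit 4) (nat_lit 4) (nat_lit 555) (nat_lit 374) (nat_lit 271)) (XT.lf (nat_lit 0) (nat_lit 821324728121) (nat_lit 76) (nat_lit 9708949131) (nat_lit 76) (nat_lit 7280451642) (nat_lit 3) (nat_lit 4) (nat_lit 4) (nat_lit 5) (nat_lit 4) (nat_lit 4) (nat_lit 556)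 (nat_lit 374) (nat_lit 270))) (XT.nd (nat_lit 78) (nat_lit 228) (nat_lit 0) (XT.lf (nat_lit 0) (nat_lit 1262746322) (nat_lit 152) (nat_lit 4544819326) (nat_lit 0) (nat_lit 1262746322) (nat_lit 67) (nat_lit 5) (nat_lit 69) (nat_lit 4) (nat_lit 67) (nat_lit 4) (nat_lit 450) (nat_lit 375) (nat_lit 375)) (XT.nd (nat_lit 78) (nat_lit 152) (nat_lit 0) (XT.lf (nat_lit 0) (nat_lit 4181662399) (nat_lit 76) (nat_lit 5322895234) (nat_lit 76) (nat_lit 4982480362) (nat_lit 66) (nat_lit 4) (nat_lit 67) (nat_lit 5) (nat_lit 67) (nat_lit 4) (nat_lit 451) (nat_lit 375) (nat_lit 374)) (XT.lf (nat_lit 0) (nat_lit 1909816196) (nat_lit 152) (nat_lit 11662995265) (nat_lit 0) (nat_lit 1276845231) (nat_lit 64) (nat_lit 5) (nat_lit 66) (nat_lit 4) (nat_lit 64) (nat_lit 4) (nat_lit 452) (nat_lit 375) (nat_lit 373))))))))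
noncomputable def xc87 : XT := (XT.nd (nat_lit 1248) (nat_lit 1292) (nat_lit 0) (XT.nd (nat_lit 624) (nat_lit 684) (nat_lit 0) (XT.nd (nat_lit 312) (nat_lit 456) (nat_lit 0) (XT.nd (nat_lit 156) (nat_lit 76) (nat_lit 0) (XT.nd (nat_lit 78) (nat_lit 152) (nat_lit 0) (XT.lf (nat_lit 0) (nat_lit 1928341976) (nat_lit 76) (nat_lit 7111007113) (nat_lit 76) (nat_lit 6183972982) (nat_lit 63) (nat_lit 4) (nat_lit 64) (nat_lit 5) (nat_lit 64) (nat_lit 4) (nat_lit 453) (nat_lit 375) (nat_lit 372)) (XT.lf (nat_lit 0) (nat_lit 546981800) (nat_lit 76) (nat_lit 308665072) (nat_lit 152) (nat_lit 14760562717) (nat_lit 61) (nat_lit 5) (nat_lit 62) (nat_lit 5) (nat_lit 63) (nat_lit 4) (nat_lit 454) (nat_lit 375) (nat_lit 371))) (XT.nd (nat_lit 78) (nat_lit 76) (nat_lit 0) (XT.lf (nat_lit 0) (nat_lit 8141621662) (nat_lit 152) (nat_lit 1138958567) (nat_lit 0) (nat_lit 6737985235) (nat_lit 61) (nat_lit 5) (nat_lit 63)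 (nat_lit 4) (nat_lit 61) (nat_lit 4) (nat_lit 455) (nat_lit 375) (nat_lit 370)) (XT.lf (nat_lit 0) (nat_lit 13483534654) (nat_lit 76) (nat_lit 2301701422) (nat_lit 76) (nat_lit 656138501) (nat_lit 60) (nat_lit 4) (nat_lit 61) (nat_lit 5) (nat_lit 61) (nat_lit 4) (nat_lit 456) (nat_lit 375) (nat_lit 369)))) (XT.nd (nat_lit 156) (nat_lit 228) (nat_lit 0) (XT.nd (nat_lit 78) (nat_lit 76) (nat_lit 0) (XT.lf (nat_lit 0) (nat_lit 6766843152) (nat_lit 152) (nat_lit 5129730758) (nat_lit 0) (nat_lit 4980205908) (nat_lit 58) (nat_lit 5) (nat_lit 60) (nat_lit 4) (nat_lit 58) (nat_lit 4) (nat_lit 457) (nat_lit 375) (nat_lit 368)) (XT.lf (nat_lit 0) (nat_lit 9790572227) (nat_lit 76) (nat_lit 4768725574) (nat_lit 76) (nat_lit 2773103128) (nat_lit 57) (nat_lit 4) (nat_lit 58) (nat_lit 5) (nat_lit 58) (nat_lit 4) (nat_lit 458) (nat_lit 375) (nat_lit 367))) (XT.nd (nat_lit 78) (nat_lit 76) (nat_lit 0) (XT.lf (nat_lit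 0) (nat_lit 4802034303) (nat_lit 152) (nat_lit 10291572412) (nat_lit 0) (nat_lit 2711885759) (nat_lit 55) (nat_lit 5) (nat_lit 57) (nat_lit 4) (nat_lit 55) (nat_lit 4) (nat_lit 459) (nat_lit 375) (nat_lit 366)) (XT.lf (nat_lit 0) (nat_lit 4886240671) (nat_lit 76) (nat_lit 7840599630) (nat_lit 76) (nat_lit 5569921810) (nat_lit 54) (nat_lit 4) (nat_lit 55) (nat_lit 5) (nat_lit 55) (nat_lit 4) (nat_lit 460) (nat_lit 375) (nat_lit 365))))) (XT.nd (nat_lit 312) (nat_lit 304) (nat_lit 0) (XT.nd (nat_lit 156) (nat_lit 228) (nat_lit 0) (XT.nd (nat_lit 78) (nat_lit 0) (nat_lit 0) (XT.lf (nat_lit 0) (nat_lit 1968461681) (nat_lit 76) (nat_lit 183280827) (nat_lit 152) (nat_lit 16659709725) (nat_lit 52) (nat_lit 5) (nat_lit 53) (nat_lit 5) (nat_lit 54) (nat_lit 4) (nat_lit 461) (nat_lit 375) (nat_lit 364)) (XT.lf (nat_lit 0) (nat_lit 10206457675) (nat_lit 152) (nat_lit 1409933583) (nat_lit 0) (nat_lit 7724214022)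 (nat_lit 52) (nat_lit 5) (nat_lit 54) (nat_lit 4) (nat_lit 52) (nat_lit 4) (nat_lit 462) (nat_lit 375) (nat_lit 363))) (XT.nd (nat_lit 78) (nat_lit 152) (nat_lit 0) (XT.lf (nat_lit 0) (nat_lit 14854161638) (nat_lit 76) (nat_lit 3835760366) (nat_lit 76) (nat_lit 1204994831) (nat_lit 51) (nat_lit 4) (nat_lit 52) (nat_lit 5) (nat_lit 52) (nat_lit 4) (nat_lit 463) (nat_lit 375) (nat_lit 362)) (XT.lf (nat_lit 0) (nat_lit 6954998065) (nat_lit 152) (nat_lit 9198480962) (nat_lit 0) (nat_lit 4314793355) (nat_lit 49) (nat_lit 5) (nat_lit 51) (nat_lit 4) (nat_lit 49) (nat_lit 4) (nat_lit 464) (nat_lit 375) (nat_lit 361)))) (XT.nd (nat_lit 156) (nat_lit 76) (nat_lit 0) (XT.nd (nat_lit 78) (nat_lit 152) (nat_lit 0) (XT.lf (nat_lit 0) (nat_lit 7238774588) (nat_lit 76) (nat_lit 8298158169) (nat_lit 76) (nat_lit 5529654673) (nat_lit 48) (nat_lit 4) (nat_lit 49) (nat_lit 5) (nat_lit 49) (nat_lit 4) (nat_lit 465)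 (nat_lit 375) (nat_lit 360)) (XT.lf (nat_lit 0) (nat_lit 2755224633) (nat_lit 152) (nat_lit 18935513798) (nat_lit 0) (nat_lit 2183857) (nat_lit 46) (nat_lit 5) (nat_lit 48) (nat_lit 4) (nat_lit 46) (nat_lit 4) (nat_lit 466) (nat_lit 375) (nat_lit 359))) (XT.nd (nat_lit 78) (nat_lit 76) (nat_lit 0) (XT.lf (nat_lit 0) (nat_lit 11434928116) (nat_lit 152) (nat_lit 2331735741) (nat_lit 0) (nat_lit 8571058026) (nat_lit 46) (nat_lit 5) (nat_lit 48) (nat_lit 4) (nat_lit 46) (nat_lit 4) (nat_lit 467) (nat_lit 375) (nat_lit 358)) (XT.lf (nat_lit 0) (nat_lit 15193953836) (nat_lit 76) (nat_lit 5394128620) (nat_lit 76) (nat_lit 2424706801) (nat_lit 45) (nat_lit 4) (nat_lit 46) (nat_lit 5) (nat_lit 46) (nat_lit 4) (nat_lit 468) (nat_lit 375) (nat_lit 357)))))) (XT.nd (nat_lit 624) (nat_lit 608) (nat_lit 0) (XT.nd (nat_lit 312) (nat_lit 304) (nat_lit 0) (XT.nd (nat_lit 156) (nat_lit 152) (nat_lit 0) (XT.nd (nat_lit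 78) (nat_lit 76) (nat_lit 0) (XT.lf (nat_lit 0) (nat_lit 6319889327) (nat_lit 152) (nat_lit 13998039293) (nat_lit 0) (nat_lit 3396130019) (nat_lit 43) (nat_lit 5) (nat_lit 45) (nat_lit 4) (nat_lit 43) (nat_lit 4) (nat_lit 469) (nat_lit 375) (nat_lit 356)) (XT.lf (nat_lit 0) (nat_lit 3543293885) (nat_lit 76) (nat_lit 11957998391) (nat_lit 76) (nat_lit 8943059532) (nat_lit 42) (nat_lit 4) (nat_lit 43) (nat_lit 5) (nat_lit 43) (nat_lit 4) (nat_lit 470) (nat_lit 375) (nat_lit 355))) (XT.nd (nat_lit 78) (nat_lit 152) (nat_lit 0) (XT.lf (nat_lit 0) (nat_lit 22058982305) (nat_lit 76) (nat_lit 3125899465) (nat_lit 76) (nat_lit 24122938) (nat_lit 42) (nat_lit 4) (nat_lit 43) (nat_lit 5) (nat_lit 43) (nat_lit 4) (nat_lit 471) (nat_lit 375) (nat_lit 354)) (XT.lf (nat_lit 0) (nat_lit 9194836990) (nat_lit 152) (nat_lit 10640110561) (nat_lit 0) (nat_lit 6161999782) (nat_lit 40) (nat_lit 5) (nat_lit 42) (nat_lit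 4) (nat_lit 40) (nat_lit 4) (nat_lit 472) (nat_lit 375) (nat_lit 353)))) (XT.nd (nat_lit 156) (nat_lit 152) (nat_lit 0) (XT.nd (nat_lit 78) (nat_lit 76) (nat_lit 0) (XT.lf (nat_lit 0) (nat_lit 7900481195) (nat_lit 76) (nat_lit 11014785558) (nat_lit 76) (nat_lit 7906934708) (nat_lit 39) (nat_lit 4) (nat_lit 40) (nat_lit 5) (nat_lit 40) (nat_lit 4) (nat_lit 473) (nat_lit 375) (nat_lit 352)) (XT.lf (nat_lit 0) (nat_lit 1382921458) (nat_lit 152) (nat_lit 344303423) (nat_lit 76) (nat_lit 25960586121) (nat_lit 38) (nat_lit 5) (nat_lit 40) (nat_lit 5) (nat_lit 39) (nat_lit 4) (nat_lit 474) (nat_lit 375) (nat_lit 351))) (XT.nd (nat_lit 78) (nat_lit 76) (nat_lit 0) (XT.lf (nat_lit 0) (nat_lit 11123825200) (nat_lit 152) (nat_lit 9422653356) (nat_lit 0) (nat_lit 8031128057) (nat_lit 37) (nat_lit 5) (nat_lit 39) (nat_lit 4) (nat_lit 37) (nat_lit 4) (nat_lit 475) (nat_lit 375) (nat_lit 350)) (XT.lf (nat_lit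 0) (nat_lit 10064189277) (nat_lit 76) (nat_lit 11300728613) (nat_lit 76) (nat_lit 8146317561) (nat_lit 36) (nat_lit 4) (nat_lit 37) (nat_lit 5) (nat_lit 37) (nat_lit 4) (nat_lit 476) (nat_lit 375) (nat_lit 349))))) (XT.nd (nat_lit 312) (nat_lit 304) (nat_lit 0) (XT.nd (nat_lit 156) (nat_lit 152) (nat_lit 0) (XT.nd (nat_lit 78) (nat_lit 76) (nat_lit 0) (XT.lf (nat_lit 0) (nat_lit 1558523949) (nat_lit 152) (nat_lit 18212107) (nat_lit 76) (nat_lit 28914337361) (nat_lit 35) (nat_lit 5) (nat_lit 37) (nat_lit 5) (nat_lit 36) (nat_lit 4) (nat_lit 477) (nat_lit 375) (nat_lit 348)) (XT.lf (nat_lit 0) (nat_lit 11765816154) (nat_lit 152) (nat_lit 11080533428) (nat_lit 0) (nat_lit 8652328022) (nat_lit 34) (nat_lit 5) (nat_lit 36) (nat_lit 4) (nat_lit 34) (nat_lit 4) (nat_lit 478) (nat_lit 375) (nat_lit 347))) (XT.nd (nat_lit 78) (nat_lit 76) (nat_lit 0) (XT.lf (nat_lit 0) (nat_lit 9248236724) (nat_lit 76)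 (nat_lit 13236316063) (nat_lit 76) (nat_lit 10072055745) (nat_lit 33) (nat_lit 4) (nat_lit 34) (nat_lit 5) (nat_lit 34) (nat_lit 4) (nat_lit 479) (nat_lit 375) (nat_lit 346)) (XT.lf (nat_lit 0) (nat_lit 90831070) (nat_lit 152) (nat_lit 3026411086) (nat_lit 76) (nat_lit 30549071353) (nat_lit 32) (nat_lit 5) (nat_lit 34) (nat_lit 5) (nat_lit 33) (nat_lit 4) (nat_lit 480) (nat_lit 375) (nat_lit 345)))) (XT.nd (nat_lit 156) (nat_lit 152) (nat_lit 0) (XT.nd (nat_lit 78) (nat_lit 76) (nat_lit 0) (XT.lf (nat_lit 0) (nat_lit 10670854247) (nat_lit 152) (nat_lit 16572658001) (nat_lit 0) (nat_lit 7567362199) (nat_lit 31) (nat_lit 5) (nat_lit 33) (nat_lit 4) (nat_lit 31) (nat_lit 4) (nat_lit 481) (nat_lit 375) (nat_lit 344)) (XT.lf (nat_lit 0) (nat_lit 4424574654) (nat_lit 76) (nat_lit 17366398464) (nat_lit 76) (nat_lit 14221136013) (nat_lit 30) (nat_lit 4) (nat_lit 31) (nat_lit 5) (nat_lit 31) (nat_lit 4)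 (nat_lit 482) (nat_lit 375) (nat_lit 343))) (XT.nd (nat_lit 78) (nat_lit 152) (nat_lit 0) (XT.lf (nat_lit 0) (nat_lit 26726152974) (nat_lit 76) (nat_lit 6863094645) (nat_lit 76) (nat_lit 3678050858) (nat_lit 30) (nat_lit 4) (nat_lit 31) (nat_lit 5) (nat_lit 31) (nat_lit 4) (nat_lit 483) (nat_lit 375) (nat_lit 342)) (XT.nd (nat_lit 78) (nat_lit 0) (nat_lit 0) (XT.lf (nat_lit 0) (nat_lit 7249102740) (nat_lit 152) (nat_lit 27146053903) (nat_lit 0) (nat_lit 4179644860) (nat_lit 28) (nat_lit 5) (nat_lit 30) (nat_lit 4) (nat_lit 28) (nat_lit 4) (nat_lit 484) (nat_lit 375) (nat_lit 341)) (XT.lf (nat_lit 0) (nat_lit 18739638298) (nat_lit 152) (nat_lit 5562179590) (nat_lit 0) (nat_lit 15635815804) (nat_lit 28) (nat_lit 5) (nat_lit 30) (nat_lit 4) (nat_lit 28) (nat_lit 4) (nat_lit 485) (nat_lit 375) (nat_lit 340))))))))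
noncomputable def xc88 : XT := (XT.nd (nat_lit 1248) (nat_lit 532) (nat_lit 0) (XT.nd (nat_lit 624) (nat_lit 456) (nat_lit 0) (XT.nd (nat_lit 312) (nat_lit 152) (nat_lit 0) (XT.nd (nat_lit 156) (nat_lit 152) (nat_lit 0) (XT.nd (nat_lit 78) (nat_lit 76) (nat_lit 0) (XT.lf (nat_lit 0) (nat_lit 17360540046) (nat_lit 76) (nat_lit 13569183662) (nat_lit 76) (nat_lit 10432632964) (nat_lit 27) (nat_lit 4) (nat_lit 28) (nat_lit 5) (nat_lit 28) (nat_lit 4) (nat_lit 486) (nat_lit 375) (nat_lit 339)) (XT.lf (nat_lit 0) (nat_lit 792891112) (nat_lit 152) (nat_lit 1542293635) (nat_lit 76) (nat_lit 40524962880) (nat_lit 26) (nat_lit 5) (nat_lit 28) (nat_lit 5) (nat_lit 27) (nat_lit 4) (nat_lit 487) (nat_lit 375) (nat_lit 338))) (XT.nd (nat_lit 78) (nat_lit 76) (nat_lit 0) (XT.lf (nat_lit 0) (nat_lit 12592232335) (nat_lit 152) (nat_lit 22266803559) (nat_lit 0) (nat_lit 9547083896) (nat_lit 25) (nat_lit 5) (nat_lit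 27) (nat_lit 4) (nat_lit 25) (nat_lit 4) (nat_lit 488) (nat_lit 375) (nat_lit 337)) (XT.lf (nat_lit 0) (nat_lit 733181086) (nat_lit 76) (nat_lit 24185708168) (nat_lit 76) (nat_lit 21113634154) (nat_lit 24) (nat_lit 4) (nat_lit 25) (nat_lit 5) (nat_lit 25) (nat_lit 4) (nat_lit 489) (nat_lit 375) (nat_lit 336)))) (XT.nd (nat_lit 156) (nat_lit 0) (nat_lit 0) (XT.nd (nat_lit 78) (nat_lit 152) (nat_lit 0) (XT.lf (nat_lit 0) (nat_lit 25378724835) (nat_lit 76) (nat_lit 12723608664) (nat_lit 76) (nat_lit 9625891247) (nat_lit 24) (nat_lit 4) (nat_lit 25) (nat_lit 5) (nat_lit 25) (nat_lit 4) (nat_lit 490) (nat_lit 375) (nat_lit 335)) (XT.lf (nat_lit 0) (nat_lit 1488795837) (nat_lit 76) (nat_lit 760441013) (nat_lit 152) (nat_lit 47263024068) (nat_lit 22) (nat_lit 5) (nat_lit 23) (nat_lit 5) (nat_lit 24) (nat_lit 4) (nat_lit 491) (nat_lit 375) (nat_lit 334))) (XT.nd (nat_lit 78) (nat_lit 0) (nat_lit 0) (XT.lf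 (nat_lit 0) (nat_lit 14831382613) (nat_lit 152) (nat_lit 24688624236) (nat_lit 0) (nat_lit 11835764488) (nat_lit 22) (nat_lit 5) (nat_lit 24) (nat_lit 4) (nat_lit 22) (nat_lit 4) (nat_lit 492) (nat_lit 375) (nat_lit 333)) (XT.lf (nat_lit 0) (nat_lit 27929201844) (nat_lit 152) (nat_lit 455440512) (nat_lit 0) (nat_lit 24912486827) (nat_lit 22) (nat_lit 5) (nat_lit 24) (nat_lit 4) (nat_lit 22) (nat_lit 4) (nat_lit 493) (nat_lit 375) (nat_lit 332))))) (XT.nd (nat_lit 312) (nat_lit 228) (nat_lit 0) (XT.nd (nat_lit 156) (nat_lit 152) (nat_lit 0) (XT.nd (nat_lit 78) (nat_lit 0) (nat_lit 0) (XT.lf (nat_lit 0) (nat_lit 25563859926) (nat_lit 76) (nat_lit 16397270782) (nat_lit 76) (nat_lit 13360463487) (nat_lit 21) (nat_lit 4) (nat_lit 22) (nat_lit 5) (nat_lit 22) (nat_lit 4) (nat_lit 494) (nat_lit 375) (nat_lit 331)) (XT.lf (nat_lit 0) (nat_lit 52660122998) (nat_lit 76) (nat_lit 3924306880) (nat_lit 76)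 (nat_lit 868364083) (nat_lit 21) (nat_lit 4) (nat_lit 22) (nat_lit 5) (nat_lit 22) (nat_lit 4) (nat_lit 495) (nat_lit 375) (nat_lit 330))) (XT.nd (nat_lit 78) (nat_lit 0) (nat_lit 0) (XT.lf (nat_lit 0) (nat_lit 12230867345) (nat_lit 152) (nat_lit 38128308314) (nat_lit 0) (nat_lit 9303089168) (nat_lit 19) (nat_lit 5) (nat_lit 21) (nat_lit 4) (nat_lit 19) (nat_lit 4) (nat_lit 496) (nat_lit 375) (nat_lit 329)) (XT.lf (nat_lit 0) (nat_lit 25988599621) (nat_lit 152) (nat_lit 12946970433) (nat_lit 0) (nat_lit 23044291478) (nat_lit 19) (nat_lit 5) (nat_lit 21) (nat_lit 4) (nat_lit 19) (nat_lit 4) (nat_lit 497) (nat_lit 375) (nat_lit 328)))) (XT.nd (nat_lit 156) (nat_lit 152) (nat_lit 0) (XT.nd (nat_lit 78) (nat_lit 0) (nat_lit 0) (XT.lf (nat_lit 0) (nat_lit 13711107193) (nat_lit 76) (nat_lit 26828506134) (nat_lit 76) (nat_lit 23868455165) (nat_lit 18) (nat_lit 4) (nat_lit 19) (nat_lit 5) (nat_lit 19)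 (nat_lit 4) (nat_lit 498) (nat_lit 375) (nat_lit 327)) (XT.lf (nat_lit 0) (nat_lit 41933977303) (nat_lit 76) (nat_lit 13996567224) (nat_lit 76) (nat_lit 11021523088) (nat_lit 18) (nat_lit 4) (nat_lit 19) (nat_lit 5) (nat_lit 19) (nat_lit 4) (nat_lit 499) (nat_lit 375) (nat_lit 326))) (XT.nd (nat_lit 78) (nat_lit 0) (nat_lit 0) (XT.lf (nat_lit 0) (nat_lit 1751597168) (nat_lit 76) (nat_lit 561046983) (nat_lit 152) (nat_lit 67312502647) (nat_lit 16) (nat_lit 5) (nat_lit 17) (nat_lit 5) (nat_lit 18) (nat_lit 4) (nat_lit 500) (nat_lit 375) (nat_lit 325)) (XT.lf (nat_lit 0) (nat_lit 16481827903) (nat_lit 152) (nat_lit 42292181325) (nat_lit 0) (nat_lit 13621901629) (nat_lit 16) (nat_lit 5) (nat_lit 18) (nat_lit 4) (nat_lit 16) (nat_lit 4) (nat_lit 501) (nat_lit 375) (nat_lit 324)))))) (XT.nd (nat_lit 624) (nat_lit 228) (nat_lit 0) (XT.nd (nat_lit 312) (nat_lit 228) (nat_lit 0) (XT.nd (nat_lit 156) (nat_lit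 0) (nat_lit 0) (XT.nd (nat_lit 78) (nat_lit 76) (nat_lit 0) (XT.lf (nat_lit 0) (nat_lit 31270163023) (nat_lit 152) (nat_lit 15641613781) (nat_lit 0) (nat_lit 28397901832) (nat_lit 16) (nat_lit 5) (nat_lit 18) (nat_lit 4) (nat_lit 16) (nat_lit 4) (nat_lit 502) (nat_lit 375) (nat_lit 323)) (XT.lf (nat_lit 0) (nat_lit 12552112228) (nat_lit 76) (nat_lit 34347961737) (nat_lit 76) (nat_lit 31463953008) (nat_lit 15) (nat_lit 4) (nat_lit 16) (nat_lit 5) (nat_lit 16) (nat_lit 4) (nat_lit 503) (nat_lit 375) (nat_lit 322))) (XT.nd (nat_lit 78) (nat_lit 0) (nat_lit 0) (XT.lf (nat_lit 0) (nat_lit 42510532672) (nat_lit 76) (nat_lit 20973563131) (nat_lit 76) (nat_lit 18078366270) (nat_lit 15) (nat_lit 4) (nat_lit 16) (nat_lit 5) (nat_lit 16) (nat_lit 4) (nat_lit 504) (nat_lit 375) (nat_lit 321)) (XT.lf (nat_lit 0) (nat_lit 73787794733) (nat_lit 76) (nat_lit 7021635479) (nat_lit 76) (nat_lit 4115783254) (nat_lit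 15) (nat_lit 4) (nat_lit 16) (nat_lit 5) (nat_lit 16) (nat_lit 4) (nat_lit 505) (nat_lit 375) (nat_lit 320)))) (XT.nd (nat_lit 156) (nat_lit 76) (nat_lit 0) (XT.nd (nat_lit 78) (nat_lit 0) (nat_lit 0) (XT.lf (nat_lit 0) (nat_lit 10535136959) (nat_lit 152) (nat_lit 70138354271) (nat_lit 0) (nat_lit 7757993920) (nat_lit 13) (nat_lit 5) (nat_lit 15) (nat_lit 4) (nat_lit 13) (nat_lit 4) (nat_lit 506) (nat_lit 375) (nat_lit 319)) (XT.lf (nat_lit 0) (nat_lit 26002060386) (nat_lit 152) (nat_lit 42880834966) (nat_lit 0) (nat_lit 23215712843) (nat_lit 13) (nat_lit 5) (nat_lit 15) (nat_lit 4) (nat_lit 13) (nat_lit 4) (nat_lit 507) (nat_lit 375) (nat_lit 318))) (XT.nd (nat_lit 78) (nat_lit 76) (nat_lit 0) (XT.lf (nat_lit 0) (nat_lit 42161335760) (nat_lit 152) (nat_lit 14425579411) (nat_lit 0) (nat_lit 39366222022) (nat_lit 13) (nat_lit 5) (nat_lit 15) (nat_lit 4) (nat_lit 13) (nat_lit 4) (nat_lit 508) (nat_lit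 375) (nat_lit 317)) (XT.lf (nat_lit 0) (nat_lit 15800890165) (nat_lit 76) (nat_lit 43497243558) (nat_lit 76) (nat_lit 40693781064) (nat_lit 12) (nat_lit 4) (nat_lit 13) (nat_lit 5) (nat_lit 13) (nat_lit 4) (nat_lit 509) (nat_lit 375) (nat_lit 316))))) (XT.nd (nat_lit 312) (nat_lit 76) (nat_lit 0) (XT.nd (nat_lit 156) (nat_lit 152) (nat_lit 0) (XT.nd (nat_lit 78) (nat_lit 0) (nat_lit 0) (XT.lf (nat_lit 0) (nat_lit 47884767554) (nat_lit 76) (nat_lit 29575428137) (nat_lit 76) (nat_lit 26764014446) (nat_lit 12) (nat_lit 4) (nat_lit 13) (nat_lit 5) (nat_lit 13) (nat_lit 4) (nat_lit 510) (nat_lit 375) (nat_lit 315)) (XT.lf (nat_lit 0) (nat_lit 81425468135) (nat_lit 76) (nat_lit 15032625896) (nat_lit 76) (nat_lit 12213639637) (nat_lit 12) (nat_lit 4) (nat_lit 13) (nat_lit 5) (nat_lit 13) (nat_lit 4) (nat_lit 511) (nat_lit 375) (nat_lit 314))) (XT.nd (nat_lit 78) (nat_lit 0) (nat_lit 0) (XT.lf (nat_lit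 0) (nat_lit 2950580087) (nat_lit 152) (nat_lit 110130478480) (nat_lit 0) (nat_lit 258962727) (nat_lit 10) (nat_lit 5) (nat_lit 12) (nat_lit 4) (nat_lit 10) (nat_lit 4) (nat_lit 512) (nat_lit 375) (nat_lit 313)) (XT.lf (nat_lit 0) (nat_lit 19108050726) (nat_lit 152) (nat_lit 82681494653) (nat_lit 0) (nat_lit 16409891896) (nat_lit 10) (nat_lit 5) (nat_lit 12) (nat_lit 4) (nat_lit 10) (nat_lit 4) (nat_lit 513) (nat_lit 375) (nat_lit 312)))) (XT.nd (nat_lit 156) (nat_lit 76) (nat_lit 0) (XT.nd (nat_lit 78) (nat_lit 0) (nat_lit 0) (XT.lf (nat_lit 0) (nat_lit 36006793679) (nat_lit 152) (nat_lit 53995955621) (nat_lit 0) (nat_lit 33302404878) (nat_lit 10) (nat_lit 5) (nat_lit 12) (nat_lit 4) (nat_lit 10) (nat_lit 4) (nat_lit 514) (nat_lit 375) (nat_lit 311)) (XT.lf (nat_lit 0) (nat_lit 53687044049) (nat_lit 152) (nat_lit 24005562482) (nat_lit 0) (nat_lit 50976721943) (nat_lit 10) (nat_lit 5) (nat_lit 12)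 (nat_lit 4) (nat_lit 10) (nat_lit 4) (nat_lit 515) (nat_lit 375) (nat_lit 310))) (XT.nd (nat_lit 78) (nat_lit 0) (nat_lit 0) (XT.lf (nat_lit 0) (nat_lit 7604481355) (nat_lit 76) (nat_lit 64705143581) (nat_lit 76) (nat_lit 61989170708) (nat_lit 9) (nat_lit 4) (nat_lit 10) (nat_lit 5) (nat_lit 10) (nat_lit 4) (nat_lit 516) (nat_lit 375) (nat_lit 309)) (XT.lf (nat_lit 0) (nat_lit 41507174519) (nat_lit 76) (nat_lit 50703280138) (nat_lit 76) (nat_lit 47981925582) (nat_lit 9) (nat_lit 4) (nat_lit 10) (nat_lit 5) (nat_lit 10) (nat_lit 4) (nat_lit 517) (nat_lit 375) (nat_lit 308)))))))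
noncomputable def xc89 : XT := (XT.nd (nat_lit 1248) (nat_lit 76) (nat_lit 0) (XT.nd (nat_lit 624) (nat_lit 228) (nat_lit 0) (XT.nd (nat_lit 312) (nat_lit 0) (nat_lit 0) (XT.nd (nat_lit 156) (nat_lit 152) (nat_lit 0) (XT.nd (nat_lit 78) (nat_lit 0) (nat_lit 0) (XT.lf (nat_lit 0) (nat_lit 76989505399) (nat_lit 76) (nat_lit 36060224247) (nat_lit 76) (nat_lit 33333744279) (nat_lit 9) (nat_lit 4) (nat_lit 10) (nat_lit 5) (nat_lit 10) (nat_lit 4) (nat_lit 518) (nat_lit 375) (nat_lit 307)) (XT.lf (nat_lit 0) (nat_lit 114135955735) (nat_lit 76) (nat_lit 20741111492) (nat_lit 76) (nat_lit 18009750178) (nat_lit 9) (nat_lit 4) (nat_lit 10) (nat_lit 5) (nat_lit 10) (nat_lit 4) (nat_lit 519) (nat_lit 375) (nat_lit 306))) (XT.nd (nat_lit 78) (nat_lit 152) (nat_lit 0) (XT.lf (nat_lit 0) (nat_lit 153034969456) (nat_lit 76) (nat_lit 4709467793) (nat_lit 76) (nat_lit 1973457580) (nat_lit 9) (nat_lit 4) (nat_lit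 10) (nat_lit 5) (nat_lit 10) (nat_lit 4) (nat_lit 520) (nat_lit 375) (nat_lit 305)) (XT.lf (nat_lit 0) (nat_lit 14968445276) (nat_lit 152) (nat_lit 139522994513) (nat_lit 0) (nat_lit 12358504574) (nat_lit 7) (nat_lit 5) (nat_lit 9) (nat_lit 4) (nat_lit 7) (nat_lit 4) (nat_lit 521) (nat_lit 375) (nat_lit 304)))) (XT.nd (nat_lit 156) (nat_lit 0) (nat_lit 0) (XT.nd (nat_lit 78) (nat_lit 0) (nat_lit 0) (XT.lf (nat_lit 0) (nat_lit 32833682886) (nat_lit 152) (nat_lit 111276441614) (nat_lit 0) (nat_lit 30219726290) (nat_lit 7) (nat_lit 5) (nat_lit 9) (nat_lit 4) (nat_lit 7) (nat_lit 4) (nat_lit 522) (nat_lit 375) (nat_lit 303)) (XT.lf (nat_lit 0) (nat_lit 51544870353) (nat_lit 152) (nat_lit 81714158730) (nat_lit 0) (nat_lit 48927089095) (nat_lit 7) (nat_lit 5) (nat_lit 9) (nat_lit 4) (nat_lit 7) (nat_lit 4) (nat_lit 523) (nat_lit 375) (nat_lit 302))) (XT.nd (nat_lit 78) (nat_lit 0) (nat_lit 0) (XT.lf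 (nat_lit 0) (nat_lit 71146558123) (nat_lit 152) (nat_lit 50765759475) (nat_lit 0) (nat_lit 68525134330) (nat_lit 7) (nat_lit 5) (nat_lit 9) (nat_lit 4) (nat_lit 7) (nat_lit 4) (nat_lit 524) (nat_lit 375) (nat_lit 301)) (XT.lf (nat_lit 0) (nat_lit 91685416881) (nat_lit 152) (nat_lit 18357557182) (nat_lit 0) (nat_lit 89060524007) (nat_lit 7) (nat_lit 5) (nat_lit 9) (nat_lit 4) (nat_lit 7) (nat_lit 4) (nat_lit 525) (nat_lit 375) (nat_lit 300))))) (XT.nd (nat_lit 312) (nat_lit 152) (nat_lit 0) (XT.nd (nat_lit 156) (nat_lit 0) (nat_lit 0) (XT.nd (nat_lit 78) (nat_lit 0) (nat_lit 0) (XT.lf (nat_lit 0) (nat_lit 16103007333) (nat_lit 76) (nat_lit 97358754411) (nat_lit 76) (nat_lit 94730557651) (nat_lit 6) (nat_lit 4) (nat_lit 7) (nat_lit 5) (nat_lit 7) (nat_lit 4) (nat_lit 526) (nat_lit 375) (nat_lit 299)) (XT.lf (nat_lit 0) (nat_lit 52841834199) (nat_lit 76) (nat_lit 83755778254) (nat_lit 76) (nat_lit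 81124434935) (nat_lit 6) (nat_lit 4) (nat_lit 7) (nat_lit 5) (nat_lit 7) (nat_lit 4) (nat_lit 527) (nat_lit 375) (nat_lit 298))) (XT.nd (nat_lit 78) (nat_lit 0) (nat_lit 0) (XT.lf (nat_lit 0) (nat_lit 91339413067) (nat_lit 76) (nat_lit 69512551668) (nat_lit 76) (nat_lit 66878211626) (nat_lit 6) (nat_lit 4) (nat_lit 7) (nat_lit 5) (nat_lit 7) (nat_lit 4) (nat_lit 528) (nat_lit 375) (nat_lit 297)) (XT.lf (nat_lit 0) (nat_lit 131687404838) (nat_lit 76) (nat_lit 54595162208) (nat_lit 76) (nat_lit 51957968145) (nat_lit 6) (nat_lit 4) (nat_lit 7) (nat_lit 5) (nat_lit 7) (nat_lit 4) (nat_lit 529) (nat_lit 375) (nat_lit 296)))) (XT.nd (nat_lit 156) (nat_lit 152) (nat_lit 0) (XT.nd (nat_lit 78) (nat_lit 0) (nat_lit 0) (XT.lf (nat_lit 0) (nat_lit 173981876159) (nat_lit 76) (nat_lit 38968092280) (nat_lit 76) (nat_lit 36328180102) (nat_lit 6) (nat_lit 4) (nat_lit 7) (nat_lit 5) (nat_lit 7) (nat_lit 4) (nat_lit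 530) (nat_lit 375) (nat_lit 295)) (XT.lf (nat_lit 0) (nat_lit 218323528153) (nat_lit 76) (nat_lit 22594134575) (nat_lit 76) (nat_lit 19951633716) (nat_lit 6) (nat_lit 4) (nat_lit 7) (nat_lit 5) (nat_lit 7) (nat_lit 4) (nat_lit 531) (nat_lit 375) (nat_lit 294))) (XT.nd (nat_lit 78) (nat_lit 152) (nat_lit 0) (XT.lf (nat_lit 0) (nat_lit 264817936182) (nat_lit 76) (nat_lit 5434303480) (nat_lit 76) (nat_lit 2789337210) (nat_lit 6) (nat_lit 4) (nat_lit 7) (nat_lit 5) (nat_lit 7) (nat_lit 4) (nat_lit 532) (nat_lit 375) (nat_lit 293)) (XT.lf (nat_lit 0) (nat_lit 15364014749) (nat_lit 152) (nat_lit 257572782049) (nat_lit 0) (nat_lit 12842763052) (nat_lit 4) (nat_lit 5) (nat_lit 6) (nat_lit 4) (nat_lit 4) (nat_lit 4) (nat_lit 533) (nat_lit 375) (nat_lit 292)))))) (XT.nd (nat_lit 624) (nat_lit 76) (nat_lit 0) (XT.nd (nat_lit 312) (nat_lit 0) (nat_lit 0) (XT.nd (nat_lit 156) (nat_lit 0) (nat_lit 0) (XT.nd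 (nat_lit 78) (nat_lit 0) (nat_lit 0) (XT.lf (nat_lit 0) (nat_lit 34531449203) (nat_lit 152) (nat_lit 232602630916) (nat_lit 0) (nat_lit 32008067792) (nat_lit 4) (nat_lit 5) (nat_lit 6) (nat_lit 4) (nat_lit 4) (nat_lit 4) (nat_lit 534) (nat_lit 375) (nat_lit 291)) (XT.lf (nat_lit 0) (nat_lit 54628220624) (nat_lit 152) (nat_lit 206443285597) (nat_lit 0) (nat_lit 52102810913) (nat_lit 4) (nat_lit 5) (nat_lit 6) (nat_lit 4) (nat_lit 4) (nat_lit 4) (nat_lit 535) (nat_lit 375) (nat_lit 290))) (XT.nd (nat_lit 78) (nat_lit 0) (nat_lit 0) (XT.lf (nat_lit 0) (nat_lit 75702178466) (nat_lit 152) (nat_lit 179032461938) (nat_lit 0) (nat_lit 73174837041) (nat_lit 4) (nat_lit 5) (nat_lit 6) (nat_lit 4) (nat_lit 4) (nat_lit 4) (nat_lit 536) (nat_lit 375) (nat_lit 289)) (XT.lf (nat_lit 0) (nat_lit 97803498820) (nat_lit 152) (nat_lit 150304896072) (nat_lit 0) (nat_lit 95274317668) (nat_lit 4) (nat_lit 5) (nat_lit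 6) (nat_lit 4) (nat_lit 4) (nat_lit 4) (nat_lit 537) (nat_lit 375) (nat_lit 288)))) (XT.nd (nat_lit 156) (nat_lit 0) (nat_lit 0) (XT.nd (nat_lit 78) (nat_lit 0) (nat_lit 0) (XT.lf (nat_lit 0) (nat_lit 120984803877) (nat_lit 152) (nat_lit 120192189033) (nat_lit 0) (nat_lit 118453870604) (nat_lit 4) (nat_lit 5) (nat_lit 6) (nat_lit 4) (nat_lit 4) (nat_lit 4) (nat_lit 538) (nat_lit 375) (nat_lit 287)) (XT.lf (nat_lit 0) (nat_lit 145301287221) (nat_lit 152) (nat_lit 88622643900) (nat_lit 0) (nat_lit 142768685260) (nat_lit 4) (nat_lit 5) (nat_lit 6) (nat_lit 4) (nat_lit 4) (nat_lit 4) (nat_lit 539) (nat_lit 375) (nat_lit 286))) (XT.nd (nat_lit 78) (nat_lit 0) (nat_lit 0) (XT.lf (nat_lit 0) (nat_lit 170810845241) (nat_lit 152) (nat_lit 55521095089) (nat_lit 0) (nat_lit 168276654054) (nat_lit 4) (nat_lit 5) (nat_lit 6) (nat_lit 4) (nat_lit 4) (nat_lit 4) (nat_lit 540) (nat_lit 375) (nat_lit 285)) (XT.lf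 (nat_lit 0) (nat_lit 197574214978) (nat_lit 152) (nat_lit 20808729388) (nat_lit 0) (nat_lit 195038510243) (nat_lit 4) (nat_lit 5) (nat_lit 6) (nat_lit 4) (nat_lit 4) (nat_lit 4) (nat_lit 541) (nat_lit 375) (nat_lit 284))))) (XT.nd (nat_lit 312) (nat_lit 0) (nat_lit 0) (XT.nd (nat_lit 156) (nat_lit 0) (nat_lit 0) (XT.nd (nat_lit 78) (nat_lit 0) (nat_lit 0) (XT.lf (nat_lit 0) (nat_lit 16112812311) (nat_lit 76) (nat_lit 209793872588) (nat_lit 76) (nat_lit 207256726378) (nat_lit 3) (nat_lit 4) (nat_lit 4) (nat_lit 5) (nat_lit 4) (nat_lit 4) (nat_lit 542) (nat_lit 375) (nat_lit 283)) (XT.lf (nat_lit 0) (nat_lit 55561390173) (nat_lit 76) (nat_lit 200426494668) (nat_lit 76) (nat_lit 197887975625) (nat_lit 3) (nat_lit 4) (nat_lit 4) (nat_lit 5) (nat_lit 4) (nat_lit 4) (nat_lit 543) (nat_lit 375) (nat_lit 282))) (XT.nd (nat_lit 78) (nat_lit 0) (nat_lit 0) (XT.lf (nat_lit 0) (nat_lit 96942898814) (nat_lit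 76) (nat_lit 190610913227) (nat_lit 76) (nat_lit 188071086724) (nat_lit 3) (nat_lit 4) (nat_lit 4) (nat_lit 5) (nat_lit 4) (nat_lit 4) (nat_lit 544) (nat_lit 375) (nat_lit 281)) (XT.lf (nat_lit 0) (nat_lit 140355865635) (nat_lit 76) (nat_lit 180323757834) (nat_lit 76) (nat_lit 177782686130) (nat_lit 3) (nat_lit 4) (nat_lit 4) (nat_lit 5) (nat_lit 4) (nat_lit 4) (nat_lit 545) (nat_lit 375) (nat_lit 280)))) (XT.nd (nat_lit 156) (nat_lit 0) (nat_lit 0) (XT.nd (nat_lit 78) (nat_lit 0) (nat_lit 0) (XT.lf (nat_lit 0) (nat_lit 185903654842) (nat_lit 76) (nat_lit 169540535260) (nat_lit 76) (nat_lit 166998277652) (nat_lit 3) (nat_lit 4) (nat_lit 4) (nat_lit 5) (nat_lit 4) (nat_lit 4) (nat_lit 546) (nat_lit 375) (nat_lit 279)) (XT.lf (nat_lit 0) (nat_lit 233694713554) (nat_lit 76) (nat_lit 158235571167) (nat_lit 76) (nat_lit 155692184126) (nat_lit 3) (nat_lit 4) (nat_lit 4) (nat_lit 5) (nat_lit 4) (nat_lit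 4) (nat_lit 547) (nat_lit 375) (nat_lit 278))) (XT.nd (nat_lit 78) (nat_lit 0) (nat_lit 0) (XT.lf (nat_lit 0) (nat_lit 283842830005) (nat_lit 76) (nat_lit 146381948973) (nat_lit 76) (nat_lit 143837486281) (nat_lit 3) (nat_lit 4) (nat_lit 4) (nat_lit 5) (nat_lit 4) (nat_lit 4) (nat_lit 548) (nat_lit 375) (nat_lit 277)) (XT.nd (nat_lit 78) (nat_lit 0) (nat_lit 0) (XT.lf (nat_lit 0) (nat_lit 336467404472) (nat_lit 76) (nat_lit 133951445768) (nat_lit 76) (nat_lit 131405958647) (nat_lit 3) (nat_lit 4) (nat_lit 4) (nat_lit 5) (nat_lit 4) (nat_lit 4) (nat_lit 549) (nat_lit 375) (nat_lit 276)) (XT.lf (nat_lit 0) (nat_lit 391693733561) (nat_lit 76) (nat_lit 120914465117) (nat_lit 76) (nat_lit 118368002349) (nat_lit 3) (nat_lit 4) (nat_lit 4) (nat_lit 5) (nat_lit 4) (nat_lit 4) (nat_lit 550) (nat_lit 375) (nat_lit 275))))))))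
noncomputable def xc90 : XT := (XT.nd (nat_lit 55224) (nat_lit 0) (nat_lit 2736) (XT.nd (nat_lit 54600) (nat_lit 0) (nat_lit 4180) (XT.nd (nat_lit 312) (nat_lit 0) (nat_lit 0) (XT.nd (nat_lit 156) (nat_lit 0) (nat_lit 0) (XT.nd (nat_lit 78) (nat_lit 0) (nat_lit 0) (XT.lf (nat_lit 0) (nat_lit 449653308533) (nat_lit 76) (nat_lit 107239966589) (nat_lit 76) (nat_lit 104692574633) (nat_lit 3) (nat_lit 4) (nat_lit 4) (nat_lit 5) (nat_lit 4) (nat_lit 4) (nat_lit 551) (nat_lit 375) (nat_lit 274)) (XT.lf (nat_lit 0) (nat_lit 510484128374) (nat_lit 76) (nat_lit 92895391854) (nat_lit 76) (nat_lit 90347114958) (nat_lit 3) (nat_lit 4) (nat_lit 4) (nat_lit 5) (nat_lit 4) (nat_lit 4) (nat_lit 552) (nat_lit 375) (nat_lit 273))) (XT.nd (nat_lit 78) (nat_lit 0) (nat_lit 0) (XT.lf (nat_lit 0) (nat_lit 574331028370) (nat_lit 76) (nat_lit 77846587162) (nat_lit 76) (nat_lit 75297467466) (nat_lit 3) (nat_lit 4) (nat_lit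 4) (nat_lit 5) (nat_lit 4) (nat_lit 4) (nat_lit 553) (nat_lit 375) (nat_lit 272)) (XT.lf (nat_lit 0) (nat_lit 641346024951) (nat_lit 76) (nat_lit 62057722028) (nat_lit 76) (nat_lit 59507799664) (nat_lit 3) (nat_lit 4) (nat_lit 4) (nat_lit 5) (nat_lit 4) (nat_lit 4) (nat_lit 554) (nat_lit 375) (nat_lit 271)))) (XT.nd (nat_lit 54132) (nat_lit 0) (nat_lit 5016) (XT.nd (nat_lit 78) (nat_lit 0) (nat_lit 0) (XT.lf (nat_lit 0) (nat_lit 711688677630) (nat_lit 76) (nat_lit 45491203913) (nat_lit 76) (nat_lit 42940517105) (nat_lit 3) (nat_lit 4) (nat_lit 4) (nat_lit 5) (nat_lit 4) (nat_lit 4) (nat_lit 555) (nat_lit 375) (nat_lit 270)) (XT.lf (nat_lit 0) (nat_lit 785526468916) (nat_lit 76) (nat_lit 28107588729) (nat_lit 76) (nat_lit 25556173878) (nat_lit 3) (nat_lit 4) (nat_lit 4) (nat_lit 5) (nat_lit 4) (nat_lit 4) (nat_lit 556) (nat_lit 375) (nat_lit 269))) (XT.nd (nat_lit 78) (nat_lit 152) (nat_lit 0) (XT.lf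 (nat_lit 0) (nat_lit 1620271572) (nat_lit 152) (nat_lit 3499141089) (nat_lit 0) (nat_lit 1620271572) (nat_lit 71) (nat_lit 5) (nat_lit 73) (nat_lit 4) (nat_lit 71) (nat_lit 4) (nat_lit 448) (nat_lit 376) (nat_lit 376)) (XT.lf (nat_lit 0) (nat_lit 5727684760) (nat_lit 152) (nat_lit 4226772425) (nat_lit 152) (nat_lit 3851465028) (nat_lit 69) (nat_lit 4) (nat_lit 71) (nat_lit 5) (nat_lit 71) (nat_lit 4) (nat_lit 449) (nat_lit 376) (nat_lit 375))))) (XT.nd (nat_lit 312) (nat_lit 380) (nat_lit 0) (XT.nd (nat_lit 156) (nat_lit 228) (nat_lit 0) (XT.nd (nat_lit 78) (nat_lit 76) (nat_lit 0) (XT.lf (nat_lit 0) (nat_lit 2767687318) (nat_lit 152) (nat_lit 9308863550) (nat_lit 0) (nat_lit 2069836829) (nat_lit 67) (nat_lit 5) (nat_lit 69) (nat_lit 4) (nat_lit 67) (nat_lit 4) (nat_lit 450) (nat_lit 376) (nat_lit 374)) (XT.lf (nat_lit 0) (nat_lit 3739499923) (nat_lit 76) (nat_lit 5890595707) (nat_lit 76) (nat_lit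 4868540579) (nat_lit 66) (nat_lit 4) (nat_lit 67) (nat_lit 5) (nat_lit 67) (nat_lit 4) (nat_lit 451) (nat_lit 376) (nat_lit 373))) (XT.nd (nat_lit 78) (nat_lit 76) (nat_lit 0) (XT.lf (nat_lit 0) (nat_lit 1889324419) (nat_lit 152) (nat_lit 12356506838) (nat_lit 0) (nat_lit 621875417) (nat_lit 64) (nat_lit 5) (nat_lit 66) (nat_lit 4) (nat_lit 64) (nat_lit 4) (nat_lit 452) (nat_lit 376) (nat_lit 372)) (XT.lf (nat_lit 0) (nat_lit 995460158) (nat_lit 76) (nat_lit 7899801130) (nat_lit 76) (nat_lit 6352291970) (nat_lit 63) (nat_lit 4) (nat_lit 64) (nat_lit 5) (nat_lit 64) (nat_lit 4) (nat_lit 453) (nat_lit 376) (nat_lit 371)))) (XT.nd (nat_lit 156) (nat_lit 228) (nat_lit 0) (XT.nd (nat_lit 78) (nat_lit 76) (nat_lit 0) (XT.lf (nat_lit 0) (nat_lit 575361410) (nat_lit 152) (nat_lit 634742228) (nat_lit 76) (nat_lit 14436337495) (nat_lit 62) (nat_lit 5) (nat_lit 64) (nat_lit 5) (nat_lit 63) (nat_lit 4) (nat_lit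 454) (nat_lit 376) (nat_lit 370)) (XT.lf (nat_lit 0) (nat_lit 7728449309) (nat_lit 152) (nat_lit 2568311510) (nat_lit 0) (nat_lit 5758681748) (nat_lit 61) (nat_lit 5) (nat_lit 63) (nat_lit 4) (nat_lit 61) (nat_lit 4) (nat_lit 455) (nat_lit 376) (nat_lit 369))) (XT.nd (nat_lit 78) (nat_lit 152) (nat_lit 0) (XT.lf (nat_lit 0) (nat_lit 11800170349) (nat_lit 76) (nat_lit 3442366293) (nat_lit 76) (nat_lit 1242192547) (nat_lit 60) (nat_lit 4) (nat_lit 61) (nat_lit 5) (nat_lit 61) (nat_lit 4) (nat_lit 456) (nat_lit 376) (nat_lit 368)) (XT.lf (nat_lit 0) (nat_lit 6045562238) (nat_lit 152) (nat_lit 7141556482) (nat_lit 0) (nat_lit 3741173468) (nat_lit 58) (nat_lit 5) (nat_lit 60) (nat_lit 4) (nat_lit 58) (nat_lit 4) (nat_lit 457) (nat_lit 376) (nat_lit 367)))))) (XT.nd (nat_lit 624) (nat_lit 684) (nat_lit 0) (XT.nd (nat_lit 312) (nat_lit 380) (nat_lit 0) (XT.nd (nat_lit 156) (nat_lit 152) (nat_lit 0) (XT.nd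 (nat_lit 78) (nat_lit 152) (nat_lit 0) (XT.lf (nat_lit 0) (nat_lit 7504942518) (nat_lit 76) (nat_lit 6194657460) (nat_lit 76) (nat_lit 3691235164) (nat_lit 57) (nat_lit 4) (nat_lit 58) (nat_lit 5) (nat_lit 58) (nat_lit 4) (nat_lit 458) (nat_lit 376) (nat_lit 366)) (XT.lf (nat_lit 0) (nat_lit 3745195249) (nat_lit 152) (nat_lit 12947399460) (nat_lit 0) (nat_lit 1180454264) (nat_lit 55) (nat_lit 5) (nat_lit 57) (nat_lit 4) (nat_lit 55) (nat_lit 4) (nat_lit 459) (nat_lit 376) (nat_lit 365))) (XT.nd (nat_lit 78) (nat_lit 76) (nat_lit 0) (XT.lf (nat_lit 0) (nat_lit 1934855237) (nat_lit 76) (nat_lit 9586778128) (nat_lit 76) (nat_lit 6850104500) (nat_lit 54) (nat_lit 4) (nat_lit 55) (nat_lit 5) (nat_lit 55) (nat_lit 4) (nat_lit 460) (nat_lit 376) (nat_lit 364)) (XT.lf (nat_lit 0) (nat_lit 779645383) (nat_lit 152) (nat_lit 1302145966) (nat_lit 76) (nat_lit 16812281198) (nat_lit 53) (nat_lit 5) (nat_lit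 55) (nat_lit 5) (nat_lit 54) (nat_lit 4) (nat_lit 461) (nat_lit 376) (nat_lit 363)))) (XT.nd (nat_lit 156) (nat_lit 228) (nat_lit 0) (XT.nd (nat_lit 78) (nat_lit 76) (nat_lit 0) (XT.lf (nat_lit 0) (nat_lit 8681467316) (nat_lit 152) (nat_lit 4978762059) (nat_lit 0) (nat_lit 5770641623) (nat_lit 52) (nat_lit 5) (nat_lit 54) (nat_lit 4) (nat_lit 52) (nat_lit 4) (nat_lit 462) (nat_lit 376) (nat_lit 362)) (XT.lf (nat_lit 0) (nat_lit 10969100325) (nat_lit 76) (nat_lit 6038121760) (nat_lit 76) (nat_lit 2985846656) (nat_lit 51) (nat_lit 4) (nat_lit 52) (nat_lit 5) (nat_lit 52) (nat_lit 4) (nat_lit 463) (nat_lit 376) (nat_lit 361))) (XT.nd (nat_lit 78) (nat_lit 76) (nat_lit 0) (XT.lf (nat_lit 0) (nat_lit 5029886328) (nat_lit 152) (nat_lit 13553332849) (nat_lit 0) (nat_lit 1994658873) (nat_lit 49) (nat_lit 5) (nat_lit 51) (nat_lit 4) (nat_lit 49) (nat_lit 4) (nat_lit 464) (nat_lit 376) (nat_lit 360)) (XT.lf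 (nat_lit 0) (nat_lit 2541372893) (nat_lit 76) (nat_lit 10900370731) (nat_lit 76) (nat_lit 7742953957) (nat_lit 48) (nat_lit 4) (nat_lit 49) (nat_lit 5) (nat_lit 49) (nat_lit 4) (nat_lit 465) (nat_lit 376) (nat_lit 359))))) (XT.nd (nat_lit 312) (nat_lit 304) (nat_lit 0) (XT.nd (nat_lit 156) (nat_lit 228) (nat_lit 0) (XT.nd (nat_lit 78) (nat_lit 76) (nat_lit 0) (XT.lf (nat_lit 0) (nat_lit 473035094) (nat_lit 152) (nat_lit 2304065610) (nat_lit 76) (nat_lit 19042646565) (nat_lit 47) (nat_lit 5) (nat_lit 49) (nat_lit 5) (nat_lit 48) (nat_lit 4) (nat_lit 466) (nat_lit 376) (nat_lit 358)) (XT.lf (nat_lit 0) (nat_lit 8975143067) (nat_lit 152) (nat_lit 7746585671) (nat_lit 0) (nat_lit 5751698430) (nat_lit 46) (nat_lit 5) (nat_lit 48) (nat_lit 4) (nat_lit 46) (nat_lit 4) (nat_lit 467) (nat_lit 376) (nat_lit 357))) (XT.nd (nat_lit 78) (nat_lit 152) (nat_lit 0) (XT.lf (nat_lit 0) (nat_lit 9410691529) (nat_lit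 76) (nat_lit 8535440929) (nat_lit 76) (nat_lit 5211470836) (nat_lit 45) (nat_lit 4) (nat_lit 46) (nat_lit 5) (nat_lit 46) (nat_lit 4) (nat_lit 468) (nat_lit 376) (nat_lit 356)) (XT.lf (nat_lit 0) (nat_lit 3379862372) (nat_lit 152) (nat_lit 20370312040) (nat_lit 0) (nat_lit 122997018) (nat_lit 43) (nat_lit 5) (nat_lit 45) (nat_lit 4) (nat_lit 43) (nat_lit 4) (nat_lit 469) (nat_lit 376) (nat_lit 355)))) (XT.nd (nat_lit 156) (nat_lit 228) (nat_lit 0) (XT.nd (nat_lit 78) (nat_lit 76) (nat_lit 0) (XT.lf (nat_lit 0) (nat_lit 12414296475) (nat_lit 152) (nat_lit 3125923550) (nat_lit 0) (nat_lit 9070593453) (nat_lit 43) (nat_lit 5) (nat_lit 45) (nat_lit 4) (nat_lit 43) (nat_lit 4) (nat_lit 470) (nat_lit 376) (nat_lit 354)) (XT.lf (nat_lit 0) (nat_lit 15105830840) (nat_lit 76) (nat_lit 6851533792) (nat_lit 76) (nat_lit 3425128229) (nat_lit 42) (nat_lit 4) (nat_lit 43) (nat_lit 5) (nat_lit 43) (nat_lit 4)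 (nat_lit 471) (nat_lit 376) (nat_lit 353))) (XT.nd (nat_lit 78) (nat_lit 76) (nat_lit 0) (XT.lf (nat_lit 0) (nat_lit 5636232686) (nat_lit 152) (nat_lit 18252205107) (nat_lit 0) (nat_lit 2297975650) (nat_lit 40) (nat_lit 5) (nat_lit 42) (nat_lit 4) (nat_lit 40) (nat_lit 4) (nat_lit 472) (nat_lit 376) (nat_lit 352)) (XT.nd (nat_lit 78) (nat_lit 76) (nat_lit 0) (XT.lf (nat_lit 0) (nat_lit 15146214110) (nat_lit 152) (nat_lit 139460727) (nat_lit 0) (nat_lit 11736515510) (nat_lit 40) (nat_lit 5) (nat_lit 42) (nat_lit 4) (nat_lit 40) (nat_lit 4) (nat_lit 473) (nat_lit 376) (nat_lit 351)) (XT.lf (nat_lit 0) (nat_lit 19150214562) (nat_lit 76) (nat_lit 6110416790) (nat_lit 76) (nat_lit 2632678605) (nat_lit 39) (nat_lit 4) (nat_lit 40) (nat_lit 5) (nat_lit 40) (nat_lit 4) (nat_lit 474) (nat_lit 376) (nat_lit 350))))))))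
noncomputable def xc91 : XT := (XT.nd (nat_lit 1248) (nat_lit 836) (nat_lit 0) (XT.nd (nat_lit 624) (nat_lit 532) (nat_lit 0) (XT.nd (nat_lit 312) (nat_lit 228) (nat_lit 0) (XT.nd (nat_lit 156) (nat_lit 152) (nat_lit 0) (XT.nd (nat_lit 78) (nat_lit 76) (nat_lit 0) (XT.lf (nat_lit 0) (nat_lit 6899427715) (nat_lit 152) (nat_lit 18374804113) (nat_lit 0) (nat_lit 3525582201) (nat_lit 37) (nat_lit 5) (nat_lit 39) (nat_lit 4) (nat_lit 37) (nat_lit 4) (nat_lit 475) (nat_lit 376) (nat_lit 349)) (XT.lf (nat_lit 0) (nat_lit 643722122) (nat_lit 76) (nat_lit 16266917864) (nat_lit 76) (nat_lit 12834297198) (nat_lit 36) (nat_lit 4) (nat_lit 37) (nat_lit 5) (nat_lit 37) (nat_lit 4) (nat_lit 476) (nat_lit 376) (nat_lit 348))) (XT.nd (nat_lit 78) (nat_lit 152) (nat_lit 0) (XT.lf (nat_lit 0) (nat_lit 20914676259) (nat_lit 76) (nat_lit 6652012020) (nat_lit 76) (nat_lit 3163415019) (nat_lit 36) (nat_lit 4) (nat_lit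 37) (nat_lit 5) (nat_lit 37) (nat_lit 4) (nat_lit 477) (nat_lit 376) (nat_lit 347)) (XT.lf (nat_lit 0) (nat_lit 6822607252) (nat_lit 152) (nat_lit 21484334194) (nat_lit 0) (nat_lit 3449361732) (nat_lit 34) (nat_lit 5) (nat_lit 36) (nat_lit 4) (nat_lit 34) (nat_lit 4) (nat_lit 478) (nat_lit 376) (nat_lit 346)))) (XT.nd (nat_lit 156) (nat_lit 152) (nat_lit 0) (XT.nd (nat_lit 78) (nat_lit 76) (nat_lit 0) (XT.lf (nat_lit 0) (nat_lit 17318220033) (nat_lit 152) (nat_lit 1610550458) (nat_lit 0) (nat_lit 13896620050) (nat_lit 34) (nat_lit 5) (nat_lit 36) (nat_lit 4) (nat_lit 34) (nat_lit 4) (nat_lit 479) (nat_lit 376) (nat_lit 345)) (XT.lf (nat_lit 0) (nat_lit 19572980627) (nat_lit 76) (nat_lit 8917505177) (nat_lit 76) (nat_lit 5449853324) (nat_lit 33) (nat_lit 4) (nat_lit 34) (nat_lit 5) (nat_lit 34) (nat_lit 4) (nat_lit 480) (nat_lit 376) (nat_lit 344))) (XT.nd (nat_lit 78) (nat_lit 0) (nat_lit 0) (XT.lf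 (nat_lit 0) (nat_lit 4949498410) (nat_lit 152) (nat_lit 28552208845) (nat_lit 0) (nat_lit 1605202433) (nat_lit 31) (nat_lit 5) (nat_lit 33) (nat_lit 4) (nat_lit 31) (nat_lit 4) (nat_lit 481) (nat_lit 376) (nat_lit 343)) (XT.lf (nat_lit 0) (nat_lit 15925656081) (nat_lit 152) (nat_lit 7848107785) (nat_lit 0) (nat_lit 12541578768) (nat_lit 31) (nat_lit 5) (nat_lit 33) (nat_lit 4) (nat_lit 31) (nat_lit 4) (nat_lit 482) (nat_lit 376) (nat_lit 342))))) (XT.nd (nat_lit 312) (nat_lit 228) (nat_lit 0) (XT.nd (nat_lit 156) (nat_lit 152) (nat_lit 0) (XT.nd (nat_lit 78) (nat_lit 76) (nat_lit 0) (XT.lf (nat_lit 0) (nat_lit 14044902905) (nat_lit 76) (nat_lit 13478802413) (nat_lit 76) (nat_lit 10056838114) (nat_lit 30) (nat_lit 4) (nat_lit 31) (nat_lit 5) (nat_lit 31) (nat_lit 4) (nat_lit 483) (nat_lit 376) (nat_lit 341)) (XT.lf (nat_lit 0) (nat_lit 756236942) (nat_lit 152) (nat_lit 1907761411) (nat_lit 76) (nat_lit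 36244939792) (nat_lit 29) (nat_lit 5) (nat_lit 31) (nat_lit 5) (nat_lit 30) (nat_lit 4) (nat_lit 484) (nat_lit 376) (nat_lit 340))) (XT.nd (nat_lit 78) (nat_lit 76) (nat_lit 0) (XT.lf (nat_lit 0) (nat_lit 12102674215) (nat_lit 152) (nat_lit 19399733419) (nat_lit 0) (nat_lit 8776567778) (nat_lit 28) (nat_lit 5) (nat_lit 30) (nat_lit 4) (nat_lit 28) (nat_lit 4) (nat_lit 485) (nat_lit 376) (nat_lit 339)) (XT.lf (nat_lit 0) (nat_lit 2923395662) (nat_lit 76) (nat_lit 21076120605) (nat_lit 76) (nat_lit 17718844451) (nat_lit 27) (nat_lit 4) (nat_lit 28) (nat_lit 5) (nat_lit 28) (nat_lit 4) (nat_lit 486) (nat_lit 376) (nat_lit 338)))) (XT.nd (nat_lit 156) (nat_lit 76) (nat_lit 0) (XT.nd (nat_lit 78) (nat_lit 152) (nat_lit 0) (XT.lf (nat_lit 0) (nat_lit 26758843760) (nat_lit 76) (nat_lit 9924122568) (nat_lit 76) (nat_lit 6537160968) (nat_lit 27) (nat_lit 4) (nat_lit 28) (nat_lit 5) (nat_lit 28) (nat_lit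 4) (nat_lit 487) (nat_lit 376) (nat_lit 337)) (XT.lf (nat_lit 0) (nat_lit 5040582393) (nat_lit 152) (nat_lit 37964182660) (nat_lit 0) (nat_lit 1787979105) (nat_lit 25) (nat_lit 5) (nat_lit 27) (nat_lit 4) (nat_lit 25) (nat_lit 4) (nat_lit 488) (nat_lit 376) (nat_lit 336))) (XT.nd (nat_lit 78) (nat_lit 76) (nat_lit 0) (XT.lf (nat_lit 0) (nat_lit 17291249781) (nat_lit 152) (nat_lit 15118694510) (nat_lit 0) (nat_lit 14013003089) (nat_lit 25) (nat_lit 5) (nat_lit 27) (nat_lit 4) (nat_lit 25) (nat_lit 4) (nat_lit 489) (nat_lit 376) (nat_lit 335)) (XT.lf (nat_lit 0) (nat_lit 8898040186) (nat_lit 76) (nat_lit 21269322112) (nat_lit 76) (nat_lit 17966653130) (nat_lit 24) (nat_lit 4) (nat_lit 25) (nat_lit 5) (nat_lit 25) (nat_lit 4) (nat_lit 490) (nat_lit 376) (nat_lit 334)))))) (XT.nd (nat_lit 624) (nat_lit 456) (nat_lit 0) (XT.nd (nat_lit 312) (nat_lit 152) (nat_lit 0) (XT.nd (nat_lit 156) (nat_lit 76)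 (nat_lit 0) (XT.nd (nat_lit 78) (nat_lit 152) (nat_lit 0) (XT.lf (nat_lit 0) (nat_lit 34388803977) (nat_lit 76) (nat_lit 9430578179) (nat_lit 76) (nat_lit 6104649873) (nat_lit 24) (nat_lit 4) (nat_lit 25) (nat_lit 5) (nat_lit 25) (nat_lit 4) (nat_lit 491) (nat_lit 376) (nat_lit 333)) (XT.lf (nat_lit 0) (nat_lit 6221427133) (nat_lit 152) (nat_lit 42540674264) (nat_lit 0) (nat_lit 3032779474) (nat_lit 22) (nat_lit 5) (nat_lit 24) (nat_lit 4) (nat_lit 22) (nat_lit 4) (nat_lit 492) (nat_lit 376) (nat_lit 332))) (XT.nd (nat_lit 78) (nat_lit 76) (nat_lit 0) (XT.lf (nat_lit 0) (nat_lit 19260756206) (nat_lit 152) (nat_lit 18426390852) (nat_lit 0) (nat_lit 16052016269) (nat_lit 22) (nat_lit 5) (nat_lit 24) (nat_lit 4) (nat_lit 22) (nat_lit 4) (nat_lit 493) (nat_lit 376) (nat_lit 331)) (XT.lf (nat_lit 0) (nat_lit 6881726246) (nat_lit 76) (nat_lit 26063573449) (nat_lit 76) (nat_lit 22835698009) (nat_lit 21)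 (nat_lit 4) (nat_lit 22) (nat_lit 5) (nat_lit 22) (nat_lit 4) (nat_lit 494) (nat_lit 376) (nat_lit 330)))) (XT.nd (nat_lit 156) (nat_lit 0) (nat_lit 0) (XT.nd (nat_lit 78) (nat_lit 152) (nat_lit 0) (XT.lf (nat_lit 0) (nat_lit 33866577352) (nat_lit 76) (nat_lit 13647229763) (nat_lit 76) (nat_lit 10401130034) (nat_lit 21) (nat_lit 4) (nat_lit 22) (nat_lit 5) (nat_lit 22) (nat_lit 4) (nat_lit 495) (nat_lit 376) (nat_lit 329)) (XT.lf (nat_lit 0) (nat_lit 1841467502) (nat_lit 76) (nat_lit 648739178) (nat_lit 152) (nat_lit 57667293215) (nat_lit 19) (nat_lit 5) (nat_lit 20) (nat_lit 5) (nat_lit 21) (nat_lit 4) (nat_lit 496) (nat_lit 376) (nat_lit 328))) (XT.nd (nat_lit 78) (nat_lit 0) (nat_lit 0) (XT.lf (nat_lit 0) (nat_lit 16184798617) (nat_lit 152) (nat_lit 33232452805) (nat_lit 0) (nat_lit 13061002274) (nat_lit 19) (nat_lit 5) (nat_lit 21) (nat_lit 4) (nat_lit 19) (nat_lit 4) (nat_lit 497) (nat_lit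 376) (nat_lit 327)) (XT.lf (nat_lit 0) (nat_lit 30471256178) (nat_lit 152) (nat_lit 7115965693) (nat_lit 0) (nat_lit 27332466668) (nat_lit 19) (nat_lit 5) (nat_lit 21) (nat_lit 4) (nat_lit 19) (nat_lit 4) (nat_lit 498) (nat_lit 376) (nat_lit 326))))) (XT.nd (nat_lit 312) (nat_lit 228) (nat_lit 0) (XT.nd (nat_lit 156) (nat_lit 152) (nat_lit 0) (XT.nd (nat_lit 78) (nat_lit 0) (nat_lit 0) (XT.lf (nat_lit 0) (nat_lit 20770526246) (nat_lit 76) (nat_lit 24927225981) (nat_lit 76) (nat_lit 21774157264) (nat_lit 18) (nat_lit 4) (nat_lit 19) (nat_lit 5) (nat_lit 19) (nat_lit 4) (nat_lit 499) (nat_lit 376) (nat_lit 325)) (XT.lf (nat_lit 0) (nat_lit 50101022543) (nat_lit 76) (nat_lit 11608104671) (nat_lit 76) (nat_lit 8441436709) (nat_lit 18) (nat_lit 4) (nat_lit 19) (nat_lit 5) (nat_lit 19) (nat_lit 4) (nat_lit 500) (nat_lit 376) (nat_lit 324))) (XT.nd (nat_lit 78) (nat_lit 0) (nat_lit 0) (XT.lf (nat_lit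 0) (nat_lit 5448717827) (nat_lit 152) (nat_lit 65086151676) (nat_lit 0) (nat_lit 2420508661) (nat_lit 16) (nat_lit 5) (nat_lit 18) (nat_lit 4) (nat_lit 16) (nat_lit 4) (nat_lit 501) (nat_lit 376) (nat_lit 323)) (XT.lf (nat_lit 0) (nat_lit 20191289735) (nat_lit 152) (nat_lit 38528811397) (nat_lit 0) (nat_lit 17151333031) (nat_lit 16) (nat_lit 5) (nat_lit 18) (nat_lit 4) (nat_lit 16) (nat_lit 4) (nat_lit 502) (nat_lit 376) (nat_lit 322)))) (XT.nd (nat_lit 156) (nat_lit 152) (nat_lit 0) (XT.nd (nat_lit 78) (nat_lit 76) (nat_lit 0) (XT.lf (nat_lit 0) (nat_lit 35581643019) (nat_lit 152) (nat_lit 10825619238) (nat_lit 0) (nat_lit 32530498182) (nat_lit 16) (nat_lit 5) (nat_lit 18) (nat_lit 4) (nat_lit 16) (nat_lit 4) (nat_lit 503) (nat_lit 376) (nat_lit 321)) (XT.lf (nat_lit 0) (nat_lit 18687501536) (nat_lit 76) (nat_lit 33260684109) (nat_lit 76) (nat_lit 30198883908) (nat_lit 15) (nat_lit 4) (nat_lit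 16) (nat_lit 5) (nat_lit 16) (nat_lit 4) (nat_lit 504) (nat_lit 376) (nat_lit 320))) (XT.nd (nat_lit 78) (nat_lit 152) (nat_lit 0) (XT.lf (nat_lit 0) (nat_lit 49881567589) (nat_lit 76) (nat_lit 19351121559) (nat_lit 76) (nat_lit 16279173393) (nat_lit 15) (nat_lit 4) (nat_lit 16) (nat_lit 5) (nat_lit 16) (nat_lit 4) (nat_lit 505) (nat_lit 376) (nat_lit 319)) (XT.nd (nat_lit 78) (nat_lit 152) (nat_lit 0) (XT.lf (nat_lit 0) (nat_lit 82472906644) (nat_lit 76) (nat_lit 4828793702) (nat_lit 76) (nat_lit 1747180806) (nat_lit 15) (nat_lit 4) (nat_lit 16) (nat_lit 5) (nat_lit 16) (nat_lit 4) (nat_lit 506) (nat_lit 376) (nat_lit 318)) (XT.lf (nat_lit 0) (nat_lit 13552960076) (nat_lit 152) (nat_lit 68566218788) (nat_lit 0) (nat_lit 10609324457) (nat_lit 13) (nat_lit 5) (nat_lit 15) (nat_lit 4) (nat_lit 13) (nat_lit 4) (nat_lit 507) (nat_lit 376) (nat_lit 317))))))))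
noncomputable def xc92 : XT := (XT.nd (nat_lit 1248) (nat_lit 228) (nat_lit 0) (XT.nd (nat_lit 624) (nat_lit 228) (nat_lit 0) (XT.nd (nat_lit 312) (nat_lit 152) (nat_lit 0) (XT.nd (nat_lit 156) (nat_lit 76) (nat_lit 0) (XT.nd (nat_lit 78) (nat_lit 0) (nat_lit 0) (XT.lf (nat_lit 0) (nat_lit 29674607472) (nat_lit 152) (nat_lit 40187683194) (nat_lit 0) (nat_lit 26722623096) (nat_lit 13) (nat_lit 5) (nat_lit 15) (nat_lit 4) (nat_lit 13) (nat_lit 4) (nat_lit 508) (nat_lit 376) (nat_lit 316)) (XT.lf (nat_lit 0) (nat_lit 46528873087) (nat_lit 152) (nat_lit 10540007409) (nat_lit 0) (nat_lit 43568937515) (nat_lit 13) (nat_lit 5) (nat_lit 15) (nat_lit 4) (nat_lit 13) (nat_lit 4) (nat_lit 509) (nat_lit 376) (nat_lit 315))) (XT.nd (nat_lit 78) (nat_lit 0) (nat_lit 0) (XT.lf (nat_lit 0) (nat_lit 21123481598) (nat_lit 76) (nat_lit 43362201275) (nat_lit 76) (nat_lit 40394693135) (nat_lit 12) (nat_lit 4) (nat_lit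 13) (nat_lit 5) (nat_lit 13) (nat_lit 4) (nat_lit 510) (nat_lit 376) (nat_lit 314)) (XT.lf (nat_lit 0) (nat_lit 54595717288) (nat_lit 76) (nat_lit 28854290534) (nat_lit 76) (nat_lit 25879570424) (nat_lit 12) (nat_lit 4) (nat_lit 13) (nat_lit 5) (nat_lit 13) (nat_lit 4) (nat_lit 511) (nat_lit 376) (nat_lit 313)))) (XT.nd (nat_lit 156) (nat_lit 0) (nat_lit 0) (XT.nd (nat_lit 78) (nat_lit 152) (nat_lit 0) (XT.lf (nat_lit 0) (nat_lit 89607895214) (nat_lit 76) (nat_lit 13689105753) (nat_lit 76) (nat_lit 10707517100) (nat_lit 12) (nat_lit 4) (nat_lit 13) (nat_lit 5) (nat_lit 13) (nat_lit 4) (nat_lit 512) (nat_lit 376) (nat_lit 312)) (XT.lf (nat_lit 0) (nat_lit 5146502614) (nat_lit 152) (nat_lit 111457433697) (nat_lit 0) (nat_lit 2300664403) (nat_lit 10) (nat_lit 5) (nat_lit 12) (nat_lit 4) (nat_lit 10) (nat_lit 4) (nat_lit 513) (nat_lit 376) (nat_lit 311))) (XT.nd (nat_lit 78) (nat_lit 0) (nat_lit 0)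 (XT.lf (nat_lit 0) (nat_lit 22014304235) (nat_lit 152) (nat_lit 82835027760) (nat_lit 0) (nat_lit 19162532718) (nat_lit 10) (nat_lit 5) (nat_lit 12) (nat_lit 4) (nat_lit 10) (nat_lit 4) (nat_lit 514) (nat_lit 376) (nat_lit 310)) (XT.lf (nat_lit 0) (nat_lit 39665086671) (nat_lit 152) (nat_lit 52904761377) (nat_lit 0) (nat_lit 36807664387) (nat_lit 10) (nat_lit 5) (nat_lit 12) (nat_lit 4) (nat_lit 10) (nat_lit 4) (nat_lit 515) (nat_lit 376) (nat_lit 309))))) (XT.nd (nat_lit 312) (nat_lit 152) (nat_lit 0) (XT.nd (nat_lit 156) (nat_lit 0) (nat_lit 0) (XT.nd (nat_lit 78) (nat_lit 76) (nat_lit 0) (XT.lf (nat_lit 0) (nat_lit 58140875593) (nat_lit 152) (nat_lit 21595372011) (nat_lit 0) (nat_lit 55278071626) (nat_lit 10) (nat_lit 5) (nat_lit 12) (nat_lit 4) (nat_lit 10) (nat_lit 4) (nat_lit 516) (nat_lit 376) (nat_lit 308)) (XT.lf (nat_lit 0) (nat_lit 11536940654) (nat_lit 76) (nat_lit 66128844296) (nat_lit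 76) (nat_lit 63260914917) (nat_lit 9) (nat_lit 4) (nat_lit 10) (nat_lit 5) (nat_lit 10) (nat_lit 4) (nat_lit 517) (nat_lit 376) (nat_lit 307))) (XT.nd (nat_lit 78) (nat_lit 0) (nat_lit 0) (XT.lf (nat_lit 0) (nat_lit 46965614418) (nat_lit 76) (nat_lit 51513152274) (nat_lit 76) (nat_lit 48640341550) (nat_lit 9) (nat_lit 4) (nat_lit 10) (nat_lit 5) (nat_lit 10) (nat_lit 4) (nat_lit 518) (nat_lit 376) (nat_lit 306)) (XT.lf (nat_lit 0) (nat_lit 84060962738) (nat_lit 76) (nat_lit 36220100345) (nat_lit 76) (nat_lit 33342640721) (nat_lit 9) (nat_lit 4) (nat_lit 10) (nat_lit 5) (nat_lit 10) (nat_lit 4) (nat_lit 519) (nat_lit 376) (nat_lit 305)))) (XT.nd (nat_lit 156) (nat_lit 152) (nat_lit 0) (XT.nd (nat_lit 78) (nat_lit 0) (nat_lit 0) (XT.lf (nat_lit 0) (nat_lit 122911307873) (nat_lit 76) (nat_lit 20213276481) (nat_lit 76) (nat_lit 17331389333) (nat_lit 9) (nat_lit 4) (nat_lit 10) (nat_lit 5) (nat_lit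 10) (nat_lit 4) (nat_lit 520) (nat_lit 376) (nat_lit 304)) (XT.lf (nat_lit 0) (nat_lit 163609150645) (nat_lit 76) (nat_lit 3454569197) (nat_lit 76) (nat_lit 568465359) (nat_lit 9) (nat_lit 4) (nat_lit 10) (nat_lit 5) (nat_lit 10) (nat_lit 4) (nat_lit 521) (nat_lit 376) (nat_lit 303))) (XT.nd (nat_lit 78) (nat_lit 0) (nat_lit 0) (XT.lf (nat_lit 0) (nat_lit 17172000763) (nat_lit 152) (nat_lit 143528177167) (nat_lit 0) (nat_lit 14419505780) (nat_lit 7) (nat_lit 5) (nat_lit 9) (nat_lit 4) (nat_lit 7) (nat_lit 4) (nat_lit 522) (nat_lit 376) (nat_lit 302)) (XT.lf (nat_lit 0) (nat_lit 35861208195) (nat_lit 152) (nat_lit 114010771246) (nat_lit 0) (nat_lit 33105070678) (nat_lit 7) (nat_lit 5) (nat_lit 9) (nat_lit 4) (nat_lit 7) (nat_lit 4) (nat_lit 523) (nat_lit 376) (nat_lit 301)))))) (XT.nd (nat_lit 624) (nat_lit 152) (nat_lit 0) (XT.nd (nat_lit 312) (nat_lit 0) (nat_lit 0) (XT.nd (nat_lit 156) (nat_lit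 76) (nat_lit 0) (XT.nd (nat_lit 78) (nat_lit 0) (nat_lit 0) (XT.lf (nat_lit 0) (nat_lit 55441962599) (nat_lit 152) (nat_lit 83105111954) (nat_lit 0) (nat_lit 52682356001) (nat_lit 7) (nat_lit 5) (nat_lit 9) (nat_lit 4) (nat_lit 7) (nat_lit 4) (nat_lit 524) (nat_lit 376) (nat_lit 300)) (XT.lf (nat_lit 0) (nat_lit 75960884818) (nat_lit 152) (nat_lit 50737614389) (nat_lit 0) (nat_lit 73197974333) (nat_lit 7) (nat_lit 5) (nat_lit 9) (nat_lit 4) (nat_lit 7) (nat_lit 4) (nat_lit 525) (nat_lit 376) (nat_lit 299))) (XT.nd (nat_lit 78) (nat_lit 76) (nat_lit 0) (XT.lf (nat_lit 0) (nat_lit 97466829429) (nat_lit 152) (nat_lit 16831213079) (nat_lit 0) (nat_lit 94700772385) (nat_lit 7) (nat_lit 5) (nat_lit 9) (nat_lit 4) (nat_lit 7) (nat_lit 4) (nat_lit 526) (nat_lit 376) (nat_lit 298)) (XT.lf (nat_lit 0) (nat_lit 19312956727) (nat_lit 76) (nat_lit 100999573713) (nat_lit 76) (nat_lit 98230519947) (nat_lit 6)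 (nat_lit 4) (nat_lit 7) (nat_lit 5) (nat_lit 7) (nat_lit 4) (nat_lit 527) (nat_lit 376) (nat_lit 297)))) (XT.nd (nat_lit 156) (nat_lit 0) (nat_lit 0) (XT.nd (nat_lit 78) (nat_lit 0) (nat_lit 0) (XT.lf (nat_lit 0) (nat_lit 57774210697) (nat_lit 76) (nat_lit 86774882959) (nat_lit 76) (nat_lit 84002975171) (nat_lit 6) (nat_lit 4) (nat_lit 7) (nat_lit 5) (nat_lit 7) (nat_lit 4) (nat_lit 528) (nat_lit 376) (nat_lit 296)) (XT.lf (nat_lit 0) (nat_lit 98087607327) (nat_lit 76) (nat_lit 71875146672) (nat_lit 76) (nat_lit 69100520769) (nat_lit 6) (nat_lit 4) (nat_lit 7) (nat_lit 5) (nat_lit 7) (nat_lit 4) (nat_lit 529) (nat_lit 376) (nat_lit 295))) (XT.nd (nat_lit 78) (nat_lit 0) (nat_lit 0) (XT.lf (nat_lit 0) (nat_lit 140349130896) (nat_lit 76) (nat_lit 56264889290) (nat_lit 76) (nat_lit 53487674706) (nat_lit 6) (nat_lit 4) (nat_lit 7) (nat_lit 5) (nat_lit 7) (nat_lit 4) (nat_lit 530) (nat_lit 376) (nat_lit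 294)) (XT.lf (nat_lit 0) (nat_lit 184659404078) (nat_lit 76) (nat_lit 39906943534) (nat_lit 76) (nat_lit 37127263539) (nat_lit 6) (nat_lit 4) (nat_lit 7) (nat_lit 5) (nat_lit 7) (nat_lit 4) (nat_lit 531) (nat_lit 376) (nat_lit 293))))) (XT.nd (nat_lit 312) (nat_lit 0) (nat_lit 0) (XT.nd (nat_lit 156) (nat_lit 152) (nat_lit 0) (XT.nd (nat_lit 78) (nat_lit 0) (nat_lit 0) (XT.lf (nat_lit 0) (nat_lit 231123927523) (nat_lit 76) (nat_lit 22762361914) (nat_lit 76) (nat_lit 19980333908) (nat_lit 6) (nat_lit 4) (nat_lit 7) (nat_lit 5) (nat_lit 7) (nat_lit 4) (nat_lit 532) (nat_lit 376) (nat_lit 292)) (XT.lf (nat_lit 0) (nat_lit 279853331051) (nat_lit 76) (nat_lit 4790323997) (nat_lit 76) (nat_lit 2006059791) (nat_lit 6) (nat_lit 4) (nat_lit 7) (nat_lit 5) (nat_lit 7) (nat_lit 4) (nat_lit 533) (nat_lit 376) (nat_lit 291))) (XT.nd (nat_lit 78) (nat_lit 0) (nat_lit 0) (XT.lf (nat_lit 0) (nat_lit 17025211298)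 (nat_lit 152) (nat_lit 268627173310) (nat_lit 0) (nat_lit 14371502802) (nat_lit 4) (nat_lit 5) (nat_lit 6) (nat_lit 4) (nat_lit 4) (nat_lit 4) (nat_lit 534) (nat_lit 376) (nat_lit 290)) (XT.lf (nat_lit 0) (nat_lit 37108493865) (nat_lit 152) (nat_lit 242495383565) (nat_lit 0) (nat_lit 34452853656) (nat_lit 4) (nat_lit 5) (nat_lit 6) (nat_lit 4) (nat_lit 4) (nat_lit 4) (nat_lit 535) (nat_lit 376) (nat_lit 289)))) (XT.nd (nat_lit 156) (nat_lit 0) (nat_lit 0) (XT.nd (nat_lit 78) (nat_lit 0) (nat_lit 0) (XT.lf (nat_lit 0) (nat_lit 58169605181) (nat_lit 152) (nat_lit 215110803309) (nat_lit 0) (nat_lit 55512125243) (nat_lit 4) (nat_lit 5) (nat_lit 6) (nat_lit 4) (nat_lit 4) (nat_lit 4) (nat_lit 536) (nat_lit 376) (nat_lit 288)) (XT.lf (nat_lit 0) (nat_lit 80258690747) (nat_lit 152) (nat_lit 186408231160) (nat_lit 0) (nat_lit 77599458688) (nat_lit 4) (nat_lit 5) (nat_lit 6) (nat_lit 4) (nat_lit 4) (nat_lit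 4) (nat_lit 537) (nat_lit 376) (nat_lit 287))) (XT.nd (nat_lit 78) (nat_lit 0) (nat_lit 0) (XT.lf (nat_lit 0) (nat_lit 103428343626) (nat_lit 152) (nat_lit 156319327662) (nat_lit 0) (nat_lit 100767442880) (nat_lit 4) (nat_lit 5) (nat_lit 6) (nat_lit 4) (nat_lit 4) (nat_lit 4) (nat_lit 538) (nat_lit 376) (nat_lit 286)) (XT.nd (nat_lit 78) (nat_lit 0) (nat_lit 0) (XT.lf (nat_lit 0) (nat_lit 127733729657) (nat_lit 152) (nat_lit 124772452567) (nat_lit 0) (nat_lit 125071239685) (nat_lit 4) (nat_lit 5) (nat_lit 6) (nat_lit 4) (nat_lit 4) (nat_lit 4) (nat_lit 539) (nat_lit 376) (nat_lit 285)) (XT.lf (nat_lit 0) (nat_lit 153232718806) (nat_lit 152) (nat_lit 91692494268) (nat_lit 0) (nat_lit 150568715286) (nat_lit 4) (nat_lit 5) (nat_lit 6) (nat_lit 4) (nat_lit 4) (nat_lit 4) (nat_lit 540) (nat_lit 376) (nat_lit 284))))))))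
noncomputable def xc93 : XT := (XT.nd (nat_lit 55068) (nat_lit 0) (nat_lit 3724) (XT.nd (nat_lit 624) (nat_lit 0) (nat_lit 0) (XT.nd (nat_lit 312) (nat_lit 0) (nat_lit 0) (XT.nd (nat_lit 156) (nat_lit 76) (nat_lit 0) (XT.nd (nat_lit 78) (nat_lit 0) (nat_lit 0) (XT.lf (nat_lit 0) (nat_lit 179986022954) (nat_lit 152) (nat_lit 57000690961) (nat_lit 0) (nat_lit 177320577959) (nat_lit 4) (nat_lit 5) (nat_lit 6) (nat_lit 4) (nat_lit 4) (nat_lit 4) (nat_lit 541) (nat_lit 376) (nat_lit 283)) (XT.lf (nat_lit 0) (nat_lit 208057340443) (nat_lit 152) (nat_lit 20614443112) (nat_lit 0) (nat_lit 205390522615) (nat_lit 4) (nat_lit 5) (nat_lit 6) (nat_lit 4) (nat_lit 4) (nat_lit 4) (nat_lit 542) (nat_lit 376) (nat_lit 282))) (XT.nd (nat_lit 78) (nat_lit 0) (nat_lit 0) (XT.lf (nat_lit 0) (nat_lit 18133260789) (nat_lit 76) (nat_lit 219663357973) (nat_lit 76) (nat_lit 216995232685) (nat_lit 3) (nat_lit 4) (nat_lit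 4) (nat_lit 5) (nat_lit 4) (nat_lit 4) (nat_lit 543) (nat_lit 376) (nat_lit 281)) (XT.lf (nat_lit 0) (nat_lit 59496419551) (nat_lit 76) (nat_lit 209857144883) (nat_lit 76) (nat_lit 207187774395) (nat_lit 3) (nat_lit 4) (nat_lit 4) (nat_lit 5) (nat_lit 4) (nat_lit 4) (nat_lit 544) (nat_lit 376) (nat_lit 280)))) (XT.nd (nat_lit 156) (nat_lit 0) (nat_lit 0) (XT.nd (nat_lit 78) (nat_lit 0) (nat_lit 0) (XT.lf (nat_lit 0) (nat_lit 102891910296) (nat_lit 76) (nat_lit 199578911728) (nat_lit 76) (nat_lit 196908355335) (nat_lit 3) (nat_lit 4) (nat_lit 4) (nat_lit 5) (nat_lit 4) (nat_lit 4) (nat_lit 545) (nat_lit 376) (nat_lit 279)) (XT.lf (nat_lit 0) (nat_lit 148423055623) (nat_lit 76) (nat_lit 188804186525) (nat_lit 76) (nat_lit 186132500699) (nat_lit 3) (nat_lit 4) (nat_lit 4) (nat_lit 5) (nat_lit 4) (nat_lit 4) (nat_lit 546) (nat_lit 376) (nat_lit 278))) (XT.nd (nat_lit 78) (nat_lit 0) (nat_lit 0) (XT.lf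 (nat_lit 0) (nat_lit 196198263019) (nat_lit 76) (nat_lit 177507315165) (nat_lit 76) (nat_lit 174834553688) (nat_lit 3) (nat_lit 4) (nat_lit 4) (nat_lit 5) (nat_lit 4) (nat_lit 4) (nat_lit 547) (nat_lit 376) (nat_lit 277)) (XT.lf (nat_lit 0) (nat_lit 246331282979) (nat_lit 76) (nat_lit 165661400337) (nat_lit 76) (nat_lit 162987614431) (nat_lit 3) (nat_lit 4) (nat_lit 4) (nat_lit 5) (nat_lit 4) (nat_lit 4) (nat_lit 548) (nat_lit 376) (nat_lit 276))))) (XT.nd (nat_lit 312) (nat_lit 0) (nat_lit 0) (XT.nd (nat_lit 156) (nat_lit 0) (nat_lit 0) (XT.nd (nat_lit 78) (nat_lit 0) (nat_lit 0) (XT.lf (nat_lit 0) (nat_lit 298941479836) (nat_lit 76) (nat_lit 153238237480) (nat_lit 76) (nat_lit 150563475927) (nat_lit 3) (nat_lit 4) (nat_lit 4) (nat_lit 5) (nat_lit 4) (nat_lit 4) (nat_lit 549) (nat_lit 376) (nat_lit 275)) (XT.lf (nat_lit 0) (nat_lit 354154115963) (nat_lit 76) (nat_lit 140208247637) (nat_lit 76)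 (nat_lit 137532556896) (nat_lit 3) (nat_lit 4) (nat_lit 4) (nat_lit 5) (nat_lit 4) (nat_lit 4) (nat_lit 550) (nat_lit 376) (nat_lit 274))) (XT.nd (nat_lit 78) (nat_lit 0) (nat_lit 0) (XT.lf (nat_lit 0) (nat_lit 412100650018) (nat_lit 76) (nat_lit 126540407020) (nat_lit 76) (nat_lit 123863831340) (nat_lit 3) (nat_lit 4) (nat_lit 4) (nat_lit 5) (nat_lit 4) (nat_lit 4) (nat_lit 551) (nat_lit 376) (nat_lit 273)) (XT.lf (nat_lit 0) (nat_lit 472919049939) (nat_lit 76) (nat_lit 112202173154) (nat_lit 76) (nat_lit 109524754673) (nat_lit 3) (nat_lit 4) (nat_lit 4) (nat_lit 5) (nat_lit 4) (nat_lit 4) (nat_lit 552) (nat_lit 376) (nat_lit 272)))) (XT.nd (nat_lit 156) (nat_lit 0) (nat_lit 0) (XT.nd (nat_lit 78) (nat_lit 0) (nat_lit 0) (XT.lf (nat_lit 0) (nat_lit 536754121440) (nat_lit 76) (nat_lit 97159407385) (nat_lit 76) (nat_lit 94481186237) (nat_lit 3) (nat_lit 4) (nat_lit 4) (nat_lit 5) (nat_lit 4) (nat_lit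 4) (nat_lit 553) (nat_lit 376) (nat_lit 271)) (XT.lf (nat_lit 0) (nat_lit 603757852786) (nat_lit 76) (nat_lit 81376293605) (nat_lit 76) (nat_lit 78697308012) (nat_lit 3) (nat_lit 4) (nat_lit 4) (nat_lit 5) (nat_lit 4) (nat_lit 4) (nat_lit 554) (nat_lit 376) (nat_lit 270))) (XT.nd (nat_lit 78) (nat_lit 0) (nat_lit 0) (XT.lf (nat_lit 0) (nat_lit 674089776672) (nat_lit 76) (nat_lit 64815252971) (nat_lit 76) (nat_lit 62135539336) (nat_lit 3) (nat_lit 4) (nat_lit 4) (nat_lit 5) (nat_lit 4) (nat_lit 4) (nat_lit 555) (nat_lit 376) (nat_lit 269)) (XT.lf (nat_lit 0) (nat_lit 747917350058) (nat_lit 76) (nat_lit 47436854435) (nat_lit 76) (nat_lit 44756447425) (nat_lit 3) (nat_lit 4) (nat_lit 4) (nat_lit 5) (nat_lit 4) (nat_lit 4) (nat_lit 556) (nat_lit 376) (nat_lit 268)))))) (XT.nd (nat_lit 624) (nat_lit 912) (nat_lit 0) (XT.nd (nat_lit 312) (nat_lit 380) (nat_lit 0) (XT.nd (nat_lit 156) (nat_lit 304) (nat_lit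 0) (XT.nd (nat_lit 78) (nat_lit 152) (nat_lit 0) (XT.lf (nat_lit 0) (nat_lit 1938615082) (nat_lit 152) (nat_lit 2551439345) (nat_lit 0) (nat_lit 1938615082) (nat_lit 75) (nat_lit 5) (nat_lit 77) (nat_lit 4) (nat_lit 75) (nat_lit 4) (nat_lit 446) (nat_lit 377) (nat_lit 377)) (XT.lf (nat_lit 0) (nat_lit 7090036638) (nat_lit 152) (nat_lit 3244461742) (nat_lit 152) (nat_lit 2830685337) (nat_lit 73) (nat_lit 4) (nat_lit 75) (nat_lit 5) (nat_lit 75) (nat_lit 4) (nat_lit 447) (nat_lit 377) (nat_lit 376))) (XT.nd (nat_lit 78) (nat_lit 152) (nat_lit 0) (XT.lf (nat_lit 0) (nat_lit 3524026646) (nat_lit 152) (nat_lit 7206226685) (nat_lit 0) (nat_lit 2754646482) (nat_lit 71) (nat_lit 5) (nat_lit 73) (nat_lit 4) (nat_lit 71) (nat_lit 4) (nat_lit 448) (nat_lit 377) (nat_lit 375)) (XT.lf (nat_lit 0) (nat_lit 5308274108) (nat_lit 152) (nat_lit 4817795293) (nat_lit 152) (nat_lit 3690979514) (nat_lit 69) (nat_lit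 4) (nat_lit 71) (nat_lit 5) (nat_lit 71) (nat_lit 4) (nat_lit 449) (nat_lit 377) (nat_lit 374)))) (XT.nd (nat_lit 156) (nat_lit 152) (nat_lit 0) (XT.nd (nat_lit 78) (nat_lit 76) (nat_lit 0) (XT.lf (nat_lit 0) (nat_lit 2796997501) (nat_lit 152) (nat_lit 9967060208) (nat_lit 0) (nat_lit 1399634975) (nat_lit 67) (nat_lit 5) (nat_lit 69) (nat_lit 4) (nat_lit 67) (nat_lit 4) (nat_lit 450) (nat_lit 377) (nat_lit 373)) (XT.lf (nat_lit 0) (nat_lit 2854122204) (nat_lit 76) (nat_lit 6686933449) (nat_lit 76) (nat_lit 4980804599) (nat_lit 66) (nat_lit 4) (nat_lit 67) (nat_lit 5) (nat_lit 67) (nat_lit 4) (nat_lit 451) (nat_lit 377) (nat_lit 372))) (XT.nd (nat_lit 78) (nat_lit 0) (nat_lit 0) (XT.lf (nat_lit 0) (nat_lit 1379229481) (nat_lit 76) (nat_lit 269268809) (nat_lit 152) (nat_lit 13249129232) (nat_lit 64) (nat_lit 5) (nat_lit 65) (nat_lit 5) (nat_lit 66) (nat_lit 4) (nat_lit 452) (nat_lit 377) (nat_lit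 371)) (XT.lf (nat_lit 0) (nat_lit 8530850031) (nat_lit 152) (nat_lit 393623374) (nat_lit 0) (nat_lit 6359181295) (nat_lit 64) (nat_lit 5) (nat_lit 66) (nat_lit 4) (nat_lit 64) (nat_lit 4) (nat_lit 453) (nat_lit 377) (nat_lit 370))))) (XT.nd (nat_lit 312) (nat_lit 456) (nat_lit 0) (XT.nd (nat_lit 156) (nat_lit 228) (nat_lit 0) (XT.nd (nat_lit 78) (nat_lit 76) (nat_lit 0) (XT.lf (nat_lit 0) (nat_lit 77582572) (nat_lit 152) (nat_lit 2266647282) (nat_lit 76) (nat_lit 13344130843) (nat_lit 62) (nat_lit 5) (nat_lit 64) (nat_lit 5) (nat_lit 63) (nat_lit 4) (nat_lit 454) (nat_lit 377) (nat_lit 369)) (XT.lf (nat_lit 0) (nat_lit 7082965994) (nat_lit 152) (nat_lit 4479405142) (nat_lit 0) (nat_lit 4542377375) (nat_lit 61) (nat_lit 5) (nat_lit 63) (nat_lit 4) (nat_lit 61) (nat_lit 4) (nat_lit 455) (nat_lit 377) (nat_lit 368))) (XT.nd (nat_lit 78) (nat_lit 152) (nat_lit 0) (XT.lf (nat_lit 0) (nat_lit 9628982095)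 (nat_lit 76) (nat_lit 4835844283) (nat_lit 76) (nat_lit 2075821202) (nat_lit 60) (nat_lit 4) (nat_lit 61) (nat_lit 5) (nat_lit 61) (nat_lit 4) (nat_lit 456) (nat_lit 377) (nat_lit 367)) (XT.lf (nat_lit 0) (nat_lit 5077617040) (nat_lit 152) (nat_lit 9665305090) (nat_lit 0) (nat_lit 2249990104) (nat_lit 58) (nat_lit 5) (nat_lit 60) (nat_lit 4) (nat_lit 58) (nat_lit 4) (nat_lit 457) (nat_lit 377) (nat_lit 366)))) (XT.nd (nat_lit 156) (nat_lit 228) (nat_lit 0) (XT.nd (nat_lit 78) (nat_lit 152) (nat_lit 0) (XT.lf (nat_lit 0) (nat_lit 4700334106) (nat_lit 76) (nat_lit 7889693045) (nat_lit 76) (nat_lit 4872510370) (nat_lit 57) (nat_lit 4) (nat_lit 58) (nat_lit 5) (nat_lit 58) (nat_lit 4) (nat_lit 458) (nat_lit 377) (nat_lit 365)) (XT.lf (nat_lit 0) (nat_lit 1795712237) (nat_lit 76) (nat_lit 640104438) (nat_lit 152) (nat_lit 15518153266) (nat_lit 55) (nat_lit 5) (nat_lit 56) (nat_lit 5) (nat_lit 57) (nat_lit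 4) (nat_lit 459) (nat_lit 377) (nat_lit 364))) (XT.nd (nat_lit 78) (nat_lit 228) (nat_lit 0) (XT.lf (nat_lit 0) (nat_lit 10074634854) (nat_lit 152) (nat_lit 1519456271) (nat_lit 0) (nat_lit 6865449528) (nat_lit 55) (nat_lit 5) (nat_lit 57) (nat_lit 4) (nat_lit 55) (nat_lit 4) (nat_lit 460) (nat_lit 377) (nat_lit 363)) (XT.nd (nat_lit 78) (nat_lit 152) (nat_lit 0) (XT.lf (nat_lit 0) (nat_lit 13912148045) (nat_lit 76) (nat_lit 4220750758) (nat_lit 76) (nat_lit 855617457) (nat_lit 54) (nat_lit 4) (nat_lit 55) (nat_lit 5) (nat_lit 55) (nat_lit 4) (nat_lit 461) (nat_lit 377) (nat_lit 362)) (XT.lf (nat_lit 0) (nat_lit 6881269066) (nat_lit 152) (nat_lit 9119399513) (nat_lit 0) (nat_lit 3534930797) (nat_lit 52) (nat_lit 5) (nat_lit 54) (nat_lit 4) (nat_lit 52) (nat_lit 4) (nat_lit 462) (nat_lit 377) (nat_lit 361))))))))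
noncomputable def xc94 : XT := (XT.nd (nat_lit 1248) (nat_lit 1064) (nat_lit 0) (XT.nd (nat_lit 624) (nat_lit 608) (nat_lit 0) (XT.nd (nat_lit 312) (nat_lit 380) (nat_lit 0) (XT.nd (nat_lit 156) (nat_lit 76) (nat_lit 0) (XT.nd (nat_lit 78) (nat_lit 152) (nat_lit 0) (XT.lf (nat_lit 0) (nat_lit 6502763030) (nat_lit 76) (nat_lit 8542097463) (nat_lit 76) (nat_lit 5061045469) (nat_lit 51) (nat_lit 4) (nat_lit 52) (nat_lit 5) (nat_lit 52) (nat_lit 4) (nat_lit 463) (nat_lit 377) (nat_lit 360)) (XT.lf (nat_lit 0) (nat_lit 2172313009) (nat_lit 76) (nat_lit 648010789) (nat_lit 152) (nat_lit 17882051221) (nat_lit 49) (nat_lit 5) (nat_lit 50) (nat_lit 5) (nat_lit 51) (nat_lit 4) (nat_lit 464) (nat_lit 377) (nat_lit 359))) (XT.nd (nat_lit 78) (nat_lit 76) (nat_lit 0) (XT.lf (nat_lit 0) (nat_lit 11090254648) (nat_lit 152) (nat_lit 2689629872) (nat_lit 0) (nat_lit 7536406936) (nat_lit 49) (nat_lit 5) (nat_lit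 51) (nat_lit 4) (nat_lit 49) (nat_lit 4) (nat_lit 465) (nat_lit 377) (nat_lit 358)) (XT.lf (nat_lit 0) (nat_lit 14023660034) (nat_lit 76) (nat_lit 5799718512) (nat_lit 76) (nat_lit 2135041484) (nat_lit 48) (nat_lit 4) (nat_lit 49) (nat_lit 5) (nat_lit 49) (nat_lit 4) (nat_lit 466) (nat_lit 377) (nat_lit 357)))) (XT.nd (nat_lit 156) (nat_lit 152) (nat_lit 0) (XT.nd (nat_lit 78) (nat_lit 76) (nat_lit 0) (XT.lf (nat_lit 0) (nat_lit 6204031131) (nat_lit 152) (nat_lit 13807967423) (nat_lit 0) (nat_lit 2613337079) (nat_lit 46) (nat_lit 5) (nat_lit 48) (nat_lit 4) (nat_lit 46) (nat_lit 4) (nat_lit 467) (nat_lit 377) (nat_lit 356)) (XT.lf (nat_lit 0) (nat_lit 2968537900) (nat_lit 76) (nat_lit 12018405391) (nat_lit 76) (nat_lit 8331972809) (nat_lit 45) (nat_lit 4) (nat_lit 46) (nat_lit 5) (nat_lit 46) (nat_lit 4) (nat_lit 468) (nat_lit 377) (nat_lit 355))) (XT.nd (nat_lit 78) (nat_lit 76) (nat_lit 0) (XT.lf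 (nat_lit 0) (nat_lit 215107282) (nat_lit 152) (nat_lit 3336642204) (nat_lit 76) (nat_lit 20492377609) (nat_lit 44) (nat_lit 5) (nat_lit 46) (nat_lit 5) (nat_lit 45) (nat_lit 4) (nat_lit 469) (nat_lit 377) (nat_lit 354)) (XT.lf (nat_lit 0) (nat_lit 9052105664) (nat_lit 152) (nat_lit 10367858397) (nat_lit 0) (nat_lit 5371677282) (nat_lit 43) (nat_lit 5) (nat_lit 45) (nat_lit 4) (nat_lit 43) (nat_lit 4) (nat_lit 470) (nat_lit 377) (nat_lit 353))))) (XT.nd (nat_lit 312) (nat_lit 304) (nat_lit 0) (XT.nd (nat_lit 156) (nat_lit 152) (nat_lit 0) (XT.nd (nat_lit 78) (nat_lit 76) (nat_lit 0) (XT.lf (nat_lit 0) (nat_lit 7452466941) (nat_lit 76) (nat_lit 10940088893) (nat_lit 76) (nat_lit 7180896186) (nat_lit 42) (nat_lit 4) (nat_lit 43) (nat_lit 5) (nat_lit 43) (nat_lit 4) (nat_lit 471) (nat_lit 377) (nat_lit 352)) (XT.lf (nat_lit 0) (nat_lit 1756059387) (nat_lit 152) (nat_lit 234284604) (nat_lit 76) (nat_lit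 24402191542) (nat_lit 41) (nat_lit 5) (nat_lit 43) (nat_lit 5) (nat_lit 42) (nat_lit 4) (nat_lit 472) (nat_lit 377) (nat_lit 351))) (XT.nd (nat_lit 78) (nat_lit 76) (nat_lit 0) (XT.lf (nat_lit 0) (nat_lit 11148173149) (nat_lit 152) (nat_lit 8657524541) (nat_lit 0) (nat_lit 7428508470) (nat_lit 40) (nat_lit 5) (nat_lit 42) (nat_lit 4) (nat_lit 40) (nat_lit 4) (nat_lit 473) (nat_lit 377) (nat_lit 350)) (XT.lf (nat_lit 0) (nat_lit 10186542863) (nat_lit 76) (nat_lit 10857097509) (nat_lit 76) (nat_lit 7072633225) (nat_lit 39) (nat_lit 4) (nat_lit 40) (nat_lit 5) (nat_lit 40) (nat_lit 4) (nat_lit 474) (nat_lit 377) (nat_lit 349)))) (XT.nd (nat_lit 156) (nat_lit 152) (nat_lit 0) (XT.nd (nat_lit 78) (nat_lit 0) (nat_lit 0) (XT.lf (nat_lit 0) (nat_lit 901927743) (nat_lit 76) (nat_lit 1414221493) (nat_lit 152) (nat_lit 26724366241) (nat_lit 37) (nat_lit 5) (nat_lit 38) (nat_lit 5) (nat_lit 39) (nat_lit 4)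 (nat_lit 475) (nat_lit 377) (nat_lit 348)) (XT.lf (nat_lit 0) (nat_lit 12216373596) (nat_lit 152) (nat_lit 9277444302) (nat_lit 0) (nat_lit 8497370410) (nat_lit 37) (nat_lit 5) (nat_lit 39) (nat_lit 4) (nat_lit 37) (nat_lit 4) (nat_lit 476) (nat_lit 377) (nat_lit 347))) (XT.nd (nat_lit 78) (nat_lit 76) (nat_lit 0) (XT.lf (nat_lit 0) (nat_lit 10530458245) (nat_lit 76) (nat_lit 12114784687) (nat_lit 76) (nat_lit 8342470706) (nat_lit 36) (nat_lit 4) (nat_lit 37) (nat_lit 5) (nat_lit 37) (nat_lit 4) (nat_lit 477) (nat_lit 377) (nat_lit 346)) (XT.lf (nat_lit 0) (nat_lit 1517331402) (nat_lit 152) (nat_lit 712556792) (nat_lit 76) (nat_lit 29802667659) (nat_lit 35) (nat_lit 5) (nat_lit 37) (nat_lit 5) (nat_lit 36) (nat_lit 4) (nat_lit 478) (nat_lit 377) (nat_lit 345)))))) (XT.nd (nat_lit 624) (nat_lit 532) (nat_lit 0) (XT.nd (nat_lit 312) (nat_lit 228) (nat_lit 0) (XT.nd (nat_lit 156) (nat_lit 152) (nat_lit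 0) (XT.nd (nat_lit 78) (nat_lit 76) (nat_lit 0) (XT.lf (nat_lit 0) (nat_lit 11891464349) (nat_lit 152) (nat_lit 13011875055) (nat_lit 0) (nat_lit 8204378035) (nat_lit 34) (nat_lit 5) (nat_lit 36) (nat_lit 4) (nat_lit 34) (nat_lit 4) (nat_lit 479) (nat_lit 377) (nat_lit 344)) (XT.lf (nat_lit 0) (nat_lit 7645704549) (nat_lit 76) (nat_lit 15160394250) (nat_lit 76) (nat_lit 11429449012) (nat_lit 33) (nat_lit 4) (nat_lit 34) (nat_lit 5) (nat_lit 34) (nat_lit 4) (nat_lit 480) (nat_lit 377) (nat_lit 343))) (XT.nd (nat_lit 78) (nat_lit 152) (nat_lit 0) (XT.lf (nat_lit 0) (nat_lit 29497055569) (nat_lit 76) (nat_lit 4845805207) (nat_lit 76) (nat_lit 1073089566) (nat_lit 33) (nat_lit 4) (nat_lit 34) (nat_lit 5) (nat_lit 34) (nat_lit 4) (nat_lit 481) (nat_lit 377) (nat_lit 342)) (XT.lf (nat_lit 0) (nat_lit 9693410589) (nat_lit 152) (nat_lit 20881549652) (nat_lit 0) (nat_lit 6062461088) (nat_lit 31) (nat_lit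 5) (nat_lit 33) (nat_lit 4) (nat_lit 31) (nat_lit 4) (nat_lit 482) (nat_lit 377) (nat_lit 341)))) (XT.nd (nat_lit 156) (nat_lit 152) (nat_lit 0) (XT.nd (nat_lit 78) (nat_lit 0) (nat_lit 0) (XT.lf (nat_lit 0) (nat_lit 438541594) (nat_lit 76) (nat_lit 20572565352) (nat_lit 76) (nat_lit 16905533006) (nat_lit 30) (nat_lit 4) (nat_lit 31) (nat_lit 5) (nat_lit 31) (nat_lit 4) (nat_lit 483) (nat_lit 377) (nat_lit 340)) (XT.lf (nat_lit 0) (nat_lit 23272408383) (nat_lit 76) (nat_lit 9838986548) (nat_lit 76) (nat_lit 6137589588) (nat_lit 30) (nat_lit 4) (nat_lit 31) (nat_lit 5) (nat_lit 31) (nat_lit 4) (nat_lit 484) (nat_lit 377) (nat_lit 339))) (XT.nd (nat_lit 78) (nat_lit 0) (nat_lit 0) (XT.lf (nat_lit 0) (nat_lit 4994791825) (nat_lit 152) (nat_lit 34211064075) (nat_lit 0) (nat_lit 1438482145) (nat_lit 28) (nat_lit 5) (nat_lit 30) (nat_lit 4) (nat_lit 28) (nat_lit 4) (nat_lit 485) (nat_lit 377) (nat_lit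 338)) (XT.lf (nat_lit 0) (nat_lit 16781382835) (nat_lit 152) (nat_lit 12112465506) (nat_lit 0) (nat_lit 13195387710) (nat_lit 28) (nat_lit 5) (nat_lit 30) (nat_lit 4) (nat_lit 28) (nat_lit 4) (nat_lit 486) (nat_lit 377) (nat_lit 337))))) (XT.nd (nat_lit 312) (nat_lit 304) (nat_lit 0) (XT.nd (nat_lit 156) (nat_lit 152) (nat_lit 0) (XT.nd (nat_lit 78) (nat_lit 0) (nat_lit 0) (XT.lf (nat_lit 0) (nat_lit 11193638504) (nat_lit 76) (nat_lit 18012288277) (nat_lit 76) (nat_lit 14398021298) (nat_lit 27) (nat_lit 4) (nat_lit 28) (nat_lit 5) (nat_lit 28) (nat_lit 4) (nat_lit 487) (nat_lit 377) (nat_lit 336)) (XT.lf (nat_lit 0) (nat_lit 35833998386) (nat_lit 76) (nat_lit 6498768355) (nat_lit 76) (nat_lit 2857575803) (nat_lit 27) (nat_lit 4) (nat_lit 28) (nat_lit 5) (nat_lit 28) (nat_lit 4) (nat_lit 488) (nat_lit 377) (nat_lit 335))) (XT.nd (nat_lit 78) (nat_lit 0) (nat_lit 0) (XT.lf (nat_lit 0) (nat_lit 9168236112)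 (nat_lit 152) (nat_lit 31994344910) (nat_lit 0) (nat_lit 5676011392) (nat_lit 25) (nat_lit 5) (nat_lit 27) (nat_lit 4) (nat_lit 25) (nat_lit 4) (nat_lit 489) (nat_lit 377) (nat_lit 334)) (XT.lf (nat_lit 0) (nat_lit 21846883317) (nat_lit 152) (nat_lit 8381251252) (nat_lit 0) (nat_lit 18331399273) (nat_lit 25) (nat_lit 5) (nat_lit 27) (nat_lit 4) (nat_lit 25) (nat_lit 4) (nat_lit 490) (nat_lit 377) (nat_lit 333)))) (XT.nd (nat_lit 156) (nat_lit 228) (nat_lit 0) (XT.nd (nat_lit 78) (nat_lit 0) (nat_lit 0) (XT.lf (nat_lit 0) (nat_lit 16715459243) (nat_lit 76) (nat_lit 18590682580) (nat_lit 76) (nat_lit 15053046800) (nat_lit 24) (nat_lit 4) (nat_lit 25) (nat_lit 5) (nat_lit 25) (nat_lit 4) (nat_lit 491) (nat_lit 377) (nat_lit 332)) (XT.lf (nat_lit 0) (nat_lit 43129688984) (nat_lit 76) (nat_lit 6338196957) (nat_lit 76) (nat_lit 2779464285) (nat_lit 24) (nat_lit 4) (nat_lit 25) (nat_lit 5) (nat_lit 25)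 (nat_lit 4) (nat_lit 492) (nat_lit 377) (nat_lit 331))) (XT.nd (nat_lit 78) (nat_lit 76) (nat_lit 0) (XT.lf (nat_lit 0) (nat_lit 10044693216) (nat_lit 152) (nat_lit 37528027410) (nat_lit 0) (nat_lit 6636288502) (nat_lit 22) (nat_lit 5) (nat_lit 24) (nat_lit 4) (nat_lit 22) (nat_lit 4) (nat_lit 493) (nat_lit 377) (nat_lit 330)) (XT.nd (nat_lit 78) (nat_lit 76) (nat_lit 0) (XT.lf (nat_lit 0) (nat_lit 23568741375) (nat_lit 152) (nat_lit 12548014616) (nat_lit 0) (nat_lit 20142112372) (nat_lit 22) (nat_lit 5) (nat_lit 24) (nat_lit 4) (nat_lit 22) (nat_lit 4) (nat_lit 494) (nat_lit 377) (nat_lit 329)) (XT.lf (nat_lit 0) (nat_lit 13915835824) (nat_lit 76) (nat_lit 23966843019) (nat_lit 76) (nat_lit 20522857550) (nat_lit 21) (nat_lit 4) (nat_lit 22) (nat_lit 5) (nat_lit 22) (nat_lit 4) (nat_lit 495) (nat_lit 377) (nat_lit 328))))))))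
noncomputable def xc95 : XT := (XT.nd (nat_lit 1248) (nat_lit 456) (nat_lit 0) (XT.nd (nat_lit 624) (nat_lit 304) (nat_lit 0) (XT.nd (nat_lit 312) (nat_lit 228) (nat_lit 0) (XT.nd (nat_lit 156) (nat_lit 0) (nat_lit 0) (XT.nd (nat_lit 78) (nat_lit 152) (nat_lit 0) (XT.lf (nat_lit 0) (nat_lit 41931356949) (nat_lit 76) (nat_lit 11091582582) (nat_lit 76) (nat_lit 7631067146) (nat_lit 21) (nat_lit 4) (nat_lit 22) (nat_lit 5) (nat_lit 22) (nat_lit 4) (nat_lit 496) (nat_lit 377) (nat_lit 327)) (XT.lf (nat_lit 0) (nat_lit 5787308522) (nat_lit 152) (nat_lit 54742845682) (nat_lit 0) (nat_lit 2476586369) (nat_lit 19) (nat_lit 5) (nat_lit 21) (nat_lit 4) (nat_lit 19) (nat_lit 4) (nat_lit 497) (nat_lit 377) (nat_lit 326))) (XT.nd (nat_lit 78) (nat_lit 0) (nat_lit 0) (XT.lf (nat_lit 0) (nat_lit 20025682906) (nat_lit 152) (nat_lit 28724215196) (nat_lit 0) (nat_lit 16700681546) (nat_lit 19) (nat_lit 5) (nat_lit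 21) (nat_lit 4) (nat_lit 19) (nat_lit 4) (nat_lit 498) (nat_lit 377) (nat_lit 325)) (XT.lf (nat_lit 0) (nat_lit 34882099329) (nat_lit 152) (nat_lit 1595706597) (nat_lit 0) (nat_lit 31543498724) (nat_lit 19) (nat_lit 5) (nat_lit 21) (nat_lit 4) (nat_lit 19) (nat_lit 4) (nat_lit 499) (nat_lit 377) (nat_lit 324)))) (XT.nd (nat_lit 156) (nat_lit 152) (nat_lit 0) (XT.nd (nat_lit 78) (nat_lit 0) (nat_lit 0) (XT.lf (nat_lit 0) (nat_lit 27590334820) (nat_lit 76) (nat_lit 23232357838) (nat_lit 76) (nat_lit 19880805571) (nat_lit 18) (nat_lit 4) (nat_lit 19) (nat_lit 5) (nat_lit 19) (nat_lit 4) (nat_lit 500) (nat_lit 377) (nat_lit 323)) (XT.lf (nat_lit 0) (nat_lit 58112056776) (nat_lit 76) (nat_lit 9387339008) (nat_lit 76) (nat_lit 6023451825) (nat_lit 18) (nat_lit 4) (nat_lit 19) (nat_lit 5) (nat_lit 19) (nat_lit 4) (nat_lit 501) (nat_lit 377) (nat_lit 322))) (XT.nd (nat_lit 78) (nat_lit 0) (nat_lit 0) (XT.lf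 (nat_lit 0) (nat_lit 8469125563) (nat_lit 152) (nat_lit 62742384027) (nat_lit 0) (nat_lit 5254235352) (nat_lit 16) (nat_lit 5) (nat_lit 18) (nat_lit 4) (nat_lit 16) (nat_lit 4) (nat_lit 502) (nat_lit 377) (nat_lit 321)) (XT.lf (nat_lit 0) (nat_lit 23817970265) (nat_lit 152) (nat_lit 35123751745) (nat_lit 0) (nat_lit 20592424690) (nat_lit 16) (nat_lit 5) (nat_lit 18) (nat_lit 4) (nat_lit 16) (nat_lit 4) (nat_lit 503) (nat_lit 377) (nat_lit 320))))) (XT.nd (nat_lit 312) (nat_lit 152) (nat_lit 0) (XT.nd (nat_lit 156) (nat_lit 76) (nat_lit 0) (XT.nd (nat_lit 78) (nat_lit 76) (nat_lit 0) (XT.lf (nat_lit 0) (nat_lit 39853216639) (nat_lit 152) (nat_lit 6289280941) (nat_lit 0) (nat_lit 36617523099) (nat_lit 16) (nat_lit 5) (nat_lit 18) (nat_lit 4) (nat_lit 16) (nat_lit 4) (nat_lit 504) (nat_lit 377) (nat_lit 319)) (XT.lf (nat_lit 0) (nat_lit 24617598787) (nat_lit 76) (nat_lit 32379794763) (nat_lit 76)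 (nat_lit 29134436494) (nat_lit 15) (nat_lit 4) (nat_lit 16) (nat_lit 5) (nat_lit 16) (nat_lit 4) (nat_lit 505) (nat_lit 377) (nat_lit 318))) (XT.nd (nat_lit 78) (nat_lit 76) (nat_lit 0) (XT.lf (nat_lit 0) (nat_lit 57133476610) (nat_lit 76) (nat_lit 17895893303) (nat_lit 76) (nat_lit 14641330529) (nat_lit 15) (nat_lit 4) (nat_lit 16) (nat_lit 5) (nat_lit 16) (nat_lit 4) (nat_lit 506) (nat_lit 377) (nat_lit 317)) (XT.lf (nat_lit 0) (nat_lit 484489811) (nat_lit 152) (nat_lit 2270124854) (nat_lit 76) (nat_lit 90635124373) (nat_lit 14) (nat_lit 5) (nat_lit 16) (nat_lit 5) (nat_lit 15) (nat_lit 4) (nat_lit 507) (nat_lit 377) (nat_lit 316)))) (XT.nd (nat_lit 156) (nat_lit 76) (nat_lit 0) (XT.nd (nat_lit 78) (nat_lit 0) (nat_lit 0) (XT.lf (nat_lit 0) (nat_lit 16490078619) (nat_lit 152) (nat_lit 67387678755) (nat_lit 0) (nat_lit 13374195072) (nat_lit 13) (nat_lit 5) (nat_lit 15) (nat_lit 4) (nat_lit 13)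 (nat_lit 4) (nat_lit 508) (nat_lit 377) (nat_lit 315)) (XT.lf (nat_lit 0) (nat_lit 33310214549) (nat_lit 152) (nat_lit 37809590237) (nat_lit 0) (nat_lit 30186758434) (nat_lit 13) (nat_lit 5) (nat_lit 15) (nat_lit 4) (nat_lit 13) (nat_lit 4) (nat_lit 509) (nat_lit 377) (nat_lit 314))) (XT.nd (nat_lit 78) (nat_lit 76) (nat_lit 0) (XT.lf (nat_lit 0) (nat_lit 50904723127) (nat_lit 152) (nat_lit 6888458145) (nat_lit 0) (nat_lit 47774055041) (nat_lit 13) (nat_lit 5) (nat_lit 15) (nat_lit 4) (nat_lit 13) (nat_lit 4) (nat_lit 510) (nat_lit 377) (nat_lit 313)) (XT.lf (nat_lit 0) (nat_lit 26290809351) (nat_lit 76) (nat_lit 43435159901) (nat_lit 76) (nat_lit 40297623273) (nat_lit 12) (nat_lit 4) (nat_lit 13) (nat_lit 5) (nat_lit 13) (nat_lit 4) (nat_lit 511) (nat_lit 377) (nat_lit 312)))))) (XT.nd (nat_lit 624) (nat_lit 228) (nat_lit 0) (XT.nd (nat_lit 312) (nat_lit 76) (nat_lit 0) (XT.nd (nat_lit 156) (nat_lit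 152) (nat_lit 0) (XT.nd (nat_lit 78) (nat_lit 0) (nat_lit 0) (XT.lf (nat_lit 0) (nat_lit 61240887603) (nat_lit 76) (nat_lit 28301622739) (nat_lit 76) (nat_lit 25157544642) (nat_lit 12) (nat_lit 4) (nat_lit 13) (nat_lit 5) (nat_lit 13) (nat_lit 4) (nat_lit 512) (nat_lit 377) (nat_lit 311)) (XT.lf (nat_lit 0) (nat_lit 97817227546) (nat_lit 76) (nat_lit 12473196925) (nat_lit 76) (nat_lit 9322888857) (nat_lit 12) (nat_lit 4) (nat_lit 13) (nat_lit 5) (nat_lit 13) (nat_lit 4) (nat_lit 513) (nat_lit 377) (nat_lit 310))) (XT.nd (nat_lit 78) (nat_lit 0) (nat_lit 0) (XT.lf (nat_lit 0) (nat_lit 7261781053) (nat_lit 152) (nat_lit 113239313356) (nat_lit 0) (nat_lit 4255836888) (nat_lit 10) (nat_lit 5) (nat_lit 12) (nat_lit 4) (nat_lit 10) (nat_lit 4) (nat_lit 514) (nat_lit 377) (nat_lit 309)) (XT.lf (nat_lit 0) (nat_lit 24884498788) (nat_lit 152) (nat_lit 83366310552) (nat_lit 0) (nat_lit 21873172940) (nat_lit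 10) (nat_lit 5) (nat_lit 12) (nat_lit 4) (nat_lit 10) (nat_lit 4) (nat_lit 515) (nat_lit 377) (nat_lit 308)))) (XT.nd (nat_lit 156) (nat_lit 76) (nat_lit 0) (XT.nd (nat_lit 78) (nat_lit 0) (nat_lit 0) (XT.lf (nat_lit 0) (nat_lit 43333559424) (nat_lit 152) (nat_lit 52111457927) (nat_lit 0) (nat_lit 40317108164) (nat_lit 10) (nat_lit 5) (nat_lit 12) (nat_lit 4) (nat_lit 10) (nat_lit 4) (nat_lit 516) (nat_lit 377) (nat_lit 307)) (XT.lf (nat_lit 0) (nat_lit 62652889296) (nat_lit 152) (nat_lit 19400339165) (nat_lit 0) (nat_lit 59631556691) (nat_lit 10) (nat_lit 5) (nat_lit 12) (nat_lit 4) (nat_lit 10) (nat_lit 4) (nat_lit 517) (nat_lit 377) (nat_lit 306))) (XT.nd (nat_lit 78) (nat_lit 0) (nat_lit 0) (XT.lf (nat_lit 0) (nat_lit 15335769755) (nat_lit 76) (nat_lit 67792151397) (nat_lit 76) (nat_lit 64766169891) (nat_lit 9) (nat_lit 4) (nat_lit 10) (nat_lit 5) (nat_lit 10) (nat_lit 4) (nat_lit 518) (nat_lit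 377) (nat_lit 305)) (XT.lf (nat_lit 0) (nat_lit 52382449490) (nat_lit 76) (nat_lit 52523919303) (nat_lit 76) (nat_lit 49493510273) (nat_lit 9) (nat_lit 4) (nat_lit 10) (nat_lit 5) (nat_lit 10) (nat_lit 4) (nat_lit 519) (nat_lit 377) (nat_lit 304))))) (XT.nd (nat_lit 312) (nat_lit 76) (nat_lit 0) (XT.nd (nat_lit 156) (nat_lit 152) (nat_lit 0) (XT.nd (nat_lit 78) (nat_lit 0) (nat_lit 0) (XT.lf (nat_lit 0) (nat_lit 91186443590) (nat_lit 76) (nat_lit 36540733377) (nat_lit 76) (nat_lit 33506107658) (nat_lit 9) (nat_lit 4) (nat_lit 10) (nat_lit 5) (nat_lit 10) (nat_lit 4) (nat_lit 520) (nat_lit 377) (nat_lit 303)) (XT.lf (nat_lit 0) (nat_lit 131840142520) (nat_lit 76) (nat_lit 19804538414) (nat_lit 76) (nat_lit 16765896801) (nat_lit 9) (nat_lit 4) (nat_lit 10) (nat_lit 5) (nat_lit 10) (nat_lit 4) (nat_lit 521) (nat_lit 377) (nat_lit 302))) (XT.nd (nat_lit 78) (nat_lit 76) (nat_lit 0) (XT.lf (nat_lit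 0) (nat_lit 742431794) (nat_lit 152) (nat_lit 1520481095) (nat_lit 76) (nat_lit 173685335562) (nat_lit 8) (nat_lit 5) (nat_lit 10) (nat_lit 5) (nat_lit 9) (nat_lit 4) (nat_lit 522) (nat_lit 377) (nat_lit 301)) (XT.lf (nat_lit 0) (nat_lit 19350449529) (nat_lit 152) (nat_lit 148009831313) (nat_lit 0) (nat_lit 16449393520) (nat_lit 7) (nat_lit 5) (nat_lit 9) (nat_lit 4) (nat_lit 7) (nat_lit 4) (nat_lit 523) (nat_lit 377) (nat_lit 300)))) (XT.nd (nat_lit 156) (nat_lit 76) (nat_lit 0) (XT.nd (nat_lit 78) (nat_lit 0) (nat_lit 0) (XT.lf (nat_lit 0) (nat_lit 38911267394) (nat_lit 152) (nat_lit 117144876748) (nat_lit 0) (nat_lit 36006907498) (nat_lit 7) (nat_lit 5) (nat_lit 9) (nat_lit 4) (nat_lit 7) (nat_lit 4) (nat_lit 524) (nat_lit 377) (nat_lit 299)) (XT.lf (nat_lit 0) (nat_lit 59411202433) (nat_lit 152) (nat_lit 84816145590) (nat_lit 0) (nat_lit 56503695979) (nat_lit 7) (nat_lit 5) (nat_lit 9) (nat_lit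 4) (nat_lit 7) (nat_lit 4) (nat_lit 525) (nat_lit 377) (nat_lit 298))) (XT.nd (nat_lit 78) (nat_lit 76) (nat_lit 0) (XT.lf (nat_lit 0) (nat_lit 80899064015) (nat_lit 152) (nat_lit 50946664668) (nat_lit 0) (nat_lit 77988560838) (nat_lit 7) (nat_lit 5) (nat_lit 9) (nat_lit 4) (nat_lit 7) (nat_lit 4) (nat_lit 526) (nat_lit 377) (nat_lit 297)) (XT.nd (nat_lit 78) (nat_lit 76) (nat_lit 0) (XT.lf (nat_lit 0) (nat_lit 103426013715) (nat_lit 152) (nat_lit 15455792362) (nat_lit 0) (nat_lit 100512656518) (nat_lit 7) (nat_lit 5) (nat_lit 9) (nat_lit 4) (nat_lit 7) (nat_lit 4) (nat_lit 527) (nat_lit 377) (nat_lit 296)) (XT.lf (nat_lit 0) (nat_lit 22459828171) (nat_lit 76) (nat_lit 104936519819) (nat_lit 76) (nat_lit 102020444506) (nat_lit 6) (nat_lit 4) (nat_lit 7) (nat_lit 5) (nat_lit 7) (nat_lit 4) (nat_lit 528) (nat_lit 377) (nat_lit 295))))))))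
noncomputable def xc96 : XT := (XT.nd (nat_lit 1248) (nat_lit 0) (nat_lit 0) (XT.nd (nat_lit 624) (nat_lit 76) (nat_lit 0) (XT.nd (nat_lit 312) (nat_lit 152) (nat_lit 0) (XT.nd (nat_lit 156) (nat_lit 0) (nat_lit 0) (XT.nd (nat_lit 78) (nat_lit 0) (nat_lit 0) (XT.lf (nat_lit 0) (nat_lit 62740277048) (nat_lit 76) (nat_lit 90053596079) (nat_lit 76) (nat_lit 87134932084) (nat_lit 6) (nat_lit 4) (nat_lit 7) (nat_lit 5) (nat_lit 7) (nat_lit 4) (nat_lit 529) (nat_lit 377) (nat_lit 294)) (XT.lf (nat_lit 0) (nat_lit 104970421804) (nat_lit 76) (nat_lit 74459350646) (nat_lit 76) (nat_lit 71538221240) (nat_lit 6) (nat_lit 4) (nat_lit 7) (nat_lit 5) (nat_lit 7) (nat_lit 4) (nat_lit 530) (nat_lit 377) (nat_lit 293))) (XT.nd (nat_lit 78) (nat_lit 0) (nat_lit 0) (XT.lf (nat_lit 0) (nat_lit 149250810403) (nat_lit 76) (nat_lit 58116654364) (nat_lit 76) (nat_lit 55193176948) (nat_lit 6) (nat_lit 4) (nat_lit 7) (nat_lit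 5) (nat_lit 7) (nat_lit 4) (nat_lit 531) (nat_lit 377) (nat_lit 292)) (XT.lf (nat_lit 0) (nat_lit 195686872341) (nat_lit 76) (nat_lit 40986596053) (nat_lit 76) (nat_lit 38060882437) (nat_lit 6) (nat_lit 4) (nat_lit 7) (nat_lit 5) (nat_lit 7) (nat_lit 4) (nat_lit 532) (nat_lit 377) (nat_lit 291)))) (XT.nd (nat_lit 156) (nat_lit 152) (nat_lit 0) (XT.nd (nat_lit 78) (nat_lit 0) (nat_lit 0) (XT.lf (nat_lit 0) (nat_lit 244389169671) (nat_lit 76) (nat_lit 23028389860) (nat_lit 76) (nat_lit 20100546528) (nat_lit 6) (nat_lit 4) (nat_lit 7) (nat_lit 5) (nat_lit 7) (nat_lit 4) (nat_lit 533) (nat_lit 377) (nat_lit 290)) (XT.lf (nat_lit 0) (nat_lit 295473660242) (nat_lit 76) (nat_lit 4199278149) (nat_lit 76) (nat_lit 1269406518) (nat_lit 6) (nat_lit 4) (nat_lit 7) (nat_lit 5) (nat_lit 7) (nat_lit 4) (nat_lit 534) (nat_lit 377) (nat_lit 289))) (XT.nd (nat_lit 78) (nat_lit 0) (nat_lit 0) (XT.lf (nat_lit 0) (nat_lit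 18686445389) (nat_lit 152) (nat_lit 280403885407) (nat_lit 0) (nat_lit 15894251727) (nat_lit 4) (nat_lit 5) (nat_lit 6) (nat_lit 4) (nat_lit 4) (nat_lit 4) (nat_lit 535) (nat_lit 377) (nat_lit 288)) (XT.lf (nat_lit 0) (nat_lit 39735321917) (nat_lit 152) (nat_lit 253044298868) (nat_lit 0) (nat_lit 36941376133) (nat_lit 4) (nat_lit 5) (nat_lit 6) (nat_lit 4) (nat_lit 4) (nat_lit 4) (nat_lit 536) (nat_lit 377) (nat_lit 287))))) (XT.nd (nat_lit 312) (nat_lit 76) (nat_lit 0) (XT.nd (nat_lit 156) (nat_lit 0) (nat_lit 0) (XT.nd (nat_lit 78) (nat_lit 0) (nat_lit 0) (XT.lf (nat_lit 0) (nat_lit 61812755304) (nat_lit 152) (nat_lit 224365530260) (nat_lit 0) (nat_lit 59017140834) (nat_lit 4) (nat_lit 5) (nat_lit 6) (nat_lit 4) (nat_lit 4) (nat_lit 4) (nat_lit 537) (nat_lit 377) (nat_lit 286)) (XT.lf (nat_lit 0) (nat_lit 84971310870) (nat_lit 152) (nat_lit 194299296800) (nat_lit 0) (nat_lit 82174107173) (nat_lit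 4) (nat_lit 5) (nat_lit 6) (nat_lit 4) (nat_lit 4) (nat_lit 4) (nat_lit 538) (nat_lit 377) (nat_lit 285))) (XT.nd (nat_lit 78) (nat_lit 0) (nat_lit 0) (XT.lf (nat_lit 0) (nat_lit 109266128031) (nat_lit 152) (nat_lit 162774012218) (nat_lit 0) (nat_lit 106467410786) (nat_lit 4) (nat_lit 5) (nat_lit 6) (nat_lit 4) (nat_lit 4) (nat_lit 4) (nat_lit 539) (nat_lit 377) (nat_lit 284)) (XT.lf (nat_lit 0) (nat_lit 134755051591) (nat_lit 152) (nat_lit 129714616313) (nat_lit 0) (nat_lit 131954892871) (nat_lit 4) (nat_lit 5) (nat_lit 6) (nat_lit 4) (nat_lit 4) (nat_lit 4) (nat_lit 540) (nat_lit 377) (nat_lit 283)))) (XT.nd (nat_lit 156) (nat_lit 76) (nat_lit 0) (XT.nd (nat_lit 78) (nat_lit 0) (nat_lit 0) (XT.lf (nat_lit 0) (nat_lit 161498769463) (nat_lit 152) (nat_lit 95042396237) (nat_lit 0) (nat_lit 158697237910) (nat_lit 4) (nat_lit 5) (nat_lit 6) (nat_lit 4) (nat_lit 4) (nat_lit 4) (nat_lit 541) (nat_lit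 377) (nat_lit 282)) (XT.lf (nat_lit 0) (nat_lit 189560957165) (nat_lit 152) (nat_lit 58674799085) (nat_lit 0) (nat_lit 186758118152) (nat_lit 4) (nat_lit 5) (nat_lit 6) (nat_lit 4) (nat_lit 4) (nat_lit 4) (nat_lit 542) (nat_lit 377) (nat_lit 281))) (XT.nd (nat_lit 78) (nat_lit 76) (nat_lit 0) (XT.lf (nat_lit 0) (nat_lit 219008429430) (nat_lit 152) (nat_lit 20525235340) (nat_lit 0) (nat_lit 216204345217) (nat_lit 4) (nat_lit 5) (nat_lit 6) (nat_lit 4) (nat_lit 4) (nat_lit 4) (nat_lit 543) (nat_lit 377) (nat_lit 280)) (XT.lf (nat_lit 0) (nat_lit 20141790370) (nat_lit 76) (nat_lit 230083978711) (nat_lit 76) (nat_lit 227278708594) (nat_lit 3) (nat_lit 4) (nat_lit 4) (nat_lit 5) (nat_lit 4) (nat_lit 4) (nat_lit 544) (nat_lit 377) (nat_lit 279)))))) (XT.nd (nat_lit 624) (nat_lit 0) (nat_lit 0) (XT.nd (nat_lit 312) (nat_lit 0) (nat_lit 0) (XT.nd (nat_lit 156) (nat_lit 0) (nat_lit 0) (XT.nd (nat_lit 78)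 (nat_lit 0) (nat_lit 0) (XT.lf (nat_lit 0) (nat_lit 63520637235) (nat_lit 76) (nat_lit 219814242927) (nat_lit 76) (nat_lit 217007843376) (nat_lit 3) (nat_lit 4) (nat_lit 4) (nat_lit 5) (nat_lit 4) (nat_lit 4) (nat_lit 545) (nat_lit 377) (nat_lit 278)) (XT.lf (nat_lit 0) (nat_lit 109035931246) (nat_lit 76) (nat_lit 209047610457) (nat_lit 76) (nat_lit 206240135256) (nat_lit 3) (nat_lit 4) (nat_lit 4) (nat_lit 5) (nat_lit 4) (nat_lit 4) (nat_lit 546) (nat_lit 377) (nat_lit 277))) (XT.nd (nat_lit 78) (nat_lit 0) (nat_lit 0) (XT.lf (nat_lit 0) (nat_lit 156796042151) (nat_lit 76) (nat_lit 197758446463) (nat_lit 76) (nat_lit 194949946832) (nat_lit 3) (nat_lit 4) (nat_lit 4) (nat_lit 5) (nat_lit 4) (nat_lit 4) (nat_lit 547) (nat_lit 377) (nat_lit 276)) (XT.lf (nat_lit 0) (nat_lit 206914684501) (nat_lit 76) (nat_lit 185919871983) (nat_lit 76) (nat_lit 183110396705) (nat_lit 3) (nat_lit 4) (nat_lit 4) (nat_lit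 5) (nat_lit 4) (nat_lit 4) (nat_lit 548) (nat_lit 377) (nat_lit 275)))) (XT.nd (nat_lit 156) (nat_lit 0) (nat_lit 0) (XT.nd (nat_lit 78) (nat_lit 0) (nat_lit 0) (XT.lf (nat_lit 0) (nat_lit 259511188396) (nat_lit 76) (nat_lit 173503699934) (nat_lit 76) (nat_lit 170693295469) (nat_lit 3) (nat_lit 4) (nat_lit 4) (nat_lit 5) (nat_lit 4) (nat_lit 4) (nat_lit 549) (nat_lit 377) (nat_lit 274)) (XT.lf (nat_lit 0) (nat_lit 314710783606) (nat_lit 76) (nat_lit 160480368002) (nat_lit 76) (nat_lit 157669078597) (nat_lit 3) (nat_lit 4) (nat_lit 4) (nat_lit 5) (nat_lit 4) (nat_lit 4) (nat_lit 550) (nat_lit 377) (nat_lit 273))) (XT.nd (nat_lit 78) (nat_lit 0) (nat_lit 0) (XT.lf (nat_lit 0) (nat_lit 372644897741) (nat_lit 76) (nat_lit 146818868254) (nat_lit 76) (nat_lit 144006736049) (nat_lit 3) (nat_lit 4) (nat_lit 4) (nat_lit 5) (nat_lit 4) (nat_lit 4) (nat_lit 551) (nat_lit 377) (nat_lit 272)) (XT.lf (nat_lit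 0) (nat_lit 433451469166) (nat_lit 76) (nat_lit 132486673310) (nat_lit 76) (nat_lit 129673738437) (nat_lit 3) (nat_lit 4) (nat_lit 4) (nat_lit 5) (nat_lit 4) (nat_lit 4) (nat_lit 552) (nat_lit 377) (nat_lit 271))))) (XT.nd (nat_lit 53976) (nat_lit 0) (nat_lit 5320) (XT.nd (nat_lit 156) (nat_lit 0) (nat_lit 0) (XT.nd (nat_lit 78) (nat_lit 0) (nat_lit 0) (XT.lf (nat_lit 0) (nat_lit 497275275433) (nat_lit 76) (nat_lit 117449658896) (nat_lit 76) (nat_lit 114635959579) (nat_lit 3) (nat_lit 4) (nat_lit 4) (nat_lit 5) (nat_lit 4) (nat_lit 4) (nat_lit 553) (nat_lit 377) (nat_lit 270)) (XT.lf (nat_lit 0) (nat_lit 564268277985) (nat_lit 76) (nat_lit 101672022597) (nat_lit 76) (nat_lit 98857595237) (nat_lit 3) (nat_lit 4) (nat_lit 4) (nat_lit 5) (nat_lit 4) (nat_lit 4) (nat_lit 554) (nat_lit 377) (nat_lit 269))) (XT.nd (nat_lit 78) (nat_lit 0) (nat_lit 0) (XT.lf (nat_lit 0) (nat_lit 634589983972) (nat_lit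 76) (nat_lit 85116198612) (nat_lit 76) (nat_lit 82301077877) (nat_lit 3) (nat_lit 4) (nat_lit 4) (nat_lit 5) (nat_lit 4) (nat_lit 4) (nat_lit 555) (nat_lit 377) (nat_lit 268)) (XT.lf (nat_lit 0) (nat_lit 708407826026) (nat_lit 76) (nat_lit 67742768312) (nat_lit 76) (nat_lit 64926987221) (nat_lit 3) (nat_lit 4) (nat_lit 4) (nat_lit 5) (nat_lit 4) (nat_lit 4) (nat_lit 556) (nat_lit 377) (nat_lit 267)))) (XT.nd (nat_lit 156) (nat_lit 304) (nat_lit 0) (XT.nd (nat_lit 78) (nat_lit 152) (nat_lit 0) (XT.lf (nat_lit 0) (nat_lit 2228889981) (nat_lit 152) (nat_lit 1678374522) (nat_lit 0) (nat_lit 2228889981) (nat_lit 79) (nat_lit 5) (nat_lit 81) (nat_lit 4) (nat_lit 79) (nat_lit 4) (nat_lit 444) (nat_lit 378) (nat_lit 378)) (XT.lf (nat_lit 0) (nat_lit 8317410330) (nat_lit 152) (nat_lit 2350621348) (nat_lit 152) (nat_lit 1894432862) (nat_lit 77) (nat_lit 4) (nat_lit 79) (nat_lit 5) (nat_lit 79) (nat_lit 4)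 (nat_lit 445) (nat_lit 378) (nat_lit 377))) (XT.nd (nat_lit 78) (nat_lit 152) (nat_lit 0) (XT.lf (nat_lit 0) (nat_lit 4205450607) (nat_lit 152) (nat_lit 5299993751) (nat_lit 0) (nat_lit 3357208976) (nat_lit 75) (nat_lit 5) (nat_lit 77) (nat_lit 4) (nat_lit 75) (nat_lit 4) (nat_lit 446) (nat_lit 378) (nat_lit 376)) (XT.lf (nat_lit 0) (nat_lit 6692468276) (nat_lit 152) (nat_lit 3862857881) (nat_lit 152) (nat_lit 2620543484) (nat_lit 73) (nat_lit 4) (nat_lit 75) (nat_lit 5) (nat_lit 75) (nat_lit 4) (nat_lit 447) (nat_lit 378) (nat_lit 375)))))))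
noncomputable def xc97 : XT := (XT.nd (nat_lit 1248) (nat_lit 1292) (nat_lit 0) (XT.nd (nat_lit 624) (nat_lit 760) (nat_lit 0) (XT.nd (nat_lit 312) (nat_lit 380) (nat_lit 0) (XT.nd (nat_lit 156) (nat_lit 228) (nat_lit 0) (XT.nd (nat_lit 78) (nat_lit 152) (nat_lit 0) (XT.lf (nat_lit 0) (nat_lit 3605771947) (nat_lit 152) (nat_lit 7830555308) (nat_lit 0) (nat_lit 2065179763) (nat_lit 71) (nat_lit 5) (nat_lit 73) (nat_lit 4) (nat_lit 71) (nat_lit 4) (nat_lit 448) (nat_lit 378) (nat_lit 374)) (XT.lf (nat_lit 0) (nat_lit 4468454205) (nat_lit 152) (nat_lit 5625940832) (nat_lit 152) (nat_lit 3744933775) (nat_lit 69) (nat_lit 4) (nat_lit 71) (nat_lit 5) (nat_lit 71) (nat_lit 4) (nat_lit 449) (nat_lit 378) (nat_lit 373))) (XT.nd (nat_lit 78) (nat_lit 76) (nat_lit 0) (XT.lf (nat_lit 0) (nat_lit 2613492980) (nat_lit 152) (nat_lit 11065795761) (nat_lit 0) (nat_lit 513291364) (nat_lit 67) (nat_lit 5) (nat_lit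 69) (nat_lit 4) (nat_lit 67) (nat_lit 4) (nat_lit 450) (nat_lit 378) (nat_lit 372)) (XT.lf (nat_lit 0) (nat_lit 1523421200) (nat_lit 76) (nat_lit 7713804501) (nat_lit 76) (nat_lit 5319539719) (nat_lit 66) (nat_lit 4) (nat_lit 67) (nat_lit 5) (nat_lit 67) (nat_lit 4) (nat_lit 451) (nat_lit 378) (nat_lit 371)))) (XT.nd (nat_lit 156) (nat_lit 228) (nat_lit 0) (XT.nd (nat_lit 78) (nat_lit 76) (nat_lit 0) (XT.lf (nat_lit 0) (nat_lit 1199749888) (nat_lit 152) (nat_lit 214837669) (nat_lit 76) (nat_lit 13524253647) (nat_lit 65) (nat_lit 5) (nat_lit 67) (nat_lit 5) (nat_lit 66) (nat_lit 4) (nat_lit 452) (nat_lit 378) (nat_lit 370)) (XT.lf (nat_lit 0) (nat_lit 7961803621) (nat_lit 152) (nat_lit 2208276267) (nat_lit 0) (nat_lit 5160804668) (nat_lit 64) (nat_lit 5) (nat_lit 66) (nat_lit 4) (nat_lit 64) (nat_lit 4) (nat_lit 453) (nat_lit 378) (nat_lit 369))) (XT.nd (nat_lit 78) (nat_lit 152) (nat_lit 0) (XT.lf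 (nat_lit 0) (nat_lit 11361405120) (nat_lit 76) (nat_lit 3711746652) (nat_lit 76) (nat_lit 668821205) (nat_lit 63) (nat_lit 4) (nat_lit 64) (nat_lit 5) (nat_lit 64) (nat_lit 4) (nat_lit 454) (nat_lit 378) (nat_lit 368)) (XT.lf (nat_lit 0) (nat_lit 6203634851) (nat_lit 152) (nat_lit 6876789685) (nat_lit 0) (nat_lit 3086176154) (nat_lit 61) (nat_lit 5) (nat_lit 63) (nat_lit 4) (nat_lit 61) (nat_lit 4) (nat_lit 455) (nat_lit 378) (nat_lit 367))))) (XT.nd (nat_lit 312) (nat_lit 380) (nat_lit 0) (XT.nd (nat_lit 156) (nat_lit 152) (nat_lit 0) (XT.nd (nat_lit 78) (nat_lit 152) (nat_lit 0) (XT.lf (nat_lit 0) (nat_lit 6964800395) (nat_lit 76) (nat_lit 6485453197) (nat_lit 76) (nat_lit 3159009298) (nat_lit 60) (nat_lit 4) (nat_lit 61) (nat_lit 5) (nat_lit 61) (nat_lit 4) (nat_lit 456) (nat_lit 378) (nat_lit 366)) (XT.lf (nat_lit 0) (nat_lit 3860702927) (nat_lit 152) (nat_lit 12706985509) (nat_lit 0) (nat_lit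 503105380) (nat_lit 58) (nat_lit 5) (nat_lit 60) (nat_lit 4) (nat_lit 58) (nat_lit 4) (nat_lit 457) (nat_lit 378) (nat_lit 365))) (XT.nd (nat_lit 78) (nat_lit 76) (nat_lit 0) (XT.lf (nat_lit 0) (nat_lit 1370069351) (nat_lit 76) (nat_lit 9857868128) (nat_lit 76) (nat_lit 6319741306) (nat_lit 57) (nat_lit 4) (nat_lit 58) (nat_lit 5) (nat_lit 58) (nat_lit 4) (nat_lit 458) (nat_lit 378) (nat_lit 364)) (XT.lf (nat_lit 0) (nat_lit 913829355) (nat_lit 152) (nat_lit 1836709285) (nat_lit 76) (nat_lit 15295756994) (nat_lit 56) (nat_lit 5) (nat_lit 58) (nat_lit 5) (nat_lit 57) (nat_lit 4) (nat_lit 459) (nat_lit 378) (nat_lit 363)))) (XT.nd (nat_lit 156) (nat_lit 228) (nat_lit 0) (XT.nd (nat_lit 78) (nat_lit 76) (nat_lit 0) (XT.lf (nat_lit 0) (nat_lit 8396809083) (nat_lit 152) (nat_lit 5455378826) (nat_lit 0) (nat_lit 4707471141) (nat_lit 55) (nat_lit 5) (nat_lit 57) (nat_lit 4) (nat_lit 55) (nat_lit 4) (nat_lit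 460) (nat_lit 378) (nat_lit 362)) (XT.lf (nat_lit 0) (nat_lit 9666628391) (nat_lit 76) (nat_lit 6633799544) (nat_lit 76) (nat_lit 2795939721) (nat_lit 54) (nat_lit 4) (nat_lit 55) (nat_lit 5) (nat_lit 55) (nat_lit 4) (nat_lit 461) (nat_lit 378) (nat_lit 361))) (XT.nd (nat_lit 78) (nat_lit 76) (nat_lit 0) (XT.lf (nat_lit 0) (nat_lit 4801576739) (nat_lit 152) (nat_lit 13841704606) (nat_lit 0) (nat_lit 1011758421) (nat_lit 52) (nat_lit 5) (nat_lit 54) (nat_lit 4) (nat_lit 52) (nat_lit 4) (nat_lit 462) (nat_lit 378) (nat_lit 360)) (XT.lf (nat_lit 0) (nat_lit 1444515617) (nat_lit 76) (nat_lit 11353649321) (nat_lit 76) (nat_lit 7435532218) (nat_lit 51) (nat_lit 4) (nat_lit 52) (nat_lit 5) (nat_lit 52) (nat_lit 4) (nat_lit 463) (nat_lit 378) (nat_lit 359)))))) (XT.nd (nat_lit 624) (nat_lit 684) (nat_lit 0) (XT.nd (nat_lit 312) (nat_lit 228) (nat_lit 0) (XT.nd (nat_lit 156) (nat_lit 228) (nat_lit 0) (XT.nd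 (nat_lit 78) (nat_lit 76) (nat_lit 0) (XT.lf (nat_lit 0) (nat_lit 399989303) (nat_lit 152) (nat_lit 3220328350) (nat_lit 76) (nat_lit 17217795072) (nat_lit 50) (nat_lit 5) (nat_lit 52) (nat_lit 5) (nat_lit 51) (nat_lit 4) (nat_lit 464) (nat_lit 378) (nat_lit 358)) (XT.lf (nat_lit 0) (nat_lit 8482977817) (nat_lit 152) (nat_lit 8454161395) (nat_lit 0) (nat_lit 4524237624) (nat_lit 49) (nat_lit 5) (nat_lit 51) (nat_lit 4) (nat_lit 49) (nat_lit 4) (nat_lit 465) (nat_lit 378) (nat_lit 357))) (XT.nd (nat_lit 78) (nat_lit 152) (nat_lit 0) (XT.lf (nat_lit 0) (nat_lit 7897004563) (nat_lit 76) (nat_lit 9139877148) (nat_lit 76) (nat_lit 5075585227) (nat_lit 48) (nat_lit 4) (nat_lit 49) (nat_lit 5) (nat_lit 49) (nat_lit 4) (nat_lit 466) (nat_lit 378) (nat_lit 356)) (XT.lf (nat_lit 0) (nat_lit 2249075570) (nat_lit 76) (nat_lit 879652696) (nat_lit 152) (nat_lit 19664394005) (nat_lit 46) (nat_lit 5) (nat_lit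 47) (nat_lit 5) (nat_lit 48) (nat_lit 4) (nat_lit 467) (nat_lit 378) (nat_lit 355)))) (XT.nd (nat_lit 156) (nat_lit 152) (nat_lit 0) (XT.nd (nat_lit 78) (nat_lit 76) (nat_lit 0) (XT.lf (nat_lit 0) (nat_lit 11768228759) (nat_lit 152) (nat_lit 4015088552) (nat_lit 0) (nat_lit 7710556468) (nat_lit 46) (nat_lit 5) (nat_lit 48) (nat_lit 4) (nat_lit 46) (nat_lit 4) (nat_lit 468) (nat_lit 378) (nat_lit 354)) (XT.lf (nat_lit 0) (nat_lit 13431156920) (nat_lit 76) (nat_lit 7469972762) (nat_lit 76) (nat_lit 3325462804) (nat_lit 45) (nat_lit 4) (nat_lit 46) (nat_lit 5) (nat_lit 46) (nat_lit 4) (nat_lit 469) (nat_lit 378) (nat_lit 353))) (XT.nd (nat_lit 78) (nat_lit 0) (nat_lit 0) (XT.lf (nat_lit 0) (nat_lit 5351393880) (nat_lit 152) (nat_lit 18313160889) (nat_lit 0) (nat_lit 1325477214) (nat_lit 43) (nat_lit 5) (nat_lit 45) (nat_lit 4) (nat_lit 43) (nat_lit 4) (nat_lit 470) (nat_lit 378) (nat_lit 352)) (XT.lf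 (nat_lit 0) (nat_lit 14496321081) (nat_lit 152) (nat_lit 889907330) (nat_lit 0) (nat_lit 10395390773) (nat_lit 43) (nat_lit 5) (nat_lit 45) (nat_lit 4) (nat_lit 43) (nat_lit 4) (nat_lit 471) (nat_lit 378) (nat_lit 351))))) (XT.nd (nat_lit 312) (nat_lit 380) (nat_lit 0) (XT.nd (nat_lit 156) (nat_lit 76) (nat_lit 0) (XT.nd (nat_lit 78) (nat_lit 152) (nat_lit 0) (XT.lf (nat_lit 0) (nat_lit 17660202920) (nat_lit 76) (nat_lit 6559448790) (nat_lit 76) (nat_lit 2387076917) (nat_lit 42) (nat_lit 4) (nat_lit 43) (nat_lit 5) (nat_lit 43) (nat_lit 4) (nat_lit 472) (nat_lit 378) (nat_lit 350)) (XT.lf (nat_lit 0) (nat_lit 6788276074) (nat_lit 152) (nat_lit 17926856090) (nat_lit 0) (nat_lit 2749788971) (nat_lit 40) (nat_lit 5) (nat_lit 42) (nat_lit 4) (nat_lit 40) (nat_lit 4) (nat_lit 473) (nat_lit 378) (nat_lit 349))) (XT.nd (nat_lit 78) (nat_lit 0) (nat_lit 0) (XT.lf (nat_lit 0) (nat_lit 454570850) (nat_lit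 76) (nat_lit 16001989105) (nat_lit 76) (nat_lit 11901788092) (nat_lit 39) (nat_lit 4) (nat_lit 40) (nat_lit 5) (nat_lit 40) (nat_lit 4) (nat_lit 474) (nat_lit 378) (nat_lit 348)) (XT.lf (nat_lit 0) (nat_lit 20072576027) (nat_lit 76) (nat_lit 6687624950) (nat_lit 76) (nat_lit 2528648786) (nat_lit 39) (nat_lit 4) (nat_lit 40) (nat_lit 5) (nat_lit 40) (nat_lit 4) (nat_lit 475) (nat_lit 378) (nat_lit 347)))) (XT.nd (nat_lit 156) (nat_lit 228) (nat_lit 0) (XT.nd (nat_lit 78) (nat_lit 0) (nat_lit 0) (XT.lf (nat_lit 0) (nat_lit 7143986545) (nat_lit 152) (nat_lit 19983190289) (nat_lit 0) (nat_lit 3129746069) (nat_lit 37) (nat_lit 5) (nat_lit 39) (nat_lit 4) (nat_lit 37) (nat_lit 4) (nat_lit 476) (nat_lit 378) (nat_lit 346)) (XT.lf (nat_lit 0) (nat_lit 17336919708) (nat_lit 152) (nat_lit 656418542) (nat_lit 0) (nat_lit 13271907047) (nat_lit 37) (nat_lit 5) (nat_lit 39) (nat_lit 4) (nat_lit 37) (nat_lit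 4) (nat_lit 477) (nat_lit 378) (nat_lit 345))) (XT.nd (nat_lit 78) (nat_lit 152) (nat_lit 0) (XT.lf (nat_lit 0) (nat_lit 19995348520) (nat_lit 76) (nat_lit 8216688031) (nat_lit 76) (nat_lit 4103320907) (nat_lit 36) (nat_lit 4) (nat_lit 37) (nat_lit 5) (nat_lit 37) (nat_lit 4) (nat_lit 478) (nat_lit 378) (nat_lit 344)) (XT.nd (nat_lit 78) (nat_lit 0) (nat_lit 0) (XT.lf (nat_lit 0) (nat_lit 6046973996) (nat_lit 152) (nat_lit 25278884408) (nat_lit 0) (nat_lit 2085622573) (nat_lit 34) (nat_lit 5) (nat_lit 36) (nat_lit 4) (nat_lit 34) (nat_lit 4) (nat_lit 479) (nat_lit 378) (nat_lit 343)) (XT.lf (nat_lit 0) (nat_lit 16774225081) (nat_lit 152) (nat_lit 5003352391) (nat_lit 0) (nat_lit 12771103255) (nat_lit 34) (nat_lit 5) (nat_lit 36) (nat_lit 4) (nat_lit 34) (nat_lit 4) (nat_lit 480) (nat_lit 378) (nat_lit 342))))))))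
noncomputable def xc98 : XT := (XT.nd (nat_lit 1248) (nat_lit 684) (nat_lit 0) (XT.nd (nat_lit 624) (nat_lit 456) (nat_lit 0) (XT.nd (nat_lit 312) (nat_lit 228) (nat_lit 0) (XT.nd (nat_lit 156) (nat_lit 76) (nat_lit 0) (XT.nd (nat_lit 78) (nat_lit 152) (nat_lit 0) (XT.lf (nat_lit 0) (nat_lit 16547443025) (nat_lit 76) (nat_lit 11615961364) (nat_lit 76) (nat_lit 7573058202) (nat_lit 33) (nat_lit 4) (nat_lit 34) (nat_lit 5) (nat_lit 34) (nat_lit 4) (nat_lit 481) (nat_lit 378) (nat_lit 341)) (XT.lf (nat_lit 0) (nat_lit 2119331097) (nat_lit 76) (nat_lit 905118290) (nat_lit 152) (nat_lit 33957410115) (nat_lit 31) (nat_lit 5) (nat_lit 32) (nat_lit 5) (nat_lit 33) (nat_lit 4) (nat_lit 482) (nat_lit 378) (nat_lit 340))) (XT.nd (nat_lit 78) (nat_lit 76) (nat_lit 0) (XT.lf (nat_lit 0) (nat_lit 14256482261) (nat_lit 152) (nat_lit 13673228373) (nat_lit 0) (nat_lit 10335650839) (nat_lit 31) (nat_lit 5) (nat_lit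 33) (nat_lit 4) (nat_lit 31) (nat_lit 4) (nat_lit 483) (nat_lit 378) (nat_lit 339)) (XT.lf (nat_lit 0) (nat_lit 8579764230) (nat_lit 76) (nat_lit 17492854586) (nat_lit 76) (nat_lit 13539294960) (nat_lit 30) (nat_lit 4) (nat_lit 31) (nat_lit 5) (nat_lit 31) (nat_lit 4) (nat_lit 484) (nat_lit 378) (nat_lit 338)))) (XT.nd (nat_lit 156) (nat_lit 76) (nat_lit 0) (XT.nd (nat_lit 78) (nat_lit 152) (nat_lit 0) (XT.lf (nat_lit 0) (nat_lit 32168691237) (nat_lit 76) (nat_lit 6418232034) (nat_lit 76) (nat_lit 2433502690) (nat_lit 30) (nat_lit 4) (nat_lit 31) (nat_lit 5) (nat_lit 31) (nat_lit 4) (nat_lit 485) (nat_lit 378) (nat_lit 337)) (XT.lf (nat_lit 0) (nat_lit 9124126568) (nat_lit 152) (nat_lit 28057565294) (nat_lit 0) (nat_lit 5300874388) (nat_lit 28) (nat_lit 5) (nat_lit 30) (nat_lit 4) (nat_lit 28) (nat_lit 4) (nat_lit 486) (nat_lit 378) (nat_lit 336))) (XT.nd (nat_lit 78) (nat_lit 76) (nat_lit 0) (XT.lf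 (nat_lit 0) (nat_lit 21315304503) (nat_lit 152) (nat_lit 5228515462) (nat_lit 0) (nat_lit 17465126749) (nat_lit 28) (nat_lit 5) (nat_lit 30) (nat_lit 4) (nat_lit 28) (nat_lit 4) (nat_lit 487) (nat_lit 378) (nat_lit 335)) (XT.lf (nat_lit 0) (nat_lit 19122094178) (nat_lit 76) (nat_lit 15178083318) (nat_lit 76) (nat_lit 11302262159) (nat_lit 27) (nat_lit 4) (nat_lit 28) (nat_lit 5) (nat_lit 28) (nat_lit 4) (nat_lit 488) (nat_lit 378) (nat_lit 334))))) (XT.nd (nat_lit 312) (nat_lit 228) (nat_lit 0) (XT.nd (nat_lit 156) (nat_lit 76) (nat_lit 0) (XT.nd (nat_lit 78) (nat_lit 76) (nat_lit 0) (XT.lf (nat_lit 0) (nat_lit 613231309) (nat_lit 152) (nat_lit 2643119264) (nat_lit 76) (nat_lit 44019961388) (nat_lit 26) (nat_lit 5) (nat_lit 28) (nat_lit 5) (nat_lit 27) (nat_lit 4) (nat_lit 489) (nat_lit 378) (nat_lit 333)) (XT.lf (nat_lit 0) (nat_lit 13141953677) (nat_lit 152) (nat_lit 26457511695) (nat_lit 0)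 (nat_lit 9405284371) (nat_lit 25) (nat_lit 5) (nat_lit 27) (nat_lit 4) (nat_lit 25) (nat_lit 4) (nat_lit 490) (nat_lit 378) (nat_lit 332))) (XT.nd (nat_lit 78) (nat_lit 76) (nat_lit 0) (XT.lf (nat_lit 0) (nat_lit 26287137730) (nat_lit 152) (nat_lit 2003599090) (nat_lit 0) (nat_lit 22529371532) (nat_lit 25) (nat_lit 5) (nat_lit 27) (nat_lit 4) (nat_lit 25) (nat_lit 4) (nat_lit 491) (nat_lit 378) (nat_lit 331)) (XT.lf (nat_lit 0) (nat_lit 24238322499) (nat_lit 76) (nat_lit 16126016585) (nat_lit 76) (nat_lit 12348158109) (nat_lit 24) (nat_lit 4) (nat_lit 25) (nat_lit 5) (nat_lit 25) (nat_lit 4) (nat_lit 492) (nat_lit 378) (nat_lit 330)))) (XT.nd (nat_lit 156) (nat_lit 76) (nat_lit 0) (XT.nd (nat_lit 78) (nat_lit 76) (nat_lit 0) (XT.lf (nat_lit 0) (nat_lit 362473702) (nat_lit 152) (nat_lit 3053922888) (nat_lit 76) (nat_lit 51286218485) (nat_lit 23) (nat_lit 5) (nat_lit 25) (nat_lit 5) (nat_lit 24)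 (nat_lit 4) (nat_lit 493) (nat_lit 378) (nat_lit 329)) (XT.lf (nat_lit 0) (nat_lit 13732592028) (nat_lit 152) (nat_lit 32928528039) (nat_lit 0) (nat_lit 10099050821) (nat_lit 22) (nat_lit 5) (nat_lit 24) (nat_lit 4) (nat_lit 22) (nat_lit 4) (nat_lit 494) (nat_lit 378) (nat_lit 328))) (XT.nd (nat_lit 78) (nat_lit 76) (nat_lit 0) (XT.lf (nat_lit 0) (nat_lit 27781144302) (nat_lit 152) (nat_lit 7007890831) (nat_lit 0) (nat_lit 24131073128) (nat_lit 22) (nat_lit 5) (nat_lit 24) (nat_lit 4) (nat_lit 22) (nat_lit 4) (nat_lit 495) (nat_lit 378) (nat_lit 327)) (XT.lf (nat_lit 0) (nat_lit 20679675929) (nat_lit 76) (nat_lit 22081367390) (nat_lit 76) (nat_lit 18415553390) (nat_lit 21) (nat_lit 4) (nat_lit 22) (nat_lit 5) (nat_lit 22) (nat_lit 4) (nat_lit 496) (nat_lit 378) (nat_lit 326)))))) (XT.nd (nat_lit 624) (nat_lit 304) (nat_lit 0) (XT.nd (nat_lit 312) (nat_lit 152) (nat_lit 0) (XT.nd (nat_lit 156) (nat_lit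 76) (nat_lit 0) (XT.nd (nat_lit 78) (nat_lit 152) (nat_lit 0) (XT.lf (nat_lit 0) (nat_lit 49807018428) (nat_lit 76) (nat_lit 8709192396) (nat_lit 76) (nat_lit 5028385229) (nat_lit 21) (nat_lit 4) (nat_lit 22) (nat_lit 5) (nat_lit 22) (nat_lit 4) (nat_lit 497) (nat_lit 378) (nat_lit 325)) (XT.lf (nat_lit 0) (nat_lit 8963954290) (nat_lit 152) (nat_lit 51603930586) (nat_lit 0) (nat_lit 5444824410) (nat_lit 19) (nat_lit 5) (nat_lit 21) (nat_lit 4) (nat_lit 19) (nat_lit 4) (nat_lit 498) (nat_lit 378) (nat_lit 324))) (XT.nd (nat_lit 78) (nat_lit 76) (nat_lit 0) (XT.lf (nat_lit 0) (nat_lit 23776757852) (nat_lit 152) (nat_lit 24564180831) (nat_lit 0) (nat_lit 20244676311) (nat_lit 19) (nat_lit 5) (nat_lit 21) (nat_lit 4) (nat_lit 19) (nat_lit 4) (nat_lit 499) (nat_lit 378) (nat_lit 323)) (XT.lf (nat_lit 0) (nat_lit 3775091849) (nat_lit 76) (nat_lit 35528900591) (nat_lit 76) (nat_lit 31984484134) (nat_lit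 18) (nat_lit 4) (nat_lit 19) (nat_lit 5) (nat_lit 19) (nat_lit 4) (nat_lit 500) (nat_lit 378) (nat_lit 322)))) (XT.nd (nat_lit 156) (nat_lit 152) (nat_lit 0) (XT.nd (nat_lit 78) (nat_lit 0) (nat_lit 0) (XT.lf (nat_lit 0) (nat_lit 34213644995) (nat_lit 76) (nat_lit 21726193923) (nat_lit 76) (nat_lit 18170029927) (nat_lit 18) (nat_lit 4) (nat_lit 19) (nat_lit 5) (nat_lit 19) (nat_lit 4) (nat_lit 501) (nat_lit 378) (nat_lit 321)) (XT.lf (nat_lit 0) (nat_lit 66011748600) (nat_lit 76) (nat_lit 7315961380) (nat_lit 76) (nat_lit 3748609251) (nat_lit 18) (nat_lit 4) (nat_lit 19) (nat_lit 5) (nat_lit 19) (nat_lit 4) (nat_lit 502) (nat_lit 378) (nat_lit 320))) (XT.nd (nat_lit 78) (nat_lit 0) (nat_lit 0) (XT.lf (nat_lit 0) (nat_lit 11385073310) (nat_lit 152) (nat_lit 60801883970) (nat_lit 0) (nat_lit 7977447127) (nat_lit 16) (nat_lit 5) (nat_lit 18) (nat_lit 4) (nat_lit 16) (nat_lit 4) (nat_lit 503) (nat_lit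 378) (nat_lit 319)) (XT.lf (nat_lit 0) (nat_lit 27382670178) (nat_lit 152) (nat_lit 32044111466) (nat_lit 0) (nat_lit 23965379265) (nat_lit 16) (nat_lit 5) (nat_lit 18) (nat_lit 4) (nat_lit 16) (nat_lit 4) (nat_lit 504) (nat_lit 378) (nat_lit 318))))) (XT.nd (nat_lit 312) (nat_lit 76) (nat_lit 0) (XT.nd (nat_lit 156) (nat_lit 152) (nat_lit 0) (XT.nd (nat_lit 78) (nat_lit 76) (nat_lit 0) (XT.lf (nat_lit 0) (nat_lit 44106640708) (nat_lit 152) (nat_lit 1998194640) (nat_lit 0) (nat_lit 40680145292) (nat_lit 16) (nat_lit 5) (nat_lit 18) (nat_lit 4) (nat_lit 16) (nat_lit 4) (nat_lit 505) (nat_lit 378) (nat_lit 317)) (XT.lf (nat_lit 0) (nat_lit 30379746004) (nat_lit 76) (nat_lit 31691370850) (nat_lit 76) (nat_lit 28256109239) (nat_lit 15) (nat_lit 4) (nat_lit 16) (nat_lit 5) (nat_lit 16) (nat_lit 4) (nat_lit 506) (nat_lit 378) (nat_lit 316))) (XT.nd (nat_lit 78) (nat_lit 152) (nat_lit 0) (XT.lf (nat_lit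 0) (nat_lit 64305643086) (nat_lit 76) (nat_lit 16593151157) (nat_lit 76) (nat_lit 13149540790) (nat_lit 15) (nat_lit 4) (nat_lit 16) (nat_lit 5) (nat_lit 16) (nat_lit 4) (nat_lit 507) (nat_lit 378) (nat_lit 315)) (XT.lf (nat_lit 0) (nat_lit 1853474960) (nat_lit 76) (nat_lit 734347734) (nat_lit 152) (nat_lit 95367445482) (nat_lit 13) (nat_lit 5) (nat_lit 14) (nat_lit 5) (nat_lit 15) (nat_lit 4) (nat_lit 508) (nat_lit 378) (nat_lit 314)))) (XT.nd (nat_lit 156) (nat_lit 76) (nat_lit 0) (XT.nd (nat_lit 78) (nat_lit 0) (nat_lit 0) (XT.lf (nat_lit 0) (nat_lit 19363988935) (nat_lit 152) (nat_lit 66578513059) (nat_lit 0) (nat_lit 16069575476) (nat_lit 13) (nat_lit 5) (nat_lit 15) (nat_lit 4) (nat_lit 13) (nat_lit 4) (nat_lit 509) (nat_lit 378) (nat_lit 313)) (XT.lf (nat_lit 0) (nat_lit 36927540881) (nat_lit 152) (nat_lit 35720498668) (nat_lit 0) (nat_lit 33626258879) (nat_lit 13) (nat_lit 5) (nat_lit 15)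 (nat_lit 4) (nat_lit 13) (nat_lit 4) (nat_lit 510) (nat_lit 378) (nat_lit 312))) (XT.nd (nat_lit 78) (nat_lit 76) (nat_lit 0) (XT.lf (nat_lit 0) (nat_lit 55308831287) (nat_lit 152) (nat_lit 3442813357) (nat_lit 0) (nat_lit 52001007816) (nat_lit 13) (nat_lit 5) (nat_lit 15) (nat_lit 4) (nat_lit 13) (nat_lit 4) (nat_lit 511) (nat_lit 378) (nat_lit 311)) (XT.nd (nat_lit 78) (nat_lit 0) (nat_lit 0) (XT.lf (nat_lit 0) (nat_lit 31334287390) (nat_lit 76) (nat_lit 43706553781) (nat_lit 76) (nat_lit 40392500339) (nat_lit 12) (nat_lit 4) (nat_lit 13) (nat_lit 5) (nat_lit 13) (nat_lit 4) (nat_lit 512) (nat_lit 378) (nat_lit 310)) (XT.lf (nat_lit 0) (nat_lit 67854301099) (nat_lit 76) (nat_lit 27906833289) (nat_lit 76) (nat_lit 24586846542) (nat_lit 12) (nat_lit 4) (nat_lit 13) (nat_lit 5) (nat_lit 13) (nat_lit 4) (nat_lit 513) (nat_lit 378) (nat_lit 309))))))))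
noncomputable def xc99 : XT := (XT.nd (nat_lit 1248) (nat_lit 228) (nat_lit 0) (XT.nd (nat_lit 624) (nat_lit 228) (nat_lit 0) (XT.nd (nat_lit 312) (nat_lit 76) (nat_lit 0) (XT.nd (nat_lit 156) (nat_lit 0) (nat_lit 0) (XT.nd (nat_lit 78) (nat_lit 152) (nat_lit 0) (XT.lf (nat_lit 0) (nat_lit 106090345225) (nat_lit 76) (nat_lit 11373170498) (nat_lit 76) (nat_lit 8047532984) (nat_lit 12) (nat_lit 4) (nat_lit 13) (nat_lit 5) (nat_lit 13) (nat_lit 4) (nat_lit 514) (nat_lit 378) (nat_lit 308)) (XT.lf (nat_lit 0) (nat_lit 9310088525) (nat_lit 152) (nat_lit 115462737505) (nat_lit 0) (nat_lit 6137689290) (nat_lit 10) (nat_lit 5) (nat_lit 12) (nat_lit 4) (nat_lit 10) (nat_lit 4) (nat_lit 515) (nat_lit 378) (nat_lit 307))) (XT.nd (nat_lit 78) (nat_lit 0) (nat_lit 0) (XT.lf (nat_lit 0) (nat_lit 27733693651) (nat_lit 152) (nat_lit 84259824633) (nat_lit 0) (nat_lit 24556413071) (nat_lit 10) (nat_lit 5) (nat_lit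 12) (nat_lit 4) (nat_lit 10) (nat_lit 4) (nat_lit 516) (nat_lit 378) (nat_lit 306)) (XT.lf (nat_lit 0) (nat_lit 47028780180) (nat_lit 152) (nat_lit 51598172303) (nat_lit 0) (nat_lit 43846850699) (nat_lit 10) (nat_lit 5) (nat_lit 12) (nat_lit 4) (nat_lit 10) (nat_lit 4) (nat_lit 517) (nat_lit 378) (nat_lit 305)))) (XT.nd (nat_lit 156) (nat_lit 0) (nat_lit 0) (XT.nd (nat_lit 78) (nat_lit 76) (nat_lit 0) (XT.lf (nat_lit 0) (nat_lit 67241288794) (nat_lit 152) (nat_lit 17400014675) (nat_lit 0) (nat_lit 64054931789) (nat_lit 10) (nat_lit 5) (nat_lit 12) (nat_lit 4) (nat_lit 10) (nat_lit 4) (nat_lit 518) (nat_lit 378) (nat_lit 304)) (XT.lf (nat_lit 0) (nat_lit 19024990959) (nat_lit 76) (nat_lit 69691386981) (nat_lit 76) (nat_lit 66500813287) (nat_lit 9) (nat_lit 4) (nat_lit 10) (nat_lit 5) (nat_lit 10) (nat_lit 4) (nat_lit 519) (nat_lit 378) (nat_lit 303))) (XT.nd (nat_lit 78) (nat_lit 0) (nat_lit 0)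 (XT.lf (nat_lit 0) (nat_lit 57784841217) (nat_lit 76) (nat_lit 53730713376) (nat_lit 76) (nat_lit 50536123788) (nat_lit 9) (nat_lit 4) (nat_lit 10) (nat_lit 5) (nat_lit 10) (nat_lit 4) (nat_lit 520) (nat_lit 378) (nat_lit 302)) (XT.lf (nat_lit 0) (nat_lit 98396498392) (nat_lit 76) (nat_lit 37015958720) (nat_lit 76) (nat_lit 33817544470) (nat_lit 9) (nat_lit 4) (nat_lit 10) (nat_lit 5) (nat_lit 10) (nat_lit 4) (nat_lit 521) (nat_lit 378) (nat_lit 301))))) (XT.nd (nat_lit 312) (nat_lit 76) (nat_lit 0) (XT.nd (nat_lit 156) (nat_lit 0) (nat_lit 0) (XT.nd (nat_lit 78) (nat_lit 152) (nat_lit 0) (XT.lf (nat_lit 0) (nat_lit 140956656904) (nat_lit 76) (nat_lit 19507325977) (nat_lit 76) (nat_lit 16305269192) (nat_lit 9) (nat_lit 4) (nat_lit 10) (nat_lit 5) (nat_lit 10) (nat_lit 4) (nat_lit 522) (nat_lit 378) (nat_lit 300)) (XT.lf (nat_lit 0) (nat_lit 875400746) (nat_lit 76) (nat_lit 1115295161) (nat_lit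 152) (nat_lit 182694406796) (nat_lit 7) (nat_lit 5) (nat_lit 8) (nat_lit 5) (nat_lit 9) (nat_lit 4) (nat_lit 523) (nat_lit 378) (nat_lit 299))) (XT.nd (nat_lit 78) (nat_lit 0) (nat_lit 0) (XT.lf (nat_lit 0) (nat_lit 21515113709) (nat_lit 152) (nat_lit 152966100917) (nat_lit 0) (nat_lit 18459085374) (nat_lit 7) (nat_lit 5) (nat_lit 9) (nat_lit 4) (nat_lit 7) (nat_lit 4) (nat_lit 524) (nat_lit 378) (nat_lit 298)) (XT.lf (nat_lit 0) (nat_lit 41996965720) (nat_lit 152) (nat_lit 120674290146) (nat_lit 0) (nat_lit 38937940662) (nat_lit 7) (nat_lit 5) (nat_lit 9) (nat_lit 4) (nat_lit 7) (nat_lit 4) (nat_lit 525) (nat_lit 378) (nat_lit 297)))) (XT.nd (nat_lit 156) (nat_lit 76) (nat_lit 0) (XT.nd (nat_lit 78) (nat_lit 0) (nat_lit 0) (XT.lf (nat_lit 0) (nat_lit 63467605370) (nat_lit 152) (nat_lit 86839971498) (nat_lit 0) (nat_lit 60405726291) (nat_lit 7) (nat_lit 5) (nat_lit 9) (nat_lit 4) (nat_lit 7) (nat_lit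 4) (nat_lit 526) (nat_lit 378) (nat_lit 296)) (XT.lf (nat_lit 0) (nat_lit 85978153230) (nat_lit 152) (nat_lit 51382587072) (nat_lit 0) (nat_lit 82913556035) (nat_lit 7) (nat_lit 5) (nat_lit 9) (nat_lit 4) (nat_lit 7) (nat_lit 4) (nat_lit 527) (nat_lit 378) (nat_lit 295))) (XT.nd (nat_lit 78) (nat_lit 76) (nat_lit 0) (XT.lf (nat_lit 0) (nat_lit 109582205844) (nat_lit 152) (nat_lit 14217714523) (nat_lit 0) (nat_lit 106515019967) (nat_lit 7) (nat_lit 5) (nat_lit 9) (nat_lit 4) (nat_lit 7) (nat_lit 4) (nat_lit 528) (nat_lit 378) (nat_lit 294)) (XT.lf (nat_lit 0) (nat_lit 25561253690) (nat_lit 76) (nat_lit 109173792450) (nat_lit 76) (nat_lit 106104141163) (nat_lit 6) (nat_lit 4) (nat_lit 7) (nat_lit 5) (nat_lit 7) (nat_lit 4) (nat_lit 529) (nat_lit 378) (nat_lit 293)))))) (XT.nd (nat_lit 624) (nat_lit 76) (nat_lit 0) (XT.nd (nat_lit 312) (nat_lit 152) (nat_lit 0) (XT.nd (nat_lit 156) (nat_lit 0) (nat_lit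 0) (XT.nd (nat_lit 78) (nat_lit 0) (nat_lit 0) (XT.lf (nat_lit 0) (nat_lit 67761513863) (nat_lit 76) (nat_lit 93594796492) (nat_lit 76) (nat_lit 90522797195) (nat_lit 6) (nat_lit 4) (nat_lit 7) (nat_lit 5) (nat_lit 7) (nat_lit 4) (nat_lit 530) (nat_lit 378) (nat_lit 292)) (XT.lf (nat_lit 0) (nat_lit 112013440954) (nat_lit 76) (nat_lit 77266623520) (nat_lit 76) (nat_lit 74192388022) (nat_lit 6) (nat_lit 4) (nat_lit 7) (nat_lit 5) (nat_lit 7) (nat_lit 4) (nat_lit 531) (nat_lit 378) (nat_lit 291))) (XT.nd (nat_lit 78) (nat_lit 0) (nat_lit 0) (XT.lf (nat_lit 0) (nat_lit 158422396695) (nat_lit 76) (nat_lit 60150396933) (nat_lit 76) (nat_lit 57074031720) (nat_lit 6) (nat_lit 4) (nat_lit 7) (nat_lit 5) (nat_lit 7) (nat_lit 4) (nat_lit 532) (nat_lit 378) (nat_lit 290)) (XT.lf (nat_lit 0) (nat_lit 207098878598) (nat_lit 76) (nat_lit 42205363808) (nat_lit 76) (nat_lit 39126970296) (nat_lit 6) (nat_lit 4)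 (nat_lit 7) (nat_lit 5) (nat_lit 7) (nat_lit 4) (nat_lit 533) (nat_lit 378) (nat_lit 289)))) (XT.nd (nat_lit 156) (nat_lit 152) (nat_lit 0) (XT.nd (nat_lit 78) (nat_lit 0) (nat_lit 0) (XT.lf (nat_lit 0) (nat_lit 258158783049) (nat_lit 76) (nat_lit 23388797879) (nat_lit 76) (nat_lit 20308472652) (nat_lit 6) (nat_lit 4) (nat_lit 7) (nat_lit 5) (nat_lit 7) (nat_lit 4) (nat_lit 534) (nat_lit 378) (nat_lit 288)) (XT.lf (nat_lit 0) (nat_lit 311723681249) (nat_lit 76) (nat_lit 3655897796) (nat_lit 76) (nat_lit 573732842) (nat_lit 6) (nat_lit 4) (nat_lit 7) (nat_lit 5) (nat_lit 7) (nat_lit 4) (nat_lit 535) (nat_lit 378) (nat_lit 287))) (XT.nd (nat_lit 78) (nat_lit 0) (nat_lit 0) (XT.lf (nat_lit 0) (nat_lit 20355437523) (nat_lit 152) (nat_lit 292923266464) (nat_lit 0) (nat_lit 17418373642) (nat_lit 4) (nat_lit 5) (nat_lit 6) (nat_lit 4) (nat_lit 4) (nat_lit 4) (nat_lit 536) (nat_lit 378) (nat_lit 286))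 (XT.lf (nat_lit 0) (nat_lit 42421773598) (nat_lit 152) (nat_lit 264267167894) (nat_lit 0) (nat_lit 39483120491) (nat_lit 4) (nat_lit 5) (nat_lit 6) (nat_lit 4) (nat_lit 4) (nat_lit 4) (nat_lit 537) (nat_lit 378) (nat_lit 285))))) (XT.nd (nat_lit 312) (nat_lit 76) (nat_lit 0) (XT.nd (nat_lit 156) (nat_lit 0) (nat_lit 0) (XT.nd (nat_lit 78) (nat_lit 0) (nat_lit 0) (XT.lf (nat_lit 0) (nat_lit 65569760294) (nat_lit 152) (nat_lit 234222524946) (nat_lit 0) (nat_lit 62629593638) (nat_lit 4) (nat_lit 5) (nat_lit 6) (nat_lit 4) (nat_lit 4) (nat_lit 4) (nat_lit 538) (nat_lit 378) (nat_lit 284)) (XT.lf (nat_lit 0) (nat_lit 89854511865) (nat_lit 152) (nat_lit 202717802757) (nat_lit 0) (nat_lit 86912903735) (nat_lit 4) (nat_lit 5) (nat_lit 6) (nat_lit 4) (nat_lit 4) (nat_lit 4) (nat_lit 539) (nat_lit 378) (nat_lit 283))) (XT.nd (nat_lit 78) (nat_lit 0) (nat_lit 0) (XT.lf (nat_lit 0) (nat_lit 115333849149) (nat_lit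 152) (nat_lit 169677990084) (nat_lit 0) (nat_lit 112390868185) (nat_lit 4) (nat_lit 5) (nat_lit 6) (nat_lit 4) (nat_lit 4) (nat_lit 4) (nat_lit 540) (nat_lit 378) (nat_lit 282)) (XT.lf (nat_lit 0) (nat_lit 142068437233) (nat_lit 152) (nat_lit 135024420704) (nat_lit 0) (nat_lit 139124148810) (nat_lit 4) (nat_lit 5) (nat_lit 6) (nat_lit 4) (nat_lit 4) (nat_lit 4) (nat_lit 541) (nat_lit 378) (nat_lit 281)))) (XT.nd (nat_lit 156) (nat_lit 76) (nat_lit 0) (XT.nd (nat_lit 78) (nat_lit 0) (nat_lit 0) (XT.lf (nat_lit 0) (nat_lit 170121929900) (nat_lit 152) (nat_lit 98674586121) (nat_lit 0) (nat_lit 167176396277) (nat_lit 4) (nat_lit 5) (nat_lit 6) (nat_lit 4) (nat_lit 4) (nat_lit 4) (nat_lit 542) (nat_lit 378) (nat_lit 280)) (XT.lf (nat_lit 0) (nat_lit 199561121179) (nat_lit 152) (nat_lit 60541939108) (nat_lit 0) (nat_lit 196614401651) (nat_lit 4) (nat_lit 5) (nat_lit 6) (nat_lit 4) (nat_lit 4) (nat_lit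 4) (nat_lit 543) (nat_lit 378) (nat_lit 279))) (XT.nd (nat_lit 78) (nat_lit 76) (nat_lit 0) (XT.lf (nat_lit 0) (nat_lit 230456104384) (nat_lit 152) (nat_lit 20535687649) (nat_lit 0) (nat_lit 227508255422) (nat_lit 4) (nat_lit 5) (nat_lit 6) (nat_lit 4) (nat_lit 4) (nat_lit 4) (nat_lit 544) (nat_lit 378) (nat_lit 278)) (XT.nd (nat_lit 78) (nat_lit 0) (nat_lit 0) (XT.lf (nat_lit 0) (nat_lit 22148305323) (nat_lit 76) (nat_lit 241077930790) (nat_lit 76) (nat_lit 238129006177) (nat_lit 3) (nat_lit 4) (nat_lit 4) (nat_lit 5) (nat_lit 4) (nat_lit 4) (nat_lit 545) (nat_lit 378) (nat_lit 277)) (XT.lf (nat_lit 0) (nat_lit 67648502844) (nat_lit 76) (nat_lit 230319005685) (nat_lit 76) (nat_lit 227369056644) (nat_lit 3) (nat_lit 4) (nat_lit 4) (nat_lit 5) (nat_lit 4) (nat_lit 4) (nat_lit 546) (nat_lit 378) (nat_lit 276))))))))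
noncomputable def xc100 : XT := (XT.nd (nat_lit 54756) (nat_lit 0) (nat_lit 3648) (XT.nd (nat_lit 624) (nat_lit 0) (nat_lit 0) (XT.nd (nat_lit 312) (nat_lit 0) (nat_lit 0) (XT.nd (nat_lit 156) (nat_lit 0) (nat_lit 0) (XT.nd (nat_lit 78) (nat_lit 0) (nat_lit 0) (XT.lf (nat_lit 0) (nat_lit 115394236139) (nat_lit 76) (nat_lit 219037182039) (nat_lit 76) (nat_lit 216086257351) (nat_lit 3) (nat_lit 4) (nat_lit 4) (nat_lit 5) (nat_lit 4) (nat_lit 4) (nat_lit 547) (nat_lit 378) (nat_lit 275)) (XT.lf (nat_lit 0) (nat_lit 165499185526) (nat_lit 76) (nat_lit 207205598366) (nat_lit 76) (nat_lit 204253744491) (nat_lit 3) (nat_lit 4) (nat_lit 4) (nat_lit 5) (nat_lit 4) (nat_lit 4) (nat_lit 548) (nat_lit 378) (nat_lit 274))) (XT.nd (nat_lit 78) (nat_lit 0) (nat_lit 0) (XT.lf (nat_lit 0) (nat_lit 218082648504) (nat_lit 76) (nat_lit 194796084229) (nat_lit 76) (nat_lit 191843345413) (nat_lit 3) (nat_lit 4) (nat_lit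 4) (nat_lit 5) (nat_lit 4) (nat_lit 4) (nat_lit 549) (nat_lit 378) (nat_lit 273)) (XT.lf (nat_lit 0) (nat_lit 273269823795) (nat_lit 76) (nat_lit 181779093166) (nat_lit 76) (nat_lit 178825511550) (nat_lit 3) (nat_lit 4) (nat_lit 4) (nat_lit 5) (nat_lit 4) (nat_lit 4) (nat_lit 550) (nat_lit 378) (nat_lit 272)))) (XT.nd (nat_lit 156) (nat_lit 0) (nat_lit 0) (XT.nd (nat_lit 78) (nat_lit 0) (nat_lit 0) (XT.lf (nat_lit 0) (nat_lit 331192109434) (nat_lit 76) (nat_lit 168123632341) (nat_lit 76) (nat_lit 165169248057) (nat_lit 3) (nat_lit 4) (nat_lit 4) (nat_lit 5) (nat_lit 4) (nat_lit 4) (nat_lit 551) (nat_lit 378) (nat_lit 271)) (XT.lf (nat_lit 0) (nat_lit 391987415625) (nat_lit 76) (nat_lit 153797188752) (nat_lit 76) (nat_lit 150842040023) (nat_lit 3) (nat_lit 4) (nat_lit 4) (nat_lit 5) (nat_lit 4) (nat_lit 4) (nat_lit 552) (nat_lit 378) (nat_lit 270))) (XT.nd (nat_lit 78) (nat_lit 0) (nat_lit 0) (XT.lf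 (nat_lit 0) (nat_lit 455800493098) (nat_lit 76) (nat_lit 138765651818) (nat_lit 76) (nat_lit 135809775047) (nat_lit 3) (nat_lit 4) (nat_lit 4) (nat_lit 5) (nat_lit 4) (nat_lit 4) (nat_lit 553) (nat_lit 378) (nat_lit 269)) (XT.lf (nat_lit 0) (nat_lit 522783277751) (nat_lit 76) (nat_lit 122993232167) (nat_lit 76) (nat_lit 120036662022) (nat_lit 3) (nat_lit 4) (nat_lit 4) (nat_lit 5) (nat_lit 4) (nat_lit 4) (nat_lit 554) (nat_lit 378) (nat_lit 268))))) (XT.nd (nat_lit 53820) (nat_lit 0) (nat_lit 5320) (XT.nd (nat_lit 53664) (nat_lit 0) (nat_lit 5928) (XT.nd (nat_lit 78) (nat_lit 0) (nat_lit 0) (XT.lf (nat_lit 0) (nat_lit 593095252405) (nat_lit 76) (nat_lit 106442376418) (nat_lit 76) (nat_lit 103485145917) (nat_lit 3) (nat_lit 4) (nat_lit 4) (nat_lit 5) (nat_lit 4) (nat_lit 4) (nat_lit 555) (nat_lit 378) (nat_lit 267)) (XT.lf (nat_lit 0) (nat_lit 666903826523) (nat_lit 76) (nat_lit 89073677772) (nat_lit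 76) (nat_lit 86115818360) (nat_lit 3) (nat_lit 4) (nat_lit 4) (nat_lit 5) (nat_lit 4) (nat_lit 4) (nat_lit 556) (nat_lit 378) (nat_lit 266))) (XT.nd (nat_lit 78) (nat_lit 152) (nat_lit 0) (XT.lf (nat_lit 0) (nat_lit 2500585866) (nat_lit 152) (nat_lit 859990845) (nat_lit 0) (nat_lit 2500585866) (nat_lit 83) (nat_lit 5) (nat_lit 85) (nat_lit 4) (nat_lit 83) (nat_lit 4) (nat_lit 442) (nat_lit 379) (nat_lit 379)) (XT.lf (nat_lit 0) (nat_lit 9451191640) (nat_lit 152) (nat_lit 1523726034) (nat_lit 152) (nat_lit 1020778227) (nat_lit 81) (nat_lit 4) (nat_lit 83) (nat_lit 5) (nat_lit 83) (nat_lit 4) (nat_lit 443) (nat_lit 379) (nat_lit 378)))) (XT.nd (nat_lit 156) (nat_lit 304) (nat_lit 0) (XT.nd (nat_lit 78) (nat_lit 152) (nat_lit 0) (XT.lf (nat_lit 0) (nat_lit 4834576219) (nat_lit 152) (nat_lit 3543455298) (nat_lit 0) (nat_lit 3899389821) (nat_lit 79) (nat_lit 5) (nat_lit 81) (nat_lit 4) (nat_lit 79)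 (nat_lit 4) (nat_lit 444) (nat_lit 379) (nat_lit 377)) (XT.lf (nat_lit 0) (nat_lit 7940835861) (nat_lit 152) (nat_lit 3000777783) (nat_lit 152) (nat_lit 1631126160) (nat_lit 77) (nat_lit 4) (nat_lit 79) (nat_lit 5) (nat_lit 79) (nat_lit 4) (nat_lit 445) (nat_lit 379) (nat_lit 376))) (XT.nd (nat_lit 78) (nat_lit 152) (nat_lit 0) (XT.lf (nat_lit 0) (nat_lit 4342651778) (nat_lit 152) (nat_lit 5891808258) (nat_lit 0) (nat_lit 2644148895) (nat_lit 75) (nat_lit 5) (nat_lit 77) (nat_lit 4) (nat_lit 75) (nat_lit 4) (nat_lit 446) (nat_lit 379) (nat_lit 375)) (XT.lf (nat_lit 0) (nat_lit 5896384961) (nat_lit 152) (nat_lit 4687346126) (nat_lit 152) (nat_lit 2613535845) (nat_lit 73) (nat_lit 4) (nat_lit 75) (nat_lit 5) (nat_lit 75) (nat_lit 4) (nat_lit 447) (nat_lit 379) (nat_lit 374)))))) (XT.nd (nat_lit 624) (nat_lit 760) (nat_lit 0) (XT.nd (nat_lit 312) (nat_lit 456) (nat_lit 0) (XT.nd (nat_lit 156) (nat_lit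 152) (nat_lit 0) (XT.nd (nat_lit 78) (nat_lit 152) (nat_lit 0) (XT.lf (nat_lit 0) (nat_lit 3485973681) (nat_lit 152) (nat_lit 8872754547) (nat_lit 0) (nat_lit 1170501399) (nat_lit 71) (nat_lit 5) (nat_lit 73) (nat_lit 4) (nat_lit 71) (nat_lit 4) (nat_lit 448) (nat_lit 379) (nat_lit 373)) (XT.lf (nat_lit 0) (nat_lit 3206225483) (nat_lit 152) (nat_lit 6653133195) (nat_lit 152) (nat_lit 4013456272) (nat_lit 69) (nat_lit 4) (nat_lit 71) (nat_lit 5) (nat_lit 71) (nat_lit 4) (nat_lit 449) (nat_lit 379) (nat_lit 372))) (XT.nd (nat_lit 78) (nat_lit 0) (nat_lit 0) (XT.lf (nat_lit 0) (nat_lit 1615418469) (nat_lit 76) (nat_lit 610855538) (nat_lit 152) (nat_lit 12006367874) (nat_lit 67) (nat_lit 5) (nat_lit 68) (nat_lit 5) (nat_lit 69) (nat_lit 4) (nat_lit 450) (nat_lit 379) (nat_lit 371)) (XT.lf (nat_lit 0) (nat_lit 8721875678) (nat_lit 152) (nat_lit 247585142) (nat_lit 0) (nat_lit 5633774333) (nat_lit 67)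 (nat_lit 5) (nat_lit 69) (nat_lit 4) (nat_lit 67) (nat_lit 4) (nat_lit 451) (nat_lit 379) (nat_lit 370)))) (XT.nd (nat_lit 156) (nat_lit 228) (nat_lit 0) (XT.nd (nat_lit 78) (nat_lit 76) (nat_lit 0) (XT.lf (nat_lit 0) (nat_lit 557261399) (nat_lit 152) (nat_lit 2212439435) (nat_lit 76) (nat_lit 12220982478) (nat_lit 65) (nat_lit 5) (nat_lit 67) (nat_lit 5) (nat_lit 66) (nat_lit 4) (nat_lit 452) (nat_lit 379) (nat_lit 369)) (XT.lf (nat_lit 0) (nat_lit 7171225262) (nat_lit 152) (nat_lit 4484680062) (nat_lit 0) (nat_lit 3734227048) (nat_lit 64) (nat_lit 5) (nat_lit 66) (nat_lit 4) (nat_lit 64) (nat_lit 4) (nat_lit 453) (nat_lit 379) (nat_lit 368))) (XT.nd (nat_lit 78) (nat_lit 152) (nat_lit 0) (XT.lf (nat_lit 0) (nat_lit 8831667723) (nat_lit 76) (nat_lit 5321709224) (nat_lit 76) (nat_lit 1654304825) (nat_lit 63) (nat_lit 4) (nat_lit 64) (nat_lit 5) (nat_lit 64) (nat_lit 4) (nat_lit 454) (nat_lit 379)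 (nat_lit 367)) (XT.lf (nat_lit 0) (nat_lit 5088362235) (nat_lit 152) (nat_lit 9766173199) (nat_lit 0) (nat_lit 1386610939) (nat_lit 61) (nat_lit 5) (nat_lit 63) (nat_lit 4) (nat_lit 61) (nat_lit 4) (nat_lit 455) (nat_lit 379) (nat_lit 366))))) (XT.nd (nat_lit 312) (nat_lit 456) (nat_lit 0) (XT.nd (nat_lit 156) (nat_lit 76) (nat_lit 0) (XT.nd (nat_lit 78) (nat_lit 152) (nat_lit 0) (XT.lf (nat_lit 0) (nat_lit 3801281959) (nat_lit 76) (nat_lit 8395120675) (nat_lit 76) (nat_lit 4494335854) (nat_lit 60) (nat_lit 4) (nat_lit 61) (nat_lit 5) (nat_lit 61) (nat_lit 4) (nat_lit 456) (nat_lit 379) (nat_lit 365)) (XT.lf (nat_lit 0) (nat_lit 862817658) (nat_lit 76) (nat_lit 1553357082) (nat_lit 152) (nat_lit 14744735010) (nat_lit 58) (nat_lit 5) (nat_lit 59) (nat_lit 5) (nat_lit 60) (nat_lit 4) (nat_lit 457) (nat_lit 379) (nat_lit 364))) (XT.nd (nat_lit 78) (nat_lit 76) (nat_lit 0) (XT.lf (nat_lit 0) (nat_lit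 9649022801) (nat_lit 152) (nat_lit 2413964383) (nat_lit 0) (nat_lit 5581527720) (nat_lit 58) (nat_lit 5) (nat_lit 60) (nat_lit 4) (nat_lit 58) (nat_lit 4) (nat_lit 458) (nat_lit 379) (nat_lit 363)) (XT.lf (nat_lit 0) (nat_lit 12190679181) (nat_lit 76) (nat_lit 5095368283) (nat_lit 76) (nat_lit 864127828) (nat_lit 57) (nat_lit 4) (nat_lit 58) (nat_lit 5) (nat_lit 58) (nat_lit 4) (nat_lit 459) (nat_lit 379) (nat_lit 362)))) (XT.nd (nat_lit 156) (nat_lit 228) (nat_lit 0) (XT.nd (nat_lit 78) (nat_lit 76) (nat_lit 0) (XT.lf (nat_lit 0) (nat_lit 6453952717) (nat_lit 152) (nat_lit 9944211120) (nat_lit 0) (nat_lit 2275678022) (nat_lit 55) (nat_lit 5) (nat_lit 57) (nat_lit 4) (nat_lit 55) (nat_lit 4) (nat_lit 460) (nat_lit 379) (nat_lit 361)) (XT.lf (nat_lit 0) (nat_lit 4858462910) (nat_lit 76) (nat_lit 9339886734) (nat_lit 76) (nat_lit 5020162628) (nat_lit 54) (nat_lit 4) (nat_lit 55) (nat_lit 5) (nat_lit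 55) (nat_lit 4) (nat_lit 461) (nat_lit 379) (nat_lit 360))) (XT.nd (nat_lit 78) (nat_lit 76) (nat_lit 0) (XT.lf (nat_lit 0) (nat_lit 601989062) (nat_lit 76) (nat_lit 1864560641) (nat_lit 152) (nat_lit 17321471297) (nat_lit 52) (nat_lit 5) (nat_lit 53) (nat_lit 5) (nat_lit 54) (nat_lit 4) (nat_lit 462) (nat_lit 379) (nat_lit 359)) (XT.nd (nat_lit 78) (nat_lit 76) (nat_lit 0) (XT.lf (nat_lit 0) (nat_lit 10327636036) (nat_lit 152) (nat_lit 4082693088) (nat_lit 0) (nat_lit 5963124973) (nat_lit 52) (nat_lit 5) (nat_lit 54) (nat_lit 4) (nat_lit 52) (nat_lit 4) (nat_lit 463) (nat_lit 379) (nat_lit 358)) (XT.lf (nat_lit 0) (nat_lit 11799272070) (nat_lit 76) (nat_lit 6833607340) (nat_lit 76) (nat_lit 2352725497) (nat_lit 51) (nat_lit 4) (nat_lit 52) (nat_lit 5) (nat_lit 52) (nat_lit 4) (nat_lit 464) (nat_lit 379) (nat_lit 357))))))))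
noncomputable def xc101 : XT := (XT.nd (nat_lit 1248) (nat_lit 988) (nat_lit 0) (XT.nd (nat_lit 624) (nat_lit 608) (nat_lit 0) (XT.nd (nat_lit 312) (nat_lit 304) (nat_lit 0) (XT.nd (nat_lit 156) (nat_lit 152) (nat_lit 0) (XT.nd (nat_lit 78) (nat_lit 76) (nat_lit 0) (XT.lf (nat_lit 0) (nat_lit 5574027375) (nat_lit 152) (nat_lit 14847286552) (nat_lit 0) (nat_lit 1200969129) (nat_lit 49) (nat_lit 5) (nat_lit 51) (nat_lit 4) (nat_lit 49) (nat_lit 4) (nat_lit 465) (nat_lit 379) (nat_lit 356)) (XT.lf (nat_lit 0) (nat_lit 1129139051) (nat_lit 76) (nat_lit 12813540450) (nat_lit 76) (nat_lit 8339956749) (nat_lit 48) (nat_lit 4) (nat_lit 49) (nat_lit 5) (nat_lit 49) (nat_lit 4) (nat_lit 466) (nat_lit 379) (nat_lit 355))) (XT.nd (nat_lit 78) (nat_lit 152) (nat_lit 0) (XT.lf (nat_lit 0) (nat_lit 18100919468) (nat_lit 76) (nat_lit 4719928337) (nat_lit 76) (nat_lit 150606107) (nat_lit 48) (nat_lit 4) (nat_lit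 49) (nat_lit 5) (nat_lit 49) (nat_lit 4) (nat_lit 467) (nat_lit 379) (nat_lit 354)) (XT.lf (nat_lit 0) (nat_lit 8274549926) (nat_lit 152) (nat_lit 11572754937) (nat_lit 0) (nat_lit 3835976801) (nat_lit 46) (nat_lit 5) (nat_lit 48) (nat_lit 4) (nat_lit 46) (nat_lit 4) (nat_lit 468) (nat_lit 379) (nat_lit 353)))) (XT.nd (nat_lit 156) (nat_lit 152) (nat_lit 0) (XT.nd (nat_lit 78) (nat_lit 76) (nat_lit 0) (XT.lf (nat_lit 0) (nat_lit 5467802330) (nat_lit 76) (nat_lit 11739734901) (nat_lit 76) (nat_lit 7218459236) (nat_lit 45) (nat_lit 4) (nat_lit 46) (nat_lit 5) (nat_lit 46) (nat_lit 4) (nat_lit 469) (nat_lit 379) (nat_lit 352)) (XT.lf (nat_lit 0) (nat_lit 1381504678) (nat_lit 152) (nat_lit 1767955398) (nat_lit 76) (nat_lit 22053089941) (nat_lit 44) (nat_lit 5) (nat_lit 46) (nat_lit 5) (nat_lit 45) (nat_lit 4) (nat_lit 470) (nat_lit 379) (nat_lit 351))) (XT.nd (nat_lit 78) (nat_lit 76) (nat_lit 0) (XT.lf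 (nat_lit 0) (nat_lit 10372877988) (nat_lit 152) (nat_lit 9708491327) (nat_lit 0) (nat_lit 5920445957) (nat_lit 43) (nat_lit 5) (nat_lit 45) (nat_lit 4) (nat_lit 43) (nat_lit 4) (nat_lit 471) (nat_lit 379) (nat_lit 350)) (XT.lf (nat_lit 0) (nat_lit 8401475664) (nat_lit 76) (nat_lit 11478369588) (nat_lit 76) (nat_lit 6957897972) (nat_lit 42) (nat_lit 4) (nat_lit 43) (nat_lit 5) (nat_lit 43) (nat_lit 4) (nat_lit 472) (nat_lit 379) (nat_lit 349))))) (XT.nd (nat_lit 312) (nat_lit 304) (nat_lit 0) (XT.nd (nat_lit 156) (nat_lit 152) (nat_lit 0) (XT.nd (nat_lit 78) (nat_lit 76) (nat_lit 0) (XT.lf (nat_lit 0) (nat_lit 2097999515) (nat_lit 152) (nat_lit 284372214) (nat_lit 76) (nat_lit 25330419994) (nat_lit 41) (nat_lit 5) (nat_lit 43) (nat_lit 5) (nat_lit 42) (nat_lit 4) (nat_lit 473) (nat_lit 379) (nat_lit 348)) (XT.lf (nat_lit 0) (nat_lit 11645671805) (nat_lit 152) (nat_lit 9746606025) (nat_lit 0) (nat_lit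 7219971681) (nat_lit 40) (nat_lit 5) (nat_lit 42) (nat_lit 4) (nat_lit 40) (nat_lit 4) (nat_lit 474) (nat_lit 379) (nat_lit 347))) (XT.nd (nat_lit 78) (nat_lit 76) (nat_lit 0) (XT.lf (nat_lit 0) (nat_lit 9407495603) (nat_lit 76) (nat_lit 12314157670) (nat_lit 76) (nat_lit 7832481211) (nat_lit 39) (nat_lit 4) (nat_lit 40) (nat_lit 5) (nat_lit 40) (nat_lit 4) (nat_lit 475) (nat_lit 379) (nat_lit 346)) (XT.lf (nat_lit 0) (nat_lit 1729999360) (nat_lit 152) (nat_lit 988488566) (nat_lit 76) (nat_lit 27821855864) (nat_lit 38) (nat_lit 5) (nat_lit 40) (nat_lit 5) (nat_lit 39) (nat_lit 4) (nat_lit 476) (nat_lit 379) (nat_lit 345)))) (XT.nd (nat_lit 156) (nat_lit 152) (nat_lit 0) (XT.nd (nat_lit 78) (nat_lit 76) (nat_lit 0) (XT.lf (nat_lit 0) (nat_lit 11796164379) (nat_lit 152) (nat_lit 12330066018) (nat_lit 0) (nat_lit 7428774436) (nat_lit 37) (nat_lit 5) (nat_lit 39) (nat_lit 4) (nat_lit 37) (nat_lit 4)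 (nat_lit 477) (nat_lit 379) (nat_lit 344)) (XT.lf (nat_lit 0) (nat_lit 7800701982) (nat_lit 76) (nat_lit 14615310252) (nat_lit 76) (nat_lit 10201868439) (nat_lit 36) (nat_lit 4) (nat_lit 37) (nat_lit 5) (nat_lit 37) (nat_lit 4) (nat_lit 478) (nat_lit 379) (nat_lit 343))) (XT.nd (nat_lit 78) (nat_lit 152) (nat_lit 0) (XT.lf (nat_lit 0) (nat_lit 29102478633) (nat_lit 76) (nat_lit 4542410513) (nat_lit 76) (nat_lit 85109777) (nat_lit 36) (nat_lit 4) (nat_lit 37) (nat_lit 5) (nat_lit 37) (nat_lit 4) (nat_lit 479) (nat_lit 379) (nat_lit 342)) (XT.lf (nat_lit 0) (nat_lit 10433310804) (nat_lit 152) (nat_lit 18296051089) (nat_lit 0) (nat_lit 6148481148) (nat_lit 34) (nat_lit 5) (nat_lit 36) (nat_lit 4) (nat_lit 34) (nat_lit 4) (nat_lit 480) (nat_lit 379) (nat_lit 341)))))) (XT.nd (nat_lit 624) (nat_lit 456) (nat_lit 0) (XT.nd (nat_lit 312) (nat_lit 304) (nat_lit 0) (XT.nd (nat_lit 156) (nat_lit 152) (nat_lit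 0) (XT.nd (nat_lit 78) (nat_lit 0) (nat_lit 0) (XT.lf (nat_lit 0) (nat_lit 2686539890) (nat_lit 76) (nat_lit 18857853346) (nat_lit 76) (nat_lit 14535136703) (nat_lit 33) (nat_lit 4) (nat_lit 34) (nat_lit 5) (nat_lit 34) (nat_lit 4) (nat_lit 481) (nat_lit 379) (nat_lit 340)) (XT.lf (nat_lit 0) (nat_lit 25102210413) (nat_lit 76) (nat_lit 8294308095) (nat_lit 76) (nat_lit 3935508608) (nat_lit 33) (nat_lit 4) (nat_lit 34) (nat_lit 5) (nat_lit 34) (nat_lit 4) (nat_lit 482) (nat_lit 379) (nat_lit 339))) (XT.nd (nat_lit 78) (nat_lit 0) (nat_lit 0) (XT.lf (nat_lit 0) (nat_lit 7045025416) (nat_lit 152) (nat_lit 28731389430) (nat_lit 0) (nat_lit 2861059605) (nat_lit 31) (nat_lit 5) (nat_lit 33) (nat_lit 4) (nat_lit 31) (nat_lit 4) (nat_lit 483) (nat_lit 379) (nat_lit 338)) (XT.lf (nat_lit 0) (nat_lit 18668536434) (nat_lit 152) (nat_lit 6871720848) (nat_lit 0) (nat_lit 14453400906) (nat_lit 31) (nat_lit 5)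 (nat_lit 33) (nat_lit 4) (nat_lit 31) (nat_lit 4) (nat_lit 484) (nat_lit 379) (nat_lit 337)))) (XT.nd (nat_lit 156) (nat_lit 152) (nat_lit 0) (XT.nd (nat_lit 78) (nat_lit 76) (nat_lit 0) (XT.lf (nat_lit 0) (nat_lit 16373192855) (nat_lit 76) (nat_lit 14641112704) (nat_lit 76) (nat_lit 10396291729) (nat_lit 30) (nat_lit 4) (nat_lit 31) (nat_lit 5) (nat_lit 31) (nat_lit 4) (nat_lit 485) (nat_lit 379) (nat_lit 336)) (XT.lf (nat_lit 0) (nat_lit 1048227772) (nat_lit 152) (nat_lit 2124225894) (nat_lit 76) (nat_lit 39724898556) (nat_lit 29) (nat_lit 5) (nat_lit 31) (nat_lit 5) (nat_lit 30) (nat_lit 4) (nat_lit 486) (nat_lit 379) (nat_lit 335))) (XT.nd (nat_lit 78) (nat_lit 76) (nat_lit 0) (XT.lf (nat_lit 0) (nat_lit 13099240064) (nat_lit 152) (nat_lit 22327516588) (nat_lit 0) (nat_lit 9003984444) (nat_lit 28) (nat_lit 5) (nat_lit 30) (nat_lit 4) (nat_lit 28) (nat_lit 4) (nat_lit 487) (nat_lit 379) (nat_lit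 334)) (XT.lf (nat_lit 0) (nat_lit 1346416275) (nat_lit 76) (nat_lit 24407014943) (nat_lit 76) (nat_lit 20287337033) (nat_lit 27) (nat_lit 4) (nat_lit 28) (nat_lit 5) (nat_lit 28) (nat_lit 4) (nat_lit 488) (nat_lit 379) (nat_lit 333))))) (XT.nd (nat_lit 312) (nat_lit 228) (nat_lit 0) (XT.nd (nat_lit 156) (nat_lit 76) (nat_lit 0) (XT.nd (nat_lit 78) (nat_lit 152) (nat_lit 0) (XT.lf (nat_lit 0) (nat_lit 26761893898) (nat_lit 76) (nat_lit 12549396216) (nat_lit 76) (nat_lit 8406458982) (nat_lit 27) (nat_lit 4) (nat_lit 28) (nat_lit 5) (nat_lit 28) (nat_lit 4) (nat_lit 489) (nat_lit 379) (nat_lit 332)) (XT.lf (nat_lit 0) (nat_lit 3817846316) (nat_lit 76) (nat_lit 76268457) (nat_lit 152) (nat_lit 45583495020) (nat_lit 25) (nat_lit 5) (nat_lit 26) (nat_lit 5) (nat_lit 27) (nat_lit 4) (nat_lit 490) (nat_lit 379) (nat_lit 331))) (XT.nd (nat_lit 78) (nat_lit 76) (nat_lit 0) (XT.lf (nat_lit 0) (nat_lit 16987537310)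 (nat_lit 152) (nat_lit 21307325638) (nat_lit 0) (nat_lit 13000693632) (nat_lit 25) (nat_lit 5) (nat_lit 27) (nat_lit 4) (nat_lit 25) (nat_lit 4) (nat_lit 491) (nat_lit 379) (nat_lit 330)) (XT.lf (nat_lit 0) (nat_lit 4195317940) (nat_lit 76) (nat_lit 26508330631) (nat_lit 76) (nat_lit 22502351450) (nat_lit 24) (nat_lit 4) (nat_lit 25) (nat_lit 5) (nat_lit 25) (nat_lit 4) (nat_lit 492) (nat_lit 379) (nat_lit 329)))) (XT.nd (nat_lit 156) (nat_lit 76) (nat_lit 0) (XT.nd (nat_lit 78) (nat_lit 152) (nat_lit 0) (XT.lf (nat_lit 0) (nat_lit 31515626645) (nat_lit 76) (nat_lit 13853677846) (nat_lit 76) (nat_lit 9829474377) (nat_lit 24) (nat_lit 4) (nat_lit 25) (nat_lit 5) (nat_lit 25) (nat_lit 4) (nat_lit 493) (nat_lit 379) (nat_lit 328)) (XT.lf (nat_lit 0) (nat_lit 2753675815) (nat_lit 76) (nat_lit 561073330) (nat_lit 152) (nat_lit 53976283869) (nat_lit 22) (nat_lit 5) (nat_lit 23) (nat_lit 5) (nat_lit 24)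 (nat_lit 4) (nat_lit 494) (nat_lit 379) (nat_lit 327))) (XT.nd (nat_lit 78) (nat_lit 76) (nat_lit 0) (XT.lf (nat_lit 0) (nat_lit 17308712924) (nat_lit 152) (nat_lit 28701121569) (nat_lit 0) (nat_lit 13443865398) (nat_lit 22) (nat_lit 5) (nat_lit 24) (nat_lit 4) (nat_lit 22) (nat_lit 4) (nat_lit 495) (nat_lit 379) (nat_lit 326)) (XT.nd (nat_lit 78) (nat_lit 76) (nat_lit 0) (XT.lf (nat_lit 0) (nat_lit 31922097988) (nat_lit 152) (nat_lit 1764158828) (nat_lit 0) (nat_lit 28042257295) (nat_lit 22) (nat_lit 5) (nat_lit 24) (nat_lit 4) (nat_lit 22) (nat_lit 4) (nat_lit 496) (nat_lit 379) (nat_lit 325)) (XT.lf (nat_lit 0) (nat_lit 27217558423) (nat_lit 76) (nat_lit 20388322126) (nat_lit 76) (nat_lit 16494202227) (nat_lit 21) (nat_lit 4) (nat_lit 22) (nat_lit 5) (nat_lit 22) (nat_lit 4) (nat_lit 497) (nat_lit 379) (nat_lit 324))))))))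
noncomputable def xc102 : XT := (XT.nd (nat_lit 1248) (nat_lit 456) (nat_lit 0) (XT.nd (nat_lit 624) (nat_lit 304) (nat_lit 0) (XT.nd (nat_lit 312) (nat_lit 152) (nat_lit 0) (XT.nd (nat_lit 156) (nat_lit 76) (nat_lit 0) (XT.nd (nat_lit 78) (nat_lit 152) (nat_lit 0) (XT.lf (nat_lit 0) (nat_lit 57539177633) (nat_lit 76) (nat_lit 6480734271) (nat_lit 76) (nat_lit 2573015126) (nat_lit 21) (nat_lit 4) (nat_lit 22) (nat_lit 5) (nat_lit 22) (nat_lit 4) (nat_lit 498) (nat_lit 379) (nat_lit 323)) (XT.lf (nat_lit 0) (nat_lit 12031000386) (nat_lit 152) (nat_lit 48854369854) (nat_lit 0) (nat_lit 8297028190) (nat_lit 19) (nat_lit 5) (nat_lit 21) (nat_lit 4) (nat_lit 19) (nat_lit 4) (nat_lit 499) (nat_lit 379) (nat_lit 322))) (XT.nd (nat_lit 78) (nat_lit 76) (nat_lit 0) (XT.lf (nat_lit 0) (nat_lit 27459737061) (nat_lit 152) (nat_lit 20716430576) (nat_lit 0) (nat_lit 23714017326) (nat_lit 19) (nat_lit 5) (nat_lit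 21) (nat_lit 4) (nat_lit 19) (nat_lit 4) (nat_lit 500) (nat_lit 379) (nat_lit 321)) (XT.lf (nat_lit 0) (nat_lit 8957935426) (nat_lit 76) (nat_lit 34764601043) (nat_lit 76) (nat_lit 31007693176) (nat_lit 18) (nat_lit 4) (nat_lit 19) (nat_lit 5) (nat_lit 19) (nat_lit 4) (nat_lit 501) (nat_lit 379) (nat_lit 320)))) (XT.nd (nat_lit 156) (nat_lit 152) (nat_lit 0) (XT.nd (nat_lit 78) (nat_lit 0) (nat_lit 0) (XT.lf (nat_lit 0) (nat_lit 40680602469) (nat_lit 76) (nat_lit 20392746878) (nat_lit 76) (nat_lit 16625183647) (nat_lit 18) (nat_lit 4) (nat_lit 19) (nat_lit 5) (nat_lit 19) (nat_lit 4) (nat_lit 502) (nat_lit 379) (nat_lit 319)) (XT.lf (nat_lit 0) (nat_lit 73842121958) (nat_lit 76) (nat_lit 5377229219) (nat_lit 76) (nat_lit 1599518022) (nat_lit 18) (nat_lit 4) (nat_lit 19) (nat_lit 5) (nat_lit 19) (nat_lit 4) (nat_lit 503) (nat_lit 379) (nat_lit 318))) (XT.nd (nat_lit 78) (nat_lit 0) (nat_lit 0) (XT.lf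 (nat_lit 0) (nat_lit 14215090213) (nat_lit 152) (nat_lit 59236427820) (nat_lit 0) (nat_lit 10608065522) (nat_lit 16) (nat_lit 5) (nat_lit 18) (nat_lit 4) (nat_lit 16) (nat_lit 4) (nat_lit 504) (nat_lit 379) (nat_lit 317)) (XT.lf (nat_lit 0) (nat_lit 30904911532) (nat_lit 152) (nat_lit 29260078613) (nat_lit 0) (nat_lit 27289120646) (nat_lit 16) (nat_lit 5) (nat_lit 18) (nat_lit 4) (nat_lit 16) (nat_lit 4) (nat_lit 505) (nat_lit 379) (nat_lit 316))))) (XT.nd (nat_lit 312) (nat_lit 76) (nat_lit 0) (XT.nd (nat_lit 156) (nat_lit 152) (nat_lit 0) (XT.nd (nat_lit 78) (nat_lit 0) (nat_lit 0) (XT.lf (nat_lit 0) (nat_lit 2148015467) (nat_lit 76) (nat_lit 46248072718) (nat_lit 76) (nat_lit 42623933075) (nat_lit 15) (nat_lit 4) (nat_lit 16) (nat_lit 5) (nat_lit 16) (nat_lit 4) (nat_lit 506) (nat_lit 379) (nat_lit 315)) (XT.lf (nat_lit 0) (nat_lit 36008726300) (nat_lit 76) (nat_lit 31183047191) (nat_lit 76)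 (nat_lit 27550956352) (nat_lit 15) (nat_lit 4) (nat_lit 16) (nat_lit 5) (nat_lit 16) (nat_lit 4) (nat_lit 507) (nat_lit 379) (nat_lit 314))) (XT.nd (nat_lit 78) (nat_lit 152) (nat_lit 0) (XT.lf (nat_lit 0) (nat_lit 71435204285) (nat_lit 76) (nat_lit 15429578047) (nat_lit 76) (nat_lit 11789914640) (nat_lit 15) (nat_lit 4) (nat_lit 16) (nat_lit 5) (nat_lit 16) (nat_lit 4) (nat_lit 508) (nat_lit 379) (nat_lit 313)) (XT.lf (nat_lit 0) (nat_lit 4656990946) (nat_lit 152) (nat_lit 96915273309) (nat_lit 0) (nat_lit 1183776302) (nat_lit 13) (nat_lit 5) (nat_lit 15) (nat_lit 4) (nat_lit 13) (nat_lit 4) (nat_lit 509) (nat_lit 379) (nat_lit 312)))) (XT.nd (nat_lit 156) (nat_lit 76) (nat_lit 0) (XT.nd (nat_lit 78) (nat_lit 0) (nat_lit 0) (XT.lf (nat_lit 0) (nat_lit 22191060387) (nat_lit 152) (nat_lit 66117371016) (nat_lit 0) (nat_lit 18711304272) (nat_lit 13) (nat_lit 5) (nat_lit 15) (nat_lit 4) (nat_lit 13)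 (nat_lit 4) (nat_lit 510) (nat_lit 379) (nat_lit 311)) (XT.lf (nat_lit 0) (nat_lit 40544272215) (nat_lit 152) (nat_lit 33896935320) (nat_lit 0) (nat_lit 37058286131) (nat_lit 13) (nat_lit 5) (nat_lit 15) (nat_lit 4) (nat_lit 13) (nat_lit 4) (nat_lit 511) (nat_lit 379) (nat_lit 310))) (XT.nd (nat_lit 78) (nat_lit 76) (nat_lit 0) (XT.lf (nat_lit 0) (nat_lit 59760324556) (nat_lit 152) (nat_lit 177250899) (nat_lit 0) (nat_lit 56268405166) (nat_lit 13) (nat_lit 5) (nat_lit 15) (nat_lit 4) (nat_lit 13) (nat_lit 4) (nat_lit 512) (nat_lit 379) (nat_lit 309)) (XT.lf (nat_lit 0) (nat_lit 36283258060) (nat_lit 76) (nat_lit 44168195197) (nat_lit 76) (nat_lit 40670625040) (nat_lit 12) (nat_lit 4) (nat_lit 13) (nat_lit 5) (nat_lit 13) (nat_lit 4) (nat_lit 513) (nat_lit 379) (nat_lit 308)))))) (XT.nd (nat_lit 624) (nat_lit 228) (nat_lit 0) (XT.nd (nat_lit 312) (nat_lit 76) (nat_lit 0) (XT.nd (nat_lit 156) (nat_lit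 152) (nat_lit 0) (XT.nd (nat_lit 78) (nat_lit 0) (nat_lit 0) (XT.lf (nat_lit 0) (nat_lit 74468212631) (nat_lit 76) (nat_lit 27660568979) (nat_lit 76) (nat_lit 24157617139) (nat_lit 12) (nat_lit 4) (nat_lit 13) (nat_lit 5) (nat_lit 13) (nat_lit 4) (nat_lit 514) (nat_lit 379) (nat_lit 307)) (XT.lf (nat_lit 0) (nat_lit 114462668655) (nat_lit 76) (nat_lit 10378394762) (nat_lit 76) (nat_lit 6870317509) (nat_lit 12) (nat_lit 4) (nat_lit 13) (nat_lit 5) (nat_lit 13) (nat_lit 4) (nat_lit 515) (nat_lit 379) (nat_lit 306))) (XT.nd (nat_lit 78) (nat_lit 0) (nat_lit 0) (XT.lf (nat_lit 0) (nat_lit 11304135736) (nat_lit 152) (nat_lit 118117015859) (nat_lit 0) (nat_lit 7958460881) (nat_lit 10) (nat_lit 5) (nat_lit 12) (nat_lit 4) (nat_lit 10) (nat_lit 4) (nat_lit 516) (nat_lit 379) (nat_lit 305)) (XT.lf (nat_lit 0) (nat_lit 30576133367) (nat_lit 152) (nat_lit 85502474416) (nat_lit 0) (nat_lit 27226030988) (nat_lit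 10) (nat_lit 5) (nat_lit 12) (nat_lit 4) (nat_lit 10) (nat_lit 4) (nat_lit 517) (nat_lit 379) (nat_lit 304)))) (XT.nd (nat_lit 156) (nat_lit 76) (nat_lit 0) (XT.nd (nat_lit 78) (nat_lit 0) (nat_lit 0) (XT.lf (nat_lit 0) (nat_lit 50766652554) (nat_lit 152) (nat_lit 51349184300) (nat_lit 0) (nat_lit 47412333486) (nat_lit 10) (nat_lit 5) (nat_lit 12) (nat_lit 4) (nat_lit 10) (nat_lit 4) (nat_lit 518) (nat_lit 379) (nat_lit 303)) (XT.lf (nat_lit 0) (nat_lit 71923765962) (nat_lit 152) (nat_lit 15575828154) (nat_lit 0) (nat_lit 68565430999) (nat_lit 10) (nat_lit 5) (nat_lit 12) (nat_lit 4) (nat_lit 10) (nat_lit 4) (nat_lit 519) (nat_lit 379) (nat_lit 302))) (XT.nd (nat_lit 78) (nat_lit 0) (nat_lit 0) (XT.lf (nat_lit 0) (nat_lit 22626973128) (nat_lit 76) (nat_lit 71824145005) (nat_lit 76) (nat_lit 68461985380) (nat_lit 9) (nat_lit 4) (nat_lit 10) (nat_lit 5) (nat_lit 10) (nat_lit 4) (nat_lit 520) (nat_lit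 379) (nat_lit 301)) (XT.lf (nat_lit 0) (nat_lit 63198590537) (nat_lit 76) (nat_lit 55129809688) (nat_lit 76) (nat_lit 51764007529) (nat_lit 9) (nat_lit 4) (nat_lit 10) (nat_lit 5) (nat_lit 10) (nat_lit 4) (nat_lit 521) (nat_lit 379) (nat_lit 300))))) (XT.nd (nat_lit 312) (nat_lit 76) (nat_lit 0) (XT.nd (nat_lit 156) (nat_lit 152) (nat_lit 0) (XT.nd (nat_lit 78) (nat_lit 0) (nat_lit 0) (XT.lf (nat_lit 0) (nat_lit 105720615939) (nat_lit 76) (nat_lit 37640623935) (nat_lit 76) (nat_lit 34271352695) (nat_lit 9) (nat_lit 4) (nat_lit 10) (nat_lit 5) (nat_lit 10) (nat_lit 4) (nat_lit 522) (nat_lit 379) (nat_lit 299)) (XT.lf (nat_lit 0) (nat_lit 150294292252) (nat_lit 76) (nat_lit 19314946827) (nat_lit 76) (nat_lit 15942371701) (nat_lit 9) (nat_lit 4) (nat_lit 10) (nat_lit 5) (nat_lit 10) (nat_lit 4) (nat_lit 523) (nat_lit 379) (nat_lit 298))) (XT.nd (nat_lit 78) (nat_lit 0) (nat_lit 0) (XT.lf (nat_lit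 0) (nat_lit 3209142273) (nat_lit 76) (nat_lit 2986486) (nat_lit 152) (nat_lit 190651133229) (nat_lit 7) (nat_lit 5) (nat_lit 8) (nat_lit 5) (nat_lit 9) (nat_lit 4) (nat_lit 524) (nat_lit 379) (nat_lit 297)) (XT.lf (nat_lit 0) (nat_lit 23676712210) (nat_lit 152) (nat_lit 158397424592) (nat_lit 0) (nat_lit 20458885156) (nat_lit 7) (nat_lit 5) (nat_lit 9) (nat_lit 4) (nat_lit 7) (nat_lit 4) (nat_lit 525) (nat_lit 379) (nat_lit 296)))) (XT.nd (nat_lit 156) (nat_lit 76) (nat_lit 0) (XT.nd (nat_lit 78) (nat_lit 0) (nat_lit 0) (XT.lf (nat_lit 0) (nat_lit 45130950020) (nat_lit 152) (nat_lit 124596593824) (nat_lit 0) (nat_lit 41910404850) (nat_lit 7) (nat_lit 5) (nat_lit 9) (nat_lit 4) (nat_lit 7) (nat_lit 4) (nat_lit 526) (nat_lit 379) (nat_lit 295)) (XT.lf (nat_lit 0) (nat_lit 67625877081) (nat_lit 152) (nat_lit 89171102616) (nat_lit 0) (nat_lit 64402743229) (nat_lit 7) (nat_lit 5) (nat_lit 9) (nat_lit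 4) (nat_lit 7) (nat_lit 4) (nat_lit 527) (nat_lit 379) (nat_lit 294))) (XT.nd (nat_lit 78) (nat_lit 76) (nat_lit 0) (XT.lf (nat_lit 0) (nat_lit 91215052741) (nat_lit 152) (nat_lit 52036604562) (nat_lit 0) (nat_lit 87989453479) (nat_lit 7) (nat_lit 5) (nat_lit 9) (nat_lit 4) (nat_lit 7) (nat_lit 4) (nat_lit 528) (nat_lit 379) (nat_lit 293)) (XT.nd (nat_lit 78) (nat_lit 76) (nat_lit 0) (XT.lf (nat_lit 0) (nat_lit 115954641707) (nat_lit 152) (nat_lit 13104684189) (nat_lit 0) (nat_lit 112726694434) (nat_lit 7) (nat_lit 5) (nat_lit 9) (nat_lit 4) (nat_lit 7) (nat_lit 4) (nat_lit 529) (nat_lit 379) (nat_lit 292)) (XT.lf (nat_lit 0) (nat_lit 28633814434) (nat_lit 76) (nat_lit 113716787415) (nat_lit 76) (nat_lit 110486603942) (nat_lit 6) (nat_lit 4) (nat_lit 7) (nat_lit 5) (nat_lit 7) (nat_lit 4) (nat_lit 530) (nat_lit 379) (nat_lit 291))))))))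
noncomputable def xc103 : XT := (XT.nd (nat_lit 1248) (nat_lit 0) (nat_lit 0) (XT.nd (nat_lit 624) (nat_lit 76) (nat_lit 0) (XT.nd (nat_lit 312) (nat_lit 152) (nat_lit 0) (XT.nd (nat_lit 156) (nat_lit 0) (nat_lit 0) (XT.nd (nat_lit 78) (nat_lit 0) (nat_lit 0) (XT.lf (nat_lit 0) (nat_lit 72858635327) (nat_lit 76) (nat_lit 97402446167) (nat_lit 76) (nat_lit 94170132979) (nat_lit 6) (nat_lit 4) (nat_lit 7) (nat_lit 5) (nat_lit 7) (nat_lit 4) (nat_lit 531) (nat_lit 379) (nat_lit 290)) (XT.lf (nat_lit 0) (nat_lit 119241775641) (nat_lit 76) (nat_lit 80299392649) (nat_lit 76) (nat_lit 77065051161) (nat_lit 6) (nat_lit 4) (nat_lit 7) (nat_lit 5) (nat_lit 7) (nat_lit 4) (nat_lit 532) (nat_lit 379) (nat_lit 289))) (XT.nd (nat_lit 78) (nat_lit 0) (nat_lit 0) (XT.lf (nat_lit 0) (nat_lit 167893671424) (nat_lit 76) (nat_lit 62366905305) (nat_lit 76) (nat_lit 59130632104) (nat_lit 6) (nat_lit 4) (nat_lit 7) (nat_lit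 5) (nat_lit 7) (nat_lit 4) (nat_lit 533) (nat_lit 379) (nat_lit 288)) (XT.lf (nat_lit 0) (nat_lit 218930160522) (nat_lit 76) (nat_lit 43562287738) (nat_lit 76) (nat_lit 40324174809) (nat_lit 6) (nat_lit 4) (nat_lit 7) (nat_lit 5) (nat_lit 7) (nat_lit 4) (nat_lit 534) (nat_lit 379) (nat_lit 287)))) (XT.nd (nat_lit 156) (nat_lit 76) (nat_lit 0) (XT.nd (nat_lit 78) (nat_lit 76) (nat_lit 0) (XT.lf (nat_lit 0) (nat_lit 272472758387) (nat_lit 76) (nat_lit 23840767048) (nat_lit 76) (nat_lit 20600901997) (nat_lit 6) (nat_lit 4) (nat_lit 7) (nat_lit 5) (nat_lit 7) (nat_lit 4) (nat_lit 535) (nat_lit 379) (nat_lit 286)) (XT.lf (nat_lit 0) (nat_lit 83389278) (nat_lit 152) (nat_lit 3070585717) (nat_lit 76) (nat_lit 328564145877) (nat_lit 5) (nat_lit 5) (nat_lit 7) (nat_lit 5) (nat_lit 6) (nat_lit 4) (nat_lit 536) (nat_lit 379) (nat_lit 285))) (XT.nd (nat_lit 78) (nat_lit 0) (nat_lit 0) (XT.lf (nat_lit 0) (nat_lit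 22039576623) (nat_lit 152) (nat_lit 306208147960) (nat_lit 0) (nat_lit 18950888086) (nat_lit 4) (nat_lit 5) (nat_lit 6) (nat_lit 4) (nat_lit 4) (nat_lit 4) (nat_lit 537) (nat_lit 379) (nat_lit 284)) (XT.lf (nat_lit 0) (nat_lit 45177497729) (nat_lit 152) (nat_lit 276184067406) (nat_lit 0) (nat_lit 42087367718) (nat_lit 4) (nat_lit 5) (nat_lit 6) (nat_lit 4) (nat_lit 4) (nat_lit 4) (nat_lit 538) (nat_lit 379) (nat_lit 283))))) (XT.nd (nat_lit 312) (nat_lit 76) (nat_lit 0) (XT.nd (nat_lit 156) (nat_lit 0) (nat_lit 0) (XT.nd (nat_lit 78) (nat_lit 0) (nat_lit 0) (XT.lf (nat_lit 0) (nat_lit 69452663024) (nat_lit 152) (nat_lit 244698928449) (nat_lit 0) (nat_lit 66361160180) (nat_lit 4) (nat_lit 5) (nat_lit 6) (nat_lit 4) (nat_lit 4) (nat_lit 4) (nat_lit 539) (nat_lit 379) (nat_lit 282)) (XT.lf (nat_lit 0) (nat_lit 94922870521) (nat_lit 152) (nat_lit 211677766471) (nat_lit 0) (nat_lit 91830060216) (nat_lit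 4) (nat_lit 5) (nat_lit 6) (nat_lit 4) (nat_lit 4) (nat_lit 4) (nat_lit 540) (nat_lit 379) (nat_lit 281))) (XT.nd (nat_lit 78) (nat_lit 0) (nat_lit 0) (XT.lf (nat_lit 0) (nat_lit 121648763571) (nat_lit 152) (nat_lit 177041959660) (nat_lit 0) (nat_lit 118554708066) (nat_lit 4) (nat_lit 5) (nat_lit 6) (nat_lit 4) (nat_lit 4) (nat_lit 4) (nat_lit 541) (nat_lit 379) (nat_lit 280)) (XT.lf (nat_lit 0) (nat_lit 149693975252) (nat_lit 152) (nat_lit 140709041808) (nat_lit 0) (nat_lit 146598733842) (nat_lit 4) (nat_lit 5) (nat_lit 6) (nat_lit 4) (nat_lit 4) (nat_lit 4) (nat_lit 542) (nat_lit 379) (nat_lit 279)))) (XT.nd (nat_lit 156) (nat_lit 76) (nat_lit 0) (XT.nd (nat_lit 78) (nat_lit 0) (nat_lit 0) (XT.lf (nat_lit 0) (nat_lit 179125279878) (nat_lit 152) (nat_lit 102592505969) (nat_lit 0) (nat_lit 176028909035) (nat_lit 4) (nat_lit 5) (nat_lit 6) (nat_lit 4) (nat_lit 4) (nat_lit 4) (nat_lit 543) (nat_lit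 379) (nat_lit 278)) (XT.lf (nat_lit 0) (nat_lit 210012751984) (nat_lit 152) (nat_lit 62601598484) (nat_lit 0) (nat_lit 206915305490) (nat_lit 4) (nat_lit 5) (nat_lit 6) (nat_lit 4) (nat_lit 4) (nat_lit 4) (nat_lit 544) (nat_lit 379) (nat_lit 277))) (XT.nd (nat_lit 78) (nat_lit 76) (nat_lit 0) (XT.lf (nat_lit 0) (nat_lit 242429933170) (nat_lit 152) (nat_lit 20641102909) (nat_lit 0) (nat_lit 239331462247) (nat_lit 4) (nat_lit 5) (nat_lit 6) (nat_lit 4) (nat_lit 4) (nat_lit 4) (nat_lit 545) (nat_lit 379) (nat_lit 276)) (XT.lf (nat_lit 0) (nat_lit 24162228920) (nat_lit 76) (nat_lit 252669018388) (nat_lit 76) (nat_lit 249569571819) (nat_lit 3) (nat_lit 4) (nat_lit 4) (nat_lit 5) (nat_lit 4) (nat_lit 4) (nat_lit 546) (nat_lit 379) (nat_lit 275)))))) (XT.nd (nat_lit 624) (nat_lit 0) (nat_lit 0) (XT.nd (nat_lit 312) (nat_lit 0) (nat_lit 0) (XT.nd (nat_lit 156) (nat_lit 0) (nat_lit 0) (XT.nd (nat_lit 78)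 (nat_lit 0) (nat_lit 0) (XT.lf (nat_lit 0) (nat_lit 71894269253) (nat_lit 76) (nat_lit 241394185549) (nat_lit 76) (nat_lit 238293809793) (nat_lit 3) (nat_lit 4) (nat_lit 4) (nat_lit 5) (nat_lit 4) (nat_lit 4) (nat_lit 547) (nat_lit 379) (nat_lit 274)) (XT.lf (nat_lit 0) (nat_lit 121986177724) (nat_lit 76) (nat_lit 229569259789) (nat_lit 76) (nat_lit 226467999091) (nat_lit 3) (nat_lit 4) (nat_lit 4) (nat_lit 5) (nat_lit 4) (nat_lit 4) (nat_lit 548) (nat_lit 379) (nat_lit 273))) (XT.nd (nat_lit 78) (nat_lit 0) (nat_lit 0) (XT.lf (nat_lit 0) (nat_lit 174557220782) (nat_lit 76) (nat_lit 217166086520) (nat_lit 76) (nat_lit 214063983023) (nat_lit 3) (nat_lit 4) (nat_lit 4) (nat_lit 5) (nat_lit 4) (nat_lit 4) (nat_lit 549) (nat_lit 379) (nat_lit 272)) (XT.lf (nat_lit 0) (nat_lit 229732567577) (nat_lit 76) (nat_lit 204155134380) (nat_lit 76) (nat_lit 201052228215) (nat_lit 3) (nat_lit 4) (nat_lit 4) (nat_lit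 5) (nat_lit 4) (nat_lit 4) (nat_lit 550) (nat_lit 379) (nat_lit 271)))) (XT.nd (nat_lit 156) (nat_lit 0) (nat_lit 0) (XT.nd (nat_lit 78) (nat_lit 0) (nat_lit 0) (XT.lf (nat_lit 0) (nat_lit 287643587982) (nat_lit 76) (nat_lit 190505424909) (nat_lit 76) (nat_lit 187401754300) (nat_lit 3) (nat_lit 4) (nat_lit 4) (nat_lit 5) (nat_lit 4) (nat_lit 4) (nat_lit 551) (nat_lit 379) (nat_lit 270)) (XT.lf (nat_lit 0) (nat_lit 348428165379) (nat_lit 76) (nat_lit 176184458801) (nat_lit 76) (nat_lit 173080060148) (nat_lit 3) (nat_lit 4) (nat_lit 4) (nat_lit 5) (nat_lit 4) (nat_lit 4) (nat_lit 552) (nat_lit 379) (nat_lit 269))) (XT.nd (nat_lit 78) (nat_lit 0) (nat_lit 0) (XT.lf (nat_lit 0) (nat_lit 412231024953) (nat_lit 76) (nat_lit 161158138515) (nat_lit 76) (nat_lit 158053046489) (nat_lit 3) (nat_lit 4) (nat_lit 4) (nat_lit 5) (nat_lit 4) (nat_lit 4) (nat_lit 553) (nat_lit 379) (nat_lit 268)) (XT.lf (nat_lit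 0) (nat_lit 479204078273) (nat_lit 76) (nat_lit 145390687101) (nat_lit 76) (nat_lit 142284934718) (nat_lit 3) (nat_lit 4) (nat_lit 4) (nat_lit 5) (nat_lit 4) (nat_lit 4) (nat_lit 554) (nat_lit 379) (nat_lit 267))))) (XT.nd (nat_lit 53664) (nat_lit 0) (nat_lit 5472) (XT.nd (nat_lit 53508) (nat_lit 0) (nat_lit 6232) (XT.nd (nat_lit 78) (nat_lit 0) (nat_lit 0) (XT.lf (nat_lit 0) (nat_lit 549506784991) (nat_lit 76) (nat_lit 128844563006) (nat_lit 76) (nat_lit 125738181713) (nat_lit 3) (nat_lit 4) (nat_lit 4) (nat_lit 5) (nat_lit 4) (nat_lit 4) (nat_lit 555) (nat_lit 379) (nat_lit 266)) (XT.lf (nat_lit 0) (nat_lit 623306532504) (nat_lit 76) (nat_lit 111480370697) (nat_lit 76) (nat_lit 108373390441) (nat_lit 3) (nat_lit 4) (nat_lit 4) (nat_lit 5) (nat_lit 4) (nat_lit 4) (nat_lit 556) (nat_lit 379) (nat_lit 265))) (XT.nd (nat_lit 78) (nat_lit 152) (nat_lit 0) (XT.lf (nat_lit 0) (nat_lit 2761896024) (nat_lit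 228) (nat_lit 79045869) (nat_lit 0) (nat_lit 2761896024) (nat_lit 87) (nat_lit 5) (nat_lit 90) (nat_lit 4) (nat_lit 87) (nat_lit 4) (nat_lit 440) (nat_lit 380) (nat_lit 380)) (XT.lf (nat_lit 0) (nat_lit 10526906823) (nat_lit 152) (nat_lit 745328217) (nat_lit 152) (nat_lit 190828260) (nat_lit 85) (nat_lit 4) (nat_lit 87) (nat_lit 5) (nat_lit 87) (nat_lit 4) (nat_lit 441) (nat_lit 380) (nat_lit 379)))) (XT.nd (nat_lit 156) (nat_lit 456) (nat_lit 0) (XT.nd (nat_lit 78) (nat_lit 152) (nat_lit 0) (XT.lf (nat_lit 0) (nat_lit 5430811720) (nat_lit 152) (nat_lit 1896670001) (nat_lit 0) (nat_lit 4399768717) (nat_lit 83) (nat_lit 5) (nat_lit 85) (nat_lit 4) (nat_lit 83) (nat_lit 4) (nat_lit 442) (nat_lit 380) (nat_lit 378)) (XT.lf (nat_lit 0) (nat_lit 9094822717) (nat_lit 152) (nat_lit 2210404161) (nat_lit 152) (nat_lit 700363247) (nat_lit 81) (nat_lit 4) (nat_lit 83) (nat_lit 5) (nat_lit 83) (nat_lit 4)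 (nat_lit 443) (nat_lit 380) (nat_lit 377))) (XT.nd (nat_lit 78) (nat_lit 304) (nat_lit 0) (XT.lf (nat_lit 0) (nat_lit 5030675726) (nat_lit 152) (nat_lit 4104018599) (nat_lit 0) (nat_lit 3158076297) (nat_lit 79) (nat_lit 5) (nat_lit 81) (nat_lit 4) (nat_lit 79) (nat_lit 4) (nat_lit 444) (nat_lit 380) (nat_lit 376)) (XT.nd (nat_lit 78) (nat_lit 152) (nat_lit 0) (XT.lf (nat_lit 0) (nat_lit 7186790317) (nat_lit 152) (nat_lit 3846450157) (nat_lit 152) (nat_lit 1560074323) (nat_lit 77) (nat_lit 4) (nat_lit 79) (nat_lit 5) (nat_lit 79) (nat_lit 4) (nat_lit 445) (nat_lit 380) (nat_lit 375)) (XT.lf (nat_lit 0) (nat_lit 4289160349) (nat_lit 152) (nat_lit 6879731290) (nat_lit 0) (nat_lit 1736352158) (nat_lit 75) (nat_lit 5) (nat_lit 77) (nat_lit 4) (nat_lit 75) (nat_lit 4) (nat_lit 446) (nat_lit 380) (nat_lit 374))))))))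
noncomputable def xc104 : XT := (XT.nd (nat_lit 1248) (nat_lit 1292) (nat_lit 0) (XT.nd (nat_lit 624) (nat_lit 684) (nat_lit 0) (XT.nd (nat_lit 312) (nat_lit 380) (nat_lit 0) (XT.nd (nat_lit 156) (nat_lit 228) (nat_lit 0) (XT.nd (nat_lit 78) (nat_lit 152) (nat_lit 0) (XT.lf (nat_lit 0) (nat_lit 4699891256) (nat_lit 152) (nat_lit 5719889543) (nat_lit 152) (nat_lit 2809645736) (nat_lit 73) (nat_lit 4) (nat_lit 75) (nat_lit 5) (nat_lit 75) (nat_lit 4) (nat_lit 447) (nat_lit 380) (nat_lit 373)) (XT.lf (nat_lit 0) (nat_lit 3164346613) (nat_lit 152) (nat_lit 10335305826) (nat_lit 0) (nat_lit 68481204) (nat_lit 71) (nat_lit 5) (nat_lit 73) (nat_lit 4) (nat_lit 71) (nat_lit 4) (nat_lit 448) (nat_lit 380) (nat_lit 372))) (XT.nd (nat_lit 78) (nat_lit 76) (nat_lit 0) (XT.lf (nat_lit 0) (nat_lit 1518582633) (nat_lit 152) (nat_lit 7901818080) (nat_lit 152) (nat_lit 4497186347) (nat_lit 69) (nat_lit 4) (nat_lit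 71) (nat_lit 5) (nat_lit 71) (nat_lit 4) (nat_lit 449) (nat_lit 380) (nat_lit 371)) (XT.lf (nat_lit 0) (nat_lit 1642062628) (nat_lit 228) (nat_lit 332466509) (nat_lit 76) (nat_lit 12309062060) (nat_lit 68) (nat_lit 5) (nat_lit 71) (nat_lit 5) (nat_lit 69) (nat_lit 4) (nat_lit 450) (nat_lit 380) (nat_lit 370)))) (XT.nd (nat_lit 156) (nat_lit 228) (nat_lit 0) (XT.nd (nat_lit 78) (nat_lit 76) (nat_lit 0) (XT.lf (nat_lit 0) (nat_lit 8020628967) (nat_lit 152) (nat_lit 2408070171) (nat_lit 0) (nat_lit 4231338437) (nat_lit 67) (nat_lit 5) (nat_lit 69) (nat_lit 4) (nat_lit 67) (nat_lit 4) (nat_lit 451) (nat_lit 380) (nat_lit 369)) (XT.lf (nat_lit 0) (nat_lit 10386762964) (nat_lit 76) (nat_lit 4355330390) (nat_lit 76) (nat_lit 312017040) (nat_lit 66) (nat_lit 4) (nat_lit 67) (nat_lit 5) (nat_lit 67) (nat_lit 4) (nat_lit 452) (nat_lit 380) (nat_lit 368))) (XT.nd (nat_lit 78) (nat_lit 76) (nat_lit 0) (XT.lf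 (nat_lit 0) (nat_lit 6157232625) (nat_lit 152) (nat_lit 7228254770) (nat_lit 0) (nat_lit 2076051822) (nat_lit 64) (nat_lit 5) (nat_lit 66) (nat_lit 4) (nat_lit 64) (nat_lit 4) (nat_lit 453) (nat_lit 380) (nat_lit 367)) (XT.lf (nat_lit 0) (nat_lit 5827791940) (nat_lit 76) (nat_lit 7179264713) (nat_lit 76) (nat_lit 2878649447) (nat_lit 63) (nat_lit 4) (nat_lit 64) (nat_lit 5) (nat_lit 64) (nat_lit 4) (nat_lit 454) (nat_lit 380) (nat_lit 366))))) (XT.nd (nat_lit 312) (nat_lit 304) (nat_lit 0) (XT.nd (nat_lit 156) (nat_lit 152) (nat_lit 0) (XT.nd (nat_lit 78) (nat_lit 76) (nat_lit 0) (XT.lf (nat_lit 0) (nat_lit 3164637831) (nat_lit 76) (nat_lit 578893046) (nat_lit 152) (nat_lit 12584580265) (nat_lit 61) (nat_lit 5) (nat_lit 62) (nat_lit 5) (nat_lit 63) (nat_lit 4) (nat_lit 455) (nat_lit 380) (nat_lit 365)) (XT.lf (nat_lit 0) (nat_lit 130894601) (nat_lit 76) (nat_lit 10569393545) (nat_lit 76) (nat_lit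 6084980218) (nat_lit 60) (nat_lit 4) (nat_lit 61) (nat_lit 5) (nat_lit 61) (nat_lit 4) (nat_lit 456) (nat_lit 380) (nat_lit 364))) (XT.nd (nat_lit 78) (nat_lit 76) (nat_lit 0) (XT.lf (nat_lit 0) (nat_lit 778177056) (nat_lit 152) (nat_lit 3069679635) (nat_lit 76) (nat_lit 13413738711) (nat_lit 59) (nat_lit 5) (nat_lit 61) (nat_lit 5) (nat_lit 60) (nat_lit 4) (nat_lit 457) (nat_lit 380) (nat_lit 363)) (XT.lf (nat_lit 0) (nat_lit 7840361205) (nat_lit 152) (nat_lit 6679560016) (nat_lit 0) (nat_lit 3233813354) (nat_lit 58) (nat_lit 5) (nat_lit 60) (nat_lit 4) (nat_lit 58) (nat_lit 4) (nat_lit 458) (nat_lit 380) (nat_lit 362)))) (XT.nd (nat_lit 156) (nat_lit 76) (nat_lit 0) (XT.nd (nat_lit 78) (nat_lit 152) (nat_lit 0) (XT.lf (nat_lit 0) (nat_lit 7621631302) (nat_lit 76) (nat_lit 7703925852) (nat_lit 76) (nat_lit 2941430025) (nat_lit 57) (nat_lit 4) (nat_lit 58) (nat_lit 5) (nat_lit 58) (nat_lit 4) (nat_lit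 459) (nat_lit 380) (nat_lit 361)) (XT.lf (nat_lit 0) (nat_lit 3798340968) (nat_lit 76) (nat_lit 450126678) (nat_lit 152) (nat_lit 14553541911) (nat_lit 55) (nat_lit 5) (nat_lit 56) (nat_lit 5) (nat_lit 57) (nat_lit 4) (nat_lit 460) (nat_lit 380) (nat_lit 360))) (XT.nd (nat_lit 78) (nat_lit 76) (nat_lit 0) (XT.lf (nat_lit 0) (nat_lit 11829836910) (nat_lit 152) (nat_lit 507031654) (nat_lit 0) (nat_lit 7017963464) (nat_lit 55) (nat_lit 5) (nat_lit 57) (nat_lit 4) (nat_lit 55) (nat_lit 4) (nat_lit 461) (nat_lit 380) (nat_lit 359)) (XT.lf (nat_lit 0) (nat_lit 14875543980) (nat_lit 76) (nat_lit 4997883769) (nat_lit 76) (nat_lit 57711537) (nat_lit 54) (nat_lit 4) (nat_lit 55) (nat_lit 5) (nat_lit 55) (nat_lit 4) (nat_lit 462) (nat_lit 380) (nat_lit 358)))))) (XT.nd (nat_lit 624) (nat_lit 608) (nat_lit 0) (XT.nd (nat_lit 312) (nat_lit 304) (nat_lit 0) (XT.nd (nat_lit 156) (nat_lit 152) (nat_lit 0) (XT.nd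 (nat_lit 78) (nat_lit 76) (nat_lit 0) (XT.lf (nat_lit 0) (nat_lit 7593577725) (nat_lit 152) (nat_lit 10161341493) (nat_lit 0) (nat_lit 2772281010) (nat_lit 52) (nat_lit 5) (nat_lit 54) (nat_lit 4) (nat_lit 52) (nat_lit 4) (nat_lit 463) (nat_lit 380) (nat_lit 357)) (XT.lf (nat_lit 0) (nat_lit 5364316726) (nat_lit 76) (nat_lit 10357993227) (nat_lit 76) (nat_lit 5425867198) (nat_lit 51) (nat_lit 4) (nat_lit 52) (nat_lit 5) (nat_lit 52) (nat_lit 4) (nat_lit 464) (nat_lit 380) (nat_lit 356))) (XT.nd (nat_lit 78) (nat_lit 76) (nat_lit 0) (XT.lf (nat_lit 0) (nat_lit 2397823237) (nat_lit 152) (nat_lit 122140120) (nat_lit 76) (nat_lit 19277362572) (nat_lit 50) (nat_lit 5) (nat_lit 52) (nat_lit 5) (nat_lit 51) (nat_lit 4) (nat_lit 465) (nat_lit 380) (nat_lit 355)) (XT.lf (nat_lit 0) (nat_lit 10631703762) (nat_lit 152) (nat_lit 6094537531) (nat_lit 0) (nat_lit 5738176892) (nat_lit 49) (nat_lit 5) (nat_lit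 51) (nat_lit 4) (nat_lit 49) (nat_lit 4) (nat_lit 466) (nat_lit 380) (nat_lit 354)))) (XT.nd (nat_lit 156) (nat_lit 76) (nat_lit 0) (XT.nd (nat_lit 78) (nat_lit 152) (nat_lit 0) (XT.lf (nat_lit 0) (nat_lit 10527562362) (nat_lit 76) (nat_lit 8809510169) (nat_lit 76) (nat_lit 3824803748) (nat_lit 48) (nat_lit 4) (nat_lit 49) (nat_lit 5) (nat_lit 49) (nat_lit 4) (nat_lit 467) (nat_lit 380) (nat_lit 353)) (XT.lf (nat_lit 0) (nat_lit 4066025464) (nat_lit 76) (nat_lit 391325537) (nat_lit 152) (nat_lit 19432251601) (nat_lit 46) (nat_lit 5) (nat_lit 47) (nat_lit 5) (nat_lit 48) (nat_lit 4) (nat_lit 468) (nat_lit 380) (nat_lit 352))) (XT.nd (nat_lit 78) (nat_lit 76) (nat_lit 0) (XT.lf (nat_lit 0) (nat_lit 13226876771) (nat_lit 152) (nat_lit 3095543647) (nat_lit 0) (nat_lit 8318070457) (nat_lit 46) (nat_lit 5) (nat_lit 48) (nat_lit 4) (nat_lit 46) (nat_lit 4) (nat_lit 469) (nat_lit 380) (nat_lit 351)) (XT.lf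 (nat_lit 0) (nat_lit 14650979403) (nat_lit 76) (nat_lit 7878517005) (nat_lit 76) (nat_lit 2894697048) (nat_lit 45) (nat_lit 4) (nat_lit 46) (nat_lit 5) (nat_lit 46) (nat_lit 4) (nat_lit 470) (nat_lit 380) (nat_lit 350))))) (XT.nd (nat_lit 312) (nat_lit 228) (nat_lit 0) (XT.nd (nat_lit 156) (nat_lit 228) (nat_lit 0) (XT.nd (nat_lit 78) (nat_lit 0) (nat_lit 0) (XT.lf (nat_lit 0) (nat_lit 5896054937) (nat_lit 152) (nat_lit 19262807161) (nat_lit 0) (nat_lit 1081520155) (nat_lit 43) (nat_lit 5) (nat_lit 45) (nat_lit 4) (nat_lit 43) (nat_lit 4) (nat_lit 471) (nat_lit 380) (nat_lit 349)) (XT.lf (nat_lit 0) (nat_lit 15203462398) (nat_lit 152) (nat_lit 1558698110) (nat_lit 0) (nat_lit 10324128012) (nat_lit 43) (nat_lit 5) (nat_lit 45) (nat_lit 4) (nat_lit 43) (nat_lit 4) (nat_lit 472) (nat_lit 380) (nat_lit 348))) (XT.nd (nat_lit 78) (nat_lit 152) (nat_lit 0) (XT.lf (nat_lit 0) (nat_lit 17317489525) (nat_lit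 76) (nat_lit 7795603435) (nat_lit 76) (nat_lit 2854555139) (nat_lit 42) (nat_lit 4) (nat_lit 43) (nat_lit 5) (nat_lit 43) (nat_lit 4) (nat_lit 473) (nat_lit 380) (nat_lit 347)) (XT.lf (nat_lit 0) (nat_lit 6461789216) (nat_lit 152) (nat_lit 20723627309) (nat_lit 0) (nat_lit 1700052599) (nat_lit 40) (nat_lit 5) (nat_lit 42) (nat_lit 4) (nat_lit 40) (nat_lit 4) (nat_lit 474) (nat_lit 380) (nat_lit 346)))) (XT.nd (nat_lit 156) (nat_lit 152) (nat_lit 0) (XT.nd (nat_lit 78) (nat_lit 76) (nat_lit 0) (XT.lf (nat_lit 0) (nat_lit 16325898186) (nat_lit 152) (nat_lit 2001199029) (nat_lit 0) (nat_lit 11510850774) (nat_lit 40) (nat_lit 5) (nat_lit 42) (nat_lit 4) (nat_lit 40) (nat_lit 4) (nat_lit 475) (nat_lit 380) (nat_lit 345)) (XT.lf (nat_lit 0) (nat_lit 17977821595) (nat_lit 76) (nat_lit 8859179939) (nat_lit 76) (nat_lit 3993360341) (nat_lit 39) (nat_lit 4) (nat_lit 40) (nat_lit 5) (nat_lit 40) (nat_lit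 4) (nat_lit 476) (nat_lit 380) (nat_lit 344))) (XT.nd (nat_lit 78) (nat_lit 0) (nat_lit 0) (XT.lf (nat_lit 0) (nat_lit 5845374706) (nat_lit 152) (nat_lit 24855319009) (nat_lit 0) (nat_lit 1165208933) (nat_lit 37) (nat_lit 5) (nat_lit 39) (nat_lit 4) (nat_lit 37) (nat_lit 4) (nat_lit 477) (nat_lit 380) (nat_lit 343)) (XT.lf (nat_lit 0) (nat_lit 16281644714) (nat_lit 152) (nat_lit 5098692869) (nat_lit 0) (nat_lit 11557620018) (nat_lit 37) (nat_lit 5) (nat_lit 39) (nat_lit 4) (nat_lit 37) (nat_lit 4) (nat_lit 478) (nat_lit 380) (nat_lit 342)))))))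
noncomputable def xc105 : XT := (XT.nd (nat_lit 1248) (nat_lit 836) (nat_lit 0) (XT.nd (nat_lit 624) (nat_lit 456) (nat_lit 0) (XT.nd (nat_lit 312) (nat_lit 228) (nat_lit 0) (XT.nd (nat_lit 156) (nat_lit 76) (nat_lit 0) (XT.nd (nat_lit 78) (nat_lit 152) (nat_lit 0) (XT.lf (nat_lit 0) (nat_lit 15912034879) (nat_lit 76) (nat_lit 11455492984) (nat_lit 76) (nat_lit 6689697886) (nat_lit 36) (nat_lit 4) (nat_lit 37) (nat_lit 5) (nat_lit 37) (nat_lit 4) (nat_lit 479) (nat_lit 380) (nat_lit 341)) (XT.lf (nat_lit 0) (nat_lit 2705322280) (nat_lit 76) (nat_lit 958530751) (nat_lit 152) (nat_lit 31565185719) (nat_lit 34) (nat_lit 5) (nat_lit 35) (nat_lit 5) (nat_lit 36) (nat_lit 4) (nat_lit 480) (nat_lit 380) (nat_lit 340))) (XT.nd (nat_lit 78) (nat_lit 76) (nat_lit 0) (XT.lf (nat_lit 0) (nat_lit 14659273949) (nat_lit 152) (nat_lit 11730783312) (nat_lit 0) (nat_lit 10046451642) (nat_lit 34) (nat_lit 5) (nat_lit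 36) (nat_lit 4) (nat_lit 34) (nat_lit 4) (nat_lit 481) (nat_lit 380) (nat_lit 339)) (XT.lf (nat_lit 0) (nat_lit 10180290919) (nat_lit 76) (nat_lit 16084125693) (nat_lit 76) (nat_lit 11436938772) (nat_lit 33) (nat_lit 4) (nat_lit 34) (nat_lit 5) (nat_lit 34) (nat_lit 4) (nat_lit 482) (nat_lit 380) (nat_lit 338)))) (XT.nd (nat_lit 156) (nat_lit 76) (nat_lit 0) (XT.nd (nat_lit 78) (nat_lit 152) (nat_lit 0) (XT.lf (nat_lit 0) (nat_lit 33366296205) (nat_lit 76) (nat_lit 5169385100) (nat_lit 76) (nat_lit 489469975) (nat_lit 33) (nat_lit 4) (nat_lit 34) (nat_lit 5) (nat_lit 34) (nat_lit 4) (nat_lit 483) (nat_lit 380) (nat_lit 337)) (XT.lf (nat_lit 0) (nat_lit 10920352935) (nat_lit 152) (nat_lit 23039226573) (nat_lit 0) (nat_lit 6433605467) (nat_lit 31) (nat_lit 5) (nat_lit 33) (nat_lit 4) (nat_lit 31) (nat_lit 4) (nat_lit 484) (nat_lit 380) (nat_lit 336))) (XT.nd (nat_lit 78) (nat_lit 76) (nat_lit 0)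 (XT.lf (nat_lit 0) (nat_lit 22957273969) (nat_lit 152) (nat_lit 426038006) (nat_lit 0) (nat_lit 18442254647) (nat_lit 31) (nat_lit 5) (nat_lit 33) (nat_lit 4) (nat_lit 31) (nat_lit 4) (nat_lit 485) (nat_lit 380) (nat_lit 335)) (XT.lf (nat_lit 0) (nat_lit 23871617045) (nat_lit 76) (nat_lit 11993227648) (nat_lit 76) (nat_lit 7451282753) (nat_lit 30) (nat_lit 4) (nat_lit 31) (nat_lit 5) (nat_lit 31) (nat_lit 4) (nat_lit 486) (nat_lit 380) (nat_lit 334))))) (XT.nd (nat_lit 312) (nat_lit 228) (nat_lit 0) (XT.nd (nat_lit 156) (nat_lit 76) (nat_lit 0) (XT.nd (nat_lit 78) (nat_lit 0) (nat_lit 0) (XT.lf (nat_lit 0) (nat_lit 4363407339) (nat_lit 152) (nat_lit 40502343119) (nat_lit 0) (nat_lit 13323244) (nat_lit 28) (nat_lit 5) (nat_lit 30) (nat_lit 4) (nat_lit 28) (nat_lit 4) (nat_lit 487) (nat_lit 380) (nat_lit 333)) (XT.lf (nat_lit 0) (nat_lit 16945954600) (nat_lit 152) (nat_lit 16974117387) (nat_lit 0)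 (nat_lit 12572611182) (nat_lit 28) (nat_lit 5) (nat_lit 30) (nat_lit 4) (nat_lit 28) (nat_lit 4) (nat_lit 488) (nat_lit 380) (nat_lit 332))) (XT.nd (nat_lit 78) (nat_lit 0) (nat_lit 0) (XT.lf (nat_lit 0) (nat_lit 7779160909) (nat_lit 76) (nat_lit 22401088293) (nat_lit 76) (nat_lit 18005593138) (nat_lit 27) (nat_lit 4) (nat_lit 28) (nat_lit 5) (nat_lit 28) (nat_lit 4) (nat_lit 489) (nat_lit 380) (nat_lit 331)) (XT.lf (nat_lit 0) (nat_lit 34162296993) (nat_lit 76) (nat_lit 10104220886) (nat_lit 76) (nat_lit 5687628839) (nat_lit 27) (nat_lit 4) (nat_lit 28) (nat_lit 5) (nat_lit 28) (nat_lit 4) (nat_lit 490) (nat_lit 380) (nat_lit 330)))) (XT.nd (nat_lit 156) (nat_lit 76) (nat_lit 0) (XT.nd (nat_lit 78) (nat_lit 0) (nat_lit 0) (XT.lf (nat_lit 0) (nat_lit 7124223495) (nat_lit 152) (nat_lit 41776680737) (nat_lit 0) (nat_lit 2898809852) (nat_lit 25) (nat_lit 5) (nat_lit 27) (nat_lit 4) (nat_lit 25) (nat_lit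 4) (nat_lit 491) (nat_lit 380) (nat_lit 329)) (XT.lf (nat_lit 0) (nat_lit 20728964923) (nat_lit 152) (nat_lit 16501434194) (nat_lit 0) (nat_lit 16485326991) (nat_lit 25) (nat_lit 5) (nat_lit 27) (nat_lit 4) (nat_lit 25) (nat_lit 4) (nat_lit 492) (nat_lit 380) (nat_lit 328))) (XT.nd (nat_lit 78) (nat_lit 0) (nat_lit 0) (XT.lf (nat_lit 0) (nat_lit 10181643857) (nat_lit 76) (nat_lit 24901709478) (nat_lit 76) (nat_lit 20640715082) (nat_lit 24) (nat_lit 4) (nat_lit 25) (nat_lit 5) (nat_lit 25) (nat_lit 4) (nat_lit 493) (nat_lit 380) (nat_lit 327)) (XT.lf (nat_lit 0) (nat_lit 38592893711) (nat_lit 76) (nat_lit 11753944896) (nat_lit 76) (nat_lit 7476420533) (nat_lit 24) (nat_lit 4) (nat_lit 25) (nat_lit 5) (nat_lit 25) (nat_lit 4) (nat_lit 494) (nat_lit 380) (nat_lit 326)))))) (XT.nd (nat_lit 624) (nat_lit 380) (nat_lit 0) (XT.nd (nat_lit 312) (nat_lit 228) (nat_lit 0) (XT.nd (nat_lit 156) (nat_lit 76)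 (nat_lit 0) (XT.nd (nat_lit 78) (nat_lit 0) (nat_lit 0) (XT.lf (nat_lit 0) (nat_lit 6223185150) (nat_lit 152) (nat_lit 51660900592) (nat_lit 0) (nat_lit 2134359256) (nat_lit 22) (nat_lit 5) (nat_lit 24) (nat_lit 4) (nat_lit 22) (nat_lit 4) (nat_lit 495) (nat_lit 380) (nat_lit 325)) (XT.lf (nat_lit 0) (nat_lit 20795002351) (nat_lit 152) (nat_lit 24808438081) (nat_lit 0) (nat_lit 16691897249) (nat_lit 22) (nat_lit 5) (nat_lit 24) (nat_lit 4) (nat_lit 22) (nat_lit 4) (nat_lit 496) (nat_lit 380) (nat_lit 324))) (XT.nd (nat_lit 78) (nat_lit 0) (nat_lit 0) (XT.lf (nat_lit 0) (nat_lit 3328193902) (nat_lit 76) (nat_lit 32738022639) (nat_lit 76) (nat_lit 28621318293) (nat_lit 21) (nat_lit 4) (nat_lit 22) (nat_lit 5) (nat_lit 22) (nat_lit 4) (nat_lit 497) (nat_lit 380) (nat_lit 323)) (XT.lf (nat_lit 0) (nat_lit 33570634709) (nat_lit 76) (nat_lit 18870673713) (nat_lit 76) (nat_lit 14741017705) (nat_lit 21)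 (nat_lit 4) (nat_lit 22) (nat_lit 5) (nat_lit 22) (nat_lit 4) (nat_lit 498) (nat_lit 380) (nat_lit 322)))) (XT.nd (nat_lit 156) (nat_lit 76) (nat_lit 0) (XT.nd (nat_lit 78) (nat_lit 152) (nat_lit 0) (XT.lf (nat_lit 0) (nat_lit 65170611148) (nat_lit 76) (nat_lit 4388519061) (nat_lit 76) (nat_lit 246528137) (nat_lit 21) (nat_lit 4) (nat_lit 22) (nat_lit 5) (nat_lit 22) (nat_lit 4) (nat_lit 499) (nat_lit 380) (nat_lit 321)) (XT.lf (nat_lit 0) (nat_lit 15007923087) (nat_lit 152) (nat_lit 46462841398) (nat_lit 0) (nat_lit 11051981695) (nat_lit 19) (nat_lit 5) (nat_lit 21) (nat_lit 4) (nat_lit 19) (nat_lit 4) (nat_lit 500) (nat_lit 380) (nat_lit 320))) (XT.nd (nat_lit 78) (nat_lit 76) (nat_lit 0) (XT.lf (nat_lit 0) (nat_lit 31094983611) (nat_lit 152) (nat_lit 17148207392) (nat_lit 0) (nat_lit 27128386855) (nat_lit 19) (nat_lit 5) (nat_lit 21) (nat_lit 4) (nat_lit 19) (nat_lit 4) (nat_lit 501) (nat_lit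 380) (nat_lit 319)) (XT.lf (nat_lit 0) (nat_lit 13935618125) (nat_lit 76) (nat_lit 34198300865) (nat_lit 76) (nat_lit 30221556143) (nat_lit 18) (nat_lit 4) (nat_lit 19) (nat_lit 5) (nat_lit 19) (nat_lit 4) (nat_lit 502) (nat_lit 380) (nat_lit 318))))) (XT.nd (nat_lit 312) (nat_lit 228) (nat_lit 0) (XT.nd (nat_lit 156) (nat_lit 76) (nat_lit 0) (XT.nd (nat_lit 78) (nat_lit 76) (nat_lit 0) (XT.lf (nat_lit 0) (nat_lit 47028714428) (nat_lit 76) (nat_lit 19217593527) (nat_lit 76) (nat_lit 15231184075) (nat_lit 18) (nat_lit 4) (nat_lit 19) (nat_lit 5) (nat_lit 19) (nat_lit 4) (nat_lit 503) (nat_lit 380) (nat_lit 317)) (XT.lf (nat_lit 0) (nat_lit 425723776) (nat_lit 152) (nat_lit 3122880213) (nat_lit 76) (nat_lit 81209943808) (nat_lit 17) (nat_lit 5) (nat_lit 19) (nat_lit 5) (nat_lit 18) (nat_lit 4) (nat_lit 504) (nat_lit 380) (nat_lit 316))) (XT.nd (nat_lit 78) (nat_lit 0) (nat_lit 0) (XT.lf (nat_lit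 0) (nat_lit 16976423624) (nat_lit 152) (nat_lit 58020879281) (nat_lit 0) (nat_lit 13162728243) (nat_lit 16) (nat_lit 5) (nat_lit 18) (nat_lit 4) (nat_lit 16) (nat_lit 4) (nat_lit 505) (nat_lit 380) (nat_lit 315)) (XT.lf (nat_lit 0) (nat_lit 34403089394) (nat_lit 152) (nat_lit 26744634991) (nat_lit 0) (nat_lit 30581442817) (nat_lit 16) (nat_lit 5) (nat_lit 18) (nat_lit 4) (nat_lit 16) (nat_lit 4) (nat_lit 506) (nat_lit 380) (nat_lit 314)))) (XT.nd (nat_lit 156) (nat_lit 152) (nat_lit 0) (XT.nd (nat_lit 78) (nat_lit 0) (nat_lit 0) (XT.lf (nat_lit 0) (nat_lit 6169695284) (nat_lit 76) (nat_lit 46567245686) (nat_lit 76) (nat_lit 42738026540) (nat_lit 15) (nat_lit 4) (nat_lit 16) (nat_lit 5) (nat_lit 16) (nat_lit 4) (nat_lit 507) (nat_lit 380) (nat_lit 313)) (XT.lf (nat_lit 0) (nat_lit 41537047419) (nat_lit 76) (nat_lit 30843884629) (nat_lit 76) (nat_lit 27007453513) (nat_lit 15) (nat_lit 4) (nat_lit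 16) (nat_lit 5) (nat_lit 16) (nat_lit 4) (nat_lit 508) (nat_lit 380) (nat_lit 312))) (XT.nd (nat_lit 78) (nat_lit 152) (nat_lit 0) (XT.lf (nat_lit 0) (nat_lit 78557330978) (nat_lit 76) (nat_lit 14393137976) (nat_lit 76) (nat_lit 10549838318) (nat_lit 15) (nat_lit 4) (nat_lit 16) (nat_lit 5) (nat_lit 16) (nat_lit 4) (nat_lit 509) (nat_lit 380) (nat_lit 311)) (XT.nd (nat_lit 78) (nat_lit 0) (nat_lit 0) (XT.lf (nat_lit 0) (nat_lit 6660194784) (nat_lit 152) (nat_lit 98151448693) (nat_lit 0) (nat_lit 2993679424) (nat_lit 13) (nat_lit 5) (nat_lit 15) (nat_lit 4) (nat_lit 13) (nat_lit 4) (nat_lit 510) (nat_lit 380) (nat_lit 310)) (XT.lf (nat_lit 0) (nat_lit 24986665111) (nat_lit 152) (nat_lit 65985536441) (nat_lit 0) (nat_lit 21314216445) (nat_lit 13) (nat_lit 5) (nat_lit 15) (nat_lit 4) (nat_lit 13) (nat_lit 4) (nat_lit 511) (nat_lit 380) (nat_lit 309))))))))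
noncomputable def xc106 : XT := (XT.nd (nat_lit 1248) (nat_lit 228) (nat_lit 0) (XT.nd (nat_lit 624) (nat_lit 228) (nat_lit 0) (XT.nd (nat_lit 312) (nat_lit 152) (nat_lit 0) (XT.nd (nat_lit 156) (nat_lit 0) (nat_lit 0) (XT.nd (nat_lit 78) (nat_lit 76) (nat_lit 0) (XT.lf (nat_lit 0) (nat_lit 44177249354) (nat_lit 152) (nat_lit 32317779109) (nat_lit 0) (nat_lit 40499149922) (nat_lit 13) (nat_lit 5) (nat_lit 15) (nat_lit 4) (nat_lit 13) (nat_lit 4) (nat_lit 512) (nat_lit 380) (nat_lit 308)) (XT.lf (nat_lit 0) (nat_lit 3028929281) (nat_lit 76) (nat_lit 61296000176) (nat_lit 76) (nat_lit 57612519061) (nat_lit 12) (nat_lit 4) (nat_lit 13) (nat_lit 5) (nat_lit 13) (nat_lit 4) (nat_lit 513) (nat_lit 380) (nat_lit 307))) (XT.nd (nat_lit 78) (nat_lit 0) (nat_lit 0) (XT.lf (nat_lit 0) (nat_lit 41165227132) (nat_lit 76) (nat_lit 44813170695) (nat_lit 76) (nat_lit 41124564168) (nat_lit 12) (nat_lit 4) (nat_lit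 13) (nat_lit 5) (nat_lit 13) (nat_lit 4) (nat_lit 514) (nat_lit 380) (nat_lit 306)) (XT.lf (nat_lit 0) (nat_lit 81113343423) (nat_lit 76) (nat_lit 27554612418) (nat_lit 76) (nat_lit 23861124545) (nat_lit 12) (nat_lit 4) (nat_lit 13) (nat_lit 5) (nat_lit 13) (nat_lit 4) (nat_lit 515) (nat_lit 380) (nat_lit 305)))) (XT.nd (nat_lit 156) (nat_lit 0) (nat_lit 0) (XT.nd (nat_lit 78) (nat_lit 152) (nat_lit 0) (XT.lf (nat_lit 0) (nat_lit 122968392716) (nat_lit 76) (nat_lit 9479233537) (nat_lit 76) (nat_lit 5781096765) (nat_lit 12) (nat_lit 4) (nat_lit 13) (nat_lit 5) (nat_lit 13) (nat_lit 4) (nat_lit 516) (nat_lit 380) (nat_lit 304)) (XT.lf (nat_lit 0) (nat_lit 13255775888) (nat_lit 152) (nat_lit 121193970035) (nat_lit 0) (nat_lit 9729524177) (nat_lit 10) (nat_lit 5) (nat_lit 12) (nat_lit 4) (nat_lit 10) (nat_lit 4) (nat_lit 517) (nat_lit 380) (nat_lit 303))) (XT.nd (nat_lit 78) (nat_lit 0) (nat_lit 0)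 (XT.lf (nat_lit 0) (nat_lit 33425352763) (nat_lit 152) (nat_lit 87083410882) (nat_lit 0) (nat_lit 29895085158) (nat_lit 10) (nat_lit 5) (nat_lit 12) (nat_lit 4) (nat_lit 10) (nat_lit 4) (nat_lit 518) (nat_lit 380) (nat_lit 302)) (XT.lf (nat_lit 0) (nat_lit 54562521113) (nat_lit 152) (nat_lit 51350750892) (nat_lit 0) (nat_lit 51028428846) (nat_lit 10) (nat_lit 5) (nat_lit 12) (nat_lit 4) (nat_lit 10) (nat_lit 4) (nat_lit 519) (nat_lit 380) (nat_lit 301))))) (XT.nd (nat_lit 312) (nat_lit 152) (nat_lit 0) (XT.nd (nat_lit 156) (nat_lit 0) (nat_lit 0) (XT.nd (nat_lit 78) (nat_lit 76) (nat_lit 0) (XT.lf (nat_lit 0) (nat_lit 76717607528) (nat_lit 152) (nat_lit 13910912301) (nat_lit 0) (nat_lit 73179872726) (nat_lit 10) (nat_lit 5) (nat_lit 12) (nat_lit 4) (nat_lit 10) (nat_lit 4) (nat_lit 520) (nat_lit 380) (nat_lit 300)) (XT.lf (nat_lit 0) (nat_lit 26162614412) (nat_lit 76) (nat_lit 74189219534) (nat_lit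 76) (nat_lit 70648015651) (nat_lit 9) (nat_lit 4) (nat_lit 10) (nat_lit 5) (nat_lit 10) (nat_lit 4) (nat_lit 521) (nat_lit 380) (nat_lit 299))) (XT.nd (nat_lit 78) (nat_lit 0) (nat_lit 0) (XT.lf (nat_lit 0) (nat_lit 68648322566) (nat_lit 76) (nat_lit 56718554724) (nat_lit 76) (nat_lit 53174046955) (nat_lit 9) (nat_lit 4) (nat_lit 10) (nat_lit 5) (nat_lit 10) (nat_lit 4) (nat_lit 522) (nat_lit 380) (nat_lit 298)) (XT.lf (nat_lit 0) (nat_lit 113187411024) (nat_lit 76) (nat_lit 38410516609) (nat_lit 76) (nat_lit 34862862282) (nat_lit 9) (nat_lit 4) (nat_lit 10) (nat_lit 5) (nat_lit 10) (nat_lit 4) (nat_lit 523) (nat_lit 380) (nat_lit 297)))) (XT.nd (nat_lit 156) (nat_lit 0) (nat_lit 0) (XT.nd (nat_lit 78) (nat_lit 152) (nat_lit 0) (XT.lf (nat_lit 0) (nat_lit 159885925234) (nat_lit 76) (nat_lit 19221514623) (nat_lit 76) (nat_lit 15670863573) (nat_lit 9) (nat_lit 4) (nat_lit 10) (nat_lit 5) (nat_lit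 10) (nat_lit 4) (nat_lit 524) (nat_lit 380) (nat_lit 296)) (XT.lf (nat_lit 0) (nat_lit 4406822253) (nat_lit 152) (nat_lit 198075365913) (nat_lit 0) (nat_lit 1022531709) (nat_lit 7) (nat_lit 5) (nat_lit 9) (nat_lit 4) (nat_lit 7) (nat_lit 4) (nat_lit 525) (nat_lit 380) (nat_lit 295))) (XT.nd (nat_lit 78) (nat_lit 0) (nat_lit 0) (XT.lf (nat_lit 0) (nat_lit 25845439263) (nat_lit 152) (nat_lit 164306428364) (nat_lit 0) (nat_lit 22458560037) (nat_lit 7) (nat_lit 5) (nat_lit 9) (nat_lit 4) (nat_lit 7) (nat_lit 4) (nat_lit 526) (nat_lit 380) (nat_lit 294)) (XT.lf (nat_lit 0) (nat_lit 48325489371) (nat_lit 152) (nat_lit 128911311651) (nat_lit 0) (nat_lit 44936144734) (nat_lit 7) (nat_lit 5) (nat_lit 9) (nat_lit 4) (nat_lit 7) (nat_lit 4) (nat_lit 527) (nat_lit 380) (nat_lit 293)))))) (XT.nd (nat_lit 624) (nat_lit 152) (nat_lit 0) (XT.nd (nat_lit 312) (nat_lit 0) (nat_lit 0) (XT.nd (nat_lit 156) (nat_lit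 76) (nat_lit 0) (XT.nd (nat_lit 78) (nat_lit 0) (nat_lit 0) (XT.lf (nat_lit 0) (nat_lit 71900496506) (nat_lit 152) (nat_lit 91805741687) (nat_lit 0) (nat_lit 68508803859) (nat_lit 7) (nat_lit 5) (nat_lit 9) (nat_lit 4) (nat_lit 7) (nat_lit 4) (nat_lit 528) (nat_lit 380) (nat_lit 292)) (XT.lf (nat_lit 0) (nat_lit 96626591637) (nat_lit 152) (nat_lit 52901371875) (nat_lit 0) (nat_lit 93232662790) (nat_lit 7) (nat_lit 5) (nat_lit 9) (nat_lit 4) (nat_lit 7) (nat_lit 4) (nat_lit 529) (nat_lit 380) (nat_lit 291))) (XT.nd (nat_lit 78) (nat_lit 76) (nat_lit 0) (XT.lf (nat_lit 0) (nat_lit 122562646419) (nat_lit 152) (nat_lit 12105572765) (nat_lit 0) (nat_lit 119166587857) (nat_lit 7) (nat_lit 5) (nat_lit 9) (nat_lit 4) (nat_lit 7) (nat_lit 4) (nat_lit 530) (nat_lit 380) (nat_lit 290)) (XT.lf (nat_lit 0) (nat_lit 31693167795) (nat_lit 76) (nat_lit 118572064738) (nat_lit 76) (nat_lit 115173977877) (nat_lit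 6) (nat_lit 4) (nat_lit 7) (nat_lit 5) (nat_lit 7) (nat_lit 4) (nat_lit 531) (nat_lit 380) (nat_lit 289)))) (XT.nd (nat_lit 156) (nat_lit 0) (nat_lit 0) (XT.nd (nat_lit 78) (nat_lit 0) (nat_lit 0) (XT.lf (nat_lit 0) (nat_lit 78051721988) (nat_lit 76) (nat_lit 101481557001) (nat_lit 76) (nat_lit 98081538425) (nat_lit 6) (nat_lit 4) (nat_lit 7) (nat_lit 5) (nat_lit 7) (nat_lit 4) (nat_lit 532) (nat_lit 380) (nat_lit 288)) (XT.lf (nat_lit 0) (nat_lit 126680202418) (nat_lit 76) (nat_lit 83561018020) (nat_lit 76) (nat_lit 80159159717) (nat_lit 6) (nat_lit 4) (nat_lit 7) (nat_lit 5) (nat_lit 7) (nat_lit 4) (nat_lit 533) (nat_lit 380) (nat_lit 287))) (XT.nd (nat_lit 78) (nat_lit 0) (nat_lit 0) (XT.lf (nat_lit 0) (nat_lit 177694391180) (nat_lit 76) (nat_lit 64767779846) (nat_lit 76) (nat_lit 61364169421) (nat_lit 6) (nat_lit 4) (nat_lit 7) (nat_lit 5) (nat_lit 7) (nat_lit 4) (nat_lit 534) (nat_lit 380)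 (nat_lit 286)) (XT.lf (nat_lit 0) (nat_lit 231215750630) (nat_lit 76) (nat_lit 45057096673) (nat_lit 76) (nat_lit 41651817561) (nat_lit 6) (nat_lit 4) (nat_lit 7) (nat_lit 5) (nat_lit 7) (nat_lit 4) (nat_lit 535) (nat_lit 380) (nat_lit 285))))) (XT.nd (nat_lit 312) (nat_lit 0) (nat_lit 0) (XT.nd (nat_lit 156) (nat_lit 76) (nat_lit 0) (XT.nd (nat_lit 78) (nat_lit 76) (nat_lit 0) (XT.lf (nat_lit 0) (nat_lit 287371712574) (nat_lit 76) (nat_lit 24382038303) (nat_lit 76) (nat_lit 20975169965) (nat_lit 6) (nat_lit 4) (nat_lit 7) (nat_lit 5) (nat_lit 7) (nat_lit 4) (nat_lit 536) (nat_lit 380) (nat_lit 284)) (XT.lf (nat_lit 0) (nat_lit 692118902) (nat_lit 152) (nat_lit 1989538137) (nat_lit 76) (nat_lit 345592141414) (nat_lit 5) (nat_lit 5) (nat_lit 7) (nat_lit 5) (nat_lit 6) (nat_lit 4) (nat_lit 537) (nat_lit 380) (nat_lit 283))) (XT.nd (nat_lit 78) (nat_lit 0) (nat_lit 0) (XT.lf (nat_lit 0) (nat_lit 23745970170)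 (nat_lit 152) (nat_lit 320283832613) (nat_lit 0) (nat_lit 20498519350) (nat_lit 4) (nat_lit 5) (nat_lit 6) (nat_lit 4) (nat_lit 4) (nat_lit 4) (nat_lit 538) (nat_lit 380) (nat_lit 282)) (XT.lf (nat_lit 0) (nat_lit 48012005679) (nat_lit 152) (nat_lit 288817344352) (nat_lit 0) (nat_lit 44763247398) (nat_lit 4) (nat_lit 5) (nat_lit 6) (nat_lit 4) (nat_lit 4) (nat_lit 4) (nat_lit 539) (nat_lit 380) (nat_lit 281)))) (XT.nd (nat_lit 156) (nat_lit 0) (nat_lit 0) (XT.nd (nat_lit 78) (nat_lit 0) (nat_lit 0) (XT.lf (nat_lit 0) (nat_lit 73473518140) (nat_lit 152) (nat_lit 255813944943) (nat_lit 0) (nat_lit 70223514660) (nat_lit 4) (nat_lit 5) (nat_lit 6) (nat_lit 4) (nat_lit 4) (nat_lit 4) (nat_lit 540) (nat_lit 380) (nat_lit 280)) (XT.lf (nat_lit 0) (nat_lit 100191130204) (nat_lit 152) (nat_lit 221195054864) (nat_lit 0) (nat_lit 96939940819) (nat_lit 4) (nat_lit 5) (nat_lit 6) (nat_lit 4) (nat_lit 4) (nat_lit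 4) (nat_lit 541) (nat_lit 380) (nat_lit 279))) (XT.nd (nat_lit 78) (nat_lit 0) (nat_lit 0) (XT.lf (nat_lit 0) (nat_lit 128228455232) (nat_lit 152) (nat_lit 184878248185) (nat_lit 0) (nat_lit 124976136414) (nat_lit 4) (nat_lit 5) (nat_lit 6) (nat_lit 4) (nat_lit 4) (nat_lit 4) (nat_lit 542) (nat_lit 380) (nat_lit 278)) (XT.nd (nat_lit 78) (nat_lit 0) (nat_lit 0) (XT.lf (nat_lit 0) (nat_lit 157652248759) (nat_lit 152) (nat_lit 146777056320) (nat_lit 0) (nat_lit 154398854291) (nat_lit 4) (nat_lit 5) (nat_lit 6) (nat_lit 4) (nat_lit 4) (nat_lit 4) (nat_lit 543) (nat_lit 380) (nat_lit 277)) (XT.lf (nat_lit 0) (nat_lit 188532567439) (nat_lit 152) (nat_lit 106800762144) (nat_lit 0) (nat_lit 185278148541) (nat_lit 4) (nat_lit 5) (nat_lit 6) (nat_lit 4) (nat_lit 4) (nat_lit 4) (nat_lit 544) (nat_lit 380) (nat_lit 276))))))))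
noncomputable def xc107 : XT := (XT.nd (nat_lit 54444) (nat_lit 0) (nat_lit 4180) (XT.nd (nat_lit 624) (nat_lit 0) (nat_lit 0) (XT.nd (nat_lit 312) (nat_lit 0) (nat_lit 0) (XT.nd (nat_lit 156) (nat_lit 76) (nat_lit 0) (XT.nd (nat_lit 78) (nat_lit 0) (nat_lit 0) (XT.lf (nat_lit 0) (nat_lit 220942935837) (nat_lit 152) (nat_lit 64854184005) (nat_lit 0) (nat_lit 217687541292) (nat_lit 4) (nat_lit 5) (nat_lit 6) (nat_lit 4) (nat_lit 4) (nat_lit 4) (nat_lit 545) (nat_lit 380) (nat_lit 275)) (XT.lf (nat_lit 0) (nat_lit 254960521499) (nat_lit 152) (nat_lit 20837449099) (nat_lit 0) (nat_lit 251704197767) (nat_lit 4) (nat_lit 5) (nat_lit 6) (nat_lit 4) (nat_lit 4) (nat_lit 4) (nat_lit 546) (nat_lit 380) (nat_lit 274))) (XT.nd (nat_lit 78) (nat_lit 0) (nat_lit 0) (XT.lf (nat_lit 0) (nat_lit 26192570145) (nat_lit 76) (nat_lit 264882687955) (nat_lit 76) (nat_lit 261625479282) (nat_lit 3) (nat_lit 4) (nat_lit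 4) (nat_lit 5) (nat_lit 4) (nat_lit 4) (nat_lit 547) (nat_lit 380) (nat_lit 273)) (XT.lf (nat_lit 0) (nat_lit 76272058696) (nat_lit 76) (nat_lit 253064103063) (nat_lit 76) (nat_lit 249806051590) (nat_lit 3) (nat_lit 4) (nat_lit 4) (nat_lit 5) (nat_lit 4) (nat_lit 4) (nat_lit 548) (nat_lit 380) (nat_lit 272)))) (XT.nd (nat_lit 156) (nat_lit 0) (nat_lit 0) (XT.nd (nat_lit 78) (nat_lit 0) (nat_lit 0) (XT.lf (nat_lit 0) (nat_lit 128831273258) (nat_lit 76) (nat_lit 240666968717) (nat_lit 76) (nat_lit 237408114577) (nat_lit 3) (nat_lit 4) (nat_lit 4) (nat_lit 5) (nat_lit 4) (nat_lit 4) (nat_lit 549) (nat_lit 380) (nat_lit 271)) (XT.lf (nat_lit 0) (nat_lit 183995354819) (nat_lit 76) (nat_lit 227661767931) (nat_lit 76) (nat_lit 224402149346) (nat_lit 3) (nat_lit 4) (nat_lit 4) (nat_lit 5) (nat_lit 4) (nat_lit 4) (nat_lit 550) (nat_lit 380) (nat_lit 270))) (XT.nd (nat_lit 78) (nat_lit 0) (nat_lit 0) (XT.lf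 (nat_lit 0) (nat_lit 241895646429) (nat_lit 76) (nat_lit 214017535941) (nat_lit 76) (nat_lit 210757189314) (nat_lit 3) (nat_lit 4) (nat_lit 4) (nat_lit 5) (nat_lit 4) (nat_lit 4) (nat_lit 551) (nat_lit 380) (nat_lit 269)) (XT.lf (nat_lit 0) (nat_lit 302670005927) (nat_lit 76) (nat_lit 199701786481) (nat_lit 76) (nat_lit 196440746479) (nat_lit 3) (nat_lit 4) (nat_lit 4) (nat_lit 5) (nat_lit 4) (nat_lit 4) (nat_lit 552) (nat_lit 380) (nat_lit 268))))) (XT.nd (nat_lit 53508) (nat_lit 0) (nat_lit 6156) (XT.nd (nat_lit 156) (nat_lit 0) (nat_lit 0) (XT.nd (nat_lit 78) (nat_lit 0) (nat_lit 0) (XT.lf (nat_lit 0) (nat_lit 366463134168) (nat_lit 76) (nat_lit 184680434432) (nat_lit 76) (nat_lit 181418734074) (nat_lit 3) (nat_lit 4) (nat_lit 4) (nat_lit 5) (nat_lit 4) (nat_lit 4) (nat_lit 553) (nat_lit 380) (nat_lit 267)) (XT.lf (nat_lit 0) (nat_lit 433426919553) (nat_lit 76) (nat_lit 168917714671) (nat_lit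 76) (nat_lit 165655385403) (nat_lit 3) (nat_lit 4) (nat_lit 4) (nat_lit 5) (nat_lit 4) (nat_lit 4) (nat_lit 554) (nat_lit 380) (nat_lit 266))) (XT.nd (nat_lit 78) (nat_lit 0) (nat_lit 0) (XT.lf (nat_lit 0) (nat_lit 503720799665) (nat_lit 76) (nat_lit 152376096913) (nat_lit 76) (nat_lit 149113168682) (nat_lit 3) (nat_lit 4) (nat_lit 4) (nat_lit 5) (nat_lit 4) (nat_lit 4) (nat_lit 555) (nat_lit 380) (nat_lit 265)) (XT.lf (nat_lit 0) (nat_lit 577512140887) (nat_lit 76) (nat_lit 135016196353) (nat_lit 76) (nat_lit 131752697682) (nat_lit 3) (nat_lit 4) (nat_lit 4) (nat_lit 5) (nat_lit 4) (nat_lit 4) (nat_lit 556) (nat_lit 380) (nat_lit 264)))) (XT.nd (nat_lit 156) (nat_lit 228) (nat_lit 0) (XT.nd (nat_lit 78) (nat_lit 228) (nat_lit 0) (XT.lf (nat_lit 0) (nat_lit 702017611) (nat_lit 152) (nat_lit 2328933336) (nat_lit 152) (nat_lit 2328933336) (nat_lit 90) (nat_lit 4) (nat_lit 92) (nat_lit 5) (nat_lit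 92) (nat_lit 4) (nat_lit 438) (nat_lit 381) (nat_lit 381)) (XT.lf (nat_lit 0) (nat_lit 602357415) (nat_lit 228) (nat_lit 10339508074) (nat_lit 0) (nat_lit 20132460) (nat_lit 87) (nat_lit 5) (nat_lit 90) (nat_lit 4) (nat_lit 87) (nat_lit 4) (nat_lit 439) (nat_lit 381) (nat_lit 380))) (XT.nd (nat_lit 78) (nat_lit 228) (nat_lit 0) (XT.lf (nat_lit 0) (nat_lit 6011015006) (nat_lit 228) (nat_lit 325123617) (nat_lit 0) (nat_lit 4874290096) (nat_lit 87) (nat_lit 5) (nat_lit 90) (nat_lit 4) (nat_lit 87) (nat_lit 4) (nat_lit 440) (nat_lit 381) (nat_lit 379)) (XT.lf (nat_lit 0) (nat_lit 184997489) (nat_lit 228) (nat_lit 1285575254) (nat_lit 76) (nat_lit 10001883792) (nat_lit 84) (nat_lit 5) (nat_lit 87) (nat_lit 5) (nat_lit 85) (nat_lit 4) (nat_lit 441) (nat_lit 381) (nat_lit 378)))))) (XT.nd (nat_lit 624) (nat_lit 988) (nat_lit 0) (XT.nd (nat_lit 312) (nat_lit 456) (nat_lit 0) (XT.nd (nat_lit 156) (nat_lit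 304) (nat_lit 0) (XT.nd (nat_lit 78) (nat_lit 152) (nat_lit 0) (XT.lf (nat_lit 0) (nat_lit 5689711632) (nat_lit 152) (nat_lit 2427155619) (nat_lit 0) (nat_lit 3625170761) (nat_lit 83) (nat_lit 5) (nat_lit 85) (nat_lit 4) (nat_lit 83) (nat_lit 4) (nat_lit 442) (nat_lit 381) (nat_lit 377)) (XT.lf (nat_lit 0) (nat_lit 8381236373) (nat_lit 152) (nat_lit 3082447558) (nat_lit 152) (nat_lit 561718201) (nat_lit 81) (nat_lit 4) (nat_lit 83) (nat_lit 5) (nat_lit 83) (nat_lit 4) (nat_lit 443) (nat_lit 381) (nat_lit 376))) (XT.nd (nat_lit 78) (nat_lit 152) (nat_lit 0) (XT.lf (nat_lit 0) (nat_lit 5046545387) (nat_lit 152) (nat_lit 5039773621) (nat_lit 0) (nat_lit 2232074356) (nat_lit 79) (nat_lit 5) (nat_lit 81) (nat_lit 4) (nat_lit 79) (nat_lit 4) (nat_lit 444) (nat_lit 381) (nat_lit 375)) (XT.lf (nat_lit 0) (nat_lit 6053478352) (nat_lit 152) (nat_lit 4889651976) (nat_lit 152) (nat_lit 1681108179) (nat_lit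 77) (nat_lit 4) (nat_lit 79) (nat_lit 5) (nat_lit 79) (nat_lit 4) (nat_lit 445) (nat_lit 381) (nat_lit 374)))) (XT.nd (nat_lit 156) (nat_lit 152) (nat_lit 0) (XT.nd (nat_lit 78) (nat_lit 152) (nat_lit 0) (XT.lf (nat_lit 0) (nat_lit 4044848959) (nat_lit 152) (nat_lit 8266115048) (nat_lit 0) (nat_lit 631657346) (nat_lit 75) (nat_lit 5) (nat_lit 77) (nat_lit 4) (nat_lit 75) (nat_lit 4) (nat_lit 446) (nat_lit 381) (nat_lit 373)) (XT.lf (nat_lit 0) (nat_lit 3100138367) (nat_lit 152) (nat_lit 6962946570) (nat_lit 152) (nat_lit 3209340084) (nat_lit 73) (nat_lit 4) (nat_lit 75) (nat_lit 5) (nat_lit 75) (nat_lit 4) (nat_lit 447) (nat_lit 381) (nat_lit 372))) (XT.nd (nat_lit 78) (nat_lit 0) (nat_lit 0) (XT.lf (nat_lit 0) (nat_lit 1375560930) (nat_lit 76) (nat_lit 1284620560) (nat_lit 152) (nat_lit 10957127378) (nat_lit 71) (nat_lit 5) (nat_lit 72) (nat_lit 5) (nat_lit 73) (nat_lit 4) (nat_lit 448) (nat_lit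 381) (nat_lit 371)) (XT.lf (nat_lit 0) (nat_lit 8785820150) (nat_lit 152) (nat_lit 579337041) (nat_lit 0) (nat_lit 4608127340) (nat_lit 71) (nat_lit 5) (nat_lit 73) (nat_lit 4) (nat_lit 71) (nat_lit 4) (nat_lit 449) (nat_lit 381) (nat_lit 370))))) (XT.nd (nat_lit 312) (nat_lit 456) (nat_lit 0) (XT.nd (nat_lit 156) (nat_lit 228) (nat_lit 0) (XT.nd (nat_lit 78) (nat_lit 76) (nat_lit 0) (XT.lf (nat_lit 0) (nat_lit 877959064) (nat_lit 228) (nat_lit 2657936885) (nat_lit 76) (nat_lit 10808728855) (nat_lit 68) (nat_lit 5) (nat_lit 71) (nat_lit 5) (nat_lit 69) (nat_lit 4) (nat_lit 450) (nat_lit 381) (nat_lit 369)) (XT.lf (nat_lit 0) (nat_lit 7108031059) (nat_lit 152) (nat_lit 5011936888) (nat_lit 0) (nat_lit 2608529223) (nat_lit 67) (nat_lit 5) (nat_lit 69) (nat_lit 4) (nat_lit 67) (nat_lit 4) (nat_lit 451) (nat_lit 381) (nat_lit 368))) (XT.nd (nat_lit 78) (nat_lit 152) (nat_lit 0) (XT.lf (nat_lit 0) (nat_lit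 7535850191) (nat_lit 76) (nat_lit 6167234930) (nat_lit 76) (nat_lit 1425806600) (nat_lit 66) (nat_lit 4) (nat_lit 67) (nat_lit 5) (nat_lit 67) (nat_lit 4) (nat_lit 452) (nat_lit 381) (nat_lit 367)) (XT.lf (nat_lit 0) (nat_lit 4917411443) (nat_lit 152) (nat_lit 10445532710) (nat_lit 0) (nat_lit 182330952) (nat_lit 64) (nat_lit 5) (nat_lit 66) (nat_lit 4) (nat_lit 64) (nat_lit 4) (nat_lit 453) (nat_lit 381) (nat_lit 366)))) (XT.nd (nat_lit 156) (nat_lit 304) (nat_lit 0) (XT.nd (nat_lit 78) (nat_lit 76) (nat_lit 0) (XT.lf (nat_lit 0) (nat_lit 2342625685) (nat_lit 76) (nat_lit 9288835870) (nat_lit 76) (nat_lit 4344770177) (nat_lit 63) (nat_lit 4) (nat_lit 64) (nat_lit 5) (nat_lit 64) (nat_lit 4) (nat_lit 454) (nat_lit 381) (nat_lit 365)) (XT.lf (nat_lit 0) (nat_lit 2193727757) (nat_lit 152) (nat_lit 645957314) (nat_lit 76) (nat_lit 13586627536) (nat_lit 62) (nat_lit 5) (nat_lit 64) (nat_lit 5) (nat_lit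 63) (nat_lit 4) (nat_lit 455) (nat_lit 381) (nat_lit 364))) (XT.nd (nat_lit 78) (nat_lit 228) (nat_lit 0) (XT.lf (nat_lit 0) (nat_lit 9021659436) (nat_lit 152) (nat_lit 3925312149) (nat_lit 0) (nat_lit 3942940430) (nat_lit 61) (nat_lit 5) (nat_lit 63) (nat_lit 4) (nat_lit 61) (nat_lit 4) (nat_lit 456) (nat_lit 381) (nat_lit 363)) (XT.nd (nat_lit 78) (nat_lit 152) (nat_lit 0) (XT.lf (nat_lit 0) (nat_lit 9864818870) (nat_lit 76) (nat_lit 6379919210) (nat_lit 76) (nat_lit 1129267561) (nat_lit 60) (nat_lit 4) (nat_lit 61) (nat_lit 5) (nat_lit 61) (nat_lit 4) (nat_lit 457) (nat_lit 381) (nat_lit 362)) (XT.lf (nat_lit 0) (nat_lit 5776255732) (nat_lit 152) (nat_lit 11480724500) (nat_lit 0) (nat_lit 619687138) (nat_lit 58) (nat_lit 5) (nat_lit 60) (nat_lit 4) (nat_lit 58) (nat_lit 4) (nat_lit 458) (nat_lit 381) (nat_lit 361))))))))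
noncomputable def xc108 : XT := (XT.nd (nat_lit 1248) (nat_lit 1064) (nat_lit 0) (XT.nd (nat_lit 624) (nat_lit 608) (nat_lit 0) (XT.nd (nat_lit 312) (nat_lit 380) (nat_lit 0) (XT.nd (nat_lit 156) (nat_lit 152) (nat_lit 0) (XT.nd (nat_lit 78) (nat_lit 76) (nat_lit 0) (XT.lf (nat_lit 0) (nat_lit 2507040168) (nat_lit 76) (nat_lit 10597898343) (nat_lit 76) (nat_lit 5292807868) (nat_lit 57) (nat_lit 4) (nat_lit 58) (nat_lit 5) (nat_lit 58) (nat_lit 4) (nat_lit 459) (nat_lit 381) (nat_lit 360)) (XT.lf (nat_lit 0) (nat_lit 1836501008) (nat_lit 152) (nat_lit 1681712818) (nat_lit 76) (nat_lit 15423183565) (nat_lit 56) (nat_lit 5) (nat_lit 58) (nat_lit 5) (nat_lit 57) (nat_lit 4) (nat_lit 460) (nat_lit 381) (nat_lit 359))) (XT.nd (nat_lit 78) (nat_lit 76) (nat_lit 0) (XT.lf (nat_lit 0) (nat_lit 9266070529) (nat_lit 152) (nat_lit 6285149062) (nat_lit 0) (nat_lit 3950590900) (nat_lit 55) (nat_lit 5) (nat_lit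 57) (nat_lit 4) (nat_lit 55) (nat_lit 4) (nat_lit 461) (nat_lit 381) (nat_lit 358)) (XT.lf (nat_lit 0) (nat_lit 8758735601) (nat_lit 76) (nat_lit 8382730731) (nat_lit 76) (nat_lit 2945061783) (nat_lit 54) (nat_lit 4) (nat_lit 55) (nat_lit 5) (nat_lit 55) (nat_lit 4) (nat_lit 462) (nat_lit 381) (nat_lit 357)))) (XT.nd (nat_lit 156) (nat_lit 228) (nat_lit 0) (XT.nd (nat_lit 78) (nat_lit 0) (nat_lit 0) (XT.lf (nat_lit 0) (nat_lit 3832055009) (nat_lit 76) (nat_lit 746527789) (nat_lit 152) (nat_lit 16117263691) (nat_lit 52) (nat_lit 5) (nat_lit 53) (nat_lit 5) (nat_lit 54) (nat_lit 4) (nat_lit 463) (nat_lit 381) (nat_lit 356)) (XT.lf (nat_lit 0) (nat_lit 12539485277) (nat_lit 152) (nat_lit 1641358250) (nat_lit 0) (nat_lit 7144371903) (nat_lit 52) (nat_lit 5) (nat_lit 54) (nat_lit 4) (nat_lit 52) (nat_lit 4) (nat_lit 464) (nat_lit 381) (nat_lit 355))) (XT.nd (nat_lit 78) (nat_lit 152) (nat_lit 0) (XT.lf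 (nat_lit 0) (nat_lit 14514969165) (nat_lit 76) (nat_lit 6480925220) (nat_lit 76) (nat_lit 985286391) (nat_lit 51) (nat_lit 4) (nat_lit 52) (nat_lit 5) (nat_lit 52) (nat_lit 4) (nat_lit 465) (nat_lit 381) (nat_lit 354)) (XT.lf (nat_lit 0) (nat_lit 7025705892) (nat_lit 152) (nat_lit 13935473331) (nat_lit 0) (nat_lit 1700584598) (nat_lit 49) (nat_lit 5) (nat_lit 51) (nat_lit 4) (nat_lit 49) (nat_lit 4) (nat_lit 466) (nat_lit 381) (nat_lit 353))))) (XT.nd (nat_lit 312) (nat_lit 304) (nat_lit 0) (XT.nd (nat_lit 156) (nat_lit 152) (nat_lit 0) (XT.nd (nat_lit 78) (nat_lit 76) (nat_lit 0) (XT.lf (nat_lit 0) (nat_lit 2286257827) (nat_lit 76) (nat_lit 13247397233) (nat_lit 76) (nat_lit 7835438271) (nat_lit 48) (nat_lit 4) (nat_lit 49) (nat_lit 5) (nat_lit 49) (nat_lit 4) (nat_lit 467) (nat_lit 381) (nat_lit 352)) (XT.lf (nat_lit 0) (nat_lit 442917416) (nat_lit 152) (nat_lit 4586680797) (nat_lit 76) (nat_lit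 19076960917) (nat_lit 47) (nat_lit 5) (nat_lit 49) (nat_lit 5) (nat_lit 48) (nat_lit 4) (nat_lit 468) (nat_lit 381) (nat_lit 351))) (XT.nd (nat_lit 78) (nat_lit 76) (nat_lit 0) (XT.lf (nat_lit 0) (nat_lit 8996278949) (nat_lit 152) (nat_lit 12183722691) (nat_lit 0) (nat_lit 3688254352) (nat_lit 46) (nat_lit 5) (nat_lit 48) (nat_lit 4) (nat_lit 46) (nat_lit 4) (nat_lit 469) (nat_lit 381) (nat_lit 350)) (XT.lf (nat_lit 0) (nat_lit 5127720271) (nat_lit 76) (nat_lit 12957201823) (nat_lit 76) (nat_lit 7577735661) (nat_lit 45) (nat_lit 4) (nat_lit 46) (nat_lit 5) (nat_lit 46) (nat_lit 4) (nat_lit 470) (nat_lit 381) (nat_lit 349)))) (XT.nd (nat_lit 156) (nat_lit 152) (nat_lit 0) (XT.nd (nat_lit 78) (nat_lit 76) (nat_lit 0) (XT.lf (nat_lit 0) (nat_lit 1170997172) (nat_lit 152) (nat_lit 3046961543) (nat_lit 76) (nat_lit 22274139213) (nat_lit 44) (nat_lit 5) (nat_lit 46) (nat_lit 5) (nat_lit 45) (nat_lit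 4) (nat_lit 471) (nat_lit 381) (nat_lit 348)) (XT.lf (nat_lit 0) (nat_lit 10297467694) (nat_lit 152) (nat_lit 12001930583) (nat_lit 0) (nat_lit 5047653074) (nat_lit 43) (nat_lit 5) (nat_lit 45) (nat_lit 4) (nat_lit 43) (nat_lit 4) (nat_lit 472) (nat_lit 381) (nat_lit 347))) (XT.nd (nat_lit 78) (nat_lit 76) (nat_lit 0) (XT.lf (nat_lit 0) (nat_lit 6400624007) (nat_lit 76) (nat_lit 13574000343) (nat_lit 76) (nat_lit 8265410571) (nat_lit 42) (nat_lit 4) (nat_lit 43) (nat_lit 5) (nat_lit 43) (nat_lit 4) (nat_lit 473) (nat_lit 381) (nat_lit 346)) (XT.lf (nat_lit 0) (nat_lit 1006830575) (nat_lit 152) (nat_lit 3300563427) (nat_lit 76) (nat_lit 24865550360) (nat_lit 41) (nat_lit 5) (nat_lit 43) (nat_lit 5) (nat_lit 42) (nat_lit 4) (nat_lit 474) (nat_lit 381) (nat_lit 345)))))) (XT.nd (nat_lit 624) (nat_lit 532) (nat_lit 0) (XT.nd (nat_lit 312) (nat_lit 228) (nat_lit 0) (XT.nd (nat_lit 156) (nat_lit 152)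 (nat_lit 0) (XT.nd (nat_lit 78) (nat_lit 76) (nat_lit 0) (XT.lf (nat_lit 0) (nat_lit 10687681335) (nat_lit 152) (nat_lit 13919106487) (nat_lit 0) (nat_lit 5527798571) (nat_lit 40) (nat_lit 5) (nat_lit 42) (nat_lit 4) (nat_lit 40) (nat_lit 4) (nat_lit 475) (nat_lit 381) (nat_lit 344)) (XT.lf (nat_lit 0) (nat_lit 5543503156) (nat_lit 76) (nat_lit 15402194472) (nat_lit 76) (nat_lit 10193957245) (nat_lit 39) (nat_lit 4) (nat_lit 40) (nat_lit 5) (nat_lit 40) (nat_lit 4) (nat_lit 476) (nat_lit 381) (nat_lit 343))) (XT.nd (nat_lit 78) (nat_lit 152) (nat_lit 0) (XT.lf (nat_lit 0) (nat_lit 26223607197) (nat_lit 76) (nat_lit 5609907086) (nat_lit 76) (nat_lit 355617990) (nat_lit 39) (nat_lit 4) (nat_lit 40) (nat_lit 5) (nat_lit 40) (nat_lit 4) (nat_lit 477) (nat_lit 381) (nat_lit 342)) (XT.lf (nat_lit 0) (nat_lit 9847807361) (nat_lit 152) (nat_lit 18623916912) (nat_lit 0) (nat_lit 4801952104) (nat_lit 37)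 (nat_lit 5) (nat_lit 39) (nat_lit 4) (nat_lit 37) (nat_lit 4) (nat_lit 478) (nat_lit 381) (nat_lit 341)))) (XT.nd (nat_lit 156) (nat_lit 152) (nat_lit 0) (XT.nd (nat_lit 78) (nat_lit 0) (nat_lit 0) (XT.lf (nat_lit 0) (nat_lit 1822974333) (nat_lit 76) (nat_lit 18834703802) (nat_lit 76) (nat_lit 13749067209) (nat_lit 36) (nat_lit 4) (nat_lit 37) (nat_lit 5) (nat_lit 37) (nat_lit 4) (nat_lit 479) (nat_lit 381) (nat_lit 340)) (XT.lf (nat_lit 0) (nat_lit 23711081337) (nat_lit 76) (nat_lit 8499394364) (nat_lit 76) (nat_lit 3375870784) (nat_lit 36) (nat_lit 4) (nat_lit 37) (nat_lit 5) (nat_lit 37) (nat_lit 4) (nat_lit 480) (nat_lit 381) (nat_lit 339))) (XT.nd (nat_lit 78) (nat_lit 0) (nat_lit 0) (XT.lf (nat_lit 0) (nat_lit 7359234544) (nat_lit 152) (nat_lit 27010312170) (nat_lit 0) (nat_lit 2445323664) (nat_lit 34) (nat_lit 5) (nat_lit 36) (nat_lit 4) (nat_lit 34) (nat_lit 4) (nat_lit 481) (nat_lit 381)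 (nat_lit 338)) (XT.lf (nat_lit 0) (nat_lit 18752144771) (nat_lit 152) (nat_lit 5532678187) (nat_lit 0) (nat_lit 13805505686) (nat_lit 34) (nat_lit 5) (nat_lit 36) (nat_lit 4) (nat_lit 34) (nat_lit 4) (nat_lit 482) (nat_lit 381) (nat_lit 337))))) (XT.nd (nat_lit 312) (nat_lit 228) (nat_lit 0) (XT.nd (nat_lit 156) (nat_lit 76) (nat_lit 0) (XT.nd (nat_lit 78) (nat_lit 152) (nat_lit 0) (XT.lf (nat_lit 0) (nat_lit 17364520009) (nat_lit 76) (nat_lit 13517247786) (nat_lit 76) (nat_lit 8539438984) (nat_lit 33) (nat_lit 4) (nat_lit 34) (nat_lit 5) (nat_lit 34) (nat_lit 4) (nat_lit 483) (nat_lit 381) (nat_lit 336)) (XT.lf (nat_lit 0) (nat_lit 546837721) (nat_lit 76) (nat_lit 2162592507) (nat_lit 152) (nat_lit 38107024667) (nat_lit 31) (nat_lit 5) (nat_lit 32) (nat_lit 5) (nat_lit 33) (nat_lit 4) (nat_lit 484) (nat_lit 381) (nat_lit 335))) (XT.nd (nat_lit 78) (nat_lit 76) (nat_lit 0) (XT.lf (nat_lit 0) (nat_lit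 14661904594) (nat_lit 152) (nat_lit 17725217536) (nat_lit 0) (nat_lit 9865936879) (nat_lit 31) (nat_lit 5) (nat_lit 33) (nat_lit 4) (nat_lit 31) (nat_lit 4) (nat_lit 485) (nat_lit 381) (nat_lit 334)) (XT.lf (nat_lit 0) (nat_lit 5899549536) (nat_lit 76) (nat_lit 21341062358) (nat_lit 76) (nat_lit 16519451239) (nat_lit 30) (nat_lit 4) (nat_lit 31) (nat_lit 5) (nat_lit 31) (nat_lit 4) (nat_lit 486) (nat_lit 381) (nat_lit 333)))) (XT.nd (nat_lit 156) (nat_lit 76) (nat_lit 0) (XT.nd (nat_lit 78) (nat_lit 152) (nat_lit 0) (XT.lf (nat_lit 0) (nat_lit 31123941250) (nat_lit 76) (nat_lit 9527183189) (nat_lit 76) (nat_lit 4681149781) (nat_lit 30) (nat_lit 4) (nat_lit 31) (nat_lit 5) (nat_lit 31) (nat_lit 4) (nat_lit 487) (nat_lit 381) (nat_lit 332)) (XT.lf (nat_lit 0) (nat_lit 7621342023) (nat_lit 152) (nat_lit 36365769770) (nat_lit 0) (nat_lit 2983920373) (nat_lit 28) (nat_lit 5) (nat_lit 30) (nat_lit 4)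 (nat_lit 28) (nat_lit 4) (nat_lit 488) (nat_lit 381) (nat_lit 331))) (XT.nd (nat_lit 78) (nat_lit 76) (nat_lit 0) (XT.lf (nat_lit 0) (nat_lit 20688265966) (nat_lit 152) (nat_lit 11954546585) (nat_lit 0) (nat_lit 16029747424) (nat_lit 28) (nat_lit 5) (nat_lit 30) (nat_lit 4) (nat_lit 28) (nat_lit 4) (nat_lit 489) (nat_lit 381) (nat_lit 330)) (XT.nd (nat_lit 78) (nat_lit 0) (nat_lit 0) (XT.lf (nat_lit 0) (nat_lit 13941746002) (nat_lit 76) (nat_lit 20594814002) (nat_lit 76) (nat_lit 15916203182) (nat_lit 27) (nat_lit 4) (nat_lit 28) (nat_lit 5) (nat_lit 28) (nat_lit 4) (nat_lit 490) (nat_lit 381) (nat_lit 329)) (XT.lf (nat_lit 0) (nat_lit 41369104269) (nat_lit 76) (nat_lit 7822452210) (nat_lit 76) (nat_lit 3124705888) (nat_lit 27) (nat_lit 4) (nat_lit 28) (nat_lit 5) (nat_lit 28) (nat_lit 4) (nat_lit 491) (nat_lit 381) (nat_lit 328))))))))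
noncomputable def xc109 : XT := (XT.nd (nat_lit 1248) (nat_lit 532) (nat_lit 0) (XT.nd (nat_lit 624) (nat_lit 380) (nat_lit 0) (XT.nd (nat_lit 312) (nat_lit 228) (nat_lit 0) (XT.nd (nat_lit 156) (nat_lit 76) (nat_lit 0) (XT.nd (nat_lit 78) (nat_lit 0) (nat_lit 0) (XT.lf (nat_lit 0) (nat_lit 10234768715) (nat_lit 152) (nat_lit 38273840749) (nat_lit 0) (nat_lit 5743368133) (nat_lit 25) (nat_lit 5) (nat_lit 27) (nat_lit 4) (nat_lit 25) (nat_lit 4) (nat_lit 492) (nat_lit 381) (nat_lit 327)) (XT.lf (nat_lit 0) (nat_lit 24388588450) (nat_lit 152) (nat_lit 12001102071) (nat_lit 0) (nat_lit 19880657901) (nat_lit 25) (nat_lit 5) (nat_lit 27) (nat_lit 4) (nat_lit 25) (nat_lit 4) (nat_lit 493) (nat_lit 381) (nat_lit 326))) (XT.nd (nat_lit 78) (nat_lit 0) (nat_lit 0) (XT.lf (nat_lit 0) (nat_lit 15930236272) (nat_lit 76) (nat_lit 23487350341) (nat_lit 76) (nat_lit 18963676967) (nat_lit 24) (nat_lit 4) (nat_lit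 25) (nat_lit 5) (nat_lit 25) (nat_lit 4) (nat_lit 494) (nat_lit 381) (nat_lit 325)) (XT.lf (nat_lit 0) (nat_lit 45512548132) (nat_lit 76) (nat_lit 9808837749) (nat_lit 76) (nat_lit 5270171208) (nat_lit 24) (nat_lit 4) (nat_lit 25) (nat_lit 5) (nat_lit 25) (nat_lit 4) (nat_lit 495) (nat_lit 381) (nat_lit 324)))) (XT.nd (nat_lit 156) (nat_lit 76) (nat_lit 0) (XT.nd (nat_lit 78) (nat_lit 0) (nat_lit 0) (XT.lf (nat_lit 0) (nat_lit 9030395628) (nat_lit 152) (nat_lit 49169907939) (nat_lit 0) (nat_lit 4694256820) (nat_lit 22) (nat_lit 5) (nat_lit 24) (nat_lit 4) (nat_lit 22) (nat_lit 4) (nat_lit 496) (nat_lit 381) (nat_lit 323)) (XT.lf (nat_lit 0) (nat_lit 24211944106) (nat_lit 152) (nat_lit 21216443145) (nat_lit 0) (nat_lit 19862853637) (nat_lit 22) (nat_lit 5) (nat_lit 24) (nat_lit 4) (nat_lit 22) (nat_lit 4) (nat_lit 497) (nat_lit 381) (nat_lit 322))) (XT.nd (nat_lit 78) (nat_lit 0) (nat_lit 0) (XT.lf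 (nat_lit 0) (nat_lit 8249078230) (nat_lit 76) (nat_lit 31958671847) (nat_lit 76) (nat_lit 27597246462) (nat_lit 21) (nat_lit 4) (nat_lit 22) (nat_lit 5) (nat_lit 22) (nat_lit 4) (nat_lit 498) (nat_lit 381) (nat_lit 321)) (XT.lf (nat_lit 0) (nat_lit 39777237523) (nat_lit 76) (nat_lit 17513015090) (nat_lit 76) (nat_lit 13139842166) (nat_lit 21) (nat_lit 4) (nat_lit 22) (nat_lit 5) (nat_lit 22) (nat_lit 4) (nat_lit 499) (nat_lit 381) (nat_lit 320))))) (XT.nd (nat_lit 312) (nat_lit 152) (nat_lit 0) (XT.nd (nat_lit 156) (nat_lit 76) (nat_lit 0) (XT.nd (nat_lit 78) (nat_lit 76) (nat_lit 0) (XT.lf (nat_lit 0) (nat_lit 1905038585) (nat_lit 152) (nat_lit 479031956) (nat_lit 76) (nat_lit 70804289017) (nat_lit 20) (nat_lit 5) (nat_lit 22) (nat_lit 5) (nat_lit 21) (nat_lit 4) (nat_lit 500) (nat_lit 381) (nat_lit 319)) (XT.lf (nat_lit 0) (nat_lit 17912852287) (nat_lit 152) (nat_lit 44401178979) (nat_lit 0)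 (nat_lit 13727122362) (nat_lit 19) (nat_lit 5) (nat_lit 21) (nat_lit 4) (nat_lit 19) (nat_lit 4) (nat_lit 501) (nat_lit 381) (nat_lit 318))) (XT.nd (nat_lit 78) (nat_lit 76) (nat_lit 0) (XT.lf (nat_lit 0) (nat_lit 34701669025) (nat_lit 152) (nat_lit 13829613487) (nat_lit 0) (nat_lit 30506274372) (nat_lit 19) (nat_lit 5) (nat_lit 21) (nat_lit 4) (nat_lit 19) (nat_lit 4) (nat_lit 502) (nat_lit 381) (nat_lit 317)) (XT.lf (nat_lit 0) (nat_lit 18741048399) (nat_lit 76) (nat_lit 33817939056) (nat_lit 76) (nat_lit 29613339899) (nat_lit 18) (nat_lit 4) (nat_lit 19) (nat_lit 5) (nat_lit 19) (nat_lit 4) (nat_lit 503) (nat_lit 381) (nat_lit 316)))) (XT.nd (nat_lit 156) (nat_lit 0) (nat_lit 0) (XT.nd (nat_lit 78) (nat_lit 152) (nat_lit 0) (XT.lf (nat_lit 0) (nat_lit 53293149547) (nat_lit 76) (nat_lit 18187733344) (nat_lit 76) (nat_lit 13974367992) (nat_lit 18) (nat_lit 4) (nat_lit 19) (nat_lit 5) (nat_lit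 19) (nat_lit 4) (nat_lit 504) (nat_lit 381) (nat_lit 315)) (XT.lf (nat_lit 0) (nat_lit 526004196) (nat_lit 76) (nat_lit 1789955952) (nat_lit 152) (nat_lit 86587065016) (nat_lit 16) (nat_lit 5) (nat_lit 17) (nat_lit 5) (nat_lit 18) (nat_lit 4) (nat_lit 505) (nat_lit 381) (nat_lit 314))) (XT.nd (nat_lit 78) (nat_lit 0) (nat_lit 0) (XT.lf (nat_lit 0) (nat_lit 19685180316) (nat_lit 152) (nat_lit 57132925576) (nat_lit 0) (nat_lit 15656927644) (nat_lit 16) (nat_lit 5) (nat_lit 18) (nat_lit 4) (nat_lit 16) (nat_lit 4) (nat_lit 506) (nat_lit 381) (nat_lit 313)) (XT.lf (nat_lit 0) (nat_lit 37894611017) (nat_lit 152) (nat_lit 24473297532) (nat_lit 0) (nat_lit 33859146375) (nat_lit 16) (nat_lit 5) (nat_lit 18) (nat_lit 4) (nat_lit 16) (nat_lit 4) (nat_lit 507) (nat_lit 381) (nat_lit 312)))))) (XT.nd (nat_lit 624) (nat_lit 228) (nat_lit 0) (XT.nd (nat_lit 312) (nat_lit 76) (nat_lit 0) (XT.nd (nat_lit 156)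 (nat_lit 152) (nat_lit 0) (XT.nd (nat_lit 78) (nat_lit 0) (nat_lit 0) (XT.lf (nat_lit 0) (nat_lit 10028546528) (nat_lit 76) (nat_lit 47087688997) (nat_lit 76) (nat_lit 43045355813) (nat_lit 15) (nat_lit 4) (nat_lit 16) (nat_lit 5) (nat_lit 16) (nat_lit 4) (nat_lit 508) (nat_lit 381) (nat_lit 311)) (XT.lf (nat_lit 0) (nat_lit 46995201199) (nat_lit 76) (nat_lit 30664251267) (nat_lit 76) (nat_lit 26615376614) (nat_lit 15) (nat_lit 4) (nat_lit 16) (nat_lit 5) (nat_lit 16) (nat_lit 4) (nat_lit 509) (nat_lit 381) (nat_lit 310))) (XT.nd (nat_lit 78) (nat_lit 152) (nat_lit 0) (XT.lf (nat_lit 0) (nat_lit 85705484584) (nat_lit 76) (nat_lit 13472959072) (nat_lit 76) (nat_lit 9417854448) (nat_lit 15) (nat_lit 4) (nat_lit 16) (nat_lit 5) (nat_lit 16) (nat_lit 4) (nat_lit 510) (nat_lit 381) (nat_lit 309)) (XT.lf (nat_lit 0) (nat_lit 8598968051) (nat_lit 152) (nat_lit 99785018151) (nat_lit 0) (nat_lit 4731312880)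 (nat_lit 13) (nat_lit 5) (nat_lit 15) (nat_lit 4) (nat_lit 13) (nat_lit 4) (nat_lit 511) (nat_lit 381) (nat_lit 308)))) (XT.nd (nat_lit 156) (nat_lit 76) (nat_lit 0) (XT.nd (nat_lit 78) (nat_lit 0) (nat_lit 0) (XT.lf (nat_lit 0) (nat_lit 27765296964) (nat_lit 152) (nat_lit 66166715190) (nat_lit 0) (nat_lit 23892260111) (nat_lit 13) (nat_lit 5) (nat_lit 15) (nat_lit 4) (nat_lit 13) (nat_lit 4) (nat_lit 512) (nat_lit 381) (nat_lit 307)) (XT.lf (nat_lit 0) (nat_lit 47842586678) (nat_lit 152) (nat_lit 30964050853) (nat_lit 0) (nat_lit 43964424412) (nat_lit 13) (nat_lit 5) (nat_lit 15) (nat_lit 4) (nat_lit 13) (nat_lit 4) (nat_lit 513) (nat_lit 381) (nat_lit 306))) (XT.nd (nat_lit 78) (nat_lit 0) (nat_lit 0) (XT.lf (nat_lit 0) (nat_lit 6102095906) (nat_lit 76) (nat_lit 62871815174) (nat_lit 76) (nat_lit 58988771563) (nat_lit 12) (nat_lit 4) (nat_lit 13) (nat_lit 5) (nat_lit 13) (nat_lit 4) (nat_lit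 514) (nat_lit 381) (nat_lit 305)) (XT.lf (nat_lit 0) (nat_lit 46006079118) (nat_lit 76) (nat_lit 45635748268) (nat_lit 76) (nat_lit 41748055757) (nat_lit 12) (nat_lit 4) (nat_lit 13) (nat_lit 5) (nat_lit 13) (nat_lit 4) (nat_lit 515) (nat_lit 381) (nat_lit 304))))) (XT.nd (nat_lit 312) (nat_lit 76) (nat_lit 0) (XT.nd (nat_lit 156) (nat_lit 152) (nat_lit 0) (XT.nd (nat_lit 78) (nat_lit 0) (nat_lit 0) (XT.lf (nat_lit 0) (nat_lit 87819096907) (nat_lit 76) (nat_lit 27581789741) (nat_lit 76) (nat_lit 23689669706) (nat_lit 12) (nat_lit 4) (nat_lit 13) (nat_lit 5) (nat_lit 13) (nat_lit 4) (nat_lit 516) (nat_lit 381) (nat_lit 303)) (XT.lf (nat_lit 0) (nat_lit 131640704079) (nat_lit 76) (nat_lit 8666953978) (nat_lit 76) (nat_lit 4770617254) (nat_lit 12) (nat_lit 4) (nat_lit 13) (nat_lit 5) (nat_lit 13) (nat_lit 4) (nat_lit 517) (nat_lit 381) (nat_lit 302))) (XT.nd (nat_lit 78) (nat_lit 0) (nat_lit 0) (XT.lf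 (nat_lit 0) (nat_lit 15176100614) (nat_lit 152) (nat_lit 124687775913) (nat_lit 0) (nat_lit 11461479072) (nat_lit 10) (nat_lit 5) (nat_lit 12) (nat_lit 4) (nat_lit 10) (nat_lit 4) (nat_lit 518) (nat_lit 381) (nat_lit 301)) (XT.lf (nat_lit 0) (nat_lit 36294273670) (nat_lit 152) (nat_lit 88993874166) (nat_lit 0) (nat_lit 32576009593) (nat_lit 10) (nat_lit 5) (nat_lit 12) (nat_lit 4) (nat_lit 10) (nat_lit 4) (nat_lit 519) (nat_lit 381) (nat_lit 300)))) (XT.nd (nat_lit 156) (nat_lit 76) (nat_lit 0) (XT.nd (nat_lit 78) (nat_lit 0) (nat_lit 0) (XT.lf (nat_lit 0) (nat_lit 58431269329) (nat_lit 152) (nat_lit 51590948188) (nat_lit 0) (nat_lit 54709536172) (nat_lit 10) (nat_lit 5) (nat_lit 12) (nat_lit 4) (nat_lit 10) (nat_lit 4) (nat_lit 520) (nat_lit 381) (nat_lit 299)) (XT.lf (nat_lit 0) (nat_lit 81639794724) (nat_lit 152) (nat_lit 12389943394) (nat_lit 0) (nat_lit 77914757680) (nat_lit 10) (nat_lit 5)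 (nat_lit 12) (nat_lit 4) (nat_lit 10) (nat_lit 4) (nat_lit 521) (nat_lit 381) (nat_lit 298))) (XT.nd (nat_lit 78) (nat_lit 0) (nat_lit 0) (XT.lf (nat_lit 0) (nat_lit 29651509421) (nat_lit 76) (nat_lit 76786541988) (nat_lit 76) (nat_lit 73058358385) (nat_lit 9) (nat_lit 4) (nat_lit 10) (nat_lit 5) (nat_lit 10) (nat_lit 4) (nat_lit 522) (nat_lit 381) (nat_lit 297)) (XT.nd (nat_lit 78) (nat_lit 0) (nat_lit 0) (XT.lf (nat_lit 0) (nat_lit 74157657064) (nat_lit 76) (nat_lit 58495302914) (nat_lit 76) (nat_lit 54764122590) (nat_lit 9) (nat_lit 4) (nat_lit 10) (nat_lit 5) (nat_lit 10) (nat_lit 4) (nat_lit 523) (nat_lit 381) (nat_lit 296)) (XT.lf (nat_lit 0) (nat_lit 120824799070) (nat_lit 76) (nat_lit 39322300015) (nat_lit 76) (nat_lit 35588265669) (nat_lit 9) (nat_lit 4) (nat_lit 10) (nat_lit 5) (nat_lit 10) (nat_lit 4) (nat_lit 524) (nat_lit 381) (nat_lit 295))))))))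
noncomputable def xc110 : XT := (XT.nd (nat_lit 1248) (nat_lit 76) (nat_lit 0) (XT.nd (nat_lit 624) (nat_lit 152) (nat_lit 0) (XT.nd (nat_lit 312) (nat_lit 76) (nat_lit 0) (XT.nd (nat_lit 156) (nat_lit 0) (nat_lit 0) (XT.nd (nat_lit 78) (nat_lit 152) (nat_lit 0) (XT.lf (nat_lit 0) (nat_lit 169764047681) (nat_lit 76) (nat_lit 19221883284) (nat_lit 76) (nat_lit 15485130822) (nat_lit 9) (nat_lit 4) (nat_lit 10) (nat_lit 5) (nat_lit 10) (nat_lit 4) (nat_lit 525) (nat_lit 381) (nat_lit 294)) (XT.lf (nat_lit 0) (nat_lit 5565155215) (nat_lit 152) (nat_lit 206064022345) (nat_lit 0) (nat_lit 2003877936) (nat_lit 7) (nat_lit 5) (nat_lit 9) (nat_lit 4) (nat_lit 7) (nat_lit 4) (nat_lit 526) (nat_lit 381) (nat_lit 293))) (XT.nd (nat_lit 78) (nat_lit 0) (nat_lit 0) (XT.lf (nat_lit 0) (nat_lit 28031036797) (nat_lit 152) (nat_lit 170697833722) (nat_lit 0) (nat_lit 24467411508) (nat_lit 7) (nat_lit 5) (nat_lit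 9) (nat_lit 4) (nat_lit 7) (nat_lit 4) (nat_lit 527) (nat_lit 381) (nat_lit 292)) (XT.lf (nat_lit 0) (nat_lit 51592550098) (nat_lit 152) (nat_lit 133619814319) (nat_lit 0) (nat_lit 48026688608) (nat_lit 7) (nat_lit 5) (nat_lit 9) (nat_lit 4) (nat_lit 7) (nat_lit 4) (nat_lit 528) (nat_lit 381) (nat_lit 291)))) (XT.nd (nat_lit 156) (nat_lit 76) (nat_lit 0) (XT.nd (nat_lit 78) (nat_lit 0) (nat_lit 0) (XT.lf (nat_lit 0) (nat_lit 76305793958) (nat_lit 152) (nat_lit 94741683138) (nat_lit 0) (nat_lit 72737802753) (nat_lit 7) (nat_lit 5) (nat_lit 9) (nat_lit 4) (nat_lit 7) (nat_lit 4) (nat_lit 529) (nat_lit 381) (nat_lit 290)) (XT.lf (nat_lit 0) (nat_lit 102229609435) (nat_lit 152) (nat_lit 53970873199) (nat_lit 0) (nat_lit 98659589931) (nat_lit 7) (nat_lit 5) (nat_lit 9) (nat_lit 4) (nat_lit 7) (nat_lit 4) (nat_lit 530) (nat_lit 381) (nat_lit 289))) (XT.nd (nat_lit 78) (nat_lit 76) (nat_lit 0) (XT.lf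 (nat_lit 0) (nat_lit 129425719899) (nat_lit 152) (nat_lit 11210311146) (nat_lit 0) (nat_lit 125853768680) (nat_lit 7) (nat_lit 5) (nat_lit 9) (nat_lit 4) (nat_lit 7) (nat_lit 4) (nat_lit 531) (nat_lit 381) (nat_lit 288)) (XT.lf (nat_lit 0) (nat_lit 34754164179) (nat_lit 76) (nat_lit 123747323714) (nat_lit 76) (nat_lit 120173532768) (nat_lit 6) (nat_lit 4) (nat_lit 7) (nat_lit 5) (nat_lit 7) (nat_lit 4) (nat_lit 532) (nat_lit 381) (nat_lit 287))))) (XT.nd (nat_lit 312) (nat_lit 152) (nat_lit 0) (XT.nd (nat_lit 156) (nat_lit 0) (nat_lit 0) (XT.nd (nat_lit 78) (nat_lit 0) (nat_lit 0) (XT.lf (nat_lit 0) (nat_lit 83360344273) (nat_lit 76) (nat_lit 105838164127) (nat_lit 76) (nat_lit 102262621059) (nat_lit 6) (nat_lit 4) (nat_lit 7) (nat_lit 5) (nat_lit 7) (nat_lit 4) (nat_lit 533) (nat_lit 381) (nat_lit 286)) (XT.lf (nat_lit 0) (nat_lit 134353294620) (nat_lit 76) (nat_lit 87055763469) (nat_lit 76) (nat_lit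 83478551715) (nat_lit 6) (nat_lit 4) (nat_lit 7) (nat_lit 5) (nat_lit 7) (nat_lit 4) (nat_lit 534) (nat_lit 381) (nat_lit 285))) (XT.nd (nat_lit 78) (nat_lit 0) (nat_lit 0) (XT.lf (nat_lit 0) (nat_lit 187854427007) (nat_lit 76) (nat_lit 67355401741) (nat_lit 76) (nat_lit 63776600760) (nat_lit 6) (nat_lit 4) (nat_lit 7) (nat_lit 5) (nat_lit 7) (nat_lit 4) (nat_lit 535) (nat_lit 381) (nat_lit 284)) (XT.lf (nat_lit 0) (nat_lit 243991125083) (nat_lit 76) (nat_lit 46690173319) (nat_lit 76) (nat_lit 43109858790) (nat_lit 6) (nat_lit 4) (nat_lit 7) (nat_lit 5) (nat_lit 7) (nat_lit 4) (nat_lit 536) (nat_lit 381) (nat_lit 283)))) (XT.nd (nat_lit 156) (nat_lit 76) (nat_lit 0) (XT.nd (nat_lit 78) (nat_lit 76) (nat_lit 0) (XT.lf (nat_lit 0) (nat_lit 302897047652) (nat_lit 76) (nat_lit 25010875277) (nat_lit 76) (nat_lit 21429119274) (nat_lit 6) (nat_lit 4) (nat_lit 7) (nat_lit 5) (nat_lit 7) (nat_lit 4) (nat_lit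 537) (nat_lit 381) (nat_lit 282)) (XT.lf (nat_lit 0) (nat_lit 1275078733) (nat_lit 152) (nat_lit 969217432) (nat_lit 76) (nat_lit 363415774102) (nat_lit 5) (nat_lit 5) (nat_lit 7) (nat_lit 5) (nat_lit 6) (nat_lit 4) (nat_lit 538) (nat_lit 381) (nat_lit 281))) (XT.nd (nat_lit 78) (nat_lit 0) (nat_lit 0) (XT.lf (nat_lit 0) (nat_lit 25481490643) (nat_lit 152) (nat_lit 335178094316) (nat_lit 0) (nat_lit 22067741789) (nat_lit 4) (nat_lit 5) (nat_lit 6) (nat_lit 4) (nat_lit 4) (nat_lit 4) (nat_lit 539) (nat_lit 381) (nat_lit 280)) (XT.lf (nat_lit 0) (nat_lit 50934722119) (nat_lit 152) (nat_lit 302191611639) (nat_lit 0) (nat_lit 47519787360) (nat_lit 4) (nat_lit 5) (nat_lit 6) (nat_lit 4) (nat_lit 4) (nat_lit 4) (nat_lit 540) (nat_lit 381) (nat_lit 279)))))) (XT.nd (nat_lit 624) (nat_lit 0) (nat_lit 0) (XT.nd (nat_lit 312) (nat_lit 76) (nat_lit 0) (XT.nd (nat_lit 156) (nat_lit 0) (nat_lit 0) (XT.nd (nat_lit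 78) (nat_lit 0) (nat_lit 0) (XT.lf (nat_lit 0) (nat_lit 77644447530) (nat_lit 152) (nat_lit 267588832732) (nat_lit 0) (nat_lit 74228383337) (nat_lit 4) (nat_lit 5) (nat_lit 6) (nat_lit 4) (nat_lit 4) (nat_lit 4) (nat_lit 541) (nat_lit 381) (nat_lit 278)) (XT.lf (nat_lit 0) (nat_lit 105674261459) (nat_lit 152) (nat_lit 231287370028) (nat_lit 0) (nat_lit 102257121616) (nat_lit 4) (nat_lit 5) (nat_lit 6) (nat_lit 4) (nat_lit 4) (nat_lit 4) (nat_lit 542) (nat_lit 381) (nat_lit 277))) (XT.nd (nat_lit 78) (nat_lit 0) (nat_lit 0) (XT.lf (nat_lit 0) (nat_lit 135090901560) (nat_lit 152) (nat_lit 193200791471) (nat_lit 0) (nat_lit 131672737288) (nat_lit 4) (nat_lit 5) (nat_lit 6) (nat_lit 4) (nat_lit 4) (nat_lit 4) (nat_lit 543) (nat_lit 381) (nat_lit 276)) (XT.lf (nat_lit 0) (nat_lit 165964407452) (nat_lit 152) (nat_lit 153238414733) (nat_lit 0) (nat_lit 162545267533) (nat_lit 4) (nat_lit 5) (nat_lit 6)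 (nat_lit 4) (nat_lit 4) (nat_lit 4) (nat_lit 544) (nat_lit 381) (nat_lit 275)))) (XT.nd (nat_lit 156) (nat_lit 76) (nat_lit 0) (XT.nd (nat_lit 78) (nat_lit 0) (nat_lit 0) (XT.lf (nat_lit 0) (nat_lit 198368287481) (nat_lit 152) (nat_lit 111305091296) (nat_lit 0) (nat_lit 194948218375) (nat_lit 4) (nat_lit 5) (nat_lit 6) (nat_lit 4) (nat_lit 4) (nat_lit 4) (nat_lit 545) (nat_lit 381) (nat_lit 274)) (XT.lf (nat_lit 0) (nat_lit 232379693744) (nat_lit 152) (nat_lit 67300979915) (nat_lit 0) (nat_lit 228958739697) (nat_lit 4) (nat_lit 5) (nat_lit 6) (nat_lit 4) (nat_lit 4) (nat_lit 4) (nat_lit 546) (nat_lit 381) (nat_lit 273))) (XT.nd (nat_lit 78) (nat_lit 76) (nat_lit 0) (XT.lf (nat_lit 0) (nat_lit 268079605779) (nat_lit 152) (nat_lit 21121308896) (nat_lit 0) (nat_lit 264657808932) (nat_lit 4) (nat_lit 5) (nat_lit 6) (nat_lit 4) (nat_lit 4) (nat_lit 4) (nat_lit 547) (nat_lit 381) (nat_lit 272)) (XT.lf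 (nat_lit 0) (nat_lit 28247985299) (nat_lit 76) (nat_lit 277746068292) (nat_lit 76) (nat_lit 274323468777) (nat_lit 3) (nat_lit 4) (nat_lit 4) (nat_lit 5) (nat_lit 4) (nat_lit 4) (nat_lit 548) (nat_lit 381) (nat_lit 271))))) (XT.nd (nat_lit 312) (nat_lit 0) (nat_lit 0) (XT.nd (nat_lit 156) (nat_lit 0) (nat_lit 0) (XT.nd (nat_lit 78) (nat_lit 0) (nat_lit 0) (XT.lf (nat_lit 0) (nat_lit 80795934628) (nat_lit 76) (nat_lit 265354685300) (nat_lit 76) (nat_lit 261931321341) (nat_lit 3) (nat_lit 4) (nat_lit 4) (nat_lit 5) (nat_lit 4) (nat_lit 4) (nat_lit 549) (nat_lit 381) (nat_lit 270)) (XT.lf (nat_lit 0) (nat_lit 135949287394) (nat_lit 76) (nat_lit 252354961995) (nat_lit 76) (nat_lit 248930869994) (nat_lit 3) (nat_lit 4) (nat_lit 4) (nat_lit 5) (nat_lit 4) (nat_lit 4) (nat_lit 550) (nat_lit 381) (nat_lit 269))) (XT.nd (nat_lit 78) (nat_lit 0) (nat_lit 0) (XT.lf (nat_lit 0) (nat_lit 193839361106) (nat_lit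 76) (nat_lit 238715946654) (nat_lit 76) (nat_lit 235291161278) (nat_lit 3) (nat_lit 4) (nat_lit 4) (nat_lit 5) (nat_lit 4) (nat_lit 4) (nat_lit 551) (nat_lit 381) (nat_lit 268)) (XT.lf (nat_lit 0) (nat_lit 254603989271) (nat_lit 76) (nat_lit 224405165430) (nat_lit 76) (nat_lit 220979719698) (nat_lit 3) (nat_lit 4) (nat_lit 4) (nat_lit 5) (nat_lit 4) (nat_lit 4) (nat_lit 552) (nat_lit 381) (nat_lit 267)))) (XT.nd (nat_lit 156) (nat_lit 0) (nat_lit 0) (XT.nd (nat_lit 78) (nat_lit 0) (nat_lit 0) (XT.lf (nat_lit 0) (nat_lit 318387849576) (nat_lit 76) (nat_lit 209388545035) (nat_lit 76) (nat_lit 205962470392) (nat_lit 3) (nat_lit 4) (nat_lit 4) (nat_lit 5) (nat_lit 4) (nat_lit 4) (nat_lit 553) (nat_lit 381) (nat_lit 266)) (XT.lf (nat_lit 0) (nat_lit 385342808355) (nat_lit 76) (nat_lit 193630331611) (nat_lit 76) (nat_lit 190203658006) (nat_lit 3) (nat_lit 4) (nat_lit 4) (nat_lit 5) (nat_lit 4) (nat_lit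 4) (nat_lit 554) (nat_lit 381) (nat_lit 265))) (XT.nd (nat_lit 78) (nat_lit 0) (nat_lit 0) (XT.lf (nat_lit 0) (nat_lit 455628282177) (nat_lit 76) (nat_lit 177093005602) (nat_lit 76) (nat_lit 173665761557) (nat_lit 3) (nat_lit 4) (nat_lit 4) (nat_lit 5) (nat_lit 4) (nat_lit 4) (nat_lit 555) (nat_lit 381) (nat_lit 264)) (XT.nd (nat_lit 53118) (nat_lit 0) (nat_lit 6992) (XT.lf (nat_lit 0) (nat_lit 529411617407) (nat_lit 76) (nat_lit 159737192423) (nat_lit 76) (nat_lit 156309405101) (nat_lit 3) (nat_lit 4) (nat_lit 4) (nat_lit 5) (nat_lit 4) (nat_lit 4) (nat_lit 556) (nat_lit 381) (nat_lit 263)) (XT.lf (nat_lit 0) (nat_lit 1476450798) (nat_lit 152) (nat_lit 1827845657) (nat_lit 152) (nat_lit 1827845657) (nat_lit 95) (nat_lit 4) (nat_lit 97) (nat_lit 5) (nat_lit 97) (nat_lit 4) (nat_lit 436) (nat_lit 382) (nat_lit 382))))))))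
noncomputable def xc111 : XT := (XT.nd (nat_lit 1248) (nat_lit 1520) (nat_lit 0) (XT.nd (nat_lit 624) (nat_lit 988) (nat_lit 0) (XT.nd (nat_lit 312) (nat_lit 608) (nat_lit 0) (XT.nd (nat_lit 156) (nat_lit 228) (nat_lit 0) (XT.nd (nat_lit 78) (nat_lit 152) (nat_lit 0) (XT.lf (nat_lit 0) (nat_lit 1403372725) (nat_lit 228) (nat_lit 8325803299) (nat_lit 0) (nat_lit 761469712) (nat_lit 92) (nat_lit 5) (nat_lit 95) (nat_lit 4) (nat_lit 92) (nat_lit 4) (nat_lit 437) (nat_lit 382) (nat_lit 381)) (XT.lf (nat_lit 0) (nat_lit 1241112791) (nat_lit 152) (nat_lit 5368308616) (nat_lit 152) (nat_lit 4115069402) (nat_lit 90) (nat_lit 4) (nat_lit 92) (nat_lit 5) (nat_lit 92) (nat_lit 4) (nat_lit 438) (nat_lit 382) (nat_lit 380))) (XT.nd (nat_lit 78) (nat_lit 0) (nat_lit 0) (XT.lf (nat_lit 0) (nat_lit 277469906) (nat_lit 152) (nat_lit 753229642) (nat_lit 228) (nat_lit 9940453806) (nat_lit 87) (nat_lit 5) (nat_lit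 89) (nat_lit 5) (nat_lit 90) (nat_lit 4) (nat_lit 439) (nat_lit 382) (nat_lit 379)) (XT.lf (nat_lit 0) (nat_lit 6337119022) (nat_lit 228) (nat_lit 826616943) (nat_lit 0) (nat_lit 4060962712) (nat_lit 87) (nat_lit 5) (nat_lit 90) (nat_lit 4) (nat_lit 87) (nat_lit 4) (nat_lit 440) (nat_lit 382) (nat_lit 378)))) (XT.nd (nat_lit 156) (nat_lit 304) (nat_lit 0) (XT.nd (nat_lit 78) (nat_lit 76) (nat_lit 0) (XT.lf (nat_lit 0) (nat_lit 388561383) (nat_lit 228) (nat_lit 1982553279) (nat_lit 76) (nat_lit 9120285279) (nat_lit 84) (nat_lit 5) (nat_lit 87) (nat_lit 5) (nat_lit 85) (nat_lit 4) (nat_lit 441) (nat_lit 382) (nat_lit 377)) (XT.lf (nat_lit 0) (nat_lit 5778487897) (nat_lit 152) (nat_lit 3312701607) (nat_lit 0) (nat_lit 2675533585) (nat_lit 83) (nat_lit 5) (nat_lit 85) (nat_lit 4) (nat_lit 83) (nat_lit 4) (nat_lit 442) (nat_lit 382) (nat_lit 376))) (XT.nd (nat_lit 78) (nat_lit 152) (nat_lit 0) (XT.lf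 (nat_lit 0) (nat_lit 7308733593) (nat_lit 152) (nat_lit 4141932517) (nat_lit 152) (nat_lit 604512981) (nat_lit 81) (nat_lit 4) (nat_lit 83) (nat_lit 5) (nat_lit 83) (nat_lit 4) (nat_lit 443) (nat_lit 382) (nat_lit 375)) (XT.lf (nat_lit 0) (nat_lit 4882222987) (nat_lit 152) (nat_lit 6352948353) (nat_lit 0) (nat_lit 1119179233) (nat_lit 79) (nat_lit 5) (nat_lit 81) (nat_lit 4) (nat_lit 79) (nat_lit 4) (nat_lit 444) (nat_lit 382) (nat_lit 374))))) (XT.nd (nat_lit 312) (nat_lit 456) (nat_lit 0) (XT.nd (nat_lit 156) (nat_lit 228) (nat_lit 0) (XT.nd (nat_lit 78) (nat_lit 152) (nat_lit 0) (XT.lf (nat_lit 0) (nat_lit 4538201604) (nat_lit 152) (nat_lit 6132867054) (nat_lit 152) (nat_lit 1994515903) (nat_lit 77) (nat_lit 4) (nat_lit 79) (nat_lit 5) (nat_lit 79) (nat_lit 4) (nat_lit 445) (nat_lit 382) (nat_lit 373)) (XT.lf (nat_lit 0) (nat_lit 2925179920) (nat_lit 76) (nat_lit 694803829) (nat_lit 152) (nat_lit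 9370304448) (nat_lit 75) (nat_lit 5) (nat_lit 76) (nat_lit 5) (nat_lit 77) (nat_lit 4) (nat_lit 446) (nat_lit 382) (nat_lit 372))) (XT.nd (nat_lit 78) (nat_lit 76) (nat_lit 0) (XT.lf (nat_lit 0) (nat_lit 1093317358) (nat_lit 152) (nat_lit 8419476866) (nat_lit 152) (nat_lit 3813570543) (nat_lit 73) (nat_lit 4) (nat_lit 75) (nat_lit 5) (nat_lit 75) (nat_lit 4) (nat_lit 447) (nat_lit 382) (nat_lit 371)) (XT.lf (nat_lit 0) (nat_lit 1970819814) (nat_lit 228) (nat_lit 874492028) (nat_lit 76) (nat_lit 10831633453) (nat_lit 72) (nat_lit 5) (nat_lit 75) (nat_lit 5) (nat_lit 73) (nat_lit 4) (nat_lit 448) (nat_lit 382) (nat_lit 370)))) (XT.nd (nat_lit 156) (nat_lit 228) (nat_lit 0) (XT.nd (nat_lit 78) (nat_lit 152) (nat_lit 0) (XT.lf (nat_lit 0) (nat_lit 7975232361) (nat_lit 152) (nat_lit 3049219720) (nat_lit 0) (nat_lit 3014531587) (nat_lit 71) (nat_lit 5) (nat_lit 73) (nat_lit 4) (nat_lit 71) (nat_lit 4)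 (nat_lit 449) (nat_lit 382) (nat_lit 369)) (XT.lf (nat_lit 0) (nat_lit 8997339800) (nat_lit 152) (nat_lit 5323579475) (nat_lit 152) (nat_lit 96154741) (nat_lit 69) (nat_lit 4) (nat_lit 71) (nat_lit 5) (nat_lit 71) (nat_lit 4) (nat_lit 450) (nat_lit 382) (nat_lit 368))) (XT.nd (nat_lit 78) (nat_lit 76) (nat_lit 0) (XT.lf (nat_lit 0) (nat_lit 5981909103) (nat_lit 152) (nat_lit 8065384978) (nat_lit 0) (nat_lit 761482862) (nat_lit 67) (nat_lit 5) (nat_lit 69) (nat_lit 4) (nat_lit 67) (nat_lit 4) (nat_lit 451) (nat_lit 382) (nat_lit 367)) (XT.lf (nat_lit 0) (nat_lit 4228155163) (nat_lit 76) (nat_lit 8219166005) (nat_lit 76) (nat_lit 2768333579) (nat_lit 66) (nat_lit 4) (nat_lit 67) (nat_lit 5) (nat_lit 67) (nat_lit 4) (nat_lit 452) (nat_lit 382) (nat_lit 366)))))) (XT.nd (nat_lit 624) (nat_lit 836) (nat_lit 0) (XT.nd (nat_lit 312) (nat_lit 304) (nat_lit 0) (XT.nd (nat_lit 156) (nat_lit 228) (nat_lit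 0) (XT.nd (nat_lit 78) (nat_lit 0) (nat_lit 0) (XT.lf (nat_lit 0) (nat_lit 1464316685) (nat_lit 76) (nat_lit 2015967984) (nat_lit 152) (nat_lit 12159680993) (nat_lit 64) (nat_lit 5) (nat_lit 65) (nat_lit 5) (nat_lit 66) (nat_lit 4) (nat_lit 453) (nat_lit 382) (nat_lit 365)) (XT.lf (nat_lit 0) (nat_lit 10048798536) (nat_lit 152) (nat_lit 1579890734) (nat_lit 0) (nat_lit 4449510831) (nat_lit 64) (nat_lit 5) (nat_lit 66) (nat_lit 4) (nat_lit 64) (nat_lit 4) (nat_lit 454) (nat_lit 382) (nat_lit 364))) (XT.nd (nat_lit 78) (nat_lit 76) (nat_lit 0) (XT.lf (nat_lit 0) (nat_lit 459783300) (nat_lit 152) (nat_lit 4846287676) (nat_lit 76) (nat_lit 11228687585) (nat_lit 62) (nat_lit 5) (nat_lit 64) (nat_lit 5) (nat_lit 63) (nat_lit 4) (nat_lit 455) (nat_lit 382) (nat_lit 363)) (XT.lf (nat_lit 0) (nat_lit 7103306865) (nat_lit 152) (nat_lit 8486082381) (nat_lit 0) (nat_lit 1418189991) (nat_lit 61) (nat_lit 5)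 (nat_lit 63) (nat_lit 4) (nat_lit 61) (nat_lit 4) (nat_lit 456) (nat_lit 382) (nat_lit 362)))) (XT.nd (nat_lit 156) (nat_lit 76) (nat_lit 0) (XT.nd (nat_lit 78) (nat_lit 152) (nat_lit 0) (XT.lf (nat_lit 0) (nat_lit 5006315258) (nat_lit 76) (nat_lit 9170841067) (nat_lit 76) (nat_lit 3321978819) (nat_lit 60) (nat_lit 4) (nat_lit 61) (nat_lit 5) (nat_lit 61) (nat_lit 4) (nat_lit 457) (nat_lit 382) (nat_lit 361)) (XT.lf (nat_lit 0) (nat_lit 1146322797) (nat_lit 76) (nat_lit 2342034773) (nat_lit 152) (nat_lit 14523420134) (nat_lit 58) (nat_lit 5) (nat_lit 59) (nat_lit 5) (nat_lit 60) (nat_lit 4) (nat_lit 458) (nat_lit 382) (nat_lit 360))) (XT.nd (nat_lit 78) (nat_lit 76) (nat_lit 0) (XT.lf (nat_lit 0) (nat_lit 10668323112) (nat_lit 152) (nat_lit 3063963351) (nat_lit 0) (nat_lit 4808006821) (nat_lit 58) (nat_lit 5) (nat_lit 60) (nat_lit 4) (nat_lit 58) (nat_lit 4) (nat_lit 459) (nat_lit 382) (nat_lit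 359)) (XT.lf (nat_lit 0) (nat_lit 11478176690) (nat_lit 76) (nat_lit 6804168226) (nat_lit 76) (nat_lit 809138211) (nat_lit 57) (nat_lit 4) (nat_lit 58) (nat_lit 5) (nat_lit 58) (nat_lit 4) (nat_lit 460) (nat_lit 382) (nat_lit 358))))) (XT.nd (nat_lit 312) (nat_lit 456) (nat_lit 0) (XT.nd (nat_lit 156) (nat_lit 152) (nat_lit 0) (XT.nd (nat_lit 78) (nat_lit 76) (nat_lit 0) (XT.lf (nat_lit 0) (nat_lit 6425092073) (nat_lit 152) (nat_lit 12645147891) (nat_lit 0) (nat_lit 593350359) (nat_lit 55) (nat_lit 5) (nat_lit 57) (nat_lit 4) (nat_lit 55) (nat_lit 4) (nat_lit 461) (nat_lit 382) (nat_lit 357)) (XT.lf (nat_lit 0) (nat_lit 2047836665) (nat_lit 76) (nat_lit 12078642400) (nat_lit 76) (nat_lit 6130529905) (nat_lit 54) (nat_lit 4) (nat_lit 55) (nat_lit 5) (nat_lit 55) (nat_lit 4) (nat_lit 462) (nat_lit 382) (nat_lit 356))) (XT.nd (nat_lit 78) (nat_lit 76) (nat_lit 0) (XT.lf (nat_lit 0) (nat_lit 1366097857)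 (nat_lit 152) (nat_lit 3258441201) (nat_lit 76) (nat_lit 16250724105) (nat_lit 53) (nat_lit 5) (nat_lit 55) (nat_lit 5) (nat_lit 54) (nat_lit 4) (nat_lit 463) (nat_lit 382) (nat_lit 355)) (XT.lf (nat_lit 0) (nat_lit 9144062984) (nat_lit 152) (nat_lit 9096599734) (nat_lit 0) (nat_lit 3273116758) (nat_lit 52) (nat_lit 5) (nat_lit 54) (nat_lit 4) (nat_lit 52) (nat_lit 4) (nat_lit 464) (nat_lit 382) (nat_lit 354)))) (XT.nd (nat_lit 156) (nat_lit 228) (nat_lit 0) (XT.nd (nat_lit 78) (nat_lit 152) (nat_lit 0) (XT.lf (nat_lit 0) (nat_lit 6679053016) (nat_lit 76) (nat_lit 10733389266) (nat_lit 76) (nat_lit 4766704511) (nat_lit 51) (nat_lit 4) (nat_lit 52) (nat_lit 5) (nat_lit 52) (nat_lit 4) (nat_lit 465) (nat_lit 382) (nat_lit 353)) (XT.lf (nat_lit 0) (nat_lit 382314358) (nat_lit 76) (nat_lit 2759236209) (nat_lit 152) (nat_lit 19732319942) (nat_lit 49) (nat_lit 5) (nat_lit 50) (nat_lit 5) (nat_lit 51)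 (nat_lit 4) (nat_lit 466) (nat_lit 382) (nat_lit 352))) (XT.nd (nat_lit 78) (nat_lit 228) (nat_lit 0) (XT.lf (nat_lit 0) (nat_lit 11505249490) (nat_lit 152) (nat_lit 6430011085) (nat_lit 0) (nat_lit 5653152372) (nat_lit 49) (nat_lit 5) (nat_lit 51) (nat_lit 4) (nat_lit 49) (nat_lit 4) (nat_lit 467) (nat_lit 382) (nat_lit 351)) (XT.nd (nat_lit 78) (nat_lit 152) (nat_lit 0) (XT.lf (nat_lit 0) (nat_lit 10470512503) (nat_lit 76) (nat_lit 9897494292) (nat_lit 76) (nat_lit 3966632848) (nat_lit 48) (nat_lit 4) (nat_lit 49) (nat_lit 5) (nat_lit 49) (nat_lit 4) (nat_lit 468) (nat_lit 382) (nat_lit 350)) (XT.lf (nat_lit 0) (nat_lit 3098716377) (nat_lit 76) (nat_lit 1342547750) (nat_lit 152) (nat_lit 20671790328) (nat_lit 46) (nat_lit 5) (nat_lit 47) (nat_lit 5) (nat_lit 48) (nat_lit 4) (nat_lit 469) (nat_lit 382) (nat_lit 349))))))))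
noncomputable def xc112 : XT := (XT.nd (nat_lit 1248) (nat_lit 912) (nat_lit 0) (XT.nd (nat_lit 624) (nat_lit 608) (nat_lit 0) (XT.nd (nat_lit 312) (nat_lit 304) (nat_lit 0) (XT.nd (nat_lit 156) (nat_lit 152) (nat_lit 0) (XT.nd (nat_lit 78) (nat_lit 76) (nat_lit 0) (XT.lf (nat_lit 0) (nat_lit 13366705659) (nat_lit 152) (nat_lit 4970125941) (nat_lit 0) (nat_lit 7578785040) (nat_lit 46) (nat_lit 5) (nat_lit 48) (nat_lit 4) (nat_lit 46) (nat_lit 4) (nat_lit 470) (nat_lit 382) (nat_lit 348)) (XT.lf (nat_lit 0) (nat_lit 13080715252) (nat_lit 76) (nat_lit 9762535499) (nat_lit 76) (nat_lit 3909815275) (nat_lit 45) (nat_lit 4) (nat_lit 46) (nat_lit 5) (nat_lit 46) (nat_lit 4) (nat_lit 471) (nat_lit 382) (nat_lit 347))) (XT.nd (nat_lit 78) (nat_lit 0) (nat_lit 0) (XT.lf (nat_lit 0) (nat_lit 4394830087) (nat_lit 76) (nat_lit 634079288) (nat_lit 152) (nat_lit 22597806747) (nat_lit 43) (nat_lit 5) (nat_lit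 44) (nat_lit 5) (nat_lit 45) (nat_lit 4) (nat_lit 472) (nat_lit 382) (nat_lit 346)) (XT.lf (nat_lit 0) (nat_lit 14537157415) (nat_lit 152) (nat_lit 5142601319) (nat_lit 0) (nat_lit 8848386668) (nat_lit 43) (nat_lit 5) (nat_lit 45) (nat_lit 4) (nat_lit 43) (nat_lit 4) (nat_lit 473) (nat_lit 382) (nat_lit 345)))) (XT.nd (nat_lit 156) (nat_lit 76) (nat_lit 0) (XT.nd (nat_lit 78) (nat_lit 152) (nat_lit 0) (XT.lf (nat_lit 0) (nat_lit 14059767680) (nat_lit 76) (nat_lit 10575616130) (nat_lit 76) (nat_lit 4833534587) (nat_lit 42) (nat_lit 4) (nat_lit 43) (nat_lit 5) (nat_lit 43) (nat_lit 4) (nat_lit 474) (nat_lit 382) (nat_lit 344)) (XT.lf (nat_lit 0) (nat_lit 3761659501) (nat_lit 76) (nat_lit 899078659) (nat_lit 152) (nat_lit 25790659827) (nat_lit 40) (nat_lit 5) (nat_lit 41) (nat_lit 5) (nat_lit 42) (nat_lit 4) (nat_lit 475) (nat_lit 382) (nat_lit 343))) (XT.nd (nat_lit 78) (nat_lit 76) (nat_lit 0) (XT.lf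 (nat_lit 0) (nat_lit 14762022462) (nat_lit 152) (nat_lit 7503313795) (nat_lit 0) (nat_lit 9198967041) (nat_lit 40) (nat_lit 5) (nat_lit 42) (nat_lit 4) (nat_lit 40) (nat_lit 4) (nat_lit 476) (nat_lit 382) (nat_lit 342)) (XT.lf (nat_lit 0) (nat_lit 12817720717) (nat_lit 76) (nat_lit 12655892910) (nat_lit 76) (nat_lit 7048978566) (nat_lit 39) (nat_lit 4) (nat_lit 40) (nat_lit 5) (nat_lit 40) (nat_lit 4) (nat_lit 477) (nat_lit 382) (nat_lit 341))))) (XT.nd (nat_lit 312) (nat_lit 380) (nat_lit 0) (XT.nd (nat_lit 156) (nat_lit 76) (nat_lit 0) (XT.nd (nat_lit 78) (nat_lit 0) (nat_lit 0) (XT.lf (nat_lit 0) (nat_lit 534397367) (nat_lit 76) (nat_lit 2481740249) (nat_lit 152) (nat_lit 30613850912) (nat_lit 37) (nat_lit 5) (nat_lit 38) (nat_lit 5) (nat_lit 39) (nat_lit 4) (nat_lit 478) (nat_lit 382) (nat_lit 340)) (XT.lf (nat_lit 0) (nat_lit 13705425774) (nat_lit 152) (nat_lit 12775822012) (nat_lit 0) (nat_lit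 8287839028) (nat_lit 37) (nat_lit 5) (nat_lit 39) (nat_lit 4) (nat_lit 37) (nat_lit 4) (nat_lit 479) (nat_lit 382) (nat_lit 339))) (XT.nd (nat_lit 78) (nat_lit 0) (nat_lit 0) (XT.lf (nat_lit 0) (nat_lit 8584070396) (nat_lit 76) (nat_lit 16415607306) (nat_lit 76) (nat_lit 10961937716) (nat_lit 36) (nat_lit 4) (nat_lit 37) (nat_lit 5) (nat_lit 37) (nat_lit 4) (nat_lit 480) (nat_lit 382) (nat_lit 338)) (XT.lf (nat_lit 0) (nat_lit 31248966210) (nat_lit 76) (nat_lit 5723572000) (nat_lit 76) (nat_lit 235537796) (nat_lit 36) (nat_lit 4) (nat_lit 37) (nat_lit 5) (nat_lit 37) (nat_lit 4) (nat_lit 481) (nat_lit 382) (nat_lit 337)))) (XT.nd (nat_lit 156) (nat_lit 152) (nat_lit 0) (XT.nd (nat_lit 78) (nat_lit 76) (nat_lit 0) (XT.lf (nat_lit 0) (nat_lit 10927107818) (nat_lit 152) (nat_lit 21899261787) (nat_lit 0) (nat_lit 5669238858) (nat_lit 34) (nat_lit 5) (nat_lit 36) (nat_lit 4) (nat_lit 34) (nat_lit 4)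 (nat_lit 482) (nat_lit 382) (nat_lit 336)) (XT.lf (nat_lit 0) (nat_lit 355952994) (nat_lit 76) (nat_lit 22386891245) (nat_lit 76) (nat_lit 17099336840) (nat_lit 33) (nat_lit 4) (nat_lit 34) (nat_lit 5) (nat_lit 34) (nat_lit 4) (nat_lit 483) (nat_lit 382) (nat_lit 335))) (XT.nd (nat_lit 78) (nat_lit 152) (nat_lit 0) (XT.lf (nat_lit 0) (nat_lit 24287362376) (nat_lit 76) (nat_lit 11135437440) (nat_lit 76) (nat_lit 5819611182) (nat_lit 33) (nat_lit 4) (nat_lit 34) (nat_lit 5) (nat_lit 34) (nat_lit 4) (nat_lit 484) (nat_lit 382) (nat_lit 334)) (XT.lf (nat_lit 0) (nat_lit 5852815129) (nat_lit 152) (nat_lit 36089578682) (nat_lit 0) (nat_lit 764480050) (nat_lit 31) (nat_lit 5) (nat_lit 33) (nat_lit 4) (nat_lit 31) (nat_lit 4) (nat_lit 485) (nat_lit 382) (nat_lit 333)))))) (XT.nd (nat_lit 624) (nat_lit 456) (nat_lit 0) (XT.nd (nat_lit 312) (nat_lit 228) (nat_lit 0) (XT.nd (nat_lit 156) (nat_lit 152) (nat_lit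 0) (XT.nd (nat_lit 78) (nat_lit 76) (nat_lit 0) (XT.lf (nat_lit 0) (nat_lit 18293443372) (nat_lit 152) (nat_lit 12746652685) (nat_lit 0) (nat_lit 13180686004) (nat_lit 31) (nat_lit 5) (nat_lit 33) (nat_lit 4) (nat_lit 31) (nat_lit 4) (nat_lit 486) (nat_lit 382) (nat_lit 332)) (XT.lf (nat_lit 0) (nat_lit 11964758778) (nat_lit 76) (nat_lit 19488395626) (nat_lit 76) (nat_lit 14352378935) (nat_lit 30) (nat_lit 4) (nat_lit 31) (nat_lit 5) (nat_lit 31) (nat_lit 4) (nat_lit 487) (nat_lit 382) (nat_lit 331))) (XT.nd (nat_lit 78) (nat_lit 152) (nat_lit 0) (XT.lf (nat_lit 0) (nat_lit 38175597137) (nat_lit 76) (nat_lit 7222856778) (nat_lit 76) (nat_lit 2064688349) (nat_lit 30) (nat_lit 4) (nat_lit 31) (nat_lit 5) (nat_lit 31) (nat_lit 4) (nat_lit 488) (nat_lit 382) (nat_lit 330)) (XT.lf (nat_lit 0) (nat_lit 10759564967) (nat_lit 152) (nat_lit 32595223334) (nat_lit 0) (nat_lit 5826931329) (nat_lit 28) (nat_lit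 5) (nat_lit 30) (nat_lit 4) (nat_lit 28) (nat_lit 4) (nat_lit 489) (nat_lit 382) (nat_lit 329)))) (XT.nd (nat_lit 156) (nat_lit 152) (nat_lit 0) (XT.nd (nat_lit 78) (nat_lit 76) (nat_lit 0) (XT.lf (nat_lit 0) (nat_lit 24348541972) (nat_lit 152) (nat_lit 7229573986) (nat_lit 0) (nat_lit 19396772830) (nat_lit 28) (nat_lit 5) (nat_lit 30) (nat_lit 4) (nat_lit 28) (nat_lit 4) (nat_lit 490) (nat_lit 382) (nat_lit 328)) (XT.lf (nat_lit 0) (nat_lit 19875683232) (nat_lit 76) (nat_lit 18970288302) (nat_lit 76) (nat_lit 14000294872) (nat_lit 27) (nat_lit 4) (nat_lit 28) (nat_lit 5) (nat_lit 28) (nat_lit 4) (nat_lit 491) (nat_lit 382) (nat_lit 327))) (XT.nd (nat_lit 78) (nat_lit 152) (nat_lit 0) (XT.lf (nat_lit 0) (nat_lit 48425035606) (nat_lit 76) (nat_lit 5685702059) (nat_lit 76) (nat_lit 698352164) (nat_lit 27) (nat_lit 4) (nat_lit 28) (nat_lit 5) (nat_lit 28) (nat_lit 4) (nat_lit 492) (nat_lit 382) (nat_lit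 326)) (XT.lf (nat_lit 0) (nat_lit 13244769323) (nat_lit 152) (nat_lit 35115719613) (nat_lit 0) (nat_lit 8479169454) (nat_lit 25) (nat_lit 5) (nat_lit 27) (nat_lit 4) (nat_lit 25) (nat_lit 4) (nat_lit 493) (nat_lit 382) (nat_lit 325))))) (XT.nd (nat_lit 312) (nat_lit 228) (nat_lit 0) (XT.nd (nat_lit 156) (nat_lit 152) (nat_lit 0) (XT.nd (nat_lit 78) (nat_lit 76) (nat_lit 0) (XT.lf (nat_lit 0) (nat_lit 27987315180) (nat_lit 152) (nat_lit 7770858914) (nat_lit 0) (nat_lit 23206722144) (nat_lit 25) (nat_lit 5) (nat_lit 27) (nat_lit 4) (nat_lit 25) (nat_lit 4) (nat_lit 494) (nat_lit 382) (nat_lit 324)) (XT.lf (nat_lit 0) (nat_lit 21479138310) (nat_lit 76) (nat_lit 22249523199) (nat_lit 76) (nat_lit 17454650956) (nat_lit 24) (nat_lit 4) (nat_lit 25) (nat_lit 5) (nat_lit 25) (nat_lit 4) (nat_lit 495) (nat_lit 382) (nat_lit 323))) (XT.nd (nat_lit 78) (nat_lit 152) (nat_lit 0) (XT.lf (nat_lit 0) (nat_lit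 52314261467) (nat_lit 76) (nat_lit 8001951390) (nat_lit 76) (nat_lit 3193479903) (nat_lit 24) (nat_lit 4) (nat_lit 25) (nat_lit 5) (nat_lit 25) (nat_lit 4) (nat_lit 496) (nat_lit 382) (nat_lit 322)) (XT.lf (nat_lit 0) (nat_lit 11745907445) (nat_lit 152) (nat_lit 47026101583) (nat_lit 0) (nat_lit 7154075875) (nat_lit 22) (nat_lit 5) (nat_lit 24) (nat_lit 4) (nat_lit 22) (nat_lit 4) (nat_lit 497) (nat_lit 382) (nat_lit 321)))) (XT.nd (nat_lit 156) (nat_lit 152) (nat_lit 0) (XT.nd (nat_lit 78) (nat_lit 76) (nat_lit 0) (XT.lf (nat_lit 0) (nat_lit 27578724203) (nat_lit 152) (nat_lit 17894120776) (nat_lit 0) (nat_lit 22975145094) (nat_lit 22) (nat_lit 5) (nat_lit 24) (nat_lit 4) (nat_lit 22) (nat_lit 4) (nat_lit 498) (nat_lit 382) (nat_lit 320)) (XT.lf (nat_lit 0) (nat_lit 12973980789) (nat_lit 76) (nat_lit 31364993718) (nat_lit 76) (nat_lit 26750226476) (nat_lit 21) (nat_lit 4) (nat_lit 22) (nat_lit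 5) (nat_lit 22) (nat_lit 4) (nat_lit 499) (nat_lit 382) (nat_lit 319))) (XT.nd (nat_lit 78) (nat_lit 152) (nat_lit 0) (XT.lf (nat_lit 0) (nat_lit 45873193349) (nat_lit 76) (nat_lit 16301416586) (nat_lit 76) (nat_lit 11675993980) (nat_lit 21) (nat_lit 4) (nat_lit 22) (nat_lit 5) (nat_lit 22) (nat_lit 4) (nat_lit 500) (nat_lit 382) (nat_lit 318)) (XT.lf (nat_lit 0) (nat_lit 3588024486) (nat_lit 76) (nat_lit 423485297) (nat_lit 152) (nat_lit 72735703733) (nat_lit 19) (nat_lit 5) (nat_lit 20) (nat_lit 5) (nat_lit 21) (nat_lit 4) (nat_lit 501) (nat_lit 382) (nat_lit 317)))))))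
noncomputable def xc113 : XT := (XT.nd (nat_lit 1248) (nat_lit 456) (nat_lit 0) (XT.nd (nat_lit 624) (nat_lit 228) (nat_lit 0) (XT.nd (nat_lit 312) (nat_lit 228) (nat_lit 0) (XT.nd (nat_lit 156) (nat_lit 76) (nat_lit 0) (XT.nd (nat_lit 78) (nat_lit 0) (nat_lit 0) (XT.lf (nat_lit 0) (nat_lit 20762719885) (nat_lit 152) (nat_lit 42644091000) (nat_lit 0) (nat_lit 16338686265) (nat_lit 19) (nat_lit 5) (nat_lit 21) (nat_lit 4) (nat_lit 19) (nat_lit 4) (nat_lit 502) (nat_lit 382) (nat_lit 316)) (XT.lf (nat_lit 0) (nat_lit 38297919128) (nat_lit 152) (nat_lit 10733335181) (nat_lit 0) (nat_lit 33865119314) (nat_lit 19) (nat_lit 5) (nat_lit 21) (nat_lit 4) (nat_lit 19) (nat_lit 4) (nat_lit 503) (nat_lit 382) (nat_lit 315))) (XT.nd (nat_lit 78) (nat_lit 0) (nat_lit 0) (XT.lf (nat_lit 0) (nat_lit 23404766912) (nat_lit 76) (nat_lit 33612893286) (nat_lit 76) (nat_lit 29171744715) (nat_lit 18) (nat_lit 4) (nat_lit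 19) (nat_lit 5) (nat_lit 19) (nat_lit 4) (nat_lit 504) (nat_lit 382) (nat_lit 314)) (XT.lf (nat_lit 0) (nat_lit 59507012827) (nat_lit 76) (nat_lit 17291460275) (nat_lit 76) (nat_lit 12842360508) (nat_lit 18) (nat_lit 4) (nat_lit 19) (nat_lit 5) (nat_lit 19) (nat_lit 4) (nat_lit 505) (nat_lit 382) (nat_lit 313)))) (XT.nd (nat_lit 156) (nat_lit 76) (nat_lit 0) (XT.nd (nat_lit 78) (nat_lit 0) (nat_lit 0) (XT.lf (nat_lit 0) (nat_lit 4101916896) (nat_lit 76) (nat_lit 73004680) (nat_lit 152) (nat_lit 89086094395) (nat_lit 16) (nat_lit 5) (nat_lit 17) (nat_lit 5) (nat_lit 18) (nat_lit 4) (nat_lit 506) (nat_lit 382) (nat_lit 312)) (XT.lf (nat_lit 0) (nat_lit 22356455668) (nat_lit 152) (nat_lit 56552839275) (nat_lit 0) (nat_lit 18105137282) (nat_lit 16) (nat_lit 5) (nat_lit 18) (nat_lit 4) (nat_lit 16) (nat_lit 4) (nat_lit 507) (nat_lit 382) (nat_lit 311))) (XT.nd (nat_lit 78) (nat_lit 76) (nat_lit 0) (XT.lf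 (nat_lit 0) (nat_lit 41396023792) (nat_lit 152) (nat_lit 22423883761) (nat_lit 0) (nat_lit 37138163937) (nat_lit 16) (nat_lit 5) (nat_lit 18) (nat_lit 4) (nat_lit 16) (nat_lit 4) (nat_lit 508) (nat_lit 382) (nat_lit 310)) (XT.lf (nat_lit 0) (nat_lit 13750260911) (nat_lit 76) (nat_lit 47802237644) (nat_lit 76) (nat_lit 43538147818) (nat_lit 15) (nat_lit 4) (nat_lit 16) (nat_lit 5) (nat_lit 16) (nat_lit 4) (nat_lit 509) (nat_lit 382) (nat_lit 309))))) (XT.nd (nat_lit 312) (nat_lit 76) (nat_lit 0) (XT.nd (nat_lit 156) (nat_lit 152) (nat_lit 0) (XT.nd (nat_lit 78) (nat_lit 0) (nat_lit 0) (XT.lf (nat_lit 0) (nat_lit 52411901313) (nat_lit 76) (nat_lit 30635715447) (nat_lit 76) (nat_lit 26365692316) (nat_lit 15) (nat_lit 4) (nat_lit 16) (nat_lit 5) (nat_lit 16) (nat_lit 4) (nat_lit 510) (nat_lit 382) (nat_lit 308)) (XT.lf (nat_lit 0) (nat_lit 92911654102) (nat_lit 76) (nat_lit 12659227612) (nat_lit 76)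 (nat_lit 8383553714) (nat_lit 15) (nat_lit 4) (nat_lit 16) (nat_lit 5) (nat_lit 16) (nat_lit 4) (nat_lit 511) (nat_lit 382) (nat_lit 307))) (XT.nd (nat_lit 78) (nat_lit 0) (nat_lit 0) (XT.lf (nat_lit 0) (nat_lit 10485391309) (nat_lit 152) (nat_lit 101804651846) (nat_lit 0) (nat_lit 6408195518) (nat_lit 13) (nat_lit 5) (nat_lit 15) (nat_lit 4) (nat_lit 13) (nat_lit 4) (nat_lit 512) (nat_lit 382) (nat_lit 306)) (XT.lf (nat_lit 0) (nat_lit 30540680723) (nat_lit 152) (nat_lit 66646844081) (nat_lit 0) (nat_lit 26458603586) (nat_lit 13) (nat_lit 5) (nat_lit 15) (nat_lit 4) (nat_lit 13) (nat_lit 4) (nat_lit 513) (nat_lit 382) (nat_lit 305)))) (XT.nd (nat_lit 156) (nat_lit 0) (nat_lit 0) (XT.nd (nat_lit 78) (nat_lit 76) (nat_lit 0) (XT.lf (nat_lit 0) (nat_lit 51555781640) (nat_lit 152) (nat_lit 29818723044) (nat_lit 0) (nat_lit 47469055604) (nat_lit 13) (nat_lit 5) (nat_lit 15) (nat_lit 4) (nat_lit 13)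 (nat_lit 4) (nat_lit 514) (nat_lit 382) (nat_lit 304)) (XT.lf (nat_lit 0) (nat_lit 9057287014) (nat_lit 76) (nat_lit 64664852635) (nat_lit 76) (nat_lit 60573699075) (nat_lit 12) (nat_lit 4) (nat_lit 13) (nat_lit 5) (nat_lit 13) (nat_lit 4) (nat_lit 515) (nat_lit 382) (nat_lit 303))) (XT.nd (nat_lit 78) (nat_lit 0) (nat_lit 0) (XT.lf (nat_lit 0) (nat_lit 50830274800) (nat_lit 76) (nat_lit 46631294445) (nat_lit 76) (nat_lit 42535924195) (nat_lit 12) (nat_lit 4) (nat_lit 13) (nat_lit 5) (nat_lit 13) (nat_lit 4) (nat_lit 516) (nat_lit 382) (nat_lit 302)) (XT.lf (nat_lit 0) (nat_lit 94613758159) (nat_lit 76) (nat_lit 27735887575) (nat_lit 76) (nat_lit 23636501430) (nat_lit 12) (nat_lit 4) (nat_lit 13) (nat_lit 5) (nat_lit 13) (nat_lit 4) (nat_lit 517) (nat_lit 382) (nat_lit 301)))))) (XT.nd (nat_lit 624) (nat_lit 228) (nat_lit 0) (XT.nd (nat_lit 312) (nat_lit 76) (nat_lit 0) (XT.nd (nat_lit 156) (nat_lit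 0) (nat_lit 0) (XT.nd (nat_lit 78) (nat_lit 152) (nat_lit 0) (XT.lf (nat_lit 0) (nat_lit 140511983480) (nat_lit 76) (nat_lit 7933642960) (nat_lit 76) (nat_lit 3830432154) (nat_lit 12) (nat_lit 4) (nat_lit 13) (nat_lit 5) (nat_lit 13) (nat_lit 4) (nat_lit 518) (nat_lit 382) (nat_lit 300)) (XT.lf (nat_lit 0) (nat_lit 17075527805) (nat_lit 152) (nat_lit 128594824460) (nat_lit 0) (nat_lit 13164238908) (nat_lit 10) (nat_lit 5) (nat_lit 12) (nat_lit 4) (nat_lit 10) (nat_lit 4) (nat_lit 519) (nat_lit 382) (nat_lit 299))) (XT.nd (nat_lit 78) (nat_lit 0) (nat_lit 0) (XT.lf (nat_lit 0) (nat_lit 39195294172) (nat_lit 152) (nat_lit 91227053352) (nat_lit 0) (nat_lit 35280701390) (nat_lit 10) (nat_lit 5) (nat_lit 12) (nat_lit 4) (nat_lit 10) (nat_lit 4) (nat_lit 520) (nat_lit 382) (nat_lit 298)) (XT.lf (nat_lit 0) (nat_lit 62387410718) (nat_lit 152) (nat_lit 52059529386) (nat_lit 0) (nat_lit 58469671377) (nat_lit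 10) (nat_lit 5) (nat_lit 12) (nat_lit 4) (nat_lit 10) (nat_lit 4) (nat_lit 521) (nat_lit 382) (nat_lit 297)))) (XT.nd (nat_lit 156) (nat_lit 0) (nat_lit 0) (XT.nd (nat_lit 78) (nat_lit 76) (nat_lit 0) (XT.lf (nat_lit 0) (nat_lit 86707096768) (nat_lit 152) (nat_lit 10998996552) (nat_lit 0) (nat_lit 82786360704) (nat_lit 10) (nat_lit 5) (nat_lit 12) (nat_lit 4) (nat_lit 10) (nat_lit 4) (nat_lit 522) (nat_lit 382) (nat_lit 296)) (XT.lf (nat_lit 0) (nat_lit 33112102386) (nat_lit 76) (nat_lit 79617126663) (nat_lit 76) (nat_lit 75693536578) (nat_lit 9) (nat_lit 4) (nat_lit 10) (nat_lit 5) (nat_lit 10) (nat_lit 4) (nat_lit 523) (nat_lit 382) (nat_lit 295))) (XT.nd (nat_lit 78) (nat_lit 0) (nat_lit 0) (XT.lf (nat_lit 0) (nat_lit 79749366102) (nat_lit 76) (nat_lit 60459360989) (nat_lit 76) (nat_lit 56533052789) (nat_lit 9) (nat_lit 4) (nat_lit 10) (nat_lit 5) (nat_lit 10) (nat_lit 4) (nat_lit 524) (nat_lit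 382) (nat_lit 294)) (XT.lf (nat_lit 0) (nat_lit 128660159200) (nat_lit 76) (nat_lit 40373455901) (nat_lit 76) (nat_lit 36444559019) (nat_lit 9) (nat_lit 4) (nat_lit 10) (nat_lit 5) (nat_lit 10) (nat_lit 4) (nat_lit 525) (nat_lit 382) (nat_lit 293))))) (XT.nd (nat_lit 312) (nat_lit 76) (nat_lit 0) (XT.nd (nat_lit 156) (nat_lit 0) (nat_lit 0) (XT.nd (nat_lit 78) (nat_lit 152) (nat_lit 0) (XT.lf (nat_lit 0) (nat_lit 179960935948) (nat_lit 76) (nat_lit 19311587815) (nat_lit 76) (nat_lit 15380225522) (nat_lit 9) (nat_lit 4) (nat_lit 10) (nat_lit 5) (nat_lit 10) (nat_lit 4) (nat_lit 526) (nat_lit 382) (nat_lit 292)) (XT.lf (nat_lit 0) (nat_lit 6694199235) (nat_lit 152) (nat_lit 214630160548) (nat_lit 0) (nat_lit 2947808470) (nat_lit 7) (nat_lit 5) (nat_lit 9) (nat_lit 4) (nat_lit 7) (nat_lit 4) (nat_lit 527) (nat_lit 382) (nat_lit 291))) (XT.nd (nat_lit 78) (nat_lit 0) (nat_lit 0) (XT.lf (nat_lit 0)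 (nat_lit 30242861264) (nat_lit 152) (nat_lit 177578379775) (nat_lit 0) (nat_lit 26494340785) (nat_lit 7) (nat_lit 5) (nat_lit 9) (nat_lit 4) (nat_lit 7) (nat_lit 4) (nat_lit 528) (nat_lit 382) (nat_lit 290)) (XT.lf (nat_lit 0) (nat_lit 54943865819) (nat_lit 152) (nat_lit 138725237765) (nat_lit 0) (nat_lit 51193317040) (nat_lit 7) (nat_lit 5) (nat_lit 9) (nat_lit 4) (nat_lit 7) (nat_lit 4) (nat_lit 529) (nat_lit 382) (nat_lit 289)))) (XT.nd (nat_lit 156) (nat_lit 76) (nat_lit 0) (XT.nd (nat_lit 78) (nat_lit 0) (nat_lit 0) (XT.lf (nat_lit 0) (nat_lit 80856024814) (nat_lit 152) (nat_lit 97978227038) (nat_lit 0) (nat_lit 77103544321) (nat_lit 7) (nat_lit 5) (nat_lit 9) (nat_lit 4) (nat_lit 7) (nat_lit 4) (nat_lit 530) (nat_lit 382) (nat_lit 288)) (XT.lf (nat_lit 0) (nat_lit 108041033867) (nat_lit 152) (nat_lit 55240330900) (nat_lit 0) (nat_lit 104286713646) (nat_lit 7) (nat_lit 5) (nat_lit 9) (nat_lit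 4) (nat_lit 7) (nat_lit 4) (nat_lit 531) (nat_lit 382) (nat_lit 287))) (XT.nd (nat_lit 78) (nat_lit 76) (nat_lit 0) (XT.lf (nat_lit 0) (nat_lit 136563619189) (nat_lit 152) (nat_lit 10409792457) (nat_lit 0) (nat_lit 132807546847) (nat_lit 7) (nat_lit 5) (nat_lit 9) (nat_lit 4) (nat_lit 7) (nat_lit 4) (nat_lit 532) (nat_lit 382) (nat_lit 286)) (XT.nd (nat_lit 78) (nat_lit 0) (nat_lit 0) (XT.lf (nat_lit 0) (nat_lit 37830954470) (nat_lit 76) (nat_lit 129251384448) (nat_lit 76) (nat_lit 125493643418) (nat_lit 6) (nat_lit 4) (nat_lit 7) (nat_lit 5) (nat_lit 7) (nat_lit 4) (nat_lit 533) (nat_lit 382) (nat_lit 285)) (XT.lf (nat_lit 0) (nat_lit 88803677755) (nat_lit 76) (nat_lit 110479305236) (nat_lit 76) (nat_lit 106719974980) (nat_lit 6) (nat_lit 4) (nat_lit 7) (nat_lit 5) (nat_lit 7) (nat_lit 4) (nat_lit 534) (nat_lit 382) (nat_lit 284))))))))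
noncomputable def xc114 : XT := (XT.nd (nat_lit 1248) (nat_lit 0) (nat_lit 0) (XT.nd (nat_lit 624) (nat_lit 76) (nat_lit 0) (XT.nd (nat_lit 312) (nat_lit 152) (nat_lit 0) (XT.nd (nat_lit 156) (nat_lit 0) (nat_lit 0) (XT.nd (nat_lit 78) (nat_lit 0) (nat_lit 0) (XT.lf (nat_lit 0) (nat_lit 142285546273) (nat_lit 76) (nat_lit 90788773455) (nat_lit 76) (nat_lit 87027929651) (nat_lit 6) (nat_lit 4) (nat_lit 7) (nat_lit 5) (nat_lit 7) (nat_lit 4) (nat_lit 535) (nat_lit 382) (nat_lit 283)) (XT.lf (nat_lit 0) (nat_lit 198403897807) (nat_lit 76) (nat_lit 70132906887) (nat_lit 76) (nat_lit 66370621609) (nat_lit 6) (nat_lit 4) (nat_lit 7) (nat_lit 5) (nat_lit 7) (nat_lit 4) (nat_lit 536) (nat_lit 382) (nat_lit 282))) (XT.nd (nat_lit 78) (nat_lit 0) (nat_lit 0) (XT.lf (nat_lit 0) (nat_lit 257292347479) (nat_lit 76) (nat_lit 48462524898) (nat_lit 76) (nat_lit 44698866786) (nat_lit 6) (nat_lit 4) (nat_lit 7)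 (nat_lit 5) (nat_lit 7) (nat_lit 4) (nat_lit 537) (nat_lit 382) (nat_lit 281)) (XT.lf (nat_lit 0) (nat_lit 319091105884) (nat_lit 76) (nat_lit 25726031340) (nat_lit 76) (nat_lit 21961065768) (nat_lit 6) (nat_lit 4) (nat_lit 7) (nat_lit 5) (nat_lit 7) (nat_lit 4) (nat_lit 538) (nat_lit 382) (nat_lit 280)))) (XT.nd (nat_lit 156) (nat_lit 0) (nat_lit 0) (XT.nd (nat_lit 78) (nat_lit 76) (nat_lit 0) (XT.lf (nat_lit 0) (nat_lit 1836205810) (nat_lit 152) (nat_lit 1988860) (nat_lit 76) (nat_lit 382080010079) (nat_lit 5) (nat_lit 5) (nat_lit 7) (nat_lit 5) (nat_lit 6) (nat_lit 4) (nat_lit 539) (nat_lit 382) (nat_lit 279)) (XT.lf (nat_lit 0) (nat_lit 27252818658) (nat_lit 152) (nat_lit 350921189574) (nat_lit 0) (nat_lit 23664821823) (nat_lit 4) (nat_lit 5) (nat_lit 6) (nat_lit 4) (nat_lit 4) (nat_lit 4) (nat_lit 540) (nat_lit 382) (nat_lit 278))) (XT.nd (nat_lit 78) (nat_lit 0) (nat_lit 0) (XT.lf (nat_lit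 0) (nat_lit 53955032970) (nat_lit 152) (nat_lit 316333754642) (nat_lit 0) (nat_lit 50365960485) (nat_lit 4) (nat_lit 5) (nat_lit 6) (nat_lit 4) (nat_lit 4) (nat_lit 4) (nat_lit 541) (nat_lit 382) (nat_lit 277)) (XT.lf (nat_lit 0) (nat_lit 81977693473) (nat_lit 152) (nat_lit 280046905246) (nat_lit 0) (nat_lit 78387596558) (nat_lit 4) (nat_lit 5) (nat_lit 6) (nat_lit 4) (nat_lit 4) (nat_lit 4) (nat_lit 542) (nat_lit 382) (nat_lit 276))))) (XT.nd (nat_lit 312) (nat_lit 76) (nat_lit 0) (XT.nd (nat_lit 156) (nat_lit 0) (nat_lit 0) (XT.nd (nat_lit 78) (nat_lit 0) (nat_lit 0) (XT.lf (nat_lit 0) (nat_lit 111387520786) (nat_lit 152) (nat_lit 241974244126) (nat_lit 0) (nat_lit 107796448225) (nat_lit 4) (nat_lit 5) (nat_lit 6) (nat_lit 4) (nat_lit 4) (nat_lit 4) (nat_lit 543) (nat_lit 382) (nat_lit 275)) (XT.lf (nat_lit 0) (nat_lit 142254538309) (nat_lit 152) (nat_lit 202025122090) (nat_lit 0) (nat_lit 138662536560)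 (nat_lit 4) (nat_lit 5) (nat_lit 6) (nat_lit 4) (nat_lit 4) (nat_lit 4) (nat_lit 544) (nat_lit 382) (nat_lit 274))) (XT.nd (nat_lit 78) (nat_lit 0) (nat_lit 0) (XT.lf (nat_lit 0) (nat_lit 174652238939) (nat_lit 152) (nat_lit 160104422179) (nat_lit 0) (nat_lit 171059352250) (nat_lit 4) (nat_lit 5) (nat_lit 6) (nat_lit 4) (nat_lit 4) (nat_lit 4) (nat_lit 545) (nat_lit 382) (nat_lit 273)) (XT.lf (nat_lit 0) (nat_lit 208657760060) (nat_lit 152) (nat_lit 116112333203) (nat_lit 0) (nat_lit 205064030570) (nat_lit 4) (nat_lit 5) (nat_lit 6) (nat_lit 4) (nat_lit 4) (nat_lit 4) (nat_lit 546) (nat_lit 382) (nat_lit 272)))) (XT.nd (nat_lit 156) (nat_lit 76) (nat_lit 0) (XT.nd (nat_lit 78) (nat_lit 0) (nat_lit 0) (XT.lf (nat_lit 0) (nat_lit 244352067197) (nat_lit 152) (nat_lit 69944112094) (nat_lit 0) (nat_lit 240757535041) (nat_lit 4) (nat_lit 5) (nat_lit 6) (nat_lit 4) (nat_lit 4) (nat_lit 4) (nat_lit 547)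 (nat_lit 382) (nat_lit 271)) (XT.lf (nat_lit 0) (nat_lit 281820146797) (nat_lit 152) (nat_lit 21489834515) (nat_lit 0) (nat_lit 278224850196) (nat_lit 4) (nat_lit 5) (nat_lit 6) (nat_lit 4) (nat_lit 4) (nat_lit 4) (nat_lit 548) (nat_lit 382) (nat_lit 270))) (XT.nd (nat_lit 78) (nat_lit 0) (nat_lit 0) (XT.lf (nat_lit 0) (nat_lit 30336835038) (nat_lit 76) (nat_lit 291288016549) (nat_lit 76) (nat_lit 287691991904) (nat_lit 3) (nat_lit 4) (nat_lit 4) (nat_lit 5) (nat_lit 4) (nat_lit 4) (nat_lit 549) (nat_lit 382) (nat_lit 269)) (XT.lf (nat_lit 0) (nat_lit 85479969905) (nat_lit 76) (nat_lit 278293509892) (nat_lit 76) (nat_lit 274696791873) (nat_lit 3) (nat_lit 4) (nat_lit 4) (nat_lit 5) (nat_lit 4) (nat_lit 4) (nat_lit 550) (nat_lit 382) (nat_lit 268)))))) (XT.nd (nat_lit 53508) (nat_lit 0) (nat_lit 5776) (XT.nd (nat_lit 312) (nat_lit 0) (nat_lit 0) (XT.nd (nat_lit 156) (nat_lit 0) (nat_lit 0) (XT.nd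 (nat_lit 78) (nat_lit 0) (nat_lit 0) (XT.lf (nat_lit 0) (nat_lit 143360312284) (nat_lit 76) (nat_lit 264659462787) (nat_lit 76) (nat_lit 261062084412) (nat_lit 3) (nat_lit 4) (nat_lit 4) (nat_lit 5) (nat_lit 4) (nat_lit 4) (nat_lit 551) (nat_lit 382) (nat_lit 267)) (XT.lf (nat_lit 0) (nat_lit 204115672514) (nat_lit 76) (nat_lit 250353413216) (nat_lit 76) (nat_lit 246755405931) (nat_lit 3) (nat_lit 4) (nat_lit 4) (nat_lit 5) (nat_lit 4) (nat_lit 4) (nat_lit 552) (nat_lit 382) (nat_lit 266))) (XT.nd (nat_lit 78) (nat_lit 0) (nat_lit 0) (XT.lf (nat_lit 0) (nat_lit 267890706213) (nat_lit 76) (nat_lit 235341299159) (nat_lit 76) (nat_lit 231742692911) (nat_lit 3) (nat_lit 4) (nat_lit 4) (nat_lit 5) (nat_lit 4) (nat_lit 4) (nat_lit 553) (nat_lit 382) (nat_lit 265)) (XT.lf (nat_lit 0) (nat_lit 334837258702) (nat_lit 76) (nat_lit 219587377484) (nat_lit 76) (nat_lit 215988200796) (nat_lit 3) (nat_lit 4)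 (nat_lit 4) (nat_lit 5) (nat_lit 4) (nat_lit 4) (nat_lit 554) (nat_lit 382) (nat_lit 264)))) (XT.nd (nat_lit 53040) (nat_lit 0) (nat_lit 7144) (XT.nd (nat_lit 78) (nat_lit 0) (nat_lit 0) (XT.lf (nat_lit 0) (nat_lit 405114726532) (nat_lit 76) (nat_lit 203054138856) (nat_lit 76) (nat_lit 199454418891) (nat_lit 3) (nat_lit 4) (nat_lit 4) (nat_lit 5) (nat_lit 4) (nat_lit 4) (nat_lit 555) (nat_lit 382) (nat_lit 263)) (XT.lf (nat_lit 0) (nat_lit 478890437008) (nat_lit 76) (nat_lit 185702218420) (nat_lit 76) (nat_lit 182101981048) (nat_lit 3) (nat_lit 4) (nat_lit 4) (nat_lit 5) (nat_lit 4) (nat_lit 4) (nat_lit 556) (nat_lit 382) (nat_lit 262))) (XT.nd (nat_lit 78) (nat_lit 228) (nat_lit 0) (XT.lf (nat_lit 0) (nat_lit 2254151487) (nat_lit 228) (nat_lit 1332475794) (nat_lit 228) (nat_lit 1332475794) (nat_lit 100) (nat_lit 4) (nat_lit 103) (nat_lit 5) (nat_lit 103) (nat_lit 4) (nat_lit 434) (nat_lit 383)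 (nat_lit 383)) (XT.lf (nat_lit 0) (nat_lit 2204650159) (nat_lit 228) (nat_lit 6347659930) (nat_lit 0) (nat_lit 1496952088) (nat_lit 97) (nat_lit 5) (nat_lit 100) (nat_lit 4) (nat_lit 97) (nat_lit 4) (nat_lit 435) (nat_lit 383) (nat_lit 382))))) (XT.nd (nat_lit 312) (nat_lit 760) (nat_lit 0) (XT.nd (nat_lit 156) (nat_lit 228) (nat_lit 0) (XT.nd (nat_lit 78) (nat_lit 228) (nat_lit 0) (XT.lf (nat_lit 0) (nat_lit 2799297834) (nat_lit 152) (nat_lit 4425627151) (nat_lit 152) (nat_lit 3043930918) (nat_lit 95) (nat_lit 4) (nat_lit 97) (nat_lit 5) (nat_lit 97) (nat_lit 4) (nat_lit 436) (nat_lit 383) (nat_lit 381)) (XT.lf (nat_lit 0) (nat_lit 1850315228) (nat_lit 152) (nat_lit 39399149) (nat_lit 228) (nat_lit 8610320470) (nat_lit 92) (nat_lit 5) (nat_lit 94) (nat_lit 5) (nat_lit 95) (nat_lit 4) (nat_lit 437) (nat_lit 383) (nat_lit 380))) (XT.nd (nat_lit 78) (nat_lit 76) (nat_lit 0) (XT.lf (nat_lit 0) (nat_lit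 751957584) (nat_lit 152) (nat_lit 6248086761) (nat_lit 152) (nat_lit 3738624430) (nat_lit 90) (nat_lit 4) (nat_lit 92) (nat_lit 5) (nat_lit 92) (nat_lit 4) (nat_lit 438) (nat_lit 383) (nat_lit 379)) (XT.lf (nat_lit 0) (nat_lit 1303749118) (nat_lit 228) (nat_lit 391276594) (nat_lit 76) (nat_lit 9294581728) (nat_lit 89) (nat_lit 5) (nat_lit 92) (nat_lit 5) (nat_lit 90) (nat_lit 4) (nat_lit 439) (nat_lit 383) (nat_lit 378)))) (XT.nd (nat_lit 156) (nat_lit 380) (nat_lit 0) (XT.nd (nat_lit 78) (nat_lit 228) (nat_lit 0) (XT.lf (nat_lit 0) (nat_lit 6502880533) (nat_lit 228) (nat_lit 1663765751) (nat_lit 0) (nat_lit 3081873405) (nat_lit 87) (nat_lit 5) (nat_lit 90) (nat_lit 4) (nat_lit 87) (nat_lit 4) (nat_lit 440) (nat_lit 383) (nat_lit 377)) (XT.lf (nat_lit 0) (nat_lit 426455793) (nat_lit 228) (nat_lit 3025770661) (nat_lit 76) (nat_lit 8067861138) (nat_lit 84) (nat_lit 5) (nat_lit 87) (nat_lit 5) (nat_lit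 85) (nat_lit 4) (nat_lit 441) (nat_lit 383) (nat_lit 376))) (XT.nd (nat_lit 78) (nat_lit 304) (nat_lit 0) (XT.lf (nat_lit 0) (nat_lit 5697351886) (nat_lit 152) (nat_lit 4555416405) (nat_lit 0) (nat_lit 1548596148) (nat_lit 83) (nat_lit 5) (nat_lit 85) (nat_lit 4) (nat_lit 83) (nat_lit 4) (nat_lit 442) (nat_lit 383) (nat_lit 375)) (XT.nd (nat_lit 78) (nat_lit 152) (nat_lit 0) (XT.lf (nat_lit 0) (nat_lit 5874760799) (nat_lit 152) (nat_lit 5391381623) (nat_lit 152) (nat_lit 828849479) (nat_lit 81) (nat_lit 4) (nat_lit 83) (nat_lit 5) (nat_lit 83) (nat_lit 4) (nat_lit 443) (nat_lit 383) (nat_lit 374)) (XT.lf (nat_lit 0) (nat_lit 4350954883) (nat_lit 76) (nat_lit 189318186) (nat_lit 152) (nat_lit 7860307002) (nat_lit 79) (nat_lit 5) (nat_lit 80) (nat_lit 5) (nat_lit 81) (nat_lit 4) (nat_lit 444) (nat_lit 383) (nat_lit 373))))))))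
noncomputable def xc115 : XT := (XT.nd (nat_lit 1248) (nat_lit 1292) (nat_lit 0) (XT.nd (nat_lit 624) (nat_lit 684) (nat_lit 0) (XT.nd (nat_lit 312) (nat_lit 456) (nat_lit 0) (XT.nd (nat_lit 156) (nat_lit 228) (nat_lit 0) (XT.nd (nat_lit 78) (nat_lit 152) (nat_lit 0) (XT.lf (nat_lit 0) (nat_lit 2637352271) (nat_lit 152) (nat_lit 7579055427) (nat_lit 152) (nat_lit 2501043706) (nat_lit 77) (nat_lit 4) (nat_lit 79) (nat_lit 5) (nat_lit 79) (nat_lit 4) (nat_lit 445) (nat_lit 383) (nat_lit 372)) (XT.lf (nat_lit 0) (nat_lit 764651752) (nat_lit 76) (nat_lit 2251484025) (nat_lit 152) (nat_lit 10032092915) (nat_lit 75) (nat_lit 5) (nat_lit 76) (nat_lit 5) (nat_lit 77) (nat_lit 4) (nat_lit 446) (nat_lit 383) (nat_lit 371))) (XT.nd (nat_lit 78) (nat_lit 228) (nat_lit 0) (XT.lf (nat_lit 0) (nat_lit 8788290871) (nat_lit 152) (nat_lit 1282930441) (nat_lit 0) (nat_lit 3319118267) (nat_lit 75) (nat_lit 5) (nat_lit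 77) (nat_lit 4) (nat_lit 75) (nat_lit 4) (nat_lit 447) (nat_lit 383) (nat_lit 370)) (XT.lf (nat_lit 0) (nat_lit 1107504317) (nat_lit 228) (nat_lit 3492851919) (nat_lit 76) (nat_lit 9146184472) (nat_lit 72) (nat_lit 5) (nat_lit 75) (nat_lit 5) (nat_lit 73) (nat_lit 4) (nat_lit 448) (nat_lit 383) (nat_lit 369)))) (XT.nd (nat_lit 156) (nat_lit 228) (nat_lit 0) (XT.nd (nat_lit 78) (nat_lit 152) (nat_lit 0) (XT.lf (nat_lit 0) (nat_lit 6962998044) (nat_lit 152) (nat_lit 5945550202) (nat_lit 0) (nat_lit 1207478113) (nat_lit 71) (nat_lit 5) (nat_lit 73) (nat_lit 4) (nat_lit 71) (nat_lit 4) (nat_lit 449) (nat_lit 383) (nat_lit 368)) (XT.lf (nat_lit 0) (nat_lit 5859844859) (nat_lit 152) (nat_lit 7325003842) (nat_lit 152) (nat_lit 1315461092) (nat_lit 69) (nat_lit 4) (nat_lit 71) (nat_lit 5) (nat_lit 71) (nat_lit 4) (nat_lit 450) (nat_lit 383) (nat_lit 367))) (XT.nd (nat_lit 78) (nat_lit 76) (nat_lit 0) (XT.lf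 (nat_lit 0) (nat_lit 3303126892) (nat_lit 76) (nat_lit 1357651710) (nat_lit 152) (nat_lit 10239229592) (nat_lit 67) (nat_lit 5) (nat_lit 68) (nat_lit 5) (nat_lit 69) (nat_lit 4) (nat_lit 451) (nat_lit 383) (nat_lit 366)) (XT.lf (nat_lit 0) (nat_lit 455802416) (nat_lit 76) (nat_lit 10516009166) (nat_lit 76) (nat_lit 4342794472) (nat_lit 66) (nat_lit 4) (nat_lit 67) (nat_lit 5) (nat_lit 67) (nat_lit 4) (nat_lit 452) (nat_lit 383) (nat_lit 365))))) (XT.nd (nat_lit 312) (nat_lit 304) (nat_lit 0) (XT.nd (nat_lit 156) (nat_lit 228) (nat_lit 0) (XT.nd (nat_lit 78) (nat_lit 76) (nat_lit 0) (XT.lf (nat_lit 0) (nat_lit 1859239199) (nat_lit 152) (nat_lit 2570759537) (nat_lit 76) (nat_lit 11314997177) (nat_lit 65) (nat_lit 5) (nat_lit 67) (nat_lit 5) (nat_lit 66) (nat_lit 4) (nat_lit 453) (nat_lit 383) (nat_lit 364)) (XT.lf (nat_lit 0) (nat_lit 8274123124) (nat_lit 152) (nat_lit 5910507903) (nat_lit 0) (nat_lit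 2006281770) (nat_lit 64) (nat_lit 5) (nat_lit 66) (nat_lit 4) (nat_lit 64) (nat_lit 4) (nat_lit 454) (nat_lit 383) (nat_lit 363))) (XT.nd (nat_lit 78) (nat_lit 152) (nat_lit 0) (XT.lf (nat_lit 0) (nat_lit 7082931699) (nat_lit 76) (nat_lit 8010198678) (nat_lit 76) (nat_lit 1561828049) (nat_lit 63) (nat_lit 4) (nat_lit 64) (nat_lit 5) (nat_lit 64) (nat_lit 4) (nat_lit 455) (nat_lit 383) (nat_lit 362)) (XT.lf (nat_lit 0) (nat_lit 3549046679) (nat_lit 76) (nat_lit 1411611833) (nat_lit 152) (nat_lit 12176891900) (nat_lit 61) (nat_lit 5) (nat_lit 62) (nat_lit 5) (nat_lit 63) (nat_lit 4) (nat_lit 456) (nat_lit 383) (nat_lit 361)))) (XT.nd (nat_lit 156) (nat_lit 152) (nat_lit 0) (XT.nd (nat_lit 78) (nat_lit 152) (nat_lit 0) (XT.lf (nat_lit 0) (nat_lit 11864425833) (nat_lit 152) (nat_lit 369758251) (nat_lit 0) (nat_lit 5403427123) (nat_lit 61) (nat_lit 5) (nat_lit 63) (nat_lit 4) (nat_lit 61) (nat_lit 4)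 (nat_lit 457) (nat_lit 383) (nat_lit 360)) (XT.lf (nat_lit 0) (nat_lit 1021886706) (nat_lit 152) (nat_lit 4514652843) (nat_lit 76) (nat_lit 12620314350) (nat_lit 59) (nat_lit 5) (nat_lit 61) (nat_lit 5) (nat_lit 60) (nat_lit 4) (nat_lit 458) (nat_lit 383) (nat_lit 359))) (XT.nd (nat_lit 78) (nat_lit 76) (nat_lit 0) (XT.lf (nat_lit 0) (nat_lit 8008433430) (nat_lit 152) (nat_lit 9107669474) (nat_lit 0) (nat_lit 1578938190) (nat_lit 58) (nat_lit 5) (nat_lit 60) (nat_lit 4) (nat_lit 58) (nat_lit 4) (nat_lit 459) (nat_lit 383) (nat_lit 358)) (XT.lf (nat_lit 0) (nat_lit 5101021271) (nat_lit 76) (nat_lit 10355646846) (nat_lit 76) (nat_lit 3797852820) (nat_lit 57) (nat_lit 4) (nat_lit 58) (nat_lit 5) (nat_lit 58) (nat_lit 4) (nat_lit 460) (nat_lit 383) (nat_lit 357)))))) (XT.nd (nat_lit 624) (nat_lit 608) (nat_lit 0) (XT.nd (nat_lit 312) (nat_lit 304) (nat_lit 0) (XT.nd (nat_lit 156) (nat_lit 228) (nat_lit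 0) (XT.nd (nat_lit 78) (nat_lit 0) (nat_lit 0) (XT.lf (nat_lit 0) (nat_lit 186533473) (nat_lit 76) (nat_lit 3162986925) (nat_lit 152) (nat_lit 16488567159) (nat_lit 55) (nat_lit 5) (nat_lit 56) (nat_lit 5) (nat_lit 57) (nat_lit 4) (nat_lit 461) (nat_lit 383) (nat_lit 356)) (XT.lf (nat_lit 0) (nat_lit 10903615763) (nat_lit 152) (nat_lit 5104358029) (nat_lit 0) (nat_lit 4430897549) (nat_lit 55) (nat_lit 5) (nat_lit 57) (nat_lit 4) (nat_lit 55) (nat_lit 4) (nat_lit 462) (nat_lit 383) (nat_lit 355))) (XT.nd (nat_lit 78) (nat_lit 152) (nat_lit 0) (XT.lf (nat_lit 0) (nat_lit 10191452412) (nat_lit 76) (nat_lit 8726200538) (nat_lit 76) (nat_lit 2147930596) (nat_lit 54) (nat_lit 4) (nat_lit 55) (nat_lit 5) (nat_lit 55) (nat_lit 4) (nat_lit 463) (nat_lit 383) (nat_lit 354)) (XT.lf (nat_lit 0) (nat_lit 4512133682) (nat_lit 76) (nat_lit 946856112) (nat_lit 152) (nat_lit 16258776902) (nat_lit 52) (nat_lit 5)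 (nat_lit 53) (nat_lit 5) (nat_lit 54) (nat_lit 4) (nat_lit 464) (nat_lit 383) (nat_lit 353)))) (XT.nd (nat_lit 156) (nat_lit 228) (nat_lit 0) (XT.nd (nat_lit 78) (nat_lit 76) (nat_lit 0) (XT.lf (nat_lit 0) (nat_lit 13545746138) (nat_lit 152) (nat_lit 1752660415) (nat_lit 0) (nat_lit 7093809065) (nat_lit 52) (nat_lit 5) (nat_lit 54) (nat_lit 4) (nat_lit 52) (nat_lit 4) (nat_lit 465) (nat_lit 383) (nat_lit 352)) (XT.lf (nat_lit 0) (nat_lit 14685988371) (nat_lit 76) (nat_lit 7473520412) (nat_lit 76) (nat_lit 934745671) (nat_lit 51) (nat_lit 4) (nat_lit 52) (nat_lit 5) (nat_lit 52) (nat_lit 4) (nat_lit 466) (nat_lit 383) (nat_lit 351))) (XT.nd (nat_lit 78) (nat_lit 76) (nat_lit 0) (XT.lf (nat_lit 0) (nat_lit 7185069291) (nat_lit 152) (nat_lit 15759247329) (nat_lit 0) (nat_lit 878900451) (nat_lit 49) (nat_lit 5) (nat_lit 51) (nat_lit 4) (nat_lit 49) (nat_lit 4) (nat_lit 467) (nat_lit 383) (nat_lit 350))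 (XT.lf (nat_lit 0) (nat_lit 710911737) (nat_lit 76) (nat_lit 15125151528) (nat_lit 76) (nat_lit 8743969045) (nat_lit 48) (nat_lit 4) (nat_lit 49) (nat_lit 5) (nat_lit 49) (nat_lit 4) (nat_lit 468) (nat_lit 383) (nat_lit 349))))) (XT.nd (nat_lit 312) (nat_lit 380) (nat_lit 0) (XT.nd (nat_lit 156) (nat_lit 76) (nat_lit 0) (XT.nd (nat_lit 78) (nat_lit 152) (nat_lit 0) (XT.lf (nat_lit 0) (nat_lit 18313713217) (nat_lit 76) (nat_lit 6753119299) (nat_lit 76) (nat_lit 300495252) (nat_lit 48) (nat_lit 4) (nat_lit 49) (nat_lit 5) (nat_lit 49) (nat_lit 4) (nat_lit 469) (nat_lit 383) (nat_lit 348)) (XT.lf (nat_lit 0) (nat_lit 8375235271) (nat_lit 152) (nat_lit 15642776589) (nat_lit 0) (nat_lit 2165079432) (nat_lit 46) (nat_lit 5) (nat_lit 48) (nat_lit 4) (nat_lit 46) (nat_lit 4) (nat_lit 470) (nat_lit 383) (nat_lit 347))) (XT.nd (nat_lit 78) (nat_lit 0) (nat_lit 0) (XT.lf (nat_lit 0) (nat_lit 1938919990) (nat_lit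 76) (nat_lit 15682504276) (nat_lit 76) (nat_lit 9410634527) (nat_lit 45) (nat_lit 4) (nat_lit 46) (nat_lit 5) (nat_lit 46) (nat_lit 4) (nat_lit 471) (nat_lit 383) (nat_lit 346)) (XT.lf (nat_lit 0) (nat_lit 20715802232) (nat_lit 76) (nat_lit 6765377543) (nat_lit 76) (nat_lit 434732642) (nat_lit 45) (nat_lit 4) (nat_lit 46) (nat_lit 5) (nat_lit 46) (nat_lit 4) (nat_lit 472) (nat_lit 383) (nat_lit 345)))) (XT.nd (nat_lit 156) (nat_lit 152) (nat_lit 0) (XT.nd (nat_lit 78) (nat_lit 76) (nat_lit 0) (XT.lf (nat_lit 0) (nat_lit 8817404231) (nat_lit 152) (nat_lit 17278870554) (nat_lit 0) (nat_lit 2734907816) (nat_lit 43) (nat_lit 5) (nat_lit 45) (nat_lit 4) (nat_lit 43) (nat_lit 4) (nat_lit 473) (nat_lit 383) (nat_lit 344)) (XT.lf (nat_lit 0) (nat_lit 1411360036) (nat_lit 76) (nat_lit 17253208754) (nat_lit 76) (nat_lit 11119940153) (nat_lit 42) (nat_lit 4) (nat_lit 43) (nat_lit 5) (nat_lit 43) (nat_lit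 4) (nat_lit 474) (nat_lit 383) (nat_lit 343))) (XT.nd (nat_lit 78) (nat_lit 152) (nat_lit 0) (XT.lf (nat_lit 0) (nat_lit 21419547424) (nat_lit 76) (nat_lit 7769173145) (nat_lit 76) (nat_lit 1587550081) (nat_lit 42) (nat_lit 4) (nat_lit 43) (nat_lit 5) (nat_lit 43) (nat_lit 4) (nat_lit 475) (nat_lit 383) (nat_lit 342)) (XT.nd (nat_lit 78) (nat_lit 0) (nat_lit 0) (XT.lf (nat_lit 0) (nat_lit 8250423750) (nat_lit 152) (nat_lit 21236393068) (nat_lit 0) (nat_lit 2319304766) (nat_lit 40) (nat_lit 5) (nat_lit 42) (nat_lit 4) (nat_lit 40) (nat_lit 4) (nat_lit 476) (nat_lit 383) (nat_lit 341)) (XT.lf (nat_lit 0) (nat_lit 18710968990) (nat_lit 152) (nat_lit 1427914391) (nat_lit 0) (nat_lit 12738079603) (nat_lit 40) (nat_lit 5) (nat_lit 42) (nat_lit 4) (nat_lit 40) (nat_lit 4) (nat_lit 477) (nat_lit 383) (nat_lit 340))))))))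
noncomputable def xc116 : XT := (XT.nd (nat_lit 1248) (nat_lit 836) (nat_lit 0) (XT.nd (nat_lit 624) (nat_lit 532) (nat_lit 0) (XT.nd (nat_lit 312) (nat_lit 228) (nat_lit 0) (XT.nd (nat_lit 156) (nat_lit 76) (nat_lit 0) (XT.nd (nat_lit 78) (nat_lit 152) (nat_lit 0) (XT.lf (nat_lit 0) (nat_lit 19805130474) (nat_lit 76) (nat_lit 10099198861) (nat_lit 76) (nat_lit 4086528137) (nat_lit 39) (nat_lit 4) (nat_lit 40) (nat_lit 5) (nat_lit 40) (nat_lit 4) (nat_lit 478) (nat_lit 383) (nat_lit 339)) (XT.lf (nat_lit 0) (nat_lit 6331239321) (nat_lit 152) (nat_lit 28253219076) (nat_lit 0) (nat_lit 568803407) (nat_lit 37) (nat_lit 5) (nat_lit 39) (nat_lit 4) (nat_lit 37) (nat_lit 4) (nat_lit 479) (nat_lit 383) (nat_lit 338))) (XT.nd (nat_lit 78) (nat_lit 76) (nat_lit 0) (XT.lf (nat_lit 0) (nat_lit 17443058101) (nat_lit 152) (nat_lit 7265596563) (nat_lit 0) (nat_lit 11646257573) (nat_lit 37) (nat_lit 5) (nat_lit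 39) (nat_lit 4) (nat_lit 37) (nat_lit 4) (nat_lit 480) (nat_lit 383) (nat_lit 337)) (XT.lf (nat_lit 0) (nat_lit 15063112779) (nat_lit 76) (nat_lit 14188014260) (nat_lit 76) (nat_lit 8358485528) (nat_lit 36) (nat_lit 4) (nat_lit 37) (nat_lit 5) (nat_lit 37) (nat_lit 4) (nat_lit 481) (nat_lit 383) (nat_lit 336)))) (XT.nd (nat_lit 156) (nat_lit 76) (nat_lit 0) (XT.nd (nat_lit 78) (nat_lit 76) (nat_lit 0) (XT.lf (nat_lit 0) (nat_lit 2666010281) (nat_lit 152) (nat_lit 395377372) (nat_lit 76) (nat_lit 35862005363) (nat_lit 35) (nat_lit 5) (nat_lit 37) (nat_lit 5) (nat_lit 36) (nat_lit 4) (nat_lit 482) (nat_lit 383) (nat_lit 335)) (XT.lf (nat_lit 0) (nat_lit 14375877311) (nat_lit 152) (nat_lit 17133394045) (nat_lit 0) (nat_lit 8765987886) (nat_lit 34) (nat_lit 5) (nat_lit 36) (nat_lit 4) (nat_lit 34) (nat_lit 4) (nat_lit 483) (nat_lit 383) (nat_lit 334))) (XT.nd (nat_lit 78) (nat_lit 0) (nat_lit 0) (XT.lf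 (nat_lit 0) (nat_lit 6140051945) (nat_lit 76) (nat_lit 20594166536) (nat_lit 76) (nat_lit 14957351537) (nat_lit 33) (nat_lit 4) (nat_lit 34) (nat_lit 5) (nat_lit 34) (nat_lit 4) (nat_lit 484) (nat_lit 383) (nat_lit 333)) (XT.lf (nat_lit 0) (nat_lit 30993446020) (nat_lit 76) (nat_lit 8918810006) (nat_lit 76) (nat_lit 3256351603) (nat_lit 33) (nat_lit 4) (nat_lit 34) (nat_lit 5) (nat_lit 34) (nat_lit 4) (nat_lit 485) (nat_lit 383) (nat_lit 332))))) (XT.nd (nat_lit 312) (nat_lit 228) (nat_lit 0) (XT.nd (nat_lit 156) (nat_lit 152) (nat_lit 0) (XT.nd (nat_lit 78) (nat_lit 0) (nat_lit 0) (XT.lf (nat_lit 0) (nat_lit 8905878313) (nat_lit 152) (nat_lit 32308509303) (nat_lit 0) (nat_lit 3489801463) (nat_lit 31) (nat_lit 5) (nat_lit 33) (nat_lit 4) (nat_lit 31) (nat_lit 4) (nat_lit 486) (nat_lit 383) (nat_lit 331)) (XT.lf (nat_lit 0) (nat_lit 21837089281) (nat_lit 152) (nat_lit 8064415497) (nat_lit 0) (nat_lit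 16398860694) (nat_lit 31) (nat_lit 5) (nat_lit 33) (nat_lit 4) (nat_lit 31) (nat_lit 4) (nat_lit 487) (nat_lit 383) (nat_lit 330))) (XT.nd (nat_lit 78) (nat_lit 76) (nat_lit 0) (XT.lf (nat_lit 0) (nat_lit 17796767026) (nat_lit 76) (nat_lit 17814543436) (nat_lit 76) (nat_lit 12355217957) (nat_lit 30) (nat_lit 4) (nat_lit 31) (nat_lit 5) (nat_lit 31) (nat_lit 4) (nat_lit 488) (nat_lit 383) (nat_lit 329)) (XT.lf (nat_lit 0) (nat_lit 404216692) (nat_lit 152) (nat_lit 4650773536) (nat_lit 76) (nat_lit 44657857847) (nat_lit 29) (nat_lit 5) (nat_lit 31) (nat_lit 5) (nat_lit 30) (nat_lit 4) (nat_lit 489) (nat_lit 383) (nat_lit 328)))) (XT.nd (nat_lit 156) (nat_lit 152) (nat_lit 0) (XT.nd (nat_lit 78) (nat_lit 0) (nat_lit 0) (XT.lf (nat_lit 0) (nat_lit 13798364842) (nat_lit 152) (nat_lit 29155746473) (nat_lit 0) (nat_lit 8561647452) (nat_lit 28) (nat_lit 5) (nat_lit 30) (nat_lit 4) (nat_lit 28) (nat_lit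 4) (nat_lit 490) (nat_lit 383) (nat_lit 327)) (XT.lf (nat_lit 0) (nat_lit 27947703953) (nat_lit 152) (nat_lit 2763206945) (nat_lit 0) (nat_lit 22693630098) (nat_lit 28) (nat_lit 5) (nat_lit 30) (nat_lit 4) (nat_lit 28) (nat_lit 4) (nat_lit 491) (nat_lit 383) (nat_lit 326))) (XT.nd (nat_lit 78) (nat_lit 76) (nat_lit 0) (XT.lf (nat_lit 0) (nat_lit 25619444654) (nat_lit 76) (nat_lit 17511304849) (nat_lit 76) (nat_lit 12240701027) (nat_lit 27) (nat_lit 4) (nat_lit 28) (nat_lit 5) (nat_lit 28) (nat_lit 4) (nat_lit 492) (nat_lit 383) (nat_lit 325)) (XT.lf (nat_lit 0) (nat_lit 1557709680) (nat_lit 152) (nat_lit 2093041802) (nat_lit 76) (nat_lit 53785985006) (nat_lit 26) (nat_lit 5) (nat_lit 28) (nat_lit 5) (nat_lit 27) (nat_lit 4) (nat_lit 493) (nat_lit 383) (nat_lit 324)))))) (XT.nd (nat_lit 624) (nat_lit 456) (nat_lit 0) (XT.nd (nat_lit 312) (nat_lit 228) (nat_lit 0) (XT.nd (nat_lit 156) (nat_lit 76)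 (nat_lit 0) (XT.nd (nat_lit 78) (nat_lit 0) (nat_lit 0) (XT.lf (nat_lit 0) (nat_lit 16173005224) (nat_lit 152) (nat_lit 32271221536) (nat_lit 0) (nat_lit 11124110163) (nat_lit 25) (nat_lit 5) (nat_lit 27) (nat_lit 4) (nat_lit 25) (nat_lit 4) (nat_lit 494) (nat_lit 383) (nat_lit 323)) (XT.lf (nat_lit 0) (nat_lit 31544773734) (nat_lit 152) (nat_lit 3778178948) (nat_lit 0) (nat_lit 26482279428) (nat_lit 25) (nat_lit 5) (nat_lit 27) (nat_lit 4) (nat_lit 25) (nat_lit 4) (nat_lit 495) (nat_lit 383) (nat_lit 322))) (XT.nd (nat_lit 78) (nat_lit 0) (nat_lit 0) (XT.lf (nat_lit 0) (nat_lit 26863653253) (nat_lit 76) (nat_lit 21174067695) (nat_lit 76) (nat_lit 16098621727) (nat_lit 24) (nat_lit 4) (nat_lit 25) (nat_lit 5) (nat_lit 25) (nat_lit 4) (nat_lit 496) (nat_lit 383) (nat_lit 321)) (XT.lf (nat_lit 0) (nat_lit 59035267899) (nat_lit 76) (nat_lit 6318304518) (nat_lit 76) (nat_lit 1230523634) (nat_lit 24)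 (nat_lit 4) (nat_lit 25) (nat_lit 5) (nat_lit 25) (nat_lit 4) (nat_lit 497) (nat_lit 383) (nat_lit 320)))) (XT.nd (nat_lit 156) (nat_lit 76) (nat_lit 0) (XT.nd (nat_lit 78) (nat_lit 0) (nat_lit 0) (XT.lf (nat_lit 0) (nat_lit 14386710333) (nat_lit 152) (nat_lit 45202983304) (nat_lit 0) (nat_lit 9530016598) (nat_lit 22) (nat_lit 5) (nat_lit 24) (nat_lit 4) (nat_lit 22) (nat_lit 4) (nat_lit 498) (nat_lit 383) (nat_lit 319)) (XT.lf (nat_lit 0) (nat_lit 30913381857) (nat_lit 152) (nat_lit 14813185521) (nat_lit 0) (nat_lit 26046032758) (nat_lit 22) (nat_lit 5) (nat_lit 24) (nat_lit 4) (nat_lit 22) (nat_lit 4) (nat_lit 499) (nat_lit 383) (nat_lit 318))) (XT.nd (nat_lit 78) (nat_lit 0) (nat_lit 0) (XT.lf (nat_lit 0) (nat_lit 17534197875) (nat_lit 76) (nat_lit 30945386966) (nat_lit 76) (nat_lit 26067889901) (nat_lit 21) (nat_lit 4) (nat_lit 22) (nat_lit 5) (nat_lit 22) (nat_lit 4) (nat_lit 500) (nat_lit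 383) (nat_lit 317)) (XT.lf (nat_lit 0) (nat_lit 51892108299) (nat_lit 76) (nat_lit 15223290808) (nat_lit 76) (nat_lit 10336129014) (nat_lit 21) (nat_lit 4) (nat_lit 22) (nat_lit 5) (nat_lit 22) (nat_lit 4) (nat_lit 501) (nat_lit 383) (nat_lit 316))))) (XT.nd (nat_lit 312) (nat_lit 228) (nat_lit 0) (XT.nd (nat_lit 156) (nat_lit 76) (nat_lit 0) (XT.nd (nat_lit 78) (nat_lit 0) (nat_lit 0) (XT.lf (nat_lit 0) (nat_lit 6066309543) (nat_lit 152) (nat_lit 73022447121) (nat_lit 0) (nat_lit 1403103544) (nat_lit 19) (nat_lit 5) (nat_lit 21) (nat_lit 4) (nat_lit 19) (nat_lit 4) (nat_lit 502) (nat_lit 383) (nat_lit 315)) (XT.lf (nat_lit 0) (nat_lit 23573395547) (nat_lit 152) (nat_lit 41168906045) (nat_lit 0) (nat_lit 18901840792) (nat_lit 19) (nat_lit 5) (nat_lit 21) (nat_lit 4) (nat_lit 19) (nat_lit 4) (nat_lit 503) (nat_lit 383) (nat_lit 314))) (XT.nd (nat_lit 78) (nat_lit 76) (nat_lit 0) (XT.lf (nat_lit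 0) (nat_lit 41900948102) (nat_lit 152) (nat_lit 7834392889) (nat_lit 0) (nat_lit 37221442149) (nat_lit 19) (nat_lit 5) (nat_lit 21) (nat_lit 4) (nat_lit 19) (nat_lit 4) (nat_lit 504) (nat_lit 383) (nat_lit 313)) (XT.lf (nat_lit 0) (nat_lit 27955201260) (nat_lit 76) (nat_lit 33573862011) (nat_lit 76) (nat_lit 28886783490) (nat_lit 18) (nat_lit 4) (nat_lit 19) (nat_lit 5) (nat_lit 19) (nat_lit 4) (nat_lit 505) (nat_lit 383) (nat_lit 312)))) (XT.nd (nat_lit 156) (nat_lit 76) (nat_lit 0) (XT.nd (nat_lit 78) (nat_lit 152) (nat_lit 0) (XT.lf (nat_lit 0) (nat_lit 65701597757) (nat_lit 76) (nat_lit 16518246680) (nat_lit 76) (nat_lit 11823956189) (nat_lit 18) (nat_lit 4) (nat_lit 19) (nat_lit 5) (nat_lit 19) (nat_lit 4) (nat_lit 506) (nat_lit 383) (nat_lit 311)) (XT.lf (nat_lit 0) (nat_lit 5989153081) (nat_lit 152) (nat_lit 90342778584) (nat_lit 0) (nat_lit 1511858764) (nat_lit 16) (nat_lit 5) (nat_lit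 18) (nat_lit 4) (nat_lit 16) (nat_lit 4) (nat_lit 507) (nat_lit 383) (nat_lit 310))) (XT.nd (nat_lit 78) (nat_lit 76) (nat_lit 0) (XT.lf (nat_lit 0) (nat_lit 25004451998) (nat_lit 152) (nat_lit 56263263479) (nat_lit 0) (nat_lit 20520927711) (nat_lit 16) (nat_lit 5) (nat_lit 18) (nat_lit 4) (nat_lit 16) (nat_lit 4) (nat_lit 508) (nat_lit 383) (nat_lit 309)) (XT.nd (nat_lit 78) (nat_lit 76) (nat_lit 0) (XT.lf (nat_lit 0) (nat_lit 44923133122) (nat_lit 152) (nat_lit 20576299131) (nat_lit 0) (nat_lit 40433675529) (nat_lit 16) (nat_lit 5) (nat_lit 18) (nat_lit 4) (nat_lit 16) (nat_lit 4) (nat_lit 509) (nat_lit 383) (nat_lit 308)) (XT.lf (nat_lit 0) (nat_lit 17358669246) (nat_lit 76) (nat_lit 48704970113) (nat_lit 76) (nat_lit 44209861753) (nat_lit 15) (nat_lit 4) (nat_lit 16) (nat_lit 5) (nat_lit 16) (nat_lit 4) (nat_lit 510) (nat_lit 383) (nat_lit 307))))))))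
noncomputable def xc117 : XT := (XT.nd (nat_lit 1248) (nat_lit 380) (nat_lit 0) (XT.nd (nat_lit 624) (nat_lit 228) (nat_lit 0) (XT.nd (nat_lit 312) (nat_lit 76) (nat_lit 0) (XT.nd (nat_lit 156) (nat_lit 152) (nat_lit 0) (XT.nd (nat_lit 78) (nat_lit 0) (nat_lit 0) (XT.lf (nat_lit 0) (nat_lit 57814301416) (nat_lit 76) (nat_lit 30750949397) (nat_lit 76) (nat_lit 26250459354) (nat_lit 15) (nat_lit 4) (nat_lit 16) (nat_lit 5) (nat_lit 16) (nat_lit 4) (nat_lit 511) (nat_lit 383) (nat_lit 306)) (XT.lf (nat_lit 0) (nat_lit 100206574938) (nat_lit 76) (nat_lit 11943092020) (nat_lit 76) (nat_lit 7437476564) (nat_lit 15) (nat_lit 4) (nat_lit 16) (nat_lit 5) (nat_lit 16) (nat_lit 4) (nat_lit 512) (nat_lit 383) (nat_lit 305))) (XT.nd (nat_lit 78) (nat_lit 0) (nat_lit 0) (XT.lf (nat_lit 0) (nat_lit 12330726504) (nat_lit 152) (nat_lit 104201354087) (nat_lit 0) (nat_lit 8035015265) (nat_lit 13) (nat_lit 5) (nat_lit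 15) (nat_lit 4) (nat_lit 13) (nat_lit 4) (nat_lit 513) (nat_lit 383) (nat_lit 304)) (XT.lf (nat_lit 0) (nat_lit 33325872501) (nat_lit 152) (nat_lit 67413919284) (nat_lit 0) (nat_lit 29025733738) (nat_lit 13) (nat_lit 5) (nat_lit 15) (nat_lit 4) (nat_lit 13) (nat_lit 4) (nat_lit 514) (nat_lit 383) (nat_lit 303)))) (XT.nd (nat_lit 156) (nat_lit 0) (nat_lit 0) (XT.nd (nat_lit 78) (nat_lit 76) (nat_lit 0) (XT.lf (nat_lit 0) (nat_lit 55331816191) (nat_lit 152) (nat_lit 28866547766) (nat_lit 0) (nat_lit 51027460739) (nat_lit 13) (nat_lit 5) (nat_lit 15) (nat_lit 4) (nat_lit 13) (nat_lit 4) (nat_lit 515) (nat_lit 383) (nat_lit 302)) (XT.lf (nat_lit 0) (nat_lit 11913857772) (nat_lit 76) (nat_lit 66673103614) (nat_lit 76) (nat_lit 62364732267) (nat_lit 12) (nat_lit 4) (nat_lit 13) (nat_lit 5) (nat_lit 13) (nat_lit 4) (nat_lit 516) (nat_lit 383) (nat_lit 301))) (XT.nd (nat_lit 78) (nat_lit 0) (nat_lit 0)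 (XT.lf (nat_lit 0) (nat_lit 55661032737) (nat_lit 76) (nat_lit 47796200450) (nat_lit 76) (nat_lit 43484004442) (nat_lit 12) (nat_lit 4) (nat_lit 13) (nat_lit 5) (nat_lit 13) (nat_lit 4) (nat_lit 517) (nat_lit 383) (nat_lit 300)) (XT.lf (nat_lit 0) (nat_lit 101524678636) (nat_lit 76) (nat_lit 28011578413) (nat_lit 76) (nat_lit 23695739871) (nat_lit 12) (nat_lit 4) (nat_lit 13) (nat_lit 5) (nat_lit 13) (nat_lit 4) (nat_lit 518) (nat_lit 383) (nat_lit 299))))) (XT.nd (nat_lit 312) (nat_lit 76) (nat_lit 0) (XT.nd (nat_lit 156) (nat_lit 0) (nat_lit 0) (XT.nd (nat_lit 78) (nat_lit 152) (nat_lit 0) (XT.lf (nat_lit 0) (nat_lit 149613994624) (nat_lit 76) (nat_lit 7272131260) (nat_lit 76) (nat_lit 2952823637) (nat_lit 12) (nat_lit 4) (nat_lit 13) (nat_lit 5) (nat_lit 13) (nat_lit 4) (nat_lit 519) (nat_lit 383) (nat_lit 298)) (XT.lf (nat_lit 0) (nat_lit 18963882118) (nat_lit 152) (nat_lit 132913599472) (nat_lit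 0) (nat_lit 14847109251) (nat_lit 10) (nat_lit 5) (nat_lit 12) (nat_lit 4) (nat_lit 10) (nat_lit 4) (nat_lit 520) (nat_lit 383) (nat_lit 297))) (XT.nd (nat_lit 78) (nat_lit 0) (nat_lit 0) (XT.lf (nat_lit 0) (nat_lit 42140371189) (nat_lit 152) (nat_lit 93777962009) (nat_lit 0) (nat_lit 38020601600) (nat_lit 10) (nat_lit 5) (nat_lit 12) (nat_lit 4) (nat_lit 10) (nat_lit 4) (nat_lit 521) (nat_lit 383) (nat_lit 296)) (XT.lf (nat_lit 0) (nat_lit 66445173928) (nat_lit 152) (nat_lit 52747797273) (nat_lit 0) (nat_lit 62322550318) (nat_lit 10) (nat_lit 5) (nat_lit 12) (nat_lit 4) (nat_lit 10) (nat_lit 4) (nat_lit 522) (nat_lit 383) (nat_lit 295)))) (XT.nd (nat_lit 156) (nat_lit 0) (nat_lit 0) (XT.nd (nat_lit 78) (nat_lit 76) (nat_lit 0) (XT.lf (nat_lit 0) (nat_lit 91936158915) (nat_lit 152) (nat_lit 9725414397) (nat_lit 0) (nat_lit 87810817189) (nat_lit 10) (nat_lit 5) (nat_lit 12) (nat_lit 4) (nat_lit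 10) (nat_lit 4) (nat_lit 523) (nat_lit 383) (nat_lit 294)) (XT.lf (nat_lit 0) (nat_lit 36561827682) (nat_lit 76) (nat_lit 82683023881) (nat_lit 76) (nat_lit 78555093474) (nat_lit 9) (nat_lit 4) (nat_lit 10) (nat_lit 5) (nat_lit 10) (nat_lit 4) (nat_lit 524) (nat_lit 383) (nat_lit 293))) (XT.nd (nat_lit 78) (nat_lit 0) (nat_lit 0) (XT.lf (nat_lit 0) (nat_lit 85445520290) (nat_lit 76) (nat_lit 62610939406) (nat_lit 76) (nat_lit 58480543587) (nat_lit 9) (nat_lit 4) (nat_lit 10) (nat_lit 5) (nat_lit 10) (nat_lit 4) (nat_lit 525) (nat_lit 383) (nat_lit 292)) (XT.lf (nat_lit 0) (nat_lit 136720487048) (nat_lit 76) (nat_lit 41562233808) (nat_lit 76) (nat_lit 37429489979) (nat_lit 9) (nat_lit 4) (nat_lit 10) (nat_lit 5) (nat_lit 10) (nat_lit 4) (nat_lit 526) (nat_lit 383) (nat_lit 291)))))) (XT.nd (nat_lit 624) (nat_lit 152) (nat_lit 0) (XT.nd (nat_lit 312) (nat_lit 76) (nat_lit 0) (XT.nd (nat_lit 156)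 (nat_lit 0) (nat_lit 0) (XT.nd (nat_lit 78) (nat_lit 152) (nat_lit 0) (XT.lf (nat_lit 0) (nat_lit 190508811210) (nat_lit 76) (nat_lit 19486791121) (nat_lit 76) (nat_lit 15351811092) (nat_lit 9) (nat_lit 4) (nat_lit 10) (nat_lit 5) (nat_lit 10) (nat_lit 4) (nat_lit 527) (nat_lit 383) (nat_lit 290)) (XT.lf (nat_lit 0) (nat_lit 7800597413) (nat_lit 152) (nat_lit 223786101305) (nat_lit 0) (nat_lit 3860492895) (nat_lit 7) (nat_lit 5) (nat_lit 9) (nat_lit 4) (nat_lit 7) (nat_lit 4) (nat_lit 528) (nat_lit 383) (nat_lit 289))) (XT.nd (nat_lit 78) (nat_lit 0) (nat_lit 0) (XT.lf (nat_lit 0) (nat_lit 32489945486) (nat_lit 152) (nat_lit 184956758507) (nat_lit 0) (nat_lit 28547909254) (nat_lit 7) (nat_lit 5) (nat_lit 9) (nat_lit 4) (nat_lit 7) (nat_lit 4) (nat_lit 529) (nat_lit 383) (nat_lit 288)) (XT.lf (nat_lit 0) (nat_lit 58391003070) (nat_lit 152) (nat_lit 144232413694) (nat_lit 0) (nat_lit 54447127111)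 (nat_lit 7) (nat_lit 5) (nat_lit 9) (nat_lit 4) (nat_lit 7) (nat_lit 4) (nat_lit 530) (nat_lit 383) (nat_lit 287)))) (XT.nd (nat_lit 156) (nat_lit 76) (nat_lit 0) (XT.nd (nat_lit 78) (nat_lit 0) (nat_lit 0) (XT.lf (nat_lit 0) (nat_lit 85565439351) (nat_lit 152) (nat_lit 101516104143) (nat_lit 0) (nat_lit 81619811269) (nat_lit 7) (nat_lit 5) (nat_lit 9) (nat_lit 4) (nat_lit 7) (nat_lit 4) (nat_lit 531) (nat_lit 383) (nat_lit 286)) (XT.lf (nat_lit 0) (nat_lit 114077955366) (nat_lit 152) (nat_lit 56706124353) (nat_lit 0) (nat_lit 110130658597) (nat_lit 7) (nat_lit 5) (nat_lit 9) (nat_lit 4) (nat_lit 7) (nat_lit 4) (nat_lit 532) (nat_lit 383) (nat_lit 285))) (XT.nd (nat_lit 78) (nat_lit 76) (nat_lit 0) (XT.lf (nat_lit 0) (nat_lit 143996438058) (nat_lit 152) (nat_lit 9695783897) (nat_lit 0) (nat_lit 140047552064) (nat_lit 7) (nat_lit 5) (nat_lit 9) (nat_lit 4) (nat_lit 7) (nat_lit 4) (nat_lit 533) (nat_lit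 383) (nat_lit 284)) (XT.lf (nat_lit 0) (nat_lit 40937089115) (nat_lit 76) (nat_lit 135094175483) (nat_lit 76) (nat_lit 131143775940) (nat_lit 6) (nat_lit 4) (nat_lit 7) (nat_lit 5) (nat_lit 7) (nat_lit 4) (nat_lit 534) (nat_lit 383) (nat_lit 283))))) (XT.nd (nat_lit 312) (nat_lit 152) (nat_lit 0) (XT.nd (nat_lit 156) (nat_lit 0) (nat_lit 0) (XT.nd (nat_lit 78) (nat_lit 0) (nat_lit 0) (XT.lf (nat_lit 0) (nat_lit 94400611092) (nat_lit 76) (nat_lit 115413005557) (nat_lit 76) (nat_lit 111461164539) (nat_lit 6) (nat_lit 4) (nat_lit 7) (nat_lit 5) (nat_lit 7) (nat_lit 4) (nat_lit 535) (nat_lit 383) (nat_lit 282)) (XT.lf (nat_lit 0) (nat_lit 150501489729) (nat_lit 76) (nat_lit 94766055041) (nat_lit 76) (nat_lit 90812841191) (nat_lit 6) (nat_lit 4) (nat_lit 7) (nat_lit 5) (nat_lit 7) (nat_lit 4) (nat_lit 536) (nat_lit 383) (nat_lit 281))) (XT.nd (nat_lit 78) (nat_lit 0) (nat_lit 0) (XT.lf (nat_lit 0) (nat_lit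 209373298547) (nat_lit 76) (nat_lit 73104164530) (nat_lit 76) (nat_lit 69149643220) (nat_lit 6) (nat_lit 4) (nat_lit 7) (nat_lit 5) (nat_lit 7) (nat_lit 4) (nat_lit 537) (nat_lit 383) (nat_lit 280)) (XT.lf (nat_lit 0) (nat_lit 271156208520) (nat_lit 76) (nat_lit 50375758094) (nat_lit 76) (nat_lit 46419991584) (nat_lit 6) (nat_lit 4) (nat_lit 7) (nat_lit 5) (nat_lit 7) (nat_lit 4) (nat_lit 538) (nat_lit 383) (nat_lit 279)))) (XT.nd (nat_lit 156) (nat_lit 0) (nat_lit 0) (XT.nd (nat_lit 78) (nat_lit 152) (nat_lit 0) (XT.lf (nat_lit 0) (nat_lit 335997321813) (nat_lit 76) (nat_lit 26526720479) (nat_lit 76) (nat_lit 22569768064) (nat_lit 6) (nat_lit 4) (nat_lit 7) (nat_lit 5) (nat_lit 7) (nat_lit 4) (nat_lit 539) (nat_lit 383) (nat_lit 278)) (XT.lf (nat_lit 0) (nat_lit 949563939) (nat_lit 76) (nat_lit 1444409615) (nat_lit 152) (nat_lit 400696843219) (nat_lit 4) (nat_lit 5) (nat_lit 5) (nat_lit 5) (nat_lit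 6) (nat_lit 4) (nat_lit 540) (nat_lit 383) (nat_lit 277))) (XT.nd (nat_lit 78) (nat_lit 0) (nat_lit 0) (XT.lf (nat_lit 0) (nat_lit 29066483158) (nat_lit 152) (nat_lit 367545879929) (nat_lit 0) (nat_lit 25295856968) (nat_lit 4) (nat_lit 5) (nat_lit 6) (nat_lit 4) (nat_lit 4) (nat_lit 4) (nat_lit 541) (nat_lit 383) (nat_lit 276)) (XT.nd (nat_lit 78) (nat_lit 0) (nat_lit 0) (XT.lf (nat_lit 0) (nat_lit 57082330873) (nat_lit 152) (nat_lit 331272947971) (nat_lit 0) (nat_lit 53310729037) (nat_lit 4) (nat_lit 5) (nat_lit 6) (nat_lit 4) (nat_lit 4) (nat_lit 4) (nat_lit 542) (nat_lit 383) (nat_lit 275)) (XT.lf (nat_lit 0) (nat_lit 86485669817) (nat_lit 152) (nat_lit 293213541553) (nat_lit 0) (nat_lit 82713138793) (nat_lit 4) (nat_lit 5) (nat_lit 6) (nat_lit 4) (nat_lit 4) (nat_lit 4) (nat_lit 543) (nat_lit 383) (nat_lit 274))))))))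
noncomputable def xc118 : XT := (XT.nd (nat_lit 53976) (nat_lit 0) (nat_lit 4940) (XT.nd (nat_lit 624) (nat_lit 0) (nat_lit 0) (XT.nd (nat_lit 312) (nat_lit 76) (nat_lit 0) (XT.nd (nat_lit 156) (nat_lit 0) (nat_lit 0) (XT.nd (nat_lit 78) (nat_lit 0) (nat_lit 0) (XT.lf (nat_lit 0) (nat_lit 117346507941) (nat_lit 152) (nat_lit 253277043042) (nat_lit 0) (nat_lit 113573091976) (nat_lit 4) (nat_lit 5) (nat_lit 6) (nat_lit 4) (nat_lit 4) (nat_lit 4) (nat_lit 544) (nat_lit 383) (nat_lit 273)) (XT.lf (nat_lit 0) (nat_lit 149738323429) (nat_lit 152) (nat_lit 211368365536) (nat_lit 0) (nat_lit 145964064664) (nat_lit 4) (nat_lit 5) (nat_lit 6) (nat_lit 4) (nat_lit 4) (nat_lit 4) (nat_lit 545) (nat_lit 383) (nat_lit 272))) (XT.nd (nat_lit 78) (nat_lit 0) (nat_lit 0) (XT.lf (nat_lit 0) (nat_lit 183738239653) (nat_lit 152) (nat_lit 167387726471) (nat_lit 0) (nat_lit 179963178221) (nat_lit 4) (nat_lit 5) (nat_lit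 6) (nat_lit 4) (nat_lit 4) (nat_lit 4) (nat_lit 546) (nat_lit 383) (nat_lit 271)) (XT.lf (nat_lit 0) (nat_lit 219427208793) (nat_lit 152) (nat_lit 121230410038) (nat_lit 0) (nat_lit 215651382916) (nat_lit 4) (nat_lit 5) (nat_lit 6) (nat_lit 4) (nat_lit 4) (nat_lit 4) (nat_lit 547) (nat_lit 383) (nat_lit 270)))) (XT.nd (nat_lit 156) (nat_lit 76) (nat_lit 0) (XT.nd (nat_lit 78) (nat_lit 0) (nat_lit 0) (XT.lf (nat_lit 0) (nat_lit 256890204586) (nat_lit 152) (nat_lit 72786517865) (nat_lit 0) (nat_lit 253113650666) (nat_lit 4) (nat_lit 5) (nat_lit 6) (nat_lit 4) (nat_lit 4) (nat_lit 4) (nat_lit 548) (nat_lit 383) (nat_lit 269)) (XT.lf (nat_lit 0) (nat_lit 296216424641) (nat_lit 152) (nat_lit 21940707352) (nat_lit 0) (nat_lit 292439177347) (nat_lit 4) (nat_lit 5) (nat_lit 6) (nat_lit 4) (nat_lit 4) (nat_lit 4) (nat_lit 549) (nat_lit 383) (nat_lit 268))) (XT.nd (nat_lit 78) (nat_lit 0) (nat_lit 0) (XT.lf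 (nat_lit 0) (nat_lit 32467237310) (nat_lit 76) (nat_lit 305539170068) (nat_lit 76) (nat_lit 301761262418) (nat_lit 3) (nat_lit 4) (nat_lit 4) (nat_lit 5) (nat_lit 4) (nat_lit 4) (nat_lit 550) (nat_lit 383) (nat_lit 267)) (XT.lf (nat_lit 0) (nat_lit 90338311753) (nat_lit 76) (nat_lit 291909854616) (nat_lit 76) (nat_lit 288131318056) (nat_lit 3) (nat_lit 4) (nat_lit 4) (nat_lit 5) (nat_lit 4) (nat_lit 4) (nat_lit 551) (nat_lit 383) (nat_lit 266))))) (XT.nd (nat_lit 312) (nat_lit 0) (nat_lit 0) (XT.nd (nat_lit 156) (nat_lit 0) (nat_lit 0) (XT.nd (nat_lit 78) (nat_lit 0) (nat_lit 0) (XT.lf (nat_lit 0) (nat_lit 151084845377) (nat_lit 76) (nat_lit 277608311383) (nat_lit 76) (nat_lit 273829175860) (nat_lit 3) (nat_lit 4) (nat_lit 4) (nat_lit 5) (nat_lit 4) (nat_lit 4) (nat_lit 552) (nat_lit 383) (nat_lit 265)) (XT.lf (nat_lit 0) (nat_lit 214851472786) (nat_lit 76) (nat_lit 262600489075) (nat_lit 76) (nat_lit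 258820783111) (nat_lit 3) (nat_lit 4) (nat_lit 4) (nat_lit 5) (nat_lit 4) (nat_lit 4) (nat_lit 553) (nat_lit 383) (nat_lit 264))) (XT.nd (nat_lit 78) (nat_lit 0) (nat_lit 0) (XT.lf (nat_lit 0) (nat_lit 281790019283) (nat_lit 76) (nat_lit 246850654781) (nat_lit 76) (nat_lit 243070405541) (nat_lit 3) (nat_lit 4) (nat_lit 4) (nat_lit 5) (nat_lit 4) (nat_lit 4) (nat_lit 554) (nat_lit 383) (nat_lit 263)) (XT.lf (nat_lit 0) (nat_lit 352059862359) (nat_lit 76) (nat_lit 230321308896) (nat_lit 76) (nat_lit 226540542249) (nat_lit 3) (nat_lit 4) (nat_lit 4) (nat_lit 5) (nat_lit 4) (nat_lit 4) (nat_lit 555) (nat_lit 383) (nat_lit 262)))) (XT.nd (nat_lit 52884) (nat_lit 0) (nat_lit 7372) (XT.nd (nat_lit 52806) (nat_lit 0) (nat_lit 7828) (XT.lf (nat_lit 0) (nat_lit 425828311165) (nat_lit 76) (nat_lit 212973095834) (nat_lit 76) (nat_lit 209191836420) (nat_lit 3) (nat_lit 4) (nat_lit 4) (nat_lit 5) (nat_lit 4)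 (nat_lit 4) (nat_lit 556) (nat_lit 383) (nat_lit 261)) (XT.lf (nat_lit 0) (nat_lit 3046642600) (nat_lit 228) (nat_lit 836817710) (nat_lit 228) (nat_lit 836817710) (nat_lit 106) (nat_lit 4) (nat_lit 109) (nat_lit 5) (nat_lit 109) (nat_lit 4) (nat_lit 432) (nat_lit 384) (nat_lit 384))) (XT.nd (nat_lit 78) (nat_lit 228) (nat_lit 0) (XT.lf (nat_lit 0) (nat_lit 3018382700) (nat_lit 228) (nat_lit 4380249611) (nat_lit 0) (nat_lit 2238145577) (nat_lit 103) (nat_lit 5) (nat_lit 106) (nat_lit 4) (nat_lit 103) (nat_lit 4) (nat_lit 433) (nat_lit 384) (nat_lit 383)) (XT.lf (nat_lit 0) (nat_lit 4363734083) (nat_lit 228) (nat_lit 3501114035) (nat_lit 228) (nat_lit 1977793938) (nat_lit 100) (nat_lit 4) (nat_lit 103) (nat_lit 5) (nat_lit 103) (nat_lit 4) (nat_lit 434) (nat_lit 384) (nat_lit 382)))))) (XT.nd (nat_lit 624) (nat_lit 1140) (nat_lit 0) (XT.nd (nat_lit 312) (nat_lit 684) (nat_lit 0) (XT.nd (nat_lit 156)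 (nat_lit 228) (nat_lit 0) (XT.nd (nat_lit 78) (nat_lit 152) (nat_lit 0) (XT.lf (nat_lit 0) (nat_lit 2765349123) (nat_lit 228) (nat_lit 6652469269) (nat_lit 0) (nat_lit 640569915) (nat_lit 97) (nat_lit 5) (nat_lit 100) (nat_lit 4) (nat_lit 97) (nat_lit 4) (nat_lit 435) (nat_lit 384) (nat_lit 381)) (XT.lf (nat_lit 0) (nat_lit 2338120826) (nat_lit 152) (nat_lit 5355571611) (nat_lit 152) (nat_lit 2588889391) (nat_lit 95) (nat_lit 4) (nat_lit 97) (nat_lit 5) (nat_lit 97) (nat_lit 4) (nat_lit 436) (nat_lit 384) (nat_lit 380))) (XT.nd (nat_lit 78) (nat_lit 0) (nat_lit 0) (XT.lf (nat_lit 0) (nat_lit 1205560453) (nat_lit 152) (nat_lit 1030331680) (nat_lit 228) (nat_lit 8282231314) (nat_lit 92) (nat_lit 5) (nat_lit 94) (nat_lit 5) (nat_lit 95) (nat_lit 4) (nat_lit 437) (nat_lit 384) (nat_lit 379)) (XT.lf (nat_lit 0) (nat_lit 7235709275) (nat_lit 228) (nat_lit 62527607) (nat_lit 0) (nat_lit 3464048916) (nat_lit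 92) (nat_lit 5) (nat_lit 95) (nat_lit 4) (nat_lit 92) (nat_lit 4) (nat_lit 438) (nat_lit 384) (nat_lit 378)))) (XT.nd (nat_lit 156) (nat_lit 304) (nat_lit 0) (XT.nd (nat_lit 78) (nat_lit 152) (nat_lit 0) (XT.lf (nat_lit 0) (nat_lit 1425113954) (nat_lit 228) (nat_lit 1378271949) (nat_lit 76) (nat_lit 8213870361) (nat_lit 89) (nat_lit 5) (nat_lit 92) (nat_lit 5) (nat_lit 90) (nat_lit 4) (nat_lit 439) (nat_lit 384) (nat_lit 377)) (XT.lf (nat_lit 0) (nat_lit 6508694211) (nat_lit 228) (nat_lit 2838563252) (nat_lit 0) (nat_lit 1934691009) (nat_lit 87) (nat_lit 5) (nat_lit 90) (nat_lit 4) (nat_lit 87) (nat_lit 4) (nat_lit 440) (nat_lit 384) (nat_lit 376))) (XT.nd (nat_lit 78) (nat_lit 76) (nat_lit 0) (XT.lf (nat_lit 0) (nat_lit 298770945) (nat_lit 228) (nat_lit 4417711250) (nat_lit 76) (nat_lit 6842105597) (nat_lit 84) (nat_lit 5) (nat_lit 87) (nat_lit 5) (nat_lit 85) (nat_lit 4) (nat_lit 441) (nat_lit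 384) (nat_lit 375)) (XT.lf (nat_lit 0) (nat_lit 5446110420) (nat_lit 152) (nat_lit 6158258860) (nat_lit 0) (nat_lit 241675264) (nat_lit 83) (nat_lit 5) (nat_lit 85) (nat_lit 4) (nat_lit 83) (nat_lit 4) (nat_lit 442) (nat_lit 384) (nat_lit 374))))) (XT.nd (nat_lit 312) (nat_lit 608) (nat_lit 0) (XT.nd (nat_lit 156) (nat_lit 228) (nat_lit 0) (XT.nd (nat_lit 78) (nat_lit 152) (nat_lit 0) (XT.lf (nat_lit 0) (nat_lit 4075903770) (nat_lit 152) (nat_lit 6833769753) (nat_lit 152) (nat_lit 1235261831) (nat_lit 81) (nat_lit 4) (nat_lit 83) (nat_lit 5) (nat_lit 83) (nat_lit 4) (nat_lit 443) (nat_lit 384) (nat_lit 373)) (XT.lf (nat_lit 0) (nat_lit 2304242699) (nat_lit 76) (nat_lit 1733834382) (nat_lit 152) (nat_lit 8418205066) (nat_lit 79) (nat_lit 5) (nat_lit 80) (nat_lit 5) (nat_lit 81) (nat_lit 4) (nat_lit 444) (nat_lit 384) (nat_lit 372))) (XT.nd (nat_lit 78) (nat_lit 76) (nat_lit 0) (XT.lf (nat_lit 0)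 (nat_lit 346404521) (nat_lit 152) (nat_lit 9231660400) (nat_lit 152) (nat_lit 3201897605) (nat_lit 77) (nat_lit 4) (nat_lit 79) (nat_lit 5) (nat_lit 79) (nat_lit 4) (nat_lit 445) (nat_lit 384) (nat_lit 371)) (XT.lf (nat_lit 0) (nat_lit 2249774917) (nat_lit 228) (nat_lit 1741928854) (nat_lit 76) (nat_lit 9123981640) (nat_lit 76) (nat_lit 5) (nat_lit 79) (nat_lit 5) (nat_lit 77) (nat_lit 4) (nat_lit 446) (nat_lit 384) (nat_lit 370)))) (XT.nd (nat_lit 156) (nat_lit 304) (nat_lit 0) (XT.nd (nat_lit 78) (nat_lit 228) (nat_lit 0) (XT.lf (nat_lit 0) (nat_lit 7890697908) (nat_lit 152) (nat_lit 4028424286) (nat_lit 0) (nat_lit 1545237184) (nat_lit 75) (nat_lit 5) (nat_lit 77) (nat_lit 4) (nat_lit 75) (nat_lit 4) (nat_lit 447) (nat_lit 384) (nat_lit 369)) (XT.lf (nat_lit 0) (nat_lit 46703126) (nat_lit 228) (nat_lit 6529779472) (nat_lit 76) (nat_lit 7250852031) (nat_lit 72) (nat_lit 5) (nat_lit 75) (nat_lit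 5) (nat_lit 73) (nat_lit 4) (nat_lit 448) (nat_lit 384) (nat_lit 368))) (XT.nd (nat_lit 78) (nat_lit 228) (nat_lit 0) (XT.lf (nat_lit 0) (nat_lit 4915529556) (nat_lit 76) (nat_lit 844360393) (nat_lit 152) (nat_lit 8444046951) (nat_lit 71) (nat_lit 5) (nat_lit 72) (nat_lit 5) (nat_lit 73) (nat_lit 4) (nat_lit 449) (nat_lit 384) (nat_lit 367)) (XT.nd (nat_lit 78) (nat_lit 76) (nat_lit 0) (XT.lf (nat_lit 0) (nat_lit 2281601532) (nat_lit 152) (nat_lit 9559803009) (nat_lit 152) (nat_lit 2753833809) (nat_lit 69) (nat_lit 4) (nat_lit 71) (nat_lit 5) (nat_lit 71) (nat_lit 4) (nat_lit 450) (nat_lit 384) (nat_lit 366)) (XT.lf (nat_lit 0) (nat_lit 3145772622) (nat_lit 228) (nat_lit 587541509) (nat_lit 76) (nat_lit 11268880081) (nat_lit 68) (nat_lit 5) (nat_lit 71) (nat_lit 5) (nat_lit 69) (nat_lit 4) (nat_lit 451) (nat_lit 384) (nat_lit 365))))))))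
noncomputable def xc119 : XT := (XT.nd (nat_lit 1248) (nat_lit 1216) (nat_lit 0) (XT.nd (nat_lit 624) (nat_lit 608) (nat_lit 0) (XT.nd (nat_lit 312) (nat_lit 380) (nat_lit 0) (XT.nd (nat_lit 156) (nat_lit 152) (nat_lit 0) (XT.nd (nat_lit 78) (nat_lit 152) (nat_lit 0) (XT.lf (nat_lit 0) (nat_lit 9332218730) (nat_lit 152) (nat_lit 3668880096) (nat_lit 0) (nat_lit 2421923637) (nat_lit 67) (nat_lit 5) (nat_lit 69) (nat_lit 4) (nat_lit 67) (nat_lit 4) (nat_lit 452) (nat_lit 384) (nat_lit 364)) (XT.lf (nat_lit 0) (nat_lit 36445792) (nat_lit 152) (nat_lit 7034614744) (nat_lit 76) (nat_lit 8790253871) (nat_lit 65) (nat_lit 5) (nat_lit 67) (nat_lit 5) (nat_lit 66) (nat_lit 4) (nat_lit 453) (nat_lit 384) (nat_lit 363))) (XT.nd (nat_lit 78) (nat_lit 76) (nat_lit 0) (XT.lf (nat_lit 0) (nat_lit 5570356022) (nat_lit 76) (nat_lit 707322211) (nat_lit 152) (nat_lit 10038236538) (nat_lit 64) (nat_lit 5) (nat_lit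 65) (nat_lit 5) (nat_lit 66) (nat_lit 4) (nat_lit 454) (nat_lit 384) (nat_lit 362)) (XT.lf (nat_lit 0) (nat_lit 1966545507) (nat_lit 76) (nat_lit 10972279918) (nat_lit 76) (nat_lit 3849028840) (nat_lit 63) (nat_lit 4) (nat_lit 64) (nat_lit 5) (nat_lit 64) (nat_lit 4) (nat_lit 455) (nat_lit 384) (nat_lit 361)))) (XT.nd (nat_lit 156) (nat_lit 228) (nat_lit 0) (XT.nd (nat_lit 78) (nat_lit 76) (nat_lit 0) (XT.lf (nat_lit 0) (nat_lit 2624449623) (nat_lit 152) (nat_lit 1906874724) (nat_lit 76) (nat_lit 12747018807) (nat_lit 62) (nat_lit 5) (nat_lit 64) (nat_lit 5) (nat_lit 63) (nat_lit 4) (nat_lit 456) (nat_lit 384) (nat_lit 360)) (XT.lf (nat_lit 0) (nat_lit 9381696570) (nat_lit 152) (nat_lit 6110856076) (nat_lit 0) (nat_lit 2293178067) (nat_lit 61) (nat_lit 5) (nat_lit 63) (nat_lit 4) (nat_lit 61) (nat_lit 4) (nat_lit 457) (nat_lit 384) (nat_lit 359))) (XT.nd (nat_lit 78) (nat_lit 152) (nat_lit 0) (XT.lf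 (nat_lit 0) (nat_lit 7601655884) (nat_lit 76) (nat_lit 8971004211) (nat_lit 76) (nat_lit 1741036298) (nat_lit 60) (nat_lit 4) (nat_lit 61) (nat_lit 5) (nat_lit 61) (nat_lit 4) (nat_lit 458) (nat_lit 384) (nat_lit 358)) (XT.lf (nat_lit 0) (nat_lit 3112850024) (nat_lit 76) (nat_lit 1998141030) (nat_lit 152) (nat_lit 13751764471) (nat_lit 58) (nat_lit 5) (nat_lit 59) (nat_lit 5) (nat_lit 60) (nat_lit 4) (nat_lit 459) (nat_lit 384) (nat_lit 357))))) (XT.nd (nat_lit 312) (nat_lit 304) (nat_lit 0) (XT.nd (nat_lit 156) (nat_lit 152) (nat_lit 0) (XT.nd (nat_lit 78) (nat_lit 152) (nat_lit 0) (XT.lf (nat_lit 0) (nat_lit 12385319495) (nat_lit 152) (nat_lit 1796464135) (nat_lit 0) (nat_lit 5249147664) (nat_lit 58) (nat_lit 5) (nat_lit 60) (nat_lit 4) (nat_lit 58) (nat_lit 4) (nat_lit 460) (nat_lit 384) (nat_lit 356)) (XT.lf (nat_lit 0) (nat_lit 110373831) (nat_lit 152) (nat_lit 7026276256) (nat_lit 76) (nat_lit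 12885150521) (nat_lit 56) (nat_lit 5) (nat_lit 58) (nat_lit 5) (nat_lit 57) (nat_lit 4) (nat_lit 461) (nat_lit 384) (nat_lit 355))) (XT.nd (nat_lit 78) (nat_lit 76) (nat_lit 0) (XT.lf (nat_lit 0) (nat_lit 7424448066) (nat_lit 152) (nat_lit 12798425014) (nat_lit 0) (nat_lit 411712898) (nat_lit 55) (nat_lit 5) (nat_lit 57) (nat_lit 4) (nat_lit 55) (nat_lit 4) (nat_lit 462) (nat_lit 384) (nat_lit 354)) (XT.lf (nat_lit 0) (nat_lit 2121520773) (nat_lit 76) (nat_lit 13131164274) (nat_lit 76) (nat_lit 6017903651) (nat_lit 54) (nat_lit 4) (nat_lit 55) (nat_lit 5) (nat_lit 55) (nat_lit 4) (nat_lit 463) (nat_lit 384) (nat_lit 353)))) (XT.nd (nat_lit 156) (nat_lit 152) (nat_lit 0) (XT.nd (nat_lit 78) (nat_lit 76) (nat_lit 0) (XT.lf (nat_lit 0) (nat_lit 1582705038) (nat_lit 152) (nat_lit 3964453822) (nat_lit 76) (nat_lit 16385143251) (nat_lit 53) (nat_lit 5) (nat_lit 55) (nat_lit 5) (nat_lit 54) (nat_lit 4)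 (nat_lit 464) (nat_lit 384) (nat_lit 352)) (XT.lf (nat_lit 0) (nat_lit 9473064677) (nat_lit 152) (nat_lit 10622993096) (nat_lit 0) (nat_lit 2520513531) (nat_lit 52) (nat_lit 5) (nat_lit 54) (nat_lit 4) (nat_lit 52) (nat_lit 4) (nat_lit 465) (nat_lit 384) (nat_lit 351))) (XT.nd (nat_lit 78) (nat_lit 76) (nat_lit 0) (XT.lf (nat_lit 0) (nat_lit 5406460726) (nat_lit 76) (nat_lit 12478742364) (nat_lit 76) (nat_lit 5443488677) (nat_lit 51) (nat_lit 4) (nat_lit 52) (nat_lit 5) (nat_lit 52) (nat_lit 4) (nat_lit 466) (nat_lit 384) (nat_lit 350)) (XT.lf (nat_lit 0) (nat_lit 2623644220) (nat_lit 152) (nat_lit 1735547359) (nat_lit 76) (nat_lit 19711832385) (nat_lit 50) (nat_lit 5) (nat_lit 52) (nat_lit 5) (nat_lit 51) (nat_lit 4) (nat_lit 467) (nat_lit 384) (nat_lit 349)))))) (XT.nd (nat_lit 624) (nat_lit 608) (nat_lit 0) (XT.nd (nat_lit 312) (nat_lit 304) (nat_lit 0) (XT.nd (nat_lit 156) (nat_lit 152) (nat_lit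 0) (XT.nd (nat_lit 78) (nat_lit 76) (nat_lit 0) (XT.lf (nat_lit 0) (nat_lit 11110467494) (nat_lit 152) (nat_lit 9461809922) (nat_lit 0) (nat_lit 4263770681) (nat_lit 49) (nat_lit 5) (nat_lit 51) (nat_lit 4) (nat_lit 49) (nat_lit 4) (nat_lit 468) (nat_lit 384) (nat_lit 348)) (XT.lf (nat_lit 0) (nat_lit 7717576455) (nat_lit 76) (nat_lit 12415457001) (nat_lit 76) (nat_lit 5500720603) (nat_lit 48) (nat_lit 4) (nat_lit 49) (nat_lit 5) (nat_lit 49) (nat_lit 4) (nat_lit 469) (nat_lit 384) (nat_lit 347))) (XT.nd (nat_lit 78) (nat_lit 76) (nat_lit 0) (XT.lf (nat_lit 0) (nat_lit 3087578223) (nat_lit 152) (nat_lit 650000644) (nat_lit 76) (nat_lit 22728692100) (nat_lit 47) (nat_lit 5) (nat_lit 49) (nat_lit 5) (nat_lit 48) (nat_lit 4) (nat_lit 470) (nat_lit 384) (nat_lit 346)) (XT.lf (nat_lit 0) (nat_lit 12180769748) (nat_lit 152) (nat_lit 9667301437) (nat_lit 0) (nat_lit 5474817451) (nat_lit 46) (nat_lit 5)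 (nat_lit 48) (nat_lit 4) (nat_lit 46) (nat_lit 4) (nat_lit 471) (nat_lit 384) (nat_lit 345)))) (XT.nd (nat_lit 156) (nat_lit 152) (nat_lit 0) (XT.nd (nat_lit 78) (nat_lit 76) (nat_lit 0) (XT.lf (nat_lit 0) (nat_lit 8684486197) (nat_lit 76) (nat_lit 13147310699) (nat_lit 76) (nat_lit 6385382066) (nat_lit 45) (nat_lit 4) (nat_lit 46) (nat_lit 5) (nat_lit 46) (nat_lit 4) (nat_lit 472) (nat_lit 384) (nat_lit 344)) (XT.lf (nat_lit 0) (nat_lit 2780899889) (nat_lit 152) (nat_lit 1114394655) (nat_lit 76) (nat_lit 25255615815) (nat_lit 44) (nat_lit 5) (nat_lit 46) (nat_lit 5) (nat_lit 45) (nat_lit 4) (nat_lit 473) (nat_lit 384) (nat_lit 343))) (XT.nd (nat_lit 78) (nat_lit 76) (nat_lit 0) (XT.lf (nat_lit 0) (nat_lit 12475910842) (nat_lit 152) (nat_lit 11699081619) (nat_lit 0) (nat_lit 5936852162) (nat_lit 43) (nat_lit 5) (nat_lit 45) (nat_lit 4) (nat_lit 43) (nat_lit 4) (nat_lit 474) (nat_lit 384) (nat_lit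 342)) (XT.lf (nat_lit 0) (nat_lit 7821729332) (nat_lit 76) (nat_lit 14939465581) (nat_lit 76) (nat_lit 8354355032) (nat_lit 42) (nat_lit 4) (nat_lit 43) (nat_lit 5) (nat_lit 43) (nat_lit 4) (nat_lit 475) (nat_lit 384) (nat_lit 341))))) (XT.nd (nat_lit 312) (nat_lit 380) (nat_lit 0) (XT.nd (nat_lit 156) (nat_lit 76) (nat_lit 0) (XT.nd (nat_lit 78) (nat_lit 76) (nat_lit 0) (XT.lf (nat_lit 0) (nat_lit 1448587133) (nat_lit 152) (nat_lit 3659365848) (nat_lit 76) (nat_lit 27055311132) (nat_lit 41) (nat_lit 5) (nat_lit 43) (nat_lit 5) (nat_lit 42) (nat_lit 4) (nat_lit 476) (nat_lit 384) (nat_lit 340)) (XT.lf (nat_lit 0) (nat_lit 11720892943) (nat_lit 152) (nat_lit 16154817394) (nat_lit 0) (nat_lit 5367807348) (nat_lit 40) (nat_lit 5) (nat_lit 42) (nat_lit 4) (nat_lit 40) (nat_lit 4) (nat_lit 477) (nat_lit 384) (nat_lit 339))) (XT.nd (nat_lit 78) (nat_lit 0) (nat_lit 0) (XT.lf (nat_lit 0) (nat_lit 4495424231)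 (nat_lit 76) (nat_lit 18133610813) (nat_lit 76) (nat_lit 11742638230) (nat_lit 39) (nat_lit 4) (nat_lit 40) (nat_lit 5) (nat_lit 40) (nat_lit 4) (nat_lit 478) (nat_lit 384) (nat_lit 338)) (XT.lf (nat_lit 0) (nat_lit 26551871098) (nat_lit 76) (nat_lit 7711198537) (nat_lit 76) (nat_lit 1284143109) (nat_lit 39) (nat_lit 4) (nat_lit 40) (nat_lit 5) (nat_lit 40) (nat_lit 4) (nat_lit 479) (nat_lit 384) (nat_lit 337)))) (XT.nd (nat_lit 156) (nat_lit 228) (nat_lit 0) (XT.nd (nat_lit 78) (nat_lit 0) (nat_lit 0) (XT.lf (nat_lit 0) (nat_lit 9554811800) (nat_lit 152) (nat_lit 23809673792) (nat_lit 0) (nat_lit 3401078428) (nat_lit 37) (nat_lit 5) (nat_lit 39) (nat_lit 4) (nat_lit 37) (nat_lit 4) (nat_lit 480) (nat_lit 384) (nat_lit 336)) (XT.lf (nat_lit 0) (nat_lit 21083792447) (nat_lit 152) (nat_lit 2051537117) (nat_lit 0) (nat_lit 14898889357) (nat_lit 37) (nat_lit 5) (nat_lit 39) (nat_lit 4) (nat_lit 37)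 (nat_lit 4) (nat_lit 481) (nat_lit 384) (nat_lit 335))) (XT.nd (nat_lit 78) (nat_lit 152) (nat_lit 0) (XT.lf (nat_lit 0) (nat_lit 21303650607) (nat_lit 76) (nat_lit 12132450428) (nat_lit 76) (nat_lit 5917861892) (nat_lit 36) (nat_lit 4) (nat_lit 37) (nat_lit 5) (nat_lit 37) (nat_lit 4) (nat_lit 482) (nat_lit 384) (nat_lit 334)) (XT.nd (nat_lit 78) (nat_lit 0) (nat_lit 0) (XT.lf (nat_lit 0) (nat_lit 5060027686) (nat_lit 76) (nat_lit 453576252) (nat_lit 152) (nat_lit 35220235558) (nat_lit 34) (nat_lit 5) (nat_lit 35) (nat_lit 5) (nat_lit 36) (nat_lit 4) (nat_lit 483) (nat_lit 384) (nat_lit 333)) (XT.lf (nat_lit 0) (nat_lit 17727246325) (nat_lit 152) (nat_lit 12674117416) (nat_lit 0) (nat_lit 11756021598) (nat_lit 34) (nat_lit 5) (nat_lit 36) (nat_lit 4) (nat_lit 34) (nat_lit 4) (nat_lit 484) (nat_lit 384) (nat_lit 332))))))))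
noncomputable def xc120 : XT := (XT.nd (nat_lit 1248) (nat_lit 684) (nat_lit 0) (XT.nd (nat_lit 624) (nat_lit 380) (nat_lit 0) (XT.nd (nat_lit 312) (nat_lit 304) (nat_lit 0) (XT.nd (nat_lit 156) (nat_lit 152) (nat_lit 0) (XT.nd (nat_lit 78) (nat_lit 0) (nat_lit 0) (XT.lf (nat_lit 0) (nat_lit 11677259804) (nat_lit 76) (nat_lit 18982542189) (nat_lit 76) (nat_lit 12986895173) (nat_lit 33) (nat_lit 4) (nat_lit 34) (nat_lit 5) (nat_lit 34) (nat_lit 4) (nat_lit 485) (nat_lit 384) (nat_lit 331)) (XT.lf (nat_lit 0) (nat_lit 37524266190) (nat_lit 76) (nat_lit 6849195579) (nat_lit 76) (nat_lit 830289239) (nat_lit 33) (nat_lit 4) (nat_lit 34) (nat_lit 5) (nat_lit 34) (nat_lit 4) (nat_lit 486) (nat_lit 384) (nat_lit 330))) (XT.nd (nat_lit 78) (nat_lit 0) (nat_lit 0) (XT.lf (nat_lit 0) (nat_lit 11854956743) (nat_lit 152) (nat_lit 28857677795) (nat_lit 0) (nat_lit 6101568098) (nat_lit 31) (nat_lit 5) (nat_lit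 33) (nat_lit 4) (nat_lit 31) (nat_lit 4) (nat_lit 487) (nat_lit 384) (nat_lit 329)) (XT.lf (nat_lit 0) (nat_lit 25313500425) (nat_lit 152) (nat_lit 3642629631) (nat_lit 0) (nat_lit 19540019503) (nat_lit 31) (nat_lit 5) (nat_lit 33) (nat_lit 4) (nat_lit 31) (nat_lit 4) (nat_lit 488) (nat_lit 384) (nat_lit 328)))) (XT.nd (nat_lit 156) (nat_lit 152) (nat_lit 0) (XT.nd (nat_lit 78) (nat_lit 76) (nat_lit 0) (XT.lf (nat_lit 0) (nat_lit 23433789331) (nat_lit 76) (nat_lit 16303209862) (nat_lit 76) (nat_lit 10510593437) (nat_lit 30) (nat_lit 4) (nat_lit 31) (nat_lit 5) (nat_lit 31) (nat_lit 4) (nat_lit 489) (nat_lit 384) (nat_lit 327)) (XT.lf (nat_lit 0) (nat_lit 2694497724) (nat_lit 152) (nat_lit 287120377) (nat_lit 76) (nat_lit 49103363379) (nat_lit 29) (nat_lit 5) (nat_lit 31) (nat_lit 5) (nat_lit 30) (nat_lit 4) (nat_lit 490) (nat_lit 384) (nat_lit 326))) (XT.nd (nat_lit 78) (nat_lit 76) (nat_lit 0)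 (XT.lf (nat_lit 0) (nat_lit 16756602020) (nat_lit 152) (nat_lit 26015585473) (nat_lit 0) (nat_lit 11205938040) (nat_lit 28) (nat_lit 5) (nat_lit 30) (nat_lit 4) (nat_lit 28) (nat_lit 4) (nat_lit 491) (nat_lit 384) (nat_lit 325)) (XT.lf (nat_lit 0) (nat_lit 1526488268) (nat_lit 76) (nat_lit 30002737390) (nat_lit 76) (nat_lit 24436330584) (nat_lit 27) (nat_lit 4) (nat_lit 28) (nat_lit 5) (nat_lit 28) (nat_lit 4) (nat_lit 492) (nat_lit 384) (nat_lit 324))))) (XT.nd (nat_lit 312) (nat_lit 152) (nat_lit 0) (XT.nd (nat_lit 156) (nat_lit 76) (nat_lit 0) (XT.nd (nat_lit 78) (nat_lit 152) (nat_lit 0) (XT.lf (nat_lit 0) (nat_lit 31208786284) (nat_lit 76) (nat_lit 16203198556) (nat_lit 76) (nat_lit 10621798583) (nat_lit 27) (nat_lit 4) (nat_lit 28) (nat_lit 5) (nat_lit 28) (nat_lit 4) (nat_lit 493) (nat_lit 384) (nat_lit 323)) (XT.lf (nat_lit 0) (nat_lit 2038776688) (nat_lit 76) (nat_lit 1685348125) (nat_lit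 152) (nat_lit 56480017717) (nat_lit 25) (nat_lit 5) (nat_lit 26) (nat_lit 5) (nat_lit 27) (nat_lit 4) (nat_lit 494) (nat_lit 384) (nat_lit 322))) (XT.nd (nat_lit 78) (nat_lit 76) (nat_lit 0) (XT.lf (nat_lit 0) (nat_lit 19036981958) (nat_lit 152) (nat_lit 29712189363) (nat_lit 0) (nat_lit 13694812030) (nat_lit 25) (nat_lit 5) (nat_lit 27) (nat_lit 4) (nat_lit 25) (nat_lit 4) (nat_lit 495) (nat_lit 384) (nat_lit 321)) (XT.lf (nat_lit 0) (nat_lit 7035621) (nat_lit 76) (nat_lit 35072540428) (nat_lit 76) (nat_lit 29718035585) (nat_lit 24) (nat_lit 4) (nat_lit 25) (nat_lit 5) (nat_lit 25) (nat_lit 4) (nat_lit 496) (nat_lit 384) (nat_lit 320)))) (XT.nd (nat_lit 156) (nat_lit 76) (nat_lit 0) (XT.nd (nat_lit 78) (nat_lit 76) (nat_lit 0) (XT.lf (nat_lit 0) (nat_lit 32116639114) (nat_lit 76) (nat_lit 20248252564) (nat_lit 76) (nat_lit 14882000182) (nat_lit 24) (nat_lit 4) (nat_lit 25) (nat_lit 5) (nat_lit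 25) (nat_lit 4) (nat_lit 497) (nat_lit 384) (nat_lit 319)) (XT.lf (nat_lit 0) (nat_lit 612970820) (nat_lit 152) (nat_lit 4120850332) (nat_lit 76) (nat_lit 65087301610) (nat_lit 23) (nat_lit 5) (nat_lit 25) (nat_lit 5) (nat_lit 24) (nat_lit 4) (nat_lit 498) (nat_lit 384) (nat_lit 318))) (XT.nd (nat_lit 78) (nat_lit 0) (nat_lit 0) (XT.lf (nat_lit 0) (nat_lit 16968637701) (nat_lit 152) (nat_lit 43676807428) (nat_lit 0) (nat_lit 11837117817) (nat_lit 22) (nat_lit 5) (nat_lit 24) (nat_lit 4) (nat_lit 22) (nat_lit 4) (nat_lit 499) (nat_lit 384) (nat_lit 317)) (XT.lf (nat_lit 0) (nat_lit 34232947951) (nat_lit 152) (nat_lit 11947820948) (nat_lit 0) (nat_lit 29091763338) (nat_lit 22) (nat_lit 5) (nat_lit 24) (nat_lit 4) (nat_lit 22) (nat_lit 4) (nat_lit 500) (nat_lit 384) (nat_lit 316)))))) (XT.nd (nat_lit 624) (nat_lit 228) (nat_lit 0) (XT.nd (nat_lit 312) (nat_lit 228) (nat_lit 0) (XT.nd (nat_lit 156)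 (nat_lit 152) (nat_lit 0) (XT.nd (nat_lit 78) (nat_lit 0) (nat_lit 0) (XT.lf (nat_lit 0) (nat_lit 21958769943) (nat_lit 76) (nat_lit 30689611927) (nat_lit 76) (nat_lit 25539222809) (nat_lit 21) (nat_lit 4) (nat_lit 22) (nat_lit 5) (nat_lit 22) (nat_lit 4) (nat_lit 501) (nat_lit 384) (nat_lit 315)) (XT.lf (nat_lit 0) (nat_lit 57865630071) (nat_lit 76) (nat_lit 14267270218) (nat_lit 76) (nat_lit 9108114906) (nat_lit 21) (nat_lit 4) (nat_lit 22) (nat_lit 5) (nat_lit 22) (nat_lit 4) (nat_lit 502) (nat_lit 384) (nat_lit 314))) (XT.nd (nat_lit 78) (nat_lit 0) (nat_lit 0) (XT.lf (nat_lit 0) (nat_lit 8057758037) (nat_lit 152) (nat_lit 73237960425) (nat_lit 0) (nat_lit 3136325590) (nat_lit 19) (nat_lit 5) (nat_lit 21) (nat_lit 4) (nat_lit 19) (nat_lit 4) (nat_lit 503) (nat_lit 384) (nat_lit 313)) (XT.lf (nat_lit 0) (nat_lit 26359811055) (nat_lit 152) (nat_lit 39955342727) (nat_lit 0) (nat_lit 21430806041)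 (nat_lit 19) (nat_lit 5) (nat_lit 21) (nat_lit 4) (nat_lit 19) (nat_lit 4) (nat_lit 504) (nat_lit 384) (nat_lit 312)))) (XT.nd (nat_lit 156) (nat_lit 152) (nat_lit 0) (XT.nd (nat_lit 78) (nat_lit 76) (nat_lit 0) (XT.lf (nat_lit 0) (nat_lit 45527181917) (nat_lit 152) (nat_lit 5109913847) (nat_lit 0) (nat_lit 40590964932) (nat_lit 19) (nat_lit 5) (nat_lit 21) (nat_lit 4) (nat_lit 19) (nat_lit 4) (nat_lit 505) (nat_lit 384) (nat_lit 311)) (XT.lf (nat_lit 0) (nat_lit 32418898740) (nat_lit 76) (nat_lit 33692758341) (nat_lit 76) (nat_lit 28749672814) (nat_lit 18) (nat_lit 4) (nat_lit 19) (nat_lit 5) (nat_lit 19) (nat_lit 4) (nat_lit 506) (nat_lit 384) (nat_lit 310))) (XT.nd (nat_lit 78) (nat_lit 152) (nat_lit 0) (XT.lf (nat_lit 0) (nat_lit 71906618042) (nat_lit 76) (nat_lit 15858638280) (nat_lit 76) (nat_lit 10909011284) (nat_lit 18) (nat_lit 4) (nat_lit 19) (nat_lit 5) (nat_lit 19) (nat_lit 4) (nat_lit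 507) (nat_lit 384) (nat_lit 309)) (XT.lf (nat_lit 0) (nat_lit 7745918876) (nat_lit 152) (nat_lit 91891138695) (nat_lit 0) (nat_lit 3026055098) (nat_lit 16) (nat_lit 5) (nat_lit 18) (nat_lit 4) (nat_lit 16) (nat_lit 4) (nat_lit 508) (nat_lit 384) (nat_lit 308))))) (XT.nd (nat_lit 312) (nat_lit 152) (nat_lit 0) (XT.nd (nat_lit 156) (nat_lit 76) (nat_lit 0) (XT.nd (nat_lit 78) (nat_lit 0) (nat_lit 0) (XT.lf (nat_lit 0) (nat_lit 27642587113) (nat_lit 152) (nat_lit 56249018254) (nat_lit 0) (nat_lit 22917072568) (nat_lit 16) (nat_lit 5) (nat_lit 18) (nat_lit 4) (nat_lit 16) (nat_lit 4) (nat_lit 509) (nat_lit 384) (nat_lit 307)) (XT.lf (nat_lit 0) (nat_lit 48491111221) (nat_lit 152) (nat_lit 18912344184) (nat_lit 0) (nat_lit 43760214993) (nat_lit 16) (nat_lit 5) (nat_lit 18) (nat_lit 4) (nat_lit 16) (nat_lit 4) (nat_lit 510) (nat_lit 384) (nat_lit 306))) (XT.nd (nat_lit 78) (nat_lit 0) (nat_lit 0) (XT.lf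 (nat_lit 0) (nat_lit 20875940839) (nat_lit 76) (nat_lit 49791121645) (nat_lit 76) (nat_lit 45055100005) (nat_lit 15) (nat_lit 4) (nat_lit 16) (nat_lit 5) (nat_lit 16) (nat_lit 4) (nat_lit 511) (nat_lit 384) (nat_lit 305)) (XT.lf (nat_lit 0) (nat_lit 63228195659) (nat_lit 76) (nat_lit 31003642606) (nat_lit 76) (nat_lit 26262739621) (nat_lit 15) (nat_lit 4) (nat_lit 16) (nat_lit 5) (nat_lit 16) (nat_lit 4) (nat_lit 512) (nat_lit 384) (nat_lit 304)))) (XT.nd (nat_lit 156) (nat_lit 0) (nat_lit 0) (XT.nd (nat_lit 78) (nat_lit 152) (nat_lit 0) (XT.lf (nat_lit 0) (nat_lit 107619931468) (nat_lit 76) (nat_lit 11316575896) (nat_lit 76) (nat_lit 6571024011) (nat_lit 15) (nat_lit 4) (nat_lit 16) (nat_lit 5) (nat_lit 16) (nat_lit 4) (nat_lit 513) (nat_lit 384) (nat_lit 303)) (XT.lf (nat_lit 0) (nat_lit 14145508297) (nat_lit 152) (nat_lit 106968310362) (nat_lit 0) (nat_lit 9621718383) (nat_lit 13) (nat_lit 5)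 (nat_lit 15) (nat_lit 4) (nat_lit 13) (nat_lit 4) (nat_lit 514) (nat_lit 384) (nat_lit 302))) (XT.nd (nat_lit 78) (nat_lit 0) (nat_lit 0) (XT.lf (nat_lit 0) (nat_lit 36133352286) (nat_lit 152) (nat_lit 68457842458) (nat_lit 0) (nat_lit 31605546477) (nat_lit 13) (nat_lit 5) (nat_lit 15) (nat_lit 4) (nat_lit 13) (nat_lit 4) (nat_lit 515) (nat_lit 384) (nat_lit 301)) (XT.lf (nat_lit 0) (nat_lit 59185250962) (nat_lit 152) (nat_lit 28093901069) (nat_lit 0) (nat_lit 54653620492) (nat_lit 13) (nat_lit 5) (nat_lit 15) (nat_lit 4) (nat_lit 13) (nat_lit 4) (nat_lit 516) (nat_lit 384) (nat_lit 300)))))))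
noncomputable def xc121 : XT := (XT.nd (nat_lit 1248) (nat_lit 228) (nat_lit 0) (XT.nd (nat_lit 624) (nat_lit 228) (nat_lit 0) (XT.nd (nat_lit 312) (nat_lit 152) (nat_lit 0) (XT.nd (nat_lit 156) (nat_lit 0) (nat_lit 0) (XT.nd (nat_lit 78) (nat_lit 0) (nat_lit 0) (XT.lf (nat_lit 0) (nat_lit 14689783229) (nat_lit 76) (nat_lit 68895655254) (nat_lit 76) (nat_lit 64360382250) (nat_lit 12) (nat_lit 4) (nat_lit 13) (nat_lit 5) (nat_lit 13) (nat_lit 4) (nat_lit 517) (nat_lit 384) (nat_lit 299)) (XT.lf (nat_lit 0) (nat_lit 60520496344) (nat_lit 76) (nat_lit 49127816625) (nat_lit 76) (nat_lit 44589074539) (nat_lit 12) (nat_lit 4) (nat_lit 13) (nat_lit 5) (nat_lit 13) (nat_lit 4) (nat_lit 518) (nat_lit 384) (nat_lit 298))) (XT.nd (nat_lit 78) (nat_lit 0) (nat_lit 0) (XT.lf (nat_lit 0) (nat_lit 108578447777) (nat_lit 76) (nat_lit 28404353669) (nat_lit 76) (nat_lit 23862307697) (nat_lit 12) (nat_lit 4) (nat_lit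 13) (nat_lit 5) (nat_lit 13) (nat_lit 4) (nat_lit 519) (nat_lit 384) (nat_lit 297)) (XT.lf (nat_lit 0) (nat_lit 158978061222) (nat_lit 76) (nat_lit 6675924809) (nat_lit 76) (nat_lit 2130732279) (nat_lit 12) (nat_lit 4) (nat_lit 13) (nat_lit 5) (nat_lit 13) (nat_lit 4) (nat_lit 520) (nat_lit 384) (nat_lit 296)))) (XT.nd (nat_lit 156) (nat_lit 0) (nat_lit 0) (XT.nd (nat_lit 78) (nat_lit 0) (nat_lit 0) (XT.lf (nat_lit 0) (nat_lit 20850468898) (nat_lit 152) (nat_lit 137644570864) (nat_lit 0) (nat_lit 16518860086) (nat_lit 10) (nat_lit 5) (nat_lit 12) (nat_lit 4) (nat_lit 10) (nat_lit 4) (nat_lit 521) (nat_lit 384) (nat_lit 295)) (XT.lf (nat_lit 0) (nat_lit 45141097057) (nat_lit 152) (nat_lit 96643328126) (nat_lit 0) (nat_lit 40806770129) (nat_lit 10) (nat_lit 5) (nat_lit 12) (nat_lit 4) (nat_lit 10) (nat_lit 4) (nat_lit 522) (nat_lit 384) (nat_lit 294))) (XT.nd (nat_lit 78) (nat_lit 0) (nat_lit 0)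 (XT.lf (nat_lit 0) (nat_lit 70618582443) (nat_lit 152) (nat_lit 53648490010) (nat_lit 0) (nat_lit 66281666833) (nat_lit 10) (nat_lit 5) (nat_lit 12) (nat_lit 4) (nat_lit 10) (nat_lit 4) (nat_lit 523) (nat_lit 384) (nat_lit 293)) (XT.lf (nat_lit 0) (nat_lit 97343585735) (nat_lit 152) (nat_lit 8557687854) (nat_lit 0) (nat_lit 93004204714) (nat_lit 10) (nat_lit 5) (nat_lit 12) (nat_lit 4) (nat_lit 10) (nat_lit 4) (nat_lit 524) (nat_lit 384) (nat_lit 292))))) (XT.nd (nat_lit 312) (nat_lit 152) (nat_lit 0) (XT.nd (nat_lit 156) (nat_lit 0) (nat_lit 0) (XT.nd (nat_lit 78) (nat_lit 0) (nat_lit 0) (XT.lf (nat_lit 0) (nat_lit 40017238954) (nat_lit 76) (nat_lit 85987280186) (nat_lit 76) (nat_lit 81645551156) (nat_lit 9) (nat_lit 4) (nat_lit 10) (nat_lit 5) (nat_lit 10) (nat_lit 4) (nat_lit 525) (nat_lit 384) (nat_lit 291)) (XT.lf (nat_lit 0) (nat_lit 91267624769) (nat_lit 76) (nat_lit 64951110291) (nat_lit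 76) (nat_lit 60607145060) (nat_lit 9) (nat_lit 4) (nat_lit 10) (nat_lit 5) (nat_lit 10) (nat_lit 4) (nat_lit 526) (nat_lit 384) (nat_lit 290))) (XT.nd (nat_lit 78) (nat_lit 0) (nat_lit 0) (XT.lf (nat_lit 0) (nat_lit 145032538509) (nat_lit 76) (nat_lit 42887606370) (nat_lit 76) (nat_lit 38541511424) (nat_lit 9) (nat_lit 4) (nat_lit 10) (nat_lit 5) (nat_lit 10) (nat_lit 4) (nat_lit 527) (nat_lit 384) (nat_lit 289)) (XT.lf (nat_lit 0) (nat_lit 201439991875) (nat_lit 76) (nat_lit 19744236269) (nat_lit 76) (nat_lit 15396113024) (nat_lit 9) (nat_lit 4) (nat_lit 10) (nat_lit 5) (nat_lit 10) (nat_lit 4) (nat_lit 528) (nat_lit 384) (nat_lit 288)))) (XT.nd (nat_lit 156) (nat_lit 0) (nat_lit 0) (XT.nd (nat_lit 78) (nat_lit 0) (nat_lit 0) (XT.lf (nat_lit 0) (nat_lit 8890571243) (nat_lit 152) (nat_lit 233546320412) (nat_lit 0) (nat_lit 4747661758) (nat_lit 7) (nat_lit 5) (nat_lit 9) (nat_lit 4) (nat_lit 7)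 (nat_lit 4) (nat_lit 529) (nat_lit 384) (nat_lit 287)) (XT.lf (nat_lit 0) (nat_lit 34781056056) (nat_lit 152) (nat_lit 192843562185) (nat_lit 0) (nat_lit 30636394449) (nat_lit 7) (nat_lit 5) (nat_lit 9) (nat_lit 4) (nat_lit 7) (nat_lit 4) (nat_lit 530) (nat_lit 384) (nat_lit 286))) (XT.nd (nat_lit 78) (nat_lit 0) (nat_lit 0) (XT.lf (nat_lit 0) (nat_lit 61945423029) (nat_lit 152) (nat_lit 150147811287) (nat_lit 0) (nat_lit 57799092735) (nat_lit 7) (nat_lit 5) (nat_lit 9) (nat_lit 4) (nat_lit 7) (nat_lit 4) (nat_lit 531) (nat_lit 384) (nat_lit 285)) (XT.lf (nat_lit 0) (nat_lit 90448349228) (nat_lit 152) (nat_lit 105357411167) (nat_lit 0) (nat_lit 86300429708) (nat_lit 7) (nat_lit 5) (nat_lit 9) (nat_lit 4) (nat_lit 7) (nat_lit 4) (nat_lit 532) (nat_lit 384) (nat_lit 284)))))) (XT.nd (nat_lit 624) (nat_lit 152) (nat_lit 0) (XT.nd (nat_lit 312) (nat_lit 0) (nat_lit 0) (XT.nd (nat_lit 156) (nat_lit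 76) (nat_lit 0) (XT.nd (nat_lit 78) (nat_lit 0) (nat_lit 0) (XT.lf (nat_lit 0) (nat_lit 120357698762) (nat_lit 152) (nat_lit 58365718016) (nat_lit 0) (nat_lit 116208265694) (nat_lit 7) (nat_lit 5) (nat_lit 9) (nat_lit 4) (nat_lit 7) (nat_lit 4) (nat_lit 533) (nat_lit 384) (nat_lit 283)) (XT.lf (nat_lit 0) (nat_lit 151744684369) (nat_lit 152) (nat_lit 9060846849) (nat_lit 0) (nat_lit 147593809826) (nat_lit 7) (nat_lit 5) (nat_lit 9) (nat_lit 4) (nat_lit 7) (nat_lit 4) (nat_lit 534) (nat_lit 384) (nat_lit 282))) (XT.nd (nat_lit 78) (nat_lit 0) (nat_lit 0) (XT.lf (nat_lit 0) (nat_lit 44085609713) (nat_lit 76) (nat_lit 141286727170) (nat_lit 76) (nat_lit 137134479794) (nat_lit 6) (nat_lit 4) (nat_lit 7) (nat_lit 5) (nat_lit 7) (nat_lit 4) (nat_lit 535) (nat_lit 384) (nat_lit 281)) (XT.lf (nat_lit 0) (nat_lit 100169847496) (nat_lit 76) (nat_lit 120648268133) (nat_lit 76) (nat_lit 116494713297) (nat_lit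 6) (nat_lit 4) (nat_lit 7) (nat_lit 5) (nat_lit 7) (nat_lit 4) (nat_lit 536) (nat_lit 384) (nat_lit 280)))) (XT.nd (nat_lit 156) (nat_lit 0) (nat_lit 0) (XT.nd (nat_lit 78) (nat_lit 0) (nat_lit 0) (XT.lf (nat_lit 0) (nat_lit 159025807882) (nat_lit 76) (nat_lit 98994464744) (nat_lit 76) (nat_lit 94839664708) (nat_lit 6) (nat_lit 4) (nat_lit 7) (nat_lit 5) (nat_lit 7) (nat_lit 4) (nat_lit 537) (nat_lit 384) (nat_lit 279)) (XT.lf (nat_lit 0) (nat_lit 220793624109) (nat_lit 76) (nat_lit 76273760329) (nat_lit 76) (nat_lit 72117774388) (nat_lit 6) (nat_lit 4) (nat_lit 7) (nat_lit 5) (nat_lit 7) (nat_lit 4) (nat_lit 538) (nat_lit 384) (nat_lit 278))) (XT.nd (nat_lit 78) (nat_lit 0) (nat_lit 0) (XT.lf (nat_lit 0) (nat_lit 285620362408) (nat_lit 76) (nat_lit 52432057973) (nat_lit 76) (nat_lit 48274942599) (nat_lit 6) (nat_lit 4) (nat_lit 7) (nat_lit 5) (nat_lit 7) (nat_lit 4) (nat_lit 539) (nat_lit 384)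 (nat_lit 277)) (XT.lf (nat_lit 0) (nat_lit 353660372153) (nat_lit 76) (nat_lit 27412591717) (nat_lit 76) (nat_lit 23254400692) (nat_lit 6) (nat_lit 4) (nat_lit 7) (nat_lit 5) (nat_lit 7) (nat_lit 4) (nat_lit 540) (nat_lit 384) (nat_lit 276))))) (XT.nd (nat_lit 312) (nat_lit 0) (nat_lit 0) (XT.nd (nat_lit 156) (nat_lit 0) (nat_lit 0) (XT.nd (nat_lit 78) (nat_lit 0) (nat_lit 0) (XT.lf (nat_lit 0) (nat_lit 1860281402) (nat_lit 76) (nat_lit 1076058527) (nat_lit 152) (nat_lit 420287883989) (nat_lit 4) (nat_lit 5) (nat_lit 5) (nat_lit 5) (nat_lit 6) (nat_lit 4) (nat_lit 541) (nat_lit 384) (nat_lit 275)) (XT.lf (nat_lit 0) (nat_lit 30928898986) (nat_lit 152) (nat_lit 385087464971) (nat_lit 0) (nat_lit 26966812224) (nat_lit 4) (nat_lit 5) (nat_lit 6) (nat_lit 4) (nat_lit 4) (nat_lit 4) (nat_lit 542) (nat_lit 384) (nat_lit 274))) (XT.nd (nat_lit 78) (nat_lit 0) (nat_lit 0) (XT.lf (nat_lit 0) (nat_lit 60326058532)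 (nat_lit 152) (nat_lit 347040682079) (nat_lit 0) (nat_lit 56363086829) (nat_lit 4) (nat_lit 5) (nat_lit 6) (nat_lit 4) (nat_lit 4) (nat_lit 4) (nat_lit 543) (nat_lit 384) (nat_lit 273)) (XT.lf (nat_lit 0) (nat_lit 91181011513) (nat_lit 152) (nat_lit 307116205973) (nat_lit 0) (nat_lit 87217197009) (nat_lit 4) (nat_lit 5) (nat_lit 6) (nat_lit 4) (nat_lit 4) (nat_lit 4) (nat_lit 544) (nat_lit 384) (nat_lit 272)))) (XT.nd (nat_lit 156) (nat_lit 0) (nat_lit 0) (XT.nd (nat_lit 78) (nat_lit 0) (nat_lit 0) (XT.lf (nat_lit 0) (nat_lit 123567222104) (nat_lit 152) (nat_lit 265218978377) (nat_lit 0) (nat_lit 119602604934) (nat_lit 4) (nat_lit 5) (nat_lit 6) (nat_lit 4) (nat_lit 4) (nat_lit 4) (nat_lit 545) (nat_lit 384) (nat_lit 271)) (XT.lf (nat_lit 0) (nat_lit 157561800330) (nat_lit 152) (nat_lit 221249243988) (nat_lit 0) (nat_lit 153596418715) (nat_lit 4) (nat_lit 5) (nat_lit 6) (nat_lit 4) (nat_lit 4)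 (nat_lit 4) (nat_lit 546) (nat_lit 384) (nat_lit 270))) (XT.nd (nat_lit 78) (nat_lit 0) (nat_lit 0) (XT.lf (nat_lit 0) (nat_lit 193245685664) (nat_lit 152) (nat_lit 175102312960) (nat_lit 0) (nat_lit 189279576006) (nat_lit 4) (nat_lit 5) (nat_lit 6) (nat_lit 4) (nat_lit 4) (nat_lit 4) (nat_lit 547) (nat_lit 384) (nat_lit 269)) (XT.nd (nat_lit 78) (nat_lit 0) (nat_lit 0) (XT.lf (nat_lit 0) (nat_lit 230703839736) (nat_lit 152) (nat_lit 126668311650) (nat_lit 0) (nat_lit 226737036704) (nat_lit 4) (nat_lit 5) (nat_lit 6) (nat_lit 4) (nat_lit 4) (nat_lit 4) (nat_lit 548) (nat_lit 384) (nat_lit 268)) (XT.lf (nat_lit 0) (nat_lit 270025448628) (nat_lit 152) (nat_lit 75831921006) (nat_lit 0) (nat_lit 266057985240) (nat_lit 4) (nat_lit 5) (nat_lit 6) (nat_lit 4) (nat_lit 4) (nat_lit 4) (nat_lit 549) (nat_lit 384) (nat_lit 267))))))))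
noncomputable def xc122 : XT := (XT.nd (nat_lit 53820) (nat_lit 0) (nat_lit 4636) (XT.nd (nat_lit 53196) (nat_lit 0) (nat_lit 6764) (XT.nd (nat_lit 312) (nat_lit 0) (nat_lit 0) (XT.nd (nat_lit 156) (nat_lit 0) (nat_lit 0) (XT.nd (nat_lit 78) (nat_lit 76) (nat_lit 0) (XT.lf (nat_lit 0) (nat_lit 311304135218) (nat_lit 152) (nat_lit 22472102003) (nat_lit 0) (nat_lit 307336042919) (nat_lit 4) (nat_lit 5) (nat_lit 6) (nat_lit 4) (nat_lit 4) (nat_lit 4) (nat_lit 550) (nat_lit 384) (nat_lit 266)) (XT.lf (nat_lit 0) (nat_lit 34647116654) (nat_lit 76) (nat_lit 320532004028) (nat_lit 76) (nat_lit 316563312767) (nat_lit 3) (nat_lit 4) (nat_lit 4) (nat_lit 5) (nat_lit 4) (nat_lit 4) (nat_lit 551) (nat_lit 384) (nat_lit 265))) (XT.nd (nat_lit 78) (nat_lit 0) (nat_lit 0) (XT.lf (nat_lit 0) (nat_lit 95385243987) (nat_lit 76) (nat_lit 306234752545) (nat_lit 76) (nat_lit 302265490843) (nat_lit 3) (nat_lit 4) (nat_lit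 4) (nat_lit 5) (nat_lit 4) (nat_lit 4) (nat_lit 552) (nat_lit 384) (nat_lit 264)) (XT.lf (nat_lit 0) (nat_lit 159143865405) (nat_lit 76) (nat_lit 291231017616) (nat_lit 76) (nat_lit 287261212638) (nat_lit 3) (nat_lit 4) (nat_lit 4) (nat_lit 5) (nat_lit 4) (nat_lit 4) (nat_lit 553) (nat_lit 384) (nat_lit 263)))) (XT.nd (nat_lit 156) (nat_lit 0) (nat_lit 0) (XT.nd (nat_lit 78) (nat_lit 0) (nat_lit 0) (XT.lf (nat_lit 0) (nat_lit 226074787148) (nat_lit 76) (nat_lit 275485076066) (nat_lit 76) (nat_lit 271514753681) (nat_lit 3) (nat_lit 4) (nat_lit 4) (nat_lit 5) (nat_lit 4) (nat_lit 4) (nat_lit 554) (nat_lit 384) (nat_lit 262)) (XT.lf (nat_lit 0) (nat_lit 296337368554) (nat_lit 76) (nat_lit 258959437555) (nat_lit 76) (nat_lit 254988622402) (nat_lit 3) (nat_lit 4) (nat_lit 4) (nat_lit 5) (nat_lit 4) (nat_lit 4) (nat_lit 555) (nat_lit 384) (nat_lit 261))) (XT.nd (nat_lit 52650) (nat_lit 0) (nat_lit 8284)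 (XT.lf (nat_lit 0) (nat_lit 370098901484) (nat_lit 76) (nat_lit 241614755327) (nat_lit 76) (nat_lit 237643470871) (nat_lit 3) (nat_lit 4) (nat_lit 4) (nat_lit 5) (nat_lit 4) (nat_lit 4) (nat_lit 556) (nat_lit 384) (nat_lit 260)) (XT.lf (nat_lit 0) (nat_lit 3864754383) (nat_lit 228) (nat_lit 335250517) (nat_lit 228) (nat_lit 335250517) (nat_lit 112) (nat_lit 4) (nat_lit 115) (nat_lit 5) (nat_lit 115) (nat_lit 4) (nat_lit 430) (nat_lit 385) (nat_lit 385))))) (XT.nd (nat_lit 312) (nat_lit 608) (nat_lit 0) (XT.nd (nat_lit 156) (nat_lit 456) (nat_lit 0) (XT.nd (nat_lit 78) (nat_lit 228) (nat_lit 0) (XT.lf (nat_lit 0) (nat_lit 3855967721) (nat_lit 228) (nat_lit 2400560361) (nat_lit 0) (nat_lit 2995756292) (nat_lit 109) (nat_lit 5) (nat_lit 112) (nat_lit 4) (nat_lit 109) (nat_lit 4) (nat_lit 431) (nat_lit 385) (nat_lit 384)) (XT.lf (nat_lit 0) (nat_lit 5957497290) (nat_lit 228) (nat_lit 2583417076) (nat_lit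 228) (nat_lit 903956668) (nat_lit 106) (nat_lit 4) (nat_lit 109) (nat_lit 5) (nat_lit 109) (nat_lit 4) (nat_lit 432) (nat_lit 385) (nat_lit 383))) (XT.nd (nat_lit 78) (nat_lit 228) (nat_lit 0) (XT.lf (nat_lit 0) (nat_lit 3660539474) (nat_lit 228) (nat_lit 4667130266) (nat_lit 0) (nat_lit 1317970397) (nat_lit 103) (nat_lit 5) (nat_lit 106) (nat_lit 4) (nat_lit 103) (nat_lit 4) (nat_lit 433) (nat_lit 385) (nat_lit 382)) (XT.lf (nat_lit 0) (nat_lit 3929683200) (nat_lit 228) (nat_lit 4488272141) (nat_lit 228) (nat_lit 1438004993) (nat_lit 100) (nat_lit 4) (nat_lit 103) (nat_lit 5) (nat_lit 103) (nat_lit 4) (nat_lit 434) (nat_lit 385) (nat_lit 381)))) (XT.nd (nat_lit 156) (nat_lit 228) (nat_lit 0) (XT.nd (nat_lit 78) (nat_lit 152) (nat_lit 0) (XT.lf (nat_lit 0) (nat_lit 2807641160) (nat_lit 152) (nat_lit 378654679) (nat_lit 228) (nat_lit 6890070863) (nat_lit 97) (nat_lit 5) (nat_lit 99) (nat_lit 5)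 (nat_lit 100) (nat_lit 4) (nat_lit 435) (nat_lit 385) (nat_lit 380)) (XT.lf (nat_lit 0) (nat_lit 1568272530) (nat_lit 152) (nat_lit 6447738847) (nat_lit 152) (nat_lit 2289483302) (nat_lit 95) (nat_lit 4) (nat_lit 97) (nat_lit 5) (nat_lit 97) (nat_lit 4) (nat_lit 436) (nat_lit 385) (nat_lit 379))) (XT.nd (nat_lit 78) (nat_lit 0) (nat_lit 0) (XT.lf (nat_lit 0) (nat_lit 241938840) (nat_lit 152) (nat_lit 2188509618) (nat_lit 228) (nat_lit 8115120237) (nat_lit 92) (nat_lit 5) (nat_lit 94) (nat_lit 5) (nat_lit 95) (nat_lit 4) (nat_lit 437) (nat_lit 385) (nat_lit 378)) (XT.lf (nat_lit 0) (nat_lit 7332848502) (nat_lit 228) (nat_lit 1171746075) (nat_lit 0) (nat_lit 2290009972) (nat_lit 92) (nat_lit 5) (nat_lit 95) (nat_lit 4) (nat_lit 92) (nat_lit 4) (nat_lit 438) (nat_lit 385) (nat_lit 377)))))) (XT.nd (nat_lit 624) (nat_lit 912) (nat_lit 0) (XT.nd (nat_lit 312) (nat_lit 532) (nat_lit 0) (XT.nd (nat_lit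 156) (nat_lit 304) (nat_lit 0) (XT.nd (nat_lit 78) (nat_lit 152) (nat_lit 0) (XT.lf (nat_lit 0) (nat_lit 1390750936) (nat_lit 228) (nat_lit 2694746916) (nat_lit 76) (nat_lit 6968884405) (nat_lit 89) (nat_lit 5) (nat_lit 92) (nat_lit 5) (nat_lit 90) (nat_lit 4) (nat_lit 439) (nat_lit 385) (nat_lit 376)) (XT.lf (nat_lit 0) (nat_lit 6354573898) (nat_lit 228) (nat_lit 4353806582) (nat_lit 0) (nat_lit 616684139) (nat_lit 87) (nat_lit 5) (nat_lit 90) (nat_lit 4) (nat_lit 87) (nat_lit 4) (nat_lit 440) (nat_lit 385) (nat_lit 375))) (XT.nd (nat_lit 78) (nat_lit 76) (nat_lit 0) (XT.lf (nat_lit 0) (nat_lit 5202825) (nat_lit 228) (nat_lit 6161689191) (nat_lit 76) (nat_lit 5440100190) (nat_lit 84) (nat_lit 5) (nat_lit 87) (nat_lit 5) (nat_lit 85) (nat_lit 4) (nat_lit 441) (nat_lit 385) (nat_lit 374)) (XT.lf (nat_lit 0) (nat_lit 3754683267) (nat_lit 76) (nat_lit 1289616564) (nat_lit 152) (nat_lit 6855563227)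 (nat_lit 83) (nat_lit 5) (nat_lit 84) (nat_lit 5) (nat_lit 85) (nat_lit 4) (nat_lit 442) (nat_lit 385) (nat_lit 373)))) (XT.nd (nat_lit 156) (nat_lit 304) (nat_lit 0) (XT.nd (nat_lit 78) (nat_lit 76) (nat_lit 0) (XT.lf (nat_lit 0) (nat_lit 1907879514) (nat_lit 152) (nat_lit 8472531166) (nat_lit 152) (nat_lit 1824717684) (nat_lit 81) (nat_lit 4) (nat_lit 83) (nat_lit 5) (nat_lit 83) (nat_lit 4) (nat_lit 443) (nat_lit 385) (nat_lit 372)) (XT.lf (nat_lit 0) (nat_lit 3358334234) (nat_lit 228) (nat_lit 120663917) (nat_lit 76) (nat_lit 9043396529) (nat_lit 80) (nat_lit 5) (nat_lit 83) (nat_lit 5) (nat_lit 81) (nat_lit 4) (nat_lit 444) (nat_lit 385) (nat_lit 371))) (XT.nd (nat_lit 78) (nat_lit 228) (nat_lit 0) (XT.lf (nat_lit 0) (nat_lit 8791055927) (nat_lit 152) (nat_lit 2265198587) (nat_lit 0) (nat_lit 1795185479) (nat_lit 79) (nat_lit 5) (nat_lit 81) (nat_lit 4) (nat_lit 79) (nat_lit 4) (nat_lit 445)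 (nat_lit 385) (nat_lit 370)) (XT.lf (nat_lit 0) (nat_lit 1309249737) (nat_lit 228) (nat_lit 4620674811) (nat_lit 76) (nat_lit 7263385756) (nat_lit 76) (nat_lit 5) (nat_lit 79) (nat_lit 5) (nat_lit 77) (nat_lit 4) (nat_lit 446) (nat_lit 385) (nat_lit 369))))) (XT.nd (nat_lit 312) (nat_lit 532) (nat_lit 0) (XT.nd (nat_lit 156) (nat_lit 152) (nat_lit 0) (XT.nd (nat_lit 78) (nat_lit 152) (nat_lit 0) (XT.lf (nat_lit 0) (nat_lit 6357375144) (nat_lit 76) (nat_lit 450466359) (nat_lit 152) (nat_lit 6741260733) (nat_lit 75) (nat_lit 5) (nat_lit 76) (nat_lit 5) (nat_lit 77) (nat_lit 4) (nat_lit 447) (nat_lit 385) (nat_lit 368)) (XT.lf (nat_lit 0) (nat_lit 3906452427) (nat_lit 152) (nat_lit 8757834461) (nat_lit 152) (nat_lit 1254253417) (nat_lit 73) (nat_lit 4) (nat_lit 75) (nat_lit 5) (nat_lit 75) (nat_lit 4) (nat_lit 448) (nat_lit 385) (nat_lit 367))) (XT.nd (nat_lit 78) (nat_lit 0) (nat_lit 0) (XT.lf (nat_lit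 0) (nat_lit 1206830453) (nat_lit 76) (nat_lit 3166064334) (nat_lit 152) (nat_lit 9929537250) (nat_lit 71) (nat_lit 5) (nat_lit 72) (nat_lit 5) (nat_lit 73) (nat_lit 4) (nat_lit 449) (nat_lit 385) (nat_lit 366)) (XT.lf (nat_lit 0) (nat_lit 10314646666) (nat_lit 152) (nat_lit 1690029788) (nat_lit 0) (nat_lit 2696046326) (nat_lit 71) (nat_lit 5) (nat_lit 73) (nat_lit 4) (nat_lit 71) (nat_lit 4) (nat_lit 450) (nat_lit 385) (nat_lit 365)))) (XT.nd (nat_lit 156) (nat_lit 228) (nat_lit 0) (XT.nd (nat_lit 78) (nat_lit 76) (nat_lit 0) (XT.lf (nat_lit 0) (nat_lit 1470353423) (nat_lit 228) (nat_lit 4823810284) (nat_lit 76) (nat_lit 8819561119) (nat_lit 68) (nat_lit 5) (nat_lit 71) (nat_lit 5) (nat_lit 69) (nat_lit 4) (nat_lit 451) (nat_lit 385) (nat_lit 364)) (XT.lf (nat_lit 0) (nat_lit 7293040995) (nat_lit 76) (nat_lit 189915589) (nat_lit 152) (nat_lit 8060289638) (nat_lit 67) (nat_lit 5) (nat_lit 68) (nat_lit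 5) (nat_lit 69) (nat_lit 4) (nat_lit 452) (nat_lit 385) (nat_lit 363))) (XT.nd (nat_lit 78) (nat_lit 152) (nat_lit 0) (XT.lf (nat_lit 0) (nat_lit 3971466716) (nat_lit 76) (nat_lit 9935316778) (nat_lit 76) (nat_lit 2081932464) (nat_lit 66) (nat_lit 4) (nat_lit 67) (nat_lit 5) (nat_lit 67) (nat_lit 4) (nat_lit 453) (nat_lit 385) (nat_lit 362)) (XT.nd (nat_lit 78) (nat_lit 0) (nat_lit 0) (XT.lf (nat_lit 0) (nat_lit 330290009) (nat_lit 76) (nat_lit 3749809306) (nat_lit 152) (nat_lit 12372134885) (nat_lit 64) (nat_lit 5) (nat_lit 65) (nat_lit 5) (nat_lit 66) (nat_lit 4) (nat_lit 454) (nat_lit 385) (nat_lit 361)) (XT.lf (nat_lit 0) (nat_lit 10599293231) (nat_lit 152) (nat_lit 3547777366) (nat_lit 0) (nat_lit 2784201582) (nat_lit 64) (nat_lit 5) (nat_lit 66) (nat_lit 4) (nat_lit 64) (nat_lit 4) (nat_lit 455) (nat_lit 385) (nat_lit 360))))))))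
noncomputable def xc123 : XT := (XT.nd (nat_lit 1248) (nat_lit 1140) (nat_lit 0) (XT.nd (nat_lit 624) (nat_lit 684) (nat_lit 0) (XT.nd (nat_lit 312) (nat_lit 304) (nat_lit 0) (XT.nd (nat_lit 156) (nat_lit 152) (nat_lit 0) (XT.nd (nat_lit 78) (nat_lit 76) (nat_lit 0) (XT.lf (nat_lit 0) (nat_lit 99187956) (nat_lit 152) (nat_lit 7767704314) (nat_lit 76) (nat_lit 9562896907) (nat_lit 62) (nat_lit 5) (nat_lit 64) (nat_lit 5) (nat_lit 63) (nat_lit 4) (nat_lit 456) (nat_lit 385) (nat_lit 359)) (XT.lf (nat_lit 0) (nat_lit 5538447445) (nat_lit 76) (nat_lit 1123995945) (nat_lit 152) (nat_lit 11284433631) (nat_lit 61) (nat_lit 5) (nat_lit 62) (nat_lit 5) (nat_lit 63) (nat_lit 4) (nat_lit 457) (nat_lit 385) (nat_lit 358))) (XT.nd (nat_lit 78) (nat_lit 76) (nat_lit 0) (XT.lf (nat_lit 0) (nat_lit 993102395) (nat_lit 76) (nat_lit 12679212513) (nat_lit 76) (nat_lit 4811583069) (nat_lit 60) (nat_lit 4) (nat_lit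 61) (nat_lit 5) (nat_lit 61) (nat_lit 4) (nat_lit 458) (nat_lit 385) (nat_lit 357)) (XT.lf (nat_lit 0) (nat_lit 2029859933) (nat_lit 152) (nat_lit 3834715366) (nat_lit 76) (nat_lit 13176222467) (nat_lit 59) (nat_lit 5) (nat_lit 61) (nat_lit 5) (nat_lit 60) (nat_lit 4) (nat_lit 459) (nat_lit 385) (nat_lit 356)))) (XT.nd (nat_lit 156) (nat_lit 152) (nat_lit 0) (XT.nd (nat_lit 78) (nat_lit 76) (nat_lit 0) (XT.lf (nat_lit 0) (nat_lit 9120893143) (nat_lit 152) (nat_lit 9107893116) (nat_lit 0) (nat_lit 1389352620) (nat_lit 58) (nat_lit 5) (nat_lit 60) (nat_lit 4) (nat_lit 58) (nat_lit 4) (nat_lit 460) (nat_lit 385) (nat_lit 355)) (XT.lf (nat_lit 0) (nat_lit 5328792290) (nat_lit 76) (nat_lit 11365760986) (nat_lit 76) (nat_lit 3523391149) (nat_lit 57) (nat_lit 4) (nat_lit 58) (nat_lit 5) (nat_lit 58) (nat_lit 4) (nat_lit 461) (nat_lit 385) (nat_lit 354))) (XT.nd (nat_lit 78) (nat_lit 76) (nat_lit 0) (XT.lf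 (nat_lit 0) (nat_lit 3717240854) (nat_lit 152) (nat_lit 327577814) (nat_lit 76) (nat_lit 16797972769) (nat_lit 56) (nat_lit 5) (nat_lit 58) (nat_lit 5) (nat_lit 57) (nat_lit 4) (nat_lit 462) (nat_lit 385) (nat_lit 353)) (XT.lf (nat_lit 0) (nat_lit 11386875813) (nat_lit 152) (nat_lit 6378160750) (nat_lit 0) (nat_lit 3721688174) (nat_lit 55) (nat_lit 5) (nat_lit 57) (nat_lit 4) (nat_lit 55) (nat_lit 4) (nat_lit 463) (nat_lit 385) (nat_lit 352))))) (XT.nd (nat_lit 312) (nat_lit 380) (nat_lit 0) (XT.nd (nat_lit 156) (nat_lit 76) (nat_lit 0) (XT.nd (nat_lit 78) (nat_lit 152) (nat_lit 0) (XT.lf (nat_lit 0) (nat_lit 9173908367) (nat_lit 76) (nat_lit 10370057888) (nat_lit 76) (nat_lit 2613690699) (nat_lit 54) (nat_lit 4) (nat_lit 55) (nat_lit 5) (nat_lit 55) (nat_lit 4) (nat_lit 464) (nat_lit 385) (nat_lit 351)) (XT.lf (nat_lit 0) (nat_lit 2650661800) (nat_lit 76) (nat_lit 2468297544) (nat_lit 152) (nat_lit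 17737075769) (nat_lit 52) (nat_lit 5) (nat_lit 53) (nat_lit 5) (nat_lit 54) (nat_lit 4) (nat_lit 465) (nat_lit 385) (nat_lit 350))) (XT.nd (nat_lit 78) (nat_lit 76) (nat_lit 0) (XT.lf (nat_lit 0) (nat_lit 13354108046) (nat_lit 152) (nat_lit 4417272602) (nat_lit 0) (nat_lit 5805624809) (nat_lit 52) (nat_lit 5) (nat_lit 54) (nat_lit 4) (nat_lit 52) (nat_lit 4) (nat_lit 466) (nat_lit 385) (nat_lit 349)) (XT.lf (nat_lit 0) (nat_lit 12304994715) (nat_lit 76) (nat_lit 9823086940) (nat_lit 76) (nat_lit 2199590060) (nat_lit 51) (nat_lit 4) (nat_lit 52) (nat_lit 5) (nat_lit 52) (nat_lit 4) (nat_lit 467) (nat_lit 385) (nat_lit 348)))) (XT.nd (nat_lit 156) (nat_lit 228) (nat_lit 0) (XT.nd (nat_lit 78) (nat_lit 0) (nat_lit 0) (XT.lf (nat_lit 0) (nat_lit 4749468731) (nat_lit 76) (nat_lit 1320973792) (nat_lit 152) (nat_lit 19038330320) (nat_lit 49) (nat_lit 5) (nat_lit 50) (nat_lit 5) (nat_lit 51) (nat_lit 4)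 (nat_lit 468) (nat_lit 385) (nat_lit 347)) (XT.lf (nat_lit 0) (nat_lit 14900589271) (nat_lit 152) (nat_lit 3508233957) (nat_lit 0) (nat_lit 7507276863) (nat_lit 49) (nat_lit 5) (nat_lit 51) (nat_lit 4) (nat_lit 49) (nat_lit 4) (nat_lit 469) (nat_lit 385) (nat_lit 346))) (XT.nd (nat_lit 78) (nat_lit 152) (nat_lit 0) (XT.lf (nat_lit 0) (nat_lit 14426465828) (nat_lit 76) (nat_lit 9892509124) (nat_lit 76) (nat_lit 2437482806) (nat_lit 48) (nat_lit 4) (nat_lit 49) (nat_lit 5) (nat_lit 49) (nat_lit 4) (nat_lit 470) (nat_lit 385) (nat_lit 345)) (XT.lf (nat_lit 0) (nat_lit 5621099856) (nat_lit 76) (nat_lit 786169083) (nat_lit 152) (nat_lit 21224032288) (nat_lit 46) (nat_lit 5) (nat_lit 47) (nat_lit 5) (nat_lit 48) (nat_lit 4) (nat_lit 471) (nat_lit 385) (nat_lit 344)))))) (XT.nd (nat_lit 624) (nat_lit 608) (nat_lit 0) (XT.nd (nat_lit 312) (nat_lit 304) (nat_lit 0) (XT.nd (nat_lit 156) (nat_lit 152) (nat_lit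 0) (XT.nd (nat_lit 78) (nat_lit 76) (nat_lit 0) (XT.lf (nat_lit 0) (nat_lit 15861710924) (nat_lit 152) (nat_lit 4021311424) (nat_lit 0) (nat_lit 8652398729) (nat_lit 46) (nat_lit 5) (nat_lit 48) (nat_lit 4) (nat_lit 46) (nat_lit 4) (nat_lit 472) (nat_lit 385) (nat_lit 343)) (XT.lf (nat_lit 0) (nat_lit 15149205026) (nat_lit 76) (nat_lit 10793956242) (nat_lit 76) (nat_lit 3533871861) (nat_lit 45) (nat_lit 4) (nat_lit 46) (nat_lit 5) (nat_lit 46) (nat_lit 4) (nat_lit 473) (nat_lit 385) (nat_lit 342))) (XT.nd (nat_lit 78) (nat_lit 0) (nat_lit 0) (XT.lf (nat_lit 0) (nat_lit 4824287756) (nat_lit 76) (nat_lit 1094115463) (nat_lit 152) (nat_lit 24540115180) (nat_lit 43) (nat_lit 5) (nat_lit 44) (nat_lit 5) (nat_lit 45) (nat_lit 4) (nat_lit 474) (nat_lit 385) (nat_lit 341)) (XT.lf (nat_lit 0) (nat_lit 16018197449) (nat_lit 152) (nat_lit 6439380405) (nat_lit 0) (nat_lit 9013920579) (nat_lit 43) (nat_lit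 5) (nat_lit 45) (nat_lit 4) (nat_lit 43) (nat_lit 4) (nat_lit 475) (nat_lit 385) (nat_lit 340)))) (XT.nd (nat_lit 156) (nat_lit 76) (nat_lit 0) (XT.nd (nat_lit 78) (nat_lit 152) (nat_lit 0) (XT.lf (nat_lit 0) (nat_lit 13963202460) (nat_lit 76) (nat_lit 12805347149) (nat_lit 76) (nat_lit 5759299877) (nat_lit 42) (nat_lit 4) (nat_lit 43) (nat_lit 5) (nat_lit 43) (nat_lit 4) (nat_lit 476) (nat_lit 385) (nat_lit 339)) (XT.lf (nat_lit 0) (nat_lit 1783144070) (nat_lit 76) (nat_lit 2543184065) (nat_lit 152) (nat_lit 29304821621) (nat_lit 40) (nat_lit 5) (nat_lit 41) (nat_lit 5) (nat_lit 42) (nat_lit 4) (nat_lit 477) (nat_lit 385) (nat_lit 338))) (XT.nd (nat_lit 78) (nat_lit 76) (nat_lit 0) (XT.lf (nat_lit 0) (nat_lit 15080586575) (nat_lit 152) (nat_lit 11390317604) (nat_lit 0) (nat_lit 8296095532) (nat_lit 40) (nat_lit 5) (nat_lit 42) (nat_lit 4) (nat_lit 40) (nat_lit 4) (nat_lit 478) (nat_lit 385) (nat_lit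 337)) (XT.lf (nat_lit 0) (nat_lit 10202561253) (nat_lit 76) (nat_lit 16285091099) (nat_lit 76) (nat_lit 9466235442) (nat_lit 39) (nat_lit 4) (nat_lit 40) (nat_lit 5) (nat_lit 40) (nat_lit 4) (nat_lit 479) (nat_lit 385) (nat_lit 336))))) (XT.nd (nat_lit 312) (nat_lit 380) (nat_lit 0) (XT.nd (nat_lit 156) (nat_lit 76) (nat_lit 0) (XT.nd (nat_lit 78) (nat_lit 76) (nat_lit 0) (XT.lf (nat_lit 0) (nat_lit 1334694607) (nat_lit 152) (nat_lit 4115459914) (nat_lit 76) (nat_lit 31743467118) (nat_lit 38) (nat_lit 5) (nat_lit 40) (nat_lit 5) (nat_lit 39) (nat_lit 4) (nat_lit 480) (nat_lit 385) (nat_lit 335)) (XT.lf (nat_lit 0) (nat_lit 12669296620) (nat_lit 152) (nat_lit 19688405792) (nat_lit 0) (nat_lit 6114293211) (nat_lit 37) (nat_lit 5) (nat_lit 39) (nat_lit 4) (nat_lit 37) (nat_lit 4) (nat_lit 481) (nat_lit 385) (nat_lit 334))) (XT.nd (nat_lit 78) (nat_lit 0) (nat_lit 0) (XT.lf (nat_lit 0) (nat_lit 3000739565)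 (nat_lit 76) (nat_lit 21695277439) (nat_lit 76) (nat_lit 15112002177) (nat_lit 36) (nat_lit 4) (nat_lit 37) (nat_lit 5) (nat_lit 37) (nat_lit 4) (nat_lit 482) (nat_lit 385) (nat_lit 333)) (XT.lf (nat_lit 0) (nat_lit 27346050543) (nat_lit 76) (nat_lit 10231168600) (nat_lit 76) (nat_lit 3620967765) (nat_lit 36) (nat_lit 4) (nat_lit 37) (nat_lit 5) (nat_lit 37) (nat_lit 4) (nat_lit 483) (nat_lit 385) (nat_lit 332)))) (XT.nd (nat_lit 156) (nat_lit 228) (nat_lit 0) (XT.nd (nat_lit 78) (nat_lit 0) (nat_lit 0) (XT.lf (nat_lit 0) (nat_lit 8289062887) (nat_lit 152) (nat_lit 32387260694) (nat_lit 0) (nat_lit 1969211230) (nat_lit 34) (nat_lit 5) (nat_lit 36) (nat_lit 4) (nat_lit 34) (nat_lit 4) (nat_lit 484) (nat_lit 385) (nat_lit 331)) (XT.lf (nat_lit 0) (nat_lit 21001431905) (nat_lit 152) (nat_lit 8486103257) (nat_lit 0) (nat_lit 14658320925) (nat_lit 34) (nat_lit 5) (nat_lit 36) (nat_lit 4) (nat_lit 34)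 (nat_lit 4) (nat_lit 485) (nat_lit 385) (nat_lit 330))) (XT.nd (nat_lit 78) (nat_lit 152) (nat_lit 0) (XT.lf (nat_lit 0) (nat_lit 17005073145) (nat_lit 76) (nat_lit 17535902702) (nat_lit 76) (nat_lit 11170639985) (nat_lit 33) (nat_lit 4) (nat_lit 34) (nat_lit 5) (nat_lit 34) (nat_lit 4) (nat_lit 486) (nat_lit 385) (nat_lit 329)) (XT.nd (nat_lit 78) (nat_lit 76) (nat_lit 0) (XT.lf (nat_lit 0) (nat_lit 1429133127) (nat_lit 152) (nat_lit 3456636696) (nat_lit 76) (nat_lit 42465191264) (nat_lit 32) (nat_lit 5) (nat_lit 34) (nat_lit 5) (nat_lit 33) (nat_lit 4) (nat_lit 487) (nat_lit 385) (nat_lit 328)) (XT.lf (nat_lit 0) (nat_lit 14718710942) (nat_lit 152) (nat_lit 25705317265) (nat_lit 0) (nat_lit 8617328193) (nat_lit 31) (nat_lit 5) (nat_lit 33) (nat_lit 4) (nat_lit 31) (nat_lit 4) (nat_lit 488) (nat_lit 385) (nat_lit 327))))))))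
noncomputable def xc124 : XT := (XT.nd (nat_lit 1248) (nat_lit 532) (nat_lit 0) (XT.nd (nat_lit 624) (nat_lit 456) (nat_lit 0) (XT.nd (nat_lit 312) (nat_lit 228) (nat_lit 0) (XT.nd (nat_lit 156) (nat_lit 152) (nat_lit 0) (XT.nd (nat_lit 78) (nat_lit 0) (nat_lit 0) (XT.lf (nat_lit 0) (nat_lit 569902586) (nat_lit 76) (nat_lit 28181033839) (nat_lit 76) (nat_lit 22061426801) (nat_lit 30) (nat_lit 4) (nat_lit 31) (nat_lit 5) (nat_lit 31) (nat_lit 4) (nat_lit 489) (nat_lit 385) (nat_lit 326)) (XT.lf (nat_lit 0) (nat_lit 28911314583) (nat_lit 76) (nat_lit 14939630449) (nat_lit 76) (nat_lit 8802666946) (nat_lit 30) (nat_lit 4) (nat_lit 31) (nat_lit 5) (nat_lit 31) (nat_lit 4) (nat_lit 490) (nat_lit 385) (nat_lit 325))) (XT.nd (nat_lit 78) (nat_lit 0) (nat_lit 0) (XT.lf (nat_lit 0) (nat_lit 3995278964) (nat_lit 76) (nat_lit 955341735) (nat_lit 152) (nat_lit 49632534974) (nat_lit 28) (nat_lit 5) (nat_lit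 29) (nat_lit 5) (nat_lit 30) (nat_lit 4) (nat_lit 491) (nat_lit 385) (nat_lit 324)) (XT.lf (nat_lit 0) (nat_lit 19651864262) (nat_lit 152) (nat_lit 23145890076) (nat_lit 0) (nat_lit 13776401123) (nat_lit 28) (nat_lit 5) (nat_lit 30) (nat_lit 4) (nat_lit 28) (nat_lit 4) (nat_lit 492) (nat_lit 385) (nat_lit 323)))) (XT.nd (nat_lit 156) (nat_lit 152) (nat_lit 0) (XT.nd (nat_lit 78) (nat_lit 0) (nat_lit 0) (XT.lf (nat_lit 0) (nat_lit 5706021632) (nat_lit 76) (nat_lit 29423187082) (nat_lit 76) (nat_lit 23533444737) (nat_lit 27) (nat_lit 4) (nat_lit 28) (nat_lit 5) (nat_lit 28) (nat_lit 4) (nat_lit 493) (nat_lit 385) (nat_lit 322)) (XT.lf (nat_lit 0) (nat_lit 36677043646) (nat_lit 76) (nat_lit 15032704029) (nat_lit 76) (nat_lit 9129362439) (nat_lit 27) (nat_lit 4) (nat_lit 28) (nat_lit 5) (nat_lit 28) (nat_lit 4) (nat_lit 494) (nat_lit 385) (nat_lit 321))) (XT.nd (nat_lit 78) (nat_lit 0) (nat_lit 0)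 (XT.lf (nat_lit 0) (nat_lit 5840156179) (nat_lit 152) (nat_lit 57072107144) (nat_lit 0) (nat_lit 205591177) (nat_lit 25) (nat_lit 5) (nat_lit 27) (nat_lit 4) (nat_lit 25) (nat_lit 4) (nat_lit 495) (nat_lit 385) (nat_lit 320)) (XT.lf (nat_lit 0) (nat_lit 21853072754) (nat_lit 152) (nat_lit 27413133752) (nat_lit 0) (nat_lit 16206760213) (nat_lit 25) (nat_lit 5) (nat_lit 27) (nat_lit 4) (nat_lit 25) (nat_lit 4) (nat_lit 496) (nat_lit 385) (nat_lit 319))))) (XT.nd (nat_lit 312) (nat_lit 228) (nat_lit 0) (XT.nd (nat_lit 156) (nat_lit 152) (nat_lit 0) (XT.nd (nat_lit 78) (nat_lit 0) (nat_lit 0) (XT.lf (nat_lit 0) (nat_lit 3731009496) (nat_lit 76) (nat_lit 34936149816) (nat_lit 76) (nat_lit 29278649143) (nat_lit 24) (nat_lit 4) (nat_lit 25) (nat_lit 5) (nat_lit 25) (nat_lit 4) (nat_lit 497) (nat_lit 385) (nat_lit 318)) (XT.lf (nat_lit 0) (nat_lit 37268777826) (nat_lit 76) (nat_lit 19460648399) (nat_lit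 76) (nat_lit 13792492362) (nat_lit 24) (nat_lit 4) (nat_lit 25) (nat_lit 5) (nat_lit 25) (nat_lit 4) (nat_lit 498) (nat_lit 385) (nat_lit 317))) (XT.nd (nat_lit 78) (nat_lit 76) (nat_lit 0) (XT.lf (nat_lit 0) (nat_lit 2334020245) (nat_lit 152) (nat_lit 893562500) (nat_lit 76) (nat_lit 70000073056) (nat_lit 23) (nat_lit 5) (nat_lit 25) (nat_lit 5) (nat_lit 24) (nat_lit 4) (nat_lit 499) (nat_lit 385) (nat_lit 316)) (XT.lf (nat_lit 0) (nat_lit 19506495302) (nat_lit 152) (nat_lit 42426339371) (nat_lit 0) (nat_lit 14089382224) (nat_lit 22) (nat_lit 5) (nat_lit 24) (nat_lit 4) (nat_lit 22) (nat_lit 4) (nat_lit 500) (nat_lit 385) (nat_lit 315)))) (XT.nd (nat_lit 156) (nat_lit 152) (nat_lit 0) (XT.nd (nat_lit 78) (nat_lit 76) (nat_lit 0) (XT.lf (nat_lit 0) (nat_lit 37553572221) (nat_lit 152) (nat_lit 9274442064) (nat_lit 0) (nat_lit 32127692949) (nat_lit 22) (nat_lit 5) (nat_lit 24) (nat_lit 4) (nat_lit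 22) (nat_lit 4) (nat_lit 501) (nat_lit 385) (nat_lit 314)) (XT.lf (nat_lit 0) (nat_lit 26274724018) (nat_lit 76) (nat_lit 30588678113) (nat_lit 76) (nat_lit 25154450084) (nat_lit 21) (nat_lit 4) (nat_lit 22) (nat_lit 5) (nat_lit 22) (nat_lit 4) (nat_lit 502) (nat_lit 385) (nat_lit 313))) (XT.nd (nat_lit 78) (nat_lit 152) (nat_lit 0) (XT.lf (nat_lit 0) (nat_lit 63823688315) (nat_lit 76) (nat_lit 13423096195) (nat_lit 76) (nat_lit 7980916970) (nat_lit 21) (nat_lit 4) (nat_lit 22) (nat_lit 5) (nat_lit 22) (nat_lit 4) (nat_lit 503) (nat_lit 385) (nat_lit 312)) (XT.lf (nat_lit 0) (nat_lit 9991832349) (nat_lit 152) (nat_lit 73783659760) (nat_lit 0) (nat_lit 4801592545) (nat_lit 19) (nat_lit 5) (nat_lit 21) (nat_lit 4) (nat_lit 19) (nat_lit 4) (nat_lit 504) (nat_lit 385) (nat_lit 311)))))) (XT.nd (nat_lit 624) (nat_lit 228) (nat_lit 0) (XT.nd (nat_lit 312) (nat_lit 228) (nat_lit 0) (XT.nd (nat_lit 156)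 (nat_lit 76) (nat_lit 0) (XT.nd (nat_lit 78) (nat_lit 0) (nat_lit 0) (XT.lf (nat_lit 0) (nat_lit 29136074380) (nat_lit 152) (nat_lit 38985301590) (nat_lit 0) (nat_lit 23938966033) (nat_lit 19) (nat_lit 5) (nat_lit 21) (nat_lit 4) (nat_lit 19) (nat_lit 4) (nat_lit 505) (nat_lit 385) (nat_lit 310)) (XT.lf (nat_lit 0) (nat_lit 49192372224) (nat_lit 152) (nat_lit 2538925470) (nat_lit 0) (nat_lit 43988722408) (nat_lit 19) (nat_lit 5) (nat_lit 21) (nat_lit 4) (nat_lit 19) (nat_lit 4) (nat_lit 506) (nat_lit 385) (nat_lit 309))) (XT.nd (nat_lit 78) (nat_lit 0) (nat_lit 0) (XT.lf (nat_lit 0) (nat_lit 36820739294) (nat_lit 76) (nat_lit 33962614607) (nat_lit 76) (nat_lit 28752734821) (nat_lit 18) (nat_lit 4) (nat_lit 19) (nat_lit 5) (nat_lit 19) (nat_lit 4) (nat_lit 507) (nat_lit 385) (nat_lit 308)) (XT.lf (nat_lit 0) (nat_lit 78150420960) (nat_lit 76) (nat_lit 15304159098) (nat_lit 76) (nat_lit 10088346006)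 (nat_lit 18) (nat_lit 4) (nat_lit 19) (nat_lit 5) (nat_lit 19) (nat_lit 4) (nat_lit 508) (nat_lit 385) (nat_lit 307)))) (XT.nd (nat_lit 156) (nat_lit 76) (nat_lit 0) (XT.nd (nat_lit 78) (nat_lit 0) (nat_lit 0) (XT.lf (nat_lit 0) (nat_lit 9455036262) (nat_lit 152) (nat_lit 93792925726) (nat_lit 0) (nat_lit 4482213540) (nat_lit 16) (nat_lit 5) (nat_lit 18) (nat_lit 4) (nat_lit 16) (nat_lit 4) (nat_lit 509) (nat_lit 385) (nat_lit 306)) (XT.lf (nat_lit 0) (nat_lit 30283594033) (nat_lit 152) (nat_lit 56496926402) (nat_lit 0) (nat_lit 25305645898) (nat_lit 16) (nat_lit 5) (nat_lit 18) (nat_lit 4) (nat_lit 16) (nat_lit 4) (nat_lit 510) (nat_lit 385) (nat_lit 305))) (XT.nd (nat_lit 78) (nat_lit 76) (nat_lit 0) (XT.lf (nat_lit 0) (nat_lit 52114597796) (nat_lit 152) (nat_lit 17415539712) (nat_lit 0) (nat_lit 47131768316) (nat_lit 16) (nat_lit 5) (nat_lit 18) (nat_lit 4) (nat_lit 16) (nat_lit 4) (nat_lit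 511) (nat_lit 385) (nat_lit 304)) (XT.lf (nat_lit 0) (nat_lit 24322765664) (nat_lit 76) (nat_lit 51057007003) (nat_lit 76) (nat_lit 46069528623) (nat_lit 15) (nat_lit 4) (nat_lit 16) (nat_lit 5) (nat_lit 16) (nat_lit 4) (nat_lit 512) (nat_lit 385) (nat_lit 303))))) (XT.nd (nat_lit 312) (nat_lit 76) (nat_lit 0) (XT.nd (nat_lit 156) (nat_lit 152) (nat_lit 0) (XT.nd (nat_lit 78) (nat_lit 0) (nat_lit 0) (XT.lf (nat_lit 0) (nat_lit 68678203330) (nat_lit 76) (nat_lit 31388424047) (nat_lit 76) (nat_lit 26396518143) (nat_lit 15) (nat_lit 4) (nat_lit 16) (nat_lit 5) (nat_lit 16) (nat_lit 4) (nat_lit 513) (nat_lit 385) (nat_lit 302)) (XT.lf (nat_lit 0) (nat_lit 115180545078) (nat_lit 76) (nat_lit 10772499272) (nat_lit 76) (nat_lit 5776376679) (nat_lit 15) (nat_lit 4) (nat_lit 16) (nat_lit 5) (nat_lit 16) (nat_lit 4) (nat_lit 514) (nat_lit 385) (nat_lit 301))) (XT.nd (nat_lit 78) (nat_lit 0) (nat_lit 0) (XT.lf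 (nat_lit 0) (nat_lit 15939627674) (nat_lit 152) (nat_lit 110100751794) (nat_lit 0) (nat_lit 11177591019) (nat_lit 13) (nat_lit 5) (nat_lit 15) (nat_lit 4) (nat_lit 13) (nat_lit 4) (nat_lit 515) (nat_lit 385) (nat_lit 300)) (XT.lf (nat_lit 0) (nat_lit 38975109388) (nat_lit 152) (nat_lit 69770283070) (nat_lit 0) (nat_lit 34209430198) (nat_lit 13) (nat_lit 5) (nat_lit 15) (nat_lit 4) (nat_lit 13) (nat_lit 4) (nat_lit 516) (nat_lit 385) (nat_lit 299)))) (XT.nd (nat_lit 156) (nat_lit 0) (nat_lit 0) (XT.nd (nat_lit 78) (nat_lit 76) (nat_lit 0) (XT.lf (nat_lit 0) (nat_lit 63130313022) (nat_lit 152) (nat_lit 27488642303) (nat_lit 0) (nat_lit 58361164752) (nat_lit 13) (nat_lit 5) (nat_lit 15) (nat_lit 4) (nat_lit 13) (nat_lit 4) (nat_lit 517) (nat_lit 385) (nat_lit 298)) (XT.lf (nat_lit 0) (nat_lit 17401807600) (nat_lit 76) (nat_lit 71332634352) (nat_lit 76) (nat_lit 66560182195) (nat_lit 12) (nat_lit 4)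 (nat_lit 13) (nat_lit 5) (nat_lit 13) (nat_lit 4) (nat_lit 518) (nat_lit 385) (nat_lit 297))) (XT.nd (nat_lit 78) (nat_lit 0) (nat_lit 0) (XT.lf (nat_lit 0) (nat_lit 65429888028) (nat_lit 76) (nat_lit 50624394442) (nat_lit 76) (nat_lit 45848795727) (nat_lit 12) (nat_lit 4) (nat_lit 13) (nat_lit 5) (nat_lit 13) (nat_lit 4) (nat_lit 519) (nat_lit 385) (nat_lit 296)) (XT.nd (nat_lit 78) (nat_lit 0) (nat_lit 0) (XT.lf (nat_lit 0) (nat_lit 115801052896) (nat_lit 76) (nat_lit 28910463721) (nat_lit 76) (nat_lit 24131868283) (nat_lit 12) (nat_lit 4) (nat_lit 13) (nat_lit 5) (nat_lit 13) (nat_lit 4) (nat_lit 520) (nat_lit 385) (nat_lit 295)) (XT.lf (nat_lit 0) (nat_lit 168635233549) (nat_lit 76) (nat_lit 6139142352) (nat_lit 76) (nat_lit 1357692893) (nat_lit 12) (nat_lit 4) (nat_lit 13) (nat_lit 5) (nat_lit 13) (nat_lit 4) (nat_lit 521) (nat_lit 385) (nat_lit 294))))))))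
noncomputable def xc125 : XT := (XT.nd (nat_lit 1248) (nat_lit 228) (nat_lit 0) (XT.nd (nat_lit 624) (nat_lit 228) (nat_lit 0) (XT.nd (nat_lit 312) (nat_lit 76) (nat_lit 0) (XT.nd (nat_lit 156) (nat_lit 0) (nat_lit 0) (XT.nd (nat_lit 78) (nat_lit 0) (nat_lit 0) (XT.lf (nat_lit 0) (nat_lit 22744142160) (nat_lit 152) (nat_lit 142790102280) (nat_lit 0) (nat_lit 18187792089) (nat_lit 10) (nat_lit 5) (nat_lit 12) (nat_lit 4) (nat_lit 10) (nat_lit 4) (nat_lit 522) (nat_lit 385) (nat_lit 293)) (XT.lf (nat_lit 0) (nat_lit 48208770784) (nat_lit 152) (nat_lit 99821497269) (nat_lit 0) (nat_lit 43649955302) (nat_lit 10) (nat_lit 5) (nat_lit 12) (nat_lit 4) (nat_lit 10) (nat_lit 4) (nat_lit 523) (nat_lit 385) (nat_lit 292))) (XT.nd (nat_lit 78) (nat_lit 0) (nat_lit 0) (XT.lf (nat_lit 0) (nat_lit 74921529540) (nat_lit 152) (nat_lit 54755679022) (nat_lit 0) (nat_lit 70360366047) (nat_lit 10) (nat_lit 5) (nat_lit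 12) (nat_lit 4) (nat_lit 10) (nat_lit 4) (nat_lit 524) (nat_lit 385) (nat_lit 291)) (XT.lf (nat_lit 0) (nat_lit 102946020236) (nat_lit 152) (nat_lit 7485347971) (nat_lit 0) (nat_lit 98382620543) (nat_lit 10) (nat_lit 5) (nat_lit 12) (nat_lit 4) (nat_lit 10) (nat_lit 4) (nat_lit 525) (nat_lit 385) (nat_lit 290)))) (XT.nd (nat_lit 156) (nat_lit 0) (nat_lit 0) (XT.nd (nat_lit 78) (nat_lit 0) (nat_lit 0) (XT.lf (nat_lit 0) (nat_lit 43494128012) (nat_lit 76) (nat_lit 89533905068) (nat_lit 76) (nat_lit 84968375660) (nat_lit 9) (nat_lit 4) (nat_lit 10) (nat_lit 5) (nat_lit 10) (nat_lit 4) (nat_lit 526) (nat_lit 385) (nat_lit 289)) (XT.lf (nat_lit 0) (nat_lit 97236746112) (nat_lit 76) (nat_lit 67481771398) (nat_lit 76) (nat_lit 62914213691) (nat_lit 9) (nat_lit 4) (nat_lit 10) (nat_lit 5) (nat_lit 10) (nat_lit 4) (nat_lit 527) (nat_lit 385) (nat_lit 288))) (XT.nd (nat_lit 78) (nat_lit 0) (nat_lit 0) (XT.lf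 (nat_lit 0) (nat_lit 153622965534) (nat_lit 76) (nat_lit 44349230110) (nat_lit 76) (nat_lit 39779740688) (nat_lit 9) (nat_lit 4) (nat_lit 10) (nat_lit 5) (nat_lit 10) (nat_lit 4) (nat_lit 528) (nat_lit 385) (nat_lit 287)) (XT.lf (nat_lit 0) (nat_lit 212787039182) (nat_lit 76) (nat_lit 20081203722) (nat_lit 76) (nat_lit 15509874573) (nat_lit 9) (nat_lit 4) (nat_lit 10) (nat_lit 5) (nat_lit 10) (nat_lit 4) (nat_lit 529) (nat_lit 385) (nat_lit 286))))) (XT.nd (nat_lit 312) (nat_lit 76) (nat_lit 0) (XT.nd (nat_lit 156) (nat_lit 0) (nat_lit 0) (XT.nd (nat_lit 78) (nat_lit 0) (nat_lit 0) (XT.lf (nat_lit 0) (nat_lit 9969969611) (nat_lit 152) (nat_lit 243927413340) (nat_lit 0) (nat_lit 5614654115) (nat_lit 7) (nat_lit 5) (nat_lit 9) (nat_lit 4) (nat_lit 7) (nat_lit 4) (nat_lit 530) (nat_lit 385) (nat_lit 285)) (XT.lf (nat_lit 0) (nat_lit 37124746768) (nat_lit 152) (nat_lit 201251242112) (nat_lit 0) (nat_lit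 32767842046) (nat_lit 7) (nat_lit 5) (nat_lit 9) (nat_lit 4) (nat_lit 7) (nat_lit 4) (nat_lit 531) (nat_lit 385) (nat_lit 284))) (XT.nd (nat_lit 78) (nat_lit 0) (nat_lit 0) (XT.lf (nat_lit 0) (nat_lit 65618539809) (nat_lit 152) (nat_lit 156479489296) (nat_lit 0) (nat_lit 61260121539) (nat_lit 7) (nat_lit 5) (nat_lit 9) (nat_lit 4) (nat_lit 7) (nat_lit 4) (nat_lit 532) (nat_lit 385) (nat_lit 283)) (XT.lf (nat_lit 0) (nat_lit 95519191097) (nat_lit 152) (nat_lit 109505555483) (nat_lit 0) (nat_lit 91159331352) (nat_lit 7) (nat_lit 5) (nat_lit 9) (nat_lit 4) (nat_lit 7) (nat_lit 4) (nat_lit 533) (nat_lit 385) (nat_lit 282)))) (XT.nd (nat_lit 156) (nat_lit 76) (nat_lit 0) (XT.nd (nat_lit 78) (nat_lit 0) (nat_lit 0) (XT.lf (nat_lit 0) (nat_lit 126897892660) (nat_lit 152) (nat_lit 60217597971) (nat_lit 0) (nat_lit 122536660082) (nat_lit 7) (nat_lit 5) (nat_lit 9) (nat_lit 4) (nat_lit 7) (nat_lit 4) (nat_lit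 534) (nat_lit 385) (nat_lit 281)) (XT.lf (nat_lit 0) (nat_lit 159829355692) (nat_lit 152) (nat_lit 8498264481) (nat_lit 0) (nat_lit 155466815654) (nat_lit 7) (nat_lit 5) (nat_lit 9) (nat_lit 4) (nat_lit 7) (nat_lit 4) (nat_lit 535) (nat_lit 385) (nat_lit 280))) (XT.nd (nat_lit 78) (nat_lit 0) (nat_lit 0) (XT.lf (nat_lit 0) (nat_lit 47289133865) (nat_lit 76) (nat_lit 147841170480) (nat_lit 76) (nat_lit 143477385242) (nat_lit 6) (nat_lit 4) (nat_lit 7) (nat_lit 5) (nat_lit 7) (nat_lit 4) (nat_lit 536) (nat_lit 385) (nat_lit 279)) (XT.lf (nat_lit 0) (nat_lit 106130000506) (nat_lit 76) (nat_lit 126195069112) (nat_lit 76) (nat_lit 121830097969) (nat_lit 6) (nat_lit 4) (nat_lit 7) (nat_lit 5) (nat_lit 7) (nat_lit 4) (nat_lit 537) (nat_lit 385) (nat_lit 278)))))) (XT.nd (nat_lit 624) (nat_lit 76) (nat_lit 0) (XT.nd (nat_lit 312) (nat_lit 152) (nat_lit 0) (XT.nd (nat_lit 156) (nat_lit 0) (nat_lit 0) (XT.nd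 (nat_lit 78) (nat_lit 0) (nat_lit 0) (XT.lf (nat_lit 0) (nat_lit 167883441738) (nat_lit 76) (nat_lit 103481699955) (nat_lit 76) (nat_lit 99115599379) (nat_lit 6) (nat_lit 4) (nat_lit 7) (nat_lit 5) (nat_lit 7) (nat_lit 4) (nat_lit 538) (nat_lit 385) (nat_lit 277)) (XT.lf (nat_lit 0) (nat_lit 232696489564) (nat_lit 76) (nat_lit 79646983559) (nat_lit 76) (nat_lit 75279807332) (nat_lit 6) (nat_lit 4) (nat_lit 7) (nat_lit 5) (nat_lit 7) (nat_lit 4) (nat_lit 539) (nat_lit 385) (nat_lit 276))) (XT.nd (nat_lit 78) (nat_lit 0) (nat_lit 0) (XT.lf (nat_lit 0) (nat_lit 300723460765) (nat_lit 76) (nat_lit 54634170598) (nat_lit 76) (nat_lit 50265969942) (nat_lit 6) (nat_lit 4) (nat_lit 7) (nat_lit 5) (nat_lit 7) (nat_lit 4) (nat_lit 540) (nat_lit 385) (nat_lit 275)) (XT.lf (nat_lit 0) (nat_lit 372126324320) (nat_lit 76) (nat_lit 28383706756) (nat_lit 76) (nat_lit 24014530454) (nat_lit 6) (nat_lit 4) (nat_lit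 7) (nat_lit 5) (nat_lit 7) (nat_lit 4) (nat_lit 541) (nat_lit 385) (nat_lit 274)))) (XT.nd (nat_lit 156) (nat_lit 0) (nat_lit 0) (XT.nd (nat_lit 78) (nat_lit 0) (nat_lit 0) (XT.lf (nat_lit 0) (nat_lit 2736278934) (nat_lit 76) (nat_lit 730250053) (nat_lit 152) (nat_lit 440899737245) (nat_lit 4) (nat_lit 5) (nat_lit 5) (nat_lit 5) (nat_lit 6) (nat_lit 4) (nat_lit 542) (nat_lit 385) (nat_lit 273)) (XT.lf (nat_lit 0) (nat_lit 32846402140) (nat_lit 152) (nat_lit 403583825561) (nat_lit 0) (nat_lit 28683554111) (nat_lit 4) (nat_lit 5) (nat_lit 6) (nat_lit 4) (nat_lit 4) (nat_lit 4) (nat_lit 543) (nat_lit 385) (nat_lit 272))) (XT.nd (nat_lit 78) (nat_lit 0) (nat_lit 0) (XT.lf (nat_lit 0) (nat_lit 63695750225) (nat_lit 152) (nat_lit 363670799366) (nat_lit 0) (nat_lit 59532099528) (nat_lit 4) (nat_lit 5) (nat_lit 6) (nat_lit 4) (nat_lit 4) (nat_lit 4) (nat_lit 544) (nat_lit 385) (nat_lit 271)) (XT.lf (nat_lit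 0) (nat_lit 96076622818) (nat_lit 152) (nat_lit 321784476446) (nat_lit 0) (nat_lit 91912207678) (nat_lit 4) (nat_lit 5) (nat_lit 6) (nat_lit 4) (nat_lit 4) (nat_lit 4) (nat_lit 545) (nat_lit 385) (nat_lit 270))))) (XT.nd (nat_lit 312) (nat_lit 76) (nat_lit 0) (XT.nd (nat_lit 156) (nat_lit 0) (nat_lit 0) (XT.nd (nat_lit 78) (nat_lit 0) (nat_lit 0) (XT.lf (nat_lit 0) (nat_lit 130066117238) (nat_lit 152) (nat_lit 277825127462) (nat_lit 0) (nat_lit 125900974054) (nat_lit 4) (nat_lit 5) (nat_lit 6) (nat_lit 4) (nat_lit 4) (nat_lit 4) (nat_lit 546) (nat_lit 385) (nat_lit 269)) (XT.lf (nat_lit 0) (nat_lit 165745160850) (nat_lit 152) (nat_lit 231688087297) (nat_lit 0) (nat_lit 161579324293) (nat_lit 4) (nat_lit 5) (nat_lit 6) (nat_lit 4) (nat_lit 4) (nat_lit 4) (nat_lit 547) (nat_lit 385) (nat_lit 268))) (XT.nd (nat_lit 78) (nat_lit 0) (nat_lit 0) (XT.lf (nat_lit 0) (nat_lit 203198703759) (nat_lit 152)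 (nat_lit 183263505856) (nat_lit 0) (nat_lit 199032206846) (nat_lit 4) (nat_lit 5) (nat_lit 6) (nat_lit 4) (nat_lit 4) (nat_lit 4) (nat_lit 548) (nat_lit 385) (nat_lit 267)) (XT.lf (nat_lit 0) (nat_lit 242515921068) (nat_lit 152) (nat_lit 132436086516) (nat_lit 0) (nat_lit 238348795244) (nat_lit 4) (nat_lit 5) (nat_lit 6) (nat_lit 4) (nat_lit 4) (nat_lit 4) (nat_lit 549) (nat_lit 385) (nat_lit 266)))) (XT.nd (nat_lit 156) (nat_lit 76) (nat_lit 0) (XT.nd (nat_lit 78) (nat_lit 0) (nat_lit 0) (XT.lf (nat_lit 0) (nat_lit 283790425198) (nat_lit 152) (nat_lit 79084811613) (nat_lit 0) (nat_lit 279622700411) (nat_lit 4) (nat_lit 5) (nat_lit 6) (nat_lit 4) (nat_lit 4) (nat_lit 4) (nat_lit 550) (nat_lit 385) (nat_lit 265)) (XT.lf (nat_lit 0) (nat_lit 327120488778) (nat_lit 152) (nat_lit 23082654300) (nat_lit 0) (nat_lit 322952193550) (nat_lit 4) (nat_lit 5) (nat_lit 6) (nat_lit 4) (nat_lit 4) (nat_lit 4)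 (nat_lit 551) (nat_lit 385) (nat_lit 264))) (XT.nd (nat_lit 78) (nat_lit 0) (nat_lit 0) (XT.lf (nat_lit 0) (nat_lit 36884250246) (nat_lit 76) (nat_lit 336300894894) (nat_lit 76) (nat_lit 332132056390) (nat_lit 3) (nat_lit 4) (nat_lit 4) (nat_lit 5) (nat_lit 4) (nat_lit 4) (nat_lit 552) (nat_lit 385) (nat_lit 263)) (XT.nd (nat_lit 78) (nat_lit 0) (nat_lit 0) (XT.lf (nat_lit 0) (nat_lit 100635246909) (nat_lit 76) (nat_lit 321301052709) (nat_lit 76) (nat_lit 317131696799) (nat_lit 3) (nat_lit 4) (nat_lit 4) (nat_lit 5) (nat_lit 4) (nat_lit 4) (nat_lit 553) (nat_lit 385) (nat_lit 262)) (XT.lf (nat_lit 0) (nat_lit 167558906982) (nat_lit 76) (nat_lit 305558818533) (nat_lit 76) (nat_lit 301388969854) (nat_lit 3) (nat_lit 4) (nat_lit 4) (nat_lit 5) (nat_lit 4) (nat_lit 4) (nat_lit 554) (nat_lit 385) (nat_lit 261))))))))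
noncomputable def xc126 : XT := (XT.nd (nat_lit 53664) (nat_lit 0) (nat_lit 4408) (XT.nd (nat_lit 53040) (nat_lit 0) (nat_lit 6232) (XT.nd (nat_lit 52728) (nat_lit 0) (nat_lit 7600) (XT.nd (nat_lit 52572) (nat_lit 0) (nat_lit 8512) (XT.nd (nat_lit 78) (nat_lit 0) (nat_lit 0) (XT.lf (nat_lit 0) (nat_lit 237814572512) (nat_lit 76) (nat_lit 289036710855) (nat_lit 76) (nat_lit 284866392874) (nat_lit 3) (nat_lit 4) (nat_lit 4) (nat_lit 5) (nat_lit 4) (nat_lit 4) (nat_lit 555) (nat_lit 385) (nat_lit 260)) (XT.lf (nat_lit 0) (nat_lit 311569518893) (nat_lit 76) (nat_lit 271695391325) (nat_lit 76) (nat_lit 267524626388) (nat_lit 3) (nat_lit 4) (nat_lit 4) (nat_lit 5) (nat_lit 4) (nat_lit 4) (nat_lit 556) (nat_lit 385) (nat_lit 259))) (XT.nd (nat_lit 78) (nat_lit 0) (nat_lit 0) (XT.lf (nat_lit 0) (nat_lit 180502811) (nat_lit 304) (nat_lit 4002123417) (nat_lit 0) (nat_lit 180502811) (nat_lit 115) (nat_lit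 5) (nat_lit 119) (nat_lit 4) (nat_lit 115) (nat_lit 4) (nat_lit 428) (nat_lit 386) (nat_lit 386)) (XT.lf (nat_lit 0) (nat_lit 4728282761) (nat_lit 304) (nat_lit 386842224) (nat_lit 0) (nat_lit 3779899661) (nat_lit 115) (nat_lit 5) (nat_lit 119) (nat_lit 4) (nat_lit 115) (nat_lit 4) (nat_lit 429) (nat_lit 386) (nat_lit 385)))) (XT.nd (nat_lit 156) (nat_lit 456) (nat_lit 0) (XT.nd (nat_lit 78) (nat_lit 152) (nat_lit 0) (XT.lf (nat_lit 0) (nat_lit 183513842) (nat_lit 304) (nat_lit 1475401722) (nat_lit 76) (nat_lit 7415656375) (nat_lit 111) (nat_lit 5) (nat_lit 115) (nat_lit 5) (nat_lit 112) (nat_lit 4) (nat_lit 430) (nat_lit 386) (nat_lit 384)) (XT.lf (nat_lit 0) (nat_lit 4586789531) (nat_lit 228) (nat_lit 2670016150) (nat_lit 0) (nat_lit 2004107124) (nat_lit 109) (nat_lit 5) (nat_lit 112) (nat_lit 4) (nat_lit 109) (nat_lit 4) (nat_lit 431) (nat_lit 386) (nat_lit 383))) (XT.nd (nat_lit 78) (nat_lit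 228) (nat_lit 0) (XT.lf (nat_lit 0) (nat_lit 5549810256) (nat_lit 228) (nat_lit 3635467780) (nat_lit 228) (nat_lit 272548250) (nat_lit 106) (nat_lit 4) (nat_lit 109) (nat_lit 5) (nat_lit 109) (nat_lit 4) (nat_lit 432) (nat_lit 386) (nat_lit 382)) (XT.lf (nat_lit 0) (nat_lit 4166144843) (nat_lit 228) (nat_lit 5241574627) (nat_lit 0) (nat_lit 255666267) (nat_lit 103) (nat_lit 5) (nat_lit 106) (nat_lit 4) (nat_lit 103) (nat_lit 4) (nat_lit 433) (nat_lit 386) (nat_lit 381))))) (XT.nd (nat_lit 312) (nat_lit 684) (nat_lit 0) (XT.nd (nat_lit 156) (nat_lit 228) (nat_lit 0) (XT.nd (nat_lit 78) (nat_lit 228) (nat_lit 0) (XT.lf (nat_lit 0) (nat_lit 3205116869) (nat_lit 228) (nat_lit 5628776281) (nat_lit 228) (nat_lit 1044299542) (nat_lit 100) (nat_lit 4) (nat_lit 103) (nat_lit 5) (nat_lit 103) (nat_lit 4) (nat_lit 434) (nat_lit 386) (nat_lit 380)) (XT.lf (nat_lit 0) (nat_lit 1898124834) (nat_lit 152) (nat_lit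 1577243256) (nat_lit 228) (nat_lit 6627528303) (nat_lit 97) (nat_lit 5) (nat_lit 99) (nat_lit 5) (nat_lit 100) (nat_lit 4) (nat_lit 435) (nat_lit 386) (nat_lit 379))) (XT.nd (nat_lit 78) (nat_lit 76) (nat_lit 0) (XT.lf (nat_lit 0) (nat_lit 487919974) (nat_lit 152) (nat_lit 7704729257) (nat_lit 152) (nat_lit 2144999777) (nat_lit 95) (nat_lit 4) (nat_lit 97) (nat_lit 5) (nat_lit 97) (nat_lit 4) (nat_lit 436) (nat_lit 386) (nat_lit 378)) (XT.lf (nat_lit 0) (nat_lit 2490128296) (nat_lit 228) (nat_lit 1009466428) (nat_lit 76) (nat_lit 7082027126) (nat_lit 94) (nat_lit 5) (nat_lit 97) (nat_lit 5) (nat_lit 95) (nat_lit 4) (nat_lit 437) (nat_lit 386) (nat_lit 377)))) (XT.nd (nat_lit 156) (nat_lit 304) (nat_lit 0) (XT.nd (nat_lit 78) (nat_lit 228) (nat_lit 0) (XT.lf (nat_lit 0) (nat_lit 7279953145) (nat_lit 228) (nat_lit 2602406155) (nat_lit 0) (nat_lit 953929686) (nat_lit 92) (nat_lit 5) (nat_lit 95) (nat_lit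 4) (nat_lit 92) (nat_lit 4) (nat_lit 438) (nat_lit 386) (nat_lit 376)) (XT.lf (nat_lit 0) (nat_lit 1200578248) (nat_lit 228) (nat_lit 4343835960) (nat_lit 76) (nat_lit 5556659607) (nat_lit 89) (nat_lit 5) (nat_lit 92) (nat_lit 5) (nat_lit 90) (nat_lit 4) (nat_lit 439) (nat_lit 386) (nat_lit 375))) (XT.nd (nat_lit 78) (nat_lit 152) (nat_lit 0) (XT.lf (nat_lit 0) (nat_lit 5150043941) (nat_lit 152) (nat_lit 904226204) (nat_lit 228) (nat_lit 5322994765) (nat_lit 87) (nat_lit 5) (nat_lit 89) (nat_lit 5) (nat_lit 90) (nat_lit 4) (nat_lit 440) (nat_lit 386) (nat_lit 374)) (XT.lf (nat_lit 0) (nat_lit 3395854516) (nat_lit 152) (nat_lit 7799204520) (nat_lit 152) (nat_lit 469990156) (nat_lit 85) (nat_lit 4) (nat_lit 87) (nat_lit 5) (nat_lit 87) (nat_lit 4) (nat_lit 441) (nat_lit 386) (nat_lit 373)))))) (XT.nd (nat_lit 624) (nat_lit 836) (nat_lit 0) (XT.nd (nat_lit 312) (nat_lit 532) (nat_lit 0) (XT.nd (nat_lit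 156) (nat_lit 304) (nat_lit 0) (XT.nd (nat_lit 78) (nat_lit 0) (nat_lit 0) (XT.lf (nat_lit 0) (nat_lit 1455975975) (nat_lit 76) (nat_lit 3021713344) (nat_lit 152) (nat_lit 7485922508) (nat_lit 83) (nat_lit 5) (nat_lit 84) (nat_lit 5) (nat_lit 85) (nat_lit 4) (nat_lit 442) (nat_lit 386) (nat_lit 372)) (XT.lf (nat_lit 0) (nat_lit 9686999657) (nat_lit 152) (nat_lit 614166804) (nat_lit 0) (nat_lit 1974052489) (nat_lit 83) (nat_lit 5) (nat_lit 85) (nat_lit 4) (nat_lit 83) (nat_lit 4) (nat_lit 443) (nat_lit 386) (nat_lit 371))) (XT.nd (nat_lit 78) (nat_lit 76) (nat_lit 0) (XT.lf (nat_lit 0) (nat_lit 2539508205) (nat_lit 228) (nat_lit 2847370219) (nat_lit 76) (nat_lit 7210192550) (nat_lit 80) (nat_lit 5) (nat_lit 83) (nat_lit 5) (nat_lit 81) (nat_lit 4) (nat_lit 444) (nat_lit 386) (nat_lit 370)) (XT.lf (nat_lit 0) (nat_lit 7675960284) (nat_lit 76) (nat_lit 155028479) (nat_lit 152) (nat_lit 5102191128)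 (nat_lit 79) (nat_lit 5) (nat_lit 80) (nat_lit 5) (nat_lit 81) (nat_lit 4) (nat_lit 445) (nat_lit 386) (nat_lit 369)))) (XT.nd (nat_lit 156) (nat_lit 228) (nat_lit 0) (XT.nd (nat_lit 78) (nat_lit 76) (nat_lit 0) (XT.lf (nat_lit 0) (nat_lit 180382534) (nat_lit 228) (nat_lit 7902913905) (nat_lit 76) (nat_lit 5198588669) (nat_lit 76) (nat_lit 5) (nat_lit 79) (nat_lit 5) (nat_lit 77) (nat_lit 4) (nat_lit 446) (nat_lit 386) (nat_lit 368)) (XT.lf (nat_lit 0) (nat_lit 2842039936) (nat_lit 76) (nat_lit 2716398207) (nat_lit 152) (nat_lit 8085267042) (nat_lit 75) (nat_lit 5) (nat_lit 76) (nat_lit 5) (nat_lit 77) (nat_lit 4) (nat_lit 447) (nat_lit 386) (nat_lit 367))) (XT.nd (nat_lit 78) (nat_lit 76) (nat_lit 0) (XT.lf (nat_lit 0) (nat_lit 88687962) (nat_lit 152) (nat_lit 11165986936) (nat_lit 152) (nat_lit 2766480061) (nat_lit 73) (nat_lit 4) (nat_lit 75) (nat_lit 5) (nat_lit 75) (nat_lit 4) (nat_lit 448)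 (nat_lit 386) (nat_lit 366)) (XT.lf (nat_lit 0) (nat_lit 2825198860) (nat_lit 228) (nat_lit 2849775705) (nat_lit 76) (nat_lit 8735447287) (nat_lit 72) (nat_lit 5) (nat_lit 75) (nat_lit 5) (nat_lit 73) (nat_lit 4) (nat_lit 449) (nat_lit 386) (nat_lit 365))))) (XT.nd (nat_lit 312) (nat_lit 456) (nat_lit 0) (XT.nd (nat_lit 156) (nat_lit 152) (nat_lit 0) (XT.nd (nat_lit 78) (nat_lit 152) (nat_lit 0) (XT.lf (nat_lit 0) (nat_lit 8616402731) (nat_lit 152) (nat_lit 6032806638) (nat_lit 0) (nat_lit 167031727) (nat_lit 71) (nat_lit 5) (nat_lit 73) (nat_lit 4) (nat_lit 71) (nat_lit 4) (nat_lit 450) (nat_lit 386) (nat_lit 364)) (XT.lf (nat_lit 0) (nat_lit 5708827160) (nat_lit 152) (nat_lit 9093316818) (nat_lit 152) (nat_lit 434960612) (nat_lit 69) (nat_lit 4) (nat_lit 71) (nat_lit 5) (nat_lit 71) (nat_lit 4) (nat_lit 451) (nat_lit 386) (nat_lit 363))) (XT.nd (nat_lit 78) (nat_lit 0) (nat_lit 0) (XT.lf (nat_lit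 0) (nat_lit 2320249014) (nat_lit 76) (nat_lit 3132257690) (nat_lit 152) (nat_lit 10221412645) (nat_lit 67) (nat_lit 5) (nat_lit 68) (nat_lit 5) (nat_lit 69) (nat_lit 4) (nat_lit 452) (nat_lit 386) (nat_lit 362)) (XT.lf (nat_lit 0) (nat_lit 11707274950) (nat_lit 152) (nat_lit 1329431566) (nat_lit 0) (nat_lit 3091136407) (nat_lit 67) (nat_lit 5) (nat_lit 69) (nat_lit 4) (nat_lit 67) (nat_lit 4) (nat_lit 453) (nat_lit 386) (nat_lit 361)))) (XT.nd (nat_lit 156) (nat_lit 228) (nat_lit 0) (XT.nd (nat_lit 78) (nat_lit 76) (nat_lit 0) (XT.lf (nat_lit 0) (nat_lit 1728389382) (nat_lit 152) (nat_lit 5244872952) (nat_lit 76) (nat_lit 9624321554) (nat_lit 65) (nat_lit 5) (nat_lit 67) (nat_lit 5) (nat_lit 66) (nat_lit 4) (nat_lit 454) (nat_lit 386) (nat_lit 360)) (XT.lf (nat_lit 0) (nat_lit 7567540501) (nat_lit 76) (nat_lit 490682455) (nat_lit 152) (nat_lit 9027867710) (nat_lit 64) (nat_lit 5) (nat_lit 65) (nat_lit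 5) (nat_lit 66) (nat_lit 4) (nat_lit 455) (nat_lit 386) (nat_lit 359))) (XT.nd (nat_lit 78) (nat_lit 152) (nat_lit 0) (XT.lf (nat_lit 0) (nat_lit 3388702828) (nat_lit 76) (nat_lit 11439109860) (nat_lit 76) (nat_lit 2765048398) (nat_lit 63) (nat_lit 4) (nat_lit 64) (nat_lit 5) (nat_lit 64) (nat_lit 4) (nat_lit 456) (nat_lit 386) (nat_lit 358)) (XT.nd (nat_lit 78) (nat_lit 76) (nat_lit 0) (XT.lf (nat_lit 0) (nat_lit 3742528877) (nat_lit 152) (nat_lit 1143326673) (nat_lit 76) (nat_lit 13233461413) (nat_lit 62) (nat_lit 5) (nat_lit 64) (nat_lit 5) (nat_lit 63) (nat_lit 4) (nat_lit 457) (nat_lit 386) (nat_lit 357)) (XT.lf (nat_lit 0) (nat_lit 10601928348) (nat_lit 152) (nat_lit 5984028895) (nat_lit 0) (nat_lit 2077904922) (nat_lit 61) (nat_lit 5) (nat_lit 63) (nat_lit 4) (nat_lit 61) (nat_lit 4) (nat_lit 458) (nat_lit 386) (nat_lit 356))))))))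
noncomputable def xc127 : XT := (XT.nd (nat_lit 1248) (nat_lit 1140) (nat_lit 0) (XT.nd (nat_lit 624) (nat_lit 532) (nat_lit 0) (XT.nd (nat_lit 312) (nat_lit 380) (nat_lit 0) (XT.nd (nat_lit 156) (nat_lit 76) (nat_lit 0) (XT.nd (nat_lit 78) (nat_lit 152) (nat_lit 0) (XT.lf (nat_lit 0) (nat_lit 7955824545) (nat_lit 76) (nat_lit 9960218412) (nat_lit 76) (nat_lit 1314005667) (nat_lit 60) (nat_lit 4) (nat_lit 61) (nat_lit 5) (nat_lit 61) (nat_lit 4) (nat_lit 459) (nat_lit 386) (nat_lit 355)) (XT.lf (nat_lit 0) (nat_lit 2759732965) (nat_lit 76) (nat_lit 2860909225) (nat_lit 152) (nat_lit 14197695957) (nat_lit 58) (nat_lit 5) (nat_lit 59) (nat_lit 5) (nat_lit 60) (nat_lit 4) (nat_lit 460) (nat_lit 386) (nat_lit 354))) (XT.nd (nat_lit 78) (nat_lit 76) (nat_lit 0) (XT.lf (nat_lit 0) (nat_lit 13011957252) (nat_lit 152) (nat_lit 2854216343) (nat_lit 0) (nat_lit 4561087880) (nat_lit 58) (nat_lit 5) (nat_lit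 60) (nat_lit 4) (nat_lit 58) (nat_lit 4) (nat_lit 461) (nat_lit 386) (nat_lit 353)) (XT.lf (nat_lit 0) (nat_lit 12196092504) (nat_lit 76) (nat_lit 8707693465) (nat_lit 76) (nat_lit 156298639) (nat_lit 57) (nat_lit 4) (nat_lit 58) (nat_lit 5) (nat_lit 58) (nat_lit 4) (nat_lit 462) (nat_lit 386) (nat_lit 352)))) (XT.nd (nat_lit 156) (nat_lit 228) (nat_lit 0) (XT.nd (nat_lit 78) (nat_lit 0) (nat_lit 0) (XT.lf (nat_lit 0) (nat_lit 6250672800) (nat_lit 76) (nat_lit 1016549714) (nat_lit 152) (nat_lit 14449473682) (nat_lit 55) (nat_lit 5) (nat_lit 56) (nat_lit 5) (nat_lit 57) (nat_lit 4) (nat_lit 463) (nat_lit 386) (nat_lit 351)) (XT.lf (nat_lit 0) (nat_lit 15213548713) (nat_lit 152) (nat_lit 293272402) (nat_lit 0) (nat_lit 6891345945) (nat_lit 55) (nat_lit 5) (nat_lit 57) (nat_lit 4) (nat_lit 55) (nat_lit 4) (nat_lit 464) (nat_lit 386) (nat_lit 350))) (XT.nd (nat_lit 78) (nat_lit 76) (nat_lit 0) (XT.lf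 (nat_lit 0) (nat_lit 596542670) (nat_lit 152) (nat_lit 7181992835) (nat_lit 76) (nat_lit 15326467723) (nat_lit 53) (nat_lit 5) (nat_lit 55) (nat_lit 5) (nat_lit 54) (nat_lit 4) (nat_lit 465) (nat_lit 386) (nat_lit 349)) (XT.lf (nat_lit 0) (nat_lit 8579576880) (nat_lit 152) (nat_lit 14759111277) (nat_lit 0) (nat_lit 499891514) (nat_lit 52) (nat_lit 5) (nat_lit 54) (nat_lit 4) (nat_lit 52) (nat_lit 4) (nat_lit 466) (nat_lit 386) (nat_lit 348))))) (XT.nd (nat_lit 312) (nat_lit 228) (nat_lit 0) (XT.nd (nat_lit 156) (nat_lit 152) (nat_lit 0) (XT.nd (nat_lit 78) (nat_lit 76) (nat_lit 0) (XT.lf (nat_lit 0) (nat_lit 1521087897) (nat_lit 76) (nat_lit 15615077293) (nat_lit 76) (nat_lit 7463950363) (nat_lit 51) (nat_lit 4) (nat_lit 52) (nat_lit 5) (nat_lit 52) (nat_lit 4) (nat_lit 467) (nat_lit 386) (nat_lit 347)) (XT.lf (nat_lit 0) (nat_lit 851459252) (nat_lit 152) (nat_lit 6473675046) (nat_lit 76) (nat_lit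 18066348047) (nat_lit 50) (nat_lit 5) (nat_lit 52) (nat_lit 5) (nat_lit 51) (nat_lit 4) (nat_lit 468) (nat_lit 386) (nat_lit 346))) (XT.nd (nat_lit 78) (nat_lit 76) (nat_lit 0) (XT.lf (nat_lit 0) (nat_lit 9432879249) (nat_lit 152) (nat_lit 15234979286) (nat_lit 0) (nat_lit 1543387707) (nat_lit 49) (nat_lit 5) (nat_lit 51) (nat_lit 4) (nat_lit 49) (nat_lit 4) (nat_lit 469) (nat_lit 386) (nat_lit 345)) (XT.lf (nat_lit 0) (nat_lit 2216471192) (nat_lit 76) (nat_lit 16397628971) (nat_lit 76) (nat_lit 8449362277) (nat_lit 48) (nat_lit 4) (nat_lit 49) (nat_lit 5) (nat_lit 49) (nat_lit 4) (nat_lit 470) (nat_lit 386) (nat_lit 344)))) (XT.nd (nat_lit 156) (nat_lit 76) (nat_lit 0) (XT.nd (nat_lit 78) (nat_lit 76) (nat_lit 0) (XT.lf (nat_lit 0) (nat_lit 453559109) (nat_lit 152) (nat_lit 7074446855) (nat_lit 76) (nat_lit 20421705729) (nat_lit 47) (nat_lit 5) (nat_lit 49) (nat_lit 5) (nat_lit 48) (nat_lit 4)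 (nat_lit 471) (nat_lit 386) (nat_lit 343)) (XT.lf (nat_lit 0) (nat_lit 9640365976) (nat_lit 152) (nat_lit 17260342388) (nat_lit 0) (nat_lit 1966505190) (nat_lit 46) (nat_lit 5) (nat_lit 48) (nat_lit 4) (nat_lit 46) (nat_lit 4) (nat_lit 472) (nat_lit 386) (nat_lit 342))) (XT.nd (nat_lit 78) (nat_lit 0) (nat_lit 0) (XT.lf (nat_lit 0) (nat_lit 1381340265) (nat_lit 76) (nat_lit 18081329090) (nat_lit 76) (nat_lit 10359113842) (nat_lit 45) (nat_lit 4) (nat_lit 46) (nat_lit 5) (nat_lit 46) (nat_lit 4) (nat_lit 473) (nat_lit 386) (nat_lit 341)) (XT.lf (nat_lit 0) (nat_lit 21376501575) (nat_lit 76) (nat_lit 8602842270) (nat_lit 76) (nat_lit 834575152) (nat_lit 45) (nat_lit 4) (nat_lit 46) (nat_lit 5) (nat_lit 46) (nat_lit 4) (nat_lit 474) (nat_lit 386) (nat_lit 340)))))) (XT.nd (nat_lit 624) (nat_lit 532) (nat_lit 0) (XT.nd (nat_lit 312) (nat_lit 228) (nat_lit 0) (XT.nd (nat_lit 156) (nat_lit 228) (nat_lit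 0) (XT.nd (nat_lit 78) (nat_lit 0) (nat_lit 0) (XT.lf (nat_lit 0) (nat_lit 8975902361) (nat_lit 152) (nat_lit 21331667479) (nat_lit 0) (nat_lit 1535782321) (nat_lit 43) (nat_lit 5) (nat_lit 45) (nat_lit 4) (nat_lit 43) (nat_lit 4) (nat_lit 475) (nat_lit 386) (nat_lit 339)) (XT.lf (nat_lit 0) (nat_lit 19466264749) (nat_lit 152) (nat_lit 1460074780) (nat_lit 0) (nat_lit 11986363374) (nat_lit 43) (nat_lit 5) (nat_lit 45) (nat_lit 4) (nat_lit 43) (nat_lit 4) (nat_lit 476) (nat_lit 386) (nat_lit 338))) (XT.nd (nat_lit 78) (nat_lit 152) (nat_lit 0) (XT.lf (nat_lit 0) (nat_lit 19877132798) (nat_lit 76) (nat_lit 10832379395) (nat_lit 76) (nat_lit 3314591033) (nat_lit 42) (nat_lit 4) (nat_lit 43) (nat_lit 5) (nat_lit 43) (nat_lit 4) (nat_lit 477) (nat_lit 386) (nat_lit 337)) (XT.lf (nat_lit 0) (nat_lit 7090009329) (nat_lit 76) (nat_lit 53347029) (nat_lit 152) (nat_lit 28039304430) (nat_lit 40) (nat_lit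 5) (nat_lit 41) (nat_lit 5) (nat_lit 42) (nat_lit 4) (nat_lit 478) (nat_lit 386) (nat_lit 336)))) (XT.nd (nat_lit 156) (nat_lit 152) (nat_lit 0) (XT.nd (nat_lit 78) (nat_lit 76) (nat_lit 0) (XT.lf (nat_lit 0) (nat_lit 18350397296) (nat_lit 152) (nat_lit 6905646944) (nat_lit 0) (nat_lit 11123506038) (nat_lit 40) (nat_lit 5) (nat_lit 42) (nat_lit 4) (nat_lit 40) (nat_lit 4) (nat_lit 479) (nat_lit 386) (nat_lit 335)) (XT.lf (nat_lit 0) (nat_lit 15685356718) (nat_lit 76) (nat_lit 14600297804) (nat_lit 76) (nat_lit 7342236828) (nat_lit 39) (nat_lit 4) (nat_lit 40) (nat_lit 5) (nat_lit 40) (nat_lit 4) (nat_lit 480) (nat_lit 386) (nat_lit 334))) (XT.nd (nat_lit 78) (nat_lit 0) (nat_lit 0) (XT.lf (nat_lit 0) (nat_lit 510149281) (nat_lit 76) (nat_lit 3293702280) (nat_lit 152) (nat_lit 35129321110) (nat_lit 37) (nat_lit 5) (nat_lit 38) (nat_lit 5) (nat_lit 39) (nat_lit 4) (nat_lit 481) (nat_lit 386) (nat_lit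 333)) (XT.lf (nat_lit 0) (nat_lit 15694366194) (nat_lit 152) (nat_lit 15854910717) (nat_lit 0) (nat_lit 8726729742) (nat_lit 37) (nat_lit 5) (nat_lit 39) (nat_lit 4) (nat_lit 37) (nat_lit 4) (nat_lit 482) (nat_lit 386) (nat_lit 332))))) (XT.nd (nat_lit 312) (nat_lit 304) (nat_lit 0) (XT.nd (nat_lit 156) (nat_lit 152) (nat_lit 0) (XT.nd (nat_lit 78) (nat_lit 0) (nat_lit 0) (XT.lf (nat_lit 0) (nat_lit 7890983595) (nat_lit 76) (nat_lit 20391560978) (nat_lit 76) (nat_lit 13398281122) (nat_lit 36) (nat_lit 4) (nat_lit 37) (nat_lit 5) (nat_lit 37) (nat_lit 4) (nat_lit 483) (nat_lit 386) (nat_lit 331)) (XT.lf (nat_lit 0) (nat_lit 33227835977) (nat_lit 76) (nat_lit 8467983856) (nat_lit 76) (nat_lit 1450281711) (nat_lit 36) (nat_lit 4) (nat_lit 37) (nat_lit 5) (nat_lit 37) (nat_lit 4) (nat_lit 484) (nat_lit 386) (nat_lit 330))) (XT.nd (nat_lit 78) (nat_lit 0) (nat_lit 0) (XT.lf (nat_lit 0) (nat_lit 10977633426)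 (nat_lit 152) (nat_lit 29414509415) (nat_lit 0) (nat_lit 4271955836) (nat_lit 34) (nat_lit 5) (nat_lit 36) (nat_lit 4) (nat_lit 34) (nat_lit 4) (nat_lit 485) (nat_lit 386) (nat_lit 329)) (XT.lf (nat_lit 0) (nat_lit 24217329590) (nat_lit 152) (nat_lit 4536966217) (nat_lit 0) (nat_lit 17490555109) (nat_lit 34) (nat_lit 5) (nat_lit 36) (nat_lit 4) (nat_lit 34) (nat_lit 4) (nat_lit 486) (nat_lit 386) (nat_lit 328)))) (XT.nd (nat_lit 156) (nat_lit 76) (nat_lit 0) (XT.nd (nat_lit 78) (nat_lit 152) (nat_lit 0) (XT.lf (nat_lit 0) (nat_lit 22158229615) (nat_lit 76) (nat_lit 16239666910) (nat_lit 76) (nat_lit 9492800151) (nat_lit 33) (nat_lit 4) (nat_lit 34) (nat_lit 5) (nat_lit 34) (nat_lit 4) (nat_lit 487) (nat_lit 386) (nat_lit 327)) (XT.lf (nat_lit 0) (nat_lit 554455338) (nat_lit 76) (nat_lit 3016499588) (nat_lit 152) (nat_lit 46044030196) (nat_lit 31) (nat_lit 5) (nat_lit 32) (nat_lit 5) (nat_lit 33)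 (nat_lit 4) (nat_lit 488) (nat_lit 386) (nat_lit 326))) (XT.nd (nat_lit 78) (nat_lit 76) (nat_lit 0) (XT.lf (nat_lit 0) (nat_lit 17514516205) (nat_lit 152) (nat_lit 22822560978) (nat_lit 0) (nat_lit 11053348062) (nat_lit 31) (nat_lit 5) (nat_lit 33) (nat_lit 4) (nat_lit 31) (nat_lit 4) (nat_lit 489) (nat_lit 386) (nat_lit 325)) (XT.nd (nat_lit 78) (nat_lit 0) (nat_lit 0) (XT.lf (nat_lit 0) (nat_lit 4699193701) (nat_lit 76) (nat_lit 27515095144) (nat_lit 76) (nat_lit 21037397034) (nat_lit 30) (nat_lit 4) (nat_lit 31) (nat_lit 5) (nat_lit 31) (nat_lit 4) (nat_lit 490) (nat_lit 386) (nat_lit 324)) (XT.lf (nat_lit 0) (nat_lit 34262400298) (nat_lit 76) (nat_lit 13710430652) (nat_lit 76) (nat_lit 7216989716) (nat_lit 30) (nat_lit 4) (nat_lit 31) (nat_lit 5) (nat_lit 31) (nat_lit 4) (nat_lit 491) (nat_lit 386) (nat_lit 323))))))))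
noncomputable def xc128 : XT := (XT.nd (nat_lit 1248) (nat_lit 684) (nat_lit 0) (XT.nd (nat_lit 624) (nat_lit 380) (nat_lit 0) (XT.nd (nat_lit 312) (nat_lit 228) (nat_lit 0) (XT.nd (nat_lit 156) (nat_lit 76) (nat_lit 0) (XT.nd (nat_lit 78) (nat_lit 0) (nat_lit 0) (XT.lf (nat_lit 0) (nat_lit 7141949576) (nat_lit 152) (nat_lit 49129728566) (nat_lit 0) (nat_lit 943440907) (nat_lit 28) (nat_lit 5) (nat_lit 30) (nat_lit 4) (nat_lit 28) (nat_lit 4) (nat_lit 492) (nat_lit 386) (nat_lit 322)) (XT.lf (nat_lit 0) (nat_lit 22500609077) (nat_lit 152) (nat_lit 20520441115) (nat_lit 0) (nat_lit 16288501162) (nat_lit 28) (nat_lit 5) (nat_lit 30) (nat_lit 4) (nat_lit 28) (nat_lit 4) (nat_lit 493) (nat_lit 386) (nat_lit 321))) (XT.nd (nat_lit 78) (nat_lit 0) (nat_lit 0) (XT.lf (nat_lit 0) (nat_lit 9713054187) (nat_lit 76) (nat_lit 29008008861) (nat_lit 76) (nat_lit 22782949285) (nat_lit 27) (nat_lit 4) (nat_lit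 28) (nat_lit 5) (nat_lit 28) (nat_lit 4) (nat_lit 494) (nat_lit 386) (nat_lit 320)) (XT.lf (nat_lit 0) (nat_lit 42055401994) (nat_lit 76) (nat_lit 13987827254) (nat_lit 76) (nat_lit 7750432763) (nat_lit 27) (nat_lit 4) (nat_lit 28) (nat_lit 5) (nat_lit 28) (nat_lit 4) (nat_lit 495) (nat_lit 386) (nat_lit 319)))) (XT.nd (nat_lit 156) (nat_lit 76) (nat_lit 0) (XT.nd (nat_lit 78) (nat_lit 0) (nat_lit 0) (XT.lf (nat_lit 0) (nat_lit 7907632272) (nat_lit 152) (nat_lit 56321269568) (nat_lit 0) (nat_lit 1956068433) (nat_lit 25) (nat_lit 5) (nat_lit 27) (nat_lit 4) (nat_lit 25) (nat_lit 4) (nat_lit 496) (nat_lit 386) (nat_lit 318)) (XT.lf (nat_lit 0) (nat_lit 24636648566) (nat_lit 152) (nat_lit 25350987646) (nat_lit 0) (nat_lit 18674429364) (nat_lit 25) (nat_lit 5) (nat_lit 27) (nat_lit 4) (nat_lit 25) (nat_lit 4) (nat_lit 497) (nat_lit 386) (nat_lit 317))) (XT.nd (nat_lit 78) (nat_lit 0) (nat_lit 0) (XT.lf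 (nat_lit 0) (nat_lit 7294994977) (nat_lit 76) (nat_lit 34968655598) (nat_lit 76) (nat_lit 28996288429) (nat_lit 24) (nat_lit 4) (nat_lit 25) (nat_lit 5) (nat_lit 25) (nat_lit 4) (nat_lit 498) (nat_lit 386) (nat_lit 316)) (XT.lf (nat_lit 0) (nat_lit 42348821485) (nat_lit 76) (nat_lit 18801012524) (nat_lit 76) (nat_lit 12818980627) (nat_lit 24) (nat_lit 4) (nat_lit 25) (nat_lit 5) (nat_lit 25) (nat_lit 4) (nat_lit 499) (nat_lit 386) (nat_lit 315))))) (XT.nd (nat_lit 312) (nat_lit 152) (nat_lit 0) (XT.nd (nat_lit 156) (nat_lit 76) (nat_lit 0) (XT.nd (nat_lit 78) (nat_lit 0) (nat_lit 0) (XT.lf (nat_lit 0) (nat_lit 2247836000) (nat_lit 76) (nat_lit 1771223707) (nat_lit 152) (nat_lit 72791559188) (nat_lit 22) (nat_lit 5) (nat_lit 23) (nat_lit 5) (nat_lit 24) (nat_lit 4) (nat_lit 500) (nat_lit 386) (nat_lit 314)) (XT.lf (nat_lit 0) (nat_lit 22014178992) (nat_lit 152) (nat_lit 41432637358) (nat_lit 0)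 (nat_lit 16299890806) (nat_lit 22) (nat_lit 5) (nat_lit 24) (nat_lit 4) (nat_lit 22) (nat_lit 4) (nat_lit 501) (nat_lit 386) (nat_lit 313))) (XT.nd (nat_lit 78) (nat_lit 76) (nat_lit 0) (XT.lf (nat_lit 0) (nat_lit 40890640285) (nat_lit 152) (nat_lit 6771479422) (nat_lit 0) (nat_lit 35168400901) (nat_lit 22) (nat_lit 5) (nat_lit 24) (nat_lit 4) (nat_lit 22) (nat_lit 4) (nat_lit 502) (nat_lit 386) (nat_lit 312)) (XT.lf (nat_lit 0) (nat_lit 30507295210) (nat_lit 76) (nat_lit 30634742939) (nat_lit 76) (nat_lit 24904930987) (nat_lit 21) (nat_lit 4) (nat_lit 22) (nat_lit 5) (nat_lit 22) (nat_lit 4) (nat_lit 503) (nat_lit 386) (nat_lit 311)))) (XT.nd (nat_lit 156) (nat_lit 0) (nat_lit 0) (XT.nd (nat_lit 78) (nat_lit 152) (nat_lit 0) (XT.lf (nat_lit 0) (nat_lit 69794715579) (nat_lit 76) (nat_lit 12681518548) (nat_lit 76) (nat_lit 6944494627) (nat_lit 21) (nat_lit 4) (nat_lit 22) (nat_lit 5) (nat_lit 22)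 (nat_lit 4) (nat_lit 504) (nat_lit 386) (nat_lit 310)) (XT.lf (nat_lit 0) (nat_lit 11880255177) (nat_lit 152) (nat_lit 74646358679) (nat_lit 0) (nat_lit 6409881402) (nat_lit 19) (nat_lit 5) (nat_lit 21) (nat_lit 4) (nat_lit 19) (nat_lit 4) (nat_lit 505) (nat_lit 386) (nat_lit 309))) (XT.nd (nat_lit 78) (nat_lit 0) (nat_lit 0) (XT.lf (nat_lit 0) (nat_lit 31915574490) (nat_lit 152) (nat_lit 38242677080) (nat_lit 0) (nat_lit 26438970744) (nat_lit 19) (nat_lit 5) (nat_lit 21) (nat_lit 4) (nat_lit 19) (nat_lit 4) (nat_lit 506) (nat_lit 386) (nat_lit 308)) (XT.lf (nat_lit 0) (nat_lit 52911701684) (nat_lit 152) (nat_lit 102167372) (nat_lit 0) (nat_lit 47429164632) (nat_lit 19) (nat_lit 5) (nat_lit 21) (nat_lit 4) (nat_lit 19) (nat_lit 4) (nat_lit 507) (nat_lit 386) (nat_lit 307)))))) (XT.nd (nat_lit 624) (nat_lit 380) (nat_lit 0) (XT.nd (nat_lit 312) (nat_lit 76) (nat_lit 0) (XT.nd (nat_lit 156) (nat_lit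 152) (nat_lit 0) (XT.nd (nat_lit 78) (nat_lit 0) (nat_lit 0) (XT.lf (nat_lit 0) (nat_lit 41184130560) (nat_lit 76) (nat_lit 34377496674) (nat_lit 76) (nat_lit 28889308856) (nat_lit 18) (nat_lit 4) (nat_lit 19) (nat_lit 5) (nat_lit 19) (nat_lit 4) (nat_lit 508) (nat_lit 386) (nat_lit 306)) (XT.lf (nat_lit 0) (nat_lit 84460184200) (nat_lit 76) (nat_lit 14847225469) (nat_lit 76) (nat_lit 9353655967) (nat_lit 18) (nat_lit 4) (nat_lit 19) (nat_lit 5) (nat_lit 19) (nat_lit 4) (nat_lit 509) (nat_lit 386) (nat_lit 305))) (XT.nd (nat_lit 78) (nat_lit 0) (nat_lit 0) (XT.lf (nat_lit 0) (nat_lit 11126719089) (nat_lit 152) (nat_lit 96040150331) (nat_lit 0) (nat_lit 5889866790) (nat_lit 16) (nat_lit 5) (nat_lit 18) (nat_lit 4) (nat_lit 16) (nat_lit 4) (nat_lit 510) (nat_lit 386) (nat_lit 304)) (XT.lf (nat_lit 0) (nat_lit 32939612795) (nat_lit 152) (nat_lit 56995656835) (nat_lit 0) (nat_lit 27698111596) (nat_lit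 16) (nat_lit 5) (nat_lit 18) (nat_lit 4) (nat_lit 16) (nat_lit 4) (nat_lit 511) (nat_lit 386) (nat_lit 303)))) (XT.nd (nat_lit 156) (nat_lit 0) (nat_lit 0) (XT.nd (nat_lit 78) (nat_lit 76) (nat_lit 0) (XT.lf (nat_lit 0) (nat_lit 55807793457) (nat_lit 152) (nat_lit 16070968234) (nat_lit 0) (nat_lit 50561864735) (nat_lit 16) (nat_lit 5) (nat_lit 18) (nat_lit 4) (nat_lit 16) (nat_lit 4) (nat_lit 512) (nat_lit 386) (nat_lit 302)) (XT.lf (nat_lit 0) (nat_lit 27718520984) (nat_lit 76) (nat_lit 52499951934) (nat_lit 76) (nat_lit 47249806522) (nat_lit 15) (nat_lit 4) (nat_lit 16) (nat_lit 5) (nat_lit 16) (nat_lit 4) (nat_lit 513) (nat_lit 386) (nat_lit 301))) (XT.nd (nat_lit 78) (nat_lit 0) (nat_lit 0) (XT.lf (nat_lit 0) (nat_lit 74187939246) (nat_lit 76) (nat_lit 31900792469) (nat_lit 76) (nat_lit 26646631163) (nat_lit 15) (nat_lit 4) (nat_lit 16) (nat_lit 5) (nat_lit 16) (nat_lit 4) (nat_lit 514) (nat_lit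 386) (nat_lit 300)) (XT.lf (nat_lit 0) (nat_lit 122916549236) (nat_lit 76) (nat_lit 10304407303) (nat_lit 76) (nat_lit 5046421335) (nat_lit 15) (nat_lit 4) (nat_lit 16) (nat_lit 5) (nat_lit 16) (nat_lit 4) (nat_lit 515) (nat_lit 386) (nat_lit 299))))) (XT.nd (nat_lit 312) (nat_lit 152) (nat_lit 0) (XT.nd (nat_lit 156) (nat_lit 76) (nat_lit 0) (XT.nd (nat_lit 78) (nat_lit 0) (nat_lit 0) (XT.lf (nat_lit 0) (nat_lit 17722408570) (nat_lit 152) (nat_lit 113595835564) (nat_lit 0) (nat_lit 12711333805) (nat_lit 13) (nat_lit 5) (nat_lit 15) (nat_lit 4) (nat_lit 13) (nat_lit 4) (nat_lit 516) (nat_lit 386) (nat_lit 298)) (XT.lf (nat_lit 0) (nat_lit 41862721535) (nat_lit 152) (nat_lit 71344555491) (nat_lit 0) (nat_lit 36848342884) (nat_lit 13) (nat_lit 5) (nat_lit 15) (nat_lit 4) (nat_lit 13) (nat_lit 4) (nat_lit 517) (nat_lit 386) (nat_lit 297))) (XT.nd (nat_lit 78) (nat_lit 76) (nat_lit 0) (XT.lf (nat_lit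 0) (nat_lit 67180977891) (nat_lit 152) (nat_lit 27039987053) (nat_lit 0) (nat_lit 62163452681) (nat_lit 13) (nat_lit 5) (nat_lit 15) (nat_lit 4) (nat_lit 13) (nat_lit 4) (nat_lit 518) (nat_lit 386) (nat_lit 296)) (XT.lf (nat_lit 0) (nat_lit 20065580709) (nat_lit 76) (nat_lit 73985158438) (nat_lit 76) (nat_lit 68964636505) (nat_lit 12) (nat_lit 4) (nat_lit 13) (nat_lit 5) (nat_lit 13) (nat_lit 4) (nat_lit 519) (nat_lit 386) (nat_lit 295)))) (XT.nd (nat_lit 156) (nat_lit 152) (nat_lit 0) (XT.nd (nat_lit 78) (nat_lit 0) (nat_lit 0) (XT.lf (nat_lit 0) (nat_lit 70409651695) (nat_lit 76) (nat_lit 52285035467) (nat_lit 76) (nat_lit 47261659513) (nat_lit 12) (nat_lit 4) (nat_lit 13) (nat_lit 5) (nat_lit 13) (nat_lit 4) (nat_lit 520) (nat_lit 386) (nat_lit 294)) (XT.lf (nat_lit 0) (nat_lit 123218028651) (nat_lit 76) (nat_lit 29526864338) (nat_lit 76) (nat_lit 24500770268) (nat_lit 12) (nat_lit 4) (nat_lit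 13) (nat_lit 5) (nat_lit 13) (nat_lit 4) (nat_lit 521) (nat_lit 386) (nat_lit 293))) (XT.nd (nat_lit 78) (nat_lit 152) (nat_lit 0) (XT.lf (nat_lit 0) (nat_lit 178616445808) (nat_lit 76) (nat_lit 5656458928) (nat_lit 76) (nat_lit 627776177) (nat_lit 12) (nat_lit 4) (nat_lit 13) (nat_lit 5) (nat_lit 13) (nat_lit 4) (nat_lit 522) (nat_lit 386) (nat_lit 292)) (XT.lf (nat_lit 0) (nat_lit 24653367244) (nat_lit 152) (nat_lit 148354371905) (nat_lit 0) (nat_lit 19861797566) (nat_lit 10) (nat_lit 5) (nat_lit 12) (nat_lit 4) (nat_lit 10) (nat_lit 4) (nat_lit 523) (nat_lit 386) (nat_lit 291)))))))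
noncomputable def xc129 : XT := (XT.nd (nat_lit 1248) (nat_lit 228) (nat_lit 0) (XT.nd (nat_lit 624) (nat_lit 76) (nat_lit 0) (XT.nd (nat_lit 312) (nat_lit 152) (nat_lit 0) (XT.nd (nat_lit 156) (nat_lit 76) (nat_lit 0) (XT.nd (nat_lit 78) (nat_lit 0) (nat_lit 0) (XT.lf (nat_lit 0) (nat_lit 51354464537) (nat_lit 152) (nat_lit 103312347858) (nat_lit 0) (nat_lit 46560658659) (nat_lit 10) (nat_lit 5) (nat_lit 12) (nat_lit 4) (nat_lit 10) (nat_lit 4) (nat_lit 524) (nat_lit 386) (nat_lit 290)) (XT.lf (nat_lit 0) (nat_lit 79367849078) (nat_lit 152) (nat_lit 56064677949) (nat_lit 0) (nat_lit 74571913486) (nat_lit 10) (nat_lit 5) (nat_lit 12) (nat_lit 4) (nat_lit 10) (nat_lit 4) (nat_lit 525) (nat_lit 386) (nat_lit 289))) (XT.nd (nat_lit 78) (nat_lit 76) (nat_lit 0) (XT.lf (nat_lit 0) (nat_lit 108760219401) (nat_lit 152) (nat_lit 6498867728) (nat_lit 0) (nat_lit 103962255509) (nat_lit 10) (nat_lit 5) (nat_lit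 12) (nat_lit 4) (nat_lit 10) (nat_lit 4) (nat_lit 526) (nat_lit 386) (nat_lit 288)) (XT.lf (nat_lit 0) (nat_lit 47007634511) (nat_lit 76) (nat_lit 93327843742) (nat_lit 76) (nat_lit 88527948136) (nat_lit 9) (nat_lit 4) (nat_lit 10) (nat_lit 5) (nat_lit 10) (nat_lit 4) (nat_lit 527) (nat_lit 386) (nat_lit 287)))) (XT.nd (nat_lit 156) (nat_lit 152) (nat_lit 0) (XT.nd (nat_lit 78) (nat_lit 0) (nat_lit 0) (XT.lf (nat_lit 0) (nat_lit 103373631131) (nat_lit 76) (nat_lit 70205615607) (nat_lit 76) (nat_lit 65403880273) (nat_lit 9) (nat_lit 4) (nat_lit 10) (nat_lit 5) (nat_lit 10) (nat_lit 4) (nat_lit 528) (nat_lit 386) (nat_lit 286)) (XT.lf (nat_lit 0) (nat_lit 162518444967) (nat_lit 76) (nat_lit 45947411271) (nat_lit 76) (nat_lit 41143923816) (nat_lit 9) (nat_lit 4) (nat_lit 10) (nat_lit 5) (nat_lit 10) (nat_lit 4) (nat_lit 529) (nat_lit 386) (nat_lit 285))) (XT.nd (nat_lit 78) (nat_lit 152) (nat_lit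 0) (XT.lf (nat_lit 0) (nat_lit 224582897004) (nat_lit 76) (nat_lit 20495473105) (nat_lit 76) (nat_lit 15690316962) (nat_lit 9) (nat_lit 4) (nat_lit 10) (nat_lit 5) (nat_lit 10) (nat_lit 4) (nat_lit 530) (nat_lit 386) (nat_lit 284)) (XT.lf (nat_lit 0) (nat_lit 11044313720) (nat_lit 152) (nat_lit 254948071452) (nat_lit 0) (nat_lit 6466460988) (nat_lit 7) (nat_lit 5) (nat_lit 9) (nat_lit 4) (nat_lit 7) (nat_lit 4) (nat_lit 531) (nat_lit 386) (nat_lit 283))))) (XT.nd (nat_lit 312) (nat_lit 76) (nat_lit 0) (XT.nd (nat_lit 156) (nat_lit 0) (nat_lit 0) (XT.nd (nat_lit 78) (nat_lit 0) (nat_lit 0) (XT.lf (nat_lit 0) (nat_lit 39529408514) (nat_lit 152) (nat_lit 210194077974) (nat_lit 0) (nat_lit 34950114308) (nat_lit 7) (nat_lit 5) (nat_lit 9) (nat_lit 4) (nat_lit 7) (nat_lit 4) (nat_lit 532) (nat_lit 386) (nat_lit 282)) (XT.lf (nat_lit 0) (nat_lit 69421775759) (nat_lit 152) (nat_lit 163237057816) (nat_lit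 0) (nat_lit 64841108719) (nat_lit 7) (nat_lit 5) (nat_lit 9) (nat_lit 4) (nat_lit 7) (nat_lit 4) (nat_lit 533) (nat_lit 386) (nat_lit 281))) (XT.nd (nat_lit 78) (nat_lit 0) (nat_lit 0) (XT.lf (nat_lit 0) (nat_lit 100792587757) (nat_lit 152) (nat_lit 113965208547) (nat_lit 0) (nat_lit 96210613257) (nat_lit 7) (nat_lit 5) (nat_lit 9) (nat_lit 4) (nat_lit 7) (nat_lit 4) (nat_lit 534) (nat_lit 386) (nat_lit 280)) (XT.lf (nat_lit 0) (nat_lit 133716536917) (nat_lit 152) (nat_lit 62261216241) (nat_lit 0) (nat_lit 129133317217) (nat_lit 7) (nat_lit 5) (nat_lit 9) (nat_lit 4) (nat_lit 7) (nat_lit 4) (nat_lit 535) (nat_lit 386) (nat_lit 279)))) (XT.nd (nat_lit 156) (nat_lit 0) (nat_lit 0) (XT.nd (nat_lit 78) (nat_lit 76) (nat_lit 0) (XT.lf (nat_lit 0) (nat_lit 168272013595) (nat_lit 152) (nat_lit 8001976154) (nat_lit 0) (nat_lit 163687607990) (nat_lit 7) (nat_lit 5) (nat_lit 9) (nat_lit 4) (nat_lit 7) (nat_lit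 4) (nat_lit 536) (nat_lit 386) (nat_lit 278)) (XT.lf (nat_lit 0) (nat_lit 50559934020) (nat_lit 76) (nat_lit 154770740978) (nat_lit 76) (nat_lit 150185205940) (nat_lit 6) (nat_lit 4) (nat_lit 7) (nat_lit 5) (nat_lit 7) (nat_lit 4) (nat_lit 537) (nat_lit 386) (nat_lit 277))) (XT.nd (nat_lit 78) (nat_lit 0) (nat_lit 0) (XT.lf (nat_lit 0) (nat_lit 112299684780) (nat_lit 76) (nat_lit 132064357781) (nat_lit 76) (nat_lit 127477747092) (nat_lit 6) (nat_lit 4) (nat_lit 7) (nat_lit 5) (nat_lit 7) (nat_lit 4) (nat_lit 538) (nat_lit 386) (nat_lit 276)) (XT.lf (nat_lit 0) (nat_lit 177099694062) (nat_lit 76) (nat_lit 108236294680) (nat_lit 76) (nat_lit 103648659562) (nat_lit 6) (nat_lit 4) (nat_lit 7) (nat_lit 5) (nat_lit 7) (nat_lit 4) (nat_lit 539) (nat_lit 386) (nat_lit 275)))))) (XT.nd (nat_lit 624) (nat_lit 76) (nat_lit 0) (XT.nd (nat_lit 312) (nat_lit 0) (nat_lit 0) (XT.nd (nat_lit 156) (nat_lit 152)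 (nat_lit 0) (XT.nd (nat_lit 78) (nat_lit 0) (nat_lit 0) (XT.lf (nat_lit 0) (nat_lit 245114247602) (nat_lit 76) (nat_lit 83229818191) (nat_lit 76) (nat_lit 78641207426) (nat_lit 6) (nat_lit 4) (nat_lit 7) (nat_lit 5) (nat_lit 7) (nat_lit 4) (nat_lit 540) (nat_lit 386) (nat_lit 274)) (XT.lf (nat_lit 0) (nat_lit 316505284812) (nat_lit 76) (nat_lit 56985389084) (nat_lit 76) (nat_lit 52395849132) (nat_lit 6) (nat_lit 4) (nat_lit 7) (nat_lit 5) (nat_lit 7) (nat_lit 4) (nat_lit 541) (nat_lit 386) (nat_lit 273))) (XT.nd (nat_lit 78) (nat_lit 152) (nat_lit 0) (XT.lf (nat_lit 0) (nat_lit 391442784354) (nat_lit 76) (nat_lit 29440520624) (nat_lit 76) (nat_lit 24850095732) (nat_lit 6) (nat_lit 4) (nat_lit 7) (nat_lit 5) (nat_lit 7) (nat_lit 4) (nat_lit 542) (nat_lit 386) (nat_lit 272)) (XT.lf (nat_lit 0) (nat_lit 3583281962) (nat_lit 76) (nat_lit 404303235) (nat_lit 152) (nat_lit 462579607605) (nat_lit 4) (nat_lit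 5) (nat_lit 5) (nat_lit 5) (nat_lit 6) (nat_lit 4) (nat_lit 543) (nat_lit 386) (nat_lit 271)))) (XT.nd (nat_lit 156) (nat_lit 0) (nat_lit 0) (XT.nd (nat_lit 78) (nat_lit 0) (nat_lit 0) (XT.lf (nat_lit 0) (nat_lit 34825282977) (nat_lit 152) (nat_lit 423075477014) (nat_lit 0) (nat_lit 30451882635) (nat_lit 4) (nat_lit 5) (nat_lit 6) (nat_lit 4) (nat_lit 4) (nat_lit 4) (nat_lit 544) (nat_lit 386) (nat_lit 270)) (XT.lf (nat_lit 0) (nat_lit 67201071764) (nat_lit 152) (nat_lit 381199539500) (nat_lit 0) (nat_lit 62826943379) (nat_lit 4) (nat_lit 5) (nat_lit 6) (nat_lit 4) (nat_lit 4) (nat_lit 4) (nat_lit 545) (nat_lit 386) (nat_lit 269))) (XT.nd (nat_lit 78) (nat_lit 0) (nat_lit 0) (XT.lf (nat_lit 0) (nat_lit 101185724463) (nat_lit 152) (nat_lit 337250081379) (nat_lit 0) (nat_lit 96810902703) (nat_lit 4) (nat_lit 5) (nat_lit 6) (nat_lit 4) (nat_lit 4) (nat_lit 4) (nat_lit 546) (nat_lit 386) (nat_lit 268))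 (XT.lf (nat_lit 0) (nat_lit 136860156912) (nat_lit 152) (nat_lit 291122461083) (nat_lit 0) (nat_lit 132484674797) (nat_lit 4) (nat_lit 5) (nat_lit 6) (nat_lit 4) (nat_lit 4) (nat_lit 4) (nat_lit 547) (nat_lit 386) (nat_lit 267))))) (XT.nd (nat_lit 312) (nat_lit 76) (nat_lit 0) (XT.nd (nat_lit 156) (nat_lit 0) (nat_lit 0) (XT.nd (nat_lit 78) (nat_lit 0) (nat_lit 0) (XT.lf (nat_lit 0) (nat_lit 174309308238) (nat_lit 152) (nat_lit 242706850946) (nat_lit 0) (nat_lit 169933197212) (nat_lit 4) (nat_lit 5) (nat_lit 6) (nat_lit 4) (nat_lit 4) (nat_lit 4) (nat_lit 548) (nat_lit 386) (nat_lit 266)) (XT.lf (nat_lit 0) (nat_lit 213622343086) (nat_lit 152) (nat_lit 191887975705) (nat_lit 0) (nat_lit 209245633097) (nat_lit 4) (nat_lit 5) (nat_lit 6) (nat_lit 4) (nat_lit 4) (nat_lit 4) (nat_lit 549) (nat_lit 386) (nat_lit 265))) (XT.nd (nat_lit 78) (nat_lit 0) (nat_lit 0) (XT.lf (nat_lit 0) (nat_lit 254892863920)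 (nat_lit 152) (nat_lit 138544838039) (nat_lit 0) (nat_lit 250515583491) (nat_lit 4) (nat_lit 5) (nat_lit 6) (nat_lit 4) (nat_lit 4) (nat_lit 4) (nat_lit 550) (nat_lit 386) (nat_lit 264)) (XT.lf (nat_lit 0) (nat_lit 298219133885) (nat_lit 152) (nat_lit 82550430475) (nat_lit 0) (nat_lit 293841310179) (nat_lit 4) (nat_lit 5) (nat_lit 6) (nat_lit 4) (nat_lit 4) (nat_lit 4) (nat_lit 551) (nat_lit 386) (nat_lit 263)))) (XT.nd (nat_lit 156) (nat_lit 0) (nat_lit 0) (XT.nd (nat_lit 78) (nat_lit 76) (nat_lit 0) (XT.lf (nat_lit 0) (nat_lit 343704310766) (nat_lit 152) (nat_lit 23771432998) (nat_lit 0) (nat_lit 339325969654) (nat_lit 4) (nat_lit 5) (nat_lit 6) (nat_lit 4) (nat_lit 4) (nat_lit 4) (nat_lit 552) (nat_lit 386) (nat_lit 262)) (XT.lf (nat_lit 0) (nat_lit 39186311065) (nat_lit 76) (nat_lit 352882189674) (nat_lit 76) (nat_lit 348503355794) (nat_lit 3) (nat_lit 4) (nat_lit 4) (nat_lit 5) (nat_lit 4)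 (nat_lit 4) (nat_lit 553) (nat_lit 386) (nat_lit 261))) (XT.nd (nat_lit 78) (nat_lit 0) (nat_lit 0) (XT.lf (nat_lit 0) (nat_lit 106103055261) (nat_lit 76) (nat_lit 337143486331) (nat_lit 76) (nat_lit 332764183148) (nat_lit 3) (nat_lit 4) (nat_lit 4) (nat_lit 5) (nat_lit 4) (nat_lit 4) (nat_lit 554) (nat_lit 386) (nat_lit 260)) (XT.nd (nat_lit 78) (nat_lit 0) (nat_lit 0) (XT.lf (nat_lit 0) (nat_lit 176352134242) (nat_lit 76) (nat_lit 320624741351) (nat_lit 76) (nat_lit 316244991213) (nat_lit 3) (nat_lit 4) (nat_lit 4) (nat_lit 5) (nat_lit 4) (nat_lit 4) (nat_lit 555) (nat_lit 386) (nat_lit 259)) (XT.lf (nat_lit 0) (nat_lit 250100807719) (nat_lit 76) (nat_lit 303286624390) (nat_lit 76) (nat_lit 298906448580) (nat_lit 3) (nat_lit 4) (nat_lit 4) (nat_lit 5) (nat_lit 4) (nat_lit 4) (nat_lit 556) (nat_lit 386) (nat_lit 258))))))))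
noncomputable def xc130 : XT := (XT.nd (nat_lit 1248) (nat_lit 1824) (nat_lit 0) (XT.nd (nat_lit 624) (nat_lit 1368) (nat_lit 0) (XT.nd (nat_lit 312) (nat_lit 912) (nat_lit 0) (XT.nd (nat_lit 156) (nat_lit 304) (nat_lit 0) (XT.nd (nat_lit 78) (nat_lit 304) (nat_lit 0) (XT.lf (nat_lit 0) (nat_lit 718521441) (nat_lit 304) (nat_lit 2766031729) (nat_lit 0) (nat_lit 718521441) (nat_lit 123) (nat_lit 5) (nat_lit 127) (nat_lit 4) (nat_lit 123) (nat_lit 4) (nat_lit 426) (nat_lit 387) (nat_lit 387)) (XT.lf (nat_lit 0) (nat_lit 1737484526) (nat_lit 304) (nat_lit 3935568947) (nat_lit 304) (nat_lit 2889976580) (nat_lit 119) (nat_lit 4) (nat_lit 123) (nat_lit 5) (nat_lit 123) (nat_lit 4) (nat_lit 427) (nat_lit 387) (nat_lit 386))) (XT.nd (nat_lit 78) (nat_lit 0) (nat_lit 0) (XT.lf (nat_lit 0) (nat_lit 585602574) (nat_lit 228) (nat_lit 695859472) (nat_lit 304) (nat_lit 7448568082) (nat_lit 115) (nat_lit 5) (nat_lit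 118) (nat_lit 5) (nat_lit 119) (nat_lit 4) (nat_lit 428) (nat_lit 387) (nat_lit 385)) (XT.lf (nat_lit 0) (nat_lit 5555769967) (nat_lit 304) (nat_lit 639317105) (nat_lit 0) (nat_lit 2708362612) (nat_lit 115) (nat_lit 5) (nat_lit 119) (nat_lit 4) (nat_lit 115) (nat_lit 4) (nat_lit 429) (nat_lit 387) (nat_lit 384)))) (XT.nd (nat_lit 156) (nat_lit 456) (nat_lit 0) (XT.nd (nat_lit 78) (nat_lit 152) (nat_lit 0) (XT.lf (nat_lit 0) (nat_lit 890817915) (nat_lit 304) (nat_lit 1881442055) (nat_lit 76) (nat_lit 6314378872) (nat_lit 111) (nat_lit 5) (nat_lit 115) (nat_lit 5) (nat_lit 112) (nat_lit 4) (nat_lit 430) (nat_lit 387) (nat_lit 383)) (XT.lf (nat_lit 0) (nat_lit 5189961777) (nat_lit 228) (nat_lit 3209569291) (nat_lit 0) (nat_lit 878659146) (nat_lit 109) (nat_lit 5) (nat_lit 112) (nat_lit 4) (nat_lit 109) (nat_lit 4) (nat_lit 431) (nat_lit 387) (nat_lit 382))) (XT.nd (nat_lit 78) (nat_lit 152) (nat_lit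 0) (XT.lf (nat_lit 0) (nat_lit 214984819) (nat_lit 304) (nat_lit 4613666725) (nat_lit 76) (nat_lit 4650627725) (nat_lit 105) (nat_lit 5) (nat_lit 109) (nat_lit 5) (nat_lit 106) (nat_lit 4) (nat_lit 432) (nat_lit 387) (nat_lit 381)) (XT.lf (nat_lit 0) (nat_lit 3568995863) (nat_lit 152) (nat_lit 982750253) (nat_lit 228) (nat_lit 5137543649) (nat_lit 103) (nat_lit 5) (nat_lit 105) (nat_lit 5) (nat_lit 106) (nat_lit 4) (nat_lit 433) (nat_lit 387) (nat_lit 380))))) (XT.nd (nat_lit 312) (nat_lit 684) (nat_lit 0) (XT.nd (nat_lit 156) (nat_lit 228) (nat_lit 0) (XT.nd (nat_lit 78) (nat_lit 228) (nat_lit 0) (XT.lf (nat_lit 0) (nat_lit 2188309933) (nat_lit 228) (nat_lit 6925341942) (nat_lit 228) (nat_lit 795740191) (nat_lit 100) (nat_lit 4) (nat_lit 103) (nat_lit 5) (nat_lit 103) (nat_lit 4) (nat_lit 434) (nat_lit 387) (nat_lit 379)) (XT.lf (nat_lit 0) (nat_lit 686052908) (nat_lit 152) (nat_lit 2936869463)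 (nat_lit 228) (nat_lit 6515634762) (nat_lit 97) (nat_lit 5) (nat_lit 99) (nat_lit 5) (nat_lit 100) (nat_lit 4) (nat_lit 435) (nat_lit 387) (nat_lit 378))) (XT.nd (nat_lit 78) (nat_lit 228) (nat_lit 0) (XT.lf (nat_lit 0) (nat_lit 8238164101) (nat_lit 228) (nat_lit 876527161) (nat_lit 0) (nat_lit 1263723237) (nat_lit 97) (nat_lit 5) (nat_lit 100) (nat_lit 4) (nat_lit 97) (nat_lit 4) (nat_lit 436) (nat_lit 387) (nat_lit 377)) (XT.lf (nat_lit 0) (nat_lit 2407592587) (nat_lit 228) (nat_lit 2566971255) (nat_lit 76) (nat_lit 5652178967) (nat_lit 94) (nat_lit 5) (nat_lit 97) (nat_lit 5) (nat_lit 95) (nat_lit 4) (nat_lit 437) (nat_lit 387) (nat_lit 376)))) (XT.nd (nat_lit 156) (nat_lit 304) (nat_lit 0) (XT.nd (nat_lit 78) (nat_lit 228) (nat_lit 0) (XT.lf (nat_lit 0) (nat_lit 6520254149) (nat_lit 152) (nat_lit 565471712) (nat_lit 228) (nat_lit 3801271065) (nat_lit 92) (nat_lit 5) (nat_lit 94) (nat_lit 5)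 (nat_lit 95) (nat_lit 4) (nat_lit 438) (nat_lit 387) (nat_lit 375)) (XT.lf (nat_lit 0) (nat_lit 854143098) (nat_lit 228) (nat_lit 6329465483) (nat_lit 76) (nat_lit 3973833529) (nat_lit 89) (nat_lit 5) (nat_lit 92) (nat_lit 5) (nat_lit 90) (nat_lit 4) (nat_lit 439) (nat_lit 387) (nat_lit 374))) (XT.nd (nat_lit 78) (nat_lit 152) (nat_lit 0) (XT.lf (nat_lit 0) (nat_lit 2976815238) (nat_lit 152) (nat_lit 2628911249) (nat_lit 228) (nat_lit 5833014218) (nat_lit 87) (nat_lit 5) (nat_lit 89) (nat_lit 5) (nat_lit 90) (nat_lit 4) (nat_lit 440) (nat_lit 387) (nat_lit 373)) (XT.lf (nat_lit 0) (nat_lit 992446688) (nat_lit 152) (nat_lit 9622101445) (nat_lit 152) (nat_lit 1118577192) (nat_lit 85) (nat_lit 4) (nat_lit 87) (nat_lit 5) (nat_lit 87) (nat_lit 4) (nat_lit 441) (nat_lit 387) (nat_lit 372)))))) (XT.nd (nat_lit 624) (nat_lit 836) (nat_lit 0) (XT.nd (nat_lit 312) (nat_lit 532) (nat_lit 0) (XT.nd (nat_lit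 156) (nat_lit 304) (nat_lit 0) (XT.nd (nat_lit 78) (nat_lit 76) (nat_lit 0) (XT.lf (nat_lit 0) (nat_lit 3759918884) (nat_lit 228) (nat_lit 1170997936) (nat_lit 76) (nat_lit 7105776358) (nat_lit 84) (nat_lit 5) (nat_lit 87) (nat_lit 5) (nat_lit 85) (nat_lit 4) (nat_lit 442) (nat_lit 387) (nat_lit 371)) (XT.lf (nat_lit 0) (nat_lit 8853586157) (nat_lit 152) (nat_lit 3443356863) (nat_lit 0) (nat_lit 57141141) (nat_lit 83) (nat_lit 5) (nat_lit 85) (nat_lit 4) (nat_lit 83) (nat_lit 4) (nat_lit 443) (nat_lit 387) (nat_lit 370))) (XT.nd (nat_lit 78) (nat_lit 76) (nat_lit 0) (XT.lf (nat_lit 0) (nat_lit 1543673724) (nat_lit 228) (nat_lit 5956118520) (nat_lit 76) (nat_lit 5182495371) (nat_lit 80) (nat_lit 5) (nat_lit 83) (nat_lit 5) (nat_lit 81) (nat_lit 4) (nat_lit 444) (nat_lit 387) (nat_lit 369)) (XT.lf (nat_lit 0) (nat_lit 4346498983) (nat_lit 76) (nat_lit 2373459535) (nat_lit 152) (nat_lit 6304199278)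 (nat_lit 79) (nat_lit 5) (nat_lit 80) (nat_lit 5) (nat_lit 81) (nat_lit 4) (nat_lit 445) (nat_lit 387) (nat_lit 368)))) (XT.nd (nat_lit 156) (nat_lit 304) (nat_lit 0) (XT.nd (nat_lit 78) (nat_lit 76) (nat_lit 0) (XT.lf (nat_lit 0) (nat_lit 1765861495) (nat_lit 152) (nat_lit 10437648293) (nat_lit 152) (nat_lit 1177191964) (nat_lit 77) (nat_lit 4) (nat_lit 79) (nat_lit 5) (nat_lit 79) (nat_lit 4) (nat_lit 446) (nat_lit 387) (nat_lit 367)) (XT.lf (nat_lit 0) (nat_lit 4131643291) (nat_lit 228) (nat_lit 1057311542) (nat_lit 76) (nat_lit 8559832127) (nat_lit 76) (nat_lit 5) (nat_lit 79) (nat_lit 5) (nat_lit 77) (nat_lit 4) (nat_lit 447) (nat_lit 387) (nat_lit 366))) (XT.nd (nat_lit 78) (nat_lit 228) (nat_lit 0) (XT.lf (nat_lit 0) (nat_lit 9708439740) (nat_lit 152) (nat_lit 4030762015) (nat_lit 0) (nat_lit 393008208) (nat_lit 75) (nat_lit 5) (nat_lit 77) (nat_lit 4) (nat_lit 75) (nat_lit 4) (nat_lit 448)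 (nat_lit 387) (nat_lit 365)) (XT.lf (nat_lit 0) (nat_lit 1092942862) (nat_lit 228) (nat_lit 7305304848) (nat_lit 76) (nat_lit 6130924466) (nat_lit 72) (nat_lit 5) (nat_lit 75) (nat_lit 5) (nat_lit 73) (nat_lit 4) (nat_lit 449) (nat_lit 387) (nat_lit 364))))) (XT.nd (nat_lit 312) (nat_lit 456) (nat_lit 0) (XT.nd (nat_lit 156) (nat_lit 152) (nat_lit 0) (XT.nd (nat_lit 78) (nat_lit 152) (nat_lit 0) (XT.lf (nat_lit 0) (nat_lit 4069837013) (nat_lit 76) (nat_lit 2678996739) (nat_lit 152) (nat_lit 8192924365) (nat_lit 71) (nat_lit 5) (nat_lit 72) (nat_lit 5) (nat_lit 73) (nat_lit 4) (nat_lit 450) (nat_lit 387) (nat_lit 363)) (XT.lf (nat_lit 0) (nat_lit 638995659) (nat_lit 152) (nat_lit 12115950566) (nat_lit 152) (nat_lit 2616657822) (nat_lit 69) (nat_lit 4) (nat_lit 71) (nat_lit 5) (nat_lit 71) (nat_lit 4) (nat_lit 451) (nat_lit 387) (nat_lit 362))) (XT.nd (nat_lit 78) (nat_lit 76) (nat_lit 0) (XT.lf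 (nat_lit 0) (nat_lit 3245918430) (nat_lit 228) (nat_lit 3034715700) (nat_lit 76) (nat_lit 9534224654) (nat_lit 68) (nat_lit 5) (nat_lit 71) (nat_lit 5) (nat_lit 69) (nat_lit 4) (nat_lit 452) (nat_lit 387) (nat_lit 361)) (XT.lf (nat_lit 0) (nat_lit 9286802612) (nat_lit 76) (nat_lit 57675616) (nat_lit 152) (nat_lit 6932115414) (nat_lit 67) (nat_lit 5) (nat_lit 68) (nat_lit 5) (nat_lit 69) (nat_lit 4) (nat_lit 453) (nat_lit 387) (nat_lit 360)))) (XT.nd (nat_lit 156) (nat_lit 228) (nat_lit 0) (XT.nd (nat_lit 78) (nat_lit 152) (nat_lit 0) (XT.lf (nat_lit 0) (nat_lit 5426458179) (nat_lit 76) (nat_lit 10445944831) (nat_lit 76) (nat_lit 882792069) (nat_lit 66) (nat_lit 4) (nat_lit 67) (nat_lit 5) (nat_lit 67) (nat_lit 4) (nat_lit 454) (nat_lit 387) (nat_lit 359)) (XT.lf (nat_lit 0) (nat_lit 1187684675) (nat_lit 76) (nat_lit 4132698452) (nat_lit 152) (nat_lit 11931754279) (nat_lit 64) (nat_lit 5) (nat_lit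 65) (nat_lit 5) (nat_lit 66) (nat_lit 4) (nat_lit 455) (nat_lit 387) (nat_lit 358))) (XT.nd (nat_lit 78) (nat_lit 228) (nat_lit 0) (XT.lf (nat_lit 0) (nat_lit 11925135509) (nat_lit 152) (nat_lit 3314615213) (nat_lit 0) (nat_lit 2527399682) (nat_lit 64) (nat_lit 5) (nat_lit 66) (nat_lit 4) (nat_lit 64) (nat_lit 4) (nat_lit 456) (nat_lit 387) (nat_lit 357)) (XT.nd (nat_lit 78) (nat_lit 76) (nat_lit 0) (XT.lf (nat_lit 0) (nat_lit 654748199) (nat_lit 152) (nat_lit 8190215741) (nat_lit 76) (nat_lit 9456509802) (nat_lit 62) (nat_lit 5) (nat_lit 64) (nat_lit 5) (nat_lit 63) (nat_lit 4) (nat_lit 457) (nat_lit 387) (nat_lit 356)) (XT.lf (nat_lit 0) (nat_lit 5330912108) (nat_lit 76) (nat_lit 1982092986) (nat_lit 152) (nat_lit 11543071592) (nat_lit 61) (nat_lit 5) (nat_lit 62) (nat_lit 5) (nat_lit 63) (nat_lit 4) (nat_lit 458) (nat_lit 387) (nat_lit 355))))))))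
noncomputable def xc131 : XT := (XT.nd (nat_lit 1248) (nat_lit 1140) (nat_lit 0) (XT.nd (nat_lit 624) (nat_lit 608) (nat_lit 0) (XT.nd (nat_lit 312) (nat_lit 304) (nat_lit 0) (XT.nd (nat_lit 156) (nat_lit 152) (nat_lit 0) (XT.nd (nat_lit 78) (nat_lit 76) (nat_lit 0) (XT.lf (nat_lit 0) (nat_lit 92891050) (nat_lit 76) (nat_lit 14328374436) (nat_lit 76) (nat_lit 5011290954) (nat_lit 60) (nat_lit 4) (nat_lit 61) (nat_lit 5) (nat_lit 61) (nat_lit 4) (nat_lit 459) (nat_lit 387) (nat_lit 354)) (XT.lf (nat_lit 0) (nat_lit 1946550489) (nat_lit 152) (nat_lit 5437484293) (nat_lit 76) (nat_lit 12644455091) (nat_lit 59) (nat_lit 5) (nat_lit 61) (nat_lit 5) (nat_lit 60) (nat_lit 4) (nat_lit 460) (nat_lit 387) (nat_lit 353))) (XT.nd (nat_lit 78) (nat_lit 76) (nat_lit 0) (XT.lf (nat_lit 0) (nat_lit 9126221246) (nat_lit 152) (nat_lit 11475043453) (nat_lit 0) (nat_lit 46731222) (nat_lit 58) (nat_lit 5) (nat_lit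 60) (nat_lit 4) (nat_lit 58) (nat_lit 4) (nat_lit 461) (nat_lit 387) (nat_lit 352)) (XT.lf (nat_lit 0) (nat_lit 3190514797) (nat_lit 76) (nat_lit 13637517096) (nat_lit 76) (nat_lit 4462288544) (nat_lit 57) (nat_lit 4) (nat_lit 58) (nat_lit 5) (nat_lit 58) (nat_lit 4) (nat_lit 462) (nat_lit 387) (nat_lit 351)))) (XT.nd (nat_lit 156) (nat_lit 152) (nat_lit 0) (XT.nd (nat_lit 78) (nat_lit 76) (nat_lit 0) (XT.lf (nat_lit 0) (nat_lit 2952119181) (nat_lit 152) (nat_lit 3214563781) (nat_lit 76) (nat_lit 15790957527) (nat_lit 56) (nat_lit 5) (nat_lit 58) (nat_lit 5) (nat_lit 57) (nat_lit 4) (nat_lit 463) (nat_lit 387) (nat_lit 350)) (XT.lf (nat_lit 0) (nat_lit 10716137091) (nat_lit 152) (nat_lit 10123806117) (nat_lit 0) (nat_lit 1808283975) (nat_lit 55) (nat_lit 5) (nat_lit 57) (nat_lit 4) (nat_lit 55) (nat_lit 4) (nat_lit 464) (nat_lit 387) (nat_lit 349))) (XT.nd (nat_lit 78) (nat_lit 76) (nat_lit 0)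 (XT.lf (nat_lit 0) (nat_lit 5682367314) (nat_lit 76) (nat_lit 13335070038) (nat_lit 76) (nat_lit 4348452597) (nat_lit 54) (nat_lit 4) (nat_lit 55) (nat_lit 5) (nat_lit 55) (nat_lit 4) (nat_lit 465) (nat_lit 387) (nat_lit 348)) (XT.lf (nat_lit 0) (nat_lit 3577009946) (nat_lit 152) (nat_lit 1728760692) (nat_lit 76) (nat_lit 18806928155) (nat_lit 53) (nat_lit 5) (nat_lit 55) (nat_lit 5) (nat_lit 54) (nat_lit 4) (nat_lit 466) (nat_lit 387) (nat_lit 347))))) (XT.nd (nat_lit 312) (nat_lit 304) (nat_lit 0) (XT.nd (nat_lit 156) (nat_lit 152) (nat_lit 0) (XT.nd (nat_lit 78) (nat_lit 76) (nat_lit 0) (XT.lf (nat_lit 0) (nat_lit 11951987436) (nat_lit 152) (nat_lit 9677505110) (nat_lit 0) (nat_lit 3253823010) (nat_lit 52) (nat_lit 5) (nat_lit 54) (nat_lit 4) (nat_lit 52) (nat_lit 4) (nat_lit 467) (nat_lit 387) (nat_lit 346)) (XT.lf (nat_lit 0) (nat_lit 7322840123) (nat_lit 76) (nat_lit 13562795812) (nat_lit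 76) (nat_lit 4799831781) (nat_lit 51) (nat_lit 4) (nat_lit 52) (nat_lit 5) (nat_lit 52) (nat_lit 4) (nat_lit 468) (nat_lit 387) (nat_lit 345))) (XT.nd (nat_lit 78) (nat_lit 76) (nat_lit 0) (XT.lf (nat_lit 0) (nat_lit 3694130326) (nat_lit 152) (nat_lit 1251710770) (nat_lit 76) (nat_lit 21575191877) (nat_lit 50) (nat_lit 5) (nat_lit 52) (nat_lit 5) (nat_lit 51) (nat_lit 4) (nat_lit 469) (nat_lit 387) (nat_lit 344)) (XT.lf (nat_lit 0) (nat_lit 12698690928) (nat_lit 152) (nat_lit 10445132128) (nat_lit 0) (nat_lit 4238259412) (nat_lit 49) (nat_lit 5) (nat_lit 51) (nat_lit 4) (nat_lit 49) (nat_lit 4) (nat_lit 470) (nat_lit 387) (nat_lit 343)))) (XT.nd (nat_lit 156) (nat_lit 152) (nat_lit 0) (XT.nd (nat_lit 78) (nat_lit 76) (nat_lit 0) (XT.lf (nat_lit 0) (nat_lit 7789349001) (nat_lit 76) (nat_lit 14501846256) (nat_lit 76) (nat_lit 5988103945) (nat_lit 48) (nat_lit 4) (nat_lit 49) (nat_lit 5) (nat_lit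 49) (nat_lit 4) (nat_lit 471) (nat_lit 387) (nat_lit 342)) (XT.lf (nat_lit 0) (nat_lit 3134741055) (nat_lit 152) (nat_lit 2138295333) (nat_lit 76) (nat_lit 23941220401) (nat_lit 47) (nat_lit 5) (nat_lit 49) (nat_lit 5) (nat_lit 48) (nat_lit 4) (nat_lit 472) (nat_lit 387) (nat_lit 341))) (XT.nd (nat_lit 78) (nat_lit 76) (nat_lit 0) (XT.lf (nat_lit 0) (nat_lit 12776009315) (nat_lit 152) (nat_lit 12828592131) (nat_lit 0) (nat_lit 4573276972) (nat_lit 46) (nat_lit 5) (nat_lit 48) (nat_lit 4) (nat_lit 46) (nat_lit 4) (nat_lit 473) (nat_lit 387) (nat_lit 340)) (XT.lf (nat_lit 0) (nat_lit 6659775182) (nat_lit 76) (nat_lit 16384622417) (nat_lit 76) (nat_lit 8138031151) (nat_lit 45) (nat_lit 4) (nat_lit 46) (nat_lit 5) (nat_lit 46) (nat_lit 4) (nat_lit 474) (nat_lit 387) (nat_lit 339)))))) (XT.nd (nat_lit 624) (nat_lit 532) (nat_lit 0) (XT.nd (nat_lit 312) (nat_lit 380) (nat_lit 0) (XT.nd (nat_lit 156)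 (nat_lit 76) (nat_lit 0) (XT.nd (nat_lit 78) (nat_lit 76) (nat_lit 0) (XT.lf (nat_lit 0) (nat_lit 1676859524) (nat_lit 152) (nat_lit 4850799644) (nat_lit 76) (nat_lit 25701371468) (nat_lit 44) (nat_lit 5) (nat_lit 46) (nat_lit 5) (nat_lit 45) (nat_lit 4) (nat_lit 475) (nat_lit 387) (nat_lit 338)) (XT.lf (nat_lit 0) (nat_lit 11945799791) (nat_lit 152) (nat_lit 17349417859) (nat_lit 0) (nat_lit 4014235024) (nat_lit 43) (nat_lit 5) (nat_lit 45) (nat_lit 4) (nat_lit 43) (nat_lit 4) (nat_lit 476) (nat_lit 387) (nat_lit 337))) (XT.nd (nat_lit 78) (nat_lit 0) (nat_lit 0) (XT.lf (nat_lit 0) (nat_lit 3383631185) (nat_lit 76) (nat_lit 19509824589) (nat_lit 76) (nat_lit 11542176977) (nat_lit 42) (nat_lit 4) (nat_lit 43) (nat_lit 5) (nat_lit 43) (nat_lit 4) (nat_lit 477) (nat_lit 387) (nat_lit 336)) (XT.lf (nat_lit 0) (nat_lit 25601846775) (nat_lit 76) (nat_lit 9003717085) (nat_lit 76) (nat_lit 1001704859)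 (nat_lit 42) (nat_lit 4) (nat_lit 43) (nat_lit 5) (nat_lit 43) (nat_lit 4) (nat_lit 478) (nat_lit 387) (nat_lit 335)))) (XT.nd (nat_lit 156) (nat_lit 228) (nat_lit 0) (XT.nd (nat_lit 78) (nat_lit 0) (nat_lit 0) (XT.lf (nat_lit 0) (nat_lit 9895631913) (nat_lit 152) (nat_lit 24682898501) (nat_lit 0) (nat_lit 2243498171) (nat_lit 40) (nat_lit 5) (nat_lit 42) (nat_lit 4) (nat_lit 40) (nat_lit 4) (nat_lit 479) (nat_lit 387) (nat_lit 334)) (XT.lf (nat_lit 0) (nat_lit 21549805044) (nat_lit 152) (nat_lit 2666633111) (nat_lit 0) (nat_lit 13867985856) (nat_lit 40) (nat_lit 5) (nat_lit 42) (nat_lit 4) (nat_lit 40) (nat_lit 4) (nat_lit 480) (nat_lit 387) (nat_lit 333))) (XT.nd (nat_lit 78) (nat_lit 152) (nat_lit 0) (XT.lf (nat_lit 0) (nat_lit 20979980473) (nat_lit 76) (nat_lit 13063602627) (nat_lit 76) (nat_lit 5353511586) (nat_lit 39) (nat_lit 4) (nat_lit 40) (nat_lit 5) (nat_lit 40) (nat_lit 4) (nat_lit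 481) (nat_lit 387) (nat_lit 332)) (XT.lf (nat_lit 0) (nat_lit 5047458712) (nat_lit 76) (nat_lit 1188870715) (nat_lit 152) (nat_lit 34531379505) (nat_lit 37) (nat_lit 5) (nat_lit 38) (nat_lit 5) (nat_lit 39) (nat_lit 4) (nat_lit 482) (nat_lit 387) (nat_lit 331))))) (XT.nd (nat_lit 312) (nat_lit 304) (nat_lit 0) (XT.nd (nat_lit 156) (nat_lit 152) (nat_lit 0) (XT.nd (nat_lit 78) (nat_lit 76) (nat_lit 0) (XT.lf (nat_lit 0) (nat_lit 18648340506) (nat_lit 152) (nat_lit 12277664992) (nat_lit 0) (nat_lit 11255330964) (nat_lit 37) (nat_lit 5) (nat_lit 39) (nat_lit 4) (nat_lit 37) (nat_lit 4) (nat_lit 483) (nat_lit 387) (nat_lit 330)) (XT.lf (nat_lit 0) (nat_lit 12585040305) (nat_lit 76) (nat_lit 19244716957) (nat_lit 76) (nat_lit 11828448091) (nat_lit 36) (nat_lit 4) (nat_lit 37) (nat_lit 5) (nat_lit 37) (nat_lit 4) (nat_lit 484) (nat_lit 387) (nat_lit 329))) (XT.nd (nat_lit 78) (nat_lit 76) (nat_lit 0)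 (XT.lf (nat_lit 0) (nat_lit 590763362) (nat_lit 152) (nat_lit 6227355708) (nat_lit 76) (nat_lit 38383228626) (nat_lit 35) (nat_lit 5) (nat_lit 37) (nat_lit 5) (nat_lit 36) (nat_lit 4) (nat_lit 485) (nat_lit 387) (nat_lit 328)) (XT.lf (nat_lit 0) (nat_lit 13589206611) (nat_lit 152) (nat_lit 26720051836) (nat_lit 0) (nat_lit 6484904236) (nat_lit 34) (nat_lit 5) (nat_lit 36) (nat_lit 4) (nat_lit 34) (nat_lit 4) (nat_lit 486) (nat_lit 387) (nat_lit 327)))) (XT.nd (nat_lit 156) (nat_lit 228) (nat_lit 0) (XT.nd (nat_lit 78) (nat_lit 76) (nat_lit 0) (XT.lf (nat_lit 0) (nat_lit 27392664179) (nat_lit 152) (nat_lit 796973528) (nat_lit 0) (nat_lit 20269226301) (nat_lit 34) (nat_lit 5) (nat_lit 36) (nat_lit 4) (nat_lit 34) (nat_lit 4) (nat_lit 487) (nat_lit 387) (nat_lit 326)) (XT.lf (nat_lit 0) (nat_lit 27169000790) (nat_lit 76) (nat_lit 15080647148) (nat_lit 76) (nat_lit 7938984981) (nat_lit 33) (nat_lit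 4) (nat_lit 34) (nat_lit 5) (nat_lit 34) (nat_lit 4) (nat_lit 488) (nat_lit 387) (nat_lit 325))) (XT.nd (nat_lit 78) (nat_lit 76) (nat_lit 0) (XT.lf (nat_lit 0) (nat_lit 4485969934) (nat_lit 76) (nat_lit 1194512293) (nat_lit 152) (nat_lit 46318697948) (nat_lit 31) (nat_lit 5) (nat_lit 32) (nat_lit 5) (nat_lit 33) (nat_lit 4) (nat_lit 489) (nat_lit 387) (nat_lit 324)) (XT.nd (nat_lit 78) (nat_lit 76) (nat_lit 0) (XT.lf (nat_lit 0) (nat_lit 20258604570) (nat_lit 152) (nat_lit 20183170071) (nat_lit 0) (nat_lit 13424748762) (nat_lit 31) (nat_lit 5) (nat_lit 33) (nat_lit 4) (nat_lit 31) (nat_lit 4) (nat_lit 490) (nat_lit 387) (nat_lit 323)) (XT.lf (nat_lit 0) (nat_lit 8653696231) (nat_lit 76) (nat_lit 27008772454) (nat_lit 76) (nat_lit 20159923478) (nat_lit 30) (nat_lit 4) (nat_lit 31) (nat_lit 5) (nat_lit 31) (nat_lit 4) (nat_lit 491) (nat_lit 387) (nat_lit 322))))))))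
noncomputable def xc132 : XT := (XT.nd (nat_lit 1248) (nat_lit 684) (nat_lit 0) (XT.nd (nat_lit 624) (nat_lit 380) (nat_lit 0) (XT.nd (nat_lit 312) (nat_lit 228) (nat_lit 0) (XT.nd (nat_lit 156) (nat_lit 76) (nat_lit 0) (XT.nd (nat_lit 78) (nat_lit 152) (nat_lit 0) (XT.lf (nat_lit 0) (nat_lit 39517942070) (nat_lit 76) (nat_lit 12603497472) (nat_lit 76) (nat_lit 5740369290) (nat_lit 30) (nat_lit 4) (nat_lit 31) (nat_lit 5) (nat_lit 31) (nat_lit 4) (nat_lit 492) (nat_lit 387) (nat_lit 321)) (XT.lf (nat_lit 0) (nat_lit 9276334295) (nat_lit 152) (nat_lit 47983602170) (nat_lit 0) (nat_lit 2727070079) (nat_lit 28) (nat_lit 5) (nat_lit 30) (nat_lit 4) (nat_lit 28) (nat_lit 4) (nat_lit 493) (nat_lit 387) (nat_lit 320))) (XT.nd (nat_lit 78) (nat_lit 76) (nat_lit 0) (XT.lf (nat_lit 0) (nat_lit 25318294045) (nat_lit 152) (nat_lit 18115403338) (nat_lit 0) (nat_lit 18756694913) (nat_lit 28) (nat_lit 5) (nat_lit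 30) (nat_lit 4) (nat_lit 28) (nat_lit 4) (nat_lit 494) (nat_lit 387) (nat_lit 319)) (XT.lf (nat_lit 0) (nat_lit 13574427054) (nat_lit 76) (nat_lit 28747445517) (nat_lit 76) (nat_lit 22174098846) (nat_lit 27) (nat_lit 4) (nat_lit 28) (nat_lit 5) (nat_lit 28) (nat_lit 4) (nat_lit 495) (nat_lit 387) (nat_lit 318)))) (XT.nd (nat_lit 156) (nat_lit 76) (nat_lit 0) (XT.nd (nat_lit 78) (nat_lit 152) (nat_lit 0) (XT.lf (nat_lit 0) (nat_lit 47373143672) (nat_lit 76) (nat_lit 13057729296) (nat_lit 76) (nat_lit 6473194493) (nat_lit 27) (nat_lit 4) (nat_lit 28) (nat_lit 5) (nat_lit 28) (nat_lit 4) (nat_lit 496) (nat_lit 387) (nat_lit 317)) (XT.lf (nat_lit 0) (nat_lit 9913415957) (nat_lit 152) (nat_lit 55867997054) (nat_lit 0) (nat_lit 3632282464) (nat_lit 25) (nat_lit 5) (nat_lit 27) (nat_lit 4) (nat_lit 25) (nat_lit 4) (nat_lit 497) (nat_lit 387) (nat_lit 316))) (XT.nd (nat_lit 78) (nat_lit 76) (nat_lit 0)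 (XT.lf (nat_lit 0) (nat_lit 27402197253) (nat_lit 152) (nat_lit 23504883702) (nat_lit 0) (nat_lit 21111399031) (nat_lit 25) (nat_lit 5) (nat_lit 27) (nat_lit 4) (nat_lit 25) (nat_lit 4) (nat_lit 498) (nat_lit 387) (nat_lit 315)) (XT.lf (nat_lit 0) (nat_lit 10723177838) (nat_lit 76) (nat_lit 35162166193) (nat_lit 76) (nat_lit 28862163467) (nat_lit 24) (nat_lit 4) (nat_lit 25) (nat_lit 5) (nat_lit 25) (nat_lit 4) (nat_lit 499) (nat_lit 387) (nat_lit 314))))) (XT.nd (nat_lit 312) (nat_lit 228) (nat_lit 0) (XT.nd (nat_lit 156) (nat_lit 0) (nat_lit 0) (XT.nd (nat_lit 78) (nat_lit 152) (nat_lit 0) (XT.lf (nat_lit 0) (nat_lit 47383817904) (nat_lit 76) (nat_lit 18260184879) (nat_lit 76) (nat_lit 11951415959) (nat_lit 24) (nat_lit 4) (nat_lit 25) (nat_lit 5) (nat_lit 25) (nat_lit 4) (nat_lit 500) (nat_lit 387) (nat_lit 313)) (XT.lf (nat_lit 0) (nat_lit 5278231518) (nat_lit 76) (nat_lit 378036381) (nat_lit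 152) (nat_lit 74923066667) (nat_lit 22) (nat_lit 5) (nat_lit 23) (nat_lit 5) (nat_lit 24) (nat_lit 4) (nat_lit 501) (nat_lit 387) (nat_lit 312))) (XT.nd (nat_lit 78) (nat_lit 0) (nat_lit 0) (XT.lf (nat_lit 0) (nat_lit 24504782659) (nat_lit 152) (nat_lit 40678855183) (nat_lit 0) (nat_lit 18480907541) (nat_lit 22) (nat_lit 5) (nat_lit 24) (nat_lit 4) (nat_lit 22) (nat_lit 4) (nat_lit 502) (nat_lit 387) (nat_lit 311)) (XT.lf (nat_lit 0) (nat_lit 44258881553) (nat_lit 152) (nat_lit 4419182877) (nat_lit 0) (nat_lit 38227794466) (nat_lit 22) (nat_lit 5) (nat_lit 24) (nat_lit 4) (nat_lit 22) (nat_lit 4) (nat_lit 503) (nat_lit 387) (nat_lit 310)))) (XT.nd (nat_lit 156) (nat_lit 152) (nat_lit 0) (XT.nd (nat_lit 78) (nat_lit 0) (nat_lit 0) (XT.lf (nat_lit 0) (nat_lit 34680129350) (nat_lit 76) (nat_lit 30821020603) (nat_lit 76) (nat_lit 24783064973) (nat_lit 21) (nat_lit 4) (nat_lit 22) (nat_lit 5) (nat_lit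 22) (nat_lit 4) (nat_lit 504) (nat_lit 387) (nat_lit 309)) (XT.lf (nat_lit 0) (nat_lit 75805850767) (nat_lit 76) (nat_lit 12034204492) (nat_lit 76) (nat_lit 5989707393) (nat_lit 21) (nat_lit 4) (nat_lit 22) (nat_lit 5) (nat_lit 22) (nat_lit 4) (nat_lit 505) (nat_lit 387) (nat_lit 308))) (XT.nd (nat_lit 78) (nat_lit 0) (nat_lit 0) (XT.lf (nat_lit 0) (nat_lit 13733978785) (nat_lit 152) (nat_lit 75814972241) (nat_lit 0) (nat_lit 7971381576) (nat_lit 19) (nat_lit 5) (nat_lit 21) (nat_lit 4) (nat_lit 19) (nat_lit 4) (nat_lit 506) (nat_lit 387) (nat_lit 307)) (XT.lf (nat_lit 0) (nat_lit 34711077833) (nat_lit 152) (nat_lit 37713187723) (nat_lit 0) (nat_lit 28942829856) (nat_lit 19) (nat_lit 5) (nat_lit 21) (nat_lit 4) (nat_lit 19) (nat_lit 4) (nat_lit 507) (nat_lit 387) (nat_lit 306)))))) (XT.nd (nat_lit 624) (nat_lit 380) (nat_lit 0) (XT.nd (nat_lit 312) (nat_lit 76) (nat_lit 0) (XT.nd (nat_lit 156)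 (nat_lit 152) (nat_lit 0) (XT.nd (nat_lit 78) (nat_lit 0) (nat_lit 0) (XT.lf (nat_lit 0) (nat_lit 2291419429) (nat_lit 76) (nat_lit 54444237692) (nat_lit 76) (nat_lit 48670608032) (nat_lit 18) (nat_lit 4) (nat_lit 19) (nat_lit 5) (nat_lit 19) (nat_lit 4) (nat_lit 508) (nat_lit 387) (nat_lit 305)) (XT.lf (nat_lit 0) (nat_lit 45531186793) (nat_lit 76) (nat_lit 34932427142) (nat_lit 76) (nat_lit 29153672071) (nat_lit 18) (nat_lit 4) (nat_lit 19) (nat_lit 5) (nat_lit 19) (nat_lit 4) (nat_lit 509) (nat_lit 387) (nat_lit 304))) (XT.nd (nat_lit 78) (nat_lit 152) (nat_lit 0) (XT.lf (nat_lit 0) (nat_lit 90862097892) (nat_lit 76) (nat_lit 14481068299) (nat_lit 76) (nat_lit 8697431882) (nat_lit 18) (nat_lit 4) (nat_lit 19) (nat_lit 5) (nat_lit 19) (nat_lit 4) (nat_lit 510) (nat_lit 387) (nat_lit 303)) (XT.lf (nat_lit 0) (nat_lit 12770520815) (nat_lit 152) (nat_lit 98626809384) (nat_lit 0) (nat_lit 7257868133)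 (nat_lit 16) (nat_lit 5) (nat_lit 18) (nat_lit 4) (nat_lit 16) (nat_lit 4) (nat_lit 511) (nat_lit 387) (nat_lit 302)))) (XT.nd (nat_lit 156) (nat_lit 76) (nat_lit 0) (XT.nd (nat_lit 78) (nat_lit 0) (nat_lit 0) (XT.lf (nat_lit 0) (nat_lit 35622275122) (nat_lit 152) (nat_lit 57735583998) (nat_lit 0) (nat_lit 30105405750) (nat_lit 16) (nat_lit 5) (nat_lit 18) (nat_lit 4) (nat_lit 16) (nat_lit 4) (nat_lit 512) (nat_lit 387) (nat_lit 301)) (XT.lf (nat_lit 0) (nat_lit 59584546642) (nat_lit 152) (nat_lit 14865130284) (nat_lit 0) (nat_lit 54063661375) (nat_lit 16) (nat_lit 5) (nat_lit 18) (nat_lit 4) (nat_lit 16) (nat_lit 4) (nat_lit 513) (nat_lit 387) (nat_lit 300))) (XT.nd (nat_lit 78) (nat_lit 0) (nat_lit 0) (XT.lf (nat_lit 0) (nat_lit 31081423937) (nat_lit 76) (nat_lit 54118232598) (nat_lit 76) (nat_lit 48593522670) (nat_lit 15) (nat_lit 4) (nat_lit 16) (nat_lit 5) (nat_lit 16) (nat_lit 4) (nat_lit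 514) (nat_lit 387) (nat_lit 299)) (XT.lf (nat_lit 0) (nat_lit 79780171355) (nat_lit 76) (nat_lit 32537054061) (nat_lit 76) (nat_lit 27008701598) (nat_lit 15) (nat_lit 4) (nat_lit 16) (nat_lit 5) (nat_lit 16) (nat_lit 4) (nat_lit 515) (nat_lit 387) (nat_lit 298))))) (XT.nd (nat_lit 312) (nat_lit 228) (nat_lit 0) (XT.nd (nat_lit 156) (nat_lit 0) (nat_lit 0) (XT.nd (nat_lit 78) (nat_lit 152) (nat_lit 0) (XT.lf (nat_lit 0) (nat_lit 130855553028) (nat_lit 76) (nat_lit 9906505733) (nat_lit 76) (nat_lit 4374684189) (nat_lit 15) (nat_lit 4) (nat_lit 16) (nat_lit 5) (nat_lit 16) (nat_lit 4) (nat_lit 516) (nat_lit 387) (nat_lit 297)) (XT.lf (nat_lit 0) (nat_lit 19502678215) (nat_lit 152) (nat_lit 117452539978) (nat_lit 0) (nat_lit 14231130187) (nat_lit 13) (nat_lit 5) (nat_lit 15) (nat_lit 4) (nat_lit 13) (nat_lit 4) (nat_lit 517) (nat_lit 387) (nat_lit 296))) (XT.nd (nat_lit 78) (nat_lit 0) (nat_lit 0)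 (XT.lf (nat_lit 0) (nat_lit 44807428295) (nat_lit 152) (nat_lit 73175509585) (nat_lit 0) (nat_lit 39532883544) (nat_lit 13) (nat_lit 5) (nat_lit 15) (nat_lit 4) (nat_lit 13) (nat_lit 4) (nat_lit 518) (nat_lit 387) (nat_lit 295)) (XT.lf (nat_lit 0) (nat_lit 71351046484) (nat_lit 152) (nat_lit 26738392424) (nat_lit 0) (nat_lit 66073647711) (nat_lit 13) (nat_lit 5) (nat_lit 15) (nat_lit 4) (nat_lit 13) (nat_lit 4) (nat_lit 519) (nat_lit 387) (nat_lit 294)))) (XT.nd (nat_lit 156) (nat_lit 152) (nat_lit 0) (XT.nd (nat_lit 78) (nat_lit 0) (nat_lit 0) (XT.lf (nat_lit 0) (nat_lit 22695782856) (nat_lit 76) (nat_lit 76855293790) (nat_lit 76) (nat_lit 71575176902) (nat_lit 12) (nat_lit 4) (nat_lit 13) (nat_lit 5) (nat_lit 13) (nat_lit 4) (nat_lit 520) (nat_lit 387) (nat_lit 293)) (XT.lf (nat_lit 0) (nat_lit 75479584862) (nat_lit 76) (nat_lit 54109646698) (nat_lit 76) (nat_lit 48826941129) (nat_lit 12) (nat_lit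 4) (nat_lit 13) (nat_lit 5) (nat_lit 13) (nat_lit 4) (nat_lit 521) (nat_lit 387) (nat_lit 292))) (XT.nd (nat_lit 78) (nat_lit 152) (nat_lit 0) (XT.lf (nat_lit 0) (nat_lit 130854597305) (nat_lit 76) (nat_lit 30251168943) (nat_lit 76) (nat_lit 24965997963) (nat_lit 12) (nat_lit 4) (nat_lit 13) (nat_lit 5) (nat_lit 13) (nat_lit 4) (nat_lit 522) (nat_lit 387) (nat_lit 291)) (XT.nd (nat_lit 78) (nat_lit 76) (nat_lit 0) (XT.lf (nat_lit 0) (nat_lit 62401102) (nat_lit 152) (nat_lit 5159596730) (nat_lit 76) (nat_lit 188889207556) (nat_lit 11) (nat_lit 5) (nat_lit 13) (nat_lit 5) (nat_lit 12) (nat_lit 4) (nat_lit 523) (nat_lit 387) (nat_lit 290)) (XT.lf (nat_lit 0) (nat_lit 26586278667) (nat_lit 152) (nat_lit 154343305477) (nat_lit 0) (nat_lit 21548416580) (nat_lit 10) (nat_lit 5) (nat_lit 12) (nat_lit 4) (nat_lit 10) (nat_lit 4) (nat_lit 524) (nat_lit 387) (nat_lit 289))))))))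
noncomputable def xc133 : XT := (XT.nd (nat_lit 1248) (nat_lit 228) (nat_lit 0) (XT.nd (nat_lit 624) (nat_lit 76) (nat_lit 0) (XT.nd (nat_lit 312) (nat_lit 152) (nat_lit 0) (XT.nd (nat_lit 156) (nat_lit 76) (nat_lit 0) (XT.nd (nat_lit 78) (nat_lit 0) (nat_lit 0) (XT.lf (nat_lit 0) (nat_lit 54589085918) (nat_lit 152) (nat_lit 107117217609) (nat_lit 0) (nat_lit 49549195531) (nat_lit 10) (nat_lit 5) (nat_lit 12) (nat_lit 4) (nat_lit 10) (nat_lit 4) (nat_lit 525) (nat_lit 387) (nat_lit 288)) (XT.lf (nat_lit 0) (nat_lit 83971382631) (nat_lit 152) (nat_lit 57571961712) (nat_lit 0) (nat_lit 78929560531) (nat_lit 10) (nat_lit 5) (nat_lit 12) (nat_lit 4) (nat_lit 10) (nat_lit 4) (nat_lit 526) (nat_lit 387) (nat_lit 287))) (XT.nd (nat_lit 78) (nat_lit 76) (nat_lit 0) (XT.lf (nat_lit 0) (nat_lit 114803126656) (nat_lit 152) (nat_lit 5589572891) (nat_lit 0) (nat_lit 109759464828) (nat_lit 10) (nat_lit 5) (nat_lit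 12) (nat_lit 4) (nat_lit 10) (nat_lit 4) (nat_lit 527) (nat_lit 387) (nat_lit 286)) (XT.lf (nat_lit 0) (nat_lit 50572347393) (nat_lit 76) (nat_lit 97374955586) (nat_lit 76) (nat_lit 92329541636) (nat_lit 9) (nat_lit 4) (nat_lit 10) (nat_lit 5) (nat_lit 10) (nat_lit 4) (nat_lit 528) (nat_lit 387) (nat_lit 285)))) (XT.nd (nat_lit 156) (nat_lit 152) (nat_lit 0) (XT.nd (nat_lit 78) (nat_lit 0) (nat_lit 0) (XT.lf (nat_lit 0) (nat_lit 109698818550) (nat_lit 76) (nat_lit 73126105584) (nat_lit 76) (nat_lit 68079022947) (nat_lit 9) (nat_lit 4) (nat_lit 10) (nat_lit 5) (nat_lit 10) (nat_lit 4) (nat_lit 529) (nat_lit 387) (nat_lit 284)) (XT.lf (nat_lit 0) (nat_lit 171745801370) (nat_lit 76) (nat_lit 47683076308) (nat_lit 76) (nat_lit 42634404445) (nat_lit 9) (nat_lit 4) (nat_lit 10) (nat_lit 5) (nat_lit 10) (nat_lit 4) (nat_lit 530) (nat_lit 387) (nat_lit 283))) (XT.nd (nat_lit 78) (nat_lit 152) (nat_lit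 0) (XT.lf (nat_lit 0) (nat_lit 236861026763) (nat_lit 76) (nat_lit 20985289115) (nat_lit 76) (nat_lit 15935103704) (nat_lit 9) (nat_lit 4) (nat_lit 10) (nat_lit 5) (nat_lit 10) (nat_lit 4) (nat_lit 531) (nat_lit 387) (nat_lit 282)) (XT.lf (nat_lit 0) (nat_lit 12118838366) (nat_lit 152) (nat_lit 266629069079) (nat_lit 0) (nat_lit 7307765141) (nat_lit 7) (nat_lit 5) (nat_lit 9) (nat_lit 4) (nat_lit 7) (nat_lit 4) (nat_lit 532) (nat_lit 387) (nat_lit 281))))) (XT.nd (nat_lit 312) (nat_lit 76) (nat_lit 0) (XT.nd (nat_lit 156) (nat_lit 0) (nat_lit 0) (XT.nd (nat_lit 78) (nat_lit 0) (nat_lit 0) (XT.lf (nat_lit 0) (nat_lit 42003316045) (nat_lit 152) (nat_lit 219688157163) (nat_lit 0) (nat_lit 37190935360) (nat_lit 7) (nat_lit 5) (nat_lit 9) (nat_lit 4) (nat_lit 7) (nat_lit 4) (nat_lit 533) (nat_lit 387) (nat_lit 280)) (XT.lf (nat_lit 0) (nat_lit 73366614171) (nat_lit 152) (nat_lit 170431649078) (nat_lit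 0) (nat_lit 68552988286) (nat_lit 7) (nat_lit 5) (nat_lit 9) (nat_lit 4) (nat_lit 7) (nat_lit 4) (nat_lit 534) (nat_lit 387) (nat_lit 279))) (XT.nd (nat_lit 78) (nat_lit 0) (nat_lit 0) (XT.lf (nat_lit 0) (nat_lit 106283407262) (nat_lit 152) (nat_lit 118742267423) (nat_lit 0) (nat_lit 101468595472) (nat_lit 7) (nat_lit 5) (nat_lit 9) (nat_lit 4) (nat_lit 7) (nat_lit 4) (nat_lit 535) (nat_lit 387) (nat_lit 278)) (XT.lf (nat_lit 0) (nat_lit 140832068637) (nat_lit 152) (nat_lit 64496942242) (nat_lit 0) (nat_lit 136016127414) (nat_lit 7) (nat_lit 5) (nat_lit 9) (nat_lit 4) (nat_lit 7) (nat_lit 4) (nat_lit 536) (nat_lit 387) (nat_lit 277)))) (XT.nd (nat_lit 156) (nat_lit 0) (nat_lit 0) (XT.nd (nat_lit 78) (nat_lit 76) (nat_lit 0) (XT.lf (nat_lit 0) (nat_lit 177094857011) (nat_lit 152) (nat_lit 7566517999) (nat_lit 0) (nat_lit 172277840138) (nat_lit 7) (nat_lit 5) (nat_lit 9) (nat_lit 4) (nat_lit 7) (nat_lit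 4) (nat_lit 537) (nat_lit 387) (nat_lit 276)) (XT.lf (nat_lit 0) (nat_lit 53910010959) (nat_lit 76) (nat_lit 162089787753) (nat_lit 76) (nat_lit 157271746451) (nat_lit 6) (nat_lit 4) (nat_lit 7) (nat_lit 5) (nat_lit 7) (nat_lit 4) (nat_lit 538) (nat_lit 387) (nat_lit 275))) (XT.nd (nat_lit 78) (nat_lit 0) (nat_lit 0) (XT.lf (nat_lit 0) (nat_lit 118697602579) (nat_lit 76) (nat_lit 138268061124) (nat_lit 76) (nat_lit 133449044175) (nat_lit 6) (nat_lit 4) (nat_lit 7) (nat_lit 5) (nat_lit 7) (nat_lit 4) (nat_lit 539) (nat_lit 387) (nat_lit 274)) (XT.lf (nat_lit 0) (nat_lit 186700329774) (nat_lit 76) (nat_lit 113267619370) (nat_lit 76) (nat_lit 108447673233) (nat_lit 6) (nat_lit 4) (nat_lit 7) (nat_lit 5) (nat_lit 7) (nat_lit 4) (nat_lit 540) (nat_lit 387) (nat_lit 273)))))) (XT.nd (nat_lit 624) (nat_lit 76) (nat_lit 0) (XT.nd (nat_lit 312) (nat_lit 0) (nat_lit 0) (XT.nd (nat_lit 156) (nat_lit 152)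 (nat_lit 0) (XT.nd (nat_lit 78) (nat_lit 0) (nat_lit 0) (XT.lf (nat_lit 0) (nat_lit 258080103800) (nat_lit 76) (nat_lit 87028937630) (nat_lit 76) (nat_lit 82208106553) (nat_lit 6) (nat_lit 4) (nat_lit 7) (nat_lit 5) (nat_lit 7) (nat_lit 4) (nat_lit 541) (nat_lit 387) (nat_lit 272)) (XT.lf (nat_lit 0) (nat_lit 333006876499) (nat_lit 76) (nat_lit 59489542853) (nat_lit 76) (nat_lit 54667868975) (nat_lit 6) (nat_lit 4) (nat_lit 7) (nat_lit 5) (nat_lit 7) (nat_lit 4) (nat_lit 542) (nat_lit 387) (nat_lit 271))) (XT.nd (nat_lit 78) (nat_lit 152) (nat_lit 0) (XT.lf (nat_lit 0) (nat_lit 411659044949) (nat_lit 76) (nat_lit 30583865050) (nat_lit 76) (nat_lit 25761388505) (nat_lit 6) (nat_lit 4) (nat_lit 7) (nat_lit 5) (nat_lit 7) (nat_lit 4) (nat_lit 543) (nat_lit 387) (nat_lit 270)) (XT.lf (nat_lit 0) (nat_lit 4406608491) (nat_lit 76) (nat_lit 95757108) (nat_lit 152) (nat_lit 485377416554) (nat_lit 4) (nat_lit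 5) (nat_lit 5) (nat_lit 5) (nat_lit 6) (nat_lit 4) (nat_lit 544) (nat_lit 387) (nat_lit 269)))) (XT.nd (nat_lit 156) (nat_lit 0) (nat_lit 0) (XT.nd (nat_lit 78) (nat_lit 0) (nat_lit 0) (XT.lf (nat_lit 0) (nat_lit 36871817630) (nat_lit 152) (nat_lit 443605631975) (nat_lit 0) (nat_lit 32277561408) (nat_lit 4) (nat_lit 5) (nat_lit 6) (nat_lit 4) (nat_lit 4) (nat_lit 4) (nat_lit 545) (nat_lit 387) (nat_lit 268)) (XT.lf (nat_lit 0) (nat_lit 70851859165) (nat_lit 152) (nat_lit 399665593723) (nat_lit 0) (nat_lit 66256942588) (nat_lit 4) (nat_lit 5) (nat_lit 6) (nat_lit 4) (nat_lit 4) (nat_lit 4) (nat_lit 546) (nat_lit 387) (nat_lit 267))) (XT.nd (nat_lit 78) (nat_lit 0) (nat_lit 0) (XT.lf (nat_lit 0) (nat_lit 106521900031) (nat_lit 152) (nat_lit 353546944732) (nat_lit 0) (nat_lit 101926354543) (nat_lit 4) (nat_lit 5) (nat_lit 6) (nat_lit 4) (nat_lit 4) (nat_lit 4) (nat_lit 547) (nat_lit 387) (nat_lit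 266)) (XT.lf (nat_lit 0) (nat_lit 143966868896) (nat_lit 152) (nat_lit 305139878694) (nat_lit 0) (nat_lit 139370724446) (nat_lit 4) (nat_lit 5) (nat_lit 6) (nat_lit 4) (nat_lit 4) (nat_lit 4) (nat_lit 548) (nat_lit 387) (nat_lit 265))))) (XT.nd (nat_lit 312) (nat_lit 76) (nat_lit 0) (XT.nd (nat_lit 156) (nat_lit 0) (nat_lit 0) (XT.nd (nat_lit 78) (nat_lit 0) (nat_lit 0) (XT.lf (nat_lit 0) (nat_lit 183275920448) (nat_lit 152) (nat_lit 254329140690) (nat_lit 0) (nat_lit 178679205557) (nat_lit 4) (nat_lit 5) (nat_lit 6) (nat_lit 4) (nat_lit 4) (nat_lit 4) (nat_lit 549) (nat_lit 387) (nat_lit 264)) (XT.lf (nat_lit 0) (nat_lit 224542647667) (nat_lit 152) (nat_lit 200993752773) (nat_lit 0) (nat_lit 219945389500) (nat_lit 4) (nat_lit 5) (nat_lit 6) (nat_lit 4) (nat_lit 4) (nat_lit 4) (nat_lit 550) (nat_lit 387) (nat_lit 263))) (XT.nd (nat_lit 78) (nat_lit 0) (nat_lit 0) (XT.lf (nat_lit 0) (nat_lit 267865304666)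 (nat_lit 152) (nat_lit 145006725924) (nat_lit 0) (nat_lit 263267529091) (nat_lit 4) (nat_lit 5) (nat_lit 6) (nat_lit 4) (nat_lit 4) (nat_lit 4) (nat_lit 551) (nat_lit 387) (nat_lit 262)) (XT.lf (nat_lit 0) (nat_lit 313347040626) (nat_lit 152) (nat_lit 86234757697) (nat_lit 0) (nat_lit 308748772284) (nat_lit 4) (nat_lit 5) (nat_lit 6) (nat_lit 4) (nat_lit 4) (nat_lit 4) (nat_lit 552) (nat_lit 387) (nat_lit 261)))) (XT.nd (nat_lit 156) (nat_lit 0) (nat_lit 0) (XT.nd (nat_lit 78) (nat_lit 76) (nat_lit 0) (XT.lf (nat_lit 0) (nat_lit 361096145397) (nat_lit 152) (nat_lit 24537914836) (nat_lit 0) (nat_lit 356497407752) (nat_lit 4) (nat_lit 5) (nat_lit 6) (nat_lit 4) (nat_lit 4) (nat_lit 4) (nat_lit 553) (nat_lit 387) (nat_lit 260)) (XT.lf (nat_lit 0) (nat_lit 41560908529) (nat_lit 76) (nat_lit 370314281049) (nat_lit 76) (nat_lit 365715096449) (nat_lit 3) (nat_lit 4) (nat_lit 4) (nat_lit 5) (nat_lit 4)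 (nat_lit 4) (nat_lit 554) (nat_lit 387) (nat_lit 259))) (XT.nd (nat_lit 78) (nat_lit 0) (nat_lit 0) (XT.lf (nat_lit 0) (nat_lit 111803714606) (nat_lit 76) (nat_lit 353798738639) (nat_lit 76) (nat_lit 349199128368) (nat_lit 3) (nat_lit 4) (nat_lit 4) (nat_lit 5) (nat_lit 4) (nat_lit 4) (nat_lit 555) (nat_lit 387) (nat_lit 258)) (XT.nd (nat_lit 52182) (nat_lit 0) (nat_lit 9728) (XT.lf (nat_lit 0) (nat_lit 185546413889) (nat_lit 76) (nat_lit 336463671744) (nat_lit 76) (nat_lit 331863656072) (nat_lit 3) (nat_lit 4) (nat_lit 4) (nat_lit 5) (nat_lit 4) (nat_lit 4) (nat_lit 556) (nat_lit 387) (nat_lit 257)) (XT.lf (nat_lit 0) (nat_lit 1278577815) (nat_lit 380) (nat_lit 1498795349) (nat_lit 0) (nat_lit 1278577815) (nat_lit 131) (nat_lit 5) (nat_lit 136) (nat_lit 4) (nat_lit 131) (nat_lit 4) (nat_lit 424) (nat_lit 388) (nat_lit 388))))))))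
noncomputable def xc134 : XT := (XT.nd (nat_lit 1248) (nat_lit 1824) (nat_lit 0) (XT.nd (nat_lit 624) (nat_lit 1368) (nat_lit 0) (XT.nd (nat_lit 312) (nat_lit 760) (nat_lit 0) (XT.nd (nat_lit 156) (nat_lit 608) (nat_lit 0) (XT.nd (nat_lit 78) (nat_lit 304) (nat_lit 0) (XT.lf (nat_lit 0) (nat_lit 3952713087) (nat_lit 304) (nat_lit 2728432169) (nat_lit 304) (nat_lit 1575666584) (nat_lit 127) (nat_lit 4) (nat_lit 131) (nat_lit 5) (nat_lit 131) (nat_lit 4) (nat_lit 425) (nat_lit 388) (nat_lit 387)) (XT.lf (nat_lit 0) (nat_lit 2450480941) (nat_lit 304) (nat_lit 5652878633) (nat_lit 0) (nat_lit 307016588) (nat_lit 123) (nat_lit 5) (nat_lit 127) (nat_lit 4) (nat_lit 123) (nat_lit 4) (nat_lit 426) (nat_lit 388) (nat_lit 386))) (XT.nd (nat_lit 78) (nat_lit 304) (nat_lit 0) (XT.lf (nat_lit 0) (nat_lit 1493808114) (nat_lit 304) (nat_lit 5108465684) (nat_lit 304) (nat_lit 1969199076) (nat_lit 119) (nat_lit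 4) (nat_lit 123) (nat_lit 5) (nat_lit 123) (nat_lit 4) (nat_lit 427) (nat_lit 388) (nat_lit 385)) (XT.lf (nat_lit 0) (nat_lit 190621526) (nat_lit 228) (nat_lit 1896340050) (nat_lit 304) (nat_lit 6655087473) (nat_lit 115) (nat_lit 5) (nat_lit 118) (nat_lit 5) (nat_lit 119) (nat_lit 4) (nat_lit 428) (nat_lit 388) (nat_lit 384)))) (XT.nd (nat_lit 156) (nat_lit 456) (nat_lit 0) (XT.nd (nat_lit 78) (nat_lit 304) (nat_lit 0) (XT.lf (nat_lit 0) (nat_lit 6264331486) (nat_lit 304) (nat_lit 1144867998) (nat_lit 0) (nat_lit 1511120336) (nat_lit 115) (nat_lit 5) (nat_lit 119) (nat_lit 4) (nat_lit 115) (nat_lit 4) (nat_lit 429) (nat_lit 388) (nat_lit 383)) (XT.lf (nat_lit 0) (nat_lit 1474555462) (nat_lit 304) (nat_lit 2549621431) (nat_lit 76) (nat_lit 5083086806) (nat_lit 111) (nat_lit 5) (nat_lit 115) (nat_lit 5) (nat_lit 112) (nat_lit 4) (nat_lit 430) (nat_lit 388) (nat_lit 382))) (XT.nd (nat_lit 78) (nat_lit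 304) (nat_lit 0) (XT.lf (nat_lit 0) (nat_lit 5277162485) (nat_lit 152) (nat_lit 395939825) (nat_lit 228) (nat_lit 3630746337) (nat_lit 109) (nat_lit 5) (nat_lit 111) (nat_lit 5) (nat_lit 112) (nat_lit 4) (nat_lit 431) (nat_lit 388) (nat_lit 381)) (XT.lf (nat_lit 0) (nat_lit 562545082) (nat_lit 304) (nat_lit 5604668511) (nat_lit 76) (nat_lit 3342134338) (nat_lit 105) (nat_lit 5) (nat_lit 109) (nat_lit 5) (nat_lit 106) (nat_lit 4) (nat_lit 432) (nat_lit 388) (nat_lit 380))))) (XT.nd (nat_lit 312) (nat_lit 760) (nat_lit 0) (XT.nd (nat_lit 156) (nat_lit 228) (nat_lit 0) (XT.nd (nat_lit 78) (nat_lit 228) (nat_lit 0) (XT.lf (nat_lit 0) (nat_lit 2427354277) (nat_lit 152) (nat_lit 2382030293) (nat_lit 228) (nat_lit 4914473168) (nat_lit 103) (nat_lit 5) (nat_lit 105) (nat_lit 5) (nat_lit 106) (nat_lit 4) (nat_lit 433) (nat_lit 388) (nat_lit 379)) (XT.lf (nat_lit 0) (nat_lit 876841423) (nat_lit 228) (nat_lit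 8381056185) (nat_lit 228) (nat_lit 691735132) (nat_lit 100) (nat_lit 4) (nat_lit 103) (nat_lit 5) (nat_lit 103) (nat_lit 4) (nat_lit 434) (nat_lit 388) (nat_lit 378))) (XT.nd (nat_lit 78) (nat_lit 152) (nat_lit 0) (XT.lf (nat_lit 0) (nat_lit 3642291429) (nat_lit 304) (nat_lit 804848575) (nat_lit 76) (nat_lit 5735644752) (nat_lit 99) (nat_lit 5) (nat_lit 103) (nat_lit 5) (nat_lit 100) (nat_lit 4) (nat_lit 435) (nat_lit 388) (nat_lit 377)) (XT.lf (nat_lit 0) (nat_lit 7892029865) (nat_lit 152) (nat_lit 263129075) (nat_lit 228) (nat_lit 2272604543) (nat_lit 97) (nat_lit 5) (nat_lit 99) (nat_lit 5) (nat_lit 100) (nat_lit 4) (nat_lit 436) (nat_lit 388) (nat_lit 376)))) (XT.nd (nat_lit 156) (nat_lit 380) (nat_lit 0) (XT.nd (nat_lit 78) (nat_lit 152) (nat_lit 0) (XT.lf (nat_lit 0) (nat_lit 2178867476) (nat_lit 228) (nat_lit 4442027539) (nat_lit 76) (nat_lit 4060332857) (nat_lit 94) (nat_lit 5) (nat_lit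 97) (nat_lit 5) (nat_lit 95) (nat_lit 4) (nat_lit 437) (nat_lit 388) (nat_lit 375)) (XT.lf (nat_lit 0) (nat_lit 4468170540) (nat_lit 152) (nat_lit 2290792541) (nat_lit 228) (nat_lit 4187423079) (nat_lit 92) (nat_lit 5) (nat_lit 94) (nat_lit 5) (nat_lit 95) (nat_lit 4) (nat_lit 438) (nat_lit 388) (nat_lit 374))) (XT.nd (nat_lit 78) (nat_lit 152) (nat_lit 0) (XT.lf (nat_lit 0) (nat_lit 350620641) (nat_lit 228) (nat_lit 8656363175) (nat_lit 76) (nat_lit 2216637536) (nat_lit 89) (nat_lit 5) (nat_lit 92) (nat_lit 5) (nat_lit 90) (nat_lit 4) (nat_lit 439) (nat_lit 388) (nat_lit 373)) (XT.lf (nat_lit 0) (nat_lit 456841419) (nat_lit 152) (nat_lit 4541087026) (nat_lit 228) (nat_lit 6512207256) (nat_lit 87) (nat_lit 5) (nat_lit 89) (nat_lit 5) (nat_lit 90) (nat_lit 4) (nat_lit 440) (nat_lit 388) (nat_lit 372)))))) (XT.nd (nat_lit 624) (nat_lit 912) (nat_lit 0) (XT.nd (nat_lit 312) (nat_lit 380) (nat_lit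 0) (XT.nd (nat_lit 156) (nat_lit 304) (nat_lit 0) (XT.nd (nat_lit 78) (nat_lit 228) (nat_lit 0) (XT.lf (nat_lit 0) (nat_lit 9897099704) (nat_lit 228) (nat_lit 1713885945) (nat_lit 0) (nat_lit 199019075) (nat_lit 87) (nat_lit 5) (nat_lit 90) (nat_lit 4) (nat_lit 87) (nat_lit 4) (nat_lit 441) (nat_lit 388) (nat_lit 371)) (XT.lf (nat_lit 0) (nat_lit 2898908141) (nat_lit 228) (nat_lit 4112754555) (nat_lit 76) (nat_lit 5107136990) (nat_lit 84) (nat_lit 5) (nat_lit 87) (nat_lit 5) (nat_lit 85) (nat_lit 4) (nat_lit 442) (nat_lit 388) (nat_lit 370))) (XT.nd (nat_lit 78) (nat_lit 228) (nat_lit 0) (XT.lf (nat_lit 0) (nat_lit 5761150370) (nat_lit 76) (nat_lit 2120352794) (nat_lit 152) (nat_lit 4560242744) (nat_lit 83) (nat_lit 5) (nat_lit 84) (nat_lit 5) (nat_lit 85) (nat_lit 4) (nat_lit 443) (nat_lit 388) (nat_lit 369)) (XT.lf (nat_lit 0) (nat_lit 368459757) (nat_lit 228) (nat_lit 9454310600) (nat_lit 76)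 (nat_lit 2955477142) (nat_lit 80) (nat_lit 5) (nat_lit 83) (nat_lit 5) (nat_lit 81) (nat_lit 4) (nat_lit 444) (nat_lit 388) (nat_lit 368)))) (XT.nd (nat_lit 156) (nat_lit 304) (nat_lit 0) (XT.nd (nat_lit 78) (nat_lit 0) (nat_lit 0) (XT.lf (nat_lit 0) (nat_lit 620332547) (nat_lit 76) (nat_lit 4806032728) (nat_lit 152) (nat_lit 7699672772) (nat_lit 79) (nat_lit 5) (nat_lit 80) (nat_lit 5) (nat_lit 81) (nat_lit 4) (nat_lit 445) (nat_lit 388) (nat_lit 367)) (XT.lf (nat_lit 0) (nat_lit 10784612025) (nat_lit 152) (nat_lit 2189887783) (nat_lit 0) (nat_lit 514348761) (nat_lit 79) (nat_lit 5) (nat_lit 81) (nat_lit 4) (nat_lit 79) (nat_lit 4) (nat_lit 446) (nat_lit 388) (nat_lit 366))) (XT.nd (nat_lit 78) (nat_lit 76) (nat_lit 0) (XT.lf (nat_lit 0) (nat_lit 2558025645) (nat_lit 228) (nat_lit 5280333510) (nat_lit 76) (nat_lit 6024540308) (nat_lit 76) (nat_lit 5) (nat_lit 79) (nat_lit 5) (nat_lit 77) (nat_lit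 4) (nat_lit 447) (nat_lit 388) (nat_lit 365)) (XT.lf (nat_lit 0) (nat_lit 5637840934) (nat_lit 76) (nat_lit 2364136388) (nat_lit 152) (nat_lit 6250988538) (nat_lit 75) (nat_lit 5) (nat_lit 76) (nat_lit 5) (nat_lit 77) (nat_lit 4) (nat_lit 448) (nat_lit 388) (nat_lit 364))))) (XT.nd (nat_lit 312) (nat_lit 380) (nat_lit 0) (XT.nd (nat_lit 156) (nat_lit 304) (nat_lit 0) (XT.nd (nat_lit 78) (nat_lit 76) (nat_lit 0) (XT.lf (nat_lit 0) (nat_lit 2436574723) (nat_lit 152) (nat_lit 11347810221) (nat_lit 152) (nat_lit 874839971) (nat_lit 73) (nat_lit 4) (nat_lit 75) (nat_lit 5) (nat_lit 75) (nat_lit 4) (nat_lit 449) (nat_lit 388) (nat_lit 363)) (XT.lf (nat_lit 0) (nat_lit 4689336089) (nat_lit 228) (nat_lit 1068816469) (nat_lit 76) (nat_lit 9320327990) (nat_lit 72) (nat_lit 5) (nat_lit 75) (nat_lit 5) (nat_lit 73) (nat_lit 4) (nat_lit 450) (nat_lit 388) (nat_lit 362))) (XT.nd (nat_lit 78) (nat_lit 228) (nat_lit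 0) (XT.lf (nat_lit 0) (nat_lit 10564021123) (nat_lit 152) (nat_lit 4749703201) (nat_lit 0) (nat_lit 201174478) (nat_lit 71) (nat_lit 5) (nat_lit 73) (nat_lit 4) (nat_lit 71) (nat_lit 4) (nat_lit 451) (nat_lit 388) (nat_lit 361)) (XT.lf (nat_lit 0) (nat_lit 852836189) (nat_lit 228) (nat_lit 8795061731) (nat_lit 76) (nat_lit 6318757265) (nat_lit 68) (nat_lit 5) (nat_lit 71) (nat_lit 5) (nat_lit 69) (nat_lit 4) (nat_lit 452) (nat_lit 388) (nat_lit 360)))) (XT.nd (nat_lit 156) (nat_lit 304) (nat_lit 0) (XT.nd (nat_lit 78) (nat_lit 0) (nat_lit 0) (XT.lf (nat_lit 0) (nat_lit 3232514940) (nat_lit 76) (nat_lit 3571301402) (nat_lit 152) (nat_lit 9631953505) (nat_lit 67) (nat_lit 5) (nat_lit 68) (nat_lit 5) (nat_lit 69) (nat_lit 4) (nat_lit 453) (nat_lit 388) (nat_lit 359)) (XT.lf (nat_lit 0) (nat_lit 13139368155) (nat_lit 152) (nat_lit 1006258154) (nat_lit 0) (nat_lit 2778364405) (nat_lit 67) (nat_lit 5)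 (nat_lit 69) (nat_lit 4) (nat_lit 67) (nat_lit 4) (nat_lit 454) (nat_lit 388) (nat_lit 358))) (XT.nd (nat_lit 78) (nat_lit 152) (nat_lit 0) (XT.lf (nat_lit 0) (nat_lit 2423718015) (nat_lit 152) (nat_lit 5540903698) (nat_lit 76) (nat_lit 9462962889) (nat_lit 65) (nat_lit 5) (nat_lit 67) (nat_lit 5) (nat_lit 66) (nat_lit 4) (nat_lit 455) (nat_lit 388) (nat_lit 357)) (XT.nd (nat_lit 78) (nat_lit 76) (nat_lit 0) (XT.lf (nat_lit 0) (nat_lit 7484612147) (nat_lit 76) (nat_lit 1362015749) (nat_lit 152) (nat_lit 9105062503) (nat_lit 64) (nat_lit 5) (nat_lit 65) (nat_lit 5) (nat_lit 66) (nat_lit 4) (nat_lit 456) (nat_lit 388) (nat_lit 356)) (XT.lf (nat_lit 0) (nat_lit 2656205222) (nat_lit 76) (nat_lit 13055905378) (nat_lit 76) (nat_lit 2783820839) (nat_lit 63) (nat_lit 4) (nat_lit 64) (nat_lit 5) (nat_lit 64) (nat_lit 4) (nat_lit 457) (nat_lit 388) (nat_lit 355))))))))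
noncomputable def xc135 : XT := (XT.nd (nat_lit 1248) (nat_lit 1140) (nat_lit 0) (XT.nd (nat_lit 624) (nat_lit 684) (nat_lit 0) (XT.nd (nat_lit 312) (nat_lit 228) (nat_lit 0) (XT.nd (nat_lit 156) (nat_lit 228) (nat_lit 0) (XT.nd (nat_lit 78) (nat_lit 76) (nat_lit 0) (XT.lf (nat_lit 0) (nat_lit 3830456368) (nat_lit 152) (nat_lit 2541838303) (nat_lit 76) (nat_lit 12687067425) (nat_lit 62) (nat_lit 5) (nat_lit 64) (nat_lit 5) (nat_lit 63) (nat_lit 4) (nat_lit 458) (nat_lit 388) (nat_lit 354)) (XT.lf (nat_lit 0) (nat_lit 10777391005) (nat_lit 152) (nat_lit 8099264435) (nat_lit 0) (nat_lit 767253254) (nat_lit 61) (nat_lit 5) (nat_lit 63) (nat_lit 4) (nat_lit 61) (nat_lit 4) (nat_lit 459) (nat_lit 388) (nat_lit 353))) (XT.nd (nat_lit 78) (nat_lit 152) (nat_lit 0) (XT.lf (nat_lit 0) (nat_lit 6069302824) (nat_lit 76) (nat_lit 12148384800) (nat_lit 76) (nat_lit 2032695321) (nat_lit 60) (nat_lit 4) (nat_lit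 61) (nat_lit 5) (nat_lit 61) (nat_lit 4) (nat_lit 460) (nat_lit 388) (nat_lit 352)) (XT.lf (nat_lit 0) (nat_lit 79030287) (nat_lit 76) (nat_lit 4943040552) (nat_lit 152) (nat_lit 15858903614) (nat_lit 58) (nat_lit 5) (nat_lit 59) (nat_lit 5) (nat_lit 60) (nat_lit 4) (nat_lit 461) (nat_lit 388) (nat_lit 351)))) (XT.nd (nat_lit 156) (nat_lit 152) (nat_lit 0) (XT.nd (nat_lit 78) (nat_lit 76) (nat_lit 0) (XT.lf (nat_lit 0) (nat_lit 12549831262) (nat_lit 152) (nat_lit 6253247474) (nat_lit 0) (nat_lit 2728923202) (nat_lit 58) (nat_lit 5) (nat_lit 60) (nat_lit 4) (nat_lit 58) (nat_lit 4) (nat_lit 462) (nat_lit 388) (nat_lit 350)) (XT.lf (nat_lit 0) (nat_lit 9052112105) (nat_lit 76) (nat_lit 11532345704) (nat_lit 76) (nat_lit 1624599976) (nat_lit 57) (nat_lit 4) (nat_lit 58) (nat_lit 5) (nat_lit 58) (nat_lit 4) (nat_lit 463) (nat_lit 388) (nat_lit 349))) (XT.nd (nat_lit 78) (nat_lit 0) (nat_lit 0) (XT.lf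 (nat_lit 0) (nat_lit 2219618768) (nat_lit 76) (nat_lit 3736511493) (nat_lit 152) (nat_lit 16956547091) (nat_lit 55) (nat_lit 5) (nat_lit 56) (nat_lit 5) (nat_lit 57) (nat_lit 4) (nat_lit 464) (nat_lit 388) (nat_lit 348)) (XT.lf (nat_lit 0) (nat_lit 14065747302) (nat_lit 152) (nat_lit 5098156332) (nat_lit 0) (nat_lit 4476021022) (nat_lit 55) (nat_lit 5) (nat_lit 57) (nat_lit 4) (nat_lit 55) (nat_lit 4) (nat_lit 465) (nat_lit 388) (nat_lit 347))))) (XT.nd (nat_lit 312) (nat_lit 380) (nat_lit 0) (XT.nd (nat_lit 156) (nat_lit 76) (nat_lit 0) (XT.nd (nat_lit 78) (nat_lit 152) (nat_lit 0) (XT.lf (nat_lit 0) (nat_lit 11409102543) (nat_lit 76) (nat_lit 11323993898) (nat_lit 76) (nat_lit 1662826054) (nat_lit 54) (nat_lit 4) (nat_lit 55) (nat_lit 5) (nat_lit 55) (nat_lit 4) (nat_lit 466) (nat_lit 388) (nat_lit 346)) (XT.lf (nat_lit 0) (nat_lit 3571053556) (nat_lit 76) (nat_lit 2916878631) (nat_lit 152) (nat_lit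 18693777468) (nat_lit 52) (nat_lit 5) (nat_lit 53) (nat_lit 5) (nat_lit 54) (nat_lit 4) (nat_lit 467) (nat_lit 388) (nat_lit 345))) (XT.nd (nat_lit 78) (nat_lit 76) (nat_lit 0) (XT.lf (nat_lit 0) (nat_lit 15219366138) (nat_lit 152) (nat_lit 4882866324) (nat_lit 0) (nat_lit 5891740391) (nat_lit 52) (nat_lit 5) (nat_lit 54) (nat_lit 4) (nat_lit 52) (nat_lit 4) (nat_lit 468) (nat_lit 388) (nat_lit 344)) (XT.lf (nat_lit 0) (nat_lit 12882358848) (nat_lit 76) (nat_lit 11671289031) (nat_lit 76) (nat_lit 2284888132) (nat_lit 51) (nat_lit 4) (nat_lit 52) (nat_lit 5) (nat_lit 52) (nat_lit 4) (nat_lit 469) (nat_lit 388) (nat_lit 343)))) (XT.nd (nat_lit 156) (nat_lit 228) (nat_lit 0) (XT.nd (nat_lit 78) (nat_lit 0) (nat_lit 0) (XT.lf (nat_lit 0) (nat_lit 3838630063) (nat_lit 76) (nat_lit 2639910081) (nat_lit 152) (nat_lit 21238542456) (nat_lit 49) (nat_lit 5) (nat_lit 50) (nat_lit 5) (nat_lit 51) (nat_lit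 4) (nat_lit 470) (nat_lit 388) (nat_lit 342)) (XT.lf (nat_lit 0) (nat_lit 15868017961) (nat_lit 152) (nat_lit 5931927399) (nat_lit 0) (nat_lit 6824505553) (nat_lit 49) (nat_lit 5) (nat_lit 51) (nat_lit 4) (nat_lit 49) (nat_lit 4) (nat_lit 471) (nat_lit 388) (nat_lit 341))) (XT.nd (nat_lit 78) (nat_lit 152) (nat_lit 0) (XT.lf (nat_lit 0) (nat_lit 13133060668) (nat_lit 76) (nat_lit 12763751118) (nat_lit 76) (nat_lit 3671884247) (nat_lit 48) (nat_lit 4) (nat_lit 49) (nat_lit 5) (nat_lit 49) (nat_lit 4) (nat_lit 472) (nat_lit 388) (nat_lit 340)) (XT.lf (nat_lit 0) (nat_lit 2637270561) (nat_lit 76) (nat_lit 3106724219) (nat_lit 152) (nat_lit 24808335146) (nat_lit 46) (nat_lit 5) (nat_lit 47) (nat_lit 5) (nat_lit 48) (nat_lit 4) (nat_lit 473) (nat_lit 388) (nat_lit 339)))))) (XT.nd (nat_lit 624) (nat_lit 608) (nat_lit 0) (XT.nd (nat_lit 312) (nat_lit 304) (nat_lit 0) (XT.nd (nat_lit 156) (nat_lit 152)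 (nat_lit 0) (XT.nd (nat_lit 78) (nat_lit 76) (nat_lit 0) (XT.lf (nat_lit 0) (nat_lit 15821725918) (nat_lit 152) (nat_lit 8667511645) (nat_lit 0) (nat_lit 7077175762) (nat_lit 46) (nat_lit 5) (nat_lit 48) (nat_lit 4) (nat_lit 46) (nat_lit 4) (nat_lit 474) (nat_lit 388) (nat_lit 338)) (XT.lf (nat_lit 0) (nat_lit 11717814193) (nat_lit 76) (nat_lit 14844875645) (nat_lit 76) (nat_lit 6060544153) (nat_lit 45) (nat_lit 4) (nat_lit 46) (nat_lit 5) (nat_lit 46) (nat_lit 4) (nat_lit 475) (nat_lit 388) (nat_lit 337))) (XT.nd (nat_lit 78) (nat_lit 76) (nat_lit 0) (XT.lf (nat_lit 0) (nat_lit 4051057364) (nat_lit 152) (nat_lit 517550882) (nat_lit 76) (nat_lit 29157344769) (nat_lit 44) (nat_lit 5) (nat_lit 46) (nat_lit 5) (nat_lit 45) (nat_lit 4) (nat_lit 476) (nat_lit 388) (nat_lit 336)) (XT.lf (nat_lit 0) (nat_lit 14829803897) (nat_lit 152) (nat_lit 13637448394) (nat_lit 0) (nat_lit 6393326446) (nat_lit 43)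 (nat_lit 5) (nat_lit 45) (nat_lit 4) (nat_lit 43) (nat_lit 4) (nat_lit 477) (nat_lit 388) (nat_lit 335)))) (XT.nd (nat_lit 156) (nat_lit 152) (nat_lit 0) (XT.nd (nat_lit 78) (nat_lit 76) (nat_lit 0) (XT.lf (nat_lit 0) (nat_lit 8058391161) (nat_lit 76) (nat_lit 18227905075) (nat_lit 76) (nat_lit 9758699420) (nat_lit 42) (nat_lit 4) (nat_lit 43) (nat_lit 5) (nat_lit 43) (nat_lit 4) (nat_lit 478) (nat_lit 388) (nat_lit 334)) (XT.lf (nat_lit 0) (nat_lit 1158095557) (nat_lit 152) (nat_lit 6126279479) (nat_lit 76) (nat_lit 29995257711) (nat_lit 41) (nat_lit 5) (nat_lit 43) (nat_lit 5) (nat_lit 42) (nat_lit 4) (nat_lit 479) (nat_lit 388) (nat_lit 333))) (XT.nd (nat_lit 78) (nat_lit 76) (nat_lit 0) (XT.lf (nat_lit 0) (nat_lit 12563640065) (nat_lit 152) (nat_lit 21551047063) (nat_lit 0) (nat_lit 4439772619) (nat_lit 40) (nat_lit 5) (nat_lit 42) (nat_lit 4) (nat_lit 40) (nat_lit 4) (nat_lit 480) (nat_lit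 388) (nat_lit 332)) (XT.lf (nat_lit 0) (nat_lit 1403032819) (nat_lit 76) (nat_lit 23315907328) (nat_lit 76) (nat_lit 15165114308) (nat_lit 39) (nat_lit 4) (nat_lit 40) (nat_lit 5) (nat_lit 40) (nat_lit 4) (nat_lit 481) (nat_lit 388) (nat_lit 331))))) (XT.nd (nat_lit 312) (nat_lit 380) (nat_lit 0) (XT.nd (nat_lit 156) (nat_lit 76) (nat_lit 0) (XT.nd (nat_lit 78) (nat_lit 152) (nat_lit 0) (XT.lf (nat_lit 0) (nat_lit 26120005275) (nat_lit 76) (nat_lit 11660809907) (nat_lit 76) (nat_lit 3484373483) (nat_lit 39) (nat_lit 4) (nat_lit 40) (nat_lit 5) (nat_lit 40) (nat_lit 4) (nat_lit 482) (nat_lit 388) (nat_lit 330)) (XT.lf (nat_lit 0) (nat_lit 8594614313) (nat_lit 152) (nat_lit 33324876610) (nat_lit 0) (nat_lit 784272681) (nat_lit 37) (nat_lit 5) (nat_lit 39) (nat_lit 4) (nat_lit 37) (nat_lit 4) (nat_lit 483) (nat_lit 388) (nat_lit 329))) (XT.nd (nat_lit 78) (nat_lit 76) (nat_lit 0) (XT.lf (nat_lit 0)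 (nat_lit 21548336673) (nat_lit 152) (nat_lit 8927837348) (nat_lit 0) (nat_lit 13715843304) (nat_lit 37) (nat_lit 5) (nat_lit 39) (nat_lit 4) (nat_lit 37) (nat_lit 4) (nat_lit 484) (nat_lit 388) (nat_lit 328)) (XT.lf (nat_lit 0) (nat_lit 17114072394) (nat_lit 76) (nat_lit 18241944124) (nat_lit 76) (nat_lit 10388353863) (nat_lit 36) (nat_lit 4) (nat_lit 37) (nat_lit 5) (nat_lit 37) (nat_lit 4) (nat_lit 485) (nat_lit 388) (nat_lit 327)))) (XT.nd (nat_lit 156) (nat_lit 228) (nat_lit 0) (XT.nd (nat_lit 78) (nat_lit 76) (nat_lit 0) (XT.lf (nat_lit 0) (nat_lit 2493154305) (nat_lit 152) (nat_lit 2762716213) (nat_lit 76) (nat_lit 42111895875) (nat_lit 35) (nat_lit 5) (nat_lit 37) (nat_lit 5) (nat_lit 36) (nat_lit 4) (nat_lit 486) (nat_lit 388) (nat_lit 326)) (XT.lf (nat_lit 0) (nat_lit 16139588950) (nat_lit 152) (nat_lit 24278110617) (nat_lit 0) (nat_lit 8622619387) (nat_lit 34) (nat_lit 5) (nat_lit 36)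 (nat_lit 4) (nat_lit 34) (nat_lit 4) (nat_lit 487) (nat_lit 388) (nat_lit 325))) (XT.nd (nat_lit 78) (nat_lit 152) (nat_lit 0) (XT.lf (nat_lit 0) (nat_lit 2852517906) (nat_lit 76) (nat_lit 27736145764) (nat_lit 76) (nat_lit 20201819735) (nat_lit 33) (nat_lit 4) (nat_lit 34) (nat_lit 5) (nat_lit 34) (nat_lit 4) (nat_lit 488) (nat_lit 388) (nat_lit 324)) (XT.nd (nat_lit 78) (nat_lit 152) (nat_lit 0) (XT.lf (nat_lit 0) (nat_lit 32067459623) (nat_lit 76) (nat_lit 14046921584) (nat_lit 76) (nat_lit 6496065588) (nat_lit 33) (nat_lit 4) (nat_lit 34) (nat_lit 5) (nat_lit 34) (nat_lit 4) (nat_lit 489) (nat_lit 388) (nat_lit 323)) (XT.lf (nat_lit 0) (nat_lit 7724317078) (nat_lit 152) (nat_lit 46268794340) (nat_lit 0) (nat_lit 518032487) (nat_lit 31) (nat_lit 5) (nat_lit 33) (nat_lit 4) (nat_lit 31) (nat_lit 4) (nat_lit 490) (nat_lit 388) (nat_lit 322))))))))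
noncomputable def xc136 : XT := (XT.nd (nat_lit 1248) (nat_lit 684) (nat_lit 0) (XT.nd (nat_lit 624) (nat_lit 304) (nat_lit 0) (XT.nd (nat_lit 312) (nat_lit 228) (nat_lit 0) (XT.nd (nat_lit 156) (nat_lit 152) (nat_lit 0) (XT.nd (nat_lit 78) (nat_lit 76) (nat_lit 0) (XT.lf (nat_lit 0) (nat_lit 22966194712) (nat_lit 152) (nat_lit 17763286437) (nat_lit 0) (nat_lit 15745630913) (nat_lit 31) (nat_lit 5) (nat_lit 33) (nat_lit 4) (nat_lit 31) (nat_lit 4) (nat_lit 491) (nat_lit 388) (nat_lit 321)) (XT.lf (nat_lit 0) (nat_lit 12460116049) (nat_lit 76) (nat_lit 26652111351) (nat_lit 76) (nat_lit 19417948308) (nat_lit 30) (nat_lit 4) (nat_lit 31) (nat_lit 5) (nat_lit 31) (nat_lit 4) (nat_lit 492) (nat_lit 388) (nat_lit 320))) (XT.nd (nat_lit 78) (nat_lit 152) (nat_lit 0) (XT.lf (nat_lit 0) (nat_lit 44706920132) (nat_lit 76) (nat_lit 11607863083) (nat_lit 76) (nat_lit 4360748379) (nat_lit 30) (nat_lit 4) (nat_lit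 31) (nat_lit 5) (nat_lit 31) (nat_lit 4) (nat_lit 493) (nat_lit 388) (nat_lit 319)) (XT.lf (nat_lit 0) (nat_lit 11352202928) (nat_lit 152) (nat_lit 47115106248) (nat_lit 0) (nat_lit 4438441385) (nat_lit 28) (nat_lit 5) (nat_lit 30) (nat_lit 4) (nat_lit 28) (nat_lit 4) (nat_lit 494) (nat_lit 388) (nat_lit 318)))) (XT.nd (nat_lit 156) (nat_lit 152) (nat_lit 0) (XT.nd (nat_lit 78) (nat_lit 76) (nat_lit 0) (XT.lf (nat_lit 0) (nat_lit 28119496288) (nat_lit 152) (nat_lit 15909101095) (nat_lit 0) (nat_lit 21194546613) (nat_lit 28) (nat_lit 5) (nat_lit 30) (nat_lit 4) (nat_lit 28) (nat_lit 4) (nat_lit 495) (nat_lit 388) (nat_lit 317)) (XT.lf (nat_lit 0) (nat_lit 17315026101) (nat_lit 76) (nat_lit 28632923201) (nat_lit 76) (nat_lit 21697318161) (nat_lit 27) (nat_lit 4) (nat_lit 28) (nat_lit 5) (nat_lit 28) (nat_lit 4) (nat_lit 496) (nat_lit 388) (nat_lit 316))) (XT.nd (nat_lit 78) (nat_lit 152) (nat_lit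 0) (XT.lf (nat_lit 0) (nat_lit 52657874850) (nat_lit 76) (nat_lit 12232620912) (nat_lit 76) (nat_lit 5286867906) (nat_lit 27) (nat_lit 4) (nat_lit 28) (nat_lit 5) (nat_lit 28) (nat_lit 4) (nat_lit 497) (nat_lit 388) (nat_lit 315)) (XT.lf (nat_lit 0) (nat_lit 11869768906) (nat_lit 152) (nat_lit 55696012786) (nat_lit 0) (nat_lit 5245561539) (nat_lit 25) (nat_lit 5) (nat_lit 27) (nat_lit 4) (nat_lit 25) (nat_lit 4) (nat_lit 498) (nat_lit 388) (nat_lit 314))))) (XT.nd (nat_lit 312) (nat_lit 76) (nat_lit 0) (XT.nd (nat_lit 156) (nat_lit 152) (nat_lit 0) (XT.nd (nat_lit 78) (nat_lit 76) (nat_lit 0) (XT.lf (nat_lit 0) (nat_lit 30163432974) (nat_lit 152) (nat_lit 21855952534) (nat_lit 0) (nat_lit 23530459413) (nat_lit 25) (nat_lit 5) (nat_lit 27) (nat_lit 4) (nat_lit 25) (nat_lit 4) (nat_lit 499) (nat_lit 388) (nat_lit 313)) (XT.lf (nat_lit 0) (nat_lit 14037960868) (nat_lit 76) (nat_lit 35509914244) (nat_lit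 76) (nat_lit 28868591927) (nat_lit 24) (nat_lit 4) (nat_lit 25) (nat_lit 5) (nat_lit 25) (nat_lit 4) (nat_lit 500) (nat_lit 388) (nat_lit 312))) (XT.nd (nat_lit 78) (nat_lit 152) (nat_lit 0) (XT.lf (nat_lit 0) (nat_lit 52399317502) (nat_lit 76) (nat_lit 17829993877) (nat_lit 76) (nat_lit 11180720363) (nat_lit 24) (nat_lit 4) (nat_lit 25) (nat_lit 5) (nat_lit 25) (nat_lit 4) (nat_lit 501) (nat_lit 388) (nat_lit 311)) (XT.lf (nat_lit 0) (nat_lit 7256593231) (nat_lit 152) (nat_lit 76369090367) (nat_lit 0) (nat_lit 916739820) (nat_lit 22) (nat_lit 5) (nat_lit 24) (nat_lit 4) (nat_lit 22) (nat_lit 4) (nat_lit 502) (nat_lit 388) (nat_lit 310)))) (XT.nd (nat_lit 156) (nat_lit 76) (nat_lit 0) (XT.nd (nat_lit 78) (nat_lit 0) (nat_lit 0) (XT.lf (nat_lit 0) (nat_lit 26990697272) (nat_lit 152) (nat_lit 40150064116) (nat_lit 0) (nat_lit 20643975318) (nat_lit 22) (nat_lit 5) (nat_lit 24) (nat_lit 4) (nat_lit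 22) (nat_lit 4) (nat_lit 503) (nat_lit 388) (nat_lit 309)) (XT.lf (nat_lit 0) (nat_lit 47672468946) (nat_lit 152) (nat_lit 2199443139) (nat_lit 0) (nat_lit 41319205522) (nat_lit 22) (nat_lit 5) (nat_lit 24) (nat_lit 4) (nat_lit 22) (nat_lit 4) (nat_lit 504) (nat_lit 388) (nat_lit 308))) (XT.nd (nat_lit 78) (nat_lit 0) (nat_lit 0) (XT.lf (nat_lit 0) (nat_lit 38815468588) (nat_lit 76) (nat_lit 31141700221) (nat_lit 76) (nat_lit 24782206827) (nat_lit 21) (nat_lit 4) (nat_lit 22) (nat_lit 5) (nat_lit 22) (nat_lit 4) (nat_lit 505) (nat_lit 388) (nat_lit 307)) (XT.lf (nat_lit 0) (nat_lit 81883126896) (nat_lit 76) (nat_lit 11473656228) (nat_lit 76) (nat_lit 5108229529) (nat_lit 21) (nat_lit 4) (nat_lit 22) (nat_lit 5) (nat_lit 22) (nat_lit 4) (nat_lit 506) (nat_lit 388) (nat_lit 306)))))) (XT.nd (nat_lit 624) (nat_lit 304) (nat_lit 0) (XT.nd (nat_lit 312) (nat_lit 152) (nat_lit 0) (XT.nd (nat_lit 156)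 (nat_lit 76) (nat_lit 0) (XT.nd (nat_lit 78) (nat_lit 0) (nat_lit 0) (XT.lf (nat_lit 0) (nat_lit 15563272599) (nat_lit 152) (nat_lit 77280365414) (nat_lit 0) (nat_lit 9495579774) (nat_lit 19) (nat_lit 5) (nat_lit 21) (nat_lit 4) (nat_lit 19) (nat_lit 4) (nat_lit 507) (nat_lit 388) (nat_lit 305)) (XT.lf (nat_lit 0) (nat_lit 37534817319) (nat_lit 152) (nat_lit 37384222882) (nat_lit 0) (nat_lit 31461999082) (nat_lit 19) (nat_lit 5) (nat_lit 21) (nat_lit 4) (nat_lit 19) (nat_lit 4) (nat_lit 508) (nat_lit 388) (nat_lit 304))) (XT.nd (nat_lit 78) (nat_lit 0) (nat_lit 0) (XT.lf (nat_lit 0) (nat_lit 4584894883) (nat_lit 76) (nat_lit 56057931133) (nat_lit 76) (nat_lit 49980231550) (nat_lit 18) (nat_lit 4) (nat_lit 19) (nat_lit 5) (nat_lit 19) (nat_lit 4) (nat_lit 509) (nat_lit 388) (nat_lit 303)) (XT.lf (nat_lit 0) (nat_lit 49882893259) (nat_lit 76) (nat_lit 35623316648) (nat_lit 76) (nat_lit 29540968166)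 (nat_lit 18) (nat_lit 4) (nat_lit 19) (nat_lit 5) (nat_lit 19) (nat_lit 4) (nat_lit 510) (nat_lit 388) (nat_lit 302)))) (XT.nd (nat_lit 156) (nat_lit 0) (nat_lit 0) (XT.nd (nat_lit 78) (nat_lit 152) (nat_lit 0) (XT.lf (nat_lit 0) (nat_lit 97381533382) (nat_lit 76) (nat_lit 14199662808) (nat_lit 76) (nat_lit 8112886801) (nat_lit 18) (nat_lit 4) (nat_lit 19) (nat_lit 5) (nat_lit 19) (nat_lit 4) (nat_lit 511) (nat_lit 388) (nat_lit 301)) (XT.lf (nat_lit 0) (nat_lit 14395410368) (nat_lit 152) (nat_lit 101548763492) (nat_lit 0) (nat_lit 8594464943) (nat_lit 16) (nat_lit 5) (nat_lit 18) (nat_lit 4) (nat_lit 16) (nat_lit 4) (nat_lit 512) (nat_lit 388) (nat_lit 300))) (XT.nd (nat_lit 78) (nat_lit 0) (nat_lit 0) (XT.lf (nat_lit 0) (nat_lit 38342782699) (nat_lit 152) (nat_lit 58708661901) (nat_lit 0) (nat_lit 32538012613) (nat_lit 16) (nat_lit 5) (nat_lit 18) (nat_lit 4) (nat_lit 16) (nat_lit 4) (nat_lit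 513) (nat_lit 388) (nat_lit 299)) (XT.lf (nat_lit 0) (nat_lit 63458434756) (nat_lit 152) (nat_lit 13785814135) (nat_lit 0) (nat_lit 57650022135) (nat_lit 16) (nat_lit 5) (nat_lit 18) (nat_lit 4) (nat_lit 16) (nat_lit 4) (nat_lit 514) (nat_lit 388) (nat_lit 298))))) (XT.nd (nat_lit 312) (nat_lit 76) (nat_lit 0) (XT.nd (nat_lit 156) (nat_lit 152) (nat_lit 0) (XT.nd (nat_lit 78) (nat_lit 0) (nat_lit 0) (XT.lf (nat_lit 0) (nat_lit 34428671464) (nat_lit 76) (nat_lit 55911022293) (nat_lit 76) (nat_lit 50099140591) (nat_lit 15) (nat_lit 4) (nat_lit 16) (nat_lit 5) (nat_lit 16) (nat_lit 4) (nat_lit 515) (nat_lit 388) (nat_lit 297)) (XT.lf (nat_lit 0) (nat_lit 85476966904) (nat_lit 76) (nat_lit 33294266826) (nat_lit 76) (nat_lit 27479081238) (nat_lit 15) (nat_lit 4) (nat_lit 16) (nat_lit 5) (nat_lit 16) (nat_lit 4) (nat_lit 516) (nat_lit 388) (nat_lit 296))) (XT.nd (nat_lit 78) (nat_lit 152) (nat_lit 0)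 (XT.lf (nat_lit 0) (nat_lit 139024794471) (nat_lit 76) (nat_lit 9573602507) (nat_lit 76) (nat_lit 3755270361) (nat_lit 15) (nat_lit 4) (nat_lit 16) (nat_lit 5) (nat_lit 16) (nat_lit 4) (nat_lit 517) (nat_lit 388) (nat_lit 295)) (XT.lf (nat_lit 0) (nat_lit 21288831824) (nat_lit 152) (nat_lit 121671572995) (nat_lit 0) (nat_lit 15744709092) (nat_lit 13) (nat_lit 5) (nat_lit 15) (nat_lit 4) (nat_lit 13) (nat_lit 4) (nat_lit 518) (nat_lit 388) (nat_lit 294)))) (XT.nd (nat_lit 156) (nat_lit 76) (nat_lit 0) (XT.nd (nat_lit 78) (nat_lit 0) (nat_lit 0) (XT.lf (nat_lit 0) (nat_lit 47820199423) (nat_lit 152) (nat_lit 75259433653) (nat_lit 0) (nat_lit 42273358574) (nat_lit 13) (nat_lit 5) (nat_lit 15) (nat_lit 4) (nat_lit 13) (nat_lit 4) (nat_lit 519) (nat_lit 388) (nat_lit 293)) (XT.lf (nat_lit 0) (nat_lit 75654217582) (nat_lit 152) (nat_lit 26575453559) (nat_lit 0) (nat_lit 70104788052) (nat_lit 13) (nat_lit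 5) (nat_lit 15) (nat_lit 4) (nat_lit 13) (nat_lit 4) (nat_lit 520) (nat_lit 388) (nat_lit 292))) (XT.nd (nat_lit 78) (nat_lit 0) (nat_lit 0) (XT.lf (nat_lit 0) (nat_lit 25306239219) (nat_lit 76) (nat_lit 79946019869) (nat_lit 76) (nat_lit 74394124928) (nat_lit 12) (nat_lit 4) (nat_lit 13) (nat_lit 5) (nat_lit 13) (nat_lit 4) (nat_lit 521) (nat_lit 388) (nat_lit 291)) (XT.lf (nat_lit 0) (nat_lit 80658961458) (nat_lit 76) (nat_lit 56098901784) (nat_lit 76) (nat_lit 50544658833) (nat_lit 12) (nat_lit 4) (nat_lit 13) (nat_lit 5) (nat_lit 13) (nat_lit 4) (nat_lit 522) (nat_lit 388) (nat_lit 290)))))))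
noncomputable def xc137 : XT := (XT.nd (nat_lit 1248) (nat_lit 304) (nat_lit 0) (XT.nd (nat_lit 624) (nat_lit 152) (nat_lit 0) (XT.nd (nat_lit 312) (nat_lit 76) (nat_lit 0) (XT.nd (nat_lit 156) (nat_lit 76) (nat_lit 0) (XT.nd (nat_lit 78) (nat_lit 76) (nat_lit 0) (XT.lf (nat_lit 0) (nat_lit 138735800840) (nat_lit 76) (nat_lit 31081606201) (nat_lit 76) (nat_lit 25525127049) (nat_lit 12) (nat_lit 4) (nat_lit 13) (nat_lit 5) (nat_lit 13) (nat_lit 4) (nat_lit 523) (nat_lit 388) (nat_lit 289)) (XT.lf (nat_lit 0) (nat_lit 700866911) (nat_lit 152) (nat_lit 4121831697) (nat_lit 76) (nat_lit 198962299121) (nat_lit 11) (nat_lit 5) (nat_lit 13) (nat_lit 5) (nat_lit 12) (nat_lit 4) (nat_lit 524) (nat_lit 388) (nat_lit 288))) (XT.nd (nat_lit 78) (nat_lit 0) (nat_lit 0) (XT.lf (nat_lit 0) (nat_lit 28550733700) (nat_lit 152) (nat_lit 160764520616) (nat_lit 0) (nat_lit 23254888780) (nat_lit 10) (nat_lit 5) (nat_lit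 12) (nat_lit 4) (nat_lit 10) (nat_lit 4) (nat_lit 525) (nat_lit 388) (nat_lit 287)) (XT.lf (nat_lit 0) (nat_lit 57923436499) (nat_lit 152) (nat_lit 111238840265) (nat_lit 0) (nat_lit 52625751851) (nat_lit 10) (nat_lit 5) (nat_lit 12) (nat_lit 4) (nat_lit 10) (nat_lit 4) (nat_lit 526) (nat_lit 388) (nat_lit 286)))) (XT.nd (nat_lit 156) (nat_lit 76) (nat_lit 0) (XT.nd (nat_lit 78) (nat_lit 0) (nat_lit 0) (XT.lf (nat_lit 0) (nat_lit 88746043462) (nat_lit 152) (nat_lit 59275094822) (nat_lit 0) (nat_lit 83446606694) (nat_lit 10) (nat_lit 5) (nat_lit 12) (nat_lit 4) (nat_lit 10) (nat_lit 4) (nat_lit 527) (nat_lit 388) (nat_lit 285)) (XT.lf (nat_lit 0) (nat_lit 121091941751) (nat_lit 152) (nat_lit 4749561083) (nat_lit 0) (nat_lit 115790836294) (nat_lit 10) (nat_lit 5) (nat_lit 12) (nat_lit 4) (nat_lit 10) (nat_lit 4) (nat_lit 528) (nat_lit 388) (nat_lit 284))) (XT.nd (nat_lit 78) (nat_lit 0) (nat_lit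 0) (XT.lf (nat_lit 0) (nat_lit 54202398917) (nat_lit 76) (nat_lit 101681997838) (nat_lit 76) (nat_lit 96379303156) (nat_lit 9) (nat_lit 4) (nat_lit 10) (nat_lit 5) (nat_lit 10) (nat_lit 4) (nat_lit 529) (nat_lit 388) (nat_lit 283)) (XT.lf (nat_lit 0) (nat_lit 116232744387) (nat_lit 76) (nat_lit 76247453219) (nat_lit 76) (nat_lit 70943244988) (nat_lit 9) (nat_lit 4) (nat_lit 10) (nat_lit 5) (nat_lit 10) (nat_lit 4) (nat_lit 530) (nat_lit 388) (nat_lit 282))))) (XT.nd (nat_lit 312) (nat_lit 0) (nat_lit 0) (XT.nd (nat_lit 156) (nat_lit 152) (nat_lit 0) (XT.nd (nat_lit 78) (nat_lit 0) (nat_lit 0) (XT.lf (nat_lit 0) (nat_lit 181332124685) (nat_lit 76) (nat_lit 49557746652) (nat_lit 76) (nat_lit 44252096947) (nat_lit 9) (nat_lit 4) (nat_lit 10) (nat_lit 5) (nat_lit 10) (nat_lit 4) (nat_lit 531) (nat_lit 388) (nat_lit 281)) (XT.lf (nat_lit 0) (nat_lit 249655538337) (nat_lit 76) (nat_lit 21549331217) (nat_lit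 76) (nat_lit 16242308679) (nat_lit 9) (nat_lit 4) (nat_lit 10) (nat_lit 5) (nat_lit 10) (nat_lit 4) (nat_lit 532) (nat_lit 388) (nat_lit 280))) (XT.nd (nat_lit 78) (nat_lit 0) (nat_lit 0) (XT.lf (nat_lit 0) (nat_lit 13198529907) (nat_lit 152) (nat_lit 278993260904) (nat_lit 0) (nat_lit 8142977528) (nat_lit 7) (nat_lit 5) (nat_lit 9) (nat_lit 4) (nat_lit 7) (nat_lit 4) (nat_lit 533) (nat_lit 388) (nat_lit 279)) (XT.lf (nat_lit 0) (nat_lit 44554671965) (nat_lit 152) (nat_lit 229751363470) (nat_lit 0) (nat_lit 39497933681) (nat_lit 7) (nat_lit 5) (nat_lit 9) (nat_lit 4) (nat_lit 7) (nat_lit 4) (nat_lit 534) (nat_lit 388) (nat_lit 278)))) (XT.nd (nat_lit 156) (nat_lit 0) (nat_lit 0) (XT.nd (nat_lit 78) (nat_lit 0) (nat_lit 0) (XT.lf (nat_lit 0) (nat_lit 77464649753) (nat_lit 152) (nat_lit 178075896721) (nat_lit 0) (nat_lit 72406782036) (nat_lit 7) (nat_lit 5) (nat_lit 9) (nat_lit 4) (nat_lit 7) (nat_lit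 4) (nat_lit 535) (nat_lit 388) (nat_lit 277)) (XT.lf (nat_lit 0) (nat_lit 112006820362) (nat_lit 152) (nat_lit 123843823831) (nat_lit 0) (nat_lit 106947876994) (nat_lit 7) (nat_lit 5) (nat_lit 9) (nat_lit 4) (nat_lit 7) (nat_lit 4) (nat_lit 536) (nat_lit 388) (nat_lit 276))) (XT.nd (nat_lit 78) (nat_lit 0) (nat_lit 0) (XT.lf (nat_lit 0) (nat_lit 148263427056) (nat_lit 152) (nat_lit 66926020819) (nat_lit 0) (nat_lit 143203459259) (nat_lit 7) (nat_lit 5) (nat_lit 9) (nat_lit 4) (nat_lit 7) (nat_lit 4) (nat_lit 537) (nat_lit 388) (nat_lit 275)) (XT.lf (nat_lit 0) (nat_lit 186320795088) (nat_lit 152) (nat_lit 7186969104) (nat_lit 0) (nat_lit 181259851644) (nat_lit 7) (nat_lit 5) (nat_lit 9) (nat_lit 4) (nat_lit 7) (nat_lit 4) (nat_lit 538) (nat_lit 388) (nat_lit 274)))))) (XT.nd (nat_lit 624) (nat_lit 76) (nat_lit 0) (XT.nd (nat_lit 312) (nat_lit 152) (nat_lit 0) (XT.nd (nat_lit 156) (nat_lit 0) (nat_lit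 0) (XT.nd (nat_lit 78) (nat_lit 0) (nat_lit 0) (XT.lf (nat_lit 0) (nat_lit 57351162515) (nat_lit 76) (nat_lit 169813787097) (nat_lit 76) (nat_lit 164751914466) (nat_lit 6) (nat_lit 4) (nat_lit 7) (nat_lit 5) (nat_lit 7) (nat_lit 4) (nat_lit 539) (nat_lit 388) (nat_lit 273)) (XT.lf (nat_lit 0) (nat_lit 125342626526) (nat_lit 76) (nat_lit 144819092710) (nat_lit 76) (nat_lit 139756335138) (nat_lit 6) (nat_lit 4) (nat_lit 7) (nat_lit 5) (nat_lit 7) (nat_lit 4) (nat_lit 540) (nat_lit 388) (nat_lit 272))) (XT.nd (nat_lit 78) (nat_lit 0) (nat_lit 0) (XT.lf (nat_lit 0) (nat_lit 196711673709) (nat_lit 76) (nat_lit 118585884653) (nat_lit 76) (nat_lit 113522284281) (nat_lit 6) (nat_lit 4) (nat_lit 7) (nat_lit 5) (nat_lit 7) (nat_lit 4) (nat_lit 541) (nat_lit 388) (nat_lit 271)) (XT.lf (nat_lit 0) (nat_lit 271628230367) (nat_lit 76) (nat_lit 91051702906) (nat_lit 76) (nat_lit 85987299867) (nat_lit 6) (nat_lit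 4) (nat_lit 7) (nat_lit 5) (nat_lit 7) (nat_lit 4) (nat_lit 542) (nat_lit 388) (nat_lit 270)))) (XT.nd (nat_lit 156) (nat_lit 152) (nat_lit 0) (XT.nd (nat_lit 78) (nat_lit 0) (nat_lit 0) (XT.lf (nat_lit 0) (nat_lit 350270669254) (nat_lit 76) (nat_lit 62150989895) (nat_lit 76) (nat_lit 57085822410) (nat_lit 6) (nat_lit 4) (nat_lit 7) (nat_lit 5) (nat_lit 7) (nat_lit 4) (nat_lit 543) (nat_lit 388) (nat_lit 269)) (XT.lf (nat_lit 0) (nat_lit 432826234273) (nat_lit 76) (nat_lit 31814934397) (nat_lit 76) (nat_lit 26749038870) (nat_lit 6) (nat_lit 4) (nat_lit 7) (nat_lit 5) (nat_lit 7) (nat_lit 4) (nat_lit 544) (nat_lit 388) (nat_lit 268))) (XT.nd (nat_lit 78) (nat_lit 0) (nat_lit 0) (XT.lf (nat_lit 0) (nat_lit 5016647904) (nat_lit 152) (nat_lit 509151339806) (nat_lit 0) (nat_lit 191325142) (nat_lit 4) (nat_lit 5) (nat_lit 6) (nat_lit 4) (nat_lit 4) (nat_lit 4) (nat_lit 545) (nat_lit 388) (nat_lit 267))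 (XT.lf (nat_lit 0) (nat_lit 38992297856) (nat_lit 152) (nat_lit 465220272858) (nat_lit 0) (nat_lit 34166346183) (nat_lit 4) (nat_lit 5) (nat_lit 6) (nat_lit 4) (nat_lit 4) (nat_lit 4) (nat_lit 546) (nat_lit 388) (nat_lit 266))))) (XT.nd (nat_lit 312) (nat_lit 76) (nat_lit 0) (XT.nd (nat_lit 156) (nat_lit 0) (nat_lit 0) (XT.nd (nat_lit 78) (nat_lit 0) (nat_lit 0) (XT.lf (nat_lit 0) (nat_lit 74658156262) (nat_lit 152) (nat_lit 419110167965) (nat_lit 0) (nat_lit 69831605626) (nat_lit 4) (nat_lit 5) (nat_lit 6) (nat_lit 4) (nat_lit 4) (nat_lit 4) (nat_lit 547) (nat_lit 388) (nat_lit 265)) (XT.lf (nat_lit 0) (nat_lit 112099141831) (nat_lit 152) (nat_lit 370711239165) (nat_lit 0) (nat_lit 107272020755) (nat_lit 4) (nat_lit 5) (nat_lit 6) (nat_lit 4) (nat_lit 4) (nat_lit 4) (nat_lit 548) (nat_lit 388) (nat_lit 264))) (XT.nd (nat_lit 78) (nat_lit 0) (nat_lit 0) (XT.lf (nat_lit 0) (nat_lit 151404399768)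 (nat_lit 152) (nat_lit 319908250911) (nat_lit 0) (nat_lit 146576735415) (nat_lit 4) (nat_lit 5) (nat_lit 6) (nat_lit 4) (nat_lit 4) (nat_lit 4) (nat_lit 549) (nat_lit 388) (nat_lit 263)) (XT.lf (nat_lit 0) (nat_lit 192667514021) (nat_lit 152) (nat_lit 266580243708) (nat_lit 0) (nat_lit 187839332261) (nat_lit 4) (nat_lit 5) (nat_lit 6) (nat_lit 4) (nat_lit 4) (nat_lit 4) (nat_lit 550) (nat_lit 388) (nat_lit 262)))) (XT.nd (nat_lit 156) (nat_lit 76) (nat_lit 0) (XT.nd (nat_lit 78) (nat_lit 0) (nat_lit 0) (XT.lf (nat_lit 0) (nat_lit 235986730098) (nat_lit 152) (nat_lit 210600246110) (nat_lit 0) (nat_lit 231158055571) (nat_lit 4) (nat_lit 5) (nat_lit 6) (nat_lit 4) (nat_lit 4) (nat_lit 4) (nat_lit 551) (nat_lit 388) (nat_lit 261)) (XT.lf (nat_lit 0) (nat_lit 281465188992) (nat_lit 152) (nat_lit 151834972409) (nat_lit 0) (nat_lit 276636045162) (nat_lit 4) (nat_lit 5) (nat_lit 6) (nat_lit 4) (nat_lit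 4) (nat_lit 4) (nat_lit 552) (nat_lit 388) (nat_lit 260))) (XT.nd (nat_lit 78) (nat_lit 76) (nat_lit 0) (XT.lf (nat_lit 0) (nat_lit 329211172746) (nat_lit 152) (nat_lit 90144505286) (nat_lit 0) (nat_lit 324381581961) (nat_lit 4) (nat_lit 5) (nat_lit 6) (nat_lit 4) (nat_lit 4) (nat_lit 4) (nat_lit 553) (nat_lit 388) (nat_lit 259)) (XT.nd (nat_lit 78) (nat_lit 76) (nat_lit 0) (XT.lf (nat_lit 0) (nat_lit 379338362275) (nat_lit 152) (nat_lit 25381962677) (nat_lit 0) (nat_lit 374508345818) (nat_lit 4) (nat_lit 5) (nat_lit 6) (nat_lit 4) (nat_lit 4) (nat_lit 4) (nat_lit 554) (nat_lit 388) (nat_lit 258)) (XT.lf (nat_lit 0) (nat_lit 44015626891) (nat_lit 76) (nat_lit 388637688428) (nat_lit 76) (nat_lit 383807266570) (nat_lit 3) (nat_lit 4) (nat_lit 4) (nat_lit 5) (nat_lit 4) (nat_lit 4) (nat_lit 555) (nat_lit 388) (nat_lit 257))))))))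
noncomputable def xc138 : XT := (XT.nd (nat_lit 53196) (nat_lit 0) (nat_lit 4940) (XT.nd (nat_lit 52572) (nat_lit 0) (nat_lit 7144) (XT.nd (nat_lit 52260) (nat_lit 0) (nat_lit 8740) (XT.nd (nat_lit 52104) (nat_lit 0) (nat_lit 9728) (XT.nd (nat_lit 52026) (nat_lit 0) (nat_lit 10412) (XT.lf (nat_lit 0) (nat_lit 117752636465) (nat_lit 76) (nat_lit 371305526358) (nat_lit 76) (nat_lit 366474718403) (nat_lit 3) (nat_lit 4) (nat_lit 4) (nat_lit 5) (nat_lit 4) (nat_lit 4) (nat_lit 556) (nat_lit 388) (nat_lit 256)) (XT.lf (nat_lit 0) (nat_lit 1865991456) (nat_lit 380) (nat_lit 189629470) (nat_lit 0) (nat_lit 1865991456) (nat_lit 140) (nat_lit 5) (nat_lit 145) (nat_lit 4) (nat_lit 140) (nat_lit 4) (nat_lit 422) (nat_lit 389) (nat_lit 389))) (XT.nd (nat_lit 78) (nat_lit 380) (nat_lit 0) (XT.lf (nat_lit 0) (nat_lit 6267370656) (nat_lit 304) (nat_lit 1489942093) (nat_lit 304) (nat_lit 219018035) (nat_lit 136)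 (nat_lit 4) (nat_lit 140) (nat_lit 5) (nat_lit 140) (nat_lit 4) (nat_lit 423) (nat_lit 389) (nat_lit 388)) (XT.lf (nat_lit 0) (nat_lit 3684578483) (nat_lit 380) (nat_lit 3110069276) (nat_lit 0) (nat_lit 1321409033) (nat_lit 131) (nat_lit 5) (nat_lit 136) (nat_lit 4) (nat_lit 131) (nat_lit 4) (nat_lit 424) (nat_lit 389) (nat_lit 387)))) (XT.nd (nat_lit 156) (nat_lit 380) (nat_lit 0) (XT.nd (nat_lit 78) (nat_lit 304) (nat_lit 0) (XT.lf (nat_lit 0) (nat_lit 3725851052) (nat_lit 304) (nat_lit 4000145568) (nat_lit 304) (nat_lit 539104132) (nat_lit 127) (nat_lit 4) (nat_lit 131) (nat_lit 5) (nat_lit 131) (nat_lit 4) (nat_lit 425) (nat_lit 389) (nat_lit 386)) (XT.lf (nat_lit 0) (nat_lit 2391497125) (nat_lit 228) (nat_lit 973444790) (nat_lit 304) (nat_lit 5057365221) (nat_lit 123) (nat_lit 5) (nat_lit 126) (nat_lit 5) (nat_lit 127) (nat_lit 4) (nat_lit 426) (nat_lit 389) (nat_lit 385))) (XT.nd (nat_lit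 78) (nat_lit 76) (nat_lit 0) (XT.lf (nat_lit 0) (nat_lit 1005875108) (nat_lit 304) (nat_lit 6411459401) (nat_lit 304) (nat_lit 1171044108) (nat_lit 119) (nat_lit 4) (nat_lit 123) (nat_lit 5) (nat_lit 123) (nat_lit 4) (nat_lit 427) (nat_lit 389) (nat_lit 384)) (XT.lf (nat_lit 0) (nat_lit 2780746292) (nat_lit 380) (nat_lit 443107392) (nat_lit 76) (nat_lit 5538423567) (nat_lit 118) (nat_lit 5) (nat_lit 123) (nat_lit 5) (nat_lit 119) (nat_lit 4) (nat_lit 428) (nat_lit 389) (nat_lit 383))))) (XT.nd (nat_lit 312) (nat_lit 608) (nat_lit 0) (XT.nd (nat_lit 156) (nat_lit 456) (nat_lit 0) (XT.nd (nat_lit 78) (nat_lit 304) (nat_lit 0) (XT.lf (nat_lit 0) (nat_lit 6855654371) (nat_lit 304) (nat_lit 1904698594) (nat_lit 0) (nat_lit 185322256) (nat_lit 115) (nat_lit 5) (nat_lit 119) (nat_lit 4) (nat_lit 115) (nat_lit 4) (nat_lit 429) (nat_lit 389) (nat_lit 382)) (XT.lf (nat_lit 0) (nat_lit 1936116332) (nat_lit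 304) (nat_lit 3481530756) (nat_lit 76) (nat_lit 3718848528) (nat_lit 111) (nat_lit 5) (nat_lit 115) (nat_lit 5) (nat_lit 112) (nat_lit 4) (nat_lit 430) (nat_lit 389) (nat_lit 381))) (XT.nd (nat_lit 78) (nat_lit 304) (nat_lit 0) (XT.lf (nat_lit 0) (nat_lit 4203900458) (nat_lit 152) (nat_lit 1843686210) (nat_lit 228) (nat_lit 3289851272) (nat_lit 109) (nat_lit 5) (nat_lit 111) (nat_lit 5) (nat_lit 112) (nat_lit 4) (nat_lit 431) (nat_lit 389) (nat_lit 380)) (XT.lf (nat_lit 0) (nat_lit 779683310) (nat_lit 304) (nat_lit 6879125673) (nat_lit 76) (nat_lit 1889507645) (nat_lit 105) (nat_lit 5) (nat_lit 109) (nat_lit 5) (nat_lit 106) (nat_lit 4) (nat_lit 432) (nat_lit 389) (nat_lit 379)))) (XT.nd (nat_lit 156) (nat_lit 456) (nat_lit 0) (XT.nd (nat_lit 78) (nat_lit 0) (nat_lit 0) (XT.lf (nat_lit 0) (nat_lit 998497989) (nat_lit 152) (nat_lit 3937051991) (nat_lit 228) (nat_lit 4831828161) (nat_lit 103) (nat_lit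 5) (nat_lit 105) (nat_lit 5) (nat_lit 106) (nat_lit 4) (nat_lit 433) (nat_lit 389) (nat_lit 378)) (XT.lf (nat_lit 0) (nat_lit 9278408783) (nat_lit 228) (nat_lit 708969471) (nat_lit 0) (nat_lit 11060522) (nat_lit 103) (nat_lit 5) (nat_lit 106) (nat_lit 4) (nat_lit 103) (nat_lit 4) (nat_lit 434) (nat_lit 389) (nat_lit 377))) (XT.nd (nat_lit 78) (nat_lit 152) (nat_lit 0) (XT.lf (nat_lit 0) (nat_lit 3536045463) (nat_lit 304) (nat_lit 2572955017) (nat_lit 76) (nat_lit 4126557884) (nat_lit 99) (nat_lit 5) (nat_lit 103) (nat_lit 5) (nat_lit 100) (nat_lit 4) (nat_lit 435) (nat_lit 389) (nat_lit 376)) (XT.lf (nat_lit 0) (nat_lit 5957132481) (nat_lit 152) (nat_lit 1997538687) (nat_lit 228) (nat_lit 2530580536) (nat_lit 97) (nat_lit 5) (nat_lit 99) (nat_lit 5) (nat_lit 100) (nat_lit 4) (nat_lit 436) (nat_lit 389) (nat_lit 375)))))) (XT.nd (nat_lit 624) (nat_lit 1140) (nat_lit 0) (XT.nd (nat_lit 312) (nat_lit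 456) (nat_lit 0) (XT.nd (nat_lit 156) (nat_lit 228) (nat_lit 0) (XT.nd (nat_lit 78) (nat_lit 152) (nat_lit 0) (XT.lf (nat_lit 0) (nat_lit 1803408379) (nat_lit 228) (nat_lit 6639099698) (nat_lit 76) (nat_lit 2302698687) (nat_lit 94) (nat_lit 5) (nat_lit 97) (nat_lit 5) (nat_lit 95) (nat_lit 4) (nat_lit 437) (nat_lit 389) (nat_lit 374)) (XT.lf (nat_lit 0) (nat_lit 2088901351) (nat_lit 152) (nat_lit 4194599485) (nat_lit 228) (nat_lit 4731866554) (nat_lit 92) (nat_lit 5) (nat_lit 94) (nat_lit 5) (nat_lit 95) (nat_lit 4) (nat_lit 438) (nat_lit 389) (nat_lit 373))) (XT.nd (nat_lit 78) (nat_lit 228) (nat_lit 0) (XT.lf (nat_lit 0) (nat_lit 10978596236) (nat_lit 228) (nat_lit 34431806) (nat_lit 0) (nat_lit 286462341) (nat_lit 92) (nat_lit 5) (nat_lit 95) (nat_lit 4) (nat_lit 92) (nat_lit 4) (nat_lit 439) (nat_lit 389) (nat_lit 372)) (XT.lf (nat_lit 0) (nat_lit 4267147499) (nat_lit 228) (nat_lit 2338554287)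 (nat_lit 76) (nat_lit 4984032171) (nat_lit 89) (nat_lit 5) (nat_lit 92) (nat_lit 5) (nat_lit 90) (nat_lit 4) (nat_lit 440) (nat_lit 389) (nat_lit 371)))) (XT.nd (nat_lit 156) (nat_lit 76) (nat_lit 0) (XT.nd (nat_lit 78) (nat_lit 228) (nat_lit 0) (XT.lf (nat_lit 0) (nat_lit 7121429455) (nat_lit 152) (nat_lit 1943421038) (nat_lit 228) (nat_lit 2829827691) (nat_lit 87) (nat_lit 5) (nat_lit 89) (nat_lit 5) (nat_lit 90) (nat_lit 4) (nat_lit 441) (nat_lit 389) (nat_lit 370)) (XT.lf (nat_lit 0) (nat_lit 1869875198) (nat_lit 228) (nat_lit 7422898389) (nat_lit 76) (nat_lit 2918489849) (nat_lit 84) (nat_lit 5) (nat_lit 87) (nat_lit 5) (nat_lit 85) (nat_lit 4) (nat_lit 442) (nat_lit 389) (nat_lit 369))) (XT.nd (nat_lit 78) (nat_lit 0) (nat_lit 0) (XT.lf (nat_lit 0) (nat_lit 2235348457) (nat_lit 76) (nat_lit 4504015271) (nat_lit 152) (nat_lit 5800502802) (nat_lit 83) (nat_lit 5) (nat_lit 84) (nat_lit 5) (nat_lit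 85) (nat_lit 4) (nat_lit 443) (nat_lit 389) (nat_lit 368)) (XT.lf (nat_lit 0) (nat_lit 11870274142) (nat_lit 152) (nat_lit 466422395) (nat_lit 0) (nat_lit 547308893) (nat_lit 83) (nat_lit 5) (nat_lit 85) (nat_lit 4) (nat_lit 83) (nat_lit 4) (nat_lit 444) (nat_lit 389) (nat_lit 367))))) (XT.nd (nat_lit 312) (nat_lit 532) (nat_lit 0) (XT.nd (nat_lit 156) (nat_lit 304) (nat_lit 0) (XT.nd (nat_lit 78) (nat_lit 76) (nat_lit 0) (XT.lf (nat_lit 0) (nat_lit 4001952017) (nat_lit 228) (nat_lit 3399023770) (nat_lit 76) (nat_lit 5835346285) (nat_lit 80) (nat_lit 5) (nat_lit 83) (nat_lit 5) (nat_lit 81) (nat_lit 4) (nat_lit 445) (nat_lit 389) (nat_lit 366)) (XT.lf (nat_lit 0) (nat_lit 7074061174) (nat_lit 76) (nat_lit 2166822016) (nat_lit 152) (nat_lit 4364216456) (nat_lit 79) (nat_lit 5) (nat_lit 80) (nat_lit 5) (nat_lit 81) (nat_lit 4) (nat_lit 446) (nat_lit 389) (nat_lit 365))) (XT.nd (nat_lit 78) (nat_lit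 76) (nat_lit 0) (XT.lf (nat_lit 0) (nat_lit 789466289) (nat_lit 228) (nat_lit 9928043808) (nat_lit 76) (nat_lit 3271022905) (nat_lit 76) (nat_lit 5) (nat_lit 79) (nat_lit 5) (nat_lit 77) (nat_lit 4) (nat_lit 447) (nat_lit 389) (nat_lit 364)) (XT.lf (nat_lit 0) (nat_lit 733971913) (nat_lit 76) (nat_lit 5368870915) (nat_lit 152) (nat_lit 8282286428) (nat_lit 75) (nat_lit 5) (nat_lit 76) (nat_lit 5) (nat_lit 77) (nat_lit 4) (nat_lit 448) (nat_lit 389) (nat_lit 363)))) (XT.nd (nat_lit 156) (nat_lit 304) (nat_lit 0) (XT.nd (nat_lit 78) (nat_lit 228) (nat_lit 0) (XT.lf (nat_lit 0) (nat_lit 11746635528) (nat_lit 152) (nat_lit 2730087475) (nat_lit 0) (nat_lit 321597102) (nat_lit 75) (nat_lit 5) (nat_lit 77) (nat_lit 4) (nat_lit 75) (nat_lit 4) (nat_lit 449) (nat_lit 389) (nat_lit 362)) (XT.lf (nat_lit 0) (nat_lit 2483909897) (nat_lit 228) (nat_lit 6532056662) (nat_lit 76) (nat_lit 6208222171) (nat_lit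 72) (nat_lit 5) (nat_lit 75) (nat_lit 5) (nat_lit 73) (nat_lit 4) (nat_lit 450) (nat_lit 389) (nat_lit 361))) (XT.nd (nat_lit 78) (nat_lit 228) (nat_lit 0) (XT.lf (nat_lit 0) (nat_lit 5026610788) (nat_lit 76) (nat_lit 3188139688) (nat_lit 152) (nat_lit 7453049635) (nat_lit 71) (nat_lit 5) (nat_lit 72) (nat_lit 5) (nat_lit 73) (nat_lit 4) (nat_lit 451) (nat_lit 389) (nat_lit 360)) (XT.nd (nat_lit 78) (nat_lit 76) (nat_lit 0) (XT.lf (nat_lit 0) (nat_lit 1052761436) (nat_lit 152) (nat_lit 13250150054) (nat_lit 152) (nat_lit 1827143421) (nat_lit 69) (nat_lit 4) (nat_lit 71) (nat_lit 5) (nat_lit 71) (nat_lit 4) (nat_lit 452) (nat_lit 389) (nat_lit 359)) (XT.lf (nat_lit 0) (nat_lit 4081319307) (nat_lit 228) (nat_lit 3220047427) (nat_lit 76) (nat_lit 9304279834) (nat_lit 68) (nat_lit 5) (nat_lit 71) (nat_lit 5) (nat_lit 69) (nat_lit 4) (nat_lit 453) (nat_lit 389) (nat_lit 358))))))))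
noncomputable def xc139 : XT := (XT.nd (nat_lit 1248) (nat_lit 1216) (nat_lit 0) (XT.nd (nat_lit 624) (nat_lit 532) (nat_lit 0) (XT.nd (nat_lit 312) (nat_lit 380) (nat_lit 0) (XT.nd (nat_lit 156) (nat_lit 152) (nat_lit 0) (XT.nd (nat_lit 78) (nat_lit 76) (nat_lit 0) (XT.lf (nat_lit 0) (nat_lit 9311895699) (nat_lit 76) (nat_lit 958638779) (nat_lit 152) (nat_lit 6830650533) (nat_lit 67) (nat_lit 5) (nat_lit 68) (nat_lit 5) (nat_lit 69) (nat_lit 4) (nat_lit 454) (nat_lit 389) (nat_lit 357)) (XT.lf (nat_lit 0) (nat_lit 4841776454) (nat_lit 76) (nat_lit 12049302575) (nat_lit 76) (nat_lit 724329371) (nat_lit 66) (nat_lit 4) (nat_lit 67) (nat_lit 5) (nat_lit 67) (nat_lit 4) (nat_lit 455) (nat_lit 389) (nat_lit 356))) (XT.nd (nat_lit 78) (nat_lit 76) (nat_lit 0) (XT.lf (nat_lit 0) (nat_lit 5557132566) (nat_lit 152) (nat_lit 67565167) (nat_lit 76) (nat_lit 12523614099) (nat_lit 65) (nat_lit 5) (nat_lit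 67) (nat_lit 5) (nat_lit 66) (nat_lit 4) (nat_lit 456) (nat_lit 389) (nat_lit 355)) (XT.lf (nat_lit 0) (nat_lit 12265914507) (nat_lit 152) (nat_lit 5204736380) (nat_lit 0) (nat_lit 1229737636) (nat_lit 64) (nat_lit 5) (nat_lit 66) (nat_lit 4) (nat_lit 64) (nat_lit 4) (nat_lit 457) (nat_lit 389) (nat_lit 354)))) (XT.nd (nat_lit 156) (nat_lit 152) (nat_lit 0) (XT.nd (nat_lit 78) (nat_lit 76) (nat_lit 0) (XT.lf (nat_lit 0) (nat_lit 163848237) (nat_lit 152) (nat_lit 10816658764) (nat_lit 76) (nat_lit 8292802513) (nat_lit 62) (nat_lit 5) (nat_lit 64) (nat_lit 5) (nat_lit 63) (nat_lit 4) (nat_lit 458) (nat_lit 389) (nat_lit 353)) (XT.lf (nat_lit 0) (nat_lit 2919185133) (nat_lit 76) (nat_lit 3999137841) (nat_lit 152) (nat_lit 12949156662) (nat_lit 61) (nat_lit 5) (nat_lit 62) (nat_lit 5) (nat_lit 63) (nat_lit 4) (nat_lit 459) (nat_lit 389) (nat_lit 352))) (XT.nd (nat_lit 78) (nat_lit 152) (nat_lit 0)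 (XT.lf (nat_lit 0) (nat_lit 14156377546) (nat_lit 152) (nat_lit 2998862537) (nat_lit 0) (nat_lit 3328826410) (nat_lit 61) (nat_lit 5) (nat_lit 63) (nat_lit 4) (nat_lit 61) (nat_lit 4) (nat_lit 460) (nat_lit 389) (nat_lit 351)) (XT.lf (nat_lit 0) (nat_lit 769180796) (nat_lit 152) (nat_lit 9346469031) (nat_lit 76) (nat_lit 11007129627) (nat_lit 59) (nat_lit 5) (nat_lit 61) (nat_lit 5) (nat_lit 60) (nat_lit 4) (nat_lit 461) (nat_lit 389) (nat_lit 350))))) (XT.nd (nat_lit 312) (nat_lit 228) (nat_lit 0) (XT.nd (nat_lit 156) (nat_lit 228) (nat_lit 0) (XT.nd (nat_lit 78) (nat_lit 0) (nat_lit 0) (XT.lf (nat_lit 0) (nat_lit 5504447536) (nat_lit 76) (nat_lit 2553560635) (nat_lit 152) (nat_lit 13727745857) (nat_lit 58) (nat_lit 5) (nat_lit 59) (nat_lit 5) (nat_lit 60) (nat_lit 4) (nat_lit 462) (nat_lit 389) (nat_lit 349)) (XT.lf (nat_lit 0) (nat_lit 15868750448) (nat_lit 152) (nat_lit 1309176830) (nat_lit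 0) (nat_lit 5296077225) (nat_lit 58) (nat_lit 5) (nat_lit 60) (nat_lit 4) (nat_lit 58) (nat_lit 4) (nat_lit 463) (nat_lit 389) (nat_lit 348))) (XT.nd (nat_lit 78) (nat_lit 76) (nat_lit 0) (XT.lf (nat_lit 0) (nat_lit 1036148810) (nat_lit 152) (nat_lit 8527332486) (nat_lit 76) (nat_lit 13622968220) (nat_lit 56) (nat_lit 5) (nat_lit 58) (nat_lit 5) (nat_lit 57) (nat_lit 4) (nat_lit 464) (nat_lit 389) (nat_lit 347)) (XT.lf (nat_lit 0) (nat_lit 7506575338) (nat_lit 76) (nat_lit 1387583943) (nat_lit 152) (nat_lit 15032118223) (nat_lit 55) (nat_lit 5) (nat_lit 56) (nat_lit 5) (nat_lit 57) (nat_lit 4) (nat_lit 465) (nat_lit 389) (nat_lit 346)))) (XT.nd (nat_lit 156) (nat_lit 76) (nat_lit 0) (XT.nd (nat_lit 78) (nat_lit 152) (nat_lit 0) (XT.lf (nat_lit 0) (nat_lit 17321237257) (nat_lit 152) (nat_lit 335522116) (nat_lit 0) (nat_lit 7037529872) (nat_lit 55) (nat_lit 5) (nat_lit 57) (nat_lit 4) (nat_lit 55)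 (nat_lit 4) (nat_lit 466) (nat_lit 389) (nat_lit 345)) (XT.lf (nat_lit 0) (nat_lit 858788397) (nat_lit 152) (nat_lit 8587990775) (nat_lit 76) (nat_lit 16042839211) (nat_lit 53) (nat_lit 5) (nat_lit 55) (nat_lit 5) (nat_lit 54) (nat_lit 4) (nat_lit 467) (nat_lit 389) (nat_lit 344))) (XT.nd (nat_lit 78) (nat_lit 0) (nat_lit 0) (XT.lf (nat_lit 0) (nat_lit 8689534534) (nat_lit 76) (nat_lit 627419335) (nat_lit 152) (nat_lit 16998591431) (nat_lit 52) (nat_lit 5) (nat_lit 53) (nat_lit 5) (nat_lit 54) (nat_lit 4) (nat_lit 468) (nat_lit 389) (nat_lit 343)) (XT.lf (nat_lit 0) (nat_lit 18401902998) (nat_lit 152) (nat_lit 339241802) (nat_lit 0) (nat_lit 8431430568) (nat_lit 52) (nat_lit 5) (nat_lit 54) (nat_lit 4) (nat_lit 52) (nat_lit 4) (nat_lit 469) (nat_lit 389) (nat_lit 342)))))) (XT.nd (nat_lit 624) (nat_lit 532) (nat_lit 0) (XT.nd (nat_lit 312) (nat_lit 380) (nat_lit 0) (XT.nd (nat_lit 156) (nat_lit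 76) (nat_lit 0) (XT.nd (nat_lit 78) (nat_lit 76) (nat_lit 0) (XT.lf (nat_lit 0) (nat_lit 96484712) (nat_lit 152) (nat_lit 9825989565) (nat_lit 76) (nat_lit 18138903839) (nat_lit 50) (nat_lit 5) (nat_lit 52) (nat_lit 5) (nat_lit 51) (nat_lit 4) (nat_lit 470) (nat_lit 389) (nat_lit 341)) (XT.lf (nat_lit 0) (nat_lit 8743834079) (nat_lit 76) (nat_lit 435868111) (nat_lit 152) (nat_lit 19804357499) (nat_lit 49) (nat_lit 5) (nat_lit 50) (nat_lit 5) (nat_lit 51) (nat_lit 4) (nat_lit 471) (nat_lit 389) (nat_lit 340))) (XT.nd (nat_lit 78) (nat_lit 76) (nat_lit 0) (XT.lf (nat_lit 0) (nat_lit 18960187555) (nat_lit 152) (nat_lit 1661211900) (nat_lit 0) (nat_lit 9319321008) (nat_lit 49) (nat_lit 5) (nat_lit 51) (nat_lit 4) (nat_lit 49) (nat_lit 4) (nat_lit 472) (nat_lit 389) (nat_lit 339)) (XT.lf (nat_lit 0) (nat_lit 18283359250) (nat_lit 76) (nat_lit 11167755046) (nat_lit 76) (nat_lit 1483029576) (nat_lit 48)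 (nat_lit 4) (nat_lit 49) (nat_lit 5) (nat_lit 49) (nat_lit 4) (nat_lit 473) (nat_lit 389) (nat_lit 338)))) (XT.nd (nat_lit 156) (nat_lit 228) (nat_lit 0) (XT.nd (nat_lit 78) (nat_lit 0) (nat_lit 0) (XT.lf (nat_lit 0) (nat_lit 7265022930) (nat_lit 76) (nat_lit 1023522827) (nat_lit 152) (nat_lit 23678520526) (nat_lit 46) (nat_lit 5) (nat_lit 47) (nat_lit 5) (nat_lit 48) (nat_lit 4) (nat_lit 474) (nat_lit 389) (nat_lit 337)) (XT.lf (nat_lit 0) (nat_lit 18795956102) (nat_lit 152) (nat_lit 4744869002) (nat_lit 0) (nat_lit 9494739713) (nat_lit 46) (nat_lit 5) (nat_lit 48) (nat_lit 4) (nat_lit 46) (nat_lit 4) (nat_lit 475) (nat_lit 389) (nat_lit 336))) (XT.nd (nat_lit 78) (nat_lit 152) (nat_lit 0) (XT.lf (nat_lit 0) (nat_lit 16589464769) (nat_lit 76) (nat_lit 13447456939) (nat_lit 76) (nat_lit 4110157704) (nat_lit 45) (nat_lit 4) (nat_lit 46) (nat_lit 5) (nat_lit 46) (nat_lit 4) (nat_lit 476) (nat_lit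 389) (nat_lit 335)) (XT.lf (nat_lit 0) (nat_lit 3726208803) (nat_lit 76) (nat_lit 2662997367) (nat_lit 152) (nat_lit 28916254349) (nat_lit 43) (nat_lit 5) (nat_lit 44) (nat_lit 5) (nat_lit 45) (nat_lit 4) (nat_lit 477) (nat_lit 389) (nat_lit 334))))) (XT.nd (nat_lit 312) (nat_lit 304) (nat_lit 0) (XT.nd (nat_lit 156) (nat_lit 152) (nat_lit 0) (XT.nd (nat_lit 78) (nat_lit 76) (nat_lit 0) (XT.lf (nat_lit 0) (nat_lit 17645411203) (nat_lit 152) (nat_lit 10165633414) (nat_lit 0) (nat_lit 8688847344) (nat_lit 43) (nat_lit 5) (nat_lit 45) (nat_lit 4) (nat_lit 43) (nat_lit 4) (nat_lit 478) (nat_lit 389) (nat_lit 333)) (XT.lf (nat_lit 0) (nat_lit 12548003160) (nat_lit 76) (nat_lit 17091762240) (nat_lit 76) (nat_lit 8105512935) (nat_lit 42) (nat_lit 4) (nat_lit 43) (nat_lit 5) (nat_lit 43) (nat_lit 4) (nat_lit 479) (nat_lit 389) (nat_lit 332))) (XT.nd (nat_lit 78) (nat_lit 76) (nat_lit 0) (XT.lf (nat_lit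 0) (nat_lit 3189897667) (nat_lit 152) (nat_lit 2475230939) (nat_lit 76) (nat_lit 33379782398) (nat_lit 41) (nat_lit 5) (nat_lit 43) (nat_lit 5) (nat_lit 42) (nat_lit 4) (nat_lit 480) (nat_lit 389) (nat_lit 331)) (XT.lf (nat_lit 0) (nat_lit 15163002617) (nat_lit 152) (nat_lit 18668512013) (nat_lit 0) (nat_lit 6552100968) (nat_lit 40) (nat_lit 5) (nat_lit 42) (nat_lit 4) (nat_lit 40) (nat_lit 4) (nat_lit 481) (nat_lit 389) (nat_lit 330)))) (XT.nd (nat_lit 156) (nat_lit 228) (nat_lit 0) (XT.nd (nat_lit 78) (nat_lit 0) (nat_lit 0) (XT.lf (nat_lit 0) (nat_lit 5369399487) (nat_lit 76) (nat_lit 22523633313) (nat_lit 76) (nat_lit 13888309374) (nat_lit 39) (nat_lit 4) (nat_lit 40) (nat_lit 5) (nat_lit 40) (nat_lit 4) (nat_lit 482) (nat_lit 389) (nat_lit 329)) (XT.lf (nat_lit 0) (nat_lit 31136686516) (nat_lit 76) (nat_lit 10379022420) (nat_lit 76) (nat_lit 1720439158) (nat_lit 39) (nat_lit 4) (nat_lit 40)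 (nat_lit 5) (nat_lit 40) (nat_lit 4) (nat_lit 483) (nat_lit 389) (nat_lit 328))) (XT.nd (nat_lit 78) (nat_lit 76) (nat_lit 0) (XT.lf (nat_lit 0) (nat_lit 10898229925) (nat_lit 152) (nat_lit 31216157684) (nat_lit 0) (nat_lit 2630863259) (nat_lit 37) (nat_lit 5) (nat_lit 39) (nat_lit 4) (nat_lit 37) (nat_lit 4) (nat_lit 484) (nat_lit 389) (nat_lit 327)) (XT.nd (nat_lit 78) (nat_lit 76) (nat_lit 0) (XT.lf (nat_lit 0) (nat_lit 24410405788) (nat_lit 152) (nat_lit 5779026591) (nat_lit 0) (nat_lit 16122946845) (nat_lit 37) (nat_lit 5) (nat_lit 39) (nat_lit 4) (nat_lit 37) (nat_lit 4) (nat_lit 485) (nat_lit 389) (nat_lit 326)) (XT.lf (nat_lit 0) (nat_lit 21506991499) (nat_lit 76) (nat_lit 17371720531) (nat_lit 76) (nat_lit 9065126084) (nat_lit 36) (nat_lit 4) (nat_lit 37) (nat_lit 5) (nat_lit 37) (nat_lit 4) (nat_lit 486) (nat_lit 389) (nat_lit 325))))))))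
noncomputable def xc140 : XT := (XT.nd (nat_lit 1248) (nat_lit 836) (nat_lit 0) (XT.nd (nat_lit 624) (nat_lit 456) (nat_lit 0) (XT.nd (nat_lit 312) (nat_lit 228) (nat_lit 0) (XT.nd (nat_lit 156) (nat_lit 76) (nat_lit 0) (XT.nd (nat_lit 78) (nat_lit 0) (nat_lit 0) (XT.lf (nat_lit 0) (nat_lit 541426934) (nat_lit 76) (nat_lit 3783570953) (nat_lit 152) (nat_lit 45325792044) (nat_lit 34) (nat_lit 5) (nat_lit 35) (nat_lit 5) (nat_lit 36) (nat_lit 4) (nat_lit 487) (nat_lit 389) (nat_lit 324)) (XT.lf (nat_lit 0) (nat_lit 18643549811) (nat_lit 152) (nat_lit 22065309745) (nat_lit 0) (nat_lit 10698621049) (nat_lit 34) (nat_lit 5) (nat_lit 36) (nat_lit 4) (nat_lit 34) (nat_lit 4) (nat_lit 488) (nat_lit 389) (nat_lit 323))) (XT.nd (nat_lit 78) (nat_lit 0) (nat_lit 0) (XT.lf (nat_lit 0) (nat_lit 6366580747) (nat_lit 76) (nat_lit 27420326460) (nat_lit 76) (nat_lit 19459654872) (nat_lit 33) (nat_lit 4) (nat_lit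 34) (nat_lit 5) (nat_lit 34) (nat_lit 4) (nat_lit 489) (nat_lit 389) (nat_lit 322)) (XT.lf (nat_lit 0) (nat_lit 36881724933) (nat_lit 76) (nat_lit 13127718528) (nat_lit 76) (nat_lit 5152053773) (nat_lit 33) (nat_lit 4) (nat_lit 34) (nat_lit 5) (nat_lit 34) (nat_lit 4) (nat_lit 490) (nat_lit 389) (nat_lit 321)))) (XT.nd (nat_lit 156) (nat_lit 76) (nat_lit 0) (XT.nd (nat_lit 78) (nat_lit 0) (nat_lit 0) (XT.lf (nat_lit 0) (nat_lit 9724494755) (nat_lit 152) (nat_lit 45316479640) (nat_lit 0) (nat_lit 2115024315) (nat_lit 31) (nat_lit 5) (nat_lit 33) (nat_lit 4) (nat_lit 31) (nat_lit 4) (nat_lit 491) (nat_lit 389) (nat_lit 320)) (XT.lf (nat_lit 0) (nat_lit 25651610945) (nat_lit 152) (nat_lit 15541208457) (nat_lit 0) (nat_lit 18029188843) (nat_lit 31) (nat_lit 5) (nat_lit 33) (nat_lit 4) (nat_lit 31) (nat_lit 4) (nat_lit 492) (nat_lit 389) (nat_lit 319))) (XT.nd (nat_lit 78) (nat_lit 0) (nat_lit 0) (XT.lf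 (nat_lit 0) (nat_lit 16143198954) (nat_lit 76) (nat_lit 26436327144) (nat_lit 76) (nat_lit 18801570127) (nat_lit 30) (nat_lit 4) (nat_lit 31) (nat_lit 5) (nat_lit 31) (nat_lit 4) (nat_lit 493) (nat_lit 389) (nat_lit 318)) (XT.lf (nat_lit 0) (nat_lit 49856625285) (nat_lit 76) (nat_lit 10713599310) (nat_lit 76) (nat_lit 3067094754) (nat_lit 30) (nat_lit 4) (nat_lit 31) (nat_lit 5) (nat_lit 31) (nat_lit 4) (nat_lit 494) (nat_lit 389) (nat_lit 317))))) (XT.nd (nat_lit 312) (nat_lit 228) (nat_lit 0) (XT.nd (nat_lit 156) (nat_lit 76) (nat_lit 0) (XT.nd (nat_lit 78) (nat_lit 0) (nat_lit 0) (XT.lf (nat_lit 0) (nat_lit 13381991685) (nat_lit 152) (nat_lit 46506983074) (nat_lit 0) (nat_lit 6088951030) (nat_lit 28) (nat_lit 5) (nat_lit 30) (nat_lit 4) (nat_lit 28) (nat_lit 4) (nat_lit 495) (nat_lit 389) (nat_lit 316)) (XT.lf (nat_lit 0) (nat_lit 30918022160) (nat_lit 152) (nat_lit 13881814735) (nat_lit 0)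 (nat_lit 23614833539) (nat_lit 28) (nat_lit 5) (nat_lit 30) (nat_lit 4) (nat_lit 28) (nat_lit 4) (nat_lit 496) (nat_lit 389) (nat_lit 315))) (XT.nd (nat_lit 78) (nat_lit 0) (nat_lit 0) (XT.lf (nat_lit 0) (nat_lit 20957990734) (nat_lit 76) (nat_lit 28656955219) (nat_lit 76) (nat_lit 21344101868) (nat_lit 27) (nat_lit 4) (nat_lit 28) (nat_lit 5) (nat_lit 28) (nat_lit 4) (nat_lit 497) (nat_lit 389) (nat_lit 314)) (XT.lf (nat_lit 0) (nat_lit 57935733667) (nat_lit 76) (nat_lit 11503667060) (nat_lit 76) (nat_lit 4181609205) (nat_lit 27) (nat_lit 4) (nat_lit 28) (nat_lit 5) (nat_lit 28) (nat_lit 4) (nat_lit 498) (nat_lit 389) (nat_lit 313)))) (XT.nd (nat_lit 156) (nat_lit 76) (nat_lit 0) (XT.nd (nat_lit 78) (nat_lit 0) (nat_lit 0) (XT.lf (nat_lit 0) (nat_lit 13788139121) (nat_lit 152) (nat_lit 55791122612) (nat_lit 0) (nat_lit 6806401931) (nat_lit 25) (nat_lit 5) (nat_lit 27) (nat_lit 4) (nat_lit 25)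 (nat_lit 4) (nat_lit 499) (nat_lit 389) (nat_lit 312)) (XT.lf (nat_lit 0) (nat_lit 32933396784) (nat_lit 152) (nat_lit 20387139863) (nat_lit 0) (nat_lit 25943708398) (nat_lit 25) (nat_lit 5) (nat_lit 27) (nat_lit 4) (nat_lit 25) (nat_lit 4) (nat_lit 500) (nat_lit 389) (nat_lit 311))) (XT.nd (nat_lit 78) (nat_lit 0) (nat_lit 0) (XT.lf (nat_lit 0) (nat_lit 17260152914) (nat_lit 76) (nat_lit 36006171627) (nat_lit 76) (nat_lit 29008910672) (nat_lit 24) (nat_lit 4) (nat_lit 25) (nat_lit 5) (nat_lit 25) (nat_lit 4) (nat_lit 501) (nat_lit 389) (nat_lit 310)) (XT.lf (nat_lit 0) (nat_lit 57419563379) (nat_lit 76) (nat_lit 17503171353) (nat_lit 76) (nat_lit 10498698428) (nat_lit 24) (nat_lit 4) (nat_lit 25) (nat_lit 5) (nat_lit 25) (nat_lit 4) (nat_lit 502) (nat_lit 389) (nat_lit 309)))))) (XT.nd (nat_lit 624) (nat_lit 380) (nat_lit 0) (XT.nd (nat_lit 312) (nat_lit 228) (nat_lit 0) (XT.nd (nat_lit 156) (nat_lit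 76) (nat_lit 0) (XT.nd (nat_lit 78) (nat_lit 0) (nat_lit 0) (XT.lf (nat_lit 0) (nat_lit 8820066207) (nat_lit 152) (nat_lit 77746846003) (nat_lit 0) (nat_lit 2142598143) (nat_lit 22) (nat_lit 5) (nat_lit 24) (nat_lit 4) (nat_lit 22) (nat_lit 4) (nat_lit 503) (nat_lit 389) (nat_lit 308)) (XT.lf (nat_lit 0) (nat_lit 29483701959) (nat_lit 152) (nat_lit 39833092197) (nat_lit 0) (nat_lit 22800003925) (nat_lit 22) (nat_lit 5) (nat_lit 24) (nat_lit 4) (nat_lit 22) (nat_lit 4) (nat_lit 504) (nat_lit 389) (nat_lit 307))) (XT.nd (nat_lit 78) (nat_lit 76) (nat_lit 0) (XT.lf (nat_lit 0) (nat_lit 51145111272) (nat_lit 152) (nat_lit 95629462) (nat_lit 0) (nat_lit 44455479932) (nat_lit 22) (nat_lit 5) (nat_lit 24) (nat_lit 4) (nat_lit 22) (nat_lit 4) (nat_lit 505) (nat_lit 389) (nat_lit 306)) (XT.lf (nat_lit 0) (nat_lit 42934321628) (nat_lit 76) (nat_lit 31591872386) (nat_lit 76) (nat_lit 24896590279) (nat_lit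 21) (nat_lit 4) (nat_lit 22) (nat_lit 5) (nat_lit 22) (nat_lit 4) (nat_lit 506) (nat_lit 389) (nat_lit 305)))) (XT.nd (nat_lit 156) (nat_lit 76) (nat_lit 0) (XT.nd (nat_lit 78) (nat_lit 152) (nat_lit 0) (XT.lf (nat_lit 0) (nat_lit 88051644775) (nat_lit 76) (nat_lit 10993136329) (nat_lit 76) (nat_lit 4292472539) (nat_lit 21) (nat_lit 4) (nat_lit 22) (nat_lit 5) (nat_lit 22) (nat_lit 4) (nat_lit 507) (nat_lit 389) (nat_lit 304)) (XT.lf (nat_lit 0) (nat_lit 17377803462) (nat_lit 152) (nat_lit 79035217754) (nat_lit 0) (nat_lit 10991337555) (nat_lit 19) (nat_lit 5) (nat_lit 21) (nat_lit 4) (nat_lit 19) (nat_lit 4) (nat_lit 508) (nat_lit 389) (nat_lit 303))) (XT.nd (nat_lit 78) (nat_lit 76) (nat_lit 0) (XT.lf (nat_lit 0) (nat_lit 40398574598) (nat_lit 152) (nat_lit 37244704568) (nat_lit 0) (nat_lit 34007459791) (nat_lit 19) (nat_lit 5) (nat_lit 21) (nat_lit 4) (nat_lit 19) (nat_lit 4) (nat_lit 509) (nat_lit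 389) (nat_lit 302)) (XT.lf (nat_lit 0) (nat_lit 6790470223) (nat_lit 76) (nat_lit 57855368784) (nat_lit 76) (nat_lit 51459826453) (nat_lit 18) (nat_lit 4) (nat_lit 19) (nat_lit 5) (nat_lit 19) (nat_lit 4) (nat_lit 510) (nat_lit 389) (nat_lit 301))))) (XT.nd (nat_lit 312) (nat_lit 228) (nat_lit 0) (XT.nd (nat_lit 156) (nat_lit 152) (nat_lit 0) (XT.nd (nat_lit 78) (nat_lit 0) (nat_lit 0) (XT.lf (nat_lit 0) (nat_lit 54259257537) (nat_lit 76) (nat_lit 36446902571) (nat_lit 76) (nat_lit 30047143551) (nat_lit 18) (nat_lit 4) (nat_lit 19) (nat_lit 5) (nat_lit 19) (nat_lit 4) (nat_lit 511) (nat_lit 389) (nat_lit 300)) (XT.lf (nat_lit 0) (nat_lit 104043200161) (nat_lit 76) (nat_lit 13997665081) (nat_lit 76) (nat_lit 7593890167) (nat_lit 18) (nat_lit 4) (nat_lit 19) (nat_lit 5) (nat_lit 19) (nat_lit 4) (nat_lit 512) (nat_lit 389) (nat_lit 299))) (XT.nd (nat_lit 78) (nat_lit 0) (nat_lit 0) (XT.lf (nat_lit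 0) (nat_lit 16009841668) (nat_lit 152) (nat_lit 104803629003) (nat_lit 0) (nat_lit 9907365881) (nat_lit 16) (nat_lit 5) (nat_lit 18) (nat_lit 4) (nat_lit 16) (nat_lit 4) (nat_lit 513) (nat_lit 389) (nat_lit 298)) (XT.lf (nat_lit 0) (nat_lit 41111979722) (nat_lit 152) (nat_lit 59908311507) (nat_lit 0) (nat_lit 35006034854) (nat_lit 16) (nat_lit 5) (nat_lit 18) (nat_lit 4) (nat_lit 16) (nat_lit 4) (nat_lit 514) (nat_lit 389) (nat_lit 297)))) (XT.nd (nat_lit 156) (nat_lit 152) (nat_lit 0) (XT.nd (nat_lit 78) (nat_lit 76) (nat_lit 0) (XT.lf (nat_lit 0) (nat_lit 67442840196) (nat_lit 152) (nat_lit 12821977709) (nat_lit 0) (nat_lit 61333591442) (nat_lit 16) (nat_lit 5) (nat_lit 18) (nat_lit 4) (nat_lit 16) (nat_lit 4) (nat_lit 515) (nat_lit 389) (nat_lit 296)) (XT.lf (nat_lit 0) (nat_lit 37776568829) (nat_lit 76) (nat_lit 57878344895) (nat_lit 76) (nat_lit 51765949582) (nat_lit 15) (nat_lit 4) (nat_lit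 16) (nat_lit 5) (nat_lit 16) (nat_lit 4) (nat_lit 516) (nat_lit 389) (nat_lit 295))) (XT.nd (nat_lit 78) (nat_lit 152) (nat_lit 0) (XT.lf (nat_lit 0) (nat_lit 91299828384) (nat_lit 76) (nat_lit 34170191108) (nat_lit 76) (nat_lit 28054799073) (nat_lit 15) (nat_lit 4) (nat_lit 16) (nat_lit 5) (nat_lit 16) (nat_lit 4) (nat_lit 517) (nat_lit 389) (nat_lit 294)) (XT.nd (nat_lit 78) (nat_lit 152) (nat_lit 0) (XT.lf (nat_lit 0) (nat_lit 147451284799) (nat_lit 76) (nat_lit 9301054957) (nat_lit 76) (nat_lit 3182808901) (nat_lit 15) (nat_lit 4) (nat_lit 16) (nat_lit 5) (nat_lit 16) (nat_lit 4) (nat_lit 518) (nat_lit 389) (nat_lit 293)) (XT.lf (nat_lit 0) (nat_lit 23088892190) (nat_lit 152) (nat_lit 126255293159) (nat_lit 0) (nat_lit 17259402502) (nat_lit 13) (nat_lit 5) (nat_lit 15) (nat_lit 4) (nat_lit 13) (nat_lit 4) (nat_lit 519) (nat_lit 389) (nat_lit 292))))))))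
noncomputable def xc141 : XT := (XT.nd (nat_lit 1248) (nat_lit 228) (nat_lit 0) (XT.nd (nat_lit 624) (nat_lit 228) (nat_lit 0) (XT.nd (nat_lit 312) (nat_lit 152) (nat_lit 0) (XT.nd (nat_lit 156) (nat_lit 76) (nat_lit 0) (XT.nd (nat_lit 78) (nat_lit 0) (nat_lit 0) (XT.lf (nat_lit 0) (nat_lit 50911798702) (nat_lit 152) (nat_lit 77593968682) (nat_lit 0) (nat_lit 45079843604) (nat_lit 13) (nat_lit 5) (nat_lit 15) (nat_lit 4) (nat_lit 13) (nat_lit 4) (nat_lit 520) (nat_lit 389) (nat_lit 291)) (XT.lf (nat_lit 0) (nat_lit 80104156374) (nat_lit 152) (nat_lit 26543810376) (nat_lit 0) (nat_lit 74269853265) (nat_lit 13) (nat_lit 5) (nat_lit 15) (nat_lit 4) (nat_lit 13) (nat_lit 4) (nat_lit 521) (nat_lit 389) (nat_lit 290))) (XT.nd (nat_lit 78) (nat_lit 0) (nat_lit 0) (XT.lf (nat_lit 0) (nat_lit 27910024850) (nat_lit 76) (nat_lit 83261199673) (nat_lit 76) (nat_lit 77424660363) (nat_lit 12) (nat_lit 4) (nat_lit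 13) (nat_lit 5) (nat_lit 13) (nat_lit 4) (nat_lit 522) (nat_lit 389) (nat_lit 289)) (XT.lf (nat_lit 0) (nat_lit 85966646359) (nat_lit 76) (nat_lit 58254207645) (nat_lit 76) (nat_lit 52415538621) (nat_lit 12) (nat_lit 4) (nat_lit 13) (nat_lit 5) (nat_lit 13) (nat_lit 4) (nat_lit 523) (nat_lit 389) (nat_lit 288)))) (XT.nd (nat_lit 156) (nat_lit 76) (nat_lit 0) (XT.nd (nat_lit 78) (nat_lit 76) (nat_lit 0) (XT.lf (nat_lit 0) (nat_lit 146886625956) (nat_lit 76) (nat_lit 32016982484) (nat_lit 76) (nat_lit 26176285160) (nat_lit 12) (nat_lit 4) (nat_lit 13) (nat_lit 5) (nat_lit 13) (nat_lit 4) (nat_lit 524) (nat_lit 389) (nat_lit 287)) (XT.lf (nat_lit 0) (nat_lit 1312187584) (nat_lit 152) (nat_lit 3152644489) (nat_lit 76) (nat_lit 209480601094) (nat_lit 11) (nat_lit 5) (nat_lit 13) (nat_lit 5) (nat_lit 12) (nat_lit 4) (nat_lit 525) (nat_lit 389) (nat_lit 286))) (XT.nd (nat_lit 78) (nat_lit 0) (nat_lit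 0) (XT.lf (nat_lit 0) (nat_lit 30554362084) (nat_lit 152) (nat_lit 167627281671) (nat_lit 0) (nat_lit 24988201355) (nat_lit 10) (nat_lit 5) (nat_lit 12) (nat_lit 4) (nat_lit 10) (nat_lit 4) (nat_lit 526) (nat_lit 389) (nat_lit 285)) (XT.lf (nat_lit 0) (nat_lit 61368267085) (nat_lit 152) (nat_lit 115681291826) (nat_lit 0) (nat_lit 55800437669) (nat_lit 10) (nat_lit 5) (nat_lit 12) (nat_lit 4) (nat_lit 10) (nat_lit 4) (nat_lit 527) (nat_lit 389) (nat_lit 284))))) (XT.nd (nat_lit 312) (nat_lit 152) (nat_lit 0) (XT.nd (nat_lit 156) (nat_lit 76) (nat_lit 0) (XT.nd (nat_lit 78) (nat_lit 0) (nat_lit 0) (XT.lf (nat_lit 0) (nat_lit 93705877789) (nat_lit 152) (nat_lit 61172668180) (nat_lit 0) (nat_lit 88136459148) (nat_lit 10) (nat_lit 5) (nat_lit 12) (nat_lit 4) (nat_lit 10) (nat_lit 4) (nat_lit 528) (nat_lit 389) (nat_lit 283)) (XT.lf (nat_lit 0) (nat_lit 127644188508) (nat_lit 152) (nat_lit 3971628296)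 (nat_lit 0) (nat_lit 122073256318) (nat_lit 10) (nat_lit 5) (nat_lit 12) (nat_lit 4) (nat_lit 10) (nat_lit 4) (nat_lit 529) (nat_lit 389) (nat_lit 282))) (XT.nd (nat_lit 78) (nat_lit 0) (nat_lit 0) (XT.lf (nat_lit 0) (nat_lit 57911552110) (nat_lit 76) (nat_lit 106256614259) (nat_lit 76) (nat_lit 100684240593) (nat_lit 9) (nat_lit 4) (nat_lit 10) (nat_lit 5) (nat_lit 10) (nat_lit 4) (nat_lit 530) (nat_lit 389) (nat_lit 281)) (XT.lf (nat_lit 0) (nat_lit 122995841842) (nat_lit 76) (nat_lit 79574603526) (nat_lit 76) (nat_lit 74000857028) (nat_lit 9) (nat_lit 4) (nat_lit 10) (nat_lit 5) (nat_lit 10) (nat_lit 4) (nat_lit 531) (nat_lit 389) (nat_lit 280)))) (XT.nd (nat_lit 156) (nat_lit 152) (nat_lit 0) (XT.nd (nat_lit 78) (nat_lit 0) (nat_lit 0) (XT.lf (nat_lit 0) (nat_lit 191304883525) (nat_lit 76) (nat_lit 51573517457) (nat_lit 76) (nat_lit 45998463499) (nat_lit 9) (nat_lit 4) (nat_lit 10) (nat_lit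 5) (nat_lit 10) (nat_lit 4) (nat_lit 532) (nat_lit 389) (nat_lit 279)) (XT.lf (nat_lit 0) (nat_lit 263001317734) (nat_lit 76) (nat_lit 22186686800) (nat_lit 76) (nat_lit 16610387642) (nat_lit 9) (nat_lit 4) (nat_lit 10) (nat_lit 5) (nat_lit 10) (nat_lit 4) (nat_lit 533) (nat_lit 389) (nat_lit 278))) (XT.nd (nat_lit 78) (nat_lit 0) (nat_lit 0) (XT.lf (nat_lit 0) (nat_lit 14288161277) (nat_lit 152) (nat_lit 292065589139) (nat_lit 0) (nat_lit 8976270741) (nat_lit 7) (nat_lit 5) (nat_lit 9) (nat_lit 4) (nat_lit 7) (nat_lit 4) (nat_lit 534) (nat_lit 389) (nat_lit 277)) (XT.lf (nat_lit 0) (nat_lit 47191648300) (nat_lit 152) (nat_lit 240403374681) (nat_lit 0) (nat_lit 41878682113) (nat_lit 7) (nat_lit 5) (nat_lit 9) (nat_lit 4) (nat_lit 7) (nat_lit 4) (nat_lit 535) (nat_lit 389) (nat_lit 276)))))) (XT.nd (nat_lit 624) (nat_lit 152) (nat_lit 0) (XT.nd (nat_lit 312) (nat_lit 76) (nat_lit 0) (XT.nd (nat_lit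 156) (nat_lit 0) (nat_lit 0) (XT.nd (nat_lit 78) (nat_lit 0) (nat_lit 0) (XT.lf (nat_lit 0) (nat_lit 81727637228) (nat_lit 152) (nat_lit 186183923021) (nat_lit 0) (nat_lit 76413646612) (nat_lit 7) (nat_lit 5) (nat_lit 9) (nat_lit 4) (nat_lit 7) (nat_lit 4) (nat_lit 536) (nat_lit 389) (nat_lit 275)) (XT.lf (nat_lit 0) (nat_lit 117978356607) (nat_lit 152) (nat_lit 129278140227) (nat_lit 0) (nat_lit 112663390344) (nat_lit 7) (nat_lit 5) (nat_lit 9) (nat_lit 4) (nat_lit 7) (nat_lit 4) (nat_lit 537) (nat_lit 389) (nat_lit 274))) (XT.nd (nat_lit 78) (nat_lit 0) (nat_lit 0) (XT.lf (nat_lit 0) (nat_lit 156030117672) (nat_lit 152) (nat_lit 69550536340) (nat_lit 0) (nat_lit 150714222222) (nat_lit 7) (nat_lit 5) (nat_lit 9) (nat_lit 4) (nat_lit 7) (nat_lit 4) (nat_lit 538) (nat_lit 389) (nat_lit 273)) (XT.lf (nat_lit 0) (nat_lit 195973519855) (nat_lit 152) (nat_lit 6858902778) (nat_lit 0) (nat_lit 190656739465)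 (nat_lit 7) (nat_lit 5) (nat_lit 9) (nat_lit 4) (nat_lit 7) (nat_lit 4) (nat_lit 539) (nat_lit 389) (nat_lit 272)))) (XT.nd (nat_lit 156) (nat_lit 0) (nat_lit 0) (XT.nd (nat_lit 78) (nat_lit 0) (nat_lit 0) (XT.lf (nat_lit 0) (nat_lit 60895048087) (nat_lit 76) (nat_lit 177959360766) (nat_lit 76) (nat_lit 172641737575) (nat_lit 6) (nat_lit 4) (nat_lit 7) (nat_lit 5) (nat_lit 7) (nat_lit 4) (nat_lit 540) (nat_lit 389) (nat_lit 271)) (XT.lf (nat_lit 0) (nat_lit 132253879229) (nat_lit 76) (nat_lit 151731365740) (nat_lit 76) (nat_lit 146412939882) (nat_lit 6) (nat_lit 4) (nat_lit 7) (nat_lit 5) (nat_lit 7) (nat_lit 4) (nat_lit 541) (nat_lit 389) (nat_lit 270))) (XT.nd (nat_lit 78) (nat_lit 0) (nat_lit 0) (XT.lf (nat_lit 0) (nat_lit 207160706324) (nat_lit 76) (nat_lit 124202148785) (nat_lit 76) (nat_lit 118882958482) (nat_lit 6) (nat_lit 4) (nat_lit 7) (nat_lit 5) (nat_lit 7) (nat_lit 4) (nat_lit 542)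 (nat_lit 389) (nat_lit 269)) (XT.lf (nat_lit 0) (nat_lit 285793878962) (nat_lit 76) (nat_lit 95306164146) (nat_lit 76) (nat_lit 89986245800) (nat_lit 6) (nat_lit 4) (nat_lit 7) (nat_lit 5) (nat_lit 7) (nat_lit 4) (nat_lit 543) (nat_lit 389) (nat_lit 268))))) (XT.nd (nat_lit 312) (nat_lit 0) (nat_lit 0) (XT.nd (nat_lit 156) (nat_lit 152) (nat_lit 0) (XT.nd (nat_lit 78) (nat_lit 0) (nat_lit 0) (XT.lf (nat_lit 0) (nat_lit 368340618980) (nat_lit 76) (nat_lit 64974611860) (nat_lit 76) (nat_lit 59654000141) (nat_lit 6) (nat_lit 4) (nat_lit 7) (nat_lit 5) (nat_lit 7) (nat_lit 4) (nat_lit 544) (nat_lit 389) (nat_lit 267)) (XT.lf (nat_lit 0) (nat_lit 454997466238) (nat_lit 76) (nat_lit 33135273946) (nat_lit 76) (nat_lit 27814001870) (nat_lit 6) (nat_lit 4) (nat_lit 7) (nat_lit 5) (nat_lit 7) (nat_lit 4) (nat_lit 545) (nat_lit 389) (nat_lit 266))) (XT.nd (nat_lit 78) (nat_lit 0) (nat_lit 0) (XT.lf (nat_lit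 0) (nat_lit 5531184438) (nat_lit 152) (nat_lit 534070201352) (nat_lit 0) (nat_lit 462707308) (nat_lit 4) (nat_lit 5) (nat_lit 6) (nat_lit 4) (nat_lit 4) (nat_lit 4) (nat_lit 546) (nat_lit 389) (nat_lit 265)) (XT.lf (nat_lit 0) (nat_lit 41193059548) (nat_lit 152) (nat_lit 487968233697) (nat_lit 0) (nat_lit 36124011977) (nat_lit 4) (nat_lit 5) (nat_lit 6) (nat_lit 4) (nat_lit 4) (nat_lit 4) (nat_lit 547) (nat_lit 389) (nat_lit 264)))) (XT.nd (nat_lit 156) (nat_lit 0) (nat_lit 0) (XT.nd (nat_lit 78) (nat_lit 0) (nat_lit 0) (XT.lf (nat_lit 0) (nat_lit 78630251502) (nat_lit 152) (nat_lit 439577054646) (nat_lit 0) (nat_lit 73560660655) (nat_lit 4) (nat_lit 5) (nat_lit 6) (nat_lit 4) (nat_lit 4) (nat_lit 4) (nat_lit 548) (nat_lit 389) (nat_lit 263)) (XT.lf (nat_lit 0) (nat_lit 117931896473) (nat_lit 152) (nat_lit 388781447106) (nat_lit 0) (nat_lit 112861788219) (nat_lit 4) (nat_lit 5) (nat_lit 6) (nat_lit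 4) (nat_lit 4) (nat_lit 4) (nat_lit 549) (nat_lit 389) (nat_lit 262))) (XT.nd (nat_lit 78) (nat_lit 0) (nat_lit 0) (XT.lf (nat_lit 0) (nat_lit 159191569804) (nat_lit 152) (nat_lit 335460469154) (nat_lit 0) (nat_lit 154120968783) (nat_lit 4) (nat_lit 5) (nat_lit 6) (nat_lit 4) (nat_lit 4) (nat_lit 4) (nat_lit 550) (nat_lit 389) (nat_lit 261)) (XT.nd (nat_lit 78) (nat_lit 0) (nat_lit 0) (XT.lf (nat_lit 0) (nat_lit 202507508814) (nat_lit 152) (nat_lit 279487166082) (nat_lit 0) (nat_lit 197436438490) (nat_lit 4) (nat_lit 5) (nat_lit 6) (nat_lit 4) (nat_lit 4) (nat_lit 4) (nat_lit 551) (nat_lit 389) (nat_lit 260)) (XT.lf (nat_lit 0) (nat_lit 247982846691) (nat_lit 152) (nat_lit 220728268119) (nat_lit 0) (nat_lit 242911329412) (nat_lit 4) (nat_lit 5) (nat_lit 6) (nat_lit 4) (nat_lit 4) (nat_lit 4) (nat_lit 552) (nat_lit 389) (nat_lit 259))))))))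
noncomputable def xc142 : XT := (XT.nd (nat_lit 53040) (nat_lit 0) (nat_lit 5548) (XT.nd (nat_lit 52416) (nat_lit 0) (nat_lit 8056) (XT.nd (nat_lit 52104) (nat_lit 0) (nat_lit 10032) (XT.nd (nat_lit 156) (nat_lit 76) (nat_lit 0) (XT.nd (nat_lit 78) (nat_lit 0) (nat_lit 0) (XT.lf (nat_lit 0) (nat_lit 295725858049) (nat_lit 152) (nat_lit 159043873128) (nat_lit 0) (nat_lit 290653915098) (nat_lit 4) (nat_lit 5) (nat_lit 6) (nat_lit 4) (nat_lit 4) (nat_lit 4) (nat_lit 553) (nat_lit 389) (nat_lit 258)) (XT.lf (nat_lit 0) (nat_lit 345850216724) (nat_lit 152) (nat_lit 94287113501) (nat_lit 0) (nat_lit 340777868372) (nat_lit 4) (nat_lit 5) (nat_lit 6) (nat_lit 4) (nat_lit 4) (nat_lit 4) (nat_lit 554) (nat_lit 389) (nat_lit 257))) (XT.nd (nat_lit 78) (nat_lit 76) (nat_lit 0) (XT.lf (nat_lit 0) (nat_lit 398475266428) (nat_lit 152) (nat_lit 26303806478) (nat_lit 0) (nat_lit 393402531979) (nat_lit 4) (nat_lit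 5) (nat_lit 6) (nat_lit 4) (nat_lit 4) (nat_lit 4) (nat_lit 555) (nat_lit 389) (nat_lit 256)) (XT.lf (nat_lit 0) (nat_lit 46558061692) (nat_lit 76) (nat_lit 407895145027) (nat_lit 76) (nat_lit 402822042867) (nat_lit 3) (nat_lit 4) (nat_lit 4) (nat_lit 5) (nat_lit 4) (nat_lit 4) (nat_lit 556) (nat_lit 389) (nat_lit 255)))) (XT.nd (nat_lit 156) (nat_lit 380) (nat_lit 0) (XT.nd (nat_lit 78) (nat_lit 380) (nat_lit 0) (XT.lf (nat_lit 0) (nat_lit 1211221892) (nat_lit 380) (nat_lit 1293906952) (nat_lit 380) (nat_lit 1293906952) (nat_lit 145) (nat_lit 4) (nat_lit 150) (nat_lit 5) (nat_lit 150) (nat_lit 4) (nat_lit 420) (nat_lit 390) (nat_lit 390)) (XT.lf (nat_lit 0) (nat_lit 995028583) (nat_lit 304) (nat_lit 173860370) (nat_lit 380) (nat_lit 6550776457) (nat_lit 140) (nat_lit 5) (nat_lit 144) (nat_lit 5) (nat_lit 145) (nat_lit 4) (nat_lit 421) (nat_lit 390) (nat_lit 389))) (XT.nd (nat_lit 78) (nat_lit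 380) (nat_lit 0) (XT.lf (nat_lit 0) (nat_lit 4984592694) (nat_lit 380) (nat_lit 483533094) (nat_lit 0) (nat_lit 2379198376) (nat_lit 140) (nat_lit 5) (nat_lit 145) (nat_lit 4) (nat_lit 140) (nat_lit 4) (nat_lit 422) (nat_lit 390) (nat_lit 388)) (XT.lf (nat_lit 0) (nat_lit 913958429) (nat_lit 380) (nat_lit 1942183400) (nat_lit 76) (nat_lit 5127619657) (nat_lit 135) (nat_lit 5) (nat_lit 140) (nat_lit 5) (nat_lit 136) (nat_lit 4) (nat_lit 423) (nat_lit 390) (nat_lit 387))))) (XT.nd (nat_lit 312) (nat_lit 760) (nat_lit 0) (XT.nd (nat_lit 156) (nat_lit 532) (nat_lit 0) (XT.nd (nat_lit 78) (nat_lit 380) (nat_lit 0) (XT.lf (nat_lit 0) (nat_lit 4680324756) (nat_lit 304) (nat_lit 26450133) (nat_lit 380) (nat_lit 3421735643) (nat_lit 131) (nat_lit 5) (nat_lit 135) (nat_lit 5) (nat_lit 136) (nat_lit 4) (nat_lit 424) (nat_lit 390) (nat_lit 386)) (XT.lf (nat_lit 0) (nat_lit 371441652) (nat_lit 380) (nat_lit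 5016102471) (nat_lit 76) (nat_lit 2893854639) (nat_lit 126) (nat_lit 5) (nat_lit 131) (nat_lit 5) (nat_lit 127) (nat_lit 4) (nat_lit 425) (nat_lit 390) (nat_lit 385))) (XT.nd (nat_lit 78) (nat_lit 304) (nat_lit 0) (XT.lf (nat_lit 0) (nat_lit 1783939333) (nat_lit 228) (nat_lit 2390353080) (nat_lit 304) (nat_lit 4268093673) (nat_lit 123) (nat_lit 5) (nat_lit 126) (nat_lit 5) (nat_lit 127) (nat_lit 4) (nat_lit 426) (nat_lit 390) (nat_lit 384)) (XT.lf (nat_lit 0) (nat_lit 272523763) (nat_lit 304) (nat_lit 7847652464) (nat_lit 304) (nat_lit 493611307) (nat_lit 119) (nat_lit 4) (nat_lit 123) (nat_lit 5) (nat_lit 123) (nat_lit 4) (nat_lit 427) (nat_lit 390) (nat_lit 383)))) (XT.nd (nat_lit 156) (nat_lit 456) (nat_lit 0) (XT.nd (nat_lit 78) (nat_lit 228) (nat_lit 0) (XT.lf (nat_lit 0) (nat_lit 3364260657) (nat_lit 380) (nat_lit 1317518237) (nat_lit 76) (nat_lit 4108994370) (nat_lit 118) (nat_lit 5) (nat_lit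 123) (nat_lit 5) (nat_lit 119) (nat_lit 4) (nat_lit 428) (nat_lit 390) (nat_lit 382)) (XT.lf (nat_lit 0) (nat_lit 6037413117) (nat_lit 228) (nat_lit 1314252580) (nat_lit 304) (nat_lit 1626884601) (nat_lit 115) (nat_lit 5) (nat_lit 118) (nat_lit 5) (nat_lit 119) (nat_lit 4) (nat_lit 429) (nat_lit 390) (nat_lit 381))) (XT.nd (nat_lit 78) (nat_lit 152) (nat_lit 0) (XT.lf (nat_lit 0) (nat_lit 2276599482) (nat_lit 304) (nat_lit 4679388859) (nat_lit 76) (nat_lit 2218415852) (nat_lit 111) (nat_lit 5) (nat_lit 115) (nat_lit 5) (nat_lit 112) (nat_lit 4) (nat_lit 430) (nat_lit 390) (nat_lit 380)) (XT.lf (nat_lit 0) (nat_lit 2861159972) (nat_lit 152) (nat_lit 3438974584) (nat_lit 228) (nat_lit 3079612103) (nat_lit 109) (nat_lit 5) (nat_lit 111) (nat_lit 5) (nat_lit 112) (nat_lit 4) (nat_lit 431) (nat_lit 390) (nat_lit 379)))))) (XT.nd (nat_lit 624) (nat_lit 1216) (nat_lit 0) (XT.nd (nat_lit 312) (nat_lit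 532) (nat_lit 0) (XT.nd (nat_lit 156) (nat_lit 456) (nat_lit 0) (XT.nd (nat_lit 78) (nat_lit 0) (nat_lit 0) (XT.lf (nat_lit 0) (nat_lit 866916499) (nat_lit 304) (nat_lit 8440072635) (nat_lit 76) (nat_lit 289289011) (nat_lit 105) (nat_lit 5) (nat_lit 109) (nat_lit 5) (nat_lit 106) (nat_lit 4) (nat_lit 432) (nat_lit 390) (nat_lit 378)) (XT.lf (nat_lit 0) (nat_lit 4941799183) (nat_lit 304) (nat_lit 697899333) (nat_lit 76) (nat_lit 4179693260) (nat_lit 105) (nat_lit 5) (nat_lit 109) (nat_lit 5) (nat_lit 106) (nat_lit 4) (nat_lit 433) (nat_lit 390) (nat_lit 377))) (XT.nd (nat_lit 78) (nat_lit 304) (nat_lit 0) (XT.lf (nat_lit 0) (nat_lit 7468360632) (nat_lit 152) (nat_lit 1740992171) (nat_lit 228) (nat_lit 844867648) (nat_lit 103) (nat_lit 5) (nat_lit 105) (nat_lit 5) (nat_lit 106) (nat_lit 4) (nat_lit 434) (nat_lit 390) (nat_lit 376)) (XT.lf (nat_lit 0) (nat_lit 3293220297) (nat_lit 304) (nat_lit 4644434172)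 (nat_lit 76) (nat_lit 2359884700) (nat_lit 99) (nat_lit 5) (nat_lit 103) (nat_lit 5) (nat_lit 100) (nat_lit 4) (nat_lit 435) (nat_lit 390) (nat_lit 375)))) (XT.nd (nat_lit 156) (nat_lit 152) (nat_lit 0) (XT.nd (nat_lit 78) (nat_lit 228) (nat_lit 0) (XT.lf (nat_lit 0) (nat_lit 3713990054) (nat_lit 152) (nat_lit 3901850747) (nat_lit 228) (nat_lit 2936194371) (nat_lit 97) (nat_lit 5) (nat_lit 99) (nat_lit 5) (nat_lit 100) (nat_lit 4) (nat_lit 436) (nat_lit 390) (nat_lit 374)) (XT.lf (nat_lit 0) (nat_lit 1280321346) (nat_lit 228) (nat_lit 9163418857) (nat_lit 76) (nat_lit 375091614) (nat_lit 94) (nat_lit 5) (nat_lit 97) (nat_lit 5) (nat_lit 95) (nat_lit 4) (nat_lit 437) (nat_lit 390) (nat_lit 373))) (XT.nd (nat_lit 78) (nat_lit 152) (nat_lit 0) (XT.lf (nat_lit 0) (nat_lit 5667937257) (nat_lit 228) (nat_lit 603271465) (nat_lit 76) (nat_lit 4822409623) (nat_lit 94) (nat_lit 5) (nat_lit 97) (nat_lit 5)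 (nat_lit 95) (nat_lit 4) (nat_lit 438) (nat_lit 390) (nat_lit 372)) (XT.lf (nat_lit 0) (nat_lit 8458423455) (nat_lit 152) (nat_lit 1831694936) (nat_lit 228) (nat_lit 1091270636) (nat_lit 92) (nat_lit 5) (nat_lit 94) (nat_lit 5) (nat_lit 95) (nat_lit 4) (nat_lit 439) (nat_lit 390) (nat_lit 371))))) (XT.nd (nat_lit 312) (nat_lit 608) (nat_lit 0) (XT.nd (nat_lit 156) (nat_lit 228) (nat_lit 0) (XT.nd (nat_lit 78) (nat_lit 152) (nat_lit 0) (XT.lf (nat_lit 0) (nat_lit 3386581971) (nat_lit 228) (nat_lit 5467404115) (nat_lit 76) (nat_lit 2824991989) (nat_lit 89) (nat_lit 5) (nat_lit 92) (nat_lit 5) (nat_lit 90) (nat_lit 4) (nat_lit 440) (nat_lit 390) (nat_lit 370)) (XT.lf (nat_lit 0) (nat_lit 3788801021) (nat_lit 152) (nat_lit 4287361805) (nat_lit 228) (nat_lit 3913167292) (nat_lit 87) (nat_lit 5) (nat_lit 89) (nat_lit 5) (nat_lit 90) (nat_lit 4) (nat_lit 441) (nat_lit 390) (nat_lit 369))) (XT.nd (nat_lit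 78) (nat_lit 0) (nat_lit 0) (XT.lf (nat_lit 0) (nat_lit 670369977) (nat_lit 228) (nat_lit 11109310731) (nat_lit 76) (nat_lit 534623870) (nat_lit 84) (nat_lit 5) (nat_lit 87) (nat_lit 5) (nat_lit 85) (nat_lit 4) (nat_lit 442) (nat_lit 390) (nat_lit 368)) (XT.lf (nat_lit 0) (nat_lit 5449664317) (nat_lit 228) (nat_lit 1620523660) (nat_lit 76) (nat_lit 5577230881) (nat_lit 84) (nat_lit 5) (nat_lit 87) (nat_lit 5) (nat_lit 85) (nat_lit 4) (nat_lit 443) (nat_lit 390) (nat_lit 367)))) (XT.nd (nat_lit 156) (nat_lit 304) (nat_lit 0) (XT.nd (nat_lit 78) (nat_lit 228) (nat_lit 0) (XT.lf (nat_lit 0) (nat_lit 8421062631) (nat_lit 76) (nat_lit 2070381909) (nat_lit 152) (nat_lit 2504571131) (nat_lit 83) (nat_lit 5) (nat_lit 84) (nat_lit 5) (nat_lit 85) (nat_lit 4) (nat_lit 444) (nat_lit 390) (nat_lit 366)) (XT.lf (nat_lit 0) (nat_lit 2404544699) (nat_lit 228) (nat_lit 7800644160) (nat_lit 76) (nat_lit 3152022721)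 (nat_lit 80) (nat_lit 5) (nat_lit 83) (nat_lit 5) (nat_lit 81) (nat_lit 4) (nat_lit 445) (nat_lit 390) (nat_lit 365))) (XT.nd (nat_lit 78) (nat_lit 228) (nat_lit 0) (XT.lf (nat_lit 0) (nat_lit 2429887181) (nat_lit 76) (nat_lit 5089074182) (nat_lit 152) (nat_lit 6213254730) (nat_lit 79) (nat_lit 5) (nat_lit 80) (nat_lit 5) (nat_lit 81) (nat_lit 4) (nat_lit 446) (nat_lit 390) (nat_lit 364)) (XT.nd (nat_lit 78) (nat_lit 228) (nat_lit 0) (XT.lf (nat_lit 0) (nat_lit 12921969766) (nat_lit 152) (nat_lit 876494986) (nat_lit 0) (nat_lit 325864901) (nat_lit 79) (nat_lit 5) (nat_lit 81) (nat_lit 4) (nat_lit 79) (nat_lit 4) (nat_lit 447) (nat_lit 390) (nat_lit 363)) (XT.lf (nat_lit 0) (nat_lit 4072231548) (nat_lit 228) (nat_lit 4467464651) (nat_lit 76) (nat_lit 5986032774) (nat_lit 76) (nat_lit 5) (nat_lit 79) (nat_lit 5) (nat_lit 77) (nat_lit 4) (nat_lit 448) (nat_lit 390) (nat_lit 362))))))))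
noncomputable def xc143 : XT := (XT.nd (nat_lit 1248) (nat_lit 1292) (nat_lit 0) (XT.nd (nat_lit 624) (nat_lit 608) (nat_lit 0) (XT.nd (nat_lit 312) (nat_lit 456) (nat_lit 0) (XT.nd (nat_lit 156) (nat_lit 76) (nat_lit 0) (XT.nd (nat_lit 78) (nat_lit 228) (nat_lit 0) (XT.lf (nat_lit 0) (nat_lit 6631571511) (nat_lit 76) (nat_lit 2956768020) (nat_lit 152) (nat_lit 5356965525) (nat_lit 75) (nat_lit 5) (nat_lit 76) (nat_lit 5) (nat_lit 77) (nat_lit 4) (nat_lit 449) (nat_lit 390) (nat_lit 361)) (XT.lf (nat_lit 0) (nat_lit 63762599) (nat_lit 228) (nat_lit 12463151484) (nat_lit 76) (nat_lit 2855492586) (nat_lit 72) (nat_lit 5) (nat_lit 75) (nat_lit 5) (nat_lit 73) (nat_lit 4) (nat_lit 450) (nat_lit 390) (nat_lit 360))) (XT.nd (nat_lit 78) (nat_lit 76) (nat_lit 0) (XT.lf (nat_lit 0) (nat_lit 5667598822) (nat_lit 228) (nat_lit 1155816501) (nat_lit 76) (nat_lit 9008953807) (nat_lit 72) (nat_lit 5) (nat_lit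 75) (nat_lit 5) (nat_lit 73) (nat_lit 4) (nat_lit 451) (nat_lit 390) (nat_lit 359)) (XT.lf (nat_lit 0) (nat_lit 10888802984) (nat_lit 76) (nat_lit 738089559) (nat_lit 152) (nat_lit 4674175572) (nat_lit 71) (nat_lit 5) (nat_lit 72) (nat_lit 5) (nat_lit 73) (nat_lit 4) (nat_lit 452) (nat_lit 390) (nat_lit 358)))) (XT.nd (nat_lit 156) (nat_lit 152) (nat_lit 0) (XT.nd (nat_lit 78) (nat_lit 76) (nat_lit 0) (XT.lf (nat_lit 0) (nat_lit 1177037987) (nat_lit 228) (nat_lit 10072855083) (nat_lit 76) (nat_lit 5536408553) (nat_lit 68) (nat_lit 5) (nat_lit 71) (nat_lit 5) (nat_lit 69) (nat_lit 4) (nat_lit 453) (nat_lit 390) (nat_lit 357)) (XT.lf (nat_lit 0) (nat_lit 2143114580) (nat_lit 76) (nat_lit 5065382697) (nat_lit 152) (nat_lit 10081231293) (nat_lit 67) (nat_lit 5) (nat_lit 68) (nat_lit 5) (nat_lit 69) (nat_lit 4) (nat_lit 454) (nat_lit 390) (nat_lit 356))) (XT.nd (nat_lit 78) (nat_lit 152) (nat_lit 0)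 (XT.lf (nat_lit 0) (nat_lit 13643725592) (nat_lit 152) (nat_lit 2693152261) (nat_lit 0) (nat_lit 1476340593) (nat_lit 67) (nat_lit 5) (nat_lit 69) (nat_lit 4) (nat_lit 67) (nat_lit 4) (nat_lit 455) (nat_lit 390) (nat_lit 355)) (XT.lf (nat_lit 0) (nat_lit 2132585567) (nat_lit 152) (nat_lit 7923883372) (nat_lit 76) (nat_lit 8296825498) (nat_lit 65) (nat_lit 5) (nat_lit 67) (nat_lit 5) (nat_lit 66) (nat_lit 4) (nat_lit 456) (nat_lit 390) (nat_lit 354))))) (XT.nd (nat_lit 312) (nat_lit 304) (nat_lit 0) (XT.nd (nat_lit 156) (nat_lit 228) (nat_lit 0) (XT.nd (nat_lit 78) (nat_lit 0) (nat_lit 0) (XT.lf (nat_lit 0) (nat_lit 5314935235) (nat_lit 76) (nat_lit 3335215173) (nat_lit 152) (nat_lit 10264782158) (nat_lit 64) (nat_lit 5) (nat_lit 65) (nat_lit 5) (nat_lit 66) (nat_lit 4) (nat_lit 457) (nat_lit 390) (nat_lit 353)) (XT.lf (nat_lit 0) (nat_lit 15599648638) (nat_lit 152) (nat_lit 237428837) (nat_lit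 0) (nat_lit 3662273510) (nat_lit 64) (nat_lit 5) (nat_lit 66) (nat_lit 4) (nat_lit 64) (nat_lit 4) (nat_lit 458) (nat_lit 390) (nat_lit 352))) (XT.nd (nat_lit 78) (nat_lit 76) (nat_lit 0) (XT.lf (nat_lit 0) (nat_lit 2887056960) (nat_lit 152) (nat_lit 6124460086) (nat_lit 76) (nat_lit 11089675342) (nat_lit 62) (nat_lit 5) (nat_lit 64) (nat_lit 5) (nat_lit 63) (nat_lit 4) (nat_lit 459) (nat_lit 390) (nat_lit 351)) (XT.lf (nat_lit 0) (nat_lit 8213772271) (nat_lit 76) (nat_lit 1716581183) (nat_lit 152) (nat_lit 10797164175) (nat_lit 61) (nat_lit 5) (nat_lit 62) (nat_lit 5) (nat_lit 63) (nat_lit 4) (nat_lit 460) (nat_lit 390) (nat_lit 350)))) (XT.nd (nat_lit 156) (nat_lit 152) (nat_lit 0) (XT.nd (nat_lit 78) (nat_lit 76) (nat_lit 0) (XT.lf (nat_lit 0) (nat_lit 1905717655) (nat_lit 76) (nat_lit 15564302195) (nat_lit 76) (nat_lit 3907929966) (nat_lit 60) (nat_lit 4) (nat_lit 61) (nat_lit 5) (nat_lit 61)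 (nat_lit 4) (nat_lit 461) (nat_lit 390) (nat_lit 349)) (XT.lf (nat_lit 0) (nat_lit 3379248900) (nat_lit 152) (nat_lit 4815749651) (nat_lit 76) (nat_lit 13855313274) (nat_lit 59) (nat_lit 5) (nat_lit 61) (nat_lit 5) (nat_lit 60) (nat_lit 4) (nat_lit 462) (nat_lit 390) (nat_lit 348))) (XT.nd (nat_lit 78) (nat_lit 76) (nat_lit 0) (XT.lf (nat_lit 0) (nat_lit 10697099151) (nat_lit 76) (nat_lit 289735770) (nat_lit 152) (nat_lit 11761885587) (nat_lit 58) (nat_lit 5) (nat_lit 59) (nat_lit 5) (nat_lit 60) (nat_lit 4) (nat_lit 463) (nat_lit 390) (nat_lit 347)) (XT.lf (nat_lit 0) (nat_lit 3505576474) (nat_lit 76) (nat_lit 15652547562) (nat_lit 76) (nat_lit 4314760169) (nat_lit 57) (nat_lit 4) (nat_lit 58) (nat_lit 5) (nat_lit 58) (nat_lit 4) (nat_lit 464) (nat_lit 390) (nat_lit 346)))))) (XT.nd (nat_lit 624) (nat_lit 684) (nat_lit 0) (XT.nd (nat_lit 312) (nat_lit 304) (nat_lit 0) (XT.nd (nat_lit 156) (nat_lit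 152) (nat_lit 0) (XT.nd (nat_lit 78) (nat_lit 76) (nat_lit 0) (XT.lf (nat_lit 0) (nat_lit 3525490557) (nat_lit 152) (nat_lit 4181973313) (nat_lit 76) (nat_lit 16516409892) (nat_lit 56) (nat_lit 5) (nat_lit 58) (nat_lit 5) (nat_lit 57) (nat_lit 4) (nat_lit 465) (nat_lit 390) (nat_lit 345)) (XT.lf (nat_lit 0) (nat_lit 11746789102) (nat_lit 152) (nat_lit 12439328538) (nat_lit 0) (nat_lit 816057157) (nat_lit 55) (nat_lit 5) (nat_lit 57) (nat_lit 4) (nat_lit 55) (nat_lit 4) (nat_lit 466) (nat_lit 390) (nat_lit 344))) (XT.nd (nat_lit 78) (nat_lit 76) (nat_lit 0) (XT.lf (nat_lit 0) (nat_lit 4337590289) (nat_lit 76) (nat_lit 16232353756) (nat_lit 76) (nat_lit 5239907902) (nat_lit 54) (nat_lit 4) (nat_lit 55) (nat_lit 5) (nat_lit 55) (nat_lit 4) (nat_lit 467) (nat_lit 390) (nat_lit 343)) (XT.lf (nat_lit 0) (nat_lit 3213631577) (nat_lit 152) (nat_lit 4463276272) (nat_lit 76) (nat_lit 18971578566) (nat_lit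 53) (nat_lit 5) (nat_lit 55) (nat_lit 5) (nat_lit 54) (nat_lit 4) (nat_lit 468) (nat_lit 390) (nat_lit 342)))) (XT.nd (nat_lit 156) (nat_lit 152) (nat_lit 0) (XT.nd (nat_lit 78) (nat_lit 76) (nat_lit 0) (XT.lf (nat_lit 0) (nat_lit 12078771766) (nat_lit 152) (nat_lit 13937246849) (nat_lit 0) (nat_lit 1500488584) (nat_lit 52) (nat_lit 5) (nat_lit 54) (nat_lit 4) (nat_lit 52) (nat_lit 4) (nat_lit 469) (nat_lit 390) (nat_lit 341)) (XT.lf (nat_lit 0) (nat_lit 4118252470) (nat_lit 76) (nat_lit 17464477203) (nat_lit 76) (nat_lit 6835421835) (nat_lit 51) (nat_lit 4) (nat_lit 52) (nat_lit 5) (nat_lit 52) (nat_lit 4) (nat_lit 470) (nat_lit 390) (nat_lit 340))) (XT.nd (nat_lit 78) (nat_lit 76) (nat_lit 0) (XT.lf (nat_lit 0) (nat_lit 2295259086) (nat_lit 152) (nat_lit 5972128703) (nat_lit 76) (nat_lit 21087347164) (nat_lit 50) (nat_lit 5) (nat_lit 52) (nat_lit 5) (nat_lit 51) (nat_lit 4) (nat_lit 471) (nat_lit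 390) (nat_lit 339)) (XT.lf (nat_lit 0) (nat_lit 11820845440) (nat_lit 152) (nat_lit 16895270684) (nat_lit 0) (nat_lit 1608024773) (nat_lit 49) (nat_lit 5) (nat_lit 51) (nat_lit 4) (nat_lit 49) (nat_lit 4) (nat_lit 472) (nat_lit 390) (nat_lit 338))))) (XT.nd (nat_lit 312) (nat_lit 456) (nat_lit 0) (XT.nd (nat_lit 156) (nat_lit 76) (nat_lit 0) (XT.nd (nat_lit 78) (nat_lit 76) (nat_lit 0) (XT.lf (nat_lit 0) (nat_lit 2477716404) (nat_lit 76) (nat_lit 19554215595) (nat_lit 76) (nat_lit 9299624525) (nat_lit 48) (nat_lit 4) (nat_lit 49) (nat_lit 5) (nat_lit 49) (nat_lit 4) (nat_lit 473) (nat_lit 390) (nat_lit 337)) (XT.lf (nat_lit 0) (nat_lit 575665903) (nat_lit 152) (nat_lit 9114257302) (nat_lit 76) (nat_lit 22687981106) (nat_lit 47) (nat_lit 5) (nat_lit 49) (nat_lit 5) (nat_lit 48) (nat_lit 4) (nat_lit 474) (nat_lit 390) (nat_lit 336))) (XT.nd (nat_lit 78) (nat_lit 0) (nat_lit 0) (XT.lf (nat_lit 0)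 (nat_lit 10765378638) (nat_lit 152) (nat_lit 21771777672) (nat_lit 0) (nat_lit 925131597) (nat_lit 46) (nat_lit 5) (nat_lit 48) (nat_lit 4) (nat_lit 46) (nat_lit 4) (nat_lit 475) (nat_lit 390) (nat_lit 335)) (XT.lf (nat_lit 0) (nat_lit 21715929770) (nat_lit 152) (nat_lit 1031075514) (nat_lit 0) (nat_lit 11841318115) (nat_lit 46) (nat_lit 5) (nat_lit 48) (nat_lit 4) (nat_lit 46) (nat_lit 4) (nat_lit 476) (nat_lit 390) (nat_lit 334)))) (XT.nd (nat_lit 156) (nat_lit 228) (nat_lit 0) (XT.nd (nat_lit 78) (nat_lit 152) (nat_lit 0) (XT.lf (nat_lit 0) (nat_lit 21306248544) (nat_lit 76) (nat_lit 12179092835) (nat_lit 76) (nat_lit 2271752976) (nat_lit 45) (nat_lit 4) (nat_lit 46) (nat_lit 5) (nat_lit 46) (nat_lit 4) (nat_lit 477) (nat_lit 390) (nat_lit 333)) (XT.lf (nat_lit 0) (nat_lit 7801503759) (nat_lit 76) (nat_lit 852161282) (nat_lit 152) (nat_lit 28319809191) (nat_lit 43) (nat_lit 5) (nat_lit 44) (nat_lit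 5) (nat_lit 45) (nat_lit 4) (nat_lit 478) (nat_lit 390) (nat_lit 332))) (XT.nd (nat_lit 78) (nat_lit 228) (nat_lit 0) (XT.lf (nat_lit 0) (nat_lit 20408967126) (nat_lit 152) (nat_lit 6906398169) (nat_lit 0) (nat_lit 10915448057) (nat_lit 43) (nat_lit 5) (nat_lit 45) (nat_lit 4) (nat_lit 43) (nat_lit 4) (nat_lit 479) (nat_lit 390) (nat_lit 331)) (XT.nd (nat_lit 78) (nat_lit 152) (nat_lit 0) (XT.lf (nat_lit 0) (nat_lit 16882153832) (nat_lit 76) (nat_lit 16089172946) (nat_lit 76) (nat_lit 6568728304) (nat_lit 42) (nat_lit 4) (nat_lit 43) (nat_lit 5) (nat_lit 43) (nat_lit 4) (nat_lit 480) (nat_lit 390) (nat_lit 330)) (XT.lf (nat_lit 0) (nat_lit 1023200785) (nat_lit 76) (nat_lit 4132549864) (nat_lit 152) (nat_lit 35751080279) (nat_lit 40) (nat_lit 5) (nat_lit 41) (nat_lit 5) (nat_lit 42) (nat_lit 4) (nat_lit 481) (nat_lit 390) (nat_lit 329))))))))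
noncomputable def xc144 : XT := (XT.nd (nat_lit 1248) (nat_lit 760) (nat_lit 0) (XT.nd (nat_lit 624) (nat_lit 456) (nat_lit 0) (XT.nd (nat_lit 312) (nat_lit 228) (nat_lit 0) (XT.nd (nat_lit 156) (nat_lit 152) (nat_lit 0) (XT.nd (nat_lit 78) (nat_lit 76) (nat_lit 0) (XT.lf (nat_lit 0) (nat_lit 17709071614) (nat_lit 152) (nat_lit 16010021601) (nat_lit 0) (nat_lit 8594299865) (nat_lit 40) (nat_lit 5) (nat_lit 42) (nat_lit 4) (nat_lit 40) (nat_lit 4) (nat_lit 482) (nat_lit 390) (nat_lit 328)) (XT.lf (nat_lit 0) (nat_lit 9171851345) (nat_lit 76) (nat_lit 21873788328) (nat_lit 76) (nat_lit 12736864843) (nat_lit 39) (nat_lit 4) (nat_lit 40) (nat_lit 5) (nat_lit 40) (nat_lit 4) (nat_lit 483) (nat_lit 390) (nat_lit 327))) (XT.nd (nat_lit 78) (nat_lit 152) (nat_lit 0) (XT.lf (nat_lit 0) (nat_lit 36059217874) (nat_lit 76) (nat_lit 9206519589) (nat_lit 76) (nat_lit 48499212) (nat_lit 39) (nat_lit 4) (nat_lit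 40) (nat_lit 5) (nat_lit 40) (nat_lit 4) (nat_lit 484) (nat_lit 390) (nat_lit 326)) (XT.lf (nat_lit 0) (nat_lit 13142810261) (nat_lit 152) (nat_lit 29352963069) (nat_lit 0) (nat_lit 4401750589) (nat_lit 37) (nat_lit 5) (nat_lit 39) (nat_lit 4) (nat_lit 37) (nat_lit 4) (nat_lit 485) (nat_lit 390) (nat_lit 325)))) (XT.nd (nat_lit 156) (nat_lit 152) (nat_lit 0) (XT.nd (nat_lit 78) (nat_lit 76) (nat_lit 0) (XT.lf (nat_lit 0) (nat_lit 27249658306) (nat_lit 152) (nat_lit 2807023159) (nat_lit 0) (nat_lit 18490374346) (nat_lit 37) (nat_lit 5) (nat_lit 39) (nat_lit 4) (nat_lit 37) (nat_lit 4) (nat_lit 486) (nat_lit 390) (nat_lit 324)) (XT.lf (nat_lit 0) (nat_lit 25790699791) (nat_lit 76) (nat_lit 16623689053) (nat_lit 76) (nat_lit 7847048627) (nat_lit 36) (nat_lit 4) (nat_lit 37) (nat_lit 5) (nat_lit 37) (nat_lit 4) (nat_lit 487) (nat_lit 390) (nat_lit 323))) (XT.nd (nat_lit 78) (nat_lit 0) (nat_lit 0)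 (XT.lf (nat_lit 0) (nat_lit 3777744745) (nat_lit 76) (nat_lit 2354408980) (nat_lit 152) (nat_lit 45921625427) (nat_lit 34) (nat_lit 5) (nat_lit 35) (nat_lit 5) (nat_lit 36) (nat_lit 4) (nat_lit 488) (nat_lit 390) (nat_lit 322)) (XT.lf (nat_lit 0) (nat_lit 21114939468) (nat_lit 152) (nat_lit 20060451510) (nat_lit 0) (nat_lit 12725498308) (nat_lit 34) (nat_lit 5) (nat_lit 36) (nat_lit 4) (nat_lit 34) (nat_lit 4) (nat_lit 489) (nat_lit 390) (nat_lit 321))))) (XT.nd (nat_lit 312) (nat_lit 228) (nat_lit 0) (XT.nd (nat_lit 156) (nat_lit 152) (nat_lit 0) (XT.nd (nat_lit 78) (nat_lit 0) (nat_lit 0) (XT.lf (nat_lit 0) (nat_lit 9742902479) (nat_lit 76) (nat_lit 27247010274) (nat_lit 76) (nat_lit 18843289907) (nat_lit 33) (nat_lit 4) (nat_lit 34) (nat_lit 5) (nat_lit 34) (nat_lit 4) (nat_lit 490) (nat_lit 390) (nat_lit 320)) (XT.lf (nat_lit 0) (nat_lit 41638185174) (nat_lit 76) (nat_lit 12313311588) (nat_lit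 76) (nat_lit 3895991977) (nat_lit 33) (nat_lit 4) (nat_lit 34) (nat_lit 5) (nat_lit 34) (nat_lit 4) (nat_lit 491) (nat_lit 390) (nat_lit 319))) (XT.nd (nat_lit 78) (nat_lit 0) (nat_lit 0) (XT.lf (nat_lit 0) (nat_lit 11674630442) (nat_lit 152) (nat_lit 44620168096) (nat_lit 0) (nat_lit 3645800658) (nat_lit 31) (nat_lit 5) (nat_lit 33) (nat_lit 4) (nat_lit 31) (nat_lit 4) (nat_lit 492) (nat_lit 390) (nat_lit 318)) (XT.lf (nat_lit 0) (nat_lit 28328392397) (nat_lit 152) (nat_lit 13497187427) (nat_lit 0) (nat_lit 20287815074) (nat_lit 31) (nat_lit 5) (nat_lit 33) (nat_lit 4) (nat_lit 31) (nat_lit 4) (nat_lit 493) (nat_lit 390) (nat_lit 317)))) (XT.nd (nat_lit 156) (nat_lit 152) (nat_lit 0) (XT.nd (nat_lit 78) (nat_lit 0) (nat_lit 0) (XT.lf (nat_lit 0) (nat_lit 19725939041) (nat_lit 76) (nat_lit 26353708333) (nat_lit 76) (nat_lit 18301942878) (nat_lit 30) (nat_lit 4) (nat_lit 31) (nat_lit 5) (nat_lit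 31) (nat_lit 4) (nat_lit 494) (nat_lit 390) (nat_lit 316)) (XT.lf (nat_lit 0) (nat_lit 54992866205) (nat_lit 76) (nat_lit 9911721972) (nat_lit 76) (nat_lit 1849301152) (nat_lit 30) (nat_lit 4) (nat_lit 31) (nat_lit 5) (nat_lit 31) (nat_lit 4) (nat_lit 495) (nat_lit 390) (nat_lit 315))) (XT.nd (nat_lit 78) (nat_lit 0) (nat_lit 0) (XT.lf (nat_lit 0) (nat_lit 15377330372) (nat_lit 152) (nat_lit 46144007071) (nat_lit 0) (nat_lit 7689169625) (nat_lit 28) (nat_lit 5) (nat_lit 30) (nat_lit 4) (nat_lit 28) (nat_lit 4) (nat_lit 496) (nat_lit 390) (nat_lit 314)) (XT.lf (nat_lit 0) (nat_lit 33727008128) (nat_lit 152) (nat_lit 12015595798) (nat_lit 0) (nat_lit 26029642877) (nat_lit 28) (nat_lit 5) (nat_lit 30) (nat_lit 4) (nat_lit 28) (nat_lit 4) (nat_lit 497) (nat_lit 390) (nat_lit 313)))))) (XT.nd (nat_lit 624) (nat_lit 304) (nat_lit 0) (XT.nd (nat_lit 312) (nat_lit 228) (nat_lit 0) (XT.nd (nat_lit 156)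 (nat_lit 152) (nat_lit 0) (XT.nd (nat_lit 78) (nat_lit 0) (nat_lit 0) (XT.lf (nat_lit 0) (nat_lit 24524904627) (nat_lit 76) (nat_lit 28813055459) (nat_lit 76) (nat_lit 21106924013) (nat_lit 27) (nat_lit 4) (nat_lit 28) (nat_lit 5) (nat_lit 28) (nat_lit 4) (nat_lit 498) (nat_lit 390) (nat_lit 312)) (XT.lf (nat_lit 0) (nat_lit 63231581642) (nat_lit 76) (nat_lit 10862900393) (nat_lit 76) (nat_lit 3148420191) (nat_lit 27) (nat_lit 4) (nat_lit 28) (nat_lit 5) (nat_lit 28) (nat_lit 4) (nat_lit 499) (nat_lit 390) (nat_lit 311))) (XT.nd (nat_lit 78) (nat_lit 0) (nat_lit 0) (XT.lf (nat_lit 0) (nat_lit 15679252897) (nat_lit 152) (nat_lit 56141049888) (nat_lit 0) (nat_lit 8324556327) (nat_lit 25) (nat_lit 5) (nat_lit 27) (nat_lit 4) (nat_lit 25) (nat_lit 4) (nat_lit 500) (nat_lit 390) (nat_lit 310)) (XT.lf (nat_lit 0) (nat_lit 35724549310) (nat_lit 152) (nat_lit 19083040804) (nat_lit 0) (nat_lit 28362640769)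 (nat_lit 25) (nat_lit 5) (nat_lit 27) (nat_lit 4) (nat_lit 25) (nat_lit 4) (nat_lit 501) (nat_lit 390) (nat_lit 309)))) (XT.nd (nat_lit 156) (nat_lit 152) (nat_lit 0) (XT.nd (nat_lit 78) (nat_lit 0) (nat_lit 0) (XT.lf (nat_lit 0) (nat_lit 20409141514) (nat_lit 76) (nat_lit 36646173333) (nat_lit 76) (nat_lit 29277396250) (nat_lit 24) (nat_lit 4) (nat_lit 25) (nat_lit 5) (nat_lit 25) (nat_lit 4) (nat_lit 502) (nat_lit 390) (nat_lit 308)) (XT.lf (nat_lit 0) (nat_lit 62467666267) (nat_lit 76) (nat_lit 17273275754) (nat_lit 76) (nat_lit 9897957201) (nat_lit 24) (nat_lit 4) (nat_lit 25) (nat_lit 5) (nat_lit 25) (nat_lit 4) (nat_lit 503) (nat_lit 390) (nat_lit 307))) (XT.nd (nat_lit 78) (nat_lit 0) (nat_lit 0) (XT.lf (nat_lit 0) (nat_lit 10350088397) (nat_lit 152) (nat_lit 79420402470) (nat_lit 0) (nat_lit 3320042185) (nat_lit 22) (nat_lit 5) (nat_lit 24) (nat_lit 4) (nat_lit 22) (nat_lit 4) (nat_lit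 504) (nat_lit 390) (nat_lit 306)) (XT.lf (nat_lit 0) (nat_lit 31995047895) (nat_lit 152) (nat_lit 39716379346) (nat_lit 0) (nat_lit 24959350916) (nat_lit 22) (nat_lit 5) (nat_lit 24) (nat_lit 4) (nat_lit 22) (nat_lit 4) (nat_lit 505) (nat_lit 390) (nat_lit 305))))) (XT.nd (nat_lit 312) (nat_lit 76) (nat_lit 0) (XT.nd (nat_lit 156) (nat_lit 152) (nat_lit 0) (XT.nd (nat_lit 78) (nat_lit 0) (nat_lit 0) (XT.lf (nat_lit 0) (nat_lit 1970630558) (nat_lit 76) (nat_lit 52750275569) (nat_lit 76) (nat_lit 45709196907) (nat_lit 21) (nat_lit 4) (nat_lit 22) (nat_lit 5) (nat_lit 22) (nat_lit 4) (nat_lit 506) (nat_lit 390) (nat_lit 304)) (XT.lf (nat_lit 0) (nat_lit 47056620122) (nat_lit 76) (nat_lit 32167463423) (nat_lit 76) (nat_lit 25121259349) (nat_lit 21) (nat_lit 4) (nat_lit 22) (nat_lit 5) (nat_lit 22) (nat_lit 4) (nat_lit 507) (nat_lit 390) (nat_lit 303))) (XT.nd (nat_lit 78) (nat_lit 152) (nat_lit 0)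 (XT.lf (nat_lit 0) (nat_lit 94335734074) (nat_lit 76) (nat_lit 10586600211) (nat_lit 76) (nat_lit 3535514791) (nat_lit 21) (nat_lit 4) (nat_lit 22) (nat_lit 5) (nat_lit 22) (nat_lit 4) (nat_lit 508) (nat_lit 390) (nat_lit 302)) (XT.lf (nat_lit 0) (nat_lit 19186709266) (nat_lit 152) (nat_lit 81073902968) (nat_lit 0) (nat_lit 12466962295) (nat_lit 19) (nat_lit 5) (nat_lit 21) (nat_lit 4) (nat_lit 19) (nat_lit 4) (nat_lit 509) (nat_lit 390) (nat_lit 301)))) (XT.nd (nat_lit 156) (nat_lit 0) (nat_lit 0) (XT.nd (nat_lit 78) (nat_lit 76) (nat_lit 0) (XT.lf (nat_lit 0) (nat_lit 43313756309) (nat_lit 152) (nat_lit 37284962964) (nat_lit 0) (nat_lit 36589792649) (nat_lit 19) (nat_lit 5) (nat_lit 21) (nat_lit 4) (nat_lit 19) (nat_lit 4) (nat_lit 510) (nat_lit 390) (nat_lit 300)) (XT.lf (nat_lit 0) (nat_lit 8922583843) (nat_lit 76) (nat_lit 59836156356) (nat_lit 76) (nat_lit 53108176801) (nat_lit 18) (nat_lit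 4) (nat_lit 19) (nat_lit 5) (nat_lit 19) (nat_lit 4) (nat_lit 511) (nat_lit 390) (nat_lit 299))) (XT.nd (nat_lit 78) (nat_lit 0) (nat_lit 0) (XT.lf (nat_lit 0) (nat_lit 58679449089) (nat_lit 76) (nat_lit 37400694493) (nat_lit 76) (nat_lit 30668890276) (nat_lit 18) (nat_lit 4) (nat_lit 19) (nat_lit 5) (nat_lit 19) (nat_lit 4) (nat_lit 512) (nat_lit 390) (nat_lit 298)) (XT.lf (nat_lit 0) (nat_lit 110871292241) (nat_lit 76) (nat_lit 13870354806) (nat_lit 76) (nat_lit 7134908054) (nat_lit 18) (nat_lit 4) (nat_lit 19) (nat_lit 5) (nat_lit 19) (nat_lit 4) (nat_lit 513) (nat_lit 390) (nat_lit 297)))))))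
noncomputable def xc145 : XT := (XT.nd (nat_lit 1248) (nat_lit 304) (nat_lit 0) (XT.nd (nat_lit 624) (nat_lit 228) (nat_lit 0) (XT.nd (nat_lit 312) (nat_lit 152) (nat_lit 0) (XT.nd (nat_lit 156) (nat_lit 76) (nat_lit 0) (XT.nd (nat_lit 78) (nat_lit 0) (nat_lit 0) (XT.lf (nat_lit 0) (nat_lit 17621817454) (nat_lit 152) (nat_lit 108390683321) (nat_lit 0) (nat_lit 11203802376) (nat_lit 16) (nat_lit 5) (nat_lit 18) (nat_lit 4) (nat_lit 16) (nat_lit 4) (nat_lit 514) (nat_lit 390) (nat_lit 296)) (XT.lf (nat_lit 0) (nat_lit 43940420329) (nat_lit 152) (nat_lit 61329320289) (nat_lit 0) (nat_lit 37519258693) (nat_lit 16) (nat_lit 5) (nat_lit 18) (nat_lit 4) (nat_lit 16) (nat_lit 4) (nat_lit 515) (nat_lit 390) (nat_lit 295))) (XT.nd (nat_lit 78) (nat_lit 76) (nat_lit 0) (XT.lf (nat_lit 0) (nat_lit 71551021845) (nat_lit 152) (nat_lit 11963641554) (nat_lit 0) (nat_lit 65126863486) (nat_lit 16) (nat_lit 5) (nat_lit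 18) (nat_lit 4) (nat_lit 16) (nat_lit 4) (nat_lit 516) (nat_lit 390) (nat_lit 294)) (XT.lf (nat_lit 0) (nat_lit 41140647875) (nat_lit 76) (nat_lit 60021034464) (nat_lit 76) (nat_lit 53594022084) (nat_lit 15) (nat_lit 4) (nat_lit 16) (nat_lit 5) (nat_lit 16) (nat_lit 4) (nat_lit 517) (nat_lit 390) (nat_lit 293)))) (XT.nd (nat_lit 156) (nat_lit 152) (nat_lit 0) (XT.nd (nat_lit 78) (nat_lit 0) (nat_lit 0) (XT.lf (nat_lit 0) (nat_lit 97269820379) (nat_lit 76) (nat_lit 35163245735) (nat_lit 76) (nat_lit 28733515239) (nat_lit 15) (nat_lit 4) (nat_lit 16) (nat_lit 5) (nat_lit 16) (nat_lit 4) (nat_lit 518) (nat_lit 390) (nat_lit 292)) (XT.lf (nat_lit 0) (nat_lit 156161944826) (nat_lit 76) (nat_lit 9084722058) (nat_lit 76) (nat_lit 2652402881) (nat_lit 15) (nat_lit 4) (nat_lit 16) (nat_lit 5) (nat_lit 16) (nat_lit 4) (nat_lit 519) (nat_lit 390) (nat_lit 291))) (XT.nd (nat_lit 78) (nat_lit 0) (nat_lit 0)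 (XT.lf (nat_lit 0) (nat_lit 24910564712) (nat_lit 152) (nat_lit 131207641956) (nat_lit 0) (nat_lit 18782198437) (nat_lit 13) (nat_lit 5) (nat_lit 15) (nat_lit 4) (nat_lit 13) (nat_lit 4) (nat_lit 520) (nat_lit 390) (nat_lit 290)) (XT.lf (nat_lit 0) (nat_lit 54092843792) (nat_lit 152) (nat_lit 80178032963) (nat_lit 0) (nat_lit 47962241317) (nat_lit 13) (nat_lit 5) (nat_lit 15) (nat_lit 4) (nat_lit 13) (nat_lit 4) (nat_lit 521) (nat_lit 390) (nat_lit 289))))) (XT.nd (nat_lit 312) (nat_lit 152) (nat_lit 0) (XT.nd (nat_lit 156) (nat_lit 0) (nat_lit 0) (XT.nd (nat_lit 78) (nat_lit 76) (nat_lit 0) (XT.lf (nat_lit 0) (nat_lit 84714559578) (nat_lit 152) (nat_lit 26637063606) (nat_lit 0) (nat_lit 78581827388) (nat_lit 13) (nat_lit 5) (nat_lit 15) (nat_lit 4) (nat_lit 13) (nat_lit 4) (nat_lit 522) (nat_lit 390) (nat_lit 288)) (XT.lf (nat_lit 0) (nat_lit 30519561167) (nat_lit 76) (nat_lit 86805555630) (nat_lit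 76) (nat_lit 80670795140) (nat_lit 12) (nat_lit 4) (nat_lit 13) (nat_lit 5) (nat_lit 13) (nat_lit 4) (nat_lit 523) (nat_lit 390) (nat_lit 287))) (XT.nd (nat_lit 78) (nat_lit 0) (nat_lit 0) (XT.lf (nat_lit 0) (nat_lit 91421202558) (nat_lit 76) (nat_lit 60577676098) (nat_lit 76) (nat_lit 54440983894) (nat_lit 12) (nat_lit 4) (nat_lit 13) (nat_lit 5) (nat_lit 13) (nat_lit 4) (nat_lit 524) (nat_lit 390) (nat_lit 286)) (XT.lf (nat_lit 0) (nat_lit 155332122854) (nat_lit 76) (nat_lit 33056648818) (nat_lit 76) (nat_lit 26918116887) (nat_lit 12) (nat_lit 4) (nat_lit 13) (nat_lit 5) (nat_lit 13) (nat_lit 4) (nat_lit 525) (nat_lit 390) (nat_lit 285)))) (XT.nd (nat_lit 156) (nat_lit 0) (nat_lit 0) (XT.nd (nat_lit 78) (nat_lit 76) (nat_lit 0) (XT.lf (nat_lit 0) (nat_lit 1900497487) (nat_lit 152) (nat_lit 2244264202) (nat_lit 76) (nat_lit 220471807582) (nat_lit 11) (nat_lit 5) (nat_lit 13) (nat_lit 5) (nat_lit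 12) (nat_lit 4) (nat_lit 526) (nat_lit 390) (nat_lit 284)) (XT.lf (nat_lit 0) (nat_lit 32604612342) (nat_lit 152) (nat_lit 174942464372) (nat_lit 0) (nat_lit 26755133542) (nat_lit 10) (nat_lit 5) (nat_lit 12) (nat_lit 4) (nat_lit 10) (nat_lit 4) (nat_lit 527) (nat_lit 390) (nat_lit 283))) (XT.nd (nat_lit 78) (nat_lit 0) (nat_lit 0) (XT.lf (nat_lit 0) (nat_lit 64934330110) (nat_lit 152) (nat_lit 120449945576) (nat_lit 0) (nat_lit 59083337761) (nat_lit 10) (nat_lit 5) (nat_lit 12) (nat_lit 4) (nat_lit 10) (nat_lit 4) (nat_lit 528) (nat_lit 390) (nat_lit 282)) (XT.lf (nat_lit 0) (nat_lit 98865123746) (nat_lit 152) (nat_lit 63264243645) (nat_lit 0) (nat_lit 93012689923) (nat_lit 10) (nat_lit 5) (nat_lit 12) (nat_lit 4) (nat_lit 10) (nat_lit 4) (nat_lit 529) (nat_lit 390) (nat_lit 281)))))) (XT.nd (nat_lit 624) (nat_lit 76) (nat_lit 0) (XT.nd (nat_lit 312) (nat_lit 152) (nat_lit 0) (XT.nd (nat_lit 156)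 (nat_lit 0) (nat_lit 0) (XT.nd (nat_lit 78) (nat_lit 76) (nat_lit 0) (XT.lf (nat_lit 0) (nat_lit 134477780855) (nat_lit 152) (nat_lit 3249202145) (nat_lit 0) (nat_lit 128623974199) (nat_lit 10) (nat_lit 5) (nat_lit 12) (nat_lit 4) (nat_lit 10) (nat_lit 4) (nat_lit 530) (nat_lit 390) (nat_lit 280)) (XT.lf (nat_lit 0) (nat_lit 61713282321) (nat_lit 76) (nat_lit 111107328444) (nat_lit 76) (nat_lit 105252214328) (nat_lit 9) (nat_lit 4) (nat_lit 10) (nat_lit 5) (nat_lit 10) (nat_lit 4) (nat_lit 531) (nat_lit 390) (nat_lit 279))) (XT.nd (nat_lit 78) (nat_lit 0) (nat_lit 0) (XT.lf (nat_lit 0) (nat_lit 130008636415) (nat_lit 76) (nat_lit 83113222724) (nat_lit 76) (nat_lit 77256863408) (nat_lit 9) (nat_lit 4) (nat_lit 10) (nat_lit 5) (nat_lit 10) (nat_lit 4) (nat_lit 532) (nat_lit 390) (nat_lit 278)) (XT.lf (nat_lit 0) (nat_lit 201692034826) (nat_lit 76) (nat_lit 53733040018) (nat_lit 76) (nat_lit 47875494797)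 (nat_lit 9) (nat_lit 4) (nat_lit 10) (nat_lit 5) (nat_lit 10) (nat_lit 4) (nat_lit 533) (nat_lit 390) (nat_lit 277)))) (XT.nd (nat_lit 156) (nat_lit 0) (nat_lit 0) (XT.nd (nat_lit 78) (nat_lit 152) (nat_lit 0) (XT.lf (nat_lit 0) (nat_lit 276934152311) (nat_lit 76) (nat_lit 22896827509) (nat_lit 76) (nat_lit 17038152855) (nat_lit 9) (nat_lit 4) (nat_lit 10) (nat_lit 5) (nat_lit 10) (nat_lit 4) (nat_lit 534) (nat_lit 390) (nat_lit 276)) (XT.lf (nat_lit 0) (nat_lit 15392324328) (nat_lit 152) (nat_lit 305873100060) (nat_lit 0) (nat_lit 9811609752) (nat_lit 7) (nat_lit 5) (nat_lit 9) (nat_lit 4) (nat_lit 7) (nat_lit 4) (nat_lit 535) (nat_lit 390) (nat_lit 275))) (XT.nd (nat_lit 78) (nat_lit 0) (nat_lit 0) (XT.lf (nat_lit 0) (nat_lit 49922425941) (nat_lit 152) (nat_lit 251665668619) (nat_lit 0) (nat_lit 44340735719) (nat_lit 7) (nat_lit 5) (nat_lit 9) (nat_lit 4) (nat_lit 7) (nat_lit 4) (nat_lit 536)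 (nat_lit 390) (nat_lit 274)) (XT.lf (nat_lit 0) (nat_lit 86167538353) (nat_lit 152) (nat_lit 194771333652) (nat_lit 0) (nat_lit 80584918943) (nat_lit 7) (nat_lit 5) (nat_lit 9) (nat_lit 4) (nat_lit 7) (nat_lit 4) (nat_lit 537) (nat_lit 390) (nat_lit 273))))) (XT.nd (nat_lit 312) (nat_lit 0) (nat_lit 0) (XT.nd (nat_lit 156) (nat_lit 76) (nat_lit 0) (XT.nd (nat_lit 78) (nat_lit 0) (nat_lit 0) (XT.lf (nat_lit 0) (nat_lit 124213959450) (nat_lit 152) (nat_lit 135054632458) (nat_lit 0) (nat_lit 118630455099) (nat_lit 7) (nat_lit 5) (nat_lit 9) (nat_lit 4) (nat_lit 7) (nat_lit 4) (nat_lit 538) (nat_lit 390) (nat_lit 272)) (XT.lf (nat_lit 0) (nat_lit 164152275949) (nat_lit 152) (nat_lit 72373382413) (nat_lit 0) (nat_lit 158567928798) (nat_lit 7) (nat_lit 5) (nat_lit 9) (nat_lit 4) (nat_lit 7) (nat_lit 4) (nat_lit 539) (nat_lit 390) (nat_lit 271))) (XT.nd (nat_lit 78) (nat_lit 76) (nat_lit 0) (XT.lf (nat_lit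 0) (nat_lit 206077579080) (nat_lit 152) (nat_lit 6578342447) (nat_lit 0) (nat_lit 200492429261) (nat_lit 7) (nat_lit 5) (nat_lit 9) (nat_lit 4) (nat_lit 7) (nat_lit 4) (nat_lit 540) (nat_lit 390) (nat_lit 270)) (XT.lf (nat_lit 0) (nat_lit 64553249422) (nat_lit 76) (nat_lit 186544298704) (nat_lit 76) (nat_lit 180958384441) (nat_lit 6) (nat_lit 4) (nat_lit 7) (nat_lit 5) (nat_lit 7) (nat_lit 4) (nat_lit 541) (nat_lit 390) (nat_lit 269)))) (XT.nd (nat_lit 156) (nat_lit 0) (nat_lit 0) (XT.nd (nat_lit 78) (nat_lit 0) (nat_lit 0) (XT.lf (nat_lit 0) (nat_lit 139450810267) (nat_lit 76) (nat_lit 159019810122) (nat_lit 76) (nat_lit 153433167816) (nat_lit 6) (nat_lit 4) (nat_lit 7) (nat_lit 5) (nat_lit 7) (nat_lit 4) (nat_lit 542) (nat_lit 390) (nat_lit 268)) (XT.lf (nat_lit 0) (nat_lit 218075157904) (nat_lit 76) (nat_lit 130128328695) (nat_lit 76) (nat_lit 124540993015) (nat_lit 6) (nat_lit 4) (nat_lit 7)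 (nat_lit 5) (nat_lit 7) (nat_lit 4) (nat_lit 543) (nat_lit 390) (nat_lit 267))) (XT.nd (nat_lit 78) (nat_lit 0) (nat_lit 0) (XT.lf (nat_lit 0) (nat_lit 300613493161) (nat_lit 76) (nat_lit 99801065183) (nat_lit 76) (nat_lit 94213069147) (nat_lit 6) (nat_lit 4) (nat_lit 7) (nat_lit 5) (nat_lit 7) (nat_lit 4) (nat_lit 544) (nat_lit 390) (nat_lit 266)) (XT.nd (nat_lit 78) (nat_lit 0) (nat_lit 0) (XT.lf (nat_lit 0) (nat_lit 387262335882) (nat_lit 76) (nat_lit 67965811815) (nat_lit 76) (nat_lit 62377186868) (nat_lit 6) (nat_lit 4) (nat_lit 7) (nat_lit 5) (nat_lit 7) (nat_lit 4) (nat_lit 545) (nat_lit 390) (nat_lit 265)) (XT.lf (nat_lit 0) (nat_lit 478227992838) (nat_lit 76) (nat_lit 34546770369) (nat_lit 76) (nat_lit 28957546460) (nat_lit 6) (nat_lit 4) (nat_lit 7) (nat_lit 5) (nat_lit 7) (nat_lit 4) (nat_lit 546) (nat_lit 390) (nat_lit 264))))))))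
noncomputable def xc146 : XT := (XT.nd (nat_lit 52884) (nat_lit 0) (nat_lit 6460) (XT.nd (nat_lit 624) (nat_lit 0) (nat_lit 0) (XT.nd (nat_lit 312) (nat_lit 0) (nat_lit 0) (XT.nd (nat_lit 156) (nat_lit 0) (nat_lit 0) (XT.nd (nat_lit 78) (nat_lit 0) (nat_lit 0) (XT.lf (nat_lit 0) (nat_lit 6046931087) (nat_lit 152) (nat_lit 560285089702) (nat_lit 0) (nat_lit 723317421) (nat_lit 4) (nat_lit 5) (nat_lit 6) (nat_lit 4) (nat_lit 4) (nat_lit 4) (nat_lit 547) (nat_lit 390) (nat_lit 263)) (XT.lf (nat_lit 0) (nat_lit 43480510075) (nat_lit 152) (nat_lit 511901291365) (nat_lit 0) (nat_lit 38156379002) (nat_lit 4) (nat_lit 5) (nat_lit 6) (nat_lit 4) (nat_lit 4) (nat_lit 4) (nat_lit 548) (nat_lit 390) (nat_lit 262))) (XT.nd (nat_lit 78) (nat_lit 0) (nat_lit 0) (XT.lf (nat_lit 0) (nat_lit 82778714125) (nat_lit 152) (nat_lit 461112713076) (nat_lit 0) (nat_lit 77454090284) (nat_lit 4) (nat_lit 5) (nat_lit 6) (nat_lit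 4) (nat_lit 4) (nat_lit 4) (nat_lit 549) (nat_lit 390) (nat_lit 261)) (XT.lf (nat_lit 0) (nat_lit 124035110389) (nat_lit 152) (nat_lit 407798429650) (nat_lit 0) (nat_lit 118710017246) (nat_lit 4) (nat_lit 5) (nat_lit 6) (nat_lit 4) (nat_lit 4) (nat_lit 4) (nat_lit 550) (nat_lit 390) (nat_lit 260)))) (XT.nd (nat_lit 156) (nat_lit 0) (nat_lit 0) (XT.nd (nat_lit 78) (nat_lit 0) (nat_lit 0) (XT.lf (nat_lit 0) (nat_lit 167347928383) (nat_lit 152) (nat_lit 351831502316) (nat_lit 0) (nat_lit 162022388284) (nat_lit 4) (nat_lit 5) (nat_lit 6) (nat_lit 4) (nat_lit 4) (nat_lit 4) (nat_lit 551) (nat_lit 390) (nat_lit 259)) (XT.lf (nat_lit 0) (nat_lit 212820293863) (nat_lit 152) (nat_lit 293078676484) (nat_lit 0) (nat_lit 207494328093) (nat_lit 4) (nat_lit 5) (nat_lit 6) (nat_lit 4) (nat_lit 4) (nat_lit 4) (nat_lit 552) (nat_lit 390) (nat_lit 258))) (XT.nd (nat_lit 78) (nat_lit 0) (nat_lit 0) (XT.lf (nat_lit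 0) (nat_lit 260560474367) (nat_lit 152) (nat_lit 231400064476) (nat_lit 0) (nat_lit 255234103195) (nat_lit 4) (nat_lit 5) (nat_lit 6) (nat_lit 4) (nat_lit 4) (nat_lit 4) (nat_lit 553) (nat_lit 390) (nat_lit 257)) (XT.lf (nat_lit 0) (nat_lit 310682136990) (nat_lit 152) (nat_lit 166648812452) (nat_lit 0) (nat_lit 305355379722) (nat_lit 4) (nat_lit 5) (nat_lit 6) (nat_lit 4) (nat_lit 4) (nat_lit 4) (nat_lit 554) (nat_lit 390) (nat_lit 256))))) (XT.nd (nat_lit 51948) (nat_lit 0) (nat_lit 9956) (XT.nd (nat_lit 51792) (nat_lit 0) (nat_lit 11096) (XT.nd (nat_lit 78) (nat_lit 0) (nat_lit 0) (XT.lf (nat_lit 0) (nat_lit 363304619026) (nat_lit 152) (nat_lit 98670750764) (nat_lit 0) (nat_lit 357977494047) (nat_lit 4) (nat_lit 5) (nat_lit 6) (nat_lit 4) (nat_lit 4) (nat_lit 4) (nat_lit 555) (nat_lit 390) (nat_lit 255)) (XT.lf (nat_lit 0) (nat_lit 418553212097) (nat_lit 152) (nat_lit 27304026886) (nat_lit 0)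 (nat_lit 413225736917) (nat_lit 4) (nat_lit 5) (nat_lit 6) (nat_lit 4) (nat_lit 4) (nat_lit 4) (nat_lit 556) (nat_lit 390) (nat_lit 254))) (XT.nd (nat_lit 78) (nat_lit 456) (nat_lit 0) (XT.lf (nat_lit 0) (nat_lit 2684740536) (nat_lit 456) (nat_lit 502106466) (nat_lit 456) (nat_lit 502106466) (nat_lit 156) (nat_lit 4) (nat_lit 162) (nat_lit 5) (nat_lit 162) (nat_lit 4) (nat_lit 418) (nat_lit 391) (nat_lit 391)) (XT.lf (nat_lit 0) (nat_lit 2662009001) (nat_lit 456) (nat_lit 3633028380) (nat_lit 0) (nat_lit 1190755539) (nat_lit 150) (nat_lit 5) (nat_lit 156) (nat_lit 4) (nat_lit 150) (nat_lit 4) (nat_lit 419) (nat_lit 391) (nat_lit 390)))) (XT.nd (nat_lit 156) (nat_lit 380) (nat_lit 0) (XT.nd (nat_lit 78) (nat_lit 380) (nat_lit 0) (XT.lf (nat_lit 0) (nat_lit 2323095555) (nat_lit 380) (nat_lit 4075781015) (nat_lit 380) (nat_lit 1203333779) (nat_lit 145) (nat_lit 4) (nat_lit 150) (nat_lit 5) (nat_lit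 150) (nat_lit 4) (nat_lit 420) (nat_lit 391) (nat_lit 389)) (XT.lf (nat_lit 0) (nat_lit 765304608) (nat_lit 304) (nat_lit 1660169588) (nat_lit 380) (nat_lit 5301434707) (nat_lit 140) (nat_lit 5) (nat_lit 144) (nat_lit 5) (nat_lit 145) (nat_lit 4) (nat_lit 421) (nat_lit 391) (nat_lit 388))) (XT.nd (nat_lit 78) (nat_lit 380) (nat_lit 0) (XT.lf (nat_lit 0) (nat_lit 6140010123) (nat_lit 380) (nat_lit 796603828) (nat_lit 0) (nat_lit 923018167) (nat_lit 140) (nat_lit 5) (nat_lit 145) (nat_lit 4) (nat_lit 140) (nat_lit 4) (nat_lit 422) (nat_lit 391) (nat_lit 387)) (XT.lf (nat_lit 0) (nat_lit 1938325793) (nat_lit 380) (nat_lit 2396189664) (nat_lit 76) (nat_lit 3664774906) (nat_lit 135) (nat_lit 5) (nat_lit 140) (nat_lit 5) (nat_lit 136) (nat_lit 4) (nat_lit 423) (nat_lit 391) (nat_lit 386)))))) (XT.nd (nat_lit 624) (nat_lit 1520) (nat_lit 0) (XT.nd (nat_lit 312) (nat_lit 988) (nat_lit 0) (XT.nd (nat_lit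 156) (nat_lit 304) (nat_lit 0) (XT.nd (nat_lit 78) (nat_lit 380) (nat_lit 0) (XT.lf (nat_lit 0) (nat_lit 4112664875) (nat_lit 304) (nat_lit 1536259222) (nat_lit 380) (nat_lit 2499231461) (nat_lit 131) (nat_lit 5) (nat_lit 135) (nat_lit 5) (nat_lit 136) (nat_lit 4) (nat_lit 424) (nat_lit 391) (nat_lit 385)) (XT.lf (nat_lit 0) (nat_lit 1156764729) (nat_lit 380) (nat_lit 5736462678) (nat_lit 76) (nat_lit 1412483755) (nat_lit 126) (nat_lit 5) (nat_lit 131) (nat_lit 5) (nat_lit 127) (nat_lit 4) (nat_lit 425) (nat_lit 391) (nat_lit 384))) (XT.nd (nat_lit 78) (nat_lit 76) (nat_lit 0) (XT.lf (nat_lit 0) (nat_lit 938577062) (nat_lit 228) (nat_lit 3936930516) (nat_lit 304) (nat_lit 3595400833) (nat_lit 123) (nat_lit 5) (nat_lit 126) (nat_lit 5) (nat_lit 127) (nat_lit 4) (nat_lit 426) (nat_lit 391) (nat_lit 383)) (XT.lf (nat_lit 0) (nat_lit 86362086) (nat_lit 304) (nat_lit 699009452) (nat_lit 76) (nat_lit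 7861152019) (nat_lit 122) (nat_lit 5) (nat_lit 126) (nat_lit 5) (nat_lit 123) (nat_lit 5) (nat_lit 427) (nat_lit 391) (nat_lit 382)))) (XT.nd (nat_lit 156) (nat_lit 456) (nat_lit 0) (XT.nd (nat_lit 78) (nat_lit 228) (nat_lit 0) (XT.lf (nat_lit 0) (nat_lit 3835917856) (nat_lit 380) (nat_lit 2440794016) (nat_lit 76) (nat_lit 2551041871) (nat_lit 118) (nat_lit 5) (nat_lit 123) (nat_lit 5) (nat_lit 119) (nat_lit 4) (nat_lit 428) (nat_lit 391) (nat_lit 381)) (XT.lf (nat_lit 0) (nat_lit 4778540372) (nat_lit 228) (nat_lit 2959607489) (nat_lit 304) (nat_lit 1281645396) (nat_lit 115) (nat_lit 5) (nat_lit 118) (nat_lit 5) (nat_lit 119) (nat_lit 4) (nat_lit 429) (nat_lit 391) (nat_lit 380))) (XT.nd (nat_lit 78) (nat_lit 152) (nat_lit 0) (XT.lf (nat_lit 0) (nat_lit 2496815584) (nat_lit 304) (nat_lit 6146047784) (nat_lit 76) (nat_lit 578216319) (nat_lit 111) (nat_lit 5) (nat_lit 115) (nat_lit 5) (nat_lit 112)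 (nat_lit 4) (nat_lit 430) (nat_lit 391) (nat_lit 379)) (XT.lf (nat_lit 0) (nat_lit 1245744028) (nat_lit 152) (nat_lit 5185603251) (nat_lit 228) (nat_lit 2999528263) (nat_lit 109) (nat_lit 5) (nat_lit 111) (nat_lit 5) (nat_lit 112) (nat_lit 4) (nat_lit 431) (nat_lit 391) (nat_lit 378))))) (XT.nd (nat_lit 312) (nat_lit 760) (nat_lit 0) (XT.nd (nat_lit 156) (nat_lit 456) (nat_lit 0) (XT.nd (nat_lit 78) (nat_lit 228) (nat_lit 0) (XT.lf (nat_lit 0) (nat_lit 858384078) (nat_lit 228) (nat_lit 641435792) (nat_lit 76) (nat_lit 8151830214) (nat_lit 108) (nat_lit 5) (nat_lit 111) (nat_lit 5) (nat_lit 109) (nat_lit 5) (nat_lit 432) (nat_lit 391) (nat_lit 377)) (XT.lf (nat_lit 0) (nat_lit 4837054426) (nat_lit 304) (nat_lit 2647616624) (nat_lit 76) (nat_lit 2394906064) (nat_lit 105) (nat_lit 5) (nat_lit 109) (nat_lit 5) (nat_lit 106) (nat_lit 4) (nat_lit 433) (nat_lit 391) (nat_lit 376))) (XT.nd (nat_lit 78)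 (nat_lit 304) (nat_lit 0) (XT.lf (nat_lit 0) (nat_lit 5357202633) (nat_lit 152) (nat_lit 3655129459) (nat_lit 228) (nat_lit 1106690143) (nat_lit 103) (nat_lit 5) (nat_lit 105) (nat_lit 5) (nat_lit 106) (nat_lit 4) (nat_lit 434) (nat_lit 391) (nat_lit 375)) (XT.lf (nat_lit 0) (nat_lit 2913237776) (nat_lit 304) (nat_lit 7024218133) (nat_lit 76) (nat_lit 431418835) (nat_lit 99) (nat_lit 5) (nat_lit 103) (nat_lit 5) (nat_lit 100) (nat_lit 4) (nat_lit 435) (nat_lit 391) (nat_lit 374)))) (XT.nd (nat_lit 156) (nat_lit 532) (nat_lit 0) (XT.nd (nat_lit 78) (nat_lit 76) (nat_lit 0) (XT.lf (nat_lit 0) (nat_lit 1157261766) (nat_lit 152) (nat_lit 5980599331) (nat_lit 228) (nat_lit 3490411795) (nat_lit 97) (nat_lit 5) (nat_lit 99) (nat_lit 5) (nat_lit 100) (nat_lit 4) (nat_lit 436) (nat_lit 391) (nat_lit 373)) (XT.lf (nat_lit 0) (nat_lit 654139991) (nat_lit 228) (nat_lit 1111223793) (nat_lit 76) (nat_lit 9134625593)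 (nat_lit 96) (nat_lit 5) (nat_lit 99) (nat_lit 5) (nat_lit 97) (nat_lit 5) (nat_lit 437) (nat_lit 391) (nat_lit 372))) (XT.nd (nat_lit 78) (nat_lit 380) (nat_lit 0) (XT.lf (nat_lit 0) (nat_lit 4938964517) (nat_lit 228) (nat_lit 3557034355) (nat_lit 76) (nat_lit 2683918577) (nat_lit 94) (nat_lit 5) (nat_lit 97) (nat_lit 5) (nat_lit 95) (nat_lit 4) (nat_lit 438) (nat_lit 391) (nat_lit 371)) (XT.nd (nat_lit 78) (nat_lit 228) (nat_lit 0) (XT.lf (nat_lit 0) (nat_lit 5312360773) (nat_lit 152) (nat_lit 4145368571) (nat_lit 228) (nat_lit 2015131486) (nat_lit 92) (nat_lit 5) (nat_lit 94) (nat_lit 5) (nat_lit 95) (nat_lit 4) (nat_lit 439) (nat_lit 391) (nat_lit 370)) (XT.lf (nat_lit 0) (nat_lit 2347002703) (nat_lit 228) (nat_lit 8951779485) (nat_lit 76) (nat_lit 479654985) (nat_lit 89) (nat_lit 5) (nat_lit 92) (nat_lit 5) (nat_lit 90) (nat_lit 4) (nat_lit 440) (nat_lit 391) (nat_lit 369))))))))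
noncomputable def xc147 : XT := (XT.nd (nat_lit 1248) (nat_lit 1292) (nat_lit 0) (XT.nd (nat_lit 624) (nat_lit 760) (nat_lit 0) (XT.nd (nat_lit 312) (nat_lit 532) (nat_lit 0) (XT.nd (nat_lit 156) (nat_lit 304) (nat_lit 0) (XT.nd (nat_lit 78) (nat_lit 0) (nat_lit 0) (XT.lf (nat_lit 0) (nat_lit 93669132) (nat_lit 152) (nat_lit 6831803566) (nat_lit 228) (nat_lit 5168873687) (nat_lit 87) (nat_lit 5) (nat_lit 89) (nat_lit 5) (nat_lit 90) (nat_lit 4) (nat_lit 441) (nat_lit 391) (nat_lit 368)) (XT.lf (nat_lit 0) (nat_lit 9715630957) (nat_lit 152) (nat_lit 2061630261) (nat_lit 228) (nat_lit 646573262) (nat_lit 87) (nat_lit 5) (nat_lit 89) (nat_lit 5) (nat_lit 90) (nat_lit 4) (nat_lit 442) (nat_lit 391) (nat_lit 367))) (XT.nd (nat_lit 78) (nat_lit 76) (nat_lit 0) (XT.lf (nat_lit 0) (nat_lit 4024169770) (nat_lit 228) (nat_lit 5785233746) (nat_lit 76) (nat_lit 2954513673) (nat_lit 84) (nat_lit 5) (nat_lit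 87) (nat_lit 5) (nat_lit 85) (nat_lit 4) (nat_lit 443) (nat_lit 391) (nat_lit 366)) (XT.lf (nat_lit 0) (nat_lit 4026900425) (nat_lit 76) (nat_lit 4920290969) (nat_lit 152) (nat_lit 4171261875) (nat_lit 83) (nat_lit 5) (nat_lit 84) (nat_lit 5) (nat_lit 85) (nat_lit 4) (nat_lit 444) (nat_lit 391) (nat_lit 365)))) (XT.nd (nat_lit 156) (nat_lit 304) (nat_lit 0) (XT.nd (nat_lit 78) (nat_lit 0) (nat_lit 0) (XT.lf (nat_lit 0) (nat_lit 620654842) (nat_lit 228) (nat_lit 12614863185) (nat_lit 76) (nat_lit 253960631) (nat_lit 80) (nat_lit 5) (nat_lit 83) (nat_lit 5) (nat_lit 81) (nat_lit 4) (nat_lit 445) (nat_lit 391) (nat_lit 364)) (XT.lf (nat_lit 0) (nat_lit 5647604693) (nat_lit 228) (nat_lit 2551542486) (nat_lit 76) (nat_lit 5669710488) (nat_lit 80) (nat_lit 5) (nat_lit 83) (nat_lit 5) (nat_lit 81) (nat_lit 4) (nat_lit 446) (nat_lit 391) (nat_lit 363))) (XT.nd (nat_lit 78) (nat_lit 228) (nat_lit 0) (XT.lf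 (nat_lit 0) (nat_lit 8099561649) (nat_lit 76) (nat_lit 2856096858) (nat_lit 152) (nat_lit 3310061551) (nat_lit 79) (nat_lit 5) (nat_lit 80) (nat_lit 5) (nat_lit 81) (nat_lit 4) (nat_lit 447) (nat_lit 391) (nat_lit 362)) (XT.lf (nat_lit 0) (nat_lit 1851691556) (nat_lit 228) (nat_lit 10088768265) (nat_lit 76) (nat_lit 2737320808) (nat_lit 76) (nat_lit 5) (nat_lit 79) (nat_lit 5) (nat_lit 77) (nat_lit 4) (nat_lit 448) (nat_lit 391) (nat_lit 361))))) (XT.nd (nat_lit 312) (nat_lit 380) (nat_lit 0) (XT.nd (nat_lit 156) (nat_lit 304) (nat_lit 0) (XT.nd (nat_lit 78) (nat_lit 0) (nat_lit 0) (XT.lf (nat_lit 0) (nat_lit 735872309) (nat_lit 76) (nat_lit 6493221247) (nat_lit 152) (nat_lit 7875199407) (nat_lit 75) (nat_lit 5) (nat_lit 76) (nat_lit 5) (nat_lit 77) (nat_lit 4) (nat_lit 449) (nat_lit 391) (nat_lit 360)) (XT.lf (nat_lit 0) (nat_lit 12279160067) (nat_lit 76) (nat_lit 673271780) (nat_lit 152) (nat_lit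 2595847612) (nat_lit 75) (nat_lit 5) (nat_lit 76) (nat_lit 5) (nat_lit 77) (nat_lit 4) (nat_lit 450) (nat_lit 391) (nat_lit 359))) (XT.nd (nat_lit 78) (nat_lit 76) (nat_lit 0) (XT.lf (nat_lit 0) (nat_lit 2980753997) (nat_lit 228) (nat_lit 7655030016) (nat_lit 76) (nat_lit 5370001050) (nat_lit 72) (nat_lit 5) (nat_lit 75) (nat_lit 5) (nat_lit 73) (nat_lit 4) (nat_lit 451) (nat_lit 391) (nat_lit 358)) (XT.lf (nat_lit 0) (nat_lit 4089943101) (nat_lit 76) (nat_lit 4699941867) (nat_lit 152) (nat_lit 7692107998) (nat_lit 71) (nat_lit 5) (nat_lit 72) (nat_lit 5) (nat_lit 73) (nat_lit 4) (nat_lit 452) (nat_lit 391) (nat_lit 357)))) (XT.nd (nat_lit 156) (nat_lit 152) (nat_lit 0) (XT.nd (nat_lit 78) (nat_lit 228) (nat_lit 0) (XT.lf (nat_lit 0) (nat_lit 14955452971) (nat_lit 152) (nat_lit 482349788) (nat_lit 0) (nat_lit 1540911009) (nat_lit 71) (nat_lit 5) (nat_lit 73) (nat_lit 4) (nat_lit 71) (nat_lit 4)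 (nat_lit 453) (nat_lit 391) (nat_lit 356)) (XT.lf (nat_lit 0) (nat_lit 3987939391) (nat_lit 228) (nat_lit 5380715619) (nat_lit 76) (nat_lit 8119316623) (nat_lit 68) (nat_lit 5) (nat_lit 71) (nat_lit 5) (nat_lit 69) (nat_lit 4) (nat_lit 454) (nat_lit 391) (nat_lit 355))) (XT.nd (nat_lit 78) (nat_lit 76) (nat_lit 0) (XT.lf (nat_lit 0) (nat_lit 7362249588) (nat_lit 76) (nat_lit 2907484404) (nat_lit 152) (nat_lit 7749399846) (nat_lit 67) (nat_lit 5) (nat_lit 68) (nat_lit 5) (nat_lit 69) (nat_lit 4) (nat_lit 455) (nat_lit 391) (nat_lit 354)) (XT.lf (nat_lit 0) (nat_lit 2204082489) (nat_lit 76) (nat_lit 14764295507) (nat_lit 76) (nat_lit 1603339429) (nat_lit 66) (nat_lit 4) (nat_lit 67) (nat_lit 5) (nat_lit 67) (nat_lit 4) (nat_lit 456) (nat_lit 391) (nat_lit 353)))))) (XT.nd (nat_lit 624) (nat_lit 684) (nat_lit 0) (XT.nd (nat_lit 312) (nat_lit 304) (nat_lit 0) (XT.nd (nat_lit 156) (nat_lit 152) (nat_lit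 0) (XT.nd (nat_lit 78) (nat_lit 76) (nat_lit 0) (XT.lf (nat_lit 0) (nat_lit 4841291208) (nat_lit 152) (nat_lit 3352679881) (nat_lit 76) (nat_lit 10946849208) (nat_lit 65) (nat_lit 5) (nat_lit 67) (nat_lit 5) (nat_lit 66) (nat_lit 4) (nat_lit 457) (nat_lit 391) (nat_lit 352)) (XT.lf (nat_lit 0) (nat_lit 10467960339) (nat_lit 76) (nat_lit 1169169666) (nat_lit 152) (nat_lit 8095792210) (nat_lit 64) (nat_lit 5) (nat_lit 65) (nat_lit 5) (nat_lit 66) (nat_lit 4) (nat_lit 458) (nat_lit 391) (nat_lit 351))) (XT.nd (nat_lit 78) (nat_lit 76) (nat_lit 0) (XT.lf (nat_lit 0) (nat_lit 4640770184) (nat_lit 76) (nat_lit 14278834142) (nat_lit 76) (nat_lit 1427683759) (nat_lit 63) (nat_lit 4) (nat_lit 64) (nat_lit 5) (nat_lit 64) (nat_lit 4) (nat_lit 459) (nat_lit 391) (nat_lit 350)) (XT.lf (nat_lit 0) (nat_lit 5494009638) (nat_lit 152) (nat_lit 1684169152) (nat_lit 76) (nat_lit 13804914395) (nat_lit 62) (nat_lit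 5) (nat_lit 64) (nat_lit 5) (nat_lit 63) (nat_lit 4) (nat_lit 460) (nat_lit 391) (nat_lit 349)))) (XT.nd (nat_lit 156) (nat_lit 152) (nat_lit 0) (XT.nd (nat_lit 78) (nat_lit 76) (nat_lit 0) (XT.lf (nat_lit 0) (nat_lit 12852130293) (nat_lit 152) (nat_lit 8355550568) (nat_lit 0) (nat_lit 434922234) (nat_lit 61) (nat_lit 5) (nat_lit 63) (nat_lit 4) (nat_lit 61) (nat_lit 4) (nat_lit 461) (nat_lit 391) (nat_lit 348)) (XT.lf (nat_lit 0) (nat_lit 6680039416) (nat_lit 76) (nat_lit 14073105567) (nat_lit 76) (nat_lit 1573194966) (nat_lit 60) (nat_lit 4) (nat_lit 61) (nat_lit 5) (nat_lit 61) (nat_lit 4) (nat_lit 462) (nat_lit 391) (nat_lit 347))) (XT.nd (nat_lit 78) (nat_lit 76) (nat_lit 0) (XT.lf (nat_lit 0) (nat_lit 5880736572) (nat_lit 152) (nat_lit 523164950) (nat_lit 76) (nat_lit 16632275912) (nat_lit 59) (nat_lit 5) (nat_lit 61) (nat_lit 5) (nat_lit 60) (nat_lit 4) (nat_lit 463) (nat_lit 391) (nat_lit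 346)) (XT.lf (nat_lit 0) (nat_lit 13856383275) (nat_lit 152) (nat_lit 8108489032) (nat_lit 0) (nat_lit 1805251305) (nat_lit 58) (nat_lit 5) (nat_lit 60) (nat_lit 4) (nat_lit 58) (nat_lit 4) (nat_lit 464) (nat_lit 391) (nat_lit 345))))) (XT.nd (nat_lit 312) (nat_lit 380) (nat_lit 0) (XT.nd (nat_lit 156) (nat_lit 152) (nat_lit 0) (XT.nd (nat_lit 78) (nat_lit 76) (nat_lit 0) (XT.lf (nat_lit 0) (nat_lit 8148577575) (nat_lit 76) (nat_lit 14251450495) (nat_lit 76) (nat_lit 2132278941) (nat_lit 57) (nat_lit 4) (nat_lit 58) (nat_lit 5) (nat_lit 58) (nat_lit 4) (nat_lit 465) (nat_lit 391) (nat_lit 344)) (XT.lf (nat_lit 0) (nat_lit 5912680556) (nat_lit 152) (nat_lit 62976018) (nat_lit 76) (nat_lit 19348845589) (nat_lit 56) (nat_lit 5) (nat_lit 58) (nat_lit 5) (nat_lit 57) (nat_lit 4) (nat_lit 466) (nat_lit 391) (nat_lit 343))) (XT.nd (nat_lit 78) (nat_lit 76) (nat_lit 0) (XT.lf (nat_lit 0) (nat_lit 14538817114)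 (nat_lit 152) (nat_lit 8726953505) (nat_lit 0) (nat_lit 2876259906) (nat_lit 55) (nat_lit 5) (nat_lit 57) (nat_lit 4) (nat_lit 55) (nat_lit 4) (nat_lit 467) (nat_lit 391) (nat_lit 342)) (XT.lf (nat_lit 0) (nat_lit 8818902530) (nat_lit 76) (nat_lit 14945821850) (nat_lit 76) (nat_lit 3227288307) (nat_lit 54) (nat_lit 4) (nat_lit 55) (nat_lit 5) (nat_lit 55) (nat_lit 4) (nat_lit 468) (nat_lit 391) (nat_lit 341)))) (XT.nd (nat_lit 156) (nat_lit 228) (nat_lit 0) (XT.nd (nat_lit 78) (nat_lit 76) (nat_lit 0) (XT.lf (nat_lit 0) (nat_lit 5471278017) (nat_lit 152) (nat_lit 555724401) (nat_lit 76) (nat_lit 21849044020) (nat_lit 53) (nat_lit 5) (nat_lit 55) (nat_lit 5) (nat_lit 54) (nat_lit 4) (nat_lit 469) (nat_lit 391) (nat_lit 340)) (XT.lf (nat_lit 0) (nat_lit 14774552318) (nat_lit 152) (nat_lit 10498255319) (nat_lit 0) (nat_lit 3514917533) (nat_lit 52) (nat_lit 5) (nat_lit 54) (nat_lit 4) (nat_lit 52)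 (nat_lit 4) (nat_lit 470) (nat_lit 391) (nat_lit 339))) (XT.nd (nat_lit 78) (nat_lit 152) (nat_lit 0) (XT.lf (nat_lit 0) (nat_lit 8393311644) (nat_lit 76) (nat_lit 16324315735) (nat_lit 76) (nat_lit 5018629081) (nat_lit 51) (nat_lit 4) (nat_lit 52) (nat_lit 5) (nat_lit 52) (nat_lit 4) (nat_lit 471) (nat_lit 391) (nat_lit 338)) (XT.nd (nat_lit 78) (nat_lit 76) (nat_lit 0) (XT.lf (nat_lit 0) (nat_lit 4399999490) (nat_lit 152) (nat_lit 2329546621) (nat_lit 76) (nat_lit 23993413509) (nat_lit 50) (nat_lit 5) (nat_lit 52) (nat_lit 5) (nat_lit 51) (nat_lit 4) (nat_lit 472) (nat_lit 391) (nat_lit 337)) (XT.lf (nat_lit 0) (nat_lit 14397650541) (nat_lit 152) (nat_lit 13794618502) (nat_lit 0) (nat_lit 3548778179) (nat_lit 49) (nat_lit 5) (nat_lit 51) (nat_lit 4) (nat_lit 49) (nat_lit 4) (nat_lit 473) (nat_lit 391) (nat_lit 336))))))))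
noncomputable def xc148 : XT := (XT.nd (nat_lit 1248) (nat_lit 912) (nat_lit 0) (XT.nd (nat_lit 624) (nat_lit 608) (nat_lit 0) (XT.nd (nat_lit 312) (nat_lit 228) (nat_lit 0) (XT.nd (nat_lit 156) (nat_lit 152) (nat_lit 0) (XT.nd (nat_lit 78) (nat_lit 76) (nat_lit 0) (XT.lf (nat_lit 0) (nat_lit 6483382204) (nat_lit 76) (nat_lit 18601954555) (nat_lit 76) (nat_lit 7715195205) (nat_lit 48) (nat_lit 4) (nat_lit 49) (nat_lit 5) (nat_lit 49) (nat_lit 4) (nat_lit 474) (nat_lit 391) (nat_lit 335)) (XT.lf (nat_lit 0) (nat_lit 2493798351) (nat_lit 152) (nat_lit 5810555572) (nat_lit 76) (nat_lit 25597967280) (nat_lit 47) (nat_lit 5) (nat_lit 49) (nat_lit 5) (nat_lit 48) (nat_lit 4) (nat_lit 475) (nat_lit 391) (nat_lit 334))) (XT.nd (nat_lit 78) (nat_lit 76) (nat_lit 0) (XT.lf (nat_lit 0) (nat_lit 13189529343) (nat_lit 152) (nat_lit 19097474234) (nat_lit 0) (nat_lit 2754094288) (nat_lit 46) (nat_lit 5) (nat_lit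 48) (nat_lit 4) (nat_lit 46) (nat_lit 4) (nat_lit 476) (nat_lit 391) (nat_lit 333)) (XT.lf (nat_lit 0) (nat_lit 2583774606) (nat_lit 76) (nat_lit 22054369494) (nat_lit 76) (nat_lit 11587764721) (nat_lit 45) (nat_lit 4) (nat_lit 46) (nat_lit 5) (nat_lit 46) (nat_lit 4) (nat_lit 477) (nat_lit 391) (nat_lit 332)))) (XT.nd (nat_lit 156) (nat_lit 76) (nat_lit 0) (XT.nd (nat_lit 78) (nat_lit 152) (nat_lit 0) (XT.lf (nat_lit 0) (nat_lit 25897466219) (nat_lit 76) (nat_lit 11027741852) (nat_lit 76) (nat_lit 531451634) (nat_lit 45) (nat_lit 4) (nat_lit 46) (nat_lit 5) (nat_lit 46) (nat_lit 4) (nat_lit 478) (nat_lit 391) (nat_lit 331)) (XT.lf (nat_lit 0) (nat_lit 10864078781) (nat_lit 152) (nat_lit 27028487791) (nat_lit 0) (nat_lit 840686332) (nat_lit 43) (nat_lit 5) (nat_lit 45) (nat_lit 4) (nat_lit 43) (nat_lit 4) (nat_lit 479) (nat_lit 391) (nat_lit 330))) (XT.nd (nat_lit 78) (nat_lit 76) (nat_lit 0) (XT.lf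 (nat_lit 0) (nat_lit 23135796763) (nat_lit 152) (nat_lit 3834469174) (nat_lit 0) (nat_lit 13086760910) (nat_lit 43) (nat_lit 5) (nat_lit 45) (nat_lit 4) (nat_lit 43) (nat_lit 4) (nat_lit 480) (nat_lit 391) (nat_lit 329)) (XT.lf (nat_lit 0) (nat_lit 21088393509) (nat_lit 76) (nat_lit 15209116941) (nat_lit 76) (nat_lit 5135658798) (nat_lit 42) (nat_lit 4) (nat_lit 43) (nat_lit 5) (nat_lit 43) (nat_lit 4) (nat_lit 481) (nat_lit 391) (nat_lit 328))))) (XT.nd (nat_lit 312) (nat_lit 304) (nat_lit 0) (XT.nd (nat_lit 156) (nat_lit 152) (nat_lit 0) (XT.nd (nat_lit 78) (nat_lit 0) (nat_lit 0) (XT.lf (nat_lit 0) (nat_lit 4437741958) (nat_lit 76) (nat_lit 2652238248) (nat_lit 152) (nat_lit 35778363162) (nat_lit 40) (nat_lit 5) (nat_lit 41) (nat_lit 5) (nat_lit 42) (nat_lit 4) (nat_lit 482) (nat_lit 391) (nat_lit 327)) (XT.lf (nat_lit 0) (nat_lit 20216220311) (nat_lit 152) (nat_lit 13552548973) (nat_lit 0)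 (nat_lit 10579202023) (nat_lit 40) (nat_lit 5) (nat_lit 42) (nat_lit 4) (nat_lit 40) (nat_lit 4) (nat_lit 483) (nat_lit 391) (nat_lit 326))) (XT.nd (nat_lit 78) (nat_lit 76) (nat_lit 0) (XT.lf (nat_lit 0) (nat_lit 12835869656) (nat_lit 76) (nat_lit 21356569219) (nat_lit 76) (nat_lit 11699458653) (nat_lit 39) (nat_lit 4) (nat_lit 40) (nat_lit 5) (nat_lit 40) (nat_lit 4) (nat_lit 484) (nat_lit 391) (nat_lit 325)) (XT.lf (nat_lit 0) (nat_lit 1494194285) (nat_lit 152) (nat_lit 6613147783) (nat_lit 76) (nat_lit 39395466002) (nat_lit 38) (nat_lit 5) (nat_lit 40) (nat_lit 5) (nat_lit 39) (nat_lit 4) (nat_lit 485) (nat_lit 391) (nat_lit 324)))) (XT.nd (nat_lit 156) (nat_lit 152) (nat_lit 0) (XT.nd (nat_lit 78) (nat_lit 76) (nat_lit 0) (XT.lf (nat_lit 0) (nat_lit 15341600516) (nat_lit 152) (nat_lit 27714940021) (nat_lit 0) (nat_lit 6108771604) (nat_lit 37) (nat_lit 5) (nat_lit 39) (nat_lit 4) (nat_lit 37)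 (nat_lit 4) (nat_lit 486) (nat_lit 391) (nat_lit 323)) (XT.lf (nat_lit 0) (nat_lit 10751907) (nat_lit 76) (nat_lit 30069795030) (nat_lit 76) (nat_lit 20820436152) (nat_lit 36) (nat_lit 4) (nat_lit 37) (nat_lit 5) (nat_lit 37) (nat_lit 4) (nat_lit 487) (nat_lit 391) (nat_lit 322))) (XT.nd (nat_lit 78) (nat_lit 152) (nat_lit 0) (XT.lf (nat_lit 0) (nat_lit 29990310715) (nat_lit 76) (nat_lit 15988553774) (nat_lit 76) (nat_lit 6723452069) (nat_lit 36) (nat_lit 4) (nat_lit 37) (nat_lit 5) (nat_lit 37) (nat_lit 4) (nat_lit 488) (nat_lit 391) (nat_lit 321)) (XT.lf (nat_lit 0) (nat_lit 6877513129) (nat_lit 76) (nat_lit 1004246871) (nat_lit 152) (nat_lit 46702553666) (nat_lit 34) (nat_lit 5) (nat_lit 35) (nat_lit 5) (nat_lit 36) (nat_lit 4) (nat_lit 489) (nat_lit 391) (nat_lit 320)))))) (XT.nd (nat_lit 624) (nat_lit 456) (nat_lit 0) (XT.nd (nat_lit 312) (nat_lit 228) (nat_lit 0) (XT.nd (nat_lit 156) (nat_lit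 152) (nat_lit 0) (XT.nd (nat_lit 78) (nat_lit 76) (nat_lit 0) (XT.lf (nat_lit 0) (nat_lit 23566797250) (nat_lit 152) (nat_lit 18244314246) (nat_lit 0) (nat_lit 14715012413) (nat_lit 34) (nat_lit 5) (nat_lit 36) (nat_lit 4) (nat_lit 34) (nat_lit 4) (nat_lit 490) (nat_lit 391) (nat_lit 319)) (XT.lf (nat_lit 0) (nat_lit 13003737122) (nat_lit 76) (nat_lit 27208605677) (nat_lit 76) (nat_lit 18343869178) (nat_lit 33) (nat_lit 4) (nat_lit 34) (nat_lit 5) (nat_lit 34) (nat_lit 4) (nat_lit 491) (nat_lit 391) (nat_lit 318))) (XT.nd (nat_lit 78) (nat_lit 152) (nat_lit 0) (XT.lf (nat_lit 0) (nat_lit 46361703499) (nat_lit 76) (nat_lit 11594924681) (nat_lit 76) (nat_lit 2717853267) (nat_lit 33) (nat_lit 4) (nat_lit 34) (nat_lit 5) (nat_lit 34) (nat_lit 4) (nat_lit 492) (nat_lit 391) (nat_lit 317)) (XT.lf (nat_lit 0) (nat_lit 13586172350) (nat_lit 152) (nat_lit 44164432260) (nat_lit 0) (nat_lit 5120630490) (nat_lit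 31) (nat_lit 5) (nat_lit 33) (nat_lit 4) (nat_lit 31) (nat_lit 4) (nat_lit 493) (nat_lit 391) (nat_lit 316)))) (XT.nd (nat_lit 156) (nat_lit 152) (nat_lit 0) (XT.nd (nat_lit 78) (nat_lit 76) (nat_lit 0) (XT.lf (nat_lit 0) (nat_lit 31009393336) (nat_lit 152) (nat_lit 11613242759) (nat_lit 0) (nat_lit 22533196112) (nat_lit 31) (nat_lit 5) (nat_lit 33) (nat_lit 4) (nat_lit 31) (nat_lit 4) (nat_lit 494) (nat_lit 391) (nat_lit 315)) (XT.lf (nat_lit 0) (nat_lit 23229768999) (nat_lit 76) (nat_lit 26397529650) (nat_lit 76) (nat_lit 17911184460) (nat_lit 30) (nat_lit 4) (nat_lit 31) (nat_lit 5) (nat_lit 31) (nat_lit 4) (nat_lit 495) (nat_lit 391) (nat_lit 314))) (XT.nd (nat_lit 78) (nat_lit 152) (nat_lit 0) (XT.lf (nat_lit 0) (nat_lit 60140159997) (nat_lit 76) (nat_lit 9194104166) (nat_lit 76) (nat_lit 698094247) (nat_lit 30) (nat_lit 4) (nat_lit 31) (nat_lit 5) (nat_lit 31) (nat_lit 4) (nat_lit 496) (nat_lit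 391) (nat_lit 313)) (XT.lf (nat_lit 0) (nat_lit 17349134852) (nat_lit 152) (nat_lit 46012817259) (nat_lit 0) (nat_lit 9248930640) (nat_lit 28) (nat_lit 5) (nat_lit 30) (nat_lit 4) (nat_lit 28) (nat_lit 4) (nat_lit 497) (nat_lit 391) (nat_lit 312))))) (XT.nd (nat_lit 312) (nat_lit 228) (nat_lit 0) (XT.nd (nat_lit 156) (nat_lit 152) (nat_lit 0) (XT.nd (nat_lit 78) (nat_lit 76) (nat_lit 0) (XT.lf (nat_lit 0) (nat_lit 36559013736) (nat_lit 152) (nat_lit 10294099240) (nat_lit 0) (nat_lit 28450460767) (nat_lit 28) (nat_lit 5) (nat_lit 30) (nat_lit 4) (nat_lit 28) (nat_lit 4) (nat_lit 498) (nat_lit 391) (nat_lit 311)) (XT.lf (nat_lit 0) (nat_lit 28035970136) (nat_lit 76) (nat_lit 29095660594) (nat_lit 76) (nat_lit 20979156428) (nat_lit 27) (nat_lit 4) (nat_lit 28) (nat_lit 5) (nat_lit 28) (nat_lit 4) (nat_lit 499) (nat_lit 391) (nat_lit 310))) (XT.nd (nat_lit 78) (nat_lit 152) (nat_lit 0) (XT.lf (nat_lit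 0) (nat_lit 68569180036) (nat_lit 76) (nat_lit 10303142900) (nat_lit 76) (nat_lit 2179066166) (nat_lit 27) (nat_lit 4) (nat_lit 28) (nat_lit 5) (nat_lit 28) (nat_lit 4) (nat_lit 500) (nat_lit 391) (nat_lit 309)) (XT.lf (nat_lit 0) (nat_lit 17553199053) (nat_lit 152) (nat_lit 56735287094) (nat_lit 0) (nat_lit 9809114573) (nat_lit 25) (nat_lit 5) (nat_lit 27) (nat_lit 4) (nat_lit 25) (nat_lit 4) (nat_lit 501) (nat_lit 391) (nat_lit 308)))) (XT.nd (nat_lit 156) (nat_lit 152) (nat_lit 0) (XT.nd (nat_lit 78) (nat_lit 76) (nat_lit 0) (XT.lf (nat_lit 0) (nat_lit 38548856309) (nat_lit 152) (nat_lit 17929749712) (nat_lit 0) (nat_lit 30798230360) (nat_lit 25) (nat_lit 5) (nat_lit 27) (nat_lit 4) (nat_lit 25) (nat_lit 4) (nat_lit 502) (nat_lit 391) (nat_lit 307)) (XT.lf (nat_lit 0) (nat_lit 23503050703) (nat_lit 76) (nat_lit 37426049460) (nat_lit 76) (nat_lit 29669193541) (nat_lit 24) (nat_lit 4) (nat_lit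 25) (nat_lit 5) (nat_lit 25) (nat_lit 4) (nat_lit 503) (nat_lit 391) (nat_lit 306))) (XT.nd (nat_lit 78) (nat_lit 152) (nat_lit 0) (XT.lf (nat_lit 0) (nat_lit 67565765879) (nat_lit 76) (nat_lit 17134622837) (nat_lit 76) (nat_lit 9371833612) (nat_lit 24) (nat_lit 4) (nat_lit 25) (nat_lit 5) (nat_lit 25) (nat_lit 4) (nat_lit 504) (nat_lit 391) (nat_lit 305)) (XT.nd (nat_lit 78) (nat_lit 0) (nat_lit 0) (XT.lf (nat_lit 0) (nat_lit 11855365043) (nat_lit 152) (nat_lit 81383453583) (nat_lit 0) (nat_lit 4456850765) (nat_lit 22) (nat_lit 5) (nat_lit 24) (nat_lit 4) (nat_lit 22) (nat_lit 4) (nat_lit 505) (nat_lit 391) (nat_lit 304)) (XT.lf (nat_lit 0) (nat_lit 34535535743) (nat_lit 152) (nat_lit 39789846875) (nat_lit 0) (nat_lit 27131896053) (nat_lit 22) (nat_lit 5) (nat_lit 24) (nat_lit 4) (nat_lit 22) (nat_lit 4) (nat_lit 506) (nat_lit 391) (nat_lit 303))))))))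
noncomputable def xc149 : XT := (XT.nd (nat_lit 1248) (nat_lit 456) (nat_lit 0) (XT.nd (nat_lit 624) (nat_lit 380) (nat_lit 0) (XT.nd (nat_lit 312) (nat_lit 76) (nat_lit 0) (XT.nd (nat_lit 156) (nat_lit 152) (nat_lit 0) (XT.nd (nat_lit 78) (nat_lit 0) (nat_lit 0) (XT.lf (nat_lit 0) (nat_lit 3950669146) (nat_lit 76) (nat_lit 54431596413) (nat_lit 76) (nat_lit 47023075377) (nat_lit 21) (nat_lit 4) (nat_lit 22) (nat_lit 5) (nat_lit 22) (nat_lit 4) (nat_lit 507) (nat_lit 391) (nat_lit 302)) (XT.lf (nat_lit 0) (nat_lit 51201362614) (nat_lit 76) (nat_lit 32865176657) (nat_lit 76) (nat_lit 25452006721) (nat_lit 21) (nat_lit 4) (nat_lit 22) (nat_lit 5) (nat_lit 22) (nat_lit 4) (nat_lit 508) (nat_lit 391) (nat_lit 301))) (XT.nd (nat_lit 78) (nat_lit 152) (nat_lit 0) (XT.lf (nat_lit 0) (nat_lit 100759103145) (nat_lit 76) (nat_lit 10248635042) (nat_lit 76) (nat_lit 2831037583) (nat_lit 21) (nat_lit 4) (nat_lit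 22) (nat_lit 5) (nat_lit 22) (nat_lit 4) (nat_lit 509) (nat_lit 391) (nat_lit 300)) (XT.lf (nat_lit 0) (nat_lit 20998666617) (nat_lit 152) (nat_lit 83392382085) (nat_lit 0) (nat_lit 13930272189) (nat_lit 19) (nat_lit 5) (nat_lit 21) (nat_lit 4) (nat_lit 19) (nat_lit 4) (nat_lit 510) (nat_lit 391) (nat_lit 299)))) (XT.nd (nat_lit 156) (nat_lit 0) (nat_lit 0) (XT.nd (nat_lit 78) (nat_lit 76) (nat_lit 0) (XT.lf (nat_lit 0) (nat_lit 46291464970) (nat_lit 152) (nat_lit 37496624415) (nat_lit 0) (nat_lit 39219245881) (nat_lit 19) (nat_lit 5) (nat_lit 21) (nat_lit 4) (nat_lit 19) (nat_lit 4) (nat_lit 511) (nat_lit 391) (nat_lit 298)) (XT.lf (nat_lit 0) (nat_lit 10994645108) (nat_lit 76) (nat_lit 62000770644) (nat_lit 76) (nat_lit 54924909020) (nat_lit 18) (nat_lit 4) (nat_lit 19) (nat_lit 5) (nat_lit 19) (nat_lit 4) (nat_lit 512) (nat_lit 391) (nat_lit 297))) (XT.nd (nat_lit 78) (nat_lit 0) (nat_lit 0)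 (XT.lf (nat_lit 0) (nat_lit 63161928279) (nat_lit 76) (nat_lit 38482925855) (nat_lit 76) (nat_lit 31403595151) (nat_lit 18) (nat_lit 4) (nat_lit 19) (nat_lit 5) (nat_lit 19) (nat_lit 4) (nat_lit 513) (nat_lit 391) (nat_lit 296)) (XT.lf (nat_lit 0) (nat_lit 117889625172) (nat_lit 76) (nat_lit 13813583630) (nat_lit 76) (nat_lit 6730949039) (nat_lit 18) (nat_lit 4) (nat_lit 19) (nat_lit 5) (nat_lit 19) (nat_lit 4) (nat_lit 514) (nat_lit 391) (nat_lit 295))))) (XT.nd (nat_lit 312) (nat_lit 152) (nat_lit 0) (XT.nd (nat_lit 156) (nat_lit 76) (nat_lit 0) (XT.nd (nat_lit 78) (nat_lit 0) (nat_lit 0) (XT.lf (nat_lit 0) (nat_lit 19238947966) (nat_lit 152) (nat_lit 112310782446) (nat_lit 0) (nat_lit 12490584966) (nat_lit 16) (nat_lit 5) (nat_lit 18) (nat_lit 4) (nat_lit 16) (nat_lit 4) (nat_lit 515) (nat_lit 391) (nat_lit 294)) (XT.lf (nat_lit 0) (nat_lit 46838431479) (nat_lit 152) (nat_lit 62967752932) (nat_lit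 0) (nat_lit 40087214458) (nat_lit 16) (nat_lit 5) (nat_lit 18) (nat_lit 4) (nat_lit 16) (nat_lit 4) (nat_lit 516) (nat_lit 391) (nat_lit 293))) (XT.nd (nat_lit 78) (nat_lit 76) (nat_lit 0) (XT.lf (nat_lit 0) (nat_lit 75796182588) (nat_lit 152) (nat_lit 11201791849) (nat_lit 0) (nat_lit 69042247451) (nat_lit 16) (nat_lit 5) (nat_lit 18) (nat_lit 4) (nat_lit 16) (nat_lit 4) (nat_lit 517) (nat_lit 391) (nat_lit 292)) (XT.lf (nat_lit 0) (nat_lit 44535776055) (nat_lit 76) (nat_lit 62340700541) (nat_lit 76) (nat_lit 55584176723) (nat_lit 15) (nat_lit 4) (nat_lit 16) (nat_lit 5) (nat_lit 16) (nat_lit 4) (nat_lit 518) (nat_lit 391) (nat_lit 291)))) (XT.nd (nat_lit 156) (nat_lit 152) (nat_lit 0) (XT.nd (nat_lit 78) (nat_lit 0) (nat_lit 0) (XT.lf (nat_lit 0) (nat_lit 103407688338) (nat_lit 76) (nat_lit 36272469310) (nat_lit 76) (nat_lit 29513480081) (nat_lit 15) (nat_lit 4) (nat_lit 16) (nat_lit 5) (nat_lit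 16) (nat_lit 4) (nat_lit 519) (nat_lit 391) (nat_lit 290)) (XT.lf (nat_lit 0) (nat_lit 165183734390) (nat_lit 76) (nat_lit 8920921293) (nat_lit 76) (nat_lit 2159584054) (nat_lit 15) (nat_lit 4) (nat_lit 16) (nat_lit 5) (nat_lit 16) (nat_lit 4) (nat_lit 520) (nat_lit 391) (nat_lit 289))) (XT.nd (nat_lit 78) (nat_lit 0) (nat_lit 0) (XT.lf (nat_lit 0) (nat_lit 26761288333) (nat_lit 152) (nat_lit 136534086765) (nat_lit 0) (nat_lit 20319789819) (nat_lit 13) (nat_lit 5) (nat_lit 15) (nat_lit 4) (nat_lit 13) (nat_lit 4) (nat_lit 521) (nat_lit 391) (nat_lit 288)) (XT.lf (nat_lit 0) (nat_lit 57373862540) (nat_lit 152) (nat_lit 83011756240) (nat_lit 0) (nat_lit 50930335726) (nat_lit 13) (nat_lit 5) (nat_lit 15) (nat_lit 4) (nat_lit 13) (nat_lit 4) (nat_lit 522) (nat_lit 391) (nat_lit 287)))))) (XT.nd (nat_lit 624) (nat_lit 228) (nat_lit 0) (XT.nd (nat_lit 312) (nat_lit 152) (nat_lit 0) (XT.nd (nat_lit 156)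 (nat_lit 0) (nat_lit 0) (XT.nd (nat_lit 78) (nat_lit 76) (nat_lit 0) (XT.lf (nat_lit 0) (nat_lit 89499217612) (nat_lit 152) (nat_lit 26849699291) (nat_lit 0) (nat_lit 83053759084) (nat_lit 13) (nat_lit 5) (nat_lit 15) (nat_lit 4) (nat_lit 13) (nat_lit 4) (nat_lit 523) (nat_lit 391) (nat_lit 286)) (XT.lf (nat_lit 0) (nat_lit 33146704826) (nat_lit 76) (nat_lit 90584650620) (nat_lit 76) (nat_lit 84137352365) (nat_lit 12) (nat_lit 4) (nat_lit 13) (nat_lit 5) (nat_lit 13) (nat_lit 4) (nat_lit 524) (nat_lit 391) (nat_lit 285))) (XT.nd (nat_lit 78) (nat_lit 0) (nat_lit 0) (XT.lf (nat_lit 0) (nat_lit 97040991829) (nat_lit 76) (nat_lit 63072100102) (nat_lit 76) (nat_lit 56623049725) (nat_lit 12) (nat_lit 4) (nat_lit 13) (nat_lit 5) (nat_lit 13) (nat_lit 4) (nat_lit 525) (nat_lit 391) (nat_lit 284)) (XT.lf (nat_lit 0) (nat_lit 164097518657) (nat_lit 76) (nat_lit 34200471925) (nat_lit 76) (nat_lit 27749752861)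 (nat_lit 12) (nat_lit 4) (nat_lit 13) (nat_lit 5) (nat_lit 13) (nat_lit 4) (nat_lit 526) (nat_lit 391) (nat_lit 283)))) (XT.nd (nat_lit 156) (nat_lit 0) (nat_lit 0) (XT.nd (nat_lit 78) (nat_lit 76) (nat_lit 0) (XT.lf (nat_lit 0) (nat_lit 2469627145) (nat_lit 152) (nat_lit 1389572641) (nat_lit 76) (nat_lit 231964492232) (nat_lit 11) (nat_lit 5) (nat_lit 13) (nat_lit 5) (nat_lit 12) (nat_lit 4) (nat_lit 527) (nat_lit 391) (nat_lit 282)) (XT.lf (nat_lit 0) (nat_lit 34708795026) (nat_lit 152) (nat_lit 182722529646) (nat_lit 0) (nat_lit 28562298037) (nat_lit 10) (nat_lit 5) (nat_lit 12) (nat_lit 4) (nat_lit 10) (nat_lit 4) (nat_lit 528) (nat_lit 391) (nat_lit 281))) (XT.nd (nat_lit 78) (nat_lit 0) (nat_lit 0) (XT.lf (nat_lit 0) (nat_lit 68632429536) (nat_lit 152) (nat_lit 125551435289) (nat_lit 0) (nat_lit 62484559714) (nat_lit 10) (nat_lit 5) (nat_lit 12) (nat_lit 4) (nat_lit 10) (nat_lit 4) (nat_lit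 529) (nat_lit 391) (nat_lit 280)) (XT.lf (nat_lit 0) (nat_lit 104238268429) (nat_lit 152) (nat_lit 65550305765) (nat_lit 0) (nat_lit 98089091147) (nat_lit 10) (nat_lit 5) (nat_lit 12) (nat_lit 4) (nat_lit 10) (nat_lit 4) (nat_lit 530) (nat_lit 391) (nat_lit 279))))) (XT.nd (nat_lit 312) (nat_lit 152) (nat_lit 0) (XT.nd (nat_lit 156) (nat_lit 0) (nat_lit 0) (XT.nd (nat_lit 78) (nat_lit 76) (nat_lit 0) (XT.lf (nat_lit 0) (nat_lit 141611087513) (nat_lit 152) (nat_lit 2576281240) (nat_lit 0) (nat_lit 135460665031) (nat_lit 10) (nat_lit 5) (nat_lit 12) (nat_lit 4) (nat_lit 10) (nat_lit 4) (nat_lit 531) (nat_lit 391) (nat_lit 278)) (XT.lf (nat_lit 0) (nat_lit 65620853561) (nat_lit 76) (nat_lit 116243541554) (nat_lit 76) (nat_lit 110091933167) (nat_lit 9) (nat_lit 4) (nat_lit 10) (nat_lit 5) (nat_lit 10) (nat_lit 4) (nat_lit 532) (nat_lit 391) (nat_lit 277))) (XT.nd (nat_lit 78) (nat_lit 0) (nat_lit 0)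 (XT.lf (nat_lit 0) (nat_lit 137291836926) (nat_lit 76) (nat_lit 86869690229) (nat_lit 76) (nat_lit 80716952409) (nat_lit 9) (nat_lit 4) (nat_lit 10) (nat_lit 5) (nat_lit 10) (nat_lit 4) (nat_lit 533) (nat_lit 391) (nat_lit 276)) (XT.lf (nat_lit 0) (nat_lit 212522130558) (nat_lit 76) (nat_lit 56039507608) (nat_lit 76) (nat_lit 49885694137) (nat_lit 9) (nat_lit 4) (nat_lit 10) (nat_lit 5) (nat_lit 10) (nat_lit 4) (nat_lit 534) (nat_lit 391) (nat_lit 275)))) (XT.nd (nat_lit 156) (nat_lit 0) (nat_lit 0) (XT.nd (nat_lit 78) (nat_lit 152) (nat_lit 0) (XT.lf (nat_lit 0) (nat_lit 291490854204) (nat_lit 76) (nat_lit 23679588493) (nat_lit 76) (nat_lit 17524750593) (nat_lit 9) (nat_lit 4) (nat_lit 10) (nat_lit 5) (nat_lit 10) (nat_lit 4) (nat_lit 535) (nat_lit 391) (nat_lit 274)) (XT.lf (nat_lit 0) (nat_lit 16515459808) (nat_lit 152) (nat_lit 320444969543) (nat_lit 0) (nat_lit 10652780240) (nat_lit 7) (nat_lit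 5) (nat_lit 9) (nat_lit 4) (nat_lit 7) (nat_lit 4) (nat_lit 536) (nat_lit 391) (nat_lit 273))) (XT.nd (nat_lit 78) (nat_lit 0) (nat_lit 0) (XT.lf (nat_lit 0) (nat_lit 52755232251) (nat_lit 152) (nat_lit 263561537269) (nat_lit 0) (nat_lit 46891667742) (nat_lit 7) (nat_lit 5) (nat_lit 9) (nat_lit 4) (nat_lit 7) (nat_lit 4) (nat_lit 537) (nat_lit 391) (nat_lit 272)) (XT.nd (nat_lit 78) (nat_lit 0) (nat_lit 0) (XT.lf (nat_lit 0) (nat_lit 90796567664) (nat_lit 152) (nat_lit 203855219591) (nat_lit 0) (nat_lit 84932160355) (nat_lit 7) (nat_lit 5) (nat_lit 9) (nat_lit 4) (nat_lit 7) (nat_lit 4) (nat_lit 538) (nat_lit 391) (nat_lit 271)) (XT.lf (nat_lit 0) (nat_lit 130730040654) (nat_lit 152) (nat_lit 141183858610) (nat_lit 0) (nat_lit 124864830678) (nat_lit 7) (nat_lit 5) (nat_lit 9) (nat_lit 4) (nat_lit 7) (nat_lit 4) (nat_lit 539) (nat_lit 391) (nat_lit 270))))))))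
noncomputable def xc150 : XT := (XT.nd (nat_lit 1248) (nat_lit 0) (nat_lit 0) (XT.nd (nat_lit 624) (nat_lit 152) (nat_lit 0) (XT.nd (nat_lit 312) (nat_lit 0) (nat_lit 0) (XT.nd (nat_lit 156) (nat_lit 76) (nat_lit 0) (XT.nd (nat_lit 78) (nat_lit 0) (nat_lit 0) (XT.lf (nat_lit 0) (nat_lit 172650730919) (nat_lit 152) (nat_lit 75398236800) (nat_lit 0) (nat_lit 166784756498) (nat_lit 7) (nat_lit 5) (nat_lit 9) (nat_lit 4) (nat_lit 7) (nat_lit 4) (nat_lit 540) (nat_lit 391) (nat_lit 269)) (XT.lf (nat_lit 0) (nat_lit 216658449627) (nat_lit 152) (nat_lit 6341721727) (nat_lit 0) (nat_lit 210791747163) (nat_lit 7) (nat_lit 5) (nat_lit 9) (nat_lit 4) (nat_lit 7) (nat_lit 4) (nat_lit 541) (nat_lit 391) (nat_lit 268))) (XT.nd (nat_lit 78) (nat_lit 0) (nat_lit 0) (XT.lf (nat_lit 0) (nat_lit 68337328156) (nat_lit 76) (nat_lit 195587586110) (nat_lit 76) (nat_lit 189720190273) (nat_lit 6) (nat_lit 4) (nat_lit 7)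 (nat_lit 5) (nat_lit 7) (nat_lit 4) (nat_lit 542) (nat_lit 391) (nat_lit 267)) (XT.lf (nat_lit 0) (nat_lit 146953271031) (nat_lit 76) (nat_lit 166700393457) (nat_lit 76) (nat_lit 160832337263) (nat_lit 6) (nat_lit 4) (nat_lit 7) (nat_lit 5) (nat_lit 7) (nat_lit 4) (nat_lit 543) (nat_lit 391) (nat_lit 266)))) (XT.nd (nat_lit 156) (nat_lit 0) (nat_lit 0) (XT.nd (nat_lit 78) (nat_lit 0) (nat_lit 0) (XT.lf (nat_lit 0) (nat_lit 229483601752) (nat_lit 76) (nat_lit 136377214491) (nat_lit 76) (nat_lit 130508529387) (nat_lit 6) (nat_lit 4) (nat_lit 7) (nat_lit 5) (nat_lit 7) (nat_lit 4) (nat_lit 544) (nat_lit 391) (nat_lit 265)) (XT.lf (nat_lit 0) (nat_lit 316124821107) (nat_lit 76) (nat_lit 104545851167) (nat_lit 76) (nat_lit 98676567100) (nat_lit 6) (nat_lit 4) (nat_lit 7) (nat_lit 5) (nat_lit 7) (nat_lit 4) (nat_lit 545) (nat_lit 391) (nat_lit 264))) (XT.nd (nat_lit 78) (nat_lit 0) (nat_lit 0) (XT.lf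 (nat_lit 0) (nat_lit 407083217713) (nat_lit 76) (nat_lit 71130514525) (nat_lit 76) (nat_lit 65260660017) (nat_lit 6) (nat_lit 4) (nat_lit 7) (nat_lit 5) (nat_lit 7) (nat_lit 4) (nat_lit 546) (nat_lit 391) (nat_lit 263)) (XT.lf (nat_lit 0) (nat_lit 502575359182) (nat_lit 76) (nat_lit 36051644239) (nat_lit 76) (nat_lit 30181246455) (nat_lit 6) (nat_lit 4) (nat_lit 7) (nat_lit 5) (nat_lit 7) (nat_lit 4) (nat_lit 547) (nat_lit 391) (nat_lit 262))))) (XT.nd (nat_lit 312) (nat_lit 0) (nat_lit 0) (XT.nd (nat_lit 156) (nat_lit 0) (nat_lit 0) (XT.nd (nat_lit 78) (nat_lit 0) (nat_lit 0) (XT.lf (nat_lit 0) (nat_lit 6566227689) (nat_lit 152) (nat_lit 587856149886) (nat_lit 0) (nat_lit 974879888) (nat_lit 4) (nat_lit 5) (nat_lit 6) (nat_lit 4) (nat_lit 4) (nat_lit 4) (nat_lit 548) (nat_lit 391) (nat_lit 261)) (XT.lf (nat_lit 0) (nat_lit 45861154671) (nat_lit 152) (nat_lit 537074266122) (nat_lit 0) (nat_lit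 40269337568) (nat_lit 4) (nat_lit 5) (nat_lit 6) (nat_lit 4) (nat_lit 4) (nat_lit 4) (nat_lit 549) (nat_lit 391) (nat_lit 260))) (XT.nd (nat_lit 78) (nat_lit 0) (nat_lit 0) (XT.lf (nat_lit 0) (nat_lit 87114429919) (nat_lit 152) (nat_lit 483766358434) (nat_lit 0) (nat_lit 81522165861) (nat_lit 4) (nat_lit 5) (nat_lit 6) (nat_lit 4) (nat_lit 4) (nat_lit 4) (nat_lit 550) (nat_lit 391) (nat_lit 259)) (XT.lf (nat_lit 0) (nat_lit 130424275516) (nat_lit 152) (nat_lit 427805503231) (nat_lit 0) (nat_lit 124831585786) (nat_lit 4) (nat_lit 5) (nat_lit 6) (nat_lit 4) (nat_lit 4) (nat_lit 4) (nat_lit 551) (nat_lit 391) (nat_lit 258)))) (XT.nd (nat_lit 156) (nat_lit 0) (nat_lit 0) (XT.nd (nat_lit 78) (nat_lit 0) (nat_lit 0) (XT.lf (nat_lit 0) (nat_lit 175893810143) (nat_lit 152) (nat_lit 369058460382) (nat_lit 0) (nat_lit 170300715011) (nat_lit 4) (nat_lit 5) (nat_lit 6) (nat_lit 4) (nat_lit 4) (nat_lit 4) (nat_lit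 552) (nat_lit 391) (nat_lit 257)) (XT.lf (nat_lit 0) (nat_lit 223631294595) (nat_lit 152) (nat_lit 307385355976) (nat_lit 0) (nat_lit 218037813367) (nat_lit 4) (nat_lit 5) (nat_lit 6) (nat_lit 4) (nat_lit 4) (nat_lit 4) (nat_lit 553) (nat_lit 391) (nat_lit 256))) (XT.nd (nat_lit 78) (nat_lit 0) (nat_lit 0) (XT.lf (nat_lit 0) (nat_lit 273750389551) (nat_lit 152) (nat_lit 242639349288) (nat_lit 0) (nat_lit 268156540612) (nat_lit 4) (nat_lit 5) (nat_lit 6) (nat_lit 4) (nat_lit 4) (nat_lit 4) (nat_lit 554) (nat_lit 391) (nat_lit 255)) (XT.lf (nat_lit 0) (nat_lit 326370426188) (nat_lit 152) (nat_lit 174666283158) (nat_lit 0) (nat_lit 320776227048) (nat_lit 4) (nat_lit 5) (nat_lit 6) (nat_lit 4) (nat_lit 4) (nat_lit 4) (nat_lit 555) (nat_lit 391) (nat_lit 254)))))) (XT.nd (nat_lit 52104) (nat_lit 0) (nat_lit 8132) (XT.nd (nat_lit 51792) (nat_lit 0) (nat_lit 10336) (XT.nd (nat_lit 51636) (nat_lit 0) (nat_lit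 11476) (XT.nd (nat_lit 51558) (nat_lit 0) (nat_lit 12008) (XT.lf (nat_lit 0) (nat_lit 381616690309) (nat_lit 152) (nat_lit 103304316954) (nat_lit 0) (nat_lit 376022157644) (nat_lit 4) (nat_lit 5) (nat_lit 6) (nat_lit 4) (nat_lit 4) (nat_lit 4) (nat_lit 556) (nat_lit 391) (nat_lit 253)) (XT.lf (nat_lit 0) (nat_lit 327963660) (nat_lit 836) (nat_lit 2934610618) (nat_lit 0) (nat_lit 327963660) (nat_lit 162) (nat_lit 5) (nat_lit 173) (nat_lit 4) (nat_lit 162) (nat_lit 4) (nat_lit 416) (nat_lit 392) (nat_lit 392))) (XT.nd (nat_lit 78) (nat_lit 532) (nat_lit 0) (XT.lf (nat_lit 0) (nat_lit 4236750510) (nat_lit 836) (nat_lit 425621913) (nat_lit 0) (nat_lit 2614693568) (nat_lit 162) (nat_lit 5) (nat_lit 173) (nat_lit 4) (nat_lit 162) (nat_lit 4) (nat_lit 417) (nat_lit 392) (nat_lit 391)) (XT.lf (nat_lit 0) (nat_lit 514631199) (nat_lit 532) (nat_lit 2111879117) (nat_lit 76) (nat_lit 4755093584) (nat_lit 155)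 (nat_lit 5) (nat_lit 162) (nat_lit 5) (nat_lit 156) (nat_lit 4) (nat_lit 418) (nat_lit 392) (nat_lit 390)))) (XT.nd (nat_lit 156) (nat_lit 304) (nat_lit 0) (XT.nd (nat_lit 78) (nat_lit 456) (nat_lit 0) (XT.lf (nat_lit 0) (nat_lit 3657565739) (nat_lit 380) (nat_lit 389113421) (nat_lit 456) (nat_lit 3447135466) (nat_lit 150) (nat_lit 5) (nat_lit 155) (nat_lit 5) (nat_lit 156) (nat_lit 4) (nat_lit 419) (nat_lit 392) (nat_lit 389)) (XT.lf (nat_lit 0) (nat_lit 78364650) (nat_lit 456) (nat_lit 5591086096) (nat_lit 76) (nat_lit 1945122528) (nat_lit 144) (nat_lit 5) (nat_lit 150) (nat_lit 5) (nat_lit 145) (nat_lit 4) (nat_lit 420) (nat_lit 392) (nat_lit 388))) (XT.nd (nat_lit 78) (nat_lit 0) (nat_lit 0) (XT.lf (nat_lit 0) (nat_lit 327909596) (nat_lit 304) (nat_lit 3257732981) (nat_lit 380) (nat_lit 4156846744) (nat_lit 140) (nat_lit 5) (nat_lit 144) (nat_lit 5) (nat_lit 145) (nat_lit 4) (nat_lit 421) (nat_lit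 392) (nat_lit 387)) (XT.lf (nat_lit 0) (nat_lit 6550122254) (nat_lit 304) (nat_lit 661186919) (nat_lit 380) (nat_lit 668352608) (nat_lit 140) (nat_lit 5) (nat_lit 144) (nat_lit 5) (nat_lit 145) (nat_lit 4) (nat_lit 422) (nat_lit 392) (nat_lit 386))))) (XT.nd (nat_lit 312) (nat_lit 1140) (nat_lit 0) (XT.nd (nat_lit 156) (nat_lit 380) (nat_lit 0) (XT.nd (nat_lit 78) (nat_lit 304) (nat_lit 0) (XT.lf (nat_lit 0) (nat_lit 2863532969) (nat_lit 380) (nat_lit 3068640400) (nat_lit 76) (nat_lit 2090951990) (nat_lit 135) (nat_lit 5) (nat_lit 140) (nat_lit 5) (nat_lit 136) (nat_lit 4) (nat_lit 423) (nat_lit 392) (nat_lit 385)) (XT.lf (nat_lit 0) (nat_lit 3324035004) (nat_lit 304) (nat_lit 3167921268) (nat_lit 380) (nat_lit 1684148027) (nat_lit 131) (nat_lit 5) (nat_lit 135) (nat_lit 5) (nat_lit 136) (nat_lit 4) (nat_lit 424) (nat_lit 392) (nat_lit 384))) (XT.nd (nat_lit 78) (nat_lit 0) (nat_lit 0) (XT.lf (nat_lit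 0) (nat_lit 1641651752) (nat_lit 304) (nat_lit 197420143) (nat_lit 380) (nat_lit 6499290677) (nat_lit 126) (nat_lit 5) (nat_lit 130) (nat_lit 5) (nat_lit 131) (nat_lit 5) (nat_lit 425) (nat_lit 392) (nat_lit 383)) (XT.lf (nat_lit 0) (nat_lit 5472545847) (nat_lit 380) (nat_lit 141910260) (nat_lit 76) (nat_lit 2893371472) (nat_lit 126) (nat_lit 5) (nat_lit 131) (nat_lit 5) (nat_lit 127) (nat_lit 4) (nat_lit 426) (nat_lit 392) (nat_lit 382)))) (XT.nd (nat_lit 156) (nat_lit 532) (nat_lit 0) (XT.nd (nat_lit 78) (nat_lit 304) (nat_lit 0) (XT.lf (nat_lit 0) (nat_lit 559395796) (nat_lit 304) (nat_lit 1923920357) (nat_lit 76) (nat_lit 6203151137) (nat_lit 122) (nat_lit 5) (nat_lit 126) (nat_lit 5) (nat_lit 123) (nat_lit 5) (nat_lit 427) (nat_lit 392) (nat_lit 381)) (XT.lf (nat_lit 0) (nat_lit 4196840882) (nat_lit 380) (nat_lit 3815609196) (nat_lit 76) (nat_lit 860856660) (nat_lit 118) (nat_lit 5) (nat_lit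 123) (nat_lit 5) (nat_lit 119) (nat_lit 4) (nat_lit 428) (nat_lit 392) (nat_lit 380))) (XT.nd (nat_lit 78) (nat_lit 304) (nat_lit 0) (XT.lf (nat_lit 0) (nat_lit 3264499596) (nat_lit 228) (nat_lit 4748532392) (nat_lit 304) (nat_lit 1056619758) (nat_lit 115) (nat_lit 5) (nat_lit 118) (nat_lit 5) (nat_lit 119) (nat_lit 4) (nat_lit 429) (nat_lit 392) (nat_lit 379)) (XT.nd (nat_lit 78) (nat_lit 0) (nat_lit 0) (XT.lf (nat_lit 0) (nat_lit 1371215300) (nat_lit 228) (nat_lit 1245519716) (nat_lit 304) (nat_lit 6658925914) (nat_lit 111) (nat_lit 5) (nat_lit 114) (nat_lit 5) (nat_lit 115) (nat_lit 5) (nat_lit 430) (nat_lit 392) (nat_lit 378)) (XT.lf (nat_lit 0) (nat_lit 6451626143) (nat_lit 304) (nat_lit 625511372) (nat_lit 76) (nat_lit 2413304365) (nat_lit 111) (nat_lit 5) (nat_lit 115) (nat_lit 5) (nat_lit 112) (nat_lit 4) (nat_lit 431) (nat_lit 392) (nat_lit 377))))))))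
noncomputable def xc151 : XT := (XT.nd (nat_lit 1248) (nat_lit 1596) (nat_lit 0) (XT.nd (nat_lit 624) (nat_lit 988) (nat_lit 0) (XT.nd (nat_lit 312) (nat_lit 532) (nat_lit 0) (XT.nd (nat_lit 156) (nat_lit 456) (nat_lit 0) (XT.nd (nat_lit 78) (nat_lit 228) (nat_lit 0) (XT.lf (nat_lit 0) (nat_lit 749853072) (nat_lit 228) (nat_lit 2685601414) (nat_lit 76) (nat_lit 6279320434) (nat_lit 108) (nat_lit 5) (nat_lit 111) (nat_lit 5) (nat_lit 109) (nat_lit 5) (nat_lit 432) (nat_lit 392) (nat_lit 376)) (XT.lf (nat_lit 0) (nat_lit 4605476966) (nat_lit 304) (nat_lit 4887254239) (nat_lit 76) (nat_lit 456125716) (nat_lit 105) (nat_lit 5) (nat_lit 109) (nat_lit 5) (nat_lit 106) (nat_lit 4) (nat_lit 433) (nat_lit 392) (nat_lit 375))) (XT.nd (nat_lit 78) (nat_lit 304) (nat_lit 0) (XT.lf (nat_lit 0) (nat_lit 2951156056) (nat_lit 152) (nat_lit 5735543101) (nat_lit 228) (nat_lit 1506308181) (nat_lit 103) (nat_lit 5)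 (nat_lit 105) (nat_lit 5) (nat_lit 106) (nat_lit 4) (nat_lit 434) (nat_lit 392) (nat_lit 374)) (XT.lf (nat_lit 0) (nat_lit 703590869) (nat_lit 228) (nat_lit 1718431847) (nat_lit 304) (nat_lit 8026370742) (nat_lit 99) (nat_lit 5) (nat_lit 102) (nat_lit 5) (nat_lit 103) (nat_lit 5) (nat_lit 435) (nat_lit 392) (nat_lit 373)))) (XT.nd (nat_lit 156) (nat_lit 380) (nat_lit 0) (XT.nd (nat_lit 78) (nat_lit 152) (nat_lit 0) (XT.lf (nat_lit 0) (nat_lit 6546434604) (nat_lit 304) (nat_lit 1664116616) (nat_lit 76) (nat_lit 2502253136) (nat_lit 99) (nat_lit 5) (nat_lit 103) (nat_lit 5) (nat_lit 100) (nat_lit 4) (nat_lit 436) (nat_lit 392) (nat_lit 372)) (XT.lf (nat_lit 0) (nat_lit 6834319336) (nat_lit 152) (nat_lit 4069628038) (nat_lit 228) (nat_lit 85148667) (nat_lit 97) (nat_lit 5) (nat_lit 99) (nat_lit 5) (nat_lit 100) (nat_lit 4) (nat_lit 437) (nat_lit 392) (nat_lit 371))) (XT.nd (nat_lit 78) (nat_lit 152)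 (nat_lit 0) (XT.lf (nat_lit 0) (nat_lit 4062233362) (nat_lit 228) (nat_lit 6846277975) (nat_lit 76) (nat_lit 367589518) (nat_lit 94) (nat_lit 5) (nat_lit 97) (nat_lit 5) (nat_lit 95) (nat_lit 4) (nat_lit 438) (nat_lit 392) (nat_lit 370)) (XT.lf (nat_lit 0) (nat_lit 1824231283) (nat_lit 152) (nat_lit 6650595569) (nat_lit 228) (nat_lit 3099527743) (nat_lit 92) (nat_lit 5) (nat_lit 94) (nat_lit 5) (nat_lit 95) (nat_lit 4) (nat_lit 439) (nat_lit 392) (nat_lit 369))))) (XT.nd (nat_lit 312) (nat_lit 380) (nat_lit 0) (XT.nd (nat_lit 156) (nat_lit 380) (nat_lit 0) (XT.nd (nat_lit 78) (nat_lit 152) (nat_lit 0) (XT.lf (nat_lit 0) (nat_lit 1193898122) (nat_lit 228) (nat_lit 916181206) (nat_lit 76) (nat_lit 9775870549) (nat_lit 91) (nat_lit 5) (nat_lit 94) (nat_lit 5) (nat_lit 92) (nat_lit 5) (nat_lit 440) (nat_lit 392) (nat_lit 368)) (XT.lf (nat_lit 0) (nat_lit 5672066354) (nat_lit 228) (nat_lit 3845610882)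 (nat_lit 76) (nat_lit 2689198490) (nat_lit 89) (nat_lit 5) (nat_lit 92) (nat_lit 5) (nat_lit 90) (nat_lit 4) (nat_lit 441) (nat_lit 392) (nat_lit 367))) (XT.nd (nat_lit 78) (nat_lit 228) (nat_lit 0) (XT.lf (nat_lit 0) (nat_lit 5562533431) (nat_lit 152) (nat_lit 4849489331) (nat_lit 228) (nat_lit 2129934138) (nat_lit 87) (nat_lit 5) (nat_lit 89) (nat_lit 5) (nat_lit 90) (nat_lit 4) (nat_lit 442) (nat_lit 392) (nat_lit 366)) (XT.lf (nat_lit 0) (nat_lit 2424586001) (nat_lit 228) (nat_lit 10340242885) (nat_lit 76) (nat_lit 126555017) (nat_lit 84) (nat_lit 5) (nat_lit 87) (nat_lit 5) (nat_lit 85) (nat_lit 4) (nat_lit 443) (nat_lit 392) (nat_lit 365)))) (XT.nd (nat_lit 156) (nat_lit 304) (nat_lit 0) (XT.nd (nat_lit 78) (nat_lit 76) (nat_lit 0) (XT.lf (nat_lit 0) (nat_lit 7236971269) (nat_lit 228) (nat_lit 741577045) (nat_lit 76) (nat_lit 5272904761) (nat_lit 84) (nat_lit 5) (nat_lit 87) (nat_lit 5) (nat_lit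 85) (nat_lit 4) (nat_lit 444) (nat_lit 392) (nat_lit 364)) (XT.lf (nat_lit 0) (nat_lit 9475149021) (nat_lit 76) (nat_lit 2869504631) (nat_lit 152) (nat_lit 1282140649) (nat_lit 83) (nat_lit 5) (nat_lit 84) (nat_lit 5) (nat_lit 85) (nat_lit 4) (nat_lit 445) (nat_lit 392) (nat_lit 363))) (XT.nd (nat_lit 78) (nat_lit 76) (nat_lit 0) (XT.lf (nat_lit 0) (nat_lit 3625814021) (nat_lit 228) (nat_lit 7875002648) (nat_lit 76) (nat_lit 2514360217) (nat_lit 80) (nat_lit 5) (nat_lit 83) (nat_lit 5) (nat_lit 81) (nat_lit 4) (nat_lit 446) (nat_lit 392) (nat_lit 362)) (XT.lf (nat_lit 0) (nat_lit 2516277651) (nat_lit 76) (nat_lit 6285494790) (nat_lit 152) (nat_lit 5616872653) (nat_lit 79) (nat_lit 5) (nat_lit 80) (nat_lit 5) (nat_lit 81) (nat_lit 4) (nat_lit 447) (nat_lit 392) (nat_lit 361)))))) (XT.nd (nat_lit 624) (nat_lit 760) (nat_lit 0) (XT.nd (nat_lit 312) (nat_lit 304) (nat_lit 0) (XT.nd (nat_lit 156) (nat_lit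 304) (nat_lit 0) (XT.nd (nat_lit 78) (nat_lit 228) (nat_lit 0) (XT.lf (nat_lit 0) (nat_lit 13536902643) (nat_lit 76) (nat_lit 742728429) (nat_lit 152) (nat_lit 560502573) (nat_lit 79) (nat_lit 5) (nat_lit 80) (nat_lit 5) (nat_lit 81) (nat_lit 4) (nat_lit 448) (nat_lit 392) (nat_lit 360)) (XT.lf (nat_lit 0) (nat_lit 4745953660) (nat_lit 228) (nat_lit 5447342217) (nat_lit 76) (nat_lit 5078232825) (nat_lit 76) (nat_lit 5) (nat_lit 79) (nat_lit 5) (nat_lit 77) (nat_lit 4) (nat_lit 449) (nat_lit 392) (nat_lit 359))) (XT.nd (nat_lit 78) (nat_lit 228) (nat_lit 0) (XT.lf (nat_lit 0) (nat_lit 5835532572) (nat_lit 76) (nat_lit 4502325509) (nat_lit 152) (nat_lit 5384229673) (nat_lit 75) (nat_lit 5) (nat_lit 76) (nat_lit 5) (nat_lit 77) (nat_lit 4) (nat_lit 450) (nat_lit 392) (nat_lit 358)) (XT.lf (nat_lit 0) (nat_lit 69339269) (nat_lit 228) (nat_lit 14647387009) (nat_lit 76) (nat_lit 1475658499) (nat_lit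 72) (nat_lit 5) (nat_lit 75) (nat_lit 5) (nat_lit 73) (nat_lit 4) (nat_lit 451) (nat_lit 392) (nat_lit 357)))) (XT.nd (nat_lit 156) (nat_lit 228) (nat_lit 0) (XT.nd (nat_lit 78) (nat_lit 76) (nat_lit 0) (XT.lf (nat_lit 0) (nat_lit 5772697155) (nat_lit 228) (nat_lit 3111451319) (nat_lit 76) (nat_lit 7789733606) (nat_lit 72) (nat_lit 5) (nat_lit 75) (nat_lit 5) (nat_lit 73) (nat_lit 4) (nat_lit 452) (nat_lit 392) (nat_lit 356)) (XT.lf (nat_lit 0) (nat_lit 9141313515) (nat_lit 76) (nat_lit 2680791794) (nat_lit 152) (nat_lit 5354306275) (nat_lit 71) (nat_lit 5) (nat_lit 72) (nat_lit 5) (nat_lit 73) (nat_lit 4) (nat_lit 453) (nat_lit 392) (nat_lit 355))) (XT.nd (nat_lit 78) (nat_lit 0) (nat_lit 0) (XT.lf (nat_lit 0) (nat_lit 556267778) (nat_lit 228) (nat_lit 13369605130) (nat_lit 76) (nat_lit 3772759552) (nat_lit 68) (nat_lit 5) (nat_lit 71) (nat_lit 5) (nat_lit 69) (nat_lit 4) (nat_lit 454) (nat_lit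 392) (nat_lit 354)) (XT.lf (nat_lit 0) (nat_lit 6683526388) (nat_lit 228) (nat_lit 937023765) (nat_lit 76) (nat_lit 10616971924) (nat_lit 68) (nat_lit 5) (nat_lit 71) (nat_lit 5) (nat_lit 69) (nat_lit 4) (nat_lit 455) (nat_lit 392) (nat_lit 353))))) (XT.nd (nat_lit 312) (nat_lit 456) (nat_lit 0) (XT.nd (nat_lit 156) (nat_lit 76) (nat_lit 0) (XT.nd (nat_lit 78) (nat_lit 152) (nat_lit 0) (XT.lf (nat_lit 0) (nat_lit 12367077967) (nat_lit 76) (nat_lit 865858690) (nat_lit 152) (nat_lit 5564631279) (nat_lit 67) (nat_lit 5) (nat_lit 68) (nat_lit 5) (nat_lit 69) (nat_lit 4) (nat_lit 456) (nat_lit 392) (nat_lit 352)) (XT.lf (nat_lit 0) (nat_lit 848544282) (nat_lit 152) (nat_lit 12428877517) (nat_lit 76) (nat_lit 6100253937) (nat_lit 65) (nat_lit 5) (nat_lit 67) (nat_lit 5) (nat_lit 66) (nat_lit 4) (nat_lit 457) (nat_lit 392) (nat_lit 351))) (XT.nd (nat_lit 78) (nat_lit 0) (nat_lit 0) (XT.lf (nat_lit 0)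 (nat_lit 1017839451) (nat_lit 76) (nat_lit 6441567610) (nat_lit 152) (nat_lit 12519619900) (nat_lit 64) (nat_lit 5) (nat_lit 65) (nat_lit 5) (nat_lit 66) (nat_lit 4) (nat_lit 458) (nat_lit 392) (nat_lit 350)) (XT.lf (nat_lit 0) (nat_lit 14549836770) (nat_lit 152) (nat_lit 5193293887) (nat_lit 0) (nat_lit 859864884) (nat_lit 64) (nat_lit 5) (nat_lit 66) (nat_lit 4) (nat_lit 64) (nat_lit 4) (nat_lit 459) (nat_lit 392) (nat_lit 349)))) (XT.nd (nat_lit 156) (nat_lit 228) (nat_lit 0) (XT.nd (nat_lit 78) (nat_lit 76) (nat_lit 0) (XT.lf (nat_lit 0) (nat_lit 894244759) (nat_lit 152) (nat_lit 11947949680) (nat_lit 76) (nat_lit 8406334167) (nat_lit 62) (nat_lit 5) (nat_lit 64) (nat_lit 5) (nat_lit 63) (nat_lit 4) (nat_lit 460) (nat_lit 392) (nat_lit 348)) (XT.lf (nat_lit 0) (nat_lit 2620730184) (nat_lit 76) (nat_lit 5422547517) (nat_lit 152) (nat_lit 13875215614) (nat_lit 61) (nat_lit 5) (nat_lit 62) (nat_lit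 5) (nat_lit 63) (nat_lit 4) (nat_lit 461) (nat_lit 392) (nat_lit 347))) (XT.nd (nat_lit 78) (nat_lit 228) (nat_lit 0) (XT.lf (nat_lit 0) (nat_lit 15720042786) (nat_lit 152) (nat_lit 4459730469) (nat_lit 0) (nat_lit 2433669790) (nat_lit 61) (nat_lit 5) (nat_lit 63) (nat_lit 4) (nat_lit 61) (nat_lit 4) (nat_lit 462) (nat_lit 392) (nat_lit 346)) (XT.nd (nat_lit 78) (nat_lit 76) (nat_lit 0) (XT.lf (nat_lit 0) (nat_lit 622467549) (nat_lit 152) (nat_lit 12085328162) (nat_lit 76) (nat_lit 10625055520) (nat_lit 59) (nat_lit 5) (nat_lit 61) (nat_lit 5) (nat_lit 60) (nat_lit 4) (nat_lit 463) (nat_lit 392) (nat_lit 345)) (XT.lf (nat_lit 0) (nat_lit 3680373959) (nat_lit 76) (nat_lit 4667529534) (nat_lit 152) (nat_lit 15731404795) (nat_lit 58) (nat_lit 5) (nat_lit 59) (nat_lit 5) (nat_lit 60) (nat_lit 4) (nat_lit 464) (nat_lit 392) (nat_lit 344))))))))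
noncomputable def xc152 : XT := (XT.nd (nat_lit 1248) (nat_lit 988) (nat_lit 0) (XT.nd (nat_lit 624) (nat_lit 608) (nat_lit 0) (XT.nd (nat_lit 312) (nat_lit 304) (nat_lit 0) (XT.nd (nat_lit 156) (nat_lit 152) (nat_lit 0) (XT.nd (nat_lit 78) (nat_lit 76) (nat_lit 0) (XT.lf (nat_lit 0) (nat_lit 16658006406) (nat_lit 152) (nat_lit 4395125615) (nat_lit 0) (nat_lit 3800037084) (nat_lit 58) (nat_lit 5) (nat_lit 60) (nat_lit 4) (nat_lit 58) (nat_lit 4) (nat_lit 465) (nat_lit 392) (nat_lit 343)) (XT.lf (nat_lit 0) (nat_lit 12608362261) (nat_lit 76) (nat_lit 12983320575) (nat_lit 76) (nat_lit 63637344) (nat_lit 57) (nat_lit 4) (nat_lit 58) (nat_lit 5) (nat_lit 58) (nat_lit 4) (nat_lit 466) (nat_lit 392) (nat_lit 342))) (XT.nd (nat_lit 78) (nat_lit 0) (nat_lit 0) (XT.lf (nat_lit 0) (nat_lit 3987201140) (nat_lit 76) (nat_lit 4288730334) (nat_lit 152) (nat_lit 18211397253) (nat_lit 55) (nat_lit 5) (nat_lit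 56) (nat_lit 5) (nat_lit 57) (nat_lit 4) (nat_lit 467) (nat_lit 392) (nat_lit 341)) (XT.lf (nat_lit 0) (nat_lit 17265475482) (nat_lit 152) (nat_lit 5231925707) (nat_lit 0) (nat_lit 4851728131) (nat_lit 55) (nat_lit 5) (nat_lit 57) (nat_lit 4) (nat_lit 55) (nat_lit 4) (nat_lit 468) (nat_lit 392) (nat_lit 340)))) (XT.nd (nat_lit 156) (nat_lit 76) (nat_lit 0) (XT.nd (nat_lit 78) (nat_lit 152) (nat_lit 0) (XT.lf (nat_lit 0) (nat_lit 13127813848) (nat_lit 76) (nat_lit 13790029411) (nat_lit 76) (nat_lit 1325509875) (nat_lit 54) (nat_lit 4) (nat_lit 55) (nat_lit 5) (nat_lit 55) (nat_lit 4) (nat_lit 469) (nat_lit 392) (nat_lit 339)) (XT.lf (nat_lit 0) (nat_lit 3267758965) (nat_lit 76) (nat_lit 4430110773) (nat_lit 152) (nat_lit 21474313070) (nat_lit 52) (nat_lit 5) (nat_lit 53) (nat_lit 5) (nat_lit 54) (nat_lit 4) (nat_lit 470) (nat_lit 392) (nat_lit 338))) (XT.nd (nat_lit 78) (nat_lit 76) (nat_lit 0)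 (XT.lf (nat_lit 0) (nat_lit 17410642259) (nat_lit 152) (nat_lit 7271826705) (nat_lit 0) (nat_lit 5449760480) (nat_lit 52) (nat_lit 5) (nat_lit 54) (nat_lit 4) (nat_lit 52) (nat_lit 4) (nat_lit 471) (nat_lit 392) (nat_lit 337)) (XT.lf (nat_lit 0) (nat_lit 12503813101) (nat_lit 76) (nat_lit 15314331678) (nat_lit 76) (nat_lit 3311679495) (nat_lit 51) (nat_lit 4) (nat_lit 52) (nat_lit 5) (nat_lit 52) (nat_lit 4) (nat_lit 472) (nat_lit 392) (nat_lit 336))))) (XT.nd (nat_lit 312) (nat_lit 304) (nat_lit 0) (XT.nd (nat_lit 156) (nat_lit 152) (nat_lit 0) (XT.nd (nat_lit 78) (nat_lit 0) (nat_lit 0) (XT.lf (nat_lit 0) (nat_lit 1166071791) (nat_lit 76) (nat_lit 5277101530) (nat_lit 152) (nat_lit 25724763607) (nat_lit 49) (nat_lit 5) (nat_lit 50) (nat_lit 5) (nat_lit 51) (nat_lit 4) (nat_lit 473) (nat_lit 392) (nat_lit 335)) (XT.lf (nat_lit 0) (nat_lit 16918678492) (nat_lit 152) (nat_lit 10905741068) (nat_lit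 0) (nat_lit 5413611343) (nat_lit 49) (nat_lit 5) (nat_lit 51) (nat_lit 4) (nat_lit 49) (nat_lit 4) (nat_lit 474) (nat_lit 392) (nat_lit 334))) (XT.nd (nat_lit 78) (nat_lit 76) (nat_lit 0) (XT.lf (nat_lit 0) (nat_lit 10328440184) (nat_lit 76) (nat_lit 17781510949) (nat_lit 76) (nat_lit 6242079186) (nat_lit 48) (nat_lit 4) (nat_lit 49) (nat_lit 5) (nat_lit 49) (nat_lit 4) (nat_lit 475) (nat_lit 392) (nat_lit 333)) (XT.lf (nat_lit 0) (nat_lit 4332183645) (nat_lit 152) (nat_lit 2691183492) (nat_lit 76) (nat_lit 28488375502) (nat_lit 47) (nat_lit 5) (nat_lit 49) (nat_lit 5) (nat_lit 48) (nat_lit 4) (nat_lit 476) (nat_lit 392) (nat_lit 332)))) (XT.nd (nat_lit 156) (nat_lit 152) (nat_lit 0) (XT.nd (nat_lit 78) (nat_lit 76) (nat_lit 0) (XT.lf (nat_lit 0) (nat_lit 15559556172) (nat_lit 152) (nat_lit 16639293685) (nat_lit 0) (nat_lit 4508765997) (nat_lit 46) (nat_lit 5) (nat_lit 48) (nat_lit 4) (nat_lit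 46) (nat_lit 4) (nat_lit 477) (nat_lit 392) (nat_lit 331)) (XT.lf (nat_lit 0) (nat_lit 6070968335) (nat_lit 76) (nat_lit 21480606421) (nat_lit 76) (nat_lit 10401544393) (nat_lit 45) (nat_lit 4) (nat_lit 46) (nat_lit 5) (nat_lit 46) (nat_lit 4) (nat_lit 478) (nat_lit 392) (nat_lit 330))) (XT.nd (nat_lit 78) (nat_lit 76) (nat_lit 0) (XT.lf (nat_lit 0) (nat_lit 1087548484) (nat_lit 152) (nat_lit 8876513208) (nat_lit 76) (nat_lit 29284472884) (nat_lit 44) (nat_lit 5) (nat_lit 46) (nat_lit 5) (nat_lit 45) (nat_lit 4) (nat_lit 479) (nat_lit 392) (nat_lit 329)) (XT.lf (nat_lit 0) (nat_lit 13032407750) (nat_lit 152) (nat_lit 25125389416) (nat_lit 0) (nat_lit 2430854411) (nat_lit 43) (nat_lit 5) (nat_lit 45) (nat_lit 4) (nat_lit 43) (nat_lit 4) (nat_lit 480) (nat_lit 392) (nat_lit 328)))))) (XT.nd (nat_lit 624) (nat_lit 456) (nat_lit 0) (XT.nd (nat_lit 312) (nat_lit 304) (nat_lit 0) (XT.nd (nat_lit 156)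 (nat_lit 152) (nat_lit 0) (XT.nd (nat_lit 78) (nat_lit 76) (nat_lit 0) (XT.lf (nat_lit 0) (nat_lit 25840324724) (nat_lit 152) (nat_lit 926647143) (nat_lit 0) (nat_lit 15215512062) (nat_lit 43) (nat_lit 5) (nat_lit 45) (nat_lit 4) (nat_lit 43) (nat_lit 4) (nat_lit 481) (nat_lit 392) (nat_lit 327)) (XT.lf (nat_lit 0) (nat_lit 25192366005) (nat_lit 76) (nat_lit 14441668340) (nat_lit 76) (nat_lit 3794703941) (nat_lit 42) (nat_lit 4) (nat_lit 43) (nat_lit 5) (nat_lit 43) (nat_lit 4) (nat_lit 482) (nat_lit 392) (nat_lit 326))) (XT.nd (nat_lit 78) (nat_lit 0) (nat_lit 0) (XT.lf (nat_lit 0) (nat_lit 7710314893) (nat_lit 76) (nat_lit 1254746660) (nat_lit 152) (nat_lit 35970663514) (nat_lit 40) (nat_lit 5) (nat_lit 41) (nat_lit 5) (nat_lit 42) (nat_lit 4) (nat_lit 483) (nat_lit 392) (nat_lit 325)) (XT.lf (nat_lit 0) (nat_lit 22697956603) (nat_lit 152) (nat_lit 11275098229) (nat_lit 0) (nat_lit 12518762727)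 (nat_lit 40) (nat_lit 5) (nat_lit 42) (nat_lit 4) (nat_lit 40) (nat_lit 4) (nat_lit 484) (nat_lit 392) (nat_lit 324)))) (XT.nd (nat_lit 156) (nat_lit 152) (nat_lit 0) (XT.nd (nat_lit 78) (nat_lit 76) (nat_lit 0) (XT.lf (nat_lit 0) (nat_lit 16385078781) (nat_lit 76) (nat_lit 20963256160) (nat_lit 76) (nat_lit 10765837996) (nat_lit 39) (nat_lit 4) (nat_lit 40) (nat_lit 5) (nat_lit 40) (nat_lit 4) (nat_lit 485) (nat_lit 392) (nat_lit 323)) (XT.lf (nat_lit 0) (nat_lit 2968893629) (nat_lit 152) (nat_lit 4128542689) (nat_lit 76) (nat_lit 42710507449) (nat_lit 38) (nat_lit 5) (nat_lit 40) (nat_lit 5) (nat_lit 39) (nat_lit 4) (nat_lit 486) (nat_lit 392) (nat_lit 322))) (XT.nd (nat_lit 78) (nat_lit 76) (nat_lit 0) (XT.lf (nat_lit 0) (nat_lit 17507002303) (nat_lit 152) (nat_lit 26283751692) (nat_lit 0) (nat_lit 7762902687) (nat_lit 37) (nat_lit 5) (nat_lit 39) (nat_lit 4) (nat_lit 37) (nat_lit 4) (nat_lit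 487) (nat_lit 392) (nat_lit 321)) (XT.lf (nat_lit 0) (nat_lit 2782790392) (nat_lit 76) (nat_lit 30176789799) (nat_lit 76) (nat_lit 20417697017) (nat_lit 36) (nat_lit 4) (nat_lit 37) (nat_lit 5) (nat_lit 37) (nat_lit 4) (nat_lit 488) (nat_lit 392) (nat_lit 320))))) (XT.nd (nat_lit 312) (nat_lit 228) (nat_lit 0) (XT.nd (nat_lit 156) (nat_lit 76) (nat_lit 0) (XT.nd (nat_lit 78) (nat_lit 152) (nat_lit 0) (XT.lf (nat_lit 0) (nat_lit 34129350907) (nat_lit 76) (nat_lit 15457986240) (nat_lit 76) (nat_lit 5684614251) (nat_lit 36) (nat_lit 4) (nat_lit 37) (nat_lit 5) (nat_lit 37) (nat_lit 4) (nat_lit 489) (nat_lit 392) (nat_lit 319)) (XT.lf (nat_lit 0) (nat_lit 9589014278) (nat_lit 152) (nat_lit 47390763368) (nat_lit 0) (nat_lit 268089293) (nat_lit 34) (nat_lit 5) (nat_lit 36) (nat_lit 4) (nat_lit 34) (nat_lit 4) (nat_lit 490) (nat_lit 392) (nat_lit 318))) (XT.nd (nat_lit 78) (nat_lit 76) (nat_lit 0) (XT.lf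 (nat_lit 0) (nat_lit 26011450771) (nat_lit 152) (nat_lit 16599468880) (nat_lit 0) (nat_lit 16678190870) (nat_lit 34) (nat_lit 5) (nat_lit 36) (nat_lit 4) (nat_lit 34) (nat_lit 4) (nat_lit 491) (nat_lit 392) (nat_lit 317)) (XT.lf (nat_lit 0) (nat_lit 16169742135) (nat_lit 76) (nat_lit 27298509783) (nat_lit 76) (nat_lit 17953502344) (nat_lit 33) (nat_lit 4) (nat_lit 34) (nat_lit 5) (nat_lit 34) (nat_lit 4) (nat_lit 492) (nat_lit 392) (nat_lit 316)))) (XT.nd (nat_lit 156) (nat_lit 76) (nat_lit 0) (XT.nd (nat_lit 78) (nat_lit 152) (nat_lit 0) (XT.lf (nat_lit 0) (nat_lit 51075805966) (nat_lit 76) (nat_lit 10964645985) (nat_lit 76) (nat_lit 1608450413) (nat_lit 33) (nat_lit 4) (nat_lit 34) (nat_lit 5) (nat_lit 34) (nat_lit 4) (nat_lit 493) (nat_lit 392) (nat_lit 315)) (XT.lf (nat_lit 0) (nat_lit 15469844128) (nat_lit 152) (nat_lit 43935697646) (nat_lit 0) (nat_lit 6549033713) (nat_lit 31) (nat_lit 5)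 (nat_lit 33) (nat_lit 4) (nat_lit 31) (nat_lit 4) (nat_lit 494) (nat_lit 392) (nat_lit 314))) (XT.nd (nat_lit 78) (nat_lit 76) (nat_lit 0) (XT.lf (nat_lit 0) (nat_lit 33706875537) (nat_lit 152) (nat_lit 9872994205) (nat_lit 0) (nat_lit 24776400393) (nat_lit 31) (nat_lit 5) (nat_lit 33) (nat_lit 4) (nat_lit 31) (nat_lit 4) (nat_lit 495) (nat_lit 392) (nat_lit 313)) (XT.lf (nat_lit 0) (nat_lit 26674734099) (nat_lit 76) (nat_lit 26561973843) (nat_lit 76) (nat_lit 17622294195) (nat_lit 30) (nat_lit 4) (nat_lit 31) (nat_lit 5) (nat_lit 31) (nat_lit 4) (nat_lit 496) (nat_lit 392) (nat_lit 312)))))))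
noncomputable def xc153 : XT := (XT.nd (nat_lit 1248) (nat_lit 684) (nat_lit 0) (XT.nd (nat_lit 624) (nat_lit 380) (nat_lit 0) (XT.nd (nat_lit 312) (nat_lit 228) (nat_lit 0) (XT.nd (nat_lit 156) (nat_lit 76) (nat_lit 0) (XT.nd (nat_lit 78) (nat_lit 76) (nat_lit 0) (XT.lf (nat_lit 0) (nat_lit 382404163) (nat_lit 152) (nat_lit 8164517308) (nat_lit 76) (nat_lit 64933027300) (nat_lit 29) (nat_lit 5) (nat_lit 31) (nat_lit 5) (nat_lit 30) (nat_lit 4) (nat_lit 497) (nat_lit 392) (nat_lit 311)) (XT.lf (nat_lit 0) (nat_lit 19307691787) (nat_lit 152) (nat_lit 46101766362) (nat_lit 0) (nat_lit 10777411216) (nat_lit 28) (nat_lit 5) (nat_lit 30) (nat_lit 4) (nat_lit 28) (nat_lit 4) (nat_lit 498) (nat_lit 392) (nat_lit 310))) (XT.nd (nat_lit 78) (nat_lit 76) (nat_lit 0) (XT.lf (nat_lit 0) (nat_lit 39426107463) (nat_lit 152) (nat_lit 8702431097) (nat_lit 0) (nat_lit 30888254324) (nat_lit 28) (nat_lit 5) (nat_lit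 30) (nat_lit 4) (nat_lit 28) (nat_lit 4) (nat_lit 499) (nat_lit 392) (nat_lit 309)) (XT.lf (nat_lit 0) (nat_lit 31510167988) (nat_lit 76) (nat_lit 29500060278) (nat_lit 76) (nat_lit 20954995169) (nat_lit 27) (nat_lit 4) (nat_lit 28) (nat_lit 5) (nat_lit 28) (nat_lit 4) (nat_lit 500) (nat_lit 392) (nat_lit 308)))) (XT.nd (nat_lit 156) (nat_lit 76) (nat_lit 0) (XT.nd (nat_lit 78) (nat_lit 152) (nat_lit 0) (XT.lf (nat_lit 0) (nat_lit 73971352700) (nat_lit 76) (nat_lit 9817934954) (nat_lit 76) (nat_lit 1266001303) (nat_lit 27) (nat_lit 4) (nat_lit 28) (nat_lit 5) (nat_lit 28) (nat_lit 4) (nat_lit 501) (nat_lit 392) (nat_lit 307)) (XT.lf (nat_lit 0) (nat_lit 19419506181) (nat_lit 152) (nat_lit 57564962753) (nat_lit 0) (nat_lit 11268577494) (nat_lit 25) (nat_lit 5) (nat_lit 27) (nat_lit 4) (nat_lit 25) (nat_lit 4) (nat_lit 502) (nat_lit 392) (nat_lit 306))) (XT.nd (nat_lit 78) (nat_lit 76) (nat_lit 0)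 (XT.lf (nat_lit 0) (nat_lit 41417867863) (nat_lit 152) (nat_lit 16914724154) (nat_lit 0) (nat_lit 33261005871) (nat_lit 25) (nat_lit 5) (nat_lit 27) (nat_lit 4) (nat_lit 25) (nat_lit 4) (nat_lit 503) (nat_lit 392) (nat_lit 305)) (XT.lf (nat_lit 0) (nat_lit 26558885427) (nat_lit 76) (nat_lit 38342764596) (nat_lit 76) (nat_lit 30180251837) (nat_lit 24) (nat_lit 4) (nat_lit 25) (nat_lit 5) (nat_lit 25) (nat_lit 4) (nat_lit 504) (nat_lit 392) (nat_lit 304))))) (XT.nd (nat_lit 312) (nat_lit 152) (nat_lit 0) (XT.nd (nat_lit 156) (nat_lit 76) (nat_lit 0) (XT.nd (nat_lit 78) (nat_lit 152) (nat_lit 0) (XT.lf (nat_lit 0) (nat_lit 72735180067) (nat_lit 76) (nat_lit 17082223181) (nat_lit 76) (nat_lit 8914328740) (nat_lit 24) (nat_lit 4) (nat_lit 25) (nat_lit 5) (nat_lit 25) (nat_lit 4) (nat_lit 505) (nat_lit 392) (nat_lit 303)) (XT.lf (nat_lit 0) (nat_lit 13344071822) (nat_lit 152) (nat_lit 83631339179) (nat_lit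 0) (nat_lit 5560243390) (nat_lit 22) (nat_lit 5) (nat_lit 24) (nat_lit 4) (nat_lit 22) (nat_lit 4) (nat_lit 506) (nat_lit 392) (nat_lit 302))) (XT.nd (nat_lit 78) (nat_lit 76) (nat_lit 0) (XT.lf (nat_lit 0) (nat_lit 37115587318) (nat_lit 152) (nat_lit 40044780092) (nat_lit 0) (nat_lit 29327109986) (nat_lit 22) (nat_lit 5) (nat_lit 24) (nat_lit 4) (nat_lit 22) (nat_lit 4) (nat_lit 507) (nat_lit 392) (nat_lit 301)) (XT.lf (nat_lit 0) (nat_lit 5854784971) (nat_lit 76) (nat_lit 56285881054) (nat_lit 76) (nat_lit 48492976198) (nat_lit 21) (nat_lit 4) (nat_lit 22) (nat_lit 5) (nat_lit 22) (nat_lit 4) (nat_lit 508) (nat_lit 392) (nat_lit 300)))) (XT.nd (nat_lit 156) (nat_lit 152) (nat_lit 0) (XT.nd (nat_lit 78) (nat_lit 0) (nat_lit 0) (XT.lf (nat_lit 0) (nat_lit 55386747286) (nat_lit 76) (nat_lit 33682440081) (nat_lit 76) (nat_lit 25885318535) (nat_lit 21) (nat_lit 4) (nat_lit 22) (nat_lit 5) (nat_lit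 22) (nat_lit 4) (nat_lit 509) (nat_lit 392) (nat_lit 299)) (XT.lf (nat_lit 0) (nat_lit 107344978817) (nat_lit 76) (nat_lit 9974404500) (nat_lit 76) (nat_lit 2173267060) (nat_lit 21) (nat_lit 4) (nat_lit 22) (nat_lit 5) (nat_lit 22) (nat_lit 4) (nat_lit 510) (nat_lit 392) (nat_lit 298))) (XT.nd (nat_lit 78) (nat_lit 0) (nat_lit 0) (XT.lf (nat_lit 0) (nat_lit 22821953133) (nat_lit 152) (nat_lit 85988109098) (nat_lit 0) (nat_lit 15388655894) (nat_lit 19) (nat_lit 5) (nat_lit 21) (nat_lit 4) (nat_lit 19) (nat_lit 4) (nat_lit 511) (nat_lit 392) (nat_lit 297)) (XT.lf (nat_lit 0) (nat_lit 49342565062) (nat_lit 152) (nat_lit 37872510787) (nat_lit 0) (nat_lit 41905798741) (nat_lit 19) (nat_lit 5) (nat_lit 21) (nat_lit 4) (nat_lit 19) (nat_lit 4) (nat_lit 512) (nat_lit 392) (nat_lit 296)))))) (XT.nd (nat_lit 624) (nat_lit 380) (nat_lit 0) (XT.nd (nat_lit 312) (nat_lit 76) (nat_lit 0) (XT.nd (nat_lit 156)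 (nat_lit 152) (nat_lit 0) (XT.nd (nat_lit 78) (nat_lit 0) (nat_lit 0) (XT.lf (nat_lit 0) (nat_lit 13019145683) (nat_lit 76) (nat_lit 64350520260) (nat_lit 76) (nat_lit 56910450053) (nat_lit 18) (nat_lit 4) (nat_lit 19) (nat_lit 5) (nat_lit 19) (nat_lit 4) (nat_lit 513) (nat_lit 392) (nat_lit 295)) (XT.lf (nat_lit 0) (nat_lit 67724565950) (nat_lit 76) (nat_lit 39692511276) (nat_lit 76) (nat_lit 32249294510) (nat_lit 18) (nat_lit 4) (nat_lit 19) (nat_lit 5) (nat_lit 19) (nat_lit 4) (nat_lit 514) (nat_lit 392) (nat_lit 294))) (XT.nd (nat_lit 78) (nat_lit 152) (nat_lit 0) (XT.lf (nat_lit 0) (nat_lit 125121764771) (nat_lit 76) (nat_lit 13823728647) (nat_lit 76) (nat_lit 6377515159) (nat_lit 18) (nat_lit 4) (nat_lit 19) (nat_lit 5) (nat_lit 19) (nat_lit 4) (nat_lit 515) (nat_lit 392) (nat_lit 293)) (XT.lf (nat_lit 0) (nat_lit 20868505015) (nat_lit 152) (nat_lit 116566289786) (nat_lit 0) (nat_lit 13774155006)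 (nat_lit 16) (nat_lit 5) (nat_lit 18) (nat_lit 4) (nat_lit 16) (nat_lit 4) (nat_lit 516) (nat_lit 392) (nat_lit 292)))) (XT.nd (nat_lit 156) (nat_lit 76) (nat_lit 0) (XT.nd (nat_lit 78) (nat_lit 0) (nat_lit 0) (XT.lf (nat_lit 0) (nat_lit 49816171767) (nat_lit 152) (nat_lit 64820872214) (nat_lit 0) (nat_lit 42719233076) (nat_lit 16) (nat_lit 5) (nat_lit 18) (nat_lit 4) (nat_lit 16) (nat_lit 4) (nat_lit 517) (nat_lit 392) (nat_lit 291)) (XT.lf (nat_lit 0) (nat_lit 80191533350) (nat_lit 152) (nat_lit 10528292522) (nat_lit 0) (nat_lit 73092129249) (nat_lit 16) (nat_lit 5) (nat_lit 18) (nat_lit 4) (nat_lit 16) (nat_lit 4) (nat_lit 518) (nat_lit 392) (nat_lit 290))) (XT.nd (nat_lit 78) (nat_lit 0) (nat_lit 0) (XT.lf (nat_lit 0) (nat_lit 47976257181) (nat_lit 76) (nat_lit 64839698700) (nat_lit 76) (nat_lit 57737946588) (nat_lit 15) (nat_lit 4) (nat_lit 16) (nat_lit 5) (nat_lit 16) (nat_lit 4) (nat_lit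 519) (nat_lit 392) (nat_lit 289)) (XT.lf (nat_lit 0) (nat_lit 109733970205) (nat_lit 76) (nat_lit 37497486235) (nat_lit 76) (nat_lit 30393497923) (nat_lit 15) (nat_lit 4) (nat_lit 16) (nat_lit 5) (nat_lit 16) (nat_lit 4) (nat_lit 520) (nat_lit 392) (nat_lit 288))))) (XT.nd (nat_lit 312) (nat_lit 228) (nat_lit 0) (XT.nd (nat_lit 156) (nat_lit 0) (nat_lit 0) (XT.nd (nat_lit 78) (nat_lit 152) (nat_lit 0) (XT.lf (nat_lit 0) (nat_lit 174543775825) (nat_lit 76) (nat_lit 8806389700) (nat_lit 76) (nat_lit 1700271673) (nat_lit 15) (nat_lit 4) (nat_lit 16) (nat_lit 5) (nat_lit 16) (nat_lit 4) (nat_lit 521) (nat_lit 392) (nat_lit 287)) (XT.lf (nat_lit 0) (nat_lit 28648282805) (nat_lit 152) (nat_lit 142241573608) (nat_lit 0) (nat_lit 21878619637) (nat_lit 13) (nat_lit 5) (nat_lit 15) (nat_lit 4) (nat_lit 13) (nat_lit 4) (nat_lit 522) (nat_lit 392) (nat_lit 286))) (XT.nd (nat_lit 78) (nat_lit 0) (nat_lit 0)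 (XT.lf (nat_lit 0) (nat_lit 60765346196) (nat_lit 152) (nat_lit 86096422628) (nat_lit 0) (nat_lit 53993843300) (nat_lit 13) (nat_lit 5) (nat_lit 15) (nat_lit 4) (nat_lit 13) (nat_lit 4) (nat_lit 523) (nat_lit 392) (nat_lit 285)) (XT.lf (nat_lit 0) (nat_lit 94472074234) (nat_lit 152) (nat_lit 27177020994) (nat_lit 0) (nat_lit 87698819217) (nat_lit 13) (nat_lit 5) (nat_lit 15) (nat_lit 4) (nat_lit 13) (nat_lit 4) (nat_lit 524) (nat_lit 392) (nat_lit 284)))) (XT.nd (nat_lit 156) (nat_lit 152) (nat_lit 0) (XT.nd (nat_lit 78) (nat_lit 0) (nat_lit 0) (XT.lf (nat_lit 0) (nat_lit 35802829727) (nat_lit 76) (nat_lit 94604873817) (nat_lit 76) (nat_lit 87829950113) (nat_lit 12) (nat_lit 4) (nat_lit 13) (nat_lit 5) (nat_lit 13) (nat_lit 4) (nat_lit 525) (nat_lit 392) (nat_lit 283)) (XT.lf (nat_lit 0) (nat_lit 102844269668) (nat_lit 76) (nat_lit 65740934313) (nat_lit 76) (nat_lit 58964421382) (nat_lit 12) (nat_lit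 4) (nat_lit 13) (nat_lit 5) (nat_lit 13) (nat_lit 4) (nat_lit 526) (nat_lit 392) (nat_lit 282))) (XT.nd (nat_lit 78) (nat_lit 152) (nat_lit 0) (XT.lf (nat_lit 0) (nat_lit 173208326255) (nat_lit 76) (nat_lit 35448809050) (nat_lit 76) (nat_lit 28670782572) (nat_lit 12) (nat_lit 4) (nat_lit 13) (nat_lit 5) (nat_lit 13) (nat_lit 4) (nat_lit 527) (nat_lit 392) (nat_lit 281)) (XT.nd (nat_lit 78) (nat_lit 76) (nat_lit 0) (XT.lf (nat_lit 0) (nat_lit 3023135517) (nat_lit 152) (nat_lit 582040142) (nat_lit 76) (nat_lit 243988199175) (nat_lit 11) (nat_lit 5) (nat_lit 13) (nat_lit 5) (nat_lit 12) (nat_lit 4) (nat_lit 528) (nat_lit 392) (nat_lit 280)) (XT.lf (nat_lit 0) (nat_lit 36874123274) (nat_lit 152) (nat_lit 190981506066) (nat_lit 0) (nat_lit 30416179668) (nat_lit 10) (nat_lit 5) (nat_lit 12) (nat_lit 4) (nat_lit 10) (nat_lit 4) (nat_lit 529) (nat_lit 392) (nat_lit 279))))))))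
noncomputable def xc154 : XT := (XT.nd (nat_lit 1248) (nat_lit 152) (nat_lit 0) (XT.nd (nat_lit 624) (nat_lit 76) (nat_lit 0) (XT.nd (nat_lit 312) (nat_lit 152) (nat_lit 0) (XT.nd (nat_lit 156) (nat_lit 76) (nat_lit 0) (XT.nd (nat_lit 78) (nat_lit 0) (nat_lit 0) (XT.lf (nat_lit 0) (nat_lit 72473468628) (nat_lit 152) (nat_lit 130993626042) (nat_lit 0) (nat_lit 66014279822) (nat_lit 10) (nat_lit 5) (nat_lit 12) (nat_lit 4) (nat_lit 10) (nat_lit 4) (nat_lit 530) (nat_lit 392) (nat_lit 278)) (XT.lf (nat_lit 0) (nat_lit 109840103389) (nat_lit 152) (nat_lit 68032220089) (nat_lit 0) (nat_lit 103379728678) (nat_lit 10) (nat_lit 5) (nat_lit 12) (nat_lit 4) (nat_lit 10) (nat_lit 4) (nat_lit 531) (nat_lit 392) (nat_lit 277))) (XT.nd (nat_lit 78) (nat_lit 76) (nat_lit 0) (XT.lf (nat_lit 0) (nat_lit 149062995735) (nat_lit 152) (nat_lit 1947380099) (nat_lit 0) (nat_lit 142601491590) (nat_lit 10) (nat_lit 5)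 (nat_lit 12) (nat_lit 4) (nat_lit 10) (nat_lit 4) (nat_lit 532) (nat_lit 392) (nat_lit 276)) (XT.lf (nat_lit 0) (nat_lit 69647390230) (nat_lit 76) (nat_lit 121675534221) (nat_lit 76) (nat_lit 115212954426) (nat_lit 9) (nat_lit 4) (nat_lit 10) (nat_lit 5) (nat_lit 10) (nat_lit 4) (nat_lit 533) (nat_lit 392) (nat_lit 275)))) (XT.nd (nat_lit 156) (nat_lit 152) (nat_lit 0) (XT.nd (nat_lit 78) (nat_lit 0) (nat_lit 0) (XT.lf (nat_lit 0) (nat_lit 144866423049) (nat_lit 76) (nat_lit 90851094350) (nat_lit 76) (nat_lit 84387490126) (nat_lit 9) (nat_lit 4) (nat_lit 10) (nat_lit 5) (nat_lit 10) (nat_lit 4) (nat_lit 534) (nat_lit 392) (nat_lit 274)) (XT.lf (nat_lit 0) (nat_lit 223824422111) (nat_lit 76) (nat_lit 58496644521) (nat_lit 76) (nat_lit 52032064650) (nat_lit 9) (nat_lit 4) (nat_lit 10) (nat_lit 5) (nat_lit 10) (nat_lit 4) (nat_lit 535) (nat_lit 392) (nat_lit 273))) (XT.nd (nat_lit 78) (nat_lit 152)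 (nat_lit 0) (XT.lf (nat_lit 0) (nat_lit 306709382653) (nat_lit 76) (nat_lit 24535150330) (nat_lit 76) (nat_lit 18069641271) (nat_lit 9) (nat_lit 4) (nat_lit 10) (nat_lit 5) (nat_lit 10) (nat_lit 4) (nat_lit 536) (nat_lit 392) (nat_lit 272)) (XT.lf (nat_lit 0) (nat_lit 17661885191) (nat_lit 152) (nat_lit 335812537277) (nat_lit 0) (nat_lit 11503414716) (nat_lit 7) (nat_lit 5) (nat_lit 9) (nat_lit 4) (nat_lit 7) (nat_lit 4) (nat_lit 537) (nat_lit 392) (nat_lit 271))))) (XT.nd (nat_lit 312) (nat_lit 76) (nat_lit 0) (XT.nd (nat_lit 156) (nat_lit 0) (nat_lit 0) (XT.nd (nat_lit 78) (nat_lit 0) (nat_lit 0) (XT.lf (nat_lit 0) (nat_lit 55698377095) (nat_lit 152) (nat_lit 276116108662) (nat_lit 0) (nat_lit 49539103953) (nat_lit 7) (nat_lit 5) (nat_lit 9) (nat_lit 4) (nat_lit 7) (nat_lit 4) (nat_lit 538) (nat_lit 392) (nat_lit 270)) (XT.lf (nat_lit 0) (nat_lit 95627237220) (nat_lit 152) (nat_lit 213454165837)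 (nat_lit 0) (nat_lit 89467199633) (nat_lit 7) (nat_lit 5) (nat_lit 9) (nat_lit 4) (nat_lit 7) (nat_lit 4) (nat_lit 539) (nat_lit 392) (nat_lit 269))) (XT.nd (nat_lit 78) (nat_lit 0) (nat_lit 0) (XT.lf (nat_lit 0) (nat_lit 137543534280) (nat_lit 152) (nat_lit 147677513699) (nat_lit 0) (nat_lit 131382768650) (nat_lit 7) (nat_lit 5) (nat_lit 9) (nat_lit 4) (nat_lit 7) (nat_lit 4) (nat_lit 540) (nat_lit 392) (nat_lit 268)) (XT.lf (nat_lit 0) (nat_lit 181547068982) (nat_lit 152) (nat_lit 78629541172) (nat_lit 0) (nat_lit 175385609979) (nat_lit 7) (nat_lit 5) (nat_lit 9) (nat_lit 4) (nat_lit 7) (nat_lit 4) (nat_lit 541) (nat_lit 392) (nat_lit 267)))) (XT.nd (nat_lit 156) (nat_lit 0) (nat_lit 0) (XT.nd (nat_lit 78) (nat_lit 76) (nat_lit 0) (XT.lf (nat_lit 0) (nat_lit 227742611648) (nat_lit 152) (nat_lit 6145848320) (nat_lit 0) (nat_lit 221580492288) (nat_lit 7) (nat_lit 5) (nat_lit 9) (nat_lit 4) (nat_lit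 7) (nat_lit 4) (nat_lit 542) (nat_lit 392) (nat_lit 266)) (XT.lf (nat_lit 0) (nat_lit 72258880517) (nat_lit 76) (nat_lit 205109434777) (nat_lit 76) (nat_lit 198946686507) (nat_lit 6) (nat_lit 4) (nat_lit 7) (nat_lit 5) (nat_lit 7) (nat_lit 4) (nat_lit 543) (nat_lit 392) (nat_lit 265))) (XT.nd (nat_lit 78) (nat_lit 0) (nat_lit 0) (XT.lf (nat_lit 0) (nat_lit 154781587871) (nat_lit 76) (nat_lit 174790145856) (nat_lit 76) (nat_lit 168626798623) (nat_lit 6) (nat_lit 4) (nat_lit 7) (nat_lit 5) (nat_lit 7) (nat_lit 4) (nat_lit 544) (nat_lit 392) (nat_lit 264)) (XT.lf (nat_lit 0) (nat_lit 241415546877) (nat_lit 76) (nat_lit 142962487335) (nat_lit 76) (nat_lit 136798569662) (nat_lit 6) (nat_lit 4) (nat_lit 7) (nat_lit 5) (nat_lit 7) (nat_lit 4) (nat_lit 545) (nat_lit 392) (nat_lit 263)))))) (XT.nd (nat_lit 624) (nat_lit 0) (nat_lit 0) (XT.nd (nat_lit 312) (nat_lit 0) (nat_lit 0) (XT.nd (nat_lit 156) (nat_lit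 152) (nat_lit 0) (XT.nd (nat_lit 78) (nat_lit 0) (nat_lit 0) (XT.lf (nat_lit 0) (nat_lit 332367028864) (nat_lit 76) (nat_lit 109550679078) (nat_lit 76) (nat_lit 103386218127) (nat_lit 6) (nat_lit 4) (nat_lit 7) (nat_lit 5) (nat_lit 7) (nat_lit 4) (nat_lit 546) (nat_lit 392) (nat_lit 262)) (XT.lf (nat_lit 0) (nat_lit 427852584982) (nat_lit 76) (nat_lit 74475169158) (nat_lit 76) (nat_lit 68310190801) (nat_lit 6) (nat_lit 4) (nat_lit 7) (nat_lit 5) (nat_lit 7) (nat_lit 4) (nat_lit 547) (nat_lit 392) (nat_lit 261))) (XT.nd (nat_lit 78) (nat_lit 152) (nat_lit 0) (XT.lf (nat_lit 0) (nat_lit 528099561791) (nat_lit 76) (nat_lit 37652444457) (nat_lit 76) (nat_lit 31486973333) (nat_lit 6) (nat_lit 4) (nat_lit 7) (nat_lit 5) (nat_lit 7) (nat_lit 4) (nat_lit 548) (nat_lit 392) (nat_lit 260)) (XT.lf (nat_lit 0) (nat_lit 7091319162) (nat_lit 152) (nat_lit 616846967083) (nat_lit 0) (nat_lit 1218994945) (nat_lit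 4) (nat_lit 5) (nat_lit 6) (nat_lit 4) (nat_lit 4) (nat_lit 4) (nat_lit 549) (nat_lit 392) (nat_lit 259)))) (XT.nd (nat_lit 156) (nat_lit 0) (nat_lit 0) (XT.nd (nat_lit 78) (nat_lit 0) (nat_lit 0) (XT.lf (nat_lit 0) (nat_lit 48341622013) (nat_lit 152) (nat_lit 563545131527) (nat_lit 0) (nat_lit 42468872125) (nat_lit 4) (nat_lit 5) (nat_lit 6) (nat_lit 4) (nat_lit 4) (nat_lit 4) (nat_lit 550) (nat_lit 392) (nat_lit 258)) (XT.lf (nat_lit 0) (nat_lit 91648636756) (nat_lit 152) (nat_lit 507590059307) (nat_lit 0) (nat_lit 85775481467) (nat_lit 4) (nat_lit 5) (nat_lit 6) (nat_lit 4) (nat_lit 4) (nat_lit 4) (nat_lit 551) (nat_lit 392) (nat_lit 257))) (XT.nd (nat_lit 78) (nat_lit 0) (nat_lit 0) (XT.lf (nat_lit 0) (nat_lit 137115475331) (nat_lit 152) (nat_lit 448848524060) (nat_lit 0) (nat_lit 131241933945) (nat_lit 4) (nat_lit 5) (nat_lit 6) (nat_lit 4) (nat_lit 4) (nat_lit 4) (nat_lit 552) (nat_lit 392)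 (nat_lit 256)) (XT.lf (nat_lit 0) (nat_lit 184850392115) (nat_lit 152) (nat_lit 387180664990) (nat_lit 0) (nat_lit 178976483019) (nat_lit 4) (nat_lit 5) (nat_lit 6) (nat_lit 4) (nat_lit 4) (nat_lit 4) (nat_lit 553) (nat_lit 392) (nat_lit 255))))) (XT.nd (nat_lit 51636) (nat_lit 0) (nat_lit 11096) (XT.nd (nat_lit 156) (nat_lit 0) (nat_lit 0) (XT.nd (nat_lit 78) (nat_lit 0) (nat_lit 0) (XT.lf (nat_lit 0) (nat_lit 234967041673) (nat_lit 152) (nat_lit 322439653859) (nat_lit 0) (nat_lit 229092782375) (nat_lit 4) (nat_lit 5) (nat_lit 6) (nat_lit 4) (nat_lit 4) (nat_lit 4) (nat_lit 554) (nat_lit 392) (nat_lit 254)) (XT.lf (nat_lit 0) (nat_lit 287584749360) (nat_lit 152) (nat_lit 254471345404) (nat_lit 0) (nat_lit 281710156537) (nat_lit 4) (nat_lit 5) (nat_lit 6) (nat_lit 4) (nat_lit 4) (nat_lit 4) (nat_lit 555) (nat_lit 392) (nat_lit 253))) (XT.nd (nat_lit 51402) (nat_lit 0) (nat_lit 13528) (XT.lf (nat_lit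 0) (nat_lit 342828795432) (nat_lit 152) (nat_lit 183113910318) (nat_lit 0) (nat_lit 336953884967) (nat_lit 4) (nat_lit 5) (nat_lit 6) (nat_lit 4) (nat_lit 4) (nat_lit 4) (nat_lit 556) (nat_lit 392) (nat_lit 252)) (XT.lf (nat_lit 0) (nat_lit 1206302870) (nat_lit 684) (nat_lit 1090607629) (nat_lit 0) (nat_lit 1206302870) (nat_lit 182) (nat_lit 5) (nat_lit 191) (nat_lit 4) (nat_lit 182) (nat_lit 4) (nat_lit 414) (nat_lit 393) (nat_lit 393)))) (XT.nd (nat_lit 156) (nat_lit 912) (nat_lit 0) (XT.nd (nat_lit 78) (nat_lit 836) (nat_lit 0) (XT.lf (nat_lit 0) (nat_lit 3021821755) (nat_lit 684) (nat_lit 2928961993) (nat_lit 684) (nat_lit 1140644214) (nat_lit 173) (nat_lit 4) (nat_lit 182) (nat_lit 5) (nat_lit 182) (nat_lit 4) (nat_lit 415) (nat_lit 393) (nat_lit 392)) (XT.lf (nat_lit 0) (nat_lit 1205768121) (nat_lit 760) (nat_lit 1085571238) (nat_lit 836) (nat_lit 4893132040) (nat_lit 162) (nat_lit 5) (nat_lit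 172) (nat_lit 5) (nat_lit 173) (nat_lit 4) (nat_lit 416) (nat_lit 393) (nat_lit 391))) (XT.nd (nat_lit 78) (nat_lit 912) (nat_lit 0) (XT.lf (nat_lit 0) (nat_lit 5774550352) (nat_lit 836) (nat_lit 606282032) (nat_lit 0) (nat_lit 904517485) (nat_lit 162) (nat_lit 5) (nat_lit 173) (nat_lit 4) (nat_lit 162) (nat_lit 4) (nat_lit 417) (nat_lit 393) (nat_lit 390)) (XT.nd (nat_lit 78) (nat_lit 380) (nat_lit 0) (XT.lf (nat_lit 0) (nat_lit 1912766751) (nat_lit 532) (nat_lit 2420114487) (nat_lit 76) (nat_lit 3059940884) (nat_lit 155) (nat_lit 5) (nat_lit 162) (nat_lit 5) (nat_lit 156) (nat_lit 4) (nat_lit 418) (nat_lit 393) (nat_lit 389)) (XT.lf (nat_lit 0) (nat_lit 3251239708) (nat_lit 380) (nat_lit 2111550443) (nat_lit 456) (nat_lit 2146350618) (nat_lit 150) (nat_lit 5) (nat_lit 155) (nat_lit 5) (nat_lit 156) (nat_lit 4) (nat_lit 419) (nat_lit 393) (nat_lit 388))))))))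
noncomputable def xc155 : XT := (XT.nd (nat_lit 1248) (nat_lit 2280) (nat_lit 0) (XT.nd (nat_lit 624) (nat_lit 1520) (nat_lit 0) (XT.nd (nat_lit 312) (nat_lit 988) (nat_lit 0) (XT.nd (nat_lit 156) (nat_lit 684) (nat_lit 0) (XT.nd (nat_lit 78) (nat_lit 0) (nat_lit 0) (XT.lf (nat_lit 0) (nat_lit 1227524968) (nat_lit 456) (nat_lit 6128288445) (nat_lit 76) (nat_lit 278576194) (nat_lit 144) (nat_lit 5) (nat_lit 150) (nat_lit 5) (nat_lit 145) (nat_lit 4) (nat_lit 420) (nat_lit 393) (nat_lit 387)) (XT.lf (nat_lit 0) (nat_lit 4657124362) (nat_lit 456) (nat_lit 308013551) (nat_lit 76) (nat_lit 2801057448) (nat_lit 144) (nat_lit 5) (nat_lit 150) (nat_lit 5) (nat_lit 145) (nat_lit 4) (nat_lit 421) (nat_lit 393) (nat_lit 386))) (XT.nd (nat_lit 78) (nat_lit 304) (nat_lit 0) (XT.lf (nat_lit 0) (nat_lit 290610438) (nat_lit 380) (nat_lit 2094619803) (nat_lit 76) (nat_lit 5521680072) (nat_lit 139) (nat_lit 5) (nat_lit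 144) (nat_lit 5) (nat_lit 140) (nat_lit 5) (nat_lit 422) (nat_lit 393) (nat_lit 385)) (XT.lf (nat_lit 0) (nat_lit 3691782833) (nat_lit 380) (nat_lit 3961136683) (nat_lit 76) (nat_lit 402403712) (nat_lit 135) (nat_lit 5) (nat_lit 140) (nat_lit 5) (nat_lit 136) (nat_lit 4) (nat_lit 423) (nat_lit 393) (nat_lit 384)))) (XT.nd (nat_lit 156) (nat_lit 304) (nat_lit 0) (XT.nd (nat_lit 78) (nat_lit 380) (nat_lit 0) (XT.lf (nat_lit 0) (nat_lit 2312557453) (nat_lit 304) (nat_lit 4925321180) (nat_lit 380) (nat_lit 974544667) (nat_lit 131) (nat_lit 5) (nat_lit 135) (nat_lit 5) (nat_lit 136) (nat_lit 4) (nat_lit 424) (nat_lit 393) (nat_lit 383)) (XT.lf (nat_lit 0) (nat_lit 457486116) (nat_lit 304) (nat_lit 1984226731) (nat_lit 380) (nat_lit 5936631627) (nat_lit 126) (nat_lit 5) (nat_lit 130) (nat_lit 5) (nat_lit 131) (nat_lit 5) (nat_lit 425) (nat_lit 393) (nat_lit 382))) (XT.nd (nat_lit 78) (nat_lit 304) (nat_lit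 0) (XT.lf (nat_lit 0) (nat_lit 5982972791) (nat_lit 380) (nat_lit 1426999915) (nat_lit 76) (nat_lit 1142451584) (nat_lit 126) (nat_lit 5) (nat_lit 131) (nat_lit 5) (nat_lit 127) (nat_lit 4) (nat_lit 426) (nat_lit 393) (nat_lit 381)) (XT.lf (nat_lit 0) (nat_lit 925600287) (nat_lit 304) (nat_lit 3393581622) (nat_lit 76) (nat_lit 4415757986) (nat_lit 122) (nat_lit 5) (nat_lit 126) (nat_lit 5) (nat_lit 123) (nat_lit 5) (nat_lit 427) (nat_lit 393) (nat_lit 380))))) (XT.nd (nat_lit 312) (nat_lit 684) (nat_lit 0) (XT.nd (nat_lit 156) (nat_lit 304) (nat_lit 0) (XT.nd (nat_lit 78) (nat_lit 228) (nat_lit 0) (XT.lf (nat_lit 0) (nat_lit 3465950902) (nat_lit 304) (nat_lit 997512133) (nat_lit 380) (nat_lit 4463298974) (nat_lit 118) (nat_lit 5) (nat_lit 122) (nat_lit 5) (nat_lit 123) (nat_lit 5) (nat_lit 428) (nat_lit 393) (nat_lit 379)) (XT.lf (nat_lit 0) (nat_lit 1491685932) (nat_lit 228) (nat_lit 6685286631)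 (nat_lit 304) (nat_lit 951271912) (nat_lit 115) (nat_lit 5) (nat_lit 118) (nat_lit 5) (nat_lit 119) (nat_lit 4) (nat_lit 429) (nat_lit 393) (nat_lit 378))) (XT.nd (nat_lit 78) (nat_lit 228) (nat_lit 0) (XT.lf (nat_lit 0) (nat_lit 2638422872) (nat_lit 304) (nat_lit 592723553) (nat_lit 76) (nat_lit 6107042473) (nat_lit 114) (nat_lit 5) (nat_lit 118) (nat_lit 5) (nat_lit 115) (nat_lit 5) (nat_lit 430) (nat_lit 393) (nat_lit 377)) (XT.lf (nat_lit 0) (nat_lit 6374743677) (nat_lit 304) (nat_lit 2728926888) (nat_lit 76) (nat_lit 454230718) (nat_lit 111) (nat_lit 5) (nat_lit 115) (nat_lit 5) (nat_lit 112) (nat_lit 4) (nat_lit 431) (nat_lit 393) (nat_lit 376)))) (XT.nd (nat_lit 156) (nat_lit 228) (nat_lit 0) (XT.nd (nat_lit 78) (nat_lit 228) (nat_lit 0) (XT.lf (nat_lit 0) (nat_lit 518271021) (nat_lit 228) (nat_lit 5013421772) (nat_lit 76) (nat_lit 4255249859) (nat_lit 108) (nat_lit 5) (nat_lit 111) (nat_lit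 5) (nat_lit 109) (nat_lit 5) (nat_lit 432) (nat_lit 393) (nat_lit 375)) (XT.lf (nat_lit 0) (nat_lit 2577455904) (nat_lit 228) (nat_lit 1695531521) (nat_lit 304) (nat_lit 5753085125) (nat_lit 105) (nat_lit 5) (nat_lit 108) (nat_lit 5) (nat_lit 109) (nat_lit 5) (nat_lit 433) (nat_lit 393) (nat_lit 374))) (XT.nd (nat_lit 78) (nat_lit 76) (nat_lit 0) (XT.lf (nat_lit 0) (nat_lit 244492219) (nat_lit 152) (nat_lit 7987186463) (nat_lit 228) (nat_lit 2044673233) (nat_lit 103) (nat_lit 5) (nat_lit 105) (nat_lit 5) (nat_lit 106) (nat_lit 4) (nat_lit 434) (nat_lit 393) (nat_lit 373)) (XT.lf (nat_lit 0) (nat_lit 1836493761) (nat_lit 228) (nat_lit 2186069614) (nat_lit 76) (nat_lit 6512816856) (nat_lit 102) (nat_lit 5) (nat_lit 105) (nat_lit 5) (nat_lit 103) (nat_lit 5) (nat_lit 435) (nat_lit 393) (nat_lit 372)))))) (XT.nd (nat_lit 624) (nat_lit 1064) (nat_lit 0) (XT.nd (nat_lit 312) (nat_lit 608) (nat_lit 0)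 (XT.nd (nat_lit 156) (nat_lit 228) (nat_lit 0) (XT.nd (nat_lit 78) (nat_lit 152) (nat_lit 0) (XT.lf (nat_lit 0) (nat_lit 5836414685) (nat_lit 304) (nat_lit 4764526540) (nat_lit 76) (nat_lit 205076528) (nat_lit 99) (nat_lit 5) (nat_lit 103) (nat_lit 5) (nat_lit 100) (nat_lit 4) (nat_lit 436) (nat_lit 393) (nat_lit 371)) (XT.lf (nat_lit 0) (nat_lit 3546516972) (nat_lit 152) (nat_lit 6545907429) (nat_lit 228) (nat_lit 994962165) (nat_lit 97) (nat_lit 5) (nat_lit 99) (nat_lit 5) (nat_lit 100) (nat_lit 4) (nat_lit 437) (nat_lit 393) (nat_lit 370))) (XT.nd (nat_lit 78) (nat_lit 0) (nat_lit 0) (XT.lf (nat_lit 0) (nat_lit 867455695) (nat_lit 152) (nat_lit 2202589233) (nat_lit 228) (nat_lit 8310633215) (nat_lit 94) (nat_lit 5) (nat_lit 96) (nat_lit 5) (nat_lit 97) (nat_lit 5) (nat_lit 438) (nat_lit 393) (nat_lit 369)) (XT.lf (nat_lit 0) (nat_lit 7370519075) (nat_lit 228) (nat_lit 1949800861) (nat_lit 76)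 (nat_lit 2364219621) (nat_lit 94) (nat_lit 5) (nat_lit 97) (nat_lit 5) (nat_lit 95) (nat_lit 4) (nat_lit 439) (nat_lit 393) (nat_lit 368)))) (XT.nd (nat_lit 156) (nat_lit 228) (nat_lit 0) (XT.nd (nat_lit 78) (nat_lit 228) (nat_lit 0) (XT.lf (nat_lit 0) (nat_lit 7069737230) (nat_lit 152) (nat_lit 4866612559) (nat_lit 228) (nat_lit 64730943) (nat_lit 92) (nat_lit 5) (nat_lit 94) (nat_lit 5) (nat_lit 95) (nat_lit 4) (nat_lit 440) (nat_lit 393) (nat_lit 367)) (XT.lf (nat_lit 0) (nat_lit 4177904656) (nat_lit 152) (nat_lit 81565290) (nat_lit 228) (nat_lit 8070390597) (nat_lit 89) (nat_lit 5) (nat_lit 91) (nat_lit 5) (nat_lit 92) (nat_lit 5) (nat_lit 441) (nat_lit 393) (nat_lit 366))) (XT.nd (nat_lit 78) (nat_lit 76) (nat_lit 0) (XT.lf (nat_lit 0) (nat_lit 1032579402) (nat_lit 152) (nat_lit 7848702444) (nat_lit 228) (nat_lit 3789568502) (nat_lit 87) (nat_lit 5) (nat_lit 89) (nat_lit 5) (nat_lit 90) (nat_lit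 4) (nat_lit 442) (nat_lit 393) (nat_lit 365)) (XT.lf (nat_lit 0) (nat_lit 730247662) (nat_lit 228) (nat_lit 2241499229) (nat_lit 76) (nat_lit 10054218443) (nat_lit 86) (nat_lit 5) (nat_lit 89) (nat_lit 5) (nat_lit 87) (nat_lit 5) (nat_lit 443) (nat_lit 393) (nat_lit 364))))) (XT.nd (nat_lit 312) (nat_lit 608) (nat_lit 0) (XT.nd (nat_lit 156) (nat_lit 228) (nat_lit 0) (XT.nd (nat_lit 78) (nat_lit 76) (nat_lit 0) (XT.lf (nat_lit 0) (nat_lit 5413999121) (nat_lit 228) (nat_lit 5778285137) (nat_lit 76) (nat_lit 2200183153) (nat_lit 84) (nat_lit 5) (nat_lit 87) (nat_lit 5) (nat_lit 85) (nat_lit 4) (nat_lit 444) (nat_lit 393) (nat_lit 363)) (XT.lf (nat_lit 0) (nat_lit 4192649245) (nat_lit 76) (nat_lit 6203233230) (nat_lit 152) (nat_lit 3378217269) (nat_lit 83) (nat_lit 5) (nat_lit 84) (nat_lit 5) (nat_lit 85) (nat_lit 4) (nat_lit 445) (nat_lit 393) (nat_lit 362))) (XT.nd (nat_lit 78) (nat_lit 0) (nat_lit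 0) (XT.lf (nat_lit 0) (nat_lit 527773142) (nat_lit 152) (nat_lit 897070860) (nat_lit 228) (nat_lit 12747874701) (nat_lit 80) (nat_lit 5) (nat_lit 82) (nat_lit 5) (nat_lit 83) (nat_lit 5) (nat_lit 446) (nat_lit 393) (nat_lit 361)) (XT.lf (nat_lit 0) (nat_lit 6504725073) (nat_lit 228) (nat_lit 3397456910) (nat_lit 76) (nat_lit 4678809795) (nat_lit 80) (nat_lit 5) (nat_lit 83) (nat_lit 5) (nat_lit 81) (nat_lit 4) (nat_lit 447) (nat_lit 393) (nat_lit 360)))) (XT.nd (nat_lit 156) (nat_lit 304) (nat_lit 0) (XT.nd (nat_lit 78) (nat_lit 228) (nat_lit 0) (XT.lf (nat_lit 0) (nat_lit 7434818116) (nat_lit 76) (nat_lit 4451033080) (nat_lit 152) (nat_lit 3121466709) (nat_lit 79) (nat_lit 5) (nat_lit 80) (nat_lit 5) (nat_lit 81) (nat_lit 4) (nat_lit 448) (nat_lit 393) (nat_lit 359)) (XT.lf (nat_lit 0) (nat_lit 2063964629) (nat_lit 228) (nat_lit 12074332106) (nat_lit 76) (nat_lit 1312565868) (nat_lit 76) (nat_lit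 5) (nat_lit 79) (nat_lit 5) (nat_lit 77) (nat_lit 4) (nat_lit 449) (nat_lit 393) (nat_lit 358))) (XT.nd (nat_lit 78) (nat_lit 304) (nat_lit 0) (XT.lf (nat_lit 0) (nat_lit 7524455448) (nat_lit 228) (nat_lit 1052258569) (nat_lit 76) (nat_lit 7331279139) (nat_lit 76) (nat_lit 5) (nat_lit 79) (nat_lit 5) (nat_lit 77) (nat_lit 4) (nat_lit 450) (nat_lit 393) (nat_lit 357)) (XT.nd (nat_lit 78) (nat_lit 228) (nat_lit 0) (XT.lf (nat_lit 0) (nat_lit 10719478495) (nat_lit 76) (nat_lit 2627163508) (nat_lit 152) (nat_lit 3036906277) (nat_lit 75) (nat_lit 5) (nat_lit 76) (nat_lit 5) (nat_lit 77) (nat_lit 4) (nat_lit 451) (nat_lit 393) (nat_lit 356)) (XT.lf (nat_lit 0) (nat_lit 2589859050) (nat_lit 228) (nat_lit 10688013315) (nat_lit 76) (nat_lit 3598234285) (nat_lit 72) (nat_lit 5) (nat_lit 75) (nat_lit 5) (nat_lit 73) (nat_lit 4) (nat_lit 452) (nat_lit 393) (nat_lit 355))))))))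
noncomputable def xc156 : XT := (XT.nd (nat_lit 1248) (nat_lit 1140) (nat_lit 0) (XT.nd (nat_lit 624) (nat_lit 684) (nat_lit 0) (XT.nd (nat_lit 312) (nat_lit 228) (nat_lit 0) (XT.nd (nat_lit 156) (nat_lit 304) (nat_lit 0) (XT.nd (nat_lit 78) (nat_lit 0) (nat_lit 0) (XT.lf (nat_lit 0) (nat_lit 1241023320) (nat_lit 76) (nat_lit 7236877704) (nat_lit 152) (nat_lit 8908804114) (nat_lit 71) (nat_lit 5) (nat_lit 72) (nat_lit 5) (nat_lit 73) (nat_lit 4) (nat_lit 453) (nat_lit 393) (nat_lit 354)) (XT.lf (nat_lit 0) (nat_lit 13994636115) (nat_lit 76) (nat_lit 770253455) (nat_lit 152) (nat_lit 3152718076) (nat_lit 71) (nat_lit 5) (nat_lit 72) (nat_lit 5) (nat_lit 73) (nat_lit 4) (nat_lit 454) (nat_lit 393) (nat_lit 353))) (XT.nd (nat_lit 78) (nat_lit 76) (nat_lit 0) (XT.lf (nat_lit 0) (nat_lit 2961405002) (nat_lit 228) (nat_lit 9549773353) (nat_lit 76) (nat_lit 5953482740) (nat_lit 68) (nat_lit 5) (nat_lit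 71) (nat_lit 5) (nat_lit 69) (nat_lit 4) (nat_lit 455) (nat_lit 393) (nat_lit 352)) (XT.lf (nat_lit 0) (nat_lit 3399513601) (nat_lit 76) (nat_lit 5935382979) (nat_lit 152) (nat_lit 9698606864) (nat_lit 67) (nat_lit 5) (nat_lit 68) (nat_lit 5) (nat_lit 69) (nat_lit 4) (nat_lit 456) (nat_lit 393) (nat_lit 351)))) (XT.nd (nat_lit 156) (nat_lit 76) (nat_lit 0) (XT.nd (nat_lit 78) (nat_lit 152) (nat_lit 0) (XT.lf (nat_lit 0) (nat_lit 16133324381) (nat_lit 152) (nat_lit 2452021155) (nat_lit 0) (nat_lit 1040130377) (nat_lit 67) (nat_lit 5) (nat_lit 69) (nat_lit 4) (nat_lit 67) (nat_lit 4) (nat_lit 457) (nat_lit 393) (nat_lit 350)) (XT.lf (nat_lit 0) (nat_lit 3138742892) (nat_lit 152) (nat_lit 8759296528) (nat_lit 76) (nat_lit 8336101260) (nat_lit 65) (nat_lit 5) (nat_lit 67) (nat_lit 5) (nat_lit 66) (nat_lit 4) (nat_lit 458) (nat_lit 393) (nat_lit 349))) (XT.nd (nat_lit 78) (nat_lit 0) (nat_lit 0) (XT.lf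 (nat_lit 0) (nat_lit 5290546210) (nat_lit 76) (nat_lit 4748480227) (nat_lit 152) (nat_lit 10828590590) (nat_lit 64) (nat_lit 5) (nat_lit 65) (nat_lit 5) (nat_lit 66) (nat_lit 4) (nat_lit 459) (nat_lit 393) (nat_lit 348)) (XT.lf (nat_lit 0) (nat_lit 17408863283) (nat_lit 152) (nat_lit 1357040788) (nat_lit 0) (nat_lit 2760637055) (nat_lit 64) (nat_lit 5) (nat_lit 66) (nat_lit 4) (nat_lit 64) (nat_lit 4) (nat_lit 460) (nat_lit 393) (nat_lit 347))))) (XT.nd (nat_lit 312) (nat_lit 304) (nat_lit 0) (XT.nd (nat_lit 156) (nat_lit 152) (nat_lit 0) (XT.nd (nat_lit 78) (nat_lit 76) (nat_lit 0) (XT.lf (nat_lit 0) (nat_lit 3066243319) (nat_lit 152) (nat_lit 8445129963) (nat_lit 76) (nat_lit 10693192533) (nat_lit 62) (nat_lit 5) (nat_lit 64) (nat_lit 5) (nat_lit 63) (nat_lit 4) (nat_lit 461) (nat_lit 393) (nat_lit 346)) (XT.lf (nat_lit 0) (nat_lit 6785851359) (nat_lit 76) (nat_lit 3748560568) (nat_lit 152) (nat_lit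 12375533817) (nat_lit 61) (nat_lit 5) (nat_lit 62) (nat_lit 5) (nat_lit 63) (nat_lit 4) (nat_lit 462) (nat_lit 393) (nat_lit 345))) (XT.nd (nat_lit 78) (nat_lit 152) (nat_lit 0) (XT.lf (nat_lit 0) (nat_lit 18524463047) (nat_lit 152) (nat_lit 770156786) (nat_lit 0) (nat_lit 4348551869) (nat_lit 61) (nat_lit 5) (nat_lit 63) (nat_lit 4) (nat_lit 61) (nat_lit 4) (nat_lit 463) (nat_lit 393) (nat_lit 344)) (XT.lf (nat_lit 0) (nat_lit 2668513917) (nat_lit 152) (nat_lit 8773497230) (nat_lit 76) (nat_lit 12956716006) (nat_lit 59) (nat_lit 5) (nat_lit 61) (nat_lit 5) (nat_lit 60) (nat_lit 4) (nat_lit 464) (nat_lit 393) (nat_lit 343)))) (XT.nd (nat_lit 156) (nat_lit 228) (nat_lit 0) (XT.nd (nat_lit 78) (nat_lit 0) (nat_lit 0) (XT.lf (nat_lit 0) (nat_lit 7717327136) (nat_lit 76) (nat_lit 3027100913) (nat_lit 152) (nat_lit 14439869670) (nat_lit 58) (nat_lit 5) (nat_lit 59) (nat_lit 5) (nat_lit 60) (nat_lit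 4) (nat_lit 465) (nat_lit 393) (nat_lit 342)) (XT.lf (nat_lit 0) (nat_lit 19403654089) (nat_lit 152) (nat_lit 879019883) (nat_lit 0) (nat_lit 5717497636) (nat_lit 58) (nat_lit 5) (nat_lit 60) (nat_lit 4) (nat_lit 58) (nat_lit 4) (nat_lit 466) (nat_lit 393) (nat_lit 341))) (XT.nd (nat_lit 78) (nat_lit 76) (nat_lit 0) (XT.lf (nat_lit 0) (nat_lit 1845191331) (nat_lit 152) (nat_lit 9959490559) (nat_lit 76) (nat_lit 15037946008) (nat_lit 56) (nat_lit 5) (nat_lit 58) (nat_lit 5) (nat_lit 57) (nat_lit 4) (nat_lit 467) (nat_lit 393) (nat_lit 340)) (XT.lf (nat_lit 0) (nat_lit 7865030444) (nat_lit 76) (nat_lit 2701054447) (nat_lit 152) (nat_lit 17151776376) (nat_lit 55) (nat_lit 5) (nat_lit 56) (nat_lit 5) (nat_lit 57) (nat_lit 4) (nat_lit 468) (nat_lit 393) (nat_lit 339)))))) (XT.nd (nat_lit 624) (nat_lit 608) (nat_lit 0) (XT.nd (nat_lit 312) (nat_lit 304) (nat_lit 0) (XT.nd (nat_lit 156) (nat_lit 76) (nat_lit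 0) (XT.nd (nat_lit 78) (nat_lit 152) (nat_lit 0) (XT.lf (nat_lit 0) (nat_lit 19942551988) (nat_lit 152) (nat_lit 1927648546) (nat_lit 0) (nat_lit 6755679826) (nat_lit 55) (nat_lit 5) (nat_lit 57) (nat_lit 4) (nat_lit 55) (nat_lit 4) (nat_lit 469) (nat_lit 393) (nat_lit 338)) (XT.lf (nat_lit 0) (nat_lit 464197544) (nat_lit 152) (nat_lit 12281319064) (nat_lit 76) (nat_lit 16820504944) (nat_lit 53) (nat_lit 5) (nat_lit 55) (nat_lit 5) (nat_lit 54) (nat_lit 4) (nat_lit 470) (nat_lit 393) (nat_lit 337))) (XT.nd (nat_lit 78) (nat_lit 0) (nat_lit 0) (XT.lf (nat_lit 0) (nat_lit 6941861728) (nat_lit 76) (nat_lit 2920891775) (nat_lit 152) (nat_lit 20679025724) (nat_lit 52) (nat_lit 5) (nat_lit 53) (nat_lit 5) (nat_lit 54) (nat_lit 4) (nat_lit 471) (nat_lit 393) (nat_lit 336)) (XT.lf (nat_lit 0) (nat_lit 20002137933) (nat_lit 152) (nat_lit 4232840825) (nat_lit 0) (nat_lit 7317801402) (nat_lit 52) (nat_lit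 5) (nat_lit 54) (nat_lit 4) (nat_lit 52) (nat_lit 4) (nat_lit 472) (nat_lit 393) (nat_lit 335)))) (XT.nd (nat_lit 156) (nat_lit 76) (nat_lit 0) (XT.nd (nat_lit 78) (nat_lit 152) (nat_lit 0) (XT.lf (nat_lit 0) (nat_lit 16476700693) (nat_lit 76) (nat_lit 14423631170) (nat_lit 76) (nat_lit 1701407652) (nat_lit 51) (nat_lit 4) (nat_lit 52) (nat_lit 5) (nat_lit 52) (nat_lit 4) (nat_lit 473) (nat_lit 393) (nat_lit 334)) (XT.lf (nat_lit 0) (nat_lit 4574010159) (nat_lit 76) (nat_lit 3880778387) (nat_lit 152) (nat_lit 25237061535) (nat_lit 49) (nat_lit 5) (nat_lit 50) (nat_lit 5) (nat_lit 51) (nat_lit 4) (nat_lit 474) (nat_lit 393) (nat_lit 333))) (XT.nd (nat_lit 78) (nat_lit 76) (nat_lit 0) (XT.lf (nat_lit 0) (nat_lit 19398304410) (nat_lit 152) (nat_lit 8205124847) (nat_lit 0) (nat_lit 7214808242) (nat_lit 49) (nat_lit 5) (nat_lit 51) (nat_lit 4) (nat_lit 49) (nat_lit 4) (nat_lit 475) (nat_lit 393) (nat_lit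 332)) (XT.lf (nat_lit 0) (nat_lit 14038412188) (nat_lit 76) (nat_lit 17082793903) (nat_lit 76) (nat_lit 4868128017) (nat_lit 48) (nat_lit 4) (nat_lit 49) (nat_lit 5) (nat_lit 49) (nat_lit 4) (nat_lit 476) (nat_lit 393) (nat_lit 331))))) (XT.nd (nat_lit 312) (nat_lit 304) (nat_lit 0) (XT.nd (nat_lit 156) (nat_lit 152) (nat_lit 0) (XT.nd (nat_lit 78) (nat_lit 0) (nat_lit 0) (XT.lf (nat_lit 0) (nat_lit 275969780) (nat_lit 76) (nat_lit 5831503932) (nat_lit 152) (nat_lit 31101913075) (nat_lit 46) (nat_lit 5) (nat_lit 47) (nat_lit 5) (nat_lit 48) (nat_lit 4) (nat_lit 477) (nat_lit 393) (nat_lit 330)) (XT.lf (nat_lit 0) (nat_lit 17889053583) (nat_lit 152) (nat_lit 14375517543) (nat_lit 0) (nat_lit 6200841027) (nat_lit 46) (nat_lit 5) (nat_lit 48) (nat_lit 4) (nat_lit 46) (nat_lit 4) (nat_lit 478) (nat_lit 393) (nat_lit 329))) (XT.nd (nat_lit 78) (nat_lit 76) (nat_lit 0) (XT.lf (nat_lit 0) (nat_lit 9420326274)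 (nat_lit 76) (nat_lit 21034018559) (nat_lit 76) (nat_lit 9320162599) (nat_lit 45) (nat_lit 4) (nat_lit 46) (nat_lit 5) (nat_lit 46) (nat_lit 4) (nat_lit 479) (nat_lit 393) (nat_lit 328)) (XT.lf (nat_lit 0) (nat_lit 2618309075) (nat_lit 152) (nat_lit 6370744645) (nat_lit 76) (nat_lit 32148081072) (nat_lit 44) (nat_lit 5) (nat_lit 46) (nat_lit 5) (nat_lit 45) (nat_lit 4) (nat_lit 480) (nat_lit 393) (nat_lit 327)))) (XT.nd (nat_lit 156) (nat_lit 152) (nat_lit 0) (XT.nd (nat_lit 78) (nat_lit 76) (nat_lit 0) (XT.lf (nat_lit 0) (nat_lit 15158064445) (nat_lit 152) (nat_lit 23429710801) (nat_lit 0) (nat_lit 3956600090) (nat_lit 43) (nat_lit 5) (nat_lit 45) (nat_lit 4) (nat_lit 43) (nat_lit 4) (nat_lit 481) (nat_lit 393) (nat_lit 326)) (XT.lf (nat_lit 0) (nat_lit 1899185423) (nat_lit 76) (nat_lit 26666651247) (nat_lit 76) (nat_lit 15444089999) (nat_lit 42) (nat_lit 4) (nat_lit 43) (nat_lit 5) (nat_lit 43)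 (nat_lit 4) (nat_lit 482) (nat_lit 393) (nat_lit 325))) (XT.nd (nat_lit 78) (nat_lit 152) (nat_lit 0) (XT.lf (nat_lit 0) (nat_lit 29218018611) (nat_lit 76) (nat_lit 13777897383) (nat_lit 76) (nat_lit 2535243857) (nat_lit 42) (nat_lit 4) (nat_lit 43) (nat_lit 5) (nat_lit 43) (nat_lit 4) (nat_lit 483) (nat_lit 393) (nat_lit 324)) (XT.nd (nat_lit 78) (nat_lit 0) (nat_lit 0) (XT.lf (nat_lit 0) (nat_lit 10793626228) (nat_lit 152) (nat_lit 36251750882) (nat_lit 0) (nat_lit 68112867) (nat_lit 40) (nat_lit 5) (nat_lit 42) (nat_lit 4) (nat_lit 40) (nat_lit 4) (nat_lit 484) (nat_lit 393) (nat_lit 323)) (XT.lf (nat_lit 0) (nat_lit 25167027019) (nat_lit 152) (nat_lit 9158510108) (nat_lit 0) (nat_lit 14424157193) (nat_lit 40) (nat_lit 5) (nat_lit 42) (nat_lit 4) (nat_lit 40) (nat_lit 4) (nat_lit 485) (nat_lit 393) (nat_lit 322))))))))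
noncomputable def xc157 : XT := (XT.nd (nat_lit 1248) (nat_lit 836) (nat_lit 0) (XT.nd (nat_lit 624) (nat_lit 456) (nat_lit 0) (XT.nd (nat_lit 312) (nat_lit 228) (nat_lit 0) (XT.nd (nat_lit 156) (nat_lit 152) (nat_lit 0) (XT.nd (nat_lit 78) (nat_lit 76) (nat_lit 0) (XT.lf (nat_lit 0) (nat_lit 19841444412) (nat_lit 76) (nat_lit 20686120537) (nat_lit 76) (nat_lit 9926720744) (nat_lit 39) (nat_lit 4) (nat_lit 40) (nat_lit 5) (nat_lit 40) (nat_lit 4) (nat_lit 486) (nat_lit 393) (nat_lit 321)) (XT.lf (nat_lit 0) (nat_lit 4387170174) (nat_lit 152) (nat_lit 1781443761) (nat_lit 76) (nat_lit 46066230686) (nat_lit 38) (nat_lit 5) (nat_lit 40) (nat_lit 5) (nat_lit 39) (nat_lit 4) (nat_lit 487) (nat_lit 393) (nat_lit 320))) (XT.nd (nat_lit 78) (nat_lit 76) (nat_lit 0) (XT.lf (nat_lit 0) (nat_lit 19650671475) (nat_lit 152) (nat_lit 25042895893) (nat_lit 0) (nat_lit 9374351680) (nat_lit 37) (nat_lit 5) (nat_lit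 39) (nat_lit 4) (nat_lit 37) (nat_lit 4) (nat_lit 488) (nat_lit 393) (nat_lit 319)) (XT.lf (nat_lit 0) (nat_lit 5435762918) (nat_lit 76) (nat_lit 30418967173) (nat_lit 76) (nat_lit 20129048133) (nat_lit 36) (nat_lit 4) (nat_lit 37) (nat_lit 5) (nat_lit 37) (nat_lit 4) (nat_lit 489) (nat_lit 393) (nat_lit 318)))) (XT.nd (nat_lit 156) (nat_lit 76) (nat_lit 0) (XT.nd (nat_lit 78) (nat_lit 152) (nat_lit 0) (XT.lf (nat_lit 0) (nat_lit 38229945125) (nat_lit 76) (nat_lit 15024540680) (nat_lit 76) (nat_lit 4721669978) (nat_lit 36) (nat_lit 4) (nat_lit 37) (nat_lit 5) (nat_lit 37) (nat_lit 4) (nat_lit 490) (nat_lit 393) (nat_lit 317)) (XT.lf (nat_lit 0) (nat_lit 11274478000) (nat_lit 152) (nat_lit 47325005272) (nat_lit 0) (nat_lit 1450472650) (nat_lit 34) (nat_lit 5) (nat_lit 36) (nat_lit 4) (nat_lit 34) (nat_lit 4) (nat_lit 491) (nat_lit 393) (nat_lit 316))) (XT.nd (nat_lit 78) (nat_lit 76) (nat_lit 0)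 (XT.lf (nat_lit 0) (nat_lit 28460607127) (nat_lit 152) (nat_lit 15110112548) (nat_lit 0) (nat_lit 18625413644) (nat_lit 34) (nat_lit 5) (nat_lit 36) (nat_lit 4) (nat_lit 34) (nat_lit 4) (nat_lit 492) (nat_lit 393) (nat_lit 315)) (XT.lf (nat_lit 0) (nat_lit 19260150474) (nat_lit 76) (nat_lit 27511030576) (nat_lit 76) (nat_lit 17665181730) (nat_lit 33) (nat_lit 4) (nat_lit 34) (nat_lit 5) (nat_lit 34) (nat_lit 4) (nat_lit 493) (nat_lit 393) (nat_lit 314))))) (XT.nd (nat_lit 312) (nat_lit 228) (nat_lit 0) (XT.nd (nat_lit 156) (nat_lit 76) (nat_lit 0) (XT.nd (nat_lit 78) (nat_lit 152) (nat_lit 0) (XT.lf (nat_lit 0) (nat_lit 55802854580) (nat_lit 76) (nat_lit 10415350002) (nat_lit 76) (nat_lit 559353189) (nat_lit 33) (nat_lit 4) (nat_lit 34) (nat_lit 5) (nat_lit 34) (nat_lit 4) (nat_lit 494) (nat_lit 393) (nat_lit 313)) (XT.lf (nat_lit 0) (nat_lit 17335729225) (nat_lit 152) (nat_lit 43922091392) (nat_lit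 0) (nat_lit 7939861090) (nat_lit 31) (nat_lit 5) (nat_lit 33) (nat_lit 4) (nat_lit 31) (nat_lit 4) (nat_lit 495) (nat_lit 393) (nat_lit 312))) (XT.nd (nat_lit 78) (nat_lit 76) (nat_lit 0) (XT.lf (nat_lit 0) (nat_lit 36432593495) (nat_lit 152) (nat_lit 8261509500) (nat_lit 0) (nat_lit 27027959166) (nat_lit 31) (nat_lit 5) (nat_lit 33) (nat_lit 4) (nat_lit 31) (nat_lit 4) (nat_lit 496) (nat_lit 393) (nat_lit 311)) (XT.lf (nat_lit 0) (nat_lit 30079651438) (nat_lit 76) (nat_lit 26842061389) (nat_lit 76) (nat_lit 17429078303) (nat_lit 30) (nat_lit 4) (nat_lit 31) (nat_lit 5) (nat_lit 31) (nat_lit 4) (nat_lit 497) (nat_lit 393) (nat_lit 310)))) (XT.nd (nat_lit 156) (nat_lit 76) (nat_lit 0) (XT.nd (nat_lit 78) (nat_lit 76) (nat_lit 0) (XT.lf (nat_lit 0) (nat_lit 1391948479) (nat_lit 152) (nat_lit 6567439900) (nat_lit 76) (nat_lit 69145034231) (nat_lit 29) (nat_lit 5) (nat_lit 31) (nat_lit 5) (nat_lit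 30) (nat_lit 4) (nat_lit 498) (nat_lit 393) (nat_lit 309)) (XT.lf (nat_lit 0) (nat_lit 21262736414) (nat_lit 152) (nat_lit 46400785056) (nat_lit 0) (nat_lit 12283206080) (nat_lit 28) (nat_lit 5) (nat_lit 30) (nat_lit 4) (nat_lit 28) (nat_lit 4) (nat_lit 499) (nat_lit 393) (nat_lit 308))) (XT.nd (nat_lit 78) (nat_lit 76) (nat_lit 0) (XT.lf (nat_lit 0) (nat_lit 42339946206) (nat_lit 152) (nat_lit 7227010153) (nat_lit 0) (nat_lit 33353547329) (nat_lit 28) (nat_lit 5) (nat_lit 30) (nat_lit 4) (nat_lit 28) (nat_lit 4) (nat_lit 500) (nat_lit 393) (nat_lit 307)) (XT.lf (nat_lit 0) (nat_lit 34965403684) (nat_lit 76) (nat_lit 30022334634) (nat_lit 76) (nat_lit 21029394288) (nat_lit 27) (nat_lit 4) (nat_lit 28) (nat_lit 5) (nat_lit 28) (nat_lit 4) (nat_lit 501) (nat_lit 393) (nat_lit 306)))))) (XT.nd (nat_lit 624) (nat_lit 380) (nat_lit 0) (XT.nd (nat_lit 312) (nat_lit 228) (nat_lit 0) (XT.nd (nat_lit 156)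 (nat_lit 76) (nat_lit 0) (XT.nd (nat_lit 78) (nat_lit 152) (nat_lit 0) (XT.lf (nat_lit 0) (nat_lit 79460136809) (nat_lit 76) (nat_lit 9401471075) (nat_lit 76) (nat_lit 402300759) (nat_lit 27) (nat_lit 4) (nat_lit 28) (nat_lit 5) (nat_lit 28) (nat_lit 4) (nat_lit 502) (nat_lit 393) (nat_lit 305)) (XT.lf (nat_lit 0) (nat_lit 21287213621) (nat_lit 152) (nat_lit 58622722277) (nat_lit 0) (nat_lit 12710924458) (nat_lit 25) (nat_lit 5) (nat_lit 27) (nat_lit 4) (nat_lit 25) (nat_lit 4) (nat_lit 503) (nat_lit 393) (nat_lit 304))) (XT.nd (nat_lit 78) (nat_lit 76) (nat_lit 0) (XT.lf (nat_lit 0) (nat_lit 44342791858) (nat_lit 152) (nat_lit 16026661682) (nat_lit 0) (nat_lit 35761121011) (nat_lit 25) (nat_lit 5) (nat_lit 27) (nat_lit 4) (nat_lit 25) (nat_lit 4) (nat_lit 504) (nat_lit 393) (nat_lit 303)) (XT.lf (nat_lit 0) (nat_lit 29592663883) (nat_lit 76) (nat_lit 39394063971) (nat_lit 76) (nat_lit 30807267712)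 (nat_lit 24) (nat_lit 4) (nat_lit 25) (nat_lit 5) (nat_lit 25) (nat_lit 4) (nat_lit 505) (nat_lit 393) (nat_lit 302)))) (XT.nd (nat_lit 156) (nat_lit 76) (nat_lit 0) (XT.nd (nat_lit 78) (nat_lit 152) (nat_lit 0) (XT.lf (nat_lit 0) (nat_lit 77996543056) (nat_lit 76) (nat_lit 17111725907) (nat_lit 76) (nat_lit 8520048303) (nat_lit 24) (nat_lit 4) (nat_lit 25) (nat_lit 5) (nat_lit 25) (nat_lit 4) (nat_lit 506) (nat_lit 393) (nat_lit 301)) (XT.lf (nat_lit 0) (nat_lit 14823918069) (nat_lit 152) (nat_lit 86160945064) (nat_lit 0) (nat_lit 6636940446) (nat_lit 22) (nat_lit 5) (nat_lit 24) (nat_lit 4) (nat_lit 22) (nat_lit 4) (nat_lit 507) (nat_lit 393) (nat_lit 300))) (XT.nd (nat_lit 78) (nat_lit 76) (nat_lit 0) (XT.lf (nat_lit 0) (nat_lit 39745312070) (nat_lit 152) (nat_lit 40473722835) (nat_lit 0) (nat_lit 31554117758) (nat_lit 22) (nat_lit 5) (nat_lit 24) (nat_lit 4) (nat_lit 22) (nat_lit 4) (nat_lit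 508) (nat_lit 393) (nat_lit 299)) (XT.lf (nat_lit 0) (nat_lit 7695444734) (nat_lit 76) (nat_lit 58313512813) (nat_lit 76) (nat_lit 50118302606) (nat_lit 21) (nat_lit 4) (nat_lit 22) (nat_lit 5) (nat_lit 22) (nat_lit 4) (nat_lit 509) (nat_lit 393) (nat_lit 298))))) (XT.nd (nat_lit 312) (nat_lit 228) (nat_lit 0) (XT.nd (nat_lit 156) (nat_lit 152) (nat_lit 0) (XT.nd (nat_lit 78) (nat_lit 0) (nat_lit 0) (XT.lf (nat_lit 0) (nat_lit 59630294664) (nat_lit 76) (nat_lit 34617359900) (nat_lit 76) (nat_lit 26418325032) (nat_lit 21) (nat_lit 4) (nat_lit 22) (nat_lit 5) (nat_lit 22) (nat_lit 4) (nat_lit 510) (nat_lit 393) (nat_lit 297)) (XT.lf (nat_lit 0) (nat_lit 114116237295) (nat_lit 76) (nat_lit 9759598835) (nat_lit 76) (nat_lit 1556921432) (nat_lit 21) (nat_lit 4) (nat_lit 22) (nat_lit 5) (nat_lit 22) (nat_lit 4) (nat_lit 511) (nat_lit 393) (nat_lit 296))) (XT.nd (nat_lit 78) (nat_lit 0) (nat_lit 0) (XT.lf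 (nat_lit 0) (nat_lit 24664504927) (nat_lit 152) (nat_lit 88859948029) (nat_lit 0) (nat_lit 16849127323) (nat_lit 19) (nat_lit 5) (nat_lit 21) (nat_lit 4) (nat_lit 19) (nat_lit 4) (nat_lit 512) (nat_lit 393) (nat_lit 295)) (XT.lf (nat_lit 0) (nat_lit 52477744874) (nat_lit 152) (nat_lit 38406549162) (nat_lit 0) (nat_lit 44659220712) (nat_lit 19) (nat_lit 5) (nat_lit 21) (nat_lit 4) (nat_lit 19) (nat_lit 4) (nat_lit 513) (nat_lit 393) (nat_lit 294)))) (XT.nd (nat_lit 156) (nat_lit 152) (nat_lit 0) (XT.nd (nat_lit 78) (nat_lit 0) (nat_lit 0) (XT.lf (nat_lit 0) (nat_lit 15007761306) (nat_lit 76) (nat_lit 66887512109) (nat_lit 76) (nat_lit 59065991224) (nat_lit 18) (nat_lit 4) (nat_lit 19) (nat_lit 5) (nat_lit 19) (nat_lit 4) (nat_lit 514) (nat_lit 393) (nat_lit 293)) (XT.lf (nat_lit 0) (nat_lit 72384754571) (nat_lit 76) (nat_lit 41029009064) (nat_lit 76) (nat_lit 33204634158) (nat_lit 18) (nat_lit 4)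 (nat_lit 19) (nat_lit 5) (nat_lit 19) (nat_lit 4) (nat_lit 515) (nat_lit 393) (nat_lit 292))) (XT.nd (nat_lit 78) (nat_lit 152) (nat_lit 0) (XT.lf (nat_lit 0) (nat_lit 132591148555) (nat_lit 76) (nat_lit 13897650531) (nat_lit 76) (nat_lit 6070557510) (nat_lit 18) (nat_lit 4) (nat_lit 19) (nat_lit 5) (nat_lit 19) (nat_lit 4) (nat_lit 516) (nat_lit 393) (nat_lit 291)) (XT.nd (nat_lit 78) (nat_lit 0) (nat_lit 0) (XT.lf (nat_lit 0) (nat_lit 22517471898) (nat_lit 152) (nat_lit 121161015356) (nat_lit 0) (nat_lit 15060632181) (nat_lit 16) (nat_lit 5) (nat_lit 18) (nat_lit 4) (nat_lit 16) (nat_lit 4) (nat_lit 517) (nat_lit 393) (nat_lit 290)) (XT.lf (nat_lit 0) (nat_lit 52883686672) (nat_lit 152) (nat_lit 66887069235) (nat_lit 0) (nat_lit 45424498944) (nat_lit 16) (nat_lit 5) (nat_lit 18) (nat_lit 4) (nat_lit 16) (nat_lit 4) (nat_lit 518) (nat_lit 393) (nat_lit 289))))))))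
noncomputable def xc158 : XT := (XT.nd (nat_lit 1248) (nat_lit 380) (nat_lit 0) (XT.nd (nat_lit 624) (nat_lit 228) (nat_lit 0) (XT.nd (nat_lit 312) (nat_lit 228) (nat_lit 0) (XT.nd (nat_lit 156) (nat_lit 0) (nat_lit 0) (XT.nd (nat_lit 78) (nat_lit 76) (nat_lit 0) (XT.lf (nat_lit 0) (nat_lit 84750354129) (nat_lit 152) (nat_lit 9935805635) (nat_lit 0) (nat_lit 77288930201) (nat_lit 16) (nat_lit 5) (nat_lit 18) (nat_lit 4) (nat_lit 16) (nat_lit 4) (nat_lit 519) (nat_lit 393) (nat_lit 288)) (XT.lf (nat_lit 0) (nat_lit 51475924756) (nat_lit 76) (nat_lit 67521105977) (nat_lit 76) (nat_lit 60057552334) (nat_lit 15) (nat_lit 4) (nat_lit 16) (nat_lit 5) (nat_lit 16) (nat_lit 4) (nat_lit 520) (nat_lit 393) (nat_lit 287))) (XT.nd (nat_lit 78) (nat_lit 0) (nat_lit 0) (XT.lf (nat_lit 0) (nat_lit 116269101778) (nat_lit 76) (nat_lit 38838477063) (nat_lit 76) (nat_lit 31372895120) (nat_lit 15) (nat_lit 4) (nat_lit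 16) (nat_lit 5) (nat_lit 16) (nat_lit 4) (nat_lit 521) (nat_lit 393) (nat_lit 286)) (XT.lf (nat_lit 0) (nat_lit 184269472294) (nat_lit 76) (nat_lit 8738248724) (nat_lit 76) (nat_lit 1270735068) (nat_lit 15) (nat_lit 4) (nat_lit 16) (nat_lit 5) (nat_lit 16) (nat_lit 4) (nat_lit 522) (nat_lit 393) (nat_lit 285)))) (XT.nd (nat_lit 156) (nat_lit 76) (nat_lit 0) (XT.nd (nat_lit 78) (nat_lit 0) (nat_lit 0) (XT.lf (nat_lit 0) (nat_lit 30578592687) (nat_lit 152) (nat_lit 148338489027) (nat_lit 0) (nat_lit 23464922797) (nat_lit 13) (nat_lit 5) (nat_lit 15) (nat_lit 4) (nat_lit 13) (nat_lit 4) (nat_lit 523) (nat_lit 393) (nat_lit 284)) (XT.lf (nat_lit 0) (nat_lit 64277799926) (nat_lit 152) (nat_lit 89434421606) (nat_lit 0) (nat_lit 57162461349) (nat_lit 13) (nat_lit 5) (nat_lit 15) (nat_lit 4) (nat_lit 13) (nat_lit 4) (nat_lit 524) (nat_lit 393) (nat_lit 283))) (XT.nd (nat_lit 78) (nat_lit 76) (nat_lit 0)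 (XT.lf (nat_lit 0) (nat_lit 99647284061) (nat_lit 152) (nat_lit 27615089041) (nat_lit 0) (nat_lit 92530356258) (nat_lit 13) (nat_lit 5) (nat_lit 15) (nat_lit 4) (nat_lit 13) (nat_lit 4) (nat_lit 525) (nat_lit 393) (nat_lit 282)) (XT.lf (nat_lit 0) (nat_lit 38498902878) (nat_lit 76) (nat_lit 98873431038) (nat_lit 76) (nat_lit 91754989687) (nat_lit 12) (nat_lit 4) (nat_lit 13) (nat_lit 5) (nat_lit 13) (nat_lit 4) (nat_lit 526) (nat_lit 393) (nat_lit 281))))) (XT.nd (nat_lit 312) (nat_lit 76) (nat_lit 0) (XT.nd (nat_lit 156) (nat_lit 152) (nat_lit 0) (XT.nd (nat_lit 78) (nat_lit 0) (nat_lit 0) (XT.lf (nat_lit 0) (nat_lit 108849275213) (nat_lit 76) (nat_lit 68588279628) (nat_lit 76) (nat_lit 61468396802) (nat_lit 12) (nat_lit 4) (nat_lit 13) (nat_lit 5) (nat_lit 13) (nat_lit 4) (nat_lit 527) (nat_lit 393) (nat_lit 280)) (XT.lf (nat_lit 0) (nat_lit 182690449293) (nat_lit 76) (nat_lit 36802486264) (nat_lit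 76) (nat_lit 29681230605) (nat_lit 12) (nat_lit 4) (nat_lit 13) (nat_lit 5) (nat_lit 13) (nat_lit 4) (nat_lit 528) (nat_lit 393) (nat_lit 279))) (XT.nd (nat_lit 78) (nat_lit 0) (nat_lit 0) (XT.lf (nat_lit 0) (nat_lit 190427673) (nat_lit 76) (nat_lit 3376884908) (nat_lit 152) (nat_lit 256386079587) (nat_lit 10) (nat_lit 5) (nat_lit 11) (nat_lit 5) (nat_lit 12) (nat_lit 4) (nat_lit 529) (nat_lit 393) (nat_lit 278)) (XT.lf (nat_lit 0) (nat_lit 39107750976) (nat_lit 152) (nat_lit 199734980406) (nat_lit 0) (nat_lit 32323171625) (nat_lit 10) (nat_lit 5) (nat_lit 12) (nat_lit 4) (nat_lit 10) (nat_lit 4) (nat_lit 530) (nat_lit 393) (nat_lit 277)))) (XT.nd (nat_lit 156) (nat_lit 76) (nat_lit 0) (XT.nd (nat_lit 78) (nat_lit 0) (nat_lit 0) (XT.lf (nat_lit 0) (nat_lit 76468495906) (nat_lit 152) (nat_lit 136785592140) (nat_lit 0) (nat_lit 69682787121) (nat_lit 10) (nat_lit 5) (nat_lit 12) (nat_lit 4) (nat_lit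 10) (nat_lit 4) (nat_lit 531) (nat_lit 393) (nat_lit 276)) (XT.lf (nat_lit 0) (nat_lit 115685778888) (nat_lit 152) (nat_lit 70712197566) (nat_lit 0) (nat_lit 108898994453) (nat_lit 10) (nat_lit 5) (nat_lit 12) (nat_lit 4) (nat_lit 10) (nat_lit 4) (nat_lit 532) (nat_lit 393) (nat_lit 275))) (XT.nd (nat_lit 78) (nat_lit 76) (nat_lit 0) (XT.lf (nat_lit 0) (nat_lit 156852974407) (nat_lit 152) (nat_lit 1357479077) (nat_lit 0) (nat_lit 150065165542) (nat_lit 10) (nat_lit 5) (nat_lit 12) (nat_lit 4) (nat_lit 10) (nat_lit 4) (nat_lit 533) (nat_lit 393) (nat_lit 274)) (XT.lf (nat_lit 0) (nat_lit 73805944767) (nat_lit 76) (nat_lit 127414472464) (nat_lit 76) (nat_lit 120625687953) (nat_lit 9) (nat_lit 4) (nat_lit 10) (nat_lit 5) (nat_lit 10) (nat_lit 4) (nat_lit 534) (nat_lit 393) (nat_lit 273)))))) (XT.nd (nat_lit 624) (nat_lit 228) (nat_lit 0) (XT.nd (nat_lit 312) (nat_lit 0) (nat_lit 0) (XT.nd (nat_lit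 156) (nat_lit 152) (nat_lit 0) (XT.nd (nat_lit 78) (nat_lit 0) (nat_lit 0) (XT.lf (nat_lit 0) (nat_lit 152753729940) (nat_lit 76) (nat_lit 95065231479) (nat_lit 76) (nat_lit 88275517780) (nat_lit 9) (nat_lit 4) (nat_lit 10) (nat_lit 5) (nat_lit 10) (nat_lit 4) (nat_lit 535) (nat_lit 393) (nat_lit 272)) (XT.lf (nat_lit 0) (nat_lit 235628962968) (nat_lit 76) (nat_lit 61108698091) (nat_lit 76) (nat_lit 54318099452) (nat_lit 9) (nat_lit 4) (nat_lit 10) (nat_lit 5) (nat_lit 10) (nat_lit 4) (nat_lit 536) (nat_lit 393) (nat_lit 271))) (XT.nd (nat_lit 78) (nat_lit 152) (nat_lit 0) (XT.lf (nat_lit 0) (nat_lit 322628965834) (nat_lit 76) (nat_lit 25464023412) (nat_lit 76) (nat_lit 18672581973) (nat_lit 9) (nat_lit 4) (nat_lit 10) (nat_lit 5) (nat_lit 10) (nat_lit 4) (nat_lit 537) (nat_lit 393) (nat_lit 270)) (XT.lf (nat_lit 0) (nat_lit 18835820624) (nat_lit 152) (nat_lit 352009349407) (nat_lit 0) (nat_lit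 12367016713) (nat_lit 7) (nat_lit 5) (nat_lit 9) (nat_lit 4) (nat_lit 7) (nat_lit 4) (nat_lit 538) (nat_lit 393) (nat_lit 269)))) (XT.nd (nat_lit 156) (nat_lit 0) (nat_lit 0) (XT.nd (nat_lit 78) (nat_lit 0) (nat_lit 0) (XT.lf (nat_lit 0) (nat_lit 58760287543) (nat_lit 152) (nat_lit 289356376254) (nat_lit 0) (nat_lit 52290755589) (nat_lit 7) (nat_lit 5) (nat_lit 9) (nat_lit 4) (nat_lit 7) (nat_lit 4) (nat_lit 539) (nat_lit 393) (nat_lit 268)) (XT.lf (nat_lit 0) (nat_lit 100672400598) (nat_lit 152) (nat_lit 223588266661) (nat_lit 0) (nat_lit 94202175270) (nat_lit 7) (nat_lit 5) (nat_lit 9) (nat_lit 4) (nat_lit 7) (nat_lit 4) (nat_lit 540) (nat_lit 393) (nat_lit 267))) (XT.nd (nat_lit 78) (nat_lit 0) (nat_lit 0) (XT.lf (nat_lit 0) (nat_lit 144671950534) (nat_lit 152) (nat_lit 154548429891) (nat_lit 0) (nat_lit 138201064850) (nat_lit 7) (nat_lit 5) (nat_lit 9) (nat_lit 4) (nat_lit 7) (nat_lit 4) (nat_lit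 541) (nat_lit 393) (nat_lit 266)) (XT.lf (nat_lit 0) (nat_lit 190863698184) (nat_lit 152) (nat_lit 82072485380) (nat_lit 0) (nat_lit 184392183589) (nat_lit 7) (nat_lit 5) (nat_lit 9) (nat_lit 4) (nat_lit 7) (nat_lit 4) (nat_lit 542) (nat_lit 393) (nat_lit 265))))) (XT.nd (nat_lit 312) (nat_lit 152) (nat_lit 0) (XT.nd (nat_lit 156) (nat_lit 0) (nat_lit 0) (XT.nd (nat_lit 78) (nat_lit 76) (nat_lit 0) (XT.lf (nat_lit 0) (nat_lit 239357623900) (nat_lit 152) (nat_lit 5987871355) (nat_lit 0) (nat_lit 232885510343) (nat_lit 7) (nat_lit 5) (nat_lit 9) (nat_lit 4) (nat_lit 7) (nat_lit 4) (nat_lit 543) (nat_lit 393) (nat_lit 264)) (XT.lf (nat_lit 0) (nat_lit 76329589580) (nat_lit 76) (nat_lit 215131318636) (nat_lit 76) (nat_lit 208658634638) (nat_lit 6) (nat_lit 4) (nat_lit 7) (nat_lit 5) (nat_lit 7) (nat_lit 4) (nat_lit 544) (nat_lit 393) (nat_lit 263))) (XT.nd (nat_lit 78) (nat_lit 0) (nat_lit 0) (XT.lf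 (nat_lit 0) (nat_lit 162956633967) (nat_lit 76) (nat_lit 183307188500) (nat_lit 76) (nat_lit 176833961226) (nat_lit 6) (nat_lit 4) (nat_lit 7) (nat_lit 5) (nat_lit 7) (nat_lit 4) (nat_lit 545) (nat_lit 393) (nat_lit 262)) (XT.lf (nat_lit 0) (nat_lit 253901530603) (nat_lit 76) (nat_lit 149898740609) (nat_lit 76) (nat_lit 143424995928) (nat_lit 6) (nat_lit 4) (nat_lit 7) (nat_lit 5) (nat_lit 7) (nat_lit 4) (nat_lit 546) (nat_lit 393) (nat_lit 261)))) (XT.nd (nat_lit 156) (nat_lit 152) (nat_lit 0) (XT.nd (nat_lit 78) (nat_lit 0) (nat_lit 0) (XT.lf (nat_lit 0) (nat_lit 349380814958) (nat_lit 76) (nat_lit 114826431038) (nat_lit 76) (nat_lit 108352193589) (nat_lit 6) (nat_lit 4) (nat_lit 7) (nat_lit 5) (nat_lit 7) (nat_lit 4) (nat_lit 547) (nat_lit 393) (nat_lit 260)) (XT.lf (nat_lit 0) (nat_lit 449621818660) (nat_lit 76) (nat_lit 78006754288) (nat_lit 76) (nat_lit 71532047537) (nat_lit 6) (nat_lit 4)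 (nat_lit 7) (nat_lit 5) (nat_lit 7) (nat_lit 4) (nat_lit 548) (nat_lit 393) (nat_lit 259))) (XT.nd (nat_lit 78) (nat_lit 152) (nat_lit 0) (XT.lf (nat_lit 0) (nat_lit 554863210765) (nat_lit 76) (nat_lit 39352044463) (nat_lit 76) (nat_lit 32876890757) (nat_lit 6) (nat_lit 4) (nat_lit 7) (nat_lit 5) (nat_lit 7) (nat_lit 4) (nat_lit 549) (nat_lit 393) (nat_lit 258)) (XT.nd (nat_lit 78) (nat_lit 0) (nat_lit 0) (XT.lf (nat_lit 0) (nat_lit 7624370461) (nat_lit 152) (nat_lit 647324698389) (nat_lit 0) (nat_lit 1457152005) (nat_lit 4) (nat_lit 5) (nat_lit 6) (nat_lit 4) (nat_lit 4) (nat_lit 4) (nat_lit 550) (nat_lit 393) (nat_lit 257)) (XT.lf (nat_lit 0) (nat_lit 50928689152) (nat_lit 152) (nat_lit 591375133771) (nat_lit 0) (nat_lit 44761084601) (nat_lit 4) (nat_lit 5) (nat_lit 6) (nat_lit 4) (nat_lit 4) (nat_lit 4) (nat_lit 551) (nat_lit 393) (nat_lit 256))))))))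
noncomputable def xc159 : XT := (XT.nd (nat_lit 52494) (nat_lit 0) (nat_lit 6688) (XT.nd (nat_lit 51870) (nat_lit 0) (nat_lit 9956) (XT.nd (nat_lit 51558) (nat_lit 0) (nat_lit 12768) (XT.nd (nat_lit 156) (nat_lit 0) (nat_lit 0) (XT.nd (nat_lit 78) (nat_lit 0) (nat_lit 0) (XT.lf (nat_lit 0) (nat_lit 96392960059) (nat_lit 152) (nat_lit 532638843860) (nat_lit 0) (nat_lit 90224987797) (nat_lit 4) (nat_lit 5) (nat_lit 6) (nat_lit 4) (nat_lit 4) (nat_lit 4) (nat_lit 552) (nat_lit 393) (nat_lit 255)) (XT.lf (nat_lit 0) (nat_lit 144125431446) (nat_lit 152) (nat_lit 470975980347) (nat_lit 0) (nat_lit 137957108982) (nat_lit 4) (nat_lit 5) (nat_lit 6) (nat_lit 4) (nat_lit 4) (nat_lit 4) (nat_lit 553) (nat_lit 393) (nat_lit 254))) (XT.nd (nat_lit 78) (nat_lit 0) (nat_lit 0) (XT.lf (nat_lit 0) (nat_lit 194239752053) (nat_lit 152) (nat_lit 406239726891) (nat_lit 0) (nat_lit 188071096064) (nat_lit 4) (nat_lit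 5) (nat_lit 6) (nat_lit 4) (nat_lit 4) (nat_lit 4) (nat_lit 554) (nat_lit 393) (nat_lit 253)) (XT.lf (nat_lit 0) (nat_lit 246855241692) (nat_lit 152) (nat_lit 338275949553) (nat_lit 0) (nat_lit 240686268060) (nat_lit 4) (nat_lit 5) (nat_lit 6) (nat_lit 4) (nat_lit 4) (nat_lit 4) (nat_lit 555) (nat_lit 393) (nat_lit 252)))) (XT.nd (nat_lit 156) (nat_lit 1368) (nat_lit 0) (XT.nd (nat_lit 78) (nat_lit 76) (nat_lit 0) (XT.lf (nat_lit 0) (nat_lit 861995743) (nat_lit 532) (nat_lit 1283048004) (nat_lit 532) (nat_lit 1283048004) (nat_lit 191) (nat_lit 4) (nat_lit 198) (nat_lit 5) (nat_lit 198) (nat_lit 4) (nat_lit 412) (nat_lit 394) (nat_lit 394)) (XT.lf (nat_lit 0) (nat_lit 822304661) (nat_lit 608) (nat_lit 285895794) (nat_lit 76) (nat_lit 5822207321) (nat_lit 190) (nat_lit 5) (nat_lit 198) (nat_lit 5) (nat_lit 191) (nat_lit 4) (nat_lit 413) (nat_lit 394) (nat_lit 393))) (XT.nd (nat_lit 78) (nat_lit 760)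 (nat_lit 0) (XT.lf (nat_lit 0) (nat_lit 4205692598) (nat_lit 684) (nat_lit 2265334300) (nat_lit 0) (nat_lit 539641152) (nat_lit 182) (nat_lit 5) (nat_lit 191) (nat_lit 4) (nat_lit 182) (nat_lit 4) (nat_lit 414) (nat_lit 394) (nat_lit 392)) (XT.lf (nat_lit 0) (nat_lit 542816655) (nat_lit 760) (nat_lit 4256437092) (nat_lit 76) (nat_lit 2300149556) (nat_lit 172) (nat_lit 5) (nat_lit 182) (nat_lit 5) (nat_lit 173) (nat_lit 4) (nat_lit 415) (nat_lit 394) (nat_lit 391))))) (XT.nd (nat_lit 312) (nat_lit 1140) (nat_lit 0) (XT.nd (nat_lit 156) (nat_lit 912) (nat_lit 0) (XT.nd (nat_lit 78) (nat_lit 0) (nat_lit 0) (XT.lf (nat_lit 0) (nat_lit 910218343) (nat_lit 760) (nat_lit 2944165325) (nat_lit 836) (nat_lit 3341375829) (nat_lit 162) (nat_lit 5) (nat_lit 172) (nat_lit 5) (nat_lit 173) (nat_lit 4) (nat_lit 416) (nat_lit 394) (nat_lit 390)) (XT.lf (nat_lit 0) (nat_lit 6318699420) (nat_lit 760) (nat_lit 927536546)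 (nat_lit 836) (nat_lit 54977313) (nat_lit 162) (nat_lit 5) (nat_lit 172) (nat_lit 5) (nat_lit 173) (nat_lit 4) (nat_lit 417) (nat_lit 394) (nat_lit 389))) (XT.nd (nat_lit 78) (nat_lit 380) (nat_lit 0) (XT.lf (nat_lit 0) (nat_lit 3225663701) (nat_lit 532) (nat_lit 2918187291) (nat_lit 76) (nat_lit 1268521252) (nat_lit 155) (nat_lit 5) (nat_lit 162) (nat_lit 5) (nat_lit 156) (nat_lit 4) (nat_lit 418) (nat_lit 394) (nat_lit 388)) (XT.lf (nat_lit 0) (nat_lit 2652985026) (nat_lit 380) (nat_lit 3941284811) (nat_lit 456) (nat_lit 938498290) (nat_lit 150) (nat_lit 5) (nat_lit 155) (nat_lit 5) (nat_lit 156) (nat_lit 4) (nat_lit 419) (nat_lit 394) (nat_lit 387)))) (XT.nd (nat_lit 156) (nat_lit 684) (nat_lit 0) (XT.nd (nat_lit 78) (nat_lit 0) (nat_lit 0) (XT.lf (nat_lit 0) (nat_lit 764097527) (nat_lit 380) (nat_lit 1545428405) (nat_lit 456) (nat_lit 5351913544) (nat_lit 144) (nat_lit 5) (nat_lit 149) (nat_lit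 5) (nat_lit 150) (nat_lit 5) (nat_lit 420) (nat_lit 394) (nat_lit 386)) (XT.lf (nat_lit 0) (nat_lit 5645893102) (nat_lit 456) (nat_lit 1136963010) (nat_lit 76) (nat_lit 1015056236) (nat_lit 144) (nat_lit 5) (nat_lit 150) (nat_lit 5) (nat_lit 145) (nat_lit 4) (nat_lit 421) (nat_lit 394) (nat_lit 385))) (XT.nd (nat_lit 78) (nat_lit 304) (nat_lit 0) (XT.lf (nat_lit 0) (nat_lit 1135232284) (nat_lit 380) (nat_lit 3083016126) (nat_lit 76) (nat_lit 3723726684) (nat_lit 139) (nat_lit 5) (nat_lit 144) (nat_lit 5) (nat_lit 140) (nat_lit 5) (nat_lit 422) (nat_lit 394) (nat_lit 384)) (XT.lf (nat_lit 0) (nat_lit 2996364629) (nat_lit 304) (nat_lit 1451342298) (nat_lit 380) (nat_lit 3647120726) (nat_lit 135) (nat_lit 5) (nat_lit 139) (nat_lit 5) (nat_lit 140) (nat_lit 5) (nat_lit 423) (nat_lit 394) (nat_lit 383)))))) (XT.nd (nat_lit 624) (nat_lit 1444) (nat_lit 0) (XT.nd (nat_lit 312) (nat_lit 836) (nat_lit 0)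 (XT.nd (nat_lit 156) (nat_lit 608) (nat_lit 0) (XT.nd (nat_lit 78) (nat_lit 76) (nat_lit 0) (XT.lf (nat_lit 0) (nat_lit 1075823941) (nat_lit 304) (nat_lit 6812643243) (nat_lit 380) (nat_lit 368731847) (nat_lit 131) (nat_lit 5) (nat_lit 135) (nat_lit 5) (nat_lit 136) (nat_lit 4) (nat_lit 424) (nat_lit 394) (nat_lit 382)) (XT.lf (nat_lit 0) (nat_lit 2958362257) (nat_lit 380) (nat_lit 931352063) (nat_lit 76) (nat_lit 4536425754) (nat_lit 130) (nat_lit 5) (nat_lit 135) (nat_lit 5) (nat_lit 131) (nat_lit 5) (nat_lit 425) (nat_lit 394) (nat_lit 381))) (XT.nd (nat_lit 78) (nat_lit 304) (nat_lit 0) (XT.lf (nat_lit 0) (nat_lit 5643253761) (nat_lit 304) (nat_lit 761992978) (nat_lit 380) (nat_lit 2199695836) (nat_lit 126) (nat_lit 5) (nat_lit 130) (nat_lit 5) (nat_lit 131) (nat_lit 5) (nat_lit 426) (nat_lit 394) (nat_lit 380)) (XT.lf (nat_lit 0) (nat_lit 1185847473) (nat_lit 304) (nat_lit 5111492440) (nat_lit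 76) (nat_lit 2494716870) (nat_lit 122) (nat_lit 5) (nat_lit 126) (nat_lit 5) (nat_lit 123) (nat_lit 5) (nat_lit 427) (nat_lit 394) (nat_lit 379)))) (XT.nd (nat_lit 156) (nat_lit 532) (nat_lit 0) (XT.nd (nat_lit 78) (nat_lit 0) (nat_lit 0) (XT.lf (nat_lit 0) (nat_lit 1607361280) (nat_lit 304) (nat_lit 3029599428) (nat_lit 380) (nat_lit 4351259045) (nat_lit 118) (nat_lit 5) (nat_lit 122) (nat_lit 5) (nat_lit 123) (nat_lit 5) (nat_lit 428) (nat_lit 394) (nat_lit 378)) (XT.lf (nat_lit 0) (nat_lit 8238855186) (nat_lit 380) (nat_lit 526706316) (nat_lit 76) (nat_lit 429724689) (nat_lit 118) (nat_lit 5) (nat_lit 123) (nat_lit 5) (nat_lit 119) (nat_lit 4) (nat_lit 429) (nat_lit 394) (nat_lit 377))) (XT.nd (nat_lit 78) (nat_lit 228) (nat_lit 0) (XT.lf (nat_lit 0) (nat_lit 2568718481) (nat_lit 304) (nat_lit 2778635117) (nat_lit 76) (nat_lit 4061119483) (nat_lit 114) (nat_lit 5) (nat_lit 118) (nat_lit 5) (nat_lit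 115) (nat_lit 5) (nat_lit 430) (nat_lit 394) (nat_lit 376)) (XT.lf (nat_lit 0) (nat_lit 4496958386) (nat_lit 228) (nat_lit 1710819577) (nat_lit 304) (nat_lit 3425273350) (nat_lit 111) (nat_lit 5) (nat_lit 114) (nat_lit 5) (nat_lit 115) (nat_lit 5) (nat_lit 431) (nat_lit 394) (nat_lit 375))))) (XT.nd (nat_lit 312) (nat_lit 760) (nat_lit 0) (XT.nd (nat_lit 156) (nat_lit 456) (nat_lit 0) (XT.nd (nat_lit 78) (nat_lit 0) (nat_lit 0) (XT.lf (nat_lit 0) (nat_lit 163086541) (nat_lit 228) (nat_lit 7630439294) (nat_lit 76) (nat_lit 2074799273) (nat_lit 108) (nat_lit 5) (nat_lit 111) (nat_lit 5) (nat_lit 109) (nat_lit 5) (nat_lit 432) (nat_lit 394) (nat_lit 374)) (XT.lf (nat_lit 0) (nat_lit 3825518278) (nat_lit 228) (nat_lit 202337904) (nat_lit 76) (nat_lit 6084215460) (nat_lit 108) (nat_lit 5) (nat_lit 111) (nat_lit 5) (nat_lit 109) (nat_lit 5) (nat_lit 433) (nat_lit 394) (nat_lit 373))) (XT.nd (nat_lit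 78) (nat_lit 228) (nat_lit 0) (XT.lf (nat_lit 0) (nat_lit 7686442447) (nat_lit 228) (nat_lit 3027601) (nat_lit 304) (nat_lit 2677620221) (nat_lit 105) (nat_lit 5) (nat_lit 108) (nat_lit 5) (nat_lit 109) (nat_lit 5) (nat_lit 434) (nat_lit 394) (nat_lit 372)) (XT.lf (nat_lit 0) (nat_lit 1128946123) (nat_lit 228) (nat_lit 5363570918) (nat_lit 76) (nat_lit 4138840667) (nat_lit 102) (nat_lit 5) (nat_lit 105) (nat_lit 5) (nat_lit 103) (nat_lit 5) (nat_lit 435) (nat_lit 394) (nat_lit 371)))) (XT.nd (nat_lit 156) (nat_lit 532) (nat_lit 0) (XT.nd (nat_lit 78) (nat_lit 0) (nat_lit 0) (XT.lf (nat_lit 0) (nat_lit 2682249477) (nat_lit 228) (nat_lit 2342364109) (nat_lit 304) (nat_lit 5882596294) (nat_lit 99) (nat_lit 5) (nat_lit 102) (nat_lit 5) (nat_lit 103) (nat_lit 5) (nat_lit 436) (nat_lit 394) (nat_lit 370)) (XT.lf (nat_lit 0) (nat_lit 9140899227) (nat_lit 304) (nat_lit 69106459) (nat_lit 76) (nat_lit 1985561093)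 (nat_lit 99) (nat_lit 5) (nat_lit 103) (nat_lit 5) (nat_lit 100) (nat_lit 4) (nat_lit 437) (nat_lit 394) (nat_lit 369))) (XT.nd (nat_lit 78) (nat_lit 304) (nat_lit 0) (XT.lf (nat_lit 0) (nat_lit 1982104180) (nat_lit 228) (nat_lit 2948448546) (nat_lit 76) (nat_lit 6562242213) (nat_lit 96) (nat_lit 5) (nat_lit 99) (nat_lit 5) (nat_lit 97) (nat_lit 5) (nat_lit 438) (nat_lit 394) (nat_lit 368)) (XT.nd (nat_lit 78) (nat_lit 152) (nat_lit 0) (XT.lf (nat_lit 0) (nat_lit 5784092578) (nat_lit 152) (nat_lit 366375336) (nat_lit 228) (nat_lit 5652795586) (nat_lit 94) (nat_lit 5) (nat_lit 96) (nat_lit 5) (nat_lit 97) (nat_lit 5) (nat_lit 439) (nat_lit 394) (nat_lit 367)) (XT.lf (nat_lit 0) (nat_lit 2793868205) (nat_lit 152) (nat_lit 7805281330) (nat_lit 228) (nat_lit 1526514143) (nat_lit 92) (nat_lit 5) (nat_lit 94) (nat_lit 5) (nat_lit 95) (nat_lit 4) (nat_lit 440) (nat_lit 394) (nat_lit 366))))))))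
noncomputable def xc160 : XT := (XT.nd (nat_lit 1248) (nat_lit 1216) (nat_lit 0) (XT.nd (nat_lit 624) (nat_lit 836) (nat_lit 0) (XT.nd (nat_lit 312) (nat_lit 380) (nat_lit 0) (XT.nd (nat_lit 156) (nat_lit 380) (nat_lit 0) (XT.nd (nat_lit 78) (nat_lit 152) (nat_lit 0) (XT.lf (nat_lit 0) (nat_lit 2734825149) (nat_lit 228) (nat_lit 409062959) (nat_lit 76) (nat_lit 9317180301) (nat_lit 91) (nat_lit 5) (nat_lit 94) (nat_lit 5) (nat_lit 92) (nat_lit 5) (nat_lit 441) (nat_lit 394) (nat_lit 365)) (XT.lf (nat_lit 0) (nat_lit 7242049848) (nat_lit 228) (nat_lit 3760671937) (nat_lit 76) (nat_lit 1805067127) (nat_lit 89) (nat_lit 5) (nat_lit 92) (nat_lit 5) (nat_lit 90) (nat_lit 4) (nat_lit 442) (nat_lit 394) (nat_lit 364))) (XT.nd (nat_lit 78) (nat_lit 228) (nat_lit 0) (XT.lf (nat_lit 0) (nat_lit 5804373229) (nat_lit 152) (nat_lit 6233661559) (nat_lit 228) (nat_lit 1130643314) (nat_lit 87) (nat_lit 5) (nat_lit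 89) (nat_lit 5) (nat_lit 90) (nat_lit 4) (nat_lit 443) (nat_lit 394) (nat_lit 363)) (XT.lf (nat_lit 0) (nat_lit 2302410719) (nat_lit 152) (nat_lit 1126236323) (nat_lit 228) (nat_lit 10115449354) (nat_lit 84) (nat_lit 5) (nat_lit 86) (nat_lit 5) (nat_lit 87) (nat_lit 5) (nat_lit 444) (nat_lit 394) (nat_lit 362)))) (XT.nd (nat_lit 156) (nat_lit 304) (nat_lit 0) (XT.nd (nat_lit 78) (nat_lit 76) (nat_lit 0) (XT.lf (nat_lit 0) (nat_lit 8286226351) (nat_lit 228) (nat_lit 1460423980) (nat_lit 76) (nat_lit 4185294701) (nat_lit 84) (nat_lit 5) (nat_lit 87) (nat_lit 5) (nat_lit 85) (nat_lit 4) (nat_lit 445) (nat_lit 394) (nat_lit 361)) (XT.lf (nat_lit 0) (nat_lit 8934754291) (nat_lit 76) (nat_lit 4529331930) (nat_lit 152) (nat_lit 871231948) (nat_lit 83) (nat_lit 5) (nat_lit 84) (nat_lit 5) (nat_lit 85) (nat_lit 4) (nat_lit 446) (nat_lit 394) (nat_lit 360))) (XT.nd (nat_lit 78) (nat_lit 76) (nat_lit 0) (XT.lf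 (nat_lit 0) (nat_lit 4050542362) (nat_lit 228) (nat_lit 9673157360) (nat_lit 76) (nat_lit 1029872171) (nat_lit 80) (nat_lit 5) (nat_lit 83) (nat_lit 5) (nat_lit 81) (nat_lit 4) (nat_lit 447) (nat_lit 394) (nat_lit 359)) (XT.lf (nat_lit 0) (nat_lit 879219718) (nat_lit 76) (nat_lit 8411289872) (nat_lit 152) (nat_lit 5896447281) (nat_lit 79) (nat_lit 5) (nat_lit 80) (nat_lit 5) (nat_lit 81) (nat_lit 4) (nat_lit 448) (nat_lit 394) (nat_lit 358))))) (XT.nd (nat_lit 312) (nat_lit 532) (nat_lit 0) (XT.nd (nat_lit 156) (nat_lit 76) (nat_lit 0) (XT.nd (nat_lit 78) (nat_lit 228) (nat_lit 0) (XT.lf (nat_lit 0) (nat_lit 12153703314) (nat_lit 76) (nat_lit 2724617432) (nat_lit 152) (nat_lit 759399839) (nat_lit 79) (nat_lit 5) (nat_lit 80) (nat_lit 5) (nat_lit 81) (nat_lit 4) (nat_lit 449) (nat_lit 394) (nat_lit 357)) (XT.lf (nat_lit 0) (nat_lit 4587357246) (nat_lit 228) (nat_lit 8232857512) (nat_lit 76) (nat_lit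 3282131945) (nat_lit 76) (nat_lit 5) (nat_lit 79) (nat_lit 5) (nat_lit 77) (nat_lit 4) (nat_lit 450) (nat_lit 394) (nat_lit 356))) (XT.nd (nat_lit 78) (nat_lit 0) (nat_lit 0) (XT.lf (nat_lit 0) (nat_lit 3232091026) (nat_lit 76) (nat_lit 7023996226) (nat_lit 152) (nat_lit 6329488148) (nat_lit 75) (nat_lit 5) (nat_lit 76) (nat_lit 5) (nat_lit 77) (nat_lit 4) (nat_lit 451) (nat_lit 394) (nat_lit 355)) (XT.lf (nat_lit 0) (nat_lit 15420685340) (nat_lit 76) (nat_lit 853507373) (nat_lit 152) (nat_lit 815477324) (nat_lit 75) (nat_lit 5) (nat_lit 76) (nat_lit 5) (nat_lit 77) (nat_lit 4) (nat_lit 452) (nat_lit 394) (nat_lit 354)))) (XT.nd (nat_lit 156) (nat_lit 228) (nat_lit 0) (XT.nd (nat_lit 78) (nat_lit 76) (nat_lit 0) (XT.lf (nat_lit 0) (nat_lit 5002393107) (nat_lit 228) (nat_lit 6966864733) (nat_lit 76) (nat_lit 5636461519) (nat_lit 72) (nat_lit 5) (nat_lit 75) (nat_lit 5) (nat_lit 73) (nat_lit 4) (nat_lit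 453) (nat_lit 394) (nat_lit 353)) (XT.lf (nat_lit 0) (nat_lit 5489985842) (nat_lit 76) (nat_lit 5651504514) (nat_lit 152) (nat_lit 7002526689) (nat_lit 71) (nat_lit 5) (nat_lit 72) (nat_lit 5) (nat_lit 73) (nat_lit 4) (nat_lit 454) (nat_lit 394) (nat_lit 352))) (XT.nd (nat_lit 78) (nat_lit 228) (nat_lit 0) (XT.lf (nat_lit 0) (nat_lit 17652502940) (nat_lit 152) (nat_lit 41223297) (nat_lit 0) (nat_lit 1012256550) (nat_lit 71) (nat_lit 5) (nat_lit 73) (nat_lit 4) (nat_lit 71) (nat_lit 4) (nat_lit 455) (nat_lit 394) (nat_lit 351)) (XT.lf (nat_lit 0) (nat_lit 5265778051) (nat_lit 228) (nat_lit 5956230697) (nat_lit 76) (nat_lit 8058036886) (nat_lit 68) (nat_lit 5) (nat_lit 71) (nat_lit 5) (nat_lit 69) (nat_lit 4) (nat_lit 456) (nat_lit 394) (nat_lit 350)))))) (XT.nd (nat_lit 624) (nat_lit 608) (nat_lit 0) (XT.nd (nat_lit 312) (nat_lit 304) (nat_lit 0) (XT.nd (nat_lit 156) (nat_lit 152) (nat_lit 0) (XT.nd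 (nat_lit 78) (nat_lit 76) (nat_lit 0) (XT.lf (nat_lit 0) (nat_lit 7574858808) (nat_lit 76) (nat_lit 4342939357) (nat_lit 152) (nat_lit 7961540827) (nat_lit 67) (nat_lit 5) (nat_lit 68) (nat_lit 5) (nat_lit 69) (nat_lit 4) (nat_lit 457) (nat_lit 394) (nat_lit 349)) (XT.lf (nat_lit 0) (nat_lit 1356128309) (nat_lit 76) (nat_lit 17648513979) (nat_lit 76) (nat_lit 1498844563) (nat_lit 66) (nat_lit 4) (nat_lit 67) (nat_lit 5) (nat_lit 67) (nat_lit 4) (nat_lit 458) (nat_lit 394) (nat_lit 348))) (XT.nd (nat_lit 78) (nat_lit 76) (nat_lit 0) (XT.lf (nat_lit 0) (nat_lit 5334474954) (nat_lit 152) (nat_lit 5305175310) (nat_lit 76) (nat_lit 10504230247) (nat_lit 65) (nat_lit 5) (nat_lit 67) (nat_lit 5) (nat_lit 66) (nat_lit 4) (nat_lit 459) (nat_lit 394) (nat_lit 347)) (XT.lf (nat_lit 0) (nat_lit 9384383984) (nat_lit 76) (nat_lit 3158089488) (nat_lit 152) (nat_lit 9268423470) (nat_lit 64) (nat_lit 5) (nat_lit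 65) (nat_lit 5) (nat_lit 66) (nat_lit 4) (nat_lit 460) (nat_lit 394) (nat_lit 346)))) (XT.nd (nat_lit 156) (nat_lit 152) (nat_lit 0) (XT.nd (nat_lit 78) (nat_lit 76) (nat_lit 0) (XT.lf (nat_lit 0) (nat_lit 2365950545) (nat_lit 76) (nat_lit 17883659805) (nat_lit 76) (nat_lit 2254717732) (nat_lit 63) (nat_lit 4) (nat_lit 64) (nat_lit 5) (nat_lit 64) (nat_lit 4) (nat_lit 461) (nat_lit 394) (nat_lit 345)) (XT.lf (nat_lit 0) (nat_lit 5149066889) (nat_lit 152) (nat_lit 5148368591) (nat_lit 76) (nat_lit 12920860465) (nat_lit 62) (nat_lit 5) (nat_lit 64) (nat_lit 5) (nat_lit 63) (nat_lit 4) (nat_lit 462) (nat_lit 394) (nat_lit 344))) (XT.nd (nat_lit 78) (nat_lit 76) (nat_lit 0) (XT.lf (nat_lit 0) (nat_lit 10784177638) (nat_lit 76) (nat_lit 2171712565) (nat_lit 152) (nat_lit 11004793431) (nat_lit 61) (nat_lit 5) (nat_lit 62) (nat_lit 5) (nat_lit 63) (nat_lit 4) (nat_lit 463) (nat_lit 394) (nat_lit 343))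 (XT.lf (nat_lit 0) (nat_lit 2830744314) (nat_lit 76) (nat_lit 18494902472) (nat_lit 76) (nat_lit 3405914982) (nat_lit 60) (nat_lit 4) (nat_lit 61) (nat_lit 5) (nat_lit 61) (nat_lit 4) (nat_lit 464) (nat_lit 394) (nat_lit 342))))) (XT.nd (nat_lit 312) (nat_lit 304) (nat_lit 0) (XT.nd (nat_lit 156) (nat_lit 152) (nat_lit 0) (XT.nd (nat_lit 78) (nat_lit 76) (nat_lit 0) (XT.lf (nat_lit 0) (nat_lit 4629534163) (nat_lit 152) (nat_lit 5660156364) (nat_lit 76) (nat_lit 15237574672) (nat_lit 59) (nat_lit 5) (nat_lit 61) (nat_lit 5) (nat_lit 60) (nat_lit 4) (nat_lit 465) (nat_lit 394) (nat_lit 341)) (XT.lf (nat_lit 0) (nat_lit 11597918645) (nat_lit 76) (nat_lit 1478859499) (nat_lit 152) (nat_lit 13276960328) (nat_lit 58) (nat_lit 5) (nat_lit 59) (nat_lit 5) (nat_lit 60) (nat_lit 4) (nat_lit 466) (nat_lit 394) (nat_lit 340))) (XT.nd (nat_lit 78) (nat_lit 76) (nat_lit 0) (XT.lf (nat_lit 0) (nat_lit 2547088845)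 (nat_lit 76) (nat_lit 19601433387) (nat_lit 76) (nat_lit 5062906828) (nat_lit 57) (nat_lit 4) (nat_lit 58) (nat_lit 5) (nat_lit 58) (nat_lit 4) (nat_lit 467) (nat_lit 394) (nat_lit 339)) (XT.lf (nat_lit 0) (nat_lit 3669761021) (nat_lit 152) (nat_lit 7066288650) (nat_lit 76) (nat_lit 17362078826) (nat_lit 56) (nat_lit 5) (nat_lit 58) (nat_lit 5) (nat_lit 57) (nat_lit 4) (nat_lit 468) (nat_lit 394) (nat_lit 338)))) (XT.nd (nat_lit 156) (nat_lit 152) (nat_lit 0) (XT.nd (nat_lit 78) (nat_lit 76) (nat_lit 0) (XT.lf (nat_lit 0) (nat_lit 11594762008) (nat_lit 76) (nat_lit 1201538096) (nat_lit 152) (nat_lit 16222344116) (nat_lit 55) (nat_lit 5) (nat_lit 56) (nat_lit 5) (nat_lit 57) (nat_lit 4) (nat_lit 469) (nat_lit 394) (nat_lit 337)) (XT.lf (nat_lit 0) (nat_lit 1250340047) (nat_lit 76) (nat_lit 21354033397) (nat_lit 76) (nat_lit 7369552372) (nat_lit 54) (nat_lit 4) (nat_lit 55) (nat_lit 5) (nat_lit 55)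 (nat_lit 4) (nat_lit 470) (nat_lit 394) (nat_lit 336))) (XT.nd (nat_lit 78) (nat_lit 76) (nat_lit 0) (XT.lf (nat_lit 0) (nat_lit 2130434261) (nat_lit 152) (nat_lit 9658861193) (nat_lit 76) (nat_lit 19172863256) (nat_lit 53) (nat_lit 5) (nat_lit 55) (nat_lit 5) (nat_lit 54) (nat_lit 4) (nat_lit 471) (nat_lit 394) (nat_lit 335)) (XT.lf (nat_lit 0) (nat_lit 10473276642) (nat_lit 76) (nat_lit 1497118190) (nat_lit 152) (nat_lit 20017736194) (nat_lit 52) (nat_lit 5) (nat_lit 53) (nat_lit 5) (nat_lit 54) (nat_lit 4) (nat_lit 472) (nat_lit 394) (nat_lit 334)))))))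
noncomputable def xc161 : XT := (XT.nd (nat_lit 1248) (nat_lit 912) (nat_lit 0) (XT.nd (nat_lit 624) (nat_lit 608) (nat_lit 0) (XT.nd (nat_lit 312) (nat_lit 304) (nat_lit 0) (XT.nd (nat_lit 156) (nat_lit 152) (nat_lit 0) (XT.nd (nat_lit 78) (nat_lit 76) (nat_lit 0) (XT.lf (nat_lit 0) (nat_lit 22563209510) (nat_lit 152) (nat_lit 1358245029) (nat_lit 0) (nat_lit 9130904985) (nat_lit 52) (nat_lit 5) (nat_lit 54) (nat_lit 4) (nat_lit 52) (nat_lit 4) (nat_lit 473) (nat_lit 394) (nat_lit 333)) (XT.lf (nat_lit 0) (nat_lit 20336995536) (nat_lit 76) (nat_lit 13642393597) (nat_lit 76) (nat_lit 175724458) (nat_lit 51) (nat_lit 4) (nat_lit 52) (nat_lit 5) (nat_lit 52) (nat_lit 4) (nat_lit 474) (nat_lit 394) (nat_lit 332))) (XT.nd (nat_lit 78) (nat_lit 0) (nat_lit 0) (XT.lf (nat_lit 0) (nat_lit 7840928153) (nat_lit 76) (nat_lit 2568986722) (nat_lit 152) (nat_lit 24889898509) (nat_lit 49) (nat_lit 5) (nat_lit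 50) (nat_lit 5) (nat_lit 51) (nat_lit 4) (nat_lit 475) (nat_lit 394) (nat_lit 331)) (XT.lf (nat_lit 0) (nat_lit 21850026428) (nat_lit 152) (nat_lit 5671251136) (nat_lit 0) (nat_lit 8963772084) (nat_lit 49) (nat_lit 5) (nat_lit 51) (nat_lit 4) (nat_lit 49) (nat_lit 4) (nat_lit 476) (nat_lit 394) (nat_lit 330)))) (XT.nd (nat_lit 156) (nat_lit 76) (nat_lit 0) (XT.nd (nat_lit 78) (nat_lit 152) (nat_lit 0) (XT.lf (nat_lit 0) (nat_lit 17636976784) (nat_lit 76) (nat_lit 16496758911) (nat_lit 76) (nat_lit 3582232714) (nat_lit 48) (nat_lit 4) (nat_lit 49) (nat_lit 5) (nat_lit 49) (nat_lit 4) (nat_lit 477) (nat_lit 394) (nat_lit 329)) (XT.lf (nat_lit 0) (nat_lit 3187858302) (nat_lit 76) (nat_lit 4680097830) (nat_lit 152) (nat_lit 31129136449) (nat_lit 46) (nat_lit 5) (nat_lit 47) (nat_lit 5) (nat_lit 48) (nat_lit 4) (nat_lit 478) (nat_lit 394) (nat_lit 328))) (XT.nd (nat_lit 78) (nat_lit 76) (nat_lit 0)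 (XT.lf (nat_lit 0) (nat_lit 20190780278) (nat_lit 152) (nat_lit 12286365233) (nat_lit 0) (nat_lit 7841165826) (nat_lit 46) (nat_lit 5) (nat_lit 48) (nat_lit 4) (nat_lit 46) (nat_lit 4) (nat_lit 479) (nat_lit 394) (nat_lit 327)) (XT.lf (nat_lit 0) (nat_lit 12653981611) (nat_lit 76) (nat_lit 20706473969) (nat_lit 76) (nat_lit 8333600194) (nat_lit 45) (nat_lit 4) (nat_lit 46) (nat_lit 5) (nat_lit 46) (nat_lit 4) (nat_lit 480) (nat_lit 394) (nat_lit 326))))) (XT.nd (nat_lit 312) (nat_lit 380) (nat_lit 0) (XT.nd (nat_lit 156) (nat_lit 76) (nat_lit 0) (XT.nd (nat_lit 78) (nat_lit 76) (nat_lit 0) (XT.lf (nat_lit 0) (nat_lit 4088347582) (nat_lit 152) (nat_lit 4013912967) (nat_lit 76) (nat_lit 35024768159) (nat_lit 44) (nat_lit 5) (nat_lit 46) (nat_lit 5) (nat_lit 45) (nat_lit 4) (nat_lit 481) (nat_lit 394) (nat_lit 325)) (XT.lf (nat_lit 0) (nat_lit 17252962051) (nat_lit 152) (nat_lit 21923692408) (nat_lit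 0) (nat_lit 5428083571) (nat_lit 43) (nat_lit 5) (nat_lit 45) (nat_lit 4) (nat_lit 43) (nat_lit 4) (nat_lit 482) (nat_lit 394) (nat_lit 324))) (XT.nd (nat_lit 78) (nat_lit 0) (nat_lit 0) (XT.lf (nat_lit 0) (nat_lit 4628463080) (nat_lit 76) (nat_lit 26680122501) (nat_lit 76) (nat_lit 14836108518) (nat_lit 42) (nat_lit 4) (nat_lit 43) (nat_lit 5) (nat_lit 43) (nat_lit 4) (nat_lit 483) (nat_lit 394) (nat_lit 323)) (XT.lf (nat_lit 0) (nat_lit 33187794194) (nat_lit 76) (nat_lit 13209781482) (nat_lit 76) (nat_lit 1347543211) (nat_lit 42) (nat_lit 4) (nat_lit 43) (nat_lit 5) (nat_lit 43) (nat_lit 4) (nat_lit 484) (nat_lit 394) (nat_lit 322)))) (XT.nd (nat_lit 156) (nat_lit 228) (nat_lit 0) (XT.nd (nat_lit 78) (nat_lit 0) (nat_lit 0) (XT.lf (nat_lit 0) (nat_lit 12603948097) (nat_lit 152) (nat_lit 35511630777) (nat_lit 0) (nat_lit 1290048348) (nat_lit 40) (nat_lit 5) (nat_lit 42) (nat_lit 4) (nat_lit 40)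 (nat_lit 4) (nat_lit 485) (nat_lit 394) (nat_lit 321)) (XT.lf (nat_lit 0) (nat_lit 27635512234) (nat_lit 152) (nat_lit 7185285471) (nat_lit 0) (nat_lit 16305869659) (nat_lit 40) (nat_lit 5) (nat_lit 42) (nat_lit 4) (nat_lit 40) (nat_lit 4) (nat_lit 486) (nat_lit 394) (nat_lit 320))) (XT.nd (nat_lit 78) (nat_lit 152) (nat_lit 0) (XT.lf (nat_lit 0) (nat_lit 23225454676) (nat_lit 76) (nat_lit 20518341819) (nat_lit 76) (nat_lit 9173706077) (nat_lit 39) (nat_lit 4) (nat_lit 40) (nat_lit 5) (nat_lit 40) (nat_lit 4) (nat_lit 487) (nat_lit 394) (nat_lit 319)) (XT.lf (nat_lit 0) (nat_lit 460341258) (nat_lit 76) (nat_lit 5305149574) (nat_lit 152) (nat_lit 49023143612) (nat_lit 37) (nat_lit 5) (nat_lit 38) (nat_lit 5) (nat_lit 39) (nat_lit 4) (nat_lit 488) (nat_lit 394) (nat_lit 318)))))) (XT.nd (nat_lit 624) (nat_lit 456) (nat_lit 0) (XT.nd (nat_lit 312) (nat_lit 228) (nat_lit 0) (XT.nd (nat_lit 156) (nat_lit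 152) (nat_lit 0) (XT.nd (nat_lit 78) (nat_lit 76) (nat_lit 0) (XT.lf (nat_lit 0) (nat_lit 21783607823) (nat_lit 152) (nat_lit 23977541020) (nat_lit 0) (nat_lit 10952641924) (nat_lit 37) (nat_lit 5) (nat_lit 39) (nat_lit 4) (nat_lit 37) (nat_lit 4) (nat_lit 489) (nat_lit 394) (nat_lit 317)) (XT.lf (nat_lit 0) (nat_lit 7987671705) (nat_lit 76) (nat_lit 30791015653) (nat_lit 76) (nat_lit 19947714839) (nat_lit 36) (nat_lit 4) (nat_lit 37) (nat_lit 5) (nat_lit 37) (nat_lit 4) (nat_lit 490) (nat_lit 394) (nat_lit 316))) (XT.nd (nat_lit 78) (nat_lit 152) (nat_lit 0) (XT.lf (nat_lit 0) (nat_lit 42312985849) (nat_lit 76) (nat_lit 14681577354) (nat_lit 76) (nat_lit 3826529000) (nat_lit 36) (nat_lit 4) (nat_lit 37) (nat_lit 5) (nat_lit 37) (nat_lit 4) (nat_lit 491) (nat_lit 394) (nat_lit 315)) (XT.lf (nat_lit 0) (nat_lit 12932091250) (nat_lit 152) (nat_lit 47482370034) (nat_lit 0) (nat_lit 2583294597) (nat_lit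 34) (nat_lit 5) (nat_lit 36) (nat_lit 4) (nat_lit 34) (nat_lit 4) (nat_lit 492) (nat_lit 394) (nat_lit 314)))) (XT.nd (nat_lit 156) (nat_lit 152) (nat_lit 0) (XT.nd (nat_lit 78) (nat_lit 76) (nat_lit 0) (XT.lf (nat_lit 0) (nat_lit 30925436864) (nat_lit 152) (nat_lit 13761917699) (nat_lit 0) (nat_lit 20566492245) (nat_lit 34) (nat_lit 5) (nat_lit 36) (nat_lit 4) (nat_lit 34) (nat_lit 4) (nat_lit 493) (nat_lit 394) (nat_lit 313)) (XT.lf (nat_lit 0) (nat_lit 22292927822) (nat_lit 76) (nat_lit 27841317075) (nat_lit 76) (nat_lit 17472707727) (nat_lit 33) (nat_lit 4) (nat_lit 34) (nat_lit 5) (nat_lit 34) (nat_lit 4) (nat_lit 494) (nat_lit 394) (nat_lit 312))) (XT.nd (nat_lit 78) (nat_lit 76) (nat_lit 0) (XT.lf (nat_lit 0) (nat_lit 423194145) (nat_lit 152) (nat_lit 9510265854) (nat_lit 76) (nat_lit 60133845523) (nat_lit 32) (nat_lit 5) (nat_lit 34) (nat_lit 5) (nat_lit 33) (nat_lit 4) (nat_lit 495) (nat_lit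 394) (nat_lit 311)) (XT.lf (nat_lit 0) (nat_lit 19193348240) (nat_lit 152) (nat_lit 44113306043) (nat_lit 0) (nat_lit 9301367243) (nat_lit 31) (nat_lit 5) (nat_lit 33) (nat_lit 4) (nat_lit 31) (nat_lit 4) (nat_lit 496) (nat_lit 394) (nat_lit 310))))) (XT.nd (nat_lit 312) (nat_lit 228) (nat_lit 0) (XT.nd (nat_lit 156) (nat_lit 152) (nat_lit 0) (XT.nd (nat_lit 78) (nat_lit 76) (nat_lit 0) (XT.lf (nat_lit 0) (nat_lit 39197873221) (nat_lit 152) (nat_lit 6765166004) (nat_lit 0) (nat_lit 29297941027) (nat_lit 31) (nat_lit 5) (nat_lit 33) (nat_lit 4) (nat_lit 31) (nat_lit 4) (nat_lit 497) (nat_lit 394) (nat_lit 309)) (XT.lf (nat_lit 0) (nat_lit 33462255900) (nat_lit 76) (nat_lit 27233587454) (nat_lit 76) (nat_lit 17326082693) (nat_lit 30) (nat_lit 4) (nat_lit 31) (nat_lit 5) (nat_lit 31) (nat_lit 4) (nat_lit 498) (nat_lit 394) (nat_lit 308))) (XT.nd (nat_lit 78) (nat_lit 76) (nat_lit 0) (XT.lf (nat_lit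 0) (nat_lit 2359889764) (nat_lit 152) (nat_lit 5076942713) (nat_lit 76) (nat_lit 73477891898) (nat_lit 29) (nat_lit 5) (nat_lit 31) (nat_lit 5) (nat_lit 30) (nat_lit 4) (nat_lit 499) (nat_lit 394) (nat_lit 307)) (XT.lf (nat_lit 0) (nat_lit 23223524063) (nat_lit 152) (nat_lit 46901260025) (nat_lit 0) (nat_lit 13774395231) (nat_lit 28) (nat_lit 5) (nat_lit 30) (nat_lit 4) (nat_lit 28) (nat_lit 4) (nat_lit 500) (nat_lit 394) (nat_lit 306)))) (XT.nd (nat_lit 156) (nat_lit 152) (nat_lit 0) (XT.nd (nat_lit 78) (nat_lit 76) (nat_lit 0) (XT.lf (nat_lit 0) (nat_lit 45311849066) (nat_lit 152) (nat_lit 5855442295) (nat_lit 0) (nat_lit 35856490263) (nat_lit 28) (nat_lit 5) (nat_lit 30) (nat_lit 4) (nat_lit 28) (nat_lit 4) (nat_lit 501) (nat_lit 394) (nat_lit 305)) (XT.lf (nat_lit 0) (nat_lit 38418641939) (nat_lit 76) (nat_lit 30659298388) (nat_lit 76) (nat_lit 21198006280) (nat_lit 27) (nat_lit 4) (nat_lit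 28) (nat_lit 5) (nat_lit 28) (nat_lit 4) (nat_lit 502) (nat_lit 394) (nat_lit 304))) (XT.nd (nat_lit 78) (nat_lit 76) (nat_lit 0) (XT.lf (nat_lit 0) (nat_lit 405009634) (nat_lit 152) (nat_lit 8636673125) (nat_lit 76) (nat_lit 84645054095) (nat_lit 26) (nat_lit 5) (nat_lit 28) (nat_lit 5) (nat_lit 27) (nat_lit 4) (nat_lit 503) (nat_lit 394) (nat_lit 303)) (XT.nd (nat_lit 78) (nat_lit 0) (nat_lit 0) (XT.lf (nat_lit 0) (nat_lit 23164936780) (nat_lit 152) (nat_lit 59902621553) (nat_lit 0) (nat_lit 14143675296) (nat_lit 25) (nat_lit 5) (nat_lit 27) (nat_lit 4) (nat_lit 25) (nat_lit 4) (nat_lit 504) (nat_lit 394) (nat_lit 302)) (XT.lf (nat_lit 0) (nat_lit 47334562382) (nat_lit 152) (nat_lit 15255388254) (nat_lit 0) (nat_lit 38308419553) (nat_lit 25) (nat_lit 5) (nat_lit 27) (nat_lit 4) (nat_lit 25) (nat_lit 4) (nat_lit 505) (nat_lit 394) (nat_lit 301))))))))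
noncomputable def xc162 : XT := (XT.nd (nat_lit 1248) (nat_lit 456) (nat_lit 0) (XT.nd (nat_lit 624) (nat_lit 304) (nat_lit 0) (XT.nd (nat_lit 312) (nat_lit 228) (nat_lit 0) (XT.nd (nat_lit 156) (nat_lit 152) (nat_lit 0) (XT.nd (nat_lit 78) (nat_lit 0) (nat_lit 0) (XT.lf (nat_lit 0) (nat_lit 32619538968) (nat_lit 76) (nat_lit 40578425804) (nat_lit 76) (nat_lit 31547634075) (nat_lit 24) (nat_lit 4) (nat_lit 25) (nat_lit 5) (nat_lit 25) (nat_lit 4) (nat_lit 506) (nat_lit 394) (nat_lit 300)) (XT.lf (nat_lit 0) (nat_lit 83369933914) (nat_lit 76) (nat_lit 17219368045) (nat_lit 76) (nat_lit 8184148792) (nat_lit 24) (nat_lit 4) (nat_lit 25) (nat_lit 5) (nat_lit 25) (nat_lit 4) (nat_lit 507) (nat_lit 394) (nat_lit 299))) (XT.nd (nat_lit 78) (nat_lit 0) (nat_lit 0) (XT.lf (nat_lit 0) (nat_lit 16302204816) (nat_lit 152) (nat_lit 88970614926) (nat_lit 0) (nat_lit 7693218204) (nat_lit 22) (nat_lit 5) (nat_lit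 24) (nat_lit 4) (nat_lit 22) (nat_lit 4) (nat_lit 508) (nat_lit 394) (nat_lit 298)) (XT.lf (nat_lit 0) (nat_lit 42434568953) (nat_lit 152) (nat_lit 41070382890) (nat_lit 0) (nat_lit 33821757679) (nat_lit 22) (nat_lit 5) (nat_lit 24) (nat_lit 4) (nat_lit 22) (nat_lit 4) (nat_lit 509) (nat_lit 394) (nat_lit 297)))) (XT.nd (nat_lit 156) (nat_lit 152) (nat_lit 0) (XT.nd (nat_lit 78) (nat_lit 0) (nat_lit 0) (XT.lf (nat_lit 0) (nat_lit 9484226508) (nat_lit 76) (nat_lit 60515662564) (nat_lit 76) (nat_lit 51899208756) (nat_lit 21) (nat_lit 4) (nat_lit 22) (nat_lit 5) (nat_lit 22) (nat_lit 4) (nat_lit 510) (nat_lit 394) (nat_lit 296)) (XT.lf (nat_lit 0) (nat_lit 63948961337) (nat_lit 76) (nat_lit 35668679429) (nat_lit 76) (nat_lit 27048756539) (nat_lit 21) (nat_lit 4) (nat_lit 22) (nat_lit 5) (nat_lit 22) (nat_lit 4) (nat_lit 511) (nat_lit 394) (nat_lit 295))) (XT.nd (nat_lit 78) (nat_lit 152) (nat_lit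 0) (XT.lf (nat_lit 0) (nat_lit 121095527198) (nat_lit 76) (nat_lit 9600389761) (nat_lit 76) (nat_lit 977162986) (nat_lit 21) (nat_lit 4) (nat_lit 22) (nat_lit 5) (nat_lit 22) (nat_lit 4) (nat_lit 512) (nat_lit 394) (nat_lit 294)) (XT.lf (nat_lit 0) (nat_lit 26533969753) (nat_lit 152) (nat_lit 92008100512) (nat_lit 0) (nat_lit 18318376102) (nat_lit 19) (nat_lit 5) (nat_lit 21) (nat_lit 4) (nat_lit 19) (nat_lit 4) (nat_lit 513) (nat_lit 394) (nat_lit 293))))) (XT.nd (nat_lit 312) (nat_lit 228) (nat_lit 0) (XT.nd (nat_lit 156) (nat_lit 0) (nat_lit 0) (XT.nd (nat_lit 78) (nat_lit 76) (nat_lit 0) (XT.lf (nat_lit 0) (nat_lit 55707574575) (nat_lit 152) (nat_lit 39093690983) (nat_lit 0) (nat_lit 47489126902) (nat_lit 19) (nat_lit 5) (nat_lit 21) (nat_lit 4) (nat_lit 19) (nat_lit 4) (nat_lit 514) (nat_lit 394) (nat_lit 292)) (XT.lf (nat_lit 0) (nat_lit 16971444918) (nat_lit 76) (nat_lit 69614623166) (nat_lit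 76) (nat_lit 61393457378) (nat_lit 18) (nat_lit 4) (nat_lit 19) (nat_lit 5) (nat_lit 19) (nat_lit 4) (nat_lit 515) (nat_lit 394) (nat_lit 291))) (XT.nd (nat_lit 78) (nat_lit 0) (nat_lit 0) (XT.lf (nat_lit 0) (nat_lit 77159511867) (nat_lit 76) (nat_lit 42492588519) (nat_lit 76) (nat_lit 34268834049) (nat_lit 18) (nat_lit 4) (nat_lit 19) (nat_lit 5) (nat_lit 19) (nat_lit 4) (nat_lit 516) (nat_lit 394) (nat_lit 290)) (XT.lf (nat_lit 0) (nat_lit 140321200809) (nat_lit 76) (nat_lit 14032655917) (nat_lit 76) (nat_lit 5806436036) (nat_lit 18) (nat_lit 4) (nat_lit 19) (nat_lit 5) (nat_lit 19) (nat_lit 4) (nat_lit 517) (nat_lit 394) (nat_lit 289)))) (XT.nd (nat_lit 156) (nat_lit 76) (nat_lit 0) (XT.nd (nat_lit 78) (nat_lit 0) (nat_lit 0) (XT.lf (nat_lit 0) (nat_lit 24192589604) (nat_lit 152) (nat_lit 126100164610) (nat_lit 0) (nat_lit 16355858279) (nat_lit 16) (nat_lit 5) (nat_lit 18) (nat_lit 4) (nat_lit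 16) (nat_lit 4) (nat_lit 518) (nat_lit 394) (nat_lit 288)) (XT.lf (nat_lit 0) (nat_lit 56050960636) (nat_lit 152) (nat_lit 69165802207) (nat_lit 0) (nat_lit 48212099596) (nat_lit 16) (nat_lit 5) (nat_lit 18) (nat_lit 4) (nat_lit 16) (nat_lit 4) (nat_lit 519) (nat_lit 394) (nat_lit 287))) (XT.nd (nat_lit 78) (nat_lit 76) (nat_lit 0) (XT.lf (nat_lit 0) (nat_lit 89486052435) (nat_lit 152) (nat_lit 9417719260) (nat_lit 0) (nat_lit 81645163096) (nat_lit 16) (nat_lit 5) (nat_lit 18) (nat_lit 4) (nat_lit 16) (nat_lit 4) (nat_lit 520) (nat_lit 394) (nat_lit 286)) (XT.lf (nat_lit 0) (nat_lit 55048228671) (nat_lit 76) (nat_lit 70388700815) (nat_lit 76) (nat_lit 62545879762) (nat_lit 15) (nat_lit 4) (nat_lit 16) (nat_lit 5) (nat_lit 16) (nat_lit 4) (nat_lit 521) (nat_lit 394) (nat_lit 285)))))) (XT.nd (nat_lit 624) (nat_lit 228) (nat_lit 0) (XT.nd (nat_lit 312) (nat_lit 76) (nat_lit 0) (XT.nd (nat_lit 156)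 (nat_lit 152) (nat_lit 0) (XT.nd (nat_lit 78) (nat_lit 0) (nat_lit 0) (XT.lf (nat_lit 0) (nat_lit 123033516560) (nat_lit 76) (nat_lit 40296152858) (nat_lit 76) (nat_lit 32451492077) (nat_lit 15) (nat_lit 4) (nat_lit 16) (nat_lit 5) (nat_lit 16) (nat_lit 4) (nat_lit 522) (nat_lit 394) (nat_lit 284)) (XT.lf (nat_lit 0) (nat_lit 194388621808) (nat_lit 76) (nat_lit 8713972534) (nat_lit 76) (nat_lit 867559632) (nat_lit 15) (nat_lit 4) (nat_lit 16) (nat_lit 5) (nat_lit 16) (nat_lit 4) (nat_lit 523) (nat_lit 394) (nat_lit 283))) (XT.nd (nat_lit 78) (nat_lit 0) (nat_lit 0) (XT.lf (nat_lit 0) (nat_lit 32559128436) (nat_lit 152) (nat_lit 154834630475) (nat_lit 0) (nat_lit 25084765018) (nat_lit 13) (nat_lit 5) (nat_lit 15) (nat_lit 4) (nat_lit 13) (nat_lit 4) (nat_lit 524) (nat_lit 394) (nat_lit 282)) (XT.lf (nat_lit 0) (nat_lit 67921790984) (nat_lit 152) (nat_lit 93029206493) (nat_lit 0) (nat_lit 60445914017)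 (nat_lit 13) (nat_lit 5) (nat_lit 15) (nat_lit 4) (nat_lit 13) (nat_lit 4) (nat_lit 525) (nat_lit 394) (nat_lit 281)))) (XT.nd (nat_lit 156) (nat_lit 0) (nat_lit 0) (XT.nd (nat_lit 78) (nat_lit 76) (nat_lit 0) (XT.lf (nat_lit 0) (nat_lit 105039268323) (nat_lit 152) (nat_lit 28160666165) (nat_lit 0) (nat_lit 97561949881) (nat_lit 13) (nat_lit 5) (nat_lit 15) (nat_lit 4) (nat_lit 13) (nat_lit 4) (nat_lit 526) (nat_lit 394) (nat_lit 280)) (XT.lf (nat_lit 0) (nat_lit 41245554747) (nat_lit 76) (nat_lit 103398339351) (nat_lit 76) (nat_lit 95919648076) (nat_lit 12) (nat_lit 4) (nat_lit 13) (nat_lit 5) (nat_lit 13) (nat_lit 4) (nat_lit 527) (nat_lit 394) (nat_lit 279))) (XT.nd (nat_lit 78) (nat_lit 0) (nat_lit 0) (XT.lf (nat_lit 0) (nat_lit 115074316807) (nat_lit 76) (nat_lit 71618871477) (nat_lit 76) (nat_lit 64138872742) (nat_lit 12) (nat_lit 4) (nat_lit 13) (nat_lit 5) (nat_lit 13) (nat_lit 4) (nat_lit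 528) (nat_lit 394) (nat_lit 278)) (XT.lf (nat_lit 0) (nat_lit 192570283980) (nat_lit 76) (nat_lit 38262779975) (nat_lit 76) (nat_lit 30781536040) (nat_lit 12) (nat_lit 4) (nat_lit 13) (nat_lit 5) (nat_lit 13) (nat_lit 4) (nat_lit 529) (nat_lit 394) (nat_lit 277))))) (XT.nd (nat_lit 312) (nat_lit 76) (nat_lit 0) (XT.nd (nat_lit 156) (nat_lit 0) (nat_lit 0) (XT.nd (nat_lit 78) (nat_lit 0) (nat_lit 0) (XT.lf (nat_lit 0) (nat_lit 945324969) (nat_lit 76) (nat_lit 3165774937) (nat_lit 152) (nat_lit 268821690428) (nat_lit 10) (nat_lit 5) (nat_lit 11) (nat_lit 5) (nat_lit 12) (nat_lit 4) (nat_lit 530) (nat_lit 394) (nat_lit 276)) (XT.lf (nat_lit 0) (nat_lit 41416808855) (nat_lit 152) (nat_lit 209000095899) (nat_lit 0) (nat_lit 34289609547) (nat_lit 10) (nat_lit 5) (nat_lit 12) (nat_lit 4) (nat_lit 10) (nat_lit 4) (nat_lit 531) (nat_lit 394) (nat_lit 275))) (XT.nd (nat_lit 78) (nat_lit 0) (nat_lit 0) (XT.lf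 (nat_lit 0) (nat_lit 80628749587) (nat_lit 152) (nat_lit 142937601722) (nat_lit 0) (nat_lit 73500525850) (nat_lit 10) (nat_lit 5) (nat_lit 12) (nat_lit 4) (nat_lit 10) (nat_lit 4) (nat_lit 532) (nat_lit 394) (nat_lit 274)) (XT.lf (nat_lit 0) (nat_lit 121790857248) (nat_lit 152) (nat_lit 73593264563) (nat_lit 0) (nat_lit 114661657864) (nat_lit 10) (nat_lit 5) (nat_lit 12) (nat_lit 4) (nat_lit 10) (nat_lit 4) (nat_lit 533) (nat_lit 394) (nat_lit 273)))) (XT.nd (nat_lit 156) (nat_lit 0) (nat_lit 0) (XT.nd (nat_lit 78) (nat_lit 76) (nat_lit 0) (XT.lf (nat_lit 0) (nat_lit 165001136855) (nat_lit 152) (nat_lit 801978858) (nat_lit 0) (nat_lit 157871008284) (nat_lit 10) (nat_lit 5) (nat_lit 12) (nat_lit 4) (nat_lit 10) (nat_lit 4) (nat_lit 534) (nat_lit 394) (nat_lit 272)) (XT.lf (nat_lit 0) (nat_lit 78109561757) (nat_lit 76) (nat_lit 133472417432) (nat_lit 76) (nat_lit 126341403921) (nat_lit 9) (nat_lit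 4) (nat_lit 10) (nat_lit 5) (nat_lit 10) (nat_lit 4) (nat_lit 535) (nat_lit 394) (nat_lit 271))) (XT.nd (nat_lit 78) (nat_lit 0) (nat_lit 0) (XT.lf (nat_lit 0) (nat_lit 160975530486) (nat_lit 76) (nat_lit 99520608619) (nat_lit 76) (nat_lit 92388752307) (nat_lit 9) (nat_lit 4) (nat_lit 10) (nat_lit 5) (nat_lit 10) (nat_lit 4) (nat_lit 536) (nat_lit 394) (nat_lit 270)) (XT.nd (nat_lit 78) (nat_lit 0) (nat_lit 0) (XT.lf (nat_lit 0) (nat_lit 247966710210) (nat_lit 76) (nat_lit 63880433535) (nat_lit 76) (nat_lit 56747774556) (nat_lit 9) (nat_lit 4) (nat_lit 10) (nat_lit 5) (nat_lit 10) (nat_lit 4) (nat_lit 537) (nat_lit 394) (nat_lit 269)) (XT.lf (nat_lit 0) (nat_lit 339290222787) (nat_lit 76) (nat_lit 26467034620) (nat_lit 76) (nat_lit 19333611197) (nat_lit 9) (nat_lit 4) (nat_lit 10) (nat_lit 5) (nat_lit 10) (nat_lit 4) (nat_lit 538) (nat_lit 394) (nat_lit 268))))))))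
noncomputable def xc163 : XT := (XT.nd (nat_lit 1248) (nat_lit 0) (nat_lit 0) (XT.nd (nat_lit 624) (nat_lit 152) (nat_lit 0) (XT.nd (nat_lit 312) (nat_lit 76) (nat_lit 0) (XT.nd (nat_lit 156) (nat_lit 0) (nat_lit 0) (XT.nd (nat_lit 78) (nat_lit 0) (nat_lit 0) (XT.lf (nat_lit 0) (nat_lit 20041413172) (nat_lit 152) (nat_lit 369071209409) (nat_lit 0) (nat_lit 13246983204) (nat_lit 7) (nat_lit 5) (nat_lit 9) (nat_lit 4) (nat_lit 7) (nat_lit 4) (nat_lit 539) (nat_lit 394) (nat_lit 267)) (XT.lf (nat_lit 0) (nat_lit 61949541460) (nat_lit 152) (nat_lit 303311235573) (nat_lit 0) (nat_lit 55154451136) (nat_lit 7) (nat_lit 5) (nat_lit 9) (nat_lit 4) (nat_lit 7) (nat_lit 4) (nat_lit 540) (nat_lit 394) (nat_lit 266))) (XT.nd (nat_lit 78) (nat_lit 0) (nat_lit 0) (XT.lf (nat_lit 0) (nat_lit 105945296380) (nat_lit 152) (nat_lit 234279147143) (nat_lit 0) (nat_lit 99149577145) (nat_lit 7) (nat_lit 5) (nat_lit 9)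 (nat_lit 4) (nat_lit 7) (nat_lit 4) (nat_lit 541) (nat_lit 394) (nat_lit 265)) (XT.lf (nat_lit 0) (nat_lit 152133429730) (nat_lit 152) (nat_lit 161810582004) (nat_lit 0) (nat_lit 145337111532) (nat_lit 7) (nat_lit 5) (nat_lit 9) (nat_lit 4) (nat_lit 7) (nat_lit 4) (nat_lit 542) (nat_lit 394) (nat_lit 264)))) (XT.nd (nat_lit 156) (nat_lit 76) (nat_lit 0) (XT.nd (nat_lit 78) (nat_lit 0) (nat_lit 0) (XT.lf (nat_lit 0) (nat_lit 200623913254) (nat_lit 152) (nat_lit 85732995952) (nat_lit 0) (nat_lit 193827024616) (nat_lit 7) (nat_lit 5) (nat_lit 9) (nat_lit 4) (nat_lit 7) (nat_lit 4) (nat_lit 543) (nat_lit 394) (nat_lit 263)) (XT.lf (nat_lit 0) (nat_lit 251532200486) (nat_lit 152) (nat_lit 5865251878) (nat_lit 0) (nat_lit 244734768572) (nat_lit 7) (nat_lit 5) (nat_lit 9) (nat_lit 4) (nat_lit 7) (nat_lit 4) (nat_lit 544) (nat_lit 394) (nat_lit 262))) (XT.nd (nat_lit 78) (nat_lit 0) (nat_lit 0) (XT.lf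 (nat_lit 0) (nat_lit 80561275442) (nat_lit 76) (nat_lit 225676013474) (nat_lit 76) (nat_lit 218878064153) (nat_lit 6) (nat_lit 4) (nat_lit 7) (nat_lit 5) (nat_lit 7) (nat_lit 4) (nat_lit 545) (nat_lit 394) (nat_lit 261)) (XT.lf (nat_lit 0) (nat_lit 171499900315) (nat_lit 76) (nat_lit 192270765931) (nat_lit 76) (nat_lit 185472323842) (nat_lit 6) (nat_lit 4) (nat_lit 7) (nat_lit 5) (nat_lit 7) (nat_lit 4) (nat_lit 546) (nat_lit 394) (nat_lit 260))))) (XT.nd (nat_lit 312) (nat_lit 152) (nat_lit 0) (XT.nd (nat_lit 156) (nat_lit 0) (nat_lit 0) (XT.nd (nat_lit 78) (nat_lit 0) (nat_lit 0) (XT.lf (nat_lit 0) (nat_lit 266973211562) (nat_lit 76) (nat_lit 157201504311) (nat_lit 76) (nat_lit 150402592920) (nat_lit 6) (nat_lit 4) (nat_lit 7) (nat_lit 5) (nat_lit 7) (nat_lit 4) (nat_lit 547) (nat_lit 394) (nat_lit 259)) (XT.lf (nat_lit 0) (nat_lit 367208526590) (nat_lit 76) (nat_lit 120384730373) (nat_lit 76)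 (nat_lit 113585372026) (nat_lit 6) (nat_lit 4) (nat_lit 7) (nat_lit 5) (nat_lit 7) (nat_lit 4) (nat_lit 548) (nat_lit 394) (nat_lit 258))) (XT.nd (nat_lit 78) (nat_lit 0) (nat_lit 0) (XT.lf (nat_lit 0) (nat_lit 472444500911) (nat_lit 76) (nat_lit 81732785129) (nat_lit 76) (nat_lit 74933001111) (nat_lit 6) (nat_lit 4) (nat_lit 7) (nat_lit 5) (nat_lit 7) (nat_lit 4) (nat_lit 549) (nat_lit 394) (nat_lit 257)) (XT.lf (nat_lit 0) (nat_lit 582931696369) (nat_lit 76) (nat_lit 41153640141) (nat_lit 76) (nat_lit 34353450721) (nat_lit 6) (nat_lit 4) (nat_lit 7) (nat_lit 5) (nat_lit 7) (nat_lit 4) (nat_lit 550) (nat_lit 394) (nat_lit 256)))) (XT.nd (nat_lit 156) (nat_lit 0) (nat_lit 0) (XT.nd (nat_lit 78) (nat_lit 0) (nat_lit 0) (XT.lf (nat_lit 0) (nat_lit 8167480449) (nat_lit 152) (nat_lit 679360214896) (nat_lit 0) (nat_lit 1690741862) (nat_lit 4) (nat_lit 5) (nat_lit 6) (nat_lit 4) (nat_lit 4) (nat_lit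 4) (nat_lit 551) (nat_lit 394) (nat_lit 255)) (XT.lf (nat_lit 0) (nat_lit 53629305958) (nat_lit 152) (nat_lit 620628920543) (nat_lit 0) (nat_lit 47152217170) (nat_lit 4) (nat_lit 5) (nat_lit 6) (nat_lit 4) (nat_lit 4) (nat_lit 4) (nat_lit 552) (nat_lit 394) (nat_lit 254))) (XT.nd (nat_lit 78) (nat_lit 0) (nat_lit 0) (XT.lf (nat_lit 0) (nat_lit 101359448394) (nat_lit 152) (nat_lit 558970814705) (nat_lit 0) (nat_lit 94882026081) (nat_lit 4) (nat_lit 5) (nat_lit 6) (nat_lit 4) (nat_lit 4) (nat_lit 4) (nat_lit 553) (nat_lit 394) (nat_lit 253)) (XT.lf (nat_lit 0) (nat_lit 151471550953) (nat_lit 152) (nat_lit 494239092366) (nat_lit 0) (nat_lit 144993810998) (nat_lit 4) (nat_lit 5) (nat_lit 6) (nat_lit 4) (nat_lit 4) (nat_lit 4) (nat_lit 554) (nat_lit 394) (nat_lit 252)))))) (XT.nd (nat_lit 51714) (nat_lit 0) (nat_lit 9576) (XT.nd (nat_lit 51402) (nat_lit 0) (nat_lit 12008) (XT.nd (nat_lit 51246) (nat_lit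 0) (nat_lit 14212) (XT.nd (nat_lit 51168) (nat_lit 0) (nat_lit 15276) (XT.lf (nat_lit 0) (nat_lit 204084928165) (nat_lit 152) (nat_lit 426279630380) (nat_lit 0) (nat_lit 197606885693) (nat_lit 4) (nat_lit 5) (nat_lit 6) (nat_lit 4) (nat_lit 4) (nat_lit 4) (nat_lit 555) (nat_lit 394) (nat_lit 251)) (XT.lf (nat_lit 0) (nat_lit 2949314699) (nat_lit 380) (nat_lit 207914900) (nat_lit 380) (nat_lit 207914900) (nat_lit 205) (nat_lit 4) (nat_lit 210) (nat_lit 5) (nat_lit 210) (nat_lit 4) (nat_lit 410) (nat_lit 395) (nat_lit 395))) (XT.nd (nat_lit 78) (nat_lit 532) (nat_lit 0) (XT.lf (nat_lit 0) (nat_lit 2916512989) (nat_lit 532) (nat_lit 3028032435) (nat_lit 0) (nat_lit 846311620) (nat_lit 198) (nat_lit 5) (nat_lit 205) (nat_lit 4) (nat_lit 198) (nat_lit 4) (nat_lit 411) (nat_lit 395) (nat_lit 394)) (XT.lf (nat_lit 0) (nat_lit 1645793953) (nat_lit 532) (nat_lit 4628266293) (nat_lit 532) (nat_lit 586444574)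 (nat_lit 191) (nat_lit 4) (nat_lit 198) (nat_lit 5) (nat_lit 198) (nat_lit 4) (nat_lit 412) (nat_lit 395) (nat_lit 393)))) (XT.nd (nat_lit 156) (nat_lit 1520) (nat_lit 0) (XT.nd (nat_lit 78) (nat_lit 608) (nat_lit 0) (XT.lf (nat_lit 0) (nat_lit 2655117008) (nat_lit 608) (nat_lit 476565518) (nat_lit 76) (nat_lit 3805684036) (nat_lit 190) (nat_lit 5) (nat_lit 198) (nat_lit 5) (nat_lit 191) (nat_lit 4) (nat_lit 413) (nat_lit 395) (nat_lit 392)) (XT.lf (nat_lit 0) (nat_lit 4481501597) (nat_lit 608) (nat_lit 1464534871) (nat_lit 684) (nat_lit 1076222331) (nat_lit 182) (nat_lit 5) (nat_lit 190) (nat_lit 5) (nat_lit 191) (nat_lit 4) (nat_lit 414) (nat_lit 395) (nat_lit 391))) (XT.nd (nat_lit 78) (nat_lit 760) (nat_lit 0) (XT.lf (nat_lit 0) (nat_lit 2109563793) (nat_lit 760) (nat_lit 4638282751) (nat_lit 76) (nat_lit 367139477) (nat_lit 172) (nat_lit 5) (nat_lit 182) (nat_lit 5) (nat_lit 173) (nat_lit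 4) (nat_lit 415) (nat_lit 395) (nat_lit 390)) (XT.lf (nat_lit 0) (nat_lit 435610061) (nat_lit 760) (nat_lit 4902592243) (nat_lit 836) (nat_lit 1877293715) (nat_lit 162) (nat_lit 5) (nat_lit 172) (nat_lit 5) (nat_lit 173) (nat_lit 4) (nat_lit 416) (nat_lit 395) (nat_lit 389))))) (XT.nd (nat_lit 312) (nat_lit 1444) (nat_lit 0) (XT.nd (nat_lit 156) (nat_lit 456) (nat_lit 0) (XT.nd (nat_lit 78) (nat_lit 456) (nat_lit 0) (XT.lf (nat_lit 0) (nat_lit 1289685253) (nat_lit 836) (nat_lit 1577643794) (nat_lit 76) (nat_lit 4456243412) (nat_lit 161) (nat_lit 5) (nat_lit 172) (nat_lit 5) (nat_lit 162) (nat_lit 5) (nat_lit 417) (nat_lit 395) (nat_lit 388)) (XT.lf (nat_lit 0) (nat_lit 3822459297) (nat_lit 456) (nat_lit 644044029) (nat_lit 532) (nat_lit 2973294721) (nat_lit 155) (nat_lit 5) (nat_lit 161) (nat_lit 5) (nat_lit 162) (nat_lit 5) (nat_lit 418) (nat_lit 395) (nat_lit 387))) (XT.nd (nat_lit 78) (nat_lit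 0) (nat_lit 0) (XT.lf (nat_lit 0) (nat_lit 173558720) (nat_lit 456) (nat_lit 5706175014) (nat_lit 76) (nat_lit 1684879257) (nat_lit 149) (nat_lit 5) (nat_lit 155) (nat_lit 5) (nat_lit 150) (nat_lit 5) (nat_lit 419) (nat_lit 395) (nat_lit 386)) (XT.lf (nat_lit 0) (nat_lit 3311957370) (nat_lit 456) (nat_lit 179575921) (nat_lit 76) (nat_lit 4205003313) (nat_lit 149) (nat_lit 5) (nat_lit 155) (nat_lit 5) (nat_lit 150) (nat_lit 5) (nat_lit 420) (nat_lit 395) (nat_lit 385)))) (XT.nd (nat_lit 156) (nat_lit 684) (nat_lit 0) (XT.nd (nat_lit 78) (nat_lit 380) (nat_lit 0) (XT.lf (nat_lit 0) (nat_lit 5651616568) (nat_lit 380) (nat_lit 911802645) (nat_lit 456) (nat_lit 1273840773) (nat_lit 144) (nat_lit 5) (nat_lit 149) (nat_lit 5) (nat_lit 150) (nat_lit 5) (nat_lit 421) (nat_lit 395) (nat_lit 384)) (XT.lf (nat_lit 0) (nat_lit 1888915392) (nat_lit 380) (nat_lit 4286646963) (nat_lit 76) (nat_lit 1809899001)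 (nat_lit 139) (nat_lit 5) (nat_lit 144) (nat_lit 5) (nat_lit 140) (nat_lit 5) (nat_lit 422) (nat_lit 395) (nat_lit 383))) (XT.nd (nat_lit 78) (nat_lit 380) (nat_lit 0) (XT.lf (nat_lit 0) (nat_lit 1673355702) (nat_lit 304) (nat_lit 3445510938) (nat_lit 380) (nat_lit 3023577974) (nat_lit 135) (nat_lit 5) (nat_lit 139) (nat_lit 5) (nat_lit 140) (nat_lit 5) (nat_lit 423) (nat_lit 395) (nat_lit 382)) (XT.nd (nat_lit 78) (nat_lit 304) (nat_lit 0) (XT.lf (nat_lit 0) (nat_lit 145083239) (nat_lit 380) (nat_lit 387347326) (nat_lit 76) (nat_lit 7777269227) (nat_lit 134) (nat_lit 5) (nat_lit 139) (nat_lit 5) (nat_lit 135) (nat_lit 5) (nat_lit 424) (nat_lit 395) (nat_lit 381)) (XT.lf (nat_lit 0) (nat_lit 3386064383) (nat_lit 380) (nat_lit 2536750552) (nat_lit 76) (nat_lit 2559257527) (nat_lit 130) (nat_lit 5) (nat_lit 135) (nat_lit 5) (nat_lit 131) (nat_lit 5) (nat_lit 425) (nat_lit 395) (nat_lit 380))))))))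
noncomputable def xc164 : XT := (XT.nd (nat_lit 1248) (nat_lit 1824) (nat_lit 0) (XT.nd (nat_lit 624) (nat_lit 1292) (nat_lit 0) (XT.nd (nat_lit 312) (nat_lit 760) (nat_lit 0) (XT.nd (nat_lit 156) (nat_lit 304) (nat_lit 0) (XT.nd (nat_lit 78) (nat_lit 304) (nat_lit 0) (XT.lf (nat_lit 0) (nat_lit 3906787168) (nat_lit 304) (nat_lit 2842242446) (nat_lit 380) (nat_lit 1916045039) (nat_lit 126) (nat_lit 5) (nat_lit 130) (nat_lit 5) (nat_lit 131) (nat_lit 5) (nat_lit 426) (nat_lit 395) (nat_lit 379)) (XT.lf (nat_lit 0) (nat_lit 1340756991) (nat_lit 304) (nat_lit 7081743074) (nat_lit 76) (nat_lit 435453881) (nat_lit 122) (nat_lit 5) (nat_lit 126) (nat_lit 5) (nat_lit 123) (nat_lit 5) (nat_lit 427) (nat_lit 395) (nat_lit 378))) (XT.nd (nat_lit 78) (nat_lit 304) (nat_lit 0) (XT.lf (nat_lit 0) (nat_lit 4711792220) (nat_lit 304) (nat_lit 491660981) (nat_lit 76) (nat_lit 3854670833) (nat_lit 122) (nat_lit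 5) (nat_lit 126) (nat_lit 5) (nat_lit 123) (nat_lit 5) (nat_lit 428) (nat_lit 395) (nat_lit 377)) (XT.lf (nat_lit 0) (nat_lit 6484499843) (nat_lit 304) (nat_lit 1760773620) (nat_lit 380) (nat_lit 1023340738) (nat_lit 118) (nat_lit 5) (nat_lit 122) (nat_lit 5) (nat_lit 123) (nat_lit 5) (nat_lit 429) (nat_lit 395) (nat_lit 376)))) (XT.nd (nat_lit 156) (nat_lit 228) (nat_lit 0) (XT.nd (nat_lit 78) (nat_lit 228) (nat_lit 0) (XT.lf (nat_lit 0) (nat_lit 2386047365) (nat_lit 304) (nat_lit 5235611398) (nat_lit 76) (nat_lit 1866092487) (nat_lit 114) (nat_lit 5) (nat_lit 118) (nat_lit 5) (nat_lit 115) (nat_lit 5) (nat_lit 430) (nat_lit 395) (nat_lit 375)) (XT.lf (nat_lit 0) (nat_lit 1881104370) (nat_lit 228) (nat_lit 4052299178) (nat_lit 304) (nat_lit 3783513747) (nat_lit 111) (nat_lit 5) (nat_lit 114) (nat_lit 5) (nat_lit 115) (nat_lit 5) (nat_lit 431) (nat_lit 395) (nat_lit 374))) (XT.nd (nat_lit 78) (nat_lit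 228) (nat_lit 0) (XT.lf (nat_lit 0) (nat_lit 9383843621) (nat_lit 228) (nat_lit 261281978) (nat_lit 304) (nat_lit 313071312) (nat_lit 111) (nat_lit 5) (nat_lit 114) (nat_lit 5) (nat_lit 115) (nat_lit 5) (nat_lit 432) (nat_lit 395) (nat_lit 373)) (XT.lf (nat_lit 0) (nat_lit 3296320587) (nat_lit 228) (nat_lit 3191242252) (nat_lit 76) (nat_lit 3717780292) (nat_lit 108) (nat_lit 5) (nat_lit 111) (nat_lit 5) (nat_lit 109) (nat_lit 5) (nat_lit 433) (nat_lit 395) (nat_lit 372))))) (XT.nd (nat_lit 312) (nat_lit 608) (nat_lit 0) (XT.nd (nat_lit 156) (nat_lit 228) (nat_lit 0) (XT.nd (nat_lit 78) (nat_lit 228) (nat_lit 0) (XT.lf (nat_lit 0) (nat_lit 4523485959) (nat_lit 228) (nat_lit 2540198924) (nat_lit 304) (nat_lit 3401508429) (nat_lit 105) (nat_lit 5) (nat_lit 108) (nat_lit 5) (nat_lit 109) (nat_lit 5) (nat_lit 434) (nat_lit 395) (nat_lit 371)) (XT.lf (nat_lit 0) (nat_lit 286710139) (nat_lit 228) (nat_lit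 8858997826) (nat_lit 76) (nat_lit 1591395695) (nat_lit 102) (nat_lit 5) (nat_lit 105) (nat_lit 5) (nat_lit 103) (nat_lit 5) (nat_lit 435) (nat_lit 395) (nat_lit 370))) (XT.nd (nat_lit 78) (nat_lit 228) (nat_lit 0) (XT.lf (nat_lit 0) (nat_lit 4094362673) (nat_lit 228) (nat_lit 972917238) (nat_lit 76) (nat_lit 5950078550) (nat_lit 102) (nat_lit 5) (nat_lit 105) (nat_lit 5) (nat_lit 103) (nat_lit 5) (nat_lit 436) (nat_lit 395) (nat_lit 369)) (XT.lf (nat_lit 0) (nat_lit 7400051722) (nat_lit 228) (nat_lit 717803684) (nat_lit 304) (nat_lit 3192501390) (nat_lit 99) (nat_lit 5) (nat_lit 102) (nat_lit 5) (nat_lit 103) (nat_lit 5) (nat_lit 437) (nat_lit 395) (nat_lit 368)))) (XT.nd (nat_lit 156) (nat_lit 228) (nat_lit 0) (XT.nd (nat_lit 78) (nat_lit 152) (nat_lit 0) (XT.lf (nat_lit 0) (nat_lit 761295264) (nat_lit 228) (nat_lit 7079373166) (nat_lit 76) (nat_lit 3773776034) (nat_lit 96) (nat_lit 5) (nat_lit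 99) (nat_lit 5) (nat_lit 97) (nat_lit 5) (nat_lit 438) (nat_lit 395) (nat_lit 367)) (XT.lf (nat_lit 0) (nat_lit 1442969453) (nat_lit 152) (nat_lit 3375850094) (nat_lit 228) (nat_lit 7111636999) (nat_lit 94) (nat_lit 5) (nat_lit 96) (nat_lit 5) (nat_lit 97) (nat_lit 5) (nat_lit 439) (nat_lit 395) (nat_lit 366))) (XT.nd (nat_lit 78) (nat_lit 228) (nat_lit 0) (XT.lf (nat_lit 0) (nat_lit 9134351247) (nat_lit 228) (nat_lit 1788658668) (nat_lit 76) (nat_lit 1336505780) (nat_lit 94) (nat_lit 5) (nat_lit 97) (nat_lit 5) (nat_lit 95) (nat_lit 4) (nat_lit 440) (nat_lit 395) (nat_lit 365)) (XT.lf (nat_lit 0) (nat_lit 1115715564) (nat_lit 228) (nat_lit 5232611325) (nat_lit 76) (nat_lit 6251424150) (nat_lit 91) (nat_lit 5) (nat_lit 94) (nat_lit 5) (nat_lit 92) (nat_lit 5) (nat_lit 441) (nat_lit 395) (nat_lit 364)))))) (XT.nd (nat_lit 624) (nat_lit 912) (nat_lit 0) (XT.nd (nat_lit 312) (nat_lit 380) (nat_lit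 0) (XT.nd (nat_lit 156) (nat_lit 228) (nat_lit 0) (XT.nd (nat_lit 78) (nat_lit 152) (nat_lit 0) (XT.lf (nat_lit 0) (nat_lit 4023793361) (nat_lit 152) (nat_lit 1450838145) (nat_lit 228) (nat_lit 7479256747) (nat_lit 89) (nat_lit 5) (nat_lit 91) (nat_lit 5) (nat_lit 92) (nat_lit 5) (nat_lit 442) (nat_lit 395) (nat_lit 363)) (XT.lf (nat_lit 0) (nat_lit 416127529) (nat_lit 152) (nat_lit 9707849202) (nat_lit 228) (nat_lit 3198133911) (nat_lit 87) (nat_lit 5) (nat_lit 89) (nat_lit 5) (nat_lit 90) (nat_lit 4) (nat_lit 443) (nat_lit 395) (nat_lit 362))) (XT.nd (nat_lit 78) (nat_lit 152) (nat_lit 0) (XT.lf (nat_lit 0) (nat_lit 1351716704) (nat_lit 228) (nat_lit 3349896039) (nat_lit 76) (nat_lit 9001311877) (nat_lit 86) (nat_lit 5) (nat_lit 89) (nat_lit 5) (nat_lit 87) (nat_lit 5) (nat_lit 444) (nat_lit 395) (nat_lit 361)) (XT.lf (nat_lit 0) (nat_lit 6059261527) (nat_lit 228) (nat_lit 7397901916) (nat_lit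 76) (nat_lit 641112586) (nat_lit 84) (nat_lit 5) (nat_lit 87) (nat_lit 5) (nat_lit 85) (nat_lit 4) (nat_lit 445) (nat_lit 395) (nat_lit 360)))) (XT.nd (nat_lit 156) (nat_lit 228) (nat_lit 0) (XT.nd (nat_lit 78) (nat_lit 76) (nat_lit 0) (XT.lf (nat_lit 0) (nat_lit 2732492753) (nat_lit 76) (nat_lit 8370368711) (nat_lit 152) (nat_lit 3405501696) (nat_lit 83) (nat_lit 5) (nat_lit 84) (nat_lit 5) (nat_lit 85) (nat_lit 4) (nat_lit 446) (nat_lit 395) (nat_lit 359)) (XT.lf (nat_lit 0) (nat_lit 1463919387) (nat_lit 152) (nat_lit 1467483362) (nat_lit 76) (nat_lit 12003866678) (nat_lit 82) (nat_lit 5) (nat_lit 84) (nat_lit 5) (nat_lit 83) (nat_lit 5) (nat_lit 447) (nat_lit 395) (nat_lit 358))) (XT.nd (nat_lit 78) (nat_lit 76) (nat_lit 0) (XT.lf (nat_lit 0) (nat_lit 6583375366) (nat_lit 228) (nat_lit 5948806702) (nat_lit 76) (nat_lit 2842498761) (nat_lit 80) (nat_lit 5) (nat_lit 83) (nat_lit 5) (nat_lit 81)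 (nat_lit 4) (nat_lit 448) (nat_lit 395) (nat_lit 357)) (XT.lf (nat_lit 0) (nat_lit 5063318125) (nat_lit 76) (nat_lit 6975695031) (nat_lit 152) (nat_lit 3793040878) (nat_lit 79) (nat_lit 5) (nat_lit 80) (nat_lit 5) (nat_lit 81) (nat_lit 4) (nat_lit 449) (nat_lit 395) (nat_lit 356))))) (XT.nd (nat_lit 312) (nat_lit 380) (nat_lit 0) (XT.nd (nat_lit 156) (nat_lit 304) (nat_lit 0) (XT.nd (nat_lit 78) (nat_lit 0) (nat_lit 0) (XT.lf (nat_lit 0) (nat_lit 382615241) (nat_lit 152) (nat_lit 1062433693) (nat_lit 228) (nat_lit 14864288280) (nat_lit 76) (nat_lit 5) (nat_lit 78) (nat_lit 5) (nat_lit 79) (nat_lit 5) (nat_lit 450) (nat_lit 395) (nat_lit 355)) (XT.lf (nat_lit 0) (nat_lit 7011912759) (nat_lit 228) (nat_lit 4612580934) (nat_lit 76) (nat_lit 5173166237) (nat_lit 76) (nat_lit 5) (nat_lit 79) (nat_lit 5) (nat_lit 77) (nat_lit 4) (nat_lit 451) (nat_lit 395) (nat_lit 354))) (XT.nd (nat_lit 78) (nat_lit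 228) (nat_lit 0) (XT.lf (nat_lit 0) (nat_lit 7360584073) (nat_lit 76) (nat_lit 5560896695) (nat_lit 152) (nat_lit 4385701348) (nat_lit 75) (nat_lit 5) (nat_lit 76) (nat_lit 5) (nat_lit 77) (nat_lit 4) (nat_lit 452) (nat_lit 395) (nat_lit 353)) (XT.lf (nat_lit 0) (nat_lit 1302758706) (nat_lit 228) (nat_lit 15675216296) (nat_lit 76) (nat_lit 860228100) (nat_lit 72) (nat_lit 5) (nat_lit 75) (nat_lit 5) (nat_lit 73) (nat_lit 4) (nat_lit 453) (nat_lit 395) (nat_lit 352)))) (XT.nd (nat_lit 156) (nat_lit 304) (nat_lit 0) (XT.nd (nat_lit 78) (nat_lit 76) (nat_lit 0) (XT.lf (nat_lit 0) (nat_lit 7323298344) (nat_lit 228) (nat_lit 3455299356) (nat_lit 76) (nat_lit 7603831551) (nat_lit 72) (nat_lit 5) (nat_lit 75) (nat_lit 5) (nat_lit 73) (nat_lit 4) (nat_lit 454) (nat_lit 395) (nat_lit 351)) (XT.lf (nat_lit 0) (nat_lit 9562137158) (nat_lit 76) (nat_lit 4167896452) (nat_lit 152) (nat_lit 5219575806) (nat_lit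 71) (nat_lit 5) (nat_lit 72) (nat_lit 5) (nat_lit 73) (nat_lit 4) (nat_lit 455) (nat_lit 395) (nat_lit 350))) (XT.nd (nat_lit 78) (nat_lit 76) (nat_lit 0) (XT.lf (nat_lit 0) (nat_lit 982162121) (nat_lit 228) (nat_lit 15791578182) (nat_lit 76) (nat_lit 2765727739) (nat_lit 68) (nat_lit 5) (nat_lit 71) (nat_lit 5) (nat_lit 69) (nat_lit 4) (nat_lit 456) (nat_lit 395) (nat_lit 349)) (XT.nd (nat_lit 78) (nat_lit 76) (nat_lit 0) (XT.lf (nat_lit 0) (nat_lit 7484897156) (nat_lit 228) (nat_lit 2561496815) (nat_lit 76) (nat_lit 10099832163) (nat_lit 68) (nat_lit 5) (nat_lit 71) (nat_lit 5) (nat_lit 69) (nat_lit 4) (nat_lit 457) (nat_lit 395) (nat_lit 348)) (XT.lf (nat_lit 0) (nat_lit 11586589982) (nat_lit 76) (nat_lit 2846514650) (nat_lit 152) (nat_lit 6344201650) (nat_lit 67) (nat_lit 5) (nat_lit 68) (nat_lit 5) (nat_lit 69) (nat_lit 4) (nat_lit 458) (nat_lit 395) (nat_lit 347))))))))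
noncomputable def xc165 : XT := (XT.nd (nat_lit 1248) (nat_lit 1140) (nat_lit 0) (XT.nd (nat_lit 624) (nat_lit 608) (nat_lit 0) (XT.nd (nat_lit 312) (nat_lit 304) (nat_lit 0) (XT.nd (nat_lit 156) (nat_lit 152) (nat_lit 0) (XT.nd (nat_lit 78) (nat_lit 0) (nat_lit 0) (XT.lf (nat_lit 0) (nat_lit 418293659) (nat_lit 152) (nat_lit 16373406633) (nat_lit 76) (nat_lit 4641077841) (nat_lit 65) (nat_lit 5) (nat_lit 67) (nat_lit 5) (nat_lit 66) (nat_lit 4) (nat_lit 459) (nat_lit 395) (nat_lit 346)) (XT.lf (nat_lit 0) (nat_lit 7450445793) (nat_lit 152) (nat_lit 2040197299) (nat_lit 76) (nat_lit 12617944185) (nat_lit 65) (nat_lit 5) (nat_lit 67) (nat_lit 5) (nat_lit 66) (nat_lit 4) (nat_lit 460) (nat_lit 395) (nat_lit 345))) (XT.nd (nat_lit 78) (nat_lit 76) (nat_lit 0) (XT.lf (nat_lit 0) (nat_lit 13326900656) (nat_lit 76) (nat_lit 1658112103) (nat_lit 152) (nat_lit 7825634531) (nat_lit 64) (nat_lit 5) (nat_lit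 65) (nat_lit 5) (nat_lit 66) (nat_lit 4) (nat_lit 461) (nat_lit 395) (nat_lit 344)) (XT.lf (nat_lit 0) (nat_lit 5965387995) (nat_lit 76) (nat_lit 17104672075) (nat_lit 76) (nat_lit 469063367) (nat_lit 63) (nat_lit 4) (nat_lit 64) (nat_lit 5) (nat_lit 64) (nat_lit 4) (nat_lit 462) (nat_lit 395) (nat_lit 343)))) (XT.nd (nat_lit 156) (nat_lit 152) (nat_lit 0) (XT.nd (nat_lit 78) (nat_lit 76) (nat_lit 0) (XT.lf (nat_lit 0) (nat_lit 7156643956) (nat_lit 152) (nat_lit 2032528181) (nat_lit 76) (nat_lit 15102511930) (nat_lit 62) (nat_lit 5) (nat_lit 64) (nat_lit 5) (nat_lit 63) (nat_lit 4) (nat_lit 463) (nat_lit 395) (nat_lit 342)) (XT.lf (nat_lit 0) (nat_lit 14642237958) (nat_lit 76) (nat_lit 680047825) (nat_lit 152) (nat_lit 9750482466) (nat_lit 61) (nat_lit 5) (nat_lit 62) (nat_lit 5) (nat_lit 63) (nat_lit 4) (nat_lit 464) (nat_lit 395) (nat_lit 341))) (XT.nd (nat_lit 78) (nat_lit 76) (nat_lit 0) (XT.lf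 (nat_lit 0) (nat_lit 6297584971) (nat_lit 76) (nat_lit 17806819044) (nat_lit 76) (nat_lit 1778093513) (nat_lit 60) (nat_lit 4) (nat_lit 61) (nat_lit 5) (nat_lit 61) (nat_lit 4) (nat_lit 465) (nat_lit 395) (nat_lit 340)) (XT.lf (nat_lit 0) (nat_lit 6518693002) (nat_lit 152) (nat_lit 2721381209) (nat_lit 76) (nat_lit 17480653284) (nat_lit 59) (nat_lit 5) (nat_lit 61) (nat_lit 5) (nat_lit 60) (nat_lit 4) (nat_lit 466) (nat_lit 395) (nat_lit 339))))) (XT.nd (nat_lit 312) (nat_lit 304) (nat_lit 0) (XT.nd (nat_lit 156) (nat_lit 152) (nat_lit 0) (XT.nd (nat_lit 78) (nat_lit 76) (nat_lit 0) (XT.lf (nat_lit 0) (nat_lit 15347633308) (nat_lit 76) (nat_lit 11218383) (nat_lit 152) (nat_lit 12231145917) (nat_lit 58) (nat_lit 5) (nat_lit 59) (nat_lit 5) (nat_lit 60) (nat_lit 4) (nat_lit 467) (nat_lit 395) (nat_lit 338)) (XT.lf (nat_lit 0) (nat_lit 5849570098) (nat_lit 76) (nat_lit 19029572862) (nat_lit 76) (nat_lit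 3611682532) (nat_lit 57) (nat_lit 4) (nat_lit 58) (nat_lit 5) (nat_lit 58) (nat_lit 4) (nat_lit 468) (nat_lit 395) (nat_lit 337))) (XT.nd (nat_lit 78) (nat_lit 76) (nat_lit 0) (XT.lf (nat_lit 0) (nat_lit 5424505420) (nat_lit 152) (nat_lit 4343706088) (nat_lit 76) (nat_lit 19656246729) (nat_lit 56) (nat_lit 5) (nat_lit 58) (nat_lit 5) (nat_lit 57) (nat_lit 4) (nat_lit 469) (nat_lit 395) (nat_lit 336)) (XT.lf (nat_lit 0) (nat_lit 14983248760) (nat_lit 152) (nat_lit 15195043424) (nat_lit 0) (nat_lit 213914358) (nat_lit 55) (nat_lit 5) (nat_lit 57) (nat_lit 4) (nat_lit 55) (nat_lit 4) (nat_lit 470) (nat_lit 395) (nat_lit 335)))) (XT.nd (nat_lit 156) (nat_lit 152) (nat_lit 0) (XT.nd (nat_lit 78) (nat_lit 76) (nat_lit 0) (XT.lf (nat_lit 0) (nat_lit 4343509772) (nat_lit 76) (nat_lit 20930619323) (nat_lit 76) (nat_lit 6121503584) (nat_lit 54) (nat_lit 4) (nat_lit 55) (nat_lit 5) (nat_lit 55) (nat_lit 4)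 (nat_lit 471) (nat_lit 395) (nat_lit 334)) (XT.lf (nat_lit 0) (nat_lit 3727229751) (nat_lit 152) (nat_lit 7206181735) (nat_lit 76) (nat_lit 21502330061) (nat_lit 53) (nat_lit 5) (nat_lit 55) (nat_lit 5) (nat_lit 54) (nat_lit 4) (nat_lit 472) (nat_lit 395) (nat_lit 333))) (XT.nd (nat_lit 78) (nat_lit 76) (nat_lit 0) (XT.lf (nat_lit 0) (nat_lit 13885214241) (nat_lit 76) (nat_lit 148102740) (nat_lit 152) (nat_lit 19480989610) (nat_lit 52) (nat_lit 5) (nat_lit 53) (nat_lit 5) (nat_lit 54) (nat_lit 4) (nat_lit 473) (nat_lit 395) (nat_lit 332)) (XT.lf (nat_lit 0) (nat_lit 1418554002) (nat_lit 76) (nat_lit 23710804568) (nat_lit 76) (nat_lit 9503709154) (nat_lit 51) (nat_lit 4) (nat_lit 52) (nat_lit 5) (nat_lit 52) (nat_lit 4) (nat_lit 474) (nat_lit 395) (nat_lit 331)))))) (XT.nd (nat_lit 624) (nat_lit 608) (nat_lit 0) (XT.nd (nat_lit 312) (nat_lit 304) (nat_lit 0) (XT.nd (nat_lit 156) (nat_lit 76) (nat_lit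 0) (XT.nd (nat_lit 78) (nat_lit 76) (nat_lit 0) (XT.lf (nat_lit 0) (nat_lit 1235634633) (nat_lit 152) (nat_lit 11705214132) (nat_lit 76) (nat_lit 22851443164) (nat_lit 50) (nat_lit 5) (nat_lit 52) (nat_lit 5) (nat_lit 51) (nat_lit 4) (nat_lit 475) (nat_lit 395) (nat_lit 330)) (XT.lf (nat_lit 0) (nat_lit 10988727383) (nat_lit 76) (nat_lit 1331603329) (nat_lit 152) (nat_lit 24674968398) (nat_lit 49) (nat_lit 5) (nat_lit 50) (nat_lit 5) (nat_lit 51) (nat_lit 4) (nat_lit 476) (nat_lit 395) (nat_lit 329))) (XT.nd (nat_lit 78) (nat_lit 76) (nat_lit 0) (XT.lf (nat_lit 0) (nat_lit 24286570196) (nat_lit 152) (nat_lit 3284401037) (nat_lit 0) (nat_lit 10671120262) (nat_lit 49) (nat_lit 5) (nat_lit 51) (nat_lit 4) (nat_lit 49) (nat_lit 4) (nat_lit 477) (nat_lit 395) (nat_lit 328)) (XT.lf (nat_lit 0) (nat_lit 21146167108) (nat_lit 76) (nat_lit 16015315961) (nat_lit 76) (nat_lit 2374222623) (nat_lit 48) (nat_lit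 4) (nat_lit 49) (nat_lit 5) (nat_lit 49) (nat_lit 4) (nat_lit 478) (nat_lit 395) (nat_lit 327)))) (XT.nd (nat_lit 156) (nat_lit 152) (nat_lit 0) (XT.nd (nat_lit 78) (nat_lit 0) (nat_lit 0) (XT.lf (nat_lit 0) (nat_lit 5975904309) (nat_lit 76) (nat_lit 3605276147) (nat_lit 152) (nat_lit 31299768074) (nat_lit 46) (nat_lit 5) (nat_lit 47) (nat_lit 5) (nat_lit 48) (nat_lit 4) (nat_lit 479) (nat_lit 395) (nat_lit 326)) (XT.lf (nat_lit 0) (nat_lit 22476758309) (nat_lit 152) (nat_lit 10353809856) (nat_lit 0) (nat_lit 9439829784) (nat_lit 46) (nat_lit 5) (nat_lit 48) (nat_lit 4) (nat_lit 46) (nat_lit 4) (nat_lit 480) (nat_lit 395) (nat_lit 325))) (XT.nd (nat_lit 78) (nat_lit 76) (nat_lit 0) (XT.lf (nat_lit 0) (nat_lit 15792475723) (nat_lit 76) (nat_lit 20490781325) (nat_lit 76) (nat_lit 7432755909) (nat_lit 45) (nat_lit 4) (nat_lit 46) (nat_lit 5) (nat_lit 46) (nat_lit 4) (nat_lit 481) (nat_lit 395) (nat_lit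 324)) (XT.lf (nat_lit 0) (nat_lit 5507389046) (nat_lit 152) (nat_lit 1787970148) (nat_lit 76) (nat_lit 37927283694) (nat_lit 44) (nat_lit 5) (nat_lit 46) (nat_lit 5) (nat_lit 45) (nat_lit 4) (nat_lit 482) (nat_lit 395) (nat_lit 323))))) (XT.nd (nat_lit 312) (nat_lit 304) (nat_lit 0) (XT.nd (nat_lit 156) (nat_lit 152) (nat_lit 0) (XT.nd (nat_lit 78) (nat_lit 76) (nat_lit 0) (XT.lf (nat_lit 0) (nat_lit 19328303472) (nat_lit 152) (nat_lit 20591302032) (nat_lit 0) (nat_lit 6854728999) (nat_lit 43) (nat_lit 5) (nat_lit 45) (nat_lit 4) (nat_lit 43) (nat_lit 4) (nat_lit 483) (nat_lit 395) (nat_lit 322)) (XT.lf (nat_lit 0) (nat_lit 7249290665) (nat_lit 76) (nat_lit 26816975511) (nat_lit 76) (nat_lit 14326044573) (nat_lit 42) (nat_lit 4) (nat_lit 43) (nat_lit 5) (nat_lit 43) (nat_lit 4) (nat_lit 484) (nat_lit 395) (nat_lit 321))) (XT.nd (nat_lit 78) (nat_lit 152) (nat_lit 0) (XT.lf (nat_lit 0) (nat_lit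 37122807172) (nat_lit 76) (nat_lit 12730124733) (nat_lit 76) (nat_lit 222663828) (nat_lit 42) (nat_lit 4) (nat_lit 43) (nat_lit 5) (nat_lit 43) (nat_lit 4) (nat_lit 485) (nat_lit 395) (nat_lit 320)) (XT.lf (nat_lit 0) (nat_lit 14386653944) (nat_lit 152) (nat_lit 34971831228) (nat_lit 0) (nat_lit 2459793248) (nat_lit 40) (nat_lit 5) (nat_lit 42) (nat_lit 4) (nat_lit 40) (nat_lit 4) (nat_lit 486) (nat_lit 395) (nat_lit 319)))) (XT.nd (nat_lit 156) (nat_lit 228) (nat_lit 0) (XT.nd (nat_lit 78) (nat_lit 76) (nat_lit 0) (XT.lf (nat_lit 0) (nat_lit 30114914934) (nat_lit 152) (nat_lit 5339424899) (nat_lit 0) (nat_lit 18173775030) (nat_lit 40) (nat_lit 5) (nat_lit 42) (nat_lit 4) (nat_lit 40) (nat_lit 4) (nat_lit 487) (nat_lit 395) (nat_lit 318)) (XT.lf (nat_lit 0) (nat_lit 26556285726) (nat_lit 76) (nat_lit 20453932611) (nat_lit 76) (nat_lit 8499193463) (nat_lit 39) (nat_lit 4) (nat_lit 40) (nat_lit 5)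 (nat_lit 40) (nat_lit 4) (nat_lit 488) (nat_lit 395) (nat_lit 317))) (XT.nd (nat_lit 78) (nat_lit 76) (nat_lit 0) (XT.lf (nat_lit 0) (nat_lit 2653612210) (nat_lit 76) (nat_lit 4478730726) (nat_lit 152) (nat_lit 50341790452) (nat_lit 37) (nat_lit 5) (nat_lit 38) (nat_lit 5) (nat_lit 39) (nat_lit 4) (nat_lit 489) (nat_lit 395) (nat_lit 316)) (XT.nd (nat_lit 78) (nat_lit 76) (nat_lit 0) (XT.lf (nat_lit 0) (nat_lit 23916237441) (nat_lit 152) (nat_lit 23074377556) (nat_lit 0) (nat_lit 12506689131) (nat_lit 37) (nat_lit 5) (nat_lit 39) (nat_lit 4) (nat_lit 37) (nat_lit 4) (nat_lit 490) (nat_lit 395) (nat_lit 315)) (XT.lf (nat_lit 0) (nat_lit 10455191925) (nat_lit 76) (nat_lit 31288480378) (nat_lit 76) (nat_lit 19867743936) (nat_lit 36) (nat_lit 4) (nat_lit 37) (nat_lit 5) (nat_lit 37) (nat_lit 4) (nat_lit 491) (nat_lit 395) (nat_lit 314))))))))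
noncomputable def xc166 : XT := (XT.nd (nat_lit 1248) (nat_lit 684) (nat_lit 0) (XT.nd (nat_lit 624) (nat_lit 456) (nat_lit 0) (XT.nd (nat_lit 312) (nat_lit 228) (nat_lit 0) (XT.nd (nat_lit 156) (nat_lit 76) (nat_lit 0) (XT.nd (nat_lit 78) (nat_lit 152) (nat_lit 0) (XT.lf (nat_lit 0) (nat_lit 46398289080) (nat_lit 76) (nat_lit 14423193309) (nat_lit 76) (nat_lit 2991801503) (nat_lit 36) (nat_lit 4) (nat_lit 37) (nat_lit 5) (nat_lit 37) (nat_lit 4) (nat_lit 492) (nat_lit 395) (nat_lit 313)) (XT.lf (nat_lit 0) (nat_lit 14570885699) (nat_lit 152) (nat_lit 47852964272) (nat_lit 0) (nat_lit 3674181154) (nat_lit 34) (nat_lit 5) (nat_lit 36) (nat_lit 4) (nat_lit 34) (nat_lit 4) (nat_lit 493) (nat_lit 395) (nat_lit 312))) (XT.nd (nat_lit 78) (nat_lit 76) (nat_lit 0) (XT.lf (nat_lit 0) (nat_lit 33416651456) (nat_lit 152) (nat_lit 12541895237) (nat_lit 0) (nat_lit 22510742407) (nat_lit 34) (nat_lit 5) (nat_lit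 36) (nat_lit 4) (nat_lit 34) (nat_lit 4) (nat_lit 494) (nat_lit 395) (nat_lit 311)) (XT.lf (nat_lit 0) (nat_lit 25284916457) (nat_lit 76) (nat_lit 28285296733) (nat_lit 76) (nat_lit 17370621490) (nat_lit 33) (nat_lit 4) (nat_lit 34) (nat_lit 5) (nat_lit 34) (nat_lit 4) (nat_lit 495) (nat_lit 395) (nat_lit 310)))) (XT.nd (nat_lit 156) (nat_lit 76) (nat_lit 0) (XT.nd (nat_lit 78) (nat_lit 76) (nat_lit 0) (XT.lf (nat_lit 0) (nat_lit 1343870459) (nat_lit 152) (nat_lit 8168089556) (nat_lit 76) (nat_lit 64013732438) (nat_lit 32) (nat_lit 5) (nat_lit 34) (nat_lit 5) (nat_lit 33) (nat_lit 4) (nat_lit 496) (nat_lit 395) (nat_lit 309)) (XT.lf (nat_lit 0) (nat_lit 21051729986) (nat_lit 152) (nat_lit 44500477087) (nat_lit 0) (nat_lit 10641277418) (nat_lit 31) (nat_lit 5) (nat_lit 33) (nat_lit 4) (nat_lit 31) (nat_lit 4) (nat_lit 497) (nat_lit 395) (nat_lit 308))) (XT.nd (nat_lit 78) (nat_lit 76) (nat_lit 0)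 (XT.lf (nat_lit 0) (nat_lit 42013685295) (nat_lit 152) (nat_lit 5371525011) (nat_lit 0) (nat_lit 31596020757) (nat_lit 31) (nat_lit 5) (nat_lit 33) (nat_lit 4) (nat_lit 31) (nat_lit 4) (nat_lit 498) (nat_lit 395) (nat_lit 307)) (XT.lf (nat_lit 0) (nat_lit 36839334129) (nat_lit 76) (nat_lit 27733065463) (nat_lit 76) (nat_lit 17308532383) (nat_lit 30) (nat_lit 4) (nat_lit 31) (nat_lit 5) (nat_lit 31) (nat_lit 4) (nat_lit 499) (nat_lit 395) (nat_lit 306))))) (XT.nd (nat_lit 312) (nat_lit 228) (nat_lit 0) (XT.nd (nat_lit 156) (nat_lit 76) (nat_lit 0) (XT.nd (nat_lit 78) (nat_lit 76) (nat_lit 0) (XT.lf (nat_lit 0) (nat_lit 3292708617) (nat_lit 152) (nat_lit 3681021883) (nat_lit 76) (nat_lit 77945986906) (nat_lit 29) (nat_lit 5) (nat_lit 31) (nat_lit 5) (nat_lit 30) (nat_lit 4) (nat_lit 500) (nat_lit 395) (nat_lit 305)) (XT.lf (nat_lit 0) (nat_lit 25198896029) (nat_lit 152) (nat_lit 47595924582) (nat_lit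 0) (nat_lit 15258606010) (nat_lit 28) (nat_lit 5) (nat_lit 30) (nat_lit 4) (nat_lit 28) (nat_lit 4) (nat_lit 501) (nat_lit 395) (nat_lit 304))) (XT.nd (nat_lit 78) (nat_lit 76) (nat_lit 0) (XT.lf (nat_lit 0) (nat_lit 48352866056) (nat_lit 152) (nat_lit 4576406368) (nat_lit 0) (nat_lit 38406925269) (nat_lit 28) (nat_lit 5) (nat_lit 30) (nat_lit 4) (nat_lit 28) (nat_lit 4) (nat_lit 502) (nat_lit 395) (nat_lit 303)) (XT.lf (nat_lit 0) (nat_lit 41886030335) (nat_lit 76) (nat_lit 31408451083) (nat_lit 76) (nat_lit 21457128614) (nat_lit 27) (nat_lit 4) (nat_lit 28) (nat_lit 5) (nat_lit 28) (nat_lit 4) (nat_lit 503) (nat_lit 395) (nat_lit 302)))) (XT.nd (nat_lit 156) (nat_lit 76) (nat_lit 0) (XT.nd (nat_lit 78) (nat_lit 76) (nat_lit 0) (XT.lf (nat_lit 0) (nat_lit 1163496385) (nat_lit 152) (nat_lit 7571280290) (nat_lit 76) (nat_lit 89599383664) (nat_lit 26) (nat_lit 5) (nat_lit 28) (nat_lit 5) (nat_lit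 27) (nat_lit 4) (nat_lit 504) (nat_lit 395) (nat_lit 301)) (XT.lf (nat_lit 0) (nat_lit 25060927363) (nat_lit 152) (nat_lit 61400032143) (nat_lit 0) (nat_lit 15573947147) (nat_lit 25) (nat_lit 5) (nat_lit 27) (nat_lit 4) (nat_lit 25) (nat_lit 4) (nat_lit 505) (nat_lit 395) (nat_lit 300))) (XT.nd (nat_lit 78) (nat_lit 76) (nat_lit 0) (XT.lf (nat_lit 0) (nat_lit 50403903590) (nat_lit 152) (nat_lit 14591757202) (nat_lit 0) (nat_lit 40912495851) (nat_lit 25) (nat_lit 5) (nat_lit 27) (nat_lit 4) (nat_lit 25) (nat_lit 4) (nat_lit 506) (nat_lit 395) (nat_lit 299)) (XT.lf (nat_lit 0) (nat_lit 35653909922) (nat_lit 76) (nat_lit 41895019326) (nat_lit 76) (nat_lit 32399394897) (nat_lit 24) (nat_lit 4) (nat_lit 25) (nat_lit 5) (nat_lit 25) (nat_lit 4) (nat_lit 507) (nat_lit 395) (nat_lit 298)))))) (XT.nd (nat_lit 624) (nat_lit 304) (nat_lit 0) (XT.nd (nat_lit 312) (nat_lit 152) (nat_lit 0) (XT.nd (nat_lit 156)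 (nat_lit 76) (nat_lit 0) (XT.nd (nat_lit 78) (nat_lit 152) (nat_lit 0) (XT.lf (nat_lit 0) (nat_lit 88874996329) (nat_lit 76) (nat_lit 17401929049) (nat_lit 76) (nat_lit 7902288725) (nat_lit 24) (nat_lit 4) (nat_lit 25) (nat_lit 5) (nat_lit 25) (nat_lit 4) (nat_lit 508) (nat_lit 395) (nat_lit 297)) (XT.lf (nat_lit 0) (nat_lit 17785878180) (nat_lit 152) (nat_lit 92060073208) (nat_lit 0) (nat_lit 8734959146) (nat_lit 22) (nat_lit 5) (nat_lit 24) (nat_lit 4) (nat_lit 22) (nat_lit 4) (nat_lit 509) (nat_lit 395) (nat_lit 296))) (XT.nd (nat_lit 78) (nat_lit 76) (nat_lit 0) (XT.lf (nat_lit 0) (nat_lit 45193024185) (nat_lit 152) (nat_lit 41829547307) (nat_lit 0) (nat_lit 36138636070) (nat_lit 22) (nat_lit 5) (nat_lit 24) (nat_lit 4) (nat_lit 22) (nat_lit 4) (nat_lit 510) (nat_lit 395) (nat_lit 295)) (XT.lf (nat_lit 0) (nat_lit 11231915872) (nat_lit 76) (nat_lit 62894256676) (nat_lit 76) (nat_lit 53836564675)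 (nat_lit 21) (nat_lit 4) (nat_lit 22) (nat_lit 5) (nat_lit 22) (nat_lit 4) (nat_lit 511) (nat_lit 395) (nat_lit 294)))) (XT.nd (nat_lit 156) (nat_lit 152) (nat_lit 0) (XT.nd (nat_lit 78) (nat_lit 0) (nat_lit 0) (XT.lf (nat_lit 0) (nat_lit 68359245631) (nat_lit 76) (nat_lit 36835742909) (nat_lit 76) (nat_lit 27774904349) (nat_lit 21) (nat_lit 4) (nat_lit 22) (nat_lit 5) (nat_lit 22) (nat_lit 4) (nat_lit 512) (nat_lit 395) (nat_lit 293)) (XT.lf (nat_lit 0) (nat_lit 128305385679) (nat_lit 76) (nat_lit 9493389734) (nat_lit 76) (nat_lit 429554452) (nat_lit 21) (nat_lit 4) (nat_lit 22) (nat_lit 5) (nat_lit 22) (nat_lit 4) (nat_lit 513) (nat_lit 395) (nat_lit 292))) (XT.nd (nat_lit 78) (nat_lit 0) (nat_lit 0) (XT.lf (nat_lit 0) (nat_lit 28437756295) (nat_lit 152) (nat_lit 95434043026) (nat_lit 0) (nat_lit 19802814102) (nat_lit 19) (nat_lit 5) (nat_lit 21) (nat_lit 4) (nat_lit 19) (nat_lit 4) (nat_lit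 514) (nat_lit 395) (nat_lit 291)) (XT.lf (nat_lit 0) (nat_lit 59042560974) (nat_lit 152) (nat_lit 39929839807) (nat_lit 0) (nat_lit 50405030099) (nat_lit 19) (nat_lit 5) (nat_lit 21) (nat_lit 4) (nat_lit 19) (nat_lit 4) (nat_lit 515) (nat_lit 395) (nat_lit 290))))) (XT.nd (nat_lit 312) (nat_lit 76) (nat_lit 0) (XT.nd (nat_lit 156) (nat_lit 152) (nat_lit 0) (XT.nd (nat_lit 78) (nat_lit 0) (nat_lit 0) (XT.lf (nat_lit 0) (nat_lit 18920511990) (nat_lit 76) (nat_lit 72535477183) (nat_lit 76) (nat_lit 63895480898) (nat_lit 18) (nat_lit 4) (nat_lit 19) (nat_lit 5) (nat_lit 19) (nat_lit 4) (nat_lit 516) (nat_lit 395) (nat_lit 289)) (XT.lf (nat_lit 0) (nat_lit 82065577771) (nat_lit 76) (nat_lit 44084001620) (nat_lit 76) (nat_lit 35441657324) (nat_lit 18) (nat_lit 4) (nat_lit 19) (nat_lit 5) (nat_lit 19) (nat_lit 4) (nat_lit 517) (nat_lit 395) (nat_lit 288))) (XT.nd (nat_lit 78) (nat_lit 152) (nat_lit 0)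 (XT.lf (nat_lit 0) (nat_lit 148335442098) (nat_lit 76) (nat_lit 14226463641) (nat_lit 76) (nat_lit 5581883145) (nat_lit 18) (nat_lit 4) (nat_lit 19) (nat_lit 5) (nat_lit 19) (nat_lit 4) (nat_lit 518) (nat_lit 395) (nat_lit 287)) (XT.lf (nat_lit 0) (nat_lit 25900399685) (nat_lit 152) (nat_lit 131390296184) (nat_lit 0) (nat_lit 17665437579) (nat_lit 16) (nat_lit 5) (nat_lit 18) (nat_lit 4) (nat_lit 16) (nat_lit 4) (nat_lit 519) (nat_lit 395) (nat_lit 286)))) (XT.nd (nat_lit 156) (nat_lit 76) (nat_lit 0) (XT.nd (nat_lit 78) (nat_lit 0) (nat_lit 0) (XT.lf (nat_lit 0) (nat_lit 59327966382) (nat_lit 152) (nat_lit 71657543121) (nat_lit 0) (nat_lit 51091072562) (nat_lit 16) (nat_lit 5) (nat_lit 18) (nat_lit 4) (nat_lit 16) (nat_lit 4) (nat_lit 520) (nat_lit 395) (nat_lit 285)) (XT.lf (nat_lit 0) (nat_lit 94412219547) (nat_lit 152) (nat_lit 8968082179) (nat_lit 0) (nat_lit 86173485999) (nat_lit 16) (nat_lit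 5) (nat_lit 18) (nat_lit 4) (nat_lit 16) (nat_lit 4) (nat_lit 521) (nat_lit 395) (nat_lit 284))) (XT.nd (nat_lit 78) (nat_lit 0) (nat_lit 0) (XT.lf (nat_lit 0) (nat_lit 58706316003) (nat_lit 76) (nat_lit 73446947230) (nat_lit 76) (nat_lit 65206461560) (nat_lit 15) (nat_lit 4) (nat_lit 16) (nat_lit 5) (nat_lit 16) (nat_lit 4) (nat_lit 522) (nat_lit 395) (nat_lit 283)) (XT.nd (nat_lit 78) (nat_lit 0) (nat_lit 0) (XT.lf (nat_lit 0) (nat_lit 130047740863) (nat_lit 76) (nat_lit 41871733238) (nat_lit 76) (nat_lit 33629578882) (nat_lit 15) (nat_lit 4) (nat_lit 16) (nat_lit 5) (nat_lit 16) (nat_lit 4) (nat_lit 523) (nat_lit 395) (nat_lit 282)) (XT.lf (nat_lit 0) (nat_lit 204929527636) (nat_lit 76) (nat_lit 8731359482) (nat_lit 76) (nat_lit 487615899) (nat_lit 15) (nat_lit 4) (nat_lit 16) (nat_lit 5) (nat_lit 16) (nat_lit 4) (nat_lit 524) (nat_lit 395) (nat_lit 281))))))))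
noncomputable def xc167 : XT := (XT.nd (nat_lit 1248) (nat_lit 228) (nat_lit 0) (XT.nd (nat_lit 624) (nat_lit 228) (nat_lit 0) (XT.nd (nat_lit 312) (nat_lit 152) (nat_lit 0) (XT.nd (nat_lit 156) (nat_lit 76) (nat_lit 0) (XT.nd (nat_lit 78) (nat_lit 0) (nat_lit 0) (XT.lf (nat_lit 0) (nat_lit 34596704917) (nat_lit 152) (nat_lit 161741184671) (nat_lit 0) (nat_lit 26744079078) (nat_lit 13) (nat_lit 5) (nat_lit 15) (nat_lit 4) (nat_lit 13) (nat_lit 4) (nat_lit 525) (nat_lit 395) (nat_lit 280)) (XT.lf (nat_lit 0) (nat_lit 71707994875) (nat_lit 152) (nat_lit 96885259839) (nat_lit 0) (nat_lit 63853996203) (nat_lit 13) (nat_lit 5) (nat_lit 15) (nat_lit 4) (nat_lit 13) (nat_lit 4) (nat_lit 526) (nat_lit 395) (nat_lit 279))) (XT.nd (nat_lit 78) (nat_lit 76) (nat_lit 0) (XT.lf (nat_lit 0) (nat_lit 110662769207) (nat_lit 152) (nat_lit 28811169018) (nat_lit 0) (nat_lit 102807463076) (nat_lit 13) (nat_lit 5)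 (nat_lit 15) (nat_lit 4) (nat_lit 13) (nat_lit 4) (nat_lit 527) (nat_lit 395) (nat_lit 278)) (XT.lf (nat_lit 0) (nat_lit 44053144707) (nat_lit 76) (nat_lit 108188425716) (nat_lit 76) (nat_lit 100331874385) (nat_lit 12) (nat_lit 4) (nat_lit 13) (nat_lit 5) (nat_lit 13) (nat_lit 4) (nat_lit 528) (nat_lit 395) (nat_lit 277)))) (XT.nd (nat_lit 156) (nat_lit 152) (nat_lit 0) (XT.nd (nat_lit 78) (nat_lit 0) (nat_lit 0) (XT.lf (nat_lit 0) (nat_lit 121537853812) (nat_lit 76) (nat_lit 74838071620) (nat_lit 76) (nat_lit 66980334384) (nat_lit 12) (nat_lit 4) (nat_lit 13) (nat_lit 5) (nat_lit 13) (nat_lit 4) (nat_lit 529) (nat_lit 395) (nat_lit 276)) (XT.lf (nat_lit 0) (nat_lit 202874818335) (nat_lit 76) (nat_lit 39831401421) (nat_lit 76) (nat_lit 31972534751) (nat_lit 12) (nat_lit 4) (nat_lit 13) (nat_lit 5) (nat_lit 13) (nat_lit 4) (nat_lit 530) (nat_lit 395) (nat_lit 275))) (XT.nd (nat_lit 78) (nat_lit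 0) (nat_lit 0) (XT.lf (nat_lit 0) (nat_lit 1668669142) (nat_lit 76) (nat_lit 2979434010) (nat_lit 152) (nat_lit 281914753963) (nat_lit 10) (nat_lit 5) (nat_lit 11) (nat_lit 5) (nat_lit 12) (nat_lit 4) (nat_lit 531) (nat_lit 395) (nat_lit 274)) (XT.lf (nat_lit 0) (nat_lit 43808438712) (nat_lit 152) (nat_lit 218795557812) (nat_lit 0) (nat_lit 36321803712) (nat_lit 10) (nat_lit 5) (nat_lit 12) (nat_lit 4) (nat_lit 10) (nat_lit 4) (nat_lit 532) (nat_lit 395) (nat_lit 273))))) (XT.nd (nat_lit 312) (nat_lit 152) (nat_lit 0) (XT.nd (nat_lit 156) (nat_lit 76) (nat_lit 0) (XT.nd (nat_lit 78) (nat_lit 0) (nat_lit 0) (XT.lf (nat_lit 0) (nat_lit 84965700794) (nat_lit 152) (nat_lit 149461107634) (nat_lit 0) (nat_lit 77478136607) (nat_lit 10) (nat_lit 5) (nat_lit 12) (nat_lit 4) (nat_lit 10) (nat_lit 4) (nat_lit 533) (nat_lit 395) (nat_lit 272)) (XT.lf (nat_lit 0) (nat_lit 128171365565) (nat_lit 152) (nat_lit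 76679238102) (nat_lit 0) (nat_lit 120682916438) (nat_lit 10) (nat_lit 5) (nat_lit 12) (nat_lit 4) (nat_lit 10) (nat_lit 4) (nat_lit 534) (nat_lit 395) (nat_lit 271))) (XT.nd (nat_lit 78) (nat_lit 76) (nat_lit 0) (XT.lf (nat_lit 0) (nat_lit 173528303656) (nat_lit 152) (nat_lit 276659050) (nat_lit 0) (nat_lit 166039011728) (nat_lit 10) (nat_lit 5) (nat_lit 12) (nat_lit 4) (nat_lit 10) (nat_lit 4) (nat_lit 535) (nat_lit 395) (nat_lit 270)) (XT.lf (nat_lit 0) (nat_lit 82571338939) (nat_lit 76) (nat_lit 139862338843) (nat_lit 76) (nat_lit 132372244248) (nat_lit 9) (nat_lit 4) (nat_lit 10) (nat_lit 5) (nat_lit 10) (nat_lit 4) (nat_lit 536) (nat_lit 395) (nat_lit 269)))) (XT.nd (nat_lit 156) (nat_lit 152) (nat_lit 0) (XT.nd (nat_lit 78) (nat_lit 0) (nat_lit 0) (XT.lf (nat_lit 0) (nat_lit 169554115671) (nat_lit 76) (nat_lit 104226449088) (nat_lit 76) (nat_lit 96735590048) (nat_lit 9) (nat_lit 4) (nat_lit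 10) (nat_lit 5) (nat_lit 10) (nat_lit 4) (nat_lit 537) (nat_lit 395) (nat_lit 268)) (XT.lf (nat_lit 0) (nat_lit 260869625398) (nat_lit 76) (nat_lit 66817131438) (nat_lit 76) (nat_lit 59325544355) (nat_lit 9) (nat_lit 4) (nat_lit 10) (nat_lit 5) (nat_lit 10) (nat_lit 4) (nat_lit 538) (nat_lit 395) (nat_lit 267))) (XT.nd (nat_lit 78) (nat_lit 152) (nat_lit 0) (XT.lf (nat_lit 0) (nat_lit 356735285999) (nat_lit 76) (nat_lit 27545316091) (nat_lit 76) (nat_lit 20053035634) (nat_lit 9) (nat_lit 4) (nat_lit 10) (nat_lit 5) (nat_lit 10) (nat_lit 4) (nat_lit 539) (nat_lit 395) (nat_lit 266)) (XT.lf (nat_lit 0) (nat_lit 21282759583) (nat_lit 152) (nat_lit 387036237029) (nat_lit 0) (nat_lit 14146625476) (nat_lit 7) (nat_lit 5) (nat_lit 9) (nat_lit 4) (nat_lit 7) (nat_lit 4) (nat_lit 540) (nat_lit 395) (nat_lit 265)))))) (XT.nd (nat_lit 624) (nat_lit 152) (nat_lit 0) (XT.nd (nat_lit 312) (nat_lit 76) (nat_lit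 0) (XT.nd (nat_lit 156) (nat_lit 0) (nat_lit 0) (XT.nd (nat_lit 78) (nat_lit 0) (nat_lit 0) (XT.lf (nat_lit 0) (nat_lit 65274900203) (nat_lit 152) (nat_lit 318011527970) (nat_lit 0) (nat_lit 58138167133) (nat_lit 7) (nat_lit 5) (nat_lit 9) (nat_lit 4) (nat_lit 7) (nat_lit 4) (nat_lit 541) (nat_lit 395) (nat_lit 264)) (XT.lf (nat_lit 0) (nat_lit 111459591360) (nat_lit 152) (nat_lit 245549990804) (nat_lit 0) (nat_lit 104322287850) (nat_lit 7) (nat_lit 5) (nat_lit 9) (nat_lit 4) (nat_lit 7) (nat_lit 4) (nat_lit 542) (nat_lit 395) (nat_lit 263))) (XT.nd (nat_lit 78) (nat_lit 0) (nat_lit 0) (XT.lf (nat_lit 0) (nat_lit 159946796608) (nat_lit 152) (nat_lit 169479098059) (nat_lit 0) (nat_lit 152808949821) (nat_lit 7) (nat_lit 5) (nat_lit 9) (nat_lit 4) (nat_lit 7) (nat_lit 4) (nat_lit 543) (nat_lit 395) (nat_lit 262)) (XT.lf (nat_lit 0) (nat_lit 210851961671) (nat_lit 152) (nat_lit 89617728564) (nat_lit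 0) (nat_lit 203713597477) (nat_lit 7) (nat_lit 5) (nat_lit 9) (nat_lit 4) (nat_lit 7) (nat_lit 4) (nat_lit 544) (nat_lit 395) (nat_lit 261)))) (XT.nd (nat_lit 156) (nat_lit 0) (nat_lit 0) (XT.nd (nat_lit 78) (nat_lit 76) (nat_lit 0) (XT.lf (nat_lit 0) (nat_lit 264296289324) (nat_lit 152) (nat_lit 5775736200) (nat_lit 0) (nat_lit 257157432362) (nat_lit 7) (nat_lit 5) (nat_lit 9) (nat_lit 4) (nat_lit 7) (nat_lit 4) (nat_lit 545) (nat_lit 395) (nat_lit 260)) (XT.lf (nat_lit 0) (nat_lit 84965943642) (nat_lit 76) (nat_lit 236767640820) (nat_lit 76) (nat_lit 229628314556) (nat_lit 6) (nat_lit 4) (nat_lit 7) (nat_lit 5) (nat_lit 7) (nat_lit 4) (nat_lit 546) (nat_lit 395) (nat_lit 259))) (XT.nd (nat_lit 78) (nat_lit 0) (nat_lit 0) (XT.lf (nat_lit 0) (nat_lit 180433566216) (nat_lit 76) (nat_lit 201701282011) (nat_lit 76) (nat_lit 194561508792) (nat_lit 6) (nat_lit 4) (nat_lit 7) (nat_lit 5) (nat_lit 7)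 (nat_lit 4) (nat_lit 547) (nat_lit 395) (nat_lit 258)) (XT.lf (nat_lit 0) (nat_lit 280663463459) (nat_lit 76) (nat_lit 164887272654) (nat_lit 76) (nat_lit 157747073763) (nat_lit 6) (nat_lit 4) (nat_lit 7) (nat_lit 5) (nat_lit 7) (nat_lit 4) (nat_lit 548) (nat_lit 395) (nat_lit 257))))) (XT.nd (nat_lit 312) (nat_lit 0) (nat_lit 0) (XT.nd (nat_lit 156) (nat_lit 152) (nat_lit 0) (XT.nd (nat_lit 78) (nat_lit 0) (nat_lit 0) (XT.lf (nat_lit 0) (nat_lit 385894277985) (nat_lit 76) (nat_lit 126237960346) (nat_lit 76) (nat_lit 119097356054) (nat_lit 6) (nat_lit 4) (nat_lit 7) (nat_lit 5) (nat_lit 7) (nat_lit 4) (nat_lit 549) (nat_lit 395) (nat_lit 256)) (XT.lf (nat_lit 0) (nat_lit 496376559352) (nat_lit 76) (nat_lit 85661322914) (nat_lit 76) (nat_lit 78520332525) (nat_lit 6) (nat_lit 4) (nat_lit 7) (nat_lit 5) (nat_lit 7) (nat_lit 4) (nat_lit 550) (nat_lit 395) (nat_lit 255))) (XT.nd (nat_lit 78) (nat_lit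 152) (nat_lit 0) (XT.lf (nat_lit 0) (nat_lit 612373360612) (nat_lit 76) (nat_lit 43060749317) (nat_lit 76) (nat_lit 35919391217) (nat_lit 6) (nat_lit 4) (nat_lit 7) (nat_lit 5) (nat_lit 7) (nat_lit 4) (nat_lit 551) (nat_lit 395) (nat_lit 254)) (XT.lf (nat_lit 0) (nat_lit 8722694803) (nat_lit 152) (nat_lit 713028254293) (nat_lit 0) (nat_lit 1921067850) (nat_lit 4) (nat_lit 5) (nat_lit 6) (nat_lit 4) (nat_lit 4) (nat_lit 4) (nat_lit 552) (nat_lit 395) (nat_lit 253)))) (XT.nd (nat_lit 156) (nat_lit 0) (nat_lit 0) (XT.nd (nat_lit 78) (nat_lit 0) (nat_lit 0) (XT.lf (nat_lit 0) (nat_lit 56450619191) (nat_lit 152) (nat_lit 651374679572) (nat_lit 0) (nat_lit 49648674595) (nat_lit 4) (nat_lit 5) (nat_lit 6) (nat_lit 4) (nat_lit 4) (nat_lit 4) (nat_lit 553) (nat_lit 395) (nat_lit 252)) (XT.lf (nat_lit 0) (nat_lit 106560609323) (nat_lit 152) (nat_lit 586647272584) (nat_lit 0) (nat_lit 99758362211) (nat_lit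 4) (nat_lit 5) (nat_lit 6) (nat_lit 4) (nat_lit 4) (nat_lit 4) (nat_lit 554) (nat_lit 395) (nat_lit 251))) (XT.nd (nat_lit 51012) (nat_lit 0) (nat_lit 15276) (XT.lf (nat_lit 0) (nat_lit 159171974700) (nat_lit 152) (nat_lit 518691920455) (nat_lit 0) (nat_lit 152369439476) (nat_lit 4) (nat_lit 5) (nat_lit 6) (nat_lit 4) (nat_lit 4) (nat_lit 4) (nat_lit 555) (nat_lit 395) (nat_lit 250)) (XT.nd (nat_lit 78) (nat_lit 380) (nat_lit 0) (XT.lf (nat_lit 0) (nat_lit 932906148) (nat_lit 380) (nat_lit 1446825011) (nat_lit 0) (nat_lit 932906148) (nat_lit 210) (nat_lit 5) (nat_lit 215) (nat_lit 4) (nat_lit 210) (nat_lit 4) (nat_lit 408) (nat_lit 396) (nat_lit 396)) (XT.lf (nat_lit 0) (nat_lit 1381828850) (nat_lit 380) (nat_lit 3788016924) (nat_lit 380) (nat_lit 1505619915) (nat_lit 205) (nat_lit 4) (nat_lit 210) (nat_lit 5) (nat_lit 210) (nat_lit 4) (nat_lit 409) (nat_lit 396) (nat_lit 395))))))))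
noncomputable def xc168 : XT := (XT.nd (nat_lit 1248) (nat_lit 2888) (nat_lit 0) (XT.nd (nat_lit 624) (nat_lit 2356) (nat_lit 0) (XT.nd (nat_lit 312) (nat_lit 2204) (nat_lit 0) (XT.nd (nat_lit 156) (nat_lit 608) (nat_lit 0) (XT.nd (nat_lit 78) (nat_lit 456) (nat_lit 0) (XT.lf (nat_lit 0) (nat_lit 1718504698) (nat_lit 456) (nat_lit 933173813) (nat_lit 76) (nat_lit 4081579787) (nat_lit 204) (nat_lit 5) (nat_lit 210) (nat_lit 5) (nat_lit 205) (nat_lit 4) (nat_lit 410) (nat_lit 396) (nat_lit 394)) (XT.lf (nat_lit 0) (nat_lit 3594375064) (nat_lit 456) (nat_lit 1342544388) (nat_lit 532) (nat_lit 1861623110) (nat_lit 198) (nat_lit 5) (nat_lit 204) (nat_lit 5) (nat_lit 205) (nat_lit 4) (nat_lit 411) (nat_lit 396) (nat_lit 393))) (XT.nd (nat_lit 78) (nat_lit 0) (nat_lit 0) (XT.lf (nat_lit 0) (nat_lit 1273300402) (nat_lit 608) (nat_lit 5483000999) (nat_lit 76) (nat_lit 116150809) (nat_lit 190) (nat_lit 5)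 (nat_lit 198) (nat_lit 5) (nat_lit 191) (nat_lit 4) (nat_lit 412) (nat_lit 396) (nat_lit 392)) (XT.lf (nat_lit 0) (nat_lit 4416589356) (nat_lit 608) (nat_lit 827576421) (nat_lit 76) (nat_lit 1708674051) (nat_lit 190) (nat_lit 5) (nat_lit 198) (nat_lit 5) (nat_lit 191) (nat_lit 4) (nat_lit 413) (nat_lit 396) (nat_lit 391)))) (XT.nd (nat_lit 156) (nat_lit 836) (nat_lit 0) (XT.nd (nat_lit 78) (nat_lit 684) (nat_lit 0) (XT.lf (nat_lit 0) (nat_lit 564470851) (nat_lit 684) (nat_lit 3004463502) (nat_lit 76) (nat_lit 3472476048) (nat_lit 181) (nat_lit 5) (nat_lit 190) (nat_lit 5) (nat_lit 182) (nat_lit 5) (nat_lit 414) (nat_lit 396) (nat_lit 390)) (XT.lf (nat_lit 0) (nat_lit 1912764412) (nat_lit 684) (nat_lit 1713828542) (nat_lit 760) (nat_lit 3511172813) (nat_lit 172) (nat_lit 5) (nat_lit 181) (nat_lit 5) (nat_lit 182) (nat_lit 5) (nat_lit 415) (nat_lit 396) (nat_lit 389))) (XT.nd (nat_lit 78) (nat_lit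 836) (nat_lit 0) (XT.lf (nat_lit 0) (nat_lit 6749750290) (nat_lit 760) (nat_lit 212171398) (nat_lit 76) (nat_lit 281635163) (nat_lit 172) (nat_lit 5) (nat_lit 182) (nat_lit 5) (nat_lit 173) (nat_lit 4) (nat_lit 416) (nat_lit 396) (nat_lit 388)) (XT.lf (nat_lit 0) (nat_lit 2554633584) (nat_lit 836) (nat_lit 2357249935) (nat_lit 76) (nat_lit 2442389072) (nat_lit 161) (nat_lit 5) (nat_lit 172) (nat_lit 5) (nat_lit 162) (nat_lit 5) (nat_lit 417) (nat_lit 396) (nat_lit 387))))) (XT.nd (nat_lit 312) (nat_lit 1064) (nat_lit 0) (XT.nd (nat_lit 156) (nat_lit 380) (nat_lit 0) (XT.nd (nat_lit 78) (nat_lit 456) (nat_lit 0) (XT.lf (nat_lit 0) (nat_lit 2943252686) (nat_lit 456) (nat_lit 2707062211) (nat_lit 532) (nat_lit 1824246189) (nat_lit 155) (nat_lit 5) (nat_lit 161) (nat_lit 5) (nat_lit 162) (nat_lit 5) (nat_lit 418) (nat_lit 396) (nat_lit 386)) (XT.lf (nat_lit 0) (nat_lit 849344230) (nat_lit 380) (nat_lit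 326736904) (nat_lit 456) (nat_lit 6427890877) (nat_lit 149) (nat_lit 5) (nat_lit 154) (nat_lit 5) (nat_lit 155) (nat_lit 5) (nat_lit 419) (nat_lit 396) (nat_lit 385))) (XT.nd (nat_lit 78) (nat_lit 380) (nat_lit 0) (XT.lf (nat_lit 0) (nat_lit 4244942255) (nat_lit 456) (nat_lit 1297377938) (nat_lit 76) (nat_lit 2197057552) (nat_lit 149) (nat_lit 5) (nat_lit 155) (nat_lit 5) (nat_lit 150) (nat_lit 5) (nat_lit 420) (nat_lit 396) (nat_lit 384)) (XT.lf (nat_lit 0) (nat_lit 4423605254) (nat_lit 380) (nat_lit 2992258288) (nat_lit 456) (nat_lit 468269607) (nat_lit 144) (nat_lit 5) (nat_lit 149) (nat_lit 5) (nat_lit 150) (nat_lit 5) (nat_lit 421) (nat_lit 396) (nat_lit 383)))) (XT.nd (nat_lit 156) (nat_lit 380) (nat_lit 0) (XT.nd (nat_lit 78) (nat_lit 304) (nat_lit 0) (XT.lf (nat_lit 0) (nat_lit 2325294895) (nat_lit 304) (nat_lit 231778054) (nat_lit 380) (nat_lit 5480218753) (nat_lit 139) (nat_lit 5) (nat_lit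 143) (nat_lit 5) (nat_lit 144) (nat_lit 5) (nat_lit 422) (nat_lit 396) (nat_lit 382)) (XT.lf (nat_lit 0) (nat_lit 128824645) (nat_lit 304) (nat_lit 5571544944) (nat_lit 380) (nat_lit 2498242416) (nat_lit 135) (nat_lit 5) (nat_lit 139) (nat_lit 5) (nat_lit 140) (nat_lit 5) (nat_lit 423) (nat_lit 396) (nat_lit 381))) (XT.nd (nat_lit 78) (nat_lit 304) (nat_lit 0) (XT.lf (nat_lit 0) (nat_lit 595419773) (nat_lit 380) (nat_lit 2070357473) (nat_lit 76) (nat_lit 5702593002) (nat_lit 134) (nat_lit 5) (nat_lit 139) (nat_lit 5) (nat_lit 135) (nat_lit 5) (nat_lit 424) (nat_lit 396) (nat_lit 380)) (XT.lf (nat_lit 0) (nat_lit 3718694925) (nat_lit 380) (nat_lit 4377174139) (nat_lit 76) (nat_lit 450762879) (nat_lit 130) (nat_lit 5) (nat_lit 135) (nat_lit 5) (nat_lit 131) (nat_lit 5) (nat_lit 425) (nat_lit 396) (nat_lit 379)))))) (XT.nd (nat_lit 624) (nat_lit 1216) (nat_lit 0) (XT.nd (nat_lit 312) (nat_lit 760)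 (nat_lit 0) (XT.nd (nat_lit 156) (nat_lit 532) (nat_lit 0) (XT.nd (nat_lit 78) (nat_lit 76) (nat_lit 0) (XT.lf (nat_lit 0) (nat_lit 1931238121) (nat_lit 304) (nat_lit 5065475185) (nat_lit 380) (nat_lit 1737171720) (nat_lit 126) (nat_lit 5) (nat_lit 130) (nat_lit 5) (nat_lit 131) (nat_lit 5) (nat_lit 426) (nat_lit 396) (nat_lit 378)) (XT.lf (nat_lit 0) (nat_lit 1425537907) (nat_lit 380) (nat_lit 393160534) (nat_lit 76) (nat_lit 7112347828) (nat_lit 125) (nat_lit 5) (nat_lit 130) (nat_lit 5) (nat_lit 126) (nat_lit 5) (nat_lit 427) (nat_lit 396) (nat_lit 377))) (XT.nd (nat_lit 78) (nat_lit 304) (nat_lit 0) (XT.lf (nat_lit 0) (nat_lit 4709368530) (nat_lit 304) (nat_lit 2792586341) (nat_lit 76) (nat_lit 1633624784) (nat_lit 122) (nat_lit 5) (nat_lit 126) (nat_lit 5) (nat_lit 123) (nat_lit 5) (nat_lit 428) (nat_lit 396) (nat_lit 376)) (XT.lf (nat_lit 0) (nat_lit 4035039466) (nat_lit 304) (nat_lit 4119696534)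 (nat_lit 380) (nat_lit 1195742429) (nat_lit 118) (nat_lit 5) (nat_lit 122) (nat_lit 5) (nat_lit 123) (nat_lit 5) (nat_lit 429) (nat_lit 396) (nat_lit 375)))) (XT.nd (nat_lit 156) (nat_lit 456) (nat_lit 0) (XT.nd (nat_lit 78) (nat_lit 0) (nat_lit 0) (XT.lf (nat_lit 0) (nat_lit 1598525502) (nat_lit 228) (nat_lit 499243686) (nat_lit 304) (nat_lit 7478053244) (nat_lit 114) (nat_lit 5) (nat_lit 117) (nat_lit 5) (nat_lit 118) (nat_lit 5) (nat_lit 430) (nat_lit 396) (nat_lit 374)) (XT.lf (nat_lit 0) (nat_lit 5559521003) (nat_lit 304) (nat_lit 984568961) (nat_lit 76) (nat_lit 3265181253) (nat_lit 114) (nat_lit 5) (nat_lit 118) (nat_lit 5) (nat_lit 115) (nat_lit 5) (nat_lit 431) (nat_lit 396) (nat_lit 373))) (XT.nd (nat_lit 78) (nat_lit 228) (nat_lit 0) (XT.lf (nat_lit 0) (nat_lit 6415195127) (nat_lit 228) (nat_lit 2792934539) (nat_lit 304) (nat_lit 845579238) (nat_lit 111) (nat_lit 5) (nat_lit 114) (nat_lit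 5) (nat_lit 115) (nat_lit 5) (nat_lit 432) (nat_lit 396) (nat_lit 372)) (XT.lf (nat_lit 0) (nat_lit 2643893049) (nat_lit 228) (nat_lit 6478868265) (nat_lit 76) (nat_lit 1185359846) (nat_lit 108) (nat_lit 5) (nat_lit 111) (nat_lit 5) (nat_lit 109) (nat_lit 5) (nat_lit 433) (nat_lit 396) (nat_lit 371))))) (XT.nd (nat_lit 312) (nat_lit 532) (nat_lit 0) (XT.nd (nat_lit 156) (nat_lit 456) (nat_lit 0) (XT.nd (nat_lit 78) (nat_lit 0) (nat_lit 0) (XT.lf (nat_lit 0) (nat_lit 1055512884) (nat_lit 228) (nat_lit 5256642674) (nat_lit 304) (nat_lit 4260772948) (nat_lit 105) (nat_lit 5) (nat_lit 108) (nat_lit 5) (nat_lit 109) (nat_lit 5) (nat_lit 434) (nat_lit 396) (nat_lit 370)) (XT.lf (nat_lit 0) (nat_lit 9051669757) (nat_lit 228) (nat_lit 1131927155) (nat_lit 304) (nat_lit 666395071) (nat_lit 105) (nat_lit 5) (nat_lit 108) (nat_lit 5) (nat_lit 109) (nat_lit 5) (nat_lit 435) (nat_lit 396) (nat_lit 369))) (XT.nd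 (nat_lit 78) (nat_lit 228) (nat_lit 0) (XT.lf (nat_lit 0) (nat_lit 3071492544) (nat_lit 228) (nat_lit 4864964644) (nat_lit 76) (nat_lit 3198866289) (nat_lit 102) (nat_lit 5) (nat_lit 105) (nat_lit 5) (nat_lit 103) (nat_lit 5) (nat_lit 436) (nat_lit 396) (nat_lit 368)) (XT.lf (nat_lit 0) (nat_lit 3310078240) (nat_lit 228) (nat_lit 3679203019) (nat_lit 304) (nat_lit 4444327462) (nat_lit 99) (nat_lit 5) (nat_lit 102) (nat_lit 5) (nat_lit 103) (nat_lit 5) (nat_lit 437) (nat_lit 396) (nat_lit 367)))) (XT.nd (nat_lit 156) (nat_lit 304) (nat_lit 0) (XT.nd (nat_lit 78) (nat_lit 76) (nat_lit 0) (XT.lf (nat_lit 0) (nat_lit 173364971) (nat_lit 152) (nat_lit 10943774914) (nat_lit 228) (nat_lit 628962653) (nat_lit 97) (nat_lit 5) (nat_lit 99) (nat_lit 5) (nat_lit 100) (nat_lit 4) (nat_lit 438) (nat_lit 396) (nat_lit 366)) (XT.lf (nat_lit 0) (nat_lit 3385151800) (nat_lit 228) (nat_lit 3154621450) (nat_lit 76)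 (nat_lit 5526010866) (nat_lit 96) (nat_lit 5) (nat_lit 99) (nat_lit 5) (nat_lit 97) (nat_lit 5) (nat_lit 439) (nat_lit 396) (nat_lit 365))) (XT.nd (nat_lit 78) (nat_lit 152) (nat_lit 0) (XT.lf (nat_lit 0) (nat_lit 5724826681) (nat_lit 152) (nat_lit 1863318026) (nat_lit 228) (nat_lit 4812326902) (nat_lit 94) (nat_lit 5) (nat_lit 96) (nat_lit 5) (nat_lit 97) (nat_lit 5) (nat_lit 440) (nat_lit 396) (nat_lit 364)) (XT.lf (nat_lit 0) (nat_lit 2300260952) (nat_lit 152) (nat_lit 9759706492) (nat_lit 228) (nat_lit 688994767) (nat_lit 92) (nat_lit 5) (nat_lit 94) (nat_lit 5) (nat_lit 95) (nat_lit 4) (nat_lit 441) (nat_lit 396) (nat_lit 363)))))))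
noncomputable def xc169 : XT := (XT.nd (nat_lit 1248) (nat_lit 1216) (nat_lit 0) (XT.nd (nat_lit 624) (nat_lit 912) (nat_lit 0) (XT.nd (nat_lit 312) (nat_lit 304) (nat_lit 0) (XT.nd (nat_lit 156) (nat_lit 380) (nat_lit 0) (XT.nd (nat_lit 78) (nat_lit 152) (nat_lit 0) (XT.lf (nat_lit 0) (nat_lit 3590779827) (nat_lit 228) (nat_lit 1375648603) (nat_lit 76) (nat_lit 8142269740) (nat_lit 91) (nat_lit 5) (nat_lit 94) (nat_lit 5) (nat_lit 92) (nat_lit 5) (nat_lit 442) (nat_lit 396) (nat_lit 362)) (XT.lf (nat_lit 0) (nat_lit 8118224063) (nat_lit 228) (nat_lit 5208515992) (nat_lit 76) (nat_lit 156276708) (nat_lit 89) (nat_lit 5) (nat_lit 92) (nat_lit 5) (nat_lit 90) (nat_lit 4) (nat_lit 443) (nat_lit 396) (nat_lit 361))) (XT.nd (nat_lit 78) (nat_lit 228) (nat_lit 0) (XT.lf (nat_lit 0) (nat_lit 4514389780) (nat_lit 152) (nat_lit 8459108408) (nat_lit 228) (nat_lit 897482469) (nat_lit 87) (nat_lit 5) (nat_lit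 89) (nat_lit 5) (nat_lit 90) (nat_lit 4) (nat_lit 444) (nat_lit 396) (nat_lit 360)) (XT.lf (nat_lit 0) (nat_lit 455546818) (nat_lit 152) (nat_lit 3239253712) (nat_lit 228) (nat_lit 10579432488) (nat_lit 84) (nat_lit 5) (nat_lit 86) (nat_lit 5) (nat_lit 87) (nat_lit 5) (nat_lit 445) (nat_lit 396) (nat_lit 359)))) (XT.nd (nat_lit 156) (nat_lit 228) (nat_lit 0) (XT.nd (nat_lit 78) (nat_lit 76) (nat_lit 0) (XT.lf (nat_lit 0) (nat_lit 8609521676) (nat_lit 228) (nat_lit 3788291202) (nat_lit 76) (nat_lit 2292952162) (nat_lit 84) (nat_lit 5) (nat_lit 87) (nat_lit 5) (nat_lit 85) (nat_lit 4) (nat_lit 446) (nat_lit 396) (nat_lit 358)) (XT.lf (nat_lit 0) (nat_lit 6784437623) (nat_lit 76) (nat_lit 7074978962) (nat_lit 152) (nat_lit 1264237048) (nat_lit 83) (nat_lit 5) (nat_lit 84) (nat_lit 5) (nat_lit 85) (nat_lit 4) (nat_lit 447) (nat_lit 396) (nat_lit 357))) (XT.nd (nat_lit 78) (nat_lit 0) (nat_lit 0) (XT.lf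 (nat_lit 0) (nat_lit 2333208576) (nat_lit 152) (nat_lit 1371340444) (nat_lit 228) (nat_lit 11869060419) (nat_lit 80) (nat_lit 5) (nat_lit 82) (nat_lit 5) (nat_lit 83) (nat_lit 5) (nat_lit 448) (nat_lit 396) (nat_lit 356)) (XT.lf (nat_lit 0) (nat_lit 9026200266) (nat_lit 228) (nat_lit 2429459258) (nat_lit 76) (nat_lit 4582023229) (nat_lit 80) (nat_lit 5) (nat_lit 83) (nat_lit 5) (nat_lit 81) (nat_lit 4) (nat_lit 449) (nat_lit 396) (nat_lit 355))))) (XT.nd (nat_lit 312) (nat_lit 532) (nat_lit 0) (XT.nd (nat_lit 156) (nat_lit 76) (nat_lit 0) (XT.nd (nat_lit 78) (nat_lit 228) (nat_lit 0) (XT.lf (nat_lit 0) (nat_lit 9071710718) (nat_lit 76) (nat_lit 5640888549) (nat_lit 152) (nat_lit 1807428734) (nat_lit 79) (nat_lit 5) (nat_lit 80) (nat_lit 5) (nat_lit 81) (nat_lit 4) (nat_lit 450) (nat_lit 396) (nat_lit 354)) (XT.lf (nat_lit 0) (nat_lit 3590539341) (nat_lit 228) (nat_lit 12865717836) (nat_lit 76)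 (nat_lit 564842403) (nat_lit 76) (nat_lit 5) (nat_lit 79) (nat_lit 5) (nat_lit 77) (nat_lit 4) (nat_lit 451) (nat_lit 396) (nat_lit 353))) (XT.nd (nat_lit 78) (nat_lit 76) (nat_lit 0) (XT.lf (nat_lit 0) (nat_lit 9353608307) (nat_lit 228) (nat_lit 1186140180) (nat_lit 76) (nat_lit 6998198875) (nat_lit 76) (nat_lit 5) (nat_lit 79) (nat_lit 5) (nat_lit 77) (nat_lit 4) (nat_lit 452) (nat_lit 396) (nat_lit 352)) (XT.lf (nat_lit 0) (nat_lit 11326698080) (nat_lit 76) (nat_lit 4193318543) (nat_lit 152) (nat_lit 2554862873) (nat_lit 75) (nat_lit 5) (nat_lit 76) (nat_lit 5) (nat_lit 77) (nat_lit 4) (nat_lit 453) (nat_lit 396) (nat_lit 351)))) (XT.nd (nat_lit 156) (nat_lit 304) (nat_lit 0) (XT.nd (nat_lit 78) (nat_lit 0) (nat_lit 0) (XT.lf (nat_lit 0) (nat_lit 3340073386) (nat_lit 228) (nat_lit 12782873669) (nat_lit 76) (nat_lit 2508522321) (nat_lit 72) (nat_lit 5) (nat_lit 75) (nat_lit 5) (nat_lit 73) (nat_lit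 4) (nat_lit 454) (nat_lit 396) (nat_lit 350)) (XT.lf (nat_lit 0) (nat_lit 9567726828) (nat_lit 228) (nat_lit 127013427) (nat_lit 76) (nat_lit 9512863906) (nat_lit 72) (nat_lit 5) (nat_lit 75) (nat_lit 5) (nat_lit 73) (nat_lit 4) (nat_lit 455) (nat_lit 396) (nat_lit 349))) (XT.nd (nat_lit 78) (nat_lit 228) (nat_lit 0) (XT.lf (nat_lit 0) (nat_lit 13484826350) (nat_lit 76) (nat_lit 2774310968) (nat_lit 152) (nat_lit 3545790682) (nat_lit 71) (nat_lit 5) (nat_lit 72) (nat_lit 5) (nat_lit 73) (nat_lit 4) (nat_lit 456) (nat_lit 396) (nat_lit 348)) (XT.lf (nat_lit 0) (nat_lit 2893965658) (nat_lit 228) (nat_lit 13064447169) (nat_lit 76) (nat_lit 4464865014) (nat_lit 68) (nat_lit 5) (nat_lit 71) (nat_lit 5) (nat_lit 69) (nat_lit 4) (nat_lit 457) (nat_lit 396) (nat_lit 347)))))) (XT.nd (nat_lit 624) (nat_lit 684) (nat_lit 0) (XT.nd (nat_lit 312) (nat_lit 228) (nat_lit 0) (XT.nd (nat_lit 156) (nat_lit 228)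 (nat_lit 0) (XT.nd (nat_lit 78) (nat_lit 0) (nat_lit 0) (XT.lf (nat_lit 0) (nat_lit 681487752) (nat_lit 76) (nat_lit 8962289844) (nat_lit 152) (nat_lit 11420500607) (nat_lit 67) (nat_lit 5) (nat_lit 68) (nat_lit 5) (nat_lit 69) (nat_lit 4) (nat_lit 458) (nat_lit 396) (nat_lit 346)) (XT.lf (nat_lit 0) (nat_lit 15461146904) (nat_lit 76) (nat_lit 1434580360) (nat_lit 152) (nat_lit 4833369812) (nat_lit 67) (nat_lit 5) (nat_lit 68) (nat_lit 5) (nat_lit 69) (nat_lit 4) (nat_lit 459) (nat_lit 396) (nat_lit 345))) (XT.nd (nat_lit 78) (nat_lit 76) (nat_lit 0) (XT.lf (nat_lit 0) (nat_lit 2200396047) (nat_lit 152) (nat_lit 13829946702) (nat_lit 76) (nat_lit 6385991185) (nat_lit 65) (nat_lit 5) (nat_lit 67) (nat_lit 5) (nat_lit 66) (nat_lit 4) (nat_lit 460) (nat_lit 396) (nat_lit 344)) (XT.lf (nat_lit 0) (nat_lit 1094864146) (nat_lit 76) (nat_lit 8422519457) (nat_lit 152) (nat_lit 13611889672) (nat_lit 64)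 (nat_lit 5) (nat_lit 65) (nat_lit 5) (nat_lit 66) (nat_lit 4) (nat_lit 461) (nat_lit 396) (nat_lit 343)))) (XT.nd (nat_lit 156) (nat_lit 76) (nat_lit 0) (XT.nd (nat_lit 78) (nat_lit 152) (nat_lit 0) (XT.lf (nat_lit 0) (nat_lit 17143628885) (nat_lit 76) (nat_lit 237269989) (nat_lit 152) (nat_lit 6487927493) (nat_lit 64) (nat_lit 5) (nat_lit 65) (nat_lit 5) (nat_lit 66) (nat_lit 4) (nat_lit 462) (nat_lit 396) (nat_lit 342)) (XT.lf (nat_lit 0) (nat_lit 1190031566) (nat_lit 152) (nat_lit 15232105185) (nat_lit 76) (nat_lit 8210968597) (nat_lit 62) (nat_lit 5) (nat_lit 64) (nat_lit 5) (nat_lit 63) (nat_lit 4) (nat_lit 463) (nat_lit 396) (nat_lit 341))) (XT.nd (nat_lit 78) (nat_lit 0) (nat_lit 0) (XT.lf (nat_lit 0) (nat_lit 956091513) (nat_lit 76) (nat_lit 8160725715) (nat_lit 152) (nat_lit 16309315404) (nat_lit 61) (nat_lit 5) (nat_lit 62) (nat_lit 5) (nat_lit 63) (nat_lit 4) (nat_lit 464) (nat_lit 396)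 (nat_lit 340)) (XT.lf (nat_lit 0) (nat_lit 17658735160) (nat_lit 152) (nat_lit 7875315181) (nat_lit 0) (nat_lit 713821866) (nat_lit 61) (nat_lit 5) (nat_lit 63) (nat_lit 4) (nat_lit 61) (nat_lit 4) (nat_lit 465) (nat_lit 396) (nat_lit 339))))) (XT.nd (nat_lit 312) (nat_lit 380) (nat_lit 0) (XT.nd (nat_lit 156) (nat_lit 76) (nat_lit 0) (XT.nd (nat_lit 78) (nat_lit 152) (nat_lit 0) (XT.lf (nat_lit 0) (nat_lit 9628612466) (nat_lit 76) (nat_lit 17234276955) (nat_lit 76) (nat_lit 236052866) (nat_lit 60) (nat_lit 4) (nat_lit 61) (nat_lit 5) (nat_lit 61) (nat_lit 4) (nat_lit 466) (nat_lit 396) (nat_lit 338)) (XT.lf (nat_lit 0) (nat_lit 66944501) (nat_lit 76) (nat_lit 8282294901) (nat_lit 152) (nat_lit 19632278591) (nat_lit 58) (nat_lit 5) (nat_lit 59) (nat_lit 5) (nat_lit 60) (nat_lit 4) (nat_lit 467) (nat_lit 396) (nat_lit 337))) (XT.nd (nat_lit 78) (nat_lit 76) (nat_lit 0) (XT.lf (nat_lit 0) (nat_lit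 17625297978) (nat_lit 152) (nat_lit 9927152967) (nat_lit 0) (nat_lit 1342106798) (nat_lit 58) (nat_lit 5) (nat_lit 60) (nat_lit 4) (nat_lit 58) (nat_lit 4) (nat_lit 468) (nat_lit 396) (nat_lit 336)) (XT.lf (nat_lit 0) (nat_lit 9021982218) (nat_lit 76) (nat_lit 18573403258) (nat_lit 76) (nat_lit 2246353155) (nat_lit 57) (nat_lit 4) (nat_lit 58) (nat_lit 5) (nat_lit 58) (nat_lit 4) (nat_lit 469) (nat_lit 396) (nat_lit 335)))) (XT.nd (nat_lit 156) (nat_lit 228) (nat_lit 0) (XT.nd (nat_lit 78) (nat_lit 76) (nat_lit 0) (XT.lf (nat_lit 0) (nat_lit 7120906516) (nat_lit 152) (nat_lit 1770962146) (nat_lit 76) (nat_lit 21932541117) (nat_lit 56) (nat_lit 5) (nat_lit 58) (nat_lit 5) (nat_lit 57) (nat_lit 4) (nat_lit 470) (nat_lit 396) (nat_lit 334)) (XT.lf (nat_lit 0) (nat_lit 17153573100) (nat_lit 152) (nat_lit 13160840444) (nat_lit 0) (nat_lit 1526333250) (nat_lit 55) (nat_lit 5) (nat_lit 57) (nat_lit 4)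 (nat_lit 55) (nat_lit 4) (nat_lit 471) (nat_lit 396) (nat_lit 333))) (XT.nd (nat_lit 78) (nat_lit 152) (nat_lit 0) (XT.lf (nat_lit 0) (nat_lit 7309576619) (nat_lit 76) (nat_lit 20624664354) (nat_lit 76) (nat_lit 4961341660) (nat_lit 54) (nat_lit 4) (nat_lit 55) (nat_lit 5) (nat_lit 55) (nat_lit 4) (nat_lit 472) (nat_lit 396) (nat_lit 332)) (XT.nd (nat_lit 78) (nat_lit 76) (nat_lit 0) (XT.lf (nat_lit 0) (nat_lit 5265313485) (nat_lit 152) (nat_lit 4903794662) (nat_lit 76) (nat_lit 23820824017) (nat_lit 53) (nat_lit 5) (nat_lit 55) (nat_lit 5) (nat_lit 54) (nat_lit 4) (nat_lit 473) (nat_lit 396) (nat_lit 331)) (XT.lf (nat_lit 0) (nat_lit 16080974897) (nat_lit 152) (nat_lit 17942110772) (nat_lit 0) (nat_lit 1099626791) (nat_lit 52) (nat_lit 5) (nat_lit 54) (nat_lit 4) (nat_lit 52) (nat_lit 4) (nat_lit 474) (nat_lit 396) (nat_lit 330))))))))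
noncomputable def xc170 : XT := (XT.nd (nat_lit 1248) (nat_lit 912) (nat_lit 0) (XT.nd (nat_lit 624) (nat_lit 608) (nat_lit 0) (XT.nd (nat_lit 312) (nat_lit 304) (nat_lit 0) (XT.nd (nat_lit 156) (nat_lit 76) (nat_lit 0) (XT.nd (nat_lit 78) (nat_lit 76) (nat_lit 0) (XT.lf (nat_lit 0) (nat_lit 4112489850) (nat_lit 76) (nat_lit 23598498662) (nat_lit 76) (nat_lit 8587465110) (nat_lit 51) (nat_lit 4) (nat_lit 52) (nat_lit 5) (nat_lit 52) (nat_lit 4) (nat_lit 475) (nat_lit 396) (nat_lit 329)) (XT.lf (nat_lit 0) (nat_lit 2580173572) (nat_lit 152) (nat_lit 9749949581) (nat_lit 76) (nat_lit 25187637000) (nat_lit 50) (nat_lit 5) (nat_lit 52) (nat_lit 5) (nat_lit 51) (nat_lit 4) (nat_lit 476) (nat_lit 396) (nat_lit 328))) (XT.nd (nat_lit 78) (nat_lit 0) (nat_lit 0) (XT.lf (nat_lit 0) (nat_lit 14037712796) (nat_lit 76) (nat_lit 159332947) (nat_lit 152) (nat_lit 24584975289) (nat_lit 49) (nat_lit 5) (nat_lit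 50) (nat_lit 5) (nat_lit 51) (nat_lit 4) (nat_lit 477) (nat_lit 396) (nat_lit 327)) (XT.lf (nat_lit 0) (nat_lit 26719984825) (nat_lit 152) (nat_lit 1026478089) (nat_lit 0) (nat_lit 12346771127) (nat_lit 49) (nat_lit 5) (nat_lit 51) (nat_lit 4) (nat_lit 49) (nat_lit 4) (nat_lit 478) (nat_lit 396) (nat_lit 326)))) (XT.nd (nat_lit 156) (nat_lit 76) (nat_lit 0) (XT.nd (nat_lit 78) (nat_lit 152) (nat_lit 0) (XT.lf (nat_lit 0) (nat_lit 24586551640) (nat_lit 76) (nat_lit 15631246480) (nat_lit 76) (nat_lit 1234773458) (nat_lit 48) (nat_lit 4) (nat_lit 49) (nat_lit 5) (nat_lit 49) (nat_lit 4) (nat_lit 479) (nat_lit 396) (nat_lit 325)) (XT.lf (nat_lit 0) (nat_lit 8658965366) (nat_lit 76) (nat_lit 2598395669) (nat_lit 152) (nat_lit 31607772172) (nat_lit 46) (nat_lit 5) (nat_lit 47) (nat_lit 5) (nat_lit 48) (nat_lit 4) (nat_lit 480) (nat_lit 396) (nat_lit 324))) (XT.nd (nat_lit 78) (nat_lit 76) (nat_lit 0)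 (XT.lf (nat_lit 0) (nat_lit 24758364040) (nat_lit 152) (nat_lit 8561410881) (nat_lit 0) (nat_lit 11006248183) (nat_lit 46) (nat_lit 5) (nat_lit 48) (nat_lit 4) (nat_lit 46) (nat_lit 4) (nat_lit 481) (nat_lit 396) (nat_lit 323)) (XT.lf (nat_lit 0) (nat_lit 18854929470) (nat_lit 76) (nat_lit 20380611691) (nat_lit 76) (nat_lit 6609360331) (nat_lit 45) (nat_lit 4) (nat_lit 46) (nat_lit 5) (nat_lit 46) (nat_lit 4) (nat_lit 482) (nat_lit 396) (nat_lit 322))))) (XT.nd (nat_lit 312) (nat_lit 304) (nat_lit 0) (XT.nd (nat_lit 156) (nat_lit 152) (nat_lit 0) (XT.nd (nat_lit 78) (nat_lit 0) (nat_lit 0) (XT.lf (nat_lit 0) (nat_lit 334365759) (nat_lit 76) (nat_lit 6555312976) (nat_lit 152) (nat_lit 40538744799) (nat_lit 43) (nat_lit 5) (nat_lit 44) (nat_lit 5) (nat_lit 45) (nat_lit 4) (nat_lit 483) (nat_lit 396) (nat_lit 321)) (XT.lf (nat_lit 0) (nat_lit 21394667234) (nat_lit 152) (nat_lit 19418078022) (nat_lit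 0) (nat_lit 8245303316) (nat_lit 43) (nat_lit 5) (nat_lit 45) (nat_lit 4) (nat_lit 43) (nat_lit 4) (nat_lit 484) (nat_lit 396) (nat_lit 320))) (XT.nd (nat_lit 78) (nat_lit 76) (nat_lit 0) (XT.lf (nat_lit 0) (nat_lit 9779015454) (nat_lit 76) (nat_lit 27071971122) (nat_lit 76) (nat_lit 13906864379) (nat_lit 42) (nat_lit 4) (nat_lit 43) (nat_lit 5) (nat_lit 43) (nat_lit 4) (nat_lit 485) (nat_lit 396) (nat_lit 319)) (XT.lf (nat_lit 0) (nat_lit 820485844) (nat_lit 152) (nat_lit 11498103930) (nat_lit 76) (nat_lit 40208623748) (nat_lit 41) (nat_lit 5) (nat_lit 43) (nat_lit 5) (nat_lit 42) (nat_lit 4) (nat_lit 486) (nat_lit 396) (nat_lit 318)))) (XT.nd (nat_lit 156) (nat_lit 228) (nat_lit 0) (XT.nd (nat_lit 78) (nat_lit 0) (nat_lit 0) (XT.lf (nat_lit 0) (nat_lit 16151345773) (nat_lit 152) (nat_lit 34620303889) (nat_lit 0) (nat_lit 3585270423) (nat_lit 40) (nat_lit 5) (nat_lit 42) (nat_lit 4) (nat_lit 40)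 (nat_lit 4) (nat_lit 487) (nat_lit 396) (nat_lit 317)) (XT.lf (nat_lit 0) (nat_lit 32616240806) (nat_lit 152) (nat_lit 3606282905) (nat_lit 0) (nat_lit 20037213794) (nat_lit 40) (nat_lit 5) (nat_lit 42) (nat_lit 4) (nat_lit 40) (nat_lit 4) (nat_lit 488) (nat_lit 396) (nat_lit 316))) (XT.nd (nat_lit 78) (nat_lit 152) (nat_lit 0) (XT.lf (nat_lit 0) (nat_lit 29851953360) (nat_lit 76) (nat_lit 20487671147) (nat_lit 76) (nat_lit 7896309219) (nat_lit 39) (nat_lit 4) (nat_lit 40) (nat_lit 5) (nat_lit 40) (nat_lit 4) (nat_lit 489) (nat_lit 396) (nat_lit 315)) (XT.lf (nat_lit 0) (nat_lit 4754777074) (nat_lit 76) (nat_lit 3712484652) (nat_lit 152) (nat_lit 51831659712) (nat_lit 37) (nat_lit 5) (nat_lit 38) (nat_lit 5) (nat_lit 39) (nat_lit 4) (nat_lit 490) (nat_lit 396) (nat_lit 314)))))) (XT.nd (nat_lit 624) (nat_lit 456) (nat_lit 0) (XT.nd (nat_lit 312) (nat_lit 228) (nat_lit 0) (XT.nd (nat_lit 156) (nat_lit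 152) (nat_lit 0) (XT.nd (nat_lit 78) (nat_lit 76) (nat_lit 0) (XT.lf (nat_lit 0) (nat_lit 26058488522) (nat_lit 152) (nat_lit 22321483722) (nat_lit 0) (nat_lit 14044871761) (nat_lit 37) (nat_lit 5) (nat_lit 39) (nat_lit 4) (nat_lit 37) (nat_lit 4) (nat_lit 491) (nat_lit 396) (nat_lit 313)) (XT.lf (nat_lit 0) (nat_lit 12853812415) (nat_lit 76) (nat_lit 31907701624) (nat_lit 76) (nat_lit 19883936898) (nat_lit 36) (nat_lit 4) (nat_lit 37) (nat_lit 5) (nat_lit 37) (nat_lit 4) (nat_lit 492) (nat_lit 396) (nat_lit 312))) (XT.nd (nat_lit 78) (nat_lit 152) (nat_lit 0) (XT.lf (nat_lit 0) (nat_lit 50504737718) (nat_lit 76) (nat_lit 14244159857) (nat_lit 76) (nat_lit 2210730402) (nat_lit 36) (nat_lit 4) (nat_lit 37) (nat_lit 5) (nat_lit 37) (nat_lit 4) (nat_lit 493) (nat_lit 396) (nat_lit 311)) (XT.lf (nat_lit 0) (nat_lit 16199375459) (nat_lit 152) (nat_lit 48428356917) (nat_lit 0) (nat_lit 4730200259) (nat_lit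 34) (nat_lit 5) (nat_lit 36) (nat_lit 4) (nat_lit 34) (nat_lit 4) (nat_lit 494) (nat_lit 396) (nat_lit 310)))) (XT.nd (nat_lit 156) (nat_lit 152) (nat_lit 0) (XT.nd (nat_lit 78) (nat_lit 76) (nat_lit 0) (XT.lf (nat_lit 0) (nat_lit 35944574958) (nat_lit 152) (nat_lit 11438270410) (nat_lit 0) (nat_lit 24467051001) (nat_lit 34) (nat_lit 5) (nat_lit 36) (nat_lit 4) (nat_lit 34) (nat_lit 4) (nat_lit 495) (nat_lit 396) (nat_lit 309)) (XT.lf (nat_lit 0) (nat_lit 28251967037) (nat_lit 76) (nat_lit 28839619442) (nat_lit 76) (nat_lit 17354144289) (nat_lit 33) (nat_lit 4) (nat_lit 34) (nat_lit 5) (nat_lit 34) (nat_lit 4) (nat_lit 496) (nat_lit 396) (nat_lit 308))) (XT.nd (nat_lit 78) (nat_lit 76) (nat_lit 0) (XT.lf (nat_lit 0) (nat_lit 2226952062) (nat_lit 152) (nat_lit 6927795993) (nat_lit 76) (nat_lit 68006432337) (nat_lit 32) (nat_lit 5) (nat_lit 34) (nat_lit 5) (nat_lit 33) (nat_lit 4) (nat_lit 497) (nat_lit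 396) (nat_lit 307)) (XT.lf (nat_lit 0) (nat_lit 22919476879) (nat_lit 152) (nat_lit 45076073043) (nat_lit 0) (nat_lit 11966848602) (nat_lit 31) (nat_lit 5) (nat_lit 33) (nat_lit 4) (nat_lit 31) (nat_lit 4) (nat_lit 498) (nat_lit 396) (nat_lit 306))))) (XT.nd (nat_lit 312) (nat_lit 228) (nat_lit 0) (XT.nd (nat_lit 156) (nat_lit 152) (nat_lit 0) (XT.nd (nat_lit 78) (nat_lit 76) (nat_lit 0) (XT.lf (nat_lit 0) (nat_lit 44890712792) (nat_lit 152) (nat_lit 4069217549) (nat_lit 0) (nat_lit 33931543046) (nat_lit 31) (nat_lit 5) (nat_lit 33) (nat_lit 4) (nat_lit 31) (nat_lit 4) (nat_lit 499) (nat_lit 396) (nat_lit 305)) (XT.lf (nat_lit 0) (nat_lit 40226847714) (nat_lit 76) (nat_lit 28337676683) (nat_lit 76) (nat_lit 17372276966) (nat_lit 30) (nat_lit 4) (nat_lit 31) (nat_lit 5) (nat_lit 31) (nat_lit 4) (nat_lit 500) (nat_lit 396) (nat_lit 304))) (XT.nd (nat_lit 78) (nat_lit 76) (nat_lit 0) (XT.lf (nat_lit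 0) (nat_lit 4196413767) (nat_lit 152) (nat_lit 2368684799) (nat_lit 76) (nat_lit 82563649438) (nat_lit 29) (nat_lit 5) (nat_lit 31) (nat_lit 5) (nat_lit 30) (nat_lit 4) (nat_lit 501) (nat_lit 396) (nat_lit 303)) (XT.lf (nat_lit 0) (nat_lit 27197340388) (nat_lit 152) (nat_lit 48478760771) (nat_lit 0) (nat_lit 16743070113) (nat_lit 28) (nat_lit 5) (nat_lit 30) (nat_lit 4) (nat_lit 28) (nat_lit 4) (nat_lit 502) (nat_lit 396) (nat_lit 302)))) (XT.nd (nat_lit 156) (nat_lit 152) (nat_lit 0) (XT.nd (nat_lit 78) (nat_lit 76) (nat_lit 0) (XT.lf (nat_lit 0) (nat_lit 51473842271) (nat_lit 152) (nat_lit 3379550458) (nat_lit 0) (nat_lit 41014446583) (nat_lit 28) (nat_lit 5) (nat_lit 30) (nat_lit 4) (nat_lit 28) (nat_lit 4) (nat_lit 503) (nat_lit 396) (nat_lit 301)) (XT.lf (nat_lit 0) (nat_lit 45383013302) (nat_lit 76) (nat_lit 32267932844) (nat_lit 76) (nat_lit 21803655811) (nat_lit 27) (nat_lit 4) (nat_lit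 28) (nat_lit 5) (nat_lit 28) (nat_lit 4) (nat_lit 504) (nat_lit 396) (nat_lit 300))) (XT.nd (nat_lit 78) (nat_lit 76) (nat_lit 0) (XT.lf (nat_lit 0) (nat_lit 1891273264) (nat_lit 152) (nat_lit 6591815741) (nat_lit 76) (nat_lit 94734297849) (nat_lit 26) (nat_lit 5) (nat_lit 28) (nat_lit 5) (nat_lit 27) (nat_lit 4) (nat_lit 505) (nat_lit 396) (nat_lit 299)) (XT.nd (nat_lit 78) (nat_lit 0) (nat_lit 0) (XT.lf (nat_lit 0) (nat_lit 26983129055) (nat_lit 152) (nat_lit 63111557117) (nat_lit 0) (nat_lit 17008506715) (nat_lit 25) (nat_lit 5) (nat_lit 27) (nat_lit 4) (nat_lit 25) (nat_lit 4) (nat_lit 506) (nat_lit 396) (nat_lit 298)) (XT.lf (nat_lit 0) (nat_lit 53561389554) (nat_lit 152) (nat_lit 14027557793) (nat_lit 0) (nat_lit 43582751320) (nat_lit 25) (nat_lit 5) (nat_lit 27) (nat_lit 4) (nat_lit 25) (nat_lit 4) (nat_lit 507) (nat_lit 396) (nat_lit 297))))))))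
noncomputable def xc171 : XT := (XT.nd (nat_lit 1248) (nat_lit 456) (nat_lit 0) (XT.nd (nat_lit 624) (nat_lit 304) (nat_lit 0) (XT.nd (nat_lit 312) (nat_lit 228) (nat_lit 0) (XT.nd (nat_lit 156) (nat_lit 152) (nat_lit 0) (XT.nd (nat_lit 78) (nat_lit 0) (nat_lit 0) (XT.lf (nat_lit 0) (nat_lit 38709525151) (nat_lit 76) (nat_lit 43343668008) (nat_lit 76) (nat_lit 33361205112) (nat_lit 24) (nat_lit 4) (nat_lit 25) (nat_lit 5) (nat_lit 25) (nat_lit 4) (nat_lit 508) (nat_lit 396) (nat_lit 296)) (XT.lf (nat_lit 0) (nat_lit 94531050653) (nat_lit 76) (nat_lit 17656689992) (nat_lit 76) (nat_lit 7670584562) (nat_lit 24) (nat_lit 4) (nat_lit 25) (nat_lit 5) (nat_lit 25) (nat_lit 4) (nat_lit 509) (nat_lit 396) (nat_lit 295))) (XT.nd (nat_lit 78) (nat_lit 0) (nat_lit 0) (XT.lf (nat_lit 0) (nat_lit 19281578550) (nat_lit 152) (nat_lit 95430358081) (nat_lit 0) (nat_lit 9767698063) (nat_lit 22) (nat_lit 5) (nat_lit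 24) (nat_lit 4) (nat_lit 22) (nat_lit 4) (nat_lit 510) (nat_lit 396) (nat_lit 294)) (XT.lf (nat_lit 0) (nat_lit 48030205357) (nat_lit 152) (nat_lit 42747006779) (nat_lit 0) (nat_lit 38513178311) (nat_lit 22) (nat_lit 5) (nat_lit 24) (nat_lit 4) (nat_lit 22) (nat_lit 4) (nat_lit 511) (nat_lit 396) (nat_lit 293)))) (XT.nd (nat_lit 156) (nat_lit 152) (nat_lit 0) (XT.nd (nat_lit 78) (nat_lit 0) (nat_lit 0) (XT.lf (nat_lit 0) (nat_lit 12948593786) (nat_lit 76) (nat_lit 65451949994) (nat_lit 76) (nat_lit 55931926226) (nat_lit 21) (nat_lit 4) (nat_lit 22) (nat_lit 5) (nat_lit 22) (nat_lit 4) (nat_lit 512) (nat_lit 396) (nat_lit 292)) (XT.lf (nat_lit 0) (nat_lit 72877286123) (nat_lit 76) (nat_lit 38118463849) (nat_lit 76) (nat_lit 28595586059) (nat_lit 21) (nat_lit 4) (nat_lit 22) (nat_lit 5) (nat_lit 22) (nat_lit 4) (nat_lit 513) (nat_lit 396) (nat_lit 291))) (XT.nd (nat_lit 78) (nat_lit 76) (nat_lit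 0) (XT.lf (nat_lit 0) (nat_lit 87100745) (nat_lit 152) (nat_lit 9347039377) (nat_lit 76) (nat_lit 135679772658) (nat_lit 20) (nat_lit 5) (nat_lit 22) (nat_lit 5) (nat_lit 21) (nat_lit 4) (nat_lit 514) (nat_lit 396) (nat_lit 290)) (XT.lf (nat_lit 0) (nat_lit 30383079987) (nat_lit 152) (nat_lit 99140473058) (nat_lit 0) (nat_lit 21308618476) (nat_lit 19) (nat_lit 5) (nat_lit 21) (nat_lit 4) (nat_lit 19) (nat_lit 4) (nat_lit 515) (nat_lit 396) (nat_lit 289))))) (XT.nd (nat_lit 312) (nat_lit 228) (nat_lit 0) (XT.nd (nat_lit 156) (nat_lit 0) (nat_lit 0) (XT.nd (nat_lit 78) (nat_lit 76) (nat_lit 0) (XT.lf (nat_lit 0) (nat_lit 62493199382) (nat_lit 152) (nat_lit 40911786921) (nat_lit 0) (nat_lit 53416389861) (nat_lit 19) (nat_lit 5) (nat_lit 21) (nat_lit 4) (nat_lit 19) (nat_lit 4) (nat_lit 516) (nat_lit 396) (nat_lit 288)) (XT.lf (nat_lit 0) (nat_lit 20864718838) (nat_lit 76) (nat_lit 75654425971) (nat_lit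 76) (nat_lit 66575380249) (nat_lit 18) (nat_lit 4) (nat_lit 19) (nat_lit 5) (nat_lit 19) (nat_lit 4) (nat_lit 517) (nat_lit 396) (nat_lit 287))) (XT.nd (nat_lit 78) (nat_lit 0) (nat_lit 0) (XT.lf (nat_lit 0) (nat_lit 87119505468) (nat_lit 76) (nat_lit 45804558776) (nat_lit 76) (nat_lit 36723383340) (nat_lit 18) (nat_lit 4) (nat_lit 19) (nat_lit 5) (nat_lit 19) (nat_lit 4) (nat_lit 518) (nat_lit 396) (nat_lit 286)) (XT.lf (nat_lit 0) (nat_lit 156657594021) (nat_lit 76) (nat_lit 14477174514) (nat_lit 76) (nat_lit 5393970778) (nat_lit 18) (nat_lit 4) (nat_lit 19) (nat_lit 5) (nat_lit 19) (nat_lit 4) (nat_lit 519) (nat_lit 396) (nat_lit 285)))) (XT.nd (nat_lit 156) (nat_lit 76) (nat_lit 0) (XT.nd (nat_lit 78) (nat_lit 0) (nat_lit 0) (XT.lf (nat_lit 0) (nat_lit 27647284159) (nat_lit 152) (nat_lit 137039287949) (nat_lit 0) (nat_lit 18994774206) (nat_lit 16) (nat_lit 5) (nat_lit 18) (nat_lit 4) (nat_lit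 16) (nat_lit 4) (nat_lit 520) (nat_lit 396) (nat_lit 284)) (XT.lf (nat_lit 0) (nat_lit 62724711834) (nat_lit 152) (nat_lit 74363731664) (nat_lit 0) (nat_lit 54070449760) (nat_lit 16) (nat_lit 5) (nat_lit 18) (nat_lit 4) (nat_lit 16) (nat_lit 4) (nat_lit 521) (nat_lit 396) (nat_lit 283))) (XT.nd (nat_lit 78) (nat_lit 76) (nat_lit 0) (XT.lf (nat_lit 0) (nat_lit 99542684937) (nat_lit 152) (nat_lit 8581544751) (nat_lit 0) (nat_lit 90886754176) (nat_lit 16) (nat_lit 5) (nat_lit 18) (nat_lit 4) (nat_lit 16) (nat_lit 4) (nat_lit 522) (nat_lit 396) (nat_lit 282)) (XT.lf (nat_lit 0) (nat_lit 62463106541) (nat_lit 76) (nat_lit 76700982912) (nat_lit 76) (nat_lit 68043462925) (nat_lit 15) (nat_lit 4) (nat_lit 16) (nat_lit 5) (nat_lit 16) (nat_lit 4) (nat_lit 523) (nat_lit 396) (nat_lit 281)))))) (XT.nd (nat_lit 624) (nat_lit 228) (nat_lit 0) (XT.nd (nat_lit 312) (nat_lit 76) (nat_lit 0) (XT.nd (nat_lit 156)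 (nat_lit 152) (nat_lit 0) (XT.nd (nat_lit 78) (nat_lit 0) (nat_lit 0) (XT.lf (nat_lit 0) (nat_lit 137332484799) (nat_lit 76) (nat_lit 43566927824) (nat_lit 76) (nat_lit 34907894289) (nat_lit 15) (nat_lit 4) (nat_lit 16) (nat_lit 5) (nat_lit 16) (nat_lit 4) (nat_lit 524) (nat_lit 396) (nat_lit 280)) (XT.lf (nat_lit 0) (nat_lit 215921105821) (nat_lit 76) (nat_lit 8788506431) (nat_lit 76) (nat_lit 128031421) (nat_lit 15) (nat_lit 4) (nat_lit 16) (nat_lit 5) (nat_lit 16) (nat_lit 4) (nat_lit 525) (nat_lit 396) (nat_lit 279))) (XT.nd (nat_lit 78) (nat_lit 0) (nat_lit 0) (XT.lf (nat_lit 0) (nat_lit 36698077631) (nat_lit 152) (nat_lit 169070713449) (nat_lit 0) (nat_lit 28448698733) (nat_lit 13) (nat_lit 5) (nat_lit 15) (nat_lit 4) (nat_lit 13) (nat_lit 4) (nat_lit 526) (nat_lit 396) (nat_lit 278)) (XT.lf (nat_lit 0) (nat_lit 75647239827) (nat_lit 152) (nat_lit 101008065254) (nat_lit 0) (nat_lit 67396615728)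 (nat_lit 13) (nat_lit 5) (nat_lit 15) (nat_lit 4) (nat_lit 13) (nat_lit 4) (nat_lit 527) (nat_lit 396) (nat_lit 277)))) (XT.nd (nat_lit 156) (nat_lit 0) (nat_lit 0) (XT.nd (nat_lit 78) (nat_lit 76) (nat_lit 0) (XT.lf (nat_lit 0) (nat_lit 116532903104) (nat_lit 152) (nat_lit 29564625015) (nat_lit 0) (nat_lit 108281093101) (nat_lit 13) (nat_lit 5) (nat_lit 15) (nat_lit 4) (nat_lit 13) (nat_lit 4) (nat_lit 528) (nat_lit 396) (nat_lit 276)) (XT.lf (nat_lit 0) (nat_lit 46931822099) (nat_lit 76) (nat_lit 113253329449) (nat_lit 76) (nat_lit 105000390013) (nat_lit 12) (nat_lit 4) (nat_lit 13) (nat_lit 5) (nat_lit 13) (nat_lit 4) (nat_lit 529) (nat_lit 396) (nat_lit 275))) (XT.nd (nat_lit 78) (nat_lit 0) (nat_lit 0) (XT.lf (nat_lit 0) (nat_lit 128258575223) (nat_lit 76) (nat_lit 78251863246) (nat_lit 76) (nat_lit 69997848159) (nat_lit 12) (nat_lit 4) (nat_lit 13) (nat_lit 5) (nat_lit 13) (nat_lit 4) (nat_lit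 530) (nat_lit 396) (nat_lit 274)) (XT.lf (nat_lit 0) (nat_lit 213631729462) (nat_lit 76) (nat_lit 41510483916) (nat_lit 76) (nat_lit 33255444400) (nat_lit 12) (nat_lit 4) (nat_lit 13) (nat_lit 5) (nat_lit 13) (nat_lit 4) (nat_lit 531) (nat_lit 396) (nat_lit 273))))) (XT.nd (nat_lit 312) (nat_lit 76) (nat_lit 0) (XT.nd (nat_lit 156) (nat_lit 0) (nat_lit 0) (XT.nd (nat_lit 78) (nat_lit 0) (nat_lit 0) (XT.lf (nat_lit 0) (nat_lit 2365325206) (nat_lit 76) (nat_lit 2815816437) (nat_lit 152) (nat_lit 295694826367) (nat_lit 10) (nat_lit 5) (nat_lit 11) (nat_lit 5) (nat_lit 12) (nat_lit 4) (nat_lit 532) (nat_lit 396) (nat_lit 272)) (XT.lf (nat_lit 0) (nat_lit 46289826103) (nat_lit 152) (nat_lit 229141646013) (nat_lit 0) (nat_lit 38426069579) (nat_lit 10) (nat_lit 5) (nat_lit 12) (nat_lit 4) (nat_lit 10) (nat_lit 4) (nat_lit 533) (nat_lit 396) (nat_lit 271))) (XT.nd (nat_lit 78) (nat_lit 0) (nat_lit 0) (XT.lf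 (nat_lit 0) (nat_lit 89491095792) (nat_lit 152) (nat_lit 156368744265) (nat_lit 0) (nat_lit 81626496467) (nat_lit 10) (nat_lit 5) (nat_lit 12) (nat_lit 4) (nat_lit 10) (nat_lit 4) (nat_lit 534) (nat_lit 396) (nat_lit 270)) (XT.lf (nat_lit 0) (nat_lit 134843848089) (nat_lit 152) (nat_lit 79974705959) (nat_lit 0) (nat_lit 126978446097) (nat_lit 10) (nat_lit 5) (nat_lit 12) (nat_lit 4) (nat_lit 10) (nat_lit 4) (nat_lit 535) (nat_lit 396) (nat_lit 269)))) (XT.nd (nat_lit 156) (nat_lit 0) (nat_lit 0) (XT.nd (nat_lit 78) (nat_lit 0) (nat_lit 0) (XT.lf (nat_lit 0) (nat_lit 229711680) (nat_lit 76) (nat_lit 182229940501) (nat_lit 76) (nat_lit 174363774065) (nat_lit 9) (nat_lit 4) (nat_lit 10) (nat_lit 5) (nat_lit 10) (nat_lit 4) (nat_lit 536) (nat_lit 396) (nat_lit 268)) (XT.lf (nat_lit 0) (nat_lit 87204485563) (nat_lit 76) (nat_lit 146598132011) (nat_lit 76) (nat_lit 138731237532) (nat_lit 9) (nat_lit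 4) (nat_lit 10) (nat_lit 5) (nat_lit 10) (nat_lit 4) (nat_lit 537) (nat_lit 396) (nat_lit 267))) (XT.nd (nat_lit 78) (nat_lit 0) (nat_lit 0) (XT.lf (nat_lit 0) (nat_lit 178512373528) (nat_lit 76) (nat_lit 109192701281) (nat_lit 76) (nat_lit 101325113428) (nat_lit 9) (nat_lit 4) (nat_lit 10) (nat_lit 5) (nat_lit 10) (nat_lit 4) (nat_lit 538) (nat_lit 396) (nat_lit 266)) (XT.nd (nat_lit 78) (nat_lit 0) (nat_lit 0) (XT.lf (nat_lit 0) (nat_lit 274370775309) (nat_lit 76) (nat_lit 69924587761) (nat_lit 76) (nat_lit 62056339552) (nat_lit 9) (nat_lit 4) (nat_lit 10) (nat_lit 5) (nat_lit 10) (nat_lit 4) (nat_lit 539) (nat_lit 396) (nat_lit 265)) (XT.lf (nat_lit 0) (nat_lit 375007925196) (nat_lit 76) (nat_lit 28700295944) (nat_lit 76) (nat_lit 20831418824) (nat_lit 9) (nat_lit 4) (nat_lit 10) (nat_lit 5) (nat_lit 10) (nat_lit 4) (nat_lit 540) (nat_lit 396) (nat_lit 264))))))))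
noncomputable def xc172 : XT := (XT.nd (nat_lit 52026) (nat_lit 0) (nat_lit 10260) (XT.nd (nat_lit 624) (nat_lit 152) (nat_lit 0) (XT.nd (nat_lit 312) (nat_lit 76) (nat_lit 0) (XT.nd (nat_lit 156) (nat_lit 0) (nat_lit 0) (XT.nd (nat_lit 78) (nat_lit 0) (nat_lit 0) (XT.lf (nat_lit 0) (nat_lit 22563927724) (nat_lit 152) (nat_lit 405944935183) (nat_lit 0) (nat_lit 15069188597) (nat_lit 7) (nat_lit 5) (nat_lit 9) (nat_lit 4) (nat_lit 7) (nat_lit 4) (nat_lit 541) (nat_lit 396) (nat_lit 263)) (XT.lf (nat_lit 0) (nat_lit 68745340604) (nat_lit 152) (nat_lit 333490091324) (nat_lit 0) (nat_lit 61250058201) (nat_lit 7) (nat_lit 5) (nat_lit 9) (nat_lit 4) (nat_lit 7) (nat_lit 4) (nat_lit 542) (nat_lit 396) (nat_lit 262))) (XT.nd (nat_lit 78) (nat_lit 0) (nat_lit 0) (XT.lf (nat_lit 0) (nat_lit 117229423682) (nat_lit 152) (nat_lit 257425573159) (nat_lit 0) (nat_lit 109733623873) (nat_lit 7) (nat_lit 5) (nat_lit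 9) (nat_lit 4) (nat_lit 7) (nat_lit 4) (nat_lit 543) (nat_lit 396) (nat_lit 261)) (XT.lf (nat_lit 0) (nat_lit 168131615251) (nat_lit 152) (nat_lit 177570274691) (nat_lit 0) (nat_lit 160635322674) (nat_lit 7) (nat_lit 5) (nat_lit 9) (nat_lit 4) (nat_lit 7) (nat_lit 4) (nat_lit 544) (nat_lit 396) (nat_lit 260)))) (XT.nd (nat_lit 156) (nat_lit 76) (nat_lit 0) (XT.nd (nat_lit 78) (nat_lit 0) (nat_lit 0) (XT.lf (nat_lit 0) (nat_lit 221573111005) (nat_lit 152) (nat_lit 93734064257) (nat_lit 0) (nat_lit 214076349125) (nat_lit 7) (nat_lit 5) (nat_lit 9) (nat_lit 4) (nat_lit 7) (nat_lit 4) (nat_lit 545) (nat_lit 396) (nat_lit 259)) (XT.lf (nat_lit 0) (nat_lit 277681152600) (nat_lit 152) (nat_lit 5717331834) (nat_lit 0) (nat_lit 270183943765) (nat_lit 7) (nat_lit 5) (nat_lit 9) (nat_lit 4) (nat_lit 7) (nat_lit 4) (nat_lit 546) (nat_lit 396) (nat_lit 258))) (XT.nd (nat_lit 78) (nat_lit 0) (nat_lit 0) (XT.lf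 (nat_lit 0) (nat_lit 89555832143) (nat_lit 76) (nat_lit 248431715988) (nat_lit 76) (nat_lit 240934081481) (nat_lit 6) (nat_lit 4) (nat_lit 7) (nat_lit 5) (nat_lit 7) (nat_lit 4) (nat_lit 547) (nat_lit 396) (nat_lit 257)) (XT.lf (nat_lit 0) (nat_lit 189780569592) (nat_lit 76) (nat_lit 211620339566) (nat_lit 76) (nat_lit 204122299658) (nat_lit 6) (nat_lit 4) (nat_lit 7) (nat_lit 5) (nat_lit 7) (nat_lit 4) (nat_lit 548) (nat_lit 396) (nat_lit 256))))) (XT.nd (nat_lit 312) (nat_lit 152) (nat_lit 0) (XT.nd (nat_lit 156) (nat_lit 0) (nat_lit 0) (XT.nd (nat_lit 78) (nat_lit 0) (nat_lit 0) (XT.lf (nat_lit 0) (nat_lit 295006470028) (nat_lit 76) (nat_lit 172973534815) (nat_lit 76) (nat_lit 165475108810) (nat_lit 6) (nat_lit 4) (nat_lit 7) (nat_lit 5) (nat_lit 7) (nat_lit 4) (nat_lit 549) (nat_lit 396) (nat_lit 255)) (XT.lf (nat_lit 0) (nat_lit 405484071309) (nat_lit 76) (nat_lit 132399285532) (nat_lit 76)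 (nat_lit 124900491817) (nat_lit 6) (nat_lit 4) (nat_lit 7) (nat_lit 5) (nat_lit 7) (nat_lit 4) (nat_lit 550) (nat_lit 396) (nat_lit 254))) (XT.nd (nat_lit 78) (nat_lit 0) (nat_lit 0) (XT.lf (nat_lit 0) (nat_lit 521476415343) (nat_lit 76) (nat_lit 89800986364) (nat_lit 76) (nat_lit 82301842447) (nat_lit 6) (nat_lit 4) (nat_lit 7) (nat_lit 5) (nat_lit 7) (nat_lit 4) (nat_lit 551) (nat_lit 396) (nat_lit 253)) (XT.lf (nat_lit 0) (nat_lit 643259674379) (nat_lit 76) (nat_lit 45077212787) (nat_lit 76) (nat_lit 37577735345) (nat_lit 6) (nat_lit 4) (nat_lit 7) (nat_lit 5) (nat_lit 7) (nat_lit 4) (nat_lit 552) (nat_lit 396) (nat_lit 252)))) (XT.nd (nat_lit 156) (nat_lit 0) (nat_lit 0) (XT.nd (nat_lit 78) (nat_lit 0) (nat_lit 0) (XT.lf (nat_lit 0) (nat_lit 9292018053) (nat_lit 152) (nat_lit 748407584152) (nat_lit 0) (nat_lit 2149356068) (nat_lit 4) (nat_lit 5) (nat_lit 6) (nat_lit 4) (nat_lit 4) (nat_lit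 4) (nat_lit 553) (nat_lit 396) (nat_lit 251)) (XT.lf (nat_lit 0) (nat_lit 59399996350) (nat_lit 152) (nat_lit 683684287021) (nat_lit 0) (nat_lit 52257046254) (nat_lit 4) (nat_lit 5) (nat_lit 6) (nat_lit 4) (nat_lit 4) (nat_lit 4) (nat_lit 554) (nat_lit 396) (nat_lit 250))) (XT.nd (nat_lit 50856) (nat_lit 0) (nat_lit 16036) (XT.lf (nat_lit 0) (nat_lit 112009445694) (nat_lit 152) (nat_lit 615732849043) (nat_lit 0) (nat_lit 104866221206) (nat_lit 4) (nat_lit 5) (nat_lit 6) (nat_lit 4) (nat_lit 4) (nat_lit 4) (nat_lit 555) (nat_lit 396) (nat_lit 249)) (XT.lf (nat_lit 0) (nat_lit 1034330243) (nat_lit 228) (nat_lit 1118962500) (nat_lit 228) (nat_lit 1118962500) (nat_lit 215) (nat_lit 4) (nat_lit 218) (nat_lit 5) (nat_lit 218) (nat_lit 4) (nat_lit 406) (nat_lit 397) (nat_lit 397)))))) (XT.nd (nat_lit 624) (nat_lit 3192) (nat_lit 0) (XT.nd (nat_lit 312) (nat_lit 1748) (nat_lit 0) (XT.nd (nat_lit 156) (nat_lit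 456) (nat_lit 0) (XT.nd (nat_lit 78) (nat_lit 304) (nat_lit 0) (XT.lf (nat_lit 0) (nat_lit 991259850) (nat_lit 304) (nat_lit 484260007) (nat_lit 76) (nat_lit 5108194623) (nat_lit 214) (nat_lit 5) (nat_lit 218) (nat_lit 5) (nat_lit 215) (nat_lit 4) (nat_lit 407) (nat_lit 397) (nat_lit 396)) (XT.lf (nat_lit 0) (nat_lit 3656980232) (nat_lit 304) (nat_lit 523429422) (nat_lit 380) (nat_lit 2448972384) (nat_lit 210) (nat_lit 5) (nat_lit 214) (nat_lit 5) (nat_lit 215) (nat_lit 4) (nat_lit 408) (nat_lit 397) (nat_lit 395))) (XT.nd (nat_lit 78) (nat_lit 0) (nat_lit 0) (XT.lf (nat_lit 0) (nat_lit 681325238) (nat_lit 456) (nat_lit 5455908566) (nat_lit 76) (nat_lit 546610572) (nat_lit 204) (nat_lit 5) (nat_lit 210) (nat_lit 5) (nat_lit 205) (nat_lit 4) (nat_lit 409) (nat_lit 397) (nat_lit 394)) (XT.lf (nat_lit 0) (nat_lit 3773145658) (nat_lit 456) (nat_lit 1187878073) (nat_lit 76) (nat_lit 1783653541) (nat_lit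 204) (nat_lit 5) (nat_lit 210) (nat_lit 5) (nat_lit 205) (nat_lit 4) (nat_lit 410) (nat_lit 397) (nat_lit 393)))) (XT.nd (nat_lit 156) (nat_lit 684) (nat_lit 0) (XT.nd (nat_lit 78) (nat_lit 532) (nat_lit 0) (XT.lf (nat_lit 0) (nat_lit 89103109) (nat_lit 532) (nat_lit 3552236673) (nat_lit 76) (nat_lit 3172823132) (nat_lit 197) (nat_lit 5) (nat_lit 204) (nat_lit 5) (nat_lit 198) (nat_lit 5) (nat_lit 411) (nat_lit 397) (nat_lit 392)) (XT.lf (nat_lit 0) (nat_lit 932401167) (nat_lit 532) (nat_lit 2144422910) (nat_lit 608) (nat_lit 3814184718) (nat_lit 190) (nat_lit 5) (nat_lit 197) (nat_lit 5) (nat_lit 198) (nat_lit 5) (nat_lit 412) (nat_lit 397) (nat_lit 391))) (XT.nd (nat_lit 78) (nat_lit 684) (nat_lit 0) (XT.lf (nat_lit 0) (nat_lit 5629075875) (nat_lit 532) (nat_lit 489481995) (nat_lit 608) (nat_lit 857924436) (nat_lit 190) (nat_lit 5) (nat_lit 197) (nat_lit 5) (nat_lit 198) (nat_lit 5) (nat_lit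 413) (nat_lit 397) (nat_lit 390)) (XT.lf (nat_lit 0) (nat_lit 2098521145) (nat_lit 684) (nat_lit 3655365701) (nat_lit 76) (nat_lit 1314391185) (nat_lit 181) (nat_lit 5) (nat_lit 190) (nat_lit 5) (nat_lit 182) (nat_lit 5) (nat_lit 414) (nat_lit 397) (nat_lit 389))))) (XT.nd (nat_lit 312) (nat_lit 1216) (nat_lit 0) (XT.nd (nat_lit 156) (nat_lit 1216) (nat_lit 0) (XT.nd (nat_lit 78) (nat_lit 76) (nat_lit 0) (XT.lf (nat_lit 0) (nat_lit 1170093213) (nat_lit 684) (nat_lit 3908102627) (nat_lit 760) (nat_lit 2090566954) (nat_lit 172) (nat_lit 5) (nat_lit 181) (nat_lit 5) (nat_lit 182) (nat_lit 5) (nat_lit 415) (nat_lit 397) (nat_lit 388)) (XT.lf (nat_lit 0) (nat_lit 822866316) (nat_lit 760) (nat_lit 1064904119) (nat_lit 76) (nat_lit 5389779800) (nat_lit 171) (nat_lit 5) (nat_lit 181) (nat_lit 5) (nat_lit 172) (nat_lit 5) (nat_lit 416) (nat_lit 397) (nat_lit 387))) (XT.nd (nat_lit 78) (nat_lit 456) (nat_lit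 0) (XT.lf (nat_lit 0) (nat_lit 3744639076) (nat_lit 836) (nat_lit 3322330137) (nat_lit 76) (nat_lit 326460471) (nat_lit 161) (nat_lit 5) (nat_lit 172) (nat_lit 5) (nat_lit 162) (nat_lit 5) (nat_lit 417) (nat_lit 397) (nat_lit 386)) (XT.lf (nat_lit 0) (nat_lit 1875954793) (nat_lit 456) (nat_lit 4883502199) (nat_lit 532) (nat_lit 758310139) (nat_lit 155) (nat_lit 5) (nat_lit 161) (nat_lit 5) (nat_lit 162) (nat_lit 5) (nat_lit 418) (nat_lit 397) (nat_lit 385)))) (XT.nd (nat_lit 156) (nat_lit 760) (nat_lit 0) (XT.nd (nat_lit 78) (nat_lit 380) (nat_lit 0) (XT.lf (nat_lit 0) (nat_lit 2131426943) (nat_lit 532) (nat_lit 374041418) (nat_lit 76) (nat_lit 5144706507) (nat_lit 154) (nat_lit 5) (nat_lit 161) (nat_lit 5) (nat_lit 155) (nat_lit 5) (nat_lit 419) (nat_lit 397) (nat_lit 384)) (XT.lf (nat_lit 0) (nat_lit 5098772276) (nat_lit 456) (nat_lit 2616425851) (nat_lit 76) (nat_lit 75463259) (nat_lit 149)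 (nat_lit 5) (nat_lit 155) (nat_lit 5) (nat_lit 150) (nat_lit 5) (nat_lit 420) (nat_lit 397) (nat_lit 383))) (XT.nd (nat_lit 78) (nat_lit 304) (nat_lit 0) (XT.lf (nat_lit 0) (nat_lit 241438755) (nat_lit 456) (nat_lit 4952174177) (nat_lit 76) (nat_lit 2745654391) (nat_lit 143) (nat_lit 5) (nat_lit 149) (nat_lit 5) (nat_lit 144) (nat_lit 5) (nat_lit 421) (nat_lit 397) (nat_lit 382)) (XT.nd (nat_lit 78) (nat_lit 0) (nat_lit 0) (XT.lf (nat_lit 0) (nat_lit 706165776) (nat_lit 304) (nat_lit 2462715186) (nat_lit 380) (nat_lit 4927329318) (nat_lit 139) (nat_lit 5) (nat_lit 143) (nat_lit 5) (nat_lit 144) (nat_lit 5) (nat_lit 422) (nat_lit 397) (nat_lit 381)) (XT.lf (nat_lit 0) (nat_lit 6219219446) (nat_lit 380) (nat_lit 1588386756) (nat_lit 76) (nat_lit 454576397) (nat_lit 139) (nat_lit 5) (nat_lit 144) (nat_lit 5) (nat_lit 140) (nat_lit 5) (nat_lit 423) (nat_lit 397) (nat_lit 380))))))))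
noncomputable def xc173 : XT := (XT.nd (nat_lit 1248) (nat_lit 1900) (nat_lit 0) (XT.nd (nat_lit 624) (nat_lit 1368) (nat_lit 0) (XT.nd (nat_lit 312) (nat_lit 836) (nat_lit 0) (XT.nd (nat_lit 156) (nat_lit 380) (nat_lit 0) (XT.nd (nat_lit 78) (nat_lit 304) (nat_lit 0) (XT.lf (nat_lit 0) (nat_lit 954673837) (nat_lit 380) (nat_lit 3982208569) (nat_lit 76) (nat_lit 3498779424) (nat_lit 134) (nat_lit 5) (nat_lit 139) (nat_lit 5) (nat_lit 135) (nat_lit 5) (nat_lit 424) (nat_lit 397) (nat_lit 379)) (XT.lf (nat_lit 0) (nat_lit 2132583859) (nat_lit 304) (nat_lit 1853398749) (nat_lit 380) (nat_lit 4632542787) (nat_lit 130) (nat_lit 5) (nat_lit 134) (nat_lit 5) (nat_lit 135) (nat_lit 5) (nat_lit 425) (nat_lit 397) (nat_lit 378))) (XT.nd (nat_lit 78) (nat_lit 380) (nat_lit 0) (XT.lf (nat_lit 0) (nat_lit 7153385543) (nat_lit 380) (nat_lit 278876160) (nat_lit 76) (nat_lit 1379050927) (nat_lit 130) (nat_lit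 5) (nat_lit 135) (nat_lit 5) (nat_lit 131) (nat_lit 5) (nat_lit 426) (nat_lit 397) (nat_lit 377)) (XT.lf (nat_lit 0) (nat_lit 1446724836) (nat_lit 380) (nat_lit 2760366977) (nat_lit 76) (nat_lit 4804099333) (nat_lit 125) (nat_lit 5) (nat_lit 130) (nat_lit 5) (nat_lit 126) (nat_lit 5) (nat_lit 427) (nat_lit 397) (nat_lit 376)))) (XT.nd (nat_lit 156) (nat_lit 304) (nat_lit 0) (XT.nd (nat_lit 78) (nat_lit 304) (nat_lit 0) (XT.lf (nat_lit 0) (nat_lit 3857241098) (nat_lit 228) (nat_lit 759200602) (nat_lit 304) (nat_lit 4604991440) (nat_lit 122) (nat_lit 5) (nat_lit 125) (nat_lit 5) (nat_lit 126) (nat_lit 5) (nat_lit 428) (nat_lit 397) (nat_lit 375)) (XT.lf (nat_lit 0) (nat_lit 1321644292) (nat_lit 304) (nat_lit 6638451896) (nat_lit 380) (nat_lit 1481324155) (nat_lit 118) (nat_lit 5) (nat_lit 122) (nat_lit 5) (nat_lit 123) (nat_lit 5) (nat_lit 429) (nat_lit 397) (nat_lit 374))) (XT.nd (nat_lit 78) (nat_lit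 228) (nat_lit 0) (XT.lf (nat_lit 0) (nat_lit 1749349084) (nat_lit 380) (nat_lit 1319792670) (nat_lit 76) (nat_lit 6601446990) (nat_lit 117) (nat_lit 5) (nat_lit 122) (nat_lit 5) (nat_lit 118) (nat_lit 5) (nat_lit 430) (nat_lit 397) (nat_lit 373)) (XT.lf (nat_lit 0) (nat_lit 5103207867) (nat_lit 304) (nat_lit 4070050781) (nat_lit 76) (nat_lit 736175935) (nat_lit 114) (nat_lit 5) (nat_lit 118) (nat_lit 5) (nat_lit 115) (nat_lit 5) (nat_lit 431) (nat_lit 397) (nat_lit 372))))) (XT.nd (nat_lit 312) (nat_lit 684) (nat_lit 0) (XT.nd (nat_lit 156) (nat_lit 228) (nat_lit 0) (XT.nd (nat_lit 78) (nat_lit 228) (nat_lit 0) (XT.lf (nat_lit 0) (nat_lit 3160625854) (nat_lit 228) (nat_lit 5496440800) (nat_lit 304) (nat_lit 1501545398) (nat_lit 111) (nat_lit 5) (nat_lit 114) (nat_lit 5) (nat_lit 115) (nat_lit 5) (nat_lit 432) (nat_lit 397) (nat_lit 371)) (XT.lf (nat_lit 0) (nat_lit 321880539) (nat_lit 152) (nat_lit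 1569302944) (nat_lit 228) (nat_lit 8528241895) (nat_lit 108) (nat_lit 5) (nat_lit 110) (nat_lit 5) (nat_lit 111) (nat_lit 5) (nat_lit 433) (nat_lit 397) (nat_lit 370))) (XT.nd (nat_lit 78) (nat_lit 228) (nat_lit 0) (XT.lf (nat_lit 0) (nat_lit 5475649062) (nat_lit 228) (nat_lit 2638493349) (nat_lit 76) (nat_lit 2574282135) (nat_lit 108) (nat_lit 5) (nat_lit 111) (nat_lit 5) (nat_lit 109) (nat_lit 5) (nat_lit 434) (nat_lit 397) (nat_lit 369)) (XT.lf (nat_lit 0) (nat_lit 5205440433) (nat_lit 228) (nat_lit 4057301745) (nat_lit 304) (nat_lit 1706965139) (nat_lit 105) (nat_lit 5) (nat_lit 108) (nat_lit 5) (nat_lit 109) (nat_lit 5) (nat_lit 435) (nat_lit 397) (nat_lit 368)))) (XT.nd (nat_lit 156) (nat_lit 456) (nat_lit 0) (XT.nd (nat_lit 78) (nat_lit 0) (nat_lit 0) (XT.lf (nat_lit 0) (nat_lit 1911690364) (nat_lit 228) (nat_lit 9089008254) (nat_lit 76) (nat_lit 262781053) (nat_lit 102) (nat_lit 5) (nat_lit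 105) (nat_lit 5) (nat_lit 103) (nat_lit 5) (nat_lit 436) (nat_lit 397) (nat_lit 367)) (XT.lf (nat_lit 0) (nat_lit 5737944177) (nat_lit 228) (nat_lit 1083738433) (nat_lit 76) (nat_lit 4744660677) (nat_lit 102) (nat_lit 5) (nat_lit 105) (nat_lit 5) (nat_lit 103) (nat_lit 5) (nat_lit 437) (nat_lit 397) (nat_lit 366))) (XT.nd (nat_lit 78) (nat_lit 228) (nat_lit 0) (XT.lf (nat_lit 0) (nat_lit 7435145717) (nat_lit 228) (nat_lit 2358635685) (nat_lit 304) (nat_lit 2088658321) (nat_lit 99) (nat_lit 5) (nat_lit 102) (nat_lit 5) (nat_lit 103) (nat_lit 5) (nat_lit 438) (nat_lit 397) (nat_lit 365)) (XT.lf (nat_lit 0) (nat_lit 1823385314) (nat_lit 228) (nat_lit 8066091798) (nat_lit 76) (nat_lit 2321224600) (nat_lit 96) (nat_lit 5) (nat_lit 99) (nat_lit 5) (nat_lit 97) (nat_lit 5) (nat_lit 439) (nat_lit 397) (nat_lit 364)))))) (XT.nd (nat_lit 624) (nat_lit 988) (nat_lit 0) (XT.nd (nat_lit 312) (nat_lit 380) (nat_lit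 0) (XT.nd (nat_lit 156) (nat_lit 380) (nat_lit 0) (XT.nd (nat_lit 78) (nat_lit 0) (nat_lit 0) (XT.lf (nat_lit 0) (nat_lit 587372577) (nat_lit 152) (nat_lit 5321596708) (nat_lit 228) (nat_lit 6642291704) (nat_lit 94) (nat_lit 5) (nat_lit 96) (nat_lit 5) (nat_lit 97) (nat_lit 5) (nat_lit 440) (nat_lit 397) (nat_lit 363)) (XT.lf (nat_lit 0) (nat_lit 9829397952) (nat_lit 152) (nat_lit 431472977) (nat_lit 228) (nat_lit 2644877990) (nat_lit 94) (nat_lit 5) (nat_lit 96) (nat_lit 5) (nat_lit 97) (nat_lit 5) (nat_lit 441) (nat_lit 397) (nat_lit 362))) (XT.nd (nat_lit 78) (nat_lit 152) (nat_lit 0) (XT.lf (nat_lit 0) (nat_lit 1603784984) (nat_lit 228) (nat_lit 7037371528) (nat_lit 76) (nat_lit 4630541968) (nat_lit 91) (nat_lit 5) (nat_lit 94) (nat_lit 5) (nat_lit 92) (nat_lit 5) (nat_lit 442) (nat_lit 397) (nat_lit 361)) (XT.lf (nat_lit 0) (nat_lit 2367013709) (nat_lit 152) (nat_lit 3634617728) (nat_lit 228)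 (nat_lit 7650866625) (nat_lit 89) (nat_lit 5) (nat_lit 91) (nat_lit 5) (nat_lit 92) (nat_lit 5) (nat_lit 443) (nat_lit 397) (nat_lit 360)))) (XT.nd (nat_lit 156) (nat_lit 152) (nat_lit 0) (XT.nd (nat_lit 78) (nat_lit 228) (nat_lit 0) (XT.lf (nat_lit 0) (nat_lit 10695242036) (nat_lit 228) (nat_lit 1709940055) (nat_lit 76) (nat_lit 1643364091) (nat_lit 89) (nat_lit 5) (nat_lit 92) (nat_lit 5) (nat_lit 90) (nat_lit 4) (nat_lit 444) (nat_lit 397) (nat_lit 359)) (XT.lf (nat_lit 0) (nat_lit 1248171968) (nat_lit 228) (nat_lit 6039843484) (nat_lit 76) (nat_lit 7169171580) (nat_lit 86) (nat_lit 5) (nat_lit 89) (nat_lit 5) (nat_lit 87) (nat_lit 5) (nat_lit 445) (nat_lit 397) (nat_lit 358))) (XT.nd (nat_lit 78) (nat_lit 0) (nat_lit 0) (XT.lf (nat_lit 0) (nat_lit 4187384010) (nat_lit 152) (nat_lit 1807557999) (nat_lit 228) (nat_lit 8887175504) (nat_lit 84) (nat_lit 5) (nat_lit 86) (nat_lit 5) (nat_lit 87)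 (nat_lit 5) (nat_lit 446) (nat_lit 397) (nat_lit 357)) (XT.lf (nat_lit 0) (nat_lit 11078362452) (nat_lit 228) (nat_lit 368176683) (nat_lit 76) (nat_lit 3876791558) (nat_lit 84) (nat_lit 5) (nat_lit 87) (nat_lit 5) (nat_lit 85) (nat_lit 4) (nat_lit 447) (nat_lit 397) (nat_lit 356))))) (XT.nd (nat_lit 312) (nat_lit 532) (nat_lit 0) (XT.nd (nat_lit 156) (nat_lit 152) (nat_lit 0) (XT.nd (nat_lit 78) (nat_lit 152) (nat_lit 0) (XT.lf (nat_lit 0) (nat_lit 744567029) (nat_lit 152) (nat_lit 5116986031) (nat_lit 76) (nat_lit 9917793739) (nat_lit 82) (nat_lit 5) (nat_lit 84) (nat_lit 5) (nat_lit 83) (nat_lit 5) (nat_lit 448) (nat_lit 397) (nat_lit 355)) (XT.lf (nat_lit 0) (nat_lit 5880301321) (nat_lit 228) (nat_lit 10244903936) (nat_lit 76) (nat_lit 127511450) (nat_lit 80) (nat_lit 5) (nat_lit 83) (nat_lit 5) (nat_lit 81) (nat_lit 4) (nat_lit 449) (nat_lit 397) (nat_lit 354))) (XT.nd (nat_lit 78) (nat_lit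 76) (nat_lit 0) (XT.lf (nat_lit 0) (nat_lit 941128806) (nat_lit 76) (nat_lit 10468223550) (nat_lit 152) (nat_lit 5333577705) (nat_lit 79) (nat_lit 5) (nat_lit 80) (nat_lit 5) (nat_lit 81) (nat_lit 4) (nat_lit 450) (nat_lit 397) (nat_lit 353)) (XT.lf (nat_lit 0) (nat_lit 72820786) (nat_lit 152) (nat_lit 4321812057) (nat_lit 76) (nat_lit 12857343514) (nat_lit 78) (nat_lit 5) (nat_lit 80) (nat_lit 5) (nat_lit 79) (nat_lit 5) (nat_lit 451) (nat_lit 397) (nat_lit 352)))) (XT.nd (nat_lit 156) (nat_lit 304) (nat_lit 0) (XT.nd (nat_lit 78) (nat_lit 76) (nat_lit 0) (XT.lf (nat_lit 0) (nat_lit 5666351937) (nat_lit 228) (nat_lit 10026080109) (nat_lit 76) (nat_lit 2084869596) (nat_lit 76) (nat_lit 5) (nat_lit 79) (nat_lit 5) (nat_lit 77) (nat_lit 4) (nat_lit 452) (nat_lit 397) (nat_lit 351)) (XT.lf (nat_lit 0) (nat_lit 2140120133) (nat_lit 76) (nat_lit 9520568176) (nat_lit 152) (nat_lit 6662149647) (nat_lit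 75) (nat_lit 5) (nat_lit 76) (nat_lit 5) (nat_lit 77) (nat_lit 4) (nat_lit 453) (nat_lit 397) (nat_lit 350))) (XT.nd (nat_lit 78) (nat_lit 304) (nat_lit 0) (XT.lf (nat_lit 0) (nat_lit 15156601966) (nat_lit 76) (nat_lit 2910355910) (nat_lit 152) (nat_lit 823083528) (nat_lit 75) (nat_lit 5) (nat_lit 76) (nat_lit 5) (nat_lit 77) (nat_lit 4) (nat_lit 454) (nat_lit 397) (nat_lit 349)) (XT.nd (nat_lit 78) (nat_lit 76) (nat_lit 0) (XT.lf (nat_lit 0) (nat_lit 5295899499) (nat_lit 228) (nat_lit 10087683165) (nat_lit 76) (nat_lit 4089987273) (nat_lit 72) (nat_lit 5) (nat_lit 75) (nat_lit 5) (nat_lit 73) (nat_lit 4) (nat_lit 455) (nat_lit 397) (nat_lit 348)) (XT.lf (nat_lit 0) (nat_lit 3142780886) (nat_lit 76) (nat_lit 8656040324) (nat_lit 152) (nat_lit 8281497485) (nat_lit 71) (nat_lit 5) (nat_lit 72) (nat_lit 5) (nat_lit 73) (nat_lit 4) (nat_lit 456) (nat_lit 397) (nat_lit 347))))))))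
noncomputable def xc174 : XT := (XT.nd (nat_lit 1248) (nat_lit 1140) (nat_lit 0) (XT.nd (nat_lit 624) (nat_lit 532) (nat_lit 0) (XT.nd (nat_lit 312) (nat_lit 380) (nat_lit 0) (XT.nd (nat_lit 156) (nat_lit 76) (nat_lit 0) (XT.nd (nat_lit 78) (nat_lit 228) (nat_lit 0) (XT.lf (nat_lit 0) (nat_lit 17283405386) (nat_lit 76) (nat_lit 1459983155) (nat_lit 152) (nat_lit 1968192311) (nat_lit 71) (nat_lit 5) (nat_lit 72) (nat_lit 5) (nat_lit 73) (nat_lit 4) (nat_lit 457) (nat_lit 397) (nat_lit 346)) (XT.lf (nat_lit 0) (nat_lit 4728183607) (nat_lit 228) (nat_lit 10527909962) (nat_lit 76) (nat_lit 6103846032) (nat_lit 68) (nat_lit 5) (nat_lit 71) (nat_lit 5) (nat_lit 69) (nat_lit 4) (nat_lit 458) (nat_lit 397) (nat_lit 345))) (XT.nd (nat_lit 78) (nat_lit 0) (nat_lit 0) (XT.lf (nat_lit 0) (nat_lit 3853873971) (nat_lit 76) (nat_lit 7930156696) (nat_lit 152) (nat_lit 10250533332) (nat_lit 67) (nat_lit 5) (nat_lit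 68) (nat_lit 5) (nat_lit 69) (nat_lit 4) (nat_lit 459) (nat_lit 397) (nat_lit 344)) (XT.lf (nat_lit 0) (nat_lit 19223072660) (nat_lit 76) (nat_lit 96549721) (nat_lit 152) (nat_lit 3416950393) (nat_lit 67) (nat_lit 5) (nat_lit 68) (nat_lit 5) (nat_lit 69) (nat_lit 4) (nat_lit 460) (nat_lit 397) (nat_lit 343)))) (XT.nd (nat_lit 156) (nat_lit 152) (nat_lit 0) (XT.nd (nat_lit 78) (nat_lit 76) (nat_lit 0) (XT.lf (nat_lit 0) (nat_lit 3907865016) (nat_lit 152) (nat_lit 11471892779) (nat_lit 76) (nat_lit 8077498865) (nat_lit 65) (nat_lit 5) (nat_lit 67) (nat_lit 5) (nat_lit 66) (nat_lit 4) (nat_lit 461) (nat_lit 397) (nat_lit 342)) (XT.lf (nat_lit 0) (nat_lit 4149972302) (nat_lit 76) (nat_lit 7411504746) (nat_lit 152) (nat_lit 12645828189) (nat_lit 64) (nat_lit 5) (nat_lit 65) (nat_lit 5) (nat_lit 66) (nat_lit 4) (nat_lit 462) (nat_lit 397) (nat_lit 341))) (XT.nd (nat_lit 78) (nat_lit 152) (nat_lit 0)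 (XT.lf (nat_lit 0) (nat_lit 19760896044) (nat_lit 152) (nat_lit 4146675378) (nat_lit 0) (nat_lit 1079129137) (nat_lit 64) (nat_lit 5) (nat_lit 66) (nat_lit 4) (nat_lit 64) (nat_lit 4) (nat_lit 463) (nat_lit 397) (nat_lit 340)) (XT.lf (nat_lit 0) (nat_lit 2761355818) (nat_lit 152) (nat_lit 13079762630) (nat_lit 76) (nat_lit 9948033334) (nat_lit 62) (nat_lit 5) (nat_lit 64) (nat_lit 5) (nat_lit 63) (nat_lit 4) (nat_lit 464) (nat_lit 397) (nat_lit 339))))) (XT.nd (nat_lit 312) (nat_lit 228) (nat_lit 0) (XT.nd (nat_lit 156) (nat_lit 228) (nat_lit 0) (XT.nd (nat_lit 78) (nat_lit 0) (nat_lit 0) (XT.lf (nat_lit 0) (nat_lit 3870844745) (nat_lit 76) (nat_lit 7186405566) (nat_lit 152) (nat_lit 15565942485) (nat_lit 61) (nat_lit 5) (nat_lit 62) (nat_lit 5) (nat_lit 63) (nat_lit 4) (nat_lit 465) (nat_lit 397) (nat_lit 338)) (XT.lf (nat_lit 0) (nat_lit 19976123993) (nat_lit 152) (nat_lit 5488497449) (nat_lit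 0) (nat_lit 2023905718) (nat_lit 61) (nat_lit 5) (nat_lit 63) (nat_lit 4) (nat_lit 61) (nat_lit 4) (nat_lit 466) (nat_lit 397) (nat_lit 337))) (XT.nd (nat_lit 78) (nat_lit 76) (nat_lit 0) (XT.lf (nat_lit 0) (nat_lit 1192045566) (nat_lit 152) (nat_lit 15556879327) (nat_lit 76) (nat_lit 11633545025) (nat_lit 59) (nat_lit 5) (nat_lit 61) (nat_lit 5) (nat_lit 60) (nat_lit 4) (nat_lit 467) (nat_lit 397) (nat_lit 336)) (XT.lf (nat_lit 0) (nat_lit 2808500327) (nat_lit 76) (nat_lit 7364731347) (nat_lit 152) (nat_lit 19137021836) (nat_lit 58) (nat_lit 5) (nat_lit 59) (nat_lit 5) (nat_lit 60) (nat_lit 4) (nat_lit 468) (nat_lit 397) (nat_lit 335)))) (XT.nd (nat_lit 156) (nat_lit 152) (nat_lit 0) (XT.nd (nat_lit 78) (nat_lit 76) (nat_lit 0) (XT.lf (nat_lit 0) (nat_lit 19865916717) (nat_lit 152) (nat_lit 7768503231) (nat_lit 0) (nat_lit 2636884783) (nat_lit 58) (nat_lit 5) (nat_lit 60) (nat_lit 4) (nat_lit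 58) (nat_lit 4) (nat_lit 469) (nat_lit 397) (nat_lit 334)) (XT.lf (nat_lit 0) (nat_lit 12085266013) (nat_lit 76) (nat_lit 18225294964) (nat_lit 76) (nat_lit 956481694) (nat_lit 57) (nat_lit 4) (nat_lit 58) (nat_lit 5) (nat_lit 58) (nat_lit 4) (nat_lit 470) (nat_lit 397) (nat_lit 333))) (XT.nd (nat_lit 78) (nat_lit 0) (nat_lit 0) (XT.lf (nat_lit 0) (nat_lit 693225357) (nat_lit 76) (nat_lit 8087226161) (nat_lit 152) (nat_lit 23519992356) (nat_lit 55) (nat_lit 5) (nat_lit 56) (nat_lit 5) (nat_lit 57) (nat_lit 4) (nat_lit 471) (nat_lit 397) (nat_lit 332)) (XT.lf (nat_lit 0) (nat_lit 19300287493) (nat_lit 152) (nat_lit 11284682783) (nat_lit 0) (nat_lit 2783351206) (nat_lit 55) (nat_lit 5) (nat_lit 57) (nat_lit 4) (nat_lit 55) (nat_lit 4) (nat_lit 472) (nat_lit 397) (nat_lit 331)))))) (XT.nd (nat_lit 624) (nat_lit 608) (nat_lit 0) (XT.nd (nat_lit 312) (nat_lit 228) (nat_lit 0) (XT.nd (nat_lit 156) (nat_lit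 152) (nat_lit 0) (XT.nd (nat_lit 78) (nat_lit 76) (nat_lit 0) (XT.lf (nat_lit 0) (nat_lit 10168380945) (nat_lit 76) (nat_lit 20429152959) (nat_lit 76) (nat_lit 3879488468) (nat_lit 54) (nat_lit 4) (nat_lit 55) (nat_lit 5) (nat_lit 55) (nat_lit 4) (nat_lit 473) (nat_lit 397) (nat_lit 330)) (XT.lf (nat_lit 0) (nat_lit 6754631084) (nat_lit 152) (nat_lit 2733840485) (nat_lit 76) (nat_lit 26139645220) (nat_lit 53) (nat_lit 5) (nat_lit 55) (nat_lit 5) (nat_lit 54) (nat_lit 4) (nat_lit 474) (nat_lit 397) (nat_lit 329))) (XT.nd (nat_lit 78) (nat_lit 76) (nat_lit 0) (XT.lf (nat_lit 0) (nat_lit 18108080315) (nat_lit 152) (nat_lit 16421068209) (nat_lit 0) (nat_lit 2288537787) (nat_lit 52) (nat_lit 5) (nat_lit 54) (nat_lit 4) (nat_lit 52) (nat_lit 4) (nat_lit 475) (nat_lit 397) (nat_lit 328)) (XT.lf (nat_lit 0) (nat_lit 6697260055) (nat_lit 76) (nat_lit 23601238893) (nat_lit 76) (nat_lit 7754770791) (nat_lit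 51) (nat_lit 4) (nat_lit 52) (nat_lit 5) (nat_lit 52) (nat_lit 4) (nat_lit 476) (nat_lit 397) (nat_lit 327)))) (XT.nd (nat_lit 156) (nat_lit 76) (nat_lit 0) (XT.nd (nat_lit 78) (nat_lit 76) (nat_lit 0) (XT.lf (nat_lit 0) (nat_lit 3872680851) (nat_lit 152) (nat_lit 7933115759) (nat_lit 76) (nat_lit 27529668897) (nat_lit 50) (nat_lit 5) (nat_lit 52) (nat_lit 5) (nat_lit 51) (nat_lit 4) (nat_lit 477) (nat_lit 397) (nat_lit 326)) (XT.lf (nat_lit 0) (nat_lit 16065320415) (nat_lit 152) (nat_lit 23672108776) (nat_lit 0) (nat_lit 925764419) (nat_lit 49) (nat_lit 5) (nat_lit 51) (nat_lit 4) (nat_lit 49) (nat_lit 4) (nat_lit 478) (nat_lit 397) (nat_lit 325))) (XT.nd (nat_lit 78) (nat_lit 0) (nat_lit 0) (XT.lf (nat_lit 0) (nat_lit 1156157362) (nat_lit 76) (nat_lit 28023624607) (nat_lit 76) (nat_lit 12861916875) (nat_lit 48) (nat_lit 4) (nat_lit 49) (nat_lit 5) (nat_lit 49) (nat_lit 4) (nat_lit 479) (nat_lit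 397) (nat_lit 324)) (XT.lf (nat_lit 0) (nat_lit 27977399564) (nat_lit 76) (nat_lit 15338128278) (nat_lit 76) (nat_lit 155323654) (nat_lit 48) (nat_lit 4) (nat_lit 49) (nat_lit 5) (nat_lit 49) (nat_lit 4) (nat_lit 480) (nat_lit 397) (nat_lit 323))))) (XT.nd (nat_lit 312) (nat_lit 228) (nat_lit 0) (XT.nd (nat_lit 156) (nat_lit 228) (nat_lit 0) (XT.nd (nat_lit 78) (nat_lit 0) (nat_lit 0) (XT.lf (nat_lit 0) (nat_lit 11254513038) (nat_lit 76) (nat_lit 1651540591) (nat_lit 152) (nat_lit 32048038962) (nat_lit 46) (nat_lit 5) (nat_lit 47) (nat_lit 5) (nat_lit 48) (nat_lit 4) (nat_lit 481) (nat_lit 397) (nat_lit 322)) (XT.lf (nat_lit 0) (nat_lit 27046411780) (nat_lit 152) (nat_lit 6894162179) (nat_lit 0) (nat_lit 12549238060) (nat_lit 46) (nat_lit 5) (nat_lit 48) (nat_lit 4) (nat_lit 46) (nat_lit 4) (nat_lit 482) (nat_lit 397) (nat_lit 321))) (XT.nd (nat_lit 78) (nat_lit 152) (nat_lit 0) (XT.lf (nat_lit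 0) (nat_lit 21859199717) (nat_lit 76) (nat_lit 20370428034) (nat_lit 76) (nat_lit 5855897850) (nat_lit 45) (nat_lit 4) (nat_lit 46) (nat_lit 5) (nat_lit 46) (nat_lit 4) (nat_lit 483) (nat_lit 397) (nat_lit 320)) (XT.lf (nat_lit 0) (nat_lit 2413495568) (nat_lit 76) (nat_lit 5852141368) (nat_lit 152) (nat_lit 41482629084) (nat_lit 43) (nat_lit 5) (nat_lit 44) (nat_lit 5) (nat_lit 45) (nat_lit 4) (nat_lit 484) (nat_lit 397) (nat_lit 319)))) (XT.nd (nat_lit 156) (nat_lit 152) (nat_lit 0) (XT.nd (nat_lit 78) (nat_lit 76) (nat_lit 0) (XT.lf (nat_lit 0) (nat_lit 23462086390) (nat_lit 152) (nat_lit 18390987264) (nat_lit 0) (nat_lit 9607988317) (nat_lit 43) (nat_lit 5) (nat_lit 45) (nat_lit 4) (nat_lit 43) (nat_lit 4) (nat_lit 485) (nat_lit 397) (nat_lit 318)) (XT.lf (nat_lit 0) (nat_lit 12233735165) (nat_lit 76) (nat_lit 27440668848) (nat_lit 76) (nat_lit 13572291568) (nat_lit 42) (nat_lit 4) (nat_lit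 43) (nat_lit 5) (nat_lit 43) (nat_lit 4) (nat_lit 486) (nat_lit 397) (nat_lit 317))) (XT.nd (nat_lit 78) (nat_lit 76) (nat_lit 0) (XT.lf (nat_lit 0) (nat_lit 1810988502) (nat_lit 152) (nat_lit 10169450094) (nat_lit 76) (nat_lit 43125657587) (nat_lit 41) (nat_lit 5) (nat_lit 43) (nat_lit 5) (nat_lit 42) (nat_lit 4) (nat_lit 487) (nat_lit 397) (nat_lit 316)) (XT.nd (nat_lit 78) (nat_lit 0) (nat_lit 0) (XT.lf (nat_lit 0) (nat_lit 17907084610) (nat_lit 152) (nat_lit 34446449332) (nat_lit 0) (nat_lit 4673819670) (nat_lit 40) (nat_lit 5) (nat_lit 42) (nat_lit 4) (nat_lit 40) (nat_lit 4) (nat_lit 488) (nat_lit 397) (nat_lit 315)) (XT.lf (nat_lit 0) (nat_lit 35150073368) (nat_lit 152) (nat_lit 1972435383) (nat_lit 0) (nat_lit 21905060889) (nat_lit 40) (nat_lit 5) (nat_lit 42) (nat_lit 4) (nat_lit 40) (nat_lit 4) (nat_lit 489) (nat_lit 397) (nat_lit 314))))))))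
noncomputable def xc175 : XT := (XT.nd (nat_lit 1248) (nat_lit 836) (nat_lit 0) (XT.nd (nat_lit 624) (nat_lit 456) (nat_lit 0) (XT.nd (nat_lit 312) (nat_lit 228) (nat_lit 0) (XT.nd (nat_lit 156) (nat_lit 76) (nat_lit 0) (XT.nd (nat_lit 78) (nat_lit 152) (nat_lit 0) (XT.lf (nat_lit 0) (nat_lit 33129452024) (nat_lit 76) (nat_lit 20615040560) (nat_lit 76) (nat_lit 7358839949) (nat_lit 39) (nat_lit 4) (nat_lit 40) (nat_lit 5) (nat_lit 40) (nat_lit 4) (nat_lit 490) (nat_lit 397) (nat_lit 313)) (XT.lf (nat_lit 0) (nat_lit 6777989173) (nat_lit 76) (nat_lit 2999984069) (nat_lit 152) (nat_lit 53491523637) (nat_lit 37) (nat_lit 5) (nat_lit 38) (nat_lit 5) (nat_lit 39) (nat_lit 4) (nat_lit 491) (nat_lit 397) (nat_lit 312))) (XT.nd (nat_lit 78) (nat_lit 76) (nat_lit 0) (XT.lf (nat_lit 0) (nat_lit 28219861210) (nat_lit 152) (nat_lit 21708203975) (nat_lit 0) (nat_lit 15575095552) (nat_lit 37) (nat_lit 5) (nat_lit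 39) (nat_lit 4) (nat_lit 37) (nat_lit 4) (nat_lit 492) (nat_lit 397) (nat_lit 311)) (XT.lf (nat_lit 0) (nat_lit 15197964164) (nat_lit 76) (nat_lit 32645759927) (nat_lit 76) (nat_lit 19991789765) (nat_lit 36) (nat_lit 4) (nat_lit 37) (nat_lit 5) (nat_lit 37) (nat_lit 4) (nat_lit 493) (nat_lit 397) (nat_lit 310)))) (XT.nd (nat_lit 156) (nat_lit 76) (nat_lit 0) (XT.nd (nat_lit 78) (nat_lit 152) (nat_lit 0) (XT.lf (nat_lit 0) (nat_lit 54650413774) (nat_lit 76) (nat_lit 14139866156) (nat_lit 76) (nat_lit 1477129800) (nat_lit 36) (nat_lit 4) (nat_lit 37) (nat_lit 5) (nat_lit 37) (nat_lit 4) (nat_lit 494) (nat_lit 397) (nat_lit 309)) (XT.lf (nat_lit 0) (nat_lit 17825621307) (nat_lit 152) (nat_lit 49201470393) (nat_lit 0) (nat_lit 5757921200) (nat_lit 34) (nat_lit 5) (nat_lit 36) (nat_lit 4) (nat_lit 34) (nat_lit 4) (nat_lit 495) (nat_lit 397) (nat_lit 308))) (XT.nd (nat_lit 78) (nat_lit 76) (nat_lit 0)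 (XT.lf (nat_lit 0) (nat_lit 38519210444) (nat_lit 152) (nat_lit 10440370244) (nat_lit 0) (nat_lit 26443937768) (nat_lit 34) (nat_lit 5) (nat_lit 36) (nat_lit 4) (nat_lit 34) (nat_lit 4) (nat_lit 496) (nat_lit 397) (nat_lit 307)) (XT.lf (nat_lit 0) (nat_lit 31209059499) (nat_lit 76) (nat_lit 29501607555) (nat_lit 76) (nat_lit 17419122910) (nat_lit 33) (nat_lit 4) (nat_lit 34) (nat_lit 5) (nat_lit 34) (nat_lit 4) (nat_lit 497) (nat_lit 397) (nat_lit 306))))) (XT.nd (nat_lit 312) (nat_lit 228) (nat_lit 0) (XT.nd (nat_lit 156) (nat_lit 76) (nat_lit 0) (XT.nd (nat_lit 78) (nat_lit 76) (nat_lit 0) (XT.lf (nat_lit 0) (nat_lit 3078334204) (nat_lit 152) (nat_lit 5778768069) (nat_lit 76) (nat_lit 72125133343) (nat_lit 32) (nat_lit 5) (nat_lit 34) (nat_lit 5) (nat_lit 33) (nat_lit 4) (nat_lit 498) (nat_lit 397) (nat_lit 305)) (XT.lf (nat_lit 0) (nat_lit 24804825229) (nat_lit 152) (nat_lit 45833796969) (nat_lit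 0) (nat_lit 13284925556) (nat_lit 31) (nat_lit 5) (nat_lit 33) (nat_lit 4) (nat_lit 31) (nat_lit 4) (nat_lit 499) (nat_lit 397) (nat_lit 304))) (XT.nd (nat_lit 78) (nat_lit 76) (nat_lit 0) (XT.lf (nat_lit 0) (nat_lit 47839414629) (nat_lit 152) (nat_lit 2847840592) (nat_lit 0) (nat_lit 36313581650) (nat_lit 31) (nat_lit 5) (nat_lit 33) (nat_lit 4) (nat_lit 31) (nat_lit 4) (nat_lit 500) (nat_lit 397) (nat_lit 303)) (XT.lf (nat_lit 0) (nat_lit 43640046679) (nat_lit 76) (nat_lit 29045225321) (nat_lit 76) (nat_lit 17513741575) (nat_lit 30) (nat_lit 4) (nat_lit 31) (nat_lit 5) (nat_lit 31) (nat_lit 4) (nat_lit 501) (nat_lit 397) (nat_lit 302)))) (XT.nd (nat_lit 156) (nat_lit 76) (nat_lit 0) (XT.nd (nat_lit 78) (nat_lit 76) (nat_lit 0) (XT.lf (nat_lit 0) (nat_lit 5076592476) (nat_lit 152) (nat_lit 1129850851) (nat_lit 76) (nat_lit 87345222555) (nat_lit 29) (nat_lit 5) (nat_lit 31) (nat_lit 5) (nat_lit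 30) (nat_lit 4) (nat_lit 502) (nat_lit 397) (nat_lit 301)) (XT.lf (nat_lit 0) (nat_lit 29227048276) (nat_lit 152) (nat_lit 49544911926) (nat_lit 0) (nat_lit 18234676047) (nat_lit 28) (nat_lit 5) (nat_lit 30) (nat_lit 4) (nat_lit 28) (nat_lit 4) (nat_lit 503) (nat_lit 397) (nat_lit 300))) (XT.nd (nat_lit 78) (nat_lit 76) (nat_lit 0) (XT.lf (nat_lit 0) (nat_lit 54685478069) (nat_lit 152) (nat_lit 2255397615) (nat_lit 0) (nat_lit 43688456939) (nat_lit 28) (nat_lit 5) (nat_lit 30) (nat_lit 4) (nat_lit 28) (nat_lit 4) (nat_lit 504) (nat_lit 397) (nat_lit 299)) (XT.lf (nat_lit 0) (nat_lit 48924437392) (nat_lit 76) (nat_lit 33236485229) (nat_lit 76) (nat_lit 22235036575) (nat_lit 27) (nat_lit 4) (nat_lit 28) (nat_lit 5) (nat_lit 28) (nat_lit 4) (nat_lit 505) (nat_lit 397) (nat_lit 298)))))) (XT.nd (nat_lit 624) (nat_lit 380) (nat_lit 0) (XT.nd (nat_lit 312) (nat_lit 228) (nat_lit 0) (XT.nd (nat_lit 156)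 (nat_lit 76) (nat_lit 0) (XT.nd (nat_lit 78) (nat_lit 76) (nat_lit 0) (XT.lf (nat_lit 0) (nat_lit 2593185734) (nat_lit 152) (nat_lit 5689634588) (nat_lit 76) (nat_lit 100065067165) (nat_lit 26) (nat_lit 5) (nat_lit 28) (nat_lit 5) (nat_lit 27) (nat_lit 4) (nat_lit 506) (nat_lit 397) (nat_lit 297)) (XT.lf (nat_lit 0) (nat_lit 28939229111) (nat_lit 152) (nat_lit 65034956621) (nat_lit 0) (nat_lit 18453818409) (nat_lit 25) (nat_lit 5) (nat_lit 27) (nat_lit 4) (nat_lit 25) (nat_lit 4) (nat_lit 507) (nat_lit 397) (nat_lit 296))) (XT.nd (nat_lit 78) (nat_lit 76) (nat_lit 0) (XT.lf (nat_lit 0) (nat_lit 56817500559) (nat_lit 152) (nat_lit 13555432490) (nat_lit 0) (nat_lit 46328447322) (nat_lit 25) (nat_lit 5) (nat_lit 27) (nat_lit 4) (nat_lit 25) (nat_lit 4) (nat_lit 508) (nat_lit 397) (nat_lit 295)) (XT.lf (nat_lit 0) (nat_lit 41799577130) (nat_lit 76) (nat_lit 44924817590) (nat_lit 76) (nat_lit 34432295272)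 (nat_lit 24) (nat_lit 4) (nat_lit 25) (nat_lit 5) (nat_lit 25) (nat_lit 4) (nat_lit 509) (nat_lit 397) (nat_lit 294)))) (XT.nd (nat_lit 156) (nat_lit 76) (nat_lit 0) (XT.nd (nat_lit 78) (nat_lit 152) (nat_lit 0) (XT.lf (nat_lit 0) (nat_lit 100357199111) (nat_lit 76) (nat_lit 17981397046) (nat_lit 76) (nat_lit 7485570842) (nat_lit 24) (nat_lit 4) (nat_lit 25) (nat_lit 5) (nat_lit 25) (nat_lit 4) (nat_lit 510) (nat_lit 397) (nat_lit 293)) (XT.lf (nat_lit 0) (nat_lit 20795686014) (nat_lit 152) (nat_lit 99083763705) (nat_lit 0) (nat_lit 10796664335) (nat_lit 22) (nat_lit 5) (nat_lit 24) (nat_lit 4) (nat_lit 22) (nat_lit 4) (nat_lit 511) (nat_lit 397) (nat_lit 292))) (XT.nd (nat_lit 78) (nat_lit 76) (nat_lit 0) (XT.lf (nat_lit 0) (nat_lit 50955552326) (nat_lit 152) (nat_lit 43819488281) (nat_lit 0) (nat_lit 40953676626) (nat_lit 22) (nat_lit 5) (nat_lit 24) (nat_lit 4) (nat_lit 22) (nat_lit 4) (nat_lit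 512) (nat_lit 397) (nat_lit 291)) (XT.lf (nat_lit 0) (nat_lit 14643717009) (nat_lit 76) (nat_lit 68192103489) (nat_lit 76) (nat_lit 58187509673) (nat_lit 21) (nat_lit 4) (nat_lit 22) (nat_lit 5) (nat_lit 22) (nat_lit 4) (nat_lit 513) (nat_lit 397) (nat_lit 290))))) (XT.nd (nat_lit 312) (nat_lit 228) (nat_lit 0) (XT.nd (nat_lit 156) (nat_lit 76) (nat_lit 0) (XT.nd (nat_lit 78) (nat_lit 76) (nat_lit 0) (XT.lf (nat_lit 0) (nat_lit 77518953795) (nat_lit 76) (nat_lit 39517297512) (nat_lit 76) (nat_lit 29510115015) (nat_lit 21) (nat_lit 4) (nat_lit 22) (nat_lit 5) (nat_lit 22) (nat_lit 4) (nat_lit 514) (nat_lit 397) (nat_lit 289)) (XT.lf (nat_lit 0) (nat_lit 566464466) (nat_lit 152) (nat_lit 8848395751) (nat_lit 76) (nat_lit 142930997024) (nat_lit 20) (nat_lit 5) (nat_lit 22) (nat_lit 5) (nat_lit 21) (nat_lit 4) (nat_lit 515) (nat_lit 397) (nat_lit 288))) (XT.nd (nat_lit 78) (nat_lit 0) (nat_lit 0) (XT.lf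 (nat_lit 0) (nat_lit 32377005757) (nat_lit 152) (nat_lit 103131263497) (nat_lit 0) (nat_lit 22841771548) (nat_lit 19) (nat_lit 5) (nat_lit 21) (nat_lit 4) (nat_lit 19) (nat_lit 4) (nat_lit 516) (nat_lit 397) (nat_lit 287)) (XT.lf (nat_lit 0) (nat_lit 66070022942) (nat_lit 152) (nat_lit 42037154158) (nat_lit 0) (nat_lit 56532659019) (nat_lit 19) (nat_lit 5) (nat_lit 21) (nat_lit 4) (nat_lit 19) (nat_lit 4) (nat_lit 517) (nat_lit 397) (nat_lit 286)))) (XT.nd (nat_lit 156) (nat_lit 152) (nat_lit 0) (XT.nd (nat_lit 78) (nat_lit 0) (nat_lit 0) (XT.lf (nat_lit 0) (nat_lit 22813334597) (nat_lit 76) (nat_lit 78976534960) (nat_lit 76) (nat_lit 69437142738) (nat_lit 18) (nat_lit 4) (nat_lit 19) (nat_lit 5) (nat_lit 19) (nat_lit 4) (nat_lit 518) (nat_lit 397) (nat_lit 285)) (XT.lf (nat_lit 0) (nat_lit 92337747234) (nat_lit 76) (nat_lit 47656108325) (nat_lit 76) (nat_lit 38114784388) (nat_lit 18) (nat_lit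 4) (nat_lit 19) (nat_lit 5) (nat_lit 19) (nat_lit 4) (nat_lit 519) (nat_lit 397) (nat_lit 284))) (XT.nd (nat_lit 78) (nat_lit 152) (nat_lit 0) (XT.lf (nat_lit 0) (nat_lit 165311679905) (nat_lit 76) (nat_lit 14783244297) (nat_lit 76) (nat_lit 5240080632) (nat_lit 18) (nat_lit 4) (nat_lit 19) (nat_lit 5) (nat_lit 19) (nat_lit 4) (nat_lit 520) (nat_lit 397) (nat_lit 283)) (XT.nd (nat_lit 78) (nat_lit 0) (nat_lit 0) (XT.lf (nat_lit 0) (nat_lit 29439502779) (nat_lit 152) (nat_lit 143056310810) (nat_lit 0) (nat_lit 20349106792) (nat_lit 16) (nat_lit 5) (nat_lit 18) (nat_lit 4) (nat_lit 16) (nat_lit 4) (nat_lit 521) (nat_lit 397) (nat_lit 282)) (XT.lf (nat_lit 0) (nat_lit 66251284961) (nat_lit 152) (nat_lit 77286735831) (nat_lit 0) (nat_lit 57159299749) (nat_lit 16) (nat_lit 5) (nat_lit 18) (nat_lit 4) (nat_lit 16) (nat_lit 4) (nat_lit 522) (nat_lit 397) (nat_lit 281))))))))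
noncomputable def xc176 : XT := (XT.nd (nat_lit 1248) (nat_lit 380) (nat_lit 0) (XT.nd (nat_lit 624) (nat_lit 228) (nat_lit 0) (XT.nd (nat_lit 312) (nat_lit 152) (nat_lit 0) (XT.nd (nat_lit 156) (nat_lit 76) (nat_lit 0) (XT.nd (nat_lit 78) (nat_lit 76) (nat_lit 0) (XT.lf (nat_lit 0) (nat_lit 104891569218) (nat_lit 152) (nat_lit 8253305402) (nat_lit 0) (nat_lit 95798070457) (nat_lit 16) (nat_lit 5) (nat_lit 18) (nat_lit 4) (nat_lit 16) (nat_lit 4) (nat_lit 523) (nat_lit 397) (nat_lit 280)) (XT.lf (nat_lit 0) (nat_lit 66331363672) (nat_lit 76) (nat_lit 80156611033) (nat_lit 76) (nat_lit 71061670797) (nat_lit 15) (nat_lit 4) (nat_lit 16) (nat_lit 5) (nat_lit 16) (nat_lit 4) (nat_lit 524) (nat_lit 397) (nat_lit 279))) (XT.nd (nat_lit 78) (nat_lit 76) (nat_lit 0) (XT.lf (nat_lit 0) (nat_lit 144908729804) (nat_lit 76) (nat_lit 45383920859) (nat_lit 76) (nat_lit 36287607790) (nat_lit 15) (nat_lit 4) (nat_lit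 16) (nat_lit 5) (nat_lit 16) (nat_lit 4) (nat_lit 525) (nat_lit 397) (nat_lit 278)) (XT.lf (nat_lit 0) (nat_lit 206990779) (nat_lit 152) (nat_lit 8673289431) (nat_lit 76) (nat_lit 227182494143) (nat_lit 14) (nat_lit 5) (nat_lit 16) (nat_lit 5) (nat_lit 15) (nat_lit 4) (nat_lit 526) (nat_lit 397) (nat_lit 277)))) (XT.nd (nat_lit 156) (nat_lit 76) (nat_lit 0) (XT.nd (nat_lit 78) (nat_lit 0) (nat_lit 0) (XT.lf (nat_lit 0) (nat_lit 38869976949) (nat_lit 152) (nat_lit 176837146667) (nat_lit 0) (nat_lit 30204390540) (nat_lit 13) (nat_lit 5) (nat_lit 15) (nat_lit 4) (nat_lit 13) (nat_lit 4) (nat_lit 527) (nat_lit 397) (nat_lit 276)) (XT.lf (nat_lit 0) (nat_lit 79750549853) (nat_lit 152) (nat_lit 105404085227) (nat_lit 0) (nat_lit 71083834011) (nat_lit 13) (nat_lit 5) (nat_lit 15) (nat_lit 4) (nat_lit 13) (nat_lit 4) (nat_lit 528) (nat_lit 397) (nat_lit 275))) (XT.nd (nat_lit 78) (nat_lit 76) (nat_lit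 0) (XT.lf (nat_lit 0) (nat_lit 122665213054) (nat_lit 152) (nat_lit 30419634085) (nat_lit 0) (nat_lit 113997421562) (nat_lit 13) (nat_lit 5) (nat_lit 15) (nat_lit 4) (nat_lit 13) (nat_lit 4) (nat_lit 529) (nat_lit 397) (nat_lit 274)) (XT.lf (nat_lit 0) (nat_lit 49891583414) (nat_lit 76) (nat_lit 118603508346) (nat_lit 76) (nat_lit 109934692424) (nat_lit 12) (nat_lit 4) (nat_lit 13) (nat_lit 5) (nat_lit 13) (nat_lit 4) (nat_lit 530) (nat_lit 397) (nat_lit 273))))) (XT.nd (nat_lit 312) (nat_lit 76) (nat_lit 0) (XT.nd (nat_lit 156) (nat_lit 152) (nat_lit 0) (XT.nd (nat_lit 78) (nat_lit 0) (nat_lit 0) (XT.lf (nat_lit 0) (nat_lit 135255475613) (nat_lit 76) (nat_lit 81866849193) (nat_lit 76) (nat_lit 73197057625) (nat_lit 12) (nat_lit 4) (nat_lit 13) (nat_lit 5) (nat_lit 13) (nat_lit 4) (nat_lit 531) (nat_lit 397) (nat_lit 272)) (XT.lf (nat_lit 0) (nat_lit 224869479391) (nat_lit 76) (nat_lit 43302572669)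 (nat_lit 76) (nat_lit 34631851913) (nat_lit 12) (nat_lit 4) (nat_lit 13) (nat_lit 5) (nat_lit 13) (nat_lit 4) (nat_lit 532) (nat_lit 397) (nat_lit 271))) (XT.nd (nat_lit 78) (nat_lit 0) (nat_lit 0) (XT.lf (nat_lit 0) (nat_lit 3039802448) (nat_lit 76) (nat_lit 2673079573) (nat_lit 152) (nat_lit 310193249958) (nat_lit 10) (nat_lit 5) (nat_lit 11) (nat_lit 5) (nat_lit 12) (nat_lit 4) (nat_lit 533) (nat_lit 397) (nat_lit 270)) (XT.lf (nat_lit 0) (nat_lit 48868231653) (nat_lit 152) (nat_lit 240060234265) (nat_lit 0) (nat_lit 40608756895) (nat_lit 10) (nat_lit 5) (nat_lit 12) (nat_lit 4) (nat_lit 10) (nat_lit 4) (nat_lit 534) (nat_lit 397) (nat_lit 269)))) (XT.nd (nat_lit 156) (nat_lit 76) (nat_lit 0) (XT.nd (nat_lit 78) (nat_lit 0) (nat_lit 0) (XT.lf (nat_lit 0) (nat_lit 94216997481) (nat_lit 152) (nat_lit 163674330003) (nat_lit 0) (nat_lit 85956758278) (nat_lit 10) (nat_lit 5) (nat_lit 12) (nat_lit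 4) (nat_lit 10) (nat_lit 4) (nat_lit 535) (nat_lit 397) (nat_lit 268)) (XT.lf (nat_lit 0) (nat_lit 141825418494) (nat_lit 152) (nat_lit 83485011280) (nat_lit 0) (nat_lit 133564451248) (nat_lit 10) (nat_lit 5) (nat_lit 12) (nat_lit 4) (nat_lit 10) (nat_lit 4) (nat_lit 536) (nat_lit 397) (nat_lit 267))) (XT.nd (nat_lit 78) (nat_lit 0) (nat_lit 0) (XT.lf (nat_lit 0) (nat_lit 721749337) (nat_lit 76) (nat_lit 191096367266) (nat_lit 76) (nat_lit 182834706646) (nat_lit 9) (nat_lit 4) (nat_lit 10) (nat_lit 5) (nat_lit 10) (nat_lit 4) (nat_lit 537) (nat_lit 397) (nat_lit 266)) (XT.lf (nat_lit 0) (nat_lit 92022378482) (nat_lit 76) (nat_lit 153694638363) (nat_lit 76) (nat_lit 145432317387) (nat_lit 9) (nat_lit 4) (nat_lit 10) (nat_lit 5) (nat_lit 10) (nat_lit 4) (nat_lit 538) (nat_lit 397) (nat_lit 265)))))) (XT.nd (nat_lit 624) (nat_lit 228) (nat_lit 0) (XT.nd (nat_lit 312) (nat_lit 0) (nat_lit 0) (XT.nd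 (nat_lit 156) (nat_lit 152) (nat_lit 0) (XT.nd (nat_lit 78) (nat_lit 0) (nat_lit 0) (XT.lf (nat_lit 0) (nat_lit 187873867101) (nat_lit 76) (nat_lit 114430050394) (nat_lit 76) (nat_lit 106167100507) (nat_lit 9) (nat_lit 4) (nat_lit 10) (nat_lit 5) (nat_lit 10) (nat_lit 4) (nat_lit 539) (nat_lit 397) (nat_lit 264)) (XT.lf (nat_lit 0) (nat_lit 288504433023) (nat_lit 76) (nat_lit 73209116244) (nat_lit 76) (nat_lit 64945567395) (nat_lit 9) (nat_lit 4) (nat_lit 10) (nat_lit 5) (nat_lit 10) (nat_lit 4) (nat_lit 540) (nat_lit 397) (nat_lit 263))) (XT.nd (nat_lit 78) (nat_lit 152) (nat_lit 0) (XT.lf (nat_lit 0) (nat_lit 394153672836) (nat_lit 76) (nat_lit 29933690831) (nat_lit 76) (nat_lit 21669571541) (nat_lit 9) (nat_lit 4) (nat_lit 10) (nat_lit 5) (nat_lit 10) (nat_lit 4) (nat_lit 541) (nat_lit 397) (nat_lit 262)) (XT.lf (nat_lit 0) (nat_lit 23888976864) (nat_lit 152) (nat_lit 425840264757) (nat_lit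 0) (nat_lit 16017869657) (nat_lit 7) (nat_lit 5) (nat_lit 9) (nat_lit 4) (nat_lit 7) (nat_lit 4) (nat_lit 542) (nat_lit 397) (nat_lit 261)))) (XT.nd (nat_lit 156) (nat_lit 0) (nat_lit 0) (XT.nd (nat_lit 78) (nat_lit 0) (nat_lit 0) (XT.lf (nat_lit 0) (nat_lit 72370086448) (nat_lit 152) (nat_lit 349781817619) (nat_lit 0) (nat_lit 64498486473) (nat_lit 7) (nat_lit 5) (nat_lit 9) (nat_lit 4) (nat_lit 7) (nat_lit 4) (nat_lit 543) (nat_lit 397) (nat_lit 260)) (XT.lf (nat_lit 0) (nat_lit 123269446117) (nat_lit 152) (nat_lit 269932301081) (nat_lit 0) (nat_lit 115397376840) (nat_lit 7) (nat_lit 5) (nat_lit 9) (nat_lit 4) (nat_lit 7) (nat_lit 4) (nat_lit 544) (nat_lit 397) (nat_lit 259))) (XT.nd (nat_lit 78) (nat_lit 0) (nat_lit 0) (XT.lf (nat_lit 0) (nat_lit 176708244824) (nat_lit 152) (nat_lit 186101597249) (nat_lit 0) (nat_lit 168835728592) (nat_lit 7) (nat_lit 5) (nat_lit 9) (nat_lit 4) (nat_lit 7) (nat_lit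 4) (nat_lit 545) (nat_lit 397) (nat_lit 258)) (XT.lf (nat_lit 0) (nat_lit 232813717803) (nat_lit 152) (nat_lit 98090109207) (nat_lit 0) (nat_lit 224940775899) (nat_lit 7) (nat_lit 5) (nat_lit 9) (nat_lit 4) (nat_lit 7) (nat_lit 4) (nat_lit 546) (nat_lit 397) (nat_lit 257))))) (XT.nd (nat_lit 312) (nat_lit 152) (nat_lit 0) (XT.nd (nat_lit 156) (nat_lit 0) (nat_lit 0) (XT.nd (nat_lit 78) (nat_lit 76) (nat_lit 0) (XT.lf (nat_lit 0) (nat_lit 291719449514) (nat_lit 152) (nat_lit 5688285794) (nat_lit 0) (nat_lit 283846102209) (nat_lit 7) (nat_lit 5) (nat_lit 9) (nat_lit 4) (nat_lit 7) (nat_lit 4) (nat_lit 547) (nat_lit 397) (nat_lit 256)) (XT.lf (nat_lit 0) (nat_lit 94343457146) (nat_lit 76) (nat_lit 260695200315) (nat_lit 76) (nat_lit 252821466914) (nat_lit 6) (nat_lit 4) (nat_lit 7) (nat_lit 5) (nat_lit 7) (nat_lit 4) (nat_lit 548) (nat_lit 397) (nat_lit 255))) (XT.nd (nat_lit 78) (nat_lit 0) (nat_lit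 0) (XT.lf (nat_lit 0) (nat_lit 199564677496) (nat_lit 76) (nat_lit 222050783714) (nat_lit 76) (nat_lit 214176682601) (nat_lit 6) (nat_lit 4) (nat_lit 7) (nat_lit 5) (nat_lit 7) (nat_lit 4) (nat_lit 549) (nat_lit 397) (nat_lit 254)) (XT.lf (nat_lit 0) (nat_lit 310037821552) (nat_lit 76) (nat_lit 181478808859) (nat_lit 76) (nat_lit 173604357546) (nat_lit 6) (nat_lit 4) (nat_lit 7) (nat_lit 5) (nat_lit 7) (nat_lit 4) (nat_lit 550) (nat_lit 397) (nat_lit 253)))) (XT.nd (nat_lit 156) (nat_lit 152) (nat_lit 0) (XT.nd (nat_lit 78) (nat_lit 0) (nat_lit 0) (XT.lf (nat_lit 0) (nat_lit 426025920611) (nat_lit 76) (nat_lit 138882675813) (nat_lit 76) (nat_lit 131007890975) (nat_lit 6) (nat_lit 4) (nat_lit 7) (nat_lit 5) (nat_lit 7) (nat_lit 4) (nat_lit 551) (nat_lit 397) (nat_lit 252)) (XT.lf (nat_lit 0) (nat_lit 547805136812) (nat_lit 76) (nat_lit 94160965209) (nat_lit 76) (nat_lit 86285862729) (nat_lit 6)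 (nat_lit 4) (nat_lit 7) (nat_lit 5) (nat_lit 7) (nat_lit 4) (nat_lit 552) (nat_lit 397) (nat_lit 251))) (XT.nd (nat_lit 78) (nat_lit 152) (nat_lit 0) (XT.lf (nat_lit 0) (nat_lit 675665420670) (nat_lit 76) (nat_lit 47207196786) (nat_lit 76) (nat_lit 39331791788) (nat_lit 6) (nat_lit 4) (nat_lit 7) (nat_lit 5) (nat_lit 7) (nat_lit 4) (nat_lit 553) (nat_lit 397) (nat_lit 250)) (XT.lf (nat_lit 0) (nat_lit 9877424860) (nat_lit 152) (nat_lit 785581176188) (nat_lit 0) (nat_lit 2376764756) (nat_lit 4) (nat_lit 5) (nat_lit 6) (nat_lit 4) (nat_lit 4) (nat_lit 4) (nat_lit 554) (nat_lit 397) (nat_lit 249)))))))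
noncomputable def xc177 : XT := (XT.nd (nat_lit 51870) (nat_lit 0) (nat_lit 7676) (XT.nd (nat_lit 51246) (nat_lit 0) (nat_lit 11400) (XT.nd (nat_lit 50934) (nat_lit 0) (nat_lit 15200) (XT.nd (nat_lit 50778) (nat_lit 0) (nat_lit 15960) (XT.nd (nat_lit 50700) (nat_lit 0) (nat_lit 16264) (XT.lf (nat_lit 0) (nat_lit 62485049410) (nat_lit 152) (nat_lit 717633465972) (nat_lit 0) (nat_lit 54984127981) (nat_lit 4) (nat_lit 5) (nat_lit 6) (nat_lit 4) (nat_lit 4) (nat_lit 4) (nat_lit 555) (nat_lit 397) (nat_lit 248)) (XT.lf (nat_lit 0) (nat_lit 227207827) (nat_lit 228) (nat_lit 2789544182) (nat_lit 0) (nat_lit 227207827) (nat_lit 218) (nat_lit 5) (nat_lit 221) (nat_lit 4) (nat_lit 218) (nat_lit 4) (nat_lit 404) (nat_lit 398) (nat_lit 398))) (XT.nd (nat_lit 78) (nat_lit 304) (nat_lit 0) (XT.lf (nat_lit 0) (nat_lit 3653444491) (nat_lit 228) (nat_lit 1849236185) (nat_lit 0) (nat_lit 1011284653) (nat_lit 218)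 (nat_lit 5) (nat_lit 221) (nat_lit 4) (nat_lit 218) (nat_lit 4) (nat_lit 405) (nat_lit 398) (nat_lit 397)) (XT.lf (nat_lit 0) (nat_lit 297369919) (nat_lit 304) (nat_lit 4548894204) (nat_lit 76) (nat_lit 1702639167) (nat_lit 214) (nat_lit 5) (nat_lit 218) (nat_lit 5) (nat_lit 215) (nat_lit 4) (nat_lit 406) (nat_lit 398) (nat_lit 396)))) (XT.nd (nat_lit 156) (nat_lit 456) (nat_lit 0) (XT.nd (nat_lit 78) (nat_lit 304) (nat_lit 0) (XT.lf (nat_lit 0) (nat_lit 3365473027) (nat_lit 304) (nat_lit 655799692) (nat_lit 76) (nat_lit 2569571703) (nat_lit 214) (nat_lit 5) (nat_lit 218) (nat_lit 5) (nat_lit 215) (nat_lit 4) (nat_lit 407) (nat_lit 398) (nat_lit 395)) (XT.lf (nat_lit 0) (nat_lit 3417238552) (nat_lit 304) (nat_lit 3048446793) (nat_lit 380) (nat_lit 175284410) (nat_lit 210) (nat_lit 5) (nat_lit 214) (nat_lit 5) (nat_lit 215) (nat_lit 4) (nat_lit 408) (nat_lit 398) (nat_lit 394))) (XT.nd (nat_lit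 78) (nat_lit 0) (nat_lit 0) (XT.lf (nat_lit 0) (nat_lit 876499737) (nat_lit 380) (nat_lit 1907870763) (nat_lit 456) (nat_lit 3914190073) (nat_lit 204) (nat_lit 5) (nat_lit 209) (nat_lit 5) (nat_lit 210) (nat_lit 5) (nat_lit 409) (nat_lit 398) (nat_lit 393)) (XT.lf (nat_lit 0) (nat_lit 5164997505) (nat_lit 380) (nat_lit 610833549) (nat_lit 456) (nat_lit 988589826) (nat_lit 204) (nat_lit 5) (nat_lit 209) (nat_lit 5) (nat_lit 210) (nat_lit 5) (nat_lit 410) (nat_lit 398) (nat_lit 392))))) (XT.nd (nat_lit 312) (nat_lit 2052) (nat_lit 0) (XT.nd (nat_lit 156) (nat_lit 684) (nat_lit 0) (XT.nd (nat_lit 78) (nat_lit 532) (nat_lit 0) (XT.lf (nat_lit 0) (nat_lit 1913715874) (nat_lit 532) (nat_lit 4085970029) (nat_lit 76) (nat_lit 837424321) (nat_lit 197) (nat_lit 5) (nat_lit 204) (nat_lit 5) (nat_lit 198) (nat_lit 5) (nat_lit 411) (nat_lit 398) (nat_lit 391)) (XT.lf (nat_lit 0) (nat_lit 314912536) (nat_lit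 532) (nat_lit 4502046400) (nat_lit 608) (nat_lit 2101229198) (nat_lit 190) (nat_lit 5) (nat_lit 197) (nat_lit 5) (nat_lit 198) (nat_lit 5) (nat_lit 412) (nat_lit 398) (nat_lit 390))) (XT.nd (nat_lit 78) (nat_lit 608) (nat_lit 0) (XT.lf (nat_lit 0) (nat_lit 754216238) (nat_lit 608) (nat_lit 2070819408) (nat_lit 76) (nat_lit 4181638332) (nat_lit 189) (nat_lit 5) (nat_lit 197) (nat_lit 5) (nat_lit 190) (nat_lit 5) (nat_lit 413) (nat_lit 398) (nat_lit 389)) (XT.lf (nat_lit 0) (nat_lit 2609661605) (nat_lit 608) (nat_lit 969501920) (nat_lit 684) (nat_lit 3523845442) (nat_lit 181) (nat_lit 5) (nat_lit 189) (nat_lit 5) (nat_lit 190) (nat_lit 5) (nat_lit 414) (nat_lit 398) (nat_lit 388)))) (XT.nd (nat_lit 156) (nat_lit 1292) (nat_lit 0) (XT.nd (nat_lit 78) (nat_lit 76) (nat_lit 0) (XT.lf (nat_lit 0) (nat_lit 253139093) (nat_lit 684) (nat_lit 6208767949) (nat_lit 760) (nat_lit 746439939) (nat_lit 172) (nat_lit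 5) (nat_lit 181) (nat_lit 5) (nat_lit 182) (nat_lit 5) (nat_lit 415) (nat_lit 398) (nat_lit 387)) (XT.lf (nat_lit 0) (nat_lit 2057637018) (nat_lit 760) (nat_lit 2108343762) (nat_lit 76) (nat_lit 3153427227) (nat_lit 171) (nat_lit 5) (nat_lit 181) (nat_lit 5) (nat_lit 172) (nat_lit 5) (nat_lit 416) (nat_lit 398) (nat_lit 386))) (XT.nd (nat_lit 78) (nat_lit 532) (nat_lit 0) (XT.lf (nat_lit 0) (nat_lit 2933835257) (nat_lit 760) (nat_lit 1959289824) (nat_lit 836) (nat_lit 2546482391) (nat_lit 161) (nat_lit 5) (nat_lit 171) (nat_lit 5) (nat_lit 172) (nat_lit 5) (nat_lit 417) (nat_lit 398) (nat_lit 385)) (XT.lf (nat_lit 0) (nat_lit 219784309) (nat_lit 532) (nat_lit 6955039530) (nat_lit 76) (nat_lit 394517968) (nat_lit 154) (nat_lit 5) (nat_lit 161) (nat_lit 5) (nat_lit 155) (nat_lit 5) (nat_lit 418) (nat_lit 398) (nat_lit 384)))))) (XT.nd (nat_lit 624) (nat_lit 1900) (nat_lit 0) (XT.nd (nat_lit 312)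 (nat_lit 988) (nat_lit 0) (XT.nd (nat_lit 156) (nat_lit 456) (nat_lit 0) (XT.nd (nat_lit 78) (nat_lit 380) (nat_lit 0) (XT.lf (nat_lit 0) (nat_lit 3025047888) (nat_lit 532) (nat_lit 1764874759) (nat_lit 76) (nat_lit 2914250068) (nat_lit 154) (nat_lit 5) (nat_lit 161) (nat_lit 5) (nat_lit 155) (nat_lit 5) (nat_lit 419) (nat_lit 398) (nat_lit 383)) (XT.lf (nat_lit 0) (nat_lit 3673986923) (nat_lit 380) (nat_lit 2236410067) (nat_lit 456) (nat_lit 1938366810) (nat_lit 149) (nat_lit 5) (nat_lit 154) (nat_lit 5) (nat_lit 155) (nat_lit 5) (nat_lit 420) (nat_lit 398) (nat_lit 382))) (XT.nd (nat_lit 78) (nat_lit 0) (nat_lit 0) (XT.lf (nat_lit 0) (nat_lit 852746615) (nat_lit 456) (nat_lit 6666195988) (nat_lit 76) (nat_lit 483748068) (nat_lit 143) (nat_lit 5) (nat_lit 149) (nat_lit 5) (nat_lit 144) (nat_lit 5) (nat_lit 421) (nat_lit 398) (nat_lit 381)) (XT.lf (nat_lit 0) (nat_lit 3714274402) (nat_lit 456)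 (nat_lit 1095552599) (nat_lit 76) (nat_lit 3353106457) (nat_lit 143) (nat_lit 5) (nat_lit 149) (nat_lit 5) (nat_lit 144) (nat_lit 5) (nat_lit 422) (nat_lit 398) (nat_lit 380)))) (XT.nd (nat_lit 156) (nat_lit 304) (nat_lit 0) (XT.nd (nat_lit 78) (nat_lit 380) (nat_lit 0) (XT.lf (nat_lit 0) (nat_lit 4779507089) (nat_lit 304) (nat_lit 1906828371) (nat_lit 380) (nat_lit 1646488102) (nat_lit 139) (nat_lit 5) (nat_lit 143) (nat_lit 5) (nat_lit 144) (nat_lit 5) (nat_lit 423) (nat_lit 398) (nat_lit 379)) (XT.lf (nat_lit 0) (nat_lit 1223700799) (nat_lit 380) (nat_lit 6127452642) (nat_lit 76) (nat_lit 1160581318) (nat_lit 134) (nat_lit 5) (nat_lit 139) (nat_lit 5) (nat_lit 135) (nat_lit 5) (nat_lit 424) (nat_lit 398) (nat_lit 378))) (XT.nd (nat_lit 78) (nat_lit 304) (nat_lit 0) (XT.lf (nat_lit 0) (nat_lit 4171451564) (nat_lit 380) (nat_lit 144934993) (nat_lit 76) (nat_lit 4382393046) (nat_lit 134) (nat_lit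 5) (nat_lit 139) (nat_lit 5) (nat_lit 135) (nat_lit 5) (nat_lit 425) (nat_lit 398) (nat_lit 377)) (XT.lf (nat_lit 0) (nat_lit 6210494089) (nat_lit 304) (nat_lit 1054927651) (nat_lit 380) (nat_lit 1629819955) (nat_lit 130) (nat_lit 5) (nat_lit 134) (nat_lit 5) (nat_lit 135) (nat_lit 5) (nat_lit 426) (nat_lit 398) (nat_lit 376))))) (XT.nd (nat_lit 312) (nat_lit 912) (nat_lit 0) (XT.nd (nat_lit 156) (nat_lit 380) (nat_lit 0) (XT.nd (nat_lit 78) (nat_lit 228) (nat_lit 0) (XT.lf (nat_lit 0) (nat_lit 1369498006) (nat_lit 380) (nat_lit 5380755913) (nat_lit 76) (nat_lit 2350068989) (nat_lit 125) (nat_lit 5) (nat_lit 130) (nat_lit 5) (nat_lit 126) (nat_lit 5) (nat_lit 427) (nat_lit 398) (nat_lit 375)) (XT.lf (nat_lit 0) (nat_lit 1085504113) (nat_lit 228) (nat_lit 3364223349) (nat_lit 304) (nat_lit 4865314590) (nat_lit 122) (nat_lit 5) (nat_lit 125) (nat_lit 5) (nat_lit 126) (nat_lit 5) (nat_lit 428) (nat_lit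 398) (nat_lit 374))) (XT.nd (nat_lit 78) (nat_lit 380) (nat_lit 0) (XT.lf (nat_lit 0) (nat_lit 7686841361) (nat_lit 304) (nat_lit 1608947085) (nat_lit 76) (nat_lit 244570489) (nat_lit 122) (nat_lit 5) (nat_lit 126) (nat_lit 5) (nat_lit 123) (nat_lit 5) (nat_lit 429) (nat_lit 398) (nat_lit 373)) (XT.lf (nat_lit 0) (nat_lit 1317909793) (nat_lit 380) (nat_lit 4461656178) (nat_lit 76) (nat_lit 3993812234) (nat_lit 117) (nat_lit 5) (nat_lit 122) (nat_lit 5) (nat_lit 118) (nat_lit 5) (nat_lit 430) (nat_lit 398) (nat_lit 372)))) (XT.nd (nat_lit 156) (nat_lit 684) (nat_lit 0) (XT.nd (nat_lit 78) (nat_lit 0) (nat_lit 0) (XT.lf (nat_lit 0) (nat_lit 2543063686) (nat_lit 228) (nat_lit 2022521919) (nat_lit 304) (nat_lit 5451949876) (nat_lit 114) (nat_lit 5) (nat_lit 117) (nat_lit 5) (nat_lit 118) (nat_lit 5) (nat_lit 431) (nat_lit 398) (nat_lit 371)) (XT.lf (nat_lit 0) (nat_lit 7996676235) (nat_lit 304) (nat_lit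 375207131) (nat_lit 76) (nat_lit 1900970170) (nat_lit 114) (nat_lit 5) (nat_lit 118) (nat_lit 5) (nat_lit 115) (nat_lit 5) (nat_lit 432) (nat_lit 398) (nat_lit 370))) (XT.nd (nat_lit 78) (nat_lit 380) (nat_lit 0) (XT.lf (nat_lit 0) (nat_lit 1088695502) (nat_lit 304) (nat_lit 3401216807) (nat_lit 76) (nat_lit 6046993695) (nat_lit 110) (nat_lit 5) (nat_lit 114) (nat_lit 5) (nat_lit 111) (nat_lit 5) (nat_lit 433) (nat_lit 398) (nat_lit 369)) (XT.nd (nat_lit 78) (nat_lit 228) (nat_lit 0) (XT.lf (nat_lit 0) (nat_lit 4196768847) (nat_lit 152) (nat_lit 339559832) (nat_lit 228) (nat_lit 6276419996) (nat_lit 108) (nat_lit 5) (nat_lit 110) (nat_lit 5) (nat_lit 111) (nat_lit 5) (nat_lit 434) (nat_lit 398) (nat_lit 368)) (XT.lf (nat_lit 0) (nat_lit 1040028885) (nat_lit 228) (nat_lit 7174222127) (nat_lit 304) (nat_lit 2885240765) (nat_lit 105) (nat_lit 5) (nat_lit 108) (nat_lit 5) (nat_lit 109) (nat_lit 5)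 (nat_lit 435) (nat_lit 398) (nat_lit 367))))))))
noncomputable def xc178 : XT := (XT.nd (nat_lit 1248) (nat_lit 1520) (nat_lit 0) (XT.nd (nat_lit 624) (nat_lit 912) (nat_lit 0) (XT.nd (nat_lit 312) (nat_lit 532) (nat_lit 0) (XT.nd (nat_lit 156) (nat_lit 304) (nat_lit 0) (XT.nd (nat_lit 78) (nat_lit 152) (nat_lit 0) (XT.lf (nat_lit 0) (nat_lit 694339889) (nat_lit 304) (nat_lit 2227833890) (nat_lit 76) (nat_lit 8475851139) (nat_lit 104) (nat_lit 5) (nat_lit 108) (nat_lit 5) (nat_lit 105) (nat_lit 5) (nat_lit 436) (nat_lit 398) (nat_lit 366)) (XT.lf (nat_lit 0) (nat_lit 4400491078) (nat_lit 228) (nat_lit 5710625864) (nat_lit 76) (nat_lit 1595778271) (nat_lit 102) (nat_lit 5) (nat_lit 105) (nat_lit 5) (nat_lit 103) (nat_lit 5) (nat_lit 437) (nat_lit 398) (nat_lit 365))) (XT.nd (nat_lit 78) (nat_lit 76) (nat_lit 0) (XT.lf (nat_lit 0) (nat_lit 2595462612) (nat_lit 228) (nat_lit 5749154738) (nat_lit 304)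 (nat_lit 3683961321) (nat_lit 99) (nat_lit 5) (nat_lit 102) (nat_lit 5) (nat_lit 103) (nat_lit 5) (nat_lit 438) (nat_lit 398) (nat_lit 364)) (XT.lf (nat_lit 0) (nat_lit 140481949) (nat_lit 304) (nat_lit 969055610) (nat_lit 76) (nat_lit 11255482798) (nat_lit 98) (nat_lit 5) (nat_lit 102) (nat_lit 5) (nat_lit 99) (nat_lit 5) (nat_lit 439) (nat_lit 398) (nat_lit 363)))) (XT.nd (nat_lit 156) (nat_lit 228) (nat_lit 0) (XT.nd (nat_lit 78) (nat_lit 152) (nat_lit 0) (XT.lf (nat_lit 0) (nat_lit 4148258736) (nat_lit 228) (nat_lit 4773276854) (nat_lit 76) (nat_lit 3787935678) (nat_lit 96) (nat_lit 5) (nat_lit 99) (nat_lit 5) (nat_lit 97) (nat_lit 5) (nat_lit 440) (nat_lit 398) (nat_lit 362)) (XT.lf (nat_lit 0) (nat_lit 4253245908) (nat_lit 152) (nat_lit 4135285162) (nat_lit 228) (nat_lit 4681010806) (nat_lit 94) (nat_lit 5) (nat_lit 96) (nat_lit 5) (nat_lit 97) (nat_lit 5) (nat_lit 441) (nat_lit 398) (nat_lit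 361))) (XT.nd (nat_lit 78) (nat_lit 76) (nat_lit 0) (XT.lf (nat_lit 0) (nat_lit 333395515) (nat_lit 152) (nat_lit 12540354891) (nat_lit 228) (nat_lit 572221309) (nat_lit 92) (nat_lit 5) (nat_lit 94) (nat_lit 5) (nat_lit 95) (nat_lit 4) (nat_lit 442) (nat_lit 398) (nat_lit 360)) (XT.lf (nat_lit 0) (nat_lit 3773837949) (nat_lit 228) (nat_lit 3831444369) (nat_lit 76) (nat_lit 6225441819) (nat_lit 91) (nat_lit 5) (nat_lit 94) (nat_lit 5) (nat_lit 92) (nat_lit 5) (nat_lit 443) (nat_lit 398) (nat_lit 359))))) (XT.nd (nat_lit 312) (nat_lit 380) (nat_lit 0) (XT.nd (nat_lit 156) (nat_lit 228) (nat_lit 0) (XT.nd (nat_lit 78) (nat_lit 152) (nat_lit 0) (XT.lf (nat_lit 0) (nat_lit 5985776328) (nat_lit 152) (nat_lit 2360934318) (nat_lit 228) (nat_lit 5886099504) (nat_lit 89) (nat_lit 5) (nat_lit 91) (nat_lit 5) (nat_lit 92) (nat_lit 5) (nat_lit 444) (nat_lit 398) (nat_lit 358)) (XT.lf (nat_lit 0) (nat_lit 1667457374)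 (nat_lit 152) (nat_lit 11557838286) (nat_lit 228) (nat_lit 1425853317) (nat_lit 87) (nat_lit 5) (nat_lit 89) (nat_lit 5) (nat_lit 90) (nat_lit 4) (nat_lit 445) (nat_lit 398) (nat_lit 357))) (XT.nd (nat_lit 78) (nat_lit 152) (nat_lit 0) (XT.lf (nat_lit 0) (nat_lit 3270097360) (nat_lit 228) (nat_lit 2922457779) (nat_lit 76) (nat_lit 8889461039) (nat_lit 86) (nat_lit 5) (nat_lit 89) (nat_lit 5) (nat_lit 87) (nat_lit 5) (nat_lit 446) (nat_lit 398) (nat_lit 356)) (XT.lf (nat_lit 0) (nat_lit 7760979833) (nat_lit 152) (nat_lit 452440753) (nat_lit 228) (nat_lit 7316814453) (nat_lit 84) (nat_lit 5) (nat_lit 86) (nat_lit 5) (nat_lit 87) (nat_lit 5) (nat_lit 447) (nat_lit 398) (nat_lit 355)))) (XT.nd (nat_lit 156) (nat_lit 228) (nat_lit 0) (XT.nd (nat_lit 78) (nat_lit 76) (nat_lit 0) (XT.lf (nat_lit 0) (nat_lit 2982833046) (nat_lit 76) (nat_lit 10544874775) (nat_lit 152) (nat_lit 2466968733) (nat_lit 83)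 (nat_lit 5) (nat_lit 84) (nat_lit 5) (nat_lit 85) (nat_lit 4) (nat_lit 448) (nat_lit 398) (nat_lit 354)) (XT.lf (nat_lit 0) (nat_lit 2622638261) (nat_lit 152) (nat_lit 2090780383) (nat_lit 76) (nat_lit 11762808626) (nat_lit 82) (nat_lit 5) (nat_lit 84) (nat_lit 5) (nat_lit 83) (nat_lit 5) (nat_lit 449) (nat_lit 398) (nat_lit 353))) (XT.nd (nat_lit 78) (nat_lit 76) (nat_lit 0) (XT.lf (nat_lit 0) (nat_lit 8000172024) (nat_lit 228) (nat_lit 7460064344) (nat_lit 76) (nat_lit 1513780796) (nat_lit 80) (nat_lit 5) (nat_lit 83) (nat_lit 5) (nat_lit 81) (nat_lit 4) (nat_lit 450) (nat_lit 398) (nat_lit 352)) (XT.lf (nat_lit 0) (nat_lit 4232091249) (nat_lit 76) (nat_lit 9537285320) (nat_lit 152) (nat_lit 3721181598) (nat_lit 79) (nat_lit 5) (nat_lit 80) (nat_lit 5) (nat_lit 81) (nat_lit 4) (nat_lit 451) (nat_lit 398) (nat_lit 351)))))) (XT.nd (nat_lit 624) (nat_lit 684) (nat_lit 0) (XT.nd (nat_lit 312) (nat_lit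 456) (nat_lit 0) (XT.nd (nat_lit 156) (nat_lit 152) (nat_lit 0) (XT.nd (nat_lit 78) (nat_lit 152) (nat_lit 0) (XT.lf (nat_lit 0) (nat_lit 1808778832) (nat_lit 152) (nat_lit 1391153352) (nat_lit 76) (nat_lit 14827990344) (nat_lit 78) (nat_lit 5) (nat_lit 80) (nat_lit 5) (nat_lit 79) (nat_lit 5) (nat_lit 452) (nat_lit 398) (nat_lit 350)) (XT.lf (nat_lit 0) (nat_lit 7669656499) (nat_lit 228) (nat_lit 7368269721) (nat_lit 76) (nat_lit 3542206112) (nat_lit 76) (nat_lit 5) (nat_lit 79) (nat_lit 5) (nat_lit 77) (nat_lit 4) (nat_lit 453) (nat_lit 398) (nat_lit 349))) (XT.nd (nat_lit 78) (nat_lit 76) (nat_lit 0) (XT.lf (nat_lit 0) (nat_lit 5355287075) (nat_lit 76) (nat_lit 8575045576) (nat_lit 152) (nat_lit 5224283331) (nat_lit 75) (nat_lit 5) (nat_lit 76) (nat_lit 5) (nat_lit 77) (nat_lit 4) (nat_lit 454) (nat_lit 398) (nat_lit 348)) (XT.lf (nat_lit 0) (nat_lit 796081943) (nat_lit 152) (nat_lit 892451626)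 (nat_lit 76) (nat_lit 18065021360) (nat_lit 74) (nat_lit 5) (nat_lit 76) (nat_lit 5) (nat_lit 75) (nat_lit 5) (nat_lit 455) (nat_lit 398) (nat_lit 347)))) (XT.nd (nat_lit 156) (nat_lit 228) (nat_lit 0) (XT.nd (nat_lit 78) (nat_lit 76) (nat_lit 0) (XT.lf (nat_lit 0) (nat_lit 7183209163) (nat_lit 228) (nat_lit 7567727923) (nat_lit 76) (nat_lit 5615156782) (nat_lit 72) (nat_lit 5) (nat_lit 75) (nat_lit 5) (nat_lit 73) (nat_lit 4) (nat_lit 456) (nat_lit 398) (nat_lit 346)) (XT.lf (nat_lit 0) (nat_lit 6275479662) (nat_lit 76) (nat_lit 7704991519) (nat_lit 152) (nat_lit 7024250545) (nat_lit 71) (nat_lit 5) (nat_lit 72) (nat_lit 5) (nat_lit 73) (nat_lit 4) (nat_lit 457) (nat_lit 398) (nat_lit 345))) (XT.nd (nat_lit 78) (nat_lit 228) (nat_lit 0) (XT.lf (nat_lit 0) (nat_lit 20981442066) (nat_lit 76) (nat_lit 215029150) (nat_lit 152) (nat_lit 474866865) (nat_lit 71) (nat_lit 5) (nat_lit 72) (nat_lit 5) (nat_lit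 73) (nat_lit 4) (nat_lit 458) (nat_lit 398) (nat_lit 344)) (XT.lf (nat_lit 0) (nat_lit 6497036928) (nat_lit 228) (nat_lit 8161099504) (nat_lit 76) (nat_lit 7693154222) (nat_lit 68) (nat_lit 5) (nat_lit 71) (nat_lit 5) (nat_lit 69) (nat_lit 4) (nat_lit 459) (nat_lit 398) (nat_lit 343))))) (XT.nd (nat_lit 312) (nat_lit 380) (nat_lit 0) (XT.nd (nat_lit 156) (nat_lit 228) (nat_lit 0) (XT.nd (nat_lit 78) (nat_lit 0) (nat_lit 0) (XT.lf (nat_lit 0) (nat_lit 6893109013) (nat_lit 76) (nat_lit 6984036286) (nat_lit 152) (nat_lit 9183928656) (nat_lit 67) (nat_lit 5) (nat_lit 68) (nat_lit 5) (nat_lit 69) (nat_lit 4) (nat_lit 460) (nat_lit 398) (nat_lit 342)) (XT.lf (nat_lit 0) (nat_lit 21736282897) (nat_lit 152) (nat_lit 924928149) (nat_lit 0) (nat_lit 1139634883) (nat_lit 67) (nat_lit 5) (nat_lit 69) (nat_lit 4) (nat_lit 67) (nat_lit 4) (nat_lit 461) (nat_lit 398) (nat_lit 341))) (XT.nd (nat_lit 78) (nat_lit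 76) (nat_lit 0) (XT.lf (nat_lit 0) (nat_lit 5552191750) (nat_lit 152) (nat_lit 9279454530) (nat_lit 76) (nat_lit 9726007024) (nat_lit 65) (nat_lit 5) (nat_lit 67) (nat_lit 5) (nat_lit 66) (nat_lit 4) (nat_lit 462) (nat_lit 398) (nat_lit 340)) (XT.lf (nat_lit 0) (nat_lit 7078890371) (nat_lit 76) (nat_lit 6483086165) (nat_lit 152) (nat_lit 11784554097) (nat_lit 64) (nat_lit 5) (nat_lit 65) (nat_lit 5) (nat_lit 66) (nat_lit 4) (nat_lit 463) (nat_lit 398) (nat_lit 339)))) (XT.nd (nat_lit 156) (nat_lit 228) (nat_lit 0) (XT.nd (nat_lit 78) (nat_lit 152) (nat_lit 0) (XT.lf (nat_lit 0) (nat_lit 22122947103) (nat_lit 152) (nat_lit 1713744017) (nat_lit 0) (nat_lit 2330626455) (nat_lit 64) (nat_lit 5) (nat_lit 66) (nat_lit 4) (nat_lit 64) (nat_lit 4) (nat_lit 464) (nat_lit 398) (nat_lit 338)) (XT.lf (nat_lit 0) (nat_lit 4270691340) (nat_lit 152) (nat_lit 11090714195) (nat_lit 76) (nat_lit 11648624396) (nat_lit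 62) (nat_lit 5) (nat_lit 64) (nat_lit 5) (nat_lit 63) (nat_lit 4) (nat_lit 465) (nat_lit 398) (nat_lit 337))) (XT.nd (nat_lit 78) (nat_lit 152) (nat_lit 0) (XT.lf (nat_lit 0) (nat_lit 6664793927) (nat_lit 76) (nat_lit 6291887807) (nat_lit 152) (nat_lit 14930326967) (nat_lit 61) (nat_lit 5) (nat_lit 62) (nat_lit 5) (nat_lit 63) (nat_lit 4) (nat_lit 466) (nat_lit 398) (nat_lit 336)) (XT.nd (nat_lit 78) (nat_lit 152) (nat_lit 0) (XT.lf (nat_lit 0) (nat_lit 22276020510) (nat_lit 152) (nat_lit 3240851127) (nat_lit 0) (nat_lit 3281012803) (nat_lit 61) (nat_lit 5) (nat_lit 63) (nat_lit 4) (nat_lit 61) (nat_lit 4) (nat_lit 467) (nat_lit 398) (nat_lit 335)) (XT.lf (nat_lit 0) (nat_lit 2550485169) (nat_lit 152) (nat_lit 13810372031) (nat_lit 76) (nat_lit 13375781139) (nat_lit 59) (nat_lit 5) (nat_lit 61) (nat_lit 5) (nat_lit 60) (nat_lit 4) (nat_lit 468) (nat_lit 398) (nat_lit 334))))))))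
noncomputable def xc179 : XT := (XT.nd (nat_lit 1248) (nat_lit 1064) (nat_lit 0) (XT.nd (nat_lit 624) (nat_lit 532) (nat_lit 0) (XT.nd (nat_lit 312) (nat_lit 228) (nat_lit 0) (XT.nd (nat_lit 156) (nat_lit 228) (nat_lit 0) (XT.nd (nat_lit 78) (nat_lit 0) (nat_lit 0) (XT.lf (nat_lit 0) (nat_lit 5432561262) (nat_lit 76) (nat_lit 6525096442) (nat_lit 152) (nat_lit 18754307680) (nat_lit 58) (nat_lit 5) (nat_lit 59) (nat_lit 5) (nat_lit 60) (nat_lit 4) (nat_lit 469) (nat_lit 398) (nat_lit 333)) (XT.lf (nat_lit 0) (nat_lit 22092186557) (nat_lit 152) (nat_lit 5748758429) (nat_lit 0) (nat_lit 3882264301) (nat_lit 58) (nat_lit 5) (nat_lit 60) (nat_lit 4) (nat_lit 58) (nat_lit 4) (nat_lit 470) (nat_lit 398) (nat_lit 332))) (XT.nd (nat_lit 78) (nat_lit 76) (nat_lit 0) (XT.lf (nat_lit 0) (nat_lit 258958740) (nat_lit 152) (nat_lit 17715139683) (nat_lit 76) (nat_lit 14795513495) (nat_lit 56) (nat_lit 5) (nat_lit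 58) (nat_lit 5) (nat_lit 57) (nat_lit 4) (nat_lit 471) (nat_lit 398) (nat_lit 331)) (XT.lf (nat_lit 0) (nat_lit 3099060699) (nat_lit 76) (nat_lit 7329929746) (nat_lit 152) (nat_lit 23425989457) (nat_lit 55) (nat_lit 5) (nat_lit 56) (nat_lit 5) (nat_lit 57) (nat_lit 4) (nat_lit 472) (nat_lit 398) (nat_lit 330)))) (XT.nd (nat_lit 156) (nat_lit 152) (nat_lit 0) (XT.nd (nat_lit 78) (nat_lit 76) (nat_lit 0) (XT.lf (nat_lit 0) (nat_lit 21434495280) (nat_lit 152) (nat_lit 9550323104) (nat_lit 0) (nat_lit 3993449643) (nat_lit 55) (nat_lit 5) (nat_lit 57) (nat_lit 4) (nat_lit 55) (nat_lit 4) (nat_lit 473) (nat_lit 398) (nat_lit 329)) (XT.lf (nat_lit 0) (nat_lit 12938319716) (nat_lit 76) (nat_lit 20337917081) (nat_lit 76) (nat_lit 2867185998) (nat_lit 54) (nat_lit 4) (nat_lit 55) (nat_lit 5) (nat_lit 55) (nat_lit 4) (nat_lit 474) (nat_lit 398) (nat_lit 328))) (XT.nd (nat_lit 78) (nat_lit 76) (nat_lit 0)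 (XT.lf (nat_lit 0) (nat_lit 8204427876) (nat_lit 152) (nat_lit 679925789) (nat_lit 76) (nat_lit 28469557188) (nat_lit 53) (nat_lit 5) (nat_lit 55) (nat_lit 5) (nat_lit 54) (nat_lit 4) (nat_lit 475) (nat_lit 398) (nat_lit 327)) (XT.lf (nat_lit 0) (nat_lit 20122832786) (nat_lit 152) (nat_lit 15048790009) (nat_lit 0) (nat_lit 3431472301) (nat_lit 52) (nat_lit 5) (nat_lit 54) (nat_lit 4) (nat_lit 52) (nat_lit 4) (nat_lit 476) (nat_lit 398) (nat_lit 326))))) (XT.nd (nat_lit 312) (nat_lit 228) (nat_lit 0) (XT.nd (nat_lit 156) (nat_lit 152) (nat_lit 0) (XT.nd (nat_lit 78) (nat_lit 76) (nat_lit 0) (XT.lf (nat_lit 0) (nat_lit 9190078353) (nat_lit 76) (nat_lit 23713559611) (nat_lit 76) (nat_lit 6997776836) (nat_lit 51) (nat_lit 4) (nat_lit 52) (nat_lit 5) (nat_lit 52) (nat_lit 4) (nat_lit 477) (nat_lit 398) (nat_lit 325)) (XT.lf (nat_lit 0) (nat_lit 5121642423) (nat_lit 152) (nat_lit 6239675130) (nat_lit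 76) (nat_lit 29888147849) (nat_lit 50) (nat_lit 5) (nat_lit 52) (nat_lit 5) (nat_lit 51) (nat_lit 4) (nat_lit 478) (nat_lit 398) (nat_lit 324))) (XT.nd (nat_lit 78) (nat_lit 76) (nat_lit 0) (XT.lf (nat_lit 0) (nat_lit 17921678861) (nat_lit 152) (nat_lit 22763376023) (nat_lit 0) (nat_lit 1958637114) (nat_lit 49) (nat_lit 5) (nat_lit 51) (nat_lit 4) (nat_lit 49) (nat_lit 4) (nat_lit 479) (nat_lit 398) (nat_lit 323)) (XT.lf (nat_lit 0) (nat_lit 3272556032) (nat_lit 76) (nat_lit 28401300575) (nat_lit 76) (nat_lit 12418166550) (nat_lit 48) (nat_lit 4) (nat_lit 49) (nat_lit 5) (nat_lit 49) (nat_lit 4) (nat_lit 480) (nat_lit 398) (nat_lit 322)))) (XT.nd (nat_lit 156) (nat_lit 76) (nat_lit 0) (XT.nd (nat_lit 78) (nat_lit 76) (nat_lit 0) (XT.lf (nat_lit 0) (nat_lit 844092250) (nat_lit 152) (nat_lit 14271880414) (nat_lit 76) (nat_lit 30478444848) (nat_lit 47) (nat_lit 5) (nat_lit 49) (nat_lit 5) (nat_lit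 48) (nat_lit 4) (nat_lit 481) (nat_lit 398) (nat_lit 321)) (XT.lf (nat_lit 0) (nat_lit 13778780099) (nat_lit 76) (nat_lit 757451079) (nat_lit 152) (nat_lit 32616316811) (nat_lit 46) (nat_lit 5) (nat_lit 47) (nat_lit 5) (nat_lit 48) (nat_lit 4) (nat_lit 482) (nat_lit 398) (nat_lit 320))) (XT.nd (nat_lit 78) (nat_lit 76) (nat_lit 0) (XT.lf (nat_lit 0) (nat_lit 29351230816) (nat_lit 152) (nat_lit 5338353966) (nat_lit 0) (nat_lit 14077087690) (nat_lit 46) (nat_lit 5) (nat_lit 48) (nat_lit 4) (nat_lit 46) (nat_lit 4) (nat_lit 483) (nat_lit 398) (nat_lit 319)) (XT.lf (nat_lit 0) (nat_lit 24822022537) (nat_lit 76) (nat_lit 20455421780) (nat_lit 76) (nat_lit 5165535828) (nat_lit 45) (nat_lit 4) (nat_lit 46) (nat_lit 5) (nat_lit 46) (nat_lit 4) (nat_lit 484) (nat_lit 398) (nat_lit 318)))))) (XT.nd (nat_lit 624) (nat_lit 456) (nat_lit 0) (XT.nd (nat_lit 312) (nat_lit 304) (nat_lit 0) (XT.nd (nat_lit 156)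 (nat_lit 152) (nat_lit 0) (XT.nd (nat_lit 78) (nat_lit 0) (nat_lit 0) (XT.lf (nat_lit 0) (nat_lit 4404838392) (nat_lit 76) (nat_lit 5209657954) (nat_lit 152) (nat_lit 42574399581) (nat_lit 43) (nat_lit 5) (nat_lit 44) (nat_lit 5) (nat_lit 45) (nat_lit 4) (nat_lit 485) (nat_lit 398) (nat_lit 317)) (XT.lf (nat_lit 0) (nat_lit 25540121135) (nat_lit 152) (nat_lit 17498296574) (nat_lit 0) (nat_lit 10950446539) (nat_lit 43) (nat_lit 5) (nat_lit 45) (nat_lit 4) (nat_lit 43) (nat_lit 4) (nat_lit 486) (nat_lit 398) (nat_lit 316))) (XT.nd (nat_lit 78) (nat_lit 76) (nat_lit 0) (XT.lf (nat_lit 0) (nat_lit 14628432299) (nat_lit 76) (nat_lit 27919368205) (nat_lit 76) (nat_lit 13316741947) (nat_lit 42) (nat_lit 4) (nat_lit 43) (nat_lit 5) (nat_lit 43) (nat_lit 4) (nat_lit 487) (nat_lit 398) (nat_lit 315)) (XT.lf (nat_lit 0) (nat_lit 2762742795) (nat_lit 152) (nat_lit 8951338442) (nat_lit 76) (nat_lit 46104255798)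 (nat_lit 41) (nat_lit 5) (nat_lit 43) (nat_lit 5) (nat_lit 42) (nat_lit 4) (nat_lit 488) (nat_lit 398) (nat_lit 314)))) (XT.nd (nat_lit 156) (nat_lit 228) (nat_lit 0) (XT.nd (nat_lit 78) (nat_lit 0) (nat_lit 0) (XT.lf (nat_lit 0) (nat_lit 19662458385) (nat_lit 152) (nat_lit 34440998781) (nat_lit 0) (nat_lit 5732259611) (nat_lit 40) (nat_lit 5) (nat_lit 42) (nat_lit 4) (nat_lit 40) (nat_lit 4) (nat_lit 489) (nat_lit 398) (nat_lit 313)) (XT.lf (nat_lit 0) (nat_lit 37726643269) (nat_lit 152) (nat_lit 425559040) (nat_lit 0) (nat_lit 23785789131) (nat_lit 40) (nat_lit 5) (nat_lit 42) (nat_lit 4) (nat_lit 40) (nat_lit 4) (nat_lit 490) (nat_lit 398) (nat_lit 312))) (XT.nd (nat_lit 78) (nat_lit 152) (nat_lit 0) (XT.lf (nat_lit 0) (nat_lit 36404882445) (nat_lit 76) (nat_lit 20832174316) (nat_lit 76) (nat_lit 6881172213) (nat_lit 39) (nat_lit 4) (nat_lit 40) (nat_lit 5) (nat_lit 40) (nat_lit 4) (nat_lit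 491) (nat_lit 398) (nat_lit 311)) (XT.lf (nat_lit 0) (nat_lit 8736365498) (nat_lit 76) (nat_lit 2335357589) (nat_lit 152) (nat_lit 55321003166) (nat_lit 37) (nat_lit 5) (nat_lit 38) (nat_lit 5) (nat_lit 39) (nat_lit 4) (nat_lit 492) (nat_lit 398) (nat_lit 310))))) (XT.nd (nat_lit 312) (nat_lit 228) (nat_lit 0) (XT.nd (nat_lit 156) (nat_lit 152) (nat_lit 0) (XT.nd (nat_lit 78) (nat_lit 76) (nat_lit 0) (XT.lf (nat_lit 0) (nat_lit 30409492150) (nat_lit 152) (nat_lit 21225039177) (nat_lit 0) (nat_lit 17104852781) (nat_lit 37) (nat_lit 5) (nat_lit 39) (nat_lit 4) (nat_lit 37) (nat_lit 4) (nat_lit 493) (nat_lit 398) (nat_lit 309)) (XT.lf (nat_lit 0) (nat_lit 17501137772) (nat_lit 76) (nat_lit 33500427262) (nat_lit 76) (nat_lit 20187439137) (nat_lit 36) (nat_lit 4) (nat_lit 37) (nat_lit 5) (nat_lit 37) (nat_lit 4) (nat_lit 494) (nat_lit 398) (nat_lit 308))) (XT.nd (nat_lit 78) (nat_lit 152) (nat_lit 0)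 (XT.lf (nat_lit 0) (nat_lit 58852720558) (nat_lit 76) (nat_lit 14106268359) (nat_lit 76) (nat_lit 785329037) (nat_lit 36) (nat_lit 4) (nat_lit 37) (nat_lit 5) (nat_lit 37) (nat_lit 4) (nat_lit 495) (nat_lit 398) (nat_lit 307)) (XT.lf (nat_lit 0) (nat_lit 19457289742) (nat_lit 152) (nat_lit 50166483259) (nat_lit 0) (nat_lit 6763468895) (nat_lit 34) (nat_lit 5) (nat_lit 36) (nat_lit 4) (nat_lit 34) (nat_lit 4) (nat_lit 496) (nat_lit 398) (nat_lit 306)))) (XT.nd (nat_lit 156) (nat_lit 152) (nat_lit 0) (XT.nd (nat_lit 78) (nat_lit 76) (nat_lit 0) (XT.lf (nat_lit 0) (nat_lit 41150301794) (nat_lit 152) (nat_lit 9538521468) (nat_lit 0) (nat_lit 28449612404) (nat_lit 34) (nat_lit 5) (nat_lit 36) (nat_lit 4) (nat_lit 34) (nat_lit 4) (nat_lit 497) (nat_lit 398) (nat_lit 305)) (XT.lf (nat_lit 0) (nat_lit 34170414162) (nat_lit 76) (nat_lit 30269211416) (nat_lit 76) (nat_lit 17561980557) (nat_lit 33) (nat_lit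 4) (nat_lit 34) (nat_lit 5) (nat_lit 34) (nat_lit 4) (nat_lit 498) (nat_lit 398) (nat_lit 304))) (XT.nd (nat_lit 78) (nat_lit 76) (nat_lit 0) (XT.lf (nat_lit 0) (nat_lit 3903484056) (nat_lit 152) (nat_lit 4711318514) (nat_lit 76) (nat_lit 76382981294) (nat_lit 32) (nat_lit 5) (nat_lit 34) (nat_lit 5) (nat_lit 33) (nat_lit 4) (nat_lit 499) (nat_lit 398) (nat_lit 303)) (XT.nd (nat_lit 78) (nat_lit 0) (nat_lit 0) (XT.lf (nat_lit 0) (nat_lit 26715700964) (nat_lit 152) (nat_lit 46768498404) (nat_lit 0) (nat_lit 14601992264) (nat_lit 31) (nat_lit 5) (nat_lit 33) (nat_lit 4) (nat_lit 31) (nat_lit 4) (nat_lit 500) (nat_lit 398) (nat_lit 302)) (XT.lf (nat_lit 0) (nat_lit 50870084858) (nat_lit 152) (nat_lit 1697862703) (nat_lit 0) (nat_lit 38750994475) (nat_lit 31) (nat_lit 5) (nat_lit 33) (nat_lit 4) (nat_lit 31) (nat_lit 4) (nat_lit 501) (nat_lit 398) (nat_lit 301))))))))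
noncomputable def xc180 : XT := (XT.nd (nat_lit 1248) (nat_lit 684) (nat_lit 0) (XT.nd (nat_lit 624) (nat_lit 456) (nat_lit 0) (XT.nd (nat_lit 312) (nat_lit 228) (nat_lit 0) (XT.nd (nat_lit 156) (nat_lit 0) (nat_lit 0) (XT.nd (nat_lit 78) (nat_lit 152) (nat_lit 0) (XT.lf (nat_lit 0) (nat_lit 47093574255) (nat_lit 76) (nat_lit 29854098654) (nat_lit 76) (nat_lit 17729882858) (nat_lit 30) (nat_lit 4) (nat_lit 31) (nat_lit 5) (nat_lit 31) (nat_lit 4) (nat_lit 502) (nat_lit 398) (nat_lit 300)) (XT.lf (nat_lit 0) (nat_lit 46218131) (nat_lit 76) (nat_lit 5892960049) (nat_lit 152) (nat_lit 92259631722) (nat_lit 28) (nat_lit 5) (nat_lit 29) (nat_lit 5) (nat_lit 30) (nat_lit 4) (nat_lit 503) (nat_lit 398) (nat_lit 299))) (XT.nd (nat_lit 78) (nat_lit 0) (nat_lit 0) (XT.lf (nat_lit 0) (nat_lit 31295966104) (nat_lit 152) (nat_lit 50790604793) (nat_lit 0) (nat_lit 19740017494) (nat_lit 28) (nat_lit 5) (nat_lit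 30) (nat_lit 4) (nat_lit 28) (nat_lit 4) (nat_lit 504) (nat_lit 398) (nat_lit 298)) (XT.lf (nat_lit 0) (nat_lit 57998385700) (nat_lit 152) (nat_lit 1195260134) (nat_lit 0) (nat_lit 46438220400) (nat_lit 28) (nat_lit 5) (nat_lit 30) (nat_lit 4) (nat_lit 28) (nat_lit 4) (nat_lit 505) (nat_lit 398) (nat_lit 297)))) (XT.nd (nat_lit 156) (nat_lit 76) (nat_lit 0) (XT.nd (nat_lit 78) (nat_lit 76) (nat_lit 0) (XT.lf (nat_lit 0) (nat_lit 52524648762) (nat_lit 76) (nat_lit 34313416740) (nat_lit 76) (nat_lit 22749235546) (nat_lit 27) (nat_lit 4) (nat_lit 28) (nat_lit 5) (nat_lit 28) (nat_lit 4) (nat_lit 506) (nat_lit 398) (nat_lit 296)) (XT.lf (nat_lit 0) (nat_lit 3273728291) (nat_lit 152) (nat_lit 4856862857) (nat_lit 76) (nat_lit 105607145397) (nat_lit 26) (nat_lit 5) (nat_lit 28) (nat_lit 5) (nat_lit 27) (nat_lit 4) (nat_lit 507) (nat_lit 398) (nat_lit 295))) (XT.nd (nat_lit 78) (nat_lit 0) (nat_lit 0)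 (XT.lf (nat_lit 0) (nat_lit 30936706308) (nat_lit 152) (nat_lit 67169082364) (nat_lit 0) (nat_lit 19916088793) (nat_lit 25) (nat_lit 5) (nat_lit 27) (nat_lit 4) (nat_lit 25) (nat_lit 4) (nat_lit 508) (nat_lit 398) (nat_lit 294)) (XT.lf (nat_lit 0) (nat_lit 60182676293) (nat_lit 152) (nat_lit 13168802126) (nat_lit 0) (nat_lit 49158754892) (nat_lit 25) (nat_lit 5) (nat_lit 27) (nat_lit 4) (nat_lit 25) (nat_lit 4) (nat_lit 509) (nat_lit 398) (nat_lit 293))))) (XT.nd (nat_lit 312) (nat_lit 228) (nat_lit 0) (XT.nd (nat_lit 156) (nat_lit 152) (nat_lit 0) (XT.nd (nat_lit 78) (nat_lit 0) (nat_lit 0) (XT.lf (nat_lit 0) (nat_lit 44936790201) (nat_lit 76) (nat_lit 46639508521) (nat_lit 76) (nat_lit 35612440562) (nat_lit 24) (nat_lit 4) (nat_lit 25) (nat_lit 5) (nat_lit 25) (nat_lit 4) (nat_lit 510) (nat_lit 398) (nat_lit 292)) (XT.lf (nat_lit 0) (nat_lit 106372424985) (nat_lit 76) (nat_lit 18374228852) (nat_lit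 76) (nat_lit 7344164170) (nat_lit 24) (nat_lit 4) (nat_lit 25) (nat_lit 5) (nat_lit 25) (nat_lit 4) (nat_lit 511) (nat_lit 398) (nat_lit 291))) (XT.nd (nat_lit 78) (nat_lit 0) (nat_lit 0) (XT.lf (nat_lit 0) (nat_lit 22334362411) (nat_lit 152) (nat_lit 103023791093) (nat_lit 0) (nat_lit 11826820789) (nat_lit 22) (nat_lit 5) (nat_lit 24) (nat_lit 4) (nat_lit 22) (nat_lit 4) (nat_lit 512) (nat_lit 398) (nat_lit 290)) (XT.lf (nat_lit 0) (nat_lit 53978465272) (nat_lit 152) (nat_lit 45044595269) (nat_lit 0) (nat_lit 43468334968) (nat_lit 22) (nat_lit 5) (nat_lit 24) (nat_lit 4) (nat_lit 22) (nat_lit 4) (nat_lit 513) (nat_lit 398) (nat_lit 289)))) (XT.nd (nat_lit 156) (nat_lit 152) (nat_lit 0) (XT.nd (nat_lit 78) (nat_lit 0) (nat_lit 0) (XT.lf (nat_lit 0) (nat_lit 16326191779) (nat_lit 76) (nat_lit 71118766255) (nat_lit 76) (nat_lit 60606170540) (nat_lit 21) (nat_lit 4) (nat_lit 22) (nat_lit 5) (nat_lit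 22) (nat_lit 4) (nat_lit 514) (nat_lit 398) (nat_lit 288)) (XT.lf (nat_lit 0) (nat_lit 82299938550) (nat_lit 76) (nat_lit 41033217237) (nat_lit 76) (nat_lit 30518273512) (nat_lit 21) (nat_lit 4) (nat_lit 22) (nat_lit 5) (nat_lit 22) (nat_lit 4) (nat_lit 515) (nat_lit 398) (nat_lit 287))) (XT.nd (nat_lit 78) (nat_lit 76) (nat_lit 0) (XT.lf (nat_lit 0) (nat_lit 1025634568) (nat_lit 152) (nat_lit 8414629059) (nat_lit 76) (nat_lit 150501343459) (nat_lit 20) (nat_lit 5) (nat_lit 22) (nat_lit 5) (nat_lit 21) (nat_lit 4) (nat_lit 516) (nat_lit 398) (nat_lit 286)) (XT.lf (nat_lit 0) (nat_lit 34426488036) (nat_lit 152) (nat_lit 107411424663) (nat_lit 0) (nat_lit 24408097902) (nat_lit 19) (nat_lit 5) (nat_lit 21) (nat_lit 4) (nat_lit 19) (nat_lit 4) (nat_lit 517) (nat_lit 398) (nat_lit 285)))))) (XT.nd (nat_lit 624) (nat_lit 380) (nat_lit 0) (XT.nd (nat_lit 312) (nat_lit 228) (nat_lit 0) (XT.nd (nat_lit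 156) (nat_lit 0) (nat_lit 0) (XT.nd (nat_lit 78) (nat_lit 76) (nat_lit 0) (XT.lf (nat_lit 0) (nat_lit 69783649795) (nat_lit 152) (nat_lit 43304343286) (nat_lit 0) (nat_lit 59763327948) (nat_lit 19) (nat_lit 5) (nat_lit 21) (nat_lit 4) (nat_lit 19) (nat_lit 4) (nat_lit 518) (nat_lit 398) (nat_lit 284)) (XT.lf (nat_lit 0) (nat_lit 24775207511) (nat_lit 76) (nat_lit 82507572765) (nat_lit 76) (nat_lit 72485411190) (nat_lit 18) (nat_lit 4) (nat_lit 19) (nat_lit 5) (nat_lit 19) (nat_lit 4) (nat_lit 519) (nat_lit 398) (nat_lit 283))) (XT.nd (nat_lit 78) (nat_lit 0) (nat_lit 0) (XT.lf (nat_lit 0) (nat_lit 97736735723) (nat_lit 76) (nat_lit 49641019510) (nat_lit 76) (nat_lit 39617105813) (nat_lit 18) (nat_lit 4) (nat_lit 19) (nat_lit 5) (nat_lit 19) (nat_lit 4) (nat_lit 520) (nat_lit 398) (nat_lit 282)) (XT.lf (nat_lit 0) (nat_lit 174322122116) (nat_lit 76) (nat_lit 15143459624) (nat_lit 76) (nat_lit 5117877241)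 (nat_lit 18) (nat_lit 4) (nat_lit 19) (nat_lit 5) (nat_lit 19) (nat_lit 4) (nat_lit 521) (nat_lit 398) (nat_lit 281)))) (XT.nd (nat_lit 156) (nat_lit 76) (nat_lit 0) (XT.nd (nat_lit 78) (nat_lit 0) (nat_lit 0) (XT.lf (nat_lit 0) (nat_lit 31283227952) (nat_lit 152) (nat_lit 149451809764) (nat_lit 0) (nat_lit 21733540705) (nat_lit 16) (nat_lit 5) (nat_lit 18) (nat_lit 4) (nat_lit 16) (nat_lit 4) (nat_lit 522) (nat_lit 398) (nat_lit 280)) (XT.lf (nat_lit 0) (nat_lit 69917896861) (nat_lit 152) (nat_lit 80429818730) (nat_lit 0) (nat_lit 60366768139) (nat_lit 16) (nat_lit 5) (nat_lit 18) (nat_lit 4) (nat_lit 16) (nat_lit 4) (nat_lit 523) (nat_lit 398) (nat_lit 279))) (XT.nd (nat_lit 78) (nat_lit 76) (nat_lit 0) (XT.lf (nat_lit 0) (nat_lit 110473335918) (nat_lit 152) (nat_lit 7979062203) (nat_lit 0) (nat_lit 100920834363) (nat_lit 16) (nat_lit 5) (nat_lit 18) (nat_lit 4) (nat_lit 16) (nat_lit 4) (nat_lit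 524) (nat_lit 398) (nat_lit 278)) (XT.lf (nat_lit 0) (nat_lit 70323761155) (nat_lit 76) (nat_lit 83820295531) (nat_lit 76) (nat_lit 74266486516) (nat_lit 15) (nat_lit 4) (nat_lit 16) (nat_lit 5) (nat_lit 16) (nat_lit 4) (nat_lit 525) (nat_lit 398) (nat_lit 277))))) (XT.nd (nat_lit 312) (nat_lit 228) (nat_lit 0) (XT.nd (nat_lit 156) (nat_lit 76) (nat_lit 0) (XT.nd (nat_lit 78) (nat_lit 76) (nat_lit 0) (XT.lf (nat_lit 0) (nat_lit 152797813246) (nat_lit 76) (nat_lit 47325358755) (nat_lit 76) (nat_lit 37770304540) (nat_lit 15) (nat_lit 4) (nat_lit 16) (nat_lit 5) (nat_lit 16) (nat_lit 4) (nat_lit 526) (nat_lit 398) (nat_lit 276)) (XT.lf (nat_lit 0) (nat_lit 523119072) (nat_lit 152) (nat_lit 8483846021) (nat_lit 76) (nat_lit 238843658683) (nat_lit 14) (nat_lit 5) (nat_lit 16) (nat_lit 5) (nat_lit 15) (nat_lit 4) (nat_lit 527) (nat_lit 398) (nat_lit 275))) (XT.nd (nat_lit 78) (nat_lit 0) (nat_lit 0)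 (XT.lf (nat_lit 0) (nat_lit 41119140591) (nat_lit 152) (nat_lit 185055781820) (nat_lit 0) (nat_lit 32016883874) (nat_lit 13) (nat_lit 5) (nat_lit 15) (nat_lit 4) (nat_lit 13) (nat_lit 4) (nat_lit 528) (nat_lit 398) (nat_lit 274)) (XT.lf (nat_lit 0) (nat_lit 84029186674) (nat_lit 152) (nat_lit 110080744555) (nat_lit 0) (nat_lit 74925905527) (nat_lit 13) (nat_lit 5) (nat_lit 15) (nat_lit 4) (nat_lit 13) (nat_lit 4) (nat_lit 529) (nat_lit 398) (nat_lit 273)))) (XT.nd (nat_lit 156) (nat_lit 152) (nat_lit 0) (XT.nd (nat_lit 78) (nat_lit 76) (nat_lit 0) (XT.lf (nat_lit 0) (nat_lit 129075720686) (nat_lit 152) (nat_lit 31375334900) (nat_lit 0) (nat_lit 119971463892) (nat_lit 13) (nat_lit 5) (nat_lit 15) (nat_lit 4) (nat_lit 13) (nat_lit 4) (nat_lit 530) (nat_lit 398) (nat_lit 272)) (XT.lf (nat_lit 0) (nat_lit 52942326040) (nat_lit 76) (nat_lit 124250248320) (nat_lit 76) (nat_lit 115145062339) (nat_lit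 12) (nat_lit 4) (nat_lit 13) (nat_lit 5) (nat_lit 13) (nat_lit 4) (nat_lit 531) (nat_lit 398) (nat_lit 271))) (XT.nd (nat_lit 78) (nat_lit 152) (nat_lit 0) (XT.lf (nat_lit 0) (nat_lit 142547928875) (nat_lit 76) (nat_lit 85690253135) (nat_lit 76) (nat_lit 76584182214) (nat_lit 12) (nat_lit 4) (nat_lit 13) (nat_lit 5) (nat_lit 13) (nat_lit 4) (nat_lit 532) (nat_lit 398) (nat_lit 270)) (XT.nd (nat_lit 78) (nat_lit 152) (nat_lit 0) (XT.lf (nat_lit 0) (nat_lit 236617410010) (nat_lit 76) (nat_lit 45210617000) (nat_lit 76) (nat_lit 36103703278) (nat_lit 12) (nat_lit 4) (nat_lit 13) (nat_lit 5) (nat_lit 13) (nat_lit 4) (nat_lit 533) (nat_lit 398) (nat_lit 269)) (XT.lf (nat_lit 0) (nat_lit 3696292327) (nat_lit 76) (nat_lit 2549565582) (nat_lit 152) (nat_lit 325443213837) (nat_lit 10) (nat_lit 5) (nat_lit 11) (nat_lit 5) (nat_lit 12) (nat_lit 4) (nat_lit 534) (nat_lit 398) (nat_lit 268))))))))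
noncomputable def xc181 : XT := (XT.nd (nat_lit 1248) (nat_lit 152) (nat_lit 0) (XT.nd (nat_lit 624) (nat_lit 228) (nat_lit 0) (XT.nd (nat_lit 312) (nat_lit 0) (nat_lit 0) (XT.nd (nat_lit 156) (nat_lit 76) (nat_lit 0) (XT.nd (nat_lit 78) (nat_lit 0) (nat_lit 0) (XT.lf (nat_lit 0) (nat_lit 51551021236) (nat_lit 152) (nat_lit 251574816002) (nat_lit 0) (nat_lit 42876277585) (nat_lit 10) (nat_lit 5) (nat_lit 12) (nat_lit 4) (nat_lit 10) (nat_lit 4) (nat_lit 535) (nat_lit 398) (nat_lit 267)) (XT.lf (nat_lit 0) (nat_lit 99155826403) (nat_lit 152) (nat_lit 171392875097) (nat_lit 0) (nat_lit 90480389378) (nat_lit 10) (nat_lit 5) (nat_lit 12) (nat_lit 4) (nat_lit 10) (nat_lit 4) (nat_lit 536) (nat_lit 398) (nat_lit 266))) (XT.nd (nat_lit 78) (nat_lit 76) (nat_lit 0) (XT.lf (nat_lit 0) (nat_lit 149133812321) (nat_lit 152) (nat_lit 87216241458) (nat_lit 0) (nat_lit 140457714940) (nat_lit 10) (nat_lit 5) (nat_lit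 12) (nat_lit 4) (nat_lit 10) (nat_lit 4) (nat_lit 537) (nat_lit 398) (nat_lit 265)) (XT.lf (nat_lit 0) (nat_lit 1193711701) (nat_lit 76) (nat_lit 200428899678) (nat_lit 76) (nat_lit 191752173386) (nat_lit 9) (nat_lit 4) (nat_lit 10) (nat_lit 5) (nat_lit 10) (nat_lit 4) (nat_lit 538) (nat_lit 398) (nat_lit 264)))) (XT.nd (nat_lit 156) (nat_lit 0) (nat_lit 0) (XT.nd (nat_lit 78) (nat_lit 0) (nat_lit 0) (XT.lf (nat_lit 0) (nat_lit 97038616355) (nat_lit 76) (nat_lit 161167669376) (nat_lit 76) (nat_lit 152490344122) (nat_lit 9) (nat_lit 4) (nat_lit 10) (nat_lit 5) (nat_lit 10) (nat_lit 4) (nat_lit 539) (nat_lit 398) (nat_lit 263)) (XT.lf (nat_lit 0) (nat_lit 197662911836) (nat_lit 76) (nat_lit 119949933004) (nat_lit 76) (nat_lit 111272037309) (nat_lit 9) (nat_lit 4) (nat_lit 10) (nat_lit 5) (nat_lit 10) (nat_lit 4) (nat_lit 540) (nat_lit 398) (nat_lit 262))) (XT.nd (nat_lit 78) (nat_lit 0) (nat_lit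 0) (XT.lf (nat_lit 0) (nat_lit 303306179798) (nat_lit 76) (nat_lit 76677553094) (nat_lit 76) (nat_lit 67999114123) (nat_lit 9) (nat_lit 4) (nat_lit 10) (nat_lit 5) (nat_lit 10) (nat_lit 4) (nat_lit 541) (nat_lit 398) (nat_lit 261)) (XT.lf (nat_lit 0) (nat_lit 414219951834) (nat_lit 76) (nat_lit 31247500171) (nat_lit 76) (nat_lit 22568543793) (nat_lit 9) (nat_lit 4) (nat_lit 10) (nat_lit 5) (nat_lit 10) (nat_lit 4) (nat_lit 542) (nat_lit 398) (nat_lit 260))))) (XT.nd (nat_lit 312) (nat_lit 76) (nat_lit 0) (XT.nd (nat_lit 156) (nat_lit 0) (nat_lit 0) (XT.nd (nat_lit 78) (nat_lit 0) (nat_lit 0) (XT.lf (nat_lit 0) (nat_lit 25261976957) (nat_lit 152) (nat_lit 446767727260) (nat_lit 0) (nat_lit 16995834914) (nat_lit 7) (nat_lit 5) (nat_lit 9) (nat_lit 4) (nat_lit 7) (nat_lit 4) (nat_lit 543) (nat_lit 398) (nat_lit 259)) (XT.lf (nat_lit 0) (nat_lit 76158639580) (nat_lit 152) (nat_lit 366923717323) (nat_lit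 0) (nat_lit 67892050581) (nat_lit 7) (nat_lit 5) (nat_lit 9) (nat_lit 4) (nat_lit 7) (nat_lit 4) (nat_lit 544) (nat_lit 398) (nat_lit 258))) (XT.nd (nat_lit 78) (nat_lit 0) (nat_lit 0) (XT.lf (nat_lit 0) (nat_lit 129594869671) (nat_lit 152) (nat_lit 283098257872) (nat_lit 0) (nat_lit 121327855001) (nat_lit 7) (nat_lit 5) (nat_lit 9) (nat_lit 4) (nat_lit 7) (nat_lit 4) (nat_lit 545) (nat_lit 398) (nat_lit 257)) (XT.lf (nat_lit 0) (nat_lit 185697896349) (nat_lit 152) (nat_lit 195091764480) (nat_lit 0) (nat_lit 177430476277) (nat_lit 7) (nat_lit 5) (nat_lit 9) (nat_lit 4) (nat_lit 7) (nat_lit 4) (nat_lit 546) (nat_lit 398) (nat_lit 256)))) (XT.nd (nat_lit 156) (nat_lit 76) (nat_lit 0) (XT.nd (nat_lit 78) (nat_lit 0) (nat_lit 0) (XT.lf (nat_lit 0) (nat_lit 244601298249) (nat_lit 152) (nat_lit 102694697875) (nat_lit 0) (nat_lit 236333492081) (nat_lit 7) (nat_lit 5) (nat_lit 9) (nat_lit 4) (nat_lit 7)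 (nat_lit 4) (nat_lit 547) (nat_lit 398) (nat_lit 255)) (XT.lf (nat_lit 0) (nat_lit 306445321566) (nat_lit 152) (nat_lit 5687065044) (nat_lit 0) (nat_lit 298177147687) (nat_lit 7) (nat_lit 5) (nat_lit 9) (nat_lit 4) (nat_lit 7) (nat_lit 4) (nat_lit 548) (nat_lit 398) (nat_lit 254))) (XT.nd (nat_lit 78) (nat_lit 0) (nat_lit 0) (XT.lf (nat_lit 0) (nat_lit 99341658026) (nat_lit 76) (nat_lit 273586557635) (nat_lit 76) (nat_lit 265318033555) (nat_lit 6) (nat_lit 4) (nat_lit 7) (nat_lit 5) (nat_lit 7) (nat_lit 4) (nat_lit 549) (nat_lit 398) (nat_lit 253)) (XT.lf (nat_lit 0) (nat_lit 209810557107) (nat_lit 76) (nat_lit 233016748903) (nat_lit 76) (nat_lit 224747891298) (nat_lit 6) (nat_lit 4) (nat_lit 7) (nat_lit 5) (nat_lit 7) (nat_lit 4) (nat_lit 550) (nat_lit 398) (nat_lit 252)))))) (XT.nd (nat_lit 51090) (nat_lit 0) (nat_lit 14060) (XT.nd (nat_lit 312) (nat_lit 152) (nat_lit 0) (XT.nd (nat_lit 156)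 (nat_lit 0) (nat_lit 0) (XT.nd (nat_lit 78) (nat_lit 0) (nat_lit 0) (XT.lf (nat_lit 0) (nat_lit 325794613331) (nat_lit 76) (nat_lit 190422678830) (nat_lit 76) (nat_lit 182153503583) (nat_lit 6) (nat_lit 4) (nat_lit 7) (nat_lit 5) (nat_lit 7) (nat_lit 4) (nat_lit 551) (nat_lit 398) (nat_lit 251)) (XT.lf (nat_lit 0) (nat_lit 447569979214) (nat_lit 76) (nat_lit 145702932963) (nat_lit 76) (nat_lit 137433455199) (nat_lit 6) (nat_lit 4) (nat_lit 7) (nat_lit 5) (nat_lit 7) (nat_lit 4) (nat_lit 552) (nat_lit 398) (nat_lit 250))) (XT.nd (nat_lit 78) (nat_lit 0) (nat_lit 0) (XT.lf (nat_lit 0) (nat_lit 575426596102) (nat_lit 76) (nat_lit 98751035717) (nat_lit 76) (nat_lit 90481269842) (nat_lit 6) (nat_lit 4) (nat_lit 7) (nat_lit 5) (nat_lit 7) (nat_lit 4) (nat_lit 553) (nat_lit 398) (nat_lit 249)) (XT.lf (nat_lit 0) (nat_lit 709668884513) (nat_lit 76) (nat_lit 49455196861) (nat_lit 76) (nat_lit 41185156594)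 (nat_lit 6) (nat_lit 4) (nat_lit 7) (nat_lit 5) (nat_lit 7) (nat_lit 4) (nat_lit 554) (nat_lit 398) (nat_lit 248)))) (XT.nd (nat_lit 50622) (nat_lit 0) (nat_lit 16264) (XT.nd (nat_lit 50544) (nat_lit 0) (nat_lit 16492) (XT.lf (nat_lit 0) (nat_lit 10480870619) (nat_lit 152) (nat_lit 824636391759) (nat_lit 0) (nat_lit 2604392912) (nat_lit 4) (nat_lit 5) (nat_lit 6) (nat_lit 4) (nat_lit 4) (nat_lit 4) (nat_lit 555) (nat_lit 398) (nat_lit 247)) (XT.lf (nat_lit 0) (nat_lit 96181369) (nat_lit 76) (nat_lit 1565065956) (nat_lit 76) (nat_lit 1565065956) (nat_lit 221) (nat_lit 4) (nat_lit 222) (nat_lit 5) (nat_lit 222) (nat_lit 4) (nat_lit 402) (nat_lit 399) (nat_lit 399))) (XT.nd (nat_lit 78) (nat_lit 152) (nat_lit 0) (XT.lf (nat_lit 0) (nat_lit 83656398) (nat_lit 152) (nat_lit 2741485602) (nat_lit 76) (nat_lit 3642914804) (nat_lit 220) (nat_lit 5) (nat_lit 222) (nat_lit 5) (nat_lit 221) (nat_lit 4) (nat_lit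 403) (nat_lit 399) (nat_lit 398)) (XT.lf (nat_lit 0) (nat_lit 810309316) (nat_lit 152) (nat_lit 2359231349) (nat_lit 228) (nat_lit 3321349399) (nat_lit 218) (nat_lit 5) (nat_lit 220) (nat_lit 5) (nat_lit 221) (nat_lit 4) (nat_lit 404) (nat_lit 399) (nat_lit 397))))) (XT.nd (nat_lit 312) (nat_lit 1520) (nat_lit 0) (XT.nd (nat_lit 156) (nat_lit 380) (nat_lit 0) (XT.nd (nat_lit 78) (nat_lit 304) (nat_lit 0) (XT.lf (nat_lit 0) (nat_lit 4519224499) (nat_lit 152) (nat_lit 1748401542) (nat_lit 228) (nat_lit 254369472) (nat_lit 218) (nat_lit 5) (nat_lit 220) (nat_lit 5) (nat_lit 221) (nat_lit 4) (nat_lit 405) (nat_lit 399) (nat_lit 396)) (XT.lf (nat_lit 0) (nat_lit 1752514931) (nat_lit 228) (nat_lit 963365489) (nat_lit 304) (nat_lit 3844241422) (nat_lit 214) (nat_lit 5) (nat_lit 217) (nat_lit 5) (nat_lit 218) (nat_lit 5) (nat_lit 406) (nat_lit 399) (nat_lit 395))) (XT.nd (nat_lit 78) (nat_lit 380) (nat_lit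 0) (XT.lf (nat_lit 0) (nat_lit 5646464407) (nat_lit 228) (nat_lit 37875178) (nat_lit 304) (nat_lit 922716488) (nat_lit 214) (nat_lit 5) (nat_lit 217) (nat_lit 5) (nat_lit 218) (nat_lit 5) (nat_lit 407) (nat_lit 399) (nat_lit 394)) (XT.lf (nat_lit 0) (nat_lit 1970270663) (nat_lit 380) (nat_lit 3649921428) (nat_lit 76) (nat_lit 1039789025) (nat_lit 209) (nat_lit 5) (nat_lit 214) (nat_lit 5) (nat_lit 210) (nat_lit 5) (nat_lit 408) (nat_lit 399) (nat_lit 393)))) (XT.nd (nat_lit 156) (nat_lit 1064) (nat_lit 0) (XT.nd (nat_lit 78) (nat_lit 76) (nat_lit 0) (XT.lf (nat_lit 0) (nat_lit 372075028) (nat_lit 380) (nat_lit 4464914614) (nat_lit 456) (nat_lit 1884821162) (nat_lit 204) (nat_lit 5) (nat_lit 209) (nat_lit 5) (nat_lit 210) (nat_lit 5) (nat_lit 409) (nat_lit 399) (nat_lit 392)) (XT.lf (nat_lit 0) (nat_lit 929624956) (nat_lit 456) (nat_lit 2204325920) (nat_lit 76) (nat_lit 3656808437) (nat_lit 203)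 (nat_lit 5) (nat_lit 209) (nat_lit 5) (nat_lit 204) (nat_lit 5) (nat_lit 410) (nat_lit 399) (nat_lit 391))) (XT.nd (nat_lit 78) (nat_lit 608) (nat_lit 0) (XT.lf (nat_lit 0) (nat_lit 2064479421) (nat_lit 456) (nat_lit 1637225318) (nat_lit 532) (nat_lit 3165909564) (nat_lit 197) (nat_lit 5) (nat_lit 203) (nat_lit 5) (nat_lit 204) (nat_lit 5) (nat_lit 411) (nat_lit 399) (nat_lit 390)) (XT.nd (nat_lit 78) (nat_lit 608) (nat_lit 0) (XT.lf (nat_lit 0) (nat_lit 6503195958) (nat_lit 532) (nat_lit 447714363) (nat_lit 76) (nat_lit 2877231) (nat_lit 197) (nat_lit 5) (nat_lit 204) (nat_lit 5) (nat_lit 198) (nat_lit 5) (nat_lit 412) (nat_lit 399) (nat_lit 389)) (XT.lf (nat_lit 0) (nat_lit 2274732587) (nat_lit 608) (nat_lit 2972144444) (nat_lit 76) (nat_lit 1797979365) (nat_lit 189) (nat_lit 5) (nat_lit 197) (nat_lit 5) (nat_lit 190) (nat_lit 5) (nat_lit 413) (nat_lit 399) (nat_lit 388))))))))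
noncomputable def xc182 : XT := (XT.nd (nat_lit 1248) (nat_lit 2736) (nat_lit 0) (XT.nd (nat_lit 624) (nat_lit 1976) (nat_lit 0) (XT.nd (nat_lit 312) (nat_lit 988) (nat_lit 0) (XT.nd (nat_lit 156) (nat_lit 1444) (nat_lit 0) (XT.nd (nat_lit 78) (nat_lit 76) (nat_lit 0) (XT.lf (nat_lit 0) (nat_lit 1617257734) (nat_lit 608) (nat_lit 3400307971) (nat_lit 684) (nat_lit 2127738082) (nat_lit 181) (nat_lit 5) (nat_lit 189) (nat_lit 5) (nat_lit 190) (nat_lit 5) (nat_lit 414) (nat_lit 399) (nat_lit 387)) (XT.lf (nat_lit 0) (nat_lit 543115289) (nat_lit 684) (nat_lit 843946374) (nat_lit 76) (nat_lit 5867366987) (nat_lit 180) (nat_lit 5) (nat_lit 189) (nat_lit 5) (nat_lit 181) (nat_lit 5) (nat_lit 415) (nat_lit 399) (nat_lit 386))) (XT.nd (nat_lit 78) (nat_lit 760) (nat_lit 0) (XT.lf (nat_lit 0) (nat_lit 3224633398) (nat_lit 760) (nat_lit 3332648031) (nat_lit 76) (nat_lit 812564732) (nat_lit 171) (nat_lit 5)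 (nat_lit 181) (nat_lit 5) (nat_lit 172) (nat_lit 5) (nat_lit 416) (nat_lit 399) (nat_lit 385)) (XT.lf (nat_lit 0) (nat_lit 1607285590) (nat_lit 760) (nat_lit 4371956138) (nat_lit 836) (nat_lit 1514853390) (nat_lit 161) (nat_lit 5) (nat_lit 171) (nat_lit 5) (nat_lit 172) (nat_lit 5) (nat_lit 417) (nat_lit 399) (nat_lit 384)))) (XT.nd (nat_lit 156) (nat_lit 456) (nat_lit 0) (XT.nd (nat_lit 78) (nat_lit 456) (nat_lit 0) (XT.lf (nat_lit 0) (nat_lit 1143154921) (nat_lit 836) (nat_lit 856820661) (nat_lit 76) (nat_lit 5626815527) (nat_lit 160) (nat_lit 5) (nat_lit 171) (nat_lit 5) (nat_lit 161) (nat_lit 5) (nat_lit 418) (nat_lit 399) (nat_lit 383)) (XT.lf (nat_lit 0) (nat_lit 3845810993) (nat_lit 532) (nat_lit 3353651619) (nat_lit 76) (nat_lit 567294536) (nat_lit 154) (nat_lit 5) (nat_lit 161) (nat_lit 5) (nat_lit 155) (nat_lit 5) (nat_lit 419) (nat_lit 399) (nat_lit 382))) (XT.nd (nat_lit 78) (nat_lit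 76) (nat_lit 0) (XT.lf (nat_lit 0) (nat_lit 1971053119) (nat_lit 380) (nat_lit 4678913653) (nat_lit 456) (nat_lit 1265445657) (nat_lit 149) (nat_lit 5) (nat_lit 154) (nat_lit 5) (nat_lit 155) (nat_lit 5) (nat_lit 420) (nat_lit 399) (nat_lit 381)) (XT.lf (nat_lit 0) (nat_lit 1421539818) (nat_lit 456) (nat_lit 538912872) (nat_lit 76) (nat_lit 6112494923) (nat_lit 148) (nat_lit 5) (nat_lit 154) (nat_lit 5) (nat_lit 149) (nat_lit 5) (nat_lit 421) (nat_lit 399) (nat_lit 380))))) (XT.nd (nat_lit 312) (nat_lit 912) (nat_lit 0) (XT.nd (nat_lit 156) (nat_lit 380) (nat_lit 0) (XT.nd (nat_lit 78) (nat_lit 304) (nat_lit 0) (XT.lf (nat_lit 0) (nat_lit 4191349383) (nat_lit 456) (nat_lit 3090715038) (nat_lit 76) (nat_lit 955715802) (nat_lit 143) (nat_lit 5) (nat_lit 149) (nat_lit 5) (nat_lit 144) (nat_lit 5) (nat_lit 422) (nat_lit 399) (nat_lit 379)) (XT.lf (nat_lit 0) (nat_lit 2657380395) (nat_lit 304) (nat_lit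 4423111584) (nat_lit 380) (nat_lit 1331327998) (nat_lit 139) (nat_lit 5) (nat_lit 143) (nat_lit 5) (nat_lit 144) (nat_lit 5) (nat_lit 423) (nat_lit 399) (nat_lit 378))) (XT.nd (nat_lit 78) (nat_lit 0) (nat_lit 0) (XT.lf (nat_lit 0) (nat_lit 63259084) (nat_lit 304) (nat_lit 1361133217) (nat_lit 380) (nat_lit 7171315301) (nat_lit 134) (nat_lit 5) (nat_lit 138) (nat_lit 5) (nat_lit 139) (nat_lit 5) (nat_lit 424) (nat_lit 399) (nat_lit 377)) (XT.lf (nat_lit 0) (nat_lit 4303023014) (nat_lit 380) (nat_lit 2589650031) (nat_lit 76) (nat_lit 1893538623) (nat_lit 134) (nat_lit 5) (nat_lit 139) (nat_lit 5) (nat_lit 135) (nat_lit 5) (nat_lit 425) (nat_lit 399) (nat_lit 376)))) (XT.nd (nat_lit 156) (nat_lit 228) (nat_lit 0) (XT.nd (nat_lit 78) (nat_lit 380) (nat_lit 0) (XT.lf (nat_lit 0) (nat_lit 3624958857) (nat_lit 304) (nat_lit 3686077409) (nat_lit 380) (nat_lit 1675938408) (nat_lit 130) (nat_lit 5) (nat_lit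 134) (nat_lit 5) (nat_lit 135) (nat_lit 5) (nat_lit 426) (nat_lit 399) (nat_lit 375)) (XT.lf (nat_lit 0) (nat_lit 933758934) (nat_lit 304) (nat_lit 264036965) (nat_lit 380) (nat_lit 8000651756) (nat_lit 125) (nat_lit 5) (nat_lit 129) (nat_lit 5) (nat_lit 130) (nat_lit 5) (nat_lit 427) (nat_lit 399) (nat_lit 374))) (XT.nd (nat_lit 78) (nat_lit 228) (nat_lit 0) (XT.lf (nat_lit 0) (nat_lit 4212943023) (nat_lit 380) (nat_lit 1888701776) (nat_lit 76) (nat_lit 3314778765) (nat_lit 125) (nat_lit 5) (nat_lit 130) (nat_lit 5) (nat_lit 126) (nat_lit 5) (nat_lit 428) (nat_lit 399) (nat_lit 373)) (XT.lf (nat_lit 0) (nat_lit 4840208478) (nat_lit 228) (nat_lit 2532608110) (nat_lit 304) (nat_lit 2272788398) (nat_lit 122) (nat_lit 5) (nat_lit 125) (nat_lit 5) (nat_lit 126) (nat_lit 5) (nat_lit 429) (nat_lit 399) (nat_lit 372)))))) (XT.nd (nat_lit 624) (nat_lit 1216) (nat_lit 0) (XT.nd (nat_lit 312) (nat_lit 608)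 (nat_lit 0) (XT.nd (nat_lit 156) (nat_lit 532) (nat_lit 0) (XT.nd (nat_lit 78) (nat_lit 0) (nat_lit 0) (XT.lf (nat_lit 0) (nat_lit 777466616) (nat_lit 380) (nat_lit 7885708449) (nat_lit 76) (nat_lit 1222508361) (nat_lit 117) (nat_lit 5) (nat_lit 122) (nat_lit 5) (nat_lit 118) (nat_lit 5) (nat_lit 430) (nat_lit 399) (nat_lit 371)) (XT.lf (nat_lit 0) (nat_lit 3944819298) (nat_lit 380) (nat_lit 1020498920) (nat_lit 76) (nat_lit 5168540819) (nat_lit 117) (nat_lit 5) (nat_lit 122) (nat_lit 5) (nat_lit 118) (nat_lit 5) (nat_lit 431) (nat_lit 399) (nat_lit 370))) (XT.nd (nat_lit 78) (nat_lit 304) (nat_lit 0) (XT.lf (nat_lit 0) (nat_lit 6275356290) (nat_lit 228) (nat_lit 1013855891) (nat_lit 304) (nat_lit 3104301873) (nat_lit 114) (nat_lit 5) (nat_lit 117) (nat_lit 5) (nat_lit 118) (nat_lit 5) (nat_lit 432) (nat_lit 399) (nat_lit 369)) (XT.lf (nat_lit 0) (nat_lit 170389261) (nat_lit 304) (nat_lit 7421100446)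 (nat_lit 76) (nat_lit 3072559507) (nat_lit 110) (nat_lit 5) (nat_lit 114) (nat_lit 5) (nat_lit 111) (nat_lit 5) (nat_lit 433) (nat_lit 399) (nat_lit 368)))) (XT.nd (nat_lit 156) (nat_lit 456) (nat_lit 0) (XT.nd (nat_lit 78) (nat_lit 152) (nat_lit 0) (XT.lf (nat_lit 0) (nat_lit 3514882114) (nat_lit 304) (nat_lit 13859775) (nat_lit 76) (nat_lit 7416308803) (nat_lit 110) (nat_lit 5) (nat_lit 114) (nat_lit 5) (nat_lit 111) (nat_lit 5) (nat_lit 434) (nat_lit 399) (nat_lit 367)) (XT.lf (nat_lit 0) (nat_lit 7089561161) (nat_lit 228) (nat_lit 3343917519) (nat_lit 76) (nat_lit 803478987) (nat_lit 108) (nat_lit 5) (nat_lit 111) (nat_lit 5) (nat_lit 109) (nat_lit 5) (nat_lit 435) (nat_lit 399) (nat_lit 366))) (XT.nd (nat_lit 78) (nat_lit 228) (nat_lit 0) (XT.lf (nat_lit 0) (nat_lit 4631304192) (nat_lit 228) (nat_lit 6269853167) (nat_lit 304) (nat_lit 639396805) (nat_lit 105) (nat_lit 5) (nat_lit 108) (nat_lit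 5) (nat_lit 109) (nat_lit 5) (nat_lit 436) (nat_lit 399) (nat_lit 365)) (XT.lf (nat_lit 0) (nat_lit 1140978384) (nat_lit 152) (nat_lit 1809328255) (nat_lit 228) (nat_lit 8906464056) (nat_lit 102) (nat_lit 5) (nat_lit 104) (nat_lit 5) (nat_lit 105) (nat_lit 5) (nat_lit 437) (nat_lit 399) (nat_lit 364))))) (XT.nd (nat_lit 312) (nat_lit 760) (nat_lit 0) (XT.nd (nat_lit 156) (nat_lit 228) (nat_lit 0) (XT.nd (nat_lit 78) (nat_lit 228) (nat_lit 0) (XT.lf (nat_lit 0) (nat_lit 6791233270) (nat_lit 228) (nat_lit 2519664819) (nat_lit 76) (nat_lit 2872717449) (nat_lit 102) (nat_lit 5) (nat_lit 105) (nat_lit 5) (nat_lit 103) (nat_lit 5) (nat_lit 438) (nat_lit 399) (nat_lit 363)) (XT.lf (nat_lit 0) (nat_lit 6145655623) (nat_lit 228) (nat_lit 4736945065) (nat_lit 304) (nat_lit 1641284955) (nat_lit 99) (nat_lit 5) (nat_lit 102) (nat_lit 5) (nat_lit 103) (nat_lit 5) (nat_lit 439) (nat_lit 399) (nat_lit 362)))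 (XT.nd (nat_lit 78) (nat_lit 0) (nat_lit 0) (XT.lf (nat_lit 0) (nat_lit 2239973732) (nat_lit 228) (nat_lit 10496671740) (nat_lit 76) (nat_lit 141926023) (nat_lit 96) (nat_lit 5) (nat_lit 99) (nat_lit 5) (nat_lit 97) (nat_lit 5) (nat_lit 440) (nat_lit 399) (nat_lit 361)) (XT.lf (nat_lit 0) (nat_lit 6381707188) (nat_lit 228) (nat_lit 1659451325) (nat_lit 76) (nat_lit 5202411689) (nat_lit 96) (nat_lit 5) (nat_lit 99) (nat_lit 5) (nat_lit 97) (nat_lit 5) (nat_lit 441) (nat_lit 399) (nat_lit 360)))) (XT.nd (nat_lit 156) (nat_lit 380) (nat_lit 0) (XT.nd (nat_lit 78) (nat_lit 228) (nat_lit 0) (XT.lf (nat_lit 0) (nat_lit 7764325166) (nat_lit 152) (nat_lit 3024687623) (nat_lit 228) (nat_lit 2834884037) (nat_lit 94) (nat_lit 5) (nat_lit 96) (nat_lit 5) (nat_lit 97) (nat_lit 5) (nat_lit 442) (nat_lit 399) (nat_lit 359)) (XT.lf (nat_lit 0) (nat_lit 1408744410) (nat_lit 228) (nat_lit 10370447442) (nat_lit 76)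 (nat_lit 2239967229) (nat_lit 91) (nat_lit 5) (nat_lit 94) (nat_lit 5) (nat_lit 92) (nat_lit 5) (nat_lit 443) (nat_lit 399) (nat_lit 358))) (XT.nd (nat_lit 78) (nat_lit 380) (nat_lit 0) (XT.lf (nat_lit 0) (nat_lit 5858097843) (nat_lit 228) (nat_lit 795990977) (nat_lit 76) (nat_lit 7773333187) (nat_lit 91) (nat_lit 5) (nat_lit 94) (nat_lit 5) (nat_lit 92) (nat_lit 5) (nat_lit 444) (nat_lit 399) (nat_lit 357)) (XT.nd (nat_lit 78) (nat_lit 228) (nat_lit 0) (XT.lf (nat_lit 0) (nat_lit 9460041954) (nat_lit 152) (nat_lit 1158877364) (nat_lit 228) (nat_lit 4232730599) (nat_lit 89) (nat_lit 5) (nat_lit 91) (nat_lit 5) (nat_lit 92) (nat_lit 5) (nat_lit 445) (nat_lit 399) (nat_lit 356)) (XT.lf (nat_lit 0) (nat_lit 416978508) (nat_lit 228) (nat_lit 10352951179) (nat_lit 76) (nat_lit 4521583373) (nat_lit 86) (nat_lit 5) (nat_lit 89) (nat_lit 5) (nat_lit 87) (nat_lit 5) (nat_lit 446) (nat_lit 399) (nat_lit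 355))))))))
noncomputable def xc183 : XT := (XT.nd (nat_lit 1248) (nat_lit 1216) (nat_lit 0) (XT.nd (nat_lit 624) (nat_lit 760) (nat_lit 0) (XT.nd (nat_lit 312) (nat_lit 304) (nat_lit 0) (XT.nd (nat_lit 156) (nat_lit 304) (nat_lit 0) (XT.nd (nat_lit 78) (nat_lit 0) (nat_lit 0) (XT.lf (nat_lit 0) (nat_lit 33983551) (nat_lit 152) (nat_lit 5177488751) (nat_lit 228) (nat_lit 10535701872) (nat_lit 84) (nat_lit 5) (nat_lit 86) (nat_lit 5) (nat_lit 87) (nat_lit 5) (nat_lit 447) (nat_lit 399) (nat_lit 354)) (XT.lf (nat_lit 0) (nat_lit 10377490615) (nat_lit 228) (nat_lit 5032253974) (nat_lit 76) (nat_lit 809285290) (nat_lit 84) (nat_lit 5) (nat_lit 87) (nat_lit 5) (nat_lit 85) (nat_lit 4) (nat_lit 448) (nat_lit 399) (nat_lit 353))) (XT.nd (nat_lit 78) (nat_lit 228) (nat_lit 0) (XT.lf (nat_lit 0) (nat_lit 6199730550) (nat_lit 76) (nat_lit 9729226604) (nat_lit 152) (nat_lit 779165304) (nat_lit 83) (nat_lit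 5) (nat_lit 84) (nat_lit 5) (nat_lit 85) (nat_lit 4) (nat_lit 449) (nat_lit 399) (nat_lit 352)) (XT.lf (nat_lit 0) (nat_lit 807444451) (nat_lit 152) (nat_lit 3628630951) (nat_lit 228) (nat_lit 12779807402) (nat_lit 80) (nat_lit 5) (nat_lit 82) (nat_lit 5) (nat_lit 83) (nat_lit 5) (nat_lit 450) (nat_lit 399) (nat_lit 351)))) (XT.nd (nat_lit 156) (nat_lit 228) (nat_lit 0) (XT.nd (nat_lit 78) (nat_lit 76) (nat_lit 0) (XT.lf (nat_lit 0) (nat_lit 10056285512) (nat_lit 228) (nat_lit 4842514464) (nat_lit 76) (nat_lit 2841074166) (nat_lit 80) (nat_lit 5) (nat_lit 83) (nat_lit 5) (nat_lit 81) (nat_lit 4) (nat_lit 451) (nat_lit 399) (nat_lit 350)) (XT.lf (nat_lit 0) (nat_lit 7386014181) (nat_lit 76) (nat_lit 8695011801) (nat_lit 152) (nat_lit 2202864268) (nat_lit 79) (nat_lit 5) (nat_lit 80) (nat_lit 5) (nat_lit 81) (nat_lit 4) (nat_lit 452) (nat_lit 399) (nat_lit 349))) (XT.nd (nat_lit 78) (nat_lit 0) (nat_lit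 0) (XT.lf (nat_lit 0) (nat_lit 1439558216) (nat_lit 152) (nat_lit 2053397687) (nat_lit 228) (nat_lit 15356642470) (nat_lit 76) (nat_lit 5) (nat_lit 78) (nat_lit 5) (nat_lit 79) (nat_lit 5) (nat_lit 453) (nat_lit 399) (nat_lit 348)) (XT.lf (nat_lit 0) (nat_lit 9613218204) (nat_lit 228) (nat_lit 4871273326) (nat_lit 76) (nat_lit 4946611688) (nat_lit 76) (nat_lit 5) (nat_lit 79) (nat_lit 5) (nat_lit 77) (nat_lit 4) (nat_lit 454) (nat_lit 399) (nat_lit 347))))) (XT.nd (nat_lit 312) (nat_lit 380) (nat_lit 0) (XT.nd (nat_lit 156) (nat_lit 76) (nat_lit 0) (XT.nd (nat_lit 78) (nat_lit 228) (nat_lit 0) (XT.lf (nat_lit 0) (nat_lit 8442245021) (nat_lit 76) (nat_lit 7714409184) (nat_lit 152) (nat_lit 3879172056) (nat_lit 75) (nat_lit 5) (nat_lit 76) (nat_lit 5) (nat_lit 77) (nat_lit 4) (nat_lit 455) (nat_lit 399) (nat_lit 346)) (XT.lf (nat_lit 0) (nat_lit 1856276194) (nat_lit 152) (nat_lit 489461039) (nat_lit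 228) (nat_lit 18319975425) (nat_lit 72) (nat_lit 5) (nat_lit 74) (nat_lit 5) (nat_lit 75) (nat_lit 5) (nat_lit 456) (nat_lit 399) (nat_lit 345))) (XT.nd (nat_lit 78) (nat_lit 76) (nat_lit 0) (XT.lf (nat_lit 0) (nat_lit 9014038273) (nat_lit 228) (nat_lit 5202949332) (nat_lit 76) (nat_lit 7093801374) (nat_lit 72) (nat_lit 5) (nat_lit 75) (nat_lit 5) (nat_lit 73) (nat_lit 4) (nat_lit 457) (nat_lit 399) (nat_lit 344)) (XT.lf (nat_lit 0) (nat_lit 9288174036) (nat_lit 76) (nat_lit 6835047607) (nat_lit 152) (nat_lit 5859524919) (nat_lit 71) (nat_lit 5) (nat_lit 72) (nat_lit 5) (nat_lit 73) (nat_lit 4) (nat_lit 458) (nat_lit 399) (nat_lit 343)))) (XT.nd (nat_lit 156) (nat_lit 152) (nat_lit 0) (XT.nd (nat_lit 78) (nat_lit 0) (nat_lit 0) (XT.lf (nat_lit 0) (nat_lit 961418715) (nat_lit 228) (nat_lit 20736896070) (nat_lit 76) (nat_lit 984753332) (nat_lit 68) (nat_lit 5) (nat_lit 71) (nat_lit 5) (nat_lit 69)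 (nat_lit 4) (nat_lit 459) (nat_lit 399) (nat_lit 342)) (XT.lf (nat_lit 0) (nat_lit 8211860785) (nat_lit 228) (nat_lit 5944931390) (nat_lit 76) (nat_lit 9242542897) (nat_lit 68) (nat_lit 5) (nat_lit 71) (nat_lit 5) (nat_lit 69) (nat_lit 4) (nat_lit 460) (nat_lit 399) (nat_lit 341))) (XT.nd (nat_lit 78) (nat_lit 76) (nat_lit 0) (XT.lf (nat_lit 0) (nat_lit 9819661374) (nat_lit 76) (nat_lit 6115434703) (nat_lit 152) (nat_lit 8210806410) (nat_lit 67) (nat_lit 5) (nat_lit 68) (nat_lit 5) (nat_lit 69) (nat_lit 4) (nat_lit 461) (nat_lit 399) (nat_lit 340)) (XT.lf (nat_lit 0) (nat_lit 1585385540) (nat_lit 76) (nat_lit 22579708420) (nat_lit 76) (nat_lit 758674905) (nat_lit 66) (nat_lit 4) (nat_lit 67) (nat_lit 5) (nat_lit 67) (nat_lit 4) (nat_lit 462) (nat_lit 399) (nat_lit 339)))))) (XT.nd (nat_lit 624) (nat_lit 608) (nat_lit 0) (XT.nd (nat_lit 312) (nat_lit 304) (nat_lit 0) (XT.nd (nat_lit 156) (nat_lit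 152) (nat_lit 0) (XT.nd (nat_lit 78) (nat_lit 76) (nat_lit 0) (XT.lf (nat_lit 0) (nat_lit 7144026720) (nat_lit 152) (nat_lit 7234553889) (nat_lit 76) (nat_lit 11341226392) (nat_lit 65) (nat_lit 5) (nat_lit 67) (nat_lit 5) (nat_lit 66) (nat_lit 4) (nat_lit 463) (nat_lit 399) (nat_lit 338)) (XT.lf (nat_lit 0) (nat_lit 9901242557) (nat_lit 76) (nat_lit 5629014788) (nat_lit 152) (nat_lit 11019073863) (nat_lit 64) (nat_lit 5) (nat_lit 65) (nat_lit 5) (nat_lit 66) (nat_lit 4) (nat_lit 464) (nat_lit 399) (nat_lit 337))) (XT.nd (nat_lit 78) (nat_lit 76) (nat_lit 0) (XT.lf (nat_lit 0) (nat_lit 615052609) (nat_lit 76) (nat_lit 23869908722) (nat_lit 76) (nat_lit 2927912725) (nat_lit 63) (nat_lit 4) (nat_lit 64) (nat_lit 5) (nat_lit 64) (nat_lit 4) (nat_lit 465) (nat_lit 399) (nat_lit 336)) (XT.lf (nat_lit 0) (nat_lit 5728006162) (nat_lit 152) (nat_lit 9247937826) (nat_lit 76) (nat_lit 13322383865) (nat_lit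 62) (nat_lit 5) (nat_lit 64) (nat_lit 5) (nat_lit 63) (nat_lit 4) (nat_lit 466) (nat_lit 399) (nat_lit 335)))) (XT.nd (nat_lit 156) (nat_lit 228) (nat_lit 0) (XT.nd (nat_lit 78) (nat_lit 0) (nat_lit 0) (XT.lf (nat_lit 0) (nat_lit 9356679378) (nat_lit 76) (nat_lit 5469214137) (nat_lit 152) (nat_lit 14394382868) (nat_lit 61) (nat_lit 5) (nat_lit 62) (nat_lit 5) (nat_lit 63) (nat_lit 4) (nat_lit 467) (nat_lit 399) (nat_lit 334)) (XT.lf (nat_lit 0) (nat_lit 24569948808) (nat_lit 152) (nat_lit 1115300763) (nat_lit 0) (nat_lit 4493509520) (nat_lit 61) (nat_lit 5) (nat_lit 63) (nat_lit 4) (nat_lit 61) (nat_lit 4) (nat_lit 468) (nat_lit 399) (nat_lit 333))) (XT.nd (nat_lit 78) (nat_lit 76) (nat_lit 0) (XT.lf (nat_lit 0) (nat_lit 3856093170) (nat_lit 152) (nat_lit 12211229624) (nat_lit 76) (nat_lit 15097231296) (nat_lit 59) (nat_lit 5) (nat_lit 61) (nat_lit 5) (nat_lit 60) (nat_lit 4) (nat_lit 469) (nat_lit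 399) (nat_lit 332)) (XT.lf (nat_lit 0) (nat_lit 7956920318) (nat_lit 76) (nat_lit 5755776232) (nat_lit 152) (nat_lit 18476997897) (nat_lit 58) (nat_lit 5) (nat_lit 59) (nat_lit 5) (nat_lit 60) (nat_lit 4) (nat_lit 470) (nat_lit 399) (nat_lit 331))))) (XT.nd (nat_lit 312) (nat_lit 380) (nat_lit 0) (XT.nd (nat_lit 156) (nat_lit 76) (nat_lit 0) (XT.nd (nat_lit 78) (nat_lit 152) (nat_lit 0) (XT.lf (nat_lit 0) (nat_lit 24315139653) (nat_lit 152) (nat_lit 3851915205) (nat_lit 0) (nat_lit 5086386839) (nat_lit 58) (nat_lit 5) (nat_lit 60) (nat_lit 4) (nat_lit 58) (nat_lit 4) (nat_lit 471) (nat_lit 399) (nat_lit 330)) (XT.lf (nat_lit 0) (nat_lit 1388569228) (nat_lit 152) (nat_lit 16414914100) (nat_lit 76) (nat_lit 16548766202) (nat_lit 56) (nat_lit 5) (nat_lit 58) (nat_lit 5) (nat_lit 57) (nat_lit 4) (nat_lit 472) (nat_lit 399) (nat_lit 329))) (XT.nd (nat_lit 78) (nat_lit 0) (nat_lit 0) (XT.lf (nat_lit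 0) (nat_lit 5404738518) (nat_lit 76) (nat_lit 6642768435) (nat_lit 152) (nat_lit 23445359208) (nat_lit 55) (nat_lit 5) (nat_lit 56) (nat_lit 5) (nat_lit 57) (nat_lit 4) (nat_lit 473) (nat_lit 399) (nat_lit 328)) (XT.lf (nat_lit 0) (nat_lit 23566712936) (nat_lit 152) (nat_lit 7942946908) (nat_lit 0) (nat_lit 5164488001) (nat_lit 55) (nat_lit 5) (nat_lit 57) (nat_lit 4) (nat_lit 55) (nat_lit 4) (nat_lit 474) (nat_lit 399) (nat_lit 327)))) (XT.nd (nat_lit 156) (nat_lit 152) (nat_lit 0) (XT.nd (nat_lit 78) (nat_lit 152) (nat_lit 0) (XT.lf (nat_lit 0) (nat_lit 15636500757) (nat_lit 76) (nat_lit 20345567106) (nat_lit 76) (nat_lit 1916416596) (nat_lit 54) (nat_lit 4) (nat_lit 55) (nat_lit 5) (nat_lit 55) (nat_lit 4) (nat_lit 475) (nat_lit 399) (nat_lit 326)) (XT.lf (nat_lit 0) (nat_lit 1315114675) (nat_lit 76) (nat_lit 8328743172) (nat_lit 152) (nat_lit 29526280397) (nat_lit 52) (nat_lit 5) (nat_lit 53)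 (nat_lit 5) (nat_lit 54) (nat_lit 4) (nat_lit 476) (nat_lit 399) (nat_lit 325))) (XT.nd (nat_lit 78) (nat_lit 152) (nat_lit 0) (XT.lf (nat_lit 0) (nat_lit 22135186177) (nat_lit 152) (nat_lit 13811813082) (nat_lit 0) (nat_lit 4535932650) (nat_lit 52) (nat_lit 5) (nat_lit 54) (nat_lit 4) (nat_lit 52) (nat_lit 4) (nat_lit 477) (nat_lit 399) (nat_lit 324)) (XT.nd (nat_lit 78) (nat_lit 76) (nat_lit 0) (XT.lf (nat_lit 0) (nat_lit 11606911336) (nat_lit 76) (nat_lit 23930764824) (nat_lit 76) (nat_lit 6309359561) (nat_lit 51) (nat_lit 4) (nat_lit 52) (nat_lit 5) (nat_lit 52) (nat_lit 4) (nat_lit 478) (nat_lit 399) (nat_lit 323)) (XT.lf (nat_lit 0) (nat_lit 6334937722) (nat_lit 152) (nat_lit 4655879823) (nat_lit 76) (nat_lit 32273254115) (nat_lit 50) (nat_lit 5) (nat_lit 52) (nat_lit 5) (nat_lit 51) (nat_lit 4) (nat_lit 479) (nat_lit 399) (nat_lit 322))))))))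
noncomputable def xc184 : XT := (XT.nd (nat_lit 1248) (nat_lit 912) (nat_lit 0) (XT.nd (nat_lit 624) (nat_lit 532) (nat_lit 0) (XT.nd (nat_lit 312) (nat_lit 228) (nat_lit 0) (XT.nd (nat_lit 156) (nat_lit 152) (nat_lit 0) (XT.nd (nat_lit 78) (nat_lit 76) (nat_lit 0) (XT.lf (nat_lit 0) (nat_lit 19772948678) (nat_lit 152) (nat_lit 22003732406) (nat_lit 0) (nat_lit 2951430170) (nat_lit 49) (nat_lit 5) (nat_lit 51) (nat_lit 4) (nat_lit 49) (nat_lit 4) (nat_lit 480) (nat_lit 399) (nat_lit 321)) (XT.lf (nat_lit 0) (nat_lit 5303386374) (nat_lit 76) (nat_lit 28893016160) (nat_lit 76) (nat_lit 12053273363) (nat_lit 48) (nat_lit 4) (nat_lit 49) (nat_lit 5) (nat_lit 49) (nat_lit 4) (nat_lit 481) (nat_lit 399) (nat_lit 320))) (XT.nd (nat_lit 78) (nat_lit 76) (nat_lit 0) (XT.lf (nat_lit 0) (nat_lit 1795106109) (nat_lit 152) (nat_lit 13177131736) (nat_lit 76) (nat_lit 32856454854) (nat_lit 47) (nat_lit 5) (nat_lit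 49) (nat_lit 5) (nat_lit 48) (nat_lit 4) (nat_lit 482) (nat_lit 399) (nat_lit 319)) (XT.lf (nat_lit 0) (nat_lit 16157766885) (nat_lit 152) (nat_lit 33220023509) (nat_lit 0) (nat_lit 87643810) (nat_lit 46) (nat_lit 5) (nat_lit 48) (nat_lit 4) (nat_lit 46) (nat_lit 4) (nat_lit 483) (nat_lit 399) (nat_lit 318)))) (XT.nd (nat_lit 156) (nat_lit 152) (nat_lit 0) (XT.nd (nat_lit 78) (nat_lit 76) (nat_lit 0) (XT.lf (nat_lit 0) (nat_lit 31682736526) (nat_lit 152) (nat_lit 3881447335) (nat_lit 0) (nat_lit 15597620284) (nat_lit 46) (nat_lit 5) (nat_lit 48) (nat_lit 4) (nat_lit 46) (nat_lit 4) (nat_lit 484) (nat_lit 399) (nat_lit 317)) (XT.lf (nat_lit 0) (nat_lit 27759144374) (nat_lit 76) (nat_lit 20631455766) (nat_lit 76) (nat_lit 4532060317) (nat_lit 45) (nat_lit 4) (nat_lit 46) (nat_lit 5) (nat_lit 46) (nat_lit 4) (nat_lit 485) (nat_lit 399) (nat_lit 316))) (XT.nd (nat_lit 78) (nat_lit 0) (nat_lit 0) (XT.lf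 (nat_lit 0) (nat_lit 6321831374) (nat_lit 76) (nat_lit 4621986219) (nat_lit 152) (nat_lit 43812089213) (nat_lit 43) (nat_lit 5) (nat_lit 44) (nat_lit 5) (nat_lit 45) (nat_lit 4) (nat_lit 486) (nat_lit 399) (nat_lit 315)) (XT.lf (nat_lit 0) (nat_lit 27637925764) (nat_lit 152) (nat_lit 16729456251) (nat_lit 0) (nat_lit 12279881616) (nat_lit 43) (nat_lit 5) (nat_lit 45) (nat_lit 4) (nat_lit 43) (nat_lit 4) (nat_lit 487) (nat_lit 399) (nat_lit 314))))) (XT.nd (nat_lit 312) (nat_lit 228) (nat_lit 0) (XT.nd (nat_lit 156) (nat_lit 152) (nat_lit 0) (XT.nd (nat_lit 78) (nat_lit 76) (nat_lit 0) (XT.lf (nat_lit 0) (nat_lit 16977096885) (nat_lit 76) (nat_lit 28505056265) (nat_lit 76) (nat_lit 13135264578) (nat_lit 42) (nat_lit 4) (nat_lit 43) (nat_lit 5) (nat_lit 43) (nat_lit 4) (nat_lit 488) (nat_lit 399) (nat_lit 313)) (XT.lf (nat_lit 0) (nat_lit 3682018136) (nat_lit 152) (nat_lit 7832842638) (nat_lit 76)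 (nat_lit 49155332833) (nat_lit 41) (nat_lit 5) (nat_lit 43) (nat_lit 5) (nat_lit 42) (nat_lit 4) (nat_lit 489) (nat_lit 399) (nat_lit 312))) (XT.nd (nat_lit 78) (nat_lit 76) (nat_lit 0) (XT.lf (nat_lit 0) (nat_lit 21425644383) (nat_lit 152) (nat_lit 34595907662) (nat_lit 0) (nat_lit 6766944209) (nat_lit 40) (nat_lit 5) (nat_lit 42) (nat_lit 4) (nat_lit 40) (nat_lit 4) (nat_lit 490) (nat_lit 399) (nat_lit 311)) (XT.lf (nat_lit 0) (nat_lit 1080253147) (nat_lit 76) (nat_lit 39292505282) (nat_lit 76) (nat_lit 24624140378) (nat_lit 39) (nat_lit 4) (nat_lit 40) (nat_lit 5) (nat_lit 40) (nat_lit 4) (nat_lit 491) (nat_lit 399) (nat_lit 310)))) (XT.nd (nat_lit 156) (nat_lit 76) (nat_lit 0) (XT.nd (nat_lit 78) (nat_lit 152) (nat_lit 0) (XT.lf (nat_lit 0) (nat_lit 39693569034) (nat_lit 76) (nat_lit 21135807275) (nat_lit 76) (nat_lit 6458237868) (nat_lit 39) (nat_lit 4) (nat_lit 40) (nat_lit 5) (nat_lit 40)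 (nat_lit 4) (nat_lit 492) (nat_lit 399) (nat_lit 309)) (XT.lf (nat_lit 0) (nat_lit 10642097031) (nat_lit 76) (nat_lit 1713235960) (nat_lit 152) (nat_lit 57320525749) (nat_lit 37) (nat_lit 5) (nat_lit 38) (nat_lit 5) (nat_lit 39) (nat_lit 4) (nat_lit 493) (nat_lit 399) (nat_lit 308))) (XT.nd (nat_lit 78) (nat_lit 76) (nat_lit 0) (XT.lf (nat_lit 0) (nat_lit 32636214267) (nat_lit 152) (nat_lit 20863547375) (nat_lit 0) (nat_lit 18641276782) (nat_lit 37) (nat_lit 5) (nat_lit 39) (nat_lit 4) (nat_lit 37) (nat_lit 4) (nat_lit 494) (nat_lit 399) (nat_lit 307)) (XT.lf (nat_lit 0) (nat_lit 19775990942) (nat_lit 76) (nat_lit 34470123763) (nat_lit 76) (nat_lit 20467613710) (nat_lit 36) (nat_lit 4) (nat_lit 37) (nat_lit 5) (nat_lit 37) (nat_lit 4) (nat_lit 495) (nat_lit 399) (nat_lit 306)))))) (XT.nd (nat_lit 624) (nat_lit 456) (nat_lit 0) (XT.nd (nat_lit 312) (nat_lit 228) (nat_lit 0) (XT.nd (nat_lit 156)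 (nat_lit 76) (nat_lit 0) (XT.nd (nat_lit 78) (nat_lit 152) (nat_lit 0) (XT.lf (nat_lit 0) (nat_lit 63128495901) (nat_lit 76) (nat_lit 14139843813) (nat_lit 76) (nat_lit 130121790) (nat_lit 36) (nat_lit 4) (nat_lit 37) (nat_lit 5) (nat_lit 37) (nat_lit 4) (nat_lit 496) (nat_lit 399) (nat_lit 305)) (XT.lf (nat_lit 0) (nat_lit 21101707399) (nat_lit 152) (nat_lit 51318743337) (nat_lit 0) (nat_lit 7752573527) (nat_lit 34) (nat_lit 5) (nat_lit 36) (nat_lit 4) (nat_lit 34) (nat_lit 4) (nat_lit 497) (nat_lit 399) (nat_lit 304))) (XT.nd (nat_lit 78) (nat_lit 76) (nat_lit 0) (XT.lf (nat_lit 0) (nat_lit 43847391331) (nat_lit 152) (nat_lit 8723957937) (nat_lit 0) (nat_lit 30492027489) (nat_lit 34) (nat_lit 5) (nat_lit 36) (nat_lit 4) (nat_lit 34) (nat_lit 4) (nat_lit 498) (nat_lit 399) (nat_lit 303)) (XT.lf (nat_lit 0) (nat_lit 37149593997) (nat_lit 76) (nat_lit 31140969932) (nat_lit 76) (nat_lit 17779672784)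 (nat_lit 33) (nat_lit 4) (nat_lit 34) (nat_lit 5) (nat_lit 34) (nat_lit 4) (nat_lit 499) (nat_lit 399) (nat_lit 302)))) (XT.nd (nat_lit 156) (nat_lit 76) (nat_lit 0) (XT.nd (nat_lit 78) (nat_lit 76) (nat_lit 0) (XT.lf (nat_lit 0) (nat_lit 4707486505) (nat_lit 152) (nat_lit 3716600577) (nat_lit 76) (nat_lit 80793142861) (nat_lit 32) (nat_lit 5) (nat_lit 34) (nat_lit 5) (nat_lit 33) (nat_lit 4) (nat_lit 500) (nat_lit 399) (nat_lit 301)) (XT.lf (nat_lit 0) (nat_lit 28659771249) (nat_lit 152) (nat_lit 47876094831) (nat_lit 0) (nat_lit 15924219252) (nat_lit 31) (nat_lit 5) (nat_lit 33) (nat_lit 4) (nat_lit 31) (nat_lit 4) (nat_lit 501) (nat_lit 399) (nat_lit 300))) (XT.nd (nat_lit 78) (nat_lit 76) (nat_lit 0) (XT.lf (nat_lit 0) (nat_lit 53992908374) (nat_lit 152) (nat_lit 610538226) (nat_lit 0) (nat_lit 41252475032) (nat_lit 31) (nat_lit 5) (nat_lit 33) (nat_lit 4) (nat_lit 31) (nat_lit 4) (nat_lit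 502) (nat_lit 399) (nat_lit 299)) (XT.lf (nat_lit 0) (nat_lit 50601563844) (nat_lit 76) (nat_lit 30763231765) (nat_lit 76) (nat_lit 18018149523) (nat_lit 30) (nat_lit 4) (nat_lit 31) (nat_lit 5) (nat_lit 31) (nat_lit 4) (nat_lit 503) (nat_lit 399) (nat_lit 298))))) (XT.nd (nat_lit 312) (nat_lit 228) (nat_lit 0) (XT.nd (nat_lit 156) (nat_lit 76) (nat_lit 0) (XT.nd (nat_lit 78) (nat_lit 0) (nat_lit 0) (XT.lf (nat_lit 0) (nat_lit 1202077696) (nat_lit 76) (nat_lit 5603574724) (nat_lit 152) (nat_lit 96274620878) (nat_lit 28) (nat_lit 5) (nat_lit 29) (nat_lit 5) (nat_lit 30) (nat_lit 4) (nat_lit 504) (nat_lit 399) (nat_lit 297)) (XT.lf (nat_lit 0) (nat_lit 33411844150) (nat_lit 152) (nat_lit 52213080402) (nat_lit 0) (nat_lit 21265438001) (nat_lit 28) (nat_lit 5) (nat_lit 30) (nat_lit 4) (nat_lit 28) (nat_lit 4) (nat_lit 505) (nat_lit 399) (nat_lit 296))) (XT.nd (nat_lit 78) (nat_lit 76) (nat_lit 0) (XT.lf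 (nat_lit 0) (nat_lit 61423142833) (nat_lit 152) (nat_lit 191161588) (nat_lit 0) (nat_lit 49272912023) (nat_lit 28) (nat_lit 5) (nat_lit 30) (nat_lit 4) (nat_lit 28) (nat_lit 4) (nat_lit 506) (nat_lit 399) (nat_lit 295)) (XT.lf (nat_lit 0) (nat_lit 56197583695) (nat_lit 76) (nat_lit 35498572611) (nat_lit 76) (nat_lit 23344699266) (nat_lit 27) (nat_lit 4) (nat_lit 28) (nat_lit 5) (nat_lit 28) (nat_lit 4) (nat_lit 507) (nat_lit 399) (nat_lit 294)))) (XT.nd (nat_lit 156) (nat_lit 76) (nat_lit 0) (XT.nd (nat_lit 78) (nat_lit 76) (nat_lit 0) (XT.lf (nat_lit 0) (nat_lit 3937082072) (nat_lit 152) (nat_lit 4086324176) (nat_lit 76) (nat_lit 111376232711) (nat_lit 26) (nat_lit 5) (nat_lit 28) (nat_lit 5) (nat_lit 27) (nat_lit 4) (nat_lit 508) (nat_lit 399) (nat_lit 293)) (XT.lf (nat_lit 0) (nat_lit 32982875628) (nat_lit 152) (nat_lit 69513820303) (nat_lit 0) (nat_lit 21401307712) (nat_lit 25) (nat_lit 5)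 (nat_lit 27) (nat_lit 4) (nat_lit 25) (nat_lit 4) (nat_lit 509) (nat_lit 399) (nat_lit 292))) (XT.nd (nat_lit 78) (nat_lit 76) (nat_lit 0) (XT.lf (nat_lit 0) (nat_lit 63667366303) (nat_lit 152) (nat_lit 12861798252) (nat_lit 0) (nat_lit 52082801664) (nat_lit 25) (nat_lit 5) (nat_lit 27) (nat_lit 4) (nat_lit 25) (nat_lit 4) (nat_lit 510) (nat_lit 399) (nat_lit 291)) (XT.lf (nat_lit 0) (nat_lit 48133502014) (nat_lit 76) (nat_lit 48489352475) (nat_lit 76) (nat_lit 36901933815) (nat_lit 24) (nat_lit 4) (nat_lit 25) (nat_lit 5) (nat_lit 25) (nat_lit 4) (nat_lit 511) (nat_lit 399) (nat_lit 290)))))))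
noncomputable def xc185 : XT := (XT.nd (nat_lit 1248) (nat_lit 608) (nat_lit 0) (XT.nd (nat_lit 624) (nat_lit 304) (nat_lit 0) (XT.nd (nat_lit 312) (nat_lit 152) (nat_lit 0) (XT.nd (nat_lit 156) (nat_lit 76) (nat_lit 0) (XT.nd (nat_lit 78) (nat_lit 152) (nat_lit 0) (XT.lf (nat_lit 0) (nat_lit 112595686523) (nat_lit 76) (nat_lit 18833767464) (nat_lit 76) (nat_lit 7243630689) (nat_lit 24) (nat_lit 4) (nat_lit 25) (nat_lit 5) (nat_lit 25) (nat_lit 4) (nat_lit 512) (nat_lit 399) (nat_lit 289)) (XT.lf (nat_lit 0) (nat_lit 23903590369) (nat_lit 152) (nat_lit 107255106908) (nat_lit 0) (nat_lit 12862899458) (nat_lit 22) (nat_lit 5) (nat_lit 24) (nat_lit 4) (nat_lit 22) (nat_lit 4) (nat_lit 513) (nat_lit 399) (nat_lit 288))) (XT.nd (nat_lit 78) (nat_lit 76) (nat_lit 0) (XT.lf (nat_lit 0) (nat_lit 57108350286) (nat_lit 152) (nat_lit 46420754804) (nat_lit 0) (nat_lit 46065311364) (nat_lit 22) (nat_lit 5)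 (nat_lit 24) (nat_lit 4) (nat_lit 22) (nat_lit 4) (nat_lit 514) (nat_lit 399) (nat_lit 287)) (XT.lf (nat_lit 0) (nat_lit 18004441431) (nat_lit 76) (nat_lit 74236661567) (nat_lit 76) (nat_lit 63191386445) (nat_lit 21) (nat_lit 4) (nat_lit 22) (nat_lit 5) (nat_lit 22) (nat_lit 4) (nat_lit 515) (nat_lit 399) (nat_lit 286)))) (XT.nd (nat_lit 156) (nat_lit 76) (nat_lit 0) (XT.nd (nat_lit 78) (nat_lit 76) (nat_lit 0) (XT.lf (nat_lit 0) (nat_lit 87235830776) (nat_lit 76) (nat_lit 42667694289) (nat_lit 76) (nat_lit 31620289452) (nat_lit 21) (nat_lit 4) (nat_lit 22) (nat_lit 5) (nat_lit 22) (nat_lit 4) (nat_lit 516) (nat_lit 399) (nat_lit 285)) (XT.lf (nat_lit 0) (nat_lit 1467707117) (nat_lit 152) (nat_lit 8040633546) (nat_lit 76) (nat_lit 158410806627) (nat_lit 20) (nat_lit 5) (nat_lit 22) (nat_lit 5) (nat_lit 21) (nat_lit 4) (nat_lit 517) (nat_lit 399) (nat_lit 284))) (XT.nd (nat_lit 78) (nat_lit 0) (nat_lit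 0) (XT.lf (nat_lit 0) (nat_lit 36538408348) (nat_lit 152) (nat_lit 111987073439) (nat_lit 0) (nat_lit 26013298967) (nat_lit 19) (nat_lit 5) (nat_lit 21) (nat_lit 4) (nat_lit 19) (nat_lit 4) (nat_lit 518) (nat_lit 399) (nat_lit 283)) (XT.lf (nat_lit 0) (nat_lit 73644828390) (nat_lit 152) (nat_lit 44712491444) (nat_lit 0) (nat_lit 63117966887) (nat_lit 19) (nat_lit 5) (nat_lit 21) (nat_lit 4) (nat_lit 19) (nat_lit 4) (nat_lit 519) (nat_lit 399) (nat_lit 282))))) (XT.nd (nat_lit 312) (nat_lit 76) (nat_lit 0) (XT.nd (nat_lit 156) (nat_lit 152) (nat_lit 0) (XT.nd (nat_lit 78) (nat_lit 0) (nat_lit 0) (XT.lf (nat_lit 0) (nat_lit 26758826102) (nat_lit 76) (nat_lit 86254004517) (nat_lit 76) (nat_lit 75725474327) (nat_lit 18) (nat_lit 4) (nat_lit 19) (nat_lit 5) (nat_lit 19) (nat_lit 4) (nat_lit 520) (nat_lit 399) (nat_lit 281)) (XT.lf (nat_lit 0) (nat_lit 103332961286) (nat_lit 76) (nat_lit 51762168688)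 (nat_lit 76) (nat_lit 41232049272) (nat_lit 18) (nat_lit 4) (nat_lit 19) (nat_lit 5) (nat_lit 19) (nat_lit 4) (nat_lit 521) (nat_lit 399) (nat_lit 280))) (XT.nd (nat_lit 78) (nat_lit 152) (nat_lit 0) (XT.lf (nat_lit 0) (nat_lit 183713836582) (nat_lit 76) (nat_lit 15556916608) (nat_lit 76) (nat_lit 5025283644) (nat_lit 18) (nat_lit 4) (nat_lit 19) (nat_lit 5) (nat_lit 19) (nat_lit 4) (nat_lit 522) (nat_lit 399) (nat_lit 279)) (XT.lf (nat_lit 0) (nat_lit 33184577589) (nat_lit 152) (nat_lit 156237491783) (nat_lit 0) (nat_lit 23153078123) (nat_lit 16) (nat_lit 5) (nat_lit 18) (nat_lit 4) (nat_lit 16) (nat_lit 4) (nat_lit 523) (nat_lit 399) (nat_lit 278)))) (XT.nd (nat_lit 156) (nat_lit 76) (nat_lit 0) (XT.nd (nat_lit 78) (nat_lit 0) (nat_lit 0) (XT.lf (nat_lit 0) (nat_lit 73734923360) (nat_lit 152) (nat_lit 83797111125) (nat_lit 0) (nat_lit 63702116434) (nat_lit 16) (nat_lit 5) (nat_lit 18) (nat_lit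 4) (nat_lit 16) (nat_lit 4) (nat_lit 524) (nat_lit 399) (nat_lit 277)) (XT.lf (nat_lit 0) (nat_lit 116302842387) (nat_lit 152) (nat_lit 7754969083) (nat_lit 0) (nat_lit 106268790261) (nat_lit 16) (nat_lit 5) (nat_lit 18) (nat_lit 4) (nat_lit 16) (nat_lit 4) (nat_lit 525) (nat_lit 399) (nat_lit 276))) (XT.nd (nat_lit 78) (nat_lit 0) (nat_lit 0) (XT.lf (nat_lit 0) (nat_lit 74452946310) (nat_lit 76) (nat_lit 87699159692) (nat_lit 76) (nat_lit 77663921661) (nat_lit 15) (nat_lit 4) (nat_lit 16) (nat_lit 5) (nat_lit 16) (nat_lit 4) (nat_lit 526) (nat_lit 399) (nat_lit 275)) (XT.lf (nat_lit 0) (nat_lit 161021510668) (nat_lit 76) (nat_lit 49394340393) (nat_lit 76) (nat_lit 39357972928) (nat_lit 15) (nat_lit 4) (nat_lit 16) (nat_lit 5) (nat_lit 16) (nat_lit 4) (nat_lit 527) (nat_lit 399) (nat_lit 274)))))) (XT.nd (nat_lit 624) (nat_lit 228) (nat_lit 0) (XT.nd (nat_lit 312) (nat_lit 228) (nat_lit 0) (XT.nd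 (nat_lit 156) (nat_lit 0) (nat_lit 0) (XT.nd (nat_lit 78) (nat_lit 76) (nat_lit 0) (XT.lf (nat_lit 0) (nat_lit 826625369) (nat_lit 152) (nat_lit 8342861106) (nat_lit 76) (nat_lit 251059800648) (nat_lit 14) (nat_lit 5) (nat_lit 16) (nat_lit 5) (nat_lit 15) (nat_lit 4) (nat_lit 528) (nat_lit 399) (nat_lit 273)) (XT.lf (nat_lit 0) (nat_lit 43452344600) (nat_lit 152) (nat_lit 193743290022) (nat_lit 0) (nat_lit 33891899320) (nat_lit 13) (nat_lit 5) (nat_lit 15) (nat_lit 4) (nat_lit 13) (nat_lit 4) (nat_lit 529) (nat_lit 399) (nat_lit 272))) (XT.nd (nat_lit 78) (nat_lit 0) (nat_lit 0) (XT.lf (nat_lit 0) (nat_lit 88494690749) (nat_lit 152) (nat_lit 115046419031) (nat_lit 0) (nat_lit 78933316282) (nat_lit 13) (nat_lit 5) (nat_lit 15) (nat_lit 4) (nat_lit 13) (nat_lit 4) (nat_lit 530) (nat_lit 399) (nat_lit 271)) (XT.lf (nat_lit 0) (nat_lit 135780977903) (nat_lit 152) (nat_lit 32431375215) (nat_lit 0) (nat_lit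 126218718495) (nat_lit 13) (nat_lit 5) (nat_lit 15) (nat_lit 4) (nat_lit 13) (nat_lit 4) (nat_lit 531) (nat_lit 399) (nat_lit 270)))) (XT.nd (nat_lit 156) (nat_lit 152) (nat_lit 0) (XT.nd (nat_lit 78) (nat_lit 0) (nat_lit 0) (XT.lf (nat_lit 0) (nat_lit 56093898992) (nat_lit 76) (nat_lit 130205676433) (nat_lit 76) (nat_lit 120642574225) (nat_lit 12) (nat_lit 4) (nat_lit 13) (nat_lit 5) (nat_lit 13) (nat_lit 4) (nat_lit 532) (nat_lit 399) (nat_lit 269)) (XT.lf (nat_lit 0) (nat_lit 150155760223) (nat_lit 76) (nat_lit 89729923600) (nat_lit 76) (nat_lit 80166018724) (nat_lit 12) (nat_lit 4) (nat_lit 13) (nat_lit 5) (nat_lit 13) (nat_lit 4) (nat_lit 533) (nat_lit 399) (nat_lit 268))) (XT.nd (nat_lit 78) (nat_lit 152) (nat_lit 0) (XT.lf (nat_lit 0) (nat_lit 248905837562) (nat_lit 76) (nat_lit 47237964809) (nat_lit 76) (nat_lit 37673295489) (nat_lit 12) (nat_lit 4) (nat_lit 13) (nat_lit 5) (nat_lit 13)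 (nat_lit 4) (nat_lit 534) (nat_lit 399) (nat_lit 267)) (XT.lf (nat_lit 0) (nat_lit 4338703095) (nat_lit 76) (nat_lit 2443784933) (nat_lit 152) (nat_lit 341479820226) (nat_lit 10) (nat_lit 5) (nat_lit 11) (nat_lit 5) (nat_lit 12) (nat_lit 4) (nat_lit 535) (nat_lit 399) (nat_lit 266))))) (XT.nd (nat_lit 312) (nat_lit 152) (nat_lit 0) (XT.nd (nat_lit 156) (nat_lit 76) (nat_lit 0) (XT.nd (nat_lit 78) (nat_lit 0) (nat_lit 0) (XT.lf (nat_lit 0) (nat_lit 54345695201) (nat_lit 152) (nat_lit 263710536416) (nat_lit 0) (nat_lit 45235132595) (nat_lit 10) (nat_lit 5) (nat_lit 12) (nat_lit 4) (nat_lit 10) (nat_lit 4) (nat_lit 536) (nat_lit 399) (nat_lit 265)) (XT.lf (nat_lit 0) (nat_lit 104320401441) (nat_lit 152) (nat_lit 179540594675) (nat_lit 0) (nat_lit 95209209923) (nat_lit 10) (nat_lit 5) (nat_lit 12) (nat_lit 4) (nat_lit 10) (nat_lit 4) (nat_lit 537) (nat_lit 399) (nat_lit 264))) (XT.nd (nat_lit 78) (nat_lit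 76) (nat_lit 0) (XT.lf (nat_lit 0) (nat_lit 156787439811) (nat_lit 152) (nat_lit 91175220981) (nat_lit 0) (nat_lit 147675649331) (nat_lit 10) (nat_lit 5) (nat_lit 12) (nat_lit 4) (nat_lit 10) (nat_lit 4) (nat_lit 538) (nat_lit 399) (nat_lit 263)) (XT.lf (nat_lit 0) (nat_lit 1648748666) (nat_lit 76) (nat_lit 210248724752) (nat_lit 76) (nat_lit 201136363832) (nat_lit 9) (nat_lit 4) (nat_lit 10) (nat_lit 5) (nat_lit 10) (nat_lit 4) (nat_lit 539) (nat_lit 399) (nat_lit 262)))) (XT.nd (nat_lit 156) (nat_lit 152) (nat_lit 0) (XT.nd (nat_lit 78) (nat_lit 0) (nat_lit 0) (XT.lf (nat_lit 0) (nat_lit 102267072297) (nat_lit 76) (nat_lit 169034033883) (nat_lit 76) (nat_lit 159921129686) (nat_lit 9) (nat_lit 4) (nat_lit 10) (nat_lit 5) (nat_lit 10) (nat_lit 4) (nat_lit 540) (nat_lit 399) (nat_lit 261)) (XT.lf (nat_lit 0) (nat_lit 207904652784) (nat_lit 76) (nat_lit 125764554452) (nat_lit 76) (nat_lit 116651132849)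 (nat_lit 9) (nat_lit 4) (nat_lit 10) (nat_lit 5) (nat_lit 10) (nat_lit 4) (nat_lit 541) (nat_lit 399) (nat_lit 260))) (XT.nd (nat_lit 78) (nat_lit 152) (nat_lit 0) (XT.lf (nat_lit 0) (nat_lit 318813008175) (nat_lit 76) (nat_lit 80337263890) (nat_lit 76) (nat_lit 71223349519) (nat_lit 9) (nat_lit 4) (nat_lit 10) (nat_lit 5) (nat_lit 10) (nat_lit 4) (nat_lit 542) (nat_lit 399) (nat_lit 259)) (XT.nd (nat_lit 78) (nat_lit 152) (nat_lit 0) (XT.lf (nat_lit 0) (nat_lit 435256205984) (nat_lit 76) (nat_lit 32644001981) (nat_lit 76) (nat_lit 23529618307) (nat_lit 9) (nat_lit 4) (nat_lit 10) (nat_lit 5) (nat_lit 10) (nat_lit 4) (nat_lit 543) (nat_lit 399) (nat_lit 258)) (XT.lf (nat_lit 0) (nat_lit 26687027053) (nat_lit 152) (nat_lit 468775455360) (nat_lit 0) (nat_lit 18006235978) (nat_lit 7) (nat_lit 5) (nat_lit 9) (nat_lit 4) (nat_lit 7) (nat_lit 4) (nat_lit 544) (nat_lit 399) (nat_lit 257))))))))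
noncomputable def xc186 : XT := (XT.nd (nat_lit 51558) (nat_lit 0) (nat_lit 10792) (XT.nd (nat_lit 624) (nat_lit 0) (nat_lit 0) (XT.nd (nat_lit 312) (nat_lit 76) (nat_lit 0) (XT.nd (nat_lit 156) (nat_lit 0) (nat_lit 0) (XT.nd (nat_lit 78) (nat_lit 0) (nat_lit 0) (XT.lf (nat_lit 0) (nat_lit 80120810843) (nat_lit 152) (nat_lit 384954990558) (nat_lit 0) (nat_lit 71439614366) (nat_lit 7) (nat_lit 5) (nat_lit 9) (nat_lit 4) (nat_lit 7) (nat_lit 4) (nat_lit 545) (nat_lit 399) (nat_lit 256)) (XT.lf (nat_lit 0) (nat_lit 136221507710) (nat_lit 152) (nat_lit 296953253974) (nat_lit 0) (nat_lit 127539925137) (nat_lit 7) (nat_lit 5) (nat_lit 9) (nat_lit 4) (nat_lit 7) (nat_lit 4) (nat_lit 546) (nat_lit 399) (nat_lit 255))) (XT.nd (nat_lit 78) (nat_lit 0) (nat_lit 0) (XT.lf (nat_lit 0) (nat_lit 195122690743) (nat_lit 152) (nat_lit 204560717664) (nat_lit 0) (nat_lit 186440740459) (nat_lit 7) (nat_lit 5) (nat_lit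 9) (nat_lit 4) (nat_lit 7) (nat_lit 4) (nat_lit 547) (nat_lit 399) (nat_lit 254)) (XT.lf (nat_lit 0) (nat_lit 256964600854) (nat_lit 152) (nat_lit 107557399398) (nat_lit 0) (nat_lit 248282300368) (nat_lit 7) (nat_lit 5) (nat_lit 9) (nat_lit 4) (nat_lit 7) (nat_lit 4) (nat_lit 548) (nat_lit 399) (nat_lit 253)))) (XT.nd (nat_lit 156) (nat_lit 0) (nat_lit 0) (XT.nd (nat_lit 78) (nat_lit 76) (nat_lit 0) (XT.lf (nat_lit 0) (nat_lit 321894480685) (nat_lit 152) (nat_lit 5712338895) (nat_lit 0) (nat_lit 313211846675) (nat_lit 7) (nat_lit 5) (nat_lit 9) (nat_lit 4) (nat_lit 7) (nat_lit 4) (nat_lit 549) (nat_lit 399) (nat_lit 252)) (XT.lf (nat_lit 0) (nat_lit 104563641629) (nat_lit 76) (nat_lit 287135815045) (nat_lit 76) (nat_lit 278452863392) (nat_lit 6) (nat_lit 4) (nat_lit 7) (nat_lit 5) (nat_lit 7) (nat_lit 4) (nat_lit 550) (nat_lit 399) (nat_lit 251))) (XT.nd (nat_lit 78) (nat_lit 0) (nat_lit 0) (XT.lf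 (nat_lit 0) (nat_lit 220543847535) (nat_lit 76) (nat_lit 244543709708) (nat_lit 76) (nat_lit 235860455539) (nat_lit 6) (nat_lit 4) (nat_lit 7) (nat_lit 5) (nat_lit 7) (nat_lit 4) (nat_lit 551) (nat_lit 399) (nat_lit 250)) (XT.lf (nat_lit 0) (nat_lit 342315546448) (nat_lit 76) (nat_lit 199825835019) (nat_lit 76) (nat_lit 191142292738) (nat_lit 6) (nat_lit 4) (nat_lit 7) (nat_lit 5) (nat_lit 7) (nat_lit 4) (nat_lit 552) (nat_lit 399) (nat_lit 249))))) (XT.nd (nat_lit 50622) (nat_lit 0) (nat_lit 16112) (XT.nd (nat_lit 156) (nat_lit 0) (nat_lit 0) (XT.nd (nat_lit 78) (nat_lit 0) (nat_lit 0) (XT.lf (nat_lit 0) (nat_lit 470168670984) (nat_lit 76) (nat_lit 152875719847) (nat_lit 76) (nat_lit 144191903175) (nat_lit 6) (nat_lit 4) (nat_lit 7) (nat_lit 5) (nat_lit 7) (nat_lit 4) (nat_lit 553) (nat_lit 399) (nat_lit 248)) (XT.lf (nat_lit 0) (nat_lit 604407633345) (nat_lit 76) (nat_lit 103581578204) (nat_lit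 76) (nat_lit 94897500206) (nat_lit 6) (nat_lit 4) (nat_lit 7) (nat_lit 5) (nat_lit 7) (nat_lit 4) (nat_lit 554) (nat_lit 399) (nat_lit 247))) (XT.nd (nat_lit 50388) (nat_lit 0) (nat_lit 16492) (XT.lf (nat_lit 0) (nat_lit 745352050108) (nat_lit 76) (nat_lit 51826043085) (nat_lit 76) (nat_lit 43141716206) (nat_lit 6) (nat_lit 4) (nat_lit 7) (nat_lit 5) (nat_lit 7) (nat_lit 4) (nat_lit 555) (nat_lit 399) (nat_lit 246)) (XT.lf (nat_lit 0) (nat_lit 1073741823) (nat_lit 0) (nat_lit 0) (nat_lit 0) (nat_lit 0) (nat_lit 223) (nat_lit 0) (nat_lit 1) (nat_lit 0) (nat_lit 1) (nat_lit 0) (nat_lit 400) (nat_lit 400) (nat_lit 400)))) (XT.nd (nat_lit 156) (nat_lit 228) (nat_lit 0) (XT.nd (nat_lit 78) (nat_lit 76) (nat_lit 0) (XT.lf (nat_lit 0) (nat_lit 3161420315) (nat_lit 76) (nat_lit 3180763007) (nat_lit 0) (nat_lit 102790034) (nat_lit 222) (nat_lit 5) (nat_lit 223) (nat_lit 0) (nat_lit 222) (nat_lit 4) (nat_lit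 401) (nat_lit 400) (nat_lit 399)) (XT.lf (nat_lit 0) (nat_lit 135491657) (nat_lit 76) (nat_lit 6146850089) (nat_lit 76) (nat_lit 175238587) (nat_lit 221) (nat_lit 4) (nat_lit 222) (nat_lit 5) (nat_lit 222) (nat_lit 4) (nat_lit 402) (nat_lit 400) (nat_lit 398))) (XT.nd (nat_lit 78) (nat_lit 152) (nat_lit 0) (XT.lf (nat_lit 0) (nat_lit 2848339708) (nat_lit 152) (nat_lit 2906782928) (nat_lit 76) (nat_lit 720376228) (nat_lit 220) (nat_lit 5) (nat_lit 222) (nat_lit 5) (nat_lit 221) (nat_lit 4) (nat_lit 403) (nat_lit 400) (nat_lit 397)) (XT.lf (nat_lit 0) (nat_lit 583133015) (nat_lit 152) (nat_lit 5256463171) (nat_lit 228) (nat_lit 663479947) (nat_lit 218) (nat_lit 5) (nat_lit 220) (nat_lit 5) (nat_lit 221) (nat_lit 4) (nat_lit 404) (nat_lit 400) (nat_lit 396)))))) (XT.nd (nat_lit 624) (nat_lit 3648) (nat_lit 0) (XT.nd (nat_lit 312) (nat_lit 988) (nat_lit 0) (XT.nd (nat_lit 156) (nat_lit 380) (nat_lit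 0) (XT.nd (nat_lit 78) (nat_lit 228) (nat_lit 0) (XT.lf (nat_lit 0) (nat_lit 2237542983) (nat_lit 228) (nat_lit 2336341075) (nat_lit 76) (nat_lit 1962884201) (nat_lit 217) (nat_lit 5) (nat_lit 220) (nat_lit 5) (nat_lit 218) (nat_lit 5) (nat_lit 405) (nat_lit 400) (nat_lit 395)) (XT.lf (nat_lit 0) (nat_lit 1348044714) (nat_lit 228) (nat_lit 3760501372) (nat_lit 304) (nat_lit 1470716101) (nat_lit 214) (nat_lit 5) (nat_lit 217) (nat_lit 5) (nat_lit 218) (nat_lit 5) (nat_lit 406) (nat_lit 400) (nat_lit 394))) (XT.nd (nat_lit 78) (nat_lit 304) (nat_lit 0) (XT.lf (nat_lit 0) (nat_lit 1321444371) (nat_lit 304) (nat_lit 1462717798) (nat_lit 76) (nat_lit 3845058051) (nat_lit 213) (nat_lit 5) (nat_lit 217) (nat_lit 5) (nat_lit 214) (nat_lit 5) (nat_lit 407) (nat_lit 400) (nat_lit 393)) (XT.lf (nat_lit 0) (nat_lit 2439094464) (nat_lit 304) (nat_lit 1640863785) (nat_lit 380) (nat_lit 2606723153) (nat_lit 209)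 (nat_lit 5) (nat_lit 213) (nat_lit 5) (nat_lit 214) (nat_lit 5) (nat_lit 408) (nat_lit 400) (nat_lit 392)))) (XT.nd (nat_lit 156) (nat_lit 532) (nat_lit 0) (XT.nd (nat_lit 78) (nat_lit 380) (nat_lit 0) (XT.lf (nat_lit 0) (nat_lit 88769901) (nat_lit 380) (nat_lit 275550760) (nat_lit 76) (nat_lit 6389196957) (nat_lit 208) (nat_lit 5) (nat_lit 213) (nat_lit 5) (nat_lit 209) (nat_lit 5) (nat_lit 409) (nat_lit 400) (nat_lit 391)) (XT.lf (nat_lit 0) (nat_lit 2758548777) (nat_lit 456) (nat_lit 2974732516) (nat_lit 76) (nat_lit 1091938661) (nat_lit 203) (nat_lit 5) (nat_lit 209) (nat_lit 5) (nat_lit 204) (nat_lit 5) (nat_lit 410) (nat_lit 400) (nat_lit 390))) (XT.nd (nat_lit 78) (nat_lit 76) (nat_lit 0) (XT.lf (nat_lit 0) (nat_lit 1211461981) (nat_lit 456) (nat_lit 4235242966) (nat_lit 532) (nat_lit 1459573927) (nat_lit 197) (nat_lit 5) (nat_lit 203) (nat_lit 5) (nat_lit 204) (nat_lit 5) (nat_lit 411)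 (nat_lit 400) (nat_lit 389)) (XT.lf (nat_lit 0) (nat_lit 1146288751) (nat_lit 532) (nat_lit 1415667404) (nat_lit 76) (nat_lit 4432985892) (nat_lit 196) (nat_lit 5) (nat_lit 203) (nat_lit 5) (nat_lit 197) (nat_lit 5) (nat_lit 412) (nat_lit 400) (nat_lit 388))))) (XT.nd (nat_lit 312) (nat_lit 1748) (nat_lit 0) (XT.nd (nat_lit 156) (nat_lit 760) (nat_lit 0) (XT.nd (nat_lit 78) (nat_lit 608) (nat_lit 0) (XT.lf (nat_lit 0) (nat_lit 3040089533) (nat_lit 532) (nat_lit 705631174) (nat_lit 608) (nat_lit 3345518651) (nat_lit 189) (nat_lit 5) (nat_lit 196) (nat_lit 5) (nat_lit 197) (nat_lit 5) (nat_lit 413) (nat_lit 400) (nat_lit 387)) (XT.lf (nat_lit 0) (nat_lit 455597701) (nat_lit 608) (nat_lit 5940354891) (nat_lit 684) (nat_lit 800370591) (nat_lit 181) (nat_lit 5) (nat_lit 189) (nat_lit 5) (nat_lit 190) (nat_lit 5) (nat_lit 414) (nat_lit 400) (nat_lit 386))) (XT.nd (nat_lit 78) (nat_lit 684) (nat_lit 0)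 (XT.lf (nat_lit 0) (nat_lit 1765694004) (nat_lit 684) (nat_lit 2134995596) (nat_lit 76) (nat_lit 3406843270) (nat_lit 180) (nat_lit 5) (nat_lit 189) (nat_lit 5) (nat_lit 181) (nat_lit 5) (nat_lit 415) (nat_lit 400) (nat_lit 385)) (XT.lf (nat_lit 0) (nat_lit 2660506076) (nat_lit 684) (nat_lit 1692553447) (nat_lit 760) (nat_lit 3074603992) (nat_lit 171) (nat_lit 5) (nat_lit 180) (nat_lit 5) (nat_lit 181) (nat_lit 5) (nat_lit 416) (nat_lit 400) (nat_lit 384)))) (XT.nd (nat_lit 156) (nat_lit 912) (nat_lit 0) (XT.nd (nat_lit 78) (nat_lit 76) (nat_lit 0) (XT.lf (nat_lit 0) (nat_lit 93820862) (nat_lit 760) (nat_lit 6906488657) (nat_lit 836) (nat_lit 556976112) (nat_lit 161) (nat_lit 5) (nat_lit 171) (nat_lit 5) (nat_lit 172) (nat_lit 5) (nat_lit 417) (nat_lit 400) (nat_lit 383)) (XT.lf (nat_lit 0) (nat_lit 2014010971) (nat_lit 836) (nat_lit 2506321532) (nat_lit 76) (nat_lit 3171724276) (nat_lit 160) (nat_lit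 5) (nat_lit 171) (nat_lit 5) (nat_lit 161) (nat_lit 5) (nat_lit 418) (nat_lit 400) (nat_lit 382))) (XT.nd (nat_lit 78) (nat_lit 456) (nat_lit 0) (XT.lf (nat_lit 0) (nat_lit 2661715354) (nat_lit 456) (nat_lit 1964628457) (nat_lit 532) (nat_lit 3210199698) (nat_lit 154) (nat_lit 5) (nat_lit 160) (nat_lit 5) (nat_lit 161) (nat_lit 5) (nat_lit 419) (nat_lit 400) (nat_lit 381)) (XT.nd (nat_lit 78) (nat_lit 76) (nat_lit 0) (XT.lf (nat_lit 0) (nat_lit 62657524) (nat_lit 380) (nat_lit 7255367826) (nat_lit 456) (nat_lit 672801466) (nat_lit 149) (nat_lit 5) (nat_lit 154) (nat_lit 5) (nat_lit 155) (nat_lit 5) (nat_lit 420) (nat_lit 400) (nat_lit 380)) (XT.lf (nat_lit 0) (nat_lit 1943983744) (nat_lit 456) (nat_lit 2589569081) (nat_lit 76) (nat_lit 3616912045) (nat_lit 148) (nat_lit 5) (nat_lit 154) (nat_lit 5) (nat_lit 149) (nat_lit 5) (nat_lit 421) (nat_lit 400) (nat_lit 379))))))))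
noncomputable def xc187 : XT := (XT.nd (nat_lit 1248) (nat_lit 2128) (nat_lit 0) (XT.nd (nat_lit 624) (nat_lit 1368) (nat_lit 0) (XT.nd (nat_lit 312) (nat_lit 912) (nat_lit 0) (XT.nd (nat_lit 156) (nat_lit 380) (nat_lit 0) (XT.nd (nat_lit 78) (nat_lit 304) (nat_lit 0) (XT.lf (nat_lit 0) (nat_lit 2988126068) (nat_lit 380) (nat_lit 1627500346) (nat_lit 456) (nat_lit 3704583137) (nat_lit 143) (nat_lit 5) (nat_lit 148) (nat_lit 5) (nat_lit 149) (nat_lit 5) (nat_lit 422) (nat_lit 400) (nat_lit 378)) (XT.lf (nat_lit 0) (nat_lit 310061550) (nat_lit 304) (nat_lit 7085234044) (nat_lit 380) (nat_lit 1104430931) (nat_lit 139) (nat_lit 5) (nat_lit 143) (nat_lit 5) (nat_lit 144) (nat_lit 5) (nat_lit 423) (nat_lit 400) (nat_lit 377))) (XT.nd (nat_lit 78) (nat_lit 304) (nat_lit 0) (XT.lf (nat_lit 0) (nat_lit 1596260629) (nat_lit 380) (nat_lit 2434407857) (nat_lit 76) (nat_lit 4655160089) (nat_lit 138) (nat_lit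 5) (nat_lit 143) (nat_lit 5) (nat_lit 139) (nat_lit 5) (nat_lit 424) (nat_lit 400) (nat_lit 376)) (XT.lf (nat_lit 0) (nat_lit 3594513135) (nat_lit 304) (nat_lit 765147578) (nat_lit 380) (nat_lit 4522436526) (nat_lit 134) (nat_lit 5) (nat_lit 138) (nat_lit 5) (nat_lit 139) (nat_lit 5) (nat_lit 425) (nat_lit 400) (nat_lit 375)))) (XT.nd (nat_lit 156) (nat_lit 532) (nat_lit 0) (XT.nd (nat_lit 78) (nat_lit 76) (nat_lit 0) (XT.lf (nat_lit 0) (nat_lit 793029632) (nat_lit 304) (nat_lit 6475065336) (nat_lit 380) (nat_lit 1819747145) (nat_lit 130) (nat_lit 5) (nat_lit 134) (nat_lit 5) (nat_lit 135) (nat_lit 5) (nat_lit 426) (nat_lit 400) (nat_lit 374)) (XT.lf (nat_lit 0) (nat_lit 1001116355) (nat_lit 380) (nat_lit 2082509403) (nat_lit 76) (nat_lit 6218677928) (nat_lit 129) (nat_lit 5) (nat_lit 134) (nat_lit 5) (nat_lit 130) (nat_lit 5) (nat_lit 427) (nat_lit 400) (nat_lit 373))) (XT.nd (nat_lit 78) (nat_lit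 228) (nat_lit 0) (XT.lf (nat_lit 0) (nat_lit 3896185903) (nat_lit 380) (nat_lit 5091602366) (nat_lit 76) (nat_lit 538497728) (nat_lit 125) (nat_lit 5) (nat_lit 130) (nat_lit 5) (nat_lit 126) (nat_lit 5) (nat_lit 428) (nat_lit 400) (nat_lit 372)) (XT.lf (nat_lit 0) (nat_lit 1475509920) (nat_lit 228) (nat_lit 5488096797) (nat_lit 304) (nat_lit 2796485740) (nat_lit 122) (nat_lit 5) (nat_lit 125) (nat_lit 5) (nat_lit 126) (nat_lit 5) (nat_lit 429) (nat_lit 400) (nat_lit 371))))) (XT.nd (nat_lit 312) (nat_lit 760) (nat_lit 0) (XT.nd (nat_lit 156) (nat_lit 228) (nat_lit 0) (XT.nd (nat_lit 78) (nat_lit 304) (nat_lit 0) (XT.lf (nat_lit 0) (nat_lit 179774880) (nat_lit 304) (nat_lit 1569547036) (nat_lit 76) (nat_lit 8255797778) (nat_lit 121) (nat_lit 5) (nat_lit 125) (nat_lit 5) (nat_lit 122) (nat_lit 5) (nat_lit 430) (nat_lit 400) (nat_lit 370)) (XT.lf (nat_lit 0) (nat_lit 3255400913) (nat_lit 380) (nat_lit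 4790241427) (nat_lit 76) (nat_lit 2212241373) (nat_lit 117) (nat_lit 5) (nat_lit 122) (nat_lit 5) (nat_lit 118) (nat_lit 5) (nat_lit 431) (nat_lit 400) (nat_lit 369))) (XT.nd (nat_lit 78) (nat_lit 0) (nat_lit 0) (XT.lf (nat_lit 0) (nat_lit 2326512829) (nat_lit 228) (nat_lit 4174786025) (nat_lit 304) (nat_lit 4021166600) (nat_lit 114) (nat_lit 5) (nat_lit 117) (nat_lit 5) (nat_lit 118) (nat_lit 5) (nat_lit 432) (nat_lit 400) (nat_lit 368)) (XT.lf (nat_lit 0) (nat_lit 9859091833) (nat_lit 228) (nat_lit 57934514) (nat_lit 304) (nat_lit 882877061) (nat_lit 114) (nat_lit 5) (nat_lit 117) (nat_lit 5) (nat_lit 118) (nat_lit 5) (nat_lit 433) (nat_lit 400) (nat_lit 367)))) (XT.nd (nat_lit 156) (nat_lit 304) (nat_lit 0) (XT.nd (nat_lit 78) (nat_lit 152) (nat_lit 0) (XT.lf (nat_lit 0) (nat_lit 2437719997) (nat_lit 304) (nat_lit 4404138448) (nat_lit 76) (nat_lit 4242345027) (nat_lit 110) (nat_lit 5) (nat_lit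 114) (nat_lit 5) (nat_lit 111) (nat_lit 5) (nat_lit 434) (nat_lit 400) (nat_lit 366)) (XT.lf (nat_lit 0) (nat_lit 3318337640) (nat_lit 152) (nat_lit 2575345962) (nat_lit 228) (nat_lit 5488364243) (nat_lit 108) (nat_lit 5) (nat_lit 110) (nat_lit 5) (nat_lit 111) (nat_lit 5) (nat_lit 435) (nat_lit 400) (nat_lit 365))) (XT.nd (nat_lit 78) (nat_lit 304) (nat_lit 0) (XT.lf (nat_lit 0) (nat_lit 9559216182) (nat_lit 228) (nat_lit 248261019) (nat_lit 76) (nat_lit 1885471870) (nat_lit 108) (nat_lit 5) (nat_lit 111) (nat_lit 5) (nat_lit 109) (nat_lit 5) (nat_lit 436) (nat_lit 400) (nat_lit 364)) (XT.lf (nat_lit 0) (nat_lit 1448631646) (nat_lit 304) (nat_lit 3964530046) (nat_lit 76) (nat_lit 6599930202) (nat_lit 104) (nat_lit 5) (nat_lit 108) (nat_lit 5) (nat_lit 105) (nat_lit 5) (nat_lit 437) (nat_lit 400) (nat_lit 363)))))) (XT.nd (nat_lit 624) (nat_lit 988) (nat_lit 0) (XT.nd (nat_lit 312) (nat_lit 532)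 (nat_lit 0) (XT.nd (nat_lit 156) (nat_lit 228) (nat_lit 0) (XT.nd (nat_lit 78) (nat_lit 228) (nat_lit 0) (XT.lf (nat_lit 0) (nat_lit 4424829417) (nat_lit 152) (nat_lit 721953279) (nat_lit 228) (nat_lit 7200294158) (nat_lit 102) (nat_lit 5) (nat_lit 104) (nat_lit 5) (nat_lit 105) (nat_lit 5) (nat_lit 438) (nat_lit 400) (nat_lit 362)) (XT.lf (nat_lit 0) (nat_lit 524417609) (nat_lit 228) (nat_lit 8583469839) (nat_lit 304) (nat_lit 3585973919) (nat_lit 99) (nat_lit 5) (nat_lit 102) (nat_lit 5) (nat_lit 103) (nat_lit 5) (nat_lit 439) (nat_lit 400) (nat_lit 361))) (XT.nd (nat_lit 78) (nat_lit 152) (nat_lit 0) (XT.lf (nat_lit 0) (nat_lit 287001970) (nat_lit 304) (nat_lit 3503093178) (nat_lit 76) (nat_lit 9263497577) (nat_lit 98) (nat_lit 5) (nat_lit 102) (nat_lit 5) (nat_lit 99) (nat_lit 5) (nat_lit 440) (nat_lit 400) (nat_lit 360)) (XT.lf (nat_lit 0) (nat_lit 4281530052) (nat_lit 228) (nat_lit 7828658306)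 (nat_lit 76) (nat_lit 1315764445) (nat_lit 96) (nat_lit 5) (nat_lit 99) (nat_lit 5) (nat_lit 97) (nat_lit 5) (nat_lit 441) (nat_lit 400) (nat_lit 359)))) (XT.nd (nat_lit 156) (nat_lit 380) (nat_lit 0) (XT.nd (nat_lit 78) (nat_lit 0) (nat_lit 0) (XT.lf (nat_lit 0) (nat_lit 1341313194) (nat_lit 152) (nat_lit 7218094947) (nat_lit 228) (nat_lit 5253343710) (nat_lit 94) (nat_lit 5) (nat_lit 96) (nat_lit 5) (nat_lit 97) (nat_lit 5) (nat_lit 442) (nat_lit 400) (nat_lit 358)) (XT.lf (nat_lit 0) (nat_lit 11144302843) (nat_lit 152) (nat_lit 1981036021) (nat_lit 228) (nat_lit 1089846099) (nat_lit 94) (nat_lit 5) (nat_lit 96) (nat_lit 5) (nat_lit 97) (nat_lit 5) (nat_lit 443) (nat_lit 400) (nat_lit 357))) (XT.nd (nat_lit 78) (nat_lit 152) (nat_lit 0) (XT.lf (nat_lit 0) (nat_lit 3284484484) (nat_lit 228) (nat_lit 7815612090) (nat_lit 76) (nat_lit 3529698235) (nat_lit 91) (nat_lit 5) (nat_lit 94) (nat_lit 5)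 (nat_lit 92) (nat_lit 5) (nat_lit 444) (nat_lit 400) (nat_lit 356)) (XT.lf (nat_lit 0) (nat_lit 2160361902) (nat_lit 152) (nat_lit 5743706188) (nat_lit 228) (nat_lit 7157017384) (nat_lit 89) (nat_lit 5) (nat_lit 91) (nat_lit 5) (nat_lit 92) (nat_lit 5) (nat_lit 445) (nat_lit 400) (nat_lit 355))))) (XT.nd (nat_lit 312) (nat_lit 608) (nat_lit 0) (XT.nd (nat_lit 156) (nat_lit 152) (nat_lit 0) (XT.nd (nat_lit 78) (nat_lit 228) (nat_lit 0) (XT.lf (nat_lit 0) (nat_lit 12812841612) (nat_lit 152) (nat_lit 19448289) (nat_lit 228) (nat_lit 2677769505) (nat_lit 89) (nat_lit 5) (nat_lit 91) (nat_lit 5) (nat_lit 92) (nat_lit 5) (nat_lit 446) (nat_lit 400) (nat_lit 354)) (XT.lf (nat_lit 0) (nat_lit 2130531715) (nat_lit 228) (nat_lit 7916811563) (nat_lit 76) (nat_lit 5924063258) (nat_lit 86) (nat_lit 5) (nat_lit 89) (nat_lit 5) (nat_lit 87) (nat_lit 5) (nat_lit 447) (nat_lit 400) (nat_lit 353))) (XT.nd (nat_lit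 78) (nat_lit 0) (nat_lit 0) (XT.lf (nat_lit 0) (nat_lit 2941828175) (nat_lit 152) (nat_lit 4187690133) (nat_lit 228) (nat_lit 9322096229) (nat_lit 84) (nat_lit 5) (nat_lit 86) (nat_lit 5) (nat_lit 87) (nat_lit 5) (nat_lit 448) (nat_lit 400) (nat_lit 352)) (XT.lf (nat_lit 0) (nat_lit 12493477219) (nat_lit 228) (nat_lit 2455706190) (nat_lit 76) (nat_lit 2000899764) (nat_lit 84) (nat_lit 5) (nat_lit 87) (nat_lit 5) (nat_lit 85) (nat_lit 4) (nat_lit 449) (nat_lit 400) (nat_lit 351)))) (XT.nd (nat_lit 156) (nat_lit 304) (nat_lit 0) (XT.nd (nat_lit 78) (nat_lit 152) (nat_lit 0) (XT.lf (nat_lit 0) (nat_lit 798250786) (nat_lit 152) (nat_lit 8185875836) (nat_lit 76) (nat_lit 8480492519) (nat_lit 82) (nat_lit 5) (nat_lit 84) (nat_lit 5) (nat_lit 83) (nat_lit 5) (nat_lit 450) (nat_lit 400) (nat_lit 350)) (XT.lf (nat_lit 0) (nat_lit 3637250713) (nat_lit 152) (nat_lit 2578645335) (nat_lit 228) (nat_lit 11782843257)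 (nat_lit 80) (nat_lit 5) (nat_lit 82) (nat_lit 5) (nat_lit 83) (nat_lit 5) (nat_lit 451) (nat_lit 400) (nat_lit 349))) (XT.nd (nat_lit 78) (nat_lit 304) (nat_lit 0) (XT.lf (nat_lit 0) (nat_lit 12061235739) (nat_lit 228) (nat_lit 2372120372) (nat_lit 76) (nat_lit 4118369897) (nat_lit 80) (nat_lit 5) (nat_lit 83) (nat_lit 5) (nat_lit 81) (nat_lit 4) (nat_lit 452) (nat_lit 400) (nat_lit 348)) (XT.nd (nat_lit 78) (nat_lit 228) (nat_lit 0) (XT.lf (nat_lit 0) (nat_lit 10424084386) (nat_lit 76) (nat_lit 7933265535) (nat_lit 152) (nat_lit 767087835) (nat_lit 79) (nat_lit 5) (nat_lit 80) (nat_lit 5) (nat_lit 81) (nat_lit 4) (nat_lit 453) (nat_lit 400) (nat_lit 347)) (XT.lf (nat_lit 0) (nat_lit 4185973260) (nat_lit 152) (nat_lit 948567385) (nat_lit 228) (nat_lit 14584160526) (nat_lit 76) (nat_lit 5) (nat_lit 78) (nat_lit 5) (nat_lit 79) (nat_lit 5) (nat_lit 454) (nat_lit 400) (nat_lit 346))))))))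
noncomputable def xc188 : XT := (XT.nd (nat_lit 1248) (nat_lit 1216) (nat_lit 0) (XT.nd (nat_lit 624) (nat_lit 608) (nat_lit 0) (XT.nd (nat_lit 312) (nat_lit 380) (nat_lit 0) (XT.nd (nat_lit 156) (nat_lit 228) (nat_lit 0) (XT.nd (nat_lit 78) (nat_lit 76) (nat_lit 0) (XT.lf (nat_lit 0) (nat_lit 11508916647) (nat_lit 228) (nat_lit 2515825763) (nat_lit 76) (nat_lit 6307135262) (nat_lit 76) (nat_lit 5) (nat_lit 79) (nat_lit 5) (nat_lit 77) (nat_lit 4) (nat_lit 455) (nat_lit 400) (nat_lit 345)) (XT.lf (nat_lit 0) (nat_lit 11421448966) (nat_lit 76) (nat_lit 6930616111) (nat_lit 152) (nat_lit 2616146133) (nat_lit 75) (nat_lit 5) (nat_lit 76) (nat_lit 5) (nat_lit 77) (nat_lit 4) (nat_lit 456) (nat_lit 400) (nat_lit 344))) (XT.nd (nat_lit 78) (nat_lit 0) (nat_lit 0) (XT.lf (nat_lit 0) (nat_lit 3856589335) (nat_lit 228) (nat_lit 17129346252) (nat_lit 76) (nat_lit 643359536) (nat_lit 72) (nat_lit 5) (nat_lit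 75) (nat_lit 5) (nat_lit 73) (nat_lit 4) (nat_lit 457) (nat_lit 400) (nat_lit 343)) (XT.lf (nat_lit 0) (nat_lit 10799587036) (nat_lit 228) (nat_lit 2974965290) (nat_lit 76) (nat_lit 8535010040) (nat_lit 72) (nat_lit 5) (nat_lit 75) (nat_lit 5) (nat_lit 73) (nat_lit 4) (nat_lit 458) (nat_lit 400) (nat_lit 342)))) (XT.nd (nat_lit 156) (nat_lit 76) (nat_lit 0) (XT.nd (nat_lit 78) (nat_lit 228) (nat_lit 0) (XT.lf (nat_lit 0) (nat_lit 12200583093) (nat_lit 76) (nat_lit 6038302492) (nat_lit 152) (nat_lit 4777500572) (nat_lit 71) (nat_lit 5) (nat_lit 72) (nat_lit 5) (nat_lit 73) (nat_lit 4) (nat_lit 459) (nat_lit 400) (nat_lit 341)) (XT.lf (nat_lit 0) (nat_lit 2333272517) (nat_lit 228) (nat_lit 19274480788) (nat_lit 76) (nat_lit 2143258584) (nat_lit 68) (nat_lit 5) (nat_lit 71) (nat_lit 5) (nat_lit 69) (nat_lit 4) (nat_lit 460) (nat_lit 400) (nat_lit 340))) (XT.nd (nat_lit 78) (nat_lit 76) (nat_lit 0)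 (XT.lf (nat_lit 0) (nat_lit 9883199411) (nat_lit 228) (nat_lit 3861930260) (nat_lit 76) (nat_lit 10761115362) (nat_lit 68) (nat_lit 5) (nat_lit 71) (nat_lit 5) (nat_lit 69) (nat_lit 4) (nat_lit 461) (nat_lit 400) (nat_lit 339)) (XT.lf (nat_lit 0) (nat_lit 12652501050) (nat_lit 76) (nat_lit 5316622858) (nat_lit 152) (nat_lit 7322191467) (nat_lit 67) (nat_lit 5) (nat_lit 68) (nat_lit 5) (nat_lit 69) (nat_lit 4) (nat_lit 462) (nat_lit 400) (nat_lit 338))))) (XT.nd (nat_lit 312) (nat_lit 304) (nat_lit 0) (XT.nd (nat_lit 156) (nat_lit 152) (nat_lit 0) (XT.nd (nat_lit 78) (nat_lit 0) (nat_lit 0) (XT.lf (nat_lit 0) (nat_lit 480531021) (nat_lit 152) (nat_lit 22103461992) (nat_lit 76) (nat_lit 3523987143) (nat_lit 65) (nat_lit 5) (nat_lit 67) (nat_lit 5) (nat_lit 66) (nat_lit 4) (nat_lit 463) (nat_lit 400) (nat_lit 337)) (XT.lf (nat_lit 0) (nat_lit 8693269219) (nat_lit 152) (nat_lit 5320659482) (nat_lit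 76) (nat_lit 12932250538) (nat_lit 65) (nat_lit 5) (nat_lit 67) (nat_lit 5) (nat_lit 66) (nat_lit 4) (nat_lit 464) (nat_lit 400) (nat_lit 336))) (XT.nd (nat_lit 78) (nat_lit 76) (nat_lit 0) (XT.lf (nat_lit 0) (nat_lit 12635223205) (nat_lit 76) (nat_lit 4841780098) (nat_lit 152) (nat_lit 10341267521) (nat_lit 64) (nat_lit 5) (nat_lit 65) (nat_lit 5) (nat_lit 66) (nat_lit 4) (nat_lit 465) (nat_lit 400) (nat_lit 335)) (XT.lf (nat_lit 0) (nat_lit 2889779073) (nat_lit 76) (nat_lit 23984863393) (nat_lit 76) (nat_lit 1850589078) (nat_lit 63) (nat_lit 4) (nat_lit 64) (nat_lit 5) (nat_lit 64) (nat_lit 4) (nat_lit 466) (nat_lit 400) (nat_lit 334)))) (XT.nd (nat_lit 156) (nat_lit 152) (nat_lit 0) (XT.nd (nat_lit 78) (nat_lit 76) (nat_lit 0) (XT.lf (nat_lit 0) (nat_lit 7142551826) (nat_lit 152) (nat_lit 7535901993) (nat_lit 76) (nat_lit 14978369951) (nat_lit 62) (nat_lit 5) (nat_lit 64) (nat_lit 5) (nat_lit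 63) (nat_lit 4) (nat_lit 467) (nat_lit 400) (nat_lit 333)) (XT.lf (nat_lit 0) (nat_lit 11963874576) (nat_lit 76) (nat_lit 4711139188) (nat_lit 152) (nat_lit 13950872582) (nat_lit 61) (nat_lit 5) (nat_lit 62) (nat_lit 5) (nat_lit 63) (nat_lit 4) (nat_lit 468) (nat_lit 400) (nat_lit 332))) (XT.nd (nat_lit 78) (nat_lit 76) (nat_lit 0) (XT.lf (nat_lit 0) (nat_lit 933733721) (nat_lit 76) (nat_lit 25949700951) (nat_lit 76) (nat_lit 4750000973) (nat_lit 60) (nat_lit 4) (nat_lit 61) (nat_lit 5) (nat_lit 61) (nat_lit 4) (nat_lit 469) (nat_lit 400) (nat_lit 331)) (XT.lf (nat_lit 0) (nat_lit 5117454510) (nat_lit 152) (nat_lit 10745001075) (nat_lit 76) (nat_lit 16806887509) (nat_lit 59) (nat_lit 5) (nat_lit 61) (nat_lit 5) (nat_lit 60) (nat_lit 4) (nat_lit 470) (nat_lit 400) (nat_lit 330)))))) (XT.nd (nat_lit 624) (nat_lit 684) (nat_lit 0) (XT.nd (nat_lit 312) (nat_lit 228) (nat_lit 0) (XT.nd (nat_lit 156)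 (nat_lit 228) (nat_lit 0) (XT.nd (nat_lit 78) (nat_lit 0) (nat_lit 0) (XT.lf (nat_lit 0) (nat_lit 10398059751) (nat_lit 76) (nat_lit 5049846194) (nat_lit 152) (nat_lit 18298784147) (nat_lit 58) (nat_lit 5) (nat_lit 59) (nat_lit 5) (nat_lit 60) (nat_lit 4) (nat_lit 471) (nat_lit 400) (nat_lit 329)) (XT.lf (nat_lit 0) (nat_lit 26545267401) (nat_lit 152) (nat_lit 2063303576) (nat_lit 0) (nat_lit 6256814410) (nat_lit 58) (nat_lit 5) (nat_lit 60) (nat_lit 4) (nat_lit 58) (nat_lit 4) (nat_lit 472) (nat_lit 400) (nat_lit 328))) (XT.nd (nat_lit 78) (nat_lit 76) (nat_lit 0) (XT.lf (nat_lit 0) (nat_lit 2470843541) (nat_lit 152) (nat_lit 15252909177) (nat_lit 76) (nat_lit 18295458057) (nat_lit 56) (nat_lit 5) (nat_lit 58) (nat_lit 5) (nat_lit 57) (nat_lit 4) (nat_lit 473) (nat_lit 400) (nat_lit 327)) (XT.lf (nat_lit 0) (nat_lit 7625746223) (nat_lit 76) (nat_lit 6019208172) (nat_lit 152) (nat_lit 23572792955)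 (nat_lit 55) (nat_lit 5) (nat_lit 56) (nat_lit 5) (nat_lit 57) (nat_lit 4) (nat_lit 474) (nat_lit 400) (nat_lit 326)))) (XT.nd (nat_lit 156) (nat_lit 152) (nat_lit 0) (XT.nd (nat_lit 78) (nat_lit 76) (nat_lit 0) (XT.lf (nat_lit 0) (nat_lit 25706946898) (nat_lit 152) (nat_lit 6449035432) (nat_lit 0) (nat_lit 6303769884) (nat_lit 55) (nat_lit 5) (nat_lit 57) (nat_lit 4) (nat_lit 55) (nat_lit 4) (nat_lit 475) (nat_lit 400) (nat_lit 325)) (XT.lf (nat_lit 0) (nat_lit 18278883668) (nat_lit 76) (nat_lit 20447429743) (nat_lit 76) (nat_lit 1019830441) (nat_lit 54) (nat_lit 4) (nat_lit 55) (nat_lit 5) (nat_lit 55) (nat_lit 4) (nat_lit 476) (nat_lit 400) (nat_lit 324))) (XT.nd (nat_lit 78) (nat_lit 0) (nat_lit 0) (XT.lf (nat_lit 0) (nat_lit 3242677431) (nat_lit 76) (nat_lit 7827340157) (nat_lit 152) (nat_lit 30011422221) (nat_lit 52) (nat_lit 5) (nat_lit 53) (nat_lit 5) (nat_lit 54) (nat_lit 4) (nat_lit 477)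 (nat_lit 400) (nat_lit 323)) (XT.lf (nat_lit 0) (nat_lit 24154609205) (nat_lit 152) (nat_lit 12697944391) (nat_lit 0) (nat_lit 5608885050) (nat_lit 52) (nat_lit 5) (nat_lit 54) (nat_lit 4) (nat_lit 52) (nat_lit 4) (nat_lit 478) (nat_lit 400) (nat_lit 322))))) (XT.nd (nat_lit 312) (nat_lit 380) (nat_lit 0) (XT.nd (nat_lit 156) (nat_lit 152) (nat_lit 0) (XT.nd (nat_lit 78) (nat_lit 76) (nat_lit 0) (XT.lf (nat_lit 0) (nat_lit 13962612065) (nat_lit 76) (nat_lit 24248869716) (nat_lit 76) (nat_lit 5683053283) (nat_lit 51) (nat_lit 4) (nat_lit 52) (nat_lit 5) (nat_lit 52) (nat_lit 4) (nat_lit 479) (nat_lit 400) (nat_lit 321)) (XT.lf (nat_lit 0) (nat_lit 7519905178) (nat_lit 152) (nat_lit 3169146319) (nat_lit 76) (nat_lit 34694806955) (nat_lit 50) (nat_lit 5) (nat_lit 52) (nat_lit 5) (nat_lit 51) (nat_lit 4) (nat_lit 480) (nat_lit 400) (nat_lit 320))) (XT.nd (nat_lit 78) (nat_lit 76) (nat_lit 0) (XT.lf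 (nat_lit 0) (nat_lit 21627977857) (nat_lit 152) (nat_lit 21382547218) (nat_lit 0) (nat_lit 3910667167) (nat_lit 49) (nat_lit 5) (nat_lit 51) (nat_lit 4) (nat_lit 49) (nat_lit 4) (nat_lit 481) (nat_lit 400) (nat_lit 319)) (XT.lf (nat_lit 0) (nat_lit 7262163440) (nat_lit 76) (nat_lit 29495626655) (nat_lit 76) (nat_lit 11761785998) (nat_lit 48) (nat_lit 4) (nat_lit 49) (nat_lit 5) (nat_lit 49) (nat_lit 4) (nat_lit 482) (nat_lit 400) (nat_lit 318)))) (XT.nd (nat_lit 156) (nat_lit 228) (nat_lit 0) (XT.nd (nat_lit 78) (nat_lit 76) (nat_lit 0) (XT.lf (nat_lit 0) (nat_lit 2709178192) (nat_lit 152) (nat_lit 12195768187) (nat_lit 76) (nat_lit 35273960375) (nat_lit 47) (nat_lit 5) (nat_lit 49) (nat_lit 5) (nat_lit 48) (nat_lit 4) (nat_lit 483) (nat_lit 400) (nat_lit 317)) (XT.lf (nat_lit 0) (nat_lit 17788459200) (nat_lit 152) (nat_lit 33239287228) (nat_lit 0) (nat_lit 869814772) (nat_lit 46) (nat_lit 5) (nat_lit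 48) (nat_lit 4) (nat_lit 46) (nat_lit 4) (nat_lit 484) (nat_lit 400) (nat_lit 316))) (XT.nd (nat_lit 78) (nat_lit 228) (nat_lit 0) (XT.lf (nat_lit 0) (nat_lit 34050496182) (nat_lit 152) (nat_lit 2511960220) (nat_lit 0) (nat_lit 17118252509) (nat_lit 46) (nat_lit 5) (nat_lit 48) (nat_lit 4) (nat_lit 46) (nat_lit 4) (nat_lit 485) (nat_lit 400) (nat_lit 315)) (XT.nd (nat_lit 78) (nat_lit 152) (nat_lit 0) (XT.lf (nat_lit 0) (nat_lit 30685442374) (nat_lit 76) (nat_lit 20895013041) (nat_lit 76) (nat_lit 3949817706) (nat_lit 45) (nat_lit 4) (nat_lit 46) (nat_lit 5) (nat_lit 46) (nat_lit 4) (nat_lit 486) (nat_lit 400) (nat_lit 314)) (XT.lf (nat_lit 0) (nat_lit 8176926174) (nat_lit 76) (nat_lit 4083784276) (nat_lit 152) (nat_lit 45194502883) (nat_lit 43) (nat_lit 5) (nat_lit 44) (nat_lit 5) (nat_lit 45) (nat_lit 4) (nat_lit 487) (nat_lit 400) (nat_lit 313))))))))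
noncomputable def xc189 : XT := (XT.nd (nat_lit 1248) (nat_lit 836) (nat_lit 0) (XT.nd (nat_lit 624) (nat_lit 532) (nat_lit 0) (XT.nd (nat_lit 312) (nat_lit 228) (nat_lit 0) (XT.nd (nat_lit 156) (nat_lit 152) (nat_lit 0) (XT.nd (nat_lit 78) (nat_lit 76) (nat_lit 0) (XT.lf (nat_lit 0) (nat_lit 29764310553) (nat_lit 152) (nat_lit 16074994687) (nat_lit 0) (nat_lit 13603093611) (nat_lit 43) (nat_lit 5) (nat_lit 45) (nat_lit 4) (nat_lit 43) (nat_lit 4) (nat_lit 488) (nat_lit 400) (nat_lit 312)) (XT.lf (nat_lit 0) (nat_lit 19292838778) (nat_lit 76) (nat_lit 29195360915) (nat_lit 76) (nat_lit 13023488609) (nat_lit 42) (nat_lit 4) (nat_lit 43) (nat_lit 5) (nat_lit 43) (nat_lit 4) (nat_lit 489) (nat_lit 400) (nat_lit 311))) (XT.nd (nat_lit 78) (nat_lit 76) (nat_lit 0) (XT.lf (nat_lit 0) (nat_lit 4574634419) (nat_lit 152) (nat_lit 6804019711) (nat_lit 76) (nat_lit 52289620333) (nat_lit 41) (nat_lit 5) (nat_lit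 43) (nat_lit 5) (nat_lit 42) (nat_lit 4) (nat_lit 490) (nat_lit 400) (nat_lit 310)) (XT.lf (nat_lit 0) (nat_lit 23204466810) (nat_lit 152) (nat_lit 34904259908) (nat_lit 0) (nat_lit 7783814428) (nat_lit 40) (nat_lit 5) (nat_lit 42) (nat_lit 4) (nat_lit 40) (nat_lit 4) (nat_lit 491) (nat_lit 400) (nat_lit 309)))) (XT.nd (nat_lit 156) (nat_lit 152) (nat_lit 0) (XT.nd (nat_lit 78) (nat_lit 0) (nat_lit 0) (XT.lf (nat_lit 0) (nat_lit 2532782439) (nat_lit 76) (nat_lit 40554296492) (nat_lit 76) (nat_lit 25124877915) (nat_lit 39) (nat_lit 4) (nat_lit 40) (nat_lit 5) (nat_lit 40) (nat_lit 4) (nat_lit 492) (nat_lit 400) (nat_lit 308)) (XT.lf (nat_lit 0) (nat_lit 43010168090) (nat_lit 76) (nat_lit 21523231873) (nat_lit 76) (nat_lit 6085464540) (nat_lit 39) (nat_lit 4) (nat_lit 40) (nat_lit 5) (nat_lit 40) (nat_lit 4) (nat_lit 493) (nat_lit 400) (nat_lit 307))) (XT.nd (nat_lit 78) (nat_lit 0) (nat_lit 0) (XT.lf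 (nat_lit 0) (nat_lit 12506549508) (nat_lit 76) (nat_lit 1128703192) (nat_lit 152) (nat_lit 59491288928) (nat_lit 37) (nat_lit 5) (nat_lit 38) (nat_lit 5) (nat_lit 39) (nat_lit 4) (nat_lit 494) (nat_lit 400) (nat_lit 306)) (XT.lf (nat_lit 0) (nat_lit 34908612290) (nat_lit 152) (nat_lit 20616254212) (nat_lit 0) (nat_lit 20191192197) (nat_lit 37) (nat_lit 5) (nat_lit 39) (nat_lit 4) (nat_lit 37) (nat_lit 4) (nat_lit 495) (nat_lit 400) (nat_lit 305))))) (XT.nd (nat_lit 312) (nat_lit 304) (nat_lit 0) (XT.nd (nat_lit 156) (nat_lit 76) (nat_lit 0) (XT.nd (nat_lit 78) (nat_lit 76) (nat_lit 0) (XT.lf (nat_lit 0) (nat_lit 22034446980) (nat_lit 76) (nat_lit 35553879509) (nat_lit 76) (nat_lit 20829590873) (nat_lit 36) (nat_lit 4) (nat_lit 37) (nat_lit 5) (nat_lit 37) (nat_lit 4) (nat_lit 496) (nat_lit 400) (nat_lit 304)) (XT.lf (nat_lit 0) (nat_lit 477492188) (nat_lit 152) (nat_lit 13751971118) (nat_lit 76)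 (nat_lit 67008538604) (nat_lit 35) (nat_lit 5) (nat_lit 37) (nat_lit 5) (nat_lit 36) (nat_lit 4) (nat_lit 497) (nat_lit 400) (nat_lit 303))) (XT.nd (nat_lit 78) (nat_lit 0) (nat_lit 0) (XT.lf (nat_lit 0) (nat_lit 22765911290) (nat_lit 152) (nat_lit 52654690405) (nat_lit 0) (nat_lit 8730615980) (nat_lit 34) (nat_lit 5) (nat_lit 36) (nat_lit 4) (nat_lit 34) (nat_lit 4) (nat_lit 498) (nat_lit 400) (nat_lit 302)) (XT.lf (nat_lit 0) (nat_lit 46619873775) (nat_lit 152) (nat_lit 7988736691) (nat_lit 0) (nat_lit 32578927698) (nat_lit 34) (nat_lit 5) (nat_lit 36) (nat_lit 4) (nat_lit 34) (nat_lit 4) (nat_lit 499) (nat_lit 400) (nat_lit 301)))) (XT.nd (nat_lit 156) (nat_lit 152) (nat_lit 0) (XT.nd (nat_lit 78) (nat_lit 76) (nat_lit 0) (XT.lf (nat_lit 0) (nat_lit 40159598982) (nat_lit 76) (nat_lit 32115975747) (nat_lit 76) (nat_lit 18069647987) (nat_lit 33) (nat_lit 4) (nat_lit 34) (nat_lit 5) (nat_lit 34)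 (nat_lit 4) (nat_lit 500) (nat_lit 400) (nat_lit 300)) (XT.lf (nat_lit 0) (nat_lit 5495085998) (nat_lit 152) (nat_lit 2786526876) (nat_lit 76) (nat_lit 85368865765) (nat_lit 32) (nat_lit 5) (nat_lit 34) (nat_lit 5) (nat_lit 33) (nat_lit 4) (nat_lit 501) (nat_lit 400) (nat_lit 299))) (XT.nd (nat_lit 78) (nat_lit 76) (nat_lit 0) (XT.lf (nat_lit 0) (nat_lit 30644492452) (nat_lit 152) (nat_lit 49153501846) (nat_lit 0) (nat_lit 17257507198) (nat_lit 31) (nat_lit 5) (nat_lit 33) (nat_lit 4) (nat_lit 31) (nat_lit 4) (nat_lit 502) (nat_lit 400) (nat_lit 298)) (XT.lf (nat_lit 0) (nat_lit 436129665) (nat_lit 76) (nat_lit 56788692992) (nat_lit 76) (nat_lit 43397280214) (nat_lit 30) (nat_lit 4) (nat_lit 31) (nat_lit 5) (nat_lit 31) (nat_lit 4) (nat_lit 503) (nat_lit 400) (nat_lit 297)))))) (XT.nd (nat_lit 624) (nat_lit 456) (nat_lit 0) (XT.nd (nat_lit 312) (nat_lit 152) (nat_lit 0) (XT.nd (nat_lit 156) (nat_lit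 76) (nat_lit 0) (XT.nd (nat_lit 78) (nat_lit 152) (nat_lit 0) (XT.lf (nat_lit 0) (nat_lit 54177729000) (nat_lit 76) (nat_lit 31772076509) (nat_lit 76) (nat_lit 18376447041) (nat_lit 30) (nat_lit 4) (nat_lit 31) (nat_lit 5) (nat_lit 31) (nat_lit 4) (nat_lit 504) (nat_lit 400) (nat_lit 296)) (XT.lf (nat_lit 0) (nat_lit 2308484219) (nat_lit 76) (nat_lit 5354018015) (nat_lit 152) (nat_lit 100545955159) (nat_lit 28) (nat_lit 5) (nat_lit 29) (nat_lit 5) (nat_lit 30) (nat_lit 4) (nat_lit 505) (nat_lit 400) (nat_lit 295))) (XT.nd (nat_lit 78) (nat_lit 76) (nat_lit 0) (XT.lf (nat_lit 0) (nat_lit 35582281927) (nat_lit 152) (nat_lit 53810532944) (nat_lit 0) (nat_lit 22817072380) (nat_lit 28) (nat_lit 5) (nat_lit 30) (nat_lit 4) (nat_lit 28) (nat_lit 4) (nat_lit 506) (nat_lit 400) (nat_lit 294)) (XT.lf (nat_lit 0) (nat_lit 789503151) (nat_lit 76) (nat_lit 64193166579) (nat_lit 76) (nat_lit 51424487951) (nat_lit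 27) (nat_lit 4) (nat_lit 28) (nat_lit 5) (nat_lit 28) (nat_lit 4) (nat_lit 507) (nat_lit 400) (nat_lit 293)))) (XT.nd (nat_lit 156) (nat_lit 76) (nat_lit 0) (XT.nd (nat_lit 78) (nat_lit 76) (nat_lit 0) (XT.lf (nat_lit 0) (nat_lit 59956852898) (nat_lit 76) (nat_lit 36792308529) (nat_lit 76) (nat_lit 24020326015) (nat_lit 27) (nat_lit 4) (nat_lit 28) (nat_lit 5) (nat_lit 28) (nat_lit 4) (nat_lit 508) (nat_lit 400) (nat_lit 292)) (XT.lf (nat_lit 0) (nat_lit 4587149206) (nat_lit 152) (nat_lit 3371473198) (nat_lit 76) (nat_lit 117388336904) (nat_lit 26) (nat_lit 5) (nat_lit 28) (nat_lit 5) (nat_lit 27) (nat_lit 4) (nat_lit 509) (nat_lit 400) (nat_lit 291))) (XT.nd (nat_lit 78) (nat_lit 0) (nat_lit 0) (XT.lf (nat_lit 0) (nat_lit 35084930072) (nat_lit 152) (nat_lit 72070040860) (nat_lit 0) (nat_lit 22915286457) (nat_lit 25) (nat_lit 5) (nat_lit 27) (nat_lit 4) (nat_lit 25) (nat_lit 4) (nat_lit 510) (nat_lit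 400) (nat_lit 290)) (XT.lf (nat_lit 0) (nat_lit 67282078106) (nat_lit 152) (nat_lit 12629202015) (nat_lit 0) (nat_lit 55109716376) (nat_lit 25) (nat_lit 5) (nat_lit 27) (nat_lit 4) (nat_lit 25) (nat_lit 4) (nat_lit 511) (nat_lit 400) (nat_lit 289))))) (XT.nd (nat_lit 312) (nat_lit 228) (nat_lit 0) (XT.nd (nat_lit 156) (nat_lit 152) (nat_lit 0) (XT.nd (nat_lit 78) (nat_lit 0) (nat_lit 0) (XT.lf (nat_lit 0) (nat_lit 51401739295) (nat_lit 76) (nat_lit 50476512641) (nat_lit 76) (nat_lit 38301562229) (nat_lit 24) (nat_lit 4) (nat_lit 25) (nat_lit 5) (nat_lit 25) (nat_lit 4) (nat_lit 512) (nat_lit 400) (nat_lit 288)) (XT.lf (nat_lit 0) (nat_lit 119046006259) (nat_lit 76) (nat_lit 19358972544) (nat_lit 76) (nat_lit 7181556722) (nat_lit 24) (nat_lit 4) (nat_lit 25) (nat_lit 5) (nat_lit 25) (nat_lit 4) (nat_lit 513) (nat_lit 400) (nat_lit 287))) (XT.nd (nat_lit 78) (nat_lit 0) (nat_lit 0) (XT.lf (nat_lit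 0) (nat_lit 25509209650) (nat_lit 152) (nat_lit 111783509656) (nat_lit 0) (nat_lit 13909434571) (nat_lit 22) (nat_lit 5) (nat_lit 24) (nat_lit 4) (nat_lit 22) (nat_lit 4) (nat_lit 514) (nat_lit 400) (nat_lit 286)) (XT.lf (nat_lit 0) (nat_lit 60354662812) (nat_lit 152) (nat_lit 47947171023) (nat_lit 0) (nat_lit 48752758019) (nat_lit 22) (nat_lit 5) (nat_lit 24) (nat_lit 4) (nat_lit 22) (nat_lit 4) (nat_lit 515) (nat_lit 400) (nat_lit 285)))) (XT.nd (nat_lit 156) (nat_lit 152) (nat_lit 0) (XT.nd (nat_lit 78) (nat_lit 0) (nat_lit 0) (XT.lf (nat_lit 0) (nat_lit 19686468549) (nat_lit 76) (nat_lit 77551176731) (nat_lit 76) (nat_lit 65947243638) (nat_lit 21) (nat_lit 4) (nat_lit 22) (nat_lit 5) (nat_lit 22) (nat_lit 4) (nat_lit 516) (nat_lit 400) (nat_lit 284)) (XT.lf (nat_lit 0) (nat_lit 92342198549) (nat_lit 76) (nat_lit 44422680990) (nat_lit 76) (nat_lit 32816816183) (nat_lit 21) (nat_lit 4) (nat_lit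 22) (nat_lit 5) (nat_lit 22) (nat_lit 4) (nat_lit 517) (nat_lit 400) (nat_lit 283))) (XT.nd (nat_lit 78) (nat_lit 76) (nat_lit 0) (XT.lf (nat_lit 0) (nat_lit 1895551266) (nat_lit 152) (nat_lit 7721824438) (nat_lit 76) (nat_lit 166680005456) (nat_lit 20) (nat_lit 5) (nat_lit 22) (nat_lit 5) (nat_lit 21) (nat_lit 4) (nat_lit 518) (nat_lit 400) (nat_lit 282)) (XT.nd (nat_lit 78) (nat_lit 0) (nat_lit 0) (XT.lf (nat_lit 0) (nat_lit 38719610771) (nat_lit 152) (nat_lit 116865409009) (nat_lit 0) (nat_lit 27662985384) (nat_lit 19) (nat_lit 5) (nat_lit 21) (nat_lit 4) (nat_lit 19) (nat_lit 4) (nat_lit 519) (nat_lit 400) (nat_lit 281)) (XT.lf (nat_lit 0) (nat_lit 77664481243) (nat_lit 152) (nat_lit 46261432110) (nat_lit 0) (nat_lit 66606266630) (nat_lit 19) (nat_lit 5) (nat_lit 21) (nat_lit 4) (nat_lit 19) (nat_lit 4) (nat_lit 520) (nat_lit 400) (nat_lit 280))))))))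
noncomputable def xc190 : XT := (XT.nd (nat_lit 1248) (nat_lit 304) (nat_lit 0) (XT.nd (nat_lit 624) (nat_lit 380) (nat_lit 0) (XT.nd (nat_lit 312) (nat_lit 76) (nat_lit 0) (XT.nd (nat_lit 156) (nat_lit 152) (nat_lit 0) (XT.nd (nat_lit 78) (nat_lit 0) (nat_lit 0) (XT.lf (nat_lit 0) (nat_lit 28772375767) (nat_lit 76) (nat_lit 90222988745) (nat_lit 76) (nat_lit 79163260584) (nat_lit 18) (nat_lit 4) (nat_lit 19) (nat_lit 5) (nat_lit 19) (nat_lit 4) (nat_lit 521) (nat_lit 400) (nat_lit 279)) (XT.lf (nat_lit 0) (nat_lit 109143045883) (nat_lit 76) (nat_lit 54022928554) (nat_lit 76) (nat_lit 42961758918) (nat_lit 18) (nat_lit 4) (nat_lit 19) (nat_lit 5) (nat_lit 19) (nat_lit 4) (nat_lit 522) (nat_lit 400) (nat_lit 278))) (XT.nd (nat_lit 78) (nat_lit 152) (nat_lit 0) (XT.lf (nat_lit 0) (nat_lit 193512325109) (nat_lit 76) (nat_lit 16023001897) (nat_lit 76) (nat_lit 4960459428) (nat_lit 18) (nat_lit 4) (nat_lit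 19) (nat_lit 5) (nat_lit 19) (nat_lit 4) (nat_lit 523) (nat_lit 400) (nat_lit 277)) (XT.lf (nat_lit 0) (nat_lit 35149646141) (nat_lit 152) (nat_lit 163426320142) (nat_lit 0) (nat_lit 24612646209) (nat_lit 16) (nat_lit 5) (nat_lit 18) (nat_lit 4) (nat_lit 16) (nat_lit 4) (nat_lit 524) (nat_lit 400) (nat_lit 276)))) (XT.nd (nat_lit 156) (nat_lit 76) (nat_lit 0) (XT.nd (nat_lit 78) (nat_lit 0) (nat_lit 0) (XT.lf (nat_lit 0) (nat_lit 77712945408) (nat_lit 152) (nat_lit 87393589320) (nat_lit 0) (nat_lit 67174759570) (nat_lit 16) (nat_lit 5) (nat_lit 18) (nat_lit 4) (nat_lit 16) (nat_lit 4) (nat_lit 525) (nat_lit 400) (nat_lit 275)) (XT.lf (nat_lit 0) (nat_lit 122395390105) (nat_lit 152) (nat_lit 7577596240) (nat_lit 0) (nat_lit 111856074835) (nat_lit 16) (nat_lit 5) (nat_lit 18) (nat_lit 4) (nat_lit 16) (nat_lit 4) (nat_lit 526) (nat_lit 400) (nat_lit 274))) (XT.nd (nat_lit 78) (nat_lit 0) (nat_lit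 0) (XT.lf (nat_lit 0) (nat_lit 78731600063) (nat_lit 76) (nat_lit 91800987866) (nat_lit 76) (nat_lit 81260596945) (nat_lit 15) (nat_lit 4) (nat_lit 16) (nat_lit 5) (nat_lit 16) (nat_lit 4) (nat_lit 527) (nat_lit 400) (nat_lit 273)) (XT.lf (nat_lit 0) (nat_lit 169602116142) (nat_lit 76) (nat_lit 51594409974) (nat_lit 76) (nat_lit 41052994624) (nat_lit 15) (nat_lit 4) (nat_lit 16) (nat_lit 5) (nat_lit 16) (nat_lit 4) (nat_lit 528) (nat_lit 400) (nat_lit 272))))) (XT.nd (nat_lit 312) (nat_lit 228) (nat_lit 0) (XT.nd (nat_lit 156) (nat_lit 0) (nat_lit 0) (XT.nd (nat_lit 78) (nat_lit 76) (nat_lit 0) (XT.lf (nat_lit 0) (nat_lit 1119521576) (nat_lit 152) (nat_lit 8247371766) (nat_lit 76) (nat_lit 263861279598) (nat_lit 14) (nat_lit 5) (nat_lit 16) (nat_lit 5) (nat_lit 15) (nat_lit 4) (nat_lit 529) (nat_lit 400) (nat_lit 271)) (XT.lf (nat_lit 0) (nat_lit 45876433013) (nat_lit 152) (nat_lit 202917728093)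 (nat_lit 0) (nat_lit 35835175694) (nat_lit 13) (nat_lit 5) (nat_lit 15) (nat_lit 4) (nat_lit 13) (nat_lit 4) (nat_lit 530) (nat_lit 400) (nat_lit 270))) (XT.nd (nat_lit 78) (nat_lit 0) (nat_lit 0) (XT.lf (nat_lit 0) (nat_lit 93158921652) (nat_lit 152) (nat_lit 120310429096) (nat_lit 0) (nat_lit 83116821533) (nat_lit 13) (nat_lit 5) (nat_lit 15) (nat_lit 4) (nat_lit 13) (nat_lit 4) (nat_lit 531) (nat_lit 400) (nat_lit 269)) (XT.lf (nat_lit 0) (nat_lit 142798118574) (nat_lit 152) (nat_lit 33587885989) (nat_lit 0) (nat_lit 132755215788) (nat_lit 13) (nat_lit 5) (nat_lit 15) (nat_lit 4) (nat_lit 13) (nat_lit 4) (nat_lit 532) (nat_lit 400) (nat_lit 268)))) (XT.nd (nat_lit 156) (nat_lit 152) (nat_lit 0) (XT.nd (nat_lit 78) (nat_lit 0) (nat_lit 0) (XT.lf (nat_lit 0) (nat_lit 59356150993) (nat_lit 76) (nat_lit 136482777214) (nat_lit 76) (nat_lit 126439109983) (nat_lit 12) (nat_lit 4) (nat_lit 13) (nat_lit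 5) (nat_lit 13) (nat_lit 4) (nat_lit 533) (nat_lit 400) (nat_lit 267)) (XT.lf (nat_lit 0) (nat_lit 158099316854) (nat_lit 76) (nat_lit 93994340693) (nat_lit 76) (nat_lit 83949945420) (nat_lit 12) (nat_lit 4) (nat_lit 13) (nat_lit 5) (nat_lit 13) (nat_lit 4) (nat_lit 534) (nat_lit 400) (nat_lit 266))) (XT.nd (nat_lit 78) (nat_lit 152) (nat_lit 0) (XT.lf (nat_lit 0) (nat_lit 261766147173) (nat_lit 76) (nat_lit 49388359158) (nat_lit 76) (nat_lit 39343270510) (nat_lit 12) (nat_lit 4) (nat_lit 13) (nat_lit 5) (nat_lit 13) (nat_lit 4) (nat_lit 535) (nat_lit 400) (nat_lit 265)) (XT.lf (nat_lit 0) (nat_lit 4970691448) (nat_lit 76) (nat_lit 2354401455) (nat_lit 152) (nat_lit 358340156541) (nat_lit 10) (nat_lit 5) (nat_lit 11) (nat_lit 5) (nat_lit 12) (nat_lit 4) (nat_lit 536) (nat_lit 400) (nat_lit 264)))))) (XT.nd (nat_lit 624) (nat_lit 228) (nat_lit 0) (XT.nd (nat_lit 312) (nat_lit 0) (nat_lit 0) (XT.nd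 (nat_lit 156) (nat_lit 76) (nat_lit 0) (XT.nd (nat_lit 78) (nat_lit 0) (nat_lit 0) (XT.lf (nat_lit 0) (nat_lit 57259916834) (nat_lit 152) (nat_lit 276494230687) (nat_lit 0) (nat_lit 47691937868) (nat_lit 10) (nat_lit 5) (nat_lit 12) (nat_lit 4) (nat_lit 10) (nat_lit 4) (nat_lit 537) (nat_lit 400) (nat_lit 263)) (XT.lf (nat_lit 0) (nat_lit 109723980439) (nat_lit 152) (nat_lit 188134926741) (nat_lit 0) (nat_lit 100155431033) (nat_lit 10) (nat_lit 5) (nat_lit 12) (nat_lit 4) (nat_lit 10) (nat_lit 4) (nat_lit 538) (nat_lit 400) (nat_lit 262))) (XT.nd (nat_lit 78) (nat_lit 76) (nat_lit 0) (XT.lf (nat_lit 0) (nat_lit 164805439351) (nat_lit 152) (nat_lit 95369508061) (nat_lit 0) (nat_lit 155236346667) (nat_lit 10) (nat_lit 5) (nat_lit 12) (nat_lit 4) (nat_lit 10) (nat_lit 4) (nat_lit 539) (nat_lit 400) (nat_lit 261)) (XT.lf (nat_lit 0) (nat_lit 2089781455) (nat_lit 76) (nat_lit 220578285788) (nat_lit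 76) (nat_lit 211008675698) (nat_lit 9) (nat_lit 4) (nat_lit 10) (nat_lit 5) (nat_lit 10) (nat_lit 4) (nat_lit 540) (nat_lit 400) (nat_lit 260)))) (XT.nd (nat_lit 156) (nat_lit 0) (nat_lit 0) (XT.nd (nat_lit 78) (nat_lit 0) (nat_lit 0) (XT.lf (nat_lit 0) (nat_lit 107721945298) (nat_lit 76) (nat_lit 177311568718) (nat_lit 76) (nat_lit 167741465860) (nat_lit 9) (nat_lit 4) (nat_lit 10) (nat_lit 5) (nat_lit 10) (nat_lit 4) (nat_lit 541) (nat_lit 400) (nat_lit 259)) (XT.lf (nat_lit 0) (nat_lit 218625141982) (nat_lit 76) (nat_lit 131886908976) (nat_lit 76) (nat_lit 122316336815) (nat_lit 9) (nat_lit 4) (nat_lit 10) (nat_lit 5) (nat_lit 10) (nat_lit 4) (nat_lit 542) (nat_lit 400) (nat_lit 258))) (XT.nd (nat_lit 78) (nat_lit 0) (nat_lit 0) (XT.lf (nat_lit 0) (nat_lit 335063426735) (nat_lit 76) (nat_lit 84196152609) (nat_lit 76) (nat_lit 74625133494) (nat_lit 9) (nat_lit 4) (nat_lit 10) (nat_lit 5) (nat_lit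 10) (nat_lit 4) (nat_lit 543) (nat_lit 400) (nat_lit 257)) (XT.lf (nat_lit 0) (nat_lit 457314033570) (nat_lit 76) (nat_lit 34125750198) (nat_lit 76) (nat_lit 24554305412) (nat_lit 9) (nat_lit 4) (nat_lit 10) (nat_lit 5) (nat_lit 10) (nat_lit 4) (nat_lit 544) (nat_lit 400) (nat_lit 256))))) (XT.nd (nat_lit 312) (nat_lit 76) (nat_lit 0) (XT.nd (nat_lit 156) (nat_lit 0) (nat_lit 0) (XT.nd (nat_lit 78) (nat_lit 0) (nat_lit 0) (XT.lf (nat_lit 0) (nat_lit 28168272962) (nat_lit 152) (nat_lit 491914311336) (nat_lit 0) (nat_lit 19052225163) (nat_lit 7) (nat_lit 5) (nat_lit 9) (nat_lit 4) (nat_lit 7) (nat_lit 4) (nat_lit 545) (nat_lit 400) (nat_lit 255)) (XT.lf (nat_lit 0) (nat_lit 84266750962) (nat_lit 152) (nat_lit 403917105046) (nat_lit 0) (nat_lit 75150335452) (nat_lit 7) (nat_lit 5) (nat_lit 9) (nat_lit 4) (nat_lit 7) (nat_lit 4) (nat_lit 546) (nat_lit 400) (nat_lit 254))) (XT.nd (nat_lit 78) (nat_lit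 0) (nat_lit 0) (XT.lf (nat_lit 0) (nat_lit 143165820788) (nat_lit 152) (nat_lit 311528883302) (nat_lit 0) (nat_lit 134049055077) (nat_lit 7) (nat_lit 5) (nat_lit 9) (nat_lit 4) (nat_lit 7) (nat_lit 4) (nat_lit 547) (nat_lit 400) (nat_lit 253)) (XT.lf (nat_lit 0) (nat_lit 205005718320) (nat_lit 152) (nat_lit 214529674146) (nat_lit 0) (nat_lit 195888619085) (nat_lit 7) (nat_lit 5) (nat_lit 9) (nat_lit 4) (nat_lit 7) (nat_lit 4) (nat_lit 548) (nat_lit 400) (nat_lit 252)))) (XT.nd (nat_lit 156) (nat_lit 76) (nat_lit 0) (XT.nd (nat_lit 78) (nat_lit 0) (nat_lit 0) (XT.lf (nat_lit 0) (nat_lit 269933681411) (nat_lit 152) (nat_lit 112688527081) (nat_lit 0) (nat_lit 260816264533) (nat_lit 7) (nat_lit 5) (nat_lit 9) (nat_lit 4) (nat_lit 7) (nat_lit 4) (nat_lit 549) (nat_lit 400) (nat_lit 251)) (XT.lf (nat_lit 0) (nat_lit 338104300447) (nat_lit 152) (nat_lit 5762963185) (nat_lit 0) (nat_lit 328986581053) (nat_lit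 7) (nat_lit 5) (nat_lit 9) (nat_lit 4) (nat_lit 7) (nat_lit 4) (nat_lit 550) (nat_lit 400) (nat_lit 250))) (XT.nd (nat_lit 78) (nat_lit 0) (nat_lit 0) (XT.lf (nat_lit 0) (nat_lit 110023026161) (nat_lit 76) (nat_lit 301374628044) (nat_lit 76) (nat_lit 292256620538) (nat_lit 6) (nat_lit 4) (nat_lit 7) (nat_lit 5) (nat_lit 7) (nat_lit 4) (nat_lit 551) (nat_lit 400) (nat_lit 249)) (XT.nd (nat_lit 78) (nat_lit 0) (nat_lit 0) (XT.lf (nat_lit 0) (nat_lit 231791232721) (nat_lit 76) (nat_lit 256658535429) (nat_lit 76) (nat_lit 247540253532) (nat_lit 6) (nat_lit 4) (nat_lit 7) (nat_lit 5) (nat_lit 7) (nat_lit 4) (nat_lit 552) (nat_lit 400) (nat_lit 248)) (XT.lf (nat_lit 0) (nat_lit 359641031208) (nat_lit 76) (nat_lit 209710117470) (nat_lit 76) (nat_lit 200591574248) (nat_lit 6) (nat_lit 4) (nat_lit 7) (nat_lit 5) (nat_lit 7) (nat_lit 4) (nat_lit 553) (nat_lit 400) (nat_lit 247))))))))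
noncomputable def xc191 : XT := (XT.nd (nat_lit 51636) (nat_lit 0) (nat_lit 8436) (XT.nd (nat_lit 51012) (nat_lit 0) (nat_lit 13832) (XT.nd (nat_lit 50700) (nat_lit 0) (nat_lit 15656) (XT.nd (nat_lit 50544) (nat_lit 0) (nat_lit 16188) (XT.nd (nat_lit 78) (nat_lit 0) (nat_lit 0) (XT.lf (nat_lit 0) (nat_lit 493876825903) (nat_lit 76) (nat_lit 160417592221) (nat_lit 76) (nat_lit 151298800117) (nat_lit 6) (nat_lit 4) (nat_lit 7) (nat_lit 5) (nat_lit 7) (nat_lit 4) (nat_lit 554) (nat_lit 400) (nat_lit 246)) (XT.lf (nat_lit 0) (nat_lit 634818225840) (nat_lit 76) (nat_lit 108663596525) (nat_lit 76) (nat_lit 99544567391) (nat_lit 6) (nat_lit 4) (nat_lit 7) (nat_lit 5) (nat_lit 7) (nat_lit 4) (nat_lit 555) (nat_lit 400) (nat_lit 245))) (XT.nd (nat_lit 78) (nat_lit 228) (nat_lit 0) (XT.lf (nat_lit 0) (nat_lit 1555214832) (nat_lit 0) (nat_lit 1555214832) (nat_lit 76) (nat_lit 115875056) (nat_lit 222) (nat_lit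 5) (nat_lit 222) (nat_lit 3) (nat_lit 223) (nat_lit 0) (nat_lit 401) (nat_lit 401) (nat_lit 398)) (XT.lf (nat_lit 0) (nat_lit 2683451008) (nat_lit 228) (nat_lit 121919243) (nat_lit 228) (nat_lit 3662666123) (nat_lit 219) (nat_lit 3) (nat_lit 222) (nat_lit 3) (nat_lit 222) (nat_lit 5) (nat_lit 402) (nat_lit 401) (nat_lit 397)))) (XT.nd (nat_lit 156) (nat_lit 304) (nat_lit 0) (XT.nd (nat_lit 78) (nat_lit 228) (nat_lit 0) (XT.lf (nat_lit 76) (nat_lit 3262038737) (nat_lit 0) (nat_lit 2339021215) (nat_lit 228) (nat_lit 889788806) (nat_lit 220) (nat_lit 5) (nat_lit 219) (nat_lit 3) (nat_lit 222) (nat_lit 5) (nat_lit 403) (nat_lit 401) (nat_lit 396)) (XT.lf (nat_lit 76) (nat_lit 174324511) (nat_lit 0) (nat_lit 1729360820) (nat_lit 304) (nat_lit 4618324562) (nat_lit 217) (nat_lit 5) (nat_lit 216) (nat_lit 5) (nat_lit 220) (nat_lit 5) (nat_lit 404) (nat_lit 401) (nat_lit 395))) (XT.nd (nat_lit 78) (nat_lit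 304) (nat_lit 0) (XT.lf (nat_lit 76) (nat_lit 3743908770) (nat_lit 0) (nat_lit 942488238) (nat_lit 304) (nat_lit 1873651759) (nat_lit 217) (nat_lit 5) (nat_lit 216) (nat_lit 5) (nat_lit 220) (nat_lit 5) (nat_lit 405) (nat_lit 401) (nat_lit 394)) (XT.lf (nat_lit 76) (nat_lit 800295966) (nat_lit 0) (nat_lit 18783351) (nat_lit 380) (nat_lit 5787988700) (nat_lit 213) (nat_lit 5) (nat_lit 212) (nat_lit 5) (nat_lit 217) (nat_lit 5) (nat_lit 406) (nat_lit 401) (nat_lit 393))))) (XT.nd (nat_lit 312) (nat_lit 1140) (nat_lit 0) (XT.nd (nat_lit 156) (nat_lit 456) (nat_lit 0) (XT.nd (nat_lit 78) (nat_lit 304) (nat_lit 0) (XT.lf (nat_lit 0) (nat_lit 3484893936) (nat_lit 304) (nat_lit 2114145288) (nat_lit 76) (nat_lit 1060811834) (nat_lit 213) (nat_lit 5) (nat_lit 217) (nat_lit 5) (nat_lit 214) (nat_lit 5) (nat_lit 407) (nat_lit 401) (nat_lit 392)) (XT.lf (nat_lit 0) (nat_lit 1713781801) (nat_lit 304) (nat_lit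 4443082331) (nat_lit 380) (nat_lit 564784258) (nat_lit 209) (nat_lit 5) (nat_lit 213) (nat_lit 5) (nat_lit 214) (nat_lit 5) (nat_lit 408) (nat_lit 401) (nat_lit 391))) (XT.nd (nat_lit 78) (nat_lit 380) (nat_lit 0) (XT.lf (nat_lit 0) (nat_lit 1991742597) (nat_lit 380) (nat_lit 1120006230) (nat_lit 76) (nat_lit 3678830465) (nat_lit 208) (nat_lit 5) (nat_lit 213) (nat_lit 5) (nat_lit 209) (nat_lit 5) (nat_lit 409) (nat_lit 401) (nat_lit 390)) (XT.lf (nat_lit 0) (nat_lit 2945151011) (nat_lit 380) (nat_lit 1614228892) (nat_lit 456) (nat_lit 2308016552) (nat_lit 203) (nat_lit 5) (nat_lit 208) (nat_lit 5) (nat_lit 209) (nat_lit 5) (nat_lit 410) (nat_lit 401) (nat_lit 389)))) (XT.nd (nat_lit 156) (nat_lit 608) (nat_lit 0) (XT.nd (nat_lit 78) (nat_lit 0) (nat_lit 0) (XT.lf (nat_lit 0) (nat_lit 179556141) (nat_lit 532) (nat_lit 6752528335) (nat_lit 76) (nat_lit 21642055) (nat_lit 196) (nat_lit 5) (nat_lit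 203) (nat_lit 5) (nat_lit 197) (nat_lit 5) (nat_lit 411) (nat_lit 401) (nat_lit 388)) (XT.lf (nat_lit 0) (nat_lit 2672782891) (nat_lit 532) (nat_lit 2550178805) (nat_lit 76) (nat_lit 1821591322) (nat_lit 196) (nat_lit 5) (nat_lit 203) (nat_lit 5) (nat_lit 197) (nat_lit 5) (nat_lit 412) (nat_lit 401) (nat_lit 387))) (XT.nd (nat_lit 78) (nat_lit 76) (nat_lit 0) (XT.lf (nat_lit 0) (nat_lit 1814925303) (nat_lit 532) (nat_lit 3375379918) (nat_lit 608) (nat_lit 1954646963) (nat_lit 189) (nat_lit 5) (nat_lit 196) (nat_lit 5) (nat_lit 197) (nat_lit 5) (nat_lit 413) (nat_lit 401) (nat_lit 386)) (XT.lf (nat_lit 0) (nat_lit 482317591) (nat_lit 608) (nat_lit 879143232) (nat_lit 76) (nat_lit 5892584188) (nat_lit 188) (nat_lit 5) (nat_lit 196) (nat_lit 5) (nat_lit 189) (nat_lit 5) (nat_lit 414) (nat_lit 401) (nat_lit 385)))))) (XT.nd (nat_lit 624) (nat_lit 1976) (nat_lit 0) (XT.nd (nat_lit 312) (nat_lit 1292)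 (nat_lit 0) (XT.nd (nat_lit 156) (nat_lit 836) (nat_lit 0) (XT.nd (nat_lit 78) (nat_lit 684) (nat_lit 0) (XT.lf (nat_lit 0) (nat_lit 2927759091) (nat_lit 684) (nat_lit 3603143967) (nat_lit 76) (nat_lit 838482654) (nat_lit 180) (nat_lit 5) (nat_lit 189) (nat_lit 5) (nat_lit 181) (nat_lit 5) (nat_lit 415) (nat_lit 401) (nat_lit 384)) (XT.lf (nat_lit 0) (nat_lit 1089798761) (nat_lit 684) (nat_lit 4344290481) (nat_lit 760) (nat_lit 2059484128) (nat_lit 171) (nat_lit 5) (nat_lit 180) (nat_lit 5) (nat_lit 181) (nat_lit 5) (nat_lit 416) (nat_lit 401) (nat_lit 383))) (XT.nd (nat_lit 78) (nat_lit 760) (nat_lit 0) (XT.lf (nat_lit 0) (nat_lit 375822028) (nat_lit 760) (nat_lit 1595567086) (nat_lit 76) (nat_lit 5654836399) (nat_lit 170) (nat_lit 5) (nat_lit 180) (nat_lit 5) (nat_lit 171) (nat_lit 5) (nat_lit 417) (nat_lit 401) (nat_lit 382)) (XT.lf (nat_lit 0) (nat_lit 2818367440) (nat_lit 836) (nat_lit 4351321718)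 (nat_lit 76) (nat_lit 596407981) (nat_lit 160) (nat_lit 5) (nat_lit 171) (nat_lit 5) (nat_lit 161) (nat_lit 5) (nat_lit 418) (nat_lit 401) (nat_lit 381)))) (XT.nd (nat_lit 156) (nat_lit 836) (nat_lit 0) (XT.nd (nat_lit 78) (nat_lit 0) (nat_lit 0) (XT.lf (nat_lit 0) (nat_lit 701466593) (nat_lit 456) (nat_lit 4647505651) (nat_lit 532) (nat_lit 2565702340) (nat_lit 154) (nat_lit 5) (nat_lit 160) (nat_lit 5) (nat_lit 161) (nat_lit 5) (nat_lit 419) (nat_lit 401) (nat_lit 380)) (XT.lf (nat_lit 0) (nat_lit 6052056385) (nat_lit 456) (nat_lit 1926277468) (nat_lit 532) (nat_lit 93744144) (nat_lit 154) (nat_lit 5) (nat_lit 160) (nat_lit 5) (nat_lit 161) (nat_lit 5) (nat_lit 420) (nat_lit 401) (nat_lit 379))) (XT.nd (nat_lit 78) (nat_lit 380) (nat_lit 0) (XT.lf (nat_lit 0) (nat_lit 2392525585) (nat_lit 456) (nat_lit 4855202335) (nat_lit 76) (nat_lit 989138923) (nat_lit 148) (nat_lit 5) (nat_lit 154) (nat_lit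 5) (nat_lit 149) (nat_lit 5) (nat_lit 421) (nat_lit 401) (nat_lit 378)) (XT.lf (nat_lit 0) (nat_lit 593614590) (nat_lit 380) (nat_lit 4386699741) (nat_lit 456) (nat_lit 3430493439) (nat_lit 143) (nat_lit 5) (nat_lit 148) (nat_lit 5) (nat_lit 149) (nat_lit 5) (nat_lit 422) (nat_lit 401) (nat_lit 377))))) (XT.nd (nat_lit 312) (nat_lit 1292) (nat_lit 0) (XT.nd (nat_lit 156) (nat_lit 304) (nat_lit 0) (XT.nd (nat_lit 78) (nat_lit 380) (nat_lit 0) (XT.lf (nat_lit 0) (nat_lit 6378071531) (nat_lit 380) (nat_lit 1309276210) (nat_lit 456) (nat_lit 906612171) (nat_lit 143) (nat_lit 5) (nat_lit 148) (nat_lit 5) (nat_lit 149) (nat_lit 5) (nat_lit 423) (nat_lit 401) (nat_lit 376)) (XT.lf (nat_lit 0) (nat_lit 1686429050) (nat_lit 380) (nat_lit 5165872651) (nat_lit 76) (nat_lit 1932674847) (nat_lit 138) (nat_lit 5) (nat_lit 143) (nat_lit 5) (nat_lit 139) (nat_lit 5) (nat_lit 424) (nat_lit 401) (nat_lit 375)))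 (XT.nd (nat_lit 78) (nat_lit 0) (nat_lit 0) (XT.lf (nat_lit 0) (nat_lit 719441364) (nat_lit 304) (nat_lit 3643069942) (nat_lit 380) (nat_lit 4623102717) (nat_lit 134) (nat_lit 5) (nat_lit 138) (nat_lit 5) (nat_lit 139) (nat_lit 5) (nat_lit 425) (nat_lit 401) (nat_lit 374)) (XT.lf (nat_lit 0) (nat_lit 6974321419) (nat_lit 304) (nat_lit 201099016) (nat_lit 380) (nat_lit 2020717500) (nat_lit 134) (nat_lit 5) (nat_lit 138) (nat_lit 5) (nat_lit 139) (nat_lit 5) (nat_lit 426) (nat_lit 401) (nat_lit 373)))) (XT.nd (nat_lit 156) (nat_lit 608) (nat_lit 0) (XT.nd (nat_lit 78) (nat_lit 304) (nat_lit 0) (XT.lf (nat_lit 0) (nat_lit 726162994) (nat_lit 380) (nat_lit 5327213752) (nat_lit 76) (nat_lit 3361402935) (nat_lit 129) (nat_lit 5) (nat_lit 134) (nat_lit 5) (nat_lit 130) (nat_lit 5) (nat_lit 427) (nat_lit 401) (nat_lit 372)) (XT.lf (nat_lit 0) (nat_lit 1039499835) (nat_lit 304) (nat_lit 2480989520) (nat_lit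 380) (nat_lit 6123312198) (nat_lit 125) (nat_lit 5) (nat_lit 129) (nat_lit 5) (nat_lit 130) (nat_lit 5) (nat_lit 428) (nat_lit 401) (nat_lit 371))) (XT.nd (nat_lit 78) (nat_lit 608) (nat_lit 0) (XT.lf (nat_lit 0) (nat_lit 6488118720) (nat_lit 380) (nat_lit 2097209861) (nat_lit 76) (nat_lit 1297271293) (nat_lit 125) (nat_lit 5) (nat_lit 130) (nat_lit 5) (nat_lit 126) (nat_lit 5) (nat_lit 429) (nat_lit 401) (nat_lit 370)) (XT.nd (nat_lit 78) (nat_lit 380) (nat_lit 0) (XT.lf (nat_lit 0) (nat_lit 4745855255) (nat_lit 228) (nat_lit 4898813995) (nat_lit 304) (nat_lit 486646343) (nat_lit 122) (nat_lit 5) (nat_lit 125) (nat_lit 5) (nat_lit 126) (nat_lit 5) (nat_lit 430) (nat_lit 401) (nat_lit 369)) (XT.lf (nat_lit 0) (nat_lit 1519765415) (nat_lit 304) (nat_lit 951068051) (nat_lit 380) (nat_lit 7920314116) (nat_lit 117) (nat_lit 5) (nat_lit 121) (nat_lit 5) (nat_lit 122) (nat_lit 5) (nat_lit 431) (nat_lit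 401) (nat_lit 368))))))))
noncomputable def xc192 : XT := (XT.nd (nat_lit 1248) (nat_lit 1672) (nat_lit 0) (XT.nd (nat_lit 624) (nat_lit 988) (nat_lit 0) (XT.nd (nat_lit 312) (nat_lit 608) (nat_lit 0) (XT.nd (nat_lit 156) (nat_lit 304) (nat_lit 0) (XT.nd (nat_lit 78) (nat_lit 228) (nat_lit 0) (XT.lf (nat_lit 0) (nat_lit 5630471156) (nat_lit 380) (nat_lit 1864445158) (nat_lit 76) (nat_lit 3165127904) (nat_lit 117) (nat_lit 5) (nat_lit 122) (nat_lit 5) (nat_lit 118) (nat_lit 5) (nat_lit 432) (nat_lit 401) (nat_lit 367)) (XT.lf (nat_lit 0) (nat_lit 5557093450) (nat_lit 228) (nat_lit 3424845163) (nat_lit 304) (nat_lit 1958758353) (nat_lit 114) (nat_lit 5) (nat_lit 117) (nat_lit 5) (nat_lit 118) (nat_lit 5) (nat_lit 433) (nat_lit 401) (nat_lit 366))) (XT.nd (nat_lit 78) (nat_lit 0) (nat_lit 0) (XT.lf (nat_lit 0) (nat_lit 1236754332) (nat_lit 304) (nat_lit 9118843027) (nat_lit 76) (nat_lit 878217137)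 (nat_lit 110) (nat_lit 5) (nat_lit 114) (nat_lit 5) (nat_lit 111) (nat_lit 5) (nat_lit 434) (nat_lit 401) (nat_lit 365)) (XT.lf (nat_lit 0) (nat_lit 4608414408) (nat_lit 304) (nat_lit 1551314059) (nat_lit 76) (nat_lit 5376147127) (nat_lit 110) (nat_lit 5) (nat_lit 114) (nat_lit 5) (nat_lit 111) (nat_lit 5) (nat_lit 435) (nat_lit 401) (nat_lit 364)))) (XT.nd (nat_lit 156) (nat_lit 228) (nat_lit 0) (XT.nd (nat_lit 78) (nat_lit 228) (nat_lit 0) (XT.lf (nat_lit 0) (nat_lit 6507720812) (nat_lit 152) (nat_lit 1679097857) (nat_lit 228) (nat_lit 3664316041) (nat_lit 108) (nat_lit 5) (nat_lit 110) (nat_lit 5) (nat_lit 111) (nat_lit 5) (nat_lit 436) (nat_lit 401) (nat_lit 363)) (XT.lf (nat_lit 0) (nat_lit 2788064701) (nat_lit 228) (nat_lit 9211169651) (nat_lit 304) (nat_lit 180170749) (nat_lit 105) (nat_lit 5) (nat_lit 108) (nat_lit 5) (nat_lit 109) (nat_lit 5) (nat_lit 437) (nat_lit 401) (nat_lit 362)))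 (XT.nd (nat_lit 78) (nat_lit 152) (nat_lit 0) (XT.lf (nat_lit 0) (nat_lit 3424473992) (nat_lit 304) (nat_lit 1187971505) (nat_lit 76) (nat_lit 7906050132) (nat_lit 104) (nat_lit 5) (nat_lit 108) (nat_lit 5) (nat_lit 105) (nat_lit 5) (nat_lit 438) (nat_lit 401) (nat_lit 361)) (XT.lf (nat_lit 0) (nat_lit 7267434044) (nat_lit 228) (nat_lit 5303399718) (nat_lit 76) (nat_lit 300354829) (nat_lit 102) (nat_lit 5) (nat_lit 105) (nat_lit 5) (nat_lit 103) (nat_lit 5) (nat_lit 439) (nat_lit 401) (nat_lit 360))))) (XT.nd (nat_lit 312) (nat_lit 380) (nat_lit 0) (XT.nd (nat_lit 156) (nat_lit 304) (nat_lit 0) (XT.nd (nat_lit 78) (nat_lit 76) (nat_lit 0) (XT.lf (nat_lit 0) (nat_lit 3505325786) (nat_lit 228) (nat_lit 7889941757) (nat_lit 304) (nat_lit 1841614753) (nat_lit 99) (nat_lit 5) (nat_lit 102) (nat_lit 5) (nat_lit 103) (nat_lit 5) (nat_lit 440) (nat_lit 401) (nat_lit 359)) (XT.lf (nat_lit 0) (nat_lit 2074769971)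 (nat_lit 304) (nat_lit 805556650) (nat_lit 76) (nat_lit 10737208765) (nat_lit 98) (nat_lit 5) (nat_lit 102) (nat_lit 5) (nat_lit 99) (nat_lit 5) (nat_lit 441) (nat_lit 401) (nat_lit 358))) (XT.nd (nat_lit 78) (nat_lit 152) (nat_lit 0) (XT.lf (nat_lit 0) (nat_lit 6245772208) (nat_lit 228) (nat_lit 5324084852) (nat_lit 76) (nat_lit 2439822165) (nat_lit 96) (nat_lit 5) (nat_lit 99) (nat_lit 5) (nat_lit 97) (nat_lit 5) (nat_lit 442) (nat_lit 401) (nat_lit 357)) (XT.lf (nat_lit 0) (nat_lit 4257675442) (nat_lit 152) (nat_lit 6441013044) (nat_lit 228) (nat_lit 3719075524) (nat_lit 94) (nat_lit 5) (nat_lit 96) (nat_lit 5) (nat_lit 97) (nat_lit 5) (nat_lit 443) (nat_lit 401) (nat_lit 356)))) (XT.nd (nat_lit 156) (nat_lit 152) (nat_lit 0) (XT.nd (nat_lit 78) (nat_lit 152) (nat_lit 0) (XT.lf (nat_lit 0) (nat_lit 548880158) (nat_lit 228) (nat_lit 438115301) (nat_lit 76) (nat_lit 13856958073) (nat_lit 93) (nat_lit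 5) (nat_lit 96) (nat_lit 5) (nat_lit 94) (nat_lit 5) (nat_lit 444) (nat_lit 401) (nat_lit 355)) (XT.lf (nat_lit 0) (nat_lit 5086171615) (nat_lit 228) (nat_lit 5418766641) (nat_lit 76) (nat_lit 4774421372) (nat_lit 91) (nat_lit 5) (nat_lit 94) (nat_lit 5) (nat_lit 92) (nat_lit 5) (nat_lit 445) (nat_lit 401) (nat_lit 354))) (XT.nd (nat_lit 78) (nat_lit 0) (nat_lit 0) (XT.lf (nat_lit 0) (nat_lit 5011044341) (nat_lit 152) (nat_lit 4890536313) (nat_lit 228) (nat_lit 5832394326) (nat_lit 89) (nat_lit 5) (nat_lit 91) (nat_lit 5) (nat_lit 92) (nat_lit 5) (nat_lit 446) (nat_lit 401) (nat_lit 353)) (XT.lf (nat_lit 0) (nat_lit 15016550619) (nat_lit 228) (nat_lit 160307506) (nat_lit 76) (nat_lit 1031524978) (nat_lit 89) (nat_lit 5) (nat_lit 92) (nat_lit 5) (nat_lit 90) (nat_lit 4) (nat_lit 447) (nat_lit 401) (nat_lit 352)))))) (XT.nd (nat_lit 624) (nat_lit 684) (nat_lit 0) (XT.nd (nat_lit 312) (nat_lit 456)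 (nat_lit 0) (XT.nd (nat_lit 156) (nat_lit 152) (nat_lit 0) (XT.nd (nat_lit 78) (nat_lit 152) (nat_lit 0) (XT.lf (nat_lit 0) (nat_lit 3772390982) (nat_lit 228) (nat_lit 5633480100) (nat_lit 76) (nat_lit 7287296550) (nat_lit 86) (nat_lit 5) (nat_lit 89) (nat_lit 5) (nat_lit 87) (nat_lit 5) (nat_lit 448) (nat_lit 401) (nat_lit 351)) (XT.lf (nat_lit 0) (nat_lit 5724879172) (nat_lit 152) (nat_lit 3264491369) (nat_lit 228) (nat_lit 8209615338) (nat_lit 84) (nat_lit 5) (nat_lit 86) (nat_lit 5) (nat_lit 87) (nat_lit 5) (nat_lit 449) (nat_lit 401) (nat_lit 350))) (XT.nd (nat_lit 78) (nat_lit 152) (nat_lit 0) (XT.lf (nat_lit 0) (nat_lit 14566778810) (nat_lit 228) (nat_lit 13266573) (nat_lit 76) (nat_lit 3145071926) (nat_lit 84) (nat_lit 5) (nat_lit 87) (nat_lit 5) (nat_lit 85) (nat_lit 4) (nat_lit 450) (nat_lit 401) (nat_lit 349)) (XT.lf (nat_lit 0) (nat_lit 2280511890) (nat_lit 152) (nat_lit 6023593695)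 (nat_lit 76) (nat_lit 9961592040) (nat_lit 82) (nat_lit 5) (nat_lit 84) (nat_lit 5) (nat_lit 83) (nat_lit 5) (nat_lit 451) (nat_lit 401) (nat_lit 348)))) (XT.nd (nat_lit 156) (nat_lit 304) (nat_lit 0) (XT.nd (nat_lit 78) (nat_lit 0) (nat_lit 0) (XT.lf (nat_lit 0) (nat_lit 6349212151) (nat_lit 152) (nat_lit 1590645934) (nat_lit 228) (nat_lit 10888126448) (nat_lit 80) (nat_lit 5) (nat_lit 82) (nat_lit 5) (nat_lit 83) (nat_lit 5) (nat_lit 452) (nat_lit 401) (nat_lit 347)) (XT.lf (nat_lit 0) (nat_lit 14026779114) (nat_lit 228) (nat_lit 30390957) (nat_lit 76) (nat_lit 5353986371) (nat_lit 80) (nat_lit 5) (nat_lit 83) (nat_lit 5) (nat_lit 81) (nat_lit 4) (nat_lit 453) (nat_lit 401) (nat_lit 346))) (XT.nd (nat_lit 78) (nat_lit 152) (nat_lit 0) (XT.lf (nat_lit 0) (nat_lit 577652657) (nat_lit 152) (nat_lit 6657235406) (nat_lit 76) (nat_lit 12778505724) (nat_lit 78) (nat_lit 5) (nat_lit 80) (nat_lit 5) (nat_lit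 79) (nat_lit 5) (nat_lit 454) (nat_lit 401) (nat_lit 345)) (XT.lf (nat_lit 0) (nat_lit 6723372186) (nat_lit 228) (nat_lit 13818565232) (nat_lit 76) (nat_lit 96066128) (nat_lit 76) (nat_lit 5) (nat_lit 79) (nat_lit 5) (nat_lit 77) (nat_lit 4) (nat_lit 455) (nat_lit 401) (nat_lit 344))))) (XT.nd (nat_lit 312) (nat_lit 380) (nat_lit 0) (XT.nd (nat_lit 156) (nat_lit 228) (nat_lit 0) (XT.nd (nat_lit 78) (nat_lit 76) (nat_lit 0) (XT.lf (nat_lit 0) (nat_lit 13367843235) (nat_lit 228) (nat_lit 284237251) (nat_lit 76) (nat_lit 7632190882) (nat_lit 76) (nat_lit 5) (nat_lit 79) (nat_lit 5) (nat_lit 77) (nat_lit 4) (nat_lit 456) (nat_lit 401) (nat_lit 343)) (XT.lf (nat_lit 0) (nat_lit 14311878960) (nat_lit 76) (nat_lit 6216363666) (nat_lit 152) (nat_lit 1425425524) (nat_lit 75) (nat_lit 5) (nat_lit 76) (nat_lit 5) (nat_lit 77) (nat_lit 4) (nat_lit 457) (nat_lit 401) (nat_lit 342))) (XT.nd (nat_lit 78) (nat_lit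 0) (nat_lit 0) (XT.lf (nat_lit 0) (nat_lit 5320701516) (nat_lit 228) (nat_lit 15616164509) (nat_lit 76) (nat_lit 1710307129) (nat_lit 72) (nat_lit 5) (nat_lit 75) (nat_lit 5) (nat_lit 73) (nat_lit 4) (nat_lit 458) (nat_lit 401) (nat_lit 341)) (XT.lf (nat_lit 0) (nat_lit 12550311830) (nat_lit 228) (nat_lit 866904930) (nat_lit 76) (nat_lit 9947264939) (nat_lit 72) (nat_lit 5) (nat_lit 75) (nat_lit 5) (nat_lit 73) (nat_lit 4) (nat_lit 459) (nat_lit 401) (nat_lit 340)))) (XT.nd (nat_lit 156) (nat_lit 76) (nat_lit 0) (XT.nd (nat_lit 78) (nat_lit 228) (nat_lit 0) (XT.lf (nat_lit 0) (nat_lit 15031020733) (nat_lit 76) (nat_lit 5307566827) (nat_lit 152) (nat_lit 3769209530) (nat_lit 71) (nat_lit 5) (nat_lit 72) (nat_lit 5) (nat_lit 73) (nat_lit 4) (nat_lit 460) (nat_lit 401) (nat_lit 339)) (XT.lf (nat_lit 0) (nat_lit 3650646226) (nat_lit 228) (nat_lit 17971302257) (nat_lit 76) (nat_lit 3256559912) (nat_lit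 68) (nat_lit 5) (nat_lit 71) (nat_lit 5) (nat_lit 69) (nat_lit 4) (nat_lit 461) (nat_lit 401) (nat_lit 338))) (XT.nd (nat_lit 78) (nat_lit 76) (nat_lit 0) (XT.lf (nat_lit 0) (nat_lit 11520892794) (nat_lit 228) (nat_lit 1896071943) (nat_lit 76) (nat_lit 12257398177) (nat_lit 68) (nat_lit 5) (nat_lit 71) (nat_lit 5) (nat_lit 69) (nat_lit 4) (nat_lit 462) (nat_lit 401) (nat_lit 337)) (XT.lf (nat_lit 0) (nat_lit 15409259081) (nat_lit 76) (nat_lit 4580564133) (nat_lit 152) (nat_lit 6509928918) (nat_lit 67) (nat_lit 5) (nat_lit 68) (nat_lit 5) (nat_lit 69) (nat_lit 4) (nat_lit 463) (nat_lit 401) (nat_lit 336)))))))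
noncomputable def xc193 : XT := (XT.nd (nat_lit 1248) (nat_lit 1140) (nat_lit 0) (XT.nd (nat_lit 624) (nat_lit 532) (nat_lit 0) (XT.nd (nat_lit 312) (nat_lit 304) (nat_lit 0) (XT.nd (nat_lit 156) (nat_lit 152) (nat_lit 0) (XT.nd (nat_lit 78) (nat_lit 0) (nat_lit 0) (XT.lf (nat_lit 0) (nat_lit 1639834870) (nat_lit 152) (nat_lit 21041375947) (nat_lit 76) (nat_lit 4675389192) (nat_lit 65) (nat_lit 5) (nat_lit 67) (nat_lit 5) (nat_lit 66) (nat_lit 4) (nat_lit 464) (nat_lit 401) (nat_lit 335)) (XT.lf (nat_lit 0) (nat_lit 10209149154) (nat_lit 152) (nat_lit 3522636127) (nat_lit 76) (nat_lit 14507627534) (nat_lit 65) (nat_lit 5) (nat_lit 67) (nat_lit 5) (nat_lit 66) (nat_lit 4) (nat_lit 465) (nat_lit 401) (nat_lit 334))) (XT.nd (nat_lit 78) (nat_lit 76) (nat_lit 0) (XT.lf (nat_lit 0) (nat_lit 15297749463) (nat_lit 76) (nat_lit 4114539916) (nat_lit 152) (nat_lit 9743809324) (nat_lit 64) (nat_lit 5) (nat_lit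 65) (nat_lit 5) (nat_lit 66) (nat_lit 4) (nat_lit 466) (nat_lit 401) (nat_lit 333)) (XT.lf (nat_lit 0) (nat_lit 5069618442) (nat_lit 76) (nat_lit 24205838295) (nat_lit 76) (nat_lit 833169069) (nat_lit 63) (nat_lit 4) (nat_lit 64) (nat_lit 5) (nat_lit 64) (nat_lit 4) (nat_lit 467) (nat_lit 401) (nat_lit 332)))) (XT.nd (nat_lit 156) (nat_lit 152) (nat_lit 0) (XT.nd (nat_lit 78) (nat_lit 76) (nat_lit 0) (XT.lf (nat_lit 0) (nat_lit 8522940511) (nat_lit 152) (nat_lit 5940422513) (nat_lit 76) (nat_lit 16625126901) (nat_lit 62) (nat_lit 5) (nat_lit 64) (nat_lit 5) (nat_lit 63) (nat_lit 4) (nat_lit 468) (nat_lit 401) (nat_lit 331)) (XT.lf (nat_lit 0) (nat_lit 14502532004) (nat_lit 76) (nat_lit 4011062899) (nat_lit 152) (nat_lit 13593332827) (nat_lit 61) (nat_lit 5) (nat_lit 62) (nat_lit 5) (nat_lit 63) (nat_lit 4) (nat_lit 469) (nat_lit 401) (nat_lit 330))) (XT.nd (nat_lit 78) (nat_lit 76) (nat_lit 0)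 (XT.lf (nat_lit 0) (nat_lit 2924656459) (nat_lit 76) (nat_lit 26304198547) (nat_lit 76) (nat_lit 3936179124) (nat_lit 60) (nat_lit 4) (nat_lit 61) (nat_lit 5) (nat_lit 61) (nat_lit 4) (nat_lit 470) (nat_lit 401) (nat_lit 329)) (XT.lf (nat_lit 0) (nat_lit 6342539646) (nat_lit 152) (nat_lit 9398541351) (nat_lit 76) (nat_lit 18513258776) (nat_lit 59) (nat_lit 5) (nat_lit 61) (nat_lit 5) (nat_lit 60) (nat_lit 4) (nat_lit 471) (nat_lit 401) (nat_lit 328))))) (XT.nd (nat_lit 312) (nat_lit 228) (nat_lit 0) (XT.nd (nat_lit 156) (nat_lit 228) (nat_lit 0) (XT.nd (nat_lit 78) (nat_lit 0) (nat_lit 0) (XT.lf (nat_lit 0) (nat_lit 12771290101) (nat_lit 76) (nat_lit 4401006213) (nat_lit 152) (nat_lit 18214119143) (nat_lit 58) (nat_lit 5) (nat_lit 59) (nat_lit 5) (nat_lit 60) (nat_lit 4) (nat_lit 472) (nat_lit 401) (nat_lit 327)) (XT.lf (nat_lit 0) (nat_lit 28792594957) (nat_lit 152) (nat_lit 369455251) (nat_lit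 0) (nat_lit 7400592300) (nat_lit 58) (nat_lit 5) (nat_lit 60) (nat_lit 4) (nat_lit 58) (nat_lit 4) (nat_lit 473) (nat_lit 401) (nat_lit 326))) (XT.nd (nat_lit 78) (nat_lit 76) (nat_lit 0) (XT.lf (nat_lit 0) (nat_lit 3513066762) (nat_lit 152) (nat_lit 14217141368) (nat_lit 76) (nat_lit 20044021023) (nat_lit 56) (nat_lit 5) (nat_lit 58) (nat_lit 5) (nat_lit 57) (nat_lit 4) (nat_lit 474) (nat_lit 401) (nat_lit 325)) (XT.lf (nat_lit 0) (nat_lit 9776440137) (nat_lit 76) (nat_lit 5453321702) (nat_lit 152) (nat_lit 23803737170) (nat_lit 55) (nat_lit 5) (nat_lit 56) (nat_lit 5) (nat_lit 57) (nat_lit 4) (nat_lit 475) (nat_lit 401) (nat_lit 324)))) (XT.nd (nat_lit 156) (nat_lit 152) (nat_lit 0) (XT.nd (nat_lit 78) (nat_lit 76) (nat_lit 0) (XT.lf (nat_lit 0) (nat_lit 27864764369) (nat_lit 152) (nat_lit 5056241106) (nat_lit 0) (nat_lit 7418103488) (nat_lit 55) (nat_lit 5) (nat_lit 57) (nat_lit 4) (nat_lit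 55) (nat_lit 4) (nat_lit 476) (nat_lit 401) (nat_lit 323)) (XT.lf (nat_lit 0) (nat_lit 20880408689) (nat_lit 76) (nat_lit 20639492189) (nat_lit 76) (nat_lit 170679572) (nat_lit 54) (nat_lit 4) (nat_lit 55) (nat_lit 5) (nat_lit 55) (nat_lit 4) (nat_lit 477) (nat_lit 401) (nat_lit 322))) (XT.nd (nat_lit 78) (nat_lit 0) (nat_lit 0) (XT.lf (nat_lit 0) (nat_lit 5093525156) (nat_lit 76) (nat_lit 7386199070) (nat_lit 152) (nat_lit 30612970933) (nat_lit 52) (nat_lit 5) (nat_lit 53) (nat_lit 5) (nat_lit 54) (nat_lit 4) (nat_lit 478) (nat_lit 401) (nat_lit 321)) (XT.lf (nat_lit 0) (nat_lit 26190152563) (nat_lit 152) (nat_lit 11696143792) (nat_lit 0) (nat_lit 6656817528) (nat_lit 52) (nat_lit 5) (nat_lit 54) (nat_lit 4) (nat_lit 52) (nat_lit 4) (nat_lit 479) (nat_lit 401) (nat_lit 320)))))) (XT.nd (nat_lit 624) (nat_lit 608) (nat_lit 0) (XT.nd (nat_lit 312) (nat_lit 228) (nat_lit 0) (XT.nd (nat_lit 156) (nat_lit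 152) (nat_lit 0) (XT.nd (nat_lit 78) (nat_lit 76) (nat_lit 0) (XT.lf (nat_lit 0) (nat_lit 16271042134) (nat_lit 76) (nat_lit 24664548259) (nat_lit 76) (nat_lit 5112988935) (nat_lit 51) (nat_lit 4) (nat_lit 52) (nat_lit 5) (nat_lit 52) (nat_lit 4) (nat_lit 480) (nat_lit 401) (nat_lit 319)) (XT.lf (nat_lit 0) (nat_lit 8683402088) (nat_lit 152) (nat_lit 1767941508) (nat_lit 76) (nat_lit 37162327470) (nat_lit 50) (nat_lit 5) (nat_lit 52) (nat_lit 5) (nat_lit 51) (nat_lit 4) (nat_lit 481) (nat_lit 401) (nat_lit 318))) (XT.nd (nat_lit 78) (nat_lit 76) (nat_lit 0) (XT.lf (nat_lit 0) (nat_lit 23495210532) (nat_lit 152) (nat_lit 20890339605) (nat_lit 0) (nat_lit 4842405050) (nat_lit 49) (nat_lit 5) (nat_lit 51) (nat_lit 4) (nat_lit 49) (nat_lit 4) (nat_lit 482) (nat_lit 401) (nat_lit 317)) (XT.lf (nat_lit 0) (nat_lit 9161423763) (nat_lit 76) (nat_lit 30206652603) (nat_lit 76) (nat_lit 11538853953) (nat_lit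 48) (nat_lit 4) (nat_lit 49) (nat_lit 5) (nat_lit 49) (nat_lit 4) (nat_lit 483) (nat_lit 401) (nat_lit 316)))) (XT.nd (nat_lit 156) (nat_lit 76) (nat_lit 0) (XT.nd (nat_lit 78) (nat_lit 76) (nat_lit 0) (XT.lf (nat_lit 0) (nat_lit 3592316718) (nat_lit 152) (nat_lit 11317828583) (nat_lit 76) (nat_lit 37740318510) (nat_lit 47) (nat_lit 5) (nat_lit 49) (nat_lit 5) (nat_lit 48) (nat_lit 4) (nat_lit 484) (nat_lit 401) (nat_lit 315)) (XT.lf (nat_lit 0) (nat_lit 19424189617) (nat_lit 152) (nat_lit 33412147321) (nat_lit 0) (nat_lit 1618782854) (nat_lit 46) (nat_lit 5) (nat_lit 48) (nat_lit 4) (nat_lit 46) (nat_lit 4) (nat_lit 485) (nat_lit 401) (nat_lit 314))) (XT.nd (nat_lit 78) (nat_lit 76) (nat_lit 0) (XT.lf (nat_lit 0) (nat_lit 36463789998) (nat_lit 152) (nat_lit 1219363689) (nat_lit 0) (nat_lit 18646048319) (nat_lit 46) (nat_lit 5) (nat_lit 48) (nat_lit 4) (nat_lit 46) (nat_lit 4) (nat_lit 486) (nat_lit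 401) (nat_lit 313)) (XT.lf (nat_lit 0) (nat_lit 33615034928) (nat_lit 76) (nat_lit 21243150983) (nat_lit 76) (nat_lit 3413661765) (nat_lit 45) (nat_lit 4) (nat_lit 46) (nat_lit 5) (nat_lit 46) (nat_lit 4) (nat_lit 487) (nat_lit 401) (nat_lit 312))))) (XT.nd (nat_lit 312) (nat_lit 304) (nat_lit 0) (XT.nd (nat_lit 156) (nat_lit 152) (nat_lit 0) (XT.nd (nat_lit 78) (nat_lit 0) (nat_lit 0) (XT.lf (nat_lit 0) (nat_lit 9981693781) (nat_lit 76) (nat_lit 3590194575) (nat_lit 152) (nat_lit 46721175156) (nat_lit 43) (nat_lit 5) (nat_lit 44) (nat_lit 5) (nat_lit 45) (nat_lit 4) (nat_lit 488) (nat_lit 401) (nat_lit 311)) (XT.lf (nat_lit 0) (nat_lit 31927799097) (nat_lit 152) (nat_lit 15526422991) (nat_lit 0) (nat_lit 14926529846) (nat_lit 43) (nat_lit 5) (nat_lit 45) (nat_lit 4) (nat_lit 43) (nat_lit 4) (nat_lit 489) (nat_lit 401) (nat_lit 310))) (XT.nd (nat_lit 78) (nat_lit 76) (nat_lit 0) (XT.lf (nat_lit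 0) (nat_lit 21587990511) (nat_lit 76) (nat_lit 29988509311) (nat_lit 76) (nat_lit 12977575331) (nat_lit 42) (nat_lit 4) (nat_lit 43) (nat_lit 5) (nat_lit 43) (nat_lit 4) (nat_lit 490) (nat_lit 401) (nat_lit 309)) (XT.lf (nat_lit 0) (nat_lit 5446010472) (nat_lit 152) (nat_lit 5855817016) (nat_lit 76) (nat_lit 55517725710) (nat_lit 41) (nat_lit 5) (nat_lit 43) (nat_lit 5) (nat_lit 42) (nat_lit 4) (nat_lit 491) (nat_lit 401) (nat_lit 308)))) (XT.nd (nat_lit 156) (nat_lit 152) (nat_lit 0) (XT.nd (nat_lit 78) (nat_lit 76) (nat_lit 0) (XT.lf (nat_lit 0) (nat_lit 25006449976) (nat_lit 152) (nat_lit 35360182076) (nat_lit 0) (nat_lit 8788445520) (nat_lit 40) (nat_lit 5) (nat_lit 42) (nat_lit 4) (nat_lit 40) (nat_lit 4) (nat_lit 492) (nat_lit 401) (nat_lit 307)) (XT.lf (nat_lit 0) (nat_lit 3927917375) (nat_lit 76) (nat_lit 41944520111) (nat_lit 76) (nat_lit 25718564458) (nat_lit 39) (nat_lit 4) (nat_lit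 40) (nat_lit 5) (nat_lit 40) (nat_lit 4) (nat_lit 493) (nat_lit 401) (nat_lit 306))) (XT.nd (nat_lit 78) (nat_lit 152) (nat_lit 0) (XT.lf (nat_lit 0) (nat_lit 46368767745) (nat_lit 76) (nat_lit 21992258986) (nat_lit 76) (nat_lit 5758730765) (nat_lit 39) (nat_lit 4) (nat_lit 40) (nat_lit 5) (nat_lit 40) (nat_lit 4) (nat_lit 494) (nat_lit 401) (nat_lit 305)) (XT.nd (nat_lit 78) (nat_lit 0) (nat_lit 0) (XT.lf (nat_lit 0) (nat_lit 14340355556) (nat_lit 76) (nat_lit 577252125) (nat_lit 152) (nat_lit 61835229241) (nat_lit 37) (nat_lit 5) (nat_lit 38) (nat_lit 5) (nat_lit 39) (nat_lit 4) (nat_lit 495) (nat_lit 401) (nat_lit 304)) (XT.lf (nat_lit 0) (nat_lit 37235074478) (nat_lit 152) (nat_lit 20476572110) (nat_lit 0) (nat_lit 21761161399) (nat_lit 37) (nat_lit 5) (nat_lit 39) (nat_lit 4) (nat_lit 37) (nat_lit 4) (nat_lit 496) (nat_lit 401) (nat_lit 303))))))))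
noncomputable def xc194 : XT := (XT.nd (nat_lit 1248) (nat_lit 760) (nat_lit 0) (XT.nd (nat_lit 624) (nat_lit 380) (nat_lit 0) (XT.nd (nat_lit 312) (nat_lit 304) (nat_lit 0) (XT.nd (nat_lit 156) (nat_lit 76) (nat_lit 0) (XT.nd (nat_lit 78) (nat_lit 76) (nat_lit 0) (XT.lf (nat_lit 0) (nat_lit 24287785193) (nat_lit 76) (nat_lit 36751300975) (nat_lit 76) (nat_lit 21271157924) (nat_lit 36) (nat_lit 4) (nat_lit 37) (nat_lit 5) (nat_lit 37) (nat_lit 4) (nat_lit 497) (nat_lit 401) (nat_lit 302)) (XT.lf (nat_lit 0) (nat_lit 1054425413) (nat_lit 152) (nat_lit 13324504258) (nat_lit 76) (nat_lit 70893317617) (nat_lit 35) (nat_lit 5) (nat_lit 37) (nat_lit 5) (nat_lit 36) (nat_lit 4) (nat_lit 498) (nat_lit 401) (nat_lit 301))) (XT.nd (nat_lit 78) (nat_lit 0) (nat_lit 0) (XT.lf (nat_lit 0) (nat_lit 24456695309) (nat_lit 152) (nat_lit 54171787646) (nat_lit 0) (nat_lit 9702669478) (nat_lit 34) (nat_lit 5) (nat_lit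 36) (nat_lit 4) (nat_lit 34) (nat_lit 4) (nat_lit 499) (nat_lit 401) (nat_lit 300)) (XT.lf (nat_lit 0) (nat_lit 49477046944) (nat_lit 152) (nat_lit 7325661832) (nat_lit 0) (nat_lit 34717895701) (nat_lit 34) (nat_lit 5) (nat_lit 36) (nat_lit 4) (nat_lit 34) (nat_lit 4) (nat_lit 500) (nat_lit 401) (nat_lit 299)))) (XT.nd (nat_lit 156) (nat_lit 152) (nat_lit 0) (XT.nd (nat_lit 78) (nat_lit 76) (nat_lit 0) (XT.lf (nat_lit 0) (nat_lit 43212953339) (nat_lit 76) (nat_lit 33193844665) (nat_lit 76) (nat_lit 18429812077) (nat_lit 33) (nat_lit 4) (nat_lit 34) (nat_lit 5) (nat_lit 34) (nat_lit 4) (nat_lit 501) (nat_lit 401) (nat_lit 298)) (XT.lf (nat_lit 0) (nat_lit 6270724803) (nat_lit 152) (nat_lit 1913695641) (nat_lit 76) (nat_lit 90123536501) (nat_lit 32) (nat_lit 5) (nat_lit 34) (nat_lit 5) (nat_lit 33) (nat_lit 4) (nat_lit 502) (nat_lit 401) (nat_lit 297))) (XT.nd (nat_lit 78) (nat_lit 76) (nat_lit 0)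 (XT.lf (nat_lit 0) (nat_lit 32677154844) (nat_lit 152) (nat_lit 50598571291) (nat_lit 0) (nat_lit 18607527214) (nat_lit 31) (nat_lit 5) (nat_lit 33) (nat_lit 4) (nat_lit 31) (nat_lit 4) (nat_lit 503) (nat_lit 401) (nat_lit 296)) (XT.lf (nat_lit 0) (nat_lit 1454209446) (nat_lit 76) (nat_lit 59124016361) (nat_lit 76) (nat_lit 45050372836) (nat_lit 30) (nat_lit 4) (nat_lit 31) (nat_lit 5) (nat_lit 31) (nat_lit 4) (nat_lit 504) (nat_lit 401) (nat_lit 295))))) (XT.nd (nat_lit 312) (nat_lit 152) (nat_lit 0) (XT.nd (nat_lit 156) (nat_lit 76) (nat_lit 0) (XT.nd (nat_lit 78) (nat_lit 152) (nat_lit 0) (XT.lf (nat_lit 0) (nat_lit 57835447163) (nat_lit 76) (nat_lit 32880574353) (nat_lit 76) (nat_lit 18803106166) (nat_lit 30) (nat_lit 4) (nat_lit 31) (nat_lit 5) (nat_lit 31) (nat_lit 4) (nat_lit 505) (nat_lit 401) (nat_lit 294)) (XT.lf (nat_lit 0) (nat_lit 3372935767) (nat_lit 76) (nat_lit 5141233251) (nat_lit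 152) (nat_lit 105081283065) (nat_lit 28) (nat_lit 5) (nat_lit 29) (nat_lit 5) (nat_lit 30) (nat_lit 4) (nat_lit 506) (nat_lit 401) (nat_lit 293))) (XT.nd (nat_lit 78) (nat_lit 76) (nat_lit 0) (XT.lf (nat_lit 0) (nat_lit 37814770690) (nat_lit 152) (nat_lit 55582055983) (nat_lit 0) (nat_lit 24400885163) (nat_lit 28) (nat_lit 5) (nat_lit 30) (nat_lit 4) (nat_lit 28) (nat_lit 4) (nat_lit 507) (nat_lit 401) (nat_lit 292)) (XT.lf (nat_lit 0) (nat_lit 1733159279) (nat_lit 76) (nat_lit 66944546133) (nat_lit 76) (nat_lit 53527514049) (nat_lit 27) (nat_lit 4) (nat_lit 28) (nat_lit 5) (nat_lit 28) (nat_lit 4) (nat_lit 508) (nat_lit 401) (nat_lit 291)))) (XT.nd (nat_lit 156) (nat_lit 76) (nat_lit 0) (XT.nd (nat_lit 78) (nat_lit 76) (nat_lit 0) (XT.lf (nat_lit 0) (nat_lit 63815820276) (nat_lit 76) (nat_lit 38195467980) (nat_lit 76) (nat_lit 24775439173) (nat_lit 27) (nat_lit 4) (nat_lit 28) (nat_lit 5) (nat_lit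 28) (nat_lit 4) (nat_lit 509) (nat_lit 401) (nat_lit 290)) (XT.lf (nat_lit 0) (nat_lit 5227584245) (nat_lit 152) (nat_lit 2706335124) (nat_lit 76) (nat_lit 123659833166) (nat_lit 26) (nat_lit 5) (nat_lit 28) (nat_lit 5) (nat_lit 27) (nat_lit 4) (nat_lit 510) (nat_lit 401) (nat_lit 289))) (XT.nd (nat_lit 78) (nat_lit 0) (nat_lit 0) (XT.lf (nat_lit 0) (nat_lit 37249979897) (nat_lit 152) (nat_lit 74839556094) (nat_lit 0) (nat_lit 24463693283) (nat_lit 25) (nat_lit 5) (nat_lit 27) (nat_lit 4) (nat_lit 25) (nat_lit 4) (nat_lit 511) (nat_lit 401) (nat_lit 288)) (XT.lf (nat_lit 0) (nat_lit 71037423270) (nat_lit 152) (nat_lit 12466388963) (nat_lit 0) (nat_lit 58248671245) (nat_lit 25) (nat_lit 5) (nat_lit 27) (nat_lit 4) (nat_lit 25) (nat_lit 4) (nat_lit 512) (nat_lit 401) (nat_lit 287)))))) (XT.nd (nat_lit 624) (nat_lit 304) (nat_lit 0) (XT.nd (nat_lit 312) (nat_lit 228) (nat_lit 0) (XT.nd (nat_lit 156)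 (nat_lit 152) (nat_lit 0) (XT.nd (nat_lit 78) (nat_lit 0) (nat_lit 0) (XT.lf (nat_lit 0) (nat_lit 54753288554) (nat_lit 76) (nat_lit 52603687517) (nat_lit 76) (nat_lit 39812587482) (nat_lit 24) (nat_lit 4) (nat_lit 25) (nat_lit 5) (nat_lit 25) (nat_lit 4) (nat_lit 513) (nat_lit 401) (nat_lit 286)) (XT.lf (nat_lit 0) (nat_lit 125742556377) (nat_lit 76) (nat_lit 19949158547) (nat_lit 76) (nat_lit 7155822312) (nat_lit 24) (nat_lit 4) (nat_lit 25) (nat_lit 5) (nat_lit 25) (nat_lit 4) (nat_lit 514) (nat_lit 401) (nat_lit 285))) (XT.nd (nat_lit 78) (nat_lit 0) (nat_lit 0) (XT.lf (nat_lit 0) (nat_lit 27156951096) (nat_lit 152) (nat_lit 116615902737) (nat_lit 0) (nat_lit 14970793049) (nat_lit 22) (nat_lit 5) (nat_lit 24) (nat_lit 4) (nat_lit 22) (nat_lit 4) (nat_lit 515) (nat_lit 401) (nat_lit 284)) (XT.lf (nat_lit 0) (nat_lit 63726949252) (nat_lit 152) (nat_lit 49623784429) (nat_lit 0) (nat_lit 51538859490)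 (nat_lit 22) (nat_lit 5) (nat_lit 24) (nat_lit 4) (nat_lit 22) (nat_lit 4) (nat_lit 516) (nat_lit 401) (nat_lit 283)))) (XT.nd (nat_lit 156) (nat_lit 152) (nat_lit 0) (XT.nd (nat_lit 78) (nat_lit 0) (nat_lit 0) (XT.lf (nat_lit 0) (nat_lit 21379912199) (nat_lit 76) (nat_lit 81068356507) (nat_lit 76) (nat_lit 68878427018) (nat_lit 21) (nat_lit 4) (nat_lit 22) (nat_lit 5) (nat_lit 22) (nat_lit 4) (nat_lit 517) (nat_lit 401) (nat_lit 282)) (XT.lf (nat_lit 0) (nat_lit 97634661070) (nat_lit 76) (nat_lit 46300596886) (nat_lit 76) (nat_lit 34108915276) (nat_lit 21) (nat_lit 4) (nat_lit 22) (nat_lit 5) (nat_lit 22) (nat_lit 4) (nat_lit 518) (nat_lit 401) (nat_lit 281))) (XT.nd (nat_lit 78) (nat_lit 76) (nat_lit 0) (XT.lf (nat_lit 0) (nat_lit 2311833404) (nat_lit 152) (nat_lit 7454091818) (nat_lit 76) (nat_lit 175330249265) (nat_lit 20) (nat_lit 5) (nat_lit 22) (nat_lit 5) (nat_lit 21) (nat_lit 4) (nat_lit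 519) (nat_lit 401) (nat_lit 280)) (XT.lf (nat_lit 0) (nat_lit 40976935531) (nat_lit 152) (nat_lit 122054694787) (nat_lit 0) (nat_lit 29362707414) (nat_lit 19) (nat_lit 5) (nat_lit 21) (nat_lit 4) (nat_lit 19) (nat_lit 4) (nat_lit 520) (nat_lit 401) (nat_lit 279))))) (XT.nd (nat_lit 312) (nat_lit 228) (nat_lit 0) (XT.nd (nat_lit 156) (nat_lit 0) (nat_lit 0) (XT.nd (nat_lit 78) (nat_lit 76) (nat_lit 0) (XT.lf (nat_lit 0) (nat_lit 81853747422) (nat_lit 152) (nat_lit 47951661170) (nat_lit 0) (nat_lit 70238077829) (nat_lit 19) (nat_lit 5) (nat_lit 21) (nat_lit 4) (nat_lit 19) (nat_lit 4) (nat_lit 521) (nat_lit 401) (nat_lit 278)) (XT.lf (nat_lit 0) (nat_lit 30823791253) (nat_lit 76) (nat_lit 94422377641) (nat_lit 76) (nat_lit 82805335215) (nat_lit 18) (nat_lit 4) (nat_lit 19) (nat_lit 5) (nat_lit 19) (nat_lit 4) (nat_lit 522) (nat_lit 401) (nat_lit 277))) (XT.nd (nat_lit 78) (nat_lit 0) (nat_lit 0)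 (XT.lf (nat_lit 0) (nat_lit 115183814080) (nat_lit 76) (nat_lit 56427160180) (nat_lit 76) (nat_lit 44808810294) (nat_lit 18) (nat_lit 4) (nat_lit 19) (nat_lit 5) (nat_lit 19) (nat_lit 4) (nat_lit 523) (nat_lit 401) (nat_lit 276)) (XT.lf (nat_lit 0) (nat_lit 203743766033) (nat_lit 76) (nat_lit 16541375990) (nat_lit 76) (nat_lit 4921780905) (nat_lit 18) (nat_lit 4) (nat_lit 19) (nat_lit 5) (nat_lit 19) (nat_lit 4) (nat_lit 524) (nat_lit 401) (nat_lit 275)))) (XT.nd (nat_lit 156) (nat_lit 76) (nat_lit 0) (XT.nd (nat_lit 78) (nat_lit 0) (nat_lit 0) (XT.lf (nat_lit 0) (nat_lit 37184534047) (nat_lit 152) (nat_lit 171032514853) (nat_lit 0) (nat_lit 26117123580) (nat_lit 16) (nat_lit 5) (nat_lit 18) (nat_lit 4) (nat_lit 16) (nat_lit 4) (nat_lit 525) (nat_lit 401) (nat_lit 274)) (XT.lf (nat_lit 0) (nat_lit 81862788487) (nat_lit 152) (nat_lit 91225058026) (nat_lit 0) (nat_lit 70794302369) (nat_lit 16) (nat_lit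 5) (nat_lit 18) (nat_lit 4) (nat_lit 16) (nat_lit 4) (nat_lit 526) (nat_lit 401) (nat_lit 273))) (XT.nd (nat_lit 78) (nat_lit 76) (nat_lit 0) (XT.lf (nat_lit 0) (nat_lit 128766774666) (nat_lit 152) (nat_lit 7443894377) (nat_lit 0) (nat_lit 117697264119) (nat_lit 16) (nat_lit 5) (nat_lit 18) (nat_lit 4) (nat_lit 16) (nat_lit 4) (nat_lit 527) (nat_lit 401) (nat_lit 272)) (XT.nd (nat_lit 78) (nat_lit 0) (nat_lit 0) (XT.lf (nat_lit 0) (nat_lit 83172494295) (nat_lit 76) (nat_lit 96134230175) (nat_lit 76) (nat_lit 85063743982) (nat_lit 15) (nat_lit 4) (nat_lit 16) (nat_lit 5) (nat_lit 16) (nat_lit 4) (nat_lit 528) (nat_lit 401) (nat_lit 271)) (XT.lf (nat_lit 0) (nat_lit 178562521215) (nat_lit 76) (nat_lit 53929552297) (nat_lit 76) (nat_lit 42858136916) (nat_lit 15) (nat_lit 4) (nat_lit 16) (nat_lit 5) (nat_lit 16) (nat_lit 4) (nat_lit 529) (nat_lit 401) (nat_lit 270))))))))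
noncomputable def xc195 : XT := (XT.nd (nat_lit 1248) (nat_lit 228) (nat_lit 0) (XT.nd (nat_lit 624) (nat_lit 76) (nat_lit 0) (XT.nd (nat_lit 312) (nat_lit 228) (nat_lit 0) (XT.nd (nat_lit 156) (nat_lit 0) (nat_lit 0) (XT.nd (nat_lit 78) (nat_lit 76) (nat_lit 0) (XT.lf (nat_lit 0) (nat_lit 1403674469) (nat_lit 152) (nat_lit 8194767660) (nat_lit 76) (nat_lit 277279730351) (nat_lit 14) (nat_lit 5) (nat_lit 16) (nat_lit 5) (nat_lit 15) (nat_lit 4) (nat_lit 530) (nat_lit 401) (nat_lit 269)) (XT.lf (nat_lit 0) (nat_lit 48398346439) (nat_lit 152) (nat_lit 212598556511) (nat_lit 0) (nat_lit 37852495847) (nat_lit 13) (nat_lit 5) (nat_lit 15) (nat_lit 4) (nat_lit 13) (nat_lit 4) (nat_lit 531) (nat_lit 401) (nat_lit 268))) (XT.nd (nat_lit 78) (nat_lit 0) (nat_lit 0) (XT.lf (nat_lit 0) (nat_lit 98034097997) (nat_lit 152) (nat_lit 125883038183) (nat_lit 0) (nat_lit 87487482960) (nat_lit 13) (nat_lit 5) (nat_lit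 15) (nat_lit 4) (nat_lit 13) (nat_lit 4) (nat_lit 532) (nat_lit 401) (nat_lit 267)) (XT.lf (nat_lit 0) (nat_lit 150144910468) (nat_lit 152) (nat_lit 34845458985) (nat_lit 0) (nat_lit 139597567388) (nat_lit 13) (nat_lit 5) (nat_lit 15) (nat_lit 4) (nat_lit 13) (nat_lit 4) (nat_lit 533) (nat_lit 401) (nat_lit 266)))) (XT.nd (nat_lit 156) (nat_lit 152) (nat_lit 0) (XT.nd (nat_lit 78) (nat_lit 0) (nat_lit 0) (XT.lf (nat_lit 0) (nat_lit 62738976276) (nat_lit 76) (nat_lit 143095412183) (nat_lit 76) (nat_lit 132547375729) (nat_lit 12) (nat_lit 4) (nat_lit 13) (nat_lit 5) (nat_lit 13) (nat_lit 4) (nat_lit 534) (nat_lit 401) (nat_lit 265)) (XT.lf (nat_lit 0) (nat_lit 166399537682) (nat_lit 76) (nat_lit 98492625450) (nat_lit 76) (nat_lit 87943928640) (nat_lit 12) (nat_lit 4) (nat_lit 13) (nat_lit 5) (nat_lit 13) (nat_lit 4) (nat_lit 535) (nat_lit 401) (nat_lit 264))) (XT.nd (nat_lit 78) (nat_lit 152) (nat_lit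 0) (XT.lf (nat_lit 0) (nat_lit 275230887851) (nat_lit 76) (nat_lit 51665936851) (nat_lit 76) (nat_lit 41116611130) (nat_lit 12) (nat_lit 4) (nat_lit 13) (nat_lit 5) (nat_lit 13) (nat_lit 4) (nat_lit 536) (nat_lit 401) (nat_lit 263)) (XT.lf (nat_lit 0) (nat_lit 5595691506) (nat_lit 76) (nat_lit 2280218829) (nat_lit 152) (nat_lit 376063373261) (nat_lit 10) (nat_lit 5) (nat_lit 11) (nat_lit 5) (nat_lit 12) (nat_lit 4) (nat_lit 537) (nat_lit 401) (nat_lit 262))))) (XT.nd (nat_lit 312) (nat_lit 0) (nat_lit 0) (XT.nd (nat_lit 156) (nat_lit 76) (nat_lit 0) (XT.nd (nat_lit 78) (nat_lit 0) (nat_lit 0) (XT.lf (nat_lit 0) (nat_lit 60301540226) (nat_lit 152) (nat_lit 289954468252) (nat_lit 0) (nat_lit 50253449631) (nat_lit 10) (nat_lit 5) (nat_lit 12) (nat_lit 4) (nat_lit 10) (nat_lit 4) (nat_lit 538) (nat_lit 401) (nat_lit 261)) (XT.lf (nat_lit 0) (nat_lit 115380300937) (nat_lit 152) (nat_lit 197194555013)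 (nat_lit 0) (nat_lit 105331692937) (nat_lit 10) (nat_lit 5) (nat_lit 12) (nat_lit 4) (nat_lit 10) (nat_lit 4) (nat_lit 539) (nat_lit 401) (nat_lit 260))) (XT.nd (nat_lit 78) (nat_lit 76) (nat_lit 0) (XT.lf (nat_lit 0) (nat_lit 173207731771) (nat_lit 152) (nat_lit 99807394831) (nat_lit 0) (nat_lit 163158631003) (nat_lit 10) (nat_lit 5) (nat_lit 12) (nat_lit 4) (nat_lit 10) (nat_lit 4) (nat_lit 540) (nat_lit 401) (nat_lit 259)) (XT.lf (nat_lit 0) (nat_lit 2519527087) (nat_lit 76) (nat_lit 231441326878) (nat_lit 76) (nat_lit 221391756807) (nat_lit 9) (nat_lit 4) (nat_lit 10) (nat_lit 5) (nat_lit 10) (nat_lit 4) (nat_lit 541) (nat_lit 401) (nat_lit 258)))) (XT.nd (nat_lit 156) (nat_lit 0) (nat_lit 0) (XT.nd (nat_lit 78) (nat_lit 0) (nat_lit 0) (XT.lf (nat_lit 0) (nat_lit 113417810715) (nat_lit 76) (nat_lit 186019172679) (nat_lit 76) (nat_lit 175969155652) (nat_lit 9) (nat_lit 4) (nat_lit 10) (nat_lit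 5) (nat_lit 10) (nat_lit 4) (nat_lit 542) (nat_lit 401) (nat_lit 257)) (XT.lf (nat_lit 0) (nat_lit 229851416368) (nat_lit 76) (nat_lit 138330802543) (nat_lit 76) (nat_lit 128280359846) (nat_lit 9) (nat_lit 4) (nat_lit 10) (nat_lit 5) (nat_lit 10) (nat_lit 4) (nat_lit 543) (nat_lit 401) (nat_lit 256))) (XT.nd (nat_lit 78) (nat_lit 0) (nat_lit 0) (XT.lf (nat_lit 0) (nat_lit 352097566916) (nat_lit 76) (nat_lit 88262672734) (nat_lit 76) (nat_lit 78211824635) (nat_lit 9) (nat_lit 4) (nat_lit 10) (nat_lit 5) (nat_lit 10) (nat_lit 4) (nat_lit 544) (nat_lit 401) (nat_lit 255)) (XT.lf (nat_lit 0) (nat_lit 480447324625) (nat_lit 76) (nat_lit 35695573417) (nat_lit 76) (nat_lit 25644339221) (nat_lit 9) (nat_lit 4) (nat_lit 10) (nat_lit 5) (nat_lit 10) (nat_lit 4) (nat_lit 545) (nat_lit 401) (nat_lit 254)))))) (XT.nd (nat_lit 624) (nat_lit 0) (nat_lit 0) (XT.nd (nat_lit 312) (nat_lit 76) (nat_lit 0) (XT.nd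 (nat_lit 156) (nat_lit 0) (nat_lit 0) (XT.nd (nat_lit 78) (nat_lit 0) (nat_lit 0) (XT.lf (nat_lit 0) (nat_lit 29709924302) (nat_lit 152) (nat_lit 516237993531) (nat_lit 0) (nat_lit 20136970105) (nat_lit 7) (nat_lit 5) (nat_lit 9) (nat_lit 4) (nat_lit 7) (nat_lit 4) (nat_lit 546) (nat_lit 401) (nat_lit 253)) (XT.lf (nat_lit 0) (nat_lit 88606981550) (nat_lit 152) (nat_lit 423853880897) (nat_lit 0) (nat_lit 79033693828) (nat_lit 7) (nat_lit 5) (nat_lit 9) (nat_lit 4) (nat_lit 7) (nat_lit 4) (nat_lit 547) (nat_lit 401) (nat_lit 252))) (XT.nd (nat_lit 78) (nat_lit 0) (nat_lit 0) (XT.lf (nat_lit 0) (nat_lit 150444962342) (nat_lit 152) (nat_lit 326858585180) (nat_lit 0) (nat_lit 140871356978) (nat_lit 7) (nat_lit 5) (nat_lit 9) (nat_lit 4) (nat_lit 7) (nat_lit 4) (nat_lit 548) (nat_lit 401) (nat_lit 251)) (XT.lf (nat_lit 0) (nat_lit 215371099965) (nat_lit 152) (nat_lit 225021165199) (nat_lit 0) (nat_lit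 205797192084) (nat_lit 7) (nat_lit 5) (nat_lit 9) (nat_lit 4) (nat_lit 7) (nat_lit 4) (nat_lit 549) (nat_lit 401) (nat_lit 250)))) (XT.nd (nat_lit 156) (nat_lit 76) (nat_lit 0) (XT.nd (nat_lit 78) (nat_lit 0) (nat_lit 0) (XT.lf (nat_lit 0) (nat_lit 283539980461) (nat_lit 152) (nat_lit 118099150907) (nat_lit 0) (nat_lit 273965784468) (nat_lit 7) (nat_lit 5) (nat_lit 9) (nat_lit 4) (nat_lit 7) (nat_lit 4) (nat_lit 550) (nat_lit 401) (nat_lit 249)) (XT.lf (nat_lit 0) (nat_lit 355113910688) (nat_lit 152) (nat_lit 5837966080) (nat_lit 0) (nat_lit 345539440304) (nat_lit 7) (nat_lit 5) (nat_lit 9) (nat_lit 4) (nat_lit 7) (nat_lit 4) (nat_lit 551) (nat_lit 401) (nat_lit 248))) (XT.nd (nat_lit 78) (nat_lit 0) (nat_lit 0) (XT.lf (nat_lit 0) (nat_lit 115733884906) (nat_lit 76) (nat_lit 316336350147) (nat_lit 76) (nat_lit 306761618438) (nat_lit 6) (nat_lit 4) (nat_lit 7) (nat_lit 5) (nat_lit 7) (nat_lit 4)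 (nat_lit 552) (nat_lit 401) (nat_lit 247)) (XT.lf (nat_lit 0) (nat_lit 243580515727) (nat_lit 76) (nat_lit 269389548582) (nat_lit 76) (nat_lit 259814567991) (nat_lit 6) (nat_lit 4) (nat_lit 7) (nat_lit 5) (nat_lit 7) (nat_lit 4) (nat_lit 553) (nat_lit 401) (nat_lit 246))))) (XT.nd (nat_lit 50778) (nat_lit 0) (nat_lit 15276) (XT.nd (nat_lit 50622) (nat_lit 0) (nat_lit 15960) (XT.nd (nat_lit 78) (nat_lit 0) (nat_lit 0) (XT.lf (nat_lit 0) (nat_lit 377813293596) (nat_lit 76) (nat_lit 220098562755) (nat_lit 76) (nat_lit 210523345134) (nat_lit 6) (nat_lit 4) (nat_lit 7) (nat_lit 5) (nat_lit 7) (nat_lit 4) (nat_lit 554) (nat_lit 401) (nat_lit 245)) (XT.lf (nat_lit 0) (nat_lit 518751820367) (nat_lit 76) (nat_lit 168346033175) (nat_lit 76) (nat_lit 158770589812) (nat_lit 6) (nat_lit 4) (nat_lit 7) (nat_lit 5) (nat_lit 7) (nat_lit 4) (nat_lit 555) (nat_lit 401) (nat_lit 244))) (XT.nd (nat_lit 78) (nat_lit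 228) (nat_lit 0) (XT.lf (nat_lit 0) (nat_lit 2750131125) (nat_lit 228) (nat_lit 246895345) (nat_lit 228) (nat_lit 246895345) (nat_lit 219) (nat_lit 3) (nat_lit 222) (nat_lit 3) (nat_lit 222) (nat_lit 5) (nat_lit 402) (nat_lit 402) (nat_lit 396)) (XT.lf (nat_lit 0) (nat_lit 1751257979) (nat_lit 228) (nat_lit 3712707597) (nat_lit 304) (nat_lit 1049958758) (nat_lit 216) (nat_lit 5) (nat_lit 219) (nat_lit 3) (nat_lit 220) (nat_lit 5) (nat_lit 403) (nat_lit 402) (nat_lit 395)))) (XT.nd (nat_lit 156) (nat_lit 380) (nat_lit 0) (XT.nd (nat_lit 78) (nat_lit 304) (nat_lit 0) (XT.lf (nat_lit 0) (nat_lit 4428942910) (nat_lit 228) (nat_lit 376610898) (nat_lit 304) (nat_lit 1743213478) (nat_lit 216) (nat_lit 5) (nat_lit 219) (nat_lit 3) (nat_lit 220) (nat_lit 5) (nat_lit 404) (nat_lit 402) (nat_lit 394)) (XT.lf (nat_lit 0) (nat_lit 516041385) (nat_lit 304) (nat_lit 3465786239) (nat_lit 380) (nat_lit 2608941042)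 (nat_lit 212) (nat_lit 5) (nat_lit 216) (nat_lit 5) (nat_lit 217) (nat_lit 5) (nat_lit 405) (nat_lit 402) (nat_lit 393))) (XT.nd (nat_lit 78) (nat_lit 380) (nat_lit 0) (XT.lf (nat_lit 76) (nat_lit 50207140) (nat_lit 0) (nat_lit 3008186691) (nat_lit 380) (nat_lit 3582461358) (nat_lit 213) (nat_lit 5) (nat_lit 212) (nat_lit 5) (nat_lit 217) (nat_lit 5) (nat_lit 406) (nat_lit 402) (nat_lit 392)) (XT.nd (nat_lit 78) (nat_lit 380) (nat_lit 0) (XT.lf (nat_lit 76) (nat_lit 3767161204) (nat_lit 0) (nat_lit 1864261104) (nat_lit 380) (nat_lit 1066864197) (nat_lit 213) (nat_lit 5) (nat_lit 212) (nat_lit 5) (nat_lit 217) (nat_lit 5) (nat_lit 407) (nat_lit 402) (nat_lit 391)) (XT.lf (nat_lit 76) (nat_lit 817336662) (nat_lit 0) (nat_lit 569354855) (nat_lit 456) (nat_lit 5377556769) (nat_lit 208) (nat_lit 5) (nat_lit 207) (nat_lit 5) (nat_lit 213) (nat_lit 5) (nat_lit 408) (nat_lit 402) (nat_lit 390))))))))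
noncomputable def xc196 : XT := (XT.nd (nat_lit 1248) (nat_lit 2964) (nat_lit 0) (XT.nd (nat_lit 624) (nat_lit 3192) (nat_lit 0) (XT.nd (nat_lit 312) (nat_lit 1216) (nat_lit 0) (XT.nd (nat_lit 156) (nat_lit 532) (nat_lit 0) (XT.nd (nat_lit 78) (nat_lit 380) (nat_lit 0) (XT.lf (nat_lit 0) (nat_lit 3846146428) (nat_lit 380) (nat_lit 2108785077) (nat_lit 76) (nat_lit 881764303) (nat_lit 208) (nat_lit 5) (nat_lit 213) (nat_lit 5) (nat_lit 209) (nat_lit 5) (nat_lit 409) (nat_lit 402) (nat_lit 389)) (XT.lf (nat_lit 0) (nat_lit 1874676807) (nat_lit 380) (nat_lit 4455626112) (nat_lit 456) (nat_lit 587391470) (nat_lit 203) (nat_lit 5) (nat_lit 208) (nat_lit 5) (nat_lit 209) (nat_lit 5) (nat_lit 410) (nat_lit 402) (nat_lit 388))) (XT.nd (nat_lit 78) (nat_lit 456) (nat_lit 0) (XT.lf (nat_lit 0) (nat_lit 1776236320) (nat_lit 456) (nat_lit 1001359359) (nat_lit 76) (nat_lit 4228535998) (nat_lit 202) (nat_lit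 5) (nat_lit 208) (nat_lit 5) (nat_lit 203) (nat_lit 5) (nat_lit 411) (nat_lit 402) (nat_lit 387)) (XT.lf (nat_lit 0) (nat_lit 3241141069) (nat_lit 456) (nat_lit 920124564) (nat_lit 532) (nat_lit 2941108776) (nat_lit 196) (nat_lit 5) (nat_lit 202) (nat_lit 5) (nat_lit 203) (nat_lit 5) (nat_lit 412) (nat_lit 402) (nat_lit 386)))) (XT.nd (nat_lit 156) (nat_lit 608) (nat_lit 0) (XT.nd (nat_lit 78) (nat_lit 76) (nat_lit 0) (XT.lf (nat_lit 0) (nat_lit 424751856) (nat_lit 532) (nat_lit 6158174091) (nat_lit 608) (nat_lit 624646799) (nat_lit 189) (nat_lit 5) (nat_lit 196) (nat_lit 5) (nat_lit 197) (nat_lit 5) (nat_lit 413) (nat_lit 402) (nat_lit 385)) (XT.lf (nat_lit 0) (nat_lit 1711100891) (nat_lit 608) (nat_lit 2402847198) (nat_lit 76) (nat_lit 3204617166) (nat_lit 188) (nat_lit 5) (nat_lit 196) (nat_lit 5) (nat_lit 189) (nat_lit 5) (nat_lit 414) (nat_lit 402) (nat_lit 384))) (XT.nd (nat_lit 78) (nat_lit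 0) (nat_lit 0) (XT.lf (nat_lit 0) (nat_lit 2157021217) (nat_lit 608) (nat_lit 1904795350) (nat_lit 684) (nat_lit 3376830925) (nat_lit 180) (nat_lit 5) (nat_lit 188) (nat_lit 5) (nat_lit 189) (nat_lit 5) (nat_lit 415) (nat_lit 402) (nat_lit 383)) (XT.lf (nat_lit 0) (nat_lit 6467571547) (nat_lit 684) (nat_lit 643621384) (nat_lit 76) (nat_lit 456675971) (nat_lit 180) (nat_lit 5) (nat_lit 189) (nat_lit 5) (nat_lit 181) (nat_lit 5) (nat_lit 416) (nat_lit 402) (nat_lit 382))))) (XT.nd (nat_lit 312) (nat_lit 1140) (nat_lit 0) (XT.nd (nat_lit 156) (nat_lit 532) (nat_lit 0) (XT.nd (nat_lit 78) (nat_lit 760) (nat_lit 0) (XT.lf (nat_lit 0) (nat_lit 1240877041) (nat_lit 760) (nat_lit 3490634752) (nat_lit 76) (nat_lit 2971436591) (nat_lit 170) (nat_lit 5) (nat_lit 180) (nat_lit 5) (nat_lit 171) (nat_lit 5) (nat_lit 417) (nat_lit 402) (nat_lit 381)) (XT.lf (nat_lit 0) (nat_lit 1417220714) (nat_lit 760) (nat_lit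 2174874635) (nat_lit 836) (nat_lit 4255295330) (nat_lit 160) (nat_lit 5) (nat_lit 170) (nat_lit 5) (nat_lit 171) (nat_lit 5) (nat_lit 418) (nat_lit 402) (nat_lit 380))) (XT.nd (nat_lit 78) (nat_lit 532) (nat_lit 0) (XT.lf (nat_lit 0) (nat_lit 6029103779) (nat_lit 836) (nat_lit 1415885051) (nat_lit 76) (nat_lit 555663222) (nat_lit 160) (nat_lit 5) (nat_lit 171) (nat_lit 5) (nat_lit 161) (nat_lit 5) (nat_lit 419) (nat_lit 402) (nat_lit 379)) (XT.lf (nat_lit 0) (nat_lit 413267609) (nat_lit 532) (nat_lit 4329535950) (nat_lit 76) (nat_lit 3418421296) (nat_lit 153) (nat_lit 5) (nat_lit 160) (nat_lit 5) (nat_lit 154) (nat_lit 5) (nat_lit 420) (nat_lit 402) (nat_lit 378)))) (XT.nd (nat_lit 156) (nat_lit 760) (nat_lit 0) (XT.nd (nat_lit 78) (nat_lit 0) (nat_lit 0) (XT.lf (nat_lit 0) (nat_lit 961056523) (nat_lit 380) (nat_lit 1835839370) (nat_lit 456) (nat_lit 5534030229) (nat_lit 148) (nat_lit 5) (nat_lit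 153) (nat_lit 5) (nat_lit 154) (nat_lit 5) (nat_lit 421) (nat_lit 402) (nat_lit 377)) (XT.lf (nat_lit 0) (nat_lit 5302497971) (nat_lit 456) (nat_lit 1961140784) (nat_lit 76) (nat_lit 1245341007) (nat_lit 148) (nat_lit 5) (nat_lit 154) (nat_lit 5) (nat_lit 149) (nat_lit 5) (nat_lit 422) (nat_lit 402) (nat_lit 376))) (XT.nd (nat_lit 78) (nat_lit 380) (nat_lit 0) (XT.lf (nat_lit 0) (nat_lit 3709523091) (nat_lit 380) (nat_lit 4225464105) (nat_lit 456) (nat_lit 760875136) (nat_lit 143) (nat_lit 5) (nat_lit 148) (nat_lit 5) (nat_lit 149) (nat_lit 5) (nat_lit 423) (nat_lit 402) (nat_lit 375)) (XT.lf (nat_lit 0) (nat_lit 737848198) (nat_lit 304) (nat_lit 971443351) (nat_lit 380) (nat_lit 7183387073) (nat_lit 138) (nat_lit 5) (nat_lit 142) (nat_lit 5) (nat_lit 143) (nat_lit 5) (nat_lit 424) (nat_lit 402) (nat_lit 374)))))) (XT.nd (nat_lit 624) (nat_lit 1368) (nat_lit 0) (XT.nd (nat_lit 312) (nat_lit 912)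 (nat_lit 0) (XT.nd (nat_lit 156) (nat_lit 380) (nat_lit 0) (XT.nd (nat_lit 78) (nat_lit 304) (nat_lit 0) (XT.lf (nat_lit 0) (nat_lit 4318564930) (nat_lit 380) (nat_lit 2326506286) (nat_lit 76) (nat_lit 2451588106) (nat_lit 138) (nat_lit 5) (nat_lit 143) (nat_lit 5) (nat_lit 139) (nat_lit 5) (nat_lit 425) (nat_lit 402) (nat_lit 373)) (XT.lf (nat_lit 0) (nat_lit 3803111172) (nat_lit 304) (nat_lit 3251598733) (nat_lit 380) (nat_lit 2256314184) (nat_lit 134) (nat_lit 5) (nat_lit 138) (nat_lit 5) (nat_lit 139) (nat_lit 5) (nat_lit 426) (nat_lit 402) (nat_lit 372))) (XT.nd (nat_lit 78) (nat_lit 0) (nat_lit 0) (XT.lf (nat_lit 0) (nat_lit 357702571) (nat_lit 380) (nat_lit 8837965716) (nat_lit 76) (nat_lit 341204082) (nat_lit 129) (nat_lit 5) (nat_lit 134) (nat_lit 5) (nat_lit 130) (nat_lit 5) (nat_lit 427) (nat_lit 402) (nat_lit 371)) (XT.lf (nat_lit 0) (nat_lit 3098745121) (nat_lit 380) (nat_lit 2552751371)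 (nat_lit 76) (nat_lit 4117064228) (nat_lit 129) (nat_lit 5) (nat_lit 134) (nat_lit 5) (nat_lit 130) (nat_lit 5) (nat_lit 428) (nat_lit 402) (nat_lit 370)))) (XT.nd (nat_lit 156) (nat_lit 380) (nat_lit 0) (XT.nd (nat_lit 78) (nat_lit 228) (nat_lit 0) (XT.lf (nat_lit 0) (nat_lit 4083252362) (nat_lit 304) (nat_lit 1884994328) (nat_lit 380) (nat_lit 4044020920) (nat_lit 125) (nat_lit 5) (nat_lit 129) (nat_lit 5) (nat_lit 130) (nat_lit 5) (nat_lit 429) (nat_lit 402) (nat_lit 369)) (XT.lf (nat_lit 0) (nat_lit 769471481) (nat_lit 228) (nat_lit 8229328479) (nat_lit 304) (nat_lit 1268485307) (nat_lit 122) (nat_lit 5) (nat_lit 125) (nat_lit 5) (nat_lit 126) (nat_lit 5) (nat_lit 430) (nat_lit 402) (nat_lit 368))) (XT.nd (nat_lit 78) (nat_lit 304) (nat_lit 0) (XT.lf (nat_lit 0) (nat_lit 1656177794) (nat_lit 304) (nat_lit 2676138576) (nat_lit 76) (nat_lit 6198305124) (nat_lit 121) (nat_lit 5) (nat_lit 125)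 (nat_lit 5) (nat_lit 122) (nat_lit 5) (nat_lit 431) (nat_lit 402) (nat_lit 367)) (XT.lf (nat_lit 0) (nat_lit 4518457480) (nat_lit 304) (nat_lit 169932063) (nat_lit 380) (nat_lit 6117501677) (nat_lit 117) (nat_lit 5) (nat_lit 121) (nat_lit 5) (nat_lit 122) (nat_lit 5) (nat_lit 432) (nat_lit 402) (nat_lit 366))))) (XT.nd (nat_lit 312) (nat_lit 684) (nat_lit 0) (XT.nd (nat_lit 156) (nat_lit 456) (nat_lit 0) (XT.nd (nat_lit 78) (nat_lit 0) (nat_lit 0) (XT.lf (nat_lit 0) (nat_lit 943560380) (nat_lit 228) (nat_lit 6989787448) (nat_lit 304) (nat_lit 3158523306) (nat_lit 114) (nat_lit 5) (nat_lit 117) (nat_lit 5) (nat_lit 118) (nat_lit 5) (nat_lit 433) (nat_lit 402) (nat_lit 365)) (XT.lf (nat_lit 0) (nat_lit 8659669193) (nat_lit 228) (nat_lit 2726536252) (nat_lit 304) (nat_lit 3665361) (nat_lit 114) (nat_lit 5) (nat_lit 117) (nat_lit 5) (nat_lit 118) (nat_lit 5) (nat_lit 434) (nat_lit 402) (nat_lit 364)))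 (XT.nd (nat_lit 78) (nat_lit 152) (nat_lit 0) (XT.lf (nat_lit 0) (nat_lit 3249838154) (nat_lit 304) (nat_lit 6648088691) (nat_lit 76) (nat_lit 1799923088) (nat_lit 110) (nat_lit 5) (nat_lit 114) (nat_lit 5) (nat_lit 111) (nat_lit 5) (nat_lit 435) (nat_lit 402) (nat_lit 363)) (XT.lf (nat_lit 0) (nat_lit 1196753821) (nat_lit 152) (nat_lit 5519095612) (nat_lit 228) (nat_lit 5302880670) (nat_lit 108) (nat_lit 5) (nat_lit 110) (nat_lit 5) (nat_lit 111) (nat_lit 5) (nat_lit 436) (nat_lit 402) (nat_lit 362)))) (XT.nd (nat_lit 156) (nat_lit 380) (nat_lit 0) (XT.nd (nat_lit 78) (nat_lit 304) (nat_lit 0) (XT.lf (nat_lit 0) (nat_lit 9575479906) (nat_lit 152) (nat_lit 833333564) (nat_lit 228) (nat_lit 1944160945) (nat_lit 108) (nat_lit 5) (nat_lit 110) (nat_lit 5) (nat_lit 111) (nat_lit 5) (nat_lit 437) (nat_lit 402) (nat_lit 361)) (XT.lf (nat_lit 0) (nat_lit 1629647787) (nat_lit 304) (nat_lit 7024825190)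 (nat_lit 76) (nat_lit 4043334957) (nat_lit 104) (nat_lit 5) (nat_lit 108) (nat_lit 5) (nat_lit 105) (nat_lit 5) (nat_lit 438) (nat_lit 402) (nat_lit 360))) (XT.nd (nat_lit 78) (nat_lit 228) (nat_lit 0) (XT.lf (nat_lit 0) (nat_lit 1498819220) (nat_lit 152) (nat_lit 3846728913) (nat_lit 228) (nat_lit 7711306902) (nat_lit 102) (nat_lit 5) (nat_lit 104) (nat_lit 5) (nat_lit 105) (nat_lit 5) (nat_lit 439) (nat_lit 402) (nat_lit 359)) (XT.nd (nat_lit 78) (nat_lit 228) (nat_lit 0) (XT.lf (nat_lit 0) (nat_lit 9331619815) (nat_lit 228) (nat_lit 2844646989) (nat_lit 76) (nat_lit 1253371127) (nat_lit 102) (nat_lit 5) (nat_lit 105) (nat_lit 5) (nat_lit 103) (nat_lit 5) (nat_lit 440) (nat_lit 402) (nat_lit 358)) (XT.lf (nat_lit 0) (nat_lit 6360580552) (nat_lit 228) (nat_lit 7266115422) (nat_lit 304) (nat_lit 188881104) (nat_lit 99) (nat_lit 5) (nat_lit 102) (nat_lit 5) (nat_lit 103) (nat_lit 5) (nat_lit 441)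 (nat_lit 402) (nat_lit 357))))))))
noncomputable def xc197 : XT := (XT.nd (nat_lit 1248) (nat_lit 1368) (nat_lit 0) (XT.nd (nat_lit 624) (nat_lit 836) (nat_lit 0) (XT.nd (nat_lit 312) (nat_lit 380) (nat_lit 0) (XT.nd (nat_lit 156) (nat_lit 380) (nat_lit 0) (XT.nd (nat_lit 78) (nat_lit 0) (nat_lit 0) (XT.lf (nat_lit 0) (nat_lit 1817967416) (nat_lit 152) (nat_lit 1997466934) (nat_lit 228) (nat_lit 10401071574) (nat_lit 96) (nat_lit 5) (nat_lit 98) (nat_lit 5) (nat_lit 99) (nat_lit 5) (nat_lit 442) (nat_lit 402) (nat_lit 356)) (XT.lf (nat_lit 0) (nat_lit 8145512659) (nat_lit 228) (nat_lit 2963525949) (nat_lit 76) (nat_lit 3521694904) (nat_lit 96) (nat_lit 5) (nat_lit 99) (nat_lit 5) (nat_lit 97) (nat_lit 5) (nat_lit 443) (nat_lit 402) (nat_lit 355))) (XT.nd (nat_lit 78) (nat_lit 228) (nat_lit 0) (XT.lf (nat_lit 0) (nat_lit 7054955213) (nat_lit 152) (nat_lit 5730876257) (nat_lit 228) (nat_lit 2275155948)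 (nat_lit 94) (nat_lit 5) (nat_lit 96) (nat_lit 5) (nat_lit 97) (nat_lit 5) (nat_lit 444) (nat_lit 402) (nat_lit 354)) (XT.lf (nat_lit 0) (nat_lit 2112091066) (nat_lit 228) (nat_lit 13390569793) (nat_lit 76) (nat_lit 6652695) (nat_lit 91) (nat_lit 5) (nat_lit 94) (nat_lit 5) (nat_lit 92) (nat_lit 5) (nat_lit 445) (nat_lit 402) (nat_lit 353)))) (XT.nd (nat_lit 156) (nat_lit 228) (nat_lit 0) (XT.nd (nat_lit 78) (nat_lit 152) (nat_lit 0) (XT.lf (nat_lit 0) (nat_lit 6825707321) (nat_lit 228) (nat_lit 3161245967) (nat_lit 76) (nat_lit 5982066002) (nat_lit 91) (nat_lit 5) (nat_lit 94) (nat_lit 5) (nat_lit 92) (nat_lit 5) (nat_lit 446) (nat_lit 402) (nat_lit 352)) (XT.lf (nat_lit 0) (nat_lit 7749273966) (nat_lit 152) (nat_lit 4100727361) (nat_lit 228) (nat_lit 4597960594) (nat_lit 89) (nat_lit 5) (nat_lit 91) (nat_lit 5) (nat_lit 92) (nat_lit 5) (nat_lit 447) (nat_lit 402) (nat_lit 351))) (XT.nd (nat_lit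 78) (nat_lit 0) (nat_lit 0) (XT.lf (nat_lit 0) (nat_lit 248091487) (nat_lit 228) (nat_lit 14621651236) (nat_lit 76) (nat_lit 2077022768) (nat_lit 86) (nat_lit 5) (nat_lit 89) (nat_lit 5) (nat_lit 87) (nat_lit 5) (nat_lit 448) (nat_lit 402) (nat_lit 350)) (XT.lf (nat_lit 0) (nat_lit 5353602533) (nat_lit 228) (nat_lit 3485066086) (nat_lit 76) (nat_lit 8619489159) (nat_lit 86) (nat_lit 5) (nat_lit 89) (nat_lit 5) (nat_lit 87) (nat_lit 5) (nat_lit 449) (nat_lit 402) (nat_lit 349))))) (XT.nd (nat_lit 312) (nat_lit 380) (nat_lit 0) (XT.nd (nat_lit 156) (nat_lit 228) (nat_lit 0) (XT.nd (nat_lit 78) (nat_lit 76) (nat_lit 0) (XT.lf (nat_lit 0) (nat_lit 8402016181) (nat_lit 152) (nat_lit 2400429525) (nat_lit 228) (nat_lit 7188272339) (nat_lit 84) (nat_lit 5) (nat_lit 86) (nat_lit 5) (nat_lit 87) (nat_lit 5) (nat_lit 450) (nat_lit 402) (nat_lit 348)) (XT.lf (nat_lit 0) (nat_lit 2389276495) (nat_lit 76) (nat_lit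 14257092613) (nat_lit 152) (nat_lit 1897406455) (nat_lit 83) (nat_lit 5) (nat_lit 84) (nat_lit 5) (nat_lit 85) (nat_lit 4) (nat_lit 451) (nat_lit 402) (nat_lit 347))) (XT.nd (nat_lit 78) (nat_lit 152) (nat_lit 0) (XT.lf (nat_lit 0) (nat_lit 3702790152) (nat_lit 152) (nat_lit 3992278203) (nat_lit 76) (nat_lit 11418469734) (nat_lit 82) (nat_lit 5) (nat_lit 84) (nat_lit 5) (nat_lit 83) (nat_lit 5) (nat_lit 452) (nat_lit 402) (nat_lit 346)) (XT.lf (nat_lit 0) (nat_lit 8961547046) (nat_lit 152) (nat_lit 657088283) (nat_lit 228) (nat_lit 10086628941) (nat_lit 80) (nat_lit 5) (nat_lit 82) (nat_lit 5) (nat_lit 83) (nat_lit 5) (nat_lit 453) (nat_lit 402) (nat_lit 345)))) (XT.nd (nat_lit 156) (nat_lit 228) (nat_lit 0) (XT.nd (nat_lit 78) (nat_lit 76) (nat_lit 0) (XT.lf (nat_lit 0) (nat_lit 2272417821) (nat_lit 76) (nat_lit 13726990023) (nat_lit 152) (nat_lit 4318713100) (nat_lit 79) (nat_lit 5) (nat_lit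 80) (nat_lit 5) (nat_lit 81) (nat_lit 4) (nat_lit 454) (nat_lit 402) (nat_lit 344)) (XT.lf (nat_lit 0) (nat_lit 1837660645) (nat_lit 152) (nat_lit 4753761193) (nat_lit 76) (nat_lit 14361059221) (nat_lit 78) (nat_lit 5) (nat_lit 80) (nat_lit 5) (nat_lit 79) (nat_lit 5) (nat_lit 455) (nat_lit 402) (nat_lit 343))) (XT.nd (nat_lit 78) (nat_lit 76) (nat_lit 0) (XT.lf (nat_lit 0) (nat_lit 8281903420) (nat_lit 228) (nat_lit 12264369875) (nat_lit 76) (nat_lit 1062487394) (nat_lit 76) (nat_lit 5) (nat_lit 79) (nat_lit 5) (nat_lit 77) (nat_lit 4) (nat_lit 456) (nat_lit 402) (nat_lit 342)) (XT.lf (nat_lit 0) (nat_lit 1900594758) (nat_lit 76) (nat_lit 13329469129) (nat_lit 152) (nat_lit 7058705906) (nat_lit 75) (nat_lit 5) (nat_lit 76) (nat_lit 5) (nat_lit 77) (nat_lit 4) (nat_lit 457) (nat_lit 402) (nat_lit 341)))))) (XT.nd (nat_lit 624) (nat_lit 608) (nat_lit 0) (XT.nd (nat_lit 312) (nat_lit 456) (nat_lit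 0) (XT.nd (nat_lit 156) (nat_lit 76) (nat_lit 0) (XT.nd (nat_lit 78) (nat_lit 228) (nat_lit 0) (XT.lf (nat_lit 0) (nat_lit 17131198573) (nat_lit 76) (nat_lit 5565020171) (nat_lit 152) (nat_lit 298032024) (nat_lit 75) (nat_lit 5) (nat_lit 76) (nat_lit 5) (nat_lit 77) (nat_lit 4) (nat_lit 458) (nat_lit 402) (nat_lit 340)) (XT.lf (nat_lit 0) (nat_lit 6739827489) (nat_lit 228) (nat_lit 14247631188) (nat_lit 76) (nat_lit 2734398101) (nat_lit 72) (nat_lit 5) (nat_lit 75) (nat_lit 5) (nat_lit 73) (nat_lit 4) (nat_lit 459) (nat_lit 402) (nat_lit 339))) (XT.nd (nat_lit 78) (nat_lit 0) (nat_lit 0) (XT.lf (nat_lit 0) (nat_lit 1174327589) (nat_lit 76) (nat_lit 13120016183) (nat_lit 152) (nat_lit 10182516679) (nat_lit 71) (nat_lit 5) (nat_lit 72) (nat_lit 5) (nat_lit 73) (nat_lit 4) (nat_lit 460) (nat_lit 402) (nat_lit 338)) (XT.lf (nat_lit 0) (nat_lit 17796547720) (nat_lit 76) (nat_lit 4636300462) (nat_lit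 152) (nat_lit 2826453616) (nat_lit 71) (nat_lit 5) (nat_lit 72) (nat_lit 5) (nat_lit 73) (nat_lit 4) (nat_lit 461) (nat_lit 402) (nat_lit 337)))) (XT.nd (nat_lit 156) (nat_lit 228) (nat_lit 0) (XT.nd (nat_lit 78) (nat_lit 0) (nat_lit 0) (XT.lf (nat_lit 0) (nat_lit 4922257978) (nat_lit 228) (nat_lit 16813719912) (nat_lit 76) (nat_lit 4331985095) (nat_lit 68) (nat_lit 5) (nat_lit 71) (nat_lit 5) (nat_lit 69) (nat_lit 4) (nat_lit 462) (nat_lit 402) (nat_lit 336)) (XT.lf (nat_lit 0) (nat_lit 13134155949) (nat_lit 228) (nat_lit 32639867) (nat_lit 76) (nat_lit 13739408264) (nat_lit 68) (nat_lit 5) (nat_lit 71) (nat_lit 5) (nat_lit 69) (nat_lit 4) (nat_lit 463) (nat_lit 402) (nat_lit 335))) (XT.nd (nat_lit 78) (nat_lit 152) (nat_lit 0) (XT.lf (nat_lit 0) (nat_lit 18106373262) (nat_lit 76) (nat_lit 3900848695) (nat_lit 152) (nat_lit 5766607114) (nat_lit 67) (nat_lit 5) (nat_lit 68) (nat_lit 5) (nat_lit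 69) (nat_lit 4) (nat_lit 464) (nat_lit 402) (nat_lit 334)) (XT.lf (nat_lit 0) (nat_lit 2751556589) (nat_lit 152) (nat_lit 20127676812) (nat_lit 76) (nat_lit 5793696241) (nat_lit 65) (nat_lit 5) (nat_lit 67) (nat_lit 5) (nat_lit 66) (nat_lit 4) (nat_lit 465) (nat_lit 402) (nat_lit 333))))) (XT.nd (nat_lit 312) (nat_lit 380) (nat_lit 0) (XT.nd (nat_lit 156) (nat_lit 152) (nat_lit 0) (XT.nd (nat_lit 78) (nat_lit 76) (nat_lit 0) (XT.lf (nat_lit 0) (nat_lit 11700301827) (nat_lit 152) (nat_lit 1826607999) (nat_lit 76) (nat_lit 16075425662) (nat_lit 65) (nat_lit 5) (nat_lit 67) (nat_lit 5) (nat_lit 66) (nat_lit 4) (nat_lit 466) (nat_lit 402) (nat_lit 332)) (XT.lf (nat_lit 0) (nat_lit 17904600743) (nat_lit 76) (nat_lit 3441056764) (nat_lit 152) (nat_lit 9220095868) (nat_lit 64) (nat_lit 5) (nat_lit 65) (nat_lit 5) (nat_lit 66) (nat_lit 4) (nat_lit 467) (nat_lit 402) (nat_lit 331))) (XT.nd (nat_lit 78)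 (nat_lit 0) (nat_lit 0) (XT.lf (nat_lit 0) (nat_lit 127706796) (nat_lit 152) (nat_lit 24398942481) (nat_lit 76) (nat_lit 7039352617) (nat_lit 62) (nat_lit 5) (nat_lit 64) (nat_lit 5) (nat_lit 63) (nat_lit 4) (nat_lit 468) (nat_lit 402) (nat_lit 330)) (XT.lf (nat_lit 0) (nat_lit 9877215513) (nat_lit 152) (nat_lit 4448532455) (nat_lit 76) (nat_lit 18270749188) (nat_lit 62) (nat_lit 5) (nat_lit 64) (nat_lit 5) (nat_lit 63) (nat_lit 4) (nat_lit 469) (nat_lit 402) (nat_lit 329)))) (XT.nd (nat_lit 156) (nat_lit 228) (nat_lit 0) (XT.nd (nat_lit 78) (nat_lit 76) (nat_lit 0) (XT.lf (nat_lit 0) (nat_lit 16987716382) (nat_lit 76) (nat_lit 3362969107) (nat_lit 152) (nat_lit 13316007738) (nat_lit 61) (nat_lit 5) (nat_lit 62) (nat_lit 5) (nat_lit 63) (nat_lit 4) (nat_lit 470) (nat_lit 402) (nat_lit 328)) (XT.lf (nat_lit 0) (nat_lit 4834368695) (nat_lit 76) (nat_lit 26764091058) (nat_lit 76) (nat_lit 3179408129)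 (nat_lit 60) (nat_lit 4) (nat_lit 61) (nat_lit 5) (nat_lit 61) (nat_lit 4) (nat_lit 471) (nat_lit 402) (nat_lit 327))) (XT.nd (nat_lit 78) (nat_lit 152) (nat_lit 0) (XT.lf (nat_lit 0) (nat_lit 7538770855) (nat_lit 152) (nat_lit 8159888120) (nat_lit 76) (nat_lit 20224433635) (nat_lit 59) (nat_lit 5) (nat_lit 61) (nat_lit 5) (nat_lit 60) (nat_lit 4) (nat_lit 472) (nat_lit 402) (nat_lit 326)) (XT.nd (nat_lit 78) (nat_lit 76) (nat_lit 0) (XT.lf (nat_lit 0) (nat_lit 15090877157) (nat_lit 76) (nat_lit 3803521567) (nat_lit 152) (nat_lit 18218154612) (nat_lit 58) (nat_lit 5) (nat_lit 59) (nat_lit 5) (nat_lit 60) (nat_lit 4) (nat_lit 473) (nat_lit 402) (nat_lit 325)) (XT.lf (nat_lit 0) (nat_lit 1283082872) (nat_lit 76) (nat_lit 29803699691) (nat_lit 76) (nat_lit 7261256070) (nat_lit 57) (nat_lit 4) (nat_lit 58) (nat_lit 5) (nat_lit 58) (nat_lit 4) (nat_lit 474) (nat_lit 402) (nat_lit 324))))))))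
noncomputable def xc198 : XT := (XT.nd (nat_lit 1248) (nat_lit 1140) (nat_lit 0) (XT.nd (nat_lit 624) (nat_lit 532) (nat_lit 0) (XT.nd (nat_lit 312) (nat_lit 228) (nat_lit 0) (XT.nd (nat_lit 156) (nat_lit 152) (nat_lit 0) (XT.nd (nat_lit 78) (nat_lit 76) (nat_lit 0) (XT.lf (nat_lit 0) (nat_lit 4521990889) (nat_lit 152) (nat_lit 13296784588) (nat_lit 76) (nat_lit 21802494240) (nat_lit 56) (nat_lit 5) (nat_lit 58) (nat_lit 5) (nat_lit 57) (nat_lit 4) (nat_lit 475) (nat_lit 402) (nat_lit 323)) (XT.lf (nat_lit 0) (nat_lit 11870166092) (nat_lit 76) (nat_lit 4939732115) (nat_lit 152) (nat_lit 24134336335) (nat_lit 55) (nat_lit 5) (nat_lit 56) (nat_lit 5) (nat_lit 57) (nat_lit 4) (nat_lit 476) (nat_lit 402) (nat_lit 322))) (XT.nd (nat_lit 78) (nat_lit 152) (nat_lit 0) (XT.lf (nat_lit 0) (nat_lit 30049358711) (nat_lit 152) (nat_lit 3753274389) (nat_lit 0) (nat_lit 8513856835) (nat_lit 55) (nat_lit 5) (nat_lit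 57) (nat_lit 4) (nat_lit 55) (nat_lit 4) (nat_lit 477) (nat_lit 402) (nat_lit 321)) (XT.lf (nat_lit 0) (nat_lit 616846403) (nat_lit 152) (nat_lit 20291059026) (nat_lit 76) (nat_lit 22827821694) (nat_lit 53) (nat_lit 5) (nat_lit 55) (nat_lit 5) (nat_lit 54) (nat_lit 4) (nat_lit 478) (nat_lit 402) (nat_lit 320)))) (XT.nd (nat_lit 156) (nat_lit 152) (nat_lit 0) (XT.nd (nat_lit 78) (nat_lit 0) (nat_lit 0) (XT.lf (nat_lit 0) (nat_lit 6879914658) (nat_lit 76) (nat_lit 7000399641) (nat_lit 152) (nat_lit 31328179662) (nat_lit 52) (nat_lit 5) (nat_lit 53) (nat_lit 5) (nat_lit 54) (nat_lit 4) (nat_lit 479) (nat_lit 402) (nat_lit 319)) (XT.lf (nat_lit 0) (nat_lit 28250510893) (nat_lit 152) (nat_lit 10796417814) (nat_lit 0) (nat_lit 7685792849) (nat_lit 52) (nat_lit 5) (nat_lit 54) (nat_lit 4) (nat_lit 52) (nat_lit 4) (nat_lit 480) (nat_lit 402) (nat_lit 318))) (XT.nd (nat_lit 78) (nat_lit 76) (nat_lit 0)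 (XT.lf (nat_lit 0) (nat_lit 18545183326) (nat_lit 76) (nat_lit 25175086381) (nat_lit 76) (nat_lit 4593838370) (nat_lit 51) (nat_lit 4) (nat_lit 52) (nat_lit 5) (nat_lit 52) (nat_lit 4) (nat_lit 481) (nat_lit 402) (nat_lit 317)) (XT.lf (nat_lit 0) (nat_lit 9831859404) (nat_lit 152) (nat_lit 441679057) (nat_lit 76) (nat_lit 39685097057) (nat_lit 50) (nat_lit 5) (nat_lit 52) (nat_lit 5) (nat_lit 51) (nat_lit 4) (nat_lit 482) (nat_lit 402) (nat_lit 316))))) (XT.nd (nat_lit 312) (nat_lit 228) (nat_lit 0) (XT.nd (nat_lit 156) (nat_lit 152) (nat_lit 0) (XT.nd (nat_lit 78) (nat_lit 76) (nat_lit 0) (XT.lf (nat_lit 0) (nat_lit 25382745464) (nat_lit 152) (nat_lit 20518679739) (nat_lit 0) (nat_lit 5752284508) (nat_lit 49) (nat_lit 5) (nat_lit 51) (nat_lit 4) (nat_lit 49) (nat_lit 4) (nat_lit 483) (nat_lit 402) (nat_lit 315)) (XT.lf (nat_lit 0) (nat_lit 11012830236) (nat_lit 76) (nat_lit 31024236584) (nat_lit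 76) (nat_lit 11380176383) (nat_lit 48) (nat_lit 4) (nat_lit 49) (nat_lit 5) (nat_lit 49) (nat_lit 4) (nat_lit 484) (nat_lit 402) (nat_lit 314))) (XT.nd (nat_lit 78) (nat_lit 76) (nat_lit 0) (XT.lf (nat_lit 0) (nat_lit 4450100006) (nat_lit 152) (nat_lit 10534306848) (nat_lit 76) (nat_lit 40264667875) (nat_lit 47) (nat_lit 5) (nat_lit 49) (nat_lit 5) (nat_lit 48) (nat_lit 4) (nat_lit 485) (nat_lit 402) (nat_lit 313)) (XT.lf (nat_lit 0) (nat_lit 21072321961) (nat_lit 152) (nat_lit 33732093219) (nat_lit 0) (nat_lit 2339610744) (nat_lit 46) (nat_lit 5) (nat_lit 48) (nat_lit 4) (nat_lit 46) (nat_lit 4) (nat_lit 486) (nat_lit 402) (nat_lit 312)))) (XT.nd (nat_lit 156) (nat_lit 152) (nat_lit 0) (XT.nd (nat_lit 78) (nat_lit 0) (nat_lit 0) (XT.lf (nat_lit 0) (nat_lit 6211177) (nat_lit 76) (nat_lit 38925553735) (nat_lit 76) (nat_lit 20181654386) (nat_lit 45) (nat_lit 4) (nat_lit 46) (nat_lit 5) (nat_lit 46)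 (nat_lit 4) (nat_lit 487) (nat_lit 402) (nat_lit 311)) (XT.lf (nat_lit 0) (nat_lit 36561383442) (nat_lit 76) (nat_lit 21673460269) (nat_lit 76) (nat_lit 2918905555) (nat_lit 45) (nat_lit 4) (nat_lit 46) (nat_lit 5) (nat_lit 46) (nat_lit 4) (nat_lit 488) (nat_lit 402) (nat_lit 310))) (XT.nd (nat_lit 78) (nat_lit 0) (nat_lit 0) (XT.lf (nat_lit 0) (nat_lit 11746920237) (nat_lit 76) (nat_lit 3136798258) (nat_lit 152) (nat_lit 48392333350) (nat_lit 43) (nat_lit 5) (nat_lit 44) (nat_lit 5) (nat_lit 45) (nat_lit 4) (nat_lit 489) (nat_lit 402) (nat_lit 309)) (XT.lf (nat_lit 0) (nat_lit 34136681584) (nat_lit 152) (nat_lit 15076148738) (nat_lit 0) (nat_lit 16256331671) (nat_lit 43) (nat_lit 5) (nat_lit 45) (nat_lit 4) (nat_lit 43) (nat_lit 4) (nat_lit 490) (nat_lit 402) (nat_lit 308)))))) (XT.nd (nat_lit 624) (nat_lit 608) (nat_lit 0) (XT.nd (nat_lit 312) (nat_lit 228) (nat_lit 0) (XT.nd (nat_lit 156) (nat_lit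 152) (nat_lit 0) (XT.nd (nat_lit 78) (nat_lit 76) (nat_lit 0) (XT.lf (nat_lit 0) (nat_lit 23874201642) (nat_lit 76) (nat_lit 30883291104) (nat_lit 76) (nat_lit 12994174996) (nat_lit 42) (nat_lit 4) (nat_lit 43) (nat_lit 5) (nat_lit 43) (nat_lit 4) (nat_lit 491) (nat_lit 402) (nat_lit 307)) (XT.lf (nat_lit 0) (nat_lit 6301208349) (nat_lit 152) (nat_lit 4979987748) (nat_lit 76) (nat_lit 58850187380) (nat_lit 41) (nat_lit 5) (nat_lit 43) (nat_lit 5) (nat_lit 42) (nat_lit 4) (nat_lit 492) (nat_lit 402) (nat_lit 306))) (XT.nd (nat_lit 78) (nat_lit 76) (nat_lit 0) (XT.lf (nat_lit 0) (nat_lit 26838867554) (nat_lit 152) (nat_lit 35958766394) (nat_lit 0) (nat_lit 9786090354) (nat_lit 40) (nat_lit 5) (nat_lit 42) (nat_lit 4) (nat_lit 40) (nat_lit 4) (nat_lit 493) (nat_lit 402) (nat_lit 305)) (XT.lf (nat_lit 0) (nat_lit 5274876341) (nat_lit 76) (nat_lit 43463522801) (nat_lit 76) (nat_lit 26403533631) (nat_lit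 39) (nat_lit 4) (nat_lit 40) (nat_lit 5) (nat_lit 40) (nat_lit 4) (nat_lit 494) (nat_lit 402) (nat_lit 304)))) (XT.nd (nat_lit 156) (nat_lit 76) (nat_lit 0) (XT.nd (nat_lit 78) (nat_lit 152) (nat_lit 0) (XT.lf (nat_lit 0) (nat_lit 49782980510) (nat_lit 76) (nat_lit 22541183063) (nat_lit 76) (nat_lit 5474325350) (nat_lit 39) (nat_lit 4) (nat_lit 40) (nat_lit 5) (nat_lit 40) (nat_lit 4) (nat_lit 495) (nat_lit 402) (nat_lit 303)) (XT.lf (nat_lit 0) (nat_lit 16153499023) (nat_lit 76) (nat_lit 54744003) (nat_lit 152) (nat_lit 64354996023) (nat_lit 37) (nat_lit 5) (nat_lit 38) (nat_lit 5) (nat_lit 39) (nat_lit 4) (nat_lit 496) (nat_lit 402) (nat_lit 302))) (XT.nd (nat_lit 78) (nat_lit 76) (nat_lit 0) (XT.lf (nat_lit 0) (nat_lit 39623840968) (nat_lit 152) (nat_lit 20438727415) (nat_lit 0) (nat_lit 23357527489) (nat_lit 37) (nat_lit 5) (nat_lit 39) (nat_lit 4) (nat_lit 37) (nat_lit 4) (nat_lit 497) (nat_lit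 402) (nat_lit 301)) (XT.lf (nat_lit 0) (nat_lit 26546723990) (nat_lit 76) (nat_lit 38062541751) (nat_lit 76) (nat_lit 21790577506) (nat_lit 36) (nat_lit 4) (nat_lit 37) (nat_lit 5) (nat_lit 37) (nat_lit 4) (nat_lit 498) (nat_lit 402) (nat_lit 300))))) (XT.nd (nat_lit 312) (nat_lit 380) (nat_lit 0) (XT.nd (nat_lit 156) (nat_lit 76) (nat_lit 0) (XT.nd (nat_lit 78) (nat_lit 76) (nat_lit 0) (XT.lf (nat_lit 0) (nat_lit 1608787151) (nat_lit 152) (nat_lit 12979332268) (nat_lit 76) (nat_lit 74922656589) (nat_lit 35) (nat_lit 5) (nat_lit 37) (nat_lit 5) (nat_lit 36) (nat_lit 4) (nat_lit 499) (nat_lit 402) (nat_lit 299)) (XT.lf (nat_lit 0) (nat_lit 26180653390) (nat_lit 152) (nat_lit 55868461130) (nat_lit 0) (nat_lit 10673537827) (nat_lit 34) (nat_lit 5) (nat_lit 36) (nat_lit 4) (nat_lit 34) (nat_lit 4) (nat_lit 500) (nat_lit 402) (nat_lit 298))) (XT.nd (nat_lit 78) (nat_lit 76) (nat_lit 0) (XT.lf (nat_lit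 0) (nat_lit 52428159592) (nat_lit 152) (nat_lit 6728215496) (nat_lit 0) (nat_lit 36916395129) (nat_lit 34) (nat_lit 5) (nat_lit 36) (nat_lit 4) (nat_lit 34) (nat_lit 4) (nat_lit 501) (nat_lit 402) (nat_lit 297)) (XT.lf (nat_lit 0) (nat_lit 46321786411) (nat_lit 76) (nat_lit 34374688945) (nat_lit 76) (nat_lit 18858496958) (nat_lit 33) (nat_lit 4) (nat_lit 34) (nat_lit 5) (nat_lit 34) (nat_lit 4) (nat_lit 502) (nat_lit 402) (nat_lit 296)))) (XT.nd (nat_lit 156) (nat_lit 228) (nat_lit 0) (XT.nd (nat_lit 78) (nat_lit 76) (nat_lit 0) (XT.lf (nat_lit 0) (nat_lit 7038578055) (nat_lit 152) (nat_lit 1091323663) (nat_lit 76) (nat_lit 95070735955) (nat_lit 32) (nat_lit 5) (nat_lit 34) (nat_lit 5) (nat_lit 33) (nat_lit 4) (nat_lit 503) (nat_lit 402) (nat_lit 295)) (XT.lf (nat_lit 0) (nat_lit 34764924396) (nat_lit 152) (nat_lit 52210036683) (nat_lit 0) (nat_lit 19979758138) (nat_lit 31) (nat_lit 5) (nat_lit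 33) (nat_lit 4) (nat_lit 31) (nat_lit 4) (nat_lit 504) (nat_lit 402) (nat_lit 294))) (XT.nd (nat_lit 78) (nat_lit 152) (nat_lit 0) (XT.lf (nat_lit 0) (nat_lit 2430569169) (nat_lit 76) (nat_lit 61622973387) (nat_lit 76) (nat_lit 46834164595) (nat_lit 30) (nat_lit 4) (nat_lit 31) (nat_lit 5) (nat_lit 31) (nat_lit 4) (nat_lit 505) (nat_lit 402) (nat_lit 293)) (XT.nd (nat_lit 78) (nat_lit 152) (nat_lit 0) (XT.lf (nat_lit 0) (nat_lit 61587837854) (nat_lit 76) (nat_lit 34089132793) (nat_lit 76) (nat_lit 19296854919) (nat_lit 30) (nat_lit 4) (nat_lit 31) (nat_lit 5) (nat_lit 31) (nat_lit 4) (nat_lit 506) (nat_lit 402) (nat_lit 292)) (XT.lf (nat_lit 0) (nat_lit 4402378325) (nat_lit 76) (nat_lit 4962480252) (nat_lit 152) (nat_lit 109889116060) (nat_lit 28) (nat_lit 5) (nat_lit 29) (nat_lit 5) (nat_lit 30) (nat_lit 4) (nat_lit 507) (nat_lit 402) (nat_lit 291))))))))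
noncomputable def xc199 : XT := (XT.nd (nat_lit 1248) (nat_lit 608) (nat_lit 0) (XT.nd (nat_lit 624) (nat_lit 456) (nat_lit 0) (XT.nd (nat_lit 312) (nat_lit 152) (nat_lit 0) (XT.nd (nat_lit 156) (nat_lit 76) (nat_lit 0) (XT.nd (nat_lit 78) (nat_lit 76) (nat_lit 0) (XT.lf (nat_lit 0) (nat_lit 40116733411) (nat_lit 152) (nat_lit 57527595418) (nat_lit 0) (nat_lit 26022706441) (nat_lit 28) (nat_lit 5) (nat_lit 30) (nat_lit 4) (nat_lit 28) (nat_lit 4) (nat_lit 508) (nat_lit 402) (nat_lit 290)) (XT.lf (nat_lit 0) (nat_lit 2639936036) (nat_lit 76) (nat_lit 69876101082) (nat_lit 76) (nat_lit 55779220091) (nat_lit 27) (nat_lit 4) (nat_lit 28) (nat_lit 5) (nat_lit 28) (nat_lit 4) (nat_lit 509) (nat_lit 402) (nat_lit 289))) (XT.nd (nat_lit 78) (nat_lit 76) (nat_lit 0) (XT.lf (nat_lit 0) (nat_lit 67787676807) (nat_lit 76) (nat_lit 39709362943) (nat_lit 76) (nat_lit 25609763836) (nat_lit 27) (nat_lit 4) (nat_lit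 28) (nat_lit 5) (nat_lit 28) (nat_lit 4) (nat_lit 510) (nat_lit 402) (nat_lit 288)) (XT.lf (nat_lit 0) (nat_lit 5861822939) (nat_lit 152) (nat_lit 2085450761) (nat_lit 76) (nat_lit 130207522708) (nat_lit 26) (nat_lit 5) (nat_lit 28) (nat_lit 5) (nat_lit 27) (nat_lit 4) (nat_lit 511) (nat_lit 402) (nat_lit 287)))) (XT.nd (nat_lit 156) (nat_lit 76) (nat_lit 0) (XT.nd (nat_lit 78) (nat_lit 0) (nat_lit 0) (XT.lf (nat_lit 0) (nat_lit 39485089614) (nat_lit 152) (nat_lit 77825083278) (nat_lit 0) (nat_lit 26052086567) (nat_lit 25) (nat_lit 5) (nat_lit 27) (nat_lit 4) (nat_lit 25) (nat_lit 4) (nat_lit 512) (nat_lit 402) (nat_lit 286)) (XT.lf (nat_lit 0) (nat_lit 74944161788) (nat_lit 152) (nat_lit 12369279249) (nat_lit 0) (nat_lit 61508922541) (nat_lit 25) (nat_lit 5) (nat_lit 27) (nat_lit 4) (nat_lit 25) (nat_lit 4) (nat_lit 513) (nat_lit 402) (nat_lit 285))) (XT.nd (nat_lit 78) (nat_lit 0) (nat_lit 0)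 (XT.lf (nat_lit 0) (nat_lit 58199762320) (nat_lit 76) (nat_lit 54874097965) (nat_lit 76) (nat_lit 41436729003) (nat_lit 24) (nat_lit 4) (nat_lit 25) (nat_lit 5) (nat_lit 25) (nat_lit 4) (nat_lit 514) (nat_lit 402) (nat_lit 284)) (XT.lf (nat_lit 0) (nat_lit 132704740707) (nat_lit 76) (nat_lit 20603974638) (nat_lit 76) (nat_lit 7164577376) (nat_lit 24) (nat_lit 4) (nat_lit 25) (nat_lit 5) (nat_lit 25) (nat_lit 4) (nat_lit 515) (nat_lit 402) (nat_lit 283))))) (XT.nd (nat_lit 312) (nat_lit 228) (nat_lit 0) (XT.nd (nat_lit 156) (nat_lit 76) (nat_lit 0) (XT.nd (nat_lit 78) (nat_lit 0) (nat_lit 0) (XT.lf (nat_lit 0) (nat_lit 28852468459) (nat_lit 152) (nat_lit 121760273926) (nat_lit 0) (nat_lit 16051202768) (nat_lit 22) (nat_lit 5) (nat_lit 24) (nat_lit 4) (nat_lit 22) (nat_lit 4) (nat_lit 516) (nat_lit 402) (nat_lit 282)) (XT.lf (nat_lit 0) (nat_lit 67234887008) (nat_lit 152) (nat_lit 51451236558) (nat_lit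 0) (nat_lit 54431869195) (nat_lit 22) (nat_lit 5) (nat_lit 24) (nat_lit 4) (nat_lit 22) (nat_lit 4) (nat_lit 517) (nat_lit 402) (nat_lit 281))) (XT.nd (nat_lit 78) (nat_lit 0) (nat_lit 0) (XT.lf (nat_lit 0) (nat_lit 23092100755) (nat_lit 76) (nat_lit 84794899901) (nat_lit 76) (nat_lit 71990213401) (nat_lit 21) (nat_lit 4) (nat_lit 22) (nat_lit 5) (nat_lit 22) (nat_lit 4) (nat_lit 518) (nat_lit 402) (nat_lit 280)) (XT.lf (nat_lit 0) (nat_lit 103128958833) (nat_lit 76) (nat_lit 48304317748) (nat_lit 76) (nat_lit 35498042022) (nat_lit 21) (nat_lit 4) (nat_lit 22) (nat_lit 5) (nat_lit 22) (nat_lit 4) (nat_lit 519) (nat_lit 402) (nat_lit 279)))) (XT.nd (nat_lit 156) (nat_lit 76) (nat_lit 0) (XT.nd (nat_lit 78) (nat_lit 76) (nat_lit 0) (XT.lf (nat_lit 0) (nat_lit 2719039201) (nat_lit 152) (nat_lit 7233758911) (nat_lit 76) (nat_lit 184383603937) (nat_lit 20) (nat_lit 5) (nat_lit 22) (nat_lit 5) (nat_lit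 21) (nat_lit 4) (nat_lit 520) (nat_lit 402) (nat_lit 278)) (XT.lf (nat_lit 0) (nat_lit 43317250990) (nat_lit 152) (nat_lit 127564246150) (nat_lit 0) (nat_lit 31117983610) (nat_lit 19) (nat_lit 5) (nat_lit 21) (nat_lit 4) (nat_lit 19) (nat_lit 4) (nat_lit 521) (nat_lit 402) (nat_lit 277))) (XT.nd (nat_lit 78) (nat_lit 76) (nat_lit 0) (XT.lf (nat_lit 0) (nat_lit 86224024014) (nat_lit 152) (nat_lit 49784307680) (nat_lit 0) (nat_lit 74023449174) (nat_lit 19) (nat_lit 5) (nat_lit 21) (nat_lit 4) (nat_lit 19) (nat_lit 4) (nat_lit 522) (nat_lit 402) (nat_lit 276)) (XT.lf (nat_lit 0) (nat_lit 32920805485) (nat_lit 76) (nat_lit 98860720521) (nat_lit 76) (nat_lit 86658900481) (nat_lit 18) (nat_lit 4) (nat_lit 19) (nat_lit 5) (nat_lit 19) (nat_lit 4) (nat_lit 523) (nat_lit 402) (nat_lit 275)))))) (XT.nd (nat_lit 624) (nat_lit 304) (nat_lit 0) (XT.nd (nat_lit 312) (nat_lit 152) (nat_lit 0) (XT.nd (nat_lit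 156) (nat_lit 152) (nat_lit 0) (XT.nd (nat_lit 78) (nat_lit 0) (nat_lit 0) (XT.lf (nat_lit 0) (nat_lit 121472361612) (nat_lit 76) (nat_lit 58979207711) (nat_lit 76) (nat_lit 46776201766) (nat_lit 18) (nat_lit 4) (nat_lit 19) (nat_lit 5) (nat_lit 19) (nat_lit 4) (nat_lit 524) (nat_lit 402) (nat_lit 274)) (XT.lf (nat_lit 0) (nat_lit 214435103695) (nat_lit 76) (nat_lit 17111958621) (nat_lit 76) (nat_lit 4907823243) (nat_lit 18) (nat_lit 4) (nat_lit 19) (nat_lit 5) (nat_lit 19) (nat_lit 4) (nat_lit 525) (nat_lit 402) (nat_lit 273))) (XT.nd (nat_lit 78) (nat_lit 0) (nat_lit 0) (XT.lf (nat_lit 0) (nat_lit 39295375806) (nat_lit 152) (nat_lit 179071558920) (nat_lit 0) (nat_lit 27671365302) (nat_lit 16) (nat_lit 5) (nat_lit 18) (nat_lit 4) (nat_lit 16) (nat_lit 4) (nat_lit 526) (nat_lit 402) (nat_lit 272)) (XT.lf (nat_lit 0) (nat_lit 86195561297) (nat_lit 152) (nat_lit 95298137904) (nat_lit 0) (nat_lit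 74570575147) (nat_lit 16) (nat_lit 5) (nat_lit 18) (nat_lit 4) (nat_lit 16) (nat_lit 4) (nat_lit 527) (nat_lit 402) (nat_lit 271)))) (XT.nd (nat_lit 156) (nat_lit 76) (nat_lit 0) (XT.nd (nat_lit 78) (nat_lit 76) (nat_lit 0) (XT.lf (nat_lit 0) (nat_lit 135433335673) (nat_lit 152) (nat_lit 7351162406) (nat_lit 0) (nat_lit 123807420335) (nat_lit 16) (nat_lit 5) (nat_lit 18) (nat_lit 4) (nat_lit 16) (nat_lit 4) (nat_lit 528) (nat_lit 402) (nat_lit 270)) (XT.lf (nat_lit 0) (nat_lit 87788546882) (nat_lit 76) (nat_lit 100708010089) (nat_lit 76) (nat_lit 89081209810) (nat_lit 15) (nat_lit 4) (nat_lit 16) (nat_lit 5) (nat_lit 16) (nat_lit 4) (nat_lit 529) (nat_lit 402) (nat_lit 269))) (XT.nd (nat_lit 78) (nat_lit 76) (nat_lit 0) (XT.lf (nat_lit 0) (nat_lit 187926292868) (nat_lit 76) (nat_lit 56404190297) (nat_lit 76) (nat_lit 44776547219) (nat_lit 15) (nat_lit 4) (nat_lit 16) (nat_lit 5) (nat_lit 16) (nat_lit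 4) (nat_lit 530) (nat_lit 402) (nat_lit 268)) (XT.lf (nat_lit 0) (nat_lit 1680821289) (nat_lit 152) (nat_lit 8182762102) (nat_lit 76) (nat_lit 291348149316) (nat_lit 14) (nat_lit 5) (nat_lit 16) (nat_lit 5) (nat_lit 15) (nat_lit 4) (nat_lit 531) (nat_lit 402) (nat_lit 267))))) (XT.nd (nat_lit 312) (nat_lit 152) (nat_lit 0) (XT.nd (nat_lit 156) (nat_lit 76) (nat_lit 0) (XT.nd (nat_lit 78) (nat_lit 0) (nat_lit 0) (XT.lf (nat_lit 0) (nat_lit 51025149726) (nat_lit 152) (nat_lit 222806663033) (nat_lit 0) (nat_lit 39949711449) (nat_lit 13) (nat_lit 5) (nat_lit 15) (nat_lit 4) (nat_lit 13) (nat_lit 4) (nat_lit 532) (nat_lit 402) (nat_lit 266)) (XT.lf (nat_lit 0) (nat_lit 103132837149) (nat_lit 152) (nat_lit 131775455518) (nat_lit 0) (nat_lit 92056705498) (nat_lit 13) (nat_lit 5) (nat_lit 15) (nat_lit 4) (nat_lit 13) (nat_lit 4) (nat_lit 533) (nat_lit 402) (nat_lit 265))) (XT.nd (nat_lit 78) (nat_lit 76)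 (nat_lit 0) (XT.lf (nat_lit 0) (nat_lit 157839807660) (nat_lit 152) (nat_lit 36205127578) (nat_lit 0) (nat_lit 146763015653) (nat_lit 13) (nat_lit 5) (nat_lit 15) (nat_lit 4) (nat_lit 13) (nat_lit 4) (nat_lit 534) (nat_lit 402) (nat_lit 264)) (XT.lf (nat_lit 0) (nat_lit 66252358408) (nat_lit 76) (nat_lit 150058342528) (nat_lit 76) (nat_lit 138980921610) (nat_lit 12) (nat_lit 4) (nat_lit 13) (nat_lit 5) (nat_lit 13) (nat_lit 4) (nat_lit 535) (nat_lit 402) (nat_lit 263)))) (XT.nd (nat_lit 156) (nat_lit 152) (nat_lit 0) (XT.nd (nat_lit 78) (nat_lit 0) (nat_lit 0) (XT.lf (nat_lit 0) (nat_lit 175078022488) (nat_lit 76) (nat_lit 103234551709) (nat_lit 76) (nat_lit 92156531829) (nat_lit 12) (nat_lit 4) (nat_lit 13) (nat_lit 5) (nat_lit 13) (nat_lit 4) (nat_lit 536) (nat_lit 402) (nat_lit 262)) (XT.lf (nat_lit 0) (nat_lit 289333868360) (nat_lit 76) (nat_lit 54075228918) (nat_lit 76) (nat_lit 42996638598)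 (nat_lit 12) (nat_lit 4) (nat_lit 13) (nat_lit 5) (nat_lit 13) (nat_lit 4) (nat_lit 537) (nat_lit 402) (nat_lit 261))) (XT.nd (nat_lit 78) (nat_lit 0) (nat_lit 0) (XT.lf (nat_lit 0) (nat_lit 6216941375) (nat_lit 76) (nat_lit 2220168367) (nat_lit 152) (nat_lit 394690767676) (nat_lit 10) (nat_lit 5) (nat_lit 11) (nat_lit 5) (nat_lit 12) (nat_lit 4) (nat_lit 538) (nat_lit 402) (nat_lit 260)) (XT.nd (nat_lit 78) (nat_lit 0) (nat_lit 0) (XT.lf (nat_lit 0) (nat_lit 63478637690) (nat_lit 152) (nat_lit 304121603032) (nat_lit 0) (nat_lit 52926589115) (nat_lit 10) (nat_lit 5) (nat_lit 12) (nat_lit 4) (nat_lit 10) (nat_lit 4) (nat_lit 539) (nat_lit 402) (nat_lit 259)) (XT.lf (nat_lit 0) (nat_lit 121303621177) (nat_lit 152) (nat_lit 206739436446) (nat_lit 0) (nat_lit 110751103300) (nat_lit 10) (nat_lit 5) (nat_lit 12) (nat_lit 4) (nat_lit 10) (nat_lit 4) (nat_lit 540) (nat_lit 402) (nat_lit 258))))))))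
noncomputable def xc200 : XT := (XT.nd (nat_lit 51792) (nat_lit 0) (nat_lit 11704) (XT.nd (nat_lit 624) (nat_lit 76) (nat_lit 0) (XT.nd (nat_lit 312) (nat_lit 152) (nat_lit 0) (XT.nd (nat_lit 156) (nat_lit 0) (nat_lit 0) (XT.nd (nat_lit 78) (nat_lit 76) (nat_lit 0) (XT.lf (nat_lit 0) (nat_lit 182015075687) (nat_lit 152) (nat_lit 104497910936) (nat_lit 0) (nat_lit 171462110854) (nat_lit 10) (nat_lit 5) (nat_lit 12) (nat_lit 4) (nat_lit 10) (nat_lit 4) (nat_lit 541) (nat_lit 402) (nat_lit 257)) (XT.lf (nat_lit 0) (nat_lit 2940520728) (nat_lit 76) (nat_lit 242862941341) (nat_lit 76) (nat_lit 232309550837) (nat_lit 9) (nat_lit 4) (nat_lit 10) (nat_lit 5) (nat_lit 10) (nat_lit 4) (nat_lit 542) (nat_lit 402) (nat_lit 256))) (XT.nd (nat_lit 78) (nat_lit 0) (nat_lit 0) (XT.lf (nat_lit 0) (nat_lit 119369670095) (nat_lit 76) (nat_lit 195176843807) (nat_lit 76) (nat_lit 184623047901) (nat_lit 9) (nat_lit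 4) (nat_lit 10) (nat_lit 5) (nat_lit 10) (nat_lit 4) (nat_lit 543) (nat_lit 402) (nat_lit 255)) (XT.lf (nat_lit 0) (nat_lit 241611576562) (nat_lit 76) (nat_lit 145110878379) (nat_lit 76) (nat_lit 134556696377) (nat_lit 9) (nat_lit 4) (nat_lit 10) (nat_lit 5) (nat_lit 10) (nat_lit 4) (nat_lit 544) (nat_lit 402) (nat_lit 254)))) (XT.nd (nat_lit 156) (nat_lit 152) (nat_lit 0) (XT.nd (nat_lit 78) (nat_lit 0) (nat_lit 0) (XT.lf (nat_lit 0) (nat_lit 369957292287) (nat_lit 76) (nat_lit 92545840379) (nat_lit 76) (nat_lit 81991290666) (nat_lit 9) (nat_lit 4) (nat_lit 10) (nat_lit 5) (nat_lit 10) (nat_lit 4) (nat_lit 545) (nat_lit 402) (nat_lit 253)) (XT.lf (nat_lit 0) (nat_lit 504712402308) (nat_lit 76) (nat_lit 37356574953) (nat_lit 76) (nat_lit 26801675039) (nat_lit 9) (nat_lit 4) (nat_lit 10) (nat_lit 5) (nat_lit 10) (nat_lit 4) (nat_lit 546) (nat_lit 402) (nat_lit 252))) (XT.nd (nat_lit 78) (nat_lit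 0) (nat_lit 0) (XT.lf (nat_lit 0) (nat_lit 31316271032) (nat_lit 152) (nat_lit 541803150921) (nat_lit 0) (nat_lit 21263667757) (nat_lit 7) (nat_lit 5) (nat_lit 9) (nat_lit 4) (nat_lit 7) (nat_lit 4) (nat_lit 547) (nat_lit 402) (nat_lit 251)) (XT.lf (nat_lit 0) (nat_lit 93152426356) (nat_lit 152) (nat_lit 444811582288) (nat_lit 0) (nat_lit 83099520564) (nat_lit 7) (nat_lit 5) (nat_lit 9) (nat_lit 4) (nat_lit 7) (nat_lit 4) (nat_lit 548) (nat_lit 402) (nat_lit 250))))) (XT.nd (nat_lit 312) (nat_lit 76) (nat_lit 0) (XT.nd (nat_lit 156) (nat_lit 0) (nat_lit 0) (XT.nd (nat_lit 78) (nat_lit 0) (nat_lit 0) (XT.lf (nat_lit 0) (nat_lit 158076825438) (nat_lit 152) (nat_lit 342977711911) (nat_lit 0) (nat_lit 148023631535) (nat_lit 7) (nat_lit 5) (nat_lit 9) (nat_lit 4) (nat_lit 7) (nat_lit 4) (nat_lit 549) (nat_lit 402) (nat_lit 249)) (XT.lf (nat_lit 0) (nat_lit 226244050181) (nat_lit 152) (nat_lit 236059078194)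 (nat_lit 0) (nat_lit 216190581887) (nat_lit 7) (nat_lit 5) (nat_lit 9) (nat_lit 4) (nat_lit 7) (nat_lit 4) (nat_lit 550) (nat_lit 402) (nat_lit 248))) (XT.nd (nat_lit 78) (nat_lit 0) (nat_lit 0) (XT.lf (nat_lit 0) (nat_lit 297816403501) (nat_lit 152) (nat_lit 123801112962) (nat_lit 0) (nat_lit 287762673881) (nat_lit 7) (nat_lit 5) (nat_lit 9) (nat_lit 4) (nat_lit 7) (nat_lit 4) (nat_lit 551) (nat_lit 402) (nat_lit 247)) (XT.lf (nat_lit 0) (nat_lit 372964295763) (nat_lit 152) (nat_lit 5936535346) (nat_lit 0) (nat_lit 362910317261) (nat_lit 7) (nat_lit 5) (nat_lit 9) (nat_lit 4) (nat_lit 7) (nat_lit 4) (nat_lit 552) (nat_lit 402) (nat_lit 246)))) (XT.nd (nat_lit 156) (nat_lit 0) (nat_lit 0) (XT.nd (nat_lit 78) (nat_lit 0) (nat_lit 0) (XT.lf (nat_lit 0) (nat_lit 121710789980) (nat_lit 76) (nat_lit 332056107065) (nat_lit 76) (nat_lit 322001891534) (nat_lit 6) (nat_lit 4) (nat_lit 7) (nat_lit 5) (nat_lit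 7) (nat_lit 4) (nat_lit 553) (nat_lit 402) (nat_lit 245)) (XT.lf (nat_lit 0) (nat_lit 255940694682) (nat_lit 76) (nat_lit 282766587355) (nat_lit 76) (nat_lit 272712146081) (nat_lit 6) (nat_lit 4) (nat_lit 7) (nat_lit 5) (nat_lit 7) (nat_lit 4) (nat_lit 554) (nat_lit 402) (nat_lit 244))) (XT.nd (nat_lit 50622) (nat_lit 0) (nat_lit 15960) (XT.lf (nat_lit 0) (nat_lit 396876485104) (nat_lit 76) (nat_lit 231015454077) (nat_lit 76) (nat_lit 220960797810) (nat_lit 6) (nat_lit 4) (nat_lit 7) (nat_lit 5) (nat_lit 7) (nat_lit 4) (nat_lit 555) (nat_lit 402) (nat_lit 243)) (XT.lf (nat_lit 0) (nat_lit 1088761182) (nat_lit 0) (nat_lit 1088761182) (nat_lit 228) (nat_lit 1094686228) (nat_lit 216) (nat_lit 5) (nat_lit 216) (nat_lit 3) (nat_lit 219) (nat_lit 3) (nat_lit 403) (nat_lit 403) (nat_lit 394)))))) (XT.nd (nat_lit 624) (nat_lit 3116) (nat_lit 0) (XT.nd (nat_lit 312) (nat_lit 456) (nat_lit 0) (XT.nd (nat_lit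 156) (nat_lit 304) (nat_lit 0) (XT.nd (nat_lit 78) (nat_lit 0) (nat_lit 0) (XT.lf (nat_lit 0) (nat_lit 345055209) (nat_lit 380) (nat_lit 1069849367) (nat_lit 380) (nat_lit 5168706473) (nat_lit 211) (nat_lit 3) (nat_lit 216) (nat_lit 3) (nat_lit 216) (nat_lit 5) (nat_lit 404) (nat_lit 403) (nat_lit 393)) (XT.lf (nat_lit 76) (nat_lit 2346655987) (nat_lit 0) (nat_lit 461467897) (nat_lit 380) (nat_lit 3821090617) (nat_lit 212) (nat_lit 5) (nat_lit 211) (nat_lit 3) (nat_lit 216) (nat_lit 5) (nat_lit 405) (nat_lit 403) (nat_lit 392))) (XT.nd (nat_lit 78) (nat_lit 380) (nat_lit 0) (XT.lf (nat_lit 0) (nat_lit 5267536140) (nat_lit 304) (nat_lit 805902605) (nat_lit 380) (nat_lit 610018257) (nat_lit 212) (nat_lit 5) (nat_lit 216) (nat_lit 5) (nat_lit 217) (nat_lit 5) (nat_lit 406) (nat_lit 403) (nat_lit 391)) (XT.lf (nat_lit 0) (nat_lit 978005843) (nat_lit 380) (nat_lit 3920730594) (nat_lit 456) (nat_lit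 1845625260) (nat_lit 207) (nat_lit 5) (nat_lit 212) (nat_lit 5) (nat_lit 213) (nat_lit 5) (nat_lit 407) (nat_lit 403) (nat_lit 390)))) (XT.nd (nat_lit 156) (nat_lit 456) (nat_lit 0) (XT.nd (nat_lit 78) (nat_lit 0) (nat_lit 0) (XT.lf (nat_lit 0) (nat_lit 3314880584) (nat_lit 380) (nat_lit 259505338) (nat_lit 456) (nat_lit 3239239199) (nat_lit 207) (nat_lit 5) (nat_lit 212) (nat_lit 5) (nat_lit 213) (nat_lit 5) (nat_lit 408) (nat_lit 403) (nat_lit 389)) (XT.lf (nat_lit 76) (nat_lit 3613717781) (nat_lit 0) (nat_lit 2075076621) (nat_lit 456) (nat_lit 1201562674) (nat_lit 208) (nat_lit 5) (nat_lit 207) (nat_lit 5) (nat_lit 213) (nat_lit 5) (nat_lit 409) (nat_lit 403) (nat_lit 388))) (XT.nd (nat_lit 78) (nat_lit 0) (nat_lit 76) (XT.lf (nat_lit 76) (nat_lit 630365075) (nat_lit 0) (nat_lit 422446163) (nat_lit 532) (nat_lit 5923129371) (nat_lit 202) (nat_lit 5) (nat_lit 201) (nat_lit 5) (nat_lit 208) (nat_lit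 5) (nat_lit 410) (nat_lit 403) (nat_lit 387)) (XT.lf (nat_lit 0) (nat_lit 3328778409) (nat_lit 456) (nat_lit 2353003834) (nat_lit 76) (nat_lit 1385586507) (nat_lit 202) (nat_lit 5) (nat_lit 208) (nat_lit 5) (nat_lit 203) (nat_lit 5) (nat_lit 411) (nat_lit 403) (nat_lit 386))))) (XT.nd (nat_lit 312) (nat_lit 1520) (nat_lit 0) (XT.nd (nat_lit 156) (nat_lit 1140) (nat_lit 0) (XT.nd (nat_lit 78) (nat_lit 76) (nat_lit 0) (XT.lf (nat_lit 0) (nat_lit 1799044039) (nat_lit 456) (nat_lit 3832948642) (nat_lit 532) (nat_lit 1535715624) (nat_lit 196) (nat_lit 5) (nat_lit 202) (nat_lit 5) (nat_lit 203) (nat_lit 5) (nat_lit 412) (nat_lit 403) (nat_lit 385)) (XT.lf (nat_lit 0) (nat_lit 673823684) (nat_lit 532) (nat_lit 1136768671) (nat_lit 76) (nat_lit 5465807006) (nat_lit 195) (nat_lit 5) (nat_lit 202) (nat_lit 5) (nat_lit 196) (nat_lit 5) (nat_lit 413) (nat_lit 403) (nat_lit 384))) (XT.nd (nat_lit 78) (nat_lit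 608) (nat_lit 0) (XT.lf (nat_lit 0) (nat_lit 2886819039) (nat_lit 608) (nat_lit 4100638362) (nat_lit 76) (nat_lit 404590075) (nat_lit 188) (nat_lit 5) (nat_lit 196) (nat_lit 5) (nat_lit 189) (nat_lit 5) (nat_lit 414) (nat_lit 403) (nat_lit 383)) (XT.lf (nat_lit 0) (nat_lit 356106612) (nat_lit 608) (nat_lit 4800114813) (nat_lit 684) (nat_lit 2359978947) (nat_lit 180) (nat_lit 5) (nat_lit 188) (nat_lit 5) (nat_lit 189) (nat_lit 5) (nat_lit 415) (nat_lit 403) (nat_lit 382)))) (XT.nd (nat_lit 156) (nat_lit 760) (nat_lit 0) (XT.nd (nat_lit 78) (nat_lit 760) (nat_lit 0) (XT.lf (nat_lit 0) (nat_lit 5086317611) (nat_lit 608) (nat_lit 2416931565) (nat_lit 684) (nat_lit 145113724) (nat_lit 180) (nat_lit 5) (nat_lit 188) (nat_lit 5) (nat_lit 189) (nat_lit 5) (nat_lit 416) (nat_lit 403) (nat_lit 381)) (XT.lf (nat_lit 0) (nat_lit 2045941687) (nat_lit 760) (nat_lit 5579532292) (nat_lit 76) (nat_lit 163204419)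 (nat_lit 170) (nat_lit 5) (nat_lit 180) (nat_lit 5) (nat_lit 171) (nat_lit 5) (nat_lit 417) (nat_lit 403) (nat_lit 380))) (XT.nd (nat_lit 78) (nat_lit 760) (nat_lit 0) (XT.lf (nat_lit 0) (nat_lit 4327068925) (nat_lit 760) (nat_lit 763065307) (nat_lit 76) (nat_lit 2846495124) (nat_lit 170) (nat_lit 5) (nat_lit 180) (nat_lit 5) (nat_lit 171) (nat_lit 5) (nat_lit 418) (nat_lit 403) (nat_lit 379)) (XT.lf (nat_lit 0) (nat_lit 4343374849) (nat_lit 760) (nat_lit 2353045377) (nat_lit 836) (nat_lit 1396857272) (nat_lit 160) (nat_lit 5) (nat_lit 170) (nat_lit 5) (nat_lit 171) (nat_lit 5) (nat_lit 419) (nat_lit 403) (nat_lit 378)))))))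
noncomputable def xc201 : XT := (XT.nd (nat_lit 1248) (nat_lit 2280) (nat_lit 0) (XT.nd (nat_lit 624) (nat_lit 1596) (nat_lit 0) (XT.nd (nat_lit 312) (nat_lit 684) (nat_lit 0) (XT.nd (nat_lit 156) (nat_lit 760) (nat_lit 0) (XT.nd (nat_lit 78) (nat_lit 0) (nat_lit 0) (XT.lf (nat_lit 0) (nat_lit 848931512) (nat_lit 532) (nat_lit 6855223052) (nat_lit 76) (nat_lit 555282327) (nat_lit 153) (nat_lit 5) (nat_lit 160) (nat_lit 5) (nat_lit 154) (nat_lit 5) (nat_lit 420) (nat_lit 403) (nat_lit 377)) (XT.lf (nat_lit 0) (nat_lit 3174094839) (nat_lit 532) (nat_lit 1641457874) (nat_lit 76) (nat_lit 3616512075) (nat_lit 153) (nat_lit 5) (nat_lit 160) (nat_lit 5) (nat_lit 154) (nat_lit 5) (nat_lit 421) (nat_lit 403) (nat_lit 376))) (XT.nd (nat_lit 78) (nat_lit 380) (nat_lit 0) (XT.lf (nat_lit 0) (nat_lit 3866816563) (nat_lit 380) (nat_lit 1724220799) (nat_lit 456) (nat_lit 3023517263) (nat_lit 148) (nat_lit 5)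 (nat_lit 153) (nat_lit 5) (nat_lit 154) (nat_lit 5) (nat_lit 422) (nat_lit 403) (nat_lit 375)) (XT.lf (nat_lit 0) (nat_lit 811980340) (nat_lit 380) (nat_lit 7299245993) (nat_lit 456) (nat_lit 695828941) (nat_lit 143) (nat_lit 5) (nat_lit 148) (nat_lit 5) (nat_lit 149) (nat_lit 5) (nat_lit 423) (nat_lit 403) (nat_lit 374)))) (XT.nd (nat_lit 156) (nat_lit 304) (nat_lit 0) (XT.nd (nat_lit 78) (nat_lit 304) (nat_lit 0) (XT.lf (nat_lit 0) (nat_lit 1721171823) (nat_lit 456) (nat_lit 2341227837) (nat_lit 76) (nat_lit 4943978110) (nat_lit 142) (nat_lit 5) (nat_lit 148) (nat_lit 5) (nat_lit 143) (nat_lit 5) (nat_lit 424) (nat_lit 403) (nat_lit 373)) (XT.lf (nat_lit 0) (nat_lit 3610212468) (nat_lit 304) (nat_lit 604546962) (nat_lit 380) (nat_lit 5001385975) (nat_lit 138) (nat_lit 5) (nat_lit 142) (nat_lit 5) (nat_lit 143) (nat_lit 5) (nat_lit 425) (nat_lit 403) (nat_lit 372))) (XT.nd (nat_lit 78) (nat_lit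 0) (nat_lit 0) (XT.lf (nat_lit 0) (nat_lit 378966630) (nat_lit 304) (nat_lit 6472386069) (nat_lit 380) (nat_lit 2584137582) (nat_lit 134) (nat_lit 5) (nat_lit 138) (nat_lit 5) (nat_lit 139) (nat_lit 5) (nat_lit 426) (nat_lit 403) (nat_lit 371)) (XT.lf (nat_lit 0) (nat_lit 6757618423) (nat_lit 304) (nat_lit 2893884152) (nat_lit 380) (nat_lit 12718402) (nat_lit 134) (nat_lit 5) (nat_lit 138) (nat_lit 5) (nat_lit 139) (nat_lit 5) (nat_lit 427) (nat_lit 403) (nat_lit 370))))) (XT.nd (nat_lit 312) (nat_lit 608) (nat_lit 0) (XT.nd (nat_lit 156) (nat_lit 304) (nat_lit 0) (XT.nd (nat_lit 78) (nat_lit 304) (nat_lit 0) (XT.lf (nat_lit 0) (nat_lit 2600610536) (nat_lit 380) (nat_lit 6383842031) (nat_lit 76) (nat_lit 917874902) (nat_lit 129) (nat_lit 5) (nat_lit 134) (nat_lit 5) (nat_lit 130) (nat_lit 5) (nat_lit 428) (nat_lit 403) (nat_lit 369)) (XT.lf (nat_lit 0) (nat_lit 80297235) (nat_lit 304) (nat_lit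 5293708174) (nat_lit 380) (nat_lit 4776836359) (nat_lit 125) (nat_lit 5) (nat_lit 129) (nat_lit 5) (nat_lit 130) (nat_lit 5) (nat_lit 429) (nat_lit 403) (nat_lit 368))) (XT.nd (nat_lit 78) (nat_lit 304) (nat_lit 0) (XT.lf (nat_lit 0) (nat_lit 7001045398) (nat_lit 304) (nat_lit 1326142305) (nat_lit 380) (nat_lit 2082542248) (nat_lit 125) (nat_lit 5) (nat_lit 129) (nat_lit 5) (nat_lit 130) (nat_lit 5) (nat_lit 430) (nat_lit 403) (nat_lit 367)) (XT.lf (nat_lit 0) (nat_lit 759102658) (nat_lit 304) (nat_lit 7122750614) (nat_lit 76) (nat_lit 2797303839) (nat_lit 121) (nat_lit 5) (nat_lit 125) (nat_lit 5) (nat_lit 122) (nat_lit 5) (nat_lit 431) (nat_lit 403) (nat_lit 366)))) (XT.nd (nat_lit 156) (nat_lit 304) (nat_lit 0) (XT.nd (nat_lit 78) (nat_lit 304) (nat_lit 0) (XT.lf (nat_lit 0) (nat_lit 3689827453) (nat_lit 304) (nat_lit 115508343) (nat_lit 76) (nat_lit 7154167096) (nat_lit 121) (nat_lit 5) (nat_lit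 125) (nat_lit 5) (nat_lit 122) (nat_lit 5) (nat_lit 432) (nat_lit 403) (nat_lit 365)) (XT.lf (nat_lit 0) (nat_lit 6831091338) (nat_lit 380) (nat_lit 3864707301) (nat_lit 76) (nat_lit 554870512) (nat_lit 117) (nat_lit 5) (nat_lit 122) (nat_lit 5) (nat_lit 118) (nat_lit 5) (nat_lit 433) (nat_lit 403) (nat_lit 364))) (XT.nd (nat_lit 78) (nat_lit 76) (nat_lit 0) (XT.lf (nat_lit 0) (nat_lit 3680948942) (nat_lit 228) (nat_lit 6511132851) (nat_lit 304) (nat_lit 1361181938) (nat_lit 114) (nat_lit 5) (nat_lit 117) (nat_lit 5) (nat_lit 118) (nat_lit 5) (nat_lit 434) (nat_lit 403) (nat_lit 363)) (XT.lf (nat_lit 0) (nat_lit 1798833370) (nat_lit 304) (nat_lit 244857038) (nat_lit 76) (nat_lit 9825460447) (nat_lit 113) (nat_lit 5) (nat_lit 117) (nat_lit 5) (nat_lit 114) (nat_lit 5) (nat_lit 435) (nat_lit 403) (nat_lit 362)))))) (XT.nd (nat_lit 624) (nat_lit 988) (nat_lit 0) (XT.nd (nat_lit 312) (nat_lit 608)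 (nat_lit 0) (XT.nd (nat_lit 156) (nat_lit 304) (nat_lit 0) (XT.nd (nat_lit 78) (nat_lit 152) (nat_lit 0) (XT.lf (nat_lit 0) (nat_lit 5182167800) (nat_lit 304) (nat_lit 4325893138) (nat_lit 76) (nat_lit 2686105268) (nat_lit 110) (nat_lit 5) (nat_lit 114) (nat_lit 5) (nat_lit 111) (nat_lit 5) (nat_lit 436) (nat_lit 403) (nat_lit 361)) (XT.lf (nat_lit 0) (nat_lit 3868375372) (nat_lit 152) (nat_lit 4909603549) (nat_lit 228) (nat_lit 3755290515) (nat_lit 108) (nat_lit 5) (nat_lit 110) (nat_lit 5) (nat_lit 111) (nat_lit 5) (nat_lit 437) (nat_lit 403) (nat_lit 360))) (XT.nd (nat_lit 78) (nat_lit 304) (nat_lit 0) (XT.lf (nat_lit 0) (nat_lit 12541667100) (nat_lit 152) (nat_lit 31717534) (nat_lit 228) (nat_lit 314955480) (nat_lit 108) (nat_lit 5) (nat_lit 110) (nat_lit 5) (nat_lit 111) (nat_lit 5) (nat_lit 438) (nat_lit 403) (nat_lit 359)) (XT.lf (nat_lit 0) (nat_lit 3355367960) (nat_lit 304) (nat_lit 4806335281)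 (nat_lit 76) (nat_lit 5088713815) (nat_lit 104) (nat_lit 5) (nat_lit 108) (nat_lit 5) (nat_lit 105) (nat_lit 5) (nat_lit 439) (nat_lit 403) (nat_lit 358)))) (XT.nd (nat_lit 156) (nat_lit 456) (nat_lit 0) (XT.nd (nat_lit 78) (nat_lit 0) (nat_lit 0) (XT.lf (nat_lit 0) (nat_lit 4102044072) (nat_lit 152) (nat_lit 3116195810) (nat_lit 228) (nat_lit 6411121107) (nat_lit 102) (nat_lit 5) (nat_lit 104) (nat_lit 5) (nat_lit 105) (nat_lit 5) (nat_lit 440) (nat_lit 403) (nat_lit 357)) (XT.lf (nat_lit 0) (nat_lit 11340889304) (nat_lit 228) (nat_lit 516201140) (nat_lit 76) (nat_lit 2166832026) (nat_lit 102) (nat_lit 5) (nat_lit 105) (nat_lit 5) (nat_lit 103) (nat_lit 5) (nat_lit 441) (nat_lit 403) (nat_lit 356))) (XT.nd (nat_lit 78) (nat_lit 152) (nat_lit 0) (XT.lf (nat_lit 0) (nat_lit 1339967545) (nat_lit 304) (nat_lit 5343111285) (nat_lit 76) (nat_lit 7746777586) (nat_lit 98) (nat_lit 5) (nat_lit 102) (nat_lit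 5) (nat_lit 99) (nat_lit 5) (nat_lit 442) (nat_lit 403) (nat_lit 355)) (XT.lf (nat_lit 0) (nat_lit 4350379625) (nat_lit 152) (nat_lit 1152940612) (nat_lit 228) (nat_lit 9349100910) (nat_lit 96) (nat_lit 5) (nat_lit 98) (nat_lit 5) (nat_lit 99) (nat_lit 5) (nat_lit 443) (nat_lit 403) (nat_lit 354))))) (XT.nd (nat_lit 312) (nat_lit 608) (nat_lit 0) (XT.nd (nat_lit 156) (nat_lit 228) (nat_lit 0) (XT.nd (nat_lit 78) (nat_lit 152) (nat_lit 0) (XT.lf (nat_lit 0) (nat_lit 9992653907) (nat_lit 228) (nat_lit 729150640) (nat_lit 76) (nat_lit 4568420584) (nat_lit 96) (nat_lit 5) (nat_lit 99) (nat_lit 5) (nat_lit 97) (nat_lit 5) (nat_lit 444) (nat_lit 403) (nat_lit 353)) (XT.lf (nat_lit 0) (nat_lit 9751826328) (nat_lit 152) (nat_lit 5081195636) (nat_lit 228) (nat_lit 910570568) (nat_lit 94) (nat_lit 5) (nat_lit 96) (nat_lit 5) (nat_lit 97) (nat_lit 5) (nat_lit 445) (nat_lit 403) (nat_lit 352))) (XT.nd (nat_lit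 78) (nat_lit 0) (nat_lit 0) (XT.lf (nat_lit 0) (nat_lit 3632197644) (nat_lit 228) (nat_lit 11652042087) (nat_lit 76) (nat_lit 929769674) (nat_lit 91) (nat_lit 5) (nat_lit 94) (nat_lit 5) (nat_lit 92) (nat_lit 5) (nat_lit 446) (nat_lit 403) (nat_lit 351)) (XT.lf (nat_lit 0) (nat_lit 8514137473) (nat_lit 228) (nat_lit 1025921412) (nat_lit 76) (nat_lit 7160011535) (nat_lit 91) (nat_lit 5) (nat_lit 94) (nat_lit 5) (nat_lit 92) (nat_lit 5) (nat_lit 447) (nat_lit 403) (nat_lit 350)))) (XT.nd (nat_lit 156) (nat_lit 228) (nat_lit 0) (XT.nd (nat_lit 78) (nat_lit 228) (nat_lit 0) (XT.lf (nat_lit 0) (nat_lit 10393134407) (nat_lit 152) (nat_lit 3367590696) (nat_lit 228) (nat_lit 3443683160) (nat_lit 89) (nat_lit 5) (nat_lit 91) (nat_lit 5) (nat_lit 92) (nat_lit 5) (nat_lit 448) (nat_lit 403) (nat_lit 349)) (XT.lf (nat_lit 0) (nat_lit 1586774158) (nat_lit 228) (nat_lit 13038364256) (nat_lit 76) (nat_lit 3102614651)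 (nat_lit 86) (nat_lit 5) (nat_lit 89) (nat_lit 5) (nat_lit 87) (nat_lit 5) (nat_lit 449) (nat_lit 403) (nat_lit 348))) (XT.nd (nat_lit 78) (nat_lit 228) (nat_lit 0) (XT.lf (nat_lit 0) (nat_lit 6884404657) (nat_lit 228) (nat_lit 1455157922) (nat_lit 76) (nat_lit 9928311944) (nat_lit 86) (nat_lit 5) (nat_lit 89) (nat_lit 5) (nat_lit 87) (nat_lit 5) (nat_lit 450) (nat_lit 403) (nat_lit 347)) (XT.nd (nat_lit 78) (nat_lit 76) (nat_lit 0) (XT.lf (nat_lit 0) (nat_lit 10990727468) (nat_lit 152) (nat_lit 1588671941) (nat_lit 228) (nat_lit 6248979593) (nat_lit 84) (nat_lit 5) (nat_lit 86) (nat_lit 5) (nat_lit 87) (nat_lit 5) (nat_lit 451) (nat_lit 403) (nat_lit 346)) (XT.lf (nat_lit 0) (nat_lit 4688937129) (nat_lit 76) (nat_lit 14015579035) (nat_lit 152) (nat_lit 705124961) (nat_lit 83) (nat_lit 5) (nat_lit 84) (nat_lit 5) (nat_lit 85) (nat_lit 4) (nat_lit 452) (nat_lit 403) (nat_lit 345))))))))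
noncomputable def xc202 : XT := (XT.nd (nat_lit 1248) (nat_lit 1216) (nat_lit 0) (XT.nd (nat_lit 624) (nat_lit 608) (nat_lit 0) (XT.nd (nat_lit 312) (nat_lit 456) (nat_lit 0) (XT.nd (nat_lit 156) (nat_lit 152) (nat_lit 0) (XT.nd (nat_lit 78) (nat_lit 152) (nat_lit 0) (XT.lf (nat_lit 0) (nat_lit 5074553393) (nat_lit 152) (nat_lit 2076250229) (nat_lit 76) (nat_lit 12859051353) (nat_lit 82) (nat_lit 5) (nat_lit 84) (nat_lit 5) (nat_lit 83) (nat_lit 5) (nat_lit 453) (nat_lit 403) (nat_lit 344)) (XT.lf (nat_lit 0) (nat_lit 11265757980) (nat_lit 228) (nat_lit 9144800895) (nat_lit 76) (nat_lit 221631607) (nat_lit 80) (nat_lit 5) (nat_lit 83) (nat_lit 5) (nat_lit 81) (nat_lit 4) (nat_lit 454) (nat_lit 403) (nat_lit 343))) (XT.nd (nat_lit 78) (nat_lit 76) (nat_lit 0) (XT.lf (nat_lit 0) (nat_lit 4477089445) (nat_lit 76) (nat_lit 13475852929) (nat_lit 152) (nat_lit 3323380261) (nat_lit 79) (nat_lit 5) (nat_lit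 80) (nat_lit 5) (nat_lit 81) (nat_lit 4) (nat_lit 455) (nat_lit 403) (nat_lit 342)) (XT.lf (nat_lit 0) (nat_lit 3046210665) (nat_lit 152) (nat_lit 2963026592) (nat_lit 76) (nat_lit 15935010786) (nat_lit 78) (nat_lit 5) (nat_lit 80) (nat_lit 5) (nat_lit 79) (nat_lit 5) (nat_lit 456) (nat_lit 403) (nat_lit 341)))) (XT.nd (nat_lit 156) (nat_lit 228) (nat_lit 0) (XT.nd (nat_lit 78) (nat_lit 76) (nat_lit 0) (XT.lf (nat_lit 0) (nat_lit 9804717524) (nat_lit 228) (nat_lit 10841195063) (nat_lit 76) (nat_lit 1987827599) (nat_lit 76) (nat_lit 5) (nat_lit 79) (nat_lit 5) (nat_lit 77) (nat_lit 4) (nat_lit 457) (nat_lit 403) (nat_lit 340)) (XT.lf (nat_lit 0) (nat_lit 3999172748) (nat_lit 76) (nat_lit 13079598130) (nat_lit 152) (nat_lit 6270055700) (nat_lit 75) (nat_lit 5) (nat_lit 76) (nat_lit 5) (nat_lit 77) (nat_lit 4) (nat_lit 458) (nat_lit 403) (nat_lit 339))) (XT.nd (nat_lit 78) (nat_lit 152) (nat_lit 0)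 (XT.lf (nat_lit 0) (nat_lit 749508523) (nat_lit 152) (nat_lit 4208360362) (nat_lit 76) (nat_lit 19133697881) (nat_lit 74) (nat_lit 5) (nat_lit 76) (nat_lit 5) (nat_lit 75) (nat_lit 5) (nat_lit 459) (nat_lit 403) (nat_lit 338)) (XT.lf (nat_lit 0) (nat_lit 8122706298) (nat_lit 228) (nat_lit 13010496605) (nat_lit 76) (nat_lit 3722433757) (nat_lit 72) (nat_lit 5) (nat_lit 75) (nat_lit 5) (nat_lit 73) (nat_lit 4) (nat_lit 460) (nat_lit 403) (nat_lit 337))))) (XT.nd (nat_lit 312) (nat_lit 228) (nat_lit 0) (XT.nd (nat_lit 156) (nat_lit 304) (nat_lit 0) (XT.nd (nat_lit 78) (nat_lit 0) (nat_lit 0) (XT.lf (nat_lit 0) (nat_lit 3151116302) (nat_lit 76) (nat_lit 12883974415) (nat_lit 152) (nat_lit 9614293570) (nat_lit 71) (nat_lit 5) (nat_lit 72) (nat_lit 5) (nat_lit 73) (nat_lit 4) (nat_lit 461) (nat_lit 403) (nat_lit 336)) (XT.lf (nat_lit 0) (nat_lit 20513110662) (nat_lit 76) (nat_lit 4018551126) (nat_lit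 152) (nat_lit 1941729684) (nat_lit 71) (nat_lit 5) (nat_lit 72) (nat_lit 5) (nat_lit 73) (nat_lit 4) (nat_lit 462) (nat_lit 403) (nat_lit 335))) (XT.nd (nat_lit 78) (nat_lit 76) (nat_lit 0) (XT.lf (nat_lit 0) (nat_lit 6156198034) (nat_lit 228) (nat_lit 15789419553) (nat_lit 76) (nat_lit 5376336901) (nat_lit 68) (nat_lit 5) (nat_lit 71) (nat_lit 5) (nat_lit 69) (nat_lit 4) (nat_lit 463) (nat_lit 403) (nat_lit 334)) (XT.lf (nat_lit 0) (nat_lit 1799500886) (nat_lit 76) (nat_lit 12960245880) (nat_lit 152) (nat_lit 13443308805) (nat_lit 67) (nat_lit 5) (nat_lit 68) (nat_lit 5) (nat_lit 69) (nat_lit 4) (nat_lit 464) (nat_lit 403) (nat_lit 333)))) (XT.nd (nat_lit 156) (nat_lit 76) (nat_lit 0) (XT.nd (nat_lit 78) (nat_lit 152) (nat_lit 0) (XT.lf (nat_lit 0) (nat_lit 20759221382) (nat_lit 76) (nat_lit 3271633855) (nat_lit 152) (nat_lit 5085487809) (nat_lit 67) (nat_lit 5) (nat_lit 68) (nat_lit 5) (nat_lit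 69) (nat_lit 4) (nat_lit 465) (nat_lit 403) (nat_lit 332)) (XT.lf (nat_lit 0) (nat_lit 3823129862) (nat_lit 152) (nat_lit 19351051191) (nat_lit 76) (nat_lit 6885682721) (nat_lit 65) (nat_lit 5) (nat_lit 67) (nat_lit 5) (nat_lit 66) (nat_lit 4) (nat_lit 466) (nat_lit 403) (nat_lit 331))) (XT.nd (nat_lit 78) (nat_lit 76) (nat_lit 0) (XT.lf (nat_lit 0) (nat_lit 13174836387) (nat_lit 152) (nat_lit 219834149) (nat_lit 76) (nat_lit 17643293772) (nat_lit 65) (nat_lit 5) (nat_lit 67) (nat_lit 5) (nat_lit 66) (nat_lit 4) (nat_lit 467) (nat_lit 403) (nat_lit 330)) (XT.lf (nat_lit 0) (nat_lit 20470546251) (nat_lit 76) (nat_lit 2815640081) (nat_lit 152) (nat_lit 8764181005) (nat_lit 64) (nat_lit 5) (nat_lit 65) (nat_lit 5) (nat_lit 66) (nat_lit 4) (nat_lit 468) (nat_lit 403) (nat_lit 329)))))) (XT.nd (nat_lit 624) (nat_lit 608) (nat_lit 0) (XT.nd (nat_lit 312) (nat_lit 304) (nat_lit 0) (XT.nd (nat_lit 156)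 (nat_lit 152) (nat_lit 0) (XT.nd (nat_lit 78) (nat_lit 0) (nat_lit 0) (XT.lf (nat_lit 0) (nat_lit 1018023541) (nat_lit 152) (nat_lit 23915164669) (nat_lit 76) (nat_lit 8166906860) (nat_lit 62) (nat_lit 5) (nat_lit 64) (nat_lit 5) (nat_lit 63) (nat_lit 4) (nat_lit 469) (nat_lit 403) (nat_lit 328)) (XT.lf (nat_lit 0) (nat_lit 11212915723) (nat_lit 152) (nat_lit 3048363900) (nat_lit 76) (nat_lit 19922940563) (nat_lit 62) (nat_lit 5) (nat_lit 64) (nat_lit 5) (nat_lit 63) (nat_lit 4) (nat_lit 470) (nat_lit 403) (nat_lit 327))) (XT.nd (nat_lit 78) (nat_lit 76) (nat_lit 0) (XT.lf (nat_lit 0) (nat_lit 19433526489) (nat_lit 76) (nat_lit 2761369774) (nat_lit 152) (nat_lit 13113788414) (nat_lit 61) (nat_lit 5) (nat_lit 62) (nat_lit 5) (nat_lit 63) (nat_lit 4) (nat_lit 471) (nat_lit 403) (nat_lit 326)) (XT.lf (nat_lit 0) (nat_lit 6675614941) (nat_lit 76) (nat_lit 27326497501) (nat_lit 76) (nat_lit 2473453409)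 (nat_lit 60) (nat_lit 4) (nat_lit 61) (nat_lit 5) (nat_lit 61) (nat_lit 4) (nat_lit 472) (nat_lit 403) (nat_lit 325)))) (XT.nd (nat_lit 156) (nat_lit 152) (nat_lit 0) (XT.nd (nat_lit 78) (nat_lit 76) (nat_lit 0) (XT.lf (nat_lit 0) (nat_lit 8713082846) (nat_lit 152) (nat_lit 7018149830) (nat_lit 76) (nat_lit 21948137784) (nat_lit 59) (nat_lit 5) (nat_lit 61) (nat_lit 5) (nat_lit 60) (nat_lit 4) (nat_lit 473) (nat_lit 403) (nat_lit 324)) (XT.lf (nat_lit 0) (nat_lit 17370158022) (nat_lit 76) (nat_lit 3252169339) (nat_lit 152) (nat_lit 18306685484) (nat_lit 58) (nat_lit 5) (nat_lit 59) (nat_lit 5) (nat_lit 60) (nat_lit 4) (nat_lit 474) (nat_lit 403) (nat_lit 323))) (XT.nd (nat_lit 78) (nat_lit 76) (nat_lit 0) (XT.lf (nat_lit 0) (nat_lit 2874527300) (nat_lit 76) (nat_lit 30547378755) (nat_lit 76) (nat_lit 6804487936) (nat_lit 57) (nat_lit 4) (nat_lit 58) (nat_lit 5) (nat_lit 58) (nat_lit 4) (nat_lit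 475) (nat_lit 403) (nat_lit 322)) (XT.lf (nat_lit 0) (nat_lit 5503891602) (nat_lit 152) (nat_lit 12482064771) (nat_lit 76) (nat_lit 23578580101) (nat_lit 56) (nat_lit 5) (nat_lit 58) (nat_lit 5) (nat_lit 57) (nat_lit 4) (nat_lit 476) (nat_lit 403) (nat_lit 321))))) (XT.nd (nat_lit 312) (nat_lit 304) (nat_lit 0) (XT.nd (nat_lit 156) (nat_lit 228) (nat_lit 0) (XT.nd (nat_lit 78) (nat_lit 0) (nat_lit 0) (XT.lf (nat_lit 0) (nat_lit 13919369587) (nat_lit 76) (nat_lit 4473561649) (nat_lit 152) (nat_lit 24561381775) (nat_lit 55) (nat_lit 5) (nat_lit 56) (nat_lit 5) (nat_lit 57) (nat_lit 4) (nat_lit 477) (nat_lit 403) (nat_lit 320)) (XT.lf (nat_lit 0) (nat_lit 32269609979) (nat_lit 152) (nat_lit 2529800900) (nat_lit 0) (nat_lit 9597008336) (nat_lit 55) (nat_lit 5) (nat_lit 57) (nat_lit 4) (nat_lit 55) (nat_lit 4) (nat_lit 478) (nat_lit 403) (nat_lit 319))) (XT.nd (nat_lit 78) (nat_lit 76) (nat_lit 0) (XT.lf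 (nat_lit 0) (nat_lit 1364535891) (nat_lit 152) (nat_lit 19893527353) (nat_lit 76) (nat_lit 24628602389) (nat_lit 53) (nat_lit 5) (nat_lit 55) (nat_lit 5) (nat_lit 54) (nat_lit 4) (nat_lit 479) (nat_lit 403) (nat_lit 318)) (XT.lf (nat_lit 0) (nat_lit 8613219457) (nat_lit 76) (nat_lit 6665513154) (nat_lit 152) (nat_lit 32154960692) (nat_lit 52) (nat_lit 5) (nat_lit 53) (nat_lit 5) (nat_lit 54) (nat_lit 4) (nat_lit 480) (nat_lit 403) (nat_lit 317)))) (XT.nd (nat_lit 156) (nat_lit 228) (nat_lit 0) (XT.nd (nat_lit 78) (nat_lit 76) (nat_lit 0) (XT.lf (nat_lit 0) (nat_lit 30344080157) (nat_lit 152) (nat_lit 9989723359) (nat_lit 0) (nat_lit 8701496953) (nat_lit 52) (nat_lit 5) (nat_lit 54) (nat_lit 4) (nat_lit 52) (nat_lit 4) (nat_lit 481) (nat_lit 403) (nat_lit 316)) (XT.lf (nat_lit 0) (nat_lit 20797239849) (nat_lit 76) (nat_lit 25778340210) (nat_lit 76) (nat_lit 4120763839) (nat_lit 51) (nat_lit 4) (nat_lit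 52) (nat_lit 5) (nat_lit 52) (nat_lit 4) (nat_lit 482) (nat_lit 403) (nat_lit 315))) (XT.nd (nat_lit 78) (nat_lit 76) (nat_lit 0) (XT.lf (nat_lit 0) (nat_lit 846467114) (nat_lit 76) (nat_lit 10138080540) (nat_lit 152) (nat_lit 41438960576) (nat_lit 49) (nat_lit 5) (nat_lit 50) (nat_lit 5) (nat_lit 51) (nat_lit 4) (nat_lit 483) (nat_lit 403) (nat_lit 314)) (XT.nd (nat_lit 78) (nat_lit 76) (nat_lit 0) (XT.lf (nat_lit 0) (nat_lit 27298390134) (nat_lit 152) (nat_lit 20260099579) (nat_lit 0) (nat_lit 6645576018) (nat_lit 49) (nat_lit 5) (nat_lit 51) (nat_lit 4) (nat_lit 49) (nat_lit 4) (nat_lit 484) (nat_lit 403) (nat_lit 313)) (XT.lf (nat_lit 0) (nat_lit 12827267924) (nat_lit 76) (nat_lit 31947104967) (nat_lit 76) (nat_lit 11281955935) (nat_lit 48) (nat_lit 4) (nat_lit 49) (nat_lit 5) (nat_lit 49) (nat_lit 4) (nat_lit 485) (nat_lit 403) (nat_lit 312))))))))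
noncomputable def xc203 : XT := (XT.nd (nat_lit 1248) (nat_lit 912) (nat_lit 0) (XT.nd (nat_lit 624) (nat_lit 532) (nat_lit 0) (XT.nd (nat_lit 312) (nat_lit 304) (nat_lit 0) (XT.nd (nat_lit 156) (nat_lit 76) (nat_lit 0) (XT.nd (nat_lit 78) (nat_lit 76) (nat_lit 0) (XT.lf (nat_lit 0) (nat_lit 5287722877) (nat_lit 152) (nat_lit 9837064672) (nat_lit 76) (nat_lit 42855981486) (nat_lit 47) (nat_lit 5) (nat_lit 49) (nat_lit 5) (nat_lit 48) (nat_lit 4) (nat_lit 486) (nat_lit 403) (nat_lit 311)) (XT.lf (nat_lit 0) (nat_lit 22739927051) (nat_lit 152) (nat_lit 34193608113) (nat_lit 0) (nat_lit 3036989238) (nat_lit 46) (nat_lit 5) (nat_lit 48) (nat_lit 4) (nat_lit 46) (nat_lit 4) (nat_lit 487) (nat_lit 403) (nat_lit 310))) (XT.nd (nat_lit 78) (nat_lit 0) (nat_lit 0) (XT.lf (nat_lit 0) (nat_lit 1211851990) (nat_lit 76) (nat_lit 40270071171) (nat_lit 76) (nat_lit 20556985392) (nat_lit 45) (nat_lit 4) (nat_lit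 46) (nat_lit 5) (nat_lit 46) (nat_lit 4) (nat_lit 488) (nat_lit 403) (nat_lit 309)) (XT.lf (nat_lit 0) (nat_lit 39537386190) (nat_lit 76) (nat_lit 22184028281) (nat_lit 76) (nat_lit 2461277773) (nat_lit 45) (nat_lit 4) (nat_lit 46) (nat_lit 5) (nat_lit 46) (nat_lit 4) (nat_lit 489) (nat_lit 403) (nat_lit 308)))) (XT.nd (nat_lit 156) (nat_lit 152) (nat_lit 0) (XT.nd (nat_lit 78) (nat_lit 0) (nat_lit 0) (XT.lf (nat_lit 0) (nat_lit 13482694156) (nat_lit 76) (nat_lit 2719573730) (nat_lit 152) (nat_lit 50208865607) (nat_lit 43) (nat_lit 5) (nat_lit 44) (nat_lit 5) (nat_lit 45) (nat_lit 4) (nat_lit 490) (nat_lit 403) (nat_lit 307)) (XT.lf (nat_lit 0) (nat_lit 36399064445) (nat_lit 152) (nat_lit 14717397988) (nat_lit 0) (nat_lit 17598377581) (nat_lit 43) (nat_lit 5) (nat_lit 45) (nat_lit 4) (nat_lit 43) (nat_lit 4) (nat_lit 491) (nat_lit 403) (nat_lit 306))) (XT.nd (nat_lit 78) (nat_lit 76) (nat_lit 0)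 (XT.lf (nat_lit 0) (nat_lit 26162525425) (nat_lit 76) (nat_lit 31879026024) (nat_lit 76) (nat_lit 13070387963) (nat_lit 42) (nat_lit 4) (nat_lit 43) (nat_lit 5) (nat_lit 43) (nat_lit 4) (nat_lit 492) (nat_lit 403) (nat_lit 305)) (XT.lf (nat_lit 0) (nat_lit 7144973848) (nat_lit 152) (nat_lit 4169014238) (nat_lit 76) (nat_lit 62297527029) (nat_lit 41) (nat_lit 5) (nat_lit 43) (nat_lit 5) (nat_lit 42) (nat_lit 4) (nat_lit 493) (nat_lit 403) (nat_lit 304))))) (XT.nd (nat_lit 312) (nat_lit 228) (nat_lit 0) (XT.nd (nat_lit 156) (nat_lit 152) (nat_lit 0) (XT.nd (nat_lit 78) (nat_lit 76) (nat_lit 0) (XT.lf (nat_lit 0) (nat_lit 28708788329) (nat_lit 152) (nat_lit 36696001959) (nat_lit 0) (nat_lit 10781719187) (nat_lit 40) (nat_lit 5) (nat_lit 42) (nat_lit 4) (nat_lit 40) (nat_lit 4) (nat_lit 494) (nat_lit 403) (nat_lit 303)) (XT.lf (nat_lit 0) (nat_lit 6582214803) (nat_lit 76) (nat_lit 45112233349) (nat_lit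 76) (nat_lit 27178622738) (nat_lit 39) (nat_lit 4) (nat_lit 40) (nat_lit 5) (nat_lit 40) (nat_lit 4) (nat_lit 495) (nat_lit 403) (nat_lit 302))) (XT.nd (nat_lit 78) (nat_lit 152) (nat_lit 0) (XT.lf (nat_lit 0) (nat_lit 53266029198) (nat_lit 76) (nat_lit 23168751176) (nat_lit 76) (nat_lit 5228910595) (nat_lit 39) (nat_lit 4) (nat_lit 40) (nat_lit 5) (nat_lit 40) (nat_lit 4) (nat_lit 496) (nat_lit 403) (nat_lit 301)) (XT.lf (nat_lit 0) (nat_lit 17519674655) (nat_lit 152) (nat_lit 66618212157) (nat_lit 0) (nat_lit 428461430) (nat_lit 37) (nat_lit 5) (nat_lit 39) (nat_lit 4) (nat_lit 37) (nat_lit 4) (nat_lit 497) (nat_lit 403) (nat_lit 300)))) (XT.nd (nat_lit 156) (nat_lit 152) (nat_lit 0) (XT.nd (nat_lit 78) (nat_lit 76) (nat_lit 0) (XT.lf (nat_lit 0) (nat_lit 42083049130) (nat_lit 152) (nat_lit 20497694806) (nat_lit 0) (nat_lit 24986454222) (nat_lit 37) (nat_lit 5) (nat_lit 39) (nat_lit 4) (nat_lit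 37) (nat_lit 4) (nat_lit 498) (nat_lit 403) (nat_lit 299)) (XT.lf (nat_lit 0) (nat_lit 28821497411) (nat_lit 76) (nat_lit 39488277209) (nat_lit 76) (nat_lit 22386556889) (nat_lit 36) (nat_lit 4) (nat_lit 37) (nat_lit 5) (nat_lit 37) (nat_lit 4) (nat_lit 499) (nat_lit 403) (nat_lit 298))) (XT.nd (nat_lit 78) (nat_lit 76) (nat_lit 0) (XT.lf (nat_lit 0) (nat_lit 2144229200) (nat_lit 152) (nat_lit 12710931804) (nat_lit 76) (nat_lit 79108402200) (nat_lit 35) (nat_lit 5) (nat_lit 37) (nat_lit 5) (nat_lit 36) (nat_lit 4) (nat_lit 500) (nat_lit 403) (nat_lit 297)) (XT.lf (nat_lit 0) (nat_lit 27944219678) (nat_lit 152) (nat_lit 57744046637) (nat_lit 0) (nat_lit 11647790568) (nat_lit 34) (nat_lit 5) (nat_lit 36) (nat_lit 4) (nat_lit 34) (nat_lit 4) (nat_lit 501) (nat_lit 403) (nat_lit 296)))))) (XT.nd (nat_lit 624) (nat_lit 456) (nat_lit 0) (XT.nd (nat_lit 312) (nat_lit 228) (nat_lit 0) (XT.nd (nat_lit 156)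 (nat_lit 152) (nat_lit 0) (XT.nd (nat_lit 78) (nat_lit 76) (nat_lit 0) (XT.lf (nat_lit 0) (nat_lit 55482456732) (nat_lit 152) (nat_lit 6190495271) (nat_lit 0) (nat_lit 39181810933) (nat_lit 34) (nat_lit 5) (nat_lit 36) (nat_lit 4) (nat_lit 34) (nat_lit 4) (nat_lit 502) (nat_lit 403) (nat_lit 295)) (XT.lf (nat_lit 0) (nat_lit 49497907844) (nat_lit 76) (nat_lit 35659094182) (nat_lit 76) (nat_lit 19354432488) (nat_lit 33) (nat_lit 4) (nat_lit 34) (nat_lit 5) (nat_lit 34) (nat_lit 4) (nat_lit 503) (nat_lit 403) (nat_lit 294))) (XT.nd (nat_lit 78) (nat_lit 76) (nat_lit 0) (XT.lf (nat_lit 0) (nat_lit 7802585879) (nat_lit 152) (nat_lit 313185301) (nat_lit 76) (nat_lit 100224293277) (nat_lit 32) (nat_lit 5) (nat_lit 34) (nat_lit 5) (nat_lit 33) (nat_lit 4) (nat_lit 504) (nat_lit 403) (nat_lit 293)) (XT.lf (nat_lit 0) (nat_lit 36914882007) (nat_lit 152) (nat_lit 53987465345) (nat_lit 0) (nat_lit 21379521159)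 (nat_lit 31) (nat_lit 5) (nat_lit 33) (nat_lit 4) (nat_lit 31) (nat_lit 4) (nat_lit 505) (nat_lit 403) (nat_lit 292)))) (XT.nd (nat_lit 156) (nat_lit 152) (nat_lit 0) (XT.nd (nat_lit 78) (nat_lit 0) (nat_lit 0) (XT.lf (nat_lit 0) (nat_lit 3371734135) (nat_lit 76) (nat_lit 64289388459) (nat_lit 76) (nat_lit 48750723724) (nat_lit 30) (nat_lit 4) (nat_lit 31) (nat_lit 5) (nat_lit 31) (nat_lit 4) (nat_lit 506) (nat_lit 403) (nat_lit 291)) (XT.lf (nat_lit 0) (nat_lit 65447835945) (nat_lit 76) (nat_lit 35398605053) (nat_lit 76) (nat_lit 19856793760) (nat_lit 30) (nat_lit 4) (nat_lit 31) (nat_lit 5) (nat_lit 31) (nat_lit 4) (nat_lit 507) (nat_lit 403) (nat_lit 290))) (XT.nd (nat_lit 78) (nat_lit 0) (nat_lit 0) (XT.lf (nat_lit 0) (nat_lit 5403264379) (nat_lit 76) (nat_lit 4815307520) (nat_lit 152) (nat_lit 114978827048) (nat_lit 28) (nat_lit 5) (nat_lit 29) (nat_lit 5) (nat_lit 30) (nat_lit 4) (nat_lit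 508) (nat_lit 403) (nat_lit 289)) (XT.lf (nat_lit 0) (nat_lit 42495562542) (nat_lit 152) (nat_lit 59647908646) (nat_lit 0) (nat_lit 27688265364) (nat_lit 28) (nat_lit 5) (nat_lit 30) (nat_lit 4) (nat_lit 28) (nat_lit 4) (nat_lit 509) (nat_lit 403) (nat_lit 288))))) (XT.nd (nat_lit 312) (nat_lit 228) (nat_lit 0) (XT.nd (nat_lit 156) (nat_lit 152) (nat_lit 0) (XT.nd (nat_lit 78) (nat_lit 0) (nat_lit 0) (XT.lf (nat_lit 0) (nat_lit 3515804759) (nat_lit 76) (nat_lit 72992879055) (nat_lit 76) (nat_lit 58182993196) (nat_lit 27) (nat_lit 4) (nat_lit 28) (nat_lit 5) (nat_lit 28) (nat_lit 4) (nat_lit 510) (nat_lit 403) (nat_lit 287)) (XT.lf (nat_lit 0) (nat_lit 71885510097) (nat_lit 76) (nat_lit 41335757679) (nat_lit 76) (nat_lit 26523406409) (nat_lit 27) (nat_lit 4) (nat_lit 28) (nat_lit 5) (nat_lit 28) (nat_lit 4) (nat_lit 511) (nat_lit 403) (nat_lit 286))) (XT.nd (nat_lit 78) (nat_lit 76) (nat_lit 0)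 (XT.lf (nat_lit 0) (nat_lit 6493108628) (nat_lit 152) (nat_lit 1503826592) (nat_lit 76) (nat_lit 137048690575) (nat_lit 26) (nat_lit 5) (nat_lit 28) (nat_lit 5) (nat_lit 27) (nat_lit 4) (nat_lit 512) (nat_lit 403) (nat_lit 285)) (XT.lf (nat_lit 0) (nat_lit 41797313004) (nat_lit 152) (nat_lit 81030214430) (nat_lit 0) (nat_lit 27685945880) (nat_lit 25) (nat_lit 5) (nat_lit 27) (nat_lit 4) (nat_lit 25) (nat_lit 4) (nat_lit 513) (nat_lit 403) (nat_lit 284)))) (XT.nd (nat_lit 156) (nat_lit 152) (nat_lit 0) (XT.nd (nat_lit 78) (nat_lit 76) (nat_lit 0) (XT.lf (nat_lit 0) (nat_lit 79013245029) (nat_lit 152) (nat_lit 12334292723) (nat_lit 0) (nat_lit 64899849605) (nat_lit 25) (nat_lit 5) (nat_lit 27) (nat_lit 4) (nat_lit 25) (nat_lit 4) (nat_lit 514) (nat_lit 403) (nat_lit 283)) (XT.lf (nat_lit 0) (nat_lit 61752661399) (nat_lit 76) (nat_lit 57291477305) (nat_lit 76) (nat_lit 43176150166) (nat_lit 24) (nat_lit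 4) (nat_lit 25) (nat_lit 5) (nat_lit 25) (nat_lit 4) (nat_lit 515) (nat_lit 403) (nat_lit 282))) (XT.nd (nat_lit 78) (nat_lit 152) (nat_lit 0) (XT.lf (nat_lit 0) (nat_lit 139952273899) (nat_lit 76) (nat_lit 21323387124) (nat_lit 76) (nat_lit 7206220258) (nat_lit 24) (nat_lit 4) (nat_lit 25) (nat_lit 5) (nat_lit 25) (nat_lit 4) (nat_lit 516) (nat_lit 403) (nat_lit 281)) (XT.nd (nat_lit 78) (nat_lit 0) (nat_lit 0) (XT.lf (nat_lit 0) (nat_lit 30601368352) (nat_lit 152) (nat_lit 127225680868) (nat_lit 0) (nat_lit 17154778840) (nat_lit 22) (nat_lit 5) (nat_lit 24) (nat_lit 4) (nat_lit 22) (nat_lit 4) (nat_lit 517) (nat_lit 403) (nat_lit 280)) (XT.lf (nat_lit 0) (nat_lit 70888323234) (nat_lit 152) (nat_lit 53430839572) (nat_lit 0) (nat_lit 57440144496) (nat_lit 22) (nat_lit 5) (nat_lit 24) (nat_lit 4) (nat_lit 22) (nat_lit 4) (nat_lit 518) (nat_lit 403) (nat_lit 279))))))))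
noncomputable def xc204 : XT := (XT.nd (nat_lit 1248) (nat_lit 456) (nat_lit 0) (XT.nd (nat_lit 624) (nat_lit 380) (nat_lit 0) (XT.nd (nat_lit 312) (nat_lit 76) (nat_lit 0) (XT.nd (nat_lit 156) (nat_lit 152) (nat_lit 0) (XT.nd (nat_lit 78) (nat_lit 0) (nat_lit 0) (XT.lf (nat_lit 0) (nat_lit 24830100755) (nat_lit 76) (nat_lit 88738160151) (nat_lit 76) (nat_lit 75288467864) (nat_lit 21) (nat_lit 4) (nat_lit 22) (nat_lit 5) (nat_lit 22) (nat_lit 4) (nat_lit 519) (nat_lit 403) (nat_lit 278)) (XT.lf (nat_lit 0) (nat_lit 108841021025) (nat_lit 76) (nat_lit 50437167212) (nat_lit 76) (nat_lit 36986033451) (nat_lit 21) (nat_lit 4) (nat_lit 22) (nat_lit 5) (nat_lit 22) (nat_lit 4) (nat_lit 520) (nat_lit 403) (nat_lit 277))) (XT.nd (nat_lit 78) (nat_lit 76) (nat_lit 0) (XT.lf (nat_lit 0) (nat_lit 3119493770) (nat_lit 152) (nat_lit 7057544364) (nat_lit 76) (nat_lit 193862958474) (nat_lit 20) (nat_lit 5) (nat_lit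 22) (nat_lit 5) (nat_lit 21) (nat_lit 4) (nat_lit 521) (nat_lit 403) (nat_lit 276)) (XT.lf (nat_lit 0) (nat_lit 45747484227) (nat_lit 152) (nat_lit 133404423649) (nat_lit 0) (nat_lit 32934327985) (nat_lit 19) (nat_lit 5) (nat_lit 21) (nat_lit 4) (nat_lit 19) (nat_lit 4) (nat_lit 522) (nat_lit 403) (nat_lit 275)))) (XT.nd (nat_lit 156) (nat_lit 0) (nat_lit 0) (XT.nd (nat_lit 78) (nat_lit 76) (nat_lit 0) (XT.lf (nat_lit 0) (nat_lit 90787006821) (nat_lit 152) (nat_lit 51761108960) (nat_lit 0) (nat_lit 77972664674) (nat_lit 19) (nat_lit 5) (nat_lit 21) (nat_lit 4) (nat_lit 19) (nat_lit 4) (nat_lit 523) (nat_lit 403) (nat_lit 274)) (XT.lf (nat_lit 0) (nat_lit 35070995119) (nat_lit 76) (nat_lit 103547270378) (nat_lit 76) (nat_lit 90731798798) (nat_lit 18) (nat_lit 4) (nat_lit 19) (nat_lit 5) (nat_lit 19) (nat_lit 4) (nat_lit 524) (nat_lit 403) (nat_lit 273))) (XT.nd (nat_lit 78) (nat_lit 0) (nat_lit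 0) (XT.lf (nat_lit 0) (nat_lit 128026121940) (nat_lit 76) (nat_lit 61683895555) (nat_lit 76) (nat_lit 48867348324) (nat_lit 18) (nat_lit 4) (nat_lit 19) (nat_lit 5) (nat_lit 19) (nat_lit 4) (nat_lit 525) (nat_lit 403) (nat_lit 272)) (XT.lf (nat_lit 0) (nat_lit 225614137211) (nat_lit 76) (nat_lit 17734916035) (nat_lit 76) (nat_lit 4917344376) (nat_lit 18) (nat_lit 4) (nat_lit 19) (nat_lit 5) (nat_lit 19) (nat_lit 4) (nat_lit 526) (nat_lit 403) (nat_lit 271))))) (XT.nd (nat_lit 312) (nat_lit 152) (nat_lit 0) (XT.nd (nat_lit 156) (nat_lit 76) (nat_lit 0) (XT.nd (nat_lit 78) (nat_lit 0) (nat_lit 0) (XT.lf (nat_lit 0) (nat_lit 41488366869) (nat_lit 152) (nat_lit 187560210176) (nat_lit 0) (nat_lit 29280226577) (nat_lit 16) (nat_lit 5) (nat_lit 18) (nat_lit 4) (nat_lit 16) (nat_lit 4) (nat_lit 527) (nat_lit 403) (nat_lit 270)) (XT.lf (nat_lit 0) (nat_lit 90722693908) (nat_lit 152) (nat_lit 99620257475)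 (nat_lit 0) (nat_lit 78513668675) (nat_lit 16) (nat_lit 5) (nat_lit 18) (nat_lit 4) (nat_lit 16) (nat_lit 4) (nat_lit 528) (nat_lit 403) (nat_lit 269))) (XT.nd (nat_lit 78) (nat_lit 76) (nat_lit 0) (XT.lf (nat_lit 0) (nat_lit 142412006785) (nat_lit 152) (nat_lit 7297018314) (nat_lit 0) (nat_lit 130202138752) (nat_lit 16) (nat_lit 5) (nat_lit 18) (nat_lit 4) (nat_lit 16) (nat_lit 4) (nat_lit 529) (nat_lit 403) (nat_lit 268)) (XT.lf (nat_lit 0) (nat_lit 92592874791) (nat_lit 76) (nat_lit 105532134769) (nat_lit 76) (nat_lit 93321464069) (nat_lit 15) (nat_lit 4) (nat_lit 16) (nat_lit 5) (nat_lit 16) (nat_lit 4) (nat_lit 530) (nat_lit 403) (nat_lit 267)))) (XT.nd (nat_lit 156) (nat_lit 76) (nat_lit 0) (XT.nd (nat_lit 78) (nat_lit 76) (nat_lit 0) (XT.lf (nat_lit 0) (nat_lit 197717750906) (nat_lit 76) (nat_lit 59023184742) (nat_lit 76) (nat_lit 46811749597) (nat_lit 15) (nat_lit 4) (nat_lit 16) (nat_lit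 5) (nat_lit 16) (nat_lit 4) (nat_lit 531) (nat_lit 403) (nat_lit 266)) (XT.lf (nat_lit 0) (nat_lit 1952583983) (nat_lit 152) (nat_lit 8209366020) (nat_lit 76) (nat_lit 306100983037) (nat_lit 14) (nat_lit 5) (nat_lit 16) (nat_lit 5) (nat_lit 15) (nat_lit 4) (nat_lit 532) (nat_lit 403) (nat_lit 265))) (XT.nd (nat_lit 78) (nat_lit 0) (nat_lit 0) (XT.lf (nat_lit 0) (nat_lit 53764058881) (nat_lit 152) (nat_lit 233564391828) (nat_lit 0) (nat_lit 42132766918) (nat_lit 13) (nat_lit 5) (nat_lit 15) (nat_lit 4) (nat_lit 13) (nat_lit 4) (nat_lit 533) (nat_lit 403) (nat_lit 264)) (XT.lf (nat_lit 0) (nat_lit 108468194881) (nat_lit 152) (nat_lit 137999843192) (nat_lit 0) (nat_lit 96836274007) (nat_lit 13) (nat_lit 5) (nat_lit 15) (nat_lit 4) (nat_lit 13) (nat_lit 4) (nat_lit 534) (nat_lit 403) (nat_lit 263)))))) (XT.nd (nat_lit 624) (nat_lit 228) (nat_lit 0) (XT.nd (nat_lit 312) (nat_lit 152) (nat_lit 0) (XT.nd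 (nat_lit 156) (nat_lit 0) (nat_lit 0) (XT.nd (nat_lit 78) (nat_lit 76) (nat_lit 0) (XT.lf (nat_lit 0) (nat_lit 165902003638) (nat_lit 152) (nat_lit 37668350527) (nat_lit 0) (nat_lit 154269483801) (nat_lit 13) (nat_lit 5) (nat_lit 15) (nat_lit 4) (nat_lit 13) (nat_lit 4) (nat_lit 535) (nat_lit 403) (nat_lit 262)) (XT.lf (nat_lit 0) (nat_lit 69906412445) (nat_lit 76) (nat_lit 157387254879) (nat_lit 76) (nat_lit 145754164602) (nat_lit 12) (nat_lit 4) (nat_lit 13) (nat_lit 5) (nat_lit 13) (nat_lit 4) (nat_lit 536) (nat_lit 403) (nat_lit 261))) (XT.nd (nat_lit 78) (nat_lit 0) (nat_lit 0) (XT.lf (nat_lit 0) (nat_lit 184157100866) (nat_lit 76) (nat_lit 108230560461) (nat_lit 76) (nat_lit 96596926907) (nat_lit 12) (nat_lit 4) (nat_lit 13) (nat_lit 5) (nat_lit 13) (nat_lit 4) (nat_lit 537) (nat_lit 403) (nat_lit 260)) (XT.lf (nat_lit 0) (nat_lit 304110254400) (nat_lit 76) (nat_lit 56621162904) (nat_lit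 76) (nat_lit 44987011944) (nat_lit 12) (nat_lit 4) (nat_lit 13) (nat_lit 5) (nat_lit 13) (nat_lit 4) (nat_lit 538) (nat_lit 403) (nat_lit 259)))) (XT.nd (nat_lit 156) (nat_lit 0) (nat_lit 0) (XT.nd (nat_lit 78) (nat_lit 0) (nat_lit 0) (XT.lf (nat_lit 0) (nat_lit 6837507531) (nat_lit 76) (nat_lit 2173297960) (nat_lit 152) (nat_lit 414265873636) (nat_lit 10) (nat_lit 5) (nat_lit 11) (nat_lit 5) (nat_lit 12) (nat_lit 4) (nat_lit 539) (nat_lit 403) (nat_lit 258)) (XT.lf (nat_lit 0) (nat_lit 66799526901) (nat_lit 152) (nat_lit 319027829547) (nat_lit 0) (nat_lit 55718466872) (nat_lit 10) (nat_lit 5) (nat_lit 12) (nat_lit 4) (nat_lit 10) (nat_lit 4) (nat_lit 540) (nat_lit 403) (nat_lit 257))) (XT.nd (nat_lit 78) (nat_lit 0) (nat_lit 0) (XT.lf (nat_lit 0) (nat_lit 127508761595) (nat_lit 152) (nat_lit 216790833378) (nat_lit 0) (nat_lit 116427275895) (nat_lit 10) (nat_lit 5) (nat_lit 12) (nat_lit 4) (nat_lit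 10) (nat_lit 4) (nat_lit 541) (nat_lit 403) (nat_lit 256)) (XT.lf (nat_lit 0) (nat_lit 191249124099) (nat_lit 152) (nat_lit 109450830396) (nat_lit 0) (nat_lit 180167232996) (nat_lit 10) (nat_lit 5) (nat_lit 12) (nat_lit 4) (nat_lit 10) (nat_lit 4) (nat_lit 542) (nat_lit 403) (nat_lit 255))))) (XT.nd (nat_lit 312) (nat_lit 152) (nat_lit 0) (XT.nd (nat_lit 156) (nat_lit 0) (nat_lit 0) (XT.nd (nat_lit 78) (nat_lit 0) (nat_lit 0) (XT.lf (nat_lit 0) (nat_lit 3355136140) (nat_lit 76) (nat_lit 254869624116) (nat_lit 76) (nat_lit 243787346918) (nat_lit 9) (nat_lit 4) (nat_lit 10) (nat_lit 5) (nat_lit 10) (nat_lit 4) (nat_lit 543) (nat_lit 403) (nat_lit 254)) (XT.lf (nat_lit 0) (nat_lit 125593000624) (nat_lit 76) (nat_lit 204805720005) (nat_lit 76) (nat_lit 193723075095) (nat_lit 9) (nat_lit 4) (nat_lit 10) (nat_lit 5) (nat_lit 10) (nat_lit 4) (nat_lit 544) (nat_lit 403) (nat_lit 253))) (XT.nd (nat_lit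 78) (nat_lit 0) (nat_lit 0) (XT.lf (nat_lit 0) (nat_lit 253934866842) (nat_lit 76) (nat_lit 152242645163) (nat_lit 76) (nat_lit 141159650052) (nat_lit 9) (nat_lit 4) (nat_lit 10) (nat_lit 5) (nat_lit 10) (nat_lit 4) (nat_lit 545) (nat_lit 403) (nat_lit 252)) (XT.lf (nat_lit 0) (nat_lit 388686310665) (nat_lit 76) (nat_lit 97055249412) (nat_lit 76) (nat_lit 85971920776) (nat_lit 9) (nat_lit 4) (nat_lit 10) (nat_lit 5) (nat_lit 10) (nat_lit 4) (nat_lit 546) (nat_lit 403) (nat_lit 251)))) (XT.nd (nat_lit 156) (nat_lit 0) (nat_lit 0) (XT.nd (nat_lit 78) (nat_lit 152) (nat_lit 0) (XT.lf (nat_lit 0) (nat_lit 530168168865) (nat_lit 76) (nat_lit 39112134190) (nat_lit 76) (nat_lit 28028487912) (nat_lit 9) (nat_lit 4) (nat_lit 10) (nat_lit 5) (nat_lit 10) (nat_lit 4) (nat_lit 547) (nat_lit 403) (nat_lit 250)) (XT.lf (nat_lit 0) (nat_lit 32991699562) (nat_lit 152) (nat_lit 568669505939) (nat_lit 0) (nat_lit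 22435557853) (nat_lit 7) (nat_lit 5) (nat_lit 9) (nat_lit 4) (nat_lit 7) (nat_lit 4) (nat_lit 548) (nat_lit 403) (nat_lit 249))) (XT.nd (nat_lit 78) (nat_lit 0) (nat_lit 0) (XT.lf (nat_lit 0) (nat_lit 97914442892) (nat_lit 152) (nat_lit 466839016138) (nat_lit 0) (nat_lit 87358026791) (nat_lit 7) (nat_lit 5) (nat_lit 9) (nat_lit 4) (nat_lit 7) (nat_lit 4) (nat_lit 549) (nat_lit 403) (nat_lit 248)) (XT.nd (nat_lit 78) (nat_lit 0) (nat_lit 0) (XT.lf (nat_lit 0) (nat_lit 166080090727) (nat_lit 152) (nat_lit 359923602016) (nat_lit 0) (nat_lit 155523413301) (nat_lit 7) (nat_lit 5) (nat_lit 9) (nat_lit 4) (nat_lit 7) (nat_lit 4) (nat_lit 550) (nat_lit 403) (nat_lit 247)) (XT.lf (nat_lit 0) (nat_lit 237650942231) (nat_lit 152) (nat_lit 247668703066) (nat_lit 0) (nat_lit 227094015923) (nat_lit 7) (nat_lit 5) (nat_lit 9) (nat_lit 4) (nat_lit 7) (nat_lit 4) (nat_lit 551) (nat_lit 403) (nat_lit 246))))))))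
noncomputable def xc205 : XT := (XT.nd (nat_lit 51870) (nat_lit 0) (nat_lit 8740) (XT.nd (nat_lit 51246) (nat_lit 0) (nat_lit 13832) (XT.nd (nat_lit 50934) (nat_lit 0) (nat_lit 15200) (XT.nd (nat_lit 156) (nat_lit 76) (nat_lit 0) (XT.nd (nat_lit 78) (nat_lit 0) (nat_lit 0) (XT.lf (nat_lit 0) (nat_lit 312797404191) (nat_lit 152) (nat_lit 129807045717) (nat_lit 0) (nat_lit 302240240853) (nat_lit 7) (nat_lit 5) (nat_lit 9) (nat_lit 4) (nat_lit 7) (nat_lit 4) (nat_lit 552) (nat_lit 403) (nat_lit 245)) (XT.lf (nat_lit 0) (nat_lit 391698396755) (nat_lit 152) (nat_lit 6058006976) (nat_lit 0) (nat_lit 381141007675) (nat_lit 7) (nat_lit 5) (nat_lit 9) (nat_lit 4) (nat_lit 7) (nat_lit 4) (nat_lit 553) (nat_lit 403) (nat_lit 244))) (XT.nd (nat_lit 78) (nat_lit 0) (nat_lit 0) (XT.lf (nat_lit 0) (nat_lit 127968856307) (nat_lit 76) (nat_lit 348570875603) (nat_lit 76) (nat_lit 338013271529) (nat_lit 6) (nat_lit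 4) (nat_lit 7) (nat_lit 5) (nat_lit 7) (nat_lit 4) (nat_lit 554) (nat_lit 403) (nat_lit 243)) (XT.lf (nat_lit 0) (nat_lit 268902040681) (nat_lit 76) (nat_lit 296821072136) (nat_lit 76) (nat_lit 286263263308) (nat_lit 6) (nat_lit 4) (nat_lit 7) (nat_lit 5) (nat_lit 7) (nat_lit 4) (nat_lit 555) (nat_lit 403) (nat_lit 242)))) (XT.nd (nat_lit 156) (nat_lit 380) (nat_lit 0) (XT.nd (nat_lit 78) (nat_lit 0) (nat_lit 0) (XT.lf (nat_lit 0) (nat_lit 1365401964) (nat_lit 380) (nat_lit 973557890) (nat_lit 380) (nat_lit 973557890) (nat_lit 211) (nat_lit 3) (nat_lit 216) (nat_lit 3) (nat_lit 216) (nat_lit 5) (nat_lit 404) (nat_lit 404) (nat_lit 392)) (XT.lf (nat_lit 76) (nat_lit 1399776350) (nat_lit 0) (nat_lit 3704450564) (nat_lit 380) (nat_lit 1570903278) (nat_lit 212) (nat_lit 5) (nat_lit 211) (nat_lit 3) (nat_lit 216) (nat_lit 5) (nat_lit 405) (nat_lit 404) (nat_lit 391))) (XT.nd (nat_lit 78) (nat_lit 0)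 (nat_lit 0) (XT.lf (nat_lit 0) (nat_lit 724476291) (nat_lit 380) (nat_lit 1842820806) (nat_lit 456) (nat_lit 4165586890) (nat_lit 206) (nat_lit 5) (nat_lit 211) (nat_lit 3) (nat_lit 212) (nat_lit 5) (nat_lit 406) (nat_lit 404) (nat_lit 390)) (XT.lf (nat_lit 76) (nat_lit 1710080807) (nat_lit 0) (nat_lit 1255754626) (nat_lit 456) (nat_lit 3832218135) (nat_lit 207) (nat_lit 5) (nat_lit 206) (nat_lit 5) (nat_lit 212) (nat_lit 5) (nat_lit 407) (nat_lit 404) (nat_lit 389))))) (XT.nd (nat_lit 312) (nat_lit 988) (nat_lit 0) (XT.nd (nat_lit 156) (nat_lit 0) (nat_lit 0) (XT.nd (nat_lit 78) (nat_lit 456) (nat_lit 0) (XT.lf (nat_lit 0) (nat_lit 5216653144) (nat_lit 380) (nat_lit 1449446503) (nat_lit 456) (nat_lit 205527575) (nat_lit 207) (nat_lit 5) (nat_lit 212) (nat_lit 5) (nat_lit 213) (nat_lit 5) (nat_lit 408) (nat_lit 404) (nat_lit 388)) (XT.lf (nat_lit 0) (nat_lit 537154263) (nat_lit 456) (nat_lit 4618377173)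 (nat_lit 532) (nat_lit 1796558045) (nat_lit 201) (nat_lit 5) (nat_lit 207) (nat_lit 5) (nat_lit 208) (nat_lit 5) (nat_lit 409) (nat_lit 404) (nat_lit 387))) (XT.nd (nat_lit 78) (nat_lit 0) (nat_lit 0) (XT.lf (nat_lit 0) (nat_lit 2681332113) (nat_lit 456) (nat_lit 792001628) (nat_lit 532) (nat_lit 3566994585) (nat_lit 201) (nat_lit 5) (nat_lit 207) (nat_lit 5) (nat_lit 208) (nat_lit 5) (nat_lit 410) (nat_lit 404) (nat_lit 386)) (XT.lf (nat_lit 76) (nat_lit 3248255666) (nat_lit 0) (nat_lit 1614331452) (nat_lit 532) (nat_lit 2273911028) (nat_lit 202) (nat_lit 5) (nat_lit 201) (nat_lit 5) (nat_lit 208) (nat_lit 5) (nat_lit 411) (nat_lit 404) (nat_lit 385)))) (XT.nd (nat_lit 156) (nat_lit 532) (nat_lit 0) (XT.nd (nat_lit 78) (nat_lit 76) (nat_lit 0) (XT.lf (nat_lit 0) (nat_lit 195499091) (nat_lit 456) (nat_lit 6863586171) (nat_lit 532) (nat_lit 183094027) (nat_lit 196) (nat_lit 5) (nat_lit 202) (nat_lit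 5) (nat_lit 203) (nat_lit 5) (nat_lit 412) (nat_lit 404) (nat_lit 384)) (XT.lf (nat_lit 0) (nat_lit 1927820480) (nat_lit 532) (nat_lit 2879244253) (nat_lit 76) (nat_lit 2545521567) (nat_lit 195) (nat_lit 5) (nat_lit 202) (nat_lit 5) (nat_lit 196) (nat_lit 5) (nat_lit 413) (nat_lit 404) (nat_lit 383))) (XT.nd (nat_lit 78) (nat_lit 0) (nat_lit 0) (XT.lf (nat_lit 0) (nat_lit 1455528969) (nat_lit 532) (nat_lit 2597293424) (nat_lit 608) (nat_lit 3419816689) (nat_lit 188) (nat_lit 5) (nat_lit 195) (nat_lit 5) (nat_lit 196) (nat_lit 5) (nat_lit 414) (nat_lit 404) (nat_lit 382)) (XT.lf (nat_lit 0) (nat_lit 6023747539) (nat_lit 532) (nat_lit 204902668) (nat_lit 608) (nat_lit 1372825254) (nat_lit 188) (nat_lit 5) (nat_lit 195) (nat_lit 5) (nat_lit 196) (nat_lit 5) (nat_lit 415) (nat_lit 404) (nat_lit 381)))))) (XT.nd (nat_lit 624) (nat_lit 2052) (nat_lit 0) (XT.nd (nat_lit 312) (nat_lit 912) (nat_lit 0)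 (XT.nd (nat_lit 156) (nat_lit 1444) (nat_lit 0) (XT.nd (nat_lit 78) (nat_lit 0) (nat_lit 0) (XT.lf (nat_lit 0) (nat_lit 736303949) (nat_lit 684) (nat_lit 4688391176) (nat_lit 76) (nat_lit 2312229123) (nat_lit 179) (nat_lit 5) (nat_lit 188) (nat_lit 5) (nat_lit 180) (nat_lit 5) (nat_lit 416) (nat_lit 404) (nat_lit 380)) (XT.lf (nat_lit 0) (nat_lit 2838194101) (nat_lit 684) (nat_lit 29655219) (nat_lit 76) (nat_lit 5013507289) (nat_lit 179) (nat_lit 5) (nat_lit 188) (nat_lit 5) (nat_lit 180) (nat_lit 5) (nat_lit 417) (nat_lit 404) (nat_lit 379))) (XT.nd (nat_lit 78) (nat_lit 760) (nat_lit 0) (XT.lf (nat_lit 0) (nat_lit 4937746179) (nat_lit 684) (nat_lit 92071061) (nat_lit 760) (nat_lit 3003969444) (nat_lit 170) (nat_lit 5) (nat_lit 179) (nat_lit 5) (nat_lit 180) (nat_lit 5) (nat_lit 418) (nat_lit 404) (nat_lit 378)) (XT.lf (nat_lit 0) (nat_lit 1891616284) (nat_lit 760) (nat_lit 5424330930) (nat_lit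 836) (nat_lit 878652405) (nat_lit 160) (nat_lit 5) (nat_lit 170) (nat_lit 5) (nat_lit 171) (nat_lit 5) (nat_lit 419) (nat_lit 404) (nat_lit 377)))) (XT.nd (nat_lit 156) (nat_lit 380) (nat_lit 0) (XT.nd (nat_lit 78) (nat_lit 456) (nat_lit 0) (XT.lf (nat_lit 0) (nat_lit 1276756040) (nat_lit 836) (nat_lit 1235291470) (nat_lit 76) (nat_lit 5852000080) (nat_lit 159) (nat_lit 5) (nat_lit 170) (nat_lit 5) (nat_lit 160) (nat_lit 5) (nat_lit 420) (nat_lit 404) (nat_lit 376)) (XT.lf (nat_lit 0) (nat_lit 3501057945) (nat_lit 532) (nat_lit 4431741469) (nat_lit 76) (nat_lit 608922362) (nat_lit 153) (nat_lit 5) (nat_lit 160) (nat_lit 5) (nat_lit 154) (nat_lit 5) (nat_lit 421) (nat_lit 404) (nat_lit 375))) (XT.nd (nat_lit 78) (nat_lit 0) (nat_lit 0) (XT.lf (nat_lit 0) (nat_lit 941107439) (nat_lit 380) (nat_lit 4891794853) (nat_lit 456) (nat_lit 2895567295) (nat_lit 148) (nat_lit 5) (nat_lit 153) (nat_lit 5) (nat_lit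 154) (nat_lit 5) (nat_lit 422) (nat_lit 404) (nat_lit 374)) (XT.lf (nat_lit 0) (nat_lit 6652182076) (nat_lit 380) (nat_lit 1625932484) (nat_lit 456) (nat_lit 646607432) (nat_lit 148) (nat_lit 5) (nat_lit 153) (nat_lit 5) (nat_lit 154) (nat_lit 5) (nat_lit 423) (nat_lit 404) (nat_lit 373))))) (XT.nd (nat_lit 312) (nat_lit 988) (nat_lit 0) (XT.nd (nat_lit 156) (nat_lit 304) (nat_lit 0) (XT.nd (nat_lit 78) (nat_lit 304) (nat_lit 0) (XT.lf (nat_lit 0) (nat_lit 1668497667) (nat_lit 456) (nat_lit 5638702597) (nat_lit 76) (nat_lit 1821824460) (nat_lit 142) (nat_lit 5) (nat_lit 148) (nat_lit 5) (nat_lit 143) (nat_lit 5) (nat_lit 424) (nat_lit 404) (nat_lit 372)) (XT.lf (nat_lit 0) (nat_lit 160878017) (nat_lit 304) (nat_lit 3911467621) (nat_lit 380) (nat_lit 5270936227) (nat_lit 138) (nat_lit 5) (nat_lit 142) (nat_lit 5) (nat_lit 143) (nat_lit 5) (nat_lit 425) (nat_lit 404) (nat_lit 371))) (XT.nd (nat_lit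 78) (nat_lit 304) (nat_lit 0) (XT.lf (nat_lit 0) (nat_lit 6362579653) (nat_lit 304) (nat_lit 257932082) (nat_lit 380) (nat_lit 2946538765) (nat_lit 138) (nat_lit 5) (nat_lit 142) (nat_lit 5) (nat_lit 143) (nat_lit 5) (nat_lit 426) (nat_lit 404) (nat_lit 370)) (XT.lf (nat_lit 0) (nat_lit 3030630859) (nat_lit 304) (nat_lit 6300486784) (nat_lit 380) (nat_lit 469143041) (nat_lit 134) (nat_lit 5) (nat_lit 138) (nat_lit 5) (nat_lit 139) (nat_lit 5) (nat_lit 427) (nat_lit 404) (nat_lit 369)))) (XT.nd (nat_lit 156) (nat_lit 608) (nat_lit 0) (XT.nd (nat_lit 78) (nat_lit 304) (nat_lit 0) (XT.lf (nat_lit 0) (nat_lit 2055999726) (nat_lit 380) (nat_lit 475836818) (nat_lit 76) (nat_lit 7512028740) (nat_lit 133) (nat_lit 5) (nat_lit 138) (nat_lit 5) (nat_lit 134) (nat_lit 5) (nat_lit 428) (nat_lit 404) (nat_lit 368)) (XT.lf (nat_lit 0) (nat_lit 4748802365) (nat_lit 380) (nat_lit 4076256835) (nat_lit 76) (nat_lit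 1471351971) (nat_lit 129) (nat_lit 5) (nat_lit 134) (nat_lit 5) (nat_lit 130) (nat_lit 5) (nat_lit 429) (nat_lit 404) (nat_lit 367))) (XT.nd (nat_lit 78) (nat_lit 304) (nat_lit 0) (XT.lf (nat_lit 0) (nat_lit 2668722018) (nat_lit 304) (nat_lit 4936391926) (nat_lit 380) (nat_lit 2955030827) (nat_lit 125) (nat_lit 5) (nat_lit 129) (nat_lit 5) (nat_lit 130) (nat_lit 5) (nat_lit 430) (nat_lit 404) (nat_lit 366)) (XT.nd (nat_lit 78) (nat_lit 304) (nat_lit 0) (XT.lf (nat_lit 0) (nat_lit 9812440450) (nat_lit 304) (nat_lit 800066890) (nat_lit 380) (nat_lit 224148075) (nat_lit 125) (nat_lit 5) (nat_lit 129) (nat_lit 5) (nat_lit 130) (nat_lit 5) (nat_lit 431) (nat_lit 404) (nat_lit 365)) (XT.lf (nat_lit 0) (nat_lit 2655001381) (nat_lit 304) (nat_lit 4912757515) (nat_lit 76) (nat_lit 3552356379) (nat_lit 121) (nat_lit 5) (nat_lit 125) (nat_lit 5) (nat_lit 122) (nat_lit 5) (nat_lit 432) (nat_lit 404) (nat_lit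 364))))))))
noncomputable def xc206 : XT := (XT.nd (nat_lit 1248) (nat_lit 1672) (nat_lit 0) (XT.nd (nat_lit 624) (nat_lit 1140) (nat_lit 0) (XT.nd (nat_lit 312) (nat_lit 456) (nat_lit 0) (XT.nd (nat_lit 156) (nat_lit 532) (nat_lit 0) (XT.nd (nat_lit 78) (nat_lit 0) (nat_lit 0) (XT.lf (nat_lit 0) (nat_lit 2399447477) (nat_lit 304) (nat_lit 3281803533) (nat_lit 380) (nat_lit 5735782786) (nat_lit 117) (nat_lit 5) (nat_lit 121) (nat_lit 5) (nat_lit 122) (nat_lit 5) (nat_lit 433) (nat_lit 404) (nat_lit 363)) (XT.lf (nat_lit 0) (nat_lit 8906040997) (nat_lit 380) (nat_lit 1577840757) (nat_lit 76) (nat_lit 1242558118) (nat_lit 117) (nat_lit 5) (nat_lit 122) (nat_lit 5) (nat_lit 118) (nat_lit 5) (nat_lit 434) (nat_lit 404) (nat_lit 362))) (XT.nd (nat_lit 78) (nat_lit 228) (nat_lit 0) (XT.lf (nat_lit 0) (nat_lit 333226288) (nat_lit 304) (nat_lit 5746668863) (nat_lit 76) (nat_lit 5966227017) (nat_lit 113)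 (nat_lit 5) (nat_lit 117) (nat_lit 5) (nat_lit 114) (nat_lit 5) (nat_lit 435) (nat_lit 404) (nat_lit 361)) (XT.lf (nat_lit 0) (nat_lit 2191073091) (nat_lit 228) (nat_lit 1366884724) (nat_lit 304) (nat_lit 8821111122) (nat_lit 110) (nat_lit 5) (nat_lit 113) (nat_lit 5) (nat_lit 114) (nat_lit 5) (nat_lit 436) (nat_lit 404) (nat_lit 360)))) (XT.nd (nat_lit 156) (nat_lit 304) (nat_lit 0) (XT.nd (nat_lit 78) (nat_lit 152) (nat_lit 0) (XT.lf (nat_lit 0) (nat_lit 7046571190) (nat_lit 304) (nat_lit 2134387352) (nat_lit 76) (nat_lit 3542574728) (nat_lit 110) (nat_lit 5) (nat_lit 114) (nat_lit 5) (nat_lit 111) (nat_lit 5) (nat_lit 437) (nat_lit 404) (nat_lit 359)) (XT.lf (nat_lit 0) (nat_lit 6430759092) (nat_lit 152) (nat_lit 4351957338) (nat_lit 228) (nat_lit 2298851696) (nat_lit 108) (nat_lit 5) (nat_lit 110) (nat_lit 5) (nat_lit 111) (nat_lit 5) (nat_lit 438) (nat_lit 404) (nat_lit 358))) (XT.nd (nat_lit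 78) (nat_lit 0) (nat_lit 0) (XT.lf (nat_lit 0) (nat_lit 1239334779) (nat_lit 304) (nat_lit 11455950616) (nat_lit 76) (nat_lit 759691131) (nat_lit 104) (nat_lit 5) (nat_lit 108) (nat_lit 5) (nat_lit 105) (nat_lit 5) (nat_lit 439) (nat_lit 404) (nat_lit 357)) (XT.lf (nat_lit 0) (nat_lit 5014508497) (nat_lit 304) (nat_lit 2715830124) (nat_lit 76) (nat_lit 6107967747) (nat_lit 104) (nat_lit 5) (nat_lit 108) (nat_lit 5) (nat_lit 105) (nat_lit 5) (nat_lit 440) (nat_lit 404) (nat_lit 356))))) (XT.nd (nat_lit 312) (nat_lit 532) (nat_lit 0) (XT.nd (nat_lit 156) (nat_lit 228) (nat_lit 0) (XT.nd (nat_lit 78) (nat_lit 228) (nat_lit 0) (XT.lf (nat_lit 0) (nat_lit 6600374294) (nat_lit 152) (nat_lit 2434935716) (nat_lit 228) (nat_lit 5202651184) (nat_lit 102) (nat_lit 5) (nat_lit 104) (nat_lit 5) (nat_lit 105) (nat_lit 5) (nat_lit 441) (nat_lit 404) (nat_lit 355)) (XT.lf (nat_lit 0) (nat_lit 1755142274) (nat_lit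 228) (nat_lit 11579458128) (nat_lit 304) (nat_lit 1319127776) (nat_lit 99) (nat_lit 5) (nat_lit 102) (nat_lit 5) (nat_lit 103) (nat_lit 5) (nat_lit 442) (nat_lit 404) (nat_lit 354))) (XT.nd (nat_lit 78) (nat_lit 152) (nat_lit 0) (XT.lf (nat_lit 0) (nat_lit 2796485253) (nat_lit 304) (nat_lit 3359438136) (nat_lit 76) (nat_lit 8925898105) (nat_lit 98) (nat_lit 5) (nat_lit 102) (nat_lit 5) (nat_lit 99) (nat_lit 5) (nat_lit 443) (nat_lit 404) (nat_lit 353)) (XT.lf (nat_lit 0) (nat_lit 6782423630) (nat_lit 152) (nat_lit 353989303) (nat_lit 228) (nat_lit 8390683626) (nat_lit 96) (nat_lit 5) (nat_lit 98) (nat_lit 5) (nat_lit 99) (nat_lit 5) (nat_lit 444) (nat_lit 404) (nat_lit 352)))) (XT.nd (nat_lit 156) (nat_lit 304) (nat_lit 0) (XT.nd (nat_lit 78) (nat_lit 76) (nat_lit 0) (XT.lf (nat_lit 0) (nat_lit 1441575796) (nat_lit 152) (nat_lit 10379218401) (nat_lit 228) (nat_lit 4167469848) (nat_lit 94) (nat_lit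 5) (nat_lit 96) (nat_lit 5) (nat_lit 97) (nat_lit 5) (nat_lit 445) (nat_lit 404) (nat_lit 351)) (XT.lf (nat_lit 0) (nat_lit 372485684) (nat_lit 228) (nat_lit 4107278347) (nat_lit 76) (nat_lit 11986812718) (nat_lit 93) (nat_lit 5) (nat_lit 96) (nat_lit 5) (nat_lit 94) (nat_lit 5) (nat_lit 446) (nat_lit 404) (nat_lit 350))) (XT.nd (nat_lit 78) (nat_lit 152) (nat_lit 0) (XT.lf (nat_lit 0) (nat_lit 5096802560) (nat_lit 228) (nat_lit 10050466236) (nat_lit 76) (nat_lit 1813250760) (nat_lit 91) (nat_lit 5) (nat_lit 94) (nat_lit 5) (nat_lit 92) (nat_lit 5) (nat_lit 447) (nat_lit 404) (nat_lit 349)) (XT.lf (nat_lit 0) (nat_lit 1036114120) (nat_lit 152) (nat_lit 9141806903) (nat_lit 228) (nat_lit 7295210448) (nat_lit 89) (nat_lit 5) (nat_lit 91) (nat_lit 5) (nat_lit 92) (nat_lit 5) (nat_lit 448) (nat_lit 404) (nat_lit 348)))))) (XT.nd (nat_lit 624) (nat_lit 912) (nat_lit 0) (XT.nd (nat_lit 312) (nat_lit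 380) (nat_lit 0) (XT.nd (nat_lit 156) (nat_lit 152) (nat_lit 0) (XT.nd (nat_lit 78) (nat_lit 228) (nat_lit 0) (XT.lf (nat_lit 0) (nat_lit 12959409488) (nat_lit 152) (nat_lit 2685019635) (nat_lit 228) (nat_lit 2360379369) (nat_lit 89) (nat_lit 5) (nat_lit 91) (nat_lit 5) (nat_lit 92) (nat_lit 5) (nat_lit 449) (nat_lit 404) (nat_lit 347)) (XT.lf (nat_lit 0) (nat_lit 2869086197) (nat_lit 228) (nat_lit 11591081070) (nat_lit 76) (nat_lit 4093791410) (nat_lit 86) (nat_lit 5) (nat_lit 89) (nat_lit 5) (nat_lit 87) (nat_lit 5) (nat_lit 450) (nat_lit 404) (nat_lit 346))) (XT.nd (nat_lit 78) (nat_lit 0) (nat_lit 0) (XT.lf (nat_lit 0) (nat_lit 486907695) (nat_lit 152) (nat_lit 7895008074) (nat_lit 228) (nat_lit 10741656150) (nat_lit 84) (nat_lit 5) (nat_lit 86) (nat_lit 5) (nat_lit 87) (nat_lit 5) (nat_lit 451) (nat_lit 404) (nat_lit 345)) (XT.lf (nat_lit 0) (nat_lit 13507257471) (nat_lit 152) (nat_lit 822954464)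 (nat_lit 228) (nat_lit 5383463617) (nat_lit 84) (nat_lit 5) (nat_lit 86) (nat_lit 5) (nat_lit 87) (nat_lit 5) (nat_lit 452) (nat_lit 404) (nat_lit 344)))) (XT.nd (nat_lit 156) (nat_lit 228) (nat_lit 0) (XT.nd (nat_lit 78) (nat_lit 0) (nat_lit 0) (XT.lf (nat_lit 0) (nat_lit 413433454) (nat_lit 152) (nat_lit 13430282738) (nat_lit 76) (nat_lit 6480451610) (nat_lit 82) (nat_lit 5) (nat_lit 84) (nat_lit 5) (nat_lit 83) (nat_lit 5) (nat_lit 453) (nat_lit 404) (nat_lit 343)) (XT.lf (nat_lit 0) (nat_lit 6404583769) (nat_lit 152) (nat_lit 261113185) (nat_lit 76) (nat_lit 14290809483) (nat_lit 82) (nat_lit 5) (nat_lit 84) (nat_lit 5) (nat_lit 83) (nat_lit 5) (nat_lit 454) (nat_lit 404) (nat_lit 342))) (XT.nd (nat_lit 78) (nat_lit 76) (nat_lit 0) (XT.lf (nat_lit 0) (nat_lit 12896585855) (nat_lit 228) (nat_lit 7674303749) (nat_lit 76) (nat_lit 1039508498) (nat_lit 80) (nat_lit 5) (nat_lit 83) (nat_lit 5) (nat_lit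 81) (nat_lit 4) (nat_lit 455) (nat_lit 404) (nat_lit 341)) (XT.lf (nat_lit 0) (nat_lit 6597588572) (nat_lit 76) (nat_lit 13299317598) (nat_lit 152) (nat_lit 2390893044) (nat_lit 79) (nat_lit 5) (nat_lit 80) (nat_lit 5) (nat_lit 81) (nat_lit 4) (nat_lit 456) (nat_lit 404) (nat_lit 340))))) (XT.nd (nat_lit 312) (nat_lit 532) (nat_lit 0) (XT.nd (nat_lit 156) (nat_lit 152) (nat_lit 0) (XT.nd (nat_lit 78) (nat_lit 152) (nat_lit 0) (XT.lf (nat_lit 0) (nat_lit 4211371075) (nat_lit 152) (nat_lit 1271338773) (nat_lit 76) (nat_lit 17508086589) (nat_lit 78) (nat_lit 5) (nat_lit 80) (nat_lit 5) (nat_lit 79) (nat_lit 5) (nat_lit 457) (nat_lit 404) (nat_lit 339)) (XT.lf (nat_lit 0) (nat_lit 11300594157) (nat_lit 228) (nat_lit 9536186058) (nat_lit 76) (nat_lit 2878344453) (nat_lit 76) (nat_lit 5) (nat_lit 79) (nat_lit 5) (nat_lit 77) (nat_lit 4) (nat_lit 458) (nat_lit 404) (nat_lit 338))) (XT.nd (nat_lit 78)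 (nat_lit 76) (nat_lit 0) (XT.lf (nat_lit 0) (nat_lit 6016408712) (nat_lit 76) (nat_lit 12902426603) (nat_lit 152) (nat_lit 5548106784) (nat_lit 75) (nat_lit 5) (nat_lit 76) (nat_lit 5) (nat_lit 77) (nat_lit 4) (nat_lit 459) (nat_lit 404) (nat_lit 337)) (XT.lf (nat_lit 0) (nat_lit 1741565645) (nat_lit 152) (nat_lit 2656457588) (nat_lit 76) (nat_lit 20850375087) (nat_lit 74) (nat_lit 5) (nat_lit 76) (nat_lit 5) (nat_lit 75) (nat_lit 5) (nat_lit 460) (nat_lit 404) (nat_lit 336)))) (XT.nd (nat_lit 156) (nat_lit 304) (nat_lit 0) (XT.nd (nat_lit 78) (nat_lit 76) (nat_lit 0) (XT.lf (nat_lit 0) (nat_lit 9477492348) (nat_lit 228) (nat_lit 11892752825) (nat_lit 76) (nat_lit 4680723927) (nat_lit 72) (nat_lit 5) (nat_lit 75) (nat_lit 5) (nat_lit 73) (nat_lit 4) (nat_lit 461) (nat_lit 404) (nat_lit 335)) (XT.lf (nat_lit 0) (nat_lit 5048420266) (nat_lit 76) (nat_lit 12719064222) (nat_lit 152) (nat_lit 9117820998)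 (nat_lit 71) (nat_lit 5) (nat_lit 72) (nat_lit 5) (nat_lit 73) (nat_lit 4) (nat_lit 462) (nat_lit 404) (nat_lit 334))) (XT.nd (nat_lit 78) (nat_lit 304) (nat_lit 0) (XT.lf (nat_lit 0) (nat_lit 23195669194) (nat_lit 76) (nat_lit 3448898764) (nat_lit 152) (nat_lit 1108161644) (nat_lit 71) (nat_lit 5) (nat_lit 72) (nat_lit 5) (nat_lit 73) (nat_lit 4) (nat_lit 463) (nat_lit 404) (nat_lit 333)) (XT.nd (nat_lit 78) (nat_lit 76) (nat_lit 0) (XT.lf (nat_lit 0) (nat_lit 7359996286) (nat_lit 228) (nat_lit 14887292929) (nat_lit 76) (nat_lit 6395949711) (nat_lit 68) (nat_lit 5) (nat_lit 71) (nat_lit 5) (nat_lit 69) (nat_lit 4) (nat_lit 464) (nat_lit 404) (nat_lit 332)) (XT.lf (nat_lit 0) (nat_lit 3553789700) (nat_lit 76) (nat_lit 12823251246) (nat_lit 152) (nat_lit 13192188855) (nat_lit 67) (nat_lit 5) (nat_lit 68) (nat_lit 5) (nat_lit 69) (nat_lit 4) (nat_lit 465) (nat_lit 404) (nat_lit 331))))))))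
noncomputable def xc207 : XT := (XT.nd (nat_lit 1248) (nat_lit 1140) (nat_lit 0) (XT.nd (nat_lit 624) (nat_lit 608) (nat_lit 0) (XT.nd (nat_lit 312) (nat_lit 304) (nat_lit 0) (XT.nd (nat_lit 156) (nat_lit 76) (nat_lit 0) (XT.nd (nat_lit 78) (nat_lit 152) (nat_lit 0) (XT.lf (nat_lit 0) (nat_lit 23382243184) (nat_lit 76) (nat_lit 2687589902) (nat_lit 152) (nat_lit 4460442779) (nat_lit 67) (nat_lit 5) (nat_lit 68) (nat_lit 5) (nat_lit 69) (nat_lit 4) (nat_lit 466) (nat_lit 404) (nat_lit 330)) (XT.lf (nat_lit 0) (nat_lit 4861447754) (nat_lit 152) (nat_lit 18701361608) (nat_lit 76) (nat_lit 7957678121) (nat_lit 65) (nat_lit 5) (nat_lit 67) (nat_lit 5) (nat_lit 66) (nat_lit 4) (nat_lit 467) (nat_lit 404) (nat_lit 329))) (XT.nd (nat_lit 78) (nat_lit 0) (nat_lit 0) (XT.lf (nat_lit 0) (nat_lit 1352699589) (nat_lit 76) (nat_lit 13308818429) (nat_lit 152) (nat_lit 17886936650) (nat_lit 64) (nat_lit 5) (nat_lit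 65) (nat_lit 5) (nat_lit 66) (nat_lit 4) (nat_lit 468) (nat_lit 404) (nat_lit 328)) (XT.lf (nat_lit 0) (nat_lit 23009461746) (nat_lit 76) (nat_lit 2233093721) (nat_lit 152) (nat_lit 8370716897) (nat_lit 64) (nat_lit 5) (nat_lit 65) (nat_lit 5) (nat_lit 66) (nat_lit 4) (nat_lit 469) (nat_lit 404) (nat_lit 327)))) (XT.nd (nat_lit 156) (nat_lit 152) (nat_lit 0) (XT.nd (nat_lit 78) (nat_lit 0) (nat_lit 0) (XT.lf (nat_lit 0) (nat_lit 1870676560) (nat_lit 152) (nat_lit 23565594161) (nat_lit 76) (nat_lit 9278732123) (nat_lit 62) (nat_lit 5) (nat_lit 64) (nat_lit 5) (nat_lit 63) (nat_lit 4) (nat_lit 470) (nat_lit 404) (nat_lit 326)) (XT.lf (nat_lit 0) (nat_lit 12537134692) (nat_lit 152) (nat_lit 1729040437) (nat_lit 76) (nat_lit 21589068468) (nat_lit 62) (nat_lit 5) (nat_lit 64) (nat_lit 5) (nat_lit 63) (nat_lit 4) (nat_lit 471) (nat_lit 404) (nat_lit 325))) (XT.nd (nat_lit 78) (nat_lit 76) (nat_lit 0)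 (XT.lf (nat_lit 0) (nat_lit 21853206702) (nat_lit 76) (nat_lit 2201254327) (nat_lit 152) (nat_lit 12982158369) (nat_lit 61) (nat_lit 5) (nat_lit 62) (nat_lit 5) (nat_lit 63) (nat_lit 4) (nat_lit 472) (nat_lit 404) (nat_lit 324)) (XT.lf (nat_lit 0) (nat_lit 8460214565) (nat_lit 76) (nat_lit 27989150621) (nat_lit 76) (nat_lit 1812613493) (nat_lit 60) (nat_lit 4) (nat_lit 61) (nat_lit 5) (nat_lit 61) (nat_lit 4) (nat_lit 473) (nat_lit 404) (nat_lit 323))))) (XT.nd (nat_lit 312) (nat_lit 304) (nat_lit 0) (XT.nd (nat_lit 156) (nat_lit 152) (nat_lit 0) (XT.nd (nat_lit 78) (nat_lit 76) (nat_lit 0) (XT.lf (nat_lit 0) (nat_lit 9871978212) (nat_lit 152) (nat_lit 5963404082) (nat_lit 76) (nat_lit 23691787274) (nat_lit 59) (nat_lit 5) (nat_lit 61) (nat_lit 5) (nat_lit 60) (nat_lit 4) (nat_lit 474) (nat_lit 404) (nat_lit 322)) (XT.lf (nat_lit 0) (nat_lit 19621647337) (nat_lit 76) (nat_lit 2742189774) (nat_lit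 152) (nat_lit 18476099704) (nat_lit 58) (nat_lit 5) (nat_lit 59) (nat_lit 5) (nat_lit 60) (nat_lit 4) (nat_lit 475) (nat_lit 404) (nat_lit 321))) (XT.nd (nat_lit 78) (nat_lit 76) (nat_lit 0) (XT.lf (nat_lit 0) (nat_lit 4403550975) (nat_lit 76) (nat_lit 31397644818) (nat_lit 76) (nat_lit 6401101506) (nat_lit 57) (nat_lit 4) (nat_lit 58) (nat_lit 5) (nat_lit 58) (nat_lit 4) (nat_lit 476) (nat_lit 404) (nat_lit 320)) (XT.lf (nat_lit 0) (nat_lit 6464620122) (nat_lit 152) (nat_lit 11764164339) (nat_lit 76) (nat_lit 25379696089) (nat_lit 56) (nat_lit 5) (nat_lit 58) (nat_lit 5) (nat_lit 57) (nat_lit 4) (nat_lit 477) (nat_lit 404) (nat_lit 319)))) (XT.nd (nat_lit 156) (nat_lit 228) (nat_lit 0) (XT.nd (nat_lit 78) (nat_lit 0) (nat_lit 0) (XT.lf (nat_lit 0) (nat_lit 15935696516) (nat_lit 76) (nat_lit 4050385244) (nat_lit 152) (nat_lit 25082265940) (nat_lit 55) (nat_lit 5) (nat_lit 56) (nat_lit 5) (nat_lit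 57) (nat_lit 4) (nat_lit 478) (nat_lit 404) (nat_lit 318)) (XT.lf (nat_lit 0) (nat_lit 34534141120) (nat_lit 152) (nat_lit 1376347898) (nat_lit 0) (nat_lit 10673193137) (nat_lit 55) (nat_lit 5) (nat_lit 57) (nat_lit 4) (nat_lit 55) (nat_lit 4) (nat_lit 479) (nat_lit 404) (nat_lit 317))) (XT.nd (nat_lit 78) (nat_lit 76) (nat_lit 0) (XT.lf (nat_lit 0) (nat_lit 2082964198) (nat_lit 152) (nat_lit 19607401341) (nat_lit 76) (nat_lit 26458118322) (nat_lit 53) (nat_lit 5) (nat_lit 55) (nat_lit 5) (nat_lit 54) (nat_lit 4) (nat_lit 480) (nat_lit 404) (nat_lit 316)) (XT.lf (nat_lit 0) (nat_lit 10304024707) (nat_lit 76) (nat_lit 6377558454) (nat_lit 152) (nat_lit 33091844370) (nat_lit 52) (nat_lit 5) (nat_lit 53) (nat_lit 5) (nat_lit 54) (nat_lit 4) (nat_lit 481) (nat_lit 404) (nat_lit 315)))))) (XT.nd (nat_lit 624) (nat_lit 608) (nat_lit 0) (XT.nd (nat_lit 312) (nat_lit 304) (nat_lit 0) (XT.nd (nat_lit 156)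 (nat_lit 152) (nat_lit 0) (XT.nd (nat_lit 78) (nat_lit 76) (nat_lit 0) (XT.lf (nat_lit 0) (nat_lit 32479010895) (nat_lit 152) (nat_lit 9267880415) (nat_lit 0) (nat_lit 9709283331) (nat_lit 52) (nat_lit 5) (nat_lit 54) (nat_lit 4) (nat_lit 52) (nat_lit 4) (nat_lit 482) (nat_lit 404) (nat_lit 314)) (XT.lf (nat_lit 0) (nat_lit 23038732096) (nat_lit 76) (nat_lit 26472698953) (nat_lit 76) (nat_lit 3689372144) (nat_lit 51) (nat_lit 4) (nat_lit 52) (nat_lit 5) (nat_lit 52) (nat_lit 4) (nat_lit 483) (nat_lit 404) (nat_lit 313))) (XT.nd (nat_lit 78) (nat_lit 0) (nat_lit 0) (XT.lf (nat_lit 0) (nat_lit 2091116298) (nat_lit 76) (nat_lit 10049076271) (nat_lit 152) (nat_lit 42874166295) (nat_lit 49) (nat_lit 5) (nat_lit 50) (nat_lit 5) (nat_lit 51) (nat_lit 4) (nat_lit 484) (nat_lit 404) (nat_lit 312)) (XT.lf (nat_lit 0) (nat_lit 29249710909) (nat_lit 152) (nat_lit 20108012362) (nat_lit 0) (nat_lit 7527221970)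 (nat_lit 49) (nat_lit 5) (nat_lit 51) (nat_lit 4) (nat_lit 49) (nat_lit 4) (nat_lit 485) (nat_lit 404) (nat_lit 311)))) (XT.nd (nat_lit 156) (nat_lit 152) (nat_lit 0) (XT.nd (nat_lit 78) (nat_lit 76) (nat_lit 0) (XT.lf (nat_lit 0) (nat_lit 14614931708) (nat_lit 76) (nat_lit 32974534188) (nat_lit 76) (nat_lit 11240857117) (nat_lit 48) (nat_lit 4) (nat_lit 49) (nat_lit 5) (nat_lit 49) (nat_lit 4) (nat_lit 486) (nat_lit 404) (nat_lit 310)) (XT.lf (nat_lit 0) (nat_lit 6110039063) (nat_lit 152) (nat_lit 9218752355) (nat_lit 76) (nat_lit 45523116357) (nat_lit 47) (nat_lit 5) (nat_lit 49) (nat_lit 5) (nat_lit 48) (nat_lit 4) (nat_lit 487) (nat_lit 404) (nat_lit 309))) (XT.nd (nat_lit 78) (nat_lit 76) (nat_lit 0) (XT.lf (nat_lit 0) (nat_lit 24433829518) (nat_lit 152) (nat_lit 34792095986) (nat_lit 0) (nat_lit 3715276755) (nat_lit 46) (nat_lit 5) (nat_lit 48) (nat_lit 4) (nat_lit 46) (nat_lit 4) (nat_lit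 488) (nat_lit 404) (nat_lit 308)) (XT.lf (nat_lit 0) (nat_lit 2365714662) (nat_lit 76) (nat_lit 41737760444) (nat_lit 76) (nat_lit 21010003177) (nat_lit 45) (nat_lit 4) (nat_lit 46) (nat_lit 5) (nat_lit 46) (nat_lit 4) (nat_lit 489) (nat_lit 404) (nat_lit 307))))) (XT.nd (nat_lit 312) (nat_lit 380) (nat_lit 0) (XT.nd (nat_lit 156) (nat_lit 76) (nat_lit 0) (XT.nd (nat_lit 78) (nat_lit 152) (nat_lit 0) (XT.lf (nat_lit 0) (nat_lit 42555465092) (nat_lit 76) (nat_lit 22773406565) (nat_lit 76) (nat_lit 2036883104) (nat_lit 45) (nat_lit 4) (nat_lit 46) (nat_lit 5) (nat_lit 46) (nat_lit 4) (nat_lit 490) (nat_lit 404) (nat_lit 306)) (XT.lf (nat_lit 0) (nat_lit 15198486828) (nat_lit 76) (nat_lit 2334859047) (nat_lit 152) (nat_lit 52172293548) (nat_lit 43) (nat_lit 5) (nat_lit 44) (nat_lit 5) (nat_lit 45) (nat_lit 4) (nat_lit 491) (nat_lit 404) (nat_lit 305))) (XT.nd (nat_lit 78) (nat_lit 76) (nat_lit 0)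 (XT.lf (nat_lit 0) (nat_lit 38722916789) (nat_lit 152) (nat_lit 14444144814) (nat_lit 0) (nat_lit 18958323061) (nat_lit 43) (nat_lit 5) (nat_lit 45) (nat_lit 4) (nat_lit 43) (nat_lit 4) (nat_lit 492) (nat_lit 404) (nat_lit 304)) (XT.lf (nat_lit 0) (nat_lit 28463498590) (nat_lit 76) (nat_lit 32975535479) (nat_lit 76) (nat_lit 13203729781) (nat_lit 42) (nat_lit 4) (nat_lit 43) (nat_lit 5) (nat_lit 43) (nat_lit 4) (nat_lit 493) (nat_lit 404) (nat_lit 303)))) (XT.nd (nat_lit 156) (nat_lit 228) (nat_lit 0) (XT.nd (nat_lit 78) (nat_lit 76) (nat_lit 0) (XT.lf (nat_lit 0) (nat_lit 7981773635) (nat_lit 152) (nat_lit 3416038286) (nat_lit 76) (nat_lit 65870299326) (nat_lit 41) (nat_lit 5) (nat_lit 43) (nat_lit 5) (nat_lit 42) (nat_lit 4) (nat_lit 494) (nat_lit 404) (nat_lit 302)) (XT.lf (nat_lit 0) (nat_lit 30623118808) (nat_lit 152) (nat_lit 37568713391) (nat_lit 0) (nat_lit 11780056227) (nat_lit 40) (nat_lit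 5) (nat_lit 42) (nat_lit 4) (nat_lit 40) (nat_lit 4) (nat_lit 495) (nat_lit 404) (nat_lit 301))) (XT.nd (nat_lit 78) (nat_lit 152) (nat_lit 0) (XT.lf (nat_lit 0) (nat_lit 7857896650) (nat_lit 76) (nat_lit 46892139263) (nat_lit 76) (nat_lit 28043143377) (nat_lit 39) (nat_lit 4) (nat_lit 40) (nat_lit 5) (nat_lit 40) (nat_lit 4) (nat_lit 496) (nat_lit 404) (nat_lit 300)) (XT.nd (nat_lit 78) (nat_lit 152) (nat_lit 0) (XT.lf (nat_lit 0) (nat_lit 56830826950) (nat_lit 76) (nat_lit 23874135637) (nat_lit 76) (nat_lit 5019488984) (nat_lit 39) (nat_lit 4) (nat_lit 40) (nat_lit 5) (nat_lit 40) (nat_lit 4) (nat_lit 497) (nat_lit 404) (nat_lit 299)) (XT.lf (nat_lit 0) (nat_lit 18850911829) (nat_lit 152) (nat_lit 69032009451) (nat_lit 0) (nat_lit 888980080) (nat_lit 37) (nat_lit 5) (nat_lit 39) (nat_lit 4) (nat_lit 37) (nat_lit 4) (nat_lit 498) (nat_lit 404) (nat_lit 298))))))))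
noncomputable def xc208 : XT := (XT.nd (nat_lit 1248) (nat_lit 684) (nat_lit 0) (XT.nd (nat_lit 624) (nat_lit 456) (nat_lit 0) (XT.nd (nat_lit 312) (nat_lit 228) (nat_lit 0) (XT.nd (nat_lit 156) (nat_lit 152) (nat_lit 0) (XT.nd (nat_lit 78) (nat_lit 76) (nat_lit 0) (XT.lf (nat_lit 0) (nat_lit 44620776293) (nat_lit 152) (nat_lit 20649138296) (nat_lit 0) (nat_lit 26653963199) (nat_lit 37) (nat_lit 5) (nat_lit 39) (nat_lit 4) (nat_lit 37) (nat_lit 4) (nat_lit 499) (nat_lit 404) (nat_lit 297)) (XT.lf (nat_lit 0) (nat_lit 31121925771) (nat_lit 76) (nat_lit 41029682789) (nat_lit 76) (nat_lit 23058220795) (nat_lit 36) (nat_lit 4) (nat_lit 37) (nat_lit 5) (nat_lit 37) (nat_lit 4) (nat_lit 500) (nat_lit 404) (nat_lit 296))) (XT.nd (nat_lit 78) (nat_lit 76) (nat_lit 0) (XT.lf (nat_lit 0) (nat_lit 2664141514) (nat_lit 152) (nat_lit 12514399412) (nat_lit 76) (nat_lit 83462564062) (nat_lit 35) (nat_lit 5) (nat_lit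 37) (nat_lit 5) (nat_lit 36) (nat_lit 4) (nat_lit 501) (nat_lit 404) (nat_lit 295)) (XT.lf (nat_lit 0) (nat_lit 29753706053) (nat_lit 152) (nat_lit 59798743254) (nat_lit 0) (nat_lit 12629795380) (nat_lit 34) (nat_lit 5) (nat_lit 36) (nat_lit 4) (nat_lit 34) (nat_lit 4) (nat_lit 502) (nat_lit 404) (nat_lit 294)))) (XT.nd (nat_lit 156) (nat_lit 152) (nat_lit 0) (XT.nd (nat_lit 78) (nat_lit 76) (nat_lit 0) (XT.lf (nat_lit 0) (nat_lit 58649222799) (nat_lit 152) (nat_lit 5707157450) (nat_lit 0) (nat_lit 41521487464) (nat_lit 34) (nat_lit 5) (nat_lit 36) (nat_lit 4) (nat_lit 34) (nat_lit 4) (nat_lit 503) (nat_lit 404) (nat_lit 293)) (XT.lf (nat_lit 0) (nat_lit 52752877715) (nat_lit 76) (nat_lit 37048099494) (nat_lit 76) (nat_lit 19916721625) (nat_lit 33) (nat_lit 4) (nat_lit 34) (nat_lit 5) (nat_lit 34) (nat_lit 4) (nat_lit 504) (nat_lit 404) (nat_lit 292))) (XT.nd (nat_lit 78) (nat_lit 0) (nat_lit 0)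 (XT.lf (nat_lit 0) (nat_lit 440543133) (nat_lit 76) (nat_lit 8132817882) (nat_lit 152) (nat_lit 105164673328) (nat_lit 31) (nat_lit 5) (nat_lit 32) (nat_lit 5) (nat_lit 33) (nat_lit 4) (nat_lit 505) (nat_lit 404) (nat_lit 291)) (XT.lf (nat_lit 0) (nat_lit 39134060476) (nat_lit 152) (nat_lit 55931216687) (nat_lit 0) (nat_lit 22812012060) (nat_lit 31) (nat_lit 5) (nat_lit 33) (nat_lit 4) (nat_lit 31) (nat_lit 4) (nat_lit 506) (nat_lit 404) (nat_lit 290))))) (XT.nd (nat_lit 312) (nat_lit 228) (nat_lit 0) (XT.nd (nat_lit 156) (nat_lit 152) (nat_lit 0) (XT.nd (nat_lit 78) (nat_lit 0) (nat_lit 0) (XT.lf (nat_lit 0) (nat_lit 4283755316) (nat_lit 76) (nat_lit 67127682283) (nat_lit 76) (nat_lit 50802637144) (nat_lit 30) (nat_lit 4) (nat_lit 31) (nat_lit 5) (nat_lit 31) (nat_lit 4) (nat_lit 507) (nat_lit 404) (nat_lit 289)) (XT.lf (nat_lit 0) (nat_lit 69428260576) (nat_lit 76) (nat_lit 36810272831) (nat_lit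 76) (nat_lit 20482373671) (nat_lit 30) (nat_lit 4) (nat_lit 31) (nat_lit 5) (nat_lit 31) (nat_lit 4) (nat_lit 508) (nat_lit 404) (nat_lit 288))) (XT.nd (nat_lit 78) (nat_lit 0) (nat_lit 0) (XT.lf (nat_lit 0) (nat_lit 6381606408) (nat_lit 76) (nat_lit 4697527095) (nat_lit 152) (nat_lit 120360652922) (nat_lit 28) (nat_lit 5) (nat_lit 29) (nat_lit 5) (nat_lit 30) (nat_lit 4) (nat_lit 509) (nat_lit 404) (nat_lit 287)) (XT.lf (nat_lit 0) (nat_lit 44958655825) (nat_lit 152) (nat_lit 61944529436) (nat_lit 0) (nat_lit 29403221581) (nat_lit 28) (nat_lit 5) (nat_lit 30) (nat_lit 4) (nat_lit 28) (nat_lit 4) (nat_lit 510) (nat_lit 404) (nat_lit 286)))) (XT.nd (nat_lit 156) (nat_lit 152) (nat_lit 0) (XT.nd (nat_lit 78) (nat_lit 0) (nat_lit 0) (XT.lf (nat_lit 0) (nat_lit 4366308758) (nat_lit 76) (nat_lit 76300548330) (nat_lit 76) (nat_lit 60742766075) (nat_lit 27) (nat_lit 4) (nat_lit 28) (nat_lit 5) (nat_lit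 28) (nat_lit 4) (nat_lit 511) (nat_lit 404) (nat_lit 285)) (XT.lf (nat_lit 0) (nat_lit 76122370136) (nat_lit 76) (nat_lit 43076855394) (nat_lit 76) (nat_lit 27516836938) (nat_lit 27) (nat_lit 4) (nat_lit 28) (nat_lit 5) (nat_lit 28) (nat_lit 4) (nat_lit 512) (nat_lit 404) (nat_lit 284))) (XT.nd (nat_lit 78) (nat_lit 76) (nat_lit 0) (XT.lf (nat_lit 0) (nat_lit 7124516478) (nat_lit 152) (nat_lit 956889390) (nat_lit 76) (nat_lit 144201162956) (nat_lit 26) (nat_lit 5) (nat_lit 28) (nat_lit 5) (nat_lit 27) (nat_lit 4) (nat_lit 513) (nat_lit 404) (nat_lit 283)) (XT.lf (nat_lit 0) (nat_lit 44193726418) (nat_lit 152) (nat_lit 84459391353) (nat_lit 0) (nat_lit 29370701209) (nat_lit 25) (nat_lit 5) (nat_lit 27) (nat_lit 4) (nat_lit 25) (nat_lit 4) (nat_lit 514) (nat_lit 404) (nat_lit 282)))))) (XT.nd (nat_lit 624) (nat_lit 304) (nat_lit 0) (XT.nd (nat_lit 312) (nat_lit 152) (nat_lit 0) (XT.nd (nat_lit 156)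 (nat_lit 152) (nat_lit 0) (XT.nd (nat_lit 78) (nat_lit 76) (nat_lit 0) (XT.lf (nat_lit 0) (nat_lit 83255857532) (nat_lit 152) (nat_lit 12358308505) (nat_lit 0) (nat_lit 68430992595) (nat_lit 25) (nat_lit 5) (nat_lit 27) (nat_lit 4) (nat_lit 25) (nat_lit 4) (nat_lit 515) (nat_lit 404) (nat_lit 281)) (XT.lf (nat_lit 0) (nat_lit 65423433666) (nat_lit 76) (nat_lit 59860064269) (nat_lit 76) (nat_lit 45033447211) (nat_lit 24) (nat_lit 4) (nat_lit 25) (nat_lit 5) (nat_lit 25) (nat_lit 4) (nat_lit 516) (nat_lit 404) (nat_lit 280))) (XT.nd (nat_lit 78) (nat_lit 152) (nat_lit 0) (XT.lf (nat_lit 0) (nat_lit 147505258257) (nat_lit 76) (nat_lit 22107664194) (nat_lit 76) (nat_lit 7279378448) (nat_lit 24) (nat_lit 4) (nat_lit 25) (nat_lit 5) (nat_lit 25) (nat_lit 4) (nat_lit 517) (nat_lit 404) (nat_lit 279)) (XT.lf (nat_lit 0) (nat_lit 32409238557) (nat_lit 152) (nat_lit 133022242231) (nat_lit 0) (nat_lit 18285548108)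 (nat_lit 22) (nat_lit 5) (nat_lit 24) (nat_lit 4) (nat_lit 22) (nat_lit 4) (nat_lit 518) (nat_lit 404) (nat_lit 278)))) (XT.nd (nat_lit 156) (nat_lit 76) (nat_lit 0) (XT.nd (nat_lit 78) (nat_lit 76) (nat_lit 0) (XT.lf (nat_lit 0) (nat_lit 74697312526) (nat_lit 152) (nat_lit 55564550426) (nat_lit 0) (nat_lit 60572180603) (nat_lit 22) (nat_lit 5) (nat_lit 24) (nat_lit 4) (nat_lit 22) (nat_lit 4) (nat_lit 519) (nat_lit 404) (nat_lit 277)) (XT.lf (nat_lit 0) (nat_lit 26600762221) (nat_lit 76) (nat_lit 92906147755) (nat_lit 76) (nat_lit 78779642998) (nat_lit 21) (nat_lit 4) (nat_lit 22) (nat_lit 5) (nat_lit 22) (nat_lit 4) (nat_lit 520) (nat_lit 404) (nat_lit 276))) (XT.nd (nat_lit 78) (nat_lit 76) (nat_lit 0) (XT.lf (nat_lit 0) (nat_lit 114787030580) (nat_lit 76) (nat_lit 52702910902) (nat_lit 76) (nat_lit 38575098685) (nat_lit 21) (nat_lit 4) (nat_lit 22) (nat_lit 5) (nat_lit 22) (nat_lit 4) (nat_lit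 521) (nat_lit 404) (nat_lit 275)) (XT.lf (nat_lit 0) (nat_lit 3515380122) (nat_lit 152) (nat_lit 6922528165) (nat_lit 76) (nat_lit 203792092193) (nat_lit 20) (nat_lit 5) (nat_lit 22) (nat_lit 5) (nat_lit 21) (nat_lit 4) (nat_lit 522) (nat_lit 404) (nat_lit 274))))) (XT.nd (nat_lit 312) (nat_lit 152) (nat_lit 0) (XT.nd (nat_lit 156) (nat_lit 76) (nat_lit 0) (XT.nd (nat_lit 78) (nat_lit 0) (nat_lit 0) (XT.lf (nat_lit 0) (nat_lit 48274650444) (nat_lit 152) (nat_lit 139586631399) (nat_lit 0) (nat_lit 34817275852) (nat_lit 19) (nat_lit 5) (nat_lit 21) (nat_lit 4) (nat_lit 19) (nat_lit 4) (nat_lit 523) (nat_lit 404) (nat_lit 273)) (XT.lf (nat_lit 0) (nat_lit 95554730502) (nat_lit 152) (nat_lit 53884389711) (nat_lit 0) (nat_lit 82096280259) (nat_lit 19) (nat_lit 5) (nat_lit 21) (nat_lit 4) (nat_lit 19) (nat_lit 4) (nat_lit 524) (nat_lit 404) (nat_lit 272))) (XT.nd (nat_lit 78) (nat_lit 0) (nat_lit 0)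 (XT.lf (nat_lit 0) (nat_lit 37281823206) (nat_lit 76) (nat_lit 108491993381) (nat_lit 76) (nat_lit 95032518709) (nat_lit 18) (nat_lit 4) (nat_lit 19) (nat_lit 5) (nat_lit 19) (nat_lit 4) (nat_lit 525) (nat_lit 404) (nat_lit 271)) (XT.lf (nat_lit 0) (nat_lit 134862931210) (nat_lit 76) (nat_lit 64546527936) (nat_lit 76) (nat_lit 51086077617) (nat_lit 18) (nat_lit 4) (nat_lit 19) (nat_lit 5) (nat_lit 19) (nat_lit 4) (nat_lit 526) (nat_lit 404) (nat_lit 270)))) (XT.nd (nat_lit 156) (nat_lit 0) (nat_lit 0) (XT.nd (nat_lit 78) (nat_lit 152) (nat_lit 0) (XT.lf (nat_lit 0) (nat_lit 237309608997) (nat_lit 76) (nat_lit 18410650031) (nat_lit 76) (nat_lit 4949270525) (nat_lit 18) (nat_lit 4) (nat_lit 19) (nat_lit 5) (nat_lit 19) (nat_lit 4) (nat_lit 527) (nat_lit 404) (nat_lit 269)) (XT.lf (nat_lit 0) (nat_lit 43769789541) (nat_lit 152) (nat_lit 196516518472) (nat_lit 0) (nat_lit 30948585306) (nat_lit 16)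 (nat_lit 5) (nat_lit 18) (nat_lit 4) (nat_lit 16) (nat_lit 4) (nat_lit 528) (nat_lit 404) (nat_lit 268))) (XT.nd (nat_lit 78) (nat_lit 0) (nat_lit 0) (XT.lf (nat_lit 0) (nat_lit 95455975583) (nat_lit 152) (nat_lit 104199649194) (nat_lit 0) (nat_lit 82633968681) (nat_lit 16) (nat_lit 5) (nat_lit 18) (nat_lit 4) (nat_lit 16) (nat_lit 4) (nat_lit 529) (nat_lit 404) (nat_lit 267)) (XT.lf (nat_lit 0) (nat_lit 149720366153) (nat_lit 152) (nat_lit 7279372891) (nat_lit 0) (nat_lit 136897594806) (nat_lit 16) (nat_lit 5) (nat_lit 18) (nat_lit 4) (nat_lit 16) (nat_lit 4) (nat_lit 530) (nat_lit 404) (nat_lit 266)))))))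
noncomputable def xc209 : XT := (XT.nd (nat_lit 1248) (nat_lit 228) (nat_lit 0) (XT.nd (nat_lit 624) (nat_lit 228) (nat_lit 0) (XT.nd (nat_lit 312) (nat_lit 76) (nat_lit 0) (XT.nd (nat_lit 156) (nat_lit 152) (nat_lit 0) (XT.nd (nat_lit 78) (nat_lit 0) (nat_lit 0) (XT.lf (nat_lit 0) (nat_lit 97598845573) (nat_lit 76) (nat_lit 110617108108) (nat_lit 76) (nat_lit 97793608718) (nat_lit 15) (nat_lit 4) (nat_lit 16) (nat_lit 5) (nat_lit 16) (nat_lit 4) (nat_lit 531) (nat_lit 404) (nat_lit 265)) (XT.lf (nat_lit 0) (nat_lit 207962045158) (nat_lit 76) (nat_lit 61791835979) (nat_lit 76) (nat_lit 48967643216) (nat_lit 15) (nat_lit 4) (nat_lit 16) (nat_lit 5) (nat_lit 16) (nat_lit 4) (nat_lit 532) (nat_lit 404) (nat_lit 264))) (XT.nd (nat_lit 78) (nat_lit 76) (nat_lit 0) (XT.lf (nat_lit 0) (nat_lit 2220482234) (nat_lit 152) (nat_lit 8272864538) (nat_lit 76) (nat_lit 321574219270) (nat_lit 14) (nat_lit 5) (nat_lit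 16) (nat_lit 5) (nat_lit 15) (nat_lit 4) (nat_lit 533) (nat_lit 404) (nat_lit 263)) (XT.lf (nat_lit 0) (nat_lit 56622467420) (nat_lit 152) (nat_lit 244895577990) (nat_lit 0) (nat_lit 44407722629) (nat_lit 13) (nat_lit 5) (nat_lit 15) (nat_lit 4) (nat_lit 13) (nat_lit 4) (nat_lit 534) (nat_lit 404) (nat_lit 262)))) (XT.nd (nat_lit 156) (nat_lit 76) (nat_lit 0) (XT.nd (nat_lit 78) (nat_lit 0) (nat_lit 0) (XT.lf (nat_lit 0) (nat_lit 114053705192) (nat_lit 152) (nat_lit 144569327323) (nat_lit 0) (nat_lit 101838389961) (nat_lit 13) (nat_lit 5) (nat_lit 15) (nat_lit 4) (nat_lit 13) (nat_lit 4) (nat_lit 535) (nat_lit 404) (nat_lit 261)) (XT.lf (nat_lit 0) (nat_lit 174351485312) (nat_lit 152) (nat_lit 39236998502) (nat_lit 0) (nat_lit 162135626804) (nat_lit 13) (nat_lit 5) (nat_lit 15) (nat_lit 4) (nat_lit 13) (nat_lit 4) (nat_lit 536) (nat_lit 404) (nat_lit 260))) (XT.nd (nat_lit 78) (nat_lit 0) (nat_lit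 0) (XT.lf (nat_lit 0) (nat_lit 73711425690) (nat_lit 76) (nat_lit 165098790162) (nat_lit 76) (nat_lit 152882414248) (nat_lit 12) (nat_lit 4) (nat_lit 13) (nat_lit 5) (nat_lit 13) (nat_lit 4) (nat_lit 537) (nat_lit 404) (nat_lit 259)) (XT.lf (nat_lit 0) (nat_lit 193659901265) (nat_lit 76) (nat_lit 113491776616) (nat_lit 76) (nat_lit 101274907934) (nat_lit 12) (nat_lit 4) (nat_lit 13) (nat_lit 5) (nat_lit 13) (nat_lit 4) (nat_lit 538) (nat_lit 404) (nat_lit 258))))) (XT.nd (nat_lit 312) (nat_lit 76) (nat_lit 0) (XT.nd (nat_lit 156) (nat_lit 0) (nat_lit 0) (XT.nd (nat_lit 78) (nat_lit 152) (nat_lit 0) (XT.lf (nat_lit 0) (nat_lit 319596667459) (nat_lit 76) (nat_lit 59309066890) (nat_lit 76) (nat_lit 47091728905) (nat_lit 12) (nat_lit 4) (nat_lit 13) (nat_lit 5) (nat_lit 13) (nat_lit 4) (nat_lit 539) (nat_lit 404) (nat_lit 257)) (XT.lf (nat_lit 0) (nat_lit 7460307249) (nat_lit 76) (nat_lit 2138762111)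 (nat_lit 152) (nat_lit 434834557410) (nat_lit 10) (nat_lit 5) (nat_lit 11) (nat_lit 5) (nat_lit 12) (nat_lit 4) (nat_lit 540) (nat_lit 404) (nat_lit 256))) (XT.nd (nat_lit 78) (nat_lit 0) (nat_lit 0) (XT.lf (nat_lit 0) (nat_lit 70272797874) (nat_lit 152) (nat_lit 334707244938) (nat_lit 0) (nat_lit 58636406815) (nat_lit 10) (nat_lit 5) (nat_lit 12) (nat_lit 4) (nat_lit 10) (nat_lit 4) (nat_lit 541) (nat_lit 404) (nat_lit 255)) (XT.lf (nat_lit 0) (nat_lit 134011146939) (nat_lit 152) (nat_lit 227371350202) (nat_lit 0) (nat_lit 122374369784) (nat_lit 10) (nat_lit 5) (nat_lit 12) (nat_lit 4) (nat_lit 10) (nat_lit 4) (nat_lit 542) (nat_lit 404) (nat_lit 254)))) (XT.nd (nat_lit 156) (nat_lit 0) (nat_lit 0) (XT.nd (nat_lit 78) (nat_lit 76) (nat_lit 0) (XT.lf (nat_lit 0) (nat_lit 200932482460) (nat_lit 152) (nat_lit 114676681588) (nat_lit 0) (nat_lit 189295337594) (nat_lit 10) (nat_lit 5) (nat_lit 12) (nat_lit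 4) (nat_lit 10) (nat_lit 4) (nat_lit 543) (nat_lit 404) (nat_lit 253)) (XT.lf (nat_lit 0) (nat_lit 3765604399) (nat_lit 76) (nat_lit 267489328187) (nat_lit 76) (nat_lit 255851833120) (nat_lit 9) (nat_lit 4) (nat_lit 10) (nat_lit 5) (nat_lit 10) (nat_lit 4) (nat_lit 544) (nat_lit 404) (nat_lit 252))) (XT.nd (nat_lit 78) (nat_lit 0) (nat_lit 0) (XT.lf (nat_lit 0) (nat_lit 132103804419) (nat_lit 76) (nat_lit 214928123020) (nat_lit 76) (nat_lit 203290294428) (nat_lit 9) (nat_lit 4) (nat_lit 10) (nat_lit 5) (nat_lit 10) (nat_lit 4) (nat_lit 545) (nat_lit 404) (nat_lit 251)) (XT.lf (nat_lit 0) (nat_lit 266851756626) (nat_lit 76) (nat_lit 159742507911) (nat_lit 76) (nat_lit 148104361677) (nat_lit 9) (nat_lit 4) (nat_lit 10) (nat_lit 5) (nat_lit 10) (nat_lit 4) (nat_lit 546) (nat_lit 404) (nat_lit 250)))))) (XT.nd (nat_lit 624) (nat_lit 76) (nat_lit 0) (XT.nd (nat_lit 312) (nat_lit 0) (nat_lit 0) (XT.nd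 (nat_lit 156) (nat_lit 152) (nat_lit 0) (XT.nd (nat_lit 78) (nat_lit 0) (nat_lit 0) (XT.lf (nat_lit 0) (nat_lit 408330289476) (nat_lit 76) (nat_lit 101801088540) (nat_lit 76) (nat_lit 90162639788) (nat_lit 9) (nat_lit 4) (nat_lit 10) (nat_lit 5) (nat_lit 10) (nat_lit 4) (nat_lit 547) (nat_lit 404) (nat_lit 249)) (XT.lf (nat_lit 0) (nat_lit 556876256621) (nat_lit 76) (nat_lit 40965909145) (nat_lit 76) (nat_lit 29327172282) (nat_lit 9) (nat_lit 4) (nat_lit 10) (nat_lit 5) (nat_lit 10) (nat_lit 4) (nat_lit 548) (nat_lit 404) (nat_lit 248))) (XT.nd (nat_lit 78) (nat_lit 0) (nat_lit 0) (XT.lf (nat_lit 0) (nat_lit 34740708558) (nat_lit 152) (nat_lit 596899985746) (nat_lit 0) (nat_lit 23655935935) (nat_lit 7) (nat_lit 5) (nat_lit 9) (nat_lit 4) (nat_lit 7) (nat_lit 4) (nat_lit 549) (nat_lit 404) (nat_lit 247)) (XT.lf (nat_lit 0) (nat_lit 102904854577) (nat_lit 152) (nat_lit 489987637906) (nat_lit 0) (nat_lit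 91819833073) (nat_lit 7) (nat_lit 5) (nat_lit 9) (nat_lit 4) (nat_lit 7) (nat_lit 4) (nat_lit 550) (nat_lit 404) (nat_lit 246)))) (XT.nd (nat_lit 156) (nat_lit 0) (nat_lit 0) (XT.nd (nat_lit 78) (nat_lit 0) (nat_lit 0) (XT.lf (nat_lit 0) (nat_lit 174474275779) (nat_lit 152) (nat_lit 377735659224) (nat_lit 0) (nat_lit 163389017244) (nat_lit 7) (nat_lit 5) (nat_lit 9) (nat_lit 4) (nat_lit 7) (nat_lit 4) (nat_lit 551) (nat_lit 404) (nat_lit 245)) (XT.lf (nat_lit 0) (nat_lit 249619375547) (nat_lit 152) (nat_lit 259876783082) (nat_lit 0) (nat_lit 238533891270) (nat_lit 7) (nat_lit 5) (nat_lit 9) (nat_lit 4) (nat_lit 7) (nat_lit 4) (nat_lit 552) (nat_lit 404) (nat_lit 244))) (XT.nd (nat_lit 78) (nat_lit 0) (nat_lit 0) (XT.lf (nat_lit 0) (nat_lit 328519070786) (nat_lit 152) (nat_lit 136130393111) (nat_lit 0) (nat_lit 317433371516) (nat_lit 7) (nat_lit 5) (nat_lit 9) (nat_lit 4) (nat_lit 7) (nat_lit 4)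 (nat_lit 553) (nat_lit 404) (nat_lit 243)) (XT.lf (nat_lit 0) (nat_lit 411361217912) (nat_lit 152) (nat_lit 6201855047) (nat_lit 0) (nat_lit 400275313887) (nat_lit 7) (nat_lit 5) (nat_lit 9) (nat_lit 4) (nat_lit 7) (nat_lit 4) (nat_lit 554) (nat_lit 404) (nat_lit 242))))) (XT.nd (nat_lit 51012) (nat_lit 0) (nat_lit 14288) (XT.nd (nat_lit 50856) (nat_lit 0) (nat_lit 15200) (XT.nd (nat_lit 50778) (nat_lit 0) (nat_lit 15200) (XT.lf (nat_lit 0) (nat_lit 134523786041) (nat_lit 76) (nat_lit 365919567396) (nat_lit 76) (nat_lit 354833468366) (nat_lit 6) (nat_lit 4) (nat_lit 7) (nat_lit 5) (nat_lit 7) (nat_lit 4) (nat_lit 555) (nat_lit 404) (nat_lit 241)) (XT.lf (nat_lit 0) (nat_lit 155367961) (nat_lit 0) (nat_lit 155367961) (nat_lit 380) (nat_lit 3054258676) (nat_lit 206) (nat_lit 5) (nat_lit 206) (nat_lit 3) (nat_lit 211) (nat_lit 3) (nat_lit 405) (nat_lit 405) (nat_lit 390))) (XT.nd (nat_lit 78) (nat_lit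 0) (nat_lit 0) (XT.lf (nat_lit 0) (nat_lit 2792113483) (nat_lit 380) (nat_lit 3045535875) (nat_lit 456) (nat_lit 952598036) (nat_lit 206) (nat_lit 5) (nat_lit 211) (nat_lit 3) (nat_lit 212) (nat_lit 5) (nat_lit 406) (nat_lit 405) (nat_lit 389)) (XT.lf (nat_lit 76) (nat_lit 429088961) (nat_lit 0) (nat_lit 4518090687) (nat_lit 456) (nat_lit 1912559354) (nat_lit 207) (nat_lit 5) (nat_lit 206) (nat_lit 5) (nat_lit 212) (nat_lit 5) (nat_lit 407) (nat_lit 405) (nat_lit 388)))) (XT.nd (nat_lit 156) (nat_lit 456) (nat_lit 0) (XT.nd (nat_lit 78) (nat_lit 0) (nat_lit 0) (XT.lf (nat_lit 0) (nat_lit 188083720) (nat_lit 456) (nat_lit 2831710699) (nat_lit 532) (nat_lit 3916724777) (nat_lit 200) (nat_lit 5) (nat_lit 206) (nat_lit 5) (nat_lit 207) (nat_lit 5) (nat_lit 408) (nat_lit 405) (nat_lit 387)) (XT.lf (nat_lit 76) (nat_lit 867798395) (nat_lit 0) (nat_lit 1348798372) (nat_lit 532) (nat_lit 4804631410) (nat_lit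 201) (nat_lit 5) (nat_lit 200) (nat_lit 5) (nat_lit 207) (nat_lit 5) (nat_lit 409) (nat_lit 405) (nat_lit 386))) (XT.nd (nat_lit 78) (nat_lit 532) (nat_lit 0) (XT.lf (nat_lit 0) (nat_lit 4280766773) (nat_lit 456) (nat_lit 2345703761) (nat_lit 532) (nat_lit 487002952) (nat_lit 201) (nat_lit 5) (nat_lit 207) (nat_lit 5) (nat_lit 208) (nat_lit 5) (nat_lit 410) (nat_lit 405) (nat_lit 385)) (XT.nd (nat_lit 78) (nat_lit 532) (nat_lit 0) (XT.lf (nat_lit 76) (nat_lit 1604113531) (nat_lit 0) (nat_lit 4776096368) (nat_lit 532) (nat_lit 833529781) (nat_lit 202) (nat_lit 5) (nat_lit 201) (nat_lit 5) (nat_lit 208) (nat_lit 5) (nat_lit 411) (nat_lit 405) (nat_lit 384)) (XT.lf (nat_lit 0) (nat_lit 1152846370) (nat_lit 532) (nat_lit 1584594178) (nat_lit 608) (nat_lit 4584214020) (nat_lit 194) (nat_lit 5) (nat_lit 201) (nat_lit 5) (nat_lit 202) (nat_lit 5) (nat_lit 412) (nat_lit 405) (nat_lit 383))))))))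
noncomputable def xc210 : XT := (XT.nd (nat_lit 1248) (nat_lit 2812) (nat_lit 0) (XT.nd (nat_lit 624) (nat_lit 1976) (nat_lit 0) (XT.nd (nat_lit 312) (nat_lit 1520) (nat_lit 0) (XT.nd (nat_lit 156) (nat_lit 1140) (nat_lit 0) (XT.nd (nat_lit 78) (nat_lit 0) (nat_lit 76) (XT.lf (nat_lit 76) (nat_lit 2636200216) (nat_lit 0) (nat_lit 508221616) (nat_lit 608) (nat_lit 4293175756) (nat_lit 195) (nat_lit 5) (nat_lit 194) (nat_lit 5) (nat_lit 202) (nat_lit 5) (nat_lit 413) (nat_lit 405) (nat_lit 382)) (XT.lf (nat_lit 0) (nat_lit 5188575922) (nat_lit 532) (nat_lit 544587363) (nat_lit 76) (nat_lit 1828534232) (nat_lit 195) (nat_lit 5) (nat_lit 202) (nat_lit 5) (nat_lit 196) (nat_lit 5) (nat_lit 414) (nat_lit 405) (nat_lit 381))) (XT.nd (nat_lit 78) (nat_lit 684) (nat_lit 0) (XT.lf (nat_lit 0) (nat_lit 3966946792) (nat_lit 532) (nat_lit 3340271144) (nat_lit 608) (nat_lit 386179780) (nat_lit 188) (nat_lit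 5) (nat_lit 195) (nat_lit 5) (nat_lit 196) (nat_lit 5) (nat_lit 415) (nat_lit 405) (nat_lit 380)) (XT.lf (nat_lit 0) (nat_lit 812349826) (nat_lit 608) (nat_lit 759345159) (nat_lit 684) (nat_lit 6262369192) (nat_lit 179) (nat_lit 5) (nat_lit 187) (nat_lit 5) (nat_lit 188) (nat_lit 5) (nat_lit 416) (nat_lit 405) (nat_lit 379)))) (XT.nd (nat_lit 156) (nat_lit 836) (nat_lit 0) (XT.nd (nat_lit 78) (nat_lit 684) (nat_lit 0) (XT.lf (nat_lit 0) (nat_lit 3616630327) (nat_lit 684) (nat_lit 2391274143) (nat_lit 76) (nat_lit 1973443722) (nat_lit 179) (nat_lit 5) (nat_lit 188) (nat_lit 5) (nat_lit 180) (nat_lit 5) (nat_lit 417) (nat_lit 405) (nat_lit 378)) (XT.lf (nat_lit 0) (nat_lit 2458537814) (nat_lit 684) (nat_lit 3268056543) (nat_lit 760) (nat_lit 2411270593) (nat_lit 170) (nat_lit 5) (nat_lit 179) (nat_lit 5) (nat_lit 180) (nat_lit 5) (nat_lit 418) (nat_lit 405) (nat_lit 377))) (XT.nd (nat_lit 78) (nat_lit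 836) (nat_lit 0) (XT.lf (nat_lit 0) (nat_lit 7556733827) (nat_lit 684) (nat_lit 340757872) (nat_lit 760) (nat_lit 406951366) (nat_lit 170) (nat_lit 5) (nat_lit 179) (nat_lit 5) (nat_lit 180) (nat_lit 5) (nat_lit 419) (nat_lit 405) (nat_lit 376)) (XT.lf (nat_lit 0) (nat_lit 1675050705) (nat_lit 836) (nat_lit 4052102639) (nat_lit 76) (nat_lit 2749288132) (nat_lit 159) (nat_lit 5) (nat_lit 170) (nat_lit 5) (nat_lit 160) (nat_lit 5) (nat_lit 420) (nat_lit 405) (nat_lit 375))))) (XT.nd (nat_lit 312) (nat_lit 684) (nat_lit 0) (XT.nd (nat_lit 156) (nat_lit 836) (nat_lit 0) (XT.nd (nat_lit 78) (nat_lit 0) (nat_lit 0) (XT.lf (nat_lit 0) (nat_lit 1170527898) (nat_lit 456) (nat_lit 2634157592) (nat_lit 532) (nat_lit 4854166593) (nat_lit 153) (nat_lit 5) (nat_lit 159) (nat_lit 5) (nat_lit 160) (nat_lit 5) (nat_lit 421) (nat_lit 405) (nat_lit 374)) (XT.lf (nat_lit 0) (nat_lit 6043167401) (nat_lit 532) (nat_lit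 2144264835) (nat_lit 76) (nat_lit 662838701) (nat_lit 153) (nat_lit 5) (nat_lit 160) (nat_lit 5) (nat_lit 154) (nat_lit 5) (nat_lit 422) (nat_lit 405) (nat_lit 373))) (XT.nd (nat_lit 78) (nat_lit 456) (nat_lit 0) (XT.lf (nat_lit 0) (nat_lit 3456757748) (nat_lit 380) (nat_lit 4960670924) (nat_lit 456) (nat_lit 632644999) (nat_lit 148) (nat_lit 5) (nat_lit 153) (nat_lit 5) (nat_lit 154) (nat_lit 5) (nat_lit 423) (nat_lit 405) (nat_lit 372)) (XT.lf (nat_lit 0) (nat_lit 50647953) (nat_lit 380) (nat_lit 1512591632) (nat_lit 456) (nat_lit 7697067123) (nat_lit 142) (nat_lit 5) (nat_lit 147) (nat_lit 5) (nat_lit 148) (nat_lit 5) (nat_lit 424) (nat_lit 405) (nat_lit 371)))) (XT.nd (nat_lit 156) (nat_lit 380) (nat_lit 0) (XT.nd (nat_lit 78) (nat_lit 304) (nat_lit 0) (XT.lf (nat_lit 0) (nat_lit 3906782996) (nat_lit 456) (nat_lit 3431096636) (nat_lit 76) (nat_lit 2139701847) (nat_lit 142) (nat_lit 5) (nat_lit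 148) (nat_lit 5) (nat_lit 143) (nat_lit 5) (nat_lit 425) (nat_lit 405) (nat_lit 370)) (XT.lf (nat_lit 0) (nat_lit 2618309119) (nat_lit 304) (nat_lit 3748143642) (nat_lit 380) (nat_lit 3339324459) (nat_lit 138) (nat_lit 5) (nat_lit 142) (nat_lit 5) (nat_lit 143) (nat_lit 5) (nat_lit 426) (nat_lit 405) (nat_lit 369))) (XT.nd (nat_lit 78) (nat_lit 380) (nat_lit 0) (XT.lf (nat_lit 0) (nat_lit 8943588200) (nat_lit 380) (nat_lit 933368332) (nat_lit 76) (nat_lit 68706573) (nat_lit 138) (nat_lit 5) (nat_lit 143) (nat_lit 5) (nat_lit 139) (nat_lit 5) (nat_lit 427) (nat_lit 405) (nat_lit 368)) (XT.lf (nat_lit 0) (nat_lit 1493572401) (nat_lit 380) (nat_lit 4647194384) (nat_lit 76) (nat_lit 4051246555) (nat_lit 133) (nat_lit 5) (nat_lit 138) (nat_lit 5) (nat_lit 134) (nat_lit 5) (nat_lit 428) (nat_lit 405) (nat_lit 367)))))) (XT.nd (nat_lit 624) (nat_lit 1292) (nat_lit 0) (XT.nd (nat_lit 312) (nat_lit 608)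 (nat_lit 0) (XT.nd (nat_lit 156) (nat_lit 608) (nat_lit 0) (XT.nd (nat_lit 78) (nat_lit 0) (nat_lit 0) (XT.lf (nat_lit 0) (nat_lit 1897509261) (nat_lit 304) (nat_lit 2167493328) (nat_lit 380) (nat_lit 6385627143) (nat_lit 129) (nat_lit 5) (nat_lit 133) (nat_lit 5) (nat_lit 134) (nat_lit 5) (nat_lit 429) (nat_lit 405) (nat_lit 366)) (XT.lf (nat_lit 0) (nat_lit 6816774277) (nat_lit 380) (nat_lit 1897505235) (nat_lit 76) (nat_lit 2005312608) (nat_lit 129) (nat_lit 5) (nat_lit 134) (nat_lit 5) (nat_lit 130) (nat_lit 5) (nat_lit 430) (nat_lit 405) (nat_lit 365))) (XT.nd (nat_lit 78) (nat_lit 304) (nat_lit 0) (XT.lf (nat_lit 0) (nat_lit 5146294103) (nat_lit 304) (nat_lit 4619037685) (nat_lit 380) (nat_lit 1233714478) (nat_lit 125) (nat_lit 5) (nat_lit 129) (nat_lit 5) (nat_lit 130) (nat_lit 5) (nat_lit 431) (nat_lit 405) (nat_lit 364)) (XT.lf (nat_lit 0) (nat_lit 1258097085) (nat_lit 228) (nat_lit 256814174)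 (nat_lit 304) (nat_lit 9776526329) (nat_lit 121) (nat_lit 5) (nat_lit 124) (nat_lit 5) (nat_lit 125) (nat_lit 5) (nat_lit 432) (nat_lit 405) (nat_lit 363)))) (XT.nd (nat_lit 156) (nat_lit 304) (nat_lit 0) (XT.nd (nat_lit 78) (nat_lit 304) (nat_lit 0) (XT.lf (nat_lit 0) (nat_lit 4472961055) (nat_lit 304) (nat_lit 2830839263) (nat_lit 76) (nat_lit 4287967258) (nat_lit 121) (nat_lit 5) (nat_lit 125) (nat_lit 5) (nat_lit 122) (nat_lit 5) (nat_lit 433) (nat_lit 405) (nat_lit 362)) (XT.lf (nat_lit 0) (nat_lit 4809434750) (nat_lit 304) (nat_lit 2796593889) (nat_lit 380) (nat_lit 4299732538) (nat_lit 117) (nat_lit 5) (nat_lit 121) (nat_lit 5) (nat_lit 122) (nat_lit 5) (nat_lit 434) (nat_lit 405) (nat_lit 361))) (XT.nd (nat_lit 78) (nat_lit 76) (nat_lit 0) (XT.lf (nat_lit 0) (nat_lit 612393150) (nat_lit 228) (nat_lit 10320751516) (nat_lit 304) (nat_lit 1300442781) (nat_lit 114) (nat_lit 5) (nat_lit 117)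 (nat_lit 5) (nat_lit 118) (nat_lit 5) (nat_lit 435) (nat_lit 405) (nat_lit 360)) (XT.lf (nat_lit 0) (nat_lit 1907005685) (nat_lit 304) (nat_lit 3769197582) (nat_lit 76) (nat_lit 6894292609) (nat_lit 113) (nat_lit 5) (nat_lit 117) (nat_lit 5) (nat_lit 114) (nat_lit 5) (nat_lit 436) (nat_lit 405) (nat_lit 359))))) (XT.nd (nat_lit 312) (nat_lit 608) (nat_lit 0) (XT.nd (nat_lit 156) (nat_lit 456) (nat_lit 0) (XT.nd (nat_lit 78) (nat_lit 0) (nat_lit 0) (XT.lf (nat_lit 0) (nat_lit 4528902361) (nat_lit 228) (nat_lit 724712574) (nat_lit 304) (nat_lit 7668446633) (nat_lit 110) (nat_lit 5) (nat_lit 113) (nat_lit 5) (nat_lit 114) (nat_lit 5) (nat_lit 437) (nat_lit 405) (nat_lit 358)) (XT.lf (nat_lit 0) (nat_lit 8854949636) (nat_lit 304) (nat_lit 57160739) (nat_lit 76) (nat_lit 4374727678) (nat_lit 110) (nat_lit 5) (nat_lit 114) (nat_lit 5) (nat_lit 111) (nat_lit 5) (nat_lit 438) (nat_lit 405) (nat_lit 357)))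 (XT.nd (nat_lit 78) (nat_lit 304) (nat_lit 0) (XT.lf (nat_lit 0) (nat_lit 8901018092) (nat_lit 152) (nat_lit 3841095895) (nat_lit 228) (nat_lit 922453378) (nat_lit 108) (nat_lit 5) (nat_lit 110) (nat_lit 5) (nat_lit 111) (nat_lit 5) (nat_lit 439) (nat_lit 405) (nat_lit 356)) (XT.lf (nat_lit 0) (nat_lit 2721655936) (nat_lit 304) (nat_lit 9808917746) (nat_lit 76) (nat_lit 1526074013) (nat_lit 104) (nat_lit 5) (nat_lit 108) (nat_lit 5) (nat_lit 105) (nat_lit 5) (nat_lit 440) (nat_lit 405) (nat_lit 355)))) (XT.nd (nat_lit 156) (nat_lit 456) (nat_lit 0) (XT.nd (nat_lit 78) (nat_lit 152) (nat_lit 0) (XT.lf (nat_lit 0) (nat_lit 6617952415) (nat_lit 304) (nat_lit 737497439) (nat_lit 76) (nat_lit 7107078824) (nat_lit 104) (nat_lit 5) (nat_lit 108) (nat_lit 5) (nat_lit 105) (nat_lit 5) (nat_lit 441) (nat_lit 405) (nat_lit 354)) (XT.lf (nat_lit 0) (nat_lit 9010418423) (nat_lit 152) (nat_lit 1797435441) (nat_lit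 228) (nat_lit 4075912107) (nat_lit 102) (nat_lit 5) (nat_lit 104) (nat_lit 5) (nat_lit 105) (nat_lit 5) (nat_lit 442) (nat_lit 405) (nat_lit 353))) (XT.nd (nat_lit 78) (nat_lit 228) (nat_lit 0) (XT.lf (nat_lit 0) (nat_lit 3942740486) (nat_lit 228) (nat_lit 11360547986) (nat_lit 304) (nat_lit 17976437) (nat_lit 99) (nat_lit 5) (nat_lit 102) (nat_lit 5) (nat_lit 103) (nat_lit 5) (nat_lit 443) (nat_lit 405) (nat_lit 352)) (XT.nd (nat_lit 78) (nat_lit 152) (nat_lit 0) (XT.lf (nat_lit 0) (nat_lit 4196644509) (nat_lit 304) (nat_lit 1485842049) (nat_lit 76) (nat_lit 10090362299) (nat_lit 98) (nat_lit 5) (nat_lit 102) (nat_lit 5) (nat_lit 99) (nat_lit 5) (nat_lit 444) (nat_lit 405) (nat_lit 351)) (XT.lf (nat_lit 0) (nat_lit 8731240533) (nat_lit 228) (nat_lit 7117965815) (nat_lit 76) (nat_lit 392299967) (nat_lit 96) (nat_lit 5) (nat_lit 99) (nat_lit 5) (nat_lit 97) (nat_lit 5) (nat_lit 445) (nat_lit 405)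 (nat_lit 350))))))))
noncomputable def xc211 : XT := (XT.nd (nat_lit 1248) (nat_lit 1368) (nat_lit 0) (XT.nd (nat_lit 624) (nat_lit 760) (nat_lit 0) (XT.nd (nat_lit 312) (nat_lit 380) (nat_lit 0) (XT.nd (nat_lit 156) (nat_lit 304) (nat_lit 0) (XT.nd (nat_lit 78) (nat_lit 76) (nat_lit 0) (XT.lf (nat_lit 0) (nat_lit 3538596475) (nat_lit 152) (nat_lit 10089433455) (nat_lit 228) (nat_lit 3098794920) (nat_lit 94) (nat_lit 5) (nat_lit 96) (nat_lit 5) (nat_lit 97) (nat_lit 5) (nat_lit 446) (nat_lit 405) (nat_lit 349)) (XT.lf (nat_lit 0) (nat_lit 1568419392) (nat_lit 228) (nat_lit 2345160377) (nat_lit 76) (nat_lit 13317421710) (nat_lit 93) (nat_lit 5) (nat_lit 96) (nat_lit 5) (nat_lit 94) (nat_lit 5) (nat_lit 447) (nat_lit 405) (nat_lit 348))) (XT.nd (nat_lit 78) (nat_lit 152) (nat_lit 0) (XT.lf (nat_lit 0) (nat_lit 6515357004) (nat_lit 228) (nat_lit 8571875756) (nat_lit 76) (nat_lit 2663090261) (nat_lit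 91) (nat_lit 5) (nat_lit 94) (nat_lit 5) (nat_lit 92) (nat_lit 5) (nat_lit 448) (nat_lit 405) (nat_lit 347)) (XT.lf (nat_lit 0) (nat_lit 3037080169) (nat_lit 152) (nat_lit 8788468109) (nat_lit 228) (nat_lit 6464268162) (nat_lit 89) (nat_lit 5) (nat_lit 91) (nat_lit 5) (nat_lit 92) (nat_lit 5) (nat_lit 449) (nat_lit 405) (nat_lit 346)))) (XT.nd (nat_lit 156) (nat_lit 152) (nat_lit 0) (XT.nd (nat_lit 78) (nat_lit 228) (nat_lit 0) (XT.lf (nat_lit 0) (nat_lit 15463723147) (nat_lit 152) (nat_lit 2047433341) (nat_lit 228) (nat_lit 1339633758) (nat_lit 89) (nat_lit 5) (nat_lit 91) (nat_lit 5) (nat_lit 92) (nat_lit 5) (nat_lit 450) (nat_lit 405) (nat_lit 345)) (XT.lf (nat_lit 0) (nat_lit 4103672779) (nat_lit 228) (nat_lit 10266597574) (nat_lit 76) (nat_lit 5056799371) (nat_lit 86) (nat_lit 5) (nat_lit 89) (nat_lit 5) (nat_lit 87) (nat_lit 5) (nat_lit 451) (nat_lit 405) (nat_lit 344))) (XT.nd (nat_lit 78)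 (nat_lit 0) (nat_lit 0) (XT.lf (nat_lit 0) (nat_lit 2384580347) (nat_lit 152) (nat_lit 7484852692) (nat_lit 228) (nat_lit 10156867571) (nat_lit 84) (nat_lit 5) (nat_lit 86) (nat_lit 5) (nat_lit 87) (nat_lit 5) (nat_lit 452) (nat_lit 405) (nat_lit 343)) (XT.lf (nat_lit 0) (nat_lit 15966741551) (nat_lit 152) (nat_lit 97525249) (nat_lit 228) (nat_lit 4584187858) (nat_lit 84) (nat_lit 5) (nat_lit 86) (nat_lit 5) (nat_lit 87) (nat_lit 5) (nat_lit 453) (nat_lit 405) (nat_lit 342))))) (XT.nd (nat_lit 312) (nat_lit 380) (nat_lit 0) (XT.nd (nat_lit 156) (nat_lit 76) (nat_lit 0) (XT.nd (nat_lit 78) (nat_lit 152) (nat_lit 0) (XT.lf (nat_lit 0) (nat_lit 1459155324) (nat_lit 152) (nat_lit 12274225871) (nat_lit 76) (nat_lit 7555717583) (nat_lit 82) (nat_lit 5) (nat_lit 84) (nat_lit 5) (nat_lit 83) (nat_lit 5) (nat_lit 454) (nat_lit 405) (nat_lit 341)) (XT.lf (nat_lit 0) (nat_lit 1514859947) (nat_lit 152) (nat_lit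 6209842502) (nat_lit 228) (nat_lit 14229611117) (nat_lit 80) (nat_lit 5) (nat_lit 82) (nat_lit 5) (nat_lit 83) (nat_lit 5) (nat_lit 455) (nat_lit 405) (nat_lit 340))) (XT.nd (nat_lit 78) (nat_lit 76) (nat_lit 0) (XT.lf (nat_lit 0) (nat_lit 14509705376) (nat_lit 228) (nat_lit 6309504478) (nat_lit 76) (nat_lit 1823271053) (nat_lit 80) (nat_lit 5) (nat_lit 83) (nat_lit 5) (nat_lit 81) (nat_lit 4) (nat_lit 456) (nat_lit 405) (nat_lit 339)) (XT.lf (nat_lit 0) (nat_lit 8647780613) (nat_lit 76) (nat_lit 13193010935) (nat_lit 152) (nat_lit 1513924108) (nat_lit 79) (nat_lit 5) (nat_lit 80) (nat_lit 5) (nat_lit 81) (nat_lit 4) (nat_lit 457) (nat_lit 405) (nat_lit 338)))) (XT.nd (nat_lit 156) (nat_lit 152) (nat_lit 0) (XT.nd (nat_lit 78) (nat_lit 0) (nat_lit 0) (XT.lf (nat_lit 0) (nat_lit 344922298) (nat_lit 152) (nat_lit 5001087229) (nat_lit 228) (nat_lit 18748103724) (nat_lit 76) (nat_lit 5) (nat_lit 78)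 (nat_lit 5) (nat_lit 79) (nat_lit 5) (nat_lit 458) (nat_lit 405) (nat_lit 337)) (XT.lf (nat_lit 0) (nat_lit 12777769675) (nat_lit 228) (nat_lit 8337649549) (nat_lit 76) (nat_lit 3739835803) (nat_lit 76) (nat_lit 5) (nat_lit 79) (nat_lit 5) (nat_lit 77) (nat_lit 4) (nat_lit 459) (nat_lit 405) (nat_lit 336))) (XT.nd (nat_lit 78) (nat_lit 76) (nat_lit 0) (XT.lf (nat_lit 0) (nat_lit 7965553253) (nat_lit 76) (nat_lit 12793669082) (nat_lit 152) (nat_lit 4886326906) (nat_lit 75) (nat_lit 5) (nat_lit 76) (nat_lit 5) (nat_lit 77) (nat_lit 4) (nat_lit 460) (nat_lit 405) (nat_lit 335)) (XT.lf (nat_lit 0) (nat_lit 2694477665) (nat_lit 152) (nat_lit 1190803558) (nat_lit 76) (nat_lit 22582229272) (nat_lit 74) (nat_lit 5) (nat_lit 76) (nat_lit 5) (nat_lit 75) (nat_lit 5) (nat_lit 461) (nat_lit 405) (nat_lit 334)))))) (XT.nd (nat_lit 624) (nat_lit 608) (nat_lit 0) (XT.nd (nat_lit 312) (nat_lit 304) (nat_lit 0)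 (XT.nd (nat_lit 156) (nat_lit 228) (nat_lit 0) (XT.nd (nat_lit 78) (nat_lit 76) (nat_lit 0) (XT.lf (nat_lit 0) (nat_lit 10811821146) (nat_lit 228) (nat_lit 10883518711) (nat_lit 76) (nat_lit 5615139698) (nat_lit 72) (nat_lit 5) (nat_lit 75) (nat_lit 5) (nat_lit 73) (nat_lit 4) (nat_lit 462) (nat_lit 405) (nat_lit 333)) (XT.lf (nat_lit 0) (nat_lit 6878844135) (nat_lit 76) (nat_lit 12621131796) (nat_lit 152) (nat_lit 8687374406) (nat_lit 71) (nat_lit 5) (nat_lit 72) (nat_lit 5) (nat_lit 73) (nat_lit 4) (nat_lit 463) (nat_lit 405) (nat_lit 332))) (XT.nd (nat_lit 78) (nat_lit 228) (nat_lit 0) (XT.lf (nat_lit 0) (nat_lit 25858312517) (nat_lit 76) (nat_lit 2922405000) (nat_lit 152) (nat_lit 319438639) (nat_lit 71) (nat_lit 5) (nat_lit 72) (nat_lit 5) (nat_lit 73) (nat_lit 4) (nat_lit 464) (nat_lit 405) (nat_lit 331)) (XT.lf (nat_lit 0) (nat_lit 8540683948) (nat_lit 228) (nat_lit 14097328685) (nat_lit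 76) (nat_lit 7396741269) (nat_lit 68) (nat_lit 5) (nat_lit 71) (nat_lit 5) (nat_lit 69) (nat_lit 4) (nat_lit 465) (nat_lit 405) (nat_lit 330)))) (XT.nd (nat_lit 156) (nat_lit 228) (nat_lit 0) (XT.nd (nat_lit 78) (nat_lit 0) (nat_lit 0) (XT.lf (nat_lit 0) (nat_lit 5241060835) (nat_lit 76) (nat_lit 12752389384) (nat_lit 152) (nat_lit 13014351231) (nat_lit 67) (nat_lit 5) (nat_lit 68) (nat_lit 5) (nat_lit 69) (nat_lit 4) (nat_lit 466) (nat_lit 405) (nat_lit 329)) (XT.lf (nat_lit 0) (nat_lit 25989052153) (nat_lit 76) (nat_lit 2143850898) (nat_lit 152) (nat_lit 3885896283) (nat_lit 67) (nat_lit 5) (nat_lit 68) (nat_lit 5) (nat_lit 69) (nat_lit 4) (nat_lit 467) (nat_lit 405) (nat_lit 328))) (XT.nd (nat_lit 78) (nat_lit 76) (nat_lit 0) (XT.lf (nat_lit 0) (nat_lit 5872920504) (nat_lit 152) (nat_lit 18169543392) (nat_lit 76) (nat_lit 9015617595) (nat_lit 65) (nat_lit 5) (nat_lit 67) (nat_lit 5) (nat_lit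 66) (nat_lit 4) (nat_lit 468) (nat_lit 405) (nat_lit 327)) (XT.lf (nat_lit 0) (nat_lit 2863561409) (nat_lit 76) (nat_lit 13285375195) (nat_lit 152) (nat_lit 17989213808) (nat_lit 64) (nat_lit 5) (nat_lit 65) (nat_lit 5) (nat_lit 66) (nat_lit 4) (nat_lit 469) (nat_lit 405) (nat_lit 326))))) (XT.nd (nat_lit 312) (nat_lit 380) (nat_lit 0) (XT.nd (nat_lit 156) (nat_lit 76) (nat_lit 0) (XT.nd (nat_lit 78) (nat_lit 152) (nat_lit 0) (XT.lf (nat_lit 0) (nat_lit 25534436586) (nat_lit 76) (nat_lit 1688668259) (nat_lit 152) (nat_lit 8034900671) (nat_lit 64) (nat_lit 5) (nat_lit 65) (nat_lit 5) (nat_lit 66) (nat_lit 4) (nat_lit 470) (nat_lit 405) (nat_lit 325)) (XT.lf (nat_lit 0) (nat_lit 2691422944) (nat_lit 152) (nat_lit 23342215148) (nat_lit 76) (nat_lit 10380745754) (nat_lit 62) (nat_lit 5) (nat_lit 64) (nat_lit 5) (nat_lit 63) (nat_lit 4) (nat_lit 471) (nat_lit 405) (nat_lit 324))) (XT.nd (nat_lit 78)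 (nat_lit 76) (nat_lit 0) (XT.lf (nat_lit 0) (nat_lit 13856574813) (nat_lit 152) (nat_lit 480579390) (nat_lit 76) (nat_lit 23276214296) (nat_lit 62) (nat_lit 5) (nat_lit 64) (nat_lit 5) (nat_lit 63) (nat_lit 4) (nat_lit 472) (nat_lit 405) (nat_lit 323)) (XT.lf (nat_lit 0) (nat_lit 24259249250) (nat_lit 76) (nat_lit 1678043633) (nat_lit 152) (nat_lit 12917144323) (nat_lit 61) (nat_lit 5) (nat_lit 62) (nat_lit 5) (nat_lit 63) (nat_lit 4) (nat_lit 473) (nat_lit 405) (nat_lit 322)))) (XT.nd (nat_lit 156) (nat_lit 228) (nat_lit 0) (XT.nd (nat_lit 78) (nat_lit 76) (nat_lit 0) (XT.lf (nat_lit 0) (nat_lit 10199160783) (nat_lit 76) (nat_lit 28750357127) (nat_lit 76) (nat_lit 1191668126) (nat_lit 60) (nat_lit 4) (nat_lit 61) (nat_lit 5) (nat_lit 61) (nat_lit 4) (nat_lit 474) (nat_lit 405) (nat_lit 321)) (XT.lf (nat_lit 0) (nat_lit 11021578231) (nat_lit 152) (nat_lit 4986605362) (nat_lit 76) (nat_lit 25462537727)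 (nat_lit 59) (nat_lit 5) (nat_lit 61) (nat_lit 5) (nat_lit 60) (nat_lit 4) (nat_lit 475) (nat_lit 405) (nat_lit 320))) (XT.nd (nat_lit 78) (nat_lit 152) (nat_lit 0) (XT.lf (nat_lit 0) (nat_lit 21857134613) (nat_lit 76) (nat_lit 2269242090) (nat_lit 152) (nat_lit 18723333212) (nat_lit 58) (nat_lit 5) (nat_lit 59) (nat_lit 5) (nat_lit 60) (nat_lit 4) (nat_lit 476) (nat_lit 405) (nat_lit 319)) (XT.nd (nat_lit 78) (nat_lit 76) (nat_lit 0) (XT.lf (nat_lit 0) (nat_lit 5880234021) (nat_lit 76) (nat_lit 32353374790) (nat_lit 76) (nat_lit 6046679640) (nat_lit 57) (nat_lit 4) (nat_lit 58) (nat_lit 5) (nat_lit 58) (nat_lit 4) (nat_lit 477) (nat_lit 405) (nat_lit 318)) (XT.lf (nat_lit 0) (nat_lit 7409650620) (nat_lit 152) (nat_lit 11135135667) (nat_lit 76) (nat_lit 27213022828) (nat_lit 56) (nat_lit 5) (nat_lit 58) (nat_lit 5) (nat_lit 57) (nat_lit 4) (nat_lit 478) (nat_lit 405) (nat_lit 317))))))))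
noncomputable def xc212 : XT := (XT.nd (nat_lit 1248) (nat_lit 1064) (nat_lit 0) (XT.nd (nat_lit 624) (nat_lit 532) (nat_lit 0) (XT.nd (nat_lit 312) (nat_lit 228) (nat_lit 0) (XT.nd (nat_lit 156) (nat_lit 228) (nat_lit 0) (XT.nd (nat_lit 78) (nat_lit 0) (nat_lit 0) (XT.lf (nat_lit 0) (nat_lit 17930085378) (nat_lit 76) (nat_lit 3666188417) (nat_lit 152) (nat_lit 25694941666) (nat_lit 55) (nat_lit 5) (nat_lit 56) (nat_lit 5) (nat_lit 57) (nat_lit 4) (nat_lit 479) (nat_lit 405) (nat_lit 316)) (XT.lf (nat_lit 0) (nat_lit 36851370300) (nat_lit 152) (nat_lit 284219219) (nat_lit 0) (nat_lit 11747745661) (nat_lit 55) (nat_lit 5) (nat_lit 57) (nat_lit 4) (nat_lit 55) (nat_lit 4) (nat_lit 480) (nat_lit 405) (nat_lit 315))) (XT.nd (nat_lit 78) (nat_lit 76) (nat_lit 0) (XT.lf (nat_lit 0) (nat_lit 2776864347) (nat_lit 152) (nat_lit 19426045893) (nat_lit 76) (nat_lit 28323505702) (nat_lit 53) (nat_lit 5) (nat_lit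 55) (nat_lit 5) (nat_lit 54) (nat_lit 4) (nat_lit 481) (nat_lit 405) (nat_lit 314)) (XT.lf (nat_lit 0) (nat_lit 11962213949) (nat_lit 76) (nat_lit 6132962129) (nat_lit 152) (nat_lit 34137942842) (nat_lit 52) (nat_lit 5) (nat_lit 53) (nat_lit 5) (nat_lit 54) (nat_lit 4) (nat_lit 482) (nat_lit 405) (nat_lit 313)))) (XT.nd (nat_lit 156) (nat_lit 152) (nat_lit 0) (XT.nd (nat_lit 78) (nat_lit 76) (nat_lit 0) (XT.lf (nat_lit 0) (nat_lit 34663257793) (nat_lit 152) (nat_lit 8623492929) (nat_lit 0) (nat_lit 10714213738) (nat_lit 52) (nat_lit 5) (nat_lit 54) (nat_lit 4) (nat_lit 52) (nat_lit 4) (nat_lit 483) (nat_lit 405) (nat_lit 312)) (XT.lf (nat_lit 0) (nat_lit 25280582764) (nat_lit 76) (nat_lit 27257052025) (nat_lit 76) (nat_lit 3295673054) (nat_lit 51) (nat_lit 4) (nat_lit 52) (nat_lit 5) (nat_lit 52) (nat_lit 4) (nat_lit 484) (nat_lit 405) (nat_lit 311))) (XT.nd (nat_lit 78) (nat_lit 0) (nat_lit 0)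 (XT.lf (nat_lit 0) (nat_lit 3286217082) (nat_lit 76) (nat_lit 10011023694) (nat_lit 152) (nat_lit 44440330565) (nat_lit 49) (nat_lit 5) (nat_lit 50) (nat_lit 5) (nat_lit 51) (nat_lit 4) (nat_lit 485) (nat_lit 405) (nat_lit 310)) (XT.lf (nat_lit 0) (nat_lit 31244079690) (nat_lit 152) (nat_lit 20056640012) (nat_lit 0) (nat_lit 8401875269) (nat_lit 49) (nat_lit 5) (nat_lit 51) (nat_lit 4) (nat_lit 49) (nat_lit 4) (nat_lit 486) (nat_lit 405) (nat_lit 309))))) (XT.nd (nat_lit 312) (nat_lit 228) (nat_lit 0) (XT.nd (nat_lit 156) (nat_lit 152) (nat_lit 0) (XT.nd (nat_lit 78) (nat_lit 76) (nat_lit 0) (XT.lf (nat_lit 0) (nat_lit 16385406535) (nat_lit 76) (nat_lit 34106321190) (nat_lit 76) (nat_lit 11253968803) (nat_lit 48) (nat_lit 4) (nat_lit 49) (nat_lit 5) (nat_lit 49) (nat_lit 4) (nat_lit 487) (nat_lit 405) (nat_lit 308)) (XT.lf (nat_lit 0) (nat_lit 6921600010) (nat_lit 152) (nat_lit 8672737093) (nat_lit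 76) (nat_lit 48274860200) (nat_lit 47) (nat_lit 5) (nat_lit 49) (nat_lit 5) (nat_lit 48) (nat_lit 4) (nat_lit 488) (nat_lit 405) (nat_lit 307))) (XT.nd (nat_lit 78) (nat_lit 76) (nat_lit 0) (XT.lf (nat_lit 0) (nat_lit 26160651257) (nat_lit 152) (nat_lit 35523816402) (nat_lit 0) (nat_lit 4378535428) (nat_lit 46) (nat_lit 5) (nat_lit 48) (nat_lit 4) (nat_lit 46) (nat_lit 4) (nat_lit 489) (nat_lit 405) (nat_lit 306)) (XT.lf (nat_lit 0) (nat_lit 3475628579) (nat_lit 76) (nat_lit 43329578818) (nat_lit 76) (nat_lit 21539114233) (nat_lit 45) (nat_lit 4) (nat_lit 46) (nat_lit 5) (nat_lit 46) (nat_lit 4) (nat_lit 490) (nat_lit 405) (nat_lit 305)))) (XT.nd (nat_lit 156) (nat_lit 76) (nat_lit 0) (XT.nd (nat_lit 78) (nat_lit 152) (nat_lit 0) (XT.lf (nat_lit 0) (nat_lit 45627646140) (nat_lit 76) (nat_lit 23440581991) (nat_lit 76) (nat_lit 1642166209) (nat_lit 45) (nat_lit 4) (nat_lit 46) (nat_lit 5) (nat_lit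 46) (nat_lit 4) (nat_lit 491) (nat_lit 405) (nat_lit 304)) (XT.lf (nat_lit 0) (nat_lit 16903225651) (nat_lit 76) (nat_lit 1979317764) (nat_lit 152) (nat_lit 54284749188) (nat_lit 43) (nat_lit 5) (nat_lit 44) (nat_lit 5) (nat_lit 45) (nat_lit 4) (nat_lit 492) (nat_lit 405) (nat_lit 303))) (XT.nd (nat_lit 78) (nat_lit 76) (nat_lit 0) (XT.lf (nat_lit 0) (nat_lit 41116113986) (nat_lit 152) (nat_lit 14251047681) (nat_lit 0) (nat_lit 20341637491) (nat_lit 43) (nat_lit 5) (nat_lit 45) (nat_lit 4) (nat_lit 43) (nat_lit 4) (nat_lit 493) (nat_lit 405) (nat_lit 302)) (XT.lf (nat_lit 0) (nat_lit 30787214920) (nat_lit 76) (nat_lit 34173117834) (nat_lit 76) (nat_lit 13392099870) (nat_lit 42) (nat_lit 4) (nat_lit 43) (nat_lit 5) (nat_lit 43) (nat_lit 4) (nat_lit 494) (nat_lit 405) (nat_lit 301)))))) (XT.nd (nat_lit 624) (nat_lit 532) (nat_lit 0) (XT.nd (nat_lit 312) (nat_lit 304) (nat_lit 0) (XT.nd (nat_lit 156)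 (nat_lit 76) (nat_lit 0) (XT.nd (nat_lit 78) (nat_lit 76) (nat_lit 0) (XT.lf (nat_lit 0) (nat_lit 8815829297) (nat_lit 152) (nat_lit 2714797875) (nat_lit 76) (nat_lit 69579139413) (nat_lit 41) (nat_lit 5) (nat_lit 43) (nat_lit 5) (nat_lit 42) (nat_lit 4) (nat_lit 495) (nat_lit 405) (nat_lit 300)) (XT.lf (nat_lit 0) (nat_lit 32588643059) (nat_lit 152) (nat_lit 38574506280) (nat_lit 0) (nat_lit 12785613306) (nat_lit 40) (nat_lit 5) (nat_lit 42) (nat_lit 4) (nat_lit 40) (nat_lit 4) (nat_lit 496) (nat_lit 405) (nat_lit 299))) (XT.nd (nat_lit 78) (nat_lit 0) (nat_lit 0) (XT.lf (nat_lit 0) (nat_lit 9109359380) (nat_lit 76) (nat_lit 48805267086) (nat_lit 76) (nat_lit 28996855650) (nat_lit 39) (nat_lit 4) (nat_lit 40) (nat_lit 5) (nat_lit 40) (nat_lit 4) (nat_lit 497) (nat_lit 405) (nat_lit 298)) (XT.lf (nat_lit 0) (nat_lit 60490052010) (nat_lit 76) (nat_lit 24656909904) (nat_lit 76) (nat_lit 4843373056)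 (nat_lit 39) (nat_lit 4) (nat_lit 40) (nat_lit 5) (nat_lit 40) (nat_lit 4) (nat_lit 498) (nat_lit 405) (nat_lit 297)))) (XT.nd (nat_lit 156) (nat_lit 152) (nat_lit 0) (XT.nd (nat_lit 78) (nat_lit 0) (nat_lit 0) (XT.lf (nat_lit 0) (nat_lit 20206385712) (nat_lit 152) (nat_lit 71651761113) (nat_lit 0) (nat_lit 1331701719) (nat_lit 37) (nat_lit 5) (nat_lit 39) (nat_lit 4) (nat_lit 37) (nat_lit 4) (nat_lit 499) (nat_lit 405) (nat_lit 296)) (XT.lf (nat_lit 0) (nat_lit 47245080147) (nat_lit 152) (nat_lit 20889358248) (nat_lit 0) (nat_lit 28365968630) (nat_lit 37) (nat_lit 5) (nat_lit 39) (nat_lit 4) (nat_lit 37) (nat_lit 4) (nat_lit 500) (nat_lit 405) (nat_lit 295))) (XT.nd (nat_lit 78) (nat_lit 76) (nat_lit 0) (XT.lf (nat_lit 0) (nat_lit 33457481007) (nat_lit 76) (nat_lit 42688415653) (nat_lit 76) (nat_lit 23805087446) (nat_lit 36) (nat_lit 4) (nat_lit 37) (nat_lit 5) (nat_lit 37) (nat_lit 4) (nat_lit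 501) (nat_lit 405) (nat_lit 294)) (XT.lf (nat_lit 0) (nat_lit 3171680430) (nat_lit 152) (nat_lit 12385399218) (nat_lit 76) (nat_lit 87997362788) (nat_lit 35) (nat_lit 5) (nat_lit 37) (nat_lit 5) (nat_lit 36) (nat_lit 4) (nat_lit 502) (nat_lit 405) (nat_lit 293))))) (XT.nd (nat_lit 312) (nat_lit 228) (nat_lit 0) (XT.nd (nat_lit 156) (nat_lit 228) (nat_lit 0) (XT.nd (nat_lit 78) (nat_lit 0) (nat_lit 0) (XT.lf (nat_lit 0) (nat_lit 31615337289) (nat_lit 152) (nat_lit 62033573193) (nat_lit 0) (nat_lit 13623747991) (nat_lit 34) (nat_lit 5) (nat_lit 36) (nat_lit 4) (nat_lit 34) (nat_lit 4) (nat_lit 503) (nat_lit 405) (nat_lit 292)) (XT.lf (nat_lit 0) (nat_lit 61937822923) (nat_lit 152) (nat_lit 5273365585) (nat_lit 0) (nat_lit 43942764544) (nat_lit 34) (nat_lit 5) (nat_lit 36) (nat_lit 4) (nat_lit 34) (nat_lit 4) (nat_lit 504) (nat_lit 405) (nat_lit 291))) (XT.nd (nat_lit 78) (nat_lit 152) (nat_lit 0)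 (XT.lf (nat_lit 0) (nat_lit 56098072148) (nat_lit 76) (nat_lit 38543180753) (nat_lit 76) (nat_lit 20544818488) (nat_lit 33) (nat_lit 4) (nat_lit 34) (nat_lit 5) (nat_lit 34) (nat_lit 4) (nat_lit 505) (nat_lit 405) (nat_lit 290)) (XT.lf (nat_lit 0) (nat_lit 1170289824) (nat_lit 76) (nat_lit 8181807076) (nat_lit 152) (nat_lit 110055334821) (nat_lit 31) (nat_lit 5) (nat_lit 32) (nat_lit 5) (nat_lit 33) (nat_lit 4) (nat_lit 506) (nat_lit 405) (nat_lit 289)))) (XT.nd (nat_lit 156) (nat_lit 152) (nat_lit 0) (XT.nd (nat_lit 78) (nat_lit 76) (nat_lit 0) (XT.lf (nat_lit 0) (nat_lit 41429479481) (nat_lit 152) (nat_lit 58042406161) (nat_lit 0) (nat_lit 24282331341) (nat_lit 31) (nat_lit 5) (nat_lit 33) (nat_lit 4) (nat_lit 31) (nat_lit 4) (nat_lit 507) (nat_lit 405) (nat_lit 288)) (XT.lf (nat_lit 0) (nat_lit 5172260066) (nat_lit 76) (nat_lit 70142864039) (nat_lit 76) (nat_lit 52992997784) (nat_lit 30) (nat_lit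 4) (nat_lit 31) (nat_lit 5) (nat_lit 31) (nat_lit 4) (nat_lit 508) (nat_lit 405) (nat_lit 287))) (XT.nd (nat_lit 78) (nat_lit 152) (nat_lit 0) (XT.lf (nat_lit 0) (nat_lit 73541880255) (nat_lit 76) (nat_lit 38325831846) (nat_lit 76) (nat_lit 21173376910) (nat_lit 30) (nat_lit 4) (nat_lit 31) (nat_lit 5) (nat_lit 31) (nat_lit 4) (nat_lit 509) (nat_lit 405) (nat_lit 286)) (XT.nd (nat_lit 78) (nat_lit 0) (nat_lit 0) (XT.lf (nat_lit 0) (nat_lit 7343025785) (nat_lit 76) (nat_lit 4607191840) (nat_lit 152) (nat_lit 126045701007) (nat_lit 28) (nat_lit 5) (nat_lit 29) (nat_lit 5) (nat_lit 30) (nat_lit 4) (nat_lit 510) (nat_lit 405) (nat_lit 285)) (XT.lf (nat_lit 0) (nat_lit 47513450436) (nat_lit 152) (nat_lit 64419738092) (nat_lit 0) (nat_lit 31173194858) (nat_lit 28) (nat_lit 5) (nat_lit 30) (nat_lit 4) (nat_lit 28) (nat_lit 4) (nat_lit 511) (nat_lit 405) (nat_lit 284))))))))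
noncomputable def xc213 : XT := (XT.nd (nat_lit 1248) (nat_lit 608) (nat_lit 0) (XT.nd (nat_lit 624) (nat_lit 304) (nat_lit 0) (XT.nd (nat_lit 312) (nat_lit 228) (nat_lit 0) (XT.nd (nat_lit 156) (nat_lit 152) (nat_lit 0) (XT.nd (nat_lit 78) (nat_lit 0) (nat_lit 0) (XT.lf (nat_lit 0) (nat_lit 5196609467) (nat_lit 76) (nat_lit 79805394634) (nat_lit 76) (nat_lit 63463009340) (nat_lit 27) (nat_lit 4) (nat_lit 28) (nat_lit 5) (nat_lit 28) (nat_lit 4) (nat_lit 512) (nat_lit 405) (nat_lit 283)) (XT.lf (nat_lit 0) (nat_lit 80511331757) (nat_lit 76) (nat_lit 44935287580) (nat_lit 76) (nat_lit 28590873987) (nat_lit 27) (nat_lit 4) (nat_lit 28) (nat_lit 5) (nat_lit 28) (nat_lit 4) (nat_lit 513) (nat_lit 405) (nat_lit 282))) (XT.nd (nat_lit 78) (nat_lit 76) (nat_lit 0) (XT.lf (nat_lit 0) (nat_lit 7758975788) (nat_lit 152) (nat_lit 440444941) (nat_lit 76) (nat_lit 151683364280) (nat_lit 26) (nat_lit 5) (nat_lit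 28) (nat_lit 5) (nat_lit 27) (nat_lit 4) (nat_lit 514) (nat_lit 405) (nat_lit 281)) (XT.lf (nat_lit 0) (nat_lit 46681460597) (nat_lit 152) (nat_lit 88117885821) (nat_lit 0) (nat_lit 31111760565) (nat_lit 25) (nat_lit 5) (nat_lit 27) (nat_lit 4) (nat_lit 25) (nat_lit 4) (nat_lit 515) (nat_lit 405) (nat_lit 280)))) (XT.nd (nat_lit 156) (nat_lit 152) (nat_lit 0) (XT.nd (nat_lit 78) (nat_lit 76) (nat_lit 0) (XT.lf (nat_lit 0) (nat_lit 87683457892) (nat_lit 152) (nat_lit 12438628596) (nat_lit 0) (nat_lit 72112089172) (nat_lit 25) (nat_lit 5) (nat_lit 27) (nat_lit 4) (nat_lit 25) (nat_lit 4) (nat_lit 516) (nat_lit 405) (nat_lit 279)) (XT.lf (nat_lit 0) (nat_lit 69223529790) (nat_lit 76) (nat_lit 62584598638) (nat_lit 76) (nat_lit 47011640692) (nat_lit 24) (nat_lit 4) (nat_lit 25) (nat_lit 5) (nat_lit 25) (nat_lit 4) (nat_lit 517) (nat_lit 405) (nat_lit 278))) (XT.nd (nat_lit 78) (nat_lit 152) (nat_lit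 0) (XT.lf (nat_lit 0) (nat_lit 155384258732) (nat_lit 76) (nat_lit 22957362790) (nat_lit 76) (nat_lit 7382891295) (nat_lit 24) (nat_lit 4) (nat_lit 25) (nat_lit 5) (nat_lit 25) (nat_lit 4) (nat_lit 518) (nat_lit 405) (nat_lit 277)) (XT.lf (nat_lit 0) (nat_lit 34281674894) (nat_lit 152) (nat_lit 139161134225) (nat_lit 0) (nat_lit 19447472067) (nat_lit 22) (nat_lit 5) (nat_lit 24) (nat_lit 4) (nat_lit 22) (nat_lit 4) (nat_lit 519) (nat_lit 405) (nat_lit 276))))) (XT.nd (nat_lit 312) (nat_lit 152) (nat_lit 0) (XT.nd (nat_lit 156) (nat_lit 76) (nat_lit 0) (XT.nd (nat_lit 78) (nat_lit 76) (nat_lit 0) (XT.lf (nat_lit 0) (nat_lit 78672153781) (nat_lit 152) (nat_lit 57854949264) (nat_lit 0) (nat_lit 63836643493) (nat_lit 22) (nat_lit 5) (nat_lit 24) (nat_lit 4) (nat_lit 22) (nat_lit 4) (nat_lit 520) (nat_lit 405) (nat_lit 275)) (XT.lf (nat_lit 0) (nat_lit 28410760812) (nat_lit 76) (nat_lit 97307536409)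 (nat_lit 76) (nat_lit 82470780921) (nat_lit 21) (nat_lit 4) (nat_lit 22) (nat_lit 5) (nat_lit 22) (nat_lit 4) (nat_lit 521) (nat_lit 405) (nat_lit 274))) (XT.nd (nat_lit 78) (nat_lit 76) (nat_lit 0) (XT.lf (nat_lit 0) (nat_lit 120983487327) (nat_lit 76) (nat_lit 55105752891) (nat_lit 76) (nat_lit 40267811499) (nat_lit 21) (nat_lit 4) (nat_lit 22) (nat_lit 5) (nat_lit 22) (nat_lit 4) (nat_lit 522) (nat_lit 405) (nat_lit 273)) (XT.lf (nat_lit 0) (nat_lit 3908756080) (nat_lit 152) (nat_lit 6826120861) (nat_lit 76) (nat_lit 214195742876) (nat_lit 20) (nat_lit 5) (nat_lit 22) (nat_lit 5) (nat_lit 21) (nat_lit 4) (nat_lit 523) (nat_lit 405) (nat_lit 272)))) (XT.nd (nat_lit 156) (nat_lit 76) (nat_lit 0) (XT.nd (nat_lit 78) (nat_lit 0) (nat_lit 0) (XT.lf (nat_lit 0) (nat_lit 50905881385) (nat_lit 152) (nat_lit 146123320401) (nat_lit 0) (nat_lit 36772408550) (nat_lit 19) (nat_lit 5) (nat_lit 21) (nat_lit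 4) (nat_lit 19) (nat_lit 4) (nat_lit 524) (nat_lit 405) (nat_lit 271)) (XT.lf (nat_lit 0) (nat_lit 100539608378) (nat_lit 152) (nat_lit 56157044846) (nat_lit 0) (nat_lit 86405159896) (nat_lit 19) (nat_lit 5) (nat_lit 21) (nat_lit 4) (nat_lit 19) (nat_lit 4) (nat_lit 525) (nat_lit 405) (nat_lit 270))) (XT.nd (nat_lit 78) (nat_lit 0) (nat_lit 0) (XT.lf (nat_lit 0) (nat_lit 39560679293) (nat_lit 76) (nat_lit 113705581244) (nat_lit 76) (nat_lit 99570203575) (nat_lit 18) (nat_lit 4) (nat_lit 19) (nat_lit 5) (nat_lit 19) (nat_lit 4) (nat_lit 526) (nat_lit 405) (nat_lit 269)) (XT.lf (nat_lit 0) (nat_lit 142001091986) (nat_lit 76) (nat_lit 67572890708) (nat_lit 76) (nat_lit 53436628098) (nat_lit 18) (nat_lit 4) (nat_lit 19) (nat_lit 5) (nat_lit 19) (nat_lit 4) (nat_lit 527) (nat_lit 405) (nat_lit 268)))))) (XT.nd (nat_lit 624) (nat_lit 228) (nat_lit 0) (XT.nd (nat_lit 312) (nat_lit 228) (nat_lit 0) (XT.nd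 (nat_lit 156) (nat_lit 0) (nat_lit 0) (XT.nd (nat_lit 78) (nat_lit 152) (nat_lit 0) (XT.lf (nat_lit 0) (nat_lit 249551293462) (nat_lit 76) (nat_lit 19139788604) (nat_lit 76) (nat_lit 5002683194) (nat_lit 18) (nat_lit 4) (nat_lit 19) (nat_lit 5) (nat_lit 19) (nat_lit 4) (nat_lit 528) (nat_lit 405) (nat_lit 267)) (XT.lf (nat_lit 0) (nat_lit 46146038047) (nat_lit 152) (nat_lit 205959848057) (nat_lit 0) (nat_lit 32681363688) (nat_lit 16) (nat_lit 5) (nat_lit 18) (nat_lit 4) (nat_lit 16) (nat_lit 4) (nat_lit 529) (nat_lit 405) (nat_lit 266))) (XT.nd (nat_lit 78) (nat_lit 0) (nat_lit 0) (XT.lf (nat_lit 0) (nat_lit 100407592485) (nat_lit 152) (nat_lit 109045349427) (nat_lit 0) (nat_lit 86942190083) (nat_lit 16) (nat_lit 5) (nat_lit 18) (nat_lit 4) (nat_lit 16) (nat_lit 4) (nat_lit 530) (nat_lit 405) (nat_lit 265)) (XT.lf (nat_lit 0) (nat_lit 157376687435) (nat_lit 152) (nat_lit 7296406082) (nat_lit 0)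 (nat_lit 143910591659) (nat_lit 16) (nat_lit 5) (nat_lit 18) (nat_lit 4) (nat_lit 16) (nat_lit 4) (nat_lit 531) (nat_lit 405) (nat_lit 264)))) (XT.nd (nat_lit 156) (nat_lit 152) (nat_lit 0) (XT.nd (nat_lit 78) (nat_lit 0) (nat_lit 0) (XT.lf (nat_lit 0) (nat_lit 102820127572) (nat_lit 76) (nat_lit 115974146370) (nat_lit 76) (nat_lit 102507390238) (nat_lit 15) (nat_lit 4) (nat_lit 16) (nat_lit 5) (nat_lit 16) (nat_lit 4) (nat_lit 532) (nat_lit 405) (nat_lit 263)) (XT.lf (nat_lit 0) (nat_lit 218685232865) (nat_lit 76) (nat_lit 64715887642) (nat_lit 76) (nat_lit 51248502600) (nat_lit 15) (nat_lit 4) (nat_lit 16) (nat_lit 5) (nat_lit 16) (nat_lit 4) (nat_lit 533) (nat_lit 405) (nat_lit 262))) (XT.nd (nat_lit 78) (nat_lit 76) (nat_lit 0) (XT.lf (nat_lit 0) (nat_lit 2485945395) (nat_lit 152) (nat_lit 8371795943) (nat_lit 76) (nat_lit 337805480873) (nat_lit 14) (nat_lit 5) (nat_lit 16) (nat_lit 5) (nat_lit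 15) (nat_lit 4) (nat_lit 534) (nat_lit 405) (nat_lit 261)) (XT.lf (nat_lit 0) (nat_lit 59607972283) (nat_lit 152) (nat_lit 256825587338) (nat_lit 0) (nat_lit 46780777573) (nat_lit 13) (nat_lit 5) (nat_lit 15) (nat_lit 4) (nat_lit 13) (nat_lit 4) (nat_lit 535) (nat_lit 405) (nat_lit 260))))) (XT.nd (nat_lit 312) (nat_lit 152) (nat_lit 0) (XT.nd (nat_lit 156) (nat_lit 76) (nat_lit 0) (XT.nd (nat_lit 78) (nat_lit 0) (nat_lit 0) (XT.lf (nat_lit 0) (nat_lit 119903420444) (nat_lit 152) (nat_lit 151498013165) (nat_lit 0) (nat_lit 107075708328) (nat_lit 13) (nat_lit 5) (nat_lit 15) (nat_lit 4) (nat_lit 13) (nat_lit 4) (nat_lit 536) (nat_lit 405) (nat_lit 259)) (XT.lf (nat_lit 0) (nat_lit 183209088142) (nat_lit 152) (nat_lit 40913343166) (nat_lit 0) (nat_lit 170380883257) (nat_lit 13) (nat_lit 5) (nat_lit 15) (nat_lit 4) (nat_lit 13) (nat_lit 4) (nat_lit 537) (nat_lit 405) (nat_lit 258))) (XT.nd (nat_lit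 78) (nat_lit 0) (nat_lit 0) (XT.lf (nat_lit 0) (nat_lit 77677897313) (nat_lit 76) (nat_lit 173210575511) (nat_lit 76) (nat_lit 160381901324) (nat_lit 12) (nat_lit 4) (nat_lit 13) (nat_lit 5) (nat_lit 13) (nat_lit 4) (nat_lit 538) (nat_lit 405) (nat_lit 257)) (XT.lf (nat_lit 0) (nat_lit 203610420460) (nat_lit 76) (nat_lit 119030028153) (nat_lit 76) (nat_lit 106200907011) (nat_lit 12) (nat_lit 4) (nat_lit 13) (nat_lit 5) (nat_lit 13) (nat_lit 4) (nat_lit 539) (nat_lit 405) (nat_lit 256)))) (XT.nd (nat_lit 156) (nat_lit 0) (nat_lit 0) (XT.nd (nat_lit 78) (nat_lit 152) (nat_lit 0) (XT.lf (nat_lit 0) (nat_lit 335831285719) (nat_lit 76) (nat_lit 62144675192) (nat_lit 76) (nat_lit 49315128378) (nat_lit 12) (nat_lit 4) (nat_lit 13) (nat_lit 5) (nat_lit 13) (nat_lit 4) (nat_lit 540) (nat_lit 405) (nat_lit 255)) (XT.lf (nat_lit 0) (nat_lit 8088129271) (nat_lit 76) (nat_lit 2115812916) (nat_lit 152) (nat_lit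 456445119831) (nat_lit 10) (nat_lit 5) (nat_lit 11) (nat_lit 5) (nat_lit 12) (nat_lit 4) (nat_lit 541) (nat_lit 405) (nat_lit 254))) (XT.nd (nat_lit 78) (nat_lit 0) (nat_lit 0) (XT.lf (nat_lit 0) (nat_lit 73907339924) (nat_lit 152) (nat_lit 351195916857) (nat_lit 0) (nat_lit 61687970104) (nat_lit 10) (nat_lit 5) (nat_lit 12) (nat_lit 4) (nat_lit 10) (nat_lit 4) (nat_lit 542) (nat_lit 405) (nat_lit 253)) (XT.nd (nat_lit 78) (nat_lit 0) (nat_lit 0) (XT.lf (nat_lit 0) (nat_lit 140826849198) (nat_lit 152) (nat_lit 238504974542) (nat_lit 0) (nat_lit 128607129176) (nat_lit 10) (nat_lit 5) (nat_lit 12) (nat_lit 4) (nat_lit 10) (nat_lit 4) (nat_lit 543) (nat_lit 405) (nat_lit 252)) (XT.lf (nat_lit 0) (nat_lit 211088768403) (nat_lit 152) (nat_lit 120186760268) (nat_lit 0) (nat_lit 198868714857) (nat_lit 10) (nat_lit 5) (nat_lit 12) (nat_lit 4) (nat_lit 10) (nat_lit 4) (nat_lit 544) (nat_lit 405) (nat_lit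 251))))))))
noncomputable def xc214 : XT := (XT.nd (nat_lit 52026) (nat_lit 0) (nat_lit 9956) (XT.nd (nat_lit 624) (nat_lit 0) (nat_lit 0) (XT.nd (nat_lit 312) (nat_lit 152) (nat_lit 0) (XT.nd (nat_lit 156) (nat_lit 0) (nat_lit 0) (XT.nd (nat_lit 78) (nat_lit 0) (nat_lit 0) (XT.lf (nat_lit 0) (nat_lit 4174031061) (nat_lit 76) (nat_lit 280751525086) (nat_lit 76) (nat_lit 268531153897) (nat_lit 9) (nat_lit 4) (nat_lit 10) (nat_lit 5) (nat_lit 10) (nat_lit 4) (nat_lit 545) (nat_lit 405) (nat_lit 250)) (XT.lf (nat_lit 0) (nat_lit 138918657918) (nat_lit 76) (nat_lit 225567605828) (nat_lit 76) (nat_lit 213346932122) (nat_lit 9) (nat_lit 4) (nat_lit 10) (nat_lit 5) (nat_lit 10) (nat_lit 4) (nat_lit 546) (nat_lit 405) (nat_lit 249))) (XT.nd (nat_lit 78) (nat_lit 0) (nat_lit 0) (XT.lf (nat_lit 0) (nat_lit 280394023769) (nat_lit 76) (nat_lit 167627801551) (nat_lit 76) (nat_lit 155406839734) (nat_lit 9) (nat_lit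 4) (nat_lit 10) (nat_lit 5) (nat_lit 10) (nat_lit 4) (nat_lit 547) (nat_lit 405) (nat_lit 248)) (XT.lf (nat_lit 0) (nat_lit 428936974724) (nat_lit 76) (nat_lit 106794160342) (nat_lit 76) (nat_lit 94572924134) (nat_lit 9) (nat_lit 4) (nat_lit 10) (nat_lit 5) (nat_lit 10) (nat_lit 4) (nat_lit 548) (nat_lit 405) (nat_lit 247)))) (XT.nd (nat_lit 156) (nat_lit 0) (nat_lit 0) (XT.nd (nat_lit 78) (nat_lit 152) (nat_lit 0) (XT.lf (nat_lit 0) (nat_lit 584901184474) (nat_lit 76) (nat_lit 42921840198) (nat_lit 76) (nat_lit 30700342664) (nat_lit 9) (nat_lit 4) (nat_lit 10) (nat_lit 5) (nat_lit 10) (nat_lit 4) (nat_lit 549) (nat_lit 405) (nat_lit 246)) (XT.lf (nat_lit 0) (nat_lit 36567924501) (nat_lit 152) (nat_lit 626560862140) (nat_lit 0) (nat_lit 24928166010) (nat_lit 7) (nat_lit 5) (nat_lit 9) (nat_lit 4) (nat_lit 7) (nat_lit 4) (nat_lit 550) (nat_lit 405) (nat_lit 245))) (XT.nd (nat_lit 78) (nat_lit 0)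 (nat_lit 0) (XT.lf (nat_lit 0) (nat_lit 108135983510) (nat_lit 152) (nat_lit 514311664665) (nat_lit 0) (nat_lit 96495999277) (nat_lit 7) (nat_lit 5) (nat_lit 9) (nat_lit 4) (nat_lit 7) (nat_lit 4) (nat_lit 551) (nat_lit 405) (nat_lit 244)) (XT.lf (nat_lit 0) (nat_lit 183279785953) (nat_lit 152) (nat_lit 396455437293) (nat_lit 0) (nat_lit 171639586726) (nat_lit 7) (nat_lit 5) (nat_lit 9) (nat_lit 4) (nat_lit 7) (nat_lit 4) (nat_lit 552) (nat_lit 405) (nat_lit 243))))) (XT.nd (nat_lit 51090) (nat_lit 0) (nat_lit 14668) (XT.nd (nat_lit 156) (nat_lit 0) (nat_lit 0) (XT.nd (nat_lit 78) (nat_lit 0) (nat_lit 0) (XT.lf (nat_lit 0) (nat_lit 262178245643) (nat_lit 152) (nat_lit 272711569958) (nat_lit 0) (nat_lit 250537841662) (nat_lit 7) (nat_lit 5) (nat_lit 9) (nat_lit 4) (nat_lit 7) (nat_lit 4) (nat_lit 553) (nat_lit 405) (nat_lit 242)) (XT.lf (nat_lit 0) (nat_lit 345019216057) (nat_lit 152) (nat_lit 142785434406)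 (nat_lit 0) (nat_lit 333378617071) (nat_lit 7) (nat_lit 5) (nat_lit 9) (nat_lit 4) (nat_lit 7) (nat_lit 4) (nat_lit 554) (nat_lit 405) (nat_lit 241))) (XT.nd (nat_lit 50856) (nat_lit 0) (nat_lit 15124) (XT.lf (nat_lit 0) (nat_lit 431999937601) (nat_lit 152) (nat_lit 6367682694) (nat_lit 0) (nat_lit 420359152895) (nat_lit 7) (nat_lit 5) (nat_lit 9) (nat_lit 4) (nat_lit 7) (nat_lit 4) (nat_lit 555) (nat_lit 405) (nat_lit 240)) (XT.lf (nat_lit 0) (nat_lit 1216302865) (nat_lit 0) (nat_lit 1216302865) (nat_lit 380) (nat_lit 995089344) (nat_lit 206) (nat_lit 5) (nat_lit 206) (nat_lit 3) (nat_lit 211) (nat_lit 3) (nat_lit 406) (nat_lit 406) (nat_lit 388)))) (XT.nd (nat_lit 156) (nat_lit 0) (nat_lit 0) (XT.nd (nat_lit 78) (nat_lit 456) (nat_lit 0) (XT.lf (nat_lit 0) (nat_lit 5954917879) (nat_lit 0) (nat_lit 972731448) (nat_lit 380) (nat_lit 1870873) (nat_lit 206) (nat_lit 5) (nat_lit 206) (nat_lit 3) (nat_lit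 211) (nat_lit 3) (nat_lit 407) (nat_lit 406) (nat_lit 387)) (XT.lf (nat_lit 0) (nat_lit 1944777788) (nat_lit 456) (nat_lit 4389555347) (nat_lit 532) (nat_lit 675124095) (nat_lit 200) (nat_lit 5) (nat_lit 206) (nat_lit 5) (nat_lit 207) (nat_lit 5) (nat_lit 408) (nat_lit 406) (nat_lit 386))) (XT.nd (nat_lit 78) (nat_lit 0) (nat_lit 0) (XT.lf (nat_lit 0) (nat_lit 3901002740) (nat_lit 456) (nat_lit 753035506) (nat_lit 532) (nat_lit 2443748440) (nat_lit 200) (nat_lit 5) (nat_lit 206) (nat_lit 5) (nat_lit 207) (nat_lit 5) (nat_lit 409) (nat_lit 406) (nat_lit 385)) (XT.lf (nat_lit 76) (nat_lit 3095638386) (nat_lit 0) (nat_lit 2793050592) (nat_lit 532) (nat_lit 1305172987) (nat_lit 201) (nat_lit 5) (nat_lit 200) (nat_lit 5) (nat_lit 207) (nat_lit 5) (nat_lit 410) (nat_lit 406) (nat_lit 384)))))) (XT.nd (nat_lit 624) (nat_lit 3116) (nat_lit 0) (XT.nd (nat_lit 312) (nat_lit 1064) (nat_lit 0) (XT.nd (nat_lit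 156) (nat_lit 0) (nat_lit 76) (XT.nd (nat_lit 78) (nat_lit 0) (nat_lit 76) (XT.lf (nat_lit 0) (nat_lit 560088403) (nat_lit 532) (nat_lit 213415295) (nat_lit 608) (nat_lit 6525673091) (nat_lit 193) (nat_lit 5) (nat_lit 200) (nat_lit 5) (nat_lit 201) (nat_lit 5) (nat_lit 411) (nat_lit 406) (nat_lit 383)) (XT.lf (nat_lit 0) (nat_lit 2451886394) (nat_lit 532) (nat_lit 3532839991) (nat_lit 608) (nat_lit 1425114599) (nat_lit 194) (nat_lit 5) (nat_lit 201) (nat_lit 5) (nat_lit 202) (nat_lit 5) (nat_lit 412) (nat_lit 406) (nat_lit 382))) (XT.nd (nat_lit 78) (nat_lit 0) (nat_lit 0) (XT.lf (nat_lit 76) (nat_lit 586965575) (nat_lit 0) (nat_lit 3774668814) (nat_lit 608) (nat_lit 3168245746) (nat_lit 195) (nat_lit 5) (nat_lit 194) (nat_lit 5) (nat_lit 202) (nat_lit 5) (nat_lit 413) (nat_lit 406) (nat_lit 381)) (XT.lf (nat_lit 76) (nat_lit 4964013079) (nat_lit 0) (nat_lit 1364278959) (nat_lit 608) (nat_lit 1329567376)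 (nat_lit 195) (nat_lit 5) (nat_lit 194) (nat_lit 5) (nat_lit 202) (nat_lit 5) (nat_lit 414) (nat_lit 406) (nat_lit 380)))) (XT.nd (nat_lit 156) (nat_lit 608) (nat_lit 0) (XT.nd (nat_lit 78) (nat_lit 0) (nat_lit 0) (XT.lf (nat_lit 0) (nat_lit 532943242) (nat_lit 608) (nat_lit 6071453739) (nat_lit 76) (nat_lit 1189823125) (nat_lit 187) (nat_lit 5) (nat_lit 195) (nat_lit 5) (nat_lit 188) (nat_lit 5) (nat_lit 415) (nat_lit 406) (nat_lit 379)) (XT.lf (nat_lit 0) (nat_lit 2421148941) (nat_lit 608) (nat_lit 1601244040) (nat_lit 76) (nat_lit 3915061475) (nat_lit 187) (nat_lit 5) (nat_lit 195) (nat_lit 5) (nat_lit 188) (nat_lit 5) (nat_lit 416) (nat_lit 406) (nat_lit 378))) (XT.nd (nat_lit 78) (nat_lit 0) (nat_lit 0) (XT.lf (nat_lit 0) (nat_lit 3120985310) (nat_lit 608) (nat_lit 1244380293) (nat_lit 684) (nat_lit 3724412528) (nat_lit 179) (nat_lit 5) (nat_lit 187) (nat_lit 5) (nat_lit 188) (nat_lit 5) (nat_lit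 417) (nat_lit 406) (nat_lit 377)) (XT.lf (nat_lit 0) (nat_lit 6376610306) (nat_lit 684) (nat_lit 214659535) (nat_lit 76) (nat_lit 1659964564) (nat_lit 179) (nat_lit 5) (nat_lit 188) (nat_lit 5) (nat_lit 180) (nat_lit 5) (nat_lit 418) (nat_lit 406) (nat_lit 376))))) (XT.nd (nat_lit 312) (nat_lit 1140) (nat_lit 0) (XT.nd (nat_lit 156) (nat_lit 456) (nat_lit 0) (XT.nd (nat_lit 78) (nat_lit 760) (nat_lit 0) (XT.lf (nat_lit 0) (nat_lit 81856060) (nat_lit 760) (nat_lit 3580677283) (nat_lit 76) (nat_lit 4757365553) (nat_lit 169) (nat_lit 5) (nat_lit 179) (nat_lit 5) (nat_lit 170) (nat_lit 5) (nat_lit 419) (nat_lit 406) (nat_lit 375)) (XT.lf (nat_lit 0) (nat_lit 1501133896) (nat_lit 760) (nat_lit 520733338) (nat_lit 836) (nat_lit 6576163751) (nat_lit 159) (nat_lit 5) (nat_lit 169) (nat_lit 5) (nat_lit 170) (nat_lit 5) (nat_lit 420) (nat_lit 406) (nat_lit 374))) (XT.nd (nat_lit 78) (nat_lit 456) (nat_lit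 0) (XT.lf (nat_lit 0) (nat_lit 4088152220) (nat_lit 836) (nat_lit 1940308019) (nat_lit 76) (nat_lit 2755151763) (nat_lit 159) (nat_lit 5) (nat_lit 170) (nat_lit 5) (nat_lit 160) (nat_lit 5) (nat_lit 421) (nat_lit 406) (nat_lit 373)) (XT.lf (nat_lit 0) (nat_lit 3506125016) (nat_lit 456) (nat_lit 2742773803) (nat_lit 532) (nat_lit 2730021583) (nat_lit 153) (nat_lit 5) (nat_lit 159) (nat_lit 5) (nat_lit 160) (nat_lit 5) (nat_lit 422) (nat_lit 406) (nat_lit 372)))) (XT.nd (nat_lit 156) (nat_lit 684) (nat_lit 0) (XT.nd (nat_lit 78) (nat_lit 76) (nat_lit 0) (XT.lf (nat_lit 0) (nat_lit 25120686) (nat_lit 380) (nat_lit 8467587365) (nat_lit 456) (nat_lit 692540336) (nat_lit 148) (nat_lit 5) (nat_lit 153) (nat_lit 5) (nat_lit 154) (nat_lit 5) (nat_lit 423) (nat_lit 406) (nat_lit 371)) (XT.lf (nat_lit 0) (nat_lit 1470942231) (nat_lit 456) (nat_lit 3553473640) (nat_lit 76) (nat_lit 4372830664) (nat_lit 147)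 (nat_lit 5) (nat_lit 153) (nat_lit 5) (nat_lit 148) (nat_lit 5) (nat_lit 424) (nat_lit 406) (nat_lit 370))) (XT.nd (nat_lit 78) (nat_lit 304) (nat_lit 0) (XT.lf (nat_lit 0) (nat_lit 2325073058) (nat_lit 380) (nat_lit 1365092891) (nat_lit 456) (nat_lit 5930573630) (nat_lit 142) (nat_lit 5) (nat_lit 147) (nat_lit 5) (nat_lit 148) (nat_lit 5) (nat_lit 425) (nat_lit 406) (nat_lit 369)) (XT.nd (nat_lit 78) (nat_lit 304) (nat_lit 0) (XT.lf (nat_lit 0) (nat_lit 6056644091) (nat_lit 456) (nat_lit 1344564311) (nat_lit 76) (nat_lit 2452388676) (nat_lit 142) (nat_lit 5) (nat_lit 148) (nat_lit 5) (nat_lit 143) (nat_lit 5) (nat_lit 426) (nat_lit 406) (nat_lit 368)) (XT.lf (nat_lit 0) (nat_lit 4970890972) (nat_lit 304) (nat_lit 3610020338) (nat_lit 380) (nat_lit 1515217140) (nat_lit 138) (nat_lit 5) (nat_lit 142) (nat_lit 5) (nat_lit 143) (nat_lit 5) (nat_lit 427) (nat_lit 406) (nat_lit 367))))))))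
noncomputable def xc215 : XT := (XT.nd (nat_lit 1248) (nat_lit 1976) (nat_lit 0) (XT.nd (nat_lit 624) (nat_lit 1140) (nat_lit 0) (XT.nd (nat_lit 312) (nat_lit 608) (nat_lit 0) (XT.nd (nat_lit 156) (nat_lit 608) (nat_lit 0) (XT.nd (nat_lit 78) (nat_lit 0) (nat_lit 0) (XT.lf (nat_lit 0) (nat_lit 842008900) (nat_lit 380) (nat_lit 9103085440) (nat_lit 76) (nat_lit 405529058) (nat_lit 133) (nat_lit 5) (nat_lit 138) (nat_lit 5) (nat_lit 134) (nat_lit 5) (nat_lit 428) (nat_lit 406) (nat_lit 366)) (XT.lf (nat_lit 0) (nat_lit 3355467631) (nat_lit 380) (nat_lit 2654405746) (nat_lit 76) (nat_lit 4602266779) (nat_lit 133) (nat_lit 5) (nat_lit 138) (nat_lit 5) (nat_lit 134) (nat_lit 5) (nat_lit 429) (nat_lit 406) (nat_lit 365))) (XT.nd (nat_lit 78) (nat_lit 304) (nat_lit 0) (XT.lf (nat_lit 0) (nat_lit 4181643592) (nat_lit 304) (nat_lit 1822900651) (nat_lit 380) (nat_lit 4881694762) (nat_lit 129) (nat_lit 5)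 (nat_lit 133) (nat_lit 5) (nat_lit 134) (nat_lit 5) (nat_lit 430) (nat_lit 406) (nat_lit 364)) (XT.lf (nat_lit 0) (nat_lit 174252865) (nat_lit 304) (nat_lit 8646426999) (nat_lit 380) (nat_lit 2351636005) (nat_lit 125) (nat_lit 5) (nat_lit 129) (nat_lit 5) (nat_lit 130) (nat_lit 5) (nat_lit 431) (nat_lit 406) (nat_lit 363)))) (XT.nd (nat_lit 156) (nat_lit 304) (nat_lit 0) (XT.nd (nat_lit 78) (nat_lit 228) (nat_lit 0) (XT.lf (nat_lit 0) (nat_lit 387100191) (nat_lit 380) (nat_lit 3944611346) (nat_lit 76) (nat_lit 7136153325) (nat_lit 124) (nat_lit 5) (nat_lit 129) (nat_lit 5) (nat_lit 125) (nat_lit 5) (nat_lit 432) (nat_lit 406) (nat_lit 362)) (XT.lf (nat_lit 0) (nat_lit 3191408282) (nat_lit 304) (nat_lit 8314077339) (nat_lit 76) (nat_lit 270397718) (nat_lit 121) (nat_lit 5) (nat_lit 125) (nat_lit 5) (nat_lit 122) (nat_lit 5) (nat_lit 433) (nat_lit 406) (nat_lit 361))) (XT.nd (nat_lit 78) (nat_lit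 304) (nat_lit 0) (XT.lf (nat_lit 0) (nat_lit 6225143896) (nat_lit 304) (nat_lit 861219206) (nat_lit 76) (nat_lit 5008481775) (nat_lit 121) (nat_lit 5) (nat_lit 125) (nat_lit 5) (nat_lit 122) (nat_lit 5) (nat_lit 434) (nat_lit 406) (nat_lit 360)) (XT.lf (nat_lit 0) (nat_lit 7127017508) (nat_lit 304) (nat_lit 2347489506) (nat_lit 380) (nat_lit 2952053054) (nat_lit 117) (nat_lit 5) (nat_lit 121) (nat_lit 5) (nat_lit 122) (nat_lit 5) (nat_lit 435) (nat_lit 406) (nat_lit 359))))) (XT.nd (nat_lit 312) (nat_lit 456) (nat_lit 0) (XT.nd (nat_lit 156) (nat_lit 380) (nat_lit 0) (XT.nd (nat_lit 78) (nat_lit 0) (nat_lit 0) (XT.lf (nat_lit 0) (nat_lit 161208086) (nat_lit 304) (nat_lit 10023978399) (nat_lit 76) (nat_lit 2586924938) (nat_lit 113) (nat_lit 5) (nat_lit 117) (nat_lit 5) (nat_lit 114) (nat_lit 5) (nat_lit 436) (nat_lit 406) (nat_lit 358)) (XT.lf (nat_lit 0) (nat_lit 3414707971) (nat_lit 304) (nat_lit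 1903412813) (nat_lit 76) (nat_lit 7810212900) (nat_lit 113) (nat_lit 5) (nat_lit 117) (nat_lit 5) (nat_lit 114) (nat_lit 5) (nat_lit 437) (nat_lit 406) (nat_lit 357))) (XT.nd (nat_lit 78) (nat_lit 152) (nat_lit 0) (XT.lf (nat_lit 0) (nat_lit 6776459149) (nat_lit 228) (nat_lit 116488896) (nat_lit 304) (nat_lit 6606317904) (nat_lit 110) (nat_lit 5) (nat_lit 113) (nat_lit 5) (nat_lit 114) (nat_lit 5) (nat_lit 438) (nat_lit 406) (nat_lit 356)) (XT.lf (nat_lit 0) (nat_lit 1984397726) (nat_lit 152) (nat_lit 8664961570) (nat_lit 228) (nat_lit 3234174616) (nat_lit 108) (nat_lit 5) (nat_lit 110) (nat_lit 5) (nat_lit 111) (nat_lit 5) (nat_lit 439) (nat_lit 406) (nat_lit 355)))) (XT.nd (nat_lit 156) (nat_lit 152) (nat_lit 0) (XT.nd (nat_lit 78) (nat_lit 228) (nat_lit 0) (XT.lf (nat_lit 0) (nat_lit 371820063) (nat_lit 228) (nat_lit 2994299606) (nat_lit 76) (nat_lit 10916905309) (nat_lit 107) (nat_lit 5) (nat_lit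 110) (nat_lit 5) (nat_lit 108) (nat_lit 5) (nat_lit 440) (nat_lit 406) (nat_lit 354)) (XT.lf (nat_lit 0) (nat_lit 4146042059) (nat_lit 304) (nat_lit 8285912023) (nat_lit 76) (nat_lit 2263056466) (nat_lit 104) (nat_lit 5) (nat_lit 108) (nat_lit 5) (nat_lit 105) (nat_lit 5) (nat_lit 441) (nat_lit 406) (nat_lit 353))) (XT.nd (nat_lit 78) (nat_lit 0) (nat_lit 0) (XT.lf (nat_lit 0) (nat_lit 1181000027) (nat_lit 152) (nat_lit 7013244278) (nat_lit 228) (nat_lit 6929089318) (nat_lit 102) (nat_lit 5) (nat_lit 104) (nat_lit 5) (nat_lit 105) (nat_lit 5) (nat_lit 442) (nat_lit 406) (nat_lit 352)) (XT.lf (nat_lit 0) (nat_lit 11347583711) (nat_lit 152) (nat_lit 1198647747) (nat_lit 228) (nat_lit 3021774256) (nat_lit 102) (nat_lit 5) (nat_lit 104) (nat_lit 5) (nat_lit 105) (nat_lit 5) (nat_lit 443) (nat_lit 406) (nat_lit 351)))))) (XT.nd (nat_lit 624) (nat_lit 988) (nat_lit 0) (XT.nd (nat_lit 312) (nat_lit 380)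 (nat_lit 0) (XT.nd (nat_lit 156) (nat_lit 152) (nat_lit 0) (XT.nd (nat_lit 78) (nat_lit 152) (nat_lit 0) (XT.lf (nat_lit 0) (nat_lit 1182047908) (nat_lit 304) (nat_lit 10002805479) (nat_lit 76) (nat_lit 4842428824) (nat_lit 98) (nat_lit 5) (nat_lit 102) (nat_lit 5) (nat_lit 99) (nat_lit 5) (nat_lit 444) (nat_lit 406) (nat_lit 350)) (XT.lf (nat_lit 0) (nat_lit 301270745) (nat_lit 152) (nat_lit 5253070661) (nat_lit 228) (nat_lit 10949714064) (nat_lit 96) (nat_lit 5) (nat_lit 98) (nat_lit 5) (nat_lit 99) (nat_lit 5) (nat_lit 445) (nat_lit 406) (nat_lit 349))) (XT.nd (nat_lit 78) (nat_lit 152) (nat_lit 0) (XT.lf (nat_lit 0) (nat_lit 10295974945) (nat_lit 228) (nat_lit 5607072579) (nat_lit 76) (nat_lit 1094084919) (nat_lit 96) (nat_lit 5) (nat_lit 99) (nat_lit 5) (nat_lit 97) (nat_lit 5) (nat_lit 446) (nat_lit 406) (nat_lit 348)) (XT.lf (nat_lit 0) (nat_lit 5552208285) (nat_lit 152) (nat_lit 9860348786)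 (nat_lit 228) (nat_lit 2095414104) (nat_lit 94) (nat_lit 5) (nat_lit 96) (nat_lit 5) (nat_lit 97) (nat_lit 5) (nat_lit 447) (nat_lit 406) (nat_lit 347)))) (XT.nd (nat_lit 156) (nat_lit 152) (nat_lit 0) (XT.nd (nat_lit 78) (nat_lit 152) (nat_lit 0) (XT.lf (nat_lit 0) (nat_lit 2714694715) (nat_lit 228) (nat_lit 677854326) (nat_lit 76) (nat_lit 14646574752) (nat_lit 93) (nat_lit 5) (nat_lit 96) (nat_lit 5) (nat_lit 94) (nat_lit 5) (nat_lit 448) (nat_lit 406) (nat_lit 346)) (XT.lf (nat_lit 0) (nat_lit 7896648043) (nat_lit 228) (nat_lit 7203540935) (nat_lit 76) (nat_lit 3484840660) (nat_lit 91) (nat_lit 5) (nat_lit 94) (nat_lit 5) (nat_lit 92) (nat_lit 5) (nat_lit 449) (nat_lit 406) (nat_lit 345))) (XT.nd (nat_lit 78) (nat_lit 0) (nat_lit 0) (XT.lf (nat_lit 0) (nat_lit 4956880067) (nat_lit 152) (nat_lit 8492808395) (nat_lit 228) (nat_lit 5702943875) (nat_lit 89) (nat_lit 5) (nat_lit 91) (nat_lit 5)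 (nat_lit 92) (nat_lit 5) (nat_lit 450) (nat_lit 406) (nat_lit 344)) (XT.lf (nat_lit 0) (nat_lit 17920667294) (nat_lit 152) (nat_lit 1449725847) (nat_lit 228) (nat_lit 373722403) (nat_lit 89) (nat_lit 5) (nat_lit 91) (nat_lit 5) (nat_lit 92) (nat_lit 5) (nat_lit 451) (nat_lit 406) (nat_lit 343))))) (XT.nd (nat_lit 312) (nat_lit 456) (nat_lit 0) (XT.nd (nat_lit 156) (nat_lit 152) (nat_lit 0) (XT.nd (nat_lit 78) (nat_lit 152) (nat_lit 0) (XT.lf (nat_lit 0) (nat_lit 5298545554) (nat_lit 228) (nat_lit 9052909267) (nat_lit 76) (nat_lit 5997456475) (nat_lit 86) (nat_lit 5) (nat_lit 89) (nat_lit 5) (nat_lit 87) (nat_lit 5) (nat_lit 452) (nat_lit 406) (nat_lit 342)) (XT.lf (nat_lit 0) (nat_lit 4202972418) (nat_lit 152) (nat_lit 7129022052) (nat_lit 228) (nat_lit 9647140531) (nat_lit 84) (nat_lit 5) (nat_lit 86) (nat_lit 5) (nat_lit 87) (nat_lit 5) (nat_lit 453) (nat_lit 406) (nat_lit 341))) (XT.nd (nat_lit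 78) (nat_lit 152) (nat_lit 0) (XT.lf (nat_lit 0) (nat_lit 17799679717) (nat_lit 228) (nat_lit 3260633128) (nat_lit 76) (nat_lit 573929661) (nat_lit 84) (nat_lit 5) (nat_lit 87) (nat_lit 5) (nat_lit 85) (nat_lit 4) (nat_lit 454) (nat_lit 406) (nat_lit 340)) (XT.lf (nat_lit 0) (nat_lit 2461863835) (nat_lit 152) (nat_lit 11230276389) (nat_lit 76) (nat_lit 8614903366) (nat_lit 82) (nat_lit 5) (nat_lit 84) (nat_lit 5) (nat_lit 83) (nat_lit 5) (nat_lit 455) (nat_lit 406) (nat_lit 339)))) (XT.nd (nat_lit 156) (nat_lit 304) (nat_lit 0) (XT.nd (nat_lit 78) (nat_lit 0) (nat_lit 0) (XT.lf (nat_lit 0) (nat_lit 3221527256) (nat_lit 152) (nat_lit 5800350515) (nat_lit 228) (nat_lit 13984582949) (nat_lit 80) (nat_lit 5) (nat_lit 82) (nat_lit 5) (nat_lit 83) (nat_lit 5) (nat_lit 456) (nat_lit 406) (nat_lit 338)) (XT.lf (nat_lit 0) (nat_lit 16113458424) (nat_lit 228) (nat_lit 5039025544) (nat_lit 76) (nat_lit 2578187104)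 (nat_lit 80) (nat_lit 5) (nat_lit 83) (nat_lit 5) (nat_lit 81) (nat_lit 4) (nat_lit 457) (nat_lit 406) (nat_lit 337))) (XT.nd (nat_lit 78) (nat_lit 228) (nat_lit 0) (XT.lf (nat_lit 0) (nat_lit 10640543896) (nat_lit 76) (nat_lit 13153094550) (nat_lit 152) (nat_lit 685753114) (nat_lit 79) (nat_lit 5) (nat_lit 80) (nat_lit 5) (nat_lit 81) (nat_lit 4) (nat_lit 458) (nat_lit 406) (nat_lit 336)) (XT.nd (nat_lit 78) (nat_lit 0) (nat_lit 0) (XT.lf (nat_lit 0) (nat_lit 1925856415) (nat_lit 152) (nat_lit 4545141240) (nat_lit 228) (nat_lit 18784919176) (nat_lit 76) (nat_lit 5) (nat_lit 78) (nat_lit 5) (nat_lit 79) (nat_lit 5) (nat_lit 459) (nat_lit 406) (nat_lit 335)) (XT.lf (nat_lit 0) (nat_lit 14244001297) (nat_lit 228) (nat_lit 7234943988) (nat_lit 76) (nat_lit 4577688479) (nat_lit 76) (nat_lit 5) (nat_lit 79) (nat_lit 5) (nat_lit 77) (nat_lit 4) (nat_lit 460) (nat_lit 406) (nat_lit 334))))))))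
noncomputable def xc216 : XT := (XT.nd (nat_lit 1248) (nat_lit 1064) (nat_lit 0) (XT.nd (nat_lit 624) (nat_lit 608) (nat_lit 0) (XT.nd (nat_lit 312) (nat_lit 304) (nat_lit 0) (XT.nd (nat_lit 156) (nat_lit 76) (nat_lit 0) (XT.nd (nat_lit 78) (nat_lit 228) (nat_lit 0) (XT.lf (nat_lit 0) (nat_lit 9858909469) (nat_lit 76) (nat_lit 12749562195) (nat_lit 152) (nat_lit 4278774574) (nat_lit 75) (nat_lit 5) (nat_lit 76) (nat_lit 5) (nat_lit 77) (nat_lit 4) (nat_lit 461) (nat_lit 406) (nat_lit 333)) (XT.lf (nat_lit 0) (nat_lit 206119037) (nat_lit 152) (nat_lit 3411637330) (nat_lit 228) (nat_lit 24133687350) (nat_lit 72) (nat_lit 5) (nat_lit 74) (nat_lit 5) (nat_lit 75) (nat_lit 5) (nat_lit 462) (nat_lit 406) (nat_lit 332))) (XT.nd (nat_lit 78) (nat_lit 76) (nat_lit 0) (XT.lf (nat_lit 0) (nat_lit 12132869511) (nat_lit 228) (nat_lit 9972935685) (nat_lit 76) (nat_lit 6531161604) (nat_lit 72) (nat_lit 5) (nat_lit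 75) (nat_lit 5) (nat_lit 73) (nat_lit 4) (nat_lit 463) (nat_lit 406) (nat_lit 331)) (XT.lf (nat_lit 0) (nat_lit 8654081449) (nat_lit 76) (nat_lit 12586532480) (nat_lit 152) (nat_lit 8317808758) (nat_lit 71) (nat_lit 5) (nat_lit 72) (nat_lit 5) (nat_lit 73) (nat_lit 4) (nat_lit 464) (nat_lit 406) (nat_lit 330)))) (XT.nd (nat_lit 156) (nat_lit 76) (nat_lit 0) (XT.nd (nat_lit 78) (nat_lit 152) (nat_lit 0) (XT.lf (nat_lit 0) (nat_lit 416470803) (nat_lit 152) (nat_lit 2011043307) (nat_lit 76) (nat_lit 28090842402) (nat_lit 70) (nat_lit 5) (nat_lit 72) (nat_lit 5) (nat_lit 71) (nat_lit 5) (nat_lit 465) (nat_lit 406) (nat_lit 329)) (XT.lf (nat_lit 0) (nat_lit 9704849979) (nat_lit 228) (nat_lit 13410513587) (nat_lit 76) (nat_lit 8384260031) (nat_lit 68) (nat_lit 5) (nat_lit 71) (nat_lit 5) (nat_lit 69) (nat_lit 4) (nat_lit 466) (nat_lit 406) (nat_lit 328))) (XT.nd (nat_lit 78) (nat_lit 0) (nat_lit 0) (XT.lf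 (nat_lit 0) (nat_lit 6872348933) (nat_lit 76) (nat_lit 12744181711) (nat_lit 152) (nat_lit 12905479616) (nat_lit 67) (nat_lit 5) (nat_lit 68) (nat_lit 5) (nat_lit 69) (nat_lit 4) (nat_lit 467) (nat_lit 406) (nat_lit 327)) (XT.lf (nat_lit 0) (nat_lit 28592538147) (nat_lit 76) (nat_lit 1635969974) (nat_lit 152) (nat_lit 3356772835) (nat_lit 67) (nat_lit 5) (nat_lit 68) (nat_lit 5) (nat_lit 69) (nat_lit 4) (nat_lit 468) (nat_lit 406) (nat_lit 326))))) (XT.nd (nat_lit 312) (nat_lit 228) (nat_lit 0) (XT.nd (nat_lit 156) (nat_lit 152) (nat_lit 0) (XT.nd (nat_lit 78) (nat_lit 76) (nat_lit 0) (XT.lf (nat_lit 0) (nat_lit 6863528309) (nat_lit 152) (nat_lit 17747511448) (nat_lit 76) (nat_lit 10065088333) (nat_lit 65) (nat_lit 5) (nat_lit 67) (nat_lit 5) (nat_lit 66) (nat_lit 4) (nat_lit 469) (nat_lit 406) (nat_lit 325)) (XT.lf (nat_lit 0) (nat_lit 4315788768) (nat_lit 76) (nat_lit 13324805717) (nat_lit 152)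 (nat_lit 18170243955) (nat_lit 64) (nat_lit 5) (nat_lit 65) (nat_lit 5) (nat_lit 66) (nat_lit 4) (nat_lit 470) (nat_lit 406) (nat_lit 324))) (XT.nd (nat_lit 78) (nat_lit 152) (nat_lit 0) (XT.lf (nat_lit 0) (nat_lit 28057872024) (nat_lit 76) (nat_lit 1178017636) (nat_lit 152) (nat_lit 7752426140) (nat_lit 64) (nat_lit 5) (nat_lit 65) (nat_lit 5) (nat_lit 66) (nat_lit 4) (nat_lit 471) (nat_lit 406) (nat_lit 323)) (XT.lf (nat_lit 0) (nat_lit 3485597316) (nat_lit 152) (nat_lit 23237980125) (nat_lit 76) (nat_lit 11478537713) (nat_lit 62) (nat_lit 5) (nat_lit 64) (nat_lit 5) (nat_lit 63) (nat_lit 4) (nat_lit 472) (nat_lit 406) (nat_lit 322)))) (XT.nd (nat_lit 156) (nat_lit 152) (nat_lit 0) (XT.nd (nat_lit 78) (nat_lit 0) (nat_lit 0) (XT.lf (nat_lit 0) (nat_lit 729547210) (nat_lit 76) (nat_lit 14459440167) (nat_lit 152) (nat_lit 24273063002) (nat_lit 61) (nat_lit 5) (nat_lit 62) (nat_lit 5) (nat_lit 63)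 (nat_lit 4) (nat_lit 473) (nat_lit 406) (nat_lit 321)) (XT.lf (nat_lit 0) (nat_lit 26663488096) (nat_lit 76) (nat_lit 1187548163) (nat_lit 152) (nat_lit 12915271867) (nat_lit 61) (nat_lit 5) (nat_lit 62) (nat_lit 5) (nat_lit 63) (nat_lit 4) (nat_lit 474) (nat_lit 406) (nat_lit 320))) (XT.nd (nat_lit 78) (nat_lit 76) (nat_lit 0) (XT.lf (nat_lit 0) (nat_lit 11902711102) (nat_lit 76) (nat_lit 29608962489) (nat_lit 76) (nat_lit 605831086) (nat_lit 60) (nat_lit 4) (nat_lit 61) (nat_lit 5) (nat_lit 61) (nat_lit 4) (nat_lit 475) (nat_lit 406) (nat_lit 319)) (XT.lf (nat_lit 0) (nat_lit 12167669487) (nat_lit 152) (nat_lit 4079501231) (nat_lit 76) (nat_lit 27267330000) (nat_lit 59) (nat_lit 5) (nat_lit 61) (nat_lit 5) (nat_lit 60) (nat_lit 4) (nat_lit 476) (nat_lit 406) (nat_lit 318)))))) (XT.nd (nat_lit 624) (nat_lit 532) (nat_lit 0) (XT.nd (nat_lit 312) (nat_lit 228) (nat_lit 0) (XT.nd (nat_lit 156) (nat_lit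 152) (nat_lit 0) (XT.nd (nat_lit 78) (nat_lit 76) (nat_lit 0) (XT.lf (nat_lit 0) (nat_lit 24087773575) (nat_lit 76) (nat_lit 1829364356) (nat_lit 152) (nat_lit 19045829598) (nat_lit 58) (nat_lit 5) (nat_lit 59) (nat_lit 5) (nat_lit 60) (nat_lit 4) (nat_lit 477) (nat_lit 406) (nat_lit 317)) (XT.lf (nat_lit 0) (nat_lit 7313933247) (nat_lit 76) (nat_lit 33413989319) (nat_lit 76) (nat_lit 5737243154) (nat_lit 57) (nat_lit 4) (nat_lit 58) (nat_lit 5) (nat_lit 58) (nat_lit 4) (nat_lit 478) (nat_lit 406) (nat_lit 316))) (XT.nd (nat_lit 78) (nat_lit 76) (nat_lit 0) (XT.lf (nat_lit 0) (nat_lit 8344123620) (nat_lit 152) (nat_lit 10587822710) (nat_lit 76) (nat_lit 29085548739) (nat_lit 56) (nat_lit 5) (nat_lit 58) (nat_lit 5) (nat_lit 57) (nat_lit 4) (nat_lit 479) (nat_lit 406) (nat_lit 315)) (XT.lf (nat_lit 0) (nat_lit 19912851811) (nat_lit 76) (nat_lit 3317329051) (nat_lit 152) (nat_lit 26397885963) (nat_lit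 55) (nat_lit 5) (nat_lit 56) (nat_lit 5) (nat_lit 57) (nat_lit 4) (nat_lit 480) (nat_lit 406) (nat_lit 314)))) (XT.nd (nat_lit 156) (nat_lit 76) (nat_lit 0) (XT.nd (nat_lit 78) (nat_lit 76) (nat_lit 0) (XT.lf (nat_lit 0) (nat_lit 779532024) (nat_lit 76) (nat_lit 38462198443) (nat_lit 76) (nat_lit 12058377373) (nat_lit 54) (nat_lit 4) (nat_lit 55) (nat_lit 5) (nat_lit 55) (nat_lit 4) (nat_lit 481) (nat_lit 406) (nat_lit 313)) (XT.lf (nat_lit 0) (nat_lit 3450629958) (nat_lit 152) (nat_lit 19343628900) (nat_lit 76) (nat_lit 30231727667) (nat_lit 53) (nat_lit 5) (nat_lit 55) (nat_lit 5) (nat_lit 54) (nat_lit 4) (nat_lit 482) (nat_lit 406) (nat_lit 312))) (XT.nd (nat_lit 78) (nat_lit 0) (nat_lit 0) (XT.lf (nat_lit 0) (nat_lit 13597048462) (nat_lit 76) (nat_lit 5928522483) (nat_lit 152) (nat_lit 35292918218) (nat_lit 52) (nat_lit 5) (nat_lit 53) (nat_lit 5) (nat_lit 54) (nat_lit 4) (nat_lit 483) (nat_lit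 406) (nat_lit 311)) (XT.lf (nat_lit 0) (nat_lit 36904625992) (nat_lit 152) (nat_lit 8049877093) (nat_lit 0) (nat_lit 11721095618) (nat_lit 52) (nat_lit 5) (nat_lit 54) (nat_lit 4) (nat_lit 52) (nat_lit 4) (nat_lit 484) (nat_lit 406) (nat_lit 310))))) (XT.nd (nat_lit 312) (nat_lit 228) (nat_lit 0) (XT.nd (nat_lit 156) (nat_lit 76) (nat_lit 0) (XT.nd (nat_lit 78) (nat_lit 152) (nat_lit 0) (XT.lf (nat_lit 0) (nat_lit 27533196087) (nat_lit 76) (nat_lit 28130760068) (nat_lit 76) (nat_lit 2936041562) (nat_lit 51) (nat_lit 4) (nat_lit 52) (nat_lit 5) (nat_lit 52) (nat_lit 4) (nat_lit 485) (nat_lit 406) (nat_lit 309)) (XT.lf (nat_lit 0) (nat_lit 4439684370) (nat_lit 76) (nat_lit 10021319649) (nat_lit 152) (nat_lit 46138497620) (nat_lit 49) (nat_lit 5) (nat_lit 50) (nat_lit 5) (nat_lit 51) (nat_lit 4) (nat_lit 486) (nat_lit 406) (nat_lit 308))) (XT.nd (nat_lit 78) (nat_lit 76) (nat_lit 0) (XT.lf (nat_lit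 0) (nat_lit 33288717448) (nat_lit 152) (nat_lit 20100947779) (nat_lit 0) (nat_lit 9273934747) (nat_lit 49) (nat_lit 5) (nat_lit 51) (nat_lit 4) (nat_lit 49) (nat_lit 4) (nat_lit 487) (nat_lit 406) (nat_lit 307)) (XT.lf (nat_lit 0) (nat_lit 18147741027) (nat_lit 76) (nat_lit 35342757696) (nat_lit 76) (nat_lit 11318770490) (nat_lit 48) (nat_lit 4) (nat_lit 49) (nat_lit 5) (nat_lit 49) (nat_lit 4) (nat_lit 488) (nat_lit 406) (nat_lit 306)))) (XT.nd (nat_lit 156) (nat_lit 76) (nat_lit 0) (XT.nd (nat_lit 78) (nat_lit 76) (nat_lit 0) (XT.lf (nat_lit 0) (nat_lit 7726690437) (nat_lit 152) (nat_lit 8193038003) (nat_lit 76) (nat_lit 51119975569) (nat_lit 47) (nat_lit 5) (nat_lit 49) (nat_lit 5) (nat_lit 48) (nat_lit 4) (nat_lit 489) (nat_lit 406) (nat_lit 305)) (XT.lf (nat_lit 0) (nat_lit 27926851859) (nat_lit 152) (nat_lit 36385826376) (nat_lit 0) (nat_lit 5030564091) (nat_lit 46) (nat_lit 5) (nat_lit 48)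 (nat_lit 4) (nat_lit 46) (nat_lit 4) (nat_lit 490) (nat_lit 406) (nat_lit 304))) (XT.nd (nat_lit 78) (nat_lit 0) (nat_lit 0) (XT.lf (nat_lit 0) (nat_lit 4548846002) (nat_lit 76) (nat_lit 45047014995) (nat_lit 76) (nat_lit 22143154659) (nat_lit 45) (nat_lit 4) (nat_lit 46) (nat_lit 5) (nat_lit 46) (nat_lit 4) (nat_lit 491) (nat_lit 406) (nat_lit 303)) (XT.lf (nat_lit 0) (nat_lit 48765634156) (nat_lit 76) (nat_lit 24184951316) (nat_lit 76) (nat_lit 1273879010) (nat_lit 45) (nat_lit 4) (nat_lit 46) (nat_lit 5) (nat_lit 46) (nat_lit 4) (nat_lit 492) (nat_lit 406) (nat_lit 302)))))))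
noncomputable def xc217 : XT := (XT.nd (nat_lit 1248) (nat_lit 912) (nat_lit 0) (XT.nd (nat_lit 624) (nat_lit 456) (nat_lit 0) (XT.nd (nat_lit 312) (nat_lit 304) (nat_lit 0) (XT.nd (nat_lit 156) (nat_lit 152) (nat_lit 0) (XT.nd (nat_lit 78) (nat_lit 0) (nat_lit 0) (XT.lf (nat_lit 0) (nat_lit 18605361519) (nat_lit 76) (nat_lit 1649907928) (nat_lit 152) (nat_lit 56548955774) (nat_lit 43) (nat_lit 5) (nat_lit 44) (nat_lit 5) (nat_lit 45) (nat_lit 4) (nat_lit 493) (nat_lit 406) (nat_lit 301)) (XT.lf (nat_lit 0) (nat_lit 43586478740) (nat_lit 152) (nat_lit 14133392016) (nat_lit 0) (nat_lit 21753638437) (nat_lit 43) (nat_lit 5) (nat_lit 45) (nat_lit 4) (nat_lit 43) (nat_lit 4) (nat_lit 494) (nat_lit 406) (nat_lit 300))) (XT.nd (nat_lit 78) (nat_lit 76) (nat_lit 0) (XT.lf (nat_lit 0) (nat_lit 33143393263) (nat_lit 76) (nat_lit 35472527088) (nat_lit 76) (nat_lit 13633753480) (nat_lit 42) (nat_lit 4) (nat_lit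 43) (nat_lit 5) (nat_lit 43) (nat_lit 4) (nat_lit 495) (nat_lit 406) (nat_lit 299)) (XT.lf (nat_lit 0) (nat_lit 9651148634) (nat_lit 152) (nat_lit 2059569673) (nat_lit 76) (nat_lit 73434808512) (nat_lit 41) (nat_lit 5) (nat_lit 43) (nat_lit 5) (nat_lit 42) (nat_lit 4) (nat_lit 496) (nat_lit 406) (nat_lit 298)))) (XT.nd (nat_lit 156) (nat_lit 152) (nat_lit 0) (XT.nd (nat_lit 78) (nat_lit 76) (nat_lit 0) (XT.lf (nat_lit 0) (nat_lit 34612060074) (nat_lit 152) (nat_lit 39711718868) (nat_lit 0) (nat_lit 13802720972) (nat_lit 40) (nat_lit 5) (nat_lit 42) (nat_lit 4) (nat_lit 40) (nat_lit 4) (nat_lit 497) (nat_lit 406) (nat_lit 297)) (XT.lf (nat_lit 0) (nat_lit 10343573741) (nat_lit 76) (nat_lit 50854166140) (nat_lit 76) (nat_lit 30039945692) (nat_lit 39) (nat_lit 4) (nat_lit 40) (nat_lit 5) (nat_lit 40) (nat_lit 4) (nat_lit 498) (nat_lit 406) (nat_lit 296))) (XT.nd (nat_lit 78) (nat_lit 152) (nat_lit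 0) (XT.lf (nat_lit 0) (nat_lit 64256217841) (nat_lit 76) (nat_lit 25517027494) (nat_lit 76) (nat_lit 4698158146) (nat_lit 39) (nat_lit 4) (nat_lit 40) (nat_lit 5) (nat_lit 40) (nat_lit 4) (nat_lit 499) (nat_lit 406) (nat_lit 295)) (XT.lf (nat_lit 0) (nat_lit 21591243131) (nat_lit 152) (nat_lit 74479837776) (nat_lit 0) (nat_lit 1759531825) (nat_lit 37) (nat_lit 5) (nat_lit 39) (nat_lit 4) (nat_lit 37) (nat_lit 4) (nat_lit 500) (nat_lit 406) (nat_lit 294))))) (XT.nd (nat_lit 312) (nat_lit 228) (nat_lit 0) (XT.nd (nat_lit 156) (nat_lit 152) (nat_lit 0) (XT.nd (nat_lit 78) (nat_lit 76) (nat_lit 0) (XT.lf (nat_lit 0) (nat_lit 49964037139) (nat_lit 152) (nat_lit 21215243881) (nat_lit 0) (nat_lit 30128309938) (nat_lit 37) (nat_lit 5) (nat_lit 39) (nat_lit 4) (nat_lit 37) (nat_lit 4) (nat_lit 501) (nat_lit 406) (nat_lit 293)) (XT.lf (nat_lit 0) (nat_lit 35837347299) (nat_lit 76) (nat_lit 44466599451) (nat_lit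 76) (nat_lit 24627047588) (nat_lit 36) (nat_lit 4) (nat_lit 37) (nat_lit 5) (nat_lit 37) (nat_lit 4) (nat_lit 502) (nat_lit 406) (nat_lit 292))) (XT.nd (nat_lit 78) (nat_lit 76) (nat_lit 0) (XT.lf (nat_lit 0) (nat_lit 3669794466) (nat_lit 152) (nat_lit 12320115742) (nat_lit 76) (nat_lit 92725276754) (nat_lit 35) (nat_lit 5) (nat_lit 37) (nat_lit 5) (nat_lit 36) (nat_lit 4) (nat_lit 503) (nat_lit 406) (nat_lit 291)) (XT.lf (nat_lit 0) (nat_lit 33535284138) (nat_lit 152) (nat_lit 64450347341) (nat_lit 0) (nat_lit 14633699874) (nat_lit 34) (nat_lit 5) (nat_lit 36) (nat_lit 4) (nat_lit 34) (nat_lit 4) (nat_lit 504) (nat_lit 406) (nat_lit 290)))) (XT.nd (nat_lit 156) (nat_lit 152) (nat_lit 0) (XT.nd (nat_lit 78) (nat_lit 76) (nat_lit 0) (XT.lf (nat_lit 0) (nat_lit 65357742626) (nat_lit 152) (nat_lit 4884743854) (nat_lit 0) (nat_lit 46453011802) (nat_lit 34) (nat_lit 5) (nat_lit 36) (nat_lit 4) (nat_lit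 34) (nat_lit 4) (nat_lit 505) (nat_lit 406) (nat_lit 289)) (XT.lf (nat_lit 0) (nat_lit 59544744960) (nat_lit 76) (nat_lit 40146236647) (nat_lit 76) (nat_lit 21238509101) (nat_lit 33) (nat_lit 4) (nat_lit 34) (nat_lit 5) (nat_lit 34) (nat_lit 4) (nat_lit 506) (nat_lit 406) (nat_lit 288))) (XT.nd (nat_lit 78) (nat_lit 0) (nat_lit 0) (XT.lf (nat_lit 0) (nat_lit 1870726796) (nat_lit 76) (nat_lit 8266496795) (nat_lit 152) (nat_lit 115224702765) (nat_lit 31) (nat_lit 5) (nat_lit 32) (nat_lit 5) (nat_lit 33) (nat_lit 4) (nat_lit 507) (nat_lit 406) (nat_lit 287)) (XT.lf (nat_lit 0) (nat_lit 43808178834) (nat_lit 152) (nat_lit 60322874442) (nat_lit 0) (nat_lit 25795512469) (nat_lit 31) (nat_lit 5) (nat_lit 33) (nat_lit 4) (nat_lit 31) (nat_lit 4) (nat_lit 508) (nat_lit 406) (nat_lit 286)))))) (XT.nd (nat_lit 624) (nat_lit 456) (nat_lit 0) (XT.nd (nat_lit 312) (nat_lit 228) (nat_lit 0) (XT.nd (nat_lit 156)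 (nat_lit 152) (nat_lit 0) (XT.nd (nat_lit 78) (nat_lit 0) (nat_lit 0) (XT.lf (nat_lit 0) (nat_lit 6042498451) (nat_lit 76) (nat_lit 73340526645) (nat_lit 76) (nat_lit 55325394869) (nat_lit 30) (nat_lit 4) (nat_lit 31) (nat_lit 5) (nat_lit 31) (nat_lit 4) (nat_lit 509) (nat_lit 406) (nat_lit 285)) (XT.lf (nat_lit 0) (nat_lit 77801474632) (nat_lit 76) (nat_lit 39947380013) (nat_lit 76) (nat_lit 21929900227) (nat_lit 30) (nat_lit 4) (nat_lit 31) (nat_lit 5) (nat_lit 31) (nat_lit 4) (nat_lit 510) (nat_lit 406) (nat_lit 284))) (XT.nd (nat_lit 78) (nat_lit 0) (nat_lit 0) (XT.lf (nat_lit 0) (nat_lit 8292797534) (nat_lit 76) (nat_lit 4542574914) (nat_lit 152) (nat_lit 132045959244) (nat_lit 28) (nat_lit 5) (nat_lit 29) (nat_lit 5) (nat_lit 30) (nat_lit 4) (nat_lit 511) (nat_lit 406) (nat_lit 283)) (XT.lf (nat_lit 0) (nat_lit 50167455675) (nat_lit 152) (nat_lit 67076536502) (nat_lit 0) (nat_lit 33003793102)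 (nat_lit 28) (nat_lit 5) (nat_lit 30) (nat_lit 4) (nat_lit 28) (nat_lit 4) (nat_lit 512) (nat_lit 406) (nat_lit 282)))) (XT.nd (nat_lit 156) (nat_lit 152) (nat_lit 0) (XT.nd (nat_lit 78) (nat_lit 0) (nat_lit 0) (XT.lf (nat_lit 0) (nat_lit 6011528621) (nat_lit 76) (nat_lit 83514320952) (nat_lit 76) (nat_lit 66348726666) (nat_lit 27) (nat_lit 4) (nat_lit 28) (nat_lit 5) (nat_lit 28) (nat_lit 4) (nat_lit 513) (nat_lit 406) (nat_lit 281)) (XT.lf (nat_lit 0) (nat_lit 85065554232) (nat_lit 76) (nat_lit 46914105851) (nat_lit 76) (nat_lit 29746671837) (nat_lit 27) (nat_lit 4) (nat_lit 28) (nat_lit 5) (nat_lit 28) (nat_lit 4) (nat_lit 514) (nat_lit 406) (nat_lit 280))) (XT.nd (nat_lit 78) (nat_lit 0) (nat_lit 0) (XT.lf (nat_lit 0) (nat_lit 50991542) (nat_lit 76) (nat_lit 8349095129) (nat_lit 152) (nat_lit 159464178955) (nat_lit 25) (nat_lit 5) (nat_lit 26) (nat_lit 5) (nat_lit 27) (nat_lit 4) (nat_lit 515)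 (nat_lit 406) (nat_lit 279)) (XT.lf (nat_lit 0) (nat_lit 49267731231) (nat_lit 152) (nat_lit 92011784556) (nat_lit 0) (nat_lit 32914536162) (nat_lit 25) (nat_lit 5) (nat_lit 27) (nat_lit 4) (nat_lit 25) (nat_lit 4) (nat_lit 516) (nat_lit 406) (nat_lit 278))))) (XT.nd (nat_lit 312) (nat_lit 228) (nat_lit 0) (XT.nd (nat_lit 156) (nat_lit 152) (nat_lit 0) (XT.nd (nat_lit 78) (nat_lit 76) (nat_lit 0) (XT.lf (nat_lit 0) (nat_lit 92307818981) (nat_lit 152) (nat_lit 12572945211) (nat_lit 0) (nat_lit 75953110363) (nat_lit 25) (nat_lit 5) (nat_lit 27) (nat_lit 4) (nat_lit 25) (nat_lit 4) (nat_lit 517) (nat_lit 406) (nat_lit 277)) (XT.lf (nat_lit 0) (nat_lit 73164456339) (nat_lit 76) (nat_lit 65470319414) (nat_lit 76) (nat_lit 49114169322) (nat_lit 24) (nat_lit 4) (nat_lit 25) (nat_lit 5) (nat_lit 25) (nat_lit 4) (nat_lit 518) (nat_lit 406) (nat_lit 276))) (XT.nd (nat_lit 78) (nat_lit 152) (nat_lit 0) (XT.lf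 (nat_lit 0) (nat_lit 163610376488) (nat_lit 76) (nat_lit 23873317447) (nat_lit 76) (nat_lit 7515794522) (nat_lit 24) (nat_lit 4) (nat_lit 25) (nat_lit 5) (nat_lit 25) (nat_lit 4) (nat_lit 519) (nat_lit 406) (nat_lit 275)) (XT.lf (nat_lit 0) (nat_lit 36224306857) (nat_lit 152) (nat_lit 145654592189) (nat_lit 0) (nat_lit 20644468394) (nat_lit 22) (nat_lit 5) (nat_lit 24) (nat_lit 4) (nat_lit 22) (nat_lit 4) (nat_lit 520) (nat_lit 406) (nat_lit 274)))) (XT.nd (nat_lit 156) (nat_lit 152) (nat_lit 0) (XT.nd (nat_lit 78) (nat_lit 76) (nat_lit 0) (XT.lf (nat_lit 0) (nat_lit 82823426439) (nat_lit 152) (nat_lit 60305221730) (nat_lit 0) (nat_lit 67242402072) (nat_lit 22) (nat_lit 5) (nat_lit 24) (nat_lit 4) (nat_lit 22) (nat_lit 4) (nat_lit 521) (nat_lit 406) (nat_lit 273)) (XT.lf (nat_lit 0) (nat_lit 30266637155) (nat_lit 76) (nat_lit 101951671748) (nat_lit 76) (nat_lit 86369517947) (nat_lit 21) (nat_lit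 4) (nat_lit 22) (nat_lit 5) (nat_lit 22) (nat_lit 4) (nat_lit 522) (nat_lit 406) (nat_lit 272))) (XT.nd (nat_lit 78) (nat_lit 152) (nat_lit 0) (XT.lf (nat_lit 0) (nat_lit 127447269601) (nat_lit 76) (nat_lit 57650334363) (nat_lit 76) (nat_lit 42067104912) (nat_lit 21) (nat_lit 4) (nat_lit 22) (nat_lit 5) (nat_lit 22) (nat_lit 4) (nat_lit 523) (nat_lit 406) (nat_lit 271)) (XT.nd (nat_lit 78) (nat_lit 76) (nat_lit 0) (XT.lf (nat_lit 0) (nat_lit 4301569803) (nat_lit 152) (nat_lit 6766035782) (nat_lit 76) (nat_lit 225099676118) (nat_lit 20) (nat_lit 5) (nat_lit 22) (nat_lit 5) (nat_lit 21) (nat_lit 4) (nat_lit 524) (nat_lit 406) (nat_lit 270)) (XT.lf (nat_lit 0) (nat_lit 53648452931) (nat_lit 152) (nat_lit 153027996562) (nat_lit 0) (nat_lit 38805377191) (nat_lit 19) (nat_lit 5) (nat_lit 21) (nat_lit 4) (nat_lit 19) (nat_lit 4) (nat_lit 525) (nat_lit 406) (nat_lit 269))))))))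
noncomputable def xc218 : XT := (XT.nd (nat_lit 1248) (nat_lit 380) (nat_lit 0) (XT.nd (nat_lit 624) (nat_lit 228) (nat_lit 0) (XT.nd (nat_lit 312) (nat_lit 228) (nat_lit 0) (XT.nd (nat_lit 156) (nat_lit 0) (nat_lit 0) (XT.nd (nat_lit 78) (nat_lit 76) (nat_lit 0) (XT.lf (nat_lit 0) (nat_lit 105754472108) (nat_lit 152) (nat_lit 58582525794) (nat_lit 0) (nat_lit 90910511428) (nat_lit 19) (nat_lit 5) (nat_lit 21) (nat_lit 4) (nat_lit 19) (nat_lit 4) (nat_lit 526) (nat_lit 406) (nat_lit 268)) (XT.lf (nat_lit 0) (nat_lit 41914917272) (nat_lit 76) (nat_lit 119199466377) (nat_lit 76) (nat_lit 104354662897) (nat_lit 18) (nat_lit 4) (nat_lit 19) (nat_lit 5) (nat_lit 19) (nat_lit 4) (nat_lit 527) (nat_lit 406) (nat_lit 267))) (XT.nd (nat_lit 78) (nat_lit 0) (nat_lit 0) (XT.lf (nat_lit 0) (nat_lit 149459436122) (nat_lit 76) (nat_lit 70769255311) (nat_lit 76) (nat_lit 55923649163) (nat_lit 18) (nat_lit 4)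 (nat_lit 19) (nat_lit 5) (nat_lit 19) (nat_lit 4) (nat_lit 528) (nat_lit 406) (nat_lit 266)) (XT.lf (nat_lit 0) (nat_lit 262370086266) (nat_lit 76) (nat_lit 19923178099) (nat_lit 76) (nat_lit 5076807506) (nat_lit 18) (nat_lit 4) (nat_lit 19) (nat_lit 5) (nat_lit 19) (nat_lit 4) (nat_lit 529) (nat_lit 406) (nat_lit 265)))) (XT.nd (nat_lit 156) (nat_lit 76) (nat_lit 0) (XT.nd (nat_lit 78) (nat_lit 0) (nat_lit 0) (XT.lf (nat_lit 0) (nat_lit 48623642923) (nat_lit 152) (nat_lit 215910905006) (nat_lit 0) (nat_lit 34483548985) (nat_lit 16) (nat_lit 5) (nat_lit 18) (nat_lit 4) (nat_lit 16) (nat_lit 4) (nat_lit 530) (nat_lit 406) (nat_lit 264)) (XT.lf (nat_lit 0) (nat_lit 105590165418) (nat_lit 152) (nat_lit 114167202180) (nat_lit 0) (nat_lit 91449411123) (nat_lit 16) (nat_lit 5) (nat_lit 18) (nat_lit 4) (nat_lit 16) (nat_lit 4) (nat_lit 531) (nat_lit 406) (nat_lit 263))) (XT.nd (nat_lit 78) (nat_lit 76)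 (nat_lit 0) (XT.lf (nat_lit 0) (nat_lit 165399991624) (nat_lit 152) (nat_lit 7346545702) (nat_lit 0) (nat_lit 151258608419) (nat_lit 16) (nat_lit 5) (nat_lit 18) (nat_lit 4) (nat_lit 16) (nat_lit 4) (nat_lit 532) (nat_lit 406) (nat_lit 262)) (XT.lf (nat_lit 0) (nat_lit 108270739140) (nat_lit 76) (nat_lit 121615196416) (nat_lit 76) (nat_lit 107473214249) (nat_lit 15) (nat_lit 4) (nat_lit 16) (nat_lit 5) (nat_lit 16) (nat_lit 4) (nat_lit 533) (nat_lit 406) (nat_lit 261))))) (XT.nd (nat_lit 312) (nat_lit 76) (nat_lit 0) (XT.nd (nat_lit 156) (nat_lit 76) (nat_lit 0) (XT.nd (nat_lit 78) (nat_lit 76) (nat_lit 0) (XT.lf (nat_lit 0) (nat_lit 229914356593) (nat_lit 76) (nat_lit 67801532241) (nat_lit 76) (nat_lit 53658979633) (nat_lit 15) (nat_lit 4) (nat_lit 16) (nat_lit 5) (nat_lit 16) (nat_lit 4) (nat_lit 534) (nat_lit 406) (nat_lit 260)) (XT.lf (nat_lit 0) (nat_lit 2750323436) (nat_lit 152) (nat_lit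 8504932840) (nat_lit 76) (nat_lit 354834122844) (nat_lit 14) (nat_lit 5) (nat_lit 16) (nat_lit 5) (nat_lit 15) (nat_lit 4) (nat_lit 535) (nat_lit 406) (nat_lit 259))) (XT.nd (nat_lit 78) (nat_lit 0) (nat_lit 0) (XT.lf (nat_lit 0) (nat_lit 62728399462) (nat_lit 152) (nat_lit 269381361444) (nat_lit 0) (nat_lit 49258291565) (nat_lit 13) (nat_lit 5) (nat_lit 15) (nat_lit 4) (nat_lit 13) (nat_lit 4) (nat_lit 536) (nat_lit 406) (nat_lit 258)) (XT.lf (nat_lit 0) (nat_lit 126031952004) (nat_lit 152) (nat_lit 158801004050) (nat_lit 0) (nat_lit 112561374805) (nat_lit 13) (nat_lit 5) (nat_lit 15) (nat_lit 4) (nat_lit 13) (nat_lit 4) (nat_lit 537) (nat_lit 406) (nat_lit 257)))) (XT.nd (nat_lit 156) (nat_lit 0) (nat_lit 0) (XT.nd (nat_lit 78) (nat_lit 76) (nat_lit 0) (XT.lf (nat_lit 0) (nat_lit 192496552584) (nat_lit 152) (nat_lit 42700048635) (nat_lit 0) (nat_lit 179025528430) (nat_lit 13) (nat_lit 5) (nat_lit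 15) (nat_lit 4) (nat_lit 13) (nat_lit 4) (nat_lit 538) (nat_lit 406) (nat_lit 256)) (XT.lf (nat_lit 0) (nat_lit 81816577066) (nat_lit 76) (nat_lit 181741259245) (nat_lit 76) (nat_lit 168269809419) (nat_lit 12) (nat_lit 4) (nat_lit 13) (nat_lit 5) (nat_lit 13) (nat_lit 4) (nat_lit 539) (nat_lit 406) (nat_lit 255))) (XT.nd (nat_lit 78) (nat_lit 0) (nat_lit 0) (XT.lf (nat_lit 0) (nat_lit 214033593756) (nat_lit 76) (nat_lit 124857867615) (nat_lit 76) (nat_lit 111386012388) (nat_lit 12) (nat_lit 4) (nat_lit 13) (nat_lit 5) (nat_lit 13) (nat_lit 4) (nat_lit 540) (nat_lit 406) (nat_lit 254)) (XT.lf (nat_lit 0) (nat_lit 352853947408) (nat_lit 76) (nat_lit 65134135671) (nat_lit 76) (nat_lit 51661894347) (nat_lit 12) (nat_lit 4) (nat_lit 13) (nat_lit 5) (nat_lit 13) (nat_lit 4) (nat_lit 541) (nat_lit 406) (nat_lit 253)))))) (XT.nd (nat_lit 624) (nat_lit 152) (nat_lit 0) (XT.nd (nat_lit 312) (nat_lit 76)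 (nat_lit 0) (XT.nd (nat_lit 156) (nat_lit 0) (nat_lit 0) (XT.nd (nat_lit 78) (nat_lit 0) (nat_lit 0) (XT.lf (nat_lit 0) (nat_lit 8723652886) (nat_lit 76) (nat_lit 2103791953) (nat_lit 152) (nat_lit 479148404893) (nat_lit 10) (nat_lit 5) (nat_lit 11) (nat_lit 5) (nat_lit 12) (nat_lit 4) (nat_lit 542) (nat_lit 406) (nat_lit 252)) (XT.lf (nat_lit 0) (nat_lit 77712368741) (nat_lit 152) (nat_lit 368531957300) (nat_lit 0) (nat_lit 64880978992) (nat_lit 10) (nat_lit 5) (nat_lit 12) (nat_lit 4) (nat_lit 10) (nat_lit 4) (nat_lit 543) (nat_lit 406) (nat_lit 251))) (XT.nd (nat_lit 78) (nat_lit 0) (nat_lit 0) (XT.lf (nat_lit 0) (nat_lit 147972631486) (nat_lit 152) (nat_lit 250217122888) (nat_lit 0) (nat_lit 135140924095) (nat_lit 10) (nat_lit 5) (nat_lit 12) (nat_lit 4) (nat_lit 10) (nat_lit 4) (nat_lit 544) (nat_lit 406) (nat_lit 250)) (XT.lf (nat_lit 0) (nat_lit 221742673327) (nat_lit 152) (nat_lit 125993145537)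 (nat_lit 0) (nat_lit 208910663419) (nat_lit 10) (nat_lit 5) (nat_lit 12) (nat_lit 4) (nat_lit 10) (nat_lit 4) (nat_lit 545) (nat_lit 406) (nat_lit 249)))) (XT.nd (nat_lit 156) (nat_lit 0) (nat_lit 0) (XT.nd (nat_lit 78) (nat_lit 0) (nat_lit 0) (XT.lf (nat_lit 0) (nat_lit 4582411926) (nat_lit 76) (nat_lit 294687269586) (nat_lit 76) (nat_lit 281854971567) (nat_lit 9) (nat_lit 4) (nat_lit 10) (nat_lit 5) (nat_lit 10) (nat_lit 4) (nat_lit 546) (nat_lit 406) (nat_lit 248)) (XT.lf (nat_lit 0) (nat_lit 146054761588) (nat_lit 76) (nat_lit 236749003495) (nat_lit 76) (nat_lit 223916431084) (nat_lit 9) (nat_lit 4) (nat_lit 10) (nat_lit 5) (nat_lit 10) (nat_lit 4) (nat_lit 547) (nat_lit 406) (nat_lit 247))) (XT.nd (nat_lit 78) (nat_lit 0) (nat_lit 0) (XT.lf (nat_lit 0) (nat_lit 294594839980) (nat_lit 76) (nat_lit 175916827225) (nat_lit 76) (nat_lit 163083993489) (nat_lit 9) (nat_lit 4) (nat_lit 10) (nat_lit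 5) (nat_lit 10) (nat_lit 4) (nat_lit 548) (nat_lit 406) (nat_lit 246)) (XT.lf (nat_lit 0) (nat_lit 450556313957) (nat_lit 76) (nat_lit 112045902261) (nat_lit 76) (nat_lit 99212819643) (nat_lit 9) (nat_lit 4) (nat_lit 10) (nat_lit 5) (nat_lit 10) (nat_lit 4) (nat_lit 549) (nat_lit 406) (nat_lit 245))))) (XT.nd (nat_lit 312) (nat_lit 0) (nat_lit 0) (XT.nd (nat_lit 156) (nat_lit 0) (nat_lit 0) (XT.nd (nat_lit 78) (nat_lit 152) (nat_lit 0) (XT.lf (nat_lit 0) (nat_lit 614310520362) (nat_lit 76) (nat_lit 44984154971) (nat_lit 76) (nat_lit 32150835324) (nat_lit 9) (nat_lit 4) (nat_lit 10) (nat_lit 5) (nat_lit 10) (nat_lit 4) (nat_lit 550) (nat_lit 406) (nat_lit 244)) (XT.lf (nat_lit 0) (nat_lit 38478117111) (nat_lit 152) (nat_lit 657721900355) (nat_lit 0) (nat_lit 26255692930) (nat_lit 7) (nat_lit 5) (nat_lit 9) (nat_lit 4) (nat_lit 7) (nat_lit 4) (nat_lit 551) (nat_lit 406) (nat_lit 243))) (XT.nd (nat_lit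 78) (nat_lit 0) (nat_lit 0) (XT.lf (nat_lit 0) (nat_lit 113620684005) (nat_lit 152) (nat_lit 539868195620) (nat_lit 0) (nat_lit 101398055069) (nat_lit 7) (nat_lit 5) (nat_lit 9) (nat_lit 4) (nat_lit 7) (nat_lit 4) (nat_lit 552) (nat_lit 406) (nat_lit 242)) (XT.lf (nat_lit 0) (nat_lit 192517966983) (nat_lit 152) (nat_lit 416126730797) (nat_lit 0) (nat_lit 180295143042) (nat_lit 7) (nat_lit 5) (nat_lit 9) (nat_lit 4) (nat_lit 7) (nat_lit 4) (nat_lit 553) (nat_lit 406) (nat_lit 241)))) (XT.nd (nat_lit 51012) (nat_lit 0) (nat_lit 14592) (XT.nd (nat_lit 78) (nat_lit 0) (nat_lit 0) (XT.lf (nat_lit 0) (nat_lit 275357816718) (nat_lit 152) (nat_lit 286202883351) (nat_lit 0) (nat_lit 263134807058) (nat_lit 7) (nat_lit 5) (nat_lit 9) (nat_lit 4) (nat_lit 7) (nat_lit 4) (nat_lit 554) (nat_lit 406) (nat_lit 240)) (XT.lf (nat_lit 0) (nat_lit 362337470949) (nat_lit 152) (nat_lit 149787310788) (nat_lit 0) (nat_lit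 350114284413) (nat_lit 7) (nat_lit 5) (nat_lit 9) (nat_lit 4) (nat_lit 7) (nat_lit 4) (nat_lit 555) (nat_lit 406) (nat_lit 239))) (XT.nd (nat_lit 78) (nat_lit 0) (nat_lit 0) (XT.lf (nat_lit 0) (nat_lit 930627847) (nat_lit 532) (nat_lit 1285982595) (nat_lit 532) (nat_lit 1285982595) (nat_lit 199) (nat_lit 3) (nat_lit 206) (nat_lit 3) (nat_lit 206) (nat_lit 5) (nat_lit 407) (nat_lit 407) (nat_lit 386)) (XT.nd (nat_lit 78) (nat_lit 0) (nat_lit 0) (XT.lf (nat_lit 76) (nat_lit 949303363) (nat_lit 0) (nat_lit 2762721391) (nat_lit 532) (nat_lit 3377893946) (nat_lit 200) (nat_lit 5) (nat_lit 199) (nat_lit 3) (nat_lit 206) (nat_lit 5) (nat_lit 408) (nat_lit 407) (nat_lit 385)) (XT.lf (nat_lit 76) (nat_lit 4673797551) (nat_lit 0) (nat_lit 909577160) (nat_lit 532) (nat_lit 1599122977) (nat_lit 200) (nat_lit 5) (nat_lit 199) (nat_lit 3) (nat_lit 206) (nat_lit 5) (nat_lit 409) (nat_lit 407) (nat_lit 384))))))))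
noncomputable def xc219 : XT := (XT.nd (nat_lit 1248) (nat_lit 3268) (nat_lit 0) (XT.nd (nat_lit 624) (nat_lit 2432) (nat_lit 0) (XT.nd (nat_lit 312) (nat_lit 1064) (nat_lit 0) (XT.nd (nat_lit 156) (nat_lit 0) (nat_lit 0) (XT.nd (nat_lit 78) (nat_lit 0) (nat_lit 0) (XT.lf (nat_lit 0) (nat_lit 185463442) (nat_lit 532) (nat_lit 6022776286) (nat_lit 608) (nat_lit 1074993308) (nat_lit 193) (nat_lit 5) (nat_lit 200) (nat_lit 5) (nat_lit 201) (nat_lit 5) (nat_lit 410) (nat_lit 407) (nat_lit 383)) (XT.lf (nat_lit 0) (nat_lit 1956874325) (nat_lit 532) (nat_lit 2191497527) (nat_lit 608) (nat_lit 3241765975) (nat_lit 193) (nat_lit 5) (nat_lit 200) (nat_lit 5) (nat_lit 201) (nat_lit 5) (nat_lit 411) (nat_lit 407) (nat_lit 382))) (XT.nd (nat_lit 78) (nat_lit 0) (nat_lit 76) (XT.lf (nat_lit 76) (nat_lit 1825032031) (nat_lit 0) (nat_lit 1918643791) (nat_lit 608) (nat_lit 3762380780) (nat_lit 194) (nat_lit 5)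 (nat_lit 193) (nat_lit 5) (nat_lit 201) (nat_lit 5) (nat_lit 412) (nat_lit 407) (nat_lit 381)) (XT.lf (nat_lit 0) (nat_lit 5566844069) (nat_lit 532) (nat_lit 1583764944) (nat_lit 608) (nat_lit 479820256) (nat_lit 194) (nat_lit 5) (nat_lit 201) (nat_lit 5) (nat_lit 202) (nat_lit 5) (nat_lit 413) (nat_lit 407) (nat_lit 380)))) (XT.nd (nat_lit 156) (nat_lit 532) (nat_lit 0) (XT.nd (nat_lit 78) (nat_lit 608) (nat_lit 0) (XT.lf (nat_lit 76) (nat_lit 2707745142) (nat_lit 0) (nat_lit 4754493932) (nat_lit 608) (nat_lit 299736922) (nat_lit 195) (nat_lit 5) (nat_lit 194) (nat_lit 5) (nat_lit 202) (nat_lit 5) (nat_lit 414) (nat_lit 407) (nat_lit 379)) (XT.lf (nat_lit 0) (nat_lit 1439151420) (nat_lit 608) (nat_lit 722389407) (nat_lit 684) (nat_lit 5740528909) (nat_lit 186) (nat_lit 5) (nat_lit 194) (nat_lit 5) (nat_lit 195) (nat_lit 5) (nat_lit 415) (nat_lit 407) (nat_lit 378))) (XT.nd (nat_lit 78) (nat_lit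 608) (nat_lit 0) (XT.lf (nat_lit 0) (nat_lit 3239266155) (nat_lit 608) (nat_lit 4179599173) (nat_lit 76) (nat_lit 630847034) (nat_lit 187) (nat_lit 5) (nat_lit 195) (nat_lit 5) (nat_lit 188) (nat_lit 5) (nat_lit 416) (nat_lit 407) (nat_lit 377)) (XT.lf (nat_lit 0) (nat_lit 423119316) (nat_lit 608) (nat_lit 4677765295) (nat_lit 684) (nat_lit 3105284885) (nat_lit 179) (nat_lit 5) (nat_lit 187) (nat_lit 5) (nat_lit 188) (nat_lit 5) (nat_lit 417) (nat_lit 407) (nat_lit 376))))) (XT.nd (nat_lit 312) (nat_lit 912) (nat_lit 0) (XT.nd (nat_lit 156) (nat_lit 760) (nat_lit 0) (XT.nd (nat_lit 78) (nat_lit 760) (nat_lit 0) (XT.lf (nat_lit 0) (nat_lit 5334193753) (nat_lit 608) (nat_lit 1712103050) (nat_lit 684) (nat_lit 1324623972) (nat_lit 179) (nat_lit 5) (nat_lit 187) (nat_lit 5) (nat_lit 188) (nat_lit 5) (nat_lit 418) (nat_lit 407) (nat_lit 375)) (XT.lf (nat_lit 0) (nat_lit 503002426) (nat_lit 760) (nat_lit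 6634520159) (nat_lit 76) (nat_lit 1407198910) (nat_lit 169) (nat_lit 5) (nat_lit 179) (nat_lit 5) (nat_lit 170) (nat_lit 5) (nat_lit 419) (nat_lit 407) (nat_lit 374))) (XT.nd (nat_lit 78) (nat_lit 760) (nat_lit 0) (XT.lf (nat_lit 0) (nat_lit 2383142223) (nat_lit 760) (nat_lit 1634462000) (nat_lit 76) (nat_lit 4708245850) (nat_lit 169) (nat_lit 5) (nat_lit 179) (nat_lit 5) (nat_lit 170) (nat_lit 5) (nat_lit 420) (nat_lit 407) (nat_lit 373)) (XT.lf (nat_lit 0) (nat_lit 3667161525) (nat_lit 760) (nat_lit 676248187) (nat_lit 836) (nat_lit 4573325034) (nat_lit 159) (nat_lit 5) (nat_lit 169) (nat_lit 5) (nat_lit 170) (nat_lit 5) (nat_lit 421) (nat_lit 407) (nat_lit 372)))) (XT.nd (nat_lit 156) (nat_lit 456) (nat_lit 0) (XT.nd (nat_lit 78) (nat_lit 0) (nat_lit 0) (XT.lf (nat_lit 0) (nat_lit 63952250) (nat_lit 456) (nat_lit 6342394244) (nat_lit 532) (nat_lit 2710589793) (nat_lit 153) (nat_lit 5) (nat_lit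 159) (nat_lit 5) (nat_lit 160) (nat_lit 5) (nat_lit 422) (nat_lit 407) (nat_lit 371)) (XT.lf (nat_lit 0) (nat_lit 5746801537) (nat_lit 456) (nat_lit 2858967669) (nat_lit 532) (nat_lit 719716913) (nat_lit 153) (nat_lit 5) (nat_lit 159) (nat_lit 5) (nat_lit 160) (nat_lit 5) (nat_lit 423) (nat_lit 407) (nat_lit 370))) (XT.nd (nat_lit 78) (nat_lit 0) (nat_lit 0) (XT.lf (nat_lit 0) (nat_lit 1309400315) (nat_lit 456) (nat_lit 7407603014) (nat_lit 76) (nat_lit 827266199) (nat_lit 147) (nat_lit 5) (nat_lit 153) (nat_lit 5) (nat_lit 148) (nat_lit 5) (nat_lit 424) (nat_lit 407) (nat_lit 369)) (XT.lf (nat_lit 0) (nat_lit 3461911983) (nat_lit 456) (nat_lit 1636692129) (nat_lit 76) (nat_lit 4672496241) (nat_lit 147) (nat_lit 5) (nat_lit 153) (nat_lit 5) (nat_lit 148) (nat_lit 5) (nat_lit 425) (nat_lit 407) (nat_lit 368)))))) (XT.nd (nat_lit 624) (nat_lit 1520) (nat_lit 0) (XT.nd (nat_lit 312) (nat_lit 684)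 (nat_lit 0) (XT.nd (nat_lit 156) (nat_lit 380) (nat_lit 0) (XT.nd (nat_lit 78) (nat_lit 304) (nat_lit 0) (XT.lf (nat_lit 0) (nat_lit 4502000369) (nat_lit 380) (nat_lit 1230963569) (nat_lit 456) (nat_lit 4275767300) (nat_lit 142) (nat_lit 5) (nat_lit 147) (nat_lit 5) (nat_lit 148) (nat_lit 5) (nat_lit 426) (nat_lit 407) (nat_lit 367)) (XT.lf (nat_lit 0) (nat_lit 657399994) (nat_lit 304) (nat_lit 7485149179) (nat_lit 380) (nat_lit 2114449511) (nat_lit 138) (nat_lit 5) (nat_lit 142) (nat_lit 5) (nat_lit 143) (nat_lit 5) (nat_lit 427) (nat_lit 407) (nat_lit 366))) (XT.nd (nat_lit 78) (nat_lit 304) (nat_lit 0) (XT.lf (nat_lit 0) (nat_lit 208103555) (nat_lit 380) (nat_lit 3283627719) (nat_lit 76) (nat_lit 7022924543) (nat_lit 137) (nat_lit 5) (nat_lit 142) (nat_lit 5) (nat_lit 138) (nat_lit 5) (nat_lit 428) (nat_lit 407) (nat_lit 365)) (XT.lf (nat_lit 0) (nat_lit 2586220402) (nat_lit 380) (nat_lit 7439050800)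 (nat_lit 76) (nat_lit 757670174) (nat_lit 133) (nat_lit 5) (nat_lit 138) (nat_lit 5) (nat_lit 134) (nat_lit 5) (nat_lit 429) (nat_lit 407) (nat_lit 364)))) (XT.nd (nat_lit 156) (nat_lit 380) (nat_lit 0) (XT.nd (nat_lit 78) (nat_lit 304) (nat_lit 0) (XT.lf (nat_lit 0) (nat_lit 5144299162) (nat_lit 380) (nat_lit 768850880) (nat_lit 76) (nat_lit 5148441701) (nat_lit 133) (nat_lit 5) (nat_lit 138) (nat_lit 5) (nat_lit 134) (nat_lit 5) (nat_lit 430) (nat_lit 407) (nat_lit 363)) (XT.lf (nat_lit 0) (nat_lit 6376448100) (nat_lit 304) (nat_lit 1503190950) (nat_lit 380) (nat_lit 3472070894) (nat_lit 129) (nat_lit 5) (nat_lit 133) (nat_lit 5) (nat_lit 134) (nat_lit 5) (nat_lit 431) (nat_lit 407) (nat_lit 362))) (XT.nd (nat_lit 78) (nat_lit 76) (nat_lit 0) (XT.lf (nat_lit 0) (nat_lit 2207918307) (nat_lit 304) (nat_lit 8591393776) (nat_lit 380) (nat_lit 854646687) (nat_lit 125) (nat_lit 5) (nat_lit 129) (nat_lit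 5) (nat_lit 130) (nat_lit 5) (nat_lit 432) (nat_lit 407) (nat_lit 361)) (XT.lf (nat_lit 0) (nat_lit 1894926401) (nat_lit 380) (nat_lit 2164015521) (nat_lit 76) (nat_lit 7907808286) (nat_lit 124) (nat_lit 5) (nat_lit 129) (nat_lit 5) (nat_lit 125) (nat_lit 5) (nat_lit 433) (nat_lit 407) (nat_lit 360))))) (XT.nd (nat_lit 312) (nat_lit 684) (nat_lit 0) (XT.nd (nat_lit 156) (nat_lit 304) (nat_lit 0) (XT.nd (nat_lit 78) (nat_lit 304) (nat_lit 0) (XT.lf (nat_lit 0) (nat_lit 4806726115) (nat_lit 304) (nat_lit 6719150711) (nat_lit 76) (nat_lit 765932989) (nat_lit 121) (nat_lit 5) (nat_lit 125) (nat_lit 5) (nat_lit 122) (nat_lit 5) (nat_lit 434) (nat_lit 407) (nat_lit 359)) (XT.lf (nat_lit 0) (nat_lit 1044021218) (nat_lit 304) (nat_lit 6895106082) (nat_lit 380) (nat_lit 4690247014) (nat_lit 117) (nat_lit 5) (nat_lit 121) (nat_lit 5) (nat_lit 122) (nat_lit 5) (nat_lit 435) (nat_lit 407) (nat_lit 358))) (XT.nd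 (nat_lit 78) (nat_lit 304) (nat_lit 0) (XT.lf (nat_lit 0) (nat_lit 9367369308) (nat_lit 304) (nat_lit 1930683412) (nat_lit 380) (nat_lit 1682271479) (nat_lit 117) (nat_lit 5) (nat_lit 121) (nat_lit 5) (nat_lit 122) (nat_lit 5) (nat_lit 436) (nat_lit 407) (nat_lit 357)) (XT.lf (nat_lit 0) (nat_lit 1514365635) (nat_lit 304) (nat_lit 8568753845) (nat_lit 76) (nat_lit 3260276576) (nat_lit 113) (nat_lit 5) (nat_lit 117) (nat_lit 5) (nat_lit 114) (nat_lit 5) (nat_lit 437) (nat_lit 407) (nat_lit 356)))) (XT.nd (nat_lit 156) (nat_lit 456) (nat_lit 0) (XT.nd (nat_lit 78) (nat_lit 228) (nat_lit 0) (XT.lf (nat_lit 0) (nat_lit 4866488269) (nat_lit 304) (nat_lit 135323003) (nat_lit 76) (nat_lit 8718823917) (nat_lit 113) (nat_lit 5) (nat_lit 117) (nat_lit 5) (nat_lit 114) (nat_lit 5) (nat_lit 438) (nat_lit 407) (nat_lit 355)) (XT.lf (nat_lit 0) (nat_lit 8493476431) (nat_lit 304) (nat_lit 5170462835) (nat_lit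 76) (nat_lit 447435993) (nat_lit 110) (nat_lit 5) (nat_lit 114) (nat_lit 5) (nat_lit 111) (nat_lit 5) (nat_lit 439) (nat_lit 407) (nat_lit 354))) (XT.nd (nat_lit 78) (nat_lit 304) (nat_lit 0) (XT.lf (nat_lit 0) (nat_lit 3939763640) (nat_lit 152) (nat_lit 8468939108) (nat_lit 228) (nat_lit 2107607003) (nat_lit 108) (nat_lit 5) (nat_lit 110) (nat_lit 5) (nat_lit 111) (nat_lit 5) (nat_lit 440) (nat_lit 407) (nat_lit 353)) (XT.nd (nat_lit 78) (nat_lit 228) (nat_lit 0) (XT.lf (nat_lit 0) (nat_lit 1578071500) (nat_lit 228) (nat_lit 1336935271) (nat_lit 76) (nat_lit 12022734658) (nat_lit 107) (nat_lit 5) (nat_lit 110) (nat_lit 5) (nat_lit 108) (nat_lit 5) (nat_lit 441) (nat_lit 407) (nat_lit 352)) (XT.lf (nat_lit 0) (nat_lit 5521873257) (nat_lit 304) (nat_lit 6873947660) (nat_lit 76) (nat_lit 2975464393) (nat_lit 104) (nat_lit 5) (nat_lit 108) (nat_lit 5) (nat_lit 105) (nat_lit 5) (nat_lit 442) (nat_lit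 407) (nat_lit 351))))))))
noncomputable def xc220 : XT := (XT.nd (nat_lit 1248) (nat_lit 1444) (nat_lit 0) (XT.nd (nat_lit 624) (nat_lit 836) (nat_lit 0) (XT.nd (nat_lit 312) (nat_lit 380) (nat_lit 0) (XT.nd (nat_lit 156) (nat_lit 456) (nat_lit 0) (XT.nd (nat_lit 78) (nat_lit 0) (nat_lit 0) (XT.lf (nat_lit 0) (nat_lit 3036854187) (nat_lit 152) (nat_lit 6708040334) (nat_lit 228) (nat_lit 6077511920) (nat_lit 102) (nat_lit 5) (nat_lit 104) (nat_lit 5) (nat_lit 105) (nat_lit 5) (nat_lit 443) (nat_lit 407) (nat_lit 350)) (XT.lf (nat_lit 0) (nat_lit 13626204952) (nat_lit 152) (nat_lit 633945699) (nat_lit 228) (nat_lit 2031880242) (nat_lit 102) (nat_lit 5) (nat_lit 104) (nat_lit 5) (nat_lit 105) (nat_lit 5) (nat_lit 444) (nat_lit 407) (nat_lit 349))) (XT.nd (nat_lit 78) (nat_lit 152) (nat_lit 0) (XT.lf (nat_lit 0) (nat_lit 2329875057) (nat_lit 304) (nat_lit 8739362560) (nat_lit 76) (nat_lit 5704931898)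 (nat_lit 98) (nat_lit 5) (nat_lit 102) (nat_lit 5) (nat_lit 99) (nat_lit 5) (nat_lit 445) (nat_lit 407) (nat_lit 348)) (XT.lf (nat_lit 0) (nat_lit 2051472585) (nat_lit 152) (nat_lit 4844556982) (nat_lit 228) (nat_lit 10379991486) (nat_lit 96) (nat_lit 5) (nat_lit 98) (nat_lit 5) (nat_lit 99) (nat_lit 5) (nat_lit 446) (nat_lit 407) (nat_lit 347)))) (XT.nd (nat_lit 156) (nat_lit 228) (nat_lit 0) (XT.nd (nat_lit 78) (nat_lit 152) (nat_lit 0) (XT.lf (nat_lit 0) (nat_lit 11834059302) (nat_lit 228) (nat_lit 4194191263) (nat_lit 76) (nat_lit 1767537422) (nat_lit 96) (nat_lit 5) (nat_lit 99) (nat_lit 5) (nat_lit 97) (nat_lit 5) (nat_lit 447) (nat_lit 407) (nat_lit 346)) (XT.lf (nat_lit 0) (nat_lit 7495743403) (nat_lit 152) (nat_lit 9688008999) (nat_lit 228) (nat_lit 1149553914) (nat_lit 94) (nat_lit 5) (nat_lit 96) (nat_lit 5) (nat_lit 97) (nat_lit 5) (nat_lit 448) (nat_lit 407) (nat_lit 345))) (XT.nd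 (nat_lit 78) (nat_lit 0) (nat_lit 0) (XT.lf (nat_lit 0) (nat_lit 936891556) (nat_lit 152) (nat_lit 2896740774) (nat_lit 228) (nat_lit 15058255722) (nat_lit 91) (nat_lit 5) (nat_lit 93) (nat_lit 5) (nat_lit 94) (nat_lit 5) (nat_lit 449) (nat_lit 407) (nat_lit 344)) (XT.lf (nat_lit 0) (nat_lit 9248871093) (nat_lit 228) (nat_lit 5933850762) (nat_lit 76) (nat_lit 4283659459) (nat_lit 91) (nat_lit 5) (nat_lit 94) (nat_lit 5) (nat_lit 92) (nat_lit 5) (nat_lit 450) (nat_lit 407) (nat_lit 343))))) (XT.nd (nat_lit 312) (nat_lit 304) (nat_lit 0) (XT.nd (nat_lit 156) (nat_lit 304) (nat_lit 0) (XT.nd (nat_lit 78) (nat_lit 76) (nat_lit 0) (XT.lf (nat_lit 0) (nat_lit 6808303109) (nat_lit 152) (nat_lit 8250706756) (nat_lit 228) (nat_lit 5004383409) (nat_lit 89) (nat_lit 5) (nat_lit 91) (nat_lit 5) (nat_lit 92) (nat_lit 5) (nat_lit 451) (nat_lit 407) (nat_lit 342)) (XT.lf (nat_lit 0) (nat_lit 527029924) (nat_lit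 228) (nat_lit 351264272) (nat_lit 76) (nat_lit 19807963360) (nat_lit 88) (nat_lit 5) (nat_lit 91) (nat_lit 5) (nat_lit 89) (nat_lit 5) (nat_lit 452) (nat_lit 407) (nat_lit 341))) (XT.nd (nat_lit 78) (nat_lit 152) (nat_lit 0) (XT.lf (nat_lit 0) (nat_lit 6461150052) (nat_lit 228) (nat_lit 7939098326) (nat_lit 76) (nat_lit 6921199716) (nat_lit 86) (nat_lit 5) (nat_lit 89) (nat_lit 5) (nat_lit 87) (nat_lit 5) (nat_lit 453) (nat_lit 407) (nat_lit 340)) (XT.lf (nat_lit 0) (nat_lit 5954312017) (nat_lit 152) (nat_lit 6823275173) (nat_lit 228) (nat_lit 9206531192) (nat_lit 84) (nat_lit 5) (nat_lit 86) (nat_lit 5) (nat_lit 87) (nat_lit 5) (nat_lit 454) (nat_lit 407) (nat_lit 339)))) (XT.nd (nat_lit 156) (nat_lit 152) (nat_lit 0) (XT.nd (nat_lit 78) (nat_lit 152) (nat_lit 0) (XT.lf (nat_lit 0) (nat_lit 19536646335) (nat_lit 228) (nat_lit 1923830898) (nat_lit 76) (nat_lit 1213105678) (nat_lit 84) (nat_lit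 5) (nat_lit 87) (nat_lit 5) (nat_lit 85) (nat_lit 4) (nat_lit 455) (nat_lit 407) (nat_lit 338)) (XT.lf (nat_lit 0) (nat_lit 3428268360) (nat_lit 152) (nat_lit 10288243020) (nat_lit 76) (nat_lit 9663698332) (nat_lit 82) (nat_lit 5) (nat_lit 84) (nat_lit 5) (nat_lit 83) (nat_lit 5) (nat_lit 456) (nat_lit 407) (nat_lit 337))) (XT.nd (nat_lit 78) (nat_lit 0) (nat_lit 0) (XT.lf (nat_lit 0) (nat_lit 4861900046) (nat_lit 152) (nat_lit 5437321228) (nat_lit 228) (nat_lit 13816230488) (nat_lit 80) (nat_lit 5) (nat_lit 82) (nat_lit 5) (nat_lit 83) (nat_lit 5) (nat_lit 457) (nat_lit 407) (nat_lit 336)) (XT.lf (nat_lit 0) (nat_lit 17715746112) (nat_lit 228) (nat_lit 3852469649) (nat_lit 76) (nat_lit 3309139542) (nat_lit 80) (nat_lit 5) (nat_lit 83) (nat_lit 5) (nat_lit 81) (nat_lit 4) (nat_lit 458) (nat_lit 407) (nat_lit 335)))))) (XT.nd (nat_lit 624) (nat_lit 684) (nat_lit 0) (XT.nd (nat_lit 312) (nat_lit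 380) (nat_lit 0) (XT.nd (nat_lit 156) (nat_lit 76) (nat_lit 0) (XT.nd (nat_lit 78) (nat_lit 152) (nat_lit 0) (XT.lf (nat_lit 0) (nat_lit 96599412) (nat_lit 152) (nat_lit 13077986079) (nat_lit 76) (nat_lit 12489641164) (nat_lit 78) (nat_lit 5) (nat_lit 80) (nat_lit 5) (nat_lit 79) (nat_lit 5) (nat_lit 459) (nat_lit 407) (nat_lit 334)) (XT.lf (nat_lit 0) (nat_lit 3440460348) (nat_lit 152) (nat_lit 4132035173) (nat_lit 228) (nat_lit 18907303699) (nat_lit 76) (nat_lit 5) (nat_lit 78) (nat_lit 5) (nat_lit 79) (nat_lit 5) (nat_lit 460) (nat_lit 407) (nat_lit 333))) (XT.nd (nat_lit 78) (nat_lit 76) (nat_lit 0) (XT.lf (nat_lit 0) (nat_lit 15706625978) (nat_lit 228) (nat_lit 6218380042) (nat_lit 76) (nat_lit 5396922912) (nat_lit 76) (nat_lit 5) (nat_lit 79) (nat_lit 5) (nat_lit 77) (nat_lit 4) (nat_lit 461) (nat_lit 407) (nat_lit 332)) (XT.lf (nat_lit 0) (nat_lit 11707935264) (nat_lit 76) (nat_lit 12766822308)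 (nat_lit 152) (nat_lit 3720043301) (nat_lit 75) (nat_lit 5) (nat_lit 76) (nat_lit 5) (nat_lit 77) (nat_lit 4) (nat_lit 462) (nat_lit 407) (nat_lit 331)))) (XT.nd (nat_lit 156) (nat_lit 152) (nat_lit 0) (XT.nd (nat_lit 78) (nat_lit 0) (nat_lit 0) (XT.lf (nat_lit 0) (nat_lit 1574978081) (nat_lit 152) (nat_lit 2957200484) (nat_lit 228) (nat_lit 24570147411) (nat_lit 72) (nat_lit 5) (nat_lit 74) (nat_lit 5) (nat_lit 75) (nat_lit 5) (nat_lit 463) (nat_lit 407) (nat_lit 330)) (XT.lf (nat_lit 0) (nat_lit 13447410771) (nat_lit 228) (nat_lit 9152073207) (nat_lit 76) (nat_lit 7433923694) (nat_lit 72) (nat_lit 5) (nat_lit 75) (nat_lit 5) (nat_lit 73) (nat_lit 4) (nat_lit 464) (nat_lit 407) (nat_lit 329))) (XT.nd (nat_lit 78) (nat_lit 76) (nat_lit 0) (XT.lf (nat_lit 0) (nat_lit 10385012376) (nat_lit 76) (nat_lit 12612089575) (nat_lit 152) (nat_lit 8004507024) (nat_lit 71) (nat_lit 5) (nat_lit 72) (nat_lit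 5) (nat_lit 73) (nat_lit 4) (nat_lit 465) (nat_lit 407) (nat_lit 328)) (XT.lf (nat_lit 0) (nat_lit 1109535741) (nat_lit 152) (nat_lit 852950742) (nat_lit 76) (nat_lit 30048164919) (nat_lit 70) (nat_lit 5) (nat_lit 72) (nat_lit 5) (nat_lit 71) (nat_lit 5) (nat_lit 466) (nat_lit 407) (nat_lit 327))))) (XT.nd (nat_lit 312) (nat_lit 304) (nat_lit 0) (XT.nd (nat_lit 156) (nat_lit 152) (nat_lit 0) (XT.nd (nat_lit 78) (nat_lit 76) (nat_lit 0) (XT.lf (nat_lit 0) (nat_lit 10858692780) (nat_lit 228) (nat_lit 12818743091) (nat_lit 76) (nat_lit 9363728541) (nat_lit 68) (nat_lit 5) (nat_lit 71) (nat_lit 5) (nat_lit 69) (nat_lit 4) (nat_lit 467) (nat_lit 407) (nat_lit 326)) (XT.lf (nat_lit 0) (nat_lit 8457902939) (nat_lit 76) (nat_lit 12795606541) (nat_lit 152) (nat_lit 12861783823) (nat_lit 67) (nat_lit 5) (nat_lit 68) (nat_lit 5) (nat_lit 69) (nat_lit 4) (nat_lit 468) (nat_lit 407) (nat_lit 325))) (XT.nd (nat_lit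 78) (nat_lit 152) (nat_lit 0) (XT.lf (nat_lit 0) (nat_lit 31204961778) (nat_lit 76) (nat_lit 1159878705) (nat_lit 152) (nat_lit 2868449787) (nat_lit 67) (nat_lit 5) (nat_lit 68) (nat_lit 5) (nat_lit 69) (nat_lit 4) (nat_lit 469) (nat_lit 407) (nat_lit 324)) (XT.lf (nat_lit 0) (nat_lit 7838869604) (nat_lit 152) (nat_lit 17428076034) (nat_lit 76) (nat_lit 11111372099) (nat_lit 65) (nat_lit 5) (nat_lit 67) (nat_lit 5) (nat_lit 66) (nat_lit 4) (nat_lit 470) (nat_lit 407) (nat_lit 323)))) (XT.nd (nat_lit 156) (nat_lit 228) (nat_lit 0) (XT.nd (nat_lit 78) (nat_lit 0) (nat_lit 0) (XT.lf (nat_lit 0) (nat_lit 5718924499) (nat_lit 76) (nat_lit 13424299303) (nat_lit 152) (nat_lit 18427118471) (nat_lit 64) (nat_lit 5) (nat_lit 65) (nat_lit 5) (nat_lit 66) (nat_lit 4) (nat_lit 471) (nat_lit 407) (nat_lit 322)) (XT.lf (nat_lit 0) (nat_lit 30591571619) (nat_lit 76) (nat_lit 697159756) (nat_lit 152) (nat_lit 7519440131)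 (nat_lit 64) (nat_lit 5) (nat_lit 65) (nat_lit 5) (nat_lit 66) (nat_lit 4) (nat_lit 472) (nat_lit 407) (nat_lit 321))) (XT.nd (nat_lit 78) (nat_lit 76) (nat_lit 0) (XT.lf (nat_lit 0) (nat_lit 4258156750) (nat_lit 152) (nat_lit 23246731033) (nat_lit 76) (nat_lit 12577412146) (nat_lit 62) (nat_lit 5) (nat_lit 64) (nat_lit 5) (nat_lit 63) (nat_lit 4) (nat_lit 473) (nat_lit 407) (nat_lit 320)) (XT.nd (nat_lit 78) (nat_lit 0) (nat_lit 0) (XT.lf (nat_lit 0) (nat_lit 1900573507) (nat_lit 76) (nat_lit 14635366793) (nat_lit 152) (nat_lit 24869830749) (nat_lit 61) (nat_lit 5) (nat_lit 62) (nat_lit 5) (nat_lit 63) (nat_lit 4) (nat_lit 474) (nat_lit 407) (nat_lit 319)) (XT.lf (nat_lit 0) (nat_lit 29077185297) (nat_lit 76) (nat_lit 725929969) (nat_lit 152) (nat_lit 12973525553) (nat_lit 61) (nat_lit 5) (nat_lit 62) (nat_lit 5) (nat_lit 63) (nat_lit 4) (nat_lit 475) (nat_lit 407) (nat_lit 318))))))))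
noncomputable def xc221 : XT := (XT.nd (nat_lit 1248) (nat_lit 1140) (nat_lit 0) (XT.nd (nat_lit 624) (nat_lit 532) (nat_lit 0) (XT.nd (nat_lit 312) (nat_lit 304) (nat_lit 0) (XT.nd (nat_lit 156) (nat_lit 152) (nat_lit 0) (XT.nd (nat_lit 78) (nat_lit 76) (nat_lit 0) (XT.lf (nat_lit 0) (nat_lit 13580470041) (nat_lit 76) (nat_lit 30564319916) (nat_lit 76) (nat_lit 50707269) (nat_lit 60) (nat_lit 4) (nat_lit 61) (nat_lit 5) (nat_lit 61) (nat_lit 4) (nat_lit 476) (nat_lit 407) (nat_lit 317)) (XT.lf (nat_lit 0) (nat_lit 13315746698) (nat_lit 152) (nat_lit 3234556204) (nat_lit 76) (nat_lit 29112932678) (nat_lit 59) (nat_lit 5) (nat_lit 61) (nat_lit 5) (nat_lit 60) (nat_lit 4) (nat_lit 477) (nat_lit 407) (nat_lit 316))) (XT.nd (nat_lit 78) (nat_lit 76) (nat_lit 0) (XT.lf (nat_lit 0) (nat_lit 26324164277) (nat_lit 76) (nat_lit 1418937028) (nat_lit 152) (nat_lit 19441504050) (nat_lit 58) (nat_lit 5) (nat_lit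 59) (nat_lit 5) (nat_lit 60) (nat_lit 4) (nat_lit 478) (nat_lit 407) (nat_lit 315)) (XT.lf (nat_lit 0) (nat_lit 8713360091) (nat_lit 76) (nat_lit 34579424194) (nat_lit 76) (nat_lit 5469211463) (nat_lit 57) (nat_lit 4) (nat_lit 58) (nat_lit 5) (nat_lit 58) (nat_lit 4) (nat_lit 479) (nat_lit 407) (nat_lit 314)))) (XT.nd (nat_lit 156) (nat_lit 152) (nat_lit 0) (XT.nd (nat_lit 78) (nat_lit 76) (nat_lit 0) (XT.lf (nat_lit 0) (nat_lit 9272885782) (nat_lit 152) (nat_lit 10115790044) (nat_lit 76) (nat_lit 31004111683) (nat_lit 56) (nat_lit 5) (nat_lit 58) (nat_lit 5) (nat_lit 57) (nat_lit 4) (nat_lit 480) (nat_lit 407) (nat_lit 313)) (XT.lf (nat_lit 0) (nat_lit 21893766206) (nat_lit 76) (nat_lit 3000502725) (nat_lit 152) (nat_lit 27190067983) (nat_lit 55) (nat_lit 5) (nat_lit 56) (nat_lit 5) (nat_lit 57) (nat_lit 4) (nat_lit 481) (nat_lit 407) (nat_lit 312))) (XT.nd (nat_lit 78) (nat_lit 76) (nat_lit 0)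 (XT.lf (nat_lit 0) (nat_lit 1805202190) (nat_lit 76) (nat_lit 39899843866) (nat_lit 76) (nat_lit 12135001628) (nat_lit 54) (nat_lit 4) (nat_lit 55) (nat_lit 5) (nat_lit 55) (nat_lit 4) (nat_lit 482) (nat_lit 407) (nat_lit 311)) (XT.lf (nat_lit 0) (nat_lit 4108351836) (nat_lit 152) (nat_lit 19355055889) (nat_lit 76) (nat_lit 32189614893) (nat_lit 53) (nat_lit 5) (nat_lit 55) (nat_lit 5) (nat_lit 54) (nat_lit 4) (nat_lit 483) (nat_lit 407) (nat_lit 310))))) (XT.nd (nat_lit 312) (nat_lit 228) (nat_lit 0) (XT.nd (nat_lit 156) (nat_lit 228) (nat_lit 0) (XT.nd (nat_lit 78) (nat_lit 0) (nat_lit 0) (XT.lf (nat_lit 0) (nat_lit 15217239947) (nat_lit 76) (nat_lit 5761376949) (nat_lit 152) (nat_lit 36556954817) (nat_lit 52) (nat_lit 5) (nat_lit 53) (nat_lit 5) (nat_lit 54) (nat_lit 4) (nat_lit 484) (nat_lit 407) (nat_lit 309)) (XT.lf (nat_lit 0) (nat_lit 39210814489) (nat_lit 152) (nat_lit 7540996360) (nat_lit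 0) (nat_lit 12734516561) (nat_lit 52) (nat_lit 5) (nat_lit 54) (nat_lit 4) (nat_lit 52) (nat_lit 4) (nat_lit 485) (nat_lit 407) (nat_lit 308))) (XT.nd (nat_lit 78) (nat_lit 152) (nat_lit 0) (XT.lf (nat_lit 0) (nat_lit 29806530889) (nat_lit 76) (nat_lit 29093629538) (nat_lit 76) (nat_lit 2607183644) (nat_lit 51) (nat_lit 4) (nat_lit 52) (nat_lit 5) (nat_lit 52) (nat_lit 4) (nat_lit 486) (nat_lit 407) (nat_lit 307)) (XT.lf (nat_lit 0) (nat_lit 5558862633) (nat_lit 76) (nat_lit 10077709686) (nat_lit 152) (nat_lit 47970275586) (nat_lit 49) (nat_lit 5) (nat_lit 50) (nat_lit 5) (nat_lit 51) (nat_lit 4) (nat_lit 487) (nat_lit 407) (nat_lit 306)))) (XT.nd (nat_lit 156) (nat_lit 152) (nat_lit 0) (XT.nd (nat_lit 78) (nat_lit 76) (nat_lit 0) (XT.lf (nat_lit 0) (nat_lit 35390734975) (nat_lit 152) (nat_lit 20236585433) (nat_lit 0) (nat_lit 10147577711) (nat_lit 49) (nat_lit 5) (nat_lit 51) (nat_lit 4) (nat_lit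 49) (nat_lit 4) (nat_lit 488) (nat_lit 407) (nat_lit 305)) (XT.lf (nat_lit 0) (nat_lit 19910515076) (nat_lit 76) (nat_lit 36684608003) (nat_lit 76) (nat_lit 11433101983) (nat_lit 48) (nat_lit 4) (nat_lit 49) (nat_lit 5) (nat_lit 49) (nat_lit 4) (nat_lit 489) (nat_lit 407) (nat_lit 304))) (XT.nd (nat_lit 78) (nat_lit 76) (nat_lit 0) (XT.lf (nat_lit 0) (nat_lit 8529360946) (nat_lit 152) (nat_lit 7774267277) (nat_lit 76) (nat_lit 54067241792) (nat_lit 47) (nat_lit 5) (nat_lit 49) (nat_lit 5) (nat_lit 48) (nat_lit 4) (nat_lit 490) (nat_lit 407) (nat_lit 303)) (XT.lf (nat_lit 0) (nat_lit 29738766369) (nat_lit 152) (nat_lit 37375928719) (nat_lit 0) (nat_lit 5674928478) (nat_lit 46) (nat_lit 5) (nat_lit 48) (nat_lit 4) (nat_lit 46) (nat_lit 4) (nat_lit 491) (nat_lit 407) (nat_lit 302)))))) (XT.nd (nat_lit 624) (nat_lit 608) (nat_lit 0) (XT.nd (nat_lit 312) (nat_lit 304) (nat_lit 0) (XT.nd (nat_lit 156)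 (nat_lit 152) (nat_lit 0) (XT.nd (nat_lit 78) (nat_lit 0) (nat_lit 0) (XT.lf (nat_lit 0) (nat_lit 5592103262) (nat_lit 76) (nat_lit 46892070720) (nat_lit 76) (nat_lit 22821364287) (nat_lit 45) (nat_lit 4) (nat_lit 46) (nat_lit 5) (nat_lit 46) (nat_lit 4) (nat_lit 492) (nat_lit 407) (nat_lit 301)) (XT.lf (nat_lit 0) (nat_lit 51980882493) (nat_lit 76) (nat_lit 25006298858) (nat_lit 76) (nat_lit 929050956) (nat_lit 45) (nat_lit 4) (nat_lit 46) (nat_lit 5) (nat_lit 46) (nat_lit 4) (nat_lit 493) (nat_lit 407) (nat_lit 300))) (XT.nd (nat_lit 78) (nat_lit 0) (nat_lit 0) (XT.lf (nat_lit 0) (nat_lit 20312930807) (nat_lit 76) (nat_lit 1343853915) (nat_lit 152) (nat_lit 58968212294) (nat_lit 43) (nat_lit 5) (nat_lit 44) (nat_lit 5) (nat_lit 45) (nat_lit 4) (nat_lit 494) (nat_lit 407) (nat_lit 299)) (XT.lf (nat_lit 0) (nat_lit 46141819960) (nat_lit 152) (nat_lit 14087038443) (nat_lit 0) (nat_lit 23199523599)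 (nat_lit 43) (nat_lit 5) (nat_lit 45) (nat_lit 4) (nat_lit 43) (nat_lit 4) (nat_lit 495) (nat_lit 407) (nat_lit 298)))) (XT.nd (nat_lit 156) (nat_lit 152) (nat_lit 0) (XT.nd (nat_lit 78) (nat_lit 76) (nat_lit 0) (XT.lf (nat_lit 0) (nat_lit 35541440565) (nat_lit 76) (nat_lit 36874954678) (nat_lit 76) (nat_lit 13927276635) (nat_lit 42) (nat_lit 4) (nat_lit 43) (nat_lit 5) (nat_lit 43) (nat_lit 4) (nat_lit 496) (nat_lit 407) (nat_lit 297)) (XT.lf (nat_lit 0) (nat_lit 10491554477) (nat_lit 152) (nat_lit 1445116778) (nat_lit 76) (nat_lit 77448237942) (nat_lit 41) (nat_lit 5) (nat_lit 43) (nat_lit 5) (nat_lit 42) (nat_lit 4) (nat_lit 497) (nat_lit 407) (nat_lit 296))) (XT.nd (nat_lit 78) (nat_lit 76) (nat_lit 0) (XT.lf (nat_lit 0) (nat_lit 36700018963) (nat_lit 152) (nat_lit 40979379435) (nat_lit 0) (nat_lit 14835557247) (nat_lit 40) (nat_lit 5) (nat_lit 42) (nat_lit 4) (nat_lit 40) (nat_lit 4) (nat_lit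 498) (nat_lit 407) (nat_lit 295)) (XT.lf (nat_lit 0) (nat_lit 11567098362) (nat_lit 76) (nat_lit 53041895490) (nat_lit 76) (nat_lit 31173006251) (nat_lit 39) (nat_lit 4) (nat_lit 40) (nat_lit 5) (nat_lit 40) (nat_lit 4) (nat_lit 499) (nat_lit 407) (nat_lit 294))))) (XT.nd (nat_lit 312) (nat_lit 380) (nat_lit 0) (XT.nd (nat_lit 156) (nat_lit 76) (nat_lit 0) (XT.nd (nat_lit 78) (nat_lit 152) (nat_lit 0) (XT.lf (nat_lit 0) (nat_lit 68141739146) (nat_lit 76) (nat_lit 26454803672) (nat_lit 76) (nat_lit 4581697743) (nat_lit 39) (nat_lit 4) (nat_lit 40) (nat_lit 5) (nat_lit 40) (nat_lit 4) (nat_lit 500) (nat_lit 407) (nat_lit 293)) (XT.lf (nat_lit 0) (nat_lit 23010522415) (nat_lit 152) (nat_lit 77519465589) (nat_lit 0) (nat_lit 2175168298) (nat_lit 37) (nat_lit 5) (nat_lit 39) (nat_lit 4) (nat_lit 37) (nat_lit 4) (nat_lit 501) (nat_lit 407) (nat_lit 292))) (XT.nd (nat_lit 78) (nat_lit 76) (nat_lit 0)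 (XT.lf (nat_lit 0) (nat_lit 52785779117) (nat_lit 152) (nat_lit 21624230766) (nat_lit 0) (nat_lit 31946782465) (nat_lit 37) (nat_lit 5) (nat_lit 39) (nat_lit 4) (nat_lit 37) (nat_lit 4) (nat_lit 502) (nat_lit 407) (nat_lit 291)) (XT.lf (nat_lit 0) (nat_lit 38270477469) (nat_lit 76) (nat_lit 46366811977) (nat_lit 76) (nat_lit 25524346244) (nat_lit 36) (nat_lit 4) (nat_lit 37) (nat_lit 5) (nat_lit 37) (nat_lit 4) (nat_lit 503) (nat_lit 407) (nat_lit 290)))) (XT.nd (nat_lit 156) (nat_lit 228) (nat_lit 0) (XT.nd (nat_lit 78) (nat_lit 76) (nat_lit 0) (XT.lf (nat_lit 0) (nat_lit 4161247920) (nat_lit 152) (nat_lit 12315211381) (nat_lit 76) (nat_lit 97659087826) (nat_lit 35) (nat_lit 5) (nat_lit 37) (nat_lit 5) (nat_lit 36) (nat_lit 4) (nat_lit 504) (nat_lit 407) (nat_lit 289)) (XT.lf (nat_lit 0) (nat_lit 35519694590) (nat_lit 152) (nat_lit 67051636127) (nat_lit 0) (nat_lit 15663583945) (nat_lit 34) (nat_lit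 5) (nat_lit 36) (nat_lit 4) (nat_lit 34) (nat_lit 4) (nat_lit 505) (nat_lit 407) (nat_lit 288))) (XT.nd (nat_lit 78) (nat_lit 228) (nat_lit 0) (XT.lf (nat_lit 0) (nat_lit 68918626180) (nat_lit 152) (nat_lit 4537334778) (nat_lit 0) (nat_lit 49059661514) (nat_lit 34) (nat_lit 5) (nat_lit 36) (nat_lit 4) (nat_lit 34) (nat_lit 4) (nat_lit 506) (nat_lit 407) (nat_lit 287)) (XT.nd (nat_lit 78) (nat_lit 152) (nat_lit 0) (XT.lf (nat_lit 0) (nat_lit 63104085795) (nat_lit 76) (nat_lit 41859577374) (nat_lit 76) (nat_lit 21997894592) (nat_lit 33) (nat_lit 4) (nat_lit 34) (nat_lit 5) (nat_lit 34) (nat_lit 4) (nat_lit 507) (nat_lit 407) (nat_lit 286)) (XT.lf (nat_lit 0) (nat_lit 2546505748) (nat_lit 76) (nat_lit 8385580696) (nat_lit 152) (nat_lit 120683535367) (nat_lit 31) (nat_lit 5) (nat_lit 32) (nat_lit 5) (nat_lit 33) (nat_lit 4) (nat_lit 508) (nat_lit 407) (nat_lit 285))))))))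
noncomputable def xc222 : XT := (XT.nd (nat_lit 1248) (nat_lit 684) (nat_lit 0) (XT.nd (nat_lit 624) (nat_lit 304) (nat_lit 0) (XT.nd (nat_lit 312) (nat_lit 228) (nat_lit 0) (XT.nd (nat_lit 156) (nat_lit 152) (nat_lit 0) (XT.nd (nat_lit 78) (nat_lit 76) (nat_lit 0) (XT.lf (nat_lit 0) (nat_lit 46277250251) (nat_lit 152) (nat_lit 62775161449) (nat_lit 0) (nat_lit 27356548465) (nat_lit 31) (nat_lit 5) (nat_lit 33) (nat_lit 4) (nat_lit 31) (nat_lit 4) (nat_lit 509) (nat_lit 407) (nat_lit 284)) (XT.lf (nat_lit 0) (nat_lit 6899385625) (nat_lit 76) (nat_lit 76726844953) (nat_lit 76) (nat_lit 57803906967) (nat_lit 30) (nat_lit 4) (nat_lit 31) (nat_lit 5) (nat_lit 31) (nat_lit 4) (nat_lit 510) (nat_lit 407) (nat_lit 283))) (XT.nd (nat_lit 78) (nat_lit 152) (nat_lit 0) (XT.lf (nat_lit 0) (nat_lit 82219893365) (nat_lit 76) (nat_lit 41677408038) (nat_lit 76) (nat_lit 22752340338) (nat_lit 30) (nat_lit 4) (nat_lit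 31) (nat_lit 5) (nat_lit 31) (nat_lit 4) (nat_lit 511) (nat_lit 407) (nat_lit 282)) (XT.lf (nat_lit 0) (nat_lit 9235891343) (nat_lit 76) (nat_lit 4502151263) (nat_lit 152) (nat_lit 138374309984) (nat_lit 28) (nat_lit 5) (nat_lit 29) (nat_lit 5) (nat_lit 30) (nat_lit 4) (nat_lit 512) (nat_lit 407) (nat_lit 281)))) (XT.nd (nat_lit 156) (nat_lit 152) (nat_lit 0) (XT.nd (nat_lit 78) (nat_lit 76) (nat_lit 0) (XT.lf (nat_lit 0) (nat_lit 52928284437) (nat_lit 152) (nat_lit 69918627730) (nat_lit 0) (nat_lit 34900638995) (nat_lit 28) (nat_lit 5) (nat_lit 30) (nat_lit 4) (nat_lit 28) (nat_lit 4) (nat_lit 513) (nat_lit 407) (nat_lit 280)) (XT.lf (nat_lit 0) (nat_lit 6815586849) (nat_lit 76) (nat_lit 87434850230) (nat_lit 76) (nat_lit 69405452666) (nat_lit 27) (nat_lit 4) (nat_lit 28) (nat_lit 5) (nat_lit 28) (nat_lit 4) (nat_lit 514) (nat_lit 407) (nat_lit 279))) (XT.nd (nat_lit 78) (nat_lit 152) (nat_lit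 0) (XT.lf (nat_lit 0) (nat_lit 89798338416) (nat_lit 76) (nat_lit 49016776125) (nat_lit 76) (nat_lit 30985709874) (nat_lit 27) (nat_lit 4) (nat_lit 28) (nat_lit 5) (nat_lit 28) (nat_lit 4) (nat_lit 515) (nat_lit 407) (nat_lit 278)) (XT.lf (nat_lit 0) (nat_lit 533132942) (nat_lit 76) (nat_lit 8523349213) (nat_lit 152) (nat_lit 167189176717) (nat_lit 25) (nat_lit 5) (nat_lit 26) (nat_lit 5) (nat_lit 27) (nat_lit 4) (nat_lit 516) (nat_lit 407) (nat_lit 277))))) (XT.nd (nat_lit 312) (nat_lit 228) (nat_lit 0) (XT.nd (nat_lit 156) (nat_lit 76) (nat_lit 0) (XT.nd (nat_lit 78) (nat_lit 0) (nat_lit 0) (XT.lf (nat_lit 0) (nat_lit 51959868454) (nat_lit 152) (nat_lit 96147978722) (nat_lit 0) (nat_lit 34784469382) (nat_lit 25) (nat_lit 5) (nat_lit 27) (nat_lit 4) (nat_lit 25) (nat_lit 4) (nat_lit 517) (nat_lit 407) (nat_lit 276)) (XT.lf (nat_lit 0) (nat_lit 97141067703) (nat_lit 152) (nat_lit 12759311461) (nat_lit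 0) (nat_lit 79964295798) (nat_lit 25) (nat_lit 5) (nat_lit 27) (nat_lit 4) (nat_lit 25) (nat_lit 4) (nat_lit 518) (nat_lit 407) (nat_lit 275))) (XT.nd (nat_lit 78) (nat_lit 0) (nat_lit 0) (XT.lf (nat_lit 0) (nat_lit 77257826603) (nat_lit 76) (nat_lit 68522965402) (nat_lit 76) (nat_lit 51344886038) (nat_lit 24) (nat_lit 4) (nat_lit 25) (nat_lit 5) (nat_lit 25) (nat_lit 4) (nat_lit 519) (nat_lit 407) (nat_lit 274)) (XT.lf (nat_lit 0) (nat_lit 172205321452) (nat_lit 76) (nat_lit 24856630955) (nat_lit 76) (nat_lit 7677306390) (nat_lit 24) (nat_lit 4) (nat_lit 25) (nat_lit 5) (nat_lit 25) (nat_lit 4) (nat_lit 520) (nat_lit 407) (nat_lit 273)))) (XT.nd (nat_lit 156) (nat_lit 76) (nat_lit 0) (XT.nd (nat_lit 78) (nat_lit 0) (nat_lit 0) (XT.lf (nat_lit 0) (nat_lit 38242822170) (nat_lit 152) (nat_lit 152515917040) (nat_lit 0) (nat_lit 21880431247) (nat_lit 22) (nat_lit 5) (nat_lit 24) (nat_lit 4) (nat_lit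 22) (nat_lit 4) (nat_lit 521) (nat_lit 407) (nat_lit 272)) (XT.lf (nat_lit 0) (nat_lit 87162026305) (nat_lit 152) (nat_lit 62919144951) (nat_lit 0) (nat_lit 70798559731) (nat_lit 22) (nat_lit 5) (nat_lit 24) (nat_lit 4) (nat_lit 22) (nat_lit 4) (nat_lit 522) (nat_lit 407) (nat_lit 271))) (XT.nd (nat_lit 78) (nat_lit 0) (nat_lit 0) (XT.lf (nat_lit 0) (nat_lit 32174833687) (nat_lit 76) (nat_lit 106848582789) (nat_lit 76) (nat_lit 90484091786) (nat_lit 21) (nat_lit 4) (nat_lit 22) (nat_lit 5) (nat_lit 22) (nat_lit 4) (nat_lit 523) (nat_lit 407) (nat_lit 270)) (XT.lf (nat_lit 0) (nat_lit 134195694676) (nat_lit 76) (nat_lit 60341734371) (nat_lit 76) (nat_lit 43976267721) (nat_lit 21) (nat_lit 4) (nat_lit 22) (nat_lit 5) (nat_lit 22) (nat_lit 4) (nat_lit 524) (nat_lit 407) (nat_lit 269)))))) (XT.nd (nat_lit 624) (nat_lit 304) (nat_lit 0) (XT.nd (nat_lit 312) (nat_lit 152) (nat_lit 0) (XT.nd (nat_lit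 156) (nat_lit 76) (nat_lit 0) (XT.nd (nat_lit 78) (nat_lit 76) (nat_lit 0) (XT.lf (nat_lit 0) (nat_lit 4695674071) (nat_lit 152) (nat_lit 6740263991) (nat_lit 76) (nat_lit 236530756157) (nat_lit 20) (nat_lit 5) (nat_lit 22) (nat_lit 5) (nat_lit 21) (nat_lit 4) (nat_lit 525) (nat_lit 407) (nat_lit 268)) (XT.lf (nat_lit 0) (nat_lit 56509812065) (nat_lit 152) (nat_lit 160315233254) (nat_lit 0) (nat_lit 40921925609) (nat_lit 19) (nat_lit 5) (nat_lit 21) (nat_lit 4) (nat_lit 19) (nat_lit 4) (nat_lit 526) (nat_lit 407) (nat_lit 267))) (XT.nd (nat_lit 78) (nat_lit 76) (nat_lit 0) (XT.lf (nat_lit 0) (nat_lit 111212611415) (nat_lit 152) (nat_lit 61164830049) (nat_lit 0) (nat_lit 95623922293) (nat_lit 19) (nat_lit 5) (nat_lit 21) (nat_lit 4) (nat_lit 19) (nat_lit 4) (nat_lit 527) (nat_lit 407) (nat_lit 266)) (XT.lf (nat_lit 0) (nat_lit 44351891266) (nat_lit 76) (nat_lit 124985839761) (nat_lit 76) (nat_lit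 109396386194) (nat_lit 18) (nat_lit 4) (nat_lit 19) (nat_lit 5) (nat_lit 19) (nat_lit 4) (nat_lit 528) (nat_lit 407) (nat_lit 265)))) (XT.nd (nat_lit 156) (nat_lit 152) (nat_lit 0) (XT.nd (nat_lit 78) (nat_lit 0) (nat_lit 0) (XT.lf (nat_lit 0) (nat_lit 157257387101) (nat_lit 76) (nat_lit 74142384805) (nat_lit 76) (nat_lit 58552203196) (nat_lit 18) (nat_lit 4) (nat_lit 19) (nat_lit 5) (nat_lit 19) (nat_lit 4) (nat_lit 529) (nat_lit 407) (nat_lit 264)) (XT.lf (nat_lit 0) (nat_lit 275798094553) (nat_lit 76) (nat_lit 20761876745) (nat_lit 76) (nat_lit 5171001762) (nat_lit 18) (nat_lit 4) (nat_lit 19) (nat_lit 5) (nat_lit 19) (nat_lit 4) (nat_lit 530) (nat_lit 407) (nat_lit 263))) (XT.nd (nat_lit 78) (nat_lit 0) (nat_lit 0) (XT.lf (nat_lit 0) (nat_lit 51209294887) (nat_lit 152) (nat_lit 226391769573) (nat_lit 0) (nat_lit 36360213611) (nat_lit 16) (nat_lit 5) (nat_lit 18) (nat_lit 4) (nat_lit 16) (nat_lit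 4) (nat_lit 531) (nat_lit 407) (nat_lit 262)) (XT.lf (nat_lit 0) (nat_lit 111016787801) (nat_lit 152) (nat_lit 119575866399) (nat_lit 0) (nat_lit 96167107562) (nat_lit 16) (nat_lit 5) (nat_lit 18) (nat_lit 4) (nat_lit 16) (nat_lit 4) (nat_lit 532) (nat_lit 407) (nat_lit 261))))) (XT.nd (nat_lit 312) (nat_lit 152) (nat_lit 0) (XT.nd (nat_lit 156) (nat_lit 76) (nat_lit 0) (XT.nd (nat_lit 78) (nat_lit 76) (nat_lit 0) (XT.lf (nat_lit 0) (nat_lit 173810099883) (nat_lit 152) (nat_lit 7428448330) (nat_lit 0) (nat_lit 158959849204) (nat_lit 16) (nat_lit 5) (nat_lit 18) (nat_lit 4) (nat_lit 16) (nat_lit 4) (nat_lit 533) (nat_lit 407) (nat_lit 260)) (XT.lf (nat_lit 0) (nat_lit 113965097130) (nat_lit 76) (nat_lit 127552956444) (nat_lit 76) (nat_lit 112702162488) (nat_lit 15) (nat_lit 4) (nat_lit 16) (nat_lit 5) (nat_lit 16) (nat_lit 4) (nat_lit 534) (nat_lit 407) (nat_lit 259))) (XT.nd (nat_lit 78) (nat_lit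 76) (nat_lit 0) (XT.lf (nat_lit 0) (nat_lit 241677523026) (nat_lit 76) (nat_lit 71055418573) (nat_lit 76) (nat_lit 56204107211) (nat_lit 15) (nat_lit 4) (nat_lit 16) (nat_lit 5) (nat_lit 16) (nat_lit 4) (nat_lit 535) (nat_lit 407) (nat_lit 258)) (XT.lf (nat_lit 0) (nat_lit 3014896996) (nat_lit 152) (nat_lit 8671265287) (nat_lit 76) (nat_lit 372701332775) (nat_lit 14) (nat_lit 5) (nat_lit 16) (nat_lit 5) (nat_lit 15) (nat_lit 4) (nat_lit 536) (nat_lit 407) (nat_lit 257)))) (XT.nd (nat_lit 156) (nat_lit 76) (nat_lit 0) (XT.nd (nat_lit 78) (nat_lit 0) (nat_lit 0) (XT.lf (nat_lit 0) (nat_lit 65991829471) (nat_lit 152) (nat_lit 282591467827) (nat_lit 0) (nat_lit 51846807154) (nat_lit 13) (nat_lit 5) (nat_lit 15) (nat_lit 4) (nat_lit 13) (nat_lit 4) (nat_lit 537) (nat_lit 407) (nat_lit 256)) (XT.lf (nat_lit 0) (nat_lit 132454511543) (nat_lit 152) (nat_lit 166494424073) (nat_lit 0) (nat_lit 118309063554)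 (nat_lit 13) (nat_lit 5) (nat_lit 15) (nat_lit 4) (nat_lit 13) (nat_lit 4) (nat_lit 538) (nat_lit 407) (nat_lit 255))) (XT.nd (nat_lit 78) (nat_lit 76) (nat_lit 0) (XT.lf (nat_lit 0) (nat_lit 202236582060) (nat_lit 152) (nat_lit 44600165182) (nat_lit 0) (nat_lit 188090728670) (nat_lit 13) (nat_lit 5) (nat_lit 15) (nat_lit 4) (nat_lit 13) (nat_lit 4) (nat_lit 539) (nat_lit 407) (nat_lit 254)) (XT.nd (nat_lit 78) (nat_lit 0) (nat_lit 0) (XT.lf (nat_lit 0) (nat_lit 86138503323) (nat_lit 76) (nat_lit 190710548926) (nat_lit 76) (nat_lit 176564309439) (nat_lit 12) (nat_lit 4) (nat_lit 13) (nat_lit 5) (nat_lit 13) (nat_lit 4) (nat_lit 540) (nat_lit 407) (nat_lit 253)) (XT.lf (nat_lit 0) (nat_lit 224955366209) (nat_lit 76) (nat_lit 130988595967) (nat_lit 76) (nat_lit 116841988769) (nat_lit 12) (nat_lit 4) (nat_lit 13) (nat_lit 5) (nat_lit 13) (nat_lit 4) (nat_lit 541) (nat_lit 407) (nat_lit 252))))))))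
noncomputable def xc223 : XT := (XT.nd (nat_lit 52182) (nat_lit 0) (nat_lit 10260) (XT.nd (nat_lit 624) (nat_lit 152) (nat_lit 0) (XT.nd (nat_lit 312) (nat_lit 76) (nat_lit 0) (XT.nd (nat_lit 156) (nat_lit 0) (nat_lit 0) (XT.nd (nat_lit 78) (nat_lit 152) (nat_lit 0) (XT.lf (nat_lit 0) (nat_lit 370706256936) (nat_lit 76) (nat_lit 68284018617) (nat_lit 76) (nat_lit 54137061218) (nat_lit 12) (nat_lit 4) (nat_lit 13) (nat_lit 5) (nat_lit 13) (nat_lit 4) (nat_lit 542) (nat_lit 407) (nat_lit 251)) (XT.lf (nat_lit 0) (nat_lit 9369465600) (nat_lit 76) (nat_lit 2102122947) (nat_lit 152) (nat_lit 502997914997) (nat_lit 10) (nat_lit 5) (nat_lit 11) (nat_lit 5) (nat_lit 12) (nat_lit 4) (nat_lit 543) (nat_lit 407) (nat_lit 250))) (XT.nd (nat_lit 78) (nat_lit 0) (nat_lit 0) (XT.lf (nat_lit 0) (nat_lit 81697453681) (nat_lit 152) (nat_lit 386755602421) (nat_lit 0) (nat_lit 68223540761) (nat_lit 10) (nat_lit 5)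 (nat_lit 12) (nat_lit 4) (nat_lit 10) (nat_lit 4) (nat_lit 544) (nat_lit 407) (nat_lit 249)) (XT.lf (nat_lit 0) (nat_lit 155465993064) (nat_lit 152) (nat_lit 262534690706) (nat_lit 0) (nat_lit 141991792032) (nat_lit 10) (nat_lit 5) (nat_lit 12) (nat_lit 4) (nat_lit 10) (nat_lit 4) (nat_lit 545) (nat_lit 407) (nat_lit 248)))) (XT.nd (nat_lit 156) (nat_lit 0) (nat_lit 0) (XT.nd (nat_lit 78) (nat_lit 76) (nat_lit 0) (XT.lf (nat_lit 0) (nat_lit 232920026044) (nat_lit 152) (nat_lit 132108718693) (nat_lit 0) (nat_lit 219445550621) (nat_lit 10) (nat_lit 5) (nat_lit 12) (nat_lit 4) (nat_lit 10) (nat_lit 4) (nat_lit 546) (nat_lit 407) (nat_lit 247)) (XT.lf (nat_lit 0) (nat_lit 4992647545) (nat_lit 76) (nat_lit 309329268661) (nat_lit 76) (nat_lit 295854531913) (nat_lit 9) (nat_lit 4) (nat_lit 10) (nat_lit 5) (nat_lit 10) (nat_lit 4) (nat_lit 547) (nat_lit 407) (nat_lit 246))) (XT.nd (nat_lit 78) (nat_lit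 0) (nat_lit 0) (XT.lf (nat_lit 0) (nat_lit 153529990165) (nat_lit 76) (nat_lit 248498487571) (nat_lit 76) (nat_lit 235023501941) (nat_lit 9) (nat_lit 4) (nat_lit 10) (nat_lit 5) (nat_lit 10) (nat_lit 4) (nat_lit 548) (nat_lit 407) (nat_lit 245)) (XT.lf (nat_lit 0) (nat_lit 309488858644) (nat_lit 76) (nat_lit 184628891349) (nat_lit 76) (nat_lit 171153668690) (nat_lit 9) (nat_lit 4) (nat_lit 10) (nat_lit 5) (nat_lit 10) (nat_lit 4) (nat_lit 549) (nat_lit 407) (nat_lit 244))))) (XT.nd (nat_lit 312) (nat_lit 0) (nat_lit 0) (XT.nd (nat_lit 156) (nat_lit 152) (nat_lit 0) (XT.nd (nat_lit 78) (nat_lit 0) (nat_lit 0) (XT.lf (nat_lit 0) (nat_lit 473240583621) (nat_lit 76) (nat_lit 117568409529) (nat_lit 76) (nat_lit 104092961127) (nat_lit 9) (nat_lit 4) (nat_lit 10) (nat_lit 5) (nat_lit 10) (nat_lit 4) (nat_lit 550) (nat_lit 407) (nat_lit 243)) (XT.lf (nat_lit 0) (nat_lit 645175050157) (nat_lit 76) (nat_lit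 47157374296) (nat_lit 76) (nat_lit 33681710901) (nat_lit 9) (nat_lit 4) (nat_lit 10) (nat_lit 5) (nat_lit 10) (nat_lit 4) (nat_lit 551) (nat_lit 407) (nat_lit 242))) (XT.nd (nat_lit 78) (nat_lit 0) (nat_lit 0) (XT.lf (nat_lit 0) (nat_lit 40476214699) (nat_lit 152) (nat_lit 690456517013) (nat_lit 0) (nat_lit 27642054556) (nat_lit 7) (nat_lit 5) (nat_lit 9) (nat_lit 4) (nat_lit 7) (nat_lit 4) (nat_lit 552) (nat_lit 407) (nat_lit 241)) (XT.lf (nat_lit 0) (nat_lit 119372376998) (nat_lit 152) (nat_lit 566717340296) (nat_lit 0) (nat_lit 106538031136) (nat_lit 7) (nat_lit 5) (nat_lit 9) (nat_lit 4) (nat_lit 7) (nat_lit 4) (nat_lit 553) (nat_lit 407) (nat_lit 240)))) (XT.nd (nat_lit 51090) (nat_lit 0) (nat_lit 14060) (XT.nd (nat_lit 78) (nat_lit 0) (nat_lit 0) (XT.lf (nat_lit 0) (nat_lit 202211159421) (nat_lit 152) (nat_lit 436795671999) (nat_lit 0) (nat_lit 189376636683) (nat_lit 7) (nat_lit 5) (nat_lit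 9) (nat_lit 4) (nat_lit 7) (nat_lit 4) (nat_lit 554) (nat_lit 407) (nat_lit 239)) (XT.lf (nat_lit 0) (nat_lit 289189797162) (nat_lit 152) (nat_lit 300382174816) (nat_lit 0) (nat_lit 276355105972) (nat_lit 7) (nat_lit 5) (nat_lit 9) (nat_lit 4) (nat_lit 7) (nat_lit 4) (nat_lit 555) (nat_lit 407) (nat_lit 238))) (XT.nd (nat_lit 78) (nat_lit 532) (nat_lit 0) (XT.lf (nat_lit 0) (nat_lit 2738637817) (nat_lit 532) (nat_lit 425414346) (nat_lit 532) (nat_lit 425414346) (nat_lit 199) (nat_lit 3) (nat_lit 206) (nat_lit 3) (nat_lit 206) (nat_lit 5) (nat_lit 408) (nat_lit 408) (nat_lit 384)) (XT.lf (nat_lit 0) (nat_lit 6146845) (nat_lit 532) (nat_lit 4458317224) (nat_lit 608) (nat_lit 2810417912) (nat_lit 192) (nat_lit 5) (nat_lit 199) (nat_lit 3) (nat_lit 200) (nat_lit 5) (nat_lit 409) (nat_lit 408) (nat_lit 383)))))) (XT.nd (nat_lit 624) (nat_lit 3268) (nat_lit 0) (XT.nd (nat_lit 312) (nat_lit 532) (nat_lit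 0) (XT.nd (nat_lit 156) (nat_lit 0) (nat_lit 76) (XT.nd (nat_lit 78) (nat_lit 0) (nat_lit 0) (XT.lf (nat_lit 0) (nat_lit 1650296275) (nat_lit 532) (nat_lit 766059470) (nat_lit 608) (nat_lit 4962480993) (nat_lit 192) (nat_lit 5) (nat_lit 199) (nat_lit 3) (nat_lit 200) (nat_lit 5) (nat_lit 410) (nat_lit 408) (nat_lit 382)) (XT.lf (nat_lit 76) (nat_lit 3154748512) (nat_lit 0) (nat_lit 169727153) (nat_lit 608) (nat_lit 4166132194) (nat_lit 193) (nat_lit 5) (nat_lit 192) (nat_lit 5) (nat_lit 200) (nat_lit 5) (nat_lit 411) (nat_lit 408) (nat_lit 381))) (XT.nd (nat_lit 78) (nat_lit 0) (nat_lit 0) (XT.lf (nat_lit 0) (nat_lit 5032898169) (nat_lit 532) (nat_lit 405162241) (nat_lit 608) (nat_lit 2172389703) (nat_lit 193) (nat_lit 5) (nat_lit 200) (nat_lit 5) (nat_lit 201) (nat_lit 5) (nat_lit 412) (nat_lit 408) (nat_lit 380)) (XT.lf (nat_lit 76) (nat_lit 3781614598) (nat_lit 0) (nat_lit 3014730085) (nat_lit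 608) (nat_lit 941468498) (nat_lit 194) (nat_lit 5) (nat_lit 193) (nat_lit 5) (nat_lit 201) (nat_lit 5) (nat_lit 413) (nat_lit 408) (nat_lit 379)))) (XT.nd (nat_lit 156) (nat_lit 0) (nat_lit 76) (XT.nd (nat_lit 78) (nat_lit 0) (nat_lit 76) (XT.lf (nat_lit 76) (nat_lit 255796458) (nat_lit 0) (nat_lit 416545980) (nat_lit 684) (nat_lit 7202565202) (nat_lit 186) (nat_lit 5) (nat_lit 185) (nat_lit 5) (nat_lit 194) (nat_lit 5) (nat_lit 414) (nat_lit 408) (nat_lit 378)) (XT.lf (nat_lit 0) (nat_lit 2352982675) (nat_lit 608) (nat_lit 3316930525) (nat_lit 684) (nat_lit 2347290653) (nat_lit 186) (nat_lit 5) (nat_lit 194) (nat_lit 5) (nat_lit 195) (nat_lit 5) (nat_lit 415) (nat_lit 408) (nat_lit 377))) (XT.nd (nat_lit 78) (nat_lit 0) (nat_lit 76) (XT.lf (nat_lit 76) (nat_lit 1169491832) (nat_lit 0) (nat_lit 2890955553) (nat_lit 684) (nat_lit 4109035145) (nat_lit 187) (nat_lit 5) (nat_lit 186) (nat_lit 5) (nat_lit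 195) (nat_lit 5) (nat_lit 416) (nat_lit 408) (nat_lit 376)) (XT.lf (nat_lit 0) (nat_lit 5831774362) (nat_lit 608) (nat_lit 2397261895) (nat_lit 76) (nat_lit 101421360) (nat_lit 187) (nat_lit 5) (nat_lit 195) (nat_lit 5) (nat_lit 188) (nat_lit 5) (nat_lit 417) (nat_lit 408) (nat_lit 375))))) (XT.nd (nat_lit 312) (nat_lit 1292) (nat_lit 0) (XT.nd (nat_lit 156) (nat_lit 1444) (nat_lit 0) (XT.nd (nat_lit 78) (nat_lit 76) (nat_lit 0) (XT.lf (nat_lit 0) (nat_lit 2403474498) (nat_lit 608) (nat_lit 5297847600) (nat_lit 684) (nat_lit 797683241) (nat_lit 179) (nat_lit 5) (nat_lit 187) (nat_lit 5) (nat_lit 188) (nat_lit 5) (nat_lit 418) (nat_lit 408) (nat_lit 374)) (XT.lf (nat_lit 0) (nat_lit 924174021) (nat_lit 684) (nat_lit 1225686694) (nat_lit 76) (nat_lit 6526982100) (nat_lit 178) (nat_lit 5) (nat_lit 187) (nat_lit 5) (nat_lit 179) (nat_lit 5) (nat_lit 419) (nat_lit 408) (nat_lit 373))) (XT.nd (nat_lit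 78) (nat_lit 760) (nat_lit 0) (XT.lf (nat_lit 0) (nat_lit 2715955747) (nat_lit 760) (nat_lit 4942199361) (nat_lit 76) (nat_lit 1204236970) (nat_lit 169) (nat_lit 5) (nat_lit 179) (nat_lit 5) (nat_lit 170) (nat_lit 5) (nat_lit 420) (nat_lit 408) (nat_lit 372)) (XT.lf (nat_lit 0) (nat_lit 218470958) (nat_lit 760) (nat_lit 4370861414) (nat_lit 836) (nat_lit 4468291569) (nat_lit 159) (nat_lit 5) (nat_lit 169) (nat_lit 5) (nat_lit 170) (nat_lit 5) (nat_lit 421) (nat_lit 408) (nat_lit 371)))) (XT.nd (nat_lit 156) (nat_lit 836) (nat_lit 0) (XT.nd (nat_lit 78) (nat_lit 456) (nat_lit 0) (XT.lf (nat_lit 0) (nat_lit 5747091877) (nat_lit 760) (nat_lit 827501124) (nat_lit 836) (nat_lit 2687118811) (nat_lit 159) (nat_lit 5) (nat_lit 169) (nat_lit 5) (nat_lit 170) (nat_lit 5) (nat_lit 422) (nat_lit 408) (nat_lit 370)) (XT.lf (nat_lit 0) (nat_lit 2034169168) (nat_lit 456) (nat_lit 6639566504) (nat_lit 532) (nat_lit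 801542377) (nat_lit 153) (nat_lit 5) (nat_lit 159) (nat_lit 5) (nat_lit 160) (nat_lit 5) (nat_lit 423) (nat_lit 408) (nat_lit 369))) (XT.nd (nat_lit 78) (nat_lit 760) (nat_lit 0) (XT.lf (nat_lit 0) (nat_lit 1153377473) (nat_lit 532) (nat_lit 1810008001) (nat_lit 76) (nat_lit 6734582855) (nat_lit 152) (nat_lit 5) (nat_lit 159) (nat_lit 5) (nat_lit 153) (nat_lit 5) (nat_lit 424) (nat_lit 408) (nat_lit 368)) (XT.nd (nat_lit 78) (nat_lit 380) (nat_lit 0) (XT.lf (nat_lit 0) (nat_lit 3200987132) (nat_lit 456) (nat_lit 5783263933) (nat_lit 76) (nat_lit 945795265) (nat_lit 147) (nat_lit 5) (nat_lit 153) (nat_lit 5) (nat_lit 148) (nat_lit 5) (nat_lit 425) (nat_lit 408) (nat_lit 367)) (XT.lf (nat_lit 0) (nat_lit 187197349) (nat_lit 380) (nat_lit 5189891765) (nat_lit 456) (nat_lit 4795337574) (nat_lit 142) (nat_lit 5) (nat_lit 147) (nat_lit 5) (nat_lit 148) (nat_lit 5) (nat_lit 426) (nat_lit 408) (nat_lit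 366))))))))
noncomputable def xc224 : XT := (XT.nd (nat_lit 1248) (nat_lit 1824) (nat_lit 0) (XT.nd (nat_lit 624) (nat_lit 1520) (nat_lit 0) (XT.nd (nat_lit 312) (nat_lit 684) (nat_lit 0) (XT.nd (nat_lit 156) (nat_lit 380) (nat_lit 0) (XT.nd (nat_lit 78) (nat_lit 304) (nat_lit 0) (XT.lf (nat_lit 0) (nat_lit 6596192141) (nat_lit 380) (nat_lit 1108943524) (nat_lit 456) (nat_lit 2719637287) (nat_lit 142) (nat_lit 5) (nat_lit 147) (nat_lit 5) (nat_lit 148) (nat_lit 5) (nat_lit 427) (nat_lit 408) (nat_lit 365)) (XT.lf (nat_lit 0) (nat_lit 2609428958) (nat_lit 304) (nat_lit 7578201165) (nat_lit 380) (nat_lit 500207800) (nat_lit 138) (nat_lit 5) (nat_lit 142) (nat_lit 5) (nat_lit 143) (nat_lit 5) (nat_lit 428) (nat_lit 408) (nat_lit 364))) (XT.nd (nat_lit 78) (nat_lit 304) (nat_lit 0) (XT.lf (nat_lit 0) (nat_lit 1804141677) (nat_lit 380) (nat_lit 1567507964) (nat_lit 76) (nat_lit 7589354807) (nat_lit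 137) (nat_lit 5) (nat_lit 142) (nat_lit 5) (nat_lit 138) (nat_lit 5) (nat_lit 429) (nat_lit 408) (nat_lit 363)) (XT.lf (nat_lit 0) (nat_lit 4259396327) (nat_lit 380) (nat_lit 5888836527) (nat_lit 76) (nat_lit 1096564715) (nat_lit 133) (nat_lit 5) (nat_lit 138) (nat_lit 5) (nat_lit 134) (nat_lit 5) (nat_lit 430) (nat_lit 408) (nat_lit 362)))) (XT.nd (nat_lit 156) (nat_lit 380) (nat_lit 0) (XT.nd (nat_lit 78) (nat_lit 0) (nat_lit 0) (XT.lf (nat_lit 0) (nat_lit 1057177931) (nat_lit 304) (nat_lit 5831189227) (nat_lit 380) (nat_lit 4651868538) (nat_lit 129) (nat_lit 5) (nat_lit 133) (nat_lit 5) (nat_lit 134) (nat_lit 5) (nat_lit 431) (nat_lit 408) (nat_lit 361)) (XT.lf (nat_lit 0) (nat_lit 8496379193) (nat_lit 304) (nat_lit 1205693143) (nat_lit 380) (nat_lit 2145711984) (nat_lit 129) (nat_lit 5) (nat_lit 133) (nat_lit 5) (nat_lit 134) (nat_lit 5) (nat_lit 432) (nat_lit 408) (nat_lit 360))) (XT.nd (nat_lit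 78) (nat_lit 0) (nat_lit 0) (XT.lf (nat_lit 0) (nat_lit 548934329) (nat_lit 380) (nat_lit 8020687702) (nat_lit 76) (nat_lit 3596775305) (nat_lit 124) (nat_lit 5) (nat_lit 129) (nat_lit 5) (nat_lit 125) (nat_lit 5) (nat_lit 433) (nat_lit 408) (nat_lit 359)) (XT.lf (nat_lit 0) (nat_lit 3339759977) (nat_lit 380) (nat_lit 478269456) (nat_lit 76) (nat_lit 8679477427) (nat_lit 124) (nat_lit 5) (nat_lit 129) (nat_lit 5) (nat_lit 125) (nat_lit 5) (nat_lit 434) (nat_lit 408) (nat_lit 358))))) (XT.nd (nat_lit 312) (nat_lit 684) (nat_lit 0) (XT.nd (nat_lit 156) (nat_lit 304) (nat_lit 0) (XT.nd (nat_lit 78) (nat_lit 304) (nat_lit 0) (XT.lf (nat_lit 0) (nat_lit 6367468242) (nat_lit 304) (nat_lit 5231407117) (nat_lit 76) (nat_lit 1241431802) (nat_lit 121) (nat_lit 5) (nat_lit 125) (nat_lit 5) (nat_lit 122) (nat_lit 5) (nat_lit 435) (nat_lit 408) (nat_lit 357)) (XT.lf (nat_lit 0) (nat_lit 2890508874) (nat_lit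 304) (nat_lit 6731117987) (nat_lit 380) (nat_lit 3574869624) (nat_lit 117) (nat_lit 5) (nat_lit 121) (nat_lit 5) (nat_lit 122) (nat_lit 5) (nat_lit 436) (nat_lit 408) (nat_lit 356))) (XT.nd (nat_lit 78) (nat_lit 304) (nat_lit 0) (XT.lf (nat_lit 0) (nat_lit 11544582150) (nat_lit 304) (nat_lit 1542700059) (nat_lit 380) (nat_lit 480775776) (nat_lit 117) (nat_lit 5) (nat_lit 121) (nat_lit 5) (nat_lit 122) (nat_lit 5) (nat_lit 437) (nat_lit 408) (nat_lit 355)) (XT.lf (nat_lit 0) (nat_lit 2810126678) (nat_lit 304) (nat_lit 7222657774) (nat_lit 76) (nat_lit 3916719331) (nat_lit 113) (nat_lit 5) (nat_lit 117) (nat_lit 5) (nat_lit 114) (nat_lit 5) (nat_lit 438) (nat_lit 408) (nat_lit 354)))) (XT.nd (nat_lit 156) (nat_lit 456) (nat_lit 0) (XT.nd (nat_lit 78) (nat_lit 0) (nat_lit 0) (XT.lf (nat_lit 0) (nat_lit 1599124988) (nat_lit 228) (nat_lit 4697600005) (nat_lit 304) (nat_lit 8050539258) (nat_lit 110)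 (nat_lit 5) (nat_lit 113) (nat_lit 5) (nat_lit 114) (nat_lit 5) (nat_lit 439) (nat_lit 408) (nat_lit 353)) (XT.lf (nat_lit 0) (nat_lit 10059003438) (nat_lit 304) (nat_lit 3717807156) (nat_lit 76) (nat_lit 983036404) (nat_lit 110) (nat_lit 5) (nat_lit 114) (nat_lit 5) (nat_lit 111) (nat_lit 5) (nat_lit 440) (nat_lit 408) (nat_lit 352))) (XT.nd (nat_lit 78) (nat_lit 304) (nat_lit 0) (XT.lf (nat_lit 0) (nat_lit 5820330985) (nat_lit 152) (nat_lit 8321619133) (nat_lit 228) (nat_lit 1044482733) (nat_lit 108) (nat_lit 5) (nat_lit 110) (nat_lit 5) (nat_lit 111) (nat_lit 5) (nat_lit 441) (nat_lit 408) (nat_lit 351)) (XT.lf (nat_lit 0) (nat_lit 243071994) (nat_lit 228) (nat_lit 2494941139) (nat_lit 304) (nat_lit 12892516502) (nat_lit 104) (nat_lit 5) (nat_lit 107) (nat_lit 5) (nat_lit 108) (nat_lit 5) (nat_lit 442) (nat_lit 408) (nat_lit 350)))))) (XT.nd (nat_lit 624) (nat_lit 836) (nat_lit 0) (XT.nd (nat_lit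 312) (nat_lit 532) (nat_lit 0) (XT.nd (nat_lit 156) (nat_lit 304) (nat_lit 0) (XT.nd (nat_lit 78) (nat_lit 152) (nat_lit 0) (XT.lf (nat_lit 0) (nat_lit 6857857256) (nat_lit 304) (nat_lit 5561173420) (nat_lit 76) (nat_lit 3667779658) (nat_lit 104) (nat_lit 5) (nat_lit 108) (nat_lit 5) (nat_lit 105) (nat_lit 5) (nat_lit 443) (nat_lit 408) (nat_lit 349)) (XT.lf (nat_lit 0) (nat_lit 4818451235) (nat_lit 152) (nat_lit 6448552412) (nat_lit 228) (nat_lit 5294737300) (nat_lit 102) (nat_lit 5) (nat_lit 104) (nat_lit 5) (nat_lit 105) (nat_lit 5) (nat_lit 444) (nat_lit 408) (nat_lit 348))) (XT.nd (nat_lit 78) (nat_lit 304) (nat_lit 0) (XT.lf (nat_lit 0) (nat_lit 15859662189) (nat_lit 152) (nat_lit 99081137) (nat_lit 228) (nat_lit 1098569287) (nat_lit 102) (nat_lit 5) (nat_lit 104) (nat_lit 5) (nat_lit 105) (nat_lit 5) (nat_lit 445) (nat_lit 408) (nat_lit 347)) (XT.lf (nat_lit 0) (nat_lit 3433874256) (nat_lit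 304) (nat_lit 7576708745) (nat_lit 76) (nat_lit 6552882922) (nat_lit 98) (nat_lit 5) (nat_lit 102) (nat_lit 5) (nat_lit 99) (nat_lit 5) (nat_lit 446) (nat_lit 408) (nat_lit 346)))) (XT.nd (nat_lit 156) (nat_lit 380) (nat_lit 0) (XT.nd (nat_lit 78) (nat_lit 0) (nat_lit 0) (XT.lf (nat_lit 0) (nat_lit 3727867804) (nat_lit 152) (nat_lit 4478016384) (nat_lit 228) (nat_lit 9885650217) (nat_lit 96) (nat_lit 5) (nat_lit 98) (nat_lit 5) (nat_lit 99) (nat_lit 5) (nat_lit 447) (nat_lit 408) (nat_lit 345)) (XT.lf (nat_lit 0) (nat_lit 13353912481) (nat_lit 228) (nat_lit 2868086817) (nat_lit 76) (nat_lit 2417137203) (nat_lit 96) (nat_lit 5) (nat_lit 99) (nat_lit 5) (nat_lit 97) (nat_lit 5) (nat_lit 448) (nat_lit 408) (nat_lit 344))) (XT.nd (nat_lit 78) (nat_lit 228) (nat_lit 0) (XT.lf (nat_lit 0) (nat_lit 9381573388) (nat_lit 152) (nat_lit 9568910831) (nat_lit 228) (nat_lit 254078416) (nat_lit 94) (nat_lit 5)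 (nat_lit 96) (nat_lit 5) (nat_lit 97) (nat_lit 5) (nat_lit 449) (nat_lit 408) (nat_lit 343)) (XT.lf (nat_lit 0) (nat_lit 2500445585) (nat_lit 152) (nat_lit 2427074864) (nat_lit 228) (nat_lit 14863822849) (nat_lit 91) (nat_lit 5) (nat_lit 93) (nat_lit 5) (nat_lit 94) (nat_lit 5) (nat_lit 450) (nat_lit 408) (nat_lit 342))))) (XT.nd (nat_lit 312) (nat_lit 456) (nat_lit 0) (XT.nd (nat_lit 156) (nat_lit 228) (nat_lit 0) (XT.nd (nat_lit 78) (nat_lit 152) (nat_lit 0) (XT.lf (nat_lit 0) (nat_lit 10579696188) (nat_lit 228) (nat_lit 4752205687) (nat_lit 76) (nat_lit 5064351971) (nat_lit 91) (nat_lit 5) (nat_lit 94) (nat_lit 5) (nat_lit 92) (nat_lit 5) (nat_lit 451) (nat_lit 408) (nat_lit 341)) (XT.lf (nat_lit 0) (nat_lit 8603211723) (nat_lit 152) (nat_lit 8058487393) (nat_lit 228) (nat_lit 4362350734) (nat_lit 89) (nat_lit 5) (nat_lit 91) (nat_lit 5) (nat_lit 92) (nat_lit 5) (nat_lit 452) (nat_lit 408) (nat_lit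 340))) (XT.nd (nat_lit 78) (nat_lit 0) (nat_lit 0) (XT.lf (nat_lit 0) (nat_lit 1078132826) (nat_lit 152) (nat_lit 314647187) (nat_lit 228) (nat_lit 20285796771) (nat_lit 86) (nat_lit 5) (nat_lit 88) (nat_lit 5) (nat_lit 89) (nat_lit 5) (nat_lit 453) (nat_lit 408) (nat_lit 339)) (XT.lf (nat_lit 0) (nat_lit 7598427257) (nat_lit 228) (nat_lit 6915231107) (nat_lit 76) (nat_lit 7833128561) (nat_lit 86) (nat_lit 5) (nat_lit 89) (nat_lit 5) (nat_lit 87) (nat_lit 5) (nat_lit 454) (nat_lit 408) (nat_lit 338)))) (XT.nd (nat_lit 156) (nat_lit 304) (nat_lit 0) (XT.nd (nat_lit 78) (nat_lit 0) (nat_lit 0) (XT.lf (nat_lit 0) (nat_lit 7649933267) (nat_lit 152) (nat_lit 6563805842) (nat_lit 228) (nat_lit 8829700050) (nat_lit 84) (nat_lit 5) (nat_lit 86) (nat_lit 5) (nat_lit 87) (nat_lit 5) (nat_lit 455) (nat_lit 408) (nat_lit 337)) (XT.lf (nat_lit 0) (nat_lit 21281716866) (nat_lit 228) (nat_lit 659628895) (nat_lit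 76) (nat_lit 1827483895) (nat_lit 84) (nat_lit 5) (nat_lit 87) (nat_lit 5) (nat_lit 85) (nat_lit 4) (nat_lit 456) (nat_lit 408) (nat_lit 336))) (XT.nd (nat_lit 78) (nat_lit 152) (nat_lit 0) (XT.lf (nat_lit 0) (nat_lit 4364590018) (nat_lit 152) (nat_lit 9438893549) (nat_lit 76) (nat_lit 10707472635) (nat_lit 82) (nat_lit 5) (nat_lit 84) (nat_lit 5) (nat_lit 83) (nat_lit 5) (nat_lit 457) (nat_lit 408) (nat_lit 335)) (XT.lf (nat_lit 0) (nat_lit 6446760515) (nat_lit 152) (nat_lit 5116854579) (nat_lit 228) (nat_lit 13720119919) (nat_lit 80) (nat_lit 5) (nat_lit 82) (nat_lit 5) (nat_lit 83) (nat_lit 5) (nat_lit 458) (nat_lit 408) (nat_lit 334)))))))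
noncomputable def xc225 : XT := (XT.nd (nat_lit 1248) (nat_lit 1140) (nat_lit 0) (XT.nd (nat_lit 624) (nat_lit 684) (nat_lit 0) (XT.nd (nat_lit 312) (nat_lit 380) (nat_lit 0) (XT.nd (nat_lit 156) (nat_lit 152) (nat_lit 0) (XT.nd (nat_lit 78) (nat_lit 152) (nat_lit 0) (XT.lf (nat_lit 0) (nat_lit 19324086494) (nat_lit 228) (nat_lit 2740324721) (nat_lit 76) (nat_lit 4020667342) (nat_lit 80) (nat_lit 5) (nat_lit 83) (nat_lit 5) (nat_lit 81) (nat_lit 4) (nat_lit 459) (nat_lit 408) (nat_lit 333)) (XT.lf (nat_lit 0) (nat_lit 821242879) (nat_lit 152) (nat_lit 12424346050) (nat_lit 76) (nat_lit 13665843094) (nat_lit 78) (nat_lit 5) (nat_lit 80) (nat_lit 5) (nat_lit 79) (nat_lit 5) (nat_lit 460) (nat_lit 408) (nat_lit 332))) (XT.nd (nat_lit 78) (nat_lit 0) (nat_lit 0) (XT.lf (nat_lit 0) (nat_lit 4898933355) (nat_lit 152) (nat_lit 3757808696) (nat_lit 228) (nat_lit 19111751481) (nat_lit 76) (nat_lit 5) (nat_lit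 78) (nat_lit 5) (nat_lit 79) (nat_lit 5) (nat_lit 461) (nat_lit 408) (nat_lit 331)) (XT.lf (nat_lit 0) (nat_lit 17172614524) (nat_lit 228) (nat_lit 5279130204) (nat_lit 76) (nat_lit 6202233919) (nat_lit 76) (nat_lit 5) (nat_lit 79) (nat_lit 5) (nat_lit 77) (nat_lit 4) (nat_lit 462) (nat_lit 408) (nat_lit 330)))) (XT.nd (nat_lit 156) (nat_lit 76) (nat_lit 0) (XT.nd (nat_lit 78) (nat_lit 228) (nat_lit 0) (XT.lf (nat_lit 0) (nat_lit 13523336853) (nat_lit 76) (nat_lit 12842607418) (nat_lit 152) (nat_lit 3205210997) (nat_lit 75) (nat_lit 5) (nat_lit 76) (nat_lit 5) (nat_lit 77) (nat_lit 4) (nat_lit 463) (nat_lit 408) (nat_lit 329)) (XT.lf (nat_lit 0) (nat_lit 2885974688) (nat_lit 152) (nat_lit 2538150112) (nat_lit 228) (nat_lit 25100038631) (nat_lit 72) (nat_lit 5) (nat_lit 74) (nat_lit 5) (nat_lit 75) (nat_lit 5) (nat_lit 464) (nat_lit 408) (nat_lit 328))) (XT.nd (nat_lit 78) (nat_lit 76) (nat_lit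 0) (XT.lf (nat_lit 0) (nat_lit 14761865467) (nat_lit 228) (nat_lit 8412843070) (nat_lit 76) (nat_lit 8328253902) (nat_lit 72) (nat_lit 5) (nat_lit 75) (nat_lit 5) (nat_lit 73) (nat_lit 4) (nat_lit 465) (nat_lit 408) (nat_lit 327)) (XT.lf (nat_lit 0) (nat_lit 12081793022) (nat_lit 76) (nat_lit 12695057292) (nat_lit 152) (nat_lit 7743333580) (nat_lit 71) (nat_lit 5) (nat_lit 72) (nat_lit 5) (nat_lit 73) (nat_lit 4) (nat_lit 466) (nat_lit 408) (nat_lit 326))))) (XT.nd (nat_lit 312) (nat_lit 380) (nat_lit 0) (XT.nd (nat_lit 156) (nat_lit 76) (nat_lit 0) (XT.nd (nat_lit 78) (nat_lit 0) (nat_lit 0) (XT.lf (nat_lit 0) (nat_lit 254164443) (nat_lit 152) (nat_lit 1524559068) (nat_lit 228) (nat_lit 31801765055) (nat_lit 68) (nat_lit 5) (nat_lit 70) (nat_lit 5) (nat_lit 71) (nat_lit 5) (nat_lit 467) (nat_lit 408) (nat_lit 325)) (XT.lf (nat_lit 0) (nat_lit 12008067603) (nat_lit 228) (nat_lit 12314740404) (nat_lit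 76) (nat_lit 10340083230) (nat_lit 68) (nat_lit 5) (nat_lit 71) (nat_lit 5) (nat_lit 69) (nat_lit 4) (nat_lit 468) (nat_lit 408) (nat_lit 324))) (XT.nd (nat_lit 78) (nat_lit 0) (nat_lit 0) (XT.lf (nat_lit 0) (nat_lit 10007271156) (nat_lit 76) (nat_lit 12904063279) (nat_lit 152) (nat_lit 12879957119) (nat_lit 67) (nat_lit 5) (nat_lit 68) (nat_lit 5) (nat_lit 69) (nat_lit 4) (nat_lit 469) (nat_lit 408) (nat_lit 323)) (XT.lf (nat_lit 0) (nat_lit 33838041362) (nat_lit 76) (nat_lit 711850175) (nat_lit 152) (nat_lit 2416714281) (nat_lit 67) (nat_lit 5) (nat_lit 68) (nat_lit 5) (nat_lit 69) (nat_lit 4) (nat_lit 470) (nat_lit 408) (nat_lit 322)))) (XT.nd (nat_lit 156) (nat_lit 152) (nat_lit 0) (XT.nd (nat_lit 78) (nat_lit 76) (nat_lit 0) (XT.lf (nat_lit 0) (nat_lit 8804205265) (nat_lit 152) (nat_lit 17204866696) (nat_lit 76) (nat_lit 12159484331) (nat_lit 65) (nat_lit 5) (nat_lit 67) (nat_lit 5) (nat_lit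 66) (nat_lit 4) (nat_lit 471) (nat_lit 408) (nat_lit 321)) (XT.lf (nat_lit 0) (nat_lit 7081828813) (nat_lit 76) (nat_lit 13581458305) (nat_lit 152) (nat_lit 18757419809) (nat_lit 64) (nat_lit 5) (nat_lit 65) (nat_lit 5) (nat_lit 66) (nat_lit 4) (nat_lit 472) (nat_lit 408) (nat_lit 320))) (XT.nd (nat_lit 78) (nat_lit 152) (nat_lit 0) (XT.lf (nat_lit 0) (nat_lit 33146824570) (nat_lit 76) (nat_lit 242440636) (nat_lit 152) (nat_lit 7332503008) (nat_lit 64) (nat_lit 5) (nat_lit 65) (nat_lit 5) (nat_lit 66) (nat_lit 4) (nat_lit 473) (nat_lit 408) (nat_lit 319)) (XT.lf (nat_lit 0) (nat_lit 5013721793) (nat_lit 152) (nat_lit 23363128265) (nat_lit 76) (nat_lit 13682425654) (nat_lit 62) (nat_lit 5) (nat_lit 64) (nat_lit 5) (nat_lit 63) (nat_lit 4) (nat_lit 474) (nat_lit 408) (nat_lit 318)))))) (XT.nd (nat_lit 624) (nat_lit 608) (nat_lit 0) (XT.nd (nat_lit 312) (nat_lit 304) (nat_lit 0) (XT.nd (nat_lit 156)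 (nat_lit 152) (nat_lit 0) (XT.nd (nat_lit 78) (nat_lit 0) (nat_lit 0) (XT.lf (nat_lit 0) (nat_lit 3024671512) (nat_lit 76) (nat_lit 14870948845) (nat_lit 152) (nat_lit 25553789042) (nat_lit 61) (nat_lit 5) (nat_lit 62) (nat_lit 5) (nat_lit 63) (nat_lit 4) (nat_lit 475) (nat_lit 408) (nat_lit 317)) (XT.lf (nat_lit 0) (nat_lit 31511110590) (nat_lit 76) (nat_lit 289668099) (nat_lit 152) (nat_lit 13089313026) (nat_lit 61) (nat_lit 5) (nat_lit 62) (nat_lit 5) (nat_lit 63) (nat_lit 4) (nat_lit 476) (nat_lit 408) (nat_lit 316))) (XT.nd (nat_lit 78) (nat_lit 0) (nat_lit 0) (XT.lf (nat_lit 0) (nat_lit 462455497) (nat_lit 152) (nat_lit 31145975765) (nat_lit 76) (nat_lit 14771177461) (nat_lit 59) (nat_lit 5) (nat_lit 61) (nat_lit 5) (nat_lit 60) (nat_lit 4) (nat_lit 477) (nat_lit 408) (nat_lit 315)) (XT.lf (nat_lit 0) (nat_lit 14471052160) (nat_lit 152) (nat_lit 2444882572) (nat_lit 76) (nat_lit 31005981742)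 (nat_lit 59) (nat_lit 5) (nat_lit 61) (nat_lit 5) (nat_lit 60) (nat_lit 4) (nat_lit 478) (nat_lit 408) (nat_lit 314)))) (XT.nd (nat_lit 156) (nat_lit 152) (nat_lit 0) (XT.nd (nat_lit 78) (nat_lit 76) (nat_lit 0) (XT.lf (nat_lit 0) (nat_lit 28576428748) (nat_lit 76) (nat_lit 1034649825) (nat_lit 152) (nat_lit 19908711199) (nat_lit 58) (nat_lit 5) (nat_lit 59) (nat_lit 5) (nat_lit 60) (nat_lit 4) (nat_lit 479) (nat_lit 408) (nat_lit 313)) (XT.lf (nat_lit 0) (nat_lit 10086651844) (nat_lit 76) (nat_lit 35850105525) (nat_lit 76) (nat_lit 5239366959) (nat_lit 57) (nat_lit 4) (nat_lit 58) (nat_lit 5) (nat_lit 58) (nat_lit 4) (nat_lit 480) (nat_lit 408) (nat_lit 312))) (XT.nd (nat_lit 78) (nat_lit 76) (nat_lit 0) (XT.lf (nat_lit 0) (nat_lit 10200526425) (nat_lit 152) (nat_lit 9713258638) (nat_lit 76) (nat_lit 32975437907) (nat_lit 56) (nat_lit 5) (nat_lit 58) (nat_lit 5) (nat_lit 57) (nat_lit 4) (nat_lit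 481) (nat_lit 408) (nat_lit 311)) (XT.lf (nat_lit 0) (nat_lit 23882125087) (nat_lit 76) (nat_lit 2712711283) (nat_lit 152) (nat_lit 28070920791) (nat_lit 55) (nat_lit 5) (nat_lit 56) (nat_lit 5) (nat_lit 57) (nat_lit 4) (nat_lit 482) (nat_lit 408) (nat_lit 310))))) (XT.nd (nat_lit 312) (nat_lit 380) (nat_lit 0) (XT.nd (nat_lit 156) (nat_lit 76) (nat_lit 0) (XT.nd (nat_lit 78) (nat_lit 76) (nat_lit 0) (XT.lf (nat_lit 0) (nat_lit 2790422448) (nat_lit 76) (nat_lit 41454505447) (nat_lit 76) (nat_lit 12264386981) (nat_lit 54) (nat_lit 4) (nat_lit 55) (nat_lit 5) (nat_lit 55) (nat_lit 4) (nat_lit 483) (nat_lit 408) (nat_lit 309)) (XT.lf (nat_lit 0) (nat_lit 4753851404) (nat_lit 152) (nat_lit 19455911217) (nat_lit 76) (nat_lit 34203903659) (nat_lit 53) (nat_lit 5) (nat_lit 55) (nat_lit 5) (nat_lit 54) (nat_lit 4) (nat_lit 484) (nat_lit 408) (nat_lit 308))) (XT.nd (nat_lit 78) (nat_lit 0) (nat_lit 0) (XT.lf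 (nat_lit 0) (nat_lit 16831017193) (nat_lit 76) (nat_lit 5628972638) (nat_lit 152) (nat_lit 37930735155) (nat_lit 52) (nat_lit 5) (nat_lit 53) (nat_lit 5) (nat_lit 54) (nat_lit 4) (nat_lit 485) (nat_lit 408) (nat_lit 307)) (XT.lf (nat_lit 0) (nat_lit 41589456979) (nat_lit 152) (nat_lit 7091402561) (nat_lit 0) (nat_lit 13758876095) (nat_lit 52) (nat_lit 5) (nat_lit 54) (nat_lit 4) (nat_lit 52) (nat_lit 4) (nat_lit 486) (nat_lit 408) (nat_lit 306)))) (XT.nd (nat_lit 156) (nat_lit 152) (nat_lit 0) (XT.nd (nat_lit 78) (nat_lit 152) (nat_lit 0) (XT.lf (nat_lit 0) (nat_lit 32110168089) (nat_lit 76) (nat_lit 30145890576) (nat_lit 76) (nat_lit 2306105188) (nat_lit 51) (nat_lit 4) (nat_lit 52) (nat_lit 5) (nat_lit 52) (nat_lit 4) (nat_lit 487) (nat_lit 408) (nat_lit 305)) (XT.lf (nat_lit 0) (nat_lit 6650587211) (nat_lit 76) (nat_lit 10178260980) (nat_lit 152) (nat_lit 49937817107) (nat_lit 49) (nat_lit 5)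 (nat_lit 50) (nat_lit 5) (nat_lit 51) (nat_lit 4) (nat_lit 488) (nat_lit 408) (nat_lit 304))) (XT.nd (nat_lit 78) (nat_lit 152) (nat_lit 0) (XT.lf (nat_lit 0) (nat_lit 37557171184) (nat_lit 152) (nat_lit 20459834446) (nat_lit 0) (nat_lit 11026789909) (nat_lit 49) (nat_lit 5) (nat_lit 51) (nat_lit 4) (nat_lit 49) (nat_lit 4) (nat_lit 489) (nat_lit 408) (nat_lit 303)) (XT.nd (nat_lit 78) (nat_lit 76) (nat_lit 0) (XT.lf (nat_lit 0) (nat_lit 21681902053) (nat_lit 76) (nat_lit 38133090035) (nat_lit 76) (nat_lit 11595136192) (nat_lit 48) (nat_lit 4) (nat_lit 49) (nat_lit 5) (nat_lit 49) (nat_lit 4) (nat_lit 490) (nat_lit 408) (nat_lit 302)) (XT.lf (nat_lit 0) (nat_lit 9333458006) (nat_lit 152) (nat_lit 7411576898) (nat_lit 76) (nat_lit 57125494988) (nat_lit 47) (nat_lit 5) (nat_lit 49) (nat_lit 5) (nat_lit 48) (nat_lit 4) (nat_lit 491) (nat_lit 408) (nat_lit 301))))))))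
noncomputable def xc226 : XT := (XT.nd (nat_lit 1248) (nat_lit 988) (nat_lit 0) (XT.nd (nat_lit 624) (nat_lit 456) (nat_lit 0) (XT.nd (nat_lit 312) (nat_lit 228) (nat_lit 0) (XT.nd (nat_lit 156) (nat_lit 152) (nat_lit 0) (XT.nd (nat_lit 78) (nat_lit 76) (nat_lit 0) (XT.lf (nat_lit 0) (nat_lit 31602640667) (nat_lit 152) (nat_lit 38492626310) (nat_lit 0) (nat_lit 6314988900) (nat_lit 46) (nat_lit 5) (nat_lit 48) (nat_lit 4) (nat_lit 46) (nat_lit 4) (nat_lit 492) (nat_lit 408) (nat_lit 300)) (XT.lf (nat_lit 0) (nat_lit 6611676644) (nat_lit 76) (nat_lit 48867245663) (nat_lit 76) (nat_lit 23573363925) (nat_lit 45) (nat_lit 4) (nat_lit 46) (nat_lit 5) (nat_lit 46) (nat_lit 4) (nat_lit 493) (nat_lit 408) (nat_lit 299))) (XT.nd (nat_lit 78) (nat_lit 152) (nat_lit 0) (XT.lf (nat_lit 0) (nat_lit 55284658254) (nat_lit 76) (nat_lit 25904777046) (nat_lit 76) (nat_lit 604962002) (nat_lit 45) (nat_lit 4) (nat_lit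 46) (nat_lit 5) (nat_lit 46) (nat_lit 4) (nat_lit 494) (nat_lit 408) (nat_lit 298)) (XT.lf (nat_lit 0) (nat_lit 22033612460) (nat_lit 76) (nat_lit 1058620842) (nat_lit 152) (nat_lit 61546381396) (nat_lit 43) (nat_lit 5) (nat_lit 44) (nat_lit 5) (nat_lit 45) (nat_lit 4) (nat_lit 495) (nat_lit 408) (nat_lit 297)))) (XT.nd (nat_lit 156) (nat_lit 152) (nat_lit 0) (XT.nd (nat_lit 78) (nat_lit 76) (nat_lit 0) (XT.lf (nat_lit 0) (nat_lit 48789969718) (nat_lit 152) (nat_lit 14108376148) (nat_lit 0) (nat_lit 24684400677) (nat_lit 43) (nat_lit 5) (nat_lit 45) (nat_lit 4) (nat_lit 43) (nat_lit 4) (nat_lit 496) (nat_lit 408) (nat_lit 296)) (XT.lf (nat_lit 0) (nat_lit 37990510452) (nat_lit 76) (nat_lit 38382014191) (nat_lit 76) (nat_lit 14271563805) (nat_lit 42) (nat_lit 4) (nat_lit 43) (nat_lit 5) (nat_lit 43) (nat_lit 4) (nat_lit 497) (nat_lit 408) (nat_lit 295))) (XT.nd (nat_lit 78) (nat_lit 76) (nat_lit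 0) (XT.lf (nat_lit 0) (nat_lit 11340711258) (nat_lit 152) (nat_lit 866641207) (nat_lit 76) (nat_lit 81630571839) (nat_lit 41) (nat_lit 5) (nat_lit 43) (nat_lit 5) (nat_lit 42) (nat_lit 4) (nat_lit 498) (nat_lit 408) (nat_lit 294)) (XT.lf (nat_lit 0) (nat_lit 38859152232) (nat_lit 152) (nat_lit 42377168928) (nat_lit 0) (nat_lit 15888174318) (nat_lit 40) (nat_lit 5) (nat_lit 42) (nat_lit 4) (nat_lit 40) (nat_lit 4) (nat_lit 499) (nat_lit 408) (nat_lit 293))))) (XT.nd (nat_lit 312) (nat_lit 228) (nat_lit 0) (XT.nd (nat_lit 156) (nat_lit 152) (nat_lit 0) (XT.nd (nat_lit 78) (nat_lit 0) (nat_lit 0) (XT.lf (nat_lit 0) (nat_lit 12786129864) (nat_lit 76) (nat_lit 55372013887) (nat_lit 76) (nat_lit 32397020078) (nat_lit 39) (nat_lit 4) (nat_lit 40) (nat_lit 5) (nat_lit 40) (nat_lit 4) (nat_lit 500) (nat_lit 408) (nat_lit 292)) (XT.lf (nat_lit 0) (nat_lit 72158994279) (nat_lit 76) (nat_lit 27470899686) (nat_lit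 76) (nat_lit 4492081215) (nat_lit 39) (nat_lit 4) (nat_lit 40) (nat_lit 5) (nat_lit 40) (nat_lit 4) (nat_lit 501) (nat_lit 408) (nat_lit 291))) (XT.nd (nat_lit 78) (nat_lit 0) (nat_lit 0) (XT.lf (nat_lit 0) (nat_lit 24469181985) (nat_lit 152) (nat_lit 80774700479) (nat_lit 0) (nat_lit 2581123885) (nat_lit 37) (nat_lit 5) (nat_lit 39) (nat_lit 4) (nat_lit 37) (nat_lit 4) (nat_lit 502) (nat_lit 408) (nat_lit 290)) (XT.lf (nat_lit 0) (nat_lit 55718528501) (nat_lit 152) (nat_lit 22114262885) (nat_lit 0) (nat_lit 33827166514) (nat_lit 37) (nat_lit 5) (nat_lit 39) (nat_lit 4) (nat_lit 37) (nat_lit 4) (nat_lit 503) (nat_lit 408) (nat_lit 289)))) (XT.nd (nat_lit 156) (nat_lit 76) (nat_lit 0) (XT.nd (nat_lit 78) (nat_lit 76) (nat_lit 0) (XT.lf (nat_lit 0) (nat_lit 40765645610) (nat_lit 76) (nat_lit 48392075527) (nat_lit 76) (nat_lit 26497566982) (nat_lit 36) (nat_lit 4) (nat_lit 37) (nat_lit 5) (nat_lit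 37) (nat_lit 4) (nat_lit 504) (nat_lit 408) (nat_lit 288)) (XT.lf (nat_lit 0) (nat_lit 4648642499) (nat_lit 152) (nat_lit 12367788143) (nat_lit 76) (nat_lit 102811926330) (nat_lit 35) (nat_lit 5) (nat_lit 37) (nat_lit 5) (nat_lit 36) (nat_lit 4) (nat_lit 505) (nat_lit 408) (nat_lit 287))) (XT.nd (nat_lit 78) (nat_lit 0) (nat_lit 0) (XT.lf (nat_lit 0) (nat_lit 37574723533) (nat_lit 152) (nat_lit 69840745297) (nat_lit 0) (nat_lit 16717238495) (nat_lit 34) (nat_lit 5) (nat_lit 36) (nat_lit 4) (nat_lit 34) (nat_lit 4) (nat_lit 506) (nat_lit 408) (nat_lit 286)) (XT.lf (nat_lit 0) (nat_lit 72630313883) (nat_lit 152) (nat_lit 4227560911) (nat_lit 0) (nat_lit 51770240164) (nat_lit 34) (nat_lit 5) (nat_lit 36) (nat_lit 4) (nat_lit 34) (nat_lit 4) (nat_lit 507) (nat_lit 408) (nat_lit 285)))))) (XT.nd (nat_lit 624) (nat_lit 456) (nat_lit 0) (XT.nd (nat_lit 312) (nat_lit 228) (nat_lit 0) (XT.nd (nat_lit 156)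 (nat_lit 76) (nat_lit 0) (XT.nd (nat_lit 78) (nat_lit 152) (nat_lit 0) (XT.lf (nat_lit 0) (nat_lit 66787275197) (nat_lit 76) (nat_lit 43685915784) (nat_lit 76) (nat_lit 22823376655) (nat_lit 33) (nat_lit 4) (nat_lit 34) (nat_lit 5) (nat_lit 34) (nat_lit 4) (nat_lit 508) (nat_lit 408) (nat_lit 284)) (XT.lf (nat_lit 0) (nat_lit 3201942249) (nat_lit 76) (nat_lit 8537974525) (nat_lit 152) (nat_lit 126443424120) (nat_lit 31) (nat_lit 5) (nat_lit 32) (nat_lit 5) (nat_lit 33) (nat_lit 4) (nat_lit 509) (nat_lit 408) (nat_lit 283))) (XT.nd (nat_lit 78) (nat_lit 76) (nat_lit 0) (XT.lf (nat_lit 0) (nat_lit 48843867843) (nat_lit 152) (nat_lit 65402484860) (nat_lit 0) (nat_lit 28970417043) (nat_lit 31) (nat_lit 5) (nat_lit 33) (nat_lit 4) (nat_lit 31) (nat_lit 4) (nat_lit 510) (nat_lit 408) (nat_lit 282)) (XT.lf (nat_lit 0) (nat_lit 7747540622) (nat_lit 76) (nat_lit 80308576748) (nat_lit 76) (nat_lit 60433097648)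 (nat_lit 30) (nat_lit 4) (nat_lit 31) (nat_lit 5) (nat_lit 31) (nat_lit 4) (nat_lit 511) (nat_lit 408) (nat_lit 281)))) (XT.nd (nat_lit 156) (nat_lit 76) (nat_lit 0) (XT.nd (nat_lit 78) (nat_lit 152) (nat_lit 0) (XT.lf (nat_lit 0) (nat_lit 86810112524) (nat_lit 76) (nat_lit 43518792295) (nat_lit 76) (nat_lit 23641381481) (nat_lit 30) (nat_lit 4) (nat_lit 31) (nat_lit 5) (nat_lit 31) (nat_lit 4) (nat_lit 512) (nat_lit 408) (nat_lit 280)) (XT.lf (nat_lit 0) (nat_lit 10177009204) (nat_lit 76) (nat_lit 4484580915) (nat_lit 152) (nat_lit 145044547277) (nat_lit 28) (nat_lit 5) (nat_lit 29) (nat_lit 5) (nat_lit 30) (nat_lit 4) (nat_lit 513) (nat_lit 408) (nat_lit 279))) (XT.nd (nat_lit 78) (nat_lit 76) (nat_lit 0) (XT.lf (nat_lit 0) (nat_lit 55803683674) (nat_lit 152) (nat_lit 72950399845) (nat_lit 0) (nat_lit 36869395423) (nat_lit 28) (nat_lit 5) (nat_lit 30) (nat_lit 4) (nat_lit 28) (nat_lit 4) (nat_lit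 514) (nat_lit 408) (nat_lit 278)) (XT.lf (nat_lit 0) (nat_lit 7613039023) (nat_lit 76) (nat_lit 91575130819) (nat_lit 76) (nat_lit 72639253343) (nat_lit 27) (nat_lit 4) (nat_lit 28) (nat_lit 5) (nat_lit 28) (nat_lit 4) (nat_lit 515) (nat_lit 408) (nat_lit 277))))) (XT.nd (nat_lit 312) (nat_lit 304) (nat_lit 0) (XT.nd (nat_lit 156) (nat_lit 0) (nat_lit 0) (XT.nd (nat_lit 78) (nat_lit 152) (nat_lit 0) (XT.lf (nat_lit 0) (nat_lit 94723181843) (nat_lit 76) (nat_lit 51247175005) (nat_lit 76) (nat_lit 32309783980) (nat_lit 27) (nat_lit 4) (nat_lit 28) (nat_lit 5) (nat_lit 28) (nat_lit 4) (nat_lit 516) (nat_lit 408) (nat_lit 276)) (XT.lf (nat_lit 0) (nat_lit 994793510) (nat_lit 76) (nat_lit 8728926494) (nat_lit 152) (nat_lit 175323500690) (nat_lit 25) (nat_lit 5) (nat_lit 26) (nat_lit 5) (nat_lit 27) (nat_lit 4) (nat_lit 517) (nat_lit 408) (nat_lit 275))) (XT.nd (nat_lit 78) (nat_lit 0) (nat_lit 0) (XT.lf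 (nat_lit 0) (nat_lit 54765345469) (nat_lit 152) (nat_lit 100534157647) (nat_lit 0) (nat_lit 36727054676) (nat_lit 25) (nat_lit 5) (nat_lit 27) (nat_lit 4) (nat_lit 25) (nat_lit 4) (nat_lit 518) (nat_lit 408) (nat_lit 274)) (XT.lf (nat_lit 0) (nat_lit 102195724509) (nat_lit 152) (nat_lit 12996115119) (nat_lit 0) (nat_lit 84156188516) (nat_lit 25) (nat_lit 5) (nat_lit 27) (nat_lit 4) (nat_lit 25) (nat_lit 4) (nat_lit 519) (nat_lit 408) (nat_lit 273)))) (XT.nd (nat_lit 156) (nat_lit 228) (nat_lit 0) (XT.nd (nat_lit 78) (nat_lit 0) (nat_lit 0) (XT.lf (nat_lit 0) (nat_lit 81515409494) (nat_lit 76) (nat_lit 71748778087) (nat_lit 76) (nat_lit 53708056189) (nat_lit 24) (nat_lit 4) (nat_lit 25) (nat_lit 5) (nat_lit 25) (nat_lit 4) (nat_lit 520) (nat_lit 408) (nat_lit 272)) (XT.lf (nat_lit 0) (nat_lit 181191484250) (nat_lit 76) (nat_lit 25908666708) (nat_lit 76) (nat_lit 7866815376) (nat_lit 24) (nat_lit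 4) (nat_lit 25) (nat_lit 5) (nat_lit 25) (nat_lit 4) (nat_lit 521) (nat_lit 408) (nat_lit 271))) (XT.nd (nat_lit 78) (nat_lit 76) (nat_lit 0) (XT.lf (nat_lit 0) (nat_lit 40342990463) (nat_lit 152) (nat_lit 159759486353) (nat_lit 0) (nat_lit 23159250480) (nat_lit 22) (nat_lit 5) (nat_lit 24) (nat_lit 4) (nat_lit 22) (nat_lit 4) (nat_lit 522) (nat_lit 408) (nat_lit 270)) (XT.nd (nat_lit 78) (nat_lit 76) (nat_lit 0) (XT.lf (nat_lit 0) (nat_lit 91699201129) (nat_lit 152) (nat_lit 65701076924) (nat_lit 0) (nat_lit 74514485499) (nat_lit 22) (nat_lit 5) (nat_lit 24) (nat_lit 4) (nat_lit 22) (nat_lit 4) (nat_lit 523) (nat_lit 408) (nat_lit 269)) (XT.lf (nat_lit 0) (nat_lit 34141729271) (nat_lit 76) (nat_lit 112008996014) (nat_lit 76) (nat_lit 94823351197) (nat_lit 21) (nat_lit 4) (nat_lit 22) (nat_lit 5) (nat_lit 22) (nat_lit 4) (nat_lit 524) (nat_lit 408) (nat_lit 268))))))))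
noncomputable def xc227 : XT := (XT.nd (nat_lit 1248) (nat_lit 456) (nat_lit 0) (XT.nd (nat_lit 624) (nat_lit 228) (nat_lit 0) (XT.nd (nat_lit 312) (nat_lit 228) (nat_lit 0) (XT.nd (nat_lit 156) (nat_lit 76) (nat_lit 0) (XT.nd (nat_lit 78) (nat_lit 76) (nat_lit 0) (XT.lf (nat_lit 0) (nat_lit 141246578361) (nat_lit 76) (nat_lit 63185472600) (nat_lit 76) (nat_lit 45998942842) (nat_lit 21) (nat_lit 4) (nat_lit 22) (nat_lit 5) (nat_lit 22) (nat_lit 4) (nat_lit 525) (nat_lit 408) (nat_lit 267)) (XT.lf (nat_lit 0) (nat_lit 5092839431) (nat_lit 152) (nat_lit 6747051722) (nat_lit 76) (nat_lit 248517018441) (nat_lit 20) (nat_lit 5) (nat_lit 22) (nat_lit 5) (nat_lit 21) (nat_lit 4) (nat_lit 526) (nat_lit 408) (nat_lit 266))) (XT.nd (nat_lit 78) (nat_lit 0) (nat_lit 0) (XT.lf (nat_lit 0) (nat_lit 59497603336) (nat_lit 152) (nat_lit 168000688217) (nat_lit 0) (nat_lit 43127912646) (nat_lit 19) (nat_lit 5) (nat_lit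 21) (nat_lit 4) (nat_lit 19) (nat_lit 4) (nat_lit 527) (nat_lit 408) (nat_lit 265)) (XT.lf (nat_lit 0) (nat_lit 116927814051) (nat_lit 152) (nat_lit 63908493742) (nat_lit 0) (nat_lit 100557395318) (nat_lit 19) (nat_lit 5) (nat_lit 21) (nat_lit 4) (nat_lit 19) (nat_lit 4) (nat_lit 528) (nat_lit 408) (nat_lit 264)))) (XT.nd (nat_lit 156) (nat_lit 152) (nat_lit 0) (XT.nd (nat_lit 78) (nat_lit 0) (nat_lit 0) (XT.lf (nat_lit 0) (nat_lit 46878989804) (nat_lit 76) (nat_lit 131077671491) (nat_lit 76) (nat_lit 114706559384) (nat_lit 18) (nat_lit 4) (nat_lit 19) (nat_lit 5) (nat_lit 19) (nat_lit 4) (nat_lit 529) (nat_lit 408) (nat_lit 263)) (XT.lf (nat_lit 0) (nat_lit 165415022146) (nat_lit 76) (nat_lit 77699541895) (nat_lit 76) (nat_lit 61327769431) (nat_lit 18) (nat_lit 4) (nat_lit 19) (nat_lit 5) (nat_lit 19) (nat_lit 4) (nat_lit 530) (nat_lit 408) (nat_lit 262))) (XT.nd (nat_lit 78) (nat_lit 152) (nat_lit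 0) (XT.lf (nat_lit 0) (nat_lit 289868728509) (nat_lit 76) (nat_lit 21657149486) (nat_lit 76) (nat_lit 5284748113) (nat_lit 18) (nat_lit 4) (nat_lit 19) (nat_lit 5) (nat_lit 19) (nat_lit 4) (nat_lit 531) (nat_lit 408) (nat_lit 261)) (XT.lf (nat_lit 0) (nat_lit 53909868310) (nat_lit 152) (nat_lit 237425933394) (nat_lit 0) (nat_lit 38316534656) (nat_lit 16) (nat_lit 5) (nat_lit 18) (nat_lit 4) (nat_lit 16) (nat_lit 4) (nat_lit 532) (nat_lit 408) (nat_lit 260))))) (XT.nd (nat_lit 312) (nat_lit 152) (nat_lit 0) (XT.nd (nat_lit 156) (nat_lit 76) (nat_lit 0) (XT.nd (nat_lit 78) (nat_lit 0) (nat_lit 0) (XT.lf (nat_lit 0) (nat_lit 116701064027) (nat_lit 152) (nat_lit 125282826713) (nat_lit 0) (nat_lit 101107187097) (nat_lit 16) (nat_lit 5) (nat_lit 18) (nat_lit 4) (nat_lit 16) (nat_lit 4) (nat_lit 533) (nat_lit 408) (nat_lit 259)) (XT.lf (nat_lit 0) (nat_lit 182627687579) (nat_lit 152) (nat_lit 7540982169)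 (nat_lit 0) (nat_lit 167033293242) (nat_lit 16) (nat_lit 5) (nat_lit 18) (nat_lit 4) (nat_lit 16) (nat_lit 4) (nat_lit 534) (nat_lit 408) (nat_lit 258))) (XT.nd (nat_lit 78) (nat_lit 0) (nat_lit 0) (XT.lf (nat_lit 0) (nat_lit 119918064942) (nat_lit 76) (nat_lit 133800899238) (nat_lit 76) (nat_lit 118206012133) (nat_lit 15) (nat_lit 4) (nat_lit 16) (nat_lit 5) (nat_lit 16) (nat_lit 4) (nat_lit 535) (nat_lit 408) (nat_lit 257)) (XT.lf (nat_lit 0) (nat_lit 254003982944) (nat_lit 76) (nat_lit 74484660904) (nat_lit 76) (nat_lit 58889304496) (nat_lit 15) (nat_lit 4) (nat_lit 16) (nat_lit 5) (nat_lit 16) (nat_lit 4) (nat_lit 536) (nat_lit 408) (nat_lit 256)))) (XT.nd (nat_lit 156) (nat_lit 0) (nat_lit 0) (XT.nd (nat_lit 78) (nat_lit 76) (nat_lit 0) (XT.lf (nat_lit 0) (nat_lit 3280886642) (nat_lit 152) (nat_lit 8869985745) (nat_lit 76) (nat_lit 391450235050) (nat_lit 14) (nat_lit 5) (nat_lit 16) (nat_lit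 5) (nat_lit 15) (nat_lit 4) (nat_lit 537) (nat_lit 408) (nat_lit 255)) (XT.lf (nat_lit 0) (nat_lit 69406622791) (nat_lit 152) (nat_lit 296486155333) (nat_lit 0) (nat_lit 54553071330) (nat_lit 13) (nat_lit 5) (nat_lit 15) (nat_lit 4) (nat_lit 13) (nat_lit 4) (nat_lit 538) (nat_lit 408) (nat_lit 254))) (XT.nd (nat_lit 78) (nat_lit 0) (nat_lit 0) (XT.lf (nat_lit 0) (nat_lit 139186953164) (nat_lit 152) (nat_lit 174595444433) (nat_lit 0) (nat_lit 124333015607) (nat_lit 13) (nat_lit 5) (nat_lit 15) (nat_lit 4) (nat_lit 13) (nat_lit 4) (nat_lit 539) (nat_lit 408) (nat_lit 253)) (XT.lf (nat_lit 0) (nat_lit 212452902634) (nat_lit 152) (nat_lit 46617125019) (nat_lit 0) (nat_lit 197598597365) (nat_lit 13) (nat_lit 5) (nat_lit 15) (nat_lit 4) (nat_lit 13) (nat_lit 4) (nat_lit 540) (nat_lit 408) (nat_lit 252)))))) (XT.nd (nat_lit 624) (nat_lit 152) (nat_lit 0) (XT.nd (nat_lit 312) (nat_lit 76) (nat_lit 0) (XT.nd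 (nat_lit 156) (nat_lit 152) (nat_lit 0) (XT.nd (nat_lit 78) (nat_lit 0) (nat_lit 0) (XT.lf (nat_lit 0) (nat_lit 90655040646) (nat_lit 76) (nat_lit 200139252535) (nat_lit 76) (nat_lit 185284597065) (nat_lit 12) (nat_lit 4) (nat_lit 13) (nat_lit 5) (nat_lit 13) (nat_lit 4) (nat_lit 541) (nat_lit 408) (nat_lit 251)) (XT.lf (nat_lit 0) (nat_lit 236402765145) (nat_lit 76) (nat_lit 137436288777) (nat_lit 76) (nat_lit 122581299783) (nat_lit 12) (nat_lit 4) (nat_lit 13) (nat_lit 5) (nat_lit 13) (nat_lit 4) (nat_lit 542) (nat_lit 408) (nat_lit 250))) (XT.nd (nat_lit 78) (nat_lit 152) (nat_lit 0) (XT.lf (nat_lit 0) (nat_lit 389431694188) (nat_lit 76) (nat_lit 71601327178) (nat_lit 76) (nat_lit 56746020541) (nat_lit 12) (nat_lit 4) (nat_lit 13) (nat_lit 5) (nat_lit 13) (nat_lit 4) (nat_lit 543) (nat_lit 408) (nat_lit 249)) (XT.lf (nat_lit 0) (nat_lit 10028079532) (nat_lit 76) (nat_lit 2110305192) (nat_lit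 152) (nat_lit 528049933069) (nat_lit 10) (nat_lit 5) (nat_lit 11) (nat_lit 5) (nat_lit 12) (nat_lit 4) (nat_lit 544) (nat_lit 408) (nat_lit 248)))) (XT.nd (nat_lit 156) (nat_lit 76) (nat_lit 0) (XT.nd (nat_lit 78) (nat_lit 0) (nat_lit 0) (XT.lf (nat_lit 0) (nat_lit 85872545416) (nat_lit 152) (nat_lit 405909298421) (nat_lit 0) (nat_lit 71724071830) (nat_lit 10) (nat_lit 5) (nat_lit 12) (nat_lit 4) (nat_lit 10) (nat_lit 4) (nat_lit 545) (nat_lit 408) (nat_lit 247)) (XT.lf (nat_lit 0) (nat_lit 163325215622) (nat_lit 152) (nat_lit 275486107030) (nat_lit 0) (nat_lit 149176480711) (nat_lit 10) (nat_lit 5) (nat_lit 12) (nat_lit 4) (nat_lit 10) (nat_lit 4) (nat_lit 546) (nat_lit 408) (nat_lit 246))) (XT.nd (nat_lit 78) (nat_lit 76) (nat_lit 0) (XT.lf (nat_lit 0) (nat_lit 244647858685) (nat_lit 152) (nat_lit 138547184903) (nat_lit 0) (nat_lit 230498874893) (nat_lit 10) (nat_lit 5) (nat_lit 12) (nat_lit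 4) (nat_lit 10) (nat_lit 4) (nat_lit 547) (nat_lit 408) (nat_lit 245)) (XT.lf (nat_lit 0) (nat_lit 5406556587) (nat_lit 76) (nat_lit 324711954857) (nat_lit 76) (nat_lit 310562734035) (nat_lit 9) (nat_lit 4) (nat_lit 10) (nat_lit 5) (nat_lit 10) (nat_lit 4) (nat_lit 548) (nat_lit 408) (nat_lit 244))))) (XT.nd (nat_lit 312) (nat_lit 152) (nat_lit 0) (XT.nd (nat_lit 156) (nat_lit 0) (nat_lit 0) (XT.nd (nat_lit 78) (nat_lit 0) (nat_lit 0) (XT.lf (nat_lit 0) (nat_lit 161362943639) (nat_lit 76) (nat_lit 260843624105) (nat_lit 76) (nat_lit 246694177540) (nat_lit 9) (nat_lit 4) (nat_lit 10) (nat_lit 5) (nat_lit 10) (nat_lit 4) (nat_lit 549) (nat_lit 408) (nat_lit 243)) (XT.lf (nat_lit 0) (nat_lit 325112305353) (nat_lit 76) (nat_lit 193784347493) (nat_lit 76) (nat_lit 179634685935) (nat_lit 9) (nat_lit 4) (nat_lit 10) (nat_lit 5) (nat_lit 10) (nat_lit 4) (nat_lit 550) (nat_lit 408) (nat_lit 242))) (XT.nd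 (nat_lit 78) (nat_lit 0) (nat_lit 0) (XT.lf (nat_lit 0) (nat_lit 497044521162) (nat_lit 76) (nat_lit 123374460078) (nat_lit 76) (nat_lit 109224593765) (nat_lit 9) (nat_lit 4) (nat_lit 10) (nat_lit 5) (nat_lit 10) (nat_lit 4) (nat_lit 551) (nat_lit 408) (nat_lit 241)) (XT.lf (nat_lit 0) (nat_lit 677568953484) (nat_lit 76) (nat_lit 49446319270) (nat_lit 76) (nat_lit 35296257952) (nat_lit 9) (nat_lit 4) (nat_lit 10) (nat_lit 5) (nat_lit 10) (nat_lit 4) (nat_lit 552) (nat_lit 408) (nat_lit 240)))) (XT.nd (nat_lit 51246) (nat_lit 0) (nat_lit 14060) (XT.nd (nat_lit 78) (nat_lit 0) (nat_lit 0) (XT.lf (nat_lit 0) (nat_lit 42567319522) (nat_lit 152) (nat_lit 724841947525) (nat_lit 0) (nat_lit 29090893773) (nat_lit 7) (nat_lit 5) (nat_lit 9) (nat_lit 4) (nat_lit 7) (nat_lit 4) (nat_lit 553) (nat_lit 408) (nat_lit 239)) (XT.lf (nat_lit 0) (nat_lit 125405085456) (nat_lit 152) (nat_lit 594922354608) (nat_lit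 0) (nat_lit 111928491254) (nat_lit 7) (nat_lit 5) (nat_lit 9) (nat_lit 4) (nat_lit 7) (nat_lit 4) (nat_lit 554) (nat_lit 408) (nat_lit 238))) (XT.nd (nat_lit 78) (nat_lit 0) (nat_lit 0) (XT.lf (nat_lit 0) (nat_lit 385871156) (nat_lit 0) (nat_lit 385871156) (nat_lit 532) (nat_lit 2915911536) (nat_lit 192) (nat_lit 5) (nat_lit 192) (nat_lit 3) (nat_lit 199) (nat_lit 3) (nat_lit 409) (nat_lit 409) (nat_lit 382)) (XT.nd (nat_lit 78) (nat_lit 0) (nat_lit 0) (XT.lf (nat_lit 0) (nat_lit 3126105981) (nat_lit 532) (nat_lit 2927080187) (nat_lit 608) (nat_lit 1429157445) (nat_lit 192) (nat_lit 5) (nat_lit 199) (nat_lit 3) (nat_lit 200) (nat_lit 5) (nat_lit 410) (nat_lit 409) (nat_lit 381)) (XT.lf (nat_lit 76) (nat_lit 894901810) (nat_lit 0) (nat_lit 3822978150) (nat_lit 608) (nat_lit 2880359574) (nat_lit 193) (nat_lit 5) (nat_lit 192) (nat_lit 5) (nat_lit 200) (nat_lit 5) (nat_lit 411) (nat_lit 409) (nat_lit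 380))))))))
noncomputable def xc228 : XT := (XT.nd (nat_lit 1248) (nat_lit 2888) (nat_lit 0) (XT.nd (nat_lit 624) (nat_lit 2736) (nat_lit 0) (XT.nd (nat_lit 312) (nat_lit 532) (nat_lit 0) (XT.nd (nat_lit 156) (nat_lit 0) (nat_lit 0) (XT.nd (nat_lit 78) (nat_lit 532) (nat_lit 0) (XT.lf (nat_lit 76) (nat_lit 4956162232) (nat_lit 0) (nat_lit 1389815748) (nat_lit 608) (nat_lit 1376124347) (nat_lit 193) (nat_lit 5) (nat_lit 192) (nat_lit 5) (nat_lit 200) (nat_lit 5) (nat_lit 412) (nat_lit 409) (nat_lit 379)) (XT.lf (nat_lit 0) (nat_lit 147241407) (nat_lit 608) (nat_lit 6519960838) (nat_lit 684) (nat_lit 1187283997) (nat_lit 185) (nat_lit 5) (nat_lit 193) (nat_lit 5) (nat_lit 194) (nat_lit 5) (nat_lit 413) (nat_lit 409) (nat_lit 378))) (XT.nd (nat_lit 78) (nat_lit 0) (nat_lit 0) (XT.lf (nat_lit 0) (nat_lit 1685023694) (nat_lit 608) (nat_lit 2359075460) (nat_lit 684) (nat_lit 3949045115) (nat_lit 185)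 (nat_lit 5) (nat_lit 193) (nat_lit 5) (nat_lit 194) (nat_lit 5) (nat_lit 414) (nat_lit 409) (nat_lit 377)) (XT.lf (nat_lit 76) (nat_lit 2019383825) (nat_lit 0) (nat_lit 1230030689) (nat_lit 684) (nat_lit 4891841988) (nat_lit 186) (nat_lit 5) (nat_lit 185) (nat_lit 5) (nat_lit 194) (nat_lit 5) (nat_lit 415) (nat_lit 409) (nat_lit 376)))) (XT.nd (nat_lit 156) (nat_lit 608) (nat_lit 0) (XT.nd (nat_lit 78) (nat_lit 0) (nat_lit 0) (XT.lf (nat_lit 0) (nat_lit 4881183570) (nat_lit 608) (nat_lit 1682234510) (nat_lit 684) (nat_lit 1733905260) (nat_lit 186) (nat_lit 5) (nat_lit 194) (nat_lit 5) (nat_lit 195) (nat_lit 5) (nat_lit 416) (nat_lit 409) (nat_lit 375)) (XT.lf (nat_lit 76) (nat_lit 2999467956) (nat_lit 0) (nat_lit 3587423484) (nat_lit 684) (nat_lit 1874691163) (nat_lit 187) (nat_lit 5) (nat_lit 186) (nat_lit 5) (nat_lit 195) (nat_lit 5) (nat_lit 417) (nat_lit 409) (nat_lit 374))) (XT.nd (nat_lit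 78) (nat_lit 608) (nat_lit 0) (XT.lf (nat_lit 76) (nat_lit 7918803326) (nat_lit 0) (nat_lit 415624692) (nat_lit 684) (nat_lit 301805930) (nat_lit 187) (nat_lit 5) (nat_lit 186) (nat_lit 5) (nat_lit 195) (nat_lit 5) (nat_lit 418) (nat_lit 409) (nat_lit 373)) (XT.lf (nat_lit 0) (nat_lit 1351633451) (nat_lit 684) (nat_lit 4538505340) (nat_lit 76) (nat_lit 2926175647) (nat_lit 178) (nat_lit 5) (nat_lit 187) (nat_lit 5) (nat_lit 179) (nat_lit 5) (nat_lit 419) (nat_lit 409) (nat_lit 372))))) (XT.nd (nat_lit 312) (nat_lit 1292) (nat_lit 0) (XT.nd (nat_lit 156) (nat_lit 760) (nat_lit 0) (XT.nd (nat_lit 78) (nat_lit 0) (nat_lit 0) (XT.lf (nat_lit 0) (nat_lit 489383016) (nat_lit 684) (nat_lit 2548062697) (nat_lit 760) (nat_lit 5969719111) (nat_lit 169) (nat_lit 5) (nat_lit 178) (nat_lit 5) (nat_lit 179) (nat_lit 5) (nat_lit 420) (nat_lit 409) (nat_lit 371)) (XT.lf (nat_lit 0) (nat_lit 4836155530) (nat_lit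 760) (nat_lit 3353439210) (nat_lit 76) (nat_lit 1016537811) (nat_lit 169) (nat_lit 5) (nat_lit 179) (nat_lit 5) (nat_lit 170) (nat_lit 5) (nat_lit 421) (nat_lit 409) (nat_lit 370))) (XT.nd (nat_lit 78) (nat_lit 0) (nat_lit 0) (XT.lf (nat_lit 0) (nat_lit 2035653817) (nat_lit 760) (nat_lit 4701252607) (nat_lit 836) (nat_lit 2677541885) (nat_lit 159) (nat_lit 5) (nat_lit 169) (nat_lit 5) (nat_lit 170) (nat_lit 5) (nat_lit 422) (nat_lit 409) (nat_lit 369)) (XT.lf (nat_lit 0) (nat_lit 7754693434) (nat_lit 760) (nat_lit 975398201) (nat_lit 836) (nat_lit 903223073) (nat_lit 159) (nat_lit 5) (nat_lit 169) (nat_lit 5) (nat_lit 170) (nat_lit 5) (nat_lit 423) (nat_lit 409) (nat_lit 368)))) (XT.nd (nat_lit 156) (nat_lit 760) (nat_lit 0) (XT.nd (nat_lit 78) (nat_lit 0) (nat_lit 0) (XT.lf (nat_lit 0) (nat_lit 980453796) (nat_lit 532) (nat_lit 5956393647) (nat_lit 76) (nat_lit 2922963865) (nat_lit 152) (nat_lit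 5) (nat_lit 159) (nat_lit 5) (nat_lit 153) (nat_lit 5) (nat_lit 424) (nat_lit 409) (nat_lit 367)) (XT.lf (nat_lit 0) (nat_lit 2920699883) (nat_lit 532) (nat_lit 144669696) (nat_lit 76) (nat_lit 7031889884) (nat_lit 152) (nat_lit 5) (nat_lit 159) (nat_lit 5) (nat_lit 153) (nat_lit 5) (nat_lit 425) (nat_lit 409) (nat_lit 366))) (XT.nd (nat_lit 78) (nat_lit 380) (nat_lit 0) (XT.lf (nat_lit 0) (nat_lit 5017378257) (nat_lit 456) (nat_lit 4263157985) (nat_lit 76) (nat_lit 1063076643) (nat_lit 147) (nat_lit 5) (nat_lit 153) (nat_lit 5) (nat_lit 148) (nat_lit 5) (nat_lit 426) (nat_lit 409) (nat_lit 365)) (XT.lf (nat_lit 0) (nat_lit 1976644601) (nat_lit 380) (nat_lit 5274559474) (nat_lit 456) (nat_lit 3349467903) (nat_lit 142) (nat_lit 5) (nat_lit 147) (nat_lit 5) (nat_lit 148) (nat_lit 5) (nat_lit 427) (nat_lit 409) (nat_lit 364)))))) (XT.nd (nat_lit 624) (nat_lit 1292) (nat_lit 0) (XT.nd (nat_lit 312)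 (nat_lit 912) (nat_lit 0) (XT.nd (nat_lit 156) (nat_lit 304) (nat_lit 0) (XT.nd (nat_lit 78) (nat_lit 380) (nat_lit 0) (XT.lf (nat_lit 0) (nat_lit 8621323066) (nat_lit 380) (nat_lit 997888910) (nat_lit 456) (nat_lit 1250251009) (nat_lit 142) (nat_lit 5) (nat_lit 147) (nat_lit 5) (nat_lit 148) (nat_lit 5) (nat_lit 428) (nat_lit 409) (nat_lit 363)) (XT.lf (nat_lit 0) (nat_lit 1001718685) (nat_lit 380) (nat_lit 6683366294) (nat_lit 76) (nat_lit 3461950884) (nat_lit 137) (nat_lit 5) (nat_lit 142) (nat_lit 5) (nat_lit 138) (nat_lit 5) (nat_lit 429) (nat_lit 409) (nat_lit 362))) (XT.nd (nat_lit 78) (nat_lit 0) (nat_lit 0) (XT.lf (nat_lit 0) (nat_lit 61576018) (nat_lit 304) (nat_lit 3271949939) (nat_lit 380) (nat_lit 8103476871) (nat_lit 133) (nat_lit 5) (nat_lit 137) (nat_lit 5) (nat_lit 138) (nat_lit 5) (nat_lit 430) (nat_lit 409) (nat_lit 361)) (XT.lf (nat_lit 0) (nat_lit 5872697122) (nat_lit 380)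 (nat_lit 4439816392) (nat_lit 76) (nat_lit 1424418830) (nat_lit 133) (nat_lit 5) (nat_lit 138) (nat_lit 5) (nat_lit 134) (nat_lit 5) (nat_lit 431) (nat_lit 409) (nat_lit 360)))) (XT.nd (nat_lit 156) (nat_lit 608) (nat_lit 0) (XT.nd (nat_lit 78) (nat_lit 0) (nat_lit 0) (XT.lf (nat_lit 0) (nat_lit 2825378436) (nat_lit 304) (nat_lit 5767836922) (nat_lit 380) (nat_lit 3455926294) (nat_lit 129) (nat_lit 5) (nat_lit 133) (nat_lit 5) (nat_lit 134) (nat_lit 5) (nat_lit 432) (nat_lit 409) (nat_lit 359)) (XT.lf (nat_lit 0) (nat_lit 10554856827) (nat_lit 304) (nat_lit 927966594) (nat_lit 380) (nat_lit 892487420) (nat_lit 129) (nat_lit 5) (nat_lit 133) (nat_lit 5) (nat_lit 134) (nat_lit 5) (nat_lit 433) (nat_lit 409) (nat_lit 358))) (XT.nd (nat_lit 78) (nat_lit 228) (nat_lit 0) (XT.lf (nat_lit 0) (nat_lit 1862178432) (nat_lit 380) (nat_lit 6713201286) (nat_lit 76) (nat_lit 4134974761) (nat_lit 124) (nat_lit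 5) (nat_lit 129) (nat_lit 5) (nat_lit 125) (nat_lit 5) (nat_lit 434) (nat_lit 409) (nat_lit 357)) (XT.lf (nat_lit 0) (nat_lit 1162176649) (nat_lit 228) (nat_lit 3587285100) (nat_lit 304) (nat_lit 8310715379) (nat_lit 121) (nat_lit 5) (nat_lit 124) (nat_lit 5) (nat_lit 125) (nat_lit 5) (nat_lit 435) (nat_lit 409) (nat_lit 356))))) (XT.nd (nat_lit 312) (nat_lit 684) (nat_lit 0) (XT.nd (nat_lit 156) (nat_lit 304) (nat_lit 0) (XT.nd (nat_lit 78) (nat_lit 304) (nat_lit 0) (XT.lf (nat_lit 0) (nat_lit 7883488657) (nat_lit 304) (nat_lit 3838826788) (nat_lit 76) (nat_lit 1700058642) (nat_lit 121) (nat_lit 5) (nat_lit 125) (nat_lit 5) (nat_lit 122) (nat_lit 5) (nat_lit 436) (nat_lit 409) (nat_lit 355)) (XT.lf (nat_lit 0) (nat_lit 4662505153) (nat_lit 304) (nat_lit 6606228626) (nat_lit 380) (nat_lit 2529223318) (nat_lit 117) (nat_lit 5) (nat_lit 121) (nat_lit 5) (nat_lit 122) (nat_lit 5) (nat_lit 437) (nat_lit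 409) (nat_lit 354))) (XT.nd (nat_lit 78) (nat_lit 228) (nat_lit 0) (XT.lf (nat_lit 0) (nat_lit 640106146) (nat_lit 380) (nat_lit 529416732) (nat_lit 76) (nat_lit 13020836827) (nat_lit 116) (nat_lit 5) (nat_lit 121) (nat_lit 5) (nat_lit 117) (nat_lit 5) (nat_lit 438) (nat_lit 409) (nat_lit 353)) (XT.lf (nat_lit 0) (nat_lit 4057247762) (nat_lit 304) (nat_lit 5974236229) (nat_lit 76) (nat_lit 4560109879) (nat_lit 113) (nat_lit 5) (nat_lit 117) (nat_lit 5) (nat_lit 114) (nat_lit 5) (nat_lit 439) (nat_lit 409) (nat_lit 352)))) (XT.nd (nat_lit 156) (nat_lit 456) (nat_lit 0) (XT.nd (nat_lit 78) (nat_lit 0) (nat_lit 0) (XT.lf (nat_lit 0) (nat_lit 3262675115) (nat_lit 228) (nat_lit 4427529274) (nat_lit 304) (nat_lit 7320439140) (nat_lit 110) (nat_lit 5) (nat_lit 113) (nat_lit 5) (nat_lit 114) (nat_lit 5) (nat_lit 440) (nat_lit 409) (nat_lit 351)) (XT.lf (nat_lit 0) (nat_lit 11596741080) (nat_lit 304) (nat_lit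 2351607880) (nat_lit 76) (nat_lit 1497701704) (nat_lit 110) (nat_lit 5) (nat_lit 114) (nat_lit 5) (nat_lit 111) (nat_lit 5) (nat_lit 441) (nat_lit 409) (nat_lit 350))) (XT.nd (nat_lit 78) (nat_lit 304) (nat_lit 0) (XT.lf (nat_lit 0) (nat_lit 7638403464) (nat_lit 152) (nat_lit 8219997659) (nat_lit 228) (nat_lit 36838733) (nat_lit 108) (nat_lit 5) (nat_lit 110) (nat_lit 5) (nat_lit 111) (nat_lit 5) (nat_lit 442) (nat_lit 409) (nat_lit 349)) (XT.nd (nat_lit 78) (nat_lit 0) (nat_lit 0) (XT.lf (nat_lit 0) (nat_lit 1791070859) (nat_lit 228) (nat_lit 2084912959) (nat_lit 304) (nat_lit 12485976202) (nat_lit 104) (nat_lit 5) (nat_lit 107) (nat_lit 5) (nat_lit 108) (nat_lit 5) (nat_lit 443) (nat_lit 409) (nat_lit 348)) (XT.lf (nat_lit 0) (nat_lit 8162101897) (nat_lit 304) (nat_lit 4336763498) (nat_lit 76) (nat_lit 4344177298) (nat_lit 104) (nat_lit 5) (nat_lit 108) (nat_lit 5) (nat_lit 105) (nat_lit 5) (nat_lit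 444) (nat_lit 409) (nat_lit 347))))))))
noncomputable def xc229 : XT := (XT.nd (nat_lit 1248) (nat_lit 1444) (nat_lit 0) (XT.nd (nat_lit 624) (nat_lit 836) (nat_lit 0) (XT.nd (nat_lit 312) (nat_lit 380) (nat_lit 0) (XT.nd (nat_lit 156) (nat_lit 228) (nat_lit 0) (XT.nd (nat_lit 78) (nat_lit 228) (nat_lit 0) (XT.lf (nat_lit 0) (nat_lit 6537609025) (nat_lit 152) (nat_lit 6231397322) (nat_lit 228) (nat_lit 4573850387) (nat_lit 102) (nat_lit 5) (nat_lit 104) (nat_lit 5) (nat_lit 105) (nat_lit 5) (nat_lit 445) (nat_lit 409) (nat_lit 346)) (XT.lf (nat_lit 0) (nat_lit 194883186) (nat_lit 228) (nat_lit 17465193712) (nat_lit 304) (nat_lit 204894729) (nat_lit 99) (nat_lit 5) (nat_lit 102) (nat_lit 5) (nat_lit 103) (nat_lit 5) (nat_lit 446) (nat_lit 409) (nat_lit 345))) (XT.nd (nat_lit 78) (nat_lit 152) (nat_lit 0) (XT.lf (nat_lit 0) (nat_lit 4501264518) (nat_lit 304) (nat_lit 6504639925) (nat_lit 76) (nat_lit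 7390916573) (nat_lit 98) (nat_lit 5) (nat_lit 102) (nat_lit 5) (nat_lit 99) (nat_lit 5) (nat_lit 447) (nat_lit 409) (nat_lit 344)) (XT.lf (nat_lit 0) (nat_lit 5341763769) (nat_lit 152) (nat_lit 4149746276) (nat_lit 228) (nat_lit 9460802711) (nat_lit 96) (nat_lit 5) (nat_lit 98) (nat_lit 5) (nat_lit 99) (nat_lit 5) (nat_lit 448) (nat_lit 409) (nat_lit 343)))) (XT.nd (nat_lit 156) (nat_lit 152) (nat_lit 0) (XT.nd (nat_lit 78) (nat_lit 228) (nat_lit 0) (XT.lf (nat_lit 0) (nat_lit 14863467709) (nat_lit 228) (nat_lit 1618462579) (nat_lit 76) (nat_lit 3047039786) (nat_lit 96) (nat_lit 5) (nat_lit 99) (nat_lit 5) (nat_lit 97) (nat_lit 5) (nat_lit 449) (nat_lit 409) (nat_lit 342)) (XT.lf (nat_lit 0) (nat_lit 578448190) (nat_lit 228) (nat_lit 8911720845) (nat_lit 76) (nat_lit 10632967943) (nat_lit 93) (nat_lit 5) (nat_lit 96) (nat_lit 5) (nat_lit 94) (nat_lit 5) (nat_lit 450) (nat_lit 409) (nat_lit 341)))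 (XT.nd (nat_lit 78) (nat_lit 0) (nat_lit 0) (XT.lf (nat_lit 0) (nat_lit 4001168048) (nat_lit 152) (nat_lit 1991056319) (nat_lit 228) (nat_lit 14747743551) (nat_lit 91) (nat_lit 5) (nat_lit 93) (nat_lit 5) (nat_lit 94) (nat_lit 5) (nat_lit 451) (nat_lit 409) (nat_lit 340)) (XT.lf (nat_lit 0) (nat_lit 11896328653) (nat_lit 228) (nat_lit 3648920176) (nat_lit 76) (nat_lit 5831410421) (nat_lit 91) (nat_lit 5) (nat_lit 94) (nat_lit 5) (nat_lit 92) (nat_lit 5) (nat_lit 452) (nat_lit 409) (nat_lit 339))))) (XT.nd (nat_lit 312) (nat_lit 304) (nat_lit 0) (XT.nd (nat_lit 156) (nat_lit 152) (nat_lit 0) (XT.nd (nat_lit 78) (nat_lit 228) (nat_lit 0) (XT.lf (nat_lit 0) (nat_lit 10352640753) (nat_lit 152) (nat_lit 7912881421) (nat_lit 228) (nat_lit 3771169545) (nat_lit 89) (nat_lit 5) (nat_lit 91) (nat_lit 5) (nat_lit 92) (nat_lit 5) (nat_lit 453) (nat_lit 409) (nat_lit 338)) (XT.lf (nat_lit 0) (nat_lit 2232708198)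 (nat_lit 228) (nat_lit 20272144068) (nat_lit 76) (nat_lit 219117384) (nat_lit 86) (nat_lit 5) (nat_lit 89) (nat_lit 5) (nat_lit 87) (nat_lit 5) (nat_lit 454) (nat_lit 409) (nat_lit 337))) (XT.nd (nat_lit 78) (nat_lit 152) (nat_lit 0) (XT.lf (nat_lit 0) (nat_lit 8716869891) (nat_lit 228) (nat_lit 5972265102) (nat_lit 76) (nat_lit 8738044725) (nat_lit 86) (nat_lit 5) (nat_lit 89) (nat_lit 5) (nat_lit 87) (nat_lit 5) (nat_lit 455) (nat_lit 409) (nat_lit 336)) (XT.lf (nat_lit 0) (nat_lit 9300371562) (nat_lit 152) (nat_lit 6347204216) (nat_lit 228) (nat_lit 8511858339) (nat_lit 84) (nat_lit 5) (nat_lit 86) (nat_lit 5) (nat_lit 87) (nat_lit 5) (nat_lit 456) (nat_lit 409) (nat_lit 335)))) (XT.nd (nat_lit 156) (nat_lit 152) (nat_lit 0) (XT.nd (nat_lit 78) (nat_lit 76) (nat_lit 0) (XT.lf (nat_lit 0) (nat_lit 559204754) (nat_lit 76) (nat_lit 22492143415) (nat_lit 152) (nat_lit 1870627112) (nat_lit 83) (nat_lit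 5) (nat_lit 84) (nat_lit 5) (nat_lit 85) (nat_lit 4) (nat_lit 457) (nat_lit 409) (nat_lit 334)) (XT.lf (nat_lit 0) (nat_lit 5276613840) (nat_lit 152) (nat_lit 8673866234) (nat_lit 76) (nat_lit 11751317366) (nat_lit 82) (nat_lit 5) (nat_lit 84) (nat_lit 5) (nat_lit 83) (nat_lit 5) (nat_lit 458) (nat_lit 409) (nat_lit 333))) (XT.nd (nat_lit 78) (nat_lit 0) (nat_lit 0) (XT.lf (nat_lit 0) (nat_lit 7986119372) (nat_lit 152) (nat_lit 4835434078) (nat_lit 228) (nat_lit 13692364378) (nat_lit 80) (nat_lit 5) (nat_lit 82) (nat_lit 5) (nat_lit 83) (nat_lit 5) (nat_lit 459) (nat_lit 409) (nat_lit 332)) (XT.lf (nat_lit 0) (nat_lit 20945667759) (nat_lit 228) (nat_lit 1693877547) (nat_lit 76) (nat_lit 4717003044) (nat_lit 80) (nat_lit 5) (nat_lit 83) (nat_lit 5) (nat_lit 81) (nat_lit 4) (nat_lit 460) (nat_lit 409) (nat_lit 331)))))) (XT.nd (nat_lit 624) (nat_lit 532) (nat_lit 0) (XT.nd (nat_lit 312) (nat_lit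 532) (nat_lit 0) (XT.nd (nat_lit 156) (nat_lit 76) (nat_lit 0) (XT.nd (nat_lit 78) (nat_lit 152) (nat_lit 0) (XT.lf (nat_lit 0) (nat_lit 1515197084) (nat_lit 152) (nat_lit 11859586633) (nat_lit 76) (nat_lit 14849561436) (nat_lit 78) (nat_lit 5) (nat_lit 80) (nat_lit 5) (nat_lit 79) (nat_lit 5) (nat_lit 461) (nat_lit 409) (nat_lit 330)) (XT.lf (nat_lit 0) (nat_lit 6310728085) (nat_lit 152) (nat_lit 3418870799) (nat_lit 228) (nat_lit 19395305130) (nat_lit 76) (nat_lit 5) (nat_lit 78) (nat_lit 5) (nat_lit 79) (nat_lit 5) (nat_lit 462) (nat_lit 409) (nat_lit 329))) (XT.nd (nat_lit 78) (nat_lit 76) (nat_lit 0) (XT.lf (nat_lit 0) (nat_lit 18648621439) (nat_lit 228) (nat_lit 4409146724) (nat_lit 76) (nat_lit 6998028029) (nat_lit 76) (nat_lit 5) (nat_lit 79) (nat_lit 5) (nat_lit 77) (nat_lit 4) (nat_lit 463) (nat_lit 409) (nat_lit 328)) (XT.lf (nat_lit 0) (nat_lit 15315154332) (nat_lit 76) (nat_lit 12974482908)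 (nat_lit 152) (nat_lit 2729794024) (nat_lit 75) (nat_lit 5) (nat_lit 76) (nat_lit 5) (nat_lit 77) (nat_lit 4) (nat_lit 464) (nat_lit 409) (nat_lit 327)))) (XT.nd (nat_lit 156) (nat_lit 304) (nat_lit 0) (XT.nd (nat_lit 78) (nat_lit 0) (nat_lit 0) (XT.lf (nat_lit 0) (nat_lit 4147958413) (nat_lit 152) (nat_lit 2150853176) (nat_lit 228) (nat_lit 25721375119) (nat_lit 72) (nat_lit 5) (nat_lit 74) (nat_lit 5) (nat_lit 75) (nat_lit 5) (nat_lit 465) (nat_lit 409) (nat_lit 326)) (XT.lf (nat_lit 0) (nat_lit 16082348000) (nat_lit 228) (nat_lit 7747921688) (nat_lit 76) (nat_lit 9218711062) (nat_lit 72) (nat_lit 5) (nat_lit 75) (nat_lit 5) (nat_lit 73) (nat_lit 4) (nat_lit 466) (nat_lit 409) (nat_lit 325))) (XT.nd (nat_lit 78) (nat_lit 228) (nat_lit 0) (XT.lf (nat_lit 0) (nat_lit 13753937119) (nat_lit 76) (nat_lit 12833087471) (nat_lit 152) (nat_lit 7530592055) (nat_lit 71) (nat_lit 5) (nat_lit 72) (nat_lit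 5) (nat_lit 73) (nat_lit 4) (nat_lit 467) (nat_lit 409) (nat_lit 324)) (XT.lf (nat_lit 0) (nat_lit 1336600781) (nat_lit 152) (nat_lit 1100815022) (nat_lit 228) (nat_lit 32793600447) (nat_lit 68) (nat_lit 5) (nat_lit 70) (nat_lit 5) (nat_lit 71) (nat_lit 5) (nat_lit 468) (nat_lit 409) (nat_lit 323))))) (XT.nd (nat_lit 312) (nat_lit 304) (nat_lit 0) (XT.nd (nat_lit 156) (nat_lit 152) (nat_lit 0) (XT.nd (nat_lit 78) (nat_lit 76) (nat_lit 0) (XT.lf (nat_lit 0) (nat_lit 13158530107) (nat_lit 228) (nat_lit 11891983237) (nat_lit 76) (nat_lit 11318010985) (nat_lit 68) (nat_lit 5) (nat_lit 71) (nat_lit 5) (nat_lit 69) (nat_lit 4) (nat_lit 469) (nat_lit 409) (nat_lit 322)) (XT.lf (nat_lit 0) (nat_lit 11529378994) (nat_lit 76) (nat_lit 13067340286) (nat_lit 152) (nat_lit 12957137837) (nat_lit 67) (nat_lit 5) (nat_lit 68) (nat_lit 5) (nat_lit 69) (nat_lit 4) (nat_lit 470) (nat_lit 409) (nat_lit 321))) (XT.nd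 (nat_lit 78) (nat_lit 152) (nat_lit 0) (XT.lf (nat_lit 0) (nat_lit 36503033221) (nat_lit 76) (nat_lit 288465391) (nat_lit 152) (nat_lit 1997724149) (nat_lit 67) (nat_lit 5) (nat_lit 68) (nat_lit 5) (nat_lit 69) (nat_lit 4) (nat_lit 471) (nat_lit 409) (nat_lit 320)) (XT.lf (nat_lit 0) (nat_lit 9764499139) (nat_lit 152) (nat_lit 17072263645) (nat_lit 76) (nat_lit 13214210137) (nat_lit 65) (nat_lit 5) (nat_lit 67) (nat_lit 5) (nat_lit 66) (nat_lit 4) (nat_lit 472) (nat_lit 409) (nat_lit 319)))) (XT.nd (nat_lit 156) (nat_lit 228) (nat_lit 0) (XT.nd (nat_lit 78) (nat_lit 0) (nat_lit 0) (XT.lf (nat_lit 0) (nat_lit 8412752988) (nat_lit 76) (nat_lit 13794267307) (nat_lit 152) (nat_lit 19159186866) (nat_lit 64) (nat_lit 5) (nat_lit 65) (nat_lit 5) (nat_lit 66) (nat_lit 4) (nat_lit 473) (nat_lit 409) (nat_lit 318)) (XT.lf (nat_lit 0) (nat_lit 35547943085) (nat_lit 152) (nat_lit 7002013381) (nat_lit 0) (nat_lit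 183433075) (nat_lit 64) (nat_lit 5) (nat_lit 66) (nat_lit 4) (nat_lit 64) (nat_lit 4) (nat_lit 474) (nat_lit 409) (nat_lit 317))) (XT.nd (nat_lit 78) (nat_lit 76) (nat_lit 0) (XT.lf (nat_lit 0) (nat_lit 5756613965) (nat_lit 152) (nat_lit 23582586883) (nat_lit 76) (nat_lit 14798422583) (nat_lit 62) (nat_lit 5) (nat_lit 64) (nat_lit 5) (nat_lit 63) (nat_lit 4) (nat_lit 475) (nat_lit 409) (nat_lit 316)) (XT.nd (nat_lit 78) (nat_lit 0) (nat_lit 0) (XT.lf (nat_lit 0) (nat_lit 4109301306) (nat_lit 76) (nat_lit 15164440697) (nat_lit 152) (nat_lit 26323965347) (nat_lit 61) (nat_lit 5) (nat_lit 62) (nat_lit 5) (nat_lit 63) (nat_lit 4) (nat_lit 476) (nat_lit 409) (nat_lit 315)) (XT.lf (nat_lit 0) (nat_lit 33853085402) (nat_lit 152) (nat_lit 13137903326) (nat_lit 0) (nat_lit 120488958) (nat_lit 61) (nat_lit 5) (nat_lit 63) (nat_lit 4) (nat_lit 61) (nat_lit 4) (nat_lit 477) (nat_lit 409) (nat_lit 314))))))))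
noncomputable def xc230 : XT := (XT.nd (nat_lit 1248) (nat_lit 1140) (nat_lit 0) (XT.nd (nat_lit 624) (nat_lit 532) (nat_lit 0) (XT.nd (nat_lit 312) (nat_lit 304) (nat_lit 0) (XT.nd (nat_lit 156) (nat_lit 152) (nat_lit 0) (XT.nd (nat_lit 78) (nat_lit 0) (nat_lit 0) (XT.lf (nat_lit 0) (nat_lit 951786013) (nat_lit 152) (nat_lit 31797177942) (nat_lit 76) (nat_lit 15926310076) (nat_lit 59) (nat_lit 5) (nat_lit 61) (nat_lit 5) (nat_lit 60) (nat_lit 4) (nat_lit 478) (nat_lit 409) (nat_lit 313)) (XT.lf (nat_lit 0) (nat_lit 15638612141) (nat_lit 152) (nat_lit 1704177547) (nat_lit 76) (nat_lit 32953017726) (nat_lit 59) (nat_lit 5) (nat_lit 61) (nat_lit 5) (nat_lit 60) (nat_lit 4) (nat_lit 479) (nat_lit 409) (nat_lit 312))) (XT.nd (nat_lit 78) (nat_lit 76) (nat_lit 0) (XT.lf (nat_lit 0) (nat_lit 30854280804) (nat_lit 76) (nat_lit 673471609) (nat_lit 152) (nat_lit 20446216552) (nat_lit 58) (nat_lit 5) (nat_lit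 59) (nat_lit 5) (nat_lit 60) (nat_lit 4) (nat_lit 480) (nat_lit 409) (nat_lit 311)) (XT.lf (nat_lit 0) (nat_lit 11441436815) (nat_lit 76) (nat_lit 37226928373) (nat_lit 76) (nat_lit 5044822764) (nat_lit 57) (nat_lit 4) (nat_lit 58) (nat_lit 5) (nat_lit 58) (nat_lit 4) (nat_lit 481) (nat_lit 409) (nat_lit 310)))) (XT.nd (nat_lit 156) (nat_lit 152) (nat_lit 0) (XT.nd (nat_lit 78) (nat_lit 76) (nat_lit 0) (XT.lf (nat_lit 0) (nat_lit 11131411118) (nat_lit 152) (nat_lit 9375047731) (nat_lit 76) (nat_lit 35006178637) (nat_lit 56) (nat_lit 5) (nat_lit 58) (nat_lit 5) (nat_lit 57) (nat_lit 4) (nat_lit 482) (nat_lit 409) (nat_lit 309)) (XT.lf (nat_lit 0) (nat_lit 25886816893) (nat_lit 76) (nat_lit 2451234304) (nat_lit 152) (nat_lit 29040316633) (nat_lit 55) (nat_lit 5) (nat_lit 56) (nat_lit 5) (nat_lit 57) (nat_lit 4) (nat_lit 483) (nat_lit 409) (nat_lit 308))) (XT.nd (nat_lit 78) (nat_lit 76) (nat_lit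 0) (XT.lf (nat_lit 0) (nat_lit 3741698808) (nat_lit 76) (nat_lit 43127837874) (nat_lit 76) (nat_lit 12444622450) (nat_lit 54) (nat_lit 4) (nat_lit 55) (nat_lit 5) (nat_lit 55) (nat_lit 4) (nat_lit 484) (nat_lit 409) (nat_lit 307)) (XT.lf (nat_lit 0) (nat_lit 5390711301) (nat_lit 152) (nat_lit 19642405222) (nat_lit 76) (nat_lit 36281271650) (nat_lit 53) (nat_lit 5) (nat_lit 55) (nat_lit 5) (nat_lit 54) (nat_lit 4) (nat_lit 485) (nat_lit 409) (nat_lit 306))))) (XT.nd (nat_lit 312) (nat_lit 228) (nat_lit 0) (XT.nd (nat_lit 156) (nat_lit 228) (nat_lit 0) (XT.nd (nat_lit 78) (nat_lit 0) (nat_lit 0) (XT.lf (nat_lit 0) (nat_lit 18446187326) (nat_lit 76) (nat_lit 5529039720) (nat_lit 152) (nat_lit 39415419393) (nat_lit 52) (nat_lit 5) (nat_lit 53) (nat_lit 5) (nat_lit 54) (nat_lit 4) (nat_lit 486) (nat_lit 409) (nat_lit 305)) (XT.lf (nat_lit 0) (nat_lit 44048160454) (nat_lit 152) (nat_lit 6696182561) (nat_lit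 0) (nat_lit 14798415099) (nat_lit 52) (nat_lit 5) (nat_lit 54) (nat_lit 4) (nat_lit 52) (nat_lit 4) (nat_lit 487) (nat_lit 409) (nat_lit 304))) (XT.nd (nat_lit 78) (nat_lit 152) (nat_lit 0) (XT.lf (nat_lit 0) (nat_lit 34453373232) (nat_lit 76) (nat_lit 31288177904) (nat_lit 76) (nat_lit 2030083792) (nat_lit 51) (nat_lit 4) (nat_lit 52) (nat_lit 5) (nat_lit 52) (nat_lit 4) (nat_lit 488) (nat_lit 409) (nat_lit 303)) (XT.lf (nat_lit 0) (nat_lit 7721240333) (nat_lit 76) (nat_lit 10321338028) (nat_lit 152) (nat_lit 52043803420) (nat_lit 49) (nat_lit 5) (nat_lit 50) (nat_lit 5) (nat_lit 51) (nat_lit 4) (nat_lit 489) (nat_lit 409) (nat_lit 302)))) (XT.nd (nat_lit 156) (nat_lit 152) (nat_lit 0) (XT.nd (nat_lit 78) (nat_lit 76) (nat_lit 0) (XT.lf (nat_lit 0) (nat_lit 39795029253) (nat_lit 152) (nat_lit 20767560627) (nat_lit 0) (nat_lit 11915393180) (nat_lit 49) (nat_lit 5) (nat_lit 51) (nat_lit 4) (nat_lit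 49) (nat_lit 4) (nat_lit 490) (nat_lit 409) (nat_lit 301)) (XT.lf (nat_lit 0) (nat_lit 23469726156) (nat_lit 76) (nat_lit 39689859394) (nat_lit 76) (nat_lit 11803354778) (nat_lit 48) (nat_lit 4) (nat_lit 49) (nat_lit 5) (nat_lit 49) (nat_lit 4) (nat_lit 491) (nat_lit 409) (nat_lit 300))) (XT.nd (nat_lit 78) (nat_lit 76) (nat_lit 0) (XT.lf (nat_lit 0) (nat_lit 10142651554) (nat_lit 152) (nat_lit 7100610399) (nat_lit 76) (nat_lit 60303666433) (nat_lit 47) (nat_lit 5) (nat_lit 49) (nat_lit 5) (nat_lit 48) (nat_lit 4) (nat_lit 492) (nat_lit 409) (nat_lit 299)) (XT.lf (nat_lit 0) (nat_lit 33524664745) (nat_lit 152) (nat_lit 39735081803) (nat_lit 0) (nat_lit 6953925645) (nat_lit 46) (nat_lit 5) (nat_lit 48) (nat_lit 4) (nat_lit 46) (nat_lit 4) (nat_lit 493) (nat_lit 409) (nat_lit 298)))))) (XT.nd (nat_lit 624) (nat_lit 608) (nat_lit 0) (XT.nd (nat_lit 312) (nat_lit 304) (nat_lit 0) (XT.nd (nat_lit 156)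 (nat_lit 152) (nat_lit 0) (XT.nd (nat_lit 78) (nat_lit 0) (nat_lit 0) (XT.lf (nat_lit 0) (nat_lit 7613433463) (nat_lit 76) (nat_lit 50975525322) (nat_lit 76) (nat_lit 24399135454) (nat_lit 45) (nat_lit 4) (nat_lit 46) (nat_lit 5) (nat_lit 46) (nat_lit 4) (nat_lit 494) (nat_lit 409) (nat_lit 297)) (XT.lf (nat_lit 0) (nat_lit 58688103535) (nat_lit 76) (nat_lit 26880889589) (nat_lit 76) (nat_lit 299118038) (nat_lit 45) (nat_lit 4) (nat_lit 46) (nat_lit 5) (nat_lit 46) (nat_lit 4) (nat_lit 495) (nat_lit 409) (nat_lit 296))) (XT.nd (nat_lit 78) (nat_lit 0) (nat_lit 0) (XT.lf (nat_lit 0) (nat_lit 23774780713) (nat_lit 76) (nat_lit 791891323) (nat_lit 152) (nat_lit 64287880499) (nat_lit 43) (nat_lit 5) (nat_lit 44) (nat_lit 5) (nat_lit 45) (nat_lit 4) (nat_lit 496) (nat_lit 409) (nat_lit 295)) (XT.lf (nat_lit 0) (nat_lit 51538818553) (nat_lit 152) (nat_lit 14194280927) (nat_lit 0) (nat_lit 26213315403)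 (nat_lit 43) (nat_lit 5) (nat_lit 45) (nat_lit 4) (nat_lit 43) (nat_lit 4) (nat_lit 497) (nat_lit 409) (nat_lit 294)))) (XT.nd (nat_lit 156) (nat_lit 152) (nat_lit 0) (XT.nd (nat_lit 78) (nat_lit 76) (nat_lit 0) (XT.lf (nat_lit 0) (nat_lit 40499557842) (nat_lit 76) (nat_lit 39995728758) (nat_lit 76) (nat_lit 14665798084) (nat_lit 42) (nat_lit 4) (nat_lit 43) (nat_lit 5) (nat_lit 43) (nat_lit 4) (nat_lit 498) (nat_lit 409) (nat_lit 293)) (XT.lf (nat_lit 0) (nat_lit 12202149593) (nat_lit 152) (nat_lit 319740696) (nat_lit 76) (nat_lit 85993208821) (nat_lit 41) (nat_lit 5) (nat_lit 43) (nat_lit 5) (nat_lit 42) (nat_lit 4) (nat_lit 499) (nat_lit 409) (nat_lit 292))) (XT.nd (nat_lit 78) (nat_lit 76) (nat_lit 0) (XT.lf (nat_lit 0) (nat_lit 41096107414) (nat_lit 152) (nat_lit 43905388392) (nat_lit 0) (nat_lit 16964523359) (nat_lit 40) (nat_lit 5) (nat_lit 42) (nat_lit 4) (nat_lit 40) (nat_lit 4) (nat_lit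 500) (nat_lit 409) (nat_lit 291)) (XT.lf (nat_lit 0) (nat_lit 14006548905) (nat_lit 76) (nat_lit 57848572515) (nat_lit 76) (nat_lit 33713345924) (nat_lit 39) (nat_lit 4) (nat_lit 40) (nat_lit 5) (nat_lit 40) (nat_lit 4) (nat_lit 501) (nat_lit 409) (nat_lit 290))))) (XT.nd (nat_lit 312) (nat_lit 380) (nat_lit 0) (XT.nd (nat_lit 156) (nat_lit 76) (nat_lit 0) (XT.nd (nat_lit 78) (nat_lit 152) (nat_lit 0) (XT.lf (nat_lit 0) (nat_lit 76320384514) (nat_lit 76) (nat_lit 28566309369) (nat_lit 76) (nat_lit 4427613698) (nat_lit 39) (nat_lit 4) (nat_lit 40) (nat_lit 5) (nat_lit 40) (nat_lit 4) (nat_lit 502) (nat_lit 409) (nat_lit 289)) (XT.lf (nat_lit 0) (nat_lit 25972127206) (nat_lit 152) (nat_lit 84250407484) (nat_lit 0) (nat_lit 2979746675) (nat_lit 37) (nat_lit 5) (nat_lit 39) (nat_lit 4) (nat_lit 37) (nat_lit 4) (nat_lit 503) (nat_lit 409) (nat_lit 288))) (XT.nd (nat_lit 78) (nat_lit 76) (nat_lit 0)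 (XT.lf (nat_lit 0) (nat_lit 58770632184) (nat_lit 152) (nat_lit 22683758868) (nat_lit 0) (nat_lit 35775254931) (nat_lit 37) (nat_lit 5) (nat_lit 39) (nat_lit 4) (nat_lit 37) (nat_lit 4) (nat_lit 504) (nat_lit 409) (nat_lit 287)) (XT.lf (nat_lit 0) (nat_lit 43331496387) (nat_lit 76) (nat_lit 50545849781) (nat_lit 76) (nat_lit 27547618506) (nat_lit 36) (nat_lit 4) (nat_lit 37) (nat_lit 5) (nat_lit 37) (nat_lit 4) (nat_lit 505) (nat_lit 409) (nat_lit 286)))) (XT.nd (nat_lit 156) (nat_lit 228) (nat_lit 0) (XT.nd (nat_lit 78) (nat_lit 76) (nat_lit 0) (XT.lf (nat_lit 0) (nat_lit 5134437148) (nat_lit 152) (nat_lit 12475353235) (nat_lit 76) (nat_lit 108197315493) (nat_lit 35) (nat_lit 5) (nat_lit 37) (nat_lit 5) (nat_lit 36) (nat_lit 4) (nat_lit 506) (nat_lit 409) (nat_lit 285)) (XT.lf (nat_lit 0) (nat_lit 39706561036) (nat_lit 152) (nat_lit 72821696270) (nat_lit 0) (nat_lit 17798429539) (nat_lit 34) (nat_lit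 5) (nat_lit 36) (nat_lit 4) (nat_lit 34) (nat_lit 4) (nat_lit 507) (nat_lit 409) (nat_lit 284))) (XT.nd (nat_lit 78) (nat_lit 228) (nat_lit 0) (XT.lf (nat_lit 0) (nat_lit 76502878460) (nat_lit 152) (nat_lit 3952190107) (nat_lit 0) (nat_lit 54592398952) (nat_lit 34) (nat_lit 5) (nat_lit 36) (nat_lit 4) (nat_lit 34) (nat_lit 4) (nat_lit 508) (nat_lit 409) (nat_lit 283)) (XT.nd (nat_lit 78) (nat_lit 152) (nat_lit 0) (XT.lf (nat_lit 0) (nat_lit 70605537018) (nat_lit 76) (nat_lit 45628360818) (nat_lit 76) (nat_lit 23715645110) (nat_lit 33) (nat_lit 4) (nat_lit 34) (nat_lit 5) (nat_lit 34) (nat_lit 4) (nat_lit 509) (nat_lit 409) (nat_lit 282)) (XT.lf (nat_lit 0) (nat_lit 3841051800) (nat_lit 76) (nat_lit 8722800503) (nat_lit 152) (nat_lit 132516808010) (nat_lit 31) (nat_lit 5) (nat_lit 32) (nat_lit 5) (nat_lit 33) (nat_lit 4) (nat_lit 510) (nat_lit 409) (nat_lit 281))))))))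
noncomputable def xc231 : XT := (XT.nd (nat_lit 1248) (nat_lit 684) (nat_lit 0) (XT.nd (nat_lit 624) (nat_lit 304) (nat_lit 0) (XT.nd (nat_lit 312) (nat_lit 228) (nat_lit 0) (XT.nd (nat_lit 156) (nat_lit 152) (nat_lit 0) (XT.nd (nat_lit 78) (nat_lit 76) (nat_lit 0) (XT.lf (nat_lit 0) (nat_lit 51515317544) (nat_lit 152) (nat_lit 68208722789) (nat_lit 0) (nat_lit 30642104475) (nat_lit 31) (nat_lit 5) (nat_lit 33) (nat_lit 4) (nat_lit 31) (nat_lit 4) (nat_lit 511) (nat_lit 409) (nat_lit 280)) (XT.lf (nat_lit 0) (nat_lit 8591321930) (nat_lit 76) (nat_lit 84093066400) (nat_lit 76) (nat_lit 63218013603) (nat_lit 30) (nat_lit 4) (nat_lit 31) (nat_lit 5) (nat_lit 31) (nat_lit 4) (nat_lit 512) (nat_lit 409) (nat_lit 279))) (XT.nd (nat_lit 78) (nat_lit 152) (nat_lit 0) (XT.lf (nat_lit 0) (nat_lit 91585288890) (nat_lit 76) (nat_lit 45474789828) (nat_lit 76) (nat_lit 24597984910) (nat_lit 30) (nat_lit 4) (nat_lit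 31) (nat_lit 5) (nat_lit 31) (nat_lit 4) (nat_lit 513) (nat_lit 409) (nat_lit 278)) (XT.lf (nat_lit 0) (nat_lit 11120620021) (nat_lit 76) (nat_lit 4488693942) (nat_lit 152) (nat_lit 152071397583) (nat_lit 28) (nat_lit 5) (nat_lit 29) (nat_lit 5) (nat_lit 30) (nat_lit 4) (nat_lit 514) (nat_lit 409) (nat_lit 277)))) (XT.nd (nat_lit 156) (nat_lit 152) (nat_lit 0) (XT.nd (nat_lit 78) (nat_lit 76) (nat_lit 0) (XT.lf (nat_lit 0) (nat_lit 58801564016) (nat_lit 152) (nat_lit 76176913696) (nat_lit 0) (nat_lit 38915789891) (nat_lit 28) (nat_lit 5) (nat_lit 30) (nat_lit 4) (nat_lit 28) (nat_lit 4) (nat_lit 515) (nat_lit 409) (nat_lit 276)) (XT.lf (nat_lit 0) (nat_lit 8407906694) (nat_lit 76) (nat_lit 95943944573) (nat_lit 76) (nat_lit 76056728974) (nat_lit 27) (nat_lit 4) (nat_lit 28) (nat_lit 5) (nat_lit 28) (nat_lit 4) (nat_lit 516) (nat_lit 409) (nat_lit 275))) (XT.nd (nat_lit 78) (nat_lit 152) (nat_lit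 0) (XT.lf (nat_lit 0) (nat_lit 99853832098) (nat_lit 76) (nat_lit 53609588244) (nat_lit 76) (nat_lit 33720999811) (nat_lit 27) (nat_lit 4) (nat_lit 28) (nat_lit 5) (nat_lit 28) (nat_lit 4) (nat_lit 517) (nat_lit 409) (nat_lit 274)) (XT.lf (nat_lit 0) (nat_lit 1439094565) (nat_lit 76) (nat_lit 8965291023) (nat_lit 152) (nat_lit 183885471768) (nat_lit 25) (nat_lit 5) (nat_lit 26) (nat_lit 5) (nat_lit 27) (nat_lit 4) (nat_lit 518) (nat_lit 409) (nat_lit 273))))) (XT.nd (nat_lit 312) (nat_lit 228) (nat_lit 0) (XT.nd (nat_lit 156) (nat_lit 76) (nat_lit 0) (XT.nd (nat_lit 78) (nat_lit 0) (nat_lit 0) (XT.lf (nat_lit 0) (nat_lit 57691806478) (nat_lit 152) (nat_lit 105178806563) (nat_lit 0) (nat_lit 38747862580) (nat_lit 25) (nat_lit 5) (nat_lit 27) (nat_lit 4) (nat_lit 25) (nat_lit 4) (nat_lit 519) (nat_lit 409) (nat_lit 272)) (XT.lf (nat_lit 0) (nat_lit 107484742863) (nat_lit 152) (nat_lit 13282055192)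 (nat_lit 0) (nat_lit 88539669532) (nat_lit 25) (nat_lit 5) (nat_lit 27) (nat_lit 4) (nat_lit 25) (nat_lit 4) (nat_lit 520) (nat_lit 409) (nat_lit 271))) (XT.nd (nat_lit 78) (nat_lit 0) (nat_lit 0) (XT.lf (nat_lit 0) (nat_lit 85949176850) (nat_lit 76) (nat_lit 75154506710) (nat_lit 76) (nat_lit 56208357729) (nat_lit 24) (nat_lit 4) (nat_lit 25) (nat_lit 5) (nat_lit 25) (nat_lit 4) (nat_lit 521) (nat_lit 409) (nat_lit 270)) (XT.lf (nat_lit 0) (nat_lit 190592007873) (nat_lit 76) (nat_lit 27031042632) (nat_lit 76) (nat_lit 8083869221) (nat_lit 24) (nat_lit 4) (nat_lit 25) (nat_lit 5) (nat_lit 25) (nat_lit 4) (nat_lit 522) (nat_lit 409) (nat_lit 269)))) (XT.nd (nat_lit 156) (nat_lit 76) (nat_lit 0) (XT.nd (nat_lit 78) (nat_lit 0) (nat_lit 0) (XT.lf (nat_lit 0) (nat_lit 42530686185) (nat_lit 152) (nat_lit 167400769933) (nat_lit 0) (nat_lit 24484829940) (nat_lit 22) (nat_lit 5) (nat_lit 24) (nat_lit 4)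 (nat_lit 22) (nat_lit 4) (nat_lit 523) (nat_lit 409) (nat_lit 268)) (XT.lf (nat_lit 0) (nat_lit 96446586137) (nat_lit 152) (nat_lit 68655949115) (nat_lit 0) (nat_lit 78399844951) (nat_lit 22) (nat_lit 5) (nat_lit 24) (nat_lit 4) (nat_lit 22) (nat_lit 4) (nat_lit 524) (nat_lit 409) (nat_lit 267))) (XT.nd (nat_lit 78) (nat_lit 0) (nat_lit 0) (XT.lf (nat_lit 0) (nat_lit 36173671879) (nat_lit 76) (nat_lit 117444352015) (nat_lit 76) (nat_lit 99396768029) (nat_lit 21) (nat_lit 4) (nat_lit 22) (nat_lit 5) (nat_lit 22) (nat_lit 4) (nat_lit 525) (nat_lit 409) (nat_lit 266)) (XT.lf (nat_lit 0) (nat_lit 148618294084) (nat_lit 76) (nat_lit 66187514039) (nat_lit 76) (nat_lit 48139127386) (nat_lit 21) (nat_lit 4) (nat_lit 22) (nat_lit 5) (nat_lit 22) (nat_lit 4) (nat_lit 526) (nat_lit 409) (nat_lit 265)))))) (XT.nd (nat_lit 624) (nat_lit 304) (nat_lit 0) (XT.nd (nat_lit 312) (nat_lit 152) (nat_lit 0) (XT.nd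 (nat_lit 156) (nat_lit 76) (nat_lit 0) (XT.nd (nat_lit 78) (nat_lit 76) (nat_lit 0) (XT.lf (nat_lit 0) (nat_lit 5494766353) (nat_lit 152) (nat_lit 6784880073) (nat_lit 76) (nat_lit 261087744170) (nat_lit 20) (nat_lit 5) (nat_lit 22) (nat_lit 5) (nat_lit 21) (nat_lit 4) (nat_lit 527) (nat_lit 409) (nat_lit 264)) (XT.lf (nat_lit 0) (nat_lit 62619694994) (nat_lit 152) (nat_lit 176101124714) (nat_lit 0) (nat_lit 45429333908) (nat_lit 19) (nat_lit 5) (nat_lit 21) (nat_lit 4) (nat_lit 19) (nat_lit 4) (nat_lit 528) (nat_lit 409) (nat_lit 263))) (XT.nd (nat_lit 78) (nat_lit 76) (nat_lit 0) (XT.lf (nat_lit 0) (nat_lit 122914406174) (nat_lit 152) (nat_lit 66818587083) (nat_lit 0) (nat_lit 105723384731) (nat_lit 19) (nat_lit 5) (nat_lit 21) (nat_lit 4) (nat_lit 19) (nat_lit 4) (nat_lit 529) (nat_lit 409) (nat_lit 262)) (XT.lf (nat_lit 0) (nat_lit 49503668522) (nat_lit 76) (nat_lit 137488733969) (nat_lit 76)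 (nat_lit 120297083616) (nat_lit 18) (nat_lit 4) (nat_lit 19) (nat_lit 5) (nat_lit 19) (nat_lit 4) (nat_lit 530) (nat_lit 409) (nat_lit 261)))) (XT.nd (nat_lit 156) (nat_lit 152) (nat_lit 0) (XT.nd (nat_lit 78) (nat_lit 0) (nat_lit 0) (XT.lf (nat_lit 0) (nat_lit 173953134422) (nat_lit 76) (nat_lit 81448498898) (nat_lit 76) (nat_lit 64256249582) (nat_lit 18) (nat_lit 4) (nat_lit 19) (nat_lit 5) (nat_lit 19) (nat_lit 4) (nat_lit 531) (nat_lit 409) (nat_lit 260)) (XT.lf (nat_lit 0) (nat_lit 304616794619) (nat_lit 76) (nat_lit 22610464016) (nat_lit 76) (nat_lit 5417644260) (nat_lit 18) (nat_lit 4) (nat_lit 19) (nat_lit 5) (nat_lit 19) (nat_lit 4) (nat_lit 532) (nat_lit 409) (nat_lit 259))) (XT.nd (nat_lit 78) (nat_lit 0) (nat_lit 0) (XT.lf (nat_lit 0) (nat_lit 56732444426) (nat_lit 152) (nat_lit 249038341487) (nat_lit 0) (nat_lit 40357812966) (nat_lit 16) (nat_lit 5) (nat_lit 18) (nat_lit 4) (nat_lit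 16) (nat_lit 4) (nat_lit 533) (nat_lit 409) (nat_lit 258)) (XT.lf (nat_lit 0) (nat_lit 122657148372) (nat_lit 152) (nat_lit 131300407499) (nat_lit 0) (nat_lit 106282024145) (nat_lit 16) (nat_lit 5) (nat_lit 18) (nat_lit 4) (nat_lit 16) (nat_lit 4) (nat_lit 534) (nat_lit 409) (nat_lit 257))))) (XT.nd (nat_lit 312) (nat_lit 152) (nat_lit 0) (XT.nd (nat_lit 156) (nat_lit 76) (nat_lit 0) (XT.nd (nat_lit 78) (nat_lit 76) (nat_lit 0) (XT.lf (nat_lit 0) (nat_lit 191874339714) (nat_lit 152) (nat_lit 7683211706) (nat_lit 0) (nat_lit 175498746183) (nat_lit 16) (nat_lit 5) (nat_lit 18) (nat_lit 4) (nat_lit 16) (nat_lit 4) (nat_lit 535) (nat_lit 409) (nat_lit 256)) (XT.lf (nat_lit 0) (nat_lit 126145000348) (nat_lit 76) (nat_lit 140373297915) (nat_lit 76) (nat_lit 123997257430) (nat_lit 15) (nat_lit 4) (nat_lit 16) (nat_lit 5) (nat_lit 16) (nat_lit 4) (nat_lit 536) (nat_lit 409) (nat_lit 255))) (XT.nd (nat_lit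 78) (nat_lit 76) (nat_lit 0) (XT.lf (nat_lit 0) (nat_lit 266924212719) (nat_lit 76) (nat_lit 78096849869) (nat_lit 76) (nat_lit 61720383712) (nat_lit 15) (nat_lit 4) (nat_lit 16) (nat_lit 5) (nat_lit 16) (nat_lit 4) (nat_lit 537) (nat_lit 409) (nat_lit 254)) (XT.lf (nat_lit 0) (nat_lit 3549461402) (nat_lit 152) (nat_lit 9100475683) (nat_lit 76) (nat_lit 411125999080) (nat_lit 14) (nat_lit 5) (nat_lit 16) (nat_lit 5) (nat_lit 15) (nat_lit 4) (nat_lit 538) (nat_lit 409) (nat_lit 253)))) (XT.nd (nat_lit 156) (nat_lit 76) (nat_lit 0) (XT.nd (nat_lit 78) (nat_lit 0) (nat_lit 0) (XT.lf (nat_lit 0) (nat_lit 72981445401) (nat_lit 152) (nat_lit 311097414678) (nat_lit 0) (nat_lit 57384057158) (nat_lit 13) (nat_lit 5) (nat_lit 15) (nat_lit 4) (nat_lit 13) (nat_lit 4) (nat_lit 539) (nat_lit 409) (nat_lit 252)) (XT.lf (nat_lit 0) (nat_lit 146245816509) (nat_lit 152) (nat_lit 183122313396) (nat_lit 0) (nat_lit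 130648078065) (nat_lit 13) (nat_lit 5) (nat_lit 15) (nat_lit 4) (nat_lit 13) (nat_lit 4) (nat_lit 540) (nat_lit 409) (nat_lit 251))) (XT.nd (nat_lit 78) (nat_lit 76) (nat_lit 0) (XT.lf (nat_lit 0) (nat_lit 223170324610) (nat_lit 152) (nat_lit 48754740071) (nat_lit 0) (nat_lit 207572252641) (nat_lit 13) (nat_lit 5) (nat_lit 15) (nat_lit 4) (nat_lit 13) (nat_lit 4) (nat_lit 541) (nat_lit 409) (nat_lit 250)) (XT.nd (nat_lit 78) (nat_lit 0) (nat_lit 0) (XT.lf (nat_lit 0) (nat_lit 95377917084) (nat_lit 76) (nat_lit 210049322792) (nat_lit 76) (nat_lit 194450933180) (nat_lit 12) (nat_lit 4) (nat_lit 13) (nat_lit 5) (nat_lit 13) (nat_lit 4) (nat_lit 542) (nat_lit 409) (nat_lit 249)) (XT.lf (nat_lit 0) (nat_lit 248403974265) (nat_lit 76) (nat_lit 144215824768) (nat_lit 76) (nat_lit 128617132640) (nat_lit 12) (nat_lit 4) (nat_lit 13) (nat_lit 5) (nat_lit 13) (nat_lit 4) (nat_lit 543) (nat_lit 409) (nat_lit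 248))))))))
noncomputable def xc232 : XT := (XT.nd (nat_lit 52416) (nat_lit 0) (nat_lit 9880) (XT.nd (nat_lit 624) (nat_lit 152) (nat_lit 0) (XT.nd (nat_lit 312) (nat_lit 76) (nat_lit 0) (XT.nd (nat_lit 156) (nat_lit 0) (nat_lit 0) (XT.nd (nat_lit 78) (nat_lit 152) (nat_lit 0) (XT.lf (nat_lit 0) (nat_lit 409075727338) (nat_lit 76) (nat_lit 75093509301) (nat_lit 76) (nat_lit 59494529062) (nat_lit 12) (nat_lit 4) (nat_lit 13) (nat_lit 5) (nat_lit 13) (nat_lit 4) (nat_lit 544) (nat_lit 409) (nat_lit 247)) (XT.lf (nat_lit 0) (nat_lit 10701946686) (nat_lit 76) (nat_lit 2127907614) (nat_lit 152) (nat_lit 554363651783) (nat_lit 10) (nat_lit 5) (nat_lit 11) (nat_lit 5) (nat_lit 12) (nat_lit 4) (nat_lit 545) (nat_lit 409) (nat_lit 246))) (XT.nd (nat_lit 78) (nat_lit 0) (nat_lit 0) (XT.lf (nat_lit 0) (nat_lit 90248004025) (nat_lit 152) (nat_lit 426037793618) (nat_lit 0) (nat_lit 75391322162) (nat_lit 10)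 (nat_lit 5) (nat_lit 12) (nat_lit 4) (nat_lit 10) (nat_lit 4) (nat_lit 546) (nat_lit 409) (nat_lit 245)) (XT.lf (nat_lit 0) (nat_lit 171569411012) (nat_lit 152) (nat_lit 289101393597) (nat_lit 0) (nat_lit 156712492119) (nat_lit 10) (nat_lit 5) (nat_lit 12) (nat_lit 4) (nat_lit 10) (nat_lit 4) (nat_lit 547) (nat_lit 409) (nat_lit 244)))) (XT.nd (nat_lit 156) (nat_lit 0) (nat_lit 0) (XT.nd (nat_lit 78) (nat_lit 76) (nat_lit 0) (XT.lf (nat_lit 0) (nat_lit 256954475055) (nat_lit 152) (nat_lit 145323097687) (nat_lit 0) (nat_lit 242097330420) (nat_lit 10) (nat_lit 5) (nat_lit 12) (nat_lit 4) (nat_lit 10) (nat_lit 4) (nat_lit 548) (nat_lit 409) (nat_lit 243)) (XT.lf (nat_lit 0) (nat_lit 5825888193) (nat_lit 76) (nat_lit 340871564176) (nat_lit 76) (nat_lit 326014204547) (nat_lit 9) (nat_lit 4) (nat_lit 10) (nat_lit 5) (nat_lit 10) (nat_lit 4) (nat_lit 549) (nat_lit 409) (nat_lit 242))) (XT.nd (nat_lit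 78) (nat_lit 0) (nat_lit 0) (XT.lf (nat_lit 0) (nat_lit 169572999180) (nat_lit 76) (nat_lit 273813435383) (nat_lit 76) (nat_lit 258955870999) (nat_lit 9) (nat_lit 4) (nat_lit 10) (nat_lit 5) (nat_lit 10) (nat_lit 4) (nat_lit 550) (nat_lit 409) (nat_lit 241)) (XT.lf (nat_lit 0) (nat_lit 341503071439) (nat_lit 76) (nat_lit 203404641128) (nat_lit 76) (nat_lit 188546881739) (nat_lit 9) (nat_lit 4) (nat_lit 10) (nat_lit 5) (nat_lit 10) (nat_lit 4) (nat_lit 551) (nat_lit 409) (nat_lit 240))))) (XT.nd (nat_lit 51480) (nat_lit 0) (nat_lit 13452) (XT.nd (nat_lit 156) (nat_lit 152) (nat_lit 0) (XT.nd (nat_lit 78) (nat_lit 0) (nat_lit 0) (XT.lf (nat_lit 0) (nat_lit 522025462285) (nat_lit 76) (nat_lit 129477541425) (nat_lit 76) (nat_lit 114619596317) (nat_lit 9) (nat_lit 4) (nat_lit 10) (nat_lit 5) (nat_lit 10) (nat_lit 4) (nat_lit 552) (nat_lit 409) (nat_lit 239)) (XT.lf (nat_lit 0) (nat_lit 711569986934)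 (nat_lit 76) (nat_lit 51856119370) (nat_lit 76) (nat_lit 36997997386) (nat_lit 9) (nat_lit 4) (nat_lit 10) (nat_lit 5) (nat_lit 10) (nat_lit 4) (nat_lit 553) (nat_lit 409) (nat_lit 238))) (XT.nd (nat_lit 51246) (nat_lit 0) (nat_lit 14060) (XT.lf (nat_lit 0) (nat_lit 44756723221) (nat_lit 152) (nat_lit 760959423280) (nat_lit 0) (nat_lit 30605970424) (nat_lit 7) (nat_lit 5) (nat_lit 9) (nat_lit 4) (nat_lit 7) (nat_lit 4) (nat_lit 554) (nat_lit 409) (nat_lit 237)) (XT.lf (nat_lit 0) (nat_lit 1153782965) (nat_lit 0) (nat_lit 1153782965) (nat_lit 532) (nat_lit 1489465987) (nat_lit 192) (nat_lit 5) (nat_lit 192) (nat_lit 3) (nat_lit 199) (nat_lit 3) (nat_lit 410) (nat_lit 410) (nat_lit 380)))) (XT.nd (nat_lit 156) (nat_lit 608) (nat_lit 0) (XT.nd (nat_lit 78) (nat_lit 0) (nat_lit 0) (XT.lf (nat_lit 0) (nat_lit 6112027420) (nat_lit 532) (nat_lit 1482365808) (nat_lit 608) (nat_lit 120314762) (nat_lit 192)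 (nat_lit 5) (nat_lit 199) (nat_lit 3) (nat_lit 200) (nat_lit 5) (nat_lit 411) (nat_lit 410) (nat_lit 379)) (XT.lf (nat_lit 76) (nat_lit 2505052896) (nat_lit 0) (nat_lit 5168033951) (nat_lit 608) (nat_lit 168839974) (nat_lit 193) (nat_lit 5) (nat_lit 192) (nat_lit 5) (nat_lit 200) (nat_lit 5) (nat_lit 412) (nat_lit 410) (nat_lit 378))) (XT.nd (nat_lit 78) (nat_lit 0) (nat_lit 76) (XT.lf (nat_lit 0) (nat_lit 1233832944) (nat_lit 608) (nat_lit 1303536980) (nat_lit 684) (nat_lit 5440104693) (nat_lit 184) (nat_lit 5) (nat_lit 192) (nat_lit 5) (nat_lit 193) (nat_lit 5) (nat_lit 413) (nat_lit 410) (nat_lit 377)) (XT.lf (nat_lit 0) (nat_lit 2670723575) (nat_lit 608) (nat_lit 5151197791) (nat_lit 684) (nat_lit 299259410) (nat_lit 185) (nat_lit 5) (nat_lit 193) (nat_lit 5) (nat_lit 194) (nat_lit 5) (nat_lit 414) (nat_lit 410) (nat_lit 376)))))) (XT.nd (nat_lit 624) (nat_lit 2432) (nat_lit 0) (XT.nd (nat_lit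 312) (nat_lit 608) (nat_lit 0) (XT.nd (nat_lit 156) (nat_lit 608) (nat_lit 0) (XT.nd (nat_lit 78) (nat_lit 0) (nat_lit 0) (XT.lf (nat_lit 0) (nat_lit 4165579733) (nat_lit 608) (nat_lit 862971053) (nat_lit 684) (nat_lit 3244222336) (nat_lit 185) (nat_lit 5) (nat_lit 193) (nat_lit 5) (nat_lit 194) (nat_lit 5) (nat_lit 415) (nat_lit 410) (nat_lit 375)) (XT.lf (nat_lit 76) (nat_lit 3708378000) (nat_lit 0) (nat_lit 2010495860) (nat_lit 684) (nat_lit 2713893068) (nat_lit 186) (nat_lit 5) (nat_lit 185) (nat_lit 5) (nat_lit 194) (nat_lit 5) (nat_lit 416) (nat_lit 410) (nat_lit 374))) (XT.nd (nat_lit 78) (nat_lit 684) (nat_lit 0) (XT.lf (nat_lit 0) (nat_lit 7311684256) (nat_lit 608) (nat_lit 133201074) (nat_lit 684) (nat_lit 1157788799) (nat_lit 186) (nat_lit 5) (nat_lit 194) (nat_lit 5) (nat_lit 195) (nat_lit 5) (nat_lit 417) (nat_lit 410) (nat_lit 373)) (XT.lf (nat_lit 0) (nat_lit 236714098) (nat_lit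 684) (nat_lit 4026679542) (nat_lit 760) (nat_lit 4515522499) (nat_lit 177) (nat_lit 5) (nat_lit 186) (nat_lit 5) (nat_lit 187) (nat_lit 5) (nat_lit 418) (nat_lit 410) (nat_lit 372)))) (XT.nd (nat_lit 156) (nat_lit 608) (nat_lit 0) (XT.nd (nat_lit 78) (nat_lit 0) (nat_lit 76) (XT.lf (nat_lit 76) (nat_lit 877648278) (nat_lit 0) (nat_lit 869432039) (nat_lit 760) (nat_lit 7218354034) (nat_lit 178) (nat_lit 5) (nat_lit 177) (nat_lit 5) (nat_lit 187) (nat_lit 5) (nat_lit 419) (nat_lit 410) (nat_lit 371)) (XT.lf (nat_lit 0) (nat_lit 3380569744) (nat_lit 684) (nat_lit 3088582290) (nat_lit 76) (nat_lit 2689751364) (nat_lit 178) (nat_lit 5) (nat_lit 187) (nat_lit 5) (nat_lit 179) (nat_lit 5) (nat_lit 420) (nat_lit 410) (nat_lit 370))) (XT.nd (nat_lit 78) (nat_lit 0) (nat_lit 0) (XT.lf (nat_lit 0) (nat_lit 2163654543) (nat_lit 684) (nat_lit 2919378275) (nat_lit 760) (nat_lit 4279653047) (nat_lit 169) (nat_lit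 5) (nat_lit 178) (nat_lit 5) (nat_lit 179) (nat_lit 5) (nat_lit 421) (nat_lit 410) (nat_lit 369)) (XT.lf (nat_lit 0) (nat_lit 6877874414) (nat_lit 760) (nat_lit 1855922854) (nat_lit 76) (nat_lit 842502109) (nat_lit 169) (nat_lit 5) (nat_lit 179) (nat_lit 5) (nat_lit 170) (nat_lit 5) (nat_lit 422) (nat_lit 410) (nat_lit 368))))) (XT.nd (nat_lit 312) (nat_lit 760) (nat_lit 0) (XT.nd (nat_lit 156) (nat_lit 836) (nat_lit 0) (XT.nd (nat_lit 78) (nat_lit 76) (nat_lit 0) (XT.lf (nat_lit 0) (nat_lit 3775766948) (nat_lit 760) (nat_lit 5037764781) (nat_lit 836) (nat_lit 984512619) (nat_lit 159) (nat_lit 5) (nat_lit 169) (nat_lit 5) (nat_lit 170) (nat_lit 5) (nat_lit 423) (nat_lit 410) (nat_lit 367)) (XT.lf (nat_lit 0) (nat_lit 766192798) (nat_lit 836) (nat_lit 341618080) (nat_lit 76) (nat_lit 8923574166) (nat_lit 158) (nat_lit 5) (nat_lit 169) (nat_lit 5) (nat_lit 159) (nat_lit 5) (nat_lit 424) (nat_lit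 410) (nat_lit 366))) (XT.nd (nat_lit 78) (nat_lit 380) (nat_lit 0) (XT.lf (nat_lit 0) (nat_lit 2657717949) (nat_lit 532) (nat_lit 4581985991) (nat_lit 76) (nat_lit 3031567188) (nat_lit 152) (nat_lit 5) (nat_lit 159) (nat_lit 5) (nat_lit 153) (nat_lit 5) (nat_lit 425) (nat_lit 410) (nat_lit 365)) (XT.lf (nat_lit 0) (nat_lit 1488330143) (nat_lit 380) (nat_lit 3152347894) (nat_lit 456) (nat_lit 5882634221) (nat_lit 147) (nat_lit 5) (nat_lit 152) (nat_lit 5) (nat_lit 153) (nat_lit 5) (nat_lit 426) (nat_lit 410) (nat_lit 364)))) (XT.nd (nat_lit 156) (nat_lit 380) (nat_lit 0) (XT.nd (nat_lit 78) (nat_lit 380) (nat_lit 0) (XT.lf (nat_lit 0) (nat_lit 6770597981) (nat_lit 456) (nat_lit 2835255436) (nat_lit 76) (nat_lit 1179714933) (nat_lit 147) (nat_lit 5) (nat_lit 153) (nat_lit 5) (nat_lit 148) (nat_lit 5) (nat_lit 427) (nat_lit 410) (nat_lit 363)) (XT.lf (nat_lit 0) (nat_lit 3690068562) (nat_lit 380)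 (nat_lit 5379714314) (nat_lit 456) (nat_lit 1988019257) (nat_lit 142) (nat_lit 5) (nat_lit 147) (nat_lit 5) (nat_lit 148) (nat_lit 5) (nat_lit 428) (nat_lit 410) (nat_lit 362))) (XT.nd (nat_lit 78) (nat_lit 304) (nat_lit 0) (XT.lf (nat_lit 0) (nat_lit 138764489) (nat_lit 456) (nat_lit 755646790) (nat_lit 76) (nat_lit 10448981097) (nat_lit 141) (nat_lit 5) (nat_lit 147) (nat_lit 5) (nat_lit 142) (nat_lit 5) (nat_lit 429) (nat_lit 410) (nat_lit 361)) (XT.lf (nat_lit 0) (nat_lit 2421533974) (nat_lit 380) (nat_lit 5393259786) (nat_lit 76) (nat_lit 3821018874) (nat_lit 137) (nat_lit 5) (nat_lit 142) (nat_lit 5) (nat_lit 138) (nat_lit 5) (nat_lit 430) (nat_lit 410) (nat_lit 360)))))))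
noncomputable def xc233 : XT := (XT.nd (nat_lit 1248) (nat_lit 1976) (nat_lit 0) (XT.nd (nat_lit 624) (nat_lit 1140) (nat_lit 0) (XT.nd (nat_lit 312) (nat_lit 836) (nat_lit 0) (XT.nd (nat_lit 156) (nat_lit 380) (nat_lit 0) (XT.nd (nat_lit 78) (nat_lit 0) (nat_lit 0) (XT.lf (nat_lit 0) (nat_lit 1662731661) (nat_lit 304) (nat_lit 3166925200) (nat_lit 380) (nat_lit 7112639041) (nat_lit 133) (nat_lit 5) (nat_lit 137) (nat_lit 5) (nat_lit 138) (nat_lit 5) (nat_lit 431) (nat_lit 410) (nat_lit 359)) (XT.lf (nat_lit 0) (nat_lit 7436473456) (nat_lit 380) (nat_lit 3080435818) (nat_lit 76) (nat_lit 1743282292) (nat_lit 133) (nat_lit 5) (nat_lit 138) (nat_lit 5) (nat_lit 134) (nat_lit 5) (nat_lit 432) (nat_lit 410) (nat_lit 358))) (XT.nd (nat_lit 78) (nat_lit 76) (nat_lit 0) (XT.lf (nat_lit 0) (nat_lit 4522512761) (nat_lit 304) (nat_lit 5734313333) (nat_lit 380) (nat_lit 2332998644) (nat_lit 129) (nat_lit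 5) (nat_lit 133) (nat_lit 5) (nat_lit 134) (nat_lit 5) (nat_lit 433) (nat_lit 410) (nat_lit 357)) (XT.lf (nat_lit 0) (nat_lit 287408024) (nat_lit 380) (nat_lit 375503377) (nat_lit 76) (nat_lit 12272100825) (nat_lit 128) (nat_lit 5) (nat_lit 133) (nat_lit 5) (nat_lit 129) (nat_lit 5) (nat_lit 434) (nat_lit 410) (nat_lit 356)))) (XT.nd (nat_lit 156) (nat_lit 304) (nat_lit 0) (XT.nd (nat_lit 78) (nat_lit 228) (nat_lit 0) (XT.lf (nat_lit 0) (nat_lit 3121543487) (nat_lit 380) (nat_lit 5499182619) (nat_lit 76) (nat_lit 4666767210) (nat_lit 124) (nat_lit 5) (nat_lit 129) (nat_lit 5) (nat_lit 125) (nat_lit 5) (nat_lit 435) (nat_lit 410) (nat_lit 355)) (XT.lf (nat_lit 0) (nat_lit 2744969394) (nat_lit 228) (nat_lit 3376490157) (nat_lit 304) (nat_lit 7534937263) (nat_lit 121) (nat_lit 5) (nat_lit 124) (nat_lit 5) (nat_lit 125) (nat_lit 5) (nat_lit 436) (nat_lit 410) (nat_lit 354))) (XT.nd (nat_lit 78) (nat_lit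 304) (nat_lit 0) (XT.lf (nat_lit 0) (nat_lit 9363964227) (nat_lit 304) (nat_lit 2530404695) (nat_lit 76) (nat_lit 2144748876) (nat_lit 121) (nat_lit 5) (nat_lit 125) (nat_lit 5) (nat_lit 122) (nat_lit 5) (nat_lit 437) (nat_lit 410) (nat_lit 353)) (XT.lf (nat_lit 0) (nat_lit 6371794433) (nat_lit 304) (nat_lit 6517995604) (nat_lit 380) (nat_lit 1545126853) (nat_lit 117) (nat_lit 5) (nat_lit 121) (nat_lit 5) (nat_lit 122) (nat_lit 5) (nat_lit 438) (nat_lit 410) (nat_lit 352))))) (XT.nd (nat_lit 312) (nat_lit 608) (nat_lit 0) (XT.nd (nat_lit 156) (nat_lit 228) (nat_lit 0) (XT.nd (nat_lit 78) (nat_lit 0) (nat_lit 0) (XT.lf (nat_lit 0) (nat_lit 913112167) (nat_lit 228) (nat_lit 797077288) (nat_lit 304) (nat_lit 13137732559) (nat_lit 113) (nat_lit 5) (nat_lit 116) (nat_lit 5) (nat_lit 117) (nat_lit 5) (nat_lit 439) (nat_lit 410) (nat_lit 351)) (XT.lf (nat_lit 0) (nat_lit 5263842349) (nat_lit 304) (nat_lit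 4813034722) (nat_lit 76) (nat_lit 5194060572) (nat_lit 113) (nat_lit 5) (nat_lit 117) (nat_lit 5) (nat_lit 114) (nat_lit 5) (nat_lit 440) (nat_lit 410) (nat_lit 350))) (XT.nd (nat_lit 78) (nat_lit 0) (nat_lit 0) (XT.lf (nat_lit 0) (nat_lit 4862175201) (nat_lit 228) (nat_lit 4190900540) (nat_lit 304) (nat_lit 6659134946) (nat_lit 110) (nat_lit 5) (nat_lit 113) (nat_lit 5) (nat_lit 114) (nat_lit 5) (nat_lit 441) (nat_lit 410) (nat_lit 349)) (XT.lf (nat_lit 0) (nat_lit 13115160874) (nat_lit 304) (nat_lit 1061397222) (nat_lit 76) (nat_lit 1994821238) (nat_lit 110) (nat_lit 5) (nat_lit 114) (nat_lit 5) (nat_lit 111) (nat_lit 5) (nat_lit 442) (nat_lit 410) (nat_lit 348)))) (XT.nd (nat_lit 156) (nat_lit 152) (nat_lit 0) (XT.nd (nat_lit 78) (nat_lit 228) (nat_lit 0) (XT.lf (nat_lit 0) (nat_lit 893120379) (nat_lit 228) (nat_lit 7253180371) (nat_lit 76) (nat_lit 8497162576) (nat_lit 107) (nat_lit 5) (nat_lit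 110) (nat_lit 5) (nat_lit 108) (nat_lit 5) (nat_lit 443) (nat_lit 410) (nat_lit 347)) (XT.lf (nat_lit 0) (nat_lit 3273681331) (nat_lit 228) (nat_lit 1704101702) (nat_lit 304) (nat_lit 12156836351) (nat_lit 104) (nat_lit 5) (nat_lit 107) (nat_lit 5) (nat_lit 108) (nat_lit 5) (nat_lit 444) (nat_lit 410) (nat_lit 346))) (XT.nd (nat_lit 78) (nat_lit 152) (nat_lit 0) (XT.lf (nat_lit 0) (nat_lit 9442181394) (nat_lit 304) (nat_lit 3190818370) (nat_lit 76) (nat_lit 5008559548) (nat_lit 104) (nat_lit 5) (nat_lit 108) (nat_lit 5) (nat_lit 105) (nat_lit 5) (nat_lit 445) (nat_lit 410) (nat_lit 345)) (XT.lf (nat_lit 0) (nat_lit 8205292404) (nat_lit 152) (nat_lit 6053549763) (nat_lit 228) (nat_lit 3908553084) (nat_lit 102) (nat_lit 5) (nat_lit 104) (nat_lit 5) (nat_lit 105) (nat_lit 5) (nat_lit 446) (nat_lit 410) (nat_lit 344)))))) (XT.nd (nat_lit 624) (nat_lit 988) (nat_lit 0) (XT.nd (nat_lit 312) (nat_lit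 532) (nat_lit 0) (XT.nd (nat_lit 156) (nat_lit 152) (nat_lit 0) (XT.nd (nat_lit 78) (nat_lit 0) (nat_lit 0) (XT.lf (nat_lit 0) (nat_lit 644790673) (nat_lit 304) (nat_lit 17168420355) (nat_lit 76) (nat_lit 902493124) (nat_lit 98) (nat_lit 5) (nat_lit 102) (nat_lit 5) (nat_lit 99) (nat_lit 5) (nat_lit 447) (nat_lit 410) (nat_lit 343)) (XT.lf (nat_lit 0) (nat_lit 5538750918) (nat_lit 304) (nat_lit 5513858989) (nat_lit 76) (nat_lit 8223400728) (nat_lit 98) (nat_lit 5) (nat_lit 102) (nat_lit 5) (nat_lit 99) (nat_lit 5) (nat_lit 448) (nat_lit 410) (nat_lit 342))) (XT.nd (nat_lit 78) (nat_lit 0) (nat_lit 0) (XT.lf (nat_lit 0) (nat_lit 6903638874) (nat_lit 152) (nat_lit 3856398282) (nat_lit 228) (nat_lit 9100164826) (nat_lit 96) (nat_lit 5) (nat_lit 98) (nat_lit 5) (nat_lit 99) (nat_lit 5) (nat_lit 449) (nat_lit 410) (nat_lit 341)) (XT.lf (nat_lit 0) (nat_lit 16370232572) (nat_lit 228) (nat_lit 435867722)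 (nat_lit 76) (nat_lit 3661111252) (nat_lit 96) (nat_lit 5) (nat_lit 99) (nat_lit 5) (nat_lit 97) (nat_lit 5) (nat_lit 450) (nat_lit 410) (nat_lit 340)))) (XT.nd (nat_lit 156) (nat_lit 152) (nat_lit 0) (XT.nd (nat_lit 78) (nat_lit 152) (nat_lit 0) (XT.lf (nat_lit 0) (nat_lit 1366274752) (nat_lit 228) (nat_lit 8089050520) (nat_lit 76) (nat_lit 11635998443) (nat_lit 93) (nat_lit 5) (nat_lit 96) (nat_lit 5) (nat_lit 94) (nat_lit 5) (nat_lit 451) (nat_lit 410) (nat_lit 339)) (XT.lf (nat_lit 0) (nat_lit 5449027070) (nat_lit 152) (nat_lit 1585056040) (nat_lit 228) (nat_lit 14705747110) (nat_lit 91) (nat_lit 5) (nat_lit 93) (nat_lit 5) (nat_lit 94) (nat_lit 5) (nat_lit 452) (nat_lit 410) (nat_lit 338))) (XT.nd (nat_lit 78) (nat_lit 152) (nat_lit 0) (XT.lf (nat_lit 0) (nat_lit 13205564727) (nat_lit 228) (nat_lit 2615134171) (nat_lit 76) (nat_lit 6589049742) (nat_lit 91) (nat_lit 5) (nat_lit 94) (nat_lit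 5) (nat_lit 92) (nat_lit 5) (nat_lit 453) (nat_lit 410) (nat_lit 337)) (XT.lf (nat_lit 0) (nat_lit 12066888159) (nat_lit 152) (nat_lit 7810992302) (nat_lit 228) (nat_lit 3225670221) (nat_lit 89) (nat_lit 5) (nat_lit 91) (nat_lit 5) (nat_lit 92) (nat_lit 5) (nat_lit 454) (nat_lit 410) (nat_lit 336))))) (XT.nd (nat_lit 312) (nat_lit 532) (nat_lit 0) (XT.nd (nat_lit 156) (nat_lit 228) (nat_lit 0) (XT.nd (nat_lit 78) (nat_lit 0) (nat_lit 0) (XT.lf (nat_lit 0) (nat_lit 3047697200) (nat_lit 228) (nat_lit 20058391690) (nat_lit 76) (nat_lit 718892050) (nat_lit 86) (nat_lit 5) (nat_lit 89) (nat_lit 5) (nat_lit 87) (nat_lit 5) (nat_lit 455) (nat_lit 410) (nat_lit 335)) (XT.lf (nat_lit 0) (nat_lit 9822573949) (nat_lit 228) (nat_lit 5101964471) (nat_lit 76) (nat_lit 9640488672) (nat_lit 86) (nat_lit 5) (nat_lit 89) (nat_lit 5) (nat_lit 87) (nat_lit 5) (nat_lit 456) (nat_lit 410) (nat_lit 334))) (XT.nd (nat_lit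 78) (nat_lit 76) (nat_lit 0) (XT.lf (nat_lit 0) (nat_lit 10915450578) (nat_lit 152) (nat_lit 6170422098) (nat_lit 228) (nat_lit 8248719543) (nat_lit 84) (nat_lit 5) (nat_lit 86) (nat_lit 5) (nat_lit 87) (nat_lit 5) (nat_lit 457) (nat_lit 410) (nat_lit 333)) (XT.lf (nat_lit 0) (nat_lit 1743369909) (nat_lit 76) (nat_lit 23110628749) (nat_lit 152) (nat_lit 1281554378) (nat_lit 83) (nat_lit 5) (nat_lit 84) (nat_lit 5) (nat_lit 85) (nat_lit 4) (nat_lit 458) (nat_lit 410) (nat_lit 332)))) (XT.nd (nat_lit 156) (nat_lit 304) (nat_lit 0) (XT.nd (nat_lit 78) (nat_lit 152) (nat_lit 0) (XT.lf (nat_lit 0) (nat_lit 6169736433) (nat_lit 152) (nat_lit 7985589484) (nat_lit 76) (nat_lit 12800081510) (nat_lit 82) (nat_lit 5) (nat_lit 84) (nat_lit 5) (nat_lit 83) (nat_lit 5) (nat_lit 459) (nat_lit 410) (nat_lit 331)) (XT.lf (nat_lit 0) (nat_lit 9489299111) (nat_lit 152) (nat_lit 4589892196) (nat_lit 228) (nat_lit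 13729579843) (nat_lit 80) (nat_lit 5) (nat_lit 82) (nat_lit 5) (nat_lit 83) (nat_lit 5) (nat_lit 460) (nat_lit 410) (nat_lit 330))) (XT.nd (nat_lit 78) (nat_lit 304) (nat_lit 0) (XT.lf (nat_lit 0) (nat_lit 22587397351) (nat_lit 228) (nat_lit 705135224) (nat_lit 76) (nat_lit 5402107013) (nat_lit 80) (nat_lit 5) (nat_lit 83) (nat_lit 5) (nat_lit 81) (nat_lit 4) (nat_lit 461) (nat_lit 410) (nat_lit 329)) (XT.nd (nat_lit 78) (nat_lit 152) (nat_lit 0) (XT.lf (nat_lit 0) (nat_lit 2183149284) (nat_lit 152) (nat_lit 11376850119) (nat_lit 76) (nat_lit 16045940811) (nat_lit 78) (nat_lit 5) (nat_lit 80) (nat_lit 5) (nat_lit 79) (nat_lit 5) (nat_lit 462) (nat_lit 410) (nat_lit 328)) (XT.lf (nat_lit 0) (nat_lit 7684630079) (nat_lit 152) (nat_lit 3111965512) (nat_lit 228) (nat_lit 19755515805) (nat_lit 76) (nat_lit 5) (nat_lit 78) (nat_lit 5) (nat_lit 79) (nat_lit 5) (nat_lit 463) (nat_lit 410) (nat_lit 327))))))))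
noncomputable def xc234 : XT := (XT.nd (nat_lit 1248) (nat_lit 1064) (nat_lit 0) (XT.nd (nat_lit 624) (nat_lit 608) (nat_lit 0) (XT.nd (nat_lit 312) (nat_lit 380) (nat_lit 0) (XT.nd (nat_lit 156) (nat_lit 228) (nat_lit 0) (XT.nd (nat_lit 78) (nat_lit 76) (nat_lit 0) (XT.lf (nat_lit 0) (nat_lit 20141030913) (nat_lit 228) (nat_lit 3601087062) (nat_lit 76) (nat_lit 7788457698) (nat_lit 76) (nat_lit 5) (nat_lit 79) (nat_lit 5) (nat_lit 77) (nat_lit 4) (nat_lit 464) (nat_lit 410) (nat_lit 326)) (XT.lf (nat_lit 0) (nat_lit 17092840063) (nat_lit 76) (nat_lit 13160390835) (nat_lit 152) (nat_lit 2289705473) (nat_lit 75) (nat_lit 5) (nat_lit 76) (nat_lit 5) (nat_lit 77) (nat_lit 4) (nat_lit 465) (nat_lit 410) (nat_lit 325))) (XT.nd (nat_lit 78) (nat_lit 0) (nat_lit 0) (XT.lf (nat_lit 0) (nat_lit 5369129568) (nat_lit 152) (nat_lit 1791997248) (nat_lit 228) (nat_lit 26432690639) (nat_lit 72) (nat_lit 5) (nat_lit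 74) (nat_lit 5) (nat_lit 75) (nat_lit 5) (nat_lit 466) (nat_lit 410) (nat_lit 324)) (XT.lf (nat_lit 0) (nat_lit 17414709626) (nat_lit 228) (nat_lit 7150679645) (nat_lit 76) (nat_lit 10109618919) (nat_lit 72) (nat_lit 5) (nat_lit 75) (nat_lit 5) (nat_lit 73) (nat_lit 4) (nat_lit 467) (nat_lit 410) (nat_lit 323)))) (XT.nd (nat_lit 156) (nat_lit 76) (nat_lit 0) (XT.nd (nat_lit 78) (nat_lit 228) (nat_lit 0) (XT.lf (nat_lit 0) (nat_lit 15410390843) (nat_lit 76) (nat_lit 13024199726) (nat_lit 152) (nat_lit 7362987232) (nat_lit 71) (nat_lit 5) (nat_lit 72) (nat_lit 5) (nat_lit 73) (nat_lit 4) (nat_lit 468) (nat_lit 410) (nat_lit 322)) (XT.lf (nat_lit 0) (nat_lit 2373705754) (nat_lit 152) (nat_lit 702366431) (nat_lit 228) (nat_lit 33890647489) (nat_lit 68) (nat_lit 5) (nat_lit 70) (nat_lit 5) (nat_lit 71) (nat_lit 5) (nat_lit 469) (nat_lit 410) (nat_lit 321))) (XT.nd (nat_lit 78) (nat_lit 76) (nat_lit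 0) (XT.lf (nat_lit 0) (nat_lit 14315376452) (nat_lit 228) (nat_lit 11544637558) (nat_lit 76) (nat_lit 12301982820) (nat_lit 68) (nat_lit 5) (nat_lit 71) (nat_lit 5) (nat_lit 69) (nat_lit 4) (nat_lit 470) (nat_lit 410) (nat_lit 320)) (XT.lf (nat_lit 0) (nat_lit 13032600126) (nat_lit 76) (nat_lit 13283586070) (nat_lit 152) (nat_lit 13090874875) (nat_lit 67) (nat_lit 5) (nat_lit 68) (nat_lit 5) (nat_lit 69) (nat_lit 4) (nat_lit 471) (nat_lit 410) (nat_lit 319))))) (XT.nd (nat_lit 312) (nat_lit 380) (nat_lit 0) (XT.nd (nat_lit 156) (nat_lit 76) (nat_lit 0) (XT.nd (nat_lit 78) (nat_lit 152) (nat_lit 0) (XT.lf (nat_lit 0) (nat_lit 39099159497) (nat_lit 152) (nat_lit 1496325890) (nat_lit 0) (nat_lit 109787211) (nat_lit 67) (nat_lit 5) (nat_lit 69) (nat_lit 4) (nat_lit 67) (nat_lit 4) (nat_lit 472) (nat_lit 410) (nat_lit 318)) (XT.lf (nat_lit 0) (nat_lit 10724455262) (nat_lit 152) (nat_lit 17025335889)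 (nat_lit 76) (nat_lit 14280137505) (nat_lit 65) (nat_lit 5) (nat_lit 67) (nat_lit 5) (nat_lit 66) (nat_lit 4) (nat_lit 473) (nat_lit 410) (nat_lit 317))) (XT.nd (nat_lit 78) (nat_lit 0) (nat_lit 0) (XT.lf (nat_lit 0) (nat_lit 9719406723) (nat_lit 76) (nat_lit 14061065559) (nat_lit 152) (nat_lit 19630884139) (nat_lit 64) (nat_lit 5) (nat_lit 65) (nat_lit 5) (nat_lit 66) (nat_lit 4) (nat_lit 474) (nat_lit 410) (nat_lit 316)) (XT.lf (nat_lit 0) (nat_lit 37772677250) (nat_lit 152) (nat_lit 6492519484) (nat_lit 0) (nat_lit 582489671) (nat_lit 64) (nat_lit 5) (nat_lit 66) (nat_lit 4) (nat_lit 64) (nat_lit 4) (nat_lit 475) (nat_lit 410) (nat_lit 315)))) (XT.nd (nat_lit 156) (nat_lit 152) (nat_lit 0) (XT.nd (nat_lit 78) (nat_lit 76) (nat_lit 0) (XT.lf (nat_lit 0) (nat_lit 6490890089) (nat_lit 152) (nat_lit 23901219361) (nat_lit 76) (nat_lit 15930067655) (nat_lit 62) (nat_lit 5) (nat_lit 64) (nat_lit 5)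 (nat_lit 63) (nat_lit 4) (nat_lit 476) (nat_lit 410) (nat_lit 314)) (XT.lf (nat_lit 0) (nat_lit 5161384255) (nat_lit 76) (nat_lit 15514449045) (nat_lit 152) (nat_lit 27179834229) (nat_lit 61) (nat_lit 5) (nat_lit 62) (nat_lit 5) (nat_lit 63) (nat_lit 4) (nat_lit 477) (nat_lit 410) (nat_lit 313))) (XT.nd (nat_lit 78) (nat_lit 152) (nat_lit 0) (XT.lf (nat_lit 0) (nat_lit 35969337346) (nat_lit 152) (nat_lit 12973684480) (nat_lit 0) (nat_lit 502845119) (nat_lit 61) (nat_lit 5) (nat_lit 63) (nat_lit 4) (nat_lit 61) (nat_lit 4) (nat_lit 478) (nat_lit 410) (nat_lit 312)) (XT.lf (nat_lit 0) (nat_lit 1422239478) (nat_lit 152) (nat_lit 32565180502) (nat_lit 76) (nat_lit 17100470244) (nat_lit 59) (nat_lit 5) (nat_lit 61) (nat_lit 5) (nat_lit 60) (nat_lit 4) (nat_lit 479) (nat_lit 410) (nat_lit 311)))))) (XT.nd (nat_lit 624) (nat_lit 532) (nat_lit 0) (XT.nd (nat_lit 312) (nat_lit 304) (nat_lit 0) (XT.nd (nat_lit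 156) (nat_lit 152) (nat_lit 0) (XT.nd (nat_lit 78) (nat_lit 76) (nat_lit 0) (XT.lf (nat_lit 0) (nat_lit 16823270523) (nat_lit 152) (nat_lit 1006666104) (nat_lit 76) (nat_lit 34960520674) (nat_lit 59) (nat_lit 5) (nat_lit 61) (nat_lit 5) (nat_lit 60) (nat_lit 4) (nat_lit 480) (nat_lit 410) (nat_lit 310)) (XT.lf (nat_lit 0) (nat_lit 33167090644) (nat_lit 76) (nat_lit 332623006) (nat_lit 152) (nat_lit 21053171182) (nat_lit 58) (nat_lit 5) (nat_lit 59) (nat_lit 5) (nat_lit 60) (nat_lit 4) (nat_lit 481) (nat_lit 410) (nat_lit 309))) (XT.nd (nat_lit 78) (nat_lit 76) (nat_lit 0) (XT.lf (nat_lit 0) (nat_lit 12784894033) (nat_lit 76) (nat_lit 38711238574) (nat_lit 76) (nat_lit 4882993569) (nat_lit 57) (nat_lit 4) (nat_lit 58) (nat_lit 5) (nat_lit 58) (nat_lit 4) (nat_lit 482) (nat_lit 410) (nat_lit 308)) (XT.lf (nat_lit 0) (nat_lit 12069712623) (nat_lit 152) (nat_lit 9096522258) (nat_lit 76) (nat_lit 37102944562)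 (nat_lit 56) (nat_lit 5) (nat_lit 58) (nat_lit 5) (nat_lit 57) (nat_lit 4) (nat_lit 483) (nat_lit 410) (nat_lit 307)))) (XT.nd (nat_lit 156) (nat_lit 152) (nat_lit 0) (XT.nd (nat_lit 78) (nat_lit 76) (nat_lit 0) (XT.lf (nat_lit 0) (nat_lit 27916382728) (nat_lit 76) (nat_lit 2213603237) (nat_lit 152) (nat_lit 30098545438) (nat_lit 55) (nat_lit 5) (nat_lit 56) (nat_lit 5) (nat_lit 57) (nat_lit 4) (nat_lit 484) (nat_lit 410) (nat_lit 306)) (XT.lf (nat_lit 0) (nat_lit 4665069678) (nat_lit 76) (nat_lit 44921968683) (nat_lit 76) (nat_lit 12674124429) (nat_lit 54) (nat_lit 4) (nat_lit 55) (nat_lit 5) (nat_lit 55) (nat_lit 4) (nat_lit 485) (nat_lit 410) (nat_lit 305))) (XT.nd (nat_lit 78) (nat_lit 76) (nat_lit 0) (XT.lf (nat_lit 0) (nat_lit 6022303397) (nat_lit 152) (nat_lit 19911326792) (nat_lit 76) (nat_lit 38428371793) (nat_lit 53) (nat_lit 5) (nat_lit 55) (nat_lit 5) (nat_lit 54) (nat_lit 4) (nat_lit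 486) (nat_lit 410) (nat_lit 304)) (XT.lf (nat_lit 0) (nat_lit 20070192178) (nat_lit 76) (nat_lit 5459567397) (nat_lit 152) (nat_lit 41012627986) (nat_lit 52) (nat_lit 5) (nat_lit 53) (nat_lit 5) (nat_lit 54) (nat_lit 4) (nat_lit 487) (nat_lit 410) (nat_lit 303))))) (XT.nd (nat_lit 312) (nat_lit 304) (nat_lit 0) (XT.nd (nat_lit 156) (nat_lit 152) (nat_lit 0) (XT.nd (nat_lit 78) (nat_lit 76) (nat_lit 0) (XT.lf (nat_lit 0) (nat_lit 46594541835) (nat_lit 152) (nat_lit 6350909939) (nat_lit 0) (nat_lit 15857243064) (nat_lit 52) (nat_lit 5) (nat_lit 54) (nat_lit 4) (nat_lit 52) (nat_lit 4) (nat_lit 488) (nat_lit 410) (nat_lit 302)) (XT.lf (nat_lit 0) (nat_lit 36845154583) (nat_lit 76) (nat_lit 32521514509) (nat_lit 76) (nat_lit 1776643170) (nat_lit 51) (nat_lit 4) (nat_lit 52) (nat_lit 5) (nat_lit 52) (nat_lit 4) (nat_lit 489) (nat_lit 410) (nat_lit 301))) (XT.nd (nat_lit 78) (nat_lit 0) (nat_lit 0) (XT.lf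 (nat_lit 0) (nat_lit 8776802359) (nat_lit 76) (nat_lit 10505580893) (nat_lit 152) (nat_lit 54291431648) (nat_lit 49) (nat_lit 5) (nat_lit 50) (nat_lit 5) (nat_lit 51) (nat_lit 4) (nat_lit 490) (nat_lit 410) (nat_lit 300)) (XT.lf (nat_lit 0) (nat_lit 42111310883) (nat_lit 152) (nat_lit 21157171727) (nat_lit 0) (nat_lit 12817071025) (nat_lit 49) (nat_lit 5) (nat_lit 51) (nat_lit 4) (nat_lit 49) (nat_lit 4) (nat_lit 491) (nat_lit 410) (nat_lit 299)))) (XT.nd (nat_lit 156) (nat_lit 152) (nat_lit 0) (XT.nd (nat_lit 78) (nat_lit 76) (nat_lit 0) (XT.lf (nat_lit 0) (nat_lit 25281515411) (nat_lit 76) (nat_lit 41356996226) (nat_lit 76) (nat_lit 12056526397) (nat_lit 48) (nat_lit 4) (nat_lit 49) (nat_lit 5) (nat_lit 49) (nat_lit 4) (nat_lit 492) (nat_lit 410) (nat_lit 298)) (XT.lf (nat_lit 0) (nat_lit 10960460455) (nat_lit 152) (nat_lit 6837459200) (nat_lit 76) (nat_lit 63610819547) (nat_lit 47) (nat_lit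 5) (nat_lit 49) (nat_lit 5) (nat_lit 48) (nat_lit 4) (nat_lit 493) (nat_lit 410) (nat_lit 297))) (XT.nd (nat_lit 78) (nat_lit 76) (nat_lit 0) (XT.lf (nat_lit 0) (nat_lit 35511004146) (nat_lit 152) (nat_lit 41103082312) (nat_lit 0) (nat_lit 7594762335) (nat_lit 46) (nat_lit 5) (nat_lit 48) (nat_lit 4) (nat_lit 46) (nat_lit 4) (nat_lit 494) (nat_lit 410) (nat_lit 296)) (XT.nd (nat_lit 78) (nat_lit 0) (nat_lit 0) (XT.lf (nat_lit 0) (nat_lit 8602878820) (nat_lit 76) (nat_lit 53220371770) (nat_lit 76) (nat_lit 25299004547) (nat_lit 45) (nat_lit 4) (nat_lit 46) (nat_lit 5) (nat_lit 46) (nat_lit 4) (nat_lit 495) (nat_lit 410) (nat_lit 295)) (XT.lf (nat_lit 0) (nat_lit 62202293173) (nat_lit 76) (nat_lit 27935477099) (nat_lit 76) (nat_lit 9228530) (nat_lit 45) (nat_lit 4) (nat_lit 46) (nat_lit 5) (nat_lit 46) (nat_lit 4) (nat_lit 496) (nat_lit 410) (nat_lit 294))))))))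
noncomputable def xc235 : XT := (XT.nd (nat_lit 1248) (nat_lit 912) (nat_lit 0) (XT.nd (nat_lit 624) (nat_lit 456) (nat_lit 0) (XT.nd (nat_lit 312) (nat_lit 228) (nat_lit 0) (XT.nd (nat_lit 156) (nat_lit 228) (nat_lit 0) (XT.nd (nat_lit 78) (nat_lit 0) (nat_lit 0) (XT.lf (nat_lit 0) (nat_lit 25543553881) (nat_lit 76) (nat_lit 541544338) (nat_lit 152) (nat_lit 67197675915) (nat_lit 43) (nat_lit 5) (nat_lit 44) (nat_lit 5) (nat_lit 45) (nat_lit 4) (nat_lit 497) (nat_lit 410) (nat_lit 293)) (XT.lf (nat_lit 0) (nat_lit 54396349367) (nat_lit 152) (nat_lit 14342077487) (nat_lit 0) (nat_lit 27791277946) (nat_lit 43) (nat_lit 5) (nat_lit 45) (nat_lit 4) (nat_lit 43) (nat_lit 4) (nat_lit 498) (nat_lit 410) (nat_lit 292))) (XT.nd (nat_lit 78) (nat_lit 152) (nat_lit 0) (XT.lf (nat_lit 0) (nat_lit 43077390035) (nat_lit 76) (nat_lit 41718520963) (nat_lit 76) (nat_lit 15109433647) (nat_lit 42) (nat_lit 4) (nat_lit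 43) (nat_lit 5) (nat_lit 43) (nat_lit 4) (nat_lit 499) (nat_lit 410) (nat_lit 291)) (XT.lf (nat_lit 0) (nat_lit 206231299) (nat_lit 76) (nat_lit 12876277615) (nat_lit 152) (nat_lit 90344831407) (nat_lit 40) (nat_lit 5) (nat_lit 41) (nat_lit 5) (nat_lit 42) (nat_lit 4) (nat_lit 500) (nat_lit 410) (nat_lit 290)))) (XT.nd (nat_lit 156) (nat_lit 152) (nat_lit 0) (XT.nd (nat_lit 78) (nat_lit 76) (nat_lit 0) (XT.lf (nat_lit 0) (nat_lit 43417577248) (nat_lit 152) (nat_lit 45564930842) (nat_lit 0) (nat_lit 18068477712) (nat_lit 40) (nat_lit 5) (nat_lit 42) (nat_lit 4) (nat_lit 40) (nat_lit 4) (nat_lit 501) (nat_lit 410) (nat_lit 289)) (XT.lf (nat_lit 0) (nat_lit 15233962562) (nat_lit 76) (nat_lit 60476110377) (nat_lit 76) (nat_lit 35123706955) (nat_lit 39) (nat_lit 4) (nat_lit 40) (nat_lit 5) (nat_lit 40) (nat_lit 4) (nat_lit 502) (nat_lit 410) (nat_lit 288))) (XT.nd (nat_lit 78) (nat_lit 152) (nat_lit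 0) (XT.lf (nat_lit 0) (nat_lit 80638390608) (nat_lit 76) (nat_lit 29742347920) (nat_lit 76) (nat_lit 4386797939) (nat_lit 39) (nat_lit 4) (nat_lit 40) (nat_lit 5) (nat_lit 40) (nat_lit 4) (nat_lit 503) (nat_lit 410) (nat_lit 287)) (XT.lf (nat_lit 0) (nat_lit 27524235717) (nat_lit 152) (nat_lit 87952244849) (nat_lit 0) (nat_lit 3373238857) (nat_lit 37) (nat_lit 5) (nat_lit 39) (nat_lit 4) (nat_lit 37) (nat_lit 4) (nat_lit 504) (nat_lit 410) (nat_lit 286))))) (XT.nd (nat_lit 312) (nat_lit 228) (nat_lit 0) (XT.nd (nat_lit 156) (nat_lit 152) (nat_lit 0) (XT.nd (nat_lit 78) (nat_lit 76) (nat_lit 0) (XT.lf (nat_lit 0) (nat_lit 61950594414) (nat_lit 152) (nat_lit 23331582041) (nat_lit 0) (nat_lit 37796879438) (nat_lit 37) (nat_lit 5) (nat_lit 39) (nat_lit 4) (nat_lit 37) (nat_lit 4) (nat_lit 505) (nat_lit 410) (nat_lit 285)) (XT.lf (nat_lit 0) (nat_lit 45976591385) (nat_lit 76) (nat_lit 52832027057) (nat_lit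 76) (nat_lit 28675723400) (nat_lit 36) (nat_lit 4) (nat_lit 37) (nat_lit 5) (nat_lit 37) (nat_lit 4) (nat_lit 506) (nat_lit 410) (nat_lit 284))) (XT.nd (nat_lit 78) (nat_lit 76) (nat_lit 0) (XT.lf (nat_lit 0) (nat_lit 5620966283) (nat_lit 152) (nat_lit 12635788185) (nat_lit 76) (nat_lit 113829215595) (nat_lit 35) (nat_lit 5) (nat_lit 37) (nat_lit 5) (nat_lit 36) (nat_lit 4) (nat_lit 507) (nat_lit 410) (nat_lit 283)) (XT.lf (nat_lit 0) (nat_lit 41921459452) (nat_lit 152) (nat_lit 75999210751) (nat_lit 0) (nat_lit 18910871759) (nat_lit 34) (nat_lit 5) (nat_lit 36) (nat_lit 4) (nat_lit 34) (nat_lit 4) (nat_lit 508) (nat_lit 410) (nat_lit 282)))) (XT.nd (nat_lit 156) (nat_lit 152) (nat_lit 0) (XT.nd (nat_lit 78) (nat_lit 76) (nat_lit 0) (XT.lf (nat_lit 0) (nat_lit 80546660825) (nat_lit 152) (nat_lit 3708304058) (nat_lit 0) (nat_lit 57533943417) (nat_lit 34) (nat_lit 5) (nat_lit 36) (nat_lit 4) (nat_lit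 34) (nat_lit 4) (nat_lit 509) (nat_lit 410) (nat_lit 281)) (XT.lf (nat_lit 0) (nat_lit 74570188528) (nat_lit 76) (nat_lit 47690413094) (nat_lit 76) (nat_lit 24675667386) (nat_lit 33) (nat_lit 4) (nat_lit 34) (nat_lit 5) (nat_lit 34) (nat_lit 4) (nat_lit 510) (nat_lit 410) (nat_lit 280))) (XT.nd (nat_lit 78) (nat_lit 0) (nat_lit 0) (XT.lf (nat_lit 0) (nat_lit 4467582792) (nat_lit 76) (nat_lit 8939373409) (nat_lit 152) (nat_lit 138916990982) (nat_lit 31) (nat_lit 5) (nat_lit 32) (nat_lit 5) (nat_lit 33) (nat_lit 4) (nat_lit 511) (nat_lit 410) (nat_lit 279)) (XT.lf (nat_lit 0) (nat_lit 54299025651) (nat_lit 152) (nat_lit 71198400367) (nat_lit 0) (nat_lit 32376628366) (nat_lit 31) (nat_lit 5) (nat_lit 33) (nat_lit 4) (nat_lit 31) (nat_lit 4) (nat_lit 512) (nat_lit 410) (nat_lit 278)))))) (XT.nd (nat_lit 624) (nat_lit 456) (nat_lit 0) (XT.nd (nat_lit 312) (nat_lit 228) (nat_lit 0) (XT.nd (nat_lit 156)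 (nat_lit 152) (nat_lit 0) (XT.nd (nat_lit 78) (nat_lit 0) (nat_lit 0) (XT.lf (nat_lit 0) (nat_lit 9434860160) (nat_lit 76) (nat_lit 88088251070) (nat_lit 76) (nat_lit 66164185098) (nat_lit 30) (nat_lit 4) (nat_lit 31) (nat_lit 5) (nat_lit 31) (nat_lit 4) (nat_lit 513) (nat_lit 410) (nat_lit 277)) (XT.lf (nat_lit 0) (nat_lit 96558812509) (nat_lit 76) (nat_lit 47549035368) (nat_lit 76) (nat_lit 25623380169) (nat_lit 30) (nat_lit 4) (nat_lit 31) (nat_lit 5) (nat_lit 31) (nat_lit 4) (nat_lit 514) (nat_lit 410) (nat_lit 276))) (XT.nd (nat_lit 78) (nat_lit 0) (nat_lit 0) (XT.lf (nat_lit 0) (nat_lit 12070991483) (nat_lit 76) (nat_lit 4513476921) (nat_lit 152) (nat_lit 159470543827) (nat_lit 28) (nat_lit 5) (nat_lit 29) (nat_lit 5) (nat_lit 30) (nat_lit 4) (nat_lit 515) (nat_lit 410) (nat_lit 275)) (XT.lf (nat_lit 0) (nat_lit 61930028755) (nat_lit 152) (nat_lit 79603894399) (nat_lit 0) (nat_lit 41045638068)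 (nat_lit 28) (nat_lit 5) (nat_lit 30) (nat_lit 4) (nat_lit 28) (nat_lit 4) (nat_lit 516) (nat_lit 410) (nat_lit 274)))) (XT.nd (nat_lit 156) (nat_lit 152) (nat_lit 0) (XT.nd (nat_lit 78) (nat_lit 0) (nat_lit 0) (XT.lf (nat_lit 0) (nat_lit 9204007897) (nat_lit 76) (nat_lit 100550717506) (nat_lit 76) (nat_lit 79665019358) (nat_lit 27) (nat_lit 4) (nat_lit 28) (nat_lit 5) (nat_lit 28) (nat_lit 4) (nat_lit 517) (nat_lit 410) (nat_lit 273)) (XT.lf (nat_lit 0) (nat_lit 105204338815) (nat_lit 76) (nat_lit 56108711183) (nat_lit 76) (nat_lit 35221767836) (nat_lit 27) (nat_lit 4) (nat_lit 28) (nat_lit 5) (nat_lit 28) (nat_lit 4) (nat_lit 518) (nat_lit 410) (nat_lit 272))) (XT.nd (nat_lit 78) (nat_lit 0) (nat_lit 0) (XT.lf (nat_lit 0) (nat_lit 1868928096) (nat_lit 76) (nat_lit 9232075488) (nat_lit 152) (nat_lit 192894526347) (nat_lit 25) (nat_lit 5) (nat_lit 26) (nat_lit 5) (nat_lit 27) (nat_lit 4) (nat_lit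 519) (nat_lit 410) (nat_lit 271)) (XT.lf (nat_lit 0) (nat_lit 60747094067) (nat_lit 152) (nat_lit 110091208146) (nat_lit 0) (nat_lit 40852561986) (nat_lit 25) (nat_lit 5) (nat_lit 27) (nat_lit 4) (nat_lit 25) (nat_lit 4) (nat_lit 520) (nat_lit 410) (nat_lit 270))))) (XT.nd (nat_lit 312) (nat_lit 228) (nat_lit 0) (XT.nd (nat_lit 156) (nat_lit 152) (nat_lit 0) (XT.nd (nat_lit 78) (nat_lit 76) (nat_lit 0) (XT.lf (nat_lit 0) (nat_lit 113021548831) (nat_lit 152) (nat_lit 13616121051) (nat_lit 0) (nat_lit 93125992320) (nat_lit 25) (nat_lit 5) (nat_lit 27) (nat_lit 4) (nat_lit 25) (nat_lit 4) (nat_lit 521) (nat_lit 410) (nat_lit 269)) (XT.lf (nat_lit 0) (nat_lit 90571349417) (nat_lit 76) (nat_lit 78747415464) (nat_lit 76) (nat_lit 58850883307) (nat_lit 24) (nat_lit 4) (nat_lit 25) (nat_lit 5) (nat_lit 25) (nat_lit 4) (nat_lit 522) (nat_lit 410) (nat_lit 268))) (XT.nd (nat_lit 78) (nat_lit 152) (nat_lit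 0) (XT.lf (nat_lit 0) (nat_lit 200430859433) (nat_lit 76) (nat_lit 28225626591) (nat_lit 76) (nat_lit 8328165246) (nat_lit 24) (nat_lit 4) (nat_lit 25) (nat_lit 5) (nat_lit 25) (nat_lit 4) (nat_lit 523) (nat_lit 410) (nat_lit 267)) (XT.lf (nat_lit 0) (nat_lit 44811910924) (nat_lit 152) (nat_lit 175456349711) (nat_lit 0) (nat_lit 25861104938) (nat_lit 22) (nat_lit 5) (nat_lit 24) (nat_lit 4) (nat_lit 22) (nat_lit 4) (nat_lit 524) (nat_lit 410) (nat_lit 266)))) (XT.nd (nat_lit 156) (nat_lit 152) (nat_lit 0) (XT.nd (nat_lit 78) (nat_lit 76) (nat_lit 0) (XT.lf (nat_lit 0) (nat_lit 101416239662) (nat_lit 152) (nat_lit 71789262077) (nat_lit 0) (nat_lit 82464631009) (nat_lit 22) (nat_lit 5) (nat_lit 24) (nat_lit 4) (nat_lit 22) (nat_lit 4) (nat_lit 525) (nat_lit 410) (nat_lit 265)) (XT.lf (nat_lit 0) (nat_lit 38277009573) (nat_lit 76) (nat_lit 123166824672) (nat_lit 76) (nat_lit 104214451575) (nat_lit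 21) (nat_lit 4) (nat_lit 22) (nat_lit 5) (nat_lit 22) (nat_lit 4) (nat_lit 526) (nat_lit 410) (nat_lit 264))) (XT.nd (nat_lit 78) (nat_lit 152) (nat_lit 0) (XT.lf (nat_lit 0) (nat_lit 156329831740) (nat_lit 76) (nat_lit 69354275509) (nat_lit 76) (nat_lit 50401174369) (nat_lit 21) (nat_lit 4) (nat_lit 22) (nat_lit 5) (nat_lit 22) (nat_lit 4) (nat_lit 527) (nat_lit 410) (nat_lit 263)) (XT.nd (nat_lit 78) (nat_lit 76) (nat_lit 0) (XT.lf (nat_lit 0) (nat_lit 5903096462) (nat_lit 152) (nat_lit 6852446765) (nat_lit 76) (nat_lit 274273537100) (nat_lit 20) (nat_lit 5) (nat_lit 22) (nat_lit 5) (nat_lit 21) (nat_lit 4) (nat_lit 528) (nat_lit 410) (nat_lit 262)) (XT.lf (nat_lit 0) (nat_lit 65884204905) (nat_lit 152) (nat_lit 184634436810) (nat_lit 0) (nat_lit 47832343124) (nat_lit 19) (nat_lit 5) (nat_lit 21) (nat_lit 4) (nat_lit 19) (nat_lit 4) (nat_lit 529) (nat_lit 410) (nat_lit 261))))))))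
noncomputable def xc236 : XT := (XT.nd (nat_lit 1248) (nat_lit 228) (nat_lit 0) (XT.nd (nat_lit 624) (nat_lit 228) (nat_lit 0) (XT.nd (nat_lit 312) (nat_lit 228) (nat_lit 0) (XT.nd (nat_lit 156) (nat_lit 0) (nat_lit 0) (XT.nd (nat_lit 78) (nat_lit 76) (nat_lit 0) (XT.lf (nat_lit 0) (nat_lit 129187293303) (nat_lit 152) (nat_lit 69900712495) (nat_lit 0) (nat_lit 111134832559) (nat_lit 19) (nat_lit 5) (nat_lit 21) (nat_lit 4) (nat_lit 19) (nat_lit 4) (nat_lit 530) (nat_lit 410) (nat_lit 260)) (XT.lf (nat_lit 0) (nat_lit 52233481633) (nat_lit 76) (nat_lit 144233627723) (nat_lit 76) (nat_lit 126180596538) (nat_lit 18) (nat_lit 4) (nat_lit 19) (nat_lit 5) (nat_lit 19) (nat_lit 4) (nat_lit 531) (nat_lit 410) (nat_lit 259))) (XT.nd (nat_lit 78) (nat_lit 0) (nat_lit 0) (XT.lf (nat_lit 0) (nat_lit 182893295605) (nat_lit 76) (nat_lit 85397549610) (nat_lit 76) (nat_lit 67343975149) (nat_lit 18) (nat_lit 4)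 (nat_lit 19) (nat_lit 5) (nat_lit 19) (nat_lit 4) (nat_lit 532) (nat_lit 410) (nat_lit 258)) (XT.lf (nat_lit 0) (nat_lit 320078590981) (nat_lit 76) (nat_lit 23623487948) (nat_lit 76) (nat_lit 5569396080) (nat_lit 18) (nat_lit 4) (nat_lit 19) (nat_lit 5) (nat_lit 19) (nat_lit 4) (nat_lit 533) (nat_lit 410) (nat_lit 257)))) (XT.nd (nat_lit 156) (nat_lit 76) (nat_lit 0) (XT.nd (nat_lit 78) (nat_lit 0) (nat_lit 0) (XT.lf (nat_lit 0) (nat_lit 59684334404) (nat_lit 152) (nat_lit 261255438990) (nat_lit 0) (nat_lit 42489491894) (nat_lit 16) (nat_lit 5) (nat_lit 18) (nat_lit 4) (nat_lit 16) (nat_lit 4) (nat_lit 534) (nat_lit 410) (nat_lit 256)) (XT.lf (nat_lit 0) (nat_lit 128899784606) (nat_lit 152) (nat_lit 137641790187) (nat_lit 0) (nat_lit 111704495141) (nat_lit 16) (nat_lit 5) (nat_lit 18) (nat_lit 4) (nat_lit 16) (nat_lit 4) (nat_lit 535) (nat_lit 410) (nat_lit 255))) (XT.nd (nat_lit 78) (nat_lit 76)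 (nat_lit 0) (XT.lf (nat_lit 0) (nat_lit 201572607952) (nat_lit 152) (nat_lit 7854384018) (nat_lit 0) (nat_lit 184376892816) (nat_lit 16) (nat_lit 5) (nat_lit 18) (nat_lit 4) (nat_lit 16) (nat_lit 4) (nat_lit 536) (nat_lit 410) (nat_lit 254)) (XT.lf (nat_lit 0) (nat_lit 132661803344) (nat_lit 76) (nat_lit 147285254163) (nat_lit 76) (nat_lit 130089133625) (nat_lit 15) (nat_lit 4) (nat_lit 16) (nat_lit 5) (nat_lit 16) (nat_lit 4) (nat_lit 537) (nat_lit 410) (nat_lit 253))))) (XT.nd (nat_lit 312) (nat_lit 76) (nat_lit 0) (XT.nd (nat_lit 156) (nat_lit 76) (nat_lit 0) (XT.nd (nat_lit 78) (nat_lit 76) (nat_lit 0) (XT.lf (nat_lit 0) (nat_lit 280469997620) (nat_lit 76) (nat_lit 81900065079) (nat_lit 76) (nat_lit 64703558444) (nat_lit 15) (nat_lit 4) (nat_lit 16) (nat_lit 5) (nat_lit 16) (nat_lit 4) (nat_lit 538) (nat_lit 410) (nat_lit 252)) (XT.lf (nat_lit 0) (nat_lit 3821746651) (nat_lit 152) (nat_lit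 9362293709) (nat_lit 76) (nat_lit 431775951893) (nat_lit 14) (nat_lit 5) (nat_lit 16) (nat_lit 5) (nat_lit 15) (nat_lit 4) (nat_lit 539) (nat_lit 410) (nat_lit 251))) (XT.nd (nat_lit 78) (nat_lit 0) (nat_lit 0) (XT.lf (nat_lit 0) (nat_lit 76725294515) (nat_lit 152) (nat_lit 326459044213) (nat_lit 0) (nat_lit 60346985423) (nat_lit 13) (nat_lit 5) (nat_lit 15) (nat_lit 4) (nat_lit 13) (nat_lit 4) (nat_lit 540) (nat_lit 410) (nat_lit 250)) (XT.lf (nat_lit 0) (nat_lit 153648370995) (nat_lit 152) (nat_lit 192094389828) (nat_lit 0) (nat_lit 137269744261) (nat_lit 13) (nat_lit 5) (nat_lit 15) (nat_lit 4) (nat_lit 13) (nat_lit 4) (nat_lit 541) (nat_lit 410) (nat_lit 249)))) (XT.nd (nat_lit 156) (nat_lit 0) (nat_lit 0) (XT.nd (nat_lit 78) (nat_lit 76) (nat_lit 0) (XT.lf (nat_lit 0) (nat_lit 234414806232) (nat_lit 152) (nat_lit 51017201610) (nat_lit 0) (nat_lit 218035876980) (nat_lit 13) (nat_lit 5) (nat_lit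 15) (nat_lit 4) (nat_lit 13) (nat_lit 4) (nat_lit 542) (nat_lit 410) (nat_lit 248)) (XT.lf (nat_lit 0) (nat_lit 100319261379) (nat_lit 76) (nat_lit 220463904696) (nat_lit 76) (nat_lit 204084687333) (nat_lit 12) (nat_lit 4) (nat_lit 13) (nat_lit 5) (nat_lit 13) (nat_lit 4) (nat_lit 543) (nat_lit 410) (nat_lit 247))) (XT.nd (nat_lit 78) (nat_lit 0) (nat_lit 0) (XT.lf (nat_lit 0) (nat_lit 260988409588) (nat_lit 76) (nat_lit 151342916735) (nat_lit 76) (nat_lit 134963424981) (nat_lit 12) (nat_lit 4) (nat_lit 13) (nat_lit 5) (nat_lit 13) (nat_lit 4) (nat_lit 544) (nat_lit 410) (nat_lit 246)) (XT.lf (nat_lit 0) (nat_lit 429685929524) (nat_lit 76) (nat_lit 78768471174) (nat_lit 76) (nat_lit 62388718094) (nat_lit 12) (nat_lit 4) (nat_lit 13) (nat_lit 5) (nat_lit 13) (nat_lit 4) (nat_lit 545) (nat_lit 410) (nat_lit 245)))))) (XT.nd (nat_lit 624) (nat_lit 0) (nat_lit 0) (XT.nd (nat_lit 312) (nat_lit 76) (nat_lit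 0) (XT.nd (nat_lit 156) (nat_lit 0) (nat_lit 0) (XT.nd (nat_lit 78) (nat_lit 0) (nat_lit 0) (XT.lf (nat_lit 0) (nat_lit 11393473205) (nat_lit 76) (nat_lit 2154563460) (nat_lit 152) (nat_lit 582001310164) (nat_lit 10) (nat_lit 5) (nat_lit 11) (nat_lit 5) (nat_lit 12) (nat_lit 4) (nat_lit 546) (nat_lit 410) (nat_lit 244)) (XT.lf (nat_lit 0) (nat_lit 94834627663) (nat_lit 152) (nat_lit 447188236836) (nat_lit 0) (nat_lit 79234400053) (nat_lit 10) (nat_lit 5) (nat_lit 12) (nat_lit 4) (nat_lit 10) (nat_lit 4) (nat_lit 547) (nat_lit 410) (nat_lit 243))) (XT.nd (nat_lit 78) (nat_lit 0) (nat_lit 0) (XT.lf (nat_lit 0) (nat_lit 180218570549) (nat_lit 152) (nat_lit 303412228551) (nat_lit 0) (nat_lit 164618127946) (nat_lit 10) (nat_lit 5) (nat_lit 12) (nat_lit 4) (nat_lit 10) (nat_lit 4) (nat_lit 548) (nat_lit 410) (nat_lit 242)) (XT.lf (nat_lit 0) (nat_lit 269869521653) (nat_lit 152) (nat_lit 152451886165)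 (nat_lit 0) (nat_lit 254268874295) (nat_lit 10) (nat_lit 5) (nat_lit 12) (nat_lit 4) (nat_lit 10) (nat_lit 4) (nat_lit 549) (nat_lit 410) (nat_lit 241)))) (XT.nd (nat_lit 156) (nat_lit 0) (nat_lit 0) (XT.nd (nat_lit 78) (nat_lit 0) (nat_lit 0) (XT.lf (nat_lit 0) (nat_lit 6252333421) (nat_lit 76) (nat_lit 357846218645) (nat_lit 76) (nat_lit 342245376281) (nat_lit 9) (nat_lit 4) (nat_lit 10) (nat_lit 5) (nat_lit 10) (nat_lit 4) (nat_lit 550) (nat_lit 410) (nat_lit 240)) (XT.lf (nat_lit 0) (nat_lit 178180364204) (nat_lit 76) (nat_lit 287438465494) (nat_lit 76) (nat_lit 271837437412) (nat_lit 9) (nat_lit 4) (nat_lit 10) (nat_lit 5) (nat_lit 10) (nat_lit 4) (nat_lit 551) (nat_lit 410) (nat_lit 239))) (XT.nd (nat_lit 78) (nat_lit 0) (nat_lit 0) (XT.lf (nat_lit 0) (nat_lit 358700810787) (nat_lit 76) (nat_lit 213512357320) (nat_lit 76) (nat_lit 197911152362) (nat_lit 9) (nat_lit 4) (nat_lit 10) (nat_lit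 5) (nat_lit 10) (nat_lit 4) (nat_lit 552) (nat_lit 410) (nat_lit 238)) (XT.lf (nat_lit 0) (nat_lit 548243483757) (nat_lit 76) (nat_lit 135891879577) (nat_lit 76) (nat_lit 120290506167) (nat_lit 9) (nat_lit 4) (nat_lit 10) (nat_lit 5) (nat_lit 10) (nat_lit 4) (nat_lit 553) (nat_lit 410) (nat_lit 237))))) (XT.nd (nat_lit 51558) (nat_lit 0) (nat_lit 12768) (XT.nd (nat_lit 51402) (nat_lit 0) (nat_lit 13224) (XT.nd (nat_lit 51324) (nat_lit 0) (nat_lit 13908) (XT.lf (nat_lit 0) (nat_lit 747259675193) (nat_lit 76) (nat_lit 54392221606) (nat_lit 76) (nat_lit 38790687765) (nat_lit 9) (nat_lit 4) (nat_lit 10) (nat_lit 5) (nat_lit 10) (nat_lit 4) (nat_lit 554) (nat_lit 410) (nat_lit 236)) (XT.lf (nat_lit 0) (nat_lit 1890490935) (nat_lit 0) (nat_lit 1890490935) (nat_lit 532) (nat_lit 137870237) (nat_lit 192) (nat_lit 5) (nat_lit 192) (nat_lit 3) (nat_lit 199) (nat_lit 3) (nat_lit 411) (nat_lit 411) (nat_lit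 378))) (XT.nd (nat_lit 78) (nat_lit 0) (nat_lit 76) (XT.lf (nat_lit 0) (nat_lit 998357715) (nat_lit 684) (nat_lit 147596240) (nat_lit 684) (nat_lit 6824202557) (nat_lit 183) (nat_lit 3) (nat_lit 192) (nat_lit 3) (nat_lit 192) (nat_lit 5) (nat_lit 412) (nat_lit 411) (nat_lit 377)) (XT.lf (nat_lit 0) (nat_lit 2335550926) (nat_lit 608) (nat_lit 4097958606) (nat_lit 684) (nat_lit 1675070313) (nat_lit 184) (nat_lit 5) (nat_lit 192) (nat_lit 5) (nat_lit 193) (nat_lit 5) (nat_lit 413) (nat_lit 411) (nat_lit 376)))) (XT.nd (nat_lit 156) (nat_lit 532) (nat_lit 0) (XT.nd (nat_lit 78) (nat_lit 0) (nat_lit 0) (XT.lf (nat_lit 76) (nat_lit 64779665) (nat_lit 0) (nat_lit 3619526574) (nat_lit 684) (nat_lit 4572389909) (nat_lit 185) (nat_lit 5) (nat_lit 184) (nat_lit 5) (nat_lit 193) (nat_lit 5) (nat_lit 414) (nat_lit 411) (nat_lit 375)) (XT.lf (nat_lit 76) (nat_lit 4532136362) (nat_lit 0) (nat_lit 563110219) (nat_lit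 684) (nat_lit 3317240924) (nat_lit 185) (nat_lit 5) (nat_lit 184) (nat_lit 5) (nat_lit 193) (nat_lit 5) (nat_lit 415) (nat_lit 411) (nat_lit 374))) (XT.nd (nat_lit 78) (nat_lit 608) (nat_lit 0) (XT.lf (nat_lit 76) (nat_lit 576324733) (nat_lit 0) (nat_lit 5980051173) (nat_lit 684) (nat_lit 2020716710) (nat_lit 186) (nat_lit 5) (nat_lit 185) (nat_lit 5) (nat_lit 194) (nat_lit 5) (nat_lit 416) (nat_lit 411) (nat_lit 373)) (XT.nd (nat_lit 78) (nat_lit 608) (nat_lit 0) (XT.lf (nat_lit 76) (nat_lit 5334182372) (nat_lit 0) (nat_lit 2763141866) (nat_lit 684) (nat_lit 652271603) (nat_lit 186) (nat_lit 5) (nat_lit 185) (nat_lit 5) (nat_lit 194) (nat_lit 5) (nat_lit 417) (nat_lit 411) (nat_lit 372)) (XT.lf (nat_lit 0) (nat_lit 725684889) (nat_lit 684) (nat_lit 7558292879) (nat_lit 760) (nat_lit 647829346) (nat_lit 177) (nat_lit 5) (nat_lit 186) (nat_lit 5) (nat_lit 187) (nat_lit 5) (nat_lit 418) (nat_lit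 411) (nat_lit 371))))))))
noncomputable def xc237 : XT := (XT.nd (nat_lit 1248) (nat_lit 2660) (nat_lit 0) (XT.nd (nat_lit 624) (nat_lit 1748) (nat_lit 0) (XT.nd (nat_lit 312) (nat_lit 1292) (nat_lit 0) (XT.nd (nat_lit 156) (nat_lit 608) (nat_lit 0) (XT.nd (nat_lit 78) (nat_lit 0) (nat_lit 0) (XT.lf (nat_lit 0) (nat_lit 2191532029) (nat_lit 684) (nat_lit 2706192025) (nat_lit 760) (nat_lit 4222829749) (nat_lit 177) (nat_lit 5) (nat_lit 186) (nat_lit 5) (nat_lit 187) (nat_lit 5) (nat_lit 419) (nat_lit 411) (nat_lit 370)) (XT.lf (nat_lit 76) (nat_lit 2418806677) (nat_lit 0) (nat_lit 1289463592) (nat_lit 760) (nat_lit 5611592543) (nat_lit 178) (nat_lit 5) (nat_lit 177) (nat_lit 5) (nat_lit 187) (nat_lit 5) (nat_lit 420) (nat_lit 411) (nat_lit 369))) (XT.nd (nat_lit 78) (nat_lit 684) (nat_lit 0) (XT.lf (nat_lit 0) (nat_lit 5328604689) (nat_lit 684) (nat_lit 1722060551) (nat_lit 76) (nat_lit 2477088760)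 (nat_lit 178) (nat_lit 5) (nat_lit 187) (nat_lit 5) (nat_lit 179) (nat_lit 5) (nat_lit 421) (nat_lit 411) (nat_lit 368)) (XT.lf (nat_lit 0) (nat_lit 3768256659) (nat_lit 684) (nat_lit 3286582965) (nat_lit 760) (nat_lit 2689960399) (nat_lit 169) (nat_lit 5) (nat_lit 178) (nat_lit 5) (nat_lit 179) (nat_lit 5) (nat_lit 422) (nat_lit 411) (nat_lit 367)))) (XT.nd (nat_lit 156) (nat_lit 456) (nat_lit 0) (XT.nd (nat_lit 78) (nat_lit 836) (nat_lit 0) (XT.lf (nat_lit 0) (nat_lit 8854340568) (nat_lit 760) (nat_lit 438344106) (nat_lit 76) (nat_lit 680670215) (nat_lit 169) (nat_lit 5) (nat_lit 179) (nat_lit 5) (nat_lit 170) (nat_lit 5) (nat_lit 423) (nat_lit 411) (nat_lit 366)) (XT.lf (nat_lit 0) (nat_lit 603369550) (nat_lit 836) (nat_lit 4768082841) (nat_lit 76) (nat_lit 4836981395) (nat_lit 158) (nat_lit 5) (nat_lit 169) (nat_lit 5) (nat_lit 159) (nat_lit 5) (nat_lit 424) (nat_lit 411) (nat_lit 365))) (XT.nd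 (nat_lit 78) (nat_lit 0) (nat_lit 0) (XT.lf (nat_lit 0) (nat_lit 1143784381) (nat_lit 456) (nat_lit 1206215471) (nat_lit 532) (nat_lit 8105566553) (nat_lit 152) (nat_lit 5) (nat_lit 158) (nat_lit 5) (nat_lit 159) (nat_lit 5) (nat_lit 425) (nat_lit 411) (nat_lit 364)) (XT.lf (nat_lit 0) (nat_lit 4267466852) (nat_lit 532) (nat_lit 3294325800) (nat_lit 76) (nat_lit 3149091244) (nat_lit 152) (nat_lit 5) (nat_lit 159) (nat_lit 5) (nat_lit 153) (nat_lit 5) (nat_lit 426) (nat_lit 411) (nat_lit 363))))) (XT.nd (nat_lit 312) (nat_lit 608) (nat_lit 0) (XT.nd (nat_lit 156) (nat_lit 760) (nat_lit 0) (XT.nd (nat_lit 78) (nat_lit 0) (nat_lit 0) (XT.lf (nat_lit 0) (nat_lit 3055042278) (nat_lit 380) (nat_lit 3247504773) (nat_lit 456) (nat_lit 4675336551) (nat_lit 147) (nat_lit 5) (nat_lit 152) (nat_lit 5) (nat_lit 153) (nat_lit 5) (nat_lit 427) (nat_lit 411) (nat_lit 362)) (XT.lf (nat_lit 0) (nat_lit 8471804353)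 (nat_lit 456) (nat_lit 1488528005) (nat_lit 76) (nat_lit 1296282955) (nat_lit 147) (nat_lit 5) (nat_lit 153) (nat_lit 5) (nat_lit 148) (nat_lit 5) (nat_lit 428) (nat_lit 411) (nat_lit 361))) (XT.nd (nat_lit 78) (nat_lit 380) (nat_lit 0) (XT.lf (nat_lit 0) (nat_lit 5339054287) (nat_lit 380) (nat_lit 5504869523) (nat_lit 456) (nat_lit 700642858) (nat_lit 142) (nat_lit 5) (nat_lit 147) (nat_lit 5) (nat_lit 148) (nat_lit 5) (nat_lit 429) (nat_lit 411) (nat_lit 360)) (XT.lf (nat_lit 0) (nat_lit 664954900) (nat_lit 304) (nat_lit 769598028) (nat_lit 380) (nat_lit 10411482219) (nat_lit 137) (nat_lit 5) (nat_lit 141) (nat_lit 5) (nat_lit 142) (nat_lit 5) (nat_lit 430) (nat_lit 411) (nat_lit 359)))) (XT.nd (nat_lit 156) (nat_lit 304) (nat_lit 0) (XT.nd (nat_lit 78) (nat_lit 304) (nat_lit 0) (XT.lf (nat_lit 0) (nat_lit 3784995575) (nat_lit 380) (nat_lit 4189657631) (nat_lit 76) (nat_lit 4180750494) (nat_lit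 137) (nat_lit 5) (nat_lit 142) (nat_lit 5) (nat_lit 138) (nat_lit 5) (nat_lit 431) (nat_lit 411) (nat_lit 358)) (XT.lf (nat_lit 0) (nat_lit 3195371048) (nat_lit 304) (nat_lit 3081623173) (nat_lit 380) (nat_lit 6202047253) (nat_lit 133) (nat_lit 5) (nat_lit 137) (nat_lit 5) (nat_lit 138) (nat_lit 5) (nat_lit 432) (nat_lit 411) (nat_lit 357))) (XT.nd (nat_lit 78) (nat_lit 304) (nat_lit 0) (XT.lf (nat_lit 0) (nat_lit 8960352890) (nat_lit 380) (nat_lit 1800107138) (nat_lit 76) (nat_lit 2055065473) (nat_lit 133) (nat_lit 5) (nat_lit 138) (nat_lit 5) (nat_lit 134) (nat_lit 5) (nat_lit 433) (nat_lit 411) (nat_lit 356)) (XT.lf (nat_lit 0) (nat_lit 6159854185) (nat_lit 304) (nat_lit 5729042212) (nat_lit 380) (nat_lit 1274388745) (nat_lit 129) (nat_lit 5) (nat_lit 133) (nat_lit 5) (nat_lit 134) (nat_lit 5) (nat_lit 434) (nat_lit 411) (nat_lit 355)))))) (XT.nd (nat_lit 624) (nat_lit 1216) (nat_lit 0) (XT.nd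 (nat_lit 312) (nat_lit 836) (nat_lit 0) (XT.nd (nat_lit 156) (nat_lit 228) (nat_lit 0) (XT.nd (nat_lit 78) (nat_lit 0) (nat_lit 0) (XT.lf (nat_lit 0) (nat_lit 1018213030) (nat_lit 304) (nat_lit 382933199) (nat_lit 380) (nat_lit 12125585284) (nat_lit 124) (nat_lit 5) (nat_lit 128) (nat_lit 5) (nat_lit 129) (nat_lit 5) (nat_lit 435) (nat_lit 411) (nat_lit 354)) (XT.lf (nat_lit 0) (nat_lit 4335449353) (nat_lit 380) (nat_lit 4368537458) (nat_lit 76) (nat_lit 5194929798) (nat_lit 124) (nat_lit 5) (nat_lit 129) (nat_lit 5) (nat_lit 125) (nat_lit 5) (nat_lit 436) (nat_lit 411) (nat_lit 353))) (XT.nd (nat_lit 78) (nat_lit 0) (nat_lit 0) (XT.lf (nat_lit 0) (nat_lit 4265151119) (nat_lit 228) (nat_lit 3191428772) (nat_lit 304) (nat_lit 6831127314) (nat_lit 121) (nat_lit 5) (nat_lit 124) (nat_lit 5) (nat_lit 125) (nat_lit 5) (nat_lit 437) (nat_lit 411) (nat_lit 352)) (XT.lf (nat_lit 0) (nat_lit 10817469592)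 (nat_lit 304) (nat_lit 1296051067) (nat_lit 76) (nat_lit 2578233305) (nat_lit 121) (nat_lit 5) (nat_lit 125) (nat_lit 5) (nat_lit 122) (nat_lit 5) (nat_lit 438) (nat_lit 411) (nat_lit 351)))) (XT.nd (nat_lit 156) (nat_lit 228) (nat_lit 0) (XT.nd (nat_lit 78) (nat_lit 304) (nat_lit 0) (XT.lf (nat_lit 0) (nat_lit 8029308438) (nat_lit 304) (nat_lit 6464263227) (nat_lit 380) (nat_lit 615074688) (nat_lit 117) (nat_lit 5) (nat_lit 121) (nat_lit 5) (nat_lit 122) (nat_lit 5) (nat_lit 439) (nat_lit 411) (nat_lit 350)) (XT.lf (nat_lit 0) (nat_lit 2307865182) (nat_lit 228) (nat_lit 437533457) (nat_lit 304) (nat_lit 12797387529) (nat_lit 113) (nat_lit 5) (nat_lit 116) (nat_lit 5) (nat_lit 117) (nat_lit 5) (nat_lit 440) (nat_lit 411) (nat_lit 349))) (XT.nd (nat_lit 78) (nat_lit 228) (nat_lit 0) (XT.lf (nat_lit 0) (nat_lit 6437449160) (nat_lit 304) (nat_lit 3729502042) (nat_lit 76) (nat_lit 5821967862) (nat_lit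 113) (nat_lit 5) (nat_lit 117) (nat_lit 5) (nat_lit 114) (nat_lit 5) (nat_lit 441) (nat_lit 411) (nat_lit 348)) (XT.lf (nat_lit 0) (nat_lit 6408110563) (nat_lit 228) (nat_lit 3985021352) (nat_lit 304) (nat_lit 6060276591) (nat_lit 110) (nat_lit 5) (nat_lit 113) (nat_lit 5) (nat_lit 114) (nat_lit 5) (nat_lit 442) (nat_lit 411) (nat_lit 347))))) (XT.nd (nat_lit 312) (nat_lit 760) (nat_lit 0) (XT.nd (nat_lit 156) (nat_lit 228) (nat_lit 0) (XT.nd (nat_lit 78) (nat_lit 76) (nat_lit 0) (XT.lf (nat_lit 0) (nat_lit 167811928) (nat_lit 152) (nat_lit 14457049216) (nat_lit 228) (nat_lit 2312349478) (nat_lit 108) (nat_lit 5) (nat_lit 110) (nat_lit 5) (nat_lit 111) (nat_lit 5) (nat_lit 443) (nat_lit 411) (nat_lit 346)) (XT.lf (nat_lit 0) (nat_lit 1781824495) (nat_lit 228) (nat_lit 6331581858) (nat_lit 76) (nat_lit 9319990938) (nat_lit 107) (nat_lit 5) (nat_lit 110) (nat_lit 5) (nat_lit 108) (nat_lit 5) (nat_lit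 444) (nat_lit 411) (nat_lit 345))) (XT.nd (nat_lit 78) (nat_lit 0) (nat_lit 0) (XT.lf (nat_lit 0) (nat_lit 4700909097) (nat_lit 228) (nat_lit 1349345876) (nat_lit 304) (nat_lit 11899881196) (nat_lit 104) (nat_lit 5) (nat_lit 107) (nat_lit 5) (nat_lit 108) (nat_lit 5) (nat_lit 445) (nat_lit 411) (nat_lit 344)) (XT.lf (nat_lit 0) (nat_lit 10705196950) (nat_lit 304) (nat_lit 2114274659) (nat_lit 76) (nat_lit 5664586968) (nat_lit 104) (nat_lit 5) (nat_lit 108) (nat_lit 5) (nat_lit 105) (nat_lit 5) (nat_lit 446) (nat_lit 411) (nat_lit 343)))) (XT.nd (nat_lit 156) (nat_lit 304) (nat_lit 0) (XT.nd (nat_lit 78) (nat_lit 304) (nat_lit 0) (XT.lf (nat_lit 0) (nat_lit 9831704804) (nat_lit 152) (nat_lit 5912311219) (nat_lit 228) (nat_lit 3293105616) (nat_lit 102) (nat_lit 5) (nat_lit 104) (nat_lit 5) (nat_lit 105) (nat_lit 5) (nat_lit 447) (nat_lit 411) (nat_lit 342)) (XT.lf (nat_lit 0) (nat_lit 1450766563)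 (nat_lit 304) (nat_lit 16773495724) (nat_lit 76) (nat_lit 1388511424) (nat_lit 98) (nat_lit 5) (nat_lit 102) (nat_lit 5) (nat_lit 99) (nat_lit 5) (nat_lit 448) (nat_lit 411) (nat_lit 341))) (XT.nd (nat_lit 78) (nat_lit 304) (nat_lit 0) (XT.lf (nat_lit 0) (nat_lit 6552580232) (nat_lit 304) (nat_lit 4595889416) (nat_lit 76) (nat_lit 9054469474) (nat_lit 98) (nat_lit 5) (nat_lit 102) (nat_lit 5) (nat_lit 99) (nat_lit 5) (nat_lit 449) (nat_lit 411) (nat_lit 340)) (XT.nd (nat_lit 78) (nat_lit 152) (nat_lit 0) (XT.lf (nat_lit 0) (nat_lit 8423230720) (nat_lit 152) (nat_lit 3594945808) (nat_lit 228) (nat_lit 8799002528) (nat_lit 96) (nat_lit 5) (nat_lit 98) (nat_lit 5) (nat_lit 99) (nat_lit 5) (nat_lit 450) (nat_lit 411) (nat_lit 339)) (XT.lf (nat_lit 0) (nat_lit 711148132) (nat_lit 152) (nat_lit 17181299063) (nat_lit 228) (nat_lit 3562914873) (nat_lit 94) (nat_lit 5) (nat_lit 96) (nat_lit 5) (nat_lit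 97) (nat_lit 5) (nat_lit 451) (nat_lit 411) (nat_lit 338))))))))
noncomputable def xc238 : XT := (XT.nd (nat_lit 1248) (nat_lit 1216) (nat_lit 0) (XT.nd (nat_lit 624) (nat_lit 836) (nat_lit 0) (XT.nd (nat_lit 312) (nat_lit 456) (nat_lit 0) (XT.nd (nat_lit 156) (nat_lit 152) (nat_lit 0) (XT.nd (nat_lit 78) (nat_lit 152) (nat_lit 0) (XT.lf (nat_lit 0) (nat_lit 2122936926) (nat_lit 228) (nat_lit 7343157135) (nat_lit 76) (nat_lit 12645355828) (nat_lit 93) (nat_lit 5) (nat_lit 96) (nat_lit 5) (nat_lit 94) (nat_lit 5) (nat_lit 452) (nat_lit 411) (nat_lit 337)) (XT.lf (nat_lit 0) (nat_lit 6853270368) (nat_lit 152) (nat_lit 1205757281) (nat_lit 228) (nat_lit 14734110548) (nat_lit 91) (nat_lit 5) (nat_lit 93) (nat_lit 5) (nat_lit 94) (nat_lit 5) (nat_lit 453) (nat_lit 411) (nat_lit 336))) (XT.nd (nat_lit 78) (nat_lit 152) (nat_lit 0) (XT.lf (nat_lit 0) (nat_lit 14513842639) (nat_lit 228) (nat_lit 1642732591)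 (nat_lit 76) (nat_lit 7341240369) (nat_lit 91) (nat_lit 5) (nat_lit 94) (nat_lit 5) (nat_lit 92) (nat_lit 5) (nat_lit 454) (nat_lit 411) (nat_lit 335)) (XT.lf (nat_lit 0) (nat_lit 13755597980) (nat_lit 152) (nat_lit 7750264648) (nat_lit 228) (nat_lit 2721141667) (nat_lit 89) (nat_lit 5) (nat_lit 91) (nat_lit 5) (nat_lit 92) (nat_lit 5) (nat_lit 455) (nat_lit 411) (nat_lit 334)))) (XT.nd (nat_lit 156) (nat_lit 228) (nat_lit 0) (XT.nd (nat_lit 78) (nat_lit 0) (nat_lit 0) (XT.lf (nat_lit 0) (nat_lit 3838044501) (nat_lit 228) (nat_lit 19948059953) (nat_lit 76) (nat_lit 1198209710) (nat_lit 86) (nat_lit 5) (nat_lit 89) (nat_lit 5) (nat_lit 87) (nat_lit 5) (nat_lit 456) (nat_lit 411) (nat_lit 333)) (XT.lf (nat_lit 0) (nat_lit 10921285924) (nat_lit 228) (nat_lit 4296823341) (nat_lit 76) (nat_lit 10544773161) (nat_lit 86) (nat_lit 5) (nat_lit 89) (nat_lit 5) (nat_lit 87) (nat_lit 5) (nat_lit 457) (nat_lit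 411) (nat_lit 332))) (XT.nd (nat_lit 78) (nat_lit 76) (nat_lit 0) (XT.lf (nat_lit 0) (nat_lit 12504361825) (nat_lit 152) (nat_lit 6030741544) (nat_lit 228) (nat_lit 8036455554) (nat_lit 84) (nat_lit 5) (nat_lit 86) (nat_lit 5) (nat_lit 87) (nat_lit 5) (nat_lit 458) (nat_lit 411) (nat_lit 331)) (XT.lf (nat_lit 0) (nat_lit 2879250347) (nat_lit 76) (nat_lit 23807092760) (nat_lit 152) (nat_lit 726490065) (nat_lit 83) (nat_lit 5) (nat_lit 84) (nat_lit 5) (nat_lit 85) (nat_lit 4) (nat_lit 459) (nat_lit 411) (nat_lit 330))))) (XT.nd (nat_lit 312) (nat_lit 456) (nat_lit 0) (XT.nd (nat_lit 156) (nat_lit 152) (nat_lit 0) (XT.nd (nat_lit 78) (nat_lit 152) (nat_lit 0) (XT.lf (nat_lit 0) (nat_lit 7049009560) (nat_lit 152) (nat_lit 7367209039) (nat_lit 76) (nat_lit 13858406017) (nat_lit 82) (nat_lit 5) (nat_lit 84) (nat_lit 5) (nat_lit 83) (nat_lit 5) (nat_lit 460) (nat_lit 411) (nat_lit 329)) (XT.lf (nat_lit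 0) (nat_lit 10965010117) (nat_lit 152) (nat_lit 4377379017) (nat_lit 228) (nat_lit 13828845453) (nat_lit 80) (nat_lit 5) (nat_lit 82) (nat_lit 5) (nat_lit 83) (nat_lit 5) (nat_lit 461) (nat_lit 411) (nat_lit 328))) (XT.nd (nat_lit 78) (nat_lit 76) (nat_lit 0) (XT.lf (nat_lit 0) (nat_lit 240958466) (nat_lit 76) (nat_lit 24018751019) (nat_lit 152) (nat_lit 5842502390) (nat_lit 79) (nat_lit 5) (nat_lit 80) (nat_lit 5) (nat_lit 81) (nat_lit 4) (nat_lit 462) (nat_lit 411) (nat_lit 327)) (XT.lf (nat_lit 0) (nat_lit 2829442663) (nat_lit 152) (nat_lit 10969986643) (nat_lit 76) (nat_lit 17259939715) (nat_lit 78) (nat_lit 5) (nat_lit 80) (nat_lit 5) (nat_lit 79) (nat_lit 5) (nat_lit 463) (nat_lit 411) (nat_lit 326)))) (XT.nd (nat_lit 156) (nat_lit 304) (nat_lit 0) (XT.nd (nat_lit 78) (nat_lit 0) (nat_lit 0) (XT.lf (nat_lit 0) (nat_lit 9028830371) (nat_lit 152) (nat_lit 2834140816) (nat_lit 228) (nat_lit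 20190407622) (nat_lit 76) (nat_lit 5) (nat_lit 78) (nat_lit 5) (nat_lit 79) (nat_lit 5) (nat_lit 464) (nat_lit 411) (nat_lit 325)) (XT.lf (nat_lit 0) (nat_lit 21655999377) (nat_lit 228) (nat_lit 2848246179) (nat_lit 76) (nat_lit 8577452707) (nat_lit 76) (nat_lit 5) (nat_lit 79) (nat_lit 5) (nat_lit 77) (nat_lit 4) (nat_lit 465) (nat_lit 411) (nat_lit 324))) (XT.nd (nat_lit 78) (nat_lit 228) (nat_lit 0) (XT.lf (nat_lit 0) (nat_lit 18865330605) (nat_lit 76) (nat_lit 13398622424) (nat_lit 152) (nat_lit 1881217276) (nat_lit 75) (nat_lit 5) (nat_lit 76) (nat_lit 5) (nat_lit 77) (nat_lit 4) (nat_lit 466) (nat_lit 411) (nat_lit 323)) (XT.lf (nat_lit 0) (nat_lit 6557108255) (nat_lit 152) (nat_lit 1458559844) (nat_lit 228) (nat_lit 27233007042) (nat_lit 72) (nat_lit 5) (nat_lit 74) (nat_lit 5) (nat_lit 75) (nat_lit 5) (nat_lit 467) (nat_lit 411) (nat_lit 322)))))) (XT.nd (nat_lit 624) (nat_lit 608) (nat_lit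 0) (XT.nd (nat_lit 312) (nat_lit 304) (nat_lit 0) (XT.nd (nat_lit 156) (nat_lit 228) (nat_lit 0) (XT.nd (nat_lit 78) (nat_lit 76) (nat_lit 0) (XT.lf (nat_lit 0) (nat_lit 18764578192) (nat_lit 228) (nat_lit 6615117820) (nat_lit 76) (nat_lit 11005097419) (nat_lit 72) (nat_lit 5) (nat_lit 75) (nat_lit 5) (nat_lit 73) (nat_lit 4) (nat_lit 468) (nat_lit 411) (nat_lit 321)) (XT.lf (nat_lit 0) (nat_lit 17059601421) (nat_lit 76) (nat_lit 13266754729) (nat_lit 152) (nat_lit 7237590630) (nat_lit 71) (nat_lit 5) (nat_lit 72) (nat_lit 5) (nat_lit 73) (nat_lit 4) (nat_lit 469) (nat_lit 411) (nat_lit 320))) (XT.nd (nat_lit 78) (nat_lit 0) (nat_lit 0) (XT.lf (nat_lit 0) (nat_lit 3372459010) (nat_lit 152) (nat_lit 326156552) (nat_lit 228) (nat_lit 35092995754) (nat_lit 68) (nat_lit 5) (nat_lit 70) (nat_lit 5) (nat_lit 71) (nat_lit 5) (nat_lit 470) (nat_lit 411) (nat_lit 319)) (XT.lf (nat_lit 0) (nat_lit 15483680277)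 (nat_lit 228) (nat_lit 11267497698) (nat_lit 76) (nat_lit 13296284942) (nat_lit 68) (nat_lit 5) (nat_lit 71) (nat_lit 5) (nat_lit 69) (nat_lit 4) (nat_lit 471) (nat_lit 411) (nat_lit 318)))) (XT.nd (nat_lit 156) (nat_lit 228) (nat_lit 0) (XT.nd (nat_lit 78) (nat_lit 0) (nat_lit 0) (XT.lf (nat_lit 0) (nat_lit 14524821681) (nat_lit 76) (nat_lit 13551283531) (nat_lit 152) (nat_lit 13279096757) (nat_lit 67) (nat_lit 5) (nat_lit 68) (nat_lit 5) (nat_lit 69) (nat_lit 4) (nat_lit 472) (nat_lit 411) (nat_lit 317)) (XT.lf (nat_lit 0) (nat_lit 41482974519) (nat_lit 152) (nat_lit 755319792) (nat_lit 0) (nat_lit 480792712) (nat_lit 67) (nat_lit 5) (nat_lit 69) (nat_lit 4) (nat_lit 67) (nat_lit 4) (nat_lit 473) (nat_lit 411) (nat_lit 316))) (XT.nd (nat_lit 78) (nat_lit 76) (nat_lit 0) (XT.lf (nat_lit 0) (nat_lit 11688552099) (nat_lit 152) (nat_lit 17059785505) (nat_lit 76) (nat_lit 15361688019) (nat_lit 65)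 (nat_lit 5) (nat_lit 67) (nat_lit 5) (nat_lit 66) (nat_lit 4) (nat_lit 474) (nat_lit 411) (nat_lit 315)) (XT.lf (nat_lit 0) (nat_lit 11009019767) (nat_lit 76) (nat_lit 14380522362) (nat_lit 152) (nat_lit 20171374313) (nat_lit 64) (nat_lit 5) (nat_lit 65) (nat_lit 5) (nat_lit 66) (nat_lit 4) (nat_lit 475) (nat_lit 411) (nat_lit 314))))) (XT.nd (nat_lit 312) (nat_lit 380) (nat_lit 0) (XT.nd (nat_lit 156) (nat_lit 76) (nat_lit 0) (XT.nd (nat_lit 78) (nat_lit 152) (nat_lit 0) (XT.lf (nat_lit 0) (nat_lit 40067058969) (nat_lit 152) (nat_lit 6037467847) (nat_lit 0) (nat_lit 965251289) (nat_lit 64) (nat_lit 5) (nat_lit 66) (nat_lit 4) (nat_lit 64) (nat_lit 4) (nat_lit 476) (nat_lit 411) (nat_lit 313)) (XT.lf (nat_lit 0) (nat_lit 7220373755) (nat_lit 152) (nat_lit 24315784306) (nat_lit 76) (nat_lit 17081876201) (nat_lit 62) (nat_lit 5) (nat_lit 64) (nat_lit 5) (nat_lit 63) (nat_lit 4) (nat_lit 477) (nat_lit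 411) (nat_lit 312))) (XT.nd (nat_lit 78) (nat_lit 0) (nat_lit 0) (XT.lf (nat_lit 0) (nat_lit 6187360847) (nat_lit 76) (nat_lit 15919909650) (nat_lit 152) (nat_lit 28121293618) (nat_lit 61) (nat_lit 5) (nat_lit 62) (nat_lit 5) (nat_lit 63) (nat_lit 4) (nat_lit 478) (nat_lit 411) (nat_lit 311)) (XT.lf (nat_lit 0) (nat_lit 38152019790) (nat_lit 152) (nat_lit 12877594090) (nat_lit 0) (nat_lit 869331333) (nat_lit 61) (nat_lit 5) (nat_lit 63) (nat_lit 4) (nat_lit 61) (nat_lit 4) (nat_lit 479) (nat_lit 411) (nat_lit 310)))) (XT.nd (nat_lit 156) (nat_lit 228) (nat_lit 0) (XT.nd (nat_lit 78) (nat_lit 0) (nat_lit 0) (XT.lf (nat_lit 0) (nat_lit 1876901714) (nat_lit 152) (nat_lit 33447991603) (nat_lit 76) (nat_lit 18298210005) (nat_lit 59) (nat_lit 5) (nat_lit 61) (nat_lit 5) (nat_lit 60) (nat_lit 4) (nat_lit 480) (nat_lit 411) (nat_lit 309)) (XT.lf (nat_lit 0) (nat_lit 18029720013) (nat_lit 152) (nat_lit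 347049005) (nat_lit 76) (nat_lit 37034943135) (nat_lit 59) (nat_lit 5) (nat_lit 61) (nat_lit 5) (nat_lit 60) (nat_lit 4) (nat_lit 481) (nat_lit 411) (nat_lit 308))) (XT.nd (nat_lit 78) (nat_lit 152) (nat_lit 0) (XT.lf (nat_lit 0) (nat_lit 35523944767) (nat_lit 76) (nat_lit 9551495) (nat_lit 152) (nat_lit 21729089427) (nat_lit 58) (nat_lit 5) (nat_lit 59) (nat_lit 5) (nat_lit 60) (nat_lit 4) (nat_lit 482) (nat_lit 411) (nat_lit 307)) (XT.nd (nat_lit 78) (nat_lit 76) (nat_lit 0) (XT.lf (nat_lit 0) (nat_lit 14123808011) (nat_lit 76) (nat_lit 40304817540) (nat_lit 76) (nat_lit 4751569249) (nat_lit 57) (nat_lit 4) (nat_lit 58) (nat_lit 5) (nat_lit 58) (nat_lit 4) (nat_lit 483) (nat_lit 411) (nat_lit 306)) (XT.lf (nat_lit 0) (nat_lit 13019439478) (nat_lit 152) (nat_lit 8873545325) (nat_lit 76) (nat_lit 39272338496) (nat_lit 56) (nat_lit 5) (nat_lit 58) (nat_lit 5) (nat_lit 57) (nat_lit 4) (nat_lit 484)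 (nat_lit 411) (nat_lit 305))))))))
noncomputable def xc239 : XT := (XT.nd (nat_lit 1248) (nat_lit 1064) (nat_lit 0) (XT.nd (nat_lit 624) (nat_lit 532) (nat_lit 0) (XT.nd (nat_lit 312) (nat_lit 228) (nat_lit 0) (XT.nd (nat_lit 156) (nat_lit 152) (nat_lit 0) (XT.nd (nat_lit 78) (nat_lit 76) (nat_lit 0) (XT.lf (nat_lit 0) (nat_lit 29979072604) (nat_lit 76) (nat_lit 1997577927) (nat_lit 152) (nat_lit 31246296269) (nat_lit 55) (nat_lit 5) (nat_lit 56) (nat_lit 5) (nat_lit 57) (nat_lit 4) (nat_lit 485) (nat_lit 411) (nat_lit 304)) (XT.lf (nat_lit 0) (nat_lit 5566156204) (nat_lit 76) (nat_lit 46839485635) (nat_lit 76) (nat_lit 12951613740) (nat_lit 54) (nat_lit 4) (nat_lit 55) (nat_lit 5) (nat_lit 55) (nat_lit 4) (nat_lit 486) (nat_lit 411) (nat_lit 303))) (XT.nd (nat_lit 78) (nat_lit 76) (nat_lit 0) (XT.lf (nat_lit 0) (nat_lit 6651814514) (nat_lit 152) (nat_lit 20260000896) (nat_lit 76) (nat_lit 40651864361)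 (nat_lit 53) (nat_lit 5) (nat_lit 55) (nat_lit 5) (nat_lit 54) (nat_lit 4) (nat_lit 487) (nat_lit 411) (nat_lit 302)) (XT.lf (nat_lit 0) (nat_lit 21710160278) (nat_lit 76) (nat_lit 5418782222) (nat_lit 152) (nat_lit 42724427299) (nat_lit 52) (nat_lit 5) (nat_lit 53) (nat_lit 5) (nat_lit 54) (nat_lit 4) (nat_lit 488) (nat_lit 411) (nat_lit 301)))) (XT.nd (nat_lit 156) (nat_lit 152) (nat_lit 0) (XT.nd (nat_lit 78) (nat_lit 76) (nat_lit 0) (XT.lf (nat_lit 0) (nat_lit 49236262901) (nat_lit 152) (nat_lit 6051601242) (nat_lit 0) (nat_lit 16939363457) (nat_lit 52) (nat_lit 5) (nat_lit 54) (nat_lit 4) (nat_lit 52) (nat_lit 4) (nat_lit 489) (nat_lit 411) (nat_lit 300)) (XT.lf (nat_lit 0) (nat_lit 39294317245) (nat_lit 76) (nat_lit 33847297907) (nat_lit 76) (nat_lit 1543529920) (nat_lit 51) (nat_lit 4) (nat_lit 52) (nat_lit 5) (nat_lit 52) (nat_lit 4) (nat_lit 490) (nat_lit 411) (nat_lit 299))) (XT.nd (nat_lit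 78) (nat_lit 0) (nat_lit 0) (XT.lf (nat_lit 0) (nat_lit 9822898722) (nat_lit 76) (nat_lit 10729885754) (nat_lit 152) (nat_lit 56684405095) (nat_lit 49) (nat_lit 5) (nat_lit 50) (nat_lit 5) (nat_lit 51) (nat_lit 4) (nat_lit 491) (nat_lit 411) (nat_lit 298)) (XT.lf (nat_lit 0) (nat_lit 44513048915) (nat_lit 152) (nat_lit 21626579583) (nat_lit 0) (nat_lit 13735392318) (nat_lit 49) (nat_lit 5) (nat_lit 51) (nat_lit 4) (nat_lit 49) (nat_lit 4) (nat_lit 492) (nat_lit 411) (nat_lit 297))))) (XT.nd (nat_lit 312) (nat_lit 228) (nat_lit 0) (XT.nd (nat_lit 156) (nat_lit 152) (nat_lit 0) (XT.nd (nat_lit 78) (nat_lit 76) (nat_lit 0) (XT.lf (nat_lit 0) (nat_lit 27124550772) (nat_lit 76) (nat_lit 43136994665) (nat_lit 76) (nat_lit 12353687301) (nat_lit 48) (nat_lit 4) (nat_lit 49) (nat_lit 5) (nat_lit 49) (nat_lit 4) (nat_lit 493) (nat_lit 411) (nat_lit 296)) (XT.lf (nat_lit 0) (nat_lit 11790276062) (nat_lit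 152) (nat_lit 6618623118) (nat_lit 76) (nat_lit 67056185732) (nat_lit 47) (nat_lit 5) (nat_lit 49) (nat_lit 5) (nat_lit 48) (nat_lit 4) (nat_lit 494) (nat_lit 411) (nat_lit 295))) (XT.nd (nat_lit 78) (nat_lit 76) (nat_lit 0) (XT.lf (nat_lit 0) (nat_lit 37567829785) (nat_lit 152) (nat_lit 42597008690) (nat_lit 0) (nat_lit 8240387443) (nat_lit 46) (nat_lit 5) (nat_lit 48) (nat_lit 4) (nat_lit 46) (nat_lit 4) (nat_lit 495) (nat_lit 411) (nat_lit 294)) (XT.lf (nat_lit 0) (nat_lit 9585198439) (nat_lit 76) (nat_lit 55605717054) (nat_lit 76) (nat_lit 26273625812) (nat_lit 45) (nat_lit 4) (nat_lit 46) (nat_lit 5) (nat_lit 46) (nat_lit 4) (nat_lit 496) (nat_lit 411) (nat_lit 293)))) (XT.nd (nat_lit 156) (nat_lit 76) (nat_lit 0) (XT.nd (nat_lit 78) (nat_lit 76) (nat_lit 0) (XT.lf (nat_lit 0) (nat_lit 258274107) (nat_lit 152) (nat_lit 28807056845) (nat_lit 76) (nat_lit 65575641326) (nat_lit 44) (nat_lit 5)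 (nat_lit 46) (nat_lit 5) (nat_lit 45) (nat_lit 4) (nat_lit 497) (nat_lit 411) (nat_lit 292)) (XT.lf (nat_lit 0) (nat_lit 27346839631) (nat_lit 76) (nat_lit 305636020) (nat_lit 152) (nat_lit 70281279793) (nat_lit 43) (nat_lit 5) (nat_lit 44) (nat_lit 5) (nat_lit 45) (nat_lit 4) (nat_lit 498) (nat_lit 411) (nat_lit 291))) (XT.nd (nat_lit 78) (nat_lit 76) (nat_lit 0) (XT.lf (nat_lit 0) (nat_lit 57370670134) (nat_lit 152) (nat_lit 14549505636) (nat_lit 0) (nat_lit 29423287896) (nat_lit 43) (nat_lit 5) (nat_lit 45) (nat_lit 4) (nat_lit 43) (nat_lit 4) (nat_lit 499) (nat_lit 411) (nat_lit 290)) (XT.lf (nat_lit 0) (nat_lit 45732714685) (nat_lit 76) (nat_lit 43553205076) (nat_lit 76) (nat_lit 15602180303) (nat_lit 42) (nat_lit 4) (nat_lit 43) (nat_lit 5) (nat_lit 43) (nat_lit 4) (nat_lit 500) (nat_lit 411) (nat_lit 289)))))) (XT.nd (nat_lit 624) (nat_lit 532) (nat_lit 0) (XT.nd (nat_lit 312) (nat_lit 304)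 (nat_lit 0) (XT.nd (nat_lit 156) (nat_lit 76) (nat_lit 0) (XT.nd (nat_lit 78) (nat_lit 0) (nat_lit 0) (XT.lf (nat_lit 0) (nat_lit 718184321) (nat_lit 76) (nat_lit 13268487959) (nat_lit 152) (nat_lit 94599532118) (nat_lit 40) (nat_lit 5) (nat_lit 41) (nat_lit 5) (nat_lit 42) (nat_lit 4) (nat_lit 501) (nat_lit 411) (nat_lit 288)) (XT.lf (nat_lit 0) (nat_lit 45830328639) (nat_lit 152) (nat_lit 47357257231) (nat_lit 0) (nat_lit 19203854601) (nat_lit 40) (nat_lit 5) (nat_lit 42) (nat_lit 4) (nat_lit 40) (nat_lit 4) (nat_lit 502) (nat_lit 411) (nat_lit 287))) (XT.nd (nat_lit 78) (nat_lit 0) (nat_lit 0) (XT.lf (nat_lit 0) (nat_lit 16473743421) (nat_lit 76) (nat_lit 63259652165) (nat_lit 76) (nat_lit 36630181405) (nat_lit 39) (nat_lit 4) (nat_lit 40) (nat_lit 5) (nat_lit 40) (nat_lit 4) (nat_lit 503) (nat_lit 411) (nat_lit 286)) (XT.lf (nat_lit 0) (nat_lit 85125627025) (nat_lit 76) (nat_lit 31000642715)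 (nat_lit 76) (nat_lit 4368317933) (nat_lit 39) (nat_lit 4) (nat_lit 40) (nat_lit 5) (nat_lit 40) (nat_lit 4) (nat_lit 504) (nat_lit 411) (nat_lit 285)))) (XT.nd (nat_lit 156) (nat_lit 152) (nat_lit 0) (XT.nd (nat_lit 78) (nat_lit 0) (nat_lit 0) (XT.lf (nat_lit 0) (nat_lit 29130381427) (nat_lit 152) (nat_lit 91886652547) (nat_lit 0) (nat_lit 3763673906) (nat_lit 37) (nat_lit 5) (nat_lit 39) (nat_lit 4) (nat_lit 37) (nat_lit 4) (nat_lit 505) (nat_lit 411) (nat_lit 284)) (XT.lf (nat_lit 0) (nat_lit 65267108824) (nat_lit 152) (nat_lit 24057013958) (nat_lit 0) (nat_lit 39897935891) (nat_lit 37) (nat_lit 5) (nat_lit 39) (nat_lit 4) (nat_lit 37) (nat_lit 4) (nat_lit 506) (nat_lit 411) (nat_lit 283))) (XT.nd (nat_lit 78) (nat_lit 76) (nat_lit 0) (XT.lf (nat_lit 0) (nat_lit 48709452862) (nat_lit 76) (nat_lit 55254929804) (nat_lit 76) (nat_lit 29883408861) (nat_lit 36) (nat_lit 4) (nat_lit 37) (nat_lit 5)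 (nat_lit 37) (nat_lit 4) (nat_lit 507) (nat_lit 411) (nat_lit 282)) (XT.lf (nat_lit 0) (nat_lit 6110456573) (nat_lit 152) (nat_lit 12847321167) (nat_lit 76) (nat_lit 119722068055) (nat_lit 35) (nat_lit 5) (nat_lit 37) (nat_lit 5) (nat_lit 36) (nat_lit 4) (nat_lit 508) (nat_lit 411) (nat_lit 281))))) (XT.nd (nat_lit 312) (nat_lit 228) (nat_lit 0) (XT.nd (nat_lit 156) (nat_lit 228) (nat_lit 0) (XT.nd (nat_lit 78) (nat_lit 0) (nat_lit 0) (XT.lf (nat_lit 0) (nat_lit 44225759513) (nat_lit 152) (nat_lit 79378699332) (nat_lit 0) (nat_lit 20058248220) (nat_lit 34) (nat_lit 5) (nat_lit 36) (nat_lit 4) (nat_lit 34) (nat_lit 4) (nat_lit 509) (nat_lit 411) (nat_lit 280)) (XT.lf (nat_lit 0) (nat_lit 84772305379) (nat_lit 152) (nat_lit 3493269778) (nat_lit 0) (nat_lit 60602862372) (nat_lit 34) (nat_lit 5) (nat_lit 36) (nat_lit 4) (nat_lit 34) (nat_lit 4) (nat_lit 510) (nat_lit 411) (nat_lit 279))) (XT.nd (nat_lit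 78) (nat_lit 152) (nat_lit 0) (XT.lf (nat_lit 0) (nat_lit 78692688574) (nat_lit 76) (nat_lit 49875962533) (nat_lit 76) (nat_lit 25704679798) (nat_lit 33) (nat_lit 4) (nat_lit 34) (nat_lit 5) (nat_lit 34) (nat_lit 4) (nat_lit 511) (nat_lit 411) (nat_lit 278)) (XT.lf (nat_lit 0) (nat_lit 5085046650) (nat_lit 76) (nat_lit 9187188230) (nat_lit 152) (nat_lit 145658162591) (nat_lit 31) (nat_lit 5) (nat_lit 32) (nat_lit 5) (nat_lit 33) (nat_lit 4) (nat_lit 512) (nat_lit 411) (nat_lit 277)))) (XT.nd (nat_lit 156) (nat_lit 152) (nat_lit 0) (XT.nd (nat_lit 78) (nat_lit 76) (nat_lit 0) (XT.lf (nat_lit 0) (nat_lit 57202586666) (nat_lit 152) (nat_lit 74376679966) (nat_lit 0) (nat_lit 34179059481) (nat_lit 31) (nat_lit 5) (nat_lit 33) (nat_lit 4) (nat_lit 31) (nat_lit 4) (nat_lit 513) (nat_lit 411) (nat_lit 276)) (XT.lf (nat_lit 0) (nat_lit 10282088096) (nat_lit 76) (nat_lit 92302669384) (nat_lit 76) (nat_lit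 69277628651) (nat_lit 30) (nat_lit 4) (nat_lit 31) (nat_lit 5) (nat_lit 31) (nat_lit 4) (nat_lit 514) (nat_lit 411) (nat_lit 275))) (XT.nd (nat_lit 78) (nat_lit 152) (nat_lit 0) (XT.lf (nat_lit 0) (nat_lit 101744357828) (nat_lit 76) (nat_lit 49745540241) (nat_lit 76) (nat_lit 26719058033) (nat_lit 30) (nat_lit 4) (nat_lit 31) (nat_lit 5) (nat_lit 31) (nat_lit 4) (nat_lit 515) (nat_lit 411) (nat_lit 274)) (XT.nd (nat_lit 78) (nat_lit 0) (nat_lit 0) (XT.lf (nat_lit 0) (nat_lit 13032219479) (nat_lit 76) (nat_lit 4558060774) (nat_lit 152) (nat_lit 167258652755) (nat_lit 28) (nat_lit 5) (nat_lit 29) (nat_lit 5) (nat_lit 30) (nat_lit 4) (nat_lit 516) (nat_lit 411) (nat_lit 273)) (XT.lf (nat_lit 0) (nat_lit 65197402336) (nat_lit 152) (nat_lit 83237726325) (nat_lit 0) (nat_lit 43264866621) (nat_lit 28) (nat_lit 5) (nat_lit 30) (nat_lit 4) (nat_lit 28) (nat_lit 4) (nat_lit 517) (nat_lit 411) (nat_lit 272))))))))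
noncomputable def xc240 : XT := (XT.nd (nat_lit 1248) (nat_lit 608) (nat_lit 0) (XT.nd (nat_lit 624) (nat_lit 304) (nat_lit 0) (XT.nd (nat_lit 312) (nat_lit 228) (nat_lit 0) (XT.nd (nat_lit 156) (nat_lit 152) (nat_lit 0) (XT.nd (nat_lit 78) (nat_lit 0) (nat_lit 0) (XT.lf (nat_lit 0) (nat_lit 10004984590) (nat_lit 76) (nat_lit 105405532931) (nat_lit 76) (nat_lit 83471811311) (nat_lit 27) (nat_lit 4) (nat_lit 28) (nat_lit 5) (nat_lit 28) (nat_lit 4) (nat_lit 518) (nat_lit 411) (nat_lit 271)) (XT.lf (nat_lit 0) (nat_lit 110789104612) (nat_lit 76) (nat_lit 58749651076) (nat_lit 76) (nat_lit 36814800023) (nat_lit 27) (nat_lit 4) (nat_lit 28) (nat_lit 5) (nat_lit 28) (nat_lit 4) (nat_lit 519) (nat_lit 411) (nat_lit 270))) (XT.nd (nat_lit 78) (nat_lit 0) (nat_lit 0) (XT.lf (nat_lit 0) (nat_lit 2286981124) (nat_lit 76) (nat_lit 9529071474) (nat_lit 152) (nat_lit 202371253564) (nat_lit 25) (nat_lit 5) (nat_lit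 26) (nat_lit 5) (nat_lit 27) (nat_lit 4) (nat_lit 520) (nat_lit 411) (nat_lit 269)) (XT.lf (nat_lit 0) (nat_lit 63939276222) (nat_lit 152) (nat_lit 115281447696) (nat_lit 0) (nat_lit 43046941810) (nat_lit 25) (nat_lit 5) (nat_lit 27) (nat_lit 4) (nat_lit 25) (nat_lit 4) (nat_lit 521) (nat_lit 411) (nat_lit 268)))) (XT.nd (nat_lit 156) (nat_lit 152) (nat_lit 0) (XT.nd (nat_lit 78) (nat_lit 76) (nat_lit 0) (XT.lf (nat_lit 0) (nat_lit 118820080988) (nat_lit 152) (nat_lit 13997573907) (nat_lit 0) (nat_lit 97926817388) (nat_lit 25) (nat_lit 5) (nat_lit 27) (nat_lit 4) (nat_lit 25) (nat_lit 4) (nat_lit 522) (nat_lit 411) (nat_lit 267)) (XT.lf (nat_lit 0) (nat_lit 95394441808) (nat_lit 76) (nat_lit 82535292739) (nat_lit 76) (nat_lit 61641144200) (nat_lit 24) (nat_lit 4) (nat_lit 25) (nat_lit 5) (nat_lit 25) (nat_lit 4) (nat_lit 523) (nat_lit 411) (nat_lit 266))) (XT.nd (nat_lit 78) (nat_lit 152) (nat_lit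 0) (XT.lf (nat_lit 0) (nat_lit 210732902328) (nat_lit 76) (nat_lit 29494533160) (nat_lit 76) (nat_lit 8599541820) (nat_lit 24) (nat_lit 4) (nat_lit 25) (nat_lit 5) (nat_lit 25) (nat_lit 4) (nat_lit 524) (nat_lit 411) (nat_lit 265)) (XT.lf (nat_lit 0) (nat_lit 47192815250) (nat_lit 152) (nat_lit 183943943868) (nat_lit 0) (nat_lit 27292059053) (nat_lit 22) (nat_lit 5) (nat_lit 24) (nat_lit 4) (nat_lit 22) (nat_lit 4) (nat_lit 525) (nat_lit 411) (nat_lit 264))))) (XT.nd (nat_lit 312) (nat_lit 152) (nat_lit 0) (XT.nd (nat_lit 156) (nat_lit 76) (nat_lit 0) (XT.nd (nat_lit 78) (nat_lit 76) (nat_lit 0) (XT.lf (nat_lit 0) (nat_lit 106620679055) (nat_lit 152) (nat_lit 75107083916) (nat_lit 0) (nat_lit 86719194815) (nat_lit 22) (nat_lit 5) (nat_lit 24) (nat_lit 4) (nat_lit 22) (nat_lit 4) (nat_lit 526) (nat_lit 411) (nat_lit 263)) (XT.lf (nat_lit 0) (nat_lit 40458120005) (nat_lit 76) (nat_lit 129189342828)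 (nat_lit 76) (nat_lit 109287165214) (nat_lit 21) (nat_lit 4) (nat_lit 22) (nat_lit 5) (nat_lit 22) (nat_lit 4) (nat_lit 527) (nat_lit 411) (nat_lit 262))) (XT.nd (nat_lit 78) (nat_lit 76) (nat_lit 0) (XT.lf (nat_lit 0) (nat_lit 164400856616) (nat_lit 76) (nat_lit 72692633973) (nat_lit 76) (nat_lit 52789796002) (nat_lit 21) (nat_lit 4) (nat_lit 22) (nat_lit 5) (nat_lit 22) (nat_lit 4) (nat_lit 528) (nat_lit 411) (nat_lit 261)) (XT.lf (nat_lit 0) (nat_lit 6319422978) (nat_lit 152) (nat_lit 6948649774) (nat_lit 76) (nat_lit 288106402818) (nat_lit 20) (nat_lit 5) (nat_lit 22) (nat_lit 5) (nat_lit 21) (nat_lit 4) (nat_lit 529) (nat_lit 411) (nat_lit 260)))) (XT.nd (nat_lit 156) (nat_lit 76) (nat_lit 0) (XT.nd (nat_lit 78) (nat_lit 0) (nat_lit 0) (XT.lf (nat_lit 0) (nat_lit 69299526408) (nat_lit 152) (nat_lit 193619678706) (nat_lit 0) (nat_lit 50343273224) (nat_lit 19) (nat_lit 5) (nat_lit 21) (nat_lit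 4) (nat_lit 19) (nat_lit 4) (nat_lit 530) (nat_lit 411) (nat_lit 259)) (XT.lf (nat_lit 0) (nat_lit 135762002023) (nat_lit 152) (nat_lit 73161005315) (nat_lit 0) (nat_lit 116805205562) (nat_lit 19) (nat_lit 5) (nat_lit 21) (nat_lit 4) (nat_lit 19) (nat_lit 4) (nat_lit 531) (nat_lit 411) (nat_lit 258))) (XT.nd (nat_lit 78) (nat_lit 0) (nat_lit 0) (XT.lf (nat_lit 0) (nat_lit 55076112345) (nat_lit 76) (nat_lit 151327809840) (nat_lit 76) (nat_lit 132370495972) (nat_lit 18) (nat_lit 4) (nat_lit 19) (nat_lit 5) (nat_lit 19) (nat_lit 4) (nat_lit 532) (nat_lit 411) (nat_lit 257)) (XT.lf (nat_lit 0) (nat_lit 192257919082) (nat_lit 76) (nat_lit 89555523024) (nat_lit 76) (nat_lit 70597716389) (nat_lit 18) (nat_lit 4) (nat_lit 19) (nat_lit 5) (nat_lit 19) (nat_lit 4) (nat_lit 533) (nat_lit 411) (nat_lit 256)))))) (XT.nd (nat_lit 624) (nat_lit 228) (nat_lit 0) (XT.nd (nat_lit 312) (nat_lit 228) (nat_lit 0) (XT.nd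 (nat_lit 156) (nat_lit 0) (nat_lit 0) (XT.nd (nat_lit 78) (nat_lit 152) (nat_lit 0) (XT.lf (nat_lit 0) (nat_lit 336292005002) (nat_lit 76) (nat_lit 24698087044) (nat_lit 76) (nat_lit 5739811106) (nat_lit 18) (nat_lit 4) (nat_lit 19) (nat_lit 5) (nat_lit 19) (nat_lit 4) (nat_lit 534) (nat_lit 411) (nat_lit 255)) (XT.lf (nat_lit 0) (nat_lit 62773102377) (nat_lit 152) (nat_lit 274105222666) (nat_lit 0) (nat_lit 44717175812) (nat_lit 16) (nat_lit 5) (nat_lit 18) (nat_lit 4) (nat_lit 16) (nat_lit 4) (nat_lit 535) (nat_lit 411) (nat_lit 254))) (XT.nd (nat_lit 78) (nat_lit 0) (nat_lit 0) (XT.lf (nat_lit 0) (nat_lit 135444346458) (nat_lit 152) (nat_lit 144321033721) (nat_lit 0) (nat_lit 117388014492) (nat_lit 16) (nat_lit 5) (nat_lit 18) (nat_lit 4) (nat_lit 16) (nat_lit 4) (nat_lit 536) (nat_lit 411) (nat_lit 253)) (XT.lf (nat_lit 0) (nat_lit 211746069418) (nat_lit 152) (nat_lit 8053916577) (nat_lit 0)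 (nat_lit 193689351356) (nat_lit 16) (nat_lit 5) (nat_lit 18) (nat_lit 4) (nat_lit 16) (nat_lit 4) (nat_lit 537) (nat_lit 411) (nat_lit 252)))) (XT.nd (nat_lit 156) (nat_lit 152) (nat_lit 0) (XT.nd (nat_lit 78) (nat_lit 0) (nat_lit 0) (XT.lf (nat_lit 0) (nat_lit 139484964241) (nat_lit 76) (nat_lit 154552728982) (nat_lit 76) (nat_lit 136495643209) (nat_lit 15) (nat_lit 4) (nat_lit 16) (nat_lit 5) (nat_lit 16) (nat_lit 4) (nat_lit 538) (nat_lit 411) (nat_lit 251)) (XT.lf (nat_lit 0) (nat_lit 294674517243) (nat_lit 76) (nat_lit 85902889391) (nat_lit 76) (nat_lit 67845453416) (nat_lit 15) (nat_lit 4) (nat_lit 16) (nat_lit 5) (nat_lit 16) (nat_lit 4) (nat_lit 539) (nat_lit 411) (nat_lit 250))) (XT.nd (nat_lit 78) (nat_lit 76) (nat_lit 0) (XT.lf (nat_lit 0) (nat_lit 4098831425) (nat_lit 152) (nat_lit 9655165076) (nat_lit 76) (nat_lit 453449695392) (nat_lit 14) (nat_lit 5) (nat_lit 16) (nat_lit 5) (nat_lit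 15) (nat_lit 4) (nat_lit 540) (nat_lit 411) (nat_lit 249)) (XT.lf (nat_lit 0) (nat_lit 80647524632) (nat_lit 152) (nat_lit 342606720959) (nat_lit 0) (nat_lit 63449346402) (nat_lit 13) (nat_lit 5) (nat_lit 15) (nat_lit 4) (nat_lit 13) (nat_lit 4) (nat_lit 541) (nat_lit 411) (nat_lit 248))))) (XT.nd (nat_lit 312) (nat_lit 152) (nat_lit 0) (XT.nd (nat_lit 156) (nat_lit 76) (nat_lit 0) (XT.nd (nat_lit 78) (nat_lit 0) (nat_lit 0) (XT.lf (nat_lit 0) (nat_lit 161412661347) (nat_lit 152) (nat_lit 201532180306) (nat_lit 0) (nat_lit 144214195005) (nat_lit 13) (nat_lit 5) (nat_lit 15) (nat_lit 4) (nat_lit 13) (nat_lit 4) (nat_lit 542) (nat_lit 411) (nat_lit 247)) (XT.lf (nat_lit 0) (nat_lit 246213519687) (nat_lit 152) (nat_lit 53409081678) (nat_lit 0) (nat_lit 229014778954) (nat_lit 13) (nat_lit 5) (nat_lit 15) (nat_lit 4) (nat_lit 13) (nat_lit 4) (nat_lit 543) (nat_lit 411) (nat_lit 246))) (XT.nd (nat_lit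 78) (nat_lit 0) (nat_lit 0) (XT.lf (nat_lit 0) (nat_lit 105491640267) (nat_lit 76) (nat_lit 231407386338) (nat_lit 76) (nat_lit 214208384279) (nat_lit 12) (nat_lit 4) (nat_lit 13) (nat_lit 5) (nat_lit 13) (nat_lit 4) (nat_lit 544) (nat_lit 411) (nat_lit 245)) (XT.lf (nat_lit 0) (nat_lit 274186797515) (nat_lit 76) (nat_lit 158834144864) (nat_lit 76) (nat_lit 141634893924) (nat_lit 12) (nat_lit 4) (nat_lit 13) (nat_lit 5) (nat_lit 13) (nat_lit 4) (nat_lit 545) (nat_lit 411) (nat_lit 244)))) (XT.nd (nat_lit 156) (nat_lit 0) (nat_lit 0) (XT.nd (nat_lit 78) (nat_lit 152) (nat_lit 0) (XT.lf (nat_lit 0) (nat_lit 451312099759) (nat_lit 76) (nat_lit 82634592154) (nat_lit 76) (nat_lit 65435104184) (nat_lit 12) (nat_lit 4) (nat_lit 13) (nat_lit 5) (nat_lit 13) (nat_lit 4) (nat_lit 546) (nat_lit 411) (nat_lit 243)) (XT.lf (nat_lit 0) (nat_lit 12105032748) (nat_lit 76) (nat_lit 2189965525) (nat_lit 152) (nat_lit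 611028337842) (nat_lit 10) (nat_lit 5) (nat_lit 11) (nat_lit 5) (nat_lit 12) (nat_lit 4) (nat_lit 547) (nat_lit 411) (nat_lit 242))) (XT.nd (nat_lit 78) (nat_lit 0) (nat_lit 0) (XT.lf (nat_lit 0) (nat_lit 99643681891) (nat_lit 152) (nat_lit 469410282273) (nat_lit 0) (nat_lit 83262797409) (nat_lit 10) (nat_lit 5) (nat_lit 12) (nat_lit 4) (nat_lit 10) (nat_lit 4) (nat_lit 548) (nat_lit 411) (nat_lit 241)) (XT.lf (nat_lit 0) (nat_lit 189293616072) (nat_lit 152) (nat_lit 318452014830) (nat_lit 0) (nat_lit 172912536585) (nat_lit 10) (nat_lit 5) (nat_lit 12) (nat_lit 4) (nat_lit 10) (nat_lit 4) (nat_lit 549) (nat_lit 411) (nat_lit 240)))))))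
noncomputable def xc241 : XT := (XT.nd (nat_lit 52572) (nat_lit 0) (nat_lit 8512) (XT.nd (nat_lit 51948) (nat_lit 0) (nat_lit 12692) (XT.nd (nat_lit 312) (nat_lit 0) (nat_lit 0) (XT.nd (nat_lit 156) (nat_lit 0) (nat_lit 0) (XT.nd (nat_lit 78) (nat_lit 76) (nat_lit 0) (XT.lf (nat_lit 0) (nat_lit 283424061540) (nat_lit 152) (nat_lit 159949885095) (nat_lit 0) (nat_lit 267042796335) (nat_lit 10) (nat_lit 5) (nat_lit 12) (nat_lit 4) (nat_lit 10) (nat_lit 4) (nat_lit 550) (nat_lit 411) (nat_lit 239)) (XT.lf (nat_lit 0) (nat_lit 6687535869) (nat_lit 76) (nat_lit 375676013713) (nat_lit 76) (nat_lit 359294571632) (nat_lit 9) (nat_lit 4) (nat_lit 10) (nat_lit 5) (nat_lit 10) (nat_lit 4) (nat_lit 551) (nat_lit 411) (nat_lit 238))) (XT.nd (nat_lit 78) (nat_lit 0) (nat_lit 0) (XT.lf (nat_lit 0) (nat_lit 187206130773) (nat_lit 76) (nat_lit 301750849851) (nat_lit 76) (nat_lit 285369239317) (nat_lit 9) (nat_lit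 4) (nat_lit 10) (nat_lit 5) (nat_lit 10) (nat_lit 4) (nat_lit 552) (nat_lit 411) (nat_lit 237)) (XT.lf (nat_lit 0) (nat_lit 376747040239) (nat_lit 76) (nat_lit 224131271454) (nat_lit 76) (nat_lit 207749500489) (nat_lit 9) (nat_lit 4) (nat_lit 10) (nat_lit 5) (nat_lit 10) (nat_lit 4) (nat_lit 553) (nat_lit 411) (nat_lit 236)))) (XT.nd (nat_lit 51480) (nat_lit 0) (nat_lit 13224) (XT.nd (nat_lit 51402) (nat_lit 0) (nat_lit 13224) (XT.lf (nat_lit 0) (nat_lit 575761552148) (nat_lit 76) (nat_lit 142632470002) (nat_lit 76) (nat_lit 126250546246) (nat_lit 9) (nat_lit 4) (nat_lit 10) (nat_lit 5) (nat_lit 10) (nat_lit 4) (nat_lit 554) (nat_lit 411) (nat_lit 235)) (XT.lf (nat_lit 0) (nat_lit 1111956608) (nat_lit 684) (nat_lit 1470117438) (nat_lit 684) (nat_lit 1470117438) (nat_lit 183) (nat_lit 3) (nat_lit 192) (nat_lit 3) (nat_lit 192) (nat_lit 5) (nat_lit 412) (nat_lit 412) (nat_lit 376))) (XT.nd (nat_lit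 78) (nat_lit 0) (nat_lit 76) (XT.lf (nat_lit 76) (nat_lit 1133496486) (nat_lit 0) (nat_lit 2317403817) (nat_lit 684) (nat_lit 4797419683) (nat_lit 184) (nat_lit 5) (nat_lit 183) (nat_lit 3) (nat_lit 192) (nat_lit 5) (nat_lit 413) (nat_lit 412) (nat_lit 375)) (XT.lf (nat_lit 0) (nat_lit 4726395382) (nat_lit 608) (nat_lit 2939599259) (nat_lit 684) (nat_lit 734107880) (nat_lit 184) (nat_lit 5) (nat_lit 192) (nat_lit 5) (nat_lit 193) (nat_lit 5) (nat_lit 414) (nat_lit 412) (nat_lit 374))))) (XT.nd (nat_lit 312) (nat_lit 0) (nat_lit 76) (XT.nd (nat_lit 156) (nat_lit 608) (nat_lit 0) (XT.nd (nat_lit 78) (nat_lit 0) (nat_lit 0) (XT.lf (nat_lit 76) (nat_lit 1409287905) (nat_lit 0) (nat_lit 4645952628) (nat_lit 684) (nat_lit 2504761170) (nat_lit 185) (nat_lit 5) (nat_lit 184) (nat_lit 5) (nat_lit 193) (nat_lit 5) (nat_lit 415) (nat_lit 412) (nat_lit 373)) (XT.lf (nat_lit 76) (nat_lit 6036142472) (nat_lit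 0) (nat_lit 1396455945) (nat_lit 684) (nat_lit 1296199889) (nat_lit 185) (nat_lit 5) (nat_lit 184) (nat_lit 5) (nat_lit 193) (nat_lit 5) (nat_lit 416) (nat_lit 412) (nat_lit 372))) (XT.nd (nat_lit 78) (nat_lit 684) (nat_lit 0) (XT.lf (nat_lit 76) (nat_lit 1976936657) (nat_lit 0) (nat_lit 6900121554) (nat_lit 684) (nat_lit 29070528) (nat_lit 186) (nat_lit 5) (nat_lit 185) (nat_lit 5) (nat_lit 194) (nat_lit 5) (nat_lit 417) (nat_lit 412) (nat_lit 371)) (XT.lf (nat_lit 0) (nat_lit 1266276488) (nat_lit 684) (nat_lit 2205070628) (nat_lit 760) (nat_lit 5619642080) (nat_lit 176) (nat_lit 5) (nat_lit 185) (nat_lit 5) (nat_lit 186) (nat_lit 5) (nat_lit 418) (nat_lit 412) (nat_lit 370)))) (XT.nd (nat_lit 156) (nat_lit 0) (nat_lit 0) (XT.nd (nat_lit 78) (nat_lit 0) (nat_lit 0) (XT.lf (nat_lit 0) (nat_lit 2612428396) (nat_lit 684) (nat_lit 6486853720) (nat_lit 760) (nat_lit 186440932) (nat_lit 177) (nat_lit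 5) (nat_lit 186) (nat_lit 5) (nat_lit 187) (nat_lit 5) (nat_lit 419) (nat_lit 412) (nat_lit 369)) (XT.lf (nat_lit 0) (nat_lit 4063450785) (nat_lit 684) (nat_lit 1461164671) (nat_lit 760) (nat_lit 3963704683) (nat_lit 177) (nat_lit 5) (nat_lit 186) (nat_lit 5) (nat_lit 187) (nat_lit 5) (nat_lit 420) (nat_lit 412) (nat_lit 368))) (XT.nd (nat_lit 78) (nat_lit 0) (nat_lit 76) (XT.lf (nat_lit 76) (nat_lit 3897820467) (nat_lit 0) (nat_lit 1695487748) (nat_lit 760) (nat_lit 4107429139) (nat_lit 178) (nat_lit 5) (nat_lit 177) (nat_lit 5) (nat_lit 187) (nat_lit 5) (nat_lit 421) (nat_lit 412) (nat_lit 367)) (XT.lf (nat_lit 0) (nat_lit 7208646223) (nat_lit 684) (nat_lit 428616318) (nat_lit 76) (nat_lit 2286067758) (nat_lit 178) (nat_lit 5) (nat_lit 187) (nat_lit 5) (nat_lit 179) (nat_lit 5) (nat_lit 422) (nat_lit 412) (nat_lit 366)))))) (XT.nd (nat_lit 624) (nat_lit 1520) (nat_lit 0) (XT.nd (nat_lit 312)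 (nat_lit 836) (nat_lit 0) (XT.nd (nat_lit 156) (nat_lit 456) (nat_lit 0) (XT.nd (nat_lit 78) (nat_lit 836) (nat_lit 0) (XT.lf (nat_lit 0) (nat_lit 5313965989) (nat_lit 684) (nat_lit 3651579484) (nat_lit 760) (nat_lit 1188471752) (nat_lit 169) (nat_lit 5) (nat_lit 178) (nat_lit 5) (nat_lit 179) (nat_lit 5) (nat_lit 423) (nat_lit 412) (nat_lit 365)) (XT.lf (nat_lit 0) (nat_lit 382735648) (nat_lit 836) (nat_lit 9463532124) (nat_lit 76) (nat_lit 550554342) (nat_lit 158) (nat_lit 5) (nat_lit 169) (nat_lit 5) (nat_lit 159) (nat_lit 5) (nat_lit 424) (nat_lit 412) (nat_lit 364))) (XT.nd (nat_lit 78) (nat_lit 456) (nat_lit 0) (XT.lf (nat_lit 0) (nat_lit 2088433013) (nat_lit 836) (nat_lit 3610415438) (nat_lit 76) (nat_lit 4947154637) (nat_lit 158) (nat_lit 5) (nat_lit 169) (nat_lit 5) (nat_lit 159) (nat_lit 5) (nat_lit 425) (nat_lit 412) (nat_lit 363)) (XT.lf (nat_lit 0) (nat_lit 2574527862) (nat_lit 456)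 (nat_lit 1300031285) (nat_lit 532) (nat_lit 7033330099) (nat_lit 152) (nat_lit 5) (nat_lit 158) (nat_lit 5) (nat_lit 159) (nat_lit 5) (nat_lit 426) (nat_lit 412) (nat_lit 362)))) (XT.nd (nat_lit 156) (nat_lit 456) (nat_lit 0) (XT.nd (nat_lit 78) (nat_lit 380) (nat_lit 0) (XT.lf (nat_lit 0) (nat_lit 5820398476) (nat_lit 532) (nat_lit 2083296521) (nat_lit 76) (nat_lit 3275657548) (nat_lit 152) (nat_lit 5) (nat_lit 159) (nat_lit 5) (nat_lit 153) (nat_lit 5) (nat_lit 427) (nat_lit 412) (nat_lit 361)) (XT.lf (nat_lit 0) (nat_lit 4561350517) (nat_lit 380) (nat_lit 3353226483) (nat_lit 456) (nat_lit 3547262670) (nat_lit 147) (nat_lit 5) (nat_lit 152) (nat_lit 5) (nat_lit 153) (nat_lit 5) (nat_lit 428) (nat_lit 412) (nat_lit 360))) (XT.nd (nat_lit 78) (nat_lit 456) (nat_lit 0) (XT.lf (nat_lit 0) (nat_lit 10131382300) (nat_lit 456) (nat_lit 212849913) (nat_lit 76) (nat_lit 1413325924) (nat_lit 147) (nat_lit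 5) (nat_lit 153) (nat_lit 5) (nat_lit 148) (nat_lit 5) (nat_lit 429) (nat_lit 412) (nat_lit 359)) (XT.lf (nat_lit 0) (nat_lit 505460149) (nat_lit 456) (nat_lit 5135634128) (nat_lit 76) (nat_lit 6420315252) (nat_lit 141) (nat_lit 5) (nat_lit 147) (nat_lit 5) (nat_lit 142) (nat_lit 5) (nat_lit 430) (nat_lit 412) (nat_lit 358))))) (XT.nd (nat_lit 312) (nat_lit 912) (nat_lit 0) (XT.nd (nat_lit 156) (nat_lit 304) (nat_lit 0) (XT.nd (nat_lit 78) (nat_lit 0) (nat_lit 0) (XT.lf (nat_lit 0) (nat_lit 2044795280) (nat_lit 304) (nat_lit 642117909) (nat_lit 380) (nat_lit 9692315587) (nat_lit 137) (nat_lit 5) (nat_lit 141) (nat_lit 5) (nat_lit 142) (nat_lit 5) (nat_lit 431) (nat_lit 412) (nat_lit 357)) (XT.lf (nat_lit 0) (nat_lit 5101125084) (nat_lit 380) (nat_lit 3062845596) (nat_lit 76) (nat_lit 4542786364) (nat_lit 137) (nat_lit 5) (nat_lit 142) (nat_lit 5) (nat_lit 138) (nat_lit 5) (nat_lit 432) (nat_lit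 412) (nat_lit 356))) (XT.nd (nat_lit 78) (nat_lit 0) (nat_lit 0) (XT.lf (nat_lit 0) (nat_lit 4669881373) (nat_lit 304) (nat_lit 3014708153) (nat_lit 380) (nat_lit 5363647357) (nat_lit 133) (nat_lit 5) (nat_lit 137) (nat_lit 5) (nat_lit 138) (nat_lit 5) (nat_lit 433) (nat_lit 412) (nat_lit 355)) (XT.lf (nat_lit 0) (nat_lit 10453319072) (nat_lit 380) (nat_lit 589114335) (nat_lit 76) (nat_lit 2361554862) (nat_lit 133) (nat_lit 5) (nat_lit 138) (nat_lit 5) (nat_lit 134) (nat_lit 5) (nat_lit 434) (nat_lit 412) (nat_lit 354)))) (XT.nd (nat_lit 156) (nat_lit 228) (nat_lit 0) (XT.nd (nat_lit 78) (nat_lit 380) (nat_lit 0) (XT.lf (nat_lit 0) (nat_lit 7747861212) (nat_lit 304) (nat_lit 5750653698) (nat_lit 380) (nat_lit 272112870) (nat_lit 129) (nat_lit 5) (nat_lit 133) (nat_lit 5) (nat_lit 134) (nat_lit 5) (nat_lit 435) (nat_lit 412) (nat_lit 353)) (XT.lf (nat_lit 0) (nat_lit 2362119786) (nat_lit 304) (nat_lit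 112010861) (nat_lit 380) (nat_lit 11678734003) (nat_lit 124) (nat_lit 5) (nat_lit 128) (nat_lit 5) (nat_lit 129) (nat_lit 5) (nat_lit 436) (nat_lit 412) (nat_lit 352))) (XT.nd (nat_lit 78) (nat_lit 228) (nat_lit 0) (XT.lf (nat_lit 0) (nat_lit 5511703628) (nat_lit 380) (nat_lit 3312039804) (nat_lit 76) (nat_lit 5722090553) (nat_lit 124) (nat_lit 5) (nat_lit 129) (nat_lit 5) (nat_lit 125) (nat_lit 5) (nat_lit 437) (nat_lit 412) (nat_lit 351)) (XT.nd (nat_lit 78) (nat_lit 0) (nat_lit 0) (XT.lf (nat_lit 0) (nat_lit 5732769903) (nat_lit 228) (nat_lit 3030015273) (nat_lit 304) (nat_lit 6192586798) (nat_lit 121) (nat_lit 5) (nat_lit 124) (nat_lit 5) (nat_lit 125) (nat_lit 5) (nat_lit 438) (nat_lit 412) (nat_lit 350)) (XT.lf (nat_lit 0) (nat_lit 12252045706) (nat_lit 304) (nat_lit 126500912) (nat_lit 76) (nat_lit 3003060603) (nat_lit 121) (nat_lit 5) (nat_lit 125) (nat_lit 5) (nat_lit 122) (nat_lit 5)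 (nat_lit 439) (nat_lit 412) (nat_lit 349))))))))
noncomputable def xc242 : XT := (XT.nd (nat_lit 1248) (nat_lit 1748) (nat_lit 0) (XT.nd (nat_lit 624) (nat_lit 988) (nat_lit 0) (XT.nd (nat_lit 312) (nat_lit 456) (nat_lit 0) (XT.nd (nat_lit 156) (nat_lit 228) (nat_lit 0) (XT.nd (nat_lit 78) (nat_lit 228) (nat_lit 0) (XT.lf (nat_lit 0) (nat_lit 259257852) (nat_lit 380) (nat_lit 6179490320) (nat_lit 76) (nat_lit 9381569144) (nat_lit 116) (nat_lit 5) (nat_lit 121) (nat_lit 5) (nat_lit 117) (nat_lit 5) (nat_lit 440) (nat_lit 412) (nat_lit 348)) (XT.lf (nat_lit 0) (nat_lit 3646929558) (nat_lit 228) (nat_lit 97144647) (nat_lit 304) (nat_lit 12532738394) (nat_lit 113) (nat_lit 5) (nat_lit 116) (nat_lit 5) (nat_lit 117) (nat_lit 5) (nat_lit 441) (nat_lit 412) (nat_lit 347))) (XT.nd (nat_lit 78) (nat_lit 228) (nat_lit 0) (XT.lf (nat_lit 0) (nat_lit 7585094583) (nat_lit 304) (nat_lit 2714902844) (nat_lit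 76) (nat_lit 6447038375) (nat_lit 113) (nat_lit 5) (nat_lit 117) (nat_lit 5) (nat_lit 114) (nat_lit 5) (nat_lit 442) (nat_lit 412) (nat_lit 346)) (XT.lf (nat_lit 0) (nat_lit 7910218226) (nat_lit 228) (nat_lit 3807470410) (nat_lit 304) (nat_lit 5518106654) (nat_lit 110) (nat_lit 5) (nat_lit 113) (nat_lit 5) (nat_lit 114) (nat_lit 5) (nat_lit 443) (nat_lit 412) (nat_lit 345)))) (XT.nd (nat_lit 156) (nat_lit 228) (nat_lit 0) (XT.nd (nat_lit 78) (nat_lit 76) (nat_lit 0) (XT.lf (nat_lit 0) (nat_lit 1372690804) (nat_lit 152) (nat_lit 14774268276) (nat_lit 228) (nat_lit 1597532534) (nat_lit 108) (nat_lit 5) (nat_lit 110) (nat_lit 5) (nat_lit 111) (nat_lit 5) (nat_lit 444) (nat_lit 412) (nat_lit 344)) (XT.lf (nat_lit 0) (nat_lit 2636492225) (nat_lit 228) (nat_lit 5483301512) (nat_lit 76) (nat_lit 10146961218) (nat_lit 107) (nat_lit 5) (nat_lit 110) (nat_lit 5) (nat_lit 108) (nat_lit 5) (nat_lit 445) (nat_lit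 412) (nat_lit 343))) (XT.nd (nat_lit 78) (nat_lit 0) (nat_lit 0) (XT.lf (nat_lit 0) (nat_lit 6082025935) (nat_lit 228) (nat_lit 1017755653) (nat_lit 304) (nat_lit 11710478910) (nat_lit 104) (nat_lit 5) (nat_lit 107) (nat_lit 5) (nat_lit 108) (nat_lit 5) (nat_lit 446) (nat_lit 412) (nat_lit 342)) (XT.lf (nat_lit 0) (nat_lit 11957832296) (nat_lit 304) (nat_lit 1098823195) (nat_lit 76) (nat_lit 6315706967) (nat_lit 104) (nat_lit 5) (nat_lit 108) (nat_lit 5) (nat_lit 105) (nat_lit 5) (nat_lit 447) (nat_lit 412) (nat_lit 341))))) (XT.nd (nat_lit 312) (nat_lit 380) (nat_lit 0) (XT.nd (nat_lit 156) (nat_lit 152) (nat_lit 0) (XT.nd (nat_lit 78) (nat_lit 304) (nat_lit 0) (XT.lf (nat_lit 0) (nat_lit 11426371931) (nat_lit 152) (nat_lit 5805281853) (nat_lit 228) (nat_lit 2722273258) (nat_lit 102) (nat_lit 5) (nat_lit 104) (nat_lit 5) (nat_lit 105) (nat_lit 5) (nat_lit 448) (nat_lit 412) (nat_lit 340)) (XT.lf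 (nat_lit 0) (nat_lit 2225106575) (nat_lit 304) (nat_lit 16475349060) (nat_lit 76) (nat_lit 1857840528) (nat_lit 98) (nat_lit 5) (nat_lit 102) (nat_lit 5) (nat_lit 99) (nat_lit 5) (nat_lit 449) (nat_lit 412) (nat_lit 339))) (XT.nd (nat_lit 78) (nat_lit 152) (nat_lit 0) (XT.lf (nat_lit 0) (nat_lit 7548591800) (nat_lit 304) (nat_lit 3742996791) (nat_lit 76) (nat_lit 9888053454) (nat_lit 98) (nat_lit 5) (nat_lit 102) (nat_lit 5) (nat_lit 99) (nat_lit 5) (nat_lit 450) (nat_lit 412) (nat_lit 338)) (XT.lf (nat_lit 0) (nat_lit 9909616657) (nat_lit 152) (nat_lit 3362654651) (nat_lit 228) (nat_lit 8553083684) (nat_lit 96) (nat_lit 5) (nat_lit 98) (nat_lit 5) (nat_lit 99) (nat_lit 5) (nat_lit 451) (nat_lit 412) (nat_lit 337)))) (XT.nd (nat_lit 156) (nat_lit 152) (nat_lit 0) (XT.nd (nat_lit 78) (nat_lit 76) (nat_lit 0) (XT.lf (nat_lit 0) (nat_lit 1820575457) (nat_lit 152) (nat_lit 17611468816) (nat_lit 228)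 (nat_lit 3063814574) (nat_lit 94) (nat_lit 5) (nat_lit 96) (nat_lit 5) (nat_lit 97) (nat_lit 5) (nat_lit 452) (nat_lit 412) (nat_lit 336)) (XT.lf (nat_lit 0) (nat_lit 2853436097) (nat_lit 228) (nat_lit 6666917339) (nat_lit 76) (nat_lit 13665430842) (nat_lit 93) (nat_lit 5) (nat_lit 96) (nat_lit 5) (nat_lit 94) (nat_lit 5) (nat_lit 453) (nat_lit 412) (nat_lit 335))) (XT.nd (nat_lit 78) (nat_lit 0) (nat_lit 0) (XT.lf (nat_lit 0) (nat_lit 8222502544) (nat_lit 152) (nat_lit 850125362) (nat_lit 228) (nat_lit 14829615244) (nat_lit 91) (nat_lit 5) (nat_lit 93) (nat_lit 5) (nat_lit 94) (nat_lit 5) (nat_lit 454) (nat_lit 412) (nat_lit 334)) (XT.lf (nat_lit 0) (nat_lit 15827289579) (nat_lit 228) (nat_lit 724272133) (nat_lit 76) (nat_lit 8091738343) (nat_lit 91) (nat_lit 5) (nat_lit 94) (nat_lit 5) (nat_lit 92) (nat_lit 5) (nat_lit 455) (nat_lit 412) (nat_lit 333)))))) (XT.nd (nat_lit 624) (nat_lit 836) (nat_lit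 0) (XT.nd (nat_lit 312) (nat_lit 380) (nat_lit 0) (XT.nd (nat_lit 156) (nat_lit 152) (nat_lit 0) (XT.nd (nat_lit 78) (nat_lit 228) (nat_lit 0) (XT.lf (nat_lit 0) (nat_lit 15427836304) (nat_lit 152) (nat_lit 7728456094) (nat_lit 228) (nat_lit 2253287580) (nat_lit 89) (nat_lit 5) (nat_lit 91) (nat_lit 5) (nat_lit 92) (nat_lit 5) (nat_lit 456) (nat_lit 412) (nat_lit 332)) (XT.lf (nat_lit 0) (nat_lit 4608597467) (nat_lit 228) (nat_lit 19935711186) (nat_lit 76) (nat_lit 1660272629) (nat_lit 86) (nat_lit 5) (nat_lit 89) (nat_lit 5) (nat_lit 87) (nat_lit 5) (nat_lit 457) (nat_lit 412) (nat_lit 331))) (XT.nd (nat_lit 78) (nat_lit 152) (nat_lit 0) (XT.lf (nat_lit 0) (nat_lit 12018446163) (nat_lit 228) (nat_lit 3549996160) (nat_lit 76) (nat_lit 11455014136) (nat_lit 86) (nat_lit 5) (nat_lit 89) (nat_lit 5) (nat_lit 87) (nat_lit 5) (nat_lit 458) (nat_lit 412) (nat_lit 330)) (XT.lf (nat_lit 0) (nat_lit 14075737484)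 (nat_lit 152) (nat_lit 5925746503) (nat_lit 228) (nat_lit 7871657047) (nat_lit 84) (nat_lit 5) (nat_lit 86) (nat_lit 5) (nat_lit 87) (nat_lit 5) (nat_lit 459) (nat_lit 412) (nat_lit 329)))) (XT.nd (nat_lit 156) (nat_lit 228) (nat_lit 0) (XT.nd (nat_lit 78) (nat_lit 76) (nat_lit 0) (XT.lf (nat_lit 0) (nat_lit 3974425510) (nat_lit 76) (nat_lit 24581059710) (nat_lit 152) (nat_lit 201234494) (nat_lit 83) (nat_lit 5) (nat_lit 84) (nat_lit 5) (nat_lit 85) (nat_lit 4) (nat_lit 460) (nat_lit 412) (nat_lit 328)) (XT.lf (nat_lit 0) (nat_lit 7919180042) (nat_lit 152) (nat_lit 6812521944) (nat_lit 76) (nat_lit 14930755280) (nat_lit 82) (nat_lit 5) (nat_lit 84) (nat_lit 5) (nat_lit 83) (nat_lit 5) (nat_lit 461) (nat_lit 412) (nat_lit 327))) (XT.nd (nat_lit 78) (nat_lit 76) (nat_lit 0) (XT.lf (nat_lit 0) (nat_lit 12421420305) (nat_lit 152) (nat_lit 4195333874) (nat_lit 228) (nat_lit 13987667877) (nat_lit 80)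 (nat_lit 5) (nat_lit 82) (nat_lit 5) (nat_lit 83) (nat_lit 5) (nat_lit 462) (nat_lit 412) (nat_lit 326)) (XT.lf (nat_lit 0) (nat_lit 1165324898) (nat_lit 76) (nat_lit 24810666274) (nat_lit 152) (nat_lit 5606155078) (nat_lit 79) (nat_lit 5) (nat_lit 80) (nat_lit 5) (nat_lit 81) (nat_lit 4) (nat_lit 463) (nat_lit 412) (nat_lit 325))))) (XT.nd (nat_lit 312) (nat_lit 532) (nat_lit 0) (XT.nd (nat_lit 156) (nat_lit 76) (nat_lit 0) (XT.nd (nat_lit 78) (nat_lit 152) (nat_lit 0) (XT.lf (nat_lit 0) (nat_lit 3458112904) (nat_lit 152) (nat_lit 10633491888) (nat_lit 76) (nat_lit 18496362426) (nat_lit 78) (nat_lit 5) (nat_lit 80) (nat_lit 5) (nat_lit 79) (nat_lit 5) (nat_lit 464) (nat_lit 412) (nat_lit 324)) (XT.lf (nat_lit 0) (nat_lit 10350991880) (nat_lit 152) (nat_lit 2582720445) (nat_lit 228) (nat_lit 20698445941) (nat_lit 76) (nat_lit 5) (nat_lit 78) (nat_lit 5) (nat_lit 79) (nat_lit 5) (nat_lit 465) (nat_lit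 412) (nat_lit 323))) (XT.nd (nat_lit 78) (nat_lit 76) (nat_lit 0) (XT.lf (nat_lit 0) (nat_lit 23199494963) (nat_lit 228) (nat_lit 2144495008) (nat_lit 76) (nat_lit 9368749037) (nat_lit 76) (nat_lit 5) (nat_lit 79) (nat_lit 5) (nat_lit 77) (nat_lit 4) (nat_lit 466) (nat_lit 412) (nat_lit 322)) (XT.lf (nat_lit 0) (nat_lit 20641112817) (nat_lit 76) (nat_lit 13687793497) (nat_lit 152) (nat_lit 1500925785) (nat_lit 75) (nat_lit 5) (nat_lit 76) (nat_lit 5) (nat_lit 77) (nat_lit 4) (nat_lit 467) (nat_lit 412) (nat_lit 321)))) (XT.nd (nat_lit 156) (nat_lit 304) (nat_lit 0) (XT.nd (nat_lit 78) (nat_lit 0) (nat_lit 0) (XT.lf (nat_lit 0) (nat_lit 7718997417) (nat_lit 152) (nat_lit 1147780565) (nat_lit 228) (nat_lit 28121806485) (nat_lit 72) (nat_lit 5) (nat_lit 74) (nat_lit 5) (nat_lit 75) (nat_lit 5) (nat_lit 468) (nat_lit 412) (nat_lit 320)) (XT.lf (nat_lit 0) (nat_lit 20137394933) (nat_lit 228) (nat_lit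 6135809487) (nat_lit 76) (nat_lit 11909091569) (nat_lit 72) (nat_lit 5) (nat_lit 75) (nat_lit 5) (nat_lit 73) (nat_lit 4) (nat_lit 469) (nat_lit 412) (nat_lit 319))) (XT.nd (nat_lit 78) (nat_lit 228) (nat_lit 0) (XT.lf (nat_lit 0) (nat_lit 18709580164) (nat_lit 76) (nat_lit 13559430350) (nat_lit 152) (nat_lit 7151809423) (nat_lit 71) (nat_lit 5) (nat_lit 72) (nat_lit 5) (nat_lit 73) (nat_lit 4) (nat_lit 470) (nat_lit 412) (nat_lit 318)) (XT.nd (nat_lit 78) (nat_lit 0) (nat_lit 0) (XT.lf (nat_lit 0) (nat_lit 4309185228) (nat_lit 228) (nat_lit 36371075723) (nat_lit 76) (nat_lit 29642315) (nat_lit 68) (nat_lit 5) (nat_lit 71) (nat_lit 5) (nat_lit 69) (nat_lit 4) (nat_lit 471) (nat_lit 412) (nat_lit 317)) (XT.lf (nat_lit 0) (nat_lit 16668326878) (nat_lit 228) (nat_lit 11055932232) (nat_lit 76) (nat_lit 14305047472) (nat_lit 68) (nat_lit 5) (nat_lit 71) (nat_lit 5) (nat_lit 69) (nat_lit 4) (nat_lit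 472) (nat_lit 412) (nat_lit 316))))))))
noncomputable def xc243 : XT := (XT.nd (nat_lit 1248) (nat_lit 1064) (nat_lit 0) (XT.nd (nat_lit 624) (nat_lit 608) (nat_lit 0) (XT.nd (nat_lit 312) (nat_lit 228) (nat_lit 0) (XT.nd (nat_lit 156) (nat_lit 228) (nat_lit 0) (XT.nd (nat_lit 78) (nat_lit 0) (nat_lit 0) (XT.lf (nat_lit 0) (nat_lit 16013504079) (nat_lit 76) (nat_lit 13869226989) (nat_lit 152) (nat_lit 13520083919) (nat_lit 67) (nat_lit 5) (nat_lit 68) (nat_lit 5) (nat_lit 69) (nat_lit 4) (nat_lit 473) (nat_lit 412) (nat_lit 315)) (XT.lf (nat_lit 0) (nat_lit 43946109228) (nat_lit 152) (nat_lit 53110822) (nat_lit 0) (nat_lit 836366261) (nat_lit 67) (nat_lit 5) (nat_lit 69) (nat_lit 4) (nat_lit 67) (nat_lit 4) (nat_lit 474) (nat_lit 412) (nat_lit 314))) (XT.nd (nat_lit 78) (nat_lit 76) (nat_lit 0) (XT.lf (nat_lit 0) (nat_lit 12661074102) (nat_lit 152) (nat_lit 17171897521) (nat_lit 76) (nat_lit 16463145335)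 (nat_lit 65) (nat_lit 5) (nat_lit 67) (nat_lit 5) (nat_lit 66) (nat_lit 4) (nat_lit 475) (nat_lit 412) (nat_lit 313)) (XT.lf (nat_lit 0) (nat_lit 12288398381) (nat_lit 76) (nat_lit 14751615169) (nat_lit 152) (nat_lit 20779894020) (nat_lit 64) (nat_lit 5) (nat_lit 65) (nat_lit 5) (nat_lit 66) (nat_lit 4) (nat_lit 476) (nat_lit 412) (nat_lit 312)))) (XT.nd (nat_lit 156) (nat_lit 76) (nat_lit 0) (XT.nd (nat_lit 78) (nat_lit 152) (nat_lit 0) (XT.lf (nat_lit 0) (nat_lit 42438437184) (nat_lit 152) (nat_lit 5632150663) (nat_lit 0) (nat_lit 1334273160) (nat_lit 64) (nat_lit 5) (nat_lit 66) (nat_lit 4) (nat_lit 64) (nat_lit 4) (nat_lit 477) (nat_lit 412) (nat_lit 311)) (XT.lf (nat_lit 0) (nat_lit 7948684200) (nat_lit 152) (nat_lit 24823640620) (nat_lit 76) (nat_lit 18258242268) (nat_lit 62) (nat_lit 5) (nat_lit 64) (nat_lit 5) (nat_lit 63) (nat_lit 4) (nat_lit 478) (nat_lit 412) (nat_lit 310))) (XT.nd (nat_lit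 78) (nat_lit 0) (nat_lit 0) (XT.lf (nat_lit 0) (nat_lit 7193243518) (nat_lit 76) (nat_lit 16380066722) (nat_lit 152) (nat_lit 29148644174) (nat_lit 61) (nat_lit 5) (nat_lit 62) (nat_lit 5) (nat_lit 63) (nat_lit 4) (nat_lit 479) (nat_lit 412) (nat_lit 309)) (XT.lf (nat_lit 0) (nat_lit 40408115634) (nat_lit 152) (nat_lit 12845941265) (nat_lit 0) (nat_lit 1222406933) (nat_lit 61) (nat_lit 5) (nat_lit 63) (nat_lit 4) (nat_lit 61) (nat_lit 4) (nat_lit 480) (nat_lit 412) (nat_lit 308))))) (XT.nd (nat_lit 312) (nat_lit 304) (nat_lit 0) (XT.nd (nat_lit 156) (nat_lit 76) (nat_lit 0) (XT.nd (nat_lit 78) (nat_lit 76) (nat_lit 0) (XT.lf (nat_lit 0) (nat_lit 2318638194) (nat_lit 152) (nat_lit 34444247941) (nat_lit 76) (nat_lit 19523974246) (nat_lit 59) (nat_lit 5) (nat_lit 61) (nat_lit 5) (nat_lit 60) (nat_lit 4) (nat_lit 481) (nat_lit 412) (nat_lit 307)) (XT.lf (nat_lit 0) (nat_lit 288787492) (nat_lit 76)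 (nat_lit 18978252441) (nat_lit 152) (nat_lit 38898462763) (nat_lit 58) (nat_lit 5) (nat_lit 59) (nat_lit 5) (nat_lit 60) (nat_lit 4) (nat_lit 482) (nat_lit 412) (nat_lit 306))) (XT.nd (nat_lit 78) (nat_lit 76) (nat_lit 0) (XT.lf (nat_lit 0) (nat_lit 37640264509) (nat_lit 152) (nat_lit 22180392111) (nat_lit 0) (nat_lit 288550474) (nat_lit 58) (nat_lit 5) (nat_lit 60) (nat_lit 4) (nat_lit 58) (nat_lit 4) (nat_lit 483) (nat_lit 412) (nat_lit 305)) (XT.lf (nat_lit 0) (nat_lit 15464619071) (nat_lit 76) (nat_lit 42009869788) (nat_lit 76) (nat_lit 4648491024) (nat_lit 57) (nat_lit 4) (nat_lit 58) (nat_lit 5) (nat_lit 58) (nat_lit 4) (nat_lit 484) (nat_lit 412) (nat_lit 304)))) (XT.nd (nat_lit 156) (nat_lit 152) (nat_lit 0) (XT.nd (nat_lit 78) (nat_lit 76) (nat_lit 0) (XT.lf (nat_lit 0) (nat_lit 13984462448) (nat_lit 152) (nat_lit 8702435247) (nat_lit 76) (nat_lit 41520986447) (nat_lit 56) (nat_lit 5)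 (nat_lit 58) (nat_lit 5) (nat_lit 57) (nat_lit 4) (nat_lit 485) (nat_lit 412) (nat_lit 303)) (XT.lf (nat_lit 0) (nat_lit 32082897653) (nat_lit 76) (nat_lit 1801125329) (nat_lit 152) (nat_lit 32484641521) (nat_lit 55) (nat_lit 5) (nat_lit 56) (nat_lit 5) (nat_lit 57) (nat_lit 4) (nat_lit 486) (nat_lit 412) (nat_lit 302))) (XT.nd (nat_lit 78) (nat_lit 76) (nat_lit 0) (XT.lf (nat_lit 0) (nat_lit 6450208271) (nat_lit 76) (nat_lit 48883426826) (nat_lit 76) (nat_lit 13276095189) (nat_lit 54) (nat_lit 4) (nat_lit 55) (nat_lit 5) (nat_lit 55) (nat_lit 4) (nat_lit 487) (nat_lit 412) (nat_lit 301)) (XT.lf (nat_lit 0) (nat_lit 7282270044) (nat_lit 152) (nat_lit 20686250613) (nat_lit 76) (nat_lit 42958447581) (nat_lit 53) (nat_lit 5) (nat_lit 55) (nat_lit 5) (nat_lit 54) (nat_lit 4) (nat_lit 488) (nat_lit 412) (nat_lit 300)))))) (XT.nd (nat_lit 624) (nat_lit 532) (nat_lit 0) (XT.nd (nat_lit 312) (nat_lit 228)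 (nat_lit 0) (XT.nd (nat_lit 156) (nat_lit 228) (nat_lit 0) (XT.nd (nat_lit 78) (nat_lit 0) (nat_lit 0) (XT.lf (nat_lit 0) (nat_lit 23372954904) (nat_lit 76) (nat_lit 5405128548) (nat_lit 152) (nat_lit 44553317972) (nat_lit 52) (nat_lit 5) (nat_lit 53) (nat_lit 5) (nat_lit 54) (nat_lit 4) (nat_lit 489) (nat_lit 412) (nat_lit 299)) (XT.lf (nat_lit 0) (nat_lit 51981063779) (nat_lit 152) (nat_lit 5794676366) (nat_lit 0) (nat_lit 18048697381) (nat_lit 52) (nat_lit 5) (nat_lit 54) (nat_lit 4) (nat_lit 52) (nat_lit 4) (nat_lit 490) (nat_lit 412) (nat_lit 298))) (XT.nd (nat_lit 78) (nat_lit 152) (nat_lit 0) (XT.lf (nat_lit 0) (nat_lit 41809513773) (nat_lit 76) (nat_lit 35267288809) (nat_lit 76) (nat_lit 1328692441) (nat_lit 51) (nat_lit 4) (nat_lit 52) (nat_lit 5) (nat_lit 52) (nat_lit 4) (nat_lit 491) (nat_lit 412) (nat_lit 297)) (XT.lf (nat_lit 0) (nat_lit 10864842973) (nat_lit 76) (nat_lit 10993387586)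 (nat_lit 152) (nat_lit 59226926362) (nat_lit 49) (nat_lit 5) (nat_lit 50) (nat_lit 5) (nat_lit 51) (nat_lit 4) (nat_lit 492) (nat_lit 412) (nat_lit 296)))) (XT.nd (nat_lit 156) (nat_lit 152) (nat_lit 0) (XT.nd (nat_lit 78) (nat_lit 76) (nat_lit 0) (XT.lf (nat_lit 0) (nat_lit 47007338538) (nat_lit 152) (nat_lit 22174166403) (nat_lit 0) (nat_lit 14673833356) (nat_lit 49) (nat_lit 5) (nat_lit 51) (nat_lit 4) (nat_lit 49) (nat_lit 4) (nat_lit 493) (nat_lit 412) (nat_lit 295)) (XT.lf (nat_lit 0) (nat_lit 29005911725) (nat_lit 76) (nat_lit 45032754718) (nat_lit 76) (nat_lit 12694124124) (nat_lit 48) (nat_lit 4) (nat_lit 49) (nat_lit 5) (nat_lit 49) (nat_lit 4) (nat_lit 494) (nat_lit 412) (nat_lit 294))) (XT.nd (nat_lit 78) (nat_lit 76) (nat_lit 0) (XT.lf (nat_lit 0) (nat_lit 12635384045) (nat_lit 152) (nat_lit 6440974645) (nat_lit 76) (nat_lit 70649199289) (nat_lit 47) (nat_lit 5) (nat_lit 49) (nat_lit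 5) (nat_lit 48) (nat_lit 4) (nat_lit 495) (nat_lit 412) (nat_lit 293)) (XT.lf (nat_lit 0) (nat_lit 39701346382) (nat_lit 152) (nat_lit 44217809022) (nat_lit 0) (nat_lit 8893574154) (nat_lit 46) (nat_lit 5) (nat_lit 48) (nat_lit 4) (nat_lit 46) (nat_lit 4) (nat_lit 496) (nat_lit 412) (nat_lit 292))))) (XT.nd (nat_lit 312) (nat_lit 304) (nat_lit 0) (XT.nd (nat_lit 156) (nat_lit 76) (nat_lit 0) (XT.nd (nat_lit 78) (nat_lit 76) (nat_lit 0) (XT.lf (nat_lit 0) (nat_lit 10565297977) (nat_lit 76) (nat_lit 58135959093) (nat_lit 76) (nat_lit 27323970176) (nat_lit 45) (nat_lit 4) (nat_lit 46) (nat_lit 5) (nat_lit 46) (nat_lit 4) (nat_lit 497) (nat_lit 412) (nat_lit 291)) (XT.lf (nat_lit 0) (nat_lit 513957813) (nat_lit 152) (nat_lit 29762391295) (nat_lit 76) (nat_lit 69084532075) (nat_lit 44) (nat_lit 5) (nat_lit 46) (nat_lit 5) (nat_lit 45) (nat_lit 4) (nat_lit 498) (nat_lit 412) (nat_lit 290))) (XT.nd (nat_lit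 78) (nat_lit 0) (nat_lit 0) (XT.lf (nat_lit 0) (nat_lit 29191377128) (nat_lit 76) (nat_lit 82382189) (nat_lit 152) (nat_lit 73544749753) (nat_lit 43) (nat_lit 5) (nat_lit 44) (nat_lit 5) (nat_lit 45) (nat_lit 4) (nat_lit 499) (nat_lit 412) (nat_lit 289)) (XT.lf (nat_lit 0) (nat_lit 60470045634) (nat_lit 152) (nat_lit 14814690012) (nat_lit 0) (nat_lit 31114358007) (nat_lit 43) (nat_lit 5) (nat_lit 45) (nat_lit 4) (nat_lit 43) (nat_lit 4) (nat_lit 500) (nat_lit 412) (nat_lit 288)))) (XT.nd (nat_lit 156) (nat_lit 76) (nat_lit 0) (XT.nd (nat_lit 78) (nat_lit 152) (nat_lit 0) (XT.lf (nat_lit 0) (nat_lit 48474185021) (nat_lit 76) (nat_lit 45502981489) (nat_lit 76) (nat_lit 16143989975) (nat_lit 42) (nat_lit 4) (nat_lit 43) (nat_lit 5) (nat_lit 43) (nat_lit 4) (nat_lit 501) (nat_lit 412) (nat_lit 287)) (XT.lf (nat_lit 0) (nat_lit 1209097125) (nat_lit 76) (nat_lit 13703700531) (nat_lit 152) (nat_lit 99091376425)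 (nat_lit 40) (nat_lit 5) (nat_lit 41) (nat_lit 5) (nat_lit 42) (nat_lit 4) (nat_lit 502) (nat_lit 412) (nat_lit 286))) (XT.nd (nat_lit 78) (nat_lit 76) (nat_lit 0) (XT.lf (nat_lit 0) (nat_lit 48341230585) (nat_lit 152) (nat_lit 49284376190) (nat_lit 0) (nat_lit 20374435542) (nat_lit 40) (nat_lit 5) (nat_lit 42) (nat_lit 4) (nat_lit 40) (nat_lit 4) (nat_lit 503) (nat_lit 412) (nat_lit 285)) (XT.nd (nat_lit 78) (nat_lit 0) (nat_lit 0) (XT.lf (nat_lit 0) (nat_lit 17731065723) (nat_lit 76) (nat_lit 66204708487) (nat_lit 76) (nat_lit 38235195329) (nat_lit 39) (nat_lit 4) (nat_lit 40) (nat_lit 5) (nat_lit 40) (nat_lit 4) (nat_lit 504) (nat_lit 412) (nat_lit 284)) (XT.lf (nat_lit 0) (nat_lit 89794894215) (nat_lit 76) (nat_lit 32343126007) (nat_lit 76) (nat_lit 4371024167) (nat_lit 39) (nat_lit 4) (nat_lit 40) (nat_lit 5) (nat_lit 40) (nat_lit 4) (nat_lit 505) (nat_lit 412) (nat_lit 283))))))))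
noncomputable def xc244 : XT := (XT.nd (nat_lit 1248) (nat_lit 684) (nat_lit 0) (XT.nd (nat_lit 624) (nat_lit 456) (nat_lit 0) (XT.nd (nat_lit 312) (nat_lit 304) (nat_lit 0) (XT.nd (nat_lit 156) (nat_lit 152) (nat_lit 0) (XT.nd (nat_lit 78) (nat_lit 0) (nat_lit 0) (XT.lf (nat_lit 0) (nat_lit 30795457345) (nat_lit 152) (nat_lit 96060844998) (nat_lit 0) (nat_lit 4153012345) (nat_lit 37) (nat_lit 5) (nat_lit 39) (nat_lit 4) (nat_lit 37) (nat_lit 4) (nat_lit 506) (nat_lit 412) (nat_lit 282)) (XT.lf (nat_lit 0) (nat_lit 68729089833) (nat_lit 152) (nat_lit 24859731155) (nat_lit 0) (nat_lit 42084408633) (nat_lit 37) (nat_lit 5) (nat_lit 39) (nat_lit 4) (nat_lit 37) (nat_lit 4) (nat_lit 507) (nat_lit 412) (nat_lit 281))) (XT.nd (nat_lit 78) (nat_lit 76) (nat_lit 0) (XT.lf (nat_lit 0) (nat_lit 51538605239) (nat_lit 76) (nat_lit 57819310211) (nat_lit 76) (nat_lit 31172499296) (nat_lit 36) (nat_lit 4) (nat_lit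 37) (nat_lit 5) (nat_lit 37) (nat_lit 4) (nat_lit 508) (nat_lit 412) (nat_lit 280)) (XT.lf (nat_lit 0) (nat_lit 6605042418) (nat_lit 152) (nat_lit 13108502256) (nat_lit 76) (nat_lit 125890839649) (nat_lit 35) (nat_lit 5) (nat_lit 37) (nat_lit 5) (nat_lit 36) (nat_lit 4) (nat_lit 509) (nat_lit 412) (nat_lit 279)))) (XT.nd (nat_lit 156) (nat_lit 228) (nat_lit 0) (XT.nd (nat_lit 78) (nat_lit 0) (nat_lit 0) (XT.lf (nat_lit 0) (nat_lit 46625915596) (nat_lit 152) (nat_lit 82966253838) (nat_lit 0) (nat_lit 21244228997) (nat_lit 34) (nat_lit 5) (nat_lit 36) (nat_lit 4) (nat_lit 34) (nat_lit 4) (nat_lit 510) (nat_lit 412) (nat_lit 278)) (XT.lf (nat_lit 0) (nat_lit 89190795035) (nat_lit 152) (nat_lit 3304713781) (nat_lit 0) (nat_lit 63807356315) (nat_lit 34) (nat_lit 5) (nat_lit 36) (nat_lit 4) (nat_lit 34) (nat_lit 4) (nat_lit 511) (nat_lit 412) (nat_lit 277))) (XT.nd (nat_lit 78) (nat_lit 152) (nat_lit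 0) (XT.lf (nat_lit 0) (nat_lit 82984684110) (nat_lit 76) (nat_lit 52189287902) (nat_lit 76) (nat_lit 26804180494) (nat_lit 33) (nat_lit 4) (nat_lit 34) (nat_lit 5) (nat_lit 34) (nat_lit 4) (nat_lit 512) (nat_lit 412) (nat_lit 276)) (XT.lf (nat_lit 0) (nat_lit 5696745439) (nat_lit 76) (nat_lit 9465909230) (nat_lit 152) (nat_lit 152755421795) (nat_lit 31) (nat_lit 5) (nat_lit 32) (nat_lit 5) (nat_lit 33) (nat_lit 4) (nat_lit 513) (nat_lit 412) (nat_lit 275))))) (XT.nd (nat_lit 312) (nat_lit 228) (nat_lit 0) (XT.nd (nat_lit 156) (nat_lit 152) (nat_lit 0) (XT.nd (nat_lit 78) (nat_lit 76) (nat_lit 0) (XT.lf (nat_lit 0) (nat_lit 60233790586) (nat_lit 152) (nat_lit 77749354855) (nat_lit 0) (nat_lit 36054542793) (nat_lit 31) (nat_lit 5) (nat_lit 33) (nat_lit 4) (nat_lit 31) (nat_lit 4) (nat_lit 514) (nat_lit 412) (nat_lit 274)) (XT.lf (nat_lit 0) (nat_lit 11136768400) (nat_lit 76) (nat_lit 96745472477)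 (nat_lit 76) (nat_lit 72564851851) (nat_lit 30) (nat_lit 4) (nat_lit 31) (nat_lit 5) (nat_lit 31) (nat_lit 4) (nat_lit 515) (nat_lit 412) (nat_lit 273))) (XT.nd (nat_lit 78) (nat_lit 152) (nat_lit 0) (XT.lf (nat_lit 0) (nat_lit 107155933719) (nat_lit 76) (nat_lit 52068693085) (nat_lit 76) (nat_lit 27886764999) (nat_lit 30) (nat_lit 4) (nat_lit 31) (nat_lit 5) (nat_lit 31) (nat_lit 4) (nat_lit 516) (nat_lit 412) (nat_lit 272)) (XT.lf (nat_lit 0) (nat_lit 14008255325) (nat_lit 76) (nat_lit 4621709850) (nat_lit 152) (nat_lit 175453405563) (nat_lit 28) (nat_lit 5) (nat_lit 29) (nat_lit 5) (nat_lit 30) (nat_lit 4) (nat_lit 517) (nat_lit 412) (nat_lit 271)))) (XT.nd (nat_lit 156) (nat_lit 152) (nat_lit 0) (XT.nd (nat_lit 78) (nat_lit 76) (nat_lit 0) (XT.lf (nat_lit 0) (nat_lit 68612258524) (nat_lit 152) (nat_lit 87085451376) (nat_lit 0) (nat_lit 45579535486) (nat_lit 28) (nat_lit 5) (nat_lit 30) (nat_lit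 4) (nat_lit 28) (nat_lit 4) (nat_lit 518) (nat_lit 412) (nat_lit 270)) (XT.lf (nat_lit 0) (nat_lit 10814327968) (nat_lit 76) (nat_lit 110519147037) (nat_lit 76) (nat_lit 87485348348) (nat_lit 27) (nat_lit 4) (nat_lit 28) (nat_lit 5) (nat_lit 28) (nat_lit 4) (nat_lit 519) (nat_lit 412) (nat_lit 269))) (XT.nd (nat_lit 78) (nat_lit 152) (nat_lit 0) (XT.lf (nat_lit 0) (nat_lit 116622935221) (nat_lit 76) (nat_lit 61537931210) (nat_lit 76) (nat_lit 38503108092) (nat_lit 27) (nat_lit 4) (nat_lit 28) (nat_lit 5) (nat_lit 28) (nat_lit 4) (nat_lit 520) (nat_lit 412) (nat_lit 268)) (XT.lf (nat_lit 0) (nat_lit 2695757957) (nat_lit 76) (nat_lit 9856220931) (nat_lit 152) (nat_lit 212337436105) (nat_lit 25) (nat_lit 5) (nat_lit 26) (nat_lit 5) (nat_lit 27) (nat_lit 4) (nat_lit 521) (nat_lit 412) (nat_lit 267)))))) (XT.nd (nat_lit 624) (nat_lit 380) (nat_lit 0) (XT.nd (nat_lit 312) (nat_lit 228) (nat_lit 0) (XT.nd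 (nat_lit 156) (nat_lit 76) (nat_lit 0) (XT.nd (nat_lit 78) (nat_lit 0) (nat_lit 0) (XT.lf (nat_lit 0) (nat_lit 67276673095) (nat_lit 152) (nat_lit 120760421798) (nat_lit 0) (nat_lit 45336932188) (nat_lit 25) (nat_lit 5) (nat_lit 27) (nat_lit 4) (nat_lit 25) (nat_lit 4) (nat_lit 522) (nat_lit 412) (nat_lit 266)) (XT.lf (nat_lit 0) (nat_lit 124894830811) (nat_lit 152) (nat_lit 14425930427) (nat_lit 0) (nat_lit 102954247103) (nat_lit 25) (nat_lit 5) (nat_lit 27) (nat_lit 4) (nat_lit 25) (nat_lit 4) (nat_lit 523) (nat_lit 412) (nat_lit 265))) (XT.nd (nat_lit 78) (nat_lit 0) (nat_lit 0) (XT.lf (nat_lit 0) (nat_lit 100431306684) (nat_lit 76) (nat_lit 86526462367) (nat_lit 76) (nat_lit 64585075992) (nat_lit 24) (nat_lit 4) (nat_lit 25) (nat_lit 5) (nat_lit 25) (nat_lit 4) (nat_lit 524) (nat_lit 412) (nat_lit 264)) (XT.lf (nat_lit 0) (nat_lit 221523969145) (nat_lit 76) (nat_lit 30840121714) (nat_lit 76)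 (nat_lit 8897970894) (nat_lit 24) (nat_lit 4) (nat_lit 25) (nat_lit 5) (nat_lit 25) (nat_lit 4) (nat_lit 525) (nat_lit 412) (nat_lit 263)))) (XT.nd (nat_lit 156) (nat_lit 76) (nat_lit 0) (XT.nd (nat_lit 78) (nat_lit 0) (nat_lit 0) (XT.lf (nat_lit 0) (nat_lit 49679720212) (nat_lit 152) (nat_lit 192882435095) (nat_lit 0) (nat_lit 28781740343) (nat_lit 22) (nat_lit 5) (nat_lit 24) (nat_lit 4) (nat_lit 22) (nat_lit 4) (nat_lit 526) (nat_lit 412) (nat_lit 262)) (XT.lf (nat_lit 0) (nat_lit 112072917007) (nat_lit 152) (nat_lit 78616051477) (nat_lit 0) (nat_lit 91174276782) (nat_lit 22) (nat_lit 5) (nat_lit 24) (nat_lit 4) (nat_lit 22) (nat_lit 4) (nat_lit 527) (nat_lit 412) (nat_lit 261))) (XT.nd (nat_lit 78) (nat_lit 0) (nat_lit 0) (XT.lf (nat_lit 0) (nat_lit 42723438663) (nat_lit 76) (nat_lit 135525614434) (nat_lit 76) (nat_lit 114626345299) (nat_lit 21) (nat_lit 4) (nat_lit 22) (nat_lit 5) (nat_lit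 22) (nat_lit 4) (nat_lit 528) (nat_lit 412) (nat_lit 260)) (XT.lf (nat_lit 0) (nat_lit 172851768644) (nat_lit 76) (nat_lit 76209936590) (nat_lit 76) (nat_lit 55310068492) (nat_lit 21) (nat_lit 4) (nat_lit 22) (nat_lit 5) (nat_lit 22) (nat_lit 4) (nat_lit 529) (nat_lit 412) (nat_lit 259))))) (XT.nd (nat_lit 312) (nat_lit 152) (nat_lit 0) (XT.nd (nat_lit 156) (nat_lit 76) (nat_lit 0) (XT.nd (nat_lit 78) (nat_lit 76) (nat_lit 0) (XT.lf (nat_lit 0) (nat_lit 6745300424) (nat_lit 152) (nat_lit 7072572667) (nat_lit 76) (nat_lit 302619830770) (nat_lit 20) (nat_lit 5) (nat_lit 22) (nat_lit 5) (nat_lit 21) (nat_lit 4) (nat_lit 530) (nat_lit 412) (nat_lit 258)) (XT.lf (nat_lit 0) (nat_lit 72874354210) (nat_lit 152) (nat_lit 203077098065) (nat_lit 0) (nat_lit 52968657243) (nat_lit 19) (nat_lit 5) (nat_lit 21) (nat_lit 4) (nat_lit 19) (nat_lit 4) (nat_lit 531) (nat_lit 412) (nat_lit 257))) (XT.nd (nat_lit 78)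 (nat_lit 76) (nat_lit 0) (XT.lf (nat_lit 0) (nat_lit 142654722582) (nat_lit 152) (nat_lit 76606136937) (nat_lit 0) (nat_lit 122748532848) (nat_lit 19) (nat_lit 5) (nat_lit 21) (nat_lit 4) (nat_lit 19) (nat_lit 4) (nat_lit 532) (nat_lit 412) (nat_lit 256)) (XT.lf (nat_lit 0) (nat_lit 58039402435) (nat_lit 76) (nat_lit 158787625031) (nat_lit 76) (nat_lit 138880965993) (nat_lit 18) (nat_lit 4) (nat_lit 19) (nat_lit 5) (nat_lit 19) (nat_lit 4) (nat_lit 533) (nat_lit 412) (nat_lit 255)))) (XT.nd (nat_lit 156) (nat_lit 152) (nat_lit 0) (XT.nd (nat_lit 78) (nat_lit 0) (nat_lit 0) (XT.lf (nat_lit 0) (nat_lit 202070324057) (nat_lit 76) (nat_lit 93931798889) (nat_lit 76) (nat_lit 74024692896) (nat_lit 18) (nat_lit 4) (nat_lit 19) (nat_lit 5) (nat_lit 19) (nat_lit 4) (nat_lit 534) (nat_lit 412) (nat_lit 254)) (XT.lf (nat_lit 0) (nat_lit 353296613844) (nat_lit 76) (nat_lit 25836324457) (nat_lit 76) (nat_lit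 5928792793) (nat_lit 18) (nat_lit 4) (nat_lit 19) (nat_lit 5) (nat_lit 19) (nat_lit 4) (nat_lit 535) (nat_lit 412) (nat_lit 253))) (XT.nd (nat_lit 78) (nat_lit 0) (nat_lit 0) (XT.lf (nat_lit 0) (nat_lit 66006588564) (nat_lit 152) (nat_lit 287617297156) (nat_lit 0) (nat_lit 47046648501) (nat_lit 16) (nat_lit 5) (nat_lit 18) (nat_lit 4) (nat_lit 16) (nat_lit 4) (nat_lit 536) (nat_lit 412) (nat_lit 252)) (XT.nd (nat_lit 78) (nat_lit 0) (nat_lit 0) (XT.lf (nat_lit 0) (nat_lit 142306879084) (nat_lit 152) (nat_lit 151353098129) (nat_lit 0) (nat_lit 123346571311) (nat_lit 16) (nat_lit 5) (nat_lit 18) (nat_lit 4) (nat_lit 16) (nat_lit 4) (nat_lit 537) (nat_lit 412) (nat_lit 251)) (XT.lf (nat_lit 0) (nat_lit 222419387464) (nat_lit 152) (nat_lit 8281386426) (nat_lit 0) (nat_lit 203458729489) (nat_lit 16) (nat_lit 5) (nat_lit 18) (nat_lit 4) (nat_lit 16) (nat_lit 4) (nat_lit 538) (nat_lit 412) (nat_lit 250))))))))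
noncomputable def xc245 : XT := (XT.nd (nat_lit 52650) (nat_lit 0) (nat_lit 10488) (XT.nd (nat_lit 624) (nat_lit 228) (nat_lit 0) (XT.nd (nat_lit 312) (nat_lit 76) (nat_lit 0) (XT.nd (nat_lit 156) (nat_lit 152) (nat_lit 0) (XT.nd (nat_lit 78) (nat_lit 0) (nat_lit 0) (XT.lf (nat_lit 0) (nat_lit 146631612207) (nat_lit 76) (nat_lit 162192575963) (nat_lit 76) (nat_lit 143231584464) (nat_lit 15) (nat_lit 4) (nat_lit 16) (nat_lit 5) (nat_lit 16) (nat_lit 4) (nat_lit 539) (nat_lit 412) (nat_lit 249)) (XT.lf (nat_lit 0) (nat_lit 309572433348) (nat_lit 76) (nat_lit 90114424843) (nat_lit 76) (nat_lit 71153115701) (nat_lit 15) (nat_lit 4) (nat_lit 16) (nat_lit 5) (nat_lit 16) (nat_lit 4) (nat_lit 540) (nat_lit 412) (nat_lit 248))) (XT.nd (nat_lit 78) (nat_lit 76) (nat_lit 0) (XT.lf (nat_lit 0) (nat_lit 4381775211) (nat_lit 152) (nat_lit 9978972474) (nat_lit 76) (nat_lit 476199228601) (nat_lit 14) (nat_lit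 5) (nat_lit 16) (nat_lit 5) (nat_lit 15) (nat_lit 4) (nat_lit 541) (nat_lit 412) (nat_lit 247)) (XT.lf (nat_lit 0) (nat_lit 84757874008) (nat_lit 152) (nat_lit 359578076994) (nat_lit 0) (nat_lit 66698921846) (nat_lit 13) (nat_lit 5) (nat_lit 15) (nat_lit 4) (nat_lit 13) (nat_lit 4) (nat_lit 542) (nat_lit 412) (nat_lit 246)))) (XT.nd (nat_lit 156) (nat_lit 76) (nat_lit 0) (XT.nd (nat_lit 78) (nat_lit 0) (nat_lit 0) (XT.lf (nat_lit 0) (nat_lit 169557554551) (nat_lit 152) (nat_lit 211457379786) (nat_lit 0) (nat_lit 151498341064) (nat_lit 13) (nat_lit 5) (nat_lit 15) (nat_lit 4) (nat_lit 13) (nat_lit 4) (nat_lit 543) (nat_lit 412) (nat_lit 245)) (XT.lf (nat_lit 0) (nat_lit 258594919612) (nat_lit 152) (nat_lit 55935336204) (nat_lit 0) (nat_lit 240535457244) (nat_lit 13) (nat_lit 5) (nat_lit 15) (nat_lit 4) (nat_lit 13) (nat_lit 4) (nat_lit 544) (nat_lit 412) (nat_lit 244))) (XT.nd (nat_lit 78) (nat_lit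 0) (nat_lit 0) (XT.lf (nat_lit 0) (nat_lit 110908096039) (nat_lit 76) (nat_lit 242905453077) (nat_lit 76) (nat_lit 224845753679) (nat_lit 12) (nat_lit 4) (nat_lit 13) (nat_lit 5) (nat_lit 13) (nat_lit 4) (nat_lit 545) (nat_lit 412) (nat_lit 243)) (XT.lf (nat_lit 0) (nat_lit 288031255256) (nat_lit 76) (nat_lit 166706992509) (nat_lit 76) (nat_lit 148647067368) (nat_lit 12) (nat_lit 4) (nat_lit 13) (nat_lit 5) (nat_lit 13) (nat_lit 4) (nat_lit 546) (nat_lit 412) (nat_lit 242))))) (XT.nd (nat_lit 312) (nat_lit 76) (nat_lit 0) (XT.nd (nat_lit 156) (nat_lit 0) (nat_lit 0) (XT.nd (nat_lit 78) (nat_lit 152) (nat_lit 0) (XT.lf (nat_lit 0) (nat_lit 474006388428) (nat_lit 76) (nat_lit 86700741192) (nat_lit 76) (nat_lit 68640601058) (nat_lit 12) (nat_lit 4) (nat_lit 13) (nat_lit 5) (nat_lit 13) (nat_lit 4) (nat_lit 547) (nat_lit 412) (nat_lit 241)) (XT.lf (nat_lit 0) (nat_lit 12838979063) (nat_lit 76) (nat_lit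 2233861888) (nat_lit 152) (nat_lit 641513507269) (nat_lit 10) (nat_lit 5) (nat_lit 11) (nat_lit 5) (nat_lit 12) (nat_lit 4) (nat_lit 548) (nat_lit 412) (nat_lit 240))) (XT.nd (nat_lit 78) (nat_lit 0) (nat_lit 0) (XT.lf (nat_lit 0) (nat_lit 104686929790) (nat_lit 152) (nat_lit 492756201007) (nat_lit 0) (nat_lit 87486415605) (nat_lit 10) (nat_lit 5) (nat_lit 12) (nat_lit 4) (nat_lit 10) (nat_lit 4) (nat_lit 549) (nat_lit 412) (nat_lit 239)) (XT.lf (nat_lit 0) (nat_lit 198816452880) (nat_lit 152) (nat_lit 334255953306) (nat_lit 0) (nat_lit 181615761820) (nat_lit 10) (nat_lit 5) (nat_lit 12) (nat_lit 4) (nat_lit 10) (nat_lit 4) (nat_lit 550) (nat_lit 412) (nat_lit 238)))) (XT.nd (nat_lit 156) (nat_lit 0) (nat_lit 0) (XT.nd (nat_lit 78) (nat_lit 76) (nat_lit 0) (XT.lf (nat_lit 0) (nat_lit 297650651288) (nat_lit 152) (nat_lit 167834367668) (nat_lit 0) (nat_lit 280449791775) (nat_lit 10) (nat_lit 5) (nat_lit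 12) (nat_lit 4) (nat_lit 10) (nat_lit 4) (nat_lit 551) (nat_lit 412) (nat_lit 237)) (XT.lf (nat_lit 0) (nat_lit 7133101575) (nat_lit 76) (nat_lit 394403110667) (nat_lit 76) (nat_lit 377202090723) (nat_lit 9) (nat_lit 4) (nat_lit 10) (nat_lit 5) (nat_lit 10) (nat_lit 4) (nat_lit 552) (nat_lit 412) (nat_lit 236))) (XT.nd (nat_lit 78) (nat_lit 0) (nat_lit 0) (XT.lf (nat_lit 0) (nat_lit 196672331514) (nat_lit 76) (nat_lit 316784388789) (nat_lit 76) (nat_lit 299583216054) (nat_lit 9) (nat_lit 4) (nat_lit 10) (nat_lit 5) (nat_lit 10) (nat_lit 4) (nat_lit 553) (nat_lit 412) (nat_lit 235)) (XT.lf (nat_lit 0) (nat_lit 395685243873) (nat_lit 76) (nat_lit 235286403071) (nat_lit 76) (nat_lit 218085084819) (nat_lit 9) (nat_lit 4) (nat_lit 10) (nat_lit 5) (nat_lit 10) (nat_lit 4) (nat_lit 554) (nat_lit 412) (nat_lit 234)))))) (XT.nd (nat_lit 624) (nat_lit 2128) (nat_lit 0) (XT.nd (nat_lit 312) (nat_lit 608)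 (nat_lit 0) (XT.nd (nat_lit 156) (nat_lit 0) (nat_lit 0) (XT.nd (nat_lit 78) (nat_lit 0) (nat_lit 0) (XT.lf (nat_lit 0) (nat_lit 2303234270) (nat_lit 684) (nat_lit 947340656) (nat_lit 684) (nat_lit 947340656) (nat_lit 183) (nat_lit 3) (nat_lit 192) (nat_lit 3) (nat_lit 192) (nat_lit 5) (nat_lit 413) (nat_lit 413) (nat_lit 374)) (XT.lf (nat_lit 76) (nat_lit 2363501693) (nat_lit 0) (nat_lit 3441462280) (nat_lit 684) (nat_lit 2746502776) (nat_lit 184) (nat_lit 5) (nat_lit 183) (nat_lit 3) (nat_lit 192) (nat_lit 5) (nat_lit 414) (nat_lit 413) (nat_lit 373))) (XT.nd (nat_lit 78) (nat_lit 0) (nat_lit 76) (XT.lf (nat_lit 76) (nat_lit 6864040030) (nat_lit 0) (nat_lit 163879463) (nat_lit 684) (nat_lit 1688743839) (nat_lit 184) (nat_lit 5) (nat_lit 183) (nat_lit 3) (nat_lit 192) (nat_lit 5) (nat_lit 415) (nat_lit 413) (nat_lit 372)) (XT.lf (nat_lit 76) (nat_lit 2696323054) (nat_lit 0) (nat_lit 5645098083)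 (nat_lit 684) (nat_lit 547234390) (nat_lit 185) (nat_lit 5) (nat_lit 184) (nat_lit 5) (nat_lit 193) (nat_lit 5) (nat_lit 416) (nat_lit 413) (nat_lit 371)))) (XT.nd (nat_lit 156) (nat_lit 0) (nat_lit 76) (XT.nd (nat_lit 78) (nat_lit 0) (nat_lit 76) (XT.lf (nat_lit 0) (nat_lit 602649366) (nat_lit 684) (nat_lit 1583754478) (nat_lit 760) (nat_lit 6883732883) (nat_lit 175) (nat_lit 5) (nat_lit 184) (nat_lit 5) (nat_lit 185) (nat_lit 5) (nat_lit 417) (nat_lit 413) (nat_lit 370)) (XT.lf (nat_lit 0) (nat_lit 1807825352) (nat_lit 684) (nat_lit 5970012704) (nat_lit 760) (nat_lit 1481600867) (nat_lit 176) (nat_lit 5) (nat_lit 185) (nat_lit 5) (nat_lit 186) (nat_lit 5) (nat_lit 418) (nat_lit 413) (nat_lit 369))) (XT.nd (nat_lit 78) (nat_lit 0) (nat_lit 0) (XT.lf (nat_lit 0) (nat_lit 3079468834) (nat_lit 684) (nat_lit 1072312334) (nat_lit 760) (nat_lit 5306119316) (nat_lit 176) (nat_lit 5) (nat_lit 185) (nat_lit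 5) (nat_lit 186) (nat_lit 5) (nat_lit 419) (nat_lit 413) (nat_lit 368)) (XT.lf (nat_lit 76) (nat_lit 4165091384) (nat_lit 0) (nat_lit 260445821) (nat_lit 760) (nat_lit 5240210250) (nat_lit 177) (nat_lit 5) (nat_lit 176) (nat_lit 5) (nat_lit 186) (nat_lit 5) (nat_lit 420) (nat_lit 413) (nat_lit 367))))) (XT.nd (nat_lit 312) (nat_lit 1596) (nat_lit 0) (XT.nd (nat_lit 156) (nat_lit 684) (nat_lit 0) (XT.nd (nat_lit 78) (nat_lit 0) (nat_lit 0) (XT.lf (nat_lit 0) (nat_lit 5865119610) (nat_lit 684) (nat_lit 282216596) (nat_lit 760) (nat_lit 3735344290) (nat_lit 177) (nat_lit 5) (nat_lit 186) (nat_lit 5) (nat_lit 187) (nat_lit 5) (nat_lit 421) (nat_lit 413) (nat_lit 366)) (XT.lf (nat_lit 76) (nat_lit 5324524149) (nat_lit 0) (nat_lit 2090058940) (nat_lit 760) (nat_lit 2693986055) (nat_lit 178) (nat_lit 5) (nat_lit 177) (nat_lit 5) (nat_lit 187) (nat_lit 5) (nat_lit 422) (nat_lit 413) (nat_lit 365))) (XT.nd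 (nat_lit 78) (nat_lit 76) (nat_lit 0) (XT.lf (nat_lit 0) (nat_lit 827735605) (nat_lit 684) (nat_lit 8217859216) (nat_lit 760) (nat_lit 1299957507) (nat_lit 169) (nat_lit 5) (nat_lit 178) (nat_lit 5) (nat_lit 179) (nat_lit 5) (nat_lit 423) (nat_lit 413) (nat_lit 364)) (XT.lf (nat_lit 0) (nat_lit 228439549) (nat_lit 760) (nat_lit 3783861395) (nat_lit 76) (nat_lit 6578463939) (nat_lit 168) (nat_lit 5) (nat_lit 178) (nat_lit 5) (nat_lit 169) (nat_lit 5) (nat_lit 424) (nat_lit 413) (nat_lit 363)))) (XT.nd (nat_lit 156) (nat_lit 836) (nat_lit 0) (XT.nd (nat_lit 78) (nat_lit 0) (nat_lit 0) (XT.lf (nat_lit 0) (nat_lit 1787486702) (nat_lit 836) (nat_lit 8607116783) (nat_lit 76) (nat_lit 452676508) (nat_lit 158) (nat_lit 5) (nat_lit 169) (nat_lit 5) (nat_lit 159) (nat_lit 5) (nat_lit 425) (nat_lit 413) (nat_lit 362)) (XT.lf (nat_lit 0) (nat_lit 3512487303) (nat_lit 836) (nat_lit 2524658164) (nat_lit 76)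 (nat_lit 5075078511) (nat_lit 158) (nat_lit 5) (nat_lit 169) (nat_lit 5) (nat_lit 159) (nat_lit 5) (nat_lit 426) (nat_lit 413) (nat_lit 361))) (XT.nd (nat_lit 78) (nat_lit 380) (nat_lit 0) (XT.lf (nat_lit 0) (nat_lit 3949108462) (nat_lit 456) (nat_lit 1395422909) (nat_lit 532) (nat_lit 6044847143) (nat_lit 152) (nat_lit 5) (nat_lit 158) (nat_lit 5) (nat_lit 159) (nat_lit 5) (nat_lit 427) (nat_lit 413) (nat_lit 360)) (XT.nd (nat_lit 78) (nat_lit 380) (nat_lit 0) (XT.lf (nat_lit 0) (nat_lit 7326437249) (nat_lit 532) (nat_lit 939619560) (nat_lit 76) (nat_lit 3411423866) (nat_lit 152) (nat_lit 5) (nat_lit 159) (nat_lit 5) (nat_lit 153) (nat_lit 5) (nat_lit 428) (nat_lit 413) (nat_lit 359)) (XT.lf (nat_lit 0) (nat_lit 6017133349) (nat_lit 380) (nat_lit 3469501387) (nat_lit 456) (nat_lit 2489396136) (nat_lit 147) (nat_lit 5) (nat_lit 152) (nat_lit 5) (nat_lit 153) (nat_lit 5) (nat_lit 429) (nat_lit 413)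 (nat_lit 358))))))))
noncomputable def xc246 : XT := (XT.nd (nat_lit 1248) (nat_lit 1976) (nat_lit 0) (XT.nd (nat_lit 624) (nat_lit 1216) (nat_lit 0) (XT.nd (nat_lit 312) (nat_lit 988) (nat_lit 0) (XT.nd (nat_lit 156) (nat_lit 304) (nat_lit 0) (XT.nd (nat_lit 78) (nat_lit 76) (nat_lit 0) (XT.lf (nat_lit 0) (nat_lit 1034192791) (nat_lit 380) (nat_lit 10740982578) (nat_lit 456) (nat_lit 513319156) (nat_lit 142) (nat_lit 5) (nat_lit 147) (nat_lit 5) (nat_lit 148) (nat_lit 5) (nat_lit 430) (nat_lit 413) (nat_lit 357)) (XT.lf (nat_lit 0) (nat_lit 1635122234) (nat_lit 456) (nat_lit 4150993681) (nat_lit 76) (nat_lit 6823071784) (nat_lit 141) (nat_lit 5) (nat_lit 147) (nat_lit 5) (nat_lit 142) (nat_lit 5) (nat_lit 431) (nat_lit 413) (nat_lit 356))) (XT.nd (nat_lit 78) (nat_lit 0) (nat_lit 0) (XT.lf (nat_lit 0) (nat_lit 3368434260) (nat_lit 304) (nat_lit 523693174) (nat_lit 380) (nat_lit 9052449967) (nat_lit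 137) (nat_lit 5) (nat_lit 141) (nat_lit 5) (nat_lit 142) (nat_lit 5) (nat_lit 432) (nat_lit 413) (nat_lit 355)) (XT.lf (nat_lit 0) (nat_lit 6378294472) (nat_lit 380) (nat_lit 2003928995) (nat_lit 76) (nat_lit 4908699692) (nat_lit 137) (nat_lit 5) (nat_lit 142) (nat_lit 5) (nat_lit 138) (nat_lit 5) (nat_lit 433) (nat_lit 413) (nat_lit 354)))) (XT.nd (nat_lit 156) (nat_lit 380) (nat_lit 0) (XT.nd (nat_lit 78) (nat_lit 304) (nat_lit 0) (XT.lf (nat_lit 0) (nat_lit 6095884986) (nat_lit 304) (nat_lit 2964993513) (nat_lit 380) (nat_lit 4590104320) (nat_lit 133) (nat_lit 5) (nat_lit 137) (nat_lit 5) (nat_lit 138) (nat_lit 5) (nat_lit 434) (nat_lit 413) (nat_lit 353)) (XT.lf (nat_lit 0) (nat_lit 580038483) (nat_lit 304) (nat_lit 11352801695) (nat_lit 380) (nat_lit 2093444810) (nat_lit 129) (nat_lit 5) (nat_lit 133) (nat_lit 5) (nat_lit 134) (nat_lit 5) (nat_lit 435) (nat_lit 413) (nat_lit 352))) (XT.nd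 (nat_lit 78) (nat_lit 304) (nat_lit 0) (XT.lf (nat_lit 0) (nat_lit 659368943) (nat_lit 380) (nat_lit 5127432453) (nat_lit 76) (nat_lit 8625729317) (nat_lit 128) (nat_lit 5) (nat_lit 133) (nat_lit 5) (nat_lit 129) (nat_lit 5) (nat_lit 436) (nat_lit 413) (nat_lit 351)) (XT.lf (nat_lit 0) (nat_lit 3509793134) (nat_lit 380) (nat_lit 11164232028) (nat_lit 76) (nat_lit 140833147) (nat_lit 124) (nat_lit 5) (nat_lit 129) (nat_lit 5) (nat_lit 125) (nat_lit 5) (nat_lit 437) (nat_lit 413) (nat_lit 350))))) (XT.nd (nat_lit 312) (nat_lit 608) (nat_lit 0) (XT.nd (nat_lit 156) (nat_lit 380) (nat_lit 0) (XT.nd (nat_lit 78) (nat_lit 228) (nat_lit 0) (XT.lf (nat_lit 0) (nat_lit 6657567092) (nat_lit 380) (nat_lit 2321247665) (nat_lit 76) (nat_lit 6250747702) (nat_lit 124) (nat_lit 5) (nat_lit 129) (nat_lit 5) (nat_lit 125) (nat_lit 5) (nat_lit 438) (nat_lit 413) (nat_lit 349)) (XT.lf (nat_lit 0) (nat_lit 7157151009)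 (nat_lit 228) (nat_lit 2890373236) (nat_lit 304) (nat_lit 5613239375) (nat_lit 121) (nat_lit 5) (nat_lit 124) (nat_lit 5) (nat_lit 125) (nat_lit 5) (nat_lit 439) (nat_lit 413) (nat_lit 348))) (XT.nd (nat_lit 78) (nat_lit 76) (nat_lit 0) (XT.lf (nat_lit 0) (nat_lit 1019395353) (nat_lit 304) (nat_lit 12671782890) (nat_lit 380) (nat_lit 2418138100) (nat_lit 117) (nat_lit 5) (nat_lit 121) (nat_lit 5) (nat_lit 122) (nat_lit 5) (nat_lit 440) (nat_lit 413) (nat_lit 347)) (XT.lf (nat_lit 0) (nat_lit 1074411886) (nat_lit 380) (nat_lit 5360363885) (nat_lit 76) (nat_lit 10136407287) (nat_lit 116) (nat_lit 5) (nat_lit 121) (nat_lit 5) (nat_lit 117) (nat_lit 5) (nat_lit 441) (nat_lit 413) (nat_lit 346)))) (XT.nd (nat_lit 156) (nat_lit 380) (nat_lit 0) (XT.nd (nat_lit 78) (nat_lit 0) (nat_lit 0) (XT.lf (nat_lit 0) (nat_lit 4716135822) (nat_lit 304) (nat_lit 12115904372) (nat_lit 76) (nat_lit 219331503) (nat_lit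 113) (nat_lit 5) (nat_lit 117) (nat_lit 5) (nat_lit 114) (nat_lit 5) (nat_lit 442) (nat_lit 413) (nat_lit 345)) (XT.lf (nat_lit 0) (nat_lit 8713349733) (nat_lit 304) (nat_lit 1761238190) (nat_lit 76) (nat_lit 7072312851) (nat_lit 113) (nat_lit 5) (nat_lit 117) (nat_lit 5) (nat_lit 114) (nat_lit 5) (nat_lit 443) (nat_lit 413) (nat_lit 344))) (XT.nd (nat_lit 78) (nat_lit 152) (nat_lit 0) (XT.lf (nat_lit 0) (nat_lit 9377567807) (nat_lit 228) (nat_lit 3656073400) (nat_lit 304) (nat_lit 5027405396) (nat_lit 110) (nat_lit 5) (nat_lit 113) (nat_lit 5) (nat_lit 114) (nat_lit 5) (nat_lit 444) (nat_lit 413) (nat_lit 343)) (XT.lf (nat_lit 0) (nat_lit 2526575484) (nat_lit 152) (nat_lit 15145060237) (nat_lit 228) (nat_lit 924180664) (nat_lit 108) (nat_lit 5) (nat_lit 110) (nat_lit 5) (nat_lit 111) (nat_lit 5) (nat_lit 445) (nat_lit 413) (nat_lit 342)))))) (XT.nd (nat_lit 624) (nat_lit 912) (nat_lit 0) (XT.nd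 (nat_lit 312) (nat_lit 608) (nat_lit 0) (XT.nd (nat_lit 156) (nat_lit 152) (nat_lit 0) (XT.nd (nat_lit 78) (nat_lit 228) (nat_lit 0) (XT.lf (nat_lit 0) (nat_lit 3462717294) (nat_lit 228) (nat_lit 4700904739) (nat_lit 76) (nat_lit 10981720375) (nat_lit 107) (nat_lit 5) (nat_lit 110) (nat_lit 5) (nat_lit 108) (nat_lit 5) (nat_lit 446) (nat_lit 413) (nat_lit 341)) (XT.lf (nat_lit 0) (nat_lit 7425647761) (nat_lit 228) (nat_lit 706686505) (nat_lit 304) (nat_lit 11584532246) (nat_lit 104) (nat_lit 5) (nat_lit 107) (nat_lit 5) (nat_lit 108) (nat_lit 5) (nat_lit 447) (nat_lit 413) (nat_lit 340))) (XT.nd (nat_lit 78) (nat_lit 152) (nat_lit 0) (XT.lf (nat_lit 0) (nat_lit 13206404636) (nat_lit 304) (nat_lit 136834472) (nat_lit 76) (nat_lit 6965179981) (nat_lit 104) (nat_lit 5) (nat_lit 108) (nat_lit 5) (nat_lit 105) (nat_lit 5) (nat_lit 448) (nat_lit 413) (nat_lit 339)) (XT.lf (nat_lit 0) (nat_lit 12998218317)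 (nat_lit 152) (nat_lit 5730335128) (nat_lit 228) (nat_lit 2191277952) (nat_lit 102) (nat_lit 5) (nat_lit 104) (nat_lit 5) (nat_lit 105) (nat_lit 5) (nat_lit 449) (nat_lit 413) (nat_lit 338)))) (XT.nd (nat_lit 156) (nat_lit 304) (nat_lit 0) (XT.nd (nat_lit 78) (nat_lit 0) (nat_lit 0) (XT.lf (nat_lit 0) (nat_lit 2972916719) (nat_lit 304) (nat_lit 16267985945) (nat_lit 76) (nat_lit 2313456846) (nat_lit 98) (nat_lit 5) (nat_lit 102) (nat_lit 5) (nat_lit 99) (nat_lit 5) (nat_lit 450) (nat_lit 413) (nat_lit 337)) (XT.lf (nat_lit 0) (nat_lit 8532264071) (nat_lit 304) (nat_lit 2948117519) (nat_lit 76) (nat_lit 10727907834) (nat_lit 98) (nat_lit 5) (nat_lit 102) (nat_lit 5) (nat_lit 99) (nat_lit 5) (nat_lit 451) (nat_lit 413) (nat_lit 336))) (XT.nd (nat_lit 78) (nat_lit 152) (nat_lit 0) (XT.lf (nat_lit 0) (nat_lit 11371287422) (nat_lit 152) (nat_lit 3157056366) (nat_lit 228) (nat_lit 8358634494) (nat_lit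 96) (nat_lit 5) (nat_lit 98) (nat_lit 5) (nat_lit 99) (nat_lit 5) (nat_lit 452) (nat_lit 413) (nat_lit 335)) (XT.lf (nat_lit 0) (nat_lit 2885635901) (nat_lit 152) (nat_lit 18103021667) (nat_lit 228) (nat_lit 2602723177) (nat_lit 94) (nat_lit 5) (nat_lit 96) (nat_lit 5) (nat_lit 97) (nat_lit 5) (nat_lit 453) (nat_lit 413) (nat_lit 334))))) (XT.nd (nat_lit 312) (nat_lit 532) (nat_lit 0) (XT.nd (nat_lit 156) (nat_lit 152) (nat_lit 0) (XT.nd (nat_lit 78) (nat_lit 152) (nat_lit 0) (XT.lf (nat_lit 0) (nat_lit 3562413864) (nat_lit 228) (nat_lit 6053870778) (nat_lit 76) (nat_lit 14700454967) (nat_lit 93) (nat_lit 5) (nat_lit 96) (nat_lit 5) (nat_lit 94) (nat_lit 5) (nat_lit 454) (nat_lit 413) (nat_lit 333)) (XT.lf (nat_lit 0) (nat_lit 9564755705) (nat_lit 152) (nat_lit 515380126) (nat_lit 228) (nat_lit 14989507950) (nat_lit 91) (nat_lit 5) (nat_lit 93) (nat_lit 5) (nat_lit 94) (nat_lit 5) (nat_lit 455)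 (nat_lit 413) (nat_lit 332))) (XT.nd (nat_lit 78) (nat_lit 0) (nat_lit 0) (XT.lf (nat_lit 0) (nat_lit 151948618) (nat_lit 152) (nat_lit 17002188719) (nat_lit 228) (nat_lit 8694536699) (nat_lit 89) (nat_lit 5) (nat_lit 91) (nat_lit 5) (nat_lit 92) (nat_lit 5) (nat_lit 456) (nat_lit 413) (nat_lit 331)) (XT.lf (nat_lit 0) (nat_lit 17092160930) (nat_lit 152) (nat_lit 7743611972) (nat_lit 228) (nat_lit 1818186726) (nat_lit 89) (nat_lit 5) (nat_lit 91) (nat_lit 5) (nat_lit 92) (nat_lit 5) (nat_lit 457) (nat_lit 413) (nat_lit 330)))) (XT.nd (nat_lit 156) (nat_lit 304) (nat_lit 0) (XT.nd (nat_lit 78) (nat_lit 0) (nat_lit 0) (XT.lf (nat_lit 0) (nat_lit 5363880619) (nat_lit 228) (nat_lit 20016622129) (nat_lit 76) (nat_lit 2108050373) (nat_lit 86) (nat_lit 5) (nat_lit 89) (nat_lit 5) (nat_lit 87) (nat_lit 5) (nat_lit 458) (nat_lit 413) (nat_lit 329)) (XT.lf (nat_lit 0) (nat_lit 13119228737) (nat_lit 228)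 (nat_lit 2855234429) (nat_lit 76) (nat_lit 12375159235) (nat_lit 86) (nat_lit 5) (nat_lit 89) (nat_lit 5) (nat_lit 87) (nat_lit 5) (nat_lit 459) (nat_lit 413) (nat_lit 328))) (XT.nd (nat_lit 78) (nat_lit 152) (nat_lit 0) (XT.lf (nat_lit 0) (nat_lit 15637717164) (nat_lit 152) (nat_lit 5853297214) (nat_lit 228) (nat_lit 7751297691) (nat_lit 84) (nat_lit 5) (nat_lit 86) (nat_lit 5) (nat_lit 87) (nat_lit 5) (nat_lit 460) (nat_lit 413) (nat_lit 327)) (XT.nd (nat_lit 78) (nat_lit 0) (nat_lit 0) (XT.lf (nat_lit 0) (nat_lit 288533250) (nat_lit 152) (nat_lit 25139017087) (nat_lit 76) (nat_lit 4742504995) (nat_lit 82) (nat_lit 5) (nat_lit 84) (nat_lit 5) (nat_lit 83) (nat_lit 5) (nat_lit 461) (nat_lit 413) (nat_lit 326)) (XT.lf (nat_lit 0) (nat_lit 8784726350) (nat_lit 152) (nat_lit 6315916707) (nat_lit 76) (nat_lit 16021446298) (nat_lit 82) (nat_lit 5) (nat_lit 84) (nat_lit 5) (nat_lit 83) (nat_lit 5) (nat_lit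 462) (nat_lit 413) (nat_lit 325))))))))
noncomputable def xc247 : XT := (XT.nd (nat_lit 1248) (nat_lit 1216) (nat_lit 0) (XT.nd (nat_lit 624) (nat_lit 608) (nat_lit 0) (XT.nd (nat_lit 312) (nat_lit 304) (nat_lit 0) (XT.nd (nat_lit 156) (nat_lit 228) (nat_lit 0) (XT.nd (nat_lit 78) (nat_lit 76) (nat_lit 0) (XT.lf (nat_lit 0) (nat_lit 13866218924) (nat_lit 152) (nat_lit 4041459666) (nat_lit 228) (nat_lit 14203949368) (nat_lit 80) (nat_lit 5) (nat_lit 82) (nat_lit 5) (nat_lit 83) (nat_lit 5) (nat_lit 463) (nat_lit 413) (nat_lit 324)) (XT.lf (nat_lit 0) (nat_lit 2051090923) (nat_lit 76) (nat_lit 25680204307) (nat_lit 152) (nat_lit 5407122758) (nat_lit 79) (nat_lit 5) (nat_lit 80) (nat_lit 5) (nat_lit 81) (nat_lit 4) (nat_lit 464) (nat_lit 413) (nat_lit 323))) (XT.nd (nat_lit 78) (nat_lit 152) (nat_lit 0) (XT.lf (nat_lit 0) (nat_lit 4072921595) (nat_lit 152) (nat_lit 10362450756) (nat_lit 76) (nat_lit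 19759888689) (nat_lit 78) (nat_lit 5) (nat_lit 80) (nat_lit 5) (nat_lit 79) (nat_lit 5) (nat_lit 465) (nat_lit 413) (nat_lit 322)) (XT.lf (nat_lit 0) (nat_lit 11658310172) (nat_lit 152) (nat_lit 2355278315) (nat_lit 228) (nat_lit 21278509224) (nat_lit 76) (nat_lit 5) (nat_lit 78) (nat_lit 5) (nat_lit 79) (nat_lit 5) (nat_lit 466) (nat_lit 413) (nat_lit 321)))) (XT.nd (nat_lit 156) (nat_lit 228) (nat_lit 0) (XT.nd (nat_lit 78) (nat_lit 76) (nat_lit 0) (XT.lf (nat_lit 0) (nat_lit 24777334217) (nat_lit 228) (nat_lit 1484224538) (nat_lit 76) (nat_lit 10165915464) (nat_lit 76) (nat_lit 5) (nat_lit 79) (nat_lit 5) (nat_lit 77) (nat_lit 4) (nat_lit 467) (nat_lit 413) (nat_lit 320)) (XT.lf (nat_lit 0) (nat_lit 22428284723) (nat_lit 76) (nat_lit 14026822584) (nat_lit 152) (nat_lit 1145720505) (nat_lit 75) (nat_lit 5) (nat_lit 76) (nat_lit 5) (nat_lit 77) (nat_lit 4) (nat_lit 468) (nat_lit 413) (nat_lit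 319))) (XT.nd (nat_lit 78) (nat_lit 0) (nat_lit 0) (XT.lf (nat_lit 0) (nat_lit 8861440484) (nat_lit 152) (nat_lit 857135787) (nat_lit 228) (nat_lit 29099007095) (nat_lit 72) (nat_lit 5) (nat_lit 74) (nat_lit 5) (nat_lit 75) (nat_lit 5) (nat_lit 469) (nat_lit 413) (nat_lit 318)) (XT.lf (nat_lit 0) (nat_lit 21538448654) (nat_lit 228) (nat_lit 5707847830) (nat_lit 76) (nat_lit 12825398100) (nat_lit 72) (nat_lit 5) (nat_lit 75) (nat_lit 5) (nat_lit 73) (nat_lit 4) (nat_lit 470) (nat_lit 413) (nat_lit 317))))) (XT.nd (nat_lit 312) (nat_lit 228) (nat_lit 0) (XT.nd (nat_lit 156) (nat_lit 76) (nat_lit 0) (XT.nd (nat_lit 78) (nat_lit 228) (nat_lit 0) (XT.lf (nat_lit 0) (nat_lit 20367960463) (nat_lit 76) (nat_lit 13901200401) (nat_lit 152) (nat_lit 7103358408) (nat_lit 71) (nat_lit 5) (nat_lit 72) (nat_lit 5) (nat_lit 73) (nat_lit 4) (nat_lit 471) (nat_lit 413) (nat_lit 316)) (XT.lf (nat_lit 0) (nat_lit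 4915561239) (nat_lit 228) (nat_lit 37451591079) (nat_lit 76) (nat_lit 358694223) (nat_lit 68) (nat_lit 5) (nat_lit 71) (nat_lit 5) (nat_lit 69) (nat_lit 4) (nat_lit 472) (nat_lit 413) (nat_lit 315))) (XT.nd (nat_lit 78) (nat_lit 76) (nat_lit 0) (XT.lf (nat_lit 0) (nat_lit 17874044889) (nat_lit 228) (nat_lit 10905835100) (nat_lit 76) (nat_lit 15332271076) (nat_lit 68) (nat_lit 5) (nat_lit 71) (nat_lit 5) (nat_lit 69) (nat_lit 4) (nat_lit 473) (nat_lit 413) (nat_lit 314)) (XT.lf (nat_lit 0) (nat_lit 17505736030) (nat_lit 76) (nat_lit 14236501746) (nat_lit 152) (nat_lit 13812443965) (nat_lit 67) (nat_lit 5) (nat_lit 68) (nat_lit 5) (nat_lit 69) (nat_lit 4) (nat_lit 474) (nat_lit 413) (nat_lit 313)))) (XT.nd (nat_lit 156) (nat_lit 76) (nat_lit 0) (XT.nd (nat_lit 78) (nat_lit 76) (nat_lit 0) (XT.lf (nat_lit 0) (nat_lit 635761061) (nat_lit 76) (nat_lit 45870401393) (nat_lit 76) (nat_lit 553060558) (nat_lit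 66) (nat_lit 4) (nat_lit 67) (nat_lit 5) (nat_lit 67) (nat_lit 4) (nat_lit 475) (nat_lit 413) (nat_lit 312)) (XT.lf (nat_lit 0) (nat_lit 13646140867) (nat_lit 152) (nat_lit 17358494883) (nat_lit 76) (nat_lit 17588681662) (nat_lit 65) (nat_lit 5) (nat_lit 67) (nat_lit 5) (nat_lit 66) (nat_lit 4) (nat_lit 476) (nat_lit 413) (nat_lit 311))) (XT.nd (nat_lit 78) (nat_lit 0) (nat_lit 0) (XT.lf (nat_lit 0) (nat_lit 13563977145) (nat_lit 76) (nat_lit 15173610159) (nat_lit 152) (nat_lit 21456032477) (nat_lit 64) (nat_lit 5) (nat_lit 65) (nat_lit 5) (nat_lit 66) (nat_lit 4) (nat_lit 477) (nat_lit 413) (nat_lit 310)) (XT.lf (nat_lit 0) (nat_lit 44894168808) (nat_lit 152) (nat_lit 5272315496) (nat_lit 0) (nat_lit 1691924965) (nat_lit 64) (nat_lit 5) (nat_lit 66) (nat_lit 4) (nat_lit 64) (nat_lit 4) (nat_lit 478) (nat_lit 413) (nat_lit 309)))))) (XT.nd (nat_lit 624) (nat_lit 608) (nat_lit 0) (XT.nd (nat_lit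 312) (nat_lit 228) (nat_lit 0) (XT.nd (nat_lit 156) (nat_lit 152) (nat_lit 0) (XT.nd (nat_lit 78) (nat_lit 76) (nat_lit 0) (XT.lf (nat_lit 0) (nat_lit 8679262860) (nat_lit 152) (nat_lit 25422706640) (nat_lit 76) (nat_lit 19463464818) (nat_lit 62) (nat_lit 5) (nat_lit 64) (nat_lit 5) (nat_lit 63) (nat_lit 4) (nat_lit 479) (nat_lit 413) (nat_lit 308)) (XT.lf (nat_lit 0) (nat_lit 8184664994) (nat_lit 76) (nat_lit 16894454720) (nat_lit 152) (nat_lit 30262571508) (nat_lit 61) (nat_lit 5) (nat_lit 62) (nat_lit 5) (nat_lit 63) (nat_lit 4) (nat_lit 480) (nat_lit 413) (nat_lit 307))) (XT.nd (nat_lit 78) (nat_lit 152) (nat_lit 0) (XT.lf (nat_lit 0) (nat_lit 42744616522) (nat_lit 152) (nat_lit 12875510410) (nat_lit 0) (nat_lit 1564351798) (nat_lit 61) (nat_lit 5) (nat_lit 63) (nat_lit 4) (nat_lit 61) (nat_lit 4) (nat_lit 481) (nat_lit 413) (nat_lit 306)) (XT.lf (nat_lit 0) (nat_lit 2750117854) (nat_lit 152)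 (nat_lit 35553178486) (nat_lit 76) (nat_lit 20782126464) (nat_lit 59) (nat_lit 5) (nat_lit 61) (nat_lit 5) (nat_lit 60) (nat_lit 4) (nat_lit 482) (nat_lit 413) (nat_lit 305)))) (XT.nd (nat_lit 156) (nat_lit 152) (nat_lit 0) (XT.nd (nat_lit 78) (nat_lit 0) (nat_lit 0) (XT.lf (nat_lit 0) (nat_lit 906617076) (nat_lit 76) (nat_lit 19633717133) (nat_lit 152) (nat_lit 40517943452) (nat_lit 58) (nat_lit 5) (nat_lit 59) (nat_lit 5) (nat_lit 60) (nat_lit 4) (nat_lit 483) (nat_lit 413) (nat_lit 304)) (XT.lf (nat_lit 0) (nat_lit 39821824233) (nat_lit 152) (nat_lit 22704355683) (nat_lit 0) (nat_lit 573507297) (nat_lit 58) (nat_lit 5) (nat_lit 60) (nat_lit 4) (nat_lit 58) (nat_lit 4) (nat_lit 484) (nat_lit 413) (nat_lit 303))) (XT.nd (nat_lit 78) (nat_lit 76) (nat_lit 0) (XT.lf (nat_lit 0) (nat_lit 16813469670) (nat_lit 76) (nat_lit 43829013047) (nat_lit 76) (nat_lit 4571929917) (nat_lit 57) (nat_lit 4) (nat_lit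 58) (nat_lit 5) (nat_lit 58) (nat_lit 4) (nat_lit 485) (nat_lit 413) (nat_lit 302)) (XT.lf (nat_lit 0) (nat_lit 14968539083) (nat_lit 152) (nat_lit 8579926766) (nat_lit 76) (nat_lit 43855567312) (nat_lit 56) (nat_lit 5) (nat_lit 58) (nat_lit 5) (nat_lit 57) (nat_lit 4) (nat_lit 486) (nat_lit 413) (nat_lit 301))))) (XT.nd (nat_lit 312) (nat_lit 304) (nat_lit 0) (XT.nd (nat_lit 156) (nat_lit 152) (nat_lit 0) (XT.nd (nat_lit 78) (nat_lit 76) (nat_lit 0) (XT.lf (nat_lit 0) (nat_lit 34235678744) (nat_lit 76) (nat_lit 1622400196) (nat_lit 152) (nat_lit 33815023655) (nat_lit 55) (nat_lit 5) (nat_lit 56) (nat_lit 5) (nat_lit 57) (nat_lit 4) (nat_lit 487) (nat_lit 413) (nat_lit 300)) (XT.lf (nat_lit 0) (nat_lit 7322146581) (nat_lit 76) (nat_lit 51057273369) (nat_lit 76) (nat_lit 13646839415) (nat_lit 54) (nat_lit 4) (nat_lit 55) (nat_lit 5) (nat_lit 55) (nat_lit 4) (nat_lit 488) (nat_lit 413) (nat_lit 299)))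 (XT.nd (nat_lit 78) (nat_lit 76) (nat_lit 0) (XT.lf (nat_lit 0) (nat_lit 7916555705) (nat_lit 152) (nat_lit 21188363300) (nat_lit 76) (nat_lit 45354886970) (nat_lit 53) (nat_lit 5) (nat_lit 55) (nat_lit 5) (nat_lit 54) (nat_lit 4) (nat_lit 489) (nat_lit 413) (nat_lit 298)) (XT.lf (nat_lit 0) (nat_lit 25065218625) (nat_lit 76) (nat_lit 5417250931) (nat_lit 152) (nat_lit 46502225874) (nat_lit 52) (nat_lit 5) (nat_lit 53) (nat_lit 5) (nat_lit 54) (nat_lit 4) (nat_lit 490) (nat_lit 413) (nat_lit 297)))) (XT.nd (nat_lit 156) (nat_lit 228) (nat_lit 0) (XT.nd (nat_lit 78) (nat_lit 76) (nat_lit 0) (XT.lf (nat_lit 0) (nat_lit 54836795183) (nat_lit 152) (nat_lit 5576922712) (nat_lit 0) (nat_lit 19189105720) (nat_lit 52) (nat_lit 5) (nat_lit 54) (nat_lit 4) (nat_lit 52) (nat_lit 4) (nat_lit 491) (nat_lit 413) (nat_lit 296)) (XT.lf (nat_lit 0) (nat_lit 44399291652) (nat_lit 76) (nat_lit 36783602009) (nat_lit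 76) (nat_lit 1130261779) (nat_lit 51) (nat_lit 4) (nat_lit 52) (nat_lit 5) (nat_lit 52) (nat_lit 4) (nat_lit 492) (nat_lit 413) (nat_lit 295))) (XT.nd (nat_lit 78) (nat_lit 76) (nat_lit 0) (XT.lf (nat_lit 0) (nat_lit 11907676337) (nat_lit 76) (nat_lit 11295444760) (nat_lit 152) (nat_lit 61923693099) (nat_lit 49) (nat_lit 5) (nat_lit 50) (nat_lit 5) (nat_lit 51) (nat_lit 4) (nat_lit 493) (nat_lit 413) (nat_lit 294)) (XT.nd (nat_lit 78) (nat_lit 76) (nat_lit 0) (XT.lf (nat_lit 0) (nat_lit 49601367304) (nat_lit 152) (nat_lit 22798754851) (nat_lit 0) (nat_lit 15635798422) (nat_lit 49) (nat_lit 5) (nat_lit 51) (nat_lit 4) (nat_lit 49) (nat_lit 4) (nat_lit 494) (nat_lit 413) (nat_lit 293)) (XT.lf (nat_lit 0) (nat_lit 30932518799) (nat_lit 76) (nat_lit 47047576418) (nat_lit 76) (nat_lit 13077358637) (nat_lit 48) (nat_lit 4) (nat_lit 49) (nat_lit 5) (nat_lit 49) (nat_lit 4) (nat_lit 495) (nat_lit 413)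 (nat_lit 292))))))))
noncomputable def xc248 : XT := (XT.nd (nat_lit 1248) (nat_lit 912) (nat_lit 0) (XT.nd (nat_lit 624) (nat_lit 456) (nat_lit 0) (XT.nd (nat_lit 312) (nat_lit 304) (nat_lit 0) (XT.nd (nat_lit 156) (nat_lit 152) (nat_lit 0) (XT.nd (nat_lit 78) (nat_lit 76) (nat_lit 0) (XT.lf (nat_lit 0) (nat_lit 13498984704) (nat_lit 152) (nat_lit 6301726660) (nat_lit 76) (nat_lit 74399531607) (nat_lit 47) (nat_lit 5) (nat_lit 49) (nat_lit 5) (nat_lit 48) (nat_lit 4) (nat_lit 496) (nat_lit 413) (nat_lit 291)) (XT.lf (nat_lit 0) (nat_lit 41917819694) (nat_lit 152) (nat_lit 45966976025) (nat_lit 0) (nat_lit 9556998747) (nat_lit 46) (nat_lit 5) (nat_lit 48) (nat_lit 4) (nat_lit 46) (nat_lit 4) (nat_lit 497) (nat_lit 413) (nat_lit 290))) (XT.nd (nat_lit 78) (nat_lit 76) (nat_lit 0) (XT.lf (nat_lit 0) (nat_lit 11547839173) (nat_lit 76) (nat_lit 60815959938) (nat_lit 76) (nat_lit 28451314330) (nat_lit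 45) (nat_lit 4) (nat_lit 46) (nat_lit 5) (nat_lit 46) (nat_lit 4) (nat_lit 498) (nat_lit 413) (nat_lit 289)) (XT.lf (nat_lit 0) (nat_lit 759855250) (nat_lit 152) (nat_lit 30810584879) (nat_lit 76) (nat_lit 72747474038) (nat_lit 44) (nat_lit 5) (nat_lit 46) (nat_lit 5) (nat_lit 45) (nat_lit 4) (nat_lit 499) (nat_lit 413) (nat_lit 288)))) (XT.nd (nat_lit 156) (nat_lit 228) (nat_lit 0) (XT.nd (nat_lit 78) (nat_lit 0) (nat_lit 0) (XT.lf (nat_lit 0) (nat_lit 30955946274) (nat_lit 152) (nat_lit 76866860958) (nat_lit 0) (nat_lit 125701298) (nat_lit 43) (nat_lit 5) (nat_lit 45) (nat_lit 4) (nat_lit 43) (nat_lit 4) (nat_lit 500) (nat_lit 413) (nat_lit 287)) (XT.lf (nat_lit 0) (nat_lit 63702928409) (nat_lit 152) (nat_lit 15136113032) (nat_lit 0) (nat_lit 32869536875) (nat_lit 43) (nat_lit 5) (nat_lit 45) (nat_lit 4) (nat_lit 43) (nat_lit 4) (nat_lit 501) (nat_lit 413) (nat_lit 286))) (XT.nd (nat_lit 78)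 (nat_lit 152) (nat_lit 0) (XT.lf (nat_lit 0) (nat_lit 51310442664) (nat_lit 76) (nat_lit 47571433201) (nat_lit 76) (nat_lit 16735044945) (nat_lit 42) (nat_lit 4) (nat_lit 43) (nat_lit 5) (nat_lit 43) (nat_lit 4) (nat_lit 502) (nat_lit 413) (nat_lit 285)) (XT.lf (nat_lit 0) (nat_lit 1682253649) (nat_lit 76) (nat_lit 14181890705) (nat_lit 152) (nat_lit 103829952231) (nat_lit 40) (nat_lit 5) (nat_lit 41) (nat_lit 5) (nat_lit 42) (nat_lit 4) (nat_lit 503) (nat_lit 413) (nat_lit 284))))) (XT.nd (nat_lit 312) (nat_lit 228) (nat_lit 0) (XT.nd (nat_lit 156) (nat_lit 152) (nat_lit 0) (XT.nd (nat_lit 78) (nat_lit 76) (nat_lit 0) (XT.lf (nat_lit 0) (nat_lit 50957281242) (nat_lit 152) (nat_lit 51348827287) (nat_lit 0) (nat_lit 21583985629) (nat_lit 40) (nat_lit 5) (nat_lit 42) (nat_lit 4) (nat_lit 40) (nat_lit 4) (nat_lit 504) (nat_lit 413) (nat_lit 283)) (XT.lf (nat_lit 0) (nat_lit 19010938855) (nat_lit 76)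 (nat_lit 69317278346) (nat_lit 76) (nat_lit 39941517322) (nat_lit 39) (nat_lit 4) (nat_lit 40) (nat_lit 5) (nat_lit 40) (nat_lit 4) (nat_lit 505) (nat_lit 413) (nat_lit 282))) (XT.nd (nat_lit 78) (nat_lit 152) (nat_lit 0) (XT.lf (nat_lit 0) (nat_lit 94659229256) (nat_lit 76) (nat_lit 33772029387) (nat_lit 76) (nat_lit 4393920353) (nat_lit 39) (nat_lit 4) (nat_lit 40) (nat_lit 5) (nat_lit 40) (nat_lit 4) (nat_lit 506) (nat_lit 413) (nat_lit 281)) (XT.lf (nat_lit 0) (nat_lit 32524397421) (nat_lit 152) (nat_lit 100482807724) (nat_lit 0) (nat_lit 4543116245) (nat_lit 37) (nat_lit 5) (nat_lit 39) (nat_lit 4) (nat_lit 37) (nat_lit 4) (nat_lit 507) (nat_lit 413) (nat_lit 280)))) (XT.nd (nat_lit 156) (nat_lit 152) (nat_lit 0) (XT.nd (nat_lit 78) (nat_lit 76) (nat_lit 0) (XT.lf (nat_lit 0) (nat_lit 72345703571) (nat_lit 152) (nat_lit 25739784832) (nat_lit 0) (nat_lit 44362394096) (nat_lit 37) (nat_lit 5)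 (nat_lit 39) (nat_lit 4) (nat_lit 37) (nat_lit 4) (nat_lit 508) (nat_lit 413) (nat_lit 279)) (XT.lf (nat_lit 0) (nat_lit 54472614626) (nat_lit 76) (nat_lit 60530351837) (nat_lit 76) (nat_lit 32545110648) (nat_lit 36) (nat_lit 4) (nat_lit 37) (nat_lit 5) (nat_lit 37) (nat_lit 4) (nat_lit 509) (nat_lit 413) (nat_lit 278))) (XT.nd (nat_lit 78) (nat_lit 76) (nat_lit 0) (XT.lf (nat_lit 0) (nat_lit 7106780268) (nat_lit 152) (nat_lit 13418181366) (nat_lit 76) (nat_lit 132351067065) (nat_lit 35) (nat_lit 5) (nat_lit 37) (nat_lit 5) (nat_lit 36) (nat_lit 4) (nat_lit 510) (nat_lit 413) (nat_lit 277)) (XT.lf (nat_lit 0) (nat_lit 49128520316) (nat_lit 152) (nat_lit 86768643211) (nat_lit 0) (nat_lit 22472488851) (nat_lit 34) (nat_lit 5) (nat_lit 36) (nat_lit 4) (nat_lit 34) (nat_lit 4) (nat_lit 511) (nat_lit 413) (nat_lit 276)))))) (XT.nd (nat_lit 624) (nat_lit 456) (nat_lit 0) (XT.nd (nat_lit 312) (nat_lit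 228) (nat_lit 0) (XT.nd (nat_lit 156) (nat_lit 152) (nat_lit 0) (XT.nd (nat_lit 78) (nat_lit 76) (nat_lit 0) (XT.lf (nat_lit 0) (nat_lit 93813486159) (nat_lit 152) (nat_lit 3140498690) (nat_lit 0) (nat_lit 67155865468) (nat_lit 34) (nat_lit 5) (nat_lit 36) (nat_lit 4) (nat_lit 34) (nat_lit 4) (nat_lit 512) (nat_lit 413) (nat_lit 275)) (XT.lf (nat_lit 0) (nat_lit 87458055374) (nat_lit 76) (nat_lit 54635058186) (nat_lit 76) (nat_lit 27975923946) (nat_lit 33) (nat_lit 4) (nat_lit 34) (nat_lit 5) (nat_lit 34) (nat_lit 4) (nat_lit 513) (nat_lit 413) (nat_lit 274))) (XT.nd (nat_lit 78) (nat_lit 0) (nat_lit 0) (XT.lf (nat_lit 0) (nat_lit 6305797184) (nat_lit 76) (nat_lit 9775360327) (nat_lit 152) (nat_lit 160224803837) (nat_lit 31) (nat_lit 5) (nat_lit 32) (nat_lit 5) (nat_lit 33) (nat_lit 4) (nat_lit 514) (nat_lit 413) (nat_lit 273)) (XT.lf (nat_lit 0) (nat_lit 63400649809) (nat_lit 152) (nat_lit 81322846080)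 (nat_lit 0) (nat_lit 38008317859) (nat_lit 31) (nat_lit 5) (nat_lit 33) (nat_lit 4) (nat_lit 31) (nat_lit 4) (nat_lit 515) (nat_lit 413) (nat_lit 272)))) (XT.nd (nat_lit 156) (nat_lit 152) (nat_lit 0) (XT.nd (nat_lit 78) (nat_lit 0) (nat_lit 0) (XT.lf (nat_lit 0) (nat_lit 12002519199) (nat_lit 76) (nat_lit 101426437369) (nat_lit 76) (nat_lit 76032860219) (nat_lit 30) (nat_lit 4) (nat_lit 31) (nat_lit 5) (nat_lit 31) (nat_lit 4) (nat_lit 516) (nat_lit 413) (nat_lit 271)) (XT.lf (nat_lit 0) (nat_lit 112807932671) (nat_lit 76) (nat_lit 54523262281) (nat_lit 76) (nat_lit 29128499226) (nat_lit 30) (nat_lit 4) (nat_lit 31) (nat_lit 5) (nat_lit 31) (nat_lit 4) (nat_lit 517) (nat_lit 413) (nat_lit 270))) (XT.nd (nat_lit 78) (nat_lit 0) (nat_lit 0) (XT.lf (nat_lit 0) (nat_lit 15002931015) (nat_lit 76) (nat_lit 4703812157) (nat_lit 152) (nat_lit 184073531777) (nat_lit 28) (nat_lit 5) (nat_lit 29) (nat_lit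 5) (nat_lit 30) (nat_lit 4) (nat_lit 518) (nat_lit 413) (nat_lit 269)) (XT.lf (nat_lit 0) (nat_lit 72183448386) (nat_lit 152) (nat_lit 91154770416) (nat_lit 0) (nat_lit 47995859682) (nat_lit 28) (nat_lit 5) (nat_lit 30) (nat_lit 4) (nat_lit 28) (nat_lit 4) (nat_lit 519) (nat_lit 413) (nat_lit 268))))) (XT.nd (nat_lit 312) (nat_lit 228) (nat_lit 0) (XT.nd (nat_lit 156) (nat_lit 152) (nat_lit 0) (XT.nd (nat_lit 78) (nat_lit 0) (nat_lit 0) (XT.lf (nat_lit 0) (nat_lit 11635401870) (nat_lit 76) (nat_lit 115903006847) (nat_lit 76) (nat_lit 91714442497) (nat_lit 27) (nat_lit 4) (nat_lit 28) (nat_lit 5) (nat_lit 28) (nat_lit 4) (nat_lit 520) (nat_lit 413) (nat_lit 267)) (XT.lf (nat_lit 0) (nat_lit 122721089129) (nat_lit 76) (nat_lit 64479496779) (nat_lit 76) (nat_lit 40290003241) (nat_lit 27) (nat_lit 4) (nat_lit 28) (nat_lit 5) (nat_lit 28) (nat_lit 4) (nat_lit 521) (nat_lit 413) (nat_lit 266))) (XT.nd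 (nat_lit 78) (nat_lit 0) (nat_lit 0) (XT.lf (nat_lit 0) (nat_lit 3097600527) (nat_lit 76) (nat_lit 10213608743) (nat_lit 152) (nat_lit 222816094634) (nat_lit 25) (nat_lit 5) (nat_lit 26) (nat_lit 5) (nat_lit 27) (nat_lit 4) (nat_lit 522) (nat_lit 413) (nat_lit 265)) (XT.lf (nat_lit 0) (nat_lit 70767883678) (nat_lit 152) (nat_lit 126539850340) (nat_lit 0) (nat_lit 47728625317) (nat_lit 25) (nat_lit 5) (nat_lit 27) (nat_lit 4) (nat_lit 25) (nat_lit 4) (nat_lit 523) (nat_lit 413) (nat_lit 264)))) (XT.nd (nat_lit 156) (nat_lit 152) (nat_lit 0) (XT.nd (nat_lit 78) (nat_lit 76) (nat_lit 0) (XT.lf (nat_lit 0) (nat_lit 131260883711) (nat_lit 152) (nat_lit 14900948332) (nat_lit 0) (nat_lit 108220860906) (nat_lit 25) (nat_lit 5) (nat_lit 27) (nat_lit 4) (nat_lit 25) (nat_lit 4) (nat_lit 524) (nat_lit 413) (nat_lit 263)) (XT.lf (nat_lit 0) (nat_lit 105695178398) (nat_lit 76) (nat_lit 90729796814) (nat_lit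 76) (nat_lit 67689045966) (nat_lit 24) (nat_lit 4) (nat_lit 25) (nat_lit 5) (nat_lit 25) (nat_lit 4) (nat_lit 525) (nat_lit 413) (nat_lit 262))) (XT.nd (nat_lit 78) (nat_lit 152) (nat_lit 0) (XT.lf (nat_lit 0) (nat_lit 232830935583) (nat_lit 76) (nat_lit 32264995732) (nat_lit 76) (nat_lit 9223551510) (nat_lit 24) (nat_lit 4) (nat_lit 25) (nat_lit 5) (nat_lit 25) (nat_lit 4) (nat_lit 526) (nat_lit 413) (nat_lit 261)) (XT.lf (nat_lit 0) (nat_lit 52279138603) (nat_lit 152) (nat_lit 202291902912) (nat_lit 0) (nat_lit 30334277100) (nat_lit 22) (nat_lit 5) (nat_lit 24) (nat_lit 4) (nat_lit 22) (nat_lit 4) (nat_lit 527) (nat_lit 413) (nat_lit 260)))))))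
noncomputable def xc249 : XT := (XT.nd (nat_lit 1248) (nat_lit 304) (nat_lit 0) (XT.nd (nat_lit 624) (nat_lit 380) (nat_lit 0) (XT.nd (nat_lit 312) (nat_lit 152) (nat_lit 0) (XT.nd (nat_lit 156) (nat_lit 76) (nat_lit 0) (XT.nd (nat_lit 78) (nat_lit 76) (nat_lit 0) (XT.lf (nat_lit 0) (nat_lit 117786498458) (nat_lit 152) (nat_lit 82323374110) (nat_lit 0) (nat_lit 95841037992) (nat_lit 22) (nat_lit 5) (nat_lit 24) (nat_lit 4) (nat_lit 22) (nat_lit 4) (nat_lit 528) (nat_lit 413) (nat_lit 259)) (XT.lf (nat_lit 0) (nat_lit 45079486021) (nat_lit 76) (nat_lit 142190153174) (nat_lit 76) (nat_lit 120244122268) (nat_lit 21) (nat_lit 4) (nat_lit 22) (nat_lit 5) (nat_lit 22) (nat_lit 4) (nat_lit 529) (nat_lit 413) (nat_lit 258))) (XT.nd (nat_lit 78) (nat_lit 76) (nat_lit 0) (XT.lf (nat_lit 0) (nat_lit 181703762244) (nat_lit 76) (nat_lit 79914012484) (nat_lit 76) (nat_lit 57967438301) (nat_lit 21) (nat_lit 4)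 (nat_lit 22) (nat_lit 5) (nat_lit 22) (nat_lit 4) (nat_lit 530) (nat_lit 413) (nat_lit 257)) (XT.lf (nat_lit 0) (nat_lit 7182253697) (nat_lit 152) (nat_lit 7223471508) (nat_lit 76) (nat_lit 317848879281) (nat_lit 20) (nat_lit 5) (nat_lit 22) (nat_lit 5) (nat_lit 21) (nat_lit 4) (nat_lit 531) (nat_lit 413) (nat_lit 256)))) (XT.nd (nat_lit 156) (nat_lit 76) (nat_lit 0) (XT.nd (nat_lit 78) (nat_lit 0) (nat_lit 0) (XT.lf (nat_lit 0) (nat_lit 76617710452) (nat_lit 152) (nat_lit 213028173307) (nat_lit 0) (nat_lit 55715249160) (nat_lit 19) (nat_lit 5) (nat_lit 21) (nat_lit 4) (nat_lit 19) (nat_lit 4) (nat_lit 532) (nat_lit 413) (nat_lit 255)) (XT.lf (nat_lit 0) (nat_lit 149882352551) (nat_lit 152) (nat_lit 80243320297) (nat_lit 0) (nat_lit 128979444304) (nat_lit 19) (nat_lit 5) (nat_lit 21) (nat_lit 4) (nat_lit 19) (nat_lit 4) (nat_lit 533) (nat_lit 413) (nat_lit 254))) (XT.nd (nat_lit 78) (nat_lit 0)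 (nat_lit 0) (XT.lf (nat_lit 0) (nat_lit 61131381148) (nat_lit 76) (nat_lit 166630339342) (nat_lit 76) (nat_lit 145727005424) (nat_lit 18) (nat_lit 4) (nat_lit 19) (nat_lit 5) (nat_lit 19) (nat_lit 4) (nat_lit 534) (nat_lit 413) (nat_lit 253)) (XT.lf (nat_lit 0) (nat_lit 212354800823) (nat_lit 76) (nat_lit 98536325081) (nat_lit 76) (nat_lit 77632585761) (nat_lit 18) (nat_lit 4) (nat_lit 19) (nat_lit 5) (nat_lit 19) (nat_lit 4) (nat_lit 535) (nat_lit 413) (nat_lit 252))))) (XT.nd (nat_lit 312) (nat_lit 228) (nat_lit 0) (XT.nd (nat_lit 156) (nat_lit 0) (nat_lit 0) (XT.nd (nat_lit 78) (nat_lit 152) (nat_lit 0) (XT.lf (nat_lit 0) (nat_lit 371133787930) (nat_lit 76) (nat_lit 27040460916) (nat_lit 76) (nat_lit 6136335499) (nat_lit 18) (nat_lit 4) (nat_lit 19) (nat_lit 5) (nat_lit 19) (nat_lit 4) (nat_lit 536) (nat_lit 413) (nat_lit 251)) (XT.lf (nat_lit 0) (nat_lit 69392932567) (nat_lit 152) (nat_lit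 301822936035) (nat_lit 0) (nat_lit 49483891492) (nat_lit 16) (nat_lit 5) (nat_lit 18) (nat_lit 4) (nat_lit 16) (nat_lit 4) (nat_lit 537) (nat_lit 413) (nat_lit 250))) (XT.nd (nat_lit 78) (nat_lit 0) (nat_lit 0) (XT.lf (nat_lit 0) (nat_lit 149504141681) (nat_lit 152) (nat_lit 158753871150) (nat_lit 0) (nat_lit 129594767082) (nat_lit 16) (nat_lit 5) (nat_lit 18) (nat_lit 4) (nat_lit 16) (nat_lit 4) (nat_lit 538) (nat_lit 413) (nat_lit 249)) (XT.lf (nat_lit 0) (nat_lit 233618374591) (nat_lit 152) (nat_lit 8536520618) (nat_lit 0) (nat_lit 213708682350) (nat_lit 16) (nat_lit 5) (nat_lit 18) (nat_lit 4) (nat_lit 16) (nat_lit 4) (nat_lit 539) (nat_lit 413) (nat_lit 248)))) (XT.nd (nat_lit 156) (nat_lit 152) (nat_lit 0) (XT.nd (nat_lit 78) (nat_lit 0) (nat_lit 0) (XT.lf (nat_lit 0) (nat_lit 154119564476) (nat_lit 76) (nat_lit 170222577125) (nat_lit 76) (nat_lit 150312582367) (nat_lit 15) (nat_lit 4) (nat_lit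 16) (nat_lit 5) (nat_lit 16) (nat_lit 4) (nat_lit 540) (nat_lit 413) (nat_lit 247)) (XT.lf (nat_lit 0) (nat_lit 325199980405) (nat_lit 76) (nat_lit 94544310241) (nat_lit 76) (nat_lit 74634027371) (nat_lit 15) (nat_lit 4) (nat_lit 16) (nat_lit 5) (nat_lit 16) (nat_lit 4) (nat_lit 541) (nat_lit 413) (nat_lit 246))) (XT.nd (nat_lit 78) (nat_lit 76) (nat_lit 0) (XT.lf (nat_lit 0) (nat_lit 4671614280) (nat_lit 152) (nat_lit 10333747986) (nat_lit 76) (nat_lit 500079075237) (nat_lit 14) (nat_lit 5) (nat_lit 16) (nat_lit 5) (nat_lit 15) (nat_lit 4) (nat_lit 542) (nat_lit 413) (nat_lit 245)) (XT.lf (nat_lit 0) (nat_lit 89066491649) (nat_lit 152) (nat_lit 377412781286) (nat_lit 0) (nat_lit 70103807281) (nat_lit 13) (nat_lit 5) (nat_lit 15) (nat_lit 4) (nat_lit 13) (nat_lit 4) (nat_lit 543) (nat_lit 413) (nat_lit 244)))))) (XT.nd (nat_lit 624) (nat_lit 76) (nat_lit 0) (XT.nd (nat_lit 312) (nat_lit 152) (nat_lit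 0) (XT.nd (nat_lit 156) (nat_lit 76) (nat_lit 0) (XT.nd (nat_lit 78) (nat_lit 0) (nat_lit 0) (XT.lf (nat_lit 0) (nat_lit 178102788413) (nat_lit 152) (nat_lit 221892915863) (nat_lit 0) (nat_lit 159139867015) (nat_lit 13) (nat_lit 5) (nat_lit 15) (nat_lit 4) (nat_lit 13) (nat_lit 4) (nat_lit 544) (nat_lit 413) (nat_lit 243)) (XT.lf (nat_lit 0) (nat_lit 271588814292) (nat_lit 152) (nat_lit 58601309764) (nat_lit 0) (nat_lit 252625667151) (nat_lit 13) (nat_lit 5) (nat_lit 15) (nat_lit 4) (nat_lit 13) (nat_lit 4) (nat_lit 545) (nat_lit 413) (nat_lit 242))) (XT.nd (nat_lit 78) (nat_lit 0) (nat_lit 0) (XT.lf (nat_lit 0) (nat_lit 116582184522) (nat_lit 76) (nat_lit 254985145161) (nat_lit 76) (nat_lit 236021783027) (nat_lit 12) (nat_lit 4) (nat_lit 13) (nat_lit 5) (nat_lit 13) (nat_lit 4) (nat_lit 546) (nat_lit 413) (nat_lit 241)) (XT.lf (nat_lit 0) (nat_lit 302555373906) (nat_lit 76) (nat_lit 174979884449)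 (nat_lit 76) (nat_lit 156016317561) (nat_lit 12) (nat_lit 4) (nat_lit 13) (nat_lit 5) (nat_lit 13) (nat_lit 4) (nat_lit 547) (nat_lit 413) (nat_lit 240)))) (XT.nd (nat_lit 156) (nat_lit 0) (nat_lit 0) (XT.nd (nat_lit 78) (nat_lit 152) (nat_lit 0) (XT.lf (nat_lit 0) (nat_lit 497823427742) (nat_lit 76) (nat_lit 90976294742) (nat_lit 76) (nat_lit 72012532848) (nat_lit 12) (nat_lit 4) (nat_lit 13) (nat_lit 5) (nat_lit 13) (nat_lit 4) (nat_lit 548) (nat_lit 413) (nat_lit 239)) (XT.lf (nat_lit 0) (nat_lit 13597657883) (nat_lit 76) (nat_lit 2286052114) (nat_lit 152) (nat_lit 673529094229) (nat_lit 10) (nat_lit 5) (nat_lit 11) (nat_lit 5) (nat_lit 12) (nat_lit 4) (nat_lit 549) (nat_lit 413) (nat_lit 238))) (XT.nd (nat_lit 78) (nat_lit 0) (nat_lit 0) (XT.lf (nat_lit 0) (nat_lit 109976662951) (nat_lit 152) (nat_lit 517280999376) (nat_lit 0) (nat_lit 91915592010) (nat_lit 10) (nat_lit 5) (nat_lit 12) (nat_lit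 4) (nat_lit 10) (nat_lit 4) (nat_lit 550) (nat_lit 413) (nat_lit 237)) (XT.lf (nat_lit 0) (nat_lit 208810024734) (nat_lit 152) (nat_lit 350861120798) (nat_lit 0) (nat_lit 190748793362) (nat_lit 10) (nat_lit 5) (nat_lit 12) (nat_lit 4) (nat_lit 10) (nat_lit 4) (nat_lit 551) (nat_lit 413) (nat_lit 236))))) (XT.nd (nat_lit 51792) (nat_lit 0) (nat_lit 12540) (XT.nd (nat_lit 156) (nat_lit 0) (nat_lit 0) (XT.nd (nat_lit 78) (nat_lit 76) (nat_lit 0) (XT.lf (nat_lit 0) (nat_lit 312583421196) (nat_lit 152) (nat_lit 176123581124) (nat_lit 0) (nat_lit 294522037032) (nat_lit 10) (nat_lit 5) (nat_lit 12) (nat_lit 4) (nat_lit 10) (nat_lit 4) (nat_lit 552) (nat_lit 413) (nat_lit 235)) (XT.lf (nat_lit 0) (nat_lit 7590608275) (nat_lit 76) (nat_lit 414071834244) (nat_lit 76) (nat_lit 396010304564) (nat_lit 9) (nat_lit 4) (nat_lit 10) (nat_lit 5) (nat_lit 10) (nat_lit 4) (nat_lit 553) (nat_lit 413) (nat_lit 234)))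 (XT.nd (nat_lit 51558) (nat_lit 0) (nat_lit 13224) (XT.lf (nat_lit 0) (nat_lit 206601997253) (nat_lit 76) (nat_lit 332574625413) (nat_lit 76) (nat_lit 314512957147) (nat_lit 9) (nat_lit 4) (nat_lit 10) (nat_lit 5) (nat_lit 10) (nat_lit 4) (nat_lit 554) (nat_lit 413) (nat_lit 233)) (XT.lf (nat_lit 0) (nat_lit 3448491069) (nat_lit 684) (nat_lit 453861744) (nat_lit 684) (nat_lit 453861744) (nat_lit 183) (nat_lit 3) (nat_lit 192) (nat_lit 3) (nat_lit 192) (nat_lit 5) (nat_lit 414) (nat_lit 414) (nat_lit 372)))) (XT.nd (nat_lit 156) (nat_lit 0) (nat_lit 76) (XT.nd (nat_lit 78) (nat_lit 684) (nat_lit 0) (XT.lf (nat_lit 76) (nat_lit 3545922023) (nat_lit 0) (nat_lit 4527991876) (nat_lit 684) (nat_lit 806015769) (nat_lit 184) (nat_lit 5) (nat_lit 183) (nat_lit 3) (nat_lit 192) (nat_lit 5) (nat_lit 415) (nat_lit 414) (nat_lit 371)) (XT.lf (nat_lit 0) (nat_lit 199104388) (nat_lit 684) (nat_lit 840508054)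 (nat_lit 760) (nat_lit 8018332614) (nat_lit 174) (nat_lit 5) (nat_lit 183) (nat_lit 3) (nat_lit 184) (nat_lit 5) (nat_lit 416) (nat_lit 414) (nat_lit 370))) (XT.nd (nat_lit 78) (nat_lit 0) (nat_lit 0) (XT.lf (nat_lit 0) (nat_lit 1272459730) (nat_lit 684) (nat_lit 5328897118) (nat_lit 760) (nat_lit 2640595292) (nat_lit 175) (nat_lit 5) (nat_lit 184) (nat_lit 5) (nat_lit 185) (nat_lit 5) (nat_lit 417) (nat_lit 414) (nat_lit 369)) (XT.nd (nat_lit 78) (nat_lit 0) (nat_lit 76) (XT.lf (nat_lit 0) (nat_lit 2374367717) (nat_lit 684) (nat_lit 554293702) (nat_lit 760) (nat_lit 6507758604) (nat_lit 175) (nat_lit 5) (nat_lit 184) (nat_lit 5) (nat_lit 185) (nat_lit 5) (nat_lit 418) (nat_lit 414) (nat_lit 368)) (XT.lf (nat_lit 0) (nat_lit 3564767593) (nat_lit 684) (nat_lit 5084692553) (nat_lit 760) (nat_lit 989485798) (nat_lit 176) (nat_lit 5) (nat_lit 185) (nat_lit 5) (nat_lit 186) (nat_lit 5) (nat_lit 419)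 (nat_lit 414) (nat_lit 367))))))))
noncomputable def xc250 : XT := (XT.nd (nat_lit 1248) (nat_lit 2660) (nat_lit 0) (XT.nd (nat_lit 624) (nat_lit 1900) (nat_lit 0) (XT.nd (nat_lit 312) (nat_lit 1368) (nat_lit 0) (XT.nd (nat_lit 156) (nat_lit 0) (nat_lit 76) (XT.nd (nat_lit 78) (nat_lit 0) (nat_lit 0) (XT.lf (nat_lit 76) (nat_lit 1570687) (nat_lit 0) (nat_lit 4819087514) (nat_lit 760) (nat_lit 5030645676) (nat_lit 177) (nat_lit 5) (nat_lit 176) (nat_lit 5) (nat_lit 186) (nat_lit 5) (nat_lit 420) (nat_lit 414) (nat_lit 366)) (XT.lf (nat_lit 76) (nat_lit 5482609670) (nat_lit 0) (nat_lit 693133970) (nat_lit 760) (nat_lit 3896720104) (nat_lit 177) (nat_lit 5) (nat_lit 176) (nat_lit 5) (nat_lit 186) (nat_lit 5) (nat_lit 421) (nat_lit 414) (nat_lit 365))) (XT.nd (nat_lit 78) (nat_lit 0) (nat_lit 0) (XT.lf (nat_lit 76) (nat_lit 867029563) (nat_lit 0) (nat_lit 6754766040) (nat_lit 760) (nat_lit 2681729245)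 (nat_lit 178) (nat_lit 5) (nat_lit 177) (nat_lit 5) (nat_lit 187) (nat_lit 5) (nat_lit 422) (nat_lit 414) (nat_lit 364)) (XT.lf (nat_lit 76) (nat_lit 6708040750) (nat_lit 0) (nat_lit 2475556720) (nat_lit 760) (nat_lit 1360372849) (nat_lit 178) (nat_lit 5) (nat_lit 177) (nat_lit 5) (nat_lit 187) (nat_lit 5) (nat_lit 423) (nat_lit 414) (nat_lit 363)))) (XT.nd (nat_lit 156) (nat_lit 760) (nat_lit 0) (XT.nd (nat_lit 78) (nat_lit 0) (nat_lit 0) (XT.lf (nat_lit 0) (nat_lit 46726424) (nat_lit 760) (nat_lit 8754578438) (nat_lit 76) (nat_lit 1994088373) (nat_lit 168) (nat_lit 5) (nat_lit 178) (nat_lit 5) (nat_lit 169) (nat_lit 5) (nat_lit 424) (nat_lit 414) (nat_lit 362)) (XT.lf (nat_lit 0) (nat_lit 1542713632) (nat_lit 760) (nat_lit 2813227471) (nat_lit 76) (nat_lit 6699121788) (nat_lit 168) (nat_lit 5) (nat_lit 178) (nat_lit 5) (nat_lit 169) (nat_lit 5) (nat_lit 425) (nat_lit 414) (nat_lit 361))) (XT.nd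 (nat_lit 78) (nat_lit 0) (nat_lit 0) (XT.lf (nat_lit 0) (nat_lit 3133654027) (nat_lit 836) (nat_lit 7831493531) (nat_lit 76) (nat_lit 361563803) (nat_lit 158) (nat_lit 5) (nat_lit 169) (nat_lit 5) (nat_lit 159) (nat_lit 5) (nat_lit 426) (nat_lit 414) (nat_lit 360)) (XT.lf (nat_lit 0) (nat_lit 4885057373) (nat_lit 836) (nat_lit 1502339557) (nat_lit 76) (nat_lit 5220502407) (nat_lit 158) (nat_lit 5) (nat_lit 169) (nat_lit 5) (nat_lit 159) (nat_lit 5) (nat_lit 427) (nat_lit 414) (nat_lit 359))))) (XT.nd (nat_lit 312) (nat_lit 608) (nat_lit 0) (XT.nd (nat_lit 156) (nat_lit 456) (nat_lit 0) (XT.nd (nat_lit 78) (nat_lit 380) (nat_lit 0) (XT.lf (nat_lit 0) (nat_lit 5276590376) (nat_lit 456) (nat_lit 1492758735) (nat_lit 532) (nat_lit 5131534433) (nat_lit 152) (nat_lit 5) (nat_lit 158) (nat_lit 5) (nat_lit 159) (nat_lit 5) (nat_lit 428) (nat_lit 414) (nat_lit 358)) (XT.lf (nat_lit 0) (nat_lit 150030664)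 (nat_lit 380) (nat_lit 8647128760) (nat_lit 456) (nat_lit 3408894948) (nat_lit 147) (nat_lit 5) (nat_lit 152) (nat_lit 5) (nat_lit 153) (nat_lit 5) (nat_lit 429) (nat_lit 414) (nat_lit 357))) (XT.nd (nat_lit 78) (nat_lit 456) (nat_lit 0) (XT.lf (nat_lit 0) (nat_lit 7431563990) (nat_lit 380) (nat_lit 3596367458) (nat_lit 456) (nat_lit 1493476222) (nat_lit 147) (nat_lit 5) (nat_lit 152) (nat_lit 5) (nat_lit 153) (nat_lit 5) (nat_lit 430) (nat_lit 414) (nat_lit 356)) (XT.lf (nat_lit 0) (nat_lit 530064896) (nat_lit 456) (nat_lit 10626294940) (nat_lit 76) (nat_lit 1694320829) (nat_lit 141) (nat_lit 5) (nat_lit 147) (nat_lit 5) (nat_lit 142) (nat_lit 5) (nat_lit 431) (nat_lit 414) (nat_lit 355)))) (XT.nd (nat_lit 156) (nat_lit 304) (nat_lit 0) (XT.nd (nat_lit 78) (nat_lit 304) (nat_lit 0) (XT.lf (nat_lit 0) (nat_lit 2718591793) (nat_lit 456) (nat_lit 3232536876) (nat_lit 76) (nat_lit 7238366660) (nat_lit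 141) (nat_lit 5) (nat_lit 147) (nat_lit 5) (nat_lit 142) (nat_lit 5) (nat_lit 432) (nat_lit 414) (nat_lit 354)) (XT.lf (nat_lit 0) (nat_lit 4644701067) (nat_lit 304) (nat_lit 413342113) (nat_lit 380) (nat_lit 8485134688) (nat_lit 137) (nat_lit 5) (nat_lit 141) (nat_lit 5) (nat_lit 142) (nat_lit 5) (nat_lit 433) (nat_lit 414) (nat_lit 353))) (XT.nd (nat_lit 78) (nat_lit 304) (nat_lit 0) (XT.lf (nat_lit 0) (nat_lit 7624295938) (nat_lit 380) (nat_lit 1004752310) (nat_lit 76) (nat_lit 5280006795) (nat_lit 137) (nat_lit 5) (nat_lit 142) (nat_lit 5) (nat_lit 138) (nat_lit 5) (nat_lit 434) (nat_lit 414) (nat_lit 352)) (XT.lf (nat_lit 0) (nat_lit 7482320545) (nat_lit 304) (nat_lit 2931429085) (nat_lit 380) (nat_lit 3874733886) (nat_lit 133) (nat_lit 5) (nat_lit 137) (nat_lit 5) (nat_lit 138) (nat_lit 5) (nat_lit 435) (nat_lit 414) (nat_lit 351)))))) (XT.nd (nat_lit 624) (nat_lit 1140) (nat_lit 0) (XT.nd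 (nat_lit 312) (nat_lit 836) (nat_lit 0) (XT.nd (nat_lit 156) (nat_lit 304) (nat_lit 0) (XT.nd (nat_lit 78) (nat_lit 76) (nat_lit 0) (XT.lf (nat_lit 0) (nat_lit 1714764902) (nat_lit 304) (nat_lit 11691662491) (nat_lit 380) (nat_lit 1277270220) (nat_lit 129) (nat_lit 5) (nat_lit 133) (nat_lit 5) (nat_lit 134) (nat_lit 5) (nat_lit 436) (nat_lit 414) (nat_lit 350)) (XT.lf (nat_lit 0) (nat_lit 1541264991) (nat_lit 380) (nat_lit 4302614438) (nat_lit 76) (nat_lit 9246782129) (nat_lit 128) (nat_lit 5) (nat_lit 133) (nat_lit 5) (nat_lit 129) (nat_lit 5) (nat_lit 437) (nat_lit 414) (nat_lit 349))) (XT.nd (nat_lit 78) (nat_lit 0) (nat_lit 0) (XT.lf (nat_lit 0) (nat_lit 4514119250) (nat_lit 380) (nat_lit 10621115888) (nat_lit 76) (nat_lit 378877301) (nat_lit 124) (nat_lit 5) (nat_lit 129) (nat_lit 5) (nat_lit 125) (nat_lit 5) (nat_lit 438) (nat_lit 414) (nat_lit 348)) (XT.lf (nat_lit 0) (nat_lit 7779813503)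 (nat_lit 380) (nat_lit 1388426485) (nat_lit 76) (nat_lit 6783287465) (nat_lit 124) (nat_lit 5) (nat_lit 129) (nat_lit 5) (nat_lit 125) (nat_lit 5) (nat_lit 439) (nat_lit 414) (nat_lit 347)))) (XT.nd (nat_lit 156) (nat_lit 304) (nat_lit 0) (XT.nd (nat_lit 78) (nat_lit 304) (nat_lit 0) (XT.lf (nat_lit 0) (nat_lit 8546974646) (nat_lit 228) (nat_lit 2770816796) (nat_lit 304) (nat_lit 5087573213) (nat_lit 121) (nat_lit 5) (nat_lit 124) (nat_lit 5) (nat_lit 125) (nat_lit 5) (nat_lit 440) (nat_lit 414) (nat_lit 346)) (XT.lf (nat_lit 0) (nat_lit 2119447332) (nat_lit 304) (nat_lit 13007920305) (nat_lit 380) (nat_lit 1749792431) (nat_lit 117) (nat_lit 5) (nat_lit 121) (nat_lit 5) (nat_lit 122) (nat_lit 5) (nat_lit 441) (nat_lit 414) (nat_lit 345))) (XT.nd (nat_lit 78) (nat_lit 228) (nat_lit 0) (XT.lf (nat_lit 0) (nat_lit 1855743492) (nat_lit 380) (nat_lit 4605161261) (nat_lit 76) (nat_lit 10902420110) (nat_lit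 116) (nat_lit 5) (nat_lit 121) (nat_lit 5) (nat_lit 117) (nat_lit 5) (nat_lit 442) (nat_lit 414) (nat_lit 344)) (XT.lf (nat_lit 0) (nat_lit 5665276348) (nat_lit 304) (nat_lit 11684166451) (nat_lit 76) (nat_lit 518795751) (nat_lit 113) (nat_lit 5) (nat_lit 117) (nat_lit 5) (nat_lit 114) (nat_lit 5) (nat_lit 443) (nat_lit 414) (nat_lit 343))))) (XT.nd (nat_lit 312) (nat_lit 684) (nat_lit 0) (XT.nd (nat_lit 156) (nat_lit 228) (nat_lit 0) (XT.nd (nat_lit 78) (nat_lit 228) (nat_lit 0) (XT.lf (nat_lit 0) (nat_lit 9828382681) (nat_lit 304) (nat_lit 861173301) (nat_lit 76) (nat_lit 7700688183) (nat_lit 113) (nat_lit 5) (nat_lit 117) (nat_lit 5) (nat_lit 114) (nat_lit 5) (nat_lit 444) (nat_lit 414) (nat_lit 342)) (XT.lf (nat_lit 0) (nat_lit 10818635468) (nat_lit 228) (nat_lit 3528881124) (nat_lit 304) (nat_lit 4583440889) (nat_lit 110) (nat_lit 5) (nat_lit 113) (nat_lit 5) (nat_lit 114) (nat_lit 5) (nat_lit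 445) (nat_lit 414) (nat_lit 341))) (XT.nd (nat_lit 78) (nat_lit 76) (nat_lit 0) (XT.lf (nat_lit 0) (nat_lit 3637258126) (nat_lit 152) (nat_lit 15568597646) (nat_lit 228) (nat_lit 287189246) (nat_lit 108) (nat_lit 5) (nat_lit 110) (nat_lit 5) (nat_lit 111) (nat_lit 5) (nat_lit 446) (nat_lit 414) (nat_lit 340)) (XT.lf (nat_lit 0) (nat_lit 4265694844) (nat_lit 228) (nat_lit 3977617233) (nat_lit 76) (nat_lit 11827777909) (nat_lit 107) (nat_lit 5) (nat_lit 110) (nat_lit 5) (nat_lit 108) (nat_lit 5) (nat_lit 447) (nat_lit 414) (nat_lit 339)))) (XT.nd (nat_lit 156) (nat_lit 304) (nat_lit 0) (XT.nd (nat_lit 78) (nat_lit 152) (nat_lit 0) (XT.lf (nat_lit 0) (nat_lit 8739805913) (nat_lit 228) (nat_lit 413715225) (nat_lit 304) (nat_lit 11518434043) (nat_lit 104) (nat_lit 5) (nat_lit 107) (nat_lit 5) (nat_lit 108) (nat_lit 5) (nat_lit 448) (nat_lit 414) (nat_lit 338)) (XT.lf (nat_lit 0) (nat_lit 804456828)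 (nat_lit 152) (nat_lit 13665014462) (nat_lit 228) (nat_lit 6824206525) (nat_lit 102) (nat_lit 5) (nat_lit 104) (nat_lit 5) (nat_lit 105) (nat_lit 5) (nat_lit 449) (nat_lit 414) (nat_lit 337))) (XT.nd (nat_lit 78) (nat_lit 304) (nat_lit 0) (XT.lf (nat_lit 0) (nat_lit 14555637431) (nat_lit 152) (nat_lit 5685594906) (nat_lit 228) (nat_lit 1695754349) (nat_lit 102) (nat_lit 5) (nat_lit 104) (nat_lit 5) (nat_lit 105) (nat_lit 5) (nat_lit 450) (nat_lit 414) (nat_lit 336)) (XT.nd (nat_lit 78) (nat_lit 0) (nat_lit 0) (XT.lf (nat_lit 0) (nat_lit 3698936537) (nat_lit 304) (nat_lit 16146119422) (nat_lit 76) (nat_lit 2758131314) (nat_lit 98) (nat_lit 5) (nat_lit 102) (nat_lit 5) (nat_lit 99) (nat_lit 5) (nat_lit 451) (nat_lit 414) (nat_lit 335)) (XT.lf (nat_lit 0) (nat_lit 9508757258) (nat_lit 304) (nat_lit 2204794042) (nat_lit 76) (nat_lit 11577638107) (nat_lit 98) (nat_lit 5) (nat_lit 102) (nat_lit 5) (nat_lit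 99) (nat_lit 5) (nat_lit 452) (nat_lit 414) (nat_lit 334))))))))
noncomputable def xc251 : XT := (XT.nd (nat_lit 1248) (nat_lit 1368) (nat_lit 0) (XT.nd (nat_lit 624) (nat_lit 760) (nat_lit 0) (XT.nd (nat_lit 312) (nat_lit 380) (nat_lit 0) (XT.nd (nat_lit 156) (nat_lit 228) (nat_lit 0) (XT.nd (nat_lit 78) (nat_lit 152) (nat_lit 0) (XT.lf (nat_lit 0) (nat_lit 12816214544) (nat_lit 152) (nat_lit 2975924134) (nat_lit 228) (nat_lit 8212300119) (nat_lit 96) (nat_lit 5) (nat_lit 98) (nat_lit 5) (nat_lit 99) (nat_lit 5) (nat_lit 453) (nat_lit 414) (nat_lit 333)) (XT.lf (nat_lit 0) (nat_lit 3913393135) (nat_lit 152) (nat_lit 18655319607) (nat_lit 228) (nat_lit 2175687341) (nat_lit 94) (nat_lit 5) (nat_lit 96) (nat_lit 5) (nat_lit 97) (nat_lit 5) (nat_lit 454) (nat_lit 414) (nat_lit 332))) (XT.nd (nat_lit 78) (nat_lit 152) (nat_lit 0) (XT.lf (nat_lit 0) (nat_lit 4254190759) (nat_lit 228) (nat_lit 5498158487)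 (nat_lit 76) (nat_lit 15754527677) (nat_lit 93) (nat_lit 5) (nat_lit 96) (nat_lit 5) (nat_lit 94) (nat_lit 5) (nat_lit 455) (nat_lit 414) (nat_lit 331)) (XT.lf (nat_lit 0) (nat_lit 10887554066) (nat_lit 152) (nat_lit 198970897) (nat_lit 228) (nat_lit 15211465836) (nat_lit 91) (nat_lit 5) (nat_lit 93) (nat_lit 5) (nat_lit 94) (nat_lit 5) (nat_lit 456) (nat_lit 414) (nat_lit 330)))) (XT.nd (nat_lit 156) (nat_lit 228) (nat_lit 0) (XT.nd (nat_lit 78) (nat_lit 0) (nat_lit 0) (XT.lf (nat_lit 0) (nat_lit 1009958250) (nat_lit 152) (nat_lit 17498710606) (nat_lit 228) (nat_lit 8607582360) (nat_lit 89) (nat_lit 5) (nat_lit 91) (nat_lit 5) (nat_lit 92) (nat_lit 5) (nat_lit 457) (nat_lit 414) (nat_lit 329)) (XT.lf (nat_lit 0) (nat_lit 18756685359) (nat_lit 152) (nat_lit 7794042524) (nat_lit 228) (nat_lit 1412256848) (nat_lit 89) (nat_lit 5) (nat_lit 91) (nat_lit 5) (nat_lit 92) (nat_lit 5) (nat_lit 458) (nat_lit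 414) (nat_lit 328))) (XT.nd (nat_lit 78) (nat_lit 0) (nat_lit 0) (XT.lf (nat_lit 0) (nat_lit 6108132046) (nat_lit 228) (nat_lit 20186727959) (nat_lit 76) (nat_lit 2544304694) (nat_lit 86) (nat_lit 5) (nat_lit 89) (nat_lit 5) (nat_lit 87) (nat_lit 5) (nat_lit 459) (nat_lit 414) (nat_lit 327)) (XT.lf (nat_lit 0) (nat_lit 14228578171) (nat_lit 228) (nat_lit 2206829221) (nat_lit 76) (nat_lit 13309014152) (nat_lit 86) (nat_lit 5) (nat_lit 89) (nat_lit 5) (nat_lit 87) (nat_lit 5) (nat_lit 460) (nat_lit 414) (nat_lit 326))))) (XT.nd (nat_lit 312) (nat_lit 304) (nat_lit 0) (XT.nd (nat_lit 156) (nat_lit 152) (nat_lit 0) (XT.nd (nat_lit 78) (nat_lit 152) (nat_lit 0) (XT.lf (nat_lit 0) (nat_lit 17198009195) (nat_lit 152) (nat_lit 5811507096) (nat_lit 228) (nat_lit 7672701843) (nat_lit 84) (nat_lit 5) (nat_lit 86) (nat_lit 5) (nat_lit 87) (nat_lit 5) (nat_lit 461) (nat_lit 414) (nat_lit 325)) (XT.lf (nat_lit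 0) (nat_lit 750185918) (nat_lit 152) (nat_lit 25598604766) (nat_lit 76) (nat_lit 5307395249) (nat_lit 82) (nat_lit 5) (nat_lit 84) (nat_lit 5) (nat_lit 83) (nat_lit 5) (nat_lit 462) (nat_lit 414) (nat_lit 324))) (XT.nd (nat_lit 78) (nat_lit 152) (nat_lit 0) (XT.lf (nat_lit 0) (nat_lit 9649892197) (nat_lit 152) (nat_lit 5872319042) (nat_lit 76) (nat_lit 17134675760) (nat_lit 82) (nat_lit 5) (nat_lit 84) (nat_lit 5) (nat_lit 83) (nat_lit 5) (nat_lit 463) (nat_lit 414) (nat_lit 323)) (XT.lf (nat_lit 0) (nat_lit 15306675089) (nat_lit 152) (nat_lit 3913699632) (nat_lit 228) (nat_lit 14475959170) (nat_lit 80) (nat_lit 5) (nat_lit 82) (nat_lit 5) (nat_lit 83) (nat_lit 5) (nat_lit 464) (nat_lit 414) (nat_lit 322)))) (XT.nd (nat_lit 156) (nat_lit 152) (nat_lit 0) (XT.nd (nat_lit 78) (nat_lit 76) (nat_lit 0) (XT.lf (nat_lit 0) (nat_lit 2904212164) (nat_lit 76) (nat_lit 26627710867) (nat_lit 152) (nat_lit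 5242703318) (nat_lit 79) (nat_lit 5) (nat_lit 80) (nat_lit 5) (nat_lit 81) (nat_lit 4) (nat_lit 465) (nat_lit 414) (nat_lit 321)) (XT.lf (nat_lit 0) (nat_lit 4677386764) (nat_lit 152) (nat_lit 10152486467) (nat_lit 76) (nat_lit 21055101392) (nat_lit 78) (nat_lit 5) (nat_lit 80) (nat_lit 5) (nat_lit 79) (nat_lit 5) (nat_lit 466) (nat_lit 414) (nat_lit 320))) (XT.nd (nat_lit 78) (nat_lit 0) (nat_lit 0) (XT.lf (nat_lit 0) (nat_lit 12957569171) (nat_lit 152) (nat_lit 2149615336) (nat_lit 228) (nat_lit 21929864152) (nat_lit 76) (nat_lit 5) (nat_lit 78) (nat_lit 5) (nat_lit 79) (nat_lit 5) (nat_lit 467) (nat_lit 414) (nat_lit 319)) (XT.lf (nat_lit 0) (nat_lit 26395216352) (nat_lit 228) (nat_lit 862294976) (nat_lit 76) (nat_lit 10972378108) (nat_lit 76) (nat_lit 5) (nat_lit 79) (nat_lit 5) (nat_lit 77) (nat_lit 4) (nat_lit 468) (nat_lit 414) (nat_lit 318)))))) (XT.nd (nat_lit 624) (nat_lit 608) (nat_lit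 0) (XT.nd (nat_lit 312) (nat_lit 380) (nat_lit 0) (XT.nd (nat_lit 156) (nat_lit 76) (nat_lit 0) (XT.nd (nat_lit 78) (nat_lit 228) (nat_lit 0) (XT.lf (nat_lit 0) (nat_lit 24234611671) (nat_lit 76) (nat_lit 14414911480) (nat_lit 152) (nat_lit 812755674) (nat_lit 75) (nat_lit 5) (nat_lit 76) (nat_lit 5) (nat_lit 77) (nat_lit 4) (nat_lit 469) (nat_lit 414) (nat_lit 317)) (XT.lf (nat_lit 0) (nat_lit 9990674138) (nat_lit 152) (nat_lit 584315654) (nat_lit 228) (nat_lit 30164941836) (nat_lit 72) (nat_lit 5) (nat_lit 74) (nat_lit 5) (nat_lit 75) (nat_lit 5) (nat_lit 470) (nat_lit 414) (nat_lit 316))) (XT.nd (nat_lit 78) (nat_lit 76) (nat_lit 0) (XT.lf (nat_lit 0) (nat_lit 22972907572) (nat_lit 228) (nat_lit 5326798380) (nat_lit 76) (nat_lit 13757690185) (nat_lit 72) (nat_lit 5) (nat_lit 75) (nat_lit 5) (nat_lit 73) (nat_lit 4) (nat_lit 471) (nat_lit 414) (nat_lit 315)) (XT.lf (nat_lit 0) (nat_lit 22042051266)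 (nat_lit 76) (nat_lit 14291315781) (nat_lit 152) (nat_lit 7090234731) (nat_lit 71) (nat_lit 5) (nat_lit 72) (nat_lit 5) (nat_lit 73) (nat_lit 4) (nat_lit 472) (nat_lit 414) (nat_lit 314)))) (XT.nd (nat_lit 156) (nat_lit 152) (nat_lit 0) (XT.nd (nat_lit 78) (nat_lit 0) (nat_lit 0) (XT.lf (nat_lit 0) (nat_lit 5515912317) (nat_lit 228) (nat_lit 38654748021) (nat_lit 76) (nat_lit 673744392) (nat_lit 68) (nat_lit 5) (nat_lit 71) (nat_lit 5) (nat_lit 69) (nat_lit 4) (nat_lit 473) (nat_lit 414) (nat_lit 313)) (XT.lf (nat_lit 0) (nat_lit 19105435719) (nat_lit 228) (nat_lit 10813581510) (nat_lit 76) (nat_lit 16381851733) (nat_lit 68) (nat_lit 5) (nat_lit 71) (nat_lit 5) (nat_lit 69) (nat_lit 4) (nat_lit 474) (nat_lit 414) (nat_lit 312))) (XT.nd (nat_lit 78) (nat_lit 76) (nat_lit 0) (XT.lf (nat_lit 0) (nat_lit 19008285188) (nat_lit 76) (nat_lit 14652465978) (nat_lit 152) (nat_lit 14155089609) (nat_lit 67)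 (nat_lit 5) (nat_lit 68) (nat_lit 5) (nat_lit 69) (nat_lit 4) (nat_lit 475) (nat_lit 414) (nat_lit 311)) (XT.lf (nat_lit 0) (nat_lit 1296457335) (nat_lit 76) (nat_lit 47864851993) (nat_lit 76) (nat_lit 234378156) (nat_lit 66) (nat_lit 4) (nat_lit 67) (nat_lit 5) (nat_lit 67) (nat_lit 4) (nat_lit 476) (nat_lit 414) (nat_lit 310))))) (XT.nd (nat_lit 312) (nat_lit 304) (nat_lit 0) (XT.nd (nat_lit 156) (nat_lit 152) (nat_lit 0) (XT.nd (nat_lit 78) (nat_lit 76) (nat_lit 0) (XT.lf (nat_lit 0) (nat_lit 14647734132) (nat_lit 152) (nat_lit 17616898072) (nat_lit 76) (nat_lit 18742382467) (nat_lit 65) (nat_lit 5) (nat_lit 67) (nat_lit 5) (nat_lit 66) (nat_lit 4) (nat_lit 477) (nat_lit 414) (nat_lit 309)) (XT.lf (nat_lit 0) (nat_lit 14841866564) (nat_lit 76) (nat_lit 15646045071) (nat_lit 152) (nat_lit 22199712791) (nat_lit 64) (nat_lit 5) (nat_lit 65) (nat_lit 5) (nat_lit 66) (nat_lit 4) (nat_lit 478) (nat_lit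 414) (nat_lit 308))) (XT.nd (nat_lit 78) (nat_lit 152) (nat_lit 0) (XT.lf (nat_lit 0) (nat_lit 47441652546) (nat_lit 152) (nat_lit 4954123833) (nat_lit 0) (nat_lit 2040410688) (nat_lit 64) (nat_lit 5) (nat_lit 66) (nat_lit 4) (nat_lit 64) (nat_lit 4) (nat_lit 479) (nat_lit 414) (nat_lit 307)) (XT.lf (nat_lit 0) (nat_lit 9415397840) (nat_lit 152) (nat_lit 26111423822) (nat_lit 76) (nat_lit 20701772242) (nat_lit 62) (nat_lit 5) (nat_lit 64) (nat_lit 5) (nat_lit 63) (nat_lit 4) (nat_lit 480) (nat_lit 414) (nat_lit 306)))) (XT.nd (nat_lit 156) (nat_lit 228) (nat_lit 0) (XT.nd (nat_lit 78) (nat_lit 0) (nat_lit 0) (XT.lf (nat_lit 0) (nat_lit 9166922553) (nat_lit 76) (nat_lit 17462882364) (nat_lit 152) (nat_lit 31464131036) (nat_lit 61) (nat_lit 5) (nat_lit 62) (nat_lit 5) (nat_lit 63) (nat_lit 4) (nat_lit 481) (nat_lit 414) (nat_lit 305)) (XT.lf (nat_lit 0) (nat_lit 45168554927) (nat_lit 152) (nat_lit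 12963523646) (nat_lit 0) (nat_lit 1897285505) (nat_lit 61) (nat_lit 5) (nat_lit 63) (nat_lit 4) (nat_lit 61) (nat_lit 4) (nat_lit 482) (nat_lit 414) (nat_lit 304))) (XT.nd (nat_lit 78) (nat_lit 76) (nat_lit 0) (XT.lf (nat_lit 0) (nat_lit 3173834857) (nat_lit 152) (nat_lit 36774572692) (nat_lit 76) (nat_lit 22076972929) (nat_lit 59) (nat_lit 5) (nat_lit 61) (nat_lit 5) (nat_lit 60) (nat_lit 4) (nat_lit 483) (nat_lit 414) (nat_lit 303)) (XT.nd (nat_lit 78) (nat_lit 0) (nat_lit 0) (XT.lf (nat_lit 0) (nat_lit 1499240637) (nat_lit 76) (nat_lit 20349237066) (nat_lit 152) (nat_lit 42248654731) (nat_lit 58) (nat_lit 5) (nat_lit 59) (nat_lit 5) (nat_lit 60) (nat_lit 4) (nat_lit 484) (nat_lit 414) (nat_lit 302)) (XT.lf (nat_lit 0) (nat_lit 42084612949) (nat_lit 152) (nat_lit 23308910399) (nat_lit 0) (nat_lit 847560711) (nat_lit 58) (nat_lit 5) (nat_lit 60) (nat_lit 4) (nat_lit 58) (nat_lit 4) (nat_lit 485)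 (nat_lit 414) (nat_lit 301))))))))
noncomputable def xc252 : XT := (XT.nd (nat_lit 1248) (nat_lit 988) (nat_lit 0) (XT.nd (nat_lit 624) (nat_lit 608) (nat_lit 0) (XT.nd (nat_lit 312) (nat_lit 228) (nat_lit 0) (XT.nd (nat_lit 156) (nat_lit 152) (nat_lit 0) (XT.nd (nat_lit 78) (nat_lit 76) (nat_lit 0) (XT.lf (nat_lit 0) (nat_lit 18176247140) (nat_lit 76) (nat_lit 45765270747) (nat_lit 76) (nat_lit 4520267313) (nat_lit 57) (nat_lit 4) (nat_lit 58) (nat_lit 5) (nat_lit 58) (nat_lit 4) (nat_lit 486) (nat_lit 414) (nat_lit 300)) (XT.lf (nat_lit 0) (nat_lit 15975336569) (nat_lit 152) (nat_lit 8503136035) (nat_lit 76) (nat_lit 46282841407) (nat_lit 56) (nat_lit 5) (nat_lit 58) (nat_lit 5) (nat_lit 57) (nat_lit 4) (nat_lit 487) (nat_lit 414) (nat_lit 299))) (XT.nd (nat_lit 78) (nat_lit 76) (nat_lit 0) (XT.lf (nat_lit 0) (nat_lit 36445091894) (nat_lit 76) (nat_lit 1459727552) (nat_lit 152) (nat_lit 35239244278)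 (nat_lit 55) (nat_lit 5) (nat_lit 56) (nat_lit 5) (nat_lit 57) (nat_lit 4) (nat_lit 488) (nat_lit 414) (nat_lit 298)) (XT.lf (nat_lit 0) (nat_lit 8186601209) (nat_lit 76) (nat_lit 53364944476) (nat_lit 76) (nat_lit 14063366843) (nat_lit 54) (nat_lit 4) (nat_lit 55) (nat_lit 5) (nat_lit 55) (nat_lit 4) (nat_lit 489) (nat_lit 414) (nat_lit 297)))) (XT.nd (nat_lit 156) (nat_lit 76) (nat_lit 0) (XT.nd (nat_lit 78) (nat_lit 76) (nat_lit 0) (XT.lf (nat_lit 0) (nat_lit 8557437602) (nat_lit 152) (nat_lit 21765060518) (nat_lit 76) (nat_lit 47848043571) (nat_lit 53) (nat_lit 5) (nat_lit 55) (nat_lit 5) (nat_lit 54) (nat_lit 4) (nat_lit 490) (nat_lit 414) (nat_lit 296)) (XT.lf (nat_lit 0) (nat_lit 26793414681) (nat_lit 76) (nat_lit 5453978289) (nat_lit 152) (nat_lit 48574495448) (nat_lit 52) (nat_lit 5) (nat_lit 53) (nat_lit 5) (nat_lit 54) (nat_lit 4) (nat_lit 491) (nat_lit 414) (nat_lit 295))) (XT.nd (nat_lit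 78) (nat_lit 76) (nat_lit 0) (XT.lf (nat_lit 0) (nat_lit 57811449650) (nat_lit 152) (nat_lit 5395462750) (nat_lit 0) (nat_lit 20364409959) (nat_lit 52) (nat_lit 5) (nat_lit 54) (nat_lit 4) (nat_lit 52) (nat_lit 4) (nat_lit 492) (nat_lit 414) (nat_lit 294)) (XT.lf (nat_lit 0) (nat_lit 47072138040) (nat_lit 76) (nat_lit 38398699351) (nat_lit 76) (nat_lit 946534247) (nat_lit 51) (nat_lit 4) (nat_lit 52) (nat_lit 5) (nat_lit 52) (nat_lit 4) (nat_lit 493) (nat_lit 414) (nat_lit 293))))) (XT.nd (nat_lit 312) (nat_lit 304) (nat_lit 0) (XT.nd (nat_lit 156) (nat_lit 152) (nat_lit 0) (XT.nd (nat_lit 78) (nat_lit 0) (nat_lit 0) (XT.lf (nat_lit 0) (nat_lit 12956204114) (nat_lit 76) (nat_lit 11635625428) (nat_lit 152) (nat_lit 64779896274) (nat_lit 49) (nat_lit 5) (nat_lit 50) (nat_lit 5) (nat_lit 51) (nat_lit 4) (nat_lit 494) (nat_lit 414) (nat_lit 292)) (XT.lf (nat_lit 0) (nat_lit 52302444139) (nat_lit 152)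 (nat_lit 23499581598) (nat_lit 0) (nat_lit 16624639045) (nat_lit 49) (nat_lit 5) (nat_lit 51) (nat_lit 4) (nat_lit 49) (nat_lit 4) (nat_lit 495) (nat_lit 414) (nat_lit 291))) (XT.nd (nat_lit 78) (nat_lit 76) (nat_lit 0) (XT.lf (nat_lit 0) (nat_lit 32911173299) (nat_lit 76) (nat_lit 49185156113) (nat_lit 76) (nat_lit 13503134330) (nat_lit 48) (nat_lit 4) (nat_lit 49) (nat_lit 5) (nat_lit 49) (nat_lit 4) (nat_lit 496) (nat_lit 414) (nat_lit 290)) (XT.lf (nat_lit 0) (nat_lit 14384211904) (nat_lit 152) (nat_lit 6198403274) (nat_lit 76) (nat_lit 78317124835) (nat_lit 47) (nat_lit 5) (nat_lit 49) (nat_lit 5) (nat_lit 48) (nat_lit 4) (nat_lit 497) (nat_lit 414) (nat_lit 289)))) (XT.nd (nat_lit 156) (nat_lit 152) (nat_lit 0) (XT.nd (nat_lit 78) (nat_lit 76) (nat_lit 0) (XT.lf (nat_lit 0) (nat_lit 44223602737) (nat_lit 152) (nat_lit 47846528047) (nat_lit 0) (nat_lit 10233257651) (nat_lit 46) (nat_lit 5)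 (nat_lit 48) (nat_lit 4) (nat_lit 46) (nat_lit 4) (nat_lit 498) (nat_lit 414) (nat_lit 288)) (XT.lf (nat_lit 0) (nat_lit 12537273123) (nat_lit 76) (nat_lit 63651046271) (nat_lit 76) (nat_lit 29657232105) (nat_lit 45) (nat_lit 4) (nat_lit 46) (nat_lit 5) (nat_lit 46) (nat_lit 4) (nat_lit 499) (nat_lit 414) (nat_lit 287))) (XT.nd (nat_lit 78) (nat_lit 76) (nat_lit 0) (XT.lf (nat_lit 0) (nat_lit 997575493) (nat_lit 152) (nat_lit 31952088291) (nat_lit 76) (nat_lit 76574158723) (nat_lit 44) (nat_lit 5) (nat_lit 46) (nat_lit 5) (nat_lit 45) (nat_lit 4) (nat_lit 500) (nat_lit 414) (nat_lit 286)) (XT.lf (nat_lit 0) (nat_lit 32703153581) (nat_lit 152) (nat_lit 80310859740) (nat_lit 0) (nat_lit 321949189) (nat_lit 43) (nat_lit 5) (nat_lit 45) (nat_lit 4) (nat_lit 43) (nat_lit 4) (nat_lit 501) (nat_lit 414) (nat_lit 285)))))) (XT.nd (nat_lit 624) (nat_lit 532) (nat_lit 0) (XT.nd (nat_lit 312) (nat_lit 228)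 (nat_lit 0) (XT.nd (nat_lit 156) (nat_lit 152) (nat_lit 0) (XT.nd (nat_lit 78) (nat_lit 76) (nat_lit 0) (XT.lf (nat_lit 0) (nat_lit 67077989109) (nat_lit 152) (nat_lit 15512590811) (nat_lit 0) (nat_lit 34693930695) (nat_lit 43) (nat_lit 5) (nat_lit 45) (nat_lit 4) (nat_lit 43) (nat_lit 4) (nat_lit 502) (nat_lit 414) (nat_lit 284)) (XT.lf (nat_lit 0) (nat_lit 54250158349) (nat_lit 76) (nat_lit 49762524261) (nat_lit 76) (nat_lit 17375747733) (nat_lit 42) (nat_lit 4) (nat_lit 43) (nat_lit 5) (nat_lit 43) (nat_lit 4) (nat_lit 503) (nat_lit 414) (nat_lit 283))) (XT.nd (nat_lit 78) (nat_lit 0) (nat_lit 0) (XT.lf (nat_lit 0) (nat_lit 2140698910) (nat_lit 76) (nat_lit 14703234806) (nat_lit 152) (nat_lit 108825537811) (nat_lit 40) (nat_lit 5) (nat_lit 41) (nat_lit 5) (nat_lit 42) (nat_lit 4) (nat_lit 504) (nat_lit 414) (nat_lit 282)) (XT.lf (nat_lit 0) (nat_lit 53685634309) (nat_lit 152) (nat_lit 53553667552)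 (nat_lit 0) (nat_lit 22836271813) (nat_lit 40) (nat_lit 5) (nat_lit 42) (nat_lit 4) (nat_lit 40) (nat_lit 4) (nat_lit 505) (nat_lit 414) (nat_lit 281)))) (XT.nd (nat_lit 156) (nat_lit 152) (nat_lit 0) (XT.nd (nat_lit 78) (nat_lit 0) (nat_lit 0) (XT.lf (nat_lit 0) (nat_lit 20318238493) (nat_lit 76) (nat_lit 72603853768) (nat_lit 76) (nat_lit 41752255071) (nat_lit 39) (nat_lit 4) (nat_lit 40) (nat_lit 5) (nat_lit 40) (nat_lit 4) (nat_lit 506) (nat_lit 414) (nat_lit 280)) (XT.lf (nat_lit 0) (nat_lit 99731955190) (nat_lit 76) (nat_lit 35289879909) (nat_lit 76) (nat_lit 4436151498) (nat_lit 39) (nat_lit 4) (nat_lit 40) (nat_lit 5) (nat_lit 40) (nat_lit 4) (nat_lit 507) (nat_lit 414) (nat_lit 279))) (XT.nd (nat_lit 78) (nat_lit 0) (nat_lit 0) (XT.lf (nat_lit 0) (nat_lit 34322197526) (nat_lit 152) (nat_lit 105161297747) (nat_lit 0) (nat_lit 4935762563) (nat_lit 37) (nat_lit 5) (nat_lit 39) (nat_lit 4)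 (nat_lit 37) (nat_lit 4) (nat_lit 508) (nat_lit 414) (nat_lit 278)) (XT.lf (nat_lit 0) (nat_lit 76126398497) (nat_lit 152) (nat_lit 26697583252) (nat_lit 0) (nat_lit 46738123806) (nat_lit 37) (nat_lit 5) (nat_lit 39) (nat_lit 4) (nat_lit 37) (nat_lit 4) (nat_lit 509) (nat_lit 414) (nat_lit 277))))) (XT.nd (nat_lit 312) (nat_lit 304) (nat_lit 0) (XT.nd (nat_lit 156) (nat_lit 76) (nat_lit 0) (XT.nd (nat_lit 78) (nat_lit 76) (nat_lit 0) (XT.lf (nat_lit 0) (nat_lit 57520126649) (nat_lit 76) (nat_lit 63393673162) (nat_lit 76) (nat_lit 34003646350) (nat_lit 36) (nat_lit 4) (nat_lit 37) (nat_lit 5) (nat_lit 37) (nat_lit 4) (nat_lit 510) (nat_lit 414) (nat_lit 276)) (XT.lf (nat_lit 0) (nat_lit 7617661893) (nat_lit 152) (nat_lit 13775488617) (nat_lit 76) (nat_lit 139118901991) (nat_lit 35) (nat_lit 5) (nat_lit 37) (nat_lit 5) (nat_lit 36) (nat_lit 4) (nat_lit 511) (nat_lit 414) (nat_lit 275))) (XT.nd (nat_lit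 78) (nat_lit 0) (nat_lit 0) (XT.lf (nat_lit 0) (nat_lit 51740328591) (nat_lit 152) (nat_lit 90793312723) (nat_lit 0) (nat_lit 23746724091) (nat_lit 34) (nat_lit 5) (nat_lit 36) (nat_lit 4) (nat_lit 34) (nat_lit 4) (nat_lit 512) (nat_lit 414) (nat_lit 274)) (XT.lf (nat_lit 0) (nat_lit 98652143571) (nat_lit 152) (nat_lit 2998702055) (nat_lit 0) (nat_lit 70657097596) (nat_lit 34) (nat_lit 5) (nat_lit 36) (nat_lit 4) (nat_lit 34) (nat_lit 4) (nat_lit 513) (nat_lit 414) (nat_lit 273)))) (XT.nd (nat_lit 156) (nat_lit 76) (nat_lit 0) (XT.nd (nat_lit 78) (nat_lit 152) (nat_lit 0) (XT.lf (nat_lit 0) (nat_lit 92124960009) (nat_lit 76) (nat_lit 57218335710) (nat_lit 76) (nat_lit 29221916903) (nat_lit 33) (nat_lit 4) (nat_lit 34) (nat_lit 5) (nat_lit 34) (nat_lit 4) (nat_lit 514) (nat_lit 414) (nat_lit 272)) (XT.lf (nat_lit 0) (nat_lit 6915159128) (nat_lit 76) (nat_lit 10115516674) (nat_lit 152) (nat_lit 168083310199)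 (nat_lit 31) (nat_lit 5) (nat_lit 32) (nat_lit 5) (nat_lit 33) (nat_lit 4) (nat_lit 515) (nat_lit 414) (nat_lit 271))) (XT.nd (nat_lit 78) (nat_lit 76) (nat_lit 0) (XT.lf (nat_lit 0) (nat_lit 66711425785) (nat_lit 152) (nat_lit 85104202428) (nat_lit 0) (nat_lit 40045738673) (nat_lit 31) (nat_lit 5) (nat_lit 33) (nat_lit 4) (nat_lit 31) (nat_lit 4) (nat_lit 516) (nat_lit 414) (nat_lit 270)) (XT.nd (nat_lit 78) (nat_lit 0) (nat_lit 0) (XT.lf (nat_lit 0) (nat_lit 12882837794) (nat_lit 76) (nat_lit 106355982611) (nat_lit 76) (nat_lit 79689166065) (nat_lit 30) (nat_lit 4) (nat_lit 31) (nat_lit 5) (nat_lit 31) (nat_lit 4) (nat_lit 517) (nat_lit 414) (nat_lit 269)) (XT.lf (nat_lit 0) (nat_lit 118715179433) (nat_lit 76) (nat_lit 57114400036) (nat_lit 76) (nat_lit 30446507840) (nat_lit 30) (nat_lit 4) (nat_lit 31) (nat_lit 5) (nat_lit 31) (nat_lit 4) (nat_lit 518) (nat_lit 414) (nat_lit 268))))))))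
noncomputable def xc253 : XT := (XT.nd (nat_lit 1248) (nat_lit 684) (nat_lit 0) (XT.nd (nat_lit 624) (nat_lit 380) (nat_lit 0) (XT.nd (nat_lit 312) (nat_lit 228) (nat_lit 0) (XT.nd (nat_lit 156) (nat_lit 76) (nat_lit 0) (XT.nd (nat_lit 78) (nat_lit 0) (nat_lit 0) (XT.lf (nat_lit 0) (nat_lit 16019982711) (nat_lit 76) (nat_lit 4803870623) (nat_lit 152) (nat_lit 193138846403) (nat_lit 28) (nat_lit 5) (nat_lit 29) (nat_lit 5) (nat_lit 30) (nat_lit 4) (nat_lit 519) (nat_lit 414) (nat_lit 267)) (XT.lf (nat_lit 0) (nat_lit 75920128229) (nat_lit 152) (nat_lit 95454047687) (nat_lit 0) (nat_lit 50520230827) (nat_lit 28) (nat_lit 5) (nat_lit 30) (nat_lit 4) (nat_lit 28) (nat_lit 4) (nat_lit 520) (nat_lit 414) (nat_lit 266))) (XT.nd (nat_lit 78) (nat_lit 0) (nat_lit 0) (XT.lf (nat_lit 0) (nat_lit 12471464484) (nat_lit 76) (nat_lit 121569270531) (nat_lit 76) (nat_lit 96168488188) (nat_lit 27) (nat_lit 4) (nat_lit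 28) (nat_lit 5) (nat_lit 28) (nat_lit 4) (nat_lit 521) (nat_lit 414) (nat_lit 265)) (XT.lf (nat_lit 0) (nat_lit 129099326938) (nat_lit 76) (nat_lit 67580722418) (nat_lit 76) (nat_lit 42179097276) (nat_lit 27) (nat_lit 4) (nat_lit 28) (nat_lit 5) (nat_lit 28) (nat_lit 4) (nat_lit 522) (nat_lit 414) (nat_lit 264)))) (XT.nd (nat_lit 156) (nat_lit 76) (nat_lit 0) (XT.nd (nat_lit 78) (nat_lit 0) (nat_lit 0) (XT.lf (nat_lit 0) (nat_lit 3494707014) (nat_lit 76) (nat_lit 10601456314) (nat_lit 152) (nat_lit 233831535851) (nat_lit 25) (nat_lit 5) (nat_lit 26) (nat_lit 5) (nat_lit 27) (nat_lit 4) (nat_lit 523) (nat_lit 414) (nat_lit 263)) (XT.lf (nat_lit 0) (nat_lit 74421812490) (nat_lit 152) (nat_lit 132632291794) (nat_lit 0) (nat_lit 50228296056) (nat_lit 25) (nat_lit 5) (nat_lit 27) (nat_lit 4) (nat_lit 25) (nat_lit 4) (nat_lit 524) (nat_lit 414) (nat_lit 262))) (XT.nd (nat_lit 78) (nat_lit 76) (nat_lit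 0) (XT.lf (nat_lit 0) (nat_lit 137933960876) (nat_lit 152) (nat_lit 15422613784) (nat_lit 0) (nat_lit 113739751069) (nat_lit 25) (nat_lit 5) (nat_lit 27) (nat_lit 4) (nat_lit 25) (nat_lit 4) (nat_lit 525) (nat_lit 414) (nat_lit 261)) (XT.lf (nat_lit 0) (nat_lit 111199716348) (nat_lit 76) (nat_lit 95154732305) (nat_lit 76) (nat_lit 70959862142) (nat_lit 24) (nat_lit 4) (nat_lit 25) (nat_lit 5) (nat_lit 25) (nat_lit 4) (nat_lit 526) (nat_lit 414) (nat_lit 260))))) (XT.nd (nat_lit 312) (nat_lit 152) (nat_lit 0) (XT.nd (nat_lit 156) (nat_lit 76) (nat_lit 0) (XT.nd (nat_lit 78) (nat_lit 152) (nat_lit 0) (XT.lf (nat_lit 0) (nat_lit 244681795725) (nat_lit 76) (nat_lit 33772003280) (nat_lit 76) (nat_lit 9576504207) (nat_lit 24) (nat_lit 4) (nat_lit 25) (nat_lit 5) (nat_lit 25) (nat_lit 4) (nat_lit 527) (nat_lit 414) (nat_lit 259)) (XT.lf (nat_lit 0) (nat_lit 54997796105) (nat_lit 152) (nat_lit 212193660019)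 (nat_lit 0) (nat_lit 31953893213) (nat_lit 22) (nat_lit 5) (nat_lit 24) (nat_lit 4) (nat_lit 22) (nat_lit 4) (nat_lit 528) (nat_lit 414) (nat_lit 258))) (XT.nd (nat_lit 78) (nat_lit 76) (nat_lit 0) (XT.lf (nat_lit 0) (nat_lit 123775538211) (nat_lit 152) (nat_lit 86236839921) (nat_lit 0) (nat_lit 100731092042) (nat_lit 22) (nat_lit 5) (nat_lit 24) (nat_lit 4) (nat_lit 22) (nat_lit 4) (nat_lit 529) (nat_lit 414) (nat_lit 257)) (XT.lf (nat_lit 0) (nat_lit 47532893815) (nat_lit 76) (nat_lit 149198307560) (nat_lit 76) (nat_lit 126153343986) (nat_lit 21) (nat_lit 4) (nat_lit 22) (nat_lit 5) (nat_lit 22) (nat_lit 4) (nat_lit 530) (nat_lit 414) (nat_lit 256)))) (XT.nd (nat_lit 156) (nat_lit 76) (nat_lit 0) (XT.nd (nat_lit 78) (nat_lit 76) (nat_lit 0) (XT.lf (nat_lit 0) (nat_lit 190978887015) (nat_lit 76) (nat_lit 83813186182) (nat_lit 76) (nat_lit 60767729840) (nat_lit 21) (nat_lit 4) (nat_lit 22) (nat_lit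 5) (nat_lit 22) (nat_lit 4) (nat_lit 531) (nat_lit 414) (nat_lit 255)) (XT.lf (nat_lit 0) (nat_lit 7631786565) (nat_lit 152) (nat_lit 7400763186) (nat_lit 76) (nat_lit 333830263810) (nat_lit 20) (nat_lit 5) (nat_lit 22) (nat_lit 5) (nat_lit 21) (nat_lit 4) (nat_lit 532) (nat_lit 414) (nat_lit 254))) (XT.nd (nat_lit 78) (nat_lit 0) (nat_lit 0) (XT.lf (nat_lit 0) (nat_lit 80538971060) (nat_lit 152) (nat_lit 223495654843) (nat_lit 0) (nat_lit 58590044773) (nat_lit 19) (nat_lit 5) (nat_lit 21) (nat_lit 4) (nat_lit 19) (nat_lit 4) (nat_lit 533) (nat_lit 414) (nat_lit 253)) (XT.lf (nat_lit 0) (nat_lit 157462541688) (nat_lit 152) (nat_lit 84080317617) (nat_lit 0) (nat_lit 135513210001) (nat_lit 19) (nat_lit 5) (nat_lit 21) (nat_lit 4) (nat_lit 19) (nat_lit 4) (nat_lit 534) (nat_lit 414) (nat_lit 252)))))) (XT.nd (nat_lit 624) (nat_lit 380) (nat_lit 0) (XT.nd (nat_lit 312) (nat_lit 76) (nat_lit 0) (XT.nd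 (nat_lit 156) (nat_lit 152) (nat_lit 0) (XT.nd (nat_lit 78) (nat_lit 0) (nat_lit 0) (XT.lf (nat_lit 0) (nat_lit 64360293599) (nat_lit 76) (nat_lit 174874176546) (nat_lit 76) (nat_lit 152924458761) (nat_lit 18) (nat_lit 4) (nat_lit 19) (nat_lit 5) (nat_lit 19) (nat_lit 4) (nat_lit 535) (nat_lit 414) (nat_lit 251)) (XT.lf (nat_lit 0) (nat_lit 223136677430) (nat_lit 76) (nat_lit 103379636798) (nat_lit 76) (nat_lit 81429551303) (nat_lit 18) (nat_lit 4) (nat_lit 19) (nat_lit 5) (nat_lit 19) (nat_lit 4) (nat_lit 536) (nat_lit 414) (nat_lit 250))) (XT.nd (nat_lit 78) (nat_lit 152) (nat_lit 0) (XT.lf (nat_lit 0) (nat_lit 389846797865) (nat_lit 76) (nat_lit 28312955831) (nat_lit 76) (nat_lit 6362520135) (nat_lit 18) (nat_lit 4) (nat_lit 19) (nat_lit 5) (nat_lit 19) (nat_lit 4) (nat_lit 537) (nat_lit 414) (nat_lit 249)) (XT.lf (nat_lit 0) (nat_lit 72940596950) (nat_lit 152) (nat_lit 316755147707) (nat_lit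 0) (nat_lit 52035102453) (nat_lit 16) (nat_lit 5) (nat_lit 18) (nat_lit 4) (nat_lit 16) (nat_lit 4) (nat_lit 538) (nat_lit 414) (nat_lit 248)))) (XT.nd (nat_lit 156) (nat_lit 76) (nat_lit 0) (XT.nd (nat_lit 78) (nat_lit 0) (nat_lit 0) (XT.lf (nat_lit 0) (nat_lit 157053651388) (nat_lit 152) (nat_lit 166540197918) (nat_lit 0) (nat_lit 136147854375) (nat_lit 16) (nat_lit 5) (nat_lit 18) (nat_lit 4) (nat_lit 16) (nat_lit 4) (nat_lit 539) (nat_lit 414) (nat_lit 247)) (XT.lf (nat_lit 0) (nat_lit 245370057724) (nat_lit 152) (nat_lit 8819187802) (nat_lit 0) (nat_lit 224463972600) (nat_lit 16) (nat_lit 5) (nat_lit 18) (nat_lit 4) (nat_lit 16) (nat_lit 4) (nat_lit 540) (nat_lit 414) (nat_lit 246))) (XT.nd (nat_lit 78) (nat_lit 0) (nat_lit 0) (XT.lf (nat_lit 0) (nat_lit 161967376405) (nat_lit 76) (nat_lit 178661481368) (nat_lit 76) (nat_lit 157755121853) (nat_lit 15) (nat_lit 4) (nat_lit 16) (nat_lit 5) (nat_lit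 16) (nat_lit 4) (nat_lit 541) (nat_lit 414) (nat_lit 245)) (XT.lf (nat_lit 0) (nat_lit 341595059143) (nat_lit 76) (nat_lit 99202740407) (nat_lit 76) (nat_lit 78296119566) (nat_lit 15) (nat_lit 4) (nat_lit 16) (nat_lit 5) (nat_lit 16) (nat_lit 4) (nat_lit 542) (nat_lit 414) (nat_lit 244))))) (XT.nd (nat_lit 312) (nat_lit 228) (nat_lit 0) (XT.nd (nat_lit 156) (nat_lit 0) (nat_lit 0) (XT.nd (nat_lit 78) (nat_lit 76) (nat_lit 0) (XT.lf (nat_lit 0) (nat_lit 4969367609) (nat_lit 152) (nat_lit 10719666123) (nat_lit 76) (nat_lit 525146416941) (nat_lit 14) (nat_lit 5) (nat_lit 16) (nat_lit 5) (nat_lit 15) (nat_lit 4) (nat_lit 543) (nat_lit 414) (nat_lit 243)) (XT.lf (nat_lit 0) (nat_lit 93583964930) (nat_lit 152) (nat_lit 396152627100) (nat_lit 0) (nat_lit 73672434690) (nat_lit 13) (nat_lit 5) (nat_lit 15) (nat_lit 4) (nat_lit 13) (nat_lit 4) (nat_lit 544) (nat_lit 414) (nat_lit 242))) (XT.nd (nat_lit 78)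 (nat_lit 0) (nat_lit 0) (XT.lf (nat_lit 0) (nat_lit 187069021832) (nat_lit 152) (nat_lit 232862996656) (nat_lit 0) (nat_lit 167157276599) (nat_lit 13) (nat_lit 5) (nat_lit 15) (nat_lit 4) (nat_lit 13) (nat_lit 4) (nat_lit 545) (nat_lit 414) (nat_lit 241)) (XT.lf (nat_lit 0) (nat_lit 285226439767) (nat_lit 152) (nat_lit 61412741919) (nat_lit 0) (nat_lit 265314489778) (nat_lit 13) (nat_lit 5) (nat_lit 15) (nat_lit 4) (nat_lit 13) (nat_lit 4) (nat_lit 546) (nat_lit 414) (nat_lit 240)))) (XT.nd (nat_lit 156) (nat_lit 152) (nat_lit 0) (XT.nd (nat_lit 78) (nat_lit 0) (nat_lit 0) (XT.lf (nat_lit 0) (nat_lit 122528013641) (nat_lit 76) (nat_lit 267674918909) (nat_lit 76) (nat_lit 247762773915) (nat_lit 12) (nat_lit 4) (nat_lit 13) (nat_lit 5) (nat_lit 13) (nat_lit 4) (nat_lit 547) (nat_lit 414) (nat_lit 239)) (XT.lf (nat_lit 0) (nat_lit 317794304403) (nat_lit 76) (nat_lit 183672227710) (nat_lit 76) (nat_lit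 163759896997) (nat_lit 12) (nat_lit 4) (nat_lit 13) (nat_lit 5) (nat_lit 13) (nat_lit 4) (nat_lit 548) (nat_lit 414) (nat_lit 238))) (XT.nd (nat_lit 78) (nat_lit 152) (nat_lit 0) (XT.lf (nat_lit 0) (nat_lit 522820467513) (nat_lit 76) (nat_lit 95471156182) (nat_lit 76) (nat_lit 75558648594) (nat_lit 12) (nat_lit 4) (nat_lit 13) (nat_lit 5) (nat_lit 13) (nat_lit 4) (nat_lit 549) (nat_lit 414) (nat_lit 237)) (XT.nd (nat_lit 78) (nat_lit 0) (nat_lit 0) (XT.lf (nat_lit 0) (nat_lit 14383418207) (nat_lit 76) (nat_lit 2346383864) (nat_lit 152) (nat_lit 707151046987) (nat_lit 10) (nat_lit 5) (nat_lit 11) (nat_lit 5) (nat_lit 12) (nat_lit 4) (nat_lit 550) (nat_lit 414) (nat_lit 236)) (XT.lf (nat_lit 0) (nat_lit 115525733442) (nat_lit 152) (nat_lit 543042544418) (nat_lit 0) (nat_lit 96561127278) (nat_lit 10) (nat_lit 5) (nat_lit 12) (nat_lit 4) (nat_lit 10) (nat_lit 4) (nat_lit 551) (nat_lit 414) (nat_lit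 235))))))))
noncomputable def xc254 : XT := (XT.nd (nat_lit 52806) (nat_lit 0) (nat_lit 7904) (XT.nd (nat_lit 52182) (nat_lit 0) (nat_lit 11324) (XT.nd (nat_lit 51870) (nat_lit 0) (nat_lit 12540) (XT.nd (nat_lit 156) (nat_lit 76) (nat_lit 0) (XT.nd (nat_lit 78) (nat_lit 0) (nat_lit 0) (XT.lf (nat_lit 0) (nat_lit 219298371060) (nat_lit 152) (nat_lit 368306553098) (nat_lit 0) (nat_lit 200333619381) (nat_lit 10) (nat_lit 5) (nat_lit 12) (nat_lit 4) (nat_lit 10) (nat_lit 4) (nat_lit 552) (nat_lit 414) (nat_lit 234)) (XT.lf (nat_lit 0) (nat_lit 328258159007) (nat_lit 152) (nat_lit 184836785190) (nat_lit 0) (nat_lit 309293268741) (nat_lit 10) (nat_lit 5) (nat_lit 12) (nat_lit 4) (nat_lit 10) (nat_lit 4) (nat_lit 553) (nat_lit 414) (nat_lit 233))) (XT.nd (nat_lit 51636) (nat_lit 0) (nat_lit 12540) (XT.lf (nat_lit 0) (nat_lit 8061614083) (nat_lit 76) (nat_lit 434728775656) (nat_lit 76) (nat_lit 415763753403)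 (nat_lit 9) (nat_lit 4) (nat_lit 10) (nat_lit 5) (nat_lit 10) (nat_lit 4) (nat_lit 554) (nat_lit 414) (nat_lit 232)) (XT.lf (nat_lit 0) (nat_lit 13782441) (nat_lit 0) (nat_lit 13782441) (nat_lit 684) (nat_lit 4499616470) (nat_lit 174) (nat_lit 5) (nat_lit 174) (nat_lit 3) (nat_lit 183) (nat_lit 3) (nat_lit 415) (nat_lit 415) (nat_lit 370)))) (XT.nd (nat_lit 156) (nat_lit 0) (nat_lit 76) (XT.nd (nat_lit 78) (nat_lit 0) (nat_lit 0) (XT.lf (nat_lit 0) (nat_lit 1005087574) (nat_lit 684) (nat_lit 4561721236) (nat_lit 760) (nat_lit 3666410715) (nat_lit 174) (nat_lit 5) (nat_lit 183) (nat_lit 3) (nat_lit 184) (nat_lit 5) (nat_lit 416) (nat_lit 415) (nat_lit 369)) (XT.lf (nat_lit 76) (nat_lit 97514686) (nat_lit 0) (nat_lit 1850511891) (nat_lit 760) (nat_lit 7475723137) (nat_lit 175) (nat_lit 5) (nat_lit 174) (nat_lit 5) (nat_lit 184) (nat_lit 5) (nat_lit 417) (nat_lit 415) (nat_lit 368))) (XT.nd (nat_lit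 78) (nat_lit 0) (nat_lit 0) (XT.lf (nat_lit 0) (nat_lit 2994735937) (nat_lit 684) (nat_lit 4539486260) (nat_lit 760) (nat_lit 2086757511) (nat_lit 175) (nat_lit 5) (nat_lit 184) (nat_lit 5) (nat_lit 185) (nat_lit 5) (nat_lit 418) (nat_lit 415) (nat_lit 367)) (XT.lf (nat_lit 76) (nat_lit 437573569) (nat_lit 0) (nat_lit 3642014018) (nat_lit 760) (nat_lit 5749197528) (nat_lit 176) (nat_lit 5) (nat_lit 175) (nat_lit 5) (nat_lit 185) (nat_lit 5) (nat_lit 419) (nat_lit 415) (nat_lit 366))))) (XT.nd (nat_lit 312) (nat_lit 1368) (nat_lit 0) (XT.nd (nat_lit 156) (nat_lit 0) (nat_lit 0) (XT.nd (nat_lit 78) (nat_lit 0) (nat_lit 0) (XT.lf (nat_lit 0) (nat_lit 5254616832) (nat_lit 684) (nat_lit 4265166831) (nat_lit 760) (nat_lit 525404430) (nat_lit 176) (nat_lit 5) (nat_lit 185) (nat_lit 5) (nat_lit 186) (nat_lit 5) (nat_lit 420) (nat_lit 415) (nat_lit 365)) (XT.lf (nat_lit 76) (nat_lit 1058090857) (nat_lit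 0) (nat_lit 5459723659) (nat_lit 760) (nat_lit 3753129713) (nat_lit 177) (nat_lit 5) (nat_lit 176) (nat_lit 5) (nat_lit 186) (nat_lit 5) (nat_lit 421) (nat_lit 415) (nat_lit 364))) (XT.nd (nat_lit 78) (nat_lit 0) (nat_lit 76) (XT.lf (nat_lit 76) (nat_lit 6762875043) (nat_lit 0) (nat_lit 1108439973) (nat_lit 760) (nat_lit 2635319683) (nat_lit 177) (nat_lit 5) (nat_lit 176) (nat_lit 5) (nat_lit 186) (nat_lit 5) (nat_lit 422) (nat_lit 415) (nat_lit 363)) (XT.lf (nat_lit 76) (nat_lit 1974467130) (nat_lit 0) (nat_lit 7360118469) (nat_lit 760) (nat_lit 1417422842) (nat_lit 178) (nat_lit 5) (nat_lit 177) (nat_lit 5) (nat_lit 187) (nat_lit 5) (nat_lit 423) (nat_lit 415) (nat_lit 362)))) (XT.nd (nat_lit 156) (nat_lit 760) (nat_lit 0) (XT.nd (nat_lit 78) (nat_lit 684) (nat_lit 0) (XT.lf (nat_lit 76) (nat_lit 8056858110) (nat_lit 0) (nat_lit 2854205153) (nat_lit 760) (nat_lit 96588762) (nat_lit 178) (nat_lit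 5) (nat_lit 177) (nat_lit 5) (nat_lit 187) (nat_lit 5) (nat_lit 424) (nat_lit 415) (nat_lit 361)) (XT.lf (nat_lit 0) (nat_lit 1289874274) (nat_lit 760) (nat_lit 8087710223) (nat_lit 76) (nat_lit 1895444841) (nat_lit 168) (nat_lit 5) (nat_lit 178) (nat_lit 5) (nat_lit 169) (nat_lit 5) (nat_lit 425) (nat_lit 415) (nat_lit 360))) (XT.nd (nat_lit 78) (nat_lit 760) (nat_lit 0) (XT.lf (nat_lit 0) (nat_lit 2801574579) (nat_lit 760) (nat_lit 1901891571) (nat_lit 76) (nat_lit 6845175067) (nat_lit 168) (nat_lit 5) (nat_lit 178) (nat_lit 5) (nat_lit 169) (nat_lit 5) (nat_lit 426) (nat_lit 415) (nat_lit 359)) (XT.lf (nat_lit 0) (nat_lit 4430285019) (nat_lit 836) (nat_lit 7129209622) (nat_lit 76) (nat_lit 276470536) (nat_lit 158) (nat_lit 5) (nat_lit 169) (nat_lit 5) (nat_lit 159) (nat_lit 5) (nat_lit 427) (nat_lit 415) (nat_lit 358)))))) (XT.nd (nat_lit 624) (nat_lit 1824) (nat_lit 0) (XT.nd (nat_lit 312)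 (nat_lit 760) (nat_lit 0) (XT.nd (nat_lit 156) (nat_lit 380) (nat_lit 0) (XT.nd (nat_lit 78) (nat_lit 456) (nat_lit 0) (XT.lf (nat_lit 0) (nat_lit 6214975281) (nat_lit 836) (nat_lit 535686453) (nat_lit 76) (nat_lit 5383268997) (nat_lit 158) (nat_lit 5) (nat_lit 169) (nat_lit 5) (nat_lit 159) (nat_lit 5) (nat_lit 428) (nat_lit 415) (nat_lit 357)) (XT.lf (nat_lit 0) (nat_lit 6565387233) (nat_lit 456) (nat_lit 1592398649) (nat_lit 532) (nat_lit 4285566876) (nat_lit 152) (nat_lit 5) (nat_lit 158) (nat_lit 5) (nat_lit 159) (nat_lit 5) (nat_lit 429) (nat_lit 415) (nat_lit 356))) (XT.nd (nat_lit 78) (nat_lit 0) (nat_lit 0) (XT.lf (nat_lit 0) (nat_lit 1218078839) (nat_lit 380) (nat_lit 9035095676) (nat_lit 456) (nat_lit 2512301866) (nat_lit 147) (nat_lit 5) (nat_lit 152) (nat_lit 5) (nat_lit 153) (nat_lit 5) (nat_lit 430) (nat_lit 415) (nat_lit 355)) (XT.lf (nat_lit 0) (nat_lit 8813186610) (nat_lit 380)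 (nat_lit 3733910096) (nat_lit 456) (nat_lit 551923528) (nat_lit 147) (nat_lit 5) (nat_lit 152) (nat_lit 5) (nat_lit 153) (nat_lit 5) (nat_lit 431) (nat_lit 415) (nat_lit 354)))) (XT.nd (nat_lit 156) (nat_lit 304) (nat_lit 0) (XT.nd (nat_lit 78) (nat_lit 0) (nat_lit 0) (XT.lf (nat_lit 0) (nat_lit 1510580948) (nat_lit 456) (nat_lit 10085222555) (nat_lit 76) (nat_lit 1849647620) (nat_lit 141) (nat_lit 5) (nat_lit 147) (nat_lit 5) (nat_lit 142) (nat_lit 5) (nat_lit 432) (nat_lit 415) (nat_lit 353)) (XT.lf (nat_lit 0) (nat_lit 3763105010) (nat_lit 456) (nat_lit 2372842641) (nat_lit 76) (nat_lit 7667533327) (nat_lit 141) (nat_lit 5) (nat_lit 147) (nat_lit 5) (nat_lit 142) (nat_lit 5) (nat_lit 433) (nat_lit 415) (nat_lit 352))) (XT.nd (nat_lit 78) (nat_lit 0) (nat_lit 0) (XT.lf (nat_lit 0) (nat_lit 5881784278) (nat_lit 304) (nat_lit 310167297) (nat_lit 380) (nat_lit 7984277792) (nat_lit 137) (nat_lit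 5) (nat_lit 141) (nat_lit 5) (nat_lit 142) (nat_lit 5) (nat_lit 434) (nat_lit 415) (nat_lit 351)) (XT.lf (nat_lit 0) (nat_lit 8846405739) (nat_lit 380) (nat_lit 57826084) (nat_lit 76) (nat_lit 5658176856) (nat_lit 137) (nat_lit 5) (nat_lit 142) (nat_lit 5) (nat_lit 138) (nat_lit 5) (nat_lit 435) (nat_lit 415) (nat_lit 350))))) (XT.nd (nat_lit 312) (nat_lit 836) (nat_lit 0) (XT.nd (nat_lit 156) (nat_lit 380) (nat_lit 0) (XT.nd (nat_lit 78) (nat_lit 304) (nat_lit 0) (XT.lf (nat_lit 0) (nat_lit 8837517125) (nat_lit 304) (nat_lit 2913089789) (nat_lit 380) (nat_lit 3211440512) (nat_lit 133) (nat_lit 5) (nat_lit 137) (nat_lit 5) (nat_lit 138) (nat_lit 5) (nat_lit 436) (nat_lit 415) (nat_lit 349)) (XT.lf (nat_lit 0) (nat_lit 2803427858) (nat_lit 304) (nat_lit 12068736056) (nat_lit 380) (nat_lit 505898510) (nat_lit 129) (nat_lit 5) (nat_lit 133) (nat_lit 5) (nat_lit 134) (nat_lit 5) (nat_lit 437) (nat_lit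 415) (nat_lit 348))) (XT.nd (nat_lit 78) (nat_lit 304) (nat_lit 0) (XT.lf (nat_lit 0) (nat_lit 2388330600) (nat_lit 380) (nat_lit 3537074286) (nat_lit 76) (nat_lit 9881244906) (nat_lit 128) (nat_lit 5) (nat_lit 133) (nat_lit 5) (nat_lit 129) (nat_lit 5) (nat_lit 438) (nat_lit 415) (nat_lit 347)) (XT.lf (nat_lit 0) (nat_lit 5491604314) (nat_lit 380) (nat_lit 10153234955) (nat_lit 76) (nat_lit 607347240) (nat_lit 124) (nat_lit 5) (nat_lit 129) (nat_lit 5) (nat_lit 125) (nat_lit 5) (nat_lit 439) (nat_lit 415) (nat_lit 346)))) (XT.nd (nat_lit 156) (nat_lit 608) (nat_lit 0) (XT.nd (nat_lit 78) (nat_lit 228) (nat_lit 0) (XT.lf (nat_lit 0) (nat_lit 8884784276) (nat_lit 380) (nat_lit 506479497) (nat_lit 76) (nat_lit 7322000481) (nat_lit 124) (nat_lit 5) (nat_lit 129) (nat_lit 5) (nat_lit 125) (nat_lit 5) (nat_lit 440) (nat_lit 415) (nat_lit 345)) (XT.lf (nat_lit 0) (nat_lit 9910347040) (nat_lit 228) (nat_lit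 2669833733) (nat_lit 304) (nat_lit 4610588491) (nat_lit 121) (nat_lit 5) (nat_lit 124) (nat_lit 5) (nat_lit 125) (nat_lit 5) (nat_lit 441) (nat_lit 415) (nat_lit 344))) (XT.nd (nat_lit 78) (nat_lit 304) (nat_lit 0) (XT.lf (nat_lit 0) (nat_lit 3176968189) (nat_lit 304) (nat_lit 13388518834) (nat_lit 380) (nat_lit 1121406703) (nat_lit 117) (nat_lit 5) (nat_lit 121) (nat_lit 5) (nat_lit 122) (nat_lit 5) (nat_lit 442) (nat_lit 415) (nat_lit 343)) (XT.nd (nat_lit 78) (nat_lit 228) (nat_lit 0) (XT.lf (nat_lit 0) (nat_lit 2608495303) (nat_lit 380) (nat_lit 3907327880) (nat_lit 76) (nat_lit 11682636317) (nat_lit 116) (nat_lit 5) (nat_lit 121) (nat_lit 5) (nat_lit 117) (nat_lit 5) (nat_lit 443) (nat_lit 415) (nat_lit 342)) (XT.lf (nat_lit 0) (nat_lit 6595554890) (nat_lit 304) (nat_lit 11327301632) (nat_lit 76) (nat_lit 806411434) (nat_lit 113) (nat_lit 5) (nat_lit 117) (nat_lit 5) (nat_lit 114) (nat_lit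 5) (nat_lit 444) (nat_lit 415) (nat_lit 341))))))))
noncomputable def xc255 : XT := (XT.nd (nat_lit 1248) (nat_lit 1596) (nat_lit 0) (XT.nd (nat_lit 624) (nat_lit 912) (nat_lit 0) (XT.nd (nat_lit 312) (nat_lit 684) (nat_lit 0) (XT.nd (nat_lit 156) (nat_lit 228) (nat_lit 0) (XT.nd (nat_lit 78) (nat_lit 228) (nat_lit 0) (XT.lf (nat_lit 0) (nat_lit 10936006315) (nat_lit 304) (nat_lit 7971831) (nat_lit 76) (nat_lit 8334937730) (nat_lit 113) (nat_lit 5) (nat_lit 117) (nat_lit 5) (nat_lit 114) (nat_lit 5) (nat_lit 445) (nat_lit 415) (nat_lit 340)) (XT.lf (nat_lit 0) (nat_lit 12241371568) (nat_lit 228) (nat_lit 3424149719) (nat_lit 304) (nat_lit 4181923794) (nat_lit 110) (nat_lit 5) (nat_lit 113) (nat_lit 5) (nat_lit 114) (nat_lit 5) (nat_lit 446) (nat_lit 415) (nat_lit 339))) (XT.nd (nat_lit 78) (nat_lit 0) (nat_lit 0) (XT.lf (nat_lit 0) (nat_lit 307951957) (nat_lit 228) (nat_lit 15731170366) (nat_lit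 76) (nat_lit 4398791735) (nat_lit 107) (nat_lit 5) (nat_lit 110) (nat_lit 5) (nat_lit 108) (nat_lit 5) (nat_lit 447) (nat_lit 415) (nat_lit 338)) (XT.lf (nat_lit 0) (nat_lit 5050264562) (nat_lit 228) (nat_lit 3307262046) (nat_lit 76) (nat_lit 12688528723) (nat_lit 107) (nat_lit 5) (nat_lit 110) (nat_lit 5) (nat_lit 108) (nat_lit 5) (nat_lit 448) (nat_lit 415) (nat_lit 337)))) (XT.nd (nat_lit 156) (nat_lit 304) (nat_lit 0) (XT.nd (nat_lit 78) (nat_lit 152) (nat_lit 0) (XT.lf (nat_lit 0) (nat_lit 10032012320) (nat_lit 228) (nat_lit 136618123) (nat_lit 304) (nat_lit 11509027114) (nat_lit 104) (nat_lit 5) (nat_lit 107) (nat_lit 5) (nat_lit 108) (nat_lit 5) (nat_lit 449) (nat_lit 415) (nat_lit 336)) (XT.lf (nat_lit 0) (nat_lit 1708973192) (nat_lit 152) (nat_lit 14032782349) (nat_lit 228) (nat_lit 6589143042) (nat_lit 102) (nat_lit 5) (nat_lit 104) (nat_lit 5) (nat_lit 105) (nat_lit 5) (nat_lit 450)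 (nat_lit 415) (nat_lit 335))) (XT.nd (nat_lit 78) (nat_lit 304) (nat_lit 0) (XT.lf (nat_lit 0) (nat_lit 16106555990) (nat_lit 152) (nat_lit 5669414808) (nat_lit 228) (nat_lit 1231709866) (nat_lit 102) (nat_lit 5) (nat_lit 104) (nat_lit 5) (nat_lit 105) (nat_lit 5) (nat_lit 451) (nat_lit 415) (nat_lit 334)) (XT.lf (nat_lit 0) (nat_lit 4407578586) (nat_lit 304) (nat_lit 16105111723) (nat_lit 76) (nat_lit 3194452053) (nat_lit 98) (nat_lit 5) (nat_lit 102) (nat_lit 5) (nat_lit 99) (nat_lit 5) (nat_lit 452) (nat_lit 415) (nat_lit 333))))) (XT.nd (nat_lit 312) (nat_lit 532) (nat_lit 0) (XT.nd (nat_lit 156) (nat_lit 228) (nat_lit 0) (XT.nd (nat_lit 78) (nat_lit 152) (nat_lit 0) (XT.lf (nat_lit 0) (nat_lit 10482952475) (nat_lit 304) (nat_lit 1507115963) (nat_lit 76) (nat_lit 12440723987) (nat_lit 98) (nat_lit 5) (nat_lit 102) (nat_lit 5) (nat_lit 99) (nat_lit 5) (nat_lit 453) (nat_lit 415) (nat_lit 332))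 (XT.lf (nat_lit 0) (nat_lit 14251912120) (nat_lit 152) (nat_lit 2817250907) (nat_lit 228) (nat_lit 8111109140) (nat_lit 96) (nat_lit 5) (nat_lit 98) (nat_lit 5) (nat_lit 99) (nat_lit 5) (nat_lit 454) (nat_lit 415) (nat_lit 331))) (XT.nd (nat_lit 78) (nat_lit 76) (nat_lit 0) (XT.lf (nat_lit 0) (nat_lit 4910401058) (nat_lit 152) (nat_lit 19268037385) (nat_lit 228) (nat_lit 1779100283) (nat_lit 94) (nat_lit 5) (nat_lit 96) (nat_lit 5) (nat_lit 97) (nat_lit 5) (nat_lit 455) (nat_lit 415) (nat_lit 330)) (XT.lf (nat_lit 0) (nat_lit 4932801614) (nat_lit 228) (nat_lit 4994467018) (nat_lit 76) (nat_lit 16831641781) (nat_lit 93) (nat_lit 5) (nat_lit 96) (nat_lit 5) (nat_lit 94) (nat_lit 5) (nat_lit 456) (nat_lit 415) (nat_lit 329)))) (XT.nd (nat_lit 156) (nat_lit 228) (nat_lit 0) (XT.nd (nat_lit 78) (nat_lit 152) (nat_lit 0) (XT.lf (nat_lit 0) (nat_lit 12098110665) (nat_lit 228) (nat_lit 15393702752) (nat_lit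 76) (nat_lit 98199388) (nat_lit 91) (nat_lit 5) (nat_lit 94) (nat_lit 5) (nat_lit 92) (nat_lit 5) (nat_lit 457) (nat_lit 415) (nat_lit 328)) (XT.lf (nat_lit 0) (nat_lit 1831805099) (nat_lit 152) (nat_lit 18052931807) (nat_lit 228) (nat_lit 8564781274) (nat_lit 89) (nat_lit 5) (nat_lit 91) (nat_lit 5) (nat_lit 92) (nat_lit 5) (nat_lit 458) (nat_lit 415) (nat_lit 327))) (XT.nd (nat_lit 78) (nat_lit 228) (nat_lit 0) (XT.lf (nat_lit 0) (nat_lit 20429137661) (nat_lit 152) (nat_lit 7878302431) (nat_lit 228) (nat_lit 1032221877) (nat_lit 89) (nat_lit 5) (nat_lit 91) (nat_lit 5) (nat_lit 92) (nat_lit 5) (nat_lit 459) (nat_lit 415) (nat_lit 326)) (XT.lf (nat_lit 0) (nat_lit 6845336741) (nat_lit 228) (nat_lit 20442572043) (nat_lit 76) (nat_lit 2971612266) (nat_lit 86) (nat_lit 5) (nat_lit 89) (nat_lit 5) (nat_lit 87) (nat_lit 5) (nat_lit 460) (nat_lit 415) (nat_lit 325)))))) (XT.nd (nat_lit 624) (nat_lit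 836) (nat_lit 0) (XT.nd (nat_lit 312) (nat_lit 456) (nat_lit 0) (XT.nd (nat_lit 156) (nat_lit 152) (nat_lit 0) (XT.nd (nat_lit 78) (nat_lit 152) (nat_lit 0) (XT.lf (nat_lit 0) (nat_lit 15351243357) (nat_lit 228) (nat_lit 1599558954) (nat_lit 76) (nat_lit 14260267086) (nat_lit 86) (nat_lit 5) (nat_lit 89) (nat_lit 5) (nat_lit 87) (nat_lit 5) (nat_lit 461) (nat_lit 415) (nat_lit 324)) (XT.lf (nat_lit 0) (nat_lit 18763946999) (nat_lit 152) (nat_lit 5798721926) (nat_lit 228) (nat_lit 7633515408) (nat_lit 84) (nat_lit 5) (nat_lit 86) (nat_lit 5) (nat_lit 87) (nat_lit 5) (nat_lit 462) (nat_lit 415) (nat_lit 323))) (XT.nd (nat_lit 78) (nat_lit 0) (nat_lit 0) (XT.lf (nat_lit 0) (nat_lit 1193342385) (nat_lit 152) (nat_lit 26155303099) (nat_lit 76) (nat_lit 5870057532) (nat_lit 82) (nat_lit 5) (nat_lit 84) (nat_lit 5) (nat_lit 83) (nat_lit 5) (nat_lit 463) (nat_lit 415) (nat_lit 322)) (XT.lf (nat_lit 0)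 (nat_lit 10518717445) (nat_lit 152) (nat_lit 5477142703) (nat_lit 76) (nat_lit 18274545282) (nat_lit 82) (nat_lit 5) (nat_lit 84) (nat_lit 5) (nat_lit 83) (nat_lit 5) (nat_lit 464) (nat_lit 415) (nat_lit 321)))) (XT.nd (nat_lit 156) (nat_lit 228) (nat_lit 0) (XT.nd (nat_lit 78) (nat_lit 76) (nat_lit 0) (XT.lf (nat_lit 0) (nat_lit 16749691581) (nat_lit 152) (nat_lit 3810216344) (nat_lit 228) (nat_lit 14802307997) (nat_lit 80) (nat_lit 5) (nat_lit 82) (nat_lit 5) (nat_lit 83) (nat_lit 5) (nat_lit 465) (nat_lit 415) (nat_lit 320)) (XT.lf (nat_lit 0) (nat_lit 3730208890) (nat_lit 76) (nat_lit 27653877676) (nat_lit 152) (nat_lit 5110484219) (nat_lit 79) (nat_lit 5) (nat_lit 80) (nat_lit 5) (nat_lit 81) (nat_lit 4) (nat_lit 466) (nat_lit 415) (nat_lit 319))) (XT.nd (nat_lit 78) (nat_lit 152) (nat_lit 0) (XT.lf (nat_lit 0) (nat_lit 5274810832) (nat_lit 152) (nat_lit 9999714576) (nat_lit 76) (nat_lit 22386512488)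 (nat_lit 78) (nat_lit 5) (nat_lit 80) (nat_lit 5) (nat_lit 79) (nat_lit 5) (nat_lit 467) (nat_lit 415) (nat_lit 318)) (XT.lf (nat_lit 0) (nat_lit 14255192292) (nat_lit 152) (nat_lit 1963738375) (nat_lit 228) (nat_lit 22652143724) (nat_lit 76) (nat_lit 5) (nat_lit 78) (nat_lit 5) (nat_lit 79) (nat_lit 5) (nat_lit 468) (nat_lit 415) (nat_lit 317))))) (XT.nd (nat_lit 312) (nat_lit 532) (nat_lit 0) (XT.nd (nat_lit 156) (nat_lit 228) (nat_lit 0) (XT.nd (nat_lit 78) (nat_lit 76) (nat_lit 0) (XT.lf (nat_lit 0) (nat_lit 28058755332) (nat_lit 228) (nat_lit 273989508) (nat_lit 76) (nat_lit 11791443155) (nat_lit 76) (nat_lit 5) (nat_lit 79) (nat_lit 5) (nat_lit 77) (nat_lit 4) (nat_lit 469) (nat_lit 415) (nat_lit 316)) (XT.lf (nat_lit 0) (nat_lit 26067578274) (nat_lit 76) (nat_lit 14851528043) (nat_lit 152) (nat_lit 499424427) (nat_lit 75) (nat_lit 5) (nat_lit 76) (nat_lit 5) (nat_lit 77) (nat_lit 4) (nat_lit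 470) (nat_lit 415) (nat_lit 315))) (XT.nd (nat_lit 78) (nat_lit 0) (nat_lit 0) (XT.lf (nat_lit 0) (nat_lit 11112576669) (nat_lit 152) (nat_lit 327203164) (nat_lit 228) (nat_lit 31320340298) (nat_lit 72) (nat_lit 5) (nat_lit 74) (nat_lit 5) (nat_lit 75) (nat_lit 5) (nat_lit 471) (nat_lit 415) (nat_lit 314)) (XT.lf (nat_lit 0) (nat_lit 24445849082) (nat_lit 228) (nat_lit 4988655903) (nat_lit 76) (nat_lit 14709540390) (nat_lit 72) (nat_lit 5) (nat_lit 75) (nat_lit 5) (nat_lit 73) (nat_lit 4) (nat_lit 472) (nat_lit 415) (nat_lit 313)))) (XT.nd (nat_lit 156) (nat_lit 228) (nat_lit 0) (XT.nd (nat_lit 78) (nat_lit 228) (nat_lit 0) (XT.lf (nat_lit 0) (nat_lit 23738886509) (nat_lit 76) (nat_lit 14729287792) (nat_lit 152) (nat_lit 7110695132) (nat_lit 71) (nat_lit 5) (nat_lit 72) (nat_lit 5) (nat_lit 73) (nat_lit 4) (nat_lit 473) (nat_lit 415) (nat_lit 312)) (XT.lf (nat_lit 0) (nat_lit 6113316110) (nat_lit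 228) (nat_lit 39980299379) (nat_lit 76) (nat_lit 976924091) (nat_lit 68) (nat_lit 5) (nat_lit 71) (nat_lit 5) (nat_lit 69) (nat_lit 4) (nat_lit 474) (nat_lit 415) (nat_lit 311))) (XT.nd (nat_lit 78) (nat_lit 228) (nat_lit 0) (XT.lf (nat_lit 0) (nat_lit 20367001008) (nat_lit 228) (nat_lit 10775988164) (nat_lit 76) (nat_lit 17457603823) (nat_lit 68) (nat_lit 5) (nat_lit 71) (nat_lit 5) (nat_lit 69) (nat_lit 4) (nat_lit 475) (nat_lit 415) (nat_lit 310)) (XT.nd (nat_lit 78) (nat_lit 152) (nat_lit 0) (XT.lf (nat_lit 0) (nat_lit 20527644894) (nat_lit 76) (nat_lit 15116734760) (nat_lit 152) (nat_lit 14547219098) (nat_lit 67) (nat_lit 5) (nat_lit 68) (nat_lit 5) (nat_lit 69) (nat_lit 4) (nat_lit 476) (nat_lit 415) (nat_lit 309)) (XT.lf (nat_lit 0) (nat_lit 65861694) (nat_lit 152) (nat_lit 49919852674) (nat_lit 76) (nat_lit 1864741403) (nat_lit 65) (nat_lit 5) (nat_lit 67) (nat_lit 5) (nat_lit 66) (nat_lit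 4) (nat_lit 477) (nat_lit 415) (nat_lit 308))))))))
noncomputable def xc256 : XT := (XT.nd (nat_lit 1248) (nat_lit 1140) (nat_lit 0) (XT.nd (nat_lit 624) (nat_lit 456) (nat_lit 0) (XT.nd (nat_lit 312) (nat_lit 304) (nat_lit 0) (XT.nd (nat_lit 156) (nat_lit 152) (nat_lit 0) (XT.nd (nat_lit 78) (nat_lit 76) (nat_lit 0) (XT.lf (nat_lit 0) (nat_lit 15669722854) (nat_lit 152) (nat_lit 17944888958) (nat_lit 76) (nat_lit 19928269593) (nat_lit 65) (nat_lit 5) (nat_lit 67) (nat_lit 5) (nat_lit 66) (nat_lit 4) (nat_lit 478) (nat_lit 415) (nat_lit 307)) (XT.lf (nat_lit 0) (nat_lit 16127896910) (nat_lit 76) (nat_lit 16168714131) (nat_lit 152) (nat_lit 23011175700) (nat_lit 64) (nat_lit 5) (nat_lit 65) (nat_lit 5) (nat_lit 66) (nat_lit 4) (nat_lit 479) (nat_lit 415) (nat_lit 306))) (XT.nd (nat_lit 78) (nat_lit 152) (nat_lit 0) (XT.lf (nat_lit 0) (nat_lit 50088361293) (nat_lit 152) (nat_lit 4674113528) (nat_lit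 0) (nat_lit 2381786756) (nat_lit 64) (nat_lit 5) (nat_lit 66) (nat_lit 4) (nat_lit 64) (nat_lit 4) (nat_lit 480) (nat_lit 415) (nat_lit 305)) (XT.lf (nat_lit 0) (nat_lit 10160246496) (nat_lit 152) (nat_lit 26888724583) (nat_lit 76) (nat_lit 21977345374) (nat_lit 62) (nat_lit 5) (nat_lit 64) (nat_lit 5) (nat_lit 63) (nat_lit 4) (nat_lit 481) (nat_lit 415) (nat_lit 304)))) (XT.nd (nat_lit 156) (nat_lit 228) (nat_lit 0) (XT.nd (nat_lit 78) (nat_lit 0) (nat_lit 0) (XT.lf (nat_lit 0) (nat_lit 10145018620) (nat_lit 76) (nat_lit 18085418690) (nat_lit 152) (nat_lit 32754735277) (nat_lit 61) (nat_lit 5) (nat_lit 62) (nat_lit 5) (nat_lit 63) (nat_lit 4) (nat_lit 482) (nat_lit 415) (nat_lit 303)) (XT.lf (nat_lit 0) (nat_lit 47687034899) (nat_lit 152) (nat_lit 13107607054) (nat_lit 0) (nat_lit 2223184808) (nat_lit 61) (nat_lit 5) (nat_lit 63) (nat_lit 4) (nat_lit 61) (nat_lit 4) (nat_lit 483) (nat_lit 415)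 (nat_lit 302))) (XT.nd (nat_lit 78) (nat_lit 76) (nat_lit 0) (XT.lf (nat_lit 0) (nat_lit 3592128515) (nat_lit 152) (nat_lit 38108752829) (nat_lit 76) (nat_lit 23412785423) (nat_lit 59) (nat_lit 5) (nat_lit 61) (nat_lit 5) (nat_lit 60) (nat_lit 4) (nat_lit 484) (nat_lit 415) (nat_lit 301)) (XT.lf (nat_lit 0) (nat_lit 2070613287) (nat_lit 76) (nat_lit 21125278580) (nat_lit 152) (nat_lit 44093345159) (nat_lit 58) (nat_lit 5) (nat_lit 59) (nat_lit 5) (nat_lit 60) (nat_lit 4) (nat_lit 485) (nat_lit 415) (nat_lit 300))))) (XT.nd (nat_lit 312) (nat_lit 228) (nat_lit 0) (XT.nd (nat_lit 156) (nat_lit 152) (nat_lit 0) (XT.nd (nat_lit 78) (nat_lit 76) (nat_lit 0) (XT.lf (nat_lit 0) (nat_lit 44435281242) (nat_lit 152) (nat_lit 23993028872) (nat_lit 0) (nat_lit 1112503871) (nat_lit 58) (nat_lit 5) (nat_lit 60) (nat_lit 4) (nat_lit 58) (nat_lit 4) (nat_lit 486) (nat_lit 415) (nat_lit 299)) (XT.lf (nat_lit 0)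 (nat_lit 19558623204) (nat_lit 76) (nat_lit 47822066754) (nat_lit 76) (nat_lit 4492077413) (nat_lit 57) (nat_lit 4) (nat_lit 58) (nat_lit 5) (nat_lit 58) (nat_lit 4) (nat_lit 487) (nat_lit 415) (nat_lit 298))) (XT.nd (nat_lit 78) (nat_lit 76) (nat_lit 0) (XT.lf (nat_lit 0) (nat_lit 17008453086) (nat_lit 152) (nat_lit 8469529055) (nat_lit 76) (nat_lit 48809678017) (nat_lit 56) (nat_lit 5) (nat_lit 58) (nat_lit 5) (nat_lit 57) (nat_lit 4) (nat_lit 488) (nat_lit 415) (nat_lit 297)) (XT.lf (nat_lit 0) (nat_lit 38718710855) (nat_lit 76) (nat_lit 1311586807) (nat_lit 152) (nat_lit 36759455417) (nat_lit 55) (nat_lit 5) (nat_lit 56) (nat_lit 5) (nat_lit 57) (nat_lit 4) (nat_lit 489) (nat_lit 415) (nat_lit 296)))) (XT.nd (nat_lit 156) (nat_lit 76) (nat_lit 0) (XT.nd (nat_lit 78) (nat_lit 76) (nat_lit 0) (XT.lf (nat_lit 0) (nat_lit 9047946960) (nat_lit 76) (nat_lit 55810794819) (nat_lit 76) (nat_lit 14525433559)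 (nat_lit 54) (nat_lit 4) (nat_lit 55) (nat_lit 5) (nat_lit 55) (nat_lit 4) (nat_lit 490) (nat_lit 415) (nat_lit 295)) (XT.lf (nat_lit 0) (nat_lit 9207580786) (nat_lit 152) (nat_lit 22415471415) (nat_lit 76) (nat_lit 50444901308) (nat_lit 53) (nat_lit 5) (nat_lit 55) (nat_lit 5) (nat_lit 54) (nat_lit 4) (nat_lit 491) (nat_lit 415) (nat_lit 294))) (XT.nd (nat_lit 78) (nat_lit 0) (nat_lit 0) (XT.lf (nat_lit 0) (nat_lit 28563865574) (nat_lit 76) (nat_lit 5514309686) (nat_lit 152) (nat_lit 50773885326) (nat_lit 52) (nat_lit 5) (nat_lit 53) (nat_lit 5) (nat_lit 54) (nat_lit 4) (nat_lit 492) (nat_lit 415) (nat_lit 293)) (XT.lf (nat_lit 0) (nat_lit 60913191936) (nat_lit 152) (nat_lit 5247724688) (nat_lit 0) (nat_lit 21578411819) (nat_lit 52) (nat_lit 5) (nat_lit 54) (nat_lit 4) (nat_lit 52) (nat_lit 4) (nat_lit 493) (nat_lit 415) (nat_lit 292)))))) (XT.nd (nat_lit 624) (nat_lit 532) (nat_lit 0) (XT.nd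 (nat_lit 312) (nat_lit 304) (nat_lit 0) (XT.nd (nat_lit 156) (nat_lit 76) (nat_lit 0) (XT.nd (nat_lit 78) (nat_lit 152) (nat_lit 0) (XT.lf (nat_lit 0) (nat_lit 49836522089) (nat_lit 76) (nat_lit 40115384652) (nat_lit 76) (nat_lit 775955635) (nat_lit 51) (nat_lit 4) (nat_lit 52) (nat_lit 5) (nat_lit 52) (nat_lit 4) (nat_lit 494) (nat_lit 415) (nat_lit 291)) (XT.lf (nat_lit 0) (nat_lit 14015029249) (nat_lit 76) (nat_lit 12013695526) (nat_lit 152) (nat_lit 67801220812) (nat_lit 49) (nat_lit 5) (nat_lit 50) (nat_lit 5) (nat_lit 51) (nat_lit 4) (nat_lit 495) (nat_lit 415) (nat_lit 290))) (XT.nd (nat_lit 78) (nat_lit 76) (nat_lit 0) (XT.lf (nat_lit 0) (nat_lit 55118027544) (nat_lit 152) (nat_lit 24276274060) (nat_lit 0) (nat_lit 17643672087) (nat_lit 49) (nat_lit 5) (nat_lit 51) (nat_lit 4) (nat_lit 49) (nat_lit 4) (nat_lit 496) (nat_lit 415) (nat_lit 289)) (XT.lf (nat_lit 0) (nat_lit 34948594604) (nat_lit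 76) (nat_lit 51449584780) (nat_lit 76) (nat_lit 13971404661) (nat_lit 48) (nat_lit 4) (nat_lit 49) (nat_lit 5) (nat_lit 49) (nat_lit 4) (nat_lit 497) (nat_lit 415) (nat_lit 288)))) (XT.nd (nat_lit 156) (nat_lit 152) (nat_lit 0) (XT.nd (nat_lit 78) (nat_lit 76) (nat_lit 0) (XT.lf (nat_lit 0) (nat_lit 15294150812) (nat_lit 152) (nat_lit 6128813487) (nat_lit 76) (nat_lit 82412225202) (nat_lit 47) (nat_lit 5) (nat_lit 49) (nat_lit 5) (nat_lit 48) (nat_lit 4) (nat_lit 498) (nat_lit 415) (nat_lit 287)) (XT.lf (nat_lit 0) (nat_lit 46625161157) (nat_lit 152) (nat_lit 49858993425) (nat_lit 0) (nat_lit 10924883315) (nat_lit 46) (nat_lit 5) (nat_lit 48) (nat_lit 4) (nat_lit 46) (nat_lit 4) (nat_lit 499) (nat_lit 415) (nat_lit 286))) (XT.nd (nat_lit 78) (nat_lit 76) (nat_lit 0) (XT.lf (nat_lit 0) (nat_lit 13537871013) (nat_lit 76) (nat_lit 66647012041) (nat_lit 76) (nat_lit 30943587641) (nat_lit 45) (nat_lit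 4) (nat_lit 46) (nat_lit 5) (nat_lit 46) (nat_lit 4) (nat_lit 500) (nat_lit 415) (nat_lit 285)) (XT.lf (nat_lit 0) (nat_lit 1228612980) (nat_lit 152) (nat_lit 33187764513) (nat_lit 76) (nat_lit 80574577301) (nat_lit 44) (nat_lit 5) (nat_lit 46) (nat_lit 5) (nat_lit 45) (nat_lit 4) (nat_lit 501) (nat_lit 415) (nat_lit 284))))) (XT.nd (nat_lit 312) (nat_lit 228) (nat_lit 0) (XT.nd (nat_lit 156) (nat_lit 228) (nat_lit 0) (XT.nd (nat_lit 78) (nat_lit 0) (nat_lit 0) (XT.lf (nat_lit 0) (nat_lit 34519182002) (nat_lit 152) (nat_lit 83964185705) (nat_lit 0) (nat_lit 510348532) (nat_lit 43) (nat_lit 5) (nat_lit 45) (nat_lit 4) (nat_lit 43) (nat_lit 4) (nat_lit 502) (nat_lit 415) (nat_lit 283)) (XT.lf (nat_lit 0) (nat_lit 70604146414) (nat_lit 152) (nat_lit 15943251759) (nat_lit 0) (nat_lit 36592724262) (nat_lit 43) (nat_lit 5) (nat_lit 45) (nat_lit 4) (nat_lit 43) (nat_lit 4) (nat_lit 503) (nat_lit 415)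 (nat_lit 282))) (XT.nd (nat_lit 78) (nat_lit 152) (nat_lit 0) (XT.lf (nat_lit 0) (nat_lit 57302070850) (nat_lit 76) (nat_lit 52080600043) (nat_lit 76) (nat_lit 18066712480) (nat_lit 42) (nat_lit 4) (nat_lit 43) (nat_lit 5) (nat_lit 43) (nat_lit 4) (nat_lit 504) (nat_lit 415) (nat_lit 281)) (XT.lf (nat_lit 0) (nat_lit 2587264539) (nat_lit 76) (nat_lit 15268101369) (nat_lit 152) (nat_lit 114089116714) (nat_lit 40) (nat_lit 5) (nat_lit 41) (nat_lit 5) (nat_lit 42) (nat_lit 4) (nat_lit 505) (nat_lit 415) (nat_lit 280)))) (XT.nd (nat_lit 156) (nat_lit 152) (nat_lit 0) (XT.nd (nat_lit 78) (nat_lit 76) (nat_lit 0) (XT.lf (nat_lit 0) (nat_lit 56533624872) (nat_lit 152) (nat_lit 55902461043) (nat_lit 0) (nat_lit 24135080326) (nat_lit 40) (nat_lit 5) (nat_lit 42) (nat_lit 4) (nat_lit 40) (nat_lit 4) (nat_lit 506) (nat_lit 415) (nat_lit 279)) (XT.lf (nat_lit 0) (nat_lit 21657735628) (nat_lit 76) (nat_lit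 76071426506) (nat_lit 76) (nat_lit 43670853660) (nat_lit 39) (nat_lit 4) (nat_lit 40) (nat_lit 5) (nat_lit 40) (nat_lit 4) (nat_lit 507) (nat_lit 415) (nat_lit 278))) (XT.nd (nat_lit 78) (nat_lit 152) (nat_lit 0) (XT.lf (nat_lit 0) (nat_lit 105026729341) (nat_lit 76) (nat_lit 36899497761) (nat_lit 76) (nat_lit 4496993201) (nat_lit 39) (nat_lit 4) (nat_lit 40) (nat_lit 5) (nat_lit 40) (nat_lit 4) (nat_lit 508) (nat_lit 415) (nat_lit 277)) (XT.lf (nat_lit 0) (nat_lit 36193935733) (nat_lit 152) (nat_lit 110105847567) (nat_lit 0) (nat_lit 5332655459) (nat_lit 37) (nat_lit 5) (nat_lit 39) (nat_lit 4) (nat_lit 37) (nat_lit 4) (nat_lit 509) (nat_lit 415) (nat_lit 276)))))))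
noncomputable def xc257 : XT := (XT.nd (nat_lit 1248) (nat_lit 760) (nat_lit 0) (XT.nd (nat_lit 624) (nat_lit 456) (nat_lit 0) (XT.nd (nat_lit 312) (nat_lit 228) (nat_lit 0) (XT.nd (nat_lit 156) (nat_lit 152) (nat_lit 0) (XT.nd (nat_lit 78) (nat_lit 76) (nat_lit 0) (XT.lf (nat_lit 0) (nat_lit 80080935879) (nat_lit 152) (nat_lit 27733876635) (nat_lit 0) (nat_lit 49217986918) (nat_lit 37) (nat_lit 5) (nat_lit 39) (nat_lit 4) (nat_lit 37) (nat_lit 4) (nat_lit 510) (nat_lit 415) (nat_lit 275)) (XT.lf (nat_lit 0) (nat_lit 60689902861) (nat_lit 76) (nat_lit 66415332995) (nat_lit 76) (nat_lit 35550794808) (nat_lit 36) (nat_lit 4) (nat_lit 37) (nat_lit 5) (nat_lit 37) (nat_lit 4) (nat_lit 511) (nat_lit 415) (nat_lit 274))) (XT.nd (nat_lit 78) (nat_lit 76) (nat_lit 0) (XT.lf (nat_lit 0) (nat_lit 8139626722) (nat_lit 152) (nat_lit 14179816955) (nat_lit 76) (nat_lit 146211156907) (nat_lit 35) (nat_lit 5)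 (nat_lit 37) (nat_lit 5) (nat_lit 36) (nat_lit 4) (nat_lit 512) (nat_lit 415) (nat_lit 273)) (XT.lf (nat_lit 0) (nat_lit 54468281310) (nat_lit 152) (nat_lit 95048386388) (nat_lit 0) (nat_lit 25070668729) (nat_lit 34) (nat_lit 5) (nat_lit 36) (nat_lit 4) (nat_lit 34) (nat_lit 4) (nat_lit 513) (nat_lit 415) (nat_lit 272)))) (XT.nd (nat_lit 156) (nat_lit 152) (nat_lit 0) (XT.nd (nat_lit 78) (nat_lit 76) (nat_lit 0) (XT.lf (nat_lit 0) (nat_lit 103718975787) (nat_lit 152) (nat_lit 2877597185) (nat_lit 0) (nat_lit 74320055746) (nat_lit 34) (nat_lit 5) (nat_lit 36) (nat_lit 4) (nat_lit 34) (nat_lit 4) (nat_lit 514) (nat_lit 415) (nat_lit 271)) (XT.lf (nat_lit 0) (nat_lit 96997876370) (nat_lit 76) (nat_lit 59944580946) (nat_lit 76) (nat_lit 30544415704) (nat_lit 33) (nat_lit 4) (nat_lit 34) (nat_lit 5) (nat_lit 34) (nat_lit 4) (nat_lit 515) (nat_lit 415) (nat_lit 270))) (XT.nd (nat_lit 78) (nat_lit 0)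 (nat_lit 0) (XT.lf (nat_lit 0) (nat_lit 7527649133) (nat_lit 76) (nat_lit 10486497344) (nat_lit 152) (nat_lit 176348941622) (nat_lit 31) (nat_lit 5) (nat_lit 32) (nat_lit 5) (nat_lit 33) (nat_lit 4) (nat_lit 516) (nat_lit 415) (nat_lit 269)) (XT.lf (nat_lit 0) (nat_lit 70174655565) (nat_lit 152) (nat_lit 89101103292) (nat_lit 0) (nat_lit 42172293109) (nat_lit 31) (nat_lit 5) (nat_lit 33) (nat_lit 4) (nat_lit 31) (nat_lit 4) (nat_lit 517) (nat_lit 415) (nat_lit 268))))) (XT.nd (nat_lit 312) (nat_lit 228) (nat_lit 0) (XT.nd (nat_lit 156) (nat_lit 152) (nat_lit 0) (XT.nd (nat_lit 78) (nat_lit 0) (nat_lit 0) (XT.lf (nat_lit 0) (nat_lit 13781122663) (nat_lit 76) (nat_lit 111545186161) (nat_lit 76) (nat_lit 83541799275) (nat_lit 30) (nat_lit 4) (nat_lit 31) (nat_lit 5) (nat_lit 31) (nat_lit 4) (nat_lit 518) (nat_lit 415) (nat_lit 267)) (XT.lf (nat_lit 0) (nat_lit 124892979337) (nat_lit 76) (nat_lit 59847648057)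 (nat_lit 76) (nat_lit 31843285524) (nat_lit 30) (nat_lit 4) (nat_lit 31) (nat_lit 5) (nat_lit 31) (nat_lit 4) (nat_lit 519) (nat_lit 415) (nat_lit 266))) (XT.nd (nat_lit 78) (nat_lit 0) (nat_lit 0) (XT.lf (nat_lit 0) (nat_lit 17063072681) (nat_lit 76) (nat_lit 4921495319) (nat_lit 152) (nat_lit 202670290344) (nat_lit 28) (nat_lit 5) (nat_lit 29) (nat_lit 5) (nat_lit 30) (nat_lit 4) (nat_lit 520) (nat_lit 415) (nat_lit 265)) (XT.lf (nat_lit 0) (nat_lit 79831787633) (nat_lit 152) (nat_lit 99992318098) (nat_lit 0) (nat_lit 53159238433) (nat_lit 28) (nat_lit 5) (nat_lit 30) (nat_lit 4) (nat_lit 28) (nat_lit 4) (nat_lit 521) (nat_lit 415) (nat_lit 264)))) (XT.nd (nat_lit 156) (nat_lit 152) (nat_lit 0) (XT.nd (nat_lit 78) (nat_lit 0) (nat_lit 0) (XT.lf (nat_lit 0) (nat_lit 13325688520) (nat_lit 76) (nat_lit 127530830058) (nat_lit 76) (nat_lit 100857478190) (nat_lit 27) (nat_lit 4) (nat_lit 28) (nat_lit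 5) (nat_lit 28) (nat_lit 4) (nat_lit 522) (nat_lit 415) (nat_lit 263)) (XT.lf (nat_lit 0) (nat_lit 135773960725) (nat_lit 76) (nat_lit 70848421397) (nat_lit 76) (nat_lit 44174305085) (nat_lit 27) (nat_lit 4) (nat_lit 28) (nat_lit 5) (nat_lit 28) (nat_lit 4) (nat_lit 523) (nat_lit 415) (nat_lit 262))) (XT.nd (nat_lit 78) (nat_lit 0) (nat_lit 0) (XT.lf (nat_lit 0) (nat_lit 3889148904) (nat_lit 76) (nat_lit 11020116100) (nat_lit 152) (nat_lit 245409404239) (nat_lit 25) (nat_lit 5) (nat_lit 26) (nat_lit 5) (nat_lit 27) (nat_lit 4) (nat_lit 524) (nat_lit 415) (nat_lit 261)) (XT.lf (nat_lit 0) (nat_lit 78247696428) (nat_lit 152) (nat_lit 139051161655) (nat_lit 0) (nat_lit 52842422400) (nat_lit 25) (nat_lit 5) (nat_lit 27) (nat_lit 4) (nat_lit 25) (nat_lit 4) (nat_lit 525) (nat_lit 415) (nat_lit 260)))))) (XT.nd (nat_lit 624) (nat_lit 380) (nat_lit 0) (XT.nd (nat_lit 312) (nat_lit 152) (nat_lit 0) (XT.nd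 (nat_lit 156) (nat_lit 152) (nat_lit 0) (XT.nd (nat_lit 78) (nat_lit 76) (nat_lit 0) (XT.lf (nat_lit 0) (nat_lit 144930462075) (nat_lit 152) (nat_lit 15991130446) (nat_lit 0) (nat_lit 119524559137) (nat_lit 25) (nat_lit 5) (nat_lit 27) (nat_lit 4) (nat_lit 25) (nat_lit 4) (nat_lit 526) (nat_lit 415) (nat_lit 259)) (XT.lf (nat_lit 0) (nat_lit 116959048225) (nat_lit 76) (nat_lit 99811285836) (nat_lit 76) (nat_lit 74404783935) (nat_lit 24) (nat_lit 4) (nat_lit 25) (nat_lit 5) (nat_lit 25) (nat_lit 4) (nat_lit 527) (nat_lit 415) (nat_lit 258))) (XT.nd (nat_lit 78) (nat_lit 152) (nat_lit 0) (XT.lf (nat_lit 0) (nat_lit 257105738900) (nat_lit 76) (nat_lit 35364238603) (nat_lit 76) (nat_lit 9957166261) (nat_lit 24) (nat_lit 4) (nat_lit 25) (nat_lit 5) (nat_lit 25) (nat_lit 4) (nat_lit 528) (nat_lit 415) (nat_lit 257)) (XT.lf (nat_lit 0) (nat_lit 57842652415) (nat_lit 152) (nat_lit 222610292644) (nat_lit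 0) (nat_lit 33644923255) (nat_lit 22) (nat_lit 5) (nat_lit 24) (nat_lit 4) (nat_lit 22) (nat_lit 4) (nat_lit 529) (nat_lit 415) (nat_lit 256)))) (XT.nd (nat_lit 156) (nat_lit 76) (nat_lit 0) (XT.nd (nat_lit 78) (nat_lit 76) (nat_lit 0) (XT.lf (nat_lit 0) (nat_lit 130054759412) (nat_lit 152) (nat_lit 90364824417) (nat_lit 0) (nat_lit 105856537484) (nat_lit 22) (nat_lit 5) (nat_lit 24) (nat_lit 4) (nat_lit 22) (nat_lit 4) (nat_lit 530) (nat_lit 415) (nat_lit 255)) (XT.lf (nat_lit 0) (nat_lit 50090430563) (nat_lit 76) (nat_lit 156566292533) (nat_lit 76) (nat_lit 132367601302) (nat_lit 21) (nat_lit 4) (nat_lit 22) (nat_lit 5) (nat_lit 22) (nat_lit 4) (nat_lit 531) (nat_lit 415) (nat_lit 254))) (XT.nd (nat_lit 78) (nat_lit 76) (nat_lit 0) (XT.lf (nat_lit 0) (nat_lit 200700109516) (nat_lit 76) (nat_lit 87916292725) (nat_lit 76) (nat_lit 63717154539) (nat_lit 21) (nat_lit 4) (nat_lit 22) (nat_lit 5) (nat_lit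 22) (nat_lit 4) (nat_lit 532) (nat_lit 415) (nat_lit 253)) (XT.lf (nat_lit 0) (nat_lit 8095389665) (nat_lit 152) (nat_lit 7604015043) (nat_lit 76) (nat_lit 350602448714) (nat_lit 20) (nat_lit 5) (nat_lit 22) (nat_lit 5) (nat_lit 21) (nat_lit 4) (nat_lit 533) (nat_lit 415) (nat_lit 252))))) (XT.nd (nat_lit 312) (nat_lit 228) (nat_lit 0) (XT.nd (nat_lit 156) (nat_lit 76) (nat_lit 0) (XT.nd (nat_lit 78) (nat_lit 0) (nat_lit 0) (XT.lf (nat_lit 0) (nat_lit 84647892479) (nat_lit 152) (nat_lit 234503610256) (nat_lit 0) (nat_lit 61600302709) (nat_lit 19) (nat_lit 5) (nat_lit 21) (nat_lit 4) (nat_lit 19) (nat_lit 4) (nat_lit 534) (nat_lit 415) (nat_lit 251)) (XT.lf (nat_lit 0) (nat_lit 165413738169) (nat_lit 152) (nat_lit 88125450327) (nat_lit 0) (nat_lit 142365780688) (nat_lit 19) (nat_lit 5) (nat_lit 21) (nat_lit 4) (nat_lit 19) (nat_lit 4) (nat_lit 535) (nat_lit 415) (nat_lit 250))) (XT.nd (nat_lit 78)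 (nat_lit 0) (nat_lit 0) (XT.lf (nat_lit 0) (nat_lit 67734628818) (nat_lit 76) (nat_lit 183538357243) (nat_lit 76) (nat_lit 160490049560) (nat_lit 18) (nat_lit 4) (nat_lit 19) (nat_lit 5) (nat_lit 19) (nat_lit 4) (nat_lit 536) (nat_lit 415) (nat_lit 249)) (XT.lf (nat_lit 0) (nat_lit 234442388004) (nat_lit 76) (nat_lit 108472877561) (nat_lit 76) (nat_lit 85424236354) (nat_lit 18) (nat_lit 4) (nat_lit 19) (nat_lit 5) (nat_lit 19) (nat_lit 4) (nat_lit 537) (nat_lit 415) (nat_lit 248)))) (XT.nd (nat_lit 156) (nat_lit 76) (nat_lit 0) (XT.nd (nat_lit 78) (nat_lit 152) (nat_lit 0) (XT.lf (nat_lit 0) (nat_lit 409480925094) (nat_lit 76) (nat_lit 29656469264) (nat_lit 76) (nat_lit 6607510414) (nat_lit 18) (nat_lit 4) (nat_lit 19) (nat_lit 5) (nat_lit 19) (nat_lit 4) (nat_lit 538) (nat_lit 415) (nat_lit 247)) (XT.lf (nat_lit 0) (nat_lit 76658391200) (nat_lit 152) (nat_lit 332448746246) (nat_lit 0) (nat_lit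 54706713709) (nat_lit 16) (nat_lit 5) (nat_lit 18) (nat_lit 4) (nat_lit 16) (nat_lit 4) (nat_lit 539) (nat_lit 415) (nat_lit 246))) (XT.nd (nat_lit 78) (nat_lit 76) (nat_lit 0) (XT.lf (nat_lit 0) (nat_lit 164973728628) (nat_lit 152) (nat_lit 174729913674) (nat_lit 0) (nat_lit 143021776744) (nat_lit 16) (nat_lit 5) (nat_lit 18) (nat_lit 4) (nat_lit 16) (nat_lit 4) (nat_lit 540) (nat_lit 415) (nat_lit 245)) (XT.nd (nat_lit 78) (nat_lit 76) (nat_lit 0) (XT.lf (nat_lit 0) (nat_lit 257702746010) (nat_lit 152) (nat_lit 9129390868) (nat_lit 0) (nat_lit 235750532802) (nat_lit 16) (nat_lit 5) (nat_lit 18) (nat_lit 4) (nat_lit 16) (nat_lit 4) (nat_lit 541) (nat_lit 415) (nat_lit 244)) (XT.lf (nat_lit 0) (nat_lit 170194392576) (nat_lit 76) (nat_lit 187529045584) (nat_lit 76) (nat_lit 165576583494) (nat_lit 15) (nat_lit 4) (nat_lit 16) (nat_lit 5) (nat_lit 16) (nat_lit 4) (nat_lit 542) (nat_lit 415) (nat_lit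 243))))))))
noncomputable def xc258 : XT := (XT.nd (nat_lit 52884) (nat_lit 0) (nat_lit 9348) (XT.nd (nat_lit 624) (nat_lit 152) (nat_lit 0) (XT.nd (nat_lit 312) (nat_lit 76) (nat_lit 0) (XT.nd (nat_lit 156) (nat_lit 76) (nat_lit 0) (XT.nd (nat_lit 78) (nat_lit 76) (nat_lit 0) (XT.lf (nat_lit 0) (nat_lit 358797333387) (nat_lit 76) (nat_lit 104100487091) (nat_lit 76) (nat_lit 82147787972) (nat_lit 15) (nat_lit 4) (nat_lit 16) (nat_lit 5) (nat_lit 16) (nat_lit 4) (nat_lit 543) (nat_lit 415) (nat_lit 242)) (XT.lf (nat_lit 0) (nat_lit 5276042443) (nat_lit 152) (nat_lit 11137037853) (nat_lit 76) (nat_lit 551461232519) (nat_lit 14) (nat_lit 5) (nat_lit 16) (nat_lit 5) (nat_lit 15) (nat_lit 4) (nat_lit 544) (nat_lit 415) (nat_lit 241))) (XT.nd (nat_lit 78) (nat_lit 0) (nat_lit 0) (XT.lf (nat_lit 0) (nat_lit 98321347937) (nat_lit 152) (nat_lit 415841625122) (nat_lit 0) (nat_lit 77413595694) (nat_lit 13)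 (nat_lit 5) (nat_lit 15) (nat_lit 4) (nat_lit 13) (nat_lit 4) (nat_lit 545) (nat_lit 415) (nat_lit 240)) (XT.lf (nat_lit 0) (nat_lit 196477886982) (nat_lit 152) (nat_lit 244393162362) (nat_lit 0) (nat_lit 175569939733) (nat_lit 13) (nat_lit 5) (nat_lit 15) (nat_lit 4) (nat_lit 13) (nat_lit 4) (nat_lit 546) (nat_lit 415) (nat_lit 239)))) (XT.nd (nat_lit 156) (nat_lit 0) (nat_lit 0) (XT.nd (nat_lit 78) (nat_lit 76) (nat_lit 0) (XT.lf (nat_lit 0) (nat_lit 299540537048) (nat_lit 152) (nat_lit 64375775084) (nat_lit 0) (nat_lit 278632404081) (nat_lit 13) (nat_lit 5) (nat_lit 15) (nat_lit 4) (nat_lit 13) (nat_lit 4) (nat_lit 547) (nat_lit 415) (nat_lit 238)) (XT.lf (nat_lit 0) (nat_lit 128760282706) (nat_lit 76) (nat_lit 281004711557) (nat_lit 76) (nat_lit 260096401715) (nat_lit 12) (nat_lit 4) (nat_lit 13) (nat_lit 5) (nat_lit 13) (nat_lit 4) (nat_lit 548) (nat_lit 415) (nat_lit 237))) (XT.nd (nat_lit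 78) (nat_lit 0) (nat_lit 0) (XT.lf (nat_lit 0) (nat_lit 333784846655) (nat_lit 76) (nat_lit 192804455003) (nat_lit 76) (nat_lit 171895976708) (nat_lit 12) (nat_lit 4) (nat_lit 13) (nat_lit 5) (nat_lit 13) (nat_lit 4) (nat_lit 549) (nat_lit 415) (nat_lit 236)) (XT.lf (nat_lit 0) (nat_lit 549057516633) (nat_lit 76) (nat_lit 100195776760) (nat_lit 76) (nat_lit 79287138034) (nat_lit 12) (nat_lit 4) (nat_lit 13) (nat_lit 5) (nat_lit 13) (nat_lit 4) (nat_lit 550) (nat_lit 415) (nat_lit 235))))) (XT.nd (nat_lit 51948) (nat_lit 0) (nat_lit 12464) (XT.nd (nat_lit 156) (nat_lit 0) (nat_lit 0) (XT.nd (nat_lit 78) (nat_lit 0) (nat_lit 0) (XT.lf (nat_lit 0) (nat_lit 15198623067) (nat_lit 76) (nat_lit 2414749900) (nat_lit 152) (nat_lit 742459164458) (nat_lit 10) (nat_lit 5) (nat_lit 11) (nat_lit 5) (nat_lit 12) (nat_lit 4) (nat_lit 551) (nat_lit 415) (nat_lit 234)) (XT.lf (nat_lit 0) (nat_lit 121347586865) (nat_lit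 152) (nat_lit 570101696649) (nat_lit 0) (nat_lit 101434313500) (nat_lit 10) (nat_lit 5) (nat_lit 12) (nat_lit 4) (nat_lit 10) (nat_lit 4) (nat_lit 552) (nat_lit 415) (nat_lit 233))) (XT.nd (nat_lit 78) (nat_lit 0) (nat_lit 0) (XT.lf (nat_lit 0) (nat_lit 230306686519) (nat_lit 152) (nat_lit 386633333144) (nat_lit 0) (nat_lit 210393281166) (nat_lit 10) (nat_lit 5) (nat_lit 12) (nat_lit 4) (nat_lit 10) (nat_lit 4) (nat_lit 553) (nat_lit 415) (nat_lit 232)) (XT.lf (nat_lit 0) (nat_lit 344712397344) (nat_lit 152) (nat_lit 193994293393) (nat_lit 0) (nat_lit 324798866290) (nat_lit 10) (nat_lit 5) (nat_lit 12) (nat_lit 4) (nat_lit 10) (nat_lit 4) (nat_lit 554) (nat_lit 415) (nat_lit 231)))) (XT.nd (nat_lit 156) (nat_lit 0) (nat_lit 0) (XT.nd (nat_lit 78) (nat_lit 0) (nat_lit 0) (XT.lf (nat_lit 0) (nat_lit 452250161) (nat_lit 0) (nat_lit 452250161) (nat_lit 684) (nat_lit 3805190113) (nat_lit 174) (nat_lit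 5) (nat_lit 174) (nat_lit 3) (nat_lit 183) (nat_lit 3) (nat_lit 416) (nat_lit 416) (nat_lit 368)) (XT.lf (nat_lit 0) (nat_lit 2710050993) (nat_lit 684) (nat_lit 3859400570) (nat_lit 760) (nat_lit 3042556109) (nat_lit 174) (nat_lit 5) (nat_lit 183) (nat_lit 3) (nat_lit 184) (nat_lit 5) (nat_lit 417) (nat_lit 416) (nat_lit 367))) (XT.nd (nat_lit 78) (nat_lit 0) (nat_lit 76) (XT.lf (nat_lit 76) (nat_lit 1017790589) (nat_lit 0) (nat_lit 2617842651) (nat_lit 760) (nat_lit 6179662858) (nat_lit 175) (nat_lit 5) (nat_lit 174) (nat_lit 5) (nat_lit 184) (nat_lit 5) (nat_lit 418) (nat_lit 416) (nat_lit 366)) (XT.lf (nat_lit 0) (nat_lit 4648920100) (nat_lit 684) (nat_lit 3808768316) (nat_lit 760) (nat_lit 1568993304) (nat_lit 175) (nat_lit 5) (nat_lit 184) (nat_lit 5) (nat_lit 185) (nat_lit 5) (nat_lit 419) (nat_lit 416) (nat_lit 365)))))) (XT.nd (nat_lit 624) (nat_lit 2584) (nat_lit 0) (XT.nd (nat_lit 312)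 (nat_lit 608) (nat_lit 0) (XT.nd (nat_lit 156) (nat_lit 0) (nat_lit 76) (XT.nd (nat_lit 78) (nat_lit 0) (nat_lit 76) (XT.lf (nat_lit 76) (nat_lit 1401697855) (nat_lit 0) (nat_lit 4329387221) (nat_lit 760) (nat_lit 4516644718) (nat_lit 176) (nat_lit 5) (nat_lit 175) (nat_lit 5) (nat_lit 185) (nat_lit 5) (nat_lit 420) (nat_lit 416) (nat_lit 364)) (XT.lf (nat_lit 0) (nat_lit 6888423283) (nat_lit 684) (nat_lit 3504492882) (nat_lit 760) (nat_lit 85864531) (nat_lit 176) (nat_lit 5) (nat_lit 185) (nat_lit 5) (nat_lit 186) (nat_lit 5) (nat_lit 421) (nat_lit 416) (nat_lit 363))) (XT.nd (nat_lit 78) (nat_lit 0) (nat_lit 0) (XT.lf (nat_lit 76) (nat_lit 2069219104) (nat_lit 0) (nat_lit 6095232990) (nat_lit 760) (nat_lit 2553894365) (nat_lit 177) (nat_lit 5) (nat_lit 176) (nat_lit 5) (nat_lit 186) (nat_lit 5) (nat_lit 422) (nat_lit 416) (nat_lit 362)) (XT.lf (nat_lit 76) (nat_lit 8013612800) (nat_lit 0) (nat_lit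 1509122112) (nat_lit 760) (nat_lit 1446236302) (nat_lit 177) (nat_lit 5) (nat_lit 176) (nat_lit 5) (nat_lit 186) (nat_lit 5) (nat_lit 423) (nat_lit 416) (nat_lit 361)))) (XT.nd (nat_lit 156) (nat_lit 0) (nat_lit 76) (XT.nd (nat_lit 78) (nat_lit 760) (nat_lit 0) (XT.lf (nat_lit 76) (nat_lit 3038347937) (nat_lit 0) (nat_lit 7970858295) (nat_lit 760) (nat_lit 219910433) (nat_lit 178) (nat_lit 5) (nat_lit 177) (nat_lit 5) (nat_lit 187) (nat_lit 5) (nat_lit 424) (nat_lit 416) (nat_lit 360)) (XT.lf (nat_lit 0) (nat_lit 1071149106) (nat_lit 760) (nat_lit 2138801021) (nat_lit 836) (nat_lit 8289609052) (nat_lit 167) (nat_lit 5) (nat_lit 177) (nat_lit 5) (nat_lit 178) (nat_lit 5) (nat_lit 425) (nat_lit 416) (nat_lit 359))) (XT.nd (nat_lit 78) (nat_lit 0) (nat_lit 0) (XT.lf (nat_lit 0) (nat_lit 2479820622) (nat_lit 760) (nat_lit 7490193569) (nat_lit 76) (nat_lit 1810309645) (nat_lit 168) (nat_lit 5) (nat_lit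 178) (nat_lit 5) (nat_lit 169) (nat_lit 5) (nat_lit 426) (nat_lit 416) (nat_lit 358)) (XT.lf (nat_lit 0) (nat_lit 4013512959) (nat_lit 760) (nat_lit 1042793612) (nat_lit 76) (nat_lit 7016093403) (nat_lit 168) (nat_lit 5) (nat_lit 178) (nat_lit 5) (nat_lit 169) (nat_lit 5) (nat_lit 427) (nat_lit 416) (nat_lit 357))))) (XT.nd (nat_lit 312) (nat_lit 1064) (nat_lit 0) (XT.nd (nat_lit 156) (nat_lit 380) (nat_lit 0) (XT.nd (nat_lit 78) (nat_lit 456) (nat_lit 0) (XT.lf (nat_lit 0) (nat_lit 5685765973) (nat_lit 836) (nat_lit 6493508120) (nat_lit 76) (nat_lit 196714510) (nat_lit 158) (nat_lit 5) (nat_lit 169) (nat_lit 5) (nat_lit 159) (nat_lit 5) (nat_lit 428) (nat_lit 416) (nat_lit 356)) (XT.lf (nat_lit 0) (nat_lit 395090770) (nat_lit 456) (nat_lit 7121531942) (nat_lit 532) (nat_lit 5174386768) (nat_lit 152) (nat_lit 5) (nat_lit 158) (nat_lit 5) (nat_lit 159) (nat_lit 5) (nat_lit 429) (nat_lit 416) (nat_lit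 355))) (XT.nd (nat_lit 78) (nat_lit 380) (nat_lit 0) (XT.lf (nat_lit 0) (nat_lit 7823332185) (nat_lit 456) (nat_lit 1694696112) (nat_lit 532) (nat_lit 3499805058) (nat_lit 152) (nat_lit 5) (nat_lit 158) (nat_lit 5) (nat_lit 159) (nat_lit 5) (nat_lit 430) (nat_lit 416) (nat_lit 354)) (XT.lf (nat_lit 0) (nat_lit 2240929848) (nat_lit 380) (nat_lit 9446587854) (nat_lit 456) (nat_lit 1670082193) (nat_lit 147) (nat_lit 5) (nat_lit 152) (nat_lit 5) (nat_lit 153) (nat_lit 5) (nat_lit 431) (nat_lit 416) (nat_lit 353)))) (XT.nd (nat_lit 156) (nat_lit 608) (nat_lit 0) (XT.nd (nat_lit 78) (nat_lit 380) (nat_lit 0) (XT.lf (nat_lit 0) (nat_lit 331274267) (nat_lit 456) (nat_lit 3545375704) (nat_lit 76) (nat_lit 9833101447) (nat_lit 146) (nat_lit 5) (nat_lit 152) (nat_lit 5) (nat_lit 147) (nat_lit 5) (nat_lit 432) (nat_lit 416) (nat_lit 352)) (XT.lf (nat_lit 0) (nat_lit 2451427735) (nat_lit 456) (nat_lit 9616796941)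 (nat_lit 76) (nat_lit 2006176032) (nat_lit 141) (nat_lit 5) (nat_lit 147) (nat_lit 5) (nat_lit 142) (nat_lit 5) (nat_lit 433) (nat_lit 416) (nat_lit 351))) (XT.nd (nat_lit 78) (nat_lit 608) (nat_lit 0) (XT.lf (nat_lit 0) (nat_lit 4775372393) (nat_lit 456) (nat_lit 1565116449) (nat_lit 76) (nat_lit 8111906213) (nat_lit 141) (nat_lit 5) (nat_lit 147) (nat_lit 5) (nat_lit 142) (nat_lit 5) (nat_lit 434) (nat_lit 416) (nat_lit 350)) (XT.nd (nat_lit 78) (nat_lit 304) (nat_lit 0) (XT.lf (nat_lit 0) (nat_lit 7087300392) (nat_lit 304) (nat_lit 213347388) (nat_lit 380) (nat_lit 7544386348) (nat_lit 137) (nat_lit 5) (nat_lit 141) (nat_lit 5) (nat_lit 142) (nat_lit 5) (nat_lit 435) (nat_lit 416) (nat_lit 349)) (XT.lf (nat_lit 0) (nat_lit 871637451) (nat_lit 304) (nat_lit 9193413836) (nat_lit 380) (nat_lit 5186612253) (nat_lit 133) (nat_lit 5) (nat_lit 137) (nat_lit 5) (nat_lit 138) (nat_lit 5) (nat_lit 436)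 (nat_lit 416) (nat_lit 348))))))))
noncomputable def xc259 : XT := (XT.nd (nat_lit 1248) (nat_lit 1976) (nat_lit 0) (XT.nd (nat_lit 624) (nat_lit 1064) (nat_lit 0) (XT.nd (nat_lit 312) (nat_lit 608) (nat_lit 0) (XT.nd (nat_lit 156) (nat_lit 304) (nat_lit 0) (XT.nd (nat_lit 78) (nat_lit 380) (nat_lit 0) (XT.lf (nat_lit 0) (nat_lit 10169261964) (nat_lit 304) (nat_lit 2909165366) (nat_lit 380) (nat_lit 2594661001) (nat_lit 133) (nat_lit 5) (nat_lit 137) (nat_lit 5) (nat_lit 138) (nat_lit 5) (nat_lit 437) (nat_lit 416) (nat_lit 347)) (XT.lf (nat_lit 0) (nat_lit 219143651) (nat_lit 380) (nat_lit 12261100616) (nat_lit 76) (nat_lit 3630426574) (nat_lit 128) (nat_lit 5) (nat_lit 133) (nat_lit 5) (nat_lit 129) (nat_lit 5) (nat_lit 438) (nat_lit 416) (nat_lit 346))) (XT.nd (nat_lit 78) (nat_lit 304) (nat_lit 0) (XT.lf (nat_lit 0) (nat_lit 3206161969) (nat_lit 380) (nat_lit 2824430610) (nat_lit 76) (nat_lit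 10531428394) (nat_lit 128) (nat_lit 5) (nat_lit 133) (nat_lit 5) (nat_lit 129) (nat_lit 5) (nat_lit 439) (nat_lit 416) (nat_lit 345)) (XT.lf (nat_lit 0) (nat_lit 6448070337) (nat_lit 380) (nat_lit 9754831644) (nat_lit 76) (nat_lit 827760928) (nat_lit 124) (nat_lit 5) (nat_lit 129) (nat_lit 5) (nat_lit 125) (nat_lit 5) (nat_lit 440) (nat_lit 416) (nat_lit 344)))) (XT.nd (nat_lit 156) (nat_lit 380) (nat_lit 0) (XT.nd (nat_lit 78) (nat_lit 0) (nat_lit 0) (XT.lf (nat_lit 0) (nat_lit 342063809) (nat_lit 228) (nat_lit 9641715309) (nat_lit 304) (nat_lit 7532373771) (nat_lit 121) (nat_lit 5) (nat_lit 124) (nat_lit 5) (nat_lit 125) (nat_lit 5) (nat_lit 441) (nat_lit 416) (nat_lit 343)) (XT.lf (nat_lit 0) (nat_lit 11254865446) (nat_lit 228) (nat_lit 2586070180) (nat_lit 304) (nat_lit 4177749767) (nat_lit 121) (nat_lit 5) (nat_lit 124) (nat_lit 5) (nat_lit 125) (nat_lit 5) (nat_lit 442) (nat_lit 416) (nat_lit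 342))) (XT.nd (nat_lit 78) (nat_lit 76) (nat_lit 0) (XT.lf (nat_lit 0) (nat_lit 4198899130) (nat_lit 304) (nat_lit 13813230502) (nat_lit 380) (nat_lit 528156992) (nat_lit 117) (nat_lit 5) (nat_lit 121) (nat_lit 5) (nat_lit 122) (nat_lit 5) (nat_lit 443) (nat_lit 416) (nat_lit 341)) (XT.lf (nat_lit 0) (nat_lit 3337527449) (nat_lit 380) (nat_lit 3260887975) (nat_lit 76) (nat_lit 12480006410) (nat_lit 116) (nat_lit 5) (nat_lit 121) (nat_lit 5) (nat_lit 117) (nat_lit 5) (nat_lit 444) (nat_lit 416) (nat_lit 340))))) (XT.nd (nat_lit 312) (nat_lit 380) (nat_lit 0) (XT.nd (nat_lit 156) (nat_lit 228) (nat_lit 0) (XT.nd (nat_lit 78) (nat_lit 228) (nat_lit 0) (XT.lf (nat_lit 0) (nat_lit 7512194064) (nat_lit 304) (nat_lit 11040085632) (nat_lit 76) (nat_lit 1084079755) (nat_lit 113) (nat_lit 5) (nat_lit 117) (nat_lit 5) (nat_lit 114) (nat_lit 5) (nat_lit 445) (nat_lit 416) (nat_lit 339)) (XT.lf (nat_lit 0)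 (nat_lit 831166457) (nat_lit 228) (nat_lit 11223532658) (nat_lit 304) (nat_lit 8159540473) (nat_lit 110) (nat_lit 5) (nat_lit 113) (nat_lit 5) (nat_lit 114) (nat_lit 5) (nat_lit 446) (nat_lit 416) (nat_lit 338))) (XT.nd (nat_lit 78) (nat_lit 228) (nat_lit 0) (XT.lf (nat_lit 0) (nat_lit 13653262665) (nat_lit 228) (nat_lit 3340322773) (nat_lit 304) (nat_lit 3818966342) (nat_lit 110) (nat_lit 5) (nat_lit 113) (nat_lit 5) (nat_lit 114) (nat_lit 5) (nat_lit 447) (nat_lit 416) (nat_lit 337)) (XT.lf (nat_lit 0) (nat_lit 867430484) (nat_lit 228) (nat_lit 15689885029) (nat_lit 76) (nat_lit 4875266483) (nat_lit 107) (nat_lit 5) (nat_lit 110) (nat_lit 5) (nat_lit 108) (nat_lit 5) (nat_lit 448) (nat_lit 416) (nat_lit 336)))) (XT.nd (nat_lit 156) (nat_lit 152) (nat_lit 0) (XT.nd (nat_lit 78) (nat_lit 228) (nat_lit 0) (XT.lf (nat_lit 0) (nat_lit 5820950104) (nat_lit 228) (nat_lit 2684202429) (nat_lit 76) (nat_lit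 13567274360) (nat_lit 107) (nat_lit 5) (nat_lit 110) (nat_lit 5) (nat_lit 108) (nat_lit 5) (nat_lit 449) (nat_lit 416) (nat_lit 335)) (XT.lf (nat_lit 0) (nat_lit 11184647698) (nat_lit 304) (nat_lit 11428896685) (nat_lit 76) (nat_lit 122595251) (nat_lit 104) (nat_lit 5) (nat_lit 108) (nat_lit 5) (nat_lit 105) (nat_lit 5) (nat_lit 450) (nat_lit 416) (nat_lit 334))) (XT.nd (nat_lit 78) (nat_lit 0) (nat_lit 0) (XT.lf (nat_lit 0) (nat_lit 2578361554) (nat_lit 152) (nat_lit 14448269235) (nat_lit 228) (nat_lit 6395902860) (nat_lit 102) (nat_lit 5) (nat_lit 104) (nat_lit 5) (nat_lit 105) (nat_lit 5) (nat_lit 451) (nat_lit 416) (nat_lit 333)) (XT.lf (nat_lit 0) (nat_lit 17658493030) (nat_lit 152) (nat_lit 5680359613) (nat_lit 228) (nat_lit 795488375) (nat_lit 102) (nat_lit 5) (nat_lit 104) (nat_lit 5) (nat_lit 105) (nat_lit 5) (nat_lit 452) (nat_lit 416) (nat_lit 332)))))) (XT.nd (nat_lit 624) (nat_lit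 988) (nat_lit 0) (XT.nd (nat_lit 312) (nat_lit 380) (nat_lit 0) (XT.nd (nat_lit 156) (nat_lit 304) (nat_lit 0) (XT.nd (nat_lit 78) (nat_lit 0) (nat_lit 0) (XT.lf (nat_lit 0) (nat_lit 5102964519) (nat_lit 304) (nat_lit 16140921804) (nat_lit 76) (nat_lit 3624845107) (nat_lit 98) (nat_lit 5) (nat_lit 102) (nat_lit 5) (nat_lit 99) (nat_lit 5) (nat_lit 453) (nat_lit 416) (nat_lit 331)) (XT.lf (nat_lit 0) (nat_lit 11459487721) (nat_lit 304) (nat_lit 849666518) (nat_lit 76) (nat_lit 13320541568) (nat_lit 98) (nat_lit 5) (nat_lit 102) (nat_lit 5) (nat_lit 99) (nat_lit 5) (nat_lit 454) (nat_lit 416) (nat_lit 330))) (XT.nd (nat_lit 78) (nat_lit 152) (nat_lit 0) (XT.lf (nat_lit 0) (nat_lit 15685493529) (nat_lit 152) (nat_lit 2679229613) (nat_lit 228) (nat_lit 8052441481) (nat_lit 96) (nat_lit 5) (nat_lit 98) (nat_lit 5) (nat_lit 99) (nat_lit 5) (nat_lit 455) (nat_lit 416) (nat_lit 329)) (XT.lf (nat_lit 0)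 (nat_lit 5882758541) (nat_lit 152) (nat_lit 19941146101) (nat_lit 228) (nat_lit 1409668518) (nat_lit 94) (nat_lit 5) (nat_lit 96) (nat_lit 5) (nat_lit 97) (nat_lit 5) (nat_lit 456) (nat_lit 416) (nat_lit 328)))) (XT.nd (nat_lit 156) (nat_lit 152) (nat_lit 0) (XT.nd (nat_lit 78) (nat_lit 152) (nat_lit 0) (XT.lf (nat_lit 0) (nat_lit 5602027923) (nat_lit 228) (nat_lit 4537977768) (nat_lit 76) (nat_lit 17935707063) (nat_lit 93) (nat_lit 5) (nat_lit 96) (nat_lit 5) (nat_lit 94) (nat_lit 5) (nat_lit 457) (nat_lit 416) (nat_lit 327)) (XT.lf (nat_lit 0) (nat_lit 13120722567) (nat_lit 228) (nat_lit 15452282220) (nat_lit 76) (nat_lit 375610132) (nat_lit 91) (nat_lit 5) (nat_lit 94) (nat_lit 5) (nat_lit 92) (nat_lit 5) (nat_lit 458) (nat_lit 416) (nat_lit 326))) (XT.nd (nat_lit 78) (nat_lit 0) (nat_lit 0) (XT.lf (nat_lit 0) (nat_lit 2623031576) (nat_lit 152) (nat_lit 18664681045) (nat_lit 228) (nat_lit 8563831944)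 (nat_lit 89) (nat_lit 5) (nat_lit 91) (nat_lit 5) (nat_lit 92) (nat_lit 5) (nat_lit 459) (nat_lit 416) (nat_lit 325)) (XT.lf (nat_lit 0) (nat_lit 22116914756) (nat_lit 152) (nat_lit 7995172456) (nat_lit 228) (nat_lit 675082120) (nat_lit 89) (nat_lit 5) (nat_lit 91) (nat_lit 5) (nat_lit 92) (nat_lit 5) (nat_lit 460) (nat_lit 416) (nat_lit 324))))) (XT.nd (nat_lit 312) (nat_lit 456) (nat_lit 0) (XT.nd (nat_lit 156) (nat_lit 304) (nat_lit 0) (XT.nd (nat_lit 78) (nat_lit 0) (nat_lit 0) (XT.lf (nat_lit 0) (nat_lit 7579257176) (nat_lit 228) (nat_lit 20781260905) (nat_lit 76) (nat_lit 3392385476) (nat_lit 86) (nat_lit 5) (nat_lit 89) (nat_lit 5) (nat_lit 87) (nat_lit 5) (nat_lit 461) (nat_lit 416) (nat_lit 323)) (XT.lf (nat_lit 0) (nat_lit 16491808952) (nat_lit 228) (nat_lit 1028641911) (nat_lit 76) (nat_lit 15232511484) (nat_lit 86) (nat_lit 5) (nat_lit 89) (nat_lit 5) (nat_lit 87) (nat_lit 5) (nat_lit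 462) (nat_lit 416) (nat_lit 322))) (XT.nd (nat_lit 78) (nat_lit 152) (nat_lit 0) (XT.lf (nat_lit 0) (nat_lit 20342541034) (nat_lit 152) (nat_lit 5813501083) (nat_lit 228) (nat_lit 7631679590) (nat_lit 84) (nat_lit 5) (nat_lit 86) (nat_lit 5) (nat_lit 87) (nat_lit 5) (nat_lit 463) (nat_lit 416) (nat_lit 321)) (XT.lf (nat_lit 0) (nat_lit 1620943445) (nat_lit 152) (nat_lit 26807075596) (nat_lit 76) (nat_lit 6433213489) (nat_lit 82) (nat_lit 5) (nat_lit 84) (nat_lit 5) (nat_lit 83) (nat_lit 5) (nat_lit 464) (nat_lit 416) (nat_lit 320)))) (XT.nd (nat_lit 156) (nat_lit 304) (nat_lit 0) (XT.nd (nat_lit 78) (nat_lit 152) (nat_lit 0) (XT.lf (nat_lit 0) (nat_lit 11395066595) (nat_lit 152) (nat_lit 5126244926) (nat_lit 76) (nat_lit 19445085003) (nat_lit 82) (nat_lit 5) (nat_lit 84) (nat_lit 5) (nat_lit 83) (nat_lit 5) (nat_lit 465) (nat_lit 416) (nat_lit 319)) (XT.lf (nat_lit 0) (nat_lit 18201854380) (nat_lit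 152) (nat_lit 3729372722) (nat_lit 228) (nat_lit 15181925319) (nat_lit 80) (nat_lit 5) (nat_lit 82) (nat_lit 5) (nat_lit 83) (nat_lit 5) (nat_lit 466) (nat_lit 416) (nat_lit 318))) (XT.nd (nat_lit 78) (nat_lit 228) (nat_lit 0) (XT.lf (nat_lit 0) (nat_lit 4534212411) (nat_lit 76) (nat_lit 28759729169) (nat_lit 152) (nat_lit 5008317486) (nat_lit 79) (nat_lit 5) (nat_lit 80) (nat_lit 5) (nat_lit 81) (nat_lit 4) (nat_lit 467) (nat_lit 416) (nat_lit 317)) (XT.nd (nat_lit 78) (nat_lit 152) (nat_lit 0) (XT.lf (nat_lit 0) (nat_lit 5868306230) (nat_lit 152) (nat_lit 9900701471) (nat_lit 76) (nat_lit 23758587342) (nat_lit 78) (nat_lit 5) (nat_lit 80) (nat_lit 5) (nat_lit 79) (nat_lit 5) (nat_lit 468) (nat_lit 416) (nat_lit 316)) (XT.lf (nat_lit 0) (nat_lit 15557289469) (nat_lit 152) (nat_lit 1795841187) (nat_lit 228) (nat_lit 23445328111) (nat_lit 76) (nat_lit 5) (nat_lit 78) (nat_lit 5) (nat_lit 79) (nat_lit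 5) (nat_lit 469) (nat_lit 416) (nat_lit 315))))))))
noncomputable def xc260 : XT := (XT.nd (nat_lit 1248) (nat_lit 1140) (nat_lit 0) (XT.nd (nat_lit 624) (nat_lit 608) (nat_lit 0) (XT.nd (nat_lit 312) (nat_lit 380) (nat_lit 0) (XT.nd (nat_lit 156) (nat_lit 228) (nat_lit 0) (XT.nd (nat_lit 78) (nat_lit 0) (nat_lit 0) (XT.lf (nat_lit 0) (nat_lit 294452070) (nat_lit 76) (nat_lit 29483655178) (nat_lit 152) (nat_lit 12336463087) (nat_lit 75) (nat_lit 5) (nat_lit 76) (nat_lit 5) (nat_lit 77) (nat_lit 4) (nat_lit 470) (nat_lit 416) (nat_lit 314)) (XT.lf (nat_lit 0) (nat_lit 27934436571) (nat_lit 76) (nat_lit 15336391057) (nat_lit 152) (nat_lit 203335303) (nat_lit 75) (nat_lit 5) (nat_lit 76) (nat_lit 5) (nat_lit 77) (nat_lit 4) (nat_lit 471) (nat_lit 416) (nat_lit 313))) (XT.nd (nat_lit 78) (nat_lit 0) (nat_lit 0) (XT.lf (nat_lit 0) (nat_lit 12232712373) (nat_lit 152) (nat_lit 83855137) (nat_lit 228)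 (nat_lit 32566313205) (nat_lit 72) (nat_lit 5) (nat_lit 74) (nat_lit 5) (nat_lit 75) (nat_lit 5) (nat_lit 472) (nat_lit 416) (nat_lit 312)) (XT.lf (nat_lit 0) (nat_lit 25962287687) (nat_lit 228) (nat_lit 4689805345) (nat_lit 76) (nat_lit 15684442077) (nat_lit 72) (nat_lit 5) (nat_lit 75) (nat_lit 5) (nat_lit 73) (nat_lit 4) (nat_lit 473) (nat_lit 416) (nat_lit 311)))) (XT.nd (nat_lit 156) (nat_lit 76) (nat_lit 0) (XT.nd (nat_lit 78) (nat_lit 228) (nat_lit 0) (XT.lf (nat_lit 0) (nat_lit 25465270908) (nat_lit 76) (nat_lit 15214873472) (nat_lit 152) (nat_lit 7163235480) (nat_lit 71) (nat_lit 5) (nat_lit 72) (nat_lit 5) (nat_lit 73) (nat_lit 4) (nat_lit 474) (nat_lit 416) (nat_lit 310)) (XT.lf (nat_lit 0) (nat_lit 6710690013) (nat_lit 228) (nat_lit 41428578708) (nat_lit 76) (nat_lit 1270207918) (nat_lit 68) (nat_lit 5) (nat_lit 71) (nat_lit 5) (nat_lit 69) (nat_lit 4) (nat_lit 475) (nat_lit 416) (nat_lit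 309))) (XT.nd (nat_lit 78) (nat_lit 76) (nat_lit 0) (XT.lf (nat_lit 0) (nat_lit 21663168294) (nat_lit 228) (nat_lit 10790277438) (nat_lit 76) (nat_lit 18563281750) (nat_lit 68) (nat_lit 5) (nat_lit 71) (nat_lit 5) (nat_lit 69) (nat_lit 4) (nat_lit 476) (nat_lit 416) (nat_lit 308)) (XT.lf (nat_lit 0) (nat_lit 22070077432) (nat_lit 76) (nat_lit 15629166040) (nat_lit 152) (nat_lit 14988298881) (nat_lit 67) (nat_lit 5) (nat_lit 68) (nat_lit 5) (nat_lit 69) (nat_lit 4) (nat_lit 477) (nat_lit 416) (nat_lit 307))))) (XT.nd (nat_lit 312) (nat_lit 380) (nat_lit 0) (XT.nd (nat_lit 156) (nat_lit 76) (nat_lit 0) (XT.nd (nat_lit 78) (nat_lit 0) (nat_lit 0) (XT.lf (nat_lit 0) (nat_lit 344966221) (nat_lit 152) (nat_lit 51889317672) (nat_lit 76) (nat_lit 2194900380) (nat_lit 65) (nat_lit 5) (nat_lit 67) (nat_lit 5) (nat_lit 66) (nat_lit 4) (nat_lit 478) (nat_lit 416) (nat_lit 306)) (XT.lf (nat_lit 0) (nat_lit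 16715886561) (nat_lit 152) (nat_lit 18340678514) (nat_lit 76) (nat_lit 21150322983) (nat_lit 65) (nat_lit 5) (nat_lit 67) (nat_lit 5) (nat_lit 66) (nat_lit 4) (nat_lit 479) (nat_lit 416) (nat_lit 305))) (XT.nd (nat_lit 78) (nat_lit 0) (nat_lit 0) (XT.lf (nat_lit 0) (nat_lit 17427658664) (nat_lit 76) (nat_lit 16741654878) (nat_lit 152) (nat_lit 23890965569) (nat_lit 64) (nat_lit 5) (nat_lit 65) (nat_lit 5) (nat_lit 66) (nat_lit 4) (nat_lit 480) (nat_lit 416) (nat_lit 304)) (XT.lf (nat_lit 0) (nat_lit 52841873344) (nat_lit 152) (nat_lit 4429164785) (nat_lit 0) (nat_lit 2717978618) (nat_lit 64) (nat_lit 5) (nat_lit 66) (nat_lit 4) (nat_lit 64) (nat_lit 4) (nat_lit 481) (nat_lit 416) (nat_lit 303)))) (XT.nd (nat_lit 156) (nat_lit 152) (nat_lit 0) (XT.nd (nat_lit 78) (nat_lit 76) (nat_lit 0) (XT.lf (nat_lit 0) (nat_lit 10916856339) (nat_lit 152) (nat_lit 27754003958) (nat_lit 76) (nat_lit 23294339192)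 (nat_lit 62) (nat_lit 5) (nat_lit 64) (nat_lit 5) (nat_lit 63) (nat_lit 4) (nat_lit 482) (nat_lit 416) (nat_lit 302)) (XT.lf (nat_lit 0) (nat_lit 11123698068) (nat_lit 76) (nat_lit 18762380969) (nat_lit 152) (nat_lit 34136143415) (nat_lit 61) (nat_lit 5) (nat_lit 62) (nat_lit 5) (nat_lit 63) (nat_lit 4) (nat_lit 483) (nat_lit 416) (nat_lit 301))) (XT.nd (nat_lit 78) (nat_lit 152) (nat_lit 0) (XT.lf (nat_lit 0) (nat_lit 50307261679) (nat_lit 152) (nat_lit 13305760400) (nat_lit 0) (nat_lit 2543899628) (nat_lit 61) (nat_lit 5) (nat_lit 63) (nat_lit 4) (nat_lit 61) (nat_lit 4) (nat_lit 484) (nat_lit 416) (nat_lit 300)) (XT.lf (nat_lit 0) (nat_lit 4007201530) (nat_lit 152) (nat_lit 39556550110) (nat_lit 76) (nat_lit 24793822741) (nat_lit 59) (nat_lit 5) (nat_lit 61) (nat_lit 5) (nat_lit 60) (nat_lit 4) (nat_lit 485) (nat_lit 416) (nat_lit 299)))))) (XT.nd (nat_lit 624) (nat_lit 608) (nat_lit 0) (XT.nd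 (nat_lit 312) (nat_lit 304) (nat_lit 0) (XT.nd (nat_lit 156) (nat_lit 152) (nat_lit 0) (XT.nd (nat_lit 78) (nat_lit 0) (nat_lit 0) (XT.lf (nat_lit 0) (nat_lit 2624403016) (nat_lit 76) (nat_lit 21962567145) (nat_lit 152) (nat_lit 46055162251) (nat_lit 58) (nat_lit 5) (nat_lit 59) (nat_lit 5) (nat_lit 60) (nat_lit 4) (nat_lit 486) (nat_lit 416) (nat_lit 298)) (XT.lf (nat_lit 0) (nat_lit 46880571513) (nat_lit 152) (nat_lit 24756102496) (nat_lit 0) (nat_lit 1370002193) (nat_lit 58) (nat_lit 5) (nat_lit 60) (nat_lit 4) (nat_lit 58) (nat_lit 4) (nat_lit 487) (nat_lit 416) (nat_lit 297))) (XT.nd (nat_lit 78) (nat_lit 76) (nat_lit 0) (XT.lf (nat_lit 0) (nat_lit 20966090607) (nat_lit 76) (nat_lit 50003222218) (nat_lit 76) (nat_lit 4486111429) (nat_lit 57) (nat_lit 4) (nat_lit 58) (nat_lit 5) (nat_lit 58) (nat_lit 4) (nat_lit 488) (nat_lit 416) (nat_lit 296)) (XT.lf (nat_lit 0) (nat_lit 18071437817) (nat_lit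 152) (nat_lit 8476893234) (nat_lit 76) (nat_lit 51443082136) (nat_lit 56) (nat_lit 5) (nat_lit 58) (nat_lit 5) (nat_lit 57) (nat_lit 4) (nat_lit 489) (nat_lit 416) (nat_lit 295)))) (XT.nd (nat_lit 156) (nat_lit 152) (nat_lit 0) (XT.nd (nat_lit 78) (nat_lit 76) (nat_lit 0) (XT.lf (nat_lit 0) (nat_lit 41064047183) (nat_lit 76) (nat_lit 1176597328) (nat_lit 152) (nat_lit 38378152837) (nat_lit 55) (nat_lit 5) (nat_lit 56) (nat_lit 5) (nat_lit 57) (nat_lit 4) (nat_lit 490) (nat_lit 416) (nat_lit 294)) (XT.lf (nat_lit 0) (nat_lit 9910335864) (nat_lit 76) (nat_lit 58399614033) (nat_lit 76) (nat_lit 15033018955) (nat_lit 54) (nat_lit 4) (nat_lit 55) (nat_lit 5) (nat_lit 55) (nat_lit 4) (nat_lit 491) (nat_lit 416) (nat_lit 293))) (XT.nd (nat_lit 78) (nat_lit 76) (nat_lit 0) (XT.lf (nat_lit 0) (nat_lit 9869566449) (nat_lit 152) (nat_lit 23139109268) (nat_lit 76) (nat_lit 53152593592) (nat_lit 53) (nat_lit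 5) (nat_lit 55) (nat_lit 5) (nat_lit 54) (nat_lit 4) (nat_lit 492) (nat_lit 416) (nat_lit 292)) (XT.lf (nat_lit 0) (nat_lit 30382789156) (nat_lit 76) (nat_lit 5597401571) (nat_lit 152) (nat_lit 53104566084) (nat_lit 52) (nat_lit 5) (nat_lit 53) (nat_lit 5) (nat_lit 54) (nat_lit 4) (nat_lit 493) (nat_lit 416) (nat_lit 291))))) (XT.nd (nat_lit 312) (nat_lit 380) (nat_lit 0) (XT.nd (nat_lit 156) (nat_lit 152) (nat_lit 0) (XT.nd (nat_lit 78) (nat_lit 76) (nat_lit 0) (XT.lf (nat_lit 0) (nat_lit 64150388769) (nat_lit 152) (nat_lit 5131415957) (nat_lit 0) (nat_lit 22834911878) (nat_lit 52) (nat_lit 5) (nat_lit 54) (nat_lit 4) (nat_lit 52) (nat_lit 4) (nat_lit 494) (nat_lit 416) (nat_lit 290)) (XT.lf (nat_lit 0) (nat_lit 52700935176) (nat_lit 76) (nat_lit 41936800445) (nat_lit 76) (nat_lit 617106864) (nat_lit 51) (nat_lit 4) (nat_lit 52) (nat_lit 5) (nat_lit 52) (nat_lit 4) (nat_lit 495) (nat_lit 416)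 (nat_lit 289))) (XT.nd (nat_lit 78) (nat_lit 0) (nat_lit 0) (XT.lf (nat_lit 0) (nat_lit 15088583368) (nat_lit 76) (nat_lit 12429608262) (nat_lit 152) (nat_lit 70993848495) (nat_lit 49) (nat_lit 5) (nat_lit 50) (nat_lit 5) (nat_lit 51) (nat_lit 4) (nat_lit 496) (nat_lit 416) (nat_lit 288)) (XT.lf (nat_lit 0) (nat_lit 58055753137) (nat_lit 152) (nat_lit 25128830061) (nat_lit 0) (nat_lit 18696196816) (nat_lit 49) (nat_lit 5) (nat_lit 51) (nat_lit 4) (nat_lit 49) (nat_lit 4) (nat_lit 497) (nat_lit 416) (nat_lit 287)))) (XT.nd (nat_lit 156) (nat_lit 228) (nat_lit 0) (XT.nd (nat_lit 78) (nat_lit 76) (nat_lit 0) (XT.lf (nat_lit 0) (nat_lit 37051455299) (nat_lit 76) (nat_lit 53845348246) (nat_lit 76) (nat_lit 14482322845) (nat_lit 48) (nat_lit 4) (nat_lit 49) (nat_lit 5) (nat_lit 49) (nat_lit 4) (nat_lit 498) (nat_lit 416) (nat_lit 286)) (XT.lf (nat_lit 0) (nat_lit 16231854555) (nat_lit 152) (nat_lit 6091027449)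 (nat_lit 76) (nat_lit 86695416167) (nat_lit 47) (nat_lit 5) (nat_lit 49) (nat_lit 5) (nat_lit 48) (nat_lit 4) (nat_lit 499) (nat_lit 416) (nat_lit 285))) (XT.nd (nat_lit 78) (nat_lit 152) (nat_lit 0) (XT.lf (nat_lit 0) (nat_lit 49129097930) (nat_lit 152) (nat_lit 52007397950) (nat_lit 0) (nat_lit 11634359029) (nat_lit 46) (nat_lit 5) (nat_lit 48) (nat_lit 4) (nat_lit 46) (nat_lit 4) (nat_lit 500) (nat_lit 416) (nat_lit 284)) (XT.nd (nat_lit 78) (nat_lit 76) (nat_lit 0) (XT.lf (nat_lit 0) (nat_lit 14553752530) (nat_lit 76) (nat_lit 69810123148) (nat_lit 76) (nat_lit 32312530225) (nat_lit 45) (nat_lit 4) (nat_lit 46) (nat_lit 5) (nat_lit 46) (nat_lit 4) (nat_lit 501) (nat_lit 416) (nat_lit 283)) (XT.lf (nat_lit 0) (nat_lit 1454359921) (nat_lit 152) (nat_lit 34518873199) (nat_lit 76) (nat_lit 84759052781) (nat_lit 44) (nat_lit 5) (nat_lit 46) (nat_lit 5) (nat_lit 45) (nat_lit 4) (nat_lit 502) (nat_lit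 416) (nat_lit 282))))))))
noncomputable def xc261 : XT := (XT.nd (nat_lit 1248) (nat_lit 912) (nat_lit 0) (XT.nd (nat_lit 624) (nat_lit 456) (nat_lit 0) (XT.nd (nat_lit 312) (nat_lit 228) (nat_lit 0) (XT.nd (nat_lit 156) (nat_lit 228) (nat_lit 0) (XT.nd (nat_lit 78) (nat_lit 0) (nat_lit 0) (XT.lf (nat_lit 0) (nat_lit 36409196197) (nat_lit 152) (nat_lit 87833853473) (nat_lit 0) (nat_lit 692148845) (nat_lit 43) (nat_lit 5) (nat_lit 45) (nat_lit 4) (nat_lit 43) (nat_lit 4) (nat_lit 503) (nat_lit 416) (nat_lit 281)) (XT.lf (nat_lit 0) (nat_lit 74290596682) (nat_lit 152) (nat_lit 16427517665) (nat_lit 0) (nat_lit 38571201320) (nat_lit 43) (nat_lit 5) (nat_lit 45) (nat_lit 4) (nat_lit 43) (nat_lit 4) (nat_lit 504) (nat_lit 416) (nat_lit 280))) (XT.nd (nat_lit 78) (nat_lit 152) (nat_lit 0) (XT.lf (nat_lit 0) (nat_lit 60475024354) (nat_lit 76) (nat_lit 54530389292) (nat_lit 76) (nat_lit 18808757729) (nat_lit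 42) (nat_lit 4) (nat_lit 43) (nat_lit 5) (nat_lit 43) (nat_lit 4) (nat_lit 505) (nat_lit 416) (nat_lit 279)) (XT.lf (nat_lit 0) (nat_lit 3024592105) (nat_lit 76) (nat_lit 15877043691) (nat_lit 152) (nat_lit 119632395237) (nat_lit 40) (nat_lit 5) (nat_lit 41) (nat_lit 5) (nat_lit 42) (nat_lit 4) (nat_lit 506) (nat_lit 416) (nat_lit 278)))) (XT.nd (nat_lit 156) (nat_lit 152) (nat_lit 0) (XT.nd (nat_lit 78) (nat_lit 76) (nat_lit 0) (XT.lf (nat_lit 0) (nat_lit 59508794867) (nat_lit 152) (nat_lit 58399271273) (nat_lit 0) (nat_lit 25484233365) (nat_lit 40) (nat_lit 5) (nat_lit 42) (nat_lit 4) (nat_lit 40) (nat_lit 4) (nat_lit 507) (nat_lit 416) (nat_lit 277)) (XT.lf (nat_lit 0) (nat_lit 23034123735) (nat_lit 76) (nat_lit 79727496743) (nat_lit 76) (nat_lit 45701095513) (nat_lit 39) (nat_lit 4) (nat_lit 40) (nat_lit 5) (nat_lit 40) (nat_lit 4) (nat_lit 508) (nat_lit 416) (nat_lit 276))) (XT.nd (nat_lit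 78) (nat_lit 152) (nat_lit 0) (XT.lf (nat_lit 0) (nat_lit 110557590879) (nat_lit 76) (nat_lit 38603995422) (nat_lit 76) (nat_lit 4575842071) (nat_lit 39) (nat_lit 4) (nat_lit 40) (nat_lit 5) (nat_lit 40) (nat_lit 4) (nat_lit 509) (nat_lit 416) (nat_lit 275)) (XT.lf (nat_lit 0) (nat_lit 38144792003) (nat_lit 152) (nat_lit 115326772536) (nat_lit 0) (nat_lit 5735437680) (nat_lit 37) (nat_lit 5) (nat_lit 39) (nat_lit 4) (nat_lit 37) (nat_lit 4) (nat_lit 510) (nat_lit 416) (nat_lit 274))))) (XT.nd (nat_lit 312) (nat_lit 228) (nat_lit 0) (XT.nd (nat_lit 156) (nat_lit 152) (nat_lit 0) (XT.nd (nat_lit 78) (nat_lit 76) (nat_lit 0) (XT.lf (nat_lit 0) (nat_lit 84219420276) (nat_lit 152) (nat_lit 28849744364) (nat_lit 0) (nat_lit 51808552405) (nat_lit 37) (nat_lit 5) (nat_lit 39) (nat_lit 4) (nat_lit 37) (nat_lit 4) (nat_lit 511) (nat_lit 416) (nat_lit 273)) (XT.lf (nat_lit 0) (nat_lit 63990855945) (nat_lit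 76) (nat_lit 69601837672) (nat_lit 76) (nat_lit 37189528326) (nat_lit 36) (nat_lit 4) (nat_lit 37) (nat_lit 5) (nat_lit 37) (nat_lit 4) (nat_lit 512) (nat_lit 416) (nat_lit 272))) (XT.nd (nat_lit 78) (nat_lit 76) (nat_lit 0) (XT.lf (nat_lit 0) (nat_lit 8674573349) (nat_lit 152) (nat_lit 14630806812) (nat_lit 76) (nat_lit 153645351774) (nat_lit 35) (nat_lit 5) (nat_lit 37) (nat_lit 5) (nat_lit 36) (nat_lit 4) (nat_lit 513) (nat_lit 416) (nat_lit 271)) (XT.lf (nat_lit 0) (nat_lit 57319528744) (nat_lit 152) (nat_lit 99542672401) (nat_lit 0) (nat_lit 26448110041) (nat_lit 34) (nat_lit 5) (nat_lit 36) (nat_lit 4) (nat_lit 34) (nat_lit 4) (nat_lit 514) (nat_lit 416) (nat_lit 270)))) (XT.nd (nat_lit 156) (nat_lit 152) (nat_lit 0) (XT.nd (nat_lit 78) (nat_lit 76) (nat_lit 0) (XT.lf (nat_lit 0) (nat_lit 109026670642) (nat_lit 152) (nat_lit 2775635799) (nat_lit 0) (nat_lit 78154066034) (nat_lit 34) (nat_lit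 5) (nat_lit 36) (nat_lit 4) (nat_lit 34) (nat_lit 4) (nat_lit 515) (nat_lit 416) (nat_lit 269)) (XT.lf (nat_lit 0) (nat_lit 102089646252) (nat_lit 76) (nat_lit 62819658927) (nat_lit 76) (nat_lit 31945924885) (nat_lit 33) (nat_lit 4) (nat_lit 34) (nat_lit 5) (nat_lit 34) (nat_lit 4) (nat_lit 516) (nat_lit 416) (nat_lit 268))) (XT.nd (nat_lit 78) (nat_lit 0) (nat_lit 0) (XT.lf (nat_lit 0) (nat_lit 8145965422) (nat_lit 76) (nat_lit 10888559023) (nat_lit 152) (nat_lit 185040734203) (nat_lit 31) (nat_lit 5) (nat_lit 32) (nat_lit 5) (nat_lit 33) (nat_lit 4) (nat_lit 517) (nat_lit 416) (nat_lit 267)) (XT.lf (nat_lit 0) (nat_lit 73799178358) (nat_lit 152) (nat_lit 93321864345) (nat_lit 0) (nat_lit 44393622052) (nat_lit 31) (nat_lit 5) (nat_lit 33) (nat_lit 4) (nat_lit 31) (nat_lit 4) (nat_lit 518) (nat_lit 416) (nat_lit 266)))))) (XT.nd (nat_lit 624) (nat_lit 456) (nat_lit 0) (XT.nd (nat_lit 312) (nat_lit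 228) (nat_lit 0) (XT.nd (nat_lit 156) (nat_lit 152) (nat_lit 0) (XT.nd (nat_lit 78) (nat_lit 0) (nat_lit 0) (XT.lf (nat_lit 0) (nat_lit 14700693970) (nat_lit 76) (nat_lit 117005805487) (nat_lit 76) (nat_lit 87599319994) (nat_lit 30) (nat_lit 4) (nat_lit 31) (nat_lit 5) (nat_lit 31) (nat_lit 4) (nat_lit 519) (nat_lit 416) (nat_lit 265)) (XT.lf (nat_lit 0) (nat_lit 131357166565) (nat_lit 76) (nat_lit 62728944762) (nat_lit 76) (nat_lit 33321574328) (nat_lit 30) (nat_lit 4) (nat_lit 31) (nat_lit 5) (nat_lit 31) (nat_lit 4) (nat_lit 520) (nat_lit 416) (nat_lit 264))) (XT.nd (nat_lit 78) (nat_lit 0) (nat_lit 0) (XT.lf (nat_lit 0) (nat_lit 18135809839) (nat_lit 76) (nat_lit 5056396537) (nat_lit 152) (nat_lit 212689974132) (nat_lit 28) (nat_lit 5) (nat_lit 29) (nat_lit 5) (nat_lit 30) (nat_lit 4) (nat_lit 521) (nat_lit 416) (nat_lit 263)) (XT.lf (nat_lit 0) (nat_lit 83928277689) (nat_lit 152) (nat_lit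 104779297293) (nat_lit 0) (nat_lit 55919691116) (nat_lit 28) (nat_lit 5) (nat_lit 30) (nat_lit 4) (nat_lit 28) (nat_lit 4) (nat_lit 522) (nat_lit 416) (nat_lit 262)))) (XT.nd (nat_lit 156) (nat_lit 152) (nat_lit 0) (XT.nd (nat_lit 78) (nat_lit 0) (nat_lit 0) (XT.lf (nat_lit 0) (nat_lit 14201180032) (nat_lit 76) (nat_lit 133801336187) (nat_lit 76) (nat_lit 105792021572) (nat_lit 27) (nat_lit 4) (nat_lit 28) (nat_lit 5) (nat_lit 28) (nat_lit 4) (nat_lit 523) (nat_lit 416) (nat_lit 261)) (XT.lf (nat_lit 0) (nat_lit 142761903605) (nat_lit 76) (nat_lit 74289856397) (nat_lit 76) (nat_lit 46279848408) (nat_lit 27) (nat_lit 4) (nat_lit 28) (nat_lit 5) (nat_lit 28) (nat_lit 4) (nat_lit 524) (nat_lit 416) (nat_lit 260))) (XT.nd (nat_lit 78) (nat_lit 0) (nat_lit 0) (XT.lf (nat_lit 0) (nat_lit 4282886658) (nat_lit 76) (nat_lit 11470067002) (nat_lit 152) (nat_lit 257576737576) (nat_lit 25) (nat_lit 5) (nat_lit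 26) (nat_lit 5) (nat_lit 27) (nat_lit 4) (nat_lit 525) (nat_lit 416) (nat_lit 259)) (XT.lf (nat_lit 0) (nat_lit 82255131873) (nat_lit 152) (nat_lit 145810753998) (nat_lit 0) (nat_lit 55577705915) (nat_lit 25) (nat_lit 5) (nat_lit 27) (nat_lit 4) (nat_lit 25) (nat_lit 4) (nat_lit 526) (nat_lit 416) (nat_lit 258))))) (XT.nd (nat_lit 312) (nat_lit 228) (nat_lit 0) (XT.nd (nat_lit 156) (nat_lit 152) (nat_lit 0) (XT.nd (nat_lit 78) (nat_lit 76) (nat_lit 0) (XT.lf (nat_lit 0) (nat_lit 152267509583) (nat_lit 152) (nat_lit 16606910073) (nat_lit 0) (nat_lit 125589513185) (nat_lit 25) (nat_lit 5) (nat_lit 27) (nat_lit 4) (nat_lit 25) (nat_lit 4) (nat_lit 527) (nat_lit 416) (nat_lit 257)) (XT.lf (nat_lit 0) (nat_lit 122987813388) (nat_lit 76) (nat_lit 104710074088) (nat_lit 76) (nat_lit 78031534413) (nat_lit 24) (nat_lit 4) (nat_lit 25) (nat_lit 5) (nat_lit 25) (nat_lit 4) (nat_lit 528) (nat_lit 416) (nat_lit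 256))) (XT.nd (nat_lit 78) (nat_lit 152) (nat_lit 0) (XT.lf (nat_lit 0) (nat_lit 270133228466) (nat_lit 76) (nat_lit 37045044781) (nat_lit 76) (nat_lit 10365987699) (nat_lit 24) (nat_lit 4) (nat_lit 25) (nat_lit 5) (nat_lit 25) (nat_lit 4) (nat_lit 529) (nat_lit 416) (nat_lit 255)) (XT.lf (nat_lit 0) (nat_lit 60820922455) (nat_lit 152) (nat_lit 233565704895) (nat_lit 0) (nat_lit 35411827360) (nat_lit 22) (nat_lit 5) (nat_lit 24) (nat_lit 4) (nat_lit 22) (nat_lit 4) (nat_lit 530) (nat_lit 416) (nat_lit 254)))) (XT.nd (nat_lit 156) (nat_lit 152) (nat_lit 0) (XT.nd (nat_lit 78) (nat_lit 76) (nat_lit 0) (XT.lf (nat_lit 0) (nat_lit 136639533020) (nat_lit 152) (nat_lit 94716301465) (nat_lit 0) (nat_lit 111229990970) (nat_lit 22) (nat_lit 5) (nat_lit 24) (nat_lit 4) (nat_lit 22) (nat_lit 4) (nat_lit 531) (nat_lit 416) (nat_lit 253)) (XT.lf (nat_lit 0) (nat_lit 52759026519) (nat_lit 76) (nat_lit 164311223572)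 (nat_lit 76) (nat_lit 138901255851) (nat_lit 21) (nat_lit 4) (nat_lit 22) (nat_lit 5) (nat_lit 22) (nat_lit 4) (nat_lit 532) (nat_lit 416) (nat_lit 252))) (XT.nd (nat_lit 78) (nat_lit 152) (nat_lit 0) (XT.lf (nat_lit 0) (nat_lit 210891376351) (nat_lit 76) (nat_lit 92232694420) (nat_lit 76) (nat_lit 66822321297) (nat_lit 21) (nat_lit 4) (nat_lit 22) (nat_lit 5) (nat_lit 22) (nat_lit 4) (nat_lit 533) (nat_lit 416) (nat_lit 251)) (XT.nd (nat_lit 78) (nat_lit 76) (nat_lit 0) (XT.lf (nat_lit 0) (nat_lit 8574548056) (nat_lit 152) (nat_lit 7832935703) (nat_lit 76) (nat_lit 368205742772) (nat_lit 20) (nat_lit 5) (nat_lit 22) (nat_lit 5) (nat_lit 21) (nat_lit 4) (nat_lit 534) (nat_lit 416) (nat_lit 250)) (XT.lf (nat_lit 0) (nat_lit 88954638909) (nat_lit 152) (nat_lit 246077473464) (nat_lit 0) (nat_lit 64753565642) (nat_lit 19) (nat_lit 5) (nat_lit 21) (nat_lit 4) (nat_lit 19) (nat_lit 4) (nat_lit 535) (nat_lit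 416) (nat_lit 249))))))))
noncomputable def xc262 : XT := (XT.nd (nat_lit 1248) (nat_lit 152) (nat_lit 0) (XT.nd (nat_lit 624) (nat_lit 228) (nat_lit 0) (XT.nd (nat_lit 312) (nat_lit 228) (nat_lit 0) (XT.nd (nat_lit 156) (nat_lit 0) (nat_lit 0) (XT.nd (nat_lit 78) (nat_lit 76) (nat_lit 0) (XT.lf (nat_lit 0) (nat_lit 173755236322) (nat_lit 152) (nat_lit 92387611125) (nat_lit 0) (nat_lit 149553829530) (nat_lit 19) (nat_lit 5) (nat_lit 21) (nat_lit 4) (nat_lit 19) (nat_lit 4) (nat_lit 536) (nat_lit 416) (nat_lit 248)) (XT.lf (nat_lit 0) (nat_lit 71263147595) (nat_lit 76) (nat_lit 192643140746) (nat_lit 76) (nat_lit 168441416311) (nat_lit 18) (nat_lit 4) (nat_lit 19) (nat_lit 5) (nat_lit 19) (nat_lit 4) (nat_lit 537) (nat_lit 416) (nat_lit 247))) (XT.nd (nat_lit 78) (nat_lit 0) (nat_lit 0) (XT.lf (nat_lit 0) (nat_lit 246299542963) (nat_lit 76) (nat_lit 113827822050) (nat_lit 76) (nat_lit 89625795099)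 (nat_lit 18) (nat_lit 4) (nat_lit 19) (nat_lit 5) (nat_lit 19) (nat_lit 4) (nat_lit 538) (nat_lit 416) (nat_lit 246)) (XT.lf (nat_lit 0) (nat_lit 430083576643) (nat_lit 76) (nat_lit 31073864737) (nat_lit 76) (nat_lit 6871549675) (nat_lit 18) (nat_lit 4) (nat_lit 19) (nat_lit 5) (nat_lit 19) (nat_lit 4) (nat_lit 539) (nat_lit 416) (nat_lit 245)))) (XT.nd (nat_lit 156) (nat_lit 76) (nat_lit 0) (XT.nd (nat_lit 78) (nat_lit 0) (nat_lit 0) (XT.lf (nat_lit 0) (nat_lit 80555496160) (nat_lit 152) (nat_lit 348940427234) (nat_lit 0) (nat_lit 57505410966) (nat_lit 16) (nat_lit 5) (nat_lit 18) (nat_lit 4) (nat_lit 16) (nat_lit 4) (nat_lit 540) (nat_lit 416) (nat_lit 244)) (XT.lf (nat_lit 0) (nat_lit 173283544011) (nat_lit 152) (nat_lit 183341879525) (nat_lit 0) (nat_lit 150233209935) (nat_lit 16) (nat_lit 5) (nat_lit 18) (nat_lit 4) (nat_lit 16) (nat_lit 4) (nat_lit 541) (nat_lit 416) (nat_lit 243))) (XT.nd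 (nat_lit 78) (nat_lit 76) (nat_lit 0) (XT.lf (nat_lit 0) (nat_lit 270646101360) (nat_lit 152) (nat_lit 9467260571) (nat_lit 0) (nat_lit 247595530255) (nat_lit 16) (nat_lit 5) (nat_lit 18) (nat_lit 4) (nat_lit 16) (nat_lit 4) (nat_lit 542) (nat_lit 416) (nat_lit 242)) (XT.lf (nat_lit 0) (nat_lit 178820799144) (nat_lit 76) (nat_lit 196846078495) (nat_lit 76) (nat_lit 173795281647) (nat_lit 15) (nat_lit 4) (nat_lit 16) (nat_lit 5) (nat_lit 16) (nat_lit 4) (nat_lit 543) (nat_lit 416) (nat_lit 241))))) (XT.nd (nat_lit 312) (nat_lit 76) (nat_lit 0) (XT.nd (nat_lit 156) (nat_lit 76) (nat_lit 0) (XT.nd (nat_lit 78) (nat_lit 76) (nat_lit 0) (XT.lf (nat_lit 0) (nat_lit 376848330475) (nat_lit 76) (nat_lit 109248921572) (nat_lit 76) (nat_lit 86197909730) (nat_lit 15) (nat_lit 4) (nat_lit 16) (nat_lit 5) (nat_lit 16) (nat_lit 4) (nat_lit 544) (nat_lit 416) (nat_lit 240)) (XT.lf (nat_lit 0) (nat_lit 5592639534)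 (nat_lit 152) (nat_lit 11586305550) (nat_lit 76) (nat_lit 579086443562) (nat_lit 14) (nat_lit 5) (nat_lit 16) (nat_lit 5) (nat_lit 15) (nat_lit 4) (nat_lit 545) (nat_lit 416) (nat_lit 239))) (XT.nd (nat_lit 78) (nat_lit 0) (nat_lit 0) (XT.lf (nat_lit 0) (nat_lit 103290190627) (nat_lit 152) (nat_lit 436526102448) (nat_lit 0) (nat_lit 81336465293) (nat_lit 13) (nat_lit 5) (nat_lit 15) (nat_lit 4) (nat_lit 13) (nat_lit 4) (nat_lit 546) (nat_lit 416) (nat_lit 238)) (XT.lf (nat_lit 0) (nat_lit 206352043515) (nat_lit 152) (nat_lit 256510340546) (nat_lit 0) (nat_lit 184398141305) (nat_lit 13) (nat_lit 5) (nat_lit 15) (nat_lit 4) (nat_lit 13) (nat_lit 4) (nat_lit 547) (nat_lit 416) (nat_lit 237)))) (XT.nd (nat_lit 156) (nat_lit 0) (nat_lit 0) (XT.nd (nat_lit 78) (nat_lit 76) (nat_lit 0) (XT.lf (nat_lit 0) (nat_lit 314565432648) (nat_lit 152) (nat_lit 67496963902) (nat_lit 0) (nat_lit 292611361985) (nat_lit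 13) (nat_lit 5) (nat_lit 15) (nat_lit 4) (nat_lit 13) (nat_lit 4) (nat_lit 548) (nat_lit 416) (nat_lit 236)) (XT.lf (nat_lit 0) (nat_lit 135294322585) (nat_lit 76) (nat_lit 295006009905) (nat_lit 76) (nat_lit 273051778811) (nat_lit 12) (nat_lit 4) (nat_lit 13) (nat_lit 5) (nat_lit 13) (nat_lit 4) (nat_lit 549) (nat_lit 416) (nat_lit 235))) (XT.nd (nat_lit 78) (nat_lit 0) (nat_lit 0) (XT.lf (nat_lit 0) (nat_lit 350565542078) (nat_lit 76) (nat_lit 202398070867) (nat_lit 76) (nat_lit 180443686981) (nat_lit 12) (nat_lit 4) (nat_lit 13) (nat_lit 5) (nat_lit 13) (nat_lit 4) (nat_lit 550) (nat_lit 416) (nat_lit 234)) (XT.lf (nat_lit 0) (nat_lit 576597490645) (nat_lit 76) (nat_lit 105161178087) (nat_lit 76) (nat_lit 83206648686) (nat_lit 12) (nat_lit 4) (nat_lit 13) (nat_lit 5) (nat_lit 13) (nat_lit 4) (nat_lit 551) (nat_lit 416) (nat_lit 233)))))) (XT.nd (nat_lit 52338) (nat_lit 0) (nat_lit 10792) (XT.nd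 (nat_lit 52026) (nat_lit 0) (nat_lit 12464) (XT.nd (nat_lit 156) (nat_lit 0) (nat_lit 0) (XT.nd (nat_lit 78) (nat_lit 0) (nat_lit 0) (XT.lf (nat_lit 0) (nat_lit 16045659844) (nat_lit 76) (nat_lit 2491085439) (nat_lit 152) (nat_lit 779537283789) (nat_lit 10) (nat_lit 5) (nat_lit 11) (nat_lit 5) (nat_lit 12) (nat_lit 4) (nat_lit 552) (nat_lit 416) (nat_lit 232)) (XT.lf (nat_lit 0) (nat_lit 127456296595) (nat_lit 152) (nat_lit 598522450424) (nat_lit 0) (nat_lit 106546963286) (nat_lit 10) (nat_lit 5) (nat_lit 12) (nat_lit 4) (nat_lit 10) (nat_lit 4) (nat_lit 553) (nat_lit 416) (nat_lit 231))) (XT.nd (nat_lit 51792) (nat_lit 0) (nat_lit 12464) (XT.lf (nat_lit 0) (nat_lit 241861383118) (nat_lit 152) (nat_lit 405884684509) (nat_lit 0) (nat_lit 220951930092) (nat_lit 10) (nat_lit 5) (nat_lit 12) (nat_lit 4) (nat_lit 10) (nat_lit 4) (nat_lit 554) (nat_lit 416) (nat_lit 230)) (XT.lf (nat_lit 0) (nat_lit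 871940763) (nat_lit 0) (nat_lit 871940763) (nat_lit 684) (nat_lit 3161520204) (nat_lit 174) (nat_lit 5) (nat_lit 174) (nat_lit 3) (nat_lit 183) (nat_lit 3) (nat_lit 417) (nat_lit 417) (nat_lit 366)))) (XT.nd (nat_lit 156) (nat_lit 0) (nat_lit 76) (XT.nd (nat_lit 78) (nat_lit 0) (nat_lit 0) (XT.lf (nat_lit 0) (nat_lit 4346423421) (nat_lit 684) (nat_lit 3208464269) (nat_lit 760) (nat_lit 2462552267) (nat_lit 174) (nat_lit 5) (nat_lit 183) (nat_lit 3) (nat_lit 184) (nat_lit 5) (nat_lit 418) (nat_lit 417) (nat_lit 365)) (XT.lf (nat_lit 76) (nat_lit 1898975055) (nat_lit 0) (nat_lit 3360802962) (nat_lit 760) (nat_lit 4974046058) (nat_lit 175) (nat_lit 5) (nat_lit 174) (nat_lit 5) (nat_lit 184) (nat_lit 5) (nat_lit 419) (nat_lit 417) (nat_lit 364))) (XT.nd (nat_lit 78) (nat_lit 0) (nat_lit 0) (XT.lf (nat_lit 0) (nat_lit 6245944215) (nat_lit 684) (nat_lit 3130551623) (nat_lit 760) (nat_lit 1083178042)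 (nat_lit 175) (nat_lit 5) (nat_lit 184) (nat_lit 5) (nat_lit 185) (nat_lit 5) (nat_lit 420) (nat_lit 417) (nat_lit 363)) (XT.lf (nat_lit 76) (nat_lit 2326427290) (nat_lit 0) (nat_lit 5004153636) (nat_lit 760) (nat_lit 3363780639) (nat_lit 176) (nat_lit 5) (nat_lit 175) (nat_lit 5) (nat_lit 185) (nat_lit 5) (nat_lit 421) (nat_lit 417) (nat_lit 362))))) (XT.nd (nat_lit 312) (nat_lit 1140) (nat_lit 0) (XT.nd (nat_lit 156) (nat_lit 608) (nat_lit 0) (XT.nd (nat_lit 78) (nat_lit 0) (nat_lit 76) (XT.lf (nat_lit 76) (nat_lit 8138476254) (nat_lit 0) (nat_lit 343334603) (nat_lit 760) (nat_lit 2458358040) (nat_lit 176) (nat_lit 5) (nat_lit 175) (nat_lit 5) (nat_lit 185) (nat_lit 5) (nat_lit 422) (nat_lit 417) (nat_lit 361)) (XT.lf (nat_lit 76) (nat_lit 3041817207) (nat_lit 0) (nat_lit 6728813820) (nat_lit 760) (nat_lit 1423637307) (nat_lit 177) (nat_lit 5) (nat_lit 176) (nat_lit 5) (nat_lit 186) (nat_lit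 5) (nat_lit 423) (nat_lit 417) (nat_lit 360))) (XT.nd (nat_lit 78) (nat_lit 684) (nat_lit 0) (XT.lf (nat_lit 76) (nat_lit 9242043105) (nat_lit 0) (nat_lit 1897739343) (nat_lit 760) (nat_lit 320498806) (nat_lit 177) (nat_lit 5) (nat_lit 176) (nat_lit 5) (nat_lit 186) (nat_lit 5) (nat_lit 424) (nat_lit 417) (nat_lit 359)) (XT.lf (nat_lit 0) (nat_lit 890123803) (nat_lit 760) (nat_lit 7684369534) (nat_lit 836) (nat_lit 3160493112) (nat_lit 167) (nat_lit 5) (nat_lit 177) (nat_lit 5) (nat_lit 178) (nat_lit 5) (nat_lit 425) (nat_lit 417) (nat_lit 358)))) (XT.nd (nat_lit 156) (nat_lit 1140) (nat_lit 0) (XT.nd (nat_lit 78) (nat_lit 0) (nat_lit 76) (XT.lf (nat_lit 0) (nat_lit 2185315443) (nat_lit 760) (nat_lit 1376852937) (nat_lit 836) (nat_lit 8459257993) (nat_lit 167) (nat_lit 5) (nat_lit 177) (nat_lit 5) (nat_lit 178) (nat_lit 5) (nat_lit 426) (nat_lit 417) (nat_lit 357)) (XT.lf (nat_lit 0) (nat_lit 3624630368)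 (nat_lit 760) (nat_lit 6955948449) (nat_lit 76) (nat_lit 1737643777) (nat_lit 168) (nat_lit 5) (nat_lit 178) (nat_lit 5) (nat_lit 169) (nat_lit 5) (nat_lit 427) (nat_lit 417) (nat_lit 356))) (XT.nd (nat_lit 78) (nat_lit 1216) (nat_lit 0) (XT.lf (nat_lit 0) (nat_lit 5186396908) (nat_lit 760) (nat_lit 229452532) (nat_lit 76) (nat_lit 7211487263) (nat_lit 168) (nat_lit 5) (nat_lit 178) (nat_lit 5) (nat_lit 169) (nat_lit 5) (nat_lit 428) (nat_lit 417) (nat_lit 355)) (XT.nd (nat_lit 78) (nat_lit 456) (nat_lit 0) (XT.lf (nat_lit 0) (nat_lit 6907892552) (nat_lit 836) (nat_lit 5918263360) (nat_lit 76) (nat_lit 121670823) (nat_lit 158) (nat_lit 5) (nat_lit 169) (nat_lit 5) (nat_lit 159) (nat_lit 5) (nat_lit 429) (nat_lit 417) (nat_lit 354)) (XT.lf (nat_lit 0) (nat_lit 1300250633) (nat_lit 456) (nat_lit 7499206187) (nat_lit 532) (nat_lit 4480686904) (nat_lit 152) (nat_lit 5) (nat_lit 158) (nat_lit 5) (nat_lit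 159) (nat_lit 5) (nat_lit 430) (nat_lit 417) (nat_lit 353))))))))
noncomputable def xc263 : XT := (XT.nd (nat_lit 1248) (nat_lit 2052) (nat_lit 0) (XT.nd (nat_lit 624) (nat_lit 1520) (nat_lit 0) (XT.nd (nat_lit 312) (nat_lit 608) (nat_lit 0) (XT.nd (nat_lit 156) (nat_lit 456) (nat_lit 0) (XT.nd (nat_lit 78) (nat_lit 380) (nat_lit 0) (XT.lf (nat_lit 0) (nat_lit 9057741961) (nat_lit 456) (nat_lit 1800000106) (nat_lit 532) (nat_lit 2767729404) (nat_lit 152) (nat_lit 5) (nat_lit 158) (nat_lit 5) (nat_lit 159) (nat_lit 5) (nat_lit 431) (nat_lit 417) (nat_lit 352)) (XT.lf (nat_lit 0) (nat_lit 3225490687) (nat_lit 380) (nat_lit 9882397878) (nat_lit 456) (nat_lit 875731640) (nat_lit 147) (nat_lit 5) (nat_lit 152) (nat_lit 5) (nat_lit 153) (nat_lit 5) (nat_lit 432) (nat_lit 417) (nat_lit 351))) (XT.nd (nat_lit 78) (nat_lit 380) (nat_lit 0) (XT.lf (nat_lit 0) (nat_lit 1157131154) (nat_lit 456) (nat_lit 2864865193)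 (nat_lit 76) (nat_lit 10332723619) (nat_lit 146) (nat_lit 5) (nat_lit 152) (nat_lit 5) (nat_lit 147) (nat_lit 5) (nat_lit 433) (nat_lit 417) (nat_lit 350)) (XT.lf (nat_lit 0) (nat_lit 3358867820) (nat_lit 456) (nat_lit 9215381241) (nat_lit 76) (nat_lit 2164576472) (nat_lit 141) (nat_lit 5) (nat_lit 147) (nat_lit 5) (nat_lit 142) (nat_lit 5) (nat_lit 434) (nat_lit 417) (nat_lit 349)))) (XT.nd (nat_lit 156) (nat_lit 304) (nat_lit 0) (XT.nd (nat_lit 78) (nat_lit 304) (nat_lit 0) (XT.lf (nat_lit 0) (nat_lit 5761635011) (nat_lit 456) (nat_lit 803128892) (nat_lit 76) (nat_lit 8572826894) (nat_lit 141) (nat_lit 5) (nat_lit 147) (nat_lit 5) (nat_lit 142) (nat_lit 5) (nat_lit 435) (nat_lit 417) (nat_lit 348)) (XT.lf (nat_lit 0) (nat_lit 8268356478) (nat_lit 304) (nat_lit 122129701) (nat_lit 380) (nat_lit 7160512392) (nat_lit 137) (nat_lit 5) (nat_lit 141) (nat_lit 5) (nat_lit 142) (nat_lit 5) (nat_lit 436)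 (nat_lit 417) (nat_lit 347))) (XT.nd (nat_lit 78) (nat_lit 0) (nat_lit 0) (XT.lf (nat_lit 0) (nat_lit 1762713593) (nat_lit 304) (nat_lit 9510628421) (nat_lit 380) (nat_lit 4705608069) (nat_lit 133) (nat_lit 5) (nat_lit 137) (nat_lit 5) (nat_lit 138) (nat_lit 5) (nat_lit 437) (nat_lit 417) (nat_lit 346)) (XT.lf (nat_lit 0) (nat_lit 11484862461) (nat_lit 304) (nat_lit 2918951151) (nat_lit 380) (nat_lit 2019313293) (nat_lit 133) (nat_lit 5) (nat_lit 137) (nat_lit 5) (nat_lit 138) (nat_lit 5) (nat_lit 438) (nat_lit 417) (nat_lit 345))))) (XT.nd (nat_lit 312) (nat_lit 608) (nat_lit 0) (XT.nd (nat_lit 156) (nat_lit 532) (nat_lit 0) (XT.nd (nat_lit 78) (nat_lit 0) (nat_lit 0) (XT.lf (nat_lit 0) (nat_lit 895257822) (nat_lit 380) (nat_lit 12027015275) (nat_lit 76) (nat_lit 3960634801) (nat_lit 128) (nat_lit 5) (nat_lit 133) (nat_lit 5) (nat_lit 129) (nat_lit 5) (nat_lit 439) (nat_lit 417) (nat_lit 344))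 (XT.lf (nat_lit 0) (nat_lit 3999952914) (nat_lit 380) (nat_lit 2158851785) (nat_lit 76) (nat_lit 11199606383) (nat_lit 128) (nat_lit 5) (nat_lit 133) (nat_lit 5) (nat_lit 129) (nat_lit 5) (nat_lit 440) (nat_lit 417) (nat_lit 343))) (XT.nd (nat_lit 78) (nat_lit 228) (nat_lit 0) (XT.lf (nat_lit 0) (nat_lit 7388964381) (nat_lit 380) (nat_lit 9420745508) (nat_lit 76) (nat_lit 1041526594) (nat_lit 124) (nat_lit 5) (nat_lit 129) (nat_lit 5) (nat_lit 125) (nat_lit 5) (nat_lit 441) (nat_lit 417) (nat_lit 342)) (XT.lf (nat_lit 0) (nat_lit 1167739431) (nat_lit 228) (nat_lit 9916891322) (nat_lit 304) (nat_lit 7277213271) (nat_lit 121) (nat_lit 5) (nat_lit 124) (nat_lit 5) (nat_lit 125) (nat_lit 5) (nat_lit 442) (nat_lit 417) (nat_lit 341)))) (XT.nd (nat_lit 156) (nat_lit 228) (nat_lit 0) (XT.nd (nat_lit 78) (nat_lit 380) (nat_lit 0) (XT.lf (nat_lit 0) (nat_lit 12587677701) (nat_lit 228) (nat_lit 2518316781)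 (nat_lit 304) (nat_lit 3784942790) (nat_lit 121) (nat_lit 5) (nat_lit 124) (nat_lit 5) (nat_lit 125) (nat_lit 5) (nat_lit 443) (nat_lit 417) (nat_lit 340)) (XT.lf (nat_lit 0) (nat_lit 33286963) (nat_lit 380) (nat_lit 14248078273) (nat_lit 76) (nat_lit 5157834691) (nat_lit 116) (nat_lit 5) (nat_lit 121) (nat_lit 5) (nat_lit 117) (nat_lit 5) (nat_lit 444) (nat_lit 417) (nat_lit 339))) (XT.nd (nat_lit 78) (nat_lit 228) (nat_lit 0) (XT.lf (nat_lit 0) (nat_lit 4047358361) (nat_lit 380) (nat_lit 2660389246) (nat_lit 76) (nat_lit 13297420134) (nat_lit 116) (nat_lit 5) (nat_lit 121) (nat_lit 5) (nat_lit 117) (nat_lit 5) (nat_lit 445) (nat_lit 417) (nat_lit 338)) (XT.lf (nat_lit 0) (nat_lit 8420104382) (nat_lit 304) (nat_lit 10817866711) (nat_lit 76) (nat_lit 1353565149) (nat_lit 113) (nat_lit 5) (nat_lit 117) (nat_lit 5) (nat_lit 114) (nat_lit 5) (nat_lit 446) (nat_lit 417) (nat_lit 337)))))) (XT.nd (nat_lit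 624) (nat_lit 912) (nat_lit 0) (XT.nd (nat_lit 312) (nat_lit 684) (nat_lit 0) (XT.nd (nat_lit 156) (nat_lit 228) (nat_lit 0) (XT.nd (nat_lit 78) (nat_lit 0) (nat_lit 0) (XT.lf (nat_lit 0) (nat_lit 1634460512) (nat_lit 228) (nat_lit 11541819355) (nat_lit 304) (nat_lit 8022704505) (nat_lit 110) (nat_lit 5) (nat_lit 113) (nat_lit 5) (nat_lit 114) (nat_lit 5) (nat_lit 447) (nat_lit 417) (nat_lit 336)) (XT.lf (nat_lit 0) (nat_lit 15061388400) (nat_lit 228) (nat_lit 3276015164) (nat_lit 304) (nat_lit 3491045143) (nat_lit 110) (nat_lit 5) (nat_lit 113) (nat_lit 5) (nat_lit 114) (nat_lit 5) (nat_lit 448) (nat_lit 417) (nat_lit 335))) (XT.nd (nat_lit 78) (nat_lit 0) (nat_lit 0) (XT.lf (nat_lit 0) (nat_lit 1404299449) (nat_lit 228) (nat_lit 15723500500) (nat_lit 76) (nat_lit 5351714760) (nat_lit 107) (nat_lit 5) (nat_lit 110) (nat_lit 5) (nat_lit 108) (nat_lit 5) (nat_lit 449) (nat_lit 417) (nat_lit 334))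 (XT.lf (nat_lit 0) (nat_lit 6581995172) (nat_lit 228) (nat_lit 2103289903) (nat_lit 76) (nat_lit 14467242795) (nat_lit 107) (nat_lit 5) (nat_lit 110) (nat_lit 5) (nat_lit 108) (nat_lit 5) (nat_lit 450) (nat_lit 417) (nat_lit 333)))) (XT.nd (nat_lit 156) (nat_lit 304) (nat_lit 0) (XT.nd (nat_lit 78) (nat_lit 152) (nat_lit 0) (XT.lf (nat_lit 0) (nat_lit 12206306726) (nat_lit 304) (nat_lit 11277628437) (nat_lit 76) (nat_lit 365870607) (nat_lit 104) (nat_lit 5) (nat_lit 108) (nat_lit 5) (nat_lit 105) (nat_lit 5) (nat_lit 451) (nat_lit 417) (nat_lit 332)) (XT.lf (nat_lit 0) (nat_lit 3418336051) (nat_lit 152) (nat_lit 14911134187) (nat_lit 228) (nat_lit 6241596113) (nat_lit 102) (nat_lit 5) (nat_lit 104) (nat_lit 5) (nat_lit 105) (nat_lit 5) (nat_lit 452) (nat_lit 417) (nat_lit 331))) (XT.nd (nat_lit 78) (nat_lit 304) (nat_lit 0) (XT.lf (nat_lit 0) (nat_lit 19218614272) (nat_lit 152) (nat_lit 5717188537)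 (nat_lit 228) (nat_lit 383737184) (nat_lit 102) (nat_lit 5) (nat_lit 104) (nat_lit 5) (nat_lit 105) (nat_lit 5) (nat_lit 453) (nat_lit 417) (nat_lit 330)) (XT.lf (nat_lit 0) (nat_lit 5788958100) (nat_lit 304) (nat_lit 16250058139) (nat_lit 76) (nat_lit 4051593441) (nat_lit 98) (nat_lit 5) (nat_lit 102) (nat_lit 5) (nat_lit 99) (nat_lit 5) (nat_lit 454) (nat_lit 417) (nat_lit 329))))) (XT.nd (nat_lit 312) (nat_lit 532) (nat_lit 0) (XT.nd (nat_lit 156) (nat_lit 228) (nat_lit 0) (XT.nd (nat_lit 78) (nat_lit 152) (nat_lit 0) (XT.lf (nat_lit 0) (nat_lit 12442791017) (nat_lit 304) (nat_lit 227473886) (nat_lit 76) (nat_lit 14220383960) (nat_lit 98) (nat_lit 5) (nat_lit 102) (nat_lit 5) (nat_lit 99) (nat_lit 5) (nat_lit 455) (nat_lit 417) (nat_lit 328)) (XT.lf (nat_lit 0) (nat_lit 17123723583) (nat_lit 152) (nat_lit 2560235229) (nat_lit 228) (nat_lit 8033999504) (nat_lit 96) (nat_lit 5) (nat_lit 98) (nat_lit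 5) (nat_lit 99) (nat_lit 5) (nat_lit 456) (nat_lit 417) (nat_lit 327))) (XT.nd (nat_lit 78) (nat_lit 76) (nat_lit 0) (XT.lf (nat_lit 0) (nat_lit 6836159443) (nat_lit 152) (nat_lit 20674898958) (nat_lit 228) (nat_lit 1064381622) (nat_lit 94) (nat_lit 5) (nat_lit 96) (nat_lit 5) (nat_lit 97) (nat_lit 5) (nat_lit 457) (nat_lit 417) (nat_lit 326)) (XT.lf (nat_lit 0) (nat_lit 6265427486) (nat_lit 228) (nat_lit 4124321009) (nat_lit 76) (nat_lit 19070572410) (nat_lit 93) (nat_lit 5) (nat_lit 96) (nat_lit 5) (nat_lit 94) (nat_lit 5) (nat_lit 458) (nat_lit 417) (nat_lit 325)))) (XT.nd (nat_lit 156) (nat_lit 228) (nat_lit 0) (XT.nd (nat_lit 78) (nat_lit 152) (nat_lit 0) (XT.lf (nat_lit 0) (nat_lit 14155630685) (nat_lit 228) (nat_lit 15579902527) (nat_lit 76) (nat_lit 641556873) (nat_lit 91) (nat_lit 5) (nat_lit 94) (nat_lit 5) (nat_lit 92) (nat_lit 5) (nat_lit 459) (nat_lit 417) (nat_lit 324)) (XT.lf (nat_lit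 0) (nat_lit 3388773833) (nat_lit 152) (nat_lit 19334062625) (nat_lit 228) (nat_lit 8602737017) (nat_lit 89) (nat_lit 5) (nat_lit 91) (nat_lit 5) (nat_lit 92) (nat_lit 5) (nat_lit 460) (nat_lit 417) (nat_lit 323))) (XT.nd (nat_lit 78) (nat_lit 228) (nat_lit 0) (XT.lf (nat_lit 0) (nat_lit 23827132569) (nat_lit 152) (nat_lit 8143643009) (nat_lit 228) (nat_lit 338087155) (nat_lit 89) (nat_lit 5) (nat_lit 91) (nat_lit 5) (nat_lit 92) (nat_lit 5) (nat_lit 461) (nat_lit 417) (nat_lit 322)) (XT.nd (nat_lit 78) (nat_lit 0) (nat_lit 0) (XT.lf (nat_lit 0) (nat_lit 8313461393) (nat_lit 228) (nat_lit 21200423959) (nat_lit 76) (nat_lit 3808891458) (nat_lit 86) (nat_lit 5) (nat_lit 89) (nat_lit 5) (nat_lit 87) (nat_lit 5) (nat_lit 462) (nat_lit 417) (nat_lit 321)) (XT.lf (nat_lit 0) (nat_lit 17654724503) (nat_lit 228) (nat_lit 489693062) (nat_lit 76) (nat_lit 16229267257) (nat_lit 86) (nat_lit 5) (nat_lit 89)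 (nat_lit 5) (nat_lit 87) (nat_lit 5) (nat_lit 463) (nat_lit 417) (nat_lit 320))))))))
noncomputable def xc264 : XT := (XT.nd (nat_lit 1248) (nat_lit 988) (nat_lit 0) (XT.nd (nat_lit 624) (nat_lit 760) (nat_lit 0) (XT.nd (nat_lit 312) (nat_lit 380) (nat_lit 0) (XT.nd (nat_lit 156) (nat_lit 152) (nat_lit 0) (XT.nd (nat_lit 78) (nat_lit 152) (nat_lit 0) (XT.lf (nat_lit 0) (nat_lit 21940526756) (nat_lit 152) (nat_lit 5854600683) (nat_lit 228) (nat_lit 7665407253) (nat_lit 84) (nat_lit 5) (nat_lit 86) (nat_lit 5) (nat_lit 87) (nat_lit 5) (nat_lit 464) (nat_lit 417) (nat_lit 319)) (XT.lf (nat_lit 0) (nat_lit 2035717549) (nat_lit 152) (nat_lit 27552424697) (nat_lit 76) (nat_lit 6999457456) (nat_lit 82) (nat_lit 5) (nat_lit 84) (nat_lit 5) (nat_lit 83) (nat_lit 5) (nat_lit 465) (nat_lit 417) (nat_lit 318))) (XT.nd (nat_lit 78) (nat_lit 152) (nat_lit 0) (XT.lf (nat_lit 0) (nat_lit 12282655097) (nat_lit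 152) (nat_lit 4815886050) (nat_lit 76) (nat_lit 20650275722) (nat_lit 82) (nat_lit 5) (nat_lit 84) (nat_lit 5) (nat_lit 83) (nat_lit 5) (nat_lit 466) (nat_lit 417) (nat_lit 317)) (XT.lf (nat_lit 0) (nat_lit 19669478365) (nat_lit 152) (nat_lit 3669714883) (nat_lit 228) (nat_lit 15614039201) (nat_lit 80) (nat_lit 5) (nat_lit 82) (nat_lit 5) (nat_lit 83) (nat_lit 5) (nat_lit 467) (nat_lit 417) (nat_lit 316)))) (XT.nd (nat_lit 156) (nat_lit 228) (nat_lit 0) (XT.nd (nat_lit 78) (nat_lit 76) (nat_lit 0) (XT.lf (nat_lit 0) (nat_lit 5321007455) (nat_lit 76) (nat_lit 29946611419) (nat_lit 152) (nat_lit 4934297131) (nat_lit 79) (nat_lit 5) (nat_lit 80) (nat_lit 5) (nat_lit 81) (nat_lit 4) (nat_lit 468) (nat_lit 417) (nat_lit 315)) (XT.lf (nat_lit 0) (nat_lit 6460818918) (nat_lit 152) (nat_lit 9852426945) (nat_lit 76) (nat_lit 25175767712) (nat_lit 78) (nat_lit 5) (nat_lit 80) (nat_lit 5) (nat_lit 79) (nat_lit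 5) (nat_lit 469) (nat_lit 417) (nat_lit 314))) (XT.nd (nat_lit 78) (nat_lit 76) (nat_lit 0) (XT.lf (nat_lit 0) (nat_lit 16869700485) (nat_lit 152) (nat_lit 1644287117) (nat_lit 228) (nat_lit 24309728032) (nat_lit 76) (nat_lit 5) (nat_lit 78) (nat_lit 5) (nat_lit 79) (nat_lit 5) (nat_lit 470) (nat_lit 417) (nat_lit 313)) (XT.lf (nat_lit 0) (nat_lit 845821705) (nat_lit 76) (nat_lit 30712396615) (nat_lit 152) (nat_lit 12647514484) (nat_lit 75) (nat_lit 5) (nat_lit 76) (nat_lit 5) (nat_lit 77) (nat_lit 4) (nat_lit 471) (nat_lit 417) (nat_lit 312))))) (XT.nd (nat_lit 312) (nat_lit 456) (nat_lit 0) (XT.nd (nat_lit 156) (nat_lit 76) (nat_lit 0) (XT.nd (nat_lit 78) (nat_lit 152) (nat_lit 0) (XT.lf (nat_lit 0) (nat_lit 75221951) (nat_lit 152) (nat_lit 15792961099) (nat_lit 76) (nat_lit 29765754939) (nat_lit 74) (nat_lit 5) (nat_lit 76) (nat_lit 5) (nat_lit 75) (nat_lit 5) (nat_lit 472) (nat_lit 417) (nat_lit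 311)) (XT.lf (nat_lit 0) (nat_lit 13211160403) (nat_lit 228) (nat_lit 33759127464) (nat_lit 76) (nat_lit 142793680) (nat_lit 72) (nat_lit 5) (nat_lit 75) (nat_lit 5) (nat_lit 73) (nat_lit 4) (nat_lit 473) (nat_lit 417) (nat_lit 310))) (XT.nd (nat_lit 78) (nat_lit 76) (nat_lit 0) (XT.lf (nat_lit 0) (nat_lit 27527201301) (nat_lit 228) (nat_lit 4426986449) (nat_lit 76) (nat_lit 16685829412) (nat_lit 72) (nat_lit 5) (nat_lit 75) (nat_lit 5) (nat_lit 73) (nat_lit 4) (nat_lit 474) (nat_lit 417) (nat_lit 309)) (XT.lf (nat_lit 0) (nat_lit 27227822501) (nat_lit 76) (nat_lit 15748062760) (nat_lit 152) (nat_lit 7246572394) (nat_lit 71) (nat_lit 5) (nat_lit 72) (nat_lit 5) (nat_lit 73) (nat_lit 4) (nat_lit 475) (nat_lit 417) (nat_lit 308)))) (XT.nd (nat_lit 156) (nat_lit 228) (nat_lit 0) (XT.nd (nat_lit 78) (nat_lit 0) (nat_lit 0) (XT.lf (nat_lit 0) (nat_lit 7310812357) (nat_lit 228) (nat_lit 43000474183)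 (nat_lit 76) (nat_lit 1555430443) (nat_lit 68) (nat_lit 5) (nat_lit 71) (nat_lit 5) (nat_lit 69) (nat_lit 4) (nat_lit 476) (nat_lit 417) (nat_lit 307)) (XT.lf (nat_lit 0) (nat_lit 22998315131) (nat_lit 228) (nat_lit 10854045158) (nat_lit 76) (nat_lit 19702600247) (nat_lit 68) (nat_lit 5) (nat_lit 71) (nat_lit 5) (nat_lit 69) (nat_lit 4) (nat_lit 477) (nat_lit 417) (nat_lit 306))) (XT.nd (nat_lit 78) (nat_lit 152) (nat_lit 0) (XT.lf (nat_lit 0) (nat_lit 23641654131) (nat_lit 76) (nat_lit 16189848417) (nat_lit 152) (nat_lit 15478048363) (nat_lit 67) (nat_lit 5) (nat_lit 68) (nat_lit 5) (nat_lit 69) (nat_lit 4) (nat_lit 478) (nat_lit 417) (nat_lit 305)) (XT.lf (nat_lit 0) (nat_lit 612383642) (nat_lit 152) (nat_lit 54006207469) (nat_lit 76) (nat_lit 2519540552) (nat_lit 65) (nat_lit 5) (nat_lit 67) (nat_lit 5) (nat_lit 66) (nat_lit 4) (nat_lit 479) (nat_lit 417) (nat_lit 304)))))) (XT.nd (nat_lit 624)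 (nat_lit 456) (nat_lit 0) (XT.nd (nat_lit 312) (nat_lit 304) (nat_lit 0) (XT.nd (nat_lit 156) (nat_lit 152) (nat_lit 0) (XT.nd (nat_lit 78) (nat_lit 76) (nat_lit 0) (XT.lf (nat_lit 0) (nat_lit 17789937184) (nat_lit 152) (nat_lit 18802878072) (nat_lit 76) (nat_lit 22412501183) (nat_lit 65) (nat_lit 5) (nat_lit 67) (nat_lit 5) (nat_lit 66) (nat_lit 4) (nat_lit 480) (nat_lit 417) (nat_lit 303)) (XT.lf (nat_lit 0) (nat_lit 18746539928) (nat_lit 76) (nat_lit 17365136751) (nat_lit 152) (nat_lit 24839918459) (nat_lit 64) (nat_lit 5) (nat_lit 65) (nat_lit 5) (nat_lit 66) (nat_lit 4) (nat_lit 481) (nat_lit 417) (nat_lit 302))) (XT.nd (nat_lit 78) (nat_lit 152) (nat_lit 0) (XT.lf (nat_lit 0) (nat_lit 55709902600) (nat_lit 152) (nat_lit 4216469357) (nat_lit 0) (nat_lit 3050795938) (nat_lit 64) (nat_lit 5) (nat_lit 66) (nat_lit 4) (nat_lit 64) (nat_lit 4) (nat_lit 482) (nat_lit 417) (nat_lit 301)) (XT.lf (nat_lit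 0) (nat_lit 11688184434) (nat_lit 152) (nat_lit 28707094765) (nat_lit 76) (nat_lit 24656903361) (nat_lit 62) (nat_lit 5) (nat_lit 64) (nat_lit 5) (nat_lit 63) (nat_lit 4) (nat_lit 483) (nat_lit 417) (nat_lit 300)))) (XT.nd (nat_lit 156) (nat_lit 228) (nat_lit 0) (XT.nd (nat_lit 78) (nat_lit 0) (nat_lit 0) (XT.lf (nat_lit 0) (nat_lit 12107482534) (nat_lit 76) (nat_lit 19494324366) (nat_lit 152) (nat_lit 35610452965) (nat_lit 61) (nat_lit 5) (nat_lit 62) (nat_lit 5) (nat_lit 63) (nat_lit 4) (nat_lit 484) (nat_lit 417) (nat_lit 299)) (XT.lf (nat_lit 0) (nat_lit 53036570373) (nat_lit 152) (nat_lit 13556330047) (nat_lit 0) (nat_lit 2861167698) (nat_lit 61) (nat_lit 5) (nat_lit 63) (nat_lit 4) (nat_lit 61) (nat_lit 4) (nat_lit 485) (nat_lit 417) (nat_lit 298))) (XT.nd (nat_lit 78) (nat_lit 76) (nat_lit 0) (XT.lf (nat_lit 0) (nat_lit 4421136744) (nat_lit 152) (nat_lit 41119284317) (nat_lit 76) (nat_lit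 26224351110) (nat_lit 59) (nat_lit 5) (nat_lit 61) (nat_lit 5) (nat_lit 60) (nat_lit 4) (nat_lit 486) (nat_lit 417) (nat_lit 297)) (XT.lf (nat_lit 0) (nat_lit 3164021411) (nat_lit 76) (nat_lit 22862078392) (nat_lit 152) (nat_lit 48137648104) (nat_lit 58) (nat_lit 5) (nat_lit 59) (nat_lit 5) (nat_lit 60) (nat_lit 4) (nat_lit 487) (nat_lit 417) (nat_lit 296))))) (XT.nd (nat_lit 312) (nat_lit 228) (nat_lit 0) (XT.nd (nat_lit 156) (nat_lit 152) (nat_lit 0) (XT.nd (nat_lit 78) (nat_lit 76) (nat_lit 0) (XT.lf (nat_lit 0) (nat_lit 49427344949) (nat_lit 152) (nat_lit 25597918669) (nat_lit 0) (nat_lit 1621607181) (nat_lit 58) (nat_lit 5) (nat_lit 60) (nat_lit 4) (nat_lit 58) (nat_lit 4) (nat_lit 488) (nat_lit 417) (nat_lit 295)) (XT.lf (nat_lit 0) (nat_lit 22403997171) (nat_lit 76) (nat_lit 52312954418) (nat_lit 76) (nat_lit 4501283345) (nat_lit 57) (nat_lit 4) (nat_lit 58) (nat_lit 5) (nat_lit 58) (nat_lit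 4) (nat_lit 489) (nat_lit 417) (nat_lit 294))) (XT.nd (nat_lit 78) (nat_lit 76) (nat_lit 0) (XT.lf (nat_lit 0) (nat_lit 19167809777) (nat_lit 152) (nat_lit 8523311797) (nat_lit 76) (nat_lit 54190220567) (nat_lit 56) (nat_lit 5) (nat_lit 58) (nat_lit 5) (nat_lit 57) (nat_lit 4) (nat_lit 490) (nat_lit 417) (nat_lit 293)) (XT.lf (nat_lit 0) (nat_lit 43488588123) (nat_lit 76) (nat_lit 1053505363) (nat_lit 152) (nat_lit 40098171271) (nat_lit 55) (nat_lit 5) (nat_lit 56) (nat_lit 5) (nat_lit 57) (nat_lit 4) (nat_lit 491) (nat_lit 417) (nat_lit 292)))) (XT.nd (nat_lit 156) (nat_lit 76) (nat_lit 0) (XT.nd (nat_lit 78) (nat_lit 76) (nat_lit 0) (XT.lf (nat_lit 0) (nat_lit 10777727085) (nat_lit 76) (nat_lit 61136628271) (nat_lit 76) (nat_lit 15586314998) (nat_lit 54) (nat_lit 4) (nat_lit 55) (nat_lit 5) (nat_lit 55) (nat_lit 4) (nat_lit 492) (nat_lit 417) (nat_lit 291)) (XT.lf (nat_lit 0) (nat_lit 10545907923)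 (nat_lit 152) (nat_lit 23935850929) (nat_lit 76) (nat_lit 55978429366) (nat_lit 53) (nat_lit 5) (nat_lit 55) (nat_lit 5) (nat_lit 54) (nat_lit 4) (nat_lit 493) (nat_lit 417) (nat_lit 290))) (XT.nd (nat_lit 78) (nat_lit 0) (nat_lit 0) (XT.lf (nat_lit 0) (nat_lit 32256332516) (nat_lit 76) (nat_lit 5702556367) (nat_lit 152) (nat_lit 55571120003) (nat_lit 52) (nat_lit 5) (nat_lit 53) (nat_lit 5) (nat_lit 54) (nat_lit 4) (nat_lit 494) (nat_lit 417) (nat_lit 289)) (XT.lf (nat_lit 0) (nat_lit 67531638127) (nat_lit 152) (nat_lit 5044499258) (nat_lit 0) (nat_lit 24137727283) (nat_lit 52) (nat_lit 5) (nat_lit 54) (nat_lit 4) (nat_lit 52) (nat_lit 4) (nat_lit 495) (nat_lit 417) (nat_lit 288)))))))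
noncomputable def xc265 : XT := (XT.nd (nat_lit 1248) (nat_lit 912) (nat_lit 0) (XT.nd (nat_lit 624) (nat_lit 532) (nat_lit 0) (XT.nd (nat_lit 312) (nat_lit 304) (nat_lit 0) (XT.nd (nat_lit 156) (nat_lit 76) (nat_lit 0) (XT.nd (nat_lit 78) (nat_lit 152) (nat_lit 0) (XT.lf (nat_lit 0) (nat_lit 55673929311) (nat_lit 76) (nat_lit 43866426463) (nat_lit 76) (nat_lit 468690958) (nat_lit 51) (nat_lit 4) (nat_lit 52) (nat_lit 5) (nat_lit 52) (nat_lit 4) (nat_lit 496) (nat_lit 417) (nat_lit 287)) (XT.lf (nat_lit 0) (nat_lit 16181155536) (nat_lit 76) (nat_lit 12883494988) (nat_lit 152) (nat_lit 74364463045) (nat_lit 49) (nat_lit 5) (nat_lit 50) (nat_lit 5) (nat_lit 51) (nat_lit 4) (nat_lit 497) (nat_lit 417) (nat_lit 286))) (XT.nd (nat_lit 78) (nat_lit 76) (nat_lit 0) (XT.lf (nat_lit 0) (nat_lit 61123460717) (nat_lit 152) (nat_lit 26057600178) (nat_lit 0) (nat_lit 19785511078) (nat_lit 49) (nat_lit 5) (nat_lit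 51) (nat_lit 4) (nat_lit 49) (nat_lit 4) (nat_lit 498) (nat_lit 417) (nat_lit 285)) (XT.lf (nat_lit 0) (nat_lit 39226414428) (nat_lit 76) (nat_lit 56377329244) (nat_lit 76) (nat_lit 15036233046) (nat_lit 48) (nat_lit 4) (nat_lit 49) (nat_lit 5) (nat_lit 49) (nat_lit 4) (nat_lit 499) (nat_lit 417) (nat_lit 284)))) (XT.nd (nat_lit 156) (nat_lit 152) (nat_lit 0) (XT.nd (nat_lit 78) (nat_lit 76) (nat_lit 0) (XT.lf (nat_lit 0) (nat_lit 17200359937) (nat_lit 152) (nat_lit 6083355047) (nat_lit 76) (nat_lit 91177651561) (nat_lit 47) (nat_lit 5) (nat_lit 49) (nat_lit 5) (nat_lit 48) (nat_lit 4) (nat_lit 500) (nat_lit 417) (nat_lit 283)) (XT.lf (nat_lit 0) (nat_lit 51742177512) (nat_lit 152) (nat_lit 54295255243) (nat_lit 0) (nat_lit 12364132806) (nat_lit 46) (nat_lit 5) (nat_lit 48) (nat_lit 4) (nat_lit 46) (nat_lit 4) (nat_lit 501) (nat_lit 417) (nat_lit 282))) (XT.nd (nat_lit 78) (nat_lit 76) (nat_lit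 0) (XT.lf (nat_lit 0) (nat_lit 15588912235) (nat_lit 76) (nat_lit 73147124095) (nat_lit 76) (nat_lit 33766490707) (nat_lit 45) (nat_lit 4) (nat_lit 46) (nat_lit 5) (nat_lit 46) (nat_lit 4) (nat_lit 502) (nat_lit 417) (nat_lit 281)) (XT.lf (nat_lit 0) (nat_lit 1676117638) (nat_lit 152) (nat_lit 35947057639) (nat_lit 76) (nat_lit 89138272190) (nat_lit 44) (nat_lit 5) (nat_lit 46) (nat_lit 5) (nat_lit 45) (nat_lit 4) (nat_lit 503) (nat_lit 417) (nat_lit 280))))) (XT.nd (nat_lit 312) (nat_lit 228) (nat_lit 0) (XT.nd (nat_lit 156) (nat_lit 228) (nat_lit 0) (XT.nd (nat_lit 78) (nat_lit 0) (nat_lit 0) (XT.lf (nat_lit 0) (nat_lit 38378458815) (nat_lit 152) (nat_lit 91927549307) (nat_lit 0) (nat_lit 868509473) (nat_lit 43) (nat_lit 5) (nat_lit 45) (nat_lit 4) (nat_lit 43) (nat_lit 4) (nat_lit 504) (nat_lit 417) (nat_lit 279)) (XT.lf (nat_lit 0) (nat_lit 78146843476) (nat_lit 152) (nat_lit 16965087033) (nat_lit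 0) (nat_lit 40634764420) (nat_lit 43) (nat_lit 5) (nat_lit 45) (nat_lit 4) (nat_lit 43) (nat_lit 4) (nat_lit 505) (nat_lit 417) (nat_lit 278))) (XT.nd (nat_lit 78) (nat_lit 152) (nat_lit 0) (XT.lf (nat_lit 0) (nat_lit 63778004562) (nat_lit 76) (nat_lit 57117007846) (nat_lit 76) (nat_lit 19602900490) (nat_lit 42) (nat_lit 4) (nat_lit 43) (nat_lit 5) (nat_lit 43) (nat_lit 4) (nat_lit 506) (nat_lit 417) (nat_lit 277)) (XT.lf (nat_lit 0) (nat_lit 3455154444) (nat_lit 76) (nat_lit 16530793611) (nat_lit 152) (nat_lit 125467822424) (nat_lit 40) (nat_lit 5) (nat_lit 41) (nat_lit 5) (nat_lit 42) (nat_lit 4) (nat_lit 507) (nat_lit 417) (nat_lit 276)))) (XT.nd (nat_lit 156) (nat_lit 152) (nat_lit 0) (XT.nd (nat_lit 78) (nat_lit 76) (nat_lit 0) (XT.lf (nat_lit 0) (nat_lit 62618918285) (nat_lit 152) (nat_lit 61048656313) (nat_lit 0) (nat_lit 26887605145) (nat_lit 40) (nat_lit 5) (nat_lit 42) (nat_lit 4) (nat_lit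 40) (nat_lit 4) (nat_lit 508) (nat_lit 417) (nat_lit 275)) (XT.lf (nat_lit 0) (nat_lit 24452044275) (nat_lit 76) (nat_lit 83580083744) (nat_lit 76) (nat_lit 47847101917) (nat_lit 39) (nat_lit 4) (nat_lit 40) (nat_lit 5) (nat_lit 40) (nat_lit 4) (nat_lit 509) (nat_lit 417) (nat_lit 274))) (XT.nd (nat_lit 78) (nat_lit 152) (nat_lit 0) (XT.lf (nat_lit 0) (nat_lit 116339007903) (nat_lit 76) (nat_lit 40406778207) (nat_lit 76) (nat_lit 4672207154) (nat_lit 39) (nat_lit 4) (nat_lit 40) (nat_lit 5) (nat_lit 40) (nat_lit 4) (nat_lit 510) (nat_lit 417) (nat_lit 273)) (XT.lf (nat_lit 0) (nat_lit 40180067415) (nat_lit 152) (nat_lit 120835181541) (nat_lit 0) (nat_lit 6145701128) (nat_lit 37) (nat_lit 5) (nat_lit 39) (nat_lit 4) (nat_lit 37) (nat_lit 4) (nat_lit 511) (nat_lit 417) (nat_lit 272)))))) (XT.nd (nat_lit 624) (nat_lit 456) (nat_lit 0) (XT.nd (nat_lit 312) (nat_lit 228) (nat_lit 0) (XT.nd (nat_lit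 156) (nat_lit 152) (nat_lit 0) (XT.nd (nat_lit 78) (nat_lit 76) (nat_lit 0) (XT.lf (nat_lit 0) (nat_lit 88552330159) (nat_lit 152) (nat_lit 30046584322) (nat_lit 0) (nat_lit 54516591038) (nat_lit 37) (nat_lit 5) (nat_lit 39) (nat_lit 4) (nat_lit 37) (nat_lit 4) (nat_lit 512) (nat_lit 417) (nat_lit 271)) (XT.lf (nat_lit 0) (nat_lit 67432083949) (nat_lit 76) (nat_lit 72960149988) (nat_lit 76) (nat_lit 38923103408) (nat_lit 36) (nat_lit 4) (nat_lit 37) (nat_lit 5) (nat_lit 37) (nat_lit 4) (nat_lit 513) (nat_lit 417) (nat_lit 270))) (XT.nd (nat_lit 78) (nat_lit 76) (nat_lit 0) (XT.lf (nat_lit 0) (nat_lit 9224370308) (nat_lit 152) (nat_lit 15128332648) (nat_lit 76) (nat_lit 161439761786) (nat_lit 35) (nat_lit 5) (nat_lit 37) (nat_lit 5) (nat_lit 36) (nat_lit 4) (nat_lit 514) (nat_lit 417) (nat_lit 269)) (XT.lf (nat_lit 0) (nat_lit 60301453816) (nat_lit 152) (nat_lit 104285671502) (nat_lit 0) (nat_lit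 27882903639) (nat_lit 34) (nat_lit 5) (nat_lit 36) (nat_lit 4) (nat_lit 34) (nat_lit 4) (nat_lit 515) (nat_lit 417) (nat_lit 268)))) (XT.nd (nat_lit 156) (nat_lit 152) (nat_lit 0) (XT.nd (nat_lit 78) (nat_lit 76) (nat_lit 0) (XT.lf (nat_lit 0) (nat_lit 114588431445) (nat_lit 152) (nat_lit 2691432333) (nat_lit 0) (nat_lit 82168805617) (nat_lit 34) (nat_lit 5) (nat_lit 36) (nat_lit 4) (nat_lit 34) (nat_lit 4) (nat_lit 516) (nat_lit 417) (nat_lit 267)) (XT.lf (nat_lit 0) (nat_lit 107413517284) (nat_lit 76) (nat_lit 65849847255) (nat_lit 76) (nat_lit 33429196998) (nat_lit 33) (nat_lit 4) (nat_lit 34) (nat_lit 5) (nat_lit 34) (nat_lit 4) (nat_lit 517) (nat_lit 417) (nat_lit 266))) (XT.nd (nat_lit 78) (nat_lit 0) (nat_lit 0) (XT.lf (nat_lit 0) (nat_lit 8772704810) (nat_lit 76) (nat_lit 11322090659) (nat_lit 152) (nat_lit 194178798578) (nat_lit 31) (nat_lit 5) (nat_lit 32) (nat_lit 5) (nat_lit 33) (nat_lit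 4) (nat_lit 518) (nat_lit 417) (nat_lit 265)) (XT.lf (nat_lit 0) (nat_lit 77594162232) (nat_lit 152) (nat_lit 97775445897) (nat_lit 0) (nat_lit 46715538336) (nat_lit 31) (nat_lit 5) (nat_lit 33) (nat_lit 4) (nat_lit 31) (nat_lit 4) (nat_lit 519) (nat_lit 417) (nat_lit 264))))) (XT.nd (nat_lit 312) (nat_lit 228) (nat_lit 0) (XT.nd (nat_lit 156) (nat_lit 152) (nat_lit 0) (XT.nd (nat_lit 78) (nat_lit 0) (nat_lit 0) (XT.lf (nat_lit 0) (nat_lit 15644812726) (nat_lit 76) (nat_lit 122750299860) (nat_lit 76) (nat_lit 91870833163) (nat_lit 30) (nat_lit 4) (nat_lit 31) (nat_lit 5) (nat_lit 31) (nat_lit 4) (nat_lit 520) (nat_lit 417) (nat_lit 263)) (XT.lf (nat_lit 0) (nat_lit 138124152567) (nat_lit 76) (nat_lit 65764633999) (nat_lit 76) (nat_lit 34884364635) (nat_lit 30) (nat_lit 4) (nat_lit 31) (nat_lit 5) (nat_lit 31) (nat_lit 4) (nat_lit 521) (nat_lit 417) (nat_lit 262))) (XT.nd (nat_lit 78) (nat_lit 0)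 (nat_lit 0) (XT.lf (nat_lit 0) (nat_lit 19241769060) (nat_lit 76) (nat_lit 5208378680) (nat_lit 152) (nat_lit 223221225011) (nat_lit 28) (nat_lit 5) (nat_lit 29) (nat_lit 5) (nat_lit 30) (nat_lit 4) (nat_lit 522) (nat_lit 417) (nat_lit 261)) (XT.lf (nat_lit 0) (nat_lit 88219839576) (nat_lit 152) (nat_lit 109825394393) (nat_lit 0) (nat_lit 58808637814) (nat_lit 28) (nat_lit 5) (nat_lit 30) (nat_lit 4) (nat_lit 28) (nat_lit 4) (nat_lit 523) (nat_lit 417) (nat_lit 260)))) (XT.nd (nat_lit 156) (nat_lit 152) (nat_lit 0) (XT.nd (nat_lit 78) (nat_lit 0) (nat_lit 0) (XT.lf (nat_lit 0) (nat_lit 15100996028) (nat_lit 76) (nat_lit 140395225787) (nat_lit 76) (nat_lit 110983363668) (nat_lit 27) (nat_lit 4) (nat_lit 28) (nat_lit 5) (nat_lit 28) (nat_lit 4) (nat_lit 524) (nat_lit 417) (nat_lit 259)) (XT.lf (nat_lit 0) (nat_lit 150080719732) (nat_lit 76) (nat_lit 77912751874) (nat_lit 76) (nat_lit 48500260845)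 (nat_lit 27) (nat_lit 4) (nat_lit 28) (nat_lit 5) (nat_lit 28) (nat_lit 4) (nat_lit 525) (nat_lit 417) (nat_lit 258))) (XT.nd (nat_lit 78) (nat_lit 0) (nat_lit 0) (XT.lf (nat_lit 0) (nat_lit 4677784105) (nat_lit 76) (nat_lit 11951910576) (nat_lit 152) (nat_lit 270362026270) (nat_lit 25) (nat_lit 5) (nat_lit 26) (nat_lit 5) (nat_lit 27) (nat_lit 4) (nat_lit 526) (nat_lit 417) (nat_lit 257)) (XT.nd (nat_lit 78) (nat_lit 0) (nat_lit 0) (XT.lf (nat_lit 0) (nat_lit 86454102185) (nat_lit 152) (nat_lit 152926266083) (nat_lit 0) (nat_lit 58441092250) (nat_lit 25) (nat_lit 5) (nat_lit 27) (nat_lit 4) (nat_lit 25) (nat_lit 4) (nat_lit 527) (nat_lit 417) (nat_lit 256)) (XT.lf (nat_lit 0) (nat_lit 159962993366) (nat_lit 152) (nat_lit 17270564515) (nat_lit 0) (nat_lit 131949466024) (nat_lit 25) (nat_lit 5) (nat_lit 27) (nat_lit 4) (nat_lit 25) (nat_lit 4) (nat_lit 528) (nat_lit 417) (nat_lit 255))))))))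
noncomputable def xc266 : XT := (XT.nd (nat_lit 1248) (nat_lit 380) (nat_lit 0) (XT.nd (nat_lit 624) (nat_lit 304) (nat_lit 0) (XT.nd (nat_lit 312) (nat_lit 228) (nat_lit 0) (XT.nd (nat_lit 156) (nat_lit 152) (nat_lit 0) (XT.nd (nat_lit 78) (nat_lit 0) (nat_lit 0) (XT.lf (nat_lit 0) (nat_lit 129301206554) (nat_lit 76) (nat_lit 109862334219) (nat_lit 76) (nat_lit 81848314109) (nat_lit 24) (nat_lit 4) (nat_lit 25) (nat_lit 5) (nat_lit 25) (nat_lit 4) (nat_lit 529) (nat_lit 417) (nat_lit 254)) (XT.lf (nat_lit 0) (nat_lit 283796082743) (nat_lit 76) (nat_lit 38818017426) (nat_lit 76) (nat_lit 10803528013) (nat_lit 24) (nat_lit 4) (nat_lit 25) (nat_lit 5) (nat_lit 25) (nat_lit 4) (nat_lit 530) (nat_lit 417) (nat_lit 253))) (XT.nd (nat_lit 78) (nat_lit 0) (nat_lit 0) (XT.lf (nat_lit 0) (nat_lit 63940097757) (nat_lit 152) (nat_lit 245085167118) (nat_lit 0) (nat_lit 37259205978) (nat_lit 22) (nat_lit 5)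 (nat_lit 24) (nat_lit 4) (nat_lit 22) (nat_lit 4) (nat_lit 531) (nat_lit 417) (nat_lit 252)) (XT.lf (nat_lit 0) (nat_lit 143545918413) (nat_lit 152) (nat_lit 99300856517) (nat_lit 0) (nat_lit 116864621232) (nat_lit 22) (nat_lit 5) (nat_lit 24) (nat_lit 4) (nat_lit 22) (nat_lit 4) (nat_lit 532) (nat_lit 417) (nat_lit 251)))) (XT.nd (nat_lit 156) (nat_lit 152) (nat_lit 0) (XT.nd (nat_lit 78) (nat_lit 0) (nat_lit 0) (XT.lf (nat_lit 0) (nat_lit 55545798188) (nat_lit 76) (nat_lit 172451153379) (nat_lit 76) (nat_lit 145769470102) (nat_lit 21) (nat_lit 4) (nat_lit 22) (nat_lit 5) (nat_lit 22) (nat_lit 4) (nat_lit 533) (nat_lit 417) (nat_lit 250)) (XT.lf (nat_lit 0) (nat_lit 221577678829) (nat_lit 76) (nat_lit 96772299263) (nat_lit 76) (nat_lit 70090248275) (nat_lit 21) (nat_lit 4) (nat_lit 22) (nat_lit 5) (nat_lit 22) (nat_lit 4) (nat_lit 534) (nat_lit 417) (nat_lit 249))) (XT.nd (nat_lit 78) (nat_lit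 76) (nat_lit 0) (XT.lf (nat_lit 0) (nat_lit 9070748392) (nat_lit 152) (nat_lit 8087366985) (nat_lit 76) (nat_lit 386682398729) (nat_lit 20) (nat_lit 5) (nat_lit 22) (nat_lit 5) (nat_lit 21) (nat_lit 4) (nat_lit 535) (nat_lit 417) (nat_lit 248)) (XT.lf (nat_lit 0) (nat_lit 93469810135) (nat_lit 152) (nat_lit 258244097881) (nat_lit 0) (nat_lit 68057681836) (nat_lit 19) (nat_lit 5) (nat_lit 21) (nat_lit 4) (nat_lit 19) (nat_lit 4) (nat_lit 536) (nat_lit 417) (nat_lit 247))))) (XT.nd (nat_lit 312) (nat_lit 228) (nat_lit 0) (XT.nd (nat_lit 156) (nat_lit 0) (nat_lit 0) (XT.nd (nat_lit 78) (nat_lit 76) (nat_lit 0) (XT.lf (nat_lit 0) (nat_lit 182507226024) (nat_lit 152) (nat_lit 96876278104) (nat_lit 0) (nat_lit 157094795208) (nat_lit 19) (nat_lit 5) (nat_lit 21) (nat_lit 4) (nat_lit 19) (nat_lit 4) (nat_lit 537) (nat_lit 417) (nat_lit 246)) (XT.lf (nat_lit 0) (nat_lit 74954910269) (nat_lit 76) (nat_lit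 202209869793) (nat_lit 76) (nat_lit 176797150867) (nat_lit 18) (nat_lit 4) (nat_lit 19) (nat_lit 5) (nat_lit 19) (nat_lit 4) (nat_lit 538) (nat_lit 417) (nat_lit 245))) (XT.nd (nat_lit 78) (nat_lit 0) (nat_lit 0) (XT.lf (nat_lit 0) (nat_lit 258737001344) (nat_lit 76) (nat_lit 119456900781) (nat_lit 76) (nat_lit 94043907463) (nat_lit 18) (nat_lit 4) (nat_lit 19) (nat_lit 5) (nat_lit 19) (nat_lit 4) (nat_lit 539) (nat_lit 417) (nat_lit 244)) (XT.lf (nat_lit 0) (nat_lit 451704404268) (nat_lit 76) (nat_lit 32568212859) (nat_lit 76) (nat_lit 7154958215) (nat_lit 18) (nat_lit 4) (nat_lit 19) (nat_lit 5) (nat_lit 19) (nat_lit 4) (nat_lit 540) (nat_lit 417) (nat_lit 243)))) (XT.nd (nat_lit 156) (nat_lit 76) (nat_lit 0) (XT.nd (nat_lit 78) (nat_lit 0) (nat_lit 0) (XT.lf (nat_lit 0) (nat_lit 84641489018) (nat_lit 152) (nat_lit 366268848756) (nat_lit 0) (nat_lit 60438152327) (nat_lit 16) (nat_lit 5) (nat_lit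 18) (nat_lit 4) (nat_lit 16) (nat_lit 4) (nat_lit 541) (nat_lit 417) (nat_lit 242)) (XT.lf (nat_lit 0) (nat_lit 182003166973) (nat_lit 152) (nat_lit 192396021272) (nat_lit 0) (nat_lit 157799604540) (nat_lit 16) (nat_lit 5) (nat_lit 18) (nat_lit 4) (nat_lit 16) (nat_lit 4) (nat_lit 542) (nat_lit 417) (nat_lit 241))) (XT.nd (nat_lit 78) (nat_lit 76) (nat_lit 0) (XT.lf (nat_lit 0) (nat_lit 284231211916) (nat_lit 152) (nat_lit 9833050049) (nat_lit 0) (nat_lit 260027434489) (nat_lit 16) (nat_lit 5) (nat_lit 18) (nat_lit 4) (nat_lit 16) (nat_lit 4) (nat_lit 543) (nat_lit 417) (nat_lit 240)) (XT.lf (nat_lit 0) (nat_lit 187867677596) (nat_lit 76) (nat_lit 206634487302) (nat_lit 76) (nat_lit 182430505120) (nat_lit 15) (nat_lit 4) (nat_lit 16) (nat_lit 5) (nat_lit 16) (nat_lit 4) (nat_lit 544) (nat_lit 417) (nat_lit 239)))))) (XT.nd (nat_lit 624) (nat_lit 152) (nat_lit 0) (XT.nd (nat_lit 312) (nat_lit 76)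 (nat_lit 0) (XT.nd (nat_lit 156) (nat_lit 76) (nat_lit 0) (XT.nd (nat_lit 78) (nat_lit 76) (nat_lit 0) (XT.lf (nat_lit 0) (nat_lit 395791545565) (nat_lit 76) (nat_lit 114660038966) (nat_lit 76) (nat_lit 90455861780) (nat_lit 15) (nat_lit 4) (nat_lit 16) (nat_lit 5) (nat_lit 16) (nat_lit 4) (nat_lit 545) (nat_lit 417) (nat_lit 238)) (XT.lf (nat_lit 0) (nat_lit 5920158104) (nat_lit 152) (nat_lit 12068038791) (nat_lit 76) (nat_lit 608088066798) (nat_lit 14) (nat_lit 5) (nat_lit 16) (nat_lit 5) (nat_lit 15) (nat_lit 4) (nat_lit 546) (nat_lit 417) (nat_lit 237))) (XT.nd (nat_lit 78) (nat_lit 0) (nat_lit 0) (XT.lf (nat_lit 0) (nat_lit 108502568905) (nat_lit 152) (nat_lit 458254807633) (nat_lit 0) (nat_lit 85450626257) (nat_lit 13) (nat_lit 5) (nat_lit 15) (nat_lit 4) (nat_lit 13) (nat_lit 4) (nat_lit 547) (nat_lit 417) (nat_lit 236)) (XT.lf (nat_lit 0) (nat_lit 216715234973) (nat_lit 152) (nat_lit 269242905253)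 (nat_lit 0) (nat_lit 193663131893) (nat_lit 13) (nat_lit 5) (nat_lit 15) (nat_lit 4) (nat_lit 13) (nat_lit 4) (nat_lit 548) (nat_lit 417) (nat_lit 235)))) (XT.nd (nat_lit 156) (nat_lit 0) (nat_lit 0) (XT.nd (nat_lit 78) (nat_lit 76) (nat_lit 0) (XT.lf (nat_lit 0) (nat_lit 330337122644) (nat_lit 152) (nat_lit 70783286077) (nat_lit 0) (nat_lit 307284866773) (nat_lit 13) (nat_lit 5) (nat_lit 15) (nat_lit 4) (nat_lit 13) (nat_lit 4) (nat_lit 549) (nat_lit 417) (nat_lit 234)) (XT.lf (nat_lit 0) (nat_lit 142146136896) (nat_lit 76) (nat_lit 309711922889) (nat_lit 76) (nat_lit 286659521502) (nat_lit 12) (nat_lit 4) (nat_lit 13) (nat_lit 5) (nat_lit 13) (nat_lit 4) (nat_lit 550) (nat_lit 417) (nat_lit 233))) (XT.nd (nat_lit 78) (nat_lit 0) (nat_lit 0) (XT.lf (nat_lit 0) (nat_lit 368176769830) (nat_lit 76) (nat_lit 212475700590) (nat_lit 76) (nat_lit 189423160617) (nat_lit 12) (nat_lit 4) (nat_lit 13) (nat_lit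 5) (nat_lit 13) (nat_lit 4) (nat_lit 551) (nat_lit 417) (nat_lit 232)) (XT.lf (nat_lit 0) (nat_lit 605506365795) (nat_lit 76) (nat_lit 110378976211) (nat_lit 76) (nat_lit 87326304250) (nat_lit 12) (nat_lit 4) (nat_lit 13) (nat_lit 5) (nat_lit 13) (nat_lit 4) (nat_lit 552) (nat_lit 417) (nat_lit 231))))) (XT.nd (nat_lit 52104) (nat_lit 0) (nat_lit 12464) (XT.nd (nat_lit 51948) (nat_lit 0) (nat_lit 12464) (XT.nd (nat_lit 78) (nat_lit 0) (nat_lit 0) (XT.lf (nat_lit 0) (nat_lit 16926950205) (nat_lit 76) (nat_lit 2575365827) (nat_lit 152) (nat_lit 818473477781) (nat_lit 10) (nat_lit 5) (nat_lit 11) (nat_lit 5) (nat_lit 12) (nat_lit 4) (nat_lit 553) (nat_lit 417) (nat_lit 230)) (XT.lf (nat_lit 0) (nat_lit 133866599304) (nat_lit 152) (nat_lit 628372082191) (nat_lit 0) (nat_lit 111911439896) (nat_lit 10) (nat_lit 5) (nat_lit 12) (nat_lit 4) (nat_lit 10) (nat_lit 4) (nat_lit 554) (nat_lit 417) (nat_lit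 229))) (XT.nd (nat_lit 78) (nat_lit 0) (nat_lit 0) (XT.lf (nat_lit 0) (nat_lit 1275699338) (nat_lit 0) (nat_lit 1275699338) (nat_lit 684) (nat_lit 2563197651) (nat_lit 174) (nat_lit 5) (nat_lit 174) (nat_lit 3) (nat_lit 183) (nat_lit 3) (nat_lit 418) (nat_lit 418) (nat_lit 364)) (XT.lf (nat_lit 0) (nat_lit 5925077815) (nat_lit 684) (nat_lit 2603439565) (nat_lit 760) (nat_lit 1921614894) (nat_lit 174) (nat_lit 5) (nat_lit 183) (nat_lit 3) (nat_lit 184) (nat_lit 5) (nat_lit 419) (nat_lit 418) (nat_lit 363)))) (XT.nd (nat_lit 156) (nat_lit 0) (nat_lit 76) (XT.nd (nat_lit 78) (nat_lit 0) (nat_lit 76) (XT.lf (nat_lit 76) (nat_lit 2747025792) (nat_lit 0) (nat_lit 4084006990) (nat_lit 760) (nat_lit 3848961565) (nat_lit 175) (nat_lit 5) (nat_lit 174) (nat_lit 5) (nat_lit 184) (nat_lit 5) (nat_lit 420) (nat_lit 418) (nat_lit 362)) (XT.lf (nat_lit 0) (nat_lit 7795953997) (nat_lit 684) (nat_lit 2499183414)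 (nat_lit 760) (nat_lit 625532021) (nat_lit 175) (nat_lit 5) (nat_lit 184) (nat_lit 5) (nat_lit 185) (nat_lit 5) (nat_lit 421) (nat_lit 418) (nat_lit 361))) (XT.nd (nat_lit 78) (nat_lit 0) (nat_lit 0) (XT.lf (nat_lit 76) (nat_lit 3217936448) (nat_lit 0) (nat_lit 5670050255) (nat_lit 760) (nat_lit 2281451471) (nat_lit 176) (nat_lit 5) (nat_lit 175) (nat_lit 5) (nat_lit 185) (nat_lit 5) (nat_lit 422) (nat_lit 418) (nat_lit 360)) (XT.nd (nat_lit 78) (nat_lit 0) (nat_lit 76) (XT.lf (nat_lit 76) (nat_lit 9283674156) (nat_lit 0) (nat_lit 756395560) (nat_lit 760) (nat_lit 1390306228) (nat_lit 176) (nat_lit 5) (nat_lit 175) (nat_lit 5) (nat_lit 185) (nat_lit 5) (nat_lit 423) (nat_lit 418) (nat_lit 359)) (XT.lf (nat_lit 76) (nat_lit 3982241081) (nat_lit 0) (nat_lit 7363503202) (nat_lit 760) (nat_lit 353819828) (nat_lit 177) (nat_lit 5) (nat_lit 176) (nat_lit 5) (nat_lit 186) (nat_lit 5) (nat_lit 424) (nat_lit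 418) (nat_lit 358))))))))
noncomputable def xc267 : XT := (XT.nd (nat_lit 1248) (nat_lit 2432) (nat_lit 0) (XT.nd (nat_lit 624) (nat_lit 1824) (nat_lit 0) (XT.nd (nat_lit 312) (nat_lit 1064) (nat_lit 0) (XT.nd (nat_lit 156) (nat_lit 0) (nat_lit 76) (XT.nd (nat_lit 78) (nat_lit 0) (nat_lit 76) (XT.lf (nat_lit 0) (nat_lit 726133056) (nat_lit 760) (nat_lit 1538242211) (nat_lit 836) (nat_lit 9716508135) (nat_lit 166) (nat_lit 5) (nat_lit 176) (nat_lit 5) (nat_lit 177) (nat_lit 5) (nat_lit 425) (nat_lit 418) (nat_lit 357)) (XT.lf (nat_lit 0) (nat_lit 1944733690) (nat_lit 760) (nat_lit 7241075501) (nat_lit 836) (nat_lit 3085344899) (nat_lit 167) (nat_lit 5) (nat_lit 177) (nat_lit 5) (nat_lit 178) (nat_lit 5) (nat_lit 426) (nat_lit 418) (nat_lit 356))) (XT.nd (nat_lit 78) (nat_lit 0) (nat_lit 76) (XT.lf (nat_lit 0) (nat_lit 3256584736) (nat_lit 760) (nat_lit 657588431) (nat_lit 836) (nat_lit 8660151493)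 (nat_lit 167) (nat_lit 5) (nat_lit 177) (nat_lit 5) (nat_lit 178) (nat_lit 5) (nat_lit 427) (nat_lit 418) (nat_lit 355)) (XT.lf (nat_lit 0) (nat_lit 4731774554) (nat_lit 760) (nat_lit 6479478481) (nat_lit 76) (nat_lit 1676515671) (nat_lit 168) (nat_lit 5) (nat_lit 178) (nat_lit 5) (nat_lit 169) (nat_lit 5) (nat_lit 428) (nat_lit 418) (nat_lit 354)))) (XT.nd (nat_lit 156) (nat_lit 456) (nat_lit 0) (XT.nd (nat_lit 78) (nat_lit 0) (nat_lit 0) (XT.lf (nat_lit 0) (nat_lit 562081521) (nat_lit 760) (nat_lit 5774232487) (nat_lit 836) (nat_lit 6877793587) (nat_lit 158) (nat_lit 5) (nat_lit 168) (nat_lit 5) (nat_lit 169) (nat_lit 5) (nat_lit 429) (nat_lit 418) (nat_lit 353)) (XT.lf (nat_lit 0) (nat_lit 8103934145) (nat_lit 836) (nat_lit 5397922410) (nat_lit 76) (nat_lit 50766235) (nat_lit 158) (nat_lit 5) (nat_lit 169) (nat_lit 5) (nat_lit 159) (nat_lit 5) (nat_lit 430) (nat_lit 418) (nat_lit 352))) (XT.nd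 (nat_lit 78) (nat_lit 0) (nat_lit 0) (XT.lf (nat_lit 0) (nat_lit 2168351894) (nat_lit 456) (nat_lit 7893756200) (nat_lit 532) (nat_lit 3840848957) (nat_lit 152) (nat_lit 5) (nat_lit 158) (nat_lit 5) (nat_lit 159) (nat_lit 5) (nat_lit 431) (nat_lit 418) (nat_lit 351)) (XT.lf (nat_lit 0) (nat_lit 10275475468) (nat_lit 456) (nat_lit 1908656972) (nat_lit 532) (nat_lit 2083380358) (nat_lit 152) (nat_lit 5) (nat_lit 158) (nat_lit 5) (nat_lit 159) (nat_lit 5) (nat_lit 432) (nat_lit 418) (nat_lit 350))))) (XT.nd (nat_lit 312) (nat_lit 988) (nat_lit 0) (XT.nd (nat_lit 156) (nat_lit 380) (nat_lit 0) (XT.nd (nat_lit 78) (nat_lit 76) (nat_lit 0) (XT.lf (nat_lit 0) (nat_lit 4178161454) (nat_lit 380) (nat_lit 10343393627) (nat_lit 456) (nat_lit 123278164) (nat_lit 147) (nat_lit 5) (nat_lit 152) (nat_lit 5) (nat_lit 153) (nat_lit 5) (nat_lit 433) (nat_lit 418) (nat_lit 349)) (XT.lf (nat_lit 0) (nat_lit 1949040476)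 (nat_lit 456) (nat_lit 2230077345) (nat_lit 76) (nat_lit 10856586195) (nat_lit 146) (nat_lit 5) (nat_lit 152) (nat_lit 5) (nat_lit 147) (nat_lit 5) (nat_lit 434) (nat_lit 418) (nat_lit 348))) (XT.nd (nat_lit 78) (nat_lit 0) (nat_lit 0) (XT.lf (nat_lit 0) (nat_lit 4238710257) (nat_lit 456) (nat_lit 8875918514) (nat_lit 76) (nat_lit 2325496125) (nat_lit 141) (nat_lit 5) (nat_lit 147) (nat_lit 5) (nat_lit 142) (nat_lit 5) (nat_lit 435) (nat_lit 418) (nat_lit 347)) (XT.lf (nat_lit 0) (nat_lit 6727715853) (nat_lit 456) (nat_lit 81159824) (nat_lit 76) (nat_lit 9051649980) (nat_lit 141) (nat_lit 5) (nat_lit 147) (nat_lit 5) (nat_lit 142) (nat_lit 5) (nat_lit 436) (nat_lit 418) (nat_lit 346)))) (XT.nd (nat_lit 156) (nat_lit 380) (nat_lit 0) (XT.nd (nat_lit 78) (nat_lit 304) (nat_lit 0) (XT.lf (nat_lit 0) (nat_lit 9431607468) (nat_lit 304) (nat_lit 35823437) (nat_lit 380) (nat_lit 6828203977) (nat_lit 137)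 (nat_lit 5) (nat_lit 141) (nat_lit 5) (nat_lit 142) (nat_lit 5) (nat_lit 437) (nat_lit 418) (nat_lit 345)) (XT.lf (nat_lit 0) (nat_lit 2619551557) (nat_lit 304) (nat_lit 9856947953) (nat_lit 380) (nat_lit 4269382989) (nat_lit 133) (nat_lit 5) (nat_lit 137) (nat_lit 5) (nat_lit 138) (nat_lit 5) (nat_lit 438) (nat_lit 418) (nat_lit 344))) (XT.nd (nat_lit 78) (nat_lit 380) (nat_lit 0) (XT.lf (nat_lit 0) (nat_lit 12791202999) (nat_lit 304) (nat_lit 2941839767) (nat_lit 380) (nat_lit 1480749925) (nat_lit 133) (nat_lit 5) (nat_lit 137) (nat_lit 5) (nat_lit 138) (nat_lit 5) (nat_lit 439) (nat_lit 418) (nat_lit 343)) (XT.lf (nat_lit 0) (nat_lit 1543337710) (nat_lit 380) (nat_lit 11859984748) (nat_lit 76) (nat_lit 4293529941) (nat_lit 128) (nat_lit 5) (nat_lit 133) (nat_lit 5) (nat_lit 129) (nat_lit 5) (nat_lit 440) (nat_lit 418) (nat_lit 342)))))) (XT.nd (nat_lit 624) (nat_lit 1064) (nat_lit 0) (XT.nd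 (nat_lit 312) (nat_lit 836) (nat_lit 0) (XT.nd (nat_lit 156) (nat_lit 228) (nat_lit 0) (XT.nd (nat_lit 78) (nat_lit 304) (nat_lit 0) (XT.lf (nat_lit 0) (nat_lit 4774538175) (nat_lit 380) (nat_lit 1535002670) (nat_lit 76) (nat_lit 11888028035) (nat_lit 128) (nat_lit 5) (nat_lit 133) (nat_lit 5) (nat_lit 129) (nat_lit 5) (nat_lit 441) (nat_lit 418) (nat_lit 341)) (XT.lf (nat_lit 0) (nat_lit 8319401741) (nat_lit 380) (nat_lit 9146360817) (nat_lit 76) (nat_lit 1249954506) (nat_lit 124) (nat_lit 5) (nat_lit 129) (nat_lit 5) (nat_lit 125) (nat_lit 5) (nat_lit 442) (nat_lit 418) (nat_lit 340))) (XT.nd (nat_lit 78) (nat_lit 0) (nat_lit 0) (XT.lf (nat_lit 0) (nat_lit 1959525434) (nat_lit 228) (nat_lit 10225062643) (nat_lit 304) (nat_lit 7068031586) (nat_lit 121) (nat_lit 5) (nat_lit 124) (nat_lit 5) (nat_lit 125) (nat_lit 5) (nat_lit 443) (nat_lit 418) (nat_lit 339)) (XT.lf (nat_lit 0) (nat_lit 13915536854)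 (nat_lit 228) (nat_lit 2465496197) (nat_lit 304) (nat_lit 3428435312) (nat_lit 121) (nat_lit 5) (nat_lit 124) (nat_lit 5) (nat_lit 125) (nat_lit 5) (nat_lit 444) (nat_lit 418) (nat_lit 338)))) (XT.nd (nat_lit 156) (nat_lit 456) (nat_lit 0) (XT.nd (nat_lit 78) (nat_lit 0) (nat_lit 0) (XT.lf (nat_lit 0) (nat_lit 552050873) (nat_lit 380) (nat_lit 14233298255) (nat_lit 76) (nat_lit 5599929667) (nat_lit 116) (nat_lit 5) (nat_lit 121) (nat_lit 5) (nat_lit 117) (nat_lit 5) (nat_lit 445) (nat_lit 418) (nat_lit 337)) (XT.lf (nat_lit 0) (nat_lit 4742202052) (nat_lit 380) (nat_lit 2100852583) (nat_lit 76) (nat_lit 14137722799) (nat_lit 116) (nat_lit 5) (nat_lit 121) (nat_lit 5) (nat_lit 117) (nat_lit 5) (nat_lit 446) (nat_lit 418) (nat_lit 336))) (XT.nd (nat_lit 78) (nat_lit 228) (nat_lit 0) (XT.lf (nat_lit 0) (nat_lit 9323921951) (nat_lit 304) (nat_lit 10656516779) (nat_lit 76) (nat_lit 1616509988) (nat_lit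 113) (nat_lit 5) (nat_lit 117) (nat_lit 5) (nat_lit 114) (nat_lit 5) (nat_lit 447) (nat_lit 418) (nat_lit 335)) (XT.lf (nat_lit 0) (nat_lit 2407100301) (nat_lit 228) (nat_lit 11898601992) (nat_lit 304) (nat_lit 7929678286) (nat_lit 110) (nat_lit 5) (nat_lit 113) (nat_lit 5) (nat_lit 114) (nat_lit 5) (nat_lit 448) (nat_lit 418) (nat_lit 334))))) (XT.nd (nat_lit 312) (nat_lit 608) (nat_lit 0) (XT.nd (nat_lit 156) (nat_lit 228) (nat_lit 0) (XT.nd (nat_lit 78) (nat_lit 228) (nat_lit 0) (XT.lf (nat_lit 0) (nat_lit 16472473785) (nat_lit 228) (nat_lit 3229998464) (nat_lit 304) (nat_lit 3194967454) (nat_lit 110) (nat_lit 5) (nat_lit 113) (nat_lit 5) (nat_lit 114) (nat_lit 5) (nat_lit 449) (nat_lit 418) (nat_lit 333)) (XT.lf (nat_lit 0) (nat_lit 1922131148) (nat_lit 228) (nat_lit 15828606337) (nat_lit 76) (nat_lit 5830352609) (nat_lit 107) (nat_lit 5) (nat_lit 110) (nat_lit 5) (nat_lit 108) (nat_lit 5)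 (nat_lit 450) (nat_lit 418) (nat_lit 332))) (XT.nd (nat_lit 78) (nat_lit 228) (nat_lit 0) (XT.lf (nat_lit 0) (nat_lit 7337396575) (nat_lit 228) (nat_lit 1559817076) (nat_lit 76) (nat_lit 15391606946) (nat_lit 107) (nat_lit 5) (nat_lit 110) (nat_lit 5) (nat_lit 108) (nat_lit 5) (nat_lit 451) (nat_lit 418) (nat_lit 331)) (XT.lf (nat_lit 0) (nat_lit 13236056659) (nat_lit 304) (nat_lit 11185987789) (nat_lit 76) (nat_lit 599262182) (nat_lit 104) (nat_lit 5) (nat_lit 108) (nat_lit 5) (nat_lit 105) (nat_lit 5) (nat_lit 452) (nat_lit 418) (nat_lit 330)))) (XT.nd (nat_lit 156) (nat_lit 380) (nat_lit 0) (XT.nd (nat_lit 78) (nat_lit 76) (nat_lit 0) (XT.lf (nat_lit 0) (nat_lit 4234201987) (nat_lit 152) (nat_lit 15421272746) (nat_lit 228) (nat_lit 6123651529) (nat_lit 102) (nat_lit 5) (nat_lit 104) (nat_lit 5) (nat_lit 105) (nat_lit 5) (nat_lit 453) (nat_lit 418) (nat_lit 329)) (XT.lf (nat_lit 0) (nat_lit 6411016)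 (nat_lit 228) (nat_lit 5772320611) (nat_lit 76) (nat_lit 20787262665) (nat_lit 101) (nat_lit 5) (nat_lit 104) (nat_lit 5) (nat_lit 102) (nat_lit 5) (nat_lit 454) (nat_lit 418) (nat_lit 328))) (XT.nd (nat_lit 78) (nat_lit 152) (nat_lit 0) (XT.lf (nat_lit 0) (nat_lit 6469195443) (nat_lit 304) (nat_lit 16429536324) (nat_lit 76) (nat_lit 4476854364) (nat_lit 98) (nat_lit 5) (nat_lit 102) (nat_lit 5) (nat_lit 99) (nat_lit 5) (nat_lit 455) (nat_lit 418) (nat_lit 327)) (XT.nd (nat_lit 78) (nat_lit 0) (nat_lit 0) (XT.lf (nat_lit 0) (nat_lit 376069684) (nat_lit 152) (nat_lit 13066912802) (nat_lit 228) (nat_lit 14773282356) (nat_lit 96) (nat_lit 5) (nat_lit 98) (nat_lit 5) (nat_lit 99) (nat_lit 5) (nat_lit 456) (nat_lit 418) (nat_lit 326)) (XT.lf (nat_lit 0) (nat_lit 18573066568) (nat_lit 152) (nat_lit 2458808566) (nat_lit 228) (nat_lit 8053781972) (nat_lit 96) (nat_lit 5) (nat_lit 98) (nat_lit 5) (nat_lit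 99) (nat_lit 5) (nat_lit 457) (nat_lit 418) (nat_lit 325))))))))
noncomputable def xc268 : XT := (XT.nd (nat_lit 1248) (nat_lit 1292) (nat_lit 0) (XT.nd (nat_lit 624) (nat_lit 760) (nat_lit 0) (XT.nd (nat_lit 312) (nat_lit 380) (nat_lit 0) (XT.nd (nat_lit 156) (nat_lit 304) (nat_lit 0) (XT.nd (nat_lit 78) (nat_lit 76) (nat_lit 0) (XT.lf (nat_lit 0) (nat_lit 7775938368) (nat_lit 152) (nat_lit 21469819010) (nat_lit 228) (nat_lit 740484765) (nat_lit 94) (nat_lit 5) (nat_lit 96) (nat_lit 5) (nat_lit 97) (nat_lit 5) (nat_lit 458) (nat_lit 418) (nat_lit 324)) (XT.lf (nat_lit 0) (nat_lit 6926361597) (nat_lit 228) (nat_lit 3749534205) (nat_lit 76) (nat_lit 20240046603) (nat_lit 93) (nat_lit 5) (nat_lit 96) (nat_lit 5) (nat_lit 94) (nat_lit 5) (nat_lit 459) (nat_lit 418) (nat_lit 323))) (XT.nd (nat_lit 78) (nat_lit 152) (nat_lit 0) (XT.lf (nat_lit 0) (nat_lit 15207060282) (nat_lit 228) (nat_lit 15773869260)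 (nat_lit 76) (nat_lit 897821779) (nat_lit 91) (nat_lit 5) (nat_lit 94) (nat_lit 5) (nat_lit 92) (nat_lit 5) (nat_lit 460) (nat_lit 418) (nat_lit 322)) (XT.lf (nat_lit 0) (nat_lit 4133804977) (nat_lit 152) (nat_lit 20061443785) (nat_lit 228) (nat_lit 8679779514) (nat_lit 89) (nat_lit 5) (nat_lit 91) (nat_lit 5) (nat_lit 92) (nat_lit 5) (nat_lit 461) (nat_lit 418) (nat_lit 321)))) (XT.nd (nat_lit 156) (nat_lit 152) (nat_lit 0) (XT.nd (nat_lit 78) (nat_lit 228) (nat_lit 0) (XT.lf (nat_lit 0) (nat_lit 25566672485) (nat_lit 152) (nat_lit 8322899473) (nat_lit 228) (nat_lit 18711176) (nat_lit 89) (nat_lit 5) (nat_lit 91) (nat_lit 5) (nat_lit 92) (nat_lit 5) (nat_lit 462) (nat_lit 418) (nat_lit 320)) (XT.lf (nat_lit 0) (nat_lit 9051348847) (nat_lit 228) (nat_lit 21698177591) (nat_lit 76) (nat_lit 4223269554) (nat_lit 86) (nat_lit 5) (nat_lit 89) (nat_lit 5) (nat_lit 87) (nat_lit 5) (nat_lit 463) (nat_lit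 418) (nat_lit 319))) (XT.nd (nat_lit 78) (nat_lit 0) (nat_lit 0) (XT.lf (nat_lit 0) (nat_lit 22019980) (nat_lit 152) (nat_lit 18822655383) (nat_lit 228) (nat_lit 17232324455) (nat_lit 84) (nat_lit 5) (nat_lit 86) (nat_lit 5) (nat_lit 87) (nat_lit 5) (nat_lit 464) (nat_lit 418) (nat_lit 318)) (XT.lf (nat_lit 0) (nat_lit 23564409032) (nat_lit 152) (nat_lit 5920958422) (nat_lit 228) (nat_lit 7733161682) (nat_lit 84) (nat_lit 5) (nat_lit 86) (nat_lit 5) (nat_lit 87) (nat_lit 5) (nat_lit 465) (nat_lit 418) (nat_lit 317))))) (XT.nd (nat_lit 312) (nat_lit 380) (nat_lit 0) (XT.nd (nat_lit 156) (nat_lit 228) (nat_lit 0) (XT.nd (nat_lit 78) (nat_lit 0) (nat_lit 0) (XT.lf (nat_lit 0) (nat_lit 2440203590) (nat_lit 152) (nat_lit 28390359149) (nat_lit 76) (nat_lit 7571274584) (nat_lit 82) (nat_lit 5) (nat_lit 84) (nat_lit 5) (nat_lit 83) (nat_lit 5) (nat_lit 466) (nat_lit 418) (nat_lit 316)) (XT.lf (nat_lit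 0) (nat_lit 13185073723) (nat_lit 152) (nat_lit 4542692940) (nat_lit 76) (nat_lit 21894069752) (nat_lit 82) (nat_lit 5) (nat_lit 84) (nat_lit 5) (nat_lit 83) (nat_lit 5) (nat_lit 467) (nat_lit 418) (nat_lit 315))) (XT.nd (nat_lit 78) (nat_lit 76) (nat_lit 0) (XT.lf (nat_lit 0) (nat_lit 21158649576) (nat_lit 152) (nat_lit 3629956658) (nat_lit 228) (nat_lit 16098158500) (nat_lit 80) (nat_lit 5) (nat_lit 82) (nat_lit 5) (nat_lit 83) (nat_lit 5) (nat_lit 468) (nat_lit 418) (nat_lit 314)) (XT.lf (nat_lit 0) (nat_lit 6095070911) (nat_lit 76) (nat_lit 31216183071) (nat_lit 152) (nat_lit 4886738763) (nat_lit 79) (nat_lit 5) (nat_lit 80) (nat_lit 5) (nat_lit 81) (nat_lit 4) (nat_lit 469) (nat_lit 418) (nat_lit 313)))) (XT.nd (nat_lit 156) (nat_lit 152) (nat_lit 0) (XT.nd (nat_lit 78) (nat_lit 152) (nat_lit 0) (XT.lf (nat_lit 0) (nat_lit 7055150000) (nat_lit 152) (nat_lit 9852250469) (nat_lit 76) (nat_lit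 26642493514) (nat_lit 78) (nat_lit 5) (nat_lit 80) (nat_lit 5) (nat_lit 79) (nat_lit 5) (nat_lit 470) (nat_lit 418) (nat_lit 312)) (XT.lf (nat_lit 0) (nat_lit 18198034980) (nat_lit 152) (nat_lit 1507593420) (nat_lit 228) (nat_lit 25245970457) (nat_lit 76) (nat_lit 5) (nat_lit 78) (nat_lit 5) (nat_lit 79) (nat_lit 5) (nat_lit 471) (nat_lit 418) (nat_lit 311))) (XT.nd (nat_lit 78) (nat_lit 76) (nat_lit 0) (XT.lf (nat_lit 0) (nat_lit 1374867467) (nat_lit 76) (nat_lit 32025393932) (nat_lit 152) (nat_lit 13002546211) (nat_lit 75) (nat_lit 5) (nat_lit 76) (nat_lit 5) (nat_lit 77) (nat_lit 4) (nat_lit 472) (nat_lit 418) (nat_lit 310)) (XT.lf (nat_lit 0) (nat_lit 334666151) (nat_lit 152) (nat_lit 16110574492) (nat_lit 76) (nat_lit 31457605349) (nat_lit 74) (nat_lit 5) (nat_lit 76) (nat_lit 5) (nat_lit 75) (nat_lit 5) (nat_lit 473) (nat_lit 418) (nat_lit 309)))))) (XT.nd (nat_lit 624) (nat_lit 608) (nat_lit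 0) (XT.nd (nat_lit 312) (nat_lit 228) (nat_lit 0) (XT.nd (nat_lit 156) (nat_lit 304) (nat_lit 0) (XT.nd (nat_lit 78) (nat_lit 0) (nat_lit 0) (XT.lf (nat_lit 0) (nat_lit 14125812928) (nat_lit 228) (nat_lit 34973456062) (nat_lit 76) (nat_lit 356757394) (nat_lit 72) (nat_lit 5) (nat_lit 75) (nat_lit 5) (nat_lit 73) (nat_lit 4) (nat_lit 474) (nat_lit 418) (nat_lit 308)) (XT.lf (nat_lit 0) (nat_lit 29145556132) (nat_lit 228) (nat_lit 4197261700) (nat_lit 76) (nat_lit 17717096150) (nat_lit 72) (nat_lit 5) (nat_lit 75) (nat_lit 5) (nat_lit 73) (nat_lit 4) (nat_lit 475) (nat_lit 418) (nat_lit 307))) (XT.nd (nat_lit 78) (nat_lit 228) (nat_lit 0) (XT.lf (nat_lit 0) (nat_lit 29033012309) (nat_lit 76) (nat_lit 16329067362) (nat_lit 152) (nat_lit 7359626763) (nat_lit 71) (nat_lit 5) (nat_lit 72) (nat_lit 5) (nat_lit 73) (nat_lit 4) (nat_lit 476) (nat_lit 418) (nat_lit 306)) (XT.lf (nat_lit 0) (nat_lit 7916341948)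 (nat_lit 228) (nat_lit 44697406318) (nat_lit 76) (nat_lit 1834301403) (nat_lit 68) (nat_lit 5) (nat_lit 71) (nat_lit 5) (nat_lit 69) (nat_lit 4) (nat_lit 477) (nat_lit 418) (nat_lit 305)))) (XT.nd (nat_lit 156) (nat_lit 152) (nat_lit 0) (XT.nd (nat_lit 78) (nat_lit 76) (nat_lit 0) (XT.lf (nat_lit 0) (nat_lit 24376791815) (nat_lit 228) (nat_lit 10965231631) (nat_lit 76) (nat_lit 20879253533) (nat_lit 68) (nat_lit 5) (nat_lit 71) (nat_lit 5) (nat_lit 69) (nat_lit 4) (nat_lit 478) (nat_lit 418) (nat_lit 304)) (XT.lf (nat_lit 0) (nat_lit 25248292690) (nat_lit 76) (nat_lit 16799090565) (nat_lit 152) (nat_lit 16016426553) (nat_lit 67) (nat_lit 5) (nat_lit 68) (nat_lit 5) (nat_lit 69) (nat_lit 4) (nat_lit 479) (nat_lit 418) (nat_lit 303))) (XT.nd (nat_lit 78) (nat_lit 0) (nat_lit 0) (XT.lf (nat_lit 0) (nat_lit 869913580) (nat_lit 152) (nat_lit 56273342253) (nat_lit 76) (nat_lit 2840433818) (nat_lit 65)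 (nat_lit 5) (nat_lit 67) (nat_lit 5) (nat_lit 66) (nat_lit 4) (nat_lit 480) (nat_lit 418) (nat_lit 302)) (XT.lf (nat_lit 0) (nat_lit 18895539525) (nat_lit 152) (nat_lit 19330473795) (nat_lit 76) (nat_lit 23718760755) (nat_lit 65) (nat_lit 5) (nat_lit 67) (nat_lit 5) (nat_lit 66) (nat_lit 4) (nat_lit 481) (nat_lit 418) (nat_lit 301))))) (XT.nd (nat_lit 312) (nat_lit 304) (nat_lit 0) (XT.nd (nat_lit 156) (nat_lit 228) (nat_lit 0) (XT.nd (nat_lit 78) (nat_lit 0) (nat_lit 0) (XT.lf (nat_lit 0) (nat_lit 20089761102) (nat_lit 76) (nat_lit 18039651302) (nat_lit 152) (nat_lit 25859152125) (nat_lit 64) (nat_lit 5) (nat_lit 65) (nat_lit 5) (nat_lit 66) (nat_lit 4) (nat_lit 482) (nat_lit 418) (nat_lit 300)) (XT.lf (nat_lit 0) (nat_lit 58700327969) (nat_lit 152) (nat_lit 4033502650) (nat_lit 0) (nat_lit 3381946519) (nat_lit 64) (nat_lit 5) (nat_lit 66) (nat_lit 4) (nat_lit 64) (nat_lit 4) (nat_lit 483) (nat_lit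 418) (nat_lit 299))) (XT.nd (nat_lit 78) (nat_lit 76) (nat_lit 0) (XT.lf (nat_lit 0) (nat_lit 12477115449) (nat_lit 152) (nat_lit 29748245975) (nat_lit 76) (nat_lit 26069201781) (nat_lit 62) (nat_lit 5) (nat_lit 64) (nat_lit 5) (nat_lit 63) (nat_lit 4) (nat_lit 484) (nat_lit 418) (nat_lit 298)) (XT.lf (nat_lit 0) (nat_lit 13100702068) (nat_lit 76) (nat_lit 20282033191) (nat_lit 152) (nat_lit 37180093418) (nat_lit 61) (nat_lit 5) (nat_lit 62) (nat_lit 5) (nat_lit 63) (nat_lit 4) (nat_lit 485) (nat_lit 418) (nat_lit 297)))) (XT.nd (nat_lit 156) (nat_lit 152) (nat_lit 0) (XT.nd (nat_lit 78) (nat_lit 152) (nat_lit 0) (XT.lf (nat_lit 0) (nat_lit 55882453867) (nat_lit 152) (nat_lit 13857984760) (nat_lit 0) (nat_lit 3176627977) (nat_lit 61) (nat_lit 5) (nat_lit 63) (nat_lit 4) (nat_lit 61) (nat_lit 4) (nat_lit 486) (nat_lit 418) (nat_lit 296)) (XT.lf (nat_lit 0) (nat_lit 4835912527) (nat_lit 152) (nat_lit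 42798746676) (nat_lit 76) (nat_lit 27708663659) (nat_lit 59) (nat_lit 5) (nat_lit 61) (nat_lit 5) (nat_lit 60) (nat_lit 4) (nat_lit 487) (nat_lit 418) (nat_lit 295))) (XT.nd (nat_lit 78) (nat_lit 76) (nat_lit 0) (XT.lf (nat_lit 0) (nat_lit 3692651729) (nat_lit 76) (nat_lit 23825030738) (nat_lit 152) (nat_lit 50344737077) (nat_lit 58) (nat_lit 5) (nat_lit 59) (nat_lit 5) (nat_lit 60) (nat_lit 4) (nat_lit 488) (nat_lit 418) (nat_lit 294)) (XT.nd (nat_lit 78) (nat_lit 76) (nat_lit 0) (XT.lf (nat_lit 0) (nat_lit 52082607762) (nat_lit 152) (nat_lit 26518640949) (nat_lit 0) (nat_lit 1868769062) (nat_lit 58) (nat_lit 5) (nat_lit 60) (nat_lit 4) (nat_lit 58) (nat_lit 4) (nat_lit 489) (nat_lit 418) (nat_lit 293)) (XT.lf (nat_lit 0) (nat_lit 23877577559) (nat_lit 76) (nat_lit 54755877504) (nat_lit 76) (nat_lit 4536657121) (nat_lit 57) (nat_lit 4) (nat_lit 58) (nat_lit 5) (nat_lit 58) (nat_lit 4) (nat_lit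 490) (nat_lit 418) (nat_lit 292))))))))
noncomputable def xc269 : XT := (XT.nd (nat_lit 1248) (nat_lit 1140) (nat_lit 0) (XT.nd (nat_lit 624) (nat_lit 456) (nat_lit 0) (XT.nd (nat_lit 312) (nat_lit 304) (nat_lit 0) (XT.nd (nat_lit 156) (nat_lit 152) (nat_lit 0) (XT.nd (nat_lit 78) (nat_lit 76) (nat_lit 0) (XT.lf (nat_lit 0) (nat_lit 20301075612) (nat_lit 152) (nat_lit 8607140790) (nat_lit 76) (nat_lit 57058447536) (nat_lit 56) (nat_lit 5) (nat_lit 58) (nat_lit 5) (nat_lit 57) (nat_lit 4) (nat_lit 491) (nat_lit 418) (nat_lit 291)) (XT.lf (nat_lit 0) (nat_lit 45999832568) (nat_lit 76) (nat_lit 941172167) (nat_lit 152) (nat_lit 41922681460) (nat_lit 55) (nat_lit 5) (nat_lit 56) (nat_lit 5) (nat_lit 57) (nat_lit 4) (nat_lit 492) (nat_lit 418) (nat_lit 290))) (XT.nd (nat_lit 78) (nat_lit 76) (nat_lit 0) (XT.lf (nat_lit 0) (nat_lit 11653914507) (nat_lit 76) (nat_lit 64027503708) (nat_lit 76) (nat_lit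 16185717003) (nat_lit 54) (nat_lit 4) (nat_lit 55) (nat_lit 5) (nat_lit 55) (nat_lit 4) (nat_lit 493) (nat_lit 418) (nat_lit 289)) (XT.lf (nat_lit 0) (nat_lit 11239065588) (nat_lit 152) (nat_lit 24805918938) (nat_lit 76) (nat_lit 58929918720) (nat_lit 53) (nat_lit 5) (nat_lit 55) (nat_lit 5) (nat_lit 54) (nat_lit 4) (nat_lit 494) (nat_lit 418) (nat_lit 288)))) (XT.nd (nat_lit 156) (nat_lit 228) (nat_lit 0) (XT.nd (nat_lit 78) (nat_lit 0) (nat_lit 0) (XT.lf (nat_lit 0) (nat_lit 34190603929) (nat_lit 76) (nat_lit 5829212274) (nat_lit 152) (nat_lit 58178542775) (nat_lit 52) (nat_lit 5) (nat_lit 53) (nat_lit 5) (nat_lit 54) (nat_lit 4) (nat_lit 495) (nat_lit 418) (nat_lit 287)) (XT.lf (nat_lit 0) (nat_lit 71065798191) (nat_lit 152) (nat_lit 4985170936) (nat_lit 0) (nat_lit 25490708715) (nat_lit 52) (nat_lit 5) (nat_lit 54) (nat_lit 4) (nat_lit 52) (nat_lit 4) (nat_lit 496) (nat_lit 418) (nat_lit 286)))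 (XT.nd (nat_lit 78) (nat_lit 152) (nat_lit 0) (XT.lf (nat_lit 0) (nat_lit 58764154009) (nat_lit 76) (nat_lit 45908079755) (nat_lit 76) (nat_lit 329521197) (nat_lit 51) (nat_lit 4) (nat_lit 52) (nat_lit 5) (nat_lit 52) (nat_lit 4) (nat_lit 497) (nat_lit 418) (nat_lit 285)) (XT.lf (nat_lit 0) (nat_lit 17296918982) (nat_lit 76) (nat_lit 13375657323) (nat_lit 152) (nat_lit 77920257285) (nat_lit 49) (nat_lit 5) (nat_lit 50) (nat_lit 5) (nat_lit 51) (nat_lit 4) (nat_lit 498) (nat_lit 418) (nat_lit 284))))) (XT.nd (nat_lit 312) (nat_lit 228) (nat_lit 0) (XT.nd (nat_lit 156) (nat_lit 152) (nat_lit 0) (XT.nd (nat_lit 78) (nat_lit 76) (nat_lit 0) (XT.lf (nat_lit 0) (nat_lit 64329220985) (nat_lit 152) (nat_lit 27063272581) (nat_lit 0) (nat_lit 20914926697) (nat_lit 49) (nat_lit 5) (nat_lit 51) (nat_lit 4) (nat_lit 49) (nat_lit 4) (nat_lit 499) (nat_lit 418) (nat_lit 283)) (XT.lf (nat_lit 0) (nat_lit 41480149084)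 (nat_lit 76) (nat_lit 59050811203) (nat_lit 76) (nat_lit 15633662893) (nat_lit 48) (nat_lit 4) (nat_lit 49) (nat_lit 5) (nat_lit 49) (nat_lit 4) (nat_lit 500) (nat_lit 418) (nat_lit 282))) (XT.nd (nat_lit 78) (nat_lit 76) (nat_lit 0) (XT.lf (nat_lit 0) (nat_lit 18202702338) (nat_lit 152) (nat_lit 6104326631) (nat_lit 76) (nat_lit 95870288864) (nat_lit 47) (nat_lit 5) (nat_lit 49) (nat_lit 5) (nat_lit 48) (nat_lit 4) (nat_lit 501) (nat_lit 418) (nat_lit 281)) (XT.lf (nat_lit 0) (nat_lit 54471349594) (nat_lit 152) (nat_lit 56726559861) (nat_lit 0) (nat_lit 13116630445) (nat_lit 46) (nat_lit 5) (nat_lit 48) (nat_lit 4) (nat_lit 46) (nat_lit 4) (nat_lit 502) (nat_lit 418) (nat_lit 280)))) (XT.nd (nat_lit 156) (nat_lit 76) (nat_lit 0) (XT.nd (nat_lit 78) (nat_lit 76) (nat_lit 0) (XT.lf (nat_lit 0) (nat_lit 16647244086) (nat_lit 76) (nat_lit 76665246548) (nat_lit 76) (nat_lit 35308179388) (nat_lit 45)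 (nat_lit 4) (nat_lit 46) (nat_lit 5) (nat_lit 46) (nat_lit 4) (nat_lit 503) (nat_lit 418) (nat_lit 279)) (XT.lf (nat_lit 0) (nat_lit 1895106940) (nat_lit 152) (nat_lit 37474334131) (nat_lit 76) (nat_lit 93723318925) (nat_lit 44) (nat_lit 5) (nat_lit 46) (nat_lit 5) (nat_lit 45) (nat_lit 4) (nat_lit 504) (nat_lit 418) (nat_lit 278))) (XT.nd (nat_lit 78) (nat_lit 0) (nat_lit 0) (XT.lf (nat_lit 0) (nat_lit 40432350288) (nat_lit 152) (nat_lit 96253634853) (nat_lit 0) (nat_lit 1040509265) (nat_lit 43) (nat_lit 5) (nat_lit 45) (nat_lit 4) (nat_lit 43) (nat_lit 4) (nat_lit 505) (nat_lit 418) (nat_lit 277)) (XT.lf (nat_lit 0) (nat_lit 82182727109) (nat_lit 152) (nat_lit 17555920510) (nat_lit 0) (nat_lit 42788954372) (nat_lit 43) (nat_lit 5) (nat_lit 45) (nat_lit 4) (nat_lit 43) (nat_lit 4) (nat_lit 506) (nat_lit 418) (nat_lit 276)))))) (XT.nd (nat_lit 624) (nat_lit 608) (nat_lit 0) (XT.nd (nat_lit 312)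 (nat_lit 228) (nat_lit 0) (XT.nd (nat_lit 156) (nat_lit 76) (nat_lit 0) (XT.nd (nat_lit 78) (nat_lit 152) (nat_lit 0) (XT.lf (nat_lit 0) (nat_lit 67220173715) (nat_lit 76) (nat_lit 59845963989) (nat_lit 76) (nat_lit 20450351524) (nat_lit 42) (nat_lit 4) (nat_lit 43) (nat_lit 5) (nat_lit 43) (nat_lit 4) (nat_lit 507) (nat_lit 418) (nat_lit 275)) (XT.lf (nat_lit 0) (nat_lit 3881275189) (nat_lit 76) (nat_lit 17230256408) (nat_lit 152) (nat_lit 131608612571) (nat_lit 40) (nat_lit 5) (nat_lit 41) (nat_lit 5) (nat_lit 42) (nat_lit 4) (nat_lit 508) (nat_lit 418) (nat_lit 274))) (XT.nd (nat_lit 78) (nat_lit 76) (nat_lit 0) (XT.lf (nat_lit 0) (nat_lit 65872026262) (nat_lit 152) (nat_lit 63855666432) (nat_lit 0) (nat_lit 28349137430) (nat_lit 40) (nat_lit 5) (nat_lit 42) (nat_lit 4) (nat_lit 40) (nat_lit 4) (nat_lit 509) (nat_lit 418) (nat_lit 273)) (XT.lf (nat_lit 0) (nat_lit 25916110756) (nat_lit 76) (nat_lit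 87637738421) (nat_lit 76) (nat_lit 50113336041) (nat_lit 39) (nat_lit 4) (nat_lit 40) (nat_lit 5) (nat_lit 40) (nat_lit 4) (nat_lit 510) (nat_lit 418) (nat_lit 272)))) (XT.nd (nat_lit 156) (nat_lit 76) (nat_lit 0) (XT.nd (nat_lit 78) (nat_lit 152) (nat_lit 0) (XT.lf (nat_lit 0) (nat_lit 122385924266) (nat_lit 76) (nat_lit 42311546155) (nat_lit 76) (nat_lit 4785702300) (nat_lit 39) (nat_lit 4) (nat_lit 40) (nat_lit 5) (nat_lit 40) (nat_lit 4) (nat_lit 511) (nat_lit 418) (nat_lit 271)) (XT.lf (nat_lit 0) (nat_lit 42305203043) (nat_lit 152) (nat_lit 126642990847) (nat_lit 0) (nat_lit 6564996673) (nat_lit 37) (nat_lit 5) (nat_lit 39) (nat_lit 4) (nat_lit 37) (nat_lit 4) (nat_lit 512) (nat_lit 418) (nat_lit 270))) (XT.nd (nat_lit 78) (nat_lit 76) (nat_lit 0) (XT.lf (nat_lit 0) (nat_lit 93090548816) (nat_lit 152) (nat_lit 31326104233) (nat_lit 0) (nat_lit 57349097246) (nat_lit 37) (nat_lit 5) (nat_lit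 39) (nat_lit 4) (nat_lit 37) (nat_lit 4) (nat_lit 513) (nat_lit 418) (nat_lit 269)) (XT.lf (nat_lit 0) (nat_lit 71022903754) (nat_lit 76) (nat_lit 76497699830) (nat_lit 76) (nat_lit 40755062356) (nat_lit 36) (nat_lit 4) (nat_lit 37) (nat_lit 5) (nat_lit 37) (nat_lit 4) (nat_lit 514) (nat_lit 418) (nat_lit 268))))) (XT.nd (nat_lit 312) (nat_lit 380) (nat_lit 0) (XT.nd (nat_lit 156) (nat_lit 76) (nat_lit 0) (XT.nd (nat_lit 78) (nat_lit 76) (nat_lit 0) (XT.lf (nat_lit 0) (nat_lit 9790866185) (nat_lit 152) (nat_lit 15672491226) (nat_lit 76) (nat_lit 169613466359) (nat_lit 35) (nat_lit 5) (nat_lit 37) (nat_lit 5) (nat_lit 36) (nat_lit 4) (nat_lit 515) (nat_lit 418) (nat_lit 267)) (XT.lf (nat_lit 0) (nat_lit 63421695336) (nat_lit 152) (nat_lit 109287588166) (nat_lit 0) (nat_lit 29378988137) (nat_lit 34) (nat_lit 5) (nat_lit 36) (nat_lit 4) (nat_lit 34) (nat_lit 4) (nat_lit 516) (nat_lit 418) (nat_lit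 266))) (XT.nd (nat_lit 78) (nat_lit 76) (nat_lit 0) (XT.lf (nat_lit 0) (nat_lit 120418013807) (nat_lit 152) (nat_lit 2623749749) (nat_lit 0) (nat_lit 86374330961) (nat_lit 34) (nat_lit 5) (nat_lit 36) (nat_lit 4) (nat_lit 34) (nat_lit 4) (nat_lit 517) (nat_lit 418) (nat_lit 265)) (XT.lf (nat_lit 0) (nat_lit 112983185184) (nat_lit 76) (nat_lit 69041845633) (nat_lit 76) (nat_lit 34997233601) (nat_lit 33) (nat_lit 4) (nat_lit 34) (nat_lit 5) (nat_lit 34) (nat_lit 4) (nat_lit 518) (nat_lit 418) (nat_lit 264)))) (XT.nd (nat_lit 156) (nat_lit 228) (nat_lit 0) (XT.nd (nat_lit 78) (nat_lit 0) (nat_lit 0) (XT.lf (nat_lit 0) (nat_lit 9410379613) (nat_lit 76) (nat_lit 11787608965) (nat_lit 152) (nat_lit 203784362238) (nat_lit 31) (nat_lit 5) (nat_lit 32) (nat_lit 5) (nat_lit 33) (nat_lit 4) (nat_lit 519) (nat_lit 418) (nat_lit 263)) (XT.lf (nat_lit 0) (nat_lit 81569131075) (nat_lit 152) (nat_lit 102471463846)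 (nat_lit 0) (nat_lit 49144045576) (nat_lit 31) (nat_lit 5) (nat_lit 33) (nat_lit 4) (nat_lit 31) (nat_lit 4) (nat_lit 520) (nat_lit 418) (nat_lit 262))) (XT.nd (nat_lit 78) (nat_lit 152) (nat_lit 0) (XT.lf (nat_lit 0) (nat_lit 16616698767) (nat_lit 76) (nat_lit 128791854851) (nat_lit 76) (nat_lit 96366004907) (nat_lit 30) (nat_lit 4) (nat_lit 31) (nat_lit 5) (nat_lit 31) (nat_lit 4) (nat_lit 521) (nat_lit 418) (nat_lit 261)) (XT.nd (nat_lit 78) (nat_lit 152) (nat_lit 0) (XT.lf (nat_lit 0) (nat_lit 145210974866) (nat_lit 76) (nat_lit 68961475221) (nat_lit 76) (nat_lit 36534897234) (nat_lit 30) (nat_lit 4) (nat_lit 31) (nat_lit 5) (nat_lit 31) (nat_lit 4) (nat_lit 522) (nat_lit 418) (nat_lit 260)) (XT.lf (nat_lit 0) (nat_lit 20384509422) (nat_lit 76) (nat_lit 5377334861) (nat_lit 152) (nat_lit 234288637439) (nat_lit 28) (nat_lit 5) (nat_lit 29) (nat_lit 5) (nat_lit 30) (nat_lit 4) (nat_lit 523) (nat_lit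 418) (nat_lit 259))))))))
noncomputable def xc270 : XT := (XT.nd (nat_lit 1248) (nat_lit 608) (nat_lit 0) (XT.nd (nat_lit 624) (nat_lit 456) (nat_lit 0) (XT.nd (nat_lit 312) (nat_lit 76) (nat_lit 0) (XT.nd (nat_lit 156) (nat_lit 152) (nat_lit 0) (XT.nd (nat_lit 78) (nat_lit 76) (nat_lit 0) (XT.lf (nat_lit 0) (nat_lit 92717133599) (nat_lit 152) (nat_lit 115141727365) (nat_lit 0) (nat_lit 61833389107) (nat_lit 28) (nat_lit 5) (nat_lit 30) (nat_lit 4) (nat_lit 28) (nat_lit 4) (nat_lit 524) (nat_lit 418) (nat_lit 258)) (XT.lf (nat_lit 0) (nat_lit 16028161016) (nat_lit 76) (nat_lit 147327751512) (nat_lit 76) (nat_lit 116443408058) (nat_lit 27) (nat_lit 4) (nat_lit 28) (nat_lit 5) (nat_lit 28) (nat_lit 4) (nat_lit 525) (nat_lit 418) (nat_lit 257))) (XT.nd (nat_lit 78) (nat_lit 152) (nat_lit 0) (XT.lf (nat_lit 0) (nat_lit 157748674945) (nat_lit 76) (nat_lit 81725307978) (nat_lit 76) (nat_lit 50840394084)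 (nat_lit 27) (nat_lit 4) (nat_lit 28) (nat_lit 5) (nat_lit 28) (nat_lit 4) (nat_lit 526) (nat_lit 418) (nat_lit 256)) (XT.lf (nat_lit 0) (nat_lit 5075621713) (nat_lit 76) (nat_lit 12466367986) (nat_lit 152) (nat_lit 283795276621) (nat_lit 25) (nat_lit 5) (nat_lit 26) (nat_lit 5) (nat_lit 27) (nat_lit 4) (nat_lit 527) (nat_lit 418) (nat_lit 255)))) (XT.nd (nat_lit 156) (nat_lit 76) (nat_lit 0) (XT.nd (nat_lit 78) (nat_lit 0) (nat_lit 0) (XT.lf (nat_lit 0) (nat_lit 90855005679) (nat_lit 152) (nat_lit 160413825995) (nat_lit 0) (nat_lit 61439791795) (nat_lit 25) (nat_lit 5) (nat_lit 27) (nat_lit 4) (nat_lit 25) (nat_lit 4) (nat_lit 528) (nat_lit 418) (nat_lit 254)) (XT.lf (nat_lit 0) (nat_lit 168035617686) (nat_lit 152) (nat_lit 17982899034) (nat_lit 0) (nat_lit 138619934499) (nat_lit 25) (nat_lit 5) (nat_lit 27) (nat_lit 4) (nat_lit 25) (nat_lit 4) (nat_lit 529) (nat_lit 418) (nat_lit 253))) (XT.nd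 (nat_lit 78) (nat_lit 0) (nat_lit 0) (XT.lf (nat_lit 0) (nat_lit 135915021980) (nat_lit 76) (nat_lit 115279946555) (nat_lit 76) (nat_lit 85863816413) (nat_lit 24) (nat_lit 4) (nat_lit 25) (nat_lit 5) (nat_lit 25) (nat_lit 4) (nat_lit 530) (nat_lit 418) (nat_lit 252)) (XT.lf (nat_lit 0) (nat_lit 298127558403) (nat_lit 76) (nat_lit 40687009368) (nat_lit 76) (nat_lit 11270453555) (nat_lit 24) (nat_lit 4) (nat_lit 25) (nat_lit 5) (nat_lit 25) (nat_lit 4) (nat_lit 531) (nat_lit 418) (nat_lit 251))))) (XT.nd (nat_lit 312) (nat_lit 228) (nat_lit 0) (XT.nd (nat_lit 156) (nat_lit 76) (nat_lit 0) (XT.nd (nat_lit 78) (nat_lit 0) (nat_lit 0) (XT.lf (nat_lit 0) (nat_lit 67207968113) (nat_lit 152) (nat_lit 257195368312) (nat_lit 0) (nat_lit 39191814576) (nat_lit 22) (nat_lit 5) (nat_lit 24) (nat_lit 4) (nat_lit 22) (nat_lit 4) (nat_lit 532) (nat_lit 418) (nat_lit 250)) (XT.lf (nat_lit 0) (nat_lit 150790705256)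 (nat_lit 152) (nat_lit 104128702046) (nat_lit 0) (nat_lit 122774184007) (nat_lit 22) (nat_lit 5) (nat_lit 24) (nat_lit 4) (nat_lit 22) (nat_lit 4) (nat_lit 533) (nat_lit 418) (nat_lit 249))) (XT.nd (nat_lit 78) (nat_lit 0) (nat_lit 0) (XT.lf (nat_lit 0) (nat_lit 58458072535) (nat_lit 76) (nat_lit 181005111164) (nat_lit 76) (nat_lit 152988239714) (nat_lit 21) (nat_lit 4) (nat_lit 22) (nat_lit 5) (nat_lit 22) (nat_lit 4) (nat_lit 534) (nat_lit 418) (nat_lit 248)) (XT.lf (nat_lit 0) (nat_lit 232785119378) (nat_lit 76) (nat_lit 101545581004) (nat_lit 76) (nat_lit 73528376029) (nat_lit 21) (nat_lit 4) (nat_lit 22) (nat_lit 5) (nat_lit 22) (nat_lit 4) (nat_lit 535) (nat_lit 418) (nat_lit 247)))) (XT.nd (nat_lit 156) (nat_lit 76) (nat_lit 0) (XT.nd (nat_lit 78) (nat_lit 76) (nat_lit 0) (XT.lf (nat_lit 0) (nat_lit 9585485750) (nat_lit 152) (nat_lit 8367276828) (nat_lit 76) (nat_lit 406076717141) (nat_lit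 20) (nat_lit 5) (nat_lit 22) (nat_lit 5) (nat_lit 21) (nat_lit 4) (nat_lit 536) (nat_lit 418) (nat_lit 246)) (XT.lf (nat_lit 0) (nat_lit 98204470057) (nat_lit 152) (nat_lit 271031813654) (nat_lit 0) (nat_lit 71520827072) (nat_lit 19) (nat_lit 5) (nat_lit 21) (nat_lit 4) (nat_lit 19) (nat_lit 4) (nat_lit 537) (nat_lit 418) (nat_lit 245))) (XT.nd (nat_lit 78) (nat_lit 76) (nat_lit 0) (XT.lf (nat_lit 0) (nat_lit 191690843911) (nat_lit 152) (nat_lit 101601530941) (nat_lit 0) (nat_lit 165006926535) (nat_lit 19) (nat_lit 5) (nat_lit 21) (nat_lit 4) (nat_lit 19) (nat_lit 4) (nat_lit 538) (nat_lit 418) (nat_lit 244)) (XT.lf (nat_lit 0) (nat_lit 78819304575) (nat_lit 76) (nat_lit 212261018168) (nat_lit 76) (nat_lit 185576839466) (nat_lit 18) (nat_lit 4) (nat_lit 19) (nat_lit 5) (nat_lit 19) (nat_lit 4) (nat_lit 539) (nat_lit 418) (nat_lit 243)))))) (XT.nd (nat_lit 624) (nat_lit 304) (nat_lit 0) (XT.nd (nat_lit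 312) (nat_lit 152) (nat_lit 0) (XT.nd (nat_lit 156) (nat_lit 152) (nat_lit 0) (XT.nd (nat_lit 78) (nat_lit 0) (nat_lit 0) (XT.lf (nat_lit 0) (nat_lit 271784945499) (nat_lit 76) (nat_lit 125373226663) (nat_lit 76) (nat_lit 98688799080) (nat_lit 18) (nat_lit 4) (nat_lit 19) (nat_lit 5) (nat_lit 19) (nat_lit 4) (nat_lit 540) (nat_lit 418) (nat_lit 242)) (XT.lf (nat_lit 0) (nat_lit 474395428375) (nat_lit 76) (nat_lit 34142795733) (nat_lit 76) (nat_lit 7458131120) (nat_lit 18) (nat_lit 4) (nat_lit 19) (nat_lit 5) (nat_lit 19) (nat_lit 4) (nat_lit 541) (nat_lit 418) (nat_lit 241))) (XT.nd (nat_lit 78) (nat_lit 0) (nat_lit 0) (XT.lf (nat_lit 0) (nat_lit 88926368956) (nat_lit 152) (nat_lit 384474717642) (nat_lit 0) (nat_lit 63512187665) (nat_lit 16) (nat_lit 5) (nat_lit 18) (nat_lit 4) (nat_lit 16) (nat_lit 4) (nat_lit 542) (nat_lit 418) (nat_lit 240)) (XT.lf (nat_lit 0) (nat_lit 191153616262) (nat_lit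 152) (nat_lit 201913371335) (nat_lit 0) (nat_lit 165739230216) (nat_lit 16) (nat_lit 5) (nat_lit 18) (nat_lit 4) (nat_lit 16) (nat_lit 4) (nat_lit 543) (nat_lit 418) (nat_lit 239)))) (XT.nd (nat_lit 156) (nat_lit 76) (nat_lit 0) (XT.nd (nat_lit 78) (nat_lit 76) (nat_lit 0) (XT.lf (nat_lit 0) (nat_lit 298490668645) (nat_lit 152) (nat_lit 10227130169) (nat_lit 0) (nat_lit 273076087594) (nat_lit 16) (nat_lit 5) (nat_lit 18) (nat_lit 4) (nat_lit 16) (nat_lit 4) (nat_lit 544) (nat_lit 418) (nat_lit 238)) (XT.lf (nat_lit 0) (nat_lit 197357060109) (nat_lit 76) (nat_lit 216917327206) (nat_lit 76) (nat_lit 191502560436) (nat_lit 15) (nat_lit 4) (nat_lit 16) (nat_lit 5) (nat_lit 16) (nat_lit 4) (nat_lit 545) (nat_lit 418) (nat_lit 237))) (XT.nd (nat_lit 78) (nat_lit 76) (nat_lit 0) (XT.lf (nat_lit 0) (nat_lit 415672550114) (nat_lit 76) (nat_lit 120346484285) (nat_lit 76) (nat_lit 94931540640) (nat_lit 15)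 (nat_lit 4) (nat_lit 16) (nat_lit 5) (nat_lit 16) (nat_lit 4) (nat_lit 546) (nat_lit 418) (nat_lit 236)) (XT.lf (nat_lit 0) (nat_lit 6259600561) (nat_lit 152) (nat_lit 12582930946) (nat_lit 76) (nat_lit 638535373592) (nat_lit 14) (nat_lit 5) (nat_lit 16) (nat_lit 5) (nat_lit 15) (nat_lit 4) (nat_lit 547) (nat_lit 418) (nat_lit 235))))) (XT.nd (nat_lit 312) (nat_lit 152) (nat_lit 0) (XT.nd (nat_lit 156) (nat_lit 76) (nat_lit 0) (XT.nd (nat_lit 78) (nat_lit 0) (nat_lit 0) (XT.lf (nat_lit 0) (nat_lit 113971115715) (nat_lit 152) (nat_lit 481079021995) (nat_lit 0) (nat_lit 89766094259) (nat_lit 13) (nat_lit 5) (nat_lit 15) (nat_lit 4) (nat_lit 13) (nat_lit 4) (nat_lit 548) (nat_lit 418) (nat_lit 234)) (XT.lf (nat_lit 0) (nat_lit 227592347545) (nat_lit 152) (nat_lit 282620740020) (nat_lit 0) (nat_lit 203387180573) (nat_lit 13) (nat_lit 5) (nat_lit 15) (nat_lit 4) (nat_lit 13) (nat_lit 4) (nat_lit 549)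 (nat_lit 418) (nat_lit 233))) (XT.nd (nat_lit 78) (nat_lit 76) (nat_lit 0) (XT.lf (nat_lit 0) (nat_lit 346893360513) (nat_lit 152) (nat_lit 74242154671) (nat_lit 0) (nat_lit 322688054954) (nat_lit 13) (nat_lit 5) (nat_lit 15) (nat_lit 4) (nat_lit 13) (nat_lit 4) (nat_lit 550) (nat_lit 418) (nat_lit 232)) (XT.lf (nat_lit 0) (nat_lit 149332444358) (nat_lit 76) (nat_lit 325157258252) (nat_lit 76) (nat_lit 300951820707) (nat_lit 12) (nat_lit 4) (nat_lit 13) (nat_lit 5) (nat_lit 13) (nat_lit 4) (nat_lit 551) (nat_lit 418) (nat_lit 231)))) (XT.nd (nat_lit 156) (nat_lit 152) (nat_lit 0) (XT.nd (nat_lit 78) (nat_lit 0) (nat_lit 0) (XT.lf (nat_lit 0) (nat_lit 386660847005) (nat_lit 76) (nat_lit 223061142019) (nat_lit 76) (nat_lit 198855578771) (nat_lit 12) (nat_lit 4) (nat_lit 13) (nat_lit 5) (nat_lit 13) (nat_lit 4) (nat_lit 552) (nat_lit 418) (nat_lit 230)) (XT.lf (nat_lit 0) (nat_lit 635853339974) (nat_lit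 76) (nat_lit 115861407306) (nat_lit 76) (nat_lit 91655724343) (nat_lit 12) (nat_lit 4) (nat_lit 13) (nat_lit 5) (nat_lit 13) (nat_lit 4) (nat_lit 553) (nat_lit 418) (nat_lit 229))) (XT.nd (nat_lit 51948) (nat_lit 0) (nat_lit 12464) (XT.lf (nat_lit 0) (nat_lit 17844959728) (nat_lit 76) (nat_lit 2667604519) (nat_lit 152) (nat_lit 859360262603) (nat_lit 10) (nat_lit 5) (nat_lit 11) (nat_lit 5) (nat_lit 12) (nat_lit 4) (nat_lit 554) (nat_lit 418) (nat_lit 228)) (XT.nd (nat_lit 78) (nat_lit 0) (nat_lit 0) (XT.lf (nat_lit 0) (nat_lit 1666161435) (nat_lit 0) (nat_lit 1666161435) (nat_lit 684) (nat_lit 2005281740) (nat_lit 174) (nat_lit 5) (nat_lit 174) (nat_lit 3) (nat_lit 183) (nat_lit 3) (nat_lit 419) (nat_lit 419) (nat_lit 362)) (XT.lf (nat_lit 0) (nat_lit 7456101069) (nat_lit 684) (nat_lit 2039327717) (nat_lit 760) (nat_lit 1415369120) (nat_lit 174) (nat_lit 5) (nat_lit 183) (nat_lit 3) (nat_lit 184)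 (nat_lit 5) (nat_lit 420) (nat_lit 419) (nat_lit 361))))))))
noncomputable def xc271 : XT := (XT.nd (nat_lit 1248) (nat_lit 2812) (nat_lit 0) (XT.nd (nat_lit 624) (nat_lit 1900) (nat_lit 0) (XT.nd (nat_lit 312) (nat_lit 608) (nat_lit 0) (XT.nd (nat_lit 156) (nat_lit 0) (nat_lit 76) (XT.nd (nat_lit 78) (nat_lit 0) (nat_lit 76) (XT.lf (nat_lit 76) (nat_lit 3567462781) (nat_lit 0) (nat_lit 4791757344) (nat_lit 760) (nat_lit 2795344523) (nat_lit 175) (nat_lit 5) (nat_lit 174) (nat_lit 5) (nat_lit 184) (nat_lit 5) (nat_lit 421) (nat_lit 419) (nat_lit 360)) (XT.lf (nat_lit 0) (nat_lit 9308393485) (nat_lit 684) (nat_lit 1909497877) (nat_lit 760) (nat_lit 192586470) (nat_lit 175) (nat_lit 5) (nat_lit 184) (nat_lit 5) (nat_lit 185) (nat_lit 5) (nat_lit 422) (nat_lit 419) (nat_lit 359))) (XT.nd (nat_lit 78) (nat_lit 0) (nat_lit 0) (XT.lf (nat_lit 76) (nat_lit 4081951451) (nat_lit 0) (nat_lit 6330594888)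 (nat_lit 760) (nat_lit 1261267175) (nat_lit 176) (nat_lit 5) (nat_lit 175) (nat_lit 5) (nat_lit 185) (nat_lit 5) (nat_lit 423) (nat_lit 419) (nat_lit 358)) (XT.lf (nat_lit 76) (nat_lit 10417494226) (nat_lit 0) (nat_lit 1153303072) (nat_lit 760) (nat_lit 379576902) (nat_lit 176) (nat_lit 5) (nat_lit 175) (nat_lit 5) (nat_lit 185) (nat_lit 5) (nat_lit 424) (nat_lit 419) (nat_lit 357)))) (XT.nd (nat_lit 156) (nat_lit 0) (nat_lit 76) (XT.nd (nat_lit 78) (nat_lit 0) (nat_lit 0) (XT.lf (nat_lit 0) (nat_lit 642175981) (nat_lit 760) (nat_lit 7349147174) (nat_lit 836) (nat_lit 4243342875) (nat_lit 166) (nat_lit 5) (nat_lit 176) (nat_lit 5) (nat_lit 177) (nat_lit 5) (nat_lit 425) (nat_lit 419) (nat_lit 356)) (XT.lf (nat_lit 0) (nat_lit 1716531266) (nat_lit 760) (nat_lit 902543194) (nat_lit 836) (nat_lit 9913075680) (nat_lit 166) (nat_lit 5) (nat_lit 176) (nat_lit 5) (nat_lit 177) (nat_lit 5) (nat_lit 426)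 (nat_lit 419) (nat_lit 355))) (XT.nd (nat_lit 78) (nat_lit 0) (nat_lit 0) (XT.lf (nat_lit 0) (nat_lit 2958164204) (nat_lit 760) (nat_lit 6852551036) (nat_lit 836) (nat_lit 3028117478) (nat_lit 167) (nat_lit 5) (nat_lit 177) (nat_lit 5) (nat_lit 178) (nat_lit 5) (nat_lit 427) (nat_lit 419) (nat_lit 354)) (XT.lf (nat_lit 76) (nat_lit 25174300) (nat_lit 0) (nat_lit 4267198266) (nat_lit 836) (nat_lit 8866954318) (nat_lit 168) (nat_lit 5) (nat_lit 167) (nat_lit 5) (nat_lit 178) (nat_lit 5) (nat_lit 428) (nat_lit 419) (nat_lit 353))))) (XT.nd (nat_lit 312) (nat_lit 836) (nat_lit 0) (XT.nd (nat_lit 156) (nat_lit 456) (nat_lit 0) (XT.nd (nat_lit 78) (nat_lit 760) (nat_lit 0) (XT.lf (nat_lit 0) (nat_lit 5808193365) (nat_lit 760) (nat_lit 6055817584) (nat_lit 76) (nat_lit 1626091754) (nat_lit 168) (nat_lit 5) (nat_lit 178) (nat_lit 5) (nat_lit 169) (nat_lit 5) (nat_lit 429) (nat_lit 419) (nat_lit 352)) (XT.lf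 (nat_lit 0) (nat_lit 1325761793) (nat_lit 760) (nat_lit 6138690497) (nat_lit 836) (nat_lit 6369734619) (nat_lit 158) (nat_lit 5) (nat_lit 168) (nat_lit 5) (nat_lit 169) (nat_lit 5) (nat_lit 430) (nat_lit 419) (nat_lit 351))) (XT.nd (nat_lit 78) (nat_lit 456) (nat_lit 0) (XT.lf (nat_lit 0) (nat_lit 9263886895) (nat_lit 760) (nat_lit 17072378) (nat_lit 836) (nat_lit 4910646152) (nat_lit 158) (nat_lit 5) (nat_lit 168) (nat_lit 5) (nat_lit 169) (nat_lit 5) (nat_lit 431) (nat_lit 419) (nat_lit 350)) (XT.lf (nat_lit 0) (nat_lit 3005194640) (nat_lit 456) (nat_lit 8306212449) (nat_lit 532) (nat_lit 3249333771) (nat_lit 152) (nat_lit 5) (nat_lit 158) (nat_lit 5) (nat_lit 159) (nat_lit 5) (nat_lit 432) (nat_lit 419) (nat_lit 349)))) (XT.nd (nat_lit 156) (nat_lit 380) (nat_lit 0) (XT.nd (nat_lit 78) (nat_lit 456) (nat_lit 0) (XT.lf (nat_lit 0) (nat_lit 11482987481) (nat_lit 456) (nat_lit 2021012143) (nat_lit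 532) (nat_lit 1441304010) (nat_lit 152) (nat_lit 5) (nat_lit 158) (nat_lit 5) (nat_lit 159) (nat_lit 5) (nat_lit 433) (nat_lit 419) (nat_lit 348)) (XT.lf (nat_lit 0) (nat_lit 573798752) (nat_lit 456) (nat_lit 10247002420) (nat_lit 76) (nat_lit 4521372927) (nat_lit 146) (nat_lit 5) (nat_lit 152) (nat_lit 5) (nat_lit 147) (nat_lit 5) (nat_lit 434) (nat_lit 419) (nat_lit 347))) (XT.nd (nat_lit 78) (nat_lit 380) (nat_lit 0) (XT.lf (nat_lit 0) (nat_lit 2712299996) (nat_lit 456) (nat_lit 1635884062) (nat_lit 76) (nat_lit 11405970057) (nat_lit 146) (nat_lit 5) (nat_lit 152) (nat_lit 5) (nat_lit 147) (nat_lit 5) (nat_lit 435) (nat_lit 419) (nat_lit 346)) (XT.lf (nat_lit 0) (nat_lit 5096359190) (nat_lit 456) (nat_lit 8593880617) (nat_lit 76) (nat_lit 2489563066) (nat_lit 141) (nat_lit 5) (nat_lit 147) (nat_lit 5) (nat_lit 142) (nat_lit 5) (nat_lit 436) (nat_lit 419) (nat_lit 345)))))) (XT.nd (nat_lit 624)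 (nat_lit 1292) (nat_lit 0) (XT.nd (nat_lit 312) (nat_lit 912) (nat_lit 0) (XT.nd (nat_lit 156) (nat_lit 304) (nat_lit 0) (XT.nd (nat_lit 78) (nat_lit 0) (nat_lit 0) (XT.lf (nat_lit 0) (nat_lit 626091324) (nat_lit 304) (nat_lit 7062750524) (nat_lit 380) (nat_lit 8933432514) (nat_lit 137) (nat_lit 5) (nat_lit 141) (nat_lit 5) (nat_lit 142) (nat_lit 5) (nat_lit 437) (nat_lit 419) (nat_lit 344)) (XT.lf (nat_lit 0) (nat_lit 10537823562) (nat_lit 380) (nat_lit 6497975792) (nat_lit 76) (nat_lit 44727582) (nat_lit 137) (nat_lit 5) (nat_lit 142) (nat_lit 5) (nat_lit 138) (nat_lit 5) (nat_lit 438) (nat_lit 419) (nat_lit 343))) (XT.nd (nat_lit 78) (nat_lit 0) (nat_lit 0) (XT.lf (nat_lit 0) (nat_lit 3447764768) (nat_lit 304) (nat_lit 10232596359) (nat_lit 380) (nat_lit 3873776869) (nat_lit 133) (nat_lit 5) (nat_lit 137) (nat_lit 5) (nat_lit 138) (nat_lit 5) (nat_lit 439) (nat_lit 419) (nat_lit 342)) (XT.lf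 (nat_lit 0) (nat_lit 14094797084) (nat_lit 304) (nat_lit 2977313668) (nat_lit 380) (nat_lit 974715737) (nat_lit 133) (nat_lit 5) (nat_lit 137) (nat_lit 5) (nat_lit 138) (nat_lit 5) (nat_lit 440) (nat_lit 419) (nat_lit 341)))) (XT.nd (nat_lit 156) (nat_lit 532) (nat_lit 0) (XT.nd (nat_lit 78) (nat_lit 0) (nat_lit 0) (XT.lf (nat_lit 0) (nat_lit 2167730897) (nat_lit 380) (nat_lit 11756039505) (nat_lit 76) (nat_lit 4630531516) (nat_lit 128) (nat_lit 5) (nat_lit 133) (nat_lit 5) (nat_lit 129) (nat_lit 5) (nat_lit 441) (nat_lit 419) (nat_lit 340)) (XT.lf (nat_lit 0) (nat_lit 5534432990) (nat_lit 380) (nat_lit 947996155) (nat_lit 76) (nat_lit 12598929512) (nat_lit 128) (nat_lit 5) (nat_lit 133) (nat_lit 5) (nat_lit 129) (nat_lit 5) (nat_lit 442) (nat_lit 419) (nat_lit 339))) (XT.nd (nat_lit 78) (nat_lit 228) (nat_lit 0) (XT.lf (nat_lit 0) (nat_lit 9244205516) (nat_lit 380) (nat_lit 8927559161) (nat_lit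 76) (nat_lit 1454267726) (nat_lit 124) (nat_lit 5) (nat_lit 129) (nat_lit 5) (nat_lit 125) (nat_lit 5) (nat_lit 443) (nat_lit 419) (nat_lit 338)) (XT.lf (nat_lit 0) (nat_lit 2722716247) (nat_lit 228) (nat_lit 10566090609) (nat_lit 304) (nat_lit 6901666864) (nat_lit 121) (nat_lit 5) (nat_lit 124) (nat_lit 5) (nat_lit 125) (nat_lit 5) (nat_lit 444) (nat_lit 419) (nat_lit 337))))) (XT.nd (nat_lit 312) (nat_lit 684) (nat_lit 0) (XT.nd (nat_lit 156) (nat_lit 228) (nat_lit 0) (XT.nd (nat_lit 78) (nat_lit 380) (nat_lit 0) (XT.lf (nat_lit 0) (nat_lit 15244851355) (nat_lit 228) (nat_lit 2426651801) (nat_lit 304) (nat_lit 3104841552) (nat_lit 121) (nat_lit 5) (nat_lit 124) (nat_lit 5) (nat_lit 125) (nat_lit 5) (nat_lit 445) (nat_lit 419) (nat_lit 336)) (XT.lf (nat_lit 0) (nat_lit 1048677962) (nat_lit 380) (nat_lit 14285385905) (nat_lit 76) (nat_lit 6047003920) (nat_lit 116) (nat_lit 5) (nat_lit 121) (nat_lit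 5) (nat_lit 117) (nat_lit 5) (nat_lit 446) (nat_lit 419) (nat_lit 335))) (XT.nd (nat_lit 78) (nat_lit 228) (nat_lit 0) (XT.lf (nat_lit 0) (nat_lit 5426002199) (nat_lit 380) (nat_lit 1577726391) (nat_lit 76) (nat_lit 15003730624) (nat_lit 116) (nat_lit 5) (nat_lit 121) (nat_lit 5) (nat_lit 117) (nat_lit 5) (nat_lit 447) (nat_lit 419) (nat_lit 334)) (XT.lf (nat_lit 0) (nat_lit 10228043083) (nat_lit 304) (nat_lit 10552387273) (nat_lit 76) (nat_lit 1874448033) (nat_lit 113) (nat_lit 5) (nat_lit 117) (nat_lit 5) (nat_lit 114) (nat_lit 5) (nat_lit 448) (nat_lit 419) (nat_lit 333)))) (XT.nd (nat_lit 156) (nat_lit 456) (nat_lit 0) (XT.nd (nat_lit 78) (nat_lit 0) (nat_lit 0) (XT.lf (nat_lit 0) (nat_lit 3154137188) (nat_lit 228) (nat_lit 12293705941) (nat_lit 304) (nat_lit 7877943204) (nat_lit 110) (nat_lit 5) (nat_lit 113) (nat_lit 5) (nat_lit 114) (nat_lit 5) (nat_lit 449) (nat_lit 419) (nat_lit 332))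 (XT.lf (nat_lit 0) (nat_lit 17892937352) (nat_lit 228) (nat_lit 3201187768) (nat_lit 304) (nat_lit 2927840592) (nat_lit 110) (nat_lit 5) (nat_lit 113) (nat_lit 5) (nat_lit 114) (nat_lit 5) (nat_lit 450) (nat_lit 419) (nat_lit 331))) (XT.nd (nat_lit 78) (nat_lit 228) (nat_lit 0) (XT.lf (nat_lit 0) (nat_lit 2424239272) (nat_lit 228) (nat_lit 16002286823) (nat_lit 76) (nat_lit 6313300727) (nat_lit 107) (nat_lit 5) (nat_lit 110) (nat_lit 5) (nat_lit 108) (nat_lit 5) (nat_lit 451) (nat_lit 419) (nat_lit 330)) (XT.nd (nat_lit 78) (nat_lit 228) (nat_lit 0) (XT.lf (nat_lit 0) (nat_lit 8090934562) (nat_lit 228) (nat_lit 1049474757) (nat_lit 76) (nat_lit 16343502042) (nat_lit 107) (nat_lit 5) (nat_lit 110) (nat_lit 5) (nat_lit 108) (nat_lit 5) (nat_lit 452) (nat_lit 419) (nat_lit 329)) (XT.lf (nat_lit 0) (nat_lit 14278299035) (nat_lit 304) (nat_lit 11150709337) (nat_lit 76) (nat_lit 824325558) (nat_lit 104)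 (nat_lit 5) (nat_lit 108) (nat_lit 5) (nat_lit 105) (nat_lit 5) (nat_lit 453) (nat_lit 419) (nat_lit 328))))))))
noncomputable def xc272 : XT := (XT.nd (nat_lit 1248) (nat_lit 1368) (nat_lit 0) (XT.nd (nat_lit 624) (nat_lit 836) (nat_lit 0) (XT.nd (nat_lit 312) (nat_lit 380) (nat_lit 0) (XT.nd (nat_lit 156) (nat_lit 380) (nat_lit 0) (XT.nd (nat_lit 78) (nat_lit 76) (nat_lit 0) (XT.lf (nat_lit 0) (nat_lit 5030899963) (nat_lit 152) (nat_lit 15978805182) (nat_lit 228) (nat_lit 6039789307) (nat_lit 102) (nat_lit 5) (nat_lit 104) (nat_lit 5) (nat_lit 105) (nat_lit 5) (nat_lit 454) (nat_lit 419) (nat_lit 327)) (XT.lf (nat_lit 0) (nat_lit 366313404) (nat_lit 228) (nat_lit 5491902064) (nat_lit 76) (nat_lit 22018085580) (nat_lit 101) (nat_lit 5) (nat_lit 104) (nat_lit 5) (nat_lit 102) (nat_lit 5) (nat_lit 455) (nat_lit 419) (nat_lit 326))) (XT.nd (nat_lit 78) (nat_lit 152) (nat_lit 0) (XT.lf (nat_lit 0)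 (nat_lit 7147112755) (nat_lit 304) (nat_lit 16676841058) (nat_lit 76) (nat_lit 4902675540) (nat_lit 98) (nat_lit 5) (nat_lit 102) (nat_lit 5) (nat_lit 99) (nat_lit 5) (nat_lit 456) (nat_lit 419) (nat_lit 325)) (XT.lf (nat_lit 0) (nat_lit 959784411) (nat_lit 152) (nat_lit 13501745656) (nat_lit 228) (nat_lit 15148215516) (nat_lit 96) (nat_lit 5) (nat_lit 98) (nat_lit 5) (nat_lit 99) (nat_lit 5) (nat_lit 457) (nat_lit 419) (nat_lit 324)))) (XT.nd (nat_lit 156) (nat_lit 228) (nat_lit 0) (XT.nd (nat_lit 78) (nat_lit 152) (nat_lit 0) (XT.lf (nat_lit 0) (nat_lit 20039730604) (nat_lit 152) (nat_lit 2373641579) (nat_lit 228) (nat_lit 8110060634) (nat_lit 96) (nat_lit 5) (nat_lit 98) (nat_lit 5) (nat_lit 99) (nat_lit 5) (nat_lit 458) (nat_lit 419) (nat_lit 323)) (XT.lf (nat_lit 0) (nat_lit 8707112568) (nat_lit 152) (nat_lit 22326688739) (nat_lit 228) (nat_lit 435453731) (nat_lit 94) (nat_lit 5) (nat_lit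 96) (nat_lit 5) (nat_lit 97) (nat_lit 5) (nat_lit 459) (nat_lit 419) (nat_lit 322))) (XT.nd (nat_lit 78) (nat_lit 152) (nat_lit 0) (XT.lf (nat_lit 0) (nat_lit 7588020027) (nat_lit 228) (nat_lit 3410024199) (nat_lit 76) (nat_lit 21447917933) (nat_lit 93) (nat_lit 5) (nat_lit 96) (nat_lit 5) (nat_lit 94) (nat_lit 5) (nat_lit 460) (nat_lit 419) (nat_lit 321)) (XT.lf (nat_lit 0) (nat_lit 16279112219) (nat_lit 228) (nat_lit 16031924724) (nat_lit 76) (nat_lit 1146057141) (nat_lit 91) (nat_lit 5) (nat_lit 94) (nat_lit 5) (nat_lit 92) (nat_lit 5) (nat_lit 461) (nat_lit 419) (nat_lit 320))))) (XT.nd (nat_lit 312) (nat_lit 304) (nat_lit 0) (XT.nd (nat_lit 156) (nat_lit 304) (nat_lit 0) (XT.nd (nat_lit 78) (nat_lit 76) (nat_lit 0) (XT.lf (nat_lit 0) (nat_lit 4862574547) (nat_lit 152) (nat_lit 20847443891) (nat_lit 228) (nat_lit 8793501502) (nat_lit 89) (nat_lit 5) (nat_lit 91) (nat_lit 5) (nat_lit 92) (nat_lit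 5) (nat_lit 462) (nat_lit 419) (nat_lit 319)) (XT.lf (nat_lit 0) (nat_lit 276235838) (nat_lit 228) (nat_lit 8251395104) (nat_lit 76) (nat_lit 27061310484) (nat_lit 88) (nat_lit 5) (nat_lit 91) (nat_lit 5) (nat_lit 89) (nat_lit 5) (nat_lit 463) (nat_lit 419) (nat_lit 318))) (XT.nd (nat_lit 78) (nat_lit 152) (nat_lit 0) (XT.lf (nat_lit 0) (nat_lit 9796174235) (nat_lit 228) (nat_lit 22273093214) (nat_lit 76) (nat_lit 4637547338) (nat_lit 86) (nat_lit 5) (nat_lit 89) (nat_lit 5) (nat_lit 87) (nat_lit 5) (nat_lit 464) (nat_lit 419) (nat_lit 317)) (XT.lf (nat_lit 0) (nat_lit 524888539) (nat_lit 152) (nat_lit 19548195491) (nat_lit 228) (nat_lit 17793449313) (nat_lit 84) (nat_lit 5) (nat_lit 86) (nat_lit 5) (nat_lit 87) (nat_lit 5) (nat_lit 465) (nat_lit 419) (nat_lit 316)))) (XT.nd (nat_lit 156) (nat_lit 152) (nat_lit 0) (XT.nd (nat_lit 78) (nat_lit 152) (nat_lit 0) (XT.lf (nat_lit 0) (nat_lit 25220503349)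 (nat_lit 152) (nat_lit 6011679999) (nat_lit 228) (nat_lit 7833637514) (nat_lit 84) (nat_lit 5) (nat_lit 86) (nat_lit 5) (nat_lit 87) (nat_lit 5) (nat_lit 466) (nat_lit 419) (nat_lit 315)) (XT.lf (nat_lit 0) (nat_lit 2836771742) (nat_lit 152) (nat_lit 29320365285) (nat_lit 76) (nat_lit 8151057594) (nat_lit 82) (nat_lit 5) (nat_lit 84) (nat_lit 5) (nat_lit 83) (nat_lit 5) (nat_lit 467) (nat_lit 419) (nat_lit 314))) (XT.nd (nat_lit 78) (nat_lit 152) (nat_lit 0) (XT.lf (nat_lit 0) (nat_lit 14105811192) (nat_lit 152) (nat_lit 4303625852) (nat_lit 76) (nat_lit 23180410649) (nat_lit 82) (nat_lit 5) (nat_lit 84) (nat_lit 5) (nat_lit 83) (nat_lit 5) (nat_lit 468) (nat_lit 419) (nat_lit 313)) (XT.lf (nat_lit 0) (nat_lit 22675264407) (nat_lit 152) (nat_lit 3608965630) (nat_lit 228) (nat_lit 16634057208) (nat_lit 80) (nat_lit 5) (nat_lit 82) (nat_lit 5) (nat_lit 83) (nat_lit 5) (nat_lit 469) (nat_lit 419)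 (nat_lit 312)))))) (XT.nd (nat_lit 624) (nat_lit 684) (nat_lit 0) (XT.nd (nat_lit 312) (nat_lit 304) (nat_lit 0) (XT.nd (nat_lit 156) (nat_lit 228) (nat_lit 0) (XT.nd (nat_lit 78) (nat_lit 76) (nat_lit 0) (XT.lf (nat_lit 0) (nat_lit 6860607298) (nat_lit 76) (nat_lit 32570408170) (nat_lit 152) (nat_lit 4864161211) (nat_lit 79) (nat_lit 5) (nat_lit 80) (nat_lit 5) (nat_lit 81) (nat_lit 4) (nat_lit 470) (nat_lit 419) (nat_lit 311)) (XT.lf (nat_lit 0) (nat_lit 7653975652) (nat_lit 152) (nat_lit 9897880840) (nat_lit 76) (nat_lit 28163223557) (nat_lit 78) (nat_lit 5) (nat_lit 80) (nat_lit 5) (nat_lit 79) (nat_lit 5) (nat_lit 471) (nat_lit 419) (nat_lit 310))) (XT.nd (nat_lit 78) (nat_lit 76) (nat_lit 0) (XT.lf (nat_lit 0) (nat_lit 19547709492) (nat_lit 152) (nat_lit 1384417033) (nat_lit 228) (nat_lit 26254986461) (nat_lit 76) (nat_lit 5) (nat_lit 78) (nat_lit 5) (nat_lit 79) (nat_lit 5) (nat_lit 472)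 (nat_lit 419) (nat_lit 309)) (XT.lf (nat_lit 0) (nat_lit 1885111682) (nat_lit 76) (nat_lit 33424738445) (nat_lit 152) (nat_lit 13401114340) (nat_lit 75) (nat_lit 5) (nat_lit 76) (nat_lit 5) (nat_lit 77) (nat_lit 4) (nat_lit 473) (nat_lit 419) (nat_lit 308)))) (XT.nd (nat_lit 156) (nat_lit 76) (nat_lit 0) (XT.nd (nat_lit 78) (nat_lit 152) (nat_lit 0) (XT.lf (nat_lit 0) (nat_lit 583311570) (nat_lit 152) (nat_lit 16487953864) (nat_lit 76) (nat_lit 33215122952) (nat_lit 74) (nat_lit 5) (nat_lit 76) (nat_lit 5) (nat_lit 75) (nat_lit 5) (nat_lit 474) (nat_lit 419) (nat_lit 307)) (XT.lf (nat_lit 0) (nat_lit 15062574781) (nat_lit 228) (nat_lit 36292534512) (nat_lit 76) (nat_lit 562190756) (nat_lit 72) (nat_lit 5) (nat_lit 75) (nat_lit 5) (nat_lit 73) (nat_lit 4) (nat_lit 475) (nat_lit 419) (nat_lit 306))) (XT.nd (nat_lit 78) (nat_lit 76) (nat_lit 0) (XT.lf (nat_lit 0) (nat_lit 30822330326) (nat_lit 228)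 (nat_lit 3997987306) (nat_lit 76) (nat_lit 18781613330) (nat_lit 72) (nat_lit 5) (nat_lit 75) (nat_lit 5) (nat_lit 73) (nat_lit 4) (nat_lit 476) (nat_lit 419) (nat_lit 305)) (XT.lf (nat_lit 0) (nat_lit 30887201412) (nat_lit 76) (nat_lit 16958311174) (nat_lit 152) (nat_lit 7501509009) (nat_lit 71) (nat_lit 5) (nat_lit 72) (nat_lit 5) (nat_lit 73) (nat_lit 4) (nat_lit 477) (nat_lit 419) (nat_lit 304))))) (XT.nd (nat_lit 312) (nat_lit 228) (nat_lit 0) (XT.nd (nat_lit 156) (nat_lit 228) (nat_lit 0) (XT.nd (nat_lit 78) (nat_lit 0) (nat_lit 0) (XT.lf (nat_lit 0) (nat_lit 8529836119) (nat_lit 228) (nat_lit 46521309220) (nat_lit 76) (nat_lit 2108419590) (nat_lit 68) (nat_lit 5) (nat_lit 71) (nat_lit 5) (nat_lit 69) (nat_lit 4) (nat_lit 478) (nat_lit 419) (nat_lit 303)) (XT.lf (nat_lit 0) (nat_lit 25802942904) (nat_lit 228) (nat_lit 11122095675) (nat_lit 76) (nat_lit 22096933464) (nat_lit 68) (nat_lit 5)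 (nat_lit 71) (nat_lit 5) (nat_lit 69) (nat_lit 4) (nat_lit 479) (nat_lit 419) (nat_lit 302))) (XT.nd (nat_lit 78) (nat_lit 152) (nat_lit 0) (XT.lf (nat_lit 0) (nat_lit 26895791998) (nat_lit 76) (nat_lit 17457412193) (nat_lit 152) (nat_lit 16603620462) (nat_lit 67) (nat_lit 5) (nat_lit 68) (nat_lit 5) (nat_lit 69) (nat_lit 4) (nat_lit 480) (nat_lit 419) (nat_lit 301)) (XT.lf (nat_lit 0) (nat_lit 1119224005) (nat_lit 152) (nat_lit 58694106337) (nat_lit 76) (nat_lit 3159250284) (nat_lit 65) (nat_lit 5) (nat_lit 67) (nat_lit 5) (nat_lit 66) (nat_lit 4) (nat_lit 481) (nat_lit 419) (nat_lit 300)))) (XT.nd (nat_lit 156) (nat_lit 152) (nat_lit 0) (XT.nd (nat_lit 78) (nat_lit 76) (nat_lit 0) (XT.lf (nat_lit 0) (nat_lit 20036330545) (nat_lit 152) (nat_lit 19922804124) (nat_lit 76) (nat_lit 25073074768) (nat_lit 65) (nat_lit 5) (nat_lit 67) (nat_lit 5) (nat_lit 66) (nat_lit 4) (nat_lit 482) (nat_lit 419)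 (nat_lit 299)) (XT.lf (nat_lit 0) (nat_lit 21462407141) (nat_lit 76) (nat_lit 18765903902) (nat_lit 152) (nat_lit 26950057797) (nat_lit 64) (nat_lit 5) (nat_lit 65) (nat_lit 5) (nat_lit 66) (nat_lit 4) (nat_lit 483) (nat_lit 419) (nat_lit 298))) (XT.nd (nat_lit 78) (nat_lit 152) (nat_lit 0) (XT.lf (nat_lit 0) (nat_lit 61821222135) (nat_lit 152) (nat_lit 3877998485) (nat_lit 0) (nat_lit 3713049092) (nat_lit 64) (nat_lit 5) (nat_lit 66) (nat_lit 4) (nat_lit 64) (nat_lit 4) (nat_lit 484) (nat_lit 419) (nat_lit 297)) (XT.lf (nat_lit 0) (nat_lit 13286478517) (nat_lit 152) (nat_lit 30878104052) (nat_lit 76) (nat_lit 27535431259) (nat_lit 62) (nat_lit 5) (nat_lit 64) (nat_lit 5) (nat_lit 63) (nat_lit 4) (nat_lit 485) (nat_lit 419) (nat_lit 296)))))))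
noncomputable def xc273 : XT := (XT.nd (nat_lit 1248) (nat_lit 1064) (nat_lit 0) (XT.nd (nat_lit 624) (nat_lit 532) (nat_lit 0) (XT.nd (nat_lit 312) (nat_lit 228) (nat_lit 0) (XT.nd (nat_lit 156) (nat_lit 228) (nat_lit 0) (XT.nd (nat_lit 78) (nat_lit 0) (nat_lit 0) (XT.lf (nat_lit 0) (nat_lit 14107524389) (nat_lit 76) (nat_lit 21126513632) (nat_lit 152) (nat_lit 38847821721) (nat_lit 61) (nat_lit 5) (nat_lit 62) (nat_lit 5) (nat_lit 63) (nat_lit 4) (nat_lit 486) (nat_lit 419) (nat_lit 295)) (XT.lf (nat_lit 0) (nat_lit 58852590143) (nat_lit 152) (nat_lit 14209694166) (nat_lit 0) (nat_lit 3491832976) (nat_lit 61) (nat_lit 5) (nat_lit 63) (nat_lit 4) (nat_lit 61) (nat_lit 4) (nat_lit 487) (nat_lit 419) (nat_lit 294))) (XT.nd (nat_lit 78) (nat_lit 76) (nat_lit 0) (XT.lf (nat_lit 0) (nat_lit 5253416948) (nat_lit 152) (nat_lit 44597185727) (nat_lit 76) (nat_lit 29251099105) (nat_lit 59) (nat_lit 5) (nat_lit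 61) (nat_lit 5) (nat_lit 60) (nat_lit 4) (nat_lit 488) (nat_lit 419) (nat_lit 293)) (XT.lf (nat_lit 0) (nat_lit 4213274561) (nat_lit 76) (nat_lit 24852879487) (nat_lit 152) (nat_lit 52680755398) (nat_lit 58) (nat_lit 5) (nat_lit 59) (nat_lit 5) (nat_lit 60) (nat_lit 4) (nat_lit 489) (nat_lit 419) (nat_lit 292)))) (XT.nd (nat_lit 156) (nat_lit 152) (nat_lit 0) (XT.nd (nat_lit 78) (nat_lit 76) (nat_lit 0) (XT.lf (nat_lit 0) (nat_lit 54853536849) (nat_lit 152) (nat_lit 27518791906) (nat_lit 0) (nat_lit 2112848352) (nat_lit 58) (nat_lit 5) (nat_lit 60) (nat_lit 4) (nat_lit 58) (nat_lit 4) (nat_lit 490) (nat_lit 419) (nat_lit 291)) (XT.lf (nat_lit 0) (nat_lit 25391982994) (nat_lit 76) (nat_lit 57337005044) (nat_lit 76) (nat_lit 4591435201) (nat_lit 57) (nat_lit 4) (nat_lit 58) (nat_lit 5) (nat_lit 58) (nat_lit 4) (nat_lit 491) (nat_lit 419) (nat_lit 290))) (XT.nd (nat_lit 78) (nat_lit 76) (nat_lit 0)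 (XT.lf (nat_lit 0) (nat_lit 21474746486) (nat_lit 152) (nat_lit 8726988444) (nat_lit 76) (nat_lit 60055329949) (nat_lit 56) (nat_lit 5) (nat_lit 58) (nat_lit 5) (nat_lit 57) (nat_lit 4) (nat_lit 492) (nat_lit 419) (nat_lit 289)) (XT.lf (nat_lit 0) (nat_lit 48605325366) (nat_lit 76) (nat_lit 838563234) (nat_lit 152) (nat_lit 43855188890) (nat_lit 55) (nat_lit 5) (nat_lit 56) (nat_lit 5) (nat_lit 57) (nat_lit 4) (nat_lit 493) (nat_lit 419) (nat_lit 288))))) (XT.nd (nat_lit 312) (nat_lit 304) (nat_lit 0) (XT.nd (nat_lit 156) (nat_lit 76) (nat_lit 0) (XT.nd (nat_lit 78) (nat_lit 76) (nat_lit 0) (XT.lf (nat_lit 0) (nat_lit 12542552244) (nat_lit 76) (nat_lit 67078351930) (nat_lit 76) (nat_lit 16831815782) (nat_lit 54) (nat_lit 4) (nat_lit 55) (nat_lit 5) (nat_lit 55) (nat_lit 4) (nat_lit 494) (nat_lit 419) (nat_lit 287)) (XT.lf (nat_lit 0) (nat_lit 11951460834) (nat_lit 152) (nat_lit 25749866098) (nat_lit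 76) (nat_lit 62014798226) (nat_lit 53) (nat_lit 5) (nat_lit 55) (nat_lit 5) (nat_lit 54) (nat_lit 4) (nat_lit 495) (nat_lit 419) (nat_lit 286))) (XT.nd (nat_lit 78) (nat_lit 0) (nat_lit 0) (XT.lf (nat_lit 0) (nat_lit 36191703093) (nat_lit 76) (nat_lit 5976934193) (nat_lit 152) (nat_lit 60932247030) (nat_lit 52) (nat_lit 5) (nat_lit 53) (nat_lit 5) (nat_lit 54) (nat_lit 4) (nat_lit 496) (nat_lit 419) (nat_lit 285)) (XT.lf (nat_lit 0) (nat_lit 74762016136) (nat_lit 152) (nat_lit 4951841469) (nat_lit 0) (nat_lit 26897756683) (nat_lit 52) (nat_lit 5) (nat_lit 54) (nat_lit 4) (nat_lit 52) (nat_lit 4) (nat_lit 497) (nat_lit 419) (nat_lit 284)))) (XT.nd (nat_lit 156) (nat_lit 76) (nat_lit 0) (XT.nd (nat_lit 78) (nat_lit 152) (nat_lit 0) (XT.lf (nat_lit 0) (nat_lit 61980391852) (nat_lit 76) (nat_lit 48065916368) (nat_lit 76) (nat_lit 198510356) (nat_lit 51) (nat_lit 4) (nat_lit 52) (nat_lit 5) (nat_lit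 52) (nat_lit 4) (nat_lit 498) (nat_lit 419) (nat_lit 283)) (XT.lf (nat_lit 0) (nat_lit 18439956013) (nat_lit 76) (nat_lit 13906560448) (nat_lit 152) (nat_lit 81668942339) (nat_lit 49) (nat_lit 5) (nat_lit 50) (nat_lit 5) (nat_lit 51) (nat_lit 4) (nat_lit 499) (nat_lit 419) (nat_lit 282))) (XT.nd (nat_lit 78) (nat_lit 76) (nat_lit 0) (XT.lf (nat_lit 0) (nat_lit 67681362063) (nat_lit 152) (nat_lit 28146860150) (nat_lit 0) (nat_lit 22087784202) (nat_lit 49) (nat_lit 5) (nat_lit 51) (nat_lit 4) (nat_lit 49) (nat_lit 4) (nat_lit 500) (nat_lit 419) (nat_lit 281)) (XT.lf (nat_lit 0) (nat_lit 43819384597) (nat_lit 76) (nat_lit 61871483732) (nat_lit 76) (nat_lit 16275317189) (nat_lit 48) (nat_lit 4) (nat_lit 49) (nat_lit 5) (nat_lit 49) (nat_lit 4) (nat_lit 501) (nat_lit 419) (nat_lit 280)))))) (XT.nd (nat_lit 624) (nat_lit 456) (nat_lit 0) (XT.nd (nat_lit 312) (nat_lit 304) (nat_lit 0) (XT.nd (nat_lit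 156) (nat_lit 152) (nat_lit 0) (XT.nd (nat_lit 78) (nat_lit 76) (nat_lit 0) (XT.lf (nat_lit 0) (nat_lit 19241929884) (nat_lit 152) (nat_lit 6152675690) (nat_lit 76) (nat_lit 100785122787) (nat_lit 47) (nat_lit 5) (nat_lit 49) (nat_lit 5) (nat_lit 48) (nat_lit 4) (nat_lit 502) (nat_lit 419) (nat_lit 279)) (XT.lf (nat_lit 0) (nat_lit 57323772590) (nat_lit 152) (nat_lit 59305782961) (nat_lit 0) (nat_lit 13894267861) (nat_lit 46) (nat_lit 5) (nat_lit 48) (nat_lit 4) (nat_lit 46) (nat_lit 4) (nat_lit 503) (nat_lit 419) (nat_lit 278))) (XT.nd (nat_lit 78) (nat_lit 76) (nat_lit 0) (XT.lf (nat_lit 0) (nat_lit 17732564331) (nat_lit 76) (nat_lit 80372219758) (nat_lit 76) (nat_lit 36940585315) (nat_lit 45) (nat_lit 4) (nat_lit 46) (nat_lit 5) (nat_lit 46) (nat_lit 4) (nat_lit 504) (nat_lit 419) (nat_lit 277)) (XT.lf (nat_lit 0) (nat_lit 2112477634) (nat_lit 152) (nat_lit 39103083591) (nat_lit 76) (nat_lit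 98525705393) (nat_lit 44) (nat_lit 5) (nat_lit 46) (nat_lit 5) (nat_lit 45) (nat_lit 4) (nat_lit 505) (nat_lit 419) (nat_lit 276)))) (XT.nd (nat_lit 156) (nat_lit 228) (nat_lit 0) (XT.nd (nat_lit 78) (nat_lit 0) (nat_lit 0) (XT.lf (nat_lit 0) (nat_lit 42576388240) (nat_lit 152) (nat_lit 100821153858) (nat_lit 0) (nat_lit 1209155425) (nat_lit 43) (nat_lit 5) (nat_lit 45) (nat_lit 4) (nat_lit 43) (nat_lit 4) (nat_lit 506) (nat_lit 419) (nat_lit 275)) (XT.lf (nat_lit 0) (nat_lit 86408454358) (nat_lit 152) (nat_lit 18200228214) (nat_lit 0) (nat_lit 45039469421) (nat_lit 43) (nat_lit 5) (nat_lit 45) (nat_lit 4) (nat_lit 43) (nat_lit 4) (nat_lit 507) (nat_lit 419) (nat_lit 274))) (XT.nd (nat_lit 78) (nat_lit 152) (nat_lit 0) (XT.lf (nat_lit 0) (nat_lit 70810904782) (nat_lit 76) (nat_lit 62723165363) (nat_lit 76) (nat_lit 21352511739) (nat_lit 42) (nat_lit 4) (nat_lit 43) (nat_lit 5) (nat_lit 43) (nat_lit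 4) (nat_lit 508) (nat_lit 419) (nat_lit 273)) (XT.lf (nat_lit 0) (nat_lit 4305146680) (nat_lit 76) (nat_lit 17976506749) (nat_lit 152) (nat_lit 138068770207) (nat_lit 40) (nat_lit 5) (nat_lit 41) (nat_lit 5) (nat_lit 42) (nat_lit 4) (nat_lit 509) (nat_lit 419) (nat_lit 272))))) (XT.nd (nat_lit 312) (nat_lit 228) (nat_lit 0) (XT.nd (nat_lit 156) (nat_lit 152) (nat_lit 0) (XT.nd (nat_lit 78) (nat_lit 76) (nat_lit 0) (XT.lf (nat_lit 0) (nat_lit 69276432168) (nat_lit 152) (nat_lit 66825844132) (nat_lit 0) (nat_lit 29872854645) (nat_lit 40) (nat_lit 5) (nat_lit 42) (nat_lit 4) (nat_lit 40) (nat_lit 4) (nat_lit 510) (nat_lit 419) (nat_lit 271)) (XT.lf (nat_lit 0) (nat_lit 27430931501) (nat_lit 76) (nat_lit 91909557759) (nat_lit 76) (nat_lit 52504607403) (nat_lit 39) (nat_lit 4) (nat_lit 40) (nat_lit 5) (nat_lit 40) (nat_lit 4) (nat_lit 511) (nat_lit 419) (nat_lit 270))) (XT.nd (nat_lit 78) (nat_lit 152)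 (nat_lit 0) (XT.lf (nat_lit 0) (nat_lit 128713806392) (nat_lit 76) (nat_lit 44322297193) (nat_lit 76) (nat_lit 4916039377) (nat_lit 39) (nat_lit 4) (nat_lit 40) (nat_lit 5) (nat_lit 40) (nat_lit 4) (nat_lit 512) (nat_lit 419) (nat_lit 269)) (XT.lf (nat_lit 0) (nat_lit 44525798575) (nat_lit 152) (nat_lit 132762941051) (nat_lit 0) (nat_lit 6994843321) (nat_lit 37) (nat_lit 5) (nat_lit 39) (nat_lit 4) (nat_lit 37) (nat_lit 4) (nat_lit 513) (nat_lit 419) (nat_lit 268)))) (XT.nd (nat_lit 156) (nat_lit 152) (nat_lit 0) (XT.nd (nat_lit 78) (nat_lit 76) (nat_lit 0) (XT.lf (nat_lit 0) (nat_lit 97845395666) (nat_lit 152) (nat_lit 32690314836) (nat_lit 0) (nat_lit 60313310979) (nat_lit 37) (nat_lit 5) (nat_lit 39) (nat_lit 4) (nat_lit 37) (nat_lit 4) (nat_lit 514) (nat_lit 419) (nat_lit 267)) (XT.lf (nat_lit 0) (nat_lit 74772883959) (nat_lit 76) (nat_lit 80222396471) (nat_lit 76) (nat_lit 42689236134) (nat_lit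 36) (nat_lit 4) (nat_lit 37) (nat_lit 5) (nat_lit 37) (nat_lit 4) (nat_lit 515) (nat_lit 419) (nat_lit 266))) (XT.nd (nat_lit 78) (nat_lit 76) (nat_lit 0) (XT.lf (nat_lit 0) (nat_lit 10375899165) (nat_lit 152) (nat_lit 16263591476) (nat_lit 76) (nat_lit 178186399526) (nat_lit 35) (nat_lit 5) (nat_lit 37) (nat_lit 5) (nat_lit 36) (nat_lit 4) (nat_lit 516) (nat_lit 419) (nat_lit 265)) (XT.nd (nat_lit 78) (nat_lit 0) (nat_lit 0) (XT.lf (nat_lit 0) (nat_lit 66688171331) (nat_lit 152) (nat_lit 114559344526) (nat_lit 0) (nat_lit 30940399509) (nat_lit 34) (nat_lit 5) (nat_lit 36) (nat_lit 4) (nat_lit 34) (nat_lit 4) (nat_lit 517) (nat_lit 419) (nat_lit 264)) (XT.lf (nat_lit 0) (nat_lit 126529763286) (nat_lit 152) (nat_lit 2571486715) (nat_lit 0) (nat_lit 90781106523) (nat_lit 34) (nat_lit 5) (nat_lit 36) (nat_lit 4) (nat_lit 34) (nat_lit 4) (nat_lit 518) (nat_lit 419) (nat_lit 263))))))))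
noncomputable def xc274 : XT := (XT.nd (nat_lit 1248) (nat_lit 684) (nat_lit 0) (XT.nd (nat_lit 624) (nat_lit 380) (nat_lit 0) (XT.nd (nat_lit 312) (nat_lit 228) (nat_lit 0) (XT.nd (nat_lit 156) (nat_lit 76) (nat_lit 0) (XT.nd (nat_lit 78) (nat_lit 152) (nat_lit 0) (XT.lf (nat_lit 0) (nat_lit 118812836086) (nat_lit 76) (nat_lit 72402786909) (nat_lit 76) (nat_lit 36653287346) (nat_lit 33) (nat_lit 4) (nat_lit 34) (nat_lit 5) (nat_lit 34) (nat_lit 4) (nat_lit 519) (nat_lit 419) (nat_lit 262)) (XT.lf (nat_lit 0) (nat_lit 10061433343) (nat_lit 76) (nat_lit 12285754740) (nat_lit 152) (nat_lit 213879815028) (nat_lit 31) (nat_lit 5) (nat_lit 32) (nat_lit 5) (nat_lit 33) (nat_lit 4) (nat_lit 520) (nat_lit 419) (nat_lit 261))) (XT.nd (nat_lit 78) (nat_lit 76) (nat_lit 0) (XT.lf (nat_lit 0) (nat_lit 85733991920) (nat_lit 152) (nat_lit 107420203166) (nat_lit 0) (nat_lit 51685356992) (nat_lit 31) (nat_lit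 5) (nat_lit 33) (nat_lit 4) (nat_lit 31) (nat_lit 4) (nat_lit 521) (nat_lit 419) (nat_lit 260)) (XT.lf (nat_lit 0) (nat_lit 17619547677) (nat_lit 76) (nat_lit 135144409043) (nat_lit 76) (nat_lit 101095080741) (nat_lit 30) (nat_lit 4) (nat_lit 31) (nat_lit 5) (nat_lit 31) (nat_lit 4) (nat_lit 522) (nat_lit 419) (nat_lit 259)))) (XT.nd (nat_lit 156) (nat_lit 76) (nat_lit 0) (XT.nd (nat_lit 78) (nat_lit 152) (nat_lit 0) (XT.lf (nat_lit 0) (nat_lit 152635346440) (nat_lit 76) (nat_lit 72326655124) (nat_lit 76) (nat_lit 38276666466) (nat_lit 30) (nat_lit 4) (nat_lit 31) (nat_lit 5) (nat_lit 31) (nat_lit 4) (nat_lit 523) (nat_lit 419) (nat_lit 258)) (XT.lf (nat_lit 0) (nat_lit 21567591499) (nat_lit 76) (nat_lit 5563242192) (nat_lit 152) (nat_lit 245918127069) (nat_lit 28) (nat_lit 5) (nat_lit 29) (nat_lit 5) (nat_lit 30) (nat_lit 4) (nat_lit 524) (nat_lit 419) (nat_lit 257))) (XT.nd (nat_lit 78) (nat_lit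 76) (nat_lit 0) (XT.lf (nat_lit 0) (nat_lit 97431268777) (nat_lit 152) (nat_lit 120740140946) (nat_lit 0) (nat_lit 65001538747) (nat_lit 28) (nat_lit 5) (nat_lit 30) (nat_lit 4) (nat_lit 28) (nat_lit 4) (nat_lit 525) (nat_lit 419) (nat_lit 256)) (XT.lf (nat_lit 0) (nat_lit 16985682616) (nat_lit 76) (nat_lit 154615013859) (nat_lit 76) (nat_lit 122184740553) (nat_lit 27) (nat_lit 4) (nat_lit 28) (nat_lit 5) (nat_lit 28) (nat_lit 4) (nat_lit 526) (nat_lit 419) (nat_lit 255))))) (XT.nd (nat_lit 312) (nat_lit 228) (nat_lit 0) (XT.nd (nat_lit 156) (nat_lit 0) (nat_lit 0) (XT.nd (nat_lit 78) (nat_lit 152) (nat_lit 0) (XT.lf (nat_lit 0) (nat_lit 165784788262) (nat_lit 76) (nat_lit 85736216017) (nat_lit 76) (nat_lit 53305425304) (nat_lit 27) (nat_lit 4) (nat_lit 28) (nat_lit 5) (nat_lit 28) (nat_lit 4) (nat_lit 527) (nat_lit 419) (nat_lit 254)) (XT.lf (nat_lit 0) (nat_lit 5478108833) (nat_lit 76) (nat_lit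 13014277661) (nat_lit 152) (nat_lit 297908078128) (nat_lit 25) (nat_lit 5) (nat_lit 26) (nat_lit 5) (nat_lit 27) (nat_lit 4) (nat_lit 528) (nat_lit 419) (nat_lit 253))) (XT.nd (nat_lit 78) (nat_lit 0) (nat_lit 0) (XT.lf (nat_lit 0) (nat_lit 95468684202) (nat_lit 152) (nat_lit 168290523288) (nat_lit 0) (nat_lit 64581300598) (nat_lit 25) (nat_lit 5) (nat_lit 27) (nat_lit 4) (nat_lit 25) (nat_lit 4) (nat_lit 529) (nat_lit 419) (nat_lit 252)) (XT.lf (nat_lit 0) (nat_lit 176504949274) (nat_lit 152) (nat_lit 18744906837) (nat_lit 0) (nat_lit 145617139999) (nat_lit 25) (nat_lit 5) (nat_lit 27) (nat_lit 4) (nat_lit 25) (nat_lit 4) (nat_lit 530) (nat_lit 419) (nat_lit 251)))) (XT.nd (nat_lit 156) (nat_lit 152) (nat_lit 0) (XT.nd (nat_lit 78) (nat_lit 0) (nat_lit 0) (XT.lf (nat_lit 0) (nat_lit 142845698338) (nat_lit 76) (nat_lit 120975459189) (nat_lit 76) (nat_lit 90087244512) (nat_lit 24) (nat_lit 4) (nat_lit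 25) (nat_lit 5) (nat_lit 25) (nat_lit 4) (nat_lit 531) (nat_lit 419) (nat_lit 250)) (XT.lf (nat_lit 0) (nat_lit 313162436570) (nat_lit 76) (nat_lit 42656136319) (nat_lit 76) (nat_lit 11767535546) (nat_lit 24) (nat_lit 4) (nat_lit 25) (nat_lit 5) (nat_lit 25) (nat_lit 4) (nat_lit 532) (nat_lit 419) (nat_lit 249))) (XT.nd (nat_lit 78) (nat_lit 0) (nat_lit 0) (XT.lf (nat_lit 0) (nat_lit 70632643587) (nat_lit 152) (nat_lit 269924472635) (nat_lit 0) (nat_lit 41214578364) (nat_lit 22) (nat_lit 5) (nat_lit 24) (nat_lit 4) (nat_lit 22) (nat_lit 4) (nat_lit 533) (nat_lit 419) (nat_lit 248)) (XT.lf (nat_lit 0) (nat_lit 158391456774) (nat_lit 152) (nat_lit 109210695155) (nat_lit 0) (nat_lit 128973058027) (nat_lit 22) (nat_lit 5) (nat_lit 24) (nat_lit 4) (nat_lit 22) (nat_lit 4) (nat_lit 534) (nat_lit 419) (nat_lit 247)))))) (XT.nd (nat_lit 624) (nat_lit 380) (nat_lit 0) (XT.nd (nat_lit 312) (nat_lit 76) (nat_lit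 0) (XT.nd (nat_lit 156) (nat_lit 152) (nat_lit 0) (XT.nd (nat_lit 78) (nat_lit 0) (nat_lit 0) (XT.lf (nat_lit 0) (nat_lit 61503411026) (nat_lit 76) (nat_lit 189993144605) (nat_lit 76) (nat_lit 160574428215) (nat_lit 21) (nat_lit 4) (nat_lit 22) (nat_lit 5) (nat_lit 22) (nat_lit 4) (nat_lit 535) (nat_lit 419) (nat_lit 246)) (XT.lf (nat_lit 0) (nat_lit 244540979980) (nat_lit 76) (nat_lit 106563600895) (nat_lit 76) (nat_lit 77144581988) (nat_lit 21) (nat_lit 4) (nat_lit 22) (nat_lit 5) (nat_lit 22) (nat_lit 4) (nat_lit 536) (nat_lit 419) (nat_lit 245))) (XT.nd (nat_lit 78) (nat_lit 76) (nat_lit 0) (XT.lf (nat_lit 0) (nat_lit 10120270186) (nat_lit 152) (nat_lit 8672753135) (nat_lit 76) (nat_lit 426435154789) (nat_lit 20) (nat_lit 5) (nat_lit 22) (nat_lit 5) (nat_lit 21) (nat_lit 4) (nat_lit 537) (nat_lit 419) (nat_lit 244)) (XT.lf (nat_lit 0) (nat_lit 103170176022) (nat_lit 152) (nat_lit 284470489034)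 (nat_lit 0) (nat_lit 75151527060) (nat_lit 19) (nat_lit 5) (nat_lit 21) (nat_lit 4) (nat_lit 19) (nat_lit 4) (nat_lit 538) (nat_lit 419) (nat_lit 243)))) (XT.nd (nat_lit 156) (nat_lit 0) (nat_lit 0) (XT.nd (nat_lit 78) (nat_lit 76) (nat_lit 0) (XT.lf (nat_lit 0) (nat_lit 201328226547) (nat_lit 152) (nat_lit 106574069104) (nat_lit 0) (nat_lit 173309328704) (nat_lit 19) (nat_lit 5) (nat_lit 21) (nat_lit 4) (nat_lit 19) (nat_lit 4) (nat_lit 539) (nat_lit 419) (nat_lit 242)) (XT.lf (nat_lit 0) (nat_lit 82866073697) (nat_lit 76) (nat_lit 222820241307) (nat_lit 76) (nat_lit 194801106434) (nat_lit 18) (nat_lit 4) (nat_lit 19) (nat_lit 5) (nat_lit 19) (nat_lit 4) (nat_lit 540) (nat_lit 419) (nat_lit 241))) (XT.nd (nat_lit 78) (nat_lit 0) (nat_lit 0) (XT.lf (nat_lit 0) (nat_lit 285474958387) (nat_lit 76) (nat_lit 131590623454) (nat_lit 76) (nat_lit 103571262838) (nat_lit 18) (nat_lit 4) (nat_lit 19) (nat_lit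 5) (nat_lit 19) (nat_lit 4) (nat_lit 541) (nat_lit 419) (nat_lit 240)) (XT.lf (nat_lit 0) (nat_lit 498211167044) (nat_lit 76) (nat_lit 35801112146) (nat_lit 76) (nat_lit 7781536537) (nat_lit 18) (nat_lit 4) (nat_lit 19) (nat_lit 5) (nat_lit 19) (nat_lit 4) (nat_lit 542) (nat_lit 419) (nat_lit 239))))) (XT.nd (nat_lit 312) (nat_lit 152) (nat_lit 0) (XT.nd (nat_lit 156) (nat_lit 76) (nat_lit 0) (XT.nd (nat_lit 78) (nat_lit 0) (nat_lit 0) (XT.lf (nat_lit 0) (nat_lit 93420583537) (nat_lit 152) (nat_lit 403600881142) (nat_lit 0) (nat_lit 66735078429) (nat_lit 16) (nat_lit 5) (nat_lit 18) (nat_lit 4) (nat_lit 16) (nat_lit 4) (nat_lit 543) (nat_lit 419) (nat_lit 238)) (XT.lf (nat_lit 0) (nat_lit 200756912441) (nat_lit 152) (nat_lit 211916113823) (nat_lit 0) (nat_lit 174071221613) (nat_lit 16) (nat_lit 5) (nat_lit 18) (nat_lit 4) (nat_lit 16) (nat_lit 4) (nat_lit 544) (nat_lit 419) (nat_lit 237))) (XT.nd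 (nat_lit 78) (nat_lit 76) (nat_lit 0) (XT.lf (nat_lit 0) (nat_lit 313458645282) (nat_lit 152) (nat_lit 10649985651) (nat_lit 0) (nat_lit 286772777579) (nat_lit 16) (nat_lit 5) (nat_lit 18) (nat_lit 4) (nat_lit 16) (nat_lit 4) (nat_lit 545) (nat_lit 419) (nat_lit 236)) (XT.lf (nat_lit 0) (nat_lit 207311986706) (nat_lit 76) (nat_lit 227718853919) (nat_lit 76) (nat_lit 201032817763) (nat_lit 15) (nat_lit 4) (nat_lit 16) (nat_lit 5) (nat_lit 16) (nat_lit 4) (nat_lit 546) (nat_lit 419) (nat_lit 235)))) (XT.nd (nat_lit 156) (nat_lit 76) (nat_lit 0) (XT.nd (nat_lit 78) (nat_lit 76) (nat_lit 0) (XT.lf (nat_lit 0) (nat_lit 436539104849) (nat_lit 76) (nat_lit 126321580264) (nat_lit 76) (nat_lit 99635383677) (nat_lit 15) (nat_lit 4) (nat_lit 16) (nat_lit 5) (nat_lit 16) (nat_lit 4) (nat_lit 547) (nat_lit 419) (nat_lit 234)) (XT.lf (nat_lit 0) (nat_lit 6611977008) (nat_lit 152) (nat_lit 13131796510) (nat_lit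 76) (nat_lit 670501056969) (nat_lit 14) (nat_lit 5) (nat_lit 16) (nat_lit 5) (nat_lit 15) (nat_lit 4) (nat_lit 548) (nat_lit 419) (nat_lit 233))) (XT.nd (nat_lit 78) (nat_lit 0) (nat_lit 0) (XT.lf (nat_lit 0) (nat_lit 119709053237) (nat_lit 152) (nat_lit 505052677385) (nat_lit 0) (nat_lit 94293343814) (nat_lit 13) (nat_lit 5) (nat_lit 15) (nat_lit 4) (nat_lit 13) (nat_lit 4) (nat_lit 549) (nat_lit 419) (nat_lit 232)) (XT.nd (nat_lit 78) (nat_lit 0) (nat_lit 0) (XT.lf (nat_lit 0) (nat_lit 239009471338) (nat_lit 152) (nat_lit 296675304917) (nat_lit 0) (nat_lit 213593629928) (nat_lit 13) (nat_lit 5) (nat_lit 15) (nat_lit 4) (nat_lit 13) (nat_lit 4) (nat_lit 550) (nat_lit 419) (nat_lit 231)) (XT.lf (nat_lit 0) (nat_lit 364273748934) (nat_lit 152) (nat_lit 77881431829) (nat_lit 0) (nat_lit 338857781823) (nat_lit 13) (nat_lit 5) (nat_lit 15) (nat_lit 4) (nat_lit 13) (nat_lit 4) (nat_lit 551) (nat_lit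 419) (nat_lit 230))))))))
noncomputable def xc275 : XT := (XT.nd (nat_lit 53274) (nat_lit 0) (nat_lit 7448) (XT.nd (nat_lit 52650) (nat_lit 0) (nat_lit 10640) (XT.nd (nat_lit 52338) (nat_lit 0) (nat_lit 11628) (XT.nd (nat_lit 52182) (nat_lit 0) (nat_lit 12312) (XT.nd (nat_lit 78) (nat_lit 0) (nat_lit 0) (XT.lf (nat_lit 0) (nat_lit 156870722465) (nat_lit 76) (nat_lit 341378603450) (nat_lit 76) (nat_lit 315962516622) (nat_lit 12) (nat_lit 4) (nat_lit 13) (nat_lit 5) (nat_lit 13) (nat_lit 4) (nat_lit 552) (nat_lit 419) (nat_lit 229)) (XT.lf (nat_lit 0) (nat_lit 406062133059) (nat_lit 76) (nat_lit 234179420343) (nat_lit 76) (nat_lit 208763219500) (nat_lit 12) (nat_lit 4) (nat_lit 13) (nat_lit 5) (nat_lit 13) (nat_lit 4) (nat_lit 553) (nat_lit 419) (nat_lit 228))) (XT.nd (nat_lit 78) (nat_lit 0) (nat_lit 0) (XT.lf (nat_lit 0) (nat_lit 2045775295) (nat_lit 0) (nat_lit 2045775295) (nat_lit 684) (nat_lit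 1483254858) (nat_lit 174) (nat_lit 5) (nat_lit 174) (nat_lit 3) (nat_lit 183) (nat_lit 3) (nat_lit 420) (nat_lit 420) (nat_lit 360)) (XT.lf (nat_lit 0) (nat_lit 8948878334) (nat_lit 684) (nat_lit 1511558207) (nat_lit 760) (nat_lit 939809668) (nat_lit 174) (nat_lit 5) (nat_lit 183) (nat_lit 3) (nat_lit 184) (nat_lit 5) (nat_lit 421) (nat_lit 420) (nat_lit 359)))) (XT.nd (nat_lit 156) (nat_lit 684) (nat_lit 0) (XT.nd (nat_lit 78) (nat_lit 0) (nat_lit 0) (XT.lf (nat_lit 76) (nat_lit 4365414786) (nat_lit 0) (nat_lit 5488079909) (nat_lit 760) (nat_lit 1804893952) (nat_lit 175) (nat_lit 5) (nat_lit 174) (nat_lit 5) (nat_lit 184) (nat_lit 5) (nat_lit 422) (nat_lit 420) (nat_lit 358)) (XT.lf (nat_lit 76) (nat_lit 10569528686) (nat_lit 0) (nat_lit 226083465) (nat_lit 760) (nat_lit 1134215286) (nat_lit 175) (nat_lit 5) (nat_lit 174) (nat_lit 5) (nat_lit 184) (nat_lit 5) (nat_lit 423) (nat_lit 420) (nat_lit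 357))) (XT.nd (nat_lit 78) (nat_lit 760) (nat_lit 0) (XT.lf (nat_lit 76) (nat_lit 4923797940) (nat_lit 0) (nat_lit 6989112951) (nat_lit 760) (nat_lit 295526116) (nat_lit 176) (nat_lit 5) (nat_lit 175) (nat_lit 5) (nat_lit 185) (nat_lit 5) (nat_lit 424) (nat_lit 420) (nat_lit 356)) (XT.lf (nat_lit 0) (nat_lit 562654098) (nat_lit 760) (nat_lit 964488468) (nat_lit 836) (nat_lit 10973565940) (nat_lit 165) (nat_lit 5) (nat_lit 175) (nat_lit 5) (nat_lit 176) (nat_lit 5) (nat_lit 425) (nat_lit 420) (nat_lit 355))))) (XT.nd (nat_lit 312) (nat_lit 1064) (nat_lit 0) (XT.nd (nat_lit 156) (nat_lit 0) (nat_lit 76) (XT.nd (nat_lit 78) (nat_lit 0) (nat_lit 0) (XT.lf (nat_lit 0) (nat_lit 1582943406) (nat_lit 760) (nat_lit 7037927268) (nat_lit 836) (nat_lit 4180026340) (nat_lit 166) (nat_lit 5) (nat_lit 176) (nat_lit 5) (nat_lit 177) (nat_lit 5) (nat_lit 426) (nat_lit 420) (nat_lit 354)) (XT.lf (nat_lit 0) (nat_lit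 2667746997) (nat_lit 760) (nat_lit 301311055) (nat_lit 836) (nat_lit 10146364056) (nat_lit 166) (nat_lit 5) (nat_lit 176) (nat_lit 5) (nat_lit 177) (nat_lit 5) (nat_lit 427) (nat_lit 420) (nat_lit 353))) (XT.nd (nat_lit 78) (nat_lit 0) (nat_lit 0) (XT.lf (nat_lit 0) (nat_lit 3937087225) (nat_lit 760) (nat_lit 6514381998) (nat_lit 836) (nat_lit 2987691456) (nat_lit 167) (nat_lit 5) (nat_lit 177) (nat_lit 5) (nat_lit 178) (nat_lit 5) (nat_lit 428) (nat_lit 420) (nat_lit 352)) (XT.lf (nat_lit 76) (nat_lit 696249014) (nat_lit 0) (nat_lit 4612642562) (nat_lit 836) (nat_lit 8468246695) (nat_lit 168) (nat_lit 5) (nat_lit 167) (nat_lit 5) (nat_lit 178) (nat_lit 5) (nat_lit 429) (nat_lit 420) (nat_lit 351)))) (XT.nd (nat_lit 156) (nat_lit 456) (nat_lit 0) (XT.nd (nat_lit 78) (nat_lit 760) (nat_lit 0) (XT.lf (nat_lit 0) (nat_lit 6860353676) (nat_lit 760) (nat_lit 5680481641) (nat_lit 76) (nat_lit 1585627906)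 (nat_lit 168) (nat_lit 5) (nat_lit 178) (nat_lit 5) (nat_lit 169) (nat_lit 5) (nat_lit 430) (nat_lit 420) (nat_lit 350)) (XT.lf (nat_lit 0) (nat_lit 2059239175) (nat_lit 760) (nat_lit 6514329226) (nat_lit 836) (nat_lit 5915478813) (nat_lit 158) (nat_lit 5) (nat_lit 168) (nat_lit 5) (nat_lit 169) (nat_lit 5) (nat_lit 431) (nat_lit 420) (nat_lit 349))) (XT.nd (nat_lit 78) (nat_lit 456) (nat_lit 0) (XT.lf (nat_lit 0) (nat_lit 10362499614) (nat_lit 760) (nat_lit 83358573) (nat_lit 836) (nat_lit 4420233186) (nat_lit 158) (nat_lit 5) (nat_lit 168) (nat_lit 5) (nat_lit 169) (nat_lit 5) (nat_lit 432) (nat_lit 420) (nat_lit 348)) (XT.lf (nat_lit 0) (nat_lit 3816157457) (nat_lit 456) (nat_lit 8737639569) (nat_lit 532) (nat_lit 2701090587) (nat_lit 152) (nat_lit 5) (nat_lit 158) (nat_lit 5) (nat_lit 159) (nat_lit 5) (nat_lit 433) (nat_lit 420) (nat_lit 347)))))) (XT.nd (nat_lit 624) (nat_lit 1748) (nat_lit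 0) (XT.nd (nat_lit 312) (nat_lit 608) (nat_lit 0) (XT.nd (nat_lit 156) (nat_lit 380) (nat_lit 0) (XT.nd (nat_lit 78) (nat_lit 456) (nat_lit 0) (XT.lf (nat_lit 0) (nat_lit 12686377889) (nat_lit 456) (nat_lit 2137411795) (nat_lit 532) (nat_lit 836502665) (nat_lit 152) (nat_lit 5) (nat_lit 158) (nat_lit 5) (nat_lit 159) (nat_lit 5) (nat_lit 434) (nat_lit 420) (nat_lit 346)) (XT.lf (nat_lit 0) (nat_lit 1236591067) (nat_lit 456) (nat_lit 10087260017) (nat_lit 76) (nat_lit 4753684005) (nat_lit 146) (nat_lit 5) (nat_lit 152) (nat_lit 5) (nat_lit 147) (nat_lit 5) (nat_lit 435) (nat_lit 420) (nat_lit 345))) (XT.nd (nat_lit 78) (nat_lit 380) (nat_lit 0) (XT.lf (nat_lit 0) (nat_lit 3451822022) (nat_lit 456) (nat_lit 1077590147) (nat_lit 76) (nat_lit 11982213733) (nat_lit 146) (nat_lit 5) (nat_lit 152) (nat_lit 5) (nat_lit 147) (nat_lit 5) (nat_lit 436) (nat_lit 420) (nat_lit 344)) (XT.lf (nat_lit 0) (nat_lit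 5936858257) (nat_lit 456) (nat_lit 8365221974) (nat_lit 76) (nat_lit 2657390094) (nat_lit 141) (nat_lit 5) (nat_lit 147) (nat_lit 5) (nat_lit 142) (nat_lit 5) (nat_lit 437) (nat_lit 420) (nat_lit 343)))) (XT.nd (nat_lit 156) (nat_lit 304) (nat_lit 0) (XT.nd (nat_lit 78) (nat_lit 0) (nat_lit 0) (XT.lf (nat_lit 0) (nat_lit 1305129972) (nat_lit 304) (nat_lit 7336058443) (nat_lit 380) (nat_lit 8783767646) (nat_lit 137) (nat_lit 5) (nat_lit 141) (nat_lit 5) (nat_lit 142) (nat_lit 5) (nat_lit 438) (nat_lit 420) (nat_lit 342)) (XT.lf (nat_lit 0) (nat_lit 11606763158) (nat_lit 380) (nat_lit 6180093879) (nat_lit 76) (nat_lit 120558781) (nat_lit 137) (nat_lit 5) (nat_lit 142) (nat_lit 5) (nat_lit 138) (nat_lit 5) (nat_lit 439) (nat_lit 420) (nat_lit 341))) (XT.nd (nat_lit 78) (nat_lit 0) (nat_lit 0) (XT.lf (nat_lit 0) (nat_lit 4252566278) (nat_lit 304) (nat_lit 10637923237) (nat_lit 380) (nat_lit 3515016489)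 (nat_lit 133) (nat_lit 5) (nat_lit 137) (nat_lit 5) (nat_lit 138) (nat_lit 5) (nat_lit 440) (nat_lit 420) (nat_lit 340)) (XT.lf (nat_lit 0) (nat_lit 15401835293) (nat_lit 304) (nat_lit 3024938456) (nat_lit 380) (nat_lit 497309406) (nat_lit 133) (nat_lit 5) (nat_lit 137) (nat_lit 5) (nat_lit 138) (nat_lit 5) (nat_lit 441) (nat_lit 420) (nat_lit 339))))) (XT.nd (nat_lit 312) (nat_lit 836) (nat_lit 0) (XT.nd (nat_lit 156) (nat_lit 532) (nat_lit 0) (XT.nd (nat_lit 78) (nat_lit 0) (nat_lit 0) (XT.lf (nat_lit 0) (nat_lit 2772467828) (nat_lit 380) (nat_lit 11711692291) (nat_lit 76) (nat_lit 4973010545) (nat_lit 128) (nat_lit 5) (nat_lit 133) (nat_lit 5) (nat_lit 129) (nat_lit 5) (nat_lit 442) (nat_lit 420) (nat_lit 338)) (XT.lf (nat_lit 0) (nat_lit 6283869293) (nat_lit 380) (nat_lit 393349116) (nat_lit 76) (nat_lit 13334544990) (nat_lit 128) (nat_lit 5) (nat_lit 133) (nat_lit 5) (nat_lit 129) (nat_lit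 5) (nat_lit 443) (nat_lit 420) (nat_lit 337))) (XT.nd (nat_lit 78) (nat_lit 228) (nat_lit 0) (XT.lf (nat_lit 0) (nat_lit 10167942946) (nat_lit 380) (nat_lit 8760676623) (nat_lit 76) (nat_lit 1655611946) (nat_lit 124) (nat_lit 5) (nat_lit 129) (nat_lit 5) (nat_lit 125) (nat_lit 5) (nat_lit 444) (nat_lit 420) (nat_lit 336)) (XT.lf (nat_lit 0) (nat_lit 3462221257) (nat_lit 228) (nat_lit 10939995897) (nat_lit 304) (nat_lit 6775306849) (nat_lit 121) (nat_lit 5) (nat_lit 124) (nat_lit 5) (nat_lit 125) (nat_lit 5) (nat_lit 445) (nat_lit 420) (nat_lit 335)))) (XT.nd (nat_lit 156) (nat_lit 456) (nat_lit 0) (XT.nd (nat_lit 78) (nat_lit 380) (nat_lit 0) (XT.lf (nat_lit 0) (nat_lit 16581731254) (nat_lit 228) (nat_lit 2400937493) (nat_lit 304) (nat_lit 2811089956) (nat_lit 121) (nat_lit 5) (nat_lit 124) (nat_lit 5) (nat_lit 125) (nat_lit 5) (nat_lit 446) (nat_lit 420) (nat_lit 334)) (XT.lf (nat_lit 0) (nat_lit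 1526530949) (nat_lit 380) (nat_lit 14401399180) (nat_lit 76) (nat_lit 6500898579) (nat_lit 116) (nat_lit 5) (nat_lit 121) (nat_lit 5) (nat_lit 117) (nat_lit 5) (nat_lit 447) (nat_lit 420) (nat_lit 333))) (XT.nd (nat_lit 78) (nat_lit 456) (nat_lit 0) (XT.lf (nat_lit 0) (nat_lit 6102463346) (nat_lit 380) (nat_lit 1086845072) (nat_lit 76) (nat_lit 15898245215) (nat_lit 116) (nat_lit 5) (nat_lit 121) (nat_lit 5) (nat_lit 117) (nat_lit 5) (nat_lit 448) (nat_lit 420) (nat_lit 332)) (XT.nd (nat_lit 78) (nat_lit 228) (nat_lit 0) (XT.lf (nat_lit 0) (nat_lit 11136656152) (nat_lit 304) (nat_lit 10502269362) (nat_lit 76) (nat_lit 2128816735) (nat_lit 113) (nat_lit 5) (nat_lit 117) (nat_lit 5) (nat_lit 114) (nat_lit 5) (nat_lit 449) (nat_lit 420) (nat_lit 331)) (XT.lf (nat_lit 0) (nat_lit 3880262979) (nat_lit 228) (nat_lit 12727143029) (nat_lit 304) (nat_lit 7865292521) (nat_lit 110) (nat_lit 5) (nat_lit 113)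 (nat_lit 5) (nat_lit 114) (nat_lit 5) (nat_lit 450) (nat_lit 420) (nat_lit 330))))))))
noncomputable def xc276 : XT := (XT.nd (nat_lit 1248) (nat_lit 1444) (nat_lit 0) (XT.nd (nat_lit 624) (nat_lit 912) (nat_lit 0) (XT.nd (nat_lit 312) (nat_lit 608) (nat_lit 0) (XT.nd (nat_lit 156) (nat_lit 228) (nat_lit 0) (XT.nd (nat_lit 78) (nat_lit 228) (nat_lit 0) (XT.lf (nat_lit 0) (nat_lit 19328935583) (nat_lit 228) (nat_lit 3188629814) (nat_lit 304) (nat_lit 2687044200) (nat_lit 110) (nat_lit 5) (nat_lit 113) (nat_lit 5) (nat_lit 114) (nat_lit 5) (nat_lit 451) (nat_lit 420) (nat_lit 329)) (XT.lf (nat_lit 0) (nat_lit 2913706624) (nat_lit 228) (nat_lit 16242083857) (nat_lit 76) (nat_lit 6802598857) (nat_lit 107) (nat_lit 5) (nat_lit 110) (nat_lit 5) (nat_lit 108) (nat_lit 5) (nat_lit 452) (nat_lit 420) (nat_lit 328))) (XT.nd (nat_lit 78) (nat_lit 228) (nat_lit 0) (XT.lf (nat_lit 0) (nat_lit 8846200708) (nat_lit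 228) (nat_lit 568312965) (nat_lit 76) (nat_lit 17326041996) (nat_lit 107) (nat_lit 5) (nat_lit 110) (nat_lit 5) (nat_lit 108) (nat_lit 5) (nat_lit 453) (nat_lit 420) (nat_lit 327)) (XT.lf (nat_lit 0) (nat_lit 15337283867) (nat_lit 304) (nat_lit 11168945175) (nat_lit 76) (nat_lit 1042503529) (nat_lit 104) (nat_lit 5) (nat_lit 108) (nat_lit 5) (nat_lit 105) (nat_lit 5) (nat_lit 454) (nat_lit 420) (nat_lit 326)))) (XT.nd (nat_lit 156) (nat_lit 380) (nat_lit 0) (XT.nd (nat_lit 78) (nat_lit 76) (nat_lit 0) (XT.lf (nat_lit 0) (nat_lit 5813046209) (nat_lit 152) (nat_lit 16584066347) (nat_lit 228) (nat_lit 5987996643) (nat_lit 102) (nat_lit 5) (nat_lit 104) (nat_lit 5) (nat_lit 105) (nat_lit 5) (nat_lit 455) (nat_lit 420) (nat_lit 325)) (XT.lf (nat_lit 0) (nat_lit 710780400) (nat_lit 228) (nat_lit 5250366030) (nat_lit 76) (nat_lit 23292649524) (nat_lit 101) (nat_lit 5) (nat_lit 104) (nat_lit 5) (nat_lit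 102) (nat_lit 5) (nat_lit 456) (nat_lit 420) (nat_lit 324))) (XT.nd (nat_lit 78) (nat_lit 152) (nat_lit 0) (XT.lf (nat_lit 0) (nat_lit 7825971830) (nat_lit 304) (nat_lit 16989892106) (nat_lit 76) (nat_lit 5331009733) (nat_lit 98) (nat_lit 5) (nat_lit 102) (nat_lit 5) (nat_lit 99) (nat_lit 5) (nat_lit 457) (nat_lit 420) (nat_lit 323)) (XT.lf (nat_lit 0) (nat_lit 1520164781) (nat_lit 152) (nat_lit 13978635401) (nat_lit 228) (nat_lit 15575711590) (nat_lit 96) (nat_lit 5) (nat_lit 98) (nat_lit 5) (nat_lit 99) (nat_lit 5) (nat_lit 458) (nat_lit 420) (nat_lit 322))))) (XT.nd (nat_lit 312) (nat_lit 532) (nat_lit 0) (XT.nd (nat_lit 156) (nat_lit 228) (nat_lit 0) (XT.nd (nat_lit 78) (nat_lit 152) (nat_lit 0) (XT.lf (nat_lit 0) (nat_lit 21529708705) (nat_lit 152) (nat_lit 2303564098) (nat_lit 228) (nat_lit 8201359188) (nat_lit 96) (nat_lit 5) (nat_lit 98) (nat_lit 5) (nat_lit 99) (nat_lit 5) (nat_lit 459)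 (nat_lit 420) (nat_lit 321)) (XT.lf (nat_lit 0) (nat_lit 9634420378) (nat_lit 152) (nat_lit 23246541343) (nat_lit 228) (nat_lit 146972202) (nat_lit 94) (nat_lit 5) (nat_lit 96) (nat_lit 5) (nat_lit 97) (nat_lit 5) (nat_lit 460) (nat_lit 420) (nat_lit 320))) (XT.nd (nat_lit 78) (nat_lit 152) (nat_lit 0) (XT.lf (nat_lit 0) (nat_lit 8253444021) (nat_lit 228) (nat_lit 3102532923) (nat_lit 76) (nat_lit 22697972787) (nat_lit 93) (nat_lit 5) (nat_lit 96) (nat_lit 5) (nat_lit 94) (nat_lit 5) (nat_lit 461) (nat_lit 420) (nat_lit 319)) (XT.lf (nat_lit 0) (nat_lit 17375787942) (nat_lit 228) (nat_lit 16352216653) (nat_lit 76) (nat_lit 1387799248) (nat_lit 91) (nat_lit 5) (nat_lit 94) (nat_lit 5) (nat_lit 92) (nat_lit 5) (nat_lit 462) (nat_lit 420) (nat_lit 318)))) (XT.nd (nat_lit 156) (nat_lit 304) (nat_lit 0) (XT.nd (nat_lit 78) (nat_lit 76) (nat_lit 0) (XT.lf (nat_lit 0) (nat_lit 5579244609) (nat_lit 152)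 (nat_lit 21692925308) (nat_lit 228) (nat_lit 8942684979) (nat_lit 89) (nat_lit 5) (nat_lit 91) (nat_lit 5) (nat_lit 92) (nat_lit 5) (nat_lit 463) (nat_lit 420) (nat_lit 317)) (XT.lf (nat_lit 0) (nat_lit 557851490) (nat_lit 228) (nat_lit 8204110585) (nat_lit 76) (nat_lit 28593028508) (nat_lit 88) (nat_lit 5) (nat_lit 91) (nat_lit 5) (nat_lit 89) (nat_lit 5) (nat_lit 464) (nat_lit 420) (nat_lit 316))) (XT.nd (nat_lit 78) (nat_lit 152) (nat_lit 0) (XT.lf (nat_lit 0) (nat_lit 10551069518) (nat_lit 228) (nat_lit 22924168956) (nat_lit 76) (nat_lit 5053655369) (nat_lit 86) (nat_lit 5) (nat_lit 89) (nat_lit 5) (nat_lit 87) (nat_lit 5) (nat_lit 465) (nat_lit 420) (nat_lit 315)) (XT.lf (nat_lit 0) (nat_lit 1006250933) (nat_lit 152) (nat_lit 20330056366) (nat_lit 228) (nat_lit 18410567252) (nat_lit 84) (nat_lit 5) (nat_lit 86) (nat_lit 5) (nat_lit 87) (nat_lit 5) (nat_lit 466) (nat_lit 420) (nat_lit 314))))))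 (XT.nd (nat_lit 624) (nat_lit 760) (nat_lit 0) (XT.nd (nat_lit 312) (nat_lit 380) (nat_lit 0) (XT.nd (nat_lit 156) (nat_lit 152) (nat_lit 0) (XT.nd (nat_lit 78) (nat_lit 152) (nat_lit 0) (XT.lf (nat_lit 0) (nat_lit 26914974200) (nat_lit 152) (nat_lit 6126026952) (nat_lit 228) (nat_lit 7965743651) (nat_lit 84) (nat_lit 5) (nat_lit 86) (nat_lit 5) (nat_lit 87) (nat_lit 5) (nat_lit 467) (nat_lit 420) (nat_lit 313)) (XT.lf (nat_lit 0) (nat_lit 3227642503) (nat_lit 152) (nat_lit 30342381897) (nat_lit 76) (nat_lit 8741122292) (nat_lit 82) (nat_lit 5) (nat_lit 84) (nat_lit 5) (nat_lit 83) (nat_lit 5) (nat_lit 468) (nat_lit 420) (nat_lit 312))) (XT.nd (nat_lit 78) (nat_lit 152) (nat_lit 0) (XT.lf (nat_lit 0) (nat_lit 15048275251) (nat_lit 152) (nat_lit 4095948429) (nat_lit 76) (nat_lit 24513251961) (nat_lit 82) (nat_lit 5) (nat_lit 84) (nat_lit 5) (nat_lit 83) (nat_lit 5) (nat_lit 469) (nat_lit 420) (nat_lit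 311)) (XT.lf (nat_lit 0) (nat_lit 24225066041) (nat_lit 152) (nat_lit 3605750546) (nat_lit 228) (nat_lit 17221760780) (nat_lit 80) (nat_lit 5) (nat_lit 82) (nat_lit 5) (nat_lit 83) (nat_lit 5) (nat_lit 470) (nat_lit 420) (nat_lit 310)))) (XT.nd (nat_lit 156) (nat_lit 228) (nat_lit 0) (XT.nd (nat_lit 78) (nat_lit 76) (nat_lit 0) (XT.lf (nat_lit 0) (nat_lit 7621581283) (nat_lit 76) (nat_lit 34011550752) (nat_lit 152) (nat_lit 4865269962) (nat_lit 79) (nat_lit 5) (nat_lit 80) (nat_lit 5) (nat_lit 81) (nat_lit 4) (nat_lit 471) (nat_lit 420) (nat_lit 309)) (XT.lf (nat_lit 0) (nat_lit 8259865501) (nat_lit 152) (nat_lit 9987348894) (nat_lit 76) (nat_lit 29742455362) (nat_lit 78) (nat_lit 5) (nat_lit 80) (nat_lit 5) (nat_lit 79) (nat_lit 5) (nat_lit 472) (nat_lit 420) (nat_lit 308))) (XT.nd (nat_lit 78) (nat_lit 76) (nat_lit 0) (XT.lf (nat_lit 0) (nat_lit 20923981826) (nat_lit 152) (nat_lit 1273541688)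 (nat_lit 228) (nat_lit 27338001073) (nat_lit 76) (nat_lit 5) (nat_lit 78) (nat_lit 5) (nat_lit 79) (nat_lit 5) (nat_lit 473) (nat_lit 420) (nat_lit 307)) (XT.lf (nat_lit 0) (nat_lit 2379821543) (nat_lit 76) (nat_lit 34912823274) (nat_lit 152) (nat_lit 13842998463) (nat_lit 75) (nat_lit 5) (nat_lit 76) (nat_lit 5) (nat_lit 77) (nat_lit 4) (nat_lit 474) (nat_lit 420) (nat_lit 306))))) (XT.nd (nat_lit 312) (nat_lit 456) (nat_lit 0) (XT.nd (nat_lit 156) (nat_lit 76) (nat_lit 0) (XT.nd (nat_lit 78) (nat_lit 152) (nat_lit 0) (XT.lf (nat_lit 0) (nat_lit 822828269) (nat_lit 152) (nat_lit 16924007473) (nat_lit 76) (nat_lit 35043350607) (nat_lit 74) (nat_lit 5) (nat_lit 76) (nat_lit 5) (nat_lit 75) (nat_lit 5) (nat_lit 475) (nat_lit 420) (nat_lit 305)) (XT.lf (nat_lit 0) (nat_lit 16024747697) (nat_lit 228) (nat_lit 37717506495) (nat_lit 76) (nat_lit 760454935) (nat_lit 72) (nat_lit 5) (nat_lit 75) (nat_lit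 5) (nat_lit 73) (nat_lit 4) (nat_lit 476) (nat_lit 420) (nat_lit 304))) (XT.nd (nat_lit 78) (nat_lit 76) (nat_lit 0) (XT.lf (nat_lit 0) (nat_lit 32562536535) (nat_lit 228) (nat_lit 3826786916) (nat_lit 76) (nat_lit 19882746036) (nat_lit 72) (nat_lit 5) (nat_lit 75) (nat_lit 5) (nat_lit 73) (nat_lit 4) (nat_lit 477) (nat_lit 420) (nat_lit 303)) (XT.lf (nat_lit 0) (nat_lit 32796675758) (nat_lit 76) (nat_lit 17636422146) (nat_lit 152) (nat_lit 7671505917) (nat_lit 71) (nat_lit 5) (nat_lit 72) (nat_lit 5) (nat_lit 73) (nat_lit 4) (nat_lit 478) (nat_lit 420) (nat_lit 302)))) (XT.nd (nat_lit 156) (nat_lit 228) (nat_lit 0) (XT.nd (nat_lit 78) (nat_lit 0) (nat_lit 0) (XT.lf (nat_lit 0) (nat_lit 9153767448) (nat_lit 228) (nat_lit 48474615122) (nat_lit 76) (nat_lit 2379285574) (nat_lit 68) (nat_lit 5) (nat_lit 71) (nat_lit 5) (nat_lit 69) (nat_lit 4) (nat_lit 479) (nat_lit 420) (nat_lit 301)) (XT.lf (nat_lit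 0) (nat_lit 27281127690) (nat_lit 228) (nat_lit 11323191355) (nat_lit 76) (nat_lit 23359346808) (nat_lit 68) (nat_lit 5) (nat_lit 71) (nat_lit 5) (nat_lit 69) (nat_lit 4) (nat_lit 480) (nat_lit 420) (nat_lit 300))) (XT.nd (nat_lit 78) (nat_lit 152) (nat_lit 0) (XT.lf (nat_lit 0) (nat_lit 28589864749) (nat_lit 76) (nat_lit 18165536408) (nat_lit 152) (nat_lit 17240035120) (nat_lit 67) (nat_lit 5) (nat_lit 68) (nat_lit 5) (nat_lit 69) (nat_lit 4) (nat_lit 481) (nat_lit 420) (nat_lit 299)) (XT.nd (nat_lit 78) (nat_lit 0) (nat_lit 0) (XT.lf (nat_lit 0) (nat_lit 1361865246) (nat_lit 152) (nat_lit 61272437024) (nat_lit 76) (nat_lit 3477570870) (nat_lit 65) (nat_lit 5) (nat_lit 67) (nat_lit 5) (nat_lit 66) (nat_lit 4) (nat_lit 482) (nat_lit 420) (nat_lit 298)) (XT.lf (nat_lit 0) (nat_lit 21215937587) (nat_lit 152) (nat_lit 20579539921) (nat_lit 76) (nat_lit 26479450480) (nat_lit 65) (nat_lit 5) (nat_lit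 67) (nat_lit 5) (nat_lit 66) (nat_lit 4) (nat_lit 483) (nat_lit 420) (nat_lit 297))))))))
noncomputable def xc277 : XT := (XT.nd (nat_lit 1248) (nat_lit 1140) (nat_lit 0) (XT.nd (nat_lit 624) (nat_lit 532) (nat_lit 0) (XT.nd (nat_lit 312) (nat_lit 228) (nat_lit 0) (XT.nd (nat_lit 156) (nat_lit 228) (nat_lit 0) (XT.nd (nat_lit 78) (nat_lit 0) (nat_lit 0) (XT.lf (nat_lit 0) (nat_lit 22869457642) (nat_lit 76) (nat_lit 19544806839) (nat_lit 152) (nat_lit 28114293626) (nat_lit 64) (nat_lit 5) (nat_lit 65) (nat_lit 5) (nat_lit 66) (nat_lit 4) (nat_lit 484) (nat_lit 420) (nat_lit 296)) (XT.lf (nat_lit 0) (nat_lit 65080879857) (nat_lit 152) (nat_lit 3747926258) (nat_lit 0) (nat_lit 4045645080) (nat_lit 64) (nat_lit 5) (nat_lit 66) (nat_lit 4) (nat_lit 64) (nat_lit 4) (nat_lit 485) (nat_lit 420) (nat_lit 295))) (XT.nd (nat_lit 78) (nat_lit 76) (nat_lit 0) (XT.lf (nat_lit 0) (nat_lit 14119063028) (nat_lit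 152) (nat_lit 32097697036) (nat_lit 76) (nat_lit 29059839456) (nat_lit 62) (nat_lit 5) (nat_lit 64) (nat_lit 5) (nat_lit 63) (nat_lit 4) (nat_lit 486) (nat_lit 420) (nat_lit 294)) (XT.lf (nat_lit 0) (nat_lit 15131981986) (nat_lit 76) (nat_lit 22028987868) (nat_lit 152) (nat_lit 40616719503) (nat_lit 61) (nat_lit 5) (nat_lit 62) (nat_lit 5) (nat_lit 63) (nat_lit 4) (nat_lit 487) (nat_lit 420) (nat_lit 293)))) (XT.nd (nat_lit 156) (nat_lit 76) (nat_lit 0) (XT.nd (nat_lit 78) (nat_lit 152) (nat_lit 0) (XT.lf (nat_lit 0) (nat_lit 61954869158) (nat_lit 152) (nat_lit 14610709639) (nat_lit 0) (nat_lit 3808260090) (nat_lit 61) (nat_lit 5) (nat_lit 63) (nat_lit 4) (nat_lit 61) (nat_lit 4) (nat_lit 488) (nat_lit 420) (nat_lit 292)) (XT.lf (nat_lit 0) (nat_lit 5675460852) (nat_lit 152) (nat_lit 46517296003) (nat_lit 76) (nat_lit 30856059740) (nat_lit 59) (nat_lit 5) (nat_lit 61) (nat_lit 5) (nat_lit 60) (nat_lit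 4) (nat_lit 489) (nat_lit 420) (nat_lit 291))) (XT.nd (nat_lit 78) (nat_lit 0) (nat_lit 0) (XT.lf (nat_lit 0) (nat_lit 4728691347) (nat_lit 76) (nat_lit 25947312316) (nat_lit 152) (nat_lit 55150422617) (nat_lit 58) (nat_lit 5) (nat_lit 59) (nat_lit 5) (nat_lit 60) (nat_lit 4) (nat_lit 490) (nat_lit 420) (nat_lit 290)) (XT.lf (nat_lit 0) (nat_lit 57747505029) (nat_lit 152) (nat_lit 28599238448) (nat_lit 0) (nat_lit 2355126449) (nat_lit 58) (nat_lit 5) (nat_lit 60) (nat_lit 4) (nat_lit 58) (nat_lit 4) (nat_lit 491) (nat_lit 420) (nat_lit 289))))) (XT.nd (nat_lit 312) (nat_lit 228) (nat_lit 0) (XT.nd (nat_lit 156) (nat_lit 152) (nat_lit 0) (XT.nd (nat_lit 78) (nat_lit 76) (nat_lit 0) (XT.lf (nat_lit 0) (nat_lit 26952309180) (nat_lit 76) (nat_lit 60061754311) (nat_lit 76) (nat_lit 4664948208) (nat_lit 57) (nat_lit 4) (nat_lit 58) (nat_lit 5) (nat_lit 58) (nat_lit 4) (nat_lit 492) (nat_lit 420) (nat_lit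 288)) (XT.lf (nat_lit 0) (nat_lit 22692354191) (nat_lit 152) (nat_lit 8881696700) (nat_lit 76) (nat_lit 63188672444) (nat_lit 56) (nat_lit 5) (nat_lit 58) (nat_lit 5) (nat_lit 57) (nat_lit 4) (nat_lit 493) (nat_lit 420) (nat_lit 287))) (XT.nd (nat_lit 78) (nat_lit 76) (nat_lit 0) (XT.lf (nat_lit 0) (nat_lit 51312690201) (nat_lit 76) (nat_lit 744738524) (nat_lit 152) (nat_lit 45899534146) (nat_lit 55) (nat_lit 5) (nat_lit 56) (nat_lit 5) (nat_lit 57) (nat_lit 4) (nat_lit 494) (nat_lit 420) (nat_lit 286)) (XT.lf (nat_lit 0) (nat_lit 13447178279) (nat_lit 76) (nat_lit 70295737134) (nat_lit 76) (nat_lit 17525391087) (nat_lit 54) (nat_lit 4) (nat_lit 55) (nat_lit 5) (nat_lit 55) (nat_lit 4) (nat_lit 495) (nat_lit 420) (nat_lit 285)))) (XT.nd (nat_lit 156) (nat_lit 76) (nat_lit 0) (XT.nd (nat_lit 78) (nat_lit 76) (nat_lit 0) (XT.lf (nat_lit 0) (nat_lit 12685489175) (nat_lit 152) (nat_lit 26768562317)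 (nat_lit 76) (nat_lit 65241056114) (nat_lit 53) (nat_lit 5) (nat_lit 55) (nat_lit 5) (nat_lit 54) (nat_lit 4) (nat_lit 496) (nat_lit 420) (nat_lit 284)) (XT.lf (nat_lit 0) (nat_lit 38265749897) (nat_lit 76) (nat_lit 6145405669) (nat_lit 152) (nat_lit 63838067651) (nat_lit 52) (nat_lit 5) (nat_lit 53) (nat_lit 5) (nat_lit 54) (nat_lit 4) (nat_lit 497) (nat_lit 420) (nat_lit 283))) (XT.nd (nat_lit 78) (nat_lit 76) (nat_lit 0) (XT.lf (nat_lit 0) (nat_lit 78629756883) (nat_lit 152) (nat_lit 4943117884) (nat_lit 0) (nat_lit 28362837291) (nat_lit 52) (nat_lit 5) (nat_lit 54) (nat_lit 4) (nat_lit 52) (nat_lit 4) (nat_lit 498) (nat_lit 420) (nat_lit 282)) (XT.lf (nat_lit 0) (nat_lit 65331592980) (nat_lit 76) (nat_lit 50344434521) (nat_lit 76) (nat_lit 74660907) (nat_lit 51) (nat_lit 4) (nat_lit 52) (nat_lit 5) (nat_lit 52) (nat_lit 4) (nat_lit 499) (nat_lit 420) (nat_lit 281)))))) (XT.nd (nat_lit 624)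 (nat_lit 532) (nat_lit 0) (XT.nd (nat_lit 312) (nat_lit 304) (nat_lit 0) (XT.nd (nat_lit 156) (nat_lit 152) (nat_lit 0) (XT.nd (nat_lit 78) (nat_lit 0) (nat_lit 0) (XT.lf (nat_lit 0) (nat_lit 19614281327) (nat_lit 76) (nat_lit 14476827481) (nat_lit 152) (nat_lit 85618758788) (nat_lit 49) (nat_lit 5) (nat_lit 50) (nat_lit 5) (nat_lit 51) (nat_lit 4) (nat_lit 500) (nat_lit 420) (nat_lit 280)) (XT.lf (nat_lit 0) (nat_lit 71188495953) (nat_lit 152) (nat_lit 29309689725) (nat_lit 0) (nat_lit 23307466990) (nat_lit 49) (nat_lit 5) (nat_lit 51) (nat_lit 4) (nat_lit 49) (nat_lit 4) (nat_lit 501) (nat_lit 420) (nat_lit 279))) (XT.nd (nat_lit 78) (nat_lit 76) (nat_lit 0) (XT.lf (nat_lit 0) (nat_lit 46250923495) (nat_lit 76) (nat_lit 64845449728) (nat_lit 76) (nat_lit 16962072755) (nat_lit 48) (nat_lit 4) (nat_lit 49) (nat_lit 5) (nat_lit 49) (nat_lit 4) (nat_lit 502) (nat_lit 420) (nat_lit 278)) (XT.lf (nat_lit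 0) (nat_lit 20321117017) (nat_lit 152) (nat_lit 6227323287) (nat_lit 76) (nat_lit 105934419270) (nat_lit 47) (nat_lit 5) (nat_lit 49) (nat_lit 5) (nat_lit 48) (nat_lit 4) (nat_lit 503) (nat_lit 420) (nat_lit 277)))) (XT.nd (nat_lit 156) (nat_lit 152) (nat_lit 0) (XT.nd (nat_lit 78) (nat_lit 76) (nat_lit 0) (XT.lf (nat_lit 0) (nat_lit 60306836971) (nat_lit 152) (nat_lit 62037870392) (nat_lit 0) (nat_lit 14699462791) (nat_lit 46) (nat_lit 5) (nat_lit 48) (nat_lit 4) (nat_lit 46) (nat_lit 4) (nat_lit 504) (nat_lit 420) (nat_lit 276)) (XT.lf (nat_lit 0) (nat_lit 18848632946) (nat_lit 76) (nat_lit 84276282794) (nat_lit 76) (nat_lit 38666976901) (nat_lit 45) (nat_lit 4) (nat_lit 46) (nat_lit 5) (nat_lit 46) (nat_lit 4) (nat_lit 505) (nat_lit 420) (nat_lit 275))) (XT.nd (nat_lit 78) (nat_lit 76) (nat_lit 0) (XT.lf (nat_lit 0) (nat_lit 2329317250) (nat_lit 152) (nat_lit 40836045256) (nat_lit 76) (nat_lit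 103557406102) (nat_lit 44) (nat_lit 5) (nat_lit 46) (nat_lit 5) (nat_lit 45) (nat_lit 4) (nat_lit 506) (nat_lit 420) (nat_lit 274)) (XT.lf (nat_lit 0) (nat_lit 44816246598) (nat_lit 152) (nat_lit 105639841721) (nat_lit 0) (nat_lit 1375391605) (nat_lit 43) (nat_lit 5) (nat_lit 45) (nat_lit 4) (nat_lit 43) (nat_lit 4) (nat_lit 507) (nat_lit 420) (nat_lit 273))))) (XT.nd (nat_lit 312) (nat_lit 304) (nat_lit 0) (XT.nd (nat_lit 156) (nat_lit 152) (nat_lit 0) (XT.nd (nat_lit 78) (nat_lit 76) (nat_lit 0) (XT.lf (nat_lit 0) (nat_lit 90834628453) (nat_lit 152) (nat_lit 18898458833) (nat_lit 0) (nat_lit 47392184234) (nat_lit 43) (nat_lit 5) (nat_lit 45) (nat_lit 4) (nat_lit 43) (nat_lit 4) (nat_lit 508) (nat_lit 420) (nat_lit 272)) (XT.lf (nat_lit 0) (nat_lit 74559814993) (nat_lit 76) (nat_lit 65754927418) (nat_lit 76) (nat_lit 22310969651) (nat_lit 42) (nat_lit 4) (nat_lit 43) (nat_lit 5) (nat_lit 43) (nat_lit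 4) (nat_lit 509) (nat_lit 420) (nat_lit 271))) (XT.nd (nat_lit 78) (nat_lit 0) (nat_lit 0) (XT.lf (nat_lit 0) (nat_lit 4728846401) (nat_lit 76) (nat_lit 18770785619) (nat_lit 152) (nat_lit 144863117567) (nat_lit 40) (nat_lit 5) (nat_lit 41) (nat_lit 5) (nat_lit 42) (nat_lit 4) (nat_lit 510) (nat_lit 420) (nat_lit 270)) (XT.lf (nat_lit 0) (nat_lit 72840756808) (nat_lit 152) (nat_lit 69965226479) (nat_lit 0) (nat_lit 31462878641) (nat_lit 40) (nat_lit 5) (nat_lit 42) (nat_lit 4) (nat_lit 40) (nat_lit 4) (nat_lit 511) (nat_lit 420) (nat_lit 269)))) (XT.nd (nat_lit 156) (nat_lit 228) (nat_lit 0) (XT.nd (nat_lit 78) (nat_lit 0) (nat_lit 0) (XT.lf (nat_lit 0) (nat_lit 29001131326) (nat_lit 76) (nat_lit 96405201104) (nat_lit 76) (nat_lit 55026077737) (nat_lit 39) (nat_lit 4) (nat_lit 40) (nat_lit 5) (nat_lit 40) (nat_lit 4) (nat_lit 512) (nat_lit 420) (nat_lit 268)) (XT.lf (nat_lit 0) (nat_lit 135338690282)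 (nat_lit 76) (nat_lit 46443331536) (nat_lit 76) (nat_lit 5063022264) (nat_lit 39) (nat_lit 4) (nat_lit 40) (nat_lit 5) (nat_lit 40) (nat_lit 4) (nat_lit 513) (nat_lit 420) (nat_lit 267))) (XT.nd (nat_lit 78) (nat_lit 76) (nat_lit 0) (XT.lf (nat_lit 0) (nat_lit 46847630798) (nat_lit 152) (nat_lit 139208617048) (nat_lit 0) (nat_lit 7436736793) (nat_lit 37) (nat_lit 5) (nat_lit 39) (nat_lit 4) (nat_lit 37) (nat_lit 4) (nat_lit 514) (nat_lit 420) (nat_lit 266)) (XT.nd (nat_lit 78) (nat_lit 76) (nat_lit 0) (XT.lf (nat_lit 0) (nat_lit 102828658111) (nat_lit 152) (nat_lit 34141524811) (nat_lit 0) (nat_lit 63416739677) (nat_lit 37) (nat_lit 5) (nat_lit 39) (nat_lit 4) (nat_lit 37) (nat_lit 4) (nat_lit 515) (nat_lit 420) (nat_lit 265)) (XT.lf (nat_lit 0) (nat_lit 78691877380) (nat_lit 76) (nat_lit 84142642506) (nat_lit 76) (nat_lit 44729748426) (nat_lit 36) (nat_lit 4) (nat_lit 37) (nat_lit 5) (nat_lit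 37) (nat_lit 4) (nat_lit 516) (nat_lit 420) (nat_lit 264))))))))
noncomputable def xc278 : XT := (XT.nd (nat_lit 1248) (nat_lit 760) (nat_lit 0) (XT.nd (nat_lit 624) (nat_lit 456) (nat_lit 0) (XT.nd (nat_lit 312) (nat_lit 228) (nat_lit 0) (XT.nd (nat_lit 156) (nat_lit 76) (nat_lit 0) (XT.nd (nat_lit 78) (nat_lit 76) (nat_lit 0) (XT.lf (nat_lit 0) (nat_lit 10981306070) (nat_lit 152) (nat_lit 16902145823) (nat_lit 76) (nat_lit 187179401906) (nat_lit 35) (nat_lit 5) (nat_lit 37) (nat_lit 5) (nat_lit 36) (nat_lit 4) (nat_lit 517) (nat_lit 420) (nat_lit 263)) (XT.lf (nat_lit 0) (nat_lit 70109102553) (nat_lit 152) (nat_lit 120112596970) (nat_lit 0) (nat_lit 32571285212) (nat_lit 34) (nat_lit 5) (nat_lit 36) (nat_lit 4) (nat_lit 34) (nat_lit 4) (nat_lit 518) (nat_lit 420) (nat_lit 262))) (XT.nd (nat_lit 78) (nat_lit 76) (nat_lit 0) (XT.lf (nat_lit 0) (nat_lit 132938653979) (nat_lit 152) (nat_lit 2533666019)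 (nat_lit 0) (nat_lit 95400033971) (nat_lit 34) (nat_lit 5) (nat_lit 36) (nat_lit 4) (nat_lit 34) (nat_lit 4) (nat_lit 519) (nat_lit 420) (nat_lit 261)) (XT.lf (nat_lit 0) (nat_lit 124917189131) (nat_lit 76) (nat_lit 75940249604) (nat_lit 76) (nat_lit 38400865151) (nat_lit 33) (nat_lit 4) (nat_lit 34) (nat_lit 5) (nat_lit 34) (nat_lit 4) (nat_lit 520) (nat_lit 420) (nat_lit 260)))) (XT.nd (nat_lit 156) (nat_lit 76) (nat_lit 0) (XT.nd (nat_lit 78) (nat_lit 0) (nat_lit 0) (XT.lf (nat_lit 0) (nat_lit 10728255351) (nat_lit 76) (nat_lit 12817289939) (nat_lit 152) (nat_lit 224488757867) (nat_lit 31) (nat_lit 5) (nat_lit 32) (nat_lit 5) (nat_lit 33) (nat_lit 4) (nat_lit 521) (nat_lit 420) (nat_lit 259)) (XT.lf (nat_lit 0) (nat_lit 90099062756) (nat_lit 152) (nat_lit 112632633847) (nat_lit 0) (nat_lit 54345914308) (nat_lit 31) (nat_lit 5) (nat_lit 33) (nat_lit 4) (nat_lit 31) (nat_lit 4) (nat_lit 522) (nat_lit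 420) (nat_lit 258))) (XT.nd (nat_lit 78) (nat_lit 0) (nat_lit 0) (XT.lf (nat_lit 0) (nat_lit 18656546804) (nat_lit 76) (nat_lit 141822682964) (nat_lit 76) (nat_lit 106068905606) (nat_lit 30) (nat_lit 4) (nat_lit 31) (nat_lit 5) (nat_lit 31) (nat_lit 4) (nat_lit 523) (nat_lit 420) (nat_lit 257)) (XT.lf (nat_lit 0) (nat_lit 160415705898) (nat_lit 76) (nat_lit 75867800708) (nat_lit 76) (nat_lit 40113424387) (nat_lit 30) (nat_lit 4) (nat_lit 31) (nat_lit 5) (nat_lit 31) (nat_lit 4) (nat_lit 524) (nat_lit 420) (nat_lit 256))))) (XT.nd (nat_lit 312) (nat_lit 228) (nat_lit 0) (XT.nd (nat_lit 156) (nat_lit 76) (nat_lit 0) (XT.nd (nat_lit 78) (nat_lit 0) (nat_lit 0) (XT.lf (nat_lit 0) (nat_lit 22794593846) (nat_lit 76) (nat_lit 5766157669) (nat_lit 152) (nat_lit 258136988304) (nat_lit 28) (nat_lit 5) (nat_lit 29) (nat_lit 5) (nat_lit 30) (nat_lit 4) (nat_lit 525) (nat_lit 420) (nat_lit 255)) (XT.lf (nat_lit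 0) (nat_lit 102373833121) (nat_lit 152) (nat_lit 126633227098) (nat_lit 0) (nat_lit 68320985466) (nat_lit 28) (nat_lit 5) (nat_lit 30) (nat_lit 4) (nat_lit 28) (nat_lit 4) (nat_lit 526) (nat_lit 420) (nat_lit 254))) (XT.nd (nat_lit 78) (nat_lit 0) (nat_lit 0) (XT.lf (nat_lit 0) (nat_lit 17976566337) (nat_lit 76) (nat_lit 162273995638) (nat_lit 76) (nat_lit 128220655215) (nat_lit 27) (nat_lit 4) (nat_lit 28) (nat_lit 5) (nat_lit 28) (nat_lit 4) (nat_lit 527) (nat_lit 420) (nat_lit 253)) (XT.lf (nat_lit 0) (nat_lit 174208884428) (nat_lit 76) (nat_lit 89954675471) (nat_lit 76) (nat_lit 55900865745) (nat_lit 27) (nat_lit 4) (nat_lit 28) (nat_lit 5) (nat_lit 28) (nat_lit 4) (nat_lit 528) (nat_lit 420) (nat_lit 252)))) (XT.nd (nat_lit 156) (nat_lit 76) (nat_lit 0) (XT.nd (nat_lit 78) (nat_lit 0) (nat_lit 0) (XT.lf (nat_lit 0) (nat_lit 5886895031) (nat_lit 76) (nat_lit 13596593608) (nat_lit 152) (nat_lit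 312733674938) (nat_lit 25) (nat_lit 5) (nat_lit 26) (nat_lit 5) (nat_lit 27) (nat_lit 4) (nat_lit 529) (nat_lit 420) (nat_lit 251)) (XT.lf (nat_lit 0) (nat_lit 100306452416) (nat_lit 152) (nat_lit 176574442644) (nat_lit 0) (nat_lit 67873421605) (nat_lit 25) (nat_lit 5) (nat_lit 27) (nat_lit 4) (nat_lit 25) (nat_lit 4) (nat_lit 530) (nat_lit 420) (nat_lit 250))) (XT.nd (nat_lit 78) (nat_lit 76) (nat_lit 0) (XT.lf (nat_lit 0) (nat_lit 185391467218) (nat_lit 152) (nat_lit 19557764742) (nat_lit 0) (nat_lit 152958050310) (nat_lit 25) (nat_lit 5) (nat_lit 27) (nat_lit 4) (nat_lit 25) (nat_lit 4) (nat_lit 531) (nat_lit 420) (nat_lit 249)) (XT.lf (nat_lit 0) (nat_lit 150110364443) (nat_lit 76) (nat_lit 126962114512) (nat_lit 76) (nat_lit 94528329893) (nat_lit 24) (nat_lit 4) (nat_lit 25) (nat_lit 5) (nat_lit 25) (nat_lit 4) (nat_lit 532) (nat_lit 420) (nat_lit 248)))))) (XT.nd (nat_lit 624) (nat_lit 380)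 (nat_lit 0) (XT.nd (nat_lit 312) (nat_lit 152) (nat_lit 0) (XT.nd (nat_lit 156) (nat_lit 76) (nat_lit 0) (XT.nd (nat_lit 78) (nat_lit 152) (nat_lit 0) (XT.lf (nat_lit 0) (nat_lit 328937111911) (nat_lit 76) (nat_lit 44729783481) (nat_lit 76) (nat_lit 12295648661) (nat_lit 24) (nat_lit 4) (nat_lit 25) (nat_lit 5) (nat_lit 25) (nat_lit 4) (nat_lit 533) (nat_lit 420) (nat_lit 247)) (XT.lf (nat_lit 0) (nat_lit 74222576963) (nat_lit 152) (nat_lit 283302180082) (nat_lit 0) (nat_lit 43332607110) (nat_lit 22) (nat_lit 5) (nat_lit 24) (nat_lit 4) (nat_lit 22) (nat_lit 4) (nat_lit 534) (nat_lit 420) (nat_lit 246))) (XT.nd (nat_lit 78) (nat_lit 76) (nat_lit 0) (XT.lf (nat_lit 0) (nat_lit 166366554562) (nat_lit 152) (nat_lit 114558357356) (nat_lit 0) (nat_lit 135476282192) (nat_lit 22) (nat_lit 5) (nat_lit 24) (nat_lit 4) (nat_lit 22) (nat_lit 4) (nat_lit 535) (nat_lit 420) (nat_lit 245)) (XT.lf (nat_lit 0)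 (nat_lit 64689633609) (nat_lit 76) (nat_lit 199436364541) (nat_lit 76) (nat_lit 168545804061) (nat_lit 21) (nat_lit 4) (nat_lit 22) (nat_lit 5) (nat_lit 22) (nat_lit 4) (nat_lit 536) (nat_lit 420) (nat_lit 244)))) (XT.nd (nat_lit 156) (nat_lit 76) (nat_lit 0) (XT.nd (nat_lit 78) (nat_lit 76) (nat_lit 0) (XT.lf (nat_lit 0) (nat_lit 256873792818) (nat_lit 76) (nat_lit 111838031136) (nat_lit 76) (nat_lit 80947196263) (nat_lit 21) (nat_lit 4) (nat_lit 22) (nat_lit 5) (nat_lit 22) (nat_lit 4) (nat_lit 537) (nat_lit 420) (nat_lit 243)) (XT.lf (nat_lit 0) (nat_lit 10676633037) (nat_lit 152) (nat_lit 9003998471) (nat_lit 76) (nat_lit 447806437963) (nat_lit 20) (nat_lit 5) (nat_lit 22) (nat_lit 5) (nat_lit 21) (nat_lit 4) (nat_lit 538) (nat_lit 420) (nat_lit 242))) (XT.nd (nat_lit 78) (nat_lit 0) (nat_lit 0) (XT.lf (nat_lit 0) (nat_lit 108379009053) (nat_lit 152) (nat_lit 298591595977) (nat_lit 0) (nat_lit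 78958680406) (nat_lit 19) (nat_lit 5) (nat_lit 21) (nat_lit 4) (nat_lit 19) (nat_lit 4) (nat_lit 539) (nat_lit 420) (nat_lit 241)) (XT.lf (nat_lit 0) (nat_lit 211442565712) (nat_lit 152) (nat_lit 111805232076) (nat_lit 0) (nat_lit 182022011323) (nat_lit 19) (nat_lit 5) (nat_lit 21) (nat_lit 4) (nat_lit 19) (nat_lit 4) (nat_lit 540) (nat_lit 420) (nat_lit 240))))) (XT.nd (nat_lit 312) (nat_lit 152) (nat_lit 0) (XT.nd (nat_lit 156) (nat_lit 152) (nat_lit 0) (XT.nd (nat_lit 78) (nat_lit 0) (nat_lit 0) (XT.lf (nat_lit 0) (nat_lit 87105344632) (nat_lit 76) (nat_lit 233912429999) (nat_lit 76) (nat_lit 204491660617) (nat_lit 18) (nat_lit 4) (nat_lit 19) (nat_lit 5) (nat_lit 19) (nat_lit 4) (nat_lit 541) (nat_lit 420) (nat_lit 239)) (XT.lf (nat_lit 0) (nat_lit 299840103688) (nat_lit 76) (nat_lit 138123656176) (nat_lit 76) (nat_lit 108702682039) (nat_lit 18) (nat_lit 4) (nat_lit 19) (nat_lit 5) (nat_lit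 19) (nat_lit 4) (nat_lit 542) (nat_lit 420) (nat_lit 238))) (XT.nd (nat_lit 78) (nat_lit 152) (nat_lit 0) (XT.lf (nat_lit 0) (nat_lit 523208770521) (nat_lit 76) (nat_lit 37546883514) (nat_lit 76) (nat_lit 8125714372) (nat_lit 18) (nat_lit 4) (nat_lit 19) (nat_lit 5) (nat_lit 19) (nat_lit 4) (nat_lit 543) (nat_lit 420) (nat_lit 237)) (XT.lf (nat_lit 0) (nat_lit 98135055919) (nat_lit 152) (nat_lit 423692424172) (nat_lit 0) (nat_lit 70114717956) (nat_lit 16) (nat_lit 5) (nat_lit 18) (nat_lit 4) (nat_lit 16) (nat_lit 4) (nat_lit 544) (nat_lit 420) (nat_lit 236)))) (XT.nd (nat_lit 156) (nat_lit 152) (nat_lit 0) (XT.nd (nat_lit 78) (nat_lit 0) (nat_lit 0) (XT.lf (nat_lit 0) (nat_lit 210836132544) (nat_lit 152) (nat_lit 222427632822) (nat_lit 0) (nat_lit 182815626128) (nat_lit 16) (nat_lit 5) (nat_lit 18) (nat_lit 4) (nat_lit 16) (nat_lit 4) (nat_lit 545) (nat_lit 420) (nat_lit 235)) (XT.lf (nat_lit 0)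 (nat_lit 329170981814) (nat_lit 152) (nat_lit 11102211893) (nat_lit 0) (nat_lit 301150314967) (nat_lit 16) (nat_lit 5) (nat_lit 18) (nat_lit 4) (nat_lit 16) (nat_lit 4) (nat_lit 546) (nat_lit 420) (nat_lit 234))) (XT.nd (nat_lit 78) (nat_lit 76) (nat_lit 0) (XT.lf (nat_lit 0) (nat_lit 217756564355) (nat_lit 76) (nat_lit 239064579248) (nat_lit 76) (nat_lit 211043759609) (nat_lit 15) (nat_lit 4) (nat_lit 16) (nat_lit 5) (nat_lit 16) (nat_lit 4) (nat_lit 547) (nat_lit 420) (nat_lit 233)) (XT.nd (nat_lit 78) (nat_lit 76) (nat_lit 0) (XT.lf (nat_lit 0) (nat_lit 458441277533) (nat_lit 76) (nat_lit 132599357023) (nat_lit 76) (nat_lit 104578391868) (nat_lit 15) (nat_lit 4) (nat_lit 16) (nat_lit 5) (nat_lit 16) (nat_lit 4) (nat_lit 548) (nat_lit 420) (nat_lit 232)) (XT.lf (nat_lit 0) (nat_lit 6978309572) (nat_lit 152) (nat_lit 13715569118) (nat_lit 76) (nat_lit 704061406595) (nat_lit 14) (nat_lit 5) (nat_lit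 16) (nat_lit 5) (nat_lit 15) (nat_lit 4) (nat_lit 549) (nat_lit 420) (nat_lit 231))))))))
noncomputable def xc279 : XT := (XT.nd (nat_lit 53352) (nat_lit 0) (nat_lit 7904) (XT.nd (nat_lit 52728) (nat_lit 0) (nat_lit 11096) (XT.nd (nat_lit 52416) (nat_lit 0) (nat_lit 12312) (XT.nd (nat_lit 156) (nat_lit 76) (nat_lit 0) (XT.nd (nat_lit 78) (nat_lit 0) (nat_lit 0) (XT.lf (nat_lit 0) (nat_lit 125730226295) (nat_lit 152) (nat_lit 530232480679) (nat_lit 0) (nat_lit 99043335125) (nat_lit 13) (nat_lit 5) (nat_lit 15) (nat_lit 4) (nat_lit 13) (nat_lit 4) (nat_lit 550) (nat_lit 420) (nat_lit 230)) (XT.lf (nat_lit 0) (nat_lit 250993964329) (nat_lit 152) (nat_lit 311439707710) (nat_lit 0) (nat_lit 224306953443) (nat_lit 13) (nat_lit 5) (nat_lit 15) (nat_lit 4) (nat_lit 13) (nat_lit 4) (nat_lit 551) (nat_lit 420) (nat_lit 229))) (XT.nd (nat_lit 78) (nat_lit 76) (nat_lit 0) (XT.lf (nat_lit 0) (nat_lit 382519835833)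 (nat_lit 152) (nat_lit 81709443942) (nat_lit 0) (nat_lit 355832710932) (nat_lit 13) (nat_lit 5) (nat_lit 15) (nat_lit 4) (nat_lit 13) (nat_lit 4) (nat_lit 552) (nat_lit 420) (nat_lit 228)) (XT.lf (nat_lit 0) (nat_lit 164779252592) (nat_lit 76) (nat_lit 358414410978) (nat_lit 76) (nat_lit 331727177491) (nat_lit 12) (nat_lit 4) (nat_lit 13) (nat_lit 5) (nat_lit 13) (nat_lit 4) (nat_lit 553) (nat_lit 420) (nat_lit 227)))) (XT.nd (nat_lit 156) (nat_lit 0) (nat_lit 0) (XT.nd (nat_lit 78) (nat_lit 0) (nat_lit 0) (XT.lf (nat_lit 0) (nat_lit 2416822143) (nat_lit 0) (nat_lit 2416822143) (nat_lit 684) (nat_lit 992981348) (nat_lit 174) (nat_lit 5) (nat_lit 174) (nat_lit 3) (nat_lit 183) (nat_lit 3) (nat_lit 421) (nat_lit 421) (nat_lit 358)) (XT.lf (nat_lit 0) (nat_lit 10412170062) (nat_lit 684) (nat_lit 1015947095) (nat_lit 760) (nat_lit 491264633) (nat_lit 174) (nat_lit 5) (nat_lit 183) (nat_lit 3) (nat_lit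 184) (nat_lit 5) (nat_lit 422) (nat_lit 421) (nat_lit 357))) (XT.nd (nat_lit 78) (nat_lit 0) (nat_lit 0) (XT.lf (nat_lit 76) (nat_lit 5145661821) (nat_lit 0) (nat_lit 6176755740) (nat_lit 760) (nat_lit 869997791) (nat_lit 175) (nat_lit 5) (nat_lit 174) (nat_lit 5) (nat_lit 184) (nat_lit 5) (nat_lit 423) (nat_lit 421) (nat_lit 356)) (XT.lf (nat_lit 76) (nat_lit 11633220640) (nat_lit 0) (nat_lit 631932243) (nat_lit 760) (nat_lit 214601423) (nat_lit 175) (nat_lit 5) (nat_lit 174) (nat_lit 5) (nat_lit 184) (nat_lit 5) (nat_lit 424) (nat_lit 421) (nat_lit 355))))) (XT.nd (nat_lit 312) (nat_lit 532) (nat_lit 0) (XT.nd (nat_lit 156) (nat_lit 0) (nat_lit 76) (XT.nd (nat_lit 78) (nat_lit 0) (nat_lit 0) (XT.lf (nat_lit 0) (nat_lit 602918309) (nat_lit 760) (nat_lit 7035633061) (nat_lit 836) (nat_lit 5135315881) (nat_lit 165) (nat_lit 5) (nat_lit 175) (nat_lit 5) (nat_lit 176) (nat_lit 5) (nat_lit 425) (nat_lit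 421) (nat_lit 354)) (XT.lf (nat_lit 0) (nat_lit 1451062152) (nat_lit 760) (nat_lit 433290730) (nat_lit 836) (nat_lit 11198311201) (nat_lit 165) (nat_lit 5) (nat_lit 175) (nat_lit 5) (nat_lit 176) (nat_lit 5) (nat_lit 426) (nat_lit 421) (nat_lit 353))) (XT.nd (nat_lit 78) (nat_lit 0) (nat_lit 0) (XT.lf (nat_lit 0) (nat_lit 2486270736) (nat_lit 760) (nat_lit 6774243347) (nat_lit 836) (nat_lit 4139155840) (nat_lit 166) (nat_lit 5) (nat_lit 176) (nat_lit 5) (nat_lit 177) (nat_lit 5) (nat_lit 427) (nat_lit 421) (nat_lit 352)) (XT.lf (nat_lit 76) (nat_lit 278814122) (nat_lit 0) (nat_lit 3311606780) (nat_lit 836) (nat_lit 10141248046) (nat_lit 167) (nat_lit 5) (nat_lit 166) (nat_lit 5) (nat_lit 177) (nat_lit 5) (nat_lit 428) (nat_lit 421) (nat_lit 351)))) (XT.nd (nat_lit 156) (nat_lit 684) (nat_lit 0) (XT.nd (nat_lit 78) (nat_lit 0) (nat_lit 0) (XT.lf (nat_lit 0) (nat_lit 4887696517) (nat_lit 760) (nat_lit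 6222598522) (nat_lit 836) (nat_lit 2963078844) (nat_lit 167) (nat_lit 5) (nat_lit 177) (nat_lit 5) (nat_lit 178) (nat_lit 5) (nat_lit 429) (nat_lit 421) (nat_lit 350)) (XT.lf (nat_lit 76) (nat_lit 1338604322) (nat_lit 0) (nat_lit 4963079119) (nat_lit 836) (nat_lit 8127890016) (nat_lit 168) (nat_lit 5) (nat_lit 167) (nat_lit 5) (nat_lit 178) (nat_lit 5) (nat_lit 430) (nat_lit 421) (nat_lit 349))) (XT.nd (nat_lit 78) (nat_lit 760) (nat_lit 0) (XT.lf (nat_lit 0) (nat_lit 7894301648) (nat_lit 760) (nat_lit 5349424706) (nat_lit 76) (nat_lit 1554461741) (nat_lit 168) (nat_lit 5) (nat_lit 178) (nat_lit 5) (nat_lit 169) (nat_lit 5) (nat_lit 431) (nat_lit 421) (nat_lit 348)) (XT.lf (nat_lit 0) (nat_lit 2767361490) (nat_lit 760) (nat_lit 6902362426) (nat_lit 836) (nat_lit 5510352494) (nat_lit 158) (nat_lit 5) (nat_lit 168) (nat_lit 5) (nat_lit 169) (nat_lit 5) (nat_lit 432) (nat_lit 421) (nat_lit 347))))))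 (XT.nd (nat_lit 624) (nat_lit 1596) (nat_lit 0) (XT.nd (nat_lit 312) (nat_lit 684) (nat_lit 0) (XT.nd (nat_lit 156) (nat_lit 456) (nat_lit 0) (XT.nd (nat_lit 78) (nat_lit 456) (nat_lit 0) (XT.lf (nat_lit 0) (nat_lit 11456967791) (nat_lit 760) (nat_lit 146875776) (nat_lit 836) (nat_lit 3973720788) (nat_lit 158) (nat_lit 5) (nat_lit 168) (nat_lit 5) (nat_lit 169) (nat_lit 5) (nat_lit 433) (nat_lit 421) (nat_lit 346)) (XT.lf (nat_lit 0) (nat_lit 4606242505) (nat_lit 456) (nat_lit 9189139686) (nat_lit 532) (nat_lit 2191510311) (nat_lit 152) (nat_lit 5) (nat_lit 158) (nat_lit 5) (nat_lit 159) (nat_lit 5) (nat_lit 434) (nat_lit 421) (nat_lit 345))) (XT.nd (nat_lit 78) (nat_lit 456) (nat_lit 0) (XT.lf (nat_lit 0) (nat_lit 13891436950) (nat_lit 456) (nat_lit 2258204421) (nat_lit 532) (nat_lit 264389889) (nat_lit 152) (nat_lit 5) (nat_lit 158) (nat_lit 5) (nat_lit 159) (nat_lit 5) (nat_lit 435) (nat_lit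 421) (nat_lit 344)) (XT.lf (nat_lit 0) (nat_lit 1873570169) (nat_lit 456) (nat_lit 9982015286) (nat_lit 76) (nat_lit 4997030275) (nat_lit 146) (nat_lit 5) (nat_lit 152) (nat_lit 5) (nat_lit 147) (nat_lit 5) (nat_lit 436) (nat_lit 421) (nat_lit 343)))) (XT.nd (nat_lit 156) (nat_lit 304) (nat_lit 0) (XT.nd (nat_lit 78) (nat_lit 380) (nat_lit 0) (XT.lf (nat_lit 0) (nat_lit 4172174598) (nat_lit 456) (nat_lit 550890863) (nat_lit 76) (nat_lit 12586716866) (nat_lit 146) (nat_lit 5) (nat_lit 152) (nat_lit 5) (nat_lit 147) (nat_lit 5) (nat_lit 437) (nat_lit 421) (nat_lit 342)) (XT.lf (nat_lit 0) (nat_lit 6764931198) (nat_lit 456) (nat_lit 8186337791) (nat_lit 76) (nat_lit 2829578306) (nat_lit 141) (nat_lit 5) (nat_lit 147) (nat_lit 5) (nat_lit 142) (nat_lit 5) (nat_lit 438) (nat_lit 421) (nat_lit 341))) (XT.nd (nat_lit 78) (nat_lit 0) (nat_lit 0) (XT.lf (nat_lit 0) (nat_lit 1957900377) (nat_lit 304) (nat_lit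 7630453558) (nat_lit 380) (nat_lit 8682061248) (nat_lit 137) (nat_lit 5) (nat_lit 141) (nat_lit 5) (nat_lit 142) (nat_lit 5) (nat_lit 439) (nat_lit 421) (nat_lit 340)) (XT.lf (nat_lit 0) (nat_lit 12678755209) (nat_lit 380) (nat_lit 5906077527) (nat_lit 76) (nat_lit 193339391) (nat_lit 137) (nat_lit 5) (nat_lit 142) (nat_lit 5) (nat_lit 138) (nat_lit 5) (nat_lit 440) (nat_lit 421) (nat_lit 339))))) (XT.nd (nat_lit 312) (nat_lit 608) (nat_lit 0) (XT.nd (nat_lit 156) (nat_lit 684) (nat_lit 0) (XT.nd (nat_lit 78) (nat_lit 0) (nat_lit 0) (XT.lf (nat_lit 0) (nat_lit 5038812072) (nat_lit 304) (nat_lit 11073399498) (nat_lit 380) (nat_lit 3189679582) (nat_lit 133) (nat_lit 5) (nat_lit 137) (nat_lit 5) (nat_lit 138) (nat_lit 5) (nat_lit 441) (nat_lit 421) (nat_lit 338)) (XT.lf (nat_lit 0) (nat_lit 16718229420) (nat_lit 304) (nat_lit 3084356902) (nat_lit 380) (nat_lit 44948466) (nat_lit 133) (nat_lit 5) (nat_lit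 137) (nat_lit 5) (nat_lit 138) (nat_lit 5) (nat_lit 442) (nat_lit 421) (nat_lit 337))) (XT.nd (nat_lit 78) (nat_lit 304) (nat_lit 0) (XT.lf (nat_lit 0) (nat_lit 3361295652) (nat_lit 380) (nat_lit 11723898956) (nat_lit 76) (nat_lit 5322298217) (nat_lit 128) (nat_lit 5) (nat_lit 133) (nat_lit 5) (nat_lit 129) (nat_lit 5) (nat_lit 443) (nat_lit 421) (nat_lit 336)) (XT.lf (nat_lit 0) (nat_lit 137457152) (nat_lit 304) (nat_lit 6891517822) (nat_lit 380) (nat_lit 13961806078) (nat_lit 124) (nat_lit 5) (nat_lit 128) (nat_lit 5) (nat_lit 129) (nat_lit 5) (nat_lit 444) (nat_lit 421) (nat_lit 335)))) (XT.nd (nat_lit 156) (nat_lit 380) (nat_lit 0) (XT.nd (nat_lit 78) (nat_lit 228) (nat_lit 0) (XT.lf (nat_lit 0) (nat_lit 11094958828) (nat_lit 380) (nat_lit 8642465105) (nat_lit 76) (nat_lit 1855064502) (nat_lit 124) (nat_lit 5) (nat_lit 129) (nat_lit 5) (nat_lit 125) (nat_lit 5) (nat_lit 445) (nat_lit 421) (nat_lit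 334)) (XT.lf (nat_lit 0) (nat_lit 4182605969) (nat_lit 228) (nat_lit 11346951027) (nat_lit 304) (nat_lit 6686459169) (nat_lit 121) (nat_lit 5) (nat_lit 124) (nat_lit 5) (nat_lit 125) (nat_lit 5) (nat_lit 446) (nat_lit 421) (nat_lit 333))) (XT.nd (nat_lit 78) (nat_lit 380) (nat_lit 0) (XT.lf (nat_lit 0) (nat_lit 17932030816) (nat_lit 228) (nat_lit 2387608497) (nat_lit 304) (nat_lit 2544393955) (nat_lit 121) (nat_lit 5) (nat_lit 124) (nat_lit 5) (nat_lit 125) (nat_lit 5) (nat_lit 447) (nat_lit 421) (nat_lit 332)) (XT.nd (nat_lit 78) (nat_lit 0) (nat_lit 0) (XT.lf (nat_lit 0) (nat_lit 1988725152) (nat_lit 380) (nat_lit 14578833294) (nat_lit 76) (nat_lit 6963398802) (nat_lit 116) (nat_lit 5) (nat_lit 121) (nat_lit 5) (nat_lit 117) (nat_lit 5) (nat_lit 448) (nat_lit 421) (nat_lit 331)) (XT.lf (nat_lit 0) (nat_lit 6775079518) (nat_lit 380) (nat_lit 624391282) (nat_lit 76) (nat_lit 16824067280) (nat_lit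 116) (nat_lit 5) (nat_lit 121) (nat_lit 5) (nat_lit 117) (nat_lit 5) (nat_lit 449) (nat_lit 421) (nat_lit 330))))))))
noncomputable def xc280 : XT := (XT.nd (nat_lit 1248) (nat_lit 1520) (nat_lit 0) (XT.nd (nat_lit 624) (nat_lit 988) (nat_lit 0) (XT.nd (nat_lit 312) (nat_lit 456) (nat_lit 0) (XT.nd (nat_lit 156) (nat_lit 228) (nat_lit 0) (XT.nd (nat_lit 78) (nat_lit 228) (nat_lit 0) (XT.lf (nat_lit 0) (nat_lit 12053770969) (nat_lit 304) (nat_lit 10503358091) (nat_lit 76) (nat_lit 2380968501) (nat_lit 113) (nat_lit 5) (nat_lit 117) (nat_lit 5) (nat_lit 114) (nat_lit 5) (nat_lit 450) (nat_lit 421) (nat_lit 329)) (XT.lf (nat_lit 0) (nat_lit 4589848855) (nat_lit 228) (nat_lit 13199102712) (nat_lit 304) (nat_lit 7889806270) (nat_lit 110) (nat_lit 5) (nat_lit 113) (nat_lit 5) (nat_lit 114) (nat_lit 5) (nat_lit 451) (nat_lit 421) (nat_lit 328))) (XT.nd (nat_lit 78) (nat_lit 228) (nat_lit 0) (XT.lf (nat_lit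 0) (nat_lit 20786404007) (nat_lit 228) (nat_lit 3191492287) (nat_lit 304) (nat_lit 2470205097) (nat_lit 110) (nat_lit 5) (nat_lit 113) (nat_lit 5) (nat_lit 114) (nat_lit 5) (nat_lit 452) (nat_lit 421) (nat_lit 327)) (XT.lf (nat_lit 0) (nat_lit 3393410449) (nat_lit 228) (nat_lit 16545963736) (nat_lit 76) (nat_lit 7300219135) (nat_lit 107) (nat_lit 5) (nat_lit 110) (nat_lit 5) (nat_lit 108) (nat_lit 5) (nat_lit 453) (nat_lit 421) (nat_lit 326)))) (XT.nd (nat_lit 156) (nat_lit 228) (nat_lit 0) (XT.nd (nat_lit 78) (nat_lit 228) (nat_lit 0) (XT.lf (nat_lit 0) (nat_lit 9606623594) (nat_lit 228) (nat_lit 112705456) (nat_lit 76) (nat_lit 18342334891) (nat_lit 107) (nat_lit 5) (nat_lit 110) (nat_lit 5) (nat_lit 108) (nat_lit 5) (nat_lit 454) (nat_lit 421) (nat_lit 325)) (XT.lf (nat_lit 0) (nat_lit 16417136614) (nat_lit 304) (nat_lit 11238231772) (nat_lit 76) (nat_lit 1255138178) (nat_lit 104) (nat_lit 5)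 (nat_lit 108) (nat_lit 5) (nat_lit 105) (nat_lit 5) (nat_lit 455) (nat_lit 421) (nat_lit 324))) (XT.nd (nat_lit 78) (nat_lit 76) (nat_lit 0) (XT.lf (nat_lit 0) (nat_lit 6584969493) (nat_lit 152) (nat_lit 17237597017) (nat_lit 228) (nat_lit 5966505655) (nat_lit 102) (nat_lit 5) (nat_lit 104) (nat_lit 5) (nat_lit 105) (nat_lit 5) (nat_lit 456) (nat_lit 421) (nat_lit 323)) (XT.lf (nat_lit 0) (nat_lit 1042148287) (nat_lit 228) (nat_lit 5044738176) (nat_lit 76) (nat_lit 24614796436) (nat_lit 101) (nat_lit 5) (nat_lit 104) (nat_lit 5) (nat_lit 102) (nat_lit 5) (nat_lit 457) (nat_lit 421) (nat_lit 322))))) (XT.nd (nat_lit 312) (nat_lit 380) (nat_lit 0) (XT.nd (nat_lit 156) (nat_lit 228) (nat_lit 0) (XT.nd (nat_lit 78) (nat_lit 152) (nat_lit 0) (XT.lf (nat_lit 0) (nat_lit 8508883517) (nat_lit 304) (nat_lit 17367013917) (nat_lit 76) (nat_lit 5763728397) (nat_lit 98) (nat_lit 5) (nat_lit 102) (nat_lit 5)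 (nat_lit 99) (nat_lit 5) (nat_lit 458) (nat_lit 421) (nat_lit 321)) (XT.lf (nat_lit 0) (nat_lit 2060926898) (nat_lit 152) (nat_lit 14497796161) (nat_lit 228) (nat_lit 16055254809) (nat_lit 96) (nat_lit 5) (nat_lit 98) (nat_lit 5) (nat_lit 99) (nat_lit 5) (nat_lit 459) (nat_lit 421) (nat_lit 320))) (XT.nd (nat_lit 78) (nat_lit 228) (nat_lit 0) (XT.lf (nat_lit 0) (nat_lit 23048816881) (nat_lit 152) (nat_lit 2247531817) (nat_lit 228) (nat_lit 8326434424) (nat_lit 96) (nat_lit 5) (nat_lit 98) (nat_lit 5) (nat_lit 99) (nat_lit 5) (nat_lit 460) (nat_lit 421) (nat_lit 319)) (XT.lf (nat_lit 0) (nat_lit 123021267) (nat_lit 228) (nat_lit 24105548903) (nat_lit 76) (nat_lit 10437251836) (nat_lit 93) (nat_lit 5) (nat_lit 96) (nat_lit 5) (nat_lit 94) (nat_lit 5) (nat_lit 461) (nat_lit 421) (nat_lit 318)))) (XT.nd (nat_lit 156) (nat_lit 228) (nat_lit 0) (XT.nd (nat_lit 78) (nat_lit 152) (nat_lit 0) (XT.lf (nat_lit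 0) (nat_lit 8925547509) (nat_lit 228) (nat_lit 2824106293) (nat_lit 76) (nat_lit 23994013337) (nat_lit 93) (nat_lit 5) (nat_lit 96) (nat_lit 5) (nat_lit 94) (nat_lit 5) (nat_lit 462) (nat_lit 421) (nat_lit 317)) (XT.lf (nat_lit 0) (nat_lit 18501012815) (nat_lit 228) (nat_lit 16733270291) (nat_lit 76) (nat_lit 1624481048) (nat_lit 91) (nat_lit 5) (nat_lit 94) (nat_lit 5) (nat_lit 92) (nat_lit 5) (nat_lit 463) (nat_lit 421) (nat_lit 316))) (XT.nd (nat_lit 78) (nat_lit 76) (nat_lit 0) (XT.lf (nat_lit 0) (nat_lit 6287722790) (nat_lit 152) (nat_lit 22598985834) (nat_lit 228) (nat_lit 9126334785) (nat_lit 89) (nat_lit 5) (nat_lit 91) (nat_lit 5) (nat_lit 92) (nat_lit 5) (nat_lit 464) (nat_lit 421) (nat_lit 315)) (XT.lf (nat_lit 0) (nat_lit 828650060) (nat_lit 228) (nat_lit 8197214731) (nat_lit 76) (nat_lit 30184723016) (nat_lit 88) (nat_lit 5) (nat_lit 91) (nat_lit 5) (nat_lit 89) (nat_lit 5) (nat_lit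 465) (nat_lit 421) (nat_lit 314)))))) (XT.nd (nat_lit 624) (nat_lit 760) (nat_lit 0) (XT.nd (nat_lit 312) (nat_lit 304) (nat_lit 0) (XT.nd (nat_lit 156) (nat_lit 152) (nat_lit 0) (XT.nd (nat_lit 78) (nat_lit 152) (nat_lit 0) (XT.lf (nat_lit 0) (nat_lit 11319064328) (nat_lit 228) (nat_lit 23650804690) (nat_lit 76) (nat_lit 5473440779) (nat_lit 86) (nat_lit 5) (nat_lit 89) (nat_lit 5) (nat_lit 87) (nat_lit 5) (nat_lit 466) (nat_lit 421) (nat_lit 313)) (XT.lf (nat_lit 0) (nat_lit 1469368893) (nat_lit 152) (nat_lit 21169190568) (nat_lit 228) (nat_lit 19083880625) (nat_lit 84) (nat_lit 5) (nat_lit 86) (nat_lit 5) (nat_lit 87) (nat_lit 5) (nat_lit 467) (nat_lit 421) (nat_lit 312))) (XT.nd (nat_lit 78) (nat_lit 152) (nat_lit 0) (XT.lf (nat_lit 0) (nat_lit 28653870922) (nat_lit 152) (nat_lit 6263405808) (nat_lit 228) (nat_lit 8128587986) (nat_lit 84) (nat_lit 5) (nat_lit 86) (nat_lit 5) (nat_lit 87) (nat_lit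 5) (nat_lit 468) (nat_lit 421) (nat_lit 311)) (XT.lf (nat_lit 0) (nat_lit 3614904152) (nat_lit 152) (nat_lit 31456778405) (nat_lit 76) (nat_lit 9343722006) (nat_lit 82) (nat_lit 5) (nat_lit 84) (nat_lit 5) (nat_lit 83) (nat_lit 5) (nat_lit 469) (nat_lit 421) (nat_lit 310)))) (XT.nd (nat_lit 156) (nat_lit 152) (nat_lit 0) (XT.nd (nat_lit 78) (nat_lit 152) (nat_lit 0) (XT.lf (nat_lit 0) (nat_lit 16015812369) (nat_lit 152) (nat_lit 3917200529) (nat_lit 76) (nat_lit 25896575130) (nat_lit 82) (nat_lit 5) (nat_lit 84) (nat_lit 5) (nat_lit 83) (nat_lit 5) (nat_lit 470) (nat_lit 421) (nat_lit 309)) (XT.lf (nat_lit 0) (nat_lit 25813678449) (nat_lit 152) (nat_lit 3619449986) (nat_lit 228) (nat_lit 17861534271) (nat_lit 80) (nat_lit 5) (nat_lit 82) (nat_lit 5) (nat_lit 83) (nat_lit 5) (nat_lit 471) (nat_lit 421) (nat_lit 308))) (XT.nd (nat_lit 78) (nat_lit 76) (nat_lit 0) (XT.lf (nat_lit 0) (nat_lit 8381747531)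 (nat_lit 76) (nat_lit 35542171077) (nat_lit 152) (nat_lit 4888942249) (nat_lit 79) (nat_lit 5) (nat_lit 80) (nat_lit 5) (nat_lit 81) (nat_lit 4) (nat_lit 472) (nat_lit 421) (nat_lit 307)) (XT.lf (nat_lit 0) (nat_lit 8875299653) (nat_lit 152) (nat_lit 10118983015) (nat_lit 76) (nat_lit 31384744233) (nat_lit 78) (nat_lit 5) (nat_lit 80) (nat_lit 5) (nat_lit 79) (nat_lit 5) (nat_lit 473) (nat_lit 421) (nat_lit 306))))) (XT.nd (nat_lit 312) (nat_lit 304) (nat_lit 0) (XT.nd (nat_lit 156) (nat_lit 228) (nat_lit 0) (XT.nd (nat_lit 78) (nat_lit 76) (nat_lit 0) (XT.lf (nat_lit 0) (nat_lit 22331983058) (nat_lit 152) (nat_lit 1173866213) (nat_lit 228) (nat_lit 28496524972) (nat_lit 76) (nat_lit 5) (nat_lit 78) (nat_lit 5) (nat_lit 79) (nat_lit 5) (nat_lit 474) (nat_lit 421) (nat_lit 305)) (XT.lf (nat_lit 0) (nat_lit 2862036455) (nat_lit 76) (nat_lit 36492340090) (nat_lit 152) (nat_lit 14328190025) (nat_lit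 75) (nat_lit 5) (nat_lit 76) (nat_lit 5) (nat_lit 77) (nat_lit 4) (nat_lit 475) (nat_lit 421) (nat_lit 304))) (XT.nd (nat_lit 78) (nat_lit 152) (nat_lit 0) (XT.lf (nat_lit 0) (nat_lit 1054764351) (nat_lit 152) (nat_lit 17417968314) (nat_lit 76) (nat_lit 36947419731) (nat_lit 74) (nat_lit 5) (nat_lit 76) (nat_lit 5) (nat_lit 75) (nat_lit 5) (nat_lit 476) (nat_lit 421) (nat_lit 303)) (XT.lf (nat_lit 0) (nat_lit 17015594314) (nat_lit 228) (nat_lit 39249953482) (nat_lit 76) (nat_lit 952812957) (nat_lit 72) (nat_lit 5) (nat_lit 75) (nat_lit 5) (nat_lit 73) (nat_lit 4) (nat_lit 477) (nat_lit 421) (nat_lit 302)))) (XT.nd (nat_lit 156) (nat_lit 228) (nat_lit 0) (XT.nd (nat_lit 78) (nat_lit 76) (nat_lit 0) (XT.lf (nat_lit 0) (nat_lit 34371243582) (nat_lit 228) (nat_lit 3681527845) (nat_lit 76) (nat_lit 21023869315) (nat_lit 72) (nat_lit 5) (nat_lit 75) (nat_lit 5) (nat_lit 73) (nat_lit 4) (nat_lit 478)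 (nat_lit 421) (nat_lit 301)) (XT.lf (nat_lit 0) (nat_lit 34767678956) (nat_lit 76) (nat_lit 18364225488) (nat_lit 152) (nat_lit 7869068930) (nat_lit 71) (nat_lit 5) (nat_lit 72) (nat_lit 5) (nat_lit 73) (nat_lit 4) (nat_lit 479) (nat_lit 421) (nat_lit 300))) (XT.nd (nat_lit 78) (nat_lit 0) (nat_lit 0) (XT.lf (nat_lit 0) (nat_lit 9790539287) (nat_lit 228) (nat_lit 50560241970) (nat_lit 76) (nat_lit 2648313349) (nat_lit 68) (nat_lit 5) (nat_lit 71) (nat_lit 5) (nat_lit 69) (nat_lit 4) (nat_lit 480) (nat_lit 421) (nat_lit 299)) (XT.lf (nat_lit 0) (nat_lit 28815739757) (nat_lit 228) (nat_lit 11567347201) (nat_lit 76) (nat_lit 24670231764) (nat_lit 68) (nat_lit 5) (nat_lit 71) (nat_lit 5) (nat_lit 69) (nat_lit 4) (nat_lit 481) (nat_lit 421) (nat_lit 298)))))))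
noncomputable def xc281 : XT := (XT.nd (nat_lit 1248) (nat_lit 1064) (nat_lit 0) (XT.nd (nat_lit 624) (nat_lit 608) (nat_lit 0) (XT.nd (nat_lit 312) (nat_lit 228) (nat_lit 0) (XT.nd (nat_lit 156) (nat_lit 76) (nat_lit 0) (XT.nd (nat_lit 78) (nat_lit 152) (nat_lit 0) (XT.lf (nat_lit 0) (nat_lit 30336168100) (nat_lit 76) (nat_lit 18924383392) (nat_lit 152) (nat_lit 17926285070) (nat_lit 67) (nat_lit 5) (nat_lit 68) (nat_lit 5) (nat_lit 69) (nat_lit 4) (nat_lit 482) (nat_lit 421) (nat_lit 297)) (XT.lf (nat_lit 0) (nat_lit 1599282809) (nat_lit 152) (nat_lit 64012816581) (nat_lit 76) (nat_lit 3796898912) (nat_lit 65) (nat_lit 5) (nat_lit 67) (nat_lit 5) (nat_lit 66) (nat_lit 4) (nat_lit 483) (nat_lit 421) (nat_lit 296))) (XT.nd (nat_lit 78) (nat_lit 76) (nat_lit 0) (XT.lf (nat_lit 0) (nat_lit 22437995705) (nat_lit 152) (nat_lit 21300667113) (nat_lit 76) (nat_lit 27941946336) (nat_lit 65) (nat_lit 5)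 (nat_lit 67) (nat_lit 5) (nat_lit 66) (nat_lit 4) (nat_lit 484) (nat_lit 421) (nat_lit 295)) (XT.lf (nat_lit 0) (nat_lit 24315815009) (nat_lit 76) (nat_lit 20377473704) (nat_lit 152) (nat_lit 29353779681) (nat_lit 64) (nat_lit 5) (nat_lit 65) (nat_lit 5) (nat_lit 66) (nat_lit 4) (nat_lit 485) (nat_lit 421) (nat_lit 294)))) (XT.nd (nat_lit 156) (nat_lit 76) (nat_lit 0) (XT.nd (nat_lit 78) (nat_lit 152) (nat_lit 0) (XT.lf (nat_lit 0) (nat_lit 68487845949) (nat_lit 152) (nat_lit 3641470280) (nat_lit 0) (nat_lit 4381209452) (nat_lit 64) (nat_lit 5) (nat_lit 66) (nat_lit 4) (nat_lit 64) (nat_lit 4) (nat_lit 486) (nat_lit 421) (nat_lit 293)) (XT.lf (nat_lit 0) (nat_lit 14977633491) (nat_lit 152) (nat_lit 33408421145) (nat_lit 76) (nat_lit 30646742208) (nat_lit 62) (nat_lit 5) (nat_lit 64) (nat_lit 5) (nat_lit 63) (nat_lit 4) (nat_lit 487) (nat_lit 421) (nat_lit 292))) (XT.nd (nat_lit 78) (nat_lit 0)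 (nat_lit 0) (XT.lf (nat_lit 0) (nat_lit 16177997300) (nat_lit 76) (nat_lit 22990889465) (nat_lit 152) (nat_lit 42490191937) (nat_lit 61) (nat_lit 5) (nat_lit 62) (nat_lit 5) (nat_lit 63) (nat_lit 4) (nat_lit 488) (nat_lit 421) (nat_lit 291)) (XT.lf (nat_lit 0) (nat_lit 65197419426) (nat_lit 152) (nat_lit 15060547402) (nat_lit 0) (nat_lit 4127322042) (nat_lit 61) (nat_lit 5) (nat_lit 63) (nat_lit 4) (nat_lit 61) (nat_lit 4) (nat_lit 489) (nat_lit 421) (nat_lit 290))))) (XT.nd (nat_lit 312) (nat_lit 304) (nat_lit 0) (XT.nd (nat_lit 156) (nat_lit 76) (nat_lit 0) (XT.nd (nat_lit 78) (nat_lit 76) (nat_lit 0) (XT.lf (nat_lit 0) (nat_lit 6103789954) (nat_lit 152) (nat_lit 48562209321) (nat_lit 76) (nat_lit 32528028877) (nat_lit 59) (nat_lit 5) (nat_lit 61) (nat_lit 5) (nat_lit 60) (nat_lit 4) (nat_lit 490) (nat_lit 421) (nat_lit 289)) (XT.lf (nat_lit 0) (nat_lit 5241545922) (nat_lit 76) (nat_lit 27110246053)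 (nat_lit 152) (nat_lit 57758854812) (nat_lit 58) (nat_lit 5) (nat_lit 59) (nat_lit 5) (nat_lit 60) (nat_lit 4) (nat_lit 491) (nat_lit 421) (nat_lit 288))) (XT.nd (nat_lit 78) (nat_lit 76) (nat_lit 0) (XT.lf (nat_lit 0) (nat_lit 60772105982) (nat_lit 152) (nat_lit 29761179461) (nat_lit 0) (nat_lit 2596815361) (nat_lit 58) (nat_lit 5) (nat_lit 60) (nat_lit 4) (nat_lit 58) (nat_lit 4) (nat_lit 492) (nat_lit 421) (nat_lit 287)) (XT.lf (nat_lit 0) (nat_lit 28563622631) (nat_lit 76) (nat_lit 62935952244) (nat_lit 76) (nat_lit 4756645728) (nat_lit 57) (nat_lit 4) (nat_lit 58) (nat_lit 5) (nat_lit 58) (nat_lit 4) (nat_lit 493) (nat_lit 421) (nat_lit 286)))) (XT.nd (nat_lit 156) (nat_lit 152) (nat_lit 0) (XT.nd (nat_lit 78) (nat_lit 76) (nat_lit 0) (XT.lf (nat_lit 0) (nat_lit 23957466576) (nat_lit 152) (nat_lit 9070324696) (nat_lit 76) (nat_lit 66466542344) (nat_lit 56) (nat_lit 5) (nat_lit 58) (nat_lit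 5) (nat_lit 57) (nat_lit 4) (nat_lit 494) (nat_lit 421) (nat_lit 285)) (XT.lf (nat_lit 0) (nat_lit 54129661279) (nat_lit 76) (nat_lit 658843594) (nat_lit 152) (nat_lit 48059894809) (nat_lit 55) (nat_lit 5) (nat_lit 56) (nat_lit 5) (nat_lit 57) (nat_lit 4) (nat_lit 495) (nat_lit 421) (nat_lit 284))) (XT.nd (nat_lit 78) (nat_lit 76) (nat_lit 0) (XT.lf (nat_lit 0) (nat_lit 14371236443) (nat_lit 76) (nat_lit 73686685086) (nat_lit 76) (nat_lit 18267406235) (nat_lit 54) (nat_lit 4) (nat_lit 55) (nat_lit 5) (nat_lit 55) (nat_lit 4) (nat_lit 496) (nat_lit 421) (nat_lit 283)) (XT.lf (nat_lit 0) (nat_lit 13443532612) (nat_lit 152) (nat_lit 27863183553) (nat_lit 76) (nat_lit 68616957425) (nat_lit 53) (nat_lit 5) (nat_lit 55) (nat_lit 5) (nat_lit 54) (nat_lit 4) (nat_lit 497) (nat_lit 421) (nat_lit 282)))))) (XT.nd (nat_lit 624) (nat_lit 532) (nat_lit 0) (XT.nd (nat_lit 312) (nat_lit 228) (nat_lit 0) (XT.nd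 (nat_lit 156) (nat_lit 228) (nat_lit 0) (XT.nd (nat_lit 78) (nat_lit 0) (nat_lit 0) (XT.lf (nat_lit 0) (nat_lit 40418911903) (nat_lit 76) (nat_lit 6334421772) (nat_lit 152) (nat_lit 66902268784) (nat_lit 52) (nat_lit 5) (nat_lit 53) (nat_lit 5) (nat_lit 54) (nat_lit 4) (nat_lit 498) (nat_lit 421) (nat_lit 281)) (XT.lf (nat_lit 0) (nat_lit 82678831975) (nat_lit 152) (nat_lit 4957787920) (nat_lit 0) (nat_lit 29889997544) (nat_lit 52) (nat_lit 5) (nat_lit 54) (nat_lit 4) (nat_lit 52) (nat_lit 4) (nat_lit 499) (nat_lit 421) (nat_lit 280))) (XT.nd (nat_lit 78) (nat_lit 76) (nat_lit 0) (XT.lf (nat_lit 0) (nat_lit 41569412) (nat_lit 152) (nat_lit 52706205817) (nat_lit 76) (nat_lit 68784635304) (nat_lit 50) (nat_lit 5) (nat_lit 52) (nat_lit 5) (nat_lit 51) (nat_lit 4) (nat_lit 500) (nat_lit 421) (nat_lit 279)) (XT.lf (nat_lit 0) (nat_lit 20823863885) (nat_lit 76) (nat_lit 15087234850) (nat_lit 152) (nat_lit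 89778489773) (nat_lit 49) (nat_lit 5) (nat_lit 50) (nat_lit 5) (nat_lit 51) (nat_lit 4) (nat_lit 501) (nat_lit 421) (nat_lit 278)))) (XT.nd (nat_lit 156) (nat_lit 152) (nat_lit 0) (XT.nd (nat_lit 78) (nat_lit 76) (nat_lit 0) (XT.lf (nat_lit 0) (nat_lit 74859545046) (nat_lit 152) (nat_lit 30553393319) (nat_lit 0) (nat_lit 24577415013) (nat_lit 49) (nat_lit 5) (nat_lit 51) (nat_lit 4) (nat_lit 49) (nat_lit 4) (nat_lit 502) (nat_lit 421) (nat_lit 277)) (XT.lf (nat_lit 0) (nat_lit 48781673450) (nat_lit 76) (nat_lit 67979234060) (nat_lit 76) (nat_lit 17694974312) (nat_lit 48) (nat_lit 4) (nat_lit 49) (nat_lit 5) (nat_lit 49) (nat_lit 4) (nat_lit 503) (nat_lit 421) (nat_lit 276))) (XT.nd (nat_lit 78) (nat_lit 76) (nat_lit 0) (XT.lf (nat_lit 0) (nat_lit 21443377530) (nat_lit 152) (nat_lit 6327364110) (nat_lit 76) (nat_lit 111330950069) (nat_lit 47) (nat_lit 5) (nat_lit 49) (nat_lit 5) (nat_lit 48) (nat_lit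 4) (nat_lit 504) (nat_lit 421) (nat_lit 275)) (XT.lf (nat_lit 0) (nat_lit 63428188571) (nat_lit 152) (nat_lit 64928243079) (nat_lit 0) (nat_lit 15534645941) (nat_lit 46) (nat_lit 5) (nat_lit 48) (nat_lit 4) (nat_lit 46) (nat_lit 4) (nat_lit 505) (nat_lit 421) (nat_lit 274))))) (XT.nd (nat_lit 312) (nat_lit 304) (nat_lit 0) (XT.nd (nat_lit 156) (nat_lit 76) (nat_lit 0) (XT.nd (nat_lit 78) (nat_lit 76) (nat_lit 0) (XT.lf (nat_lit 0) (nat_lit 19999173799) (nat_lit 76) (nat_lit 88386198565) (nat_lit 76) (nat_lit 40490903814) (nat_lit 45) (nat_lit 4) (nat_lit 46) (nat_lit 5) (nat_lit 46) (nat_lit 4) (nat_lit 506) (nat_lit 421) (nat_lit 273)) (XT.lf (nat_lit 0) (nat_lit 2546659063) (nat_lit 152) (nat_lit 42676312359) (nat_lit 76) (nat_lit 108830891318) (nat_lit 44) (nat_lit 5) (nat_lit 46) (nat_lit 5) (nat_lit 45) (nat_lit 4) (nat_lit 507) (nat_lit 421) (nat_lit 272))) (XT.nd (nat_lit 78) (nat_lit 0)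 (nat_lit 0) (XT.lf (nat_lit 0) (nat_lit 47157774525) (nat_lit 152) (nat_lit 110720137815) (nat_lit 0) (nat_lit 1540105321) (nat_lit 43) (nat_lit 5) (nat_lit 45) (nat_lit 4) (nat_lit 43) (nat_lit 4) (nat_lit 508) (nat_lit 421) (nat_lit 271)) (XT.lf (nat_lit 0) (nat_lit 95472279492) (nat_lit 152) (nat_lit 19651290355) (nat_lit 0) (nat_lit 49853168813) (nat_lit 43) (nat_lit 5) (nat_lit 45) (nat_lit 4) (nat_lit 43) (nat_lit 4) (nat_lit 509) (nat_lit 421) (nat_lit 270)))) (XT.nd (nat_lit 156) (nat_lit 76) (nat_lit 0) (XT.nd (nat_lit 78) (nat_lit 152) (nat_lit 0) (XT.lf (nat_lit 0) (nat_lit 78476798914) (nat_lit 76) (nat_lit 68947983346) (nat_lit 76) (nat_lit 23327499834) (nat_lit 42) (nat_lit 4) (nat_lit 43) (nat_lit 5) (nat_lit 43) (nat_lit 4) (nat_lit 510) (nat_lit 421) (nat_lit 269)) (XT.lf (nat_lit 0) (nat_lit 5154352110) (nat_lit 76) (nat_lit 19614498173) (nat_lit 152) (nat_lit 152007324557) (nat_lit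 40) (nat_lit 5) (nat_lit 41) (nat_lit 5) (nat_lit 42) (nat_lit 4) (nat_lit 511) (nat_lit 421) (nat_lit 268))) (XT.nd (nat_lit 78) (nat_lit 76) (nat_lit 0) (XT.lf (nat_lit 0) (nat_lit 76573953860) (nat_lit 152) (nat_lit 73280349607) (nat_lit 0) (nat_lit 33123443220) (nat_lit 40) (nat_lit 5) (nat_lit 42) (nat_lit 4) (nat_lit 40) (nat_lit 4) (nat_lit 512) (nat_lit 421) (nat_lit 267)) (XT.nd (nat_lit 78) (nat_lit 0) (nat_lit 0) (XT.lf (nat_lit 0) (nat_lit 30631372246) (nat_lit 76) (nat_lit 101134908286) (nat_lit 76) (nat_lit 57683268213) (nat_lit 39) (nat_lit 4) (nat_lit 40) (nat_lit 5) (nat_lit 40) (nat_lit 4) (nat_lit 513) (nat_lit 421) (nat_lit 266)) (XT.lf (nat_lit 0) (nat_lit 142277228943) (nat_lit 76) (nat_lit 48679257281) (nat_lit 76) (nat_lit 5226541557) (nat_lit 39) (nat_lit 4) (nat_lit 40) (nat_lit 5) (nat_lit 40) (nat_lit 4) (nat_lit 514) (nat_lit 421) (nat_lit 265))))))))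
noncomputable def xc282 : XT := (XT.nd (nat_lit 1248) (nat_lit 684) (nat_lit 0) (XT.nd (nat_lit 624) (nat_lit 456) (nat_lit 0) (XT.nd (nat_lit 312) (nat_lit 304) (nat_lit 0) (XT.nd (nat_lit 156) (nat_lit 152) (nat_lit 0) (XT.nd (nat_lit 78) (nat_lit 0) (nat_lit 0) (XT.lf (nat_lit 0) (nat_lit 49276672015) (nat_lit 152) (nat_lit 145994470979) (nat_lit 0) (nat_lit 7892157584) (nat_lit 37) (nat_lit 5) (nat_lit 39) (nat_lit 4) (nat_lit 37) (nat_lit 4) (nat_lit 515) (nat_lit 421) (nat_lit 264)) (XT.lf (nat_lit 0) (nat_lit 108052624043) (nat_lit 152) (nat_lit 35682337317) (nat_lit 0) (nat_lit 66667180424) (nat_lit 37) (nat_lit 5) (nat_lit 39) (nat_lit 4) (nat_lit 37) (nat_lit 4) (nat_lit 516) (nat_lit 421) (nat_lit 263))) (XT.nd (nat_lit 78) (nat_lit 76) (nat_lit 0) (XT.lf (nat_lit 0) (nat_lit 82790053310) (nat_lit 76) (nat_lit 88267349427) (nat_lit 76) (nat_lit 46881020868) (nat_lit 36) (nat_lit 4) (nat_lit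 37) (nat_lit 5) (nat_lit 37) (nat_lit 4) (nat_lit 517) (nat_lit 421) (nat_lit 262)) (XT.lf (nat_lit 0) (nat_lit 11608930962) (nat_lit 152) (nat_lit 17588862887) (nat_lit 76) (nat_lit 196614274407) (nat_lit 35) (nat_lit 5) (nat_lit 37) (nat_lit 5) (nat_lit 36) (nat_lit 4) (nat_lit 518) (nat_lit 421) (nat_lit 261)))) (XT.nd (nat_lit 156) (nat_lit 228) (nat_lit 0) (XT.nd (nat_lit 78) (nat_lit 0) (nat_lit 0) (XT.lf (nat_lit 0) (nat_lit 73693036280) (nat_lit 152) (nat_lit 125959755360) (nat_lit 0) (nat_lit 34275918160) (nat_lit 34) (nat_lit 5) (nat_lit 36) (nat_lit 4) (nat_lit 34) (nat_lit 4) (nat_lit 519) (nat_lit 421) (nat_lit 260)) (XT.lf (nat_lit 0) (nat_lit 139660328202) (nat_lit 152) (nat_lit 2509424122) (nat_lit 0) (nat_lit 100242482038) (nat_lit 34) (nat_lit 5) (nat_lit 36) (nat_lit 4) (nat_lit 34) (nat_lit 4) (nat_lit 520) (nat_lit 421) (nat_lit 259))) (XT.nd (nat_lit 78) (nat_lit 152) (nat_lit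 0) (XT.lf (nat_lit 0) (nat_lit 131311539509) (nat_lit 76) (nat_lit 79662271926) (nat_lit 76) (nat_lit 40243732389) (nat_lit 33) (nat_lit 4) (nat_lit 34) (nat_lit 5) (nat_lit 34) (nat_lit 4) (nat_lit 521) (nat_lit 421) (nat_lit 258)) (XT.lf (nat_lit 0) (nat_lit 11413194504) (nat_lit 76) (nat_lit 13383095445) (nat_lit 152) (nat_lit 235636054798) (nat_lit 31) (nat_lit 5) (nat_lit 32) (nat_lit 5) (nat_lit 33) (nat_lit 4) (nat_lit 522) (nat_lit 421) (nat_lit 257))))) (XT.nd (nat_lit 312) (nat_lit 228) (nat_lit 0) (XT.nd (nat_lit 156) (nat_lit 152) (nat_lit 0) (XT.nd (nat_lit 78) (nat_lit 76) (nat_lit 0) (XT.lf (nat_lit 0) (nat_lit 94675100918) (nat_lit 152) (nat_lit 118120429280) (nat_lit 0) (nat_lit 57132406819) (nat_lit 31) (nat_lit 5) (nat_lit 33) (nat_lit 4) (nat_lit 31) (nat_lit 4) (nat_lit 523) (nat_lit 421) (nat_lit 256)) (XT.lf (nat_lit 0) (nat_lit 19730890465) (nat_lit 76) (nat_lit 148842210282)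 (nat_lit 76) (nat_lit 111298945742) (nat_lit 30) (nat_lit 4) (nat_lit 31) (nat_lit 5) (nat_lit 31) (nat_lit 4) (nat_lit 524) (nat_lit 421) (nat_lit 255))) (XT.nd (nat_lit 78) (nat_lit 152) (nat_lit 0) (XT.lf (nat_lit 0) (nat_lit 168571268641) (nat_lit 76) (nat_lit 79592993762) (nat_lit 76) (nat_lit 42049185945) (nat_lit 30) (nat_lit 4) (nat_lit 31) (nat_lit 5) (nat_lit 31) (nat_lit 4) (nat_lit 525) (nat_lit 421) (nat_lit 254)) (XT.lf (nat_lit 0) (nat_lit 24069128774) (nat_lit 76) (nat_lit 5986214638) (nat_lit 152) (nat_lit 270973955526) (nat_lit 28) (nat_lit 5) (nat_lit 29) (nat_lit 5) (nat_lit 30) (nat_lit 4) (nat_lit 526) (nat_lit 421) (nat_lit 253)))) (XT.nd (nat_lit 156) (nat_lit 152) (nat_lit 0) (XT.nd (nat_lit 78) (nat_lit 76) (nat_lit 0) (XT.lf (nat_lit 0) (nat_lit 107556924690) (nat_lit 152) (nat_lit 132834347958) (nat_lit 0) (nat_lit 71799955176) (nat_lit 28) (nat_lit 5) (nat_lit 30) (nat_lit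 4) (nat_lit 28) (nat_lit 4) (nat_lit 527) (nat_lit 421) (nat_lit 252)) (XT.lf (nat_lit 0) (nat_lit 19003829657) (nat_lit 76) (nat_lit 170322598898) (nat_lit 76) (nat_lit 134565182428) (nat_lit 27) (nat_lit 4) (nat_lit 28) (nat_lit 5) (nat_lit 28) (nat_lit 4) (nat_lit 528) (nat_lit 421) (nat_lit 251))) (XT.nd (nat_lit 78) (nat_lit 152) (nat_lit 0) (XT.lf (nat_lit 0) (nat_lit 183041647699) (nat_lit 76) (nat_lit 94390412557) (nat_lit 76) (nat_lit 58632570416) (nat_lit 27) (nat_lit 4) (nat_lit 28) (nat_lit 5) (nat_lit 28) (nat_lit 4) (nat_lit 529) (nat_lit 421) (nat_lit 250)) (XT.lf (nat_lit 0) (nat_lit 6303580605) (nat_lit 76) (nat_lit 14214384344) (nat_lit 152) (nat_lit 328307041591) (nat_lit 25) (nat_lit 5) (nat_lit 26) (nat_lit 5) (nat_lit 27) (nat_lit 4) (nat_lit 530) (nat_lit 421) (nat_lit 249)))))) (XT.nd (nat_lit 624) (nat_lit 380) (nat_lit 0) (XT.nd (nat_lit 312) (nat_lit 228) (nat_lit 0)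 (XT.nd (nat_lit 156) (nat_lit 76) (nat_lit 0) (XT.nd (nat_lit 78) (nat_lit 0) (nat_lit 0) (XT.lf (nat_lit 0) (nat_lit 105380127875) (nat_lit 152) (nat_lit 185284700551) (nat_lit 0) (nat_lit 71324286314) (nat_lit 25) (nat_lit 5) (nat_lit 27) (nat_lit 4) (nat_lit 25) (nat_lit 4) (nat_lit 531) (nat_lit 421) (nat_lit 248)) (XT.lf (nat_lit 0) (nat_lit 194716614710) (nat_lit 152) (nat_lit 20422829907) (nat_lit 0) (nat_lit 160660422948) (nat_lit 25) (nat_lit 5) (nat_lit 27) (nat_lit 4) (nat_lit 25) (nat_lit 4) (nat_lit 532) (nat_lit 421) (nat_lit 247))) (XT.nd (nat_lit 78) (nat_lit 0) (nat_lit 0) (XT.lf (nat_lit 0) (nat_lit 157726886010) (nat_lit 76) (nat_lit 133253877710) (nat_lit 76) (nat_lit 99197352423) (nat_lit 24) (nat_lit 4) (nat_lit 25) (nat_lit 5) (nat_lit 25) (nat_lit 4) (nat_lit 533) (nat_lit 421) (nat_lit 246)) (XT.lf (nat_lit 0) (nat_lit 345489684977) (nat_lit 76) (nat_lit 46912613106) (nat_lit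 76) (nat_lit 12855770176) (nat_lit 24) (nat_lit 4) (nat_lit 25) (nat_lit 5) (nat_lit 25) (nat_lit 4) (nat_lit 534) (nat_lit 421) (nat_lit 245)))) (XT.nd (nat_lit 156) (nat_lit 76) (nat_lit 0) (XT.nd (nat_lit 78) (nat_lit 0) (nat_lit 0) (XT.lf (nat_lit 0) (nat_lit 77986586715) (nat_lit 152) (nat_lit 297359791414) (nat_lit 0) (nat_lit 45551210099) (nat_lit 22) (nat_lit 5) (nat_lit 24) (nat_lit 4) (nat_lit 22) (nat_lit 4) (nat_lit 535) (nat_lit 421) (nat_lit 244)) (XT.lf (nat_lit 0) (nat_lit 174735245055) (nat_lit 152) (nat_lit 120183896488) (nat_lit 0) (nat_lit 142299594048) (nat_lit 22) (nat_lit 5) (nat_lit 24) (nat_lit 4) (nat_lit 22) (nat_lit 4) (nat_lit 536) (nat_lit 421) (nat_lit 243))) (XT.nd (nat_lit 78) (nat_lit 0) (nat_lit 0) (XT.lf (nat_lit 0) (nat_lit 68024842755) (nat_lit 76) (nat_lit 209356992479) (nat_lit 76) (nat_lit 176921080146) (nat_lit 21) (nat_lit 4) (nat_lit 22) (nat_lit 5) (nat_lit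 22) (nat_lit 4) (nat_lit 537) (nat_lit 421) (nat_lit 242)) (XT.lf (nat_lit 0) (nat_lit 269813413379) (nat_lit 76) (nat_lit 117381180036) (nat_lit 76) (nat_lit 84945018822) (nat_lit 21) (nat_lit 4) (nat_lit 22) (nat_lit 5) (nat_lit 22) (nat_lit 4) (nat_lit 538) (nat_lit 421) (nat_lit 241))))) (XT.nd (nat_lit 312) (nat_lit 152) (nat_lit 0) (XT.nd (nat_lit 156) (nat_lit 76) (nat_lit 0) (XT.nd (nat_lit 78) (nat_lit 76) (nat_lit 0) (XT.lf (nat_lit 0) (nat_lit 11256133025) (nat_lit 152) (nat_lit 9361325541) (nat_lit 76) (nat_lit 470241680890) (nat_lit 20) (nat_lit 5) (nat_lit 22) (nat_lit 5) (nat_lit 21) (nat_lit 4) (nat_lit 539) (nat_lit 421) (nat_lit 240)) (XT.lf (nat_lit 0) (nat_lit 113843605064) (nat_lit 152) (nat_lit 313428280077) (nat_lit 0) (nat_lit 82951582220) (nat_lit 19) (nat_lit 5) (nat_lit 21) (nat_lit 4) (nat_lit 19) (nat_lit 4) (nat_lit 540) (nat_lit 421) (nat_lit 239))) (XT.nd (nat_lit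 78) (nat_lit 76) (nat_lit 0) (XT.lf (nat_lit 0) (nat_lit 222058165958) (nat_lit 152) (nat_lit 117307021585) (nat_lit 0) (nat_lit 191165938359) (nat_lit 19) (nat_lit 5) (nat_lit 21) (nat_lit 4) (nat_lit 19) (nat_lit 4) (nat_lit 541) (nat_lit 421) (nat_lit 238)) (XT.lf (nat_lit 0) (nat_lit 91547656989) (nat_lit 76) (nat_lit 245563767260) (nat_lit 76) (nat_lit 214671344656) (nat_lit 18) (nat_lit 4) (nat_lit 19) (nat_lit 5) (nat_lit 19) (nat_lit 4) (nat_lit 542) (nat_lit 421) (nat_lit 237)))) (XT.nd (nat_lit 156) (nat_lit 152) (nat_lit 0) (XT.nd (nat_lit 78) (nat_lit 0) (nat_lit 0) (XT.lf (nat_lit 0) (nat_lit 314915008991) (nat_lit 76) (nat_lit 144987663519) (nat_lit 76) (nat_lit 114095055196) (nat_lit 18) (nat_lit 4) (nat_lit 19) (nat_lit 5) (nat_lit 19) (nat_lit 4) (nat_lit 543) (nat_lit 421) (nat_lit 236)) (XT.lf (nat_lit 0) (nat_lit 549448161542) (nat_lit 76) (nat_lit 39384060580) (nat_lit 76)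 (nat_lit 8491275381) (nat_lit 18) (nat_lit 4) (nat_lit 19) (nat_lit 5) (nat_lit 19) (nat_lit 4) (nat_lit 544) (nat_lit 421) (nat_lit 235))) (XT.nd (nat_lit 78) (nat_lit 0) (nat_lit 0) (XT.lf (nat_lit 0) (nat_lit 103081212983) (nat_lit 152) (nat_lit 444796772341) (nat_lit 0) (nat_lit 73659352362) (nat_lit 16) (nat_lit 5) (nat_lit 18) (nat_lit 4) (nat_lit 16) (nat_lit 4) (nat_lit 545) (nat_lit 421) (nat_lit 234)) (XT.nd (nat_lit 78) (nat_lit 0) (nat_lit 0) (XT.lf (nat_lit 0) (nat_lit 221415467045) (nat_lit 152) (nat_lit 233472563949) (nat_lit 0) (nat_lit 191993453633) (nat_lit 16) (nat_lit 5) (nat_lit 18) (nat_lit 4) (nat_lit 16) (nat_lit 4) (nat_lit 546) (nat_lit 421) (nat_lit 233)) (XT.lf (nat_lit 0) (nat_lit 345665271737) (nat_lit 152) (nat_lit 11584512474) (nat_lit 0) (nat_lit 316243112809) (nat_lit 16) (nat_lit 5) (nat_lit 18) (nat_lit 4) (nat_lit 16) (nat_lit 4) (nat_lit 547) (nat_lit 421)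 (nat_lit 232))))))))
noncomputable def xc283 : XT := (XT.nd (nat_lit 53430) (nat_lit 0) (nat_lit 8208) (XT.nd (nat_lit 52806) (nat_lit 0) (nat_lit 11476) (XT.nd (nat_lit 312) (nat_lit 0) (nat_lit 0) (XT.nd (nat_lit 156) (nat_lit 152) (nat_lit 0) (XT.nd (nat_lit 78) (nat_lit 0) (nat_lit 0) (XT.lf (nat_lit 0) (nat_lit 228716028231) (nat_lit 76) (nat_lit 250981329873) (nat_lit 76) (nat_lit 221559032358) (nat_lit 15) (nat_lit 4) (nat_lit 16) (nat_lit 5) (nat_lit 16) (nat_lit 4) (nat_lit 548) (nat_lit 421) (nat_lit 231)) (XT.lf (nat_lit 0) (nat_lit 481431565846) (nat_lit 76) (nat_lit 139194583600) (nat_lit 76) (nat_lit 109772154099) (nat_lit 15) (nat_lit 4) (nat_lit 16) (nat_lit 5) (nat_lit 16) (nat_lit 4) (nat_lit 549) (nat_lit 421) (nat_lit 230))) (XT.nd (nat_lit 78) (nat_lit 76) (nat_lit 0) (XT.lf (nat_lit 0) (nat_lit 7359636581) (nat_lit 152) (nat_lit 14335300210) (nat_lit 76) (nat_lit 739296492143)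 (nat_lit 14) (nat_lit 5) (nat_lit 16) (nat_lit 5) (nat_lit 15) (nat_lit 4) (nat_lit 550) (nat_lit 421) (nat_lit 229)) (XT.lf (nat_lit 0) (nat_lit 132049137062) (nat_lit 152) (nat_lit 556678045234) (nat_lit 0) (nat_lit 104027541900) (nat_lit 13) (nat_lit 5) (nat_lit 15) (nat_lit 4) (nat_lit 13) (nat_lit 4) (nat_lit 551) (nat_lit 421) (nat_lit 228)))) (XT.nd (nat_lit 52338) (nat_lit 0) (nat_lit 12236) (XT.nd (nat_lit 78) (nat_lit 0) (nat_lit 0) (XT.lf (nat_lit 0) (nat_lit 263574519166) (nat_lit 152) (nat_lit 326948779306) (nat_lit 0) (nat_lit 235552815419) (nat_lit 13) (nat_lit 5) (nat_lit 15) (nat_lit 4) (nat_lit 13) (nat_lit 4) (nat_lit 552) (nat_lit 421) (nat_lit 227)) (XT.lf (nat_lit 0) (nat_lit 401675214883) (nat_lit 152) (nat_lit 85734998244) (nat_lit 0) (nat_lit 373653407720) (nat_lit 13) (nat_lit 5) (nat_lit 15) (nat_lit 4) (nat_lit 13) (nat_lit 4) (nat_lit 553) (nat_lit 421) (nat_lit 226)))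 (XT.nd (nat_lit 78) (nat_lit 0) (nat_lit 0) (XT.lf (nat_lit 0) (nat_lit 2781434755) (nat_lit 0) (nat_lit 2781434755) (nat_lit 684) (nat_lit 530670095) (nat_lit 174) (nat_lit 5) (nat_lit 174) (nat_lit 3) (nat_lit 183) (nat_lit 3) (nat_lit 422) (nat_lit 422) (nat_lit 356)) (XT.lf (nat_lit 0) (nat_lit 11854182475) (nat_lit 684) (nat_lit 548659170) (nat_lit 760) (nat_lit 66362543) (nat_lit 174) (nat_lit 5) (nat_lit 183) (nat_lit 3) (nat_lit 184) (nat_lit 5) (nat_lit 423) (nat_lit 422) (nat_lit 355))))) (XT.nd (nat_lit 312) (nat_lit 0) (nat_lit 152) (XT.nd (nat_lit 156) (nat_lit 0) (nat_lit 76) (XT.nd (nat_lit 78) (nat_lit 0) (nat_lit 0) (XT.lf (nat_lit 0) (nat_lit 15812465) (nat_lit 760) (nat_lit 6845270036) (nat_lit 836) (nat_lit 5896593720) (nat_lit 164) (nat_lit 5) (nat_lit 174) (nat_lit 5) (nat_lit 175) (nat_lit 5) (nat_lit 424) (nat_lit 422) (nat_lit 354)) (XT.lf (nat_lit 0) (nat_lit 639092440)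 (nat_lit 760) (nat_lit 371476661) (nat_lit 836) (nat_lit 12050422145) (nat_lit 164) (nat_lit 5) (nat_lit 174) (nat_lit 5) (nat_lit 175) (nat_lit 5) (nat_lit 425) (nat_lit 422) (nat_lit 353))) (XT.nd (nat_lit 78) (nat_lit 0) (nat_lit 0) (XT.lf (nat_lit 0) (nat_lit 1452374081) (nat_lit 760) (nat_lit 6835584085) (nat_lit 836) (nat_lit 5083574021) (nat_lit 165) (nat_lit 5) (nat_lit 175) (nat_lit 5) (nat_lit 176) (nat_lit 5) (nat_lit 426) (nat_lit 422) (nat_lit 352)) (XT.lf (nat_lit 76) (nat_lit 72931993) (nat_lit 0) (nat_lit 2232117040) (nat_lit 836) (nat_lit 11392616627) (nat_lit 166) (nat_lit 5) (nat_lit 165) (nat_lit 5) (nat_lit 176) (nat_lit 5) (nat_lit 427) (nat_lit 422) (nat_lit 351)))) (XT.nd (nat_lit 156) (nat_lit 0) (nat_lit 76) (XT.nd (nat_lit 78) (nat_lit 0) (nat_lit 0) (XT.lf (nat_lit 0) (nat_lit 3358139974) (nat_lit 760) (nat_lit 6554606050) (nat_lit 836) (nat_lit 4119472528) (nat_lit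 166) (nat_lit 5) (nat_lit 176) (nat_lit 5) (nat_lit 177) (nat_lit 5) (nat_lit 428) (nat_lit 422) (nat_lit 350)) (XT.lf (nat_lit 76) (nat_lit 842098656) (nat_lit 0) (nat_lit 3648377897) (nat_lit 836) (nat_lit 9891694747) (nat_lit 167) (nat_lit 5) (nat_lit 166) (nat_lit 5) (nat_lit 177) (nat_lit 5) (nat_lit 429) (nat_lit 422) (nat_lit 349))) (XT.nd (nat_lit 78) (nat_lit 0) (nat_lit 0) (XT.lf (nat_lit 0) (nat_lit 5815759285) (nat_lit 760) (nat_lit 5973635409) (nat_lit 836) (nat_lit 2953412210) (nat_lit 167) (nat_lit 5) (nat_lit 177) (nat_lit 5) (nat_lit 178) (nat_lit 5) (nat_lit 430) (nat_lit 422) (nat_lit 348)) (XT.lf (nat_lit 76) (nat_lit 1956593818) (nat_lit 0) (nat_lit 5319899223) (nat_lit 836) (nat_lit 7841523505) (nat_lit 168) (nat_lit 5) (nat_lit 167) (nat_lit 5) (nat_lit 178) (nat_lit 5) (nat_lit 431) (nat_lit 422) (nat_lit 347)))))) (XT.nd (nat_lit 624) (nat_lit 1520) (nat_lit 0) (XT.nd (nat_lit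 312) (nat_lit 836) (nat_lit 0) (XT.nd (nat_lit 156) (nat_lit 456) (nat_lit 0) (XT.nd (nat_lit 78) (nat_lit 760) (nat_lit 0) (XT.lf (nat_lit 0) (nat_lit 8915710869) (nat_lit 760) (nat_lit 5058999326) (nat_lit 76) (nat_lit 1532005634) (nat_lit 168) (nat_lit 5) (nat_lit 178) (nat_lit 5) (nat_lit 169) (nat_lit 5) (nat_lit 432) (nat_lit 422) (nat_lit 346)) (XT.lf (nat_lit 0) (nat_lit 3454627847) (nat_lit 760) (nat_lit 7304003667) (nat_lit 836) (nat_lit 5150132921) (nat_lit 158) (nat_lit 5) (nat_lit 168) (nat_lit 5) (nat_lit 169) (nat_lit 5) (nat_lit 433) (nat_lit 422) (nat_lit 345))) (XT.nd (nat_lit 78) (nat_lit 456) (nat_lit 0) (XT.lf (nat_lit 0) (nat_lit 12552576449) (nat_lit 760) (nat_lit 208051107) (nat_lit 836) (nat_lit 3566942830) (nat_lit 158) (nat_lit 5) (nat_lit 168) (nat_lit 5) (nat_lit 169) (nat_lit 5) (nat_lit 434) (nat_lit 422) (nat_lit 344)) (XT.lf (nat_lit 0) (nat_lit 5380116694) (nat_lit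 456) (nat_lit 9661855752) (nat_lit 532) (nat_lit 1716383056) (nat_lit 152) (nat_lit 5) (nat_lit 158) (nat_lit 5) (nat_lit 159) (nat_lit 5) (nat_lit 435) (nat_lit 422) (nat_lit 343)))) (XT.nd (nat_lit 156) (nat_lit 380) (nat_lit 0) (XT.nd (nat_lit 78) (nat_lit 380) (nat_lit 0) (XT.lf (nat_lit 0) (nat_lit 270312641) (nat_lit 532) (nat_lit 2108851824) (nat_lit 76) (nat_lit 14828796436) (nat_lit 151) (nat_lit 5) (nat_lit 158) (nat_lit 5) (nat_lit 152) (nat_lit 5) (nat_lit 436) (nat_lit 422) (nat_lit 342)) (XT.lf (nat_lit 0) (nat_lit 2488926273) (nat_lit 456) (nat_lit 9928183868) (nat_lit 76) (nat_lit 5252017452) (nat_lit 146) (nat_lit 5) (nat_lit 152) (nat_lit 5) (nat_lit 147) (nat_lit 5) (nat_lit 437) (nat_lit 422) (nat_lit 341))) (XT.nd (nat_lit 78) (nat_lit 380) (nat_lit 0) (XT.lf (nat_lit 0) (nat_lit 4877619133) (nat_lit 456) (nat_lit 51833327) (nat_lit 76) (nat_lit 13220943818) (nat_lit 146) (nat_lit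 5) (nat_lit 152) (nat_lit 5) (nat_lit 147) (nat_lit 5) (nat_lit 438) (nat_lit 422) (nat_lit 340)) (XT.lf (nat_lit 0) (nat_lit 7585019054) (nat_lit 456) (nat_lit 8054026307) (nat_lit 76) (nat_lit 3006720449) (nat_lit 141) (nat_lit 5) (nat_lit 147) (nat_lit 5) (nat_lit 142) (nat_lit 5) (nat_lit 439) (nat_lit 422) (nat_lit 339))))) (XT.nd (nat_lit 312) (nat_lit 836) (nat_lit 0) (XT.nd (nat_lit 156) (nat_lit 380) (nat_lit 0) (XT.nd (nat_lit 78) (nat_lit 0) (nat_lit 0) (XT.lf (nat_lit 0) (nat_lit 2588687828) (nat_lit 304) (nat_lit 7946300220) (nat_lit 380) (nat_lit 8625556801) (nat_lit 137) (nat_lit 5) (nat_lit 141) (nat_lit 5) (nat_lit 142) (nat_lit 5) (nat_lit 440) (nat_lit 422) (nat_lit 338)) (XT.lf (nat_lit 0) (nat_lit 13758637544) (nat_lit 380) (nat_lit 5672564128) (nat_lit 76) (nat_lit 263553002) (nat_lit 137) (nat_lit 5) (nat_lit 142) (nat_lit 5) (nat_lit 138) (nat_lit 5) (nat_lit 441) (nat_lit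 422) (nat_lit 337))) (XT.nd (nat_lit 78) (nat_lit 76) (nat_lit 0) (XT.lf (nat_lit 0) (nat_lit 5811040640) (nat_lit 304) (nat_lit 11539613781) (nat_lit 380) (nat_lit 2894662218) (nat_lit 133) (nat_lit 5) (nat_lit 137) (nat_lit 5) (nat_lit 138) (nat_lit 5) (nat_lit 442) (nat_lit 422) (nat_lit 336)) (XT.lf (nat_lit 0) (nat_lit 373318923) (nat_lit 380) (nat_lit 2775642352) (nat_lit 76) (nat_lit 17670011978) (nat_lit 132) (nat_lit 5) (nat_lit 137) (nat_lit 5) (nat_lit 133) (nat_lit 5) (nat_lit 443) (nat_lit 422) (nat_lit 335)))) (XT.nd (nat_lit 156) (nat_lit 228) (nat_lit 0) (XT.nd (nat_lit 78) (nat_lit 304) (nat_lit 0) (XT.lf (nat_lit 0) (nat_lit 3937709125) (nat_lit 380) (nat_lit 11790023202) (nat_lit 76) (nat_lit 5679693985) (nat_lit 128) (nat_lit 5) (nat_lit 133) (nat_lit 5) (nat_lit 129) (nat_lit 5) (nat_lit 444) (nat_lit 422) (nat_lit 334)) (XT.lf (nat_lit 0) (nat_lit 656012475) (nat_lit 304)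 (nat_lit 7121303561) (nat_lit 380) (nat_lit 14243136864) (nat_lit 124) (nat_lit 5) (nat_lit 128) (nat_lit 5) (nat_lit 129) (nat_lit 5) (nat_lit 445) (nat_lit 422) (nat_lit 333))) (XT.nd (nat_lit 78) (nat_lit 228) (nat_lit 0) (XT.lf (nat_lit 0) (nat_lit 12029406301) (nat_lit 380) (nat_lit 8570057433) (nat_lit 76) (nat_lit 2053642632) (nat_lit 124) (nat_lit 5) (nat_lit 129) (nat_lit 5) (nat_lit 125) (nat_lit 5) (nat_lit 446) (nat_lit 422) (nat_lit 332)) (XT.nd (nat_lit 78) (nat_lit 0) (nat_lit 0) (XT.lf (nat_lit 0) (nat_lit 4888129600) (nat_lit 228) (nat_lit 11787273939) (nat_lit 304) (nat_lit 6632924510) (nat_lit 121) (nat_lit 5) (nat_lit 124) (nat_lit 5) (nat_lit 125) (nat_lit 5) (nat_lit 447) (nat_lit 422) (nat_lit 331)) (XT.lf (nat_lit 0) (nat_lit 19301387912) (nat_lit 228) (nat_lit 2386013074) (nat_lit 304) (nat_lit 2302225446) (nat_lit 121) (nat_lit 5) (nat_lit 124) (nat_lit 5) (nat_lit 125)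 (nat_lit 5) (nat_lit 448) (nat_lit 422) (nat_lit 330))))))))
noncomputable def xc284 : XT := (XT.nd (nat_lit 1248) (nat_lit 1748) (nat_lit 0) (XT.nd (nat_lit 624) (nat_lit 988) (nat_lit 0) (XT.nd (nat_lit 312) (nat_lit 456) (nat_lit 0) (XT.nd (nat_lit 156) (nat_lit 456) (nat_lit 0) (XT.nd (nat_lit 78) (nat_lit 0) (nat_lit 0) (XT.lf (nat_lit 0) (nat_lit 2438154747) (nat_lit 380) (nat_lit 14815588250) (nat_lit 76) (nat_lit 7436244747) (nat_lit 116) (nat_lit 5) (nat_lit 121) (nat_lit 5) (nat_lit 117) (nat_lit 5) (nat_lit 449) (nat_lit 422) (nat_lit 329)) (XT.lf (nat_lit 0) (nat_lit 7447160482) (nat_lit 380) (nat_lit 186861600) (nat_lit 76) (nat_lit 17784009696) (nat_lit 116) (nat_lit 5) (nat_lit 121) (nat_lit 5) (nat_lit 117) (nat_lit 5) (nat_lit 450) (nat_lit 422) (nat_lit 328))) (XT.nd (nat_lit 78) (nat_lit 228) (nat_lit 0) (XT.lf (nat_lit 0) (nat_lit 12983245920) (nat_lit 304) (nat_lit 10553220111)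 (nat_lit 76) (nat_lit 2632181035) (nat_lit 113) (nat_lit 5) (nat_lit 117) (nat_lit 5) (nat_lit 114) (nat_lit 5) (nat_lit 451) (nat_lit 422) (nat_lit 327)) (XT.lf (nat_lit 0) (nat_lit 5286980959) (nat_lit 228) (nat_lit 13709944497) (nat_lit 304) (nat_lit 7949828667) (nat_lit 110) (nat_lit 5) (nat_lit 113) (nat_lit 5) (nat_lit 114) (nat_lit 5) (nat_lit 452) (nat_lit 422) (nat_lit 326)))) (XT.nd (nat_lit 156) (nat_lit 228) (nat_lit 0) (XT.nd (nat_lit 78) (nat_lit 228) (nat_lit 0) (XT.lf (nat_lit 0) (nat_lit 22271095313) (nat_lit 228) (nat_lit 3209054187) (nat_lit 304) (nat_lit 2275174479) (nat_lit 110) (nat_lit 5) (nat_lit 113) (nat_lit 5) (nat_lit 114) (nat_lit 5) (nat_lit 453) (nat_lit 422) (nat_lit 325)) (XT.lf (nat_lit 0) (nat_lit 3866045591) (nat_lit 228) (nat_lit 16912287487) (nat_lit 76) (nat_lit 7808078469) (nat_lit 107) (nat_lit 5) (nat_lit 110) (nat_lit 5) (nat_lit 108) (nat_lit 5) (nat_lit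 454) (nat_lit 422) (nat_lit 324))) (XT.nd (nat_lit 78) (nat_lit 0) (nat_lit 0) (XT.lf (nat_lit 0) (nat_lit 331285754) (nat_lit 228) (nat_lit 10049379051) (nat_lit 304) (nat_lit 19069384253) (nat_lit 104) (nat_lit 5) (nat_lit 107) (nat_lit 5) (nat_lit 108) (nat_lit 5) (nat_lit 455) (nat_lit 422) (nat_lit 323)) (XT.lf (nat_lit 0) (nat_lit 17521883290) (nat_lit 304) (nat_lit 11356460221) (nat_lit 76) (nat_lit 1463481910) (nat_lit 104) (nat_lit 5) (nat_lit 108) (nat_lit 5) (nat_lit 105) (nat_lit 5) (nat_lit 456) (nat_lit 422) (nat_lit 322))))) (XT.nd (nat_lit 312) (nat_lit 380) (nat_lit 0) (XT.nd (nat_lit 156) (nat_lit 380) (nat_lit 0) (XT.nd (nat_lit 78) (nat_lit 76) (nat_lit 0) (XT.lf (nat_lit 0) (nat_lit 7350744928) (nat_lit 152) (nat_lit 17940136597) (nat_lit 228) (nat_lit 5973773504) (nat_lit 102) (nat_lit 5) (nat_lit 104) (nat_lit 5) (nat_lit 105) (nat_lit 5) (nat_lit 457) (nat_lit 422) (nat_lit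 321)) (XT.lf (nat_lit 0) (nat_lit 1362581205) (nat_lit 228) (nat_lit 4872352721) (nat_lit 76) (nat_lit 25988406495) (nat_lit 101) (nat_lit 5) (nat_lit 104) (nat_lit 5) (nat_lit 102) (nat_lit 5) (nat_lit 458) (nat_lit 422) (nat_lit 320))) (XT.nd (nat_lit 78) (nat_lit 152) (nat_lit 0) (XT.lf (nat_lit 0) (nat_lit 9198829366) (nat_lit 304) (nat_lit 17806908565) (nat_lit 76) (nat_lit 6202634253) (nat_lit 98) (nat_lit 5) (nat_lit 102) (nat_lit 5) (nat_lit 99) (nat_lit 5) (nat_lit 459) (nat_lit 422) (nat_lit 319)) (XT.lf (nat_lit 0) (nat_lit 2585518710) (nat_lit 152) (nat_lit 15059628364) (nat_lit 228) (nat_lit 16586595908) (nat_lit 96) (nat_lit 5) (nat_lit 98) (nat_lit 5) (nat_lit 99) (nat_lit 5) (nat_lit 460) (nat_lit 422) (nat_lit 318)))) (XT.nd (nat_lit 156) (nat_lit 152) (nat_lit 0) (XT.nd (nat_lit 78) (nat_lit 228) (nat_lit 0) (XT.lf (nat_lit 0) (nat_lit 24602729599) (nat_lit 152) (nat_lit 2204615451)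 (nat_lit 228) (nat_lit 8484259343) (nat_lit 96) (nat_lit 5) (nat_lit 98) (nat_lit 5) (nat_lit 99) (nat_lit 5) (nat_lit 461) (nat_lit 422) (nat_lit 317)) (XT.lf (nat_lit 0) (nat_lit 376249746) (nat_lit 228) (nat_lit 24897918467) (nat_lit 76) (nat_lit 11112582915) (nat_lit 93) (nat_lit 5) (nat_lit 96) (nat_lit 5) (nat_lit 94) (nat_lit 5) (nat_lit 462) (nat_lit 422) (nat_lit 316))) (XT.nd (nat_lit 78) (nat_lit 152) (nat_lit 0) (XT.lf (nat_lit 0) (nat_lit 9607136709) (nat_lit 228) (nat_lit 2572066006) (nat_lit 76) (nat_lit 25339874468) (nat_lit 93) (nat_lit 5) (nat_lit 96) (nat_lit 5) (nat_lit 94) (nat_lit 5) (nat_lit 463) (nat_lit 422) (nat_lit 315)) (XT.lf (nat_lit 0) (nat_lit 19658657992) (nat_lit 228) (nat_lit 17173963561) (nat_lit 76) (nat_lit 1857443728) (nat_lit 91) (nat_lit 5) (nat_lit 94) (nat_lit 5) (nat_lit 92) (nat_lit 5) (nat_lit 464) (nat_lit 422) (nat_lit 314)))))) (XT.nd (nat_lit 624)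 (nat_lit 912) (nat_lit 0) (XT.nd (nat_lit 312) (nat_lit 304) (nat_lit 0) (XT.nd (nat_lit 156) (nat_lit 304) (nat_lit 0) (XT.nd (nat_lit 78) (nat_lit 76) (nat_lit 0) (XT.lf (nat_lit 0) (nat_lit 6991692557) (nat_lit 152) (nat_lit 23566952595) (nat_lit 228) (nat_lit 9343663367) (nat_lit 89) (nat_lit 5) (nat_lit 91) (nat_lit 5) (nat_lit 92) (nat_lit 5) (nat_lit 465) (nat_lit 422) (nat_lit 313)) (XT.lf (nat_lit 0) (nat_lit 1090405461) (nat_lit 228) (nat_lit 8228752218) (nat_lit 76) (nat_lit 31840937020) (nat_lit 88) (nat_lit 5) (nat_lit 91) (nat_lit 5) (nat_lit 89) (nat_lit 5) (nat_lit 466) (nat_lit 422) (nat_lit 312))) (XT.nd (nat_lit 78) (nat_lit 152) (nat_lit 0) (XT.lf (nat_lit 0) (nat_lit 12103104923) (nat_lit 228) (nat_lit 24452780104) (nat_lit 76) (nat_lit 5898679841) (nat_lit 86) (nat_lit 5) (nat_lit 89) (nat_lit 5) (nat_lit 87) (nat_lit 5) (nat_lit 467) (nat_lit 422) (nat_lit 311)) (XT.lf (nat_lit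 0) (nat_lit 1917264016) (nat_lit 152) (nat_lit 22066771533) (nat_lit 228) (nat_lit 19813843373) (nat_lit 84) (nat_lit 5) (nat_lit 86) (nat_lit 5) (nat_lit 87) (nat_lit 5) (nat_lit 468) (nat_lit 422) (nat_lit 310)))) (XT.nd (nat_lit 156) (nat_lit 152) (nat_lit 0) (XT.nd (nat_lit 78) (nat_lit 152) (nat_lit 0) (XT.lf (nat_lit 0) (nat_lit 30443161305) (nat_lit 152) (nat_lit 6423358419) (nat_lit 228) (nat_lit 8321463782) (nat_lit 84) (nat_lit 5) (nat_lit 86) (nat_lit 5) (nat_lit 87) (nat_lit 5) (nat_lit 469) (nat_lit 422) (nat_lit 309)) (XT.lf (nat_lit 0) (nat_lit 4000528745) (nat_lit 152) (nat_lit 32664336068) (nat_lit 76) (nat_lit 9961061031) (nat_lit 82) (nat_lit 5) (nat_lit 84) (nat_lit 5) (nat_lit 83) (nat_lit 5) (nat_lit 470) (nat_lit 422) (nat_lit 308))) (XT.nd (nat_lit 78) (nat_lit 152) (nat_lit 0) (XT.lf (nat_lit 0) (nat_lit 17011726212) (nat_lit 152) (nat_lit 3765173643) (nat_lit 76) (nat_lit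 27334406673) (nat_lit 82) (nat_lit 5) (nat_lit 84) (nat_lit 5) (nat_lit 83) (nat_lit 5) (nat_lit 471) (nat_lit 422) (nat_lit 307)) (XT.lf (nat_lit 0) (nat_lit 27446638205) (nat_lit 152) (nat_lit 3649322180) (nat_lit 228) (nat_lit 18553872165) (nat_lit 80) (nat_lit 5) (nat_lit 82) (nat_lit 5) (nat_lit 83) (nat_lit 5) (nat_lit 472) (nat_lit 422) (nat_lit 306))))) (XT.nd (nat_lit 312) (nat_lit 532) (nat_lit 0) (XT.nd (nat_lit 156) (nat_lit 228) (nat_lit 0) (XT.nd (nat_lit 78) (nat_lit 76) (nat_lit 0) (XT.lf (nat_lit 0) (nat_lit 9144678159) (nat_lit 76) (nat_lit 37165123429) (nat_lit 152) (nat_lit 4934213660) (nat_lit 79) (nat_lit 5) (nat_lit 80) (nat_lit 5) (nat_lit 81) (nat_lit 4) (nat_lit 473) (nat_lit 422) (nat_lit 305)) (XT.lf (nat_lit 0) (nat_lit 9502684479) (nat_lit 152) (nat_lit 10291387202) (nat_lit 76) (nat_lit 33094721673) (nat_lit 78) (nat_lit 5) (nat_lit 80) (nat_lit 5) (nat_lit 79) (nat_lit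 5) (nat_lit 474) (nat_lit 422) (nat_lit 304))) (XT.nd (nat_lit 78) (nat_lit 76) (nat_lit 0) (XT.lf (nat_lit 0) (nat_lit 23776747418) (nat_lit 152) (nat_lit 1084393936) (nat_lit 228) (nat_lit 29732347906) (nat_lit 76) (nat_lit 5) (nat_lit 78) (nat_lit 5) (nat_lit 79) (nat_lit 5) (nat_lit 475) (nat_lit 422) (nat_lit 303)) (XT.lf (nat_lit 0) (nat_lit 3334593003) (nat_lit 76) (nat_lit 38166277414) (nat_lit 152) (nat_lit 14856882192) (nat_lit 75) (nat_lit 5) (nat_lit 76) (nat_lit 5) (nat_lit 77) (nat_lit 4) (nat_lit 476) (nat_lit 422) (nat_lit 302)))) (XT.nd (nat_lit 156) (nat_lit 304) (nat_lit 0) (XT.nd (nat_lit 78) (nat_lit 152) (nat_lit 0) (XT.lf (nat_lit 0) (nat_lit 1280558956) (nat_lit 152) (nat_lit 17969375090) (nat_lit 76) (nat_lit 38932569941) (nat_lit 74) (nat_lit 5) (nat_lit 76) (nat_lit 5) (nat_lit 75) (nat_lit 5) (nat_lit 477) (nat_lit 422) (nat_lit 301)) (XT.lf (nat_lit 0) (nat_lit 18038355192)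 (nat_lit 228) (nat_lit 40891881235) (nat_lit 76) (nat_lit 1140440249) (nat_lit 72) (nat_lit 5) (nat_lit 75) (nat_lit 5) (nat_lit 73) (nat_lit 4) (nat_lit 478) (nat_lit 422) (nat_lit 300))) (XT.nd (nat_lit 78) (nat_lit 304) (nat_lit 0) (XT.lf (nat_lit 0) (nat_lit 36253597345) (nat_lit 228) (nat_lit 3560299551) (nat_lit 76) (nat_lit 22208383394) (nat_lit 72) (nat_lit 5) (nat_lit 75) (nat_lit 5) (nat_lit 73) (nat_lit 4) (nat_lit 479) (nat_lit 422) (nat_lit 299)) (XT.nd (nat_lit 78) (nat_lit 228) (nat_lit 0) (XT.lf (nat_lit 0) (nat_lit 36806443321) (nat_lit 76) (nat_lit 19142738110) (nat_lit 152) (nat_lit 8093803752) (nat_lit 71) (nat_lit 5) (nat_lit 72) (nat_lit 5) (nat_lit 73) (nat_lit 4) (nat_lit 480) (nat_lit 422) (nat_lit 298)) (XT.lf (nat_lit 0) (nat_lit 10442500236) (nat_lit 228) (nat_lit 52781583856) (nat_lit 76) (nat_lit 2916841032) (nat_lit 68) (nat_lit 5) (nat_lit 71) (nat_lit 5) (nat_lit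 69) (nat_lit 4) (nat_lit 481) (nat_lit 422) (nat_lit 297))))))))
noncomputable def xc285 : XT := (XT.nd (nat_lit 1248) (nat_lit 1140) (nat_lit 0) (XT.nd (nat_lit 624) (nat_lit 532) (nat_lit 0) (XT.nd (nat_lit 312) (nat_lit 304) (nat_lit 0) (XT.nd (nat_lit 156) (nat_lit 152) (nat_lit 0) (XT.nd (nat_lit 78) (nat_lit 76) (nat_lit 0) (XT.lf (nat_lit 0) (nat_lit 30411225777) (nat_lit 228) (nat_lit 11853647692) (nat_lit 76) (nat_lit 26033373842) (nat_lit 68) (nat_lit 5) (nat_lit 71) (nat_lit 5) (nat_lit 69) (nat_lit 4) (nat_lit 482) (nat_lit 422) (nat_lit 296)) (XT.lf (nat_lit 0) (nat_lit 32140332618) (nat_lit 76) (nat_lit 19735065295) (nat_lit 152) (nat_lit 18663187255) (nat_lit 67) (nat_lit 5) (nat_lit 68) (nat_lit 5) (nat_lit 69) (nat_lit 4) (nat_lit 483) (nat_lit 422) (nat_lit 295))) (XT.nd (nat_lit 78) (nat_lit 0) (nat_lit 0) (XT.lf (nat_lit 0) (nat_lit 1832829081) (nat_lit 152) (nat_lit 66920267121)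 (nat_lit 76) (nat_lit 4118670840) (nat_lit 65) (nat_lit 5) (nat_lit 67) (nat_lit 5) (nat_lit 66) (nat_lit 4) (nat_lit 484) (nat_lit 422) (nat_lit 294)) (XT.lf (nat_lit 0) (nat_lit 23706164187) (nat_lit 152) (nat_lit 22086471622) (nat_lit 76) (nat_lit 29464688398) (nat_lit 65) (nat_lit 5) (nat_lit 67) (nat_lit 5) (nat_lit 66) (nat_lit 4) (nat_lit 485) (nat_lit 422) (nat_lit 293)))) (XT.nd (nat_lit 156) (nat_lit 228) (nat_lit 0) (XT.nd (nat_lit 78) (nat_lit 0) (nat_lit 0) (XT.lf (nat_lit 0) (nat_lit 25806330916) (nat_lit 76) (nat_lit 21265214983) (nat_lit 152) (nat_lit 30670694401) (nat_lit 64) (nat_lit 5) (nat_lit 65) (nat_lit 5) (nat_lit 66) (nat_lit 4) (nat_lit 486) (nat_lit 422) (nat_lit 292)) (XT.lf (nat_lit 0) (nat_lit 72050943099) (nat_lit 152) (nat_lit 3557011103) (nat_lit 0) (nat_lit 4721160733) (nat_lit 64) (nat_lit 5) (nat_lit 66) (nat_lit 4) (nat_lit 64) (nat_lit 4) (nat_lit 487) (nat_lit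 422) (nat_lit 291))) (XT.nd (nat_lit 78) (nat_lit 76) (nat_lit 0) (XT.lf (nat_lit 0) (nat_lit 15864943566) (nat_lit 152) (nat_lit 34812029737) (nat_lit 76) (nat_lit 32300540343) (nat_lit 62) (nat_lit 5) (nat_lit 64) (nat_lit 5) (nat_lit 63) (nat_lit 4) (nat_lit 488) (nat_lit 422) (nat_lit 290)) (XT.lf (nat_lit 0) (nat_lit 17249406203) (nat_lit 76) (nat_lit 24013859974) (nat_lit 152) (nat_lit 44471968164) (nat_lit 61) (nat_lit 5) (nat_lit 62) (nat_lit 5) (nat_lit 63) (nat_lit 4) (nat_lit 489) (nat_lit 422) (nat_lit 289))))) (XT.nd (nat_lit 312) (nat_lit 304) (nat_lit 0) (XT.nd (nat_lit 156) (nat_lit 76) (nat_lit 0) (XT.nd (nat_lit 78) (nat_lit 152) (nat_lit 0) (XT.lf (nat_lit 0) (nat_lit 68588634443) (nat_lit 152) (nat_lit 15558973666) (nat_lit 0) (nat_lit 4450376533) (nat_lit 61) (nat_lit 5) (nat_lit 63) (nat_lit 4) (nat_lit 61) (nat_lit 4) (nat_lit 490) (nat_lit 422) (nat_lit 288)) (XT.lf (nat_lit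 0) (nat_lit 6540096060) (nat_lit 152) (nat_lit 50735488510) (nat_lit 76) (nat_lit 34271587826) (nat_lit 59) (nat_lit 5) (nat_lit 61) (nat_lit 5) (nat_lit 60) (nat_lit 4) (nat_lit 491) (nat_lit 422) (nat_lit 287))) (XT.nd (nat_lit 78) (nat_lit 0) (nat_lit 0) (XT.lf (nat_lit 0) (nat_lit 5754344313) (nat_lit 76) (nat_lit 28343824680) (nat_lit 152) (nat_lit 60511569493) (nat_lit 58) (nat_lit 5) (nat_lit 59) (nat_lit 5) (nat_lit 60) (nat_lit 4) (nat_lit 492) (nat_lit 422) (nat_lit 286)) (XT.lf (nat_lit 0) (nat_lit 63935179039) (nat_lit 152) (nat_lit 31006135568) (nat_lit 0) (nat_lit 2839066640) (nat_lit 58) (nat_lit 5) (nat_lit 60) (nat_lit 4) (nat_lit 58) (nat_lit 4) (nat_lit 493) (nat_lit 422) (nat_lit 285)))) (XT.nd (nat_lit 156) (nat_lit 152) (nat_lit 0) (XT.nd (nat_lit 78) (nat_lit 76) (nat_lit 0) (XT.lf (nat_lit 0) (nat_lit 30230985614) (nat_lit 76) (nat_lit 65965843025) (nat_lit 76) (nat_lit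 4866088092) (nat_lit 57) (nat_lit 4) (nat_lit 58) (nat_lit 5) (nat_lit 58) (nat_lit 4) (nat_lit 494) (nat_lit 422) (nat_lit 284)) (XT.lf (nat_lit 0) (nat_lit 25273702422) (nat_lit 152) (nat_lit 9292134047) (nat_lit 76) (nat_lit 69897294657) (nat_lit 56) (nat_lit 5) (nat_lit 58) (nat_lit 5) (nat_lit 57) (nat_lit 4) (nat_lit 495) (nat_lit 422) (nat_lit 283))) (XT.nd (nat_lit 78) (nat_lit 76) (nat_lit 0) (XT.lf (nat_lit 0) (nat_lit 57064114019) (nat_lit 76) (nat_lit 580101551) (nat_lit 152) (nat_lit 50340788829) (nat_lit 55) (nat_lit 5) (nat_lit 56) (nat_lit 5) (nat_lit 57) (nat_lit 4) (nat_lit 496) (nat_lit 422) (nat_lit 282)) (XT.lf (nat_lit 0) (nat_lit 15318096905) (nat_lit 76) (nat_lit 77258693803) (nat_lit 76) (nat_lit 19059003842) (nat_lit 54) (nat_lit 4) (nat_lit 55) (nat_lit 5) (nat_lit 55) (nat_lit 4) (nat_lit 497) (nat_lit 422) (nat_lit 281)))))) (XT.nd (nat_lit 624) (nat_lit 608) (nat_lit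 0) (XT.nd (nat_lit 312) (nat_lit 228) (nat_lit 0) (XT.nd (nat_lit 156) (nat_lit 152) (nat_lit 0) (XT.nd (nat_lit 78) (nat_lit 76) (nat_lit 0) (XT.lf (nat_lit 0) (nat_lit 14227971355) (nat_lit 152) (nat_lit 29035202703) (nat_lit 76) (nat_lit 72151069247) (nat_lit 53) (nat_lit 5) (nat_lit 55) (nat_lit 5) (nat_lit 54) (nat_lit 4) (nat_lit 498) (nat_lit 422) (nat_lit 280)) (XT.lf (nat_lit 0) (nat_lit 42657430751) (nat_lit 76) (nat_lit 6543882833) (nat_lit 152) (nat_lit 70131552517) (nat_lit 52) (nat_lit 5) (nat_lit 53) (nat_lit 5) (nat_lit 54) (nat_lit 4) (nat_lit 499) (nat_lit 422) (nat_lit 279))) (XT.nd (nat_lit 78) (nat_lit 152) (nat_lit 0) (XT.lf (nat_lit 0) (nat_lit 86919428674) (nat_lit 152) (nat_lit 4994805789) (nat_lit 0) (nat_lit 31483380313) (nat_lit 52) (nat_lit 5) (nat_lit 54) (nat_lit 4) (nat_lit 52) (nat_lit 4) (nat_lit 500) (nat_lit 422) (nat_lit 278)) (XT.lf (nat_lit 0) (nat_lit 150182368)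 (nat_lit 152) (nat_lit 55130522517) (nat_lit 76) (nat_lit 72322998745) (nat_lit 50) (nat_lit 5) (nat_lit 52) (nat_lit 5) (nat_lit 51) (nat_lit 4) (nat_lit 501) (nat_lit 422) (nat_lit 277)))) (XT.nd (nat_lit 156) (nat_lit 152) (nat_lit 0) (XT.nd (nat_lit 78) (nat_lit 0) (nat_lit 0) (XT.lf (nat_lit 0) (nat_lit 22072647548) (nat_lit 76) (nat_lit 15738708607) (nat_lit 152) (nat_lit 94157475981) (nat_lit 49) (nat_lit 5) (nat_lit 50) (nat_lit 5) (nat_lit 51) (nat_lit 4) (nat_lit 502) (nat_lit 422) (nat_lit 276)) (XT.lf (nat_lit 0) (nat_lit 78703768825) (nat_lit 152) (nat_lit 31879901179) (nat_lit 0) (nat_lit 25901138076) (nat_lit 49) (nat_lit 5) (nat_lit 51) (nat_lit 4) (nat_lit 49) (nat_lit 4) (nat_lit 503) (nat_lit 422) (nat_lit 275))) (XT.nd (nat_lit 78) (nat_lit 76) (nat_lit 0) (XT.lf (nat_lit 0) (nat_lit 51418674384) (nat_lit 76) (nat_lit 71279793809) (nat_lit 76) (nat_lit 18475231345) (nat_lit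 48) (nat_lit 4) (nat_lit 49) (nat_lit 5) (nat_lit 49) (nat_lit 4) (nat_lit 504) (nat_lit 422) (nat_lit 274)) (XT.lf (nat_lit 0) (nat_lit 22611877165) (nat_lit 152) (nat_lit 6452054002) (nat_lit 76) (nat_lit 116988028036) (nat_lit 47) (nat_lit 5) (nat_lit 49) (nat_lit 5) (nat_lit 48) (nat_lit 4) (nat_lit 505) (nat_lit 422) (nat_lit 273))))) (XT.nd (nat_lit 312) (nat_lit 304) (nat_lit 0) (XT.nd (nat_lit 156) (nat_lit 152) (nat_lit 0) (XT.nd (nat_lit 78) (nat_lit 76) (nat_lit 0) (XT.lf (nat_lit 0) (nat_lit 66695751970) (nat_lit 152) (nat_lit 67982799604) (nat_lit 0) (nat_lit 16402271672) (nat_lit 46) (nat_lit 5) (nat_lit 48) (nat_lit 4) (nat_lit 46) (nat_lit 4) (nat_lit 506) (nat_lit 422) (nat_lit 272)) (XT.lf (nat_lit 0) (nat_lit 21187893673) (nat_lit 76) (nat_lit 92711269609) (nat_lit 76) (nat_lit 42416200086) (nat_lit 45) (nat_lit 4) (nat_lit 46) (nat_lit 5) (nat_lit 46) (nat_lit 4) (nat_lit 507)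 (nat_lit 422) (nat_lit 271))) (XT.nd (nat_lit 78) (nat_lit 76) (nat_lit 0) (XT.lf (nat_lit 0) (nat_lit 2765489476) (nat_lit 152) (nat_lit 44627329645) (nat_lit 76) (nat_lit 114359161426) (nat_lit 44) (nat_lit 5) (nat_lit 46) (nat_lit 5) (nat_lit 45) (nat_lit 4) (nat_lit 508) (nat_lit 422) (nat_lit 270)) (XT.lf (nat_lit 0) (nat_lit 49607015267) (nat_lit 152) (nat_lit 116073200496) (nat_lit 0) (nat_lit 1704134747) (nat_lit 43) (nat_lit 5) (nat_lit 45) (nat_lit 4) (nat_lit 43) (nat_lit 4) (nat_lit 509) (nat_lit 422) (nat_lit 269)))) (XT.nd (nat_lit 156) (nat_lit 228) (nat_lit 0) (XT.nd (nat_lit 78) (nat_lit 76) (nat_lit 0) (XT.lf (nat_lit 0) (nat_lit 100332895386) (nat_lit 152) (nat_lit 20459622292) (nat_lit 0) (nat_lit 52428707406) (nat_lit 43) (nat_lit 5) (nat_lit 45) (nat_lit 4) (nat_lit 43) (nat_lit 4) (nat_lit 510) (nat_lit 422) (nat_lit 268)) (XT.lf (nat_lit 0) (nat_lit 82572061238) (nat_lit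 76) (nat_lit 72309495490) (nat_lit 76) (nat_lit 24404062310) (nat_lit 42) (nat_lit 4) (nat_lit 43) (nat_lit 5) (nat_lit 43) (nat_lit 4) (nat_lit 511) (nat_lit 422) (nat_lit 267))) (XT.nd (nat_lit 78) (nat_lit 76) (nat_lit 0) (XT.lf (nat_lit 0) (nat_lit 5583555783) (nat_lit 76) (nat_lit 20509212445) (nat_lit 152) (nat_lit 159517941226) (nat_lit 40) (nat_lit 5) (nat_lit 41) (nat_lit 5) (nat_lit 42) (nat_lit 4) (nat_lit 512) (nat_lit 422) (nat_lit 266)) (XT.nd (nat_lit 78) (nat_lit 76) (nat_lit 0) (XT.lf (nat_lit 0) (nat_lit 80485335646) (nat_lit 152) (nat_lit 76778255346) (nat_lit 0) (nat_lit 34858908486) (nat_lit 40) (nat_lit 5) (nat_lit 42) (nat_lit 4) (nat_lit 40) (nat_lit 4) (nat_lit 513) (nat_lit 422) (nat_lit 265)) (XT.lf (nat_lit 0) (nat_lit 32326373378) (nat_lit 76) (nat_lit 106109519575) (nat_lit 76) (nat_lit 60482067985) (nat_lit 39) (nat_lit 4) (nat_lit 40) (nat_lit 5) (nat_lit 40) (nat_lit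 4) (nat_lit 514) (nat_lit 422) (nat_lit 264))))))))
noncomputable def xc286 : XT := (XT.nd (nat_lit 1248) (nat_lit 836) (nat_lit 0) (XT.nd (nat_lit 624) (nat_lit 456) (nat_lit 0) (XT.nd (nat_lit 312) (nat_lit 228) (nat_lit 0) (XT.nd (nat_lit 156) (nat_lit 76) (nat_lit 0) (XT.nd (nat_lit 78) (nat_lit 152) (nat_lit 0) (XT.lf (nat_lit 0) (nat_lit 149546740409) (nat_lit 76) (nat_lit 51034997168) (nat_lit 76) (nat_lit 5406569932) (nat_lit 39) (nat_lit 4) (nat_lit 40) (nat_lit 5) (nat_lit 40) (nat_lit 4) (nat_lit 515) (nat_lit 422) (nat_lit 263)) (XT.lf (nat_lit 0) (nat_lit 51819108498) (nat_lit 152) (nat_lit 153135848114) (nat_lit 0) (nat_lit 8362578571) (nat_lit 37) (nat_lit 5) (nat_lit 39) (nat_lit 4) (nat_lit 37) (nat_lit 4) (nat_lit 516) (nat_lit 422) (nat_lit 262))) (XT.nd (nat_lit 78) (nat_lit 76) (nat_lit 0) (XT.lf (nat_lit 0) (nat_lit 113530115133) (nat_lit 152) (nat_lit 37315648075) (nat_lit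 0) (nat_lit 70072742404) (nat_lit 37) (nat_lit 5) (nat_lit 39) (nat_lit 4) (nat_lit 37) (nat_lit 4) (nat_lit 517) (nat_lit 422) (nat_lit 261)) (XT.lf (nat_lit 0) (nat_lit 87077929727) (nat_lit 76) (nat_lit 92605954808) (nat_lit 76) (nat_lit 49147779413) (nat_lit 36) (nat_lit 4) (nat_lit 37) (nat_lit 5) (nat_lit 37) (nat_lit 4) (nat_lit 518) (nat_lit 422) (nat_lit 260)))) (XT.nd (nat_lit 156) (nat_lit 76) (nat_lit 0) (XT.nd (nat_lit 78) (nat_lit 76) (nat_lit 0) (XT.lf (nat_lit 0) (nat_lit 12260633372) (nat_lit 152) (nat_lit 18324641425) (nat_lit 76) (nat_lit 206513833848) (nat_lit 35) (nat_lit 5) (nat_lit 37) (nat_lit 5) (nat_lit 36) (nat_lit 4) (nat_lit 519) (nat_lit 422) (nat_lit 259)) (XT.lf (nat_lit 0) (nat_lit 77448870498) (nat_lit 152) (nat_lit 132114004844) (nat_lit 0) (nat_lit 36058710609) (nat_lit 34) (nat_lit 5) (nat_lit 36) (nat_lit 4) (nat_lit 34) (nat_lit 4) (nat_lit 520) (nat_lit 422)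 (nat_lit 258))) (XT.nd (nat_lit 78) (nat_lit 76) (nat_lit 0) (XT.lf (nat_lit 0) (nat_lit 146711137377) (nat_lit 152) (nat_lit 2498001724) (nat_lit 0) (nat_lit 105320317132) (nat_lit 34) (nat_lit 5) (nat_lit 36) (nat_lit 4) (nat_lit 34) (nat_lit 4) (nat_lit 521) (nat_lit 422) (nat_lit 257)) (XT.lf (nat_lit 0) (nat_lit 138011802127) (nat_lit 76) (nat_lit 83577367238) (nat_lit 76) (nat_lit 42185918083) (nat_lit 33) (nat_lit 4) (nat_lit 34) (nat_lit 5) (nat_lit 34) (nat_lit 4) (nat_lit 522) (nat_lit 422) (nat_lit 256))))) (XT.nd (nat_lit 312) (nat_lit 228) (nat_lit 0) (XT.nd (nat_lit 156) (nat_lit 76) (nat_lit 0) (XT.nd (nat_lit 78) (nat_lit 0) (nat_lit 0) (XT.lf (nat_lit 0) (nat_lit 12118572040) (nat_lit 76) (nat_lit 13984169500) (nat_lit 152) (nat_lit 247347888410) (nat_lit 31) (nat_lit 5) (nat_lit 32) (nat_lit 5) (nat_lit 33) (nat_lit 4) (nat_lit 523) (nat_lit 422) (nat_lit 255)) (XT.lf (nat_lit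 0) (nat_lit 99473332176) (nat_lit 152) (nat_lit 123895987016) (nat_lit 0) (nat_lit 60051790693) (nat_lit 31) (nat_lit 5) (nat_lit 33) (nat_lit 4) (nat_lit 31) (nat_lit 4) (nat_lit 524) (nat_lit 422) (nat_lit 254))) (XT.nd (nat_lit 78) (nat_lit 0) (nat_lit 0) (XT.lf (nat_lit 0) (nat_lit 20845794463) (nat_lit 76) (nat_lit 156219371289) (nat_lit 76) (nat_lit 116797312399) (nat_lit 30) (nat_lit 4) (nat_lit 31) (nat_lit 5) (nat_lit 31) (nat_lit 4) (nat_lit 525) (nat_lit 422) (nat_lit 253)) (XT.lf (nat_lit 0) (nat_lit 177122079192) (nat_lit 76) (nat_lit 83510786777) (nat_lit 76) (nat_lit 44088235119) (nat_lit 30) (nat_lit 4) (nat_lit 31) (nat_lit 5) (nat_lit 31) (nat_lit 4) (nat_lit 526) (nat_lit 422) (nat_lit 252)))) (XT.nd (nat_lit 156) (nat_lit 76) (nat_lit 0) (XT.nd (nat_lit 78) (nat_lit 0) (nat_lit 0) (XT.lf (nat_lit 0) (nat_lit 25394857535) (nat_lit 76) (nat_lit 6223619779) (nat_lit 152) (nat_lit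 284459268093) (nat_lit 28) (nat_lit 5) (nat_lit 29) (nat_lit 5) (nat_lit 30) (nat_lit 4) (nat_lit 527) (nat_lit 422) (nat_lit 251)) (XT.lf (nat_lit 0) (nat_lit 112993183545) (nat_lit 152) (nat_lit 139357661280) (nat_lit 0) (nat_lit 75447023625) (nat_lit 28) (nat_lit 5) (nat_lit 30) (nat_lit 4) (nat_lit 28) (nat_lit 4) (nat_lit 528) (nat_lit 422) (nat_lit 250))) (XT.nd (nat_lit 78) (nat_lit 0) (nat_lit 0) (XT.lf (nat_lit 0) (nat_lit 20070515473) (nat_lit 76) (nat_lit 178779684380) (nat_lit 76) (nat_lit 141233119058) (nat_lit 27) (nat_lit 4) (nat_lit 28) (nat_lit 5) (nat_lit 28) (nat_lit 4) (nat_lit 529) (nat_lit 422) (nat_lit 249)) (XT.lf (nat_lit 0) (nat_lit 192304677069) (nat_lit 76) (nat_lit 99053700363) (nat_lit 76) (nat_lit 61506748945) (nat_lit 27) (nat_lit 4) (nat_lit 28) (nat_lit 5) (nat_lit 28) (nat_lit 4) (nat_lit 530) (nat_lit 422) (nat_lit 248)))))) (XT.nd (nat_lit 624) (nat_lit 380)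 (nat_lit 0) (XT.nd (nat_lit 312) (nat_lit 228) (nat_lit 0) (XT.nd (nat_lit 156) (nat_lit 76) (nat_lit 0) (XT.nd (nat_lit 78) (nat_lit 0) (nat_lit 0) (XT.lf (nat_lit 0) (nat_lit 6729726368) (nat_lit 76) (nat_lit 14868832410) (nat_lit 152) (nat_lit 344664963200) (nat_lit 25) (nat_lit 5) (nat_lit 26) (nat_lit 5) (nat_lit 27) (nat_lit 4) (nat_lit 531) (nat_lit 422) (nat_lit 247)) (XT.lf (nat_lit 0) (nat_lit 110702062013) (nat_lit 152) (nat_lit 194441485034) (nat_lit 0) (nat_lit 74942376937) (nat_lit 25) (nat_lit 5) (nat_lit 27) (nat_lit 4) (nat_lit 25) (nat_lit 4) (nat_lit 532) (nat_lit 422) (nat_lit 246))) (XT.nd (nat_lit 78) (nat_lit 76) (nat_lit 0) (XT.lf (nat_lit 0) (nat_lit 204502852821) (nat_lit 152) (nat_lit 21341637551) (nat_lit 0) (nat_lit 168742850103) (nat_lit 25) (nat_lit 5) (nat_lit 27) (nat_lit 4) (nat_lit 25) (nat_lit 4) (nat_lit 533) (nat_lit 422) (nat_lit 245)) (XT.lf (nat_lit 0) (nat_lit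 165713913616) (nat_lit 76) (nat_lit 139865467263) (nat_lit 76) (nat_lit 104105162027) (nat_lit 24) (nat_lit 4) (nat_lit 25) (nat_lit 5) (nat_lit 25) (nat_lit 4) (nat_lit 534) (nat_lit 422) (nat_lit 244)))) (XT.nd (nat_lit 156) (nat_lit 76) (nat_lit 0) (XT.nd (nat_lit 78) (nat_lit 152) (nat_lit 0) (XT.lf (nat_lit 0) (nat_lit 362860058089) (nat_lit 76) (nat_lit 49209572967) (nat_lit 76) (nat_lit 13448979621) (nat_lit 24) (nat_lit 4) (nat_lit 25) (nat_lit 5) (nat_lit 25) (nat_lit 4) (nat_lit 535) (nat_lit 422) (nat_lit 243)) (XT.lf (nat_lit 0) (nat_lit 81933880589) (nat_lit 152) (nat_lit 312130277427) (nat_lit 0) (nat_lit 47875911314) (nat_lit 22) (nat_lit 5) (nat_lit 24) (nat_lit 4) (nat_lit 22) (nat_lit 4) (nat_lit 536) (nat_lit 422) (nat_lit 242))) (XT.nd (nat_lit 78) (nat_lit 76) (nat_lit 0) (XT.lf (nat_lit 0) (nat_lit 183517687820) (nat_lit 152) (nat_lit 126100230781) (nat_lit 0) (nat_lit 149459469664)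 (nat_lit 22) (nat_lit 5) (nat_lit 24) (nat_lit 4) (nat_lit 22) (nat_lit 4) (nat_lit 537) (nat_lit 422) (nat_lit 241)) (XT.lf (nat_lit 0) (nat_lit 71517447674) (nat_lit 76) (nat_lit 219778411001) (nat_lit 76) (nat_lit 185719955815) (nat_lit 21) (nat_lit 4) (nat_lit 22) (nat_lit 5) (nat_lit 22) (nat_lit 4) (nat_lit 538) (nat_lit 422) (nat_lit 240))))) (XT.nd (nat_lit 312) (nat_lit 228) (nat_lit 0) (XT.nd (nat_lit 156) (nat_lit 76) (nat_lit 0) (XT.nd (nat_lit 78) (nat_lit 76) (nat_lit 0) (XT.lf (nat_lit 0) (nat_lit 283391096220) (nat_lit 76) (nat_lit 123206018941) (nat_lit 76) (nat_lit 89147338012) (nat_lit 21) (nat_lit 4) (nat_lit 22) (nat_lit 5) (nat_lit 22) (nat_lit 4) (nat_lit 539) (nat_lit 422) (nat_lit 239)) (XT.lf (nat_lit 0) (nat_lit 11860362204) (nat_lit 152) (nat_lit 9745153402) (nat_lit 76) (nat_lit 493794509632) (nat_lit 20) (nat_lit 5) (nat_lit 22) (nat_lit 5) (nat_lit 21) (nat_lit 4)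 (nat_lit 540) (nat_lit 422) (nat_lit 238))) (XT.nd (nat_lit 78) (nat_lit 0) (nat_lit 0) (XT.lf (nat_lit 0) (nat_lit 119577187186) (nat_lit 152) (nat_lit 329015434943) (nat_lit 0) (nat_lit 87139948446) (nat_lit 19) (nat_lit 5) (nat_lit 21) (nat_lit 4) (nat_lit 19) (nat_lit 4) (nat_lit 541) (nat_lit 422) (nat_lit 237)) (XT.lf (nat_lit 0) (nat_lit 233200504607) (nat_lit 152) (nat_lit 123092125867) (nat_lit 0) (nat_lit 200763080148) (nat_lit 19) (nat_lit 5) (nat_lit 21) (nat_lit 4) (nat_lit 19) (nat_lit 4) (nat_lit 542) (nat_lit 422) (nat_lit 236)))) (XT.nd (nat_lit 156) (nat_lit 152) (nat_lit 0) (XT.nd (nat_lit 78) (nat_lit 0) (nat_lit 0) (XT.lf (nat_lit 0) (nat_lit 96203992333) (nat_lit 76) (nat_lit 257801788513) (nat_lit 76) (nat_lit 225364187179) (nat_lit 18) (nat_lit 4) (nat_lit 19) (nat_lit 5) (nat_lit 19) (nat_lit 4) (nat_lit 543) (nat_lit 422) (nat_lit 235)) (XT.lf (nat_lit 0) (nat_lit 330735952293)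 (nat_lit 76) (nat_lit 152198792305) (nat_lit 76) (nat_lit 119761022518) (nat_lit 18) (nat_lit 4) (nat_lit 19) (nat_lit 5) (nat_lit 19) (nat_lit 4) (nat_lit 544) (nat_lit 422) (nat_lit 234))) (XT.nd (nat_lit 78) (nat_lit 152) (nat_lit 0) (XT.lf (nat_lit 0) (nat_lit 576992181859) (nat_lit 76) (nat_lit 41316830856) (nat_lit 76) (nat_lit 8878900638) (nat_lit 18) (nat_lit 4) (nat_lit 19) (nat_lit 5) (nat_lit 19) (nat_lit 4) (nat_lit 545) (nat_lit 422) (nat_lit 233)) (XT.nd (nat_lit 78) (nat_lit 0) (nat_lit 0) (XT.lf (nat_lit 0) (nat_lit 108271014464) (nat_lit 152) (nat_lit 466963800944) (nat_lit 0) (nat_lit 77377602074) (nat_lit 16) (nat_lit 5) (nat_lit 18) (nat_lit 4) (nat_lit 16) (nat_lit 4) (nat_lit 546) (nat_lit 422) (nat_lit 232)) (XT.lf (nat_lit 0) (nat_lit 232520279285) (nat_lit 152) (nat_lit 245076849276) (nat_lit 0) (nat_lit 201626728309) (nat_lit 16) (nat_lit 5) (nat_lit 18) (nat_lit 4) (nat_lit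 16) (nat_lit 4) (nat_lit 547) (nat_lit 422) (nat_lit 231))))))))
noncomputable def xc287 : XT := (XT.nd (nat_lit 53508) (nat_lit 0) (nat_lit 8208) (XT.nd (nat_lit 52884) (nat_lit 0) (nat_lit 11476) (XT.nd (nat_lit 312) (nat_lit 76) (nat_lit 0) (XT.nd (nat_lit 156) (nat_lit 76) (nat_lit 0) (XT.nd (nat_lit 78) (nat_lit 76) (nat_lit 0) (XT.lf (nat_lit 0) (nat_lit 362980953312) (nat_lit 152) (nat_lit 12097697269) (nat_lit 0) (nat_lit 332087270349) (nat_lit 16) (nat_lit 5) (nat_lit 18) (nat_lit 4) (nat_lit 16) (nat_lit 4) (nat_lit 548) (nat_lit 422) (nat_lit 230)) (XT.lf (nat_lit 0) (nat_lit 240216805297) (nat_lit 76) (nat_lit 263497309439) (nat_lit 76) (nat_lit 232603500773) (nat_lit 15) (nat_lit 4) (nat_lit 16) (nat_lit 5) (nat_lit 16) (nat_lit 4) (nat_lit 549) (nat_lit 422) (nat_lit 229))) (XT.nd (nat_lit 78) (nat_lit 76) (nat_lit 0) (XT.lf (nat_lit 0) (nat_lit 505565025714) (nat_lit 76) (nat_lit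 146122801421) (nat_lit 76) (nat_lit 115228873039) (nat_lit 15) (nat_lit 4) (nat_lit 16) (nat_lit 5) (nat_lit 16) (nat_lit 4) (nat_lit 550) (nat_lit 422) (nat_lit 228)) (XT.lf (nat_lit 0) (nat_lit 7757016625) (nat_lit 152) (nat_lit 14992158315) (nat_lit 76) (nat_lit 776290355497) (nat_lit 14) (nat_lit 5) (nat_lit 16) (nat_lit 5) (nat_lit 15) (nat_lit 4) (nat_lit 551) (nat_lit 422) (nat_lit 227)))) (XT.nd (nat_lit 52416) (nat_lit 0) (nat_lit 11400) (XT.nd (nat_lit 78) (nat_lit 0) (nat_lit 0) (XT.lf (nat_lit 0) (nat_lit 138680981173) (nat_lit 152) (nat_lit 584452029601) (nat_lit 0) (nat_lit 109257980236) (nat_lit 13) (nat_lit 5) (nat_lit 15) (nat_lit 4) (nat_lit 13) (nat_lit 4) (nat_lit 552) (nat_lit 422) (nat_lit 226)) (XT.lf (nat_lit 0) (nat_lit 276781232989) (nat_lit 152) (nat_lit 343239153609) (nat_lit 0) (nat_lit 247358133562) (nat_lit 13) (nat_lit 5) (nat_lit 15) (nat_lit 4) (nat_lit 13) (nat_lit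 4) (nat_lit 553) (nat_lit 422) (nat_lit 225))) (XT.nd (nat_lit 78) (nat_lit 836) (nat_lit 0) (XT.lf (nat_lit 0) (nat_lit 3141614433) (nat_lit 0) (nat_lit 3141614433) (nat_lit 684) (nat_lit 92840497) (nat_lit 174) (nat_lit 5) (nat_lit 174) (nat_lit 3) (nat_lit 183) (nat_lit 3) (nat_lit 423) (nat_lit 423) (nat_lit 354)) (XT.lf (nat_lit 0) (nat_lit 229945243) (nat_lit 836) (nat_lit 115333875) (nat_lit 836) (nat_lit 12705070850) (nat_lit 163) (nat_lit 3) (nat_lit 174) (nat_lit 3) (nat_lit 174) (nat_lit 5) (nat_lit 424) (nat_lit 423) (nat_lit 353))))) (XT.nd (nat_lit 312) (nat_lit 0) (nat_lit 152) (XT.nd (nat_lit 156) (nat_lit 0) (nat_lit 76) (XT.nd (nat_lit 78) (nat_lit 0) (nat_lit 0) (XT.lf (nat_lit 0) (nat_lit 832995393) (nat_lit 760) (nat_lit 6698137698) (nat_lit 836) (nat_lit 5823544392) (nat_lit 164) (nat_lit 5) (nat_lit 174) (nat_lit 5) (nat_lit 175) (nat_lit 5) (nat_lit 425) (nat_lit 423) (nat_lit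 352)) (XT.lf (nat_lit 76) (nat_lit 78555032) (nat_lit 0) (nat_lit 1371234975) (nat_lit 836) (nat_lit 12225253718) (nat_lit 165) (nat_lit 5) (nat_lit 164) (nat_lit 5) (nat_lit 175) (nat_lit 5) (nat_lit 426) (nat_lit 423) (nat_lit 351))) (XT.nd (nat_lit 78) (nat_lit 0) (nat_lit 0) (XT.lf (nat_lit 0) (nat_lit 2268130977) (nat_lit 760) (nat_lit 6676836640) (nat_lit 836) (nat_lit 5057927186) (nat_lit 165) (nat_lit 5) (nat_lit 175) (nat_lit 5) (nat_lit 176) (nat_lit 5) (nat_lit 427) (nat_lit 423) (nat_lit 350)) (XT.lf (nat_lit 76) (nat_lit 569032230) (nat_lit 0) (nat_lit 2566708495) (nat_lit 836) (nat_lit 11210981892) (nat_lit 166) (nat_lit 5) (nat_lit 165) (nat_lit 5) (nat_lit 176) (nat_lit 5) (nat_lit 428) (nat_lit 423) (nat_lit 349)))) (XT.nd (nat_lit 156) (nat_lit 0) (nat_lit 76) (XT.nd (nat_lit 78) (nat_lit 0) (nat_lit 0) (XT.lf (nat_lit 0) (nat_lit 4204102029) (nat_lit 760) (nat_lit 6375896929)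 (nat_lit 836) (nat_lit 4119875992) (nat_lit 166) (nat_lit 5) (nat_lit 176) (nat_lit 5) (nat_lit 177) (nat_lit 5) (nat_lit 429) (nat_lit 423) (nat_lit 348)) (XT.lf (nat_lit 76) (nat_lit 1382474635) (nat_lit 0) (nat_lit 3986071875) (nat_lit 836) (nat_lit 9700006739) (nat_lit 167) (nat_lit 5) (nat_lit 166) (nat_lit 5) (nat_lit 177) (nat_lit 5) (nat_lit 430) (nat_lit 423) (nat_lit 347))) (XT.nd (nat_lit 78) (nat_lit 0) (nat_lit 0) (XT.lf (nat_lit 0) (nat_lit 6726663296) (nat_lit 760) (nat_lit 5764296283) (nat_lit 836) (nat_lit 2957934906) (nat_lit 167) (nat_lit 5) (nat_lit 177) (nat_lit 5) (nat_lit 178) (nat_lit 5) (nat_lit 431) (nat_lit 423) (nat_lit 346)) (XT.lf (nat_lit 76) (nat_lit 2554250521) (nat_lit 0) (nat_lit 5684457585) (nat_lit 836) (nat_lit 7605245022) (nat_lit 168) (nat_lit 5) (nat_lit 167) (nat_lit 5) (nat_lit 178) (nat_lit 5) (nat_lit 432) (nat_lit 423) (nat_lit 345)))))) (XT.nd (nat_lit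 624) (nat_lit 1520) (nat_lit 0) (XT.nd (nat_lit 312) (nat_lit 836) (nat_lit 0) (XT.nd (nat_lit 156) (nat_lit 456) (nat_lit 0) (XT.nd (nat_lit 78) (nat_lit 760) (nat_lit 0) (XT.lf (nat_lit 0) (nat_lit 9929926471) (nat_lit 760) (nat_lit 4805920617) (nat_lit 76) (nat_lit 1517740434) (nat_lit 168) (nat_lit 5) (nat_lit 178) (nat_lit 5) (nat_lit 169) (nat_lit 5) (nat_lit 433) (nat_lit 423) (nat_lit 344)) (XT.lf (nat_lit 0) (nat_lit 4125226162) (nat_lit 760) (nat_lit 7720471985) (nat_lit 836) (nat_lit 4831007188) (nat_lit 158) (nat_lit 5) (nat_lit 168) (nat_lit 5) (nat_lit 169) (nat_lit 5) (nat_lit 434) (nat_lit 423) (nat_lit 343))) (XT.nd (nat_lit 78) (nat_lit 456) (nat_lit 0) (XT.lf (nat_lit 0) (nat_lit 13654364246) (nat_lit 760) (nat_lit 267280458) (nat_lit 836) (nat_lit 3196116277) (nat_lit 158) (nat_lit 5) (nat_lit 168) (nat_lit 5) (nat_lit 169) (nat_lit 5) (nat_lit 435) (nat_lit 423) (nat_lit 342))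 (XT.lf (nat_lit 0) (nat_lit 6142149344) (nat_lit 456) (nat_lit 10156974919) (nat_lit 532) (nat_lit 1271859559) (nat_lit 152) (nat_lit 5) (nat_lit 158) (nat_lit 5) (nat_lit 159) (nat_lit 5) (nat_lit 436) (nat_lit 423) (nat_lit 341)))) (XT.nd (nat_lit 156) (nat_lit 380) (nat_lit 0) (XT.nd (nat_lit 78) (nat_lit 380) (nat_lit 0) (XT.lf (nat_lit 0) (nat_lit 772750532) (nat_lit 532) (nat_lit 1728545714) (nat_lit 76) (nat_lit 15542583211) (nat_lit 151) (nat_lit 5) (nat_lit 158) (nat_lit 5) (nat_lit 152) (nat_lit 5) (nat_lit 437) (nat_lit 423) (nat_lit 340)) (XT.lf (nat_lit 0) (nat_lit 3086549544) (nat_lit 456) (nat_lit 9923067272) (nat_lit 76) (nat_lit 5519276523) (nat_lit 146) (nat_lit 5) (nat_lit 152) (nat_lit 5) (nat_lit 147) (nat_lit 5) (nat_lit 438) (nat_lit 423) (nat_lit 339))) (XT.nd (nat_lit 78) (nat_lit 0) (nat_lit 0) (XT.lf (nat_lit 0) (nat_lit 437212133) (nat_lit 380) (nat_lit 5141758784) (nat_lit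 456) (nat_lit 13456041362) (nat_lit 141) (nat_lit 5) (nat_lit 146) (nat_lit 5) (nat_lit 147) (nat_lit 5) (nat_lit 439) (nat_lit 423) (nat_lit 338)) (XT.lf (nat_lit 0) (nat_lit 8401314266) (nat_lit 456) (nat_lit 7965454721) (nat_lit 76) (nat_lit 3189404069) (nat_lit 141) (nat_lit 5) (nat_lit 147) (nat_lit 5) (nat_lit 142) (nat_lit 5) (nat_lit 440) (nat_lit 423) (nat_lit 337))))) (XT.nd (nat_lit 312) (nat_lit 836) (nat_lit 0) (XT.nd (nat_lit 156) (nat_lit 380) (nat_lit 0) (XT.nd (nat_lit 78) (nat_lit 0) (nat_lit 0) (XT.lf (nat_lit 0) (nat_lit 3201471364) (nat_lit 304) (nat_lit 8284045149) (nat_lit 380) (nat_lit 8611839167) (nat_lit 137) (nat_lit 5) (nat_lit 141) (nat_lit 5) (nat_lit 142) (nat_lit 5) (nat_lit 441) (nat_lit 423) (nat_lit 336)) (XT.lf (nat_lit 0) (nat_lit 14851054297) (nat_lit 380) (nat_lit 5476539478) (nat_lit 76) (nat_lit 331648240) (nat_lit 137) (nat_lit 5) (nat_lit 142) (nat_lit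 5) (nat_lit 138) (nat_lit 5) (nat_lit 442) (nat_lit 423) (nat_lit 335))) (XT.nd (nat_lit 78) (nat_lit 76) (nat_lit 0) (XT.lf (nat_lit 0) (nat_lit 6573509193) (nat_lit 304) (nat_lit 12037269579) (nat_lit 380) (nat_lit 2627149213) (nat_lit 133) (nat_lit 5) (nat_lit 137) (nat_lit 5) (nat_lit 138) (nat_lit 5) (nat_lit 443) (nat_lit 423) (nat_lit 334)) (XT.lf (nat_lit 0) (nat_lit 772034075) (nat_lit 380) (nat_lit 2452391432) (nat_lit 76) (nat_lit 18616471359) (nat_lit 132) (nat_lit 5) (nat_lit 137) (nat_lit 5) (nat_lit 133) (nat_lit 5) (nat_lit 444) (nat_lit 423) (nat_lit 333)))) (XT.nd (nat_lit 156) (nat_lit 228) (nat_lit 0) (XT.nd (nat_lit 78) (nat_lit 304) (nat_lit 0) (XT.lf (nat_lit 0) (nat_lit 4504978882) (nat_lit 380) (nat_lit 11907804904) (nat_lit 76) (nat_lit 6046473113) (nat_lit 128) (nat_lit 5) (nat_lit 133) (nat_lit 5) (nat_lit 129) (nat_lit 5) (nat_lit 445) (nat_lit 423) (nat_lit 332)) (XT.lf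 (nat_lit 0) (nat_lit 1152924178) (nat_lit 304) (nat_lit 7373250687) (nat_lit 380) (nat_lit 14577280539) (nat_lit 124) (nat_lit 5) (nat_lit 128) (nat_lit 5) (nat_lit 129) (nat_lit 5) (nat_lit 446) (nat_lit 423) (nat_lit 331))) (XT.nd (nat_lit 78) (nat_lit 228) (nat_lit 0) (XT.lf (nat_lit 0) (nat_lit 12975275285) (nat_lit 380) (nat_lit 8540935880) (nat_lit 76) (nat_lit 2252311073) (nat_lit 124) (nat_lit 5) (nat_lit 129) (nat_lit 5) (nat_lit 125) (nat_lit 5) (nat_lit 447) (nat_lit 423) (nat_lit 330)) (XT.nd (nat_lit 78) (nat_lit 0) (nat_lit 0) (XT.lf (nat_lit 0) (nat_lit 5582779466) (nat_lit 228) (nat_lit 12261422543) (nat_lit 304) (nat_lit 6612772443) (nat_lit 121) (nat_lit 5) (nat_lit 124) (nat_lit 5) (nat_lit 125) (nat_lit 5) (nat_lit 448) (nat_lit 423) (nat_lit 329)) (XT.lf (nat_lit 0) (nat_lit 20695260531) (nat_lit 228) (nat_lit 2395585069) (nat_lit 304) (nat_lit 2082290726) (nat_lit 121) (nat_lit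 5) (nat_lit 124) (nat_lit 5) (nat_lit 125) (nat_lit 5) (nat_lit 449) (nat_lit 423) (nat_lit 328))))))))
noncomputable def xc288 : XT := (XT.nd (nat_lit 1248) (nat_lit 1520) (nat_lit 0) (XT.nd (nat_lit 624) (nat_lit 988) (nat_lit 0) (XT.nd (nat_lit 312) (nat_lit 456) (nat_lit 0) (XT.nd (nat_lit 156) (nat_lit 228) (nat_lit 0) (XT.nd (nat_lit 78) (nat_lit 228) (nat_lit 0) (XT.lf (nat_lit 0) (nat_lit 2877516758) (nat_lit 380) (nat_lit 15109939809) (nat_lit 76) (nat_lit 7921141795) (nat_lit 116) (nat_lit 5) (nat_lit 121) (nat_lit 5) (nat_lit 117) (nat_lit 5) (nat_lit 450) (nat_lit 423) (nat_lit 327)) (XT.lf (nat_lit 0) (nat_lit 236535310) (nat_lit 228) (nat_lit 7889013578) (nat_lit 304) (nat_lit 18548067669) (nat_lit 113) (nat_lit 5) (nat_lit 116) (nat_lit 5) (nat_lit 117) (nat_lit 5) (nat_lit 451) (nat_lit 423) (nat_lit 326))) (XT.nd (nat_lit 78) (nat_lit 228) (nat_lit 0) (XT.lf (nat_lit 0) (nat_lit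 13928813116) (nat_lit 304) (nat_lit 10649764667) (nat_lit 76) (nat_lit 2883666829) (nat_lit 113) (nat_lit 5) (nat_lit 117) (nat_lit 5) (nat_lit 114) (nat_lit 5) (nat_lit 452) (nat_lit 423) (nat_lit 325)) (XT.lf (nat_lit 0) (nat_lit 5975492965) (nat_lit 228) (nat_lit 14260191518) (nat_lit 304) (nat_lit 8043947840) (nat_lit 110) (nat_lit 5) (nat_lit 113) (nat_lit 5) (nat_lit 114) (nat_lit 5) (nat_lit 453) (nat_lit 423) (nat_lit 324)))) (XT.nd (nat_lit 156) (nat_lit 228) (nat_lit 0) (XT.nd (nat_lit 78) (nat_lit 228) (nat_lit 0) (XT.lf (nat_lit 0) (nat_lit 23788614801) (nat_lit 228) (nat_lit 3240697178) (nat_lit 304) (nat_lit 2100007242) (nat_lit 110) (nat_lit 5) (nat_lit 113) (nat_lit 5) (nat_lit 114) (nat_lit 5) (nat_lit 454) (nat_lit 423) (nat_lit 323)) (XT.lf (nat_lit 0) (nat_lit 4334145712) (nat_lit 228) (nat_lit 17339784460) (nat_lit 76) (nat_lit 8328050081) (nat_lit 107) (nat_lit 5) (nat_lit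 110) (nat_lit 5) (nat_lit 108) (nat_lit 5) (nat_lit 455) (nat_lit 423) (nat_lit 322))) (XT.nd (nat_lit 78) (nat_lit 0) (nat_lit 0) (XT.lf (nat_lit 0) (nat_lit 759223615) (nat_lit 228) (nat_lit 10408609356) (nat_lit 304) (nat_lit 19741300386) (nat_lit 104) (nat_lit 5) (nat_lit 107) (nat_lit 5) (nat_lit 108) (nat_lit 5) (nat_lit 456) (nat_lit 423) (nat_lit 321)) (XT.lf (nat_lit 0) (nat_lit 18655473912) (nat_lit 304) (nat_lit 11521849545) (nat_lit 76) (nat_lit 1668707545) (nat_lit 104) (nat_lit 5) (nat_lit 108) (nat_lit 5) (nat_lit 105) (nat_lit 5) (nat_lit 457) (nat_lit 423) (nat_lit 320))))) (XT.nd (nat_lit 312) (nat_lit 380) (nat_lit 0) (XT.nd (nat_lit 156) (nat_lit 380) (nat_lit 0) (XT.nd (nat_lit 78) (nat_lit 76) (nat_lit 0) (XT.lf (nat_lit 0) (nat_lit 8114224995) (nat_lit 152) (nat_lit 18692617105) (nat_lit 228) (nat_lit 6008464507) (nat_lit 102) (nat_lit 5) (nat_lit 104) (nat_lit 5) (nat_lit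 105) (nat_lit 5) (nat_lit 458) (nat_lit 423) (nat_lit 319)) (XT.lf (nat_lit 0) (nat_lit 1674089406) (nat_lit 228) (nat_lit 4730825357) (nat_lit 76) (nat_lit 27417414336) (nat_lit 101) (nat_lit 5) (nat_lit 104) (nat_lit 5) (nat_lit 102) (nat_lit 5) (nat_lit 459) (nat_lit 423) (nat_lit 318))) (XT.nd (nat_lit 78) (nat_lit 152) (nat_lit 0) (XT.lf (nat_lit 0) (nat_lit 9898681650) (nat_lit 304) (nat_lit 18308631727) (nat_lit 76) (nat_lit 6649472936) (nat_lit 98) (nat_lit 5) (nat_lit 102) (nat_lit 5) (nat_lit 99) (nat_lit 5) (nat_lit 460) (nat_lit 423) (nat_lit 317)) (XT.lf (nat_lit 0) (nat_lit 3097148811) (nat_lit 152) (nat_lit 15664711728) (nat_lit 228) (nat_lit 17169738274) (nat_lit 96) (nat_lit 5) (nat_lit 98) (nat_lit 5) (nat_lit 99) (nat_lit 5) (nat_lit 461) (nat_lit 423) (nat_lit 316)))) (XT.nd (nat_lit 156) (nat_lit 152) (nat_lit 0) (XT.nd (nat_lit 78) (nat_lit 228) (nat_lit 0) (XT.lf (nat_lit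 0) (nat_lit 26197012903) (nat_lit 152) (nat_lit 2173990933) (nat_lit 228) (nat_lit 8674008091) (nat_lit 96) (nat_lit 5) (nat_lit 98) (nat_lit 5) (nat_lit 99) (nat_lit 5) (nat_lit 462) (nat_lit 423) (nat_lit 315)) (XT.lf (nat_lit 0) (nat_lit 619168733) (nat_lit 228) (nat_lit 25768294770) (nat_lit 76) (nat_lit 11807412502) (nat_lit 93) (nat_lit 5) (nat_lit 96) (nat_lit 5) (nat_lit 94) (nat_lit 5) (nat_lit 463) (nat_lit 423) (nat_lit 314))) (XT.nd (nat_lit 78) (nat_lit 152) (nat_lit 0) (XT.lf (nat_lit 0) (nat_lit 10300928306) (nat_lit 228) (nat_lit 2343983954) (nat_lit 76) (nat_lit 26739440040) (nat_lit 93) (nat_lit 5) (nat_lit 96) (nat_lit 5) (nat_lit 94) (nat_lit 5) (nat_lit 464) (nat_lit 423) (nat_lit 313)) (XT.lf (nat_lit 0) (nat_lit 20852560992) (nat_lit 228) (nat_lit 17673505054) (nat_lit 76) (nat_lit 2087947323) (nat_lit 91) (nat_lit 5) (nat_lit 94) (nat_lit 5) (nat_lit 92) (nat_lit 5) (nat_lit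 465) (nat_lit 423) (nat_lit 312)))))) (XT.nd (nat_lit 624) (nat_lit 684) (nat_lit 0) (XT.nd (nat_lit 312) (nat_lit 304) (nat_lit 0) (XT.nd (nat_lit 156) (nat_lit 304) (nat_lit 0) (XT.nd (nat_lit 78) (nat_lit 76) (nat_lit 0) (XT.lf (nat_lit 0) (nat_lit 7694641020) (nat_lit 152) (nat_lit 24598377295) (nat_lit 228) (nat_lit 9594077232) (nat_lit 89) (nat_lit 5) (nat_lit 91) (nat_lit 5) (nat_lit 92) (nat_lit 5) (nat_lit 466) (nat_lit 423) (nat_lit 311)) (XT.lf (nat_lit 0) (nat_lit 1344765098) (nat_lit 228) (nat_lit 8297039489) (nat_lit 76) (nat_lit 33566297117) (nat_lit 88) (nat_lit 5) (nat_lit 91) (nat_lit 5) (nat_lit 89) (nat_lit 5) (nat_lit 467) (nat_lit 423) (nat_lit 310))) (XT.nd (nat_lit 78) (nat_lit 152) (nat_lit 0) (XT.lf (nat_lit 0) (nat_lit 12906071850) (nat_lit 228) (nat_lit 25330235598) (nat_lit 76) (nat_lit 6331089591) (nat_lit 86) (nat_lit 5) (nat_lit 89) (nat_lit 5) (nat_lit 87) (nat_lit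 5) (nat_lit 468) (nat_lit 423) (nat_lit 309)) (XT.lf (nat_lit 0) (nat_lit 2352743251) (nat_lit 152) (nat_lit 23024188510) (nat_lit 228) (nat_lit 20601151158) (nat_lit 84) (nat_lit 5) (nat_lit 86) (nat_lit 5) (nat_lit 87) (nat_lit 5) (nat_lit 469) (nat_lit 423) (nat_lit 308)))) (XT.nd (nat_lit 156) (nat_lit 152) (nat_lit 0) (XT.nd (nat_lit 78) (nat_lit 152) (nat_lit 0) (XT.lf (nat_lit 0) (nat_lit 32288763213) (nat_lit 152) (nat_lit 6605553388) (nat_lit 228) (nat_lit 8543837558) (nat_lit 84) (nat_lit 5) (nat_lit 86) (nat_lit 5) (nat_lit 87) (nat_lit 5) (nat_lit 470) (nat_lit 423) (nat_lit 307)) (XT.lf (nat_lit 0) (nat_lit 4386386825) (nat_lit 152) (nat_lit 33966232002) (nat_lit 76) (nat_lit 10595307212) (nat_lit 82) (nat_lit 5) (nat_lit 84) (nat_lit 5) (nat_lit 83) (nat_lit 5) (nat_lit 471) (nat_lit 423) (nat_lit 306))) (XT.nd (nat_lit 78) (nat_lit 152) (nat_lit 0) (XT.lf (nat_lit 0) (nat_lit 18039295039)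 (nat_lit 152) (nat_lit 3637888641) (nat_lit 76) (nat_lit 28830834748) (nat_lit 82) (nat_lit 5) (nat_lit 84) (nat_lit 5) (nat_lit 83) (nat_lit 5) (nat_lit 472) (nat_lit 423) (nat_lit 305)) (XT.lf (nat_lit 0) (nat_lit 29129424386) (nat_lit 152) (nat_lit 3694735858) (nat_lit 228) (nat_lit 19299489747) (nat_lit 80) (nat_lit 5) (nat_lit 82) (nat_lit 5) (nat_lit 83) (nat_lit 5) (nat_lit 473) (nat_lit 423) (nat_lit 304))))) (XT.nd (nat_lit 312) (nat_lit 304) (nat_lit 0) (XT.nd (nat_lit 156) (nat_lit 228) (nat_lit 0) (XT.nd (nat_lit 78) (nat_lit 76) (nat_lit 0) (XT.lf (nat_lit 0) (nat_lit 9913788031) (nat_lit 76) (nat_lit 38883555382) (nat_lit 152) (nat_lit 5000266111) (nat_lit 79) (nat_lit 5) (nat_lit 80) (nat_lit 5) (nat_lit 81) (nat_lit 4) (nat_lit 474) (nat_lit 423) (nat_lit 303)) (XT.lf (nat_lit 0) (nat_lit 10144367313) (nat_lit 152) (nat_lit 10503421447) (nat_lit 76) (nat_lit 34877113293) (nat_lit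 78) (nat_lit 5) (nat_lit 80) (nat_lit 5) (nat_lit 79) (nat_lit 5) (nat_lit 475) (nat_lit 423) (nat_lit 302))) (XT.nd (nat_lit 78) (nat_lit 76) (nat_lit 0) (XT.lf (nat_lit 0) (nat_lit 25263240305) (nat_lit 152) (nat_lit 1004223078) (nat_lit 228) (nat_lit 31047533723) (nat_lit 76) (nat_lit 5) (nat_lit 78) (nat_lit 5) (nat_lit 79) (nat_lit 5) (nat_lit 476) (nat_lit 423) (nat_lit 301)) (XT.lf (nat_lit 0) (nat_lit 3800147800) (nat_lit 76) (nat_lit 39937920373) (nat_lit 152) (nat_lit 15429461146) (nat_lit 75) (nat_lit 5) (nat_lit 76) (nat_lit 5) (nat_lit 77) (nat_lit 4) (nat_lit 477) (nat_lit 423) (nat_lit 300)))) (XT.nd (nat_lit 156) (nat_lit 76) (nat_lit 0) (XT.nd (nat_lit 78) (nat_lit 152) (nat_lit 0) (XT.lf (nat_lit 0) (nat_lit 1501554149) (nat_lit 152) (nat_lit 18578055510) (nat_lit 76) (nat_lit 41004168255) (nat_lit 74) (nat_lit 5) (nat_lit 76) (nat_lit 5) (nat_lit 75) (nat_lit 5) (nat_lit 478)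 (nat_lit 423) (nat_lit 299)) (XT.lf (nat_lit 0) (nat_lit 19096264936) (nat_lit 228) (nat_lit 42645708929) (nat_lit 76) (nat_lit 1324434275) (nat_lit 72) (nat_lit 5) (nat_lit 75) (nat_lit 5) (nat_lit 73) (nat_lit 4) (nat_lit 479) (nat_lit 423) (nat_lit 298))) (XT.nd (nat_lit 78) (nat_lit 76) (nat_lit 0) (XT.lf (nat_lit 0) (nat_lit 38214841006) (nat_lit 228) (nat_lit 3461394178) (nat_lit 76) (nat_lit 23439728290) (nat_lit 72) (nat_lit 5) (nat_lit 75) (nat_lit 5) (nat_lit 73) (nat_lit 4) (nat_lit 480) (nat_lit 423) (nat_lit 297)) (XT.lf (nat_lit 0) (nat_lit 38919219380) (nat_lit 76) (nat_lit 19973164219) (nat_lit 152) (nat_lit 8345461174) (nat_lit 71) (nat_lit 5) (nat_lit 72) (nat_lit 5) (nat_lit 73) (nat_lit 4) (nat_lit 481) (nat_lit 423) (nat_lit 296)))))))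
noncomputable def xc289 : XT := (XT.nd (nat_lit 1248) (nat_lit 1140) (nat_lit 0) (XT.nd (nat_lit 624) (nat_lit 532) (nat_lit 0) (XT.nd (nat_lit 312) (nat_lit 228) (nat_lit 0) (XT.nd (nat_lit 156) (nat_lit 228) (nat_lit 0) (XT.nd (nat_lit 78) (nat_lit 0) (nat_lit 0) (XT.lf (nat_lit 0) (nat_lit 11111957659) (nat_lit 228) (nat_lit 55142504127) (nat_lit 76) (nat_lit 3186140693) (nat_lit 68) (nat_lit 5) (nat_lit 71) (nat_lit 5) (nat_lit 69) (nat_lit 4) (nat_lit 482) (nat_lit 423) (nat_lit 295)) (XT.lf (nat_lit 0) (nat_lit 32072103649) (nat_lit 228) (nat_lit 12181416817) (nat_lit 76) (nat_lit 27452621210) (nat_lit 68) (nat_lit 5) (nat_lit 71) (nat_lit 5) (nat_lit 69) (nat_lit 4) (nat_lit 483) (nat_lit 423) (nat_lit 294))) (XT.nd (nat_lit 78) (nat_lit 152) (nat_lit 0) (XT.lf (nat_lit 0) (nat_lit 34007989714) (nat_lit 76) (nat_lit 20598882264) (nat_lit 152) (nat_lit 19451755173) (nat_lit 67) (nat_lit 5)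 (nat_lit 68) (nat_lit 5) (nat_lit 69) (nat_lit 4) (nat_lit 484) (nat_lit 423) (nat_lit 293)) (XT.lf (nat_lit 0) (nat_lit 2063774056) (nat_lit 152) (nat_lit 70000348242) (nat_lit 76) (nat_lit 4444266044) (nat_lit 65) (nat_lit 5) (nat_lit 67) (nat_lit 5) (nat_lit 66) (nat_lit 4) (nat_lit 485) (nat_lit 423) (nat_lit 292)))) (XT.nd (nat_lit 156) (nat_lit 152) (nat_lit 0) (XT.nd (nat_lit 78) (nat_lit 76) (nat_lit 0) (XT.lf (nat_lit 0) (nat_lit 25024142417) (nat_lit 152) (nat_lit 22937526408) (nat_lit 76) (nat_lit 31051886306) (nat_lit 65) (nat_lit 5) (nat_lit 67) (nat_lit 5) (nat_lit 66) (nat_lit 4) (nat_lit 486) (nat_lit 423) (nat_lit 291)) (XT.lf (nat_lit 0) (nat_lit 27345831276) (nat_lit 76) (nat_lit 22209534775) (nat_lit 152) (nat_lit 32067472419) (nat_lit 64) (nat_lit 5) (nat_lit 65) (nat_lit 5) (nat_lit 66) (nat_lit 4) (nat_lit 487) (nat_lit 423) (nat_lit 290))) (XT.nd (nat_lit 78) (nat_lit 152)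 (nat_lit 0) (XT.lf (nat_lit 0) (nat_lit 75779299644) (nat_lit 152) (nat_lit 3493108650) (nat_lit 0) (nat_lit 5066870298) (nat_lit 64) (nat_lit 5) (nat_lit 66) (nat_lit 4) (nat_lit 64) (nat_lit 4) (nat_lit 488) (nat_lit 423) (nat_lit 289)) (XT.lf (nat_lit 0) (nat_lit 16783749384) (nat_lit 152) (nat_lit 36310624453) (nat_lit 76) (nat_lit 34025736089) (nat_lit 62) (nat_lit 5) (nat_lit 64) (nat_lit 5) (nat_lit 63) (nat_lit 4) (nat_lit 489) (nat_lit 423) (nat_lit 288))))) (XT.nd (nat_lit 312) (nat_lit 228) (nat_lit 0) (XT.nd (nat_lit 156) (nat_lit 228) (nat_lit 0) (XT.nd (nat_lit 78) (nat_lit 0) (nat_lit 0) (XT.lf (nat_lit 0) (nat_lit 18349979949) (nat_lit 76) (nat_lit 25099746655) (nat_lit 152) (nat_lit 46566103197) (nat_lit 61) (nat_lit 5) (nat_lit 62) (nat_lit 5) (nat_lit 63) (nat_lit 4) (nat_lit 490) (nat_lit 423) (nat_lit 287)) (XT.lf (nat_lit 0) (nat_lit 72137199086) (nat_lit 152) (nat_lit 16105991641)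 (nat_lit 0) (nat_lit 4778735167) (nat_lit 61) (nat_lit 5) (nat_lit 63) (nat_lit 4) (nat_lit 61) (nat_lit 4) (nat_lit 491) (nat_lit 423) (nat_lit 286))) (XT.nd (nat_lit 78) (nat_lit 76) (nat_lit 0) (XT.lf (nat_lit 0) (nat_lit 6986027491) (nat_lit 152) (nat_lit 53041123455) (nat_lit 76) (nat_lit 36091432529) (nat_lit 59) (nat_lit 5) (nat_lit 61) (nat_lit 5) (nat_lit 60) (nat_lit 4) (nat_lit 492) (nat_lit 423) (nat_lit 285)) (XT.lf (nat_lit 0) (nat_lit 6269472953) (nat_lit 76) (nat_lit 29650418475) (nat_lit 152) (nat_lit 63414492132) (nat_lit 58) (nat_lit 5) (nat_lit 59) (nat_lit 5) (nat_lit 60) (nat_lit 4) (nat_lit 493) (nat_lit 423) (nat_lit 284)))) (XT.nd (nat_lit 156) (nat_lit 152) (nat_lit 0) (XT.nd (nat_lit 78) (nat_lit 76) (nat_lit 0) (XT.lf (nat_lit 0) (nat_lit 67244833916) (nat_lit 152) (nat_lit 32335940880) (nat_lit 0) (nat_lit 3082979620) (nat_lit 58) (nat_lit 5) (nat_lit 60) (nat_lit 4)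 (nat_lit 58) (nat_lit 4) (nat_lit 494) (nat_lit 423) (nat_lit 283)) (XT.lf (nat_lit 0) (nat_lit 31959479885) (nat_lit 76) (nat_lit 69158097233) (nat_lit 76) (nat_lit 4992939051) (nat_lit 57) (nat_lit 4) (nat_lit 58) (nat_lit 5) (nat_lit 58) (nat_lit 4) (nat_lit 495) (nat_lit 423) (nat_lit 282))) (XT.nd (nat_lit 78) (nat_lit 76) (nat_lit 0) (XT.lf (nat_lit 0) (nat_lit 26644745836) (nat_lit 152) (nat_lit 9546575775) (nat_lit 76) (nat_lit 73489597210) (nat_lit 56) (nat_lit 5) (nat_lit 58) (nat_lit 5) (nat_lit 57) (nat_lit 4) (nat_lit 496) (nat_lit 423) (nat_lit 281)) (XT.lf (nat_lit 0) (nat_lit 60124094937) (nat_lit 76) (nat_lit 507805745) (nat_lit 152) (nat_lit 52747079318) (nat_lit 55) (nat_lit 5) (nat_lit 56) (nat_lit 5) (nat_lit 57) (nat_lit 4) (nat_lit 497) (nat_lit 423) (nat_lit 280)))))) (XT.nd (nat_lit 624) (nat_lit 608) (nat_lit 0) (XT.nd (nat_lit 312) (nat_lit 304) (nat_lit 0) (XT.nd (nat_lit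 156) (nat_lit 76) (nat_lit 0) (XT.nd (nat_lit 78) (nat_lit 76) (nat_lit 0) (XT.lf (nat_lit 0) (nat_lit 16291075346) (nat_lit 76) (nat_lit 81019745919) (nat_lit 76) (nat_lit 19901502601) (nat_lit 54) (nat_lit 4) (nat_lit 55) (nat_lit 5) (nat_lit 55) (nat_lit 4) (nat_lit 498) (nat_lit 423) (nat_lit 279)) (XT.lf (nat_lit 0) (nat_lit 15041194968) (nat_lit 152) (nat_lit 30286382314) (nat_lit 76) (nat_lit 75852286156) (nat_lit 53) (nat_lit 5) (nat_lit 55) (nat_lit 5) (nat_lit 54) (nat_lit 4) (nat_lit 499) (nat_lit 423) (nat_lit 278))) (XT.nd (nat_lit 78) (nat_lit 0) (nat_lit 0) (XT.lf (nat_lit 0) (nat_lit 44987647643) (nat_lit 76) (nat_lit 6773788968) (nat_lit 152) (nat_lit 73533069186) (nat_lit 52) (nat_lit 5) (nat_lit 53) (nat_lit 5) (nat_lit 54) (nat_lit 4) (nat_lit 500) (nat_lit 423) (nat_lit 277)) (XT.lf (nat_lit 0) (nat_lit 91362139428) (nat_lit 152) (nat_lit 5053279387) (nat_lit 0) (nat_lit 33147239027)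 (nat_lit 52) (nat_lit 5) (nat_lit 54) (nat_lit 4) (nat_lit 52) (nat_lit 4) (nat_lit 501) (nat_lit 423) (nat_lit 276)))) (XT.nd (nat_lit 156) (nat_lit 76) (nat_lit 0) (XT.nd (nat_lit 78) (nat_lit 76) (nat_lit 0) (XT.lf (nat_lit 0) (nat_lit 254321404) (nat_lit 152) (nat_lit 57695671235) (nat_lit 76) (nat_lit 76029064034) (nat_lit 50) (nat_lit 5) (nat_lit 52) (nat_lit 5) (nat_lit 51) (nat_lit 4) (nat_lit 502) (nat_lit 423) (nat_lit 275)) (XT.lf (nat_lit 0) (nat_lit 23364570600) (nat_lit 76) (nat_lit 16432321602) (nat_lit 152) (nat_lit 98765632518) (nat_lit 49) (nat_lit 5) (nat_lit 50) (nat_lit 5) (nat_lit 51) (nat_lit 4) (nat_lit 503) (nat_lit 423) (nat_lit 274))) (XT.nd (nat_lit 78) (nat_lit 76) (nat_lit 0) (XT.lf (nat_lit 0) (nat_lit 82730790851) (nat_lit 152) (nat_lit 33291436550) (nat_lit 0) (nat_lit 27282228823) (nat_lit 49) (nat_lit 5) (nat_lit 51) (nat_lit 4) (nat_lit 49) (nat_lit 4) (nat_lit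 504) (nat_lit 423) (nat_lit 273)) (XT.lf (nat_lit 0) (nat_lit 54169124893) (nat_lit 76) (nat_lit 74754530025) (nat_lit 76) (nat_lit 19304215876) (nat_lit 48) (nat_lit 4) (nat_lit 49) (nat_lit 5) (nat_lit 49) (nat_lit 4) (nat_lit 505) (nat_lit 423) (nat_lit 272))))) (XT.nd (nat_lit 312) (nat_lit 304) (nat_lit 0) (XT.nd (nat_lit 156) (nat_lit 152) (nat_lit 0) (XT.nd (nat_lit 78) (nat_lit 76) (nat_lit 0) (XT.lf (nat_lit 0) (nat_lit 23829845860) (nat_lit 152) (nat_lit 6600798821) (nat_lit 76) (nat_lit 122919543236) (nat_lit 47) (nat_lit 5) (nat_lit 49) (nat_lit 5) (nat_lit 48) (nat_lit 4) (nat_lit 506) (nat_lit 423) (nat_lit 271)) (XT.lf (nat_lit 0) (nat_lit 70117754053) (nat_lit 152) (nat_lit 71207920872) (nat_lit 0) (nat_lit 17304828280) (nat_lit 46) (nat_lit 5) (nat_lit 48) (nat_lit 4) (nat_lit 46) (nat_lit 4) (nat_lit 507) (nat_lit 423) (nat_lit 270))) (XT.nd (nat_lit 78) (nat_lit 76) (nat_lit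 0) (XT.lf (nat_lit 0) (nat_lit 22418500315) (nat_lit 76) (nat_lit 97261355645) (nat_lit 76) (nat_lit 44446988396) (nat_lit 45) (nat_lit 4) (nat_lit 46) (nat_lit 5) (nat_lit 46) (nat_lit 4) (nat_lit 508) (nat_lit 423) (nat_lit 269)) (XT.lf (nat_lit 0) (nat_lit 2986754843) (nat_lit 152) (nat_lit 46692892652) (nat_lit 76) (nat_lit 120155782121) (nat_lit 44) (nat_lit 5) (nat_lit 46) (nat_lit 5) (nat_lit 45) (nat_lit 4) (nat_lit 509) (nat_lit 423) (nat_lit 268)))) (XT.nd (nat_lit 156) (nat_lit 228) (nat_lit 0) (XT.nd (nat_lit 78) (nat_lit 0) (nat_lit 0) (XT.lf (nat_lit 0) (nat_lit 52170225002) (nat_lit 152) (nat_lit 121710924730) (nat_lit 0) (nat_lit 1868274962) (nat_lit 43) (nat_lit 5) (nat_lit 45) (nat_lit 4) (nat_lit 43) (nat_lit 4) (nat_lit 510) (nat_lit 423) (nat_lit 267)) (XT.lf (nat_lit 0) (nat_lit 105428453461) (nat_lit 152) (nat_lit 21324569320) (nat_lit 0) (nat_lit 55125317517) (nat_lit 43)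 (nat_lit 5) (nat_lit 45) (nat_lit 4) (nat_lit 43) (nat_lit 4) (nat_lit 511) (nat_lit 423) (nat_lit 266))) (XT.nd (nat_lit 78) (nat_lit 152) (nat_lit 0) (XT.lf (nat_lit 0) (nat_lit 86856149450) (nat_lit 76) (nat_lit 75847068203) (nat_lit 76) (nat_lit 25542802825) (nat_lit 42) (nat_lit 4) (nat_lit 43) (nat_lit 5) (nat_lit 43) (nat_lit 4) (nat_lit 512) (nat_lit 423) (nat_lit 265)) (XT.nd (nat_lit 78) (nat_lit 0) (nat_lit 0) (XT.lf (nat_lit 0) (nat_lit 6018276490) (nat_lit 76) (nat_lit 21456658884) (nat_lit 152) (nat_lit 167412432792) (nat_lit 40) (nat_lit 5) (nat_lit 41) (nat_lit 5) (nat_lit 42) (nat_lit 4) (nat_lit 513) (nat_lit 423) (nat_lit 264)) (XT.lf (nat_lit 0) (nat_lit 84584599338) (nat_lit 152) (nat_lit 80466499867) (nat_lit 0) (nat_lit 36673775093) (nat_lit 40) (nat_lit 5) (nat_lit 42) (nat_lit 4) (nat_lit 40) (nat_lit 4) (nat_lit 514) (nat_lit 423) (nat_lit 263))))))))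
noncomputable def xc290 : XT := (XT.nd (nat_lit 1248) (nat_lit 836) (nat_lit 0) (XT.nd (nat_lit 624) (nat_lit 532) (nat_lit 0) (XT.nd (nat_lit 312) (nat_lit 228) (nat_lit 0) (XT.nd (nat_lit 156) (nat_lit 152) (nat_lit 0) (XT.nd (nat_lit 78) (nat_lit 0) (nat_lit 0) (XT.lf (nat_lit 0) (nat_lit 34090930160) (nat_lit 76) (nat_lit 111340497481) (nat_lit 76) (nat_lit 63428744048) (nat_lit 39) (nat_lit 4) (nat_lit 40) (nat_lit 5) (nat_lit 40) (nat_lit 4) (nat_lit 515) (nat_lit 423) (nat_lit 262)) (XT.lf (nat_lit 0) (nat_lit 157165256585) (nat_lit 76) (nat_lit 53515796481) (nat_lit 76) (nat_lit 5603158108) (nat_lit 39) (nat_lit 4) (nat_lit 40) (nat_lit 5) (nat_lit 40) (nat_lit 4) (nat_lit 516) (nat_lit 423) (nat_lit 261))) (XT.nd (nat_lit 78) (nat_lit 0) (nat_lit 0) (XT.lf (nat_lit 0) (nat_lit 54481359055) (nat_lit 152) (nat_lit 160649015655) (nat_lit 0) (nat_lit 8849472223) (nat_lit 37) (nat_lit 5) (nat_lit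 39) (nat_lit 4) (nat_lit 37) (nat_lit 4) (nat_lit 517) (nat_lit 423) (nat_lit 260)) (XT.lf (nat_lit 0) (nat_lit 119274521014) (nat_lit 152) (nat_lit 39044644893) (nat_lit 0) (nat_lit 73641869737) (nat_lit 37) (nat_lit 5) (nat_lit 39) (nat_lit 4) (nat_lit 37) (nat_lit 4) (nat_lit 518) (nat_lit 423) (nat_lit 259)))) (XT.nd (nat_lit 156) (nat_lit 76) (nat_lit 0) (XT.nd (nat_lit 78) (nat_lit 76) (nat_lit 0) (XT.lf (nat_lit 0) (nat_lit 91566405580) (nat_lit 76) (nat_lit 97168441129) (nat_lit 76) (nat_lit 51535061809) (nat_lit 36) (nat_lit 4) (nat_lit 37) (nat_lit 5) (nat_lit 37) (nat_lit 4) (nat_lit 519) (nat_lit 423) (nat_lit 258)) (XT.lf (nat_lit 0) (nat_lit 12938296209) (nat_lit 152) (nat_lit 19110565464) (nat_lit 76) (nat_lit 216901970637) (nat_lit 35) (nat_lit 5) (nat_lit 37) (nat_lit 5) (nat_lit 36) (nat_lit 4) (nat_lit 520) (nat_lit 423) (nat_lit 257))) (XT.nd (nat_lit 78) (nat_lit 0) (nat_lit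 0) (XT.lf (nat_lit 0) (nat_lit 81385878561) (nat_lit 152) (nat_lit 138589330225) (nat_lit 0) (nat_lit 37924228037) (nat_lit 34) (nat_lit 5) (nat_lit 36) (nat_lit 4) (nat_lit 34) (nat_lit 4) (nat_lit 521) (nat_lit 423) (nat_lit 256)) (XT.lf (nat_lit 0) (nat_lit 154108184282) (nat_lit 152) (nat_lit 2498735276) (nat_lit 0) (nat_lit 110645934796) (nat_lit 34) (nat_lit 5) (nat_lit 36) (nat_lit 4) (nat_lit 34) (nat_lit 4) (nat_lit 522) (nat_lit 423) (nat_lit 255))))) (XT.nd (nat_lit 312) (nat_lit 228) (nat_lit 0) (XT.nd (nat_lit 156) (nat_lit 76) (nat_lit 0) (XT.nd (nat_lit 78) (nat_lit 152) (nat_lit 0) (XT.lf (nat_lit 0) (nat_lit 145034556082) (nat_lit 76) (nat_lit 87694541011) (nat_lit 76) (nat_lit 44231721085) (nat_lit 33) (nat_lit 4) (nat_lit 34) (nat_lit 5) (nat_lit 34) (nat_lit 4) (nat_lit 523) (nat_lit 423) (nat_lit 254)) (XT.lf (nat_lit 0) (nat_lit 12846693667) (nat_lit 76) (nat_lit 14621626757)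 (nat_lit 152) (nat_lit 259651818769) (nat_lit 31) (nat_lit 5) (nat_lit 32) (nat_lit 5) (nat_lit 33) (nat_lit 4) (nat_lit 524) (nat_lit 423) (nat_lit 253))) (XT.nd (nat_lit 78) (nat_lit 76) (nat_lit 0) (XT.lf (nat_lit 0) (nat_lit 104505480611) (nat_lit 152) (nat_lit 129972451919) (nat_lit 0) (nat_lit 63111308602) (nat_lit 31) (nat_lit 5) (nat_lit 33) (nat_lit 4) (nat_lit 31) (nat_lit 4) (nat_lit 525) (nat_lit 423) (nat_lit 252)) (XT.lf (nat_lit 0) (nat_lit 22004510013) (nat_lit 76) (nat_lit 163971428737) (nat_lit 76) (nat_lit 122576787425) (nat_lit 30) (nat_lit 4) (nat_lit 31) (nat_lit 5) (nat_lit 31) (nat_lit 4) (nat_lit 526) (nat_lit 423) (nat_lit 251)))) (XT.nd (nat_lit 156) (nat_lit 76) (nat_lit 0) (XT.nd (nat_lit 78) (nat_lit 152) (nat_lit 0) (XT.lf (nat_lit 0) (nat_lit 186089064892) (nat_lit 76) (nat_lit 87630220290) (nat_lit 76) (nat_lit 46235132024) (nat_lit 30) (nat_lit 4) (nat_lit 31)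 (nat_lit 5) (nat_lit 31) (nat_lit 4) (nat_lit 527) (nat_lit 423) (nat_lit 250)) (XT.lf (nat_lit 0) (nat_lit 26775505013) (nat_lit 76) (nat_lit 6478650572) (nat_lit 152) (nat_lit 298624739244) (nat_lit 28) (nat_lit 5) (nat_lit 29) (nat_lit 5) (nat_lit 30) (nat_lit 4) (nat_lit 528) (nat_lit 423) (nat_lit 249))) (XT.nd (nat_lit 78) (nat_lit 76) (nat_lit 0) (XT.lf (nat_lit 0) (nat_lit 118695824691) (nat_lit 152) (nat_lit 146218148356) (nat_lit 0) (nat_lit 79271139606) (nat_lit 28) (nat_lit 5) (nat_lit 30) (nat_lit 4) (nat_lit 28) (nat_lit 4) (nat_lit 529) (nat_lit 423) (nat_lit 248)) (XT.lf (nat_lit 0) (nat_lit 21179705041) (nat_lit 76) (nat_lit 187665113530) (nat_lit 76) (nat_lit 148240060733) (nat_lit 27) (nat_lit 4) (nat_lit 28) (nat_lit 5) (nat_lit 28) (nat_lit 4) (nat_lit 530) (nat_lit 423) (nat_lit 247)))))) (XT.nd (nat_lit 624) (nat_lit 456) (nat_lit 0) (XT.nd (nat_lit 312) (nat_lit 228) (nat_lit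 0) (XT.nd (nat_lit 156) (nat_lit 0) (nat_lit 0) (XT.nd (nat_lit 78) (nat_lit 152) (nat_lit 0) (XT.lf (nat_lit 0) (nat_lit 202020543108) (nat_lit 76) (nat_lit 103955380553) (nat_lit 76) (nat_lit 64529977556) (nat_lit 27) (nat_lit 4) (nat_lit 28) (nat_lit 5) (nat_lit 28) (nat_lit 4) (nat_lit 531) (nat_lit 423) (nat_lit 246)) (XT.lf (nat_lit 0) (nat_lit 7166862784) (nat_lit 76) (nat_lit 15561234438) (nat_lit 152) (nat_lit 361846120230) (nat_lit 25) (nat_lit 5) (nat_lit 26) (nat_lit 5) (nat_lit 27) (nat_lit 4) (nat_lit 532) (nat_lit 423) (nat_lit 245))) (XT.nd (nat_lit 78) (nat_lit 0) (nat_lit 0) (XT.lf (nat_lit 0) (nat_lit 116285172138) (nat_lit 152) (nat_lit 204066098475) (nat_lit 0) (nat_lit 78736549124) (nat_lit 25) (nat_lit 5) (nat_lit 27) (nat_lit 4) (nat_lit 25) (nat_lit 4) (nat_lit 533) (nat_lit 423) (nat_lit 244)) (XT.lf (nat_lit 0) (nat_lit 214773716438) (nat_lit 152) (nat_lit 22315899608)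 (nat_lit 0) (nat_lit 177224805313) (nat_lit 25) (nat_lit 5) (nat_lit 27) (nat_lit 4) (nat_lit 25) (nat_lit 4) (nat_lit 534) (nat_lit 423) (nat_lit 243)))) (XT.nd (nat_lit 156) (nat_lit 152) (nat_lit 0) (XT.nd (nat_lit 78) (nat_lit 0) (nat_lit 0) (XT.lf (nat_lit 0) (nat_lit 174090932024) (nat_lit 76) (nat_lit 146812387489) (nat_lit 76) (nat_lit 109263201972) (nat_lit 24) (nat_lit 4) (nat_lit 25) (nat_lit 5) (nat_lit 25) (nat_lit 4) (nat_lit 535) (nat_lit 423) (nat_lit 242)) (XT.lf (nat_lit 0) (nat_lit 381090035019) (nat_lit 76) (nat_lit 51625905771) (nat_lit 76) (nat_lit 14076458929) (nat_lit 24) (nat_lit 4) (nat_lit 25) (nat_lit 5) (nat_lit 25) (nat_lit 4) (nat_lit 536) (nat_lit 423) (nat_lit 241))) (XT.nd (nat_lit 78) (nat_lit 0) (nat_lit 0) (XT.lf (nat_lit 0) (nat_lit 86074079868) (nat_lit 152) (nat_lit 327648352697) (nat_lit 0) (nat_lit 50312464893) (nat_lit 22) (nat_lit 5) (nat_lit 24) (nat_lit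 4) (nat_lit 22) (nat_lit 4) (nat_lit 537) (nat_lit 423) (nat_lit 240)) (XT.lf (nat_lit 0) (nat_lit 192735005783) (nat_lit 152) (nat_lit 132321015081) (nat_lit 0) (nat_lit 156973165065) (nat_lit 22) (nat_lit 5) (nat_lit 24) (nat_lit 4) (nat_lit 22) (nat_lit 4) (nat_lit 538) (nat_lit 423) (nat_lit 239))))) (XT.nd (nat_lit 312) (nat_lit 228) (nat_lit 0) (XT.nd (nat_lit 156) (nat_lit 152) (nat_lit 0) (XT.nd (nat_lit 78) (nat_lit 0) (nat_lit 0) (XT.lf (nat_lit 0) (nat_lit 75176188793) (nat_lit 76) (nat_lit 230725217173) (nat_lit 76) (nat_lit 194963161463) (nat_lit 21) (nat_lit 4) (nat_lit 22) (nat_lit 5) (nat_lit 22) (nat_lit 4) (nat_lit 539) (nat_lit 423) (nat_lit 238)) (XT.lf (nat_lit 0) (nat_lit 297639573636) (nat_lit 76) (nat_lit 129326210956) (nat_lit 76) (nat_lit 93563950491) (nat_lit 21) (nat_lit 4) (nat_lit 22) (nat_lit 5) (nat_lit 22) (nat_lit 4) (nat_lit 540) (nat_lit 423) (nat_lit 237)))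 (XT.nd (nat_lit 78) (nat_lit 76) (nat_lit 0) (XT.lf (nat_lit 0) (nat_lit 12490951768) (nat_lit 152) (nat_lit 10156004345) (nat_lit 76) (nat_lit 518521191755) (nat_lit 20) (nat_lit 5) (nat_lit 22) (nat_lit 5) (nat_lit 21) (nat_lit 4) (nat_lit 541) (nat_lit 423) (nat_lit 236)) (XT.lf (nat_lit 0) (nat_lit 125593599259) (nat_lit 152) (nat_lit 345389781169) (nat_lit 0) (nat_lit 91533940983) (nat_lit 19) (nat_lit 5) (nat_lit 21) (nat_lit 4) (nat_lit 19) (nat_lit 4) (nat_lit 542) (nat_lit 423) (nat_lit 235)))) (XT.nd (nat_lit 156) (nat_lit 152) (nat_lit 0) (XT.nd (nat_lit 78) (nat_lit 76) (nat_lit 0) (XT.lf (nat_lit 0) (nat_lit 244896294327) (nat_lit 152) (nat_lit 129173945949) (nat_lit 0) (nat_lit 210836467598) (nat_lit 19) (nat_lit 5) (nat_lit 21) (nat_lit 4) (nat_lit 19) (nat_lit 4) (nat_lit 543) (nat_lit 423) (nat_lit 234)) (XT.lf (nat_lit 0) (nat_lit 101085804189) (nat_lit 76) (nat_lit 270655445186)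 (nat_lit 76) (nat_lit 236595458026) (nat_lit 18) (nat_lit 4) (nat_lit 19) (nat_lit 5) (nat_lit 19) (nat_lit 4) (nat_lit 544) (nat_lit 423) (nat_lit 233))) (XT.nd (nat_lit 78) (nat_lit 152) (nat_lit 0) (XT.lf (nat_lit 0) (nat_lit 347340952040) (nat_lit 76) (nat_lit 159774034060) (nat_lit 76) (nat_lit 125713894109) (nat_lit 18) (nat_lit 4) (nat_lit 19) (nat_lit 5) (nat_lit 19) (nat_lit 4) (nat_lit 545) (nat_lit 423) (nat_lit 232)) (XT.nd (nat_lit 78) (nat_lit 152) (nat_lit 0) (XT.lf (nat_lit 0) (nat_lit 605906745364) (nat_lit 76) (nat_lit 43349626818) (nat_lit 76) (nat_lit 9289341351) (nat_lit 18) (nat_lit 4) (nat_lit 19) (nat_lit 5) (nat_lit 19) (nat_lit 4) (nat_lit 546) (nat_lit 423) (nat_lit 231)) (XT.lf (nat_lit 0) (nat_lit 113716983176) (nat_lit 152) (nat_lit 490245950162) (nat_lit 0) (nat_lit 81278484077) (nat_lit 16) (nat_lit 5) (nat_lit 18) (nat_lit 4) (nat_lit 16) (nat_lit 4) (nat_lit 547)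 (nat_lit 423) (nat_lit 230))))))))
noncomputable def xc291 : XT := (XT.nd (nat_lit 53586) (nat_lit 0) (nat_lit 8208) (XT.nd (nat_lit 52962) (nat_lit 0) (nat_lit 11476) (XT.nd (nat_lit 312) (nat_lit 152) (nat_lit 0) (XT.nd (nat_lit 156) (nat_lit 76) (nat_lit 0) (XT.nd (nat_lit 78) (nat_lit 0) (nat_lit 0) (XT.lf (nat_lit 0) (nat_lit 244177167524) (nat_lit 152) (nat_lit 257267795713) (nat_lit 0) (nat_lit 211738542723) (nat_lit 16) (nat_lit 5) (nat_lit 18) (nat_lit 4) (nat_lit 16) (nat_lit 4) (nat_lit 548) (nat_lit 423) (nat_lit 229)) (XT.lf (nat_lit 0) (nat_lit 381159405049) (nat_lit 152) (nat_lit 12642681154) (nat_lit 0) (nat_lit 348720660532) (nat_lit 16) (nat_lit 5) (nat_lit 18) (nat_lit 4) (nat_lit 16) (nat_lit 4) (nat_lit 549) (nat_lit 423) (nat_lit 228))) (XT.nd (nat_lit 78) (nat_lit 0) (nat_lit 0) (XT.lf (nat_lit 0) (nat_lit 252286580396) (nat_lit 76) (nat_lit 276642164092) (nat_lit 76) (nat_lit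 244203305560) (nat_lit 15) (nat_lit 4) (nat_lit 16) (nat_lit 5) (nat_lit 16) (nat_lit 4) (nat_lit 550) (nat_lit 423) (nat_lit 227)) (XT.lf (nat_lit 0) (nat_lit 530899405413) (nat_lit 76) (nat_lit 153400359760) (nat_lit 76) (nat_lit 120961392642) (nat_lit 15) (nat_lit 4) (nat_lit 16) (nat_lit 5) (nat_lit 16) (nat_lit 4) (nat_lit 551) (nat_lit 423) (nat_lit 226)))) (XT.nd (nat_lit 52494) (nat_lit 0) (nat_lit 11400) (XT.nd (nat_lit 78) (nat_lit 76) (nat_lit 0) (XT.lf (nat_lit 0) (nat_lit 8171532503) (nat_lit 152) (nat_lit 15687428901) (nat_lit 76) (nat_lit 815131212271) (nat_lit 14) (nat_lit 5) (nat_lit 16) (nat_lit 5) (nat_lit 15) (nat_lit 4) (nat_lit 552) (nat_lit 423) (nat_lit 225)) (XT.lf (nat_lit 0) (nat_lit 145641685341) (nat_lit 152) (nat_lit 613620283784) (nat_lit 0) (nat_lit 114747238651) (nat_lit 13) (nat_lit 5) (nat_lit 15) (nat_lit 4) (nat_lit 13) (nat_lit 4) (nat_lit 553) (nat_lit 423)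 (nat_lit 224))) (XT.nd (nat_lit 78) (nat_lit 0) (nat_lit 0) (XT.lf (nat_lit 0) (nat_lit 313347806) (nat_lit 836) (nat_lit 3180592072) (nat_lit 836) (nat_lit 3180592072) (nat_lit 163) (nat_lit 3) (nat_lit 174) (nat_lit 3) (nat_lit 174) (nat_lit 5) (nat_lit 424) (nat_lit 424) (nat_lit 352)) (XT.lf (nat_lit 76) (nat_lit 296117280) (nat_lit 0) (nat_lit 726539454) (nat_lit 836) (nat_lit 12641090084) (nat_lit 164) (nat_lit 5) (nat_lit 163) (nat_lit 3) (nat_lit 174) (nat_lit 5) (nat_lit 425) (nat_lit 424) (nat_lit 351))))) (XT.nd (nat_lit 312) (nat_lit 0) (nat_lit 152) (XT.nd (nat_lit 156) (nat_lit 0) (nat_lit 76) (XT.nd (nat_lit 78) (nat_lit 0) (nat_lit 0) (XT.lf (nat_lit 0) (nat_lit 1615137050) (nat_lit 760) (nat_lit 6589148130) (nat_lit 836) (nat_lit 5781044501) (nat_lit 164) (nat_lit 5) (nat_lit 174) (nat_lit 5) (nat_lit 175) (nat_lit 5) (nat_lit 426) (nat_lit 424) (nat_lit 350)) (XT.lf (nat_lit 76)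 (nat_lit 519219617) (nat_lit 0) (nat_lit 1715108945) (nat_lit 836) (nat_lit 12088810532) (nat_lit 165) (nat_lit 5) (nat_lit 164) (nat_lit 5) (nat_lit 175) (nat_lit 5) (nat_lit 427) (nat_lit 424) (nat_lit 349))) (XT.nd (nat_lit 78) (nat_lit 0) (nat_lit 0) (XT.lf (nat_lit 0) (nat_lit 3055585772) (nat_lit 760) (nat_lit 6556686048) (nat_lit 836) (nat_lit 5057013535) (nat_lit 165) (nat_lit 5) (nat_lit 175) (nat_lit 5) (nat_lit 176) (nat_lit 5) (nat_lit 428) (nat_lit 424) (nat_lit 348)) (XT.lf (nat_lit 76) (nat_lit 1044153808) (nat_lit 0) (nat_lit 2897298434) (nat_lit 836) (nat_lit 11090110971) (nat_lit 166) (nat_lit 5) (nat_lit 165) (nat_lit 5) (nat_lit 176) (nat_lit 5) (nat_lit 429) (nat_lit 424) (nat_lit 347)))) (XT.nd (nat_lit 156) (nat_lit 0) (nat_lit 76) (XT.nd (nat_lit 78) (nat_lit 0) (nat_lit 0) (XT.lf (nat_lit 0) (nat_lit 5029323056) (nat_lit 760) (nat_lit 6235336289) (nat_lit 836) (nat_lit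 4139411595) (nat_lit 166) (nat_lit 5) (nat_lit 176) (nat_lit 5) (nat_lit 177) (nat_lit 5) (nat_lit 430) (nat_lit 424) (nat_lit 346)) (XT.lf (nat_lit 76) (nat_lit 1903544894) (nat_lit 0) (nat_lit 4326214546) (nat_lit 836) (nat_lit 9562537465) (nat_lit 167) (nat_lit 5) (nat_lit 166) (nat_lit 5) (nat_lit 177) (nat_lit 5) (nat_lit 431) (nat_lit 424) (nat_lit 345))) (XT.nd (nat_lit 78) (nat_lit 0) (nat_lit 0) (XT.lf (nat_lit 0) (nat_lit 7625459995) (nat_lit 760) (nat_lit 5591721168) (nat_lit 836) (nat_lit 2975992273) (nat_lit 167) (nat_lit 5) (nat_lit 177) (nat_lit 5) (nat_lit 178) (nat_lit 5) (nat_lit 432) (nat_lit 424) (nat_lit 344)) (XT.lf (nat_lit 76) (nat_lit 3135320881) (nat_lit 0) (nat_lit 6058080373) (nat_lit 836) (nat_lit 7415571075) (nat_lit 168) (nat_lit 5) (nat_lit 167) (nat_lit 5) (nat_lit 178) (nat_lit 5) (nat_lit 433) (nat_lit 424) (nat_lit 343)))))) (XT.nd (nat_lit 624) (nat_lit 1520)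 (nat_lit 0) (XT.nd (nat_lit 312) (nat_lit 836) (nat_lit 0) (XT.nd (nat_lit 156) (nat_lit 456) (nat_lit 0) (XT.nd (nat_lit 78) (nat_lit 760) (nat_lit 0) (XT.lf (nat_lit 0) (nat_lit 10942005613) (nat_lit 760) (nat_lit 4587233722) (nat_lit 76) (nat_lit 1511209786) (nat_lit 168) (nat_lit 5) (nat_lit 178) (nat_lit 5) (nat_lit 169) (nat_lit 5) (nat_lit 434) (nat_lit 424) (nat_lit 342)) (XT.lf (nat_lit 0) (nat_lit 4783067445) (nat_lit 760) (nat_lit 8152997294) (nat_lit 836) (nat_lit 4549534982) (nat_lit 158) (nat_lit 5) (nat_lit 168) (nat_lit 5) (nat_lit 169) (nat_lit 5) (nat_lit 435) (nat_lit 424) (nat_lit 341))) (XT.nd (nat_lit 78) (nat_lit 456) (nat_lit 0) (XT.lf (nat_lit 0) (nat_lit 14767158625) (nat_lit 760) (nat_lit 324931824) (nat_lit 836) (nat_lit 2857805362) (nat_lit 158) (nat_lit 5) (nat_lit 168) (nat_lit 5) (nat_lit 169) (nat_lit 5) (nat_lit 436) (nat_lit 424) (nat_lit 340)) (XT.lf (nat_lit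 0) (nat_lit 6896446666) (nat_lit 456) (nat_lit 10675731944) (nat_lit 532) (nat_lit 854416121) (nat_lit 152) (nat_lit 5) (nat_lit 158) (nat_lit 5) (nat_lit 159) (nat_lit 5) (nat_lit 437) (nat_lit 424) (nat_lit 339)))) (XT.nd (nat_lit 156) (nat_lit 380) (nat_lit 0) (XT.nd (nat_lit 78) (nat_lit 380) (nat_lit 0) (XT.lf (nat_lit 0) (nat_lit 1254854961) (nat_lit 532) (nat_lit 1374384609) (nat_lit 76) (nat_lit 16294630243) (nat_lit 151) (nat_lit 5) (nat_lit 158) (nat_lit 5) (nat_lit 152) (nat_lit 5) (nat_lit 438) (nat_lit 424) (nat_lit 338)) (XT.lf (nat_lit 0) (nat_lit 3670062469) (nat_lit 456) (nat_lit 9964321961) (nat_lit 76) (nat_lit 5799465472) (nat_lit 146) (nat_lit 5) (nat_lit 152) (nat_lit 5) (nat_lit 147) (nat_lit 5) (nat_lit 439) (nat_lit 424) (nat_lit 337))) (XT.nd (nat_lit 78) (nat_lit 0) (nat_lit 0) (XT.lf (nat_lit 0) (nat_lit 906634339) (nat_lit 380) (nat_lit 5367020860) (nat_lit 456) (nat_lit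 13692293448) (nat_lit 141) (nat_lit 5) (nat_lit 146) (nat_lit 5) (nat_lit 147) (nat_lit 5) (nat_lit 440) (nat_lit 424) (nat_lit 336)) (XT.lf (nat_lit 0) (nat_lit 9217792006) (nat_lit 456) (nat_lit 7918128454) (nat_lit 76) (nat_lit 3378214498) (nat_lit 141) (nat_lit 5) (nat_lit 147) (nat_lit 5) (nat_lit 142) (nat_lit 5) (nat_lit 441) (nat_lit 424) (nat_lit 335))))) (XT.nd (nat_lit 312) (nat_lit 836) (nat_lit 0) (XT.nd (nat_lit 156) (nat_lit 380) (nat_lit 0) (XT.nd (nat_lit 78) (nat_lit 0) (nat_lit 0) (XT.lf (nat_lit 0) (nat_lit 3799956855) (nat_lit 304) (nat_lit 8644215586) (nat_lit 380) (nat_lit 8638807113) (nat_lit 137) (nat_lit 5) (nat_lit 141) (nat_lit 5) (nat_lit 142) (nat_lit 5) (nat_lit 442) (nat_lit 424) (nat_lit 334)) (XT.lf (nat_lit 0) (nat_lit 15960486717) (nat_lit 380) (nat_lit 5315307171) (nat_lit 76) (nat_lit 398042523) (nat_lit 137) (nat_lit 5) (nat_lit 142) (nat_lit 5) (nat_lit 138)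 (nat_lit 5) (nat_lit 443) (nat_lit 424) (nat_lit 333))) (XT.nd (nat_lit 78) (nat_lit 76) (nat_lit 0) (XT.lf (nat_lit 0) (nat_lit 7330226848) (nat_lit 304) (nat_lit 12567183043) (nat_lit 380) (nat_lit 2384587293) (nat_lit 133) (nat_lit 5) (nat_lit 137) (nat_lit 5) (nat_lit 138) (nat_lit 5) (nat_lit 444) (nat_lit 424) (nat_lit 332)) (XT.lf (nat_lit 0) (nat_lit 1155351612) (nat_lit 380) (nat_lit 2155933417) (nat_lit 76) (nat_lit 19604400398) (nat_lit 132) (nat_lit 5) (nat_lit 137) (nat_lit 5) (nat_lit 133) (nat_lit 5) (nat_lit 445) (nat_lit 424) (nat_lit 331)))) (XT.nd (nat_lit 156) (nat_lit 228) (nat_lit 0) (XT.nd (nat_lit 78) (nat_lit 304) (nat_lit 0) (XT.lf (nat_lit 0) (nat_lit 5066177305) (nat_lit 380) (nat_lit 12075331696) (nat_lit 76) (nat_lit 6423893756) (nat_lit 128) (nat_lit 5) (nat_lit 133) (nat_lit 5) (nat_lit 129) (nat_lit 5) (nat_lit 446) (nat_lit 424) (nat_lit 330)) (XT.lf (nat_lit 0)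 (nat_lit 1631532817) (nat_lit 304) (nat_lit 7647475079) (nat_lit 380) (nat_lit 14963275479) (nat_lit 124) (nat_lit 5) (nat_lit 128) (nat_lit 5) (nat_lit 129) (nat_lit 5) (nat_lit 447) (nat_lit 424) (nat_lit 329))) (XT.nd (nat_lit 78) (nat_lit 228) (nat_lit 0) (XT.lf (nat_lit 0) (nat_lit 13936418794) (nat_lit 380) (nat_lit 8552903831) (nat_lit 76) (nat_lit 2451989038) (nat_lit 124) (nat_lit 5) (nat_lit 129) (nat_lit 5) (nat_lit 125) (nat_lit 5) (nat_lit 448) (nat_lit 424) (nat_lit 328)) (XT.nd (nat_lit 78) (nat_lit 0) (nat_lit 0) (XT.lf (nat_lit 0) (nat_lit 6270302462) (nat_lit 228) (nat_lit 12769990185) (nat_lit 304) (nat_lit 6624319644) (nat_lit 121) (nat_lit 5) (nat_lit 124) (nat_lit 5) (nat_lit 125) (nat_lit 5) (nat_lit 449) (nat_lit 424) (nat_lit 327)) (XT.lf (nat_lit 0) (nat_lit 22118960723) (nat_lit 228) (nat_lit 2415837193) (nat_lit 304) (nat_lit 1882508670) (nat_lit 121) (nat_lit 5) (nat_lit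 124) (nat_lit 5) (nat_lit 125) (nat_lit 5) (nat_lit 450) (nat_lit 424) (nat_lit 326))))))))
noncomputable def xc292 : XT := (XT.nd (nat_lit 1248) (nat_lit 1748) (nat_lit 0) (XT.nd (nat_lit 624) (nat_lit 988) (nat_lit 0) (XT.nd (nat_lit 312) (nat_lit 456) (nat_lit 0) (XT.nd (nat_lit 156) (nat_lit 228) (nat_lit 0) (XT.nd (nat_lit 78) (nat_lit 228) (nat_lit 0) (XT.lf (nat_lit 0) (nat_lit 3309332981) (nat_lit 380) (nat_lit 15460513576) (nat_lit 76) (nat_lit 8419770142) (nat_lit 116) (nat_lit 5) (nat_lit 121) (nat_lit 5) (nat_lit 117) (nat_lit 5) (nat_lit 451) (nat_lit 424) (nat_lit 325)) (XT.lf (nat_lit 0) (nat_lit 646754279) (nat_lit 228) (nat_lit 8165521011) (nat_lit 304) (nat_lit 19180985780) (nat_lit 113) (nat_lit 5) (nat_lit 116) (nat_lit 5) (nat_lit 117) (nat_lit 5) (nat_lit 452) (nat_lit 424) (nat_lit 324))) (XT.nd (nat_lit 78) (nat_lit 228) (nat_lit 0) (XT.lf (nat_lit 0) (nat_lit 14894101755)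 (nat_lit 304) (nat_lit 10791217572) (nat_lit 76) (nat_lit 3136581909) (nat_lit 113) (nat_lit 5) (nat_lit 117) (nat_lit 5) (nat_lit 114) (nat_lit 5) (nat_lit 453) (nat_lit 424) (nat_lit 323)) (XT.lf (nat_lit 0) (nat_lit 6658995920) (nat_lit 228) (nat_lit 14850525171) (nat_lit 304) (nat_lit 8170977650) (nat_lit 110) (nat_lit 5) (nat_lit 113) (nat_lit 5) (nat_lit 114) (nat_lit 5) (nat_lit 454) (nat_lit 424) (nat_lit 322)))) (XT.nd (nat_lit 156) (nat_lit 228) (nat_lit 0) (XT.nd (nat_lit 78) (nat_lit 228) (nat_lit 0) (XT.lf (nat_lit 0) (nat_lit 25344453453) (nat_lit 228) (nat_lit 3285897825) (nat_lit 304) (nat_lit 1942943240) (nat_lit 110) (nat_lit 5) (nat_lit 113) (nat_lit 5) (nat_lit 114) (nat_lit 5) (nat_lit 455) (nat_lit 424) (nat_lit 321)) (XT.lf (nat_lit 0) (nat_lit 4800102740) (nat_lit 228) (nat_lit 17827528875) (nat_lit 76) (nat_lit 8861974298) (nat_lit 107) (nat_lit 5) (nat_lit 110) (nat_lit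 5) (nat_lit 108) (nat_lit 5) (nat_lit 456) (nat_lit 424) (nat_lit 320))) (XT.nd (nat_lit 78) (nat_lit 0) (nat_lit 0) (XT.lf (nat_lit 0) (nat_lit 1170312752) (nat_lit 228) (nat_lit 10799118147) (nat_lit 304) (nat_lit 20472988463) (nat_lit 104) (nat_lit 5) (nat_lit 107) (nat_lit 5) (nat_lit 108) (nat_lit 5) (nat_lit 457) (nat_lit 424) (nat_lit 319)) (XT.lf (nat_lit 0) (nat_lit 19821804485) (nat_lit 304) (nat_lit 11732922805) (nat_lit 76) (nat_lit 1871917562) (nat_lit 104) (nat_lit 5) (nat_lit 108) (nat_lit 5) (nat_lit 105) (nat_lit 5) (nat_lit 458) (nat_lit 424) (nat_lit 318))))) (XT.nd (nat_lit 312) (nat_lit 380) (nat_lit 0) (XT.nd (nat_lit 156) (nat_lit 380) (nat_lit 0) (XT.nd (nat_lit 78) (nat_lit 76) (nat_lit 0) (XT.lf (nat_lit 0) (nat_lit 8879068056) (nat_lit 152) (nat_lit 19496158326) (nat_lit 228) (nat_lit 6069434061) (nat_lit 102) (nat_lit 5) (nat_lit 104) (nat_lit 5) (nat_lit 105) (nat_lit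 5) (nat_lit 459) (nat_lit 424) (nat_lit 317)) (XT.lf (nat_lit 0) (nat_lit 1978545932) (nat_lit 228) (nat_lit 4618028755) (nat_lit 76) (nat_lit 28905824750) (nat_lit 101) (nat_lit 5) (nat_lit 104) (nat_lit 5) (nat_lit 102) (nat_lit 5) (nat_lit 460) (nat_lit 424) (nat_lit 316))) (XT.nd (nat_lit 78) (nat_lit 152) (nat_lit 0) (XT.lf (nat_lit 0) (nat_lit 10611221914) (nat_lit 304) (nat_lit 18871571461) (nat_lit 76) (nat_lit 7105943835) (nat_lit 98) (nat_lit 5) (nat_lit 102) (nat_lit 5) (nat_lit 99) (nat_lit 5) (nat_lit 461) (nat_lit 424) (nat_lit 315)) (XT.lf (nat_lit 0) (nat_lit 3598812751) (nat_lit 152) (nat_lit 16313799419) (nat_lit 228) (nat_lit 17804925931) (nat_lit 96) (nat_lit 5) (nat_lit 98) (nat_lit 5) (nat_lit 99) (nat_lit 5) (nat_lit 462) (nat_lit 424) (nat_lit 314)))) (XT.nd (nat_lit 156) (nat_lit 152) (nat_lit 0) (XT.nd (nat_lit 78) (nat_lit 228) (nat_lit 0) (XT.lf (nat_lit 0) (nat_lit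 27837155452) (nat_lit 152) (nat_lit 2154930580) (nat_lit 228) (nat_lit 8895042538) (nat_lit 96) (nat_lit 5) (nat_lit 98) (nat_lit 5) (nat_lit 99) (nat_lit 5) (nat_lit 463) (nat_lit 424) (nat_lit 313)) (XT.lf (nat_lit 0) (nat_lit 853398371) (nat_lit 228) (nat_lit 26717009173) (nat_lit 76) (nat_lit 12524042031) (nat_lit 93) (nat_lit 5) (nat_lit 96) (nat_lit 5) (nat_lit 94) (nat_lit 5) (nat_lit 464) (nat_lit 424) (nat_lit 312))) (XT.nd (nat_lit 78) (nat_lit 152) (nat_lit 0) (XT.lf (nat_lit 0) (nat_lit 11009566341) (nat_lit 228) (nat_lit 2137659022) (nat_lit 76) (nat_lit 28196658617) (nat_lit 93) (nat_lit 5) (nat_lit 96) (nat_lit 5) (nat_lit 94) (nat_lit 5) (nat_lit 465) (nat_lit 424) (nat_lit 311)) (XT.lf (nat_lit 0) (nat_lit 22086545141) (nat_lit 228) (nat_lit 18231414607) (nat_lit 76) (nat_lit 2317180434) (nat_lit 91) (nat_lit 5) (nat_lit 94) (nat_lit 5) (nat_lit 92) (nat_lit 5) (nat_lit 466) (nat_lit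 424) (nat_lit 310)))))) (XT.nd (nat_lit 624) (nat_lit 912) (nat_lit 0) (XT.nd (nat_lit 312) (nat_lit 304) (nat_lit 0) (XT.nd (nat_lit 156) (nat_lit 304) (nat_lit 0) (XT.nd (nat_lit 78) (nat_lit 76) (nat_lit 0) (XT.lf (nat_lit 0) (nat_lit 8399884486) (nat_lit 152) (nat_lit 25695032732) (nat_lit 228) (nat_lit 9877164946) (nat_lit 89) (nat_lit 5) (nat_lit 91) (nat_lit 5) (nat_lit 92) (nat_lit 5) (nat_lit 467) (nat_lit 424) (nat_lit 309)) (XT.lf (nat_lit 0) (nat_lit 1593263547) (nat_lit 228) (nat_lit 8400643990) (nat_lit 76) (nat_lit 35365531016) (nat_lit 88) (nat_lit 5) (nat_lit 91) (nat_lit 5) (nat_lit 89) (nat_lit 5) (nat_lit 468) (nat_lit 424) (nat_lit 308))) (XT.nd (nat_lit 78) (nat_lit 152) (nat_lit 0) (XT.lf (nat_lit 0) (nat_lit 13730796469) (nat_lit 228) (nat_lit 26283655758) (nat_lit 76) (nat_lit 6772338635) (nat_lit 86) (nat_lit 5) (nat_lit 89) (nat_lit 5) (nat_lit 87) (nat_lit 5) (nat_lit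 469) (nat_lit 424) (nat_lit 307)) (XT.lf (nat_lit 0) (nat_lit 2778422169) (nat_lit 152) (nat_lit 24043042744) (nat_lit 228) (nat_lit 21446733085) (nat_lit 84) (nat_lit 5) (nat_lit 86) (nat_lit 5) (nat_lit 87) (nat_lit 5) (nat_lit 470) (nat_lit 424) (nat_lit 306)))) (XT.nd (nat_lit 156) (nat_lit 152) (nat_lit 0) (XT.nd (nat_lit 78) (nat_lit 152) (nat_lit 0) (XT.lf (nat_lit 0) (nat_lit 34196574473) (nat_lit 152) (nat_lit 6809778494) (nat_lit 228) (nat_lit 8795338359) (nat_lit 84) (nat_lit 5) (nat_lit 86) (nat_lit 5) (nat_lit 87) (nat_lit 5) (nat_lit 471) (nat_lit 424) (nat_lit 305)) (XT.lf (nat_lit 0) (nat_lit 4774260944) (nat_lit 152) (nat_lit 35364025807) (nat_lit 76) (nat_lit 11248603755) (nat_lit 82) (nat_lit 5) (nat_lit 84) (nat_lit 5) (nat_lit 83) (nat_lit 5) (nat_lit 472) (nat_lit 424) (nat_lit 304))) (XT.nd (nat_lit 78) (nat_lit 152) (nat_lit 0) (XT.lf (nat_lit 0) (nat_lit 19101788151) (nat_lit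 152) (nat_lit 3533575649) (nat_lit 76) (nat_lit 30390025231) (nat_lit 82) (nat_lit 5) (nat_lit 84) (nat_lit 5) (nat_lit 83) (nat_lit 5) (nat_lit 473) (nat_lit 424) (nat_lit 303)) (XT.lf (nat_lit 0) (nat_lit 30867486780) (nat_lit 152) (nat_lit 3755162056) (nat_lit 228) (nat_lit 20099315911) (nat_lit 80) (nat_lit 5) (nat_lit 82) (nat_lit 5) (nat_lit 83) (nat_lit 5) (nat_lit 474) (nat_lit 424) (nat_lit 302))))) (XT.nd (nat_lit 312) (nat_lit 532) (nat_lit 0) (XT.nd (nat_lit 156) (nat_lit 228) (nat_lit 0) (XT.nd (nat_lit 78) (nat_lit 76) (nat_lit 0) (XT.lf (nat_lit 0) (nat_lit 10692358126) (nat_lit 76) (nat_lit 40700908462) (nat_lit 152) (nat_lit 5086417073) (nat_lit 79) (nat_lit 5) (nat_lit 80) (nat_lit 5) (nat_lit 81) (nat_lit 4) (nat_lit 475) (nat_lit 424) (nat_lit 301)) (XT.lf (nat_lit 0) (nat_lit 10802650178) (nat_lit 152) (nat_lit 10754184252) (nat_lit 76) (nat_lit 36736756292) (nat_lit 78) (nat_lit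 5) (nat_lit 80) (nat_lit 5) (nat_lit 79) (nat_lit 5) (nat_lit 476) (nat_lit 424) (nat_lit 300))) (XT.nd (nat_lit 78) (nat_lit 76) (nat_lit 0) (XT.lf (nat_lit 0) (nat_lit 26796384648) (nat_lit 152) (nat_lit 932538036) (nat_lit 228) (nat_lit 32444416914) (nat_lit 76) (nat_lit 5) (nat_lit 78) (nat_lit 5) (nat_lit 79) (nat_lit 5) (nat_lit 477) (nat_lit 424) (nat_lit 299)) (XT.lf (nat_lit 0) (nat_lit 4261198408) (nat_lit 76) (nat_lit 41810851845) (nat_lit 152) (nat_lit 16046498688) (nat_lit 75) (nat_lit 5) (nat_lit 76) (nat_lit 5) (nat_lit 77) (nat_lit 4) (nat_lit 478) (nat_lit 424) (nat_lit 298)))) (XT.nd (nat_lit 156) (nat_lit 304) (nat_lit 0) (XT.nd (nat_lit 78) (nat_lit 152) (nat_lit 0) (XT.lf (nat_lit 0) (nat_lit 1719005776) (nat_lit 152) (nat_lit 19244111723) (nat_lit 76) (nat_lit 43167727975) (nat_lit 74) (nat_lit 5) (nat_lit 76) (nat_lit 5) (nat_lit 75) (nat_lit 5) (nat_lit 479) (nat_lit 424)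 (nat_lit 297)) (XT.lf (nat_lit 0) (nat_lit 20192567510) (nat_lit 228) (nat_lit 44514260708) (nat_lit 76) (nat_lit 1505823348) (nat_lit 72) (nat_lit 5) (nat_lit 75) (nat_lit 5) (nat_lit 73) (nat_lit 4) (nat_lit 480) (nat_lit 424) (nat_lit 296))) (XT.nd (nat_lit 78) (nat_lit 304) (nat_lit 0) (XT.lf (nat_lit 0) (nat_lit 40260334798) (nat_lit 228) (nat_lit 3383288966) (nat_lit 76) (nat_lit 24721397904) (nat_lit 72) (nat_lit 5) (nat_lit 75) (nat_lit 5) (nat_lit 73) (nat_lit 4) (nat_lit 481) (nat_lit 424) (nat_lit 295)) (XT.nd (nat_lit 78) (nat_lit 228) (nat_lit 0) (XT.lf (nat_lit 0) (nat_lit 41112304062) (nat_lit 76) (nat_lit 20856892002) (nat_lit 152) (nat_lit 8623929003) (nat_lit 71) (nat_lit 5) (nat_lit 72) (nat_lit 5) (nat_lit 73) (nat_lit 4) (nat_lit 482) (nat_lit 424) (nat_lit 294)) (XT.lf (nat_lit 0) (nat_lit 11801190383) (nat_lit 228) (nat_lit 57647330991) (nat_lit 76) (nat_lit 3457427419) (nat_lit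 68) (nat_lit 5) (nat_lit 71) (nat_lit 5) (nat_lit 69) (nat_lit 4) (nat_lit 483) (nat_lit 424) (nat_lit 293))))))))
noncomputable def xc293 : XT := (XT.nd (nat_lit 1248) (nat_lit 1140) (nat_lit 0) (XT.nd (nat_lit 624) (nat_lit 532) (nat_lit 0) (XT.nd (nat_lit 312) (nat_lit 304) (nat_lit 0) (XT.nd (nat_lit 156) (nat_lit 152) (nat_lit 0) (XT.nd (nat_lit 78) (nat_lit 76) (nat_lit 0) (XT.lf (nat_lit 0) (nat_lit 33802980108) (nat_lit 228) (nat_lit 12550203523) (nat_lit 76) (nat_lit 28931899596) (nat_lit 68) (nat_lit 5) (nat_lit 71) (nat_lit 5) (nat_lit 69) (nat_lit 4) (nat_lit 484) (nat_lit 424) (nat_lit 292)) (XT.lf (nat_lit 0) (nat_lit 35944797784) (nat_lit 76) (nat_lit 21517319532) (nat_lit 152) (nat_lit 20293194228) (nat_lit 67) (nat_lit 5) (nat_lit 68) (nat_lit 5) (nat_lit 69) (nat_lit 4) (nat_lit 485) (nat_lit 424) (nat_lit 291))) (XT.nd (nat_lit 78) (nat_lit 0) (nat_lit 0) (XT.lf (nat_lit 0) (nat_lit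 2293315159) (nat_lit 152) (nat_lit 73259157277) (nat_lit 76) (nat_lit 4775016002) (nat_lit 65) (nat_lit 5) (nat_lit 67) (nat_lit 5) (nat_lit 66) (nat_lit 4) (nat_lit 486) (nat_lit 424) (nat_lit 290)) (XT.lf (nat_lit 0) (nat_lit 26395685157) (nat_lit 152) (nat_lit 23854680464) (nat_lit 76) (nat_lit 32707848864) (nat_lit 65) (nat_lit 5) (nat_lit 67) (nat_lit 5) (nat_lit 66) (nat_lit 4) (nat_lit 487) (nat_lit 424) (nat_lit 289)))) (XT.nd (nat_lit 156) (nat_lit 228) (nat_lit 0) (XT.nd (nat_lit 78) (nat_lit 0) (nat_lit 0) (XT.lf (nat_lit 0) (nat_lit 28939139906) (nat_lit 76) (nat_lit 23212128559) (nat_lit 152) (nat_lit 33546803680) (nat_lit 64) (nat_lit 5) (nat_lit 65) (nat_lit 5) (nat_lit 66) (nat_lit 4) (nat_lit 488) (nat_lit 424) (nat_lit 288)) (XT.lf (nat_lit 0) (nat_lit 79682377451) (nat_lit 152) (nat_lit 3448486979) (nat_lit 0) (nat_lit 5419670980) (nat_lit 64) (nat_lit 5) (nat_lit 66) (nat_lit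 4) (nat_lit 64) (nat_lit 4) (nat_lit 489) (nat_lit 424) (nat_lit 287))) (XT.nd (nat_lit 78) (nat_lit 76) (nat_lit 0) (XT.lf (nat_lit 0) (nat_lit 17736822241) (nat_lit 152) (nat_lit 37906648400) (nat_lit 76) (nat_lit 35826949179) (nat_lit 62) (nat_lit 5) (nat_lit 64) (nat_lit 5) (nat_lit 63) (nat_lit 4) (nat_lit 490) (nat_lit 424) (nat_lit 286)) (XT.lf (nat_lit 0) (nat_lit 19483445782) (nat_lit 76) (nat_lit 26250601274) (nat_lit 152) (nat_lit 48776981260) (nat_lit 61) (nat_lit 5) (nat_lit 62) (nat_lit 5) (nat_lit 63) (nat_lit 4) (nat_lit 491) (nat_lit 424) (nat_lit 285))))) (XT.nd (nat_lit 312) (nat_lit 304) (nat_lit 0) (XT.nd (nat_lit 156) (nat_lit 76) (nat_lit 0) (XT.nd (nat_lit 78) (nat_lit 152) (nat_lit 0) (XT.lf (nat_lit 0) (nat_lit 75852116112) (nat_lit 152) (nat_lit 16701830263) (nat_lit 0) (nat_lit 5113671751) (nat_lit 61) (nat_lit 5) (nat_lit 63) (nat_lit 4) (nat_lit 61) (nat_lit 4) (nat_lit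 492) (nat_lit 424) (nat_lit 284)) (XT.lf (nat_lit 0) (nat_lit 7443198823) (nat_lit 152) (nat_lit 55483529306) (nat_lit 76) (nat_lit 37992389925) (nat_lit 59) (nat_lit 5) (nat_lit 61) (nat_lit 5) (nat_lit 60) (nat_lit 4) (nat_lit 493) (nat_lit 424) (nat_lit 283))) (XT.nd (nat_lit 78) (nat_lit 0) (nat_lit 0) (XT.lf (nat_lit 0) (nat_lit 6789215466) (nat_lit 76) (nat_lit 31032624261) (nat_lit 152) (nat_lit 66473964279) (nat_lit 58) (nat_lit 5) (nat_lit 59) (nat_lit 5) (nat_lit 60) (nat_lit 4) (nat_lit 494) (nat_lit 424) (nat_lit 282)) (XT.lf (nat_lit 0) (nat_lit 70709475543) (nat_lit 152) (nat_lit 33752736595) (nat_lit 0) (nat_lit 3329609007) (nat_lit 58) (nat_lit 5) (nat_lit 60) (nat_lit 4) (nat_lit 58) (nat_lit 4) (nat_lit 495) (nat_lit 424) (nat_lit 281)))) (XT.nd (nat_lit 156) (nat_lit 152) (nat_lit 0) (XT.nd (nat_lit 78) (nat_lit 76) (nat_lit 0) (XT.lf (nat_lit 0) (nat_lit 33754229381) (nat_lit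 76) (nat_lit 72519822555) (nat_lit 76) (nat_lit 5136959297) (nat_lit 57) (nat_lit 4) (nat_lit 58) (nat_lit 5) (nat_lit 58) (nat_lit 4) (nat_lit 496) (nat_lit 424) (nat_lit 280)) (XT.lf (nat_lit 0) (nat_lit 28074360264) (nat_lit 152) (nat_lit 9833278736) (nat_lit 76) (nat_lit 77252456045) (nat_lit 56) (nat_lit 5) (nat_lit 58) (nat_lit 5) (nat_lit 57) (nat_lit 4) (nat_lit 497) (nat_lit 424) (nat_lit 279))) (XT.nd (nat_lit 78) (nat_lit 76) (nat_lit 0) (XT.lf (nat_lit 0) (nat_lit 63317850900) (nat_lit 76) (nat_lit 441313146) (nat_lit 152) (nat_lit 55283980719) (nat_lit 55) (nat_lit 5) (nat_lit 56) (nat_lit 5) (nat_lit 57) (nat_lit 4) (nat_lit 498) (nat_lit 424) (nat_lit 278)) (XT.lf (nat_lit 0) (nat_lit 17293450969) (nat_lit 76) (nat_lit 84978322717) (nat_lit 76) (nat_lit 20796395025) (nat_lit 54) (nat_lit 4) (nat_lit 55) (nat_lit 5) (nat_lit 55) (nat_lit 4) (nat_lit 499) (nat_lit 424) (nat_lit 277))))))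 (XT.nd (nat_lit 624) (nat_lit 608) (nat_lit 0) (XT.nd (nat_lit 312) (nat_lit 228) (nat_lit 0) (XT.nd (nat_lit 156) (nat_lit 152) (nat_lit 0) (XT.nd (nat_lit 78) (nat_lit 76) (nat_lit 0) (XT.lf (nat_lit 0) (nat_lit 15885613034) (nat_lit 152) (nat_lit 31618768982) (nat_lit 76) (nat_lit 79729855972) (nat_lit 53) (nat_lit 5) (nat_lit 55) (nat_lit 5) (nat_lit 54) (nat_lit 4) (nat_lit 500) (nat_lit 424) (nat_lit 276)) (XT.lf (nat_lit 0) (nat_lit 47416028079) (nat_lit 76) (nat_lit 7024235326) (nat_lit 152) (nat_lit 77114429260) (nat_lit 52) (nat_lit 5) (nat_lit 53) (nat_lit 5) (nat_lit 54) (nat_lit 4) (nat_lit 501) (nat_lit 424) (nat_lit 275))) (XT.nd (nat_lit 78) (nat_lit 152) (nat_lit 0) (XT.lf (nat_lit 0) (nat_lit 96017991814) (nat_lit 152) (nat_lit 5132458830) (nat_lit 0) (nat_lit 34885952178) (nat_lit 52) (nat_lit 5) (nat_lit 54) (nat_lit 4) (nat_lit 52) (nat_lit 4) (nat_lit 502) (nat_lit 424) (nat_lit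 274)) (XT.lf (nat_lit 0) (nat_lit 354683659) (nat_lit 152) (nat_lit 60406869847) (nat_lit 76) (nat_lit 79912073110) (nat_lit 50) (nat_lit 5) (nat_lit 52) (nat_lit 5) (nat_lit 51) (nat_lit 4) (nat_lit 503) (nat_lit 424) (nat_lit 273)))) (XT.nd (nat_lit 156) (nat_lit 152) (nat_lit 0) (XT.nd (nat_lit 78) (nat_lit 0) (nat_lit 0) (XT.lf (nat_lit 0) (nat_lit 24703584323) (nat_lit 76) (nat_lit 17169291481) (nat_lit 152) (nat_lit 103613467648) (nat_lit 49) (nat_lit 5) (nat_lit 50) (nat_lit 5) (nat_lit 51) (nat_lit 4) (nat_lit 504) (nat_lit 424) (nat_lit 272)) (XT.lf (nat_lit 0) (nat_lit 86950626161) (nat_lit 152) (nat_lit 34790512061) (nat_lit 0) (nat_lit 28724375496) (nat_lit 49) (nat_lit 5) (nat_lit 51) (nat_lit 4) (nat_lit 49) (nat_lit 4) (nat_lit 505) (nat_lit 424) (nat_lit 271))) (XT.nd (nat_lit 78) (nat_lit 76) (nat_lit 0) (XT.lf (nat_lit 0) (nat_lit 57040408159) (nat_lit 76) (nat_lit 78411300995)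 (nat_lit 76) (nat_lit 20183461104) (nat_lit 48) (nat_lit 4) (nat_lit 49) (nat_lit 5) (nat_lit 49) (nat_lit 4) (nat_lit 506) (nat_lit 424) (nat_lit 270)) (XT.lf (nat_lit 0) (nat_lit 25100589707) (nat_lit 152) (nat_lit 6773144539) (nat_lit 76) (nat_lit 129140000034) (nat_lit 47) (nat_lit 5) (nat_lit 49) (nat_lit 5) (nat_lit 48) (nat_lit 4) (nat_lit 507) (nat_lit 424) (nat_lit 269))))) (XT.nd (nat_lit 312) (nat_lit 304) (nat_lit 0) (XT.nd (nat_lit 156) (nat_lit 152) (nat_lit 0) (XT.nd (nat_lit 78) (nat_lit 76) (nat_lit 0) (XT.lf (nat_lit 0) (nat_lit 73702747865) (nat_lit 152) (nat_lit 74610476814) (nat_lit 0) (nat_lit 18244847946) (nat_lit 46) (nat_lit 5) (nat_lit 48) (nat_lit 4) (nat_lit 46) (nat_lit 4) (nat_lit 508) (nat_lit 424) (nat_lit 268)) (XT.lf (nat_lit 0) (nat_lit 23694719624) (nat_lit 76) (nat_lit 102046892864) (nat_lit 76) (nat_lit 46587685485) (nat_lit 45) (nat_lit 4) (nat_lit 46) (nat_lit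 5) (nat_lit 46) (nat_lit 4) (nat_lit 509) (nat_lit 424) (nat_lit 267))) (XT.nd (nat_lit 78) (nat_lit 76) (nat_lit 0) (XT.lf (nat_lit 0) (nat_lit 3211367772) (nat_lit 152) (nat_lit 48877148645) (nat_lit 76) (nat_lit 126234920546) (nat_lit 44) (nat_lit 5) (nat_lit 46) (nat_lit 5) (nat_lit 45) (nat_lit 4) (nat_lit 510) (nat_lit 424) (nat_lit 266)) (XT.lf (nat_lit 0) (nat_lit 54853891781) (nat_lit 152) (nat_lit 127645962312) (nat_lit 0) (nat_lit 2033283701) (nat_lit 43) (nat_lit 5) (nat_lit 45) (nat_lit 4) (nat_lit 43) (nat_lit 4) (nat_lit 511) (nat_lit 424) (nat_lit 265)))) (XT.nd (nat_lit 156) (nat_lit 228) (nat_lit 0) (XT.nd (nat_lit 78) (nat_lit 76) (nat_lit 0) (XT.lf (nat_lit 0) (nat_lit 110771452829) (nat_lit 152) (nat_lit 22247456210) (nat_lit 0) (nat_lit 57949769099) (nat_lit 43) (nat_lit 5) (nat_lit 45) (nat_lit 4) (nat_lit 43) (nat_lit 4) (nat_lit 512) (nat_lit 424) (nat_lit 264)) (XT.lf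 (nat_lit 0) (nat_lit 91339986537) (nat_lit 76) (nat_lit 79568762147) (nat_lit 76) (nat_lit 26746053987) (nat_lit 42) (nat_lit 4) (nat_lit 43) (nat_lit 5) (nat_lit 43) (nat_lit 4) (nat_lit 513) (nat_lit 424) (nat_lit 263))) (XT.nd (nat_lit 78) (nat_lit 76) (nat_lit 0) (XT.lf (nat_lit 0) (nat_lit 6460272326) (nat_lit 76) (nat_lit 22458730664) (nat_lit 152) (nat_lit 175709217247) (nat_lit 40) (nat_lit 5) (nat_lit 41) (nat_lit 5) (nat_lit 42) (nat_lit 4) (nat_lit 514) (nat_lit 424) (nat_lit 262)) (XT.nd (nat_lit 78) (nat_lit 76) (nat_lit 0) (XT.lf (nat_lit 0) (nat_lit 88881853713) (nat_lit 152) (nat_lit 84353164319) (nat_lit 0) (nat_lit 38572698481) (nat_lit 40) (nat_lit 5) (nat_lit 42) (nat_lit 4) (nat_lit 40) (nat_lit 4) (nat_lit 515) (nat_lit 424) (nat_lit 261)) (XT.lf (nat_lit 0) (nat_lit 35929933007) (nat_lit 76) (nat_lit 116839950407) (nat_lit 76) (nat_lit 66529952374) (nat_lit 39) (nat_lit 4)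 (nat_lit 40) (nat_lit 5) (nat_lit 40) (nat_lit 4) (nat_lit 516) (nat_lit 424) (nat_lit 260))))))))
noncomputable def xc294 : XT := (XT.nd (nat_lit 1248) (nat_lit 836) (nat_lit 0) (XT.nd (nat_lit 624) (nat_lit 456) (nat_lit 0) (XT.nd (nat_lit 312) (nat_lit 228) (nat_lit 0) (XT.nd (nat_lit 156) (nat_lit 76) (nat_lit 0) (XT.nd (nat_lit 78) (nat_lit 152) (nat_lit 0) (XT.lf (nat_lit 0) (nat_lit 165151573070) (nat_lit 76) (nat_lit 56127232069) (nat_lit 76) (nat_lit 5816431369) (nat_lit 39) (nat_lit 4) (nat_lit 40) (nat_lit 5) (nat_lit 40) (nat_lit 4) (nat_lit 517) (nat_lit 424) (nat_lit 259)) (XT.lf (nat_lit 0) (nat_lit 57270093793) (nat_lit 152) (nat_lit 168551194451) (nat_lit 0) (nat_lit 9354317465) (nat_lit 37) (nat_lit 5) (nat_lit 39) (nat_lit 4) (nat_lit 37) (nat_lit 4) (nat_lit 518) (nat_lit 424) (nat_lit 258))) (XT.nd (nat_lit 78) (nat_lit 76) (nat_lit 0) (XT.lf (nat_lit 0) (nat_lit 125299834480)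 (nat_lit 152) (nat_lit 40872808579) (nat_lit 0) (nat_lit 77383364778) (nat_lit 37) (nat_lit 5) (nat_lit 39) (nat_lit 4) (nat_lit 37) (nat_lit 4) (nat_lit 519) (nat_lit 424) (nat_lit 257)) (XT.lf (nat_lit 0) (nat_lit 96266793312) (nat_lit 76) (nat_lit 101965356228) (nat_lit 76) (nat_lit 54048226170) (nat_lit 36) (nat_lit 4) (nat_lit 37) (nat_lit 5) (nat_lit 37) (nat_lit 4) (nat_lit 520) (nat_lit 424) (nat_lit 256)))) (XT.nd (nat_lit 156) (nat_lit 76) (nat_lit 0) (XT.nd (nat_lit 78) (nat_lit 76) (nat_lit 0) (XT.lf (nat_lit 0) (nat_lit 13643833393) (nat_lit 152) (nat_lit 19947900511) (nat_lit 76) (nat_lit 227803708714) (nat_lit 35) (nat_lit 5) (nat_lit 37) (nat_lit 5) (nat_lit 36) (nat_lit 4) (nat_lit 521) (nat_lit 424) (nat_lit 255)) (XT.lf (nat_lit 0) (nat_lit 85513734428) (nat_lit 152) (nat_lit 145400542894) (nat_lit 0) (nat_lit 39877203065) (nat_lit 34) (nat_lit 5) (nat_lit 36) (nat_lit 4) (nat_lit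 34) (nat_lit 4) (nat_lit 522) (nat_lit 424) (nat_lit 254))) (XT.nd (nat_lit 78) (nat_lit 76) (nat_lit 0) (XT.lf (nat_lit 0) (nat_lit 161869366772) (nat_lit 152) (nat_lit 2511049333) (nat_lit 0) (nat_lit 116232292132) (nat_lit 34) (nat_lit 5) (nat_lit 36) (nat_lit 4) (nat_lit 34) (nat_lit 4) (nat_lit 523) (nat_lit 424) (nat_lit 253)) (XT.lf (nat_lit 0) (nat_lit 152397090097) (nat_lit 76) (nat_lit 92023309251) (nat_lit 76) (nat_lit 46385717205) (nat_lit 33) (nat_lit 4) (nat_lit 34) (nat_lit 5) (nat_lit 34) (nat_lit 4) (nat_lit 524) (nat_lit 424) (nat_lit 252))))) (XT.nd (nat_lit 312) (nat_lit 228) (nat_lit 0) (XT.nd (nat_lit 156) (nat_lit 76) (nat_lit 0) (XT.nd (nat_lit 78) (nat_lit 0) (nat_lit 0) (XT.lf (nat_lit 0) (nat_lit 13599861026) (nat_lit 76) (nat_lit 15296697920) (nat_lit 152) (nat_lit 272576845934) (nat_lit 31) (nat_lit 5) (nat_lit 32) (nat_lit 5) (nat_lit 33) (nat_lit 4) (nat_lit 525)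 (nat_lit 424) (nat_lit 251)) (XT.lf (nat_lit 0) (nat_lit 109783799381) (nat_lit 152) (nat_lit 136363741683) (nat_lit 0) (nat_lit 66318509746) (nat_lit 31) (nat_lit 5) (nat_lit 33) (nat_lit 4) (nat_lit 31) (nat_lit 4) (nat_lit 526) (nat_lit 424) (nat_lit 250))) (XT.nd (nat_lit 78) (nat_lit 0) (nat_lit 0) (XT.lf (nat_lit 0) (nat_lit 23210337171) (nat_lit 76) (nat_lit 172116566054) (nat_lit 76) (nat_lit 128650850747) (nat_lit 30) (nat_lit 4) (nat_lit 31) (nat_lit 5) (nat_lit 31) (nat_lit 4) (nat_lit 527) (nat_lit 424) (nat_lit 249)) (XT.lf (nat_lit 0) (nat_lit 195494091143) (nat_lit 76) (nat_lit 91960841667) (nat_lit 76) (nat_lit 48494720959) (nat_lit 30) (nat_lit 4) (nat_lit 31) (nat_lit 5) (nat_lit 31) (nat_lit 4) (nat_lit 528) (nat_lit 424) (nat_lit 248)))) (XT.nd (nat_lit 156) (nat_lit 76) (nat_lit 0) (XT.nd (nat_lit 78) (nat_lit 0) (nat_lit 0) (XT.lf (nat_lit 0) (nat_lit 28214874006) (nat_lit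 76) (nat_lit 6751653218) (nat_lit 152) (nat_lit 313503829038) (nat_lit 28) (nat_lit 5) (nat_lit 29) (nat_lit 5) (nat_lit 30) (nat_lit 4) (nat_lit 529) (nat_lit 424) (nat_lit 247)) (XT.lf (nat_lit 0) (nat_lit 124678672133) (nat_lit 152) (nat_lit 153431644447) (nat_lit 0) (nat_lit 83281648784) (nat_lit 28) (nat_lit 5) (nat_lit 30) (nat_lit 4) (nat_lit 28) (nat_lit 4) (nat_lit 530) (nat_lit 424) (nat_lit 246))) (XT.nd (nat_lit 78) (nat_lit 0) (nat_lit 0) (XT.lf (nat_lit 0) (nat_lit 22334530470) (nat_lit 76) (nat_lit 196999793180) (nat_lit 76) (nat_lit 155602436307) (nat_lit 27) (nat_lit 4) (nat_lit 28) (nat_lit 5) (nat_lit 28) (nat_lit 4) (nat_lit 531) (nat_lit 424) (nat_lit 245)) (XT.lf (nat_lit 0) (nat_lit 212212846622) (nat_lit 76) (nat_lit 109106886699) (nat_lit 76) (nat_lit 67709212183) (nat_lit 27) (nat_lit 4) (nat_lit 28) (nat_lit 5) (nat_lit 28) (nat_lit 4) (nat_lit 532) (nat_lit 424) (nat_lit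 244)))))) (XT.nd (nat_lit 624) (nat_lit 380) (nat_lit 0) (XT.nd (nat_lit 312) (nat_lit 228) (nat_lit 0) (XT.nd (nat_lit 156) (nat_lit 76) (nat_lit 0) (XT.nd (nat_lit 78) (nat_lit 0) (nat_lit 0) (XT.lf (nat_lit 0) (nat_lit 7616498528) (nat_lit 76) (nat_lit 16293001744) (nat_lit 152) (nat_lit 379891178051) (nat_lit 25) (nat_lit 5) (nat_lit 26) (nat_lit 5) (nat_lit 27) (nat_lit 4) (nat_lit 533) (nat_lit 424) (nat_lit 243)) (XT.lf (nat_lit 0) (nat_lit 122142974532) (nat_lit 152) (nat_lit 214181003569) (nat_lit 0) (nat_lit 82716055347) (nat_lit 25) (nat_lit 5) (nat_lit 27) (nat_lit 4) (nat_lit 25) (nat_lit 4) (nat_lit 534) (nat_lit 424) (nat_lit 242))) (XT.nd (nat_lit 78) (nat_lit 76) (nat_lit 0) (XT.lf (nat_lit 0) (nat_lit 225553872533) (nat_lit 152) (nat_lit 23347504275) (nat_lit 0) (nat_lit 186126692023) (nat_lit 25) (nat_lit 5) (nat_lit 27) (nat_lit 4) (nat_lit 25) (nat_lit 4) (nat_lit 535) (nat_lit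 424) (nat_lit 241)) (XT.lf (nat_lit 0) (nat_lit 182878311030) (nat_lit 76) (nat_lit 154110963203) (nat_lit 76) (nat_lit 114683533812) (nat_lit 24) (nat_lit 4) (nat_lit 25) (nat_lit 5) (nat_lit 25) (nat_lit 4) (nat_lit 536) (nat_lit 424) (nat_lit 240)))) (XT.nd (nat_lit 156) (nat_lit 76) (nat_lit 0) (XT.nd (nat_lit 78) (nat_lit 152) (nat_lit 0) (XT.lf (nat_lit 0) (nat_lit 400223424775) (nat_lit 76) (nat_lit 54167159478) (nat_lit 76) (nat_lit 14739493057) (nat_lit 24) (nat_lit 4) (nat_lit 25) (nat_lit 5) (nat_lit 25) (nat_lit 4) (nat_lit 537) (nat_lit 424) (nat_lit 239)) (XT.lf (nat_lit 0) (nat_lit 90417244406) (nat_lit 152) (nat_lit 343950553913) (nat_lit 0) (nat_lit 52866870917) (nat_lit 22) (nat_lit 5) (nat_lit 24) (nat_lit 4) (nat_lit 22) (nat_lit 4) (nat_lit 538) (nat_lit 424) (nat_lit 238))) (XT.nd (nat_lit 78) (nat_lit 76) (nat_lit 0) (XT.lf (nat_lit 0) (nat_lit 202409337543) (nat_lit 152)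 (nat_lit 138860669246) (nat_lit 0) (nat_lit 164858759299) (nat_lit 22) (nat_lit 5) (nat_lit 24) (nat_lit 4) (nat_lit 22) (nat_lit 4) (nat_lit 539) (nat_lit 424) (nat_lit 237)) (XT.lf (nat_lit 0) (nat_lit 79010162618) (nat_lit 76) (nat_lit 242223279050) (nat_lit 76) (nat_lit 204672505800) (nat_lit 21) (nat_lit 4) (nat_lit 22) (nat_lit 5) (nat_lit 22) (nat_lit 4) (nat_lit 540) (nat_lit 424) (nat_lit 236))))) (XT.nd (nat_lit 312) (nat_lit 228) (nat_lit 0) (XT.nd (nat_lit 156) (nat_lit 76) (nat_lit 0) (XT.nd (nat_lit 78) (nat_lit 76) (nat_lit 0) (XT.lf (nat_lit 0) (nat_lit 312593137447) (nat_lit 76) (nat_lit 135756141521) (nat_lit 76) (nat_lit 98205182553) (nat_lit 21) (nat_lit 4) (nat_lit 22) (nat_lit 5) (nat_lit 22) (nat_lit 4) (nat_lit 541) (nat_lit 424) (nat_lit 235)) (XT.lf (nat_lit 0) (nat_lit 13149577772) (nat_lit 152) (nat_lit 10594501409) (nat_lit 76) (nat_lit 544480772106) (nat_lit 20) (nat_lit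 5) (nat_lit 22) (nat_lit 5) (nat_lit 21) (nat_lit 4) (nat_lit 542) (nat_lit 424) (nat_lit 234))) (XT.nd (nat_lit 78) (nat_lit 0) (nat_lit 0) (XT.lf (nat_lit 0) (nat_lit 131907340642) (nat_lit 152) (nat_lit 362589950027) (nat_lit 0) (nat_lit 96144193693) (nat_lit 19) (nat_lit 5) (nat_lit 21) (nat_lit 4) (nat_lit 19) (nat_lit 4) (nat_lit 543) (nat_lit 424) (nat_lit 233)) (XT.lf (nat_lit 0) (nat_lit 257173548490) (nat_lit 152) (nat_lit 135566624008) (nat_lit 0) (nat_lit 221410248750) (nat_lit 19) (nat_lit 5) (nat_lit 21) (nat_lit 4) (nat_lit 19) (nat_lit 4) (nat_lit 544) (nat_lit 424) (nat_lit 232)))) (XT.nd (nat_lit 156) (nat_lit 152) (nat_lit 0) (XT.nd (nat_lit 78) (nat_lit 0) (nat_lit 0) (XT.lf (nat_lit 0) (nat_lit 106205048811) (nat_lit 76) (nat_lit 284155171864) (nat_lit 76) (nat_lit 248391726608) (nat_lit 18) (nat_lit 4) (nat_lit 19) (nat_lit 5) (nat_lit 19) (nat_lit 4) (nat_lit 545) (nat_lit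 424) (nat_lit 231)) (XT.lf (nat_lit 0) (nat_lit 364769860988) (nat_lit 76) (nat_lit 167731263781) (nat_lit 76) (nat_lit 131967679939) (nat_lit 18) (nat_lit 4) (nat_lit 19) (nat_lit 5) (nat_lit 19) (nat_lit 4) (nat_lit 546) (nat_lit 424) (nat_lit 230))) (XT.nd (nat_lit 78) (nat_lit 152) (nat_lit 0) (XT.lf (nat_lit 0) (nat_lit 636260998199) (nat_lit 76) (nat_lit 45487134843) (nat_lit 76) (nat_lit 9723419013) (nat_lit 18) (nat_lit 4) (nat_lit 19) (nat_lit 5) (nat_lit 19) (nat_lit 4) (nat_lit 547) (nat_lit 424) (nat_lit 229)) (XT.nd (nat_lit 78) (nat_lit 0) (nat_lit 0) (XT.lf (nat_lit 0) (nat_lit 119432236406) (nat_lit 152) (nat_lit 514698346692) (nat_lit 0) (nat_lit 85371434947) (nat_lit 16) (nat_lit 5) (nat_lit 18) (nat_lit 4) (nat_lit 16) (nat_lit 4) (nat_lit 548) (nat_lit 424) (nat_lit 228)) (XT.lf (nat_lit 0) (nat_lit 256414029778) (nat_lit 152) (nat_lit 270074136947) (nat_lit 0) (nat_lit 222353114303)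 (nat_lit 16) (nat_lit 5) (nat_lit 18) (nat_lit 4) (nat_lit 16) (nat_lit 4) (nat_lit 549) (nat_lit 424) (nat_lit 227))))))))
noncomputable def xc295 : XT := (XT.nd (nat_lit 53664) (nat_lit 0) (nat_lit 7524) (XT.nd (nat_lit 53040) (nat_lit 0) (nat_lit 10944) (XT.nd (nat_lit 52728) (nat_lit 0) (nat_lit 11324) (XT.nd (nat_lit 156) (nat_lit 76) (nat_lit 0) (XT.nd (nat_lit 78) (nat_lit 76) (nat_lit 0) (XT.lf (nat_lit 0) (nat_lit 400244045661) (nat_lit 152) (nat_lit 13220483258) (nat_lit 0) (nat_lit 366183021601) (nat_lit 16) (nat_lit 5) (nat_lit 18) (nat_lit 4) (nat_lit 16) (nat_lit 4) (nat_lit 550) (nat_lit 424) (nat_lit 226)) (XT.lf (nat_lit 0) (nat_lit 264954365047) (nat_lit 76) (nat_lit 290447051600) (nat_lit 76) (nat_lit 256385924124) (nat_lit 15) (nat_lit 4) (nat_lit 16) (nat_lit 5) (nat_lit 16) (nat_lit 4) (nat_lit 551) (nat_lit 424) (nat_lit 225))) (XT.nd (nat_lit 78) (nat_lit 76) (nat_lit 0)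 (XT.lf (nat_lit 0) (nat_lit 557495285809) (nat_lit 76) (nat_lit 161044453274) (nat_lit 76) (nat_lit 126983227308) (nat_lit 15) (nat_lit 4) (nat_lit 16) (nat_lit 5) (nat_lit 16) (nat_lit 4) (nat_lit 552) (nat_lit 424) (nat_lit 224)) (XT.lf (nat_lit 0) (nat_lit 8604295112) (nat_lit 152) (nat_lit 16422514786) (nat_lit 76) (nat_lit 855911663133) (nat_lit 14) (nat_lit 5) (nat_lit 16) (nat_lit 5) (nat_lit 15) (nat_lit 4) (nat_lit 553) (nat_lit 424) (nat_lit 223)))) (XT.nd (nat_lit 156) (nat_lit 0) (nat_lit 76) (XT.nd (nat_lit 78) (nat_lit 0) (nat_lit 0) (XT.lf (nat_lit 0) (nat_lit 698820438) (nat_lit 836) (nat_lit 3145459653) (nat_lit 836) (nat_lit 3145459653) (nat_lit 163) (nat_lit 3) (nat_lit 174) (nat_lit 3) (nat_lit 174) (nat_lit 5) (nat_lit 425) (nat_lit 425) (nat_lit 350)) (XT.lf (nat_lit 76) (nat_lit 692983899) (nat_lit 0) (nat_lit 1091161649) (nat_lit 836) (nat_lit 12527216448) (nat_lit 164)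 (nat_lit 5) (nat_lit 163) (nat_lit 3) (nat_lit 174) (nat_lit 5) (nat_lit 426) (nat_lit 425) (nat_lit 349))) (XT.nd (nat_lit 78) (nat_lit 0) (nat_lit 0) (XT.lf (nat_lit 0) (nat_lit 2367541872) (nat_lit 760) (nat_lit 6515978368) (nat_lit 836) (nat_lit 5767441750) (nat_lit 164) (nat_lit 5) (nat_lit 174) (nat_lit 5) (nat_lit 175) (nat_lit 5) (nat_lit 427) (nat_lit 425) (nat_lit 348)) (XT.lf (nat_lit 76) (nat_lit 941313780) (nat_lit 0) (nat_lit 2050580692) (nat_lit 836) (nat_lit 12015059792) (nat_lit 165) (nat_lit 5) (nat_lit 164) (nat_lit 5) (nat_lit 175) (nat_lit 5) (nat_lit 428) (nat_lit 425) (nat_lit 347))))) (XT.nd (nat_lit 312) (nat_lit 532) (nat_lit 0) (XT.nd (nat_lit 156) (nat_lit 0) (nat_lit 76) (XT.nd (nat_lit 78) (nat_lit 0) (nat_lit 0) (XT.lf (nat_lit 0) (nat_lit 3819746690) (nat_lit 760) (nat_lit 6472735838) (nat_lit 836) (nat_lit 5079651051) (nat_lit 165) (nat_lit 5) (nat_lit 175) (nat_lit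 5) (nat_lit 176) (nat_lit 5) (nat_lit 429) (nat_lit 425) (nat_lit 346)) (XT.lf (nat_lit 76) (nat_lit 1501504325) (nat_lit 0) (nat_lit 3225614162) (nat_lit 836) (nat_lit 11026548478) (nat_lit 166) (nat_lit 5) (nat_lit 165) (nat_lit 5) (nat_lit 176) (nat_lit 5) (nat_lit 430) (nat_lit 425) (nat_lit 345))) (XT.nd (nat_lit 78) (nat_lit 0) (nat_lit 0) (XT.lf (nat_lit 0) (nat_lit 5838626782) (nat_lit 760) (nat_lit 6130454136) (nat_lit 836) (nat_lit 4177259093) (nat_lit 166) (nat_lit 5) (nat_lit 176) (nat_lit 5) (nat_lit 177) (nat_lit 5) (nat_lit 431) (nat_lit 425) (nat_lit 344)) (XT.lf (nat_lit 76) (nat_lit 2408650961) (nat_lit 0) (nat_lit 4670270468) (nat_lit 836) (nat_lit 9476066053) (nat_lit 167) (nat_lit 5) (nat_lit 166) (nat_lit 5) (nat_lit 177) (nat_lit 5) (nat_lit 432) (nat_lit 425) (nat_lit 343)))) (XT.nd (nat_lit 156) (nat_lit 684) (nat_lit 0) (XT.nd (nat_lit 78) (nat_lit 0) (nat_lit 0) (XT.lf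 (nat_lit 0) (nat_lit 8516904002) (nat_lit 760) (nat_lit 5453357177) (nat_lit 836) (nat_lit 3007023743) (nat_lit 167) (nat_lit 5) (nat_lit 177) (nat_lit 5) (nat_lit 178) (nat_lit 5) (nat_lit 433) (nat_lit 425) (nat_lit 342)) (XT.lf (nat_lit 76) (nat_lit 3703295844) (nat_lit 0) (nat_lit 6442072745) (nat_lit 836) (nat_lit 7269400697) (nat_lit 168) (nat_lit 5) (nat_lit 167) (nat_lit 5) (nat_lit 178) (nat_lit 5) (nat_lit 434) (nat_lit 425) (nat_lit 341))) (XT.nd (nat_lit 78) (nat_lit 760) (nat_lit 0) (XT.lf (nat_lit 0) (nat_lit 11956754709) (nat_lit 760) (nat_lit 4400284365) (nat_lit 76) (nat_lit 1512015018) (nat_lit 168) (nat_lit 5) (nat_lit 178) (nat_lit 5) (nat_lit 169) (nat_lit 5) (nat_lit 435) (nat_lit 425) (nat_lit 340)) (XT.lf (nat_lit 0) (nat_lit 5431817167) (nat_lit 760) (nat_lit 8602825581) (nat_lit 836) (nat_lit 4302614846) (nat_lit 158) (nat_lit 5) (nat_lit 168) (nat_lit 5) (nat_lit 169)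 (nat_lit 5) (nat_lit 436) (nat_lit 425) (nat_lit 339)))))) (XT.nd (nat_lit 624) (nat_lit 1824) (nat_lit 0) (XT.nd (nat_lit 312) (nat_lit 684) (nat_lit 0) (XT.nd (nat_lit 156) (nat_lit 456) (nat_lit 0) (XT.nd (nat_lit 78) (nat_lit 456) (nat_lit 0) (XT.lf (nat_lit 0) (nat_lit 15895608318) (nat_lit 760) (nat_lit 381348340) (nat_lit 836) (nat_lit 2548889073) (nat_lit 158) (nat_lit 5) (nat_lit 168) (nat_lit 5) (nat_lit 169) (nat_lit 5) (nat_lit 437) (nat_lit 425) (nat_lit 338)) (XT.lf (nat_lit 0) (nat_lit 7646883380) (nat_lit 456) (nat_lit 11219412673) (nat_lit 532) (nat_lit 460822716) (nat_lit 152) (nat_lit 5) (nat_lit 158) (nat_lit 5) (nat_lit 159) (nat_lit 5) (nat_lit 438) (nat_lit 425) (nat_lit 337))) (XT.nd (nat_lit 78) (nat_lit 380) (nat_lit 0) (XT.lf (nat_lit 0) (nat_lit 1719835262) (nat_lit 532) (nat_lit 1043477181) (nat_lit 76) (nat_lit 17086611525) (nat_lit 151) (nat_lit 5) (nat_lit 158) (nat_lit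 5) (nat_lit 152) (nat_lit 5) (nat_lit 439) (nat_lit 425) (nat_lit 336)) (XT.lf (nat_lit 0) (nat_lit 4242849447) (nat_lit 456) (nat_lit 10049931551) (nat_lit 76) (nat_lit 6093271057) (nat_lit 146) (nat_lit 5) (nat_lit 152) (nat_lit 5) (nat_lit 147) (nat_lit 5) (nat_lit 440) (nat_lit 425) (nat_lit 335)))) (XT.nd (nat_lit 156) (nat_lit 304) (nat_lit 0) (XT.nd (nat_lit 78) (nat_lit 0) (nat_lit 0) (XT.lf (nat_lit 0) (nat_lit 1357917621) (nat_lit 380) (nat_lit 5606504908) (nat_lit 456) (nat_lit 13980944418) (nat_lit 141) (nat_lit 5) (nat_lit 146) (nat_lit 5) (nat_lit 147) (nat_lit 5) (nat_lit 441) (nat_lit 425) (nat_lit 334)) (XT.lf (nat_lit 0) (nat_lit 10038239001) (nat_lit 456) (nat_lit 7909863445) (nat_lit 76) (nat_lit 3573737671) (nat_lit 141) (nat_lit 5) (nat_lit 147) (nat_lit 5) (nat_lit 142) (nat_lit 5) (nat_lit 442) (nat_lit 425) (nat_lit 333))) (XT.nd (nat_lit 78) (nat_lit 0) (nat_lit 0) (XT.lf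 (nat_lit 0) (nat_lit 4387607235) (nat_lit 304) (nat_lit 9027417912) (nat_lit 380) (nat_lit 8704648591) (nat_lit 137) (nat_lit 5) (nat_lit 141) (nat_lit 5) (nat_lit 142) (nat_lit 5) (nat_lit 443) (nat_lit 425) (nat_lit 332)) (XT.lf (nat_lit 0) (nat_lit 17091281760) (nat_lit 380) (nat_lit 5186460937) (nat_lit 76) (nat_lit 463125485) (nat_lit 137) (nat_lit 5) (nat_lit 142) (nat_lit 5) (nat_lit 138) (nat_lit 5) (nat_lit 444) (nat_lit 425) (nat_lit 331))))) (XT.nd (nat_lit 312) (nat_lit 836) (nat_lit 0) (XT.nd (nat_lit 156) (nat_lit 608) (nat_lit 0) (XT.nd (nat_lit 78) (nat_lit 76) (nat_lit 0) (XT.lf (nat_lit 0) (nat_lit 8084985080) (nat_lit 304) (nat_lit 13130281412) (nat_lit 380) (nat_lit 2164660758) (nat_lit 133) (nat_lit 5) (nat_lit 137) (nat_lit 5) (nat_lit 138) (nat_lit 5) (nat_lit 445) (nat_lit 425) (nat_lit 330)) (XT.lf (nat_lit 0) (nat_lit 1525786615) (nat_lit 380) (nat_lit 1883614364) (nat_lit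 76) (nat_lit 20636416764) (nat_lit 132) (nat_lit 5) (nat_lit 137) (nat_lit 5) (nat_lit 133) (nat_lit 5) (nat_lit 446) (nat_lit 425) (nat_lit 329))) (XT.nd (nat_lit 78) (nat_lit 304) (nat_lit 0) (XT.lf (nat_lit 0) (nat_lit 5624202251) (nat_lit 380) (nat_lit 12291013515) (nat_lit 76) (nat_lit 6813203625) (nat_lit 128) (nat_lit 5) (nat_lit 133) (nat_lit 5) (nat_lit 129) (nat_lit 5) (nat_lit 447) (nat_lit 425) (nat_lit 328)) (XT.lf (nat_lit 0) (nat_lit 2094934792) (nat_lit 304) (nat_lit 7944190654) (nat_lit 380) (nat_lit 15400446884) (nat_lit 124) (nat_lit 5) (nat_lit 128) (nat_lit 5) (nat_lit 129) (nat_lit 5) (nat_lit 448) (nat_lit 425) (nat_lit 327)))) (XT.nd (nat_lit 156) (nat_lit 608) (nat_lit 0) (XT.nd (nat_lit 78) (nat_lit 228) (nat_lit 0) (XT.lf (nat_lit 0) (nat_lit 14916577370) (nat_lit 380) (nat_lit 8604060276) (nat_lit 76) (nat_lit 2653556664) (nat_lit 124) (nat_lit 5) (nat_lit 129) (nat_lit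 5) (nat_lit 125) (nat_lit 5) (nat_lit 449) (nat_lit 425) (nat_lit 326)) (XT.lf (nat_lit 0) (nat_lit 6954233933) (nat_lit 228) (nat_lit 13313701953) (nat_lit 304) (nat_lit 6666110300) (nat_lit 121) (nat_lit 5) (nat_lit 124) (nat_lit 5) (nat_lit 125) (nat_lit 5) (nat_lit 450) (nat_lit 425) (nat_lit 325))) (XT.nd (nat_lit 78) (nat_lit 608) (nat_lit 0) (XT.lf (nat_lit 0) (nat_lit 23577686233) (nat_lit 228) (nat_lit 2446355013) (nat_lit 304) (nat_lit 1700990937) (nat_lit 121) (nat_lit 5) (nat_lit 124) (nat_lit 5) (nat_lit 125) (nat_lit 5) (nat_lit 451) (nat_lit 425) (nat_lit 324)) (XT.nd (nat_lit 78) (nat_lit 228) (nat_lit 0) (XT.lf (nat_lit 0) (nat_lit 3735970048) (nat_lit 380) (nat_lit 15866261955) (nat_lit 76) (nat_lit 8933793804) (nat_lit 116) (nat_lit 5) (nat_lit 121) (nat_lit 5) (nat_lit 117) (nat_lit 5) (nat_lit 452) (nat_lit 425) (nat_lit 323)) (XT.lf (nat_lit 0) (nat_lit 1040445466) (nat_lit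 228) (nat_lit 8466819060) (nat_lit 304) (nat_lit 19872928246) (nat_lit 113) (nat_lit 5) (nat_lit 116) (nat_lit 5) (nat_lit 117) (nat_lit 5) (nat_lit 453) (nat_lit 425) (nat_lit 322))))))))
noncomputable def xc296 : XT := (XT.nd (nat_lit 1248) (nat_lit 1520) (nat_lit 0) (XT.nd (nat_lit 624) (nat_lit 988) (nat_lit 0) (XT.nd (nat_lit 312) (nat_lit 456) (nat_lit 0) (XT.nd (nat_lit 156) (nat_lit 228) (nat_lit 0) (XT.nd (nat_lit 78) (nat_lit 228) (nat_lit 0) (XT.lf (nat_lit 0) (nat_lit 15882659888) (nat_lit 304) (nat_lit 10976097881) (nat_lit 76) (nat_lit 3392033897) (nat_lit 113) (nat_lit 5) (nat_lit 117) (nat_lit 5) (nat_lit 114) (nat_lit 5) (nat_lit 454) (nat_lit 425) (nat_lit 321)) (XT.lf (nat_lit 0) (nat_lit 7340905632) (nat_lit 228) (nat_lit 15481780752) (nat_lit 304) (nat_lit 8329941423) (nat_lit 110) (nat_lit 5) (nat_lit 113) (nat_lit 5) (nat_lit 114) (nat_lit 5) (nat_lit 455) (nat_lit 425) (nat_lit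 320))) (XT.nd (nat_lit 78) (nat_lit 228) (nat_lit 0) (XT.lf (nat_lit 0) (nat_lit 26944018902) (nat_lit 228) (nat_lit 3344220642) (nat_lit 304) (nat_lit 1802390298) (nat_lit 110) (nat_lit 5) (nat_lit 113) (nat_lit 5) (nat_lit 114) (nat_lit 5) (nat_lit 456) (nat_lit 425) (nat_lit 319)) (XT.lf (nat_lit 0) (nat_lit 5266184741) (nat_lit 228) (nat_lit 18374919098) (nat_lit 76) (nat_lit 9411668670) (nat_lit 107) (nat_lit 5) (nat_lit 110) (nat_lit 5) (nat_lit 108) (nat_lit 5) (nat_lit 457) (nat_lit 425) (nat_lit 318)))) (XT.nd (nat_lit 156) (nat_lit 228) (nat_lit 0) (XT.nd (nat_lit 78) (nat_lit 0) (nat_lit 0) (XT.lf (nat_lit 0) (nat_lit 1567266446) (nat_lit 228) (nat_lit 11221231264) (nat_lit 304) (nat_lit 21265003471) (nat_lit 104) (nat_lit 5) (nat_lit 107) (nat_lit 5) (nat_lit 108) (nat_lit 5) (nat_lit 458) (nat_lit 425) (nat_lit 317)) (XT.lf (nat_lit 0) (nat_lit 21024737683) (nat_lit 304) (nat_lit 11988485755)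 (nat_lit 76) (nat_lit 2074152569) (nat_lit 104) (nat_lit 5) (nat_lit 108) (nat_lit 5) (nat_lit 105) (nat_lit 5) (nat_lit 459) (nat_lit 425) (nat_lit 316))) (XT.nd (nat_lit 78) (nat_lit 76) (nat_lit 0) (XT.lf (nat_lit 0) (nat_lit 9648764597) (nat_lit 152) (nat_lit 20352064079) (nat_lit 228) (nat_lit 6155714226) (nat_lit 102) (nat_lit 5) (nat_lit 104) (nat_lit 5) (nat_lit 105) (nat_lit 5) (nat_lit 460) (nat_lit 425) (nat_lit 315)) (XT.lf (nat_lit 0) (nat_lit 2277701850) (nat_lit 228) (nat_lit 4532070448) (nat_lit 76) (nat_lit 30457727958) (nat_lit 101) (nat_lit 5) (nat_lit 104) (nat_lit 5) (nat_lit 102) (nat_lit 5) (nat_lit 461) (nat_lit 425) (nat_lit 314))))) (XT.nd (nat_lit 312) (nat_lit 380) (nat_lit 0) (XT.nd (nat_lit 156) (nat_lit 228) (nat_lit 0) (XT.nd (nat_lit 78) (nat_lit 152) (nat_lit 0) (XT.lf (nat_lit 0) (nat_lit 11339158231) (nat_lit 304) (nat_lit 19495429534) (nat_lit 76) (nat_lit 7573710191)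 (nat_lit 98) (nat_lit 5) (nat_lit 102) (nat_lit 5) (nat_lit 99) (nat_lit 5) (nat_lit 462) (nat_lit 425) (nat_lit 313)) (XT.lf (nat_lit 0) (nat_lit 4093317106) (nat_lit 152) (nat_lit 17007813294) (nat_lit 228) (nat_lit 18492633220) (nat_lit 96) (nat_lit 5) (nat_lit 98) (nat_lit 5) (nat_lit 99) (nat_lit 5) (nat_lit 463) (nat_lit 425) (nat_lit 312))) (XT.nd (nat_lit 78) (nat_lit 228) (nat_lit 0) (XT.lf (nat_lit 0) (nat_lit 29528597718) (nat_lit 152) (nat_lit 2146795113) (nat_lit 228) (nat_lit 9146900371) (nat_lit 96) (nat_lit 5) (nat_lit 98) (nat_lit 5) (nat_lit 99) (nat_lit 5) (nat_lit 464) (nat_lit 425) (nat_lit 311)) (XT.lf (nat_lit 0) (nat_lit 1080441262) (nat_lit 228) (nat_lit 27744741413) (nat_lit 76) (nat_lit 13264764680) (nat_lit 93) (nat_lit 5) (nat_lit 96) (nat_lit 5) (nat_lit 94) (nat_lit 5) (nat_lit 465) (nat_lit 425) (nat_lit 310)))) (XT.nd (nat_lit 156) (nat_lit 228) (nat_lit 0) (XT.nd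 (nat_lit 78) (nat_lit 152) (nat_lit 0) (XT.lf (nat_lit 0) (nat_lit 11735637965) (nat_lit 228) (nat_lit 1951096050) (nat_lit 76) (nat_lit 29715558737) (nat_lit 93) (nat_lit 5) (nat_lit 96) (nat_lit 5) (nat_lit 94) (nat_lit 5) (nat_lit 466) (nat_lit 425) (nat_lit 309)) (XT.lf (nat_lit 0) (nat_lit 23364438022) (nat_lit 228) (nat_lit 18847506244) (nat_lit 76) (nat_lit 2546269155) (nat_lit 91) (nat_lit 5) (nat_lit 94) (nat_lit 5) (nat_lit 92) (nat_lit 5) (nat_lit 467) (nat_lit 425) (nat_lit 308))) (XT.nd (nat_lit 78) (nat_lit 76) (nat_lit 0) (XT.lf (nat_lit 0) (nat_lit 9110592011) (nat_lit 152) (nat_lit 26858910510) (nat_lit 228) (nat_lit 10192686551) (nat_lit 89) (nat_lit 5) (nat_lit 91) (nat_lit 5) (nat_lit 92) (nat_lit 5) (nat_lit 468) (nat_lit 425) (nat_lit 307)) (XT.lf (nat_lit 0) (nat_lit 1837335064) (nat_lit 228) (nat_lit 8538365555) (nat_lit 76) (nat_lit 37243484704) (nat_lit 88) (nat_lit 5)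 (nat_lit 91) (nat_lit 5) (nat_lit 89) (nat_lit 5) (nat_lit 469) (nat_lit 425) (nat_lit 306)))))) (XT.nd (nat_lit 624) (nat_lit 760) (nat_lit 0) (XT.nd (nat_lit 312) (nat_lit 304) (nat_lit 0) (XT.nd (nat_lit 156) (nat_lit 152) (nat_lit 0) (XT.nd (nat_lit 78) (nat_lit 152) (nat_lit 0) (XT.lf (nat_lit 0) (nat_lit 14580076452) (nat_lit 228) (nat_lit 27313855218) (nat_lit 76) (nat_lit 7224057213) (nat_lit 86) (nat_lit 5) (nat_lit 89) (nat_lit 5) (nat_lit 87) (nat_lit 5) (nat_lit 470) (nat_lit 425) (nat_lit 305)) (XT.lf (nat_lit 0) (nat_lit 3196746229) (nat_lit 152) (nat_lit 25125144820) (nat_lit 228) (nat_lit 22351744903) (nat_lit 84) (nat_lit 5) (nat_lit 86) (nat_lit 5) (nat_lit 87) (nat_lit 5) (nat_lit 471) (nat_lit 425) (nat_lit 304))) (XT.nd (nat_lit 78) (nat_lit 152) (nat_lit 0) (XT.lf (nat_lit 0) (nat_lit 36172501247) (nat_lit 152) (nat_lit 7035934027) (nat_lit 228) (nat_lit 9075748290) (nat_lit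 84) (nat_lit 5) (nat_lit 86) (nat_lit 5) (nat_lit 87) (nat_lit 5) (nat_lit 472) (nat_lit 425) (nat_lit 303)) (XT.lf (nat_lit 0) (nat_lit 5165858144) (nat_lit 152) (nat_lit 36859648599) (nat_lit 76) (nat_lit 11923080368) (nat_lit 82) (nat_lit 5) (nat_lit 84) (nat_lit 5) (nat_lit 83) (nat_lit 5) (nat_lit 473) (nat_lit 425) (nat_lit 302)))) (XT.nd (nat_lit 156) (nat_lit 152) (nat_lit 0) (XT.nd (nat_lit 78) (nat_lit 152) (nat_lit 0) (XT.lf (nat_lit 0) (nat_lit 20202481513) (nat_lit 152) (nat_lit 3450655861) (nat_lit 76) (nat_lit 32016237373) (nat_lit 82) (nat_lit 5) (nat_lit 84) (nat_lit 5) (nat_lit 83) (nat_lit 5) (nat_lit 474) (nat_lit 425) (nat_lit 301)) (XT.lf (nat_lit 0) (nat_lit 32666272616) (nat_lit 152) (nat_lit 3830166784) (nat_lit 228) (nat_lit 20954487309) (nat_lit 80) (nat_lit 5) (nat_lit 82) (nat_lit 5) (nat_lit 83) (nat_lit 5) (nat_lit 475) (nat_lit 425) (nat_lit 300))) (XT.nd (nat_lit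 78) (nat_lit 76) (nat_lit 0) (XT.lf (nat_lit 0) (nat_lit 11483557160) (nat_lit 76) (nat_lit 42620920154) (nat_lit 152) (nat_lit 5192109952) (nat_lit 79) (nat_lit 5) (nat_lit 80) (nat_lit 5) (nat_lit 81) (nat_lit 4) (nat_lit 476) (nat_lit 425) (nat_lit 299)) (XT.lf (nat_lit 0) (nat_lit 11479802641) (nat_lit 152) (nat_lit 11042997077) (nat_lit 76) (nat_lit 38678616632) (nat_lit 78) (nat_lit 5) (nat_lit 80) (nat_lit 5) (nat_lit 79) (nat_lit 5) (nat_lit 477) (nat_lit 425) (nat_lit 298))))) (XT.nd (nat_lit 312) (nat_lit 304) (nat_lit 0) (XT.nd (nat_lit 156) (nat_lit 228) (nat_lit 0) (XT.nd (nat_lit 78) (nat_lit 76) (nat_lit 0) (XT.lf (nat_lit 0) (nat_lit 28381085810) (nat_lit 152) (nat_lit 868601496) (nat_lit 228) (nat_lit 33925600576) (nat_lit 76) (nat_lit 5) (nat_lit 78) (nat_lit 5) (nat_lit 79) (nat_lit 5) (nat_lit 478) (nat_lit 425) (nat_lit 297)) (XT.lf (nat_lit 0) (nat_lit 4720102516) (nat_lit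 76) (nat_lit 43788954940) (nat_lit 152) (nat_lit 16708746057) (nat_lit 75) (nat_lit 5) (nat_lit 76) (nat_lit 5) (nat_lit 77) (nat_lit 4) (nat_lit 479) (nat_lit 425) (nat_lit 296))) (XT.nd (nat_lit 78) (nat_lit 152) (nat_lit 0) (XT.lf (nat_lit 0) (nat_lit 1934093406) (nat_lit 152) (nat_lit 19967907729) (nat_lit 76) (nat_lit 45428927352) (nat_lit 74) (nat_lit 5) (nat_lit 76) (nat_lit 5) (nat_lit 75) (nat_lit 5) (nat_lit 480) (nat_lit 425) (nat_lit 295)) (XT.lf (nat_lit 0) (nat_lit 21330530877) (nat_lit 228) (nat_lit 46500759533) (nat_lit 76) (nat_lit 1685574704) (nat_lit 72) (nat_lit 5) (nat_lit 75) (nat_lit 5) (nat_lit 73) (nat_lit 4) (nat_lit 481) (nat_lit 425) (nat_lit 294)))) (XT.nd (nat_lit 156) (nat_lit 228) (nat_lit 0) (XT.nd (nat_lit 78) (nat_lit 76) (nat_lit 0) (XT.lf (nat_lit 0) (nat_lit 42395575339) (nat_lit 228) (nat_lit 3324630356) (nat_lit 76) (nat_lit 26056953694) (nat_lit 72) (nat_lit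 5) (nat_lit 75) (nat_lit 5) (nat_lit 73) (nat_lit 4) (nat_lit 482) (nat_lit 425) (nat_lit 293)) (XT.lf (nat_lit 0) (nat_lit 43392067758) (nat_lit 76) (nat_lit 21795491316) (nat_lit 152) (nat_lit 8929225018) (nat_lit 71) (nat_lit 5) (nat_lit 72) (nat_lit 5) (nat_lit 73) (nat_lit 4) (nat_lit 483) (nat_lit 425) (nat_lit 292))) (XT.nd (nat_lit 78) (nat_lit 0) (nat_lit 0) (XT.lf (nat_lit 0) (nat_lit 12512460641) (nat_lit 228) (nat_lit 60300855507) (nat_lit 76) (nat_lit 3731867671) (nat_lit 68) (nat_lit 5) (nat_lit 71) (nat_lit 5) (nat_lit 69) (nat_lit 4) (nat_lit 484) (nat_lit 425) (nat_lit 291)) (XT.lf (nat_lit 0) (nat_lit 35608567913) (nat_lit 228) (nat_lit 12959768905) (nat_lit 76) (nat_lit 30475226844) (nat_lit 68) (nat_lit 5) (nat_lit 71) (nat_lit 5) (nat_lit 69) (nat_lit 4) (nat_lit 485) (nat_lit 425) (nat_lit 290)))))))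
noncomputable def xc297 : XT := (XT.nd (nat_lit 1248) (nat_lit 1064) (nat_lit 0) (XT.nd (nat_lit 624) (nat_lit 608) (nat_lit 0) (XT.nd (nat_lit 312) (nat_lit 228) (nat_lit 0) (XT.nd (nat_lit 156) (nat_lit 76) (nat_lit 0) (XT.nd (nat_lit 78) (nat_lit 152) (nat_lit 0) (XT.lf (nat_lit 0) (nat_lit 37956467229) (nat_lit 76) (nat_lit 22492045514) (nat_lit 152) (nat_lit 21188898199) (nat_lit 67) (nat_lit 5) (nat_lit 68) (nat_lit 5) (nat_lit 69) (nat_lit 4) (nat_lit 486) (nat_lit 425) (nat_lit 289)) (XT.lf (nat_lit 0) (nat_lit 2522586268) (nat_lit 152) (nat_lit 76703332033) (nat_lit 76) (nat_lit 5112212748) (nat_lit 65) (nat_lit 5) (nat_lit 67) (nat_lit 5) (nat_lit 66) (nat_lit 4) (nat_lit 487) (nat_lit 425) (nat_lit 288))) (XT.nd (nat_lit 78) (nat_lit 76) (nat_lit 0) (XT.lf (nat_lit 0) (nat_lit 27824617368) (nat_lit 152) (nat_lit 24839049623) (nat_lit 76) (nat_lit 34436999351) (nat_lit 65) (nat_lit 5)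 (nat_lit 67) (nat_lit 5) (nat_lit 66) (nat_lit 4) (nat_lit 488) (nat_lit 425) (nat_lit 287)) (XT.lf (nat_lit 0) (nat_lit 30591101042) (nat_lit 76) (nat_lit 24274881967) (nat_lit 152) (nat_lit 35111633787) (nat_lit 64) (nat_lit 5) (nat_lit 65) (nat_lit 5) (nat_lit 66) (nat_lit 4) (nat_lit 489) (nat_lit 425) (nat_lit 286)))) (XT.nd (nat_lit 156) (nat_lit 76) (nat_lit 0) (XT.nd (nat_lit 78) (nat_lit 152) (nat_lit 0) (XT.lf (nat_lit 0) (nat_lit 83770000020) (nat_lit 152) (nat_lit 3422020530) (nat_lit 0) (nat_lit 5780865113) (nat_lit 64) (nat_lit 5) (nat_lit 66) (nat_lit 4) (nat_lit 64) (nat_lit 4) (nat_lit 490) (nat_lit 425) (nat_lit 285)) (XT.lf (nat_lit 0) (nat_lit 18726960756) (nat_lit 152) (nat_lit 39602881251) (nat_lit 76) (nat_lit 37708932724) (nat_lit 62) (nat_lit 5) (nat_lit 64) (nat_lit 5) (nat_lit 63) (nat_lit 4) (nat_lit 491) (nat_lit 425) (nat_lit 284))) (XT.nd (nat_lit 78) (nat_lit 0)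 (nat_lit 0) (XT.lf (nat_lit 0) (nat_lit 20653506357) (nat_lit 76) (nat_lit 27468679896) (nat_lit 152) (nat_lit 51109320484) (nat_lit 61) (nat_lit 5) (nat_lit 62) (nat_lit 5) (nat_lit 63) (nat_lit 4) (nat_lit 492) (nat_lit 425) (nat_lit 283)) (XT.lf (nat_lit 0) (nat_lit 79742732866) (nat_lit 152) (nat_lit 17346934511) (nat_lit 0) (nat_lit 5456430010) (nat_lit 61) (nat_lit 5) (nat_lit 63) (nat_lit 4) (nat_lit 61) (nat_lit 4) (nat_lit 493) (nat_lit 425) (nat_lit 282))))) (XT.nd (nat_lit 312) (nat_lit 304) (nat_lit 0) (XT.nd (nat_lit 156) (nat_lit 76) (nat_lit 0) (XT.nd (nat_lit 78) (nat_lit 76) (nat_lit 0) (XT.lf (nat_lit 0) (nat_lit 7913199996) (nat_lit 152) (nat_lit 58067546749) (nat_lit 76) (nat_lit 39979434155) (nat_lit 59) (nat_lit 5) (nat_lit 61) (nat_lit 5) (nat_lit 60) (nat_lit 4) (nat_lit 494) (nat_lit 425) (nat_lit 281)) (XT.lf (nat_lit 0) (nat_lit 7315768180) (nat_lit 76) (nat_lit 32493266688)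 (nat_lit 152) (nat_lit 69696753233) (nat_lit 58) (nat_lit 5) (nat_lit 59) (nat_lit 5) (nat_lit 60) (nat_lit 4) (nat_lit 495) (nat_lit 425) (nat_lit 280))) (XT.nd (nat_lit 78) (nat_lit 76) (nat_lit 0) (XT.lf (nat_lit 0) (nat_lit 74337829077) (nat_lit 152) (nat_lit 35258966323) (nat_lit 0) (nat_lit 3579971912) (nat_lit 58) (nat_lit 5) (nat_lit 60) (nat_lit 4) (nat_lit 58) (nat_lit 4) (nat_lit 496) (nat_lit 425) (nat_lit 279)) (XT.lf (nat_lit 0) (nat_lit 35620422031) (nat_lit 76) (nat_lit 76058576005) (nat_lit 76) (nat_lit 5298000724) (nat_lit 57) (nat_lit 4) (nat_lit 58) (nat_lit 5) (nat_lit 58) (nat_lit 4) (nat_lit 497) (nat_lit 425) (nat_lit 278)))) (XT.nd (nat_lit 156) (nat_lit 152) (nat_lit 0) (XT.nd (nat_lit 78) (nat_lit 76) (nat_lit 0) (XT.lf (nat_lit 0) (nat_lit 29566402211) (nat_lit 152) (nat_lit 10152039429) (nat_lit 76) (nat_lit 81195241182) (nat_lit 56) (nat_lit 5) (nat_lit 58) (nat_lit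 5) (nat_lit 57) (nat_lit 4) (nat_lit 498) (nat_lit 425) (nat_lit 277)) (XT.lf (nat_lit 0) (nat_lit 66653857928) (nat_lit 76) (nat_lit 380038316) (nat_lit 152) (nat_lit 57957066317) (nat_lit 55) (nat_lit 5) (nat_lit 56) (nat_lit 5) (nat_lit 57) (nat_lit 4) (nat_lit 499) (nat_lit 425) (nat_lit 276))) (XT.nd (nat_lit 78) (nat_lit 76) (nat_lit 0) (XT.lf (nat_lit 0) (nat_lit 18328483477) (nat_lit 76) (nat_lit 89143419808) (nat_lit 76) (nat_lit 21745346109) (nat_lit 54) (nat_lit 4) (nat_lit 55) (nat_lit 5) (nat_lit 55) (nat_lit 4) (nat_lit 500) (nat_lit 425) (nat_lit 275)) (XT.lf (nat_lit 0) (nat_lit 16763665402) (nat_lit 152) (nat_lit 33034689337) (nat_lit 76) (nat_lit 83793405920) (nat_lit 53) (nat_lit 5) (nat_lit 55) (nat_lit 5) (nat_lit 54) (nat_lit 4) (nat_lit 501) (nat_lit 425) (nat_lit 274)))))) (XT.nd (nat_lit 624) (nat_lit 532) (nat_lit 0) (XT.nd (nat_lit 312) (nat_lit 228) (nat_lit 0) (XT.nd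 (nat_lit 156) (nat_lit 228) (nat_lit 0) (XT.nd (nat_lit 78) (nat_lit 0) (nat_lit 0) (XT.lf (nat_lit 0) (nat_lit 49949185994) (nat_lit 76) (nat_lit 7295408009) (nat_lit 152) (nat_lit 80883716814) (nat_lit 52) (nat_lit 5) (nat_lit 53) (nat_lit 5) (nat_lit 54) (nat_lit 4) (nat_lit 502) (nat_lit 425) (nat_lit 273)) (XT.lf (nat_lit 0) (nat_lit 100898479083) (nat_lit 152) (nat_lit 5231726191) (nat_lit 0) (nat_lit 36704037724) (nat_lit 52) (nat_lit 5) (nat_lit 54) (nat_lit 4) (nat_lit 52) (nat_lit 4) (nat_lit 503) (nat_lit 425) (nat_lit 272))) (XT.nd (nat_lit 78) (nat_lit 76) (nat_lit 0) (XT.lf (nat_lit 0) (nat_lit 451915515) (nat_lit 152) (nat_lit 63269766673) (nat_lit 76) (nat_lit 83981650347) (nat_lit 50) (nat_lit 5) (nat_lit 52) (nat_lit 5) (nat_lit 51) (nat_lit 4) (nat_lit 504) (nat_lit 425) (nat_lit 271)) (XT.lf (nat_lit 0) (nat_lit 26093670743) (nat_lit 76) (nat_lit 17950979456) (nat_lit 152) (nat_lit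 108712103393) (nat_lit 49) (nat_lit 5) (nat_lit 50) (nat_lit 5) (nat_lit 51) (nat_lit 4) (nat_lit 505) (nat_lit 425) (nat_lit 270)))) (XT.nd (nat_lit 156) (nat_lit 152) (nat_lit 0) (XT.nd (nat_lit 78) (nat_lit 76) (nat_lit 0) (XT.lf (nat_lit 0) (nat_lit 91373709187) (nat_lit 152) (nat_lit 36379927627) (nat_lit 0) (nat_lit 30231374526) (nat_lit 49) (nat_lit 5) (nat_lit 51) (nat_lit 4) (nat_lit 49) (nat_lit 4) (nat_lit 506) (nat_lit 425) (nat_lit 269)) (XT.lf (nat_lit 0) (nat_lit 60040117474) (nat_lit 76) (nat_lit 82258436992) (nat_lit 76) (nat_lit 21114660856) (nat_lit 48) (nat_lit 4) (nat_lit 49) (nat_lit 5) (nat_lit 49) (nat_lit 4) (nat_lit 507) (nat_lit 425) (nat_lit 268))) (XT.nd (nat_lit 78) (nat_lit 76) (nat_lit 0) (XT.lf (nat_lit 0) (nat_lit 26427502687) (nat_lit 152) (nat_lit 6968768458) (nat_lit 76) (nat_lit 135664555262) (nat_lit 47) (nat_lit 5) (nat_lit 49) (nat_lit 5) (nat_lit 48) (nat_lit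 4) (nat_lit 508) (nat_lit 425) (nat_lit 267)) (XT.lf (nat_lit 0) (nat_lit 77459636831) (nat_lit 152) (nat_lit 78197835030) (nat_lit 0) (nat_lit 19224916423) (nat_lit 46) (nat_lit 5) (nat_lit 48) (nat_lit 4) (nat_lit 46) (nat_lit 4) (nat_lit 509) (nat_lit 425) (nat_lit 266))))) (XT.nd (nat_lit 312) (nat_lit 304) (nat_lit 0) (XT.nd (nat_lit 156) (nat_lit 76) (nat_lit 0) (XT.nd (nat_lit 78) (nat_lit 76) (nat_lit 0) (XT.lf (nat_lit 0) (nat_lit 25020312108) (nat_lit 76) (nat_lit 107078915001) (nat_lit 76) (nat_lit 48843008689) (nat_lit 45) (nat_lit 4) (nat_lit 46) (nat_lit 5) (nat_lit 46) (nat_lit 4) (nat_lit 510) (nat_lit 425) (nat_lit 265)) (XT.lf (nat_lit 0) (nat_lit 3440212974) (nat_lit 152) (nat_lit 51184599148) (nat_lit 76) (nat_lit 132611382508) (nat_lit 44) (nat_lit 5) (nat_lit 46) (nat_lit 5) (nat_lit 45) (nat_lit 4) (nat_lit 511) (nat_lit 425) (nat_lit 264))) (XT.nd (nat_lit 78) (nat_lit 0)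 (nat_lit 0) (XT.lf (nat_lit 0) (nat_lit 57664754651) (nat_lit 152) (nat_lit 133891744642) (nat_lit 0) (nat_lit 2199886654) (nat_lit 43) (nat_lit 5) (nat_lit 45) (nat_lit 4) (nat_lit 43) (nat_lit 4) (nat_lit 512) (nat_lit 425) (nat_lit 263)) (XT.lf (nat_lit 0) (nat_lit 116374947642) (nat_lit 152) (nat_lit 23229813986) (nat_lit 0) (nat_lit 60909103999) (nat_lit 43) (nat_lit 5) (nat_lit 45) (nat_lit 4) (nat_lit 43) (nat_lit 4) (nat_lit 513) (nat_lit 425) (nat_lit 262)))) (XT.nd (nat_lit 156) (nat_lit 76) (nat_lit 0) (XT.nd (nat_lit 78) (nat_lit 152) (nat_lit 0) (XT.lf (nat_lit 0) (nat_lit 96034903881) (nat_lit 76) (nat_lit 83483110035) (nat_lit 76) (nat_lit 28016337204) (nat_lit 42) (nat_lit 4) (nat_lit 43) (nat_lit 5) (nat_lit 43) (nat_lit 4) (nat_lit 514) (nat_lit 425) (nat_lit 261)) (XT.lf (nat_lit 0) (nat_lit 6911251486) (nat_lit 76) (nat_lit 23517484736) (nat_lit 152) (nat_lit 184427705607) (nat_lit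 40) (nat_lit 5) (nat_lit 41) (nat_lit 5) (nat_lit 42) (nat_lit 4) (nat_lit 515) (nat_lit 425) (nat_lit 260))) (XT.nd (nat_lit 78) (nat_lit 76) (nat_lit 0) (XT.lf (nat_lit 0) (nat_lit 93387646541) (nat_lit 152) (nat_lit 88446867396) (nat_lit 0) (nat_lit 40560503140) (nat_lit 40) (nat_lit 5) (nat_lit 42) (nat_lit 4) (nat_lit 40) (nat_lit 4) (nat_lit 516) (nat_lit 425) (nat_lit 259)) (XT.nd (nat_lit 78) (nat_lit 0) (nat_lit 0) (XT.lf (nat_lit 0) (nat_lit 37848385520) (nat_lit 76) (nat_lit 122620658178) (nat_lit 76) (nat_lit 69792750331) (nat_lit 39) (nat_lit 4) (nat_lit 40) (nat_lit 5) (nat_lit 40) (nat_lit 4) (nat_lit 517) (nat_lit 425) (nat_lit 258)) (XT.lf (nat_lit 0) (nat_lit 173525300164) (nat_lit 76) (nat_lit 58875222483) (nat_lit 76) (nat_lit 6046586593) (nat_lit 39) (nat_lit 4) (nat_lit 40) (nat_lit 5) (nat_lit 40) (nat_lit 4) (nat_lit 518) (nat_lit 425) (nat_lit 257))))))))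
noncomputable def xc298 : XT := (XT.nd (nat_lit 1248) (nat_lit 684) (nat_lit 0) (XT.nd (nat_lit 624) (nat_lit 456) (nat_lit 0) (XT.nd (nat_lit 312) (nat_lit 304) (nat_lit 0) (XT.nd (nat_lit 156) (nat_lit 152) (nat_lit 0) (XT.nd (nat_lit 78) (nat_lit 0) (nat_lit 0) (XT.lf (nat_lit 0) (nat_lit 60192253164) (nat_lit 152) (nat_lit 176860593642) (nat_lit 0) (nat_lit 9878606246) (nat_lit 37) (nat_lit 5) (nat_lit 39) (nat_lit 4) (nat_lit 37) (nat_lit 4) (nat_lit 519) (nat_lit 425) (nat_lit 256)) (XT.lf (nat_lit 0) (nat_lit 131620687805) (nat_lit 152) (nat_lit 42803915168) (nat_lit 0) (nat_lit 81306411977) (nat_lit 37) (nat_lit 5) (nat_lit 39) (nat_lit 4) (nat_lit 37) (nat_lit 4) (nat_lit 520) (nat_lit 425) (nat_lit 255))) (XT.nd (nat_lit 78) (nat_lit 76) (nat_lit 0) (XT.lf (nat_lit 0) (nat_lit 101190851756) (nat_lit 76) (nat_lit 107007835417) (nat_lit 76) (nat_lit 56692960626) (nat_lit 36) (nat_lit 4)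 (nat_lit 37) (nat_lit 5) (nat_lit 37) (nat_lit 4) (nat_lit 521) (nat_lit 425) (nat_lit 254)) (XT.lf (nat_lit 0) (nat_lit 14379197285) (nat_lit 152) (nat_lit 20838090796) (nat_lit 76) (nat_lit 239245267885) (nat_lit 35) (nat_lit 5) (nat_lit 37) (nat_lit 5) (nat_lit 36) (nat_lit 4) (nat_lit 522) (nat_lit 425) (nat_lit 253)))) (XT.nd (nat_lit 156) (nat_lit 228) (nat_lit 0) (XT.nd (nat_lit 78) (nat_lit 0) (nat_lit 0) (XT.lf (nat_lit 0) (nat_lit 89842538555) (nat_lit 152) (nat_lit 152563310318) (nat_lit 0) (nat_lit 41922549500) (nat_lit 34) (nat_lit 5) (nat_lit 36) (nat_lit 4) (nat_lit 34) (nat_lit 4) (nat_lit 523) (nat_lit 425) (nat_lit 252)) (XT.lf (nat_lit 0) (nat_lit 170013423115) (nat_lit 152) (nat_lit 2534449684) (nat_lit 0) (nat_lit 122092941292) (nat_lit 34) (nat_lit 5) (nat_lit 36) (nat_lit 4) (nat_lit 34) (nat_lit 4) (nat_lit 524) (nat_lit 425) (nat_lit 251))) (XT.nd (nat_lit 78) (nat_lit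 152) (nat_lit 0) (XT.lf (nat_lit 0) (nat_lit 160117449102) (nat_lit 76) (nat_lit 96573718422) (nat_lit 76) (nat_lit 48652767297) (nat_lit 33) (nat_lit 4) (nat_lit 34) (nat_lit 5) (nat_lit 34) (nat_lit 4) (nat_lit 525) (nat_lit 425) (nat_lit 250)) (XT.lf (nat_lit 0) (nat_lit 14380382581) (nat_lit 76) (nat_lit 16010729936) (nat_lit 152) (nat_lit 286153476190) (nat_lit 31) (nat_lit 5) (nat_lit 32) (nat_lit 5) (nat_lit 33) (nat_lit 4) (nat_lit 526) (nat_lit 425) (nat_lit 249))))) (XT.nd (nat_lit 312) (nat_lit 228) (nat_lit 0) (XT.nd (nat_lit 156) (nat_lit 152) (nat_lit 0) (XT.nd (nat_lit 78) (nat_lit 76) (nat_lit 0) (XT.lf (nat_lit 0) (nat_lit 115321102493) (nat_lit 152) (nat_lit 143084574725) (nat_lit 0) (nat_lit 69681270348) (nat_lit 31) (nat_lit 5) (nat_lit 33) (nat_lit 4) (nat_lit 31) (nat_lit 4) (nat_lit 527) (nat_lit 425) (nat_lit 248)) (XT.lf (nat_lit 0) (nat_lit 24466637845) (nat_lit 76) (nat_lit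 180673928035) (nat_lit 76) (nat_lit 135033709794) (nat_lit 30) (nat_lit 4) (nat_lit 31) (nat_lit 5) (nat_lit 31) (nat_lit 4) (nat_lit 528) (nat_lit 425) (nat_lit 247))) (XT.nd (nat_lit 78) (nat_lit 152) (nat_lit 0) (XT.lf (nat_lit 0) (nat_lit 205360018382) (nat_lit 76) (nat_lit 96512725349) (nat_lit 76) (nat_lit 50872139396) (nat_lit 30) (nat_lit 4) (nat_lit 31) (nat_lit 5) (nat_lit 31) (nat_lit 4) (nat_lit 529) (nat_lit 425) (nat_lit 246)) (XT.lf (nat_lit 0) (nat_lit 29716859196) (nat_lit 76) (nat_lit 7043040974) (nat_lit 152) (nat_lit 329131721470) (nat_lit 28) (nat_lit 5) (nat_lit 29) (nat_lit 5) (nat_lit 30) (nat_lit 4) (nat_lit 530) (nat_lit 425) (nat_lit 245)))) (XT.nd (nat_lit 156) (nat_lit 152) (nat_lit 0) (XT.nd (nat_lit 78) (nat_lit 76) (nat_lit 0) (XT.lf (nat_lit 0) (nat_lit 130956194136) (nat_lit 152) (nat_lit 161014871724) (nat_lit 0) (nat_lit 87488318252) (nat_lit 28) (nat_lit 5)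 (nat_lit 30) (nat_lit 4) (nat_lit 28) (nat_lit 4) (nat_lit 531) (nat_lit 425) (nat_lit 244)) (XT.lf (nat_lit 0) (nat_lit 23538186859) (nat_lit 76) (nat_lit 206805722951) (nat_lit 76) (nat_lit 163337544550) (nat_lit 27) (nat_lit 4) (nat_lit 28) (nat_lit 5) (nat_lit 28) (nat_lit 4) (nat_lit 532) (nat_lit 425) (nat_lit 243))) (XT.nd (nat_lit 78) (nat_lit 152) (nat_lit 0) (XT.lf (nat_lit 0) (nat_lit 222906279301) (nat_lit 76) (nat_lit 114520269236) (nat_lit 76) (nat_lit 71051802723) (nat_lit 27) (nat_lit 4) (nat_lit 28) (nat_lit 5) (nat_lit 28) (nat_lit 4) (nat_lit 533) (nat_lit 425) (nat_lit 242)) (XT.lf (nat_lit 0) (nat_lit 8080128539) (nat_lit 76) (nat_lit 17065661432) (nat_lit 152) (nat_lit 398842881451) (nat_lit 25) (nat_lit 5) (nat_lit 26) (nat_lit 5) (nat_lit 27) (nat_lit 4) (nat_lit 534) (nat_lit 425) (nat_lit 241)))))) (XT.nd (nat_lit 624) (nat_lit 380) (nat_lit 0) (XT.nd (nat_lit 312) (nat_lit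 228) (nat_lit 0) (XT.nd (nat_lit 156) (nat_lit 76) (nat_lit 0) (XT.nd (nat_lit 78) (nat_lit 0) (nat_lit 0) (XT.lf (nat_lit 0) (nat_lit 128289618756) (nat_lit 152) (nat_lit 224809872497) (nat_lit 0) (nat_lit 86890569014) (nat_lit 25) (nat_lit 5) (nat_lit 27) (nat_lit 4) (nat_lit 25) (nat_lit 4) (nat_lit 535) (nat_lit 425) (nat_lit 240)) (XT.lf (nat_lit 0) (nat_lit 236869180919) (nat_lit 152) (nat_lit 24438516393) (nat_lit 0) (nat_lit 195469894147) (nat_lit 25) (nat_lit 5) (nat_lit 27) (nat_lit 4) (nat_lit 25) (nat_lit 4) (nat_lit 536) (nat_lit 425) (nat_lit 239))) (XT.nd (nat_lit 78) (nat_lit 0) (nat_lit 0) (XT.lf (nat_lit 0) (nat_lit 192097358015) (nat_lit 76) (nat_lit 161778376523) (nat_lit 76) (nat_lit 120378864008) (nat_lit 24) (nat_lit 4) (nat_lit 25) (nat_lit 5) (nat_lit 25) (nat_lit 4) (nat_lit 537) (nat_lit 425) (nat_lit 238)) (XT.lf (nat_lit 0) (nat_lit 420306149759) (nat_lit 76) (nat_lit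 56839198556) (nat_lit 76) (nat_lit 15439471049) (nat_lit 24) (nat_lit 4) (nat_lit 25) (nat_lit 5) (nat_lit 25) (nat_lit 4) (nat_lit 538) (nat_lit 425) (nat_lit 237)))) (XT.nd (nat_lit 156) (nat_lit 76) (nat_lit 0) (XT.nd (nat_lit 78) (nat_lit 0) (nat_lit 0) (XT.lf (nat_lit 0) (nat_lit 94973898503) (nat_lit 152) (nat_lit 361075322953) (nat_lit 0) (nat_lit 55545391586) (nat_lit 22) (nat_lit 5) (nat_lit 24) (nat_lit 4) (nat_lit 22) (nat_lit 4) (nat_lit 539) (nat_lit 425) (nat_lit 236)) (XT.lf (nat_lit 0) (nat_lit 212563891922) (nat_lit 152) (nat_lit 145734408750) (nat_lit 0) (nat_lit 173135199286) (nat_lit 22) (nat_lit 5) (nat_lit 24) (nat_lit 4) (nat_lit 22) (nat_lit 4) (nat_lit 540) (nat_lit 425) (nat_lit 235))) (XT.nd (nat_lit 78) (nat_lit 0) (nat_lit 0) (XT.lf (nat_lit 0) (nat_lit 83028847063) (nat_lit 76) (nat_lit 254299795399) (nat_lit 76) (nat_lit 214870925888) (nat_lit 21) (nat_lit 4) (nat_lit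 22) (nat_lit 5) (nat_lit 22) (nat_lit 4) (nat_lit 541) (nat_lit 425) (nat_lit 234)) (XT.lf (nat_lit 0) (nat_lit 328287724142) (nat_lit 76) (nat_lit 142510950880) (nat_lit 76) (nat_lit 103081912916) (nat_lit 21) (nat_lit 4) (nat_lit 22) (nat_lit 5) (nat_lit 22) (nat_lit 4) (nat_lit 542) (nat_lit 425) (nat_lit 233))))) (XT.nd (nat_lit 312) (nat_lit 152) (nat_lit 0) (XT.nd (nat_lit 156) (nat_lit 76) (nat_lit 0) (XT.nd (nat_lit 78) (nat_lit 76) (nat_lit 0) (XT.lf (nat_lit 0) (nat_lit 13837966789) (nat_lit 152) (nat_lit 11061366476) (nat_lit 76) (nat_lit 571735215032) (nat_lit 20) (nat_lit 5) (nat_lit 22) (nat_lit 5) (nat_lit 21) (nat_lit 4) (nat_lit 543) (nat_lit 425) (nat_lit 232)) (XT.lf (nat_lit 0) (nat_lit 138533602385) (nat_lit 152) (nat_lit 380656572062) (nat_lit 0) (nat_lit 100981839350) (nat_lit 19) (nat_lit 5) (nat_lit 21) (nat_lit 4) (nat_lit 19) (nat_lit 4) (nat_lit 544) (nat_lit 425) (nat_lit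 231))) (XT.nd (nat_lit 78) (nat_lit 76) (nat_lit 0) (XT.lf (nat_lit 0) (nat_lit 270061649449) (nat_lit 152) (nat_lit 142285073812) (nat_lit 0) (nat_lit 232509747828) (nat_lit 19) (nat_lit 5) (nat_lit 21) (nat_lit 4) (nat_lit 19) (nat_lit 4) (nat_lit 545) (nat_lit 425) (nat_lit 230)) (XT.lf (nat_lit 0) (nat_lit 111574216819) (nat_lit 76) (nat_lit 298332957142) (nat_lit 76) (nat_lit 260780923533) (nat_lit 18) (nat_lit 4) (nat_lit 19) (nat_lit 5) (nat_lit 19) (nat_lit 4) (nat_lit 546) (nat_lit 425) (nat_lit 229)))) (XT.nd (nat_lit 156) (nat_lit 152) (nat_lit 0) (XT.nd (nat_lit 78) (nat_lit 0) (nat_lit 0) (XT.lf (nat_lit 0) (nat_lit 383064464101) (nat_lit 76) (nat_lit 176089280955) (nat_lit 76) (nat_lit 138537121645) (nat_lit 18) (nat_lit 4) (nat_lit 19) (nat_lit 5) (nat_lit 19) (nat_lit 4) (nat_lit 547) (nat_lit 425) (nat_lit 228)) (XT.lf (nat_lit 0) (nat_lit 668127486265) (nat_lit 76) (nat_lit 47734304904)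 (nat_lit 76) (nat_lit 10182025878) (nat_lit 18) (nat_lit 4) (nat_lit 19) (nat_lit 5) (nat_lit 19) (nat_lit 4) (nat_lit 548) (nat_lit 425) (nat_lit 227))) (XT.nd (nat_lit 78) (nat_lit 0) (nat_lit 0) (XT.lf (nat_lit 0) (nat_lit 125430518585) (nat_lit 152) (nat_lit 540378932073) (nat_lit 0) (nat_lit 89666334736) (nat_lit 16) (nat_lit 5) (nat_lit 18) (nat_lit 4) (nat_lit 16) (nat_lit 4) (nat_lit 549) (nat_lit 425) (nat_lit 226)) (XT.nd (nat_lit 78) (nat_lit 0) (nat_lit 0) (XT.lf (nat_lit 0) (nat_lit 269260131609) (nat_lit 152) (nat_lit 283526099077) (nat_lit 0) (nat_lit 233495844344) (nat_lit 16) (nat_lit 5) (nat_lit 18) (nat_lit 4) (nat_lit 16) (nat_lit 4) (nat_lit 550) (nat_lit 425) (nat_lit 225)) (XT.lf (nat_lit 0) (nat_lit 420280438746) (nat_lit 152) (nat_lit 13832226737) (nat_lit 0) (nat_lit 384516052991) (nat_lit 16) (nat_lit 5) (nat_lit 18) (nat_lit 4) (nat_lit 16) (nat_lit 4) (nat_lit 551)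 (nat_lit 425) (nat_lit 224))))))))
noncomputable def xc299 : XT := (XT.nd (nat_lit 53742) (nat_lit 0) (nat_lit 7220) (XT.nd (nat_lit 53118) (nat_lit 0) (nat_lit 10412) (XT.nd (nat_lit 52806) (nat_lit 0) (nat_lit 11324) (XT.nd (nat_lit 52650) (nat_lit 0) (nat_lit 11248) (XT.nd (nat_lit 78) (nat_lit 0) (nat_lit 0) (XT.lf (nat_lit 0) (nat_lit 278250569133) (nat_lit 76) (nat_lit 304944714205) (nat_lit 76) (nat_lit 269180234649) (nat_lit 15) (nat_lit 4) (nat_lit 16) (nat_lit 5) (nat_lit 16) (nat_lit 4) (nat_lit 552) (nat_lit 425) (nat_lit 223)) (XT.lf (nat_lit 0) (nat_lit 585416227084) (nat_lit 76) (nat_lit 169073161677) (nat_lit 76) (nat_lit 133308592786) (nat_lit 15) (nat_lit 4) (nat_lit 16) (nat_lit 5) (nat_lit 16) (nat_lit 4) (nat_lit 553) (nat_lit 425) (nat_lit 222))) (XT.nd (nat_lit 78) (nat_lit 0) (nat_lit 0) (XT.lf (nat_lit 0) (nat_lit 1069185716) (nat_lit 836) (nat_lit 3126621957) (nat_lit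 836) (nat_lit 3126621957) (nat_lit 163) (nat_lit 3) (nat_lit 174) (nat_lit 3) (nat_lit 174) (nat_lit 5) (nat_lit 426) (nat_lit 426) (nat_lit 348)) (XT.lf (nat_lit 76) (nat_lit 1074173461) (nat_lit 0) (nat_lit 1443493175) (nat_lit 836) (nat_lit 12476998458) (nat_lit 164) (nat_lit 5) (nat_lit 163) (nat_lit 3) (nat_lit 174) (nat_lit 5) (nat_lit 427) (nat_lit 426) (nat_lit 347)))) (XT.nd (nat_lit 156) (nat_lit 0) (nat_lit 76) (XT.nd (nat_lit 78) (nat_lit 0) (nat_lit 0) (XT.lf (nat_lit 0) (nat_lit 3095123473) (nat_lit 760) (nat_lit 6476582576) (nat_lit 836) (nat_lit 5781296853) (nat_lit 164) (nat_lit 5) (nat_lit 174) (nat_lit 5) (nat_lit 175) (nat_lit 5) (nat_lit 428) (nat_lit 426) (nat_lit 346)) (XT.lf (nat_lit 76) (nat_lit 1347683942) (nat_lit 0) (nat_lit 2379609773) (nat_lit 836) (nat_lit 12000673310) (nat_lit 165) (nat_lit 5) (nat_lit 164) (nat_lit 5) (nat_lit 175) (nat_lit 5) (nat_lit 429) (nat_lit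 426) (nat_lit 345))) (XT.nd (nat_lit 78) (nat_lit 0) (nat_lit 0) (XT.lf (nat_lit 0) (nat_lit 4565275185) (nat_lit 760) (nat_lit 6422871939) (nat_lit 836) (nat_lit 5124823480) (nat_lit 165) (nat_lit 5) (nat_lit 175) (nat_lit 5) (nat_lit 176) (nat_lit 5) (nat_lit 430) (nat_lit 426) (nat_lit 344)) (XT.lf (nat_lit 76) (nat_lit 1944056028) (nat_lit 0) (nat_lit 3553290160) (nat_lit 836) (nat_lit 11017269969) (nat_lit 166) (nat_lit 5) (nat_lit 165) (nat_lit 5) (nat_lit 176) (nat_lit 5) (nat_lit 431) (nat_lit 426) (nat_lit 343))))) (XT.nd (nat_lit 312) (nat_lit 1064) (nat_lit 0) (XT.nd (nat_lit 156) (nat_lit 0) (nat_lit 76) (XT.nd (nat_lit 78) (nat_lit 0) (nat_lit 0) (XT.lf (nat_lit 0) (nat_lit 6636533244) (nat_lit 760) (nat_lit 6059063948) (nat_lit 836) (nat_lit 4232722428) (nat_lit 166) (nat_lit 5) (nat_lit 176) (nat_lit 5) (nat_lit 177) (nat_lit 5) (nat_lit 432) (nat_lit 426) (nat_lit 342)) (XT.lf (nat_lit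 76) (nat_lit 2900901035) (nat_lit 0) (nat_lit 5019652649) (nat_lit 836) (nat_lit 9437762066) (nat_lit 167) (nat_lit 5) (nat_lit 166) (nat_lit 5) (nat_lit 177) (nat_lit 5) (nat_lit 433) (nat_lit 426) (nat_lit 341))) (XT.nd (nat_lit 78) (nat_lit 0) (nat_lit 0) (XT.lf (nat_lit 0) (nat_lit 9405489344) (nat_lit 760) (nat_lit 5346932020) (nat_lit 836) (nat_lit 3050555753) (nat_lit 167) (nat_lit 5) (nat_lit 177) (nat_lit 5) (nat_lit 178) (nat_lit 5) (nat_lit 434) (nat_lit 426) (nat_lit 340)) (XT.lf (nat_lit 76) (nat_lit 4261439248) (nat_lit 0) (nat_lit 6837725909) (nat_lit 836) (nat_lit 7163982811) (nat_lit 168) (nat_lit 5) (nat_lit 167) (nat_lit 5) (nat_lit 178) (nat_lit 5) (nat_lit 435) (nat_lit 426) (nat_lit 339)))) (XT.nd (nat_lit 156) (nat_lit 456) (nat_lit 0) (XT.nd (nat_lit 78) (nat_lit 760) (nat_lit 0) (XT.lf (nat_lit 0) (nat_lit 12978763706) (nat_lit 760) (nat_lit 4242692194) (nat_lit 76) (nat_lit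 1519810548) (nat_lit 168) (nat_lit 5) (nat_lit 178) (nat_lit 5) (nat_lit 169) (nat_lit 5) (nat_lit 436) (nat_lit 426) (nat_lit 338)) (XT.lf (nat_lit 0) (nat_lit 6074923989) (nat_lit 760) (nat_lit 9071223932) (nat_lit 836) (nat_lit 4087453629) (nat_lit 158) (nat_lit 5) (nat_lit 168) (nat_lit 5) (nat_lit 169) (nat_lit 5) (nat_lit 437) (nat_lit 426) (nat_lit 337))) (XT.nd (nat_lit 78) (nat_lit 456) (nat_lit 0) (XT.lf (nat_lit 0) (nat_lit 17044213460) (nat_lit 760) (nat_lit 436851064) (nat_lit 836) (nat_lit 2266531661) (nat_lit 158) (nat_lit 5) (nat_lit 168) (nat_lit 5) (nat_lit 169) (nat_lit 5) (nat_lit 438) (nat_lit 426) (nat_lit 336)) (XT.lf (nat_lit 0) (nat_lit 8397131749) (nat_lit 456) (nat_lit 11789357576) (nat_lit 532) (nat_lit 88114002) (nat_lit 152) (nat_lit 5) (nat_lit 158) (nat_lit 5) (nat_lit 159) (nat_lit 5) (nat_lit 439) (nat_lit 426) (nat_lit 335)))))) (XT.nd (nat_lit 624) (nat_lit 1672)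 (nat_lit 0) (XT.nd (nat_lit 312) (nat_lit 684) (nat_lit 0) (XT.nd (nat_lit 156) (nat_lit 380) (nat_lit 0) (XT.nd (nat_lit 78) (nat_lit 380) (nat_lit 0) (XT.lf (nat_lit 0) (nat_lit 2170668343) (nat_lit 532) (nat_lit 733177881) (nat_lit 76) (nat_lit 17920306971) (nat_lit 151) (nat_lit 5) (nat_lit 158) (nat_lit 5) (nat_lit 152) (nat_lit 5) (nat_lit 440) (nat_lit 426) (nat_lit 334)) (XT.lf (nat_lit 0) (nat_lit 4808083850) (nat_lit 456) (nat_lit 10178181863) (nat_lit 76) (nat_lit 6401410630) (nat_lit 146) (nat_lit 5) (nat_lit 152) (nat_lit 5) (nat_lit 147) (nat_lit 5) (nat_lit 441) (nat_lit 426) (nat_lit 333))) (XT.nd (nat_lit 78) (nat_lit 0) (nat_lit 0) (XT.lf (nat_lit 0) (nat_lit 1794023538) (nat_lit 380) (nat_lit 5860646937) (nat_lit 456) (nat_lit 14320840888) (nat_lit 141) (nat_lit 5) (nat_lit 146) (nat_lit 5) (nat_lit 147) (nat_lit 5) (nat_lit 442) (nat_lit 426) (nat_lit 332)) (XT.lf (nat_lit 0)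 (nat_lit 10866280106) (nat_lit 456) (nat_lit 7938761214) (nat_lit 76) (nat_lit 3776562831) (nat_lit 141) (nat_lit 5) (nat_lit 147) (nat_lit 5) (nat_lit 142) (nat_lit 5) (nat_lit 443) (nat_lit 426) (nat_lit 331)))) (XT.nd (nat_lit 156) (nat_lit 380) (nat_lit 0) (XT.nd (nat_lit 78) (nat_lit 0) (nat_lit 0) (XT.lf (nat_lit 0) (nat_lit 4967670171) (nat_lit 304) (nat_lit 9434336695) (nat_lit 380) (nat_lit 8807818546) (nat_lit 137) (nat_lit 5) (nat_lit 141) (nat_lit 5) (nat_lit 142) (nat_lit 5) (nat_lit 444) (nat_lit 426) (nat_lit 330)) (XT.lf (nat_lit 0) (nat_lit 18247678690) (nat_lit 380) (nat_lit 5087859636) (nat_lit 76) (nat_lit 527262109) (nat_lit 137) (nat_lit 5) (nat_lit 142) (nat_lit 5) (nat_lit 138) (nat_lit 5) (nat_lit 445) (nat_lit 426) (nat_lit 329))) (XT.nd (nat_lit 78) (nat_lit 76) (nat_lit 0) (XT.lf (nat_lit 0) (nat_lit 8841385708) (nat_lit 304) (nat_lit 13727602027) (nat_lit 380) (nat_lit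 1965269396) (nat_lit 133) (nat_lit 5) (nat_lit 137) (nat_lit 5) (nat_lit 138) (nat_lit 5) (nat_lit 446) (nat_lit 426) (nat_lit 328)) (XT.lf (nat_lit 0) (nat_lit 1885674514) (nat_lit 380) (nat_lit 1633018916) (nat_lit 76) (nat_lit 21715218415) (nat_lit 132) (nat_lit 5) (nat_lit 137) (nat_lit 5) (nat_lit 133) (nat_lit 5) (nat_lit 447) (nat_lit 426) (nat_lit 327))))) (XT.nd (nat_lit 312) (nat_lit 836) (nat_lit 0) (XT.nd (nat_lit 156) (nat_lit 228) (nat_lit 0) (XT.nd (nat_lit 78) (nat_lit 304) (nat_lit 0) (XT.lf (nat_lit 0) (nat_lit 6181798831) (nat_lit 380) (nat_lit 12553559869) (nat_lit 76) (nat_lit 7215646283) (nat_lit 128) (nat_lit 5) (nat_lit 133) (nat_lit 5) (nat_lit 129) (nat_lit 5) (nat_lit 448) (nat_lit 426) (nat_lit 326)) (XT.lf (nat_lit 0) (nat_lit 2546008365) (nat_lit 304) (nat_lit 8263705693) (nat_lit 380) (nat_lit 15888389982) (nat_lit 124) (nat_lit 5) (nat_lit 128) (nat_lit 5) (nat_lit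 129) (nat_lit 5) (nat_lit 449) (nat_lit 426) (nat_lit 325))) (XT.nd (nat_lit 78) (nat_lit 228) (nat_lit 0) (XT.lf (nat_lit 0) (nat_lit 15919401828) (nat_lit 380) (nat_lit 8692776898) (nat_lit 76) (nat_lit 2857860958) (nat_lit 124) (nat_lit 5) (nat_lit 129) (nat_lit 5) (nat_lit 125) (nat_lit 5) (nat_lit 450) (nat_lit 426) (nat_lit 324)) (XT.lf (nat_lit 0) (nat_lit 7637924176) (nat_lit 228) (nat_lit 13893411775) (nat_lit 304) (nat_lit 6736898513) (nat_lit 121) (nat_lit 5) (nat_lit 124) (nat_lit 5) (nat_lit 125) (nat_lit 5) (nat_lit 451) (nat_lit 426) (nat_lit 323)))) (XT.nd (nat_lit 156) (nat_lit 456) (nat_lit 0) (XT.nd (nat_lit 78) (nat_lit 380) (nat_lit 0) (XT.lf (nat_lit 0) (nat_lit 25076550113) (nat_lit 228) (nat_lit 2486791549) (nat_lit 304) (nat_lit 1536024005) (nat_lit 121) (nat_lit 5) (nat_lit 124) (nat_lit 5) (nat_lit 125) (nat_lit 5) (nat_lit 452) (nat_lit 426) (nat_lit 322)) (XT.lf (nat_lit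 0) (nat_lit 4159657817) (nat_lit 380) (nat_lit 16326443716) (nat_lit 76) (nat_lit 9464869121) (nat_lit 116) (nat_lit 5) (nat_lit 121) (nat_lit 5) (nat_lit 117) (nat_lit 5) (nat_lit 453) (nat_lit 426) (nat_lit 321))) (XT.nd (nat_lit 78) (nat_lit 228) (nat_lit 0) (XT.lf (nat_lit 0) (nat_lit 1420225991) (nat_lit 228) (nat_lit 8793127812) (nat_lit 304) (nat_lit 20624300895) (nat_lit 113) (nat_lit 5) (nat_lit 116) (nat_lit 5) (nat_lit 117) (nat_lit 5) (nat_lit 454) (nat_lit 426) (nat_lit 320)) (XT.nd (nat_lit 78) (nat_lit 228) (nat_lit 0) (XT.lf (nat_lit 0) (nat_lit 16897974782) (nat_lit 304) (nat_lit 11203197042) (nat_lit 76) (nat_lit 3651089463) (nat_lit 113) (nat_lit 5) (nat_lit 117) (nat_lit 5) (nat_lit 114) (nat_lit 5) (nat_lit 455) (nat_lit 426) (nat_lit 319)) (XT.lf (nat_lit 0) (nat_lit 8024467843) (nat_lit 228) (nat_lit 16154944005) (nat_lit 304) (nat_lit 8520057443) (nat_lit 110) (nat_lit 5)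 (nat_lit 113) (nat_lit 5) (nat_lit 114) (nat_lit 5) (nat_lit 456) (nat_lit 426) (nat_lit 318))))))))
noncomputable def xc300 : XT := (XT.nd (nat_lit 1248) (nat_lit 1444) (nat_lit 0) (XT.nd (nat_lit 624) (nat_lit 912) (nat_lit 0) (XT.nd (nat_lit 312) (nat_lit 608) (nat_lit 0) (XT.nd (nat_lit 156) (nat_lit 228) (nat_lit 0) (XT.nd (nat_lit 78) (nat_lit 228) (nat_lit 0) (XT.lf (nat_lit 0) (nat_lit 28592664542) (nat_lit 228) (nat_lit 3415311879) (nat_lit 304) (nat_lit 1676908812) (nat_lit 110) (nat_lit 5) (nat_lit 113) (nat_lit 5) (nat_lit 114) (nat_lit 5) (nat_lit 457) (nat_lit 426) (nat_lit 317)) (XT.lf (nat_lit 0) (nat_lit 5734552358) (nat_lit 228) (nat_lit 18981659410) (nat_lit 76) (nat_lit 9978937508) (nat_lit 107) (nat_lit 5) (nat_lit 110) (nat_lit 5) (nat_lit 108) (nat_lit 5) (nat_lit 458) (nat_lit 426) (nat_lit 316))) (XT.nd (nat_lit 78) (nat_lit 0) (nat_lit 0) (XT.lf (nat_lit 0) (nat_lit 1952603061)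 (nat_lit 228) (nat_lit 11675405942) (nat_lit 304) (nat_lit 22118154401) (nat_lit 104) (nat_lit 5) (nat_lit 107) (nat_lit 5) (nat_lit 108) (nat_lit 5) (nat_lit 459) (nat_lit 426) (nat_lit 315)) (XT.lf (nat_lit 0) (nat_lit 22268122388) (nat_lit 304) (nat_lit 12287607830) (nat_lit 76) (nat_lit 2276399090) (nat_lit 104) (nat_lit 5) (nat_lit 108) (nat_lit 5) (nat_lit 105) (nat_lit 5) (nat_lit 460) (nat_lit 426) (nat_lit 314)))) (XT.nd (nat_lit 156) (nat_lit 380) (nat_lit 0) (XT.nd (nat_lit 78) (nat_lit 76) (nat_lit 0) (XT.lf (nat_lit 0) (nat_lit 10426661456) (nat_lit 152) (nat_lit 21261819516) (nat_lit 228) (nat_lit 6266500809) (nat_lit 102) (nat_lit 5) (nat_lit 104) (nat_lit 5) (nat_lit 105) (nat_lit 5) (nat_lit 461) (nat_lit 426) (nat_lit 313)) (XT.lf (nat_lit 0) (nat_lit 2573200205) (nat_lit 228) (nat_lit 4471272840) (nat_lit 76) (nat_lit 32077314556) (nat_lit 101) (nat_lit 5) (nat_lit 104) (nat_lit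 5) (nat_lit 102) (nat_lit 5) (nat_lit 462) (nat_lit 426) (nat_lit 312))) (XT.nd (nat_lit 78) (nat_lit 152) (nat_lit 0) (XT.lf (nat_lit 0) (nat_lit 12085141286) (nat_lit 304) (nat_lit 20180205092) (nat_lit 76) (nat_lit 8054408547) (nat_lit 98) (nat_lit 5) (nat_lit 102) (nat_lit 5) (nat_lit 99) (nat_lit 5) (nat_lit 463) (nat_lit 426) (nat_lit 311)) (XT.lf (nat_lit 0) (nat_lit 4583301527) (nat_lit 152) (nat_lit 17747840153) (nat_lit 228) (nat_lit 19233556030) (nat_lit 96) (nat_lit 5) (nat_lit 98) (nat_lit 5) (nat_lit 99) (nat_lit 5) (nat_lit 464) (nat_lit 426) (nat_lit 310))))) (XT.nd (nat_lit 312) (nat_lit 532) (nat_lit 0) (XT.nd (nat_lit 156) (nat_lit 152) (nat_lit 0) (XT.nd (nat_lit 78) (nat_lit 228) (nat_lit 0) (XT.lf (nat_lit 0) (nat_lit 31276759570) (nat_lit 152) (nat_lit 2149026482) (nat_lit 228) (nat_lit 9429284580) (nat_lit 96) (nat_lit 5) (nat_lit 98) (nat_lit 5) (nat_lit 99) (nat_lit 5)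 (nat_lit 465) (nat_lit 426) (nat_lit 309)) (XT.lf (nat_lit 0) (nat_lit 1301695045) (nat_lit 228) (nat_lit 28852506176) (nat_lit 76) (nat_lit 14031876427) (nat_lit 93) (nat_lit 5) (nat_lit 96) (nat_lit 5) (nat_lit 94) (nat_lit 5) (nat_lit 466) (nat_lit 426) (nat_lit 308))) (XT.nd (nat_lit 78) (nat_lit 152) (nat_lit 0) (XT.lf (nat_lit 0) (nat_lit 12481688168) (nat_lit 228) (nat_lit 1782486751) (nat_lit 76) (nat_lit 31300263828) (nat_lit 93) (nat_lit 5) (nat_lit 96) (nat_lit 5) (nat_lit 94) (nat_lit 5) (nat_lit 467) (nat_lit 426) (nat_lit 307)) (XT.lf (nat_lit 0) (nat_lit 24690089061) (nat_lit 228) (nat_lit 19521873308) (nat_lit 76) (nat_lit 2776285289) (nat_lit 91) (nat_lit 5) (nat_lit 94) (nat_lit 5) (nat_lit 92) (nat_lit 5) (nat_lit 468) (nat_lit 426) (nat_lit 306)))) (XT.nd (nat_lit 156) (nat_lit 304) (nat_lit 0) (XT.nd (nat_lit 78) (nat_lit 76) (nat_lit 0) (XT.lf (nat_lit 0) (nat_lit 9829807146)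 (nat_lit 152) (nat_lit 28092219883) (nat_lit 228) (nat_lit 10540564287) (nat_lit 89) (nat_lit 5) (nat_lit 91) (nat_lit 5) (nat_lit 92) (nat_lit 5) (nat_lit 469) (nat_lit 426) (nat_lit 305)) (XT.lf (nat_lit 0) (nat_lit 2078325027) (nat_lit 228) (nat_lit 8709219766) (nat_lit 76) (nat_lit 39205139336) (nat_lit 88) (nat_lit 5) (nat_lit 91) (nat_lit 5) (nat_lit 89) (nat_lit 5) (nat_lit 470) (nat_lit 426) (nat_lit 304))) (XT.nd (nat_lit 78) (nat_lit 152) (nat_lit 0) (XT.lf (nat_lit 0) (nat_lit 15456690396) (nat_lit 228) (nat_lit 28421966728) (nat_lit 76) (nat_lit 7687846600) (nat_lit 86) (nat_lit 5) (nat_lit 89) (nat_lit 5) (nat_lit 87) (nat_lit 5) (nat_lit 471) (nat_lit 426) (nat_lit 303)) (XT.lf (nat_lit 0) (nat_lit 3610010255) (nat_lit 152) (nat_lit 26272513117) (nat_lit 228) (nat_lit 23317563590) (nat_lit 84) (nat_lit 5) (nat_lit 86) (nat_lit 5) (nat_lit 87) (nat_lit 5) (nat_lit 472) (nat_lit 426)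 (nat_lit 302)))))) (XT.nd (nat_lit 624) (nat_lit 760) (nat_lit 0) (XT.nd (nat_lit 312) (nat_lit 380) (nat_lit 0) (XT.nd (nat_lit 156) (nat_lit 152) (nat_lit 0) (XT.nd (nat_lit 78) (nat_lit 152) (nat_lit 0) (XT.lf (nat_lit 0) (nat_lit 38222485084) (nat_lit 152) (nat_lit 7284026972) (nat_lit 228) (nat_lit 9384994220) (nat_lit 84) (nat_lit 5) (nat_lit 86) (nat_lit 5) (nat_lit 87) (nat_lit 5) (nat_lit 473) (nat_lit 426) (nat_lit 301)) (XT.lf (nat_lit 0) (nat_lit 5562821484) (nat_lit 152) (nat_lit 38455394295) (nat_lit 76) (nat_lit 12620863796) (nat_lit 82) (nat_lit 5) (nat_lit 84) (nat_lit 5) (nat_lit 83) (nat_lit 5) (nat_lit 474) (nat_lit 426) (nat_lit 300))) (XT.nd (nat_lit 78) (nat_lit 152) (nat_lit 0) (XT.lf (nat_lit 0) (nat_lit 21344672668) (nat_lit 152) (nat_lit 3387725099) (nat_lit 76) (nat_lit 33713839156) (nat_lit 82) (nat_lit 5) (nat_lit 84) (nat_lit 5) (nat_lit 83) (nat_lit 5) (nat_lit 475)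 (nat_lit 426) (nat_lit 299)) (XT.lf (nat_lit 0) (nat_lit 34531252003) (nat_lit 152) (nat_lit 3919404489) (nat_lit 228) (nat_lit 21866343740) (nat_lit 80) (nat_lit 5) (nat_lit 82) (nat_lit 5) (nat_lit 83) (nat_lit 5) (nat_lit 476) (nat_lit 426) (nat_lit 298)))) (XT.nd (nat_lit 156) (nat_lit 228) (nat_lit 0) (XT.nd (nat_lit 78) (nat_lit 76) (nat_lit 0) (XT.lf (nat_lit 0) (nat_lit 12290461664) (nat_lit 76) (nat_lit 44647627177) (nat_lit 152) (nat_lit 5316905495) (nat_lit 79) (nat_lit 5) (nat_lit 80) (nat_lit 5) (nat_lit 81) (nat_lit 4) (nat_lit 477) (nat_lit 426) (nat_lit 297)) (XT.lf (nat_lit 0) (nat_lit 12178073911) (nat_lit 152) (nat_lit 11369390570) (nat_lit 76) (nat_lit 40707805990) (nat_lit 78) (nat_lit 5) (nat_lit 80) (nat_lit 5) (nat_lit 79) (nat_lit 5) (nat_lit 478) (nat_lit 426) (nat_lit 296))) (XT.nd (nat_lit 78) (nat_lit 76) (nat_lit 0) (XT.lf (nat_lit 0) (nat_lit 30022255230) (nat_lit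 152) (nat_lit 811747269) (nat_lit 228) (nat_lit 35493955721) (nat_lit 76) (nat_lit 5) (nat_lit 78) (nat_lit 5) (nat_lit 79) (nat_lit 5) (nat_lit 479) (nat_lit 426) (nat_lit 295)) (XT.lf (nat_lit 0) (nat_lit 5179095568) (nat_lit 76) (nat_lit 45876416748) (nat_lit 152) (nat_lit 17417128879) (nat_lit 75) (nat_lit 5) (nat_lit 76) (nat_lit 5) (nat_lit 77) (nat_lit 4) (nat_lit 480) (nat_lit 426) (nat_lit 294))))) (XT.nd (nat_lit 312) (nat_lit 456) (nat_lit 0) (XT.nd (nat_lit 156) (nat_lit 76) (nat_lit 0) (XT.nd (nat_lit 78) (nat_lit 152) (nat_lit 0) (XT.lf (nat_lit 0) (nat_lit 2147929451) (nat_lit 152) (nat_lit 20750058598) (nat_lit 76) (nat_lit 47793628121) (nat_lit 74) (nat_lit 5) (nat_lit 76) (nat_lit 5) (nat_lit 75) (nat_lit 5) (nat_lit 481) (nat_lit 426) (nat_lit 293)) (XT.lf (nat_lit 0) (nat_lit 22513461041) (nat_lit 228) (nat_lit 48608823169) (nat_lit 76) (nat_lit 1864601911) (nat_lit 72) (nat_lit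 5) (nat_lit 75) (nat_lit 5) (nat_lit 73) (nat_lit 4) (nat_lit 482) (nat_lit 426) (nat_lit 292))) (XT.nd (nat_lit 78) (nat_lit 76) (nat_lit 0) (XT.lf (nat_lit 0) (nat_lit 44626214696) (nat_lit 228) (nat_lit 3284219645) (nat_lit 76) (nat_lit 27450038018) (nat_lit 72) (nat_lit 5) (nat_lit 75) (nat_lit 5) (nat_lit 73) (nat_lit 4) (nat_lit 483) (nat_lit 426) (nat_lit 291)) (XT.lf (nat_lit 0) (nat_lit 45764980436) (nat_lit 76) (nat_lit 22790712334) (nat_lit 152) (nat_lit 9261490863) (nat_lit 71) (nat_lit 5) (nat_lit 72) (nat_lit 5) (nat_lit 73) (nat_lit 4) (nat_lit 484) (nat_lit 426) (nat_lit 290)))) (XT.nd (nat_lit 156) (nat_lit 228) (nat_lit 0) (XT.nd (nat_lit 78) (nat_lit 0) (nat_lit 0) (XT.lf (nat_lit 0) (nat_lit 13248025387) (nat_lit 228) (nat_lit 63108331812) (nat_lit 76) (nat_lit 4010587024) (nat_lit 68) (nat_lit 5) (nat_lit 71) (nat_lit 5) (nat_lit 69) (nat_lit 4) (nat_lit 485) (nat_lit 426)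 (nat_lit 289)) (XT.lf (nat_lit 0) (nat_lit 37493702703) (nat_lit 228) (nat_lit 13410074997) (nat_lit 76) (nat_lit 32086727204) (nat_lit 68) (nat_lit 5) (nat_lit 71) (nat_lit 5) (nat_lit 69) (nat_lit 4) (nat_lit 486) (nat_lit 426) (nat_lit 288))) (XT.nd (nat_lit 78) (nat_lit 152) (nat_lit 0) (XT.lf (nat_lit 0) (nat_lit 40048784518) (nat_lit 76) (nat_lit 23524910833) (nat_lit 152) (nat_lit 22140446747) (nat_lit 67) (nat_lit 5) (nat_lit 68) (nat_lit 5) (nat_lit 69) (nat_lit 4) (nat_lit 487) (nat_lit 426) (nat_lit 287)) (XT.nd (nat_lit 78) (nat_lit 0) (nat_lit 0) (XT.lf (nat_lit 0) (nat_lit 2752666014) (nat_lit 152) (nat_lit 80340055906) (nat_lit 76) (nat_lit 5457116760) (nat_lit 65) (nat_lit 5) (nat_lit 67) (nat_lit 5) (nat_lit 66) (nat_lit 4) (nat_lit 488) (nat_lit 426) (nat_lit 286)) (XT.lf (nat_lit 0) (nat_lit 29314848648) (nat_lit 152) (nat_lit 25892009029) (nat_lit 76) (nat_lit 36243890628) (nat_lit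 65) (nat_lit 5) (nat_lit 67) (nat_lit 5) (nat_lit 66) (nat_lit 4) (nat_lit 489) (nat_lit 426) (nat_lit 285))))))))
noncomputable def xc301 : XT := (XT.nd (nat_lit 1248) (nat_lit 1064) (nat_lit 0) (XT.nd (nat_lit 624) (nat_lit 608) (nat_lit 0) (XT.nd (nat_lit 312) (nat_lit 228) (nat_lit 0) (XT.nd (nat_lit 156) (nat_lit 228) (nat_lit 0) (XT.nd (nat_lit 78) (nat_lit 0) (nat_lit 0) (XT.lf (nat_lit 0) (nat_lit 32306600894) (nat_lit 76) (nat_lit 25399870492) (nat_lit 152) (nat_lit 36765165519) (nat_lit 64) (nat_lit 5) (nat_lit 65) (nat_lit 5) (nat_lit 66) (nat_lit 4) (nat_lit 490) (nat_lit 426) (nat_lit 284)) (XT.lf (nat_lit 0) (nat_lit 88052380925) (nat_lit 152) (nat_lit 3412721740) (nat_lit 0) (nat_lit 6151732026) (nat_lit 64) (nat_lit 5) (nat_lit 66) (nat_lit 4) (nat_lit 64) (nat_lit 4) (nat_lit 491) (nat_lit 426) (nat_lit 283))) (XT.nd (nat_lit 78) (nat_lit 76) (nat_lit 0) (XT.lf (nat_lit 0) (nat_lit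 19757002584) (nat_lit 152) (nat_lit 41402436134) (nat_lit 76) (nat_lit 39676588963) (nat_lit 62) (nat_lit 5) (nat_lit 64) (nat_lit 5) (nat_lit 63) (nat_lit 4) (nat_lit 492) (nat_lit 426) (nat_lit 282)) (XT.lf (nat_lit 0) (nat_lit 21863858125) (nat_lit 76) (nat_lit 28756443649) (nat_lit 152) (nat_lit 53568178945) (nat_lit 61) (nat_lit 5) (nat_lit 62) (nat_lit 5) (nat_lit 63) (nat_lit 4) (nat_lit 493) (nat_lit 426) (nat_lit 281)))) (XT.nd (nat_lit 156) (nat_lit 76) (nat_lit 0) (XT.nd (nat_lit 78) (nat_lit 152) (nat_lit 0) (XT.lf (nat_lit 0) (nat_lit 83818768330) (nat_lit 152) (nat_lit 18041957187) (nat_lit 0) (nat_lit 5808230805) (nat_lit 61) (nat_lit 5) (nat_lit 63) (nat_lit 4) (nat_lit 61) (nat_lit 4) (nat_lit 494) (nat_lit 426) (nat_lit 280)) (XT.lf (nat_lit 0) (nat_lit 8397604877) (nat_lit 152) (nat_lit 60798444248) (nat_lit 76) (nat_lit 42057702674) (nat_lit 59) (nat_lit 5) (nat_lit 61) (nat_lit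 5) (nat_lit 60) (nat_lit 4) (nat_lit 495) (nat_lit 426) (nat_lit 279))) (XT.nd (nat_lit 78) (nat_lit 0) (nat_lit 0) (XT.lf (nat_lit 0) (nat_lit 7851254496) (nat_lit 76) (nat_lit 34035400510) (nat_lit 152) (nat_lit 73090063222) (nat_lit 58) (nat_lit 5) (nat_lit 59) (nat_lit 5) (nat_lit 60) (nat_lit 4) (nat_lit 496) (nat_lit 426) (nat_lit 278)) (XT.lf (nat_lit 0) (nat_lit 78138965209) (nat_lit 152) (nat_lit 36857373050) (nat_lit 0) (nat_lit 3835054367) (nat_lit 58) (nat_lit 5) (nat_lit 60) (nat_lit 4) (nat_lit 58) (nat_lit 4) (nat_lit 497) (nat_lit 426) (nat_lit 277))))) (XT.nd (nat_lit 312) (nat_lit 304) (nat_lit 0) (XT.nd (nat_lit 156) (nat_lit 152) (nat_lit 0) (XT.nd (nat_lit 78) (nat_lit 76) (nat_lit 0) (XT.lf (nat_lit 0) (nat_lit 37563330825) (nat_lit 76) (nat_lit 79782377660) (nat_lit 76) (nat_lit 5476001407) (nat_lit 57) (nat_lit 4) (nat_lit 58) (nat_lit 5) (nat_lit 58) (nat_lit 4) (nat_lit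 498) (nat_lit 426) (nat_lit 276)) (XT.lf (nat_lit 0) (nat_lit 31124834732) (nat_lit 152) (nat_lit 10502813061) (nat_lit 76) (nat_lit 85327712842) (nat_lit 56) (nat_lit 5) (nat_lit 58) (nat_lit 5) (nat_lit 57) (nat_lit 4) (nat_lit 499) (nat_lit 426) (nat_lit 275))) (XT.nd (nat_lit 78) (nat_lit 76) (nat_lit 0) (XT.lf (nat_lit 0) (nat_lit 70140849675) (nat_lit 76) (nat_lit 323447953) (nat_lit 152) (nat_lit 60772277059) (nat_lit 55) (nat_lit 5) (nat_lit 56) (nat_lit 5) (nat_lit 57) (nat_lit 4) (nat_lit 500) (nat_lit 426) (nat_lit 274)) (XT.lf (nat_lit 0) (nat_lit 19399429157) (nat_lit 76) (nat_lit 93524564453) (nat_lit 76) (nat_lit 22750192855) (nat_lit 54) (nat_lit 4) (nat_lit 55) (nat_lit 5) (nat_lit 55) (nat_lit 4) (nat_lit 501) (nat_lit 426) (nat_lit 273)))) (XT.nd (nat_lit 156) (nat_lit 152) (nat_lit 0) (XT.nd (nat_lit 78) (nat_lit 76) (nat_lit 0) (XT.lf (nat_lit 0) (nat_lit 17677832089) (nat_lit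 152) (nat_lit 34536747529) (nat_lit 76) (nat_lit 88052969322) (nat_lit 53) (nat_lit 5) (nat_lit 55) (nat_lit 5) (nat_lit 54) (nat_lit 4) (nat_lit 502) (nat_lit 426) (nat_lit 272)) (XT.lf (nat_lit 0) (nat_lit 52593907435) (nat_lit 76) (nat_lit 7587580601) (nat_lit 152) (nat_lit 84849504551) (nat_lit 52) (nat_lit 5) (nat_lit 53) (nat_lit 5) (nat_lit 54) (nat_lit 4) (nat_lit 503) (nat_lit 426) (nat_lit 271))) (XT.nd (nat_lit 78) (nat_lit 152) (nat_lit 0) (XT.lf (nat_lit 0) (nat_lit 106015591407) (nat_lit 152) (nat_lit 5350586351) (nat_lit 0) (nat_lit 38606167444) (nat_lit 52) (nat_lit 5) (nat_lit 54) (nat_lit 4) (nat_lit 52) (nat_lit 4) (nat_lit 504) (nat_lit 426) (nat_lit 270)) (XT.lf (nat_lit 0) (nat_lit 546618024) (nat_lit 152) (nat_lit 66290446239) (nat_lit 76) (nat_lit 88247829085) (nat_lit 50) (nat_lit 5) (nat_lit 52) (nat_lit 5) (nat_lit 51) (nat_lit 4) (nat_lit 505) (nat_lit 426) (nat_lit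 269)))))) (XT.nd (nat_lit 624) (nat_lit 532) (nat_lit 0) (XT.nd (nat_lit 312) (nat_lit 304) (nat_lit 0) (XT.nd (nat_lit 156) (nat_lit 152) (nat_lit 0) (XT.nd (nat_lit 78) (nat_lit 0) (nat_lit 0) (XT.lf (nat_lit 0) (nat_lit 27538859681) (nat_lit 76) (nat_lit 18778889791) (nat_lit 152) (nat_lit 114073298007) (nat_lit 49) (nat_lit 5) (nat_lit 50) (nat_lit 5) (nat_lit 51) (nat_lit 4) (nat_lit 506) (nat_lit 426) (nat_lit 268)) (XT.lf (nat_lit 0) (nat_lit 96010922281) (nat_lit 152) (nat_lit 38062769780) (nat_lit 0) (nat_lit 31807143031) (nat_lit 49) (nat_lit 5) (nat_lit 51) (nat_lit 4) (nat_lit 49) (nat_lit 4) (nat_lit 507) (nat_lit 426) (nat_lit 267))) (XT.nd (nat_lit 78) (nat_lit 76) (nat_lit 0) (XT.lf (nat_lit 0) (nat_lit 63176081541) (nat_lit 76) (nat_lit 86304756525) (nat_lit 76) (nat_lit 22099669815) (nat_lit 48) (nat_lit 4) (nat_lit 49) (nat_lit 5) (nat_lit 49) (nat_lit 4) (nat_lit 508) (nat_lit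 426) (nat_lit 266)) (XT.lf (nat_lit 0) (nat_lit 27814078271) (nat_lit 152) (nat_lit 7187471453) (nat_lit 76) (nat_lit 142509057606) (nat_lit 47) (nat_lit 5) (nat_lit 49) (nat_lit 5) (nat_lit 48) (nat_lit 4) (nat_lit 509) (nat_lit 426) (nat_lit 265)))) (XT.nd (nat_lit 156) (nat_lit 152) (nat_lit 0) (XT.nd (nat_lit 78) (nat_lit 76) (nat_lit 0) (XT.lf (nat_lit 0) (nat_lit 81397699465) (nat_lit 152) (nat_lit 81977871339) (nat_lit 0) (nat_lit 20247682498) (nat_lit 46) (nat_lit 5) (nat_lit 48) (nat_lit 4) (nat_lit 46) (nat_lit 4) (nat_lit 510) (nat_lit 426) (nat_lit 264)) (XT.lf (nat_lit 0) (nat_lit 26399088712) (nat_lit 76) (nat_lit 112369076166) (nat_lit 76) (nat_lit 51217983549) (nat_lit 45) (nat_lit 4) (nat_lit 46) (nat_lit 5) (nat_lit 46) (nat_lit 4) (nat_lit 511) (nat_lit 426) (nat_lit 263))) (XT.nd (nat_lit 78) (nat_lit 76) (nat_lit 0) (XT.lf (nat_lit 0) (nat_lit 3674152705) (nat_lit 152) (nat_lit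 53620104000) (nat_lit 76) (nat_lit 139300650895) (nat_lit 44) (nat_lit 5) (nat_lit 46) (nat_lit 5) (nat_lit 45) (nat_lit 4) (nat_lit 512) (nat_lit 426) (nat_lit 262)) (XT.lf (nat_lit 0) (nat_lit 60609823023) (nat_lit 152) (nat_lit 140462508032) (nat_lit 0) (nat_lit 2368782363) (nat_lit 43) (nat_lit 5) (nat_lit 45) (nat_lit 4) (nat_lit 43) (nat_lit 4) (nat_lit 513) (nat_lit 426) (nat_lit 261))))) (XT.nd (nat_lit 312) (nat_lit 304) (nat_lit 0) (XT.nd (nat_lit 156) (nat_lit 152) (nat_lit 0) (XT.nd (nat_lit 78) (nat_lit 76) (nat_lit 0) (XT.lf (nat_lit 0) (nat_lit 122252581348) (nat_lit 152) (nat_lit 24273377217) (nat_lit 0) (nat_lit 64010655748) (nat_lit 43) (nat_lit 5) (nat_lit 45) (nat_lit 4) (nat_lit 43) (nat_lit 4) (nat_lit 514) (nat_lit 426) (nat_lit 260)) (XT.lf (nat_lit 0) (nat_lit 100952674488) (nat_lit 76) (nat_lit 87599133819) (nat_lit 76) (nat_lit 29356365418) (nat_lit 42) (nat_lit 4) (nat_lit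 43) (nat_lit 5) (nat_lit 43) (nat_lit 4) (nat_lit 515) (nat_lit 426) (nat_lit 259))) (XT.nd (nat_lit 78) (nat_lit 0) (nat_lit 0) (XT.lf (nat_lit 0) (nat_lit 7372882581) (nat_lit 76) (nat_lit 24635143588) (nat_lit 152) (nat_lit 193588344853) (nat_lit 40) (nat_lit 5) (nat_lit 41) (nat_lit 5) (nat_lit 42) (nat_lit 4) (nat_lit 516) (nat_lit 426) (nat_lit 258)) (XT.lf (nat_lit 0) (nat_lit 98112992717) (nat_lit 152) (nat_lit 92756779801) (nat_lit 0) (nat_lit 42642196991) (nat_lit 40) (nat_lit 5) (nat_lit 42) (nat_lit 4) (nat_lit 40) (nat_lit 4) (nat_lit 517) (nat_lit 426) (nat_lit 257)))) (XT.nd (nat_lit 156) (nat_lit 228) (nat_lit 0) (XT.nd (nat_lit 78) (nat_lit 0) (nat_lit 0) (XT.lf (nat_lit 0) (nat_lit 39851422359) (nat_lit 76) (nat_lit 128696099478) (nat_lit 76) (nat_lit 73224610378) (nat_lit 39) (nat_lit 4) (nat_lit 40) (nat_lit 5) (nat_lit 40) (nat_lit 4) (nat_lit 518) (nat_lit 426) (nat_lit 256))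 (XT.lf (nat_lit 0) (nat_lit 182306915232) (nat_lit 76) (nat_lit 61766039217) (nat_lit 76) (nat_lit 6293889761) (nat_lit 39) (nat_lit 4) (nat_lit 40) (nat_lit 5) (nat_lit 40) (nat_lit 4) (nat_lit 519) (nat_lit 426) (nat_lit 255))) (XT.nd (nat_lit 78) (nat_lit 76) (nat_lit 0) (XT.lf (nat_lit 0) (nat_lit 63255067347) (nat_lit 152) (nat_lit 185596448238) (nat_lit 0) (nat_lit 10423849854) (nat_lit 37) (nat_lit 5) (nat_lit 39) (nat_lit 4) (nat_lit 37) (nat_lit 4) (nat_lit 520) (nat_lit 426) (nat_lit 254)) (XT.nd (nat_lit 78) (nat_lit 76) (nat_lit 0) (XT.lf (nat_lit 0) (nat_lit 138252390314) (nat_lit 152) (nat_lit 44842039417) (nat_lit 0) (nat_lit 85420602381) (nat_lit 37) (nat_lit 5) (nat_lit 39) (nat_lit 4) (nat_lit 37) (nat_lit 4) (nat_lit 521) (nat_lit 426) (nat_lit 253)) (XT.lf (nat_lit 0) (nat_lit 106350819539) (nat_lit 76) (nat_lit 112307625262) (nat_lit 76) (nat_lit 59475294053) (nat_lit 36) (nat_lit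 4) (nat_lit 37) (nat_lit 5) (nat_lit 37) (nat_lit 4) (nat_lit 522) (nat_lit 426) (nat_lit 252))))))))
noncomputable def xc302 : XT := (XT.nd (nat_lit 1248) (nat_lit 684) (nat_lit 0) (XT.nd (nat_lit 624) (nat_lit 456) (nat_lit 0) (XT.nd (nat_lit 312) (nat_lit 228) (nat_lit 0) (XT.nd (nat_lit 156) (nat_lit 76) (nat_lit 0) (XT.nd (nat_lit 78) (nat_lit 76) (nat_lit 0) (XT.lf (nat_lit 0) (nat_lit 15146385922) (nat_lit 152) (nat_lit 21782757475) (nat_lit 76) (nat_lit 251254128773) (nat_lit 35) (nat_lit 5) (nat_lit 37) (nat_lit 5) (nat_lit 36) (nat_lit 4) (nat_lit 523) (nat_lit 426) (nat_lit 251)) (XT.lf (nat_lit 0) (nat_lit 94382844535) (nat_lit 152) (nat_lit 160094188105) (nat_lit 0) (nat_lit 44065376550) (nat_lit 34) (nat_lit 5) (nat_lit 36) (nat_lit 4) (nat_lit 34) (nat_lit 4) (nat_lit 524) (nat_lit 426) (nat_lit 250))) (XT.nd (nat_lit 78) (nat_lit 76) (nat_lit 0) (XT.lf (nat_lit 0) (nat_lit 178559979083)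 (nat_lit 152) (nat_lit 2568517189) (nat_lit 0) (nat_lit 128242064143) (nat_lit 34) (nat_lit 5) (nat_lit 36) (nat_lit 4) (nat_lit 34) (nat_lit 4) (nat_lit 525) (nat_lit 426) (nat_lit 249)) (XT.lf (nat_lit 0) (nat_lit 168214482102) (nat_lit 76) (nat_lit 101356366891) (nat_lit 76) (nat_lit 51038026280) (nat_lit 33) (nat_lit 4) (nat_lit 34) (nat_lit 5) (nat_lit 34) (nat_lit 4) (nat_lit 526) (nat_lit 426) (nat_lit 248)))) (XT.nd (nat_lit 156) (nat_lit 76) (nat_lit 0) (XT.nd (nat_lit 78) (nat_lit 0) (nat_lit 0) (XT.lf (nat_lit 0) (nat_lit 15190584027) (nat_lit 76) (nat_lit 16765186723) (nat_lit 152) (nat_lit 300413792140) (nat_lit 31) (nat_lit 5) (nat_lit 32) (nat_lit 5) (nat_lit 33) (nat_lit 4) (nat_lit 527) (nat_lit 426) (nat_lit 247)) (XT.lf (nat_lit 0) (nat_lit 121130797656) (nat_lit 152) (nat_lit 150150500475) (nat_lit 0) (nat_lit 73207814695) (nat_lit 31) (nat_lit 5) (nat_lit 33) (nat_lit 4) (nat_lit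 31) (nat_lit 4) (nat_lit 528) (nat_lit 426) (nat_lit 246))) (XT.nd (nat_lit 78) (nat_lit 0) (nat_lit 0) (XT.lf (nat_lit 0) (nat_lit 25776848482) (nat_lit 76) (nat_lit 189663664055) (nat_lit 76) (nat_lit 141740330892) (nat_lit 30) (nat_lit 4) (nat_lit 31) (nat_lit 5) (nat_lit 31) (nat_lit 4) (nat_lit 529) (nat_lit 426) (nat_lit 245)) (XT.lf (nat_lit 0) (nat_lit 215710760963) (nat_lit 76) (nat_lit 101296494586) (nat_lit 76) (nat_lit 53372827899) (nat_lit 30) (nat_lit 4) (nat_lit 31) (nat_lit 5) (nat_lit 31) (nat_lit 4) (nat_lit 530) (nat_lit 426) (nat_lit 244))))) (XT.nd (nat_lit 312) (nat_lit 228) (nat_lit 0) (XT.nd (nat_lit 156) (nat_lit 76) (nat_lit 0) (XT.nd (nat_lit 78) (nat_lit 0) (nat_lit 0) (XT.lf (nat_lit 0) (nat_lit 31285460876) (nat_lit 76) (nat_lit 7353292882) (nat_lit 152) (nat_lit 345545405939) (nat_lit 28) (nat_lit 5) (nat_lit 29) (nat_lit 5) (nat_lit 30) (nat_lit 4) (nat_lit 531)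 (nat_lit 426) (nat_lit 243)) (XT.lf (nat_lit 0) (nat_lit 137543539803) (nat_lit 152) (nat_lit 168985474770) (nat_lit 0) (nat_lit 91901361855) (nat_lit 28) (nat_lit 5) (nat_lit 30) (nat_lit 4) (nat_lit 28) (nat_lit 4) (nat_lit 532) (nat_lit 426) (nat_lit 242))) (XT.nd (nat_lit 78) (nat_lit 0) (nat_lit 0) (XT.lf (nat_lit 0) (nat_lit 24793944152) (nat_lit 76) (nat_lit 217106045481) (nat_lit 76) (nat_lit 171463593141) (nat_lit 27) (nat_lit 4) (nat_lit 28) (nat_lit 5) (nat_lit 28) (nat_lit 4) (nat_lit 533) (nat_lit 426) (nat_lit 241)) (XT.lf (nat_lit 0) (nat_lit 234126686552) (nat_lit 76) (nat_lit 120208222110) (nat_lit 76) (nat_lit 74565508444) (nat_lit 27) (nat_lit 4) (nat_lit 28) (nat_lit 5) (nat_lit 28) (nat_lit 4) (nat_lit 534) (nat_lit 426) (nat_lit 240)))) (XT.nd (nat_lit 156) (nat_lit 76) (nat_lit 0) (XT.nd (nat_lit 78) (nat_lit 0) (nat_lit 0) (XT.lf (nat_lit 0) (nat_lit 8559241618) (nat_lit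 76) (nat_lit 17880857974) (nat_lit 152) (nat_lit 418746154321) (nat_lit 25) (nat_lit 5) (nat_lit 26) (nat_lit 5) (nat_lit 27) (nat_lit 4) (nat_lit 535) (nat_lit 426) (nat_lit 239)) (XT.lf (nat_lit 0) (nat_lit 134739923274) (nat_lit 152) (nat_lit 235977639364) (nat_lit 0) (nat_lit 91270209392) (nat_lit 25) (nat_lit 5) (nat_lit 27) (nat_lit 4) (nat_lit 25) (nat_lit 4) (nat_lit 536) (nat_lit 426) (nat_lit 238))) (XT.nd (nat_lit 78) (nat_lit 76) (nat_lit 0) (XT.lf (nat_lit 0) (nat_lit 248746757661) (nat_lit 152) (nat_lit 25591178633) (nat_lit 0) (nat_lit 205276828785) (nat_lit 25) (nat_lit 5) (nat_lit 27) (nat_lit 4) (nat_lit 25) (nat_lit 4) (nat_lit 537) (nat_lit 426) (nat_lit 237)) (XT.lf (nat_lit 0) (nat_lit 201770372340) (nat_lit 76) (nat_lit 169832705925) (nat_lit 76) (nat_lit 126362572293) (nat_lit 24) (nat_lit 4) (nat_lit 25) (nat_lit 5) (nat_lit 25) (nat_lit 4) (nat_lit 538) (nat_lit 426) (nat_lit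 236)))))) (XT.nd (nat_lit 624) (nat_lit 304) (nat_lit 0) (XT.nd (nat_lit 312) (nat_lit 152) (nat_lit 0) (XT.nd (nat_lit 156) (nat_lit 76) (nat_lit 0) (XT.nd (nat_lit 78) (nat_lit 152) (nat_lit 0) (XT.lf (nat_lit 0) (nat_lit 441386358604) (nat_lit 76) (nat_lit 59648216175) (nat_lit 76) (nat_lit 16177887539) (nat_lit 24) (nat_lit 4) (nat_lit 25) (nat_lit 5) (nat_lit 25) (nat_lit 4) (nat_lit 539) (nat_lit 426) (nat_lit 235)) (XT.lf (nat_lit 0) (nat_lit 99755057716) (nat_lit 152) (nat_lit 379063094854) (nat_lit 0) (nat_lit 58354567854) (nat_lit 22) (nat_lit 5) (nat_lit 24) (nat_lit 4) (nat_lit 22) (nat_lit 4) (nat_lit 540) (nat_lit 426) (nat_lit 234))) (XT.nd (nat_lit 78) (nat_lit 76) (nat_lit 0) (XT.lf (nat_lit 0) (nat_lit 223223004887) (nat_lit 152) (nat_lit 152958277525) (nat_lit 0) (nat_lit 181822346573) (nat_lit 22) (nat_lit 5) (nat_lit 24) (nat_lit 4) (nat_lit 22) (nat_lit 4) (nat_lit 541) (nat_lit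 426) (nat_lit 233)) (XT.lf (nat_lit 0) (nat_lit 87242127343) (nat_lit 76) (nat_lit 266983358772) (nat_lit 76) (nat_lit 225582540026) (nat_lit 21) (nat_lit 4) (nat_lit 22) (nat_lit 5) (nat_lit 22) (nat_lit 4) (nat_lit 542) (nat_lit 426) (nat_lit 232)))) (XT.nd (nat_lit 156) (nat_lit 76) (nat_lit 0) (XT.nd (nat_lit 78) (nat_lit 76) (nat_lit 0) (XT.lf (nat_lit 0) (nat_lit 344761003613) (nat_lit 76) (nat_lit 149606568522) (nat_lit 76) (nat_lit 108205596985) (nat_lit 21) (nat_lit 4) (nat_lit 22) (nat_lit 5) (nat_lit 22) (nat_lit 4) (nat_lit 543) (nat_lit 426) (nat_lit 231)) (XT.lf (nat_lit 0) (nat_lit 14557901525) (nat_lit 152) (nat_lit 11557418925) (nat_lit 76) (nat_lit 600349553398) (nat_lit 20) (nat_lit 5) (nat_lit 22) (nat_lit 5) (nat_lit 21) (nat_lit 4) (nat_lit 544) (nat_lit 426) (nat_lit 230))) (XT.nd (nat_lit 78) (nat_lit 0) (nat_lit 0) (XT.lf (nat_lit 0) (nat_lit 145488304918) (nat_lit 152)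 (nat_lit 399632370765) (nat_lit 0) (nat_lit 106058537642) (nat_lit 19) (nat_lit 5) (nat_lit 21) (nat_lit 4) (nat_lit 19) (nat_lit 4) (nat_lit 545) (nat_lit 426) (nat_lit 229)) (XT.lf (nat_lit 0) (nat_lit 283591419935) (nat_lit 152) (nat_lit 149345013312) (nat_lit 0) (nat_lit 244161526957) (nat_lit 19) (nat_lit 5) (nat_lit 21) (nat_lit 4) (nat_lit 19) (nat_lit 4) (nat_lit 546) (nat_lit 426) (nat_lit 228))))) (XT.nd (nat_lit 312) (nat_lit 76) (nat_lit 0) (XT.nd (nat_lit 156) (nat_lit 152) (nat_lit 0) (XT.nd (nat_lit 78) (nat_lit 0) (nat_lit 0) (XT.lf (nat_lit 0) (nat_lit 117206365816) (nat_lit 76) (nat_lit 313222418317) (nat_lit 76) (nat_lit 273792405624) (nat_lit 18) (nat_lit 4) (nat_lit 19) (nat_lit 5) (nat_lit 19) (nat_lit 4) (nat_lit 547) (nat_lit 426) (nat_lit 227)) (XT.lf (nat_lit 0) (nat_lit 402268580788) (nat_lit 76) (nat_lit 184867852926) (nat_lit 76) (nat_lit 145437726216) (nat_lit 18)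 (nat_lit 4) (nat_lit 19) (nat_lit 5) (nat_lit 19) (nat_lit 4) (nat_lit 548) (nat_lit 426) (nat_lit 226))) (XT.nd (nat_lit 78) (nat_lit 152) (nat_lit 0) (XT.lf (nat_lit 0) (nat_lit 701582330561) (nat_lit 76) (nat_lit 50096361028) (nat_lit 76) (nat_lit 10666125733) (nat_lit 18) (nat_lit 4) (nat_lit 19) (nat_lit 5) (nat_lit 19) (nat_lit 4) (nat_lit 549) (nat_lit 426) (nat_lit 225)) (XT.lf (nat_lit 0) (nat_lit 131726235317) (nat_lit 152) (nat_lit 567348597994) (nat_lit 0) (nat_lit 94173531783) (nat_lit 16) (nat_lit 5) (nat_lit 18) (nat_lit 4) (nat_lit 16) (nat_lit 4) (nat_lit 550) (nat_lit 426) (nat_lit 224)))) (XT.nd (nat_lit 156) (nat_lit 76) (nat_lit 0) (XT.nd (nat_lit 78) (nat_lit 0) (nat_lit 0) (XT.lf (nat_lit 0) (nat_lit 282746177048) (nat_lit 152) (nat_lit 297655470047) (nat_lit 0) (nat_lit 245193379714) (nat_lit 16) (nat_lit 5) (nat_lit 18) (nat_lit 4) (nat_lit 16) (nat_lit 4) (nat_lit 551)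 (nat_lit 426) (nat_lit 223)) (XT.lf (nat_lit 0) (nat_lit 441316402454) (nat_lit 152) (nat_lit 14479139042) (nat_lit 0) (nat_lit 403763515785) (nat_lit 16) (nat_lit 5) (nat_lit 18) (nat_lit 4) (nat_lit 16) (nat_lit 4) (nat_lit 552) (nat_lit 426) (nat_lit 222))) (XT.nd (nat_lit 52650) (nat_lit 0) (nat_lit 11248) (XT.lf (nat_lit 0) (nat_lit 292207075670) (nat_lit 76) (nat_lit 320169555381) (nat_lit 76) (nat_lit 282616583632) (nat_lit 15) (nat_lit 4) (nat_lit 16) (nat_lit 5) (nat_lit 16) (nat_lit 4) (nat_lit 553) (nat_lit 426) (nat_lit 221)) (XT.nd (nat_lit 78) (nat_lit 0) (nat_lit 0) (XT.lf (nat_lit 0) (nat_lit 1426884690) (nat_lit 836) (nat_lit 3123215478) (nat_lit 836) (nat_lit 3123215478) (nat_lit 163) (nat_lit 3) (nat_lit 174) (nat_lit 3) (nat_lit 174) (nat_lit 5) (nat_lit 427) (nat_lit 427) (nat_lit 346)) (XT.lf (nat_lit 76) (nat_lit 1442204463) (nat_lit 0) (nat_lit 1785757125) (nat_lit 836)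 (nat_lit 12487171454) (nat_lit 164) (nat_lit 5) (nat_lit 163) (nat_lit 3) (nat_lit 174) (nat_lit 5) (nat_lit 428) (nat_lit 427) (nat_lit 345))))))))
noncomputable def xc303 : XT := (XT.nd (nat_lit 1248) (nat_lit 2812) (nat_lit 0) (XT.nd (nat_lit 624) (nat_lit 1748) (nat_lit 0) (XT.nd (nat_lit 312) (nat_lit 0) (nat_lit 152) (XT.nd (nat_lit 156) (nat_lit 0) (nat_lit 76) (XT.nd (nat_lit 78) (nat_lit 0) (nat_lit 0) (XT.lf (nat_lit 0) (nat_lit 3802446093) (nat_lit 760) (nat_lit 6469169336) (nat_lit 836) (nat_lit 5821366698) (nat_lit 164) (nat_lit 5) (nat_lit 174) (nat_lit 5) (nat_lit 175) (nat_lit 5) (nat_lit 429) (nat_lit 427) (nat_lit 344)) (XT.lf (nat_lit 76) (nat_lit 1740967888) (nat_lit 0) (nat_lit 2704032479) (nat_lit 836) (nat_lit 12042757342) (nat_lit 165) (nat_lit 5) (nat_lit 164) (nat_lit 5) (nat_lit 175) (nat_lit 5) (nat_lit 430) (nat_lit 427) (nat_lit 343))) (XT.nd (nat_lit 78) (nat_lit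 0) (nat_lit 0) (XT.lf (nat_lit 0) (nat_lit 5296524124) (nat_lit 760) (nat_lit 6405239398) (nat_lit 836) (nat_lit 5191667717) (nat_lit 165) (nat_lit 5) (nat_lit 175) (nat_lit 5) (nat_lit 176) (nat_lit 5) (nat_lit 431) (nat_lit 427) (nat_lit 342)) (XT.lf (nat_lit 76) (nat_lit 2374570835) (nat_lit 0) (nat_lit 3881880101) (nat_lit 836) (nat_lit 11059647361) (nat_lit 166) (nat_lit 5) (nat_lit 165) (nat_lit 5) (nat_lit 176) (nat_lit 5) (nat_lit 432) (nat_lit 427) (nat_lit 341)))) (XT.nd (nat_lit 156) (nat_lit 0) (nat_lit 76) (XT.nd (nat_lit 78) (nat_lit 0) (nat_lit 0) (XT.lf (nat_lit 0) (nat_lit 7427294259) (nat_lit 760) (nat_lit 6019239009) (nat_lit 836) (nat_lit 4305220571) (nat_lit 166) (nat_lit 5) (nat_lit 176) (nat_lit 5) (nat_lit 177) (nat_lit 5) (nat_lit 433) (nat_lit 427) (nat_lit 340)) (XT.lf (nat_lit 76) (nat_lit 3383195544) (nat_lit 0) (nat_lit 5375731569) (nat_lit 836) (nat_lit 9445153763)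 (nat_lit 167) (nat_lit 5) (nat_lit 166) (nat_lit 5) (nat_lit 177) (nat_lit 5) (nat_lit 434) (nat_lit 427) (nat_lit 339))) (XT.nd (nat_lit 78) (nat_lit 0) (nat_lit 0) (XT.lf (nat_lit 0) (nat_lit 10295482760) (nat_lit 760) (nat_lit 5270430081) (nat_lit 836) (nat_lit 3106195397) (nat_lit 167) (nat_lit 5) (nat_lit 177) (nat_lit 5) (nat_lit 178) (nat_lit 5) (nat_lit 435) (nat_lit 427) (nat_lit 338)) (XT.lf (nat_lit 76) (nat_lit 4812813806) (nat_lit 0) (nat_lit 7246323793) (nat_lit 836) (nat_lit 7096886785) (nat_lit 168) (nat_lit 5) (nat_lit 167) (nat_lit 5) (nat_lit 178) (nat_lit 5) (nat_lit 436) (nat_lit 427) (nat_lit 337))))) (XT.nd (nat_lit 312) (nat_lit 760) (nat_lit 0) (XT.nd (nat_lit 156) (nat_lit 532) (nat_lit 0) (XT.nd (nat_lit 78) (nat_lit 760) (nat_lit 0) (XT.lf (nat_lit 0) (nat_lit 14012437729) (nat_lit 760) (nat_lit 4112326678) (nat_lit 76) (nat_lit 1534299741) (nat_lit 168) (nat_lit 5)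 (nat_lit 178) (nat_lit 5) (nat_lit 169) (nat_lit 5) (nat_lit 437) (nat_lit 427) (nat_lit 336)) (XT.lf (nat_lit 0) (nat_lit 6715646118) (nat_lit 760) (nat_lit 9559485420) (nat_lit 836) (nat_lit 3901538819) (nat_lit 158) (nat_lit 5) (nat_lit 168) (nat_lit 5) (nat_lit 169) (nat_lit 5) (nat_lit 438) (nat_lit 427) (nat_lit 335))) (XT.nd (nat_lit 78) (nat_lit 532) (nat_lit 0) (XT.lf (nat_lit 0) (nat_lit 18217353591) (nat_lit 760) (nat_lit 491741514) (nat_lit 836) (nat_lit 2008155871) (nat_lit 158) (nat_lit 5) (nat_lit 168) (nat_lit 5) (nat_lit 169) (nat_lit 5) (nat_lit 439) (nat_lit 427) (nat_lit 334)) (XT.lf (nat_lit 0) (nat_lit 257909427) (nat_lit 532) (nat_lit 12124688132) (nat_lit 76) (nat_lit 8888411043) (nat_lit 151) (nat_lit 5) (nat_lit 158) (nat_lit 5) (nat_lit 152) (nat_lit 5) (nat_lit 440) (nat_lit 427) (nat_lit 333)))) (XT.nd (nat_lit 156) (nat_lit 380) (nat_lit 0) (XT.nd (nat_lit 78) (nat_lit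 380) (nat_lit 0) (XT.lf (nat_lit 0) (nat_lit 2610123590) (nat_lit 532) (nat_lit 441062934) (nat_lit 76) (nat_lit 18797605649) (nat_lit 151) (nat_lit 5) (nat_lit 158) (nat_lit 5) (nat_lit 152) (nat_lit 5) (nat_lit 441) (nat_lit 427) (nat_lit 332)) (XT.lf (nat_lit 0) (nat_lit 5368752832) (nat_lit 456) (nat_lit 10347638560) (nat_lit 76) (nat_lit 6724634013) (nat_lit 146) (nat_lit 5) (nat_lit 152) (nat_lit 5) (nat_lit 147) (nat_lit 5) (nat_lit 442) (nat_lit 427) (nat_lit 331))) (XT.nd (nat_lit 78) (nat_lit 0) (nat_lit 0) (XT.lf (nat_lit 0) (nat_lit 2217702071) (nat_lit 380) (nat_lit 6129930336) (nat_lit 456) (nat_lit 14711122615) (nat_lit 141) (nat_lit 5) (nat_lit 146) (nat_lit 5) (nat_lit 147) (nat_lit 5) (nat_lit 443) (nat_lit 427) (nat_lit 330)) (XT.lf (nat_lit 0) (nat_lit 11705402869) (nat_lit 456) (nat_lit 8003186438) (nat_lit 76) (nat_lit 3987285100) (nat_lit 141) (nat_lit 5) (nat_lit 147) (nat_lit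 5) (nat_lit 142) (nat_lit 5) (nat_lit 444) (nat_lit 427) (nat_lit 329)))))) (XT.nd (nat_lit 624) (nat_lit 1292) (nat_lit 0) (XT.nd (nat_lit 312) (nat_lit 836) (nat_lit 0) (XT.nd (nat_lit 156) (nat_lit 380) (nat_lit 0) (XT.nd (nat_lit 78) (nat_lit 0) (nat_lit 0) (XT.lf (nat_lit 0) (nat_lit 5543203406) (nat_lit 304) (nat_lit 9865734154) (nat_lit 380) (nat_lit 8947019021) (nat_lit 137) (nat_lit 5) (nat_lit 141) (nat_lit 5) (nat_lit 142) (nat_lit 5) (nat_lit 445) (nat_lit 427) (nat_lit 328)) (XT.lf (nat_lit 0) (nat_lit 19433833909) (nat_lit 380) (nat_lit 5017604685) (nat_lit 76) (nat_lit 590795600) (nat_lit 137) (nat_lit 5) (nat_lit 142) (nat_lit 5) (nat_lit 138) (nat_lit 5) (nat_lit 446) (nat_lit 427) (nat_lit 327))) (XT.nd (nat_lit 78) (nat_lit 76) (nat_lit 0) (XT.lf (nat_lit 0) (nat_lit 9602866670) (nat_lit 304) (nat_lit 14360291920) (nat_lit 380) (nat_lit 1784508467) (nat_lit 133) (nat_lit 5) (nat_lit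 137) (nat_lit 5) (nat_lit 138) (nat_lit 5) (nat_lit 447) (nat_lit 427) (nat_lit 326)) (XT.lf (nat_lit 0) (nat_lit 2237190502) (nat_lit 380) (nat_lit 1401947715) (nat_lit 76) (nat_lit 22843592318) (nat_lit 132) (nat_lit 5) (nat_lit 137) (nat_lit 5) (nat_lit 133) (nat_lit 5) (nat_lit 448) (nat_lit 427) (nat_lit 325)))) (XT.nd (nat_lit 156) (nat_lit 228) (nat_lit 0) (XT.nd (nat_lit 78) (nat_lit 304) (nat_lit 0) (XT.lf (nat_lit 0) (nat_lit 6741579446) (nat_lit 380) (nat_lit 12861959565) (nat_lit 76) (nat_lit 7632467125) (nat_lit 128) (nat_lit 5) (nat_lit 133) (nat_lit 5) (nat_lit 129) (nat_lit 5) (nat_lit 449) (nat_lit 427) (nat_lit 324)) (XT.lf (nat_lit 0) (nat_lit 2987437430) (nat_lit 304) (nat_lit 8606419782) (nat_lit 380) (nat_lit 16426955290) (nat_lit 124) (nat_lit 5) (nat_lit 128) (nat_lit 5) (nat_lit 129) (nat_lit 5) (nat_lit 450) (nat_lit 427) (nat_lit 323))) (XT.nd (nat_lit 78) (nat_lit 228)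 (nat_lit 0) (XT.lf (nat_lit 0) (nat_lit 16948474494) (nat_lit 380) (nat_lit 8817677519) (nat_lit 76) (nat_lit 3065721318) (nat_lit 124) (nat_lit 5) (nat_lit 129) (nat_lit 5) (nat_lit 125) (nat_lit 5) (nat_lit 451) (nat_lit 427) (nat_lit 322)) (XT.lf (nat_lit 0) (nat_lit 8324562830) (nat_lit 228) (nat_lit 14510100254) (nat_lit 304) (nat_lit 6835632507) (nat_lit 121) (nat_lit 5) (nat_lit 124) (nat_lit 5) (nat_lit 125) (nat_lit 5) (nat_lit 452) (nat_lit 427) (nat_lit 321))))) (XT.nd (nat_lit 312) (nat_lit 684) (nat_lit 0) (XT.nd (nat_lit 156) (nat_lit 228) (nat_lit 0) (XT.nd (nat_lit 78) (nat_lit 380) (nat_lit 0) (XT.lf (nat_lit 0) (nat_lit 26620608519) (nat_lit 228) (nat_lit 2536862450) (nat_lit 304) (nat_lit 1386052889) (nat_lit 121) (nat_lit 5) (nat_lit 124) (nat_lit 5) (nat_lit 125) (nat_lit 5) (nat_lit 453) (nat_lit 427) (nat_lit 320)) (XT.lf (nat_lit 0) (nat_lit 4582506257) (nat_lit 380) (nat_lit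 16840605958) (nat_lit 76) (nat_lit 10014652829) (nat_lit 116) (nat_lit 5) (nat_lit 121) (nat_lit 5) (nat_lit 117) (nat_lit 5) (nat_lit 454) (nat_lit 427) (nat_lit 319))) (XT.nd (nat_lit 78) (nat_lit 0) (nat_lit 0) (XT.lf (nat_lit 0) (nat_lit 1788523686) (nat_lit 228) (nat_lit 9144773136) (nat_lit 304) (nat_lit 21435766495) (nat_lit 113) (nat_lit 5) (nat_lit 116) (nat_lit 5) (nat_lit 117) (nat_lit 5) (nat_lit 455) (nat_lit 427) (nat_lit 318)) (XT.lf (nat_lit 0) (nat_lit 17943492025) (nat_lit 304) (nat_lit 11471560312) (nat_lit 76) (nat_lit 3914781234) (nat_lit 113) (nat_lit 5) (nat_lit 117) (nat_lit 5) (nat_lit 114) (nat_lit 5) (nat_lit 456) (nat_lit 427) (nat_lit 317)))) (XT.nd (nat_lit 156) (nat_lit 456) (nat_lit 0) (XT.nd (nat_lit 78) (nat_lit 0) (nat_lit 0) (XT.lf (nat_lit 0) (nat_lit 8712781422) (nat_lit 228) (nat_lit 16871148543) (nat_lit 304) (nat_lit 8740726029) (nat_lit 110) (nat_lit 5)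 (nat_lit 113) (nat_lit 5) (nat_lit 114) (nat_lit 5) (nat_lit 457) (nat_lit 427) (nat_lit 316)) (XT.lf (nat_lit 0) (nat_lit 30295716994) (nat_lit 228) (nat_lit 3498893986) (nat_lit 304) (nat_lit 1565197789) (nat_lit 110) (nat_lit 5) (nat_lit 113) (nat_lit 5) (nat_lit 114) (nat_lit 5) (nat_lit 458) (nat_lit 427) (nat_lit 315))) (XT.nd (nat_lit 78) (nat_lit 228) (nat_lit 0) (XT.lf (nat_lit 0) (nat_lit 6207273971) (nat_lit 228) (nat_lit 19647744065) (nat_lit 76) (nat_lit 10565580895) (nat_lit 107) (nat_lit 5) (nat_lit 110) (nat_lit 5) (nat_lit 108) (nat_lit 5) (nat_lit 459) (nat_lit 427) (nat_lit 314)) (XT.nd (nat_lit 78) (nat_lit 0) (nat_lit 0) (XT.lf (nat_lit 0) (nat_lit 2328667041) (nat_lit 228) (nat_lit 12162226684) (nat_lit 304) (nat_lit 23033495915) (nat_lit 104) (nat_lit 5) (nat_lit 107) (nat_lit 5) (nat_lit 108) (nat_lit 5) (nat_lit 460) (nat_lit 427) (nat_lit 313)) (XT.lf (nat_lit 0) (nat_lit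 23555812246) (nat_lit 304) (nat_lit 12629605262) (nat_lit 76) (nat_lit 2479596725) (nat_lit 104) (nat_lit 5) (nat_lit 108) (nat_lit 5) (nat_lit 105) (nat_lit 5) (nat_lit 461) (nat_lit 427) (nat_lit 312))))))))
noncomputable def xc304 : XT := (XT.nd (nat_lit 1248) (nat_lit 1368) (nat_lit 0) (XT.nd (nat_lit 624) (nat_lit 836) (nat_lit 0) (XT.nd (nat_lit 312) (nat_lit 380) (nat_lit 0) (XT.nd (nat_lit 156) (nat_lit 380) (nat_lit 0) (XT.nd (nat_lit 78) (nat_lit 76) (nat_lit 0) (XT.lf (nat_lit 0) (nat_lit 11215984215) (nat_lit 152) (nat_lit 22227089389) (nat_lit 228) (nat_lit 6401141834) (nat_lit 102) (nat_lit 5) (nat_lit 104) (nat_lit 5) (nat_lit 105) (nat_lit 5) (nat_lit 462) (nat_lit 427) (nat_lit 311)) (XT.lf (nat_lit 0) (nat_lit 2866588798) (nat_lit 228) (nat_lit 4434155186) (nat_lit 76) (nat_lit 33768890216) (nat_lit 101) (nat_lit 5) (nat_lit 104) (nat_lit 5) (nat_lit 102) (nat_lit 5) (nat_lit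 463) (nat_lit 427) (nat_lit 310))) (XT.nd (nat_lit 78) (nat_lit 152) (nat_lit 0) (XT.lf (nat_lit 0) (nat_lit 12851779434) (nat_lit 304) (nat_lit 20926180500) (nat_lit 76) (nat_lit 8549657633) (nat_lit 98) (nat_lit 5) (nat_lit 102) (nat_lit 5) (nat_lit 99) (nat_lit 5) (nat_lit 464) (nat_lit 427) (nat_lit 309)) (XT.lf (nat_lit 0) (nat_lit 5071258952) (nat_lit 152) (nat_lit 18535128936) (nat_lit 228) (nat_lit 20028604488) (nat_lit 96) (nat_lit 5) (nat_lit 98) (nat_lit 5) (nat_lit 99) (nat_lit 5) (nat_lit 465) (nat_lit 427) (nat_lit 308)))) (XT.nd (nat_lit 156) (nat_lit 152) (nat_lit 0) (XT.nd (nat_lit 78) (nat_lit 228) (nat_lit 0) (XT.lf (nat_lit 0) (nat_lit 33087066453) (nat_lit 152) (nat_lit 2161141402) (nat_lit 228) (nat_lit 9742054196) (nat_lit 96) (nat_lit 5) (nat_lit 98) (nat_lit 5) (nat_lit 99) (nat_lit 5) (nat_lit 466) (nat_lit 427) (nat_lit 307)) (XT.lf (nat_lit 0) (nat_lit 1518463898) (nat_lit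 228) (nat_lit 30041641864) (nat_lit 76) (nat_lit 14827686586) (nat_lit 93) (nat_lit 5) (nat_lit 96) (nat_lit 5) (nat_lit 94) (nat_lit 5) (nat_lit 467) (nat_lit 427) (nat_lit 306))) (XT.nd (nat_lit 78) (nat_lit 152) (nat_lit 0) (XT.lf (nat_lit 0) (nat_lit 13250233624) (nat_lit 228) (nat_lit 1630192402) (nat_lit 76) (nat_lit 32955006865) (nat_lit 93) (nat_lit 5) (nat_lit 96) (nat_lit 5) (nat_lit 94) (nat_lit 5) (nat_lit 468) (nat_lit 427) (nat_lit 305)) (XT.lf (nat_lit 0) (nat_lit 26067386382) (nat_lit 228) (nat_lit 20254875592) (nat_lit 76) (nat_lit 3008253908) (nat_lit 91) (nat_lit 5) (nat_lit 94) (nat_lit 5) (nat_lit 92) (nat_lit 5) (nat_lit 469) (nat_lit 427) (nat_lit 304))))) (XT.nd (nat_lit 312) (nat_lit 304) (nat_lit 0) (XT.nd (nat_lit 156) (nat_lit 304) (nat_lit 0) (XT.nd (nat_lit 78) (nat_lit 76) (nat_lit 0) (XT.lf (nat_lit 0) (nat_lit 10560468056) (nat_lit 152) (nat_lit 29397387655) (nat_lit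 228) (nat_lit 10920874504) (nat_lit 89) (nat_lit 5) (nat_lit 91) (nat_lit 5) (nat_lit 92) (nat_lit 5) (nat_lit 470) (nat_lit 427) (nat_lit 303)) (XT.lf (nat_lit 0) (nat_lit 2317500426) (nat_lit 228) (nat_lit 8912423097) (nat_lit 76) (nat_lit 41255627955) (nat_lit 88) (nat_lit 5) (nat_lit 91) (nat_lit 5) (nat_lit 89) (nat_lit 5) (nat_lit 471) (nat_lit 427) (nat_lit 302))) (XT.nd (nat_lit 78) (nat_lit 152) (nat_lit 0) (XT.lf (nat_lit 0) (nat_lit 16363411648) (nat_lit 228) (nat_lit 29609431278) (nat_lit 76) (nat_lit 8165287934) (nat_lit 86) (nat_lit 5) (nat_lit 89) (nat_lit 5) (nat_lit 87) (nat_lit 5) (nat_lit 472) (nat_lit 427) (nat_lit 301)) (XT.lf (nat_lit 0) (nat_lit 4020376268) (nat_lit 152) (nat_lit 27487373290) (nat_lit 228) (nat_lit 24345783213) (nat_lit 84) (nat_lit 5) (nat_lit 86) (nat_lit 5) (nat_lit 87) (nat_lit 5) (nat_lit 473) (nat_lit 427) (nat_lit 300)))) (XT.nd (nat_lit 156) (nat_lit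 152) (nat_lit 0) (XT.nd (nat_lit 78) (nat_lit 152) (nat_lit 0) (XT.lf (nat_lit 0) (nat_lit 40352528863) (nat_lit 152) (nat_lit 7554165956) (nat_lit 228) (nat_lit 9723140544) (nat_lit 84) (nat_lit 5) (nat_lit 86) (nat_lit 5) (nat_lit 87) (nat_lit 5) (nat_lit 474) (nat_lit 427) (nat_lit 299)) (XT.lf (nat_lit 0) (nat_lit 5966740729) (nat_lit 152) (nat_lit 40153913004) (nat_lit 76) (nat_lit 13344087856) (nat_lit 82) (nat_lit 5) (nat_lit 84) (nat_lit 5) (nat_lit 83) (nat_lit 5) (nat_lit 475) (nat_lit 427) (nat_lit 298))) (XT.nd (nat_lit 78) (nat_lit 152) (nat_lit 0) (XT.lf (nat_lit 0) (nat_lit 22531695035) (nat_lit 152) (nat_lit 3343538967) (nat_lit 76) (nat_lit 35487322419) (nat_lit 82) (nat_lit 5) (nat_lit 84) (nat_lit 5) (nat_lit 83) (nat_lit 5) (nat_lit 476) (nat_lit 427) (nat_lit 297)) (XT.lf (nat_lit 0) (nat_lit 36467942274) (nat_lit 152) (nat_lit 4022612233) (nat_lit 228) (nat_lit 22836424706)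 (nat_lit 80) (nat_lit 5) (nat_lit 82) (nat_lit 5) (nat_lit 83) (nat_lit 5) (nat_lit 477) (nat_lit 427) (nat_lit 296)))))) (XT.nd (nat_lit 624) (nat_lit 684) (nat_lit 0) (XT.nd (nat_lit 312) (nat_lit 304) (nat_lit 0) (XT.nd (nat_lit 156) (nat_lit 228) (nat_lit 0) (XT.nd (nat_lit 78) (nat_lit 76) (nat_lit 0) (XT.lf (nat_lit 0) (nat_lit 13116074676) (nat_lit 76) (nat_lit 46785370000) (nat_lit 152) (nat_lit 5460474167) (nat_lit 79) (nat_lit 5) (nat_lit 80) (nat_lit 5) (nat_lit 81) (nat_lit 4) (nat_lit 478) (nat_lit 427) (nat_lit 295)) (XT.lf (nat_lit 0) (nat_lit 12899704261) (nat_lit 152) (nat_lit 11733092425) (nat_lit 76) (nat_lit 42829598582) (nat_lit 78) (nat_lit 5) (nat_lit 80) (nat_lit 5) (nat_lit 79) (nat_lit 5) (nat_lit 479) (nat_lit 427) (nat_lit 294))) (XT.nd (nat_lit 78) (nat_lit 76) (nat_lit 0) (XT.lf (nat_lit 0) (nat_lit 31724832961) (nat_lit 152) (nat_lit 761373815) (nat_lit 228) (nat_lit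 37152621867) (nat_lit 76) (nat_lit 5) (nat_lit 78) (nat_lit 5) (nat_lit 79) (nat_lit 5) (nat_lit 480) (nat_lit 427) (nat_lit 293)) (XT.lf (nat_lit 0) (nat_lit 5640306969) (nat_lit 76) (nat_lit 48077733333) (nat_lit 152) (nat_lit 18172743164) (nat_lit 75) (nat_lit 5) (nat_lit 76) (nat_lit 5) (nat_lit 77) (nat_lit 4) (nat_lit 481) (nat_lit 427) (nat_lit 292)))) (XT.nd (nat_lit 156) (nat_lit 76) (nat_lit 0) (XT.nd (nat_lit 78) (nat_lit 152) (nat_lit 0) (XT.lf (nat_lit 0) (nat_lit 2361567534) (nat_lit 152) (nat_lit 21591421376) (nat_lit 76) (nat_lit 50267894018) (nat_lit 74) (nat_lit 5) (nat_lit 76) (nat_lit 5) (nat_lit 75) (nat_lit 5) (nat_lit 482) (nat_lit 427) (nat_lit 291)) (XT.lf (nat_lit 0) (nat_lit 23744715608) (nat_lit 228) (nat_lit 50842462204) (nat_lit 76) (nat_lit 2043771663) (nat_lit 72) (nat_lit 5) (nat_lit 75) (nat_lit 5) (nat_lit 73) (nat_lit 4) (nat_lit 483) (nat_lit 427) (nat_lit 290)))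 (XT.nd (nat_lit 78) (nat_lit 76) (nat_lit 0) (XT.lf (nat_lit 0) (nat_lit 46958079255) (nat_lit 228) (nat_lit 3261000034) (nat_lit 76) (nat_lit 28904387210) (nat_lit 72) (nat_lit 5) (nat_lit 75) (nat_lit 5) (nat_lit 73) (nat_lit 4) (nat_lit 484) (nat_lit 427) (nat_lit 289)) (XT.lf (nat_lit 0) (nat_lit 48237636977) (nat_lit 76) (nat_lit 23844485096) (nat_lit 152) (nat_lit 9620986807) (nat_lit 71) (nat_lit 5) (nat_lit 72) (nat_lit 5) (nat_lit 73) (nat_lit 4) (nat_lit 485) (nat_lit 427) (nat_lit 288))))) (XT.nd (nat_lit 312) (nat_lit 228) (nat_lit 0) (XT.nd (nat_lit 156) (nat_lit 228) (nat_lit 0) (XT.nd (nat_lit 78) (nat_lit 0) (nat_lit 0) (XT.lf (nat_lit 0) (nat_lit 14010147032) (nat_lit 228) (nat_lit 66075479495) (nat_lit 76) (nat_lit 4294677345) (nat_lit 68) (nat_lit 5) (nat_lit 71) (nat_lit 5) (nat_lit 69) (nat_lit 4) (nat_lit 486) (nat_lit 427) (nat_lit 287)) (XT.lf (nat_lit 0) (nat_lit 39463359624)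 (nat_lit 228) (nat_lit 13901275026) (nat_lit 76) (nat_lit 33770645440) (nat_lit 68) (nat_lit 5) (nat_lit 71) (nat_lit 5) (nat_lit 69) (nat_lit 4) (nat_lit 487) (nat_lit 427) (nat_lit 286))) (XT.nd (nat_lit 78) (nat_lit 152) (nat_lit 0) (XT.lf (nat_lit 0) (nat_lit 42227635470) (nat_lit 76) (nat_lit 24617948250) (nat_lit 152) (nat_lit 23149603902) (nat_lit 67) (nat_lit 5) (nat_lit 68) (nat_lit 5) (nat_lit 69) (nat_lit 4) (nat_lit 488) (nat_lit 427) (nat_lit 285)) (XT.lf (nat_lit 0) (nat_lit 2984585421) (nat_lit 152) (nat_lit 84177065297) (nat_lit 76) (nat_lit 5810964321) (nat_lit 65) (nat_lit 5) (nat_lit 67) (nat_lit 5) (nat_lit 66) (nat_lit 4) (nat_lit 489) (nat_lit 427) (nat_lit 284)))) (XT.nd (nat_lit 156) (nat_lit 152) (nat_lit 0) (XT.nd (nat_lit 78) (nat_lit 76) (nat_lit 0) (XT.lf (nat_lit 0) (nat_lit 30870387372) (nat_lit 152) (nat_lit 27015187191) (nat_lit 76) (nat_lit 38133220134) (nat_lit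 65) (nat_lit 5) (nat_lit 67) (nat_lit 5) (nat_lit 66) (nat_lit 4) (nat_lit 490) (nat_lit 427) (nat_lit 283)) (XT.lf (nat_lit 0) (nat_lit 34090588353) (nat_lit 76) (nat_lit 26589360095) (nat_lit 152) (nat_lit 38510861476) (nat_lit 64) (nat_lit 5) (nat_lit 65) (nat_lit 5) (nat_lit 66) (nat_lit 4) (nat_lit 491) (nat_lit 427) (nat_lit 282))) (XT.nd (nat_lit 78) (nat_lit 152) (nat_lit 0) (XT.lf (nat_lit 0) (nat_lit 92540152718) (nat_lit 152) (nat_lit 3419729876) (nat_lit 0) (nat_lit 6533535098) (nat_lit 64) (nat_lit 5) (nat_lit 66) (nat_lit 4) (nat_lit 64) (nat_lit 4) (nat_lit 492) (nat_lit 427) (nat_lit 281)) (XT.lf (nat_lit 0) (nat_lit 20829835743) (nat_lit 152) (nat_lit 43308758233) (nat_lit 76) (nat_lit 41734984944) (nat_lit 62) (nat_lit 5) (nat_lit 64) (nat_lit 5) (nat_lit 63) (nat_lit 4) (nat_lit 493) (nat_lit 427) (nat_lit 280)))))))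
noncomputable def xc305 : XT := (XT.nd (nat_lit 1248) (nat_lit 1064) (nat_lit 0) (XT.nd (nat_lit 624) (nat_lit 532) (nat_lit 0) (XT.nd (nat_lit 312) (nat_lit 228) (nat_lit 0) (XT.nd (nat_lit 156) (nat_lit 228) (nat_lit 0) (XT.nd (nat_lit 78) (nat_lit 0) (nat_lit 0) (XT.lf (nat_lit 0) (nat_lit 23118208809) (nat_lit 76) (nat_lit 30116560397) (nat_lit 152) (nat_lit 56158961984) (nat_lit 61) (nat_lit 5) (nat_lit 62) (nat_lit 5) (nat_lit 63) (nat_lit 4) (nat_lit 494) (nat_lit 427) (nat_lit 279)) (XT.lf (nat_lit 0) (nat_lit 88090340596) (nat_lit 152) (nat_lit 18787752053) (nat_lit 0) (nat_lit 6170278893) (nat_lit 61) (nat_lit 5) (nat_lit 63) (nat_lit 4) (nat_lit 61) (nat_lit 4) (nat_lit 495) (nat_lit 427) (nat_lit 278))) (XT.nd (nat_lit 78) (nat_lit 76) (nat_lit 0) (XT.lf (nat_lit 0) (nat_lit 8897979344) (nat_lit 152) (nat_lit 63681922162) (nat_lit 76) (nat_lit 44232512354) (nat_lit 59) (nat_lit 5) (nat_lit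 61) (nat_lit 5) (nat_lit 60) (nat_lit 4) (nat_lit 496) (nat_lit 427) (nat_lit 277)) (XT.lf (nat_lit 0) (nat_lit 8397738223) (nat_lit 76) (nat_lit 35662313836) (nat_lit 152) (nat_lit 76661548085) (nat_lit 58) (nat_lit 5) (nat_lit 59) (nat_lit 5) (nat_lit 60) (nat_lit 4) (nat_lit 497) (nat_lit 427) (nat_lit 276)))) (XT.nd (nat_lit 156) (nat_lit 152) (nat_lit 0) (XT.nd (nat_lit 78) (nat_lit 76) (nat_lit 0) (XT.lf (nat_lit 0) (nat_lit 82122325875) (nat_lit 152) (nat_lit 38550997632) (nat_lit 0) (nat_lit 4095817388) (nat_lit 58) (nat_lit 5) (nat_lit 60) (nat_lit 4) (nat_lit 58) (nat_lit 4) (nat_lit 498) (nat_lit 427) (nat_lit 275)) (XT.lf (nat_lit 0) (nat_lit 39588334275) (nat_lit 76) (nat_lit 83699725889) (nat_lit 76) (nat_lit 5670981202) (nat_lit 57) (nat_lit 4) (nat_lit 58) (nat_lit 5) (nat_lit 58) (nat_lit 4) (nat_lit 499) (nat_lit 427) (nat_lit 274))) (XT.nd (nat_lit 78) (nat_lit 76) (nat_lit 0)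 (XT.lf (nat_lit 0) (nat_lit 32753740787) (nat_lit 152) (nat_lit 10885705787) (nat_lit 76) (nat_lit 89660048236) (nat_lit 56) (nat_lit 5) (nat_lit 58) (nat_lit 5) (nat_lit 57) (nat_lit 4) (nat_lit 500) (nat_lit 427) (nat_lit 273)) (XT.lf (nat_lit 0) (nat_lit 73787845764) (nat_lit 76) (nat_lit 271055926) (nat_lit 152) (nat_lit 63735931662) (nat_lit 55) (nat_lit 5) (nat_lit 56) (nat_lit 5) (nat_lit 57) (nat_lit 4) (nat_lit 501) (nat_lit 427) (nat_lit 272))))) (XT.nd (nat_lit 312) (nat_lit 304) (nat_lit 0) (XT.nd (nat_lit 156) (nat_lit 76) (nat_lit 0) (XT.nd (nat_lit 78) (nat_lit 76) (nat_lit 0) (XT.lf (nat_lit 0) (nat_lit 20509556175) (nat_lit 76) (nat_lit 98131834540) (nat_lit 76) (nat_lit 23812944620) (nat_lit 54) (nat_lit 4) (nat_lit 55) (nat_lit 5) (nat_lit 55) (nat_lit 4) (nat_lit 502) (nat_lit 427) (nat_lit 271)) (XT.lf (nat_lit 0) (nat_lit 18630642892) (nat_lit 152) (nat_lit 36127824112) (nat_lit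 76) (nat_lit 92519012896) (nat_lit 53) (nat_lit 5) (nat_lit 55) (nat_lit 5) (nat_lit 54) (nat_lit 4) (nat_lit 503) (nat_lit 427) (nat_lit 270))) (XT.nd (nat_lit 78) (nat_lit 0) (nat_lit 0) (XT.lf (nat_lit 0) (nat_lit 55357173911) (nat_lit 76) (nat_lit 7901111278) (nat_lit 152) (nat_lit 89020870387) (nat_lit 52) (nat_lit 5) (nat_lit 53) (nat_lit 5) (nat_lit 54) (nat_lit 4) (nat_lit 504) (nat_lit 427) (nat_lit 269)) (XT.lf (nat_lit 0) (nat_lit 111381847957) (nat_lit 152) (nat_lit 5488658844) (nat_lit 0) (nat_lit 40597181334) (nat_lit 52) (nat_lit 5) (nat_lit 54) (nat_lit 4) (nat_lit 52) (nat_lit 4) (nat_lit 505) (nat_lit 427) (nat_lit 268)))) (XT.nd (nat_lit 156) (nat_lit 76) (nat_lit 0) (XT.nd (nat_lit 78) (nat_lit 76) (nat_lit 0) (XT.lf (nat_lit 0) (nat_lit 639351857) (nat_lit 152) (nat_lit 69475436789) (nat_lit 76) (nat_lit 92721078788) (nat_lit 50) (nat_lit 5) (nat_lit 52) (nat_lit 5) (nat_lit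 51) (nat_lit 4) (nat_lit 506) (nat_lit 427) (nat_lit 267)) (XT.lf (nat_lit 0) (nat_lit 29043245206) (nat_lit 76) (nat_lit 19654669982) (nat_lit 152) (nat_lit 119709470339) (nat_lit 49) (nat_lit 5) (nat_lit 50) (nat_lit 5) (nat_lit 51) (nat_lit 4) (nat_lit 507) (nat_lit 427) (nat_lit 266))) (XT.nd (nat_lit 78) (nat_lit 76) (nat_lit 0) (XT.lf (nat_lit 0) (nat_lit 100873624979) (nat_lit 152) (nat_lit 39842412370) (nat_lit 0) (nat_lit 33455731274) (nat_lit 49) (nat_lit 5) (nat_lit 51) (nat_lit 4) (nat_lit 49) (nat_lit 4) (nat_lit 508) (nat_lit 427) (nat_lit 265)) (XT.lf (nat_lit 0) (nat_lit 66456389647) (nat_lit 76) (nat_lit 90559584087) (nat_lit 76) (nat_lit 23140504477) (nat_lit 48) (nat_lit 4) (nat_lit 49) (nat_lit 5) (nat_lit 49) (nat_lit 4) (nat_lit 509) (nat_lit 427) (nat_lit 264)))))) (XT.nd (nat_lit 624) (nat_lit 456) (nat_lit 0) (XT.nd (nat_lit 312) (nat_lit 304) (nat_lit 0) (XT.nd (nat_lit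 156) (nat_lit 152) (nat_lit 0) (XT.nd (nat_lit 78) (nat_lit 76) (nat_lit 0) (XT.lf (nat_lit 0) (nat_lit 29263920914) (nat_lit 152) (nat_lit 7429171168) (nat_lit 76) (nat_lit 149690088337) (nat_lit 47) (nat_lit 5) (nat_lit 49) (nat_lit 5) (nat_lit 48) (nat_lit 4) (nat_lit 510) (nat_lit 427) (nat_lit 263)) (XT.lf (nat_lit 0) (nat_lit 85526614634) (nat_lit 152) (nat_lit 85958982193) (nat_lit 0) (nat_lit 21315867307) (nat_lit 46) (nat_lit 5) (nat_lit 48) (nat_lit 4) (nat_lit 46) (nat_lit 4) (nat_lit 511) (nat_lit 427) (nat_lit 262))) (XT.nd (nat_lit 78) (nat_lit 76) (nat_lit 0) (XT.lf (nat_lit 0) (nat_lit 27834926141) (nat_lit 76) (nat_lit 117929675474) (nat_lit 76) (nat_lit 53717952500) (nat_lit 45) (nat_lit 4) (nat_lit 46) (nat_lit 5) (nat_lit 46) (nat_lit 4) (nat_lit 512) (nat_lit 427) (nat_lit 261)) (XT.lf (nat_lit 0) (nat_lit 3914031843) (nat_lit 152) (nat_lit 56188886882) (nat_lit 76) (nat_lit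 146318925400) (nat_lit 44) (nat_lit 5) (nat_lit 46) (nat_lit 5) (nat_lit 45) (nat_lit 4) (nat_lit 513) (nat_lit 427) (nat_lit 260)))) (XT.nd (nat_lit 156) (nat_lit 228) (nat_lit 0) (XT.nd (nat_lit 78) (nat_lit 0) (nat_lit 0) (XT.lf (nat_lit 0) (nat_lit 63696396388) (nat_lit 152) (nat_lit 147373321558) (nat_lit 0) (nat_lit 2540646766) (nat_lit 43) (nat_lit 5) (nat_lit 45) (nat_lit 4) (nat_lit 43) (nat_lit 4) (nat_lit 514) (nat_lit 427) (nat_lit 259)) (XT.lf (nat_lit 0) (nat_lit 128418622047) (nat_lit 152) (nat_lit 25380082387) (nat_lit 0) (nat_lit 67262069759) (nat_lit 43) (nat_lit 5) (nat_lit 45) (nat_lit 4) (nat_lit 43) (nat_lit 4) (nat_lit 515) (nat_lit 427) (nat_lit 258))) (XT.nd (nat_lit 78) (nat_lit 152) (nat_lit 0) (XT.lf (nat_lit 0) (nat_lit 106105546682) (nat_lit 76) (nat_lit 91926363328) (nat_lit 76) (nat_lit 30769046595) (nat_lit 42) (nat_lit 4) (nat_lit 43) (nat_lit 5) (nat_lit 43) (nat_lit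 4) (nat_lit 516) (nat_lit 427) (nat_lit 257)) (XT.lf (nat_lit 0) (nat_lit 7846804280) (nat_lit 76) (nat_lit 25814097698) (nat_lit 152) (nat_lit 203212663652) (nat_lit 40) (nat_lit 5) (nat_lit 41) (nat_lit 5) (nat_lit 42) (nat_lit 4) (nat_lit 517) (nat_lit 427) (nat_lit 256))))) (XT.nd (nat_lit 312) (nat_lit 228) (nat_lit 0) (XT.nd (nat_lit 156) (nat_lit 152) (nat_lit 0) (XT.nd (nat_lit 78) (nat_lit 76) (nat_lit 0) (XT.lf (nat_lit 0) (nat_lit 103069403213) (nat_lit 152) (nat_lit 97292640591) (nat_lit 0) (nat_lit 44822985928) (nat_lit 40) (nat_lit 5) (nat_lit 42) (nat_lit 4) (nat_lit 40) (nat_lit 4) (nat_lit 518) (nat_lit 427) (nat_lit 255)) (XT.lf (nat_lit 0) (nat_lit 41944326867) (nat_lit 76) (nat_lit 135080481224) (nat_lit 76) (nat_lit 76833435028) (nat_lit 39) (nat_lit 4) (nat_lit 40) (nat_lit 5) (nat_lit 40) (nat_lit 4) (nat_lit 519) (nat_lit 427) (nat_lit 254))) (XT.nd (nat_lit 78) (nat_lit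 152) (nat_lit 0) (XT.lf (nat_lit 0) (nat_lit 191517816604) (nat_lit 76) (nat_lit 64806319056) (nat_lit 76) (nat_lit 6558673897) (nat_lit 39) (nat_lit 4) (nat_lit 40) (nat_lit 5) (nat_lit 40) (nat_lit 4) (nat_lit 520) (nat_lit 427) (nat_lit 253)) (XT.lf (nat_lit 0) (nat_lit 66466076065) (nat_lit 152) (nat_lit 194779059688) (nat_lit 0) (nat_lit 10991585018) (nat_lit 37) (nat_lit 5) (nat_lit 39) (nat_lit 4) (nat_lit 37) (nat_lit 4) (nat_lit 521) (nat_lit 427) (nat_lit 252)))) (XT.nd (nat_lit 156) (nat_lit 152) (nat_lit 0) (XT.nd (nat_lit 78) (nat_lit 76) (nat_lit 0) (XT.lf (nat_lit 0) (nat_lit 145210967307) (nat_lit 152) (nat_lit 46991559519) (nat_lit 0) (nat_lit 89735958854) (nat_lit 37) (nat_lit 5) (nat_lit 39) (nat_lit 4) (nat_lit 37) (nat_lit 4) (nat_lit 522) (nat_lit 427) (nat_lit 251)) (XT.lf (nat_lit 0) (nat_lit 111759449129) (nat_lit 76) (nat_lit 117877109087) (nat_lit 76) (nat_lit 62401607866)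 (nat_lit 36) (nat_lit 4) (nat_lit 37) (nat_lit 5) (nat_lit 37) (nat_lit 4) (nat_lit 523) (nat_lit 427) (nat_lit 250))) (XT.nd (nat_lit 78) (nat_lit 76) (nat_lit 0) (XT.lf (nat_lit 0) (nat_lit 15947450136) (nat_lit 152) (nat_lit 22783697744) (nat_lit 76) (nat_lit 263859100512) (nat_lit 35) (nat_lit 5) (nat_lit 37) (nat_lit 5) (nat_lit 36) (nat_lit 4) (nat_lit 524) (nat_lit 427) (nat_lit 249)) (XT.nd (nat_lit 78) (nat_lit 0) (nat_lit 0) (XT.lf (nat_lit 0) (nat_lit 99145686582) (nat_lit 152) (nat_lit 168010654673) (nat_lit 0) (nat_lit 46311003269) (nat_lit 34) (nat_lit 5) (nat_lit 36) (nat_lit 4) (nat_lit 34) (nat_lit 4) (nat_lit 525) (nat_lit 427) (nat_lit 248)) (XT.lf (nat_lit 0) (nat_lit 187529596914) (nat_lit 152) (nat_lit 2612902251) (nat_lit 0) (nat_lit 134694508199) (nat_lit 34) (nat_lit 5) (nat_lit 36) (nat_lit 4) (nat_lit 34) (nat_lit 4) (nat_lit 526) (nat_lit 427) (nat_lit 247))))))))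
noncomputable def xc306 : XT := (XT.nd (nat_lit 1248) (nat_lit 456) (nat_lit 0) (XT.nd (nat_lit 624) (nat_lit 380) (nat_lit 0) (XT.nd (nat_lit 312) (nat_lit 228) (nat_lit 0) (XT.nd (nat_lit 156) (nat_lit 76) (nat_lit 0) (XT.nd (nat_lit 78) (nat_lit 152) (nat_lit 0) (XT.lf (nat_lit 0) (nat_lit 176707891508) (nat_lit 76) (nat_lit 106382427910) (nat_lit 76) (nat_lit 53546953098) (nat_lit 33) (nat_lit 4) (nat_lit 34) (nat_lit 5) (nat_lit 34) (nat_lit 4) (nat_lit 527) (nat_lit 427) (nat_lit 246)) (XT.lf (nat_lit 0) (nat_lit 16032818278) (nat_lit 76) (nat_lit 17561650404) (nat_lit 152) (nat_lit 315391526772) (nat_lit 31) (nat_lit 5) (nat_lit 32) (nat_lit 5) (nat_lit 33) (nat_lit 4) (nat_lit 528) (nat_lit 427) (nat_lit 245))) (XT.nd (nat_lit 78) (nat_lit 76) (nat_lit 0) (XT.lf (nat_lit 0) (nat_lit 127226920340) (nat_lit 152) (nat_lit 157577932087) (nat_lit 0) (nat_lit 76906736794) (nat_lit 31) (nat_lit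 5) (nat_lit 33) (nat_lit 4) (nat_lit 31) (nat_lit 4) (nat_lit 529) (nat_lit 427) (nat_lit 244)) (XT.lf (nat_lit 0) (nat_lit 27144492489) (nat_lit 76) (nat_lit 199106973894) (nat_lit 76) (nat_lit 148786472706) (nat_lit 30) (nat_lit 4) (nat_lit 31) (nat_lit 5) (nat_lit 31) (nat_lit 4) (nat_lit 530) (nat_lit 427) (nat_lit 243)))) (XT.nd (nat_lit 156) (nat_lit 76) (nat_lit 0) (XT.nd (nat_lit 78) (nat_lit 152) (nat_lit 0) (XT.lf (nat_lit 0) (nat_lit 226571348137) (nat_lit 76) (nat_lit 106323344684) (nat_lit 76) (nat_lit 56002540978) (nat_lit 30) (nat_lit 4) (nat_lit 31) (nat_lit 5) (nat_lit 31) (nat_lit 4) (nat_lit 531) (nat_lit 427) (nat_lit 242)) (XT.lf (nat_lit 0) (nat_lit 32924798519) (nat_lit 76) (nat_lit 7682952863) (nat_lit 152) (nat_lit 362783763216) (nat_lit 28) (nat_lit 5) (nat_lit 29) (nat_lit 5) (nat_lit 30) (nat_lit 4) (nat_lit 532) (nat_lit 427) (nat_lit 241))) (XT.nd (nat_lit 78) (nat_lit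 76) (nat_lit 0) (XT.lf (nat_lit 0) (nat_lit 144456577075) (nat_lit 152) (nat_lit 177362058677) (nat_lit 0) (nat_lit 96531466401) (nat_lit 28) (nat_lit 5) (nat_lit 30) (nat_lit 4) (nat_lit 28) (nat_lit 4) (nat_lit 533) (nat_lit 427) (nat_lit 240)) (XT.lf (nat_lit 0) (nat_lit 26105158775) (nat_lit 76) (nat_lit 227925099577) (nat_lit 76) (nat_lit 179999740021) (nat_lit 27) (nat_lit 4) (nat_lit 28) (nat_lit 5) (nat_lit 28) (nat_lit 4) (nat_lit 534) (nat_lit 427) (nat_lit 239))))) (XT.nd (nat_lit 312) (nat_lit 228) (nat_lit 0) (XT.nd (nat_lit 156) (nat_lit 0) (nat_lit 0) (XT.nd (nat_lit 78) (nat_lit 152) (nat_lit 0) (XT.lf (nat_lit 0) (nat_lit 245901132704) (nat_lit 76) (nat_lit 126184111140) (nat_lit 76) (nat_lit 78258514554) (nat_lit 27) (nat_lit 4) (nat_lit 28) (nat_lit 5) (nat_lit 28) (nat_lit 4) (nat_lit 535) (nat_lit 427) (nat_lit 238)) (XT.lf (nat_lit 0) (nat_lit 9055327647) (nat_lit 76) (nat_lit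 18740355267) (nat_lit 152) (nat_lit 439648204709) (nat_lit 25) (nat_lit 5) (nat_lit 26) (nat_lit 5) (nat_lit 27) (nat_lit 4) (nat_lit 536) (nat_lit 427) (nat_lit 237))) (XT.nd (nat_lit 78) (nat_lit 0) (nat_lit 0) (XT.lf (nat_lit 0) (nat_lit 141509412482) (nat_lit 152) (nat_lit 247710556019) (nat_lit 0) (nat_lit 95865567414) (nat_lit 25) (nat_lit 5) (nat_lit 27) (nat_lit 4) (nat_lit 25) (nat_lit 4) (nat_lit 537) (nat_lit 427) (nat_lit 236)) (XT.lf (nat_lit 0) (nat_lit 261215041300) (nat_lit 152) (nat_lit 26807913457) (nat_lit 0) (nat_lit 215571001227) (nat_lit 25) (nat_lit 5) (nat_lit 27) (nat_lit 4) (nat_lit 25) (nat_lit 4) (nat_lit 538) (nat_lit 427) (nat_lit 235)))) (XT.nd (nat_lit 156) (nat_lit 152) (nat_lit 0) (XT.nd (nat_lit 78) (nat_lit 0) (nat_lit 0) (XT.lf (nat_lit 0) (nat_lit 211920701773) (nat_lit 76) (nat_lit 178292967593) (nat_lit 76) (nat_lit 132648741801) (nat_lit 24) (nat_lit 4)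 (nat_lit 25) (nat_lit 5) (nat_lit 25) (nat_lit 4) (nat_lit 539) (nat_lit 427) (nat_lit 234)) (XT.lf (nat_lit 0) (nat_lit 463514543978) (nat_lit 76) (nat_lit 62600747339) (nat_lit 76) (nat_lit 16956344672) (nat_lit 24) (nat_lit 4) (nat_lit 25) (nat_lit 5) (nat_lit 25) (nat_lit 4) (nat_lit 540) (nat_lit 427) (nat_lit 233))) (XT.nd (nat_lit 78) (nat_lit 0) (nat_lit 0) (XT.lf (nat_lit 0) (nat_lit 104772256668) (nat_lit 152) (nat_lit 397956390870) (nat_lit 0) (nat_lit 61301236553) (nat_lit 22) (nat_lit 5) (nat_lit 24) (nat_lit 4) (nat_lit 22) (nat_lit 4) (nat_lit 541) (nat_lit 427) (nat_lit 232)) (XT.lf (nat_lit 0) (nat_lit 234412199004) (nat_lit 152) (nat_lit 160549183091) (nat_lit 0) (nat_lit 190941026098) (nat_lit 22) (nat_lit 5) (nat_lit 24) (nat_lit 4) (nat_lit 22) (nat_lit 4) (nat_lit 542) (nat_lit 427) (nat_lit 231)))))) (XT.nd (nat_lit 624) (nat_lit 152) (nat_lit 0) (XT.nd (nat_lit 312) (nat_lit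 76) (nat_lit 0) (XT.nd (nat_lit 156) (nat_lit 152) (nat_lit 0) (XT.nd (nat_lit 78) (nat_lit 0) (nat_lit 0) (XT.lf (nat_lit 0) (nat_lit 91660322532) (nat_lit 76) (nat_lit 280304022042) (nat_lit 76) (nat_lit 236832703620) (nat_lit 21) (nat_lit 4) (nat_lit 22) (nat_lit 5) (nat_lit 22) (nat_lit 4) (nat_lit 543) (nat_lit 427) (nat_lit 230)) (XT.lf (nat_lit 0) (nat_lit 362052471719) (nat_lit 76) (nat_lit 157059749645) (nat_lit 76) (nat_lit 113588292637) (nat_lit 21) (nat_lit 4) (nat_lit 22) (nat_lit 5) (nat_lit 22) (nat_lit 4) (nat_lit 544) (nat_lit 427) (nat_lit 229))) (XT.nd (nat_lit 78) (nat_lit 76) (nat_lit 0) (XT.lf (nat_lit 0) (nat_lit 15311226440) (nat_lit 152) (nat_lit 12083574791) (nat_lit 76) (nat_lit 630392044778) (nat_lit 20) (nat_lit 5) (nat_lit 22) (nat_lit 5) (nat_lit 21) (nat_lit 4) (nat_lit 545) (nat_lit 427) (nat_lit 228)) (XT.lf (nat_lit 0) (nat_lit 152788137319) (nat_lit 152) (nat_lit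 419562261502) (nat_lit 0) (nat_lit 111386504275) (nat_lit 19) (nat_lit 5) (nat_lit 21) (nat_lit 4) (nat_lit 19) (nat_lit 4) (nat_lit 546) (nat_lit 427) (nat_lit 227)))) (XT.nd (nat_lit 156) (nat_lit 0) (nat_lit 0) (XT.nd (nat_lit 78) (nat_lit 76) (nat_lit 0) (XT.lf (nat_lit 0) (nat_lit 297795197747) (nat_lit 152) (nat_lit 156762999405) (nat_lit 0) (nat_lit 256393450686) (nat_lit 19) (nat_lit 5) (nat_lit 21) (nat_lit 4) (nat_lit 19) (nat_lit 4) (nat_lit 547) (nat_lit 427) (nat_lit 226)) (XT.lf (nat_lit 0) (nat_lit 123115154089) (nat_lit 76) (nat_lit 328858880112) (nat_lit 76) (nat_lit 287457024466) (nat_lit 18) (nat_lit 4) (nat_lit 19) (nat_lit 5) (nat_lit 19) (nat_lit 4) (nat_lit 548) (nat_lit 427) (nat_lit 225))) (XT.nd (nat_lit 78) (nat_lit 0) (nat_lit 0) (XT.lf (nat_lit 0) (nat_lit 422428171715) (nat_lit 76) (nat_lit 194087760695) (nat_lit 76) (nat_lit 152685801633) (nat_lit 18) (nat_lit 4)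 (nat_lit 19) (nat_lit 5) (nat_lit 19) (nat_lit 4) (nat_lit 549) (nat_lit 427) (nat_lit 224)) (XT.lf (nat_lit 0) (nat_lit 736705410792) (nat_lit 76) (nat_lit 52578812530) (nat_lit 76) (nat_lit 11176754977) (nat_lit 18) (nat_lit 4) (nat_lit 19) (nat_lit 5) (nat_lit 19) (nat_lit 4) (nat_lit 550) (nat_lit 427) (nat_lit 223))))) (XT.nd (nat_lit 52962) (nat_lit 0) (nat_lit 11172) (XT.nd (nat_lit 156) (nat_lit 0) (nat_lit 0) (XT.nd (nat_lit 78) (nat_lit 0) (nat_lit 0) (XT.lf (nat_lit 0) (nat_lit 138334488853) (nat_lit 152) (nat_lit 595671328861) (nat_lit 0) (nat_lit 98903868517) (nat_lit 16) (nat_lit 5) (nat_lit 18) (nat_lit 4) (nat_lit 16) (nat_lit 4) (nat_lit 551) (nat_lit 427) (nat_lit 222)) (XT.lf (nat_lit 0) (nat_lit 296904382825) (nat_lit 152) (nat_lit 312495673042) (nat_lit 0) (nat_lit 257473677409) (nat_lit 16) (nat_lit 5) (nat_lit 18) (nat_lit 4) (nat_lit 16) (nat_lit 4) (nat_lit 552) (nat_lit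 427) (nat_lit 221))) (XT.nd (nat_lit 52728) (nat_lit 0) (nat_lit 11172) (XT.lf (nat_lit 0) (nat_lit 463402124410) (nat_lit 152) (nat_lit 15162552654) (nat_lit 0) (nat_lit 423971337965) (nat_lit 16) (nat_lit 5) (nat_lit 18) (nat_lit 4) (nat_lit 16) (nat_lit 4) (nat_lit 553) (nat_lit 427) (nat_lit 220)) (XT.lf (nat_lit 0) (nat_lit 1774183290) (nat_lit 836) (nat_lit 3134489561) (nat_lit 836) (nat_lit 3134489561) (nat_lit 163) (nat_lit 3) (nat_lit 174) (nat_lit 3) (nat_lit 174) (nat_lit 5) (nat_lit 428) (nat_lit 428) (nat_lit 344)))) (XT.nd (nat_lit 156) (nat_lit 0) (nat_lit 76) (XT.nd (nat_lit 78) (nat_lit 0) (nat_lit 76) (XT.lf (nat_lit 76) (nat_lit 1799414304) (nat_lit 0) (nat_lit 2120023930) (nat_lit 836) (nat_lit 12554906964) (nat_lit 164) (nat_lit 5) (nat_lit 163) (nat_lit 3) (nat_lit 174) (nat_lit 5) (nat_lit 429) (nat_lit 428) (nat_lit 343)) (XT.lf (nat_lit 0) (nat_lit 4493762454) (nat_lit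 760) (nat_lit 6492181211) (nat_lit 836) (nat_lit 5886589230) (nat_lit 164) (nat_lit 5) (nat_lit 174) (nat_lit 5) (nat_lit 175) (nat_lit 5) (nat_lit 430) (nat_lit 428) (nat_lit 342))) (XT.nd (nat_lit 78) (nat_lit 0) (nat_lit 76) (XT.lf (nat_lit 76) (nat_lit 2123616962) (nat_lit 0) (nat_lit 3025576251) (nat_lit 836) (nat_lit 12138818444) (nat_lit 165) (nat_lit 5) (nat_lit 164) (nat_lit 5) (nat_lit 175) (nat_lit 5) (nat_lit 431) (nat_lit 428) (nat_lit 341)) (XT.nd (nat_lit 78) (nat_lit 0) (nat_lit 0) (XT.lf (nat_lit 0) (nat_lit 6017572715) (nat_lit 760) (nat_lit 6418221425) (nat_lit 836) (nat_lit 5279462498) (nat_lit 165) (nat_lit 5) (nat_lit 175) (nat_lit 5) (nat_lit 176) (nat_lit 5) (nat_lit 432) (nat_lit 428) (nat_lit 340)) (XT.lf (nat_lit 76) (nat_lit 2795623192) (nat_lit 0) (nat_lit 4212867923) (nat_lit 836) (nat_lit 11151417840) (nat_lit 166) (nat_lit 5) (nat_lit 165) (nat_lit 5) (nat_lit 176)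 (nat_lit 5) (nat_lit 433) (nat_lit 428) (nat_lit 339))))))))
noncomputable def xc307 : XT := (XT.nd (nat_lit 1248) (nat_lit 2736) (nat_lit 0) (XT.nd (nat_lit 624) (nat_lit 1444) (nat_lit 0) (XT.nd (nat_lit 312) (nat_lit 1140) (nat_lit 0) (XT.nd (nat_lit 156) (nat_lit 0) (nat_lit 76) (XT.nd (nat_lit 78) (nat_lit 0) (nat_lit 0) (XT.lf (nat_lit 0) (nat_lit 8214925958) (nat_lit 760) (nat_lit 6009291085) (nat_lit 836) (nat_lit 4394279353) (nat_lit 166) (nat_lit 5) (nat_lit 176) (nat_lit 5) (nat_lit 177) (nat_lit 5) (nat_lit 434) (nat_lit 428) (nat_lit 338)) (XT.lf (nat_lit 76) (nat_lit 3858250520) (nat_lit 0) (nat_lit 5739843579) (nat_lit 836) (nat_lit 9496099517) (nat_lit 167) (nat_lit 5) (nat_lit 166) (nat_lit 5) (nat_lit 177) (nat_lit 5) (nat_lit 435) (nat_lit 428) (nat_lit 337))) (XT.nd (nat_lit 78) (nat_lit 0) (nat_lit 0) (XT.lf (nat_lit 0) (nat_lit 11190954358) (nat_lit 760) (nat_lit 5222070824)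 (nat_lit 836) (nat_lit 3173624765) (nat_lit 167) (nat_lit 5) (nat_lit 177) (nat_lit 5) (nat_lit 178) (nat_lit 5) (nat_lit 436) (nat_lit 428) (nat_lit 336)) (XT.lf (nat_lit 76) (nat_lit 5360304924) (nat_lit 0) (nat_lit 7669149361) (nat_lit 836) (nat_lit 7065975872) (nat_lit 168) (nat_lit 5) (nat_lit 167) (nat_lit 5) (nat_lit 178) (nat_lit 5) (nat_lit 437) (nat_lit 428) (nat_lit 335)))) (XT.nd (nat_lit 156) (nat_lit 532) (nat_lit 0) (XT.nd (nat_lit 78) (nat_lit 760) (nat_lit 0) (XT.lf (nat_lit 0) (nat_lit 15062026362) (nat_lit 760) (nat_lit 4007285301) (nat_lit 76) (nat_lit 1555231204) (nat_lit 168) (nat_lit 5) (nat_lit 178) (nat_lit 5) (nat_lit 169) (nat_lit 5) (nat_lit 438) (nat_lit 428) (nat_lit 334)) (XT.lf (nat_lit 0) (nat_lit 7357075527) (nat_lit 760) (nat_lit 10068933879) (nat_lit 836) (nat_lit 3742613501) (nat_lit 158) (nat_lit 5) (nat_lit 168) (nat_lit 5) (nat_lit 169) (nat_lit 5) (nat_lit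 439) (nat_lit 428) (nat_lit 333))) (XT.nd (nat_lit 78) (nat_lit 532) (nat_lit 0) (XT.lf (nat_lit 0) (nat_lit 19419313749) (nat_lit 760) (nat_lit 546304007) (nat_lit 836) (nat_lit 1771418655) (nat_lit 158) (nat_lit 5) (nat_lit 168) (nat_lit 5) (nat_lit 169) (nat_lit 5) (nat_lit 440) (nat_lit 428) (nat_lit 332)) (XT.lf (nat_lit 0) (nat_lit 585968546) (nat_lit 532) (nat_lit 12417804595) (nat_lit 76) (nat_lit 9315006194) (nat_lit 151) (nat_lit 5) (nat_lit 158) (nat_lit 5) (nat_lit 152) (nat_lit 5) (nat_lit 441) (nat_lit 428) (nat_lit 331))))) (XT.nd (nat_lit 312) (nat_lit 684) (nat_lit 0) (XT.nd (nat_lit 156) (nat_lit 380) (nat_lit 0) (XT.nd (nat_lit 78) (nat_lit 380) (nat_lit 0) (XT.lf (nat_lit 0) (nat_lit 3040785625) (nat_lit 532) (nat_lit 164908516) (nat_lit 76) (nat_lit 19720509359) (nat_lit 151) (nat_lit 5) (nat_lit 158) (nat_lit 5) (nat_lit 152) (nat_lit 5) (nat_lit 442) (nat_lit 428) (nat_lit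 330)) (XT.lf (nat_lit 0) (nat_lit 5927680079) (nat_lit 456) (nat_lit 10557127159) (nat_lit 76) (nat_lit 7063725444) (nat_lit 146) (nat_lit 5) (nat_lit 152) (nat_lit 5) (nat_lit 147) (nat_lit 5) (nat_lit 443) (nat_lit 428) (nat_lit 329))) (XT.nd (nat_lit 78) (nat_lit 0) (nat_lit 0) (XT.lf (nat_lit 0) (nat_lit 2631514482) (nat_lit 380) (nat_lit 6414885856) (nat_lit 456) (nat_lit 15151204534) (nat_lit 141) (nat_lit 5) (nat_lit 146) (nat_lit 5) (nat_lit 147) (nat_lit 5) (nat_lit 444) (nat_lit 428) (nat_lit 328)) (XT.lf (nat_lit 0) (nat_lit 12558980276) (nat_lit 456) (nat_lit 8101746815) (nat_lit 76) (nat_lit 4206507974) (nat_lit 141) (nat_lit 5) (nat_lit 147) (nat_lit 5) (nat_lit 142) (nat_lit 5) (nat_lit 445) (nat_lit 428) (nat_lit 327)))) (XT.nd (nat_lit 156) (nat_lit 380) (nat_lit 0) (XT.nd (nat_lit 78) (nat_lit 0) (nat_lit 0) (XT.lf (nat_lit 0) (nat_lit 6117098023) (nat_lit 304) (nat_lit 10322449998)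 (nat_lit 380) (nat_lit 9121181353) (nat_lit 137) (nat_lit 5) (nat_lit 141) (nat_lit 5) (nat_lit 142) (nat_lit 5) (nat_lit 446) (nat_lit 428) (nat_lit 326)) (XT.lf (nat_lit 0) (nat_lit 20653844230) (nat_lit 380) (nat_lit 4974019673) (nat_lit 76) (nat_lit 654050015) (nat_lit 137) (nat_lit 5) (nat_lit 142) (nat_lit 5) (nat_lit 138) (nat_lit 5) (nat_lit 447) (nat_lit 428) (nat_lit 325))) (XT.nd (nat_lit 78) (nat_lit 76) (nat_lit 0) (XT.lf (nat_lit 0) (nat_lit 10372725810) (nat_lit 304) (nat_lit 15029607914) (nat_lit 380) (nat_lit 1620650536) (nat_lit 133) (nat_lit 5) (nat_lit 137) (nat_lit 5) (nat_lit 138) (nat_lit 5) (nat_lit 448) (nat_lit 428) (nat_lit 324)) (XT.lf (nat_lit 0) (nat_lit 2582367272) (nat_lit 380) (nat_lit 1188396895) (nat_lit 76) (nat_lit 24024423165) (nat_lit 132) (nat_lit 5) (nat_lit 137) (nat_lit 5) (nat_lit 133) (nat_lit 5) (nat_lit 449) (nat_lit 428) (nat_lit 323)))))) (XT.nd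 (nat_lit 624) (nat_lit 1292) (nat_lit 0) (XT.nd (nat_lit 312) (nat_lit 608) (nat_lit 0) (XT.nd (nat_lit 156) (nat_lit 228) (nat_lit 0) (XT.nd (nat_lit 78) (nat_lit 304) (nat_lit 0) (XT.lf (nat_lit 0) (nat_lit 7306042250) (nat_lit 380) (nat_lit 13215462716) (nat_lit 76) (nat_lit 8064919079) (nat_lit 128) (nat_lit 5) (nat_lit 133) (nat_lit 5) (nat_lit 129) (nat_lit 5) (nat_lit 450) (nat_lit 428) (nat_lit 322)) (XT.lf (nat_lit 0) (nat_lit 3421733244) (nat_lit 304) (nat_lit 8972821319) (nat_lit 380) (nat_lit 17016235760) (nat_lit 124) (nat_lit 5) (nat_lit 128) (nat_lit 5) (nat_lit 129) (nat_lit 5) (nat_lit 451) (nat_lit 428) (nat_lit 321))) (XT.nd (nat_lit 78) (nat_lit 228) (nat_lit 0) (XT.lf (nat_lit 0) (nat_lit 18007329126) (nat_lit 380) (nat_lit 8977619696) (nat_lit 76) (nat_lit 3277934651) (nat_lit 124) (nat_lit 5) (nat_lit 129) (nat_lit 5) (nat_lit 125) (nat_lit 5) (nat_lit 452) (nat_lit 428)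 (nat_lit 320)) (XT.lf (nat_lit 0) (nat_lit 9017201353) (nat_lit 228) (nat_lit 15164873194) (nat_lit 304) (nat_lit 6961440498) (nat_lit 121) (nat_lit 5) (nat_lit 124) (nat_lit 5) (nat_lit 125) (nat_lit 5) (nat_lit 453) (nat_lit 428) (nat_lit 319)))) (XT.nd (nat_lit 156) (nat_lit 228) (nat_lit 0) (XT.nd (nat_lit 78) (nat_lit 380) (nat_lit 0) (XT.lf (nat_lit 0) (nat_lit 28214886927) (nat_lit 228) (nat_lit 2596341695) (nat_lit 304) (nat_lit 1249666359) (nat_lit 121) (nat_lit 5) (nat_lit 124) (nat_lit 5) (nat_lit 125) (nat_lit 5) (nat_lit 454) (nat_lit 428) (nat_lit 318)) (XT.lf (nat_lit 0) (nat_lit 5006520956) (nat_lit 380) (nat_lit 17408568280) (nat_lit 76) (nat_lit 10584809734) (nat_lit 116) (nat_lit 5) (nat_lit 121) (nat_lit 5) (nat_lit 117) (nat_lit 5) (nat_lit 455) (nat_lit 428) (nat_lit 317))) (XT.nd (nat_lit 78) (nat_lit 0) (nat_lit 0) (XT.lf (nat_lit 0) (nat_lit 2147597395) (nat_lit 228) (nat_lit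 9522183161) (nat_lit 304) (nat_lit 22308235596) (nat_lit 113) (nat_lit 5) (nat_lit 116) (nat_lit 5) (nat_lit 117) (nat_lit 5) (nat_lit 456) (nat_lit 428) (nat_lit 316)) (XT.lf (nat_lit 0) (nat_lit 19022633523) (nat_lit 304) (nat_lit 11780470225) (nat_lit 76) (nat_lit 4184114217) (nat_lit 113) (nat_lit 5) (nat_lit 117) (nat_lit 5) (nat_lit 114) (nat_lit 5) (nat_lit 457) (nat_lit 428) (nat_lit 315))))) (XT.nd (nat_lit 312) (nat_lit 608) (nat_lit 0) (XT.nd (nat_lit 156) (nat_lit 456) (nat_lit 0) (XT.nd (nat_lit 78) (nat_lit 0) (nat_lit 0) (XT.lf (nat_lit 0) (nat_lit 9408819755) (nat_lit 228) (nat_lit 17631674077) (nat_lit 304) (nat_lit 8991518079) (nat_lit 110) (nat_lit 5) (nat_lit 113) (nat_lit 5) (nat_lit 114) (nat_lit 5) (nat_lit 458) (nat_lit 428) (nat_lit 314)) (XT.lf (nat_lit 0) (nat_lit 32058502141) (nat_lit 228) (nat_lit 3594760692) (nat_lit 304) (nat_lit 1466082201) (nat_lit 110) (nat_lit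 5) (nat_lit 113) (nat_lit 5) (nat_lit 114) (nat_lit 5) (nat_lit 459) (nat_lit 428) (nat_lit 313))) (XT.nd (nat_lit 78) (nat_lit 228) (nat_lit 0) (XT.lf (nat_lit 0) (nat_lit 6686339707) (nat_lit 228) (nat_lit 20373443454) (nat_lit 76) (nat_lit 11173403261) (nat_lit 107) (nat_lit 5) (nat_lit 110) (nat_lit 5) (nat_lit 108) (nat_lit 5) (nat_lit 460) (nat_lit 428) (nat_lit 312)) (XT.lf (nat_lit 0) (nat_lit 2697648081) (nat_lit 228) (nat_lit 12682401913) (nat_lit 304) (nat_lit 24012321544) (nat_lit 104) (nat_lit 5) (nat_lit 107) (nat_lit 5) (nat_lit 108) (nat_lit 5) (nat_lit 461) (nat_lit 428) (nat_lit 311)))) (XT.nd (nat_lit 156) (nat_lit 456) (nat_lit 0) (XT.nd (nat_lit 78) (nat_lit 152) (nat_lit 0) (XT.lf (nat_lit 0) (nat_lit 24891683346) (nat_lit 304) (nat_lit 13014026151) (nat_lit 76) (nat_lit 2684644752) (nat_lit 104) (nat_lit 5) (nat_lit 108) (nat_lit 5) (nat_lit 105) (nat_lit 5) (nat_lit 462)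 (nat_lit 428) (nat_lit 310)) (XT.lf (nat_lit 0) (nat_lit 12019857971) (nat_lit 152) (nat_lit 23249717233) (nat_lit 228) (nat_lit 6559127255) (nat_lit 102) (nat_lit 5) (nat_lit 104) (nat_lit 5) (nat_lit 105) (nat_lit 5) (nat_lit 463) (nat_lit 428) (nat_lit 309))) (XT.nd (nat_lit 78) (nat_lit 380) (nat_lit 0) (XT.lf (nat_lit 0) (nat_lit 3159331918) (nat_lit 228) (nat_lit 4419417324) (nat_lit 76) (nat_lit 35536890220) (nat_lit 101) (nat_lit 5) (nat_lit 104) (nat_lit 5) (nat_lit 102) (nat_lit 5) (nat_lit 464) (nat_lit 428) (nat_lit 308)) (XT.nd (nat_lit 78) (nat_lit 152) (nat_lit 0) (XT.lf (nat_lit 0) (nat_lit 13641652835) (nat_lit 304) (nat_lit 21733909165) (nat_lit 76) (nat_lit 9061066736) (nat_lit 98) (nat_lit 5) (nat_lit 102) (nat_lit 5) (nat_lit 99) (nat_lit 5) (nat_lit 465) (nat_lit 428) (nat_lit 307)) (XT.lf (nat_lit 0) (nat_lit 5559554189) (nat_lit 152) (nat_lit 19371088807) (nat_lit 228) (nat_lit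 20878896987) (nat_lit 96) (nat_lit 5) (nat_lit 98) (nat_lit 5) (nat_lit 99) (nat_lit 5) (nat_lit 466) (nat_lit 428) (nat_lit 306))))))))
noncomputable def xc308 : XT := (XT.nd (nat_lit 1248) (nat_lit 1292) (nat_lit 0) (XT.nd (nat_lit 624) (nat_lit 684) (nat_lit 0) (XT.nd (nat_lit 312) (nat_lit 532) (nat_lit 0) (XT.nd (nat_lit 156) (nat_lit 152) (nat_lit 0) (XT.nd (nat_lit 78) (nat_lit 228) (nat_lit 0) (XT.lf (nat_lit 0) (nat_lit 34964974337) (nat_lit 152) (nat_lit 2182725543) (nat_lit 228) (nat_lit 10085216214) (nat_lit 96) (nat_lit 5) (nat_lit 98) (nat_lit 5) (nat_lit 99) (nat_lit 5) (nat_lit 467) (nat_lit 428) (nat_lit 305)) (XT.lf (nat_lit 0) (nat_lit 1731969043) (nat_lit 228) (nat_lit 31313801398) (nat_lit 76) (nat_lit 15654527912) (nat_lit 93) (nat_lit 5) (nat_lit 96) (nat_lit 5) (nat_lit 94) (nat_lit 5) (nat_lit 468) (nat_lit 428) (nat_lit 304))) (XT.nd (nat_lit 78) (nat_lit 152) (nat_lit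 0) (XT.lf (nat_lit 0) (nat_lit 14043775734) (nat_lit 228) (nat_lit 1492728157) (nat_lit 76) (nat_lit 34684144824) (nat_lit 93) (nat_lit 5) (nat_lit 96) (nat_lit 5) (nat_lit 94) (nat_lit 5) (nat_lit 469) (nat_lit 428) (nat_lit 303)) (XT.lf (nat_lit 0) (nat_lit 27500273042) (nat_lit 228) (nat_lit 21047128323) (nat_lit 76) (nat_lit 3243160349) (nat_lit 91) (nat_lit 5) (nat_lit 94) (nat_lit 5) (nat_lit 92) (nat_lit 5) (nat_lit 470) (nat_lit 428) (nat_lit 302)))) (XT.nd (nat_lit 156) (nat_lit 304) (nat_lit 0) (XT.nd (nat_lit 78) (nat_lit 76) (nat_lit 0) (XT.lf (nat_lit 0) (nat_lit 11305426200) (nat_lit 152) (nat_lit 30777059104) (nat_lit 228) (nat_lit 11333840681) (nat_lit 89) (nat_lit 5) (nat_lit 91) (nat_lit 5) (nat_lit 92) (nat_lit 5) (nat_lit 471) (nat_lit 428) (nat_lit 301)) (XT.lf (nat_lit 0) (nat_lit 2556059481) (nat_lit 228) (nat_lit 9147379710) (nat_lit 76) (nat_lit 43400252121) (nat_lit 88)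 (nat_lit 5) (nat_lit 91) (nat_lit 5) (nat_lit 89) (nat_lit 5) (nat_lit 472) (nat_lit 428) (nat_lit 300))) (XT.nd (nat_lit 78) (nat_lit 152) (nat_lit 0) (XT.lf (nat_lit 0) (nat_lit 17303021443) (nat_lit 228) (nat_lit 30877990109) (nat_lit 76) (nat_lit 8657950521) (nat_lit 86) (nat_lit 5) (nat_lit 89) (nat_lit 5) (nat_lit 87) (nat_lit 5) (nat_lit 473) (nat_lit 428) (nat_lit 299)) (XT.lf (nat_lit 0) (nat_lit 4429889866) (nat_lit 152) (nat_lit 28772158751) (nat_lit 228) (nat_lit 25438212004) (nat_lit 84) (nat_lit 5) (nat_lit 86) (nat_lit 5) (nat_lit 87) (nat_lit 5) (nat_lit 474) (nat_lit 428) (nat_lit 298))))) (XT.nd (nat_lit 312) (nat_lit 380) (nat_lit 0) (XT.nd (nat_lit 156) (nat_lit 152) (nat_lit 0) (XT.nd (nat_lit 78) (nat_lit 152) (nat_lit 0) (XT.lf (nat_lit 0) (nat_lit 42568721768) (nat_lit 152) (nat_lit 7846556917) (nat_lit 228) (nat_lit 10090382934) (nat_lit 84) (nat_lit 5) (nat_lit 86) (nat_lit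 5) (nat_lit 87) (nat_lit 5) (nat_lit 475) (nat_lit 428) (nat_lit 297)) (XT.lf (nat_lit 0) (nat_lit 6379162274) (nat_lit 152) (nat_lit 41958206382) (nat_lit 76) (nat_lit 14094903016) (nat_lit 82) (nat_lit 5) (nat_lit 84) (nat_lit 5) (nat_lit 83) (nat_lit 5) (nat_lit 476) (nat_lit 428) (nat_lit 296))) (XT.nd (nat_lit 78) (nat_lit 152) (nat_lit 0) (XT.lf (nat_lit 0) (nat_lit 23766931700) (nat_lit 152) (nat_lit 3316999466) (nat_lit 76) (nat_lit 37341317842) (nat_lit 82) (nat_lit 5) (nat_lit 84) (nat_lit 5) (nat_lit 83) (nat_lit 5) (nat_lit 477) (nat_lit 428) (nat_lit 295)) (XT.lf (nat_lit 0) (nat_lit 38481931378) (nat_lit 152) (nat_lit 4139604541) (nat_lit 228) (nat_lit 23866467056) (nat_lit 80) (nat_lit 5) (nat_lit 82) (nat_lit 5) (nat_lit 83) (nat_lit 5) (nat_lit 478) (nat_lit 428) (nat_lit 294)))) (XT.nd (nat_lit 156) (nat_lit 228) (nat_lit 0) (XT.nd (nat_lit 78) (nat_lit 76) (nat_lit 0) (XT.lf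 (nat_lit 0) (nat_lit 13963343198) (nat_lit 76) (nat_lit 49038798559) (nat_lit 152) (nat_lit 5622589392) (nat_lit 79) (nat_lit 5) (nat_lit 80) (nat_lit 5) (nat_lit 81) (nat_lit 4) (nat_lit 479) (nat_lit 428) (nat_lit 293)) (XT.lf (nat_lit 0) (nat_lit 13646935874) (nat_lit 152) (nat_lit 12134016729) (nat_lit 76) (nat_lit 45049447936) (nat_lit 78) (nat_lit 5) (nat_lit 80) (nat_lit 5) (nat_lit 79) (nat_lit 5) (nat_lit 480) (nat_lit 428) (nat_lit 292))) (XT.nd (nat_lit 78) (nat_lit 76) (nat_lit 0) (XT.lf (nat_lit 0) (nat_lit 33493809276) (nat_lit 152) (nat_lit 716938363) (nat_lit 228) (nat_lit 38905008843) (nat_lit 76) (nat_lit 5) (nat_lit 78) (nat_lit 5) (nat_lit 79) (nat_lit 5) (nat_lit 481) (nat_lit 428) (nat_lit 291)) (XT.lf (nat_lit 0) (nat_lit 6105775036) (nat_lit 76) (nat_lit 50397715915) (nat_lit 152) (nat_lit 18976852286) (nat_lit 75) (nat_lit 5) (nat_lit 76) (nat_lit 5) (nat_lit 77) (nat_lit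 4) (nat_lit 482) (nat_lit 428) (nat_lit 290)))))) (XT.nd (nat_lit 624) (nat_lit 532) (nat_lit 0) (XT.nd (nat_lit 312) (nat_lit 456) (nat_lit 0) (XT.nd (nat_lit 156) (nat_lit 76) (nat_lit 0) (XT.nd (nat_lit 78) (nat_lit 152) (nat_lit 0) (XT.lf (nat_lit 0) (nat_lit 2576010183) (nat_lit 152) (nat_lit 22493087545) (nat_lit 76) (nat_lit 52858009346) (nat_lit 74) (nat_lit 5) (nat_lit 76) (nat_lit 5) (nat_lit 75) (nat_lit 5) (nat_lit 483) (nat_lit 428) (nat_lit 289)) (XT.lf (nat_lit 0) (nat_lit 25027716935) (nat_lit 228) (nat_lit 53206079987) (nat_lit 76) (nat_lit 2223910047) (nat_lit 72) (nat_lit 5) (nat_lit 75) (nat_lit 5) (nat_lit 73) (nat_lit 4) (nat_lit 484) (nat_lit 428) (nat_lit 288))) (XT.nd (nat_lit 78) (nat_lit 76) (nat_lit 0) (XT.lf (nat_lit 0) (nat_lit 49397188500) (nat_lit 228) (nat_lit 3254044962) (nat_lit 76) (nat_lit 30423844477) (nat_lit 72) (nat_lit 5) (nat_lit 75) (nat_lit 5) (nat_lit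 73) (nat_lit 4) (nat_lit 485) (nat_lit 428) (nat_lit 287)) (XT.lf (nat_lit 0) (nat_lit 50816781882) (nat_lit 76) (nat_lit 24958919914) (nat_lit 152) (nat_lit 10008087304) (nat_lit 71) (nat_lit 5) (nat_lit 72) (nat_lit 5) (nat_lit 73) (nat_lit 4) (nat_lit 486) (nat_lit 428) (nat_lit 286)))) (XT.nd (nat_lit 156) (nat_lit 228) (nat_lit 0) (XT.nd (nat_lit 78) (nat_lit 0) (nat_lit 0) (XT.lf (nat_lit 0) (nat_lit 14801103704) (nat_lit 228) (nat_lit 69208488020) (nat_lit 76) (nat_lit 4585203475) (nat_lit 68) (nat_lit 5) (nat_lit 71) (nat_lit 5) (nat_lit 69) (nat_lit 4) (nat_lit 487) (nat_lit 428) (nat_lit 285)) (XT.lf (nat_lit 0) (nat_lit 41522669815) (nat_lit 228) (nat_lit 14433705016) (nat_lit 76) (nat_lit 35531360820) (nat_lit 68) (nat_lit 5) (nat_lit 71) (nat_lit 5) (nat_lit 69) (nat_lit 4) (nat_lit 488) (nat_lit 428) (nat_lit 284))) (XT.nd (nat_lit 78) (nat_lit 152) (nat_lit 0) (XT.lf (nat_lit 0)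 (nat_lit 44499027879) (nat_lit 76) (nat_lit 25773373441) (nat_lit 152) (nat_lit 24218317493) (nat_lit 67) (nat_lit 5) (nat_lit 68) (nat_lit 5) (nat_lit 69) (nat_lit 4) (nat_lit 489) (nat_lit 428) (nat_lit 283)) (XT.lf (nat_lit 0) (nat_lit 3219334970) (nat_lit 152) (nat_lit 88222659238) (nat_lit 76) (nat_lit 6174974417) (nat_lit 65) (nat_lit 5) (nat_lit 67) (nat_lit 5) (nat_lit 66) (nat_lit 4) (nat_lit 490) (nat_lit 428) (nat_lit 282))))) (XT.nd (nat_lit 312) (nat_lit 304) (nat_lit 0) (XT.nd (nat_lit 156) (nat_lit 152) (nat_lit 0) (XT.nd (nat_lit 78) (nat_lit 76) (nat_lit 0) (XT.lf (nat_lit 0) (nat_lit 32495354624) (nat_lit 152) (nat_lit 28210461480) (nat_lit 76) (nat_lit 40109844836) (nat_lit 65) (nat_lit 5) (nat_lit 67) (nat_lit 5) (nat_lit 66) (nat_lit 4) (nat_lit 491) (nat_lit 428) (nat_lit 281)) (XT.lf (nat_lit 0) (nat_lit 35948095017) (nat_lit 76) (nat_lit 27845808670) (nat_lit 152) (nat_lit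 40352447798) (nat_lit 64) (nat_lit 5) (nat_lit 65) (nat_lit 5) (nat_lit 66) (nat_lit 4) (nat_lit 492) (nat_lit 428) (nat_lit 280))) (XT.nd (nat_lit 78) (nat_lit 152) (nat_lit 0) (XT.lf (nat_lit 0) (nat_lit 97244396406) (nat_lit 152) (nat_lit 3442300994) (nat_lit 0) (nat_lit 6927528379) (nat_lit 64) (nat_lit 5) (nat_lit 66) (nat_lit 4) (nat_lit 64) (nat_lit 4) (nat_lit 493) (nat_lit 428) (nat_lit 279)) (XT.lf (nat_lit 0) (nat_lit 21948409643) (nat_lit 152) (nat_lit 45325624980) (nat_lit 76) (nat_lit 43889368234) (nat_lit 62) (nat_lit 5) (nat_lit 64) (nat_lit 5) (nat_lit 63) (nat_lit 4) (nat_lit 494) (nat_lit 428) (nat_lit 278)))) (XT.nd (nat_lit 156) (nat_lit 228) (nat_lit 0) (XT.nd (nat_lit 78) (nat_lit 0) (nat_lit 0) (XT.lf (nat_lit 0) (nat_lit 24420294105) (nat_lit 76) (nat_lit 31551907297) (nat_lit 152) (nat_lit 58887430802) (nat_lit 61) (nat_lit 5) (nat_lit 62) (nat_lit 5) (nat_lit 63) (nat_lit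 4) (nat_lit 495) (nat_lit 428) (nat_lit 277)) (XT.lf (nat_lit 0) (nat_lit 92567994905) (nat_lit 152) (nat_lit 19585368233) (nat_lit 0) (nat_lit 6543769299) (nat_lit 61) (nat_lit 5) (nat_lit 63) (nat_lit 4) (nat_lit 61) (nat_lit 4) (nat_lit 496) (nat_lit 428) (nat_lit 276))) (XT.nd (nat_lit 78) (nat_lit 76) (nat_lit 0) (XT.lf (nat_lit 0) (nat_lit 9415888944) (nat_lit 152) (nat_lit 66724118680) (nat_lit 76) (nat_lit 46509375654) (nat_lit 59) (nat_lit 5) (nat_lit 61) (nat_lit 5) (nat_lit 60) (nat_lit 4) (nat_lit 497) (nat_lit 428) (nat_lit 275)) (XT.nd (nat_lit 78) (nat_lit 0) (nat_lit 0) (XT.lf (nat_lit 0) (nat_lit 8957236022) (nat_lit 76) (nat_lit 37377532294) (nat_lit 152) (nat_lit 80419325446) (nat_lit 58) (nat_lit 5) (nat_lit 59) (nat_lit 5) (nat_lit 60) (nat_lit 4) (nat_lit 498) (nat_lit 428) (nat_lit 274)) (XT.lf (nat_lit 0) (nat_lit 86297750473) (nat_lit 152) (nat_lit 40343178741) (nat_lit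 0) (nat_lit 4363202637) (nat_lit 58) (nat_lit 5) (nat_lit 60) (nat_lit 4) (nat_lit 58) (nat_lit 4) (nat_lit 499) (nat_lit 428) (nat_lit 273))))))))
noncomputable def xc309 : XT := (XT.nd (nat_lit 1248) (nat_lit 988) (nat_lit 0) (XT.nd (nat_lit 624) (nat_lit 532) (nat_lit 0) (XT.nd (nat_lit 312) (nat_lit 304) (nat_lit 0) (XT.nd (nat_lit 156) (nat_lit 152) (nat_lit 0) (XT.nd (nat_lit 78) (nat_lit 76) (nat_lit 0) (XT.lf (nat_lit 0) (nat_lit 41700936394) (nat_lit 76) (nat_lit 87819614085) (nat_lit 76) (nat_lit 5883037949) (nat_lit 57) (nat_lit 4) (nat_lit 58) (nat_lit 5) (nat_lit 58) (nat_lit 4) (nat_lit 500) (nat_lit 428) (nat_lit 272)) (XT.lf (nat_lit 0) (nat_lit 34457336505) (nat_lit 152) (nat_lit 11300968013) (nat_lit 76) (nat_lit 94202869016) (nat_lit 56) (nat_lit 5) (nat_lit 58) (nat_lit 5) (nat_lit 57) (nat_lit 4) (nat_lit 501) (nat_lit 428) (nat_lit 271))) (XT.nd (nat_lit 78) (nat_lit 76) (nat_lit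 0) (XT.lf (nat_lit 0) (nat_lit 77604180098) (nat_lit 76) (nat_lit 222418767) (nat_lit 152) (nat_lit 66854737995) (nat_lit 55) (nat_lit 5) (nat_lit 56) (nat_lit 5) (nat_lit 57) (nat_lit 4) (nat_lit 502) (nat_lit 428) (nat_lit 270)) (XT.lf (nat_lit 0) (nat_lit 21662159209) (nat_lit 76) (nat_lit 102975879205) (nat_lit 76) (nat_lit 24935784253) (nat_lit 54) (nat_lit 4) (nat_lit 55) (nat_lit 5) (nat_lit 55) (nat_lit 4) (nat_lit 503) (nat_lit 428) (nat_lit 269)))) (XT.nd (nat_lit 156) (nat_lit 152) (nat_lit 0) (XT.nd (nat_lit 78) (nat_lit 76) (nat_lit 0) (XT.lf (nat_lit 0) (nat_lit 19624686781) (nat_lit 152) (nat_lit 37811076275) (nat_lit 76) (nat_lit 97202464773) (nat_lit 53) (nat_lit 5) (nat_lit 55) (nat_lit 5) (nat_lit 54) (nat_lit 4) (nat_lit 504) (nat_lit 428) (nat_lit 268)) (XT.lf (nat_lit 0) (nat_lit 58246185535) (nat_lit 76) (nat_lit 8236440445) (nat_lit 152) (nat_lit 93407415592) (nat_lit 52)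 (nat_lit 5) (nat_lit 53) (nat_lit 5) (nat_lit 54) (nat_lit 4) (nat_lit 505) (nat_lit 428) (nat_lit 267))) (XT.nd (nat_lit 78) (nat_lit 152) (nat_lit 0) (XT.lf (nat_lit 0) (nat_lit 117010329905) (nat_lit 152) (nat_lit 5645670629) (nat_lit 0) (nat_lit 42682102095) (nat_lit 52) (nat_lit 5) (nat_lit 54) (nat_lit 4) (nat_lit 52) (nat_lit 4) (nat_lit 506) (nat_lit 428) (nat_lit 266)) (XT.lf (nat_lit 0) (nat_lit 730641838) (nat_lit 152) (nat_lit 72831719501) (nat_lit 76) (nat_lit 97412332953) (nat_lit 50) (nat_lit 5) (nat_lit 52) (nat_lit 5) (nat_lit 51) (nat_lit 4) (nat_lit 507) (nat_lit 428) (nat_lit 265))))) (XT.nd (nat_lit 312) (nat_lit 304) (nat_lit 0) (XT.nd (nat_lit 156) (nat_lit 152) (nat_lit 0) (XT.nd (nat_lit 78) (nat_lit 0) (nat_lit 0) (XT.lf (nat_lit 0) (nat_lit 30611001607) (nat_lit 76) (nat_lit 20580111601) (nat_lit 152) (nat_lit 125633726108) (nat_lit 49) (nat_lit 5) (nat_lit 50) (nat_lit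 5) (nat_lit 51) (nat_lit 4) (nat_lit 508) (nat_lit 428) (nat_lit 264)) (XT.lf (nat_lit 0) (nat_lit 105973684083) (nat_lit 152) (nat_lit 41722518567) (nat_lit 0) (nat_lit 35181335154) (nat_lit 49) (nat_lit 5) (nat_lit 51) (nat_lit 4) (nat_lit 49) (nat_lit 4) (nat_lit 509) (nat_lit 428) (nat_lit 263))) (XT.nd (nat_lit 78) (nat_lit 76) (nat_lit 0) (XT.lf (nat_lit 0) (nat_lit 69889416867) (nat_lit 76) (nat_lit 95032769401) (nat_lit 76) (nat_lit 24239344822) (nat_lit 48) (nat_lit 4) (nat_lit 49) (nat_lit 5) (nat_lit 49) (nat_lit 4) (nat_lit 510) (nat_lit 428) (nat_lit 262)) (XT.lf (nat_lit 0) (nat_lit 30780757530) (nat_lit 152) (nat_lit 7693896070) (nat_lit 76) (nat_lit 157225003503) (nat_lit 47) (nat_lit 5) (nat_lit 49) (nat_lit 5) (nat_lit 48) (nat_lit 4) (nat_lit 511) (nat_lit 428) (nat_lit 261)))) (XT.nd (nat_lit 156) (nat_lit 152) (nat_lit 0) (XT.nd (nat_lit 78) (nat_lit 76) (nat_lit 0) (XT.lf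 (nat_lit 0) (nat_lit 89856487495) (nat_lit 152) (nat_lit 90150098909) (nat_lit 0) (nat_lit 22432273537) (nat_lit 46) (nat_lit 5) (nat_lit 48) (nat_lit 4) (nat_lit 46) (nat_lit 4) (nat_lit 512) (nat_lit 428) (nat_lit 260)) (XT.lf (nat_lit 0) (nat_lit 29331781738) (nat_lit 76) (nat_lit 123773683512) (nat_lit 76) (nat_lit 56348584614) (nat_lit 45) (nat_lit 4) (nat_lit 46) (nat_lit 5) (nat_lit 46) (nat_lit 4) (nat_lit 513) (nat_lit 428) (nat_lit 259))) (XT.nd (nat_lit 78) (nat_lit 76) (nat_lit 0) (XT.lf (nat_lit 0) (nat_lit 4160682645) (nat_lit 152) (nat_lit 58896542275) (nat_lit 76) (nat_lit 153683163697) (nat_lit 44) (nat_lit 5) (nat_lit 46) (nat_lit 5) (nat_lit 45) (nat_lit 4) (nat_lit 514) (nat_lit 428) (nat_lit 258)) (XT.lf (nat_lit 0) (nat_lit 66932084428) (nat_lit 152) (nat_lit 154640117455) (nat_lit 0) (nat_lit 2716137413) (nat_lit 43) (nat_lit 5) (nat_lit 45) (nat_lit 4) (nat_lit 43) (nat_lit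 4) (nat_lit 515) (nat_lit 428) (nat_lit 257)))))) (XT.nd (nat_lit 624) (nat_lit 532) (nat_lit 0) (XT.nd (nat_lit 312) (nat_lit 228) (nat_lit 0) (XT.nd (nat_lit 156) (nat_lit 152) (nat_lit 0) (XT.nd (nat_lit 78) (nat_lit 76) (nat_lit 0) (XT.lf (nat_lit 0) (nat_lit 134887999074) (nat_lit 152) (nat_lit 26552067286) (nat_lit 0) (nat_lit 70671324017) (nat_lit 43) (nat_lit 5) (nat_lit 45) (nat_lit 4) (nat_lit 43) (nat_lit 4) (nat_lit 516) (nat_lit 428) (nat_lit 256)) (XT.lf (nat_lit 0) (nat_lit 111506278411) (nat_lit 76) (nat_lit 96474856386) (nat_lit 76) (nat_lit 32257487955) (nat_lit 42) (nat_lit 4) (nat_lit 43) (nat_lit 5) (nat_lit 43) (nat_lit 4) (nat_lit 517) (nat_lit 428) (nat_lit 255))) (XT.nd (nat_lit 78) (nat_lit 0) (nat_lit 0) (XT.lf (nat_lit 0) (nat_lit 8334634352) (nat_lit 76) (nat_lit 27056908642) (nat_lit 152) (nat_lit 213323320921) (nat_lit 40) (nat_lit 5) (nat_lit 41) (nat_lit 5) (nat_lit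 42) (nat_lit 4) (nat_lit 518) (nat_lit 428) (nat_lit 254)) (XT.lf (nat_lit 0) (nat_lit 108268914971) (nat_lit 152) (nat_lit 102064775387) (nat_lit 0) (nat_lit 47108288592) (nat_lit 40) (nat_lit 5) (nat_lit 42) (nat_lit 4) (nat_lit 40) (nat_lit 4) (nat_lit 519) (nat_lit 428) (nat_lit 253)))) (XT.nd (nat_lit 156) (nat_lit 152) (nat_lit 0) (XT.nd (nat_lit 78) (nat_lit 0) (nat_lit 0) (XT.lf (nat_lit 0) (nat_lit 44132548553) (nat_lit 76) (nat_lit 141788769931) (nat_lit 76) (nat_lit 80627573111) (nat_lit 39) (nat_lit 4) (nat_lit 40) (nat_lit 5) (nat_lit 40) (nat_lit 4) (nat_lit 520) (nat_lit 428) (nat_lit 252)) (XT.lf (nat_lit 0) (nat_lit 201180379189) (nat_lit 76) (nat_lit 68003077529) (nat_lit 76) (nat_lit 6841337432) (nat_lit 39) (nat_lit 4) (nat_lit 40) (nat_lit 5) (nat_lit 40) (nat_lit 4) (nat_lit 521) (nat_lit 428) (nat_lit 251))) (XT.nd (nat_lit 78) (nat_lit 0) (nat_lit 0) (XT.lf (nat_lit 0) (nat_lit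 69833148895) (nat_lit 152) (nat_lit 204429839465) (nat_lit 0) (nat_lit 11583379844) (nat_lit 37) (nat_lit 5) (nat_lit 39) (nat_lit 4) (nat_lit 37) (nat_lit 4) (nat_lit 522) (nat_lit 428) (nat_lit 250)) (XT.lf (nat_lit 0) (nat_lit 152513200459) (nat_lit 152) (nat_lit 49257163011) (nat_lit 0) (nat_lit 94262962106) (nat_lit 37) (nat_lit 5) (nat_lit 39) (nat_lit 4) (nat_lit 37) (nat_lit 4) (nat_lit 523) (nat_lit 428) (nat_lit 249))))) (XT.nd (nat_lit 312) (nat_lit 304) (nat_lit 0) (XT.nd (nat_lit 156) (nat_lit 76) (nat_lit 0) (XT.nd (nat_lit 78) (nat_lit 76) (nat_lit 0) (XT.lf (nat_lit 0) (nat_lit 117430041642) (nat_lit 76) (nat_lit 123729334212) (nat_lit 76) (nat_lit 65478648904) (nat_lit 36) (nat_lit 4) (nat_lit 37) (nat_lit 5) (nat_lit 37) (nat_lit 4) (nat_lit 524) (nat_lit 428) (nat_lit 248)) (XT.lf (nat_lit 0) (nat_lit 16784500573) (nat_lit 152) (nat_lit 23842884803) (nat_lit 76) (nat_lit 277090391410)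 (nat_lit 35) (nat_lit 5) (nat_lit 37) (nat_lit 5) (nat_lit 36) (nat_lit 4) (nat_lit 525) (nat_lit 428) (nat_lit 247))) (XT.nd (nat_lit 78) (nat_lit 0) (nat_lit 0) (XT.lf (nat_lit 0) (nat_lit 104142607937) (nat_lit 152) (nat_lit 176331148551) (nat_lit 0) (nat_lit 48664973288) (nat_lit 34) (nat_lit 5) (nat_lit 36) (nat_lit 4) (nat_lit 34) (nat_lit 4) (nat_lit 526) (nat_lit 428) (nat_lit 246)) (XT.lf (nat_lit 0) (nat_lit 196943826308) (nat_lit 152) (nat_lit 2667319882) (nat_lit 0) (nat_lit 141465823948) (nat_lit 34) (nat_lit 5) (nat_lit 36) (nat_lit 4) (nat_lit 34) (nat_lit 4) (nat_lit 527) (nat_lit 428) (nat_lit 245)))) (XT.nd (nat_lit 156) (nat_lit 76) (nat_lit 0) (XT.nd (nat_lit 78) (nat_lit 152) (nat_lit 0) (XT.lf (nat_lit 0) (nat_lit 185618284089) (nat_lit 76) (nat_lit 111663674179) (nat_lit 76) (nat_lit 56185321619) (nat_lit 33) (nat_lit 4) (nat_lit 34) (nat_lit 5) (nat_lit 34) (nat_lit 4) (nat_lit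 528) (nat_lit 428) (nat_lit 244)) (XT.lf (nat_lit 0) (nat_lit 16909475109) (nat_lit 76) (nat_lit 18401823034) (nat_lit 152) (nat_lit 331122141683) (nat_lit 31) (nat_lit 5) (nat_lit 32) (nat_lit 5) (nat_lit 33) (nat_lit 4) (nat_lit 529) (nat_lit 428) (nat_lit 243))) (XT.nd (nat_lit 78) (nat_lit 76) (nat_lit 0) (XT.lf (nat_lit 0) (nat_lit 133624169125) (nat_lit 152) (nat_lit 165384181606) (nat_lit 0) (nat_lit 80787022717) (nat_lit 31) (nat_lit 5) (nat_lit 33) (nat_lit 4) (nat_lit 31) (nat_lit 4) (nat_lit 530) (nat_lit 428) (nat_lit 242)) (XT.nd (nat_lit 78) (nat_lit 0) (nat_lit 0) (XT.lf (nat_lit 0) (nat_lit 28573192472) (nat_lit 76) (nat_lit 209026156274) (nat_lit 76) (nat_lit 156188721755) (nat_lit 30) (nat_lit 4) (nat_lit 31) (nat_lit 5) (nat_lit 31) (nat_lit 4) (nat_lit 531) (nat_lit 428) (nat_lit 241)) (XT.lf (nat_lit 0) (nat_lit 237967987314) (nat_lit 76) (nat_lit 111605067808) (nat_lit 76)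 (nat_lit 58767358898) (nat_lit 30) (nat_lit 4) (nat_lit 31) (nat_lit 5) (nat_lit 31) (nat_lit 4) (nat_lit 532) (nat_lit 428) (nat_lit 240))))))))
noncomputable def xc310 : XT := (XT.nd (nat_lit 1248) (nat_lit 228) (nat_lit 0) (XT.nd (nat_lit 624) (nat_lit 380) (nat_lit 0) (XT.nd (nat_lit 312) (nat_lit 228) (nat_lit 0) (XT.nd (nat_lit 156) (nat_lit 76) (nat_lit 0) (XT.nd (nat_lit 78) (nat_lit 0) (nat_lit 0) (XT.lf (nat_lit 0) (nat_lit 34639124250) (nat_lit 76) (nat_lit 8032629157) (nat_lit 152) (nat_lit 380887656121) (nat_lit 28) (nat_lit 5) (nat_lit 29) (nat_lit 5) (nat_lit 30) (nat_lit 4) (nat_lit 533) (nat_lit 428) (nat_lit 239)) (XT.lf (nat_lit 0) (nat_lit 151711932262) (nat_lit 152) (nat_lit 186164229790) (nat_lit 0) (nat_lit 101389818817) (nat_lit 28) (nat_lit 5) (nat_lit 30) (nat_lit 4) (nat_lit 28) (nat_lit 4) (nat_lit 534) (nat_lit 428) (nat_lit 238))) (XT.nd (nat_lit 78) (nat_lit 0) (nat_lit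 0) (XT.lf (nat_lit 0) (nat_lit 27475285118) (nat_lit 76) (nat_lit 239288476389) (nat_lit 76) (nat_lit 188966137201) (nat_lit 27) (nat_lit 4) (nat_lit 28) (nat_lit 5) (nat_lit 28) (nat_lit 4) (nat_lit 535) (nat_lit 428) (nat_lit 237)) (XT.lf (nat_lit 0) (nat_lit 258257968771) (nat_lit 76) (nat_lit 132462004157) (nat_lit 76) (nat_lit 82139449977) (nat_lit 27) (nat_lit 4) (nat_lit 28) (nat_lit 5) (nat_lit 28) (nat_lit 4) (nat_lit 536) (nat_lit 428) (nat_lit 236)))) (XT.nd (nat_lit 156) (nat_lit 76) (nat_lit 0) (XT.nd (nat_lit 78) (nat_lit 0) (nat_lit 0) (XT.lf (nat_lit 0) (nat_lit 9569884458) (nat_lit 76) (nat_lit 19646039148) (nat_lit 152) (nat_lit 461598635510) (nat_lit 25) (nat_lit 5) (nat_lit 26) (nat_lit 5) (nat_lit 27) (nat_lit 4) (nat_lit 537) (nat_lit 428) (nat_lit 235)) (XT.lf (nat_lit 0) (nat_lit 148614355255) (nat_lit 152) (nat_lit 260036251336) (nat_lit 0) (nat_lit 100687732454) (nat_lit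 25) (nat_lit 5) (nat_lit 27) (nat_lit 4) (nat_lit 25) (nat_lit 4) (nat_lit 538) (nat_lit 428) (nat_lit 234))) (XT.nd (nat_lit 78) (nat_lit 76) (nat_lit 0) (XT.lf (nat_lit 0) (nat_lit 274303862078) (nat_lit 152) (nat_lit 28091325812) (nat_lit 0) (nat_lit 226377062402) (nat_lit 25) (nat_lit 5) (nat_lit 27) (nat_lit 4) (nat_lit 25) (nat_lit 4) (nat_lit 539) (nat_lit 428) (nat_lit 233)) (XT.lf (nat_lit 0) (nat_lit 222572801094) (nat_lit 76) (nat_lit 187179159168) (nat_lit 76) (nat_lit 139252191040) (nat_lit 24) (nat_lit 4) (nat_lit 25) (nat_lit 5) (nat_lit 25) (nat_lit 4) (nat_lit 540) (nat_lit 428) (nat_lit 232))))) (XT.nd (nat_lit 312) (nat_lit 152) (nat_lit 0) (XT.nd (nat_lit 156) (nat_lit 76) (nat_lit 0) (XT.nd (nat_lit 78) (nat_lit 152) (nat_lit 0) (XT.lf (nat_lit 0) (nat_lit 486743665684) (nat_lit 76) (nat_lit 65703682987) (nat_lit 76) (nat_lit 17776554427) (nat_lit 24) (nat_lit 4) (nat_lit 25)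 (nat_lit 5) (nat_lit 25) (nat_lit 4) (nat_lit 541) (nat_lit 428) (nat_lit 231)) (XT.lf (nat_lit 0) (nat_lit 110037577951) (nat_lit 152) (nat_lit 417799916785) (nat_lit 0) (nat_lit 64392548092) (nat_lit 22) (nat_lit 5) (nat_lit 24) (nat_lit 4) (nat_lit 22) (nat_lit 4) (nat_lit 542) (nat_lit 428) (nat_lit 230))) (XT.nd (nat_lit 78) (nat_lit 76) (nat_lit 0) (XT.lf (nat_lit 0) (nat_lit 246158245573) (nat_lit 152) (nat_lit 168524934027) (nat_lit 0) (nat_lit 200513077128) (nat_lit 22) (nat_lit 5) (nat_lit 24) (nat_lit 4) (nat_lit 22) (nat_lit 4) (nat_lit 543) (nat_lit 428) (nat_lit 229)) (XT.lf (nat_lit 0) (nat_lit 96294212873) (nat_lit 76) (nat_lit 294293368569) (nat_lit 76) (nat_lit 248648068137) (nat_lit 21) (nat_lit 4) (nat_lit 22) (nat_lit 5) (nat_lit 22) (nat_lit 4) (nat_lit 544) (nat_lit 428) (nat_lit 228)))) (XT.nd (nat_lit 156) (nat_lit 76) (nat_lit 0) (XT.nd (nat_lit 78) (nat_lit 76) (nat_lit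 0) (XT.lf (nat_lit 0) (nat_lit 380203546938) (nat_lit 76) (nat_lit 164888113722) (nat_lit 76) (nat_lit 119242687589) (nat_lit 21) (nat_lit 4) (nat_lit 22) (nat_lit 5) (nat_lit 22) (nat_lit 4) (nat_lit 545) (nat_lit 428) (nat_lit 227)) (XT.lf (nat_lit 0) (nat_lit 16099853376) (nat_lit 152) (nat_lit 12640846428) (nat_lit 76) (nat_lit 661934335189) (nat_lit 20) (nat_lit 5) (nat_lit 22) (nat_lit 5) (nat_lit 21) (nat_lit 4) (nat_lit 546) (nat_lit 428) (nat_lit 226))) (XT.nd (nat_lit 78) (nat_lit 0) (nat_lit 0) (XT.lf (nat_lit 0) (nat_lit 160450598295) (nat_lit 152) (nat_lit 440493455936) (nat_lit 0) (nat_lit 116978541280) (nat_lit 19) (nat_lit 5) (nat_lit 21) (nat_lit 4) (nat_lit 19) (nat_lit 4) (nat_lit 547) (nat_lit 428) (nat_lit 225)) (XT.lf (nat_lit 0) (nat_lit 312706913928) (nat_lit 152) (nat_lit 164556464955) (nat_lit 0) (nat_lit 269234753498) (nat_lit 19) (nat_lit 5) (nat_lit 21) (nat_lit 4)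 (nat_lit 19) (nat_lit 4) (nat_lit 548) (nat_lit 428) (nat_lit 224)))))) (XT.nd (nat_lit 53430) (nat_lit 0) (nat_lit 10792) (XT.nd (nat_lit 53118) (nat_lit 0) (nat_lit 11172) (XT.nd (nat_lit 156) (nat_lit 152) (nat_lit 0) (XT.nd (nat_lit 78) (nat_lit 0) (nat_lit 0) (XT.lf (nat_lit 0) (nat_lit 129314875497) (nat_lit 76) (nat_lit 345279457568) (nat_lit 76) (nat_lit 301807198647) (nat_lit 18) (nat_lit 4) (nat_lit 19) (nat_lit 5) (nat_lit 19) (nat_lit 4) (nat_lit 549) (nat_lit 428) (nat_lit 223)) (XT.lf (nat_lit 0) (nat_lit 443591450495) (nat_lit 76) (nat_lit 203770847253) (nat_lit 76) (nat_lit 160298494532) (nat_lit 18) (nat_lit 4) (nat_lit 19) (nat_lit 5) (nat_lit 19) (nat_lit 4) (nat_lit 550) (nat_lit 428) (nat_lit 222))) (XT.nd (nat_lit 78) (nat_lit 152) (nat_lit 0) (XT.lf (nat_lit 0) (nat_lit 773580557707) (nat_lit 76) (nat_lit 55187466036) (nat_lit 76) (nat_lit 11715023980) (nat_lit 18) (nat_lit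 4) (nat_lit 19) (nat_lit 5) (nat_lit 19) (nat_lit 4) (nat_lit 551) (nat_lit 428) (nat_lit 221)) (XT.lf (nat_lit 0) (nat_lit 145271115129) (nat_lit 152) (nat_lit 625414351964) (nat_lit 0) (nat_lit 103868708333) (nat_lit 16) (nat_lit 5) (nat_lit 18) (nat_lit 4) (nat_lit 16) (nat_lit 4) (nat_lit 552) (nat_lit 428) (nat_lit 220)))) (XT.nd (nat_lit 156) (nat_lit 0) (nat_lit 76) (XT.nd (nat_lit 78) (nat_lit 0) (nat_lit 0) (XT.lf (nat_lit 0) (nat_lit 2113191199) (nat_lit 836) (nat_lit 3159797540) (nat_lit 836) (nat_lit 3159797540) (nat_lit 163) (nat_lit 3) (nat_lit 174) (nat_lit 3) (nat_lit 174) (nat_lit 5) (nat_lit 429) (nat_lit 429) (nat_lit 342)) (XT.lf (nat_lit 76) (nat_lit 2147978776) (nat_lit 0) (nat_lit 2448228256) (nat_lit 836) (nat_lit 12677778786) (nat_lit 164) (nat_lit 5) (nat_lit 163) (nat_lit 3) (nat_lit 174) (nat_lit 5) (nat_lit 430) (nat_lit 429) (nat_lit 341))) (XT.nd (nat_lit 78) (nat_lit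 0) (nat_lit 0) (XT.lf (nat_lit 0) (nat_lit 5173048360) (nat_lit 760) (nat_lit 6544276356) (nat_lit 836) (nat_lit 5976069891) (nat_lit 164) (nat_lit 5) (nat_lit 174) (nat_lit 5) (nat_lit 175) (nat_lit 5) (nat_lit 431) (nat_lit 429) (nat_lit 340)) (XT.lf (nat_lit 76) (nat_lit 2497916340) (nat_lit 0) (nat_lit 3345872885) (nat_lit 836) (nat_lit 12286732822) (nat_lit 165) (nat_lit 5) (nat_lit 164) (nat_lit 5) (nat_lit 175) (nat_lit 5) (nat_lit 432) (nat_lit 429) (nat_lit 339))))) (XT.nd (nat_lit 312) (nat_lit 532) (nat_lit 0) (XT.nd (nat_lit 156) (nat_lit 0) (nat_lit 76) (XT.nd (nat_lit 78) (nat_lit 0) (nat_lit 0) (XT.lf (nat_lit 0) (nat_lit 6732258503) (nat_lit 760) (nat_lit 6460420530) (nat_lit 836) (nat_lit 5387618293) (nat_lit 165) (nat_lit 5) (nat_lit 175) (nat_lit 5) (nat_lit 176) (nat_lit 5) (nat_lit 433) (nat_lit 429) (nat_lit 338)) (XT.lf (nat_lit 76) (nat_lit 3209620964) (nat_lit 0) (nat_lit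 4547678046) (nat_lit 836) (nat_lit 11290655954) (nat_lit 166) (nat_lit 5) (nat_lit 165) (nat_lit 5) (nat_lit 176) (nat_lit 5) (nat_lit 434) (nat_lit 429) (nat_lit 337))) (XT.nd (nat_lit 78) (nat_lit 0) (nat_lit 0) (XT.lf (nat_lit 0) (nat_lit 9003238683) (nat_lit 760) (nat_lit 6027751218) (nat_lit 836) (nat_lit 4499524162) (nat_lit 166) (nat_lit 5) (nat_lit 176) (nat_lit 5) (nat_lit 177) (nat_lit 5) (nat_lit 435) (nat_lit 429) (nat_lit 336)) (XT.lf (nat_lit 76) (nat_lit 4328619008) (nat_lit 0) (nat_lit 6113298734) (nat_lit 836) (nat_lit 9588762149) (nat_lit 167) (nat_lit 5) (nat_lit 166) (nat_lit 5) (nat_lit 177) (nat_lit 5) (nat_lit 436) (nat_lit 429) (nat_lit 335)))) (XT.nd (nat_lit 156) (nat_lit 684) (nat_lit 0) (XT.nd (nat_lit 78) (nat_lit 0) (nat_lit 0) (XT.lf (nat_lit 0) (nat_lit 12095805895) (nat_lit 760) (nat_lit 5200289320) (nat_lit 836) (nat_lit 3252595888) (nat_lit 167) (nat_lit 5) (nat_lit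 177) (nat_lit 5) (nat_lit 178) (nat_lit 5) (nat_lit 437) (nat_lit 429) (nat_lit 334)) (XT.lf (nat_lit 76) (nat_lit 5906642553) (nat_lit 0) (nat_lit 8107490618) (nat_lit 836) (nat_lit 7069383279) (nat_lit 168) (nat_lit 5) (nat_lit 167) (nat_lit 5) (nat_lit 178) (nat_lit 5) (nat_lit 438) (nat_lit 429) (nat_lit 333))) (XT.nd (nat_lit 78) (nat_lit 760) (nat_lit 0) (XT.lf (nat_lit 0) (nat_lit 16131650806) (nat_lit 760) (nat_lit 3925873865) (nat_lit 76) (nat_lit 1582395464) (nat_lit 168) (nat_lit 5) (nat_lit 178) (nat_lit 5) (nat_lit 169) (nat_lit 5) (nat_lit 439) (nat_lit 429) (nat_lit 332)) (XT.nd (nat_lit 78) (nat_lit 0) (nat_lit 0) (XT.lf (nat_lit 0) (nat_lit 8002160235) (nat_lit 760) (nat_lit 10600928589) (nat_lit 836) (nat_lit 3608653691) (nat_lit 158) (nat_lit 5) (nat_lit 168) (nat_lit 5) (nat_lit 169) (nat_lit 5) (nat_lit 440) (nat_lit 429) (nat_lit 331)) (XT.lf (nat_lit 0) (nat_lit 20654308895)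 (nat_lit 760) (nat_lit 600807794) (nat_lit 836) (nat_lit 1554189126) (nat_lit 158) (nat_lit 5) (nat_lit 168) (nat_lit 5) (nat_lit 169) (nat_lit 5) (nat_lit 441) (nat_lit 429) (nat_lit 330))))))))
noncomputable def xc311 : XT := (XT.nd (nat_lit 1248) (nat_lit 2052) (nat_lit 0) (XT.nd (nat_lit 624) (nat_lit 1520) (nat_lit 0) (XT.nd (nat_lit 312) (nat_lit 608) (nat_lit 0) (XT.nd (nat_lit 156) (nat_lit 380) (nat_lit 0) (XT.nd (nat_lit 78) (nat_lit 380) (nat_lit 0) (XT.lf (nat_lit 0) (nat_lit 901129693) (nat_lit 532) (nat_lit 12754687620) (nat_lit 76) (nat_lit 9764588340) (nat_lit 151) (nat_lit 5) (nat_lit 158) (nat_lit 5) (nat_lit 152) (nat_lit 5) (nat_lit 442) (nat_lit 429) (nat_lit 329)) (XT.lf (nat_lit 0) (nat_lit 100547250) (nat_lit 380) (nat_lit 3366097689) (nat_lit 456) (nat_lit 20592159150) (nat_lit 146) (nat_lit 5) (nat_lit 151) (nat_lit 5) (nat_lit 152) (nat_lit 5) (nat_lit 443) (nat_lit 429)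 (nat_lit 328))) (XT.nd (nat_lit 78) (nat_lit 380) (nat_lit 0) (XT.lf (nat_lit 0) (nat_lit 6487546718) (nat_lit 456) (nat_lit 10805715192) (nat_lit 76) (nat_lit 7419505575) (nat_lit 146) (nat_lit 5) (nat_lit 152) (nat_lit 5) (nat_lit 147) (nat_lit 5) (nat_lit 444) (nat_lit 429) (nat_lit 327)) (XT.lf (nat_lit 0) (nat_lit 3037854204) (nat_lit 380) (nat_lit 6716091830) (nat_lit 456) (nat_lit 15640760941) (nat_lit 141) (nat_lit 5) (nat_lit 146) (nat_lit 5) (nat_lit 147) (nat_lit 5) (nat_lit 445) (nat_lit 429) (nat_lit 326)))) (XT.nd (nat_lit 156) (nat_lit 304) (nat_lit 0) (XT.nd (nat_lit 78) (nat_lit 304) (nat_lit 0) (XT.lf (nat_lit 0) (nat_lit 13430291887) (nat_lit 456) (nat_lit 8233275022) (nat_lit 76) (nat_lit 4434845726) (nat_lit 141) (nat_lit 5) (nat_lit 147) (nat_lit 5) (nat_lit 142) (nat_lit 5) (nat_lit 446) (nat_lit 429) (nat_lit 325)) (XT.lf (nat_lit 0) (nat_lit 6692099814) (nat_lit 304) (nat_lit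 10805401648) (nat_lit 380) (nat_lit 9329450290) (nat_lit 137) (nat_lit 5) (nat_lit 141) (nat_lit 5) (nat_lit 142) (nat_lit 5) (nat_lit 447) (nat_lit 429) (nat_lit 324))) (XT.nd (nat_lit 78) (nat_lit 304) (nat_lit 0) (XT.lf (nat_lit 0) (nat_lit 21911768755) (nat_lit 380) (nat_lit 4955631998) (nat_lit 76) (nat_lit 717332683) (nat_lit 137) (nat_lit 5) (nat_lit 142) (nat_lit 5) (nat_lit 138) (nat_lit 5) (nat_lit 448) (nat_lit 429) (nat_lit 323)) (XT.lf (nat_lit 0) (nat_lit 11154142878) (nat_lit 304) (nat_lit 15736917243) (nat_lit 380) (nat_lit 1472129000) (nat_lit 133) (nat_lit 5) (nat_lit 137) (nat_lit 5) (nat_lit 138) (nat_lit 5) (nat_lit 449) (nat_lit 429) (nat_lit 322))))) (XT.nd (nat_lit 312) (nat_lit 836) (nat_lit 0) (XT.nd (nat_lit 156) (nat_lit 304) (nat_lit 0) (XT.nd (nat_lit 78) (nat_lit 304) (nat_lit 0) (XT.lf (nat_lit 0) (nat_lit 2923111254) (nat_lit 380) (nat_lit 990539455) (nat_lit 76)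 (nat_lit 25260702129) (nat_lit 132) (nat_lit 5) (nat_lit 137) (nat_lit 5) (nat_lit 133) (nat_lit 5) (nat_lit 450) (nat_lit 429) (nat_lit 321)) (XT.lf (nat_lit 0) (nat_lit 7877588200) (nat_lit 380) (nat_lit 13613564807) (nat_lit 76) (nat_lit 8514268068) (nat_lit 128) (nat_lit 5) (nat_lit 133) (nat_lit 5) (nat_lit 129) (nat_lit 5) (nat_lit 451) (nat_lit 429) (nat_lit 320))) (XT.nd (nat_lit 78) (nat_lit 0) (nat_lit 0) (XT.lf (nat_lit 0) (nat_lit 3851254321) (nat_lit 304) (nat_lit 9363485558) (nat_lit 380) (nat_lit 17656555671) (nat_lit 124) (nat_lit 5) (nat_lit 128) (nat_lit 5) (nat_lit 129) (nat_lit 5) (nat_lit 452) (nat_lit 429) (nat_lit 319)) (XT.lf (nat_lit 0) (nat_lit 19099469648) (nat_lit 380) (nat_lit 9171678278) (nat_lit 76) (nat_lit 3495280152) (nat_lit 124) (nat_lit 5) (nat_lit 129) (nat_lit 5) (nat_lit 125) (nat_lit 5) (nat_lit 453) (nat_lit 429) (nat_lit 318)))) (XT.nd (nat_lit 156) (nat_lit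 608) (nat_lit 0) (XT.nd (nat_lit 78) (nat_lit 0) (nat_lit 0) (XT.lf (nat_lit 0) (nat_lit 9718773785) (nat_lit 228) (nat_lit 15858960779) (nat_lit 304) (nat_lit 7113618070) (nat_lit 121) (nat_lit 5) (nat_lit 124) (nat_lit 5) (nat_lit 125) (nat_lit 5) (nat_lit 454) (nat_lit 429) (nat_lit 317)) (XT.lf (nat_lit 0) (nat_lit 29864404954) (nat_lit 228) (nat_lit 2665057756) (nat_lit 304) (nat_lit 1125583531) (nat_lit 121) (nat_lit 5) (nat_lit 124) (nat_lit 5) (nat_lit 125) (nat_lit 5) (nat_lit 455) (nat_lit 429) (nat_lit 316))) (XT.nd (nat_lit 78) (nat_lit 228) (nat_lit 0) (XT.lf (nat_lit 0) (nat_lit 5433617422) (nat_lit 380) (nat_lit 18030408961) (nat_lit 76) (nat_lit 11177020075) (nat_lit 116) (nat_lit 5) (nat_lit 121) (nat_lit 5) (nat_lit 117) (nat_lit 5) (nat_lit 456) (nat_lit 429) (nat_lit 315)) (XT.lf (nat_lit 0) (nat_lit 2499555519) (nat_lit 228) (nat_lit 9925885397) (nat_lit 304) (nat_lit 23242858964)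 (nat_lit 113) (nat_lit 5) (nat_lit 116) (nat_lit 5) (nat_lit 117) (nat_lit 5) (nat_lit 457) (nat_lit 429) (nat_lit 314)))))) (XT.nd (nat_lit 624) (nat_lit 1140) (nat_lit 0) (XT.nd (nat_lit 312) (nat_lit 456) (nat_lit 0) (XT.nd (nat_lit 156) (nat_lit 228) (nat_lit 0) (XT.nd (nat_lit 78) (nat_lit 228) (nat_lit 0) (XT.lf (nat_lit 0) (nat_lit 20138814539) (nat_lit 304) (nat_lit 12129431966) (nat_lit 76) (nat_lit 4460071783) (nat_lit 113) (nat_lit 5) (nat_lit 117) (nat_lit 5) (nat_lit 114) (nat_lit 5) (nat_lit 458) (nat_lit 429) (nat_lit 313)) (XT.lf (nat_lit 0) (nat_lit 10115450549) (nat_lit 228) (nat_lit 18437945406) (nat_lit 304) (nat_lit 9272164958) (nat_lit 110) (nat_lit 5) (nat_lit 113) (nat_lit 5) (nat_lit 114) (nat_lit 5) (nat_lit 459) (nat_lit 429) (nat_lit 312))) (XT.nd (nat_lit 78) (nat_lit 228) (nat_lit 0) (XT.lf (nat_lit 0) (nat_lit 33886369921) (nat_lit 228) (nat_lit 3702772655) (nat_lit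 304) (nat_lit 1378501525) (nat_lit 110) (nat_lit 5) (nat_lit 113) (nat_lit 5) (nat_lit 114) (nat_lit 5) (nat_lit 460) (nat_lit 429) (nat_lit 311)) (XT.lf (nat_lit 0) (nat_lit 7173674412) (nat_lit 228) (nat_lit 21159292213) (nat_lit 76) (nat_lit 11804221561) (nat_lit 107) (nat_lit 5) (nat_lit 110) (nat_lit 5) (nat_lit 108) (nat_lit 5) (nat_lit 461) (nat_lit 429) (nat_lit 310)))) (XT.nd (nat_lit 156) (nat_lit 228) (nat_lit 0) (XT.nd (nat_lit 78) (nat_lit 0) (nat_lit 0) (XT.lf (nat_lit 0) (nat_lit 3061598683) (nat_lit 228) (nat_lit 13236761370) (nat_lit 304) (nat_lit 25056158331) (nat_lit 104) (nat_lit 5) (nat_lit 107) (nat_lit 5) (nat_lit 108) (nat_lit 5) (nat_lit 462) (nat_lit 429) (nat_lit 309)) (XT.lf (nat_lit 0) (nat_lit 26279651176) (nat_lit 304) (nat_lit 13440637323) (nat_lit 76) (nat_lit 2892408228) (nat_lit 104) (nat_lit 5) (nat_lit 108) (nat_lit 5) (nat_lit 105) (nat_lit 5) (nat_lit 463)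 (nat_lit 429) (nat_lit 308))) (XT.nd (nat_lit 78) (nat_lit 76) (nat_lit 0) (XT.lf (nat_lit 0) (nat_lit 12841326648) (nat_lit 152) (nat_lit 24331725431) (nat_lit 228) (nat_lit 6740079836) (nat_lit 102) (nat_lit 5) (nat_lit 104) (nat_lit 5) (nat_lit 105) (nat_lit 5) (nat_lit 464) (nat_lit 429) (nat_lit 307)) (XT.lf (nat_lit 0) (nat_lit 3452821126) (nat_lit 228) (nat_lit 4425925043) (nat_lit 76) (nat_lit 37385893909) (nat_lit 101) (nat_lit 5) (nat_lit 104) (nat_lit 5) (nat_lit 102) (nat_lit 5) (nat_lit 465) (nat_lit 429) (nat_lit 306))))) (XT.nd (nat_lit 312) (nat_lit 532) (nat_lit 0) (XT.nd (nat_lit 156) (nat_lit 228) (nat_lit 0) (XT.nd (nat_lit 78) (nat_lit 152) (nat_lit 0) (XT.lf (nat_lit 0) (nat_lit 14457326795) (nat_lit 304) (nat_lit 22604205204) (nat_lit 76) (nat_lit 9590243629) (nat_lit 98) (nat_lit 5) (nat_lit 102) (nat_lit 5) (nat_lit 99) (nat_lit 5) (nat_lit 466) (nat_lit 429) (nat_lit 305))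 (XT.lf (nat_lit 0) (nat_lit 6050441005) (nat_lit 152) (nat_lit 20257288077) (nat_lit 228) (nat_lit 21785755463) (nat_lit 96) (nat_lit 5) (nat_lit 98) (nat_lit 5) (nat_lit 99) (nat_lit 5) (nat_lit 467) (nat_lit 429) (nat_lit 304))) (XT.nd (nat_lit 78) (nat_lit 228) (nat_lit 0) (XT.lf (nat_lit 0) (nat_lit 36915993631) (nat_lit 152) (nat_lit 2213428324) (nat_lit 228) (nat_lit 10458918575) (nat_lit 96) (nat_lit 5) (nat_lit 98) (nat_lit 5) (nat_lit 99) (nat_lit 5) (nat_lit 468) (nat_lit 429) (nat_lit 303)) (XT.lf (nat_lit 0) (nat_lit 1943358379) (nat_lit 228) (nat_lit 32670944930) (nat_lit 76) (nat_lit 16514766322) (nat_lit 93) (nat_lit 5) (nat_lit 96) (nat_lit 5) (nat_lit 94) (nat_lit 5) (nat_lit 469) (nat_lit 429) (nat_lit 302)))) (XT.nd (nat_lit 156) (nat_lit 380) (nat_lit 0) (XT.nd (nat_lit 78) (nat_lit 152) (nat_lit 0) (XT.lf (nat_lit 0) (nat_lit 14864812983) (nat_lit 228) (nat_lit 1368748813)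 (nat_lit 76) (nat_lit 36492173031) (nat_lit 93) (nat_lit 5) (nat_lit 96) (nat_lit 5) (nat_lit 94) (nat_lit 5) (nat_lit 470) (nat_lit 429) (nat_lit 301)) (XT.lf (nat_lit 0) (nat_lit 28992762740) (nat_lit 228) (nat_lit 21899492858) (nat_lit 76) (nat_lit 3481956685) (nat_lit 91) (nat_lit 5) (nat_lit 94) (nat_lit 5) (nat_lit 92) (nat_lit 5) (nat_lit 471) (nat_lit 429) (nat_lit 300))) (XT.nd (nat_lit 78) (nat_lit 228) (nat_lit 0) (XT.lf (nat_lit 0) (nat_lit 12067463716) (nat_lit 152) (nat_lit 32234099875) (nat_lit 228) (nat_lit 11779827456) (nat_lit 89) (nat_lit 5) (nat_lit 91) (nat_lit 5) (nat_lit 92) (nat_lit 5) (nat_lit 472) (nat_lit 429) (nat_lit 299)) (XT.nd (nat_lit 78) (nat_lit 152) (nat_lit 0) (XT.lf (nat_lit 0) (nat_lit 2795140490) (nat_lit 228) (nat_lit 9413669747) (nat_lit 76) (nat_lit 45644498531) (nat_lit 88) (nat_lit 5) (nat_lit 91) (nat_lit 5) (nat_lit 89) (nat_lit 5) (nat_lit 473) (nat_lit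 429) (nat_lit 298)) (XT.lf (nat_lit 0) (nat_lit 18278321461) (nat_lit 228) (nat_lit 32229678520) (nat_lit 76) (nat_lit 9167399693) (nat_lit 86) (nat_lit 5) (nat_lit 89) (nat_lit 5) (nat_lit 87) (nat_lit 5) (nat_lit 474) (nat_lit 429) (nat_lit 297))))))))
noncomputable def xc312 : XT := (XT.nd (nat_lit 1248) (nat_lit 1140) (nat_lit 0) (XT.nd (nat_lit 624) (nat_lit 684) (nat_lit 0) (XT.nd (nat_lit 312) (nat_lit 456) (nat_lit 0) (XT.nd (nat_lit 156) (nat_lit 152) (nat_lit 0) (XT.nd (nat_lit 78) (nat_lit 0) (nat_lit 0) (XT.lf (nat_lit 0) (nat_lit 4840495275) (nat_lit 152) (nat_lit 30129512082) (nat_lit 228) (nat_lit 26596870570) (nat_lit 84) (nat_lit 5) (nat_lit 86) (nat_lit 5) (nat_lit 87) (nat_lit 5) (nat_lit 475) (nat_lit 429) (nat_lit 296)) (XT.lf (nat_lit 0) (nat_lit 44877263490) (nat_lit 152) (nat_lit 8161499423) (nat_lit 228) (nat_lit 10487043000) (nat_lit 84) (nat_lit 5) (nat_lit 86) (nat_lit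 5) (nat_lit 87) (nat_lit 5) (nat_lit 476) (nat_lit 429) (nat_lit 295))) (XT.nd (nat_lit 78) (nat_lit 0) (nat_lit 0) (XT.lf (nat_lit 0) (nat_lit 6801598399) (nat_lit 152) (nat_lit 43871624844) (nat_lit 76) (nat_lit 14875485597) (nat_lit 82) (nat_lit 5) (nat_lit 84) (nat_lit 5) (nat_lit 83) (nat_lit 5) (nat_lit 477) (nat_lit 429) (nat_lit 294)) (XT.lf (nat_lit 0) (nat_lit 25053828772) (nat_lit 152) (nat_lit 3307142908) (nat_lit 76) (nat_lit 39280609858) (nat_lit 82) (nat_lit 5) (nat_lit 84) (nat_lit 5) (nat_lit 83) (nat_lit 5) (nat_lit 478) (nat_lit 429) (nat_lit 293)))) (XT.nd (nat_lit 156) (nat_lit 228) (nat_lit 0) (XT.nd (nat_lit 78) (nat_lit 76) (nat_lit 0) (XT.lf (nat_lit 0) (nat_lit 40578900502) (nat_lit 152) (nat_lit 4270268846) (nat_lit 228) (nat_lit 24958403664) (nat_lit 80) (nat_lit 5) (nat_lit 82) (nat_lit 5) (nat_lit 83) (nat_lit 5) (nat_lit 479) (nat_lit 429) (nat_lit 292)) (XT.lf (nat_lit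 0) (nat_lit 14835174565) (nat_lit 76) (nat_lit 51412879129) (nat_lit 152) (nat_lit 5803121597) (nat_lit 79) (nat_lit 5) (nat_lit 80) (nat_lit 5) (nat_lit 81) (nat_lit 4) (nat_lit 480) (nat_lit 429) (nat_lit 291))) (XT.nd (nat_lit 78) (nat_lit 152) (nat_lit 0) (XT.lf (nat_lit 0) (nat_lit 14422023166) (nat_lit 152) (nat_lit 12572254693) (nat_lit 76) (nat_lit 47373003712) (nat_lit 78) (nat_lit 5) (nat_lit 80) (nat_lit 5) (nat_lit 79) (nat_lit 5) (nat_lit 481) (nat_lit 429) (nat_lit 290)) (XT.lf (nat_lit 0) (nat_lit 35334245469) (nat_lit 152) (nat_lit 677951591) (nat_lit 228) (nat_lit 40754799768) (nat_lit 76) (nat_lit 5) (nat_lit 78) (nat_lit 5) (nat_lit 79) (nat_lit 5) (nat_lit 482) (nat_lit 429) (nat_lit 289))))) (XT.nd (nat_lit 312) (nat_lit 380) (nat_lit 0) (XT.nd (nat_lit 156) (nat_lit 152) (nat_lit 0) (XT.nd (nat_lit 78) (nat_lit 76) (nat_lit 0) (XT.lf (nat_lit 0) (nat_lit 6577460811) (nat_lit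 76) (nat_lit 52841498233) (nat_lit 152) (nat_lit 19830884890) (nat_lit 75) (nat_lit 5) (nat_lit 76) (nat_lit 5) (nat_lit 77) (nat_lit 4) (nat_lit 483) (nat_lit 429) (nat_lit 288)) (XT.lf (nat_lit 0) (nat_lit 2792215928) (nat_lit 152) (nat_lit 23456376934) (nat_lit 76) (nat_lit 55570497683) (nat_lit 74) (nat_lit 5) (nat_lit 76) (nat_lit 5) (nat_lit 75) (nat_lit 5) (nat_lit 484) (nat_lit 429) (nat_lit 287))) (XT.nd (nat_lit 78) (nat_lit 0) (nat_lit 0) (XT.lf (nat_lit 0) (nat_lit 26365964956) (nat_lit 228) (nat_lit 55704474393) (nat_lit 76) (nat_lit 2405808318) (nat_lit 72) (nat_lit 5) (nat_lit 75) (nat_lit 5) (nat_lit 73) (nat_lit 4) (nat_lit 485) (nat_lit 429) (nat_lit 286)) (XT.lf (nat_lit 0) (nat_lit 51949773805) (nat_lit 228) (nat_lit 3262547597) (nat_lit 76) (nat_lit 32012372670) (nat_lit 72) (nat_lit 5) (nat_lit 75) (nat_lit 5) (nat_lit 73) (nat_lit 4) (nat_lit 486) (nat_lit 429) (nat_lit 285))))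 (XT.nd (nat_lit 156) (nat_lit 76) (nat_lit 0) (XT.nd (nat_lit 78) (nat_lit 228) (nat_lit 0) (XT.lf (nat_lit 0) (nat_lit 53509333499) (nat_lit 76) (nat_lit 26136308597) (nat_lit 152) (nat_lit 10423277299) (nat_lit 71) (nat_lit 5) (nat_lit 72) (nat_lit 5) (nat_lit 73) (nat_lit 4) (nat_lit 487) (nat_lit 429) (nat_lit 284)) (XT.lf (nat_lit 0) (nat_lit 15623199089) (nat_lit 228) (nat_lit 72514023125) (nat_lit 76) (nat_lit 4883209465) (nat_lit 68) (nat_lit 5) (nat_lit 71) (nat_lit 5) (nat_lit 69) (nat_lit 4) (nat_lit 488) (nat_lit 429) (nat_lit 283))) (XT.nd (nat_lit 78) (nat_lit 76) (nat_lit 0) (XT.lf (nat_lit 0) (nat_lit 43676936830) (nat_lit 228) (nat_lit 15007876652) (nat_lit 76) (nat_lit 37373401067) (nat_lit 68) (nat_lit 5) (nat_lit 71) (nat_lit 5) (nat_lit 69) (nat_lit 4) (nat_lit 489) (nat_lit 429) (nat_lit 282)) (XT.lf (nat_lit 0) (nat_lit 46869113637) (nat_lit 76) (nat_lit 26993586583) (nat_lit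 152) (nat_lit 25348719440) (nat_lit 67) (nat_lit 5) (nat_lit 68) (nat_lit 5) (nat_lit 69) (nat_lit 4) (nat_lit 490) (nat_lit 429) (nat_lit 281)))))) (XT.nd (nat_lit 624) (nat_lit 532) (nat_lit 0) (XT.nd (nat_lit 312) (nat_lit 380) (nat_lit 0) (XT.nd (nat_lit 156) (nat_lit 76) (nat_lit 0) (XT.nd (nat_lit 78) (nat_lit 0) (nat_lit 0) (XT.lf (nat_lit 0) (nat_lit 3457871131) (nat_lit 152) (nat_lit 92485711180) (nat_lit 76) (nat_lit 6550355229) (nat_lit 65) (nat_lit 5) (nat_lit 67) (nat_lit 5) (nat_lit 66) (nat_lit 4) (nat_lit 491) (nat_lit 429) (nat_lit 280)) (XT.lf (nat_lit 0) (nat_lit 34193997987) (nat_lit 152) (nat_lit 29479955012) (nat_lit 76) (nat_lit 42178796212) (nat_lit 65) (nat_lit 5) (nat_lit 67) (nat_lit 5) (nat_lit 66) (nat_lit 4) (nat_lit 492) (nat_lit 429) (nat_lit 279))) (XT.nd (nat_lit 78) (nat_lit 0) (nat_lit 0) (XT.lf (nat_lit 0) (nat_lit 37884254640) (nat_lit 76) (nat_lit 29171868327)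 (nat_lit 152) (nat_lit 42293918939) (nat_lit 64) (nat_lit 5) (nat_lit 65) (nat_lit 5) (nat_lit 66) (nat_lit 4) (nat_lit 493) (nat_lit 429) (nat_lit 278)) (XT.lf (nat_lit 0) (nat_lit 102176671602) (nat_lit 152) (nat_lit 3479798924) (nat_lit 0) (nat_lit 7334962871) (nat_lit 64) (nat_lit 5) (nat_lit 66) (nat_lit 4) (nat_lit 64) (nat_lit 4) (nat_lit 494) (nat_lit 429) (nat_lit 277)))) (XT.nd (nat_lit 156) (nat_lit 152) (nat_lit 0) (XT.nd (nat_lit 78) (nat_lit 76) (nat_lit 0) (XT.lf (nat_lit 0) (nat_lit 23115745874) (nat_lit 152) (nat_lit 47457147804) (nat_lit 76) (nat_lit 46145182717) (nat_lit 62) (nat_lit 5) (nat_lit 64) (nat_lit 5) (nat_lit 63) (nat_lit 4) (nat_lit 495) (nat_lit 429) (nat_lit 276)) (XT.lf (nat_lit 0) (nat_lit 25773893713) (nat_lit 76) (nat_lit 33065574209) (nat_lit 152) (nat_lit 61759712291) (nat_lit 61) (nat_lit 5) (nat_lit 62) (nat_lit 5) (nat_lit 63) (nat_lit 4) (nat_lit 496)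 (nat_lit 429) (nat_lit 275))) (XT.nd (nat_lit 78) (nat_lit 152) (nat_lit 0) (XT.lf (nat_lit 0) (nat_lit 97262732319) (nat_lit 152) (nat_lit 20436045786) (nat_lit 0) (nat_lit 6929893329) (nat_lit 61) (nat_lit 5) (nat_lit 63) (nat_lit 4) (nat_lit 61) (nat_lit 4) (nat_lit 497) (nat_lit 429) (nat_lit 274)) (XT.lf (nat_lit 0) (nat_lit 9952906188) (nat_lit 152) (nat_lit 69931617502) (nat_lit 76) (nat_lit 48894016938) (nat_lit 59) (nat_lit 5) (nat_lit 61) (nat_lit 5) (nat_lit 60) (nat_lit 4) (nat_lit 498) (nat_lit 429) (nat_lit 273))))) (XT.nd (nat_lit 312) (nat_lit 304) (nat_lit 0) (XT.nd (nat_lit 156) (nat_lit 152) (nat_lit 0) (XT.nd (nat_lit 78) (nat_lit 0) (nat_lit 0) (XT.lf (nat_lit 0) (nat_lit 9531729013) (nat_lit 76) (nat_lit 39184824117) (nat_lit 152) (nat_lit 84371992359) (nat_lit 58) (nat_lit 5) (nat_lit 59) (nat_lit 5) (nat_lit 60) (nat_lit 4) (nat_lit 499) (nat_lit 429) (nat_lit 272)) (XT.lf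 (nat_lit 0) (nat_lit 90675502672) (nat_lit 152) (nat_lit 42237554211) (nat_lit 0) (nat_lit 4638137716) (nat_lit 58) (nat_lit 5) (nat_lit 60) (nat_lit 4) (nat_lit 58) (nat_lit 4) (nat_lit 500) (nat_lit 429) (nat_lit 271))) (XT.nd (nat_lit 78) (nat_lit 76) (nat_lit 0) (XT.lf (nat_lit 0) (nat_lit 43906786302) (nat_lit 76) (nat_lit 92151548895) (nat_lit 76) (nat_lit 6112344211) (nat_lit 57) (nat_lit 4) (nat_lit 58) (nat_lit 5) (nat_lit 58) (nat_lit 4) (nat_lit 501) (nat_lit 429) (nat_lit 270)) (XT.lf (nat_lit 0) (nat_lit 36239984445) (nat_lit 152) (nat_lit 11748988692) (nat_lit 76) (nat_lit 98967269491) (nat_lit 56) (nat_lit 5) (nat_lit 58) (nat_lit 5) (nat_lit 57) (nat_lit 4) (nat_lit 502) (nat_lit 429) (nat_lit 269)))) (XT.nd (nat_lit 156) (nat_lit 152) (nat_lit 0) (XT.nd (nat_lit 78) (nat_lit 76) (nat_lit 0) (XT.lf (nat_lit 0) (nat_lit 81599529281) (nat_lit 76) (nat_lit 177131584) (nat_lit 152)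 (nat_lit 70135805734) (nat_lit 55) (nat_lit 5) (nat_lit 56) (nat_lit 5) (nat_lit 57) (nat_lit 4) (nat_lit 503) (nat_lit 429) (nat_lit 268)) (XT.lf (nat_lit 0) (nat_lit 22860573496) (nat_lit 76) (nat_lit 108067941136) (nat_lit 76) (nat_lit 26121069975) (nat_lit 54) (nat_lit 4) (nat_lit 55) (nat_lit 5) (nat_lit 55) (nat_lit 4) (nat_lit 504) (nat_lit 429) (nat_lit 267))) (XT.nd (nat_lit 78) (nat_lit 76) (nat_lit 0) (XT.lf (nat_lit 0) (nat_lit 20662621115) (nat_lit 152) (nat_lit 39589939348) (nat_lit 76) (nat_lit 102114743323) (nat_lit 53) (nat_lit 5) (nat_lit 55) (nat_lit 5) (nat_lit 54) (nat_lit 4) (nat_lit 505) (nat_lit 429) (nat_lit 266)) (XT.lf (nat_lit 0) (nat_lit 61268384089) (nat_lit 76) (nat_lit 8594088865) (nat_lit 152) (nat_lit 98019284500) (nat_lit 52) (nat_lit 5) (nat_lit 53) (nat_lit 5) (nat_lit 54) (nat_lit 4) (nat_lit 506) (nat_lit 429) (nat_lit 265)))))))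
noncomputable def xc313 : XT := (XT.nd (nat_lit 1248) (nat_lit 1064) (nat_lit 0) (XT.nd (nat_lit 624) (nat_lit 456) (nat_lit 0) (XT.nd (nat_lit 312) (nat_lit 304) (nat_lit 0) (XT.nd (nat_lit 156) (nat_lit 76) (nat_lit 0) (XT.nd (nat_lit 78) (nat_lit 152) (nat_lit 0) (XT.lf (nat_lit 0) (nat_lit 122914714473) (nat_lit 152) (nat_lit 5821449710) (nat_lit 0) (nat_lit 44866149780) (nat_lit 52) (nat_lit 5) (nat_lit 54) (nat_lit 4) (nat_lit 52) (nat_lit 4) (nat_lit 507) (nat_lit 429) (nat_lit 264)) (XT.lf (nat_lit 0) (nat_lit 820981084) (nat_lit 152) (nat_lit 76366739375) (nat_lit 76) (nat_lit 102333017833) (nat_lit 50) (nat_lit 5) (nat_lit 52) (nat_lit 5) (nat_lit 51) (nat_lit 4) (nat_lit 508) (nat_lit 429) (nat_lit 263))) (XT.nd (nat_lit 78) (nat_lit 0) (nat_lit 0) (XT.lf (nat_lit 0) (nat_lit 32246398980) (nat_lit 76) (nat_lit 21557151757) (nat_lit 152) (nat_lit 131859886111) (nat_lit 49) (nat_lit 5)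 (nat_lit 50) (nat_lit 5) (nat_lit 51) (nat_lit 4) (nat_lit 509) (nat_lit 429) (nat_lit 262)) (XT.lf (nat_lit 0) (nat_lit 111323504663) (nat_lit 152) (nat_lit 43707044114) (nat_lit 0) (nat_lit 36988308775) (nat_lit 49) (nat_lit 5) (nat_lit 51) (nat_lit 4) (nat_lit 49) (nat_lit 4) (nat_lit 510) (nat_lit 429) (nat_lit 261)))) (XT.nd (nat_lit 156) (nat_lit 152) (nat_lit 0) (XT.nd (nat_lit 78) (nat_lit 76) (nat_lit 0) (XT.lf (nat_lit 0) (nat_lit 73483849376) (nat_lit 76) (nat_lit 99734708198) (nat_lit 76) (nat_lit 25398536663) (nat_lit 48) (nat_lit 4) (nat_lit 49) (nat_lit 5) (nat_lit 49) (nat_lit 4) (nat_lit 511) (nat_lit 429) (nat_lit 260)) (XT.lf (nat_lit 0) (nat_lit 32368448986) (nat_lit 152) (nat_lit 7981780300) (nat_lit 76) (nat_lit 165131977714) (nat_lit 47) (nat_lit 5) (nat_lit 49) (nat_lit 5) (nat_lit 48) (nat_lit 4) (nat_lit 512) (nat_lit 429) (nat_lit 259))) (XT.nd (nat_lit 78) (nat_lit 76)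 (nat_lit 0) (XT.lf (nat_lit 0) (nat_lit 94397876158) (nat_lit 152) (nat_lit 94560703724) (nat_lit 0) (nat_lit 23599794574) (nat_lit 46) (nat_lit 5) (nat_lit 48) (nat_lit 4) (nat_lit 46) (nat_lit 4) (nat_lit 513) (nat_lit 429) (nat_lit 258)) (XT.lf (nat_lit 0) (nat_lit 30893708050) (nat_lit 76) (nat_lit 129914770647) (nat_lit 76) (nat_lit 59115886396) (nat_lit 45) (nat_lit 4) (nat_lit 46) (nat_lit 5) (nat_lit 46) (nat_lit 4) (nat_lit 514) (nat_lit 429) (nat_lit 257))))) (XT.nd (nat_lit 312) (nat_lit 228) (nat_lit 0) (XT.nd (nat_lit 156) (nat_lit 76) (nat_lit 0) (XT.nd (nat_lit 78) (nat_lit 76) (nat_lit 0) (XT.lf (nat_lit 0) (nat_lit 4414929212) (nat_lit 152) (nat_lit 61749043810) (nat_lit 76) (nat_lit 161411124174) (nat_lit 44) (nat_lit 5) (nat_lit 46) (nat_lit 5) (nat_lit 45) (nat_lit 4) (nat_lit 515) (nat_lit 429) (nat_lit 256)) (XT.lf (nat_lit 0) (nat_lit 70324827624) (nat_lit 152) (nat_lit 162279724070)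 (nat_lit 0) (nat_lit 2895897398) (nat_lit 43) (nat_lit 5) (nat_lit 45) (nat_lit 4) (nat_lit 43) (nat_lit 4) (nat_lit 516) (nat_lit 429) (nat_lit 255))) (XT.nd (nat_lit 78) (nat_lit 76) (nat_lit 0) (XT.lf (nat_lit 0) (nat_lit 141676340909) (nat_lit 152) (nat_lit 27791671358) (nat_lit 0) (nat_lit 74246750326) (nat_lit 43) (nat_lit 5) (nat_lit 45) (nat_lit 4) (nat_lit 43) (nat_lit 4) (nat_lit 517) (nat_lit 429) (nat_lit 254)) (XT.lf (nat_lit 0) (nat_lit 117168172281) (nat_lit 76) (nat_lit 101255220423) (nat_lit 76) (nat_lit 33825000929) (nat_lit 42) (nat_lit 4) (nat_lit 43) (nat_lit 5) (nat_lit 43) (nat_lit 4) (nat_lit 518) (nat_lit 429) (nat_lit 253)))) (XT.nd (nat_lit 156) (nat_lit 76) (nat_lit 0) (XT.nd (nat_lit 78) (nat_lit 0) (nat_lit 0) (XT.lf (nat_lit 0) (nat_lit 8837978187) (nat_lit 76) (nat_lit 28366312858) (nat_lit 152) (nat_lit 223944157342) (nat_lit 40) (nat_lit 5) (nat_lit 41) (nat_lit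 5) (nat_lit 42) (nat_lit 4) (nat_lit 519) (nat_lit 429) (nat_lit 252)) (XT.lf (nat_lit 0) (nat_lit 113724121805) (nat_lit 152) (nat_lit 107084116439) (nat_lit 0) (nat_lit 49503751427) (nat_lit 40) (nat_lit 5) (nat_lit 42) (nat_lit 4) (nat_lit 40) (nat_lit 4) (nat_lit 520) (nat_lit 429) (nat_lit 251))) (XT.nd (nat_lit 78) (nat_lit 0) (nat_lit 0) (XT.lf (nat_lit 0) (nat_lit 46421720509) (nat_lit 76) (nat_lit 148836725113) (nat_lit 76) (nat_lit 84615837328) (nat_lit 39) (nat_lit 4) (nat_lit 40) (nat_lit 5) (nat_lit 40) (nat_lit 4) (nat_lit 521) (nat_lit 429) (nat_lit 250)) (XT.lf (nat_lit 0) (nat_lit 211318011985) (nat_lit 76) (nat_lit 71363723486) (nat_lit 76) (nat_lit 7142342934) (nat_lit 39) (nat_lit 4) (nat_lit 40) (nat_lit 5) (nat_lit 40) (nat_lit 4) (nat_lit 522) (nat_lit 429) (nat_lit 249)))))) (XT.nd (nat_lit 624) (nat_lit 456) (nat_lit 0) (XT.nd (nat_lit 312) (nat_lit 304) (nat_lit 0) (XT.nd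 (nat_lit 156) (nat_lit 152) (nat_lit 0) (XT.nd (nat_lit 78) (nat_lit 0) (nat_lit 0) (XT.lf (nat_lit 0) (nat_lit 73364506136) (nat_lit 152) (nat_lit 214571355739) (nat_lit 0) (nat_lit 12200839608) (nat_lit 37) (nat_lit 5) (nat_lit 39) (nat_lit 4) (nat_lit 37) (nat_lit 4) (nat_lit 523) (nat_lit 429) (nat_lit 248)) (XT.lf (nat_lit 0) (nat_lit 160176669812) (nat_lit 152) (nat_lit 51643853829) (nat_lit 0) (nat_lit 99012577612) (nat_lit 37) (nat_lit 5) (nat_lit 39) (nat_lit 4) (nat_lit 37) (nat_lit 4) (nat_lit 524) (nat_lit 429) (nat_lit 247))) (XT.nd (nat_lit 78) (nat_lit 76) (nat_lit 0) (XT.lf (nat_lit 0) (nat_lit 123376482551) (nat_lit 76) (nat_lit 129878040987) (nat_lit 76) (nat_lit 68713543386) (nat_lit 36) (nat_lit 4) (nat_lit 37) (nat_lit 5) (nat_lit 37) (nat_lit 4) (nat_lit 525) (nat_lit 429) (nat_lit 246)) (XT.lf (nat_lit 0) (nat_lit 17659714655) (nat_lit 152) (nat_lit 24962468655) (nat_lit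 76) (nat_lit 290979682748) (nat_lit 35) (nat_lit 5) (nat_lit 37) (nat_lit 5) (nat_lit 36) (nat_lit 4) (nat_lit 526) (nat_lit 429) (nat_lit 245)))) (XT.nd (nat_lit 156) (nat_lit 228) (nat_lit 0) (XT.nd (nat_lit 78) (nat_lit 0) (nat_lit 0) (XT.lf (nat_lit 0) (nat_lit 109385690284) (nat_lit 152) (nat_lit 185075108378) (nat_lit 0) (nat_lit 51133069895) (nat_lit 34) (nat_lit 5) (nat_lit 36) (nat_lit 4) (nat_lit 34) (nat_lit 4) (nat_lit 527) (nat_lit 429) (nat_lit 244)) (XT.lf (nat_lit 0) (nat_lit 206825257576) (nat_lit 152) (nat_lit 2731545304) (nat_lit 0) (nat_lit 148572303662) (nat_lit 34) (nat_lit 5) (nat_lit 36) (nat_lit 4) (nat_lit 34) (nat_lit 4) (nat_lit 528) (nat_lit 429) (nat_lit 243))) (XT.nd (nat_lit 78) (nat_lit 152) (nat_lit 0) (XT.lf (nat_lit 0) (nat_lit 194967223696) (nat_lit 76) (nat_lit 117212504033) (nat_lit 76) (nat_lit 58959232476) (nat_lit 33) (nat_lit 4) (nat_lit 34) (nat_lit 5)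 (nat_lit 34) (nat_lit 4) (nat_lit 529) (nat_lit 429) (nat_lit 242)) (XT.lf (nat_lit 0) (nat_lit 17822990513) (nat_lit 76) (nat_lit 19287528797) (nat_lit 152) (nat_lit 347642909603) (nat_lit 31) (nat_lit 5) (nat_lit 32) (nat_lit 5) (nat_lit 33) (nat_lit 4) (nat_lit 530) (nat_lit 429) (nat_lit 241))))) (XT.nd (nat_lit 312) (nat_lit 228) (nat_lit 0) (XT.nd (nat_lit 156) (nat_lit 152) (nat_lit 0) (XT.nd (nat_lit 78) (nat_lit 76) (nat_lit 0) (XT.lf (nat_lit 0) (nat_lit 140337942450) (nat_lit 152) (nat_lit 173587497638) (nat_lit 0) (nat_lit 84858073703) (nat_lit 31) (nat_lit 5) (nat_lit 33) (nat_lit 4) (nat_lit 31) (nat_lit 4) (nat_lit 531) (nat_lit 429) (nat_lit 240)) (XT.lf (nat_lit 0) (nat_lit 30066682352) (nat_lit 76) (nat_lit 219444660173) (nat_lit 76) (nat_lit 163964530100) (nat_lit 30) (nat_lit 4) (nat_lit 31) (nat_lit 5) (nat_lit 31) (nat_lit 4) (nat_lit 532) (nat_lit 429) (nat_lit 239))) (XT.nd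 (nat_lit 78) (nat_lit 152) (nat_lit 0) (XT.lf (nat_lit 0) (nat_lit 249928129781) (nat_lit 76) (nat_lit 117154079375) (nat_lit 76) (nat_lit 61673700421) (nat_lit 30) (nat_lit 4) (nat_lit 31) (nat_lit 5) (nat_lit 31) (nat_lit 4) (nat_lit 533) (nat_lit 429) (nat_lit 238)) (XT.lf (nat_lit 0) (nat_lit 36432836294) (nat_lit 76) (nat_lit 8402994085) (nat_lit 152) (nat_lit 399900025089) (nat_lit 28) (nat_lit 5) (nat_lit 29) (nat_lit 5) (nat_lit 30) (nat_lit 4) (nat_lit 534) (nat_lit 429) (nat_lit 237)))) (XT.nd (nat_lit 156) (nat_lit 152) (nat_lit 0) (XT.nd (nat_lit 78) (nat_lit 76) (nat_lit 0) (XT.lf (nat_lit 0) (nat_lit 159327031217) (nat_lit 152) (nat_lit 195412639175) (nat_lit 0) (nat_lit 106488134335) (nat_lit 28) (nat_lit 5) (nat_lit 30) (nat_lit 4) (nat_lit 28) (nat_lit 4) (nat_lit 535) (nat_lit 429) (nat_lit 236)) (XT.lf (nat_lit 0) (nat_lit 28907886928) (nat_lit 76) (nat_lit 251223078742) (nat_lit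 76) (nat_lit 198383977104) (nat_lit 27) (nat_lit 4) (nat_lit 28) (nat_lit 5) (nat_lit 28) (nat_lit 4) (nat_lit 536) (nat_lit 429) (nat_lit 235))) (XT.nd (nat_lit 78) (nat_lit 152) (nat_lit 0) (XT.lf (nat_lit 0) (nat_lit 271226902976) (nat_lit 76) (nat_lit 139056702969) (nat_lit 76) (nat_lit 86217406326) (nat_lit 27) (nat_lit 4) (nat_lit 28) (nat_lit 5) (nat_lit 28) (nat_lit 4) (nat_lit 537) (nat_lit 429) (nat_lit 234)) (XT.nd (nat_lit 78) (nat_lit 0) (nat_lit 0) (XT.lf (nat_lit 0) (nat_lit 10104424422) (nat_lit 76) (nat_lit 20599920350) (nat_lit 152) (nat_lit 484649560995) (nat_lit 25) (nat_lit 5) (nat_lit 26) (nat_lit 5) (nat_lit 27) (nat_lit 4) (nat_lit 538) (nat_lit 429) (nat_lit 233)) (XT.lf (nat_lit 0) (nat_lit 156071805125) (nat_lit 152) (nat_lit 272983794076) (nat_lit 0) (nat_lit 105748320137) (nat_lit 25) (nat_lit 5) (nat_lit 27) (nat_lit 4) (nat_lit 25) (nat_lit 4) (nat_lit 539) (nat_lit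 429) (nat_lit 232))))))))
noncomputable def xc314 : XT := (XT.nd (nat_lit 54132) (nat_lit 0) (nat_lit 9044) (XT.nd (nat_lit 624) (nat_lit 152) (nat_lit 0) (XT.nd (nat_lit 312) (nat_lit 152) (nat_lit 0) (XT.nd (nat_lit 156) (nat_lit 152) (nat_lit 0) (XT.nd (nat_lit 78) (nat_lit 76) (nat_lit 0) (XT.lf (nat_lit 0) (nat_lit 288044514332) (nat_lit 152) (nat_lit 29444206553) (nat_lit 0) (nat_lit 237720868913) (nat_lit 25) (nat_lit 5) (nat_lit 27) (nat_lit 4) (nat_lit 25) (nat_lit 4) (nat_lit 540) (nat_lit 429) (nat_lit 231)) (XT.lf (nat_lit 0) (nat_lit 233752293060) (nat_lit 76) (nat_lit 196512305966) (nat_lit 76) (nat_lit 146188507755) (nat_lit 24) (nat_lit 4) (nat_lit 25) (nat_lit 5) (nat_lit 25) (nat_lit 4) (nat_lit 541) (nat_lit 429) (nat_lit 230))) (XT.nd (nat_lit 78) (nat_lit 152) (nat_lit 0) (XT.lf (nat_lit 0) (nat_lit 511129279360) (nat_lit 76) (nat_lit 68964285079) (nat_lit 76) (nat_lit 18640341352)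 (nat_lit 24) (nat_lit 4) (nat_lit 25) (nat_lit 5) (nat_lit 25) (nat_lit 4) (nat_lit 542) (nat_lit 429) (nat_lit 229)) (XT.lf (nat_lit 0) (nat_lit 115563682199) (nat_lit 152) (nat_lit 438640666701) (nat_lit 0) (nat_lit 67635984759) (nat_lit 22) (nat_lit 5) (nat_lit 24) (nat_lit 4) (nat_lit 22) (nat_lit 4) (nat_lit 543) (nat_lit 429) (nat_lit 228)))) (XT.nd (nat_lit 156) (nat_lit 76) (nat_lit 0) (XT.nd (nat_lit 78) (nat_lit 76) (nat_lit 0) (XT.lf (nat_lit 0) (nat_lit 258489229614) (nat_lit 152) (nat_lit 176904279849) (nat_lit 0) (nat_lit 210561406472) (nat_lit 22) (nat_lit 5) (nat_lit 24) (nat_lit 4) (nat_lit 22) (nat_lit 4) (nat_lit 544) (nat_lit 429) (nat_lit 227)) (XT.lf (nat_lit 0) (nat_lit 101155067930) (nat_lit 76) (nat_lit 308984586136) (nat_lit 76) (nat_lit 261056643278) (nat_lit 21) (nat_lit 4) (nat_lit 22) (nat_lit 5) (nat_lit 22) (nat_lit 4) (nat_lit 545) (nat_lit 429) (nat_lit 226)))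 (XT.nd (nat_lit 78) (nat_lit 76) (nat_lit 0) (XT.lf (nat_lit 0) (nat_lit 399257671345) (nat_lit 76) (nat_lit 173110185255) (nat_lit 76) (nat_lit 125182128381) (nat_lit 21) (nat_lit 4) (nat_lit 22) (nat_lit 5) (nat_lit 22) (nat_lit 4) (nat_lit 546) (nat_lit 429) (nat_lit 225)) (XT.lf (nat_lit 0) (nat_lit 16925767236) (nat_lit 152) (nat_lit 13230342625) (nat_lit 76) (nat_lit 695051630789) (nat_lit 20) (nat_lit 5) (nat_lit 22) (nat_lit 5) (nat_lit 21) (nat_lit 4) (nat_lit 547) (nat_lit 429) (nat_lit 224))))) (XT.nd (nat_lit 312) (nat_lit 0) (nat_lit 0) (XT.nd (nat_lit 156) (nat_lit 76) (nat_lit 0) (XT.nd (nat_lit 78) (nat_lit 0) (nat_lit 0) (XT.lf (nat_lit 0) (nat_lit 168494038966) (nat_lit 152) (nat_lit 462475572143) (nat_lit 0) (nat_lit 122848068608) (nat_lit 19) (nat_lit 5) (nat_lit 21) (nat_lit 4) (nat_lit 19) (nat_lit 4) (nat_lit 548) (nat_lit 429) (nat_lit 223)) (XT.lf (nat_lit 0) (nat_lit 328362174631)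 (nat_lit 152) (nat_lit 172743758117) (nat_lit 0) (nat_lit 282716110473) (nat_lit 19) (nat_lit 5) (nat_lit 21) (nat_lit 4) (nat_lit 19) (nat_lit 4) (nat_lit 549) (nat_lit 429) (nat_lit 222))) (XT.nd (nat_lit 78) (nat_lit 0) (nat_lit 0) (XT.lf (nat_lit 0) (nat_lit 135820495647) (nat_lit 76) (nat_lit 362523143326) (nat_lit 76) (nat_lit 316876989834) (nat_lit 18) (nat_lit 4) (nat_lit 19) (nat_lit 5) (nat_lit 19) (nat_lit 4) (nat_lit 550) (nat_lit 429) (nat_lit 221)) (XT.lf (nat_lit 0) (nat_lit 465809000519) (nat_lit 76) (nat_lit 213940068549) (nat_lit 76) (nat_lit 168293829977) (nat_lit 18) (nat_lit 4) (nat_lit 19) (nat_lit 5) (nat_lit 19) (nat_lit 4) (nat_lit 551) (nat_lit 429) (nat_lit 220)))) (XT.nd (nat_lit 53040) (nat_lit 0) (nat_lit 11020) (XT.nd (nat_lit 52962) (nat_lit 0) (nat_lit 11020) (XT.lf (nat_lit 0) (nat_lit 812295754639) (nat_lit 76) (nat_lit 57928438322) (nat_lit 76) (nat_lit 12282118721)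 (nat_lit 18) (nat_lit 4) (nat_lit 19) (nat_lit 5) (nat_lit 19) (nat_lit 4) (nat_lit 552) (nat_lit 429) (nat_lit 219)) (XT.lf (nat_lit 0) (nat_lit 2445879098) (nat_lit 836) (nat_lit 3198588777) (nat_lit 836) (nat_lit 3198588777) (nat_lit 163) (nat_lit 3) (nat_lit 174) (nat_lit 3) (nat_lit 174) (nat_lit 5) (nat_lit 430) (nat_lit 430) (nat_lit 340))) (XT.nd (nat_lit 78) (nat_lit 0) (nat_lit 76) (XT.lf (nat_lit 76) (nat_lit 2489929876) (nat_lit 0) (nat_lit 2772184456) (nat_lit 836) (nat_lit 12853732553) (nat_lit 164) (nat_lit 5) (nat_lit 163) (nat_lit 3) (nat_lit 174) (nat_lit 5) (nat_lit 431) (nat_lit 430) (nat_lit 339)) (XT.lf (nat_lit 0) (nat_lit 5844034369) (nat_lit 760) (nat_lit 6624312019) (nat_lit 836) (nat_lit 6089069485) (nat_lit 164) (nat_lit 5) (nat_lit 174) (nat_lit 5) (nat_lit 175) (nat_lit 5) (nat_lit 432) (nat_lit 430) (nat_lit 338)))))) (XT.nd (nat_lit 624) (nat_lit 2052) (nat_lit 0)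 (XT.nd (nat_lit 312) (nat_lit 0) (nat_lit 152) (XT.nd (nat_lit 156) (nat_lit 0) (nat_lit 76) (XT.nd (nat_lit 78) (nat_lit 0) (nat_lit 76) (XT.lf (nat_lit 76) (nat_lit 2866003568) (nat_lit 0) (nat_lit 3666470676) (nat_lit 836) (nat_lit 12484718856) (nat_lit 165) (nat_lit 5) (nat_lit 164) (nat_lit 5) (nat_lit 175) (nat_lit 5) (nat_lit 433) (nat_lit 430) (nat_lit 337)) (XT.lf (nat_lit 0) (nat_lit 7444206713) (nat_lit 760) (nat_lit 6530641587) (nat_lit 836) (nat_lit 5515668297) (nat_lit 165) (nat_lit 5) (nat_lit 175) (nat_lit 5) (nat_lit 176) (nat_lit 5) (nat_lit 434) (nat_lit 430) (nat_lit 336))) (XT.nd (nat_lit 78) (nat_lit 0) (nat_lit 76) (XT.lf (nat_lit 76) (nat_lit 3618824563) (nat_lit 0) (nat_lit 4887684830) (nat_lit 836) (nat_lit 11475748589) (nat_lit 166) (nat_lit 5) (nat_lit 165) (nat_lit 5) (nat_lit 176) (nat_lit 5) (nat_lit 435) (nat_lit 430) (nat_lit 335)) (XT.lf (nat_lit 0) (nat_lit 9795864497)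 (nat_lit 760) (nat_lit 6073352456) (nat_lit 836) (nat_lit 4620673469) (nat_lit 166) (nat_lit 5) (nat_lit 176) (nat_lit 5) (nat_lit 177) (nat_lit 5) (nat_lit 436) (nat_lit 430) (nat_lit 334)))) (XT.nd (nat_lit 156) (nat_lit 0) (nat_lit 76) (XT.nd (nat_lit 78) (nat_lit 0) (nat_lit 76) (XT.lf (nat_lit 76) (nat_lit 4796710696) (nat_lit 0) (nat_lit 6497388138) (nat_lit 836) (nat_lit 9721585886) (nat_lit 167) (nat_lit 5) (nat_lit 166) (nat_lit 5) (nat_lit 177) (nat_lit 5) (nat_lit 437) (nat_lit 430) (nat_lit 333)) (XT.lf (nat_lit 0) (nat_lit 13013796932) (nat_lit 760) (nat_lit 5203718712) (nat_lit 836) (nat_lit 3342926259) (nat_lit 167) (nat_lit 5) (nat_lit 177) (nat_lit 5) (nat_lit 178) (nat_lit 5) (nat_lit 438) (nat_lit 430) (nat_lit 332))) (XT.nd (nat_lit 78) (nat_lit 0) (nat_lit 76) (XT.lf (nat_lit 76) (nat_lit 6454421286) (nat_lit 0) (nat_lit 8562646363) (nat_lit 836) (nat_lit 7105490642) (nat_lit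 168) (nat_lit 5) (nat_lit 167) (nat_lit 5) (nat_lit 178) (nat_lit 5) (nat_lit 439) (nat_lit 430) (nat_lit 331)) (XT.lf (nat_lit 0) (nat_lit 17225329152) (nat_lit 760) (nat_lit 3866588691) (nat_lit 76) (nat_lit 1615621995) (nat_lit 168) (nat_lit 5) (nat_lit 178) (nat_lit 5) (nat_lit 169) (nat_lit 5) (nat_lit 440) (nat_lit 430) (nat_lit 330))))) (XT.nd (nat_lit 312) (nat_lit 684) (nat_lit 0) (XT.nd (nat_lit 156) (nat_lit 912) (nat_lit 0) (XT.nd (nat_lit 78) (nat_lit 0) (nat_lit 0) (XT.lf (nat_lit 0) (nat_lit 8653724874) (nat_lit 760) (nat_lit 11156868911) (nat_lit 836) (nat_lit 3497847840) (nat_lit 158) (nat_lit 5) (nat_lit 168) (nat_lit 5) (nat_lit 169) (nat_lit 5) (nat_lit 441) (nat_lit 430) (nat_lit 329)) (XT.lf (nat_lit 0) (nat_lit 21926506842) (nat_lit 760) (nat_lit 655509033) (nat_lit 836) (nat_lit 1354528549) (nat_lit 158) (nat_lit 5) (nat_lit 168) (nat_lit 5) (nat_lit 169) (nat_lit 5) (nat_lit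 442) (nat_lit 430) (nat_lit 328))) (XT.nd (nat_lit 78) (nat_lit 380) (nat_lit 0) (XT.lf (nat_lit 0) (nat_lit 1205472091) (nat_lit 532) (nat_lit 13134819094) (nat_lit 76) (nat_lit 10238152755) (nat_lit 151) (nat_lit 5) (nat_lit 158) (nat_lit 5) (nat_lit 152) (nat_lit 5) (nat_lit 443) (nat_lit 430) (nat_lit 327)) (XT.lf (nat_lit 0) (nat_lit 359022634) (nat_lit 380) (nat_lit 3531850551) (nat_lit 456) (nat_lit 21358309452) (nat_lit 146) (nat_lit 5) (nat_lit 151) (nat_lit 5) (nat_lit 152) (nat_lit 5) (nat_lit 444) (nat_lit 430) (nat_lit 326)))) (XT.nd (nat_lit 156) (nat_lit 304) (nat_lit 0) (XT.nd (nat_lit 78) (nat_lit 380) (nat_lit 0) (XT.lf (nat_lit 0) (nat_lit 7050910571) (nat_lit 456) (nat_lit 11092696348) (nat_lit 76) (nat_lit 7792833561) (nat_lit 146) (nat_lit 5) (nat_lit 152) (nat_lit 5) (nat_lit 147) (nat_lit 5) (nat_lit 445) (nat_lit 430) (nat_lit 325)) (XT.lf (nat_lit 0) (nat_lit 3438965960)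 (nat_lit 380) (nat_lit 7034174590) (nat_lit 456) (nat_lit 16179711623) (nat_lit 141) (nat_lit 5) (nat_lit 146) (nat_lit 5) (nat_lit 147) (nat_lit 5) (nat_lit 446) (nat_lit 430) (nat_lit 324))) (XT.nd (nat_lit 78) (nat_lit 304) (nat_lit 0) (XT.lf (nat_lit 0) (nat_lit 14322543530) (nat_lit 456) (nat_lit 8396812574) (nat_lit 76) (nat_lit 4672925747) (nat_lit 141) (nat_lit 5) (nat_lit 147) (nat_lit 5) (nat_lit 142) (nat_lit 5) (nat_lit 447) (nat_lit 430) (nat_lit 323)) (XT.nd (nat_lit 78) (nat_lit 0) (nat_lit 0) (XT.lf (nat_lit 0) (nat_lit 7270828967) (nat_lit 304) (nat_lit 11315584791) (nat_lit 380) (nat_lit 9571169851) (nat_lit 137) (nat_lit 5) (nat_lit 141) (nat_lit 5) (nat_lit 142) (nat_lit 5) (nat_lit 448) (nat_lit 430) (nat_lit 322)) (XT.lf (nat_lit 0) (nat_lit 23211649540) (nat_lit 380) (nat_lit 4961156311) (nat_lit 76) (nat_lit 780936431) (nat_lit 137) (nat_lit 5) (nat_lit 142) (nat_lit 5)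 (nat_lit 138) (nat_lit 5) (nat_lit 449) (nat_lit 430) (nat_lit 321))))))))
noncomputable def xc315 : XT := (XT.nd (nat_lit 1248) (nat_lit 1824) (nat_lit 0) (XT.nd (nat_lit 624) (nat_lit 1064) (nat_lit 0) (XT.nd (nat_lit 312) (nat_lit 608) (nat_lit 0) (XT.nd (nat_lit 156) (nat_lit 608) (nat_lit 0) (XT.nd (nat_lit 78) (nat_lit 76) (nat_lit 0) (XT.lf (nat_lit 0) (nat_lit 11950199933) (nat_lit 304) (nat_lit 16483698645) (nat_lit 380) (nat_lit 1337523148) (nat_lit 133) (nat_lit 5) (nat_lit 137) (nat_lit 5) (nat_lit 138) (nat_lit 5) (nat_lit 450) (nat_lit 430) (nat_lit 320)) (XT.lf (nat_lit 0) (nat_lit 3261217491) (nat_lit 380) (nat_lit 806708347) (nat_lit 76) (nat_lit 26555535699) (nat_lit 132) (nat_lit 5) (nat_lit 137) (nat_lit 5) (nat_lit 133) (nat_lit 5) (nat_lit 451) (nat_lit 430) (nat_lit 319))) (XT.nd (nat_lit 78) (nat_lit 304) (nat_lit 0) (XT.lf (nat_lit 0) (nat_lit 8458536850) (nat_lit 380)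 (nat_lit 14055992667) (nat_lit 76) (nat_lit 8981798284) (nat_lit 128) (nat_lit 5) (nat_lit 133) (nat_lit 5) (nat_lit 129) (nat_lit 5) (nat_lit 452) (nat_lit 430) (nat_lit 318)) (XT.lf (nat_lit 0) (nat_lit 4278224670) (nat_lit 304) (nat_lit 9779073144) (nat_lit 380) (nat_lit 18348461118) (nat_lit 124) (nat_lit 5) (nat_lit 128) (nat_lit 5) (nat_lit 129) (nat_lit 5) (nat_lit 453) (nat_lit 430) (nat_lit 317)))) (XT.nd (nat_lit 156) (nat_lit 380) (nat_lit 0) (XT.nd (nat_lit 78) (nat_lit 228) (nat_lit 0) (XT.lf (nat_lit 0) (nat_lit 20228387861) (nat_lit 380) (nat_lit 9399130760) (nat_lit 76) (nat_lit 3718523768) (nat_lit 124) (nat_lit 5) (nat_lit 129) (nat_lit 5) (nat_lit 125) (nat_lit 5) (nat_lit 454) (nat_lit 430) (nat_lit 316)) (XT.lf (nat_lit 0) (nat_lit 10432115980) (nat_lit 228) (nat_lit 16593717367) (nat_lit 304) (nat_lit 7291616930) (nat_lit 121) (nat_lit 5) (nat_lit 124) (nat_lit 5) (nat_lit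 125) (nat_lit 5) (nat_lit 455) (nat_lit 430) (nat_lit 315))) (XT.nd (nat_lit 78) (nat_lit 380) (nat_lit 0) (XT.lf (nat_lit 0) (nat_lit 31574199969) (nat_lit 228) (nat_lit 2742890214) (nat_lit 304) (nat_lit 1012641714) (nat_lit 121) (nat_lit 5) (nat_lit 124) (nat_lit 5) (nat_lit 125) (nat_lit 5) (nat_lit 456) (nat_lit 430) (nat_lit 314)) (XT.lf (nat_lit 0) (nat_lit 5865634274) (nat_lit 380) (nat_lit 18706453007) (nat_lit 76) (nat_lit 11792986593) (nat_lit 116) (nat_lit 5) (nat_lit 121) (nat_lit 5) (nat_lit 117) (nat_lit 5) (nat_lit 457) (nat_lit 430) (nat_lit 313))))) (XT.nd (nat_lit 312) (nat_lit 608) (nat_lit 0) (XT.nd (nat_lit 156) (nat_lit 228) (nat_lit 0) (XT.nd (nat_lit 78) (nat_lit 0) (nat_lit 0) (XT.lf (nat_lit 0) (nat_lit 2846372981) (nat_lit 228) (nat_lit 10356504454) (nat_lit 304) (nat_lit 24241021493) (nat_lit 113) (nat_lit 5) (nat_lit 116) (nat_lit 5) (nat_lit 117) (nat_lit 5) (nat_lit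 458) (nat_lit 430) (nat_lit 312)) (XT.lf (nat_lit 0) (nat_lit 21295459883) (nat_lit 304) (nat_lit 12518160462) (nat_lit 76) (nat_lit 4743621273) (nat_lit 113) (nat_lit 5) (nat_lit 117) (nat_lit 5) (nat_lit 114) (nat_lit 5) (nat_lit 459) (nat_lit 430) (nat_lit 311))) (XT.nd (nat_lit 78) (nat_lit 0) (nat_lit 0) (XT.lf (nat_lit 0) (nat_lit 10835454193) (nat_lit 228) (nat_lit 19291532133) (nat_lit 304) (nat_lit 9582549599) (nat_lit 110) (nat_lit 5) (nat_lit 113) (nat_lit 5) (nat_lit 114) (nat_lit 5) (nat_lit 460) (nat_lit 430) (nat_lit 310)) (XT.lf (nat_lit 0) (nat_lit 35784718052) (nat_lit 228) (nat_lit 3822853627) (nat_lit 304) (nat_lit 1301499357) (nat_lit 110) (nat_lit 5) (nat_lit 113) (nat_lit 5) (nat_lit 114) (nat_lit 5) (nat_lit 461) (nat_lit 430) (nat_lit 309)))) (XT.nd (nat_lit 156) (nat_lit 152) (nat_lit 0) (XT.nd (nat_lit 78) (nat_lit 228) (nat_lit 0) (XT.lf (nat_lit 0) (nat_lit 7671149716)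 (nat_lit 228) (nat_lit 22006079124) (nat_lit 76) (nat_lit 12459873127) (nat_lit 107) (nat_lit 5) (nat_lit 110) (nat_lit 5) (nat_lit 108) (nat_lit 5) (nat_lit 462) (nat_lit 430) (nat_lit 308)) (XT.lf (nat_lit 0) (nat_lit 3422450225) (nat_lit 228) (nat_lit 13826254187) (nat_lit 304) (nat_lit 26166762810) (nat_lit 104) (nat_lit 5) (nat_lit 107) (nat_lit 5) (nat_lit 108) (nat_lit 5) (nat_lit 463) (nat_lit 430) (nat_lit 307))) (XT.nd (nat_lit 78) (nat_lit 152) (nat_lit 0) (XT.lf (nat_lit 0) (nat_lit 27723686944) (nat_lit 304) (nat_lit 13909412831) (nat_lit 76) (nat_lit 3103723641) (nat_lit 104) (nat_lit 5) (nat_lit 108) (nat_lit 5) (nat_lit 105) (nat_lit 5) (nat_lit 464) (nat_lit 430) (nat_lit 306)) (XT.lf (nat_lit 0) (nat_lit 13683371010) (nat_lit 152) (nat_lit 25475316089) (nat_lit 228) (nat_lit 6943747064) (nat_lit 102) (nat_lit 5) (nat_lit 104) (nat_lit 5) (nat_lit 105) (nat_lit 5) (nat_lit 465)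 (nat_lit 430) (nat_lit 305)))))) (XT.nd (nat_lit 624) (nat_lit 836) (nat_lit 0) (XT.nd (nat_lit 312) (nat_lit 532) (nat_lit 0) (XT.nd (nat_lit 156) (nat_lit 152) (nat_lit 0) (XT.nd (nat_lit 78) (nat_lit 228) (nat_lit 0) (XT.lf (nat_lit 0) (nat_lit 3748385187) (nat_lit 228) (nat_lit 4452696898) (nat_lit 76) (nat_lit 39320639106) (nat_lit 101) (nat_lit 5) (nat_lit 104) (nat_lit 5) (nat_lit 102) (nat_lit 5) (nat_lit 466) (nat_lit 430) (nat_lit 304)) (XT.lf (nat_lit 0) (nat_lit 15301364399) (nat_lit 304) (nat_lit 23538134812) (nat_lit 76) (nat_lit 10138802121) (nat_lit 98) (nat_lit 5) (nat_lit 102) (nat_lit 5) (nat_lit 99) (nat_lit 5) (nat_lit 467) (nat_lit 430) (nat_lit 303))) (XT.nd (nat_lit 78) (nat_lit 0) (nat_lit 0) (XT.lf (nat_lit 0) (nat_lit 6546077891) (nat_lit 152) (nat_lit 21195453913) (nat_lit 228) (nat_lit 22750701855) (nat_lit 96) (nat_lit 5) (nat_lit 98) (nat_lit 5) (nat_lit 99) (nat_lit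 5) (nat_lit 468) (nat_lit 430) (nat_lit 302)) (XT.lf (nat_lit 0) (nat_lit 38945712204) (nat_lit 152) (nat_lit 2252958247) (nat_lit 228) (nat_lit 10863444140) (nat_lit 96) (nat_lit 5) (nat_lit 98) (nat_lit 5) (nat_lit 99) (nat_lit 5) (nat_lit 469) (nat_lit 430) (nat_lit 301)))) (XT.nd (nat_lit 156) (nat_lit 304) (nat_lit 0) (XT.nd (nat_lit 78) (nat_lit 0) (nat_lit 0) (XT.lf (nat_lit 0) (nat_lit 2153715309) (nat_lit 228) (nat_lit 34115334318) (nat_lit 76) (nat_lit 17410810320) (nat_lit 93) (nat_lit 5) (nat_lit 96) (nat_lit 5) (nat_lit 94) (nat_lit 5) (nat_lit 470) (nat_lit 430) (nat_lit 300)) (XT.lf (nat_lit 0) (nat_lit 15715852690) (nat_lit 228) (nat_lit 1257035913) (nat_lit 76) (nat_lit 38383739475) (nat_lit 93) (nat_lit 5) (nat_lit 96) (nat_lit 5) (nat_lit 94) (nat_lit 5) (nat_lit 471) (nat_lit 430) (nat_lit 299))) (XT.nd (nat_lit 78) (nat_lit 152) (nat_lit 0) (XT.lf (nat_lit 0) (nat_lit 30548955114)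 (nat_lit 228) (nat_lit 22813068970) (nat_lit 76) (nat_lit 3725567733) (nat_lit 91) (nat_lit 5) (nat_lit 94) (nat_lit 5) (nat_lit 92) (nat_lit 5) (nat_lit 472) (nat_lit 430) (nat_lit 298)) (XT.lf (nat_lit 0) (nat_lit 12849309650) (nat_lit 152) (nat_lit 33771598805) (nat_lit 228) (nat_lit 12259335600) (nat_lit 89) (nat_lit 5) (nat_lit 91) (nat_lit 5) (nat_lit 92) (nat_lit 5) (nat_lit 473) (nat_lit 430) (nat_lit 297))))) (XT.nd (nat_lit 312) (nat_lit 456) (nat_lit 0) (XT.nd (nat_lit 156) (nat_lit 152) (nat_lit 0) (XT.nd (nat_lit 78) (nat_lit 152) (nat_lit 0) (XT.lf (nat_lit 0) (nat_lit 3035829973) (nat_lit 228) (nat_lit 9711038994) (nat_lit 76) (nat_lit 47994055705) (nat_lit 88) (nat_lit 5) (nat_lit 91) (nat_lit 5) (nat_lit 89) (nat_lit 5) (nat_lit 474) (nat_lit 430) (nat_lit 296)) (XT.lf (nat_lit 0) (nat_lit 19292145875) (nat_lit 228) (nat_lit 33666821317) (nat_lit 76) (nat_lit 9695204277) (nat_lit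 86) (nat_lit 5) (nat_lit 89) (nat_lit 5) (nat_lit 87) (nat_lit 5) (nat_lit 475) (nat_lit 430) (nat_lit 295))) (XT.nd (nat_lit 78) (nat_lit 0) (nat_lit 0) (XT.lf (nat_lit 0) (nat_lit 5254049215) (nat_lit 152) (nat_lit 31562287362) (nat_lit 228) (nat_lit 27823991164) (nat_lit 84) (nat_lit 5) (nat_lit 86) (nat_lit 5) (nat_lit 87) (nat_lit 5) (nat_lit 476) (nat_lit 430) (nat_lit 294)) (XT.lf (nat_lit 0) (nat_lit 47284487784) (nat_lit 152) (nat_lit 8499383610) (nat_lit 228) (nat_lit 10913563784) (nat_lit 84) (nat_lit 5) (nat_lit 86) (nat_lit 5) (nat_lit 87) (nat_lit 5) (nat_lit 477) (nat_lit 430) (nat_lit 293)))) (XT.nd (nat_lit 156) (nat_lit 304) (nat_lit 0) (XT.nd (nat_lit 78) (nat_lit 0) (nat_lit 0) (XT.lf (nat_lit 0) (nat_lit 7235535927) (nat_lit 152) (nat_lit 45897866533) (nat_lit 76) (nat_lit 15688046662) (nat_lit 82) (nat_lit 5) (nat_lit 84) (nat_lit 5) (nat_lit 83) (nat_lit 5) (nat_lit 478)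 (nat_lit 430) (nat_lit 292)) (XT.lf (nat_lit 0) (nat_lit 26395908408) (nat_lit 152) (nat_lit 3313129051) (nat_lit 76) (nat_lit 41310151575) (nat_lit 82) (nat_lit 5) (nat_lit 84) (nat_lit 5) (nat_lit 83) (nat_lit 5) (nat_lit 479) (nat_lit 430) (nat_lit 291))) (XT.nd (nat_lit 78) (nat_lit 152) (nat_lit 0) (XT.lf (nat_lit 0) (nat_lit 42764646030) (nat_lit 152) (nat_lit 4414561497) (nat_lit 228) (nat_lit 26114363081) (nat_lit 80) (nat_lit 5) (nat_lit 82) (nat_lit 5) (nat_lit 83) (nat_lit 5) (nat_lit 480) (nat_lit 430) (nat_lit 290)) (XT.nd (nat_lit 78) (nat_lit 76) (nat_lit 0) (XT.lf (nat_lit 0) (nat_lit 15734451848) (nat_lit 76) (nat_lit 53912902354) (nat_lit 152) (nat_lit 6002032994) (nat_lit 79) (nat_lit 5) (nat_lit 80) (nat_lit 5) (nat_lit 81) (nat_lit 4) (nat_lit 481) (nat_lit 430) (nat_lit 289)) (XT.lf (nat_lit 0) (nat_lit 15227242690) (nat_lit 152) (nat_lit 13048066637) (nat_lit 76) (nat_lit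 49806128618) (nat_lit 78) (nat_lit 5) (nat_lit 80) (nat_lit 5) (nat_lit 79) (nat_lit 5) (nat_lit 482) (nat_lit 430) (nat_lit 288))))))))
noncomputable def xc316 : XT := (XT.nd (nat_lit 1248) (nat_lit 1216) (nat_lit 0) (XT.nd (nat_lit 624) (nat_lit 532) (nat_lit 0) (XT.nd (nat_lit 312) (nat_lit 304) (nat_lit 0) (XT.nd (nat_lit 156) (nat_lit 228) (nat_lit 0) (XT.nd (nat_lit 78) (nat_lit 76) (nat_lit 0) (XT.lf (nat_lit 0) (nat_lit 37251294004) (nat_lit 152) (nat_lit 643972808) (nat_lit 228) (nat_lit 42705955160) (nat_lit 76) (nat_lit 5) (nat_lit 78) (nat_lit 5) (nat_lit 79) (nat_lit 5) (nat_lit 483) (nat_lit 430) (nat_lit 287)) (XT.lf (nat_lit 0) (nat_lit 7057260857) (nat_lit 76) (nat_lit 55414545047) (nat_lit 152) (nat_lit 20736433661) (nat_lit 75) (nat_lit 5) (nat_lit 76) (nat_lit 5) (nat_lit 77) (nat_lit 4) (nat_lit 484) (nat_lit 430) (nat_lit 286))) (XT.nd (nat_lit 78) (nat_lit 152) (nat_lit 0)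 (XT.lf (nat_lit 0) (nat_lit 3011105849) (nat_lit 152) (nat_lit 24482832980) (nat_lit 76) (nat_lit 58412140817) (nat_lit 74) (nat_lit 5) (nat_lit 76) (nat_lit 5) (nat_lit 75) (nat_lit 5) (nat_lit 485) (nat_lit 430) (nat_lit 285)) (XT.lf (nat_lit 0) (nat_lit 27763049756) (nat_lit 228) (nat_lit 58342841338) (nat_lit 76) (nat_lit 2590228228) (nat_lit 72) (nat_lit 5) (nat_lit 75) (nat_lit 5) (nat_lit 73) (nat_lit 4) (nat_lit 486) (nat_lit 430) (nat_lit 284)))) (XT.nd (nat_lit 156) (nat_lit 228) (nat_lit 0) (XT.nd (nat_lit 78) (nat_lit 76) (nat_lit 0) (XT.lf (nat_lit 0) (nat_lit 54622297307) (nat_lit 228) (nat_lit 3285811382) (nat_lit 76) (nat_lit 33674067013) (nat_lit 72) (nat_lit 5) (nat_lit 75) (nat_lit 5) (nat_lit 73) (nat_lit 4) (nat_lit 487) (nat_lit 430) (nat_lit 283)) (XT.lf (nat_lit 0) (nat_lit 56322407904) (nat_lit 76) (nat_lit 27379126464) (nat_lit 152) (nat_lit 10867149218) (nat_lit 71) (nat_lit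 5) (nat_lit 72) (nat_lit 5) (nat_lit 73) (nat_lit 4) (nat_lit 488) (nat_lit 430) (nat_lit 282))) (XT.nd (nat_lit 78) (nat_lit 0) (nat_lit 0) (XT.lf (nat_lit 0) (nat_lit 16478771923) (nat_lit 228) (nat_lit 75999235124) (nat_lit 76) (nat_lit 5189724421) (nat_lit 68) (nat_lit 5) (nat_lit 71) (nat_lit 5) (nat_lit 69) (nat_lit 4) (nat_lit 489) (nat_lit 430) (nat_lit 281)) (XT.lf (nat_lit 0) (nat_lit 45931653080) (nat_lit 228) (nat_lit 15624471287) (nat_lit 76) (nat_lit 39301456342) (nat_lit 68) (nat_lit 5) (nat_lit 71) (nat_lit 5) (nat_lit 69) (nat_lit 4) (nat_lit 490) (nat_lit 430) (nat_lit 280))))) (XT.nd (nat_lit 312) (nat_lit 228) (nat_lit 0) (XT.nd (nat_lit 156) (nat_lit 76) (nat_lit 0) (XT.nd (nat_lit 78) (nat_lit 152) (nat_lit 0) (XT.lf (nat_lit 0) (nat_lit 49344210465) (nat_lit 76) (nat_lit 28281174729) (nat_lit 152) (nat_lit 26543126907) (nat_lit 67) (nat_lit 5) (nat_lit 68) (nat_lit 5) (nat_lit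 69) (nat_lit 4) (nat_lit 491) (nat_lit 430) (nat_lit 279)) (XT.lf (nat_lit 0) (nat_lit 3701122432) (nat_lit 152) (nat_lit 96975682890) (nat_lit 76) (nat_lit 6938310262) (nat_lit 65) (nat_lit 5) (nat_lit 67) (nat_lit 5) (nat_lit 66) (nat_lit 4) (nat_lit 492) (nat_lit 430) (nat_lit 278))) (XT.nd (nat_lit 78) (nat_lit 76) (nat_lit 0) (XT.lf (nat_lit 0) (nat_lit 35970705262) (nat_lit 152) (nat_lit 30826034810) (nat_lit 76) (nat_lit 44345295329) (nat_lit 65) (nat_lit 5) (nat_lit 67) (nat_lit 5) (nat_lit 66) (nat_lit 4) (nat_lit 493) (nat_lit 430) (nat_lit 277)) (XT.lf (nat_lit 0) (nat_lit 39904322132) (nat_lit 76) (nat_lit 30570388478) (nat_lit 152) (nat_lit 44339543458) (nat_lit 64) (nat_lit 5) (nat_lit 65) (nat_lit 5) (nat_lit 66) (nat_lit 4) (nat_lit 494) (nat_lit 430) (nat_lit 276)))) (XT.nd (nat_lit 156) (nat_lit 76) (nat_lit 0) (XT.nd (nat_lit 78) (nat_lit 152) (nat_lit 0) (XT.lf (nat_lit 0) (nat_lit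 107349047473) (nat_lit 152) (nat_lit 3531687173) (nat_lit 0) (nat_lit 7757092487) (nat_lit 64) (nat_lit 5) (nat_lit 66) (nat_lit 4) (nat_lit 64) (nat_lit 4) (nat_lit 495) (nat_lit 430) (nat_lit 275)) (XT.lf (nat_lit 0) (nat_lit 24334948813) (nat_lit 152) (nat_lit 49707775329) (nat_lit 76) (nat_lit 48508084547) (nat_lit 62) (nat_lit 5) (nat_lit 64) (nat_lit 5) (nat_lit 63) (nat_lit 4) (nat_lit 496) (nat_lit 430) (nat_lit 274))) (XT.nd (nat_lit 78) (nat_lit 0) (nat_lit 0) (XT.lf (nat_lit 0) (nat_lit 27182846813) (nat_lit 76) (nat_lit 34660867928) (nat_lit 152) (nat_lit 64782310104) (nat_lit 61) (nat_lit 5) (nat_lit 62) (nat_lit 5) (nat_lit 63) (nat_lit 4) (nat_lit 497) (nat_lit 430) (nat_lit 273)) (XT.lf (nat_lit 0) (nat_lit 102186039155) (nat_lit 152) (nat_lit 21341212375) (nat_lit 0) (nat_lit 7329844291) (nat_lit 61) (nat_lit 5) (nat_lit 63) (nat_lit 4) (nat_lit 61) (nat_lit 4) (nat_lit 498) (nat_lit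 430) (nat_lit 272)))))) (XT.nd (nat_lit 624) (nat_lit 608) (nat_lit 0) (XT.nd (nat_lit 312) (nat_lit 304) (nat_lit 0) (XT.nd (nat_lit 156) (nat_lit 76) (nat_lit 0) (XT.nd (nat_lit 78) (nat_lit 76) (nat_lit 0) (XT.lf (nat_lit 0) (nat_lit 10510617527) (nat_lit 152) (nat_lit 73311457233) (nat_lit 76) (nat_lit 51392388988) (nat_lit 59) (nat_lit 5) (nat_lit 61) (nat_lit 5) (nat_lit 60) (nat_lit 4) (nat_lit 499) (nat_lit 430) (nat_lit 271)) (XT.lf (nat_lit 0) (nat_lit 10123173686) (nat_lit 76) (nat_lit 41088206101) (nat_lit 152) (nat_lit 88528642445) (nat_lit 58) (nat_lit 5) (nat_lit 59) (nat_lit 5) (nat_lit 60) (nat_lit 4) (nat_lit 500) (nat_lit 430) (nat_lit 270))) (XT.nd (nat_lit 78) (nat_lit 76) (nat_lit 0) (XT.lf (nat_lit 0) (nat_lit 95266297919) (nat_lit 152) (nat_lit 44238063698) (nat_lit 0) (nat_lit 4921541152) (nat_lit 58) (nat_lit 5) (nat_lit 60) (nat_lit 4) (nat_lit 58) (nat_lit 4) (nat_lit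 501) (nat_lit 430) (nat_lit 269)) (XT.lf (nat_lit 0) (nat_lit 46211697579) (nat_lit 76) (nat_lit 96705569973) (nat_lit 76) (nat_lit 6359144518) (nat_lit 57) (nat_lit 4) (nat_lit 58) (nat_lit 5) (nat_lit 58) (nat_lit 4) (nat_lit 502) (nat_lit 430) (nat_lit 268)))) (XT.nd (nat_lit 156) (nat_lit 152) (nat_lit 0) (XT.nd (nat_lit 78) (nat_lit 76) (nat_lit 0) (XT.lf (nat_lit 0) (nat_lit 38106206900) (nat_lit 152) (nat_lit 12230290533) (nat_lit 76) (nat_lit 103964845685) (nat_lit 56) (nat_lit 5) (nat_lit 58) (nat_lit 5) (nat_lit 57) (nat_lit 4) (nat_lit 503) (nat_lit 430) (nat_lit 267)) (XT.lf (nat_lit 0) (nat_lit 85783941280) (nat_lit 76) (nat_lit 134824333) (nat_lit 152) (nat_lit 73586660274) (nat_lit 55) (nat_lit 5) (nat_lit 56) (nat_lit 5) (nat_lit 57) (nat_lit 4) (nat_lit 504) (nat_lit 430) (nat_lit 266))) (XT.nd (nat_lit 78) (nat_lit 76) (nat_lit 0) (XT.lf (nat_lit 0) (nat_lit 24108188408) (nat_lit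 76) (nat_lit 113419880570) (nat_lit 76) (nat_lit 27371337995) (nat_lit 54) (nat_lit 4) (nat_lit 55) (nat_lit 5) (nat_lit 55) (nat_lit 4) (nat_lit 505) (nat_lit 430) (nat_lit 265)) (XT.lf (nat_lit 0) (nat_lit 21747180738) (nat_lit 152) (nat_lit 41468129521) (nat_lit 76) (nat_lit 107267786895) (nat_lit 53) (nat_lit 5) (nat_lit 55) (nat_lit 5) (nat_lit 54) (nat_lit 4) (nat_lit 506) (nat_lit 430) (nat_lit 264))))) (XT.nd (nat_lit 312) (nat_lit 304) (nat_lit 0) (XT.nd (nat_lit 156) (nat_lit 228) (nat_lit 0) (XT.nd (nat_lit 78) (nat_lit 0) (nat_lit 0) (XT.lf (nat_lit 0) (nat_lit 64431476108) (nat_lit 76) (nat_lit 8974656254) (nat_lit 152) (nat_lit 102867185802) (nat_lit 52) (nat_lit 5) (nat_lit 53) (nat_lit 5) (nat_lit 54) (nat_lit 4) (nat_lit 507) (nat_lit 430) (nat_lit 263)) (XT.lf (nat_lit 0) (nat_lit 129109310127) (nat_lit 152) (nat_lit 6015919520) (nat_lit 0) (nat_lit 47154756661) (nat_lit 52) (nat_lit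 5) (nat_lit 54) (nat_lit 4) (nat_lit 52) (nat_lit 4) (nat_lit 508) (nat_lit 430) (nat_lit 262))) (XT.nd (nat_lit 78) (nat_lit 76) (nat_lit 0) (XT.lf (nat_lit 0) (nat_lit 910834813) (nat_lit 152) (nat_lit 80088417749) (nat_lit 76) (nat_lit 107495082088) (nat_lit 50) (nat_lit 5) (nat_lit 52) (nat_lit 5) (nat_lit 51) (nat_lit 4) (nat_lit 509) (nat_lit 430) (nat_lit 261)) (XT.lf (nat_lit 0) (nat_lit 33953818515) (nat_lit 76) (nat_lit 22587875173) (nat_lit 152) (nat_lit 138402516423) (nat_lit 49) (nat_lit 5) (nat_lit 50) (nat_lit 5) (nat_lit 51) (nat_lit 4) (nat_lit 510) (nat_lit 430) (nat_lit 260)))) (XT.nd (nat_lit 156) (nat_lit 228) (nat_lit 0) (XT.nd (nat_lit 78) (nat_lit 76) (nat_lit 0) (XT.lf (nat_lit 0) (nat_lit 116936062097) (nat_lit 152) (nat_lit 45800241778) (nat_lit 0) (nat_lit 38881177151) (nat_lit 49) (nat_lit 5) (nat_lit 51) (nat_lit 4) (nat_lit 49) (nat_lit 4) (nat_lit 511) (nat_lit 430)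 (nat_lit 259)) (XT.lf (nat_lit 0) (nat_lit 77248710022) (nat_lit 76) (nat_lit 104676364539) (nat_lit 76) (nat_lit 26620594652) (nat_lit 48) (nat_lit 4) (nat_lit 49) (nat_lit 5) (nat_lit 49) (nat_lit 4) (nat_lit 512) (nat_lit 430) (nat_lit 258))) (XT.nd (nat_lit 78) (nat_lit 152) (nat_lit 0) (XT.lf (nat_lit 0) (nat_lit 34031001666) (nat_lit 152) (nat_lit 8293059271) (nat_lit 76) (nat_lit 173430049648) (nat_lit 47) (nat_lit 5) (nat_lit 49) (nat_lit 5) (nat_lit 48) (nat_lit 4) (nat_lit 513) (nat_lit 430) (nat_lit 257)) (XT.nd (nat_lit 78) (nat_lit 76) (nat_lit 0) (XT.lf (nat_lit 0) (nat_lit 99161819208) (nat_lit 152) (nat_lit 99200847636) (nat_lit 0) (nat_lit 24821423632) (nat_lit 46) (nat_lit 5) (nat_lit 48) (nat_lit 4) (nat_lit 46) (nat_lit 4) (nat_lit 514) (nat_lit 430) (nat_lit 256)) (XT.lf (nat_lit 0) (nat_lit 32524867126) (nat_lit 76) (nat_lit 136367337261) (nat_lit 76) (nat_lit 62026213643)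 (nat_lit 45) (nat_lit 4) (nat_lit 46) (nat_lit 5) (nat_lit 46) (nat_lit 4) (nat_lit 515) (nat_lit 430) (nat_lit 255))))))))
noncomputable def xc317 : XT := (XT.nd (nat_lit 1248) (nat_lit 836) (nat_lit 0) (XT.nd (nat_lit 624) (nat_lit 608) (nat_lit 0) (XT.nd (nat_lit 312) (nat_lit 228) (nat_lit 0) (XT.nd (nat_lit 156) (nat_lit 76) (nat_lit 0) (XT.nd (nat_lit 78) (nat_lit 76) (nat_lit 0) (XT.lf (nat_lit 0) (nat_lit 4677591713) (nat_lit 152) (nat_lit 64752753978) (nat_lit 76) (nat_lit 169521410353) (nat_lit 44) (nat_lit 5) (nat_lit 46) (nat_lit 5) (nat_lit 45) (nat_lit 4) (nat_lit 516) (nat_lit 430) (nat_lit 254)) (XT.lf (nat_lit 0) (nat_lit 73882918417) (nat_lit 152) (nat_lit 170309901423) (nat_lit 0) (nat_lit 3080559038) (nat_lit 43) (nat_lit 5) (nat_lit 45) (nat_lit 4) (nat_lit 43) (nat_lit 4) (nat_lit 517) (nat_lit 430) (nat_lit 253))) (XT.nd (nat_lit 78) (nat_lit 76) (nat_lit 0) (XT.lf (nat_lit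 0) (nat_lit 148800014536) (nat_lit 152) (nat_lit 29101436973) (nat_lit 0) (nat_lit 77997056195) (nat_lit 43) (nat_lit 5) (nat_lit 45) (nat_lit 4) (nat_lit 43) (nat_lit 4) (nat_lit 518) (nat_lit 430) (nat_lit 252)) (XT.lf (nat_lit 0) (nat_lit 123105111461) (nat_lit 76) (nat_lit 106278635609) (nat_lit 76) (nat_lit 35475106827) (nat_lit 42) (nat_lit 4) (nat_lit 43) (nat_lit 5) (nat_lit 43) (nat_lit 4) (nat_lit 519) (nat_lit 430) (nat_lit 251)))) (XT.nd (nat_lit 156) (nat_lit 76) (nat_lit 0) (XT.nd (nat_lit 78) (nat_lit 0) (nat_lit 0) (XT.lf (nat_lit 0) (nat_lit 9358436840) (nat_lit 76) (nat_lit 29745226037) (nat_lit 152) (nat_lit 235100249902) (nat_lit 40) (nat_lit 5) (nat_lit 41) (nat_lit 5) (nat_lit 42) (nat_lit 4) (nat_lit 520) (nat_lit 430) (nat_lit 250)) (XT.lf (nat_lit 0) (nat_lit 119448206431) (nat_lit 152) (nat_lit 112362224558) (nat_lit 0) (nat_lit 52015264083) (nat_lit 40) (nat_lit 5) (nat_lit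 42) (nat_lit 4) (nat_lit 40) (nat_lit 4) (nat_lit 521) (nat_lit 430) (nat_lit 249))) (XT.nd (nat_lit 78) (nat_lit 0) (nat_lit 0) (XT.lf (nat_lit 0) (nat_lit 48817676855) (nat_lit 76) (nat_lit 156240934779) (nat_lit 76) (nat_lit 88807523129) (nat_lit 39) (nat_lit 4) (nat_lit 40) (nat_lit 5) (nat_lit 40) (nat_lit 4) (nat_lit 522) (nat_lit 430) (nat_lit 248)) (XT.lf (nat_lit 0) (nat_lit 221955217651) (nat_lit 76) (nat_lit 74896074814) (nat_lit 76) (nat_lit 7462216208) (nat_lit 39) (nat_lit 4) (nat_lit 40) (nat_lit 5) (nat_lit 40) (nat_lit 4) (nat_lit 523) (nat_lit 430) (nat_lit 247))))) (XT.nd (nat_lit 312) (nat_lit 304) (nat_lit 0) (XT.nd (nat_lit 156) (nat_lit 152) (nat_lit 0) (XT.nd (nat_lit 78) (nat_lit 0) (nat_lit 0) (XT.lf (nat_lit 0) (nat_lit 77068740329) (nat_lit 152) (nat_lit 225227383209) (nat_lit 0) (nat_lit 12845612446) (nat_lit 37) (nat_lit 5) (nat_lit 39) (nat_lit 4) (nat_lit 37) (nat_lit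 4) (nat_lit 524) (nat_lit 430) (nat_lit 246)) (XT.lf (nat_lit 0) (nat_lit 168219797480) (nat_lit 152) (nat_lit 54156960505) (nat_lit 0) (nat_lit 103996283501) (nat_lit 37) (nat_lit 5) (nat_lit 39) (nat_lit 4) (nat_lit 37) (nat_lit 4) (nat_lit 525) (nat_lit 430) (nat_lit 245))) (XT.nd (nat_lit 78) (nat_lit 76) (nat_lit 0) (XT.lf (nat_lit 0) (nat_lit 129613278404) (nat_lit 76) (nat_lit 136337693661) (nat_lit 76) (nat_lit 72113811971) (nat_lit 36) (nat_lit 4) (nat_lit 37) (nat_lit 5) (nat_lit 37) (nat_lit 4) (nat_lit 526) (nat_lit 430) (nat_lit 244)) (XT.lf (nat_lit 0) (nat_lit 18575343519) (nat_lit 152) (nat_lit 26144777676) (nat_lit 76) (nat_lit 305560205902) (nat_lit 35) (nat_lit 5) (nat_lit 37) (nat_lit 5) (nat_lit 36) (nat_lit 4) (nat_lit 527) (nat_lit 430) (nat_lit 243)))) (XT.nd (nat_lit 156) (nat_lit 228) (nat_lit 0) (XT.nd (nat_lit 78) (nat_lit 0) (nat_lit 0) (XT.lf (nat_lit 0) (nat_lit 114887584278)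 (nat_lit 152) (nat_lit 194263015632) (nat_lit 0) (nat_lit 53721331500) (nat_lit 34) (nat_lit 5) (nat_lit 36) (nat_lit 4) (nat_lit 34) (nat_lit 4) (nat_lit 528) (nat_lit 430) (nat_lit 242)) (XT.lf (nat_lit 0) (nat_lit 217197577102) (nat_lit 152) (nat_lit 2805410032) (nat_lit 0) (nat_lit 156031021808) (nat_lit 34) (nat_lit 5) (nat_lit 36) (nat_lit 4) (nat_lit 34) (nat_lit 4) (nat_lit 529) (nat_lit 430) (nat_lit 241))) (XT.nd (nat_lit 78) (nat_lit 152) (nat_lit 0) (XT.lf (nat_lit 0) (nat_lit 204777285925) (nat_lit 76) (nat_lit 123041969275) (nat_lit 76) (nat_lit 61875125869) (nat_lit 33) (nat_lit 4) (nat_lit 34) (nat_lit 5) (nat_lit 34) (nat_lit 4) (nat_lit 530) (nat_lit 430) (nat_lit 240)) (XT.lf (nat_lit 0) (nat_lit 18775855820) (nat_lit 76) (nat_lit 20220716675) (nat_lit 152) (nat_lit 364993001420) (nat_lit 31) (nat_lit 5) (nat_lit 32) (nat_lit 5) (nat_lit 33) (nat_lit 4) (nat_lit 531) (nat_lit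 430) (nat_lit 239)))))) (XT.nd (nat_lit 624) (nat_lit 380) (nat_lit 0) (XT.nd (nat_lit 312) (nat_lit 228) (nat_lit 0) (XT.nd (nat_lit 156) (nat_lit 152) (nat_lit 0) (XT.nd (nat_lit 78) (nat_lit 76) (nat_lit 0) (XT.lf (nat_lit 0) (nat_lit 147384376868) (nat_lit 152) (nat_lit 182207105583) (nat_lit 0) (nat_lit 89129730085) (nat_lit 31) (nat_lit 5) (nat_lit 33) (nat_lit 4) (nat_lit 31) (nat_lit 4) (nat_lit 532) (nat_lit 430) (nat_lit 238)) (XT.lf (nat_lit 0) (nat_lit 31628819424) (nat_lit 76) (nat_lit 230387139065) (nat_lit 76) (nat_lit 172132255252) (nat_lit 30) (nat_lit 4) (nat_lit 31) (nat_lit 5) (nat_lit 31) (nat_lit 4) (nat_lit 533) (nat_lit 430) (nat_lit 237))) (XT.nd (nat_lit 78) (nat_lit 152) (nat_lit 0) (XT.lf (nat_lit 0) (nat_lit 262480539084) (nat_lit 76) (nat_lit 122983446089) (nat_lit 76) (nat_lit 64728336534) (nat_lit 30) (nat_lit 4) (nat_lit 31) (nat_lit 5) (nat_lit 31) (nat_lit 4)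 (nat_lit 534) (nat_lit 430) (nat_lit 236)) (XT.lf (nat_lit 0) (nat_lit 38310492468) (nat_lit 76) (nat_lit 8794784125) (nat_lit 152) (nat_lit 419865988848) (nat_lit 28) (nat_lit 5) (nat_lit 29) (nat_lit 5) (nat_lit 30) (nat_lit 4) (nat_lit 535) (nat_lit 430) (nat_lit 235)))) (XT.nd (nat_lit 156) (nat_lit 152) (nat_lit 0) (XT.nd (nat_lit 78) (nat_lit 76) (nat_lit 0) (XT.lf (nat_lit 0) (nat_lit 167320142273) (nat_lit 152) (nat_lit 205129028862) (nat_lit 0) (nat_lit 111838685793) (nat_lit 28) (nat_lit 5) (nat_lit 30) (nat_lit 4) (nat_lit 28) (nat_lit 4) (nat_lit 536) (nat_lit 430) (nat_lit 234)) (XT.lf (nat_lit 0) (nat_lit 30406648671) (nat_lit 76) (nat_lit 263757183730) (nat_lit 76) (nat_lit 208275541531) (nat_lit 27) (nat_lit 4) (nat_lit 28) (nat_lit 5) (nat_lit 28) (nat_lit 4) (nat_lit 537) (nat_lit 430) (nat_lit 233))) (XT.nd (nat_lit 78) (nat_lit 152) (nat_lit 0) (XT.lf (nat_lit 0) (nat_lit 284839074217)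 (nat_lit 76) (nat_lit 145983777213) (nat_lit 76) (nat_lit 90501958139) (nat_lit 27) (nat_lit 4) (nat_lit 28) (nat_lit 5) (nat_lit 28) (nat_lit 4) (nat_lit 538) (nat_lit 430) (nat_lit 232)) (XT.lf (nat_lit 0) (nat_lit 10660480781) (nat_lit 76) (nat_lit 21604137905) (nat_lit 152) (nat_lit 508855729484) (nat_lit 25) (nat_lit 5) (nat_lit 26) (nat_lit 5) (nat_lit 27) (nat_lit 4) (nat_lit 539) (nat_lit 430) (nat_lit 231))))) (XT.nd (nat_lit 312) (nat_lit 304) (nat_lit 0) (XT.nd (nat_lit 156) (nat_lit 76) (nat_lit 0) (XT.nd (nat_lit 78) (nat_lit 0) (nat_lit 0) (XT.lf (nat_lit 0) (nat_lit 163899642191) (nat_lit 152) (nat_lit 286583759448) (nat_lit 0) (nat_lit 111059501278) (nat_lit 25) (nat_lit 5) (nat_lit 27) (nat_lit 4) (nat_lit 25) (nat_lit 4) (nat_lit 540) (nat_lit 430) (nat_lit 230)) (XT.lf (nat_lit 0) (nat_lit 302469832248) (nat_lit 152) (nat_lit 30869536564) (nat_lit 0) (nat_lit 249629545820) (nat_lit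 25) (nat_lit 5) (nat_lit 27) (nat_lit 4) (nat_lit 25) (nat_lit 4) (nat_lit 541) (nat_lit 430) (nat_lit 229))) (XT.nd (nat_lit 78) (nat_lit 0) (nat_lit 0) (XT.lf (nat_lit 0) (nat_lit 245486031895) (nat_lit 76) (nat_lit 206314509780) (nat_lit 76) (nat_lit 153474084766) (nat_lit 24) (nat_lit 4) (nat_lit 25) (nat_lit 5) (nat_lit 25) (nat_lit 4) (nat_lit 542) (nat_lit 430) (nat_lit 228)) (XT.lf (nat_lit 0) (nat_lit 536729671120) (nat_lit 76) (nat_lit 72390202681) (nat_lit 76) (nat_lit 19549645680) (nat_lit 24) (nat_lit 4) (nat_lit 25) (nat_lit 5) (nat_lit 25) (nat_lit 4) (nat_lit 543) (nat_lit 430) (nat_lit 227)))) (XT.nd (nat_lit 156) (nat_lit 152) (nat_lit 0) (XT.nd (nat_lit 78) (nat_lit 0) (nat_lit 0) (XT.lf (nat_lit 0) (nat_lit 121363839417) (nat_lit 152) (nat_lit 460528032533) (nat_lit 0) (nat_lit 71039379699) (nat_lit 22) (nat_lit 5) (nat_lit 24) (nat_lit 4) (nat_lit 22) (nat_lit 4) (nat_lit 544)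 (nat_lit 430) (nat_lit 226)) (XT.lf (nat_lit 0) (nat_lit 271434617864) (nat_lit 152) (nat_lit 185706953363) (nat_lit 0) (nat_lit 221110044131) (nat_lit 22) (nat_lit 5) (nat_lit 24) (nat_lit 4) (nat_lit 22) (nat_lit 4) (nat_lit 545) (nat_lit 430) (nat_lit 225))) (XT.nd (nat_lit 78) (nat_lit 76) (nat_lit 0) (XT.lf (nat_lit 0) (nat_lit 106254675669) (nat_lit 76) (nat_lit 324412544821) (nat_lit 76) (nat_lit 274087862501) (nat_lit 21) (nat_lit 4) (nat_lit 22) (nat_lit 5) (nat_lit 22) (nat_lit 4) (nat_lit 546) (nat_lit 430) (nat_lit 224)) (XT.nd (nat_lit 78) (nat_lit 76) (nat_lit 0) (XT.lf (nat_lit 0) (nat_lit 419260416191) (nat_lit 76) (nat_lit 181745436782) (nat_lit 76) (nat_lit 131420651047) (nat_lit 21) (nat_lit 4) (nat_lit 22) (nat_lit 5) (nat_lit 22) (nat_lit 4) (nat_lit 547) (nat_lit 430) (nat_lit 223)) (XT.lf (nat_lit 0) (nat_lit 17791031735) (nat_lit 152) (nat_lit 13853269168) (nat_lit 76) (nat_lit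 729822877944) (nat_lit 20) (nat_lit 5) (nat_lit 22) (nat_lit 5) (nat_lit 21) (nat_lit 4) (nat_lit 548) (nat_lit 430) (nat_lit 222))))))))
noncomputable def xc318 : XT := (XT.nd (nat_lit 54210) (nat_lit 0) (nat_lit 7220) (XT.nd (nat_lit 53586) (nat_lit 0) (nat_lit 10640) (XT.nd (nat_lit 53274) (nat_lit 0) (nat_lit 11020) (XT.nd (nat_lit 156) (nat_lit 76) (nat_lit 0) (XT.nd (nat_lit 78) (nat_lit 0) (nat_lit 0) (XT.lf (nat_lit 0) (nat_lit 176937707587) (nat_lit 152) (nat_lit 485560750669) (nat_lit 0) (nat_lit 129009157086) (nat_lit 19) (nat_lit 5) (nat_lit 21) (nat_lit 4) (nat_lit 19) (nat_lit 4) (nat_lit 549) (nat_lit 430) (nat_lit 221)) (XT.lf (nat_lit 0) (nat_lit 344798346861) (nat_lit 152) (nat_lit 181344184041) (nat_lit 0) (nat_lit 296869711280) (nat_lit 19) (nat_lit 5) (nat_lit 21) (nat_lit 4) (nat_lit 19) (nat_lit 4) (nat_lit 550) (nat_lit 430) (nat_lit 220))) (XT.nd (nat_lit 78) (nat_lit 0)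 (nat_lit 0) (XT.lf (nat_lit 0) (nat_lit 142647689476) (nat_lit 76) (nat_lit 380630899477) (nat_lit 76) (nat_lit 332702182867) (nat_lit 18) (nat_lit 4) (nat_lit 19) (nat_lit 5) (nat_lit 19) (nat_lit 4) (nat_lit 551) (nat_lit 430) (nat_lit 219)) (XT.lf (nat_lit 0) (nat_lit 489133897257) (nat_lit 76) (nat_lit 224619547200) (nat_lit 76) (nat_lit 176690753420) (nat_lit 18) (nat_lit 4) (nat_lit 19) (nat_lit 5) (nat_lit 19) (nat_lit 4) (nat_lit 552) (nat_lit 430) (nat_lit 218)))) (XT.nd (nat_lit 156) (nat_lit 0) (nat_lit 76) (XT.nd (nat_lit 78) (nat_lit 0) (nat_lit 0) (XT.lf (nat_lit 0) (nat_lit 2774094449) (nat_lit 836) (nat_lit 3250401537) (nat_lit 836) (nat_lit 3250401537) (nat_lit 163) (nat_lit 3) (nat_lit 174) (nat_lit 3) (nat_lit 174) (nat_lit 5) (nat_lit 431) (nat_lit 431) (nat_lit 338)) (XT.lf (nat_lit 76) (nat_lit 2827172094) (nat_lit 0) (nat_lit 3093600743) (nat_lit 836) (nat_lit 13081058481)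 (nat_lit 164) (nat_lit 5) (nat_lit 163) (nat_lit 3) (nat_lit 174) (nat_lit 5) (nat_lit 432) (nat_lit 431) (nat_lit 337))) (XT.nd (nat_lit 78) (nat_lit 0) (nat_lit 0) (XT.lf (nat_lit 0) (nat_lit 6510234808) (nat_lit 760) (nat_lit 6731329747) (nat_lit 836) (nat_lit 6224993344) (nat_lit 164) (nat_lit 5) (nat_lit 174) (nat_lit 5) (nat_lit 175) (nat_lit 5) (nat_lit 433) (nat_lit 431) (nat_lit 336)) (XT.lf (nat_lit 76) (nat_lit 3229885525) (nat_lit 0) (nat_lit 3988845590) (nat_lit 836) (nat_lit 12731312525) (nat_lit 165) (nat_lit 5) (nat_lit 164) (nat_lit 5) (nat_lit 175) (nat_lit 5) (nat_lit 434) (nat_lit 431) (nat_lit 335))))) (XT.nd (nat_lit 312) (nat_lit 532) (nat_lit 0) (XT.nd (nat_lit 156) (nat_lit 0) (nat_lit 76) (XT.nd (nat_lit 78) (nat_lit 0) (nat_lit 0) (XT.lf (nat_lit 0) (nat_lit 8156857217) (nat_lit 760) (nat_lit 6627876641) (nat_lit 836) (nat_lit 5663260410) (nat_lit 165) (nat_lit 5) (nat_lit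 175) (nat_lit 5) (nat_lit 176) (nat_lit 5) (nat_lit 435) (nat_lit 431) (nat_lit 334)) (XT.lf (nat_lit 76) (nat_lit 4025364477) (nat_lit 0) (nat_lit 5234221345) (nat_lit 836) (nat_lit 11705372606) (nat_lit 166) (nat_lit 5) (nat_lit 165) (nat_lit 5) (nat_lit 176) (nat_lit 5) (nat_lit 436) (nat_lit 431) (nat_lit 333))) (XT.nd (nat_lit 78) (nat_lit 0) (nat_lit 0) (XT.lf (nat_lit 0) (nat_lit 10596282556) (nat_lit 760) (nat_lit 6145014344) (nat_lit 836) (nat_lit 4757533083) (nat_lit 166) (nat_lit 5) (nat_lit 176) (nat_lit 5) (nat_lit 177) (nat_lit 5) (nat_lit 437) (nat_lit 431) (nat_lit 332)) (XT.lf (nat_lit 76) (nat_lit 5264809938) (nat_lit 0) (nat_lit 6893390850) (nat_lit 836) (nat_lit 9893275728) (nat_lit 167) (nat_lit 5) (nat_lit 166) (nat_lit 5) (nat_lit 177) (nat_lit 5) (nat_lit 438) (nat_lit 431) (nat_lit 331)))) (XT.nd (nat_lit 156) (nat_lit 684) (nat_lit 0) (XT.nd (nat_lit 78) (nat_lit 0) (nat_lit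 0) (XT.lf (nat_lit 0) (nat_lit 13948569085) (nat_lit 760) (nat_lit 5231174421) (nat_lit 836) (nat_lit 3444494863) (nat_lit 167) (nat_lit 5) (nat_lit 177) (nat_lit 5) (nat_lit 178) (nat_lit 5) (nat_lit 439) (nat_lit 431) (nat_lit 330)) (XT.lf (nat_lit 76) (nat_lit 7006118863) (nat_lit 0) (nat_lit 9035931711) (nat_lit 836) (nat_lit 7172908666) (nat_lit 168) (nat_lit 5) (nat_lit 167) (nat_lit 5) (nat_lit 178) (nat_lit 5) (nat_lit 440) (nat_lit 431) (nat_lit 329))) (XT.nd (nat_lit 78) (nat_lit 760) (nat_lit 0) (XT.lf (nat_lit 0) (nat_lit 18346999969) (nat_lit 760) (nat_lit 3828100559) (nat_lit 76) (nat_lit 1654776571) (nat_lit 168) (nat_lit 5) (nat_lit 178) (nat_lit 5) (nat_lit 169) (nat_lit 5) (nat_lit 441) (nat_lit 431) (nat_lit 328)) (XT.lf (nat_lit 0) (nat_lit 9314489692) (nat_lit 760) (nat_lit 11738198880) (nat_lit 836) (nat_lit 3408578295) (nat_lit 158) (nat_lit 5) (nat_lit 168) (nat_lit 5) (nat_lit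 169) (nat_lit 5) (nat_lit 442) (nat_lit 431) (nat_lit 327)))))) (XT.nd (nat_lit 624) (nat_lit 1824) (nat_lit 0) (XT.nd (nat_lit 312) (nat_lit 684) (nat_lit 0) (XT.nd (nat_lit 156) (nat_lit 380) (nat_lit 0) (XT.nd (nat_lit 78) (nat_lit 532) (nat_lit 0) (XT.lf (nat_lit 0) (nat_lit 23240049874) (nat_lit 760) (nat_lit 710652603) (nat_lit 836) (nat_lit 1170672180) (nat_lit 158) (nat_lit 5) (nat_lit 168) (nat_lit 5) (nat_lit 169) (nat_lit 5) (nat_lit 443) (nat_lit 431) (nat_lit 326)) (XT.lf (nat_lit 0) (nat_lit 1500925662) (nat_lit 532) (nat_lit 13557906618) (nat_lit 76) (nat_lit 10736758805) (nat_lit 151) (nat_lit 5) (nat_lit 158) (nat_lit 5) (nat_lit 152) (nat_lit 5) (nat_lit 444) (nat_lit 431) (nat_lit 325))) (XT.nd (nat_lit 78) (nat_lit 0) (nat_lit 0) (XT.lf (nat_lit 0) (nat_lit 606858592) (nat_lit 380) (nat_lit 3706128319) (nat_lit 456) (nat_lit 22187261065) (nat_lit 146) (nat_lit 5) (nat_lit 151)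 (nat_lit 5) (nat_lit 152) (nat_lit 5) (nat_lit 445) (nat_lit 431) (nat_lit 324)) (XT.lf (nat_lit 0) (nat_lit 7620223915) (nat_lit 456) (nat_lit 11417576422) (nat_lit 76) (nat_lit 8184609213) (nat_lit 146) (nat_lit 5) (nat_lit 152) (nat_lit 5) (nat_lit 147) (nat_lit 5) (nat_lit 446) (nat_lit 431) (nat_lit 323)))) (XT.nd (nat_lit 156) (nat_lit 304) (nat_lit 0) (XT.nd (nat_lit 78) (nat_lit 0) (nat_lit 0) (XT.lf (nat_lit 0) (nat_lit 3836963279) (nat_lit 380) (nat_lit 7369809096) (nat_lit 456) (nat_lit 16768209799) (nat_lit 141) (nat_lit 5) (nat_lit 146) (nat_lit 5) (nat_lit 147) (nat_lit 5) (nat_lit 447) (nat_lit 431) (nat_lit 322)) (XT.lf (nat_lit 0) (nat_lit 15238885718) (nat_lit 456) (nat_lit 8591595426) (nat_lit 76) (nat_lit 4921390842) (nat_lit 141) (nat_lit 5) (nat_lit 147) (nat_lit 5) (nat_lit 142) (nat_lit 5) (nat_lit 448) (nat_lit 431) (nat_lit 321))) (XT.nd (nat_lit 78) (nat_lit 0) (nat_lit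 0) (XT.lf (nat_lit 0) (nat_lit 7855798228) (nat_lit 304) (nat_lit 11854074289) (nat_lit 380) (nat_lit 9845870790) (nat_lit 137) (nat_lit 5) (nat_lit 141) (nat_lit 5) (nat_lit 142) (nat_lit 5) (nat_lit 449) (nat_lit 431) (nat_lit 320)) (XT.lf (nat_lit 0) (nat_lit 24557531199) (nat_lit 380) (nat_lit 4989479626) (nat_lit 76) (nat_lit 845141633) (nat_lit 137) (nat_lit 5) (nat_lit 142) (nat_lit 5) (nat_lit 138) (nat_lit 5) (nat_lit 450) (nat_lit 431) (nat_lit 319))))) (XT.nd (nat_lit 312) (nat_lit 836) (nat_lit 0) (XT.nd (nat_lit 156) (nat_lit 608) (nat_lit 0) (XT.nd (nat_lit 78) (nat_lit 76) (nat_lit 0) (XT.lf (nat_lit 0) (nat_lit 12763900325) (nat_lit 304) (nat_lit 17271543930) (nat_lit 380) (nat_lit 1215544609) (nat_lit 133) (nat_lit 5) (nat_lit 137) (nat_lit 5) (nat_lit 138) (nat_lit 5) (nat_lit 451) (nat_lit 431) (nat_lit 318)) (XT.lf (nat_lit 0) (nat_lit 3598383286) (nat_lit 380) (nat_lit 635381106)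 (nat_lit 76) (nat_lit 27912154627) (nat_lit 132) (nat_lit 5) (nat_lit 137) (nat_lit 5) (nat_lit 133) (nat_lit 5) (nat_lit 452) (nat_lit 431) (nat_lit 317))) (XT.nd (nat_lit 78) (nat_lit 304) (nat_lit 0) (XT.lf (nat_lit 0) (nat_lit 9051141008) (nat_lit 380) (nat_lit 14542692181) (nat_lit 76) (nat_lit 9468817280) (nat_lit 128) (nat_lit 5) (nat_lit 133) (nat_lit 5) (nat_lit 129) (nat_lit 5) (nat_lit 453) (nat_lit 431) (nat_lit 316)) (XT.lf (nat_lit 0) (nat_lit 4704750537) (nat_lit 304) (nat_lit 10220329122) (nat_lit 380) (nat_lit 19092711986) (nat_lit 124) (nat_lit 5) (nat_lit 128) (nat_lit 5) (nat_lit 129) (nat_lit 5) (nat_lit 454) (nat_lit 431) (nat_lit 315)))) (XT.nd (nat_lit 156) (nat_lit 608) (nat_lit 0) (XT.nd (nat_lit 78) (nat_lit 228) (nat_lit 0) (XT.lf (nat_lit 0) (nat_lit 21397580252) (nat_lit 380) (nat_lit 9659444277) (nat_lit 76) (nat_lit 3948422391) (nat_lit 124) (nat_lit 5) (nat_lit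 129) (nat_lit 5) (nat_lit 125) (nat_lit 5) (nat_lit 455) (nat_lit 431) (nat_lit 314)) (XT.lf (nat_lit 0) (nat_lit 11159983461) (nat_lit 228) (nat_lit 17370621874) (nat_lit 304) (nat_lit 7495034926) (nat_lit 121) (nat_lit 5) (nat_lit 124) (nat_lit 5) (nat_lit 125) (nat_lit 5) (nat_lit 456) (nat_lit 431) (nat_lit 313))) (XT.nd (nat_lit 78) (nat_lit 608) (nat_lit 0) (XT.lf (nat_lit 0) (nat_lit 33349349665) (nat_lit 228) (nat_lit 2829766762) (nat_lit 304) (nat_lit 909785370) (nat_lit 121) (nat_lit 5) (nat_lit 124) (nat_lit 5) (nat_lit 125) (nat_lit 5) (nat_lit 457) (nat_lit 431) (nat_lit 312)) (XT.nd (nat_lit 78) (nat_lit 228) (nat_lit 0) (XT.lf (nat_lit 0) (nat_lit 6304345449) (nat_lit 380) (nat_lit 19437261914) (nat_lit 76) (nat_lit 12434441378) (nat_lit 116) (nat_lit 5) (nat_lit 121) (nat_lit 5) (nat_lit 117) (nat_lit 5) (nat_lit 458) (nat_lit 431) (nat_lit 311)) (XT.lf (nat_lit 0) (nat_lit 3189906764)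 (nat_lit 228) (nat_lit 10814760323) (nat_lit 304) (nat_lit 25304337494) (nat_lit 113) (nat_lit 5) (nat_lit 116) (nat_lit 5) (nat_lit 117) (nat_lit 5) (nat_lit 459) (nat_lit 431) (nat_lit 310))))))))
noncomputable def xc319 : XT := (XT.nd (nat_lit 1248) (nat_lit 1596) (nat_lit 0) (XT.nd (nat_lit 624) (nat_lit 988) (nat_lit 0) (XT.nd (nat_lit 312) (nat_lit 456) (nat_lit 0) (XT.nd (nat_lit 156) (nat_lit 228) (nat_lit 0) (XT.nd (nat_lit 78) (nat_lit 228) (nat_lit 0) (XT.lf (nat_lit 0) (nat_lit 22496019377) (nat_lit 304) (nat_lit 12946569072) (nat_lit 76) (nat_lit 5035719254) (nat_lit 113) (nat_lit 5) (nat_lit 117) (nat_lit 5) (nat_lit 114) (nat_lit 5) (nat_lit 460) (nat_lit 431) (nat_lit 309)) (XT.lf (nat_lit 0) (nat_lit 11571540842) (nat_lit 228) (nat_lit 20194149063) (nat_lit 304) (nat_lit 9922698752) (nat_lit 110) (nat_lit 5) (nat_lit 113) (nat_lit 5) (nat_lit 114) (nat_lit 5) (nat_lit 461) (nat_lit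 431) (nat_lit 308))) (XT.nd (nat_lit 78) (nat_lit 228) (nat_lit 0) (XT.lf (nat_lit 0) (nat_lit 37759014849) (nat_lit 228) (nat_lit 3954987092) (nat_lit 304) (nat_lit 1234214013) (nat_lit 110) (nat_lit 5) (nat_lit 113) (nat_lit 5) (nat_lit 114) (nat_lit 5) (nat_lit 462) (nat_lit 431) (nat_lit 307)) (XT.lf (nat_lit 0) (nat_lit 8180595259) (nat_lit 228) (nat_lit 22914838681) (nat_lit 76) (nat_lit 13142223234) (nat_lit 107) (nat_lit 5) (nat_lit 110) (nat_lit 5) (nat_lit 108) (nat_lit 5) (nat_lit 463) (nat_lit 431) (nat_lit 306)))) (XT.nd (nat_lit 156) (nat_lit 228) (nat_lit 0) (XT.nd (nat_lit 78) (nat_lit 0) (nat_lit 0) (XT.lf (nat_lit 0) (nat_lit 3782027710) (nat_lit 228) (nat_lit 14451947622) (nat_lit 304) (nat_lit 27346118241) (nat_lit 104) (nat_lit 5) (nat_lit 107) (nat_lit 5) (nat_lit 108) (nat_lit 5) (nat_lit 464) (nat_lit 431) (nat_lit 305)) (XT.lf (nat_lit 0) (nat_lit 29227833385) (nat_lit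 304) (nat_lit 14420523964) (nat_lit 76) (nat_lit 3319404155) (nat_lit 104) (nat_lit 5) (nat_lit 108) (nat_lit 5) (nat_lit 105) (nat_lit 5) (nat_lit 465) (nat_lit 431) (nat_lit 304))) (XT.nd (nat_lit 78) (nat_lit 76) (nat_lit 0) (XT.lf (nat_lit 0) (nat_lit 14548925529) (nat_lit 152) (nat_lit 26682872720) (nat_lit 228) (nat_lit 7169994042) (nat_lit 102) (nat_lit 5) (nat_lit 104) (nat_lit 5) (nat_lit 105) (nat_lit 5) (nat_lit 466) (nat_lit 431) (nat_lit 303)) (XT.lf (nat_lit 0) (nat_lit 4047299235) (nat_lit 228) (nat_lit 4498892380) (nat_lit 76) (nat_lit 41346036596) (nat_lit 101) (nat_lit 5) (nat_lit 104) (nat_lit 5) (nat_lit 102) (nat_lit 5) (nat_lit 467) (nat_lit 431) (nat_lit 302))))) (XT.nd (nat_lit 312) (nat_lit 380) (nat_lit 0) (XT.nd (nat_lit 156) (nat_lit 228) (nat_lit 0) (XT.nd (nat_lit 78) (nat_lit 152) (nat_lit 0) (XT.lf (nat_lit 0) (nat_lit 16176338528) (nat_lit 304) (nat_lit 24537009215)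 (nat_lit 76) (nat_lit 10708369266) (nat_lit 98) (nat_lit 5) (nat_lit 102) (nat_lit 5) (nat_lit 99) (nat_lit 5) (nat_lit 468) (nat_lit 431) (nat_lit 301)) (XT.lf (nat_lit 0) (nat_lit 7048542634) (nat_lit 152) (nat_lit 22187472806) (nat_lit 228) (nat_lit 23775455650) (nat_lit 96) (nat_lit 5) (nat_lit 98) (nat_lit 5) (nat_lit 99) (nat_lit 5) (nat_lit 469) (nat_lit 431) (nat_lit 300))) (XT.nd (nat_lit 78) (nat_lit 228) (nat_lit 0) (XT.lf (nat_lit 0) (nat_lit 41059817670) (nat_lit 152) (nat_lit 2301078728) (nat_lit 228) (nat_lit 11299205587) (nat_lit 96) (nat_lit 5) (nat_lit 98) (nat_lit 5) (nat_lit 99) (nat_lit 5) (nat_lit 470) (nat_lit 431) (nat_lit 299)) (XT.lf (nat_lit 0) (nat_lit 2364066844) (nat_lit 228) (nat_lit 35649529281) (nat_lit 76) (nat_lit 18345120162) (nat_lit 93) (nat_lit 5) (nat_lit 96) (nat_lit 5) (nat_lit 94) (nat_lit 5) (nat_lit 471) (nat_lit 431) (nat_lit 298)))) (XT.nd (nat_lit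 156) (nat_lit 228) (nat_lit 0) (XT.nd (nat_lit 78) (nat_lit 152) (nat_lit 0) (XT.lf (nat_lit 0) (nat_lit 16599422248) (nat_lit 228) (nat_lit 1156486039) (nat_lit 76) (nat_lit 40363659141) (nat_lit 93) (nat_lit 5) (nat_lit 96) (nat_lit 5) (nat_lit 94) (nat_lit 5) (nat_lit 472) (nat_lit 431) (nat_lit 297)) (XT.lf (nat_lit 0) (nat_lit 32173050703) (nat_lit 228) (nat_lit 23789188603) (nat_lit 76) (nat_lit 3974896654) (nat_lit 91) (nat_lit 5) (nat_lit 94) (nat_lit 5) (nat_lit 92) (nat_lit 5) (nat_lit 473) (nat_lit 431) (nat_lit 296))) (XT.nd (nat_lit 78) (nat_lit 76) (nat_lit 0) (XT.lf (nat_lit 0) (nat_lit 13653655177) (nat_lit 152) (nat_lit 35392871658) (nat_lit 228) (nat_lit 12772997865) (nat_lit 89) (nat_lit 5) (nat_lit 91) (nat_lit 5) (nat_lit 92) (nat_lit 5) (nat_lit 474) (nat_lit 431) (nat_lit 295)) (XT.lf (nat_lit 0) (nat_lit 3279170187) (nat_lit 228) (nat_lit 10039389819) (nat_lit 76) (nat_lit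 50454830824) (nat_lit 88) (nat_lit 5) (nat_lit 91) (nat_lit 5) (nat_lit 89) (nat_lit 5) (nat_lit 475) (nat_lit 431) (nat_lit 294)))))) (XT.nd (nat_lit 624) (nat_lit 836) (nat_lit 0) (XT.nd (nat_lit 312) (nat_lit 304) (nat_lit 0) (XT.nd (nat_lit 156) (nat_lit 152) (nat_lit 0) (XT.nd (nat_lit 78) (nat_lit 152) (nat_lit 0) (XT.lf (nat_lit 0) (nat_lit 20347372979) (nat_lit 228) (nat_lit 35192029839) (nat_lit 76) (nat_lit 10242943719) (nat_lit 86) (nat_lit 5) (nat_lit 89) (nat_lit 5) (nat_lit 87) (nat_lit 5) (nat_lit 476) (nat_lit 431) (nat_lit 293)) (XT.lf (nat_lit 0) (nat_lit 5672333694) (nat_lit 152) (nat_lit 33073553364) (nat_lit 228) (nat_lit 29122017992) (nat_lit 84) (nat_lit 5) (nat_lit 86) (nat_lit 5) (nat_lit 87) (nat_lit 5) (nat_lit 477) (nat_lit 431) (nat_lit 292))) (XT.nd (nat_lit 78) (nat_lit 152) (nat_lit 0) (XT.lf (nat_lit 0) (nat_lit 49796885525) (nat_lit 152) (nat_lit 8860687680) (nat_lit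 228) (nat_lit 11370506040) (nat_lit 84) (nat_lit 5) (nat_lit 86) (nat_lit 5) (nat_lit 87) (nat_lit 5) (nat_lit 478) (nat_lit 431) (nat_lit 291)) (XT.lf (nat_lit 0) (nat_lit 7682444340) (nat_lit 152) (nat_lit 48040977952) (nat_lit 76) (nat_lit 16534840637) (nat_lit 82) (nat_lit 5) (nat_lit 84) (nat_lit 5) (nat_lit 83) (nat_lit 5) (nat_lit 479) (nat_lit 431) (nat_lit 290)))) (XT.nd (nat_lit 156) (nat_lit 152) (nat_lit 0) (XT.nd (nat_lit 78) (nat_lit 152) (nat_lit 0) (XT.lf (nat_lit 0) (nat_lit 27796781559) (nat_lit 152) (nat_lit 3334231306) (nat_lit 76) (nat_lit 43435079765) (nat_lit 82) (nat_lit 5) (nat_lit 84) (nat_lit 5) (nat_lit 83) (nat_lit 5) (nat_lit 480) (nat_lit 431) (nat_lit 289)) (XT.lf (nat_lit 0) (nat_lit 45045101010) (nat_lit 152) (nat_lit 4572504274) (nat_lit 228) (nat_lit 27336670110) (nat_lit 80) (nat_lit 5) (nat_lit 82) (nat_lit 5) (nat_lit 83) (nat_lit 5) (nat_lit 481) (nat_lit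 431) (nat_lit 288))) (XT.nd (nat_lit 78) (nat_lit 76) (nat_lit 0) (XT.lf (nat_lit 0) (nat_lit 16664048413) (nat_lit 76) (nat_lit 56544492385) (nat_lit 152) (nat_lit 6219373025) (nat_lit 79) (nat_lit 5) (nat_lit 80) (nat_lit 5) (nat_lit 81) (nat_lit 4) (nat_lit 482) (nat_lit 431) (nat_lit 287)) (XT.lf (nat_lit 0) (nat_lit 16064902662) (nat_lit 152) (nat_lit 13561875147) (nat_lit 76) (nat_lit 52354915521) (nat_lit 78) (nat_lit 5) (nat_lit 80) (nat_lit 5) (nat_lit 79) (nat_lit 5) (nat_lit 483) (nat_lit 431) (nat_lit 286))))) (XT.nd (nat_lit 312) (nat_lit 380) (nat_lit 0) (XT.nd (nat_lit 156) (nat_lit 228) (nat_lit 0) (XT.nd (nat_lit 78) (nat_lit 76) (nat_lit 0) (XT.lf (nat_lit 0) (nat_lit 39250218126) (nat_lit 152) (nat_lit 614605587) (nat_lit 228) (nat_lit 44762718136) (nat_lit 76) (nat_lit 5) (nat_lit 78) (nat_lit 5) (nat_lit 79) (nat_lit 5) (nat_lit 484) (nat_lit 431) (nat_lit 285)) (XT.lf (nat_lit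 0) (nat_lit 7547019143) (nat_lit 76) (nat_lit 58122661780) (nat_lit 152) (nat_lit 21695254915) (nat_lit 75) (nat_lit 5) (nat_lit 76) (nat_lit 5) (nat_lit 77) (nat_lit 4) (nat_lit 485) (nat_lit 431) (nat_lit 284))) (XT.nd (nat_lit 78) (nat_lit 152) (nat_lit 0) (XT.lf (nat_lit 0) (nat_lit 3233569646) (nat_lit 152) (nat_lit 25574219254) (nat_lit 76) (nat_lit 61389997971) (nat_lit 74) (nat_lit 5) (nat_lit 76) (nat_lit 5) (nat_lit 75) (nat_lit 5) (nat_lit 486) (nat_lit 431) (nat_lit 283)) (XT.lf (nat_lit 0) (nat_lit 29222663969) (nat_lit 228) (nat_lit 61126779981) (nat_lit 76) (nat_lit 2777906982) (nat_lit 72) (nat_lit 5) (nat_lit 75) (nat_lit 5) (nat_lit 73) (nat_lit 4) (nat_lit 487) (nat_lit 431) (nat_lit 282)))) (XT.nd (nat_lit 156) (nat_lit 304) (nat_lit 0) (XT.nd (nat_lit 78) (nat_lit 76) (nat_lit 0) (XT.lf (nat_lit 0) (nat_lit 57421470958) (nat_lit 228) (nat_lit 3323241548) (nat_lit 76) (nat_lit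 35413167833) (nat_lit 72) (nat_lit 5) (nat_lit 75) (nat_lit 5) (nat_lit 73) (nat_lit 4) (nat_lit 488) (nat_lit 431) (nat_lit 281)) (XT.lf (nat_lit 0) (nat_lit 59263342567) (nat_lit 76) (nat_lit 28690035111) (nat_lit 152) (nat_lit 11340400606) (nat_lit 71) (nat_lit 5) (nat_lit 72) (nat_lit 5) (nat_lit 73) (nat_lit 4) (nat_lit 489) (nat_lit 431) (nat_lit 280))) (XT.nd (nat_lit 78) (nat_lit 76) (nat_lit 0) (XT.lf (nat_lit 0) (nat_lit 17370205195) (nat_lit 228) (nat_lit 79671769073) (nat_lit 76) (nat_lit 5505767995) (nat_lit 68) (nat_lit 5) (nat_lit 71) (nat_lit 5) (nat_lit 69) (nat_lit 4) (nat_lit 490) (nat_lit 431) (nat_lit 279)) (XT.nd (nat_lit 78) (nat_lit 76) (nat_lit 0) (XT.lf (nat_lit 0) (nat_lit 48292516377) (nat_lit 228) (nat_lit 16284335035) (nat_lit 76) (nat_lit 41320393305) (nat_lit 68) (nat_lit 5) (nat_lit 71) (nat_lit 5) (nat_lit 69) (nat_lit 4) (nat_lit 491) (nat_lit 431) (nat_lit 278))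 (XT.lf (nat_lit 0) (nat_lit 51930823388) (nat_lit 76) (nat_lit 29638914931) (nat_lit 152) (nat_lit 27804044245) (nat_lit 67) (nat_lit 5) (nat_lit 68) (nat_lit 5) (nat_lit 69) (nat_lit 4) (nat_lit 492) (nat_lit 431) (nat_lit 277))))))))
noncomputable def xc320 : XT := (XT.nd (nat_lit 1248) (nat_lit 988) (nat_lit 0) (XT.nd (nat_lit 624) (nat_lit 532) (nat_lit 0) (XT.nd (nat_lit 312) (nat_lit 380) (nat_lit 0) (XT.nd (nat_lit 156) (nat_lit 76) (nat_lit 0) (XT.nd (nat_lit 78) (nat_lit 0) (nat_lit 0) (XT.lf (nat_lit 0) (nat_lit 3949995101) (nat_lit 152) (nat_lit 101702640413) (nat_lit 76) (nat_lit 7340044161) (nat_lit 65) (nat_lit 5) (nat_lit 67) (nat_lit 5) (nat_lit 66) (nat_lit 4) (nat_lit 493) (nat_lit 431) (nat_lit 276)) (XT.lf (nat_lit 0) (nat_lit 37830018190) (nat_lit 152) (nat_lit 32251311197) (nat_lit 76) (nat_lit 46614768082) (nat_lit 65) (nat_lit 5) (nat_lit 67) (nat_lit 5) (nat_lit 66) (nat_lit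 4) (nat_lit 494) (nat_lit 431) (nat_lit 275))) (XT.nd (nat_lit 78) (nat_lit 0) (nat_lit 0) (XT.lf (nat_lit 0) (nat_lit 42013692215) (nat_lit 76) (nat_lit 32044419679) (nat_lit 152) (nat_lit 46493870810) (nat_lit 64) (nat_lit 5) (nat_lit 65) (nat_lit 5) (nat_lit 66) (nat_lit 4) (nat_lit 495) (nat_lit 431) (nat_lit 274)) (XT.lf (nat_lit 0) (nat_lit 112774134578) (nat_lit 152) (nat_lit 3597521694) (nat_lit 0) (nat_lit 8195179740) (nat_lit 64) (nat_lit 5) (nat_lit 66) (nat_lit 4) (nat_lit 64) (nat_lit 4) (nat_lit 496) (nat_lit 431) (nat_lit 273)))) (XT.nd (nat_lit 156) (nat_lit 152) (nat_lit 0) (XT.nd (nat_lit 78) (nat_lit 76) (nat_lit 0) (XT.lf (nat_lit 0) (nat_lit 25609216113) (nat_lit 152) (nat_lit 52082298006) (nat_lit 76) (nat_lit 50983958339) (nat_lit 62) (nat_lit 5) (nat_lit 64) (nat_lit 5) (nat_lit 63) (nat_lit 4) (nat_lit 497) (nat_lit 431) (nat_lit 272)) (XT.lf (nat_lit 0) (nat_lit 28651067081)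 (nat_lit 76) (nat_lit 36341317227) (nat_lit 152) (nat_lit 67962116945) (nat_lit 61) (nat_lit 5) (nat_lit 62) (nat_lit 5) (nat_lit 63) (nat_lit 4) (nat_lit 498) (nat_lit 431) (nat_lit 271))) (XT.nd (nat_lit 78) (nat_lit 152) (nat_lit 0) (XT.lf (nat_lit 0) (nat_lit 107349917277) (nat_lit 152) (nat_lit 22302480975) (nat_lit 0) (nat_lit 7744822941) (nat_lit 61) (nat_lit 5) (nat_lit 63) (nat_lit 4) (nat_lit 61) (nat_lit 4) (nat_lit 499) (nat_lit 431) (nat_lit 270)) (XT.lf (nat_lit 0) (nat_lit 11090630062) (nat_lit 152) (nat_lit 76871142436) (nat_lit 76) (nat_lit 54010689801) (nat_lit 59) (nat_lit 5) (nat_lit 61) (nat_lit 5) (nat_lit 60) (nat_lit 4) (nat_lit 500) (nat_lit 431) (nat_lit 269))))) (XT.nd (nat_lit 312) (nat_lit 304) (nat_lit 0) (XT.nd (nat_lit 156) (nat_lit 152) (nat_lit 0) (XT.nd (nat_lit 78) (nat_lit 0) (nat_lit 0) (XT.lf (nat_lit 0) (nat_lit 10733512164) (nat_lit 76) (nat_lit 43091950445)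 (nat_lit 152) (nat_lit 92898884515) (nat_lit 58) (nat_lit 5) (nat_lit 59) (nat_lit 5) (nat_lit 60) (nat_lit 4) (nat_lit 501) (nat_lit 431) (nat_lit 268)) (XT.lf (nat_lit 0) (nat_lit 100081331739) (nat_lit 152) (nat_lit 46348952620) (nat_lit 0) (nat_lit 5214327099) (nat_lit 58) (nat_lit 5) (nat_lit 60) (nat_lit 4) (nat_lit 58) (nat_lit 4) (nat_lit 502) (nat_lit 431) (nat_lit 267))) (XT.nd (nat_lit 78) (nat_lit 76) (nat_lit 0) (XT.lf (nat_lit 0) (nat_lit 48621667458) (nat_lit 76) (nat_lit 101492271268) (nat_lit 76) (nat_lit 6623753080) (nat_lit 57) (nat_lit 4) (nat_lit 58) (nat_lit 5) (nat_lit 58) (nat_lit 4) (nat_lit 503) (nat_lit 431) (nat_lit 266)) (XT.lf (nat_lit 0) (nat_lit 40060699316) (nat_lit 152) (nat_lit 12745526064) (nat_lit 76) (nat_lit 109207725358) (nat_lit 56) (nat_lit 5) (nat_lit 58) (nat_lit 5) (nat_lit 57) (nat_lit 4) (nat_lit 504) (nat_lit 431) (nat_lit 265)))) (XT.nd (nat_lit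 156) (nat_lit 152) (nat_lit 0) (XT.nd (nat_lit 78) (nat_lit 76) (nat_lit 0) (XT.lf (nat_lit 0) (nat_lit 90167864454) (nat_lit 76) (nat_lit 95158448) (nat_lit 152) (nat_lit 77215257916) (nat_lit 55) (nat_lit 5) (nat_lit 56) (nat_lit 5) (nat_lit 57) (nat_lit 4) (nat_lit 505) (nat_lit 431) (nat_lit 264)) (XT.lf (nat_lit 0) (nat_lit 25408460628) (nat_lit 76) (nat_lit 119044201017) (nat_lit 76) (nat_lit 28689305820) (nat_lit 54) (nat_lit 4) (nat_lit 55) (nat_lit 5) (nat_lit 55) (nat_lit 4) (nat_lit 506) (nat_lit 431) (nat_lit 263))) (XT.nd (nat_lit 78) (nat_lit 76) (nat_lit 0) (XT.lf (nat_lit 0) (nat_lit 22881187001) (nat_lit 152) (nat_lit 43449647748) (nat_lit 76) (nat_lit 112674084544) (nat_lit 53) (nat_lit 5) (nat_lit 55) (nat_lit 5) (nat_lit 54) (nat_lit 4) (nat_lit 507) (nat_lit 431) (nat_lit 262)) (XT.lf (nat_lit 0) (nat_lit 67743456094) (nat_lit 76) (nat_lit 9378820310) (nat_lit 152) (nat_lit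 107962415457) (nat_lit 52) (nat_lit 5) (nat_lit 53) (nat_lit 5) (nat_lit 54) (nat_lit 4) (nat_lit 508) (nat_lit 431) (nat_lit 261)))))) (XT.nd (nat_lit 624) (nat_lit 456) (nat_lit 0) (XT.nd (nat_lit 312) (nat_lit 304) (nat_lit 0) (XT.nd (nat_lit 156) (nat_lit 76) (nat_lit 0) (XT.nd (nat_lit 78) (nat_lit 152) (nat_lit 0) (XT.lf (nat_lit 0) (nat_lit 135609093031) (nat_lit 152) (nat_lit 6229094021) (nat_lit 0) (nat_lit 49553582378) (nat_lit 52) (nat_lit 5) (nat_lit 54) (nat_lit 4) (nat_lit 52) (nat_lit 4) (nat_lit 509) (nat_lit 431) (nat_lit 260)) (XT.lf (nat_lit 0) (nat_lit 1000643833) (nat_lit 152) (nat_lit 84005166441) (nat_lit 76) (nat_lit 112911027451) (nat_lit 50) (nat_lit 5) (nat_lit 52) (nat_lit 5) (nat_lit 51) (nat_lit 4) (nat_lit 510) (nat_lit 431) (nat_lit 259))) (XT.nd (nat_lit 78) (nat_lit 0) (nat_lit 0) (XT.lf (nat_lit 0) (nat_lit 35737767568) (nat_lit 76) (nat_lit 23674516848) (nat_lit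 152) (nat_lit 145276960618) (nat_lit 49) (nat_lit 5) (nat_lit 50) (nat_lit 5) (nat_lit 51) (nat_lit 4) (nat_lit 511) (nat_lit 431) (nat_lit 258)) (XT.lf (nat_lit 0) (nat_lit 122824935225) (nat_lit 152) (nat_lit 48006666981) (nat_lit 0) (nat_lit 40864649103) (nat_lit 49) (nat_lit 5) (nat_lit 51) (nat_lit 4) (nat_lit 49) (nat_lit 4) (nat_lit 512) (nat_lit 431) (nat_lit 257)))) (XT.nd (nat_lit 156) (nat_lit 152) (nat_lit 0) (XT.nd (nat_lit 78) (nat_lit 76) (nat_lit 0) (XT.lf (nat_lit 0) (nat_lit 81193384234) (nat_lit 76) (nat_lit 109869294721) (nat_lit 76) (nat_lit 27908205932) (nat_lit 48) (nat_lit 4) (nat_lit 49) (nat_lit 5) (nat_lit 49) (nat_lit 4) (nat_lit 513) (nat_lit 431) (nat_lit 256)) (XT.lf (nat_lit 0) (nat_lit 35772579169) (nat_lit 152) (nat_lit 8628065936) (nat_lit 76) (nat_lit 182139169408) (nat_lit 47) (nat_lit 5) (nat_lit 49) (nat_lit 5) (nat_lit 48) (nat_lit 4) (nat_lit 514) (nat_lit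 431) (nat_lit 255))) (XT.nd (nat_lit 78) (nat_lit 76) (nat_lit 0) (XT.lf (nat_lit 0) (nat_lit 104159864129) (nat_lit 152) (nat_lit 104081170040) (nat_lit 0) (nat_lit 26100262913) (nat_lit 46) (nat_lit 5) (nat_lit 48) (nat_lit 4) (nat_lit 46) (nat_lit 4) (nat_lit 515) (nat_lit 431) (nat_lit 254)) (XT.lf (nat_lit 0) (nat_lit 34229544653) (nat_lit 76) (nat_lit 143146545922) (nat_lit 76) (nat_lit 65086284350) (nat_lit 45) (nat_lit 4) (nat_lit 46) (nat_lit 5) (nat_lit 46) (nat_lit 4) (nat_lit 516) (nat_lit 431) (nat_lit 253))))) (XT.nd (nat_lit 312) (nat_lit 228) (nat_lit 0) (XT.nd (nat_lit 156) (nat_lit 76) (nat_lit 0) (XT.nd (nat_lit 78) (nat_lit 76) (nat_lit 0) (XT.lf (nat_lit 0) (nat_lit 4949490383) (nat_lit 152) (nat_lit 67914435195) (nat_lit 76) (nat_lit 178033517125) (nat_lit 44) (nat_lit 5) (nat_lit 46) (nat_lit 5) (nat_lit 45) (nat_lit 4) (nat_lit 517) (nat_lit 431) (nat_lit 252)) (XT.lf (nat_lit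 0) (nat_lit 77615022987) (nat_lit 152) (nat_lit 178749379397) (nat_lit 0) (nat_lit 3270747325) (nat_lit 43) (nat_lit 5) (nat_lit 45) (nat_lit 4) (nat_lit 43) (nat_lit 4) (nat_lit 518) (nat_lit 431) (nat_lit 251))) (XT.nd (nat_lit 78) (nat_lit 76) (nat_lit 0) (XT.lf (nat_lit 0) (nat_lit 156276166358) (nat_lit 152) (nat_lit 30484111586) (nat_lit 0) (nat_lit 81931347420) (nat_lit 43) (nat_lit 5) (nat_lit 45) (nat_lit 4) (nat_lit 43) (nat_lit 4) (nat_lit 519) (nat_lit 431) (nat_lit 250)) (XT.lf (nat_lit 0) (nat_lit 129331596573) (nat_lit 76) (nat_lit 111556879558) (nat_lit 76) (nat_lit 37211543213) (nat_lit 42) (nat_lit 4) (nat_lit 43) (nat_lit 5) (nat_lit 43) (nat_lit 4) (nat_lit 520) (nat_lit 431) (nat_lit 249)))) (XT.nd (nat_lit 156) (nat_lit 76) (nat_lit 0) (XT.nd (nat_lit 78) (nat_lit 0) (nat_lit 0) (XT.lf (nat_lit 0) (nat_lit 9897614685) (nat_lit 76) (nat_lit 31196748142) (nat_lit 152) (nat_lit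 246817969601) (nat_lit 40) (nat_lit 5) (nat_lit 41) (nat_lit 5) (nat_lit 42) (nat_lit 4) (nat_lit 521) (nat_lit 431) (nat_lit 248)) (XT.lf (nat_lit 0) (nat_lit 125454973701) (nat_lit 152) (nat_lit 117911312926) (nat_lit 0) (nat_lit 54648975210) (nat_lit 40) (nat_lit 5) (nat_lit 42) (nat_lit 4) (nat_lit 40) (nat_lit 4) (nat_lit 522) (nat_lit 431) (nat_lit 247))) (XT.nd (nat_lit 78) (nat_lit 0) (nat_lit 0) (XT.lf (nat_lit 0) (nat_lit 51326470285) (nat_lit 76) (nat_lit 164018853092) (nat_lit 76) (nat_lit 93212428930) (nat_lit 39) (nat_lit 4) (nat_lit 40) (nat_lit 5) (nat_lit 40) (nat_lit 4) (nat_lit 523) (nat_lit 431) (nat_lit 246)) (XT.lf (nat_lit 0) (nat_lit 233117654331) (nat_lit 76) (nat_lit 78608375292) (nat_lit 76) (nat_lit 7801545729) (nat_lit 39) (nat_lit 4) (nat_lit 40) (nat_lit 5) (nat_lit 40) (nat_lit 4) (nat_lit 524) (nat_lit 431) (nat_lit 245)))))))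
noncomputable def xc321 : XT := (XT.nd (nat_lit 1248) (nat_lit 532) (nat_lit 0) (XT.nd (nat_lit 624) (nat_lit 456) (nat_lit 0) (XT.nd (nat_lit 312) (nat_lit 304) (nat_lit 0) (XT.nd (nat_lit 156) (nat_lit 152) (nat_lit 0) (XT.nd (nat_lit 78) (nat_lit 0) (nat_lit 0) (XT.lf (nat_lit 0) (nat_lit 80954838467) (nat_lit 152) (nat_lit 236422956164) (nat_lit 0) (nat_lit 13519394981) (nat_lit 37) (nat_lit 5) (nat_lit 39) (nat_lit 4) (nat_lit 37) (nat_lit 4) (nat_lit 525) (nat_lit 431) (nat_lit 244)) (XT.lf (nat_lit 0) (nat_lit 176661893184) (nat_lit 152) (nat_lit 56802145477) (nat_lit 0) (nat_lit 109226099497) (nat_lit 37) (nat_lit 5) (nat_lit 39) (nat_lit 4) (nat_lit 37) (nat_lit 4) (nat_lit 526) (nat_lit 431) (nat_lit 243))) (XT.nd (nat_lit 78) (nat_lit 76) (nat_lit 0) (XT.lf (nat_lit 0) (nat_lit 136155594682) (nat_lit 76) (nat_lit 143123513152) (nat_lit 76) (nat_lit 75687385940) (nat_lit 36) (nat_lit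 4) (nat_lit 37) (nat_lit 5) (nat_lit 37) (nat_lit 4) (nat_lit 527) (nat_lit 431) (nat_lit 242)) (XT.lf (nat_lit 0) (nat_lit 19533718978) (nat_lit 152) (nat_lit 27392320949) (nat_lit 76) (nat_lit 320866823016) (nat_lit 35) (nat_lit 5) (nat_lit 37) (nat_lit 5) (nat_lit 36) (nat_lit 4) (nat_lit 528) (nat_lit 431) (nat_lit 241)))) (XT.nd (nat_lit 156) (nat_lit 228) (nat_lit 0) (XT.nd (nat_lit 78) (nat_lit 0) (nat_lit 0) (XT.lf (nat_lit 0) (nat_lit 120661541250) (nat_lit 152) (nat_lit 203916440188) (nat_lit 0) (nat_lit 56436067564) (nat_lit 34) (nat_lit 5) (nat_lit 36) (nat_lit 4) (nat_lit 34) (nat_lit 4) (nat_lit 529) (nat_lit 431) (nat_lit 240)) (XT.lf (nat_lit 0) (nat_lit 228085625251) (nat_lit 152) (nat_lit 2888798413) (nat_lit 0) (nat_lit 163859877172) (nat_lit 34) (nat_lit 5) (nat_lit 36) (nat_lit 4) (nat_lit 34) (nat_lit 4) (nat_lit 530) (nat_lit 431) (nat_lit 239))) (XT.nd (nat_lit 78) (nat_lit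 152) (nat_lit 0) (XT.lf (nat_lit 0) (nat_lit 215072114888) (nat_lit 76) (nat_lit 129165804736) (nat_lit 76) (nat_lit 64939795333) (nat_lit 33) (nat_lit 4) (nat_lit 34) (nat_lit 5) (nat_lit 34) (nat_lit 4) (nat_lit 531) (nat_lit 431) (nat_lit 238)) (XT.lf (nat_lit 0) (nat_lit 19770626644) (nat_lit 76) (nat_lit 21203463565) (nat_lit 152) (nat_lit 383213577873) (nat_lit 31) (nat_lit 5) (nat_lit 32) (nat_lit 5) (nat_lit 33) (nat_lit 4) (nat_lit 532) (nat_lit 431) (nat_lit 237))))) (XT.nd (nat_lit 312) (nat_lit 228) (nat_lit 0) (XT.nd (nat_lit 156) (nat_lit 152) (nat_lit 0) (XT.nd (nat_lit 78) (nat_lit 76) (nat_lit 0) (XT.lf (nat_lit 0) (nat_lit 154780386910) (nat_lit 152) (nat_lit 191263250488) (nat_lit 0) (nat_lit 93612296134) (nat_lit 31) (nat_lit 5) (nat_lit 33) (nat_lit 4) (nat_lit 31) (nat_lit 4) (nat_lit 533) (nat_lit 431) (nat_lit 236)) (XT.lf (nat_lit 0) (nat_lit 33263596408) (nat_lit 76) (nat_lit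 241879508157) (nat_lit 76) (nat_lit 180711202387) (nat_lit 30) (nat_lit 4) (nat_lit 31) (nat_lit 5) (nat_lit 31) (nat_lit 4) (nat_lit 534) (nat_lit 431) (nat_lit 235))) (XT.nd (nat_lit 78) (nat_lit 152) (nat_lit 0) (XT.lf (nat_lit 0) (nat_lit 275655362241) (nat_lit 76) (nat_lit 129106915669) (nat_lit 76) (nat_lit 67938405144) (nat_lit 30) (nat_lit 4) (nat_lit 31) (nat_lit 5) (nat_lit 31) (nat_lit 4) (nat_lit 535) (nat_lit 431) (nat_lit 234)) (XT.lf (nat_lit 0) (nat_lit 40276823767) (nat_lit 76) (nat_lit 9208800279) (nat_lit 152) (nat_lit 440832950427) (nat_lit 28) (nat_lit 5) (nat_lit 29) (nat_lit 5) (nat_lit 30) (nat_lit 4) (nat_lit 536) (nat_lit 431) (nat_lit 233)))) (XT.nd (nat_lit 156) (nat_lit 152) (nat_lit 0) (XT.nd (nat_lit 78) (nat_lit 76) (nat_lit 0) (XT.lf (nat_lit 0) (nat_lit 175710421037) (nat_lit 152) (nat_lit 215336280966) (nat_lit 0) (nat_lit 117454334133) (nat_lit 28) (nat_lit 5)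 (nat_lit 30) (nat_lit 4) (nat_lit 28) (nat_lit 4) (nat_lit 537) (nat_lit 431) (nat_lit 232)) (XT.lf (nat_lit 0) (nat_lit 31975386907) (nat_lit 76) (nat_lit 276920508722) (nat_lit 76) (nat_lit 218664253366) (nat_lit 27) (nat_lit 4) (nat_lit 28) (nat_lit 5) (nat_lit 28) (nat_lit 4) (nat_lit 538) (nat_lit 431) (nat_lit 231))) (XT.nd (nat_lit 78) (nat_lit 152) (nat_lit 0) (XT.lf (nat_lit 0) (nat_lit 299127128691) (nat_lit 76) (nat_lit 153259600175) (nat_lit 76) (nat_lit 95003184388) (nat_lit 27) (nat_lit 4) (nat_lit 28) (nat_lit 5) (nat_lit 28) (nat_lit 4) (nat_lit 539) (nat_lit 431) (nat_lit 230)) (XT.lf (nat_lit 0) (nat_lit 11239613790) (nat_lit 76) (nat_lit 22660962975) (nat_lit 152) (nat_lit 534274652412) (nat_lit 25) (nat_lit 5) (nat_lit 26) (nat_lit 5) (nat_lit 27) (nat_lit 4) (nat_lit 540) (nat_lit 431) (nat_lit 229)))))) (XT.nd (nat_lit 624) (nat_lit 228) (nat_lit 0) (XT.nd (nat_lit 312) (nat_lit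 228) (nat_lit 0) (XT.nd (nat_lit 156) (nat_lit 76) (nat_lit 0) (XT.nd (nat_lit 78) (nat_lit 0) (nat_lit 0) (XT.lf (nat_lit 0) (nat_lit 172116616871) (nat_lit 152) (nat_lit 300868299499) (nat_lit 0) (nat_lit 116634032019) (nat_lit 25) (nat_lit 5) (nat_lit 27) (nat_lit 4) (nat_lit 25) (nat_lit 4) (nat_lit 541) (nat_lit 431) (nat_lit 228)) (XT.lf (nat_lit 0) (nat_lit 317614269166) (nat_lit 152) (nat_lit 32370491564) (nat_lit 0) (nat_lit 262131552327) (nat_lit 25) (nat_lit 5) (nat_lit 27) (nat_lit 4) (nat_lit 25) (nat_lit 4) (nat_lit 542) (nat_lit 431) (nat_lit 227))) (XT.nd (nat_lit 78) (nat_lit 0) (nat_lit 0) (XT.lf (nat_lit 0) (nat_lit 257802169483) (nat_lit 76) (nat_lit 216609000363) (nat_lit 76) (nat_lit 161126157823) (nat_lit 24) (nat_lit 4) (nat_lit 25) (nat_lit 5) (nat_lit 25) (nat_lit 4) (nat_lit 543) (nat_lit 431) (nat_lit 226)) (XT.lf (nat_lit 0) (nat_lit 563605998480) (nat_lit 76) (nat_lit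 75989489095) (nat_lit 76) (nat_lit 20506526839) (nat_lit 24) (nat_lit 4) (nat_lit 25) (nat_lit 5) (nat_lit 25) (nat_lit 4) (nat_lit 544) (nat_lit 431) (nat_lit 225)))) (XT.nd (nat_lit 156) (nat_lit 76) (nat_lit 0) (XT.nd (nat_lit 78) (nat_lit 0) (nat_lit 0) (XT.lf (nat_lit 0) (nat_lit 127451961644) (nat_lit 152) (nat_lit 483513919418) (nat_lit 0) (nat_lit 74610936623) (nat_lit 22) (nat_lit 5) (nat_lit 24) (nat_lit 4) (nat_lit 22) (nat_lit 4) (nat_lit 545) (nat_lit 431) (nat_lit 224)) (XT.lf (nat_lit 0) (nat_lit 285025329954) (nat_lit 152) (nat_lit 194953715562) (nat_lit 0) (nat_lit 232184201518) (nat_lit 22) (nat_lit 5) (nat_lit 24) (nat_lit 4) (nat_lit 22) (nat_lit 4) (nat_lit 546) (nat_lit 431) (nat_lit 223))) (XT.nd (nat_lit 78) (nat_lit 0) (nat_lit 0) (XT.lf (nat_lit 0) (nat_lit 111605372575) (nat_lit 76) (nat_lit 340613878980) (nat_lit 76) (nat_lit 287772652052) (nat_lit 21) (nat_lit 4) (nat_lit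 22) (nat_lit 5) (nat_lit 22) (nat_lit 4) (nat_lit 547) (nat_lit 431) (nat_lit 222)) (XT.lf (nat_lit 0) (nat_lit 440259592355) (nat_lit 76) (nat_lit 190814334257) (nat_lit 76) (nat_lit 137973013529) (nat_lit 21) (nat_lit 4) (nat_lit 22) (nat_lit 5) (nat_lit 22) (nat_lit 4) (nat_lit 548) (nat_lit 431) (nat_lit 221))))) (XT.nd (nat_lit 53352) (nat_lit 0) (nat_lit 11020) (XT.nd (nat_lit 156) (nat_lit 76) (nat_lit 0) (XT.nd (nat_lit 78) (nat_lit 76) (nat_lit 0) (XT.lf (nat_lit 0) (nat_lit 18697795237) (nat_lit 152) (nat_lit 14510929824) (nat_lit 76) (nat_lit 766330952105) (nat_lit 20) (nat_lit 5) (nat_lit 22) (nat_lit 5) (nat_lit 21) (nat_lit 4) (nat_lit 549) (nat_lit 431) (nat_lit 220)) (XT.lf (nat_lit 0) (nat_lit 185801796298) (nat_lit 152) (nat_lit 509803776790) (nat_lit 0) (nat_lit 135476562829) (nat_lit 19) (nat_lit 5) (nat_lit 21) (nat_lit 4) (nat_lit 19) (nat_lit 4) (nat_lit 550) (nat_lit 431)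 (nat_lit 219))) (XT.nd (nat_lit 78) (nat_lit 76) (nat_lit 0) (XT.lf (nat_lit 0) (nat_lit 362054648329) (nat_lit 152) (nat_lit 190378049041) (nat_lit 0) (nat_lit 311729337690) (nat_lit 19) (nat_lit 5) (nat_lit 21) (nat_lit 4) (nat_lit 19) (nat_lit 4) (nat_lit 551) (nat_lit 431) (nat_lit 218)) (XT.lf (nat_lit 0) (nat_lit 149812880342) (nat_lit 76) (nat_lit 399645754187) (nat_lit 76) (nat_lit 349320370052) (nat_lit 18) (nat_lit 4) (nat_lit 19) (nat_lit 5) (nat_lit 19) (nat_lit 4) (nat_lit 552) (nat_lit 431) (nat_lit 217)))) (XT.nd (nat_lit 156) (nat_lit 0) (nat_lit 76) (XT.nd (nat_lit 78) (nat_lit 0) (nat_lit 0) (XT.lf (nat_lit 0) (nat_lit 3099575949) (nat_lit 836) (nat_lit 3314856598) (nat_lit 836) (nat_lit 3314856598) (nat_lit 163) (nat_lit 3) (nat_lit 174) (nat_lit 3) (nat_lit 174) (nat_lit 5) (nat_lit 432) (nat_lit 432) (nat_lit 336)) (XT.lf (nat_lit 76) (nat_lit 3161497343) (nat_lit 0) (nat_lit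 3414092175) (nat_lit 836) (nat_lit 13358367006) (nat_lit 164) (nat_lit 5) (nat_lit 163) (nat_lit 3) (nat_lit 174) (nat_lit 5) (nat_lit 433) (nat_lit 432) (nat_lit 335))) (XT.nd (nat_lit 78) (nat_lit 0) (nat_lit 0) (XT.lf (nat_lit 0) (nat_lit 7174974414) (nat_lit 760) (nat_lit 6864542154) (nat_lit 836) (nat_lit 6383381682) (nat_lit 164) (nat_lit 5) (nat_lit 174) (nat_lit 5) (nat_lit 175) (nat_lit 5) (nat_lit 434) (nat_lit 432) (nat_lit 334)) (XT.nd (nat_lit 78) (nat_lit 0) (nat_lit 76) (XT.lf (nat_lit 76) (nat_lit 3591453976) (nat_lit 0) (nat_lit 4314411570) (nat_lit 836) (nat_lit 13025345477) (nat_lit 165) (nat_lit 5) (nat_lit 164) (nat_lit 5) (nat_lit 175) (nat_lit 5) (nat_lit 435) (nat_lit 432) (nat_lit 333)) (XT.lf (nat_lit 0) (nat_lit 8873489346) (nat_lit 760) (nat_lit 6751291313) (nat_lit 836) (nat_lit 5830150141) (nat_lit 165) (nat_lit 5) (nat_lit 175) (nat_lit 5) (nat_lit 176) (nat_lit 5)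 (nat_lit 436) (nat_lit 432) (nat_lit 332))))))))
noncomputable def xc322 : XT := (XT.nd (nat_lit 1248) (nat_lit 2660) (nat_lit 0) (XT.nd (nat_lit 624) (nat_lit 1900) (nat_lit 0) (XT.nd (nat_lit 312) (nat_lit 532) (nat_lit 0) (XT.nd (nat_lit 156) (nat_lit 0) (nat_lit 76) (XT.nd (nat_lit 78) (nat_lit 0) (nat_lit 76) (XT.lf (nat_lit 76) (nat_lit 4431257359) (nat_lit 0) (nat_lit 5588587536) (nat_lit 836) (nat_lit 11978474876) (nat_lit 166) (nat_lit 5) (nat_lit 165) (nat_lit 5) (nat_lit 176) (nat_lit 5) (nat_lit 437) (nat_lit 432) (nat_lit 331)) (XT.lf (nat_lit 0) (nat_lit 11407842566) (nat_lit 760) (nat_lit 6241829020) (nat_lit 836) (nat_lit 4909991088) (nat_lit 166) (nat_lit 5) (nat_lit 176) (nat_lit 5) (nat_lit 177) (nat_lit 5) (nat_lit 438) (nat_lit 432) (nat_lit 330))) (XT.nd (nat_lit 78) (nat_lit 0) (nat_lit 76) (XT.lf (nat_lit 76) (nat_lit 5735092346) (nat_lit 0) (nat_lit 7302580396) (nat_lit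 836) (nat_lit 10102779014) (nat_lit 167) (nat_lit 5) (nat_lit 166) (nat_lit 5) (nat_lit 177) (nat_lit 5) (nat_lit 439) (nat_lit 432) (nat_lit 329)) (XT.lf (nat_lit 0) (nat_lit 14903668565) (nat_lit 760) (nat_lit 5281639966) (nat_lit 836) (nat_lit 3557238690) (nat_lit 167) (nat_lit 5) (nat_lit 177) (nat_lit 5) (nat_lit 178) (nat_lit 5) (nat_lit 440) (nat_lit 432) (nat_lit 328)))) (XT.nd (nat_lit 156) (nat_lit 684) (nat_lit 0) (XT.nd (nat_lit 78) (nat_lit 0) (nat_lit 76) (XT.lf (nat_lit 76) (nat_lit 7564113254) (nat_lit 0) (nat_lit 9528683425) (nat_lit 836) (nat_lit 7270459760) (nat_lit 168) (nat_lit 5) (nat_lit 167) (nat_lit 5) (nat_lit 178) (nat_lit 5) (nat_lit 441) (nat_lit 432) (nat_lit 327)) (XT.lf (nat_lit 0) (nat_lit 19500544397) (nat_lit 760) (nat_lit 3809240220) (nat_lit 76) (nat_lit 1699758915) (nat_lit 168) (nat_lit 5) (nat_lit 178) (nat_lit 5) (nat_lit 169) (nat_lit 5) (nat_lit 442) (nat_lit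 432) (nat_lit 326))) (XT.nd (nat_lit 78) (nat_lit 0) (nat_lit 0) (XT.lf (nat_lit 0) (nat_lit 9987088166) (nat_lit 760) (nat_lit 12346411793) (nat_lit 836) (nat_lit 3339404547) (nat_lit 158) (nat_lit 5) (nat_lit 168) (nat_lit 5) (nat_lit 169) (nat_lit 5) (nat_lit 443) (nat_lit 432) (nat_lit 325)) (XT.lf (nat_lit 0) (nat_lit 24599075215) (nat_lit 760) (nat_lit 766473775) (nat_lit 836) (nat_lit 1001012776) (nat_lit 158) (nat_lit 5) (nat_lit 168) (nat_lit 5) (nat_lit 169) (nat_lit 5) (nat_lit 444) (nat_lit 432) (nat_lit 324))))) (XT.nd (nat_lit 312) (nat_lit 608) (nat_lit 0) (XT.nd (nat_lit 156) (nat_lit 380) (nat_lit 0) (XT.nd (nat_lit 78) (nat_lit 380) (nat_lit 0) (XT.lf (nat_lit 0) (nat_lit 1789287107) (nat_lit 532) (nat_lit 14023871400) (nat_lit 76) (nat_lit 11261531812) (nat_lit 151) (nat_lit 5) (nat_lit 158) (nat_lit 5) (nat_lit 152) (nat_lit 5) (nat_lit 445) (nat_lit 432) (nat_lit 323)) (XT.lf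 (nat_lit 0) (nat_lit 845713836) (nat_lit 380) (nat_lit 3889335179) (nat_lit 456) (nat_lit 23079876853) (nat_lit 146) (nat_lit 5) (nat_lit 151) (nat_lit 5) (nat_lit 152) (nat_lit 5) (nat_lit 446) (nat_lit 432) (nat_lit 322))) (XT.nd (nat_lit 78) (nat_lit 380) (nat_lit 0) (XT.lf (nat_lit 0) (nat_lit 8197849910) (nat_lit 456) (nat_lit 11780060919) (nat_lit 76) (nat_lit 8595775251) (nat_lit 146) (nat_lit 5) (nat_lit 152) (nat_lit 5) (nat_lit 147) (nat_lit 5) (nat_lit 447) (nat_lit 432) (nat_lit 321)) (XT.lf (nat_lit 0) (nat_lit 4233844569) (nat_lit 380) (nat_lit 7723719757) (nat_lit 456) (nat_lit 17406631712) (nat_lit 141) (nat_lit 5) (nat_lit 146) (nat_lit 5) (nat_lit 147) (nat_lit 5) (nat_lit 448) (nat_lit 432) (nat_lit 320)))) (XT.nd (nat_lit 156) (nat_lit 304) (nat_lit 0) (XT.nd (nat_lit 78) (nat_lit 304) (nat_lit 0) (XT.lf (nat_lit 0) (nat_lit 16182430921) (nat_lit 456) (nat_lit 8817041160) (nat_lit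 76) (nat_lit 5180901479) (nat_lit 141) (nat_lit 5) (nat_lit 147) (nat_lit 5) (nat_lit 142) (nat_lit 5) (nat_lit 449) (nat_lit 432) (nat_lit 319)) (XT.lf (nat_lit 0) (nat_lit 8449429693) (nat_lit 304) (nat_lit 12422025404) (nat_lit 380) (nat_lit 10153259519) (nat_lit 137) (nat_lit 5) (nat_lit 141) (nat_lit 5) (nat_lit 142) (nat_lit 5) (nat_lit 450) (nat_lit 432) (nat_lit 318))) (XT.nd (nat_lit 78) (nat_lit 304) (nat_lit 0) (XT.lf (nat_lit 0) (nat_lit 25953479579) (nat_lit 380) (nat_lit 5039647938) (nat_lit 76) (nat_lit 910218106) (nat_lit 137) (nat_lit 5) (nat_lit 142) (nat_lit 5) (nat_lit 138) (nat_lit 5) (nat_lit 451) (nat_lit 432) (nat_lit 317)) (XT.lf (nat_lit 0) (nat_lit 13598186403) (nat_lit 304) (nat_lit 18102159996) (nat_lit 380) (nat_lit 1105025063) (nat_lit 133) (nat_lit 5) (nat_lit 137) (nat_lit 5) (nat_lit 138) (nat_lit 5) (nat_lit 452) (nat_lit 432) (nat_lit 316)))))) (XT.nd (nat_lit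 624) (nat_lit 1140) (nat_lit 0) (XT.nd (nat_lit 312) (nat_lit 836) (nat_lit 0) (XT.nd (nat_lit 156) (nat_lit 304) (nat_lit 0) (XT.nd (nat_lit 78) (nat_lit 304) (nat_lit 0) (XT.lf (nat_lit 0) (nat_lit 3936220745) (nat_lit 380) (nat_lit 475165891) (nat_lit 76) (nat_lit 29333923033) (nat_lit 132) (nat_lit 5) (nat_lit 137) (nat_lit 5) (nat_lit 133) (nat_lit 5) (nat_lit 453) (nat_lit 432) (nat_lit 315)) (XT.lf (nat_lit 0) (nat_lit 9657600386) (nat_lit 380) (nat_lit 15073817612) (nat_lit 76) (nat_lit 9976660939) (nat_lit 128) (nat_lit 5) (nat_lit 133) (nat_lit 5) (nat_lit 129) (nat_lit 5) (nat_lit 454) (nat_lit 432) (nat_lit 314))) (XT.nd (nat_lit 78) (nat_lit 0) (nat_lit 0) (XT.lf (nat_lit 0) (nat_lit 5132835803) (nat_lit 304) (nat_lit 10688082377) (nat_lit 380) (nat_lit 19890275306) (nat_lit 124) (nat_lit 5) (nat_lit 128) (nat_lit 5) (nat_lit 129) (nat_lit 5) (nat_lit 455) (nat_lit 432) (nat_lit 313))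 (XT.lf (nat_lit 0) (nat_lit 22610564025) (nat_lit 380) (nat_lit 9952264090) (nat_lit 76) (nat_lit 4185727804) (nat_lit 124) (nat_lit 5) (nat_lit 129) (nat_lit 5) (nat_lit 125) (nat_lit 5) (nat_lit 456) (nat_lit 432) (nat_lit 312)))) (XT.nd (nat_lit 156) (nat_lit 608) (nat_lit 0) (XT.nd (nat_lit 78) (nat_lit 0) (nat_lit 0) (XT.lf (nat_lit 0) (nat_lit 11905068061) (nat_lit 228) (nat_lit 18191278717) (nat_lit 304) (nat_lit 7723607215) (nat_lit 121) (nat_lit 5) (nat_lit 124) (nat_lit 5) (nat_lit 125) (nat_lit 5) (nat_lit 457) (nat_lit 432) (nat_lit 311)) (XT.lf (nat_lit 0) (nat_lit 35194993745) (nat_lit 228) (nat_lit 2925660576) (nat_lit 304) (nat_lit 816056108) (nat_lit 121) (nat_lit 5) (nat_lit 124) (nat_lit 5) (nat_lit 125) (nat_lit 5) (nat_lit 458) (nat_lit 432) (nat_lit 310))) (XT.nd (nat_lit 78) (nat_lit 228) (nat_lit 0) (XT.lf (nat_lit 0) (nat_lit 6751471529) (nat_lit 380) (nat_lit 20223625015)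 (nat_lit 76) (nat_lit 13103152522) (nat_lit 116) (nat_lit 5) (nat_lit 121) (nat_lit 5) (nat_lit 117) (nat_lit 5) (nat_lit 459) (nat_lit 432) (nat_lit 309)) (XT.lf (nat_lit 0) (nat_lit 3531910161) (nat_lit 228) (nat_lit 11301467179) (nat_lit 304) (nat_lit 26434647272) (nat_lit 113) (nat_lit 5) (nat_lit 116) (nat_lit 5) (nat_lit 117) (nat_lit 5) (nat_lit 460) (nat_lit 432) (nat_lit 308))))) (XT.nd (nat_lit 312) (nat_lit 684) (nat_lit 0) (XT.nd (nat_lit 156) (nat_lit 228) (nat_lit 0) (XT.nd (nat_lit 78) (nat_lit 228) (nat_lit 0) (XT.lf (nat_lit 0) (nat_lit 23743982704) (nat_lit 304) (nat_lit 13414759736) (nat_lit 76) (nat_lit 5337316479) (nat_lit 113) (nat_lit 5) (nat_lit 117) (nat_lit 5) (nat_lit 114) (nat_lit 5) (nat_lit 461) (nat_lit 432) (nat_lit 307)) (XT.lf (nat_lit 0) (nat_lit 12326366354) (nat_lit 228) (nat_lit 21147657262) (nat_lit 304) (nat_lit 10292776249) (nat_lit 110) (nat_lit 5) (nat_lit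 113) (nat_lit 5) (nat_lit 114) (nat_lit 5) (nat_lit 462) (nat_lit 432) (nat_lit 306))) (XT.nd (nat_lit 78) (nat_lit 228) (nat_lit 0) (XT.lf (nat_lit 0) (nat_lit 39814821277) (nat_lit 228) (nat_lit 4099213349) (nat_lit 304) (nat_lit 1175870009) (nat_lit 110) (nat_lit 5) (nat_lit 113) (nat_lit 5) (nat_lit 114) (nat_lit 5) (nat_lit 463) (nat_lit 432) (nat_lit 305)) (XT.lf (nat_lit 0) (nat_lit 8703809201) (nat_lit 228) (nat_lit 23886844198) (nat_lit 76) (nat_lit 13853172446) (nat_lit 107) (nat_lit 5) (nat_lit 110) (nat_lit 5) (nat_lit 108) (nat_lit 5) (nat_lit 464) (nat_lit 432) (nat_lit 304)))) (XT.nd (nat_lit 156) (nat_lit 456) (nat_lit 0) (XT.nd (nat_lit 78) (nat_lit 0) (nat_lit 0) (XT.lf (nat_lit 0) (nat_lit 4142063312) (nat_lit 228) (nat_lit 15115026386) (nat_lit 304) (nat_lit 28596433033) (nat_lit 104) (nat_lit 5) (nat_lit 107) (nat_lit 5) (nat_lit 108) (nat_lit 5) (nat_lit 465) (nat_lit 432)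 (nat_lit 303)) (XT.lf (nat_lit 0) (nat_lit 30796220151) (nat_lit 304) (nat_lit 14974330653) (nat_lit 76) (nat_lit 3540244505) (nat_lit 104) (nat_lit 5) (nat_lit 108) (nat_lit 5) (nat_lit 105) (nat_lit 5) (nat_lit 466) (nat_lit 432) (nat_lit 302))) (XT.nd (nat_lit 78) (nat_lit 304) (nat_lit 0) (XT.lf (nat_lit 0) (nat_lit 15440894226) (nat_lit 152) (nat_lit 27956962684) (nat_lit 228) (nat_lit 7418797258) (nat_lit 102) (nat_lit 5) (nat_lit 104) (nat_lit 5) (nat_lit 105) (nat_lit 5) (nat_lit 467) (nat_lit 432) (nat_lit 301)) (XT.nd (nat_lit 78) (nat_lit 228) (nat_lit 0) (XT.lf (nat_lit 0) (nat_lit 4350793257) (nat_lit 228) (nat_lit 4563801296) (nat_lit 76) (nat_lit 43467184715) (nat_lit 101) (nat_lit 5) (nat_lit 104) (nat_lit 5) (nat_lit 102) (nat_lit 5) (nat_lit 468) (nat_lit 432) (nat_lit 300)) (XT.lf (nat_lit 0) (nat_lit 17084843353) (nat_lit 304) (nat_lit 25602379097) (nat_lit 76) (nat_lit 11300592299)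 (nat_lit 98) (nat_lit 5) (nat_lit 102) (nat_lit 5) (nat_lit 99) (nat_lit 5) (nat_lit 469) (nat_lit 432) (nat_lit 299))))))))
noncomputable def xc323 : XT := (XT.nd (nat_lit 1248) (nat_lit 1368) (nat_lit 0) (XT.nd (nat_lit 624) (nat_lit 760) (nat_lit 0) (XT.nd (nat_lit 312) (nat_lit 532) (nat_lit 0) (XT.nd (nat_lit 156) (nat_lit 228) (nat_lit 0) (XT.nd (nat_lit 78) (nat_lit 0) (nat_lit 0) (XT.lf (nat_lit 0) (nat_lit 7559845819) (nat_lit 152) (nat_lit 23235391749) (nat_lit 228) (nat_lit 24861932470) (nat_lit 96) (nat_lit 5) (nat_lit 98) (nat_lit 5) (nat_lit 99) (nat_lit 5) (nat_lit 470) (nat_lit 432) (nat_lit 298)) (XT.lf (nat_lit 0) (nat_lit 43264119080) (nat_lit 152) (nat_lit 2357604382) (nat_lit 228) (nat_lit 11766741141) (nat_lit 96) (nat_lit 5) (nat_lit 98) (nat_lit 5) (nat_lit 99) (nat_lit 5) (nat_lit 471) (nat_lit 432) (nat_lit 297))) (XT.nd (nat_lit 78) (nat_lit 0) (nat_lit 0) (XT.lf (nat_lit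 0) (nat_lit 2575391066) (nat_lit 228) (nat_lit 37276385107) (nat_lit 76) (nat_lit 19320216829) (nat_lit 93) (nat_lit 5) (nat_lit 96) (nat_lit 5) (nat_lit 94) (nat_lit 5) (nat_lit 472) (nat_lit 432) (nat_lit 296)) (XT.lf (nat_lit 0) (nat_lit 17518079912) (nat_lit 228) (nat_lit 1066100210) (nat_lit 76) (nat_lit 42436928439) (nat_lit 93) (nat_lit 5) (nat_lit 96) (nat_lit 5) (nat_lit 94) (nat_lit 5) (nat_lit 473) (nat_lit 432) (nat_lit 295)))) (XT.nd (nat_lit 156) (nat_lit 228) (nat_lit 0) (XT.nd (nat_lit 78) (nat_lit 152) (nat_lit 0) (XT.lf (nat_lit 0) (nat_lit 33869365673) (nat_lit 228) (nat_lit 24829411012) (nat_lit 76) (nat_lit 4230830179) (nat_lit 91) (nat_lit 5) (nat_lit 94) (nat_lit 5) (nat_lit 92) (nat_lit 5) (nat_lit 474) (nat_lit 432) (nat_lit 294)) (XT.lf (nat_lit 0) (nat_lit 14483167908) (nat_lit 152) (nat_lit 37101465729) (nat_lit 228) (nat_lit 13321575635) (nat_lit 89) (nat_lit 5) (nat_lit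 91) (nat_lit 5) (nat_lit 92) (nat_lit 5) (nat_lit 475) (nat_lit 432) (nat_lit 293))) (XT.nd (nat_lit 78) (nat_lit 152) (nat_lit 0) (XT.lf (nat_lit 0) (nat_lit 3526166080) (nat_lit 228) (nat_lit 10398773256) (nat_lit 76) (nat_lit 53032966773) (nat_lit 88) (nat_lit 5) (nat_lit 91) (nat_lit 5) (nat_lit 89) (nat_lit 5) (nat_lit 476) (nat_lit 432) (nat_lit 292)) (XT.lf (nat_lit 0) (nat_lit 21446936468) (nat_lit 228) (nat_lit 36808200453) (nat_lit 76) (nat_lit 10812214922) (nat_lit 86) (nat_lit 5) (nat_lit 89) (nat_lit 5) (nat_lit 87) (nat_lit 5) (nat_lit 477) (nat_lit 432) (nat_lit 291))))) (XT.nd (nat_lit 312) (nat_lit 456) (nat_lit 0) (XT.nd (nat_lit 156) (nat_lit 152) (nat_lit 0) (XT.nd (nat_lit 78) (nat_lit 0) (nat_lit 0) (XT.lf (nat_lit 0) (nat_lit 6097067856) (nat_lit 152) (nat_lit 34666597594) (nat_lit 228) (nat_lit 30493608480) (nat_lit 84) (nat_lit 5) (nat_lit 86) (nat_lit 5) (nat_lit 87) (nat_lit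 5) (nat_lit 478) (nat_lit 432) (nat_lit 290)) (XT.lf (nat_lit 0) (nat_lit 52421127398) (nat_lit 152) (nat_lit 9245975932) (nat_lit 228) (nat_lit 11858545235) (nat_lit 84) (nat_lit 5) (nat_lit 86) (nat_lit 5) (nat_lit 87) (nat_lit 5) (nat_lit 479) (nat_lit 432) (nat_lit 289))) (XT.nd (nat_lit 78) (nat_lit 0) (nat_lit 0) (XT.lf (nat_lit 0) (nat_lit 8143783443) (nat_lit 152) (nat_lit 50305356185) (nat_lit 76) (nat_lit 17418173727) (nat_lit 82) (nat_lit 5) (nat_lit 84) (nat_lit 5) (nat_lit 83) (nat_lit 5) (nat_lit 480) (nat_lit 432) (nat_lit 288)) (XT.lf (nat_lit 0) (nat_lit 29260160528) (nat_lit 152) (nat_lit 3369827952) (nat_lit 76) (nat_lit 45660729999) (nat_lit 82) (nat_lit 5) (nat_lit 84) (nat_lit 5) (nat_lit 83) (nat_lit 5) (nat_lit 481) (nat_lit 432) (nat_lit 287)))) (XT.nd (nat_lit 156) (nat_lit 228) (nat_lit 0) (XT.nd (nat_lit 78) (nat_lit 76) (nat_lit 0) (XT.lf (nat_lit 0) (nat_lit 47426356222)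 (nat_lit 152) (nat_lit 4744181372) (nat_lit 228) (nat_lit 28627847265) (nat_lit 80) (nat_lit 5) (nat_lit 82) (nat_lit 5) (nat_lit 83) (nat_lit 5) (nat_lit 482) (nat_lit 432) (nat_lit 286)) (XT.lf (nat_lit 0) (nat_lit 17626841739) (nat_lit 76) (nat_lit 59313617154) (nat_lit 152) (nat_lit 6455274450) (nat_lit 79) (nat_lit 5) (nat_lit 80) (nat_lit 5) (nat_lit 81) (nat_lit 4) (nat_lit 483) (nat_lit 432) (nat_lit 285))) (XT.nd (nat_lit 78) (nat_lit 152) (nat_lit 0) (XT.lf (nat_lit 0) (nat_lit 16937352183) (nat_lit 152) (nat_lit 14114259315) (nat_lit 76) (nat_lit 55025704809) (nat_lit 78) (nat_lit 5) (nat_lit 80) (nat_lit 5) (nat_lit 79) (nat_lit 5) (nat_lit 484) (nat_lit 432) (nat_lit 284)) (XT.lf (nat_lit 0) (nat_lit 41336411048) (nat_lit 152) (nat_lit 589493815) (nat_lit 228) (nat_lit 46929620682) (nat_lit 76) (nat_lit 5) (nat_lit 78) (nat_lit 5) (nat_lit 79) (nat_lit 5) (nat_lit 485) (nat_lit 432)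 (nat_lit 283)))))) (XT.nd (nat_lit 624) (nat_lit 684) (nat_lit 0) (XT.nd (nat_lit 312) (nat_lit 380) (nat_lit 0) (XT.nd (nat_lit 156) (nat_lit 152) (nat_lit 0) (XT.nd (nat_lit 78) (nat_lit 76) (nat_lit 0) (XT.lf (nat_lit 0) (nat_lit 8048538121) (nat_lit 76) (nat_lit 60972005282) (nat_lit 152) (nat_lit 22709268971) (nat_lit 75) (nat_lit 5) (nat_lit 76) (nat_lit 5) (nat_lit 77) (nat_lit 4) (nat_lit 486) (nat_lit 432) (nat_lit 282)) (XT.lf (nat_lit 0) (nat_lit 3460471260) (nat_lit 152) (nat_lit 26732517178) (nat_lit 76) (nat_lit 64511425410) (nat_lit 74) (nat_lit 5) (nat_lit 76) (nat_lit 5) (nat_lit 75) (nat_lit 5) (nat_lit 487) (nat_lit 432) (nat_lit 281))) (XT.nd (nat_lit 78) (nat_lit 0) (nat_lit 0) (XT.lf (nat_lit 0) (nat_lit 30748615058) (nat_lit 228) (nat_lit 64062299549) (nat_lit 76) (nat_lit 2969561825) (nat_lit 72) (nat_lit 5) (nat_lit 75) (nat_lit 5) (nat_lit 73) (nat_lit 4) (nat_lit 488)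 (nat_lit 432) (nat_lit 280)) (XT.lf (nat_lit 0) (nat_lit 60354275831) (nat_lit 228) (nat_lit 3374337500) (nat_lit 76) (nat_lit 37234073361) (nat_lit 72) (nat_lit 5) (nat_lit 75) (nat_lit 5) (nat_lit 73) (nat_lit 4) (nat_lit 489) (nat_lit 432) (nat_lit 279)))) (XT.nd (nat_lit 156) (nat_lit 76) (nat_lit 0) (XT.nd (nat_lit 78) (nat_lit 228) (nat_lit 0) (XT.lf (nat_lit 0) (nat_lit 62339719915) (nat_lit 76) (nat_lit 30071885914) (nat_lit 152) (nat_lit 11843832361) (nat_lit 71) (nat_lit 5) (nat_lit 72) (nat_lit 5) (nat_lit 73) (nat_lit 4) (nat_lit 490) (nat_lit 432) (nat_lit 278)) (XT.lf (nat_lit 0) (nat_lit 18299935114) (nat_lit 228) (nat_lit 83539776749) (nat_lit 76) (nat_lit 5832355582) (nat_lit 68) (nat_lit 5) (nat_lit 71) (nat_lit 5) (nat_lit 69) (nat_lit 4) (nat_lit 491) (nat_lit 432) (nat_lit 277))) (XT.nd (nat_lit 78) (nat_lit 76) (nat_lit 0) (XT.lf (nat_lit 0) (nat_lit 50765446635) (nat_lit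 228) (nat_lit 16988474855) (nat_lit 76) (nat_lit 43435269339) (nat_lit 68) (nat_lit 5) (nat_lit 71) (nat_lit 5) (nat_lit 69) (nat_lit 4) (nat_lit 492) (nat_lit 432) (nat_lit 276)) (XT.lf (nat_lit 0) (nat_lit 54635666054) (nat_lit 76) (nat_lit 31069778108) (nat_lit 152) (nat_lit 29134165725) (nat_lit 67) (nat_lit 5) (nat_lit 68) (nat_lit 5) (nat_lit 69) (nat_lit 4) (nat_lit 493) (nat_lit 432) (nat_lit 275))))) (XT.nd (nat_lit 312) (nat_lit 456) (nat_lit 0) (XT.nd (nat_lit 156) (nat_lit 76) (nat_lit 0) (XT.nd (nat_lit 78) (nat_lit 0) (nat_lit 0) (XT.lf (nat_lit 0) (nat_lit 4205378347) (nat_lit 152) (nat_lit 106677272097) (nat_lit 76) (nat_lit 7756768261) (nat_lit 65) (nat_lit 5) (nat_lit 67) (nat_lit 5) (nat_lit 66) (nat_lit 4) (nat_lit 494) (nat_lit 432) (nat_lit 274)) (XT.lf (nat_lit 0) (nat_lit 39776646233) (nat_lit 152) (nat_lit 33758638341) (nat_lit 76) (nat_lit 48992860669) (nat_lit 65) (nat_lit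 5) (nat_lit 67) (nat_lit 5) (nat_lit 66) (nat_lit 4) (nat_lit 495) (nat_lit 432) (nat_lit 273))) (XT.nd (nat_lit 78) (nat_lit 0) (nat_lit 0) (XT.lf (nat_lit 0) (nat_lit 44217917848) (nat_lit 76) (nat_lit 33597218238) (nat_lit 152) (nat_lit 48761739117) (nat_lit 64) (nat_lit 5) (nat_lit 65) (nat_lit 5) (nat_lit 66) (nat_lit 4) (nat_lit 496) (nat_lit 432) (nat_lit 272)) (XT.lf (nat_lit 0) (nat_lit 118465117707) (nat_lit 152) (nat_lit 3676944410) (nat_lit 0) (nat_lit 8650501201) (nat_lit 64) (nat_lit 5) (nat_lit 66) (nat_lit 4) (nat_lit 64) (nat_lit 4) (nat_lit 497) (nat_lit 432) (nat_lit 271)))) (XT.nd (nat_lit 156) (nat_lit 228) (nat_lit 0) (XT.nd (nat_lit 78) (nat_lit 76) (nat_lit 0) (XT.lf (nat_lit 0) (nat_lit 26941849127) (nat_lit 152) (nat_lit 54585854094) (nat_lit 76) (nat_lit 53578933638) (nat_lit 62) (nat_lit 5) (nat_lit 64) (nat_lit 5) (nat_lit 63) (nat_lit 4) (nat_lit 498) (nat_lit 432)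 (nat_lit 270)) (XT.lf (nat_lit 0) (nat_lit 30182557331) (nat_lit 76) (nat_lit 38110678693) (nat_lit 152) (nat_lit 71306428086) (nat_lit 61) (nat_lit 5) (nat_lit 62) (nat_lit 5) (nat_lit 63) (nat_lit 4) (nat_lit 499) (nat_lit 432) (nat_lit 269))) (XT.nd (nat_lit 78) (nat_lit 228) (nat_lit 0) (XT.lf (nat_lit 0) (nat_lit 112766915330) (nat_lit 152) (nat_lit 23321648545) (nat_lit 0) (nat_lit 8176042714) (nat_lit 61) (nat_lit 5) (nat_lit 63) (nat_lit 4) (nat_lit 61) (nat_lit 4) (nat_lit 500) (nat_lit 432) (nat_lit 268)) (XT.nd (nat_lit 78) (nat_lit 76) (nat_lit 0) (XT.lf (nat_lit 0) (nat_lit 11694578035) (nat_lit 152) (nat_lit 80618656330) (nat_lit 76) (nat_lit 56755379723) (nat_lit 59) (nat_lit 5) (nat_lit 61) (nat_lit 5) (nat_lit 60) (nat_lit 4) (nat_lit 501) (nat_lit 432) (nat_lit 267)) (XT.lf (nat_lit 0) (nat_lit 11364681916) (nat_lit 76) (nat_lit 45200592447) (nat_lit 152) (nat_lit 97492862708)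 (nat_lit 58) (nat_lit 5) (nat_lit 59) (nat_lit 5) (nat_lit 60) (nat_lit 4) (nat_lit 502) (nat_lit 432) (nat_lit 266))))))))
noncomputable def xc324 : XT := (XT.nd (nat_lit 1248) (nat_lit 1064) (nat_lit 0) (XT.nd (nat_lit 624) (nat_lit 608) (nat_lit 0) (XT.nd (nat_lit 312) (nat_lit 228) (nat_lit 0) (XT.nd (nat_lit 156) (nat_lit 152) (nat_lit 0) (XT.nd (nat_lit 78) (nat_lit 76) (nat_lit 0) (XT.lf (nat_lit 0) (nat_lit 105132308915) (nat_lit 152) (nat_lit 48574777338) (nat_lit 0) (nat_lit 5517409793) (nat_lit 58) (nat_lit 5) (nat_lit 60) (nat_lit 4) (nat_lit 58) (nat_lit 4) (nat_lit 503) (nat_lit 432) (nat_lit 265)) (XT.lf (nat_lit 0) (nat_lit 51142895955) (nat_lit 76) (nat_lit 106522823877) (nat_lit 76) (nat_lit 6906551922) (nat_lit 57) (nat_lit 4) (nat_lit 58) (nat_lit 5) (nat_lit 58) (nat_lit 4) (nat_lit 504) (nat_lit 432) (nat_lit 264))) (XT.nd (nat_lit 78) (nat_lit 76) (nat_lit 0) (XT.lf (nat_lit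 0) (nat_lit 42108343870) (nat_lit 152) (nat_lit 13295474479) (nat_lit 76) (nat_lit 114708599052) (nat_lit 56) (nat_lit 5) (nat_lit 58) (nat_lit 5) (nat_lit 57) (nat_lit 4) (nat_lit 505) (nat_lit 432) (nat_lit 263)) (XT.lf (nat_lit 0) (nat_lit 94762177050) (nat_lit 76) (nat_lit 57823762) (nat_lit 152) (nat_lit 81030002334) (nat_lit 55) (nat_lit 5) (nat_lit 56) (nat_lit 5) (nat_lit 57) (nat_lit 4) (nat_lit 506) (nat_lit 432) (nat_lit 262)))) (XT.nd (nat_lit 156) (nat_lit 76) (nat_lit 0) (XT.nd (nat_lit 78) (nat_lit 76) (nat_lit 0) (XT.lf (nat_lit 0) (nat_lit 26764927016) (nat_lit 76) (nat_lit 124954076754) (nat_lit 76) (nat_lit 30077876260) (nat_lit 54) (nat_lit 4) (nat_lit 55) (nat_lit 5) (nat_lit 55) (nat_lit 4) (nat_lit 507) (nat_lit 432) (nat_lit 261)) (XT.lf (nat_lit 0) (nat_lit 24067556761) (nat_lit 152) (nat_lit 45538784785) (nat_lit 76) (nat_lit 118346707868) (nat_lit 53) (nat_lit 5) (nat_lit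 55) (nat_lit 5) (nat_lit 54) (nat_lit 4) (nat_lit 508) (nat_lit 432) (nat_lit 260))) (XT.nd (nat_lit 78) (nat_lit 0) (nat_lit 0) (XT.lf (nat_lit 0) (nat_lit 71212629969) (nat_lit 76) (nat_lit 9807336149) (nat_lit 152) (nat_lit 113316881233) (nat_lit 52) (nat_lit 5) (nat_lit 53) (nat_lit 5) (nat_lit 54) (nat_lit 4) (nat_lit 509) (nat_lit 432) (nat_lit 259)) (XT.lf (nat_lit 0) (nat_lit 142429744868) (nat_lit 152) (nat_lit 6461073461) (nat_lit 0) (nat_lit 52068529419) (nat_lit 52) (nat_lit 5) (nat_lit 54) (nat_lit 4) (nat_lit 52) (nat_lit 4) (nat_lit 510) (nat_lit 432) (nat_lit 258))))) (XT.nd (nat_lit 312) (nat_lit 304) (nat_lit 0) (XT.nd (nat_lit 156) (nat_lit 76) (nat_lit 0) (XT.nd (nat_lit 78) (nat_lit 76) (nat_lit 0) (XT.lf (nat_lit 0) (nat_lit 1090827752) (nat_lit 152) (nat_lit 88125903497) (nat_lit 76) (nat_lit 118593940509) (nat_lit 50) (nat_lit 5) (nat_lit 52) (nat_lit 5) (nat_lit 51) (nat_lit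 4) (nat_lit 511) (nat_lit 432) (nat_lit 257)) (XT.lf (nat_lit 0) (nat_lit 37602894611) (nat_lit 76) (nat_lit 24819465291) (nat_lit 152) (nat_lit 152499374067) (nat_lit 49) (nat_lit 5) (nat_lit 50) (nat_lit 5) (nat_lit 51) (nat_lit 4) (nat_lit 512) (nat_lit 432) (nat_lit 256))) (XT.nd (nat_lit 78) (nat_lit 76) (nat_lit 0) (XT.lf (nat_lit 0) (nat_lit 129004340737) (nat_lit 152) (nat_lit 50331184561) (nat_lit 0) (nat_lit 42943630397) (nat_lit 49) (nat_lit 5) (nat_lit 51) (nat_lit 4) (nat_lit 49) (nat_lit 4) (nat_lit 513) (nat_lit 432) (nat_lit 255)) (XT.lf (nat_lit 0) (nat_lit 85327646380) (nat_lit 76) (nat_lit 115325672795) (nat_lit 76) (nat_lit 29264234413) (nat_lit 48) (nat_lit 4) (nat_lit 49) (nat_lit 5) (nat_lit 49) (nat_lit 4) (nat_lit 514) (nat_lit 432) (nat_lit 254)))) (XT.nd (nat_lit 156) (nat_lit 152) (nat_lit 0) (XT.nd (nat_lit 78) (nat_lit 76) (nat_lit 0) (XT.lf (nat_lit 0) (nat_lit 37597514177)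 (nat_lit 152) (nat_lit 8987227692) (nat_lit 76) (nat_lit 191280247858) (nat_lit 47) (nat_lit 5) (nat_lit 49) (nat_lit 5) (nat_lit 48) (nat_lit 4) (nat_lit 515) (nat_lit 432) (nat_lit 253)) (XT.lf (nat_lit 0) (nat_lit 109404096755) (nat_lit 152) (nat_lit 109212920173) (nat_lit 0) (nat_lit 27439532838) (nat_lit 46) (nat_lit 5) (nat_lit 48) (nat_lit 4) (nat_lit 46) (nat_lit 4) (nat_lit 516) (nat_lit 432) (nat_lit 252))) (XT.nd (nat_lit 78) (nat_lit 76) (nat_lit 0) (XT.lf (nat_lit 0) (nat_lit 36012163991) (nat_lit 76) (nat_lit 150268355574) (nat_lit 76) (nat_lit 68303192694) (nat_lit 45) (nat_lit 4) (nat_lit 46) (nat_lit 5) (nat_lit 46) (nat_lit 4) (nat_lit 517) (nat_lit 432) (nat_lit 251)) (XT.lf (nat_lit 0) (nat_lit 5231449333) (nat_lit 152) (nat_lit 71241262186) (nat_lit 76) (nat_lit 186967878926) (nat_lit 44) (nat_lit 5) (nat_lit 46) (nat_lit 5) (nat_lit 45) (nat_lit 4) (nat_lit 518) (nat_lit 432)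 (nat_lit 250)))))) (XT.nd (nat_lit 624) (nat_lit 532) (nat_lit 0) (XT.nd (nat_lit 312) (nat_lit 228) (nat_lit 0) (XT.nd (nat_lit 156) (nat_lit 228) (nat_lit 0) (XT.nd (nat_lit 78) (nat_lit 0) (nat_lit 0) (XT.lf (nat_lit 0) (nat_lit 81530203750) (nat_lit 152) (nat_lit 187617898618) (nat_lit 0) (nat_lit 3467083182) (nat_lit 43) (nat_lit 5) (nat_lit 45) (nat_lit 4) (nat_lit 43) (nat_lit 4) (nat_lit 519) (nat_lit 432) (nat_lit 249)) (XT.lf (nat_lit 0) (nat_lit 164122764784) (nat_lit 152) (nat_lit 31942650738) (nat_lit 0) (nat_lit 86059151448) (nat_lit 43) (nat_lit 5) (nat_lit 45) (nat_lit 4) (nat_lit 43) (nat_lit 4) (nat_lit 520) (nat_lit 432) (nat_lit 248))) (XT.nd (nat_lit 78) (nat_lit 152) (nat_lit 0) (XT.lf (nat_lit 0) (nat_lit 135862783693) (nat_lit 76) (nat_lit 117102353620) (nat_lit 76) (nat_lit 39038270981) (nat_lit 42) (nat_lit 4) (nat_lit 43) (nat_lit 5) (nat_lit 43) (nat_lit 4) (nat_lit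 521) (nat_lit 432) (nat_lit 247)) (XT.lf (nat_lit 0) (nat_lit 10457126714) (nat_lit 76) (nat_lit 32724169045) (nat_lit 152) (nat_lit 259125042416) (nat_lit 40) (nat_lit 5) (nat_lit 41) (nat_lit 5) (nat_lit 42) (nat_lit 4) (nat_lit 522) (nat_lit 432) (nat_lit 246)))) (XT.nd (nat_lit 156) (nat_lit 152) (nat_lit 0) (XT.nd (nat_lit 78) (nat_lit 76) (nat_lit 0) (XT.lf (nat_lit 0) (nat_lit 131758885151) (nat_lit 152) (nat_lit 123744272804) (nat_lit 0) (nat_lit 57411308708) (nat_lit 40) (nat_lit 5) (nat_lit 42) (nat_lit 4) (nat_lit 40) (nat_lit 4) (nat_lit 523) (nat_lit 432) (nat_lit 245)) (XT.lf (nat_lit 0) (nat_lit 53954389798) (nat_lit 76) (nat_lit 172188840259) (nat_lit 76) (nat_lit 97840877719) (nat_lit 39) (nat_lit 4) (nat_lit 40) (nat_lit 5) (nat_lit 40) (nat_lit 4) (nat_lit 524) (nat_lit 432) (nat_lit 244))) (XT.nd (nat_lit 78) (nat_lit 152) (nat_lit 0) (XT.lf (nat_lit 0) (nat_lit 244832199903)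 (nat_lit 76) (nat_lit 82509312640) (nat_lit 76) (nat_lit 8160982389) (nat_lit 39) (nat_lit 4) (nat_lit 40) (nat_lit 5) (nat_lit 40) (nat_lit 4) (nat_lit 525) (nat_lit 432) (nat_lit 243)) (XT.lf (nat_lit 0) (nat_lit 85032204990) (nat_lit 152) (nat_lit 248184424875) (nat_lit 0) (nat_lit 14223937892) (nat_lit 37) (nat_lit 5) (nat_lit 39) (nat_lit 4) (nat_lit 37) (nat_lit 4) (nat_lit 526) (nat_lit 432) (nat_lit 242))))) (XT.nd (nat_lit 312) (nat_lit 304) (nat_lit 0) (XT.nd (nat_lit 156) (nat_lit 152) (nat_lit 0) (XT.nd (nat_lit 78) (nat_lit 76) (nat_lit 0) (XT.lf (nat_lit 0) (nat_lit 185523201747) (nat_lit 152) (nat_lit 59585415515) (nat_lit 0) (nat_lit 114714617008) (nat_lit 37) (nat_lit 5) (nat_lit 39) (nat_lit 4) (nat_lit 37) (nat_lit 4) (nat_lit 527) (nat_lit 432) (nat_lit 241)) (XT.lf (nat_lit 0) (nat_lit 143019294923) (nat_lit 76) (nat_lit 150251511764) (nat_lit 76) (nat_lit 79442624507) (nat_lit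 36) (nat_lit 4) (nat_lit 37) (nat_lit 5) (nat_lit 37) (nat_lit 4) (nat_lit 528) (nat_lit 432) (nat_lit 240))) (XT.nd (nat_lit 78) (nat_lit 76) (nat_lit 0) (XT.lf (nat_lit 0) (nat_lit 20537260512) (nat_lit 152) (nat_lit 28707791317) (nat_lit 76) (nat_lit 336936111395) (nat_lit 35) (nat_lit 5) (nat_lit 37) (nat_lit 5) (nat_lit 36) (nat_lit 4) (nat_lit 529) (nat_lit 432) (nat_lit 239)) (XT.lf (nat_lit 0) (nat_lit 126721446212) (nat_lit 152) (nat_lit 214058088750) (nat_lit 0) (nat_lit 59283875013) (nat_lit 34) (nat_lit 5) (nat_lit 36) (nat_lit 4) (nat_lit 34) (nat_lit 4) (nat_lit 530) (nat_lit 432) (nat_lit 238)))) (XT.nd (nat_lit 156) (nat_lit 228) (nat_lit 0) (XT.nd (nat_lit 78) (nat_lit 76) (nat_lit 0) (XT.lf (nat_lit 0) (nat_lit 239515456894) (nat_lit 152) (nat_lit 2981644574) (nat_lit 0) (nat_lit 172077636813) (nat_lit 34) (nat_lit 5) (nat_lit 36) (nat_lit 4) (nat_lit 34) (nat_lit 4) (nat_lit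 531) (nat_lit 432) (nat_lit 237)) (XT.lf (nat_lit 0) (nat_lit 225876482235) (nat_lit 76) (nat_lit 135598459597) (nat_lit 76) (nat_lit 68160402487) (nat_lit 33) (nat_lit 4) (nat_lit 34) (nat_lit 5) (nat_lit 34) (nat_lit 4) (nat_lit 532) (nat_lit 432) (nat_lit 236))) (XT.nd (nat_lit 78) (nat_lit 76) (nat_lit 0) (XT.lf (nat_lit 0) (nat_lit 20809931702) (nat_lit 76) (nat_lit 22237977836) (nat_lit 152) (nat_lit 402347886138) (nat_lit 31) (nat_lit 5) (nat_lit 32) (nat_lit 5) (nat_lit 33) (nat_lit 4) (nat_lit 533) (nat_lit 432) (nat_lit 235)) (XT.nd (nat_lit 78) (nat_lit 76) (nat_lit 0) (XT.lf (nat_lit 0) (nat_lit 162543706662) (nat_lit 152) (nat_lit 200777242606) (nat_lit 0) (nat_lit 98316565856) (nat_lit 31) (nat_lit 5) (nat_lit 33) (nat_lit 4) (nat_lit 31) (nat_lit 4) (nat_lit 534) (nat_lit 432) (nat_lit 234)) (XT.lf (nat_lit 0) (nat_lit 34975153564) (nat_lit 76) (nat_lit 253949004778) (nat_lit 76)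 (nat_lit 189721668968) (nat_lit 30) (nat_lit 4) (nat_lit 31) (nat_lit 5) (nat_lit 31) (nat_lit 4) (nat_lit 535) (nat_lit 432) (nat_lit 233))))))))
noncomputable def xc325 : XT := (XT.nd (nat_lit 1248) (nat_lit 0) (nat_lit 0) (XT.nd (nat_lit 624) (nat_lit 456) (nat_lit 0) (XT.nd (nat_lit 312) (nat_lit 152) (nat_lit 0) (XT.nd (nat_lit 156) (nat_lit 76) (nat_lit 0) (XT.nd (nat_lit 78) (nat_lit 152) (nat_lit 0) (XT.lf (nat_lit 0) (nat_lit 289484204006) (nat_lit 76) (nat_lit 135538948323) (nat_lit 76) (nat_lit 71311426793) (nat_lit 30) (nat_lit 4) (nat_lit 31) (nat_lit 5) (nat_lit 31) (nat_lit 4) (nat_lit 536) (nat_lit 432) (nat_lit 232)) (XT.lf (nat_lit 0) (nat_lit 42336748108) (nat_lit 76) (nat_lit 9645908727) (nat_lit 152) (nat_lit 462850708730) (nat_lit 28) (nat_lit 5) (nat_lit 29) (nat_lit 5) (nat_lit 30) (nat_lit 4) (nat_lit 537) (nat_lit 432) (nat_lit 231))) (XT.nd (nat_lit 78) (nat_lit 76) (nat_lit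 0) (XT.lf (nat_lit 0) (nat_lit 184517957191) (nat_lit 152) (nat_lit 226058469763) (nat_lit 0) (nat_lit 123348560183) (nat_lit 28) (nat_lit 5) (nat_lit 30) (nat_lit 4) (nat_lit 28) (nat_lit 4) (nat_lit 538) (nat_lit 432) (nat_lit 230)) (XT.lf (nat_lit 0) (nat_lit 33618061741) (nat_lit 76) (nat_lit 290744280921) (nat_lit 76) (nat_lit 229574731122) (nat_lit 27) (nat_lit 4) (nat_lit 28) (nat_lit 5) (nat_lit 28) (nat_lit 4) (nat_lit 539) (nat_lit 432) (nat_lit 229)))) (XT.nd (nat_lit 156) (nat_lit 0) (nat_lit 0) (XT.nd (nat_lit 78) (nat_lit 152) (nat_lit 0) (XT.lf (nat_lit 0) (nat_lit 314125299877) (nat_lit 76) (nat_lit 160901386624) (nat_lit 76) (nat_lit 99731691309) (nat_lit 27) (nat_lit 4) (nat_lit 28) (nat_lit 5) (nat_lit 28) (nat_lit 4) (nat_lit 540) (nat_lit 432) (nat_lit 228)) (XT.lf (nat_lit 0) (nat_lit 11843416674) (nat_lit 76) (nat_lit 23772803118) (nat_lit 152) (nat_lit 560966740092) (nat_lit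 25) (nat_lit 5) (nat_lit 26) (nat_lit 5) (nat_lit 27) (nat_lit 4) (nat_lit 541) (nat_lit 432) (nat_lit 227))) (XT.nd (nat_lit 78) (nat_lit 0) (nat_lit 0) (XT.lf (nat_lit 0) (nat_lit 180742395625) (nat_lit 152) (nat_lit 315871217494) (nat_lit 0) (nat_lit 122485285255) (nat_lit 25) (nat_lit 5) (nat_lit 27) (nat_lit 4) (nat_lit 25) (nat_lit 4) (nat_lit 542) (nat_lit 432) (nat_lit 226)) (XT.lf (nat_lit 0) (nat_lit 333513980634) (nat_lit 152) (nat_lit 33950447589) (nat_lit 0) (nat_lit 275256750548) (nat_lit 25) (nat_lit 5) (nat_lit 27) (nat_lit 4) (nat_lit 25) (nat_lit 4) (nat_lit 543) (nat_lit 432) (nat_lit 225))))) (XT.nd (nat_lit 312) (nat_lit 228) (nat_lit 0) (XT.nd (nat_lit 156) (nat_lit 152) (nat_lit 0) (XT.nd (nat_lit 78) (nat_lit 0) (nat_lit 0) (XT.lf (nat_lit 0) (nat_lit 270730224437) (nat_lit 76) (nat_lit 227420189696) (nat_lit 76) (nat_lit 169162845595) (nat_lit 24) (nat_lit 4) (nat_lit 25)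 (nat_lit 5) (nat_lit 25) (nat_lit 4) (nat_lit 544) (nat_lit 432) (nat_lit 224)) (XT.lf (nat_lit 0) (nat_lit 591822437908) (nat_lit 76) (nat_lit 79770620040) (nat_lit 76) (nat_lit 21513167353) (nat_lit 24) (nat_lit 4) (nat_lit 25) (nat_lit 5) (nat_lit 25) (nat_lit 4) (nat_lit 545) (nat_lit 432) (nat_lit 223))) (XT.nd (nat_lit 78) (nat_lit 0) (nat_lit 0) (XT.lf (nat_lit 0) (nat_lit 133842637057) (nat_lit 152) (nat_lit 507652867323) (nat_lit 0) (nat_lit 78359250292) (nat_lit 22) (nat_lit 5) (nat_lit 24) (nat_lit 4) (nat_lit 22) (nat_lit 4) (nat_lit 546) (nat_lit 432) (nat_lit 222)) (XT.lf (nat_lit 0) (nat_lit 299293812957) (nat_lit 152) (nat_lit 204666403182) (nat_lit 0) (nat_lit 243810332392) (nat_lit 22) (nat_lit 5) (nat_lit 24) (nat_lit 4) (nat_lit 22) (nat_lit 4) (nat_lit 547) (nat_lit 432) (nat_lit 221)))) (XT.nd (nat_lit 156) (nat_lit 152) (nat_lit 0) (XT.nd (nat_lit 78) (nat_lit 0) (nat_lit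 0) (XT.lf (nat_lit 0) (nat_lit 117220074875) (nat_lit 76) (nat_lit 357627073535) (nat_lit 76) (nat_lit 302143503636) (nat_lit 21) (nat_lit 4) (nat_lit 22) (nat_lit 5) (nat_lit 22) (nat_lit 4) (nat_lit 548) (nat_lit 432) (nat_lit 220)) (XT.lf (nat_lit 0) (nat_lit 462305365946) (nat_lit 76) (nat_lit 200338384881) (nat_lit 76) (nat_lit 144854729901) (nat_lit 21) (nat_lit 4) (nat_lit 22) (nat_lit 5) (nat_lit 22) (nat_lit 4) (nat_lit 549) (nat_lit 432) (nat_lit 219))) (XT.nd (nat_lit 78) (nat_lit 76) (nat_lit 0) (XT.lf (nat_lit 0) (nat_lit 19648296714) (nat_lit 152) (nat_lit 15204727742) (nat_lit 76) (nat_lit 804662855958) (nat_lit 20) (nat_lit 5) (nat_lit 22) (nat_lit 5) (nat_lit 21) (nat_lit 4) (nat_lit 550) (nat_lit 432) (nat_lit 218)) (XT.lf (nat_lit 0) (nat_lit 195107490041) (nat_lit 152) (nat_lit 535262209247) (nat_lit 0) (nat_lit 142265763205) (nat_lit 19) (nat_lit 5) (nat_lit 21) (nat_lit 4)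 (nat_lit 19) (nat_lit 4) (nat_lit 551) (nat_lit 432) (nat_lit 217)))))) (XT.nd (nat_lit 53742) (nat_lit 0) (nat_lit 9652) (XT.nd (nat_lit 53430) (nat_lit 0) (nat_lit 11020) (XT.nd (nat_lit 53274) (nat_lit 0) (nat_lit 10944) (XT.nd (nat_lit 53196) (nat_lit 0) (nat_lit 10944) (XT.lf (nat_lit 0) (nat_lit 380172241629) (nat_lit 152) (nat_lit 199866707319) (nat_lit 0) (nat_lit 327330444798) (nat_lit 19) (nat_lit 5) (nat_lit 21) (nat_lit 4) (nat_lit 19) (nat_lit 4) (nat_lit 552) (nat_lit 432) (nat_lit 216)) (XT.lf (nat_lit 0) (nat_lit 3423966788) (nat_lit 836) (nat_lit 3391651568) (nat_lit 836) (nat_lit 3391651568) (nat_lit 163) (nat_lit 3) (nat_lit 174) (nat_lit 3) (nat_lit 174) (nat_lit 5) (nat_lit 433) (nat_lit 433) (nat_lit 334))) (XT.nd (nat_lit 78) (nat_lit 0) (nat_lit 76) (XT.lf (nat_lit 76) (nat_lit 3494598644) (nat_lit 0) (nat_lit 3735192608) (nat_lit 836) (nat_lit 13684567081) (nat_lit 164)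 (nat_lit 5) (nat_lit 163) (nat_lit 3) (nat_lit 174) (nat_lit 5) (nat_lit 434) (nat_lit 433) (nat_lit 333)) (XT.lf (nat_lit 0) (nat_lit 7841412808) (nat_lit 760) (nat_lit 7023321117) (nat_lit 836) (nat_lit 6563901035) (nat_lit 164) (nat_lit 5) (nat_lit 174) (nat_lit 5) (nat_lit 175) (nat_lit 5) (nat_lit 435) (nat_lit 433) (nat_lit 332)))) (XT.nd (nat_lit 156) (nat_lit 0) (nat_lit 76) (XT.nd (nat_lit 78) (nat_lit 0) (nat_lit 76) (XT.lf (nat_lit 76) (nat_lit 3952499850) (nat_lit 0) (nat_lit 4644530063) (nat_lit 836) (nat_lit 13365925517) (nat_lit 165) (nat_lit 5) (nat_lit 164) (nat_lit 5) (nat_lit 175) (nat_lit 5) (nat_lit 436) (nat_lit 433) (nat_lit 331)) (XT.lf (nat_lit 0) (nat_lit 9597244782) (nat_lit 760) (nat_lit 6900212649) (nat_lit 836) (nat_lit 6016194346) (nat_lit 165) (nat_lit 5) (nat_lit 175) (nat_lit 5) (nat_lit 176) (nat_lit 5) (nat_lit 437) (nat_lit 433) (nat_lit 330))) (XT.nd (nat_lit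 78) (nat_lit 0) (nat_lit 76) (XT.lf (nat_lit 76) (nat_lit 4838420823) (nat_lit 0) (nat_lit 5952057841) (nat_lit 836) (nat_lit 12294254529) (nat_lit 166) (nat_lit 5) (nat_lit 165) (nat_lit 5) (nat_lit 176) (nat_lit 5) (nat_lit 438) (nat_lit 433) (nat_lit 329)) (XT.lf (nat_lit 0) (nat_lit 12233786514) (nat_lit 760) (nat_lit 6363048778) (nat_lit 836) (nat_lit 5078013410) (nat_lit 166) (nat_lit 5) (nat_lit 176) (nat_lit 5) (nat_lit 177) (nat_lit 5) (nat_lit 439) (nat_lit 433) (nat_lit 328))))) (XT.nd (nat_lit 312) (nat_lit 1520) (nat_lit 0) (XT.nd (nat_lit 156) (nat_lit 0) (nat_lit 76) (XT.nd (nat_lit 78) (nat_lit 0) (nat_lit 76) (XT.lf (nat_lit 76) (nat_lit 6209640080) (nat_lit 0) (nat_lit 7726230962) (nat_lit 836) (nat_lit 10349268984) (nat_lit 167) (nat_lit 5) (nat_lit 166) (nat_lit 5) (nat_lit 177) (nat_lit 5) (nat_lit 440) (nat_lit 433) (nat_lit 327)) (XT.lf (nat_lit 0) (nat_lit 15882567209) (nat_lit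 760) (nat_lit 5354254231) (nat_lit 836) (nat_lit 3681149682) (nat_lit 167) (nat_lit 5) (nat_lit 177) (nat_lit 5) (nat_lit 178) (nat_lit 5) (nat_lit 441) (nat_lit 433) (nat_lit 326))) (XT.nd (nat_lit 78) (nat_lit 0) (nat_lit 76) (XT.lf (nat_lit 76) (nat_lit 8130698461) (nat_lit 0) (nat_lit 10042265105) (nat_lit 836) (nat_lit 7397162485) (nat_lit 168) (nat_lit 5) (nat_lit 167) (nat_lit 5) (nat_lit 178) (nat_lit 5) (nat_lit 442) (nat_lit 433) (nat_lit 325)) (XT.lf (nat_lit 0) (nat_lit 20689806928) (nat_lit 760) (nat_lit 3808985345) (nat_lit 76) (nat_lit 1750500616) (nat_lit 168) (nat_lit 5) (nat_lit 178) (nat_lit 5) (nat_lit 169) (nat_lit 5) (nat_lit 443) (nat_lit 433) (nat_lit 324)))) (XT.nd (nat_lit 156) (nat_lit 912) (nat_lit 0) (XT.nd (nat_lit 78) (nat_lit 0) (nat_lit 0) (XT.lf (nat_lit 0) (nat_lit 10674083381) (nat_lit 760) (nat_lit 12983054804) (nat_lit 836) (nat_lit 3289048095) (nat_lit 158)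 (nat_lit 5) (nat_lit 168) (nat_lit 5) (nat_lit 169) (nat_lit 5) (nat_lit 444) (nat_lit 433) (nat_lit 323)) (XT.lf (nat_lit 0) (nat_lit 26007734506) (nat_lit 760) (nat_lit 823199769) (nat_lit 836) (nat_lit 844085625) (nat_lit 158) (nat_lit 5) (nat_lit 168) (nat_lit 5) (nat_lit 169) (nat_lit 5) (nat_lit 445) (nat_lit 433) (nat_lit 322))) (XT.nd (nat_lit 78) (nat_lit 380) (nat_lit 0) (XT.lf (nat_lit 0) (nat_lit 2072234603) (nat_lit 532) (nat_lit 14532837715) (nat_lit 76) (nat_lit 11813665153) (nat_lit 151) (nat_lit 5) (nat_lit 158) (nat_lit 5) (nat_lit 152) (nat_lit 5) (nat_lit 446) (nat_lit 433) (nat_lit 321)) (XT.nd (nat_lit 78) (nat_lit 0) (nat_lit 0) (XT.lf (nat_lit 0) (nat_lit 1077126344) (nat_lit 380) (nat_lit 4081897580) (nat_lit 456) (nat_lit 24037274537) (nat_lit 146) (nat_lit 5) (nat_lit 151) (nat_lit 5) (nat_lit 152) (nat_lit 5) (nat_lit 447) (nat_lit 433) (nat_lit 320)) (XT.lf (nat_lit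 0) (nat_lit 8786077824) (nat_lit 456) (nat_lit 12180044170) (nat_lit 76) (nat_lit 9027319640) (nat_lit 146) (nat_lit 5) (nat_lit 152) (nat_lit 5) (nat_lit 147) (nat_lit 5) (nat_lit 448) (nat_lit 433) (nat_lit 319))))))))
noncomputable def xc326 : XT := (XT.nd (nat_lit 1248) (nat_lit 2128) (nat_lit 0) (XT.nd (nat_lit 624) (nat_lit 1064) (nat_lit 0) (XT.nd (nat_lit 312) (nat_lit 988) (nat_lit 0) (XT.nd (nat_lit 156) (nat_lit 304) (nat_lit 0) (XT.nd (nat_lit 78) (nat_lit 0) (nat_lit 0) (XT.lf (nat_lit 0) (nat_lit 4631507886) (nat_lit 380) (nat_lit 8096681442) (nat_lit 456) (nat_lit 18095567763) (nat_lit 141) (nat_lit 5) (nat_lit 146) (nat_lit 5) (nat_lit 147) (nat_lit 5) (nat_lit 449) (nat_lit 433) (nat_lit 318)) (XT.lf (nat_lit 0) (nat_lit 17156269852) (nat_lit 456) (nat_lit 9072737628) (nat_lit 76) (nat_lit 5452138023) (nat_lit 141) (nat_lit 5) (nat_lit 147) (nat_lit 5) (nat_lit 142) (nat_lit 5)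 (nat_lit 450) (nat_lit 433) (nat_lit 317))) (XT.nd (nat_lit 78) (nat_lit 0) (nat_lit 0) (XT.lf (nat_lit 0) (nat_lit 9054070387) (nat_lit 304) (nat_lit 13020675337) (nat_lit 380) (nat_lit 10493208381) (nat_lit 137) (nat_lit 5) (nat_lit 141) (nat_lit 5) (nat_lit 142) (nat_lit 5) (nat_lit 451) (nat_lit 433) (nat_lit 316)) (XT.lf (nat_lit 0) (nat_lit 27403599653) (nat_lit 380) (nat_lit 5110854218) (nat_lit 76) (nat_lit 976426873) (nat_lit 137) (nat_lit 5) (nat_lit 142) (nat_lit 5) (nat_lit 138) (nat_lit 5) (nat_lit 452) (nat_lit 433) (nat_lit 315)))) (XT.nd (nat_lit 156) (nat_lit 608) (nat_lit 0) (XT.nd (nat_lit 78) (nat_lit 76) (nat_lit 0) (XT.lf (nat_lit 0) (nat_lit 14455956097) (nat_lit 304) (nat_lit 18977371279) (nat_lit 380) (nat_lit 1004905091) (nat_lit 133) (nat_lit 5) (nat_lit 137) (nat_lit 5) (nat_lit 138) (nat_lit 5) (nat_lit 453) (nat_lit 433) (nat_lit 314)) (XT.lf (nat_lit 0) (nat_lit 4276268331)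 (nat_lit 380) (nat_lit 324788793) (nat_lit 76) (nat_lit 30824347688) (nat_lit 132) (nat_lit 5) (nat_lit 137) (nat_lit 5) (nat_lit 133) (nat_lit 5) (nat_lit 454) (nat_lit 433) (nat_lit 313))) (XT.nd (nat_lit 78) (nat_lit 304) (nat_lit 0) (XT.lf (nat_lit 0) (nat_lit 10280074352) (nat_lit 380) (nat_lit 15649722390) (nat_lit 76) (nat_lit 10506698335) (nat_lit 128) (nat_lit 5) (nat_lit 133) (nat_lit 5) (nat_lit 129) (nat_lit 5) (nat_lit 455) (nat_lit 433) (nat_lit 312)) (XT.lf (nat_lit 0) (nat_lit 5564396178) (nat_lit 304) (nat_lit 11183245497) (nat_lit 380) (nat_lit 20742319884) (nat_lit 124) (nat_lit 5) (nat_lit 128) (nat_lit 5) (nat_lit 129) (nat_lit 5) (nat_lit 456) (nat_lit 433) (nat_lit 311))))) (XT.nd (nat_lit 312) (nat_lit 456) (nat_lit 0) (XT.nd (nat_lit 156) (nat_lit 380) (nat_lit 0) (XT.nd (nat_lit 78) (nat_lit 228) (nat_lit 0) (XT.lf (nat_lit 0) (nat_lit 23870892463) (nat_lit 380) (nat_lit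 10277403462) (nat_lit 76) (nat_lit 4431190424) (nat_lit 124) (nat_lit 5) (nat_lit 129) (nat_lit 5) (nat_lit 125) (nat_lit 5) (nat_lit 457) (nat_lit 433) (nat_lit 310)) (XT.lf (nat_lit 0) (nat_lit 12670013461) (nat_lit 228) (nat_lit 19057419297) (nat_lit 304) (nat_lit 7977198500) (nat_lit 121) (nat_lit 5) (nat_lit 124) (nat_lit 5) (nat_lit 125) (nat_lit 5) (nat_lit 458) (nat_lit 433) (nat_lit 309))) (XT.nd (nat_lit 78) (nat_lit 380) (nat_lit 0) (XT.lf (nat_lit 0) (nat_lit 37116354857) (nat_lit 228) (nat_lit 3030588027) (nat_lit 304) (nat_lit 730583603) (nat_lit 121) (nat_lit 5) (nat_lit 124) (nat_lit 5) (nat_lit 125) (nat_lit 5) (nat_lit 459) (nat_lit 433) (nat_lit 308)) (XT.lf (nat_lit 0) (nat_lit 7208690283) (nat_lit 380) (nat_lit 21066552303) (nat_lit 76) (nat_lit 13800930624) (nat_lit 116) (nat_lit 5) (nat_lit 121) (nat_lit 5) (nat_lit 117) (nat_lit 5) (nat_lit 460) (nat_lit 433) (nat_lit 307))))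 (XT.nd (nat_lit 156) (nat_lit 228) (nat_lit 0) (XT.nd (nat_lit 78) (nat_lit 0) (nat_lit 0) (XT.lf (nat_lit 0) (nat_lit 3874045858) (nat_lit 228) (nat_lit 11817532683) (nat_lit 304) (nat_lit 27634014922) (nat_lit 113) (nat_lit 5) (nat_lit 116) (nat_lit 5) (nat_lit 117) (nat_lit 5) (nat_lit 461) (nat_lit 433) (nat_lit 306)) (XT.lf (nat_lit 0) (nat_lit 25042893729) (nat_lit 304) (nat_lit 13923014468) (nat_lit 76) (nat_lit 5649362586) (nat_lit 113) (nat_lit 5) (nat_lit 117) (nat_lit 5) (nat_lit 114) (nat_lit 5) (nat_lit 462) (nat_lit 433) (nat_lit 305))) (XT.nd (nat_lit 78) (nat_lit 0) (nat_lit 0) (XT.lf (nat_lit 0) (nat_lit 13102547230) (nat_lit 228) (nat_lit 22154065746) (nat_lit 304) (nat_lit 10693077247) (nat_lit 110) (nat_lit 5) (nat_lit 113) (nat_lit 5) (nat_lit 114) (nat_lit 5) (nat_lit 463) (nat_lit 433) (nat_lit 304)) (XT.lf (nat_lit 0) (nat_lit 41957812396) (nat_lit 228) (nat_lit 4255626988)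 (nat_lit 304) (nat_lit 1125770353) (nat_lit 110) (nat_lit 5) (nat_lit 113) (nat_lit 5) (nat_lit 114) (nat_lit 5) (nat_lit 464) (nat_lit 433) (nat_lit 303)))))) (XT.nd (nat_lit 624) (nat_lit 1064) (nat_lit 0) (XT.nd (nat_lit 312) (nat_lit 456) (nat_lit 0) (XT.nd (nat_lit 156) (nat_lit 152) (nat_lit 0) (XT.nd (nat_lit 78) (nat_lit 228) (nat_lit 0) (XT.lf (nat_lit 0) (nat_lit 9242568077) (nat_lit 228) (nat_lit 24923602357) (nat_lit 76) (nat_lit 14594663768) (nat_lit 107) (nat_lit 5) (nat_lit 110) (nat_lit 5) (nat_lit 108) (nat_lit 5) (nat_lit 465) (nat_lit 433) (nat_lit 302)) (XT.lf (nat_lit 0) (nat_lit 4504208850) (nat_lit 228) (nat_lit 15816792565) (nat_lit 304) (nat_lit 29920140290) (nat_lit 104) (nat_lit 5) (nat_lit 107) (nat_lit 5) (nat_lit 108) (nat_lit 5) (nat_lit 466) (nat_lit 433) (nat_lit 301))) (XT.nd (nat_lit 78) (nat_lit 152) (nat_lit 0) (XT.lf (nat_lit 0) (nat_lit 32433078866) (nat_lit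 304) (nat_lit 15571374161) (nat_lit 76) (nat_lit 3767025567) (nat_lit 104) (nat_lit 5) (nat_lit 108) (nat_lit 5) (nat_lit 105) (nat_lit 5) (nat_lit 467) (nat_lit 433) (nat_lit 300)) (XT.lf (nat_lit 0) (nat_lit 16362165622) (nat_lit 152) (nat_lit 29300340367) (nat_lit 228) (nat_lit 7690239175) (nat_lit 102) (nat_lit 5) (nat_lit 104) (nat_lit 5) (nat_lit 105) (nat_lit 5) (nat_lit 468) (nat_lit 433) (nat_lit 299)))) (XT.nd (nat_lit 156) (nat_lit 152) (nat_lit 0) (XT.nd (nat_lit 78) (nat_lit 228) (nat_lit 0) (XT.lf (nat_lit 0) (nat_lit 4660059958) (nat_lit 228) (nat_lit 4646834261) (nat_lit 76) (nat_lit 45689384123) (nat_lit 101) (nat_lit 5) (nat_lit 104) (nat_lit 5) (nat_lit 102) (nat_lit 5) (nat_lit 469) (nat_lit 433) (nat_lit 298)) (XT.lf (nat_lit 0) (nat_lit 18029505384) (nat_lit 304) (nat_lit 26736030407) (nat_lit 76) (nat_lit 11917145333) (nat_lit 98) (nat_lit 5) (nat_lit 102) (nat_lit 5) (nat_lit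 99) (nat_lit 5) (nat_lit 470) (nat_lit 433) (nat_lit 297))) (XT.nd (nat_lit 78) (nat_lit 0) (nat_lit 0) (XT.lf (nat_lit 0) (nat_lit 8081943374) (nat_lit 152) (nat_lit 24341420116) (nat_lit 228) (nat_lit 26012243640) (nat_lit 96) (nat_lit 5) (nat_lit 98) (nat_lit 5) (nat_lit 99) (nat_lit 5) (nat_lit 471) (nat_lit 433) (nat_lit 296)) (XT.lf (nat_lit 0) (nat_lit 45564568142) (nat_lit 152) (nat_lit 2422397724) (nat_lit 228) (nat_lit 12266711100) (nat_lit 96) (nat_lit 5) (nat_lit 98) (nat_lit 5) (nat_lit 99) (nat_lit 5) (nat_lit 472) (nat_lit 433) (nat_lit 295))))) (XT.nd (nat_lit 312) (nat_lit 532) (nat_lit 0) (XT.nd (nat_lit 156) (nat_lit 304) (nat_lit 0) (XT.nd (nat_lit 78) (nat_lit 0) (nat_lit 0) (XT.lf (nat_lit 0) (nat_lit 2788624002) (nat_lit 228) (nat_lit 38999051856) (nat_lit 76) (nat_lit 20338690852) (nat_lit 93) (nat_lit 5) (nat_lit 96) (nat_lit 5) (nat_lit 94) (nat_lit 5) (nat_lit 473) (nat_lit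 433) (nat_lit 294)) (XT.lf (nat_lit 0) (nat_lit 18474425224) (nat_lit 228) (nat_lit 984974262) (nat_lit 76) (nat_lit 44608739797) (nat_lit 93) (nat_lit 5) (nat_lit 96) (nat_lit 5) (nat_lit 94) (nat_lit 5) (nat_lit 474) (nat_lit 433) (nat_lit 293))) (XT.nd (nat_lit 78) (nat_lit 152) (nat_lit 0) (XT.lf (nat_lit 0) (nat_lit 35642346368) (nat_lit 228) (nat_lit 25935519186) (nat_lit 76) (nat_lit 4494243518) (nat_lit 91) (nat_lit 5) (nat_lit 94) (nat_lit 5) (nat_lit 92) (nat_lit 5) (nat_lit 475) (nat_lit 433) (nat_lit 292)) (XT.lf (nat_lit 0) (nat_lit 15340505416) (nat_lit 152) (nat_lit 38901165308) (nat_lit 228) (nat_lit 13905956347) (nat_lit 89) (nat_lit 5) (nat_lit 91) (nat_lit 5) (nat_lit 92) (nat_lit 5) (nat_lit 476) (nat_lit 433) (nat_lit 291)))) (XT.nd (nat_lit 156) (nat_lit 304) (nat_lit 0) (XT.nd (nat_lit 78) (nat_lit 152) (nat_lit 0) (XT.lf (nat_lit 0) (nat_lit 3777791738) (nat_lit 228) (nat_lit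 10789382165) (nat_lit 76) (nat_lit 55734859471) (nat_lit 88) (nat_lit 5) (nat_lit 91) (nat_lit 5) (nat_lit 89) (nat_lit 5) (nat_lit 477) (nat_lit 433) (nat_lit 290)) (XT.lf (nat_lit 0) (nat_lit 22593836433) (nat_lit 228) (nat_lit 38518514441) (nat_lit 76) (nat_lit 11404638835) (nat_lit 86) (nat_lit 5) (nat_lit 89) (nat_lit 5) (nat_lit 87) (nat_lit 5) (nat_lit 478) (nat_lit 433) (nat_lit 289))) (XT.nd (nat_lit 78) (nat_lit 152) (nat_lit 0) (XT.lf (nat_lit 0) (nat_lit 6529918960) (nat_lit 152) (nat_lit 36344931158) (nat_lit 228) (nat_lit 31941635468) (nat_lit 84) (nat_lit 5) (nat_lit 86) (nat_lit 5) (nat_lit 87) (nat_lit 5) (nat_lit 479) (nat_lit 433) (nat_lit 288)) (XT.nd (nat_lit 78) (nat_lit 152) (nat_lit 0) (XT.lf (nat_lit 0) (nat_lit 55164086351) (nat_lit 152) (nat_lit 9655897285) (nat_lit 228) (nat_lit 12378469226) (nat_lit 84) (nat_lit 5) (nat_lit 86) (nat_lit 5) (nat_lit 87) (nat_lit 5) (nat_lit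 480) (nat_lit 433) (nat_lit 287)) (XT.lf (nat_lit 0) (nat_lit 8621010607) (nat_lit 152) (nat_lit 52695752644) (nat_lit 76) (nat_lit 18340412171) (nat_lit 82) (nat_lit 5) (nat_lit 84) (nat_lit 5) (nat_lit 83) (nat_lit 5) (nat_lit 481) (nat_lit 433) (nat_lit 286))))))))
noncomputable def xc327 : XT := (XT.nd (nat_lit 1248) (nat_lit 1140) (nat_lit 0) (XT.nd (nat_lit 624) (nat_lit 608) (nat_lit 0) (XT.nd (nat_lit 312) (nat_lit 456) (nat_lit 0) (XT.nd (nat_lit 156) (nat_lit 152) (nat_lit 0) (XT.nd (nat_lit 78) (nat_lit 152) (nat_lit 0) (XT.lf (nat_lit 0) (nat_lit 30789871404) (nat_lit 152) (nat_lit 3419394254) (nat_lit 76) (nat_lit 47992651983) (nat_lit 82) (nat_lit 5) (nat_lit 84) (nat_lit 5) (nat_lit 83) (nat_lit 5) (nat_lit 482) (nat_lit 433) (nat_lit 285)) (XT.lf (nat_lit 0) (nat_lit 49914680982) (nat_lit 152) (nat_lit 4929736821) (nat_lit 228) (nat_lit 29990617089) (nat_lit 80) (nat_lit 5) (nat_lit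 82) (nat_lit 5) (nat_lit 83) (nat_lit 5) (nat_lit 483) (nat_lit 433) (nat_lit 284))) (XT.nd (nat_lit 78) (nat_lit 76) (nat_lit 0) (XT.lf (nat_lit 0) (nat_lit 18625726597) (nat_lit 76) (nat_lit 62226599734) (nat_lit 152) (nat_lit 6709949984) (nat_lit 79) (nat_lit 5) (nat_lit 80) (nat_lit 5) (nat_lit 81) (nat_lit 4) (nat_lit 484) (nat_lit 433) (nat_lit 283)) (XT.lf (nat_lit 0) (nat_lit 17846990212) (nat_lit 152) (nat_lit 14705949978) (nat_lit 76) (nat_lit 57825102079) (nat_lit 78) (nat_lit 5) (nat_lit 80) (nat_lit 5) (nat_lit 79) (nat_lit 5) (nat_lit 485) (nat_lit 433) (nat_lit 282)))) (XT.nd (nat_lit 156) (nat_lit 228) (nat_lit 0) (XT.nd (nat_lit 78) (nat_lit 76) (nat_lit 0) (XT.lf (nat_lit 0) (nat_lit 43515414834) (nat_lit 152) (nat_lit 568318119) (nat_lit 228) (nat_lit 49211490957) (nat_lit 76) (nat_lit 5) (nat_lit 78) (nat_lit 5) (nat_lit 79) (nat_lit 5) (nat_lit 486) (nat_lit 433) (nat_lit 281))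 (XT.lf (nat_lit 0) (nat_lit 8563589083) (nat_lit 76) (nat_lit 63969095717) (nat_lit 152) (nat_lit 23780561273) (nat_lit 75) (nat_lit 5) (nat_lit 76) (nat_lit 5) (nat_lit 77) (nat_lit 4) (nat_lit 487) (nat_lit 433) (nat_lit 280))) (XT.nd (nat_lit 78) (nat_lit 152) (nat_lit 0) (XT.lf (nat_lit 0) (nat_lit 3692654127) (nat_lit 152) (nat_lit 27959924861) (nat_lit 76) (nat_lit 67784096490) (nat_lit 74) (nat_lit 5) (nat_lit 76) (nat_lit 5) (nat_lit 75) (nat_lit 5) (nat_lit 488) (nat_lit 433) (nat_lit 279)) (XT.lf (nat_lit 0) (nat_lit 32344837550) (nat_lit 228) (nat_lit 67155827740) (nat_lit 76) (nat_lit 3165894333) (nat_lit 72) (nat_lit 5) (nat_lit 75) (nat_lit 5) (nat_lit 73) (nat_lit 4) (nat_lit 489) (nat_lit 433) (nat_lit 278))))) (XT.nd (nat_lit 312) (nat_lit 304) (nat_lit 0) (XT.nd (nat_lit 156) (nat_lit 228) (nat_lit 0) (XT.nd (nat_lit 78) (nat_lit 76) (nat_lit 0) (XT.lf (nat_lit 0) (nat_lit 63427981754)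 (nat_lit 228) (nat_lit 3438686007) (nat_lit 76) (nat_lit 39141352664) (nat_lit 72) (nat_lit 5) (nat_lit 75) (nat_lit 5) (nat_lit 73) (nat_lit 4) (nat_lit 490) (nat_lit 433) (nat_lit 277)) (XT.lf (nat_lit 0) (nat_lit 65559390918) (nat_lit 76) (nat_lit 31527724243) (nat_lit 152) (nat_lit 12378347539) (nat_lit 71) (nat_lit 5) (nat_lit 72) (nat_lit 5) (nat_lit 73) (nat_lit 4) (nat_lit 491) (nat_lit 433) (nat_lit 276))) (XT.nd (nat_lit 78) (nat_lit 0) (nat_lit 0) (XT.lf (nat_lit 0) (nat_lit 19270459907) (nat_lit 228) (nat_lit 87611930414) (nat_lit 76) (nat_lit 6170503236) (nat_lit 68) (nat_lit 5) (nat_lit 71) (nat_lit 5) (nat_lit 69) (nat_lit 4) (nat_lit 492) (nat_lit 433) (nat_lit 275)) (XT.lf (nat_lit 0) (nat_lit 53356602811) (nat_lit 228) (nat_lit 17738055577) (nat_lit 76) (nat_lit 45651346972) (nat_lit 68) (nat_lit 5) (nat_lit 71) (nat_lit 5) (nat_lit 69) (nat_lit 4) (nat_lit 493) (nat_lit 433)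 (nat_lit 274)))) (XT.nd (nat_lit 156) (nat_lit 76) (nat_lit 0) (XT.nd (nat_lit 78) (nat_lit 152) (nat_lit 0) (XT.lf (nat_lit 0) (nat_lit 57465682007) (nat_lit 76) (nat_lit 32576933616) (nat_lit 152) (nat_lit 30536379017) (nat_lit 67) (nat_lit 5) (nat_lit 68) (nat_lit 5) (nat_lit 69) (nat_lit 4) (nat_lit 494) (nat_lit 433) (nat_lit 273)) (XT.lf (nat_lit 0) (nat_lit 4468149296) (nat_lit 152) (nat_lit 111910908639) (nat_lit 76) (nat_lit 8189705897) (nat_lit 65) (nat_lit 5) (nat_lit 67) (nat_lit 5) (nat_lit 66) (nat_lit 4) (nat_lit 495) (nat_lit 433) (nat_lit 272))) (XT.nd (nat_lit 78) (nat_lit 76) (nat_lit 0) (XT.lf (nat_lit 0) (nat_lit 41815480480) (nat_lit 152) (nat_lit 35351115913) (nat_lit 76) (nat_lit 51485455343) (nat_lit 65) (nat_lit 5) (nat_lit 67) (nat_lit 5) (nat_lit 66) (nat_lit 4) (nat_lit 496) (nat_lit 433) (nat_lit 271)) (XT.lf (nat_lit 0) (nat_lit 46522728500) (nat_lit 76) (nat_lit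 35232251554) (nat_lit 152) (nat_lit 51148283910) (nat_lit 64) (nat_lit 5) (nat_lit 65) (nat_lit 5) (nat_lit 66) (nat_lit 4) (nat_lit 497) (nat_lit 433) (nat_lit 270)))))) (XT.nd (nat_lit 624) (nat_lit 608) (nat_lit 0) (XT.nd (nat_lit 312) (nat_lit 304) (nat_lit 0) (XT.nd (nat_lit 156) (nat_lit 76) (nat_lit 0) (XT.nd (nat_lit 78) (nat_lit 152) (nat_lit 0) (XT.lf (nat_lit 0) (nat_lit 124435789828) (nat_lit 152) (nat_lit 3769677465) (nat_lit 0) (nat_lit 9124352769) (nat_lit 64) (nat_lit 5) (nat_lit 66) (nat_lit 4) (nat_lit 64) (nat_lit 4) (nat_lit 498) (nat_lit 433) (nat_lit 269)) (XT.lf (nat_lit 0) (nat_lit 28336263314) (nat_lit 152) (nat_lit 57223936992) (nat_lit 76) (nat_lit 56299401756) (nat_lit 62) (nat_lit 5) (nat_lit 64) (nat_lit 5) (nat_lit 63) (nat_lit 4) (nat_lit 499) (nat_lit 433) (nat_lit 268))) (XT.nd (nat_lit 78) (nat_lit 0) (nat_lit 0) (XT.lf (nat_lit 0) (nat_lit 31781423879) (nat_lit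 76) (nat_lit 39972943334) (nat_lit 152) (nat_lit 74822956107) (nat_lit 61) (nat_lit 5) (nat_lit 62) (nat_lit 5) (nat_lit 63) (nat_lit 4) (nat_lit 500) (nat_lit 433) (nat_lit 267)) (XT.lf (nat_lit 0) (nat_lit 118450161042) (nat_lit 152) (nat_lit 24400695617) (nat_lit 0) (nat_lit 8624734760) (nat_lit 61) (nat_lit 5) (nat_lit 63) (nat_lit 4) (nat_lit 61) (nat_lit 4) (nat_lit 501) (nat_lit 433) (nat_lit 266)))) (XT.nd (nat_lit 156) (nat_lit 76) (nat_lit 0) (XT.nd (nat_lit 78) (nat_lit 76) (nat_lit 0) (XT.lf (nat_lit 0) (nat_lit 12324129132) (nat_lit 152) (nat_lit 84562475107) (nat_lit 76) (nat_lit 59633198987) (nat_lit 59) (nat_lit 5) (nat_lit 61) (nat_lit 5) (nat_lit 60) (nat_lit 4) (nat_lit 502) (nat_lit 433) (nat_lit 265)) (XT.lf (nat_lit 0) (nat_lit 12018624986) (nat_lit 76) (nat_lit 47418939057) (nat_lit 152) (nat_lit 102321278148) (nat_lit 58) (nat_lit 5) (nat_lit 59) (nat_lit 5) (nat_lit 60)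 (nat_lit 4) (nat_lit 503) (nat_lit 433) (nat_lit 264))) (XT.nd (nat_lit 78) (nat_lit 76) (nat_lit 0) (XT.lf (nat_lit 0) (nat_lit 110431473648) (nat_lit 152) (nat_lit 50920411522) (nat_lit 0) (nat_lit 5831707802) (nat_lit 58) (nat_lit 5) (nat_lit 60) (nat_lit 4) (nat_lit 58) (nat_lit 4) (nat_lit 504) (nat_lit 433) (nat_lit 263)) (XT.lf (nat_lit 0) (nat_lit 53781805039) (nat_lit 76) (nat_lit 111809000485) (nat_lit 76) (nat_lit 7207989439) (nat_lit 57) (nat_lit 4) (nat_lit 58) (nat_lit 5) (nat_lit 58) (nat_lit 4) (nat_lit 505) (nat_lit 433) (nat_lit 262))))) (XT.nd (nat_lit 312) (nat_lit 304) (nat_lit 0) (XT.nd (nat_lit 156) (nat_lit 152) (nat_lit 0) (XT.nd (nat_lit 78) (nat_lit 76) (nat_lit 0) (XT.lf (nat_lit 0) (nat_lit 44254223275) (nat_lit 152) (nat_lit 13881039235) (nat_lit 76) (nat_lit 120480752294) (nat_lit 56) (nat_lit 5) (nat_lit 58) (nat_lit 5) (nat_lit 57) (nat_lit 4) (nat_lit 506) (nat_lit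 433) (nat_lit 261)) (XT.lf (nat_lit 0) (nat_lit 99578217307) (nat_lit 76) (nat_lit 22535712) (nat_lit 152) (nat_lit 85039762336) (nat_lit 55) (nat_lit 5) (nat_lit 56) (nat_lit 5) (nat_lit 57) (nat_lit 4) (nat_lit 507) (nat_lit 433) (nat_lit 260))) (XT.nd (nat_lit 78) (nat_lit 76) (nat_lit 0) (XT.lf (nat_lit 0) (nat_lit 28181217227) (nat_lit 76) (nat_lit 131163382122) (nat_lit 76) (nat_lit 31540142089) (nat_lit 54) (nat_lit 4) (nat_lit 55) (nat_lit 5) (nat_lit 55) (nat_lit 4) (nat_lit 508) (nat_lit 433) (nat_lit 259)) (XT.lf (nat_lit 0) (nat_lit 25309311387) (nat_lit 152) (nat_lit 47740127334) (nat_lit 76) (nat_lit 124299344030) (nat_lit 53) (nat_lit 5) (nat_lit 55) (nat_lit 5) (nat_lit 54) (nat_lit 4) (nat_lit 509) (nat_lit 433) (nat_lit 258)))) (XT.nd (nat_lit 156) (nat_lit 228) (nat_lit 0) (XT.nd (nat_lit 78) (nat_lit 0) (nat_lit 0) (XT.lf (nat_lit 0) (nat_lit 74847638856) (nat_lit 76) (nat_lit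 10261036130) (nat_lit 152) (nat_lit 118943128924) (nat_lit 52) (nat_lit 5) (nat_lit 53) (nat_lit 5) (nat_lit 54) (nat_lit 4) (nat_lit 510) (nat_lit 433) (nat_lit 257)) (XT.lf (nat_lit 0) (nat_lit 149587692144) (nat_lit 152) (nat_lit 6712040730) (nat_lit 0) (nat_lit 54705758994) (nat_lit 52) (nat_lit 5) (nat_lit 54) (nat_lit 4) (nat_lit 52) (nat_lit 4) (nat_lit 511) (nat_lit 433) (nat_lit 256))) (XT.nd (nat_lit 78) (nat_lit 76) (nat_lit 0) (XT.lf (nat_lit 0) (nat_lit 1181787939) (nat_lit 152) (nat_lit 92460070540) (nat_lit 76) (nat_lit 124557525685) (nat_lit 50) (nat_lit 5) (nat_lit 52) (nat_lit 5) (nat_lit 51) (nat_lit 4) (nat_lit 512) (nat_lit 433) (nat_lit 255)) (XT.nd (nat_lit 78) (nat_lit 0) (nat_lit 0) (XT.lf (nat_lit 0) (nat_lit 39554004117) (nat_lit 76) (nat_lit 26025266311) (nat_lit 152) (nat_lit 160086760383) (nat_lit 49) (nat_lit 5) (nat_lit 50) (nat_lit 5) (nat_lit 51) (nat_lit 4) (nat_lit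 513) (nat_lit 433) (nat_lit 254)) (XT.lf (nat_lit 0) (nat_lit 135489168886) (nat_lit 152) (nat_lit 52778976652) (nat_lit 0) (nat_lit 45123237168) (nat_lit 49) (nat_lit 5) (nat_lit 51) (nat_lit 4) (nat_lit 49) (nat_lit 4) (nat_lit 514) (nat_lit 433) (nat_lit 253))))))))
noncomputable def xc328 : XT := (XT.nd (nat_lit 1248) (nat_lit 836) (nat_lit 0) (XT.nd (nat_lit 624) (nat_lit 532) (nat_lit 0) (XT.nd (nat_lit 312) (nat_lit 228) (nat_lit 0) (XT.nd (nat_lit 156) (nat_lit 152) (nat_lit 0) (XT.nd (nat_lit 78) (nat_lit 76) (nat_lit 0) (XT.lf (nat_lit 0) (nat_lit 89661686689) (nat_lit 76) (nat_lit 121058317740) (nat_lit 76) (nat_lit 30691725665) (nat_lit 48) (nat_lit 4) (nat_lit 49) (nat_lit 5) (nat_lit 49) (nat_lit 4) (nat_lit 515) (nat_lit 433) (nat_lit 252)) (XT.lf (nat_lit 0) (nat_lit 39510320543) (nat_lit 152) (nat_lit 9371063870) (nat_lit 76) (nat_lit 200875208078) (nat_lit 47) (nat_lit 5) (nat_lit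 49) (nat_lit 5) (nat_lit 48) (nat_lit 4) (nat_lit 516) (nat_lit 433) (nat_lit 251))) (XT.nd (nat_lit 78) (nat_lit 76) (nat_lit 0) (XT.lf (nat_lit 0) (nat_lit 114907171815) (nat_lit 152) (nat_lit 114607980360) (nat_lit 0) (nat_lit 28842581389) (nat_lit 46) (nat_lit 5) (nat_lit 48) (nat_lit 4) (nat_lit 46) (nat_lit 4) (nat_lit 517) (nat_lit 433) (nat_lit 250)) (XT.lf (nat_lit 0) (nat_lit 37877300177) (nat_lit 76) (nat_lit 157749557802) (nat_lit 76) (nat_lit 71684424099) (nat_lit 45) (nat_lit 4) (nat_lit 46) (nat_lit 5) (nat_lit 46) (nat_lit 4) (nat_lit 518) (nat_lit 433) (nat_lit 249)))) (XT.nd (nat_lit 156) (nat_lit 76) (nat_lit 0) (XT.nd (nat_lit 78) (nat_lit 76) (nat_lit 0) (XT.lf (nat_lit 0) (nat_lit 5524300194) (nat_lit 152) (nat_lit 74740835709) (nat_lit 76) (nat_lit 196345919988) (nat_lit 44) (nat_lit 5) (nat_lit 46) (nat_lit 5) (nat_lit 45) (nat_lit 4) (nat_lit 519) (nat_lit 433) (nat_lit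 248)) (XT.lf (nat_lit 0) (nat_lit 85637942612) (nat_lit 152) (nat_lit 196936254094) (nat_lit 0) (nat_lit 3670186539) (nat_lit 43) (nat_lit 5) (nat_lit 45) (nat_lit 4) (nat_lit 43) (nat_lit 4) (nat_lit 520) (nat_lit 433) (nat_lit 247))) (XT.nd (nat_lit 78) (nat_lit 76) (nat_lit 0) (XT.lf (nat_lit 0) (nat_lit 172358644619) (nat_lit 152) (nat_lit 33480221889) (nat_lit 0) (nat_lit 90390441590) (nat_lit 43) (nat_lit 5) (nat_lit 45) (nat_lit 4) (nat_lit 43) (nat_lit 4) (nat_lit 521) (nat_lit 433) (nat_lit 246)) (XT.lf (nat_lit 0) (nat_lit 142714523596) (nat_lit 76) (nat_lit 122928110833) (nat_lit 76) (nat_lit 40959482133) (nat_lit 42) (nat_lit 4) (nat_lit 43) (nat_lit 5) (nat_lit 43) (nat_lit 4) (nat_lit 522) (nat_lit 433) (nat_lit 245))))) (XT.nd (nat_lit 312) (nat_lit 304) (nat_lit 0) (XT.nd (nat_lit 156) (nat_lit 76) (nat_lit 0) (XT.nd (nat_lit 78) (nat_lit 0) (nat_lit 0) (XT.lf (nat_lit 0) (nat_lit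 11038605540) (nat_lit 76) (nat_lit 34330974772) (nat_lit 152) (nat_lit 272050613662) (nat_lit 40) (nat_lit 5) (nat_lit 41) (nat_lit 5) (nat_lit 42) (nat_lit 4) (nat_lit 523) (nat_lit 433) (nat_lit 244)) (XT.lf (nat_lit 0) (nat_lit 138375094955) (nat_lit 152) (nat_lit 129874701167) (nat_lit 0) (nat_lit 60308980480) (nat_lit 40) (nat_lit 5) (nat_lit 42) (nat_lit 4) (nat_lit 40) (nat_lit 4) (nat_lit 524) (nat_lit 433) (nat_lit 243))) (XT.nd (nat_lit 78) (nat_lit 0) (nat_lit 0) (XT.lf (nat_lit 0) (nat_lit 56707978673) (nat_lit 76) (nat_lit 180770204732) (nat_lit 76) (nat_lit 102703740056) (nat_lit 39) (nat_lit 4) (nat_lit 40) (nat_lit 5) (nat_lit 40) (nat_lit 4) (nat_lit 525) (nat_lit 433) (nat_lit 242)) (XT.lf (nat_lit 0) (nat_lit 257127018837) (nat_lit 76) (nat_lit 86608037757) (nat_lit 76) (nat_lit 8541239557) (nat_lit 39) (nat_lit 4) (nat_lit 40) (nat_lit 5) (nat_lit 40) (nat_lit 4) (nat_lit 526)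 (nat_lit 433) (nat_lit 241)))) (XT.nd (nat_lit 156) (nat_lit 152) (nat_lit 0) (XT.nd (nat_lit 78) (nat_lit 0) (nat_lit 0) (XT.lf (nat_lit 0) (nat_lit 89310685624) (nat_lit 152) (nat_lit 260539515417) (nat_lit 0) (nat_lit 14961051488) (nat_lit 37) (nat_lit 5) (nat_lit 39) (nat_lit 4) (nat_lit 37) (nat_lit 4) (nat_lit 527) (nat_lit 433) (nat_lit 240)) (XT.lf (nat_lit 0) (nat_lit 194824952678) (nat_lit 152) (nat_lit 62513133242) (nat_lit 0) (nat_lit 120475030430) (nat_lit 37) (nat_lit 5) (nat_lit 39) (nat_lit 4) (nat_lit 37) (nat_lit 4) (nat_lit 528) (nat_lit 433) (nat_lit 239))) (XT.nd (nat_lit 78) (nat_lit 76) (nat_lit 0) (XT.lf (nat_lit 0) (nat_lit 150220981217) (nat_lit 76) (nat_lit 157738529941) (nat_lit 76) (nat_lit 83388333302) (nat_lit 36) (nat_lit 4) (nat_lit 37) (nat_lit 5) (nat_lit 37) (nat_lit 4) (nat_lit 529) (nat_lit 433) (nat_lit 238)) (XT.lf (nat_lit 0) (nat_lit 21588482345) (nat_lit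 152) (nat_lit 30094069156) (nat_lit 76) (nat_lit 353806451865) (nat_lit 35) (nat_lit 5) (nat_lit 37) (nat_lit 5) (nat_lit 36) (nat_lit 4) (nat_lit 530) (nat_lit 433) (nat_lit 237)))))) (XT.nd (nat_lit 624) (nat_lit 304) (nat_lit 0) (XT.nd (nat_lit 312) (nat_lit 228) (nat_lit 0) (XT.nd (nat_lit 156) (nat_lit 228) (nat_lit 0) (XT.nd (nat_lit 78) (nat_lit 0) (nat_lit 0) (XT.lf (nat_lit 0) (nat_lit 133081852218) (nat_lit 152) (nat_lit 224711856273) (nat_lit 0) (nat_lit 62271655222) (nat_lit 34) (nat_lit 5) (nat_lit 36) (nat_lit 4) (nat_lit 34) (nat_lit 4) (nat_lit 531) (nat_lit 433) (nat_lit 236)) (XT.lf (nat_lit 0) (nat_lit 251514404686) (nat_lit 152) (nat_lit 3083929742) (nat_lit 0) (nat_lit 180703981948) (nat_lit 34) (nat_lit 5) (nat_lit 36) (nat_lit 4) (nat_lit 34) (nat_lit 4) (nat_lit 532) (nat_lit 433) (nat_lit 235))) (XT.nd (nat_lit 78) (nat_lit 152) (nat_lit 0) (XT.lf (nat_lit 0) (nat_lit 237216348616)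 (nat_lit 76) (nat_lit 142355130535) (nat_lit 76) (nat_lit 71544492804) (nat_lit 33) (nat_lit 4) (nat_lit 34) (nat_lit 5) (nat_lit 34) (nat_lit 4) (nat_lit 533) (nat_lit 433) (nat_lit 234)) (XT.lf (nat_lit 0) (nat_lit 21896481553) (nat_lit 76) (nat_lit 23326603344) (nat_lit 152) (nat_lit 422441361508) (nat_lit 31) (nat_lit 5) (nat_lit 32) (nat_lit 5) (nat_lit 33) (nat_lit 4) (nat_lit 534) (nat_lit 433) (nat_lit 233)))) (XT.nd (nat_lit 156) (nat_lit 152) (nat_lit 0) (XT.nd (nat_lit 78) (nat_lit 76) (nat_lit 0) (XT.lf (nat_lit 0) (nat_lit 170692933180) (nat_lit 152) (nat_lit 210771505728) (nat_lit 0) (nat_lit 103253849855) (nat_lit 31) (nat_lit 5) (nat_lit 33) (nat_lit 4) (nat_lit 31) (nat_lit 4) (nat_lit 535) (nat_lit 433) (nat_lit 232)) (XT.lf (nat_lit 0) (nat_lit 36767790912) (nat_lit 76) (nat_lit 266624252037) (nat_lit 76) (nat_lit 199184991836) (nat_lit 30) (nat_lit 4) (nat_lit 31) (nat_lit 5)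 (nat_lit 31) (nat_lit 4) (nat_lit 536) (nat_lit 433) (nat_lit 231))) (XT.nd (nat_lit 78) (nat_lit 152) (nat_lit 0) (XT.lf (nat_lit 0) (nat_lit 304000204368) (nat_lit 76) (nat_lit 142294750043) (nat_lit 76) (nat_lit 74855321390) (nat_lit 30) (nat_lit 4) (nat_lit 31) (nat_lit 5) (nat_lit 31) (nat_lit 4) (nat_lit 537) (nat_lit 433) (nat_lit 230)) (XT.lf (nat_lit 0) (nat_lit 44495384291) (nat_lit 76) (nat_lit 10107041745) (nat_lit 152) (nat_lit 485971575941) (nat_lit 28) (nat_lit 5) (nat_lit 29) (nat_lit 5) (nat_lit 30) (nat_lit 4) (nat_lit 538) (nat_lit 433) (nat_lit 229))))) (XT.nd (nat_lit 312) (nat_lit 76) (nat_lit 0) (XT.nd (nat_lit 156) (nat_lit 152) (nat_lit 0) (XT.nd (nat_lit 78) (nat_lit 76) (nat_lit 0) (XT.lf (nat_lit 0) (nat_lit 193763823397) (nat_lit 152) (nat_lit 237320916833) (nat_lit 0) (nat_lit 129535497801) (nat_lit 28) (nat_lit 5) (nat_lit 30) (nat_lit 4) (nat_lit 28) (nat_lit 4)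 (nat_lit 539) (nat_lit 433) (nat_lit 228)) (XT.lf (nat_lit 0) (nat_lit 35338788401) (nat_lit 76) (nat_lit 305261310625) (nat_lit 76) (nat_lit 241032846442) (nat_lit 27) (nat_lit 4) (nat_lit 28) (nat_lit 5) (nat_lit 28) (nat_lit 4) (nat_lit 540) (nat_lit 433) (nat_lit 227))) (XT.nd (nat_lit 78) (nat_lit 152) (nat_lit 0) (XT.lf (nat_lit 0) (nat_lit 329869492083) (nat_lit 76) (nat_lit 168927232772) (nat_lit 76) (nat_lit 104698636603) (nat_lit 27) (nat_lit 4) (nat_lit 28) (nat_lit 5) (nat_lit 28) (nat_lit 4) (nat_lit 541) (nat_lit 433) (nat_lit 226)) (XT.lf (nat_lit 0) (nat_lit 12473521470) (nat_lit 76) (nat_lit 24942206988) (nat_lit 152) (nat_lit 588995444497) (nat_lit 25) (nat_lit 5) (nat_lit 26) (nat_lit 5) (nat_lit 27) (nat_lit 4) (nat_lit 542) (nat_lit 433) (nat_lit 225)))) (XT.nd (nat_lit 156) (nat_lit 76) (nat_lit 0) (XT.nd (nat_lit 78) (nat_lit 0) (nat_lit 0) (XT.lf (nat_lit 0) (nat_lit 189797608749)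 (nat_lit 152) (nat_lit 331628046414) (nat_lit 0) (nat_lit 128627283427) (nat_lit 25) (nat_lit 5) (nat_lit 27) (nat_lit 4) (nat_lit 25) (nat_lit 4) (nat_lit 543) (nat_lit 433) (nat_lit 224)) (XT.lf (nat_lit 0) (nat_lit 350206911420) (nat_lit 152) (nat_lit 35612987155) (nat_lit 0) (nat_lit 289036477513) (nat_lit 25) (nat_lit 5) (nat_lit 27) (nat_lit 4) (nat_lit 25) (nat_lit 4) (nat_lit 544) (nat_lit 433) (nat_lit 223))) (XT.nd (nat_lit 78) (nat_lit 0) (nat_lit 0) (XT.lf (nat_lit 0) (nat_lit 284301154234) (nat_lit 76) (nat_lit 238773729171) (nat_lit 76) (nat_lit 177603191848) (nat_lit 24) (nat_lit 4) (nat_lit 25) (nat_lit 5) (nat_lit 25) (nat_lit 4) (nat_lit 545) (nat_lit 433) (nat_lit 222)) (XT.lf (nat_lit 0) (nat_lit 621446339398) (nat_lit 76) (nat_lit 83742512938) (nat_lit 76) (nat_lit 22571877124) (nat_lit 24) (nat_lit 4) (nat_lit 25) (nat_lit 5) (nat_lit 25) (nat_lit 4) (nat_lit 546) (nat_lit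 433) (nat_lit 221)))))))
noncomputable def xc329 : XT := (XT.nd (nat_lit 54444) (nat_lit 0) (nat_lit 7752) (XT.nd (nat_lit 53820) (nat_lit 0) (nat_lit 11020) (XT.nd (nat_lit 312) (nat_lit 152) (nat_lit 0) (XT.nd (nat_lit 156) (nat_lit 76) (nat_lit 0) (XT.nd (nat_lit 78) (nat_lit 0) (nat_lit 0) (XT.lf (nat_lit 0) (nat_lit 140551165581) (nat_lit 152) (nat_lit 533002179110) (nat_lit 0) (nat_lit 82293327852) (nat_lit 22) (nat_lit 5) (nat_lit 24) (nat_lit 4) (nat_lit 22) (nat_lit 4) (nat_lit 547) (nat_lit 433) (nat_lit 220)) (XT.lf (nat_lit 0) (nat_lit 314274119482) (nat_lit 152) (nat_lit 214867978981) (nat_lit 0) (nat_lit 256016196674) (nat_lit 22) (nat_lit 5) (nat_lit 24) (nat_lit 4) (nat_lit 22) (nat_lit 4) (nat_lit 548) (nat_lit 433) (nat_lit 219))) (XT.nd (nat_lit 78) (nat_lit 0) (nat_lit 0) (XT.lf (nat_lit 0) (nat_lit 123112310974) (nat_lit 76) (nat_lit 375492554746) (nat_lit 76) (nat_lit 317234550909)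 (nat_lit 21) (nat_lit 4) (nat_lit 22) (nat_lit 5) (nat_lit 22) (nat_lit 4) (nat_lit 549) (nat_lit 433) (nat_lit 218)) (XT.lf (nat_lit 0) (nat_lit 485450379343) (nat_lit 76) (nat_lit 210340187490) (nat_lit 76) (nat_lit 152082106483) (nat_lit 21) (nat_lit 4) (nat_lit 22) (nat_lit 5) (nat_lit 22) (nat_lit 4) (nat_lit 550) (nat_lit 433) (nat_lit 217)))) (XT.nd (nat_lit 53352) (nat_lit 0) (nat_lit 10944) (XT.nd (nat_lit 78) (nat_lit 76) (nat_lit 0) (XT.lf (nat_lit 0) (nat_lit 20644871836) (nat_lit 152) (nat_lit 15936167238) (nat_lit 76) (nat_lit 844909927325) (nat_lit 20) (nat_lit 5) (nat_lit 22) (nat_lit 5) (nat_lit 21) (nat_lit 4) (nat_lit 551) (nat_lit 433) (nat_lit 216)) (XT.lf (nat_lit 0) (nat_lit 204877017766) (nat_lit 152) (nat_lit 561996515734) (nat_lit 0) (nat_lit 149392994435) (nat_lit 19) (nat_lit 5) (nat_lit 21) (nat_lit 4) (nat_lit 19) (nat_lit 4) (nat_lit 552) (nat_lit 433) (nat_lit 215)))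 (XT.nd (nat_lit 78) (nat_lit 0) (nat_lit 0) (XT.lf (nat_lit 0) (nat_lit 3748826844) (nat_lit 836) (nat_lit 3480555816) (nat_lit 836) (nat_lit 3480555816) (nat_lit 163) (nat_lit 3) (nat_lit 174) (nat_lit 3) (nat_lit 174) (nat_lit 5) (nat_lit 434) (nat_lit 434) (nat_lit 332)) (XT.lf (nat_lit 76) (nat_lit 3828082711) (nat_lit 0) (nat_lit 4058365684) (nat_lit 836) (nat_lit 14058846886) (nat_lit 164) (nat_lit 5) (nat_lit 163) (nat_lit 3) (nat_lit 174) (nat_lit 5) (nat_lit 435) (nat_lit 434) (nat_lit 331))))) (XT.nd (nat_lit 312) (nat_lit 0) (nat_lit 152) (XT.nd (nat_lit 156) (nat_lit 0) (nat_lit 76) (XT.nd (nat_lit 78) (nat_lit 0) (nat_lit 0) (XT.lf (nat_lit 0) (nat_lit 8512567053) (nat_lit 760) (nat_lit 7207187268) (nat_lit 836) (nat_lit 6766336693) (nat_lit 164) (nat_lit 5) (nat_lit 174) (nat_lit 5) (nat_lit 175) (nat_lit 5) (nat_lit 436) (nat_lit 434) (nat_lit 330)) (XT.lf (nat_lit 76) (nat_lit 4314726362)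 (nat_lit 0) (nat_lit 4980518846) (nat_lit 836) (nat_lit 13752419314) (nat_lit 165) (nat_lit 5) (nat_lit 164) (nat_lit 5) (nat_lit 175) (nat_lit 5) (nat_lit 437) (nat_lit 434) (nat_lit 329))) (XT.nd (nat_lit 78) (nat_lit 0) (nat_lit 0) (XT.lf (nat_lit 0) (nat_lit 10331148716) (nat_lit 760) (nat_lit 7074118311) (nat_lit 836) (nat_lit 6221345740) (nat_lit 165) (nat_lit 5) (nat_lit 175) (nat_lit 5) (nat_lit 176) (nat_lit 5) (nat_lit 438) (nat_lit 434) (nat_lit 328)) (XT.lf (nat_lit 76) (nat_lit 5248687077) (nat_lit 0) (nat_lit 6325888333) (nat_lit 836) (nat_lit 12652147218) (nat_lit 166) (nat_lit 5) (nat_lit 165) (nat_lit 5) (nat_lit 176) (nat_lit 5) (nat_lit 439) (nat_lit 434) (nat_lit 327)))) (XT.nd (nat_lit 156) (nat_lit 0) (nat_lit 76) (XT.nd (nat_lit 78) (nat_lit 0) (nat_lit 0) (XT.lf (nat_lit 0) (nat_lit 13077268873) (nat_lit 760) (nat_lit 6508074966) (nat_lit 836) (nat_lit 5261639948) (nat_lit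 166) (nat_lit 5) (nat_lit 176) (nat_lit 5) (nat_lit 177) (nat_lit 5) (nat_lit 440) (nat_lit 434) (nat_lit 326)) (XT.lf (nat_lit 76) (nat_lit 6690455977) (nat_lit 0) (nat_lit 8165623277) (nat_lit 836) (nat_lit 10632130184) (nat_lit 167) (nat_lit 5) (nat_lit 166) (nat_lit 5) (nat_lit 177) (nat_lit 5) (nat_lit 441) (nat_lit 434) (nat_lit 325))) (XT.nd (nat_lit 78) (nat_lit 0) (nat_lit 0) (XT.lf (nat_lit 0) (nat_lit 16888682161) (nat_lit 760) (nat_lit 5448300064) (nat_lit 836) (nat_lit 3816272070) (nat_lit 167) (nat_lit 5) (nat_lit 177) (nat_lit 5) (nat_lit 178) (nat_lit 5) (nat_lit 442) (nat_lit 434) (nat_lit 324)) (XT.lf (nat_lit 76) (nat_lit 8708099183) (nat_lit 0) (nat_lit 10578072246) (nat_lit 836) (nat_lit 7552217651) (nat_lit 168) (nat_lit 5) (nat_lit 167) (nat_lit 5) (nat_lit 178) (nat_lit 5) (nat_lit 443) (nat_lit 434) (nat_lit 323)))))) (XT.nd (nat_lit 624) (nat_lit 1520) (nat_lit 0) (XT.nd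 (nat_lit 312) (nat_lit 760) (nat_lit 0) (XT.nd (nat_lit 156) (nat_lit 532) (nat_lit 0) (XT.nd (nat_lit 78) (nat_lit 760) (nat_lit 0) (XT.lf (nat_lit 0) (nat_lit 21918615016) (nat_lit 760) (nat_lit 3826448775) (nat_lit 76) (nat_lit 1806963294) (nat_lit 168) (nat_lit 5) (nat_lit 178) (nat_lit 5) (nat_lit 169) (nat_lit 5) (nat_lit 444) (nat_lit 434) (nat_lit 322)) (XT.lf (nat_lit 0) (nat_lit 11377983294) (nat_lit 760) (nat_lit 13649733549) (nat_lit 836) (nat_lit 3256378795) (nat_lit 158) (nat_lit 5) (nat_lit 168) (nat_lit 5) (nat_lit 169) (nat_lit 5) (nat_lit 445) (nat_lit 434) (nat_lit 321))) (XT.nd (nat_lit 78) (nat_lit 532) (nat_lit 0) (XT.lf (nat_lit 0) (nat_lit 27470212416) (nat_lit 760) (nat_lit 881051192) (nat_lit 836) (nat_lit 698554950) (nat_lit 158) (nat_lit 5) (nat_lit 168) (nat_lit 5) (nat_lit 169) (nat_lit 5) (nat_lit 446) (nat_lit 434) (nat_lit 320)) (XT.lf (nat_lit 0) (nat_lit 2351341245)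 (nat_lit 532) (nat_lit 15085123813) (nat_lit 76) (nat_lit 12394422561) (nat_lit 151) (nat_lit 5) (nat_lit 158) (nat_lit 5) (nat_lit 152) (nat_lit 5) (nat_lit 447) (nat_lit 434) (nat_lit 319)))) (XT.nd (nat_lit 156) (nat_lit 380) (nat_lit 0) (XT.nd (nat_lit 78) (nat_lit 0) (nat_lit 0) (XT.lf (nat_lit 0) (nat_lit 1302526258) (nat_lit 380) (nat_lit 4284265149) (nat_lit 456) (nat_lit 25060819752) (nat_lit 146) (nat_lit 5) (nat_lit 151) (nat_lit 5) (nat_lit 152) (nat_lit 5) (nat_lit 448) (nat_lit 434) (nat_lit 318)) (XT.lf (nat_lit 0) (nat_lit 9387137197) (nat_lit 456) (nat_lit 12617599852) (nat_lit 76) (nat_lit 9480278026) (nat_lit 146) (nat_lit 5) (nat_lit 152) (nat_lit 5) (nat_lit 147) (nat_lit 5) (nat_lit 449) (nat_lit 434) (nat_lit 317))) (XT.nd (nat_lit 78) (nat_lit 0) (nat_lit 0) (XT.lf (nat_lit 0) (nat_lit 5031764540) (nat_lit 380) (nat_lit 8489520681) (nat_lit 456) (nat_lit 18835815055) (nat_lit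 141) (nat_lit 5) (nat_lit 146) (nat_lit 5) (nat_lit 147) (nat_lit 5) (nat_lit 450) (nat_lit 434) (nat_lit 316)) (XT.lf (nat_lit 0) (nat_lit 18163486868) (nat_lit 456) (nat_lit 9358432932) (nat_lit 76) (nat_lit 5735802946) (nat_lit 141) (nat_lit 5) (nat_lit 147) (nat_lit 5) (nat_lit 142) (nat_lit 5) (nat_lit 451) (nat_lit 434) (nat_lit 315))))) (XT.nd (nat_lit 312) (nat_lit 836) (nat_lit 0) (XT.nd (nat_lit 156) (nat_lit 380) (nat_lit 0) (XT.nd (nat_lit 78) (nat_lit 0) (nat_lit 0) (XT.lf (nat_lit 0) (nat_lit 9672006749) (nat_lit 304) (nat_lit 13651345079) (nat_lit 380) (nat_lit 10865747155) (nat_lit 137) (nat_lit 5) (nat_lit 141) (nat_lit 5) (nat_lit 142) (nat_lit 5) (nat_lit 452) (nat_lit 434) (nat_lit 314)) (XT.lf (nat_lit 0) (nat_lit 28912052738) (nat_lit 380) (nat_lit 5202427661) (nat_lit 76) (nat_lit 1044021787) (nat_lit 137) (nat_lit 5) (nat_lit 142) (nat_lit 5) (nat_lit 138) (nat_lit 5) (nat_lit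 453) (nat_lit 434) (nat_lit 313))) (XT.nd (nat_lit 78) (nat_lit 76) (nat_lit 0) (XT.lf (nat_lit 0) (nat_lit 15340078503) (nat_lit 304) (nat_lit 19899122639) (nat_lit 380) (nat_lit 914224064) (nat_lit 133) (nat_lit 5) (nat_lit 137) (nat_lit 5) (nat_lit 138) (nat_lit 5) (nat_lit 454) (nat_lit 434) (nat_lit 312)) (XT.lf (nat_lit 0) (nat_lit 4620001520) (nat_lit 380) (nat_lit 183082298) (nat_lit 76) (nat_lit 32387087524) (nat_lit 132) (nat_lit 5) (nat_lit 137) (nat_lit 5) (nat_lit 133) (nat_lit 5) (nat_lit 455) (nat_lit 434) (nat_lit 311)))) (XT.nd (nat_lit 156) (nat_lit 228) (nat_lit 0) (XT.nd (nat_lit 78) (nat_lit 304) (nat_lit 0) (XT.lf (nat_lit 0) (nat_lit 10920693895) (nat_lit 380) (nat_lit 16270951274) (nat_lit 76) (nat_lit 11060336517) (nat_lit 128) (nat_lit 5) (nat_lit 133) (nat_lit 5) (nat_lit 129) (nat_lit 5) (nat_lit 456) (nat_lit 434) (nat_lit 310)) (XT.lf (nat_lit 0) (nat_lit 6001272300)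 (nat_lit 304) (nat_lit 11706815029) (nat_lit 380) (nat_lit 21650212125) (nat_lit 124) (nat_lit 5) (nat_lit 128) (nat_lit 5) (nat_lit 129) (nat_lit 5) (nat_lit 457) (nat_lit 434) (nat_lit 309))) (XT.nd (nat_lit 78) (nat_lit 228) (nat_lit 0) (XT.lf (nat_lit 0) (nat_lit 25182169726) (nat_lit 380) (nat_lit 10634834784) (nat_lit 76) (nat_lit 4685562853) (nat_lit 124) (nat_lit 5) (nat_lit 129) (nat_lit 5) (nat_lit 125) (nat_lit 5) (nat_lit 458) (nat_lit 434) (nat_lit 308)) (XT.nd (nat_lit 78) (nat_lit 0) (nat_lit 0) (XT.lf (nat_lit 0) (nat_lit 13457429777) (nat_lit 228) (nat_lit 19970903997) (nat_lit 304) (nat_lit 8255796224) (nat_lit 121) (nat_lit 5) (nat_lit 124) (nat_lit 5) (nat_lit 125) (nat_lit 5) (nat_lit 459) (nat_lit 434) (nat_lit 307)) (XT.lf (nat_lit 0) (nat_lit 39118758927) (nat_lit 228) (nat_lit 3144606700) (nat_lit 304) (nat_lit 652577353) (nat_lit 121) (nat_lit 5) (nat_lit 124) (nat_lit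 5) (nat_lit 125) (nat_lit 5) (nat_lit 460) (nat_lit 434) (nat_lit 306))))))))
noncomputable def xc330 : XT := (XT.nd (nat_lit 1248) (nat_lit 1748) (nat_lit 0) (XT.nd (nat_lit 624) (nat_lit 988) (nat_lit 0) (XT.nd (nat_lit 312) (nat_lit 456) (nat_lit 0) (XT.nd (nat_lit 156) (nat_lit 228) (nat_lit 0) (XT.nd (nat_lit 78) (nat_lit 228) (nat_lit 0) (XT.lf (nat_lit 0) (nat_lit 7677646500) (nat_lit 380) (nat_lit 21967268614) (nat_lit 76) (nat_lit 14529635183) (nat_lit 116) (nat_lit 5) (nat_lit 121) (nat_lit 5) (nat_lit 117) (nat_lit 5) (nat_lit 461) (nat_lit 434) (nat_lit 305)) (XT.lf (nat_lit 0) (nat_lit 4217897983) (nat_lit 228) (nat_lit 12363957748) (nat_lit 304) (nat_lit 28904727266) (nat_lit 113) (nat_lit 5) (nat_lit 116) (nat_lit 5) (nat_lit 117) (nat_lit 5) (nat_lit 462) (nat_lit 434) (nat_lit 304))) (XT.nd (nat_lit 78) (nat_lit 228) (nat_lit 0) (XT.lf (nat_lit 0) (nat_lit 26396364392) (nat_lit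 304) (nat_lit 14471788088) (nat_lit 76) (nat_lit 5972810564) (nat_lit 113) (nat_lit 5) (nat_lit 117) (nat_lit 5) (nat_lit 114) (nat_lit 5) (nat_lit 463) (nat_lit 434) (nat_lit 303)) (XT.lf (nat_lit 0) (nat_lit 13902674644) (nat_lit 228) (nat_lit 23215533768) (nat_lit 304) (nat_lit 11124023342) (nat_lit 110) (nat_lit 5) (nat_lit 113) (nat_lit 5) (nat_lit 114) (nat_lit 5) (nat_lit 464) (nat_lit 434) (nat_lit 302)))) (XT.nd (nat_lit 156) (nat_lit 228) (nat_lit 0) (XT.nd (nat_lit 78) (nat_lit 228) (nat_lit 0) (XT.lf (nat_lit 0) (nat_lit 44193798304) (nat_lit 228) (nat_lit 4424374752) (nat_lit 304) (nat_lit 1083289568) (nat_lit 110) (nat_lit 5) (nat_lit 113) (nat_lit 5) (nat_lit 114) (nat_lit 5) (nat_lit 465) (nat_lit 434) (nat_lit 301)) (XT.lf (nat_lit 0) (nat_lit 9798636088) (nat_lit 228) (nat_lit 26026849095) (nat_lit 76) (nat_lit 15368689654) (nat_lit 107) (nat_lit 5) (nat_lit 110) (nat_lit 5) (nat_lit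 108) (nat_lit 5) (nat_lit 466) (nat_lit 434) (nat_lit 300))) (XT.nd (nat_lit 78) (nat_lit 0) (nat_lit 0) (XT.lf (nat_lit 0) (nat_lit 4870047295) (nat_lit 228) (nat_lit 16558666080) (nat_lit 304) (nat_lit 31319898421) (nat_lit 104) (nat_lit 5) (nat_lit 107) (nat_lit 5) (nat_lit 108) (nat_lit 5) (nat_lit 467) (nat_lit 434) (nat_lit 299)) (XT.lf (nat_lit 0) (nat_lit 34142757940) (nat_lit 304) (nat_lit 16212370966) (nat_lit 76) (nat_lit 4000518647) (nat_lit 104) (nat_lit 5) (nat_lit 108) (nat_lit 5) (nat_lit 105) (nat_lit 5) (nat_lit 468) (nat_lit 434) (nat_lit 298))))) (XT.nd (nat_lit 312) (nat_lit 380) (nat_lit 0) (XT.nd (nat_lit 156) (nat_lit 380) (nat_lit 0) (XT.nd (nat_lit 78) (nat_lit 76) (nat_lit 0) (XT.lf (nat_lit 0) (nat_lit 17315626906) (nat_lit 152) (nat_lit 30715951081) (nat_lit 228) (nat_lit 7984503563) (nat_lit 102) (nat_lit 5) (nat_lit 104) (nat_lit 5) (nat_lit 105) (nat_lit 5) (nat_lit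 469) (nat_lit 434) (nat_lit 297)) (XT.lf (nat_lit 0) (nat_lit 4976262084) (nat_lit 228) (nat_lit 4747514205) (nat_lit 76) (nat_lit 48018152805) (nat_lit 101) (nat_lit 5) (nat_lit 104) (nat_lit 5) (nat_lit 102) (nat_lit 5) (nat_lit 470) (nat_lit 434) (nat_lit 296))) (XT.nd (nat_lit 78) (nat_lit 152) (nat_lit 0) (XT.lf (nat_lit 0) (nat_lit 19012994135) (nat_lit 304) (nat_lit 27939981456) (nat_lit 76) (nat_lit 12559735861) (nat_lit 98) (nat_lit 5) (nat_lit 102) (nat_lit 5) (nat_lit 99) (nat_lit 5) (nat_lit 471) (nat_lit 434) (nat_lit 295)) (XT.lf (nat_lit 0) (nat_lit 8616748264) (nat_lit 152) (nat_lit 25507932190) (nat_lit 228) (nat_lit 27228696681) (nat_lit 96) (nat_lit 5) (nat_lit 98) (nat_lit 5) (nat_lit 99) (nat_lit 5) (nat_lit 472) (nat_lit 434) (nat_lit 294)))) (XT.nd (nat_lit 156) (nat_lit 152) (nat_lit 0) (XT.nd (nat_lit 78) (nat_lit 228) (nat_lit 0) (XT.lf (nat_lit 0) (nat_lit 47967280094)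 (nat_lit 152) (nat_lit 2495366247) (nat_lit 228) (nat_lit 12799895091) (nat_lit 96) (nat_lit 5) (nat_lit 98) (nat_lit 5) (nat_lit 99) (nat_lit 5) (nat_lit 473) (nat_lit 434) (nat_lit 293)) (XT.lf (nat_lit 0) (nat_lit 3004665980) (nat_lit 228) (nat_lit 40820974965) (nat_lit 76) (nat_lit 21403211048) (nat_lit 93) (nat_lit 5) (nat_lit 96) (nat_lit 5) (nat_lit 94) (nat_lit 5) (nat_lit 474) (nat_lit 434) (nat_lit 292))) (XT.nd (nat_lit 78) (nat_lit 152) (nat_lit 0) (XT.lf (nat_lit 0) (nat_lit 19471109131) (nat_lit 228) (nat_lit 912290133) (nat_lit 76) (nat_lit 46884496456) (nat_lit 93) (nat_lit 5) (nat_lit 96) (nat_lit 5) (nat_lit 94) (nat_lit 5) (nat_lit 475) (nat_lit 434) (nat_lit 291)) (XT.lf (nat_lit 0) (nat_lit 37496583788) (nat_lit 228) (nat_lit 27109517479) (nat_lit 76) (nat_lit 4766004974) (nat_lit 91) (nat_lit 5) (nat_lit 94) (nat_lit 5) (nat_lit 92) (nat_lit 5) (nat_lit 476) (nat_lit 434)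 (nat_lit 290)))))) (XT.nd (nat_lit 624) (nat_lit 912) (nat_lit 0) (XT.nd (nat_lit 312) (nat_lit 304) (nat_lit 0) (XT.nd (nat_lit 156) (nat_lit 304) (nat_lit 0) (XT.nd (nat_lit 78) (nat_lit 76) (nat_lit 0) (XT.lf (nat_lit 0) (nat_lit 16228328069) (nat_lit 152) (nat_lit 40795997989) (nat_lit 228) (nat_lit 14527151606) (nat_lit 89) (nat_lit 5) (nat_lit 91) (nat_lit 5) (nat_lit 92) (nat_lit 5) (nat_lit 477) (nat_lit 434) (nat_lit 289)) (XT.lf (nat_lit 0) (nat_lit 4034996386) (nat_lit 228) (nat_lit 11211545374) (nat_lit 76) (nat_lit 58567175561) (nat_lit 88) (nat_lit 5) (nat_lit 91) (nat_lit 5) (nat_lit 89) (nat_lit 5) (nat_lit 478) (nat_lit 434) (nat_lit 288))) (XT.nd (nat_lit 78) (nat_lit 152) (nat_lit 0) (XT.lf (nat_lit 0) (nat_lit 23791150152) (nat_lit 228) (nat_lit 40326439224) (nat_lit 76) (nat_lit 12021866847) (nat_lit 86) (nat_lit 5) (nat_lit 89) (nat_lit 5) (nat_lit 87) (nat_lit 5) (nat_lit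 479) (nat_lit 434) (nat_lit 287)) (XT.lf (nat_lit 0) (nat_lit 6972512606) (nat_lit 152) (nat_lit 38112294436) (nat_lit 228) (nat_lit 33469190316) (nat_lit 84) (nat_lit 5) (nat_lit 86) (nat_lit 5) (nat_lit 87) (nat_lit 5) (nat_lit 480) (nat_lit 434) (nat_lit 286)))) (XT.nd (nat_lit 156) (nat_lit 152) (nat_lit 0) (XT.nd (nat_lit 78) (nat_lit 152) (nat_lit 0) (XT.lf (nat_lit 0) (nat_lit 58032859904) (nat_lit 152) (nat_lit 10091184264) (nat_lit 228) (nat_lit 12931176567) (nat_lit 84) (nat_lit 5) (nat_lit 86) (nat_lit 5) (nat_lit 87) (nat_lit 5) (nat_lit 481) (nat_lit 434) (nat_lit 285)) (XT.lf (nat_lit 0) (nat_lit 9115587660) (nat_lit 152) (nat_lit 55217278280) (nat_lit 76) (nat_lit 19303990383) (nat_lit 82) (nat_lit 5) (nat_lit 84) (nat_lit 5) (nat_lit 83) (nat_lit 5) (nat_lit 482) (nat_lit 434) (nat_lit 284))) (XT.nd (nat_lit 78) (nat_lit 152) (nat_lit 0) (XT.lf (nat_lit 0) (nat_lit 32389866425)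 (nat_lit 152) (nat_lit 3482495399) (nat_lit 76) (nat_lit 50436625157) (nat_lit 82) (nat_lit 5) (nat_lit 84) (nat_lit 5) (nat_lit 83) (nat_lit 5) (nat_lit 483) (nat_lit 434) (nat_lit 283)) (XT.lf (nat_lit 0) (nat_lit 52516543784) (nat_lit 152) (nat_lit 5129372306) (nat_lit 228) (nat_lit 31427905278) (nat_lit 80) (nat_lit 5) (nat_lit 82) (nat_lit 5) (nat_lit 83) (nat_lit 5) (nat_lit 484) (nat_lit 434) (nat_lit 282))))) (XT.nd (nat_lit 312) (nat_lit 532) (nat_lit 0) (XT.nd (nat_lit 156) (nat_lit 228) (nat_lit 0) (XT.nd (nat_lit 78) (nat_lit 76) (nat_lit 0) (XT.lf (nat_lit 0) (nat_lit 19663627685) (nat_lit 76) (nat_lit 65290130829) (nat_lit 152) (nat_lit 6983689490) (nat_lit 79) (nat_lit 5) (nat_lit 80) (nat_lit 5) (nat_lit 81) (nat_lit 4) (nat_lit 485) (nat_lit 434) (nat_lit 281)) (XT.lf (nat_lit 0) (nat_lit 18796274343) (nat_lit 152) (nat_lit 15337825887) (nat_lit 76) (nat_lit 60759996211) (nat_lit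 78) (nat_lit 5) (nat_lit 80) (nat_lit 5) (nat_lit 79) (nat_lit 5) (nat_lit 486) (nat_lit 434) (nat_lit 280))) (XT.nd (nat_lit 78) (nat_lit 76) (nat_lit 0) (XT.lf (nat_lit 0) (nat_lit 45792939075) (nat_lit 152) (nat_lit 550792631) (nat_lit 228) (nat_lit 51613461642) (nat_lit 76) (nat_lit 5) (nat_lit 78) (nat_lit 5) (nat_lit 79) (nat_lit 5) (nat_lit 487) (nat_lit 434) (nat_lit 279)) (XT.lf (nat_lit 0) (nat_lit 9093921875) (nat_lit 76) (nat_lit 67120829569) (nat_lit 152) (nat_lit 24911384215) (nat_lit 75) (nat_lit 5) (nat_lit 76) (nat_lit 5) (nat_lit 77) (nat_lit 4) (nat_lit 488) (nat_lit 434) (nat_lit 278)))) (XT.nd (nat_lit 156) (nat_lit 304) (nat_lit 0) (XT.nd (nat_lit 78) (nat_lit 152) (nat_lit 0) (XT.lf (nat_lit 0) (nat_lit 3930946066) (nat_lit 152) (nat_lit 29258856999) (nat_lit 76) (nat_lit 71216022230) (nat_lit 74) (nat_lit 5) (nat_lit 76) (nat_lit 5) (nat_lit 75) (nat_lit 5) (nat_lit 489)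 (nat_lit 434) (nat_lit 277)) (XT.lf (nat_lit 0) (nat_lit 34015405267) (nat_lit 228) (nat_lit 70414220682) (nat_lit 76) (nat_lit 3367594416) (nat_lit 72) (nat_lit 5) (nat_lit 75) (nat_lit 5) (nat_lit 73) (nat_lit 4) (nat_lit 490) (nat_lit 434) (nat_lit 276))) (XT.nd (nat_lit 78) (nat_lit 304) (nat_lit 0) (XT.lf (nat_lit 0) (nat_lit 66650167356) (nat_lit 228) (nat_lit 3515955122) (nat_lit 76) (nat_lit 41139758741) (nat_lit 72) (nat_lit 5) (nat_lit 75) (nat_lit 5) (nat_lit 73) (nat_lit 4) (nat_lit 491) (nat_lit 434) (nat_lit 275)) (XT.nd (nat_lit 78) (nat_lit 228) (nat_lit 0) (XT.lf (nat_lit 0) (nat_lit 68930498792) (nat_lit 76) (nat_lit 33060794385) (nat_lit 152) (nat_lit 12944950685) (nat_lit 71) (nat_lit 5) (nat_lit 72) (nat_lit 5) (nat_lit 73) (nat_lit 4) (nat_lit 492) (nat_lit 434) (nat_lit 274)) (XT.lf (nat_lit 0) (nat_lit 20284348468) (nat_lit 228) (nat_lit 91897438343) (nat_lit 76) (nat_lit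 6521232365) (nat_lit 68) (nat_lit 5) (nat_lit 71) (nat_lit 5) (nat_lit 69) (nat_lit 4) (nat_lit 493) (nat_lit 434) (nat_lit 273))))))))
noncomputable def xc331 : XT := (XT.nd (nat_lit 1248) (nat_lit 1140) (nat_lit 0) (XT.nd (nat_lit 624) (nat_lit 532) (nat_lit 0) (XT.nd (nat_lit 312) (nat_lit 304) (nat_lit 0) (XT.nd (nat_lit 156) (nat_lit 152) (nat_lit 0) (XT.nd (nat_lit 78) (nat_lit 76) (nat_lit 0) (XT.lf (nat_lit 0) (nat_lit 56072400157) (nat_lit 228) (nat_lit 18534397792) (nat_lit 76) (nat_lit 47974108576) (nat_lit 68) (nat_lit 5) (nat_lit 71) (nat_lit 5) (nat_lit 69) (nat_lit 4) (nat_lit 494) (nat_lit 434) (nat_lit 272)) (XT.lf (nat_lit 0) (nat_lit 60428066017) (nat_lit 76) (nat_lit 34163754540) (nat_lit 152) (nat_lit 32013769400) (nat_lit 67) (nat_lit 5) (nat_lit 68) (nat_lit 5) (nat_lit 69) (nat_lit 4) (nat_lit 495) (nat_lit 434) (nat_lit 271))) (XT.nd (nat_lit 78) (nat_lit 0) (nat_lit 0)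 (XT.lf (nat_lit 0) (nat_lit 4739177651) (nat_lit 152) (nat_lit 117415545171) (nat_lit 76) (nat_lit 8640097515) (nat_lit 65) (nat_lit 5) (nat_lit 67) (nat_lit 5) (nat_lit 66) (nat_lit 4) (nat_lit 496) (nat_lit 434) (nat_lit 270)) (XT.lf (nat_lit 0) (nat_lit 43951607733) (nat_lit 152) (nat_lit 37032091804) (nat_lit 76) (nat_lit 54098686513) (nat_lit 65) (nat_lit 5) (nat_lit 67) (nat_lit 5) (nat_lit 66) (nat_lit 4) (nat_lit 497) (nat_lit 434) (nat_lit 269)))) (XT.nd (nat_lit 156) (nat_lit 228) (nat_lit 0) (XT.nd (nat_lit 78) (nat_lit 0) (nat_lit 0) (XT.lf (nat_lit 0) (nat_lit 48934048380) (nat_lit 76) (nat_lit 36953204181) (nat_lit 152) (nat_lit 53658947844) (nat_lit 64) (nat_lit 5) (nat_lit 65) (nat_lit 5) (nat_lit 66) (nat_lit 4) (nat_lit 498) (nat_lit 434) (nat_lit 268)) (XT.lf (nat_lit 0) (nat_lit 130700587243) (nat_lit 152) (nat_lit 3875518104) (nat_lit 0) (nat_lit 9618054768) (nat_lit 64) (nat_lit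 5) (nat_lit 66) (nat_lit 4) (nat_lit 64) (nat_lit 4) (nat_lit 499) (nat_lit 434) (nat_lit 267))) (XT.nd (nat_lit 78) (nat_lit 76) (nat_lit 0) (XT.lf (nat_lit 0) (nat_lit 29795998684) (nat_lit 152) (nat_lit 60002403858) (nat_lit 76) (nat_lit 59152033010) (nat_lit 62) (nat_lit 5) (nat_lit 64) (nat_lit 5) (nat_lit 63) (nat_lit 4) (nat_lit 500) (nat_lit 434) (nat_lit 266)) (XT.lf (nat_lit 0) (nat_lit 33451890702) (nat_lit 76) (nat_lit 41932343976) (nat_lit 152) (nat_lit 78519846874) (nat_lit 61) (nat_lit 5) (nat_lit 62) (nat_lit 5) (nat_lit 63) (nat_lit 4) (nat_lit 501) (nat_lit 434) (nat_lit 265))))) (XT.nd (nat_lit 312) (nat_lit 304) (nat_lit 0) (XT.nd (nat_lit 156) (nat_lit 76) (nat_lit 0) (XT.nd (nat_lit 78) (nat_lit 152) (nat_lit 0) (XT.lf (nat_lit 0) (nat_lit 124413394667) (nat_lit 152) (nat_lit 25541786765) (nat_lit 0) (nat_lit 9092152823) (nat_lit 61) (nat_lit 5) (nat_lit 63) (nat_lit 4) (nat_lit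 61) (nat_lit 4) (nat_lit 502) (nat_lit 434) (nat_lit 264)) (XT.lf (nat_lit 0) (nat_lit 12980990642) (nat_lit 152) (nat_lit 88711583861) (nat_lit 76) (nat_lit 62651185720) (nat_lit 59) (nat_lit 5) (nat_lit 61) (nat_lit 5) (nat_lit 60) (nat_lit 4) (nat_lit 503) (nat_lit 434) (nat_lit 263))) (XT.nd (nat_lit 78) (nat_lit 0) (nat_lit 0) (XT.lf (nat_lit 0) (nat_lit 12697296801) (nat_lit 76) (nat_lit 49752078290) (nat_lit 152) (nat_lit 107395412174) (nat_lit 58) (nat_lit 5) (nat_lit 59) (nat_lit 5) (nat_lit 60) (nat_lit 4) (nat_lit 504) (nat_lit 434) (nat_lit 262)) (XT.lf (nat_lit 0) (nat_lit 115991640787) (nat_lit 152) (nat_lit 53391053700) (nat_lit 0) (nat_lit 6158148085) (nat_lit 58) (nat_lit 5) (nat_lit 60) (nat_lit 4) (nat_lit 58) (nat_lit 4) (nat_lit 505) (nat_lit 434) (nat_lit 261)))) (XT.nd (nat_lit 156) (nat_lit 152) (nat_lit 0) (XT.nd (nat_lit 78) (nat_lit 76) (nat_lit 0) (XT.lf (nat_lit 0)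 (nat_lit 56545057908) (nat_lit 76) (nat_lit 117363201452) (nat_lit 76) (nat_lit 7528579316) (nat_lit 57) (nat_lit 4) (nat_lit 58) (nat_lit 5) (nat_lit 58) (nat_lit 4) (nat_lit 506) (nat_lit 434) (nat_lit 260)) (XT.lf (nat_lit 0) (nat_lit 46503634858) (nat_lit 152) (nat_lit 14503246327) (nat_lit 76) (nat_lit 126538099015) (nat_lit 56) (nat_lit 5) (nat_lit 58) (nat_lit 5) (nat_lit 57) (nat_lit 4) (nat_lit 507) (nat_lit 434) (nat_lit 259))) (XT.nd (nat_lit 78) (nat_lit 76) (nat_lit 0) (XT.lf (nat_lit 0) (nat_lit 104617018286) (nat_lit 152) (nat_lit 89243094970) (nat_lit 0) (nat_lit 10616176) (nat_lit 55) (nat_lit 5) (nat_lit 57) (nat_lit 4) (nat_lit 55) (nat_lit 4) (nat_lit 508) (nat_lit 434) (nat_lit 258)) (XT.lf (nat_lit 0) (nat_lit 29661066171) (nat_lit 76) (nat_lit 137686722683) (nat_lit 76) (nat_lit 33079391386) (nat_lit 54) (nat_lit 4) (nat_lit 55) (nat_lit 5) (nat_lit 55) (nat_lit 4) (nat_lit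 509) (nat_lit 434) (nat_lit 257)))))) (XT.nd (nat_lit 624) (nat_lit 608) (nat_lit 0) (XT.nd (nat_lit 312) (nat_lit 228) (nat_lit 0) (XT.nd (nat_lit 156) (nat_lit 152) (nat_lit 0) (XT.nd (nat_lit 78) (nat_lit 76) (nat_lit 0) (XT.lf (nat_lit 0) (nat_lit 26609585835) (nat_lit 152) (nat_lit 50058565274) (nat_lit 76) (nat_lit 130546330068) (nat_lit 53) (nat_lit 5) (nat_lit 55) (nat_lit 5) (nat_lit 54) (nat_lit 4) (nat_lit 510) (nat_lit 434) (nat_lit 256)) (XT.lf (nat_lit 0) (nat_lit 78657483283) (nat_lit 76) (nat_lit 10740830044) (nat_lit 152) (nat_lit 124854370296) (nat_lit 52) (nat_lit 5) (nat_lit 53) (nat_lit 5) (nat_lit 54) (nat_lit 4) (nat_lit 511) (nat_lit 434) (nat_lit 255))) (XT.nd (nat_lit 78) (nat_lit 152) (nat_lit 0) (XT.lf (nat_lit 0) (nat_lit 157100147075) (nat_lit 152) (nat_lit 6982258273) (nat_lit 0) (nat_lit 57471707355) (nat_lit 52) (nat_lit 5) (nat_lit 54) (nat_lit 4) (nat_lit 52)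 (nat_lit 4) (nat_lit 512) (nat_lit 434) (nat_lit 254)) (XT.lf (nat_lit 0) (nat_lit 1273910261) (nat_lit 152) (nat_lit 97017651725) (nat_lit 76) (nat_lit 130816139520) (nat_lit 50) (nat_lit 5) (nat_lit 52) (nat_lit 5) (nat_lit 51) (nat_lit 4) (nat_lit 513) (nat_lit 434) (nat_lit 253)))) (XT.nd (nat_lit 156) (nat_lit 152) (nat_lit 0) (XT.nd (nat_lit 78) (nat_lit 0) (nat_lit 0) (XT.lf (nat_lit 0) (nat_lit 41596071466) (nat_lit 76) (nat_lit 27294627364) (nat_lit 152) (nat_lit 168057010069) (nat_lit 49) (nat_lit 5) (nat_lit 50) (nat_lit 5) (nat_lit 51) (nat_lit 4) (nat_lit 514) (nat_lit 434) (nat_lit 252)) (XT.lf (nat_lit 0) (nat_lit 142295020629) (nat_lit 152) (nat_lit 55355551663) (nat_lit 0) (nat_lit 47408809684) (nat_lit 49) (nat_lit 5) (nat_lit 51) (nat_lit 4) (nat_lit 49) (nat_lit 4) (nat_lit 515) (nat_lit 434) (nat_lit 251))) (XT.nd (nat_lit 78) (nat_lit 76) (nat_lit 0) (XT.lf (nat_lit 0) (nat_lit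 94206138815) (nat_lit 76) (nat_lit 127080722338) (nat_lit 76) (nat_lit 32193912431) (nat_lit 48) (nat_lit 4) (nat_lit 49) (nat_lit 5) (nat_lit 49) (nat_lit 4) (nat_lit 516) (nat_lit 434) (nat_lit 250)) (XT.lf (nat_lit 0) (nat_lit 41515705647) (nat_lit 152) (nat_lit 9780183769) (nat_lit 76) (nat_lit 210947039074) (nat_lit 47) (nat_lit 5) (nat_lit 49) (nat_lit 5) (nat_lit 48) (nat_lit 4) (nat_lit 517) (nat_lit 434) (nat_lit 249))))) (XT.nd (nat_lit 312) (nat_lit 304) (nat_lit 0) (XT.nd (nat_lit 156) (nat_lit 152) (nat_lit 0) (XT.nd (nat_lit 78) (nat_lit 76) (nat_lit 0) (XT.lf (nat_lit 0) (nat_lit 120682344666) (nat_lit 152) (nat_lit 120278891104) (nat_lit 0) (nat_lit 30312893595) (nat_lit 46) (nat_lit 5) (nat_lit 48) (nat_lit 4) (nat_lit 46) (nat_lit 4) (nat_lit 518) (nat_lit 434) (nat_lit 248)) (XT.lf (nat_lit 0) (nat_lit 39829693972) (nat_lit 76) (nat_lit 165607815239) (nat_lit 76) (nat_lit 75237871399)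 (nat_lit 45) (nat_lit 4) (nat_lit 46) (nat_lit 5) (nat_lit 46) (nat_lit 4) (nat_lit 519) (nat_lit 434) (nat_lit 247))) (XT.nd (nat_lit 78) (nat_lit 76) (nat_lit 0) (XT.lf (nat_lit 0) (nat_lit 5828885630) (nat_lit 152) (nat_lit 78421197598) (nat_lit 76) (nat_lit 206190106795) (nat_lit 44) (nat_lit 5) (nat_lit 46) (nat_lit 5) (nat_lit 45) (nat_lit 4) (nat_lit 520) (nat_lit 434) (nat_lit 246)) (XT.lf (nat_lit 0) (nat_lit 89948165072) (nat_lit 152) (nat_lit 206726341670) (nat_lit 0) (nat_lit 3880679265) (nat_lit 43) (nat_lit 5) (nat_lit 45) (nat_lit 4) (nat_lit 43) (nat_lit 4) (nat_lit 521) (nat_lit 434) (nat_lit 245)))) (XT.nd (nat_lit 156) (nat_lit 228) (nat_lit 0) (XT.nd (nat_lit 78) (nat_lit 76) (nat_lit 0) (XT.lf (nat_lit 0) (nat_lit 181003553353) (nat_lit 152) (nat_lit 35100209051) (nat_lit 0) (nat_lit 94935662145) (nat_lit 43) (nat_lit 5) (nat_lit 45) (nat_lit 4) (nat_lit 43) (nat_lit 4) (nat_lit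 522) (nat_lit 434) (nat_lit 244)) (XT.lf (nat_lit 0) (nat_lit 149903402354) (nat_lit 76) (nat_lit 129047885565) (nat_lit 76) (nat_lit 42979608260) (nat_lit 42) (nat_lit 4) (nat_lit 43) (nat_lit 5) (nat_lit 43) (nat_lit 4) (nat_lit 523) (nat_lit 434) (nat_lit 243))) (XT.nd (nat_lit 78) (nat_lit 76) (nat_lit 0) (XT.lf (nat_lit 0) (nat_lit 11643708143) (nat_lit 76) (nat_lit 36020854373) (nat_lit 152) (nat_lit 285625315887) (nat_lit 40) (nat_lit 5) (nat_lit 41) (nat_lit 5) (nat_lit 42) (nat_lit 4) (nat_lit 524) (nat_lit 434) (nat_lit 242)) (XT.nd (nat_lit 78) (nat_lit 76) (nat_lit 0) (XT.lf (nat_lit 0) (nat_lit 145319487386) (nat_lit 152) (nat_lit 136316930305) (nat_lit 0) (nat_lit 63349015751) (nat_lit 40) (nat_lit 5) (nat_lit 42) (nat_lit 4) (nat_lit 40) (nat_lit 4) (nat_lit 525) (nat_lit 434) (nat_lit 241)) (XT.lf (nat_lit 0) (nat_lit 59594052787) (nat_lit 76) (nat_lit 189783247812) (nat_lit 76)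 (nat_lit 107812458534) (nat_lit 39) (nat_lit 4) (nat_lit 40) (nat_lit 5) (nat_lit 40) (nat_lit 4) (nat_lit 526) (nat_lit 434) (nat_lit 240))))))))
noncomputable def xc332 : XT := (XT.nd (nat_lit 1248) (nat_lit 532) (nat_lit 0) (XT.nd (nat_lit 624) (nat_lit 456) (nat_lit 0) (XT.nd (nat_lit 312) (nat_lit 228) (nat_lit 0) (XT.nd (nat_lit 156) (nat_lit 76) (nat_lit 0) (XT.nd (nat_lit 78) (nat_lit 152) (nat_lit 0) (XT.lf (nat_lit 0) (nat_lit 270031631855) (nat_lit 76) (nat_lit 90914185210) (nat_lit 76) (nat_lit 8943093416) (nat_lit 39) (nat_lit 4) (nat_lit 40) (nat_lit 5) (nat_lit 40) (nat_lit 4) (nat_lit 527) (nat_lit 434) (nat_lit 239)) (XT.lf (nat_lit 0) (nat_lit 93800592137) (nat_lit 152) (nat_lit 273517393047) (nat_lit 0) (nat_lit 15732611274) (nat_lit 37) (nat_lit 5) (nat_lit 39) (nat_lit 4) (nat_lit 37) (nat_lit 4) (nat_lit 528) (nat_lit 434) (nat_lit 238))) (XT.nd (nat_lit 78) (nat_lit 76) (nat_lit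 0) (XT.lf (nat_lit 0) (nat_lit 204589411961) (nat_lit 152) (nat_lit 65592029769) (nat_lit 0) (nat_lit 126521169773) (nat_lit 37) (nat_lit 5) (nat_lit 39) (nat_lit 4) (nat_lit 37) (nat_lit 4) (nat_lit 529) (nat_lit 434) (nat_lit 237)) (XT.lf (nat_lit 0) (nat_lit 157778036217) (nat_lit 76) (nat_lit 165602275113) (nat_lit 76) (nat_lit 87533784044) (nat_lit 36) (nat_lit 4) (nat_lit 37) (nat_lit 5) (nat_lit 37) (nat_lit 4) (nat_lit 530) (nat_lit 434) (nat_lit 236)))) (XT.nd (nat_lit 156) (nat_lit 76) (nat_lit 0) (XT.nd (nat_lit 78) (nat_lit 76) (nat_lit 0) (XT.lf (nat_lit 0) (nat_lit 22690000618) (nat_lit 152) (nat_lit 31554226830) (nat_lit 76) (nat_lit 371518121307) (nat_lit 35) (nat_lit 5) (nat_lit 37) (nat_lit 5) (nat_lit 36) (nat_lit 4) (nat_lit 531) (nat_lit 434) (nat_lit 235)) (XT.lf (nat_lit 0) (nat_lit 139758016208) (nat_lit 152) (nat_lit 235902880458) (nat_lit 0) (nat_lit 65406631597) (nat_lit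 34) (nat_lit 5) (nat_lit 36) (nat_lit 4) (nat_lit 34) (nat_lit 4) (nat_lit 532) (nat_lit 434) (nat_lit 234))) (XT.nd (nat_lit 78) (nat_lit 76) (nat_lit 0) (XT.lf (nat_lit 0) (nat_lit 264111145281) (nat_lit 152) (nat_lit 3195679916) (nat_lit 0) (nat_lit 189759555915) (nat_lit 34) (nat_lit 5) (nat_lit 36) (nat_lit 4) (nat_lit 34) (nat_lit 4) (nat_lit 533) (nat_lit 434) (nat_lit 233)) (XT.lf (nat_lit 0) (nat_lit 249118927743) (nat_lit 76) (nat_lit 149451796775) (nat_lit 76) (nat_lit 75100012403) (nat_lit 33) (nat_lit 4) (nat_lit 34) (nat_lit 5) (nat_lit 34) (nat_lit 4) (nat_lit 534) (nat_lit 434) (nat_lit 232))))) (XT.nd (nat_lit 312) (nat_lit 228) (nat_lit 0) (XT.nd (nat_lit 156) (nat_lit 76) (nat_lit 0) (XT.nd (nat_lit 78) (nat_lit 0) (nat_lit 0) (XT.lf (nat_lit 0) (nat_lit 23033077301) (nat_lit 76) (nat_lit 24471823865) (nat_lit 152) (nat_lit 443541734402) (nat_lit 31) (nat_lit 5) (nat_lit 32)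 (nat_lit 5) (nat_lit 33) (nat_lit 4) (nat_lit 535) (nat_lit 434) (nat_lit 231)) (XT.lf (nat_lit 0) (nat_lit 179247571844) (nat_lit 152) (nat_lit 221269628399) (nat_lit 0) (nat_lit 108436003305) (nat_lit 31) (nat_lit 5) (nat_lit 33) (nat_lit 4) (nat_lit 31) (nat_lit 4) (nat_lit 536) (nat_lit 434) (nat_lit 230))) (XT.nd (nat_lit 78) (nat_lit 0) (nat_lit 0) (XT.lf (nat_lit 0) (nat_lit 38645980612) (nat_lit 76) (nat_lit 279935325881) (nat_lit 76) (nat_lit 209123596911) (nat_lit 30) (nat_lit 4) (nat_lit 31) (nat_lit 5) (nat_lit 31) (nat_lit 4) (nat_lit 537) (nat_lit 434) (nat_lit 229)) (XT.lf (nat_lit 0) (nat_lit 319238119495) (nat_lit 76) (nat_lit 149390307776) (nat_lit 76) (nat_lit 78578426015) (nat_lit 30) (nat_lit 4) (nat_lit 31) (nat_lit 5) (nat_lit 31) (nat_lit 4) (nat_lit 538) (nat_lit 434) (nat_lit 228)))) (XT.nd (nat_lit 156) (nat_lit 76) (nat_lit 0) (XT.nd (nat_lit 78) (nat_lit 0) (nat_lit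 0) (XT.lf (nat_lit 0) (nat_lit 46758066229) (nat_lit 76) (nat_lit 10593198895) (nat_lit 152) (nat_lit 510250501018) (nat_lit 28) (nat_lit 5) (nat_lit 29) (nat_lit 5) (nat_lit 30) (nat_lit 4) (nat_lit 539) (nat_lit 434) (nat_lit 227)) (XT.lf (nat_lit 0) (nat_lit 203470126446) (nat_lit 152) (nat_lit 249150249370) (nat_lit 0) (nat_lit 136029968481) (nat_lit 28) (nat_lit 5) (nat_lit 30) (nat_lit 4) (nat_lit 28) (nat_lit 4) (nat_lit 540) (nat_lit 434) (nat_lit 226))) (XT.nd (nat_lit 78) (nat_lit 0) (nat_lit 0) (XT.lf (nat_lit 0) (nat_lit 37141848976) (nat_lit 76) (nat_lit 320506068363) (nat_lit 76) (nat_lit 253065784695) (nat_lit 27) (nat_lit 4) (nat_lit 28) (nat_lit 5) (nat_lit 28) (nat_lit 4) (nat_lit 541) (nat_lit 434) (nat_lit 225)) (XT.lf (nat_lit 0) (nat_lit 346397367787) (nat_lit 76) (nat_lit 177356158417) (nat_lit 76) (nat_lit 109915755034) (nat_lit 27) (nat_lit 4) (nat_lit 28) (nat_lit 5) (nat_lit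 28) (nat_lit 4) (nat_lit 542) (nat_lit 434) (nat_lit 224)))))) (XT.nd (nat_lit 624) (nat_lit 76) (nat_lit 0) (XT.nd (nat_lit 312) (nat_lit 228) (nat_lit 0) (XT.nd (nat_lit 156) (nat_lit 76) (nat_lit 0) (XT.nd (nat_lit 78) (nat_lit 0) (nat_lit 0) (XT.lf (nat_lit 0) (nat_lit 13131604767) (nat_lit 76) (nat_lit 26171869460) (nat_lit 152) (nat_lit 618427409376) (nat_lit 25) (nat_lit 5) (nat_lit 26) (nat_lit 5) (nat_lit 27) (nat_lit 4) (nat_lit 543) (nat_lit 434) (nat_lit 223)) (XT.lf (nat_lit 0) (nat_lit 199303900381) (nat_lit 152) (nat_lit 348176131769) (nat_lit 0) (nat_lit 135074732777) (nat_lit 25) (nat_lit 5) (nat_lit 27) (nat_lit 4) (nat_lit 25) (nat_lit 4) (nat_lit 544) (nat_lit 434) (nat_lit 222))) (XT.nd (nat_lit 78) (nat_lit 76) (nat_lit 0) (XT.lf (nat_lit 0) (nat_lit 367732886701) (nat_lit 152) (nat_lit 37361906069) (nat_lit 0) (nat_lit 303503620606) (nat_lit 25) (nat_lit 5) (nat_lit 27) (nat_lit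 4) (nat_lit 25) (nat_lit 4) (nat_lit 545) (nat_lit 434) (nat_lit 221)) (XT.lf (nat_lit 0) (nat_lit 298547430608) (nat_lit 76) (nat_lit 250696569816) (nat_lit 76) (nat_lit 186467209920) (nat_lit 24) (nat_lit 4) (nat_lit 25) (nat_lit 5) (nat_lit 25) (nat_lit 4) (nat_lit 546) (nat_lit 434) (nat_lit 220)))) (XT.nd (nat_lit 156) (nat_lit 76) (nat_lit 0) (XT.nd (nat_lit 78) (nat_lit 152) (nat_lit 0) (XT.lf (nat_lit 0) (nat_lit 652548388428) (nat_lit 76) (nat_lit 87914547333) (nat_lit 76) (nat_lit 23685098103) (nat_lit 24) (nat_lit 4) (nat_lit 25) (nat_lit 5) (nat_lit 25) (nat_lit 4) (nat_lit 547) (nat_lit 434) (nat_lit 219)) (XT.lf (nat_lit 0) (nat_lit 147593596124) (nat_lit 152) (nat_lit 559622055342) (nat_lit 0) (nat_lit 86422611066) (nat_lit 22) (nat_lit 5) (nat_lit 24) (nat_lit 4) (nat_lit 22) (nat_lit 4) (nat_lit 548) (nat_lit 434) (nat_lit 218))) (XT.nd (nat_lit 78) (nat_lit 76) (nat_lit 0) (XT.lf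 (nat_lit 0) (nat_lit 330001989517) (nat_lit 152) (nat_lit 225582584859) (nat_lit 0) (nat_lit 268830927290) (nat_lit 22) (nat_lit 5) (nat_lit 24) (nat_lit 4) (nat_lit 22) (nat_lit 4) (nat_lit 549) (nat_lit 434) (nat_lit 217)) (XT.lf (nat_lit 0) (nat_lit 129296255189) (nat_lit 76) (nat_lit 394252785688) (nat_lit 76) (nat_lit 333081649965) (nat_lit 21) (nat_lit 4) (nat_lit 22) (nat_lit 5) (nat_lit 22) (nat_lit 4) (nat_lit 550) (nat_lit 434) (nat_lit 216))))) (XT.nd (nat_lit 53586) (nat_lit 0) (nat_lit 10944) (XT.nd (nat_lit 53430) (nat_lit 0) (nat_lit 10868) (XT.nd (nat_lit 78) (nat_lit 76) (nat_lit 0) (XT.lf (nat_lit 0) (nat_lit 509749877992) (nat_lit 76) (nat_lit 220843485632) (nat_lit 76) (nat_lit 159672279913) (nat_lit 21) (nat_lit 4) (nat_lit 22) (nat_lit 5) (nat_lit 22) (nat_lit 4) (nat_lit 551) (nat_lit 434) (nat_lit 215)) (XT.lf (nat_lit 0) (nat_lit 21689959224) (nat_lit 152) (nat_lit 16706855970)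 (nat_lit 76) (nat_lit 887168057315) (nat_lit 20) (nat_lit 5) (nat_lit 22) (nat_lit 5) (nat_lit 21) (nat_lit 4) (nat_lit 552) (nat_lit 434) (nat_lit 214))) (XT.nd (nat_lit 78) (nat_lit 0) (nat_lit 0) (XT.lf (nat_lit 0) (nat_lit 4075643893) (nat_lit 836) (nat_lit 3581405982) (nat_lit 836) (nat_lit 3581405982) (nat_lit 163) (nat_lit 3) (nat_lit 174) (nat_lit 3) (nat_lit 174) (nat_lit 5) (nat_lit 435) (nat_lit 435) (nat_lit 330)) (XT.lf (nat_lit 76) (nat_lit 4163481527) (nat_lit 0) (nat_lit 4385014985) (nat_lit 836) (nat_lit 14480656759) (nat_lit 164) (nat_lit 5) (nat_lit 163) (nat_lit 3) (nat_lit 174) (nat_lit 5) (nat_lit 436) (nat_lit 435) (nat_lit 329)))) (XT.nd (nat_lit 156) (nat_lit 0) (nat_lit 76) (XT.nd (nat_lit 78) (nat_lit 0) (nat_lit 0) (XT.lf (nat_lit 0) (nat_lit 9191332462) (nat_lit 760) (nat_lit 7415800686) (nat_lit 836) (nat_lit 6990586050) (nat_lit 164) (nat_lit 5) (nat_lit 174) (nat_lit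 5) (nat_lit 175) (nat_lit 5) (nat_lit 437) (nat_lit 435) (nat_lit 328)) (XT.lf (nat_lit 76) (nat_lit 4679761110) (nat_lit 0) (nat_lit 5323660236) (nat_lit 836) (nat_lit 14184437124) (nat_lit 165) (nat_lit 5) (nat_lit 164) (nat_lit 5) (nat_lit 175) (nat_lit 5) (nat_lit 438) (nat_lit 435) (nat_lit 327))) (XT.nd (nat_lit 78) (nat_lit 0) (nat_lit 0) (XT.lf (nat_lit 0) (nat_lit 11078129458) (nat_lit 760) (nat_lit 7272626975) (nat_lit 836) (nat_lit 6445648108) (nat_lit 165) (nat_lit 5) (nat_lit 175) (nat_lit 5) (nat_lit 176) (nat_lit 5) (nat_lit 439) (nat_lit 435) (nat_lit 326)) (XT.nd (nat_lit 78) (nat_lit 0) (nat_lit 76) (XT.lf (nat_lit 76) (nat_lit 5663815501) (nat_lit 0) (nat_lit 6711323429) (nat_lit 836) (nat_lit 13051811235) (nat_lit 166) (nat_lit 5) (nat_lit 165) (nat_lit 5) (nat_lit 176) (nat_lit 5) (nat_lit 440) (nat_lit 435) (nat_lit 325)) (XT.lf (nat_lit 0) (nat_lit 13941375432) (nat_lit 760)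 (nat_lit 6676448100) (nat_lit 836) (nat_lit 5460981234) (nat_lit 166) (nat_lit 5) (nat_lit 176) (nat_lit 5) (nat_lit 177) (nat_lit 5) (nat_lit 441) (nat_lit 435) (nat_lit 324))))))))
noncomputable def xc333 : XT := (XT.nd (nat_lit 1248) (nat_lit 2432) (nat_lit 0) (XT.nd (nat_lit 624) (nat_lit 1368) (nat_lit 0) (XT.nd (nat_lit 312) (nat_lit 1520) (nat_lit 0) (XT.nd (nat_lit 156) (nat_lit 0) (nat_lit 76) (XT.nd (nat_lit 78) (nat_lit 0) (nat_lit 76) (XT.lf (nat_lit 76) (nat_lit 7179476638) (nat_lit 0) (nat_lit 8622050261) (nat_lit 836) (nat_lit 10950945537) (nat_lit 167) (nat_lit 5) (nat_lit 166) (nat_lit 5) (nat_lit 177) (nat_lit 5) (nat_lit 442) (nat_lit 435) (nat_lit 323)) (XT.lf (nat_lit 0) (nat_lit 17925394355) (nat_lit 760) (nat_lit 5563194090) (nat_lit 836) (nat_lit 3962700098) (nat_lit 167) (nat_lit 5) (nat_lit 177) (nat_lit 5) (nat_lit 178) (nat_lit 5) (nat_lit 443) (nat_lit 435) (nat_lit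 322))) (XT.nd (nat_lit 78) (nat_lit 0) (nat_lit 76) (XT.lf (nat_lit 76) (nat_lit 9298484459) (nat_lit 0) (nat_lit 11137537206) (nat_lit 836) (nat_lit 7734995917) (nat_lit 168) (nat_lit 5) (nat_lit 167) (nat_lit 5) (nat_lit 178) (nat_lit 5) (nat_lit 444) (nat_lit 435) (nat_lit 321)) (XT.lf (nat_lit 0) (nat_lit 23190797687) (nat_lit 760) (nat_lit 3860867960) (nat_lit 76) (nat_lit 1869136988) (nat_lit 168) (nat_lit 5) (nat_lit 178) (nat_lit 5) (nat_lit 169) (nat_lit 5) (nat_lit 445) (nat_lit 435) (nat_lit 320)))) (XT.nd (nat_lit 156) (nat_lit 912) (nat_lit 0) (XT.nd (nat_lit 78) (nat_lit 0) (nat_lit 0) (XT.lf (nat_lit 0) (nat_lit 12101255015) (nat_lit 760) (nat_lit 14348116830) (nat_lit 836) (nat_lit 3240402539) (nat_lit 158) (nat_lit 5) (nat_lit 168) (nat_lit 5) (nat_lit 169) (nat_lit 5) (nat_lit 446) (nat_lit 435) (nat_lit 319)) (XT.lf (nat_lit 0) (nat_lit 28990744519) (nat_lit 760) (nat_lit 940243374)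 (nat_lit 836) (nat_lit 563201558) (nat_lit 158) (nat_lit 5) (nat_lit 168) (nat_lit 5) (nat_lit 169) (nat_lit 5) (nat_lit 447) (nat_lit 435) (nat_lit 318))) (XT.nd (nat_lit 78) (nat_lit 380) (nat_lit 0) (XT.lf (nat_lit 0) (nat_lit 2628087366) (nat_lit 532) (nat_lit 15681234165) (nat_lit 76) (nat_lit 13005140650) (nat_lit 151) (nat_lit 5) (nat_lit 158) (nat_lit 5) (nat_lit 152) (nat_lit 5) (nat_lit 448) (nat_lit 435) (nat_lit 317)) (XT.lf (nat_lit 0) (nat_lit 1523247671) (nat_lit 380) (nat_lit 4496911686) (nat_lit 456) (nat_lit 26152120594) (nat_lit 146) (nat_lit 5) (nat_lit 151) (nat_lit 5) (nat_lit 152) (nat_lit 5) (nat_lit 449) (nat_lit 435) (nat_lit 316))))) (XT.nd (nat_lit 312) (nat_lit 684) (nat_lit 0) (XT.nd (nat_lit 156) (nat_lit 304) (nat_lit 0) (XT.nd (nat_lit 78) (nat_lit 380) (nat_lit 0) (XT.lf (nat_lit 0) (nat_lit 10003211047) (nat_lit 456) (nat_lit 13092972791) (nat_lit 76) (nat_lit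 9955736286) (nat_lit 146) (nat_lit 5) (nat_lit 152) (nat_lit 5) (nat_lit 147) (nat_lit 5) (nat_lit 450) (nat_lit 435) (nat_lit 315)) (XT.lf (nat_lit 0) (nat_lit 5436351643) (nat_lit 380) (nat_lit 8903117048) (nat_lit 456) (nat_lit 19628371252) (nat_lit 141) (nat_lit 5) (nat_lit 146) (nat_lit 5) (nat_lit 147) (nat_lit 5) (nat_lit 451) (nat_lit 435) (nat_lit 314))) (XT.nd (nat_lit 78) (nat_lit 304) (nat_lit 0) (XT.lf (nat_lit 0) (nat_lit 19207174612) (nat_lit 456) (nat_lit 9674026616) (nat_lit 76) (nat_lit 6032623046) (nat_lit 141) (nat_lit 5) (nat_lit 147) (nat_lit 5) (nat_lit 142) (nat_lit 5) (nat_lit 452) (nat_lit 435) (nat_lit 313)) (XT.lf (nat_lit 0) (nat_lit 10305478146) (nat_lit 304) (nat_lit 14315441562) (nat_lit 380) (nat_lit 11271055696) (nat_lit 137) (nat_lit 5) (nat_lit 141) (nat_lit 5) (nat_lit 142) (nat_lit 5) (nat_lit 453) (nat_lit 435) (nat_lit 312)))) (XT.nd (nat_lit 156) (nat_lit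 380) (nat_lit 0) (XT.nd (nat_lit 78) (nat_lit 304) (nat_lit 0) (XT.lf (nat_lit 0) (nat_lit 30483073155) (nat_lit 380) (nat_lit 5313824085) (nat_lit 76) (nat_lit 1113251058) (nat_lit 137) (nat_lit 5) (nat_lit 142) (nat_lit 5) (nat_lit 138) (nat_lit 5) (nat_lit 454) (nat_lit 435) (nat_lit 311)) (XT.lf (nat_lit 0) (nat_lit 16253408598) (nat_lit 304) (nat_lit 20869482668) (nat_lit 380) (nat_lit 832110975) (nat_lit 133) (nat_lit 5) (nat_lit 137) (nat_lit 5) (nat_lit 138) (nat_lit 5) (nat_lit 455) (nat_lit 435) (nat_lit 310))) (XT.nd (nat_lit 78) (nat_lit 304) (nat_lit 0) (XT.lf (nat_lit 0) (nat_lit 4968842659) (nat_lit 380) (nat_lit 48974794) (nat_lit 76) (nat_lit 34025963398) (nat_lit 132) (nat_lit 5) (nat_lit 137) (nat_lit 5) (nat_lit 133) (nat_lit 5) (nat_lit 456) (nat_lit 435) (nat_lit 309)) (XT.lf (nat_lit 0) (nat_lit 11581572876) (nat_lit 380) (nat_lit 16938233771) (nat_lit 76) (nat_lit 11639025238)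 (nat_lit 128) (nat_lit 5) (nat_lit 133) (nat_lit 5) (nat_lit 129) (nat_lit 5) (nat_lit 457) (nat_lit 435) (nat_lit 308)))))) (XT.nd (nat_lit 624) (nat_lit 1064) (nat_lit 0) (XT.nd (nat_lit 312) (nat_lit 836) (nat_lit 0) (XT.nd (nat_lit 156) (nat_lit 228) (nat_lit 0) (XT.nd (nat_lit 78) (nat_lit 0) (nat_lit 0) (XT.lf (nat_lit 0) (nat_lit 6445241868) (nat_lit 304) (nat_lit 12259872114) (nat_lit 380) (nat_lit 22615512978) (nat_lit 124) (nat_lit 5) (nat_lit 128) (nat_lit 5) (nat_lit 129) (nat_lit 5) (nat_lit 458) (nat_lit 435) (nat_lit 307)) (XT.lf (nat_lit 0) (nat_lit 26548065188) (nat_lit 380) (nat_lit 11024681875) (nat_lit 76) (nat_lit 4949603270) (nat_lit 124) (nat_lit 5) (nat_lit 129) (nat_lit 5) (nat_lit 125) (nat_lit 5) (nat_lit 459) (nat_lit 435) (nat_lit 306))) (XT.nd (nat_lit 78) (nat_lit 0) (nat_lit 0) (XT.lf (nat_lit 0) (nat_lit 14269907292) (nat_lit 228) (nat_lit 20933724694) (nat_lit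 304) (nat_lit 8559504674) (nat_lit 121) (nat_lit 5) (nat_lit 124) (nat_lit 5) (nat_lit 125) (nat_lit 5) (nat_lit 460) (nat_lit 435) (nat_lit 305)) (XT.lf (nat_lit 0) (nat_lit 41207654993) (nat_lit 228) (nat_lit 3267813699) (nat_lit 304) (nat_lit 581319210) (nat_lit 121) (nat_lit 5) (nat_lit 124) (nat_lit 5) (nat_lit 125) (nat_lit 5) (nat_lit 461) (nat_lit 435) (nat_lit 304)))) (XT.nd (nat_lit 156) (nat_lit 228) (nat_lit 0) (XT.nd (nat_lit 78) (nat_lit 228) (nat_lit 0) (XT.lf (nat_lit 0) (nat_lit 8159961208) (nat_lit 380) (nat_lit 22927209093) (nat_lit 76) (nat_lit 15291180913) (nat_lit 116) (nat_lit 5) (nat_lit 121) (nat_lit 5) (nat_lit 117) (nat_lit 5) (nat_lit 462) (nat_lit 435) (nat_lit 303)) (XT.lf (nat_lit 0) (nat_lit 4564983205) (nat_lit 228) (nat_lit 12941836752) (nat_lit 304) (nat_lit 30249293877) (nat_lit 113) (nat_lit 5) (nat_lit 116) (nat_lit 5) (nat_lit 117) (nat_lit 5) (nat_lit 463)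 (nat_lit 435) (nat_lit 302))) (XT.nd (nat_lit 78) (nat_lit 228) (nat_lit 0) (XT.lf (nat_lit 0) (nat_lit 27808088260) (nat_lit 304) (nat_lit 15061702116) (nat_lit 76) (nat_lit 6308621024) (nat_lit 113) (nat_lit 5) (nat_lit 117) (nat_lit 5) (nat_lit 114) (nat_lit 5) (nat_lit 464) (nat_lit 435) (nat_lit 301)) (XT.lf (nat_lit 0) (nat_lit 14729327698) (nat_lit 228) (nat_lit 24334373708) (nat_lit 304) (nat_lit 11586158506) (nat_lit 110) (nat_lit 5) (nat_lit 113) (nat_lit 5) (nat_lit 114) (nat_lit 5) (nat_lit 465) (nat_lit 435) (nat_lit 300))))) (XT.nd (nat_lit 312) (nat_lit 608) (nat_lit 0) (XT.nd (nat_lit 156) (nat_lit 228) (nat_lit 0) (XT.nd (nat_lit 78) (nat_lit 228) (nat_lit 0) (XT.lf (nat_lit 0) (nat_lit 46528744717) (nat_lit 228) (nat_lit 4605653729) (nat_lit 304) (nat_lit 1047867377) (nat_lit 110) (nat_lit 5) (nat_lit 113) (nat_lit 5) (nat_lit 114) (nat_lit 5) (nat_lit 466) (nat_lit 435) (nat_lit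 299)) (XT.lf (nat_lit 0) (nat_lit 10373773884) (nat_lit 228) (nat_lit 27198546761) (nat_lit 76) (nat_lit 16177298919) (nat_lit 107) (nat_lit 5) (nat_lit 110) (nat_lit 5) (nat_lit 108) (nat_lit 5) (nat_lit 467) (nat_lit 435) (nat_lit 298))) (XT.nd (nat_lit 78) (nat_lit 0) (nat_lit 0) (XT.lf (nat_lit 0) (nat_lit 5241103404) (nat_lit 228) (nat_lit 17342185675) (nat_lit 304) (nat_lit 32798592767) (nat_lit 104) (nat_lit 5) (nat_lit 107) (nat_lit 5) (nat_lit 108) (nat_lit 5) (nat_lit 468) (nat_lit 435) (nat_lit 297)) (XT.lf (nat_lit 0) (nat_lit 35929737226) (nat_lit 304) (nat_lit 16898207742) (nat_lit 76) (nat_lit 4241489525) (nat_lit 104) (nat_lit 5) (nat_lit 108) (nat_lit 5) (nat_lit 105) (nat_lit 5) (nat_lit 469) (nat_lit 435) (nat_lit 296)))) (XT.nd (nat_lit 156) (nat_lit 380) (nat_lit 0) (XT.nd (nat_lit 78) (nat_lit 76) (nat_lit 0) (XT.lf (nat_lit 0) (nat_lit 18304177414) (nat_lit 152) (nat_lit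 32206935660) (nat_lit 228) (nat_lit 8301871535) (nat_lit 102) (nat_lit 5) (nat_lit 104) (nat_lit 5) (nat_lit 105) (nat_lit 5) (nat_lit 470) (nat_lit 435) (nat_lit 295)) (XT.lf (nat_lit 0) (nat_lit 5300539250) (nat_lit 228) (nat_lit 4865468810) (nat_lit 76) (nat_lit 50459241376) (nat_lit 101) (nat_lit 5) (nat_lit 104) (nat_lit 5) (nat_lit 102) (nat_lit 5) (nat_lit 471) (nat_lit 435) (nat_lit 294))) (XT.nd (nat_lit 78) (nat_lit 152) (nat_lit 0) (XT.lf (nat_lit 0) (nat_lit 20038032487) (nat_lit 304) (nat_lit 29216481234) (nat_lit 76) (nat_lit 13230111098) (nat_lit 98) (nat_lit 5) (nat_lit 102) (nat_lit 5) (nat_lit 99) (nat_lit 5) (nat_lit 472) (nat_lit 435) (nat_lit 293)) (XT.nd (nat_lit 78) (nat_lit 0) (nat_lit 0) (XT.lf (nat_lit 0) (nat_lit 9166141435) (nat_lit 152) (nat_lit 26737470359) (nat_lit 228) (nat_lit 28513796693) (nat_lit 96) (nat_lit 5) (nat_lit 98) (nat_lit 5) (nat_lit 99) (nat_lit 5)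 (nat_lit 473) (nat_lit 435) (nat_lit 292)) (XT.lf (nat_lit 0) (nat_lit 50478554344) (nat_lit 152) (nat_lit 2576459854) (nat_lit 228) (nat_lit 13367190016) (nat_lit 96) (nat_lit 5) (nat_lit 98) (nat_lit 5) (nat_lit 99) (nat_lit 5) (nat_lit 474) (nat_lit 435) (nat_lit 291))))))))
noncomputable def xc334 : XT := (XT.nd (nat_lit 1248) (nat_lit 1292) (nat_lit 0) (XT.nd (nat_lit 624) (nat_lit 760) (nat_lit 0) (XT.nd (nat_lit 312) (nat_lit 380) (nat_lit 0) (XT.nd (nat_lit 156) (nat_lit 304) (nat_lit 0) (XT.nd (nat_lit 78) (nat_lit 0) (nat_lit 0) (XT.lf (nat_lit 0) (nat_lit 3224387513) (nat_lit 228) (nat_lit 42745897197) (nat_lit 76) (nat_lit 22516533190) (nat_lit 93) (nat_lit 5) (nat_lit 96) (nat_lit 5) (nat_lit 94) (nat_lit 5) (nat_lit 475) (nat_lit 435) (nat_lit 290)) (XT.lf (nat_lit 0) (nat_lit 20510843858) (nat_lit 228) (nat_lit 847307958) (nat_lit 76) (nat_lit 49269827555) (nat_lit 93) (nat_lit 5)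 (nat_lit 96) (nat_lit 5) (nat_lit 94) (nat_lit 5) (nat_lit 476) (nat_lit 435) (nat_lit 289))) (XT.nd (nat_lit 78) (nat_lit 152) (nat_lit 0) (XT.lf (nat_lit 0) (nat_lit 39436828036) (nat_lit 228) (nat_lit 28353630390) (nat_lit 76) (nat_lit 5046980305) (nat_lit 91) (nat_lit 5) (nat_lit 94) (nat_lit 5) (nat_lit 92) (nat_lit 5) (nat_lit 477) (nat_lit 435) (nat_lit 288)) (XT.lf (nat_lit 0) (nat_lit 17149311258) (nat_lit 152) (nat_lit 42790241803) (nat_lit 228) (nat_lit 15186295981) (nat_lit 89) (nat_lit 5) (nat_lit 91) (nat_lit 5) (nat_lit 92) (nat_lit 5) (nat_lit 478) (nat_lit 435) (nat_lit 287)))) (XT.nd (nat_lit 156) (nat_lit 152) (nat_lit 0) (XT.nd (nat_lit 78) (nat_lit 152) (nat_lit 0) (XT.lf (nat_lit 0) (nat_lit 4298709979) (nat_lit 228) (nat_lit 11665722734) (nat_lit 76) (nat_lit 61536870498) (nat_lit 88) (nat_lit 5) (nat_lit 91) (nat_lit 5) (nat_lit 89) (nat_lit 5) (nat_lit 479) (nat_lit 435)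 (nat_lit 286)) (XT.lf (nat_lit 0) (nat_lit 25042042715) (nat_lit 228) (nat_lit 42235730855) (nat_lit 76) (nat_lit 12665587010) (nat_lit 86) (nat_lit 5) (nat_lit 89) (nat_lit 5) (nat_lit 87) (nat_lit 5) (nat_lit 480) (nat_lit 435) (nat_lit 285))) (XT.nd (nat_lit 78) (nat_lit 0) (nat_lit 0) (XT.lf (nat_lit 0) (nat_lit 7426442270) (nat_lit 152) (nat_lit 39972663552) (nat_lit 228) (nat_lit 35079586861) (nat_lit 84) (nat_lit 5) (nat_lit 86) (nat_lit 5) (nat_lit 87) (nat_lit 5) (nat_lit 481) (nat_lit 435) (nat_lit 284)) (XT.lf (nat_lit 0) (nat_lit 61034792456) (nat_lit 152) (nat_lit 10552652424) (nat_lit 228) (nat_lit 13517675424) (nat_lit 84) (nat_lit 5) (nat_lit 86) (nat_lit 5) (nat_lit 87) (nat_lit 5) (nat_lit 482) (nat_lit 435) (nat_lit 283))))) (XT.nd (nat_lit 312) (nat_lit 380) (nat_lit 0) (XT.nd (nat_lit 156) (nat_lit 228) (nat_lit 0) (XT.nd (nat_lit 78) (nat_lit 0) (nat_lit 0) (XT.lf (nat_lit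 0) (nat_lit 9628987472) (nat_lit 152) (nat_lit 57875410224) (nat_lit 76) (nat_lit 20311419021) (nat_lit 82) (nat_lit 5) (nat_lit 84) (nat_lit 5) (nat_lit 83) (nat_lit 5) (nat_lit 483) (nat_lit 435) (nat_lit 282)) (XT.lf (nat_lit 0) (nat_lit 34064236345) (nat_lit 152) (nat_lit 3558780198) (nat_lit 76) (nat_lit 52998674623) (nat_lit 82) (nat_lit 5) (nat_lit 84) (nat_lit 5) (nat_lit 83) (nat_lit 5) (nat_lit 484) (nat_lit 435) (nat_lit 281))) (XT.nd (nat_lit 78) (nat_lit 76) (nat_lit 0) (XT.lf (nat_lit 0) (nat_lit 55238632880) (nat_lit 152) (nat_lit 5343345360) (nat_lit 228) (nat_lit 32942844609) (nat_lit 80) (nat_lit 5) (nat_lit 82) (nat_lit 5) (nat_lit 83) (nat_lit 5) (nat_lit 485) (nat_lit 435) (nat_lit 280)) (XT.lf (nat_lit 0) (nat_lit 20743511798) (nat_lit 76) (nat_lit 68511282367) (nat_lit 152) (nat_lit 7276857644) (nat_lit 79) (nat_lit 5) (nat_lit 80) (nat_lit 5) (nat_lit 81) (nat_lit 4) (nat_lit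 486) (nat_lit 435) (nat_lit 279)))) (XT.nd (nat_lit 156) (nat_lit 152) (nat_lit 0) (XT.nd (nat_lit 78) (nat_lit 152) (nat_lit 0) (XT.lf (nat_lit 0) (nat_lit 19787729440) (nat_lit 152) (nat_lit 16010910750) (nat_lit 76) (nat_lit 63837577907) (nat_lit 78) (nat_lit 5) (nat_lit 80) (nat_lit 5) (nat_lit 79) (nat_lit 5) (nat_lit 487) (nat_lit 435) (nat_lit 278)) (XT.lf (nat_lit 0) (nat_lit 48174879453) (nat_lit 152) (nat_lit 536662064) (nat_lit 228) (nat_lit 54140979293) (nat_lit 76) (nat_lit 5) (nat_lit 78) (nat_lit 5) (nat_lit 79) (nat_lit 5) (nat_lit 488) (nat_lit 435) (nat_lit 277))) (XT.nd (nat_lit 78) (nat_lit 76) (nat_lit 0) (XT.lf (nat_lit 0) (nat_lit 9641274058) (nat_lit 76) (nat_lit 70434493783) (nat_lit 152) (nat_lit 26104159665) (nat_lit 75) (nat_lit 5) (nat_lit 76) (nat_lit 5) (nat_lit 77) (nat_lit 4) (nat_lit 489) (nat_lit 435) (nat_lit 276)) (XT.lf (nat_lit 0) (nat_lit 4176163875) (nat_lit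 152) (nat_lit 30631945786) (nat_lit 76) (nat_lit 74815572472) (nat_lit 74) (nat_lit 5) (nat_lit 76) (nat_lit 5) (nat_lit 75) (nat_lit 5) (nat_lit 490) (nat_lit 435) (nat_lit 275)))))) (XT.nd (nat_lit 624) (nat_lit 608) (nat_lit 0) (XT.nd (nat_lit 312) (nat_lit 228) (nat_lit 0) (XT.nd (nat_lit 156) (nat_lit 304) (nat_lit 0) (XT.nd (nat_lit 78) (nat_lit 0) (nat_lit 0) (XT.lf (nat_lit 0) (nat_lit 35764543639) (nat_lit 228) (nat_lit 73844774396) (nat_lit 76) (nat_lit 3575344083) (nat_lit 72) (nat_lit 5) (nat_lit 75) (nat_lit 5) (nat_lit 73) (nat_lit 4) (nat_lit 491) (nat_lit 435) (nat_lit 274)) (XT.lf (nat_lit 0) (nat_lit 70028740589) (nat_lit 228) (nat_lit 3605888763) (nat_lit 76) (nat_lit 43234241866) (nat_lit 72) (nat_lit 5) (nat_lit 75) (nat_lit 5) (nat_lit 73) (nat_lit 4) (nat_lit 492) (nat_lit 435) (nat_lit 273))) (XT.nd (nat_lit 78) (nat_lit 228) (nat_lit 0) (XT.lf (nat_lit 0) (nat_lit 72461502941)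 (nat_lit 76) (nat_lit 34674545153) (nat_lit 152) (nat_lit 13544747669) (nat_lit 71) (nat_lit 5) (nat_lit 72) (nat_lit 5) (nat_lit 73) (nat_lit 4) (nat_lit 493) (nat_lit 435) (nat_lit 272)) (XT.lf (nat_lit 0) (nat_lit 21344248944) (nat_lit 228) (nat_lit 96406062105) (nat_lit 76) (nat_lit 6885574227) (nat_lit 68) (nat_lit 5) (nat_lit 71) (nat_lit 5) (nat_lit 69) (nat_lit 4) (nat_lit 494) (nat_lit 435) (nat_lit 271)))) (XT.nd (nat_lit 156) (nat_lit 152) (nat_lit 0) (XT.nd (nat_lit 78) (nat_lit 76) (nat_lit 0) (XT.lf (nat_lit 0) (nat_lit 58919527834) (nat_lit 228) (nat_lit 19378976581) (nat_lit 76) (nat_lit 50409271379) (nat_lit 68) (nat_lit 5) (nat_lit 71) (nat_lit 5) (nat_lit 69) (nat_lit 4) (nat_lit 495) (nat_lit 435) (nat_lit 270)) (XT.lf (nat_lit 0) (nat_lit 63530285562) (nat_lit 76) (nat_lit 35833823666) (nat_lit 152) (nat_lit 33569624703) (nat_lit 67) (nat_lit 5) (nat_lit 68) (nat_lit 5) (nat_lit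 69) (nat_lit 4) (nat_lit 496) (nat_lit 435) (nat_lit 269))) (XT.nd (nat_lit 78) (nat_lit 0) (nat_lit 0) (XT.lf (nat_lit 0) (nat_lit 5019330086) (nat_lit 152) (nat_lit 123203865377) (nat_lit 76) (nat_lit 9109205633) (nat_lit 65) (nat_lit 5) (nat_lit 67) (nat_lit 5) (nat_lit 66) (nat_lit 4) (nat_lit 497) (nat_lit 435) (nat_lit 268)) (XT.lf (nat_lit 0) (nat_lit 46190324835) (nat_lit 152) (nat_lit 38805165868) (nat_lit 76) (nat_lit 56838957260) (nat_lit 65) (nat_lit 5) (nat_lit 67) (nat_lit 5) (nat_lit 66) (nat_lit 4) (nat_lit 498) (nat_lit 435) (nat_lit 267))))) (XT.nd (nat_lit 312) (nat_lit 304) (nat_lit 0) (XT.nd (nat_lit 156) (nat_lit 228) (nat_lit 0) (XT.nd (nat_lit 78) (nat_lit 0) (nat_lit 0) (XT.lf (nat_lit 0) (nat_lit 51458014703) (nat_lit 76) (nat_lit 38763984616) (nat_lit 152) (nat_lit 56299491371) (nat_lit 64) (nat_lit 5) (nat_lit 65) (nat_lit 5) (nat_lit 66) (nat_lit 4) (nat_lit 499) (nat_lit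 435) (nat_lit 266)) (XT.lf (nat_lit 0) (nat_lit 137274626060) (nat_lit 152) (nat_lit 3994334159) (nat_lit 0) (nat_lit 10132956926) (nat_lit 64) (nat_lit 5) (nat_lit 66) (nat_lit 4) (nat_lit 64) (nat_lit 4) (nat_lit 500) (nat_lit 435) (nat_lit 265))) (XT.nd (nat_lit 78) (nat_lit 76) (nat_lit 0) (XT.lf (nat_lit 0) (nat_lit 31324730324) (nat_lit 152) (nat_lit 62927485517) (nat_lit 76) (nat_lit 62143794448) (nat_lit 62) (nat_lit 5) (nat_lit 64) (nat_lit 5) (nat_lit 63) (nat_lit 4) (nat_lit 501) (nat_lit 435) (nat_lit 264)) (XT.lf (nat_lit 0) (nat_lit 35198313471) (nat_lit 76) (nat_lit 43993363420) (nat_lit 152) (nat_lit 82405696780) (nat_lit 61) (nat_lit 5) (nat_lit 62) (nat_lit 5) (nat_lit 63) (nat_lit 4) (nat_lit 502) (nat_lit 435) (nat_lit 263)))) (XT.nd (nat_lit 156) (nat_lit 152) (nat_lit 0) (XT.nd (nat_lit 78) (nat_lit 152) (nat_lit 0) (XT.lf (nat_lit 0) (nat_lit 130671003697) (nat_lit 152) (nat_lit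 26747271901) (nat_lit 0) (nat_lit 9579577992) (nat_lit 61) (nat_lit 5) (nat_lit 63) (nat_lit 4) (nat_lit 61) (nat_lit 4) (nat_lit 503) (nat_lit 435) (nat_lit 262)) (XT.lf (nat_lit 0) (nat_lit 13666915505) (nat_lit 152) (nat_lit 93075494118) (nat_lit 76) (nat_lit 65816694468) (nat_lit 59) (nat_lit 5) (nat_lit 61) (nat_lit 5) (nat_lit 60) (nat_lit 4) (nat_lit 504) (nat_lit 435) (nat_lit 261))) (XT.nd (nat_lit 78) (nat_lit 76) (nat_lit 0) (XT.lf (nat_lit 0) (nat_lit 13402674627) (nat_lit 76) (nat_lit 52205389488) (nat_lit 152) (nat_lit 112727151144) (nat_lit 58) (nat_lit 5) (nat_lit 59) (nat_lit 5) (nat_lit 60) (nat_lit 4) (nat_lit 505) (nat_lit 435) (nat_lit 260)) (XT.nd (nat_lit 78) (nat_lit 76) (nat_lit 0) (XT.lf (nat_lit 0) (nat_lit 121826228230) (nat_lit 152) (nat_lit 55992235956) (nat_lit 0) (nat_lit 6497669904) (nat_lit 58) (nat_lit 5) (nat_lit 60) (nat_lit 4) (nat_lit 58) (nat_lit 4) (nat_lit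 506) (nat_lit 435) (nat_lit 259)) (XT.lf (nat_lit 0) (nat_lit 59439578483) (nat_lit 76) (nat_lit 123198482561) (nat_lit 76) (nat_lit 7868899806) (nat_lit 57) (nat_lit 4) (nat_lit 58) (nat_lit 5) (nat_lit 58) (nat_lit 4) (nat_lit 507) (nat_lit 435) (nat_lit 258))))))))
noncomputable def xc335 : XT := (XT.nd (nat_lit 1248) (nat_lit 1140) (nat_lit 0) (XT.nd (nat_lit 624) (nat_lit 456) (nat_lit 0) (XT.nd (nat_lit 312) (nat_lit 304) (nat_lit 0) (XT.nd (nat_lit 156) (nat_lit 152) (nat_lit 0) (XT.nd (nat_lit 78) (nat_lit 76) (nat_lit 0) (XT.lf (nat_lit 0) (nat_lit 48862104962) (nat_lit 152) (nat_lit 15163243229) (nat_lit 76) (nat_lit 132895216306) (nat_lit 56) (nat_lit 5) (nat_lit 58) (nat_lit 5) (nat_lit 57) (nat_lit 4) (nat_lit 508) (nat_lit 435) (nat_lit 257)) (XT.lf (nat_lit 0) (nat_lit 109881063807) (nat_lit 152) (nat_lit 93639990270) (nat_lit 0) (nat_lit 41551817) (nat_lit 55) (nat_lit 5) (nat_lit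 57) (nat_lit 4) (nat_lit 55) (nat_lit 4) (nat_lit 509) (nat_lit 435) (nat_lit 256))) (XT.nd (nat_lit 78) (nat_lit 76) (nat_lit 0) (XT.lf (nat_lit 0) (nat_lit 31208326357) (nat_lit 76) (nat_lit 144539468301) (nat_lit 76) (nat_lit 34699113510) (nat_lit 54) (nat_lit 4) (nat_lit 55) (nat_lit 5) (nat_lit 55) (nat_lit 4) (nat_lit 510) (nat_lit 435) (nat_lit 255)) (XT.lf (nat_lit 0) (nat_lit 27971637806) (nat_lit 152) (nat_lit 52499299954) (nat_lit 76) (nat_lit 137102688601) (nat_lit 53) (nat_lit 5) (nat_lit 55) (nat_lit 5) (nat_lit 54) (nat_lit 4) (nat_lit 511) (nat_lit 435) (nat_lit 254)))) (XT.nd (nat_lit 156) (nat_lit 228) (nat_lit 0) (XT.nd (nat_lit 78) (nat_lit 0) (nat_lit 0) (XT.lf (nat_lit 0) (nat_lit 82651547909) (nat_lit 76) (nat_lit 11247705657) (nat_lit 152) (nat_lit 131064512779) (nat_lit 52) (nat_lit 5) (nat_lit 53) (nat_lit 5) (nat_lit 54) (nat_lit 4) (nat_lit 512) (nat_lit 435) (nat_lit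 253)) (XT.lf (nat_lit 0) (nat_lit 164985150187) (nat_lit 152) (nat_lit 7272065524) (nat_lit 0) (nat_lit 60373102620) (nat_lit 52) (nat_lit 5) (nat_lit 54) (nat_lit 4) (nat_lit 52) (nat_lit 4) (nat_lit 513) (nat_lit 435) (nat_lit 252))) (XT.nd (nat_lit 78) (nat_lit 76) (nat_lit 0) (XT.lf (nat_lit 0) (nat_lit 1367567611) (nat_lit 152) (nat_lit 101809194319) (nat_lit 76) (nat_lit 137384826362) (nat_lit 50) (nat_lit 5) (nat_lit 52) (nat_lit 5) (nat_lit 51) (nat_lit 4) (nat_lit 514) (nat_lit 435) (nat_lit 251)) (XT.lf (nat_lit 0) (nat_lit 43734257935) (nat_lit 76) (nat_lit 28630422439) (nat_lit 152) (nat_lit 176428941450) (nat_lit 49) (nat_lit 5) (nat_lit 50) (nat_lit 5) (nat_lit 51) (nat_lit 4) (nat_lit 515) (nat_lit 435) (nat_lit 250))))) (XT.nd (nat_lit 312) (nat_lit 228) (nat_lit 0) (XT.nd (nat_lit 156) (nat_lit 152) (nat_lit 0) (XT.nd (nat_lit 78) (nat_lit 76) (nat_lit 0) (XT.lf (nat_lit 0) (nat_lit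 149438246309) (nat_lit 152) (nat_lit 58066754352) (nat_lit 0) (nat_lit 49805926502) (nat_lit 49) (nat_lit 5) (nat_lit 51) (nat_lit 4) (nat_lit 49) (nat_lit 4) (nat_lit 516) (nat_lit 435) (nat_lit 249)) (XT.lf (nat_lit 0) (nat_lit 98972108152) (nat_lit 76) (nat_lit 133407083817) (nat_lit 76) (nat_lit 33774220734) (nat_lit 48) (nat_lit 4) (nat_lit 49) (nat_lit 5) (nat_lit 49) (nat_lit 4) (nat_lit 517) (nat_lit 435) (nat_lit 248))) (XT.nd (nat_lit 78) (nat_lit 76) (nat_lit 0) (XT.lf (nat_lit 0) (nat_lit 43618583063) (nat_lit 152) (nat_lit 10215285208) (nat_lit 76) (nat_lit 221519851881) (nat_lit 47) (nat_lit 5) (nat_lit 49) (nat_lit 5) (nat_lit 48) (nat_lit 4) (nat_lit 518) (nat_lit 435) (nat_lit 247)) (XT.lf (nat_lit 0) (nat_lit 126743504313) (nat_lit 152) (nat_lit 126238878041) (nat_lit 0) (nat_lit 31854101211) (nat_lit 46) (nat_lit 5) (nat_lit 48) (nat_lit 4) (nat_lit 46) (nat_lit 4) (nat_lit 519)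 (nat_lit 435) (nat_lit 246)))) (XT.nd (nat_lit 156) (nat_lit 76) (nat_lit 0) (XT.nd (nat_lit 78) (nat_lit 76) (nat_lit 0) (XT.lf (nat_lit 0) (nat_lit 41874266005) (nat_lit 76) (nat_lit 173861702188) (nat_lit 76) (nat_lit 78971852131) (nat_lit 45) (nat_lit 4) (nat_lit 46) (nat_lit 5) (nat_lit 46) (nat_lit 4) (nat_lit 520) (nat_lit 435) (nat_lit 245)) (XT.lf (nat_lit 0) (nat_lit 6146062725) (nat_lit 152) (nat_lit 82290847141) (nat_lit 76) (nat_lit 216524002890) (nat_lit 44) (nat_lit 5) (nat_lit 46) (nat_lit 5) (nat_lit 45) (nat_lit 4) (nat_lit 521) (nat_lit 435) (nat_lit 244))) (XT.nd (nat_lit 78) (nat_lit 0) (nat_lit 0) (XT.lf (nat_lit 0) (nat_lit 94471265233) (nat_lit 152) (nat_lit 217011207390) (nat_lit 0) (nat_lit 4099187967) (nat_lit 43) (nat_lit 5) (nat_lit 45) (nat_lit 4) (nat_lit 43) (nat_lit 4) (nat_lit 522) (nat_lit 435) (nat_lit 243)) (XT.lf (nat_lit 0) (nat_lit 190078199504) (nat_lit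 152) (nat_lit 36806218205) (nat_lit 0) (nat_lit 99705754527) (nat_lit 43) (nat_lit 5) (nat_lit 45) (nat_lit 4) (nat_lit 43) (nat_lit 4) (nat_lit 523) (nat_lit 435) (nat_lit 242)))))) (XT.nd (nat_lit 624) (nat_lit 608) (nat_lit 0) (XT.nd (nat_lit 312) (nat_lit 228) (nat_lit 0) (XT.nd (nat_lit 156) (nat_lit 76) (nat_lit 0) (XT.nd (nat_lit 78) (nat_lit 152) (nat_lit 0) (XT.lf (nat_lit 0) (nat_lit 157446783427) (nat_lit 76) (nat_lit 135476124914) (nat_lit 76) (nat_lit 45103329735) (nat_lit 42) (nat_lit 4) (nat_lit 43) (nat_lit 5) (nat_lit 43) (nat_lit 4) (nat_lit 524) (nat_lit 435) (nat_lit 241)) (XT.lf (nat_lit 0) (nat_lit 12274122418) (nat_lit 76) (nat_lit 37797707396) (nat_lit 152) (nat_lit 299881340449) (nat_lit 40) (nat_lit 5) (nat_lit 41) (nat_lit 5) (nat_lit 42) (nat_lit 4) (nat_lit 525) (nat_lit 435) (nat_lit 240))) (XT.nd (nat_lit 78) (nat_lit 76) (nat_lit 0) (XT.lf (nat_lit 0) (nat_lit 152608715891)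 (nat_lit 152) (nat_lit 143086059432) (nat_lit 0) (nat_lit 66538766990) (nat_lit 40) (nat_lit 5) (nat_lit 42) (nat_lit 4) (nat_lit 40) (nat_lit 4) (nat_lit 526) (nat_lit 435) (nat_lit 239)) (XT.lf (nat_lit 0) (nat_lit 62619719309) (nat_lit 76) (nat_lit 199249310741) (nat_lit 76) (nat_lit 113179073729) (nat_lit 39) (nat_lit 4) (nat_lit 40) (nat_lit 5) (nat_lit 40) (nat_lit 4) (nat_lit 527) (nat_lit 435) (nat_lit 238)))) (XT.nd (nat_lit 156) (nat_lit 76) (nat_lit 0) (XT.nd (nat_lit 78) (nat_lit 152) (nat_lit 0) (XT.lf (nat_lit 0) (nat_lit 283576988574) (nat_lit 76) (nat_lit 95437894983) (nat_lit 76) (nat_lit 9367383580) (nat_lit 39) (nat_lit 4) (nat_lit 40) (nat_lit 5) (nat_lit 40) (nat_lit 4) (nat_lit 528) (nat_lit 435) (nat_lit 237)) (XT.lf (nat_lit 0) (nat_lit 98512728076) (nat_lit 152) (nat_lit 287148729237) (nat_lit 0) (nat_lit 16540563572) (nat_lit 37) (nat_lit 5) (nat_lit 39) (nat_lit 4) (nat_lit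 37) (nat_lit 4) (nat_lit 529) (nat_lit 435) (nat_lit 236))) (XT.nd (nat_lit 78) (nat_lit 76) (nat_lit 0) (XT.lf (nat_lit 0) (nat_lit 214839936208) (nat_lit 152) (nat_lit 68829218437) (nat_lit 0) (nat_lit 132867534675) (nat_lit 37) (nat_lit 5) (nat_lit 39) (nat_lit 4) (nat_lit 37) (nat_lit 4) (nat_lit 530) (nat_lit 435) (nat_lit 235)) (XT.lf (nat_lit 0) (nat_lit 165708666771) (nat_lit 76) (nat_lit 173861362724) (nat_lit 76) (nat_lit 91888735447) (nat_lit 36) (nat_lit 4) (nat_lit 37) (nat_lit 5) (nat_lit 37) (nat_lit 4) (nat_lit 531) (nat_lit 435) (nat_lit 234))))) (XT.nd (nat_lit 312) (nat_lit 380) (nat_lit 0) (XT.nd (nat_lit 156) (nat_lit 76) (nat_lit 0) (XT.nd (nat_lit 78) (nat_lit 76) (nat_lit 0) (XT.lf (nat_lit 0) (nat_lit 23844540700) (nat_lit 152) (nat_lit 33091533832) (nat_lit 76) (nat_lit 390113389593) (nat_lit 35) (nat_lit 5) (nat_lit 37) (nat_lit 5) (nat_lit 36) (nat_lit 4) (nat_lit 532)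 (nat_lit 435) (nat_lit 233)) (XT.lf (nat_lit 0) (nat_lit 146765936410) (nat_lit 152) (nat_lit 247657599420) (nat_lit 0) (nat_lit 68696367815) (nat_lit 34) (nat_lit 5) (nat_lit 36) (nat_lit 4) (nat_lit 34) (nat_lit 4) (nat_lit 533) (nat_lit 435) (nat_lit 232))) (XT.nd (nat_lit 78) (nat_lit 76) (nat_lit 0) (XT.lf (nat_lit 0) (nat_lit 277335768633) (nat_lit 152) (nat_lit 3316963854) (nat_lit 0) (nat_lit 199266014319) (nat_lit 34) (nat_lit 5) (nat_lit 36) (nat_lit 4) (nat_lit 34) (nat_lit 4) (nat_lit 534) (nat_lit 435) (nat_lit 231)) (XT.lf (nat_lit 0) (nat_lit 261612753219) (nat_lit 76) (nat_lit 156905257101) (nat_lit 76) (nat_lit 78835325912) (nat_lit 33) (nat_lit 4) (nat_lit 34) (nat_lit 5) (nat_lit 34) (nat_lit 4) (nat_lit 535) (nat_lit 435) (nat_lit 230)))) (XT.nd (nat_lit 156) (nat_lit 228) (nat_lit 0) (XT.nd (nat_lit 78) (nat_lit 0) (nat_lit 0) (XT.lf (nat_lit 0) (nat_lit 24222619302) (nat_lit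 76) (nat_lit 25676267987) (nat_lit 152) (nat_lit 465699142954) (nat_lit 31) (nat_lit 5) (nat_lit 32) (nat_lit 5) (nat_lit 33) (nat_lit 4) (nat_lit 536) (nat_lit 435) (nat_lit 229)) (XT.lf (nat_lit 0) (nat_lit 188228083773) (nat_lit 152) (nat_lit 232296418104) (nat_lit 0) (nat_lit 113875455132) (nat_lit 31) (nat_lit 5) (nat_lit 33) (nat_lit 4) (nat_lit 31) (nat_lit 4) (nat_lit 537) (nat_lit 435) (nat_lit 228))) (XT.nd (nat_lit 78) (nat_lit 152) (nat_lit 0) (XT.lf (nat_lit 0) (nat_lit 40614379555) (nat_lit 76) (nat_lit 293913825728) (nat_lit 76) (nat_lit 219561051572) (nat_lit 30) (nat_lit 4) (nat_lit 31) (nat_lit 5) (nat_lit 31) (nat_lit 4) (nat_lit 538) (nat_lit 435) (nat_lit 227)) (XT.nd (nat_lit 78) (nat_lit 152) (nat_lit 0) (XT.lf (nat_lit 0) (nat_lit 335234406339) (nat_lit 76) (nat_lit 156842426549) (nat_lit 76) (nat_lit 82489513806) (nat_lit 30) (nat_lit 4) (nat_lit 31) (nat_lit 5) (nat_lit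 31) (nat_lit 4) (nat_lit 539) (nat_lit 435) (nat_lit 226)) (XT.lf (nat_lit 0) (nat_lit 49130357498) (nat_lit 76) (nat_lit 11105448466) (nat_lit 152) (nat_lit 535745199566) (nat_lit 28) (nat_lit 5) (nat_lit 29) (nat_lit 5) (nat_lit 30) (nat_lit 4) (nat_lit 540) (nat_lit 435) (nat_lit 225))))))))
noncomputable def xc336 : XT := (XT.nd (nat_lit 54600) (nat_lit 0) (nat_lit 8816) (XT.nd (nat_lit 624) (nat_lit 228) (nat_lit 0) (XT.nd (nat_lit 312) (nat_lit 76) (nat_lit 0) (XT.nd (nat_lit 156) (nat_lit 152) (nat_lit 0) (XT.nd (nat_lit 78) (nat_lit 76) (nat_lit 0) (XT.lf (nat_lit 0) (nat_lit 213660060777) (nat_lit 152) (nat_lit 261574461789) (nat_lit 0) (nat_lit 142847517508) (nat_lit 28) (nat_lit 5) (nat_lit 30) (nat_lit 4) (nat_lit 28) (nat_lit 4) (nat_lit 541) (nat_lit 435) (nat_lit 224)) (XT.lf (nat_lit 0) (nat_lit 39031704377) (nat_lit 76) (nat_lit 336514766072) (nat_lit 76) (nat_lit 265702108788)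 (nat_lit 27) (nat_lit 4) (nat_lit 28) (nat_lit 5) (nat_lit 28) (nat_lit 4) (nat_lit 542) (nat_lit 435) (nat_lit 223))) (XT.nd (nat_lit 78) (nat_lit 152) (nat_lit 0) (XT.lf (nat_lit 0) (nat_lit 363748438988) (nat_lit 76) (nat_lit 186208151378) (nat_lit 76) (nat_lit 115395385507) (nat_lit 27) (nat_lit 4) (nat_lit 28) (nat_lit 5) (nat_lit 28) (nat_lit 4) (nat_lit 543) (nat_lit 435) (nat_lit 222)) (XT.lf (nat_lit 0) (nat_lit 13819393371) (nat_lit 76) (nat_lit 27464637193) (nat_lit 152) (nat_lit 649332628057) (nat_lit 25) (nat_lit 5) (nat_lit 26) (nat_lit 5) (nat_lit 27) (nat_lit 4) (nat_lit 544) (nat_lit 435) (nat_lit 221)))) (XT.nd (nat_lit 156) (nat_lit 76) (nat_lit 0) (XT.nd (nat_lit 78) (nat_lit 0) (nat_lit 0) (XT.lf (nat_lit 0) (nat_lit 209283980838) (nat_lit 152) (nat_lit 365554718887) (nat_lit 0) (nat_lit 141843059146) (nat_lit 25) (nat_lit 5) (nat_lit 27) (nat_lit 4) (nat_lit 25) (nat_lit 4)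 (nat_lit 545) (nat_lit 435) (nat_lit 220)) (XT.lf (nat_lit 0) (nat_lit 386133707644) (nat_lit 152) (nat_lit 39201220924) (nat_lit 0) (nat_lit 318692696618) (nat_lit 25) (nat_lit 5) (nat_lit 27) (nat_lit 4) (nat_lit 25) (nat_lit 4) (nat_lit 546) (nat_lit 435) (nat_lit 219))) (XT.nd (nat_lit 78) (nat_lit 0) (nat_lit 0) (XT.lf (nat_lit 0) (nat_lit 313503118385) (nat_lit 76) (nat_lit 263217025687) (nat_lit 76) (nat_lit 195775929581) (nat_lit 24) (nat_lit 4) (nat_lit 25) (nat_lit 5) (nat_lit 25) (nat_lit 4) (nat_lit 547) (nat_lit 435) (nat_lit 218)) (XT.lf (nat_lit 0) (nat_lit 685202775703) (nat_lit 76) (nat_lit 92296586490) (nat_lit 76) (nat_lit 24855409356) (nat_lit 24) (nat_lit 4) (nat_lit 25) (nat_lit 5) (nat_lit 25) (nat_lit 4) (nat_lit 548) (nat_lit 435) (nat_lit 217))))) (XT.nd (nat_lit 53664) (nat_lit 0) (nat_lit 10792) (XT.nd (nat_lit 156) (nat_lit 76) (nat_lit 0) (XT.nd (nat_lit 78) (nat_lit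 0) (nat_lit 0) (XT.lf (nat_lit 0) (nat_lit 154986765512) (nat_lit 152) (nat_lit 587575736136) (nat_lit 0) (nat_lit 90756999508) (nat_lit 22) (nat_lit 5) (nat_lit 24) (nat_lit 4) (nat_lit 22) (nat_lit 4) (nat_lit 549) (nat_lit 435) (nat_lit 216)) (XT.lf (nat_lit 0) (nat_lit 346514936214) (nat_lit 152) (nat_lit 236835597938) (nat_lit 0) (nat_lit 282285100214) (nat_lit 22) (nat_lit 5) (nat_lit 24) (nat_lit 4) (nat_lit 22) (nat_lit 4) (nat_lit 550) (nat_lit 435) (nat_lit 215))) (XT.nd (nat_lit 78) (nat_lit 0) (nat_lit 0) (XT.lf (nat_lit 0) (nat_lit 135786762884) (nat_lit 76) (nat_lit 413952366656) (nat_lit 76) (nat_lit 349722463993) (nat_lit 21) (nat_lit 4) (nat_lit 22) (nat_lit 5) (nat_lit 22) (nat_lit 4) (nat_lit 551) (nat_lit 435) (nat_lit 214)) (XT.lf (nat_lit 0) (nat_lit 535261843259) (nat_lit 76) (nat_lit 231873223421) (nat_lit 76) (nat_lit 167643257271) (nat_lit 21) (nat_lit 4) (nat_lit 22)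 (nat_lit 5) (nat_lit 22) (nat_lit 4) (nat_lit 552) (nat_lit 435) (nat_lit 213)))) (XT.nd (nat_lit 156) (nat_lit 0) (nat_lit 76) (XT.nd (nat_lit 78) (nat_lit 0) (nat_lit 0) (XT.lf (nat_lit 0) (nat_lit 4405843962) (nat_lit 836) (nat_lit 3694102019) (nat_lit 836) (nat_lit 3694102019) (nat_lit 163) (nat_lit 3) (nat_lit 174) (nat_lit 3) (nat_lit 174) (nat_lit 5) (nat_lit 436) (nat_lit 436) (nat_lit 328)) (XT.lf (nat_lit 76) (nat_lit 4502263023) (nat_lit 0) (nat_lit 4716493413) (nat_lit 836) (nat_lit 14949694159) (nat_lit 164) (nat_lit 5) (nat_lit 163) (nat_lit 3) (nat_lit 174) (nat_lit 5) (nat_lit 437) (nat_lit 436) (nat_lit 327))) (XT.nd (nat_lit 78) (nat_lit 0) (nat_lit 0) (XT.lf (nat_lit 0) (nat_lit 9880501857) (nat_lit 760) (nat_lit 7648952675) (nat_lit 836) (nat_lit 7236652788) (nat_lit 164) (nat_lit 5) (nat_lit 174) (nat_lit 5) (nat_lit 175) (nat_lit 5) (nat_lit 438) (nat_lit 436) (nat_lit 326))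 (XT.lf (nat_lit 76) (nat_lit 5049167242) (nat_lit 0) (nat_lit 5675208733) (nat_lit 836) (nat_lit 14661819383) (nat_lit 165) (nat_lit 5) (nat_lit 164) (nat_lit 5) (nat_lit 175) (nat_lit 5) (nat_lit 439) (nat_lit 436) (nat_lit 325)))))) (XT.nd (nat_lit 624) (nat_lit 1596) (nat_lit 0) (XT.nd (nat_lit 312) (nat_lit 532) (nat_lit 0) (XT.nd (nat_lit 156) (nat_lit 0) (nat_lit 76) (XT.nd (nat_lit 78) (nat_lit 0) (nat_lit 0) (XT.lf (nat_lit 0) (nat_lit 11841036662) (nat_lit 760) (nat_lit 7495489841) (nat_lit 836) (nat_lit 6689232174) (nat_lit 165) (nat_lit 5) (nat_lit 175) (nat_lit 5) (nat_lit 176) (nat_lit 5) (nat_lit 440) (nat_lit 436) (nat_lit 324)) (XT.lf (nat_lit 76) (nat_lit 6085504300) (nat_lit 0) (nat_lit 7109602235) (nat_lit 836) (nat_lit 13493115316) (nat_lit 166) (nat_lit 5) (nat_lit 165) (nat_lit 5) (nat_lit 176) (nat_lit 5) (nat_lit 441) (nat_lit 436) (nat_lit 323))) (XT.nd (nat_lit 78) (nat_lit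 0) (nat_lit 0) (XT.lf (nat_lit 0) (nat_lit 14829140906) (nat_lit 760) (nat_lit 6867839109) (nat_lit 836) (nat_lit 5676215592) (nat_lit 166) (nat_lit 5) (nat_lit 176) (nat_lit 5) (nat_lit 177) (nat_lit 5) (nat_lit 442) (nat_lit 436) (nat_lit 322)) (XT.lf (nat_lit 76) (nat_lit 7678584585) (nat_lit 0) (nat_lit 9096822453) (nat_lit 836) (nat_lit 11305484963) (nat_lit 167) (nat_lit 5) (nat_lit 166) (nat_lit 5) (nat_lit 177) (nat_lit 5) (nat_lit 443) (nat_lit 436) (nat_lit 321)))) (XT.nd (nat_lit 156) (nat_lit 684) (nat_lit 0) (XT.nd (nat_lit 78) (nat_lit 0) (nat_lit 0) (XT.lf (nat_lit 0) (nat_lit 18996065966) (nat_lit 760) (nat_lit 5698477624) (nat_lit 836) (nat_lit 4120576079) (nat_lit 167) (nat_lit 5) (nat_lit 177) (nat_lit 5) (nat_lit 178) (nat_lit 5) (nat_lit 444) (nat_lit 436) (nat_lit 320)) (XT.lf (nat_lit 76) (nat_lit 9903980398) (nat_lit 0) (nat_lit 11722134109) (nat_lit 836) (nat_lit 7945026787)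 (nat_lit 168) (nat_lit 5) (nat_lit 167) (nat_lit 5) (nat_lit 178) (nat_lit 5) (nat_lit 445) (nat_lit 436) (nat_lit 319))) (XT.nd (nat_lit 78) (nat_lit 760) (nat_lit 0) (XT.lf (nat_lit 0) (nat_lit 24510203259) (nat_lit 760) (nat_lit 3911595481) (nat_lit 76) (nat_lit 1937038763) (nat_lit 168) (nat_lit 5) (nat_lit 178) (nat_lit 5) (nat_lit 169) (nat_lit 5) (nat_lit 446) (nat_lit 436) (nat_lit 318)) (XT.lf (nat_lit 0) (nat_lit 12846338225) (nat_lit 760) (nat_lit 15079941360) (nat_lit 836) (nat_lit 3240250152) (nat_lit 158) (nat_lit 5) (nat_lit 168) (nat_lit 5) (nat_lit 169) (nat_lit 5) (nat_lit 447) (nat_lit 436) (nat_lit 317))))) (XT.nd (nat_lit 312) (nat_lit 684) (nat_lit 0) (XT.nd (nat_lit 156) (nat_lit 380) (nat_lit 0) (XT.nd (nat_lit 78) (nat_lit 532) (nat_lit 0) (XT.lf (nat_lit 0) (nat_lit 30573634563) (nat_lit 760) (nat_lit 1000987626) (nat_lit 836) (nat_lit 436911622) (nat_lit 158) (nat_lit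 5) (nat_lit 168) (nat_lit 5) (nat_lit 169) (nat_lit 5) (nat_lit 448) (nat_lit 436) (nat_lit 316)) (XT.lf (nat_lit 0) (nat_lit 2903871833) (nat_lit 532) (nat_lit 16321852936) (nat_lit 76) (nat_lit 13647231661) (nat_lit 151) (nat_lit 5) (nat_lit 158) (nat_lit 5) (nat_lit 152) (nat_lit 5) (nat_lit 449) (nat_lit 436) (nat_lit 315))) (XT.nd (nat_lit 78) (nat_lit 0) (nat_lit 0) (XT.lf (nat_lit 0) (nat_lit 1740539396) (nat_lit 380) (nat_lit 4720336209) (nat_lit 456) (nat_lit 27313023543) (nat_lit 146) (nat_lit 5) (nat_lit 151) (nat_lit 5) (nat_lit 152) (nat_lit 5) (nat_lit 450) (nat_lit 436) (nat_lit 314)) (XT.lf (nat_lit 0) (nat_lit 10636448235) (nat_lit 456) (nat_lit 13606571949) (nat_lit 76) (nat_lit 10454833175) (nat_lit 146) (nat_lit 5) (nat_lit 152) (nat_lit 5) (nat_lit 147) (nat_lit 5) (nat_lit 451) (nat_lit 436) (nat_lit 313)))) (XT.nd (nat_lit 156) (nat_lit 304) (nat_lit 0) (XT.nd (nat_lit 78)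 (nat_lit 0) (nat_lit 0) (XT.lf (nat_lit 0) (nat_lit 5846943715) (nat_lit 380) (nat_lit 9338404721) (nat_lit 456) (nat_lit 20474429674) (nat_lit 141) (nat_lit 5) (nat_lit 146) (nat_lit 5) (nat_lit 147) (nat_lit 5) (nat_lit 452) (nat_lit 436) (nat_lit 312)) (XT.lf (nat_lit 0) (nat_lit 20290447991) (nat_lit 456) (nat_lit 10019561995) (nat_lit 76) (nat_lit 6343351660) (nat_lit 141) (nat_lit 5) (nat_lit 147) (nat_lit 5) (nat_lit 142) (nat_lit 5) (nat_lit 453) (nat_lit 436) (nat_lit 311))) (XT.nd (nat_lit 78) (nat_lit 0) (nat_lit 0) (XT.lf (nat_lit 0) (nat_lit 10956689522) (nat_lit 304) (nat_lit 15014460107) (nat_lit 380) (nat_lit 11709457627) (nat_lit 137) (nat_lit 5) (nat_lit 141) (nat_lit 5) (nat_lit 142) (nat_lit 5) (nat_lit 454) (nat_lit 436) (nat_lit 310)) (XT.lf (nat_lit 0) (nat_lit 32120984437) (nat_lit 380) (nat_lit 5444617368) (nat_lit 76) (nat_lit 1184358674) (nat_lit 137) (nat_lit 5) (nat_lit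 142) (nat_lit 5) (nat_lit 138) (nat_lit 5) (nat_lit 455) (nat_lit 436) (nat_lit 309)))))))
noncomputable def xc337 : XT := (XT.nd (nat_lit 1248) (nat_lit 1824) (nat_lit 0) (XT.nd (nat_lit 624) (nat_lit 1064) (nat_lit 0) (XT.nd (nat_lit 312) (nat_lit 608) (nat_lit 0) (XT.nd (nat_lit 156) (nat_lit 304) (nat_lit 0) (XT.nd (nat_lit 78) (nat_lit 380) (nat_lit 0) (XT.lf (nat_lit 0) (nat_lit 17198801177) (nat_lit 304) (nat_lit 21890647411) (nat_lit 380) (nat_lit 757776123) (nat_lit 133) (nat_lit 5) (nat_lit 137) (nat_lit 5) (nat_lit 138) (nat_lit 5) (nat_lit 456) (nat_lit 436) (nat_lit 308)) (XT.lf (nat_lit 0) (nat_lit 81115169) (nat_lit 304) (nat_lit 5244321376) (nat_lit 380) (nat_lit 35665119408) (nat_lit 128) (nat_lit 5) (nat_lit 132) (nat_lit 5) (nat_lit 133) (nat_lit 5) (nat_lit 457) (nat_lit 436) (nat_lit 307))) (XT.nd (nat_lit 78) (nat_lit 304) (nat_lit 0) (XT.lf (nat_lit 0) (nat_lit 12264818673)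 (nat_lit 380) (nat_lit 17652478733) (nat_lit 76) (nat_lit 12244261666) (nat_lit 128) (nat_lit 5) (nat_lit 133) (nat_lit 5) (nat_lit 129) (nat_lit 5) (nat_lit 458) (nat_lit 436) (nat_lit 306)) (XT.lf (nat_lit 0) (nat_lit 6898030902) (nat_lit 304) (nat_lit 12843583482) (nat_lit 380) (nat_lit 23639975926) (nat_lit 124) (nat_lit 5) (nat_lit 128) (nat_lit 5) (nat_lit 129) (nat_lit 5) (nat_lit 459) (nat_lit 436) (nat_lit 305)))) (XT.nd (nat_lit 156) (nat_lit 380) (nat_lit 0) (XT.nd (nat_lit 78) (nat_lit 228) (nat_lit 0) (XT.lf (nat_lit 0) (nat_lit 27972327382) (nat_lit 380) (nat_lit 11447213339) (nat_lit 76) (nat_lit 5224078693) (nat_lit 124) (nat_lit 5) (nat_lit 129) (nat_lit 5) (nat_lit 125) (nat_lit 5) (nat_lit 460) (nat_lit 436) (nat_lit 304)) (XT.lf (nat_lit 0) (nat_lit 15110029437) (nat_lit 228) (nat_lit 21948007751) (nat_lit 304) (nat_lit 8888539897) (nat_lit 121) (nat_lit 5) (nat_lit 124) (nat_lit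 5) (nat_lit 125) (nat_lit 5) (nat_lit 461) (nat_lit 436) (nat_lit 303))) (XT.nd (nat_lit 78) (nat_lit 380) (nat_lit 0) (XT.lf (nat_lit 0) (nat_lit 43388634677) (nat_lit 228) (nat_lit 3400344215) (nat_lit 304) (nat_lit 516156590) (nat_lit 121) (nat_lit 5) (nat_lit 124) (nat_lit 5) (nat_lit 125) (nat_lit 5) (nat_lit 462) (nat_lit 436) (nat_lit 302)) (XT.lf (nat_lit 0) (nat_lit 8657240342) (nat_lit 380) (nat_lit 23948015851) (nat_lit 76) (nat_lit 16087544015) (nat_lit 116) (nat_lit 5) (nat_lit 121) (nat_lit 5) (nat_lit 117) (nat_lit 5) (nat_lit 463) (nat_lit 436) (nat_lit 301))))) (XT.nd (nat_lit 312) (nat_lit 608) (nat_lit 0) (XT.nd (nat_lit 156) (nat_lit 228) (nat_lit 0) (XT.nd (nat_lit 78) (nat_lit 0) (nat_lit 0) (XT.lf (nat_lit 0) (nat_lit 4916761004) (nat_lit 228) (nat_lit 13552358174) (nat_lit 304) (nat_lit 31670448138) (nat_lit 113) (nat_lit 5) (nat_lit 116) (nat_lit 5) (nat_lit 117) (nat_lit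 5) (nat_lit 464) (nat_lit 436) (nat_lit 300)) (XT.lf (nat_lit 0) (nat_lit 29281853805) (nat_lit 304) (nat_lit 15693539715) (nat_lit 76) (nat_lit 6657766298) (nat_lit 113) (nat_lit 5) (nat_lit 117) (nat_lit 5) (nat_lit 114) (nat_lit 5) (nat_lit 465) (nat_lit 436) (nat_lit 299))) (XT.nd (nat_lit 78) (nat_lit 0) (nat_lit 0) (XT.lf (nat_lit 0) (nat_lit 15585085985) (nat_lit 228) (nat_lit 25513054527) (nat_lit 304) (nat_lit 12080145795) (nat_lit 110) (nat_lit 5) (nat_lit 113) (nat_lit 5) (nat_lit 114) (nat_lit 5) (nat_lit 466) (nat_lit 436) (nat_lit 298)) (XT.lf (nat_lit 0) (nat_lit 48968793288) (nat_lit 228) (nat_lit 4799709876) (nat_lit 304) (nat_lit 1019002996) (nat_lit 110) (nat_lit 5) (nat_lit 113) (nat_lit 5) (nat_lit 114) (nat_lit 5) (nat_lit 467) (nat_lit 436) (nat_lit 297)))) (XT.nd (nat_lit 156) (nat_lit 152) (nat_lit 0) (XT.nd (nat_lit 78) (nat_lit 228) (nat_lit 0) (XT.lf (nat_lit 0) (nat_lit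 10969746925) (nat_lit 228) (nat_lit 28440882454) (nat_lit 76) (nat_lit 17022603577) (nat_lit 107) (nat_lit 5) (nat_lit 110) (nat_lit 5) (nat_lit 108) (nat_lit 5) (nat_lit 468) (nat_lit 436) (nat_lit 296)) (XT.lf (nat_lit 0) (nat_lit 5618853580) (nat_lit 228) (nat_lit 18169010416) (nat_lit 304) (nat_lit 34359338210) (nat_lit 104) (nat_lit 5) (nat_lit 107) (nat_lit 5) (nat_lit 108) (nat_lit 5) (nat_lit 469) (nat_lit 436) (nat_lit 295))) (XT.nd (nat_lit 78) (nat_lit 152) (nat_lit 0) (XT.lf (nat_lit 0) (nat_lit 37798642580) (nat_lit 304) (nat_lit 17629937383) (nat_lit 76) (nat_lit 4490702273) (nat_lit 104) (nat_lit 5) (nat_lit 108) (nat_lit 5) (nat_lit 105) (nat_lit 5) (nat_lit 470) (nat_lit 436) (nat_lit 294)) (XT.lf (nat_lit 0) (nat_lit 19330741535) (nat_lit 152) (nat_lit 33776635754) (nat_lit 228) (nat_lit 8642718212) (nat_lit 102) (nat_lit 5) (nat_lit 104) (nat_lit 5) (nat_lit 105) (nat_lit 5)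 (nat_lit 471) (nat_lit 436) (nat_lit 293)))))) (XT.nd (nat_lit 624) (nat_lit 836) (nat_lit 0) (XT.nd (nat_lit 312) (nat_lit 532) (nat_lit 0) (XT.nd (nat_lit 156) (nat_lit 152) (nat_lit 0) (XT.nd (nat_lit 78) (nat_lit 228) (nat_lit 0) (XT.lf (nat_lit 0) (nat_lit 5634014341) (nat_lit 228) (nat_lit 5000423787) (nat_lit 76) (nat_lit 53018648733) (nat_lit 101) (nat_lit 5) (nat_lit 104) (nat_lit 5) (nat_lit 102) (nat_lit 5) (nat_lit 472) (nat_lit 436) (nat_lit 292)) (XT.lf (nat_lit 0) (nat_lit 21107406805) (nat_lit 304) (nat_lit 30568008884) (nat_lit 76) (nat_lit 13930064222) (nat_lit 98) (nat_lit 5) (nat_lit 102) (nat_lit 5) (nat_lit 99) (nat_lit 5) (nat_lit 473) (nat_lit 436) (nat_lit 291))) (XT.nd (nat_lit 78) (nat_lit 0) (nat_lit 0) (XT.lf (nat_lit 0) (nat_lit 9731982073) (nat_lit 152) (nat_lit 28032748920) (nat_lit 228) (nat_lit 29870248594) (nat_lit 96) (nat_lit 5) (nat_lit 98) (nat_lit 5) (nat_lit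 99) (nat_lit 5) (nat_lit 474) (nat_lit 436) (nat_lit 290)) (XT.lf (nat_lit 0) (nat_lit 53104894982) (nat_lit 152) (nat_lit 2665668601) (nat_lit 228) (nat_lit 13969608627) (nat_lit 96) (nat_lit 5) (nat_lit 98) (nat_lit 5) (nat_lit 99) (nat_lit 5) (nat_lit 475) (nat_lit 436) (nat_lit 289)))) (XT.nd (nat_lit 156) (nat_lit 304) (nat_lit 0) (XT.nd (nat_lit 78) (nat_lit 0) (nat_lit 0) (XT.lf (nat_lit 0) (nat_lit 3448634766) (nat_lit 228) (nat_lit 44777861884) (nat_lit 76) (nat_lit 23681508684) (nat_lit 93) (nat_lit 5) (nat_lit 96) (nat_lit 5) (nat_lit 94) (nat_lit 5) (nat_lit 476) (nat_lit 436) (nat_lit 288)) (XT.lf (nat_lit 0) (nat_lit 21596412600) (nat_lit 228) (nat_lit 789358905) (nat_lit 76) (nat_lit 51770603537) (nat_lit 93) (nat_lit 5) (nat_lit 96) (nat_lit 5) (nat_lit 94) (nat_lit 5) (nat_lit 477) (nat_lit 436) (nat_lit 287))) (XT.nd (nat_lit 78) (nat_lit 152) (nat_lit 0) (XT.lf (nat_lit 0) (nat_lit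 41468002824) (nat_lit 228) (nat_lit 29670302420) (nat_lit 76) (nat_lit 5338036879) (nat_lit 91) (nat_lit 5) (nat_lit 94) (nat_lit 5) (nat_lit 92) (nat_lit 5) (nat_lit 478) (nat_lit 436) (nat_lit 286)) (XT.lf (nat_lit 0) (nat_lit 18106157126) (nat_lit 152) (nat_lit 44888433180) (nat_lit 228) (nat_lit 15884646422) (nat_lit 89) (nat_lit 5) (nat_lit 91) (nat_lit 5) (nat_lit 92) (nat_lit 5) (nat_lit 479) (nat_lit 436) (nat_lit 285))))) (XT.nd (nat_lit 312) (nat_lit 456) (nat_lit 0) (XT.nd (nat_lit 156) (nat_lit 152) (nat_lit 0) (XT.nd (nat_lit 78) (nat_lit 152) (nat_lit 0) (XT.lf (nat_lit 0) (nat_lit 4569848447) (nat_lit 228) (nat_lit 12152501017) (nat_lit 76) (nat_lit 64651207138) (nat_lit 88) (nat_lit 5) (nat_lit 91) (nat_lit 5) (nat_lit 89) (nat_lit 5) (nat_lit 480) (nat_lit 436) (nat_lit 284)) (XT.lf (nat_lit 0) (nat_lit 26349777553) (nat_lit 228) (nat_lit 44250437734) (nat_lit 76) (nat_lit 13337530144)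 (nat_lit 86) (nat_lit 5) (nat_lit 89) (nat_lit 5) (nat_lit 87) (nat_lit 5) (nat_lit 481) (nat_lit 436) (nat_lit 283))) (XT.nd (nat_lit 78) (nat_lit 0) (nat_lit 0) (XT.lf (nat_lit 0) (nat_lit 7893278247) (nat_lit 152) (nat_lit 41930257632) (nat_lit 228) (nat_lit 36776366231) (nat_lit 84) (nat_lit 5) (nat_lit 86) (nat_lit 5) (nat_lit 87) (nat_lit 5) (nat_lit 482) (nat_lit 436) (nat_lit 282)) (XT.lf (nat_lit 0) (nat_lit 64177497662) (nat_lit 152) (nat_lit 11041200190) (nat_lit 228) (nat_lit 14139083029) (nat_lit 84) (nat_lit 5) (nat_lit 86) (nat_lit 5) (nat_lit 87) (nat_lit 5) (nat_lit 483) (nat_lit 436) (nat_lit 281)))) (XT.nd (nat_lit 156) (nat_lit 304) (nat_lit 0) (XT.nd (nat_lit 78) (nat_lit 0) (nat_lit 0) (XT.lf (nat_lit 0) (nat_lit 10162700273) (nat_lit 152) (nat_lit 60675999811) (nat_lit 76) (nat_lit 21365293028) (nat_lit 82) (nat_lit 5) (nat_lit 84) (nat_lit 5) (nat_lit 83) (nat_lit 5) (nat_lit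 484) (nat_lit 436) (nat_lit 280)) (XT.lf (nat_lit 0) (nat_lit 35817222856) (nat_lit 152) (nat_lit 3647975470) (nat_lit 76) (nat_lit 55685087455) (nat_lit 82) (nat_lit 5) (nat_lit 84) (nat_lit 5) (nat_lit 83) (nat_lit 5) (nat_lit 485) (nat_lit 436) (nat_lit 279))) (XT.nd (nat_lit 78) (nat_lit 152) (nat_lit 0) (XT.lf (nat_lit 0) (nat_lit 58087876911) (nat_lit 152) (nat_lit 5571967902) (nat_lit 228) (nat_lit 34538779644) (nat_lit 80) (nat_lit 5) (nat_lit 82) (nat_lit 5) (nat_lit 83) (nat_lit 5) (nat_lit 486) (nat_lit 436) (nat_lit 278)) (XT.nd (nat_lit 78) (nat_lit 76) (nat_lit 0) (XT.lf (nat_lit 0) (nat_lit 21868399613) (nat_lit 76) (nat_lit 71897522219) (nat_lit 152) (nat_lit 7589892072) (nat_lit 79) (nat_lit 5) (nat_lit 80) (nat_lit 5) (nat_lit 81) (nat_lit 4) (nat_lit 487) (nat_lit 436) (nat_lit 277)) (XT.lf (nat_lit 0) (nat_lit 20823956166) (nat_lit 152) (nat_lit 16726371090) (nat_lit 76) (nat_lit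 67065358740) (nat_lit 78) (nat_lit 5) (nat_lit 80) (nat_lit 5) (nat_lit 79) (nat_lit 5) (nat_lit 488) (nat_lit 436) (nat_lit 276))))))))
noncomputable def xc338 : XT := (XT.nd (nat_lit 1248) (nat_lit 1216) (nat_lit 0) (XT.nd (nat_lit 624) (nat_lit 532) (nat_lit 0) (XT.nd (nat_lit 312) (nat_lit 304) (nat_lit 0) (XT.nd (nat_lit 156) (nat_lit 228) (nat_lit 0) (XT.nd (nat_lit 78) (nat_lit 76) (nat_lit 0) (XT.lf (nat_lit 0) (nat_lit 50667336282) (nat_lit 152) (nat_lit 525699068) (nat_lit 228) (nat_lit 56799814714) (nat_lit 76) (nat_lit 5) (nat_lit 78) (nat_lit 5) (nat_lit 79) (nat_lit 5) (nat_lit 489) (nat_lit 436) (nat_lit 275)) (XT.lf (nat_lit 0) (nat_lit 10207379565) (nat_lit 76) (nat_lit 73917781045) (nat_lit 152) (nat_lit 27361482151) (nat_lit 75) (nat_lit 5) (nat_lit 76) (nat_lit 5) (nat_lit 77) (nat_lit 4) (nat_lit 490) (nat_lit 436) (nat_lit 274))) (XT.nd (nat_lit 78) (nat_lit 152) (nat_lit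 0) (XT.lf (nat_lit 0) (nat_lit 4429117653) (nat_lit 152) (nat_lit 32082042791) (nat_lit 76) (nat_lit 78591497698) (nat_lit 74) (nat_lit 5) (nat_lit 76) (nat_lit 5) (nat_lit 75) (nat_lit 5) (nat_lit 491) (nat_lit 436) (nat_lit 273)) (XT.lf (nat_lit 0) (nat_lit 37596642121) (nat_lit 228) (nat_lit 77455237768) (nat_lit 76) (nat_lit 3789820990) (nat_lit 72) (nat_lit 5) (nat_lit 75) (nat_lit 5) (nat_lit 73) (nat_lit 4) (nat_lit 492) (nat_lit 436) (nat_lit 272)))) (XT.nd (nat_lit 156) (nat_lit 228) (nat_lit 0) (XT.nd (nat_lit 78) (nat_lit 76) (nat_lit 0) (XT.lf (nat_lit 0) (nat_lit 73571959809) (nat_lit 228) (nat_lit 3708301918) (nat_lit 76) (nat_lit 45429963200) (nat_lit 72) (nat_lit 5) (nat_lit 75) (nat_lit 5) (nat_lit 73) (nat_lit 4) (nat_lit 493) (nat_lit 436) (nat_lit 271)) (XT.lf (nat_lit 0) (nat_lit 76161203222) (nat_lit 76) (nat_lit 36372636173) (nat_lit 152) (nat_lit 14178946005) (nat_lit 71)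 (nat_lit 5) (nat_lit 72) (nat_lit 5) (nat_lit 73) (nat_lit 4) (nat_lit 494) (nat_lit 436) (nat_lit 270))) (XT.nd (nat_lit 78) (nat_lit 0) (nat_lit 0) (XT.lf (nat_lit 0) (nat_lit 22452897267) (nat_lit 228) (nat_lit 101148135590) (nat_lit 76) (nat_lit 7264574247) (nat_lit 68) (nat_lit 5) (nat_lit 71) (nat_lit 5) (nat_lit 69) (nat_lit 4) (nat_lit 495) (nat_lit 436) (nat_lit 269)) (XT.lf (nat_lit 0) (nat_lit 61904966965) (nat_lit 228) (nat_lit 20273421010) (nat_lit 76) (nat_lit 52962802861) (nat_lit 68) (nat_lit 5) (nat_lit 71) (nat_lit 5) (nat_lit 69) (nat_lit 4) (nat_lit 496) (nat_lit 436) (nat_lit 268))))) (XT.nd (nat_lit 312) (nat_lit 228) (nat_lit 0) (XT.nd (nat_lit 156) (nat_lit 76) (nat_lit 0) (XT.nd (nat_lit 78) (nat_lit 152) (nat_lit 0) (XT.lf (nat_lit 0) (nat_lit 66780102556) (nat_lit 76) (nat_lit 37590940155) (nat_lit 152) (nat_lit 35207440934) (nat_lit 67) (nat_lit 5) (nat_lit 68) (nat_lit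 5) (nat_lit 69) (nat_lit 4) (nat_lit 497) (nat_lit 436) (nat_lit 267)) (XT.lf (nat_lit 0) (nat_lit 5309474415) (nat_lit 152) (nat_lit 129289267669) (nat_lit 76) (nat_lit 9598319648) (nat_lit 65) (nat_lit 5) (nat_lit 67) (nat_lit 5) (nat_lit 66) (nat_lit 4) (nat_lit 498) (nat_lit 436) (nat_lit 266))) (XT.nd (nat_lit 78) (nat_lit 76) (nat_lit 0) (XT.lf (nat_lit 0) (nat_lit 48537153291) (nat_lit 152) (nat_lit 40674194659) (nat_lit 76) (nat_lit 59712956298) (nat_lit 65) (nat_lit 5) (nat_lit 67) (nat_lit 5) (nat_lit 66) (nat_lit 4) (nat_lit 499) (nat_lit 436) (nat_lit 265)) (XT.lf (nat_lit 0) (nat_lit 54100996078) (nat_lit 76) (nat_lit 40668732805) (nat_lit 152) (nat_lit 59076004385) (nat_lit 64) (nat_lit 5) (nat_lit 65) (nat_lit 5) (nat_lit 66) (nat_lit 4) (nat_lit 500) (nat_lit 436) (nat_lit 264)))) (XT.nd (nat_lit 156) (nat_lit 76) (nat_lit 0) (XT.nd (nat_lit 78) (nat_lit 152) (nat_lit 0) (XT.lf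 (nat_lit 0) (nat_lit 144173740088) (nat_lit 152) (nat_lit 4126060074) (nat_lit 0) (nat_lit 10670443249) (nat_lit 64) (nat_lit 5) (nat_lit 66) (nat_lit 4) (nat_lit 64) (nat_lit 4) (nat_lit 501) (nat_lit 436) (nat_lit 263)) (XT.lf (nat_lit 0) (nat_lit 32926279044) (nat_lit 152) (nat_lit 66005797631) (nat_lit 76) (nat_lit 65281968105) (nat_lit 62) (nat_lit 5) (nat_lit 64) (nat_lit 5) (nat_lit 63) (nat_lit 4) (nat_lit 502) (nat_lit 436) (nat_lit 262))) (XT.nd (nat_lit 78) (nat_lit 0) (nat_lit 0) (XT.lf (nat_lit 0) (nat_lit 37025193530) (nat_lit 76) (nat_lit 46160743378) (nat_lit 152) (nat_lit 86489571244) (nat_lit 61) (nat_lit 5) (nat_lit 62) (nat_lit 5) (nat_lit 63) (nat_lit 4) (nat_lit 503) (nat_lit 436) (nat_lit 261)) (XT.lf (nat_lit 0) (nat_lit 137238058912) (nat_lit 152) (nat_lit 28019688374) (nat_lit 0) (nat_lit 10088323357) (nat_lit 61) (nat_lit 5) (nat_lit 63) (nat_lit 4) (nat_lit 61) (nat_lit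 4) (nat_lit 504) (nat_lit 436) (nat_lit 260)))))) (XT.nd (nat_lit 624) (nat_lit 608) (nat_lit 0) (XT.nd (nat_lit 312) (nat_lit 304) (nat_lit 0) (XT.nd (nat_lit 156) (nat_lit 76) (nat_lit 0) (XT.nd (nat_lit 78) (nat_lit 76) (nat_lit 0) (XT.lf (nat_lit 0) (nat_lit 14383708292) (nat_lit 152) (nat_lit 97664262987) (nat_lit 76) (nat_lit 69137415326) (nat_lit 59) (nat_lit 5) (nat_lit 61) (nat_lit 5) (nat_lit 60) (nat_lit 4) (nat_lit 505) (nat_lit 436) (nat_lit 259)) (XT.lf (nat_lit 0) (nat_lit 14136765714) (nat_lit 76) (nat_lit 54784554457) (nat_lit 152) (nat_lit 118329012884) (nat_lit 58) (nat_lit 5) (nat_lit 59) (nat_lit 5) (nat_lit 60) (nat_lit 4) (nat_lit 506) (nat_lit 436) (nat_lit 258))) (XT.nd (nat_lit 78) (nat_lit 76) (nat_lit 0) (XT.lf (nat_lit 0) (nat_lit 127949290575) (nat_lit 152) (nat_lit 58729833760) (nat_lit 0) (nat_lit 6851228605) (nat_lit 58) (nat_lit 5) (nat_lit 60) (nat_lit 4) (nat_lit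 58) (nat_lit 4) (nat_lit 507) (nat_lit 436) (nat_lit 257)) (XT.lf (nat_lit 0) (nat_lit 62472571176) (nat_lit 76) (nat_lit 129328584501) (nat_lit 76) (nat_lit 8229593344) (nat_lit 57) (nat_lit 4) (nat_lit 58) (nat_lit 5) (nat_lit 58) (nat_lit 4) (nat_lit 508) (nat_lit 436) (nat_lit 256)))) (XT.nd (nat_lit 156) (nat_lit 152) (nat_lit 0) (XT.nd (nat_lit 78) (nat_lit 76) (nat_lit 0) (XT.lf (nat_lit 0) (nat_lit 51335403735) (nat_lit 152) (nat_lit 15862298439) (nat_lit 76) (nat_lit 139567380606) (nat_lit 56) (nat_lit 5) (nat_lit 58) (nat_lit 5) (nat_lit 57) (nat_lit 4) (nat_lit 509) (nat_lit 436) (nat_lit 255)) (XT.lf (nat_lit 0) (nat_lit 115405225485) (nat_lit 152) (nat_lit 98262797540) (nat_lit 0) (nat_lit 71207487) (nat_lit 55) (nat_lit 5) (nat_lit 57) (nat_lit 4) (nat_lit 55) (nat_lit 4) (nat_lit 510) (nat_lit 436) (nat_lit 254))) (XT.nd (nat_lit 78) (nat_lit 76) (nat_lit 0) (XT.lf (nat_lit 0) (nat_lit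 32826980205) (nat_lit 76) (nat_lit 151737788186) (nat_lit 76) (nat_lit 36403005743) (nat_lit 54) (nat_lit 4) (nat_lit 55) (nat_lit 5) (nat_lit 55) (nat_lit 4) (nat_lit 511) (nat_lit 436) (nat_lit 253)) (XT.lf (nat_lit 0) (nat_lit 29398857047) (nat_lit 152) (nat_lit 55067853538) (nat_lit 76) (nat_lit 143984165008) (nat_lit 53) (nat_lit 5) (nat_lit 55) (nat_lit 5) (nat_lit 54) (nat_lit 4) (nat_lit 512) (nat_lit 436) (nat_lit 252))))) (XT.nd (nat_lit 312) (nat_lit 304) (nat_lit 0) (XT.nd (nat_lit 156) (nat_lit 228) (nat_lit 0) (XT.nd (nat_lit 78) (nat_lit 0) (nat_lit 0) (XT.lf (nat_lit 0) (nat_lit 86839626856) (nat_lit 76) (nat_lit 11782729590) (nat_lit 152) (nat_lit 137588190997) (nat_lit 52) (nat_lit 5) (nat_lit 53) (nat_lit 5) (nat_lit 54) (nat_lit 4) (nat_lit 513) (nat_lit 436) (nat_lit 251)) (XT.lf (nat_lit 0) (nat_lit 173261614734) (nat_lit 152) (nat_lit 7581876815) (nat_lit 0) (nat_lit 63416982148)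 (nat_lit 52) (nat_lit 5) (nat_lit 54) (nat_lit 4) (nat_lit 52) (nat_lit 4) (nat_lit 514) (nat_lit 436) (nat_lit 250))) (XT.nd (nat_lit 78) (nat_lit 76) (nat_lit 0) (XT.lf (nat_lit 0) (nat_lit 1463122261) (nat_lit 152) (nat_lit 106845830912) (nat_lit 76) (nat_lit 144279355539) (nat_lit 50) (nat_lit 5) (nat_lit 52) (nat_lit 5) (nat_lit 51) (nat_lit 4) (nat_lit 515) (nat_lit 436) (nat_lit 249)) (XT.lf (nat_lit 0) (nat_lit 45973925840) (nat_lit 76) (nat_lit 30035697491) (nat_lit 152) (nat_lit 185222343967) (nat_lit 49) (nat_lit 5) (nat_lit 50) (nat_lit 5) (nat_lit 51) (nat_lit 4) (nat_lit 516) (nat_lit 436) (nat_lit 248)))) (XT.nd (nat_lit 156) (nat_lit 228) (nat_lit 0) (XT.nd (nat_lit 78) (nat_lit 76) (nat_lit 0) (XT.lf (nat_lit 0) (nat_lit 156935985969) (nat_lit 152) (nat_lit 60918776973) (nat_lit 0) (nat_lit 52320419049) (nat_lit 49) (nat_lit 5) (nat_lit 51) (nat_lit 4) (nat_lit 49) (nat_lit 4)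 (nat_lit 517) (nat_lit 436) (nat_lit 247)) (XT.lf (nat_lit 0) (nat_lit 103971200993) (nat_lit 76) (nat_lit 140052336296) (nat_lit 76) (nat_lit 35436276608) (nat_lit 48) (nat_lit 4) (nat_lit 49) (nat_lit 5) (nat_lit 49) (nat_lit 4) (nat_lit 518) (nat_lit 436) (nat_lit 246))) (XT.nd (nat_lit 78) (nat_lit 152) (nat_lit 0) (XT.lf (nat_lit 0) (nat_lit 45824085580) (nat_lit 152) (nat_lit 10677153550) (nat_lit 76) (nat_lit 232618938221) (nat_lit 47) (nat_lit 5) (nat_lit 49) (nat_lit 5) (nat_lit 48) (nat_lit 4) (nat_lit 519) (nat_lit 436) (nat_lit 245)) (XT.nd (nat_lit 78) (nat_lit 76) (nat_lit 0) (XT.lf (nat_lit 0) (nat_lit 133105207795) (nat_lit 152) (nat_lit 132501880792) (nat_lit 0) (nat_lit 33469992608) (nat_lit 46) (nat_lit 5) (nat_lit 48) (nat_lit 4) (nat_lit 46) (nat_lit 4) (nat_lit 520) (nat_lit 436) (nat_lit 244)) (XT.lf (nat_lit 0) (nat_lit 44016131082) (nat_lit 76) (nat_lit 182530747558) (nat_lit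 76) (nat_lit 82895126970) (nat_lit 45) (nat_lit 4) (nat_lit 46) (nat_lit 5) (nat_lit 46) (nat_lit 4) (nat_lit 521) (nat_lit 436) (nat_lit 243))))))))
noncomputable def xc339 : XT := (XT.nd (nat_lit 1248) (nat_lit 684) (nat_lit 0) (XT.nd (nat_lit 624) (nat_lit 608) (nat_lit 0) (XT.nd (nat_lit 312) (nat_lit 228) (nat_lit 0) (XT.nd (nat_lit 156) (nat_lit 76) (nat_lit 0) (XT.nd (nat_lit 78) (nat_lit 76) (nat_lit 0) (XT.lf (nat_lit 0) (nat_lit 6476706281) (nat_lit 152) (nat_lit 86358758807) (nat_lit 76) (nat_lit 227372326169) (nat_lit 44) (nat_lit 5) (nat_lit 46) (nat_lit 5) (nat_lit 45) (nat_lit 4) (nat_lit 522) (nat_lit 436) (nat_lit 242)) (XT.lf (nat_lit 0) (nat_lit 99218131813) (nat_lit 152) (nat_lit 227815099855) (nat_lit 0) (nat_lit 4326346674) (nat_lit 43) (nat_lit 5) (nat_lit 45) (nat_lit 4) (nat_lit 43) (nat_lit 4) (nat_lit 523) (nat_lit 436) (nat_lit 241))) (XT.nd (nat_lit 78) (nat_lit 76)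 (nat_lit 0) (XT.lf (nat_lit 0) (nat_lit 199604303116) (nat_lit 152) (nat_lit 38602083493) (nat_lit 0) (nat_lit 104712184453) (nat_lit 43) (nat_lit 5) (nat_lit 45) (nat_lit 4) (nat_lit 43) (nat_lit 4) (nat_lit 524) (nat_lit 436) (nat_lit 240)) (XT.lf (nat_lit 0) (nat_lit 165362851357) (nat_lit 76) (nat_lit 142228021926) (nat_lit 76) (nat_lit 47335585620) (nat_lit 42) (nat_lit 4) (nat_lit 43) (nat_lit 5) (nat_lit 43) (nat_lit 4) (nat_lit 525) (nat_lit 436) (nat_lit 239)))) (XT.nd (nat_lit 156) (nat_lit 76) (nat_lit 0) (XT.nd (nat_lit 78) (nat_lit 0) (nat_lit 0) (XT.lf (nat_lit 0) (nat_lit 12931573544) (nat_lit 76) (nat_lit 39665652000) (nat_lit 152) (nat_lit 314852512930) (nat_lit 40) (nat_lit 5) (nat_lit 41) (nat_lit 5) (nat_lit 42) (nat_lit 4) (nat_lit 526) (nat_lit 436) (nat_lit 238)) (XT.lf (nat_lit 0) (nat_lit 160260243871) (nat_lit 152) (nat_lit 150197988355) (nat_lit 0) (nat_lit 69885932506)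 (nat_lit 40) (nat_lit 5) (nat_lit 42) (nat_lit 4) (nat_lit 40) (nat_lit 4) (nat_lit 527) (nat_lit 436) (nat_lit 237))) (XT.nd (nat_lit 78) (nat_lit 0) (nat_lit 0) (XT.lf (nat_lit 0) (nat_lit 65792395870) (nat_lit 76) (nat_lit 209190824385) (nat_lit 76) (nat_lit 118816251694) (nat_lit 39) (nat_lit 4) (nat_lit 40) (nat_lit 5) (nat_lit 40) (nat_lit 4) (nat_lit 528) (nat_lit 436) (nat_lit 236)) (XT.lf (nat_lit 0) (nat_lit 297795543332) (nat_lit 76) (nat_lit 100189835549) (nat_lit 76) (nat_lit 9815013977) (nat_lit 39) (nat_lit 4) (nat_lit 40) (nat_lit 5) (nat_lit 40) (nat_lit 4) (nat_lit 529) (nat_lit 436) (nat_lit 235))))) (XT.nd (nat_lit 312) (nat_lit 304) (nat_lit 0) (XT.nd (nat_lit 156) (nat_lit 152) (nat_lit 0) (XT.nd (nat_lit 78) (nat_lit 0) (nat_lit 0) (XT.lf (nat_lit 0) (nat_lit 103458415575) (nat_lit 152) (nat_lit 301465772536) (nat_lit 0) (nat_lit 17386931192) (nat_lit 37) (nat_lit 5) (nat_lit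 39) (nat_lit 4) (nat_lit 37) (nat_lit 4) (nat_lit 530) (nat_lit 436) (nat_lit 234)) (XT.lf (nat_lit 0) (nat_lit 225601029300) (nat_lit 152) (nat_lit 72232209680) (nat_lit 0) (nat_lit 139529329924) (nat_lit 37) (nat_lit 5) (nat_lit 39) (nat_lit 4) (nat_lit 37) (nat_lit 4) (nat_lit 531) (nat_lit 436) (nat_lit 233))) (XT.nd (nat_lit 78) (nat_lit 76) (nat_lit 0) (XT.lf (nat_lit 0) (nat_lit 174031949310) (nat_lit 76) (nat_lit 182535359526) (nat_lit 76) (nat_lit 96463455395) (nat_lit 36) (nat_lit 4) (nat_lit 37) (nat_lit 5) (nat_lit 37) (nat_lit 4) (nat_lit 532) (nat_lit 436) (nat_lit 232)) (XT.lf (nat_lit 0) (nat_lit 25054944652) (nat_lit 152) (nat_lit 34709462597) (nat_lit 76) (nat_lit 409636621178) (nat_lit 35) (nat_lit 5) (nat_lit 37) (nat_lit 5) (nat_lit 36) (nat_lit 4) (nat_lit 533) (nat_lit 436) (nat_lit 231)))) (XT.nd (nat_lit 156) (nat_lit 228) (nat_lit 0) (XT.nd (nat_lit 78) (nat_lit 0) (nat_lit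 0) (XT.lf (nat_lit 0) (nat_lit 154122391408) (nat_lit 152) (nat_lit 260003812669) (nat_lit 0) (nat_lit 72148786784) (nat_lit 34) (nat_lit 5) (nat_lit 36) (nat_lit 4) (nat_lit 34) (nat_lit 4) (nat_lit 534) (nat_lit 436) (nat_lit 230)) (XT.lf (nat_lit 0) (nat_lit 291219850567) (nat_lit 152) (nat_lit 3447891359) (nat_lit 0) (nat_lit 209246077491) (nat_lit 34) (nat_lit 5) (nat_lit 36) (nat_lit 4) (nat_lit 34) (nat_lit 4) (nat_lit 535) (nat_lit 436) (nat_lit 229))) (XT.nd (nat_lit 78) (nat_lit 152) (nat_lit 0) (XT.lf (nat_lit 0) (nat_lit 274727748330) (nat_lit 76) (nat_lit 164733168925) (nat_lit 76) (nat_lit 82759235417) (nat_lit 33) (nat_lit 4) (nat_lit 34) (nat_lit 5) (nat_lit 34) (nat_lit 4) (nat_lit 536) (nat_lit 436) (nat_lit 228)) (XT.lf (nat_lit 0) (nat_lit 25468115923) (nat_lit 76) (nat_lit 26942714429) (nat_lit 152) (nat_lit 488966251422) (nat_lit 31) (nat_lit 5) (nat_lit 32) (nat_lit 5) (nat_lit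 33) (nat_lit 4) (nat_lit 537) (nat_lit 436) (nat_lit 227)))))) (XT.nd (nat_lit 624) (nat_lit 228) (nat_lit 0) (XT.nd (nat_lit 312) (nat_lit 228) (nat_lit 0) (XT.nd (nat_lit 156) (nat_lit 152) (nat_lit 0) (XT.nd (nat_lit 78) (nat_lit 76) (nat_lit 0) (XT.lf (nat_lit 0) (nat_lit 197655935433) (nat_lit 152) (nat_lit 243877958542) (nat_lit 0) (nat_lit 119585238467) (nat_lit 31) (nat_lit 5) (nat_lit 33) (nat_lit 4) (nat_lit 31) (nat_lit 4) (nat_lit 538) (nat_lit 436) (nat_lit 226)) (XT.lf (nat_lit 0) (nat_lit 42677842218) (nat_lit 76) (nat_lit 308592948809) (nat_lit 76) (nat_lit 230522119855) (nat_lit 30) (nat_lit 4) (nat_lit 31) (nat_lit 5) (nat_lit 31) (nat_lit 4) (nat_lit 539) (nat_lit 436) (nat_lit 225))) (XT.nd (nat_lit 78) (nat_lit 152) (nat_lit 0) (XT.lf (nat_lit 0) (nat_lit 352027311118) (nat_lit 76) (nat_lit 164668768633) (nat_lit 76) (nat_lit 86597813977) (nat_lit 30) (nat_lit 4) (nat_lit 31)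 (nat_lit 5) (nat_lit 31) (nat_lit 4) (nat_lit 540) (nat_lit 436) (nat_lit 224)) (XT.lf (nat_lit 0) (nat_lit 51618066265) (nat_lit 76) (nat_lit 11644929167) (nat_lit 152) (nat_lit 562516290381) (nat_lit 28) (nat_lit 5) (nat_lit 29) (nat_lit 5) (nat_lit 30) (nat_lit 4) (nat_lit 541) (nat_lit 436) (nat_lit 223)))) (XT.nd (nat_lit 156) (nat_lit 152) (nat_lit 0) (XT.nd (nat_lit 78) (nat_lit 76) (nat_lit 0) (XT.lf (nat_lit 0) (nat_lit 224357964503) (nat_lit 152) (nat_lit 274622980751) (nat_lit 0) (nat_lit 150004451753) (nat_lit 28) (nat_lit 5) (nat_lit 30) (nat_lit 4) (nat_lit 28) (nat_lit 4) (nat_lit 542) (nat_lit 436) (nat_lit 222)) (XT.lf (nat_lit 0) (nat_lit 41013006559) (nat_lit 76) (nat_lit 353325442509) (nat_lit 76) (nat_lit 278971826344) (nat_lit 27) (nat_lit 4) (nat_lit 28) (nat_lit 5) (nat_lit 28) (nat_lit 4) (nat_lit 543) (nat_lit 436) (nat_lit 221))) (XT.nd (nat_lit 78) (nat_lit 152) (nat_lit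 0) (XT.lf (nat_lit 0) (nat_lit 381964162807) (nat_lit 76) (nat_lit 195504214311) (nat_lit 76) (nat_lit 121150499655) (nat_lit 27) (nat_lit 4) (nat_lit 28) (nat_lit 5) (nat_lit 28) (nat_lit 4) (nat_lit 544) (nat_lit 436) (nat_lit 220)) (XT.lf (nat_lit 0) (nat_lit 14538669946) (nat_lit 76) (nat_lit 28823514640) (nat_lit 152) (nat_lit 681784609312) (nat_lit 25) (nat_lit 5) (nat_lit 26) (nat_lit 5) (nat_lit 27) (nat_lit 4) (nat_lit 545) (nat_lit 436) (nat_lit 219))))) (XT.nd (nat_lit 312) (nat_lit 152) (nat_lit 0) (XT.nd (nat_lit 156) (nat_lit 76) (nat_lit 0) (XT.nd (nat_lit 78) (nat_lit 0) (nat_lit 0) (XT.lf (nat_lit 0) (nat_lit 219761681411) (nat_lit 152) (nat_lit 383805044881) (nat_lit 0) (nat_lit 148948445420) (nat_lit 25) (nat_lit 5) (nat_lit 27) (nat_lit 4) (nat_lit 25) (nat_lit 4) (nat_lit 546) (nat_lit 436) (nat_lit 218)) (XT.lf (nat_lit 0) (nat_lit 405453251627) (nat_lit 152) (nat_lit 41135177256)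 (nat_lit 0) (nat_lit 334639934607) (nat_lit 25) (nat_lit 5) (nat_lit 27) (nat_lit 4) (nat_lit 25) (nat_lit 4) (nat_lit 547) (nat_lit 436) (nat_lit 217))) (XT.nd (nat_lit 78) (nat_lit 0) (nat_lit 0) (XT.lf (nat_lit 0) (nat_lit 329203957975) (nat_lit 76) (nat_lit 276364840581) (nat_lit 76) (nat_lit 205551446391) (nat_lit 24) (nat_lit 4) (nat_lit 25) (nat_lit 5) (nat_lit 25) (nat_lit 4) (nat_lit 548) (nat_lit 436) (nat_lit 216)) (XT.lf (nat_lit 0) (nat_lit 719487375127) (nat_lit 76) (nat_lit 96899000205) (nat_lit 76) (nat_lit 26085532520) (nat_lit 24) (nat_lit 4) (nat_lit 25) (nat_lit 5) (nat_lit 25) (nat_lit 4) (nat_lit 549) (nat_lit 436) (nat_lit 215)))) (XT.nd (nat_lit 53664) (nat_lit 0) (nat_lit 10716) (XT.nd (nat_lit 78) (nat_lit 0) (nat_lit 0) (XT.lf (nat_lit 0) (nat_lit 162748339236) (nat_lit 152) (nat_lit 616929650406) (nat_lit 0) (nat_lit 95306874778) (nat_lit 22) (nat_lit 5) (nat_lit 24)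 (nat_lit 4) (nat_lit 22) (nat_lit 4) (nat_lit 550) (nat_lit 436) (nat_lit 214)) (XT.lf (nat_lit 0) (nat_lit 363852335833) (nat_lit 152) (nat_lit 248653689704) (nat_lit 0) (nat_lit 296410807887) (nat_lit 22) (nat_lit 5) (nat_lit 24) (nat_lit 4) (nat_lit 22) (nat_lit 4) (nat_lit 551) (nat_lit 436) (nat_lit 213))) (XT.nd (nat_lit 78) (nat_lit 0) (nat_lit 0) (XT.lf (nat_lit 0) (nat_lit 4740800899) (nat_lit 836) (nat_lit 3818603707) (nat_lit 836) (nat_lit 3818603707) (nat_lit 163) (nat_lit 3) (nat_lit 174) (nat_lit 3) (nat_lit 174) (nat_lit 5) (nat_lit 437) (nat_lit 437) (nat_lit 326)) (XT.nd (nat_lit 78) (nat_lit 0) (nat_lit 76) (XT.lf (nat_lit 76) (nat_lit 4845840954) (nat_lit 0) (nat_lit 5054111897) (nat_lit 836) (nat_lit 15465890487) (nat_lit 164) (nat_lit 5) (nat_lit 163) (nat_lit 3) (nat_lit 174) (nat_lit 5) (nat_lit 438) (nat_lit 437) (nat_lit 325)) (XT.lf (nat_lit 0) (nat_lit 10582783432) (nat_lit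 760) (nat_lit 7906558544) (nat_lit 836) (nat_lit 7504641832) (nat_lit 164) (nat_lit 5) (nat_lit 174) (nat_lit 5) (nat_lit 175) (nat_lit 5) (nat_lit 439) (nat_lit 437) (nat_lit 324))))))))
noncomputable def xc340 : XT := (XT.nd (nat_lit 1248) (nat_lit 2660) (nat_lit 0) (XT.nd (nat_lit 624) (nat_lit 2052) (nat_lit 0) (XT.nd (nat_lit 312) (nat_lit 0) (nat_lit 152) (XT.nd (nat_lit 156) (nat_lit 0) (nat_lit 76) (XT.nd (nat_lit 78) (nat_lit 0) (nat_lit 76) (XT.lf (nat_lit 76) (nat_lit 5424453792) (nat_lit 0) (nat_lit 6036398181) (nat_lit 836) (nat_lit 15184625003) (nat_lit 165) (nat_lit 5) (nat_lit 164) (nat_lit 5) (nat_lit 175) (nat_lit 5) (nat_lit 440) (nat_lit 437) (nat_lit 323)) (XT.lf (nat_lit 0) (nat_lit 12622658319) (nat_lit 760) (nat_lit 7742583170) (nat_lit 836) (nat_lit 6952312069) (nat_lit 165) (nat_lit 5) (nat_lit 175) (nat_lit 5) (nat_lit 176) (nat_lit 5) (nat_lit 441) (nat_lit 437) (nat_lit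 322))) (XT.nd (nat_lit 78) (nat_lit 0) (nat_lit 76) (XT.lf (nat_lit 76) (nat_lit 6515401304) (nat_lit 0) (nat_lit 7521964555) (nat_lit 836) (nat_lit 13976128016) (nat_lit 166) (nat_lit 5) (nat_lit 165) (nat_lit 5) (nat_lit 176) (nat_lit 5) (nat_lit 442) (nat_lit 437) (nat_lit 321)) (XT.lf (nat_lit 0) (nat_lit 15743565482) (nat_lit 760) (nat_lit 7082041590) (nat_lit 836) (nat_lit 5907586732) (nat_lit 166) (nat_lit 5) (nat_lit 176) (nat_lit 5) (nat_lit 177) (nat_lit 5) (nat_lit 443) (nat_lit 437) (nat_lit 320)))) (XT.nd (nat_lit 156) (nat_lit 0) (nat_lit 76) (XT.nd (nat_lit 78) (nat_lit 0) (nat_lit 76) (XT.lf (nat_lit 76) (nat_lit 8189619588) (nat_lit 0) (nat_lit 9591273261) (nat_lit 836) (nat_lit 11695695400) (nat_lit 167) (nat_lit 5) (nat_lit 166) (nat_lit 5) (nat_lit 177) (nat_lit 5) (nat_lit 444) (nat_lit 437) (nat_lit 319)) (XT.lf (nat_lit 0) (nat_lit 20104056922) (nat_lit 760) (nat_lit 5853808607)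 (nat_lit 836) (nat_lit 4290088760) (nat_lit 167) (nat_lit 5) (nat_lit 177) (nat_lit 5) (nat_lit 178) (nat_lit 5) (nat_lit 445) (nat_lit 437) (nat_lit 318))) (XT.nd (nat_lit 78) (nat_lit 0) (nat_lit 76) (XT.lf (nat_lit 76) (nat_lit 10526682109) (nat_lit 0) (nat_lit 12333383711) (nat_lit 836) (nat_lit 8181988852) (nat_lit 168) (nat_lit 5) (nat_lit 167) (nat_lit 5) (nat_lit 178) (nat_lit 5) (nat_lit 446) (nat_lit 437) (nat_lit 317)) (XT.lf (nat_lit 0) (nat_lit 25880716313) (nat_lit 760) (nat_lit 3978090560) (nat_lit 76) (nat_lit 2010711495) (nat_lit 168) (nat_lit 5) (nat_lit 178) (nat_lit 5) (nat_lit 169) (nat_lit 5) (nat_lit 447) (nat_lit 437) (nat_lit 316))))) (XT.nd (nat_lit 312) (nat_lit 684) (nat_lit 0) (XT.nd (nat_lit 156) (nat_lit 912) (nat_lit 0) (XT.nd (nat_lit 78) (nat_lit 0) (nat_lit 0) (XT.lf (nat_lit 0) (nat_lit 13615657820) (nat_lit 760) (nat_lit 15847016603) (nat_lit 836) (nat_lit 3255167408)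 (nat_lit 158) (nat_lit 5) (nat_lit 168) (nat_lit 5) (nat_lit 169) (nat_lit 5) (nat_lit 448) (nat_lit 437) (nat_lit 315)) (XT.lf (nat_lit 0) (nat_lit 32223271228) (nat_lit 760) (nat_lit 1063492412) (nat_lit 836) (nat_lit 318666488) (nat_lit 158) (nat_lit 5) (nat_lit 168) (nat_lit 5) (nat_lit 169) (nat_lit 5) (nat_lit 449) (nat_lit 437) (nat_lit 314))) (XT.nd (nat_lit 78) (nat_lit 380) (nat_lit 0) (XT.lf (nat_lit 0) (nat_lit 3180022430) (nat_lit 532) (nat_lit 17007838610) (nat_lit 76) (nat_lit 14322186422) (nat_lit 151) (nat_lit 5) (nat_lit 158) (nat_lit 5) (nat_lit 152) (nat_lit 5) (nat_lit 450) (nat_lit 437) (nat_lit 313)) (XT.lf (nat_lit 0) (nat_lit 1955574839) (nat_lit 380) (nat_lit 4955064074) (nat_lit 456) (nat_lit 28545610701) (nat_lit 146) (nat_lit 5) (nat_lit 151) (nat_lit 5) (nat_lit 152) (nat_lit 5) (nat_lit 451) (nat_lit 437) (nat_lit 312)))) (XT.nd (nat_lit 156) (nat_lit 304) (nat_lit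 0) (XT.nd (nat_lit 78) (nat_lit 380) (nat_lit 0) (XT.lf (nat_lit 0) (nat_lit 11288975078) (nat_lit 456) (nat_lit 14158964509) (nat_lit 76) (nat_lit 10978763111) (nat_lit 146) (nat_lit 5) (nat_lit 152) (nat_lit 5) (nat_lit 147) (nat_lit 5) (nat_lit 452) (nat_lit 437) (nat_lit 311)) (XT.lf (nat_lit 0) (nat_lit 6265163454) (nat_lit 380) (nat_lit 9796374229) (nat_lit 456) (nat_lit 21375375520) (nat_lit 141) (nat_lit 5) (nat_lit 146) (nat_lit 5) (nat_lit 147) (nat_lit 5) (nat_lit 453) (nat_lit 437) (nat_lit 310))) (XT.nd (nat_lit 78) (nat_lit 304) (nat_lit 0) (XT.lf (nat_lit 0) (nat_lit 21416457600) (nat_lit 456) (nat_lit 10395219504) (nat_lit 76) (nat_lit 6668770910) (nat_lit 141) (nat_lit 5) (nat_lit 147) (nat_lit 5) (nat_lit 142) (nat_lit 5) (nat_lit 454) (nat_lit 437) (nat_lit 309)) (XT.lf (nat_lit 0) (nat_lit 11627823289) (nat_lit 304) (nat_lit 15749987163) (nat_lit 380) (nat_lit 12181414994) (nat_lit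 137) (nat_lit 5) (nat_lit 141) (nat_lit 5) (nat_lit 142) (nat_lit 5) (nat_lit 455) (nat_lit 437) (nat_lit 308)))))) (XT.nd (nat_lit 624) (nat_lit 1444) (nat_lit 0) (XT.nd (nat_lit 312) (nat_lit 532) (nat_lit 0) (XT.nd (nat_lit 156) (nat_lit 380) (nat_lit 0) (XT.nd (nat_lit 78) (nat_lit 304) (nat_lit 0) (XT.lf (nat_lit 0) (nat_lit 33830215176) (nat_lit 380) (nat_lit 5594491844) (nat_lit 76) (nat_lit 1257585735) (nat_lit 137) (nat_lit 5) (nat_lit 142) (nat_lit 5) (nat_lit 138) (nat_lit 5) (nat_lit 456) (nat_lit 437) (nat_lit 307)) (XT.lf (nat_lit 0) (nat_lit 18179124137) (nat_lit 304) (nat_lit 22964944507) (nat_lit 380) (nat_lit 690503568) (nat_lit 133) (nat_lit 5) (nat_lit 137) (nat_lit 5) (nat_lit 138) (nat_lit 5) (nat_lit 457) (nat_lit 437) (nat_lit 306))) (XT.nd (nat_lit 78) (nat_lit 0) (nat_lit 0) (XT.lf (nat_lit 0) (nat_lit 206929655) (nat_lit 304) (nat_lit 5483627846) (nat_lit 380) (nat_lit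 37344578030) (nat_lit 128) (nat_lit 5) (nat_lit 132) (nat_lit 5) (nat_lit 133) (nat_lit 5) (nat_lit 458) (nat_lit 437) (nat_lit 305)) (XT.lf (nat_lit 0) (nat_lit 12972542285) (nat_lit 380) (nat_lit 18414770037) (nat_lit 76) (nat_lit 12877595081) (nat_lit 128) (nat_lit 5) (nat_lit 133) (nat_lit 5) (nat_lit 129) (nat_lit 5) (nat_lit 459) (nat_lit 437) (nat_lit 304)))) (XT.nd (nat_lit 156) (nat_lit 228) (nat_lit 0) (XT.nd (nat_lit 78) (nat_lit 0) (nat_lit 0) (XT.lf (nat_lit 0) (nat_lit 7361324231) (nat_lit 304) (nat_lit 13459202804) (nat_lit 380) (nat_lit 24725545968) (nat_lit 124) (nat_lit 5) (nat_lit 128) (nat_lit 5) (nat_lit 129) (nat_lit 5) (nat_lit 460) (nat_lit 437) (nat_lit 303)) (XT.lf (nat_lit 0) (nat_lit 29458797660) (nat_lit 380) (nat_lit 11902836927) (nat_lit 76) (nat_lit 5509768125) (nat_lit 124) (nat_lit 5) (nat_lit 129) (nat_lit 5) (nat_lit 125) (nat_lit 5) (nat_lit 461) (nat_lit 437)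 (nat_lit 302))) (XT.nd (nat_lit 78) (nat_lit 0) (nat_lit 0) (XT.lf (nat_lit 0) (nat_lit 15980385131) (nat_lit 228) (nat_lit 23016017502) (nat_lit 304) (nat_lit 9243225386) (nat_lit 121) (nat_lit 5) (nat_lit 124) (nat_lit 5) (nat_lit 125) (nat_lit 5) (nat_lit 462) (nat_lit 437) (nat_lit 301)) (XT.lf (nat_lit 0) (nat_lit 45667451385) (nat_lit 228) (nat_lit 3542370343) (nat_lit 304) (nat_lit 456496318) (nat_lit 121) (nat_lit 5) (nat_lit 124) (nat_lit 5) (nat_lit 125) (nat_lit 5) (nat_lit 463) (nat_lit 437) (nat_lit 300))))) (XT.nd (nat_lit 312) (nat_lit 608) (nat_lit 0) (XT.nd (nat_lit 156) (nat_lit 228) (nat_lit 0) (XT.nd (nat_lit 78) (nat_lit 228) (nat_lit 0) (XT.lf (nat_lit 0) (nat_lit 9171082925) (nat_lit 380) (nat_lit 25031535738) (nat_lit 76) (nat_lit 16920768431) (nat_lit 116) (nat_lit 5) (nat_lit 121) (nat_lit 5) (nat_lit 117) (nat_lit 5) (nat_lit 464) (nat_lit 437) (nat_lit 299)) (XT.lf (nat_lit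 0) (nat_lit 5274643170) (nat_lit 228) (nat_lit 14196805637) (nat_lit 304) (nat_lit 33171149290) (nat_lit 113) (nat_lit 5) (nat_lit 116) (nat_lit 5) (nat_lit 117) (nat_lit 5) (nat_lit 465) (nat_lit 437) (nat_lit 298))) (XT.nd (nat_lit 78) (nat_lit 228) (nat_lit 0) (XT.lf (nat_lit 0) (nat_lit 30821557500) (nat_lit 304) (nat_lit 16368241638) (nat_lit 76) (nat_lit 7021234407) (nat_lit 113) (nat_lit 5) (nat_lit 117) (nat_lit 5) (nat_lit 114) (nat_lit 5) (nat_lit 466) (nat_lit 437) (nat_lit 297)) (XT.lf (nat_lit 0) (nat_lit 16472541556) (nat_lit 228) (nat_lit 26754205787) (nat_lit 304) (nat_lit 12606764751) (nat_lit 110) (nat_lit 5) (nat_lit 113) (nat_lit 5) (nat_lit 114) (nat_lit 5) (nat_lit 467) (nat_lit 437) (nat_lit 296)))) (XT.nd (nat_lit 156) (nat_lit 380) (nat_lit 0) (XT.nd (nat_lit 78) (nat_lit 228) (nat_lit 0) (XT.lf (nat_lit 0) (nat_lit 51520281783) (nat_lit 228) (nat_lit 5006836830) (nat_lit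 304) (nat_lit 996249971) (nat_lit 110) (nat_lit 5) (nat_lit 113) (nat_lit 5) (nat_lit 114) (nat_lit 5) (nat_lit 468) (nat_lit 437) (nat_lit 295)) (XT.lf (nat_lit 0) (nat_lit 11588333452) (nat_lit 228) (nat_lit 29756267488) (nat_lit 76) (nat_lit 17906785649) (nat_lit 107) (nat_lit 5) (nat_lit 110) (nat_lit 5) (nat_lit 108) (nat_lit 5) (nat_lit 469) (nat_lit 437) (nat_lit 294))) (XT.nd (nat_lit 78) (nat_lit 152) (nat_lit 0) (XT.lf (nat_lit 0) (nat_lit 6004735040) (nat_lit 228) (nat_lit 19040921669) (nat_lit 304) (nat_lit 36005482721) (nat_lit 104) (nat_lit 5) (nat_lit 107) (nat_lit 5) (nat_lit 108) (nat_lit 5) (nat_lit 470) (nat_lit 437) (nat_lit 293)) (XT.nd (nat_lit 78) (nat_lit 152) (nat_lit 0) (XT.lf (nat_lit 0) (nat_lit 39754260417) (nat_lit 304) (nat_lit 18408775979) (nat_lit 76) (nat_lit 4748922894) (nat_lit 104) (nat_lit 5) (nat_lit 108) (nat_lit 5) (nat_lit 105) (nat_lit 5) (nat_lit 471)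 (nat_lit 437) (nat_lit 292)) (XT.lf (nat_lit 0) (nat_lit 20398281106) (nat_lit 152) (nat_lit 35428599797) (nat_lit 228) (nat_lit 9007509997) (nat_lit 102) (nat_lit 5) (nat_lit 104) (nat_lit 5) (nat_lit 105) (nat_lit 5) (nat_lit 472) (nat_lit 437) (nat_lit 291))))))))
noncomputable def xc341 : XT := (XT.nd (nat_lit 1248) (nat_lit 1368) (nat_lit 0) (XT.nd (nat_lit 624) (nat_lit 760) (nat_lit 0) (XT.nd (nat_lit 312) (nat_lit 532) (nat_lit 0) (XT.nd (nat_lit 156) (nat_lit 152) (nat_lit 0) (XT.nd (nat_lit 78) (nat_lit 228) (nat_lit 0) (XT.lf (nat_lit 0) (nat_lit 5977799529) (nat_lit 228) (nat_lit 5152196937) (nat_lit 76) (nat_lit 55702638121) (nat_lit 101) (nat_lit 5) (nat_lit 104) (nat_lit 5) (nat_lit 102) (nat_lit 5) (nat_lit 473) (nat_lit 437) (nat_lit 290)) (XT.lf (nat_lit 0) (nat_lit 22223976868) (nat_lit 304) (nat_lit 31997274261) (nat_lit 76) (nat_lit 14661440512) (nat_lit 98) (nat_lit 5) (nat_lit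 102) (nat_lit 5) (nat_lit 99) (nat_lit 5) (nat_lit 474) (nat_lit 437) (nat_lit 289))) (XT.nd (nat_lit 78) (nat_lit 0) (nat_lit 0) (XT.lf (nat_lit 0) (nat_lit 10316117291) (nat_lit 152) (nat_lit 29396658513) (nat_lit 228) (nat_lit 31300960177) (nat_lit 96) (nat_lit 5) (nat_lit 98) (nat_lit 5) (nat_lit 99) (nat_lit 5) (nat_lit 475) (nat_lit 437) (nat_lit 288)) (XT.lf (nat_lit 0) (nat_lit 55853031269) (nat_lit 152) (nat_lit 2763020743) (nat_lit 228) (nat_lit 14608278728) (nat_lit 96) (nat_lit 5) (nat_lit 98) (nat_lit 5) (nat_lit 99) (nat_lit 5) (nat_lit 476) (nat_lit 437) (nat_lit 287)))) (XT.nd (nat_lit 156) (nat_lit 304) (nat_lit 0) (XT.nd (nat_lit 78) (nat_lit 0) (nat_lit 0) (XT.lf (nat_lit 0) (nat_lit 3678234646) (nat_lit 228) (nat_lit 46921217406) (nat_lit 76) (nat_lit 24901093266) (nat_lit 93) (nat_lit 5) (nat_lit 96) (nat_lit 5) (nat_lit 94) (nat_lit 5) (nat_lit 477) (nat_lit 437) (nat_lit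 286)) (XT.lf (nat_lit 0) (nat_lit 22730679080) (nat_lit 228) (nat_lit 737838686) (nat_lit 76) (nat_lit 54392951949) (nat_lit 93) (nat_lit 5) (nat_lit 96) (nat_lit 5) (nat_lit 94) (nat_lit 5) (nat_lit 478) (nat_lit 437) (nat_lit 285))) (XT.nd (nat_lit 78) (nat_lit 152) (nat_lit 0) (XT.lf (nat_lit 0) (nat_lit 43595220095) (nat_lit 228) (nat_lit 31062198956) (nat_lit 76) (nat_lit 5640047620) (nat_lit 91) (nat_lit 5) (nat_lit 94) (nat_lit 5) (nat_lit 92) (nat_lit 5) (nat_lit 479) (nat_lit 437) (nat_lit 284)) (XT.lf (nat_lit 0) (nat_lit 19101605848) (nat_lit 152) (nat_lit 47095375735) (nat_lit 228) (nat_lit 16623582273) (nat_lit 89) (nat_lit 5) (nat_lit 91) (nat_lit 5) (nat_lit 92) (nat_lit 5) (nat_lit 480) (nat_lit 437) (nat_lit 283))))) (XT.nd (nat_lit 312) (nat_lit 380) (nat_lit 0) (XT.nd (nat_lit 156) (nat_lit 152) (nat_lit 0) (XT.nd (nat_lit 78) (nat_lit 152) (nat_lit 0) (XT.lf (nat_lit 0) (nat_lit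 4849318620) (nat_lit 228) (nat_lit 12672590599) (nat_lit 76) (nat_lit 67917774856) (nat_lit 88) (nat_lit 5) (nat_lit 91) (nat_lit 5) (nat_lit 89) (nat_lit 5) (nat_lit 481) (nat_lit 437) (nat_lit 282)) (XT.lf (nat_lit 0) (nat_lit 27717726932) (nat_lit 228) (nat_lit 46374905503) (nat_lit 76) (nat_lit 14039475842) (nat_lit 86) (nat_lit 5) (nat_lit 89) (nat_lit 5) (nat_lit 87) (nat_lit 5) (nat_lit 482) (nat_lit 437) (nat_lit 281))) (XT.nd (nat_lit 78) (nat_lit 0) (nat_lit 0) (XT.lf (nat_lit 0) (nat_lit 8374576049) (nat_lit 152) (nat_lit 43989546842) (nat_lit 228) (nat_lit 38563302480) (nat_lit 84) (nat_lit 5) (nat_lit 86) (nat_lit 5) (nat_lit 87) (nat_lit 5) (nat_lit 483) (nat_lit 437) (nat_lit 280)) (XT.lf (nat_lit 0) (nat_lit 67468881012) (nat_lit 152) (nat_lit 11557809084) (nat_lit 228) (nat_lit 14796625693) (nat_lit 84) (nat_lit 5) (nat_lit 86) (nat_lit 5) (nat_lit 87) (nat_lit 5) (nat_lit 484)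 (nat_lit 437) (nat_lit 279)))) (XT.nd (nat_lit 156) (nat_lit 228) (nat_lit 0) (XT.nd (nat_lit 78) (nat_lit 0) (nat_lit 0) (XT.lf (nat_lit 0) (nat_lit 10718239757) (nat_lit 152) (nat_lit 63625281956) (nat_lit 76) (nat_lit 22468299680) (nat_lit 82) (nat_lit 5) (nat_lit 84) (nat_lit 5) (nat_lit 83) (nat_lit 5) (nat_lit 485) (nat_lit 437) (nat_lit 278)) (XT.lf (nat_lit 0) (nat_lit 37653231112) (nat_lit 152) (nat_lit 3749881057) (nat_lit 76) (nat_lit 58502429447) (nat_lit 82) (nat_lit 5) (nat_lit 84) (nat_lit 5) (nat_lit 83) (nat_lit 5) (nat_lit 486) (nat_lit 437) (nat_lit 277))) (XT.nd (nat_lit 78) (nat_lit 76) (nat_lit 0) (XT.lf (nat_lit 0) (nat_lit 61071465666) (nat_lit 152) (nat_lit 5815605094) (nat_lit 228) (nat_lit 36219272190) (nat_lit 80) (nat_lit 5) (nat_lit 82) (nat_lit 5) (nat_lit 83) (nat_lit 5) (nat_lit 487) (nat_lit 437) (nat_lit 276)) (XT.lf (nat_lit 0) (nat_lit 23041377168) (nat_lit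 76) (nat_lit 75456730062) (nat_lit 152) (nat_lit 7923301910) (nat_lit 79) (nat_lit 5) (nat_lit 80) (nat_lit 5) (nat_lit 81) (nat_lit 4) (nat_lit 488) (nat_lit 437) (nat_lit 275)))))) (XT.nd (nat_lit 624) (nat_lit 532) (nat_lit 0) (XT.nd (nat_lit 312) (nat_lit 456) (nat_lit 0) (XT.nd (nat_lit 156) (nat_lit 152) (nat_lit 0) (XT.nd (nat_lit 78) (nat_lit 152) (nat_lit 0) (XT.lf (nat_lit 0) (nat_lit 21907639465) (nat_lit 152) (nat_lit 17485514861) (nat_lit 76) (nat_lit 70451190792) (nat_lit 78) (nat_lit 5) (nat_lit 80) (nat_lit 5) (nat_lit 79) (nat_lit 5) (nat_lit 489) (nat_lit 437) (nat_lit 274)) (XT.lf (nat_lit 0) (nat_lit 53276633124) (nat_lit 152) (nat_lit 517701846) (nat_lit 228) (nat_lit 59596074345) (nat_lit 76) (nat_lit 5) (nat_lit 78) (nat_lit 5) (nat_lit 79) (nat_lit 5) (nat_lit 490) (nat_lit 437) (nat_lit 273))) (XT.nd (nat_lit 78) (nat_lit 76) (nat_lit 0) (XT.lf (nat_lit 0) (nat_lit 10793976937)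 (nat_lit 76) (nat_lit 77578806217) (nat_lit 152) (nat_lit 28686122700) (nat_lit 75) (nat_lit 5) (nat_lit 76) (nat_lit 5) (nat_lit 77) (nat_lit 4) (nat_lit 491) (nat_lit 437) (nat_lit 272)) (XT.lf (nat_lit 0) (nat_lit 4690614881) (nat_lit 152) (nat_lit 33612221770) (nat_lit 76) (nat_lit 82552951588) (nat_lit 74) (nat_lit 5) (nat_lit 76) (nat_lit 5) (nat_lit 75) (nat_lit 5) (nat_lit 492) (nat_lit 437) (nat_lit 271)))) (XT.nd (nat_lit 156) (nat_lit 304) (nat_lit 0) (XT.nd (nat_lit 78) (nat_lit 0) (nat_lit 0) (XT.lf (nat_lit 0) (nat_lit 39516266789) (nat_lit 228) (nat_lit 81253827007) (nat_lit 76) (nat_lit 4011701792) (nat_lit 72) (nat_lit 5) (nat_lit 75) (nat_lit 5) (nat_lit 73) (nat_lit 4) (nat_lit 493) (nat_lit 437) (nat_lit 270)) (XT.lf (nat_lit 0) (nat_lit 77288455478) (nat_lit 228) (nat_lit 3823076395) (nat_lit 76) (nat_lit 47732308743) (nat_lit 72) (nat_lit 5) (nat_lit 75) (nat_lit 5) (nat_lit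 73) (nat_lit 4) (nat_lit 494) (nat_lit 437) (nat_lit 269))) (XT.nd (nat_lit 78) (nat_lit 228) (nat_lit 0) (XT.lf (nat_lit 0) (nat_lit 80038764637) (nat_lit 76) (nat_lit 38158944864) (nat_lit 152) (nat_lit 14848855621) (nat_lit 71) (nat_lit 5) (nat_lit 72) (nat_lit 5) (nat_lit 73) (nat_lit 4) (nat_lit 495) (nat_lit 437) (nat_lit 268)) (XT.lf (nat_lit 0) (nat_lit 23613125691) (nat_lit 228) (nat_lit 106134585798) (nat_lit 76) (nat_lit 7659296210) (nat_lit 68) (nat_lit 5) (nat_lit 71) (nat_lit 5) (nat_lit 69) (nat_lit 4) (nat_lit 496) (nat_lit 437) (nat_lit 267))))) (XT.nd (nat_lit 312) (nat_lit 304) (nat_lit 0) (XT.nd (nat_lit 156) (nat_lit 152) (nat_lit 0) (XT.nd (nat_lit 78) (nat_lit 76) (nat_lit 0) (XT.lf (nat_lit 0) (nat_lit 65036009180) (nat_lit 228) (nat_lit 21219514374) (nat_lit 76) (nat_lit 55640936576) (nat_lit 68) (nat_lit 5) (nat_lit 71) (nat_lit 5) (nat_lit 69) (nat_lit 4) (nat_lit 497)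 (nat_lit 437) (nat_lit 266)) (XT.lf (nat_lit 0) (nat_lit 70185595408) (nat_lit 76) (nat_lit 39439126896) (nat_lit 152) (nat_lit 36930928623) (nat_lit 67) (nat_lit 5) (nat_lit 68) (nat_lit 5) (nat_lit 69) (nat_lit 4) (nat_lit 498) (nat_lit 437) (nat_lit 265))) (XT.nd (nat_lit 78) (nat_lit 0) (nat_lit 0) (XT.lf (nat_lit 0) (nat_lit 5610483577) (nat_lit 152) (nat_lit 135685893431) (nat_lit 76) (nat_lit 10108760559) (nat_lit 65) (nat_lit 5) (nat_lit 67) (nat_lit 5) (nat_lit 66) (nat_lit 4) (nat_lit 499) (nat_lit 437) (nat_lit 264)) (XT.lf (nat_lit 0) (nat_lit 50997854234) (nat_lit 152) (nat_lit 42643297134) (nat_lit 76) (nat_lit 62727675473) (nat_lit 65) (nat_lit 5) (nat_lit 67) (nat_lit 5) (nat_lit 66) (nat_lit 4) (nat_lit 500) (nat_lit 437) (nat_lit 263)))) (XT.nd (nat_lit 156) (nat_lit 228) (nat_lit 0) (XT.nd (nat_lit 78) (nat_lit 0) (nat_lit 0) (XT.lf (nat_lit 0) (nat_lit 56869611087) (nat_lit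 76) (nat_lit 42671828364) (nat_lit 152) (nat_lit 61994918839) (nat_lit 64) (nat_lit 5) (nat_lit 65) (nat_lit 5) (nat_lit 66) (nat_lit 4) (nat_lit 501) (nat_lit 437) (nat_lit 262)) (XT.lf (nat_lit 0) (nat_lit 151414520268) (nat_lit 152) (nat_lit 4270693423) (nat_lit 0) (nat_lit 11231936818) (nat_lit 64) (nat_lit 5) (nat_lit 66) (nat_lit 4) (nat_lit 64) (nat_lit 4) (nat_lit 502) (nat_lit 437) (nat_lit 261))) (XT.nd (nat_lit 78) (nat_lit 76) (nat_lit 0) (XT.lf (nat_lit 0) (nat_lit 34604622206) (nat_lit 152) (nat_lit 69244353125) (nat_lit 76) (nat_lit 68574169852) (nat_lit 62) (nat_lit 5) (nat_lit 64) (nat_lit 5) (nat_lit 63) (nat_lit 4) (nat_lit 503) (nat_lit 437) (nat_lit 260)) (XT.nd (nat_lit 78) (nat_lit 0) (nat_lit 0) (XT.lf (nat_lit 0) (nat_lit 38937191879) (nat_lit 76) (nat_lit 48439494185) (nat_lit 152) (nat_lit 90781024523) (nat_lit 61) (nat_lit 5) (nat_lit 62) (nat_lit 5) (nat_lit 63) (nat_lit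 4) (nat_lit 504) (nat_lit 437) (nat_lit 259)) (XT.lf (nat_lit 0) (nat_lit 144130351908) (nat_lit 152) (nat_lit 29361763839) (nat_lit 0) (nat_lit 10619738586) (nat_lit 61) (nat_lit 5) (nat_lit 63) (nat_lit 4) (nat_lit 61) (nat_lit 4) (nat_lit 505) (nat_lit 437) (nat_lit 258))))))))
noncomputable def xc342 : XT := (XT.nd (nat_lit 1248) (nat_lit 1140) (nat_lit 0) (XT.nd (nat_lit 624) (nat_lit 532) (nat_lit 0) (XT.nd (nat_lit 312) (nat_lit 304) (nat_lit 0) (XT.nd (nat_lit 156) (nat_lit 76) (nat_lit 0) (XT.nd (nat_lit 78) (nat_lit 76) (nat_lit 0) (XT.lf (nat_lit 0) (nat_lit 15133231133) (nat_lit 152) (nat_lit 102488513926) (nat_lit 76) (nat_lit 72621393697) (nat_lit 59) (nat_lit 5) (nat_lit 61) (nat_lit 5) (nat_lit 60) (nat_lit 4) (nat_lit 506) (nat_lit 437) (nat_lit 257)) (XT.lf (nat_lit 0) (nat_lit 14901615207) (nat_lit 76) (nat_lit 57495569477) (nat_lit 152) (nat_lit 124214174804) (nat_lit 58) (nat_lit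 5) (nat_lit 59) (nat_lit 5) (nat_lit 60) (nat_lit 4) (nat_lit 507) (nat_lit 437) (nat_lit 256))) (XT.nd (nat_lit 78) (nat_lit 76) (nat_lit 0) (XT.lf (nat_lit 0) (nat_lit 134375554136) (nat_lit 152) (nat_lit 61610076927) (nat_lit 0) (nat_lit 7219799293) (nat_lit 58) (nat_lit 5) (nat_lit 60) (nat_lit 4) (nat_lit 58) (nat_lit 4) (nat_lit 508) (nat_lit 437) (nat_lit 255)) (XT.lf (nat_lit 0) (nat_lit 65651541021) (nat_lit 76) (nat_lit 135767964121) (nat_lit 76) (nat_lit 8611366478) (nat_lit 57) (nat_lit 4) (nat_lit 58) (nat_lit 5) (nat_lit 58) (nat_lit 4) (nat_lit 509) (nat_lit 437) (nat_lit 254)))) (XT.nd (nat_lit 156) (nat_lit 152) (nat_lit 0) (XT.nd (nat_lit 78) (nat_lit 76) (nat_lit 0) (XT.lf (nat_lit 0) (nat_lit 53929560339) (nat_lit 152) (nat_lit 16601801613) (nat_lit 76) (nat_lit 146570605404) (nat_lit 56) (nat_lit 5) (nat_lit 58) (nat_lit 5) (nat_lit 57) (nat_lit 4) (nat_lit 510) (nat_lit 437)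 (nat_lit 253)) (XT.lf (nat_lit 0) (nat_lit 121202796044) (nat_lit 152) (nat_lit 103122248307) (nat_lit 0) (nat_lit 99781992) (nat_lit 55) (nat_lit 5) (nat_lit 57) (nat_lit 4) (nat_lit 55) (nat_lit 4) (nat_lit 511) (nat_lit 437) (nat_lit 252))) (XT.nd (nat_lit 78) (nat_lit 76) (nat_lit 0) (XT.lf (nat_lit 0) (nat_lit 34521152372) (nat_lit 76) (nat_lit 159298687999) (nat_lit 76) (nat_lit 38194980573) (nat_lit 54) (nat_lit 4) (nat_lit 55) (nat_lit 5) (nat_lit 55) (nat_lit 4) (nat_lit 512) (nat_lit 437) (nat_lit 251)) (XT.lf (nat_lit 0) (nat_lit 30894774820) (nat_lit 152) (nat_lit 57770079400) (nat_lit 76) (nat_lit 151207266208) (nat_lit 53) (nat_lit 5) (nat_lit 55) (nat_lit 5) (nat_lit 54) (nat_lit 4) (nat_lit 513) (nat_lit 437) (nat_lit 250))))) (XT.nd (nat_lit 312) (nat_lit 228) (nat_lit 0) (XT.nd (nat_lit 156) (nat_lit 228) (nat_lit 0) (XT.nd (nat_lit 78) (nat_lit 0) (nat_lit 0) (XT.lf (nat_lit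 0) (nat_lit 91231949743) (nat_lit 76) (nat_lit 12347048518) (nat_lit 152) (nat_lit 144440800166) (nat_lit 52) (nat_lit 5) (nat_lit 53) (nat_lit 5) (nat_lit 54) (nat_lit 4) (nat_lit 514) (nat_lit 437) (nat_lit 249)) (XT.lf (nat_lit 0) (nat_lit 181949373056) (nat_lit 152) (nat_lit 7912179740) (nat_lit 0) (nat_lit 66610710527) (nat_lit 52) (nat_lit 5) (nat_lit 54) (nat_lit 4) (nat_lit 52) (nat_lit 4) (nat_lit 515) (nat_lit 437) (nat_lit 248))) (XT.nd (nat_lit 78) (nat_lit 76) (nat_lit 0) (XT.lf (nat_lit 0) (nat_lit 1560928051) (nat_lit 152) (nat_lit 112139303299) (nat_lit 76) (nat_lit 151516260150) (nat_lit 50) (nat_lit 5) (nat_lit 52) (nat_lit 5) (nat_lit 51) (nat_lit 4) (nat_lit 516) (nat_lit 437) (nat_lit 247)) (XT.lf (nat_lit 0) (nat_lit 48320653885) (nat_lit 76) (nat_lit 31513676406) (nat_lit 152) (nat_lit 194458023926) (nat_lit 49) (nat_lit 5) (nat_lit 50) (nat_lit 5) (nat_lit 51) (nat_lit 4)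 (nat_lit 517) (nat_lit 437) (nat_lit 246)))) (XT.nd (nat_lit 156) (nat_lit 152) (nat_lit 0) (XT.nd (nat_lit 78) (nat_lit 76) (nat_lit 0) (XT.lf (nat_lit 0) (nat_lit 164806211430) (nat_lit 152) (nat_lit 63918171516) (nat_lit 0) (nat_lit 54958386687) (nat_lit 49) (nat_lit 5) (nat_lit 51) (nat_lit 4) (nat_lit 49) (nat_lit 4) (nat_lit 518) (nat_lit 437) (nat_lit 245)) (XT.lf (nat_lit 0) (nat_lit 109215554634) (nat_lit 76) (nat_lit 147032185117) (nat_lit 76) (nat_lit 37183913419) (nat_lit 48) (nat_lit 4) (nat_lit 49) (nat_lit 5) (nat_lit 49) (nat_lit 4) (nat_lit 519) (nat_lit 437) (nat_lit 244))) (XT.nd (nat_lit 78) (nat_lit 76) (nat_lit 0) (XT.lf (nat_lit 0) (nat_lit 48137578624) (nat_lit 152) (nat_lit 11166661189) (nat_lit 76) (nat_lit 244270831839) (nat_lit 47) (nat_lit 5) (nat_lit 49) (nat_lit 5) (nat_lit 48) (nat_lit 4) (nat_lit 520) (nat_lit 437) (nat_lit 243)) (XT.lf (nat_lit 0) (nat_lit 139782716045)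 (nat_lit 152) (nat_lit 139082583766) (nat_lit 0) (nat_lit 35164522929) (nat_lit 46) (nat_lit 5) (nat_lit 48) (nat_lit 4) (nat_lit 46) (nat_lit 4) (nat_lit 521) (nat_lit 437) (nat_lit 242)))))) (XT.nd (nat_lit 624) (nat_lit 608) (nat_lit 0) (XT.nd (nat_lit 312) (nat_lit 304) (nat_lit 0) (XT.nd (nat_lit 156) (nat_lit 76) (nat_lit 0) (XT.nd (nat_lit 78) (nat_lit 76) (nat_lit 0) (XT.lf (nat_lit 0) (nat_lit 46260612717) (nat_lit 76) (nat_lit 191635480183) (nat_lit 76) (nat_lit 87016919357) (nat_lit 45) (nat_lit 4) (nat_lit 46) (nat_lit 5) (nat_lit 46) (nat_lit 4) (nat_lit 522) (nat_lit 437) (nat_lit 241)) (XT.lf (nat_lit 0) (nat_lit 6821712044) (nat_lit 152) (nat_lit 90634401336) (nat_lit 76) (nat_lit 238761008812) (nat_lit 44) (nat_lit 5) (nat_lit 46) (nat_lit 5) (nat_lit 45) (nat_lit 4) (nat_lit 523) (nat_lit 437) (nat_lit 240))) (XT.nd (nat_lit 78) (nat_lit 0) (nat_lit 0) (XT.lf (nat_lit 0) (nat_lit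 104200175200) (nat_lit 152) (nat_lit 239163525684) (nat_lit 0) (nat_lit 4562799436) (nat_lit 43) (nat_lit 5) (nat_lit 45) (nat_lit 4) (nat_lit 43) (nat_lit 4) (nat_lit 524) (nat_lit 437) (nat_lit 239)) (XT.lf (nat_lit 0) (nat_lit 209604648554) (nat_lit 152) (nat_lit 40491874177) (nat_lit 0) (nat_lit 109966970273) (nat_lit 43) (nat_lit 5) (nat_lit 45) (nat_lit 4) (nat_lit 43) (nat_lit 4) (nat_lit 525) (nat_lit 437) (nat_lit 238)))) (XT.nd (nat_lit 156) (nat_lit 76) (nat_lit 0) (XT.nd (nat_lit 78) (nat_lit 152) (nat_lit 0) (XT.lf (nat_lit 0) (nat_lit 173670657197) (nat_lit 76) (nat_lit 149319550702) (nat_lit 76) (nat_lit 49681584311) (nat_lit 42) (nat_lit 4) (nat_lit 43) (nat_lit 5) (nat_lit 43) (nat_lit 4) (nat_lit 526) (nat_lit 437) (nat_lit 237)) (XT.lf (nat_lit 0) (nat_lit 13617830230) (nat_lit 76) (nat_lit 41629033678) (nat_lit 152) (nat_lit 330574372553) (nat_lit 40) (nat_lit 5) (nat_lit 41)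 (nat_lit 5) (nat_lit 42) (nat_lit 4) (nat_lit 527) (nat_lit 437) (nat_lit 236))) (XT.nd (nat_lit 78) (nat_lit 76) (nat_lit 0) (XT.lf (nat_lit 0) (nat_lit 168292387299) (nat_lit 152) (nat_lit 157669453262) (nat_lit 0) (nat_lit 73398575767) (nat_lit 40) (nat_lit 5) (nat_lit 42) (nat_lit 4) (nat_lit 40) (nat_lit 4) (nat_lit 528) (nat_lit 437) (nat_lit 235)) (XT.lf (nat_lit 0) (nat_lit 69119830263) (nat_lit 76) (nat_lit 219631361620) (nat_lit 76) (nat_lit 124737313058) (nat_lit 39) (nat_lit 4) (nat_lit 40) (nat_lit 5) (nat_lit 40) (nat_lit 4) (nat_lit 529) (nat_lit 437) (nat_lit 234))))) (XT.nd (nat_lit 312) (nat_lit 380) (nat_lit 0) (XT.nd (nat_lit 156) (nat_lit 76) (nat_lit 0) (XT.nd (nat_lit 78) (nat_lit 152) (nat_lit 0) (XT.lf (nat_lit 0) (nat_lit 312721334403) (nat_lit 76) (nat_lit 105181228294) (nat_lit 76) (nat_lit 10286953989) (nat_lit 39) (nat_lit 4) (nat_lit 40) (nat_lit 5) (nat_lit 40) (nat_lit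 4) (nat_lit 530) (nat_lit 437) (nat_lit 233)) (XT.lf (nat_lit 0) (nat_lit 108649523288) (nat_lit 152) (nat_lit 316502423374) (nat_lit 0) (nat_lit 18273819195) (nat_lit 37) (nat_lit 5) (nat_lit 39) (nat_lit 4) (nat_lit 37) (nat_lit 4) (nat_lit 531) (nat_lit 437) (nat_lit 232))) (XT.nd (nat_lit 78) (nat_lit 76) (nat_lit 0) (XT.lf (nat_lit 0) (nat_lit 236898401655) (nat_lit 152) (nat_lit 75808927032) (nat_lit 0) (nat_lit 146522502557) (nat_lit 37) (nat_lit 5) (nat_lit 39) (nat_lit 4) (nat_lit 37) (nat_lit 4) (nat_lit 532) (nat_lit 437) (nat_lit 231)) (XT.lf (nat_lit 0) (nat_lit 182767877115) (nat_lit 76) (nat_lit 191644829241) (nat_lit 76) (nat_lit 101268744424) (nat_lit 36) (nat_lit 4) (nat_lit 37) (nat_lit 5) (nat_lit 37) (nat_lit 4) (nat_lit 533) (nat_lit 437) (nat_lit 230)))) (XT.nd (nat_lit 156) (nat_lit 228) (nat_lit 0) (XT.nd (nat_lit 78) (nat_lit 76) (nat_lit 0) (XT.lf (nat_lit 0) (nat_lit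 26324178885) (nat_lit 152) (nat_lit 36411694977) (nat_lit 76) (nat_lit 430134381584) (nat_lit 35) (nat_lit 5) (nat_lit 37) (nat_lit 5) (nat_lit 36) (nat_lit 4) (nat_lit 534) (nat_lit 437) (nat_lit 229)) (XT.lf (nat_lit 0) (nat_lit 161844980982) (nat_lit 152) (nat_lit 272970745505) (nat_lit 0) (nat_lit 75772190367) (nat_lit 34) (nat_lit 5) (nat_lit 36) (nat_lit 4) (nat_lit 34) (nat_lit 4) (nat_lit 535) (nat_lit 437) (nat_lit 228))) (XT.nd (nat_lit 78) (nat_lit 228) (nat_lit 0) (XT.lf (nat_lit 0) (nat_lit 305796528813) (nat_lit 152) (nat_lit 3588611834) (nat_lit 0) (nat_lit 219723585407) (nat_lit 34) (nat_lit 5) (nat_lit 36) (nat_lit 4) (nat_lit 34) (nat_lit 4) (nat_lit 536) (nat_lit 437) (nat_lit 227)) (XT.nd (nat_lit 78) (nat_lit 152) (nat_lit 0) (XT.lf (nat_lit 0) (nat_lit 288495298967) (nat_lit 76) (nat_lit 172954089474) (nat_lit 76) (nat_lit 86881000552) (nat_lit 33) (nat_lit 4) (nat_lit 34)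 (nat_lit 5) (nat_lit 34) (nat_lit 4) (nat_lit 537) (nat_lit 437) (nat_lit 226)) (XT.lf (nat_lit 0) (nat_lit 26772692382) (nat_lit 76) (nat_lit 28274097807) (nat_lit 152) (nat_lit 513398374715) (nat_lit 31) (nat_lit 5) (nat_lit 32) (nat_lit 5) (nat_lit 33) (nat_lit 4) (nat_lit 538) (nat_lit 437) (nat_lit 225))))))))
noncomputable def xc343 : XT := (XT.nd (nat_lit 54834) (nat_lit 0) (nat_lit 8740) (XT.nd (nat_lit 624) (nat_lit 228) (nat_lit 0) (XT.nd (nat_lit 312) (nat_lit 228) (nat_lit 0) (XT.nd (nat_lit 156) (nat_lit 152) (nat_lit 0) (XT.nd (nat_lit 78) (nat_lit 76) (nat_lit 0) (XT.lf (nat_lit 0) (nat_lit 207553650547) (nat_lit 152) (nat_lit 256041670105) (nat_lit 0) (nat_lit 125579022456) (nat_lit 31) (nat_lit 5) (nat_lit 33) (nat_lit 4) (nat_lit 31) (nat_lit 4) (nat_lit 539) (nat_lit 437) (nat_lit 224)) (XT.lf (nat_lit 0) (nat_lit 44841433817) (nat_lit 76) (nat_lit 324007568398) (nat_lit 76)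 (nat_lit 242032820592) (nat_lit 30) (nat_lit 4) (nat_lit 31) (nat_lit 5) (nat_lit 31) (nat_lit 4) (nat_lit 540) (nat_lit 437) (nat_lit 223))) (XT.nd (nat_lit 78) (nat_lit 152) (nat_lit 0) (XT.lf (nat_lit 0) (nat_lit 369656961901) (nat_lit 76) (nat_lit 172887894825) (nat_lit 76) (nat_lit 90913033003) (nat_lit 30) (nat_lit 4) (nat_lit 31) (nat_lit 5) (nat_lit 31) (nat_lit 4) (nat_lit 541) (nat_lit 437) (nat_lit 222)) (XT.lf (nat_lit 0) (nat_lit 54227260636) (nat_lit 76) (nat_lit 12212852068) (nat_lit 152) (nat_lit 590627438992) (nat_lit 28) (nat_lit 5) (nat_lit 29) (nat_lit 5) (nat_lit 30) (nat_lit 4) (nat_lit 542) (nat_lit 437) (nat_lit 221)))) (XT.nd (nat_lit 156) (nat_lit 152) (nat_lit 0) (XT.nd (nat_lit 78) (nat_lit 76) (nat_lit 0) (XT.lf (nat_lit 0) (nat_lit 235589378091) (nat_lit 152) (nat_lit 288326733756) (nat_lit 0) (nat_lit 157517879212) (nat_lit 28) (nat_lit 5) (nat_lit 30) (nat_lit 4)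 (nat_lit 28) (nat_lit 4) (nat_lit 543) (nat_lit 437) (nat_lit 220)) (XT.lf (nat_lit 0) (nat_lit 43090611048) (nat_lit 76) (nat_lit 370978053077) (nat_lit 76) (nat_lit 292906460397) (nat_lit 27) (nat_lit 4) (nat_lit 28) (nat_lit 5) (nat_lit 28) (nat_lit 4) (nat_lit 544) (nat_lit 437) (nat_lit 219))) (XT.nd (nat_lit 78) (nat_lit 152) (nat_lit 0) (XT.lf (nat_lit 0) (nat_lit 401088041578) (nat_lit 76) (nat_lit 205266414020) (nat_lit 76) (nat_lit 127194732006) (nat_lit 27) (nat_lit 4) (nat_lit 28) (nat_lit 5) (nat_lit 28) (nat_lit 4) (nat_lit 545) (nat_lit 437) (nat_lit 218)) (XT.lf (nat_lit 0) (nat_lit 15291278643) (nat_lit 76) (nat_lit 30251670496) (nat_lit 152) (nat_lit 715860551662) (nat_lit 25) (nat_lit 5) (nat_lit 26) (nat_lit 5) (nat_lit 27) (nat_lit 4) (nat_lit 546) (nat_lit 437) (nat_lit 217))))) (XT.nd (nat_lit 312) (nat_lit 152) (nat_lit 0) (XT.nd (nat_lit 156) (nat_lit 76) (nat_lit 0) (XT.nd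 (nat_lit 78) (nat_lit 0) (nat_lit 0) (XT.lf (nat_lit 0) (nat_lit 230762011768) (nat_lit 152) (nat_lit 402970435493) (nat_lit 0) (nat_lit 156407870698) (nat_lit 25) (nat_lit 5) (nat_lit 27) (nat_lit 4) (nat_lit 25) (nat_lit 4) (nat_lit 547) (nat_lit 437) (nat_lit 216)) (XT.lf (nat_lit 0) (nat_lit 425737577338) (nat_lit 152) (nat_lit 43168258373) (nat_lit 0) (nat_lit 351383362773) (nat_lit 25) (nat_lit 5) (nat_lit 27) (nat_lit 4) (nat_lit 25) (nat_lit 4) (nat_lit 548) (nat_lit 437) (nat_lit 215))) (XT.nd (nat_lit 78) (nat_lit 0) (nat_lit 0) (XT.lf (nat_lit 0) (nat_lit 345687451720) (nat_lit 76) (nat_lit 290171258220) (nat_lit 76) (nat_lit 215816973659) (nat_lit 24) (nat_lit 4) (nat_lit 25) (nat_lit 5) (nat_lit 25) (nat_lit 4) (nat_lit 549) (nat_lit 437) (nat_lit 214)) (XT.lf (nat_lit 0) (nat_lit 755483930404) (nat_lit 76) (nat_lit 101732688891) (nat_lit 76) (nat_lit 27378337669) (nat_lit 24) (nat_lit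 4) (nat_lit 25) (nat_lit 5) (nat_lit 25) (nat_lit 4) (nat_lit 550) (nat_lit 437) (nat_lit 213)))) (XT.nd (nat_lit 53742) (nat_lit 0) (nat_lit 10716) (XT.nd (nat_lit 53664) (nat_lit 0) (nat_lit 10716) (XT.lf (nat_lit 0) (nat_lit 170896854111) (nat_lit 152) (nat_lit 647753572802) (nat_lit 0) (nat_lit 100083125815) (nat_lit 22) (nat_lit 5) (nat_lit 24) (nat_lit 4) (nat_lit 22) (nat_lit 4) (nat_lit 551) (nat_lit 437) (nat_lit 212)) (XT.lf (nat_lit 0) (nat_lit 5081845242) (nat_lit 836) (nat_lit 3954927622) (nat_lit 836) (nat_lit 3954927622) (nat_lit 163) (nat_lit 3) (nat_lit 174) (nat_lit 3) (nat_lit 174) (nat_lit 5) (nat_lit 438) (nat_lit 438) (nat_lit 324))) (XT.nd (nat_lit 78) (nat_lit 0) (nat_lit 76) (XT.lf (nat_lit 76) (nat_lit 5195584049) (nat_lit 0) (nat_lit 5399147481) (nat_lit 836) (nat_lit 16029399633) (nat_lit 164) (nat_lit 5) (nat_lit 163) (nat_lit 3) (nat_lit 174) (nat_lit 5) (nat_lit 439)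 (nat_lit 438) (nat_lit 323)) (XT.lf (nat_lit 0) (nat_lit 11300817372) (nat_lit 760) (nat_lit 8188651310) (nat_lit 836) (nat_lit 7794755016) (nat_lit 164) (nat_lit 5) (nat_lit 174) (nat_lit 5) (nat_lit 175) (nat_lit 5) (nat_lit 440) (nat_lit 438) (nat_lit 322)))))) (XT.nd (nat_lit 624) (nat_lit 2052) (nat_lit 0) (XT.nd (nat_lit 312) (nat_lit 0) (nat_lit 152) (XT.nd (nat_lit 156) (nat_lit 0) (nat_lit 76) (XT.nd (nat_lit 78) (nat_lit 0) (nat_lit 76) (XT.lf (nat_lit 76) (nat_lit 5807085269) (nat_lit 0) (nat_lit 6408448486) (nat_lit 836) (nat_lit 15753121243) (nat_lit 165) (nat_lit 5) (nat_lit 164) (nat_lit 5) (nat_lit 175) (nat_lit 5) (nat_lit 441) (nat_lit 438) (nat_lit 321)) (XT.lf (nat_lit 0) (nat_lit 13425736654) (nat_lit 760) (nat_lit 8013901750) (nat_lit 836) (nat_lit 7235182354) (nat_lit 165) (nat_lit 5) (nat_lit 175) (nat_lit 5) (nat_lit 176) (nat_lit 5) (nat_lit 442) (nat_lit 438) (nat_lit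 320))) (XT.nd (nat_lit 78) (nat_lit 0) (nat_lit 76) (XT.lf (nat_lit 76) (nat_lit 6955114036) (nat_lit 0) (nat_lit 7949656623) (nat_lit 836) (nat_lit 14501108507) (nat_lit 166) (nat_lit 5) (nat_lit 165) (nat_lit 5) (nat_lit 176) (nat_lit 5) (nat_lit 443) (nat_lit 438) (nat_lit 319)) (XT.lf (nat_lit 0) (nat_lit 16687630405) (nat_lit 760) (nat_lit 7318965008) (nat_lit 836) (nat_lit 6155401769) (nat_lit 166) (nat_lit 5) (nat_lit 176) (nat_lit 5) (nat_lit 177) (nat_lit 5) (nat_lit 444) (nat_lit 438) (nat_lit 318)))) (XT.nd (nat_lit 156) (nat_lit 0) (nat_lit 76) (XT.nd (nat_lit 78) (nat_lit 0) (nat_lit 76) (XT.lf (nat_lit 76) (nat_lit 8714389251) (nat_lit 0) (nat_lit 10106764076) (nat_lit 836) (nat_lit 12121692133) (nat_lit 167) (nat_lit 5) (nat_lit 166) (nat_lit 5) (nat_lit 177) (nat_lit 5) (nat_lit 445) (nat_lit 438) (nat_lit 317)) (XT.lf (nat_lit 0) (nat_lit 21252740637) (nat_lit 760) (nat_lit 6028954458)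 (nat_lit 836) (nat_lit 4471471999) (nat_lit 167) (nat_lit 5) (nat_lit 177) (nat_lit 5) (nat_lit 178) (nat_lit 5) (nat_lit 446) (nat_lit 438) (nat_lit 316))) (XT.nd (nat_lit 78) (nat_lit 0) (nat_lit 76) (XT.lf (nat_lit 76) (nat_lit 11168664913) (nat_lit 0) (nat_lit 12972858245) (nat_lit 836) (nat_lit 8445701196) (nat_lit 168) (nat_lit 5) (nat_lit 167) (nat_lit 5) (nat_lit 178) (nat_lit 5) (nat_lit 447) (nat_lit 438) (nat_lit 315)) (XT.lf (nat_lit 0) (nat_lit 27306274025) (nat_lit 760) (nat_lit 4059911464) (nat_lit 76) (nat_lit 2090222846) (nat_lit 168) (nat_lit 5) (nat_lit 178) (nat_lit 5) (nat_lit 169) (nat_lit 5) (nat_lit 448) (nat_lit 438) (nat_lit 314))))) (XT.nd (nat_lit 312) (nat_lit 684) (nat_lit 0) (XT.nd (nat_lit 156) (nat_lit 912) (nat_lit 0) (XT.nd (nat_lit 78) (nat_lit 0) (nat_lit 0) (XT.lf (nat_lit 0) (nat_lit 14411635890) (nat_lit 760) (nat_lit 16651229723) (nat_lit 836) (nat_lit 3284506050)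 (nat_lit 158) (nat_lit 5) (nat_lit 168) (nat_lit 5) (nat_lit 169) (nat_lit 5) (nat_lit 449) (nat_lit 438) (nat_lit 313)) (XT.lf (nat_lit 0) (nat_lit 33944144483) (nat_lit 760) (nat_lit 1127964452) (nat_lit 836) (nat_lit 207533404) (nat_lit 158) (nat_lit 5) (nat_lit 168) (nat_lit 5) (nat_lit 169) (nat_lit 5) (nat_lit 450) (nat_lit 438) (nat_lit 312))) (XT.nd (nat_lit 78) (nat_lit 380) (nat_lit 0) (XT.lf (nat_lit 0) (nat_lit 3457805415) (nat_lit 532) (nat_lit 17740219680) (nat_lit 76) (nat_lit 15031577537) (nat_lit 151) (nat_lit 5) (nat_lit 158) (nat_lit 5) (nat_lit 152) (nat_lit 5) (nat_lit 451) (nat_lit 438) (nat_lit 311)) (XT.lf (nat_lit 0) (nat_lit 2169461040) (nat_lit 380) (nat_lit 5201648167) (nat_lit 456) (nat_lit 29852198249) (nat_lit 146) (nat_lit 5) (nat_lit 151) (nat_lit 5) (nat_lit 152) (nat_lit 5) (nat_lit 452) (nat_lit 438) (nat_lit 310)))) (XT.nd (nat_lit 156) (nat_lit 304) (nat_lit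 0) (XT.nd (nat_lit 78) (nat_lit 380) (nat_lit 0) (XT.lf (nat_lit 0) (nat_lit 11962906309) (nat_lit 456) (nat_lit 14750870977) (nat_lit 76) (nat_lit 11528779068) (nat_lit 146) (nat_lit 5) (nat_lit 152) (nat_lit 5) (nat_lit 147) (nat_lit 5) (nat_lit 453) (nat_lit 438) (nat_lit 309)) (XT.lf (nat_lit 0) (nat_lit 6692591743) (nat_lit 380) (nat_lit 10278074365) (nat_lit 456) (nat_lit 22332783174) (nat_lit 141) (nat_lit 5) (nat_lit 146) (nat_lit 5) (nat_lit 147) (nat_lit 5) (nat_lit 454) (nat_lit 438) (nat_lit 308))) (XT.nd (nat_lit 78) (nat_lit 304) (nat_lit 0) (XT.lf (nat_lit 0) (nat_lit 22588402666) (nat_lit 456) (nat_lit 10801311009) (nat_lit 76) (nat_lit 7009693960) (nat_lit 141) (nat_lit 5) (nat_lit 147) (nat_lit 5) (nat_lit 142) (nat_lit 5) (nat_lit 455) (nat_lit 438) (nat_lit 307)) (XT.nd (nat_lit 78) (nat_lit 0) (nat_lit 0) (XT.lf (nat_lit 0) (nat_lit 12321050546) (nat_lit 304) (nat_lit 16523703348)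 (nat_lit 380) (nat_lit 12687523826) (nat_lit 137) (nat_lit 5) (nat_lit 141) (nat_lit 5) (nat_lit 142) (nat_lit 5) (nat_lit 456) (nat_lit 438) (nat_lit 306)) (XT.lf (nat_lit 0) (nat_lit 35615314614) (nat_lit 380) (nat_lit 5763235582) (nat_lit 76) (nat_lit 1333171713) (nat_lit 137) (nat_lit 5) (nat_lit 142) (nat_lit 5) (nat_lit 138) (nat_lit 5) (nat_lit 457) (nat_lit 438) (nat_lit 305))))))))
noncomputable def xc344 : XT := (XT.nd (nat_lit 1248) (nat_lit 1748) (nat_lit 0) (XT.nd (nat_lit 624) (nat_lit 1064) (nat_lit 0) (XT.nd (nat_lit 312) (nat_lit 608) (nat_lit 0) (XT.nd (nat_lit 156) (nat_lit 304) (nat_lit 0) (XT.nd (nat_lit 78) (nat_lit 380) (nat_lit 0) (XT.lf (nat_lit 0) (nat_lit 19197271185) (nat_lit 304) (nat_lit 24094837741) (nat_lit 380) (nat_lit 629644292) (nat_lit 133) (nat_lit 5) (nat_lit 137) (nat_lit 5) (nat_lit 138) (nat_lit 5) (nat_lit 458) (nat_lit 438) (nat_lit 304)) (XT.lf (nat_lit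 0) (nat_lit 327714893) (nat_lit 304) (nat_lit 5737029557) (nat_lit 380) (nat_lit 39117659677) (nat_lit 128) (nat_lit 5) (nat_lit 132) (nat_lit 5) (nat_lit 133) (nat_lit 5) (nat_lit 459) (nat_lit 438) (nat_lit 303))) (XT.nd (nat_lit 78) (nat_lit 304) (nat_lit 0) (XT.lf (nat_lit 0) (nat_lit 13706867974) (nat_lit 380) (nat_lit 19226363295) (nat_lit 76) (nat_lit 13540631599) (nat_lit 128) (nat_lit 5) (nat_lit 133) (nat_lit 5) (nat_lit 129) (nat_lit 5) (nat_lit 460) (nat_lit 438) (nat_lit 302)) (XT.lf (nat_lit 0) (nat_lit 7836775280) (nat_lit 304) (nat_lit 14108072375) (nat_lit 380) (nat_lit 25874359544) (nat_lit 124) (nat_lit 5) (nat_lit 128) (nat_lit 5) (nat_lit 129) (nat_lit 5) (nat_lit 461) (nat_lit 438) (nat_lit 301)))) (XT.nd (nat_lit 156) (nat_lit 380) (nat_lit 0) (XT.nd (nat_lit 78) (nat_lit 228) (nat_lit 0) (XT.lf (nat_lit 0) (nat_lit 31011423629) (nat_lit 380) (nat_lit 12392094801) (nat_lit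 76) (nat_lit 5807465598) (nat_lit 124) (nat_lit 5) (nat_lit 129) (nat_lit 5) (nat_lit 125) (nat_lit 5) (nat_lit 462) (nat_lit 438) (nat_lit 300)) (XT.lf (nat_lit 0) (nat_lit 16883580554) (nat_lit 228) (nat_lit 24140160203) (nat_lit 304) (nat_lit 9623988464) (nat_lit 121) (nat_lit 5) (nat_lit 124) (nat_lit 5) (nat_lit 125) (nat_lit 5) (nat_lit 463) (nat_lit 438) (nat_lit 299))) (XT.nd (nat_lit 78) (nat_lit 380) (nat_lit 0) (XT.lf (nat_lit 0) (nat_lit 48050039350) (nat_lit 228) (nat_lit 3694100123) (nat_lit 304) (nat_lit 401799047) (nat_lit 121) (nat_lit 5) (nat_lit 124) (nat_lit 5) (nat_lit 125) (nat_lit 5) (nat_lit 464) (nat_lit 438) (nat_lit 298)) (XT.lf (nat_lit 0) (nat_lit 9703088831) (nat_lit 380) (nat_lit 26179819187) (nat_lit 76) (nat_lit 17792972128) (nat_lit 116) (nat_lit 5) (nat_lit 121) (nat_lit 5) (nat_lit 117) (nat_lit 5) (nat_lit 465) (nat_lit 438) (nat_lit 297))))) (XT.nd (nat_lit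 312) (nat_lit 608) (nat_lit 0) (XT.nd (nat_lit 156) (nat_lit 228) (nat_lit 0) (XT.nd (nat_lit 78) (nat_lit 0) (nat_lit 0) (XT.lf (nat_lit 0) (nat_lit 5640002645) (nat_lit 228) (nat_lit 14876559347) (nat_lit 304) (nat_lit 34754585435) (nat_lit 113) (nat_lit 5) (nat_lit 116) (nat_lit 5) (nat_lit 117) (nat_lit 5) (nat_lit 466) (nat_lit 438) (nat_lit 296)) (XT.lf (nat_lit 0) (nat_lit 32431216784) (nat_lit 304) (nat_lit 17086903095) (nat_lit 76) (nat_lit 7400032902) (nat_lit 113) (nat_lit 5) (nat_lit 117) (nat_lit 5) (nat_lit 114) (nat_lit 5) (nat_lit 467) (nat_lit 438) (nat_lit 295))) (XT.nd (nat_lit 78) (nat_lit 0) (nat_lit 0) (XT.lf (nat_lit 0) (nat_lit 17394310377) (nat_lit 228) (nat_lit 28060622229) (nat_lit 304) (nat_lit 13166909489) (nat_lit 110) (nat_lit 5) (nat_lit 113) (nat_lit 5) (nat_lit 114) (nat_lit 5) (nat_lit 468) (nat_lit 438) (nat_lit 294)) (XT.lf (nat_lit 0) (nat_lit 54189764198)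 (nat_lit 228) (nat_lit 5227375007) (nat_lit 304) (nat_lit 979211518) (nat_lit 110) (nat_lit 5) (nat_lit 113) (nat_lit 5) (nat_lit 114) (nat_lit 5) (nat_lit 469) (nat_lit 438) (nat_lit 293)))) (XT.nd (nat_lit 156) (nat_lit 152) (nat_lit 0) (XT.nd (nat_lit 78) (nat_lit 228) (nat_lit 0) (XT.lf (nat_lit 0) (nat_lit 12231332148) (nat_lit 228) (nat_lit 31147337925) (nat_lit 76) (nat_lit 18832103972) (nat_lit 107) (nat_lit 5) (nat_lit 110) (nat_lit 5) (nat_lit 108) (nat_lit 5) (nat_lit 470) (nat_lit 438) (nat_lit 292)) (XT.lf (nat_lit 0) (nat_lit 6400154360) (nat_lit 228) (nat_lit 19959825560) (nat_lit 304) (nat_lit 37740611824) (nat_lit 104) (nat_lit 5) (nat_lit 107) (nat_lit 5) (nat_lit 108) (nat_lit 5) (nat_lit 471) (nat_lit 438) (nat_lit 291))) (XT.nd (nat_lit 78) (nat_lit 152) (nat_lit 0) (XT.lf (nat_lit 0) (nat_lit 41801552311) (nat_lit 304) (nat_lit 19236100698) (nat_lit 76) (nat_lit 5016922788)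 (nat_lit 104) (nat_lit 5) (nat_lit 108) (nat_lit 5) (nat_lit 105) (nat_lit 5) (nat_lit 472) (nat_lit 438) (nat_lit 290)) (XT.lf (nat_lit 0) (nat_lit 21509807401) (nat_lit 152) (nat_lit 37166589655) (nat_lit 228) (nat_lit 9396802389) (nat_lit 102) (nat_lit 5) (nat_lit 104) (nat_lit 5) (nat_lit 105) (nat_lit 5) (nat_lit 473) (nat_lit 438) (nat_lit 289)))))) (XT.nd (nat_lit 624) (nat_lit 760) (nat_lit 0) (XT.nd (nat_lit 312) (nat_lit 532) (nat_lit 0) (XT.nd (nat_lit 156) (nat_lit 152) (nat_lit 0) (XT.nd (nat_lit 78) (nat_lit 228) (nat_lit 0) (XT.lf (nat_lit 0) (nat_lit 6333001950) (nat_lit 228) (nat_lit 5320692917) (nat_lit 76) (nat_lit 58517753656) (nat_lit 101) (nat_lit 5) (nat_lit 104) (nat_lit 5) (nat_lit 102) (nat_lit 5) (nat_lit 474) (nat_lit 438) (nat_lit 288)) (XT.lf (nat_lit 0) (nat_lit 23390685663) (nat_lit 304) (nat_lit 33507219546) (nat_lit 76) (nat_lit 15426143448) (nat_lit 98) (nat_lit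 5) (nat_lit 102) (nat_lit 5) (nat_lit 99) (nat_lit 5) (nat_lit 475) (nat_lit 438) (nat_lit 287))) (XT.nd (nat_lit 78) (nat_lit 0) (nat_lit 0) (XT.lf (nat_lit 0) (nat_lit 10920391287) (nat_lit 152) (nat_lit 30832271164) (nat_lit 228) (nat_lit 32809045966) (nat_lit 96) (nat_lit 5) (nat_lit 98) (nat_lit 5) (nat_lit 99) (nat_lit 5) (nat_lit 476) (nat_lit 438) (nat_lit 286)) (XT.lf (nat_lit 0) (nat_lit 58729938195) (nat_lit 152) (nat_lit 2868581043) (nat_lit 228) (nat_lit 15284442932) (nat_lit 96) (nat_lit 5) (nat_lit 98) (nat_lit 5) (nat_lit 99) (nat_lit 5) (nat_lit 477) (nat_lit 438) (nat_lit 285)))) (XT.nd (nat_lit 156) (nat_lit 304) (nat_lit 0) (XT.nd (nat_lit 78) (nat_lit 0) (nat_lit 0) (XT.lf (nat_lit 0) (nat_lit 3913999568) (nat_lit 228) (nat_lit 49180622882) (nat_lit 76) (nat_lit 26178355772) (nat_lit 93) (nat_lit 5) (nat_lit 96) (nat_lit 5) (nat_lit 94) (nat_lit 5) (nat_lit 478) (nat_lit 438)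 (nat_lit 284)) (XT.lf (nat_lit 0) (nat_lit 23916597025) (nat_lit 228) (nat_lit 692201674) (nat_lit 76) (nat_lit 57143273683) (nat_lit 93) (nat_lit 5) (nat_lit 96) (nat_lit 5) (nat_lit 94) (nat_lit 5) (nat_lit 479) (nat_lit 438) (nat_lit 283))) (XT.nd (nat_lit 78) (nat_lit 152) (nat_lit 0) (XT.lf (nat_lit 0) (nat_lit 45823794824) (nat_lit 228) (nat_lit 32532208146) (nat_lit 76) (nat_lit 5953894805) (nat_lit 91) (nat_lit 5) (nat_lit 94) (nat_lit 5) (nat_lit 92) (nat_lit 5) (nat_lit 480) (nat_lit 438) (nat_lit 282)) (XT.lf (nat_lit 0) (nat_lit 20138446563) (nat_lit 152) (nat_lit 49416149869) (nat_lit 228) (nat_lit 17404605858) (nat_lit 89) (nat_lit 5) (nat_lit 91) (nat_lit 5) (nat_lit 92) (nat_lit 5) (nat_lit 481) (nat_lit 438) (nat_lit 281))))) (XT.nd (nat_lit 312) (nat_lit 380) (nat_lit 0) (XT.nd (nat_lit 156) (nat_lit 152) (nat_lit 0) (XT.nd (nat_lit 78) (nat_lit 152) (nat_lit 0) (XT.lf (nat_lit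 0) (nat_lit 5138022873) (nat_lit 228) (nat_lit 13226822879) (nat_lit 76) (nat_lit 71344509277) (nat_lit 88) (nat_lit 5) (nat_lit 91) (nat_lit 5) (nat_lit 89) (nat_lit 5) (nat_lit 482) (nat_lit 438) (nat_lit 280)) (XT.lf (nat_lit 0) (nat_lit 29149382441) (nat_lit 228) (nat_lit 48613783099) (nat_lit 76) (nat_lit 14773258424) (nat_lit 86) (nat_lit 5) (nat_lit 89) (nat_lit 5) (nat_lit 87) (nat_lit 5) (nat_lit 483) (nat_lit 438) (nat_lit 279))) (XT.nd (nat_lit 78) (nat_lit 0) (nat_lit 0) (XT.lf (nat_lit 0) (nat_lit 8871884343) (nat_lit 152) (nat_lit 46155261217) (nat_lit 228) (nat_lit 40444409045) (nat_lit 84) (nat_lit 5) (nat_lit 86) (nat_lit 5) (nat_lit 87) (nat_lit 5) (nat_lit 484) (nat_lit 438) (nat_lit 278)) (XT.lf (nat_lit 0) (nat_lit 70917162673) (nat_lit 152) (nat_lit 12103544331) (nat_lit 228) (nat_lit 15491639302) (nat_lit 84) (nat_lit 5) (nat_lit 86) (nat_lit 5) (nat_lit 87) (nat_lit 5) (nat_lit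 485) (nat_lit 438) (nat_lit 277)))) (XT.nd (nat_lit 156) (nat_lit 228) (nat_lit 0) (XT.nd (nat_lit 78) (nat_lit 0) (nat_lit 0) (XT.lf (nat_lit 0) (nat_lit 11297148996) (nat_lit 152) (nat_lit 66729885876) (nat_lit 76) (nat_lit 23623226683) (nat_lit 82) (nat_lit 5) (nat_lit 84) (nat_lit 5) (nat_lit 83) (nat_lit 5) (nat_lit 486) (nat_lit 438) (nat_lit 276)) (XT.lf (nat_lit 0) (nat_lit 39576842431) (nat_lit 152) (nat_lit 3864365417) (nat_lit 76) (nat_lit 61457562366) (nat_lit 82) (nat_lit 5) (nat_lit 84) (nat_lit 5) (nat_lit 83) (nat_lit 5) (nat_lit 487) (nat_lit 438) (nat_lit 275))) (XT.nd (nat_lit 78) (nat_lit 76) (nat_lit 0) (XT.lf (nat_lit 0) (nat_lit 64196871066) (nat_lit 152) (nat_lit 6074674506) (nat_lit 228) (nat_lit 37988107513) (nat_lit 80) (nat_lit 5) (nat_lit 82) (nat_lit 5) (nat_lit 83) (nat_lit 5) (nat_lit 488) (nat_lit 438) (nat_lit 274)) (XT.lf (nat_lit 0) (nat_lit 24265607091) (nat_lit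 76) (nat_lit 79197214394) (nat_lit 152) (nat_lit 8277666764) (nat_lit 79) (nat_lit 5) (nat_lit 80) (nat_lit 5) (nat_lit 81) (nat_lit 4) (nat_lit 489) (nat_lit 438) (nat_lit 273)))))))
noncomputable def xc345 : XT := (XT.nd (nat_lit 1248) (nat_lit 1140) (nat_lit 0) (XT.nd (nat_lit 624) (nat_lit 532) (nat_lit 0) (XT.nd (nat_lit 312) (nat_lit 456) (nat_lit 0) (XT.nd (nat_lit 156) (nat_lit 152) (nat_lit 0) (XT.nd (nat_lit 78) (nat_lit 152) (nat_lit 0) (XT.lf (nat_lit 0) (nat_lit 23041557031) (nat_lit 152) (nat_lit 18289790801) (nat_lit 76) (nat_lit 74003286944) (nat_lit 78) (nat_lit 5) (nat_lit 80) (nat_lit 5) (nat_lit 79) (nat_lit 5) (nat_lit 490) (nat_lit 438) (nat_lit 272)) (XT.lf (nat_lit 0) (nat_lit 56009335554) (nat_lit 152) (nat_lit 512491995) (nat_lit 228) (nat_lit 62536212661) (nat_lit 76) (nat_lit 5) (nat_lit 78) (nat_lit 5) (nat_lit 79) (nat_lit 5) (nat_lit 491) (nat_lit 438) (nat_lit 271)))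 (XT.nd (nat_lit 78) (nat_lit 76) (nat_lit 0) (XT.lf (nat_lit 0) (nat_lit 11402817184) (nat_lit 76) (nat_lit 81426123961) (nat_lit 152) (nat_lit 30081033318) (nat_lit 75) (nat_lit 5) (nat_lit 76) (nat_lit 5) (nat_lit 77) (nat_lit 4) (nat_lit 492) (nat_lit 438) (nat_lit 270)) (XT.lf (nat_lit 0) (nat_lit 4961464306) (nat_lit 152) (nat_lit 35225782373) (nat_lit 76) (nat_lit 86709514365) (nat_lit 74) (nat_lit 5) (nat_lit 76) (nat_lit 5) (nat_lit 75) (nat_lit 5) (nat_lit 493) (nat_lit 438) (nat_lit 269)))) (XT.nd (nat_lit 156) (nat_lit 304) (nat_lit 0) (XT.nd (nat_lit 78) (nat_lit 0) (nat_lit 0) (XT.lf (nat_lit 0) (nat_lit 41528173156) (nat_lit 228) (nat_lit 85249241576) (nat_lit 76) (nat_lit 4241665342) (nat_lit 72) (nat_lit 5) (nat_lit 75) (nat_lit 5) (nat_lit 73) (nat_lit 4) (nat_lit 494) (nat_lit 438) (nat_lit 268)) (XT.lf (nat_lit 0) (nat_lit 81187252564) (nat_lit 228) (nat_lit 3950157091) (nat_lit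 76) (nat_lit 50146903666) (nat_lit 72) (nat_lit 5) (nat_lit 75) (nat_lit 5) (nat_lit 73) (nat_lit 4) (nat_lit 495) (nat_lit 438) (nat_lit 267))) (XT.nd (nat_lit 78) (nat_lit 228) (nat_lit 0) (XT.lf (nat_lit 0) (nat_lit 84103742556) (nat_lit 76) (nat_lit 40037574086) (nat_lit 152) (nat_lit 15555890071) (nat_lit 71) (nat_lit 5) (nat_lit 72) (nat_lit 5) (nat_lit 73) (nat_lit 4) (nat_lit 496) (nat_lit 438) (nat_lit 266)) (XT.lf (nat_lit 0) (nat_lit 24827871374) (nat_lit 228) (nat_lit 111376955387) (nat_lit 76) (nat_lit 8070826327) (nat_lit 68) (nat_lit 5) (nat_lit 71) (nat_lit 5) (nat_lit 69) (nat_lit 4) (nat_lit 497) (nat_lit 438) (nat_lit 265))))) (XT.nd (nat_lit 312) (nat_lit 304) (nat_lit 0) (XT.nd (nat_lit 156) (nat_lit 152) (nat_lit 0) (XT.nd (nat_lit 78) (nat_lit 76) (nat_lit 0) (XT.lf (nat_lit 0) (nat_lit 68320275732) (nat_lit 228) (nat_lit 22219195139) (nat_lit 76) (nat_lit 58450188459) (nat_lit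 68) (nat_lit 5) (nat_lit 71) (nat_lit 5) (nat_lit 69) (nat_lit 4) (nat_lit 498) (nat_lit 438) (nat_lit 264)) (XT.lf (nat_lit 0) (nat_lit 73755181504) (nat_lit 76) (nat_lit 41382638554) (nat_lit 152) (nat_lit 38744019854) (nat_lit 67) (nat_lit 5) (nat_lit 68) (nat_lit 5) (nat_lit 69) (nat_lit 4) (nat_lit 499) (nat_lit 438) (nat_lit 263))) (XT.nd (nat_lit 78) (nat_lit 0) (nat_lit 0) (XT.lf (nat_lit 0) (nat_lit 5923239449) (nat_lit 152) (nat_lit 142408657380) (nat_lit 76) (nat_lit 10641885597) (nat_lit 65) (nat_lit 5) (nat_lit 67) (nat_lit 5) (nat_lit 66) (nat_lit 4) (nat_lit 500) (nat_lit 438) (nat_lit 262)) (XT.lf (nat_lit 0) (nat_lit 53578443796) (nat_lit 152) (nat_lit 44716861303) (nat_lit 76) (nat_lit 65890427828) (nat_lit 65) (nat_lit 5) (nat_lit 67) (nat_lit 5) (nat_lit 66) (nat_lit 4) (nat_lit 501) (nat_lit 438) (nat_lit 261)))) (XT.nd (nat_lit 156) (nat_lit 228) (nat_lit 0) (XT.nd (nat_lit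 78) (nat_lit 0) (nat_lit 0) (XT.lf (nat_lit 0) (nat_lit 59770747157) (nat_lit 76) (nat_lit 44777899527) (nat_lit 152) (nat_lit 65063022364) (nat_lit 64) (nat_lit 5) (nat_lit 65) (nat_lit 5) (nat_lit 66) (nat_lit 4) (nat_lit 502) (nat_lit 438) (nat_lit 260)) (XT.lf (nat_lit 0) (nat_lit 159014355737) (nat_lit 152) (nat_lit 4428291900) (nat_lit 0) (nat_lit 11818904550) (nat_lit 64) (nat_lit 5) (nat_lit 66) (nat_lit 4) (nat_lit 64) (nat_lit 4) (nat_lit 503) (nat_lit 438) (nat_lit 259))) (XT.nd (nat_lit 78) (nat_lit 76) (nat_lit 0) (XT.lf (nat_lit 0) (nat_lit 36363904754) (nat_lit 152) (nat_lit 72650575872) (nat_lit 76) (nat_lit 72028368904) (nat_lit 62) (nat_lit 5) (nat_lit 64) (nat_lit 5) (nat_lit 63) (nat_lit 4) (nat_lit 504) (nat_lit 438) (nat_lit 258)) (XT.lf (nat_lit 0) (nat_lit 40939143238) (nat_lit 76) (nat_lit 50834905302) (nat_lit 152) (nat_lit 95290120844) (nat_lit 61) (nat_lit 5) (nat_lit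 62) (nat_lit 5) (nat_lit 63) (nat_lit 4) (nat_lit 505) (nat_lit 438) (nat_lit 257)))))) (XT.nd (nat_lit 624) (nat_lit 608) (nat_lit 0) (XT.nd (nat_lit 312) (nat_lit 304) (nat_lit 0) (XT.nd (nat_lit 156) (nat_lit 76) (nat_lit 0) (XT.nd (nat_lit 78) (nat_lit 152) (nat_lit 0) (XT.lf (nat_lit 0) (nat_lit 151364434174) (nat_lit 152) (nat_lit 30776419873) (nat_lit 0) (nat_lit 11175214460) (nat_lit 61) (nat_lit 5) (nat_lit 63) (nat_lit 4) (nat_lit 61) (nat_lit 4) (nat_lit 506) (nat_lit 438) (nat_lit 256)) (XT.lf (nat_lit 0) (nat_lit 15917409630) (nat_lit 152) (nat_lit 107559459159) (nat_lit 76) (nat_lit 76277050779) (nat_lit 59) (nat_lit 5) (nat_lit 61) (nat_lit 5) (nat_lit 60) (nat_lit 4) (nat_lit 507) (nat_lit 438) (nat_lit 255))) (XT.nd (nat_lit 78) (nat_lit 0) (nat_lit 0) (XT.lf (nat_lit 0) (nat_lit 15699313842) (nat_lit 76) (nat_lit 60344758198) (nat_lit 152) (nat_lit 130396503750) (nat_lit 58) (nat_lit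 5) (nat_lit 59) (nat_lit 5) (nat_lit 60) (nat_lit 4) (nat_lit 508) (nat_lit 438) (nat_lit 254)) (XT.lf (nat_lit 0) (nat_lit 141120453413) (nat_lit 152) (nat_lit 64639561707) (nat_lit 0) (nat_lit 7604380421) (nat_lit 58) (nat_lit 5) (nat_lit 60) (nat_lit 4) (nat_lit 58) (nat_lit 4) (nat_lit 509) (nat_lit 438) (nat_lit 253)))) (XT.nd (nat_lit 156) (nat_lit 152) (nat_lit 0) (XT.nd (nat_lit 78) (nat_lit 76) (nat_lit 0) (XT.lf (nat_lit 0) (nat_lit 68984314250) (nat_lit 76) (nat_lit 142531827539) (nat_lit 76) (nat_lit 9014990101) (nat_lit 57) (nat_lit 4) (nat_lit 58) (nat_lit 5) (nat_lit 58) (nat_lit 4) (nat_lit 510) (nat_lit 438) (nat_lit 252)) (XT.lf (nat_lit 0) (nat_lit 56650878644) (nat_lit 152) (nat_lit 17383264258) (nat_lit 76) (nat_lit 153921680588) (nat_lit 56) (nat_lit 5) (nat_lit 58) (nat_lit 5) (nat_lit 57) (nat_lit 4) (nat_lit 511) (nat_lit 438) (nat_lit 251))) (XT.nd (nat_lit 78) (nat_lit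 76) (nat_lit 0) (XT.lf (nat_lit 0) (nat_lit 127287706173) (nat_lit 152) (nat_lit 108229663116) (nat_lit 0) (nat_lit 127459645) (nat_lit 55) (nat_lit 5) (nat_lit 57) (nat_lit 4) (nat_lit 55) (nat_lit 4) (nat_lit 512) (nat_lit 438) (nat_lit 250)) (XT.lf (nat_lit 0) (nat_lit 36295122151) (nat_lit 76) (nat_lit 167240049069) (nat_lit 76) (nat_lit 40079173631) (nat_lit 54) (nat_lit 4) (nat_lit 55) (nat_lit 5) (nat_lit 55) (nat_lit 4) (nat_lit 513) (nat_lit 438) (nat_lit 249))))) (XT.nd (nat_lit 312) (nat_lit 304) (nat_lit 0) (XT.nd (nat_lit 156) (nat_lit 152) (nat_lit 0) (XT.nd (nat_lit 78) (nat_lit 76) (nat_lit 0) (XT.lf (nat_lit 0) (nat_lit 32463073580) (nat_lit 152) (nat_lit 60612173560) (nat_lit 76) (nat_lit 158789301128) (nat_lit 53) (nat_lit 5) (nat_lit 55) (nat_lit 5) (nat_lit 54) (nat_lit 4) (nat_lit 514) (nat_lit 438) (nat_lit 248)) (XT.lf (nat_lit 0) (nat_lit 95839208495) (nat_lit 76) (nat_lit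 12941890693) (nat_lit 152) (nat_lit 151638531438) (nat_lit 52) (nat_lit 5) (nat_lit 53) (nat_lit 5) (nat_lit 54) (nat_lit 4) (nat_lit 515) (nat_lit 438) (nat_lit 247))) (XT.nd (nat_lit 78) (nat_lit 152) (nat_lit 0) (XT.lf (nat_lit 0) (nat_lit 191069225006) (nat_lit 152) (nat_lit 8263533928) (nat_lit 0) (nat_lit 69961998227) (nat_lit 52) (nat_lit 5) (nat_lit 54) (nat_lit 4) (nat_lit 52) (nat_lit 4) (nat_lit 516) (nat_lit 438) (nat_lit 246)) (XT.lf (nat_lit 0) (nat_lit 1661332438) (nat_lit 152) (nat_lit 117701988047) (nat_lit 76) (nat_lit 159112877542) (nat_lit 50) (nat_lit 5) (nat_lit 52) (nat_lit 5) (nat_lit 51) (nat_lit 4) (nat_lit 517) (nat_lit 438) (nat_lit 245)))) (XT.nd (nat_lit 156) (nat_lit 228) (nat_lit 0) (XT.nd (nat_lit 78) (nat_lit 0) (nat_lit 0) (XT.lf (nat_lit 0) (nat_lit 50780252795) (nat_lit 76) (nat_lit 33067767519) (nat_lit 152) (nat_lit 204157852797) (nat_lit 49) (nat_lit 5) (nat_lit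 50) (nat_lit 5) (nat_lit 51) (nat_lit 4) (nat_lit 518) (nat_lit 438) (nat_lit 244)) (XT.lf (nat_lit 0) (nat_lit 173067770222) (nat_lit 152) (nat_lit 67071863035) (nat_lit 0) (nat_lit 57726212313) (nat_lit 49) (nat_lit 5) (nat_lit 51) (nat_lit 4) (nat_lit 49) (nat_lit 4) (nat_lit 519) (nat_lit 438) (nat_lit 243))) (XT.nd (nat_lit 78) (nat_lit 152) (nat_lit 0) (XT.lf (nat_lit 0) (nat_lit 114717868502) (nat_lit 76) (nat_lit 154363143132) (nat_lit 76) (nat_lit 39021179821) (nat_lit 48) (nat_lit 4) (nat_lit 49) (nat_lit 5) (nat_lit 49) (nat_lit 4) (nat_lit 520) (nat_lit 438) (nat_lit 242)) (XT.nd (nat_lit 78) (nat_lit 76) (nat_lit 0) (XT.lf (nat_lit 0) (nat_lit 50564674122) (nat_lit 152) (nat_lit 11684767455) (nat_lit 76) (nat_lit 256503372713) (nat_lit 47) (nat_lit 5) (nat_lit 49) (nat_lit 5) (nat_lit 48) (nat_lit 4) (nat_lit 521) (nat_lit 438) (nat_lit 241)) (XT.lf (nat_lit 0) (nat_lit 146792031312)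 (nat_lit 152) (nat_lit 145996448948) (nat_lit 0) (nat_lit 36941824532) (nat_lit 46) (nat_lit 5) (nat_lit 48) (nat_lit 4) (nat_lit 46) (nat_lit 4) (nat_lit 522) (nat_lit 438) (nat_lit 240))))))))
noncomputable def xc346 : XT := (XT.nd (nat_lit 1248) (nat_lit 684) (nat_lit 0) (XT.nd (nat_lit 624) (nat_lit 456) (nat_lit 0) (XT.nd (nat_lit 312) (nat_lit 304) (nat_lit 0) (XT.nd (nat_lit 156) (nat_lit 76) (nat_lit 0) (XT.nd (nat_lit 78) (nat_lit 76) (nat_lit 0) (XT.lf (nat_lit 0) (nat_lit 48613257939) (nat_lit 76) (nat_lit 201197476639) (nat_lit 76) (nat_lit 91346936335) (nat_lit 45) (nat_lit 4) (nat_lit 46) (nat_lit 5) (nat_lit 46) (nat_lit 4) (nat_lit 523) (nat_lit 438) (nat_lit 239)) (XT.lf (nat_lit 0) (nat_lit 7181999867) (nat_lit 152) (nat_lit 95127758218) (nat_lit 76) (nat_lit 250717260010) (nat_lit 44) (nat_lit 5) (nat_lit 46) (nat_lit 5) (nat_lit 45) (nat_lit 4) (nat_lit 524) (nat_lit 438) (nat_lit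 238))) (XT.nd (nat_lit 78) (nat_lit 0) (nat_lit 0) (XT.lf (nat_lit 0) (nat_lit 109429355657) (nat_lit 152) (nat_lit 251083308168) (nat_lit 0) (nat_lit 4809202835) (nat_lit 43) (nat_lit 5) (nat_lit 45) (nat_lit 4) (nat_lit 43) (nat_lit 4) (nat_lit 525) (nat_lit 438) (nat_lit 237)) (XT.lf (nat_lit 0) (nat_lit 220103139741) (nat_lit 152) (nat_lit 42479902362) (nat_lit 0) (nat_lit 115482712527) (nat_lit 43) (nat_lit 5) (nat_lit 45) (nat_lit 4) (nat_lit 43) (nat_lit 4) (nat_lit 526) (nat_lit 438) (nat_lit 236)))) (XT.nd (nat_lit 156) (nat_lit 76) (nat_lit 0) (XT.nd (nat_lit 78) (nat_lit 152) (nat_lit 0) (XT.lf (nat_lit 0) (nat_lit 182390165814) (nat_lit 76) (nat_lit 156767503457) (nat_lit 76) (nat_lit 52146814918) (nat_lit 42) (nat_lit 4) (nat_lit 43) (nat_lit 5) (nat_lit 43) (nat_lit 4) (nat_lit 527) (nat_lit 438) (nat_lit 235)) (XT.lf (nat_lit 0) (nat_lit 14334710865) (nat_lit 76) (nat_lit 43692434640)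 (nat_lit 152) (nat_lit 347084255785) (nat_lit 40) (nat_lit 5) (nat_lit 41) (nat_lit 5) (nat_lit 42) (nat_lit 4) (nat_lit 528) (nat_lit 438) (nat_lit 234))) (XT.nd (nat_lit 78) (nat_lit 76) (nat_lit 0) (XT.lf (nat_lit 0) (nat_lit 176724359258) (nat_lit 152) (nat_lit 165518064691) (nat_lit 0) (nat_lit 77085145496) (nat_lit 40) (nat_lit 5) (nat_lit 42) (nat_lit 4) (nat_lit 40) (nat_lit 4) (nat_lit 529) (nat_lit 438) (nat_lit 233)) (XT.lf (nat_lit 0) (nat_lit 72610120733) (nat_lit 76) (nat_lit 230595692527) (nat_lit 76) (nat_lit 130956263771) (nat_lit 39) (nat_lit 4) (nat_lit 40) (nat_lit 5) (nat_lit 40) (nat_lit 4) (nat_lit 530) (nat_lit 438) (nat_lit 232))))) (XT.nd (nat_lit 312) (nat_lit 228) (nat_lit 0) (XT.nd (nat_lit 156) (nat_lit 76) (nat_lit 0) (XT.nd (nat_lit 78) (nat_lit 152) (nat_lit 0) (XT.lf (nat_lit 0) (nat_lit 328390066796) (nat_lit 76) (nat_lit 110423873352) (nat_lit 76) (nat_lit 10784239841)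 (nat_lit 39) (nat_lit 4) (nat_lit 40) (nat_lit 5) (nat_lit 40) (nat_lit 4) (nat_lit 531) (nat_lit 438) (nat_lit 231)) (XT.lf (nat_lit 0) (nat_lit 114098495538) (nat_lit 152) (nat_lit 332294312988) (nat_lit 0) (nat_lit 19203420761) (nat_lit 37) (nat_lit 5) (nat_lit 39) (nat_lit 4) (nat_lit 37) (nat_lit 4) (nat_lit 532) (nat_lit 438) (nat_lit 230))) (XT.nd (nat_lit 78) (nat_lit 76) (nat_lit 0) (XT.lf (nat_lit 0) (nat_lit 248759032295) (nat_lit 152) (nat_lit 79567724284) (nat_lit 0) (nat_lit 153863780643) (nat_lit 37) (nat_lit 5) (nat_lit 39) (nat_lit 4) (nat_lit 37) (nat_lit 4) (nat_lit 533) (nat_lit 438) (nat_lit 229)) (XT.lf (nat_lit 0) (nat_lit 191937409601) (nat_lit 76) (nat_lit 201211380670) (nat_lit 76) (nat_lit 106315960565) (nat_lit 36) (nat_lit 4) (nat_lit 37) (nat_lit 5) (nat_lit 37) (nat_lit 4) (nat_lit 534) (nat_lit 438) (nat_lit 228)))) (XT.nd (nat_lit 156) (nat_lit 76) (nat_lit 0) (XT.nd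 (nat_lit 78) (nat_lit 76) (nat_lit 0) (XT.lf (nat_lit 0) (nat_lit 27655342024) (nat_lit 152) (nat_lit 38202129386) (nat_lit 76) (nat_lit 451655549051) (nat_lit 35) (nat_lit 5) (nat_lit 37) (nat_lit 5) (nat_lit 36) (nat_lit 4) (nat_lit 535) (nat_lit 438) (nat_lit 227)) (XT.lf (nat_lit 0) (nat_lit 169952168809) (nat_lit 152) (nat_lit 286589116978) (nat_lit 0) (nat_lit 79575279926) (nat_lit 34) (nat_lit 5) (nat_lit 36) (nat_lit 4) (nat_lit 34) (nat_lit 4) (nat_lit 536) (nat_lit 438) (nat_lit 226))) (XT.nd (nat_lit 78) (nat_lit 76) (nat_lit 0) (XT.lf (nat_lit 0) (nat_lit 321100582661) (nat_lit 152) (nat_lit 3739313090) (nat_lit 0) (nat_lit 230723555191) (nat_lit 34) (nat_lit 5) (nat_lit 36) (nat_lit 4) (nat_lit 34) (nat_lit 4) (nat_lit 537) (nat_lit 438) (nat_lit 225)) (XT.lf (nat_lit 0) (nat_lit 302948329875) (nat_lit 76) (nat_lit 181587519211) (nat_lit 76) (nat_lit 91210359754) (nat_lit 33) (nat_lit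 4) (nat_lit 34) (nat_lit 5) (nat_lit 34) (nat_lit 4) (nat_lit 538) (nat_lit 438) (nat_lit 224)))))) (XT.nd (nat_lit 624) (nat_lit 228) (nat_lit 0) (XT.nd (nat_lit 312) (nat_lit 228) (nat_lit 0) (XT.nd (nat_lit 156) (nat_lit 76) (nat_lit 0) (XT.nd (nat_lit 78) (nat_lit 0) (nat_lit 0) (XT.lf (nat_lit 0) (nat_lit 28139599712) (nat_lit 76) (nat_lit 29673514858) (nat_lit 152) (nat_lit 539053609298) (nat_lit 31) (nat_lit 5) (nat_lit 32) (nat_lit 5) (nat_lit 33) (nat_lit 4) (nat_lit 539) (nat_lit 438) (nat_lit 223)) (XT.lf (nat_lit 0) (nat_lit 217944864450) (nat_lit 152) (nat_lit 268816373688) (nat_lit 0) (nat_lit 131871145521) (nat_lit 31) (nat_lit 5) (nat_lit 33) (nat_lit 4) (nat_lit 31) (nat_lit 4) (nat_lit 540) (nat_lit 438) (nat_lit 222))) (XT.nd (nat_lit 78) (nat_lit 0) (nat_lit 0) (XT.lf (nat_lit 0) (nat_lit 47110443819) (nat_lit 76) (nat_lit 340194316114) (nat_lit 76) (nat_lit 254120488600) (nat_lit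 30) (nat_lit 4) (nat_lit 31) (nat_lit 5) (nat_lit 31) (nat_lit 4) (nat_lit 541) (nat_lit 438) (nat_lit 221)) (XT.lf (nat_lit 0) (nat_lit 388165465530) (nat_lit 76) (nat_lit 181519307944) (nat_lit 76) (nat_lit 95445377014) (nat_lit 30) (nat_lit 4) (nat_lit 31) (nat_lit 5) (nat_lit 31) (nat_lit 4) (nat_lit 542) (nat_lit 438) (nat_lit 220)))) (XT.nd (nat_lit 156) (nat_lit 76) (nat_lit 0) (XT.nd (nat_lit 78) (nat_lit 0) (nat_lit 0) (XT.lf (nat_lit 0) (nat_lit 56964284491) (nat_lit 76) (nat_lit 12810502782) (nat_lit 152) (nat_lit 620145508531) (nat_lit 28) (nat_lit 5) (nat_lit 29) (nat_lit 5) (nat_lit 30) (nat_lit 4) (nat_lit 543) (nat_lit 438) (nat_lit 219)) (XT.lf (nat_lit 0) (nat_lit 247381105829) (nat_lit 152) (nat_lit 302718221434) (nat_lit 0) (nat_lit 165405750380) (nat_lit 28) (nat_lit 5) (nat_lit 30) (nat_lit 4) (nat_lit 28) (nat_lit 4) (nat_lit 544) (nat_lit 438) (nat_lit 218))) (XT.nd (nat_lit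 78) (nat_lit 0) (nat_lit 0) (XT.lf (nat_lit 0) (nat_lit 45269589820) (nat_lit 76) (nat_lit 389514564296) (nat_lit 76) (nat_lit 307539123767) (nat_lit 27) (nat_lit 4) (nat_lit 28) (nat_lit 5) (nat_lit 28) (nat_lit 4) (nat_lit 545) (nat_lit 438) (nat_lit 217)) (XT.lf (nat_lit 0) (nat_lit 421165727675) (nat_lit 76) (nat_lit 215517933354) (nat_lit 76) (nat_lit 133542411796) (nat_lit 27) (nat_lit 4) (nat_lit 28) (nat_lit 5) (nat_lit 28) (nat_lit 4) (nat_lit 546) (nat_lit 438) (nat_lit 216))))) (XT.nd (nat_lit 312) (nat_lit 0) (nat_lit 0) (XT.nd (nat_lit 156) (nat_lit 76) (nat_lit 0) (XT.nd (nat_lit 78) (nat_lit 0) (nat_lit 0) (XT.lf (nat_lit 0) (nat_lit 16079130738) (nat_lit 76) (nat_lit 31752444610) (nat_lit 152) (nat_lit 751641526532) (nat_lit 25) (nat_lit 5) (nat_lit 26) (nat_lit 5) (nat_lit 27) (nat_lit 4) (nat_lit 547) (nat_lit 438) (nat_lit 215)) (XT.lf (nat_lit 0) (nat_lit 242311220099) (nat_lit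 152) (nat_lit 423096407034) (nat_lit 0) (nat_lit 164239151315) (nat_lit 25) (nat_lit 5) (nat_lit 27) (nat_lit 4) (nat_lit 25) (nat_lit 4) (nat_lit 548) (nat_lit 438) (nat_lit 214))) (XT.nd (nat_lit 78) (nat_lit 76) (nat_lit 0) (XT.lf (nat_lit 0) (nat_lit 447035035007) (nat_lit 152) (nat_lit 45305194879) (nat_lit 0) (nat_lit 368962899561) (nat_lit 25) (nat_lit 5) (nat_lit 27) (nat_lit 4) (nat_lit 25) (nat_lit 4) (nat_lit 549) (nat_lit 438) (nat_lit 213)) (XT.lf (nat_lit 0) (nat_lit 362992954326) (nat_lit 76) (nat_lit 304669096060) (nat_lit 76) (nat_lit 226596897126) (nat_lit 24) (nat_lit 4) (nat_lit 25) (nat_lit 5) (nat_lit 25) (nat_lit 4) (nat_lit 550) (nat_lit 438) (nat_lit 212)))) (XT.nd (nat_lit 53820) (nat_lit 0) (nat_lit 10564) (XT.nd (nat_lit 53742) (nat_lit 0) (nat_lit 10564) (XT.lf (nat_lit 0) (nat_lit 793278250752) (nat_lit 76) (nat_lit 106809108983) (nat_lit 76) (nat_lit 28736849584)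 (nat_lit 24) (nat_lit 4) (nat_lit 25) (nat_lit 5) (nat_lit 25) (nat_lit 4) (nat_lit 551) (nat_lit 438) (nat_lit 211)) (XT.lf (nat_lit 0) (nat_lit 5430272468) (nat_lit 836) (nat_lit 4103144507) (nat_lit 836) (nat_lit 4103144507) (nat_lit 163) (nat_lit 3) (nat_lit 174) (nat_lit 3) (nat_lit 174) (nat_lit 5) (nat_lit 439) (nat_lit 439) (nat_lit 322))) (XT.nd (nat_lit 78) (nat_lit 0) (nat_lit 76) (XT.lf (nat_lit 76) (nat_lit 5552824519) (nat_lit 0) (nat_lit 5752850878) (nat_lit 836) (nat_lit 16640588092) (nat_lit 164) (nat_lit 5) (nat_lit 163) (nat_lit 3) (nat_lit 174) (nat_lit 5) (nat_lit 440) (nat_lit 439) (nat_lit 321)) (XT.nd (nat_lit 78) (nat_lit 0) (nat_lit 0) (XT.lf (nat_lit 0) (nat_lit 12037191364) (nat_lit 760) (nat_lit 8495376247) (nat_lit 836) (nat_lit 8107287408) (nat_lit 164) (nat_lit 5) (nat_lit 174) (nat_lit 5) (nat_lit 175) (nat_lit 5) (nat_lit 441) (nat_lit 439) (nat_lit 320)) (XT.lf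 (nat_lit 76) (nat_lit 6198490587) (nat_lit 0) (nat_lit 6792571949) (nat_lit 836) (nat_lit 16367775028) (nat_lit 165) (nat_lit 5) (nat_lit 164) (nat_lit 5) (nat_lit 175) (nat_lit 5) (nat_lit 442) (nat_lit 439) (nat_lit 319))))))))
noncomputable def xc347 : XT := (XT.nd (nat_lit 1248) (nat_lit 2736) (nat_lit 0) (XT.nd (nat_lit 624) (nat_lit 1596) (nat_lit 0) (XT.nd (nat_lit 312) (nat_lit 532) (nat_lit 0) (XT.nd (nat_lit 156) (nat_lit 0) (nat_lit 76) (XT.nd (nat_lit 78) (nat_lit 0) (nat_lit 0) (XT.lf (nat_lit 0) (nat_lit 14252983050) (nat_lit 760) (nat_lit 8309553228) (nat_lit 836) (nat_lit 7538215559) (nat_lit 165) (nat_lit 5) (nat_lit 175) (nat_lit 5) (nat_lit 176) (nat_lit 5) (nat_lit 443) (nat_lit 439) (nat_lit 318)) (XT.lf (nat_lit 76) (nat_lit 7406219095) (nat_lit 0) (nat_lit 8393936588) (nat_lit 836) (nat_lit 15068498708) (nat_lit 166) (nat_lit 5) (nat_lit 165) (nat_lit 5) (nat_lit 176) (nat_lit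 5) (nat_lit 444) (nat_lit 439) (nat_lit 317))) (XT.nd (nat_lit 78) (nat_lit 0) (nat_lit 0) (XT.lf (nat_lit 0) (nat_lit 17664312741) (nat_lit 760) (nat_lit 7578628758) (nat_lit 836) (nat_lit 6420029635) (nat_lit 166) (nat_lit 5) (nat_lit 176) (nat_lit 5) (nat_lit 177) (nat_lit 5) (nat_lit 445) (nat_lit 439) (nat_lit 316)) (XT.lf (nat_lit 76) (nat_lit 9254678947) (nat_lit 0) (nat_lit 10644689267) (nat_lit 836) (nat_lit 12583751310) (nat_lit 167) (nat_lit 5) (nat_lit 166) (nat_lit 5) (nat_lit 177) (nat_lit 5) (nat_lit 446) (nat_lit 439) (nat_lit 315)))) (XT.nd (nat_lit 156) (nat_lit 684) (nat_lit 0) (XT.nd (nat_lit 78) (nat_lit 0) (nat_lit 0) (XT.lf (nat_lit 0) (nat_lit 22445519047) (nat_lit 760) (nat_lit 6223785783) (nat_lit 836) (nat_lit 4665003695) (nat_lit 167) (nat_lit 5) (nat_lit 177) (nat_lit 5) (nat_lit 178) (nat_lit 5) (nat_lit 447) (nat_lit 439) (nat_lit 314)) (XT.lf (nat_lit 76) (nat_lit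 11831994938) (nat_lit 0) (nat_lit 13642186280) (nat_lit 836) (nat_lit 8736115873) (nat_lit 168) (nat_lit 5) (nat_lit 167) (nat_lit 5) (nat_lit 178) (nat_lit 5) (nat_lit 448) (nat_lit 439) (nat_lit 313))) (XT.nd (nat_lit 78) (nat_lit 760) (nat_lit 0) (XT.lf (nat_lit 0) (nat_lit 28790881964) (nat_lit 760) (nat_lit 4156708739) (nat_lit 76) (nat_lit 2175664398) (nat_lit 168) (nat_lit 5) (nat_lit 178) (nat_lit 5) (nat_lit 169) (nat_lit 5) (nat_lit 449) (nat_lit 439) (nat_lit 312)) (XT.lf (nat_lit 0) (nat_lit 15236703107) (nat_lit 760) (nat_lit 17494550657) (nat_lit 836) (nat_lit 3327715726) (nat_lit 158) (nat_lit 5) (nat_lit 168) (nat_lit 5) (nat_lit 169) (nat_lit 5) (nat_lit 450) (nat_lit 439) (nat_lit 311))))) (XT.nd (nat_lit 312) (nat_lit 684) (nat_lit 0) (XT.nd (nat_lit 156) (nat_lit 380) (nat_lit 0) (XT.nd (nat_lit 78) (nat_lit 532) (nat_lit 0) (XT.lf (nat_lit 0) (nat_lit 35740861634) (nat_lit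 760) (nat_lit 1194609767) (nat_lit 836) (nat_lit 102657097) (nat_lit 158) (nat_lit 5) (nat_lit 168) (nat_lit 5) (nat_lit 169) (nat_lit 5) (nat_lit 451) (nat_lit 439) (nat_lit 310)) (XT.lf (nat_lit 0) (nat_lit 3738434339) (nat_lit 532) (nat_lit 18520191336) (nat_lit 76) (nat_lit 15777062803) (nat_lit 151) (nat_lit 5) (nat_lit 158) (nat_lit 5) (nat_lit 152) (nat_lit 5) (nat_lit 452) (nat_lit 439) (nat_lit 309))) (XT.nd (nat_lit 78) (nat_lit 0) (nat_lit 0) (XT.lf (nat_lit 0) (nat_lit 2383246980) (nat_lit 380) (nat_lit 5460670157) (nat_lit 456) (nat_lit 31235336064) (nat_lit 146) (nat_lit 5) (nat_lit 151) (nat_lit 5) (nat_lit 152) (nat_lit 5) (nat_lit 453) (nat_lit 439) (nat_lit 308)) (XT.lf (nat_lit 0) (nat_lit 12660355458) (nat_lit 456) (nat_lit 15383161231) (nat_lit 76) (nat_lit 12106195620) (nat_lit 146) (nat_lit 5) (nat_lit 152) (nat_lit 5) (nat_lit 147) (nat_lit 5) (nat_lit 454) (nat_lit 439)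 (nat_lit 307)))) (XT.nd (nat_lit 156) (nat_lit 304) (nat_lit 0) (XT.nd (nat_lit 78) (nat_lit 0) (nat_lit 0) (XT.lf (nat_lit 0) (nat_lit 7130776991) (nat_lit 380) (nat_lit 10784614296) (nat_lit 456) (nat_lit 23348414511) (nat_lit 141) (nat_lit 5) (nat_lit 146) (nat_lit 5) (nat_lit 147) (nat_lit 5) (nat_lit 455) (nat_lit 439) (nat_lit 306)) (XT.lf (nat_lit 0) (nat_lit 23809543603) (nat_lit 456) (nat_lit 11238274999) (nat_lit 76) (nat_lit 7366967324) (nat_lit 141) (nat_lit 5) (nat_lit 147) (nat_lit 5) (nat_lit 142) (nat_lit 5) (nat_lit 456) (nat_lit 439) (nat_lit 305))) (XT.nd (nat_lit 78) (nat_lit 0) (nat_lit 0) (XT.lf (nat_lit 0) (nat_lit 13038541705) (nat_lit 304) (nat_lit 17337386770) (nat_lit 380) (nat_lit 13228510523) (nat_lit 137) (nat_lit 5) (nat_lit 141) (nat_lit 5) (nat_lit 142) (nat_lit 5) (nat_lit 457) (nat_lit 439) (nat_lit 304)) (XT.lf (nat_lit 0) (nat_lit 37480968034) (nat_lit 380)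 (nat_lit 5950734455) (nat_lit 76) (nat_lit 1411355643) (nat_lit 137) (nat_lit 5) (nat_lit 142) (nat_lit 5) (nat_lit 138) (nat_lit 5) (nat_lit 458) (nat_lit 439) (nat_lit 303)))))) (XT.nd (nat_lit 624) (nat_lit 1140) (nat_lit 0) (XT.nd (nat_lit 312) (nat_lit 608) (nat_lit 0) (XT.nd (nat_lit 156) (nat_lit 304) (nat_lit 0) (XT.nd (nat_lit 78) (nat_lit 380) (nat_lit 0) (XT.lf (nat_lit 0) (nat_lit 20256174055) (nat_lit 304) (nat_lit 25282932017) (nat_lit 380) (nat_lit 574609994) (nat_lit 133) (nat_lit 5) (nat_lit 137) (nat_lit 5) (nat_lit 138) (nat_lit 5) (nat_lit 459) (nat_lit 439) (nat_lit 302)) (XT.lf (nat_lit 0) (nat_lit 444271845) (nat_lit 304) (nat_lit 6005033252) (nat_lit 380) (nat_lit 40988148326) (nat_lit 128) (nat_lit 5) (nat_lit 132) (nat_lit 5) (nat_lit 133) (nat_lit 5) (nat_lit 460) (nat_lit 439) (nat_lit 301))) (XT.nd (nat_lit 78) (nat_lit 304) (nat_lit 0) (XT.lf (nat_lit 0) (nat_lit 14469942506)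 (nat_lit 380) (nat_lit 20088683505) (nat_lit 76) (nat_lit 14235038928) (nat_lit 128) (nat_lit 5) (nat_lit 133) (nat_lit 5) (nat_lit 129) (nat_lit 5) (nat_lit 461) (nat_lit 439) (nat_lit 300)) (XT.lf (nat_lit 0) (nat_lit 8326015257) (nat_lit 304) (nat_lit 14791625137) (nat_lit 380) (nat_lit 27088745347) (nat_lit 124) (nat_lit 5) (nat_lit 128) (nat_lit 5) (nat_lit 129) (nat_lit 5) (nat_lit 462) (nat_lit 439) (nat_lit 299)))) (XT.nd (nat_lit 156) (nat_lit 380) (nat_lit 0) (XT.nd (nat_lit 78) (nat_lit 228) (nat_lit 0) (XT.lf (nat_lit 0) (nat_lit 32634272438) (nat_lit 380) (nat_lit 12915659658) (nat_lit 76) (nat_lit 6117983157) (nat_lit 124) (nat_lit 5) (nat_lit 129) (nat_lit 5) (nat_lit 125) (nat_lit 5) (nat_lit 463) (nat_lit 439) (nat_lit 298)) (XT.lf (nat_lit 0) (nat_lit 17822250435) (nat_lit 228) (nat_lit 25322988463) (nat_lit 304) (nat_lit 10031357328) (nat_lit 121) (nat_lit 5) (nat_lit 124) (nat_lit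 5) (nat_lit 125) (nat_lit 5) (nat_lit 464) (nat_lit 439) (nat_lit 297))) (XT.nd (nat_lit 78) (nat_lit 380) (nat_lit 0) (XT.lf (nat_lit 0) (nat_lit 50542532606) (nat_lit 228) (nat_lit 3855776796) (nat_lit 304) (nat_lit 351574182) (nat_lit 121) (nat_lit 5) (nat_lit 124) (nat_lit 5) (nat_lit 125) (nat_lit 5) (nat_lit 465) (nat_lit 439) (nat_lit 296)) (XT.lf (nat_lit 0) (nat_lit 10254866184) (nat_lit 380) (nat_lit 27395120045) (nat_lit 76) (nat_lit 18706353410) (nat_lit 116) (nat_lit 5) (nat_lit 121) (nat_lit 5) (nat_lit 117) (nat_lit 5) (nat_lit 466) (nat_lit 439) (nat_lit 295))))) (XT.nd (nat_lit 312) (nat_lit 684) (nat_lit 0) (XT.nd (nat_lit 156) (nat_lit 228) (nat_lit 0) (XT.nd (nat_lit 78) (nat_lit 0) (nat_lit 0) (XT.lf (nat_lit 0) (nat_lit 6014181748) (nat_lit 228) (nat_lit 15593097907) (nat_lit 304) (nat_lit 36424177456) (nat_lit 113) (nat_lit 5) (nat_lit 116) (nat_lit 5) (nat_lit 117) (nat_lit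 5) (nat_lit 467) (nat_lit 439) (nat_lit 294)) (XT.lf (nat_lit 0) (nat_lit 34114982984) (nat_lit 304) (nat_lit 17850771494) (nat_lit 76) (nat_lit 7795192620) (nat_lit 113) (nat_lit 5) (nat_lit 117) (nat_lit 5) (nat_lit 114) (nat_lit 5) (nat_lit 468) (nat_lit 439) (nat_lit 293))) (XT.nd (nat_lit 78) (nat_lit 0) (nat_lit 0) (XT.lf (nat_lit 0) (nat_lit 18353043350) (nat_lit 228) (nat_lit 29435268898) (nat_lit 304) (nat_lit 13761587391) (nat_lit 110) (nat_lit 5) (nat_lit 113) (nat_lit 5) (nat_lit 114) (nat_lit 5) (nat_lit 469) (nat_lit 439) (nat_lit 292)) (XT.lf (nat_lit 0) (nat_lit 56984030936) (nat_lit 228) (nat_lit 5461710956) (nat_lit 304) (nat_lit 967536310) (nat_lit 110) (nat_lit 5) (nat_lit 113) (nat_lit 5) (nat_lit 114) (nat_lit 5) (nat_lit 470) (nat_lit 439) (nat_lit 291)))) (XT.nd (nat_lit 156) (nat_lit 228) (nat_lit 0) (XT.nd (nat_lit 78) (nat_lit 228) (nat_lit 0) (XT.lf (nat_lit 0) (nat_lit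 12900569525) (nat_lit 228) (nat_lit 32616956125) (nat_lit 76) (nat_lit 19800901045) (nat_lit 107) (nat_lit 5) (nat_lit 110) (nat_lit 5) (nat_lit 108) (nat_lit 5) (nat_lit 471) (nat_lit 439) (nat_lit 290)) (XT.lf (nat_lit 0) (nat_lit 6806495472) (nat_lit 228) (nat_lit 20927755892) (nat_lit 304) (nat_lit 39568553950) (nat_lit 104) (nat_lit 5) (nat_lit 107) (nat_lit 5) (nat_lit 108) (nat_lit 5) (nat_lit 472) (nat_lit 439) (nat_lit 289))) (XT.nd (nat_lit 78) (nat_lit 228) (nat_lit 0) (XT.lf (nat_lit 0) (nat_lit 43945669721) (nat_lit 304) (nat_lit 20113448518) (nat_lit 76) (nat_lit 5295482077) (nat_lit 104) (nat_lit 5) (nat_lit 108) (nat_lit 5) (nat_lit 105) (nat_lit 5) (nat_lit 473) (nat_lit 439) (nat_lit 288)) (XT.nd (nat_lit 78) (nat_lit 76) (nat_lit 0) (XT.lf (nat_lit 0) (nat_lit 22668392773) (nat_lit 152) (nat_lit 38994587953) (nat_lit 228) (nat_lit 9811238329) (nat_lit 102) (nat_lit 5) (nat_lit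 104) (nat_lit 5) (nat_lit 105) (nat_lit 5) (nat_lit 474) (nat_lit 439) (nat_lit 287)) (XT.lf (nat_lit 0) (nat_lit 6700729095) (nat_lit 228) (nat_lit 5505898658) (nat_lit 76) (nat_lit 61470837374) (nat_lit 101) (nat_lit 5) (nat_lit 104) (nat_lit 5) (nat_lit 102) (nat_lit 5) (nat_lit 475) (nat_lit 439) (nat_lit 286))))))))
noncomputable def xc348 : XT := (XT.nd (nat_lit 1248) (nat_lit 1444) (nat_lit 0) (XT.nd (nat_lit 624) (nat_lit 760) (nat_lit 0) (XT.nd (nat_lit 312) (nat_lit 380) (nat_lit 0) (XT.nd (nat_lit 156) (nat_lit 228) (nat_lit 0) (XT.nd (nat_lit 78) (nat_lit 152) (nat_lit 0) (XT.lf (nat_lit 0) (nat_lit 24610569110) (nat_lit 304) (nat_lit 35101021858) (nat_lit 76) (nat_lit 16226140788) (nat_lit 98) (nat_lit 5) (nat_lit 102) (nat_lit 5) (nat_lit 99) (nat_lit 5) (nat_lit 476) (nat_lit 439) (nat_lit 285)) (XT.lf (nat_lit 0) (nat_lit 11546654054) (nat_lit 152) (nat_lit 32342845925) (nat_lit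 228) (nat_lit 34397831853) (nat_lit 96) (nat_lit 5) (nat_lit 98) (nat_lit 5) (nat_lit 99) (nat_lit 5) (nat_lit 477) (nat_lit 439) (nat_lit 284))) (XT.nd (nat_lit 78) (nat_lit 228) (nat_lit 0) (XT.lf (nat_lit 0) (nat_lit 61742857203) (nat_lit 152) (nat_lit 2982449335) (nat_lit 228) (nat_lit 15999458972) (nat_lit 96) (nat_lit 5) (nat_lit 98) (nat_lit 5) (nat_lit 99) (nat_lit 5) (nat_lit 478) (nat_lit 439) (nat_lit 283)) (XT.lf (nat_lit 0) (nat_lit 4156731919) (nat_lit 228) (nat_lit 51561055029) (nat_lit 76) (nat_lit 27516487024) (nat_lit 93) (nat_lit 5) (nat_lit 96) (nat_lit 5) (nat_lit 94) (nat_lit 5) (nat_lit 479) (nat_lit 439) (nat_lit 282)))) (XT.nd (nat_lit 156) (nat_lit 228) (nat_lit 0) (XT.nd (nat_lit 78) (nat_lit 152) (nat_lit 0) (XT.lf (nat_lit 0) (nat_lit 25157219611) (nat_lit 228) (nat_lit 651955570) (nat_lit 76) (nat_lit 60028259713) (nat_lit 93) (nat_lit 5) (nat_lit 96) (nat_lit 5) (nat_lit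 94) (nat_lit 5) (nat_lit 480) (nat_lit 439) (nat_lit 281)) (XT.lf (nat_lit 0) (nat_lit 48159260051) (nat_lit 228) (nat_lit 34083443717) (nat_lit 76) (nat_lit 6280473721) (nat_lit 91) (nat_lit 5) (nat_lit 94) (nat_lit 5) (nat_lit 92) (nat_lit 5) (nat_lit 481) (nat_lit 439) (nat_lit 280))) (XT.nd (nat_lit 78) (nat_lit 76) (nat_lit 0) (XT.lf (nat_lit 0) (nat_lit 21219528004) (nat_lit 152) (nat_lit 51856123210) (nat_lit 228) (nat_lit 18229343608) (nat_lit 89) (nat_lit 5) (nat_lit 91) (nat_lit 5) (nat_lit 92) (nat_lit 5) (nat_lit 482) (nat_lit 439) (nat_lit 279)) (XT.lf (nat_lit 0) (nat_lit 5436863538) (nat_lit 228) (nat_lit 13816148377) (nat_lit 76) (nat_lit 74939712681) (nat_lit 88) (nat_lit 5) (nat_lit 91) (nat_lit 5) (nat_lit 89) (nat_lit 5) (nat_lit 483) (nat_lit 439) (nat_lit 278))))) (XT.nd (nat_lit 312) (nat_lit 304) (nat_lit 0) (XT.nd (nat_lit 156) (nat_lit 152) (nat_lit 0) (XT.nd (nat_lit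 78) (nat_lit 152) (nat_lit 0) (XT.lf (nat_lit 0) (nat_lit 30648365542) (nat_lit 228) (nat_lit 50972029913) (nat_lit 76) (nat_lit 15540772856) (nat_lit 86) (nat_lit 5) (nat_lit 89) (nat_lit 5) (nat_lit 87) (nat_lit 5) (nat_lit 484) (nat_lit 439) (nat_lit 277)) (XT.lf (nat_lit 0) (nat_lit 9386752476) (nat_lit 152) (nat_lit 48432400271) (nat_lit 228) (nat_lit 42423945996) (nat_lit 84) (nat_lit 5) (nat_lit 86) (nat_lit 5) (nat_lit 87) (nat_lit 5) (nat_lit 485) (nat_lit 439) (nat_lit 276))) (XT.nd (nat_lit 78) (nat_lit 152) (nat_lit 0) (XT.lf (nat_lit 0) (nat_lit 74530900726) (nat_lit 152) (nat_lit 12679555827) (nat_lit 228) (nat_lit 16225570314) (nat_lit 84) (nat_lit 5) (nat_lit 86) (nat_lit 5) (nat_lit 87) (nat_lit 5) (nat_lit 486) (nat_lit 439) (nat_lit 275)) (XT.lf (nat_lit 0) (nat_lit 11901006220) (nat_lit 152) (nat_lit 69996847129) (nat_lit 76) (nat_lit 24832970347) (nat_lit 82) (nat_lit 5) (nat_lit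 84) (nat_lit 5) (nat_lit 83) (nat_lit 5) (nat_lit 487) (nat_lit 439) (nat_lit 274)))) (XT.nd (nat_lit 156) (nat_lit 152) (nat_lit 0) (XT.nd (nat_lit 78) (nat_lit 152) (nat_lit 0) (XT.lf (nat_lit 0) (nat_lit 41592827195) (nat_lit 152) (nat_lit 3991361745) (nat_lit 76) (nat_lit 64557661751) (nat_lit 82) (nat_lit 5) (nat_lit 84) (nat_lit 5) (nat_lit 83) (nat_lit 5) (nat_lit 488) (nat_lit 439) (nat_lit 273)) (XT.lf (nat_lit 0) (nat_lit 67471868467) (nat_lit 152) (nat_lit 6349645563) (nat_lit 228) (nat_lit 39849301291) (nat_lit 80) (nat_lit 5) (nat_lit 82) (nat_lit 5) (nat_lit 83) (nat_lit 5) (nat_lit 489) (nat_lit 439) (nat_lit 272))) (XT.nd (nat_lit 78) (nat_lit 76) (nat_lit 0) (XT.lf (nat_lit 0) (nat_lit 25544339659) (nat_lit 76) (nat_lit 83127730740) (nat_lit 152) (nat_lit 8653636052) (nat_lit 79) (nat_lit 5) (nat_lit 80) (nat_lit 5) (nat_lit 81) (nat_lit 4) (nat_lit 490) (nat_lit 439) (nat_lit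 271)) (XT.lf (nat_lit 0) (nat_lit 24228587801) (nat_lit 152) (nat_lit 19140788457) (nat_lit 76) (nat_lit 77730241869) (nat_lit 78) (nat_lit 5) (nat_lit 80) (nat_lit 5) (nat_lit 79) (nat_lit 5) (nat_lit 491) (nat_lit 439) (nat_lit 270)))))) (XT.nd (nat_lit 624) (nat_lit 684) (nat_lit 0) (XT.nd (nat_lit 312) (nat_lit 304) (nat_lit 0) (XT.nd (nat_lit 156) (nat_lit 228) (nat_lit 0) (XT.nd (nat_lit 78) (nat_lit 76) (nat_lit 0) (XT.lf (nat_lit 0) (nat_lit 58872270154) (nat_lit 152) (nat_lit 509912564) (nat_lit 228) (nat_lit 65627045606) (nat_lit 76) (nat_lit 5) (nat_lit 78) (nat_lit 5) (nat_lit 79) (nat_lit 5) (nat_lit 492) (nat_lit 439) (nat_lit 269)) (XT.lf (nat_lit 0) (nat_lit 12035671331) (nat_lit 76) (nat_lit 85468747559) (nat_lit 152) (nat_lit 31549352088) (nat_lit 75) (nat_lit 5) (nat_lit 76) (nat_lit 5) (nat_lit 77) (nat_lit 4) (nat_lit 493) (nat_lit 439) (nat_lit 268))) (XT.nd (nat_lit 78) (nat_lit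 152) (nat_lit 0) (XT.lf (nat_lit 0) (nat_lit 5242479635) (nat_lit 152) (nat_lit 36926254725) (nat_lit 76) (nat_lit 91071217020) (nat_lit 74) (nat_lit 5) (nat_lit 76) (nat_lit 5) (nat_lit 75) (nat_lit 5) (nat_lit 494) (nat_lit 439) (nat_lit 267)) (XT.lf (nat_lit 0) (nat_lit 43637319254) (nat_lit 228) (nat_lit 89450681632) (nat_lit 76) (nat_lit 4480395739) (nat_lit 72) (nat_lit 5) (nat_lit 75) (nat_lit 5) (nat_lit 73) (nat_lit 4) (nat_lit 495) (nat_lit 439) (nat_lit 266)))) (XT.nd (nat_lit 156) (nat_lit 228) (nat_lit 0) (XT.nd (nat_lit 78) (nat_lit 76) (nat_lit 0) (XT.lf (nat_lit 0) (nat_lit 85277793706) (nat_lit 228) (nat_lit 4089548733) (nat_lit 76) (nat_lit 52679627068) (nat_lit 72) (nat_lit 5) (nat_lit 75) (nat_lit 5) (nat_lit 73) (nat_lit 4) (nat_lit 496) (nat_lit 439) (nat_lit 265)) (XT.lf (nat_lit 0) (nat_lit 88366108538) (nat_lit 76) (nat_lit 42012860481) (nat_lit 152) (nat_lit 16301568175)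 (nat_lit 71) (nat_lit 5) (nat_lit 72) (nat_lit 5) (nat_lit 73) (nat_lit 4) (nat_lit 497) (nat_lit 439) (nat_lit 264))) (XT.nd (nat_lit 78) (nat_lit 0) (nat_lit 0) (XT.lf (nat_lit 0) (nat_lit 26100185031) (nat_lit 228) (nat_lit 116887427009) (nat_lit 76) (nat_lit 8500277219) (nat_lit 68) (nat_lit 5) (nat_lit 71) (nat_lit 5) (nat_lit 69) (nat_lit 4) (nat_lit 498) (nat_lit 439) (nat_lit 263)) (XT.lf (nat_lit 0) (nat_lit 71765737222) (nat_lit 228) (nat_lit 23274558565) (nat_lit 76) (nat_lit 61397373668) (nat_lit 68) (nat_lit 5) (nat_lit 71) (nat_lit 5) (nat_lit 69) (nat_lit 4) (nat_lit 499) (nat_lit 439) (nat_lit 262))))) (XT.nd (nat_lit 312) (nat_lit 380) (nat_lit 0) (XT.nd (nat_lit 156) (nat_lit 76) (nat_lit 0) (XT.nd (nat_lit 78) (nat_lit 152) (nat_lit 0) (XT.lf (nat_lit 0) (nat_lit 77497640194) (nat_lit 76) (nat_lit 43425970313) (nat_lit 152) (nat_lit 40650875995) (nat_lit 67) (nat_lit 5) (nat_lit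 68) (nat_lit 5) (nat_lit 69) (nat_lit 4) (nat_lit 500) (nat_lit 439) (nat_lit 261)) (XT.lf (nat_lit 0) (nat_lit 6248636518) (nat_lit 152) (nat_lit 149473280071) (nat_lit 76) (nat_lit 11199092811) (nat_lit 65) (nat_lit 5) (nat_lit 67) (nat_lit 5) (nat_lit 66) (nat_lit 4) (nat_lit 501) (nat_lit 439) (nat_lit 260))) (XT.nd (nat_lit 78) (nat_lit 76) (nat_lit 0) (XT.lf (nat_lit 0) (nat_lit 56285208934) (nat_lit 152) (nat_lit 46899551817) (nat_lit 76) (nat_lit 69208866300) (nat_lit 65) (nat_lit 5) (nat_lit 67) (nat_lit 5) (nat_lit 66) (nat_lit 4) (nat_lit 502) (nat_lit 439) (nat_lit 259)) (XT.lf (nat_lit 0) (nat_lit 62811579767) (nat_lit 76) (nat_lit 46991832820) (nat_lit 152) (nat_lit 68287472878) (nat_lit 64) (nat_lit 5) (nat_lit 65) (nat_lit 5) (nat_lit 66) (nat_lit 4) (nat_lit 503) (nat_lit 439) (nat_lit 258)))) (XT.nd (nat_lit 156) (nat_lit 228) (nat_lit 0) (XT.nd (nat_lit 78) (nat_lit 152) (nat_lit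 0) (XT.lf (nat_lit 0) (nat_lit 166991476658) (nat_lit 152) (nat_lit 4598970718) (nat_lit 0) (nat_lit 12432861923) (nat_lit 64) (nat_lit 5) (nat_lit 66) (nat_lit 4) (nat_lit 64) (nat_lit 4) (nat_lit 504) (nat_lit 439) (nat_lit 257)) (XT.lf (nat_lit 0) (nat_lit 38208450503) (nat_lit 152) (nat_lit 76232315632) (nat_lit 76) (nat_lit 75652908038) (nat_lit 62) (nat_lit 5) (nat_lit 64) (nat_lit 5) (nat_lit 63) (nat_lit 4) (nat_lit 505) (nat_lit 439) (nat_lit 256))) (XT.nd (nat_lit 78) (nat_lit 152) (nat_lit 0) (XT.lf (nat_lit 0) (nat_lit 43036070255) (nat_lit 76) (nat_lit 53352556605) (nat_lit 152) (nat_lit 100027456904) (nat_lit 61) (nat_lit 5) (nat_lit 62) (nat_lit 5) (nat_lit 63) (nat_lit 4) (nat_lit 506) (nat_lit 439) (nat_lit 255)) (XT.nd (nat_lit 78) (nat_lit 152) (nat_lit 0) (XT.lf (nat_lit 0) (nat_lit 158957657853) (nat_lit 152) (nat_lit 32266776324) (nat_lit 0) (nat_lit 11756187378) (nat_lit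 61) (nat_lit 5) (nat_lit 63) (nat_lit 4) (nat_lit 61) (nat_lit 4) (nat_lit 507) (nat_lit 439) (nat_lit 254)) (XT.lf (nat_lit 0) (nat_lit 16738238787) (nat_lit 152) (nat_lit 112888923760) (nat_lit 76) (nat_lit 80113204811) (nat_lit 59) (nat_lit 5) (nat_lit 61) (nat_lit 5) (nat_lit 60) (nat_lit 4) (nat_lit 508) (nat_lit 439) (nat_lit 253))))))))
noncomputable def xc349 : XT := (XT.nd (nat_lit 1248) (nat_lit 1064) (nat_lit 0) (XT.nd (nat_lit 624) (nat_lit 532) (nat_lit 0) (XT.nd (nat_lit 312) (nat_lit 304) (nat_lit 0) (XT.nd (nat_lit 156) (nat_lit 152) (nat_lit 0) (XT.nd (nat_lit 78) (nat_lit 0) (nat_lit 0) (XT.lf (nat_lit 0) (nat_lit 16532005498) (nat_lit 76) (nat_lit 63338785447) (nat_lit 152) (nat_lit 136890587628) (nat_lit 58) (nat_lit 5) (nat_lit 59) (nat_lit 5) (nat_lit 60) (nat_lit 4) (nat_lit 509) (nat_lit 439) (nat_lit 252)) (XT.lf (nat_lit 0) (nat_lit 148200169119) (nat_lit 152) (nat_lit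 67825263995) (nat_lit 0) (nat_lit 8005997322) (nat_lit 58) (nat_lit 5) (nat_lit 60) (nat_lit 4) (nat_lit 58) (nat_lit 4) (nat_lit 510) (nat_lit 439) (nat_lit 251))) (XT.nd (nat_lit 78) (nat_lit 76) (nat_lit 0) (XT.lf (nat_lit 0) (nat_lit 72479059377) (nat_lit 76) (nat_lit 149636165139) (nat_lit 76) (nat_lit 9441299968) (nat_lit 57) (nat_lit 4) (nat_lit 58) (nat_lit 5) (nat_lit 58) (nat_lit 4) (nat_lit 511) (nat_lit 439) (nat_lit 250)) (XT.lf (nat_lit 0) (nat_lit 59505953450) (nat_lit 152) (nat_lit 18208320954) (nat_lit 76) (nat_lit 161638213519) (nat_lit 56) (nat_lit 5) (nat_lit 58) (nat_lit 5) (nat_lit 57) (nat_lit 4) (nat_lit 512) (nat_lit 439) (nat_lit 249)))) (XT.nd (nat_lit 156) (nat_lit 152) (nat_lit 0) (XT.nd (nat_lit 78) (nat_lit 76) (nat_lit 0) (XT.lf (nat_lit 0) (nat_lit 133674558898) (nat_lit 152) (nat_lit 113596976108) (nat_lit 0) (nat_lit 154411815) (nat_lit 55) (nat_lit 5) (nat_lit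 57) (nat_lit 4) (nat_lit 55) (nat_lit 4) (nat_lit 513) (nat_lit 439) (nat_lit 248)) (XT.lf (nat_lit 0) (nat_lit 38153336000) (nat_lit 76) (nat_lit 175580669817) (nat_lit 76) (nat_lit 42059952293) (nat_lit 54) (nat_lit 4) (nat_lit 55) (nat_lit 5) (nat_lit 55) (nat_lit 4) (nat_lit 514) (nat_lit 439) (nat_lit 247))) (XT.nd (nat_lit 78) (nat_lit 76) (nat_lit 0) (XT.lf (nat_lit 0) (nat_lit 34107596891) (nat_lit 152) (nat_lit 63600687172) (nat_lit 76) (nat_lit 166748422973) (nat_lit 53) (nat_lit 5) (nat_lit 55) (nat_lit 5) (nat_lit 54) (nat_lit 4) (nat_lit 515) (nat_lit 439) (nat_lit 246)) (XT.lf (nat_lit 0) (nat_lit 100672585033) (nat_lit 76) (nat_lit 13568567766) (nat_lit 152) (nat_lit 159198409269) (nat_lit 52) (nat_lit 5) (nat_lit 53) (nat_lit 5) (nat_lit 54) (nat_lit 4) (nat_lit 516) (nat_lit 439) (nat_lit 245))))) (XT.nd (nat_lit 312) (nat_lit 304) (nat_lit 0) (XT.nd (nat_lit 156) (nat_lit 76)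 (nat_lit 0) (XT.nd (nat_lit 78) (nat_lit 152) (nat_lit 0) (XT.lf (nat_lit 0) (nat_lit 200642988566) (nat_lit 152) (nat_lit 8636570217) (nat_lit 0) (nat_lit 73478920971) (nat_lit 52) (nat_lit 5) (nat_lit 54) (nat_lit 4) (nat_lit 52) (nat_lit 4) (nat_lit 517) (nat_lit 439) (nat_lit 244)) (XT.lf (nat_lit 0) (nat_lit 1764678411) (nat_lit 152) (nat_lit 123546923807) (nat_lit 76) (nat_lit 167087391610) (nat_lit 50) (nat_lit 5) (nat_lit 52) (nat_lit 5) (nat_lit 51) (nat_lit 4) (nat_lit 518) (nat_lit 439) (nat_lit 243))) (XT.nd (nat_lit 78) (nat_lit 0) (nat_lit 0) (XT.lf (nat_lit 0) (nat_lit 53358781277) (nat_lit 76) (nat_lit 34701570673) (nat_lit 152) (nat_lit 214344818157) (nat_lit 49) (nat_lit 5) (nat_lit 50) (nat_lit 5) (nat_lit 51) (nat_lit 4) (nat_lit 519) (nat_lit 439) (nat_lit 242)) (XT.lf (nat_lit 0) (nat_lit 181740431496) (nat_lit 152) (nat_lit 70387164071) (nat_lit 0) (nat_lit 60630578521) (nat_lit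 49) (nat_lit 5) (nat_lit 51) (nat_lit 4) (nat_lit 49) (nat_lit 4) (nat_lit 520) (nat_lit 439) (nat_lit 241)))) (XT.nd (nat_lit 156) (nat_lit 152) (nat_lit 0) (XT.nd (nat_lit 78) (nat_lit 76) (nat_lit 0) (XT.lf (nat_lit 0) (nat_lit 120491436428) (nat_lit 76) (nat_lit 162062569004) (nat_lit 76) (nat_lit 40952348319) (nat_lit 48) (nat_lit 4) (nat_lit 49) (nat_lit 5) (nat_lit 49) (nat_lit 4) (nat_lit 521) (nat_lit 439) (nat_lit 240)) (XT.lf (nat_lit 0) (nat_lit 53111244851) (nat_lit 152) (nat_lit 12232518941) (nat_lit 76) (nat_lit 269345774256) (nat_lit 47) (nat_lit 5) (nat_lit 49) (nat_lit 5) (nat_lit 48) (nat_lit 4) (nat_lit 522) (nat_lit 439) (nat_lit 239))) (XT.nd (nat_lit 78) (nat_lit 76) (nat_lit 0) (XT.lf (nat_lit 0) (nat_lit 154149936247) (nat_lit 152) (nat_lit 153259750756) (nat_lit 0) (nat_lit 38806217760) (nat_lit 46) (nat_lit 5) (nat_lit 48) (nat_lit 4) (nat_lit 46) (nat_lit 4) (nat_lit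 523) (nat_lit 439) (nat_lit 238)) (XT.lf (nat_lit 0) (nat_lit 51079852433) (nat_lit 76) (nat_lit 211239411647) (nat_lit 76) (nat_lit 95895390644) (nat_lit 45) (nat_lit 4) (nat_lit 46) (nat_lit 5) (nat_lit 46) (nat_lit 4) (nat_lit 524) (nat_lit 439) (nat_lit 237)))))) (XT.nd (nat_lit 624) (nat_lit 608) (nat_lit 0) (XT.nd (nat_lit 312) (nat_lit 228) (nat_lit 0) (XT.nd (nat_lit 156) (nat_lit 76) (nat_lit 0) (XT.nd (nat_lit 78) (nat_lit 76) (nat_lit 0) (XT.lf (nat_lit 0) (nat_lit 7558516841) (nat_lit 152) (nat_lit 99849349589) (nat_lit 76) (nat_lit 263269631634) (nat_lit 44) (nat_lit 5) (nat_lit 46) (nat_lit 5) (nat_lit 45) (nat_lit 4) (nat_lit 525) (nat_lit 439) (nat_lit 236)) (XT.lf (nat_lit 0) (nat_lit 114918212735) (nat_lit 152) (nat_lit 263602649268) (nat_lit 0) (nat_lit 5066228443) (nat_lit 43) (nat_lit 5) (nat_lit 45) (nat_lit 4) (nat_lit 43) (nat_lit 4) (nat_lit 526) (nat_lit 439) (nat_lit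 235))) (XT.nd (nat_lit 78) (nat_lit 76) (nat_lit 0) (XT.lf (nat_lit 0) (nat_lit 231124857961) (nat_lit 152) (nat_lit 44570731472) (nat_lit 0) (nat_lit 121272624788) (nat_lit 43) (nat_lit 5) (nat_lit 45) (nat_lit 4) (nat_lit 43) (nat_lit 4) (nat_lit 527) (nat_lit 439) (nat_lit 234)) (XT.lf (nat_lit 0) (nat_lit 191542305177) (nat_lit 76) (nat_lit 164589529623) (nat_lit 76) (nat_lit 54737059420) (nat_lit 42) (nat_lit 4) (nat_lit 43) (nat_lit 5) (nat_lit 43) (nat_lit 4) (nat_lit 528) (nat_lit 439) (nat_lit 233)))) (XT.nd (nat_lit 156) (nat_lit 76) (nat_lit 0) (XT.nd (nat_lit 78) (nat_lit 0) (nat_lit 0) (XT.lf (nat_lit 0) (nat_lit 15084089604) (nat_lit 76) (nat_lit 45860683834) (nat_lit 152) (nat_lit 364421384315) (nat_lit 40) (nat_lit 5) (nat_lit 41) (nat_lit 5) (nat_lit 42) (nat_lit 4) (nat_lit 529) (nat_lit 439) (nat_lit 232)) (XT.lf (nat_lit 0) (nat_lit 185576316535) (nat_lit 152) (nat_lit 173762347758)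 (nat_lit 0) (nat_lit 80954496593) (nat_lit 40) (nat_lit 5) (nat_lit 42) (nat_lit 4) (nat_lit 40) (nat_lit 4) (nat_lit 530) (nat_lit 439) (nat_lit 231))) (XT.nd (nat_lit 78) (nat_lit 0) (nat_lit 0) (XT.lf (nat_lit 0) (nat_lit 76271736934) (nat_lit 76) (nat_lit 242109842528) (nat_lit 76) (nat_lit 137487827582) (nat_lit 39) (nat_lit 4) (nat_lit 40) (nat_lit 5) (nat_lit 40) (nat_lit 4) (nat_lit 531) (nat_lit 439) (nat_lit 230)) (XT.lf (nat_lit 0) (nat_lit 344839198864) (nat_lit 76) (nat_lit 115930176901) (nat_lit 76) (nat_lit 11307976235) (nat_lit 39) (nat_lit 4) (nat_lit 40) (nat_lit 5) (nat_lit 40) (nat_lit 4) (nat_lit 532) (nat_lit 439) (nat_lit 229))))) (XT.nd (nat_lit 312) (nat_lit 304) (nat_lit 0) (XT.nd (nat_lit 156) (nat_lit 152) (nat_lit 0) (XT.nd (nat_lit 78) (nat_lit 0) (nat_lit 0) (XT.lf (nat_lit 0) (nat_lit 119818382751) (nat_lit 152) (nat_lit 348878886638) (nat_lit 0) (nat_lit 20178023188)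 (nat_lit 37) (nat_lit 5) (nat_lit 39) (nat_lit 4) (nat_lit 37) (nat_lit 4) (nat_lit 533) (nat_lit 439) (nat_lit 228)) (XT.lf (nat_lit 0) (nat_lit 261211233849) (nat_lit 152) (nat_lit 83517403831) (nat_lit 0) (nat_lit 161570713855) (nat_lit 37) (nat_lit 5) (nat_lit 39) (nat_lit 4) (nat_lit 37) (nat_lit 4) (nat_lit 534) (nat_lit 439) (nat_lit 227))) (XT.nd (nat_lit 78) (nat_lit 76) (nat_lit 0) (XT.lf (nat_lit 0) (nat_lit 201562523737) (nat_lit 76) (nat_lit 211257718380) (nat_lit 76) (nat_lit 111617045595) (nat_lit 36) (nat_lit 4) (nat_lit 37) (nat_lit 5) (nat_lit 37) (nat_lit 4) (nat_lit 535) (nat_lit 439) (nat_lit 226)) (XT.lf (nat_lit 0) (nat_lit 29051673020) (nat_lit 152) (nat_lit 40084888608) (nat_lit 76) (nat_lit 474251431616) (nat_lit 35) (nat_lit 5) (nat_lit 37) (nat_lit 5) (nat_lit 36) (nat_lit 4) (nat_lit 536) (nat_lit 439) (nat_lit 225)))) (XT.nd (nat_lit 156) (nat_lit 228) (nat_lit 0)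 (XT.nd (nat_lit 78) (nat_lit 0) (nat_lit 0) (XT.lf (nat_lit 0) (nat_lit 178463327161) (nat_lit 152) (nat_lit 300891211554) (nat_lit 0) (nat_lit 83567177745) (nat_lit 34) (nat_lit 5) (nat_lit 36) (nat_lit 4) (nat_lit 34) (nat_lit 4) (nat_lit 537) (nat_lit 439) (nat_lit 224)) (XT.lf (nat_lit 0) (nat_lit 337168516472) (nat_lit 152) (nat_lit 3900220390) (nat_lit 0) (nat_lit 242272241354) (nat_lit 34) (nat_lit 5) (nat_lit 36) (nat_lit 4) (nat_lit 34) (nat_lit 4) (nat_lit 538) (nat_lit 439) (nat_lit 223))) (XT.nd (nat_lit 78) (nat_lit 152) (nat_lit 0) (XT.lf (nat_lit 0) (nat_lit 318121384428) (nat_lit 76) (nat_lit 190653947565) (nat_lit 76) (nat_lit 95757552730) (nat_lit 33) (nat_lit 4) (nat_lit 34) (nat_lit 5) (nat_lit 34) (nat_lit 4) (nat_lit 539) (nat_lit 439) (nat_lit 222)) (XT.nd (nat_lit 78) (nat_lit 0) (nat_lit 0) (XT.lf (nat_lit 0) (nat_lit 29572223879) (nat_lit 76) (nat_lit 31144231110) (nat_lit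 152) (nat_lit 565992970804) (nat_lit 31) (nat_lit 5) (nat_lit 32) (nat_lit 5) (nat_lit 33) (nat_lit 4) (nat_lit 540) (nat_lit 439) (nat_lit 221)) (XT.lf (nat_lit 0) (nat_lit 228854381029) (nat_lit 152) (nat_lit 282232357975) (nat_lit 0) (nat_lit 138476650137) (nat_lit 31) (nat_lit 5) (nat_lit 33) (nat_lit 4) (nat_lit 31) (nat_lit 4) (nat_lit 541) (nat_lit 439) (nat_lit 220))))))))
noncomputable def xc350 : XT := (XT.nd (nat_lit 54990) (nat_lit 0) (nat_lit 7904) (XT.nd (nat_lit 624) (nat_lit 76) (nat_lit 0) (XT.nd (nat_lit 312) (nat_lit 228) (nat_lit 0) (XT.nd (nat_lit 156) (nat_lit 152) (nat_lit 0) (XT.nd (nat_lit 78) (nat_lit 0) (nat_lit 0) (XT.lf (nat_lit 0) (nat_lit 49490399852) (nat_lit 76) (nat_lit 357191668470) (nat_lit 76) (nat_lit 266813839087) (nat_lit 30) (nat_lit 4) (nat_lit 31) (nat_lit 5) (nat_lit 31) (nat_lit 4) (nat_lit 542) (nat_lit 439) (nat_lit 219)) (XT.lf (nat_lit 0) (nat_lit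 407597009132) (nat_lit 76) (nat_lit 190583498627) (nat_lit 76) (nat_lit 100205575443) (nat_lit 30) (nat_lit 4) (nat_lit 31) (nat_lit 5) (nat_lit 31) (nat_lit 4) (nat_lit 543) (nat_lit 439) (nat_lit 218))) (XT.nd (nat_lit 78) (nat_lit 0) (nat_lit 0) (XT.lf (nat_lit 0) (nat_lit 59835773839) (nat_lit 76) (nat_lit 13439243895) (nat_lit 152) (nat_lit 651140718279) (nat_lit 28) (nat_lit 5) (nat_lit 29) (nat_lit 5) (nat_lit 30) (nat_lit 4) (nat_lit 544) (nat_lit 439) (nat_lit 217)) (XT.lf (nat_lit 0) (nat_lit 259761280243) (nat_lit 152) (nat_lit 317831593721) (nat_lit 0) (nat_lit 173686901579) (nat_lit 28) (nat_lit 5) (nat_lit 30) (nat_lit 4) (nat_lit 28) (nat_lit 4) (nat_lit 545) (nat_lit 439) (nat_lit 216)))) (XT.nd (nat_lit 156) (nat_lit 152) (nat_lit 0) (XT.nd (nat_lit 78) (nat_lit 0) (nat_lit 0) (XT.lf (nat_lit 0) (nat_lit 47555244567) (nat_lit 76) (nat_lit 408979053114) (nat_lit 76) (nat_lit 322904597279)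 (nat_lit 27) (nat_lit 4) (nat_lit 28) (nat_lit 5) (nat_lit 28) (nat_lit 4) (nat_lit 546) (nat_lit 439) (nat_lit 215)) (XT.lf (nat_lit 0) (nat_lit 442245133350) (nat_lit 76) (nat_lit 226283125834) (nat_lit 76) (nat_lit 140208596504) (nat_lit 27) (nat_lit 4) (nat_lit 28) (nat_lit 5) (nat_lit 28) (nat_lit 4) (nat_lit 547) (nat_lit 439) (nat_lit 214))) (XT.nd (nat_lit 78) (nat_lit 0) (nat_lit 0) (XT.lf (nat_lit 0) (nat_lit 16904210325) (nat_lit 76) (nat_lit 33329355357) (nat_lit 152) (nat_lit 789212670693) (nat_lit 25) (nat_lit 5) (nat_lit 26) (nat_lit 5) (nat_lit 27) (nat_lit 4) (nat_lit 548) (nat_lit 439) (nat_lit 213)) (XT.lf (nat_lit 0) (nat_lit 254436856154) (nat_lit 152) (nat_lit 444230773658) (nat_lit 0) (nat_lit 172460983785) (nat_lit 25) (nat_lit 5) (nat_lit 27) (nat_lit 4) (nat_lit 25) (nat_lit 4) (nat_lit 549) (nat_lit 439) (nat_lit 212))))) (XT.nd (nat_lit 54054) (nat_lit 0) (nat_lit 10640)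 (XT.nd (nat_lit 53898) (nat_lit 0) (nat_lit 10564) (XT.nd (nat_lit 78) (nat_lit 76) (nat_lit 0) (XT.lf (nat_lit 0) (nat_lit 469396382044) (nat_lit 152) (nat_lit 47550974883) (nat_lit 0) (nat_lit 387420449210) (nat_lit 25) (nat_lit 5) (nat_lit 27) (nat_lit 4) (nat_lit 25) (nat_lit 4) (nat_lit 550) (nat_lit 439) (nat_lit 211)) (XT.lf (nat_lit 0) (nat_lit 381161767593) (nat_lit 76) (nat_lit 319892822908) (nat_lit 76) (nat_lit 237916832489) (nat_lit 24) (nat_lit 4) (nat_lit 25) (nat_lit 5) (nat_lit 25) (nat_lit 4) (nat_lit 551) (nat_lit 439) (nat_lit 210))) (XT.nd (nat_lit 78) (nat_lit 0) (nat_lit 0) (XT.lf (nat_lit 0) (nat_lit 5787350685) (nat_lit 836) (nat_lit 4263377019) (nat_lit 836) (nat_lit 4263377019) (nat_lit 163) (nat_lit 3) (nat_lit 174) (nat_lit 3) (nat_lit 174) (nat_lit 5) (nat_lit 440) (nat_lit 440) (nat_lit 320)) (XT.lf (nat_lit 76) (nat_lit 5918865988) (nat_lit 0) (nat_lit 6116453532)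 (nat_lit 836) (nat_lit 17300026547) (nat_lit 164) (nat_lit 5) (nat_lit 163) (nat_lit 3) (nat_lit 174) (nat_lit 5) (nat_lit 441) (nat_lit 440) (nat_lit 319)))) (XT.nd (nat_lit 156) (nat_lit 0) (nat_lit 76) (XT.nd (nat_lit 78) (nat_lit 0) (nat_lit 0) (XT.lf (nat_lit 0) (nat_lit 12794455126) (nat_lit 760) (nat_lit 8826986212) (nat_lit 836) (nat_lit 8442624242) (nat_lit 164) (nat_lit 5) (nat_lit 174) (nat_lit 5) (nat_lit 175) (nat_lit 5) (nat_lit 442) (nat_lit 440) (nat_lit 318)) (XT.lf (nat_lit 76) (nat_lit 6600071401) (nat_lit 0) (nat_lit 7189979267) (nat_lit 836) (nat_lit 17029245615) (nat_lit 165) (nat_lit 5) (nat_lit 164) (nat_lit 5) (nat_lit 175) (nat_lit 5) (nat_lit 443) (nat_lit 440) (nat_lit 317))) (XT.nd (nat_lit 78) (nat_lit 0) (nat_lit 0) (XT.lf (nat_lit 0) (nat_lit 15107092124) (nat_lit 760) (nat_lit 8629753240) (nat_lit 836) (nat_lit 7861860203) (nat_lit 165) (nat_lit 5) (nat_lit 175)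 (nat_lit 5) (nat_lit 176) (nat_lit 5) (nat_lit 444) (nat_lit 440) (nat_lit 316)) (XT.lf (nat_lit 76) (nat_lit 7870270963) (nat_lit 0) (nat_lit 8856079797) (nat_lit 836) (nat_lit 15678916637) (nat_lit 166) (nat_lit 5) (nat_lit 165) (nat_lit 5) (nat_lit 176) (nat_lit 5) (nat_lit 445) (nat_lit 440) (nat_lit 315)))))) (XT.nd (nat_lit 624) (nat_lit 1748) (nat_lit 0) (XT.nd (nat_lit 312) (nat_lit 1140) (nat_lit 0) (XT.nd (nat_lit 156) (nat_lit 0) (nat_lit 76) (XT.nd (nat_lit 78) (nat_lit 0) (nat_lit 0) (XT.lf (nat_lit 0) (nat_lit 18676599413) (nat_lit 760) (nat_lit 7861157021) (nat_lit 836) (nat_lit 6701899850) (nat_lit 166) (nat_lit 5) (nat_lit 176) (nat_lit 5) (nat_lit 177) (nat_lit 5) (nat_lit 446) (nat_lit 440) (nat_lit 314)) (XT.lf (nat_lit 76) (nat_lit 9812261180) (nat_lit 0) (nat_lit 11206481087) (nat_lit 836) (nat_lit 13082303564) (nat_lit 167) (nat_lit 5) (nat_lit 166) (nat_lit 5) (nat_lit 177)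 (nat_lit 5) (nat_lit 447) (nat_lit 440) (nat_lit 313))) (XT.nd (nat_lit 78) (nat_lit 0) (nat_lit 0) (XT.lf (nat_lit 0) (nat_lit 23685837065) (nat_lit 760) (nat_lit 6438270856) (nat_lit 836) (nat_lit 4871004987) (nat_lit 167) (nat_lit 5) (nat_lit 177) (nat_lit 5) (nat_lit 178) (nat_lit 5) (nat_lit 448) (nat_lit 440) (nat_lit 312)) (XT.lf (nat_lit 76) (nat_lit 12518739155) (nat_lit 0) (nat_lit 14343057610) (nat_lit 836) (nat_lit 9053311341) (nat_lit 168) (nat_lit 5) (nat_lit 167) (nat_lit 5) (nat_lit 178) (nat_lit 5) (nat_lit 449) (nat_lit 440) (nat_lit 311)))) (XT.nd (nat_lit 156) (nat_lit 532) (nat_lit 0) (XT.nd (nat_lit 78) (nat_lit 760) (nat_lit 0) (XT.lf (nat_lit 0) (nat_lit 30338629452) (nat_lit 760) (nat_lit 4268219189) (nat_lit 76) (nat_lit 2267150938) (nat_lit 168) (nat_lit 5) (nat_lit 178) (nat_lit 5) (nat_lit 169) (nat_lit 5) (nat_lit 450) (nat_lit 440) (nat_lit 310)) (XT.lf (nat_lit 0)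 (nat_lit 16093309620) (nat_lit 760) (nat_lit 18379037325) (nat_lit 836) (nat_lit 3384336771) (nat_lit 158) (nat_lit 5) (nat_lit 168) (nat_lit 5) (nat_lit 169) (nat_lit 5) (nat_lit 451) (nat_lit 440) (nat_lit 309))) (XT.nd (nat_lit 78) (nat_lit 532) (nat_lit 0) (XT.lf (nat_lit 0) (nat_lit 37618163152) (nat_lit 760) (nat_lit 1263634671) (nat_lit 836) (nat_lit 3252103) (nat_lit 158) (nat_lit 5) (nat_lit 168) (nat_lit 5) (nat_lit 169) (nat_lit 5) (nat_lit 452) (nat_lit 440) (nat_lit 308)) (XT.lf (nat_lit 0) (nat_lit 4023078189) (nat_lit 532) (nat_lit 19349113076) (nat_lit 76) (nat_lit 16560388858) (nat_lit 151) (nat_lit 5) (nat_lit 158) (nat_lit 5) (nat_lit 152) (nat_lit 5) (nat_lit 453) (nat_lit 440) (nat_lit 307))))) (XT.nd (nat_lit 312) (nat_lit 988) (nat_lit 0) (XT.nd (nat_lit 156) (nat_lit 380) (nat_lit 0) (XT.nd (nat_lit 78) (nat_lit 0) (nat_lit 0) (XT.lf (nat_lit 0) (nat_lit 2597931223) (nat_lit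 380) (nat_lit 5732741835) (nat_lit 456) (nat_lit 32697808447) (nat_lit 146) (nat_lit 5) (nat_lit 151) (nat_lit 5) (nat_lit 152) (nat_lit 5) (nat_lit 454) (nat_lit 440) (nat_lit 306)) (XT.lf (nat_lit 0) (nat_lit 13383444736) (nat_lit 456) (nat_lit 16056851451) (nat_lit 76) (nat_lit 12712392111) (nat_lit 146) (nat_lit 5) (nat_lit 152) (nat_lit 5) (nat_lit 147) (nat_lit 5) (nat_lit 455) (nat_lit 440) (nat_lit 305))) (XT.nd (nat_lit 78) (nat_lit 0) (nat_lit 0) (XT.lf (nat_lit 0) (nat_lit 7581243878) (nat_lit 380) (nat_lit 11317165839) (nat_lit 456) (nat_lit 24424218166) (nat_lit 141) (nat_lit 5) (nat_lit 146) (nat_lit 5) (nat_lit 147) (nat_lit 5) (nat_lit 456) (nat_lit 440) (nat_lit 304)) (XT.lf (nat_lit 0) (nat_lit 25083214255) (nat_lit 456) (nat_lit 11706672594) (nat_lit 76) (nat_lit 7741473211) (nat_lit 141) (nat_lit 5) (nat_lit 147) (nat_lit 5) (nat_lit 142) (nat_lit 5) (nat_lit 457) (nat_lit 440)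 (nat_lit 303)))) (XT.nd (nat_lit 156) (nat_lit 684) (nat_lit 0) (XT.nd (nat_lit 78) (nat_lit 0) (nat_lit 0) (XT.lf (nat_lit 0) (nat_lit 13782476620) (nat_lit 304) (nat_lit 18192916658) (nat_lit 380) (nat_lit 13805229025) (nat_lit 137) (nat_lit 5) (nat_lit 141) (nat_lit 5) (nat_lit 142) (nat_lit 5) (nat_lit 458) (nat_lit 440) (nat_lit 302)) (XT.lf (nat_lit 0) (nat_lit 39432012074) (nat_lit 380) (nat_lit 6156966954) (nat_lit 76) (nat_lit 1492377251) (nat_lit 137) (nat_lit 5) (nat_lit 142) (nat_lit 5) (nat_lit 138) (nat_lit 5) (nat_lit 459) (nat_lit 440) (nat_lit 301))) (XT.nd (nat_lit 78) (nat_lit 380) (nat_lit 0) (XT.lf (nat_lit 0) (nat_lit 21358814333) (nat_lit 304) (nat_lit 26531978745) (nat_lit 380) (nat_lit 524867467) (nat_lit 133) (nat_lit 5) (nat_lit 137) (nat_lit 5) (nat_lit 138) (nat_lit 5) (nat_lit 460) (nat_lit 440) (nat_lit 300)) (XT.nd (nat_lit 78) (nat_lit 0) (nat_lit 0) (XT.lf (nat_lit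 0) (nat_lit 557343674) (nat_lit 304) (nat_lit 6288189419) (nat_lit 380) (nat_lit 42960100563) (nat_lit 128) (nat_lit 5) (nat_lit 132) (nat_lit 5) (nat_lit 133) (nat_lit 5) (nat_lit 461) (nat_lit 440) (nat_lit 299)) (XT.lf (nat_lit 0) (nat_lit 15263944060) (nat_lit 380) (nat_lit 21003323617) (nat_lit 76) (nat_lit 14962551191) (nat_lit 128) (nat_lit 5) (nat_lit 133) (nat_lit 5) (nat_lit 129) (nat_lit 5) (nat_lit 462) (nat_lit 440) (nat_lit 298))))))))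
noncomputable def xc351 : XT := (XT.nd (nat_lit 1248) (nat_lit 1672) (nat_lit 0) (XT.nd (nat_lit 624) (nat_lit 1064) (nat_lit 0) (XT.nd (nat_lit 312) (nat_lit 836) (nat_lit 0) (XT.nd (nat_lit 156) (nat_lit 228) (nat_lit 0) (XT.nd (nat_lit 78) (nat_lit 0) (nat_lit 0) (XT.lf (nat_lit 0) (nat_lit 8830661791) (nat_lit 304) (nat_lit 15511387023) (nat_lit 380) (nat_lit 28371225993) (nat_lit 124) (nat_lit 5) (nat_lit 128) (nat_lit 5) (nat_lit 129) (nat_lit 5) (nat_lit 463) (nat_lit 440) (nat_lit 297)) (XT.lf (nat_lit 0) (nat_lit 34331544000) (nat_lit 380) (nat_lit 13474331635) (nat_lit 76) (nat_lit 6442153769) (nat_lit 124) (nat_lit 5) (nat_lit 129) (nat_lit 5) (nat_lit 125) (nat_lit 5) (nat_lit 464) (nat_lit 440) (nat_lit 296))) (XT.nd (nat_lit 78) (nat_lit 0) (nat_lit 0) (XT.lf (nat_lit 0) (nat_lit 18799068946) (nat_lit 228) (nat_lit 26567206141) (nat_lit 304) (nat_lit 10465958701) (nat_lit 121) (nat_lit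 5) (nat_lit 124) (nat_lit 5) (nat_lit 125) (nat_lit 5) (nat_lit 465) (nat_lit 440) (nat_lit 295)) (XT.lf (nat_lit 0) (nat_lit 53151283989) (nat_lit 228) (nat_lit 4027678259) (nat_lit 304) (nat_lit 305375278) (nat_lit 121) (nat_lit 5) (nat_lit 124) (nat_lit 5) (nat_lit 125) (nat_lit 5) (nat_lit 466) (nat_lit 440) (nat_lit 294)))) (XT.nd (nat_lit 156) (nat_lit 228) (nat_lit 0) (XT.nd (nat_lit 78) (nat_lit 228) (nat_lit 0) (XT.lf (nat_lit 0) (nat_lit 10828038438) (nat_lit 380) (nat_lit 28679896362) (nat_lit 76) (nat_lit 19663197317) (nat_lit 116) (nat_lit 5) (nat_lit 121) (nat_lit 5) (nat_lit 117) (nat_lit 5) (nat_lit 467) (nat_lit 440) (nat_lit 293)) (XT.lf (nat_lit 0) (nat_lit 6398499880) (nat_lit 228) (nat_lit 16348000505) (nat_lit 304) (nat_lit 38183583833) (nat_lit 113) (nat_lit 5) (nat_lit 116) (nat_lit 5) (nat_lit 117) (nat_lit 5) (nat_lit 468) (nat_lit 440) (nat_lit 292))) (XT.nd (nat_lit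 78) (nat_lit 228) (nat_lit 0) (XT.lf (nat_lit 0) (nat_lit 35877154228) (nat_lit 304) (nat_lit 18661244983) (nat_lit 76) (nat_lit 8207771364) (nat_lit 113) (nat_lit 5) (nat_lit 117) (nat_lit 5) (nat_lit 114) (nat_lit 5) (nat_lit 469) (nat_lit 440) (nat_lit 291)) (XT.lf (nat_lit 0) (nat_lit 19351436972) (nat_lit 228) (nat_lit 30881286818) (nat_lit 304) (nat_lit 14391918394) (nat_lit 110) (nat_lit 5) (nat_lit 113) (nat_lit 5) (nat_lit 114) (nat_lit 5) (nat_lit 470) (nat_lit 440) (nat_lit 290))))) (XT.nd (nat_lit 312) (nat_lit 608) (nat_lit 0) (XT.nd (nat_lit 156) (nat_lit 228) (nat_lit 0) (XT.nd (nat_lit 78) (nat_lit 228) (nat_lit 0) (XT.lf (nat_lit 0) (nat_lit 59910129107) (nat_lit 228) (nat_lit 5710276956) (nat_lit 304) (nat_lit 960914682) (nat_lit 110) (nat_lit 5) (nat_lit 113) (nat_lit 5) (nat_lit 114) (nat_lit 5) (nat_lit 471) (nat_lit 440) (nat_lit 289)) (XT.lf (nat_lit 0) (nat_lit 13597907089)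 (nat_lit 228) (nat_lit 34168213277) (nat_lit 76) (nat_lit 20815609929) (nat_lit 107) (nat_lit 5) (nat_lit 110) (nat_lit 5) (nat_lit 108) (nat_lit 5) (nat_lit 472) (nat_lit 440) (nat_lit 288))) (XT.nd (nat_lit 78) (nat_lit 0) (nat_lit 0) (XT.lf (nat_lit 0) (nat_lit 7225127180) (nat_lit 228) (nat_lit 21946877522) (nat_lit 304) (nat_lit 41493386668) (nat_lit 104) (nat_lit 5) (nat_lit 107) (nat_lit 5) (nat_lit 108) (nat_lit 5) (nat_lit 473) (nat_lit 440) (nat_lit 287)) (XT.lf (nat_lit 0) (nat_lit 46191968894) (nat_lit 304) (nat_lit 21042515760) (nat_lit 76) (nat_lit 5585392826) (nat_lit 104) (nat_lit 5) (nat_lit 108) (nat_lit 5) (nat_lit 105) (nat_lit 5) (nat_lit 474) (nat_lit 440) (nat_lit 286)))) (XT.nd (nat_lit 156) (nat_lit 380) (nat_lit 0) (XT.nd (nat_lit 78) (nat_lit 76) (nat_lit 0) (XT.lf (nat_lit 0) (nat_lit 23877182028) (nat_lit 152) (nat_lit 40916806071) (nat_lit 228) (nat_lit 10251547021)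 (nat_lit 102) (nat_lit 5) (nat_lit 104) (nat_lit 5) (nat_lit 105) (nat_lit 5) (nat_lit 475) (nat_lit 440) (nat_lit 285)) (XT.lf (nat_lit 0) (nat_lit 7082093937) (nat_lit 228) (nat_lit 5707879391) (nat_lit 76) (nat_lit 64569046848) (nat_lit 101) (nat_lit 5) (nat_lit 104) (nat_lit 5) (nat_lit 102) (nat_lit 5) (nat_lit 476) (nat_lit 440) (nat_lit 284))) (XT.nd (nat_lit 78) (nat_lit 152) (nat_lit 0) (XT.lf (nat_lit 0) (nat_lit 25886765740) (nat_lit 304) (nat_lit 36782096837) (nat_lit 76) (nat_lit 17063470655) (nat_lit 98) (nat_lit 5) (nat_lit 102) (nat_lit 5) (nat_lit 99) (nat_lit 5) (nat_lit 477) (nat_lit 440) (nat_lit 283)) (XT.lf (nat_lit 0) (nat_lit 12196769708) (nat_lit 152) (nat_lit 33931835116) (nat_lit 228) (nat_lit 36070860486) (nat_lit 96) (nat_lit 5) (nat_lit 98) (nat_lit 5) (nat_lit 99) (nat_lit 5) (nat_lit 478) (nat_lit 440) (nat_lit 282)))))) (XT.nd (nat_lit 624) (nat_lit 760) (nat_lit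 0) (XT.nd (nat_lit 312) (nat_lit 532) (nat_lit 0) (XT.nd (nat_lit 156) (nat_lit 152) (nat_lit 0) (XT.nd (nat_lit 78) (nat_lit 228) (nat_lit 0) (XT.lf (nat_lit 0) (nat_lit 64899317159) (nat_lit 152) (nat_lit 3104759321) (nat_lit 228) (nat_lit 16754800531) (nat_lit 96) (nat_lit 5) (nat_lit 98) (nat_lit 5) (nat_lit 99) (nat_lit 5) (nat_lit 479) (nat_lit 440) (nat_lit 281)) (XT.lf (nat_lit 0) (nat_lit 4407228262) (nat_lit 228) (nat_lit 54067816173) (nat_lit 76) (nat_lit 28918808847) (nat_lit 93) (nat_lit 5) (nat_lit 96) (nat_lit 5) (nat_lit 94) (nat_lit 5) (nat_lit 480) (nat_lit 440) (nat_lit 280))) (XT.nd (nat_lit 78) (nat_lit 152) (nat_lit 0) (XT.lf (nat_lit 0) (nat_lit 26455708923) (nat_lit 228) (nat_lit 616656579) (nat_lit 76) (nat_lit 63054908386) (nat_lit 93) (nat_lit 5) (nat_lit 96) (nat_lit 5) (nat_lit 94) (nat_lit 5) (nat_lit 481) (nat_lit 440) (nat_lit 279)) (XT.lf (nat_lit 0) (nat_lit 50607382225)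 (nat_lit 228) (nat_lit 35719248704) (nat_lit 76) (nat_lit 6620696206) (nat_lit 91) (nat_lit 5) (nat_lit 94) (nat_lit 5) (nat_lit 92) (nat_lit 5) (nat_lit 482) (nat_lit 440) (nat_lit 278)))) (XT.nd (nat_lit 156) (nat_lit 304) (nat_lit 0) (XT.nd (nat_lit 78) (nat_lit 76) (nat_lit 0) (XT.lf (nat_lit 0) (nat_lit 22347768906) (nat_lit 152) (nat_lit 54420961886) (nat_lit 228) (nat_lit 19099547712) (nat_lit 89) (nat_lit 5) (nat_lit 91) (nat_lit 5) (nat_lit 92) (nat_lit 5) (nat_lit 483) (nat_lit 440) (nat_lit 277)) (XT.lf (nat_lit 0) (nat_lit 5746747097) (nat_lit 228) (nat_lit 14441635481) (nat_lit 76) (nat_lit 78712075131) (nat_lit 88) (nat_lit 5) (nat_lit 91) (nat_lit 5) (nat_lit 89) (nat_lit 5) (nat_lit 484) (nat_lit 440) (nat_lit 276))) (XT.nd (nat_lit 78) (nat_lit 152) (nat_lit 0) (XT.lf (nat_lit 0) (nat_lit 32218438222) (nat_lit 228) (nat_lit 53454924071) (nat_lit 76) (nat_lit 16343980669) (nat_lit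 86) (nat_lit 5) (nat_lit 89) (nat_lit 5) (nat_lit 87) (nat_lit 5) (nat_lit 485) (nat_lit 440) (nat_lit 275)) (XT.lf (nat_lit 0) (nat_lit 9920737642) (nat_lit 152) (nat_lit 50826243407) (nat_lit 228) (nat_lit 44506428102) (nat_lit 84) (nat_lit 5) (nat_lit 86) (nat_lit 5) (nat_lit 87) (nat_lit 5) (nat_lit 486) (nat_lit 440) (nat_lit 274))))) (XT.nd (nat_lit 312) (nat_lit 456) (nat_lit 0) (XT.nd (nat_lit 156) (nat_lit 152) (nat_lit 0) (XT.nd (nat_lit 78) (nat_lit 152) (nat_lit 0) (XT.lf (nat_lit 0) (nat_lit 78319014851) (nat_lit 152) (nat_lit 13287079450) (nat_lit 228) (nat_lit 16999977216) (nat_lit 84) (nat_lit 5) (nat_lit 86) (nat_lit 5) (nat_lit 87) (nat_lit 5) (nat_lit 487) (nat_lit 440) (nat_lit 273)) (XT.lf (nat_lit 0) (nat_lit 12531430476) (nat_lit 152) (nat_lit 73433620968) (nat_lit 76) (nat_lit 26100543880) (nat_lit 82) (nat_lit 5) (nat_lit 84) (nat_lit 5) (nat_lit 83) (nat_lit 5) (nat_lit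 488) (nat_lit 440) (nat_lit 272))) (XT.nd (nat_lit 78) (nat_lit 152) (nat_lit 0) (XT.lf (nat_lit 0) (nat_lit 43706158026) (nat_lit 152) (nat_lit 4130864577) (nat_lit 76) (nat_lit 67810235330) (nat_lit 82) (nat_lit 5) (nat_lit 84) (nat_lit 5) (nat_lit 83) (nat_lit 5) (nat_lit 489) (nat_lit 440) (nat_lit 271)) (XT.lf (nat_lit 0) (nat_lit 70904558351) (nat_lit 152) (nat_lit 6641039254) (nat_lit 228) (nat_lit 41807107310) (nat_lit 80) (nat_lit 5) (nat_lit 82) (nat_lit 5) (nat_lit 83) (nat_lit 5) (nat_lit 490) (nat_lit 440) (nat_lit 270)))) (XT.nd (nat_lit 156) (nat_lit 304) (nat_lit 0) (XT.nd (nat_lit 78) (nat_lit 76) (nat_lit 0) (XT.lf (nat_lit 0) (nat_lit 26880923729) (nat_lit 76) (nat_lit 87257501066) (nat_lit 152) (nat_lit 9051928693) (nat_lit 79) (nat_lit 5) (nat_lit 80) (nat_lit 5) (nat_lit 81) (nat_lit 4) (nat_lit 491) (nat_lit 440) (nat_lit 269)) (XT.lf (nat_lit 0) (nat_lit 25471720518) (nat_lit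 152) (nat_lit 20040238868) (nat_lit 76) (nat_lit 81641053806) (nat_lit 78) (nat_lit 5) (nat_lit 80) (nat_lit 5) (nat_lit 79) (nat_lit 5) (nat_lit 492) (nat_lit 440) (nat_lit 268))) (XT.nd (nat_lit 78) (nat_lit 152) (nat_lit 0) (XT.lf (nat_lit 0) (nat_lit 61872543818) (nat_lit 152) (nat_lit 509826305) (nat_lit 228) (nat_lit 68875765063) (nat_lit 76) (nat_lit 5) (nat_lit 78) (nat_lit 5) (nat_lit 79) (nat_lit 5) (nat_lit 493) (nat_lit 440) (nat_lit 267)) (XT.nd (nat_lit 78) (nat_lit 76) (nat_lit 0) (XT.lf (nat_lit 0) (nat_lit 12694337699) (nat_lit 76) (nat_lit 89716168972) (nat_lit 152) (nat_lit 33094408903) (nat_lit 75) (nat_lit 5) (nat_lit 76) (nat_lit 5) (nat_lit 77) (nat_lit 4) (nat_lit 494) (nat_lit 440) (nat_lit 266)) (XT.lf (nat_lit 0) (nat_lit 5534483085) (nat_lit 152) (nat_lit 38717404860) (nat_lit 76) (nat_lit 95648566475) (nat_lit 74) (nat_lit 5) (nat_lit 76) (nat_lit 5) (nat_lit 75) (nat_lit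 5) (nat_lit 495) (nat_lit 440) (nat_lit 265))))))))
noncomputable def xc352 : XT := (XT.nd (nat_lit 1248) (nat_lit 1140) (nat_lit 0) (XT.nd (nat_lit 624) (nat_lit 532) (nat_lit 0) (XT.nd (nat_lit 312) (nat_lit 228) (nat_lit 0) (XT.nd (nat_lit 156) (nat_lit 304) (nat_lit 0) (XT.nd (nat_lit 78) (nat_lit 0) (nat_lit 0) (XT.lf (nat_lit 0) (nat_lit 45848879039) (nat_lit 228) (nat_lit 93867866940) (nat_lit 76) (nat_lit 4728585258) (nat_lit 72) (nat_lit 5) (nat_lit 75) (nat_lit 5) (nat_lit 73) (nat_lit 4) (nat_lit 496) (nat_lit 440) (nat_lit 264)) (XT.lf (nat_lit 0) (nat_lit 89569963223) (nat_lit 228) (nat_lit 4241313051) (nat_lit 76) (nat_lit 55336627214) (nat_lit 72) (nat_lit 5) (nat_lit 75) (nat_lit 5) (nat_lit 73) (nat_lit 4) (nat_lit 497) (nat_lit 440) (nat_lit 263))) (XT.nd (nat_lit 78) (nat_lit 228) (nat_lit 0) (XT.lf (nat_lit 0) (nat_lit 92836276871) (nat_lit 76) (nat_lit 44089383497) (nat_lit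 152) (nat_lit 17087516062) (nat_lit 71) (nat_lit 5) (nat_lit 72) (nat_lit 5) (nat_lit 73) (nat_lit 4) (nat_lit 498) (nat_lit 440) (nat_lit 262)) (XT.lf (nat_lit 0) (nat_lit 27433239714) (nat_lit 228) (nat_lit 122678849474) (nat_lit 76) (nat_lit 8948791828) (nat_lit 68) (nat_lit 5) (nat_lit 71) (nat_lit 5) (nat_lit 69) (nat_lit 4) (nat_lit 499) (nat_lit 440) (nat_lit 261)))) (XT.nd (nat_lit 156) (nat_lit 152) (nat_lit 0) (XT.nd (nat_lit 78) (nat_lit 76) (nat_lit 0) (XT.lf (nat_lit 0) (nat_lit 75380734018) (nat_lit 228) (nat_lit 24387858983) (nat_lit 76) (nat_lit 64489624017) (nat_lit 68) (nat_lit 5) (nat_lit 71) (nat_lit 5) (nat_lit 69) (nat_lit 4) (nat_lit 500) (nat_lit 440) (nat_lit 260)) (XT.lf (nat_lit 0) (nat_lit 81422136368) (nat_lit 76) (nat_lit 45573867314) (nat_lit 152) (nat_lit 42655896119) (nat_lit 67) (nat_lit 5) (nat_lit 68) (nat_lit 5) (nat_lit 69) (nat_lit 4) (nat_lit 501) (nat_lit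 440) (nat_lit 259))) (XT.nd (nat_lit 78) (nat_lit 0) (nat_lit 0) (XT.lf (nat_lit 0) (nat_lit 6587585437) (nat_lit 152) (nat_lit 156896322597) (nat_lit 76) (nat_lit 11781825624) (nat_lit 65) (nat_lit 5) (nat_lit 67) (nat_lit 5) (nat_lit 66) (nat_lit 4) (nat_lit 502) (nat_lit 440) (nat_lit 258)) (XT.lf (nat_lit 0) (nat_lit 59124723756) (nat_lit 152) (nat_lit 49196318477) (nat_lit 76) (nat_lit 72691003112) (nat_lit 65) (nat_lit 5) (nat_lit 67) (nat_lit 5) (nat_lit 66) (nat_lit 4) (nat_lit 503) (nat_lit 440) (nat_lit 257))))) (XT.nd (nat_lit 312) (nat_lit 228) (nat_lit 0) (XT.nd (nat_lit 156) (nat_lit 228) (nat_lit 0) (XT.nd (nat_lit 78) (nat_lit 0) (nat_lit 0) (XT.lf (nat_lit 0) (nat_lit 65999592091) (nat_lit 76) (nat_lit 49318783479) (nat_lit 152) (nat_lit 71675814227) (nat_lit 64) (nat_lit 5) (nat_lit 65) (nat_lit 5) (nat_lit 66) (nat_lit 4) (nat_lit 504) (nat_lit 440) (nat_lit 256)) (XT.lf (nat_lit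 0) (nat_lit 175364998912) (nat_lit 152) (nat_lit 4782900409) (nat_lit 0) (nat_lit 13075377714) (nat_lit 64) (nat_lit 5) (nat_lit 66) (nat_lit 4) (nat_lit 64) (nat_lit 4) (nat_lit 505) (nat_lit 440) (nat_lit 255))) (XT.nd (nat_lit 78) (nat_lit 76) (nat_lit 0) (XT.lf (nat_lit 0) (nat_lit 40142773717) (nat_lit 152) (nat_lit 79997864263) (nat_lit 76) (nat_lit 79456524586) (nat_lit 62) (nat_lit 5) (nat_lit 64) (nat_lit 5) (nat_lit 63) (nat_lit 4) (nat_lit 506) (nat_lit 440) (nat_lit 254)) (XT.lf (nat_lit 0) (nat_lit 45233197900) (nat_lit 76) (nat_lit 55998330502) (nat_lit 152) (nat_lit 105004185774) (nat_lit 61) (nat_lit 5) (nat_lit 62) (nat_lit 5) (nat_lit 63) (nat_lit 4) (nat_lit 507) (nat_lit 440) (nat_lit 253)))) (XT.nd (nat_lit 156) (nat_lit 76) (nat_lit 0) (XT.nd (nat_lit 78) (nat_lit 152) (nat_lit 0) (XT.lf (nat_lit 0) (nat_lit 166928218269) (nat_lit 152) (nat_lit 33836156371) (nat_lit 0) (nat_lit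 12364143863) (nat_lit 61) (nat_lit 5) (nat_lit 63) (nat_lit 4) (nat_lit 61) (nat_lit 4) (nat_lit 508) (nat_lit 440) (nat_lit 252)) (XT.lf (nat_lit 0) (nat_lit 17597788981) (nat_lit 152) (nat_lit 118489371439) (nat_lit 76) (nat_lit 84139093164) (nat_lit 59) (nat_lit 5) (nat_lit 61) (nat_lit 5) (nat_lit 60) (nat_lit 4) (nat_lit 509) (nat_lit 440) (nat_lit 251))) (XT.nd (nat_lit 78) (nat_lit 0) (nat_lit 0) (XT.lf (nat_lit 0) (nat_lit 17401894629) (nat_lit 76) (nat_lit 66484671966) (nat_lit 152) (nat_lit 143711768882) (nat_lit 58) (nat_lit 5) (nat_lit 59) (nat_lit 5) (nat_lit 60) (nat_lit 4) (nat_lit 510) (nat_lit 440) (nat_lit 250)) (XT.lf (nat_lit 0) (nat_lit 155631667856) (nat_lit 152) (nat_lit 71174553682) (nat_lit 0) (nat_lit 8425705697) (nat_lit 58) (nat_lit 5) (nat_lit 60) (nat_lit 4) (nat_lit 58) (nat_lit 4) (nat_lit 511) (nat_lit 440) (nat_lit 249)))))) (XT.nd (nat_lit 624) (nat_lit 532) (nat_lit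 0) (XT.nd (nat_lit 312) (nat_lit 304) (nat_lit 0) (XT.nd (nat_lit 156) (nat_lit 152) (nat_lit 0) (XT.nd (nat_lit 78) (nat_lit 76) (nat_lit 0) (XT.lf (nat_lit 0) (nat_lit 76144308866) (nat_lit 76) (nat_lit 157097788565) (nat_lit 76) (nat_lit 9891197494) (nat_lit 57) (nat_lit 4) (nat_lit 58) (nat_lit 5) (nat_lit 58) (nat_lit 4) (nat_lit 512) (nat_lit 440) (nat_lit 248)) (XT.lf (nat_lit 0) (nat_lit 62501687289) (nat_lit 152) (nat_lit 19078731090) (nat_lit 76) (nat_lit 169738671952) (nat_lit 56) (nat_lit 5) (nat_lit 58) (nat_lit 5) (nat_lit 57) (nat_lit 4) (nat_lit 513) (nat_lit 440) (nat_lit 247))) (XT.nd (nat_lit 78) (nat_lit 76) (nat_lit 0) (XT.lf (nat_lit 0) (nat_lit 140378665452) (nat_lit 152) (nat_lit 119236761273) (nat_lit 0) (nat_lit 180798335) (nat_lit 55) (nat_lit 5) (nat_lit 57) (nat_lit 4) (nat_lit 55) (nat_lit 4) (nat_lit 514) (nat_lit 440) (nat_lit 246)) (XT.lf (nat_lit 0) (nat_lit 40100420253)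 (nat_lit 76) (nat_lit 184340309471) (nat_lit 76) (nat_lit 44141924948) (nat_lit 54) (nat_lit 4) (nat_lit 55) (nat_lit 5) (nat_lit 55) (nat_lit 4) (nat_lit 515) (nat_lit 440) (nat_lit 245)))) (XT.nd (nat_lit 156) (nat_lit 152) (nat_lit 0) (XT.nd (nat_lit 78) (nat_lit 76) (nat_lit 0) (XT.lf (nat_lit 0) (nat_lit 35832359622) (nat_lit 152) (nat_lit 66742540065) (nat_lit 76) (nat_lit 175103673408) (nat_lit 53) (nat_lit 5) (nat_lit 55) (nat_lit 5) (nat_lit 54) (nat_lit 4) (nat_lit 516) (nat_lit 440) (nat_lit 244)) (XT.lf (nat_lit 0) (nat_lit 105743779920) (nat_lit 76) (nat_lit 14228476916) (nat_lit 152) (nat_lit 167138330875) (nat_lit 52) (nat_lit 5) (nat_lit 53) (nat_lit 5) (nat_lit 54) (nat_lit 4) (nat_lit 517) (nat_lit 440) (nat_lit 243))) (XT.nd (nat_lit 78) (nat_lit 152) (nat_lit 0) (XT.lf (nat_lit 0) (nat_lit 210693552788) (nat_lit 152) (nat_lit 9031990195) (nat_lit 0) (nat_lit 77169939884) (nat_lit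 52) (nat_lit 5) (nat_lit 54) (nat_lit 4) (nat_lit 52) (nat_lit 4) (nat_lit 518) (nat_lit 440) (nat_lit 242)) (XT.lf (nat_lit 0) (nat_lit 1871306300) (nat_lit 152) (nat_lit 129687840389) (nat_lit 76) (nat_lit 175458877009) (nat_lit 50) (nat_lit 5) (nat_lit 52) (nat_lit 5) (nat_lit 51) (nat_lit 4) (nat_lit 519) (nat_lit 440) (nat_lit 241))))) (XT.nd (nat_lit 312) (nat_lit 304) (nat_lit 0) (XT.nd (nat_lit 156) (nat_lit 152) (nat_lit 0) (XT.nd (nat_lit 78) (nat_lit 0) (nat_lit 0) (XT.lf (nat_lit 0) (nat_lit 56062562374) (nat_lit 76) (nat_lit 36418884833) (nat_lit 152) (nat_lit 225043077406) (nat_lit 49) (nat_lit 5) (nat_lit 50) (nat_lit 5) (nat_lit 51) (nat_lit 4) (nat_lit 520) (nat_lit 440) (nat_lit 240)) (XT.lf (nat_lit 0) (nat_lit 190844934034) (nat_lit 152) (nat_lit 73871790198) (nat_lit 0) (nat_lit 63678484402) (nat_lit 49) (nat_lit 5) (nat_lit 51) (nat_lit 4) (nat_lit 49) (nat_lit 4) (nat_lit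 521) (nat_lit 440) (nat_lit 239))) (XT.nd (nat_lit 78) (nat_lit 76) (nat_lit 0) (XT.lf (nat_lit 0) (nat_lit 126550180132) (nat_lit 76) (nat_lit 170148707628) (nat_lit 76) (nat_lit 42981924471) (nat_lit 48) (nat_lit 4) (nat_lit 49) (nat_lit 5) (nat_lit 49) (nat_lit 4) (nat_lit 522) (nat_lit 440) (nat_lit 238)) (XT.lf (nat_lit 0) (nat_lit 55783439313) (nat_lit 152) (nat_lit 12811050206) (nat_lit 76) (nat_lit 282828693725) (nat_lit 47) (nat_lit 5) (nat_lit 49) (nat_lit 5) (nat_lit 48) (nat_lit 4) (nat_lit 523) (nat_lit 440) (nat_lit 237)))) (XT.nd (nat_lit 156) (nat_lit 152) (nat_lit 0) (XT.nd (nat_lit 78) (nat_lit 76) (nat_lit 0) (XT.lf (nat_lit 0) (nat_lit 161874034755) (nat_lit 152) (nat_lit 160889612997) (nat_lit 0) (nat_lit 40762222074) (nat_lit 46) (nat_lit 5) (nat_lit 48) (nat_lit 4) (nat_lit 46) (nat_lit 4) (nat_lit 524) (nat_lit 440) (nat_lit 236)) (XT.lf (nat_lit 0) (nat_lit 53666436073)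 (nat_lit 76) (nat_lit 221785111188) (nat_lit 76) (nat_lit 100673024114) (nat_lit 45) (nat_lit 4) (nat_lit 46) (nat_lit 5) (nat_lit 46) (nat_lit 4) (nat_lit 525) (nat_lit 440) (nat_lit 235))) (XT.nd (nat_lit 78) (nat_lit 76) (nat_lit 0) (XT.lf (nat_lit 0) (nat_lit 7952240398) (nat_lit 152) (nat_lit 104810255581) (nat_lit 76) (nat_lit 276448087024) (nat_lit 44) (nat_lit 5) (nat_lit 46) (nat_lit 5) (nat_lit 45) (nat_lit 4) (nat_lit 526) (nat_lit 440) (nat_lit 234)) (XT.lf (nat_lit 0) (nat_lit 120679895974) (nat_lit 152) (nat_lit 276751195057) (nat_lit 0) (nat_lit 5334565231) (nat_lit 43) (nat_lit 5) (nat_lit 45) (nat_lit 4) (nat_lit 43) (nat_lit 4) (nat_lit 527) (nat_lit 440) (nat_lit 233)))))))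
noncomputable def xc353 : XT := (XT.nd (nat_lit 1248) (nat_lit 380) (nat_lit 0) (XT.nd (nat_lit 624) (nat_lit 532) (nat_lit 0) (XT.nd (nat_lit 312) (nat_lit 228) (nat_lit 0) (XT.nd (nat_lit 156) (nat_lit 152) (nat_lit 0) (XT.nd (nat_lit 78) (nat_lit 76) (nat_lit 0) (XT.lf (nat_lit 0) (nat_lit 242696122385) (nat_lit 152) (nat_lit 46769185499) (nat_lit 0) (nat_lit 127350565900) (nat_lit 43) (nat_lit 5) (nat_lit 45) (nat_lit 4) (nat_lit 43) (nat_lit 4) (nat_lit 528) (nat_lit 440) (nat_lit 232)) (XT.lf (nat_lit 0) (nat_lit 201149017781) (nat_lit 76) (nat_lit 172804177073) (nat_lit 76) (nat_lit 57458405594) (nat_lit 42) (nat_lit 4) (nat_lit 43) (nat_lit 5) (nat_lit 43) (nat_lit 4) (nat_lit 529) (nat_lit 440) (nat_lit 231))) (XT.nd (nat_lit 78) (nat_lit 0) (nat_lit 0) (XT.lf (nat_lit 0) (nat_lit 15867902425) (nat_lit 76) (nat_lit 48138867652) (nat_lit 152) (nat_lit 382626957604) (nat_lit 40) (nat_lit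 5) (nat_lit 41) (nat_lit 5) (nat_lit 42) (nat_lit 4) (nat_lit 530) (nat_lit 440) (nat_lit 230)) (XT.lf (nat_lit 0) (nat_lit 194869408383) (nat_lit 152) (nat_lit 182421784722) (nat_lit 0) (nat_lit 85015911965) (nat_lit 40) (nat_lit 5) (nat_lit 42) (nat_lit 4) (nat_lit 40) (nat_lit 4) (nat_lit 531) (nat_lit 440) (nat_lit 229)))) (XT.nd (nat_lit 156) (nat_lit 152) (nat_lit 0) (XT.nd (nat_lit 78) (nat_lit 0) (nat_lit 0) (XT.lf (nat_lit 0) (nat_lit 80113541617) (nat_lit 76) (nat_lit 254201153589) (nat_lit 76) (nat_lit 144347480296) (nat_lit 39) (nat_lit 4) (nat_lit 40) (nat_lit 5) (nat_lit 40) (nat_lit 4) (nat_lit 532) (nat_lit 440) (nat_lit 228)) (XT.lf (nat_lit 0) (nat_lit 362108032937) (nat_lit 76) (nat_lit 121713179969) (nat_lit 76) (nat_lit 11859338223) (nat_lit 39) (nat_lit 4) (nat_lit 40) (nat_lit 5) (nat_lit 40) (nat_lit 4) (nat_lit 533) (nat_lit 440) (nat_lit 227))) (XT.nd (nat_lit 78) (nat_lit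 0) (nat_lit 0) (XT.lf (nat_lit 0) (nat_lit 125822873259) (nat_lit 152) (nat_lit 366295491287) (nat_lit 0) (nat_lit 21200014043) (nat_lit 37) (nat_lit 5) (nat_lit 39) (nat_lit 4) (nat_lit 37) (nat_lit 4) (nat_lit 534) (nat_lit 440) (nat_lit 226)) (XT.lf (nat_lit 0) (nat_lit 274284720656) (nat_lit 152) (nat_lit 87667236230) (nat_lit 0) (nat_lit 169661715924) (nat_lit 37) (nat_lit 5) (nat_lit 39) (nat_lit 4) (nat_lit 37) (nat_lit 4) (nat_lit 535) (nat_lit 440) (nat_lit 225))))) (XT.nd (nat_lit 312) (nat_lit 304) (nat_lit 0) (XT.nd (nat_lit 156) (nat_lit 76) (nat_lit 0) (XT.nd (nat_lit 78) (nat_lit 76) (nat_lit 0) (XT.lf (nat_lit 0) (nat_lit 211666267753) (nat_lit 76) (nat_lit 221807696070) (nat_lit 76) (nat_lit 117184552752) (nat_lit 36) (nat_lit 4) (nat_lit 37) (nat_lit 5) (nat_lit 37) (nat_lit 4) (nat_lit 536) (nat_lit 440) (nat_lit 224)) (XT.lf (nat_lit 0) (nat_lit 30516559524) (nat_lit 152) (nat_lit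 42064328279) (nat_lit 76) (nat_lit 497975889921) (nat_lit 35) (nat_lit 5) (nat_lit 37) (nat_lit 5) (nat_lit 36) (nat_lit 4) (nat_lit 537) (nat_lit 440) (nat_lit 223))) (XT.nd (nat_lit 78) (nat_lit 0) (nat_lit 0) (XT.lf (nat_lit 0) (nat_lit 187398783689) (nat_lit 152) (nat_lit 315910954652) (nat_lit 0) (nat_lit 87757449396) (nat_lit 34) (nat_lit 5) (nat_lit 36) (nat_lit 4) (nat_lit 34) (nat_lit 4) (nat_lit 538) (nat_lit 440) (nat_lit 222)) (XT.lf (nat_lit 0) (nat_lit 354038647219) (nat_lit 152) (nat_lit 4071595714) (nat_lit 0) (nat_lit 254397198911) (nat_lit 34) (nat_lit 5) (nat_lit 36) (nat_lit 4) (nat_lit 34) (nat_lit 4) (nat_lit 539) (nat_lit 440) (nat_lit 221)))) (XT.nd (nat_lit 156) (nat_lit 76) (nat_lit 0) (XT.nd (nat_lit 78) (nat_lit 152) (nat_lit 0) (XT.lf (nat_lit 0) (nat_lit 334050708124) (nat_lit 76) (nat_lit 200174901082) (nat_lit 76) (nat_lit 100533344188) (nat_lit 33) (nat_lit 4) (nat_lit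 34) (nat_lit 5) (nat_lit 34) (nat_lit 4) (nat_lit 540) (nat_lit 440) (nat_lit 220)) (XT.lf (nat_lit 0) (nat_lit 31074095102) (nat_lit 76) (nat_lit 32689688025) (nat_lit 152) (nat_lit 594280538656) (nat_lit 31) (nat_lit 5) (nat_lit 32) (nat_lit 5) (nat_lit 33) (nat_lit 4) (nat_lit 541) (nat_lit 440) (nat_lit 219))) (XT.nd (nat_lit 78) (nat_lit 76) (nat_lit 0) (XT.lf (nat_lit 0) (nat_lit 240308232376) (nat_lit 152) (nat_lit 296321450344) (nat_lit 0) (nat_lit 145411319233) (nat_lit 31) (nat_lit 5) (nat_lit 33) (nat_lit 4) (nat_lit 31) (nat_lit 4) (nat_lit 542) (nat_lit 440) (nat_lit 218)) (XT.lf (nat_lit 0) (nat_lit 51987082059) (nat_lit 76) (nat_lit 375040037880) (nat_lit 76) (nat_lit 280143035402) (nat_lit 30) (nat_lit 4) (nat_lit 31) (nat_lit 5) (nat_lit 31) (nat_lit 4) (nat_lit 543) (nat_lit 440) (nat_lit 217)))))) (XT.nd (nat_lit 54444) (nat_lit 0) (nat_lit 10488) (XT.nd (nat_lit 312) (nat_lit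 152) (nat_lit 0) (XT.nd (nat_lit 156) (nat_lit 76) (nat_lit 0) (XT.nd (nat_lit 78) (nat_lit 152) (nat_lit 0) (XT.lf (nat_lit 0) (nat_lit 427997966460) (nat_lit 76) (nat_lit 200101993545) (nat_lit 76) (nat_lit 105204905988) (nat_lit 30) (nat_lit 4) (nat_lit 31) (nat_lit 5) (nat_lit 31) (nat_lit 4) (nat_lit 544) (nat_lit 440) (nat_lit 216)) (XT.lf (nat_lit 0) (nat_lit 62848673754) (nat_lit 76) (nat_lit 14100517630) (nat_lit 152) (nat_lit 683686810266) (nat_lit 28) (nat_lit 5) (nat_lit 29) (nat_lit 5) (nat_lit 30) (nat_lit 4) (nat_lit 545) (nat_lit 440) (nat_lit 215))) (XT.nd (nat_lit 78) (nat_lit 76) (nat_lit 0) (XT.lf (nat_lit 0) (nat_lit 272759429627) (nat_lit 152) (nat_lit 333702730066) (nat_lit 0) (nat_lit 182381100335) (nat_lit 28) (nat_lit 5) (nat_lit 30) (nat_lit 4) (nat_lit 28) (nat_lit 4) (nat_lit 546) (nat_lit 440) (nat_lit 214)) (XT.lf (nat_lit 0) (nat_lit 49953120405) (nat_lit 76) (nat_lit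 429417811305) (nat_lit 76) (nat_lit 339039412018) (nat_lit 27) (nat_lit 4) (nat_lit 28) (nat_lit 5) (nat_lit 28) (nat_lit 4) (nat_lit 547) (nat_lit 440) (nat_lit 213)))) (XT.nd (nat_lit 156) (nat_lit 0) (nat_lit 0) (XT.nd (nat_lit 78) (nat_lit 152) (nat_lit 0) (XT.lf (nat_lit 0) (nat_lit 464376545837) (nat_lit 76) (nat_lit 237587573112) (nat_lit 76) (nat_lit 147209107163) (nat_lit 27) (nat_lit 4) (nat_lit 28) (nat_lit 5) (nat_lit 28) (nat_lit 4) (nat_lit 548) (nat_lit 440) (nat_lit 212)) (XT.lf (nat_lit 0) (nat_lit 17768580071) (nat_lit 76) (nat_lit 34986107494) (nat_lit 152) (nat_lit 828663388431) (nat_lit 25) (nat_lit 5) (nat_lit 26) (nat_lit 5) (nat_lit 27) (nat_lit 4) (nat_lit 549) (nat_lit 440) (nat_lit 211))) (XT.nd (nat_lit 78) (nat_lit 0) (nat_lit 0) (XT.lf (nat_lit 0) (nat_lit 267167837329) (nat_lit 152) (nat_lit 466423760208) (nat_lit 0) (nat_lit 181092989803) (nat_lit 25) (nat_lit 5)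 (nat_lit 27) (nat_lit 4) (nat_lit 25) (nat_lit 4) (nat_lit 550) (nat_lit 440) (nat_lit 210)) (XT.lf (nat_lit 0) (nat_lit 492874904353) (nat_lit 152) (nat_lit 49910854929) (nat_lit 0) (nat_lit 406800001984) (nat_lit 25) (nat_lit 5) (nat_lit 27) (nat_lit 4) (nat_lit 25) (nat_lit 4) (nat_lit 551) (nat_lit 440) (nat_lit 209))))) (XT.nd (nat_lit 312) (nat_lit 0) (nat_lit 152) (XT.nd (nat_lit 156) (nat_lit 0) (nat_lit 76) (XT.nd (nat_lit 78) (nat_lit 0) (nat_lit 0) (XT.lf (nat_lit 0) (nat_lit 6154327828) (nat_lit 836) (nat_lit 4435797830) (nat_lit 836) (nat_lit 4435797830) (nat_lit 163) (nat_lit 3) (nat_lit 174) (nat_lit 3) (nat_lit 174) (nat_lit 5) (nat_lit 441) (nat_lit 441) (nat_lit 318)) (XT.lf (nat_lit 76) (nat_lit 6294990913) (nat_lit 0) (nat_lit 6491174269) (nat_lit 836) (nat_lit 18008482795) (nat_lit 164) (nat_lit 5) (nat_lit 163) (nat_lit 3) (nat_lit 174) (nat_lit 5) (nat_lit 442) (nat_lit 441)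 (nat_lit 317))) (XT.nd (nat_lit 78) (nat_lit 0) (nat_lit 0) (XT.lf (nat_lit 0) (nat_lit 13575134067) (nat_lit 760) (nat_lit 9183837702) (nat_lit 836) (nat_lit 8801238415) (nat_lit 164) (nat_lit 5) (nat_lit 174) (nat_lit 5) (nat_lit 175) (nat_lit 5) (nat_lit 443) (nat_lit 441) (nat_lit 316)) (XT.lf (nat_lit 76) (nat_lit 7013209924) (nat_lit 0) (nat_lit 7601885233) (nat_lit 836) (nat_lit 17738378494) (nat_lit 165) (nat_lit 5) (nat_lit 164) (nat_lit 5) (nat_lit 175) (nat_lit 5) (nat_lit 444) (nat_lit 441) (nat_lit 315)))) (XT.nd (nat_lit 156) (nat_lit 0) (nat_lit 76) (XT.nd (nat_lit 78) (nat_lit 0) (nat_lit 0) (XT.lf (nat_lit 0) (nat_lit 15990755050) (nat_lit 760) (nat_lit 8974821265) (nat_lit 836) (nat_lit 8206639259) (nat_lit 165) (nat_lit 5) (nat_lit 175) (nat_lit 5) (nat_lit 176) (nat_lit 5) (nat_lit 445) (nat_lit 441) (nat_lit 314)) (XT.lf (nat_lit 76) (nat_lit 8348810283) (nat_lit 0) (nat_lit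 9337383904) (nat_lit 836) (nat_lit 16333150898) (nat_lit 166) (nat_lit 5) (nat_lit 165) (nat_lit 5) (nat_lit 176) (nat_lit 5) (nat_lit 446) (nat_lit 441) (nat_lit 313))) (XT.nd (nat_lit 78) (nat_lit 0) (nat_lit 0) (XT.lf (nat_lit 0) (nat_lit 19727500616) (nat_lit 760) (nat_lit 8166774351) (nat_lit 836) (nat_lit 7001501630) (nat_lit 166) (nat_lit 5) (nat_lit 176) (nat_lit 5) (nat_lit 177) (nat_lit 5) (nat_lit 447) (nat_lit 441) (nat_lit 312)) (XT.nd (nat_lit 78) (nat_lit 0) (nat_lit 76) (XT.lf (nat_lit 76) (nat_lit 10388904430) (nat_lit 0) (nat_lit 11793614536) (nat_lit 836) (nat_lit 13617928665) (nat_lit 167) (nat_lit 5) (nat_lit 166) (nat_lit 5) (nat_lit 177) (nat_lit 5) (nat_lit 448) (nat_lit 441) (nat_lit 311)) (XT.lf (nat_lit 0) (nat_lit 24977196552) (nat_lit 760) (nat_lit 6672470824) (nat_lit 836) (nat_lit 5089839688) (nat_lit 167) (nat_lit 5) (nat_lit 177) (nat_lit 5) (nat_lit 178) (nat_lit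 5) (nat_lit 449) (nat_lit 441) (nat_lit 310))))))))
noncomputable def xc354 : XT := (XT.nd (nat_lit 1248) (nat_lit 2356) (nat_lit 0) (XT.nd (nat_lit 624) (nat_lit 1292) (nat_lit 0) (XT.nd (nat_lit 312) (nat_lit 1216) (nat_lit 0) (XT.nd (nat_lit 156) (nat_lit 760) (nat_lit 0) (XT.nd (nat_lit 78) (nat_lit 0) (nat_lit 76) (XT.lf (nat_lit 76) (nat_lit 13230974952) (nat_lit 0) (nat_lit 15077228192) (nat_lit 836) (nat_lit 9397486818) (nat_lit 168) (nat_lit 5) (nat_lit 167) (nat_lit 5) (nat_lit 178) (nat_lit 5) (nat_lit 450) (nat_lit 441) (nat_lit 309)) (XT.lf (nat_lit 0) (nat_lit 31953704588) (nat_lit 760) (nat_lit 4394260546) (nat_lit 76) (nat_lit 2364819886) (nat_lit 168) (nat_lit 5) (nat_lit 178) (nat_lit 5) (nat_lit 169) (nat_lit 5) (nat_lit 451) (nat_lit 441) (nat_lit 308))) (XT.nd (nat_lit 78) (nat_lit 76) (nat_lit 0) (XT.lf (nat_lit 0) (nat_lit 16983935517) (nat_lit 760) (nat_lit 19306841015)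 (nat_lit 836) (nat_lit 3453993754) (nat_lit 158) (nat_lit 5) (nat_lit 168) (nat_lit 5) (nat_lit 169) (nat_lit 5) (nat_lit 452) (nat_lit 441) (nat_lit 307)) (XT.lf (nat_lit 0) (nat_lit 88478696) (nat_lit 836) (nat_lit 1245269587) (nat_lit 76) (nat_lit 39490961247) (nat_lit 157) (nat_lit 5) (nat_lit 168) (nat_lit 5) (nat_lit 158) (nat_lit 5) (nat_lit 453) (nat_lit 441) (nat_lit 306)))) (XT.nd (nat_lit 156) (nat_lit 380) (nat_lit 0) (XT.nd (nat_lit 78) (nat_lit 380) (nat_lit 0) (XT.lf (nat_lit 0) (nat_lit 4312868955) (nat_lit 532) (nat_lit 20228507209) (nat_lit 76) (nat_lit 17383395072) (nat_lit 151) (nat_lit 5) (nat_lit 158) (nat_lit 5) (nat_lit 152) (nat_lit 5) (nat_lit 454) (nat_lit 441) (nat_lit 305)) (XT.lf (nat_lit 0) (nat_lit 2814468957) (nat_lit 380) (nat_lit 6018506518) (nat_lit 456) (nat_lit 34242635904) (nat_lit 146) (nat_lit 5) (nat_lit 151) (nat_lit 5) (nat_lit 152) (nat_lit 5) (nat_lit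 455) (nat_lit 441) (nat_lit 304))) (XT.nd (nat_lit 78) (nat_lit 380) (nat_lit 0) (XT.lf (nat_lit 0) (nat_lit 14134314483) (nat_lit 456) (nat_lit 16773101877) (nat_lit 76) (nat_lit 13348815989) (nat_lit 146) (nat_lit 5) (nat_lit 152) (nat_lit 5) (nat_lit 147) (nat_lit 5) (nat_lit 456) (nat_lit 441) (nat_lit 303)) (XT.lf (nat_lit 0) (nat_lit 8045501570) (nat_lit 380) (nat_lit 11876965926) (nat_lit 456) (nat_lit 25562329690) (nat_lit 141) (nat_lit 5) (nat_lit 146) (nat_lit 5) (nat_lit 147) (nat_lit 5) (nat_lit 457) (nat_lit 441) (nat_lit 302))))) (XT.nd (nat_lit 312) (nat_lit 684) (nat_lit 0) (XT.nd (nat_lit 156) (nat_lit 304) (nat_lit 0) (XT.nd (nat_lit 78) (nat_lit 304) (nat_lit 0) (XT.lf (nat_lit 0) (nat_lit 26412833900) (nat_lit 456) (nat_lit 12207184315) (nat_lit 76) (nat_lit 8134131924) (nat_lit 141) (nat_lit 5) (nat_lit 147) (nat_lit 5) (nat_lit 142) (nat_lit 5) (nat_lit 458) (nat_lit 441)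 (nat_lit 301)) (XT.lf (nat_lit 0) (nat_lit 14555054265) (nat_lit 304) (nat_lit 19092277274) (nat_lit 380) (nat_lit 14418658709) (nat_lit 137) (nat_lit 5) (nat_lit 141) (nat_lit 5) (nat_lit 142) (nat_lit 5) (nat_lit 459) (nat_lit 441) (nat_lit 300))) (XT.nd (nat_lit 78) (nat_lit 304) (nat_lit 0) (XT.lf (nat_lit 0) (nat_lit 41473449990) (nat_lit 380) (nat_lit 6381999680) (nat_lit 76) (nat_lit 1576478043) (nat_lit 137) (nat_lit 5) (nat_lit 142) (nat_lit 5) (nat_lit 138) (nat_lit 5) (nat_lit 460) (nat_lit 441) (nat_lit 299)) (XT.lf (nat_lit 0) (nat_lit 22508234936) (nat_lit 304) (nat_lit 27844881651) (nat_lit 380) (nat_lit 479933492) (nat_lit 133) (nat_lit 5) (nat_lit 137) (nat_lit 5) (nat_lit 138) (nat_lit 5) (nat_lit 461) (nat_lit 441) (nat_lit 298)))) (XT.nd (nat_lit 156) (nat_lit 304) (nat_lit 0) (XT.nd (nat_lit 78) (nat_lit 0) (nat_lit 0) (XT.lf (nat_lit 0) (nat_lit 667621958) (nat_lit 304) (nat_lit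 6587092772) (nat_lit 380) (nat_lit 45037851460) (nat_lit 128) (nat_lit 5) (nat_lit 132) (nat_lit 5) (nat_lit 133) (nat_lit 5) (nat_lit 462) (nat_lit 441) (nat_lit 297)) (XT.lf (nat_lit 0) (nat_lit 16091090859) (nat_lit 380) (nat_lit 21972043936) (nat_lit 76) (nat_lit 15724973823) (nat_lit 128) (nat_lit 5) (nat_lit 133) (nat_lit 5) (nat_lit 129) (nat_lit 5) (nat_lit 463) (nat_lit 441) (nat_lit 296))) (XT.nd (nat_lit 78) (nat_lit 0) (nat_lit 0) (XT.lf (nat_lit 0) (nat_lit 9352327100) (nat_lit 304) (nat_lit 16268979620) (nat_lit 380) (nat_lit 29724520517) (nat_lit 124) (nat_lit 5) (nat_lit 128) (nat_lit 5) (nat_lit 129) (nat_lit 5) (nat_lit 464) (nat_lit 441) (nat_lit 295)) (XT.lf (nat_lit 0) (nat_lit 36107584184) (nat_lit 380) (nat_lit 14069035967) (nat_lit 76) (nat_lit 6780834205) (nat_lit 124) (nat_lit 5) (nat_lit 129) (nat_lit 5) (nat_lit 125) (nat_lit 5) (nat_lit 465) (nat_lit 441) (nat_lit 294))))))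 (XT.nd (nat_lit 624) (nat_lit 1064) (nat_lit 0) (XT.nd (nat_lit 312) (nat_lit 456) (nat_lit 0) (XT.nd (nat_lit 156) (nat_lit 608) (nat_lit 0) (XT.nd (nat_lit 78) (nat_lit 0) (nat_lit 0) (XT.lf (nat_lit 0) (nat_lit 19816760252) (nat_lit 228) (nat_lit 27875673708) (nat_lit 304) (nat_lit 10928516053) (nat_lit 121) (nat_lit 5) (nat_lit 124) (nat_lit 5) (nat_lit 125) (nat_lit 5) (nat_lit 466) (nat_lit 441) (nat_lit 293)) (XT.lf (nat_lit 0) (nat_lit 55882884244) (nat_lit 228) (nat_lit 4210116705) (nat_lit 304) (nat_lit 262795867) (nat_lit 121) (nat_lit 5) (nat_lit 124) (nat_lit 5) (nat_lit 125) (nat_lit 5) (nat_lit 467) (nat_lit 441) (nat_lit 292))) (XT.nd (nat_lit 78) (nat_lit 228) (nat_lit 0) (XT.lf (nat_lit 0) (nat_lit 11424251194) (nat_lit 380) (nat_lit 30036812101) (nat_lit 76) (nat_lit 20665882114) (nat_lit 116) (nat_lit 5) (nat_lit 121) (nat_lit 5) (nat_lit 117) (nat_lit 5) (nat_lit 468) (nat_lit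 441) (nat_lit 291)) (XT.lf (nat_lit 0) (nat_lit 6794260742) (nat_lit 228) (nat_lit 17142949468) (nat_lit 304) (nat_lit 40036706340) (nat_lit 113) (nat_lit 5) (nat_lit 116) (nat_lit 5) (nat_lit 117) (nat_lit 5) (nat_lit 469) (nat_lit 441) (nat_lit 290)))) (XT.nd (nat_lit 156) (nat_lit 228) (nat_lit 0) (XT.nd (nat_lit 78) (nat_lit 228) (nat_lit 0) (XT.lf (nat_lit 0) (nat_lit 37722188444) (nat_lit 304) (nat_lit 19519871781) (nat_lit 76) (nat_lit 8638857541) (nat_lit 113) (nat_lit 5) (nat_lit 117) (nat_lit 5) (nat_lit 114) (nat_lit 5) (nat_lit 470) (nat_lit 441) (nat_lit 289)) (XT.lf (nat_lit 0) (nat_lit 20392243701) (nat_lit 228) (nat_lit 32401999208) (nat_lit 304) (nat_lit 15059134844) (nat_lit 110) (nat_lit 5) (nat_lit 113) (nat_lit 5) (nat_lit 114) (nat_lit 5) (nat_lit 471) (nat_lit 441) (nat_lit 288))) (XT.nd (nat_lit 78) (nat_lit 228) (nat_lit 0) (XT.lf (nat_lit 0) (nat_lit 62975383067) (nat_lit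 228) (nat_lit 5973550850) (nat_lit 304) (nat_lit 959075206) (nat_lit 110) (nat_lit 5) (nat_lit 113) (nat_lit 5) (nat_lit 114) (nat_lit 5) (nat_lit 472) (nat_lit 441) (nat_lit 287)) (XT.lf (nat_lit 0) (nat_lit 14325248329) (nat_lit 228) (nat_lit 35804432871) (nat_lit 76) (nat_lit 21878761247) (nat_lit 107) (nat_lit 5) (nat_lit 110) (nat_lit 5) (nat_lit 108) (nat_lit 5) (nat_lit 473) (nat_lit 441) (nat_lit 286))))) (XT.nd (nat_lit 312) (nat_lit 608) (nat_lit 0) (XT.nd (nat_lit 156) (nat_lit 228) (nat_lit 0) (XT.nd (nat_lit 78) (nat_lit 0) (nat_lit 0) (XT.lf (nat_lit 0) (nat_lit 7657410236) (nat_lit 228) (nat_lit 23019490183) (nat_lit 304) (nat_lit 43519443774) (nat_lit 104) (nat_lit 5) (nat_lit 107) (nat_lit 5) (nat_lit 108) (nat_lit 5) (nat_lit 474) (nat_lit 441) (nat_lit 285)) (XT.lf (nat_lit 0) (nat_lit 48546026011) (nat_lit 304) (nat_lit 22025158389) (nat_lit 76) (nat_lit 5887462145) (nat_lit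 104) (nat_lit 5) (nat_lit 108) (nat_lit 5) (nat_lit 105) (nat_lit 5) (nat_lit 475) (nat_lit 441) (nat_lit 284))) (XT.nd (nat_lit 78) (nat_lit 76) (nat_lit 0) (XT.lf (nat_lit 0) (nat_lit 25139403593) (nat_lit 152) (nat_lit 42937692834) (nat_lit 228) (nat_lit 10718543217) (nat_lit 102) (nat_lit 5) (nat_lit 104) (nat_lit 5) (nat_lit 105) (nat_lit 5) (nat_lit 476) (nat_lit 441) (nat_lit 283)) (XT.lf (nat_lit 0) (nat_lit 7478219847) (nat_lit 228) (nat_lit 5926775220) (nat_lit 76) (nat_lit 67819873436) (nat_lit 101) (nat_lit 5) (nat_lit 104) (nat_lit 5) (nat_lit 102) (nat_lit 5) (nat_lit 477) (nat_lit 441) (nat_lit 282)))) (XT.nd (nat_lit 156) (nat_lit 228) (nat_lit 0) (XT.nd (nat_lit 78) (nat_lit 152) (nat_lit 0) (XT.lf (nat_lit 0) (nat_lit 27222526408) (nat_lit 304) (nat_lit 38554103163) (nat_lit 76) (nat_lit 17940247660) (nat_lit 98) (nat_lit 5) (nat_lit 102) (nat_lit 5) (nat_lit 99) (nat_lit 5) (nat_lit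 478) (nat_lit 441) (nat_lit 281)) (XT.lf (nat_lit 0) (nat_lit 12872624475) (nat_lit 152) (nat_lit 35602891176) (nat_lit 228) (nat_lit 37831897425) (nat_lit 96) (nat_lit 5) (nat_lit 98) (nat_lit 5) (nat_lit 99) (nat_lit 5) (nat_lit 479) (nat_lit 441) (nat_lit 280))) (XT.nd (nat_lit 78) (nat_lit 228) (nat_lit 0) (XT.lf (nat_lit 0) (nat_lit 68207155666) (nat_lit 152) (nat_lit 3235677577) (nat_lit 228) (nat_lit 17552058571) (nat_lit 96) (nat_lit 5) (nat_lit 98) (nat_lit 5) (nat_lit 99) (nat_lit 5) (nat_lit 480) (nat_lit 441) (nat_lit 279)) (XT.nd (nat_lit 78) (nat_lit 0) (nat_lit 0) (XT.lf (nat_lit 0) (nat_lit 4666283324) (nat_lit 228) (nat_lit 56706543392) (nat_lit 76) (nat_lit 30388783278) (nat_lit 93) (nat_lit 5) (nat_lit 96) (nat_lit 5) (nat_lit 94) (nat_lit 5) (nat_lit 481) (nat_lit 441) (nat_lit 278)) (XT.lf (nat_lit 0) (nat_lit 27815345463) (nat_lit 228) (nat_lit 585905037) (nat_lit 76) (nat_lit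 66230543318) (nat_lit 93) (nat_lit 5) (nat_lit 96) (nat_lit 5) (nat_lit 94) (nat_lit 5) (nat_lit 482) (nat_lit 441) (nat_lit 277))))))))
noncomputable def xc355 : XT := (XT.nd (nat_lit 1248) (nat_lit 1292) (nat_lit 0) (XT.nd (nat_lit 624) (nat_lit 760) (nat_lit 0) (XT.nd (nat_lit 312) (nat_lit 304) (nat_lit 0) (XT.nd (nat_lit 156) (nat_lit 228) (nat_lit 0) (XT.nd (nat_lit 78) (nat_lit 152) (nat_lit 0) (XT.lf (nat_lit 0) (nat_lit 53174176888) (nat_lit 228) (nat_lit 37443200074) (nat_lit 76) (nat_lit 6975494100) (nat_lit 91) (nat_lit 5) (nat_lit 94) (nat_lit 5) (nat_lit 92) (nat_lit 5) (nat_lit 483) (nat_lit 441) (nat_lit 276)) (XT.lf (nat_lit 0) (nat_lit 23526168238) (nat_lit 152) (nat_lit 57116642647) (nat_lit 228) (nat_lit 20017098270) (nat_lit 89) (nat_lit 5) (nat_lit 91) (nat_lit 5) (nat_lit 92) (nat_lit 5) (nat_lit 484) (nat_lit 441) (nat_lit 275))) (XT.nd (nat_lit 78) (nat_lit 152) (nat_lit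 0) (XT.lf (nat_lit 0) (nat_lit 6068588200) (nat_lit 228) (nat_lit 15104469805) (nat_lit 76) (nat_lit 82670696408) (nat_lit 88) (nat_lit 5) (nat_lit 91) (nat_lit 5) (nat_lit 89) (nat_lit 5) (nat_lit 485) (nat_lit 441) (nat_lit 274)) (XT.lf (nat_lit 0) (nat_lit 33863513786) (nat_lit 228) (nat_lit 56068071782) (nat_lit 76) (nat_lit 17184915911) (nat_lit 86) (nat_lit 5) (nat_lit 89) (nat_lit 5) (nat_lit 87) (nat_lit 5) (nat_lit 486) (nat_lit 441) (nat_lit 273)))) (XT.nd (nat_lit 156) (nat_lit 152) (nat_lit 0) (XT.nd (nat_lit 78) (nat_lit 0) (nat_lit 0) (XT.lf (nat_lit 0) (nat_lit 10475411750) (nat_lit 152) (nat_lit 53342361132) (nat_lit 228) (nat_lit 46696633685) (nat_lit 84) (nat_lit 5) (nat_lit 86) (nat_lit 5) (nat_lit 87) (nat_lit 5) (nat_lit 487) (nat_lit 441) (nat_lit 272)) (XT.lf (nat_lit 0) (nat_lit 82290810571) (nat_lit 152) (nat_lit 13927438712) (nat_lit 228) (nat_lit 17816532437) (nat_lit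 84) (nat_lit 5) (nat_lit 86) (nat_lit 5) (nat_lit 87) (nat_lit 5) (nat_lit 488) (nat_lit 441) (nat_lit 271))) (XT.nd (nat_lit 78) (nat_lit 0) (nat_lit 0) (XT.lf (nat_lit 0) (nat_lit 13190087211) (nat_lit 152) (nat_lit 77048097012) (nat_lit 76) (nat_lit 27429085828) (nat_lit 82) (nat_lit 5) (nat_lit 84) (nat_lit 5) (nat_lit 83) (nat_lit 5) (nat_lit 489) (nat_lit 441) (nat_lit 270)) (XT.lf (nat_lit 0) (nat_lit 45922023272) (nat_lit 152) (nat_lit 4282926849) (nat_lit 76) (nat_lit 71223142100) (nat_lit 82) (nat_lit 5) (nat_lit 84) (nat_lit 5) (nat_lit 83) (nat_lit 5) (nat_lit 490) (nat_lit 441) (nat_lit 269))))) (XT.nd (nat_lit 312) (nat_lit 304) (nat_lit 0) (XT.nd (nat_lit 156) (nat_lit 228) (nat_lit 0) (XT.nd (nat_lit 78) (nat_lit 76) (nat_lit 0) (XT.lf (nat_lit 0) (nat_lit 74503388500) (nat_lit 152) (nat_lit 6949428098) (nat_lit 228) (nat_lit 43866025900) (nat_lit 80) (nat_lit 5) (nat_lit 82) (nat_lit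 5) (nat_lit 83) (nat_lit 5) (nat_lit 491) (nat_lit 441) (nat_lit 268)) (XT.lf (nat_lit 0) (nat_lit 28278817613) (nat_lit 76) (nat_lit 91596234431) (nat_lit 152) (nat_lit 9473333144) (nat_lit 79) (nat_lit 5) (nat_lit 80) (nat_lit 5) (nat_lit 81) (nat_lit 4) (nat_lit 492) (nat_lit 441) (nat_lit 267))) (XT.nd (nat_lit 78) (nat_lit 152) (nat_lit 0) (XT.lf (nat_lit 0) (nat_lit 26774062396) (nat_lit 152) (nat_lit 20990015881) (nat_lit 76) (nat_lit 85745147171) (nat_lit 78) (nat_lit 5) (nat_lit 80) (nat_lit 5) (nat_lit 79) (nat_lit 5) (nat_lit 493) (nat_lit 441) (nat_lit 266)) (XT.lf (nat_lit 0) (nat_lit 65017563441) (nat_lit 152) (nat_lit 512114094) (nat_lit 228) (nat_lit 72289954383) (nat_lit 76) (nat_lit 5) (nat_lit 78) (nat_lit 5) (nat_lit 79) (nat_lit 5) (nat_lit 494) (nat_lit 441) (nat_lit 265)))) (XT.nd (nat_lit 156) (nat_lit 152) (nat_lit 0) (XT.nd (nat_lit 78) (nat_lit 76) (nat_lit 0) (XT.lf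 (nat_lit 0) (nat_lit 13380648961) (nat_lit 76) (nat_lit 94178380175) (nat_lit 152) (nat_lit 34719731807) (nat_lit 75) (nat_lit 5) (nat_lit 76) (nat_lit 5) (nat_lit 77) (nat_lit 4) (nat_lit 495) (nat_lit 441) (nat_lit 264)) (XT.lf (nat_lit 0) (nat_lit 5838308798) (nat_lit 152) (nat_lit 40603240999) (nat_lit 76) (nat_lit 100452571765) (nat_lit 74) (nat_lit 5) (nat_lit 76) (nat_lit 5) (nat_lit 75) (nat_lit 5) (nat_lit 496) (nat_lit 441) (nat_lit 263))) (XT.nd (nat_lit 78) (nat_lit 0) (nat_lit 0) (XT.lf (nat_lit 0) (nat_lit 48168256164) (nat_lit 228) (nat_lit 98511057318) (nat_lit 76) (nat_lit 4986937180) (nat_lit 72) (nat_lit 5) (nat_lit 75) (nat_lit 5) (nat_lit 73) (nat_lit 4) (nat_lit 497) (nat_lit 441) (nat_lit 262)) (XT.lf (nat_lit 0) (nat_lit 94074112024) (nat_lit 228) (nat_lit 4405566352) (nat_lit 76) (nat_lit 58124337298) (nat_lit 72) (nat_lit 5) (nat_lit 75) (nat_lit 5) (nat_lit 73) (nat_lit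 4) (nat_lit 498) (nat_lit 441) (nat_lit 261)))))) (XT.nd (nat_lit 624) (nat_lit 684) (nat_lit 0) (XT.nd (nat_lit 312) (nat_lit 228) (nat_lit 0) (XT.nd (nat_lit 156) (nat_lit 76) (nat_lit 0) (XT.nd (nat_lit 78) (nat_lit 228) (nat_lit 0) (XT.lf (nat_lit 0) (nat_lit 97525131899) (nat_lit 76) (nat_lit 46271975113) (nat_lit 152) (nat_lit 17915469623) (nat_lit 71) (nat_lit 5) (nat_lit 72) (nat_lit 5) (nat_lit 73) (nat_lit 4) (nat_lit 499) (nat_lit 441) (nat_lit 260)) (XT.lf (nat_lit 0) (nat_lit 28830339733) (nat_lit 228) (nat_lit 128764765747) (nat_lit 76) (nat_lit 9417547292) (nat_lit 68) (nat_lit 5) (nat_lit 71) (nat_lit 5) (nat_lit 69) (nat_lit 4) (nat_lit 500) (nat_lit 441) (nat_lit 259))) (XT.nd (nat_lit 78) (nat_lit 76) (nat_lit 0) (XT.lf (nat_lit 0) (nat_lit 79173997417) (nat_lit 228) (nat_lit 25561512694) (nat_lit 76) (nat_lit 67734406048) (nat_lit 68) (nat_lit 5) (nat_lit 71) (nat_lit 5) (nat_lit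 69) (nat_lit 4) (nat_lit 501) (nat_lit 441) (nat_lit 258)) (XT.lf (nat_lit 0) (nat_lit 85538244695) (nat_lit 76) (nat_lit 47831334817) (nat_lit 152) (nat_lit 44763726140) (nat_lit 67) (nat_lit 5) (nat_lit 68) (nat_lit 5) (nat_lit 69) (nat_lit 4) (nat_lit 502) (nat_lit 441) (nat_lit 257)))) (XT.nd (nat_lit 156) (nat_lit 76) (nat_lit 0) (XT.nd (nat_lit 78) (nat_lit 0) (nat_lit 0) (XT.lf (nat_lit 0) (nat_lit 6941016495) (nat_lit 152) (nat_lit 164695223554) (nat_lit 76) (nat_lit 12391577378) (nat_lit 65) (nat_lit 5) (nat_lit 67) (nat_lit 5) (nat_lit 66) (nat_lit 4) (nat_lit 503) (nat_lit 441) (nat_lit 256)) (XT.lf (nat_lit 0) (nat_lit 62103866407) (nat_lit 152) (nat_lit 51612405665) (nat_lit 76) (nat_lit 76345229909) (nat_lit 65) (nat_lit 5) (nat_lit 67) (nat_lit 5) (nat_lit 66) (nat_lit 4) (nat_lit 504) (nat_lit 441) (nat_lit 255))) (XT.nd (nat_lit 78) (nat_lit 0) (nat_lit 0) (XT.lf (nat_lit 0) (nat_lit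 69342595128) (nat_lit 76) (nat_lit 51764186615) (nat_lit 152) (nat_lit 75235992880) (nat_lit 64) (nat_lit 5) (nat_lit 65) (nat_lit 5) (nat_lit 66) (nat_lit 4) (nat_lit 505) (nat_lit 441) (nat_lit 254)) (XT.lf (nat_lit 0) (nat_lit 184154970782) (nat_lit 152) (nat_lit 4980304980) (nat_lit 0) (nat_lit 13748078749) (nat_lit 64) (nat_lit 5) (nat_lit 66) (nat_lit 4) (nat_lit 64) (nat_lit 4) (nat_lit 506) (nat_lit 441) (nat_lit 253))))) (XT.nd (nat_lit 312) (nat_lit 304) (nat_lit 0) (XT.nd (nat_lit 156) (nat_lit 152) (nat_lit 0) (XT.nd (nat_lit 78) (nat_lit 76) (nat_lit 0) (XT.lf (nat_lit 0) (nat_lit 42171591033) (nat_lit 152) (nat_lit 83955973213) (nat_lit 76) (nat_lit 83448372264) (nat_lit 62) (nat_lit 5) (nat_lit 64) (nat_lit 5) (nat_lit 63) (nat_lit 4) (nat_lit 507) (nat_lit 441) (nat_lit 252)) (XT.lf (nat_lit 0) (nat_lit 47535968119) (nat_lit 76) (nat_lit 58778424865) (nat_lit 152) (nat_lit 110232042252)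 (nat_lit 61) (nat_lit 5) (nat_lit 62) (nat_lit 5) (nat_lit 63) (nat_lit 4) (nat_lit 508) (nat_lit 441) (nat_lit 251))) (XT.nd (nat_lit 78) (nat_lit 152) (nat_lit 0) (XT.lf (nat_lit 0) (nat_lit 175295198364) (nat_lit 152) (nat_lit 35488092291) (nat_lit 0) (nat_lit 13000625083) (nat_lit 61) (nat_lit 5) (nat_lit 63) (nat_lit 4) (nat_lit 61) (nat_lit 4) (nat_lit 509) (nat_lit 441) (nat_lit 250)) (XT.lf (nat_lit 0) (nat_lit 18498211994) (nat_lit 152) (nat_lit 124373932066) (nat_lit 76) (nat_lit 88364395316) (nat_lit 59) (nat_lit 5) (nat_lit 61) (nat_lit 5) (nat_lit 60) (nat_lit 4) (nat_lit 510) (nat_lit 441) (nat_lit 249)))) (XT.nd (nat_lit 156) (nat_lit 228) (nat_lit 0) (XT.nd (nat_lit 78) (nat_lit 0) (nat_lit 0) (XT.lf (nat_lit 0) (nat_lit 18311253629) (nat_lit 76) (nat_lit 69789810097) (nat_lit 152) (nat_lit 150876179886) (nat_lit 58) (nat_lit 5) (nat_lit 59) (nat_lit 5) (nat_lit 60) (nat_lit 4)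 (nat_lit 511) (nat_lit 441) (nat_lit 248)) (XT.lf (nat_lit 0) (nat_lit 163432743568) (nat_lit 152) (nat_lit 74695210153) (nat_lit 0) (nat_lit 8864595071) (nat_lit 58) (nat_lit 5) (nat_lit 60) (nat_lit 4) (nat_lit 58) (nat_lit 4) (nat_lit 512) (nat_lit 441) (nat_lit 247))) (XT.nd (nat_lit 78) (nat_lit 152) (nat_lit 0) (XT.lf (nat_lit 0) (nat_lit 79988981470) (nat_lit 76) (nat_lit 164934369756) (nat_lit 76) (nat_lit 10365650818) (nat_lit 57) (nat_lit 4) (nat_lit 58) (nat_lit 5) (nat_lit 58) (nat_lit 4) (nat_lit 513) (nat_lit 441) (nat_lit 246)) (XT.nd (nat_lit 78) (nat_lit 76) (nat_lit 0) (XT.lf (nat_lit 0) (nat_lit 65645307858) (nat_lit 152) (nat_lit 19996381103) (nat_lit 76) (nat_lit 178242428911) (nat_lit 56) (nat_lit 5) (nat_lit 58) (nat_lit 5) (nat_lit 57) (nat_lit 4) (nat_lit 514) (nat_lit 441) (nat_lit 245)) (XT.lf (nat_lit 0) (nat_lit 147416082724) (nat_lit 152) (nat_lit 125162260434) (nat_lit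 0) (nat_lit 206768800) (nat_lit 55) (nat_lit 5) (nat_lit 57) (nat_lit 4) (nat_lit 55) (nat_lit 4) (nat_lit 515) (nat_lit 441) (nat_lit 244))))))))
noncomputable def xc356 : XT := (XT.nd (nat_lit 1248) (nat_lit 988) (nat_lit 0) (XT.nd (nat_lit 624) (nat_lit 608) (nat_lit 0) (XT.nd (nat_lit 312) (nat_lit 304) (nat_lit 0) (XT.nd (nat_lit 156) (nat_lit 76) (nat_lit 0) (XT.nd (nat_lit 78) (nat_lit 76) (nat_lit 0) (XT.lf (nat_lit 0) (nat_lit 42141194057) (nat_lit 76) (nat_lit 193539734163) (nat_lit 76) (nat_lit 46329950936) (nat_lit 54) (nat_lit 4) (nat_lit 55) (nat_lit 5) (nat_lit 55) (nat_lit 4) (nat_lit 516) (nat_lit 441) (nat_lit 243)) (XT.lf (nat_lit 0) (nat_lit 37641558452) (nat_lit 152) (nat_lit 70045035354) (nat_lit 76) (nat_lit 183875028767) (nat_lit 53) (nat_lit 5) (nat_lit 55) (nat_lit 5) (nat_lit 54) (nat_lit 4) (nat_lit 517) (nat_lit 441) (nat_lit 242))) (XT.nd (nat_lit 78) (nat_lit 0) (nat_lit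 0) (XT.lf (nat_lit 0) (nat_lit 111065042055) (nat_lit 76) (nat_lit 14923103266) (nat_lit 152) (nat_lit 175477107866) (nat_lit 52) (nat_lit 5) (nat_lit 53) (nat_lit 5) (nat_lit 54) (nat_lit 4) (nat_lit 518) (nat_lit 441) (nat_lit 241)) (XT.lf (nat_lit 0) (nat_lit 221244933189) (nat_lit 152) (nat_lit 9450566093) (nat_lit 0) (nat_lit 81043922470) (nat_lit 52) (nat_lit 5) (nat_lit 54) (nat_lit 4) (nat_lit 52) (nat_lit 4) (nat_lit 519) (nat_lit 441) (nat_lit 240)))) (XT.nd (nat_lit 156) (nat_lit 76) (nat_lit 0) (XT.nd (nat_lit 78) (nat_lit 76) (nat_lit 0) (XT.lf (nat_lit 0) (nat_lit 1981555487) (nat_lit 152) (nat_lit 136139189681) (nat_lit 76) (nat_lit 184247345412) (nat_lit 50) (nat_lit 5) (nat_lit 52) (nat_lit 5) (nat_lit 51) (nat_lit 4) (nat_lit 520) (nat_lit 441) (nat_lit 239)) (XT.lf (nat_lit 0) (nat_lit 58898200274) (nat_lit 76) (nat_lit 38223716264) (nat_lit 152) (nat_lit 236278014352) (nat_lit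 49) (nat_lit 5) (nat_lit 50) (nat_lit 5) (nat_lit 51) (nat_lit 4) (nat_lit 521) (nat_lit 441) (nat_lit 238))) (XT.nd (nat_lit 78) (nat_lit 76) (nat_lit 0) (XT.lf (nat_lit 0) (nat_lit 200403036485) (nat_lit 152) (nat_lit 77533876689) (nat_lit 0) (nat_lit 66877263003) (nat_lit 49) (nat_lit 5) (nat_lit 51) (nat_lit 4) (nat_lit 49) (nat_lit 4) (nat_lit 522) (nat_lit 441) (nat_lit 237)) (XT.lf (nat_lit 0) (nat_lit 132908684044) (nat_lit 76) (nat_lit 178640732735) (nat_lit 76) (nat_lit 45114656737) (nat_lit 48) (nat_lit 4) (nat_lit 49) (nat_lit 5) (nat_lit 49) (nat_lit 4) (nat_lit 523) (nat_lit 441) (nat_lit 236))))) (XT.nd (nat_lit 312) (nat_lit 304) (nat_lit 0) (XT.nd (nat_lit 156) (nat_lit 152) (nat_lit 0) (XT.nd (nat_lit 78) (nat_lit 76) (nat_lit 0) (XT.lf (nat_lit 0) (nat_lit 58587697192) (nat_lit 152) (nat_lit 13421584864) (nat_lit 76) (nat_lit 296984305967) (nat_lit 47) (nat_lit 5) (nat_lit 49)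 (nat_lit 5) (nat_lit 48) (nat_lit 4) (nat_lit 524) (nat_lit 441) (nat_lit 235)) (XT.lf (nat_lit 0) (nat_lit 169982794721) (nat_lit 152) (nat_lit 168904048026) (nat_lit 0) (nat_lit 42814567577) (nat_lit 46) (nat_lit 5) (nat_lit 48) (nat_lit 4) (nat_lit 46) (nat_lit 4) (nat_lit 525) (nat_lit 441) (nat_lit 234))) (XT.nd (nat_lit 78) (nat_lit 76) (nat_lit 0) (XT.lf (nat_lit 0) (nat_lit 56379318891) (nat_lit 76) (nat_lit 232859608432) (nat_lit 76) (nat_lit 105691132407) (nat_lit 45) (nat_lit 4) (nat_lit 46) (nat_lit 5) (nat_lit 46) (nat_lit 4) (nat_lit 526) (nat_lit 441) (nat_lit 233)) (XT.lf (nat_lit 0) (nat_lit 8364181411) (nat_lit 152) (nat_lit 110022141161) (nat_lit 76) (nat_lit 290284073060) (nat_lit 44) (nat_lit 5) (nat_lit 46) (nat_lit 5) (nat_lit 45) (nat_lit 4) (nat_lit 527) (nat_lit 441) (nat_lit 232)))) (XT.nd (nat_lit 156) (nat_lit 228) (nat_lit 0) (XT.nd (nat_lit 78) (nat_lit 0) (nat_lit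 0) (XT.lf (nat_lit 0) (nat_lit 126728196989) (nat_lit 152) (nat_lit 290560104765) (nat_lit 0) (nat_lit 5614921943) (nat_lit 43) (nat_lit 5) (nat_lit 45) (nat_lit 4) (nat_lit 43) (nat_lit 4) (nat_lit 528) (nat_lit 441) (nat_lit 231)) (XT.lf (nat_lit 0) (nat_lit 254844553472) (nat_lit 152) (nat_lit 49080359017) (nat_lit 0) (nat_lit 133731073671) (nat_lit 43) (nat_lit 5) (nat_lit 45) (nat_lit 4) (nat_lit 43) (nat_lit 4) (nat_lit 529) (nat_lit 441) (nat_lit 230))) (XT.nd (nat_lit 78) (nat_lit 152) (nat_lit 0) (XT.lf (nat_lit 0) (nat_lit 211233314334) (nat_lit 76) (nat_lit 181430935558) (nat_lit 76) (nat_lit 60317260752) (nat_lit 42) (nat_lit 4) (nat_lit 43) (nat_lit 5) (nat_lit 43) (nat_lit 4) (nat_lit 530) (nat_lit 441) (nat_lit 229)) (XT.lf (nat_lit 0) (nat_lit 16688153185) (nat_lit 76) (nat_lit 50532341307) (nat_lit 152) (nat_lit 401744250222) (nat_lit 40) (nat_lit 5) (nat_lit 41) (nat_lit 5) (nat_lit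 42) (nat_lit 4) (nat_lit 531) (nat_lit 441) (nat_lit 228)))))) (XT.nd (nat_lit 624) (nat_lit 532) (nat_lit 0) (XT.nd (nat_lit 312) (nat_lit 228) (nat_lit 0) (XT.nd (nat_lit 156) (nat_lit 152) (nat_lit 0) (XT.nd (nat_lit 78) (nat_lit 76) (nat_lit 0) (XT.lf (nat_lit 0) (nat_lit 204625827575) (nat_lit 152) (nat_lit 191516859968) (nat_lit 0) (nat_lit 89279125289) (nat_lit 40) (nat_lit 5) (nat_lit 42) (nat_lit 4) (nat_lit 40) (nat_lit 4) (nat_lit 532) (nat_lit 441) (nat_lit 227)) (XT.lf (nat_lit 0) (nat_lit 84144813107) (nat_lit 76) (nat_lit 266898348624) (nat_lit 76) (nat_lit 151551485907) (nat_lit 39) (nat_lit 4) (nat_lit 40) (nat_lit 5) (nat_lit 40) (nat_lit 4) (nat_lit 533) (nat_lit 441) (nat_lit 226))) (XT.nd (nat_lit 78) (nat_lit 152) (nat_lit 0) (XT.lf (nat_lit 0) (nat_lit 380237810212) (nat_lit 76) (nat_lit 127786588830) (nat_lit 76) (nat_lit 12439573321) (nat_lit 39) (nat_lit 4) (nat_lit 40)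 (nat_lit 5) (nat_lit 40) (nat_lit 4) (nat_lit 534) (nat_lit 441) (nat_lit 225)) (XT.lf (nat_lit 0) (nat_lit 132126326555) (nat_lit 152) (nat_lit 384585467954) (nat_lit 0) (nat_lit 22271887484) (nat_lit 37) (nat_lit 5) (nat_lit 39) (nat_lit 4) (nat_lit 37) (nat_lit 4) (nat_lit 535) (nat_lit 441) (nat_lit 224)))) (XT.nd (nat_lit 156) (nat_lit 152) (nat_lit 0) (XT.nd (nat_lit 78) (nat_lit 76) (nat_lit 0) (XT.lf (nat_lit 0) (nat_lit 288010680149) (nat_lit 152) (nat_lit 92026980996) (nat_lit 0) (nat_lit 178156109091) (nat_lit 37) (nat_lit 5) (nat_lit 39) (nat_lit 4) (nat_lit 37) (nat_lit 4) (nat_lit 536) (nat_lit 441) (nat_lit 223)) (XT.lf (nat_lit 0) (nat_lit 222272817266) (nat_lit 76) (nat_lit 232886372729) (nat_lit 76) (nat_lit 123031675970) (nat_lit 36) (nat_lit 4) (nat_lit 37) (nat_lit 5) (nat_lit 37) (nat_lit 4) (nat_lit 537) (nat_lit 441) (nat_lit 222))) (XT.nd (nat_lit 78) (nat_lit 76) (nat_lit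 0) (XT.lf (nat_lit 0) (nat_lit 32053546551) (nat_lit 152) (nat_lit 44145046045) (nat_lit 76) (nat_lit 522885466026) (nat_lit 35) (nat_lit 5) (nat_lit 37) (nat_lit 5) (nat_lit 36) (nat_lit 4) (nat_lit 538) (nat_lit 441) (nat_lit 221)) (XT.lf (nat_lit 0) (nat_lit 196779870420) (nat_lit 152) (nat_lit 331683992198) (nat_lit 0) (nat_lit 92156127095) (nat_lit 34) (nat_lit 5) (nat_lit 36) (nat_lit 4) (nat_lit 34) (nat_lit 4) (nat_lit 539) (nat_lit 441) (nat_lit 220))))) (XT.nd (nat_lit 312) (nat_lit 304) (nat_lit 0) (XT.nd (nat_lit 156) (nat_lit 152) (nat_lit 0) (XT.nd (nat_lit 78) (nat_lit 76) (nat_lit 0) (XT.lf (nat_lit 0) (nat_lit 371751196291) (nat_lit 152) (nat_lit 4253737227) (nat_lit 0) (nat_lit 267127349551) (nat_lit 34) (nat_lit 5) (nat_lit 36) (nat_lit 4) (nat_lit 34) (nat_lit 4) (nat_lit 540) (nat_lit 441) (nat_lit 219)) (XT.lf (nat_lit 0) (nat_lit 350774336024) (nat_lit 76) (nat_lit 210172994108)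 (nat_lit 76) (nat_lit 105549048877) (nat_lit 33) (nat_lit 4) (nat_lit 34) (nat_lit 5) (nat_lit 34) (nat_lit 4) (nat_lit 541) (nat_lit 441) (nat_lit 218))) (XT.nd (nat_lit 78) (nat_lit 0) (nat_lit 0) (XT.lf (nat_lit 0) (nat_lit 32648897389) (nat_lit 76) (nat_lit 34313510620) (nat_lit 152) (nat_lit 623983608048) (nat_lit 31) (nat_lit 5) (nat_lit 32) (nat_lit 5) (nat_lit 33) (nat_lit 4) (nat_lit 542) (nat_lit 441) (nat_lit 217)) (XT.lf (nat_lit 0) (nat_lit 252333741316) (nat_lit 152) (nat_lit 311117091541) (nat_lit 0) (nat_lit 152691714301) (nat_lit 31) (nat_lit 5) (nat_lit 33) (nat_lit 4) (nat_lit 31) (nat_lit 4) (nat_lit 543) (nat_lit 441) (nat_lit 216)))) (XT.nd (nat_lit 156) (nat_lit 228) (nat_lit 0) (XT.nd (nat_lit 78) (nat_lit 0) (nat_lit 0) (XT.lf (nat_lit 0) (nat_lit 54606537944) (nat_lit 76) (nat_lit 393781868332) (nat_lit 76) (nat_lit 294139760289) (nat_lit 30) (nat_lit 4) (nat_lit 31) (nat_lit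 5) (nat_lit 31) (nat_lit 4) (nat_lit 544) (nat_lit 441) (nat_lit 215)) (XT.lf (nat_lit 0) (nat_lit 449417009338) (nat_lit 76) (nat_lit 210097406135) (nat_lit 76) (nat_lit 110455220921) (nat_lit 30) (nat_lit 4) (nat_lit 31) (nat_lit 5) (nat_lit 31) (nat_lit 4) (nat_lit 545) (nat_lit 441) (nat_lit 214))) (XT.nd (nat_lit 78) (nat_lit 76) (nat_lit 0) (XT.lf (nat_lit 0) (nat_lit 66010255944) (nat_lit 76) (nat_lit 14795848764) (nat_lit 152) (nat_lit 717861224316) (nat_lit 28) (nat_lit 5) (nat_lit 29) (nat_lit 5) (nat_lit 30) (nat_lit 4) (nat_lit 546) (nat_lit 441) (nat_lit 213)) (XT.nd (nat_lit 78) (nat_lit 76) (nat_lit 0) (XT.lf (nat_lit 0) (nat_lit 286406548838) (nat_lit 152) (nat_lit 350369323855) (nat_lit 0) (nat_lit 191509092929) (nat_lit 28) (nat_lit 5) (nat_lit 30) (nat_lit 4) (nat_lit 28) (nat_lit 4) (nat_lit 547) (nat_lit 441) (nat_lit 212)) (XT.lf (nat_lit 0) (nat_lit 52469020063) (nat_lit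 76) (nat_lit 450879455190) (nat_lit 76) (nat_lit 355981935793) (nat_lit 27) (nat_lit 4) (nat_lit 28) (nat_lit 5) (nat_lit 28) (nat_lit 4) (nat_lit 548) (nat_lit 441) (nat_lit 211))))))))
noncomputable def xc357 : XT := (XT.nd (nat_lit 55146) (nat_lit 0) (nat_lit 6688) (XT.nd (nat_lit 54522) (nat_lit 0) (nat_lit 10032) (XT.nd (nat_lit 54210) (nat_lit 0) (nat_lit 10488) (XT.nd (nat_lit 156) (nat_lit 0) (nat_lit 0) (XT.nd (nat_lit 78) (nat_lit 152) (nat_lit 0) (XT.lf (nat_lit 0) (nat_lit 487612748022) (nat_lit 76) (nat_lit 249458145406) (nat_lit 76) (nat_lit 154560565544) (nat_lit 27) (nat_lit 4) (nat_lit 28) (nat_lit 5) (nat_lit 28) (nat_lit 4) (nat_lit 549) (nat_lit 441) (nat_lit 210)) (XT.lf (nat_lit 0) (nat_lit 18674387060) (nat_lit 76) (nat_lit 36726600504) (nat_lit 152) (nat_lit 870087563933) (nat_lit 25) (nat_lit 5) (nat_lit 26) (nat_lit 5) (nat_lit 27) (nat_lit 4) (nat_lit 550) (nat_lit 441)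 (nat_lit 209))) (XT.nd (nat_lit 53976) (nat_lit 0) (nat_lit 10488) (XT.lf (nat_lit 0) (nat_lit 280534517965) (nat_lit 152) (nat_lit 489728120887) (nat_lit 0) (nat_lit 190155763402) (nat_lit 25) (nat_lit 5) (nat_lit 27) (nat_lit 4) (nat_lit 25) (nat_lit 4) (nat_lit 551) (nat_lit 441) (nat_lit 208)) (XT.lf (nat_lit 0) (nat_lit 6532438422) (nat_lit 836) (nat_lit 4620628049) (nat_lit 836) (nat_lit 4620628049) (nat_lit 163) (nat_lit 3) (nat_lit 174) (nat_lit 3) (nat_lit 174) (nat_lit 5) (nat_lit 442) (nat_lit 442) (nat_lit 316)))) (XT.nd (nat_lit 156) (nat_lit 0) (nat_lit 76) (XT.nd (nat_lit 78) (nat_lit 0) (nat_lit 76) (XT.lf (nat_lit 76) (nat_lit 6682467557) (nat_lit 0) (nat_lit 6878225553) (nat_lit 836) (nat_lit 18766915933) (nat_lit 164) (nat_lit 5) (nat_lit 163) (nat_lit 3) (nat_lit 174) (nat_lit 5) (nat_lit 443) (nat_lit 442) (nat_lit 315)) (XT.lf (nat_lit 0) (nat_lit 14381742185) (nat_lit 760)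 (nat_lit 9566387574) (nat_lit 836) (nat_lit 9183688509) (nat_lit 164) (nat_lit 5) (nat_lit 174) (nat_lit 5) (nat_lit 175) (nat_lit 5) (nat_lit 444) (nat_lit 442) (nat_lit 314))) (XT.nd (nat_lit 78) (nat_lit 0) (nat_lit 76) (XT.lf (nat_lit 76) (nat_lit 7439276272) (nat_lit 0) (nat_lit 8029514191) (nat_lit 836) (nat_lit 18496200456) (nat_lit 165) (nat_lit 5) (nat_lit 164) (nat_lit 5) (nat_lit 175) (nat_lit 5) (nat_lit 445) (nat_lit 442) (nat_lit 313)) (XT.lf (nat_lit 0) (nat_lit 16906672230) (nat_lit 760) (nat_lit 9345177170) (nat_lit 836) (nat_lit 8573149042) (nat_lit 165) (nat_lit 5) (nat_lit 175) (nat_lit 5) (nat_lit 176) (nat_lit 5) (nat_lit 446) (nat_lit 442) (nat_lit 312))))) (XT.nd (nat_lit 312) (nat_lit 608) (nat_lit 0) (XT.nd (nat_lit 156) (nat_lit 0) (nat_lit 76) (XT.nd (nat_lit 78) (nat_lit 0) (nat_lit 76) (XT.lf (nat_lit 76) (nat_lit 8843371679) (nat_lit 0) (nat_lit 9839173841) (nat_lit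 836) (nat_lit 17032156225) (nat_lit 166) (nat_lit 5) (nat_lit 165) (nat_lit 5) (nat_lit 176) (nat_lit 5) (nat_lit 447) (nat_lit 442) (nat_lit 311)) (XT.lf (nat_lit 0) (nat_lit 20820062707) (nat_lit 760) (nat_lit 8495801937) (nat_lit 836) (nat_lit 7319383321) (nat_lit 166) (nat_lit 5) (nat_lit 176) (nat_lit 5) (nat_lit 177) (nat_lit 5) (nat_lit 448) (nat_lit 442) (nat_lit 310))) (XT.nd (nat_lit 78) (nat_lit 0) (nat_lit 76) (XT.lf (nat_lit 76) (nat_lit 10986381570) (nat_lit 0) (nat_lit 12407612174) (nat_lit 836) (nat_lit 14191351104) (nat_lit 167) (nat_lit 5) (nat_lit 166) (nat_lit 5) (nat_lit 177) (nat_lit 5) (nat_lit 449) (nat_lit 442) (nat_lit 309)) (XT.lf (nat_lit 0) (nat_lit 26323169879) (nat_lit 760) (nat_lit 6926535567) (nat_lit 836) (nat_lit 5321913941) (nat_lit 167) (nat_lit 5) (nat_lit 177) (nat_lit 5) (nat_lit 178) (nat_lit 5) (nat_lit 450) (nat_lit 442) (nat_lit 308)))) (XT.nd (nat_lit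 156) (nat_lit 760) (nat_lit 0) (XT.nd (nat_lit 78) (nat_lit 0) (nat_lit 76) (XT.lf (nat_lit 76) (nat_lit 13970799292) (nat_lit 0) (nat_lit 15846525159) (nat_lit 836) (nat_lit 9768957448) (nat_lit 168) (nat_lit 5) (nat_lit 167) (nat_lit 5) (nat_lit 178) (nat_lit 5) (nat_lit 451) (nat_lit 442) (nat_lit 307)) (XT.lf (nat_lit 0) (nat_lit 33640409014) (nat_lit 760) (nat_lit 4534726768) (nat_lit 76) (nat_lit 2468830858) (nat_lit 168) (nat_lit 5) (nat_lit 178) (nat_lit 5) (nat_lit 169) (nat_lit 5) (nat_lit 452) (nat_lit 442) (nat_lit 306))) (XT.nd (nat_lit 78) (nat_lit 76) (nat_lit 0) (XT.lf (nat_lit 0) (nat_lit 17911100924) (nat_lit 760) (nat_lit 20280211931) (nat_lit 836) (nat_lit 3536389718) (nat_lit 158) (nat_lit 5) (nat_lit 168) (nat_lit 5) (nat_lit 169) (nat_lit 5) (nat_lit 453) (nat_lit 442) (nat_lit 305)) (XT.lf (nat_lit 0) (nat_lit 176153526) (nat_lit 836) (nat_lit 1230518814) (nat_lit 76) (nat_lit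 41455104358) (nat_lit 157) (nat_lit 5) (nat_lit 168) (nat_lit 5) (nat_lit 158) (nat_lit 5) (nat_lit 454) (nat_lit 442) (nat_lit 304)))))) (XT.nd (nat_lit 624) (nat_lit 1520) (nat_lit 0) (XT.nd (nat_lit 312) (nat_lit 608) (nat_lit 0) (XT.nd (nat_lit 156) (nat_lit 380) (nat_lit 0) (XT.nd (nat_lit 78) (nat_lit 380) (nat_lit 0) (XT.lf (nat_lit 0) (nat_lit 4608908644) (nat_lit 532) (nat_lit 21160058175) (nat_lit 76) (nat_lit 18248017680) (nat_lit 151) (nat_lit 5) (nat_lit 158) (nat_lit 5) (nat_lit 152) (nat_lit 5) (nat_lit 455) (nat_lit 442) (nat_lit 303)) (XT.lf (nat_lit 0) (nat_lit 3033778504) (nat_lit 380) (nat_lit 6318640543) (nat_lit 456) (nat_lit 35873077935) (nat_lit 146) (nat_lit 5) (nat_lit 151) (nat_lit 5) (nat_lit 152) (nat_lit 5) (nat_lit 456) (nat_lit 442) (nat_lit 302))) (XT.nd (nat_lit 78) (nat_lit 380) (nat_lit 0) (XT.lf (nat_lit 0) (nat_lit 14915132257) (nat_lit 456) (nat_lit 17533215342)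 (nat_lit 76) (nat_lit 14016986288) (nat_lit 146) (nat_lit 5) (nat_lit 152) (nat_lit 5) (nat_lit 147) (nat_lit 5) (nat_lit 457) (nat_lit 442) (nat_lit 301)) (XT.lf (nat_lit 0) (nat_lit 8525051478) (nat_lit 380) (nat_lit 12465319251) (nat_lit 456) (nat_lit 26765072583) (nat_lit 141) (nat_lit 5) (nat_lit 146) (nat_lit 5) (nat_lit 147) (nat_lit 5) (nat_lit 458) (nat_lit 442) (nat_lit 300)))) (XT.nd (nat_lit 156) (nat_lit 304) (nat_lit 0) (XT.nd (nat_lit 78) (nat_lit 304) (nat_lit 0) (XT.lf (nat_lit 0) (nat_lit 27801919071) (nat_lit 456) (nat_lit 12740607559) (nat_lit 76) (nat_lit 8545904328) (nat_lit 141) (nat_lit 5) (nat_lit 147) (nat_lit 5) (nat_lit 142) (nat_lit 5) (nat_lit 459) (nat_lit 442) (nat_lit 299)) (XT.lf (nat_lit 0) (nat_lit 15358502047) (nat_lit 304) (nat_lit 20037562144) (nat_lit 380) (nat_lit 15069902966) (nat_lit 137) (nat_lit 5) (nat_lit 141) (nat_lit 5) (nat_lit 142) (nat_lit 5)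 (nat_lit 460) (nat_lit 442) (nat_lit 298))) (XT.nd (nat_lit 78) (nat_lit 304) (nat_lit 0) (XT.lf (nat_lit 0) (nat_lit 43610466991) (nat_lit 380) (nat_lit 6625983453) (nat_lit 76) (nat_lit 1663902334) (nat_lit 137) (nat_lit 5) (nat_lit 142) (nat_lit 5) (nat_lit 138) (nat_lit 5) (nat_lit 461) (nat_lit 442) (nat_lit 297)) (XT.lf (nat_lit 0) (nat_lit 23707551341) (nat_lit 304) (nat_lit 29224703030) (nat_lit 380) (nat_lit 439370213) (nat_lit 133) (nat_lit 5) (nat_lit 137) (nat_lit 5) (nat_lit 138) (nat_lit 5) (nat_lit 462) (nat_lit 442) (nat_lit 296))))) (XT.nd (nat_lit 312) (nat_lit 836) (nat_lit 0) (XT.nd (nat_lit 156) (nat_lit 304) (nat_lit 0) (XT.nd (nat_lit 78) (nat_lit 0) (nat_lit 0) (XT.lf (nat_lit 0) (nat_lit 775752352) (nat_lit 304) (nat_lit 6902382904) (nat_lit 380) (nat_lit 47226021465) (nat_lit 128) (nat_lit 5) (nat_lit 132) (nat_lit 5) (nat_lit 133) (nat_lit 5) (nat_lit 463) (nat_lit 442)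 (nat_lit 295)) (XT.lf (nat_lit 0) (nat_lit 16953649571) (nat_lit 380) (nat_lit 22996772335) (nat_lit 76) (nat_lit 16524188565) (nat_lit 128) (nat_lit 5) (nat_lit 133) (nat_lit 5) (nat_lit 129) (nat_lit 5) (nat_lit 464) (nat_lit 442) (nat_lit 294))) (XT.nd (nat_lit 78) (nat_lit 0) (nat_lit 0) (XT.lf (nat_lit 0) (nat_lit 9892625740) (nat_lit 304) (nat_lit 17066123156) (nat_lit 380) (nat_lit 31151547652) (nat_lit 124) (nat_lit 5) (nat_lit 128) (nat_lit 5) (nat_lit 129) (nat_lit 5) (nat_lit 465) (nat_lit 442) (nat_lit 293)) (XT.lf (nat_lit 0) (nat_lit 37966898072) (nat_lit 380) (nat_lit 14700821325) (nat_lit 76) (nat_lit 7134907887) (nat_lit 124) (nat_lit 5) (nat_lit 129) (nat_lit 5) (nat_lit 125) (nat_lit 5) (nat_lit 466) (nat_lit 442) (nat_lit 292)))) (XT.nd (nat_lit 156) (nat_lit 608) (nat_lit 0) (XT.nd (nat_lit 78) (nat_lit 0) (nat_lit 0) (XT.lf (nat_lit 0) (nat_lit 20878108795) (nat_lit 228) (nat_lit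 29251414092) (nat_lit 304) (nat_lit 11419848356) (nat_lit 121) (nat_lit 5) (nat_lit 124) (nat_lit 5) (nat_lit 125) (nat_lit 5) (nat_lit 467) (nat_lit 442) (nat_lit 291)) (XT.lf (nat_lit 0) (nat_lit 58744181342) (nat_lit 228) (nat_lit 4403438443) (nat_lit 304) (nat_lit 223465660) (nat_lit 121) (nat_lit 5) (nat_lit 124) (nat_lit 5) (nat_lit 125) (nat_lit 5) (nat_lit 468) (nat_lit 442) (nat_lit 290))) (XT.nd (nat_lit 78) (nat_lit 228) (nat_lit 0) (XT.lf (nat_lit 0) (nat_lit 12045178797) (nat_lit 380) (nat_lit 31468739710) (nat_lit 76) (nat_lit 21716885908) (nat_lit 116) (nat_lit 5) (nat_lit 121) (nat_lit 5) (nat_lit 117) (nat_lit 5) (nat_lit 469) (nat_lit 442) (nat_lit 289)) (XT.nd (nat_lit 78) (nat_lit 0) (nat_lit 0) (XT.lf (nat_lit 0) (nat_lit 7202759147) (nat_lit 228) (nat_lit 17979733165) (nat_lit 304) (nat_lit 41987696591) (nat_lit 113) (nat_lit 5) (nat_lit 116) (nat_lit 5) (nat_lit 117) (nat_lit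 5) (nat_lit 470) (nat_lit 442) (nat_lit 288)) (XT.lf (nat_lit 0) (nat_lit 39654716463) (nat_lit 304) (nat_lit 20428350221) (nat_lit 76) (nat_lit 9089573759) (nat_lit 113) (nat_lit 5) (nat_lit 117) (nat_lit 5) (nat_lit 114) (nat_lit 5) (nat_lit 471) (nat_lit 442) (nat_lit 287))))))))
noncomputable def xc358 : XT := (XT.nd (nat_lit 1248) (nat_lit 1596) (nat_lit 0) (XT.nd (nat_lit 624) (nat_lit 912) (nat_lit 0) (XT.nd (nat_lit 312) (nat_lit 456) (nat_lit 0) (XT.nd (nat_lit 156) (nat_lit 456) (nat_lit 0) (XT.nd (nat_lit 78) (nat_lit 0) (nat_lit 0) (XT.lf (nat_lit 0) (nat_lit 21478282081) (nat_lit 228) (nat_lit 34000918261) (nat_lit 304) (nat_lit 15764581863) (nat_lit 110) (nat_lit 5) (nat_lit 113) (nat_lit 5) (nat_lit 114) (nat_lit 5) (nat_lit 472) (nat_lit 442) (nat_lit 286)) (XT.lf (nat_lit 0) (nat_lit 66187415263) (nat_lit 228) (nat_lit 6252056100) (nat_lit 304) (nat_lit 961781611) (nat_lit 110)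 (nat_lit 5) (nat_lit 113) (nat_lit 5) (nat_lit 114) (nat_lit 5) (nat_lit 473) (nat_lit 442) (nat_lit 285))) (XT.nd (nat_lit 78) (nat_lit 228) (nat_lit 0) (XT.lf (nat_lit 0) (nat_lit 15084545561) (nat_lit 228) (nat_lit 37529175087) (nat_lit 76) (nat_lit 22992990305) (nat_lit 107) (nat_lit 5) (nat_lit 110) (nat_lit 5) (nat_lit 108) (nat_lit 5) (nat_lit 474) (nat_lit 442) (nat_lit 284)) (XT.lf (nat_lit 0) (nat_lit 8104704057) (nat_lit 228) (nat_lit 24148032752) (nat_lit 304) (nat_lit 45651323240) (nat_lit 104) (nat_lit 5) (nat_lit 107) (nat_lit 5) (nat_lit 108) (nat_lit 5) (nat_lit 475) (nat_lit 442) (nat_lit 283)))) (XT.nd (nat_lit 156) (nat_lit 304) (nat_lit 0) (XT.nd (nat_lit 78) (nat_lit 152) (nat_lit 0) (XT.lf (nat_lit 0) (nat_lit 51013652639) (nat_lit 304) (nat_lit 23063393034) (nat_lit 76) (nat_lit 6202515232) (nat_lit 104) (nat_lit 5) (nat_lit 108) (nat_lit 5) (nat_lit 105) (nat_lit 5) (nat_lit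 476) (nat_lit 442) (nat_lit 282)) (XT.lf (nat_lit 0) (nat_lit 26458380543) (nat_lit 152) (nat_lit 45061943878) (nat_lit 228) (nat_lit 11213126926) (nat_lit 102) (nat_lit 5) (nat_lit 104) (nat_lit 5) (nat_lit 105) (nat_lit 5) (nat_lit 477) (nat_lit 442) (nat_lit 281))) (XT.nd (nat_lit 78) (nat_lit 228) (nat_lit 0) (XT.lf (nat_lit 0) (nat_lit 7890245319) (nat_lit 228) (nat_lit 6162798208) (nat_lit 76) (nat_lit 71231161208) (nat_lit 101) (nat_lit 5) (nat_lit 104) (nat_lit 5) (nat_lit 102) (nat_lit 5) (nat_lit 478) (nat_lit 442) (nat_lit 280)) (XT.lf (nat_lit 0) (nat_lit 28621224049) (nat_lit 304) (nat_lit 40420947990) (nat_lit 76) (nat_lit 18858669089) (nat_lit 98) (nat_lit 5) (nat_lit 102) (nat_lit 5) (nat_lit 99) (nat_lit 5) (nat_lit 479) (nat_lit 442) (nat_lit 279))))) (XT.nd (nat_lit 312) (nat_lit 532) (nat_lit 0) (XT.nd (nat_lit 156) (nat_lit 228) (nat_lit 0) (XT.nd (nat_lit 78) (nat_lit 0) (nat_lit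 0) (XT.lf (nat_lit 0) (nat_lit 13576134412) (nat_lit 152) (nat_lit 37359874106) (nat_lit 228) (nat_lit 39684938025) (nat_lit 96) (nat_lit 5) (nat_lit 98) (nat_lit 5) (nat_lit 99) (nat_lit 5) (nat_lit 480) (nat_lit 442) (nat_lit 278)) (XT.lf (nat_lit 0) (nat_lit 71674540795) (nat_lit 152) (nat_lit 3375402762) (nat_lit 228) (nat_lit 18392943145) (nat_lit 96) (nat_lit 5) (nat_lit 98) (nat_lit 5) (nat_lit 99) (nat_lit 5) (nat_lit 481) (nat_lit 442) (nat_lit 277))) (XT.nd (nat_lit 78) (nat_lit 0) (nat_lit 0) (XT.lf (nat_lit 0) (nat_lit 4934693771) (nat_lit 228) (nat_lit 59483218780) (nat_lit 76) (nat_lit 31930021977) (nat_lit 93) (nat_lit 5) (nat_lit 96) (nat_lit 5) (nat_lit 94) (nat_lit 5) (nat_lit 482) (nat_lit 442) (nat_lit 276)) (XT.lf (nat_lit 0) (nat_lit 29239537765) (nat_lit 228) (nat_lit 559341450) (nat_lit 76) (nat_lit 69562831947) (nat_lit 93) (nat_lit 5) (nat_lit 96) (nat_lit 5) (nat_lit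 94) (nat_lit 5) (nat_lit 483) (nat_lit 442) (nat_lit 275)))) (XT.nd (nat_lit 156) (nat_lit 228) (nat_lit 0) (XT.nd (nat_lit 78) (nat_lit 152) (nat_lit 0) (XT.lf (nat_lit 0) (nat_lit 55865924782) (nat_lit 228) (nat_lit 39259114215) (nat_lit 76) (nat_lit 7345822622) (nat_lit 91) (nat_lit 5) (nat_lit 94) (nat_lit 5) (nat_lit 92) (nat_lit 5) (nat_lit 484) (nat_lit 442) (nat_lit 274)) (XT.lf (nat_lit 0) (nat_lit 24757815322) (nat_lit 152) (nat_lit 59949465860) (nat_lit 228) (nat_lit 20984005947) (nat_lit 89) (nat_lit 5) (nat_lit 91) (nat_lit 5) (nat_lit 92) (nat_lit 5) (nat_lit 485) (nat_lit 442) (nat_lit 273))) (XT.nd (nat_lit 78) (nat_lit 152) (nat_lit 0) (XT.lf (nat_lit 0) (nat_lit 6403313526) (nat_lit 228) (nat_lit 15805954111) (nat_lit 76) (nat_lit 86825108798) (nat_lit 88) (nat_lit 5) (nat_lit 91) (nat_lit 5) (nat_lit 89) (nat_lit 5) (nat_lit 486) (nat_lit 442) (nat_lit 272)) (XT.lf (nat_lit 0)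 (nat_lit 35587667846) (nat_lit 228) (nat_lit 58817417782) (nat_lit 76) (nat_lit 18065691148) (nat_lit 86) (nat_lit 5) (nat_lit 89) (nat_lit 5) (nat_lit 87) (nat_lit 5) (nat_lit 487) (nat_lit 442) (nat_lit 271)))))) (XT.nd (nat_lit 624) (nat_lit 836) (nat_lit 0) (XT.nd (nat_lit 312) (nat_lit 456) (nat_lit 0) (XT.nd (nat_lit 156) (nat_lit 152) (nat_lit 0) (XT.nd (nat_lit 78) (nat_lit 0) (nat_lit 0) (XT.lf (nat_lit 0) (nat_lit 11052368031) (nat_lit 152) (nat_lit 55986627083) (nat_lit 228) (nat_lit 48999614284) (nat_lit 84) (nat_lit 5) (nat_lit 86) (nat_lit 5) (nat_lit 87) (nat_lit 5) (nat_lit 488) (nat_lit 442) (nat_lit 270)) (XT.lf (nat_lit 0) (nat_lit 86456004140) (nat_lit 152) (nat_lit 14602046738) (nat_lit 228) (nat_lit 18677024692) (nat_lit 84) (nat_lit 5) (nat_lit 86) (nat_lit 5) (nat_lit 87) (nat_lit 5) (nat_lit 489) (nat_lit 442) (nat_lit 269))) (XT.nd (nat_lit 78) (nat_lit 0) (nat_lit 0)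 (XT.lf (nat_lit 0) (nat_lit 13878693804) (nat_lit 152) (nat_lit 80848615237) (nat_lit 76) (nat_lit 28821868694) (nat_lit 82) (nat_lit 5) (nat_lit 84) (nat_lit 5) (nat_lit 83) (nat_lit 5) (nat_lit 490) (nat_lit 442) (nat_lit 268)) (XT.lf (nat_lit 0) (nat_lit 48245840847) (nat_lit 152) (nat_lit 4447657358) (nat_lit 76) (nat_lit 74804612133) (nat_lit 82) (nat_lit 5) (nat_lit 84) (nat_lit 5) (nat_lit 83) (nat_lit 5) (nat_lit 491) (nat_lit 442) (nat_lit 267)))) (XT.nd (nat_lit 156) (nat_lit 228) (nat_lit 0) (XT.nd (nat_lit 78) (nat_lit 76) (nat_lit 0) (XT.lf (nat_lit 0) (nat_lit 78277176730) (nat_lit 152) (nat_lit 7275436357) (nat_lit 228) (nat_lit 46030813112) (nat_lit 80) (nat_lit 5) (nat_lit 82) (nat_lit 5) (nat_lit 83) (nat_lit 5) (nat_lit 492) (nat_lit 442) (nat_lit 266)) (XT.lf (nat_lit 0) (nat_lit 29741599943) (nat_lit 76) (nat_lit 96154148930) (nat_lit 152) (nat_lit 9918707753) (nat_lit 79)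 (nat_lit 5) (nat_lit 80) (nat_lit 5) (nat_lit 81) (nat_lit 4) (nat_lit 493) (nat_lit 442) (nat_lit 265))) (XT.nd (nat_lit 78) (nat_lit 152) (nat_lit 0) (XT.lf (nat_lit 0) (nat_lit 28138847922) (nat_lit 152) (nat_lit 21992138053) (nat_lit 76) (nat_lit 90052396072) (nat_lit 78) (nat_lit 5) (nat_lit 80) (nat_lit 5) (nat_lit 79) (nat_lit 5) (nat_lit 494) (nat_lit 442) (nat_lit 264)) (XT.lf (nat_lit 0) (nat_lit 68315056064) (nat_lit 152) (nat_lit 516673517) (nat_lit 228) (nat_lit 75877604997) (nat_lit 76) (nat_lit 5) (nat_lit 78) (nat_lit 5) (nat_lit 79) (nat_lit 5) (nat_lit 495) (nat_lit 442) (nat_lit 263))))) (XT.nd (nat_lit 312) (nat_lit 532) (nat_lit 0) (XT.nd (nat_lit 156) (nat_lit 152) (nat_lit 0) (XT.nd (nat_lit 78) (nat_lit 76) (nat_lit 0) (XT.lf (nat_lit 0) (nat_lit 14096479031) (nat_lit 76) (nat_lit 98865895786) (nat_lit 152) (nat_lit 36429053960) (nat_lit 75) (nat_lit 5) (nat_lit 76) (nat_lit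 5) (nat_lit 77) (nat_lit 4) (nat_lit 496) (nat_lit 442) (nat_lit 262)) (XT.lf (nat_lit 0) (nat_lit 6154806151) (nat_lit 152) (nat_lit 42588020641) (nat_lit 76) (nat_lit 105494771297) (nat_lit 74) (nat_lit 5) (nat_lit 76) (nat_lit 5) (nat_lit 75) (nat_lit 5) (nat_lit 497) (nat_lit 442) (nat_lit 261))) (XT.nd (nat_lit 78) (nat_lit 0) (nat_lit 0) (XT.lf (nat_lit 0) (nat_lit 50601098154) (nat_lit 228) (nat_lit 103391074611) (nat_lit 76) (nat_lit 5256168538) (nat_lit 72) (nat_lit 5) (nat_lit 75) (nat_lit 5) (nat_lit 73) (nat_lit 4) (nat_lit 498) (nat_lit 442) (nat_lit 260)) (XT.lf (nat_lit 0) (nat_lit 98801083513) (nat_lit 228) (nat_lit 4582477457) (nat_lit 76) (nat_lit 61049491781) (nat_lit 72) (nat_lit 5) (nat_lit 75) (nat_lit 5) (nat_lit 73) (nat_lit 4) (nat_lit 499) (nat_lit 442) (nat_lit 259)))) (XT.nd (nat_lit 156) (nat_lit 228) (nat_lit 0) (XT.nd (nat_lit 78) (nat_lit 228) (nat_lit 0) (XT.lf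 (nat_lit 0) (nat_lit 102444056236) (nat_lit 76) (nat_lit 48565730279) (nat_lit 152) (nat_lit 18787277352) (nat_lit 71) (nat_lit 5) (nat_lit 72) (nat_lit 5) (nat_lit 73) (nat_lit 4) (nat_lit 500) (nat_lit 442) (nat_lit 258)) (XT.lf (nat_lit 0) (nat_lit 30294929766) (nat_lit 228) (nat_lit 135159442855) (nat_lit 76) (nat_lit 9907758780) (nat_lit 68) (nat_lit 5) (nat_lit 71) (nat_lit 5) (nat_lit 69) (nat_lit 4) (nat_lit 501) (nat_lit 442) (nat_lit 257))) (XT.nd (nat_lit 78) (nat_lit 228) (nat_lit 0) (XT.lf (nat_lit 0) (nat_lit 83154671618) (nat_lit 228) (nat_lit 26798101491) (nat_lit 76) (nat_lit 71139539802) (nat_lit 68) (nat_lit 5) (nat_lit 71) (nat_lit 5) (nat_lit 69) (nat_lit 4) (nat_lit 502) (nat_lit 442) (nat_lit 256)) (XT.nd (nat_lit 78) (nat_lit 152) (nat_lit 0) (XT.lf (nat_lit 0) (nat_lit 89855974625) (nat_lit 76) (nat_lit 50203649075) (nat_lit 152) (nat_lit 46979268651) (nat_lit 67) (nat_lit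 5) (nat_lit 68) (nat_lit 5) (nat_lit 69) (nat_lit 4) (nat_lit 503) (nat_lit 442) (nat_lit 255)) (XT.lf (nat_lit 0) (nat_lit 7309882999) (nat_lit 152) (nat_lit 172888338318) (nat_lit 76) (nat_lit 13029895905) (nat_lit 65) (nat_lit 5) (nat_lit 67) (nat_lit 5) (nat_lit 66) (nat_lit 4) (nat_lit 504) (nat_lit 442) (nat_lit 254))))))))
noncomputable def xc359 : XT := (XT.nd (nat_lit 1248) (nat_lit 1140) (nat_lit 0) (XT.nd (nat_lit 624) (nat_lit 456) (nat_lit 0) (XT.nd (nat_lit 312) (nat_lit 304) (nat_lit 0) (XT.nd (nat_lit 156) (nat_lit 152) (nat_lit 0) (XT.nd (nat_lit 78) (nat_lit 76) (nat_lit 0) (XT.lf (nat_lit 0) (nat_lit 65229836564) (nat_lit 152) (nat_lit 54153362696) (nat_lit 76) (nat_lit 80180338698) (nat_lit 65) (nat_lit 5) (nat_lit 67) (nat_lit 5) (nat_lit 66) (nat_lit 4) (nat_lit 505) (nat_lit 442) (nat_lit 253)) (XT.lf (nat_lit 0) (nat_lit 72848748407) (nat_lit 76) (nat_lit 54333769154) (nat_lit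 152) (nat_lit 78976375691) (nat_lit 64) (nat_lit 5) (nat_lit 65) (nat_lit 5) (nat_lit 66) (nat_lit 4) (nat_lit 506) (nat_lit 442) (nat_lit 252))) (XT.nd (nat_lit 78) (nat_lit 152) (nat_lit 0) (XT.lf (nat_lit 0) (nat_lit 193382421746) (nat_lit 152) (nat_lit 5191460411) (nat_lit 0) (nat_lit 14452654704) (nat_lit 64) (nat_lit 5) (nat_lit 66) (nat_lit 4) (nat_lit 64) (nat_lit 4) (nat_lit 507) (nat_lit 442) (nat_lit 251)) (XT.lf (nat_lit 0) (nat_lit 44299833742) (nat_lit 152) (nat_lit 88115872315) (nat_lit 76) (nat_lit 87638043891) (nat_lit 62) (nat_lit 5) (nat_lit 64) (nat_lit 5) (nat_lit 63) (nat_lit 4) (nat_lit 508) (nat_lit 442) (nat_lit 250)))) (XT.nd (nat_lit 156) (nat_lit 228) (nat_lit 0) (XT.nd (nat_lit 78) (nat_lit 0) (nat_lit 0) (XT.lf (nat_lit 0) (nat_lit 49950054800) (nat_lit 76) (nat_lit 61699366823) (nat_lit 152) (nat_lit 115723369705) (nat_lit 61) (nat_lit 5) (nat_lit 62) (nat_lit 5)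 (nat_lit 63) (nat_lit 4) (nat_lit 509) (nat_lit 442) (nat_lit 249)) (XT.lf (nat_lit 0) (nat_lit 184078615137) (nat_lit 152) (nat_lit 37226331918) (nat_lit 0) (nat_lit 13667231419) (nat_lit 61) (nat_lit 5) (nat_lit 63) (nat_lit 4) (nat_lit 61) (nat_lit 4) (nat_lit 510) (nat_lit 442) (nat_lit 248))) (XT.nd (nat_lit 78) (nat_lit 76) (nat_lit 0) (XT.lf (nat_lit 0) (nat_lit 19441747142) (nat_lit 152) (nat_lit 130556430987) (nat_lit 76) (nat_lit 92799256799) (nat_lit 59) (nat_lit 5) (nat_lit 61) (nat_lit 5) (nat_lit 60) (nat_lit 4) (nat_lit 511) (nat_lit 442) (nat_lit 247)) (XT.lf (nat_lit 0) (nat_lit 19262430160) (nat_lit 76) (nat_lit 73261980450) (nat_lit 152) (nat_lit 158400780319) (nat_lit 58) (nat_lit 5) (nat_lit 59) (nat_lit 5) (nat_lit 60) (nat_lit 4) (nat_lit 512) (nat_lit 442) (nat_lit 246))))) (XT.nd (nat_lit 312) (nat_lit 228) (nat_lit 0) (XT.nd (nat_lit 156) (nat_lit 152) (nat_lit 0) (XT.nd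 (nat_lit 78) (nat_lit 76) (nat_lit 0) (XT.lf (nat_lit 0) (nat_lit 171622060854) (nat_lit 152) (nat_lit 78395438949) (nat_lit 0) (nat_lit 9323792252) (nat_lit 58) (nat_lit 5) (nat_lit 60) (nat_lit 4) (nat_lit 58) (nat_lit 4) (nat_lit 513) (nat_lit 442) (nat_lit 245)) (XT.lf (nat_lit 0) (nat_lit 84022405293) (nat_lit 76) (nat_lit 173164482133) (nat_lit 76) (nat_lit 10865696125) (nat_lit 57) (nat_lit 4) (nat_lit 58) (nat_lit 5) (nat_lit 58) (nat_lit 4) (nat_lit 514) (nat_lit 442) (nat_lit 244))) (XT.nd (nat_lit 78) (nat_lit 76) (nat_lit 0) (XT.lf (nat_lit 0) (nat_lit 68944386136) (nat_lit 152) (nat_lit 20963287196) (nat_lit 76) (nat_lit 187169809642) (nat_lit 56) (nat_lit 5) (nat_lit 58) (nat_lit 5) (nat_lit 57) (nat_lit 4) (nat_lit 515) (nat_lit 442) (nat_lit 243)) (XT.lf (nat_lit 0) (nat_lit 154803652392) (nat_lit 152) (nat_lit 131387412999) (nat_lit 0) (nat_lit 232463746) (nat_lit 55) (nat_lit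 5) (nat_lit 57) (nat_lit 4) (nat_lit 55) (nat_lit 4) (nat_lit 516) (nat_lit 442) (nat_lit 242)))) (XT.nd (nat_lit 156) (nat_lit 76) (nat_lit 0) (XT.nd (nat_lit 78) (nat_lit 76) (nat_lit 0) (XT.lf (nat_lit 0) (nat_lit 44280682596) (nat_lit 76) (nat_lit 203200765514) (nat_lit 76) (nat_lit 48629151196) (nat_lit 54) (nat_lit 4) (nat_lit 55) (nat_lit 5) (nat_lit 55) (nat_lit 4) (nat_lit 517) (nat_lit 442) (nat_lit 241)) (XT.lf (nat_lit 0) (nat_lit 39539582723) (nat_lit 152) (nat_lit 73515875135) (nat_lit 76) (nat_lit 193083448404) (nat_lit 53) (nat_lit 5) (nat_lit 55) (nat_lit 5) (nat_lit 54) (nat_lit 4) (nat_lit 518) (nat_lit 442) (nat_lit 240))) (XT.nd (nat_lit 78) (nat_lit 0) (nat_lit 0) (XT.lf (nat_lit 0) (nat_lit 116649199499) (nat_lit 76) (nat_lit 15654022605) (nat_lit 152) (nat_lit 184234510150) (nat_lit 52) (nat_lit 5) (nat_lit 53) (nat_lit 5) (nat_lit 54) (nat_lit 4) (nat_lit 519) (nat_lit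 442) (nat_lit 239)) (XT.lf (nat_lit 0) (nat_lit 232322329745) (nat_lit 152) (nat_lit 9893141008) (nat_lit 0) (nat_lit 85110164481) (nat_lit 52) (nat_lit 5) (nat_lit 54) (nat_lit 4) (nat_lit 52) (nat_lit 4) (nat_lit 520) (nat_lit 442) (nat_lit 238)))))) (XT.nd (nat_lit 624) (nat_lit 532) (nat_lit 0) (XT.nd (nat_lit 312) (nat_lit 304) (nat_lit 0) (XT.nd (nat_lit 156) (nat_lit 76) (nat_lit 0) (XT.nd (nat_lit 78) (nat_lit 76) (nat_lit 0) (XT.lf (nat_lit 0) (nat_lit 2095766025) (nat_lit 152) (nat_lit 142916178436) (nat_lit 76) (nat_lit 193473793909) (nat_lit 50) (nat_lit 5) (nat_lit 52) (nat_lit 5) (nat_lit 51) (nat_lit 4) (nat_lit 521) (nat_lit 442) (nat_lit 237)) (XT.lf (nat_lit 0) (nat_lit 61872597618) (nat_lit 76) (nat_lit 40120287283) (nat_lit 152) (nat_lit 248076298811) (nat_lit 49) (nat_lit 5) (nat_lit 50) (nat_lit 5) (nat_lit 51) (nat_lit 4) (nat_lit 522) (nat_lit 442) (nat_lit 236))) (XT.nd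 (nat_lit 78) (nat_lit 76) (nat_lit 0) (XT.lf (nat_lit 0) (nat_lit 210437569941) (nat_lit 152) (nat_lit 81381996358) (nat_lit 0) (nat_lit 70234599515) (nat_lit 49) (nat_lit 5) (nat_lit 51) (nat_lit 4) (nat_lit 49) (nat_lit 4) (nat_lit 523) (nat_lit 442) (nat_lit 235)) (XT.lf (nat_lit 0) (nat_lit 139582231538) (nat_lit 76) (nat_lit 187558791799) (nat_lit 76) (nat_lit 47355546981) (nat_lit 48) (nat_lit 4) (nat_lit 49) (nat_lit 5) (nat_lit 49) (nat_lit 4) (nat_lit 524) (nat_lit 442) (nat_lit 234)))) (XT.nd (nat_lit 156) (nat_lit 152) (nat_lit 0) (XT.nd (nat_lit 78) (nat_lit 76) (nat_lit 0) (XT.lf (nat_lit 0) (nat_lit 61530765420) (nat_lit 152) (nat_lit 14065437030) (nat_lit 76) (nat_lit 311846380727) (nat_lit 47) (nat_lit 5) (nat_lit 49) (nat_lit 5) (nat_lit 48) (nat_lit 4) (nat_lit 525) (nat_lit 442) (nat_lit 233)) (XT.lf (nat_lit 0) (nat_lit 178495592713) (nat_lit 152) (nat_lit 177321998163) (nat_lit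 0) (nat_lit 44968206975) (nat_lit 46) (nat_lit 5) (nat_lit 48) (nat_lit 4) (nat_lit 46) (nat_lit 4) (nat_lit 526) (nat_lit 442) (nat_lit 232))) (XT.nd (nat_lit 78) (nat_lit 76) (nat_lit 0) (XT.lf (nat_lit 0) (nat_lit 59225097547) (nat_lit 76) (nat_lit 244489202627) (nat_lit 76) (nat_lit 110961591147) (nat_lit 45) (nat_lit 4) (nat_lit 46) (nat_lit 5) (nat_lit 46) (nat_lit 4) (nat_lit 527) (nat_lit 442) (nat_lit 231)) (XT.lf (nat_lit 0) (nat_lit 8795387301) (nat_lit 152) (nat_lit 115497282505) (nat_lit 76) (nat_lit 304810595702) (nat_lit 44) (nat_lit 5) (nat_lit 46) (nat_lit 5) (nat_lit 45) (nat_lit 4) (nat_lit 528) (nat_lit 442) (nat_lit 230))))) (XT.nd (nat_lit 312) (nat_lit 228) (nat_lit 0) (XT.nd (nat_lit 156) (nat_lit 228) (nat_lit 0) (XT.nd (nat_lit 78) (nat_lit 0) (nat_lit 0) (XT.lf (nat_lit 0) (nat_lit 133077582997) (nat_lit 152) (nat_lit 305062123568) (nat_lit 0) (nat_lit 5908029446) (nat_lit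 43) (nat_lit 5) (nat_lit 45) (nat_lit 4) (nat_lit 43) (nat_lit 4) (nat_lit 529) (nat_lit 442) (nat_lit 229)) (XT.lf (nat_lit 0) (nat_lit 267599139393) (nat_lit 152) (nat_lit 51509627982) (nat_lit 0) (nat_lit 140429400123) (nat_lit 43) (nat_lit 5) (nat_lit 45) (nat_lit 4) (nat_lit 43) (nat_lit 4) (nat_lit 530) (nat_lit 442) (nat_lit 228))) (XT.nd (nat_lit 78) (nat_lit 152) (nat_lit 0) (XT.lf (nat_lit 0) (nat_lit 221819329859) (nat_lit 76) (nat_lit 190490282455) (nat_lit 76) (nat_lit 63320366310) (nat_lit 42) (nat_lit 4) (nat_lit 43) (nat_lit 5) (nat_lit 43) (nat_lit 4) (nat_lit 531) (nat_lit 442) (nat_lit 227)) (XT.lf (nat_lit 0) (nat_lit 17546919699) (nat_lit 76) (nat_lit 53046740933) (nat_lit 152) (nat_lit 421818714195) (nat_lit 40) (nat_lit 5) (nat_lit 41) (nat_lit 5) (nat_lit 42) (nat_lit 4) (nat_lit 532) (nat_lit 442) (nat_lit 226)))) (XT.nd (nat_lit 156) (nat_lit 152) (nat_lit 0) (XT.nd (nat_lit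 78) (nat_lit 76) (nat_lit 0) (XT.lf (nat_lit 0) (nat_lit 214868863872) (nat_lit 152) (nat_lit 201069107511) (nat_lit 0) (nat_lit 93754344797) (nat_lit 40) (nat_lit 5) (nat_lit 42) (nat_lit 4) (nat_lit 40) (nat_lit 4) (nat_lit 533) (nat_lit 442) (nat_lit 225)) (XT.lf (nat_lit 0) (nat_lit 88375268647) (nat_lit 76) (nat_lit 280231599257) (nat_lit 76) (nat_lit 159116934666) (nat_lit 39) (nat_lit 4) (nat_lit 40) (nat_lit 5) (nat_lit 40) (nat_lit 4) (nat_lit 534) (nat_lit 442) (nat_lit 224))) (XT.nd (nat_lit 78) (nat_lit 152) (nat_lit 0) (XT.lf (nat_lit 0) (nat_lit 399271810136) (nat_lit 76) (nat_lit 134164807035) (nat_lit 76) (nat_lit 13050003858) (nat_lit 39) (nat_lit 4) (nat_lit 40) (nat_lit 5) (nat_lit 40) (nat_lit 4) (nat_lit 535) (nat_lit 442) (nat_lit 223)) (XT.nd (nat_lit 78) (nat_lit 0) (nat_lit 0) (XT.lf (nat_lit 0) (nat_lit 138743808083) (nat_lit 152) (nat_lit 403792248927) (nat_lit 0) (nat_lit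 23396250783) (nat_lit 37) (nat_lit 5) (nat_lit 39) (nat_lit 4) (nat_lit 37) (nat_lit 4) (nat_lit 536) (nat_lit 442) (nat_lit 222)) (XT.lf (nat_lit 0) (nat_lit 302421847680) (nat_lit 152) (nat_lit 96606908689) (nat_lit 0) (nat_lit 187074170665) (nat_lit 37) (nat_lit 5) (nat_lit 39) (nat_lit 4) (nat_lit 37) (nat_lit 4) (nat_lit 537) (nat_lit 442) (nat_lit 221))))))))
noncomputable def xc360 : XT := (XT.nd (nat_lit 55224) (nat_lit 0) (nat_lit 8816) (XT.nd (nat_lit 624) (nat_lit 380) (nat_lit 0) (XT.nd (nat_lit 312) (nat_lit 304) (nat_lit 0) (XT.nd (nat_lit 156) (nat_lit 76) (nat_lit 0) (XT.nd (nat_lit 78) (nat_lit 76) (nat_lit 0) (XT.lf (nat_lit 0) (nat_lit 233407533980) (nat_lit 76) (nat_lit 244520071734) (nat_lit 76) (nat_lit 129172280702) (nat_lit 36) (nat_lit 4) (nat_lit 37) (nat_lit 5) (nat_lit 37) (nat_lit 4) (nat_lit 538) (nat_lit 442) (nat_lit 220)) (XT.lf (nat_lit 0) (nat_lit 33666345466)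 (nat_lit 152) (nat_lit 46331891410) (nat_lit 76) (nat_lit 549039518565) (nat_lit 35) (nat_lit 5) (nat_lit 37) (nat_lit 5) (nat_lit 36) (nat_lit 4) (nat_lit 539) (nat_lit 442) (nat_lit 219))) (XT.nd (nat_lit 78) (nat_lit 0) (nat_lit 0) (XT.lf (nat_lit 0) (nat_lit 206628975094) (nat_lit 152) (nat_lit 348247774405) (nat_lit 0) (nat_lit 96773734111) (nat_lit 34) (nat_lit 5) (nat_lit 36) (nat_lit 4) (nat_lit 34) (nat_lit 4) (nat_lit 540) (nat_lit 442) (nat_lit 218)) (XT.lf (nat_lit 0) (nat_lit 390348385775) (nat_lit 152) (nat_lit 4446978943) (nat_lit 0) (nat_lit 280493050991) (nat_lit 34) (nat_lit 5) (nat_lit 36) (nat_lit 4) (nat_lit 34) (nat_lit 4) (nat_lit 541) (nat_lit 442) (nat_lit 217)))) (XT.nd (nat_lit 156) (nat_lit 76) (nat_lit 0) (XT.nd (nat_lit 78) (nat_lit 152) (nat_lit 0) (XT.lf (nat_lit 0) (nat_lit 368332184339) (nat_lit 76) (nat_lit 220671982110) (nat_lit 76) (nat_lit 110816557991) (nat_lit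 33) (nat_lit 4) (nat_lit 34) (nat_lit 5) (nat_lit 34) (nat_lit 4) (nat_lit 542) (nat_lit 442) (nat_lit 216)) (XT.lf (nat_lit 0) (nat_lit 34300478342) (nat_lit 76) (nat_lit 36019515580) (nat_lit 152) (nat_lit 655172849638) (nat_lit 31) (nat_lit 5) (nat_lit 32) (nat_lit 5) (nat_lit 33) (nat_lit 4) (nat_lit 543) (nat_lit 442) (nat_lit 215))) (XT.nd (nat_lit 78) (nat_lit 76) (nat_lit 0) (XT.lf (nat_lit 0) (nat_lit 264959586949) (nat_lit 152) (nat_lit 326654414309) (nat_lit 0) (nat_lit 160335215305) (nat_lit 31) (nat_lit 5) (nat_lit 33) (nat_lit 4) (nat_lit 31) (nat_lit 4) (nat_lit 544) (nat_lit 442) (nat_lit 214)) (XT.lf (nat_lit 0) (nat_lit 57355097751) (nat_lit 76) (nat_lit 413461735952) (nat_lit 76) (nat_lit 308837290812) (nat_lit 30) (nat_lit 4) (nat_lit 31) (nat_lit 5) (nat_lit 31) (nat_lit 4) (nat_lit 545) (nat_lit 442) (nat_lit 213))))) (XT.nd (nat_lit 312) (nat_lit 152) (nat_lit 0) (XT.nd (nat_lit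 156) (nat_lit 76) (nat_lit 0) (XT.nd (nat_lit 78) (nat_lit 152) (nat_lit 0) (XT.lf (nat_lit 0) (nat_lit 471905224480) (nat_lit 76) (nat_lit 220593489969) (nat_lit 76) (nat_lit 115968974833) (nat_lit 30) (nat_lit 4) (nat_lit 31) (nat_lit 5) (nat_lit 31) (nat_lit 4) (nat_lit 546) (nat_lit 442) (nat_lit 212)) (XT.lf (nat_lit 0) (nat_lit 69328136996) (nat_lit 76) (nat_lit 15526847781) (nat_lit 152) (nat_lit 753745281936) (nat_lit 28) (nat_lit 5) (nat_lit 29) (nat_lit 5) (nat_lit 30) (nat_lit 4) (nat_lit 547) (nat_lit 442) (nat_lit 211))) (XT.nd (nat_lit 78) (nat_lit 76) (nat_lit 0) (XT.lf (nat_lit 0) (nat_lit 300735173540) (nat_lit 152) (nat_lit 367870971260) (nat_lit 0) (nat_lit 201092654220) (nat_lit 28) (nat_lit 5) (nat_lit 30) (nat_lit 4) (nat_lit 28) (nat_lit 4) (nat_lit 548) (nat_lit 442) (nat_lit 210)) (XT.lf (nat_lit 0) (nat_lit 55109018584) (nat_lit 76) (nat_lit 473415040939) (nat_lit 76)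 (nat_lit 373772464033) (nat_lit 27) (nat_lit 4) (nat_lit 28) (nat_lit 5) (nat_lit 28) (nat_lit 4) (nat_lit 549) (nat_lit 442) (nat_lit 209)))) (XT.nd (nat_lit 54132) (nat_lit 0) (nat_lit 10488) (XT.nd (nat_lit 78) (nat_lit 152) (nat_lit 0) (XT.lf (nat_lit 0) (nat_lit 512009144963) (nat_lit 76) (nat_lit 261923065047) (nat_lit 76) (nat_lit 162280433298) (nat_lit 27) (nat_lit 4) (nat_lit 28) (nat_lit 5) (nat_lit 28) (nat_lit 4) (nat_lit 550) (nat_lit 442) (nat_lit 208)) (XT.lf (nat_lit 0) (nat_lit 19623868758) (nat_lit 76) (nat_lit 38554937455) (nat_lit 152) (nat_lit 913583784379) (nat_lit 25) (nat_lit 5) (nat_lit 26) (nat_lit 5) (nat_lit 27) (nat_lit 4) (nat_lit 551) (nat_lit 442) (nat_lit 207))) (XT.nd (nat_lit 78) (nat_lit 0) (nat_lit 0) (XT.lf (nat_lit 0) (nat_lit 6922909960) (nat_lit 836) (nat_lit 4818135938) (nat_lit 836) (nat_lit 4818135938) (nat_lit 163) (nat_lit 3) (nat_lit 174) (nat_lit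 3) (nat_lit 174) (nat_lit 5) (nat_lit 443) (nat_lit 443) (nat_lit 314)) (XT.lf (nat_lit 76) (nat_lit 7082556557) (nat_lit 0) (nat_lit 7278819435) (nat_lit 836) (nat_lit 19576471705) (nat_lit 164) (nat_lit 5) (nat_lit 163) (nat_lit 3) (nat_lit 174) (nat_lit 5) (nat_lit 444) (nat_lit 443) (nat_lit 313)))))) (XT.nd (nat_lit 624) (nat_lit 1748) (nat_lit 0) (XT.nd (nat_lit 312) (nat_lit 0) (nat_lit 152) (XT.nd (nat_lit 156) (nat_lit 0) (nat_lit 76) (XT.nd (nat_lit 78) (nat_lit 0) (nat_lit 0) (XT.lf (nat_lit 0) (nat_lit 15216794296) (nat_lit 760) (nat_lit 9975190386) (nat_lit 836) (nat_lit 9590617308) (nat_lit 164) (nat_lit 5) (nat_lit 174) (nat_lit 5) (nat_lit 175) (nat_lit 5) (nat_lit 445) (nat_lit 443) (nat_lit 312)) (XT.lf (nat_lit 76) (nat_lit 7879635417) (nat_lit 0) (nat_lit 8474105272) (nat_lit 836) (nat_lit 19303915728) (nat_lit 165) (nat_lit 5) (nat_lit 164) (nat_lit 5) (nat_lit 175) (nat_lit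 5) (nat_lit 446) (nat_lit 443) (nat_lit 311))) (XT.nd (nat_lit 78) (nat_lit 0) (nat_lit 0) (XT.lf (nat_lit 0) (nat_lit 17857565413) (nat_lit 760) (nat_lit 9741338379) (nat_lit 836) (nat_lit 8962058485) (nat_lit 165) (nat_lit 5) (nat_lit 175) (nat_lit 5) (nat_lit 176) (nat_lit 5) (nat_lit 447) (nat_lit 443) (nat_lit 310)) (XT.lf (nat_lit 76) (nat_lit 9355491176) (nat_lit 0) (nat_lit 10362806675) (nat_lit 836) (nat_lit 17777050006) (nat_lit 166) (nat_lit 5) (nat_lit 165) (nat_lit 5) (nat_lit 176) (nat_lit 5) (nat_lit 448) (nat_lit 443) (nat_lit 309)))) (XT.nd (nat_lit 156) (nat_lit 0) (nat_lit 76) (XT.nd (nat_lit 78) (nat_lit 0) (nat_lit 0) (XT.lf (nat_lit 0) (nat_lit 21957380635) (nat_lit 760) (nat_lit 8848654501) (nat_lit 836) (nat_lit 7656152133) (nat_lit 166) (nat_lit 5) (nat_lit 176) (nat_lit 5) (nat_lit 177) (nat_lit 5) (nat_lit 449) (nat_lit 443) (nat_lit 308)) (XT.lf (nat_lit 76) (nat_lit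 11606477899) (nat_lit 0) (nat_lit 13050048937) (nat_lit 836) (nat_lit 14803436579) (nat_lit 167) (nat_lit 5) (nat_lit 166) (nat_lit 5) (nat_lit 177) (nat_lit 5) (nat_lit 450) (nat_lit 443) (nat_lit 307))) (XT.nd (nat_lit 78) (nat_lit 0) (nat_lit 0) (XT.lf (nat_lit 0) (nat_lit 27727413180) (nat_lit 760) (nat_lit 7200700171) (nat_lit 836) (nat_lit 5567676095) (nat_lit 167) (nat_lit 5) (nat_lit 177) (nat_lit 5) (nat_lit 178) (nat_lit 5) (nat_lit 451) (nat_lit 443) (nat_lit 306)) (XT.lf (nat_lit 76) (nat_lit 14740337525) (nat_lit 0) (nat_lit 16652851923) (nat_lit 836) (nat_lit 10168150254) (nat_lit 168) (nat_lit 5) (nat_lit 167) (nat_lit 5) (nat_lit 178) (nat_lit 5) (nat_lit 452) (nat_lit 443) (nat_lit 305))))) (XT.nd (nat_lit 312) (nat_lit 760) (nat_lit 0) (XT.nd (nat_lit 156) (nat_lit 532) (nat_lit 0) (XT.nd (nat_lit 78) (nat_lit 760) (nat_lit 0) (XT.lf (nat_lit 0) (nat_lit 35403172501) (nat_lit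 760) (nat_lit 4689583918) (nat_lit 76) (nat_lit 2579365352) (nat_lit 168) (nat_lit 5) (nat_lit 178) (nat_lit 5) (nat_lit 169) (nat_lit 5) (nat_lit 453) (nat_lit 443) (nat_lit 304)) (XT.lf (nat_lit 0) (nat_lit 18877375817) (nat_lit 760) (nat_lit 21301504945) (nat_lit 836) (nat_lit 3631301064) (nat_lit 158) (nat_lit 5) (nat_lit 168) (nat_lit 5) (nat_lit 169) (nat_lit 5) (nat_lit 454) (nat_lit 443) (nat_lit 303))) (XT.nd (nat_lit 78) (nat_lit 456) (nat_lit 0) (XT.lf (nat_lit 0) (nat_lit 260472220) (nat_lit 836) (nat_lit 1222190558) (nat_lit 76) (nat_lit 43518421978) (nat_lit 157) (nat_lit 5) (nat_lit 168) (nat_lit 5) (nat_lit 158) (nat_lit 5) (nat_lit 455) (nat_lit 443) (nat_lit 302)) (XT.lf (nat_lit 0) (nat_lit 4912275837) (nat_lit 532) (nat_lit 22145612653) (nat_lit 76) (nat_lit 19156294168) (nat_lit 151) (nat_lit 5) (nat_lit 158) (nat_lit 5) (nat_lit 152) (nat_lit 5) (nat_lit 456) (nat_lit 443)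 (nat_lit 301)))) (XT.nd (nat_lit 156) (nat_lit 380) (nat_lit 0) (XT.nd (nat_lit 78) (nat_lit 0) (nat_lit 0) (XT.lf (nat_lit 0) (nat_lit 3256747337) (nat_lit 380) (nat_lit 6633854838) (nat_lit 456) (nat_lit 37592636807) (nat_lit 146) (nat_lit 5) (nat_lit 151) (nat_lit 5) (nat_lit 152) (nat_lit 5) (nat_lit 457) (nat_lit 443) (nat_lit 300)) (XT.lf (nat_lit 0) (nat_lit 15728101614) (nat_lit 456) (nat_lit 18338636536) (nat_lit 76) (nat_lit 14718497279) (nat_lit 146) (nat_lit 5) (nat_lit 152) (nat_lit 5) (nat_lit 147) (nat_lit 5) (nat_lit 458) (nat_lit 443) (nat_lit 299))) (XT.nd (nat_lit 78) (nat_lit 0) (nat_lit 0) (XT.lf (nat_lit 0) (nat_lit 9021394599) (nat_lit 380) (nat_lit 13083601113) (nat_lit 456) (nat_lit 28034960143) (nat_lit 141) (nat_lit 5) (nat_lit 146) (nat_lit 5) (nat_lit 147) (nat_lit 5) (nat_lit 459) (nat_lit 443) (nat_lit 298)) (XT.lf (nat_lit 0) (nat_lit 29254095274) (nat_lit 456) (nat_lit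 13307854742) (nat_lit 76) (nat_lit 8977794381) (nat_lit 141) (nat_lit 5) (nat_lit 147) (nat_lit 5) (nat_lit 142) (nat_lit 5) (nat_lit 460) (nat_lit 443) (nat_lit 297)))))))
noncomputable def xc361 : XT := (XT.nd (nat_lit 1248) (nat_lit 1824) (nat_lit 0) (XT.nd (nat_lit 624) (nat_lit 1292) (nat_lit 0) (XT.nd (nat_lit 312) (nat_lit 532) (nat_lit 0) (XT.nd (nat_lit 156) (nat_lit 684) (nat_lit 0) (XT.nd (nat_lit 78) (nat_lit 0) (nat_lit 0) (XT.lf (nat_lit 0) (nat_lit 16195084808) (nat_lit 304) (nat_lit 21030978578) (nat_lit 380) (nat_lit 15760188428) (nat_lit 137) (nat_lit 5) (nat_lit 141) (nat_lit 5) (nat_lit 142) (nat_lit 5) (nat_lit 461) (nat_lit 443) (nat_lit 296)) (XT.lf (nat_lit 0) (nat_lit 45848445671) (nat_lit 380) (nat_lit 6889150008) (nat_lit 76) (nat_lit 1754898257) (nat_lit 137) (nat_lit 5) (nat_lit 142) (nat_lit 5) (nat_lit 138) (nat_lit 5) (nat_lit 462) (nat_lit 443) (nat_lit 295))) (XT.nd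 (nat_lit 78) (nat_lit 380) (nat_lit 0) (XT.lf (nat_lit 0) (nat_lit 24959962613) (nat_lit 304) (nat_lit 30674670424) (nat_lit 380) (nat_lit 402780943) (nat_lit 133) (nat_lit 5) (nat_lit 137) (nat_lit 5) (nat_lit 138) (nat_lit 5) (nat_lit 463) (nat_lit 443) (nat_lit 294)) (XT.lf (nat_lit 0) (nat_lit 882339786) (nat_lit 304) (nat_lit 7234745127) (nat_lit 380) (nat_lit 49529524291) (nat_lit 128) (nat_lit 5) (nat_lit 132) (nat_lit 5) (nat_lit 133) (nat_lit 5) (nat_lit 464) (nat_lit 443) (nat_lit 293)))) (XT.nd (nat_lit 156) (nat_lit 228) (nat_lit 0) (XT.nd (nat_lit 78) (nat_lit 304) (nat_lit 0) (XT.lf (nat_lit 0) (nat_lit 17853943540) (nat_lit 380) (nat_lit 24079605240) (nat_lit 76) (nat_lit 17362158585) (nat_lit 128) (nat_lit 5) (nat_lit 133) (nat_lit 5) (nat_lit 129) (nat_lit 5) (nat_lit 465) (nat_lit 443) (nat_lit 292)) (XT.lf (nat_lit 0) (nat_lit 10453182002) (nat_lit 304) (nat_lit 17904639794)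 (nat_lit 380) (nat_lit 32655429897) (nat_lit 124) (nat_lit 5) (nat_lit 128) (nat_lit 5) (nat_lit 129) (nat_lit 5) (nat_lit 466) (nat_lit 443) (nat_lit 291))) (XT.nd (nat_lit 78) (nat_lit 228) (nat_lit 0) (XT.lf (nat_lit 0) (nat_lit 39914163319) (nat_lit 380) (nat_lit 15370858818) (nat_lit 76) (nat_lit 7505287722) (nat_lit 124) (nat_lit 5) (nat_lit 129) (nat_lit 5) (nat_lit 125) (nat_lit 5) (nat_lit 467) (nat_lit 443) (nat_lit 290)) (XT.lf (nat_lit 0) (nat_lit 21985969363) (nat_lit 228) (nat_lit 30697618990) (nat_lit 304) (nat_lit 11940869345) (nat_lit 121) (nat_lit 5) (nat_lit 124) (nat_lit 5) (nat_lit 125) (nat_lit 5) (nat_lit 468) (nat_lit 443) (nat_lit 289))))) (XT.nd (nat_lit 312) (nat_lit 684) (nat_lit 0) (XT.nd (nat_lit 156) (nat_lit 228) (nat_lit 0) (XT.nd (nat_lit 78) (nat_lit 380) (nat_lit 0) (XT.lf (nat_lit 0) (nat_lit 61742300055) (nat_lit 228) (nat_lit 4608023883) (nat_lit 304) (nat_lit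 187047107) (nat_lit 121) (nat_lit 5) (nat_lit 124) (nat_lit 5) (nat_lit 125) (nat_lit 5) (nat_lit 469) (nat_lit 443) (nat_lit 288)) (XT.lf (nat_lit 0) (nat_lit 12692530745) (nat_lit 380) (nat_lit 32978763546) (nat_lit 76) (nat_lit 22818793412) (nat_lit 116) (nat_lit 5) (nat_lit 121) (nat_lit 5) (nat_lit 117) (nat_lit 5) (nat_lit 470) (nat_lit 443) (nat_lit 287))) (XT.nd (nat_lit 78) (nat_lit 0) (nat_lit 0) (XT.lf (nat_lit 0) (nat_lit 7625287461) (nat_lit 228) (nat_lit 18860249278) (nat_lit 304) (nat_lit 44040963447) (nat_lit 113) (nat_lit 5) (nat_lit 116) (nat_lit 5) (nat_lit 117) (nat_lit 5) (nat_lit 471) (nat_lit 443) (nat_lit 286)) (XT.lf (nat_lit 0) (nat_lit 41679555323) (nat_lit 304) (nat_lit 21388529502) (nat_lit 76) (nat_lit 9561080420) (nat_lit 113) (nat_lit 5) (nat_lit 117) (nat_lit 5) (nat_lit 114) (nat_lit 5) (nat_lit 472) (nat_lit 443) (nat_lit 285)))) (XT.nd (nat_lit 156) (nat_lit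 456) (nat_lit 0) (XT.nd (nat_lit 78) (nat_lit 0) (nat_lit 0) (XT.lf (nat_lit 0) (nat_lit 22612446701) (nat_lit 228) (nat_lit 35681752467) (nat_lit 304) (nat_lit 16509718236) (nat_lit 110) (nat_lit 5) (nat_lit 113) (nat_lit 5) (nat_lit 114) (nat_lit 5) (nat_lit 473) (nat_lit 443) (nat_lit 284)) (XT.lf (nat_lit 0) (nat_lit 69554167470) (nat_lit 228) (nat_lit 6546362041) (nat_lit 304) (nat_lit 968830006) (nat_lit 110) (nat_lit 5) (nat_lit 113) (nat_lit 5) (nat_lit 114) (nat_lit 5) (nat_lit 474) (nat_lit 443) (nat_lit 283))) (XT.nd (nat_lit 78) (nat_lit 228) (nat_lit 0) (XT.lf (nat_lit 0) (nat_lit 15877806686) (nat_lit 228) (nat_lit 39346242069) (nat_lit 76) (nat_lit 24161044351) (nat_lit 107) (nat_lit 5) (nat_lit 110) (nat_lit 5) (nat_lit 108) (nat_lit 5) (nat_lit 475) (nat_lit 443) (nat_lit 282)) (XT.lf (nat_lit 0) (nat_lit 8568373099) (nat_lit 228) (nat_lit 25335087958) (nat_lit 304) (nat_lit 47893896003)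 (nat_lit 104) (nat_lit 5) (nat_lit 107) (nat_lit 5) (nat_lit 108) (nat_lit 5) (nat_lit 476) (nat_lit 443) (nat_lit 281)))))) (XT.nd (nat_lit 624) (nat_lit 988) (nat_lit 0) (XT.nd (nat_lit 312) (nat_lit 380) (nat_lit 0) (XT.nd (nat_lit 156) (nat_lit 304) (nat_lit 0) (XT.nd (nat_lit 78) (nat_lit 152) (nat_lit 0) (XT.lf (nat_lit 0) (nat_lit 53600911531) (nat_lit 304) (nat_lit 24159398718) (nat_lit 76) (nat_lit 6531398344) (nat_lit 104) (nat_lit 5) (nat_lit 108) (nat_lit 5) (nat_lit 105) (nat_lit 5) (nat_lit 477) (nat_lit 443) (nat_lit 280)) (XT.lf (nat_lit 0) (nat_lit 27837541538) (nat_lit 152) (nat_lit 47294511732) (nat_lit 228) (nat_lit 11736283542) (nat_lit 102) (nat_lit 5) (nat_lit 104) (nat_lit 5) (nat_lit 105) (nat_lit 5) (nat_lit 478) (nat_lit 443) (nat_lit 279))) (XT.nd (nat_lit 78) (nat_lit 228) (nat_lit 0) (XT.lf (nat_lit 0) (nat_lit 8319328541) (nat_lit 228) (nat_lit 6416229934) (nat_lit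 76) (nat_lit 74811126616) (nat_lit 101) (nat_lit 5) (nat_lit 104) (nat_lit 5) (nat_lit 102) (nat_lit 5) (nat_lit 479) (nat_lit 443) (nat_lit 278)) (XT.lf (nat_lit 0) (nat_lit 30086363547) (nat_lit 304) (nat_lit 42386793274) (nat_lit 76) (nat_lit 19821021178) (nat_lit 98) (nat_lit 5) (nat_lit 102) (nat_lit 5) (nat_lit 99) (nat_lit 5) (nat_lit 480) (nat_lit 443) (nat_lit 277)))) (XT.nd (nat_lit 156) (nat_lit 228) (nat_lit 0) (XT.nd (nat_lit 78) (nat_lit 0) (nat_lit 0) (XT.lf (nat_lit 0) (nat_lit 14309252891) (nat_lit 152) (nat_lit 39206859532) (nat_lit 228) (nat_lit 41634215064) (nat_lit 96) (nat_lit 5) (nat_lit 98) (nat_lit 5) (nat_lit 99) (nat_lit 5) (nat_lit 481) (nat_lit 443) (nat_lit 276)) (XT.lf (nat_lit 0) (nat_lit 75309993319) (nat_lit 152) (nat_lit 3524165014) (nat_lit 228) (nat_lit 19279285673) (nat_lit 96) (nat_lit 5) (nat_lit 98) (nat_lit 5) (nat_lit 99) (nat_lit 5) (nat_lit 482) (nat_lit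 443) (nat_lit 275))) (XT.nd (nat_lit 78) (nat_lit 0) (nat_lit 0) (XT.lf (nat_lit 0) (nat_lit 5213261820) (nat_lit 228) (nat_lit 62404180824) (nat_lit 76) (nat_lit 33546295898) (nat_lit 93) (nat_lit 5) (nat_lit 96) (nat_lit 5) (nat_lit 94) (nat_lit 5) (nat_lit 483) (nat_lit 443) (nat_lit 274)) (XT.lf (nat_lit 0) (nat_lit 30731832140) (nat_lit 228) (nat_lit 536642908) (nat_lit 76) (nat_lit 73059804803) (nat_lit 93) (nat_lit 5) (nat_lit 96) (nat_lit 5) (nat_lit 94) (nat_lit 5) (nat_lit 484) (nat_lit 443) (nat_lit 273))))) (XT.nd (nat_lit 312) (nat_lit 456) (nat_lit 0) (XT.nd (nat_lit 156) (nat_lit 228) (nat_lit 0) (XT.nd (nat_lit 78) (nat_lit 152) (nat_lit 0) (XT.lf (nat_lit 0) (nat_lit 58689188413) (nat_lit 228) (nat_lit 41171053269) (nat_lit 76) (nat_lit 7732663700) (nat_lit 91) (nat_lit 5) (nat_lit 94) (nat_lit 5) (nat_lit 92) (nat_lit 5) (nat_lit 485) (nat_lit 443) (nat_lit 272)) (XT.lf (nat_lit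 0) (nat_lit 26045899895) (nat_lit 152) (nat_lit 62926069385) (nat_lit 228) (nat_lit 22002415101) (nat_lit 89) (nat_lit 5) (nat_lit 91) (nat_lit 5) (nat_lit 92) (nat_lit 5) (nat_lit 486) (nat_lit 443) (nat_lit 271))) (XT.nd (nat_lit 78) (nat_lit 152) (nat_lit 0) (XT.lf (nat_lit 0) (nat_lit 6751865521) (nat_lit 228) (nat_lit 16547508793) (nat_lit 76) (nat_lit 91185300809) (nat_lit 88) (nat_lit 5) (nat_lit 91) (nat_lit 5) (nat_lit 89) (nat_lit 5) (nat_lit 487) (nat_lit 443) (nat_lit 270)) (XT.lf (nat_lit 0) (nat_lit 37395149534) (nat_lit 228) (nat_lit 61709256843) (nat_lit 76) (nat_lit 18988503543) (nat_lit 86) (nat_lit 5) (nat_lit 89) (nat_lit 5) (nat_lit 87) (nat_lit 5) (nat_lit 488) (nat_lit 443) (nat_lit 269)))) (XT.nd (nat_lit 156) (nat_lit 304) (nat_lit 0) (XT.nd (nat_lit 78) (nat_lit 0) (nat_lit 0) (XT.lf (nat_lit 0) (nat_lit 11653227424) (nat_lit 152) (nat_lit 58765230904) (nat_lit 228) (nat_lit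 51420705125) (nat_lit 84) (nat_lit 5) (nat_lit 86) (nat_lit 5) (nat_lit 87) (nat_lit 5) (nat_lit 489) (nat_lit 443) (nat_lit 268)) (XT.lf (nat_lit 0) (nat_lit 90824748149) (nat_lit 152) (nat_lit 15312408567) (nat_lit 228) (nat_lit 19583361761) (nat_lit 84) (nat_lit 5) (nat_lit 86) (nat_lit 5) (nat_lit 87) (nat_lit 5) (nat_lit 490) (nat_lit 443) (nat_lit 267))) (XT.nd (nat_lit 78) (nat_lit 152) (nat_lit 0) (XT.lf (nat_lit 0) (nat_lit 14599025077) (nat_lit 152) (nat_lit 84843983300) (nat_lit 76) (nat_lit 30282307775) (nat_lit 82) (nat_lit 5) (nat_lit 84) (nat_lit 5) (nat_lit 83) (nat_lit 5) (nat_lit 491) (nat_lit 443) (nat_lit 266)) (XT.nd (nat_lit 78) (nat_lit 152) (nat_lit 0) (XT.lf (nat_lit 0) (nat_lit 50683272491) (nat_lit 152) (nat_lit 4625218608) (nat_lit 76) (nat_lit 78563267164) (nat_lit 82) (nat_lit 5) (nat_lit 84) (nat_lit 5) (nat_lit 83) (nat_lit 5) (nat_lit 492) (nat_lit 443) (nat_lit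 265)) (XT.lf (nat_lit 0) (nat_lit 82235134255) (nat_lit 152) (nat_lit 7619740468) (nat_lit 228) (nat_lit 48306490654) (nat_lit 80) (nat_lit 5) (nat_lit 82) (nat_lit 5) (nat_lit 83) (nat_lit 5) (nat_lit 493) (nat_lit 443) (nat_lit 264))))))))
noncomputable def xc362 : XT := (XT.nd (nat_lit 1248) (nat_lit 1140) (nat_lit 0) (XT.nd (nat_lit 624) (nat_lit 684) (nat_lit 0) (XT.nd (nat_lit 312) (nat_lit 304) (nat_lit 0) (XT.nd (nat_lit 156) (nat_lit 228) (nat_lit 0) (XT.nd (nat_lit 78) (nat_lit 76) (nat_lit 0) (XT.lf (nat_lit 0) (nat_lit 31272980574) (nat_lit 76) (nat_lit 100941994950) (nat_lit 152) (nat_lit 10388981418) (nat_lit 79) (nat_lit 5) (nat_lit 80) (nat_lit 5) (nat_lit 81) (nat_lit 4) (nat_lit 494) (nat_lit 443) (nat_lit 263)) (XT.lf (nat_lit 0) (nat_lit 29569447829) (nat_lit 152) (nat_lit 23048771149) (nat_lit 76) (nat_lit 94573148793) (nat_lit 78) (nat_lit 5) (nat_lit 80) (nat_lit 5) (nat_lit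 79) (nat_lit 5) (nat_lit 495) (nat_lit 443) (nat_lit 262))) (XT.nd (nat_lit 78) (nat_lit 76) (nat_lit 0) (XT.lf (nat_lit 0) (nat_lit 71773089548) (nat_lit 152) (nat_lit 523417595) (nat_lit 228) (nat_lit 79647134131) (nat_lit 76) (nat_lit 5) (nat_lit 78) (nat_lit 5) (nat_lit 79) (nat_lit 5) (nat_lit 496) (nat_lit 443) (nat_lit 261)) (XT.lf (nat_lit 0) (nat_lit 14843749804) (nat_lit 76) (nat_lit 103789777062) (nat_lit 152) (nat_lit 38226321228) (nat_lit 75) (nat_lit 5) (nat_lit 76) (nat_lit 5) (nat_lit 77) (nat_lit 4) (nat_lit 497) (nat_lit 443) (nat_lit 260)))) (XT.nd (nat_lit 156) (nat_lit 76) (nat_lit 0) (XT.nd (nat_lit 78) (nat_lit 152) (nat_lit 0) (XT.lf (nat_lit 0) (nat_lit 6484842978) (nat_lit 152) (nat_lit 44676258491) (nat_lit 76) (nat_lit 110787261284) (nat_lit 74) (nat_lit 5) (nat_lit 76) (nat_lit 5) (nat_lit 75) (nat_lit 5) (nat_lit 498) (nat_lit 443) (nat_lit 259)) (XT.lf (nat_lit 0)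 (nat_lit 53153311049) (nat_lit 228) (nat_lit 108519326234) (nat_lit 76) (nat_lit 5537012791) (nat_lit 72) (nat_lit 5) (nat_lit 75) (nat_lit 5) (nat_lit 73) (nat_lit 4) (nat_lit 499) (nat_lit 443) (nat_lit 258))) (XT.nd (nat_lit 78) (nat_lit 76) (nat_lit 0) (XT.lf (nat_lit 0) (nat_lit 103762240534) (nat_lit 228) (nat_lit 4772265990) (nat_lit 76) (nat_lit 64119143347) (nat_lit 72) (nat_lit 5) (nat_lit 75) (nat_lit 5) (nat_lit 73) (nat_lit 4) (nat_lit 500) (nat_lit 443) (nat_lit 257)) (XT.lf (nat_lit 0) (nat_lit 107604959947) (nat_lit 76) (nat_lit 50976018071) (nat_lit 152) (nat_lit 19704903576) (nat_lit 71) (nat_lit 5) (nat_lit 72) (nat_lit 5) (nat_lit 73) (nat_lit 4) (nat_lit 501) (nat_lit 443) (nat_lit 256))))) (XT.nd (nat_lit 312) (nat_lit 228) (nat_lit 0) (XT.nd (nat_lit 156) (nat_lit 228) (nat_lit 0) (XT.nd (nat_lit 78) (nat_lit 0) (nat_lit 0) (XT.lf (nat_lit 0) (nat_lit 31830604187) (nat_lit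 228) (nat_lit 141877903724) (nat_lit 76) (nat_lit 10420683340) (nat_lit 68) (nat_lit 5) (nat_lit 71) (nat_lit 5) (nat_lit 69) (nat_lit 4) (nat_lit 502) (nat_lit 443) (nat_lit 255)) (XT.lf (nat_lit 0) (nat_lit 87332336564) (nat_lit 228) (nat_lit 28100376781) (nat_lit 76) (nat_lit 74713218335) (nat_lit 68) (nat_lit 5) (nat_lit 71) (nat_lit 5) (nat_lit 69) (nat_lit 4) (nat_lit 503) (nat_lit 443) (nat_lit 254))) (XT.nd (nat_lit 78) (nat_lit 152) (nat_lit 0) (XT.lf (nat_lit 0) (nat_lit 94385796209) (nat_lit 76) (nat_lit 52696368958) (nat_lit 152) (nat_lit 49307693493) (nat_lit 67) (nat_lit 5) (nat_lit 68) (nat_lit 5) (nat_lit 69) (nat_lit 4) (nat_lit 504) (nat_lit 443) (nat_lit 253)) (XT.lf (nat_lit 0) (nat_lit 7695164612) (nat_lit 152) (nat_lit 181494980708) (nat_lit 76) (nat_lit 13698388123) (nat_lit 65) (nat_lit 5) (nat_lit 67) (nat_lit 5) (nat_lit 66) (nat_lit 4) (nat_lit 505) (nat_lit 443) (nat_lit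 252)))) (XT.nd (nat_lit 156) (nat_lit 152) (nat_lit 0) (XT.nd (nat_lit 78) (nat_lit 76) (nat_lit 0) (XT.lf (nat_lit 0) (nat_lit 68510173595) (nat_lit 152) (nat_lit 56825055092) (nat_lit 76) (nat_lit 84205543654) (nat_lit 65) (nat_lit 5) (nat_lit 67) (nat_lit 5) (nat_lit 66) (nat_lit 4) (nat_lit 506) (nat_lit 443) (nat_lit 251)) (XT.lf (nat_lit 0) (nat_lit 76526581313) (nat_lit 76) (nat_lit 57033562562) (nat_lit 152) (nat_lit 82905768776) (nat_lit 64) (nat_lit 5) (nat_lit 65) (nat_lit 5) (nat_lit 66) (nat_lit 4) (nat_lit 507) (nat_lit 443) (nat_lit 250))) (XT.nd (nat_lit 78) (nat_lit 152) (nat_lit 0) (XT.lf (nat_lit 0) (nat_lit 203069413514) (nat_lit 152) (nat_lit 5416693461) (nat_lit 0) (nat_lit 15190862965) (nat_lit 64) (nat_lit 5) (nat_lit 66) (nat_lit 4) (nat_lit 64) (nat_lit 4) (nat_lit 508) (nat_lit 443) (nat_lit 249)) (XT.lf (nat_lit 0) (nat_lit 46532660491) (nat_lit 152) (nat_lit 92487289914)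 (nat_lit 76) (nat_lit 92035595078) (nat_lit 62) (nat_lit 5) (nat_lit 64) (nat_lit 5) (nat_lit 63) (nat_lit 4) (nat_lit 509) (nat_lit 443) (nat_lit 248)))))) (XT.nd (nat_lit 624) (nat_lit 608) (nat_lit 0) (XT.nd (nat_lit 312) (nat_lit 228) (nat_lit 0) (XT.nd (nat_lit 156) (nat_lit 228) (nat_lit 0) (XT.nd (nat_lit 78) (nat_lit 0) (nat_lit 0) (XT.lf (nat_lit 0) (nat_lit 52481379105) (nat_lit 76) (nat_lit 64768027423) (nat_lit 152) (nat_lit 121491148477) (nat_lit 61) (nat_lit 5) (nat_lit 62) (nat_lit 5) (nat_lit 63) (nat_lit 4) (nat_lit 510) (nat_lit 443) (nat_lit 247)) (XT.lf (nat_lit 0) (nat_lit 193299468211) (nat_lit 152) (nat_lit 39054845804) (nat_lit 0) (nat_lit 14365627078) (nat_lit 61) (nat_lit 5) (nat_lit 63) (nat_lit 4) (nat_lit 61) (nat_lit 4) (nat_lit 511) (nat_lit 443) (nat_lit 246))) (XT.nd (nat_lit 78) (nat_lit 76) (nat_lit 0) (XT.lf (nat_lit 0) (nat_lit 20430727513) (nat_lit 152) (nat_lit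 137051420171) (nat_lit 76) (nat_lit 97454314168) (nat_lit 59) (nat_lit 5) (nat_lit 61) (nat_lit 5) (nat_lit 60) (nat_lit 4) (nat_lit 512) (nat_lit 443) (nat_lit 245)) (XT.lf (nat_lit 0) (nat_lit 20257854479) (nat_lit 76) (nat_lit 76909369583) (nat_lit 152) (nat_lit 166303396603) (nat_lit 58) (nat_lit 5) (nat_lit 59) (nat_lit 5) (nat_lit 60) (nat_lit 4) (nat_lit 513) (nat_lit 443) (nat_lit 244)))) (XT.nd (nat_lit 156) (nat_lit 152) (nat_lit 0) (XT.nd (nat_lit 78) (nat_lit 76) (nat_lit 0) (XT.lf (nat_lit 0) (nat_lit 180219200275) (nat_lit 152) (nat_lit 82283889615) (nat_lit 0) (nat_lit 9804464792) (nat_lit 58) (nat_lit 5) (nat_lit 60) (nat_lit 4) (nat_lit 58) (nat_lit 4) (nat_lit 514) (nat_lit 443) (nat_lit 243)) (XT.lf (nat_lit 0) (nat_lit 88254341657) (nat_lit 76) (nat_lit 181807644008) (nat_lit 76) (nat_lit 11392439222) (nat_lit 57) (nat_lit 4) (nat_lit 58) (nat_lit 5) (nat_lit 58) (nat_lit 4)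 (nat_lit 515) (nat_lit 443) (nat_lit 242))) (XT.nd (nat_lit 78) (nat_lit 76) (nat_lit 0) (XT.lf (nat_lit 0) (nat_lit 72406855225) (nat_lit 152) (nat_lit 21981598528) (nat_lit 76) (nat_lit 196542140746) (nat_lit 56) (nat_lit 5) (nat_lit 58) (nat_lit 5) (nat_lit 57) (nat_lit 4) (nat_lit 516) (nat_lit 443) (nat_lit 241)) (XT.lf (nat_lit 0) (nat_lit 162559041843) (nat_lit 152) (nat_lit 137926887544) (nat_lit 0) (nat_lit 258015737) (nat_lit 55) (nat_lit 5) (nat_lit 57) (nat_lit 4) (nat_lit 55) (nat_lit 4) (nat_lit 517) (nat_lit 443) (nat_lit 240))))) (XT.nd (nat_lit 312) (nat_lit 380) (nat_lit 0) (XT.nd (nat_lit 156) (nat_lit 76) (nat_lit 0) (XT.nd (nat_lit 78) (nat_lit 76) (nat_lit 0) (XT.lf (nat_lit 0) (nat_lit 46524130636) (nat_lit 76) (nat_lit 213346331810) (nat_lit 76) (nat_lit 51044919607) (nat_lit 54) (nat_lit 4) (nat_lit 55) (nat_lit 5) (nat_lit 55) (nat_lit 4) (nat_lit 518) (nat_lit 443) (nat_lit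 239)) (XT.lf (nat_lit 0) (nat_lit 41531025667) (nat_lit 152) (nat_lit 77163177295) (nat_lit 76) (nat_lit 202750925312) (nat_lit 53) (nat_lit 5) (nat_lit 55) (nat_lit 5) (nat_lit 54) (nat_lit 4) (nat_lit 519) (nat_lit 443) (nat_lit 238))) (XT.nd (nat_lit 78) (nat_lit 0) (nat_lit 0) (XT.lf (nat_lit 0) (nat_lit 122509691529) (nat_lit 76) (nat_lit 16422904394) (nat_lit 152) (nat_lit 193431312202) (nat_lit 52) (nat_lit 5) (nat_lit 53) (nat_lit 5) (nat_lit 54) (nat_lit 4) (nat_lit 520) (nat_lit 443) (nat_lit 237)) (XT.lf (nat_lit 0) (nat_lit 243952187635) (nat_lit 152) (nat_lit 10360629450) (nat_lit 0) (nat_lit 89378412740) (nat_lit 52) (nat_lit 5) (nat_lit 54) (nat_lit 4) (nat_lit 52) (nat_lit 4) (nat_lit 521) (nat_lit 443) (nat_lit 236)))) (XT.nd (nat_lit 156) (nat_lit 152) (nat_lit 0) (XT.nd (nat_lit 78) (nat_lit 76) (nat_lit 0) (XT.lf (nat_lit 0) (nat_lit 2214280189) (nat_lit 152) (nat_lit 150034803023)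 (nat_lit 76) (nat_lit 203160255691) (nat_lit 50) (nat_lit 5) (nat_lit 52) (nat_lit 5) (nat_lit 51) (nat_lit 4) (nat_lit 522) (nat_lit 443) (nat_lit 235)) (XT.lf (nat_lit 0) (nat_lit 64992973376) (nat_lit 76) (nat_lit 42113045598) (nat_lit 152) (nat_lit 260465949345) (nat_lit 49) (nat_lit 5) (nat_lit 50) (nat_lit 5) (nat_lit 51) (nat_lit 4) (nat_lit 523) (nat_lit 443) (nat_lit 234))) (XT.nd (nat_lit 78) (nat_lit 152) (nat_lit 0) (XT.lf (nat_lit 0) (nat_lit 220972493003) (nat_lit 152) (nat_lit 85425178565) (nat_lit 0) (nat_lit 73758550227) (nat_lit 49) (nat_lit 5) (nat_lit 51) (nat_lit 4) (nat_lit 49) (nat_lit 4) (nat_lit 524) (nat_lit 443) (nat_lit 233)) (XT.nd (nat_lit 78) (nat_lit 76) (nat_lit 0) (XT.lf (nat_lit 0) (nat_lit 146586842700) (nat_lit 76) (nat_lit 196924053319) (nat_lit 76) (nat_lit 49709861661) (nat_lit 48) (nat_lit 4) (nat_lit 49) (nat_lit 5) (nat_lit 49) (nat_lit 4) (nat_lit 525)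 (nat_lit 443) (nat_lit 232)) (XT.lf (nat_lit 0) (nat_lit 64619714910) (nat_lit 152) (nat_lit 14744013121) (nat_lit 76) (nat_lit 327450363674) (nat_lit 47) (nat_lit 5) (nat_lit 49) (nat_lit 5) (nat_lit 48) (nat_lit 4) (nat_lit 526) (nat_lit 443) (nat_lit 231))))))))
noncomputable def xc363 : XT := (XT.nd (nat_lit 1248) (nat_lit 532) (nat_lit 0) (XT.nd (nat_lit 624) (nat_lit 456) (nat_lit 0) (XT.nd (nat_lit 312) (nat_lit 228) (nat_lit 0) (XT.nd (nat_lit 156) (nat_lit 152) (nat_lit 0) (XT.nd (nat_lit 78) (nat_lit 76) (nat_lit 0) (XT.lf (nat_lit 0) (nat_lit 187432760790) (nat_lit 152) (nat_lit 186163379465) (nat_lit 0) (nat_lit 47228328000) (nat_lit 46) (nat_lit 5) (nat_lit 48) (nat_lit 4) (nat_lit 46) (nat_lit 4) (nat_lit 527) (nat_lit 443) (nat_lit 230)) (XT.lf (nat_lit 0) (nat_lit 62210672344) (nat_lit 76) (nat_lit 256701521057) (nat_lit 76) (nat_lit 116496883511) (nat_lit 45) (nat_lit 4) (nat_lit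 46) (nat_lit 5) (nat_lit 46) (nat_lit 4) (nat_lit 528) (nat_lit 443) (nat_lit 229))) (XT.nd (nat_lit 78) (nat_lit 76) (nat_lit 0) (XT.lf (nat_lit 0) (nat_lit 9246945164) (nat_lit 152) (nat_lit 121248594962) (nat_lit 76) (nat_lit 320062299173) (nat_lit 44) (nat_lit 5) (nat_lit 46) (nat_lit 5) (nat_lit 45) (nat_lit 4) (nat_lit 529) (nat_lit 443) (nat_lit 228)) (XT.lf (nat_lit 0) (nat_lit 139743231906) (nat_lit 152) (nat_lit 320291659284) (nat_lit 0) (nat_lit 6214643078) (nat_lit 43) (nat_lit 5) (nat_lit 45) (nat_lit 4) (nat_lit 43) (nat_lit 4) (nat_lit 530) (nat_lit 443) (nat_lit 227)))) (XT.nd (nat_lit 156) (nat_lit 152) (nat_lit 0) (XT.nd (nat_lit 78) (nat_lit 76) (nat_lit 0) (XT.lf (nat_lit 0) (nat_lit 280990305657) (nat_lit 152) (nat_lit 54062661322) (nat_lit 0) (nat_lit 147461548376) (nat_lit 43) (nat_lit 5) (nat_lit 45) (nat_lit 4) (nat_lit 43) (nat_lit 4) (nat_lit 531) (nat_lit 443) (nat_lit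 226)) (XT.lf (nat_lit 0) (nat_lit 232932382346) (nat_lit 76) (nat_lit 200003730926) (nat_lit 76) (nat_lit 66474813215) (nat_lit 42) (nat_lit 4) (nat_lit 43) (nat_lit 5) (nat_lit 43) (nat_lit 4) (nat_lit 532) (nat_lit 443) (nat_lit 225))) (XT.nd (nat_lit 78) (nat_lit 0) (nat_lit 0) (XT.lf (nat_lit 0) (nat_lit 18446359884) (nat_lit 76) (nat_lit 55687996402) (nat_lit 152) (nat_lit 442898086606) (nat_lit 40) (nat_lit 5) (nat_lit 41) (nat_lit 5) (nat_lit 42) (nat_lit 4) (nat_lit 533) (nat_lit 443) (nat_lit 224)) (XT.lf (nat_lit 0) (nat_lit 225622960053) (nat_lit 152) (nat_lit 211101161113) (nat_lit 0) (nat_lit 98452278130) (nat_lit 40) (nat_lit 5) (nat_lit 42) (nat_lit 4) (nat_lit 40) (nat_lit 4) (nat_lit 534) (nat_lit 443) (nat_lit 223))))) (XT.nd (nat_lit 312) (nat_lit 228) (nat_lit 0) (XT.nd (nat_lit 156) (nat_lit 152) (nat_lit 0) (XT.nd (nat_lit 78) (nat_lit 0) (nat_lit 0) (XT.lf (nat_lit 0) (nat_lit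 92815088663) (nat_lit 76) (nat_lit 294232597090) (nat_lit 76) (nat_lit 167061783180) (nat_lit 39) (nat_lit 4) (nat_lit 40) (nat_lit 5) (nat_lit 40) (nat_lit 4) (nat_lit 535) (nat_lit 443) (nat_lit 222)) (XT.lf (nat_lit 0) (nat_lit 419255454532) (nat_lit 76) (nat_lit 140862969168) (nat_lit 76) (nat_lit 13692029556) (nat_lit 39) (nat_lit 4) (nat_lit 40) (nat_lit 5) (nat_lit 40) (nat_lit 4) (nat_lit 536) (nat_lit 443) (nat_lit 221))) (XT.nd (nat_lit 78) (nat_lit 0) (nat_lit 0) (XT.lf (nat_lit 0) (nat_lit 145691125653) (nat_lit 152) (nat_lit 423961460081) (nat_lit 0) (nat_lit 24575831054) (nat_lit 37) (nat_lit 5) (nat_lit 39) (nat_lit 4) (nat_lit 37) (nat_lit 4) (nat_lit 537) (nat_lit 443) (nat_lit 220)) (XT.lf (nat_lit 0) (nat_lit 317552584984) (nat_lit 152) (nat_lit 101417824322) (nat_lit 0) (nat_lit 196437181800) (nat_lit 37) (nat_lit 5) (nat_lit 39) (nat_lit 4) (nat_lit 37) (nat_lit 4) (nat_lit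 538) (nat_lit 443) (nat_lit 219)))) (XT.nd (nat_lit 156) (nat_lit 76) (nat_lit 0) (XT.nd (nat_lit 78) (nat_lit 76) (nat_lit 0) (XT.lf (nat_lit 0) (nat_lit 245097027097) (nat_lit 76) (nat_lit 256736443001) (nat_lit 76) (nat_lit 135620936401) (nat_lit 36) (nat_lit 4) (nat_lit 37) (nat_lit 5) (nat_lit 37) (nat_lit 4) (nat_lit 539) (nat_lit 443) (nat_lit 218)) (XT.lf (nat_lit 0) (nat_lit 35358843318) (nat_lit 152) (nat_lit 48629976287) (nat_lit 76) (nat_lit 576500364550) (nat_lit 35) (nat_lit 5) (nat_lit 37) (nat_lit 5) (nat_lit 36) (nat_lit 4) (nat_lit 540) (nat_lit 443) (nat_lit 217))) (XT.nd (nat_lit 78) (nat_lit 0) (nat_lit 0) (XT.lf (nat_lit 0) (nat_lit 216969594963) (nat_lit 152) (nat_lit 365641643939) (nat_lit 0) (nat_lit 101621310304) (nat_lit 34) (nat_lit 5) (nat_lit 36) (nat_lit 4) (nat_lit 34) (nat_lit 4) (nat_lit 541) (nat_lit 443) (nat_lit 216)) (XT.lf (nat_lit 0) (nat_lit 409874539458)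 (nat_lit 152) (nat_lit 4651690570) (nat_lit 0) (nat_lit 294526169720) (nat_lit 34) (nat_lit 5) (nat_lit 36) (nat_lit 4) (nat_lit 34) (nat_lit 4) (nat_lit 542) (nat_lit 443) (nat_lit 215)))))) (XT.nd (nat_lit 624) (nat_lit 0) (nat_lit 0) (XT.nd (nat_lit 312) (nat_lit 228) (nat_lit 0) (XT.nd (nat_lit 156) (nat_lit 76) (nat_lit 0) (XT.nd (nat_lit 78) (nat_lit 152) (nat_lit 0) (XT.lf (nat_lit 0) (nat_lit 386766146404) (nat_lit 76) (nat_lit 231696817765) (nat_lit 76) (nat_lit 116348366998) (nat_lit 33) (nat_lit 4) (nat_lit 34) (nat_lit 5) (nat_lit 34) (nat_lit 4) (nat_lit 543) (nat_lit 443) (nat_lit 214)) (XT.lf (nat_lit 0) (nat_lit 36032859250) (nat_lit 76) (nat_lit 37811719865) (nat_lit 152) (nat_lit 687922477324) (nat_lit 31) (nat_lit 5) (nat_lit 32) (nat_lit 5) (nat_lit 33) (nat_lit 4) (nat_lit 544) (nat_lit 443) (nat_lit 213))) (XT.nd (nat_lit 78) (nat_lit 76) (nat_lit 0) (XT.lf (nat_lit 0) (nat_lit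 278215873388) (nat_lit 152) (nat_lit 342970326128) (nat_lit 0) (nat_lit 168360062500) (nat_lit 31) (nat_lit 5) (nat_lit 33) (nat_lit 4) (nat_lit 31) (nat_lit 4) (nat_lit 545) (nat_lit 443) (nat_lit 212)) (XT.lf (nat_lit 0) (nat_lit 60239390424) (nat_lit 76) (nat_lit 434126454680) (nat_lit 76) (nat_lit 324270577130) (nat_lit 30) (nat_lit 4) (nat_lit 31) (nat_lit 5) (nat_lit 31) (nat_lit 4) (nat_lit 546) (nat_lit 443) (nat_lit 211)))) (XT.nd (nat_lit 156) (nat_lit 76) (nat_lit 0) (XT.nd (nat_lit 78) (nat_lit 152) (nat_lit 0) (XT.lf (nat_lit 0) (nat_lit 495516235976) (nat_lit 76) (nat_lit 231615194877) (nat_lit 76) (nat_lit 121759253839) (nat_lit 30) (nat_lit 4) (nat_lit 31) (nat_lit 5) (nat_lit 31) (nat_lit 4) (nat_lit 547) (nat_lit 443) (nat_lit 210)) (XT.lf (nat_lit 0) (nat_lit 72810297366) (nat_lit 76) (nat_lit 16295214277) (nat_lit 152) (nat_lit 791424379507) (nat_lit 28) (nat_lit 5) (nat_lit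 29) (nat_lit 5) (nat_lit 30) (nat_lit 4) (nat_lit 548) (nat_lit 443) (nat_lit 209))) (XT.nd (nat_lit 78) (nat_lit 76) (nat_lit 0) (XT.lf (nat_lit 0) (nat_lit 315779458077) (nat_lit 152) (nat_lit 386249264687) (nat_lit 0) (nat_lit 211154639897) (nat_lit 28) (nat_lit 5) (nat_lit 30) (nat_lit 4) (nat_lit 28) (nat_lit 4) (nat_lit 549) (nat_lit 443) (nat_lit 208)) (XT.lf (nat_lit 0) (nat_lit 57879478599) (nat_lit 76) (nat_lit 497078185719) (nat_lit 76) (nat_lit 392453315308) (nat_lit 27) (nat_lit 4) (nat_lit 28) (nat_lit 5) (nat_lit 28) (nat_lit 4) (nat_lit 550) (nat_lit 443) (nat_lit 207))))) (XT.nd (nat_lit 54366) (nat_lit 0) (nat_lit 10412) (XT.nd (nat_lit 54210) (nat_lit 0) (nat_lit 10336) (XT.nd (nat_lit 54132) (nat_lit 0) (nat_lit 10336) (XT.lf (nat_lit 0) (nat_lit 537623896578) (nat_lit 76) (nat_lit 275011973284) (nat_lit 76) (nat_lit 170387053127) (nat_lit 27) (nat_lit 4) (nat_lit 28) (nat_lit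 5) (nat_lit 28) (nat_lit 4) (nat_lit 551) (nat_lit 443) (nat_lit 206)) (XT.lf (nat_lit 0) (nat_lit 7326968943) (nat_lit 836) (nat_lit 5028635921) (nat_lit 836) (nat_lit 5028635921) (nat_lit 163) (nat_lit 3) (nat_lit 174) (nat_lit 3) (nat_lit 174) (nat_lit 5) (nat_lit 444) (nat_lit 444) (nat_lit 312))) (XT.nd (nat_lit 78) (nat_lit 0) (nat_lit 76) (XT.lf (nat_lit 76) (nat_lit 7496517149) (nat_lit 0) (nat_lit 7694173200) (nat_lit 836) (nat_lit 20438478942) (nat_lit 164) (nat_lit 5) (nat_lit 163) (nat_lit 3) (nat_lit 174) (nat_lit 5) (nat_lit 445) (nat_lit 444) (nat_lit 311)) (XT.lf (nat_lit 0) (nat_lit 16082817686) (nat_lit 760) (nat_lit 10410896331) (nat_lit 836) (nat_lit 10022750781) (nat_lit 164) (nat_lit 5) (nat_lit 174) (nat_lit 5) (nat_lit 175) (nat_lit 5) (nat_lit 446) (nat_lit 444) (nat_lit 310)))) (XT.nd (nat_lit 156) (nat_lit 0) (nat_lit 76) (XT.nd (nat_lit 78) (nat_lit 0) (nat_lit 76) (XT.lf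 (nat_lit 76) (nat_lit 8335653769) (nat_lit 0) (nat_lit 8936917447) (nat_lit 836) (nat_lit 20162903124) (nat_lit 165) (nat_lit 5) (nat_lit 164) (nat_lit 5) (nat_lit 175) (nat_lit 5) (nat_lit 447) (nat_lit 444) (nat_lit 309)) (XT.lf (nat_lit 0) (nat_lit 18846189326) (nat_lit 760) (nat_lit 10163917634) (nat_lit 836) (nat_lit 9374108793) (nat_lit 165) (nat_lit 5) (nat_lit 175) (nat_lit 5) (nat_lit 176) (nat_lit 5) (nat_lit 448) (nat_lit 444) (nat_lit 308))) (XT.nd (nat_lit 78) (nat_lit 0) (nat_lit 76) (XT.lf (nat_lit 76) (nat_lit 9886713275) (nat_lit 0) (nat_lit 10909676389) (nat_lit 836) (nat_lit 18569109735) (nat_lit 166) (nat_lit 5) (nat_lit 165) (nat_lit 5) (nat_lit 176) (nat_lit 5) (nat_lit 449) (nat_lit 444) (nat_lit 307)) (XT.nd (nat_lit 78) (nat_lit 0) (nat_lit 0) (XT.lf (nat_lit 0) (nat_lit 23142610024) (nat_lit 760) (nat_lit 9225837763) (nat_lit 836) (nat_lit 8012474158) (nat_lit 166) (nat_lit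 5) (nat_lit 176) (nat_lit 5) (nat_lit 177) (nat_lit 5) (nat_lit 450) (nat_lit 444) (nat_lit 306)) (XT.lf (nat_lit 76) (nat_lit 12250998847) (nat_lit 0) (nat_lit 13722556967) (nat_lit 836) (nat_lit 15455189288) (nat_lit 167) (nat_lit 5) (nat_lit 166) (nat_lit 5) (nat_lit 177) (nat_lit 5) (nat_lit 451) (nat_lit 444) (nat_lit 305))))))))
noncomputable def xc364 : XT := (XT.nd (nat_lit 1248) (nat_lit 2356) (nat_lit 0) (XT.nd (nat_lit 624) (nat_lit 1672) (nat_lit 0) (XT.nd (nat_lit 312) (nat_lit 912) (nat_lit 0) (XT.nd (nat_lit 156) (nat_lit 684) (nat_lit 0) (XT.nd (nat_lit 78) (nat_lit 0) (nat_lit 0) (XT.lf (nat_lit 0) (nat_lit 29193679355) (nat_lit 760) (nat_lit 7495281959) (nat_lit 836) (nat_lit 5827616776) (nat_lit 167) (nat_lit 5) (nat_lit 177) (nat_lit 5) (nat_lit 178) (nat_lit 5) (nat_lit 452) (nat_lit 444) (nat_lit 304)) (XT.lf (nat_lit 76) (nat_lit 15541751924) (nat_lit 0) (nat_lit 17498193390)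 (nat_lit 836) (nat_lit 10595600791) (nat_lit 168) (nat_lit 5) (nat_lit 167) (nat_lit 5) (nat_lit 178) (nat_lit 5) (nat_lit 453) (nat_lit 444) (nat_lit 303))) (XT.nd (nat_lit 78) (nat_lit 760) (nat_lit 0) (XT.lf (nat_lit 0) (nat_lit 37246567439) (nat_lit 760) (nat_lit 4858866571) (nat_lit 76) (nat_lit 2696626545) (nat_lit 168) (nat_lit 5) (nat_lit 178) (nat_lit 5) (nat_lit 169) (nat_lit 5) (nat_lit 454) (nat_lit 444) (nat_lit 302)) (XT.lf (nat_lit 0) (nat_lit 19885389594) (nat_lit 760) (nat_lit 22373185559) (nat_lit 836) (nat_lit 3738573020) (nat_lit 158) (nat_lit 5) (nat_lit 168) (nat_lit 5) (nat_lit 169) (nat_lit 5) (nat_lit 455) (nat_lit 444) (nat_lit 301)))) (XT.nd (nat_lit 156) (nat_lit 380) (nat_lit 0) (XT.nd (nat_lit 78) (nat_lit 456) (nat_lit 0) (XT.lf (nat_lit 0) (nat_lit 341986549) (nat_lit 836) (nat_lit 1219940270) (nat_lit 76) (nat_lit 45685782898) (nat_lit 157) (nat_lit 5) (nat_lit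 168) (nat_lit 5) (nat_lit 158) (nat_lit 5) (nat_lit 456) (nat_lit 444) (nat_lit 300)) (XT.lf (nat_lit 0) (nat_lit 5224031815) (nat_lit 532) (nat_lit 23187180423) (nat_lit 76) (nat_lit 20110367928) (nat_lit 151) (nat_lit 5) (nat_lit 158) (nat_lit 5) (nat_lit 152) (nat_lit 5) (nat_lit 457) (nat_lit 444) (nat_lit 299))) (XT.nd (nat_lit 78) (nat_lit 0) (nat_lit 0) (XT.lf (nat_lit 0) (nat_lit 3484237681) (nat_lit 380) (nat_lit 6964896575) (nat_lit 456) (nat_lit 39405062276) (nat_lit 146) (nat_lit 5) (nat_lit 151) (nat_lit 5) (nat_lit 152) (nat_lit 5) (nat_lit 458) (nat_lit 444) (nat_lit 298)) (XT.lf (nat_lit 0) (nat_lit 16575470634) (nat_lit 456) (nat_lit 19190951971) (nat_lit 76) (nat_lit 15455022304) (nat_lit 146) (nat_lit 5) (nat_lit 152) (nat_lit 5) (nat_lit 147) (nat_lit 5) (nat_lit 459) (nat_lit 444) (nat_lit 297))))) (XT.nd (nat_lit 312) (nat_lit 988) (nat_lit 0) (XT.nd (nat_lit 156) (nat_lit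 304) (nat_lit 0) (XT.nd (nat_lit 78) (nat_lit 0) (nat_lit 0) (XT.lf (nat_lit 0) (nat_lit 9536038522) (nat_lit 380) (nat_lit 13733260442) (nat_lit 456) (nat_lit 29374698110) (nat_lit 141) (nat_lit 5) (nat_lit 146) (nat_lit 5) (nat_lit 147) (nat_lit 5) (nat_lit 460) (nat_lit 444) (nat_lit 296)) (XT.lf (nat_lit 0) (nat_lit 30773108655) (nat_lit 456) (nat_lit 13909952065) (nat_lit 76) (nat_lit 9430851752) (nat_lit 141) (nat_lit 5) (nat_lit 147) (nat_lit 5) (nat_lit 142) (nat_lit 5) (nat_lit 461) (nat_lit 444) (nat_lit 295))) (XT.nd (nat_lit 78) (nat_lit 0) (nat_lit 0) (XT.lf (nat_lit 0) (nat_lit 17067113570) (nat_lit 304) (nat_lit 22074852520) (nat_lit 380) (nat_lit 16490864801) (nat_lit 137) (nat_lit 5) (nat_lit 141) (nat_lit 5) (nat_lit 142) (nat_lit 5) (nat_lit 462) (nat_lit 444) (nat_lit 294)) (XT.lf (nat_lit 0) (nat_lit 48192981632) (nat_lit 380) (nat_lit 7171809216) (nat_lit 76) (nat_lit 1849718731)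 (nat_lit 137) (nat_lit 5) (nat_lit 142) (nat_lit 5) (nat_lit 138) (nat_lit 5) (nat_lit 463) (nat_lit 444) (nat_lit 293)))) (XT.nd (nat_lit 156) (nat_lit 304) (nat_lit 0) (XT.nd (nat_lit 78) (nat_lit 380) (nat_lit 0) (XT.lf (nat_lit 0) (nat_lit 26268762289) (nat_lit 304) (nat_lit 32198183756) (nat_lit 380) (nat_lit 369806356) (nat_lit 133) (nat_lit 5) (nat_lit 137) (nat_lit 5) (nat_lit 138) (nat_lit 5) (nat_lit 464) (nat_lit 444) (nat_lit 292)) (XT.lf (nat_lit 0) (nat_lit 987953207) (nat_lit 304) (nat_lit 7584911480) (nat_lit 380) (nat_lit 51953575792) (nat_lit 128) (nat_lit 5) (nat_lit 132) (nat_lit 5) (nat_lit 133) (nat_lit 5) (nat_lit 465) (nat_lit 444) (nat_lit 291))) (XT.nd (nat_lit 78) (nat_lit 304) (nat_lit 0) (XT.lf (nat_lit 0) (nat_lit 18794360890) (nat_lit 380) (nat_lit 25222809346) (nat_lit 76) (nat_lit 18240933717) (nat_lit 128) (nat_lit 5) (nat_lit 133) (nat_lit 5) (nat_lit 129) (nat_lit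 5) (nat_lit 466) (nat_lit 444) (nat_lit 290)) (XT.lf (nat_lit 0) (nat_lit 11035636997) (nat_lit 304) (nat_lit 18786457253) (nat_lit 380) (nat_lit 34239498318) (nat_lit 124) (nat_lit 5) (nat_lit 128) (nat_lit 5) (nat_lit 129) (nat_lit 5) (nat_lit 467) (nat_lit 444) (nat_lit 289)))))) (XT.nd (nat_lit 624) (nat_lit 1292) (nat_lit 0) (XT.nd (nat_lit 312) (nat_lit 456) (nat_lit 0) (XT.nd (nat_lit 156) (nat_lit 380) (nat_lit 0) (XT.nd (nat_lit 78) (nat_lit 228) (nat_lit 0) (XT.lf (nat_lit 0) (nat_lit 41954243679) (nat_lit 380) (nat_lit 16080441601) (nat_lit 76) (nat_lit 7892918947) (nat_lit 124) (nat_lit 5) (nat_lit 129) (nat_lit 5) (nat_lit 125) (nat_lit 5) (nat_lit 468) (nat_lit 444) (nat_lit 288)) (XT.lf (nat_lit 0) (nat_lit 23143277019) (nat_lit 228) (nat_lit 32217655670) (nat_lit 304) (nat_lit 12492587253) (nat_lit 121) (nat_lit 5) (nat_lit 124) (nat_lit 5) (nat_lit 125) (nat_lit 5) (nat_lit 469)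 (nat_lit 444) (nat_lit 287))) (XT.nd (nat_lit 78) (nat_lit 380) (nat_lit 0) (XT.lf (nat_lit 0) (nat_lit 64884661903) (nat_lit 228) (nat_lit 4824287679) (nat_lit 304) (nat_lit 153232264) (nat_lit 121) (nat_lit 5) (nat_lit 124) (nat_lit 5) (nat_lit 125) (nat_lit 5) (nat_lit 470) (nat_lit 444) (nat_lit 286)) (XT.lf (nat_lit 0) (nat_lit 13368057971) (nat_lit 380) (nat_lit 34570184128) (nat_lit 76) (nat_lit 23974302887) (nat_lit 116) (nat_lit 5) (nat_lit 121) (nat_lit 5) (nat_lit 117) (nat_lit 5) (nat_lit 471) (nat_lit 444) (nat_lit 285)))) (XT.nd (nat_lit 156) (nat_lit 228) (nat_lit 0) (XT.nd (nat_lit 78) (nat_lit 0) (nat_lit 0) (XT.lf (nat_lit 0) (nat_lit 8063141726) (nat_lit 228) (nat_lit 19786508413) (nat_lit 304) (nat_lit 46201181258) (nat_lit 113) (nat_lit 5) (nat_lit 116) (nat_lit 5) (nat_lit 117) (nat_lit 5) (nat_lit 472) (nat_lit 444) (nat_lit 284)) (XT.lf (nat_lit 0) (nat_lit 43801721784)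 (nat_lit 304) (nat_lit 22402411097) (nat_lit 76) (nat_lit 10054579316) (nat_lit 113) (nat_lit 5) (nat_lit 117) (nat_lit 5) (nat_lit 114) (nat_lit 5) (nat_lit 473) (nat_lit 444) (nat_lit 283))) (XT.nd (nat_lit 78) (nat_lit 0) (nat_lit 0) (XT.lf (nat_lit 0) (nat_lit 23797718031) (nat_lit 228) (nat_lit 37448414505) (nat_lit 304) (nat_lit 17296117781) (nat_lit 110) (nat_lit 5) (nat_lit 113) (nat_lit 5) (nat_lit 114) (nat_lit 5) (nat_lit 474) (nat_lit 444) (nat_lit 282)) (XT.lf (nat_lit 0) (nat_lit 73083922506) (nat_lit 228) (nat_lit 6857084347) (nat_lit 304) (nat_lit 980046395) (nat_lit 110) (nat_lit 5) (nat_lit 113) (nat_lit 5) (nat_lit 114) (nat_lit 5) (nat_lit 475) (nat_lit 444) (nat_lit 281))))) (XT.nd (nat_lit 312) (nat_lit 684) (nat_lit 0) (XT.nd (nat_lit 156) (nat_lit 152) (nat_lit 0) (XT.nd (nat_lit 78) (nat_lit 228) (nat_lit 0) (XT.lf (nat_lit 0) (nat_lit 16707101870) (nat_lit 228) (nat_lit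 41259684085) (nat_lit 76) (nat_lit 25385790020) (nat_lit 107) (nat_lit 5) (nat_lit 110) (nat_lit 5) (nat_lit 108) (nat_lit 5) (nat_lit 476) (nat_lit 444) (nat_lit 280)) (XT.lf (nat_lit 0) (nat_lit 9049792969) (nat_lit 228) (nat_lit 26583387543) (nat_lit 304) (nat_lit 50252315611) (nat_lit 104) (nat_lit 5) (nat_lit 107) (nat_lit 5) (nat_lit 108) (nat_lit 5) (nat_lit 477) (nat_lit 444) (nat_lit 279))) (XT.nd (nat_lit 78) (nat_lit 152) (nat_lit 0) (XT.lf (nat_lit 0) (nat_lit 56314132853) (nat_lit 304) (nat_lit 25315519250) (nat_lit 76) (nat_lit 6874981732) (nat_lit 104) (nat_lit 5) (nat_lit 108) (nat_lit 5) (nat_lit 105) (nat_lit 5) (nat_lit 478) (nat_lit 444) (nat_lit 278)) (XT.lf (nat_lit 0) (nat_lit 29280431738) (nat_lit 152) (nat_lit 49640616602) (nat_lit 228) (nat_lit 12289084360) (nat_lit 102) (nat_lit 5) (nat_lit 104) (nat_lit 5) (nat_lit 105) (nat_lit 5) (nat_lit 479) (nat_lit 444) (nat_lit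 277)))) (XT.nd (nat_lit 156) (nat_lit 380) (nat_lit 0) (XT.nd (nat_lit 78) (nat_lit 228) (nat_lit 0) (XT.lf (nat_lit 0) (nat_lit 8766651844) (nat_lit 228) (nat_lit 6687419495) (nat_lit 76) (nat_lit 78568378953) (nat_lit 101) (nat_lit 5) (nat_lit 104) (nat_lit 5) (nat_lit 102) (nat_lit 5) (nat_lit 480) (nat_lit 444) (nat_lit 276)) (XT.lf (nat_lit 0) (nat_lit 31621591743) (nat_lit 304) (nat_lit 44456062992) (nat_lit 76) (nat_lit 20829685511) (nat_lit 98) (nat_lit 5) (nat_lit 102) (nat_lit 5) (nat_lit 99) (nat_lit 5) (nat_lit 481) (nat_lit 444) (nat_lit 275))) (XT.nd (nat_lit 78) (nat_lit 228) (nat_lit 0) (XT.lf (nat_lit 0) (nat_lit 15073977901) (nat_lit 152) (nat_lit 41148147379) (nat_lit 228) (nat_lit 43684207122) (nat_lit 96) (nat_lit 5) (nat_lit 98) (nat_lit 5) (nat_lit 99) (nat_lit 5) (nat_lit 482) (nat_lit 444) (nat_lit 274)) (XT.nd (nat_lit 78) (nat_lit 228) (nat_lit 0) (XT.lf (nat_lit 0) (nat_lit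 79122409524) (nat_lit 152) (nat_lit 3682225523) (nat_lit 228) (nat_lit 20213041675) (nat_lit 96) (nat_lit 5) (nat_lit 98) (nat_lit 5) (nat_lit 99) (nat_lit 5) (nat_lit 483) (nat_lit 444) (nat_lit 273)) (XT.lf (nat_lit 0) (nat_lit 5502798707) (nat_lit 228) (nat_lit 65476136900) (nat_lit 76) (nat_lit 35241545225) (nat_lit 93) (nat_lit 5) (nat_lit 96) (nat_lit 5) (nat_lit 94) (nat_lit 5) (nat_lit 484) (nat_lit 444) (nat_lit 272))))))))
noncomputable def xc365 : XT := (XT.nd (nat_lit 1248) (nat_lit 1216) (nat_lit 0) (XT.nd (nat_lit 624) (nat_lit 760) (nat_lit 0) (XT.nd (nat_lit 312) (nat_lit 456) (nat_lit 0) (XT.nd (nat_lit 156) (nat_lit 228) (nat_lit 0) (XT.nd (nat_lit 78) (nat_lit 152) (nat_lit 0) (XT.lf (nat_lit 0) (nat_lit 32295922600) (nat_lit 228) (nat_lit 517519847) (nat_lit 76) (nat_lit 76729875550) (nat_lit 93) (nat_lit 5) (nat_lit 96) (nat_lit 5) (nat_lit 94) (nat_lit 5) (nat_lit 485) (nat_lit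 444) (nat_lit 271)) (XT.lf (nat_lit 0) (nat_lit 61650829142) (nat_lit 228) (nat_lit 43183332321) (nat_lit 76) (nat_lit 8137029264) (nat_lit 91) (nat_lit 5) (nat_lit 94) (nat_lit 5) (nat_lit 92) (nat_lit 5) (nat_lit 486) (nat_lit 444) (nat_lit 270))) (XT.nd (nat_lit 78) (nat_lit 76) (nat_lit 0) (XT.lf (nat_lit 0) (nat_lit 27393722153) (nat_lit 152) (nat_lit 66053443360) (nat_lit 228) (nat_lit 23074607381) (nat_lit 89) (nat_lit 5) (nat_lit 91) (nat_lit 5) (nat_lit 92) (nat_lit 5) (nat_lit 487) (nat_lit 444) (nat_lit 269)) (XT.lf (nat_lit 0) (nat_lit 7115206025) (nat_lit 228) (nat_lit 17330672872) (nat_lit 76) (nat_lit 95761741878) (nat_lit 88) (nat_lit 5) (nat_lit 91) (nat_lit 5) (nat_lit 89) (nat_lit 5) (nat_lit 488) (nat_lit 444) (nat_lit 268)))) (XT.nd (nat_lit 156) (nat_lit 152) (nat_lit 0) (XT.nd (nat_lit 78) (nat_lit 152) (nat_lit 0) (XT.lf (nat_lit 0) (nat_lit 39290392992) (nat_lit 228) (nat_lit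 64750246373) (nat_lit 76) (nat_lit 19955641045) (nat_lit 86) (nat_lit 5) (nat_lit 89) (nat_lit 5) (nat_lit 87) (nat_lit 5) (nat_lit 489) (nat_lit 444) (nat_lit 267)) (XT.lf (nat_lit 0) (nat_lit 12279644796) (nat_lit 152) (nat_lit 61684691966) (nat_lit 228) (nat_lit 53965536414) (nat_lit 84) (nat_lit 5) (nat_lit 86) (nat_lit 5) (nat_lit 87) (nat_lit 5) (nat_lit 490) (nat_lit 444) (nat_lit 266))) (XT.nd (nat_lit 78) (nat_lit 152) (nat_lit 0) (XT.lf (nat_lit 0) (nat_lit 95407657938) (nat_lit 152) (nat_lit 16060123773) (nat_lit 228) (nat_lit 20537573690) (nat_lit 84) (nat_lit 5) (nat_lit 86) (nat_lit 5) (nat_lit 87) (nat_lit 5) (nat_lit 491) (nat_lit 444) (nat_lit 265)) (XT.lf (nat_lit 0) (nat_lit 15352918809) (nat_lit 152) (nat_lit 89043495210) (nat_lit 76) (nat_lit 31813970235) (nat_lit 82) (nat_lit 5) (nat_lit 84) (nat_lit 5) (nat_lit 83) (nat_lit 5) (nat_lit 492) (nat_lit 444) (nat_lit 264)))))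 (XT.nd (nat_lit 312) (nat_lit 456) (nat_lit 0) (XT.nd (nat_lit 156) (nat_lit 152) (nat_lit 0) (XT.nd (nat_lit 78) (nat_lit 152) (nat_lit 0) (XT.lf (nat_lit 0) (nat_lit 53240238476) (nat_lit 152) (nat_lit 4815825009) (nat_lit 76) (nat_lit 82508142019) (nat_lit 82) (nat_lit 5) (nat_lit 84) (nat_lit 5) (nat_lit 83) (nat_lit 5) (nat_lit 493) (nat_lit 444) (nat_lit 263)) (XT.lf (nat_lit 0) (nat_lit 86386889778) (nat_lit 152) (nat_lit 7983069709) (nat_lit 228) (nat_lit 50698356581) (nat_lit 80) (nat_lit 5) (nat_lit 82) (nat_lit 5) (nat_lit 83) (nat_lit 5) (nat_lit 494) (nat_lit 444) (nat_lit 262))) (XT.nd (nat_lit 78) (nat_lit 76) (nat_lit 0) (XT.lf (nat_lit 0) (nat_lit 32876811584) (nat_lit 76) (nat_lit 105971079798) (nat_lit 152) (nat_lit 10885154551) (nat_lit 79) (nat_lit 5) (nat_lit 80) (nat_lit 5) (nat_lit 81) (nat_lit 4) (nat_lit 495) (nat_lit 444) (nat_lit 261)) (XT.lf (nat_lit 0) (nat_lit 31069378281)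 (nat_lit 152) (nat_lit 24162231197) (nat_lit 76) (nat_lit 99318253324) (nat_lit 78) (nat_lit 5) (nat_lit 80) (nat_lit 5) (nat_lit 79) (nat_lit 5) (nat_lit 496) (nat_lit 444) (nat_lit 260)))) (XT.nd (nat_lit 156) (nat_lit 228) (nat_lit 0) (XT.nd (nat_lit 78) (nat_lit 76) (nat_lit 0) (XT.lf (nat_lit 0) (nat_lit 75400093849) (nat_lit 152) (nat_lit 532273647) (nat_lit 228) (nat_lit 83607403658) (nat_lit 76) (nat_lit 5) (nat_lit 78) (nat_lit 5) (nat_lit 79) (nat_lit 5) (nat_lit 497) (nat_lit 444) (nat_lit 259)) (XT.lf (nat_lit 0) (nat_lit 15624437813) (nat_lit 76) (nat_lit 108961657286) (nat_lit 152) (nat_lit 40115700391) (nat_lit 75) (nat_lit 5) (nat_lit 76) (nat_lit 5) (nat_lit 77) (nat_lit 4) (nat_lit 498) (nat_lit 444) (nat_lit 258))) (XT.nd (nat_lit 78) (nat_lit 152) (nat_lit 0) (XT.lf (nat_lit 0) (nat_lit 6829308728) (nat_lit 152) (nat_lit 46872735196) (nat_lit 76) (nat_lit 116342725413) (nat_lit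 74) (nat_lit 5) (nat_lit 76) (nat_lit 5) (nat_lit 75) (nat_lit 5) (nat_lit 499) (nat_lit 444) (nat_lit 257)) (XT.lf (nat_lit 0) (nat_lit 55831074550) (nat_lit 228) (nat_lit 113907830317) (nat_lit 76) (nat_lit 5830222456) (nat_lit 72) (nat_lit 5) (nat_lit 75) (nat_lit 5) (nat_lit 73) (nat_lit 4) (nat_lit 500) (nat_lit 444) (nat_lit 256)))))) (XT.nd (nat_lit 624) (nat_lit 608) (nat_lit 0) (XT.nd (nat_lit 312) (nat_lit 304) (nat_lit 0) (XT.nd (nat_lit 156) (nat_lit 228) (nat_lit 0) (XT.nd (nat_lit 78) (nat_lit 76) (nat_lit 0) (XT.lf (nat_lit 0) (nat_lit 108969493464) (nat_lit 228) (nat_lit 4975200977) (nat_lit 76) (nat_lit 67340680539) (nat_lit 72) (nat_lit 5) (nat_lit 75) (nat_lit 5) (nat_lit 73) (nat_lit 4) (nat_lit 501) (nat_lit 444) (nat_lit 255)) (XT.lf (nat_lit 0) (nat_lit 113020310801) (nat_lit 76) (nat_lit 53508493603) (nat_lit 152) (nat_lit 20670432072) (nat_lit 71) (nat_lit 5) (nat_lit 72)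 (nat_lit 5) (nat_lit 73) (nat_lit 4) (nat_lit 502) (nat_lit 444) (nat_lit 254))) (XT.nd (nat_lit 78) (nat_lit 0) (nat_lit 0) (XT.lf (nat_lit 0) (nat_lit 33441116648) (nat_lit 228) (nat_lit 148935961020) (nat_lit 76) (nat_lit 10957623738) (nat_lit 68) (nat_lit 5) (nat_lit 71) (nat_lit 5) (nat_lit 69) (nat_lit 4) (nat_lit 503) (nat_lit 444) (nat_lit 253)) (XT.lf (nat_lit 0) (nat_lit 91717031727) (nat_lit 228) (nat_lit 29471264296) (nat_lit 76) (nat_lit 78464028044) (nat_lit 68) (nat_lit 5) (nat_lit 71) (nat_lit 5) (nat_lit 69) (nat_lit 4) (nat_lit 504) (nat_lit 444) (nat_lit 252)))) (XT.nd (nat_lit 156) (nat_lit 76) (nat_lit 0) (XT.nd (nat_lit 78) (nat_lit 152) (nat_lit 0) (XT.lf (nat_lit 0) (nat_lit 99138666838) (nat_lit 76) (nat_lit 55315348340) (nat_lit 152) (nat_lit 51754449060) (nat_lit 67) (nat_lit 5) (nat_lit 68) (nat_lit 5) (nat_lit 69) (nat_lit 4) (nat_lit 505) (nat_lit 444) (nat_lit 251))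 (XT.lf (nat_lit 0) (nat_lit 8097870656) (nat_lit 152) (nat_lit 190535467135) (nat_lit 76) (nat_lit 14398724693) (nat_lit 65) (nat_lit 5) (nat_lit 67) (nat_lit 5) (nat_lit 66) (nat_lit 4) (nat_lit 506) (nat_lit 444) (nat_lit 250))) (XT.nd (nat_lit 78) (nat_lit 76) (nat_lit 0) (XT.lf (nat_lit 0) (nat_lit 71952775430) (nat_lit 152) (nat_lit 59633676791) (nat_lit 76) (nat_lit 88430503849) (nat_lit 65) (nat_lit 5) (nat_lit 67) (nat_lit 5) (nat_lit 66) (nat_lit 4) (nat_lit 507) (nat_lit 444) (nat_lit 249)) (XT.lf (nat_lit 0) (nat_lit 80385015127) (nat_lit 76) (nat_lit 59869916382) (nat_lit 152) (nat_lit 87033437533) (nat_lit 64) (nat_lit 5) (nat_lit 65) (nat_lit 5) (nat_lit 66) (nat_lit 4) (nat_lit 508) (nat_lit 444) (nat_lit 248))))) (XT.nd (nat_lit 312) (nat_lit 380) (nat_lit 0) (XT.nd (nat_lit 156) (nat_lit 76) (nat_lit 0) (XT.nd (nat_lit 78) (nat_lit 152) (nat_lit 0) (XT.lf (nat_lit 0) (nat_lit 213239093424)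 (nat_lit 152) (nat_lit 5656380768) (nat_lit 0) (nat_lit 15964533575) (nat_lit 64) (nat_lit 5) (nat_lit 66) (nat_lit 4) (nat_lit 64) (nat_lit 4) (nat_lit 509) (nat_lit 444) (nat_lit 247)) (XT.lf (nat_lit 0) (nat_lit 48875470444) (nat_lit 152) (nat_lit 97080474349) (nat_lit 76) (nat_lit 96651568929) (nat_lit 62) (nat_lit 5) (nat_lit 64) (nat_lit 5) (nat_lit 63) (nat_lit 4) (nat_lit 510) (nat_lit 444) (nat_lit 246))) (XT.nd (nat_lit 78) (nat_lit 0) (nat_lit 0) (XT.lf (nat_lit 0) (nat_lit 55136125217) (nat_lit 76) (nat_lit 67991637192) (nat_lit 152) (nat_lit 127549025889) (nat_lit 61) (nat_lit 5) (nat_lit 62) (nat_lit 5) (nat_lit 63) (nat_lit 4) (nat_lit 511) (nat_lit 444) (nat_lit 245)) (XT.lf (nat_lit 0) (nat_lit 202979790662) (nat_lit 152) (nat_lit 40977835069) (nat_lit 0) (nat_lit 15097544792) (nat_lit 61) (nat_lit 5) (nat_lit 63) (nat_lit 4) (nat_lit 61) (nat_lit 4) (nat_lit 512) (nat_lit 444)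 (nat_lit 244)))) (XT.nd (nat_lit 156) (nat_lit 152) (nat_lit 0) (XT.nd (nat_lit 78) (nat_lit 76) (nat_lit 0) (XT.lf (nat_lit 0) (nat_lit 21467586350) (nat_lit 152) (nat_lit 143874211256) (nat_lit 76) (nat_lit 102340721059) (nat_lit 59) (nat_lit 5) (nat_lit 61) (nat_lit 5) (nat_lit 60) (nat_lit 4) (nat_lit 513) (nat_lit 444) (nat_lit 243)) (XT.lf (nat_lit 0) (nat_lit 21300046804) (nat_lit 76) (nat_lit 80740588730) (nat_lit 152) (nat_lit 174602763501) (nat_lit 58) (nat_lit 5) (nat_lit 59) (nat_lit 5) (nat_lit 60) (nat_lit 4) (nat_lit 514) (nat_lit 444) (nat_lit 242))) (XT.nd (nat_lit 78) (nat_lit 152) (nat_lit 0) (XT.lf (nat_lit 0) (nat_lit 189244705757) (nat_lit 152) (nat_lit 86369674770) (nat_lit 0) (nat_lit 10307824475) (nat_lit 58) (nat_lit 5) (nat_lit 60) (nat_lit 4) (nat_lit 58) (nat_lit 4) (nat_lit 515) (nat_lit 444) (nat_lit 241)) (XT.nd (nat_lit 78) (nat_lit 76) (nat_lit 0) (XT.lf (nat_lit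 0) (nat_lit 92695009850) (nat_lit 76) (nat_lit 190884364320) (nat_lit 76) (nat_lit 11947057366) (nat_lit 57) (nat_lit 4) (nat_lit 58) (nat_lit 5) (nat_lit 58) (nat_lit 4) (nat_lit 516) (nat_lit 444) (nat_lit 240)) (XT.lf (nat_lit 0) (nat_lit 76041029988) (nat_lit 152) (nat_lit 23053600879) (nat_lit 76) (nat_lit 206381801635) (nat_lit 56) (nat_lit 5) (nat_lit 58) (nat_lit 5) (nat_lit 57) (nat_lit 4) (nat_lit 517) (nat_lit 444) (nat_lit 239))))))))
noncomputable def xc366 : XT := (XT.nd (nat_lit 1248) (nat_lit 1064) (nat_lit 0) (XT.nd (nat_lit 624) (nat_lit 532) (nat_lit 0) (XT.nd (nat_lit 312) (nat_lit 228) (nat_lit 0) (XT.nd (nat_lit 156) (nat_lit 152) (nat_lit 0) (XT.nd (nat_lit 78) (nat_lit 76) (nat_lit 0) (XT.lf (nat_lit 0) (nat_lit 170700786980) (nat_lit 152) (nat_lit 144796115272) (nat_lit 0) (nat_lit 283550360) (nat_lit 55) (nat_lit 5) (nat_lit 57) (nat_lit 4) (nat_lit 55) (nat_lit 4) (nat_lit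 518) (nat_lit 444) (nat_lit 238)) (XT.lf (nat_lit 0) (nat_lit 48877016452) (nat_lit 76) (nat_lit 224000521888) (nat_lit 76) (nat_lit 53582935066) (nat_lit 54) (nat_lit 4) (nat_lit 55) (nat_lit 5) (nat_lit 55) (nat_lit 4) (nat_lit 519) (nat_lit 444) (nat_lit 237))) (XT.nd (nat_lit 78) (nat_lit 76) (nat_lit 0) (XT.lf (nat_lit 0) (nat_lit 43620696051) (nat_lit 152) (nat_lit 80995493441) (nat_lit 76) (nat_lit 212900539141) (nat_lit 53) (nat_lit 5) (nat_lit 55) (nat_lit 5) (nat_lit 54) (nat_lit 4) (nat_lit 520) (nat_lit 444) (nat_lit 236)) (XT.lf (nat_lit 0) (nat_lit 128660602006) (nat_lit 76) (nat_lit 17231515064) (nat_lit 152) (nat_lit 203089341798) (nat_lit 52) (nat_lit 5) (nat_lit 53) (nat_lit 5) (nat_lit 54) (nat_lit 4) (nat_lit 521) (nat_lit 444) (nat_lit 235)))) (XT.nd (nat_lit 156) (nat_lit 76) (nat_lit 0) (XT.nd (nat_lit 78) (nat_lit 152) (nat_lit 0) (XT.lf (nat_lit 0) (nat_lit 256162260874)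 (nat_lit 152) (nat_lit 10854018195) (nat_lit 0) (nat_lit 93858888963) (nat_lit 52) (nat_lit 5) (nat_lit 54) (nat_lit 4) (nat_lit 52) (nat_lit 4) (nat_lit 522) (nat_lit 444) (nat_lit 234)) (XT.lf (nat_lit 0) (nat_lit 2337443960) (nat_lit 152) (nat_lit 157511886182) (nat_lit 76) (nat_lit 213329853136) (nat_lit 50) (nat_lit 5) (nat_lit 52) (nat_lit 5) (nat_lit 51) (nat_lit 4) (nat_lit 523) (nat_lit 444) (nat_lit 233))) (XT.nd (nat_lit 78) (nat_lit 0) (nat_lit 0) (XT.lf (nat_lit 0) (nat_lit 68266881344) (nat_lit 76) (nat_lit 44206674251) (nat_lit 152) (nat_lit 273476399278) (nat_lit 49) (nat_lit 5) (nat_lit 50) (nat_lit 5) (nat_lit 51) (nat_lit 4) (nat_lit 524) (nat_lit 444) (nat_lit 232)) (XT.lf (nat_lit 0) (nat_lit 232032949457) (nat_lit 152) (nat_lit 89672929456) (nat_lit 0) (nat_lit 77457562306) (nat_lit 49) (nat_lit 5) (nat_lit 51) (nat_lit 4) (nat_lit 49) (nat_lit 4) (nat_lit 525) (nat_lit 444)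 (nat_lit 231))))) (XT.nd (nat_lit 312) (nat_lit 228) (nat_lit 0) (XT.nd (nat_lit 156) (nat_lit 152) (nat_lit 0) (XT.nd (nat_lit 78) (nat_lit 76) (nat_lit 0) (XT.lf (nat_lit 0) (nat_lit 153939313711) (nat_lit 76) (nat_lit 206758756601) (nat_lit 76) (nat_lit 52183143707) (nat_lit 48) (nat_lit 4) (nat_lit 49) (nat_lit 5) (nat_lit 49) (nat_lit 4) (nat_lit 526) (nat_lit 444) (nat_lit 230)) (XT.lf (nat_lit 0) (nat_lit 67861957996) (nat_lit 152) (nat_lit 15458813993) (nat_lit 76) (nat_lit 343833461369) (nat_lit 47) (nat_lit 5) (nat_lit 49) (nat_lit 5) (nat_lit 48) (nat_lit 4) (nat_lit 527) (nat_lit 444) (nat_lit 229))) (XT.nd (nat_lit 78) (nat_lit 76) (nat_lit 0) (XT.lf (nat_lit 0) (nat_lit 196815635511) (nat_lit 152) (nat_lit 195449127933) (nat_lit 0) (nat_lit 49600366328) (nat_lit 46) (nat_lit 5) (nat_lit 48) (nat_lit 4) (nat_lit 46) (nat_lit 4) (nat_lit 528) (nat_lit 444) (nat_lit 228)) (XT.lf (nat_lit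 0) (nat_lit 65343264845) (nat_lit 76) (nat_lit 269525584228) (nat_lit 76) (nat_lit 122310129326) (nat_lit 45) (nat_lit 4) (nat_lit 46) (nat_lit 5) (nat_lit 46) (nat_lit 4) (nat_lit 529) (nat_lit 444) (nat_lit 227)))) (XT.nd (nat_lit 156) (nat_lit 76) (nat_lit 0) (XT.nd (nat_lit 78) (nat_lit 76) (nat_lit 0) (XT.lf (nat_lit 0) (nat_lit 9719984938) (nat_lit 152) (nat_lit 127289662654) (nat_lit 76) (nat_lit 336075548995) (nat_lit 44) (nat_lit 5) (nat_lit 46) (nat_lit 5) (nat_lit 45) (nat_lit 4) (nat_lit 530) (nat_lit 444) (nat_lit 226)) (XT.lf (nat_lit 0) (nat_lit 146741069020) (nat_lit 152) (nat_lit 336284863144) (nat_lit 0) (nat_lit 6535544992) (nat_lit 43) (nat_lit 5) (nat_lit 45) (nat_lit 4) (nat_lit 43) (nat_lit 4) (nat_lit 531) (nat_lit 444) (nat_lit 225))) (XT.nd (nat_lit 78) (nat_lit 76) (nat_lit 0) (XT.lf (nat_lit 0) (nat_lit 295049988100) (nat_lit 152) (nat_lit 56745433336) (nat_lit 0) (nat_lit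 154844311280) (nat_lit 43) (nat_lit 5) (nat_lit 45) (nat_lit 4) (nat_lit 43) (nat_lit 4) (nat_lit 532) (nat_lit 444) (nat_lit 224)) (XT.lf (nat_lit 0) (nat_lit 244599034111) (nat_lit 76) (nat_lit 209993880601) (nat_lit 76) (nat_lit 69788058265) (nat_lit 42) (nat_lit 4) (nat_lit 43) (nat_lit 5) (nat_lit 43) (nat_lit 4) (nat_lit 533) (nat_lit 444) (nat_lit 223)))))) (XT.nd (nat_lit 624) (nat_lit 532) (nat_lit 0) (XT.nd (nat_lit 312) (nat_lit 304) (nat_lit 0) (XT.nd (nat_lit 156) (nat_lit 76) (nat_lit 0) (XT.nd (nat_lit 78) (nat_lit 0) (nat_lit 0) (XT.lf (nat_lit 0) (nat_lit 19388717969) (nat_lit 76) (nat_lit 58462344904) (nat_lit 152) (nat_lit 465032502683) (nat_lit 40) (nat_lit 5) (nat_lit 41) (nat_lit 5) (nat_lit 42) (nat_lit 4) (nat_lit 534) (nat_lit 444) (nat_lit 222)) (XT.lf (nat_lit 0) (nat_lit 236913770629) (nat_lit 152) (nat_lit 221636807128) (nat_lit 0) (nat_lit 103384158335) (nat_lit 40)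 (nat_lit 5) (nat_lit 42) (nat_lit 4) (nat_lit 40) (nat_lit 4) (nat_lit 535) (nat_lit 444) (nat_lit 221))) (XT.nd (nat_lit 78) (nat_lit 0) (nat_lit 0) (XT.lf (nat_lit 0) (nat_lit 97474942038) (nat_lit 76) (nat_lit 308934628641) (nat_lit 76) (nat_lit 175404896631) (nat_lit 39) (nat_lit 4) (nat_lit 40) (nat_lit 5) (nat_lit 40) (nat_lit 4) (nat_lit 536) (nat_lit 444) (nat_lit 220)) (XT.lf (nat_lit 0) (nat_lit 440236416728) (nat_lit 76) (nat_lit 147896976385) (nat_lit 76) (nat_lit 14367130359) (nat_lit 39) (nat_lit 4) (nat_lit 40) (nat_lit 5) (nat_lit 40) (nat_lit 4) (nat_lit 537) (nat_lit 444) (nat_lit 219)))) (XT.nd (nat_lit 156) (nat_lit 152) (nat_lit 0) (XT.nd (nat_lit 78) (nat_lit 0) (nat_lit 0) (XT.lf (nat_lit 0) (nat_lit 152984867573) (nat_lit 152) (nat_lit 445141028512) (nat_lit 0) (nat_lit 25813482228) (nat_lit 37) (nat_lit 5) (nat_lit 39) (nat_lit 4) (nat_lit 37) (nat_lit 4) (nat_lit 538)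 (nat_lit 444) (nat_lit 218)) (XT.lf (nat_lit 0) (nat_lit 333438962460) (nat_lit 152) (nat_lit 106471092135) (nat_lit 0) (nat_lit 206267478624) (nat_lit 37) (nat_lit 5) (nat_lit 39) (nat_lit 4) (nat_lit 37) (nat_lit 4) (nat_lit 539) (nat_lit 444) (nat_lit 217))) (XT.nd (nat_lit 78) (nat_lit 76) (nat_lit 0) (XT.lf (nat_lit 0) (nat_lit 257369217606) (nat_lit 76) (nat_lit 269564528353) (nat_lit 76) (nat_lit 142392950717) (nat_lit 36) (nat_lit 4) (nat_lit 37) (nat_lit 5) (nat_lit 37) (nat_lit 4) (nat_lit 540) (nat_lit 444) (nat_lit 216)) (XT.lf (nat_lit 0) (nat_lit 37135112539) (nat_lit 152) (nat_lit 51044686264) (nat_lit 76) (nat_lit 605333428180) (nat_lit 35) (nat_lit 5) (nat_lit 37) (nat_lit 5) (nat_lit 36) (nat_lit 4) (nat_lit 541) (nat_lit 444) (nat_lit 215))))) (XT.nd (nat_lit 312) (nat_lit 228) (nat_lit 0) (XT.nd (nat_lit 156) (nat_lit 228) (nat_lit 0) (XT.nd (nat_lit 78) (nat_lit 0) (nat_lit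 0) (XT.lf (nat_lit 0) (nat_lit 227826393181) (nat_lit 152) (nat_lit 383906928688) (nat_lit 0) (nat_lit 106710438848) (nat_lit 34) (nat_lit 5) (nat_lit 36) (nat_lit 4) (nat_lit 34) (nat_lit 4) (nat_lit 542) (nat_lit 444) (nat_lit 214)) (XT.lf (nat_lit 0) (nat_lit 430376188784) (nat_lit 152) (nat_lit 4868277529) (nat_lit 0) (nat_lit 309260157280) (nat_lit 34) (nat_lit 5) (nat_lit 36) (nat_lit 4) (nat_lit 34) (nat_lit 4) (nat_lit 543) (nat_lit 444) (nat_lit 213))) (XT.nd (nat_lit 78) (nat_lit 152) (nat_lit 0) (XT.lf (nat_lit 0) (nat_lit 406120193268) (nat_lit 76) (nat_lit 243273709946) (nat_lit 76) (nat_lit 122157604947) (nat_lit 33) (nat_lit 4) (nat_lit 34) (nat_lit 5) (nat_lit 34) (nat_lit 4) (nat_lit 544) (nat_lit 444) (nat_lit 212)) (XT.lf (nat_lit 0) (nat_lit 37850245516) (nat_lit 76) (nat_lit 39694349854) (nat_lit 152) (nat_lit 722310424505) (nat_lit 31) (nat_lit 5) (nat_lit 32) (nat_lit 5)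 (nat_lit 33) (nat_lit 4) (nat_lit 545) (nat_lit 444) (nat_lit 211)))) (XT.nd (nat_lit 156) (nat_lit 152) (nat_lit 0) (XT.nd (nat_lit 78) (nat_lit 76) (nat_lit 0) (XT.lf (nat_lit 0) (nat_lit 292134201833) (nat_lit 152) (nat_lit 360103596269) (nat_lit 0) (nat_lit 176785400255) (nat_lit 31) (nat_lit 5) (nat_lit 33) (nat_lit 4) (nat_lit 31) (nat_lit 4) (nat_lit 546) (nat_lit 444) (nat_lit 210)) (XT.lf (nat_lit 0) (nat_lit 63266360205) (nat_lit 76) (nat_lit 455825187328) (nat_lit 76) (nat_lit 340476325285) (nat_lit 30) (nat_lit 4) (nat_lit 31) (nat_lit 5) (nat_lit 31) (nat_lit 4) (nat_lit 547) (nat_lit 444) (nat_lit 209))) (XT.nd (nat_lit 78) (nat_lit 152) (nat_lit 0) (XT.lf (nat_lit 0) (nat_lit 520306333737) (nat_lit 76) (nat_lit 243188725967) (nat_lit 76) (nat_lit 127839806339) (nat_lit 30) (nat_lit 4) (nat_lit 31) (nat_lit 5) (nat_lit 31) (nat_lit 4) (nat_lit 548) (nat_lit 444) (nat_lit 208)) (XT.nd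 (nat_lit 78) (nat_lit 0) (nat_lit 0) (XT.lf (nat_lit 0) (nat_lit 76465101141) (nat_lit 76) (nat_lit 17102740621) (nat_lit 152) (nat_lit 830988191202) (nat_lit 28) (nat_lit 5) (nat_lit 29) (nat_lit 5) (nat_lit 30) (nat_lit 4) (nat_lit 549) (nat_lit 444) (nat_lit 207)) (XT.lf (nat_lit 0) (nat_lit 331575257158) (nat_lit 152) (nat_lit 405547891063) (nat_lit 0) (nat_lit 221719041249) (nat_lit 28) (nat_lit 5) (nat_lit 30) (nat_lit 4) (nat_lit 28) (nat_lit 4) (nat_lit 550) (nat_lit 444) (nat_lit 206))))))))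
noncomputable def xc367 : XT := (XT.nd (nat_lit 1248) (nat_lit 2964) (nat_lit 0) (XT.nd (nat_lit 624) (nat_lit 1292) (nat_lit 0) (XT.nd (nat_lit 312) (nat_lit 0) (nat_lit 152) (XT.nd (nat_lit 156) (nat_lit 0) (nat_lit 76) (XT.nd (nat_lit 78) (nat_lit 0) (nat_lit 0) (XT.lf (nat_lit 0) (nat_lit 7745846628) (nat_lit 836) (nat_lit 5252487840) (nat_lit 836) (nat_lit 5252487840) (nat_lit 163) (nat_lit 3) (nat_lit 174) (nat_lit 3) (nat_lit 174) (nat_lit 5) (nat_lit 445) (nat_lit 445) (nat_lit 310)) (XT.lf (nat_lit 76) (nat_lit 7925613087) (nat_lit 0) (nat_lit 8125514779) (nat_lit 836) (nat_lit 21354447018) (nat_lit 164) (nat_lit 5) (nat_lit 163) (nat_lit 3) (nat_lit 174) (nat_lit 5) (nat_lit 446) (nat_lit 445) (nat_lit 309))) (XT.nd (nat_lit 78) (nat_lit 0) (nat_lit 0) (XT.lf (nat_lit 0) (nat_lit 16982363265) (nat_lit 760) (nat_lit 10874249697) (nat_lit 836) (nat_lit 10480897488) (nat_lit 164) (nat_lit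 5) (nat_lit 174) (nat_lit 5) (nat_lit 175) (nat_lit 5) (nat_lit 447) (nat_lit 445) (nat_lit 308)) (XT.lf (nat_lit 76) (nat_lit 8808705466) (nat_lit 0) (nat_lit 9419234442) (nat_lit 836) (nat_lit 21074714139) (nat_lit 165) (nat_lit 5) (nat_lit 164) (nat_lit 5) (nat_lit 175) (nat_lit 5) (nat_lit 448) (nat_lit 445) (nat_lit 307)))) (XT.nd (nat_lit 156) (nat_lit 0) (nat_lit 76) (XT.nd (nat_lit 78) (nat_lit 0) (nat_lit 0) (XT.lf (nat_lit 0) (nat_lit 19875342913) (nat_lit 760) (nat_lit 10613621304) (nat_lit 836) (nat_lit 9810113447) (nat_lit 165) (nat_lit 5) (nat_lit 175) (nat_lit 5) (nat_lit 176) (nat_lit 5) (nat_lit 449) (nat_lit 445) (nat_lit 306)) (XT.lf (nat_lit 76) (nat_lit 10438597728) (nat_lit 0) (nat_lit 11481218604) (nat_lit 836) (nat_lit 19409771326) (nat_lit 166) (nat_lit 5) (nat_lit 165) (nat_lit 5) (nat_lit 176) (nat_lit 5) (nat_lit 450) (nat_lit 445) (nat_lit 305))) (XT.nd (nat_lit 78)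 (nat_lit 0) (nat_lit 0) (XT.lf (nat_lit 0) (nat_lit 24378978944) (nat_lit 760) (nat_lit 9627946464) (nat_lit 836) (nat_lit 8389074662) (nat_lit 166) (nat_lit 5) (nat_lit 176) (nat_lit 5) (nat_lit 177) (nat_lit 5) (nat_lit 451) (nat_lit 445) (nat_lit 304)) (XT.lf (nat_lit 76) (nat_lit 12921777409) (nat_lit 0) (nat_lit 14426830469) (nat_lit 836) (nat_lit 16147750003) (nat_lit 167) (nat_lit 5) (nat_lit 166) (nat_lit 5) (nat_lit 177) (nat_lit 5) (nat_lit 452) (nat_lit 445) (nat_lit 303))))) (XT.nd (nat_lit 312) (nat_lit 912) (nat_lit 0) (XT.nd (nat_lit 156) (nat_lit 684) (nat_lit 0) (XT.nd (nat_lit 78) (nat_lit 0) (nat_lit 0) (XT.lf (nat_lit 0) (nat_lit 30725830912) (nat_lit 760) (nat_lit 7810678057) (nat_lit 836) (nat_lit 6102269159) (nat_lit 167) (nat_lit 5) (nat_lit 177) (nat_lit 5) (nat_lit 178) (nat_lit 5) (nat_lit 453) (nat_lit 445) (nat_lit 302)) (XT.lf (nat_lit 76) (nat_lit 16377249972) (nat_lit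 0) (nat_lit 18384621310) (nat_lit 836) (nat_lit 11051950467) (nat_lit 168) (nat_lit 5) (nat_lit 167) (nat_lit 5) (nat_lit 178) (nat_lit 5) (nat_lit 454) (nat_lit 445) (nat_lit 301))) (XT.nd (nat_lit 78) (nat_lit 760) (nat_lit 0) (XT.lf (nat_lit 0) (nat_lit 39175323306) (nat_lit 760) (nat_lit 5042674713) (nat_lit 76) (nat_lit 2820839211) (nat_lit 168) (nat_lit 5) (nat_lit 178) (nat_lit 5) (nat_lit 169) (nat_lit 5) (nat_lit 455) (nat_lit 445) (nat_lit 300)) (XT.lf (nat_lit 0) (nat_lit 20937840466) (nat_lit 760) (nat_lit 23497836100) (nat_lit 836) (nat_lit 3858115642) (nat_lit 158) (nat_lit 5) (nat_lit 168) (nat_lit 5) (nat_lit 169) (nat_lit 5) (nat_lit 456) (nat_lit 445) (nat_lit 299)))) (XT.nd (nat_lit 156) (nat_lit 380) (nat_lit 0) (XT.nd (nat_lit 78) (nat_lit 456) (nat_lit 0) (XT.lf (nat_lit 0) (nat_lit 421208977) (nat_lit 836) (nat_lit 1223468063) (nat_lit 76) (nat_lit 47962307708) (nat_lit 157)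 (nat_lit 5) (nat_lit 168) (nat_lit 5) (nat_lit 158) (nat_lit 5) (nat_lit 457) (nat_lit 445) (nat_lit 298)) (XT.lf (nat_lit 0) (nat_lit 5545226319) (nat_lit 532) (nat_lit 24286935941) (nat_lit 76) (nat_lit 21112493174) (nat_lit 151) (nat_lit 5) (nat_lit 158) (nat_lit 5) (nat_lit 152) (nat_lit 5) (nat_lit 458) (nat_lit 445) (nat_lit 297))) (XT.nd (nat_lit 78) (nat_lit 0) (nat_lit 0) (XT.lf (nat_lit 0) (nat_lit 3717091722) (nat_lit 380) (nat_lit 7312550923) (nat_lit 456) (nat_lit 41314357229) (nat_lit 146) (nat_lit 5) (nat_lit 151) (nat_lit 5) (nat_lit 152) (nat_lit 5) (nat_lit 459) (nat_lit 445) (nat_lit 296)) (XT.lf (nat_lit 0) (nat_lit 17459540257) (nat_lit 456) (nat_lit 20091890596) (nat_lit 76) (nat_lit 16228317782) (nat_lit 146) (nat_lit 5) (nat_lit 152) (nat_lit 5) (nat_lit 147) (nat_lit 5) (nat_lit 460) (nat_lit 445) (nat_lit 295)))))) (XT.nd (nat_lit 624) (nat_lit 1292) (nat_lit 0) (XT.nd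 (nat_lit 312) (nat_lit 988) (nat_lit 0) (XT.nd (nat_lit 156) (nat_lit 304) (nat_lit 0) (XT.nd (nat_lit 78) (nat_lit 0) (nat_lit 0) (XT.lf (nat_lit 0) (nat_lit 10070504115) (nat_lit 380) (nat_lit 14415823032) (nat_lit 456) (nat_lit 30787188082) (nat_lit 141) (nat_lit 5) (nat_lit 146) (nat_lit 5) (nat_lit 147) (nat_lit 5) (nat_lit 461) (nat_lit 445) (nat_lit 294)) (XT.lf (nat_lit 0) (nat_lit 32362837663) (nat_lit 456) (nat_lit 14548038861) (nat_lit 76) (nat_lit 9906174523) (nat_lit 141) (nat_lit 5) (nat_lit 147) (nat_lit 5) (nat_lit 142) (nat_lit 5) (nat_lit 462) (nat_lit 445) (nat_lit 293))) (XT.nd (nat_lit 78) (nat_lit 0) (nat_lit 0) (XT.lf (nat_lit 0) (nat_lit 17976954074) (nat_lit 304) (nat_lit 23171633707) (nat_lit 380) (nat_lit 17263405277) (nat_lit 137) (nat_lit 5) (nat_lit 141) (nat_lit 5) (nat_lit 142) (nat_lit 5) (nat_lit 463) (nat_lit 445) (nat_lit 292)) (XT.lf (nat_lit 0) (nat_lit 50649899356)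 (nat_lit 380) (nat_lit 7474346804) (nat_lit 76) (nat_lit 1948622410) (nat_lit 137) (nat_lit 5) (nat_lit 142) (nat_lit 5) (nat_lit 138) (nat_lit 5) (nat_lit 464) (nat_lit 445) (nat_lit 291)))) (XT.nd (nat_lit 156) (nat_lit 304) (nat_lit 0) (XT.nd (nat_lit 78) (nat_lit 380) (nat_lit 0) (XT.lf (nat_lit 0) (nat_lit 27637349198) (nat_lit 304) (nat_lit 33798822931) (nat_lit 380) (nat_lit 340121043) (nat_lit 133) (nat_lit 5) (nat_lit 137) (nat_lit 5) (nat_lit 138) (nat_lit 5) (nat_lit 465) (nat_lit 445) (nat_lit 290)) (XT.lf (nat_lit 0) (nat_lit 1093129943) (nat_lit 304) (nat_lit 7953661903) (nat_lit 380) (nat_lit 54503703820) (nat_lit 128) (nat_lit 5) (nat_lit 132) (nat_lit 5) (nat_lit 133) (nat_lit 5) (nat_lit 466) (nat_lit 445) (nat_lit 289))) (XT.nd (nat_lit 78) (nat_lit 304) (nat_lit 0) (XT.lf (nat_lit 0) (nat_lit 19777362538) (nat_lit 380) (nat_lit 26428824048) (nat_lit 76) (nat_lit 19162655870)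 (nat_lit 128) (nat_lit 5) (nat_lit 133) (nat_lit 5) (nat_lit 129) (nat_lit 5) (nat_lit 467) (nat_lit 445) (nat_lit 288)) (XT.lf (nat_lit 0) (nat_lit 11641655487) (nat_lit 304) (nat_lit 19713612742) (nat_lit 380) (nat_lit 35907298111) (nat_lit 124) (nat_lit 5) (nat_lit 128) (nat_lit 5) (nat_lit 129) (nat_lit 5) (nat_lit 468) (nat_lit 445) (nat_lit 287))))) (XT.nd (nat_lit 312) (nat_lit 684) (nat_lit 0) (XT.nd (nat_lit 156) (nat_lit 380) (nat_lit 0) (XT.nd (nat_lit 78) (nat_lit 228) (nat_lit 0) (XT.lf (nat_lit 0) (nat_lit 44092202751) (nat_lit 380) (nat_lit 16830985081) (nat_lit 76) (nat_lit 8298781983) (nat_lit 124) (nat_lit 5) (nat_lit 129) (nat_lit 5) (nat_lit 125) (nat_lit 5) (nat_lit 469) (nat_lit 445) (nat_lit 286)) (XT.lf (nat_lit 0) (nat_lit 24353056912) (nat_lit 228) (nat_lit 33815074265) (nat_lit 304) (nat_lit 13076104998) (nat_lit 121) (nat_lit 5) (nat_lit 124) (nat_lit 5) (nat_lit 125)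 (nat_lit 5) (nat_lit 470) (nat_lit 445) (nat_lit 285))) (XT.nd (nat_lit 78) (nat_lit 380) (nat_lit 0) (XT.lf (nat_lit 0) (nat_lit 68179005515) (nat_lit 228) (nat_lit 5052679025) (nat_lit 304) (nat_lit 121739955) (nat_lit 121) (nat_lit 5) (nat_lit 124) (nat_lit 5) (nat_lit 125) (nat_lit 5) (nat_lit 471) (nat_lit 445) (nat_lit 284)) (XT.lf (nat_lit 0) (nat_lit 14073559000) (nat_lit 380) (nat_lit 36246523180) (nat_lit 76) (nat_lit 25186233274) (nat_lit 116) (nat_lit 5) (nat_lit 121) (nat_lit 5) (nat_lit 117) (nat_lit 5) (nat_lit 472) (nat_lit 445) (nat_lit 283)))) (XT.nd (nat_lit 156) (nat_lit 456) (nat_lit 0) (XT.nd (nat_lit 78) (nat_lit 0) (nat_lit 0) (XT.lf (nat_lit 0) (nat_lit 8517627513) (nat_lit 228) (nat_lit 20760638071) (nat_lit 304) (nat_lit 48473298950) (nat_lit 113) (nat_lit 5) (nat_lit 116) (nat_lit 5) (nat_lit 117) (nat_lit 5) (nat_lit 473) (nat_lit 445) (nat_lit 282)) (XT.lf (nat_lit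 0) (nat_lit 46026446146) (nat_lit 304) (nat_lit 23472150808) (nat_lit 76) (nat_lit 10571317237) (nat_lit 113) (nat_lit 5) (nat_lit 117) (nat_lit 5) (nat_lit 114) (nat_lit 5) (nat_lit 474) (nat_lit 445) (nat_lit 281))) (XT.nd (nat_lit 78) (nat_lit 228) (nat_lit 0) (XT.lf (nat_lit 0) (nat_lit 25037172182) (nat_lit 228) (nat_lit 39305029711) (nat_lit 304) (nat_lit 18125471183) (nat_lit 110) (nat_lit 5) (nat_lit 113) (nat_lit 5) (nat_lit 114) (nat_lit 5) (nat_lit 475) (nat_lit 445) (nat_lit 280)) (XT.nd (nat_lit 78) (nat_lit 228) (nat_lit 0) (XT.lf (nat_lit 0) (nat_lit 76785326487) (nat_lit 228) (nat_lit 7184885689) (nat_lit 304) (nat_lit 995284442) (nat_lit 110) (nat_lit 5) (nat_lit 113) (nat_lit 5) (nat_lit 114) (nat_lit 5) (nat_lit 476) (nat_lit 445) (nat_lit 279)) (XT.lf (nat_lit 0) (nat_lit 17574570206) (nat_lit 228) (nat_lit 43273806532) (nat_lit 76) (nat_lit 26670220974) (nat_lit 107) (nat_lit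 5) (nat_lit 110) (nat_lit 5) (nat_lit 108) (nat_lit 5) (nat_lit 477) (nat_lit 445) (nat_lit 278))))))))
noncomputable def xc368 : XT := (XT.nd (nat_lit 1248) (nat_lit 1368) (nat_lit 0) (XT.nd (nat_lit 624) (nat_lit 836) (nat_lit 0) (XT.nd (nat_lit 312) (nat_lit 608) (nat_lit 0) (XT.nd (nat_lit 156) (nat_lit 228) (nat_lit 0) (XT.nd (nat_lit 78) (nat_lit 0) (nat_lit 0) (XT.lf (nat_lit 0) (nat_lit 9550356282) (nat_lit 228) (nat_lit 27895817860) (nat_lit 304) (nat_lit 52732028723) (nat_lit 104) (nat_lit 5) (nat_lit 107) (nat_lit 5) (nat_lit 108) (nat_lit 5) (nat_lit 478) (nat_lit 445) (nat_lit 277)) (XT.lf (nat_lit 0) (nat_lit 59159930876) (nat_lit 304) (nat_lit 26534266275) (nat_lit 76) (nat_lit 7234162538) (nat_lit 104) (nat_lit 5) (nat_lit 108) (nat_lit 5) (nat_lit 105) (nat_lit 5) (nat_lit 479) (nat_lit 445) (nat_lit 276))) (XT.nd (nat_lit 78) (nat_lit 76) (nat_lit 0) (XT.lf (nat_lit 0) (nat_lit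 30790723731) (nat_lit 152) (nat_lit 52105757893) (nat_lit 228) (nat_lit 12872687457) (nat_lit 102) (nat_lit 5) (nat_lit 104) (nat_lit 5) (nat_lit 105) (nat_lit 5) (nat_lit 480) (nat_lit 445) (nat_lit 275)) (XT.lf (nat_lit 0) (nat_lit 9233426048) (nat_lit 228) (nat_lit 6976781911) (nat_lit 76) (nat_lit 82511941671) (nat_lit 101) (nat_lit 5) (nat_lit 104) (nat_lit 5) (nat_lit 102) (nat_lit 5) (nat_lit 481) (nat_lit 445) (nat_lit 274)))) (XT.nd (nat_lit 156) (nat_lit 228) (nat_lit 0) (XT.nd (nat_lit 78) (nat_lit 152) (nat_lit 0) (XT.lf (nat_lit 0) (nat_lit 33230707628) (nat_lit 304) (nat_lit 46633451225) (nat_lit 76) (nat_lit 21887145546) (nat_lit 98) (nat_lit 5) (nat_lit 102) (nat_lit 5) (nat_lit 99) (nat_lit 5) (nat_lit 482) (nat_lit 445) (nat_lit 273)) (XT.lf (nat_lit 0) (nat_lit 15872359214) (nat_lit 152) (nat_lit 43188271184) (nat_lit 228) (nat_lit 45839647687) (nat_lit 96) (nat_lit 5) (nat_lit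 98) (nat_lit 5) (nat_lit 99) (nat_lit 5) (nat_lit 483) (nat_lit 445) (nat_lit 272))) (XT.nd (nat_lit 78) (nat_lit 228) (nat_lit 0) (XT.lf (nat_lit 0) (nat_lit 83121084684) (nat_lit 152) (nat_lit 3849876262) (nat_lit 228) (nat_lit 21196293958) (nat_lit 96) (nat_lit 5) (nat_lit 98) (nat_lit 5) (nat_lit 99) (nat_lit 5) (nat_lit 484) (nat_lit 445) (nat_lit 271)) (XT.lf (nat_lit 0) (nat_lit 5804128027) (nat_lit 228) (nat_lit 68706176882) (nat_lit 76) (nat_lit 37019889636) (nat_lit 93) (nat_lit 5) (nat_lit 96) (nat_lit 5) (nat_lit 94) (nat_lit 5) (nat_lit 485) (nat_lit 445) (nat_lit 270))))) (XT.nd (nat_lit 312) (nat_lit 456) (nat_lit 0) (XT.nd (nat_lit 156) (nat_lit 228) (nat_lit 0) (XT.nd (nat_lit 78) (nat_lit 152) (nat_lit 0) (XT.lf (nat_lit 0) (nat_lit 33935661001) (nat_lit 228) (nat_lit 501713114) (nat_lit 76) (nat_lit 80581861851) (nat_lit 93) (nat_lit 5) (nat_lit 96) (nat_lit 5) (nat_lit 94) (nat_lit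 5) (nat_lit 486) (nat_lit 445) (nat_lit 269)) (XT.lf (nat_lit 0) (nat_lit 64758024846) (nat_lit 228) (nat_lit 45300527408) (nat_lit 76) (nat_lit 8559964517) (nat_lit 91) (nat_lit 5) (nat_lit 94) (nat_lit 5) (nat_lit 92) (nat_lit 5) (nat_lit 487) (nat_lit 445) (nat_lit 268))) (XT.nd (nat_lit 78) (nat_lit 76) (nat_lit 0) (XT.lf (nat_lit 0) (nat_lit 28804702830) (nat_lit 152) (nat_lit 69338945918) (nat_lit 228) (nat_lit 24203005800) (nat_lit 89) (nat_lit 5) (nat_lit 91) (nat_lit 5) (nat_lit 92) (nat_lit 5) (nat_lit 488) (nat_lit 445) (nat_lit 267)) (XT.lf (nat_lit 0) (nat_lit 7494319821) (nat_lit 228) (nat_lit 18157105509) (nat_lit 76) (nat_lit 100565408135) (nat_lit 88) (nat_lit 5) (nat_lit 91) (nat_lit 5) (nat_lit 89) (nat_lit 5) (nat_lit 489) (nat_lit 445) (nat_lit 266)))) (XT.nd (nat_lit 156) (nat_lit 152) (nat_lit 0) (XT.nd (nat_lit 78) (nat_lit 152) (nat_lit 0) (XT.lf (nat_lit 0) (nat_lit 41278029179)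 (nat_lit 228) (nat_lit 67947420086) (nat_lit 76) (nat_lit 20969488697) (nat_lit 86) (nat_lit 5) (nat_lit 89) (nat_lit 5) (nat_lit 87) (nat_lit 5) (nat_lit 490) (nat_lit 445) (nat_lit 265)) (XT.lf (nat_lit 0) (nat_lit 12933315019) (nat_lit 152) (nat_lit 64751873971) (nat_lit 228) (nat_lit 56640045464) (nat_lit 84) (nat_lit 5) (nat_lit 86) (nat_lit 5) (nat_lit 87) (nat_lit 5) (nat_lit 491) (nat_lit 445) (nat_lit 264))) (XT.nd (nat_lit 78) (nat_lit 152) (nat_lit 0) (XT.lf (nat_lit 0) (nat_lit 100215838914) (nat_lit 152) (nat_lit 16846889397) (nat_lit 228) (nat_lit 21541816403) (nat_lit 84) (nat_lit 5) (nat_lit 86) (nat_lit 5) (nat_lit 87) (nat_lit 5) (nat_lit 492) (nat_lit 445) (nat_lit 263)) (XT.lf (nat_lit 0) (nat_lit 16142281283) (nat_lit 152) (nat_lit 93456951372) (nat_lit 76) (nat_lit 33420584457) (nat_lit 82) (nat_lit 5) (nat_lit 84) (nat_lit 5) (nat_lit 83) (nat_lit 5) (nat_lit 493) (nat_lit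 445) (nat_lit 262)))))) (XT.nd (nat_lit 624) (nat_lit 608) (nat_lit 0) (XT.nd (nat_lit 312) (nat_lit 456) (nat_lit 0) (XT.nd (nat_lit 156) (nat_lit 152) (nat_lit 0) (XT.nd (nat_lit 78) (nat_lit 152) (nat_lit 0) (XT.lf (nat_lit 0) (nat_lit 55922932813) (nat_lit 152) (nat_lit 5019741404) (nat_lit 76) (nat_lit 86648706940) (nat_lit 82) (nat_lit 5) (nat_lit 84) (nat_lit 5) (nat_lit 83) (nat_lit 5) (nat_lit 494) (nat_lit 445) (nat_lit 261)) (XT.lf (nat_lit 0) (nat_lit 90742514367) (nat_lit 152) (nat_lit 8366207064) (nat_lit 228) (nat_lit 53211996763) (nat_lit 80) (nat_lit 5) (nat_lit 82) (nat_lit 5) (nat_lit 83) (nat_lit 5) (nat_lit 495) (nat_lit 445) (nat_lit 260))) (XT.nd (nat_lit 78) (nat_lit 76) (nat_lit 0) (XT.lf (nat_lit 0) (nat_lit 34557098405) (nat_lit 76) (nat_lit 111253293743) (nat_lit 152) (nat_lit 11408300317) (nat_lit 79) (nat_lit 5) (nat_lit 80) (nat_lit 5) (nat_lit 81) (nat_lit 4) (nat_lit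 496) (nat_lit 445) (nat_lit 259)) (XT.lf (nat_lit 0) (nat_lit 32642310288) (nat_lit 152) (nat_lit 25334988100) (nat_lit 76) (nat_lit 104299083986) (nat_lit 78) (nat_lit 5) (nat_lit 80) (nat_lit 5) (nat_lit 79) (nat_lit 5) (nat_lit 497) (nat_lit 445) (nat_lit 258)))) (XT.nd (nat_lit 156) (nat_lit 228) (nat_lit 0) (XT.nd (nat_lit 78) (nat_lit 76) (nat_lit 0) (XT.lf (nat_lit 0) (nat_lit 79204882962) (nat_lit 152) (nat_lit 543182269) (nat_lit 228) (nat_lit 87767740118) (nat_lit 76) (nat_lit 5) (nat_lit 78) (nat_lit 5) (nat_lit 79) (nat_lit 5) (nat_lit 498) (nat_lit 445) (nat_lit 257)) (XT.lf (nat_lit 0) (nat_lit 16440580809) (nat_lit 76) (nat_lit 114393768606) (nat_lit 152) (nat_lit 42101587997) (nat_lit 75) (nat_lit 5) (nat_lit 76) (nat_lit 5) (nat_lit 77) (nat_lit 4) (nat_lit 499) (nat_lit 445) (nat_lit 256))) (XT.nd (nat_lit 78) (nat_lit 152) (nat_lit 0) (XT.lf (nat_lit 0) (nat_lit 7189117566) (nat_lit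 152) (nat_lit 49182506905) (nat_lit 76) (nat_lit 122174465823) (nat_lit 74) (nat_lit 5) (nat_lit 76) (nat_lit 5) (nat_lit 75) (nat_lit 5) (nat_lit 500) (nat_lit 445) (nat_lit 255)) (XT.lf (nat_lit 0) (nat_lit 58640857709) (nat_lit 228) (nat_lit 119569242487) (nat_lit 76) (nat_lit 6136571698) (nat_lit 72) (nat_lit 5) (nat_lit 75) (nat_lit 5) (nat_lit 73) (nat_lit 4) (nat_lit 501) (nat_lit 445) (nat_lit 254))))) (XT.nd (nat_lit 312) (nat_lit 304) (nat_lit 0) (XT.nd (nat_lit 156) (nat_lit 228) (nat_lit 0) (XT.nd (nat_lit 78) (nat_lit 76) (nat_lit 0) (XT.lf (nat_lit 0) (nat_lit 114435329500) (nat_lit 228) (nat_lit 5191599744) (nat_lit 76) (nat_lit 70721846108) (nat_lit 72) (nat_lit 5) (nat_lit 75) (nat_lit 5) (nat_lit 73) (nat_lit 4) (nat_lit 502) (nat_lit 445) (nat_lit 253)) (XT.lf (nat_lit 0) (nat_lit 118703165666) (nat_lit 76) (nat_lit 56169110691) (nat_lit 152) (nat_lit 21686070062) (nat_lit 71)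 (nat_lit 5) (nat_lit 72) (nat_lit 5) (nat_lit 73) (nat_lit 4) (nat_lit 503) (nat_lit 445) (nat_lit 252))) (XT.nd (nat_lit 78) (nat_lit 0) (nat_lit 0) (XT.lf (nat_lit 0) (nat_lit 35130389943) (nat_lit 228) (nat_lit 156350253048) (nat_lit 76) (nat_lit 11519932346) (nat_lit 68) (nat_lit 5) (nat_lit 71) (nat_lit 5) (nat_lit 69) (nat_lit 4) (nat_lit 504) (nat_lit 445) (nat_lit 251)) (XT.lf (nat_lit 0) (nat_lit 96319280897) (nat_lit 228) (nat_lit 30913869394) (nat_lit 76) (nat_lit 82400969847) (nat_lit 68) (nat_lit 5) (nat_lit 71) (nat_lit 5) (nat_lit 69) (nat_lit 4) (nat_lit 505) (nat_lit 445) (nat_lit 250)))) (XT.nd (nat_lit 156) (nat_lit 76) (nat_lit 0) (XT.nd (nat_lit 78) (nat_lit 152) (nat_lit 0) (XT.lf (nat_lit 0) (nat_lit 104126058972) (nat_lit 76) (nat_lit 58066749258) (nat_lit 152) (nat_lit 54325274364) (nat_lit 67) (nat_lit 5) (nat_lit 68) (nat_lit 5) (nat_lit 69) (nat_lit 4) (nat_lit 506)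 (nat_lit 445) (nat_lit 249)) (XT.lf (nat_lit 0) (nat_lit 8519043384) (nat_lit 152) (nat_lit 200031163295) (nat_lit 76) (nat_lit 15132644749) (nat_lit 65) (nat_lit 5) (nat_lit 67) (nat_lit 5) (nat_lit 66) (nat_lit 4) (nat_lit 507) (nat_lit 445) (nat_lit 248))) (XT.nd (nat_lit 78) (nat_lit 76) (nat_lit 0) (XT.lf (nat_lit 0) (nat_lit 75565918197) (nat_lit 152) (nat_lit 62585763301) (nat_lit 76) (nat_lit 92865346967) (nat_lit 65) (nat_lit 5) (nat_lit 67) (nat_lit 5) (nat_lit 66) (nat_lit 4) (nat_lit 508) (nat_lit 445) (nat_lit 247)) (XT.lf (nat_lit 0) (nat_lit 84433385836) (nat_lit 76) (nat_lit 62849512602) (nat_lit 152) (nat_lit 91369127839) (nat_lit 64) (nat_lit 5) (nat_lit 65) (nat_lit 5) (nat_lit 66) (nat_lit 4) (nat_lit 509) (nat_lit 445) (nat_lit 246)))))))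
noncomputable def xc369 : XT := (XT.nd (nat_lit 1248) (nat_lit 1064) (nat_lit 0) (XT.nd (nat_lit 624) (nat_lit 608) (nat_lit 0) (XT.nd (nat_lit 312) (nat_lit 304) (nat_lit 0) (XT.nd (nat_lit 156) (nat_lit 76) (nat_lit 0) (XT.nd (nat_lit 78) (nat_lit 152) (nat_lit 0) (XT.lf (nat_lit 0) (nat_lit 223915750348) (nat_lit 152) (nat_lit 5910948228) (nat_lit 0) (nat_lit 16775574277) (nat_lit 64) (nat_lit 5) (nat_lit 66) (nat_lit 4) (nat_lit 64) (nat_lit 4) (nat_lit 510) (nat_lit 445) (nat_lit 245)) (XT.lf (nat_lit 0) (nat_lit 51333916916) (nat_lit 152) (nat_lit 101906216832) (nat_lit 76) (nat_lit 101497021840) (nat_lit 62) (nat_lit 5) (nat_lit 64) (nat_lit 5) (nat_lit 63) (nat_lit 4) (nat_lit 511) (nat_lit 445) (nat_lit 244))) (XT.nd (nat_lit 78) (nat_lit 0) (nat_lit 0) (XT.lf (nat_lit 0) (nat_lit 57920756563) (nat_lit 76) (nat_lit 71377802632) (nat_lit 152) (nat_lit 133911347921) (nat_lit 61) (nat_lit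 5) (nat_lit 62) (nat_lit 5) (nat_lit 63) (nat_lit 4) (nat_lit 512) (nat_lit 445) (nat_lit 243)) (XT.lf (nat_lit 0) (nat_lit 213142702227) (nat_lit 152) (nat_lit 42999739952) (nat_lit 0) (nat_lit 15864790613) (nat_lit 61) (nat_lit 5) (nat_lit 63) (nat_lit 4) (nat_lit 61) (nat_lit 4) (nat_lit 513) (nat_lit 445) (nat_lit 242)))) (XT.nd (nat_lit 156) (nat_lit 76) (nat_lit 0) (XT.nd (nat_lit 78) (nat_lit 76) (nat_lit 0) (XT.lf (nat_lit 0) (nat_lit 22554863592) (nat_lit 152) (nat_lit 151040910551) (nat_lit 76) (nat_lit 107470175418) (nat_lit 59) (nat_lit 5) (nat_lit 61) (nat_lit 5) (nat_lit 60) (nat_lit 4) (nat_lit 514) (nat_lit 445) (nat_lit 241)) (XT.lf (nat_lit 0) (nat_lit 22391624747) (nat_lit 76) (nat_lit 84764693603) (nat_lit 152) (nat_lit 183318567952) (nat_lit 58) (nat_lit 5) (nat_lit 59) (nat_lit 5) (nat_lit 60) (nat_lit 4) (nat_lit 515) (nat_lit 445) (nat_lit 240))) (XT.nd (nat_lit 78) (nat_lit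 76) (nat_lit 0) (XT.lf (nat_lit 0) (nat_lit 198720134213) (nat_lit 152) (nat_lit 90662390413) (nat_lit 0) (nat_lit 10835130839) (nat_lit 58) (nat_lit 5) (nat_lit 60) (nat_lit 4) (nat_lit 58) (nat_lit 4) (nat_lit 516) (nat_lit 445) (nat_lit 239)) (XT.lf (nat_lit 0) (nat_lit 97355112824) (nat_lit 76) (nat_lit 200416190800) (nat_lit 76) (nat_lit 12530801329) (nat_lit 57) (nat_lit 4) (nat_lit 58) (nat_lit 5) (nat_lit 58) (nat_lit 4) (nat_lit 517) (nat_lit 445) (nat_lit 238))))) (XT.nd (nat_lit 312) (nat_lit 304) (nat_lit 0) (XT.nd (nat_lit 156) (nat_lit 152) (nat_lit 0) (XT.nd (nat_lit 78) (nat_lit 76) (nat_lit 0) (XT.lf (nat_lit 0) (nat_lit 79855627520) (nat_lit 152) (nat_lit 24181720764) (nat_lit 76) (nat_lit 216712278430) (nat_lit 56) (nat_lit 5) (nat_lit 58) (nat_lit 5) (nat_lit 57) (nat_lit 4) (nat_lit 518) (nat_lit 445) (nat_lit 237)) (XT.lf (nat_lit 0) (nat_lit 179248337028) (nat_lit 152) (nat_lit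 152011325436) (nat_lit 0) (nat_lit 309187139) (nat_lit 55) (nat_lit 5) (nat_lit 57) (nat_lit 4) (nat_lit 55) (nat_lit 4) (nat_lit 519) (nat_lit 445) (nat_lit 236))) (XT.nd (nat_lit 78) (nat_lit 76) (nat_lit 0) (XT.lf (nat_lit 0) (nat_lit 51345066171) (nat_lit 76) (nat_lit 235188641849) (nat_lit 76) (nat_lit 56249174318) (nat_lit 54) (nat_lit 4) (nat_lit 55) (nat_lit 5) (nat_lit 55) (nat_lit 4) (nat_lit 520) (nat_lit 445) (nat_lit 235)) (XT.lf (nat_lit 0) (nat_lit 45813630264) (nat_lit 152) (nat_lit 85021828005) (nat_lit 76) (nat_lit 223556511733) (nat_lit 53) (nat_lit 5) (nat_lit 55) (nat_lit 5) (nat_lit 54) (nat_lit 4) (nat_lit 521) (nat_lit 445) (nat_lit 234)))) (XT.nd (nat_lit 156) (nat_lit 228) (nat_lit 0) (XT.nd (nat_lit 78) (nat_lit 0) (nat_lit 0) (XT.lf (nat_lit 0) (nat_lit 135116694148) (nat_lit 76) (nat_lit 18081721611) (nat_lit 152) (nat_lit 213231531324) (nat_lit 52) (nat_lit 5) (nat_lit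 53) (nat_lit 5) (nat_lit 54) (nat_lit 4) (nat_lit 522) (nat_lit 445) (nat_lit 233)) (XT.lf (nat_lit 0) (nat_lit 268981679003) (nat_lit 152) (nat_lit 11374367424) (nat_lit 0) (nat_lit 98562314669) (nat_lit 52) (nat_lit 5) (nat_lit 54) (nat_lit 4) (nat_lit 52) (nat_lit 4) (nat_lit 523) (nat_lit 445) (nat_lit 232))) (XT.nd (nat_lit 78) (nat_lit 76) (nat_lit 0) (XT.lf (nat_lit 0) (nat_lit 2465608459) (nat_lit 152) (nat_lit 165365115872) (nat_lit 76) (nat_lit 224006853421) (nat_lit 50) (nat_lit 5) (nat_lit 52) (nat_lit 5) (nat_lit 51) (nat_lit 4) (nat_lit 524) (nat_lit 445) (nat_lit 231)) (XT.lf (nat_lit 0) (nat_lit 71702229311) (nat_lit 76) (nat_lit 46406102179) (nat_lit 152) (nat_lit 287138566150) (nat_lit 49) (nat_lit 5) (nat_lit 50) (nat_lit 5) (nat_lit 51) (nat_lit 4) (nat_lit 525) (nat_lit 445) (nat_lit 230)))))) (XT.nd (nat_lit 624) (nat_lit 608) (nat_lit 0) (XT.nd (nat_lit 312) (nat_lit 228)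 (nat_lit 0) (XT.nd (nat_lit 156) (nat_lit 152) (nat_lit 0) (XT.nd (nat_lit 78) (nat_lit 76) (nat_lit 0) (XT.lf (nat_lit 0) (nat_lit 243645328725) (nat_lit 152) (nat_lit 94135253446) (nat_lit 0) (nat_lit 81340494451) (nat_lit 49) (nat_lit 5) (nat_lit 51) (nat_lit 4) (nat_lit 49) (nat_lit 4) (nat_lit 526) (nat_lit 445) (nat_lit 229)) (XT.lf (nat_lit 0) (nat_lit 161657257968) (nat_lit 76) (nat_lit 217086264151) (nat_lit 76) (nat_lit 54781225121) (nat_lit 48) (nat_lit 4) (nat_lit 49) (nat_lit 5) (nat_lit 49) (nat_lit 4) (nat_lit 527) (nat_lit 445) (nat_lit 228))) (XT.nd (nat_lit 78) (nat_lit 76) (nat_lit 0) (XT.lf (nat_lit 0) (nat_lit 71265266636) (nat_lit 152) (nat_lit 16211437429) (nat_lit 76) (nat_lit 361034730365) (nat_lit 47) (nat_lit 5) (nat_lit 49) (nat_lit 5) (nat_lit 48) (nat_lit 4) (nat_lit 528) (nat_lit 445) (nat_lit 227)) (XT.lf (nat_lit 0) (nat_lit 206666609287) (nat_lit 152) (nat_lit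 205201248271) (nat_lit 0) (nat_lit 52090019046) (nat_lit 46) (nat_lit 5) (nat_lit 48) (nat_lit 4) (nat_lit 46) (nat_lit 4) (nat_lit 529) (nat_lit 445) (nat_lit 226)))) (XT.nd (nat_lit 156) (nat_lit 76) (nat_lit 0) (XT.nd (nat_lit 78) (nat_lit 76) (nat_lit 0) (XT.lf (nat_lit 0) (nat_lit 68630436145) (nat_lit 76) (nat_lit 282991874431) (nat_lit 76) (nat_lit 128415115737) (nat_lit 45) (nat_lit 4) (nat_lit 46) (nat_lit 5) (nat_lit 46) (nat_lit 4) (nat_lit 530) (nat_lit 445) (nat_lit 225)) (XT.lf (nat_lit 0) (nat_lit 10215682611) (nat_lit 152) (nat_lit 133634769771) (nat_lit 76) (nat_lit 352888519063) (nat_lit 44) (nat_lit 5) (nat_lit 46) (nat_lit 5) (nat_lit 45) (nat_lit 4) (nat_lit 531) (nat_lit 445) (nat_lit 224))) (XT.nd (nat_lit 78) (nat_lit 0) (nat_lit 0) (XT.lf (nat_lit 0) (nat_lit 154087805481) (nat_lit 152) (nat_lit 353079714823) (nat_lit 0) (nat_lit 6871546513) (nat_lit 43) (nat_lit 5) (nat_lit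 45) (nat_lit 4) (nat_lit 43) (nat_lit 4) (nat_lit 532) (nat_lit 445) (nat_lit 223)) (XT.lf (nat_lit 0) (nat_lit 309811709419) (nat_lit 152) (nat_lit 59564236928) (nat_lit 0) (nat_lit 162595311865) (nat_lit 43) (nat_lit 5) (nat_lit 45) (nat_lit 4) (nat_lit 43) (nat_lit 4) (nat_lit 533) (nat_lit 445) (nat_lit 222))))) (XT.nd (nat_lit 312) (nat_lit 304) (nat_lit 0) (XT.nd (nat_lit 156) (nat_lit 76) (nat_lit 0) (XT.nd (nat_lit 78) (nat_lit 152) (nat_lit 0) (XT.lf (nat_lit 0) (nat_lit 256847156019) (nat_lit 76) (nat_lit 220484470892) (nat_lit 76) (nat_lit 73267941350) (nat_lit 42) (nat_lit 4) (nat_lit 43) (nat_lit 5) (nat_lit 43) (nat_lit 4) (nat_lit 534) (nat_lit 445) (nat_lit 221)) (XT.lf (nat_lit 0) (nat_lit 20376330820) (nat_lit 76) (nat_lit 61376345308) (nat_lit 152) (nat_lit 488274614662) (nat_lit 40) (nat_lit 5) (nat_lit 41) (nat_lit 5) (nat_lit 42) (nat_lit 4) (nat_lit 535) (nat_lit 445) (nat_lit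 220))) (XT.nd (nat_lit 78) (nat_lit 76) (nat_lit 0) (XT.lf (nat_lit 0) (nat_lit 248768223399) (nat_lit 152) (nat_lit 232701040193) (nat_lit 0) (nat_lit 108561771057) (nat_lit 40) (nat_lit 5) (nat_lit 42) (nat_lit 4) (nat_lit 40) (nat_lit 4) (nat_lit 536) (nat_lit 445) (nat_lit 219)) (XT.lf (nat_lit 0) (nat_lit 102366012444) (nat_lit 76) (nat_lit 324372654129) (nat_lit 76) (nat_lit 184166093200) (nat_lit 39) (nat_lit 4) (nat_lit 40) (nat_lit 5) (nat_lit 40) (nat_lit 4) (nat_lit 537) (nat_lit 445) (nat_lit 218)))) (XT.nd (nat_lit 156) (nat_lit 152) (nat_lit 0) (XT.nd (nat_lit 78) (nat_lit 152) (nat_lit 0) (XT.lf (nat_lit 0) (nat_lit 462264735949) (nat_lit 76) (nat_lit 155283533829) (nat_lit 76) (nat_lit 15076869485) (nat_lit 39) (nat_lit 4) (nat_lit 40) (nat_lit 5) (nat_lit 40) (nat_lit 4) (nat_lit 538) (nat_lit 445) (nat_lit 217)) (XT.lf (nat_lit 0) (nat_lit 160642442596) (nat_lit 152) (nat_lit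 467381295744) (nat_lit 0) (nat_lit 27112192277) (nat_lit 37) (nat_lit 5) (nat_lit 39) (nat_lit 4) (nat_lit 37) (nat_lit 4) (nat_lit 539) (nat_lit 445) (nat_lit 216))) (XT.nd (nat_lit 78) (nat_lit 152) (nat_lit 0) (XT.lf (nat_lit 0) (nat_lit 350118845482) (nat_lit 152) (nat_lit 111778661796) (nat_lit 0) (nat_lit 216588505829) (nat_lit 37) (nat_lit 5) (nat_lit 39) (nat_lit 4) (nat_lit 37) (nat_lit 4) (nat_lit 540) (nat_lit 445) (nat_lit 215)) (XT.nd (nat_lit 78) (nat_lit 76) (nat_lit 0) (XT.lf (nat_lit 0) (nat_lit 270253405611) (nat_lit 76) (nat_lit 283034830238) (nat_lit 76) (nat_lit 149504405505) (nat_lit 36) (nat_lit 4) (nat_lit 37) (nat_lit 5) (nat_lit 37) (nat_lit 4) (nat_lit 541) (nat_lit 445) (nat_lit 214)) (XT.lf (nat_lit 0) (nat_lit 38999421050) (nat_lit 152) (nat_lit 53581692607) (nat_lit 76) (nat_lit 635607397006) (nat_lit 35) (nat_lit 5) (nat_lit 37) (nat_lit 5) (nat_lit 36) (nat_lit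 4) (nat_lit 542) (nat_lit 445) (nat_lit 213))))))))
noncomputable def xc370 : XT := (XT.nd (nat_lit 55536) (nat_lit 0) (nat_lit 7296) (XT.nd (nat_lit 54912) (nat_lit 0) (nat_lit 10260) (XT.nd (nat_lit 312) (nat_lit 228) (nat_lit 0) (XT.nd (nat_lit 156) (nat_lit 228) (nat_lit 0) (XT.nd (nat_lit 78) (nat_lit 0) (nat_lit 0) (XT.lf (nat_lit 0) (nat_lit 239225257939) (nat_lit 152) (nat_lit 403087039343) (nat_lit 0) (nat_lit 112053274194) (nat_lit 34) (nat_lit 5) (nat_lit 36) (nat_lit 4) (nat_lit 34) (nat_lit 4) (nat_lit 543) (nat_lit 445) (nat_lit 212)) (XT.lf (nat_lit 0) (nat_lit 451902184031) (nat_lit 152) (nat_lit 5097181138) (nat_lit 0) (nat_lit 324730130291) (nat_lit 34) (nat_lit 5) (nat_lit 36) (nat_lit 4) (nat_lit 34) (nat_lit 4) (nat_lit 544) (nat_lit 445) (nat_lit 211))) (XT.nd (nat_lit 78) (nat_lit 152) (nat_lit 0) (XT.lf (nat_lit 0) (nat_lit 426440479162) (nat_lit 76) (nat_lit 255430185731)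 (nat_lit 76) (nat_lit 128258065329) (nat_lit 33) (nat_lit 4) (nat_lit 34) (nat_lit 5) (nat_lit 34) (nat_lit 4) (nat_lit 545) (nat_lit 445) (nat_lit 210)) (XT.lf (nat_lit 0) (nat_lit 39757037432) (nat_lit 76) (nat_lit 41671851017) (nat_lit 152) (nat_lit 758418529235) (nat_lit 31) (nat_lit 5) (nat_lit 32) (nat_lit 5) (nat_lit 33) (nat_lit 4) (nat_lit 546) (nat_lit 445) (nat_lit 209)))) (XT.nd (nat_lit 156) (nat_lit 152) (nat_lit 0) (XT.nd (nat_lit 78) (nat_lit 76) (nat_lit 0) (XT.lf (nat_lit 0) (nat_lit 306747746189) (nat_lit 152) (nat_lit 378094947361) (nat_lit 0) (nat_lit 185631322994) (nat_lit 31) (nat_lit 5) (nat_lit 33) (nat_lit 4) (nat_lit 31) (nat_lit 4) (nat_lit 547) (nat_lit 445) (nat_lit 208)) (XT.lf (nat_lit 0) (nat_lit 66443283893) (nat_lit 76) (nat_lit 478609562263) (nat_lit 76) (nat_lit 357493084224) (nat_lit 30) (nat_lit 4) (nat_lit 31) (nat_lit 5) (nat_lit 31) (nat_lit 4) (nat_lit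 548) (nat_lit 445) (nat_lit 207))) (XT.nd (nat_lit 78) (nat_lit 152) (nat_lit 0) (XT.lf (nat_lit 0) (nat_lit 546334608212) (nat_lit 76) (nat_lit 255341605664) (nat_lit 76) (nat_lit 134225075394) (nat_lit 30) (nat_lit 4) (nat_lit 31) (nat_lit 5) (nat_lit 31) (nat_lit 4) (nat_lit 549) (nat_lit 445) (nat_lit 206)) (XT.lf (nat_lit 0) (nat_lit 80301316658) (nat_lit 76) (nat_lit 17951315865) (nat_lit 152) (nat_lit 872530882140) (nat_lit 28) (nat_lit 5) (nat_lit 29) (nat_lit 5) (nat_lit 30) (nat_lit 4) (nat_lit 550) (nat_lit 445) (nat_lit 205))))) (XT.nd (nat_lit 312) (nat_lit 0) (nat_lit 152) (XT.nd (nat_lit 156) (nat_lit 0) (nat_lit 76) (XT.nd (nat_lit 78) (nat_lit 0) (nat_lit 0) (XT.lf (nat_lit 0) (nat_lit 8180784527) (nat_lit 836) (nat_lit 5490096471) (nat_lit 836) (nat_lit 5490096471) (nat_lit 163) (nat_lit 3) (nat_lit 174) (nat_lit 3) (nat_lit 174) (nat_lit 5) (nat_lit 446) (nat_lit 446) (nat_lit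 308)) (XT.lf (nat_lit 76) (nat_lit 8371118304) (nat_lit 0) (nat_lit 8574087950) (nat_lit 836) (nat_lit 22326064270) (nat_lit 164) (nat_lit 5) (nat_lit 163) (nat_lit 3) (nat_lit 174) (nat_lit 5) (nat_lit 447) (nat_lit 446) (nat_lit 307))) (XT.nd (nat_lit 78) (nat_lit 0) (nat_lit 0) (XT.lf (nat_lit 0) (nat_lit 17918016298) (nat_lit 760) (nat_lit 11366087850) (nat_lit 836) (nat_lit 10965948410) (nat_lit 164) (nat_lit 5) (nat_lit 174) (nat_lit 5) (nat_lit 175) (nat_lit 5) (nat_lit 448) (nat_lit 446) (nat_lit 306)) (XT.lf (nat_lit 76) (nat_lit 9300178388) (nat_lit 0) (nat_lit 9922369518) (nat_lit 836) (nat_lit 22041071940) (nat_lit 165) (nat_lit 5) (nat_lit 164) (nat_lit 5) (nat_lit 175) (nat_lit 5) (nat_lit 449) (nat_lit 446) (nat_lit 305)))) (XT.nd (nat_lit 156) (nat_lit 0) (nat_lit 76) (XT.nd (nat_lit 78) (nat_lit 0) (nat_lit 0) (XT.lf (nat_lit 0) (nat_lit 20947880236) (nat_lit 760) (nat_lit 11091248209)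 (nat_lit 836) (nat_lit 10270958543) (nat_lit 165) (nat_lit 5) (nat_lit 175) (nat_lit 5) (nat_lit 176) (nat_lit 5) (nat_lit 450) (nat_lit 446) (nat_lit 304)) (XT.lf (nat_lit 76) (nat_lit 11012726062) (nat_lit 0) (nat_lit 12078915267) (nat_lit 836) (nat_lit 20300628240) (nat_lit 166) (nat_lit 5) (nat_lit 165) (nat_lit 5) (nat_lit 176) (nat_lit 5) (nat_lit 451) (nat_lit 446) (nat_lit 303))) (XT.nd (nat_lit 78) (nat_lit 0) (nat_lit 0) (XT.lf (nat_lit 0) (nat_lit 25669799473) (nat_lit 760) (nat_lit 10055662892) (nat_lit 836) (nat_lit 8786738642) (nat_lit 166) (nat_lit 5) (nat_lit 176) (nat_lit 5) (nat_lit 177) (nat_lit 5) (nat_lit 452) (nat_lit 446) (nat_lit 302)) (XT.lf (nat_lit 76) (nat_lit 13620681353) (nat_lit 0) (nat_lit 15164630635) (nat_lit 836) (nat_lit 16882394874) (nat_lit 167) (nat_lit 5) (nat_lit 166) (nat_lit 5) (nat_lit 177) (nat_lit 5) (nat_lit 453) (nat_lit 446) (nat_lit 301)))))) (XT.nd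 (nat_lit 624) (nat_lit 1672) (nat_lit 0) (XT.nd (nat_lit 312) (nat_lit 912) (nat_lit 0) (XT.nd (nat_lit 156) (nat_lit 684) (nat_lit 0) (XT.nd (nat_lit 78) (nat_lit 0) (nat_lit 0) (XT.lf (nat_lit 0) (nat_lit 32327852697) (nat_lit 760) (nat_lit 8147363434) (nat_lit 836) (nat_lit 6392209414) (nat_lit 167) (nat_lit 5) (nat_lit 177) (nat_lit 5) (nat_lit 178) (nat_lit 5) (nat_lit 454) (nat_lit 446) (nat_lit 300)) (XT.lf (nat_lit 76) (nat_lit 17249092472) (nat_lit 0) (nat_lit 19314299768) (nat_lit 836) (nat_lit 11537944485) (nat_lit 168) (nat_lit 5) (nat_lit 167) (nat_lit 5) (nat_lit 178) (nat_lit 5) (nat_lit 455) (nat_lit 446) (nat_lit 299))) (XT.nd (nat_lit 78) (nat_lit 760) (nat_lit 0) (XT.lf (nat_lit 0) (nat_lit 41194341168) (nat_lit 760) (nat_lit 5241171092) (nat_lit 76) (nat_lit 2952249732) (nat_lit 168) (nat_lit 5) (nat_lit 178) (nat_lit 5) (nat_lit 169) (nat_lit 5) (nat_lit 456) (nat_lit 446)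 (nat_lit 298)) (XT.lf (nat_lit 0) (nat_lit 22037504728) (nat_lit 760) (nat_lit 24678162157) (nat_lit 836) (nat_lit 3989900309) (nat_lit 158) (nat_lit 5) (nat_lit 168) (nat_lit 5) (nat_lit 169) (nat_lit 5) (nat_lit 457) (nat_lit 446) (nat_lit 297)))) (XT.nd (nat_lit 156) (nat_lit 380) (nat_lit 0) (XT.nd (nat_lit 78) (nat_lit 456) (nat_lit 0) (XT.lf (nat_lit 0) (nat_lit 498616909) (nat_lit 836) (nat_lit 1232515188) (nat_lit 76) (nat_lit 50353380613) (nat_lit 157) (nat_lit 5) (nat_lit 168) (nat_lit 5) (nat_lit 158) (nat_lit 5) (nat_lit 458) (nat_lit 446) (nat_lit 296)) (XT.lf (nat_lit 0) (nat_lit 5876902976) (nat_lit 532) (nat_lit 25447220603) (nat_lit 76) (nat_lit 22165040145) (nat_lit 151) (nat_lit 5) (nat_lit 158) (nat_lit 5) (nat_lit 152) (nat_lit 5) (nat_lit 459) (nat_lit 446) (nat_lit 295))) (XT.nd (nat_lit 78) (nat_lit 0) (nat_lit 0) (XT.lf (nat_lit 0) (nat_lit 3956136473) (nat_lit 380) (nat_lit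 7677642886) (nat_lit 456) (nat_lit 43324784243) (nat_lit 146) (nat_lit 5) (nat_lit 151) (nat_lit 5) (nat_lit 152) (nat_lit 5) (nat_lit 460) (nat_lit 446) (nat_lit 294)) (XT.lf (nat_lit 0) (nat_lit 18382672454) (nat_lit 456) (nat_lit 21043325060) (nat_lit 76) (nat_lit 17040227425) (nat_lit 146) (nat_lit 5) (nat_lit 152) (nat_lit 5) (nat_lit 147) (nat_lit 5) (nat_lit 461) (nat_lit 446) (nat_lit 293))))) (XT.nd (nat_lit 312) (nat_lit 988) (nat_lit 0) (XT.nd (nat_lit 156) (nat_lit 304) (nat_lit 0) (XT.nd (nat_lit 78) (nat_lit 0) (nat_lit 0) (XT.lf (nat_lit 0) (nat_lit 10626331966) (nat_lit 380) (nat_lit 15132894971) (nat_lit 456) (nat_lit 32275531672) (nat_lit 141) (nat_lit 5) (nat_lit 146) (nat_lit 5) (nat_lit 147) (nat_lit 5) (nat_lit 462) (nat_lit 446) (nat_lit 292)) (XT.lf (nat_lit 0) (nat_lit 34027304784) (nat_lit 456) (nat_lit 15223367510) (nat_lit 76) (nat_lit 10404911987) (nat_lit 141) (nat_lit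 5) (nat_lit 147) (nat_lit 5) (nat_lit 142) (nat_lit 5) (nat_lit 463) (nat_lit 446) (nat_lit 291))) (XT.nd (nat_lit 78) (nat_lit 0) (nat_lit 0) (XT.lf (nat_lit 0) (nat_lit 18927035180) (nat_lit 304) (nat_lit 24323901162) (nat_lit 380) (nat_lit 18079407500) (nat_lit 137) (nat_lit 5) (nat_lit 141) (nat_lit 5) (nat_lit 142) (nat_lit 5) (nat_lit 464) (nat_lit 446) (nat_lit 290)) (XT.lf (nat_lit 0) (nat_lit 53225268376) (nat_lit 380) (nat_lit 7797222537) (nat_lit 76) (nat_lit 2051874612) (nat_lit 137) (nat_lit 5) (nat_lit 142) (nat_lit 5) (nat_lit 138) (nat_lit 5) (nat_lit 465) (nat_lit 446) (nat_lit 289)))) (XT.nd (nat_lit 156) (nat_lit 304) (nat_lit 0) (XT.nd (nat_lit 78) (nat_lit 380) (nat_lit 0) (XT.lf (nat_lit 0) (nat_lit 29069238240) (nat_lit 304) (nat_lit 35480355903) (nat_lit 380) (nat_lit 313430377) (nat_lit 133) (nat_lit 5) (nat_lit 137) (nat_lit 5) (nat_lit 138) (nat_lit 5) (nat_lit 466) (nat_lit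 446) (nat_lit 288)) (XT.lf (nat_lit 0) (nat_lit 1198379707) (nat_lit 304) (nat_lit 8341825586) (nat_lit 380) (nat_lit 57185759069) (nat_lit 128) (nat_lit 5) (nat_lit 132) (nat_lit 5) (nat_lit 133) (nat_lit 5) (nat_lit 467) (nat_lit 446) (nat_lit 287))) (XT.nd (nat_lit 78) (nat_lit 304) (nat_lit 0) (XT.lf (nat_lit 0) (nat_lit 20805490169) (nat_lit 380) (nat_lit 27700264556) (nat_lit 76) (nat_lit 20129564598) (nat_lit 128) (nat_lit 5) (nat_lit 133) (nat_lit 5) (nat_lit 129) (nat_lit 5) (nat_lit 468) (nat_lit 446) (nat_lit 286)) (XT.nd (nat_lit 78) (nat_lit 0) (nat_lit 0) (XT.lf (nat_lit 0) (nat_lit 12272932493) (nat_lit 304) (nat_lit 20688257211) (nat_lit 380) (nat_lit 37662594877) (nat_lit 124) (nat_lit 5) (nat_lit 128) (nat_lit 5) (nat_lit 129) (nat_lit 5) (nat_lit 469) (nat_lit 446) (nat_lit 285)) (XT.lf (nat_lit 0) (nat_lit 46333318003) (nat_lit 380) (nat_lit 17624027667) (nat_lit 76) (nat_lit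 8723895312) (nat_lit 124) (nat_lit 5) (nat_lit 129) (nat_lit 5) (nat_lit 125) (nat_lit 5) (nat_lit 470) (nat_lit 446) (nat_lit 284))))))))
noncomputable def xc371 : XT := (XT.nd (nat_lit 1248) (nat_lit 1596) (nat_lit 0) (XT.nd (nat_lit 624) (nat_lit 1064) (nat_lit 0) (XT.nd (nat_lit 312) (nat_lit 456) (nat_lit 0) (XT.nd (nat_lit 156) (nat_lit 608) (nat_lit 0) (XT.nd (nat_lit 78) (nat_lit 0) (nat_lit 0) (XT.lf (nat_lit 0) (nat_lit 25618434060) (nat_lit 228) (nat_lit 35493615561) (nat_lit 304) (nat_lit 13692620799) (nat_lit 121) (nat_lit 5) (nat_lit 124) (nat_lit 5) (nat_lit 125) (nat_lit 5) (nat_lit 471) (nat_lit 446) (nat_lit 283)) (XT.lf (nat_lit 0) (nat_lit 71633407507) (nat_lit 228) (nat_lit 5293682103) (nat_lit 304) (nat_lit 92313191) (nat_lit 121) (nat_lit 5) (nat_lit 124) (nat_lit 5) (nat_lit 125) (nat_lit 5) (nat_lit 472) (nat_lit 446) (nat_lit 282))) (XT.nd (nat_lit 78) (nat_lit 228) (nat_lit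 0) (XT.lf (nat_lit 0) (nat_lit 14810886047) (nat_lit 380) (nat_lit 38011529471) (nat_lit 76) (nat_lit 26457531551) (nat_lit 116) (nat_lit 5) (nat_lit 121) (nat_lit 5) (nat_lit 117) (nat_lit 5) (nat_lit 473) (nat_lit 446) (nat_lit 281)) (XT.lf (nat_lit 0) (nat_lit 8990065533) (nat_lit 228) (nat_lit 21784886969) (nat_lit 304) (nat_lit 50862549956) (nat_lit 113) (nat_lit 5) (nat_lit 116) (nat_lit 5) (nat_lit 117) (nat_lit 5) (nat_lit 474) (nat_lit 446) (nat_lit 280)))) (XT.nd (nat_lit 156) (nat_lit 228) (nat_lit 0) (XT.nd (nat_lit 78) (nat_lit 228) (nat_lit 0) (XT.lf (nat_lit 0) (nat_lit 48359186387) (nat_lit 304) (nat_lit 24600061438) (nat_lit 76) (nat_lit 11112589635) (nat_lit 113) (nat_lit 5) (nat_lit 117) (nat_lit 5) (nat_lit 114) (nat_lit 5) (nat_lit 475) (nat_lit 446) (nat_lit 279)) (XT.lf (nat_lit 0) (nat_lit 26333990655) (nat_lit 228) (nat_lit 41255945124) (nat_lit 304) (nat_lit 18999588292)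 (nat_lit 110) (nat_lit 5) (nat_lit 113) (nat_lit 5) (nat_lit 114) (nat_lit 5) (nat_lit 476) (nat_lit 446) (nat_lit 278))) (XT.nd (nat_lit 78) (nat_lit 228) (nat_lit 0) (XT.lf (nat_lit 0) (nat_lit 80667411729) (nat_lit 228) (nat_lit 7530476572) (nat_lit 304) (nat_lit 1014423473) (nat_lit 110) (nat_lit 5) (nat_lit 113) (nat_lit 5) (nat_lit 114) (nat_lit 5) (nat_lit 477) (nat_lit 446) (nat_lit 277)) (XT.lf (nat_lit 0) (nat_lit 18482426374) (nat_lit 228) (nat_lit 45393177805) (nat_lit 76) (nat_lit 28017465767) (nat_lit 107) (nat_lit 5) (nat_lit 110) (nat_lit 5) (nat_lit 108) (nat_lit 5) (nat_lit 478) (nat_lit 446) (nat_lit 276))))) (XT.nd (nat_lit 312) (nat_lit 608) (nat_lit 0) (XT.nd (nat_lit 156) (nat_lit 228) (nat_lit 0) (XT.nd (nat_lit 78) (nat_lit 0) (nat_lit 0) (XT.lf (nat_lit 0) (nat_lit 10071478327) (nat_lit 228) (nat_lit 29275425933) (nat_lit 304) (nat_lit 55338786469) (nat_lit 104) (nat_lit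 5) (nat_lit 107) (nat_lit 5) (nat_lit 108) (nat_lit 5) (nat_lit 479) (nat_lit 446) (nat_lit 275)) (XT.lf (nat_lit 0) (nat_lit 62145221188) (nat_lit 304) (nat_lit 27818322956) (nat_lit 76) (nat_lit 7609867689) (nat_lit 104) (nat_lit 5) (nat_lit 108) (nat_lit 5) (nat_lit 105) (nat_lit 5) (nat_lit 480) (nat_lit 446) (nat_lit 274))) (XT.nd (nat_lit 78) (nat_lit 76) (nat_lit 0) (XT.lf (nat_lit 0) (nat_lit 32372228540) (nat_lit 152) (nat_lit 54695726478) (nat_lit 228) (nat_lit 13488338955) (nat_lit 102) (nat_lit 5) (nat_lit 104) (nat_lit 5) (nat_lit 105) (nat_lit 5) (nat_lit 481) (nat_lit 446) (nat_lit 273)) (XT.lf (nat_lit 0) (nat_lit 9720894730) (nat_lit 228) (nat_lit 7284796917) (nat_lit 76) (nat_lit 86651274600) (nat_lit 101) (nat_lit 5) (nat_lit 104) (nat_lit 5) (nat_lit 102) (nat_lit 5) (nat_lit 482) (nat_lit 446) (nat_lit 272)))) (XT.nd (nat_lit 156) (nat_lit 228) (nat_lit 0) (XT.nd (nat_lit 78)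 (nat_lit 152) (nat_lit 0) (XT.lf (nat_lit 0) (nat_lit 34917672759) (nat_lit 304) (nat_lit 48923931118) (nat_lit 76) (nat_lit 22995993308) (nat_lit 98) (nat_lit 5) (nat_lit 102) (nat_lit 5) (nat_lit 99) (nat_lit 5) (nat_lit 483) (nat_lit 446) (nat_lit 271)) (XT.lf (nat_lit 0) (nat_lit 16706505445) (nat_lit 152) (nat_lit 45332008041) (nat_lit 228) (nat_lit 48105535022) (nat_lit 96) (nat_lit 5) (nat_lit 98) (nat_lit 5) (nat_lit 99) (nat_lit 5) (nat_lit 484) (nat_lit 446) (nat_lit 270))) (XT.nd (nat_lit 78) (nat_lit 228) (nat_lit 0) (XT.lf (nat_lit 0) (nat_lit 87315737271) (nat_lit 152) (nat_lit 4027439883) (nat_lit 228) (nat_lit 22231256228) (nat_lit 96) (nat_lit 5) (nat_lit 98) (nat_lit 5) (nat_lit 99) (nat_lit 5) (nat_lit 485) (nat_lit 446) (nat_lit 269)) (XT.lf (nat_lit 0) (nat_lit 6118088973) (nat_lit 228) (nat_lit 72101787892) (nat_lit 76) (nat_lit 38885638901) (nat_lit 93) (nat_lit 5) (nat_lit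 96) (nat_lit 5) (nat_lit 94) (nat_lit 5) (nat_lit 486) (nat_lit 446) (nat_lit 268)))))) (XT.nd (nat_lit 624) (nat_lit 760) (nat_lit 0) (XT.nd (nat_lit 312) (nat_lit 456) (nat_lit 0) (XT.nd (nat_lit 156) (nat_lit 228) (nat_lit 0) (XT.nd (nat_lit 78) (nat_lit 152) (nat_lit 0) (XT.lf (nat_lit 0) (nat_lit 35655067427) (nat_lit 228) (nat_lit 488991308) (nat_lit 76) (nat_lit 84625007118) (nat_lit 93) (nat_lit 5) (nat_lit 96) (nat_lit 5) (nat_lit 94) (nat_lit 5) (nat_lit 487) (nat_lit 446) (nat_lit 267)) (XT.lf (nat_lit 0) (nat_lit 68018288218) (nat_lit 228) (nat_lit 47527484364) (nat_lit 76) (nat_lit 9002551215) (nat_lit 91) (nat_lit 5) (nat_lit 94) (nat_lit 5) (nat_lit 92) (nat_lit 5) (nat_lit 488) (nat_lit 446) (nat_lit 266))) (XT.nd (nat_lit 78) (nat_lit 76) (nat_lit 0) (XT.lf (nat_lit 0) (nat_lit 30282393363) (nat_lit 152) (nat_lit 72790319872) (nat_lit 228) (nat_lit 25390179265) (nat_lit 89) (nat_lit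 5) (nat_lit 91) (nat_lit 5) (nat_lit 92) (nat_lit 5) (nat_lit 489) (nat_lit 446) (nat_lit 265)) (XT.lf (nat_lit 0) (nat_lit 7890218120) (nat_lit 228) (nat_lit 19028587990) (nat_lit 76) (nat_lit 105607809303) (nat_lit 88) (nat_lit 5) (nat_lit 91) (nat_lit 5) (nat_lit 89) (nat_lit 5) (nat_lit 490) (nat_lit 446) (nat_lit 264)))) (XT.nd (nat_lit 156) (nat_lit 152) (nat_lit 0) (XT.nd (nat_lit 78) (nat_lit 152) (nat_lit 0) (XT.lf (nat_lit 0) (nat_lit 43362898019) (nat_lit 228) (nat_lit 71308202786) (nat_lit 76) (nat_lit 22032535105) (nat_lit 86) (nat_lit 5) (nat_lit 89) (nat_lit 5) (nat_lit 87) (nat_lit 5) (nat_lit 491) (nat_lit 446) (nat_lit 263)) (XT.lf (nat_lit 0) (nat_lit 13615978941) (nat_lit 152) (nat_lit 67974000465) (nat_lit 228) (nat_lit 59450489669) (nat_lit 84) (nat_lit 5) (nat_lit 86) (nat_lit 5) (nat_lit 87) (nat_lit 5) (nat_lit 492) (nat_lit 446) (nat_lit 262))) (XT.nd (nat_lit 78) (nat_lit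 152) (nat_lit 0) (XT.lf (nat_lit 0) (nat_lit 105260914832) (nat_lit 152) (nat_lit 17674503196) (nat_lit 228) (nat_lit 22598375729) (nat_lit 84) (nat_lit 5) (nat_lit 86) (nat_lit 5) (nat_lit 87) (nat_lit 5) (nat_lit 493) (nat_lit 446) (nat_lit 261)) (XT.lf (nat_lit 0) (nat_lit 16969092884) (nat_lit 152) (nat_lit 98094680030) (nat_lit 76) (nat_lit 35106049699) (nat_lit 82) (nat_lit 5) (nat_lit 84) (nat_lit 5) (nat_lit 83) (nat_lit 5) (nat_lit 494) (nat_lit 446) (nat_lit 260))))) (XT.nd (nat_lit 312) (nat_lit 456) (nat_lit 0) (XT.nd (nat_lit 156) (nat_lit 152) (nat_lit 0) (XT.nd (nat_lit 78) (nat_lit 152) (nat_lit 0) (XT.lf (nat_lit 0) (nat_lit 58737839012) (nat_lit 152) (nat_lit 5237281892) (nat_lit 76) (nat_lit 90994890876) (nat_lit 82) (nat_lit 5) (nat_lit 84) (nat_lit 5) (nat_lit 83) (nat_lit 5) (nat_lit 495) (nat_lit 446) (nat_lit 259)) (XT.lf (nat_lit 0) (nat_lit 95312547206) (nat_lit 152) (nat_lit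 8769990315) (nat_lit 228) (nat_lit 55853297147) (nat_lit 80) (nat_lit 5) (nat_lit 82) (nat_lit 5) (nat_lit 83) (nat_lit 5) (nat_lit 496) (nat_lit 446) (nat_lit 258))) (XT.nd (nat_lit 78) (nat_lit 76) (nat_lit 0) (XT.lf (nat_lit 0) (nat_lit 36318011140) (nat_lit 76) (nat_lit 116801137528) (nat_lit 152) (nat_lit 11959566160) (nat_lit 79) (nat_lit 5) (nat_lit 80) (nat_lit 5) (nat_lit 81) (nat_lit 4) (nat_lit 497) (nat_lit 446) (nat_lit 257)) (XT.lf (nat_lit 0) (nat_lit 34292079401) (nat_lit 152) (nat_lit 26569669788) (nat_lit 76) (nat_lit 109527569248) (nat_lit 78) (nat_lit 5) (nat_lit 80) (nat_lit 5) (nat_lit 79) (nat_lit 5) (nat_lit 498) (nat_lit 446) (nat_lit 256)))) (XT.nd (nat_lit 156) (nat_lit 228) (nat_lit 0) (XT.nd (nat_lit 78) (nat_lit 76) (nat_lit 0) (XT.lf (nat_lit 0) (nat_lit 83196677605) (nat_lit 152) (nat_lit 556096431) (nat_lit 228) (nat_lit 92137955947) (nat_lit 76) (nat_lit 5) (nat_lit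 78) (nat_lit 5) (nat_lit 79) (nat_lit 5) (nat_lit 499) (nat_lit 446) (nat_lit 255)) (XT.lf (nat_lit 0) (nat_lit 17294284322) (nat_lit 76) (nat_lit 120098970374) (nat_lit 152) (nat_lit 44188619857) (nat_lit 75) (nat_lit 5) (nat_lit 76) (nat_lit 5) (nat_lit 77) (nat_lit 4) (nat_lit 500) (nat_lit 446) (nat_lit 254))) (XT.nd (nat_lit 78) (nat_lit 152) (nat_lit 0) (XT.lf (nat_lit 0) (nat_lit 7565211450) (nat_lit 152) (nat_lit 51610915650) (nat_lit 76) (nat_lit 128296435499) (nat_lit 74) (nat_lit 5) (nat_lit 76) (nat_lit 5) (nat_lit 75) (nat_lit 5) (nat_lit 501) (nat_lit 446) (nat_lit 253)) (XT.nd (nat_lit 78) (nat_lit 0) (nat_lit 0) (XT.lf (nat_lit 0) (nat_lit 61589435226) (nat_lit 228) (nat_lit 125516884343) (nat_lit 76) (nat_lit 6456858894) (nat_lit 72) (nat_lit 5) (nat_lit 75) (nat_lit 5) (nat_lit 73) (nat_lit 4) (nat_lit 502) (nat_lit 446) (nat_lit 252)) (XT.lf (nat_lit 0) (nat_lit 120172843243)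 (nat_lit 228) (nat_lit 5421827095) (nat_lit 76) (nat_lit 74270756139) (nat_lit 72) (nat_lit 5) (nat_lit 75) (nat_lit 5) (nat_lit 73) (nat_lit 4) (nat_lit 503) (nat_lit 446) (nat_lit 251))))))))
noncomputable def xc372 : XT := (XT.nd (nat_lit 1248) (nat_lit 1216) (nat_lit 0) (XT.nd (nat_lit 624) (nat_lit 608) (nat_lit 0) (XT.nd (nat_lit 312) (nat_lit 228) (nat_lit 0) (XT.nd (nat_lit 156) (nat_lit 76) (nat_lit 0) (XT.nd (nat_lit 78) (nat_lit 228) (nat_lit 0) (XT.lf (nat_lit 0) (nat_lit 124667203156) (nat_lit 76) (nat_lit 58964135302) (nat_lit 152) (nat_lit 22754152601) (nat_lit 71) (nat_lit 5) (nat_lit 72) (nat_lit 5) (nat_lit 73) (nat_lit 4) (nat_lit 504) (nat_lit 446) (nat_lit 250)) (XT.lf (nat_lit 0) (nat_lit 36902526186) (nat_lit 228) (nat_lit 164138281780) (nat_lit 76) (nat_lit 12109015060) (nat_lit 68) (nat_lit 5) (nat_lit 71) (nat_lit 5) (nat_lit 69) (nat_lit 4) (nat_lit 505) (nat_lit 446)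 (nat_lit 249))) (XT.nd (nat_lit 78) (nat_lit 76) (nat_lit 0) (XT.lf (nat_lit 0) (nat_lit 101150118033) (nat_lit 228) (nat_lit 32431482939) (nat_lit 76) (nat_lit 86533481288) (nat_lit 68) (nat_lit 5) (nat_lit 71) (nat_lit 5) (nat_lit 69) (nat_lit 4) (nat_lit 506) (nat_lit 446) (nat_lit 248)) (XT.lf (nat_lit 0) (nat_lit 109359988943) (nat_lit 76) (nat_lit 60957055882) (nat_lit 152) (nat_lit 57026211870) (nat_lit 67) (nat_lit 5) (nat_lit 68) (nat_lit 5) (nat_lit 69) (nat_lit 4) (nat_lit 507) (nat_lit 446) (nat_lit 247)))) (XT.nd (nat_lit 156) (nat_lit 76) (nat_lit 0) (XT.nd (nat_lit 78) (nat_lit 0) (nat_lit 0) (XT.lf (nat_lit 0) (nat_lit 8959761263) (nat_lit 152) (nat_lit 210004533527) (nat_lit 76) (nat_lit 15901960725) (nat_lit 65) (nat_lit 5) (nat_lit 67) (nat_lit 5) (nat_lit 66) (nat_lit 4) (nat_lit 508) (nat_lit 446) (nat_lit 246)) (XT.lf (nat_lit 0) (nat_lit 79358276688) (nat_lit 152) (nat_lit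 65688205816) (nat_lit 76) (nat_lit 97520694066) (nat_lit 65) (nat_lit 5) (nat_lit 67) (nat_lit 5) (nat_lit 66) (nat_lit 4) (nat_lit 509) (nat_lit 446) (nat_lit 245))) (XT.nd (nat_lit 78) (nat_lit 0) (nat_lit 0) (XT.lf (nat_lit 0) (nat_lit 88681467784) (nat_lit 76) (nat_lit 65979380886) (nat_lit 152) (nat_lit 95923088476) (nat_lit 64) (nat_lit 5) (nat_lit 65) (nat_lit 5) (nat_lit 66) (nat_lit 4) (nat_lit 510) (nat_lit 446) (nat_lit 244)) (XT.lf (nat_lit 0) (nat_lit 235124873243) (nat_lit 152) (nat_lit 6180870624) (nat_lit 0) (nat_lit 17625975689) (nat_lit 64) (nat_lit 5) (nat_lit 66) (nat_lit 4) (nat_lit 64) (nat_lit 4) (nat_lit 511) (nat_lit 446) (nat_lit 243))))) (XT.nd (nat_lit 312) (nat_lit 228) (nat_lit 0) (XT.nd (nat_lit 156) (nat_lit 152) (nat_lit 0) (XT.nd (nat_lit 78) (nat_lit 76) (nat_lit 0) (XT.lf (nat_lit 0) (nat_lit 53913921560) (nat_lit 152) (nat_lit 106975875761) (nat_lit 76) (nat_lit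 106583550452) (nat_lit 62) (nat_lit 5) (nat_lit 64) (nat_lit 5) (nat_lit 63) (nat_lit 4) (nat_lit 512) (nat_lit 446) (nat_lit 242)) (XT.lf (nat_lit 0) (nat_lit 60842032564) (nat_lit 76) (nat_lit 74934523676) (nat_lit 152) (nat_lit 140593192629) (nat_lit 61) (nat_lit 5) (nat_lit 62) (nat_lit 5) (nat_lit 63) (nat_lit 4) (nat_lit 513) (nat_lit 446) (nat_lit 241))) (XT.nd (nat_lit 78) (nat_lit 152) (nat_lit 0) (XT.lf (nat_lit 0) (nat_lit 223812465032) (nat_lit 152) (nat_lit 45125249062) (nat_lit 0) (nat_lit 16669248812) (nat_lit 61) (nat_lit 5) (nat_lit 63) (nat_lit 4) (nat_lit 61) (nat_lit 4) (nat_lit 514) (nat_lit 446) (nat_lit 240)) (XT.lf (nat_lit 0) (nat_lit 23695212599) (nat_lit 152) (nat_lit 158568456062) (nat_lit 76) (nat_lit 112854947958) (nat_lit 59) (nat_lit 5) (nat_lit 61) (nat_lit 5) (nat_lit 60) (nat_lit 4) (nat_lit 515) (nat_lit 446) (nat_lit 239)))) (XT.nd (nat_lit 156) (nat_lit 152)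 (nat_lit 0) (XT.nd (nat_lit 78) (nat_lit 0) (nat_lit 0) (XT.lf (nat_lit 0) (nat_lit 23535310839) (nat_lit 76) (nat_lit 88991205322) (nat_lit 152) (nat_lit 192471495239) (nat_lit 58) (nat_lit 5) (nat_lit 59) (nat_lit 5) (nat_lit 60) (nat_lit 4) (nat_lit 516) (nat_lit 446) (nat_lit 238)) (XT.lf (nat_lit 0) (nat_lit 208668107517) (nat_lit 152) (nat_lit 95172137512) (nat_lit 0) (nat_lit 11387694764) (nat_lit 58) (nat_lit 5) (nat_lit 60) (nat_lit 4) (nat_lit 58) (nat_lit 4) (nat_lit 517) (nat_lit 446) (nat_lit 237))) (XT.nd (nat_lit 78) (nat_lit 76) (nat_lit 0) (XT.lf (nat_lit 0) (nat_lit 102245863913) (nat_lit 76) (nat_lit 210425760671) (nat_lit 76) (nat_lit 13144997718) (nat_lit 57) (nat_lit 4) (nat_lit 58) (nat_lit 5) (nat_lit 58) (nat_lit 4) (nat_lit 518) (nat_lit 446) (nat_lit 236)) (XT.lf (nat_lit 0) (nat_lit 83859788518) (nat_lit 152) (nat_lit 25368530014) (nat_lit 76) (nat_lit 227558220436)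 (nat_lit 56) (nat_lit 5) (nat_lit 58) (nat_lit 5) (nat_lit 57) (nat_lit 4) (nat_lit 519) (nat_lit 446) (nat_lit 235)))))) (XT.nd (nat_lit 624) (nat_lit 684) (nat_lit 0) (XT.nd (nat_lit 312) (nat_lit 228) (nat_lit 0) (XT.nd (nat_lit 156) (nat_lit 152) (nat_lit 0) (XT.nd (nat_lit 78) (nat_lit 76) (nat_lit 0) (XT.lf (nat_lit 0) (nat_lit 188222101451) (nat_lit 152) (nat_lit 159589582773) (nat_lit 0) (nat_lit 335040384) (nat_lit 55) (nat_lit 5) (nat_lit 57) (nat_lit 4) (nat_lit 55) (nat_lit 4) (nat_lit 520) (nat_lit 446) (nat_lit 234)) (XT.lf (nat_lit 0) (nat_lit 53934268592) (nat_lit 76) (nat_lit 246937274727) (nat_lit 76) (nat_lit 59049925549) (nat_lit 54) (nat_lit 4) (nat_lit 55) (nat_lit 5) (nat_lit 55) (nat_lit 4) (nat_lit 521) (nat_lit 446) (nat_lit 233))) (XT.nd (nat_lit 78) (nat_lit 76) (nat_lit 0) (XT.lf (nat_lit 0) (nat_lit 48115104893) (nat_lit 152) (nat_lit 89251658537) (nat_lit 76) (nat_lit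 234744265334) (nat_lit 53) (nat_lit 5) (nat_lit 55) (nat_lit 5) (nat_lit 54) (nat_lit 4) (nat_lit 522) (nat_lit 446) (nat_lit 232)) (XT.lf (nat_lit 0) (nat_lit 141893446807) (nat_lit 76) (nat_lit 18975495486) (nat_lit 152) (nat_lit 223881971778) (nat_lit 52) (nat_lit 5) (nat_lit 53) (nat_lit 5) (nat_lit 54) (nat_lit 4) (nat_lit 523) (nat_lit 446) (nat_lit 231)))) (XT.nd (nat_lit 156) (nat_lit 76) (nat_lit 0) (XT.nd (nat_lit 78) (nat_lit 152) (nat_lit 0) (XT.lf (nat_lit 0) (nat_lit 282441017000) (nat_lit 152) (nat_lit 11922812162) (nat_lit 0) (nat_lit 103499937213) (nat_lit 52) (nat_lit 5) (nat_lit 54) (nat_lit 4) (nat_lit 52) (nat_lit 4) (nat_lit 524) (nat_lit 446) (nat_lit 230)) (XT.lf (nat_lit 0) (nat_lit 2599131333) (nat_lit 152) (nat_lit 173613086297) (nat_lit 76) (nat_lit 235216726820) (nat_lit 50) (nat_lit 5) (nat_lit 52) (nat_lit 5) (nat_lit 51) (nat_lit 4) (nat_lit 525) (nat_lit 446) (nat_lit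 229))) (XT.nd (nat_lit 78) (nat_lit 0) (nat_lit 0) (XT.lf (nat_lit 0) (nat_lit 75307298962) (nat_lit 76) (nat_lit 48716515420) (nat_lit 152) (nat_lit 301484924759) (nat_lit 49) (nat_lit 5) (nat_lit 50) (nat_lit 5) (nat_lit 51) (nat_lit 4) (nat_lit 526) (nat_lit 446) (nat_lit 228)) (XT.lf (nat_lit 0) (nat_lit 255837329216) (nat_lit 152) (nat_lit 98822675998) (nat_lit 0) (nat_lit 85416638475) (nat_lit 49) (nat_lit 5) (nat_lit 51) (nat_lit 4) (nat_lit 49) (nat_lit 4) (nat_lit 527) (nat_lit 446) (nat_lit 227))))) (XT.nd (nat_lit 312) (nat_lit 380) (nat_lit 0) (XT.nd (nat_lit 156) (nat_lit 152) (nat_lit 0) (XT.nd (nat_lit 78) (nat_lit 76) (nat_lit 0) (XT.lf (nat_lit 0) (nat_lit 169759149049) (nat_lit 76) (nat_lit 227931116787) (nat_lit 76) (nat_lit 57510240327) (nat_lit 48) (nat_lit 4) (nat_lit 49) (nat_lit 5) (nat_lit 49) (nat_lit 4) (nat_lit 528) (nat_lit 446) (nat_lit 226)) (XT.lf (nat_lit 0) (nat_lit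 74837791410) (nat_lit 152) (nat_lit 17003580943) (nat_lit 76) (nat_lit 379095170673) (nat_lit 47) (nat_lit 5) (nat_lit 49) (nat_lit 5) (nat_lit 48) (nat_lit 4) (nat_lit 529) (nat_lit 446) (nat_lit 225))) (XT.nd (nat_lit 78) (nat_lit 76) (nat_lit 0) (XT.lf (nat_lit 0) (nat_lit 217009184197) (nat_lit 152) (nat_lit 215442865280) (nat_lit 0) (nat_lit 54703258685) (nat_lit 46) (nat_lit 5) (nat_lit 48) (nat_lit 4) (nat_lit 46) (nat_lit 4) (nat_lit 530) (nat_lit 446) (nat_lit 224)) (XT.lf (nat_lit 0) (nat_lit 72080105850) (nat_lit 76) (nat_lit 297132407828) (nat_lit 76) (nat_lit 134826329523) (nat_lit 45) (nat_lit 4) (nat_lit 46) (nat_lit 5) (nat_lit 46) (nat_lit 4) (nat_lit 531) (nat_lit 446) (nat_lit 223)))) (XT.nd (nat_lit 156) (nat_lit 228) (nat_lit 0) (XT.nd (nat_lit 78) (nat_lit 76) (nat_lit 0) (XT.lf (nat_lit 0) (nat_lit 10735263500) (nat_lit 152) (nat_lit 140298933642) (nat_lit 76) (nat_lit 370541282993)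 (nat_lit 44) (nat_lit 5) (nat_lit 46) (nat_lit 5) (nat_lit 45) (nat_lit 4) (nat_lit 532) (nat_lit 446) (nat_lit 222)) (XT.lf (nat_lit 0) (nat_lit 161800978531) (nat_lit 152) (nat_lit 370716111922) (nat_lit 0) (nat_lit 7223490525) (nat_lit 43) (nat_lit 5) (nat_lit 45) (nat_lit 4) (nat_lit 43) (nat_lit 4) (nat_lit 533) (nat_lit 446) (nat_lit 221))) (XT.nd (nat_lit 78) (nat_lit 228) (nat_lit 0) (XT.lf (nat_lit 0) (nat_lit 325310659438) (nat_lit 152) (nat_lit 62525697687) (nat_lit 0) (nat_lit 170733045730) (nat_lit 43) (nat_lit 5) (nat_lit 45) (nat_lit 4) (nat_lit 43) (nat_lit 4) (nat_lit 534) (nat_lit 446) (nat_lit 220)) (XT.nd (nat_lit 78) (nat_lit 152) (nat_lit 0) (XT.lf (nat_lit 0) (nat_lit 269705994729) (nat_lit 76) (nat_lit 231500437077) (nat_lit 76) (nat_lit 76922703653) (nat_lit 42) (nat_lit 4) (nat_lit 43) (nat_lit 5) (nat_lit 43) (nat_lit 4) (nat_lit 535) (nat_lit 446) (nat_lit 219)) (XT.lf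 (nat_lit 0) (nat_lit 21411634394) (nat_lit 76) (nat_lit 64436893329) (nat_lit 152) (nat_lit 512679716684) (nat_lit 40) (nat_lit 5) (nat_lit 41) (nat_lit 5) (nat_lit 42) (nat_lit 4) (nat_lit 536) (nat_lit 446) (nat_lit 218))))))))
noncomputable def xc373 : XT := (XT.nd (nat_lit 55614) (nat_lit 0) (nat_lit 8132) (XT.nd (nat_lit 624) (nat_lit 304) (nat_lit 0) (XT.nd (nat_lit 312) (nat_lit 228) (nat_lit 0) (XT.nd (nat_lit 156) (nat_lit 152) (nat_lit 0) (XT.nd (nat_lit 78) (nat_lit 76) (nat_lit 0) (XT.lf (nat_lit 0) (nat_lit 261214583992) (nat_lit 152) (nat_lit 244320121869) (nat_lit 0) (nat_lit 113997483016) (nat_lit 40) (nat_lit 5) (nat_lit 42) (nat_lit 4) (nat_lit 40) (nat_lit 4) (nat_lit 537) (nat_lit 446) (nat_lit 217)) (XT.lf (nat_lit 0) (nat_lit 107500025813) (nat_lit 76) (nat_lit 340583390288) (nat_lit 76) (nat_lit 193366190820) (nat_lit 39) (nat_lit 4) (nat_lit 40) (nat_lit 5) (nat_lit 40)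 (nat_lit 4) (nat_lit 538) (nat_lit 446) (nat_lit 216))) (XT.nd (nat_lit 78) (nat_lit 152) (nat_lit 0) (XT.lf (nat_lit 0) (nat_lit 485392937267) (nat_lit 76) (nat_lit 163040189999) (nat_lit 76) (nat_lit 15822896730) (nat_lit 39) (nat_lit 4) (nat_lit 40) (nat_lit 5) (nat_lit 40) (nat_lit 4) (nat_lit 539) (nat_lit 446) (nat_lit 215)) (XT.lf (nat_lit 0) (nat_lit 168682121773) (nat_lit 152) (nat_lit 490735136774) (nat_lit 0) (nat_lit 28475090723) (nat_lit 37) (nat_lit 5) (nat_lit 39) (nat_lit 4) (nat_lit 37) (nat_lit 4) (nat_lit 540) (nat_lit 446) (nat_lit 214)))) (XT.nd (nat_lit 156) (nat_lit 152) (nat_lit 0) (XT.nd (nat_lit 78) (nat_lit 76) (nat_lit 0) (XT.lf (nat_lit 0) (nat_lit 367631984944) (nat_lit 152) (nat_lit 117353096068) (nat_lit 0) (nat_lit 227424872865) (nat_lit 37) (nat_lit 5) (nat_lit 39) (nat_lit 4) (nat_lit 37) (nat_lit 4) (nat_lit 541) (nat_lit 446) (nat_lit 213)) (XT.lf (nat_lit 0)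 (nat_lit 283780340857) (nat_lit 76) (nat_lit 297179383965) (nat_lit 76) (nat_lit 156972194717) (nat_lit 36) (nat_lit 4) (nat_lit 37) (nat_lit 5) (nat_lit 37) (nat_lit 4) (nat_lit 542) (nat_lit 446) (nat_lit 212))) (XT.nd (nat_lit 78) (nat_lit 76) (nat_lit 0) (XT.lf (nat_lit 0) (nat_lit 40956242792) (nat_lit 152) (nat_lit 56246965019) (nat_lit 76) (nat_lit 667394385829) (nat_lit 35) (nat_lit 5) (nat_lit 37) (nat_lit 5) (nat_lit 36) (nat_lit 4) (nat_lit 543) (nat_lit 446) (nat_lit 211)) (XT.lf (nat_lit 0) (nat_lit 251193364462) (nat_lit 152) (nat_lit 423227572008) (nat_lit 0) (nat_lit 117662571377) (nat_lit 34) (nat_lit 5) (nat_lit 36) (nat_lit 4) (nat_lit 34) (nat_lit 4) (nat_lit 544) (nat_lit 446) (nat_lit 210))))) (XT.nd (nat_lit 312) (nat_lit 76) (nat_lit 0) (XT.nd (nat_lit 156) (nat_lit 152) (nat_lit 0) (XT.nd (nat_lit 78) (nat_lit 76) (nat_lit 0) (XT.lf (nat_lit 0) (nat_lit 474503810972) (nat_lit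 152) (nat_lit 5338878956) (nat_lit 0) (nat_lit 340972954399) (nat_lit 34) (nat_lit 5) (nat_lit 36) (nat_lit 4) (nat_lit 34) (nat_lit 4) (nat_lit 545) (nat_lit 446) (nat_lit 209)) (XT.lf (nat_lit 0) (nat_lit 447775452081) (nat_lit 76) (nat_lit 268195155597) (nat_lit 76) (nat_lit 134664238559) (nat_lit 33) (nat_lit 4) (nat_lit 34) (nat_lit 5) (nat_lit 34) (nat_lit 4) (nat_lit 546) (nat_lit 446) (nat_lit 208))) (XT.nd (nat_lit 78) (nat_lit 0) (nat_lit 0) (XT.lf (nat_lit 0) (nat_lit 41757841358) (nat_lit 76) (nat_lit 43748898144) (nat_lit 152) (nat_lit 796332728717) (nat_lit 31) (nat_lit 5) (nat_lit 32) (nat_lit 5) (nat_lit 33) (nat_lit 4) (nat_lit 547) (nat_lit 446) (nat_lit 207)) (XT.lf (nat_lit 0) (nat_lit 322091332378) (nat_lit 152) (nat_lit 396987151671) (nat_lit 0) (nat_lit 194918923362) (nat_lit 31) (nat_lit 5) (nat_lit 33) (nat_lit 4) (nat_lit 31) (nat_lit 4) (nat_lit 548) (nat_lit 446) (nat_lit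 206)))) (XT.nd (nat_lit 54522) (nat_lit 0) (nat_lit 10108) (XT.nd (nat_lit 78) (nat_lit 0) (nat_lit 0) (XT.lf (nat_lit 0) (nat_lit 69777788838) (nat_lit 76) (nat_lit 502533795993) (nat_lit 76) (nat_lit 375361337233) (nat_lit 30) (nat_lit 4) (nat_lit 31) (nat_lit 5) (nat_lit 31) (nat_lit 4) (nat_lit 549) (nat_lit 446) (nat_lit 205)) (XT.lf (nat_lit 0) (nat_lit 573663091718) (nat_lit 76) (nat_lit 268102738917) (nat_lit 76) (nat_lit 140930232780) (nat_lit 30) (nat_lit 4) (nat_lit 31) (nat_lit 5) (nat_lit 31) (nat_lit 4) (nat_lit 550) (nat_lit 446) (nat_lit 204))) (XT.nd (nat_lit 78) (nat_lit 0) (nat_lit 0) (XT.lf (nat_lit 0) (nat_lit 8633039687) (nat_lit 836) (nat_lit 5741911261) (nat_lit 836) (nat_lit 5741911261) (nat_lit 163) (nat_lit 3) (nat_lit 174) (nat_lit 3) (nat_lit 174) (nat_lit 5) (nat_lit 447) (nat_lit 447) (nat_lit 306)) (XT.lf (nat_lit 76) (nat_lit 8834322349) (nat_lit 0) (nat_lit 9041157365)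 (nat_lit 836) (nat_lit 23355197325) (nat_lit 164) (nat_lit 5) (nat_lit 163) (nat_lit 3) (nat_lit 174) (nat_lit 5) (nat_lit 448) (nat_lit 447) (nat_lit 305)))))) (XT.nd (nat_lit 624) (nat_lit 2052) (nat_lit 0) (XT.nd (nat_lit 312) (nat_lit 0) (nat_lit 152) (XT.nd (nat_lit 156) (nat_lit 0) (nat_lit 76) (XT.nd (nat_lit 78) (nat_lit 0) (nat_lit 0) (XT.lf (nat_lit 0) (nat_lit 18892406791) (nat_lit 760) (nat_lit 11887340694) (nat_lit 836) (nat_lit 11478877166) (nat_lit 164) (nat_lit 5) (nat_lit 174) (nat_lit 5) (nat_lit 175) (nat_lit 5) (nat_lit 449) (nat_lit 447) (nat_lit 304)) (XT.lf (nat_lit 76) (nat_lit 9811479960) (nat_lit 0) (nat_lit 10447670174) (nat_lit 836) (nat_lit 23063871200) (nat_lit 165) (nat_lit 5) (nat_lit 164) (nat_lit 5) (nat_lit 175) (nat_lit 5) (nat_lit 450) (nat_lit 447) (nat_lit 303))) (XT.nd (nat_lit 78) (nat_lit 0) (nat_lit 0) (XT.lf (nat_lit 0) (nat_lit 22066721121) (nat_lit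 760) (nat_lit 11597688932) (nat_lit 836) (nat_lit 10757603453) (nat_lit 165) (nat_lit 5) (nat_lit 175) (nat_lit 5) (nat_lit 176) (nat_lit 5) (nat_lit 451) (nat_lit 447) (nat_lit 302)) (XT.lf (nat_lit 76) (nat_lit 11610707897) (nat_lit 0) (nat_lit 12704299336) (nat_lit 836) (nat_lit 21243431396) (nat_lit 166) (nat_lit 5) (nat_lit 165) (nat_lit 5) (nat_lit 176) (nat_lit 5) (nat_lit 452) (nat_lit 447) (nat_lit 301)))) (XT.nd (nat_lit 156) (nat_lit 0) (nat_lit 76) (XT.nd (nat_lit 78) (nat_lit 0) (nat_lit 0) (XT.lf (nat_lit 0) (nat_lit 27018479089) (nat_lit 760) (nat_lit 10509755882) (nat_lit 836) (nat_lit 9206311625) (nat_lit 166) (nat_lit 5) (nat_lit 176) (nat_lit 5) (nat_lit 177) (nat_lit 5) (nat_lit 453) (nat_lit 447) (nat_lit 300)) (XT.lf (nat_lit 76) (nat_lit 14349620250) (nat_lit 0) (nat_lit 15937790640) (nat_lit 836) (nat_lit 17660534909) (nat_lit 167) (nat_lit 5) (nat_lit 166) (nat_lit 5) (nat_lit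 177) (nat_lit 5) (nat_lit 454) (nat_lit 447) (nat_lit 299))) (XT.nd (nat_lit 78) (nat_lit 0) (nat_lit 0) (XT.lf (nat_lit 0) (nat_lit 34003864596) (nat_lit 760) (nat_lit 8505889405) (nat_lit 836) (nat_lit 6698057342) (nat_lit 167) (nat_lit 5) (nat_lit 177) (nat_lit 5) (nat_lit 178) (nat_lit 5) (nat_lit 455) (nat_lit 447) (nat_lit 298)) (XT.lf (nat_lit 76) (nat_lit 18159601519) (nat_lit 0) (nat_lit 20289490850) (nat_lit 836) (nat_lit 12054430368) (nat_lit 168) (nat_lit 5) (nat_lit 167) (nat_lit 5) (nat_lit 178) (nat_lit 5) (nat_lit 456) (nat_lit 447) (nat_lit 297))))) (XT.nd (nat_lit 312) (nat_lit 1064) (nat_lit 0) (XT.nd (nat_lit 156) (nat_lit 532) (nat_lit 0) (XT.nd (nat_lit 78) (nat_lit 760) (nat_lit 0) (XT.lf (nat_lit 0) (nat_lit 43308708291) (nat_lit 760) (nat_lit 5454578982) (nat_lit 76) (nat_lit 3091126220) (nat_lit 168) (nat_lit 5) (nat_lit 178) (nat_lit 5) (nat_lit 169) (nat_lit 5) (nat_lit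 457) (nat_lit 447) (nat_lit 296)) (XT.lf (nat_lit 0) (nat_lit 23187245940) (nat_lit 760) (nat_lit 25916999291) (nat_lit 836) (nat_lit 4133956672) (nat_lit 158) (nat_lit 5) (nat_lit 168) (nat_lit 5) (nat_lit 169) (nat_lit 5) (nat_lit 458) (nat_lit 447) (nat_lit 295))) (XT.nd (nat_lit 78) (nat_lit 456) (nat_lit 0) (XT.lf (nat_lit 0) (nat_lit 574656583) (nat_lit 836) (nat_lit 1246860878) (nat_lit 76) (nat_lit 52864661906) (nat_lit 157) (nat_lit 5) (nat_lit 168) (nat_lit 5) (nat_lit 158) (nat_lit 5) (nat_lit 459) (nat_lit 447) (nat_lit 294)) (XT.lf (nat_lit 0) (nat_lit 6220104442) (nat_lit 532) (nat_lit 26670545684) (nat_lit 76) (nat_lit 23270500599) (nat_lit 151) (nat_lit 5) (nat_lit 158) (nat_lit 5) (nat_lit 152) (nat_lit 5) (nat_lit 460) (nat_lit 447) (nat_lit 293)))) (XT.nd (nat_lit 156) (nat_lit 684) (nat_lit 0) (XT.nd (nat_lit 78) (nat_lit 0) (nat_lit 0) (XT.lf (nat_lit 0) (nat_lit 4202188344)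 (nat_lit 380) (nat_lit 8061039241) (nat_lit 456) (nat_lit 45440873026) (nat_lit 146) (nat_lit 5) (nat_lit 151) (nat_lit 5) (nat_lit 152) (nat_lit 5) (nat_lit 461) (nat_lit 447) (nat_lit 292)) (XT.lf (nat_lit 0) (nat_lit 19347298307) (nat_lit 456) (nat_lit 22047273566) (nat_lit 76) (nat_lit 17892686645) (nat_lit 146) (nat_lit 5) (nat_lit 152) (nat_lit 5) (nat_lit 147) (nat_lit 5) (nat_lit 462) (nat_lit 447) (nat_lit 291))) (XT.nd (nat_lit 78) (nat_lit 304) (nat_lit 0) (XT.lf (nat_lit 0) (nat_lit 11205088606) (nat_lit 380) (nat_lit 15886166284) (nat_lit 456) (nat_lit 33843035409) (nat_lit 141) (nat_lit 5) (nat_lit 146) (nat_lit 5) (nat_lit 147) (nat_lit 5) (nat_lit 463) (nat_lit 447) (nat_lit 290)) (XT.nd (nat_lit 78) (nat_lit 304) (nat_lit 0) (XT.lf (nat_lit 0) (nat_lit 35770688381) (nat_lit 456) (nat_lit 15937303873) (nat_lit 76) (nat_lit 10928267553) (nat_lit 141) (nat_lit 5) (nat_lit 147) (nat_lit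 5) (nat_lit 142) (nat_lit 5) (nat_lit 464) (nat_lit 447) (nat_lit 289)) (XT.lf (nat_lit 0) (nat_lit 19919857145) (nat_lit 304) (nat_lit 25534369026) (nat_lit 380) (nat_lit 18940595071) (nat_lit 137) (nat_lit 5) (nat_lit 141) (nat_lit 5) (nat_lit 142) (nat_lit 5) (nat_lit 465) (nat_lit 447) (nat_lit 288))))))))
noncomputable def xc374 : XT := (XT.nd (nat_lit 1248) (nat_lit 1900) (nat_lit 0) (XT.nd (nat_lit 624) (nat_lit 1292) (nat_lit 0) (XT.nd (nat_lit 312) (nat_lit 532) (nat_lit 0) (XT.nd (nat_lit 156) (nat_lit 380) (nat_lit 0) (XT.nd (nat_lit 78) (nat_lit 304) (nat_lit 0) (XT.lf (nat_lit 0) (nat_lit 55925419823) (nat_lit 380) (nat_lit 8140968826) (nat_lit 76) (nat_lit 2159748236) (nat_lit 137) (nat_lit 5) (nat_lit 142) (nat_lit 5) (nat_lit 138) (nat_lit 5) (nat_lit 466) (nat_lit 447) (nat_lit 287)) (XT.lf (nat_lit 0) (nat_lit 30568071201) (nat_lit 304) (nat_lit 37246747236) (nat_lit 380) (nat_lit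 289467685) (nat_lit 133) (nat_lit 5) (nat_lit 137) (nat_lit 5) (nat_lit 138) (nat_lit 5) (nat_lit 467) (nat_lit 447) (nat_lit 286))) (XT.nd (nat_lit 78) (nat_lit 0) (nat_lit 0) (XT.lf (nat_lit 0) (nat_lit 1304188276) (nat_lit 304) (nat_lit 8750282479) (nat_lit 380) (nat_lit 60005926894) (nat_lit 128) (nat_lit 5) (nat_lit 132) (nat_lit 5) (nat_lit 133) (nat_lit 5) (nat_lit 468) (nat_lit 447) (nat_lit 285)) (XT.lf (nat_lit 0) (nat_lit 21881374205) (nat_lit 380) (nat_lit 29039925680) (nat_lit 76) (nat_lit 21144002859) (nat_lit 128) (nat_lit 5) (nat_lit 133) (nat_lit 5) (nat_lit 129) (nat_lit 5) (nat_lit 469) (nat_lit 447) (nat_lit 284)))) (XT.nd (nat_lit 156) (nat_lit 228) (nat_lit 0) (XT.nd (nat_lit 78) (nat_lit 0) (nat_lit 0) (XT.lf (nat_lit 0) (nat_lit 12931199736) (nat_lit 304) (nat_lit 21712659943) (nat_lit 380) (nat_lit 39509381638) (nat_lit 124) (nat_lit 5) (nat_lit 128) (nat_lit 5) (nat_lit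 129) (nat_lit 5) (nat_lit 470) (nat_lit 447) (nat_lit 283)) (XT.lf (nat_lit 0) (nat_lit 48683095117) (nat_lit 380) (nat_lit 18461232073) (nat_lit 76) (nat_lit 9169318403) (nat_lit 124) (nat_lit 5) (nat_lit 129) (nat_lit 5) (nat_lit 125) (nat_lit 5) (nat_lit 471) (nat_lit 447) (nat_lit 282))) (XT.nd (nat_lit 78) (nat_lit 0) (nat_lit 0) (XT.lf (nat_lit 0) (nat_lit 26942643111) (nat_lit 228) (nat_lit 37257219317) (nat_lit 304) (nat_lit 14343429209) (nat_lit 121) (nat_lit 5) (nat_lit 124) (nat_lit 5) (nat_lit 125) (nat_lit 5) (nat_lit 472) (nat_lit 447) (nat_lit 281)) (XT.lf (nat_lit 0) (nat_lit 75256303929) (nat_lit 228) (nat_lit 5547816664) (nat_lit 304) (nat_lit 64716823) (nat_lit 121) (nat_lit 5) (nat_lit 124) (nat_lit 5) (nat_lit 125) (nat_lit 5) (nat_lit 473) (nat_lit 447) (nat_lit 280))))) (XT.nd (nat_lit 312) (nat_lit 456) (nat_lit 0) (XT.nd (nat_lit 156) (nat_lit 228) (nat_lit 0) (XT.nd (nat_lit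 78) (nat_lit 228) (nat_lit 0) (XT.lf (nat_lit 0) (nat_lit 15581951073) (nat_lit 380) (nat_lit 39869185429) (nat_lit 76) (nat_lit 27791280341) (nat_lit 116) (nat_lit 5) (nat_lit 121) (nat_lit 5) (nat_lit 117) (nat_lit 5) (nat_lit 474) (nat_lit 447) (nat_lit 279)) (XT.lf (nat_lit 0) (nat_lit 9481797059) (nat_lit 228) (nat_lit 22861629726) (nat_lit 304) (nat_lit 53374462994) (nat_lit 113) (nat_lit 5) (nat_lit 116) (nat_lit 5) (nat_lit 117) (nat_lit 5) (nat_lit 475) (nat_lit 447) (nat_lit 278))) (XT.nd (nat_lit 78) (nat_lit 228) (nat_lit 0) (XT.lf (nat_lit 0) (nat_lit 50805642699) (nat_lit 304) (nat_lit 25788616066) (nat_lit 76) (nat_lit 11679744320) (nat_lit 113) (nat_lit 5) (nat_lit 117) (nat_lit 5) (nat_lit 114) (nat_lit 5) (nat_lit 476) (nat_lit 447) (nat_lit 277)) (XT.lf (nat_lit 0) (nat_lit 27691470109) (nat_lit 228) (nat_lit 43305739141) (nat_lit 304) (nat_lit 19920400857) (nat_lit 110) (nat_lit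 5) (nat_lit 113) (nat_lit 5) (nat_lit 114) (nat_lit 5) (nat_lit 477) (nat_lit 447) (nat_lit 276)))) (XT.nd (nat_lit 156) (nat_lit 228) (nat_lit 0) (XT.nd (nat_lit 78) (nat_lit 228) (nat_lit 0) (XT.lf (nat_lit 0) (nat_lit 84739620336) (nat_lit 228) (nat_lit 7894616362) (nat_lit 304) (nat_lit 1037366695) (nat_lit 110) (nat_lit 5) (nat_lit 113) (nat_lit 5) (nat_lit 114) (nat_lit 5) (nat_lit 478) (nat_lit 447) (nat_lit 275)) (XT.lf (nat_lit 0) (nat_lit 19432967337) (nat_lit 228) (nat_lit 47622638006) (nat_lit 76) (nat_lit 29430795966) (nat_lit 107) (nat_lit 5) (nat_lit 110) (nat_lit 5) (nat_lit 108) (nat_lit 5) (nat_lit 479) (nat_lit 447) (nat_lit 274))) (XT.nd (nat_lit 78) (nat_lit 0) (nat_lit 0) (XT.lf (nat_lit 0) (nat_lit 10614602567) (nat_lit 228) (nat_lit 30725425964) (nat_lit 304) (nat_lit 58078656686) (nat_lit 104) (nat_lit 5) (nat_lit 107) (nat_lit 5) (nat_lit 108) (nat_lit 5) (nat_lit 480)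 (nat_lit 447) (nat_lit 273)) (XT.lf (nat_lit 0) (nat_lit 65277238500) (nat_lit 304) (nat_lit 29170548280) (nat_lit 76) (nat_lit 8003056787) (nat_lit 104) (nat_lit 5) (nat_lit 108) (nat_lit 5) (nat_lit 105) (nat_lit 5) (nat_lit 481) (nat_lit 447) (nat_lit 272)))))) (XT.nd (nat_lit 624) (nat_lit 912) (nat_lit 0) (XT.nd (nat_lit 312) (nat_lit 380) (nat_lit 0) (XT.nd (nat_lit 156) (nat_lit 380) (nat_lit 0) (XT.nd (nat_lit 78) (nat_lit 76) (nat_lit 0) (XT.lf (nat_lit 0) (nat_lit 34028906745) (nat_lit 152) (nat_lit 57416617737) (nat_lit 228) (nat_lit 14137374609) (nat_lit 102) (nat_lit 5) (nat_lit 104) (nat_lit 5) (nat_lit 105) (nat_lit 5) (nat_lit 482) (nat_lit 447) (nat_lit 271)) (XT.lf (nat_lit 0) (nat_lit 10230338450) (nat_lit 228) (nat_lit 7612008110) (nat_lit 76) (nat_lit 90996297147) (nat_lit 101) (nat_lit 5) (nat_lit 104) (nat_lit 5) (nat_lit 102) (nat_lit 5) (nat_lit 483) (nat_lit 447) (nat_lit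 270))) (XT.nd (nat_lit 78) (nat_lit 152) (nat_lit 0) (XT.lf (nat_lit 0) (nat_lit 36686621928) (nat_lit 304) (nat_lit 51332764710) (nat_lit 76) (nat_lit 24158936269) (nat_lit 98) (nat_lit 5) (nat_lit 102) (nat_lit 5) (nat_lit 99) (nat_lit 5) (nat_lit 484) (nat_lit 447) (nat_lit 269)) (XT.lf (nat_lit 0) (nat_lit 17578591053) (nat_lit 152) (nat_lit 47584389212) (nat_lit 228) (nat_lit 50487142795) (nat_lit 96) (nat_lit 5) (nat_lit 98) (nat_lit 5) (nat_lit 99) (nat_lit 5) (nat_lit 485) (nat_lit 447) (nat_lit 268)))) (XT.nd (nat_lit 156) (nat_lit 152) (nat_lit 0) (XT.nd (nat_lit 78) (nat_lit 228) (nat_lit 0) (XT.lf (nat_lit 0) (nat_lit 91716533978) (nat_lit 152) (nat_lit 4215269752) (nat_lit 228) (nat_lit 23320277155) (nat_lit 96) (nat_lit 5) (nat_lit 98) (nat_lit 5) (nat_lit 99) (nat_lit 5) (nat_lit 486) (nat_lit 447) (nat_lit 267)) (XT.lf (nat_lit 0) (nat_lit 6445539493) (nat_lit 228) (nat_lit 75670870180)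 (nat_lit 76) (nat_lit 40843303870) (nat_lit 93) (nat_lit 5) (nat_lit 96) (nat_lit 5) (nat_lit 94) (nat_lit 5) (nat_lit 487) (nat_lit 447) (nat_lit 266))) (XT.nd (nat_lit 78) (nat_lit 152) (nat_lit 0) (XT.lf (nat_lit 0) (nat_lit 37458340866) (nat_lit 228) (nat_lit 479148391) (nat_lit 76) (nat_lit 88869003212) (nat_lit 93) (nat_lit 5) (nat_lit 96) (nat_lit 5) (nat_lit 94) (nat_lit 5) (nat_lit 488) (nat_lit 447) (nat_lit 265)) (XT.lf (nat_lit 0) (nat_lit 71439485739) (nat_lit 228) (nat_lit 49869328501) (nat_lit 76) (nat_lit 9465910949) (nat_lit 91) (nat_lit 5) (nat_lit 94) (nat_lit 5) (nat_lit 92) (nat_lit 5) (nat_lit 489) (nat_lit 447) (nat_lit 264))))) (XT.nd (nat_lit 312) (nat_lit 380) (nat_lit 0) (XT.nd (nat_lit 156) (nat_lit 304) (nat_lit 0) (XT.nd (nat_lit 78) (nat_lit 76) (nat_lit 0) (XT.lf (nat_lit 0) (nat_lit 31830486175) (nat_lit 152) (nat_lit 76415710386) (nat_lit 228) (nat_lit 26638847570)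 (nat_lit 89) (nat_lit 5) (nat_lit 91) (nat_lit 5) (nat_lit 92) (nat_lit 5) (nat_lit 490) (nat_lit 447) (nat_lit 263)) (XT.lf (nat_lit 0) (nat_lit 8303942004) (nat_lit 228) (nat_lit 19947026192) (nat_lit 76) (nat_lit 110901016785) (nat_lit 88) (nat_lit 5) (nat_lit 91) (nat_lit 5) (nat_lit 89) (nat_lit 5) (nat_lit 491) (nat_lit 447) (nat_lit 262))) (XT.nd (nat_lit 78) (nat_lit 152) (nat_lit 0) (XT.lf (nat_lit 0) (nat_lit 45550060952) (nat_lit 228) (nat_lit 74840426254) (nat_lit 76) (nat_lit 23147379070) (nat_lit 86) (nat_lit 5) (nat_lit 89) (nat_lit 5) (nat_lit 87) (nat_lit 5) (nat_lit 492) (nat_lit 447) (nat_lit 261)) (XT.lf (nat_lit 0) (nat_lit 14329429290) (nat_lit 152) (nat_lit 71358671278) (nat_lit 228) (nat_lit 62403460349) (nat_lit 84) (nat_lit 5) (nat_lit 86) (nat_lit 5) (nat_lit 87) (nat_lit 5) (nat_lit 493) (nat_lit 447) (nat_lit 260)))) (XT.nd (nat_lit 156) (nat_lit 228) (nat_lit 0) (XT.nd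 (nat_lit 78) (nat_lit 152) (nat_lit 0) (XT.lf (nat_lit 0) (nat_lit 110555057147) (nat_lit 152) (nat_lit 18544867203) (nat_lit 228) (nat_lit 23709671846) (nat_lit 84) (nat_lit 5) (nat_lit 86) (nat_lit 5) (nat_lit 87) (nat_lit 5) (nat_lit 494) (nat_lit 447) (nat_lit 259)) (XT.lf (nat_lit 0) (nat_lit 17835413774) (nat_lit 152) (nat_lit 102967560144) (nat_lit 76) (nat_lit 36874446078) (nat_lit 82) (nat_lit 5) (nat_lit 84) (nat_lit 5) (nat_lit 83) (nat_lit 5) (nat_lit 495) (nat_lit 447) (nat_lit 258))) (XT.nd (nat_lit 78) (nat_lit 228) (nat_lit 0) (XT.lf (nat_lit 0) (nat_lit 61691746436) (nat_lit 152) (nat_lit 5468808952) (nat_lit 76) (nat_lit 95557105796) (nat_lit 82) (nat_lit 5) (nat_lit 84) (nat_lit 5) (nat_lit 83) (nat_lit 5) (nat_lit 496) (nat_lit 447) (nat_lit 257)) (XT.nd (nat_lit 78) (nat_lit 76) (nat_lit 0) (XT.lf (nat_lit 0) (nat_lit 100108022295) (nat_lit 152) (nat_lit 9195313321) (nat_lit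 228) (nat_lit 58628456831) (nat_lit 80) (nat_lit 5) (nat_lit 82) (nat_lit 5) (nat_lit 83) (nat_lit 5) (nat_lit 497) (nat_lit 447) (nat_lit 256)) (XT.lf (nat_lit 0) (nat_lit 38163896110) (nat_lit 76) (nat_lit 122627751409) (nat_lit 152) (nat_lit 12540175605) (nat_lit 79) (nat_lit 5) (nat_lit 80) (nat_lit 5) (nat_lit 81) (nat_lit 4) (nat_lit 498) (nat_lit 447) (nat_lit 255))))))))
noncomputable def xc375 : XT := (XT.nd (nat_lit 1248) (nat_lit 1140) (nat_lit 0) (XT.nd (nat_lit 624) (nat_lit 532) (nat_lit 0) (XT.nd (nat_lit 312) (nat_lit 456) (nat_lit 0) (XT.nd (nat_lit 156) (nat_lit 152) (nat_lit 0) (XT.nd (nat_lit 78) (nat_lit 152) (nat_lit 0) (XT.lf (nat_lit 0) (nat_lit 36022695706) (nat_lit 152) (nat_lit 27869066914) (nat_lit 76) (nat_lit 115016220783) (nat_lit 78) (nat_lit 5) (nat_lit 80) (nat_lit 5) (nat_lit 79) (nat_lit 5) (nat_lit 499) (nat_lit 447) (nat_lit 254)) (XT.lf (nat_lit 0) (nat_lit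 87385128715) (nat_lit 152) (nat_lit 570980661) (nat_lit 228) (nat_lit 96728371951) (nat_lit 76) (nat_lit 5) (nat_lit 78) (nat_lit 5) (nat_lit 79) (nat_lit 5) (nat_lit 500) (nat_lit 447) (nat_lit 253))) (XT.nd (nat_lit 78) (nat_lit 76) (nat_lit 0) (XT.lf (nat_lit 0) (nat_lit 18187728218) (nat_lit 76) (nat_lit 126090779063) (nat_lit 152) (nat_lit 46381681199) (nat_lit 75) (nat_lit 5) (nat_lit 76) (nat_lit 5) (nat_lit 77) (nat_lit 4) (nat_lit 501) (nat_lit 447) (nat_lit 252)) (XT.lf (nat_lit 0) (nat_lit 7958563185) (nat_lit 152) (nat_lit 54163600571) (nat_lit 76) (nat_lit 134723272136) (nat_lit 74) (nat_lit 5) (nat_lit 76) (nat_lit 5) (nat_lit 75) (nat_lit 5) (nat_lit 502) (nat_lit 447) (nat_lit 251)))) (XT.nd (nat_lit 156) (nat_lit 304) (nat_lit 0) (XT.nd (nat_lit 78) (nat_lit 0) (nat_lit 0) (XT.lf (nat_lit 0) (nat_lit 64683904385) (nat_lit 228) (nat_lit 131764773669) (nat_lit 76) (nat_lit 6791909196)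 (nat_lit 72) (nat_lit 5) (nat_lit 75) (nat_lit 5) (nat_lit 73) (nat_lit 4) (nat_lit 503) (nat_lit 447) (nat_lit 250)) (XT.lf (nat_lit 0) (nat_lit 126195768642) (nat_lit 228) (nat_lit 5666294743) (nat_lit 76) (nat_lit 77995920000) (nat_lit 72) (nat_lit 5) (nat_lit 75) (nat_lit 5) (nat_lit 73) (nat_lit 4) (nat_lit 504) (nat_lit 447) (nat_lit 249))) (XT.nd (nat_lit 78) (nat_lit 228) (nat_lit 0) (XT.lf (nat_lit 0) (nat_lit 130926757606) (nat_lit 76) (nat_lit 61900159824) (nat_lit 152) (nat_lit 23877147338) (nat_lit 71) (nat_lit 5) (nat_lit 72) (nat_lit 5) (nat_lit 73) (nat_lit 4) (nat_lit 505) (nat_lit 447) (nat_lit 248)) (XT.lf (nat_lit 0) (nat_lit 38761817344) (nat_lit 228) (nat_lit 172318453083) (nat_lit 76) (nat_lit 12726335288) (nat_lit 68) (nat_lit 5) (nat_lit 71) (nat_lit 5) (nat_lit 69) (nat_lit 4) (nat_lit 506) (nat_lit 447) (nat_lit 247))))) (XT.nd (nat_lit 312) (nat_lit 304) (nat_lit 0)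 (XT.nd (nat_lit 156) (nat_lit 152) (nat_lit 0) (XT.nd (nat_lit 78) (nat_lit 76) (nat_lit 0) (XT.lf (nat_lit 0) (nat_lit 106221114266) (nat_lit 228) (nat_lit 34027587767) (nat_lit 76) (nat_lit 90871459614) (nat_lit 68) (nat_lit 5) (nat_lit 71) (nat_lit 5) (nat_lit 69) (nat_lit 4) (nat_lit 507) (nat_lit 447) (nat_lit 246)) (XT.lf (nat_lit 0) (nat_lit 114853046915) (nat_lit 76) (nat_lit 63993089321) (nat_lit 152) (nat_lit 59863621137) (nat_lit 67) (nat_lit 5) (nat_lit 68) (nat_lit 5) (nat_lit 69) (nat_lit 4) (nat_lit 508) (nat_lit 447) (nat_lit 245))) (XT.nd (nat_lit 78) (nat_lit 0) (nat_lit 0) (XT.lf (nat_lit 0) (nat_lit 9421142261) (nat_lit 152) (nat_lit 220479192918) (nat_lit 76) (nat_lit 16708563285) (nat_lit 65) (nat_lit 5) (nat_lit 67) (nat_lit 5) (nat_lit 66) (nat_lit 4) (nat_lit 509) (nat_lit 447) (nat_lit 244)) (XT.lf (nat_lit 0) (nat_lit 83338945698) (nat_lit 152) (nat_lit 68948266311) (nat_lit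 76) (nat_lit 102407685460) (nat_lit 65) (nat_lit 5) (nat_lit 67) (nat_lit 5) (nat_lit 66) (nat_lit 4) (nat_lit 510) (nat_lit 447) (nat_lit 243)))) (XT.nd (nat_lit 156) (nat_lit 228) (nat_lit 0) (XT.nd (nat_lit 78) (nat_lit 0) (nat_lit 0) (XT.lf (nat_lit 0) (nat_lit 93139498230) (nat_lit 76) (nat_lit 69266914696) (nat_lit 152) (nat_lit 100706094822) (nat_lit 64) (nat_lit 5) (nat_lit 65) (nat_lit 5) (nat_lit 66) (nat_lit 4) (nat_lit 511) (nat_lit 447) (nat_lit 242)) (XT.lf (nat_lit 0) (nat_lit 246893212485) (nat_lit 152) (nat_lit 6466671511) (nat_lit 0) (nat_lit 18517816602) (nat_lit 64) (nat_lit 5) (nat_lit 66) (nat_lit 4) (nat_lit 64) (nat_lit 4) (nat_lit 512) (nat_lit 447) (nat_lit 241))) (XT.nd (nat_lit 78) (nat_lit 76) (nat_lit 0) (XT.lf (nat_lit 0) (nat_lit 56621689111) (nat_lit 152) (nat_lit 112301402508) (nat_lit 76) (nat_lit 111923319828) (nat_lit 62) (nat_lit 5) (nat_lit 64) (nat_lit 5)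 (nat_lit 63) (nat_lit 4) (nat_lit 513) (nat_lit 447) (nat_lit 240)) (XT.lf (nat_lit 0) (nat_lit 63907025959) (nat_lit 76) (nat_lit 78670212138) (nat_lit 152) (nat_lit 147610405379) (nat_lit 61) (nat_lit 5) (nat_lit 62) (nat_lit 5) (nat_lit 63) (nat_lit 4) (nat_lit 514) (nat_lit 447) (nat_lit 239)))))) (XT.nd (nat_lit 624) (nat_lit 608) (nat_lit 0) (XT.nd (nat_lit 312) (nat_lit 304) (nat_lit 0) (XT.nd (nat_lit 156) (nat_lit 76) (nat_lit 0) (XT.nd (nat_lit 78) (nat_lit 152) (nat_lit 0) (XT.lf (nat_lit 0) (nat_lit 235014541974) (nat_lit 152) (nat_lit 47359309350) (nat_lit 0) (nat_lit 17512886915) (nat_lit 61) (nat_lit 5) (nat_lit 63) (nat_lit 4) (nat_lit 61) (nat_lit 4) (nat_lit 515) (nat_lit 447) (nat_lit 238)) (XT.lf (nat_lit 0) (nat_lit 24891407086) (nat_lit 152) (nat_lit 166474656628) (nat_lit 76) (nat_lit 118507911927) (nat_lit 59) (nat_lit 5) (nat_lit 61) (nat_lit 5) (nat_lit 60) (nat_lit 4)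 (nat_lit 516) (nat_lit 447) (nat_lit 237))) (XT.nd (nat_lit 78) (nat_lit 0) (nat_lit 0) (XT.lf (nat_lit 0) (nat_lit 24733940195) (nat_lit 76) (nat_lit 93430132517) (nat_lit 152) (nat_lit 202083277610) (nat_lit 58) (nat_lit 5) (nat_lit 59) (nat_lit 5) (nat_lit 60) (nat_lit 4) (nat_lit 517) (nat_lit 447) (nat_lit 236)) (XT.lf (nat_lit 0) (nat_lit 219112366945) (nat_lit 152) (nat_lit 99909544912) (nat_lit 0) (nat_lit 11966882118) (nat_lit 58) (nat_lit 5) (nat_lit 60) (nat_lit 4) (nat_lit 58) (nat_lit 4) (nat_lit 518) (nat_lit 447) (nat_lit 235)))) (XT.nd (nat_lit 156) (nat_lit 152) (nat_lit 0) (XT.nd (nat_lit 78) (nat_lit 76) (nat_lit 0) (XT.lf (nat_lit 0) (nat_lit 107379014657) (nat_lit 76) (nat_lit 220936853993) (nat_lit 76) (nat_lit 13791051524) (nat_lit 57) (nat_lit 4) (nat_lit 58) (nat_lit 5) (nat_lit 58) (nat_lit 4) (nat_lit 519) (nat_lit 447) (nat_lit 234)) (XT.lf (nat_lit 0) (nat_lit 88063099597)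 (nat_lit 152) (nat_lit 26616750810) (nat_lit 76) (nat_lit 238945499336) (nat_lit 56) (nat_lit 5) (nat_lit 58) (nat_lit 5) (nat_lit 57) (nat_lit 4) (nat_lit 520) (nat_lit 447) (nat_lit 233))) (XT.nd (nat_lit 78) (nat_lit 76) (nat_lit 0) (XT.lf (nat_lit 0) (nat_lit 197643499106) (nat_lit 152) (nat_lit 167548827051) (nat_lit 0) (nat_lit 361219966) (nat_lit 55) (nat_lit 5) (nat_lit 57) (nat_lit 4) (nat_lit 55) (nat_lit 4) (nat_lit 521) (nat_lit 447) (nat_lit 232)) (XT.lf (nat_lit 0) (nat_lit 56650890514) (nat_lit 76) (nat_lit 259274343258) (nat_lit 76) (nat_lit 61991802793) (nat_lit 54) (nat_lit 4) (nat_lit 55) (nat_lit 5) (nat_lit 55) (nat_lit 4) (nat_lit 522) (nat_lit 447) (nat_lit 231))))) (XT.nd (nat_lit 312) (nat_lit 304) (nat_lit 0) (XT.nd (nat_lit 156) (nat_lit 152) (nat_lit 0) (XT.nd (nat_lit 78) (nat_lit 76) (nat_lit 0) (XT.lf (nat_lit 0) (nat_lit 50530649813) (nat_lit 152) (nat_lit 93694957229)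 (nat_lit 76) (nat_lit 246490483602) (nat_lit 53) (nat_lit 5) (nat_lit 55) (nat_lit 5) (nat_lit 54) (nat_lit 4) (nat_lit 523) (nat_lit 447) (nat_lit 230)) (XT.lf (nat_lit 0) (nat_lit 149007092346) (nat_lit 76) (nat_lit 19914916786) (nat_lit 152) (nat_lit 235065969585) (nat_lit 52) (nat_lit 5) (nat_lit 53) (nat_lit 5) (nat_lit 54) (nat_lit 4) (nat_lit 524) (nat_lit 447) (nat_lit 229))) (XT.nd (nat_lit 78) (nat_lit 152) (nat_lit 0) (XT.lf (nat_lit 0) (nat_lit 296572368572) (nat_lit 152) (nat_lit 12500563987) (nat_lit 0) (nat_lit 108683557030) (nat_lit 52) (nat_lit 5) (nat_lit 54) (nat_lit 4) (nat_lit 52) (nat_lit 4) (nat_lit 525) (nat_lit 447) (nat_lit 228)) (XT.lf (nat_lit 0) (nat_lit 2738378103) (nat_lit 152) (nat_lit 182275341184) (nat_lit 76) (nat_lit 246986207813) (nat_lit 50) (nat_lit 5) (nat_lit 52) (nat_lit 5) (nat_lit 51) (nat_lit 4) (nat_lit 526) (nat_lit 447) (nat_lit 227)))) (XT.nd (nat_lit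 156) (nat_lit 228) (nat_lit 0) (XT.nd (nat_lit 78) (nat_lit 0) (nat_lit 0) (XT.lf (nat_lit 0) (nat_lit 79090766573) (nat_lit 76) (nat_lit 51143368975) (nat_lit 152) (nat_lit 316549583969) (nat_lit 49) (nat_lit 5) (nat_lit 50) (nat_lit 5) (nat_lit 51) (nat_lit 4) (nat_lit 527) (nat_lit 447) (nat_lit 226)) (XT.lf (nat_lit 0) (nat_lit 268638024751) (nat_lit 152) (nat_lit 103746267739) (nat_lit 0) (nat_lit 89695741874) (nat_lit 49) (nat_lit 5) (nat_lit 51) (nat_lit 4) (nat_lit 49) (nat_lit 4) (nat_lit 528) (nat_lit 447) (nat_lit 225))) (XT.nd (nat_lit 78) (nat_lit 152) (nat_lit 0) (XT.lf (nat_lit 0) (nat_lit 178264365624) (nat_lit 76) (nat_lit 239319091609) (nat_lit 76) (nat_lit 60376640279) (nat_lit 48) (nat_lit 4) (nat_lit 49) (nat_lit 5) (nat_lit 49) (nat_lit 4) (nat_lit 529) (nat_lit 447) (nat_lit 224)) (XT.nd (nat_lit 78) (nat_lit 76) (nat_lit 0) (XT.lf (nat_lit 0) (nat_lit 78588081382) (nat_lit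 152) (nat_lit 17837044927) (nat_lit 76) (nat_lit 398057823801) (nat_lit 47) (nat_lit 5) (nat_lit 49) (nat_lit 5) (nat_lit 48) (nat_lit 4) (nat_lit 530) (nat_lit 447) (nat_lit 223)) (XT.lf (nat_lit 0) (nat_lit 227868028392) (nat_lit 152) (nat_lit 226198278018) (nat_lit 0) (nat_lit 57446347865) (nat_lit 46) (nat_lit 5) (nat_lit 48) (nat_lit 4) (nat_lit 46) (nat_lit 4) (nat_lit 531) (nat_lit 447) (nat_lit 222))))))))
noncomputable def xc376 : XT := (XT.nd (nat_lit 1248) (nat_lit 228) (nat_lit 0) (XT.nd (nat_lit 624) (nat_lit 456) (nat_lit 0) (XT.nd (nat_lit 312) (nat_lit 304) (nat_lit 0) (XT.nd (nat_lit 156) (nat_lit 76) (nat_lit 0) (XT.nd (nat_lit 78) (nat_lit 76) (nat_lit 0) (XT.lf (nat_lit 0) (nat_lit 75700571822) (nat_lit 76) (nat_lit 311980810237) (nat_lit 76) (nat_lit 141558991124) (nat_lit 45) (nat_lit 4) (nat_lit 46) (nat_lit 5) (nat_lit 46) (nat_lit 4) (nat_lit 532) (nat_lit 447) (nat_lit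 221)) (XT.lf (nat_lit 0) (nat_lit 11280005595) (nat_lit 152) (nat_lit 147297939629) (nat_lit 76) (nat_lit 389075909933) (nat_lit 44) (nat_lit 5) (nat_lit 46) (nat_lit 5) (nat_lit 45) (nat_lit 4) (nat_lit 533) (nat_lit 447) (nat_lit 220))) (XT.nd (nat_lit 78) (nat_lit 0) (nat_lit 0) (XT.lf (nat_lit 0) (nat_lit 169898993693) (nat_lit 152) (nat_lit 389235964101) (nat_lit 0) (nat_lit 7592253882) (nat_lit 43) (nat_lit 5) (nat_lit 45) (nat_lit 4) (nat_lit 43) (nat_lit 4) (nat_lit 534) (nat_lit 447) (nat_lit 219)) (XT.lf (nat_lit 0) (nat_lit 341583779302) (nat_lit 152) (nat_lit 65636788841) (nat_lit 0) (nat_lit 179276925475) (nat_lit 43) (nat_lit 5) (nat_lit 45) (nat_lit 4) (nat_lit 43) (nat_lit 4) (nat_lit 535) (nat_lit 447) (nat_lit 218)))) (XT.nd (nat_lit 156) (nat_lit 76) (nat_lit 0) (XT.nd (nat_lit 78) (nat_lit 152) (nat_lit 0) (XT.lf (nat_lit 0) (nat_lit 283206243136) (nat_lit 76) (nat_lit 243067969262)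 (nat_lit 76) (nat_lit 80761006849) (nat_lit 42) (nat_lit 4) (nat_lit 43) (nat_lit 5) (nat_lit 43) (nat_lit 4) (nat_lit 536) (nat_lit 447) (nat_lit 217)) (XT.lf (nat_lit 0) (nat_lit 22497170338) (nat_lit 76) (nat_lit 67651237547) (nat_lit 152) (nat_lit 538305876022) (nat_lit 40) (nat_lit 5) (nat_lit 41) (nat_lit 5) (nat_lit 42) (nat_lit 4) (nat_lit 537) (nat_lit 447) (nat_lit 216))) (XT.nd (nat_lit 78) (nat_lit 76) (nat_lit 0) (XT.lf (nat_lit 0) (nat_lit 274282523553) (nat_lit 152) (nat_lit 256521642400) (nat_lit 0) (nat_lit 119704271821) (nat_lit 40) (nat_lit 5) (nat_lit 42) (nat_lit 4) (nat_lit 40) (nat_lit 4) (nat_lit 538) (nat_lit 447) (nat_lit 215)) (XT.lf (nat_lit 0) (nat_lit 112889279029) (nat_lit 76) (nat_lit 357605397400) (nat_lit 76) (nat_lit 203027056334) (nat_lit 39) (nat_lit 4) (nat_lit 40) (nat_lit 5) (nat_lit 40) (nat_lit 4) (nat_lit 539) (nat_lit 447) (nat_lit 214))))) (XT.nd (nat_lit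 312) (nat_lit 228) (nat_lit 0) (XT.nd (nat_lit 156) (nat_lit 76) (nat_lit 0) (XT.nd (nat_lit 78) (nat_lit 152) (nat_lit 0) (XT.lf (nat_lit 0) (nat_lit 509676157392) (nat_lit 76) (nat_lit 171185378164) (nat_lit 76) (nat_lit 16606952017) (nat_lit 39) (nat_lit 4) (nat_lit 40) (nat_lit 5) (nat_lit 40) (nat_lit 4) (nat_lit 540) (nat_lit 447) (nat_lit 213)) (XT.lf (nat_lit 0) (nat_lit 177123082325) (nat_lit 152) (nat_lit 515258085215) (nat_lit 0) (nat_lit 29905456444) (nat_lit 37) (nat_lit 5) (nat_lit 39) (nat_lit 4) (nat_lit 37) (nat_lit 4) (nat_lit 541) (nat_lit 447) (nat_lit 212))) (XT.nd (nat_lit 78) (nat_lit 76) (nat_lit 0) (XT.lf (nat_lit 0) (nat_lit 386020112252) (nat_lit 152) (nat_lit 123207600017) (nat_lit 0) (nat_lit 238802412876) (nat_lit 37) (nat_lit 5) (nat_lit 39) (nat_lit 4) (nat_lit 37) (nat_lit 4) (nat_lit 542) (nat_lit 447) (nat_lit 211)) (XT.lf (nat_lit 0) (nat_lit 297982296644) (nat_lit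 76) (nat_lit 312031833630) (nat_lit 76) (nat_lit 164814064259) (nat_lit 36) (nat_lit 4) (nat_lit 37) (nat_lit 5) (nat_lit 37) (nat_lit 4) (nat_lit 543) (nat_lit 447) (nat_lit 210)))) (XT.nd (nat_lit 156) (nat_lit 76) (nat_lit 0) (XT.nd (nat_lit 78) (nat_lit 76) (nat_lit 0) (XT.lf (nat_lit 0) (nat_lit 43010268708) (nat_lit 152) (nat_lit 59046785181) (nat_lit 76) (nat_lit 700770108724) (nat_lit 35) (nat_lit 5) (nat_lit 37) (nat_lit 5) (nat_lit 36) (nat_lit 4) (nat_lit 544) (nat_lit 447) (nat_lit 209)) (XT.lf (nat_lit 0) (nat_lit 263759240056) (nat_lit 152) (nat_lit 444376416094) (nat_lit 0) (nat_lit 123551716701) (nat_lit 34) (nat_lit 5) (nat_lit 36) (nat_lit 4) (nat_lit 34) (nat_lit 4) (nat_lit 545) (nat_lit 447) (nat_lit 208))) (XT.nd (nat_lit 78) (nat_lit 76) (nat_lit 0) (XT.lf (nat_lit 0) (nat_lit 498234913302) (nat_lit 152) (nat_lit 5593885271) (nat_lit 0) (nat_lit 358027332362) (nat_lit 34)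 (nat_lit 5) (nat_lit 36) (nat_lit 4) (nat_lit 34) (nat_lit 4) (nat_lit 546) (nat_lit 447) (nat_lit 207)) (XT.lf (nat_lit 0) (nat_lit 470175969776) (nat_lit 76) (nat_lit 281598981929) (nat_lit 76) (nat_lit 141391346145) (nat_lit 33) (nat_lit 4) (nat_lit 34) (nat_lit 5) (nat_lit 34) (nat_lit 4) (nat_lit 547) (nat_lit 447) (nat_lit 206)))))) (XT.nd (nat_lit 55068) (nat_lit 0) (nat_lit 9652) (XT.nd (nat_lit 54756) (nat_lit 0) (nat_lit 10108) (XT.nd (nat_lit 156) (nat_lit 76) (nat_lit 0) (XT.nd (nat_lit 78) (nat_lit 0) (nat_lit 0) (XT.lf (nat_lit 0) (nat_lit 43857481321) (nat_lit 76) (nat_lit 45930406159) (nat_lit 152) (nat_lit 836143263584) (nat_lit 31) (nat_lit 5) (nat_lit 32) (nat_lit 5) (nat_lit 33) (nat_lit 4) (nat_lit 548) (nat_lit 447) (nat_lit 205)) (XT.lf (nat_lit 0) (nat_lit 338201521563) (nat_lit 152) (nat_lit 416825132331) (nat_lit 0) (nat_lit 204670342744) (nat_lit 31) (nat_lit 5) (nat_lit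 33) (nat_lit 4) (nat_lit 31) (nat_lit 4) (nat_lit 549) (nat_lit 447) (nat_lit 204))) (XT.nd (nat_lit 54522) (nat_lit 0) (nat_lit 10108) (XT.lf (nat_lit 0) (nat_lit 73277871704) (nat_lit 76) (nat_lit 527654821954) (nat_lit 76) (nat_lit 394123598015) (nat_lit 30) (nat_lit 4) (nat_lit 31) (nat_lit 5) (nat_lit 31) (nat_lit 4) (nat_lit 550) (nat_lit 447) (nat_lit 203)) (XT.lf (nat_lit 0) (nat_lit 9103889798) (nat_lit 836) (nat_lit 6008426295) (nat_lit 836) (nat_lit 6008426295) (nat_lit 163) (nat_lit 3) (nat_lit 174) (nat_lit 3) (nat_lit 174) (nat_lit 5) (nat_lit 448) (nat_lit 448) (nat_lit 304)))) (XT.nd (nat_lit 156) (nat_lit 0) (nat_lit 76) (XT.nd (nat_lit 78) (nat_lit 0) (nat_lit 76) (XT.lf (nat_lit 76) (nat_lit 9316535636) (nat_lit 0) (nat_lit 9528013435) (nat_lit 836) (nat_lit 24443891289) (nat_lit 164) (nat_lit 5) (nat_lit 163) (nat_lit 3) (nat_lit 174) (nat_lit 5) (nat_lit 449) (nat_lit 448)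 (nat_lit 303)) (XT.lf (nat_lit 0) (nat_lit 19908219582) (nat_lit 760) (nat_lit 12439030588) (nat_lit 836) (nat_lit 12020740603) (nat_lit 164) (nat_lit 5) (nat_lit 174) (nat_lit 5) (nat_lit 175) (nat_lit 5) (nat_lit 450) (nat_lit 448) (nat_lit 302))) (XT.nd (nat_lit 78) (nat_lit 0) (nat_lit 76) (XT.lf (nat_lit 76) (nat_lit 10344042758) (nat_lit 0) (nat_lit 10996522780) (nat_lit 836) (nat_lit 24145178741) (nat_lit 165) (nat_lit 5) (nat_lit 164) (nat_lit 5) (nat_lit 175) (nat_lit 5) (nat_lit 451) (nat_lit 448) (nat_lit 301)) (XT.lf (nat_lit 0) (nat_lit 23234861597) (nat_lit 760) (nat_lit 12133925589) (nat_lit 836) (nat_lit 11271081796) (nat_lit 165) (nat_lit 5) (nat_lit 175) (nat_lit 5) (nat_lit 176) (nat_lit 5) (nat_lit 452) (nat_lit 448) (nat_lit 300))))) (XT.nd (nat_lit 312) (nat_lit 608) (nat_lit 0) (XT.nd (nat_lit 156) (nat_lit 0) (nat_lit 76) (XT.nd (nat_lit 78) (nat_lit 0) (nat_lit 76) (XT.lf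 (nat_lit 76) (nat_lit 12234187084) (nat_lit 0) (nat_lit 13358959478) (nat_lit 836) (nat_lit 22240089808) (nat_lit 166) (nat_lit 5) (nat_lit 165) (nat_lit 5) (nat_lit 176) (nat_lit 5) (nat_lit 453) (nat_lit 448) (nat_lit 299)) (XT.lf (nat_lit 0) (nat_lit 28428531972) (nat_lit 760) (nat_lit 10991080271) (nat_lit 836) (nat_lit 9648700722) (nat_lit 166) (nat_lit 5) (nat_lit 176) (nat_lit 5) (nat_lit 177) (nat_lit 5) (nat_lit 454) (nat_lit 448) (nat_lit 298))) (XT.nd (nat_lit 78) (nat_lit 0) (nat_lit 76) (XT.lf (nat_lit 76) (nat_lit 15110552355) (nat_lit 0) (nat_lit 16748220738) (nat_lit 836) (nat_lit 18483716113) (nat_lit 167) (nat_lit 5) (nat_lit 166) (nat_lit 5) (nat_lit 177) (nat_lit 5) (nat_lit 455) (nat_lit 448) (nat_lit 297)) (XT.lf (nat_lit 0) (nat_lit 35758134256) (nat_lit 760) (nat_lit 8886882560) (nat_lit 836) (nat_lit 7020477178) (nat_lit 167) (nat_lit 5) (nat_lit 177) (nat_lit 5) (nat_lit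 178) (nat_lit 5) (nat_lit 456) (nat_lit 448) (nat_lit 296)))) (XT.nd (nat_lit 156) (nat_lit 760) (nat_lit 0) (XT.nd (nat_lit 78) (nat_lit 0) (nat_lit 76) (XT.lf (nat_lit 76) (nat_lit 19111168373) (nat_lit 0) (nat_lit 21312560488) (nat_lit 836) (nat_lit 12602357018) (nat_lit 168) (nat_lit 5) (nat_lit 167) (nat_lit 5) (nat_lit 178) (nat_lit 5) (nat_lit 457) (nat_lit 448) (nat_lit 295)) (XT.lf (nat_lit 0) (nat_lit 45523712925) (nat_lit 760) (nat_lit 5683180345) (nat_lit 76) (nat_lit 3237758722) (nat_lit 168) (nat_lit 5) (nat_lit 178) (nat_lit 5) (nat_lit 169) (nat_lit 5) (nat_lit 458) (nat_lit 448) (nat_lit 294))) (XT.nd (nat_lit 78) (nat_lit 76) (nat_lit 0) (XT.lf (nat_lit 0) (nat_lit 24390024089) (nat_lit 760) (nat_lit 27217320028) (nat_lit 836) (nat_lit 4290370013) (nat_lit 158) (nat_lit 5) (nat_lit 168) (nat_lit 5) (nat_lit 169) (nat_lit 5) (nat_lit 459) (nat_lit 448) (nat_lit 293)) (XT.lf (nat_lit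 0) (nat_lit 649746626) (nat_lit 836) (nat_lit 1266319504) (nat_lit 76) (nat_lit 55502101135) (nat_lit 157) (nat_lit 5) (nat_lit 168) (nat_lit 5) (nat_lit 158) (nat_lit 5) (nat_lit 460) (nat_lit 448) (nat_lit 292)))))))
noncomputable def xc377 : XT := (XT.nd (nat_lit 1248) (nat_lit 2052) (nat_lit 0) (XT.nd (nat_lit 624) (nat_lit 1520) (nat_lit 0) (XT.nd (nat_lit 312) (nat_lit 608) (nat_lit 0) (XT.nd (nat_lit 156) (nat_lit 380) (nat_lit 0) (XT.nd (nat_lit 78) (nat_lit 380) (nat_lit 0) (XT.lf (nat_lit 0) (nat_lit 6575877300) (nat_lit 532) (nat_lit 27959595916) (nat_lit 76) (nat_lit 24431493607) (nat_lit 151) (nat_lit 5) (nat_lit 158) (nat_lit 5) (nat_lit 152) (nat_lit 5) (nat_lit 461) (nat_lit 448) (nat_lit 291)) (XT.lf (nat_lit 0) (nat_lit 4456057441) (nat_lit 380) (nat_lit 8463650577) (nat_lit 456) (nat_lit 47667428759) (nat_lit 146) (nat_lit 5) (nat_lit 151) (nat_lit 5) (nat_lit 152) (nat_lit 5)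 (nat_lit 462) (nat_lit 448) (nat_lit 290))) (XT.nd (nat_lit 78) (nat_lit 380) (nat_lit 0) (XT.lf (nat_lit 0) (nat_lit 20355926016) (nat_lit 456) (nat_lit 23105902326) (nat_lit 76) (nat_lit 18787727190) (nat_lit 146) (nat_lit 5) (nat_lit 152) (nat_lit 5) (nat_lit 147) (nat_lit 5) (nat_lit 463) (nat_lit 448) (nat_lit 289)) (XT.lf (nat_lit 0) (nat_lit 11808372553) (nat_lit 380) (nat_lit 16677414793) (nat_lit 456) (nat_lit 35493216344) (nat_lit 141) (nat_lit 5) (nat_lit 146) (nat_lit 5) (nat_lit 147) (nat_lit 5) (nat_lit 464) (nat_lit 448) (nat_lit 288)))) (XT.nd (nat_lit 156) (nat_lit 304) (nat_lit 0) (XT.nd (nat_lit 78) (nat_lit 304) (nat_lit 0) (XT.lf (nat_lit 0) (nat_lit 37597334688) (nat_lit 456) (nat_lit 16691328239) (nat_lit 76) (nat_lit 11477501762) (nat_lit 141) (nat_lit 5) (nat_lit 147) (nat_lit 5) (nat_lit 142) (nat_lit 5) (nat_lit 465) (nat_lit 448) (nat_lit 287)) (XT.lf (nat_lit 0) (nat_lit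 20957999849) (nat_lit 304) (nat_lit 26805892745) (nat_lit 380) (nat_lit 19848819561) (nat_lit 137) (nat_lit 5) (nat_lit 141) (nat_lit 5) (nat_lit 142) (nat_lit 5) (nat_lit 466) (nat_lit 448) (nat_lit 286))) (XT.nd (nat_lit 78) (nat_lit 304) (nat_lit 0) (XT.lf (nat_lit 0) (nat_lit 58756963403) (nat_lit 380) (nat_lit 8506189751) (nat_lit 76) (nat_lit 2272524666) (nat_lit 137) (nat_lit 5) (nat_lit 142) (nat_lit 5) (nat_lit 138) (nat_lit 5) (nat_lit 467) (nat_lit 448) (nat_lit 285)) (XT.lf (nat_lit 0) (nat_lit 32137627641) (nat_lit 304) (nat_lit 39102167172) (nat_lit 380) (nat_lit 267991672) (nat_lit 133) (nat_lit 5) (nat_lit 137) (nat_lit 5) (nat_lit 138) (nat_lit 5) (nat_lit 468) (nat_lit 448) (nat_lit 284))))) (XT.nd (nat_lit 312) (nat_lit 836) (nat_lit 0) (XT.nd (nat_lit 156) (nat_lit 304) (nat_lit 0) (XT.nd (nat_lit 78) (nat_lit 0) (nat_lit 0) (XT.lf (nat_lit 0) (nat_lit 1411020895) (nat_lit 304)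 (nat_lit 9179964959) (nat_lit 380) (nat_lit 62970740128) (nat_lit 128) (nat_lit 5) (nat_lit 132) (nat_lit 5) (nat_lit 133) (nat_lit 5) (nat_lit 469) (nat_lit 448) (nat_lit 283)) (XT.lf (nat_lit 0) (nat_lit 23007741807) (nat_lit 380) (nat_lit 30450786270) (nat_lit 76) (nat_lit 22208422984) (nat_lit 128) (nat_lit 5) (nat_lit 133) (nat_lit 5) (nat_lit 129) (nat_lit 5) (nat_lit 470) (nat_lit 448) (nat_lit 282))) (XT.nd (nat_lit 78) (nat_lit 0) (nat_lit 0) (XT.lf (nat_lit 0) (nat_lit 13618231938) (nat_lit 304) (nat_lit 22789213458) (nat_lit 380) (nat_lit 41451886563) (nat_lit 124) (nat_lit 5) (nat_lit 128) (nat_lit 5) (nat_lit 129) (nat_lit 5) (nat_lit 471) (nat_lit 448) (nat_lit 281)) (XT.lf (nat_lit 0) (nat_lit 51147282720) (nat_lit 380) (nat_lit 19344387122) (nat_lit 76) (nat_lit 9636154688) (nat_lit 124) (nat_lit 5) (nat_lit 129) (nat_lit 5) (nat_lit 125) (nat_lit 5) (nat_lit 472) (nat_lit 448)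 (nat_lit 280)))) (XT.nd (nat_lit 156) (nat_lit 608) (nat_lit 0) (XT.nd (nat_lit 78) (nat_lit 0) (nat_lit 0) (XT.lf (nat_lit 0) (nat_lit 28329038168) (nat_lit 228) (nat_lit 39110033098) (nat_lit 304) (nat_lit 15029922547) (nat_lit 121) (nat_lit 5) (nat_lit 124) (nat_lit 5) (nat_lit 125) (nat_lit 5) (nat_lit 473) (nat_lit 448) (nat_lit 279)) (XT.lf (nat_lit 0) (nat_lit 79056512364) (nat_lit 228) (nat_lit 5815638749) (nat_lit 304) (nat_lit 38735405) (nat_lit 121) (nat_lit 5) (nat_lit 124) (nat_lit 5) (nat_lit 125) (nat_lit 5) (nat_lit 474) (nat_lit 448) (nat_lit 278))) (XT.nd (nat_lit 78) (nat_lit 228) (nat_lit 0) (XT.lf (nat_lit 0) (nat_lit 16388731823) (nat_lit 380) (nat_lit 41823714528) (nat_lit 76) (nat_lit 29190705775) (nat_lit 116) (nat_lit 5) (nat_lit 121) (nat_lit 5) (nat_lit 117) (nat_lit 5) (nat_lit 475) (nat_lit 448) (nat_lit 277)) (XT.lf (nat_lit 0) (nat_lit 9994189179) (nat_lit 228) (nat_lit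 23993371899) (nat_lit 304) (nat_lit 56014873708) (nat_lit 113) (nat_lit 5) (nat_lit 116) (nat_lit 5) (nat_lit 117) (nat_lit 5) (nat_lit 476) (nat_lit 448) (nat_lit 276)))))) (XT.nd (nat_lit 624) (nat_lit 1140) (nat_lit 0) (XT.nd (nat_lit 312) (nat_lit 456) (nat_lit 0) (XT.nd (nat_lit 156) (nat_lit 228) (nat_lit 0) (XT.nd (nat_lit 78) (nat_lit 228) (nat_lit 0) (XT.lf (nat_lit 0) (nat_lit 53371772445) (nat_lit 304) (nat_lit 27040451908) (nat_lit 76) (nat_lit 12274185235) (nat_lit 113) (nat_lit 5) (nat_lit 117) (nat_lit 5) (nat_lit 114) (nat_lit 5) (nat_lit 477) (nat_lit 448) (nat_lit 275)) (XT.lf (nat_lit 0) (nat_lit 29113032205) (nat_lit 228) (nat_lit 45459231776) (nat_lit 304) (nat_lit 20889965709) (nat_lit 110) (nat_lit 5) (nat_lit 113) (nat_lit 5) (nat_lit 114) (nat_lit 5) (nat_lit 478) (nat_lit 448) (nat_lit 274))) (XT.nd (nat_lit 78) (nat_lit 228) (nat_lit 0) (XT.lf (nat_lit 0) (nat_lit 89011828582)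 (nat_lit 228) (nat_lit 8278114493) (nat_lit 304) (nat_lit 1064039609) (nat_lit 110) (nat_lit 5) (nat_lit 113) (nat_lit 5) (nat_lit 114) (nat_lit 5) (nat_lit 479) (nat_lit 448) (nat_lit 273)) (XT.lf (nat_lit 0) (nat_lit 20428579100) (nat_lit 228) (nat_lit 49967308511) (nat_lit 76) (nat_lit 30913634550) (nat_lit 107) (nat_lit 5) (nat_lit 110) (nat_lit 5) (nat_lit 108) (nat_lit 5) (nat_lit 480) (nat_lit 448) (nat_lit 272)))) (XT.nd (nat_lit 156) (nat_lit 228) (nat_lit 0) (XT.nd (nat_lit 78) (nat_lit 0) (nat_lit 0) (XT.lf (nat_lit 0) (nat_lit 11181206004) (nat_lit 228) (nat_lit 32249206318) (nat_lit 304) (nat_lit 60958037042) (nat_lit 104) (nat_lit 5) (nat_lit 107) (nat_lit 5) (nat_lit 108) (nat_lit 5) (nat_lit 481) (nat_lit 448) (nat_lit 271)) (XT.lf (nat_lit 0) (nat_lit 68563555076) (nat_lit 304) (nat_lit 30593981977) (nat_lit 76) (nat_lit 8414725013) (nat_lit 104) (nat_lit 5) (nat_lit 108) (nat_lit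 5) (nat_lit 105) (nat_lit 5) (nat_lit 482) (nat_lit 448) (nat_lit 270))) (XT.nd (nat_lit 78) (nat_lit 76) (nat_lit 0) (XT.lf (nat_lit 0) (nat_lit 35764879772) (nat_lit 152) (nat_lit 60274845390) (nat_lit 228) (nat_lit 14821221759) (nat_lit 102) (nat_lit 5) (nat_lit 104) (nat_lit 5) (nat_lit 105) (nat_lit 5) (nat_lit 483) (nat_lit 448) (nat_lit 269)) (XT.lf (nat_lit 0) (nat_lit 10763078941) (nat_lit 228) (nat_lit 7959022436) (nat_lit 76) (nat_lit 95557412519) (nat_lit 101) (nat_lit 5) (nat_lit 104) (nat_lit 5) (nat_lit 102) (nat_lit 5) (nat_lit 484) (nat_lit 448) (nat_lit 268))))) (XT.nd (nat_lit 312) (nat_lit 532) (nat_lit 0) (XT.nd (nat_lit 156) (nat_lit 228) (nat_lit 0) (XT.nd (nat_lit 78) (nat_lit 152) (nat_lit 0) (XT.lf (nat_lit 0) (nat_lit 38541874142) (nat_lit 304) (nat_lit 53865513636) (nat_lit 76) (nat_lit 25378804440) (nat_lit 98) (nat_lit 5) (nat_lit 102) (nat_lit 5) (nat_lit 99) (nat_lit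 5) (nat_lit 485) (nat_lit 448) (nat_lit 267)) (XT.lf (nat_lit 0) (nat_lit 18490863314) (nat_lit 152) (nat_lit 49950711411) (nat_lit 228) (nat_lit 52990031473) (nat_lit 96) (nat_lit 5) (nat_lit 98) (nat_lit 5) (nat_lit 99) (nat_lit 5) (nat_lit 486) (nat_lit 448) (nat_lit 266))) (XT.nd (nat_lit 78) (nat_lit 228) (nat_lit 0) (XT.lf (nat_lit 0) (nat_lit 96334115637) (nat_lit 152) (nat_lit 4413750134) (nat_lit 228) (nat_lit 24465844859) (nat_lit 96) (nat_lit 5) (nat_lit 98) (nat_lit 5) (nat_lit 99) (nat_lit 5) (nat_lit 487) (nat_lit 448) (nat_lit 265)) (XT.lf (nat_lit 0) (nat_lit 6787359389) (nat_lit 228) (nat_lit 79421754182) (nat_lit 76) (nat_lit 42897607861) (nat_lit 93) (nat_lit 5) (nat_lit 96) (nat_lit 5) (nat_lit 94) (nat_lit 5) (nat_lit 488) (nat_lit 448) (nat_lit 264)))) (XT.nd (nat_lit 156) (nat_lit 380) (nat_lit 0) (XT.nd (nat_lit 78) (nat_lit 152) (nat_lit 0) (XT.lf (nat_lit 0) (nat_lit 39349870216)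 (nat_lit 228) (nat_lit 472001519) (nat_lit 76) (nat_lit 93324014131) (nat_lit 93) (nat_lit 5) (nat_lit 96) (nat_lit 5) (nat_lit 94) (nat_lit 5) (nat_lit 489) (nat_lit 448) (nat_lit 263)) (XT.lf (nat_lit 0) (nat_lit 75029857405) (nat_lit 228) (nat_lit 52331475125) (nat_lit 76) (nat_lit 9951208468) (nat_lit 91) (nat_lit 5) (nat_lit 94) (nat_lit 5) (nat_lit 92) (nat_lit 5) (nat_lit 490) (nat_lit 448) (nat_lit 262))) (XT.nd (nat_lit 78) (nat_lit 228) (nat_lit 0) (XT.lf (nat_lit 0) (nat_lit 33452825127) (nat_lit 152) (nat_lit 80223683678) (nat_lit 228) (nat_lit 27951886858) (nat_lit 89) (nat_lit 5) (nat_lit 91) (nat_lit 5) (nat_lit 92) (nat_lit 5) (nat_lit 491) (nat_lit 448) (nat_lit 261)) (XT.nd (nat_lit 78) (nat_lit 152) (nat_lit 0) (XT.lf (nat_lit 0) (nat_lit 8736565842) (nat_lit 228) (nat_lit 20914453513) (nat_lit 76) (nat_lit 116457693036) (nat_lit 88) (nat_lit 5) (nat_lit 91) (nat_lit 5) (nat_lit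 89) (nat_lit 5) (nat_lit 492) (nat_lit 448) (nat_lit 260)) (XT.lf (nat_lit 0) (nat_lit 47844813915) (nat_lit 228) (nat_lit 78552346279) (nat_lit 76) (nat_lit 24316736422) (nat_lit 86) (nat_lit 5) (nat_lit 89) (nat_lit 5) (nat_lit 87) (nat_lit 5) (nat_lit 493) (nat_lit 448) (nat_lit 259))))))))
noncomputable def xc378 : XT := (XT.nd (nat_lit 1248) (nat_lit 1140) (nat_lit 0) (XT.nd (nat_lit 624) (nat_lit 684) (nat_lit 0) (XT.nd (nat_lit 312) (nat_lit 456) (nat_lit 0) (XT.nd (nat_lit 156) (nat_lit 152) (nat_lit 0) (XT.nd (nat_lit 78) (nat_lit 0) (nat_lit 0) (XT.lf (nat_lit 0) (nat_lit 15075516538) (nat_lit 152) (nat_lit 74913879935) (nat_lit 228) (nat_lit 65505897490) (nat_lit 84) (nat_lit 5) (nat_lit 86) (nat_lit 5) (nat_lit 87) (nat_lit 5) (nat_lit 494) (nat_lit 448) (nat_lit 258)) (XT.lf (nat_lit 0) (nat_lit 116111015513) (nat_lit 152) (nat_lit 19459991604) (nat_lit 228) (nat_lit 24878264127) (nat_lit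 84) (nat_lit 5) (nat_lit 86) (nat_lit 5) (nat_lit 87) (nat_lit 5) (nat_lit 495) (nat_lit 448) (nat_lit 257))) (XT.nd (nat_lit 78) (nat_lit 0) (nat_lit 0) (XT.lf (nat_lit 0) (nat_lit 18743389674) (nat_lit 152) (nat_lit 108087045737) (nat_lit 76) (nat_lit 38730044931) (nat_lit 82) (nat_lit 5) (nat_lit 84) (nat_lit 5) (nat_lit 83) (nat_lit 5) (nat_lit 496) (nat_lit 448) (nat_lit 256)) (XT.lf (nat_lit 0) (nat_lit 64791767292) (nat_lit 152) (nat_lit 5714732814) (nat_lit 76) (nat_lit 100346272084) (nat_lit 82) (nat_lit 5) (nat_lit 84) (nat_lit 5) (nat_lit 83) (nat_lit 5) (nat_lit 497) (nat_lit 448) (nat_lit 255)))) (XT.nd (nat_lit 156) (nat_lit 228) (nat_lit 0) (XT.nd (nat_lit 78) (nat_lit 76) (nat_lit 0) (XT.lf (nat_lit 0) (nat_lit 105140496179) (nat_lit 152) (nat_lit 9643127505) (nat_lit 228) (nat_lit 61544001965) (nat_lit 80) (nat_lit 5) (nat_lit 82) (nat_lit 5) (nat_lit 83) (nat_lit 5) (nat_lit 498)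 (nat_lit 448) (nat_lit 254)) (XT.lf (nat_lit 0) (nat_lit 40099287662) (nat_lit 76) (nat_lit 128746945786) (nat_lit 152) (nat_lit 13151430314) (nat_lit 79) (nat_lit 5) (nat_lit 80) (nat_lit 5) (nat_lit 81) (nat_lit 4) (nat_lit 499) (nat_lit 448) (nat_lit 253))) (XT.nd (nat_lit 78) (nat_lit 152) (nat_lit 0) (XT.lf (nat_lit 0) (nat_lit 37838354151) (nat_lit 152) (nat_lit 29236138070) (nat_lit 76) (nat_lit 120778163861) (nat_lit 78) (nat_lit 5) (nat_lit 80) (nat_lit 5) (nat_lit 79) (nat_lit 5) (nat_lit 500) (nat_lit 448) (nat_lit 252)) (XT.lf (nat_lit 0) (nat_lit 91780341821) (nat_lit 152) (nat_lit 587810337) (nat_lit 228) (nat_lit 101549841076) (nat_lit 76) (nat_lit 5) (nat_lit 78) (nat_lit 5) (nat_lit 79) (nat_lit 5) (nat_lit 501) (nat_lit 448) (nat_lit 251))))) (XT.nd (nat_lit 312) (nat_lit 380) (nat_lit 0) (XT.nd (nat_lit 156) (nat_lit 152) (nat_lit 0) (XT.nd (nat_lit 78) (nat_lit 76) (nat_lit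 0) (XT.lf (nat_lit 0) (nat_lit 19123173295) (nat_lit 76) (nat_lit 132383399803) (nat_lit 152) (nat_lit 48685917502) (nat_lit 75) (nat_lit 5) (nat_lit 76) (nat_lit 5) (nat_lit 77) (nat_lit 4) (nat_lit 502) (nat_lit 448) (nat_lit 250)) (XT.lf (nat_lit 0) (nat_lit 8370179473) (nat_lit 152) (nat_lit 56846509977) (nat_lit 76) (nat_lit 141470333576) (nat_lit 74) (nat_lit 5) (nat_lit 76) (nat_lit 5) (nat_lit 75) (nat_lit 5) (nat_lit 503) (nat_lit 448) (nat_lit 249))) (XT.nd (nat_lit 78) (nat_lit 0) (nat_lit 0) (XT.lf (nat_lit 0) (nat_lit 67931702687) (nat_lit 228) (nat_lit 138327656441) (nat_lit 76) (nat_lit 7142577089) (nat_lit 72) (nat_lit 5) (nat_lit 75) (nat_lit 5) (nat_lit 73) (nat_lit 4) (nat_lit 504) (nat_lit 448) (nat_lit 248)) (XT.lf (nat_lit 0) (nat_lit 132518512391) (nat_lit 228) (nat_lit 5925460993) (nat_lit 76) (nat_lit 81906261174) (nat_lit 72) (nat_lit 5) (nat_lit 75) (nat_lit 5) (nat_lit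 73) (nat_lit 4) (nat_lit 505) (nat_lit 448) (nat_lit 247)))) (XT.nd (nat_lit 156) (nat_lit 76) (nat_lit 0) (XT.nd (nat_lit 78) (nat_lit 228) (nat_lit 0) (XT.lf (nat_lit 0) (nat_lit 137496854481) (nat_lit 76) (nat_lit 64984118162) (nat_lit 152) (nat_lit 25057659678) (nat_lit 71) (nat_lit 5) (nat_lit 72) (nat_lit 5) (nat_lit 73) (nat_lit 4) (nat_lit 506) (nat_lit 448) (nat_lit 246)) (XT.lf (nat_lit 0) (nat_lit 40712756147) (nat_lit 228) (nat_lit 180910119243) (nat_lit 76) (nat_lit 13373418016) (nat_lit 68) (nat_lit 5) (nat_lit 71) (nat_lit 5) (nat_lit 69) (nat_lit 4) (nat_lit 507) (nat_lit 448) (nat_lit 245))) (XT.nd (nat_lit 78) (nat_lit 76) (nat_lit 0) (XT.lf (nat_lit 0) (nat_lit 111544406109) (nat_lit 228) (nat_lit 35705865731) (nat_lit 76) (nat_lit 95425285894) (nat_lit 68) (nat_lit 5) (nat_lit 71) (nat_lit 5) (nat_lit 69) (nat_lit 4) (nat_lit 508) (nat_lit 448) (nat_lit 244)) (XT.lf (nat_lit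 0) (nat_lit 120618428080) (nat_lit 76) (nat_lit 67182023284) (nat_lit 152) (nat_lit 62844193281) (nat_lit 67) (nat_lit 5) (nat_lit 68) (nat_lit 5) (nat_lit 69) (nat_lit 4) (nat_lit 509) (nat_lit 448) (nat_lit 243)))))) (XT.nd (nat_lit 624) (nat_lit 532) (nat_lit 0) (XT.nd (nat_lit 312) (nat_lit 380) (nat_lit 0) (XT.nd (nat_lit 156) (nat_lit 76) (nat_lit 0) (XT.nd (nat_lit 78) (nat_lit 0) (nat_lit 0) (XT.lf (nat_lit 0) (nat_lit 9904347160) (nat_lit 152) (nat_lit 231479962282) (nat_lit 76) (nat_lit 17554426393) (nat_lit 65) (nat_lit 5) (nat_lit 67) (nat_lit 5) (nat_lit 66) (nat_lit 4) (nat_lit 510) (nat_lit 448) (nat_lit 242)) (XT.lf (nat_lit 0) (nat_lit 87517462304) (nat_lit 152) (nat_lit 72373593643) (nat_lit 76) (nat_lit 107538007773) (nat_lit 65) (nat_lit 5) (nat_lit 67) (nat_lit 5) (nat_lit 66) (nat_lit 4) (nat_lit 511) (nat_lit 448) (nat_lit 241))) (XT.nd (nat_lit 78) (nat_lit 0) (nat_lit 0)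 (XT.lf (nat_lit 0) (nat_lit 97818202899) (nat_lit 76) (nat_lit 72719888336) (nat_lit 152) (nat_lit 105729473869) (nat_lit 64) (nat_lit 5) (nat_lit 65) (nat_lit 5) (nat_lit 66) (nat_lit 4) (nat_lit 512) (nat_lit 448) (nat_lit 240)) (XT.lf (nat_lit 0) (nat_lit 259248844157) (nat_lit 152) (nat_lit 6768923324) (nat_lit 0) (nat_lit 19453269454) (nat_lit 64) (nat_lit 5) (nat_lit 66) (nat_lit 4) (nat_lit 64) (nat_lit 4) (nat_lit 513) (nat_lit 448) (nat_lit 239)))) (XT.nd (nat_lit 156) (nat_lit 152) (nat_lit 0) (XT.nd (nat_lit 78) (nat_lit 76) (nat_lit 0) (XT.lf (nat_lit 0) (nat_lit 59463722747) (nat_lit 152) (nat_lit 117895368741) (nat_lit 76) (nat_lit 117529092943) (nat_lit 62) (nat_lit 5) (nat_lit 64) (nat_lit 5) (nat_lit 63) (nat_lit 4) (nat_lit 514) (nat_lit 448) (nat_lit 238)) (XT.lf (nat_lit 0) (nat_lit 67123140764) (nat_lit 76) (nat_lit 82593711206) (nat_lit 152) (nat_lit 154979635959) (nat_lit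 61) (nat_lit 5) (nat_lit 62) (nat_lit 5) (nat_lit 63) (nat_lit 4) (nat_lit 515) (nat_lit 448) (nat_lit 237))) (XT.nd (nat_lit 78) (nat_lit 152) (nat_lit 0) (XT.lf (nat_lit 0) (nat_lit 246775657907) (nat_lit 152) (nat_lit 49707136799) (nat_lit 0) (nat_lit 18397760886) (nat_lit 61) (nat_lit 5) (nat_lit 63) (nat_lit 4) (nat_lit 61) (nat_lit 4) (nat_lit 516) (nat_lit 448) (nat_lit 236)) (XT.lf (nat_lit 0) (nat_lit 26146348285) (nat_lit 152) (nat_lit 174778233236) (nat_lit 76) (nat_lit 124442574255) (nat_lit 59) (nat_lit 5) (nat_lit 61) (nat_lit 5) (nat_lit 60) (nat_lit 4) (nat_lit 517) (nat_lit 448) (nat_lit 235))))) (XT.nd (nat_lit 312) (nat_lit 304) (nat_lit 0) (XT.nd (nat_lit 156) (nat_lit 152) (nat_lit 0) (XT.nd (nat_lit 78) (nat_lit 0) (nat_lit 0) (XT.lf (nat_lit 0) (nat_lit 25990468329) (nat_lit 76) (nat_lit 98091994634) (nat_lit 152) (nat_lit 212176745444) (nat_lit 58) (nat_lit 5) (nat_lit 59)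 (nat_lit 5) (nat_lit 60) (nat_lit 4) (nat_lit 518) (nat_lit 448) (nat_lit 234)) (XT.lf (nat_lit 0) (nat_lit 230077830237) (nat_lit 152) (nat_lit 104885793607) (nat_lit 0) (nat_lit 12574117485) (nat_lit 58) (nat_lit 5) (nat_lit 60) (nat_lit 4) (nat_lit 58) (nat_lit 4) (nat_lit 519) (nat_lit 448) (nat_lit 233))) (XT.nd (nat_lit 78) (nat_lit 76) (nat_lit 0) (XT.lf (nat_lit 0) (nat_lit 112766883802) (nat_lit 76) (nat_lit 231974449789) (nat_lit 76) (nat_lit 14470448926) (nat_lit 57) (nat_lit 4) (nat_lit 58) (nat_lit 5) (nat_lit 58) (nat_lit 4) (nat_lit 520) (nat_lit 448) (nat_lit 232)) (XT.lf (nat_lit 0) (nat_lit 92475616620) (nat_lit 152) (nat_lit 27929261182) (nat_lit 76) (nat_lit 250901271244) (nat_lit 56) (nat_lit 5) (nat_lit 58) (nat_lit 5) (nat_lit 57) (nat_lit 4) (nat_lit 521) (nat_lit 448) (nat_lit 231)))) (XT.nd (nat_lit 156) (nat_lit 152) (nat_lit 0) (XT.nd (nat_lit 78) (nat_lit 76) (nat_lit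 0) (XT.lf (nat_lit 0) (nat_lit 207535009737) (nat_lit 152) (nat_lit 175907914788) (nat_lit 0) (nat_lit 387832042) (nat_lit 55) (nat_lit 5) (nat_lit 57) (nat_lit 4) (nat_lit 55) (nat_lit 4) (nat_lit 522) (nat_lit 448) (nat_lit 230)) (XT.lf (nat_lit 0) (nat_lit 59501492629) (nat_lit 76) (nat_lit 272229175881) (nat_lit 76) (nat_lit 65081761156) (nat_lit 54) (nat_lit 4) (nat_lit 55) (nat_lit 5) (nat_lit 55) (nat_lit 4) (nat_lit 523) (nat_lit 448) (nat_lit 229))) (XT.nd (nat_lit 78) (nat_lit 76) (nat_lit 0) (XT.lf (nat_lit 0) (nat_lit 53066061827) (nat_lit 152) (nat_lit 98362213722) (nat_lit 76) (nat_lit 258823175584) (nat_lit 53) (nat_lit 5) (nat_lit 55) (nat_lit 5) (nat_lit 54) (nat_lit 4) (nat_lit 524) (nat_lit 448) (nat_lit 228)) (XT.nd (nat_lit 78) (nat_lit 0) (nat_lit 0) (XT.lf (nat_lit 0) (nat_lit 156474656213) (nat_lit 76) (nat_lit 20902178749) (nat_lit 152) (nat_lit 246810106358) (nat_lit 52)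 (nat_lit 5) (nat_lit 53) (nat_lit 5) (nat_lit 54) (nat_lit 4) (nat_lit 525) (nat_lit 448) (nat_lit 227)) (XT.lf (nat_lit 0) (nat_lit 311409423030) (nat_lit 152) (nat_lit 13108913018) (nat_lit 0) (nat_lit 114125556157) (nat_lit 52) (nat_lit 5) (nat_lit 54) (nat_lit 4) (nat_lit 52) (nat_lit 4) (nat_lit 526) (nat_lit 448) (nat_lit 226))))))))
noncomputable def xc379 : XT := (XT.nd (nat_lit 1248) (nat_lit 456) (nat_lit 0) (XT.nd (nat_lit 624) (nat_lit 532) (nat_lit 0) (XT.nd (nat_lit 312) (nat_lit 304) (nat_lit 0) (XT.nd (nat_lit 156) (nat_lit 76) (nat_lit 0) (XT.nd (nat_lit 78) (nat_lit 76) (nat_lit 0) (XT.lf (nat_lit 0) (nat_lit 2883723498) (nat_lit 152) (nat_lit 191372419420) (nat_lit 76) (nat_lit 259343359157) (nat_lit 50) (nat_lit 5) (nat_lit 52) (nat_lit 5) (nat_lit 51) (nat_lit 4) (nat_lit 527) (nat_lit 448) (nat_lit 225)) (XT.lf (nat_lit 0) (nat_lit 83061724550) (nat_lit 76) (nat_lit 53692399360)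 (nat_lit 152) (nat_lit 332368367451) (nat_lit 49) (nat_lit 5) (nat_lit 50) (nat_lit 5) (nat_lit 51) (nat_lit 4) (nat_lit 528) (nat_lit 448) (nat_lit 224))) (XT.nd (nat_lit 78) (nat_lit 76) (nat_lit 0) (XT.lf (nat_lit 0) (nat_lit 282077934220) (nat_lit 152) (nat_lit 108917669961) (nat_lit 0) (nat_lit 94188031439) (nat_lit 49) (nat_lit 5) (nat_lit 51) (nat_lit 4) (nat_lit 49) (nat_lit 4) (nat_lit 529) (nat_lit 448) (nat_lit 223)) (XT.lf (nat_lit 0) (nat_lit 187193238439) (nat_lit 76) (nat_lit 251277262954) (nat_lit 76) (nat_lit 63387207382) (nat_lit 48) (nat_lit 4) (nat_lit 49) (nat_lit 5) (nat_lit 49) (nat_lit 4) (nat_lit 530) (nat_lit 448) (nat_lit 222)))) (XT.nd (nat_lit 156) (nat_lit 152) (nat_lit 0) (XT.nd (nat_lit 78) (nat_lit 76) (nat_lit 0) (XT.lf (nat_lit 0) (nat_lit 82525104862) (nat_lit 152) (nat_lit 18713736118) (nat_lit 76) (nat_lit 417967875620) (nat_lit 47) (nat_lit 5) (nat_lit 49)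 (nat_lit 5) (nat_lit 48) (nat_lit 4) (nat_lit 531) (nat_lit 448) (nat_lit 221)) (XT.lf (nat_lit 0) (nat_lit 239269035239) (nat_lit 152) (nat_lit 237493016838) (nat_lit 0) (nat_lit 60325854597) (nat_lit 46) (nat_lit 5) (nat_lit 48) (nat_lit 4) (nat_lit 46) (nat_lit 4) (nat_lit 532) (nat_lit 448) (nat_lit 220))) (XT.nd (nat_lit 78) (nat_lit 76) (nat_lit 0) (XT.lf (nat_lit 0) (nat_lit 79500530734) (nat_lit 76) (nat_lit 327572396797) (nat_lit 76) (nat_lit 148629090453) (nat_lit 45) (nat_lit 4) (nat_lit 46) (nat_lit 5) (nat_lit 46) (nat_lit 4) (nat_lit 533) (nat_lit 448) (nat_lit 219)) (XT.lf (nat_lit 0) (nat_lit 11851242990) (nat_lit 152) (nat_lit 154648377929) (nat_lit 76) (nat_lit 408536565104) (nat_lit 44) (nat_lit 5) (nat_lit 46) (nat_lit 5) (nat_lit 45) (nat_lit 4) (nat_lit 534) (nat_lit 448) (nat_lit 218))))) (XT.nd (nat_lit 312) (nat_lit 228) (nat_lit 0) (XT.nd (nat_lit 156) (nat_lit 228) (nat_lit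 0) (XT.nd (nat_lit 78) (nat_lit 0) (nat_lit 0) (XT.lf (nat_lit 0) (nat_lit 178401168989) (nat_lit 152) (nat_lit 408683292087) (nat_lit 0) (nat_lit 7978749870) (nat_lit 43) (nat_lit 5) (nat_lit 45) (nat_lit 4) (nat_lit 43) (nat_lit 4) (nat_lit 535) (nat_lit 448) (nat_lit 217)) (XT.lf (nat_lit 0) (nat_lit 358669849801) (nat_lit 152) (nat_lit 68904847122) (nat_lit 0) (nat_lit 188247327266) (nat_lit 43) (nat_lit 5) (nat_lit 45) (nat_lit 4) (nat_lit 43) (nat_lit 4) (nat_lit 536) (nat_lit 448) (nat_lit 216))) (XT.nd (nat_lit 78) (nat_lit 152) (nat_lit 0) (XT.lf (nat_lit 0) (nat_lit 297380114177) (nat_lit 76) (nat_lit 255214574375) (nat_lit 76) (nat_lit 84791953349) (nat_lit 42) (nat_lit 4) (nat_lit 43) (nat_lit 5) (nat_lit 43) (nat_lit 4) (nat_lit 537) (nat_lit 448) (nat_lit 215)) (XT.lf (nat_lit 0) (nat_lit 23635592777) (nat_lit 76) (nat_lit 71026996297) (nat_lit 152) (nat_lit 565214070960) (nat_lit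 40) (nat_lit 5) (nat_lit 41) (nat_lit 5) (nat_lit 42) (nat_lit 4) (nat_lit 538) (nat_lit 448) (nat_lit 214)))) (XT.nd (nat_lit 156) (nat_lit 152) (nat_lit 0) (XT.nd (nat_lit 78) (nat_lit 76) (nat_lit 0) (XT.lf (nat_lit 0) (nat_lit 288003189741) (nat_lit 152) (nat_lit 269334585687) (nat_lit 0) (nat_lit 125695757207) (nat_lit 40) (nat_lit 5) (nat_lit 42) (nat_lit 4) (nat_lit 40) (nat_lit 4) (nat_lit 539) (nat_lit 448) (nat_lit 213)) (XT.lf (nat_lit 0) (nat_lit 118546669896) (nat_lit 76) (nat_lit 375479170761) (nat_lit 76) (nat_lit 213171657198) (nat_lit 39) (nat_lit 4) (nat_lit 40) (nat_lit 5) (nat_lit 40) (nat_lit 4) (nat_lit 540) (nat_lit 448) (nat_lit 212))) (XT.nd (nat_lit 78) (nat_lit 152) (nat_lit 0) (XT.lf (nat_lit 0) (nat_lit 535172276611) (nat_lit 76) (nat_lit 179738459920) (nat_lit 76) (nat_lit 17430869187) (nat_lit 39) (nat_lit 4) (nat_lit 40) (nat_lit 5) (nat_lit 40) (nat_lit 4) (nat_lit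 541) (nat_lit 448) (nat_lit 211)) (XT.lf (nat_lit 0) (nat_lit 185985453643) (nat_lit 152) (nat_lit 541008464852) (nat_lit 0) (nat_lit 31406725807) (nat_lit 37) (nat_lit 5) (nat_lit 39) (nat_lit 4) (nat_lit 37) (nat_lit 4) (nat_lit 542) (nat_lit 448) (nat_lit 210)))))) (XT.nd (nat_lit 55146) (nat_lit 0) (nat_lit 10032) (XT.nd (nat_lit 312) (nat_lit 228) (nat_lit 0) (XT.nd (nat_lit 156) (nat_lit 152) (nat_lit 0) (XT.nd (nat_lit 78) (nat_lit 76) (nat_lit 0) (XT.lf (nat_lit 0) (nat_lit 405327039009) (nat_lit 152) (nat_lit 129356051805) (nat_lit 0) (nat_lit 250748244510) (nat_lit 37) (nat_lit 5) (nat_lit 39) (nat_lit 4) (nat_lit 37) (nat_lit 4) (nat_lit 543) (nat_lit 448) (nat_lit 209)) (XT.lf (nat_lit 0) (nat_lit 312893147299) (nat_lit 76) (nat_lit 327627511903) (nat_lit 76) (nat_lit 173048653917) (nat_lit 36) (nat_lit 4) (nat_lit 37) (nat_lit 5) (nat_lit 37) (nat_lit 4) (nat_lit 544) (nat_lit 448)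 (nat_lit 208))) (XT.nd (nat_lit 78) (nat_lit 76) (nat_lit 0) (XT.lf (nat_lit 0) (nat_lit 45166418222) (nat_lit 152) (nat_lit 61987761094) (nat_lit 76) (nat_lit 735814059606) (nat_lit 35) (nat_lit 5) (nat_lit 37) (nat_lit 5) (nat_lit 36) (nat_lit 4) (nat_lit 545) (nat_lit 448) (nat_lit 207)) (XT.lf (nat_lit 0) (nat_lit 276952832327) (nat_lit 152) (nat_lit 466583867725) (nat_lit 0) (nat_lit 129734759911) (nat_lit 34) (nat_lit 5) (nat_lit 36) (nat_lit 4) (nat_lit 34) (nat_lit 4) (nat_lit 546) (nat_lit 448) (nat_lit 206)))) (XT.nd (nat_lit 156) (nat_lit 152) (nat_lit 0) (XT.nd (nat_lit 78) (nat_lit 76) (nat_lit 0) (XT.lf (nat_lit 0) (nat_lit 523152021128) (nat_lit 152) (nat_lit 5862751750) (nat_lit 0) (nat_lit 375933896480) (nat_lit 34) (nat_lit 5) (nat_lit 36) (nat_lit 4) (nat_lit 34) (nat_lit 4) (nat_lit 547) (nat_lit 448) (nat_lit 205)) (XT.lf (nat_lit 0) (nat_lit 493695421407) (nat_lit 76) (nat_lit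 295673551027) (nat_lit 76) (nat_lit 148455376635) (nat_lit 33) (nat_lit 4) (nat_lit 34) (nat_lit 5) (nat_lit 34) (nat_lit 4) (nat_lit 548) (nat_lit 448) (nat_lit 204))) (XT.nd (nat_lit 78) (nat_lit 0) (nat_lit 0) (XT.lf (nat_lit 0) (nat_lit 46061011074) (nat_lit 76) (nat_lit 48221541531) (nat_lit 152) (nat_lit 877944892461) (nat_lit 31) (nat_lit 5) (nat_lit 32) (nat_lit 5) (nat_lit 33) (nat_lit 4) (nat_lit 549) (nat_lit 448) (nat_lit 203)) (XT.lf (nat_lit 0) (nat_lit 355116697474) (nat_lit 152) (nat_lit 437656069743) (nat_lit 0) (nat_lit 214908824247) (nat_lit 31) (nat_lit 5) (nat_lit 33) (nat_lit 4) (nat_lit 31) (nat_lit 4) (nat_lit 550) (nat_lit 448) (nat_lit 202))))) (XT.nd (nat_lit 312) (nat_lit 0) (nat_lit 152) (XT.nd (nat_lit 156) (nat_lit 0) (nat_lit 76) (XT.nd (nat_lit 78) (nat_lit 0) (nat_lit 0) (XT.lf (nat_lit 0) (nat_lit 9594638144) (nat_lit 836) (nat_lit 6290180464) (nat_lit 836) (nat_lit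 6290180464) (nat_lit 163) (nat_lit 3) (nat_lit 174) (nat_lit 3) (nat_lit 174) (nat_lit 5) (nat_lit 449) (nat_lit 449) (nat_lit 302)) (XT.lf (nat_lit 76) (nat_lit 9819094545) (nat_lit 0) (nat_lit 10035977102) (nat_lit 836) (nat_lit 25594370749) (nat_lit 164) (nat_lit 5) (nat_lit 163) (nat_lit 3) (nat_lit 174) (nat_lit 5) (nat_lit 450) (nat_lit 449) (nat_lit 301))) (XT.nd (nat_lit 78) (nat_lit 0) (nat_lit 0) (XT.lf (nat_lit 0) (nat_lit 20968204214) (nat_lit 760) (nat_lit 13022272692) (nat_lit 836) (nat_lit 12592679745) (nat_lit 164) (nat_lit 5) (nat_lit 174) (nat_lit 5) (nat_lit 175) (nat_lit 5) (nat_lit 451) (nat_lit 449) (nat_lit 300)) (XT.lf (nat_lit 76) (nat_lit 10899329976) (nat_lit 0) (nat_lit 11570357171) (nat_lit 836) (nat_lit 25287234940) (nat_lit 165) (nat_lit 5) (nat_lit 164) (nat_lit 5) (nat_lit 175) (nat_lit 5) (nat_lit 452) (nat_lit 449) (nat_lit 299)))) (XT.nd (nat_lit 156) (nat_lit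 0) (nat_lit 76) (XT.nd (nat_lit 78) (nat_lit 0) (nat_lit 0) (XT.lf (nat_lit 0) (nat_lit 24455384197) (nat_lit 760) (nat_lit 12701032037) (nat_lit 836) (nat_lit 11812502707) (nat_lit 165) (nat_lit 5) (nat_lit 175) (nat_lit 5) (nat_lit 176) (nat_lit 5) (nat_lit 453) (nat_lit 449) (nat_lit 298)) (XT.lf (nat_lit 76) (nat_lit 12884847724) (nat_lit 0) (nat_lit 14044544800) (nat_lit 836) (nat_lit 23292671934) (nat_lit 166) (nat_lit 5) (nat_lit 165) (nat_lit 5) (nat_lit 176) (nat_lit 5) (nat_lit 454) (nat_lit 449) (nat_lit 297))) (XT.nd (nat_lit 78) (nat_lit 0) (nat_lit 0) (XT.lf (nat_lit 0) (nat_lit 29903590251) (nat_lit 760) (nat_lit 11500576774) (nat_lit 836) (nat_lit 10114875908) (nat_lit 166) (nat_lit 5) (nat_lit 176) (nat_lit 5) (nat_lit 177) (nat_lit 5) (nat_lit 455) (nat_lit 449) (nat_lit 296)) (XT.nd (nat_lit 78) (nat_lit 0) (nat_lit 76) (XT.lf (nat_lit 76) (nat_lit 15905491394) (nat_lit 0) (nat_lit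 17597913468) (nat_lit 836) (nat_lit 19353620249) (nat_lit 167) (nat_lit 5) (nat_lit 166) (nat_lit 5) (nat_lit 177) (nat_lit 5) (nat_lit 456) (nat_lit 449) (nat_lit 295)) (XT.lf (nat_lit 0) (nat_lit 37595089886) (nat_lit 760) (nat_lit 9291044089) (nat_lit 836) (nat_lit 7360178559) (nat_lit 167) (nat_lit 5) (nat_lit 177) (nat_lit 5) (nat_lit 178) (nat_lit 5) (nat_lit 457) (nat_lit 449) (nat_lit 294))))))))
noncomputable def xc380 : XT := (XT.nd (nat_lit 1248) (nat_lit 2356) (nat_lit 0) (XT.nd (nat_lit 624) (nat_lit 1292) (nat_lit 0) (XT.nd (nat_lit 312) (nat_lit 1216) (nat_lit 0) (XT.nd (nat_lit 156) (nat_lit 760) (nat_lit 0) (XT.nd (nat_lit 78) (nat_lit 0) (nat_lit 76) (XT.lf (nat_lit 76) (nat_lit 20106261284) (nat_lit 0) (nat_lit 22385984518) (nat_lit 836) (nat_lit 13182774308) (nat_lit 168) (nat_lit 5) (nat_lit 167) (nat_lit 5) (nat_lit 178) (nat_lit 5) (nat_lit 458) (nat_lit 449) (nat_lit 293))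 (XT.lf (nat_lit 0) (nat_lit 47844859314) (nat_lit 760) (nat_lit 5927314340) (nat_lit 76) (nat_lit 3392459531) (nat_lit 168) (nat_lit 5) (nat_lit 178) (nat_lit 5) (nat_lit 169) (nat_lit 5) (nat_lit 459) (nat_lit 449) (nat_lit 292))) (XT.nd (nat_lit 78) (nat_lit 76) (nat_lit 0) (XT.lf (nat_lit 0) (nat_lit 25648904750) (nat_lit 760) (nat_lit 28582241152) (nat_lit 836) (nat_lit 4459278997) (nat_lit 158) (nat_lit 5) (nat_lit 168) (nat_lit 5) (nat_lit 169) (nat_lit 5) (nat_lit 460) (nat_lit 449) (nat_lit 291)) (XT.lf (nat_lit 0) (nat_lit 724281317) (nat_lit 836) (nat_lit 1290738049) (nat_lit 76) (nat_lit 58271950985) (nat_lit 157) (nat_lit 5) (nat_lit 168) (nat_lit 5) (nat_lit 158) (nat_lit 5) (nat_lit 461) (nat_lit 449) (nat_lit 290)))) (XT.nd (nat_lit 156) (nat_lit 380) (nat_lit 0) (XT.nd (nat_lit 78) (nat_lit 380) (nat_lit 0) (XT.lf (nat_lit 0) (nat_lit 6945276730) (nat_lit 532) (nat_lit 29317233714)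 (nat_lit 76) (nat_lit 25650771670) (nat_lit 151) (nat_lit 5) (nat_lit 158) (nat_lit 5) (nat_lit 152) (nat_lit 5) (nat_lit 462) (nat_lit 449) (nat_lit 289)) (XT.lf (nat_lit 0) (nat_lit 4718551633) (nat_lit 380) (nat_lit 8886433446) (nat_lit 456) (nat_lit 50009541315) (nat_lit 146) (nat_lit 5) (nat_lit 151) (nat_lit 5) (nat_lit 152) (nat_lit 5) (nat_lit 463) (nat_lit 449) (nat_lit 288))) (XT.nd (nat_lit 78) (nat_lit 380) (nat_lit 0) (XT.lf (nat_lit 0) (nat_lit 21411148888) (nat_lit 456) (nat_lit 24221528583) (nat_lit 76) (nat_lit 19727481996) (nat_lit 146) (nat_lit 5) (nat_lit 152) (nat_lit 5) (nat_lit 147) (nat_lit 5) (nat_lit 464) (nat_lit 449) (nat_lit 287)) (XT.lf (nat_lit 0) (nat_lit 12437820220) (nat_lit 380) (nat_lit 17508510198) (nat_lit 456) (nat_lit 37229808376) (nat_lit 141) (nat_lit 5) (nat_lit 146) (nat_lit 5) (nat_lit 147) (nat_lit 5) (nat_lit 465) (nat_lit 449) (nat_lit 286))))) (XT.nd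 (nat_lit 312) (nat_lit 684) (nat_lit 0) (XT.nd (nat_lit 156) (nat_lit 304) (nat_lit 0) (XT.nd (nat_lit 78) (nat_lit 304) (nat_lit 0) (XT.lf (nat_lit 0) (nat_lit 39511770028) (nat_lit 456) (nat_lit 17487036757) (nat_lit 76) (nat_lit 12053935427) (nat_lit 141) (nat_lit 5) (nat_lit 147) (nat_lit 5) (nat_lit 142) (nat_lit 5) (nat_lit 466) (nat_lit 449) (nat_lit 285)) (XT.lf (nat_lit 0) (nat_lit 22044130996) (nat_lit 304) (nat_lit 28141475606) (nat_lit 380) (nat_lit 20806063021) (nat_lit 137) (nat_lit 5) (nat_lit 141) (nat_lit 5) (nat_lit 142) (nat_lit 5) (nat_lit 467) (nat_lit 449) (nat_lit 284))) (XT.nd (nat_lit 78) (nat_lit 304) (nat_lit 0) (XT.lf (nat_lit 0) (nat_lit 61726804851) (nat_lit 380) (nat_lit 8893560447) (nat_lit 76) (nat_lit 2390494680) (nat_lit 137) (nat_lit 5) (nat_lit 142) (nat_lit 5) (nat_lit 138) (nat_lit 5) (nat_lit 468) (nat_lit 449) (nat_lit 283)) (XT.lf (nat_lit 0) (nat_lit 33781835898)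 (nat_lit 304) (nat_lit 41051001221) (nat_lit 380) (nat_lit 248784092) (nat_lit 133) (nat_lit 5) (nat_lit 137) (nat_lit 5) (nat_lit 138) (nat_lit 5) (nat_lit 469) (nat_lit 449) (nat_lit 282)))) (XT.nd (nat_lit 156) (nat_lit 304) (nat_lit 0) (XT.nd (nat_lit 78) (nat_lit 0) (nat_lit 0) (XT.lf (nat_lit 0) (nat_lit 1519325414) (nat_lit 304) (nat_lit 9631859676) (nat_lit 380) (nat_lit 66087092908) (nat_lit 128) (nat_lit 5) (nat_lit 132) (nat_lit 5) (nat_lit 133) (nat_lit 5) (nat_lit 470) (nat_lit 449) (nat_lit 281)) (XT.lf (nat_lit 0) (nat_lit 24187424944) (nat_lit 380) (nat_lit 31936014295) (nat_lit 76) (nat_lit 23325392871) (nat_lit 128) (nat_lit 5) (nat_lit 133) (nat_lit 5) (nat_lit 129) (nat_lit 5) (nat_lit 471) (nat_lit 449) (nat_lit 280))) (XT.nd (nat_lit 78) (nat_lit 0) (nat_lit 0) (XT.lf (nat_lit 0) (nat_lit 14335853028) (nat_lit 304) (nat_lit 23920438773) (nat_lit 380) (nat_lit 43494581429)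 (nat_lit 124) (nat_lit 5) (nat_lit 128) (nat_lit 5) (nat_lit 129) (nat_lit 5) (nat_lit 472) (nat_lit 449) (nat_lit 279)) (XT.lf (nat_lit 0) (nat_lit 53731887534) (nat_lit 380) (nat_lit 20275410056) (nat_lit 76) (nat_lit 10125554589) (nat_lit 124) (nat_lit 5) (nat_lit 129) (nat_lit 5) (nat_lit 125) (nat_lit 5) (nat_lit 473) (nat_lit 449) (nat_lit 278)))))) (XT.nd (nat_lit 624) (nat_lit 1064) (nat_lit 0) (XT.nd (nat_lit 312) (nat_lit 456) (nat_lit 0) (XT.nd (nat_lit 156) (nat_lit 608) (nat_lit 0) (XT.nd (nat_lit 78) (nat_lit 0) (nat_lit 0) (XT.lf (nat_lit 0) (nat_lit 29781102686) (nat_lit 228) (nat_lit 41056421659) (nat_lit 304) (nat_lit 15753592714) (nat_lit 121) (nat_lit 5) (nat_lit 124) (nat_lit 5) (nat_lit 125) (nat_lit 5) (nat_lit 474) (nat_lit 449) (nat_lit 277)) (XT.lf (nat_lit 0) (nat_lit 83043254753) (nat_lit 228) (nat_lit 6097741550) (nat_lit 304) (nat_lit 14171259) (nat_lit 121) (nat_lit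 5) (nat_lit 124) (nat_lit 5) (nat_lit 125) (nat_lit 5) (nat_lit 475) (nat_lit 449) (nat_lit 276))) (XT.nd (nat_lit 78) (nat_lit 228) (nat_lit 0) (XT.lf (nat_lit 0) (nat_lit 17233277889) (nat_lit 380) (nat_lit 43879589440) (nat_lit 76) (nat_lit 30659185660) (nat_lit 116) (nat_lit 5) (nat_lit 121) (nat_lit 5) (nat_lit 117) (nat_lit 5) (nat_lit 476) (nat_lit 449) (nat_lit 275)) (XT.lf (nat_lit 0) (nat_lit 10528639923) (nat_lit 228) (nat_lit 25182755404) (nat_lit 304) (nat_lit 58789937180) (nat_lit 113) (nat_lit 5) (nat_lit 116) (nat_lit 5) (nat_lit 117) (nat_lit 5) (nat_lit 477) (nat_lit 449) (nat_lit 274)))) (XT.nd (nat_lit 156) (nat_lit 228) (nat_lit 0) (XT.nd (nat_lit 78) (nat_lit 228) (nat_lit 0) (XT.lf (nat_lit 0) (nat_lit 56063805614) (nat_lit 304) (nat_lit 28358374765) (nat_lit 76) (nat_lit 12897376309) (nat_lit 113) (nat_lit 5) (nat_lit 117) (nat_lit 5) (nat_lit 114) (nat_lit 5) (nat_lit 478)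 (nat_lit 449) (nat_lit 273)) (XT.lf (nat_lit 0) (nat_lit 30602233558) (nat_lit 228) (nat_lit 47721495567) (nat_lit 304) (nat_lit 21910468355) (nat_lit 110) (nat_lit 5) (nat_lit 113) (nat_lit 5) (nat_lit 114) (nat_lit 5) (nat_lit 479) (nat_lit 449) (nat_lit 272))) (XT.nd (nat_lit 78) (nat_lit 228) (nat_lit 0) (XT.lf (nat_lit 0) (nat_lit 93494372147) (nat_lit 228) (nat_lit 8681831839) (nat_lit 304) (nat_lit 1094388600) (nat_lit 110) (nat_lit 5) (nat_lit 113) (nat_lit 5) (nat_lit 114) (nat_lit 5) (nat_lit 480) (nat_lit 449) (nat_lit 271)) (XT.lf (nat_lit 0) (nat_lit 21471743561) (nat_lit 228) (nat_lit 52432602375) (nat_lit 76) (nat_lit 32469564609) (nat_lit 107) (nat_lit 5) (nat_lit 110) (nat_lit 5) (nat_lit 108) (nat_lit 5) (nat_lit 481) (nat_lit 449) (nat_lit 270))))) (XT.nd (nat_lit 312) (nat_lit 608) (nat_lit 0) (XT.nd (nat_lit 156) (nat_lit 228) (nat_lit 0) (XT.nd (nat_lit 78) (nat_lit 0) (nat_lit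 0) (XT.lf (nat_lit 0) (nat_lit 11772804452) (nat_lit 228) (nat_lit 33850336979) (nat_lit 304) (nat_lit 63983669073) (nat_lit 104) (nat_lit 5) (nat_lit 107) (nat_lit 5) (nat_lit 108) (nat_lit 5) (nat_lit 482) (nat_lit 449) (nat_lit 269)) (XT.lf (nat_lit 0) (nat_lit 72012099860) (nat_lit 304) (nat_lit 32091850040) (nat_lit 76) (nat_lit 8845906058) (nat_lit 104) (nat_lit 5) (nat_lit 108) (nat_lit 5) (nat_lit 105) (nat_lit 5) (nat_lit 483) (nat_lit 449) (nat_lit 268))) (XT.nd (nat_lit 78) (nat_lit 76) (nat_lit 0) (XT.lf (nat_lit 0) (nat_lit 37584441393) (nat_lit 152) (nat_lit 63277156155) (nat_lit 228) (nat_lit 15541401594) (nat_lit 102) (nat_lit 5) (nat_lit 104) (nat_lit 5) (nat_lit 105) (nat_lit 5) (nat_lit 484) (nat_lit 449) (nat_lit 267)) (XT.lf (nat_lit 0) (nat_lit 11320483290) (nat_lit 228) (nat_lit 8326509994) (nat_lit 76) (nat_lit 100345533045) (nat_lit 101) (nat_lit 5) (nat_lit 104) (nat_lit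 5) (nat_lit 102) (nat_lit 5) (nat_lit 485) (nat_lit 449) (nat_lit 266)))) (XT.nd (nat_lit 156) (nat_lit 228) (nat_lit 0) (XT.nd (nat_lit 78) (nat_lit 152) (nat_lit 0) (XT.lf (nat_lit 0) (nat_lit 40487943919) (nat_lit 304) (nat_lit 56528050714) (nat_lit 76) (nat_lit 26658557685) (nat_lit 98) (nat_lit 5) (nat_lit 102) (nat_lit 5) (nat_lit 99) (nat_lit 5) (nat_lit 486) (nat_lit 449) (nat_lit 265)) (XT.lf (nat_lit 0) (nat_lit 19445649299) (nat_lit 152) (nat_lit 52436548786) (nat_lit 228) (nat_lit 55620060519) (nat_lit 96) (nat_lit 5) (nat_lit 98) (nat_lit 5) (nat_lit 99) (nat_lit 5) (nat_lit 487) (nat_lit 449) (nat_lit 264))) (XT.nd (nat_lit 78) (nat_lit 228) (nat_lit 0) (XT.lf (nat_lit 0) (nat_lit 101179624104) (nat_lit 152) (nat_lit 4623296501) (nat_lit 228) (nat_lit 25670591837) (nat_lit 96) (nat_lit 5) (nat_lit 98) (nat_lit 5) (nat_lit 99) (nat_lit 5) (nat_lit 488) (nat_lit 449) (nat_lit 263))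 (XT.nd (nat_lit 78) (nat_lit 0) (nat_lit 0) (XT.lf (nat_lit 0) (nat_lit 7144453365) (nat_lit 228) (nat_lit 83363218756) (nat_lit 76) (nat_lit 45053498501) (nat_lit 93) (nat_lit 5) (nat_lit 96) (nat_lit 5) (nat_lit 94) (nat_lit 5) (nat_lit 489) (nat_lit 449) (nat_lit 262)) (XT.lf (nat_lit 0) (nat_lit 41334245638) (nat_lit 228) (nat_lit 467389085) (nat_lit 76) (nat_lit 98000700788) (nat_lit 93) (nat_lit 5) (nat_lit 96) (nat_lit 5) (nat_lit 94) (nat_lit 5) (nat_lit 490) (nat_lit 449) (nat_lit 261))))))))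
noncomputable def xc381 : XT := (XT.nd (nat_lit 1248) (nat_lit 1292) (nat_lit 0) (XT.nd (nat_lit 624) (nat_lit 760) (nat_lit 0) (XT.nd (nat_lit 312) (nat_lit 304) (nat_lit 0) (XT.nd (nat_lit 156) (nat_lit 228) (nat_lit 0) (XT.nd (nat_lit 78) (nat_lit 152) (nat_lit 0) (XT.lf (nat_lit 0) (nat_lit 78798037241) (nat_lit 228) (nat_lit 54919640898) (nat_lit 76) (nat_lit 10459655034) (nat_lit 91) (nat_lit 5) (nat_lit 94) (nat_lit 5) (nat_lit 92) (nat_lit 5) (nat_lit 491) (nat_lit 449) (nat_lit 260)) (XT.lf (nat_lit 0) (nat_lit 35153416174) (nat_lit 152) (nat_lit 84223246794) (nat_lit 228) (nat_lit 29332335540) (nat_lit 89) (nat_lit 5) (nat_lit 91) (nat_lit 5) (nat_lit 92) (nat_lit 5) (nat_lit 492) (nat_lit 449) (nat_lit 259))) (XT.nd (nat_lit 78) (nat_lit 152) (nat_lit 0) (XT.lf (nat_lit 0) (nat_lit 9189200698) (nat_lit 228) (nat_lit 21933034249) (nat_lit 76) (nat_lit 122291122279) (nat_lit 88) (nat_lit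 5) (nat_lit 91) (nat_lit 5) (nat_lit 89) (nat_lit 5) (nat_lit 493) (nat_lit 449) (nat_lit 258)) (XT.lf (nat_lit 0) (nat_lit 50252700793) (nat_lit 228) (nat_lit 82452660836) (nat_lit 76) (nat_lit 25543447074) (nat_lit 86) (nat_lit 5) (nat_lit 89) (nat_lit 5) (nat_lit 87) (nat_lit 5) (nat_lit 494) (nat_lit 449) (nat_lit 257)))) (XT.nd (nat_lit 156) (nat_lit 152) (nat_lit 0) (XT.nd (nat_lit 78) (nat_lit 0) (nat_lit 0) (XT.lf (nat_lit 0) (nat_lit 15856154754) (nat_lit 152) (nat_lit 78648032066) (nat_lit 228) (nat_lit 68765105402) (nat_lit 84) (nat_lit 5) (nat_lit 86) (nat_lit 5) (nat_lit 87) (nat_lit 5) (nat_lit 495) (nat_lit 449) (nat_lit 256)) (XT.lf (nat_lit 0) (nat_lit 121942149516) (nat_lit 152) (nat_lit 20421998931) (nat_lit 228) (nat_lit 26106856417) (nat_lit 84) (nat_lit 5) (nat_lit 86) (nat_lit 5) (nat_lit 87) (nat_lit 5) (nat_lit 496) (nat_lit 449) (nat_lit 255))) (XT.nd (nat_lit 78) (nat_lit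 0) (nat_lit 0) (XT.lf (nat_lit 0) (nat_lit 19695257763) (nat_lit 152) (nat_lit 113465191752) (nat_lit 76) (nat_lit 40677319557) (nat_lit 82) (nat_lit 5) (nat_lit 84) (nat_lit 5) (nat_lit 83) (nat_lit 5) (nat_lit 497) (nat_lit 449) (nat_lit 254)) (XT.lf (nat_lit 0) (nat_lit 68045354328) (nat_lit 152) (nat_lit 5975511101) (nat_lit 76) (nat_lit 105373845097) (nat_lit 82) (nat_lit 5) (nat_lit 84) (nat_lit 5) (nat_lit 83) (nat_lit 5) (nat_lit 498) (nat_lit 449) (nat_lit 253))))) (XT.nd (nat_lit 312) (nat_lit 304) (nat_lit 0) (XT.nd (nat_lit 156) (nat_lit 228) (nat_lit 0) (XT.nd (nat_lit 78) (nat_lit 76) (nat_lit 0) (XT.lf (nat_lit 0) (nat_lit 110422076788) (nat_lit 152) (nat_lit 10114443533) (nat_lit 228) (nat_lit 64606800514) (nat_lit 80) (nat_lit 5) (nat_lit 82) (nat_lit 5) (nat_lit 83) (nat_lit 5) (nat_lit 499) (nat_lit 449) (nat_lit 252)) (XT.lf (nat_lit 0) (nat_lit 42128920296) (nat_lit 76) (nat_lit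 135173233490) (nat_lit 152) (nat_lit 13794712423) (nat_lit 79) (nat_lit 5) (nat_lit 80) (nat_lit 5) (nat_lit 81) (nat_lit 4) (nat_lit 500) (nat_lit 449) (nat_lit 251))) (XT.nd (nat_lit 78) (nat_lit 152) (nat_lit 0) (XT.lf (nat_lit 0) (nat_lit 39743445245) (nat_lit 152) (nat_lit 30674015550) (nat_lit 76) (nat_lit 126827169141) (nat_lit 78) (nat_lit 5) (nat_lit 80) (nat_lit 5) (nat_lit 79) (nat_lit 5) (nat_lit 501) (nat_lit 449) (nat_lit 250)) (XT.lf (nat_lit 0) (nat_lit 96392902377) (nat_lit 152) (nat_lit 606571051) (nat_lit 228) (nat_lit 106613773517) (nat_lit 76) (nat_lit 5) (nat_lit 78) (nat_lit 5) (nat_lit 79) (nat_lit 5) (nat_lit 502) (nat_lit 449) (nat_lit 249)))) (XT.nd (nat_lit 156) (nat_lit 152) (nat_lit 0) (XT.nd (nat_lit 78) (nat_lit 76) (nat_lit 0) (XT.lf (nat_lit 0) (nat_lit 20102967939) (nat_lit 76) (nat_lit 138991759623) (nat_lit 152) (nat_lit 51106746025) (nat_lit 75) (nat_lit 5)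 (nat_lit 76) (nat_lit 5) (nat_lit 77) (nat_lit 4) (nat_lit 503) (nat_lit 449) (nat_lit 248)) (XT.lf (nat_lit 0) (nat_lit 8801103983) (nat_lit 152) (nat_lit 59665914276) (nat_lit 76) (nat_lit 148553734912) (nat_lit 74) (nat_lit 5) (nat_lit 76) (nat_lit 5) (nat_lit 75) (nat_lit 5) (nat_lit 504) (nat_lit 449) (nat_lit 247))) (XT.nd (nat_lit 78) (nat_lit 0) (nat_lit 0) (XT.lf (nat_lit 0) (nat_lit 71340626218) (nat_lit 228) (nat_lit 145221040704) (nat_lit 76) (nat_lit 7509748966) (nat_lit 72) (nat_lit 5) (nat_lit 75) (nat_lit 5) (nat_lit 73) (nat_lit 4) (nat_lit 505) (nat_lit 449) (nat_lit 246)) (XT.lf (nat_lit 0) (nat_lit 139156188864) (nat_lit 228) (nat_lit 6199830654) (nat_lit 76) (nat_lit 86011139016) (nat_lit 72) (nat_lit 5) (nat_lit 75) (nat_lit 5) (nat_lit 73) (nat_lit 4) (nat_lit 506) (nat_lit 449) (nat_lit 245)))))) (XT.nd (nat_lit 624) (nat_lit 684) (nat_lit 0) (XT.nd (nat_lit 312) (nat_lit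 228) (nat_lit 0) (XT.nd (nat_lit 156) (nat_lit 76) (nat_lit 0) (XT.nd (nat_lit 78) (nat_lit 228) (nat_lit 0) (XT.lf (nat_lit 0) (nat_lit 144393247314) (nat_lit 76) (nat_lit 68223301708) (nat_lit 152) (nat_lit 26298438328) (nat_lit 71) (nat_lit 5) (nat_lit 72) (nat_lit 5) (nat_lit 73) (nat_lit 4) (nat_lit 507) (nat_lit 449) (nat_lit 244)) (XT.lf (nat_lit 0) (nat_lit 42760047410) (nat_lit 228) (nat_lit 189933623849) (nat_lit 76) (nat_lit 14051853963) (nat_lit 68) (nat_lit 5) (nat_lit 71) (nat_lit 5) (nat_lit 69) (nat_lit 4) (nat_lit 508) (nat_lit 449) (nat_lit 243))) (XT.nd (nat_lit 78) (nat_lit 76) (nat_lit 0) (XT.lf (nat_lit 0) (nat_lit 117132724944) (nat_lit 228) (nat_lit 37470205346) (nat_lit 76) (nat_lit 100205850233) (nat_lit 68) (nat_lit 5) (nat_lit 71) (nat_lit 5) (nat_lit 69) (nat_lit 4) (nat_lit 509) (nat_lit 449) (nat_lit 242)) (XT.lf (nat_lit 0) (nat_lit 126669965194) (nat_lit 76) (nat_lit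 70531400636) (nat_lit 152) (nat_lit 65974966289) (nat_lit 67) (nat_lit 5) (nat_lit 68) (nat_lit 5) (nat_lit 69) (nat_lit 4) (nat_lit 510) (nat_lit 449) (nat_lit 241)))) (XT.nd (nat_lit 156) (nat_lit 76) (nat_lit 0) (XT.nd (nat_lit 78) (nat_lit 0) (nat_lit 0) (XT.lf (nat_lit 0) (nat_lit 10410582918) (nat_lit 152) (nat_lit 243032926126) (nat_lit 76) (nat_lit 18441612513) (nat_lit 65) (nat_lit 5) (nat_lit 67) (nat_lit 5) (nat_lit 66) (nat_lit 4) (nat_lit 511) (nat_lit 449) (nat_lit 240)) (XT.lf (nat_lit 0) (nat_lit 91903829133) (nat_lit 152) (nat_lit 75972240688) (nat_lit 76) (nat_lit 112923922258) (nat_lit 65) (nat_lit 5) (nat_lit 67) (nat_lit 5) (nat_lit 66) (nat_lit 4) (nat_lit 512) (nat_lit 449) (nat_lit 239))) (XT.nd (nat_lit 78) (nat_lit 0) (nat_lit 0) (XT.lf (nat_lit 0) (nat_lit 102728822575) (nat_lit 76) (nat_lit 76346474957) (nat_lit 152) (nat_lit 111005130606) (nat_lit 64) (nat_lit 5) (nat_lit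 65) (nat_lit 5) (nat_lit 66) (nat_lit 4) (nat_lit 513) (nat_lit 449) (nat_lit 238)) (XT.lf (nat_lit 0) (nat_lit 272221237428) (nat_lit 152) (nat_lit 7088247709) (nat_lit 0) (nat_lit 20434605963) (nat_lit 64) (nat_lit 5) (nat_lit 66) (nat_lit 4) (nat_lit 64) (nat_lit 4) (nat_lit 514) (nat_lit 449) (nat_lit 237))))) (XT.nd (nat_lit 312) (nat_lit 304) (nat_lit 0) (XT.nd (nat_lit 156) (nat_lit 152) (nat_lit 0) (XT.nd (nat_lit 78) (nat_lit 76) (nat_lit 0) (XT.lf (nat_lit 0) (nat_lit 62446840115) (nat_lit 152) (nat_lit 123770995325) (nat_lit 76) (nat_lit 123414261535) (nat_lit 62) (nat_lit 5) (nat_lit 64) (nat_lit 5) (nat_lit 63) (nat_lit 4) (nat_lit 515) (nat_lit 449) (nat_lit 236)) (XT.lf (nat_lit 0) (nat_lit 70498130915) (nat_lit 76) (nat_lit 86714316006) (nat_lit 152) (nat_lit 162718377677) (nat_lit 61) (nat_lit 5) (nat_lit 62) (nat_lit 5) (nat_lit 63) (nat_lit 4) (nat_lit 516) (nat_lit 449) (nat_lit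 235))) (XT.nd (nat_lit 78) (nat_lit 152) (nat_lit 0) (XT.lf (nat_lit 0) (nat_lit 259123863782) (nat_lit 152) (nat_lit 52174227863) (nat_lit 0) (nat_lit 19326020473) (nat_lit 61) (nat_lit 5) (nat_lit 63) (nat_lit 4) (nat_lit 61) (nat_lit 4) (nat_lit 517) (nat_lit 449) (nat_lit 234)) (XT.lf (nat_lit 0) (nat_lit 27463072362) (nat_lit 152) (nat_lit 183498862608) (nat_lit 76) (nat_lit 130673108166) (nat_lit 59) (nat_lit 5) (nat_lit 61) (nat_lit 5) (nat_lit 60) (nat_lit 4) (nat_lit 518) (nat_lit 449) (nat_lit 233)))) (XT.nd (nat_lit 156) (nat_lit 228) (nat_lit 0) (XT.nd (nat_lit 78) (nat_lit 0) (nat_lit 0) (XT.lf (nat_lit 0) (nat_lit 27307979159) (nat_lit 76) (nat_lit 102987846512) (nat_lit 152) (nat_lit 222775881087) (nat_lit 58) (nat_lit 5) (nat_lit 59) (nat_lit 5) (nat_lit 60) (nat_lit 4) (nat_lit 519) (nat_lit 449) (nat_lit 232)) (XT.lf (nat_lit 0) (nat_lit 241590651405) (nat_lit 152) (nat_lit 110112642427)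 (nat_lit 0) (nat_lit 13210887996) (nat_lit 58) (nat_lit 5) (nat_lit 60) (nat_lit 4) (nat_lit 58) (nat_lit 4) (nat_lit 520) (nat_lit 449) (nat_lit 231))) (XT.nd (nat_lit 78) (nat_lit 152) (nat_lit 0) (XT.lf (nat_lit 0) (nat_lit 118422387549) (nat_lit 76) (nat_lit 243564785064) (nat_lit 76) (nat_lit 15184760330) (nat_lit 57) (nat_lit 4) (nat_lit 58) (nat_lit 5) (nat_lit 58) (nat_lit 4) (nat_lit 521) (nat_lit 449) (nat_lit 230)) (XT.nd (nat_lit 78) (nat_lit 76) (nat_lit 0) (XT.lf (nat_lit 0) (nat_lit 97107889100) (nat_lit 152) (nat_lit 29309100959) (nat_lit 76) (nat_lit 263454041782) (nat_lit 56) (nat_lit 5) (nat_lit 58) (nat_lit 5) (nat_lit 57) (nat_lit 4) (nat_lit 522) (nat_lit 449) (nat_lit 229)) (XT.lf (nat_lit 0) (nat_lit 217920227957) (nat_lit 152) (nat_lit 184686663258) (nat_lit 0) (nat_lit 414979723) (nat_lit 55) (nat_lit 5) (nat_lit 57) (nat_lit 4) (nat_lit 55) (nat_lit 4) (nat_lit 523) (nat_lit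 449) (nat_lit 228))))))))
noncomputable def xc382 : XT := (XT.nd (nat_lit 1248) (nat_lit 684) (nat_lit 0) (XT.nd (nat_lit 624) (nat_lit 608) (nat_lit 0) (XT.nd (nat_lit 312) (nat_lit 304) (nat_lit 0) (XT.nd (nat_lit 156) (nat_lit 76) (nat_lit 0) (XT.nd (nat_lit 78) (nat_lit 76) (nat_lit 0) (XT.lf (nat_lit 0) (nat_lit 62492946027) (nat_lit 76) (nat_lit 285832576135) (nat_lit 76) (nat_lit 68327112908) (nat_lit 54) (nat_lit 4) (nat_lit 55) (nat_lit 5) (nat_lit 55) (nat_lit 4) (nat_lit 524) (nat_lit 449) (nat_lit 227)) (XT.lf (nat_lit 0) (nat_lit 55727418908) (nat_lit 152) (nat_lit 103264459220) (nat_lit 76) (nat_lit 271771742800) (nat_lit 53) (nat_lit 5) (nat_lit 55) (nat_lit 5) (nat_lit 54) (nat_lit 4) (nat_lit 525) (nat_lit 449) (nat_lit 226))) (XT.nd (nat_lit 78) (nat_lit 0) (nat_lit 0) (XT.lf (nat_lit 0) (nat_lit 164313998321) (nat_lit 76) (nat_lit 21939592560) (nat_lit 152) (nat_lit 259142301737)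 (nat_lit 52) (nat_lit 5) (nat_lit 53) (nat_lit 5) (nat_lit 54) (nat_lit 4) (nat_lit 526) (nat_lit 449) (nat_lit 225)) (XT.lf (nat_lit 0) (nat_lit 326987545909) (nat_lit 152) (nat_lit 13749230172) (nat_lit 0) (nat_lit 119838928093) (nat_lit 52) (nat_lit 5) (nat_lit 54) (nat_lit 4) (nat_lit 52) (nat_lit 4) (nat_lit 527) (nat_lit 449) (nat_lit 224)))) (XT.nd (nat_lit 156) (nat_lit 76) (nat_lit 0) (XT.nd (nat_lit 78) (nat_lit 76) (nat_lit 0) (XT.lf (nat_lit 0) (nat_lit 3035552746) (nat_lit 152) (nat_lit 200925903137) (nat_lit 76) (nat_lit 272317639091) (nat_lit 50) (nat_lit 5) (nat_lit 52) (nat_lit 5) (nat_lit 51) (nat_lit 4) (nat_lit 528) (nat_lit 449) (nat_lit 223)) (XT.lf (nat_lit 0) (nat_lit 87229703883) (nat_lit 76) (nat_lit 56369637864) (nat_lit 152) (nat_lit 348978898552) (nat_lit 49) (nat_lit 5) (nat_lit 50) (nat_lit 5) (nat_lit 51) (nat_lit 4) (nat_lit 529) (nat_lit 449) (nat_lit 222))) (XT.nd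 (nat_lit 78) (nat_lit 76) (nat_lit 0) (XT.lf (nat_lit 0) (nat_lit 296189094632) (nat_lit 152) (nat_lit 114349121563) (nat_lit 0) (nat_lit 98904237974) (nat_lit 49) (nat_lit 5) (nat_lit 51) (nat_lit 4) (nat_lit 49) (nat_lit 4) (nat_lit 530) (nat_lit 449) (nat_lit 221)) (XT.lf (nat_lit 0) (nat_lit 196567099484) (nat_lit 76) (nat_lit 263834066478) (nat_lit 76) (nat_lit 66549071234) (nat_lit 48) (nat_lit 4) (nat_lit 49) (nat_lit 5) (nat_lit 49) (nat_lit 4) (nat_lit 531) (nat_lit 449) (nat_lit 220))))) (XT.nd (nat_lit 312) (nat_lit 304) (nat_lit 0) (XT.nd (nat_lit 156) (nat_lit 152) (nat_lit 0) (XT.nd (nat_lit 78) (nat_lit 76) (nat_lit 0) (XT.lf (nat_lit 0) (nat_lit 86658271136) (nat_lit 152) (nat_lit 19635671400) (nat_lit 76) (nat_lit 438872764303) (nat_lit 47) (nat_lit 5) (nat_lit 49) (nat_lit 5) (nat_lit 48) (nat_lit 4) (nat_lit 532) (nat_lit 449) (nat_lit 219)) (XT.lf (nat_lit 0) (nat_lit 251239385349)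 (nat_lit 152) (nat_lit 249353903435) (nat_lit 0) (nat_lit 63348668269) (nat_lit 46) (nat_lit 5) (nat_lit 48) (nat_lit 4) (nat_lit 46) (nat_lit 4) (nat_lit 533) (nat_lit 449) (nat_lit 218))) (XT.nd (nat_lit 78) (nat_lit 76) (nat_lit 0) (XT.lf (nat_lit 0) (nat_lit 83489099512) (nat_lit 76) (nat_lit 343944255683) (nat_lit 76) (nat_lit 156053424588) (nat_lit 45) (nat_lit 4) (nat_lit 46) (nat_lit 5) (nat_lit 46) (nat_lit 4) (nat_lit 534) (nat_lit 449) (nat_lit 217)) (XT.lf (nat_lit 0) (nat_lit 12450369416) (nat_lit 152) (nat_lit 162367682376) (nat_lit 76) (nat_lit 428969615286) (nat_lit 44) (nat_lit 5) (nat_lit 46) (nat_lit 5) (nat_lit 45) (nat_lit 4) (nat_lit 535) (nat_lit 449) (nat_lit 216)))) (XT.nd (nat_lit 156) (nat_lit 228) (nat_lit 0) (XT.nd (nat_lit 78) (nat_lit 0) (nat_lit 0) (XT.lf (nat_lit 0) (nat_lit 187327781281) (nat_lit 152) (nat_lit 429104331776) (nat_lit 0) (nat_lit 8383930713) (nat_lit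 43) (nat_lit 5) (nat_lit 45) (nat_lit 4) (nat_lit 43) (nat_lit 4) (nat_lit 536) (nat_lit 449) (nat_lit 215)) (XT.lf (nat_lit 0) (nat_lit 376609584046) (nat_lit 152) (nat_lit 72337589558) (nat_lit 0) (nat_lit 197665639677) (nat_lit 43) (nat_lit 5) (nat_lit 45) (nat_lit 4) (nat_lit 43) (nat_lit 4) (nat_lit 537) (nat_lit 449) (nat_lit 214))) (XT.nd (nat_lit 78) (nat_lit 152) (nat_lit 0) (XT.lf (nat_lit 0) (nat_lit 312261418194) (nat_lit 76) (nat_lit 267969141325) (nat_lit 76) (nat_lit 89025107623) (nat_lit 42) (nat_lit 4) (nat_lit 43) (nat_lit 5) (nat_lit 43) (nat_lit 4) (nat_lit 538) (nat_lit 449) (nat_lit 213)) (XT.lf (nat_lit 0) (nat_lit 24829675293) (nat_lit 76) (nat_lit 74572175475) (nat_lit 152) (nat_lit 593468335631) (nat_lit 40) (nat_lit 5) (nat_lit 41) (nat_lit 5) (nat_lit 42) (nat_lit 4) (nat_lit 539) (nat_lit 449) (nat_lit 212)))))) (XT.nd (nat_lit 624) (nat_lit 228) (nat_lit 0) (XT.nd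 (nat_lit 312) (nat_lit 228) (nat_lit 0) (XT.nd (nat_lit 156) (nat_lit 152) (nat_lit 0) (XT.nd (nat_lit 78) (nat_lit 76) (nat_lit 0) (XT.lf (nat_lit 0) (nat_lit 302409281210) (nat_lit 152) (nat_lit 282789397663) (nat_lit 0) (nat_lit 131986233771) (nat_lit 40) (nat_lit 5) (nat_lit 42) (nat_lit 4) (nat_lit 40) (nat_lit 4) (nat_lit 540) (nat_lit 449) (nat_lit 211)) (XT.lf (nat_lit 0) (nat_lit 124485728485) (nat_lit 76) (nat_lit 394247236773) (nat_lit 76) (nat_lit 223824115839) (nat_lit 39) (nat_lit 4) (nat_lit 40) (nat_lit 5) (nat_lit 40) (nat_lit 4) (nat_lit 541) (nat_lit 449) (nat_lit 210))) (XT.nd (nat_lit 78) (nat_lit 152) (nat_lit 0) (XT.lf (nat_lit 0) (nat_lit 561942057197) (nat_lit 76) (nat_lit 188719770987) (nat_lit 76) (nat_lit 18296580056) (nat_lit 39) (nat_lit 4) (nat_lit 40) (nat_lit 5) (nat_lit 40) (nat_lit 4) (nat_lit 542) (nat_lit 449) (nat_lit 209)) (XT.lf (nat_lit 0) (nat_lit 195290365510)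 (nat_lit 152) (nat_lit 568047527892) (nat_lit 0) (nat_lit 32982501136) (nat_lit 37) (nat_lit 5) (nat_lit 39) (nat_lit 4) (nat_lit 37) (nat_lit 4) (nat_lit 543) (nat_lit 449) (nat_lit 208)))) (XT.nd (nat_lit 156) (nat_lit 152) (nat_lit 0) (XT.nd (nat_lit 78) (nat_lit 76) (nat_lit 0) (XT.lf (nat_lit 0) (nat_lit 425598761611) (nat_lit 152) (nat_lit 135813035154) (nat_lit 0) (nat_lit 263290836772) (nat_lit 37) (nat_lit 5) (nat_lit 39) (nat_lit 4) (nat_lit 37) (nat_lit 4) (nat_lit 544) (nat_lit 449) (nat_lit 207)) (XT.lf (nat_lit 0) (nat_lit 328548449400) (nat_lit 76) (nat_lit 344003523863) (nat_lit 76) (nat_lit 181695541439) (nat_lit 36) (nat_lit 4) (nat_lit 37) (nat_lit 5) (nat_lit 37) (nat_lit 4) (nat_lit 545) (nat_lit 449) (nat_lit 206))) (XT.nd (nat_lit 78) (nat_lit 76) (nat_lit 0) (XT.lf (nat_lit 0) (nat_lit 47429851223) (nat_lit 152) (nat_lit 65076842259) (nat_lit 76) (nat_lit 772609701765) (nat_lit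 35) (nat_lit 5) (nat_lit 37) (nat_lit 5) (nat_lit 36) (nat_lit 4) (nat_lit 546) (nat_lit 449) (nat_lit 205)) (XT.lf (nat_lit 0) (nat_lit 290805580763) (nat_lit 152) (nat_lit 489902748936) (nat_lit 0) (nat_lit 136226447906) (nat_lit 34) (nat_lit 5) (nat_lit 36) (nat_lit 4) (nat_lit 34) (nat_lit 4) (nat_lit 547) (nat_lit 449) (nat_lit 204))))) (XT.nd (nat_lit 54912) (nat_lit 0) (nat_lit 10032) (XT.nd (nat_lit 156) (nat_lit 152) (nat_lit 0) (XT.nd (nat_lit 78) (nat_lit 76) (nat_lit 0) (XT.lf (nat_lit 0) (nat_lit 549314485822) (nat_lit 152) (nat_lit 6146068218) (nat_lit 0) (nat_lit 394735305589) (nat_lit 34) (nat_lit 5) (nat_lit 36) (nat_lit 4) (nat_lit 34) (nat_lit 4) (nat_lit 548) (nat_lit 449) (nat_lit 203)) (XT.lf (nat_lit 0) (nat_lit 518389855192) (nat_lit 76) (nat_lit 310452348761) (nat_lit 76) (nat_lit 155873123409) (nat_lit 33) (nat_lit 4) (nat_lit 34) (nat_lit 5) (nat_lit 34) (nat_lit 4) (nat_lit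 549) (nat_lit 449) (nat_lit 202))) (XT.nd (nat_lit 54678) (nat_lit 0) (nat_lit 10032) (XT.lf (nat_lit 0) (nat_lit 48373726650) (nat_lit 76) (nat_lit 50627734312) (nat_lit 152) (nat_lit 921837117308) (nat_lit 31) (nat_lit 5) (nat_lit 32) (nat_lit 5) (nat_lit 33) (nat_lit 4) (nat_lit 550) (nat_lit 449) (nat_lit 201)) (XT.lf (nat_lit 0) (nat_lit 10106618446) (nat_lit 836) (nat_lit 6587757835) (nat_lit 836) (nat_lit 6587757835) (nat_lit 163) (nat_lit 3) (nat_lit 174) (nat_lit 3) (nat_lit 174) (nat_lit 5) (nat_lit 450) (nat_lit 450) (nat_lit 300)))) (XT.nd (nat_lit 156) (nat_lit 0) (nat_lit 76) (XT.nd (nat_lit 78) (nat_lit 0) (nat_lit 76) (XT.lf (nat_lit 76) (nat_lit 10343366394) (nat_lit 0) (nat_lit 10566404524) (nat_lit 836) (nat_lit 26809041572) (nat_lit 164) (nat_lit 5) (nat_lit 163) (nat_lit 3) (nat_lit 174) (nat_lit 5) (nat_lit 451) (nat_lit 450) (nat_lit 299)) (XT.lf (nat_lit 0) (nat_lit 22075184630)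 (nat_lit 760) (nat_lit 13638275737) (nat_lit 836) (nat_lit 13195921091) (nat_lit 164) (nat_lit 5) (nat_lit 174) (nat_lit 5) (nat_lit 175) (nat_lit 5) (nat_lit 452) (nat_lit 450) (nat_lit 298))) (XT.nd (nat_lit 78) (nat_lit 0) (nat_lit 76) (XT.lf (nat_lit 76) (nat_lit 11478840764) (nat_lit 0) (nat_lit 12170651221) (nat_lit 836) (nat_lit 26492455880) (nat_lit 165) (nat_lit 5) (nat_lit 164) (nat_lit 5) (nat_lit 175) (nat_lit 5) (nat_lit 453) (nat_lit 450) (nat_lit 297)) (XT.nd (nat_lit 78) (nat_lit 0) (nat_lit 0) (XT.lf (nat_lit 0) (nat_lit 25731468163) (nat_lit 760) (nat_lit 13300174495) (nat_lit 836) (nat_lit 12383052397) (nat_lit 165) (nat_lit 5) (nat_lit 175) (nat_lit 5) (nat_lit 176) (nat_lit 5) (nat_lit 454) (nat_lit 450) (nat_lit 296)) (XT.lf (nat_lit 76) (nat_lit 13564420075) (nat_lit 0) (nat_lit 14762769634) (nat_lit 836) (nat_lit 24403407694) (nat_lit 166) (nat_lit 5) (nat_lit 165) (nat_lit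 5) (nat_lit 176) (nat_lit 5) (nat_lit 455) (nat_lit 450) (nat_lit 295))))))))
noncomputable def xc383 : XT := (XT.nd (nat_lit 1248) (nat_lit 2432) (nat_lit 0) (XT.nd (nat_lit 624) (nat_lit 1748) (nat_lit 0) (XT.nd (nat_lit 312) (nat_lit 1140) (nat_lit 0) (XT.nd (nat_lit 156) (nat_lit 0) (nat_lit 76) (XT.nd (nat_lit 78) (nat_lit 0) (nat_lit 0) (XT.lf (nat_lit 0) (nat_lit 31447415279) (nat_lit 760) (nat_lit 12039272270) (nat_lit 836) (nat_lit 10605871541) (nat_lit 166) (nat_lit 5) (nat_lit 176) (nat_lit 5) (nat_lit 177) (nat_lit 5) (nat_lit 456) (nat_lit 450) (nat_lit 294)) (XT.lf (nat_lit 76) (nat_lit 16736513285) (nat_lit 0) (nat_lit 18488948998) (nat_lit 836) (nat_lit 20272066187) (nat_lit 167) (nat_lit 5) (nat_lit 166) (nat_lit 5) (nat_lit 177) (nat_lit 5) (nat_lit 457) (nat_lit 450) (nat_lit 293))) (XT.nd (nat_lit 78) (nat_lit 0) (nat_lit 0) (XT.lf (nat_lit 0) (nat_lit 39519333193) (nat_lit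 760) (nat_lit 9719149491) (nat_lit 836) (nat_lit 7717917666) (nat_lit 167) (nat_lit 5) (nat_lit 177) (nat_lit 5) (nat_lit 178) (nat_lit 5) (nat_lit 458) (nat_lit 450) (nat_lit 292)) (XT.lf (nat_lit 76) (nat_lit 21147433299) (nat_lit 0) (nat_lit 23512354950) (nat_lit 836) (nat_lit 13796833150) (nat_lit 168) (nat_lit 5) (nat_lit 167) (nat_lit 5) (nat_lit 178) (nat_lit 5) (nat_lit 459) (nat_lit 450) (nat_lit 291)))) (XT.nd (nat_lit 156) (nat_lit 532) (nat_lit 0) (XT.nd (nat_lit 78) (nat_lit 760) (nat_lit 0) (XT.lf (nat_lit 0) (nat_lit 50277883000) (nat_lit 760) (nat_lit 6187376183) (nat_lit 76) (nat_lit 3555563570) (nat_lit 168) (nat_lit 5) (nat_lit 178) (nat_lit 5) (nat_lit 169) (nat_lit 5) (nat_lit 460) (nat_lit 450) (nat_lit 290)) (XT.lf (nat_lit 0) (nat_lit 26967068316) (nat_lit 760) (nat_lit 30015031325) (nat_lit 836) (nat_lit 4640873770) (nat_lit 158) (nat_lit 5) (nat_lit 168) (nat_lit 5) (nat_lit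 169) (nat_lit 5) (nat_lit 461) (nat_lit 450) (nat_lit 289))) (XT.nd (nat_lit 78) (nat_lit 456) (nat_lit 0) (XT.lf (nat_lit 0) (nat_lit 798633578) (nat_lit 836) (nat_lit 1319993835) (nat_lit 76) (nat_lit 61180781906) (nat_lit 157) (nat_lit 5) (nat_lit 168) (nat_lit 5) (nat_lit 158) (nat_lit 5) (nat_lit 462) (nat_lit 450) (nat_lit 288)) (XT.lf (nat_lit 0) (nat_lit 7329371011) (nat_lit 532) (nat_lit 30746504019) (nat_lit 76) (nat_lit 26931227153) (nat_lit 151) (nat_lit 5) (nat_lit 158) (nat_lit 5) (nat_lit 152) (nat_lit 5) (nat_lit 463) (nat_lit 450) (nat_lit 287))))) (XT.nd (nat_lit 312) (nat_lit 988) (nat_lit 0) (XT.nd (nat_lit 156) (nat_lit 380) (nat_lit 0) (XT.nd (nat_lit 78) (nat_lit 0) (nat_lit 0) (XT.lf (nat_lit 0) (nat_lit 4990480412) (nat_lit 380) (nat_lit 9330392614) (nat_lit 456) (nat_lit 52472595358) (nat_lit 146) (nat_lit 5) (nat_lit 151) (nat_lit 5) (nat_lit 152) (nat_lit 5) (nat_lit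 464) (nat_lit 450) (nat_lit 286)) (XT.lf (nat_lit 0) (nat_lit 22515653335) (nat_lit 456) (nat_lit 25396624186) (nat_lit 76) (nat_lit 20714190287) (nat_lit 146) (nat_lit 5) (nat_lit 152) (nat_lit 5) (nat_lit 147) (nat_lit 5) (nat_lit 465) (nat_lit 450) (nat_lit 285))) (XT.nd (nat_lit 78) (nat_lit 0) (nat_lit 0) (XT.lf (nat_lit 0) (nat_lit 13095111720) (nat_lit 380) (nat_lit 18381418399) (nat_lit 456) (nat_lit 39056769284) (nat_lit 141) (nat_lit 5) (nat_lit 146) (nat_lit 5) (nat_lit 147) (nat_lit 5) (nat_lit 466) (nat_lit 450) (nat_lit 284)) (XT.lf (nat_lit 0) (nat_lit 41518713275) (nat_lit 456) (nat_lit 18326143339) (nat_lit 76) (nat_lit 12658952903) (nat_lit 141) (nat_lit 5) (nat_lit 147) (nat_lit 5) (nat_lit 142) (nat_lit 5) (nat_lit 467) (nat_lit 450) (nat_lit 283)))) (XT.nd (nat_lit 156) (nat_lit 684) (nat_lit 0) (XT.nd (nat_lit 78) (nat_lit 0) (nat_lit 0) (XT.lf (nat_lit 0) (nat_lit 23181014329)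 (nat_lit 304) (nat_lit 29544275666) (nat_lit 380) (nat_lit 21814440986) (nat_lit 137) (nat_lit 5) (nat_lit 141) (nat_lit 5) (nat_lit 142) (nat_lit 5) (nat_lit 468) (nat_lit 450) (nat_lit 282)) (XT.lf (nat_lit 0) (nat_lit 64842163940) (nat_lit 380) (nat_lit 9303826868) (nat_lit 76) (nat_lit 2513959351) (nat_lit 137) (nat_lit 5) (nat_lit 142) (nat_lit 5) (nat_lit 138) (nat_lit 5) (nat_lit 469) (nat_lit 450) (nat_lit 281))) (XT.nd (nat_lit 78) (nat_lit 380) (nat_lit 0) (XT.lf (nat_lit 0) (nat_lit 35504784268) (nat_lit 304) (nat_lit 43097860299) (nat_lit 380) (nat_lit 231647638) (nat_lit 133) (nat_lit 5) (nat_lit 137) (nat_lit 5) (nat_lit 138) (nat_lit 5) (nat_lit 470) (nat_lit 450) (nat_lit 280)) (XT.lf (nat_lit 0) (nat_lit 1629535199) (nat_lit 304) (nat_lit 10107009548) (nat_lit 380) (nat_lit 69362255511) (nat_lit 128) (nat_lit 5) (nat_lit 132) (nat_lit 5) (nat_lit 133) (nat_lit 5) (nat_lit 471)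 (nat_lit 450) (nat_lit 279)))))) (XT.nd (nat_lit 624) (nat_lit 1292) (nat_lit 0) (XT.nd (nat_lit 312) (nat_lit 608) (nat_lit 0) (XT.nd (nat_lit 156) (nat_lit 228) (nat_lit 0) (XT.nd (nat_lit 78) (nat_lit 304) (nat_lit 0) (XT.lf (nat_lit 0) (nat_lit 25423368569) (nat_lit 380) (nat_lit 33498972572) (nat_lit 76) (nat_lit 24497602412) (nat_lit 128) (nat_lit 5) (nat_lit 133) (nat_lit 5) (nat_lit 129) (nat_lit 5) (nat_lit 472) (nat_lit 450) (nat_lit 278)) (XT.lf (nat_lit 0) (nat_lit 15085942272) (nat_lit 304) (nat_lit 25108990999) (nat_lit 380) (nat_lit 45642190807) (nat_lit 124) (nat_lit 5) (nat_lit 128) (nat_lit 5) (nat_lit 129) (nat_lit 5) (nat_lit 473) (nat_lit 450) (nat_lit 277))) (XT.nd (nat_lit 78) (nat_lit 228) (nat_lit 0) (XT.lf (nat_lit 0) (nat_lit 56443190009) (nat_lit 380) (nat_lit 21256349336) (nat_lit 76) (nat_lit 10638718637) (nat_lit 124) (nat_lit 5) (nat_lit 129) (nat_lit 5) (nat_lit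 125) (nat_lit 5) (nat_lit 474) (nat_lit 450) (nat_lit 276)) (XT.lf (nat_lit 0) (nat_lit 31302459506) (nat_lit 228) (nat_lit 43100976898) (nat_lit 304) (nat_lit 16516033382) (nat_lit 121) (nat_lit 5) (nat_lit 124) (nat_lit 5) (nat_lit 125) (nat_lit 5) (nat_lit 475) (nat_lit 450) (nat_lit 275)))) (XT.nd (nat_lit 156) (nat_lit 228) (nat_lit 0) (XT.nd (nat_lit 78) (nat_lit 304) (nat_lit 0) (XT.lf (nat_lit 0) (nat_lit 8864198) (nat_lit 304) (nat_lit 6385742077) (nat_lit 76) (nat_lit 87217166684) (nat_lit 120) (nat_lit 5) (nat_lit 124) (nat_lit 5) (nat_lit 121) (nat_lit 5) (nat_lit 476) (nat_lit 450) (nat_lit 274)) (XT.lf (nat_lit 0) (nat_lit 18117716817) (nat_lit 380) (nat_lit 46041540963) (nat_lit 76) (nat_lit 32200257955) (nat_lit 116) (nat_lit 5) (nat_lit 121) (nat_lit 5) (nat_lit 117) (nat_lit 5) (nat_lit 477) (nat_lit 450) (nat_lit 273))) (XT.nd (nat_lit 78) (nat_lit 0) (nat_lit 0) (XT.lf (nat_lit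 0) (nat_lit 11086583288) (nat_lit 228) (nat_lit 26432564293) (nat_lit 304) (nat_lit 61706141329) (nat_lit 113) (nat_lit 5) (nat_lit 116) (nat_lit 5) (nat_lit 117) (nat_lit 5) (nat_lit 478) (nat_lit 450) (nat_lit 272)) (XT.lf (nat_lit 0) (nat_lit 58888260789) (nat_lit 304) (nat_lit 29745364036) (nat_lit 76) (nat_lit 13550845409) (nat_lit 113) (nat_lit 5) (nat_lit 117) (nat_lit 5) (nat_lit 114) (nat_lit 5) (nat_lit 479) (nat_lit 450) (nat_lit 271))))) (XT.nd (nat_lit 312) (nat_lit 608) (nat_lit 0) (XT.nd (nat_lit 156) (nat_lit 456) (nat_lit 0) (XT.nd (nat_lit 78) (nat_lit 0) (nat_lit 0) (XT.lf (nat_lit 0) (nat_lit 32162775841) (nat_lit 228) (nat_lit 50097867128) (nat_lit 304) (nat_lit 22984227021) (nat_lit 110) (nat_lit 5) (nat_lit 113) (nat_lit 5) (nat_lit 114) (nat_lit 5) (nat_lit 480) (nat_lit 450) (nat_lit 270)) (XT.lf (nat_lit 0) (nat_lit 98198072283) (nat_lit 228) (nat_lit 9106682271) (nat_lit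 304) (nat_lit 1128379695) (nat_lit 110) (nat_lit 5) (nat_lit 113) (nat_lit 5) (nat_lit 114) (nat_lit 5) (nat_lit 481) (nat_lit 450) (nat_lit 269))) (XT.nd (nat_lit 78) (nat_lit 228) (nat_lit 0) (XT.lf (nat_lit 0) (nat_lit 22565045484) (nat_lit 228) (nat_lit 55024235614) (nat_lit 76) (nat_lit 34102338378) (nat_lit 107) (nat_lit 5) (nat_lit 110) (nat_lit 5) (nat_lit 108) (nat_lit 5) (nat_lit 482) (nat_lit 450) (nat_lit 268)) (XT.lf (nat_lit 0) (nat_lit 12390957735) (nat_lit 228) (nat_lit 35532577498) (nat_lit 304) (nat_lit 67162653142) (nat_lit 104) (nat_lit 5) (nat_lit 107) (nat_lit 5) (nat_lit 108) (nat_lit 5) (nat_lit 483) (nat_lit 450) (nat_lit 267)))) (XT.nd (nat_lit 156) (nat_lit 456) (nat_lit 0) (XT.nd (nat_lit 78) (nat_lit 152) (nat_lit 0) (XT.lf (nat_lit 0) (nat_lit 75631178349) (nat_lit 304) (nat_lit 33667570854) (nat_lit 76) (nat_lit 9297675098) (nat_lit 104) (nat_lit 5) (nat_lit 108)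 (nat_lit 5) (nat_lit 105) (nat_lit 5) (nat_lit 484) (nat_lit 450) (nat_lit 266)) (XT.lf (nat_lit 0) (nat_lit 39492069479) (nat_lit 152) (nat_lit 66430645251) (nat_lit 228) (nat_lit 16299531763) (nat_lit 102) (nat_lit 5) (nat_lit 104) (nat_lit 5) (nat_lit 105) (nat_lit 5) (nat_lit 485) (nat_lit 450) (nat_lit 265))) (XT.nd (nat_lit 78) (nat_lit 380) (nat_lit 0) (XT.lf (nat_lit 0) (nat_lit 11903968137) (nat_lit 228) (nat_lit 8715204143) (nat_lit 76) (nat_lit 105372106658) (nat_lit 101) (nat_lit 5) (nat_lit 104) (nat_lit 5) (nat_lit 102) (nat_lit 5) (nat_lit 486) (nat_lit 450) (nat_lit 264)) (XT.nd (nat_lit 78) (nat_lit 152) (nat_lit 0) (XT.lf (nat_lit 0) (nat_lit 42529552970) (nat_lit 304) (nat_lit 59326572431) (nat_lit 76) (nat_lit 28001293299) (nat_lit 98) (nat_lit 5) (nat_lit 102) (nat_lit 5) (nat_lit 99) (nat_lit 5) (nat_lit 487) (nat_lit 450) (nat_lit 263)) (XT.lf (nat_lit 0) (nat_lit 20445362893)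 (nat_lit 152) (nat_lit 55047765616) (nat_lit 228) (nat_lit 58383401389) (nat_lit 96) (nat_lit 5) (nat_lit 98) (nat_lit 5) (nat_lit 99) (nat_lit 5) (nat_lit 488) (nat_lit 450) (nat_lit 262))))))))
noncomputable def xc384 : XT := (XT.nd (nat_lit 1248) (nat_lit 1292) (nat_lit 0) (XT.nd (nat_lit 624) (nat_lit 684) (nat_lit 0) (XT.nd (nat_lit 312) (nat_lit 532) (nat_lit 0) (XT.nd (nat_lit 156) (nat_lit 152) (nat_lit 0) (XT.nd (nat_lit 78) (nat_lit 228) (nat_lit 0) (XT.lf (nat_lit 0) (nat_lit 106264730194) (nat_lit 152) (nat_lit 4844355984) (nat_lit 228) (nat_lit 26937300328) (nat_lit 96) (nat_lit 5) (nat_lit 98) (nat_lit 5) (nat_lit 99) (nat_lit 5) (nat_lit 489) (nat_lit 450) (nat_lit 261)) (XT.lf (nat_lit 0) (nat_lit 7517754044) (nat_lit 228) (nat_lit 87504510637) (nat_lit 76) (nat_lit 47316160045) (nat_lit 93) (nat_lit 5) (nat_lit 96) (nat_lit 5) (nat_lit 94) (nat_lit 5) (nat_lit 490) (nat_lit 450)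 (nat_lit 260))) (XT.nd (nat_lit 78) (nat_lit 152) (nat_lit 0) (XT.lf (nat_lit 0) (nat_lit 43416270310) (nat_lit 228) (nat_lit 465168961) (nat_lit 76) (nat_lit 102910246892) (nat_lit 93) (nat_lit 5) (nat_lit 96) (nat_lit 5) (nat_lit 94) (nat_lit 5) (nat_lit 491) (nat_lit 450) (nat_lit 259)) (XT.lf (nat_lit 0) (nat_lit 82753074672) (nat_lit 228) (nat_lit 57639856065) (nat_lit 76) (nat_lit 10992511838) (nat_lit 91) (nat_lit 5) (nat_lit 94) (nat_lit 5) (nat_lit 92) (nat_lit 5) (nat_lit 492) (nat_lit 450) (nat_lit 258)))) (XT.nd (nat_lit 156) (nat_lit 304) (nat_lit 0) (XT.nd (nat_lit 78) (nat_lit 76) (nat_lit 0) (XT.lf (nat_lit 0) (nat_lit 36936438266) (nat_lit 152) (nat_lit 88423868483) (nat_lit 228) (nat_lit 30783400697) (nat_lit 89) (nat_lit 5) (nat_lit 91) (nat_lit 5) (nat_lit 92) (nat_lit 5) (nat_lit 493) (nat_lit 450) (nat_lit 257)) (XT.lf (nat_lit 0) (nat_lit 9662997753) (nat_lit 228) (nat_lit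 23005067422) (nat_lit 76) (nat_lit 128415242648) (nat_lit 88) (nat_lit 5) (nat_lit 91) (nat_lit 5) (nat_lit 89) (nat_lit 5) (nat_lit 494) (nat_lit 450) (nat_lit 256))) (XT.nd (nat_lit 78) (nat_lit 152) (nat_lit 0) (XT.lf (nat_lit 0) (nat_lit 52779527381) (nat_lit 228) (nat_lit 86550529474) (nat_lit 76) (nat_lit 26830482313) (nat_lit 86) (nat_lit 5) (nat_lit 89) (nat_lit 5) (nat_lit 87) (nat_lit 5) (nat_lit 495) (nat_lit 450) (nat_lit 255)) (XT.lf (nat_lit 0) (nat_lit 16673327471) (nat_lit 152) (nat_lit 82569964856) (nat_lit 228) (nat_lit 72188769323) (nat_lit 84) (nat_lit 5) (nat_lit 86) (nat_lit 5) (nat_lit 87) (nat_lit 5) (nat_lit 496) (nat_lit 450) (nat_lit 254))))) (XT.nd (nat_lit 312) (nat_lit 380) (nat_lit 0) (XT.nd (nat_lit 156) (nat_lit 152) (nat_lit 0) (XT.nd (nat_lit 78) (nat_lit 152) (nat_lit 0) (XT.lf (nat_lit 0) (nat_lit 128062461734) (nat_lit 152) (nat_lit 21433128579) (nat_lit 228)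 (nat_lit 27398302715) (nat_lit 84) (nat_lit 5) (nat_lit 86) (nat_lit 5) (nat_lit 87) (nat_lit 5) (nat_lit 497) (nat_lit 450) (nat_lit 253)) (XT.lf (nat_lit 0) (nat_lit 20693352719) (nat_lit 152) (nat_lit 119114681478) (nat_lit 76) (nat_lit 42720956401) (nat_lit 82) (nat_lit 5) (nat_lit 84) (nat_lit 5) (nat_lit 83) (nat_lit 5) (nat_lit 498) (nat_lit 450) (nat_lit 252))) (XT.nd (nat_lit 78) (nat_lit 152) (nat_lit 0) (XT.lf (nat_lit 0) (nat_lit 71460319252) (nat_lit 152) (nat_lit 6251648693) (nat_lit 76) (nat_lit 110651842939) (nat_lit 82) (nat_lit 5) (nat_lit 84) (nat_lit 5) (nat_lit 83) (nat_lit 5) (nat_lit 499) (nat_lit 450) (nat_lit 251)) (XT.lf (nat_lit 0) (nat_lit 115965453462) (nat_lit 152) (nat_lit 10610333195) (nat_lit 228) (nat_lit 67824077910) (nat_lit 80) (nat_lit 5) (nat_lit 82) (nat_lit 5) (nat_lit 83) (nat_lit 5) (nat_lit 500) (nat_lit 450) (nat_lit 250)))) (XT.nd (nat_lit 156) (nat_lit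 228) (nat_lit 0) (XT.nd (nat_lit 78) (nat_lit 76) (nat_lit 0) (XT.lf (nat_lit 0) (nat_lit 44257741141) (nat_lit 76) (nat_lit 141921863795) (nat_lit 152) (nat_lit 14471487131) (nat_lit 79) (nat_lit 5) (nat_lit 80) (nat_lit 5) (nat_lit 81) (nat_lit 4) (nat_lit 501) (nat_lit 450) (nat_lit 249)) (XT.lf (nat_lit 0) (nat_lit 41742566158) (nat_lit 152) (nat_lit 32186011635) (nat_lit 76) (nat_lit 133177685954) (nat_lit 78) (nat_lit 5) (nat_lit 80) (nat_lit 5) (nat_lit 79) (nat_lit 5) (nat_lit 502) (nat_lit 450) (nat_lit 248))) (XT.nd (nat_lit 78) (nat_lit 76) (nat_lit 0) (XT.lf (nat_lit 0) (nat_lit 101233902113) (nat_lit 152) (nat_lit 627258059) (nat_lit 228) (nat_lit 111932163225) (nat_lit 76) (nat_lit 5) (nat_lit 78) (nat_lit 5) (nat_lit 79) (nat_lit 5) (nat_lit 503) (nat_lit 450) (nat_lit 247)) (XT.lf (nat_lit 0) (nat_lit 21129554865) (nat_lit 76) (nat_lit 145931542461) (nat_lit 152) (nat_lit 53649868041)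 (nat_lit 75) (nat_lit 5) (nat_lit 76) (nat_lit 5) (nat_lit 77) (nat_lit 4) (nat_lit 504) (nat_lit 450) (nat_lit 246)))))) (XT.nd (nat_lit 624) (nat_lit 532) (nat_lit 0) (XT.nd (nat_lit 312) (nat_lit 456) (nat_lit 0) (XT.nd (nat_lit 156) (nat_lit 76) (nat_lit 0) (XT.nd (nat_lit 78) (nat_lit 152) (nat_lit 0) (XT.lf (nat_lit 0) (nat_lit 9252420439) (nat_lit 152) (nat_lit 62628419785) (nat_lit 76) (nat_lit 155990387332) (nat_lit 74) (nat_lit 5) (nat_lit 76) (nat_lit 5) (nat_lit 75) (nat_lit 5) (nat_lit 505) (nat_lit 450) (nat_lit 245)) (XT.lf (nat_lit 0) (nat_lit 74918848819) (nat_lit 228) (nat_lit 152461232369) (nat_lit 76) (nat_lit 7894345732) (nat_lit 72) (nat_lit 5) (nat_lit 75) (nat_lit 5) (nat_lit 73) (nat_lit 4) (nat_lit 506) (nat_lit 450) (nat_lit 244))) (XT.nd (nat_lit 78) (nat_lit 76) (nat_lit 0) (XT.lf (nat_lit 0) (nat_lit 146124656679) (nat_lit 228) (nat_lit 6489955167) (nat_lit 76) (nat_lit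 90320371508) (nat_lit 72) (nat_lit 5) (nat_lit 75) (nat_lit 5) (nat_lit 73) (nat_lit 4) (nat_lit 507) (nat_lit 450) (nat_lit 243)) (XT.lf (nat_lit 0) (nat_lit 151632456264) (nat_lit 76) (nat_lit 71625376216) (nat_lit 152) (nat_lit 27602381257) (nat_lit 71) (nat_lit 5) (nat_lit 72) (nat_lit 5) (nat_lit 73) (nat_lit 4) (nat_lit 508) (nat_lit 450) (nat_lit 242)))) (XT.nd (nat_lit 156) (nat_lit 228) (nat_lit 0) (XT.nd (nat_lit 78) (nat_lit 0) (nat_lit 0) (XT.lf (nat_lit 0) (nat_lit 44908619809) (nat_lit 228) (nat_lit 199410349164) (nat_lit 76) (nat_lit 14763303846) (nat_lit 68) (nat_lit 5) (nat_lit 71) (nat_lit 5) (nat_lit 69) (nat_lit 4) (nat_lit 509) (nat_lit 450) (nat_lit 241)) (XT.lf (nat_lit 0) (nat_lit 122999427885) (nat_lit 228) (nat_lit 39324710015) (nat_lit 76) (nat_lit 105224578159) (nat_lit 68) (nat_lit 5) (nat_lit 71) (nat_lit 5) (nat_lit 69) (nat_lit 4) (nat_lit 510) (nat_lit 450) (nat_lit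 240))) (XT.nd (nat_lit 78) (nat_lit 152) (nat_lit 0) (XT.lf (nat_lit 0) (nat_lit 133022162510) (nat_lit 76) (nat_lit 74049150883) (nat_lit 152) (nat_lit 69263341220) (nat_lit 67) (nat_lit 5) (nat_lit 68) (nat_lit 5) (nat_lit 69) (nat_lit 4) (nat_lit 511) (nat_lit 450) (nat_lit 239)) (XT.lf (nat_lit 0) (nat_lit 10941106078) (nat_lit 152) (nat_lit 255165493730) (nat_lit 76) (nat_lit 19372277992) (nat_lit 65) (nat_lit 5) (nat_lit 67) (nat_lit 5) (nat_lit 66) (nat_lit 4) (nat_lit 512) (nat_lit 450) (nat_lit 238))))) (XT.nd (nat_lit 312) (nat_lit 304) (nat_lit 0) (XT.nd (nat_lit 156) (nat_lit 152) (nat_lit 0) (XT.nd (nat_lit 78) (nat_lit 76) (nat_lit 0) (XT.lf (nat_lit 0) (nat_lit 96508538698) (nat_lit 152) (nat_lit 79752682530) (nat_lit 76) (nat_lit 118578294422) (nat_lit 65) (nat_lit 5) (nat_lit 67) (nat_lit 5) (nat_lit 66) (nat_lit 4) (nat_lit 513) (nat_lit 450) (nat_lit 237)) (XT.lf (nat_lit 0)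 (nat_lit 107883140829) (nat_lit 76) (nat_lit 80155265557) (nat_lit 152) (nat_lit 116545575838) (nat_lit 64) (nat_lit 5) (nat_lit 65) (nat_lit 5) (nat_lit 66) (nat_lit 4) (nat_lit 514) (nat_lit 450) (nat_lit 236))) (XT.nd (nat_lit 78) (nat_lit 152) (nat_lit 0) (XT.lf (nat_lit 0) (nat_lit 285841325208) (nat_lit 152) (nat_lit 7425316076) (nat_lit 0) (nat_lit 21464202960) (nat_lit 64) (nat_lit 5) (nat_lit 66) (nat_lit 4) (nat_lit 64) (nat_lit 4) (nat_lit 515) (nat_lit 450) (nat_lit 235)) (XT.lf (nat_lit 0) (nat_lit 65578190039) (nat_lit 152) (nat_lit 129942182867) (nat_lit 76) (nat_lit 129592878416) (nat_lit 62) (nat_lit 5) (nat_lit 64) (nat_lit 5) (nat_lit 63) (nat_lit 4) (nat_lit 516) (nat_lit 450) (nat_lit 234)))) (XT.nd (nat_lit 156) (nat_lit 228) (nat_lit 0) (XT.nd (nat_lit 78) (nat_lit 0) (nat_lit 0) (XT.lf (nat_lit 0) (nat_lit 74040119649) (nat_lit 76) (nat_lit 91041795288) (nat_lit 152) (nat_lit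 170845008506) (nat_lit 61) (nat_lit 5) (nat_lit 62) (nat_lit 5) (nat_lit 63) (nat_lit 4) (nat_lit 517) (nat_lit 450) (nat_lit 233)) (XT.lf (nat_lit 0) (nat_lit 272088603891) (nat_lit 152) (nat_lit 54766371658) (nat_lit 0) (nat_lit 20299914733) (nat_lit 61) (nat_lit 5) (nat_lit 63) (nat_lit 4) (nat_lit 61) (nat_lit 4) (nat_lit 518) (nat_lit 450) (nat_lit 232))) (XT.nd (nat_lit 78) (nat_lit 76) (nat_lit 0) (XT.lf (nat_lit 0) (nat_lit 28844758100) (nat_lit 152) (nat_lit 192657223163) (nat_lit 76) (nat_lit 137214387337) (nat_lit 59) (nat_lit 5) (nat_lit 61) (nat_lit 5) (nat_lit 60) (nat_lit 4) (nat_lit 519) (nat_lit 450) (nat_lit 231)) (XT.lf (nat_lit 0) (nat_lit 28689693232) (nat_lit 76) (nat_lit 108129304276) (nat_lit 152) (nat_lit 233905875478) (nat_lit 58) (nat_lit 5) (nat_lit 59) (nat_lit 5) (nat_lit 60) (nat_lit 4) (nat_lit 520) (nat_lit 450) (nat_lit 230)))))))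
noncomputable def xc385 : XT := (XT.nd (nat_lit 1248) (nat_lit 836) (nat_lit 0) (XT.nd (nat_lit 624) (nat_lit 608) (nat_lit 0) (XT.nd (nat_lit 312) (nat_lit 228) (nat_lit 0) (XT.nd (nat_lit 156) (nat_lit 152) (nat_lit 0) (XT.nd (nat_lit 78) (nat_lit 76) (nat_lit 0) (XT.lf (nat_lit 0) (nat_lit 253678283436) (nat_lit 152) (nat_lit 115602455173) (nat_lit 0) (nat_lit 13878747258) (nat_lit 58) (nat_lit 5) (nat_lit 60) (nat_lit 4) (nat_lit 58) (nat_lit 4) (nat_lit 521) (nat_lit 450) (nat_lit 229)) (XT.lf (nat_lit 0) (nat_lit 124359071151) (nat_lit 76) (nat_lit 255735416867) (nat_lit 76) (nat_lit 15935643659) (nat_lit 57) (nat_lit 4) (nat_lit 58) (nat_lit 5) (nat_lit 58) (nat_lit 4) (nat_lit 522) (nat_lit 450) (nat_lit 228))) (XT.nd (nat_lit 78) (nat_lit 76) (nat_lit 0) (XT.lf (nat_lit 0) (nat_lit 101970985732) (nat_lit 152) (nat_lit 30759478199) (nat_lit 76) (nat_lit 276633734325) (nat_lit 56) (nat_lit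 5) (nat_lit 58) (nat_lit 5) (nat_lit 57) (nat_lit 4) (nat_lit 523) (nat_lit 450) (nat_lit 227)) (XT.lf (nat_lit 0) (nat_lit 228823919838) (nat_lit 152) (nat_lit 193905896856) (nat_lit 0) (nat_lit 442763701) (nat_lit 55) (nat_lit 5) (nat_lit 57) (nat_lit 4) (nat_lit 55) (nat_lit 4) (nat_lit 524) (nat_lit 450) (nat_lit 226)))) (XT.nd (nat_lit 156) (nat_lit 76) (nat_lit 0) (XT.nd (nat_lit 78) (nat_lit 76) (nat_lit 0) (XT.lf (nat_lit 0) (nat_lit 65632449351) (nat_lit 76) (nat_lit 300116895609) (nat_lit 76) (nat_lit 71735544467) (nat_lit 54) (nat_lit 4) (nat_lit 55) (nat_lit 5) (nat_lit 55) (nat_lit 4) (nat_lit 525) (nat_lit 450) (nat_lit 225)) (XT.lf (nat_lit 0) (nat_lit 58521095059) (nat_lit 152) (nat_lit 108413291988) (nat_lit 76) (nat_lit 285367049610) (nat_lit 53) (nat_lit 5) (nat_lit 55) (nat_lit 5) (nat_lit 54) (nat_lit 4) (nat_lit 526) (nat_lit 450) (nat_lit 224))) (XT.nd (nat_lit 78) (nat_lit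 0) (nat_lit 0) (XT.lf (nat_lit 0) (nat_lit 172543856330) (nat_lit 76) (nat_lit 23029592482) (nat_lit 152) (nat_lit 272091879465) (nat_lit 52) (nat_lit 5) (nat_lit 53) (nat_lit 5) (nat_lit 54) (nat_lit 4) (nat_lit 527) (nat_lit 450) (nat_lit 223)) (XT.lf (nat_lit 0) (nat_lit 343343863546) (nat_lit 152) (nat_lit 14422969687) (nat_lit 0) (nat_lit 125837309081) (nat_lit 52) (nat_lit 5) (nat_lit 54) (nat_lit 4) (nat_lit 52) (nat_lit 4) (nat_lit 528) (nat_lit 450) (nat_lit 222))))) (XT.nd (nat_lit 312) (nat_lit 304) (nat_lit 0) (XT.nd (nat_lit 156) (nat_lit 76) (nat_lit 0) (XT.nd (nat_lit 78) (nat_lit 76) (nat_lit 0) (XT.lf (nat_lit 0) (nat_lit 3194262877) (nat_lit 152) (nat_lit 210958468357) (nat_lit 76) (nat_lit 285939971818) (nat_lit 50) (nat_lit 5) (nat_lit 52) (nat_lit 5) (nat_lit 51) (nat_lit 4) (nat_lit 529) (nat_lit 450) (nat_lit 221)) (XT.lf (nat_lit 0) (nat_lit 91604697562) (nat_lit 76) (nat_lit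 59181424551) (nat_lit 152) (nat_lit 366420689492) (nat_lit 49) (nat_lit 5) (nat_lit 50) (nat_lit 5) (nat_lit 51) (nat_lit 4) (nat_lit 530) (nat_lit 450) (nat_lit 220))) (XT.nd (nat_lit 78) (nat_lit 76) (nat_lit 0) (XT.lf (nat_lit 0) (nat_lit 311005137755) (nat_lit 152) (nat_lit 120053487487) (nat_lit 0) (nat_lit 103855622175) (nat_lit 49) (nat_lit 5) (nat_lit 51) (nat_lit 4) (nat_lit 49) (nat_lit 4) (nat_lit 531) (nat_lit 450) (nat_lit 219)) (XT.lf (nat_lit 0) (nat_lit 206408333481) (nat_lit 76) (nat_lit 277019366515) (nat_lit 76) (nat_lit 69869725233) (nat_lit 48) (nat_lit 4) (nat_lit 49) (nat_lit 5) (nat_lit 49) (nat_lit 4) (nat_lit 532) (nat_lit 450) (nat_lit 218)))) (XT.nd (nat_lit 156) (nat_lit 152) (nat_lit 0) (XT.nd (nat_lit 78) (nat_lit 76) (nat_lit 0) (XT.lf (nat_lit 0) (nat_lit 90997453202) (nat_lit 152) (nat_lit 20604981933) (nat_lit 76) (nat_lit 460822293586) (nat_lit 47) (nat_lit 5)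 (nat_lit 49) (nat_lit 5) (nat_lit 48) (nat_lit 4) (nat_lit 533) (nat_lit 450) (nat_lit 217)) (XT.lf (nat_lit 0) (nat_lit 263807611621) (nat_lit 152) (nat_lit 261809114031) (nat_lit 0) (nat_lit 66522016370) (nat_lit 46) (nat_lit 5) (nat_lit 48) (nat_lit 4) (nat_lit 46) (nat_lit 4) (nat_lit 534) (nat_lit 450) (nat_lit 216))) (XT.nd (nat_lit 78) (nat_lit 76) (nat_lit 0) (XT.lf (nat_lit 0) (nat_lit 87675837699) (nat_lit 76) (nat_lit 361135336083) (nat_lit 76) (nat_lit 163849637416) (nat_lit 45) (nat_lit 4) (nat_lit 46) (nat_lit 5) (nat_lit 46) (nat_lit 4) (nat_lit 535) (nat_lit 450) (nat_lit 215)) (XT.lf (nat_lit 0) (nat_lit 13078841880) (nat_lit 152) (nat_lit 170474171302) (nat_lit 76) (nat_lit 450423739521) (nat_lit 44) (nat_lit 5) (nat_lit 46) (nat_lit 5) (nat_lit 45) (nat_lit 4) (nat_lit 536) (nat_lit 450) (nat_lit 214)))))) (XT.nd (nat_lit 624) (nat_lit 304) (nat_lit 0) (XT.nd (nat_lit 312) (nat_lit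 228) (nat_lit 0) (XT.nd (nat_lit 156) (nat_lit 228) (nat_lit 0) (XT.nd (nat_lit 78) (nat_lit 0) (nat_lit 0) (XT.lf (nat_lit 0) (nat_lit 196700114873) (nat_lit 152) (nat_lit 450547643679) (nat_lit 0) (nat_lit 8808790151) (nat_lit 43) (nat_lit 5) (nat_lit 45) (nat_lit 4) (nat_lit 43) (nat_lit 4) (nat_lit 537) (nat_lit 450) (nat_lit 213)) (XT.lf (nat_lit 0) (nat_lit 395445724704) (nat_lit 152) (nat_lit 75943131241) (nat_lit 0) (nat_lit 207554314902) (nat_lit 43) (nat_lit 5) (nat_lit 45) (nat_lit 4) (nat_lit 43) (nat_lit 4) (nat_lit 538) (nat_lit 450) (nat_lit 212))) (XT.nd (nat_lit 78) (nat_lit 152) (nat_lit 0) (XT.lf (nat_lit 0) (nat_lit 327885644031) (nat_lit 76) (nat_lit 281362009486) (nat_lit 76) (nat_lit 93470518655) (nat_lit 42) (nat_lit 4) (nat_lit 43) (nat_lit 5) (nat_lit 43) (nat_lit 4) (nat_lit 539) (nat_lit 450) (nat_lit 211)) (XT.lf (nat_lit 0) (nat_lit 26082318130) (nat_lit 76) (nat_lit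 78295187299) (nat_lit 152) (nat_lit 623135912160) (nat_lit 40) (nat_lit 5) (nat_lit 41) (nat_lit 5) (nat_lit 42) (nat_lit 4) (nat_lit 540) (nat_lit 450) (nat_lit 210)))) (XT.nd (nat_lit 156) (nat_lit 152) (nat_lit 0) (XT.nd (nat_lit 78) (nat_lit 76) (nat_lit 0) (XT.lf (nat_lit 0) (nat_lit 317535125753) (nat_lit 152) (nat_lit 296918058196) (nat_lit 0) (nat_lit 138590705281) (nat_lit 40) (nat_lit 5) (nat_lit 42) (nat_lit 4) (nat_lit 40) (nat_lit 4) (nat_lit 541) (nat_lit 450) (nat_lit 209)) (XT.lf (nat_lit 0) (nat_lit 130720649915) (nat_lit 76) (nat_lit 413954253917) (nat_lit 76) (nat_lit 235009766783) (nat_lit 39) (nat_lit 4) (nat_lit 40) (nat_lit 5) (nat_lit 40) (nat_lit 4) (nat_lit 542) (nat_lit 450) (nat_lit 208))) (XT.nd (nat_lit 78) (nat_lit 152) (nat_lit 0) (XT.lf (nat_lit 0) (nat_lit 590049288634) (nat_lit 76) (nat_lit 198150669351) (nat_lit 76) (nat_lit 19206118728) (nat_lit 39) (nat_lit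 4) (nat_lit 40) (nat_lit 5) (nat_lit 40) (nat_lit 4) (nat_lit 543) (nat_lit 450) (nat_lit 207)) (XT.lf (nat_lit 0) (nat_lit 205059998692) (nat_lit 152) (nat_lit 596439600248) (nat_lit 0) (nat_lit 34636559561) (nat_lit 37) (nat_lit 5) (nat_lit 39) (nat_lit 4) (nat_lit 37) (nat_lit 4) (nat_lit 544) (nat_lit 450) (nat_lit 206))))) (XT.nd (nat_lit 312) (nat_lit 76) (nat_lit 0) (XT.nd (nat_lit 156) (nat_lit 152) (nat_lit 0) (XT.nd (nat_lit 78) (nat_lit 76) (nat_lit 0) (XT.lf (nat_lit 0) (nat_lit 446883571032) (nat_lit 152) (nat_lit 142593873542) (nat_lit 0) (nat_lit 276460077057) (nat_lit 37) (nat_lit 5) (nat_lit 39) (nat_lit 4) (nat_lit 37) (nat_lit 4) (nat_lit 545) (nat_lit 450) (nat_lit 205)) (XT.lf (nat_lit 0) (nat_lit 344985526960) (nat_lit 76) (nat_lit 361198835080) (nat_lit 76) (nat_lit 190775288874) (nat_lit 36) (nat_lit 4) (nat_lit 37) (nat_lit 5) (nat_lit 37) (nat_lit 4) (nat_lit 546) (nat_lit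 450) (nat_lit 204))) (XT.nd (nat_lit 78) (nat_lit 76) (nat_lit 0) (XT.lf (nat_lit 0) (nat_lit 49805980600) (nat_lit 152) (nat_lit 68321335719) (nat_lit 76) (nat_lit 811244666835) (nat_lit 35) (nat_lit 5) (nat_lit 37) (nat_lit 5) (nat_lit 36) (nat_lit 4) (nat_lit 547) (nat_lit 450) (nat_lit 203)) (XT.lf (nat_lit 0) (nat_lit 305350491837) (nat_lit 152) (nat_lit 514388532935) (nat_lit 0) (nat_lit 143042260097) (nat_lit 34) (nat_lit 5) (nat_lit 36) (nat_lit 4) (nat_lit 34) (nat_lit 4) (nat_lit 548) (nat_lit 450) (nat_lit 202)))) (XT.nd (nat_lit 54834) (nat_lit 0) (nat_lit 9880) (XT.nd (nat_lit 78) (nat_lit 76) (nat_lit 0) (XT.lf (nat_lit 0) (nat_lit 576784621575) (nat_lit 152) (nat_lit 6444463583) (nat_lit 0) (nat_lit 414476346865) (nat_lit 34) (nat_lit 5) (nat_lit 36) (nat_lit 4) (nat_lit 34) (nat_lit 4) (nat_lit 549) (nat_lit 450) (nat_lit 201)) (XT.lf (nat_lit 0) (nat_lit 544318112319) (nat_lit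 76) (nat_lit 325970540062) (nat_lit 76) (nat_lit 163662224426) (nat_lit 33) (nat_lit 4) (nat_lit 34) (nat_lit 5) (nat_lit 34) (nat_lit 4) (nat_lit 550) (nat_lit 450) (nat_lit 200))) (XT.nd (nat_lit 78) (nat_lit 0) (nat_lit 0) (XT.lf (nat_lit 0) (nat_lit 10641199614) (nat_lit 836) (nat_lit 6901788219) (nat_lit 836) (nat_lit 6901788219) (nat_lit 163) (nat_lit 3) (nat_lit 174) (nat_lit 3) (nat_lit 174) (nat_lit 5) (nat_lit 451) (nat_lit 451) (nat_lit 298)) (XT.nd (nat_lit 78) (nat_lit 0) (nat_lit 76) (XT.lf (nat_lit 76) (nat_lit 10890754325) (nat_lit 0) (nat_lit 11120691705) (nat_lit 836) (nat_lit 28090493457) (nat_lit 164) (nat_lit 5) (nat_lit 163) (nat_lit 3) (nat_lit 174) (nat_lit 5) (nat_lit 452) (nat_lit 451) (nat_lit 297)) (XT.lf (nat_lit 0) (nat_lit 23232068766) (nat_lit 760) (nat_lit 14288343184) (nat_lit 836) (nat_lit 13831778241) (nat_lit 164) (nat_lit 5) (nat_lit 174) (nat_lit 5) (nat_lit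 175) (nat_lit 5) (nat_lit 453) (nat_lit 451) (nat_lit 296))))))))
noncomputable def xc386 : XT := (XT.nd (nat_lit 1248) (nat_lit 2660) (nat_lit 0) (XT.nd (nat_lit 624) (nat_lit 2052) (nat_lit 0) (XT.nd (nat_lit 312) (nat_lit 0) (nat_lit 152) (XT.nd (nat_lit 156) (nat_lit 0) (nat_lit 76) (XT.nd (nat_lit 78) (nat_lit 0) (nat_lit 76) (XT.lf (nat_lit 76) (nat_lit 12084115492) (nat_lit 0) (nat_lit 12798935431) (nat_lit 836) (nat_lit 27763436220) (nat_lit 165) (nat_lit 5) (nat_lit 164) (nat_lit 5) (nat_lit 175) (nat_lit 5) (nat_lit 454) (nat_lit 451) (nat_lit 295)) (XT.lf (nat_lit 0) (nat_lit 27066399627) (nat_lit 760) (nat_lit 13932612567) (nat_lit 836) (nat_lit 12983995996) (nat_lit 165) (nat_lit 5) (nat_lit 175) (nat_lit 5) (nat_lit 176) (nat_lit 5) (nat_lit 455) (nat_lit 451) (nat_lit 294))) (XT.nd (nat_lit 78) (nat_lit 0) (nat_lit 76) (XT.lf (nat_lit 76) (nat_lit 14274686398) (nat_lit 0) (nat_lit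 15515418405) (nat_lit 836) (nat_lit 25574691152) (nat_lit 166) (nat_lit 5) (nat_lit 165) (nat_lit 5) (nat_lit 176) (nat_lit 5) (nat_lit 456) (nat_lit 451) (nat_lit 293)) (XT.lf (nat_lit 0) (nat_lit 33063908960) (nat_lit 760) (nat_lit 12608280471) (nat_lit 836) (nat_lit 11122788099) (nat_lit 166) (nat_lit 5) (nat_lit 176) (nat_lit 5) (nat_lit 177) (nat_lit 5) (nat_lit 457) (nat_lit 451) (nat_lit 292)))) (XT.nd (nat_lit 156) (nat_lit 0) (nat_lit 76) (XT.nd (nat_lit 78) (nat_lit 0) (nat_lit 76) (XT.lf (nat_lit 76) (nat_lit 17605762823) (nat_lit 0) (nat_lit 19423500627) (nat_lit 836) (nat_lit 21241011832) (nat_lit 167) (nat_lit 5) (nat_lit 166) (nat_lit 5) (nat_lit 177) (nat_lit 5) (nat_lit 458) (nat_lit 451) (nat_lit 291)) (XT.lf (nat_lit 0) (nat_lit 41535652518) (nat_lit 760) (nat_lit 10172048642) (nat_lit 836) (nat_lit 8094498519) (nat_lit 167) (nat_lit 5) (nat_lit 177) (nat_lit 5) (nat_lit 178)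 (nat_lit 5) (nat_lit 459) (nat_lit 451) (nat_lit 290))) (XT.nd (nat_lit 78) (nat_lit 0) (nat_lit 76) (XT.lf (nat_lit 76) (nat_lit 22237330089) (nat_lit 0) (nat_lit 24694386491) (nat_lit 836) (nat_lit 14445786033) (nat_lit 168) (nat_lit 5) (nat_lit 167) (nat_lit 5) (nat_lit 178) (nat_lit 5) (nat_lit 460) (nat_lit 451) (nat_lit 289)) (XT.lf (nat_lit 0) (nat_lit 52828766465) (nat_lit 760) (nat_lit 6463816308) (nat_lit 76) (nat_lit 3727428881) (nat_lit 168) (nat_lit 5) (nat_lit 178) (nat_lit 5) (nat_lit 169) (nat_lit 5) (nat_lit 461) (nat_lit 451) (nat_lit 288))))) (XT.nd (nat_lit 312) (nat_lit 684) (nat_lit 0) (XT.nd (nat_lit 156) (nat_lit 836) (nat_lit 0) (XT.nd (nat_lit 78) (nat_lit 76) (nat_lit 0) (XT.lf (nat_lit 0) (nat_lit 28347819308) (nat_lit 760) (nat_lit 31519119051) (nat_lit 836) (nat_lit 4835394396) (nat_lit 158) (nat_lit 5) (nat_lit 168) (nat_lit 5) (nat_lit 169) (nat_lit 5) (nat_lit 462)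 (nat_lit 451) (nat_lit 287)) (XT.lf (nat_lit 0) (nat_lit 873157723) (nat_lit 836) (nat_lit 1353992514) (nat_lit 76) (nat_lit 64235497529) (nat_lit 157) (nat_lit 5) (nat_lit 168) (nat_lit 5) (nat_lit 158) (nat_lit 5) (nat_lit 463) (nat_lit 451) (nat_lit 286))) (XT.nd (nat_lit 78) (nat_lit 380) (nat_lit 0) (XT.lf (nat_lit 0) (nat_lit 7729245860) (nat_lit 532) (nat_lit 32250639760) (nat_lit 76) (nat_lit 28275899078) (nat_lit 151) (nat_lit 5) (nat_lit 158) (nat_lit 5) (nat_lit 152) (nat_lit 5) (nat_lit 464) (nat_lit 451) (nat_lit 285)) (XT.lf (nat_lit 0) (nat_lit 5272658579) (nat_lit 380) (nat_lit 9796583443) (nat_lit 456) (nat_lit 55062281342) (nat_lit 146) (nat_lit 5) (nat_lit 151) (nat_lit 5) (nat_lit 152) (nat_lit 5) (nat_lit 465) (nat_lit 451) (nat_lit 284)))) (XT.nd (nat_lit 156) (nat_lit 304) (nat_lit 0) (XT.nd (nat_lit 78) (nat_lit 380) (nat_lit 0) (XT.lf (nat_lit 0) (nat_lit 23672226934) (nat_lit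 456) (nat_lit 26633819727) (nat_lit 76) (nat_lit 21750202923) (nat_lit 146) (nat_lit 5) (nat_lit 152) (nat_lit 5) (nat_lit 147) (nat_lit 5) (nat_lit 466) (nat_lit 451) (nat_lit 283)) (XT.lf (nat_lit 0) (nat_lit 13781976594) (nat_lit 380) (nat_lit 19298206045) (nat_lit 456) (nat_lit 40978288464) (nat_lit 141) (nat_lit 5) (nat_lit 146) (nat_lit 5) (nat_lit 147) (nat_lit 5) (nat_lit 467) (nat_lit 451) (nat_lit 282))) (XT.nd (nat_lit 78) (nat_lit 304) (nat_lit 0) (XT.lf (nat_lit 0) (nat_lit 43623088616) (nat_lit 456) (nat_lit 19210482021) (nat_lit 76) (nat_lit 13294005496) (nat_lit 141) (nat_lit 5) (nat_lit 147) (nat_lit 5) (nat_lit 142) (nat_lit 5) (nat_lit 468) (nat_lit 451) (nat_lit 281)) (XT.lf (nat_lit 0) (nat_lit 24371517910) (nat_lit 304) (nat_lit 31017613060) (nat_lit 380) (nat_lit 22876205950) (nat_lit 137) (nat_lit 5) (nat_lit 141) (nat_lit 5) (nat_lit 142) (nat_lit 5) (nat_lit 469) (nat_lit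 451) (nat_lit 280)))))) (XT.nd (nat_lit 624) (nat_lit 1368) (nat_lit 0) (XT.nd (nat_lit 312) (nat_lit 608) (nat_lit 0) (XT.nd (nat_lit 156) (nat_lit 380) (nat_lit 0) (XT.nd (nat_lit 78) (nat_lit 304) (nat_lit 0) (XT.lf (nat_lit 0) (nat_lit 68110593085) (nat_lit 380) (nat_lit 9737805875) (nat_lit 76) (nat_lit 2643230958) (nat_lit 137) (nat_lit 5) (nat_lit 142) (nat_lit 5) (nat_lit 138) (nat_lit 5) (nat_lit 470) (nat_lit 451) (nat_lit 279)) (XT.lf (nat_lit 0) (nat_lit 37310732394) (nat_lit 304) (nat_lit 45247591424) (nat_lit 380) (nat_lit 216404026) (nat_lit 133) (nat_lit 5) (nat_lit 137) (nat_lit 5) (nat_lit 138) (nat_lit 5) (nat_lit 471) (nat_lit 451) (nat_lit 278))) (XT.nd (nat_lit 78) (nat_lit 0) (nat_lit 0) (XT.lf (nat_lit 0) (nat_lit 1742071836) (nat_lit 304) (nat_lit 10606515932) (nat_lit 380) (nat_lit 72803890244) (nat_lit 128) (nat_lit 5) (nat_lit 132) (nat_lit 5) (nat_lit 133) (nat_lit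 5) (nat_lit 472) (nat_lit 451) (nat_lit 277)) (XT.lf (nat_lit 0) (nat_lit 26718638928) (nat_lit 380) (nat_lit 35143225112) (nat_lit 76) (nat_lit 25727870195) (nat_lit 128) (nat_lit 5) (nat_lit 133) (nat_lit 5) (nat_lit 129) (nat_lit 5) (nat_lit 473) (nat_lit 451) (nat_lit 276)))) (XT.nd (nat_lit 156) (nat_lit 304) (nat_lit 0) (XT.nd (nat_lit 78) (nat_lit 0) (nat_lit 0) (XT.lf (nat_lit 0) (nat_lit 15870440376) (nat_lit 304) (nat_lit 26357665300) (nat_lit 380) (nat_lit 47899701985) (nat_lit 124) (nat_lit 5) (nat_lit 128) (nat_lit 5) (nat_lit 129) (nat_lit 5) (nat_lit 474) (nat_lit 451) (nat_lit 275)) (XT.lf (nat_lit 0) (nat_lit 59287760483) (nat_lit 380) (nat_lit 22289387917) (nat_lit 76) (nat_lit 11176900664) (nat_lit 124) (nat_lit 5) (nat_lit 129) (nat_lit 5) (nat_lit 125) (nat_lit 5) (nat_lit 475) (nat_lit 451) (nat_lit 274))) (XT.nd (nat_lit 78) (nat_lit 76) (nat_lit 0) (XT.lf (nat_lit 0) (nat_lit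 32896881063) (nat_lit 228) (nat_lit 45248528378) (nat_lit 304) (nat_lit 17318942564) (nat_lit 121) (nat_lit 5) (nat_lit 124) (nat_lit 5) (nat_lit 125) (nat_lit 5) (nat_lit 476) (nat_lit 451) (nat_lit 273)) (XT.lf (nat_lit 0) (nat_lit 30411964) (nat_lit 304) (nat_lit 6676426861) (nat_lit 76) (nat_lit 91584466456) (nat_lit 120) (nat_lit 5) (nat_lit 124) (nat_lit 5) (nat_lit 121) (nat_lit 5) (nat_lit 477) (nat_lit 451) (nat_lit 272))))) (XT.nd (nat_lit 312) (nat_lit 608) (nat_lit 0) (XT.nd (nat_lit 156) (nat_lit 228) (nat_lit 0) (XT.nd (nat_lit 78) (nat_lit 228) (nat_lit 0) (XT.lf (nat_lit 0) (nat_lit 19044260285) (nat_lit 380) (nat_lit 48314567717) (nat_lit 76) (nat_lit 33817629594) (nat_lit 116) (nat_lit 5) (nat_lit 121) (nat_lit 5) (nat_lit 117) (nat_lit 5) (nat_lit 478) (nat_lit 451) (nat_lit 271)) (XT.lf (nat_lit 0) (nat_lit 11669494194) (nat_lit 228) (nat_lit 27745730939) (nat_lit 304) (nat_lit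 64770321220) (nat_lit 113) (nat_lit 5) (nat_lit 116) (nat_lit 5) (nat_lit 117) (nat_lit 5) (nat_lit 479) (nat_lit 451) (nat_lit 270))) (XT.nd (nat_lit 78) (nat_lit 228) (nat_lit 0) (XT.lf (nat_lit 0) (nat_lit 61851961714) (nat_lit 304) (nat_lit 31204578299) (nat_lit 76) (nat_lit 14236188390) (nat_lit 113) (nat_lit 5) (nat_lit 117) (nat_lit 5) (nat_lit 114) (nat_lit 5) (nat_lit 480) (nat_lit 451) (nat_lit 269)) (XT.lf (nat_lit 0) (nat_lit 33798516089) (nat_lit 228) (nat_lit 52593959379) (nat_lit 304) (nat_lit 24113697101) (nat_lit 110) (nat_lit 5) (nat_lit 113) (nat_lit 5) (nat_lit 114) (nat_lit 5) (nat_lit 481) (nat_lit 451) (nat_lit 268)))) (XT.nd (nat_lit 156) (nat_lit 380) (nat_lit 0) (XT.nd (nat_lit 78) (nat_lit 228) (nat_lit 0) (XT.lf (nat_lit 0) (nat_lit 103134262998) (nat_lit 228) (nat_lit 9553634380) (nat_lit 304) (nat_lit 1165997469) (nat_lit 110) (nat_lit 5) (nat_lit 113) (nat_lit 5)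 (nat_lit 114) (nat_lit 5) (nat_lit 482) (nat_lit 451) (nat_lit 267)) (XT.lf (nat_lit 0) (nat_lit 23711179614) (nat_lit 228) (nat_lit 57748239340) (nat_lit 76) (nat_lit 35815886624) (nat_lit 107) (nat_lit 5) (nat_lit 110) (nat_lit 5) (nat_lit 108) (nat_lit 5) (nat_lit 483) (nat_lit 451) (nat_lit 266))) (XT.nd (nat_lit 78) (nat_lit 152) (nat_lit 0) (XT.lf (nat_lit 0) (nat_lit 13037274837) (nat_lit 228) (nat_lit 37299885438) (nat_lit 304) (nat_lit 70502464362) (nat_lit 104) (nat_lit 5) (nat_lit 107) (nat_lit 5) (nat_lit 108) (nat_lit 5) (nat_lit 484) (nat_lit 451) (nat_lit 265)) (XT.nd (nat_lit 78) (nat_lit 152) (nat_lit 0) (XT.lf (nat_lit 0) (nat_lit 79429493273) (nat_lit 304) (nat_lit 35324761924) (nat_lit 76) (nat_lit 9771151812) (nat_lit 104) (nat_lit 5) (nat_lit 108) (nat_lit 5) (nat_lit 105) (nat_lit 5) (nat_lit 485) (nat_lit 451) (nat_lit 264)) (XT.lf (nat_lit 0) (nat_lit 41492438046) (nat_lit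 152) (nat_lit 69742772786) (nat_lit 228) (nat_lit 17097329293) (nat_lit 102) (nat_lit 5) (nat_lit 104) (nat_lit 5) (nat_lit 105) (nat_lit 5) (nat_lit 486) (nat_lit 451) (nat_lit 263))))))))
noncomputable def xc387 : XT := (XT.nd (nat_lit 1248) (nat_lit 1368) (nat_lit 0) (XT.nd (nat_lit 624) (nat_lit 760) (nat_lit 0) (XT.nd (nat_lit 312) (nat_lit 532) (nat_lit 0) (XT.nd (nat_lit 156) (nat_lit 152) (nat_lit 0) (XT.nd (nat_lit 78) (nat_lit 228) (nat_lit 0) (XT.lf (nat_lit 0) (nat_lit 12515003897) (nat_lit 228) (nat_lit 9125901900) (nat_lit 76) (nat_lit 110649144609) (nat_lit 101) (nat_lit 5) (nat_lit 104) (nat_lit 5) (nat_lit 102) (nat_lit 5) (nat_lit 487) (nat_lit 451) (nat_lit 262)) (XT.lf (nat_lit 0) (nat_lit 44671642278) (nat_lit 304) (nat_lit 62267612328) (nat_lit 76) (nat_lit 29410253865) (nat_lit 98) (nat_lit 5) (nat_lit 102) (nat_lit 5) (nat_lit 99) (nat_lit 5) (nat_lit 488) (nat_lit 451)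 (nat_lit 261))) (XT.nd (nat_lit 78) (nat_lit 0) (nat_lit 0) (XT.lf (nat_lit 0) (nat_lit 21492511880) (nat_lit 152) (nat_lit 57790529762) (nat_lit 228) (nat_lit 61286551362) (nat_lit 96) (nat_lit 5) (nat_lit 98) (nat_lit 5) (nat_lit 99) (nat_lit 5) (nat_lit 489) (nat_lit 451) (nat_lit 260)) (XT.lf (nat_lit 0) (nat_lit 111601662744) (nat_lit 152) (nat_lit 5077407940) (nat_lit 228) (nat_lit 28268908110) (nat_lit 96) (nat_lit 5) (nat_lit 98) (nat_lit 5) (nat_lit 99) (nat_lit 5) (nat_lit 490) (nat_lit 451) (nat_lit 259)))) (XT.nd (nat_lit 156) (nat_lit 304) (nat_lit 0) (XT.nd (nat_lit 78) (nat_lit 0) (nat_lit 0) (XT.lf (nat_lit 0) (nat_lit 7908224975) (nat_lit 228) (nat_lit 91855365142) (nat_lit 76) (nat_lit 49691026205) (nat_lit 93) (nat_lit 5) (nat_lit 96) (nat_lit 5) (nat_lit 94) (nat_lit 5) (nat_lit 491) (nat_lit 451) (nat_lit 258)) (XT.lf (nat_lit 0) (nat_lit 45600972616) (nat_lit 228) (nat_lit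 465216907) (nat_lit 76) (nat_lit 108064386053) (nat_lit 93) (nat_lit 5) (nat_lit 96) (nat_lit 5) (nat_lit 94) (nat_lit 5) (nat_lit 492) (nat_lit 451) (nat_lit 257))) (XT.nd (nat_lit 78) (nat_lit 152) (nat_lit 0) (XT.lf (nat_lit 0) (nat_lit 86904456813) (nat_lit 228) (nat_lit 60498477550) (nat_lit 76) (nat_lit 11551093486) (nat_lit 91) (nat_lit 5) (nat_lit 94) (nat_lit 5) (nat_lit 92) (nat_lit 5) (nat_lit 493) (nat_lit 451) (nat_lit 256)) (XT.lf (nat_lit 0) (nat_lit 38806254540) (nat_lit 152) (nat_lit 92835501226) (nat_lit 228) (nat_lit 32308464954) (nat_lit 89) (nat_lit 5) (nat_lit 91) (nat_lit 5) (nat_lit 92) (nat_lit 5) (nat_lit 494) (nat_lit 451) (nat_lit 255))))) (XT.nd (nat_lit 312) (nat_lit 380) (nat_lit 0) (XT.nd (nat_lit 156) (nat_lit 152) (nat_lit 0) (XT.nd (nat_lit 78) (nat_lit 152) (nat_lit 0) (XT.lf (nat_lit 0) (nat_lit 10159151741) (nat_lit 228) (nat_lit 24132991052) (nat_lit 76) (nat_lit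 134844679842) (nat_lit 88) (nat_lit 5) (nat_lit 91) (nat_lit 5) (nat_lit 89) (nat_lit 5) (nat_lit 495) (nat_lit 451) (nat_lit 254)) (XT.lf (nat_lit 0) (nat_lit 55431375903) (nat_lit 228) (nat_lit 90855593902) (nat_lit 76) (nat_lit 28180952356) (nat_lit 86) (nat_lit 5) (nat_lit 89) (nat_lit 5) (nat_lit 87) (nat_lit 5) (nat_lit 496) (nat_lit 451) (nat_lit 253))) (XT.nd (nat_lit 78) (nat_lit 0) (nat_lit 0) (XT.lf (nat_lit 0) (nat_lit 17529093598) (nat_lit 152) (nat_lit 86688967577) (nat_lit 228) (nat_lit 75784973005) (nat_lit 84) (nat_lit 5) (nat_lit 86) (nat_lit 5) (nat_lit 87) (nat_lit 5) (nat_lit 497) (nat_lit 451) (nat_lit 252)) (XT.lf (nat_lit 0) (nat_lit 134486632205) (nat_lit 152) (nat_lit 22495741654) (nat_lit 228) (nat_lit 28755613294) (nat_lit 84) (nat_lit 5) (nat_lit 86) (nat_lit 5) (nat_lit 87) (nat_lit 5) (nat_lit 498) (nat_lit 451) (nat_lit 251)))) (XT.nd (nat_lit 156) (nat_lit 228)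 (nat_lit 0) (XT.nd (nat_lit 78) (nat_lit 0) (nat_lit 0) (XT.lf (nat_lit 0) (nat_lit 21740112934) (nat_lit 152) (nat_lit 125048855588) (nat_lit 76) (nat_lit 44865866684) (nat_lit 82) (nat_lit 5) (nat_lit 84) (nat_lit 5) (nat_lit 83) (nat_lit 5) (nat_lit 499) (nat_lit 451) (nat_lit 250)) (XT.lf (nat_lit 0) (nat_lit 75044851956) (nat_lit 152) (nat_lit 6543697828) (nat_lit 76) (nat_lit 116192875527) (nat_lit 82) (nat_lit 5) (nat_lit 84) (nat_lit 5) (nat_lit 83) (nat_lit 5) (nat_lit 500) (nat_lit 451) (nat_lit 249))) (XT.nd (nat_lit 78) (nat_lit 76) (nat_lit 0) (XT.lf (nat_lit 0) (nat_lit 121783928252) (nat_lit 152) (nat_lit 11131931474) (nat_lit 228) (nat_lit 71203433615) (nat_lit 80) (nat_lit 5) (nat_lit 82) (nat_lit 5) (nat_lit 83) (nat_lit 5) (nat_lit 501) (nat_lit 451) (nat_lit 248)) (XT.lf (nat_lit 0) (nat_lit 46490922830) (nat_lit 76) (nat_lit 149008858236) (nat_lit 152) (nat_lit 15183305557)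 (nat_lit 79) (nat_lit 5) (nat_lit 80) (nat_lit 5) (nat_lit 81) (nat_lit 4) (nat_lit 502) (nat_lit 451) (nat_lit 247)))))) (XT.nd (nat_lit 624) (nat_lit 532) (nat_lit 0) (XT.nd (nat_lit 312) (nat_lit 456) (nat_lit 0) (XT.nd (nat_lit 156) (nat_lit 152) (nat_lit 0) (XT.nd (nat_lit 78) (nat_lit 152) (nat_lit 0) (XT.lf (nat_lit 0) (nat_lit 43840532245) (nat_lit 152) (nat_lit 33775625420) (nat_lit 76) (nat_lit 139844877150) (nat_lit 78) (nat_lit 5) (nat_lit 80) (nat_lit 5) (nat_lit 79) (nat_lit 5) (nat_lit 503) (nat_lit 451) (nat_lit 246)) (XT.lf (nat_lit 0) (nat_lit 106314966486) (nat_lit 152) (nat_lit 649875798) (nat_lit 228) (nat_lit 117517615860) (nat_lit 76) (nat_lit 5) (nat_lit 78) (nat_lit 5) (nat_lit 79) (nat_lit 5) (nat_lit 504) (nat_lit 451) (nat_lit 245))) (XT.nd (nat_lit 78) (nat_lit 76) (nat_lit 0) (XT.lf (nat_lit 0) (nat_lit 22205477987) (nat_lit 76) (nat_lit 153219226030) (nat_lit 152)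 (nat_lit 56321281818) (nat_lit 75) (nat_lit 5) (nat_lit 76) (nat_lit 5) (nat_lit 77) (nat_lit 4) (nat_lit 505) (nat_lit 451) (nat_lit 244)) (XT.lf (nat_lit 0) (nat_lit 9725255754) (nat_lit 152) (nat_lit 65740983447) (nat_lit 76) (nat_lit 163798038830) (nat_lit 74) (nat_lit 5) (nat_lit 76) (nat_lit 5) (nat_lit 75) (nat_lit 5) (nat_lit 506) (nat_lit 451) (nat_lit 243)))) (XT.nd (nat_lit 156) (nat_lit 304) (nat_lit 0) (XT.nd (nat_lit 78) (nat_lit 0) (nat_lit 0) (XT.lf (nat_lit 0) (nat_lit 78674942089) (nat_lit 228) (nat_lit 160065373016) (nat_lit 76) (nat_lit 8297325438) (nat_lit 72) (nat_lit 5) (nat_lit 75) (nat_lit 5) (nat_lit 73) (nat_lit 4) (nat_lit 507) (nat_lit 451) (nat_lit 242)) (XT.lf (nat_lit 0) (nat_lit 153440556969) (nat_lit 228) (nat_lit 6796432953) (nat_lit 76) (nat_lit 94844259055) (nat_lit 72) (nat_lit 5) (nat_lit 75) (nat_lit 5) (nat_lit 73) (nat_lit 4) (nat_lit 508) (nat_lit 451)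 (nat_lit 241))) (XT.nd (nat_lit 78) (nat_lit 228) (nat_lit 0) (XT.lf (nat_lit 0) (nat_lit 159231808405) (nat_lit 76) (nat_lit 75198399605) (nat_lit 152) (nat_lit 28972542055) (nat_lit 71) (nat_lit 5) (nat_lit 72) (nat_lit 5) (nat_lit 73) (nat_lit 4) (nat_lit 509) (nat_lit 451) (nat_lit 240)) (XT.lf (nat_lit 0) (nat_lit 47163638127) (nat_lit 228) (nat_lit 209362766052) (nat_lit 76) (nat_lit 15509502766) (nat_lit 68) (nat_lit 5) (nat_lit 71) (nat_lit 5) (nat_lit 69) (nat_lit 4) (nat_lit 510) (nat_lit 451) (nat_lit 239))))) (XT.nd (nat_lit 312) (nat_lit 304) (nat_lit 0) (XT.nd (nat_lit 156) (nat_lit 152) (nat_lit 0) (XT.nd (nat_lit 78) (nat_lit 76) (nat_lit 0) (XT.lf (nat_lit 0) (nat_lit 129158530067) (nat_lit 228) (nat_lit 41273706878) (nat_lit 76) (nat_lit 110493458236) (nat_lit 68) (nat_lit 5) (nat_lit 71) (nat_lit 5) (nat_lit 69) (nat_lit 4) (nat_lit 511) (nat_lit 451) (nat_lit 238)) (XT.lf (nat_lit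 0) (nat_lit 139690231231) (nat_lit 76) (nat_lit 77743608623) (nat_lit 152) (nat_lit 72717099316) (nat_lit 67) (nat_lit 5) (nat_lit 68) (nat_lit 5) (nat_lit 69) (nat_lit 4) (nat_lit 512) (nat_lit 451) (nat_lit 237))) (XT.nd (nat_lit 78) (nat_lit 0) (nat_lit 0) (XT.lf (nat_lit 0) (nat_lit 11497226247) (nat_lit 152) (nat_lit 267906463471) (nat_lit 76) (nat_lit 20348678607) (nat_lit 65) (nat_lit 5) (nat_lit 67) (nat_lit 5) (nat_lit 66) (nat_lit 4) (nat_lit 513) (nat_lit 451) (nat_lit 236)) (XT.lf (nat_lit 0) (nat_lit 101342598838) (nat_lit 152) (nat_lit 83723835756) (nat_lit 76) (nat_lit 124514625062) (nat_lit 65) (nat_lit 5) (nat_lit 67) (nat_lit 5) (nat_lit 66) (nat_lit 4) (nat_lit 514) (nat_lit 451) (nat_lit 235)))) (XT.nd (nat_lit 156) (nat_lit 228) (nat_lit 0) (XT.nd (nat_lit 78) (nat_lit 0) (nat_lit 0) (XT.lf (nat_lit 0) (nat_lit 113293512950) (nat_lit 76) (nat_lit 84155289018) (nat_lit 152)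 (nat_lit 122363955494) (nat_lit 64) (nat_lit 5) (nat_lit 65) (nat_lit 5) (nat_lit 66) (nat_lit 4) (nat_lit 515) (nat_lit 451) (nat_lit 234)) (XT.lf (nat_lit 0) (nat_lit 300141578233) (nat_lit 152) (nat_lit 7780850343) (nat_lit 0) (nat_lit 22544548436) (nat_lit 64) (nat_lit 5) (nat_lit 66) (nat_lit 4) (nat_lit 64) (nat_lit 4) (nat_lit 516) (nat_lit 451) (nat_lit 233))) (XT.nd (nat_lit 78) (nat_lit 76) (nat_lit 0) (XT.lf (nat_lit 0) (nat_lit 68865269989) (nat_lit 152) (nat_lit 136423543961) (nat_lit 76) (nat_lit 136079691321) (nat_lit 62) (nat_lit 5) (nat_lit 64) (nat_lit 5) (nat_lit 63) (nat_lit 4) (nat_lit 517) (nat_lit 451) (nat_lit 232)) (XT.nd (nat_lit 78) (nat_lit 0) (nat_lit 0) (XT.lf (nat_lit 0) (nat_lit 77757619680) (nat_lit 76) (nat_lit 95586414288) (nat_lit 152) (nat_lit 179378834391) (nat_lit 61) (nat_lit 5) (nat_lit 62) (nat_lit 5) (nat_lit 63) (nat_lit 4) (nat_lit 518) (nat_lit 451)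 (nat_lit 231)) (XT.lf (nat_lit 0) (nat_lit 285700786394) (nat_lit 152) (nat_lit 57489662942) (nat_lit 0) (nat_lit 21321797758) (nat_lit 61) (nat_lit 5) (nat_lit 63) (nat_lit 4) (nat_lit 61) (nat_lit 4) (nat_lit 519) (nat_lit 451) (nat_lit 230))))))))
noncomputable def xc388 : XT := (XT.nd (nat_lit 1248) (nat_lit 912) (nat_lit 0) (XT.nd (nat_lit 624) (nat_lit 532) (nat_lit 0) (XT.nd (nat_lit 312) (nat_lit 304) (nat_lit 0) (XT.nd (nat_lit 156) (nat_lit 76) (nat_lit 0) (XT.nd (nat_lit 78) (nat_lit 76) (nat_lit 0) (XT.lf (nat_lit 0) (nat_lit 30294734890) (nat_lit 152) (nat_lit 202275043436) (nat_lit 76) (nat_lit 144082021681) (nat_lit 59) (nat_lit 5) (nat_lit 61) (nat_lit 5) (nat_lit 60) (nat_lit 4) (nat_lit 520) (nat_lit 451) (nat_lit 229)) (XT.lf (nat_lit 0) (nat_lit 30138976183) (nat_lit 76) (nat_lit 113528572609) (nat_lit 152) (nat_lit 245593187698) (nat_lit 58) (nat_lit 5) (nat_lit 59) (nat_lit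 5) (nat_lit 60) (nat_lit 4) (nat_lit 521) (nat_lit 451) (nat_lit 228))) (XT.nd (nat_lit 78) (nat_lit 76) (nat_lit 0) (XT.lf (nat_lit 0) (nat_lit 266369544058) (nat_lit 152) (nat_lit 121368229291) (nat_lit 0) (nat_lit 14579319417) (nat_lit 58) (nat_lit 5) (nat_lit 60) (nat_lit 4) (nat_lit 58) (nat_lit 4) (nat_lit 522) (nat_lit 451) (nat_lit 227)) (XT.lf (nat_lit 0) (nat_lit 130591141918) (nat_lit 76) (nat_lit 268515287528) (nat_lit 76) (nat_lit 16724847894) (nat_lit 57) (nat_lit 4) (nat_lit 58) (nat_lit 5) (nat_lit 58) (nat_lit 4) (nat_lit 523) (nat_lit 451) (nat_lit 226)))) (XT.nd (nat_lit 156) (nat_lit 152) (nat_lit 0) (XT.nd (nat_lit 78) (nat_lit 76) (nat_lit 0) (XT.lf (nat_lit 0) (nat_lit 107076521119) (nat_lit 152) (nat_lit 32283776093) (nat_lit 76) (nat_lit 290471761590) (nat_lit 56) (nat_lit 5) (nat_lit 58) (nat_lit 5) (nat_lit 57) (nat_lit 4) (nat_lit 524) (nat_lit 451) (nat_lit 225)) (XT.lf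 (nat_lit 0) (nat_lit 240272082255) (nat_lit 152) (nat_lit 203587495948) (nat_lit 0) (nat_lit 471282832) (nat_lit 55) (nat_lit 5) (nat_lit 57) (nat_lit 4) (nat_lit 55) (nat_lit 4) (nat_lit 525) (nat_lit 451) (nat_lit 224))) (XT.nd (nat_lit 78) (nat_lit 76) (nat_lit 0) (XT.lf (nat_lit 0) (nat_lit 68927546670) (nat_lit 76) (nat_lit 315116110609) (nat_lit 76) (nat_lit 75315134311) (nat_lit 54) (nat_lit 4) (nat_lit 55) (nat_lit 5) (nat_lit 55) (nat_lit 4) (nat_lit 526) (nat_lit 451) (nat_lit 223)) (XT.lf (nat_lit 0) (nat_lit 61453775849) (nat_lit 152) (nat_lit 113820904259) (nat_lit 76) (nat_lit 299641497030) (nat_lit 53) (nat_lit 5) (nat_lit 55) (nat_lit 5) (nat_lit 54) (nat_lit 4) (nat_lit 527) (nat_lit 451) (nat_lit 222))))) (XT.nd (nat_lit 312) (nat_lit 228) (nat_lit 0) (XT.nd (nat_lit 156) (nat_lit 228) (nat_lit 0) (XT.nd (nat_lit 78) (nat_lit 0) (nat_lit 0) (XT.lf (nat_lit 0) (nat_lit 181183890954)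 (nat_lit 76) (nat_lit 24174741306) (nat_lit 152) (nat_lit 285689636831) (nat_lit 52) (nat_lit 5) (nat_lit 53) (nat_lit 5) (nat_lit 54) (nat_lit 4) (nat_lit 528) (nat_lit 451) (nat_lit 221)) (XT.lf (nat_lit 0) (nat_lit 360517351818) (nat_lit 152) (nat_lit 15131671919) (nat_lit 0) (nat_lit 132135010891) (nat_lit 52) (nat_lit 5) (nat_lit 54) (nat_lit 4) (nat_lit 52) (nat_lit 4) (nat_lit 529) (nat_lit 451) (nat_lit 220))) (XT.nd (nat_lit 78) (nat_lit 76) (nat_lit 0) (XT.lf (nat_lit 0) (nat_lit 3360263997) (nat_lit 152) (nat_lit 221493938318) (nat_lit 76) (nat_lit 300242821449) (nat_lit 50) (nat_lit 5) (nat_lit 52) (nat_lit 5) (nat_lit 51) (nat_lit 4) (nat_lit 530) (nat_lit 451) (nat_lit 219)) (XT.lf (nat_lit 0) (nat_lit 96197185035) (nat_lit 76) (nat_lit 62134423030) (nat_lit 152) (nat_lit 384735235089) (nat_lit 49) (nat_lit 5) (nat_lit 50) (nat_lit 5) (nat_lit 51) (nat_lit 4) (nat_lit 531) (nat_lit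 451) (nat_lit 218)))) (XT.nd (nat_lit 156) (nat_lit 152) (nat_lit 0) (XT.nd (nat_lit 78) (nat_lit 76) (nat_lit 0) (XT.lf (nat_lit 0) (nat_lit 326561370508) (nat_lit 152) (nat_lit 126044288705) (nat_lit 0) (nat_lit 109054001744) (nat_lit 49) (nat_lit 5) (nat_lit 51) (nat_lit 4) (nat_lit 49) (nat_lit 4) (nat_lit 532) (nat_lit 451) (nat_lit 217)) (XT.lf (nat_lit 0) (nat_lit 216740431809) (nat_lit 76) (nat_lit 290864526870) (nat_lit 76) (nat_lit 73357044091) (nat_lit 48) (nat_lit 4) (nat_lit 49) (nat_lit 5) (nat_lit 49) (nat_lit 4) (nat_lit 533) (nat_lit 451) (nat_lit 216))) (XT.nd (nat_lit 78) (nat_lit 76) (nat_lit 0) (XT.lf (nat_lit 0) (nat_lit 95553011584) (nat_lit 152) (nat_lit 21623917616) (nat_lit 76) (nat_lit 483868751637) (nat_lit 47) (nat_lit 5) (nat_lit 49) (nat_lit 5) (nat_lit 48) (nat_lit 4) (nat_lit 534) (nat_lit 451) (nat_lit 215)) (XT.lf (nat_lit 0) (nat_lit 277003667489) (nat_lit 152)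 (nat_lit 274888245854) (nat_lit 0) (nat_lit 69853481984) (nat_lit 46) (nat_lit 5) (nat_lit 48) (nat_lit 4) (nat_lit 46) (nat_lit 4) (nat_lit 535) (nat_lit 451) (nat_lit 214)))))) (XT.nd (nat_lit 624) (nat_lit 380) (nat_lit 0) (XT.nd (nat_lit 312) (nat_lit 304) (nat_lit 0) (XT.nd (nat_lit 156) (nat_lit 76) (nat_lit 0) (XT.nd (nat_lit 78) (nat_lit 76) (nat_lit 0) (XT.lf (nat_lit 0) (nat_lit 92070770819) (nat_lit 76) (nat_lit 379186540633) (nat_lit 76) (nat_lit 172036261327) (nat_lit 45) (nat_lit 4) (nat_lit 46) (nat_lit 5) (nat_lit 46) (nat_lit 4) (nat_lit 536) (nat_lit 451) (nat_lit 213)) (XT.lf (nat_lit 0) (nat_lit 13738184421) (nat_lit 152) (nat_lit 178987090577) (nat_lit 76) (nat_lit 472950045291) (nat_lit 44) (nat_lit 5) (nat_lit 46) (nat_lit 5) (nat_lit 45) (nat_lit 4) (nat_lit 537) (nat_lit 451) (nat_lit 212))) (XT.nd (nat_lit 78) (nat_lit 0) (nat_lit 0) (XT.lf (nat_lit 0) (nat_lit 206540512479)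 (nat_lit 152) (nat_lit 473064227962) (nat_lit 0) (nat_lit 9254366079) (nat_lit 43) (nat_lit 5) (nat_lit 45) (nat_lit 4) (nat_lit 43) (nat_lit 4) (nat_lit 538) (nat_lit 451) (nat_lit 211)) (XT.lf (nat_lit 0) (nat_lit 415223146046) (nat_lit 152) (nat_lit 79730004088) (nat_lit 0) (nat_lit 217936922475) (nat_lit 43) (nat_lit 5) (nat_lit 45) (nat_lit 4) (nat_lit 43) (nat_lit 4) (nat_lit 539) (nat_lit 451) (nat_lit 210)))) (XT.nd (nat_lit 156) (nat_lit 76) (nat_lit 0) (XT.nd (nat_lit 78) (nat_lit 152) (nat_lit 0) (XT.lf (nat_lit 0) (nat_lit 344290044081) (nat_lit 76) (nat_lit 295425040657) (nat_lit 76) (nat_lit 98138743591) (nat_lit 42) (nat_lit 4) (nat_lit 43) (nat_lit 5) (nat_lit 43) (nat_lit 4) (nat_lit 540) (nat_lit 451) (nat_lit 209)) (XT.lf (nat_lit 0) (nat_lit 27396555644) (nat_lit 76) (nat_lit 82204870065) (nat_lit 152) (nat_lit 654287410488) (nat_lit 40) (nat_lit 5) (nat_lit 41) (nat_lit 5)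 (nat_lit 42) (nat_lit 4) (nat_lit 541) (nat_lit 451) (nat_lit 208))) (XT.nd (nat_lit 78) (nat_lit 76) (nat_lit 0) (XT.lf (nat_lit 0) (nat_lit 333416762297) (nat_lit 152) (nat_lit 311754156706) (nat_lit 0) (nat_lit 145524920655) (nat_lit 40) (nat_lit 5) (nat_lit 42) (nat_lit 4) (nat_lit 40) (nat_lit 4) (nat_lit 542) (nat_lit 451) (nat_lit 207)) (XT.lf (nat_lit 0) (nat_lit 137266328675) (nat_lit 76) (nat_lit 434647118818) (nat_lit 76) (nat_lit 246755216711) (nat_lit 39) (nat_lit 4) (nat_lit 40) (nat_lit 5) (nat_lit 40) (nat_lit 4) (nat_lit 543) (nat_lit 451) (nat_lit 206))))) (XT.nd (nat_lit 312) (nat_lit 152) (nat_lit 0) (XT.nd (nat_lit 156) (nat_lit 76) (nat_lit 0) (XT.nd (nat_lit 78) (nat_lit 152) (nat_lit 0) (XT.lf (nat_lit 0) (nat_lit 619560939984) (nat_lit 76) (nat_lit 208053585870) (nat_lit 76) (nat_lit 20161626178) (nat_lit 39) (nat_lit 4) (nat_lit 40) (nat_lit 5) (nat_lit 40) (nat_lit 4)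 (nat_lit 544) (nat_lit 451) (nat_lit 205)) (XT.lf (nat_lit 0) (nat_lit 215317637998) (nat_lit 152) (nat_lit 626252234193) (nat_lit 0) (nat_lit 36372862250) (nat_lit 37) (nat_lit 5) (nat_lit 39) (nat_lit 4) (nat_lit 37) (nat_lit 4) (nat_lit 545) (nat_lit 451) (nat_lit 204))) (XT.nd (nat_lit 78) (nat_lit 76) (nat_lit 0) (XT.lf (nat_lit 0) (nat_lit 469232168032) (nat_lit 152) (nat_lit 149714666203) (nat_lit 0) (nat_lit 290287342539) (nat_lit 37) (nat_lit 5) (nat_lit 39) (nat_lit 4) (nat_lit 37) (nat_lit 4) (nat_lit 546) (nat_lit 451) (nat_lit 203)) (XT.lf (nat_lit 0) (nat_lit 362243560760) (nat_lit 76) (nat_lit 379254364158) (nat_lit 76) (nat_lit 200309491289) (nat_lit 36) (nat_lit 4) (nat_lit 37) (nat_lit 5) (nat_lit 37) (nat_lit 4) (nat_lit 547) (nat_lit 451) (nat_lit 202)))) (XT.nd (nat_lit 156) (nat_lit 0) (nat_lit 0) (XT.nd (nat_lit 78) (nat_lit 76) (nat_lit 0) (XT.lf (nat_lit 0) (nat_lit 52300485359)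 (nat_lit 152) (nat_lit 71728923001) (nat_lit 76) (nat_lit 851810963652) (nat_lit 35) (nat_lit 5) (nat_lit 37) (nat_lit 5) (nat_lit 36) (nat_lit 4) (nat_lit 548) (nat_lit 451) (nat_lit 201)) (XT.lf (nat_lit 0) (nat_lit 320622217821) (nat_lit 152) (nat_lit 540099475730) (nat_lit 0) (nat_lit 150198445479) (nat_lit 34) (nat_lit 5) (nat_lit 36) (nat_lit 4) (nat_lit 34) (nat_lit 4) (nat_lit 549) (nat_lit 451) (nat_lit 200))) (XT.nd (nat_lit 54834) (nat_lit 0) (nat_lit 9804) (XT.lf (nat_lit 0) (nat_lit 605627853981) (nat_lit 152) (nat_lit 6758606903) (nat_lit 0) (nat_lit 435204042662) (nat_lit 34) (nat_lit 5) (nat_lit 36) (nat_lit 4) (nat_lit 34) (nat_lit 4) (nat_lit 550) (nat_lit 451) (nat_lit 199)) (XT.nd (nat_lit 78) (nat_lit 0) (nat_lit 0) (XT.lf (nat_lit 0) (nat_lit 11199790429) (nat_lit 836) (nat_lit 7232947918) (nat_lit 836) (nat_lit 7232947918) (nat_lit 163) (nat_lit 3) (nat_lit 174) (nat_lit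 3) (nat_lit 174) (nat_lit 5) (nat_lit 452) (nat_lit 452) (nat_lit 296)) (XT.lf (nat_lit 76) (nat_lit 11462702120) (nat_lit 0) (nat_lit 11700279083) (nat_lit 836) (nat_lit 29441503215) (nat_lit 164) (nat_lit 5) (nat_lit 163) (nat_lit 3) (nat_lit 174) (nat_lit 5) (nat_lit 453) (nat_lit 452) (nat_lit 295))))))))
noncomputable def xc389 : XT := (XT.nd (nat_lit 1248) (nat_lit 2812) (nat_lit 0) (XT.nd (nat_lit 624) (nat_lit 1748) (nat_lit 0) (XT.nd (nat_lit 312) (nat_lit 0) (nat_lit 152) (XT.nd (nat_lit 156) (nat_lit 0) (nat_lit 76) (XT.nd (nat_lit 78) (nat_lit 0) (nat_lit 0) (XT.lf (nat_lit 0) (nat_lit 24441858057) (nat_lit 760) (nat_lit 14973874774) (nat_lit 836) (nat_lit 14501653861) (nat_lit 164) (nat_lit 5) (nat_lit 174) (nat_lit 5) (nat_lit 175) (nat_lit 5) (nat_lit 454) (nat_lit 452) (nat_lit 294)) (XT.lf (nat_lit 76) (nat_lit 12716740939) (nat_lit 0) (nat_lit 13456797529) (nat_lit 836) (nat_lit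 29102952744) (nat_lit 165) (nat_lit 5) (nat_lit 164) (nat_lit 5) (nat_lit 175) (nat_lit 5) (nat_lit 455) (nat_lit 452) (nat_lit 293))) (XT.nd (nat_lit 78) (nat_lit 0) (nat_lit 0) (XT.lf (nat_lit 0) (nat_lit 28463581791) (nat_lit 760) (nat_lit 14599700654) (nat_lit 836) (nat_lit 13616679677) (nat_lit 165) (nat_lit 5) (nat_lit 175) (nat_lit 5) (nat_lit 176) (nat_lit 5) (nat_lit 456) (nat_lit 452) (nat_lit 292)) (XT.lf (nat_lit 76) (nat_lit 15017486767) (nat_lit 0) (nat_lit 16304350586) (nat_lit 836) (nat_lit 26809083825) (nat_lit 166) (nat_lit 5) (nat_lit 165) (nat_lit 5) (nat_lit 176) (nat_lit 5) (nat_lit 457) (nat_lit 452) (nat_lit 291)))) (XT.nd (nat_lit 156) (nat_lit 0) (nat_lit 76) (XT.nd (nat_lit 78) (nat_lit 0) (nat_lit 0) (XT.lf (nat_lit 0) (nat_lit 34757125194) (nat_lit 760) (nat_lit 13208802964) (nat_lit 836) (nat_lit 11666794154) (nat_lit 166) (nat_lit 5) (nat_lit 176) (nat_lit 5) (nat_lit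 177) (nat_lit 5) (nat_lit 458) (nat_lit 452) (nat_lit 290)) (XT.lf (nat_lit 76) (nat_lit 18515460374) (nat_lit 0) (nat_lit 20403840446) (nat_lit 836) (nat_lit 22262556606) (nat_lit 167) (nat_lit 5) (nat_lit 166) (nat_lit 5) (nat_lit 177) (nat_lit 5) (nat_lit 459) (nat_lit 452) (nat_lit 289))) (XT.nd (nat_lit 78) (nat_lit 0) (nat_lit 0) (XT.lf (nat_lit 0) (nat_lit 43649036201) (nat_lit 760) (nat_lit 10650666200) (nat_lit 836) (nat_lit 8490774438) (nat_lit 167) (nat_lit 5) (nat_lit 177) (nat_lit 5) (nat_lit 178) (nat_lit 5) (nat_lit 460) (nat_lit 452) (nat_lit 288)) (XT.lf (nat_lit 76) (nat_lit 23378697841) (nat_lit 0) (nat_lit 25934923314) (nat_lit 836) (nat_lit 15130988012) (nat_lit 168) (nat_lit 5) (nat_lit 167) (nat_lit 5) (nat_lit 178) (nat_lit 5) (nat_lit 461) (nat_lit 452) (nat_lit 287))))) (XT.nd (nat_lit 312) (nat_lit 760) (nat_lit 0) (XT.nd (nat_lit 156) (nat_lit 532) (nat_lit 0) (XT.nd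 (nat_lit 78) (nat_lit 760) (nat_lit 0) (XT.lf (nat_lit 0) (nat_lit 55503755187) (nat_lit 760) (nat_lit 6757139836) (nat_lit 76) (nat_lit 3908437179) (nat_lit 168) (nat_lit 5) (nat_lit 178) (nat_lit 5) (nat_lit 169) (nat_lit 5) (nat_lit 462) (nat_lit 452) (nat_lit 286)) (XT.lf (nat_lit 0) (nat_lit 29794595830) (nat_lit 760) (nat_lit 33098100998) (nat_lit 836) (nat_lit 5043129592) (nat_lit 158) (nat_lit 5) (nat_lit 168) (nat_lit 5) (nat_lit 169) (nat_lit 5) (nat_lit 463) (nat_lit 452) (nat_lit 285))) (XT.nd (nat_lit 78) (nat_lit 456) (nat_lit 0) (XT.lf (nat_lit 0) (nat_lit 948191997) (nat_lit 836) (nat_lit 1392666278) (nat_lit 76) (nat_lit 67443350889) (nat_lit 157) (nat_lit 5) (nat_lit 168) (nat_lit 5) (nat_lit 158) (nat_lit 5) (nat_lit 464) (nat_lit 452) (nat_lit 284)) (XT.lf (nat_lit 0) (nat_lit 8146008651) (nat_lit 532) (nat_lit 33833067928) (nat_lit 76) (nat_lit 29687980260) (nat_lit 151) (nat_lit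 5) (nat_lit 158) (nat_lit 5) (nat_lit 152) (nat_lit 5) (nat_lit 465) (nat_lit 452) (nat_lit 283)))) (XT.nd (nat_lit 156) (nat_lit 380) (nat_lit 0) (XT.nd (nat_lit 78) (nat_lit 0) (nat_lit 0) (XT.lf (nat_lit 0) (nat_lit 5565909782) (nat_lit 380) (nat_lit 10286114383) (nat_lit 456) (nat_lit 57784607396) (nat_lit 146) (nat_lit 5) (nat_lit 151) (nat_lit 5) (nat_lit 152) (nat_lit 5) (nat_lit 466) (nat_lit 452) (nat_lit 282)) (XT.lf (nat_lit 0) (nat_lit 24883766564) (nat_lit 456) (nat_lit 27935909199) (nat_lit 76) (nat_lit 22837988010) (nat_lit 146) (nat_lit 5) (nat_lit 152) (nat_lit 5) (nat_lit 147) (nat_lit 5) (nat_lit 467) (nat_lit 452) (nat_lit 281))) (XT.nd (nat_lit 78) (nat_lit 0) (nat_lit 0) (XT.lf (nat_lit 0) (nat_lit 14500199494) (nat_lit 380) (nat_lit 20261045350) (nat_lit 456) (nat_lit 42998795373) (nat_lit 141) (nat_lit 5) (nat_lit 146) (nat_lit 5) (nat_lit 147) (nat_lit 5) (nat_lit 468)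 (nat_lit 452) (nat_lit 280)) (XT.lf (nat_lit 0) (nat_lit 45830038673) (nat_lit 456) (nat_lit 20142009763) (nat_lit 76) (nat_lit 13960615020) (nat_lit 141) (nat_lit 5) (nat_lit 147) (nat_lit 5) (nat_lit 142) (nat_lit 5) (nat_lit 469) (nat_lit 452) (nat_lit 279)))))) (XT.nd (nat_lit 624) (nat_lit 1292) (nat_lit 0) (XT.nd (nat_lit 312) (nat_lit 532) (nat_lit 0) (XT.nd (nat_lit 156) (nat_lit 684) (nat_lit 0) (XT.nd (nat_lit 78) (nat_lit 0) (nat_lit 0) (XT.lf (nat_lit 0) (nat_lit 25618622481) (nat_lit 304) (nat_lit 32564977713) (nat_lit 380) (nat_lit 23993751317) (nat_lit 137) (nat_lit 5) (nat_lit 141) (nat_lit 5) (nat_lit 142) (nat_lit 5) (nat_lit 470) (nat_lit 452) (nat_lit 278)) (XT.lf (nat_lit 0) (nat_lit 71539996616) (nat_lit 380) (nat_lit 10196385659) (nat_lit 76) (nat_lit 2778633902) (nat_lit 137) (nat_lit 5) (nat_lit 142) (nat_lit 5) (nat_lit 138) (nat_lit 5) (nat_lit 471) (nat_lit 452) (nat_lit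 277))) (XT.nd (nat_lit 78) (nat_lit 380) (nat_lit 0) (XT.lf (nat_lit 0) (nat_lit 39204122903) (nat_lit 304) (nat_lit 47505289009) (nat_lit 380) (nat_lit 202892260) (nat_lit 133) (nat_lit 5) (nat_lit 137) (nat_lit 5) (nat_lit 138) (nat_lit 5) (nat_lit 472) (nat_lit 452) (nat_lit 276)) (XT.lf (nat_lit 0) (nat_lit 1857347652) (nat_lit 304) (nat_lit 11131540964) (nat_lit 380) (nat_lit 76420068390) (nat_lit 128) (nat_lit 5) (nat_lit 132) (nat_lit 5) (nat_lit 133) (nat_lit 5) (nat_lit 473) (nat_lit 452) (nat_lit 275)))) (XT.nd (nat_lit 156) (nat_lit 228) (nat_lit 0) (XT.nd (nat_lit 78) (nat_lit 304) (nat_lit 0) (XT.lf (nat_lit 0) (nat_lit 28076432035) (nat_lit 380) (nat_lit 36872544110) (nat_lit 76) (nat_lit 27019150473) (nat_lit 128) (nat_lit 5) (nat_lit 133) (nat_lit 5) (nat_lit 129) (nat_lit 5) (nat_lit 474) (nat_lit 452) (nat_lit 274)) (XT.lf (nat_lit 0) (nat_lit 16691355583) (nat_lit 304) (nat_lit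 27669403214) (nat_lit 380) (nat_lit 50272375646) (nat_lit 124) (nat_lit 5) (nat_lit 128) (nat_lit 5) (nat_lit 129) (nat_lit 5) (nat_lit 475) (nat_lit 452) (nat_lit 273))) (XT.nd (nat_lit 78) (nat_lit 228) (nat_lit 0) (XT.lf (nat_lit 0) (nat_lit 62272475920) (nat_lit 380) (nat_lit 23376846986) (nat_lit 76) (nat_lit 11741411088) (nat_lit 124) (nat_lit 5) (nat_lit 129) (nat_lit 5) (nat_lit 125) (nat_lit 5) (nat_lit 476) (nat_lit 452) (nat_lit 272)) (XT.lf (nat_lit 0) (nat_lit 34568299793) (nat_lit 228) (nat_lit 47504154467) (nat_lit 304) (nat_lit 18164125532) (nat_lit 121) (nat_lit 5) (nat_lit 124) (nat_lit 5) (nat_lit 125) (nat_lit 5) (nat_lit 477) (nat_lit 452) (nat_lit 271))))) (XT.nd (nat_lit 312) (nat_lit 684) (nat_lit 0) (XT.nd (nat_lit 156) (nat_lit 228) (nat_lit 0) (XT.nd (nat_lit 78) (nat_lit 304) (nat_lit 0) (XT.lf (nat_lit 0) (nat_lit 51075018) (nat_lit 304) (nat_lit 6984305057) (nat_lit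 76) (nat_lit 96169532353) (nat_lit 120) (nat_lit 5) (nat_lit 124) (nat_lit 5) (nat_lit 121) (nat_lit 5) (nat_lit 478) (nat_lit 452) (nat_lit 270)) (XT.lf (nat_lit 0) (nat_lit 20015210376) (nat_lit 380) (nat_lit 50703946629) (nat_lit 76) (nat_lit 35515185669) (nat_lit 116) (nat_lit 5) (nat_lit 121) (nat_lit 5) (nat_lit 117) (nat_lit 5) (nat_lit 479) (nat_lit 452) (nat_lit 269))) (XT.nd (nat_lit 78) (nat_lit 0) (nat_lit 0) (XT.lf (nat_lit 0) (nat_lit 12278893385) (nat_lit 228) (nat_lit 29125342593) (nat_lit 304) (nat_lit 67989674311) (nat_lit 113) (nat_lit 5) (nat_lit 116) (nat_lit 5) (nat_lit 117) (nat_lit 5) (nat_lit 480) (nat_lit 452) (nat_lit 268)) (XT.lf (nat_lit 0) (nat_lit 64962054481) (nat_lit 304) (nat_lit 32739361464) (nat_lit 76) (nat_lit 14955073284) (nat_lit 113) (nat_lit 5) (nat_lit 117) (nat_lit 5) (nat_lit 114) (nat_lit 5) (nat_lit 481) (nat_lit 452) (nat_lit 267)))) (XT.nd (nat_lit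 156) (nat_lit 456) (nat_lit 0) (XT.nd (nat_lit 78) (nat_lit 0) (nat_lit 0) (XT.lf (nat_lit 0) (nat_lit 35513477227) (nat_lit 228) (nat_lit 55215674487) (nat_lit 304) (nat_lit 25301476041) (nat_lit 110) (nat_lit 5) (nat_lit 113) (nat_lit 5) (nat_lit 114) (nat_lit 5) (nat_lit 482) (nat_lit 452) (nat_lit 266)) (XT.lf (nat_lit 0) (nat_lit 108314819323) (nat_lit 228) (nat_lit 10023713374) (nat_lit 304) (nat_lit 1207244090) (nat_lit 110) (nat_lit 5) (nat_lit 113) (nat_lit 5) (nat_lit 114) (nat_lit 5) (nat_lit 483) (nat_lit 452) (nat_lit 265))) (XT.nd (nat_lit 78) (nat_lit 228) (nat_lit 0) (XT.lf (nat_lit 0) (nat_lit 24912957964) (nat_lit 228) (nat_lit 60610972799) (nat_lit 76) (nat_lit 37614328418) (nat_lit 107) (nat_lit 5) (nat_lit 110) (nat_lit 5) (nat_lit 108) (nat_lit 5) (nat_lit 484) (nat_lit 452) (nat_lit 264)) (XT.nd (nat_lit 78) (nat_lit 0) (nat_lit 0) (XT.lf (nat_lit 0) (nat_lit 13713419046)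 (nat_lit 228) (nat_lit 39156425348) (nat_lit 304) (nat_lit 74010969497) (nat_lit 104) (nat_lit 5) (nat_lit 107) (nat_lit 5) (nat_lit 108) (nat_lit 5) (nat_lit 485) (nat_lit 452) (nat_lit 263)) (XT.lf (nat_lit 0) (nat_lit 83416166128) (nat_lit 304) (nat_lit 37067247211) (nat_lit 76) (nat_lit 10267503469) (nat_lit 104) (nat_lit 5) (nat_lit 108) (nat_lit 5) (nat_lit 105) (nat_lit 5) (nat_lit 486) (nat_lit 452) (nat_lit 262))))))))
noncomputable def xc390 : XT := (XT.nd (nat_lit 1248) (nat_lit 1444) (nat_lit 0) (XT.nd (nat_lit 624) (nat_lit 836) (nat_lit 0) (XT.nd (nat_lit 312) (nat_lit 380) (nat_lit 0) (XT.nd (nat_lit 156) (nat_lit 380) (nat_lit 0) (XT.nd (nat_lit 78) (nat_lit 76) (nat_lit 0) (XT.lf (nat_lit 0) (nat_lit 43590429648) (nat_lit 152) (nat_lit 73221381061) (nat_lit 228) (nat_lit 17936613845) (nat_lit 102) (nat_lit 5) (nat_lit 104) (nat_lit 5) (nat_lit 105) (nat_lit 5) (nat_lit 487) (nat_lit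 452) (nat_lit 261)) (XT.lf (nat_lit 0) (nat_lit 13155119038) (nat_lit 228) (nat_lit 9559464615) (nat_lit 76) (nat_lit 116189250472) (nat_lit 101) (nat_lit 5) (nat_lit 104) (nat_lit 5) (nat_lit 102) (nat_lit 5) (nat_lit 488) (nat_lit 452) (nat_lit 260))) (XT.nd (nat_lit 78) (nat_lit 152) (nat_lit 0) (XT.lf (nat_lit 0) (nat_lit 46919384628) (nat_lit 304) (nat_lit 65358055325) (nat_lit 76) (nat_lit 30888835402) (nat_lit 98) (nat_lit 5) (nat_lit 102) (nat_lit 5) (nat_lit 99) (nat_lit 5) (nat_lit 489) (nat_lit 452) (nat_lit 259)) (XT.lf (nat_lit 0) (nat_lit 22589705131) (nat_lit 152) (nat_lit 60671326875) (nat_lit 228) (nat_lit 64336348230) (nat_lit 96) (nat_lit 5) (nat_lit 98) (nat_lit 5) (nat_lit 99) (nat_lit 5) (nat_lit 490) (nat_lit 452) (nat_lit 258)))) (XT.nd (nat_lit 156) (nat_lit 152) (nat_lit 0) (XT.nd (nat_lit 78) (nat_lit 228) (nat_lit 0) (XT.lf (nat_lit 0) (nat_lit 117203238888) (nat_lit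 152) (nat_lit 5322964647) (nat_lit 228) (nat_lit 29668514754) (nat_lit 96) (nat_lit 5) (nat_lit 98) (nat_lit 5) (nat_lit 99) (nat_lit 5) (nat_lit 491) (nat_lit 452) (nat_lit 257)) (XT.lf (nat_lit 0) (nat_lit 8316863643) (nat_lit 228) (nat_lit 96426028159) (nat_lit 76) (nat_lit 52183793531) (nat_lit 93) (nat_lit 5) (nat_lit 96) (nat_lit 5) (nat_lit 94) (nat_lit 5) (nat_lit 492) (nat_lit 452) (nat_lit 256))) (XT.nd (nat_lit 78) (nat_lit 152) (nat_lit 0) (XT.lf (nat_lit 0) (nat_lit 47893618788) (nat_lit 228) (nat_lit 467425143) (nat_lit 76) (nat_lit 113475430133) (nat_lit 93) (nat_lit 5) (nat_lit 96) (nat_lit 5) (nat_lit 94) (nat_lit 5) (nat_lit 493) (nat_lit 452) (nat_lit 255)) (XT.lf (nat_lit 0) (nat_lit 91262131724) (nat_lit 228) (nat_lit 63502202953) (nat_lit 76) (nat_lit 12136771567) (nat_lit 91) (nat_lit 5) (nat_lit 94) (nat_lit 5) (nat_lit 92) (nat_lit 5) (nat_lit 494) (nat_lit 452) (nat_lit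 254))))) (XT.nd (nat_lit 312) (nat_lit 304) (nat_lit 0) (XT.nd (nat_lit 156) (nat_lit 304) (nat_lit 0) (XT.nd (nat_lit 78) (nat_lit 76) (nat_lit 0) (XT.lf (nat_lit 0) (nat_lit 40767423831) (nat_lit 152) (nat_lit 97468604468) (nat_lit 228) (nat_lit 33911093846) (nat_lit 89) (nat_lit 5) (nat_lit 91) (nat_lit 5) (nat_lit 92) (nat_lit 5) (nat_lit 495) (nat_lit 452) (nat_lit 253)) (XT.lf (nat_lit 0) (nat_lit 10678904429) (nat_lit 228) (nat_lit 25319386871) (nat_lit 76) (nat_lit 141594782370) (nat_lit 88) (nat_lit 5) (nat_lit 91) (nat_lit 5) (nat_lit 89) (nat_lit 5) (nat_lit 496) (nat_lit 452) (nat_lit 252))) (XT.nd (nat_lit 78) (nat_lit 152) (nat_lit 0) (XT.lf (nat_lit 0) (nat_lit 58214620120) (nat_lit 228) (nat_lit 95377999860) (nat_lit 76) (nat_lit 29598114194) (nat_lit 86) (nat_lit 5) (nat_lit 89) (nat_lit 5) (nat_lit 87) (nat_lit 5) (nat_lit 497) (nat_lit 452) (nat_lit 251)) (XT.lf (nat_lit 0) (nat_lit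 18425593406) (nat_lit 152) (nat_lit 91014803238) (nat_lit 228) (nat_lit 79562217316) (nat_lit 84) (nat_lit 5) (nat_lit 86) (nat_lit 5) (nat_lit 87) (nat_lit 5) (nat_lit 498) (nat_lit 452) (nat_lit 250)))) (XT.nd (nat_lit 156) (nat_lit 152) (nat_lit 0) (XT.nd (nat_lit 78) (nat_lit 152) (nat_lit 0) (XT.lf (nat_lit 0) (nat_lit 141230054414) (nat_lit 152) (nat_lit 23612326148) (nat_lit 228) (nat_lit 30181961255) (nat_lit 84) (nat_lit 5) (nat_lit 86) (nat_lit 5) (nat_lit 87) (nat_lit 5) (nat_lit 499) (nat_lit 452) (nat_lit 249)) (XT.lf (nat_lit 0) (nat_lit 22838086906) (nat_lit 152) (nat_lit 131281742844) (nat_lit 76) (nat_lit 47117198534) (nat_lit 82) (nat_lit 5) (nat_lit 84) (nat_lit 5) (nat_lit 83) (nat_lit 5) (nat_lit 500) (nat_lit 452) (nat_lit 248))) (XT.nd (nat_lit 78) (nat_lit 152) (nat_lit 0) (XT.lf (nat_lit 0) (nat_lit 78807540578) (nat_lit 152) (nat_lit 6852258411) (nat_lit 76) (nat_lit 122010175032)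 (nat_lit 82) (nat_lit 5) (nat_lit 84) (nat_lit 5) (nat_lit 83) (nat_lit 5) (nat_lit 501) (nat_lit 452) (nat_lit 247)) (XT.lf (nat_lit 0) (nat_lit 127891448581) (nat_lit 152) (nat_lit 11680438814) (nat_lit 228) (nat_lit 74752858638) (nat_lit 80) (nat_lit 5) (nat_lit 82) (nat_lit 5) (nat_lit 83) (nat_lit 5) (nat_lit 502) (nat_lit 452) (nat_lit 246)))))) (XT.nd (nat_lit 624) (nat_lit 760) (nat_lit 0) (XT.nd (nat_lit 312) (nat_lit 304) (nat_lit 0) (XT.nd (nat_lit 156) (nat_lit 228) (nat_lit 0) (XT.nd (nat_lit 78) (nat_lit 76) (nat_lit 0) (XT.lf (nat_lit 0) (nat_lit 48833876800) (nat_lit 76) (nat_lit 156451048315) (nat_lit 152) (nat_lit 15931807859) (nat_lit 79) (nat_lit 5) (nat_lit 80) (nat_lit 5) (nat_lit 81) (nat_lit 4) (nat_lit 503) (nat_lit 452) (nat_lit 245)) (XT.lf (nat_lit 0) (nat_lit 46042389041) (nat_lit 152) (nat_lit 35446550187) (nat_lit 76) (nat_lit 146844655609) (nat_lit 78) (nat_lit 5)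 (nat_lit 80) (nat_lit 5) (nat_lit 79) (nat_lit 5) (nat_lit 504) (nat_lit 452) (nat_lit 244))) (XT.nd (nat_lit 78) (nat_lit 76) (nat_lit 0) (XT.lf (nat_lit 0) (nat_lit 111648283306) (nat_lit 152) (nat_lit 674437465) (nat_lit 228) (nat_lit 123383378261) (nat_lit 76) (nat_lit 5) (nat_lit 78) (nat_lit 5) (nat_lit 79) (nat_lit 5) (nat_lit 505) (nat_lit 452) (nat_lit 243)) (XT.lf (nat_lit 0) (nat_lit 23333389417) (nat_lit 76) (nat_lit 160872120616) (nat_lit 152) (nat_lit 59127296363) (nat_lit 75) (nat_lit 5) (nat_lit 76) (nat_lit 5) (nat_lit 77) (nat_lit 4) (nat_lit 506) (nat_lit 452) (nat_lit 242)))) (XT.nd (nat_lit 156) (nat_lit 76) (nat_lit 0) (XT.nd (nat_lit 78) (nat_lit 152) (nat_lit 0) (XT.lf (nat_lit 0) (nat_lit 10220783206) (nat_lit 152) (nat_lit 69010928467) (nat_lit 76) (nat_lit 171995316855) (nat_lit 74) (nat_lit 5) (nat_lit 76) (nat_lit 5) (nat_lit 75) (nat_lit 5) (nat_lit 507) (nat_lit 452)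 (nat_lit 241)) (XT.lf (nat_lit 0) (nat_lit 82617896295) (nat_lit 228) (nat_lit 168051479788) (nat_lit 76) (nat_lit 8719685969) (nat_lit 72) (nat_lit 5) (nat_lit 75) (nat_lit 5) (nat_lit 73) (nat_lit 4) (nat_lit 508) (nat_lit 452) (nat_lit 240))) (XT.nd (nat_lit 78) (nat_lit 76) (nat_lit 0) (XT.lf (nat_lit 0) (nat_lit 161121353486) (nat_lit 228) (nat_lit 7119909954) (nat_lit 76) (nat_lit 99593609396) (nat_lit 72) (nat_lit 5) (nat_lit 75) (nat_lit 5) (nat_lit 73) (nat_lit 4) (nat_lit 509) (nat_lit 452) (nat_lit 239)) (XT.lf (nat_lit 0) (nat_lit 167209479848) (nat_lit 76) (nat_lit 78950840745) (nat_lit 152) (nat_lit 30412136718) (nat_lit 71) (nat_lit 5) (nat_lit 72) (nat_lit 5) (nat_lit 73) (nat_lit 4) (nat_lit 510) (nat_lit 452) (nat_lit 238))))) (XT.nd (nat_lit 312) (nat_lit 304) (nat_lit 0) (XT.nd (nat_lit 156) (nat_lit 228) (nat_lit 0) (XT.nd (nat_lit 78) (nat_lit 0) (nat_lit 0) (XT.lf (nat_lit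 0) (nat_lit 49530516022) (nat_lit 228) (nat_lit 219814486604) (nat_lit 76) (nat_lit 16292264733) (nat_lit 68) (nat_lit 5) (nat_lit 71) (nat_lit 5) (nat_lit 69) (nat_lit 4) (nat_lit 511) (nat_lit 452) (nat_lit 237)) (XT.lf (nat_lit 0) (nat_lit 135624738464) (nat_lit 228) (nat_lit 43321756269) (nat_lit 76) (nat_lit 116025070984) (nat_lit 68) (nat_lit 5) (nat_lit 71) (nat_lit 5) (nat_lit 69) (nat_lit 4) (nat_lit 512) (nat_lit 452) (nat_lit 236))) (XT.nd (nat_lit 78) (nat_lit 152) (nat_lit 0) (XT.lf (nat_lit 0) (nat_lit 146690126553) (nat_lit 76) (nat_lit 81623532995) (nat_lit 152) (nat_lit 76344420073) (nat_lit 67) (nat_lit 5) (nat_lit 68) (nat_lit 5) (nat_lit 69) (nat_lit 4) (nat_lit 513) (nat_lit 452) (nat_lit 235)) (XT.lf (nat_lit 0) (nat_lit 12080309659) (nat_lit 152) (nat_lit 281286090549) (nat_lit 76) (nat_lit 21373175317) (nat_lit 65) (nat_lit 5) (nat_lit 67) (nat_lit 5) (nat_lit 66) (nat_lit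 4) (nat_lit 514) (nat_lit 452) (nat_lit 234)))) (XT.nd (nat_lit 156) (nat_lit 228) (nat_lit 0) (XT.nd (nat_lit 78) (nat_lit 76) (nat_lit 0) (XT.lf (nat_lit 0) (nat_lit 106417559351) (nat_lit 152) (nat_lit 87895078881) (nat_lit 76) (nat_lit 130747082773) (nat_lit 65) (nat_lit 5) (nat_lit 67) (nat_lit 5) (nat_lit 66) (nat_lit 4) (nat_lit 515) (nat_lit 452) (nat_lit 233)) (XT.lf (nat_lit 0) (nat_lit 118972896152) (nat_lit 76) (nat_lit 88356033227) (nat_lit 152) (nat_lit 128474081489) (nat_lit 64) (nat_lit 5) (nat_lit 65) (nat_lit 5) (nat_lit 66) (nat_lit 4) (nat_lit 516) (nat_lit 452) (nat_lit 232))) (XT.nd (nat_lit 78) (nat_lit 228) (nat_lit 0) (XT.lf (nat_lit 0) (nat_lit 315156082782) (nat_lit 152) (nat_lit 8155623893) (nat_lit 0) (nat_lit 23678247810) (nat_lit 64) (nat_lit 5) (nat_lit 66) (nat_lit 4) (nat_lit 64) (nat_lit 4) (nat_lit 517) (nat_lit 452) (nat_lit 231)) (XT.nd (nat_lit 78) (nat_lit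 76) (nat_lit 0) (XT.lf (nat_lit 0) (nat_lit 72315944325) (nat_lit 152) (nat_lit 143230437214) (nat_lit 76) (nat_lit 142890178367) (nat_lit 62) (nat_lit 5) (nat_lit 64) (nat_lit 5) (nat_lit 63) (nat_lit 4) (nat_lit 518) (nat_lit 452) (nat_lit 230)) (XT.lf (nat_lit 0) (nat_lit 81659554223) (nat_lit 76) (nat_lit 100358958799) (nat_lit 152) (nat_lit 188340134805) (nat_lit 61) (nat_lit 5) (nat_lit 62) (nat_lit 5) (nat_lit 63) (nat_lit 4) (nat_lit 519) (nat_lit 452) (nat_lit 229))))))))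
noncomputable def xc391 : XT := (XT.nd (nat_lit 1248) (nat_lit 912) (nat_lit 0) (XT.nd (nat_lit 624) (nat_lit 532) (nat_lit 0) (XT.nd (nat_lit 312) (nat_lit 304) (nat_lit 0) (XT.nd (nat_lit 156) (nat_lit 76) (nat_lit 0) (XT.nd (nat_lit 78) (nat_lit 152) (nat_lit 0) (XT.lf (nat_lit 0) (nat_lit 299992857286) (nat_lit 152) (nat_lit 60350515885) (nat_lit 0) (nat_lit 22394134620) (nat_lit 61) (nat_lit 5) (nat_lit 63) (nat_lit 4) (nat_lit 61) (nat_lit 4) (nat_lit 520) (nat_lit 452) (nat_lit 228)) (XT.lf (nat_lit 0) (nat_lit 31816491030) (nat_lit 152) (nat_lit 212375153082) (nat_lit 76) (nat_lit 151292394854) (nat_lit 59) (nat_lit 5) (nat_lit 61) (nat_lit 5) (nat_lit 60) (nat_lit 4) (nat_lit 521) (nat_lit 452) (nat_lit 227))) (XT.nd (nat_lit 78) (nat_lit 0) (nat_lit 0) (XT.lf (nat_lit 0) (nat_lit 31659347477) (nat_lit 76) (nat_lit 119198473457) (nat_lit 152) (nat_lit 257865607578) (nat_lit 58) (nat_lit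 5) (nat_lit 59) (nat_lit 5) (nat_lit 60) (nat_lit 4) (nat_lit 522) (nat_lit 452) (nat_lit 226)) (XT.lf (nat_lit 0) (nat_lit 279694684707) (nat_lit 152) (nat_lit 127423626117) (nat_lit 0) (nat_lit 15314303344) (nat_lit 58) (nat_lit 5) (nat_lit 60) (nat_lit 4) (nat_lit 58) (nat_lit 4) (nat_lit 523) (nat_lit 452) (nat_lit 225)))) (XT.nd (nat_lit 156) (nat_lit 152) (nat_lit 0) (XT.nd (nat_lit 78) (nat_lit 76) (nat_lit 0) (XT.lf (nat_lit 0) (nat_lit 137133503740) (nat_lit 76) (nat_lit 281934793236) (nat_lit 76) (nat_lit 17554216867) (nat_lit 57) (nat_lit 4) (nat_lit 58) (nat_lit 5) (nat_lit 58) (nat_lit 4) (nat_lit 524) (nat_lit 452) (nat_lit 224)) (XT.lf (nat_lit 0) (nat_lit 112436683774) (nat_lit 152) (nat_lit 33885560349) (nat_lit 76) (nat_lit 305001100733) (nat_lit 56) (nat_lit 5) (nat_lit 58) (nat_lit 5) (nat_lit 57) (nat_lit 4) (nat_lit 525) (nat_lit 452) (nat_lit 223))) (XT.nd (nat_lit 78) (nat_lit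 76) (nat_lit 0) (XT.lf (nat_lit 0) (nat_lit 252292005120) (nat_lit 152) (nat_lit 213754448296) (nat_lit 0) (nat_lit 500634679) (nat_lit 55) (nat_lit 5) (nat_lit 57) (nat_lit 4) (nat_lit 55) (nat_lit 4) (nat_lit 526) (nat_lit 452) (nat_lit 222)) (XT.lf (nat_lit 0) (nat_lit 72386146091) (nat_lit 76) (nat_lit 330865902733) (nat_lit 76) (nat_lit 79074371861) (nat_lit 54) (nat_lit 4) (nat_lit 55) (nat_lit 5) (nat_lit 55) (nat_lit 4) (nat_lit 527) (nat_lit 452) (nat_lit 221))))) (XT.nd (nat_lit 312) (nat_lit 228) (nat_lit 0) (XT.nd (nat_lit 156) (nat_lit 152) (nat_lit 0) (XT.nd (nat_lit 78) (nat_lit 76) (nat_lit 0) (XT.lf (nat_lit 0) (nat_lit 64532474652) (nat_lit 152) (nat_lit 119500110625) (nat_lit 76) (nat_lit 314629100172) (nat_lit 53) (nat_lit 5) (nat_lit 55) (nat_lit 5) (nat_lit 54) (nat_lit 4) (nat_lit 528) (nat_lit 452) (nat_lit 220)) (XT.lf (nat_lit 0) (nat_lit 190254733400) (nat_lit 76) (nat_lit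 25377736150) (nat_lit 152) (nat_lit 299967917669) (nat_lit 52) (nat_lit 5) (nat_lit 53) (nat_lit 5) (nat_lit 54) (nat_lit 4) (nat_lit 529) (nat_lit 452) (nat_lit 219))) (XT.nd (nat_lit 78) (nat_lit 152) (nat_lit 0) (XT.lf (nat_lit 0) (nat_lit 378548929246) (nat_lit 152) (nat_lit 15876966398) (nat_lit 0) (nat_lit 138747055183) (nat_lit 52) (nat_lit 5) (nat_lit 54) (nat_lit 4) (nat_lit 52) (nat_lit 4) (nat_lit 530) (nat_lit 452) (nat_lit 218)) (XT.lf (nat_lit 0) (nat_lit 3533980576) (nat_lit 152) (nat_lit 232557339582) (nat_lit 76) (nat_lit 315260269588) (nat_lit 50) (nat_lit 5) (nat_lit 52) (nat_lit 5) (nat_lit 51) (nat_lit 4) (nat_lit 531) (nat_lit 452) (nat_lit 217)))) (XT.nd (nat_lit 156) (nat_lit 152) (nat_lit 0) (XT.nd (nat_lit 78) (nat_lit 0) (nat_lit 0) (XT.lf (nat_lit 0) (nat_lit 101018157751) (nat_lit 76) (nat_lit 65235636020) (nat_lit 152) (nat_lit 403966111240) (nat_lit 49) (nat_lit 5)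 (nat_lit 50) (nat_lit 5) (nat_lit 51) (nat_lit 4) (nat_lit 532) (nat_lit 452) (nat_lit 216)) (XT.lf (nat_lit 0) (nat_lit 342894859319) (nat_lit 152) (nat_lit 132335733838) (nat_lit 0) (nat_lit 114511779799) (nat_lit 49) (nat_lit 5) (nat_lit 51) (nat_lit 4) (nat_lit 49) (nat_lit 4) (nat_lit 533) (nat_lit 452) (nat_lit 215))) (XT.nd (nat_lit 78) (nat_lit 76) (nat_lit 0) (XT.lf (nat_lit 0) (nat_lit 227588049004) (nat_lit 76) (nat_lit 305402485214) (nat_lit 76) (nat_lit 77019302278) (nat_lit 48) (nat_lit 4) (nat_lit 49) (nat_lit 5) (nat_lit 49) (nat_lit 4) (nat_lit 534) (nat_lit 452) (nat_lit 214)) (XT.lf (nat_lit 0) (nat_lit 100335819281) (nat_lit 152) (nat_lit 22694851898) (nat_lit 76) (nat_lit 508067035814) (nat_lit 47) (nat_lit 5) (nat_lit 49) (nat_lit 5) (nat_lit 48) (nat_lit 4) (nat_lit 535) (nat_lit 452) (nat_lit 213)))))) (XT.nd (nat_lit 624) (nat_lit 380) (nat_lit 0) (XT.nd (nat_lit 312) (nat_lit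 228) (nat_lit 0) (XT.nd (nat_lit 156) (nat_lit 152) (nat_lit 0) (XT.nd (nat_lit 78) (nat_lit 76) (nat_lit 0) (XT.lf (nat_lit 0) (nat_lit 290858998517) (nat_lit 152) (nat_lit 288622387055) (nat_lit 0) (nat_lit 73351022111) (nat_lit 46) (nat_lit 5) (nat_lit 48) (nat_lit 4) (nat_lit 46) (nat_lit 4) (nat_lit 536) (nat_lit 452) (nat_lit 212)) (XT.lf (nat_lit 0) (nat_lit 96684414789) (nat_lit 76) (nat_lit 398140822537) (nat_lit 76) (nat_lit 180632761050) (nat_lit 45) (nat_lit 4) (nat_lit 46) (nat_lit 5) (nat_lit 46) (nat_lit 4) (nat_lit 537) (nat_lit 452) (nat_lit 211))) (XT.nd (nat_lit 78) (nat_lit 76) (nat_lit 0) (XT.lf (nat_lit 0) (nat_lit 14429992006) (nat_lit 152) (nat_lit 187926658901) (nat_lit 76) (nat_lit 496602190453) (nat_lit 44) (nat_lit 5) (nat_lit 46) (nat_lit 5) (nat_lit 45) (nat_lit 4) (nat_lit 538) (nat_lit 452) (nat_lit 210)) (XT.lf (nat_lit 0) (nat_lit 216872428681) (nat_lit 152) (nat_lit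 496707645347) (nat_lit 0) (nat_lit 9721743266) (nat_lit 43) (nat_lit 5) (nat_lit 45) (nat_lit 4) (nat_lit 43) (nat_lit 4) (nat_lit 539) (nat_lit 452) (nat_lit 209)))) (XT.nd (nat_lit 156) (nat_lit 152) (nat_lit 0) (XT.nd (nat_lit 78) (nat_lit 76) (nat_lit 0) (XT.lf (nat_lit 0) (nat_lit 435988961041) (nat_lit 152) (nat_lit 83707176660) (nat_lit 0) (nat_lit 228838205631) (nat_lit 43) (nat_lit 5) (nat_lit 45) (nat_lit 4) (nat_lit 43) (nat_lit 4) (nat_lit 540) (nat_lit 452) (nat_lit 208)) (XT.lf (nat_lit 0) (nat_lit 361513723472) (nat_lit 76) (nat_lit 310191694683) (nat_lit 76) (nat_lit 103040872611) (nat_lit 42) (nat_lit 4) (nat_lit 43) (nat_lit 5) (nat_lit 43) (nat_lit 4) (nat_lit 541) (nat_lit 452) (nat_lit 207))) (XT.nd (nat_lit 78) (nat_lit 0) (nat_lit 0) (XT.lf (nat_lit 0) (nat_lit 28775564022) (nat_lit 76) (nat_lit 86310508944) (nat_lit 152) (nat_lit 686996976223) (nat_lit 40) (nat_lit 5) (nat_lit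 41) (nat_lit 5) (nat_lit 42) (nat_lit 4) (nat_lit 542) (nat_lit 452) (nat_lit 206)) (XT.lf (nat_lit 0) (nat_lit 350092026948) (nat_lit 152) (nat_lit 327332971663) (nat_lit 0) (nat_lit 152805411685) (nat_lit 40) (nat_lit 5) (nat_lit 42) (nat_lit 4) (nat_lit 40) (nat_lit 4) (nat_lit 543) (nat_lit 452) (nat_lit 205))))) (XT.nd (nat_lit 312) (nat_lit 152) (nat_lit 0) (XT.nd (nat_lit 156) (nat_lit 152) (nat_lit 0) (XT.nd (nat_lit 78) (nat_lit 0) (nat_lit 0) (XT.lf (nat_lit 0) (nat_lit 144138394554) (nat_lit 76) (nat_lit 456375077665) (nat_lit 76) (nat_lit 259088407559) (nat_lit 39) (nat_lit 4) (nat_lit 40) (nat_lit 5) (nat_lit 40) (nat_lit 4) (nat_lit 544) (nat_lit 452) (nat_lit 204)) (XT.lf (nat_lit 0) (nat_lit 650547319788) (nat_lit 76) (nat_lit 218452077456) (nat_lit 76) (nat_lit 21165355118) (nat_lit 39) (nat_lit 4) (nat_lit 40) (nat_lit 5) (nat_lit 40) (nat_lit 4) (nat_lit 545) (nat_lit 452) (nat_lit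 203))) (XT.nd (nat_lit 78) (nat_lit 0) (nat_lit 0) (XT.lf (nat_lit 0) (nat_lit 226087727944) (nat_lit 152) (nat_lit 657556368745) (nat_lit 0) (nat_lit 38195564057) (nat_lit 37) (nat_lit 5) (nat_lit 39) (nat_lit 4) (nat_lit 37) (nat_lit 4) (nat_lit 546) (nat_lit 452) (nat_lit 202)) (XT.lf (nat_lit 0) (nat_lit 492697784097) (nat_lit 152) (nat_lit 157192326029) (nat_lit 0) (nat_lit 304805575089) (nat_lit 37) (nat_lit 5) (nat_lit 39) (nat_lit 4) (nat_lit 37) (nat_lit 4) (nat_lit 547) (nat_lit 452) (nat_lit 201)))) (XT.nd (nat_lit 55068) (nat_lit 0) (nat_lit 9728) (XT.nd (nat_lit 78) (nat_lit 76) (nat_lit 0) (XT.lf (nat_lit 0) (nat_lit 380363682064) (nat_lit 76) (nat_lit 398213079938) (nat_lit 76) (nat_lit 210320827959) (nat_lit 36) (nat_lit 4) (nat_lit 37) (nat_lit 5) (nat_lit 37) (nat_lit 4) (nat_lit 548) (nat_lit 452) (nat_lit 200)) (XT.lf (nat_lit 0) (nat_lit 54919324347) (nat_lit 152) (nat_lit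 75307677991) (nat_lit 76) (nat_lit 894405197526) (nat_lit 35) (nat_lit 5) (nat_lit 37) (nat_lit 5) (nat_lit 36) (nat_lit 4) (nat_lit 549) (nat_lit 452) (nat_lit 199))) (XT.nd (nat_lit 78) (nat_lit 0) (nat_lit 0) (XT.lf (nat_lit 0) (nat_lit 11783844200) (nat_lit 836) (nat_lit 7581960654) (nat_lit 836) (nat_lit 7581960654) (nat_lit 163) (nat_lit 3) (nat_lit 174) (nat_lit 3) (nat_lit 174) (nat_lit 5) (nat_lit 453) (nat_lit 453) (nat_lit 294)) (XT.nd (nat_lit 78) (nat_lit 0) (nat_lit 76) (XT.lf (nat_lit 76) (nat_lit 12060698975) (nat_lit 0) (nat_lit 12306656114) (nat_lit 836) (nat_lit 30865038770) (nat_lit 164) (nat_lit 5) (nat_lit 163) (nat_lit 3) (nat_lit 174) (nat_lit 5) (nat_lit 454) (nat_lit 453) (nat_lit 293)) (XT.lf (nat_lit 0) (nat_lit 25707656950) (nat_lit 760) (nat_lit 15696368450) (nat_lit 836) (nat_lit 15207041959) (nat_lit 164) (nat_lit 5) (nat_lit 174) (nat_lit 5) (nat_lit 175) (nat_lit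 5) (nat_lit 455) (nat_lit 453) (nat_lit 292))))))))
noncomputable def xc392 : XT := (XT.nd (nat_lit 1248) (nat_lit 2508) (nat_lit 0) (XT.nd (nat_lit 624) (nat_lit 2052) (nat_lit 0) (XT.nd (nat_lit 312) (nat_lit 0) (nat_lit 152) (XT.nd (nat_lit 156) (nat_lit 0) (nat_lit 76) (XT.nd (nat_lit 78) (nat_lit 0) (nat_lit 76) (XT.lf (nat_lit 76) (nat_lit 13378355467) (nat_lit 0) (nat_lit 14145887136) (nat_lit 836) (nat_lit 30513968601) (nat_lit 165) (nat_lit 5) (nat_lit 164) (nat_lit 5) (nat_lit 175) (nat_lit 5) (nat_lit 456) (nat_lit 453) (nat_lit 291)) (XT.lf (nat_lit 0) (nat_lit 29926545173) (nat_lit 760) (nat_lit 15302889730) (nat_lit 836) (nat_lit 14282533054) (nat_lit 165) (nat_lit 5) (nat_lit 175) (nat_lit 5) (nat_lit 176) (nat_lit 5) (nat_lit 457) (nat_lit 453) (nat_lit 290))) (XT.nd (nat_lit 78) (nat_lit 0) (nat_lit 76) (XT.lf (nat_lit 76) (nat_lit 15794724869) (nat_lit 0) (nat_lit 17131505766)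 (nat_lit 836) (nat_lit 28109318621) (nat_lit 166) (nat_lit 5) (nat_lit 165) (nat_lit 5) (nat_lit 176) (nat_lit 5) (nat_lit 458) (nat_lit 453) (nat_lit 289)) (XT.lf (nat_lit 0) (nat_lit 36531281486) (nat_lit 760) (nat_lit 13842130612) (nat_lit 836) (nat_lit 12239128555) (nat_lit 166) (nat_lit 5) (nat_lit 176) (nat_lit 5) (nat_lit 177) (nat_lit 5) (nat_lit 459) (nat_lit 453) (nat_lit 288)))) (XT.nd (nat_lit 156) (nat_lit 0) (nat_lit 76) (XT.nd (nat_lit 78) (nat_lit 0) (nat_lit 76) (XT.lf (nat_lit 76) (nat_lit 19467908594) (nat_lit 0) (nat_lit 21432345202) (nat_lit 836) (nat_lit 23338944465) (nat_lit 167) (nat_lit 5) (nat_lit 166) (nat_lit 5) (nat_lit 177) (nat_lit 5) (nat_lit 460) (nat_lit 453) (nat_lit 287)) (XT.lf (nat_lit 0) (nat_lit 45864686248) (nat_lit 760) (nat_lit 11156002345) (nat_lit 836) (nat_lit 8907649661) (nat_lit 167) (nat_lit 5) (nat_lit 177) (nat_lit 5) (nat_lit 178) (nat_lit 5)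 (nat_lit 461) (nat_lit 453) (nat_lit 286))) (XT.nd (nat_lit 78) (nat_lit 0) (nat_lit 76) (XT.lf (nat_lit 76) (nat_lit 24574391233) (nat_lit 0) (nat_lit 27236946123) (nat_lit 836) (nat_lit 15853898116) (nat_lit 168) (nat_lit 5) (nat_lit 167) (nat_lit 5) (nat_lit 178) (nat_lit 5) (nat_lit 462) (nat_lit 453) (nat_lit 285)) (XT.lf (nat_lit 0) (nat_lit 58309374147) (nat_lit 760) (nat_lit 7067906317) (nat_lit 76) (nat_lit 4098994507) (nat_lit 168) (nat_lit 5) (nat_lit 178) (nat_lit 5) (nat_lit 169) (nat_lit 5) (nat_lit 463) (nat_lit 453) (nat_lit 284))))) (XT.nd (nat_lit 312) (nat_lit 684) (nat_lit 0) (XT.nd (nat_lit 156) (nat_lit 836) (nat_lit 0) (XT.nd (nat_lit 78) (nat_lit 76) (nat_lit 0) (XT.lf (nat_lit 0) (nat_lit 31310979188) (nat_lit 760) (nat_lit 34755750714) (nat_lit 836) (nat_lit 5264415755) (nat_lit 158) (nat_lit 5) (nat_lit 168) (nat_lit 5) (nat_lit 169) (nat_lit 5) (nat_lit 464) (nat_lit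 453) (nat_lit 283)) (XT.lf (nat_lit 0) (nat_lit 1024060905) (nat_lit 836) (nat_lit 1435972280) (nat_lit 76) (nat_lit 70811961502) (nat_lit 157) (nat_lit 5) (nat_lit 168) (nat_lit 5) (nat_lit 158) (nat_lit 5) (nat_lit 465) (nat_lit 453) (nat_lit 282))) (XT.nd (nat_lit 78) (nat_lit 380) (nat_lit 0) (XT.lf (nat_lit 0) (nat_lit 8580792528) (nat_lit 532) (nat_lit 35497416273) (nat_lit 76) (nat_lit 31170824832) (nat_lit 151) (nat_lit 5) (nat_lit 158) (nat_lit 5) (nat_lit 152) (nat_lit 5) (nat_lit 466) (nat_lit 453) (nat_lit 281)) (XT.lf (nat_lit 0) (nat_lit 5871069919) (nat_lit 380) (nat_lit 10800149596) (nat_lit 456) (nat_lit 60645912130) (nat_lit 146) (nat_lit 5) (nat_lit 151) (nat_lit 5) (nat_lit 152) (nat_lit 5) (nat_lit 467) (nat_lit 453) (nat_lit 280)))) (XT.nd (nat_lit 156) (nat_lit 304) (nat_lit 0) (XT.nd (nat_lit 78) (nat_lit 380) (nat_lit 0) (XT.lf (nat_lit 0) (nat_lit 26153286669) (nat_lit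 456) (nat_lit 29305855213) (nat_lit 76) (nat_lit 23980136790) (nat_lit 146) (nat_lit 5) (nat_lit 152) (nat_lit 5) (nat_lit 147) (nat_lit 5) (nat_lit 468) (nat_lit 453) (nat_lit 279)) (XT.lf (nat_lit 0) (nat_lit 15251625859) (nat_lit 380) (nat_lit 21272219162) (nat_lit 456) (nat_lit 45122968690) (nat_lit 141) (nat_lit 5) (nat_lit 146) (nat_lit 5) (nat_lit 147) (nat_lit 5) (nat_lit 469) (nat_lit 453) (nat_lit 278))) (XT.nd (nat_lit 78) (nat_lit 304) (nat_lit 0) (XT.lf (nat_lit 0) (nat_lit 48144938000) (nat_lit 456) (nat_lit 21122809700) (nat_lit 76) (nat_lit 14660377517) (nat_lit 141) (nat_lit 5) (nat_lit 147) (nat_lit 5) (nat_lit 142) (nat_lit 5) (nat_lit 470) (nat_lit 453) (nat_lit 277)) (XT.lf (nat_lit 0) (nat_lit 26925429954) (nat_lit 304) (nat_lit 34190037483) (nat_lit 380) (nat_lit 25169615817) (nat_lit 137) (nat_lit 5) (nat_lit 141) (nat_lit 5) (nat_lit 142) (nat_lit 5) (nat_lit 471) (nat_lit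 453) (nat_lit 276)))))) (XT.nd (nat_lit 624) (nat_lit 1216) (nat_lit 0) (XT.nd (nat_lit 312) (nat_lit 608) (nat_lit 0) (XT.nd (nat_lit 156) (nat_lit 380) (nat_lit 0) (XT.nd (nat_lit 78) (nat_lit 304) (nat_lit 0) (XT.lf (nat_lit 0) (nat_lit 75138650756) (nat_lit 380) (nat_lit 10680526475) (nat_lit 76) (nat_lit 2920505639) (nat_lit 137) (nat_lit 5) (nat_lit 142) (nat_lit 5) (nat_lit 138) (nat_lit 5) (nat_lit 472) (nat_lit 453) (nat_lit 275)) (XT.lf (nat_lit 0) (nat_lit 41189593346) (nat_lit 304) (nat_lit 49876306759) (nat_lit 380) (nat_lit 190967061) (nat_lit 133) (nat_lit 5) (nat_lit 137) (nat_lit 5) (nat_lit 138) (nat_lit 5) (nat_lit 473) (nat_lit 453) (nat_lit 274))) (XT.nd (nat_lit 78) (nat_lit 0) (nat_lit 0) (XT.lf (nat_lit 0) (nat_lit 1975768072) (nat_lit 304) (nat_lit 11683310063) (nat_lit 380) (nat_lit 80219288258) (nat_lit 128) (nat_lit 5) (nat_lit 132) (nat_lit 5) (nat_lit 133) (nat_lit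 5) (nat_lit 474) (nat_lit 453) (nat_lit 273)) (XT.lf (nat_lit 0) (nat_lit 29500082355) (nat_lit 380) (nat_lit 38690917568) (nat_lit 76) (nat_lit 28374540440) (nat_lit 128) (nat_lit 5) (nat_lit 133) (nat_lit 5) (nat_lit 129) (nat_lit 5) (nat_lit 475) (nat_lit 453) (nat_lit 272)))) (XT.nd (nat_lit 156) (nat_lit 304) (nat_lit 0) (XT.nd (nat_lit 78) (nat_lit 0) (nat_lit 0) (XT.lf (nat_lit 0) (nat_lit 17550769792) (nat_lit 304) (nat_lit 29047299360) (nat_lit 380) (nat_lit 52765757295) (nat_lit 124) (nat_lit 5) (nat_lit 128) (nat_lit 5) (nat_lit 129) (nat_lit 5) (nat_lit 476) (nat_lit 453) (nat_lit 271)) (XT.lf (nat_lit 0) (nat_lit 65404537279) (nat_lit 380) (nat_lit 24521190172) (nat_lit 76) (nat_lit 12333620320) (nat_lit 124) (nat_lit 5) (nat_lit 129) (nat_lit 5) (nat_lit 125) (nat_lit 5) (nat_lit 477) (nat_lit 453) (nat_lit 270))) (XT.nd (nat_lit 78) (nat_lit 76) (nat_lit 0) (XT.lf (nat_lit 0) (nat_lit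 36320818798) (nat_lit 228) (nat_lit 49873194090) (nat_lit 304) (nat_lit 19053498103) (nat_lit 121) (nat_lit 5) (nat_lit 124) (nat_lit 5) (nat_lit 125) (nat_lit 5) (nat_lit 478) (nat_lit 453) (nat_lit 269)) (XT.lf (nat_lit 0) (nat_lit 70991540) (nat_lit 304) (nat_lit 7309989110) (nat_lit 76) (nat_lit 100983308358) (nat_lit 120) (nat_lit 5) (nat_lit 124) (nat_lit 5) (nat_lit 121) (nat_lit 5) (nat_lit 479) (nat_lit 453) (nat_lit 268))))) (XT.nd (nat_lit 312) (nat_lit 456) (nat_lit 0) (XT.nd (nat_lit 156) (nat_lit 228) (nat_lit 0) (XT.nd (nat_lit 78) (nat_lit 228) (nat_lit 0) (XT.lf (nat_lit 0) (nat_lit 21032965975) (nat_lit 380) (nat_lit 53215244212) (nat_lit 76) (nat_lit 37296999007) (nat_lit 116) (nat_lit 5) (nat_lit 121) (nat_lit 5) (nat_lit 117) (nat_lit 5) (nat_lit 480) (nat_lit 453) (nat_lit 267)) (XT.lf (nat_lit 0) (nat_lit 12916352324) (nat_lit 228) (nat_lit 30574648368) (nat_lit 304) (nat_lit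 71371776647) (nat_lit 113) (nat_lit 5) (nat_lit 116) (nat_lit 5) (nat_lit 117) (nat_lit 5) (nat_lit 481) (nat_lit 453) (nat_lit 266))) (XT.nd (nat_lit 78) (nat_lit 228) (nat_lit 0) (XT.lf (nat_lit 0) (nat_lit 68226025397) (nat_lit 304) (nat_lit 34353249493) (nat_lit 76) (nat_lit 15709244613) (nat_lit 113) (nat_lit 5) (nat_lit 117) (nat_lit 5) (nat_lit 114) (nat_lit 5) (nat_lit 482) (nat_lit 453) (nat_lit 265)) (XT.lf (nat_lit 0) (nat_lit 37311858875) (nat_lit 228) (nat_lit 57969217521) (nat_lit 304) (nat_lit 26550308650) (nat_lit 110) (nat_lit 5) (nat_lit 113) (nat_lit 5) (nat_lit 114) (nat_lit 5) (nat_lit 483) (nat_lit 453) (nat_lit 264)))) (XT.nd (nat_lit 156) (nat_lit 228) (nat_lit 0) (XT.nd (nat_lit 78) (nat_lit 228) (nat_lit 0) (XT.lf (nat_lit 0) (nat_lit 113752186753) (nat_lit 228) (nat_lit 10518003147) (nat_lit 304) (nat_lit 1252138492) (nat_lit 110) (nat_lit 5) (nat_lit 113) (nat_lit 5)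 (nat_lit 114) (nat_lit 5) (nat_lit 484) (nat_lit 453) (nat_lit 263)) (XT.lf (nat_lit 0) (nat_lit 26173317308) (nat_lit 228) (nat_lit 63619137305) (nat_lit 76) (nat_lit 39501981313) (nat_lit 107) (nat_lit 5) (nat_lit 110) (nat_lit 5) (nat_lit 108) (nat_lit 5) (nat_lit 485) (nat_lit 453) (nat_lit 262))) (XT.nd (nat_lit 78) (nat_lit 0) (nat_lit 0) (XT.lf (nat_lit 0) (nat_lit 14421113098) (nat_lit 228) (nat_lit 41106578259) (nat_lit 304) (nat_lit 77696444880) (nat_lit 104) (nat_lit 5) (nat_lit 107) (nat_lit 5) (nat_lit 108) (nat_lit 5) (nat_lit 486) (nat_lit 453) (nat_lit 261)) (XT.lf (nat_lit 0) (nat_lit 87600759642) (nat_lit 304) (nat_lit 38899065073) (nat_lit 76) (nat_lit 10787948091) (nat_lit 104) (nat_lit 5) (nat_lit 108) (nat_lit 5) (nat_lit 105) (nat_lit 5) (nat_lit 487) (nat_lit 453) (nat_lit 260)))))))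
noncomputable def xc393 : XT := (XT.nd (nat_lit 1248) (nat_lit 1444) (nat_lit 0) (XT.nd (nat_lit 624) (nat_lit 836) (nat_lit 0) (XT.nd (nat_lit 312) (nat_lit 380) (nat_lit 0) (XT.nd (nat_lit 156) (nat_lit 380) (nat_lit 0) (XT.nd (nat_lit 78) (nat_lit 76) (nat_lit 0) (XT.lf (nat_lit 0) (nat_lit 45791148137) (nat_lit 152) (nat_lit 76874712821) (nat_lit 228) (nat_lit 18819311284) (nat_lit 102) (nat_lit 5) (nat_lit 104) (nat_lit 5) (nat_lit 105) (nat_lit 5) (nat_lit 488) (nat_lit 453) (nat_lit 259)) (XT.lf (nat_lit 0) (nat_lit 13825904420) (nat_lit 228) (nat_lit 10016818906) (nat_lit 76) (nat_lit 122005650532) (nat_lit 101) (nat_lit 5) (nat_lit 104) (nat_lit 5) (nat_lit 102) (nat_lit 5) (nat_lit 489) (nat_lit 453) (nat_lit 258))) (XT.nd (nat_lit 78) (nat_lit 152) (nat_lit 0) (XT.lf (nat_lit 0) (nat_lit 49278197610) (nat_lit 304) (nat_lit 68605152995) (nat_lit 76) (nat_lit 32440595851) (nat_lit 98)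 (nat_lit 5) (nat_lit 102) (nat_lit 5) (nat_lit 99) (nat_lit 5) (nat_lit 490) (nat_lit 453) (nat_lit 257)) (XT.lf (nat_lit 0) (nat_lit 23739659918) (nat_lit 152) (nat_lit 63696975419) (nat_lit 228) (nat_lit 67539985869) (nat_lit 96) (nat_lit 5) (nat_lit 98) (nat_lit 5) (nat_lit 99) (nat_lit 5) (nat_lit 491) (nat_lit 453) (nat_lit 256)))) (XT.nd (nat_lit 156) (nat_lit 152) (nat_lit 0) (XT.nd (nat_lit 78) (nat_lit 228) (nat_lit 0) (XT.lf (nat_lit 0) (nat_lit 123082895623) (nat_lit 152) (nat_lit 5581572118) (nat_lit 228) (nat_lit 31139388327) (nat_lit 96) (nat_lit 5) (nat_lit 98) (nat_lit 5) (nat_lit 99) (nat_lit 5) (nat_lit 492) (nat_lit 453) (nat_lit 255)) (XT.lf (nat_lit 0) (nat_lit 8744704484) (nat_lit 228) (nat_lit 101227279463) (nat_lit 76) (nat_lit 54800435376) (nat_lit 93) (nat_lit 5) (nat_lit 96) (nat_lit 5) (nat_lit 94) (nat_lit 5) (nat_lit 493) (nat_lit 453) (nat_lit 254))) (XT.nd (nat_lit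 78) (nat_lit 152) (nat_lit 0) (XT.lf (nat_lit 0) (nat_lit 50299726069) (nat_lit 228) (nat_lit 471701063) (nat_lit 76) (nat_lit 119156298943) (nat_lit 93) (nat_lit 5) (nat_lit 96) (nat_lit 5) (nat_lit 94) (nat_lit 5) (nat_lit 494) (nat_lit 453) (nat_lit 253)) (XT.lf (nat_lit 0) (nat_lit 95836532705) (nat_lit 228) (nat_lit 66658085459) (nat_lit 76) (nat_lit 12750978315) (nat_lit 91) (nat_lit 5) (nat_lit 94) (nat_lit 5) (nat_lit 92) (nat_lit 5) (nat_lit 495) (nat_lit 453) (nat_lit 252))))) (XT.nd (nat_lit 312) (nat_lit 304) (nat_lit 0) (XT.nd (nat_lit 156) (nat_lit 304) (nat_lit 0) (XT.nd (nat_lit 78) (nat_lit 76) (nat_lit 0) (XT.lf (nat_lit 0) (nat_lit 42824712541) (nat_lit 152) (nat_lit 102334169095) (nat_lit 228) (nat_lit 35595043680) (nat_lit 89) (nat_lit 5) (nat_lit 91) (nat_lit 5) (nat_lit 92) (nat_lit 5) (nat_lit 496) (nat_lit 453) (nat_lit 251)) (XT.lf (nat_lit 0) (nat_lit 11223548156) (nat_lit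 228) (nat_lit 26566985482) (nat_lit 76) (nat_lit 148681658483) (nat_lit 88) (nat_lit 5) (nat_lit 91) (nat_lit 5) (nat_lit 89) (nat_lit 5) (nat_lit 497) (nat_lit 453) (nat_lit 250))) (XT.nd (nat_lit 78) (nat_lit 152) (nat_lit 0) (XT.lf (nat_lit 0) (nat_lit 61135941078) (nat_lit 228) (nat_lit 100128420273) (nat_lit 76) (nat_lit 31085379740) (nat_lit 86) (nat_lit 5) (nat_lit 89) (nat_lit 5) (nat_lit 87) (nat_lit 5) (nat_lit 498) (nat_lit 453) (nat_lit 249)) (XT.lf (nat_lit 0) (nat_lit 19365054599) (nat_lit 152) (nat_lit 95557731411) (nat_lit 228) (nat_lit 83529439892) (nat_lit 84) (nat_lit 5) (nat_lit 86) (nat_lit 5) (nat_lit 87) (nat_lit 5) (nat_lit 499) (nat_lit 453) (nat_lit 248)))) (XT.nd (nat_lit 156) (nat_lit 152) (nat_lit 0) (XT.nd (nat_lit 78) (nat_lit 152) (nat_lit 0) (XT.lf (nat_lit 0) (nat_lit 148308872870) (nat_lit 152) (nat_lit 24785502466) (nat_lit 228) (nat_lit 31680689519) (nat_lit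 84) (nat_lit 5) (nat_lit 86) (nat_lit 5) (nat_lit 87) (nat_lit 5) (nat_lit 500) (nat_lit 453) (nat_lit 247)) (XT.lf (nat_lit 0) (nat_lit 23989939845) (nat_lit 152) (nat_lit 137828092550) (nat_lit 76) (nat_lit 49480349631) (nat_lit 82) (nat_lit 5) (nat_lit 84) (nat_lit 5) (nat_lit 83) (nat_lit 5) (nat_lit 501) (nat_lit 453) (nat_lit 246))) (XT.nd (nat_lit 78) (nat_lit 152) (nat_lit 0) (XT.lf (nat_lit 0) (nat_lit 82757392459) (nat_lit 152) (nat_lit 7177978536) (nat_lit 76) (nat_lit 128117627756) (nat_lit 82) (nat_lit 5) (nat_lit 84) (nat_lit 5) (nat_lit 83) (nat_lit 5) (nat_lit 502) (nat_lit 453) (nat_lit 245)) (XT.lf (nat_lit 0) (nat_lit 134302641342) (nat_lit 152) (nat_lit 12257123581) (nat_lit 228) (nat_lit 78480754035) (nat_lit 80) (nat_lit 5) (nat_lit 82) (nat_lit 5) (nat_lit 83) (nat_lit 5) (nat_lit 503) (nat_lit 453) (nat_lit 244)))))) (XT.nd (nat_lit 624) (nat_lit 760) (nat_lit 0) (XT.nd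 (nat_lit 312) (nat_lit 304) (nat_lit 0) (XT.nd (nat_lit 156) (nat_lit 228) (nat_lit 0) (XT.nd (nat_lit 78) (nat_lit 76) (nat_lit 0) (XT.lf (nat_lit 0) (nat_lit 51292267083) (nat_lit 76) (nat_lit 164266115168) (nat_lit 152) (nat_lit 16718726619) (nat_lit 79) (nat_lit 5) (nat_lit 80) (nat_lit 5) (nat_lit 81) (nat_lit 4) (nat_lit 504) (nat_lit 453) (nat_lit 243)) (XT.lf (nat_lit 0) (nat_lit 48353424761) (nat_lit 152) (nat_lit 37202681320) (nat_lit 76) (nat_lit 154193722496) (nat_lit 78) (nat_lit 5) (nat_lit 80) (nat_lit 5) (nat_lit 79) (nat_lit 5) (nat_lit 505) (nat_lit 453) (nat_lit 242))) (XT.nd (nat_lit 78) (nat_lit 76) (nat_lit 0) (XT.lf (nat_lit 0) (nat_lit 117246632616) (nat_lit 152) (nat_lit 700964670) (nat_lit 228) (nat_lit 129543369495) (nat_lit 76) (nat_lit 5) (nat_lit 78) (nat_lit 5) (nat_lit 79) (nat_lit 5) (nat_lit 506) (nat_lit 453) (nat_lit 241)) (XT.lf (nat_lit 0) (nat_lit 24516056649)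 (nat_lit 76) (nat_lit 168908409898) (nat_lit 152) (nat_lit 62074545947) (nat_lit 75) (nat_lit 5) (nat_lit 76) (nat_lit 5) (nat_lit 77) (nat_lit 4) (nat_lit 507) (nat_lit 453) (nat_lit 240)))) (XT.nd (nat_lit 156) (nat_lit 76) (nat_lit 0) (XT.nd (nat_lit 78) (nat_lit 152) (nat_lit 0) (XT.lf (nat_lit 0) (nat_lit 10740225690) (nat_lit 152) (nat_lit 72445960920) (nat_lit 76) (nat_lit 180601773022) (nat_lit 74) (nat_lit 5) (nat_lit 76) (nat_lit 5) (nat_lit 75) (nat_lit 5) (nat_lit 508) (nat_lit 453) (nat_lit 239)) (XT.lf (nat_lit 0) (nat_lit 86757142223) (nat_lit 228) (nat_lit 176438487448) (nat_lit 76) (nat_lit 9162467780) (nat_lit 72) (nat_lit 5) (nat_lit 75) (nat_lit 5) (nat_lit 73) (nat_lit 4) (nat_lit 509) (nat_lit 453) (nat_lit 238))) (XT.nd (nat_lit 78) (nat_lit 76) (nat_lit 0) (XT.lf (nat_lit 0) (nat_lit 169185374601) (nat_lit 228) (nat_lit 7461080376) (nat_lit 76) (nat_lit 104579763688) (nat_lit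 72) (nat_lit 5) (nat_lit 75) (nat_lit 5) (nat_lit 73) (nat_lit 4) (nat_lit 510) (nat_lit 453) (nat_lit 237)) (XT.lf (nat_lit 0) (nat_lit 175584539802) (nat_lit 76) (nat_lit 82891599253) (nat_lit 152) (nat_lit 31924550865) (nat_lit 71) (nat_lit 5) (nat_lit 72) (nat_lit 5) (nat_lit 73) (nat_lit 4) (nat_lit 511) (nat_lit 453) (nat_lit 236))))) (XT.nd (nat_lit 312) (nat_lit 304) (nat_lit 0) (XT.nd (nat_lit 156) (nat_lit 228) (nat_lit 0) (XT.nd (nat_lit 78) (nat_lit 0) (nat_lit 0) (XT.lf (nat_lit 0) (nat_lit 52014929340) (nat_lit 228) (nat_lit 230790319551) (nat_lit 76) (nat_lit 17113487337) (nat_lit 68) (nat_lit 5) (nat_lit 71) (nat_lit 5) (nat_lit 69) (nat_lit 4) (nat_lit 512) (nat_lit 453) (nat_lit 235)) (XT.lf (nat_lit 0) (nat_lit 142413487309) (nat_lit 228) (nat_lit 45473661812) (nat_lit 76) (nat_lit 121832619169) (nat_lit 68) (nat_lit 5) (nat_lit 71) (nat_lit 5) (nat_lit 69) (nat_lit 4) (nat_lit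 513) (nat_lit 453) (nat_lit 234))) (XT.nd (nat_lit 78) (nat_lit 152) (nat_lit 0) (XT.lf (nat_lit 0) (nat_lit 154038586404) (nat_lit 76) (nat_lit 85698128186) (nat_lit 152) (nat_lit 80153900298) (nat_lit 67) (nat_lit 5) (nat_lit 68) (nat_lit 5) (nat_lit 69) (nat_lit 4) (nat_lit 514) (nat_lit 453) (nat_lit 233)) (XT.lf (nat_lit 0) (nat_lit 12691782829) (nat_lit 152) (nat_lit 295336158255) (nat_lit 76) (nat_lit 22448240233) (nat_lit 65) (nat_lit 5) (nat_lit 67) (nat_lit 5) (nat_lit 66) (nat_lit 4) (nat_lit 515) (nat_lit 453) (nat_lit 232)))) (XT.nd (nat_lit 156) (nat_lit 228) (nat_lit 0) (XT.nd (nat_lit 78) (nat_lit 76) (nat_lit 0) (XT.lf (nat_lit 0) (nat_lit 111745539878) (nat_lit 152) (nat_lit 92276273948) (nat_lit 76) (nat_lit 137290538006) (nat_lit 65) (nat_lit 5) (nat_lit 67) (nat_lit 5) (nat_lit 66) (nat_lit 4) (nat_lit 516) (nat_lit 453) (nat_lit 231)) (XT.lf (nat_lit 0) (nat_lit 124934881146)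 (nat_lit 76) (nat_lit 92767467322) (nat_lit 152) (nat_lit 134890464222) (nat_lit 64) (nat_lit 5) (nat_lit 65) (nat_lit 5) (nat_lit 66) (nat_lit 4) (nat_lit 517) (nat_lit 453) (nat_lit 230))) (XT.nd (nat_lit 78) (nat_lit 228) (nat_lit 0) (XT.lf (nat_lit 0) (nat_lit 330920622192) (nat_lit 152) (nat_lit 8550462714) (nat_lit 0) (nat_lit 24868030453) (nat_lit 64) (nat_lit 5) (nat_lit 66) (nat_lit 4) (nat_lit 64) (nat_lit 4) (nat_lit 518) (nat_lit 453) (nat_lit 229)) (XT.nd (nat_lit 78) (nat_lit 76) (nat_lit 0) (XT.lf (nat_lit 0) (nat_lit 75938463389) (nat_lit 152) (nat_lit 150379003115) (nat_lit 76) (nat_lit 150040585226) (nat_lit 62) (nat_lit 5) (nat_lit 64) (nat_lit 5) (nat_lit 63) (nat_lit 4) (nat_lit 519) (nat_lit 453) (nat_lit 228)) (XT.lf (nat_lit 0) (nat_lit 85755278926) (nat_lit 76) (nat_lit 105370760523) (nat_lit 152) (nat_lit 197750210656) (nat_lit 61) (nat_lit 5) (nat_lit 62) (nat_lit 5)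 (nat_lit 63) (nat_lit 4) (nat_lit 520) (nat_lit 453) (nat_lit 227))))))))
noncomputable def xc394 : XT := (XT.nd (nat_lit 1248) (nat_lit 836) (nat_lit 0) (XT.nd (nat_lit 624) (nat_lit 532) (nat_lit 0) (XT.nd (nat_lit 312) (nat_lit 304) (nat_lit 0) (XT.nd (nat_lit 156) (nat_lit 76) (nat_lit 0) (XT.nd (nat_lit 78) (nat_lit 152) (nat_lit 0) (XT.lf (nat_lit 0) (nat_lit 314998877994) (nat_lit 152) (nat_lit 63355678683) (nat_lit 0) (nat_lit 23519507541) (nat_lit 61) (nat_lit 5) (nat_lit 63) (nat_lit 4) (nat_lit 61) (nat_lit 4) (nat_lit 521) (nat_lit 453) (nat_lit 226)) (XT.lf (nat_lit 0) (nat_lit 33413682381) (nat_lit 152) (nat_lit 222981536563) (nat_lit 76) (nat_lit 158862703566) (nat_lit 59) (nat_lit 5) (nat_lit 61) (nat_lit 5) (nat_lit 60) (nat_lit 4) (nat_lit 522) (nat_lit 453) (nat_lit 225))) (XT.nd (nat_lit 78) (nat_lit 0) (nat_lit 0) (XT.lf (nat_lit 0) (nat_lit 33254489441) (nat_lit 76) (nat_lit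 125152476238) (nat_lit 152) (nat_lit 270752321512) (nat_lit 58) (nat_lit 5) (nat_lit 59) (nat_lit 5) (nat_lit 60) (nat_lit 4) (nat_lit 523) (nat_lit 453) (nat_lit 224)) (XT.lf (nat_lit 0) (nat_lit 293685462885) (nat_lit 152) (nat_lit 133783002761) (nat_lit 0) (nat_lit 16085476974) (nat_lit 58) (nat_lit 5) (nat_lit 60) (nat_lit 4) (nat_lit 58) (nat_lit 4) (nat_lit 524) (nat_lit 453) (nat_lit 223)))) (XT.nd (nat_lit 156) (nat_lit 152) (nat_lit 0) (XT.nd (nat_lit 78) (nat_lit 76) (nat_lit 0) (XT.lf (nat_lit 0) (nat_lit 144001793191) (nat_lit 76) (nat_lit 296025856101) (nat_lit 76) (nat_lit 18425693315) (nat_lit 57) (nat_lit 4) (nat_lit 58) (nat_lit 5) (nat_lit 58) (nat_lit 4) (nat_lit 525) (nat_lit 453) (nat_lit 222)) (XT.lf (nat_lit 0) (nat_lit 118064265446) (nat_lit 152) (nat_lit 35568587074) (nat_lit 76) (nat_lit 320256372155) (nat_lit 56) (nat_lit 5) (nat_lit 58) (nat_lit 5) (nat_lit 57) (nat_lit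 4) (nat_lit 526) (nat_lit 453) (nat_lit 221))) (XT.nd (nat_lit 78) (nat_lit 76) (nat_lit 0) (XT.lf (nat_lit 0) (nat_lit 264912336671) (nat_lit 152) (nat_lit 224430903183) (nat_lit 0) (nat_lit 530916033) (nat_lit 55) (nat_lit 5) (nat_lit 57) (nat_lit 4) (nat_lit 55) (nat_lit 4) (nat_lit 527) (nat_lit 453) (nat_lit 220)) (XT.lf (nat_lit 0) (nat_lit 76016539189) (nat_lit 76) (nat_lit 347403743533) (nat_lit 76) (nat_lit 83022177379) (nat_lit 54) (nat_lit 4) (nat_lit 55) (nat_lit 5) (nat_lit 55) (nat_lit 4) (nat_lit 528) (nat_lit 453) (nat_lit 219))))) (XT.nd (nat_lit 312) (nat_lit 228) (nat_lit 0) (XT.nd (nat_lit 156) (nat_lit 152) (nat_lit 0) (XT.nd (nat_lit 78) (nat_lit 76) (nat_lit 0) (XT.lf (nat_lit 0) (nat_lit 67764549642) (nat_lit 152) (nat_lit 125464377972) (nat_lit 76) (nat_lit 330365569502) (nat_lit 53) (nat_lit 5) (nat_lit 55) (nat_lit 5) (nat_lit 54) (nat_lit 4) (nat_lit 529) (nat_lit 453)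 (nat_lit 218)) (XT.lf (nat_lit 0) (nat_lit 199778035057) (nat_lit 76) (nat_lit 26641414593) (nat_lit 152) (nat_lit 314960689059) (nat_lit 52) (nat_lit 5) (nat_lit 53) (nat_lit 5) (nat_lit 54) (nat_lit 4) (nat_lit 530) (nat_lit 453) (nat_lit 217))) (XT.nd (nat_lit 78) (nat_lit 152) (nat_lit 0) (XT.lf (nat_lit 0) (nat_lit 397481554698) (nat_lit 152) (nat_lit 16660575155) (nat_lit 0) (nat_lit 145689209528) (nat_lit 52) (nat_lit 5) (nat_lit 54) (nat_lit 4) (nat_lit 52) (nat_lit 4) (nat_lit 531) (nat_lit 453) (nat_lit 216)) (XT.lf (nat_lit 0) (nat_lit 3715852738) (nat_lit 152) (nat_lit 244174961071) (nat_lit 76) (nat_lit 331028096733) (nat_lit 50) (nat_lit 5) (nat_lit 52) (nat_lit 5) (nat_lit 51) (nat_lit 4) (nat_lit 532) (nat_lit 453) (nat_lit 215)))) (XT.nd (nat_lit 156) (nat_lit 152) (nat_lit 0) (XT.nd (nat_lit 78) (nat_lit 0) (nat_lit 0) (XT.lf (nat_lit 0) (nat_lit 106079145879) (nat_lit 76) (nat_lit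 68492421755) (nat_lit 152) (nat_lit 424159078386) (nat_lit 49) (nat_lit 5) (nat_lit 50) (nat_lit 5) (nat_lit 51) (nat_lit 4) (nat_lit 533) (nat_lit 453) (nat_lit 214)) (XT.lf (nat_lit 0) (nat_lit 360044518644) (nat_lit 152) (nat_lit 138942752455) (nat_lit 0) (nat_lit 120241974656) (nat_lit 49) (nat_lit 5) (nat_lit 51) (nat_lit 4) (nat_lit 49) (nat_lit 4) (nat_lit 534) (nat_lit 453) (nat_lit 213))) (XT.nd (nat_lit 78) (nat_lit 76) (nat_lit 0) (XT.lf (nat_lit 0) (nat_lit 238977061979) (nat_lit 76) (nat_lit 320667831243) (nat_lit 76) (nat_lit 80865193454) (nat_lit 48) (nat_lit 4) (nat_lit 49) (nat_lit 5) (nat_lit 49) (nat_lit 4) (nat_lit 535) (nat_lit 453) (nat_lit 212)) (XT.lf (nat_lit 0) (nat_lit 105357287903) (nat_lit 152) (nat_lit 23820286921) (nat_lit 76) (nat_lit 533474783610) (nat_lit 47) (nat_lit 5) (nat_lit 49) (nat_lit 5) (nat_lit 48) (nat_lit 4) (nat_lit 536) (nat_lit 453) (nat_lit 211))))))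 (XT.nd (nat_lit 624) (nat_lit 304) (nat_lit 0) (XT.nd (nat_lit 312) (nat_lit 228) (nat_lit 0) (XT.nd (nat_lit 156) (nat_lit 152) (nat_lit 0) (XT.nd (nat_lit 78) (nat_lit 76) (nat_lit 0) (XT.lf (nat_lit 0) (nat_lit 305406617516) (nat_lit 152) (nat_lit 303044190225) (nat_lit 0) (nat_lit 77022986847) (nat_lit 46) (nat_lit 5) (nat_lit 48) (nat_lit 4) (nat_lit 46) (nat_lit 4) (nat_lit 537) (nat_lit 453) (nat_lit 210)) (XT.lf (nat_lit 0) (nat_lit 101527801451) (nat_lit 76) (nat_lit 418043287584) (nat_lit 76) (nat_lit 189659579744) (nat_lit 45) (nat_lit 4) (nat_lit 46) (nat_lit 5) (nat_lit 46) (nat_lit 4) (nat_lit 538) (nat_lit 453) (nat_lit 209))) (XT.nd (nat_lit 78) (nat_lit 76) (nat_lit 0) (XT.lf (nat_lit 0) (nat_lit 15155934567) (nat_lit 152) (nat_lit 197314115471) (nat_lit 76) (nat_lit 521436511221) (nat_lit 44) (nat_lit 5) (nat_lit 46) (nat_lit 5) (nat_lit 45) (nat_lit 4) (nat_lit 539) (nat_lit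 453) (nat_lit 208)) (XT.lf (nat_lit 0) (nat_lit 227720486014) (nat_lit 152) (nat_lit 521534144154) (nat_lit 0) (nat_lit 10212056175) (nat_lit 43) (nat_lit 5) (nat_lit 45) (nat_lit 4) (nat_lit 43) (nat_lit 4) (nat_lit 540) (nat_lit 453) (nat_lit 207)))) (XT.nd (nat_lit 156) (nat_lit 152) (nat_lit 0) (XT.nd (nat_lit 78) (nat_lit 76) (nat_lit 0) (XT.lf (nat_lit 0) (nat_lit 457792633759) (nat_lit 152) (nat_lit 87884075055) (nat_lit 0) (nat_lit 240284140432) (nat_lit 43) (nat_lit 5) (nat_lit 45) (nat_lit 4) (nat_lit 43) (nat_lit 4) (nat_lit 541) (nat_lit 453) (nat_lit 206)) (XT.lf (nat_lit 0) (nat_lit 379597733625) (nat_lit 76) (nat_lit 325697108890) (nat_lit 76) (nat_lit 108188555099) (nat_lit 42) (nat_lit 4) (nat_lit 43) (nat_lit 5) (nat_lit 43) (nat_lit 4) (nat_lit 542) (nat_lit 453) (nat_lit 205))) (XT.nd (nat_lit 78) (nat_lit 0) (nat_lit 0) (XT.lf (nat_lit 0) (nat_lit 30222669295) (nat_lit 76)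 (nat_lit 90621857861) (nat_lit 152) (nat_lit 721342466948) (nat_lit 40) (nat_lit 5) (nat_lit 41) (nat_lit 5) (nat_lit 42) (nat_lit 4) (nat_lit 543) (nat_lit 453) (nat_lit 204)) (XT.lf (nat_lit 0) (nat_lit 367600643294) (nat_lit 152) (nat_lit 343691554142) (nat_lit 0) (nat_lit 160449532608) (nat_lit 40) (nat_lit 5) (nat_lit 42) (nat_lit 4) (nat_lit 40) (nat_lit 4) (nat_lit 544) (nat_lit 453) (nat_lit 203))))) (XT.nd (nat_lit 312) (nat_lit 76) (nat_lit 0) (XT.nd (nat_lit 156) (nat_lit 152) (nat_lit 0) (XT.nd (nat_lit 78) (nat_lit 0) (nat_lit 0) (XT.lf (nat_lit 0) (nat_lit 151353250287) (nat_lit 76) (nat_lit 479189843255) (nat_lit 76) (nat_lit 272038682824) (nat_lit 39) (nat_lit 4) (nat_lit 40) (nat_lit 5) (nat_lit 40) (nat_lit 4) (nat_lit 545) (nat_lit 453) (nat_lit 202)) (XT.lf (nat_lit 0) (nat_lit 683082243878) (nat_lit 76) (nat_lit 229370882954) (nat_lit 76) (nat_lit 22219675147) (nat_lit 39)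 (nat_lit 4) (nat_lit 40) (nat_lit 5) (nat_lit 40) (nat_lit 4) (nat_lit 546) (nat_lit 453) (nat_lit 201))) (XT.nd (nat_lit 78) (nat_lit 0) (nat_lit 0) (XT.lf (nat_lit 0) (nat_lit 237395931164) (nat_lit 152) (nat_lit 690426498150) (nat_lit 0) (nat_lit 40109023615) (nat_lit 37) (nat_lit 5) (nat_lit 39) (nat_lit 4) (nat_lit 37) (nat_lit 4) (nat_lit 547) (nat_lit 453) (nat_lit 200)) (XT.lf (nat_lit 0) (nat_lit 517336308370) (nat_lit 152) (nat_lit 165044619443) (nat_lit 0) (nat_lit 320049359897) (nat_lit 37) (nat_lit 5) (nat_lit 39) (nat_lit 4) (nat_lit 37) (nat_lit 4) (nat_lit 548) (nat_lit 453) (nat_lit 199)))) (XT.nd (nat_lit 55146) (nat_lit 0) (nat_lit 9652) (XT.nd (nat_lit 55068) (nat_lit 0) (nat_lit 9652) (XT.lf (nat_lit 0) (nat_lit 399389070944) (nat_lit 76) (nat_lit 418120103615) (nat_lit 76) (nat_lit 220833116165) (nat_lit 36) (nat_lit 4) (nat_lit 37) (nat_lit 5) (nat_lit 37) (nat_lit 4) (nat_lit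 549) (nat_lit 453) (nat_lit 198)) (XT.lf (nat_lit 0) (nat_lit 12394863393) (nat_lit 836) (nat_lit 7949598679) (nat_lit 836) (nat_lit 7949598679) (nat_lit 163) (nat_lit 3) (nat_lit 174) (nat_lit 3) (nat_lit 174) (nat_lit 5) (nat_lit 454) (nat_lit 454) (nat_lit 292))) (XT.nd (nat_lit 78) (nat_lit 0) (nat_lit 76) (XT.lf (nat_lit 76) (nat_lit 12686284263) (nat_lit 0) (nat_lit 12941365861) (nat_lit 836) (nat_lit 32364263855) (nat_lit 164) (nat_lit 5) (nat_lit 163) (nat_lit 3) (nat_lit 174) (nat_lit 5) (nat_lit 455) (nat_lit 454) (nat_lit 291)) (XT.nd (nat_lit 78) (nat_lit 0) (nat_lit 0) (XT.lf (nat_lit 0) (nat_lit 27032682418) (nat_lit 760) (nat_lit 16457422644) (nat_lit 836) (nat_lit 15949530478) (nat_lit 164) (nat_lit 5) (nat_lit 174) (nat_lit 5) (nat_lit 175) (nat_lit 5) (nat_lit 456) (nat_lit 454) (nat_lit 290)) (XT.lf (nat_lit 76) (nat_lit 14070654176) (nat_lit 0) (nat_lit 14867920476) (nat_lit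 836) (nat_lit 31999638205) (nat_lit 165) (nat_lit 5) (nat_lit 164) (nat_lit 5) (nat_lit 175) (nat_lit 5) (nat_lit 457) (nat_lit 454) (nat_lit 289))))))))
noncomputable def xc395 : XT := (XT.nd (nat_lit 1248) (nat_lit 2736) (nat_lit 0) (XT.nd (nat_lit 624) (nat_lit 1596) (nat_lit 0) (XT.nd (nat_lit 312) (nat_lit 532) (nat_lit 0) (XT.nd (nat_lit 156) (nat_lit 0) (nat_lit 76) (XT.nd (nat_lit 78) (nat_lit 0) (nat_lit 0) (XT.lf (nat_lit 0) (nat_lit 31458957957) (nat_lit 760) (nat_lit 16043729495) (nat_lit 836) (nat_lit 14983071855) (nat_lit 165) (nat_lit 5) (nat_lit 175) (nat_lit 5) (nat_lit 176) (nat_lit 5) (nat_lit 458) (nat_lit 454) (nat_lit 288)) (XT.lf (nat_lit 76) (nat_lit 16608373823) (nat_lit 0) (nat_lit 17998908856) (nat_lit 836) (nat_lit 29478304375) (nat_lit 166) (nat_lit 5) (nat_lit 165) (nat_lit 5) (nat_lit 176) (nat_lit 5) (nat_lit 459) (nat_lit 454) (nat_lit 287))) (XT.nd (nat_lit 78)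 (nat_lit 0) (nat_lit 0) (XT.lf (nat_lit 0) (nat_lit 38390770760) (nat_lit 760) (nat_lit 14509645306) (nat_lit 836) (nat_lit 12841102846) (nat_lit 166) (nat_lit 5) (nat_lit 176) (nat_lit 5) (nat_lit 177) (nat_lit 5) (nat_lit 460) (nat_lit 454) (nat_lit 286)) (XT.lf (nat_lit 76) (nat_lit 20465499218) (nat_lit 0) (nat_lit 22511502355) (nat_lit 836) (nat_lit 24472567452) (nat_lit 167) (nat_lit 5) (nat_lit 166) (nat_lit 5) (nat_lit 177) (nat_lit 5) (nat_lit 461) (nat_lit 454) (nat_lit 285)))) (XT.nd (nat_lit 156) (nat_lit 684) (nat_lit 0) (XT.nd (nat_lit 78) (nat_lit 0) (nat_lit 0) (XT.lf (nat_lit 0) (nat_lit 48188032340) (nat_lit 760) (nat_lit 11689133832) (nat_lit 836) (nat_lit 9346081125) (nat_lit 167) (nat_lit 5) (nat_lit 177) (nat_lit 5) (nat_lit 178) (nat_lit 5) (nat_lit 462) (nat_lit 454) (nat_lit 284)) (XT.lf (nat_lit 76) (nat_lit 25827381544) (nat_lit 0) (nat_lit 28603579500) (nat_lit 836)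 (nat_lit 16616081189) (nat_lit 168) (nat_lit 5) (nat_lit 167) (nat_lit 5) (nat_lit 178) (nat_lit 5) (nat_lit 463) (nat_lit 454) (nat_lit 283))) (XT.nd (nat_lit 78) (nat_lit 760) (nat_lit 0) (XT.lf (nat_lit 0) (nat_lit 61252444851) (nat_lit 760) (nat_lit 7396729742) (nat_lit 76) (nat_lit 4299531959) (nat_lit 168) (nat_lit 5) (nat_lit 178) (nat_lit 5) (nat_lit 169) (nat_lit 5) (nat_lit 464) (nat_lit 454) (nat_lit 282)) (XT.lf (nat_lit 0) (nat_lit 32900703718) (nat_lit 760) (nat_lit 36496027744) (nat_lit 836) (nat_lit 5499636256) (nat_lit 158) (nat_lit 5) (nat_lit 168) (nat_lit 5) (nat_lit 169) (nat_lit 5) (nat_lit 465) (nat_lit 454) (nat_lit 281))))) (XT.nd (nat_lit 312) (nat_lit 684) (nat_lit 0) (XT.nd (nat_lit 156) (nat_lit 380) (nat_lit 0) (XT.nd (nat_lit 78) (nat_lit 456) (nat_lit 0) (XT.lf (nat_lit 0) (nat_lit 1101077381) (nat_lit 836) (nat_lit 1483891246) (nat_lit 76) (nat_lit 74349333336)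 (nat_lit 157) (nat_lit 5) (nat_lit 168) (nat_lit 5) (nat_lit 158) (nat_lit 5) (nat_lit 466) (nat_lit 454) (nat_lit 280)) (XT.lf (nat_lit 0) (nat_lit 9034760449) (nat_lit 532) (nat_lit 37247520600) (nat_lit 76) (nat_lit 32727956149) (nat_lit 151) (nat_lit 5) (nat_lit 158) (nat_lit 5) (nat_lit 152) (nat_lit 5) (nat_lit 467) (nat_lit 454) (nat_lit 279))) (XT.nd (nat_lit 78) (nat_lit 0) (nat_lit 0) (XT.lf (nat_lit 0) (nat_lit 6188990442) (nat_lit 380) (nat_lit 11339911719) (nat_lit 456) (nat_lit 63652878362) (nat_lit 146) (nat_lit 5) (nat_lit 151) (nat_lit 5) (nat_lit 152) (nat_lit 5) (nat_lit 468) (nat_lit 454) (nat_lit 278)) (XT.lf (nat_lit 0) (nat_lit 27483927670) (nat_lit 456) (nat_lit 30746794735) (nat_lit 76) (nat_lit 25179369823) (nat_lit 146) (nat_lit 5) (nat_lit 152) (nat_lit 5) (nat_lit 147) (nat_lit 5) (nat_lit 469) (nat_lit 454) (nat_lit 277)))) (XT.nd (nat_lit 156) (nat_lit 304) (nat_lit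 0) (XT.nd (nat_lit 78) (nat_lit 0) (nat_lit 0) (XT.lf (nat_lit 0) (nat_lit 16038167596) (nat_lit 380) (nat_lit 22334126306) (nat_lit 456) (nat_lit 47355746192) (nat_lit 141) (nat_lit 5) (nat_lit 146) (nat_lit 5) (nat_lit 147) (nat_lit 5) (nat_lit 470) (nat_lit 454) (nat_lit 276)) (XT.lf (nat_lit 0) (nat_lit 50573407026) (nat_lit 456) (nat_lit 22155094809) (nat_lit 76) (nat_lit 15394967137) (nat_lit 141) (nat_lit 5) (nat_lit 147) (nat_lit 5) (nat_lit 142) (nat_lit 5) (nat_lit 471) (nat_lit 454) (nat_lit 275))) (XT.nd (nat_lit 78) (nat_lit 0) (nat_lit 0) (XT.lf (nat_lit 0) (nat_lit 28295172064) (nat_lit 304) (nat_lit 35896646735) (nat_lit 380) (nat_lit 26406488385) (nat_lit 137) (nat_lit 5) (nat_lit 141) (nat_lit 5) (nat_lit 142) (nat_lit 5) (nat_lit 472) (nat_lit 454) (nat_lit 274)) (XT.lf (nat_lit 0) (nat_lit 78915224391) (nat_lit 380) (nat_lit 11191261672) (nat_lit 76) (nat_lit 3069197625) (nat_lit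 137) (nat_lit 5) (nat_lit 142) (nat_lit 5) (nat_lit 138) (nat_lit 5) (nat_lit 473) (nat_lit 454) (nat_lit 273)))))) (XT.nd (nat_lit 624) (nat_lit 1140) (nat_lit 0) (XT.nd (nat_lit 312) (nat_lit 608) (nat_lit 0) (XT.nd (nat_lit 156) (nat_lit 304) (nat_lit 0) (XT.nd (nat_lit 78) (nat_lit 380) (nat_lit 0) (XT.lf (nat_lit 0) (nat_lit 43271988476) (nat_lit 304) (nat_lit 52366270216) (nat_lit 380) (nat_lit 180497444) (nat_lit 133) (nat_lit 5) (nat_lit 137) (nat_lit 5) (nat_lit 138) (nat_lit 5) (nat_lit 474) (nat_lit 454) (nat_lit 272)) (XT.lf (nat_lit 0) (nat_lit 2097733833) (nat_lit 304) (nat_lit 12263114614) (nat_lit 380) (nat_lit 84210494348) (nat_lit 128) (nat_lit 5) (nat_lit 132) (nat_lit 5) (nat_lit 133) (nat_lit 5) (nat_lit 475) (nat_lit 454) (nat_lit 271))) (XT.nd (nat_lit 78) (nat_lit 304) (nat_lit 0) (XT.lf (nat_lit 0) (nat_lit 30993071704) (nat_lit 380) (nat_lit 40602557552) (nat_lit 76) (nat_lit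 29797287818) (nat_lit 128) (nat_lit 5) (nat_lit 133) (nat_lit 5) (nat_lit 129) (nat_lit 5) (nat_lit 476) (nat_lit 454) (nat_lit 270)) (XT.lf (nat_lit 0) (nat_lit 18450844726) (nat_lit 304) (nat_lit 30494608533) (nat_lit 380) (nat_lit 55385689484) (nat_lit 124) (nat_lit 5) (nat_lit 128) (nat_lit 5) (nat_lit 129) (nat_lit 5) (nat_lit 477) (nat_lit 454) (nat_lit 269)))) (XT.nd (nat_lit 156) (nat_lit 380) (nat_lit 0) (XT.nd (nat_lit 78) (nat_lit 228) (nat_lit 0) (XT.lf (nat_lit 0) (nat_lit 68691487557) (nat_lit 380) (nat_lit 25725028217) (nat_lit 76) (nat_lit 12954962268) (nat_lit 124) (nat_lit 5) (nat_lit 129) (nat_lit 5) (nat_lit 125) (nat_lit 5) (nat_lit 478) (nat_lit 454) (nat_lit 268)) (XT.lf (nat_lit 0) (nat_lit 38158722790) (nat_lit 228) (nat_lit 52361259145) (nat_lit 304) (nat_lit 19989090281) (nat_lit 121) (nat_lit 5) (nat_lit 124) (nat_lit 5) (nat_lit 125) (nat_lit 5) (nat_lit 479) (nat_lit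 454) (nat_lit 267))) (XT.nd (nat_lit 78) (nat_lit 304) (nat_lit 0) (XT.lf (nat_lit 0) (nat_lit 90289662) (nat_lit 304) (nat_lit 7654145075) (nat_lit 76) (nat_lit 106037280476) (nat_lit 120) (nat_lit 5) (nat_lit 124) (nat_lit 5) (nat_lit 121) (nat_lit 5) (nat_lit 480) (nat_lit 454) (nat_lit 266)) (XT.lf (nat_lit 0) (nat_lit 22100029314) (nat_lit 380) (nat_lit 55854328646) (nat_lit 76) (nat_lit 39167340164) (nat_lit 116) (nat_lit 5) (nat_lit 121) (nat_lit 5) (nat_lit 117) (nat_lit 5) (nat_lit 481) (nat_lit 454) (nat_lit 265))))) (XT.nd (nat_lit 312) (nat_lit 684) (nat_lit 0) (XT.nd (nat_lit 156) (nat_lit 228) (nat_lit 0) (XT.nd (nat_lit 78) (nat_lit 0) (nat_lit 0) (XT.lf (nat_lit 0) (nat_lit 13583498075) (nat_lit 228) (nat_lit 32097066633) (nat_lit 304) (nat_lit 74924600056) (nat_lit 113) (nat_lit 5) (nat_lit 116) (nat_lit 5) (nat_lit 117) (nat_lit 5) (nat_lit 482) (nat_lit 454) (nat_lit 264)) (XT.lf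 (nat_lit 0) (nat_lit 71651719585) (nat_lit 304) (nat_lit 36049977686) (nat_lit 76) (nat_lit 16500527854) (nat_lit 113) (nat_lit 5) (nat_lit 117) (nat_lit 5) (nat_lit 114) (nat_lit 5) (nat_lit 483) (nat_lit 454) (nat_lit 263))) (XT.nd (nat_lit 78) (nat_lit 0) (nat_lit 0) (XT.lf (nat_lit 0) (nat_lit 39198048450) (nat_lit 228) (nat_lit 60861110877) (nat_lit 304) (nat_lit 27863092842) (nat_lit 110) (nat_lit 5) (nat_lit 113) (nat_lit 5) (nat_lit 114) (nat_lit 5) (nat_lit 484) (nat_lit 454) (nat_lit 262)) (XT.lf (nat_lit 0) (nat_lit 119459411930) (nat_lit 228) (nat_lit 11037648524) (nat_lit 304) (nat_lit 1300715664) (nat_lit 110) (nat_lit 5) (nat_lit 113) (nat_lit 5) (nat_lit 114) (nat_lit 5) (nat_lit 485) (nat_lit 454) (nat_lit 261)))) (XT.nd (nat_lit 156) (nat_lit 228) (nat_lit 0) (XT.nd (nat_lit 78) (nat_lit 228) (nat_lit 0) (XT.lf (nat_lit 0) (nat_lit 27495326889) (nat_lit 228) (nat_lit 66779791100)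 (nat_lit 76) (nat_lit 41483371965) (nat_lit 107) (nat_lit 5) (nat_lit 110) (nat_lit 5) (nat_lit 108) (nat_lit 5) (nat_lit 486) (nat_lit 454) (nat_lit 260)) (XT.lf (nat_lit 0) (nat_lit 15162144354) (nat_lit 228) (nat_lit 43154951747) (nat_lit 304) (nat_lit 81567595386) (nat_lit 104) (nat_lit 5) (nat_lit 107) (nat_lit 5) (nat_lit 108) (nat_lit 5) (nat_lit 487) (nat_lit 454) (nat_lit 259))) (XT.nd (nat_lit 78) (nat_lit 228) (nat_lit 0) (XT.lf (nat_lit 0) (nat_lit 91993301214) (nat_lit 304) (nat_lit 40824476832) (nat_lit 76) (nat_lit 11333757694) (nat_lit 104) (nat_lit 5) (nat_lit 108) (nat_lit 5) (nat_lit 105) (nat_lit 5) (nat_lit 488) (nat_lit 454) (nat_lit 258)) (XT.nd (nat_lit 78) (nat_lit 76) (nat_lit 0) (XT.lf (nat_lit 0) (nat_lit 48099931853) (nat_lit 152) (nat_lit 80711430510) (nat_lit 228) (nat_lit 19747457570) (nat_lit 102) (nat_lit 5) (nat_lit 104) (nat_lit 5) (nat_lit 105) (nat_lit 5) (nat_lit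 489) (nat_lit 454) (nat_lit 257)) (XT.lf (nat_lit 0) (nat_lit 14529017718) (nat_lit 228) (nat_lit 10498957866) (nat_lit 76) (nat_lit 128112225607) (nat_lit 101) (nat_lit 5) (nat_lit 104) (nat_lit 5) (nat_lit 102) (nat_lit 5) (nat_lit 490) (nat_lit 454) (nat_lit 256))))))))
noncomputable def xc396 : XT := (XT.nd (nat_lit 1248) (nat_lit 1444) (nat_lit 0) (XT.nd (nat_lit 624) (nat_lit 760) (nat_lit 0) (XT.nd (nat_lit 312) (nat_lit 380) (nat_lit 0) (XT.nd (nat_lit 156) (nat_lit 228) (nat_lit 0) (XT.nd (nat_lit 78) (nat_lit 152) (nat_lit 0) (XT.lf (nat_lit 0) (nat_lit 51753757152) (nat_lit 304) (nat_lit 72016539809) (nat_lit 76) (nat_lit 34069263902) (nat_lit 98) (nat_lit 5) (nat_lit 102) (nat_lit 5) (nat_lit 99) (nat_lit 5) (nat_lit 491) (nat_lit 454) (nat_lit 255)) (XT.lf (nat_lit 0) (nat_lit 24945209382) (nat_lit 152) (nat_lit 66874642513) (nat_lit 228) (nat_lit 70905030720) (nat_lit 96) (nat_lit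 5) (nat_lit 98) (nat_lit 5) (nat_lit 99) (nat_lit 5) (nat_lit 492) (nat_lit 454) (nat_lit 254))) (XT.nd (nat_lit 78) (nat_lit 228) (nat_lit 0) (XT.lf (nat_lit 0) (nat_lit 129254722755) (nat_lit 152) (nat_lit 5853811031) (nat_lit 228) (nat_lit 32684972559) (nat_lit 96) (nat_lit 5) (nat_lit 98) (nat_lit 5) (nat_lit 99) (nat_lit 5) (nat_lit 493) (nat_lit 454) (nat_lit 253)) (XT.lf (nat_lit 0) (nat_lit 9192821939) (nat_lit 228) (nat_lit 106270457401) (nat_lit 76) (nat_lit 57547216481) (nat_lit 93) (nat_lit 5) (nat_lit 96) (nat_lit 5) (nat_lit 94) (nat_lit 5) (nat_lit 494) (nat_lit 454) (nat_lit 252)))) (XT.nd (nat_lit 156) (nat_lit 228) (nat_lit 0) (XT.nd (nat_lit 78) (nat_lit 152) (nat_lit 0) (XT.lf (nat_lit 0) (nat_lit 52825076402) (nat_lit 228) (nat_lit 477966083) (nat_lit 76) (nat_lit 125120551354) (nat_lit 93) (nat_lit 5) (nat_lit 96) (nat_lit 5) (nat_lit 94) (nat_lit 5) (nat_lit 495) (nat_lit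 454) (nat_lit 251)) (XT.lf (nat_lit 0) (nat_lit 100638603690) (nat_lit 228) (nat_lit 69973549695) (nat_lit 76) (nat_lit 13395210378) (nat_lit 91) (nat_lit 5) (nat_lit 94) (nat_lit 5) (nat_lit 92) (nat_lit 5) (nat_lit 496) (nat_lit 454) (nat_lit 250))) (XT.nd (nat_lit 78) (nat_lit 76) (nat_lit 0) (XT.lf (nat_lit 0) (nat_lit 44983106914) (nat_lit 152) (nat_lit 107443743223) (nat_lit 228) (nat_lit 37364269915) (nat_lit 89) (nat_lit 5) (nat_lit 91) (nat_lit 5) (nat_lit 92) (nat_lit 5) (nat_lit 497) (nat_lit 454) (nat_lit 249)) (XT.lf (nat_lit 0) (nat_lit 11794429423) (nat_lit 228) (nat_lit 27878671959) (nat_lit 76) (nat_lit 156122214871) (nat_lit 88) (nat_lit 5) (nat_lit 91) (nat_lit 5) (nat_lit 89) (nat_lit 5) (nat_lit 498) (nat_lit 454) (nat_lit 248))))) (XT.nd (nat_lit 312) (nat_lit 304) (nat_lit 0) (XT.nd (nat_lit 156) (nat_lit 152) (nat_lit 0) (XT.nd (nat_lit 78) (nat_lit 152) (nat_lit 0) (XT.lf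 (nat_lit 0) (nat_lit 64202343531) (nat_lit 228) (nat_lit 105118079763) (nat_lit 76) (nat_lit 32646324316) (nat_lit 86) (nat_lit 5) (nat_lit 89) (nat_lit 5) (nat_lit 87) (nat_lit 5) (nat_lit 499) (nat_lit 454) (nat_lit 247)) (XT.lf (nat_lit 0) (nat_lit 20349798506) (nat_lit 152) (nat_lit 100328532277) (nat_lit 228) (nat_lit 87696035888) (nat_lit 84) (nat_lit 5) (nat_lit 86) (nat_lit 5) (nat_lit 87) (nat_lit 5) (nat_lit 500) (nat_lit 454) (nat_lit 246))) (XT.nd (nat_lit 78) (nat_lit 152) (nat_lit 0) (XT.lf (nat_lit 0) (nat_lit 155740022396) (nat_lit 152) (nat_lit 26018029299) (nat_lit 228) (nat_lit 33255318281) (nat_lit 84) (nat_lit 5) (nat_lit 86) (nat_lit 5) (nat_lit 87) (nat_lit 5) (nat_lit 501) (nat_lit 454) (nat_lit 245)) (XT.lf (nat_lit 0) (nat_lit 25198460506) (nat_lit 152) (nat_lit 144703408800) (nat_lit 76) (nat_lit 51960980419) (nat_lit 82) (nat_lit 5) (nat_lit 84) (nat_lit 5) (nat_lit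 83) (nat_lit 5) (nat_lit 502) (nat_lit 454) (nat_lit 244)))) (XT.nd (nat_lit 156) (nat_lit 152) (nat_lit 0) (XT.nd (nat_lit 78) (nat_lit 152) (nat_lit 0) (XT.lf (nat_lit 0) (nat_lit 86903856052) (nat_lit 152) (nat_lit 7521555198) (nat_lit 76) (nat_lit 134529807531) (nat_lit 82) (nat_lit 5) (nat_lit 84) (nat_lit 5) (nat_lit 83) (nat_lit 5) (nat_lit 503) (nat_lit 454) (nat_lit 243)) (XT.lf (nat_lit 0) (nat_lit 141032848540) (nat_lit 152) (nat_lit 12863324727) (nat_lit 228) (nat_lit 82395950434) (nat_lit 80) (nat_lit 5) (nat_lit 82) (nat_lit 5) (nat_lit 83) (nat_lit 5) (nat_lit 504) (nat_lit 454) (nat_lit 242))) (XT.nd (nat_lit 78) (nat_lit 76) (nat_lit 0) (XT.lf (nat_lit 0) (nat_lit 53872024603) (nat_lit 76) (nat_lit 172472631300) (nat_lit 152) (nat_lit 17545890494) (nat_lit 79) (nat_lit 5) (nat_lit 80) (nat_lit 5) (nat_lit 81) (nat_lit 4) (nat_lit 505) (nat_lit 454) (nat_lit 241)) (XT.lf (nat_lit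 0) (nat_lit 50779183316) (nat_lit 152) (nat_lit 39048124796) (nat_lit 76) (nat_lit 161909607356) (nat_lit 78) (nat_lit 5) (nat_lit 80) (nat_lit 5) (nat_lit 79) (nat_lit 5) (nat_lit 506) (nat_lit 454) (nat_lit 240)))))) (XT.nd (nat_lit 624) (nat_lit 684) (nat_lit 0) (XT.nd (nat_lit 312) (nat_lit 304) (nat_lit 0) (XT.nd (nat_lit 156) (nat_lit 228) (nat_lit 0) (XT.nd (nat_lit 78) (nat_lit 76) (nat_lit 0) (XT.lf (nat_lit 0) (nat_lit 123123417892) (nat_lit 152) (nat_lit 729487127) (nat_lit 228) (nat_lit 136012213544) (nat_lit 76) (nat_lit 5) (nat_lit 78) (nat_lit 5) (nat_lit 79) (nat_lit 5) (nat_lit 507) (nat_lit 454) (nat_lit 239)) (XT.lf (nat_lit 0) (nat_lit 25756369922) (nat_lit 76) (nat_lit 177347193886) (nat_lit 152) (nat_lit 65170005459) (nat_lit 75) (nat_lit 5) (nat_lit 76) (nat_lit 5) (nat_lit 77) (nat_lit 4) (nat_lit 508) (nat_lit 454) (nat_lit 238))) (XT.nd (nat_lit 78) (nat_lit 152) (nat_lit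 0) (XT.lf (nat_lit 0) (nat_lit 11284859037) (nat_lit 152) (nat_lit 76054187338) (nat_lit 76) (nat_lit 189637929995) (nat_lit 74) (nat_lit 5) (nat_lit 76) (nat_lit 5) (nat_lit 75) (nat_lit 5) (nat_lit 509) (nat_lit 454) (nat_lit 237)) (XT.lf (nat_lit 0) (nat_lit 91102574039) (nat_lit 228) (nat_lit 185246292700) (nat_lit 76) (nat_lit 9626756714) (nat_lit 72) (nat_lit 5) (nat_lit 75) (nat_lit 5) (nat_lit 73) (nat_lit 4) (nat_lit 510) (nat_lit 454) (nat_lit 236)))) (XT.nd (nat_lit 156) (nat_lit 228) (nat_lit 0) (XT.nd (nat_lit 78) (nat_lit 76) (nat_lit 0) (XT.lf (nat_lit 0) (nat_lit 177651857336) (nat_lit 228) (nat_lit 7820687613) (nat_lit 76) (nat_lit 109814623820) (nat_lit 72) (nat_lit 5) (nat_lit 75) (nat_lit 5) (nat_lit 73) (nat_lit 4) (nat_lit 511) (nat_lit 454) (nat_lit 235)) (XT.lf (nat_lit 0) (nat_lit 184376996690) (nat_lit 76) (nat_lit 87030026355) (nat_lit 152) (nat_lit 33513347397) (nat_lit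 71) (nat_lit 5) (nat_lit 72) (nat_lit 5) (nat_lit 73) (nat_lit 4) (nat_lit 512) (nat_lit 454) (nat_lit 234))) (XT.nd (nat_lit 78) (nat_lit 0) (nat_lit 0) (XT.lf (nat_lit 0) (nat_lit 54622830019) (nat_lit 228) (nat_lit 242316328604) (nat_lit 76) (nat_lit 17975156595) (nat_lit 68) (nat_lit 5) (nat_lit 71) (nat_lit 5) (nat_lit 69) (nat_lit 4) (nat_lit 513) (nat_lit 454) (nat_lit 233)) (XT.lf (nat_lit 0) (nat_lit 149540975209) (nat_lit 228) (nat_lit 47734481166) (nat_lit 76) (nat_lit 127929959548) (nat_lit 68) (nat_lit 5) (nat_lit 71) (nat_lit 5) (nat_lit 69) (nat_lit 4) (nat_lit 514) (nat_lit 454) (nat_lit 232))))) (XT.nd (nat_lit 312) (nat_lit 380) (nat_lit 0) (XT.nd (nat_lit 156) (nat_lit 76) (nat_lit 0) (XT.nd (nat_lit 78) (nat_lit 152) (nat_lit 0) (XT.lf (nat_lit 0) (nat_lit 161753171982) (nat_lit 76) (nat_lit 89977065018) (nat_lit 152) (nat_lit 84154574198) (nat_lit 67) (nat_lit 5) (nat_lit 68)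 (nat_lit 5) (nat_lit 69) (nat_lit 4) (nat_lit 515) (nat_lit 454) (nat_lit 231)) (XT.lf (nat_lit 0) (nat_lit 13333136312) (nat_lit 152) (nat_lit 310090052951) (nat_lit 76) (nat_lit 23576462811) (nat_lit 65) (nat_lit 5) (nat_lit 67) (nat_lit 5) (nat_lit 66) (nat_lit 4) (nat_lit 516) (nat_lit 454) (nat_lit 230))) (XT.nd (nat_lit 78) (nat_lit 76) (nat_lit 0) (XT.lf (nat_lit 0) (nat_lit 117339259102) (nat_lit 152) (nat_lit 96877789343) (nat_lit 76) (nat_lit 144160598780) (nat_lit 65) (nat_lit 5) (nat_lit 67) (nat_lit 5) (nat_lit 66) (nat_lit 4) (nat_lit 517) (nat_lit 454) (nat_lit 229)) (XT.lf (nat_lit 0) (nat_lit 131193725145) (nat_lit 76) (nat_lit 97400065118) (nat_lit 152) (nat_lit 141628346760) (nat_lit 64) (nat_lit 5) (nat_lit 65) (nat_lit 5) (nat_lit 66) (nat_lit 4) (nat_lit 518) (nat_lit 454) (nat_lit 228)))) (XT.nd (nat_lit 156) (nat_lit 228) (nat_lit 0) (XT.nd (nat_lit 78) (nat_lit 152) (nat_lit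 0) (XT.lf (nat_lit 0) (nat_lit 347472762392) (nat_lit 152) (nat_lit 8966246735) (nat_lit 0) (nat_lit 26116756467) (nat_lit 64) (nat_lit 5) (nat_lit 66) (nat_lit 4) (nat_lit 64) (nat_lit 4) (nat_lit 519) (nat_lit 454) (nat_lit 227)) (XT.lf (nat_lit 0) (nat_lit 79741483473) (nat_lit 152) (nat_lit 157886201834) (nat_lit 76) (nat_lit 157547964093) (nat_lit 62) (nat_lit 5) (nat_lit 64) (nat_lit 5) (nat_lit 63) (nat_lit 4) (nat_lit 520) (nat_lit 454) (nat_lit 226))) (XT.nd (nat_lit 78) (nat_lit 152) (nat_lit 0) (XT.lf (nat_lit 0) (nat_lit 90054604770) (nat_lit 76) (nat_lit 110633723750) (nat_lit 152) (nat_lit 207631434668) (nat_lit 61) (nat_lit 5) (nat_lit 62) (nat_lit 5) (nat_lit 63) (nat_lit 4) (nat_lit 521) (nat_lit 454) (nat_lit 225)) (XT.nd (nat_lit 78) (nat_lit 152) (nat_lit 0) (XT.lf (nat_lit 0) (nat_lit 330754606786) (nat_lit 152) (nat_lit 66512249015) (nat_lit 0) (nat_lit 24700622319) (nat_lit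 61) (nat_lit 5) (nat_lit 63) (nat_lit 4) (nat_lit 61) (nat_lit 4) (nat_lit 522) (nat_lit 454) (nat_lit 224)) (XT.lf (nat_lit 0) (nat_lit 35090141375) (nat_lit 152) (nat_lit 234119389652) (nat_lit 76) (nat_lit 166810998807) (nat_lit 59) (nat_lit 5) (nat_lit 61) (nat_lit 5) (nat_lit 60) (nat_lit 4) (nat_lit 523) (nat_lit 454) (nat_lit 223))))))))
noncomputable def xc397 : XT := (XT.nd (nat_lit 1248) (nat_lit 608) (nat_lit 0) (XT.nd (nat_lit 624) (nat_lit 532) (nat_lit 0) (XT.nd (nat_lit 312) (nat_lit 304) (nat_lit 0) (XT.nd (nat_lit 156) (nat_lit 152) (nat_lit 0) (XT.nd (nat_lit 78) (nat_lit 0) (nat_lit 0) (XT.lf (nat_lit 0) (nat_lit 34928256625) (nat_lit 76) (nat_lit 131404729626) (nat_lit 152) (nat_lit 284283981629) (nat_lit 58) (nat_lit 5) (nat_lit 59) (nat_lit 5) (nat_lit 60) (nat_lit 4) (nat_lit 524) (nat_lit 454) (nat_lit 222)) (XT.lf (nat_lit 0) (nat_lit 308375218063) (nat_lit 152) (nat_lit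 140461445723) (nat_lit 0) (nat_lit 16894701810) (nat_lit 58) (nat_lit 5) (nat_lit 60) (nat_lit 4) (nat_lit 58) (nat_lit 4) (nat_lit 525) (nat_lit 454) (nat_lit 221))) (XT.nd (nat_lit 78) (nat_lit 76) (nat_lit 0) (XT.lf (nat_lit 0) (nat_lit 151212417330) (nat_lit 76) (nat_lit 310821999884) (nat_lit 76) (nat_lit 19341323199) (nat_lit 57) (nat_lit 4) (nat_lit 58) (nat_lit 5) (nat_lit 58) (nat_lit 4) (nat_lit 526) (nat_lit 454) (nat_lit 220)) (XT.lf (nat_lit 0) (nat_lit 123972691854) (nat_lit 152) (nat_lit 37336811174) (nat_lit 76) (nat_lit 336273922177) (nat_lit 56) (nat_lit 5) (nat_lit 58) (nat_lit 5) (nat_lit 57) (nat_lit 4) (nat_lit 527) (nat_lit 454) (nat_lit 219)))) (XT.nd (nat_lit 156) (nat_lit 152) (nat_lit 0) (XT.nd (nat_lit 78) (nat_lit 76) (nat_lit 0) (XT.lf (nat_lit 0) (nat_lit 278163151958) (nat_lit 152) (nat_lit 235642228363) (nat_lit 0) (nat_lit 562223395) (nat_lit 55) (nat_lit 5) (nat_lit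 57) (nat_lit 4) (nat_lit 55) (nat_lit 4) (nat_lit 528) (nat_lit 454) (nat_lit 218)) (XT.lf (nat_lit 0) (nat_lit 79827421290) (nat_lit 76) (nat_lit 364768983465) (nat_lit 76) (nat_lit 87167922914) (nat_lit 54) (nat_lit 4) (nat_lit 55) (nat_lit 5) (nat_lit 55) (nat_lit 4) (nat_lit 529) (nat_lit 454) (nat_lit 217))) (XT.nd (nat_lit 78) (nat_lit 76) (nat_lit 0) (XT.lf (nat_lit 0) (nat_lit 71157721575) (nat_lit 152) (nat_lit 131727857022) (nat_lit 76) (nat_lit 346888396115) (nat_lit 53) (nat_lit 5) (nat_lit 55) (nat_lit 5) (nat_lit 54) (nat_lit 4) (nat_lit 530) (nat_lit 454) (nat_lit 216)) (XT.lf (nat_lit 0) (nat_lit 209776519565) (nat_lit 76) (nat_lit 27968761183) (nat_lit 152) (nat_lit 330703621931) (nat_lit 52) (nat_lit 5) (nat_lit 53) (nat_lit 5) (nat_lit 54) (nat_lit 4) (nat_lit 531) (nat_lit 454) (nat_lit 215))))) (XT.nd (nat_lit 312) (nat_lit 304) (nat_lit 0) (XT.nd (nat_lit 156) (nat_lit 76)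 (nat_lit 0) (XT.nd (nat_lit 78) (nat_lit 152) (nat_lit 0) (XT.lf (nat_lit 0) (nat_lit 417360329930) (nat_lit 152) (nat_lit 17484316328) (nat_lit 0) (nat_lit 152978025183) (nat_lit 52) (nat_lit 5) (nat_lit 54) (nat_lit 4) (nat_lit 52) (nat_lit 4) (nat_lit 532) (nat_lit 454) (nat_lit 214)) (XT.lf (nat_lit 0) (nat_lit 3906337560) (nat_lit 152) (nat_lit 256374416164) (nat_lit 76) (nat_lit 347583867706) (nat_lit 50) (nat_lit 5) (nat_lit 52) (nat_lit 5) (nat_lit 51) (nat_lit 4) (nat_lit 533) (nat_lit 454) (nat_lit 213))) (XT.nd (nat_lit 78) (nat_lit 0) (nat_lit 0) (XT.lf (nat_lit 0) (nat_lit 111392246248) (nat_lit 76) (nat_lit 71912511264) (nat_lit 152) (nat_lit 445362190205) (nat_lit 49) (nat_lit 5) (nat_lit 50) (nat_lit 5) (nat_lit 51) (nat_lit 4) (nat_lit 534) (nat_lit 454) (nat_lit 212)) (XT.lf (nat_lit 0) (nat_lit 378051203859) (nat_lit 152) (nat_lit 145881030145) (nat_lit 0) (nat_lit 126258251046)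 (nat_lit 49) (nat_lit 5) (nat_lit 51) (nat_lit 4) (nat_lit 49) (nat_lit 4) (nat_lit 535) (nat_lit 454) (nat_lit 211)))) (XT.nd (nat_lit 156) (nat_lit 152) (nat_lit 0) (XT.nd (nat_lit 78) (nat_lit 76) (nat_lit 0) (XT.lf (nat_lit 0) (nat_lit 250934632108) (nat_lit 76) (nat_lit 336696888808) (nat_lit 76) (nat_lit 84903850915) (nat_lit 48) (nat_lit 4) (nat_lit 49) (nat_lit 5) (nat_lit 49) (nat_lit 4) (nat_lit 536) (nat_lit 454) (nat_lit 210)) (XT.lf (nat_lit 0) (nat_lit 110629395071) (nat_lit 152) (nat_lit 25002859024) (nat_lit 76) (nat_lit 560152510097) (nat_lit 47) (nat_lit 5) (nat_lit 49) (nat_lit 5) (nat_lit 48) (nat_lit 4) (nat_lit 537) (nat_lit 454) (nat_lit 209))) (XT.nd (nat_lit 78) (nat_lit 76) (nat_lit 0) (XT.lf (nat_lit 0) (nat_lit 320681183379) (nat_lit 152) (nat_lit 318187949684) (nat_lit 0) (nat_lit 80878139482) (nat_lit 46) (nat_lit 5) (nat_lit 48) (nat_lit 4) (nat_lit 46) (nat_lit 4)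 (nat_lit 538) (nat_lit 454) (nat_lit 208)) (XT.lf (nat_lit 0) (nat_lit 106612505284) (nat_lit 76) (nat_lit 438941301324) (nat_lit 76) (nat_lit 199138187431) (nat_lit 45) (nat_lit 4) (nat_lit 46) (nat_lit 5) (nat_lit 46) (nat_lit 4) (nat_lit 539) (nat_lit 454) (nat_lit 207)))))) (XT.nd (nat_lit 624) (nat_lit 152) (nat_lit 0) (XT.nd (nat_lit 312) (nat_lit 228) (nat_lit 0) (XT.nd (nat_lit 156) (nat_lit 76) (nat_lit 0) (XT.nd (nat_lit 78) (nat_lit 76) (nat_lit 0) (XT.lf (nat_lit 0) (nat_lit 15917761192) (nat_lit 152) (nat_lit 207171770110) (nat_lit 76) (nat_lit 547512156505) (nat_lit 44) (nat_lit 5) (nat_lit 46) (nat_lit 5) (nat_lit 45) (nat_lit 4) (nat_lit 540) (nat_lit 454) (nat_lit 206)) (XT.lf (nat_lit 0) (nat_lit 239110533805) (nat_lit 152) (nat_lit 547602793803) (nat_lit 0) (nat_lit 10726491859) (nat_lit 43) (nat_lit 5) (nat_lit 45) (nat_lit 4) (nat_lit 43) (nat_lit 4) (nat_lit 541) (nat_lit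 454) (nat_lit 205))) (XT.nd (nat_lit 78) (nat_lit 76) (nat_lit 0) (XT.lf (nat_lit 0) (nat_lit 480686097342) (nat_lit 152) (nat_lit 92270604942) (nat_lit 0) (nat_lit 252301997811) (nat_lit 43) (nat_lit 5) (nat_lit 45) (nat_lit 4) (nat_lit 43) (nat_lit 4) (nat_lit 542) (nat_lit 454) (nat_lit 204)) (XT.lf (nat_lit 0) (nat_lit 398585170400) (nat_lit 76) (nat_lit 341978181543) (nat_lit 76) (nat_lit 113594027168) (nat_lit 42) (nat_lit 4) (nat_lit 43) (nat_lit 5) (nat_lit 43) (nat_lit 4) (nat_lit 543) (nat_lit 454) (nat_lit 203)))) (XT.nd (nat_lit 156) (nat_lit 76) (nat_lit 0) (XT.nd (nat_lit 78) (nat_lit 0) (nat_lit 0) (XT.lf (nat_lit 0) (nat_lit 31741355659) (nat_lit 76) (nat_lit 95149162518) (nat_lit 152) (nat_lit 757405637383) (nat_lit 40) (nat_lit 5) (nat_lit 41) (nat_lit 5) (nat_lit 42) (nat_lit 4) (nat_lit 544) (nat_lit 454) (nat_lit 202)) (XT.lf (nat_lit 0) (nat_lit 385984317181) (nat_lit 152)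 (nat_lit 360868815656) (nat_lit 0) (nat_lit 168475501609) (nat_lit 40) (nat_lit 5) (nat_lit 42) (nat_lit 4) (nat_lit 40) (nat_lit 4) (nat_lit 545) (nat_lit 454) (nat_lit 201))) (XT.nd (nat_lit 78) (nat_lit 0) (nat_lit 0) (XT.lf (nat_lit 0) (nat_lit 158928110992) (nat_lit 76) (nat_lit 503145717918) (nat_lit 76) (nat_lit 285636857226) (nat_lit 39) (nat_lit 4) (nat_lit 40) (nat_lit 5) (nat_lit 40) (nat_lit 4) (nat_lit 546) (nat_lit 454) (nat_lit 200)) (XT.lf (nat_lit 0) (nat_lit 717243211491) (nat_lit 76) (nat_lit 240835981864) (nat_lit 76) (nat_lit 23327078200) (nat_lit 39) (nat_lit 4) (nat_lit 40) (nat_lit 5) (nat_lit 40) (nat_lit 4) (nat_lit 547) (nat_lit 454) (nat_lit 199))))) (XT.nd (nat_lit 55380) (nat_lit 0) (nat_lit 9652) (XT.nd (nat_lit 55224) (nat_lit 0) (nat_lit 9576) (XT.nd (nat_lit 78) (nat_lit 0) (nat_lit 0) (XT.lf (nat_lit 0) (nat_lit 249269189692) (nat_lit 152) (nat_lit 724940848878)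 (nat_lit 0) (nat_lit 42117813894) (nat_lit 37) (nat_lit 5) (nat_lit 39) (nat_lit 4) (nat_lit 37) (nat_lit 4) (nat_lit 548) (nat_lit 454) (nat_lit 198)) (XT.lf (nat_lit 0) (nat_lit 543206420904) (nat_lit 152) (nat_lit 173290208340) (nat_lit 0) (nat_lit 336055007985) (nat_lit 37) (nat_lit 5) (nat_lit 39) (nat_lit 4) (nat_lit 37) (nat_lit 4) (nat_lit 549) (nat_lit 454) (nat_lit 197))) (XT.nd (nat_lit 78) (nat_lit 0) (nat_lit 0) (XT.lf (nat_lit 0) (nat_lit 13034404280) (nat_lit 836) (nat_lit 8336684047) (nat_lit 836) (nat_lit 8336684047) (nat_lit 163) (nat_lit 3) (nat_lit 174) (nat_lit 3) (nat_lit 174) (nat_lit 5) (nat_lit 455) (nat_lit 455) (nat_lit 290)) (XT.lf (nat_lit 76) (nat_lit 13341052299) (nat_lit 0) (nat_lit 13606009611) (nat_lit 836) (nat_lit 33942543394) (nat_lit 164) (nat_lit 5) (nat_lit 163) (nat_lit 3) (nat_lit 174) (nat_lit 5) (nat_lit 456) (nat_lit 455) (nat_lit 289)))) (XT.nd (nat_lit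 156) (nat_lit 0) (nat_lit 76) (XT.nd (nat_lit 78) (nat_lit 0) (nat_lit 0) (XT.lf (nat_lit 0) (nat_lit 28420273565) (nat_lit 760) (nat_lit 17258738920) (nat_lit 836) (nat_lit 16730804209) (nat_lit 164) (nat_lit 5) (nat_lit 174) (nat_lit 5) (nat_lit 175) (nat_lit 5) (nat_lit 457) (nat_lit 455) (nat_lit 288)) (XT.lf (nat_lit 76) (nat_lit 14795394082) (nat_lit 0) (nat_lit 15624685193) (nat_lit 836) (nat_lit 33563312791) (nat_lit 165) (nat_lit 5) (nat_lit 164) (nat_lit 5) (nat_lit 175) (nat_lit 5) (nat_lit 458) (nat_lit 455) (nat_lit 287))) (XT.nd (nat_lit 78) (nat_lit 0) (nat_lit 0) (XT.lf (nat_lit 0) (nat_lit 33064636491) (nat_lit 760) (nat_lit 16823870870) (nat_lit 836) (nat_lit 15719900866) (nat_lit 165) (nat_lit 5) (nat_lit 175) (nat_lit 5) (nat_lit 176) (nat_lit 5) (nat_lit 459) (nat_lit 455) (nat_lit 286)) (XT.nd (nat_lit 78) (nat_lit 0) (nat_lit 76) (XT.lf (nat_lit 76) (nat_lit 17460482048)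 (nat_lit 0) (nat_lit 18908675433) (nat_lit 836) (nat_lit 30919130997) (nat_lit 166) (nat_lit 5) (nat_lit 165) (nat_lit 5) (nat_lit 176) (nat_lit 5) (nat_lit 460) (nat_lit 455) (nat_lit 285)) (XT.lf (nat_lit 0) (nat_lit 40340173425) (nat_lit 760) (nat_lit 15212822051) (nat_lit 836) (nat_lit 13474103895) (nat_lit 166) (nat_lit 5) (nat_lit 176) (nat_lit 5) (nat_lit 177) (nat_lit 5) (nat_lit 461) (nat_lit 455) (nat_lit 284))))))))
noncomputable def xc398 : XT := (XT.nd (nat_lit 1248) (nat_lit 2432) (nat_lit 0) (XT.nd (nat_lit 624) (nat_lit 1368) (nat_lit 0) (XT.nd (nat_lit 312) (nat_lit 1520) (nat_lit 0) (XT.nd (nat_lit 156) (nat_lit 0) (nat_lit 76) (XT.nd (nat_lit 78) (nat_lit 0) (nat_lit 76) (XT.lf (nat_lit 76) (nat_lit 21510719933) (nat_lit 0) (nat_lit 23643916379) (nat_lit 836) (nat_lit 25665969759) (nat_lit 167) (nat_lit 5) (nat_lit 166) (nat_lit 5) (nat_lit 177) (nat_lit 5) (nat_lit 462) (nat_lit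 455) (nat_lit 283)) (XT.lf (nat_lit 0) (nat_lit 50624746229) (nat_lit 760) (nat_lit 12251215349) (nat_lit 836) (nat_lit 9807080402) (nat_lit 167) (nat_lit 5) (nat_lit 177) (nat_lit 5) (nat_lit 178) (nat_lit 5) (nat_lit 463) (nat_lit 455) (nat_lit 282))) (XT.nd (nat_lit 78) (nat_lit 0) (nat_lit 76) (XT.lf (nat_lit 76) (nat_lit 27140764906) (nat_lit 0) (nat_lit 30038099583) (nat_lit 836) (nat_lit 17419210117) (nat_lit 168) (nat_lit 5) (nat_lit 167) (nat_lit 5) (nat_lit 178) (nat_lit 5) (nat_lit 464) (nat_lit 455) (nat_lit 281)) (XT.lf (nat_lit 0) (nat_lit 64340102917) (nat_lit 760) (nat_lit 7744278799) (nat_lit 76) (nat_lit 4510506495) (nat_lit 168) (nat_lit 5) (nat_lit 178) (nat_lit 5) (nat_lit 169) (nat_lit 5) (nat_lit 465) (nat_lit 455) (nat_lit 280)))) (XT.nd (nat_lit 156) (nat_lit 836) (nat_lit 0) (XT.nd (nat_lit 78) (nat_lit 76) (nat_lit 0) (XT.lf (nat_lit 0) (nat_lit 34567666859) (nat_lit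 760) (nat_lit 38323087175) (nat_lit 836) (nat_lit 5749220983) (nat_lit 158) (nat_lit 5) (nat_lit 168) (nat_lit 5) (nat_lit 169) (nat_lit 5) (nat_lit 466) (nat_lit 455) (nat_lit 279)) (XT.lf (nat_lit 0) (nat_lit 1179544794) (nat_lit 836) (nat_lit 1536426263) (nat_lit 76) (nat_lit 78063873707) (nat_lit 157) (nat_lit 5) (nat_lit 168) (nat_lit 5) (nat_lit 158) (nat_lit 5) (nat_lit 467) (nat_lit 455) (nat_lit 278))) (XT.nd (nat_lit 78) (nat_lit 380) (nat_lit 0) (XT.lf (nat_lit 0) (nat_lit 9509109170) (nat_lit 532) (nat_lit 39087432696) (nat_lit 76) (nat_lit 34363075114) (nat_lit 151) (nat_lit 5) (nat_lit 158) (nat_lit 5) (nat_lit 152) (nat_lit 5) (nat_lit 468) (nat_lit 455) (nat_lit 277)) (XT.lf (nat_lit 0) (nat_lit 6520541576) (nat_lit 380) (nat_lit 11906684759) (nat_lit 456) (nat_lit 66812547790) (nat_lit 146) (nat_lit 5) (nat_lit 151) (nat_lit 5) (nat_lit 152) (nat_lit 5) (nat_lit 469) (nat_lit 455)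 (nat_lit 276))))) (XT.nd (nat_lit 312) (nat_lit 684) (nat_lit 0) (XT.nd (nat_lit 156) (nat_lit 304) (nat_lit 0) (XT.nd (nat_lit 78) (nat_lit 380) (nat_lit 0) (XT.lf (nat_lit 0) (nat_lit 28878964569) (nat_lit 456) (nat_lit 32262045366) (nat_lit 76) (nat_lit 26438543479) (nat_lit 146) (nat_lit 5) (nat_lit 152) (nat_lit 5) (nat_lit 147) (nat_lit 5) (nat_lit 470) (nat_lit 455) (nat_lit 275)) (XT.lf (nat_lit 0) (nat_lit 16861808806) (nat_lit 380) (nat_lit 23449287212) (nat_lit 456) (nat_lit 49702335378) (nat_lit 141) (nat_lit 5) (nat_lit 146) (nat_lit 5) (nat_lit 147) (nat_lit 5) (nat_lit 471) (nat_lit 455) (nat_lit 274))) (XT.nd (nat_lit 78) (nat_lit 304) (nat_lit 0) (XT.lf (nat_lit 0) (nat_lit 53121326470) (nat_lit 456) (nat_lit 23241212020) (nat_lit 76) (nat_lit 16166140205) (nat_lit 141) (nat_lit 5) (nat_lit 147) (nat_lit 5) (nat_lit 142) (nat_lit 5) (nat_lit 472) (nat_lit 455) (nat_lit 273)) (XT.lf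 (nat_lit 0) (nat_lit 29731219204) (nat_lit 304) (nat_lit 37688855379) (nat_lit 380) (nat_lit 27707213509) (nat_lit 137) (nat_lit 5) (nat_lit 141) (nat_lit 5) (nat_lit 142) (nat_lit 5) (nat_lit 473) (nat_lit 455) (nat_lit 272)))) (XT.nd (nat_lit 156) (nat_lit 380) (nat_lit 0) (XT.nd (nat_lit 78) (nat_lit 304) (nat_lit 0) (XT.lf (nat_lit 0) (nat_lit 82878800665) (nat_lit 380) (nat_lit 11729699017) (nat_lit 76) (nat_lit 3225076286) (nat_lit 137) (nat_lit 5) (nat_lit 142) (nat_lit 5) (nat_lit 138) (nat_lit 5) (nat_lit 474) (nat_lit 455) (nat_lit 271)) (XT.lf (nat_lit 0) (nat_lit 45456372901) (nat_lit 304) (nat_lit 54981089956) (nat_lit 380) (nat_lit 171365427) (nat_lit 133) (nat_lit 5) (nat_lit 137) (nat_lit 5) (nat_lit 138) (nat_lit 5) (nat_lit 475) (nat_lit 455) (nat_lit 270))) (XT.nd (nat_lit 78) (nat_lit 0) (nat_lit 0) (XT.lf (nat_lit 0) (nat_lit 2223643072) (nat_lit 304) (nat_lit 12872314833)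 (nat_lit 380) (nat_lit 88403097683) (nat_lit 128) (nat_lit 5) (nat_lit 132) (nat_lit 5) (nat_lit 133) (nat_lit 5) (nat_lit 476) (nat_lit 455) (nat_lit 269)) (XT.lf (nat_lit 0) (nat_lit 32559038424) (nat_lit 380) (nat_lit 42611909108) (nat_lit 76) (nat_lit 31290798791) (nat_lit 128) (nat_lit 5) (nat_lit 133) (nat_lit 5) (nat_lit 129) (nat_lit 5) (nat_lit 477) (nat_lit 455) (nat_lit 268)))))) (XT.nd (nat_lit 624) (nat_lit 1064) (nat_lit 0) (XT.nd (nat_lit 312) (nat_lit 760) (nat_lit 0) (XT.nd (nat_lit 156) (nat_lit 304) (nat_lit 0) (XT.nd (nat_lit 78) (nat_lit 0) (nat_lit 0) (XT.lf (nat_lit 0) (nat_lit 19393828182) (nat_lit 304) (nat_lit 32014753204) (nat_lit 380) (nat_lit 58138324819) (nat_lit 124) (nat_lit 5) (nat_lit 128) (nat_lit 5) (nat_lit 129) (nat_lit 5) (nat_lit 478) (nat_lit 455) (nat_lit 267)) (XT.lf (nat_lit 0) (nat_lit 72141230563) (nat_lit 380) (nat_lit 26991124106) (nat_lit 76) (nat_lit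 13606937984) (nat_lit 124) (nat_lit 5) (nat_lit 129) (nat_lit 5) (nat_lit 125) (nat_lit 5) (nat_lit 479) (nat_lit 455) (nat_lit 266))) (XT.nd (nat_lit 78) (nat_lit 76) (nat_lit 0) (XT.lf (nat_lit 0) (nat_lit 40086489363) (nat_lit 228) (nat_lit 54974247591) (nat_lit 304) (nat_lit 20973050259) (nat_lit 121) (nat_lit 5) (nat_lit 124) (nat_lit 5) (nat_lit 125) (nat_lit 5) (nat_lit 480) (nat_lit 455) (nat_lit 265)) (XT.lf (nat_lit 0) (nat_lit 109088540) (nat_lit 304) (nat_lit 8017493153) (nat_lit 76) (nat_lit 111343504319) (nat_lit 120) (nat_lit 5) (nat_lit 124) (nat_lit 5) (nat_lit 121) (nat_lit 5) (nat_lit 481) (nat_lit 455) (nat_lit 264)))) (XT.nd (nat_lit 156) (nat_lit 228) (nat_lit 0) (XT.nd (nat_lit 78) (nat_lit 228) (nat_lit 0) (XT.lf (nat_lit 0) (nat_lit 23219012674) (nat_lit 380) (nat_lit 58627382695) (nat_lit 76) (nat_lit 41130687857) (nat_lit 116) (nat_lit 5) (nat_lit 121) (nat_lit 5) (nat_lit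 117) (nat_lit 5) (nat_lit 482) (nat_lit 455) (nat_lit 263)) (XT.lf (nat_lit 0) (nat_lit 14282018226) (nat_lit 228) (nat_lit 33696192841) (nat_lit 304) (nat_lit 78656530355) (nat_lit 113) (nat_lit 5) (nat_lit 116) (nat_lit 5) (nat_lit 117) (nat_lit 5) (nat_lit 483) (nat_lit 455) (nat_lit 262))) (XT.nd (nat_lit 78) (nat_lit 228) (nat_lit 0) (XT.lf (nat_lit 0) (nat_lit 75247360364) (nat_lit 304) (nat_lit 37833488561) (nat_lit 76) (nat_lit 17330834075) (nat_lit 113) (nat_lit 5) (nat_lit 117) (nat_lit 5) (nat_lit 114) (nat_lit 5) (nat_lit 484) (nat_lit 455) (nat_lit 261)) (XT.lf (nat_lit 0) (nat_lit 41176632625) (nat_lit 228) (nat_lit 63898209487) (nat_lit 304) (nat_lit 29242885815) (nat_lit 110) (nat_lit 5) (nat_lit 113) (nat_lit 5) (nat_lit 114) (nat_lit 5) (nat_lit 485) (nat_lit 455) (nat_lit 260))))) (XT.nd (nat_lit 312) (nat_lit 608) (nat_lit 0) (XT.nd (nat_lit 156) (nat_lit 228) (nat_lit 0) (XT.nd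 (nat_lit 78) (nat_lit 228) (nat_lit 0) (XT.lf (nat_lit 0) (nat_lit 125450174671) (nat_lit 228) (nat_lit 11583857680) (nat_lit 304) (nat_lit 1353026047) (nat_lit 110) (nat_lit 5) (nat_lit 113) (nat_lit 5) (nat_lit 114) (nat_lit 5) (nat_lit 486) (nat_lit 455) (nat_lit 259)) (XT.lf (nat_lit 0) (nat_lit 28882196377) (nat_lit 228) (nat_lit 70100365173) (nat_lit 76) (nat_lit 43563247218) (nat_lit 107) (nat_lit 5) (nat_lit 110) (nat_lit 5) (nat_lit 108) (nat_lit 5) (nat_lit 487) (nat_lit 455) (nat_lit 258))) (XT.nd (nat_lit 78) (nat_lit 0) (nat_lit 0) (XT.lf (nat_lit 0) (nat_lit 15938370030) (nat_lit 228) (nat_lit 45306390559) (nat_lit 304) (nat_lit 85633574486) (nat_lit 104) (nat_lit 5) (nat_lit 107) (nat_lit 5) (nat_lit 108) (nat_lit 5) (nat_lit 488) (nat_lit 455) (nat_lit 257)) (XT.lf (nat_lit 0) (nat_lit 96604307400) (nat_lit 304) (nat_lit 42847975962) (nat_lit 76) (nat_lit 11906261631) (nat_lit 104)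 (nat_lit 5) (nat_lit 108) (nat_lit 5) (nat_lit 105) (nat_lit 5) (nat_lit 489) (nat_lit 455) (nat_lit 256)))) (XT.nd (nat_lit 156) (nat_lit 380) (nat_lit 0) (XT.nd (nat_lit 78) (nat_lit 76) (nat_lit 0) (XT.lf (nat_lit 0) (nat_lit 50522367275) (nat_lit 152) (nat_lit 84740636546) (nat_lit 228) (nat_lit 20723202986) (nat_lit 102) (nat_lit 5) (nat_lit 104) (nat_lit 5) (nat_lit 105) (nat_lit 5) (nat_lit 490) (nat_lit 455) (nat_lit 255)) (XT.lf (nat_lit 0) (nat_lit 15266187948) (nat_lit 228) (nat_lit 11006942507) (nat_lit 76) (nat_lit 134523544415) (nat_lit 101) (nat_lit 5) (nat_lit 104) (nat_lit 5) (nat_lit 102) (nat_lit 5) (nat_lit 491) (nat_lit 455) (nat_lit 254))) (XT.nd (nat_lit 78) (nat_lit 152) (nat_lit 0) (XT.lf (nat_lit 0) (nat_lit 54352011595) (nat_lit 304) (nat_lit 75600250395) (nat_lit 76) (nat_lit 35778748193) (nat_lit 98) (nat_lit 5) (nat_lit 102) (nat_lit 5) (nat_lit 99) (nat_lit 5) (nat_lit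 492) (nat_lit 455) (nat_lit 253)) (XT.nd (nat_lit 78) (nat_lit 0) (nat_lit 0) (XT.lf (nat_lit 0) (nat_lit 26209310184) (nat_lit 152) (nat_lit 70211860645) (nat_lit 228) (nat_lit 74439439224) (nat_lit 96) (nat_lit 5) (nat_lit 98) (nat_lit 5) (nat_lit 99) (nat_lit 5) (nat_lit 493) (nat_lit 455) (nat_lit 252)) (XT.lf (nat_lit 0) (nat_lit 135733497305) (nat_lit 152) (nat_lit 6140297779) (nat_lit 228) (nat_lit 34308894490) (nat_lit 96) (nat_lit 5) (nat_lit 98) (nat_lit 5) (nat_lit 99) (nat_lit 5) (nat_lit 494) (nat_lit 455) (nat_lit 251))))))))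
noncomputable def xc399 : XT := (XT.nd (nat_lit 1248) (nat_lit 1292) (nat_lit 0) (XT.nd (nat_lit 624) (nat_lit 760) (nat_lit 0) (XT.nd (nat_lit 312) (nat_lit 380) (nat_lit 0) (XT.nd (nat_lit 156) (nat_lit 304) (nat_lit 0) (XT.nd (nat_lit 78) (nat_lit 0) (nat_lit 0) (XT.lf (nat_lit 0) (nat_lit 9662333539) (nat_lit 228) (nat_lit 111567485001) (nat_lit 76) (nat_lit 60430708223) (nat_lit 93) (nat_lit 5) (nat_lit 96) (nat_lit 5) (nat_lit 94) (nat_lit 5) (nat_lit 495) (nat_lit 455) (nat_lit 250)) (XT.lf (nat_lit 0) (nat_lit 55475730701) (nat_lit 228) (nat_lit 486154606) (nat_lit 76) (nat_lit 131382417891) (nat_lit 93) (nat_lit 5) (nat_lit 96) (nat_lit 5) (nat_lit 94) (nat_lit 5) (nat_lit 496) (nat_lit 455) (nat_lit 249))) (XT.nd (nat_lit 78) (nat_lit 152) (nat_lit 0) (XT.lf (nat_lit 0) (nat_lit 105679825801) (nat_lit 228) (nat_lit 73456408552) (nat_lit 76) (nat_lit 14071032708) (nat_lit 91) (nat_lit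 5) (nat_lit 94) (nat_lit 5) (nat_lit 92) (nat_lit 5) (nat_lit 497) (nat_lit 455) (nat_lit 248)) (XT.lf (nat_lit 0) (nat_lit 47247825749) (nat_lit 152) (nat_lit 112809459338) (nat_lit 228) (nat_lit 39222936066) (nat_lit 89) (nat_lit 5) (nat_lit 91) (nat_lit 5) (nat_lit 92) (nat_lit 5) (nat_lit 498) (nat_lit 455) (nat_lit 247)))) (XT.nd (nat_lit 156) (nat_lit 152) (nat_lit 0) (XT.nd (nat_lit 78) (nat_lit 152) (nat_lit 0) (XT.lf (nat_lit 0) (nat_lit 12392952581) (nat_lit 228) (nat_lit 29257491910) (nat_lit 76) (nat_lit 163934197238) (nat_lit 88) (nat_lit 5) (nat_lit 91) (nat_lit 5) (nat_lit 89) (nat_lit 5) (nat_lit 499) (nat_lit 455) (nat_lit 246)) (XT.lf (nat_lit 0) (nat_lit 67421173087) (nat_lit 228) (nat_lit 110358780555) (nat_lit 76) (nat_lit 34284695487) (nat_lit 86) (nat_lit 5) (nat_lit 89) (nat_lit 5) (nat_lit 87) (nat_lit 5) (nat_lit 500) (nat_lit 455) (nat_lit 245))) (XT.nd (nat_lit 78) (nat_lit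 0) (nat_lit 0) (XT.lf (nat_lit 0) (nat_lit 21382246414) (nat_lit 152) (nat_lit 105338531948) (nat_lit 228) (nat_lit 92071879859) (nat_lit 84) (nat_lit 5) (nat_lit 86) (nat_lit 5) (nat_lit 87) (nat_lit 5) (nat_lit 501) (nat_lit 455) (nat_lit 244)) (XT.lf (nat_lit 0) (nat_lit 163541269214) (nat_lit 152) (nat_lit 27312809866) (nat_lit 228) (nat_lit 34909552935) (nat_lit 84) (nat_lit 5) (nat_lit 86) (nat_lit 5) (nat_lit 87) (nat_lit 5) (nat_lit 502) (nat_lit 455) (nat_lit 243))))) (XT.nd (nat_lit 312) (nat_lit 380) (nat_lit 0) (XT.nd (nat_lit 156) (nat_lit 228) (nat_lit 0) (XT.nd (nat_lit 78) (nat_lit 0) (nat_lit 0) (XT.lf (nat_lit 0) (nat_lit 26466568264) (nat_lit 152) (nat_lit 151923986607) (nat_lit 76) (nat_lit 54565027904) (nat_lit 82) (nat_lit 5) (nat_lit 84) (nat_lit 5) (nat_lit 83) (nat_lit 5) (nat_lit 503) (nat_lit 455) (nat_lit 242)) (XT.lf (nat_lit 0) (nat_lit 91256843838) (nat_lit 152) (nat_lit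 7883735213) (nat_lit 76) (nat_lit 141262010730) (nat_lit 82) (nat_lit 5) (nat_lit 84) (nat_lit 5) (nat_lit 83) (nat_lit 5) (nat_lit 504) (nat_lit 455) (nat_lit 241))) (XT.nd (nat_lit 78) (nat_lit 76) (nat_lit 0) (XT.lf (nat_lit 0) (nat_lit 148098164555) (nat_lit 152) (nat_lit 13500454652) (nat_lit 228) (nat_lit 86507728635) (nat_lit 80) (nat_lit 5) (nat_lit 82) (nat_lit 5) (nat_lit 83) (nat_lit 5) (nat_lit 505) (nat_lit 455) (nat_lit 240)) (XT.lf (nat_lit 0) (nat_lit 56579362038) (nat_lit 76) (nat_lit 181090104474) (nat_lit 152) (nat_lit 18415228142) (nat_lit 79) (nat_lit 5) (nat_lit 80) (nat_lit 5) (nat_lit 81) (nat_lit 4) (nat_lit 506) (nat_lit 455) (nat_lit 239)))) (XT.nd (nat_lit 156) (nat_lit 152) (nat_lit 0) (XT.nd (nat_lit 78) (nat_lit 152) (nat_lit 0) (XT.lf (nat_lit 0) (nat_lit 53325477917) (nat_lit 152) (nat_lit 40987206238) (nat_lit 76) (nat_lit 170010710160) (nat_lit 78) (nat_lit 5)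 (nat_lit 80) (nat_lit 5) (nat_lit 79) (nat_lit 5) (nat_lit 507) (nat_lit 455) (nat_lit 238)) (XT.lf (nat_lit 0) (nat_lit 129292698669) (nat_lit 152) (nat_lit 760042411) (nat_lit 228) (nat_lit 142805273722) (nat_lit 76) (nat_lit 5) (nat_lit 78) (nat_lit 5) (nat_lit 79) (nat_lit 5) (nat_lit 508) (nat_lit 455) (nat_lit 237))) (XT.nd (nat_lit 78) (nat_lit 76) (nat_lit 0) (XT.lf (nat_lit 0) (nat_lit 27057349816) (nat_lit 76) (nat_lit 186208534072) (nat_lit 152) (nat_lit 68421006606) (nat_lit 75) (nat_lit 5) (nat_lit 76) (nat_lit 5) (nat_lit 77) (nat_lit 4) (nat_lit 509) (nat_lit 455) (nat_lit 236)) (XT.lf (nat_lit 0) (nat_lit 11856015424) (nat_lit 152) (nat_lit 79844133323) (nat_lit 76) (nat_lit 199125330641) (nat_lit 74) (nat_lit 5) (nat_lit 76) (nat_lit 5) (nat_lit 75) (nat_lit 5) (nat_lit 510) (nat_lit 455) (nat_lit 235)))))) (XT.nd (nat_lit 624) (nat_lit 608) (nat_lit 0) (XT.nd (nat_lit 312) (nat_lit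 228) (nat_lit 0) (XT.nd (nat_lit 156) (nat_lit 304) (nat_lit 0) (XT.nd (nat_lit 78) (nat_lit 0) (nat_lit 0) (XT.lf (nat_lit 0) (nat_lit 95664573222) (nat_lit 228) (nat_lit 194495800877) (nat_lit 76) (nat_lit 10113686881) (nat_lit 72) (nat_lit 5) (nat_lit 75) (nat_lit 5) (nat_lit 73) (nat_lit 4) (nat_lit 511) (nat_lit 455) (nat_lit 234)) (XT.lf (nat_lit 0) (nat_lit 186540993518) (nat_lit 228) (nat_lit 8199525367) (nat_lit 76) (nat_lit 115310681041) (nat_lit 72) (nat_lit 5) (nat_lit 75) (nat_lit 5) (nat_lit 73) (nat_lit 4) (nat_lit 512) (nat_lit 455) (nat_lit 233))) (XT.nd (nat_lit 78) (nat_lit 228) (nat_lit 0) (XT.lf (nat_lit 0) (nat_lit 193607846431) (nat_lit 76) (nat_lit 91375946847) (nat_lit 152) (nat_lit 35182274621) (nat_lit 71) (nat_lit 5) (nat_lit 72) (nat_lit 5) (nat_lit 73) (nat_lit 4) (nat_lit 513) (nat_lit 455) (nat_lit 232)) (XT.lf (nat_lit 0) (nat_lit 57360460600) (nat_lit 228) (nat_lit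 254419893857) (nat_lit 76) (nat_lit 18879351968) (nat_lit 68) (nat_lit 5) (nat_lit 71) (nat_lit 5) (nat_lit 69) (nat_lit 4) (nat_lit 514) (nat_lit 455) (nat_lit 231)))) (XT.nd (nat_lit 156) (nat_lit 152) (nat_lit 0) (XT.nd (nat_lit 78) (nat_lit 76) (nat_lit 0) (XT.lf (nat_lit 0) (nat_lit 157024204046) (nat_lit 228) (nat_lit 50109537436) (nat_lit 76) (nat_lit 134331636138) (nat_lit 68) (nat_lit 5) (nat_lit 71) (nat_lit 5) (nat_lit 69) (nat_lit 4) (nat_lit 515) (nat_lit 455) (nat_lit 230)) (XT.lf (nat_lit 0) (nat_lit 169852310179) (nat_lit 76) (nat_lit 94470503687) (nat_lit 152) (nat_lit 88355934551) (nat_lit 67) (nat_lit 5) (nat_lit 68) (nat_lit 5) (nat_lit 69) (nat_lit 4) (nat_lit 516) (nat_lit 455) (nat_lit 229))) (XT.nd (nat_lit 78) (nat_lit 0) (nat_lit 0) (XT.lf (nat_lit 0) (nat_lit 14005928585) (nat_lit 152) (nat_lit 325582842931) (nat_lit 76) (nat_lit 24760556307) (nat_lit 65) (nat_lit 5)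 (nat_lit 67) (nat_lit 5) (nat_lit 66) (nat_lit 4) (nat_lit 517) (nat_lit 455) (nat_lit 228)) (XT.lf (nat_lit 0) (nat_lit 123212065350) (nat_lit 152) (nat_lit 101710523888) (nat_lit 76) (nat_lit 151373648105) (nat_lit 65) (nat_lit 5) (nat_lit 67) (nat_lit 5) (nat_lit 66) (nat_lit 4) (nat_lit 518) (nat_lit 455) (nat_lit 227))))) (XT.nd (nat_lit 312) (nat_lit 304) (nat_lit 0) (XT.nd (nat_lit 156) (nat_lit 228) (nat_lit 0) (XT.nd (nat_lit 78) (nat_lit 0) (nat_lit 0) (XT.lf (nat_lit 0) (nat_lit 137764386407) (nat_lit 76) (nat_lit 102264829761) (nat_lit 152) (nat_lit 148703740812) (nat_lit 64) (nat_lit 5) (nat_lit 65) (nat_lit 5) (nat_lit 66) (nat_lit 4) (nat_lit 519) (nat_lit 455) (nat_lit 226)) (XT.lf (nat_lit 0) (nat_lit 364851941636) (nat_lit 152) (nat_lit 9403911349) (nat_lit 0) (nat_lit 27427423761) (nat_lit 64) (nat_lit 5) (nat_lit 66) (nat_lit 4) (nat_lit 64) (nat_lit 4) (nat_lit 520) (nat_lit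 455) (nat_lit 225))) (XT.nd (nat_lit 78) (nat_lit 76) (nat_lit 0) (XT.lf (nat_lit 0) (nat_lit 83734087727) (nat_lit 152) (nat_lit 165769853026) (nat_lit 76) (nat_lit 165430214548) (nat_lit 62) (nat_lit 5) (nat_lit 64) (nat_lit 5) (nat_lit 63) (nat_lit 4) (nat_lit 521) (nat_lit 455) (nat_lit 224)) (XT.lf (nat_lit 0) (nat_lit 94567821991) (nat_lit 76) (nat_lit 116160353430) (nat_lit 152) (nat_lit 218007304341) (nat_lit 61) (nat_lit 5) (nat_lit 62) (nat_lit 5) (nat_lit 63) (nat_lit 4) (nat_lit 522) (nat_lit 455) (nat_lit 223)))) (XT.nd (nat_lit 156) (nat_lit 152) (nat_lit 0) (XT.nd (nat_lit 78) (nat_lit 152) (nat_lit 0) (XT.lf (nat_lit 0) (nat_lit 347297584192) (nat_lit 152) (nat_lit 69827690398) (nat_lit 0) (nat_lit 25940315023) (nat_lit 61) (nat_lit 5) (nat_lit 63) (nat_lit 4) (nat_lit 61) (nat_lit 4) (nat_lit 523) (nat_lit 455) (nat_lit 222)) (XT.lf (nat_lit 0) (nat_lit 36849886425) (nat_lit 152)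 (nat_lit 245815178871) (nat_lit 76) (nat_lit 175156229076) (nat_lit 59) (nat_lit 5) (nat_lit 61) (nat_lit 5) (nat_lit 60) (nat_lit 4) (nat_lit 524) (nat_lit 455) (nat_lit 221))) (XT.nd (nat_lit 78) (nat_lit 76) (nat_lit 0) (XT.lf (nat_lit 0) (nat_lit 36684685521) (nat_lit 76) (nat_lit 137970094975) (nat_lit 152) (nat_lit 298492778481) (nat_lit 58) (nat_lit 5) (nat_lit 59) (nat_lit 5) (nat_lit 60) (nat_lit 4) (nat_lit 525) (nat_lit 455) (nat_lit 220)) (XT.nd (nat_lit 78) (nat_lit 76) (nat_lit 0) (XT.lf (nat_lit 0) (nat_lit 323798951333) (nat_lit 152) (nat_lit 147474806285) (nat_lit 0) (nat_lit 17743927591) (nat_lit 58) (nat_lit 5) (nat_lit 60) (nat_lit 4) (nat_lit 58) (nat_lit 4) (nat_lit 526) (nat_lit 455) (nat_lit 219)) (XT.lf (nat_lit 0) (nat_lit 158782593280) (nat_lit 76) (nat_lit 326358429563) (nat_lit 76) (nat_lit 20303260306) (nat_lit 57) (nat_lit 4) (nat_lit 58) (nat_lit 5) (nat_lit 58)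 (nat_lit 4) (nat_lit 527) (nat_lit 455) (nat_lit 218))))))))
noncomputable def xc400 : XT := (XT.nd (nat_lit 1248) (nat_lit 456) (nat_lit 0) (XT.nd (nat_lit 624) (nat_lit 456) (nat_lit 0) (XT.nd (nat_lit 312) (nat_lit 304) (nat_lit 0) (XT.nd (nat_lit 156) (nat_lit 152) (nat_lit 0) (XT.nd (nat_lit 78) (nat_lit 76) (nat_lit 0) (XT.lf (nat_lit 0) (nat_lit 130176054915) (nat_lit 152) (nat_lit 39194395267) (nat_lit 76) (nat_lit 353091909819) (nat_lit 56) (nat_lit 5) (nat_lit 58) (nat_lit 5) (nat_lit 57) (nat_lit 4) (nat_lit 528) (nat_lit 455) (nat_lit 217)) (XT.lf (nat_lit 0) (nat_lit 292076024707) (nat_lit 152) (nat_lit 247415069958) (nat_lit 0) (nat_lit 594653439) (nat_lit 55) (nat_lit 5) (nat_lit 57) (nat_lit 4) (nat_lit 55) (nat_lit 4) (nat_lit 529) (nat_lit 455) (nat_lit 216))) (XT.nd (nat_lit 78) (nat_lit 76) (nat_lit 0) (XT.lf (nat_lit 0) (nat_lit 83827912664) (nat_lit 76) (nat_lit 383002945342)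 (nat_lit 76) (nat_lit 91521454358) (nat_lit 54) (nat_lit 4) (nat_lit 55) (nat_lit 5) (nat_lit 55) (nat_lit 4) (nat_lit 530) (nat_lit 455) (nat_lit 215)) (XT.lf (nat_lit 0) (nat_lit 74720092417) (nat_lit 152) (nat_lit 138305415543) (nat_lit 76) (nat_lit 364236941215) (nat_lit 53) (nat_lit 5) (nat_lit 55) (nat_lit 5) (nat_lit 54) (nat_lit 4) (nat_lit 531) (nat_lit 455) (nat_lit 214)))) (XT.nd (nat_lit 156) (nat_lit 228) (nat_lit 0) (XT.nd (nat_lit 78) (nat_lit 0) (nat_lit 0) (XT.lf (nat_lit 0) (nat_lit 220274037384) (nat_lit 76) (nat_lit 29362914308) (nat_lit 152) (nat_lit 347234175743) (nat_lit 52) (nat_lit 5) (nat_lit 53) (nat_lit 5) (nat_lit 54) (nat_lit 4) (nat_lit 532) (nat_lit 455) (nat_lit 213)) (XT.lf (nat_lit 0) (nat_lit 438232607195) (nat_lit 152) (nat_lit 18350108031) (nat_lit 0) (nat_lit 160630876718) (nat_lit 52) (nat_lit 5) (nat_lit 54) (nat_lit 4) (nat_lit 52) (nat_lit 4) (nat_lit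 533) (nat_lit 455) (nat_lit 212))) (XT.nd (nat_lit 78) (nat_lit 76) (nat_lit 0) (XT.lf (nat_lit 0) (nat_lit 4105910387) (nat_lit 152) (nat_lit 269184707982) (nat_lit 76) (nat_lit 364967021305) (nat_lit 50) (nat_lit 5) (nat_lit 52) (nat_lit 5) (nat_lit 51) (nat_lit 4) (nat_lit 534) (nat_lit 455) (nat_lit 211)) (XT.lf (nat_lit 0) (nat_lit 116970151598) (nat_lit 76) (nat_lit 75504026552) (nat_lit 152) (nat_lit 467625907787) (nat_lit 49) (nat_lit 5) (nat_lit 50) (nat_lit 5) (nat_lit 51) (nat_lit 4) (nat_lit 535) (nat_lit 455) (nat_lit 210))))) (XT.nd (nat_lit 312) (nat_lit 228) (nat_lit 0) (XT.nd (nat_lit 156) (nat_lit 152) (nat_lit 0) (XT.nd (nat_lit 78) (nat_lit 76) (nat_lit 0) (XT.lf (nat_lit 0) (nat_lit 396957808753) (nat_lit 152) (nat_lit 153167045433) (nat_lit 0) (nat_lit 132574952856) (nat_lit 49) (nat_lit 5) (nat_lit 51) (nat_lit 4) (nat_lit 49) (nat_lit 4) (nat_lit 536) (nat_lit 455) (nat_lit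 209)) (XT.lf (nat_lit 0) (nat_lit 263489270316) (nat_lit 76) (nat_lit 353527802186) (nat_lit 76) (nat_lit 89144869119) (nat_lit 48) (nat_lit 4) (nat_lit 49) (nat_lit 5) (nat_lit 49) (nat_lit 4) (nat_lit 537) (nat_lit 455) (nat_lit 208))) (XT.nd (nat_lit 78) (nat_lit 76) (nat_lit 0) (XT.lf (nat_lit 0) (nat_lit 116164713146) (nat_lit 152) (nat_lit 26245344612) (nat_lit 76) (nat_lit 588163752206) (nat_lit 47) (nat_lit 5) (nat_lit 49) (nat_lit 5) (nat_lit 48) (nat_lit 4) (nat_lit 538) (nat_lit 455) (nat_lit 207)) (XT.lf (nat_lit 0) (nat_lit 336719083806) (nat_lit 152) (nat_lit 334089682721) (nat_lit 0) (nat_lit 84925677561) (nat_lit 46) (nat_lit 5) (nat_lit 48) (nat_lit 4) (nat_lit 46) (nat_lit 4) (nat_lit 539) (nat_lit 455) (nat_lit 206)))) (XT.nd (nat_lit 156) (nat_lit 76) (nat_lit 0) (XT.nd (nat_lit 78) (nat_lit 76) (nat_lit 0) (XT.lf (nat_lit 0) (nat_lit 111950671375) (nat_lit 76) (nat_lit 460884601638)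 (nat_lit 76) (nat_lit 209091131904) (nat_lit 45) (nat_lit 4) (nat_lit 46) (nat_lit 5) (nat_lit 46) (nat_lit 4) (nat_lit 540) (nat_lit 455) (nat_lit 205)) (XT.lf (nat_lit 0) (nat_lit 16717304487) (nat_lit 152) (nat_lit 217523055999) (nat_lit 76) (nat_lit 574891228932) (nat_lit 44) (nat_lit 5) (nat_lit 46) (nat_lit 5) (nat_lit 45) (nat_lit 4) (nat_lit 541) (nat_lit 455) (nat_lit 204))) (XT.nd (nat_lit 78) (nat_lit 0) (nat_lit 0) (XT.lf (nat_lit 0) (nat_lit 251069709920) (nat_lit 152) (nat_lit 574975625049) (nat_lit 0) (nat_lit 11266292983) (nat_lit 43) (nat_lit 5) (nat_lit 45) (nat_lit 4) (nat_lit 43) (nat_lit 4) (nat_lit 542) (nat_lit 455) (nat_lit 203)) (XT.lf (nat_lit 0) (nat_lit 504723877852) (nat_lit 152) (nat_lit 96877174766) (nat_lit 0) (nat_lit 264920408683) (nat_lit 43) (nat_lit 5) (nat_lit 45) (nat_lit 4) (nat_lit 43) (nat_lit 4) (nat_lit 543) (nat_lit 455) (nat_lit 202)))))) (XT.nd (nat_lit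 55770) (nat_lit 0) (nat_lit 9652) (XT.nd (nat_lit 312) (nat_lit 152) (nat_lit 0) (XT.nd (nat_lit 156) (nat_lit 76) (nat_lit 0) (XT.nd (nat_lit 78) (nat_lit 152) (nat_lit 0) (XT.lf (nat_lit 0) (nat_lit 418521277079) (nat_lit 76) (nat_lit 359073659517) (nat_lit 76) (nat_lit 119270140604) (nat_lit 42) (nat_lit 4) (nat_lit 43) (nat_lit 5) (nat_lit 43) (nat_lit 4) (nat_lit 544) (nat_lit 455) (nat_lit 201)) (XT.lf (nat_lit 0) (nat_lit 33335274145) (nat_lit 76) (nat_lit 99903184603) (nat_lit 152) (nat_lit 795272333844) (nat_lit 40) (nat_lit 5) (nat_lit 41) (nat_lit 5) (nat_lit 42) (nat_lit 4) (nat_lit 545) (nat_lit 455) (nat_lit 200))) (XT.nd (nat_lit 78) (nat_lit 76) (nat_lit 0) (XT.lf (nat_lit 0) (nat_lit 405286836190) (nat_lit 152) (nat_lit 378905620435) (nat_lit 0) (nat_lit 176902444372) (nat_lit 40) (nat_lit 5) (nat_lit 42) (nat_lit 4) (nat_lit 40) (nat_lit 4) (nat_lit 546) (nat_lit 455) (nat_lit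 199)) (XT.lf (nat_lit 0) (nat_lit 166881045512) (nat_lit 76) (nat_lit 528299722635) (nat_lit 76) (nat_lit 299915289893) (nat_lit 39) (nat_lit 4) (nat_lit 40) (nat_lit 5) (nat_lit 40) (nat_lit 4) (nat_lit 547) (nat_lit 455) (nat_lit 198)))) (XT.nd (nat_lit 55302) (nat_lit 0) (nat_lit 9576) (XT.nd (nat_lit 78) (nat_lit 152) (nat_lit 0) (XT.lf (nat_lit 0) (nat_lit 753111590133) (nat_lit 76) (nat_lit 252874656025) (nat_lit 76) (nat_lit 24490184306) (nat_lit 39) (nat_lit 4) (nat_lit 40) (nat_lit 5) (nat_lit 40) (nat_lit 4) (nat_lit 548) (nat_lit 455) (nat_lit 197)) (XT.lf (nat_lit 0) (nat_lit 261735789286) (nat_lit 152) (nat_lit 761181565536) (nat_lit 0) (nat_lit 44226733249) (nat_lit 37) (nat_lit 5) (nat_lit 39) (nat_lit 4) (nat_lit 37) (nat_lit 4) (nat_lit 549) (nat_lit 455) (nat_lit 196))) (XT.nd (nat_lit 78) (nat_lit 0) (nat_lit 0) (XT.lf (nat_lit 0) (nat_lit 13704081607) (nat_lit 836) (nat_lit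 8744090072) (nat_lit 836) (nat_lit 8744090072) (nat_lit 163) (nat_lit 3) (nat_lit 174) (nat_lit 3) (nat_lit 174) (nat_lit 5) (nat_lit 456) (nat_lit 456) (nat_lit 288)) (XT.lf (nat_lit 76) (nat_lit 14026657134) (nat_lit 0) (nat_lit 14302251548) (nat_lit 836) (nat_lit 35603449563) (nat_lit 164) (nat_lit 5) (nat_lit 163) (nat_lit 3) (nat_lit 174) (nat_lit 5) (nat_lit 457) (nat_lit 456) (nat_lit 287))))) (XT.nd (nat_lit 312) (nat_lit 0) (nat_lit 152) (XT.nd (nat_lit 156) (nat_lit 0) (nat_lit 76) (XT.nd (nat_lit 78) (nat_lit 0) (nat_lit 0) (XT.lf (nat_lit 0) (nat_lit 29873901326) (nat_lit 760) (nat_lit 18102124976) (nat_lit 836) (nat_lit 17552648009) (nat_lit 164) (nat_lit 5) (nat_lit 174) (nat_lit 5) (nat_lit 175) (nat_lit 5) (nat_lit 458) (nat_lit 456) (nat_lit 286)) (XT.lf (nat_lit 76) (nat_lit 15554399339) (nat_lit 0) (nat_lit 16418045251) (nat_lit 836) (nat_lit 35208546617) (nat_lit 165) (nat_lit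 5) (nat_lit 164) (nat_lit 5) (nat_lit 175) (nat_lit 5) (nat_lit 459) (nat_lit 456) (nat_lit 285))) (XT.nd (nat_lit 78) (nat_lit 0) (nat_lit 0) (XT.lf (nat_lit 0) (nat_lit 34747555967) (nat_lit 760) (nat_lit 17645068858) (nat_lit 836) (nat_lit 16494717150) (nat_lit 165) (nat_lit 5) (nat_lit 175) (nat_lit 5) (nat_lit 176) (nat_lit 5) (nat_lit 460) (nat_lit 456) (nat_lit 284)) (XT.lf (nat_lit 76) (nat_lit 18353179196) (nat_lit 0) (nat_lit 19863017264) (nat_lit 836) (nat_lit 32435075215) (nat_lit 166) (nat_lit 5) (nat_lit 165) (nat_lit 5) (nat_lit 176) (nat_lit 5) (nat_lit 461) (nat_lit 456) (nat_lit 283)))) (XT.nd (nat_lit 156) (nat_lit 0) (nat_lit 76) (XT.nd (nat_lit 78) (nat_lit 0) (nat_lit 0) (XT.lf (nat_lit 0) (nat_lit 42384269739) (nat_lit 760) (nat_lit 15953231388) (nat_lit 836) (nat_lit 14139596761) (nat_lit 166) (nat_lit 5) (nat_lit 176) (nat_lit 5) (nat_lit 177) (nat_lit 5) (nat_lit 462)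 (nat_lit 456) (nat_lit 282)) (XT.lf (nat_lit 76) (nat_lit 22606161376) (nat_lit 0) (nat_lit 24832315287) (nat_lit 836) (nat_lit 26921852316) (nat_lit 167) (nat_lit 5) (nat_lit 166) (nat_lit 5) (nat_lit 177) (nat_lit 5) (nat_lit 463) (nat_lit 456) (nat_lit 281))) (XT.nd (nat_lit 78) (nat_lit 0) (nat_lit 0) (XT.lf (nat_lit 0) (nat_lit 53180756577) (nat_lit 760) (nat_lit 12843481174) (nat_lit 836) (nat_lit 10291715801) (nat_lit 167) (nat_lit 5) (nat_lit 177) (nat_lit 5) (nat_lit 178) (nat_lit 5) (nat_lit 464) (nat_lit 456) (nat_lit 280)) (XT.lf (nat_lit 76) (nat_lit 28517770757) (nat_lit 0) (nat_lit 31543942075) (nat_lit 836) (nat_lit 18265068463) (nat_lit 168) (nat_lit 5) (nat_lit 167) (nat_lit 5) (nat_lit 178) (nat_lit 5) (nat_lit 465) (nat_lit 456) (nat_lit 279)))))))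
noncomputable def xc401 : XT := (XT.nd (nat_lit 1248) (nat_lit 2280) (nat_lit 0) (XT.nd (nat_lit 624) (nat_lit 1520) (nat_lit 0) (XT.nd (nat_lit 312) (nat_lit 760) (nat_lit 0) (XT.nd (nat_lit 156) (nat_lit 532) (nat_lit 0) (XT.nd (nat_lit 78) (nat_lit 760) (nat_lit 0) (XT.lf (nat_lit 0) (nat_lit 67579816294) (nat_lit 760) (nat_lit 8111277383) (nat_lit 76) (nat_lit 4732401832) (nat_lit 168) (nat_lit 5) (nat_lit 178) (nat_lit 5) (nat_lit 169) (nat_lit 5) (nat_lit 466) (nat_lit 456) (nat_lit 278)) (XT.lf (nat_lit 0) (nat_lit 36315939504) (nat_lit 760) (nat_lit 40241289646) (nat_lit 836) (nat_lit 6013646127) (nat_lit 158) (nat_lit 5) (nat_lit 168) (nat_lit 5) (nat_lit 169) (nat_lit 5) (nat_lit 467) (nat_lit 456) (nat_lit 277))) (XT.nd (nat_lit 78) (nat_lit 456) (nat_lit 0) (XT.lf (nat_lit 0) (nat_lit 1259758807) (nat_lit 836) (nat_lit 1593601731) (nat_lit 76) (nat_lit 81964413155) (nat_lit 157) (nat_lit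 5) (nat_lit 168) (nat_lit 5) (nat_lit 158) (nat_lit 5) (nat_lit 468) (nat_lit 456) (nat_lit 276)) (XT.lf (nat_lit 0) (nat_lit 10005073198) (nat_lit 532) (nat_lit 41021428881) (nat_lit 76) (nat_lit 36080068922) (nat_lit 151) (nat_lit 5) (nat_lit 158) (nat_lit 5) (nat_lit 152) (nat_lit 5) (nat_lit 469) (nat_lit 456) (nat_lit 275)))) (XT.nd (nat_lit 156) (nat_lit 380) (nat_lit 0) (XT.nd (nat_lit 78) (nat_lit 0) (nat_lit 0) (XT.lf (nat_lit 0) (nat_lit 6866615469) (nat_lit 380) (nat_lit 12501817141) (nat_lit 456) (nat_lit 70132336641) (nat_lit 146) (nat_lit 5) (nat_lit 151) (nat_lit 5) (nat_lit 152) (nat_lit 5) (nat_lit 470) (nat_lit 456) (nat_lit 274)) (XT.lf (nat_lit 0) (nat_lit 30341815759) (nat_lit 456) (nat_lit 33855112165) (nat_lit 76) (nat_lit 27760656744) (nat_lit 146) (nat_lit 5) (nat_lit 152) (nat_lit 5) (nat_lit 147) (nat_lit 5) (nat_lit 471) (nat_lit 456) (nat_lit 273))) (XT.nd (nat_lit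 78) (nat_lit 0) (nat_lit 0) (XT.lf (nat_lit 0) (nat_lit 17724611563) (nat_lit 380) (nat_lit 24620349840) (nat_lit 456) (nat_lit 52168224823) (nat_lit 141) (nat_lit 5) (nat_lit 146) (nat_lit 5) (nat_lit 147) (nat_lit 5) (nat_lit 472) (nat_lit 456) (nat_lit 272)) (XT.lf (nat_lit 0) (nat_lit 55794852289) (nat_lit 456) (nat_lit 24383646744) (nat_lit 76) (nat_lit 16975739471) (nat_lit 141) (nat_lit 5) (nat_lit 147) (nat_lit 5) (nat_lit 142) (nat_lit 5) (nat_lit 473) (nat_lit 456) (nat_lit 271))))) (XT.nd (nat_lit 312) (nat_lit 532) (nat_lit 0) (XT.nd (nat_lit 156) (nat_lit 684) (nat_lit 0) (XT.nd (nat_lit 78) (nat_lit 0) (nat_lit 0) (XT.lf (nat_lit 0) (nat_lit 31237089495) (nat_lit 304) (nat_lit 39570918381) (nat_lit 380) (nat_lit 29074797046) (nat_lit 137) (nat_lit 5) (nat_lit 141) (nat_lit 5) (nat_lit 142) (nat_lit 5) (nat_lit 474) (nat_lit 456) (nat_lit 270)) (XT.lf (nat_lit 0) (nat_lit 87038899478)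 (nat_lit 380) (nat_lit 12297022301) (nat_lit 76) (nat_lit 3388524005) (nat_lit 137) (nat_lit 5) (nat_lit 142) (nat_lit 5) (nat_lit 138) (nat_lit 5) (nat_lit 475) (nat_lit 456) (nat_lit 269))) (XT.nd (nat_lit 78) (nat_lit 380) (nat_lit 0) (XT.lf (nat_lit 0) (nat_lit 47748044154) (nat_lit 304) (nat_lit 57726975501) (nat_lit 380) (nat_lit 163464866) (nat_lit 133) (nat_lit 5) (nat_lit 137) (nat_lit 5) (nat_lit 138) (nat_lit 5) (nat_lit 476) (nat_lit 456) (nat_lit 268)) (XT.lf (nat_lit 0) (nat_lit 2353893296) (nat_lit 304) (nat_lit 13512342808) (nat_lit 380) (nat_lit 92806997346) (nat_lit 128) (nat_lit 5) (nat_lit 132) (nat_lit 5) (nat_lit 133) (nat_lit 5) (nat_lit 477) (nat_lit 456) (nat_lit 267)))) (XT.nd (nat_lit 156) (nat_lit 228) (nat_lit 0) (XT.nd (nat_lit 78) (nat_lit 304) (nat_lit 0) (XT.lf (nat_lit 0) (nat_lit 34201786839) (nat_lit 380) (nat_lit 44723659828) (nat_lit 76) (nat_lit 32858646288)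 (nat_lit 128) (nat_lit 5) (nat_lit 133) (nat_lit 5) (nat_lit 129) (nat_lit 5) (nat_lit 478) (nat_lit 456) (nat_lit 266)) (XT.lf (nat_lit 0) (nat_lit 20382060379) (nat_lit 304) (nat_lit 33611331449) (nat_lit 380) (nat_lit 61030139799) (nat_lit 124) (nat_lit 5) (nat_lit 128) (nat_lit 5) (nat_lit 129) (nat_lit 5) (nat_lit 479) (nat_lit 456) (nat_lit 265))) (XT.nd (nat_lit 78) (nat_lit 228) (nat_lit 0) (XT.lf (nat_lit 0) (nat_lit 75762050485) (nat_lit 380) (nat_lit 28322398658) (nat_lit 76) (nat_lit 14291119443) (nat_lit 124) (nat_lit 5) (nat_lit 129) (nat_lit 5) (nat_lit 125) (nat_lit 5) (nat_lit 480) (nat_lit 456) (nat_lit 264)) (XT.lf (nat_lit 0) (nat_lit 42108800619) (nat_lit 228) (nat_lit 57718357239) (nat_lit 304) (nat_lit 22007648771) (nat_lit 121) (nat_lit 5) (nat_lit 124) (nat_lit 5) (nat_lit 125) (nat_lit 5) (nat_lit 481) (nat_lit 456) (nat_lit 263)))))) (XT.nd (nat_lit 624) (nat_lit 988)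 (nat_lit 0) (XT.nd (nat_lit 312) (nat_lit 684) (nat_lit 0) (XT.nd (nat_lit 156) (nat_lit 228) (nat_lit 0) (XT.nd (nat_lit 78) (nat_lit 304) (nat_lit 0) (XT.lf (nat_lit 0) (nat_lit 127499334) (nat_lit 304) (nat_lit 8400808467) (nat_lit 76) (nat_lit 116914634020) (nat_lit 120) (nat_lit 5) (nat_lit 124) (nat_lit 5) (nat_lit 121) (nat_lit 5) (nat_lit 482) (nat_lit 456) (nat_lit 262)) (XT.lf (nat_lit 0) (nat_lit 24392645299) (nat_lit 380) (nat_lit 61540917469) (nat_lit 76) (nat_lit 43191739879) (nat_lit 116) (nat_lit 5) (nat_lit 121) (nat_lit 5) (nat_lit 117) (nat_lit 5) (nat_lit 483) (nat_lit 456) (nat_lit 261))) (XT.nd (nat_lit 78) (nat_lit 0) (nat_lit 0) (XT.lf (nat_lit 0) (nat_lit 15013665847) (nat_lit 228) (nat_lit 35375807814) (nat_lit 304) (nat_lit 82576386620) (nat_lit 113) (nat_lit 5) (nat_lit 116) (nat_lit 5) (nat_lit 117) (nat_lit 5) (nat_lit 484) (nat_lit 456) (nat_lit 260)) (XT.lf (nat_lit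 0) (nat_lit 79021569471) (nat_lit 304) (nat_lit 39707940304) (nat_lit 76) (nat_lit 18202164739) (nat_lit 113) (nat_lit 5) (nat_lit 117) (nat_lit 5) (nat_lit 114) (nat_lit 5) (nat_lit 485) (nat_lit 456) (nat_lit 259)))) (XT.nd (nat_lit 156) (nat_lit 456) (nat_lit 0) (XT.nd (nat_lit 78) (nat_lit 0) (nat_lit 0) (XT.lf (nat_lit 0) (nat_lit 43252409155) (nat_lit 228) (nat_lit 67087716847) (nat_lit 304) (nat_lit 30692910677) (nat_lit 110) (nat_lit 5) (nat_lit 113) (nat_lit 5) (nat_lit 114) (nat_lit 5) (nat_lit 486) (nat_lit 456) (nat_lit 258)) (XT.lf (nat_lit 0) (nat_lit 131738821404) (nat_lit 228) (nat_lit 12157904740) (nat_lit 304) (nat_lit 1409135037) (nat_lit 110) (nat_lit 5) (nat_lit 113) (nat_lit 5) (nat_lit 114) (nat_lit 5) (nat_lit 487) (nat_lit 456) (nat_lit 257))) (XT.nd (nat_lit 78) (nat_lit 228) (nat_lit 0) (XT.lf (nat_lit 0) (nat_lit 30337284104) (nat_lit 228) (nat_lit 73588680046) (nat_lit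 76) (nat_lit 45746585683) (nat_lit 107) (nat_lit 5) (nat_lit 110) (nat_lit 5) (nat_lit 108) (nat_lit 5) (nat_lit 488) (nat_lit 456) (nat_lit 256)) (XT.lf (nat_lit 0) (nat_lit 16751722508) (nat_lit 228) (nat_lit 47565987841) (nat_lit 304) (nat_lit 89904005437) (nat_lit 104) (nat_lit 5) (nat_lit 107) (nat_lit 5) (nat_lit 108) (nat_lit 5) (nat_lit 489) (nat_lit 456) (nat_lit 255))))) (XT.nd (nat_lit 312) (nat_lit 532) (nat_lit 0) (XT.nd (nat_lit 156) (nat_lit 304) (nat_lit 0) (XT.nd (nat_lit 78) (nat_lit 152) (nat_lit 0) (XT.lf (nat_lit 0) (nat_lit 101444809504) (nat_lit 304) (nat_lit 44974297924) (nat_lit 76) (nat_lit 12506850044) (nat_lit 104) (nat_lit 5) (nat_lit 108) (nat_lit 5) (nat_lit 105) (nat_lit 5) (nat_lit 490) (nat_lit 456) (nat_lit 254)) (XT.lf (nat_lit 0) (nat_lit 53064303172) (nat_lit 152) (nat_lit 88971894687) (nat_lit 228) (nat_lit 21748816684) (nat_lit 102) (nat_lit 5) (nat_lit 104)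 (nat_lit 5) (nat_lit 105) (nat_lit 5) (nat_lit 491) (nat_lit 456) (nat_lit 253))) (XT.nd (nat_lit 78) (nat_lit 228) (nat_lit 0) (XT.lf (nat_lit 0) (nat_lit 16039220106) (nat_lit 228) (nat_lit 11541903462) (nat_lit 76) (nat_lit 141254898532) (nat_lit 101) (nat_lit 5) (nat_lit 104) (nat_lit 5) (nat_lit 102) (nat_lit 5) (nat_lit 492) (nat_lit 456) (nat_lit 252)) (XT.lf (nat_lit 0) (nat_lit 57079196380) (nat_lit 304) (nat_lit 79364737831) (nat_lit 76) (nat_lit 37573146913) (nat_lit 98) (nat_lit 5) (nat_lit 102) (nat_lit 5) (nat_lit 99) (nat_lit 5) (nat_lit 493) (nat_lit 456) (nat_lit 251)))) (XT.nd (nat_lit 156) (nat_lit 380) (nat_lit 0) (XT.nd (nat_lit 78) (nat_lit 0) (nat_lit 0) (XT.lf (nat_lit 0) (nat_lit 27535050372) (nat_lit 152) (nat_lit 73716545293) (nat_lit 228) (nat_lit 78151576235) (nat_lit 96) (nat_lit 5) (nat_lit 98) (nat_lit 5) (nat_lit 99) (nat_lit 5) (nat_lit 494) (nat_lit 456) (nat_lit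 250)) (XT.lf (nat_lit 0) (nat_lit 142534719484) (nat_lit 152) (nat_lit 6441685636) (nat_lit 228) (nat_lit 36014972596) (nat_lit 96) (nat_lit 5) (nat_lit 98) (nat_lit 5) (nat_lit 99) (nat_lit 5) (nat_lit 495) (nat_lit 456) (nat_lit 249))) (XT.nd (nat_lit 78) (nat_lit 152) (nat_lit 0) (XT.lf (nat_lit 0) (nat_lit 10154403054) (nat_lit 228) (nat_lit 117130897555) (nat_lit 76) (nat_lit 63457804557) (nat_lit 93) (nat_lit 5) (nat_lit 96) (nat_lit 5) (nat_lit 94) (nat_lit 5) (nat_lit 496) (nat_lit 456) (nat_lit 248)) (XT.nd (nat_lit 78) (nat_lit 152) (nat_lit 0) (XT.lf (nat_lit 0) (nat_lit 58258043749) (nat_lit 228) (nat_lit 496213102) (nat_lit 76) (nat_lit 137956834902) (nat_lit 93) (nat_lit 5) (nat_lit 96) (nat_lit 5) (nat_lit 94) (nat_lit 5) (nat_lit 497) (nat_lit 456) (nat_lit 247)) (XT.lf (nat_lit 0) (nat_lit 110972245142) (nat_lit 228) (nat_lit 77114881017) (nat_lit 76) (nat_lit 14780082585) (nat_lit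 91) (nat_lit 5) (nat_lit 94) (nat_lit 5) (nat_lit 92) (nat_lit 5) (nat_lit 498) (nat_lit 456) (nat_lit 246))))))))
noncomputable def xc402 : XT := (XT.nd (nat_lit 1248) (nat_lit 1292) (nat_lit 0) (XT.nd (nat_lit 624) (nat_lit 684) (nat_lit 0) (XT.nd (nat_lit 312) (nat_lit 304) (nat_lit 0) (XT.nd (nat_lit 156) (nat_lit 304) (nat_lit 0) (XT.nd (nat_lit 78) (nat_lit 76) (nat_lit 0) (XT.lf (nat_lit 0) (nat_lit 49624333579) (nat_lit 152) (nat_lit 118444062876) (nat_lit 228) (nat_lit 41175423145) (nat_lit 89) (nat_lit 5) (nat_lit 91) (nat_lit 5) (nat_lit 92) (nat_lit 5) (nat_lit 499) (nat_lit 456) (nat_lit 245)) (XT.lf (nat_lit 0) (nat_lit 13020583599) (nat_lit 228) (nat_lit 30706657981) (nat_lit 76) (nat_lit 172136232835) (nat_lit 88) (nat_lit 5) (nat_lit 91) (nat_lit 5) (nat_lit 89) (nat_lit 5) (nat_lit 500) (nat_lit 456) (nat_lit 244))) (XT.nd (nat_lit 78) (nat_lit 152) (nat_lit 0) (XT.lf (nat_lit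 0) (nat_lit 70800134127) (nat_lit 228) (nat_lit 115862929836) (nat_lit 76) (nat_lit 36004422285) (nat_lit 86) (nat_lit 5) (nat_lit 89) (nat_lit 5) (nat_lit 87) (nat_lit 5) (nat_lit 501) (nat_lit 456) (nat_lit 243)) (XT.lf (nat_lit 0) (nat_lit 22464926067) (nat_lit 152) (nat_lit 110599629118) (nat_lit 228) (nat_lit 96667348843) (nat_lit 84) (nat_lit 5) (nat_lit 86) (nat_lit 5) (nat_lit 87) (nat_lit 5) (nat_lit 502) (nat_lit 456) (nat_lit 242)))) (XT.nd (nat_lit 156) (nat_lit 152) (nat_lit 0) (XT.nd (nat_lit 78) (nat_lit 152) (nat_lit 0) (XT.lf (nat_lit 0) (nat_lit 171731253943) (nat_lit 152) (nat_lit 28672898525) (nat_lit 228) (nat_lit 36647292478) (nat_lit 84) (nat_lit 5) (nat_lit 86) (nat_lit 5) (nat_lit 87) (nat_lit 5) (nat_lit 503) (nat_lit 456) (nat_lit 241)) (XT.lf (nat_lit 0) (nat_lit 27797320472) (nat_lit 152) (nat_lit 159506949989) (nat_lit 76) (nat_lit 57298720083) (nat_lit 82) (nat_lit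 5) (nat_lit 84) (nat_lit 5) (nat_lit 83) (nat_lit 5) (nat_lit 504) (nat_lit 456) (nat_lit 240))) (XT.nd (nat_lit 78) (nat_lit 152) (nat_lit 0) (XT.lf (nat_lit 0) (nat_lit 95826756310) (nat_lit 152) (nat_lit 8265316308) (nat_lit 76) (nat_lit 148330292966) (nat_lit 82) (nat_lit 5) (nat_lit 84) (nat_lit 5) (nat_lit 83) (nat_lit 5) (nat_lit 505) (nat_lit 456) (nat_lit 239)) (XT.lf (nat_lit 0) (nat_lit 155515475131) (nat_lit 152) (nat_lit 14170002273) (nat_lit 228) (nat_lit 90825841305) (nat_lit 80) (nat_lit 5) (nat_lit 82) (nat_lit 5) (nat_lit 83) (nat_lit 5) (nat_lit 506) (nat_lit 456) (nat_lit 238))))) (XT.nd (nat_lit 312) (nat_lit 304) (nat_lit 0) (XT.nd (nat_lit 156) (nat_lit 228) (nat_lit 0) (XT.nd (nat_lit 78) (nat_lit 76) (nat_lit 0) (XT.lf (nat_lit 0) (nat_lit 59420789283) (nat_lit 76) (nat_lit 190139023856) (nat_lit 152) (nat_lit 19328772427) (nat_lit 79) (nat_lit 5) (nat_lit 80) (nat_lit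 5) (nat_lit 81) (nat_lit 4) (nat_lit 507) (nat_lit 456) (nat_lit 237)) (XT.lf (nat_lit 0) (nat_lit 55998405268) (nat_lit 152) (nat_lit 43024480564) (nat_lit 76) (nat_lit 178516345383) (nat_lit 78) (nat_lit 5) (nat_lit 80) (nat_lit 5) (nat_lit 79) (nat_lit 5) (nat_lit 508) (nat_lit 456) (nat_lit 236))) (XT.nd (nat_lit 78) (nat_lit 76) (nat_lit 0) (XT.lf (nat_lit 0) (nat_lit 135769224652) (nat_lit 152) (nat_lit 792675759) (nat_lit 228) (nat_lit 149938688882) (nat_lit 76) (nat_lit 5) (nat_lit 78) (nat_lit 5) (nat_lit 79) (nat_lit 5) (nat_lit 509) (nat_lit 456) (nat_lit 235)) (XT.lf (nat_lit 0) (nat_lit 28422155082) (nat_lit 76) (nat_lit 195513500905) (nat_lit 152) (nat_lit 71835255008) (nat_lit 75) (nat_lit 5) (nat_lit 76) (nat_lit 5) (nat_lit 77) (nat_lit 4) (nat_lit 510) (nat_lit 456) (nat_lit 234)))) (XT.nd (nat_lit 156) (nat_lit 76) (nat_lit 0) (XT.nd (nat_lit 78) (nat_lit 152) (nat_lit 0) (XT.lf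 (nat_lit 0) (nat_lit 12455086884) (nat_lit 152) (nat_lit 83824763226) (nat_lit 76) (nat_lit 209086589596) (nat_lit 74) (nat_lit 5) (nat_lit 76) (nat_lit 5) (nat_lit 75) (nat_lit 5) (nat_lit 511) (nat_lit 456) (nat_lit 233)) (XT.lf (nat_lit 0) (nat_lit 100454033612) (nat_lit 228) (nat_lit 204208975086) (nat_lit 76) (nat_lit 10624443634) (nat_lit 72) (nat_lit 5) (nat_lit 75) (nat_lit 5) (nat_lit 73) (nat_lit 4) (nat_lit 512) (nat_lit 456) (nat_lit 232))) (XT.nd (nat_lit 78) (nat_lit 76) (nat_lit 0) (XT.lf (nat_lit 0) (nat_lit 195873978174) (nat_lit 228) (nat_lit 8598438936) (nat_lit 76) (nat_lit 121081045959) (nat_lit 72) (nat_lit 5) (nat_lit 75) (nat_lit 5) (nat_lit 73) (nat_lit 4) (nat_lit 513) (nat_lit 456) (nat_lit 231)) (XT.lf (nat_lit 0) (nat_lit 203299123022) (nat_lit 76) (nat_lit 95939682216) (nat_lit 152) (nat_lit 36935274842) (nat_lit 71) (nat_lit 5) (nat_lit 72) (nat_lit 5) (nat_lit 73)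 (nat_lit 4) (nat_lit 514) (nat_lit 456) (nat_lit 230)))))) (XT.nd (nat_lit 624) (nat_lit 608) (nat_lit 0) (XT.nd (nat_lit 312) (nat_lit 228) (nat_lit 0) (XT.nd (nat_lit 156) (nat_lit 228) (nat_lit 0) (XT.nd (nat_lit 78) (nat_lit 0) (nat_lit 0) (XT.lf (nat_lit 0) (nat_lit 60234369417) (nat_lit 228) (nat_lit 267129776370) (nat_lit 76) (nat_lit 19828251579) (nat_lit 68) (nat_lit 5) (nat_lit 71) (nat_lit 5) (nat_lit 69) (nat_lit 4) (nat_lit 515) (nat_lit 456) (nat_lit 229)) (XT.lf (nat_lit 0) (nat_lit 164881019760) (nat_lit 228) (nat_lit 52604431279) (nat_lit 76) (nat_lit 141052915100) (nat_lit 68) (nat_lit 5) (nat_lit 71) (nat_lit 5) (nat_lit 69) (nat_lit 4) (nat_lit 516) (nat_lit 456) (nat_lit 228))) (XT.nd (nat_lit 78) (nat_lit 152) (nat_lit 0) (XT.lf (nat_lit 0) (nat_lit 178355338023) (nat_lit 76) (nat_lit 99189117685) (nat_lit 152) (nat_lit 92767954990) (nat_lit 67) (nat_lit 5) (nat_lit 68) (nat_lit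 5) (nat_lit 69) (nat_lit 4) (nat_lit 517) (nat_lit 456) (nat_lit 227)) (XT.lf (nat_lit 0) (nat_lit 14711790055) (nat_lit 152) (nat_lit 341851361342) (nat_lit 76) (nat_lit 26003364490) (nat_lit 65) (nat_lit 5) (nat_lit 67) (nat_lit 5) (nat_lit 66) (nat_lit 4) (nat_lit 518) (nat_lit 456) (nat_lit 226)))) (XT.nd (nat_lit 156) (nat_lit 152) (nat_lit 0) (XT.nd (nat_lit 78) (nat_lit 76) (nat_lit 0) (XT.lf (nat_lit 0) (nat_lit 129377968657) (nat_lit 152) (nat_lit 106785932239) (nat_lit 76) (nat_lit 158946883241) (nat_lit 65) (nat_lit 5) (nat_lit 67) (nat_lit 5) (nat_lit 66) (nat_lit 4) (nat_lit 519) (nat_lit 456) (nat_lit 225)) (XT.lf (nat_lit 0) (nat_lit 144662560379) (nat_lit 76) (nat_lit 107373319673) (nat_lit 152) (nat_lit 156133464555) (nat_lit 64) (nat_lit 5) (nat_lit 65) (nat_lit 5) (nat_lit 66) (nat_lit 4) (nat_lit 520) (nat_lit 456) (nat_lit 224))) (XT.nd (nat_lit 78) (nat_lit 152) (nat_lit 0)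 (XT.lf (nat_lit 0) (nat_lit 383099564681) (nat_lit 152) (nat_lit 9864449118) (nat_lit 0) (nat_lit 28803175422) (nat_lit 64) (nat_lit 5) (nat_lit 66) (nat_lit 4) (nat_lit 64) (nat_lit 4) (nat_lit 521) (nat_lit 456) (nat_lit 223)) (XT.lf (nat_lit 0) (nat_lit 87925808059) (nat_lit 152) (nat_lit 174048677741) (nat_lit 76) (nat_lit 173706126409) (nat_lit 62) (nat_lit 5) (nat_lit 64) (nat_lit 5) (nat_lit 63) (nat_lit 4) (nat_lit 522) (nat_lit 456) (nat_lit 222))))) (XT.nd (nat_lit 312) (nat_lit 304) (nat_lit 0) (XT.nd (nat_lit 156) (nat_lit 228) (nat_lit 0) (XT.nd (nat_lit 78) (nat_lit 0) (nat_lit 0) (XT.lf (nat_lit 0) (nat_lit 99305725092) (nat_lit 76) (nat_lit 121963784700) (nat_lit 152) (nat_lit 228902497622) (nat_lit 61) (nat_lit 5) (nat_lit 62) (nat_lit 5) (nat_lit 63) (nat_lit 4) (nat_lit 523) (nat_lit 456) (nat_lit 221)) (XT.lf (nat_lit 0) (nat_lit 364667222647) (nat_lit 152) (nat_lit 73309849460)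 (nat_lit 0) (nat_lit 27241558972) (nat_lit 61) (nat_lit 5) (nat_lit 63) (nat_lit 4) (nat_lit 61) (nat_lit 4) (nat_lit 524) (nat_lit 456) (nat_lit 220))) (XT.nd (nat_lit 78) (nat_lit 76) (nat_lit 0) (XT.lf (nat_lit 0) (nat_lit 38697131750) (nat_lit 152) (nat_lit 258096704016) (nat_lit 76) (nat_lit 183918285726) (nat_lit 59) (nat_lit 5) (nat_lit 61) (nat_lit 5) (nat_lit 60) (nat_lit 4) (nat_lit 525) (nat_lit 456) (nat_lit 219)) (XT.lf (nat_lit 0) (nat_lit 38528004663) (nat_lit 76) (nat_lit 144864181463) (nat_lit 152) (nat_lit 313412517423) (nat_lit 58) (nat_lit 5) (nat_lit 59) (nat_lit 5) (nat_lit 60) (nat_lit 4) (nat_lit 526) (nat_lit 456) (nat_lit 218)))) (XT.nd (nat_lit 156) (nat_lit 228) (nat_lit 0) (XT.nd (nat_lit 78) (nat_lit 76) (nat_lit 0) (XT.lf (nat_lit 0) (nat_lit 339993408983) (nat_lit 152) (nat_lit 154839737779) (nat_lit 0) (nat_lit 18635197160) (nat_lit 58) (nat_lit 5) (nat_lit 60)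 (nat_lit 4) (nat_lit 58) (nat_lit 4) (nat_lit 527) (nat_lit 456) (nat_lit 217)) (XT.lf (nat_lit 0) (nat_lit 166730389686) (nat_lit 76) (nat_lit 342672114928) (nat_lit 76) (nat_lit 21313771119) (nat_lit 57) (nat_lit 4) (nat_lit 58) (nat_lit 5) (nat_lit 58) (nat_lit 4) (nat_lit 528) (nat_lit 456) (nat_lit 216))) (XT.nd (nat_lit 78) (nat_lit 152) (nat_lit 0) (XT.lf (nat_lit 0) (nat_lit 136689146520) (nat_lit 152) (nat_lit 41145719144) (nat_lit 76) (nat_lit 370750397856) (nat_lit 56) (nat_lit 5) (nat_lit 58) (nat_lit 5) (nat_lit 57) (nat_lit 4) (nat_lit 529) (nat_lit 456) (nat_lit 215)) (XT.nd (nat_lit 78) (nat_lit 76) (nat_lit 0) (XT.lf (nat_lit 0) (nat_lit 306684102723) (nat_lit 152) (nat_lit 259777415453) (nat_lit 0) (nat_lit 628303458) (nat_lit 55) (nat_lit 5) (nat_lit 57) (nat_lit 4) (nat_lit 55) (nat_lit 4) (nat_lit 530) (nat_lit 456) (nat_lit 214)) (XT.lf (nat_lit 0) (nat_lit 88027580687) (nat_lit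 76) (nat_lit 402149022499) (nat_lit 76) (nat_lit 96093114648) (nat_lit 54) (nat_lit 4) (nat_lit 55) (nat_lit 5) (nat_lit 55) (nat_lit 4) (nat_lit 531) (nat_lit 456) (nat_lit 213))))))))
noncomputable def xc403 : XT := (XT.nd (nat_lit 1248) (nat_lit 76) (nat_lit 0) (XT.nd (nat_lit 624) (nat_lit 532) (nat_lit 0) (XT.nd (nat_lit 312) (nat_lit 228) (nat_lit 0) (XT.nd (nat_lit 156) (nat_lit 152) (nat_lit 0) (XT.nd (nat_lit 78) (nat_lit 76) (nat_lit 0) (XT.lf (nat_lit 0) (nat_lit 78460164850) (nat_lit 152) (nat_lit 145212673323) (nat_lit 76) (nat_lit 382452530040) (nat_lit 53) (nat_lit 5) (nat_lit 55) (nat_lit 5) (nat_lit 54) (nat_lit 4) (nat_lit 532) (nat_lit 456) (nat_lit 212)) (XT.lf (nat_lit 0) (nat_lit 231295623009) (nat_lit 76) (nat_lit 30827173461) (nat_lit 152) (nat_lit 364591687446) (nat_lit 52) (nat_lit 5) (nat_lit 53) (nat_lit 5) (nat_lit 54) (nat_lit 4) (nat_lit 533) (nat_lit 456) (nat_lit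 211))) (XT.nd (nat_lit 78) (nat_lit 152) (nat_lit 0) (XT.lf (nat_lit 0) (nat_lit 460148102197) (nat_lit 152) (nat_lit 19259972513) (nat_lit 0) (nat_lit 168666003571) (nat_lit 52) (nat_lit 5) (nat_lit 54) (nat_lit 4) (nat_lit 52) (nat_lit 4) (nat_lit 534) (nat_lit 456) (nat_lit 210)) (XT.lf (nat_lit 0) (nat_lit 4315066178) (nat_lit 152) (nat_lit 282636298039) (nat_lit 76) (nat_lit 383218964402) (nat_lit 50) (nat_lit 5) (nat_lit 52) (nat_lit 5) (nat_lit 51) (nat_lit 4) (nat_lit 535) (nat_lit 456) (nat_lit 209)))) (XT.nd (nat_lit 156) (nat_lit 152) (nat_lit 0) (XT.nd (nat_lit 78) (nat_lit 0) (nat_lit 0) (XT.lf (nat_lit 0) (nat_lit 122826181209) (nat_lit 76) (nat_lit 79275499739) (nat_lit 152) (nat_lit 491003219568) (nat_lit 49) (nat_lit 5) (nat_lit 50) (nat_lit 5) (nat_lit 51) (nat_lit 4) (nat_lit 536) (nat_lit 456) (nat_lit 208)) (XT.lf (nat_lit 0) (nat_lit 416809367853) (nat_lit 152) (nat_lit 160818108617)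 (nat_lit 0) (nat_lit 139207137468) (nat_lit 49) (nat_lit 5) (nat_lit 51) (nat_lit 4) (nat_lit 49) (nat_lit 4) (nat_lit 537) (nat_lit 456) (nat_lit 207))) (XT.nd (nat_lit 78) (nat_lit 76) (nat_lit 0) (XT.lf (nat_lit 0) (nat_lit 276670905354) (nat_lit 76) (nat_lit 371200626705) (nat_lit 76) (nat_lit 93598326324) (nat_lit 48) (nat_lit 4) (nat_lit 49) (nat_lit 5) (nat_lit 49) (nat_lit 4) (nat_lit 538) (nat_lit 456) (nat_lit 206)) (XT.lf (nat_lit 0) (nat_lit 121976439343) (nat_lit 152) (nat_lit 27550666389) (nat_lit 76) (nat_lit 617575220184) (nat_lit 47) (nat_lit 5) (nat_lit 49) (nat_lit 5) (nat_lit 48) (nat_lit 4) (nat_lit 539) (nat_lit 456) (nat_lit 205))))) (XT.nd (nat_lit 312) (nat_lit 228) (nat_lit 0) (XT.nd (nat_lit 156) (nat_lit 152) (nat_lit 0) (XT.nd (nat_lit 78) (nat_lit 76) (nat_lit 0) (XT.lf (nat_lit 0) (nat_lit 353558522131) (nat_lit 152) (nat_lit 350787214978) (nat_lit 0) (nat_lit 89175254958)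 (nat_lit 46) (nat_lit 5) (nat_lit 48) (nat_lit 4) (nat_lit 46) (nat_lit 4) (nat_lit 540) (nat_lit 456) (nat_lit 204)) (XT.lf (nat_lit 0) (nat_lit 117555044696) (nat_lit 76) (nat_lit 483925416979) (nat_lit 76) (nat_lit 219542092220) (nat_lit 45) (nat_lit 4) (nat_lit 46) (nat_lit 5) (nat_lit 46) (nat_lit 4) (nat_lit 541) (nat_lit 456) (nat_lit 203))) (XT.nd (nat_lit 78) (nat_lit 76) (nat_lit 0) (XT.lf (nat_lit 0) (nat_lit 17556485117) (nat_lit 152) (nat_lit 228392585110) (nat_lit 76) (nat_lit 603638932874) (nat_lit 44) (nat_lit 5) (nat_lit 46) (nat_lit 5) (nat_lit 45) (nat_lit 4) (nat_lit 542) (nat_lit 456) (nat_lit 202)) (XT.lf (nat_lit 0) (nat_lit 263626505551) (nat_lit 152) (nat_lit 603717777327) (nat_lit 0) (nat_lit 11832760948) (nat_lit 43) (nat_lit 5) (nat_lit 45) (nat_lit 4) (nat_lit 43) (nat_lit 4) (nat_lit 543) (nat_lit 456) (nat_lit 201)))) (XT.nd (nat_lit 156) (nat_lit 152) (nat_lit 0)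 (XT.nd (nat_lit 78) (nat_lit 76) (nat_lit 0) (XT.lf (nat_lit 0) (nat_lit 529963224255) (nat_lit 152) (nat_lit 101714720196) (nat_lit 0) (nat_lit 278169432276) (nat_lit 43) (nat_lit 5) (nat_lit 45) (nat_lit 4) (nat_lit 43) (nat_lit 4) (nat_lit 544) (nat_lit 456) (nat_lit 200)) (XT.lf (nat_lit 0) (nat_lit 439453552414) (nat_lit 76) (nat_lit 377024230381) (nat_lit 76) (nat_lit 125230393282) (nat_lit 42) (nat_lit 4) (nat_lit 43) (nat_lit 5) (nat_lit 43) (nat_lit 4) (nat_lit 545) (nat_lit 456) (nat_lit 199))) (XT.nd (nat_lit 78) (nat_lit 0) (nat_lit 0) (XT.lf (nat_lit 0) (nat_lit 35008251641) (nat_lit 76) (nat_lit 104895227242) (nat_lit 152) (nat_lit 835032698466) (nat_lit 40) (nat_lit 5) (nat_lit 41) (nat_lit 5) (nat_lit 42) (nat_lit 4) (nat_lit 546) (nat_lit 456) (nat_lit 198)) (XT.lf (nat_lit 0) (nat_lit 425554174053) (nat_lit 152) (nat_lit 397844882407) (nat_lit 0) (nat_lit 185750439772) (nat_lit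 40) (nat_lit 5) (nat_lit 42) (nat_lit 4) (nat_lit 40) (nat_lit 4) (nat_lit 547) (nat_lit 456) (nat_lit 197)))))) (XT.nd (nat_lit 55848) (nat_lit 0) (nat_lit 8132) (XT.nd (nat_lit 55536) (nat_lit 0) (nat_lit 9500) (XT.nd (nat_lit 55380) (nat_lit 0) (nat_lit 9424) (XT.nd (nat_lit 78) (nat_lit 0) (nat_lit 0) (XT.lf (nat_lit 0) (nat_lit 175231019757) (nat_lit 76) (nat_lit 554711732641) (nat_lit 76) (nat_lit 314907961240) (nat_lit 39) (nat_lit 4) (nat_lit 40) (nat_lit 5) (nat_lit 40) (nat_lit 4) (nat_lit 548) (nat_lit 456) (nat_lit 196)) (XT.lf (nat_lit 0) (nat_lit 790772809610) (nat_lit 76) (nat_lit 265515554420) (nat_lit 76) (nat_lit 25711747667) (nat_lit 39) (nat_lit 4) (nat_lit 40) (nat_lit 5) (nat_lit 40) (nat_lit 4) (nat_lit 549) (nat_lit 456) (nat_lit 195))) (XT.nd (nat_lit 78) (nat_lit 0) (nat_lit 0) (XT.lf (nat_lit 0) (nat_lit 14405573319) (nat_lit 836) (nat_lit 9172742941) (nat_lit 836) (nat_lit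 9172742941) (nat_lit 163) (nat_lit 3) (nat_lit 174) (nat_lit 3) (nat_lit 174) (nat_lit 5) (nat_lit 457) (nat_lit 457) (nat_lit 286)) (XT.lf (nat_lit 76) (nat_lit 14744817402) (nat_lit 0) (nat_lit 15031823498) (nat_lit 836) (nat_lit 37350768525) (nat_lit 164) (nat_lit 5) (nat_lit 163) (nat_lit 3) (nat_lit 174) (nat_lit 5) (nat_lit 458) (nat_lit 457) (nat_lit 285)))) (XT.nd (nat_lit 156) (nat_lit 0) (nat_lit 76) (XT.nd (nat_lit 78) (nat_lit 0) (nat_lit 0) (XT.lf (nat_lit 0) (nat_lit 31397178326) (nat_lit 760) (nat_lit 18989497991) (nat_lit 836) (nat_lit 18416950332) (nat_lit 164) (nat_lit 5) (nat_lit 174) (nat_lit 5) (nat_lit 175) (nat_lit 5) (nat_lit 459) (nat_lit 457) (nat_lit 284)) (XT.lf (nat_lit 76) (nat_lit 16349566520) (nat_lit 0) (nat_lit 17249945971) (nat_lit 836) (nat_lit 36939103822) (nat_lit 165) (nat_lit 5) (nat_lit 164) (nat_lit 5) (nat_lit 175) (nat_lit 5) (nat_lit 460) (nat_lit 457)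 (nat_lit 283))) (XT.nd (nat_lit 78) (nat_lit 0) (nat_lit 0) (XT.lf (nat_lit 0) (nat_lit 36511861340) (nat_lit 760) (nat_lit 18509185743) (nat_lit 836) (nat_lit 17309313543) (nat_lit 165) (nat_lit 5) (nat_lit 175) (nat_lit 5) (nat_lit 176) (nat_lit 5) (nat_lit 461) (nat_lit 457) (nat_lit 282)) (XT.lf (nat_lit 76) (nat_lit 19288682189) (nat_lit 0) (nat_lit 20864247999) (nat_lit 836) (nat_lit 34029606906) (nat_lit 166) (nat_lit 5) (nat_lit 165) (nat_lit 5) (nat_lit 176) (nat_lit 5) (nat_lit 462) (nat_lit 457) (nat_lit 281))))) (XT.nd (nat_lit 312) (nat_lit 1520) (nat_lit 0) (XT.nd (nat_lit 156) (nat_lit 0) (nat_lit 76) (XT.nd (nat_lit 78) (nat_lit 0) (nat_lit 0) (XT.lf (nat_lit 0) (nat_lit 44528052517) (nat_lit 760) (nat_lit 16732542151) (nat_lit 836) (nat_lit 14839127775) (nat_lit 166) (nat_lit 5) (nat_lit 176) (nat_lit 5) (nat_lit 177) (nat_lit 5) (nat_lit 463) (nat_lit 457) (nat_lit 280)) (XT.lf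 (nat_lit 76) (nat_lit 23754524271) (nat_lit 0) (nat_lit 26079557437) (nat_lit 836) (nat_lit 28243077873) (nat_lit 167) (nat_lit 5) (nat_lit 166) (nat_lit 5) (nat_lit 177) (nat_lit 5) (nat_lit 464) (nat_lit 457) (nat_lit 279))) (XT.nd (nat_lit 78) (nat_lit 0) (nat_lit 0) (XT.lf (nat_lit 0) (nat_lit 55862264279) (nat_lit 760) (nat_lit 13467247121) (nat_lit 836) (nat_lit 10801114634) (nat_lit 167) (nat_lit 5) (nat_lit 177) (nat_lit 5) (nat_lit 178) (nat_lit 5) (nat_lit 465) (nat_lit 457) (nat_lit 278)) (XT.lf (nat_lit 76) (nat_lit 29961770502) (nat_lit 0) (nat_lit 33124710618) (nat_lit 836) (nat_lit 19155553486) (nat_lit 168) (nat_lit 5) (nat_lit 167) (nat_lit 5) (nat_lit 178) (nat_lit 5) (nat_lit 466) (nat_lit 457) (nat_lit 277)))) (XT.nd (nat_lit 156) (nat_lit 912) (nat_lit 0) (XT.nd (nat_lit 78) (nat_lit 760) (nat_lit 0) (XT.lf (nat_lit 0) (nat_lit 70979404143) (nat_lit 760) (nat_lit 8498505329)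 (nat_lit 76) (nat_lit 4965729418) (nat_lit 168) (nat_lit 5) (nat_lit 178) (nat_lit 5) (nat_lit 169) (nat_lit 5) (nat_lit 467) (nat_lit 457) (nat_lit 276)) (XT.lf (nat_lit 0) (nat_lit 38149776662) (nat_lit 760) (nat_lit 42255211826) (nat_lit 836) (nat_lit 6293434188) (nat_lit 158) (nat_lit 5) (nat_lit 168) (nat_lit 5) (nat_lit 169) (nat_lit 5) (nat_lit 468) (nat_lit 457) (nat_lit 275))) (XT.nd (nat_lit 78) (nat_lit 836) (nat_lit 0) (XT.lf (nat_lit 0) (nat_lit 1342009128) (nat_lit 836) (nat_lit 1655462456) (nat_lit 76) (nat_lit 86060226342) (nat_lit 157) (nat_lit 5) (nat_lit 168) (nat_lit 5) (nat_lit 158) (nat_lit 5) (nat_lit 469) (nat_lit 457) (nat_lit 274)) (XT.nd (nat_lit 78) (nat_lit 380) (nat_lit 0) (XT.lf (nat_lit 0) (nat_lit 10523928735) (nat_lit 532) (nat_lit 43054019191) (nat_lit 76) (nat_lit 37883020261) (nat_lit 151) (nat_lit 5) (nat_lit 158) (nat_lit 5) (nat_lit 152) (nat_lit 5) (nat_lit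 470) (nat_lit 457) (nat_lit 273)) (XT.lf (nat_lit 0) (nat_lit 7228129293) (nat_lit 380) (nat_lit 13126724909) (nat_lit 456) (nat_lit 73620052304) (nat_lit 146) (nat_lit 5) (nat_lit 151) (nat_lit 5) (nat_lit 152) (nat_lit 5) (nat_lit 471) (nat_lit 457) (nat_lit 272))))))))
noncomputable def xc404 : XT := (XT.nd (nat_lit 1248) (nat_lit 1976) (nat_lit 0) (XT.nd (nat_lit 624) (nat_lit 1368) (nat_lit 0) (XT.nd (nat_lit 312) (nat_lit 684) (nat_lit 0) (XT.nd (nat_lit 156) (nat_lit 304) (nat_lit 0) (XT.nd (nat_lit 78) (nat_lit 380) (nat_lit 0) (XT.lf (nat_lit 0) (nat_lit 31876052090) (nat_lit 456) (nat_lit 35529695011) (nat_lit 76) (nat_lit 29148858371) (nat_lit 146) (nat_lit 5) (nat_lit 152) (nat_lit 5) (nat_lit 147) (nat_lit 5) (nat_lit 472) (nat_lit 457) (nat_lit 271)) (XT.lf (nat_lit 0) (nat_lit 18628721794) (nat_lit 380) (nat_lit 25850095920) (nat_lit 456) (nat_lit 54759196315) (nat_lit 141) (nat_lit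 5) (nat_lit 146) (nat_lit 5) (nat_lit 147) (nat_lit 5) (nat_lit 473) (nat_lit 457) (nat_lit 270))) (XT.nd (nat_lit 78) (nat_lit 304) (nat_lit 0) (XT.lf (nat_lit 0) (nat_lit 58600431180) (nat_lit 456) (nat_lit 25585027832) (nat_lit 76) (nat_lit 17825698558) (nat_lit 141) (nat_lit 5) (nat_lit 147) (nat_lit 5) (nat_lit 142) (nat_lit 5) (nat_lit 474) (nat_lit 457) (nat_lit 269)) (XT.lf (nat_lit 0) (nat_lit 32816458102) (nat_lit 304) (nat_lit 41547305781) (nat_lit 380) (nat_lit 30512412510) (nat_lit 137) (nat_lit 5) (nat_lit 141) (nat_lit 5) (nat_lit 142) (nat_lit 5) (nat_lit 475) (nat_lit 457) (nat_lit 268)))) (XT.nd (nat_lit 156) (nat_lit 380) (nat_lit 0) (XT.nd (nat_lit 78) (nat_lit 304) (nat_lit 0) (XT.lf (nat_lit 0) (nat_lit 91405500941) (nat_lit 380) (nat_lit 12894493219) (nat_lit 76) (nat_lit 3559940142) (nat_lit 137) (nat_lit 5) (nat_lit 142) (nat_lit 5) (nat_lit 138) (nat_lit 5) (nat_lit 476)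 (nat_lit 457) (nat_lit 267)) (XT.lf (nat_lit 0) (nat_lit 50152546233) (nat_lit 304) (nat_lit 60610449943) (nat_lit 380) (nat_lit 156700392) (nat_lit 133) (nat_lit 5) (nat_lit 137) (nat_lit 5) (nat_lit 138) (nat_lit 5) (nat_lit 477) (nat_lit 457) (nat_lit 266))) (XT.nd (nat_lit 78) (nat_lit 0) (nat_lit 0) (XT.lf (nat_lit 0) (nat_lit 2488883262) (nat_lit 304) (nat_lit 14184705739) (nat_lit 380) (nat_lit 97432603248) (nat_lit 128) (nat_lit 5) (nat_lit 132) (nat_lit 5) (nat_lit 133) (nat_lit 5) (nat_lit 478) (nat_lit 457) (nat_lit 265)) (XT.lf (nat_lit 0) (nat_lit 35925297038) (nat_lit 380) (nat_lit 46942750089) (nat_lit 76) (nat_lit 34504578654) (nat_lit 128) (nat_lit 5) (nat_lit 133) (nat_lit 5) (nat_lit 129) (nat_lit 5) (nat_lit 479) (nat_lit 457) (nat_lit 264))))) (XT.nd (nat_lit 312) (nat_lit 760) (nat_lit 0) (XT.nd (nat_lit 156) (nat_lit 304) (nat_lit 0) (XT.nd (nat_lit 78) (nat_lit 0) (nat_lit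 0) (XT.lf (nat_lit 0) (nat_lit 21417980440) (nat_lit 304) (nat_lit 35288125309) (nat_lit 380) (nat_lit 64067949501) (nat_lit 124) (nat_lit 5) (nat_lit 128) (nat_lit 5) (nat_lit 129) (nat_lit 5) (nat_lit 480) (nat_lit 457) (nat_lit 263)) (XT.lf (nat_lit 0) (nat_lit 79562632278) (nat_lit 380) (nat_lit 29721936593) (nat_lit 76) (nat_lit 15009153475) (nat_lit 124) (nat_lit 5) (nat_lit 129) (nat_lit 5) (nat_lit 125) (nat_lit 5) (nat_lit 481) (nat_lit 457) (nat_lit 262))) (XT.nd (nat_lit 78) (nat_lit 76) (nat_lit 0) (XT.lf (nat_lit 0) (nat_lit 44230555196) (nat_lit 228) (nat_lit 60600100288) (nat_lit 304) (nat_lit 23095283816) (nat_lit 121) (nat_lit 5) (nat_lit 124) (nat_lit 5) (nat_lit 125) (nat_lit 5) (nat_lit 482) (nat_lit 457) (nat_lit 261)) (XT.lf (nat_lit 0) (nat_lit 145626107) (nat_lit 304) (nat_lit 8804922048) (nat_lit 76) (nat_lit 122763952554) (nat_lit 120) (nat_lit 5) (nat_lit 124) (nat_lit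 5) (nat_lit 121) (nat_lit 5) (nat_lit 483) (nat_lit 457) (nat_lit 260)))) (XT.nd (nat_lit 156) (nat_lit 228) (nat_lit 0) (XT.nd (nat_lit 78) (nat_lit 228) (nat_lit 0) (XT.lf (nat_lit 0) (nat_lit 25623780504) (nat_lit 380) (nat_lit 64601787052) (nat_lit 76) (nat_lit 45355424496) (nat_lit 116) (nat_lit 5) (nat_lit 121) (nat_lit 5) (nat_lit 117) (nat_lit 5) (nat_lit 484) (nat_lit 457) (nat_lit 259)) (XT.lf (nat_lit 0) (nat_lit 15780264523) (nat_lit 228) (nat_lit 37139886486) (nat_lit 304) (nat_lit 86693441550) (nat_lit 113) (nat_lit 5) (nat_lit 116) (nat_lit 5) (nat_lit 117) (nat_lit 5) (nat_lit 485) (nat_lit 457) (nat_lit 258))) (XT.nd (nat_lit 78) (nat_lit 228) (nat_lit 0) (XT.lf (nat_lit 0) (nat_lit 82983388162) (nat_lit 304) (nat_lit 41677715836) (nat_lit 76) (nat_lit 19116616703) (nat_lit 113) (nat_lit 5) (nat_lit 117) (nat_lit 5) (nat_lit 114) (nat_lit 5) (nat_lit 486) (nat_lit 457) (nat_lit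 257)) (XT.lf (nat_lit 0) (nat_lit 45430399137) (nat_lit 228) (nat_lit 70437201905) (nat_lit 304) (nat_lit 32216563533) (nat_lit 110) (nat_lit 5) (nat_lit 113) (nat_lit 5) (nat_lit 114) (nat_lit 5) (nat_lit 487) (nat_lit 457) (nat_lit 256)))))) (XT.nd (nat_lit 624) (nat_lit 912) (nat_lit 0) (XT.nd (nat_lit 312) (nat_lit 608) (nat_lit 0) (XT.nd (nat_lit 156) (nat_lit 228) (nat_lit 0) (XT.nd (nat_lit 78) (nat_lit 228) (nat_lit 0) (XT.lf (nat_lit 0) (nat_lit 138340400116) (nat_lit 228) (nat_lit 12761132564) (nat_lit 304) (nat_lit 1469122571) (nat_lit 110) (nat_lit 5) (nat_lit 113) (nat_lit 5) (nat_lit 114) (nat_lit 5) (nat_lit 488) (nat_lit 457) (nat_lit 255)) (XT.lf (nat_lit 0) (nat_lit 31864105595) (nat_lit 228) (nat_lit 77252963586) (nat_lit 76) (nat_lit 48038609845) (nat_lit 107) (nat_lit 5) (nat_lit 110) (nat_lit 5) (nat_lit 108) (nat_lit 5) (nat_lit 489) (nat_lit 457) (nat_lit 254))) (XT.nd (nat_lit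 78) (nat_lit 0) (nat_lit 0) (XT.lf (nat_lit 0) (nat_lit 17604214734) (nat_lit 228) (nat_lit 49939096988) (nat_lit 304) (nat_lit 94389003647) (nat_lit 104) (nat_lit 5) (nat_lit 107) (nat_lit 5) (nat_lit 108) (nat_lit 5) (nat_lit 490) (nat_lit 457) (nat_lit 253)) (XT.lf (nat_lit 0) (nat_lit 106526380350) (nat_lit 304) (nat_lit 47208430655) (nat_lit 76) (nat_lit 13136977427) (nat_lit 104) (nat_lit 5) (nat_lit 108) (nat_lit 5) (nat_lit 105) (nat_lit 5) (nat_lit 491) (nat_lit 457) (nat_lit 252)))) (XT.nd (nat_lit 156) (nat_lit 380) (nat_lit 0) (XT.nd (nat_lit 78) (nat_lit 76) (nat_lit 0) (XT.lf (nat_lit 0) (nat_lit 55731865298) (nat_lit 152) (nat_lit 93415252517) (nat_lit 228) (nat_lit 22826691576) (nat_lit 102) (nat_lit 5) (nat_lit 104) (nat_lit 5) (nat_lit 105) (nat_lit 5) (nat_lit 492) (nat_lit 457) (nat_lit 251)) (XT.lf (nat_lit 0) (nat_lit 16849999943) (nat_lit 228) (nat_lit 12105042925) (nat_lit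 76) (nat_lit 148322339056) (nat_lit 101) (nat_lit 5) (nat_lit 104) (nat_lit 5) (nat_lit 102) (nat_lit 5) (nat_lit 493) (nat_lit 457) (nat_lit 250))) (XT.nd (nat_lit 78) (nat_lit 152) (nat_lit 0) (XT.lf (nat_lit 0) (nat_lit 59941849355) (nat_lit 304) (nat_lit 83318893014) (nat_lit 76) (nat_lit 39456757829) (nat_lit 98) (nat_lit 5) (nat_lit 102) (nat_lit 5) (nat_lit 99) (nat_lit 5) (nat_lit 494) (nat_lit 457) (nat_lit 249)) (XT.lf (nat_lit 0) (nat_lit 28925657475) (nat_lit 152) (nat_lit 77397013479) (nat_lit 228) (nat_lit 82050234458) (nat_lit 96) (nat_lit 5) (nat_lit 98) (nat_lit 5) (nat_lit 99) (nat_lit 5) (nat_lit 495) (nat_lit 457) (nat_lit 248))))) (XT.nd (nat_lit 312) (nat_lit 532) (nat_lit 0) (XT.nd (nat_lit 156) (nat_lit 152) (nat_lit 0) (XT.nd (nat_lit 78) (nat_lit 228) (nat_lit 0) (XT.lf (nat_lit 0) (nat_lit 149674650300) (nat_lit 152) (nat_lit 6758666033) (nat_lit 228) (nat_lit 37807225427)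 (nat_lit 96) (nat_lit 5) (nat_lit 98) (nat_lit 5) (nat_lit 99) (nat_lit 5) (nat_lit 496) (nat_lit 457) (nat_lit 247)) (XT.lf (nat_lit 0) (nat_lit 10670243694) (nat_lit 228) (nat_lit 122973871733) (nat_lit 76) (nat_lit 66635738706) (nat_lit 93) (nat_lit 5) (nat_lit 96) (nat_lit 5) (nat_lit 94) (nat_lit 5) (nat_lit 497) (nat_lit 457) (nat_lit 246))) (XT.nd (nat_lit 78) (nat_lit 152) (nat_lit 0) (XT.lf (nat_lit 0) (nat_lit 61178679734) (nat_lit 228) (nat_lit 508099281) (nat_lit 76) (nat_lit 144859480382) (nat_lit 93) (nat_lit 5) (nat_lit 96) (nat_lit 5) (nat_lit 94) (nat_lit 5) (nat_lit 498) (nat_lit 457) (nat_lit 245)) (XT.lf (nat_lit 0) (nat_lit 116528501890) (nat_lit 228) (nat_lit 80957611044) (nat_lit 76) (nat_lit 15524073781) (nat_lit 91) (nat_lit 5) (nat_lit 94) (nat_lit 5) (nat_lit 92) (nat_lit 5) (nat_lit 499) (nat_lit 457) (nat_lit 244)))) (XT.nd (nat_lit 156) (nat_lit 304) (nat_lit 0) (XT.nd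 (nat_lit 78) (nat_lit 76) (nat_lit 0) (XT.lf (nat_lit 0) (nat_lit 52118354379) (nat_lit 152) (nat_lit 124360942275) (nat_lit 228) (nat_lit 43226339678) (nat_lit 89) (nat_lit 5) (nat_lit 91) (nat_lit 5) (nat_lit 92) (nat_lit 5) (nat_lit 500) (nat_lit 457) (nat_lit 243)) (XT.lf (nat_lit 0) (nat_lit 13678853948) (nat_lit 228) (nat_lit 32229556845) (nat_lit 76) (nat_lit 180747875076) (nat_lit 88) (nat_lit 5) (nat_lit 91) (nat_lit 5) (nat_lit 89) (nat_lit 5) (nat_lit 501) (nat_lit 457) (nat_lit 242))) (XT.nd (nat_lit 78) (nat_lit 152) (nat_lit 0) (XT.lf (nat_lit 0) (nat_lit 74347308529) (nat_lit 228) (nat_lit 121643568620) (nat_lit 76) (nat_lit 37809624827) (nat_lit 86) (nat_lit 5) (nat_lit 89) (nat_lit 5) (nat_lit 87) (nat_lit 5) (nat_lit 502) (nat_lit 457) (nat_lit 241)) (XT.nd (nat_lit 78) (nat_lit 0) (nat_lit 0) (XT.lf (nat_lit 0) (nat_lit 23600478340) (nat_lit 152) (nat_lit 116124323113) (nat_lit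 228) (nat_lit 101493346662) (nat_lit 84) (nat_lit 5) (nat_lit 86) (nat_lit 5) (nat_lit 87) (nat_lit 5) (nat_lit 503) (nat_lit 457) (nat_lit 240)) (XT.lf (nat_lit 0) (nat_lit 180329536612) (nat_lit 152) (nat_lit 30101507773) (nat_lit 228) (nat_lit 38472638413) (nat_lit 84) (nat_lit 5) (nat_lit 86) (nat_lit 5) (nat_lit 87) (nat_lit 5) (nat_lit 504) (nat_lit 457) (nat_lit 239))))))))
noncomputable def xc405 : XT := (XT.nd (nat_lit 1248) (nat_lit 1216) (nat_lit 0) (XT.nd (nat_lit 624) (nat_lit 684) (nat_lit 0) (XT.nd (nat_lit 312) (nat_lit 380) (nat_lit 0) (XT.nd (nat_lit 156) (nat_lit 228) (nat_lit 0) (XT.nd (nat_lit 78) (nat_lit 0) (nat_lit 0) (XT.lf (nat_lit 0) (nat_lit 29193920096) (nat_lit 152) (nat_lit 167470292094) (nat_lit 76) (nat_lit 60168591038) (nat_lit 82) (nat_lit 5) (nat_lit 84) (nat_lit 5) (nat_lit 83) (nat_lit 5) (nat_lit 505) (nat_lit 457) (nat_lit 238)) (XT.lf (nat_lit 0) (nat_lit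 100624507079) (nat_lit 152) (nat_lit 8667148414) (nat_lit 76) (nat_lit 155751507567) (nat_lit 82) (nat_lit 5) (nat_lit 84) (nat_lit 5) (nat_lit 83) (nat_lit 5) (nat_lit 506) (nat_lit 457) (nat_lit 237))) (XT.nd (nat_lit 78) (nat_lit 76) (nat_lit 0) (XT.lf (nat_lit 0) (nat_lit 163302498182) (nat_lit 152) (nat_lit 14873536299) (nat_lit 228) (nat_lit 95360535855) (nat_lit 80) (nat_lit 5) (nat_lit 82) (nat_lit 5) (nat_lit 83) (nat_lit 5) (nat_lit 507) (nat_lit 457) (nat_lit 236)) (XT.lf (nat_lit 0) (nat_lit 62403129557) (nat_lit 76) (nat_lit 199640908525) (nat_lit 152) (nat_lit 20288664907) (nat_lit 79) (nat_lit 5) (nat_lit 80) (nat_lit 5) (nat_lit 81) (nat_lit 4) (nat_lit 508) (nat_lit 457) (nat_lit 235)))) (XT.nd (nat_lit 156) (nat_lit 152) (nat_lit 0) (XT.nd (nat_lit 78) (nat_lit 152) (nat_lit 0) (XT.lf (nat_lit 0) (nat_lit 58804360412) (nat_lit 152) (nat_lit 45164742248) (nat_lit 76) (nat_lit 187446788244)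 (nat_lit 78) (nat_lit 5) (nat_lit 80) (nat_lit 5) (nat_lit 79) (nat_lit 5) (nat_lit 509) (nat_lit 457) (nat_lit 234)) (XT.lf (nat_lit 0) (nat_lit 142568471417) (nat_lit 152) (nat_lit 827439912) (nat_lit 228) (nat_lit 157429411512) (nat_lit 76) (nat_lit 5) (nat_lit 78) (nat_lit 5) (nat_lit 79) (nat_lit 5) (nat_lit 510) (nat_lit 457) (nat_lit 233))) (XT.nd (nat_lit 78) (nat_lit 76) (nat_lit 0) (XT.lf (nat_lit 0) (nat_lit 29854090750) (nat_lit 76) (nat_lit 205284223687) (nat_lit 152) (nat_lit 75420848209) (nat_lit 75) (nat_lit 5) (nat_lit 76) (nat_lit 5) (nat_lit 77) (nat_lit 4) (nat_lit 511) (nat_lit 457) (nat_lit 232)) (XT.lf (nat_lit 0) (nat_lit 13083528929) (nat_lit 152) (nat_lit 88005500921) (nat_lit 76) (nat_lit 219545447351) (nat_lit 74) (nat_lit 5) (nat_lit 76) (nat_lit 5) (nat_lit 75) (nat_lit 5) (nat_lit 512) (nat_lit 457) (nat_lit 231))))) (XT.nd (nat_lit 312) (nat_lit 228) (nat_lit 0)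 (XT.nd (nat_lit 156) (nat_lit 304) (nat_lit 0) (XT.nd (nat_lit 78) (nat_lit 0) (nat_lit 0) (XT.lf (nat_lit 0) (nat_lit 105482387654) (nat_lit 228) (nat_lit 214408887936) (nat_lit 76) (nat_lit 11160266640) (nat_lit 72) (nat_lit 5) (nat_lit 75) (nat_lit 5) (nat_lit 73) (nat_lit 4) (nat_lit 513) (nat_lit 457) (nat_lit 230)) (XT.lf (nat_lit 0) (nat_lit 205673060284) (nat_lit 228) (nat_lit 9018326688) (nat_lit 76) (nat_lit 127139479994) (nat_lit 72) (nat_lit 5) (nat_lit 75) (nat_lit 5) (nat_lit 73) (nat_lit 4) (nat_lit 514) (nat_lit 457) (nat_lit 229))) (XT.nd (nat_lit 78) (nat_lit 228) (nat_lit 0) (XT.lf (nat_lit 0) (nat_lit 213473951527) (nat_lit 76) (nat_lit 100732074967) (nat_lit 152) (nat_lit 38776493449) (nat_lit 71) (nat_lit 5) (nat_lit 72) (nat_lit 5) (nat_lit 73) (nat_lit 4) (nat_lit 515) (nat_lit 457) (nat_lit 228)) (XT.lf (nat_lit 0) (nat_lit 63251426471) (nat_lit 228) (nat_lit 280476186114)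 (nat_lit 76) (nat_lit 20824137638) (nat_lit 68) (nat_lit 5) (nat_lit 71) (nat_lit 5) (nat_lit 69) (nat_lit 4) (nat_lit 516) (nat_lit 457) (nat_lit 227)))) (XT.nd (nat_lit 156) (nat_lit 152) (nat_lit 0) (XT.nd (nat_lit 78) (nat_lit 76) (nat_lit 0) (XT.lf (nat_lit 0) (nat_lit 173130155112) (nat_lit 228) (nat_lit 55225053724) (nat_lit 76) (nat_lit 148109821312) (nat_lit 68) (nat_lit 5) (nat_lit 71) (nat_lit 5) (nat_lit 69) (nat_lit 4) (nat_lit 517) (nat_lit 457) (nat_lit 226)) (XT.lf (nat_lit 0) (nat_lit 187282549218) (nat_lit 76) (nat_lit 104144118979) (nat_lit 152) (nat_lit 97401113476) (nat_lit 67) (nat_lit 5) (nat_lit 68) (nat_lit 5) (nat_lit 69) (nat_lit 4) (nat_lit 518) (nat_lit 457) (nat_lit 225))) (XT.nd (nat_lit 78) (nat_lit 0) (nat_lit 0) (XT.lf (nat_lit 0) (nat_lit 15452427214) (nat_lit 152) (nat_lit 358934293368) (nat_lit 76) (nat_lit 27307868649) (nat_lit 65) (nat_lit 5) (nat_lit 67)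 (nat_lit 5) (nat_lit 66) (nat_lit 4) (nat_lit 519) (nat_lit 457) (nat_lit 224)) (XT.lf (nat_lit 0) (nat_lit 135851674381) (nat_lit 152) (nat_lit 112116051669) (nat_lit 76) (nat_lit 166898356864) (nat_lit 65) (nat_lit 5) (nat_lit 67) (nat_lit 5) (nat_lit 66) (nat_lit 4) (nat_lit 520) (nat_lit 457) (nat_lit 223)))))) (XT.nd (nat_lit 624) (nat_lit 684) (nat_lit 0) (XT.nd (nat_lit 312) (nat_lit 228) (nat_lit 0) (XT.nd (nat_lit 156) (nat_lit 228) (nat_lit 0) (XT.nd (nat_lit 78) (nat_lit 0) (nat_lit 0) (XT.lf (nat_lit 0) (nat_lit 151904717561) (nat_lit 76) (nat_lit 112737675837) (nat_lit 152) (nat_lit 163935182411) (nat_lit 64) (nat_lit 5) (nat_lit 65) (nat_lit 5) (nat_lit 66) (nat_lit 4) (nat_lit 521) (nat_lit 457) (nat_lit 222)) (XT.lf (nat_lit 0) (nat_lit 402259101612) (nat_lit 152) (nat_lit 10348911666) (nat_lit 0) (nat_lit 30247307410) (nat_lit 64) (nat_lit 5) (nat_lit 66) (nat_lit 4) (nat_lit 64)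 (nat_lit 4) (nat_lit 522) (nat_lit 457) (nat_lit 221))) (XT.nd (nat_lit 78) (nat_lit 76) (nat_lit 0) (XT.lf (nat_lit 0) (nat_lit 92326648073) (nat_lit 152) (nat_lit 182742342525) (nat_lit 76) (nat_lit 182395424688) (nat_lit 62) (nat_lit 5) (nat_lit 64) (nat_lit 5) (nat_lit 63) (nat_lit 4) (nat_lit 523) (nat_lit 457) (nat_lit 220)) (XT.lf (nat_lit 0) (nat_lit 104279639013) (nat_lit 76) (nat_lit 128057813934) (nat_lit 152) (nat_lit 240342931404) (nat_lit 61) (nat_lit 5) (nat_lit 62) (nat_lit 5) (nat_lit 63) (nat_lit 4) (nat_lit 524) (nat_lit 457) (nat_lit 219)))) (XT.nd (nat_lit 156) (nat_lit 76) (nat_lit 0) (XT.nd (nat_lit 78) (nat_lit 152) (nat_lit 0) (XT.lf (nat_lit 0) (nat_lit 382904900555) (nat_lit 152) (nat_lit 76966974170) (nat_lit 0) (nat_lit 28607472020) (nat_lit 61) (nat_lit 5) (nat_lit 63) (nat_lit 4) (nat_lit 61) (nat_lit 4) (nat_lit 525) (nat_lit 457) (nat_lit 218)) (XT.lf (nat_lit 0)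 (nat_lit 40636297638) (nat_lit 152) (nat_lit 270993163890) (nat_lit 76) (nat_lit 193118050531) (nat_lit 59) (nat_lit 5) (nat_lit 61) (nat_lit 5) (nat_lit 60) (nat_lit 4) (nat_lit 526) (nat_lit 457) (nat_lit 217))) (XT.nd (nat_lit 78) (nat_lit 0) (nat_lit 0) (XT.lf (nat_lit 0) (nat_lit 40462645138) (nat_lit 76) (nat_lit 152103383044) (nat_lit 152) (nat_lit 329078698866) (nat_lit 58) (nat_lit 5) (nat_lit 59) (nat_lit 5) (nat_lit 60) (nat_lit 4) (nat_lit 527) (nat_lit 457) (nat_lit 216)) (XT.lf (nat_lit 0) (nat_lit 356997170210) (nat_lit 152) (nat_lit 162573734809) (nat_lit 0) (nat_lit 19570651521) (nat_lit 58) (nat_lit 5) (nat_lit 60) (nat_lit 4) (nat_lit 58) (nat_lit 4) (nat_lit 528) (nat_lit 457) (nat_lit 215))))) (XT.nd (nat_lit 312) (nat_lit 380) (nat_lit 0) (XT.nd (nat_lit 156) (nat_lit 152) (nat_lit 0) (XT.nd (nat_lit 78) (nat_lit 76) (nat_lit 0) (XT.lf (nat_lit 0) (nat_lit 175074770161) (nat_lit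 76) (nat_lit 359801878395) (nat_lit 76) (nat_lit 22375239990) (nat_lit 57) (nat_lit 4) (nat_lit 58) (nat_lit 5) (nat_lit 58) (nat_lit 4) (nat_lit 529) (nat_lit 457) (nat_lit 214)) (XT.lf (nat_lit 0) (nat_lit 143527493969) (nat_lit 152) (nat_lit 43195389783) (nat_lit 76) (nat_lit 389291448403) (nat_lit 56) (nat_lit 5) (nat_lit 58) (nat_lit 5) (nat_lit 57) (nat_lit 4) (nat_lit 530) (nat_lit 457) (nat_lit 213))) (XT.nd (nat_lit 78) (nat_lit 76) (nat_lit 0) (XT.lf (nat_lit 0) (nat_lit 322022187025) (nat_lit 152) (nat_lit 272758659920) (nat_lit 0) (nat_lit 663271781) (nat_lit 55) (nat_lit 5) (nat_lit 57) (nat_lit 4) (nat_lit 55) (nat_lit 4) (nat_lit 531) (nat_lit 457) (nat_lit 212)) (XT.lf (nat_lit 0) (nat_lit 92436463023) (nat_lit 76) (nat_lit 422252781914) (nat_lit 76) (nat_lit 100893768178) (nat_lit 54) (nat_lit 4) (nat_lit 55) (nat_lit 5) (nat_lit 55) (nat_lit 4) (nat_lit 532) (nat_lit 457) (nat_lit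 211)))) (XT.nd (nat_lit 156) (nat_lit 228) (nat_lit 0) (XT.nd (nat_lit 78) (nat_lit 76) (nat_lit 0) (XT.lf (nat_lit 0) (nat_lit 82386862717) (nat_lit 152) (nat_lit 152466038964) (nat_lit 76) (nat_lit 401578550432) (nat_lit 53) (nat_lit 5) (nat_lit 55) (nat_lit 5) (nat_lit 54) (nat_lit 4) (nat_lit 533) (nat_lit 457) (nat_lit 210)) (XT.lf (nat_lit 0) (nat_lit 242867554958) (nat_lit 76) (nat_lit 32365006908) (nat_lit 152) (nat_lit 382817464940) (nat_lit 52) (nat_lit 5) (nat_lit 53) (nat_lit 5) (nat_lit 54) (nat_lit 4) (nat_lit 534) (nat_lit 457) (nat_lit 209))) (XT.nd (nat_lit 78) (nat_lit 228) (nat_lit 0) (XT.lf (nat_lit 0) (nat_lit 483159012651) (nat_lit 152) (nat_lit 20216040600) (nat_lit 0) (nat_lit 177102553651) (nat_lit 52) (nat_lit 5) (nat_lit 54) (nat_lit 4) (nat_lit 52) (nat_lit 4) (nat_lit 535) (nat_lit 457) (nat_lit 208)) (XT.nd (nat_lit 78) (nat_lit 76) (nat_lit 0) (XT.lf (nat_lit 0) (nat_lit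 4534320867) (nat_lit 152) (nat_lit 296761178390) (nat_lit 76) (nat_lit 402383170700) (nat_lit 50) (nat_lit 5) (nat_lit 52) (nat_lit 5) (nat_lit 51) (nat_lit 4) (nat_lit 536) (nat_lit 457) (nat_lit 207)) (XT.lf (nat_lit 0) (nat_lit 128974312972) (nat_lit 76) (nat_lit 83235893192) (nat_lit 152) (nat_lit 515549767297) (nat_lit 49) (nat_lit 5) (nat_lit 50) (nat_lit 5) (nat_lit 51) (nat_lit 4) (nat_lit 537) (nat_lit 457) (nat_lit 206))))))))
noncomputable def xc406 : XT := (XT.nd (nat_lit 56550) (nat_lit 0) (nat_lit 7144) (XT.nd (nat_lit 624) (nat_lit 304) (nat_lit 0) (XT.nd (nat_lit 312) (nat_lit 228) (nat_lit 0) (XT.nd (nat_lit 156) (nat_lit 152) (nat_lit 0) (XT.nd (nat_lit 78) (nat_lit 76) (nat_lit 0) (XT.lf (nat_lit 0) (nat_lit 437653163831) (nat_lit 152) (nat_lit 168852402630) (nat_lit 0) (nat_lit 146170611773) (nat_lit 49) (nat_lit 5) (nat_lit 51) (nat_lit 4) (nat_lit 49) (nat_lit 4) (nat_lit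 538) (nat_lit 457) (nat_lit 205)) (XT.lf (nat_lit 0) (nat_lit 290510955404) (nat_lit 76) (nat_lit 389757423945) (nat_lit 76) (nat_lit 98274808399) (nat_lit 48) (nat_lit 4) (nat_lit 49) (nat_lit 5) (nat_lit 49) (nat_lit 4) (nat_lit 539) (nat_lit 457) (nat_lit 204))) (XT.nd (nat_lit 78) (nat_lit 76) (nat_lit 0) (XT.lf (nat_lit 0) (nat_lit 128078427333) (nat_lit 152) (nat_lit 28921899976) (nat_lit 76) (nat_lit 648456956582) (nat_lit 47) (nat_lit 5) (nat_lit 49) (nat_lit 5) (nat_lit 48) (nat_lit 4) (nat_lit 540) (nat_lit 457) (nat_lit 203)) (XT.lf (nat_lit 0) (nat_lit 371239608450) (nat_lit 152) (nat_lit 368320270168) (nat_lit 0) (nat_lit 93637005024) (nat_lit 46) (nat_lit 5) (nat_lit 48) (nat_lit 4) (nat_lit 46) (nat_lit 4) (nat_lit 541) (nat_lit 457) (nat_lit 202)))) (XT.nd (nat_lit 156) (nat_lit 76) (nat_lit 0) (XT.nd (nat_lit 78) (nat_lit 76) (nat_lit 0) (XT.lf (nat_lit 0) (nat_lit 123439000788)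 (nat_lit 76) (nat_lit 508118590557) (nat_lit 76) (nat_lit 230515934900) (nat_lit 45) (nat_lit 4) (nat_lit 46) (nat_lit 5) (nat_lit 46) (nat_lit 4) (nat_lit 542) (nat_lit 457) (nat_lit 201)) (XT.lf (nat_lit 0) (nat_lit 18437316544) (nat_lit 152) (nat_lit 239806206485) (nat_lit 76) (nat_lit 633823729854) (nat_lit 44) (nat_lit 5) (nat_lit 46) (nat_lit 5) (nat_lit 45) (nat_lit 4) (nat_lit 543) (nat_lit 457) (nat_lit 200))) (XT.nd (nat_lit 78) (nat_lit 0) (nat_lit 0) (XT.lf (nat_lit 0) (nat_lit 276810833220) (nat_lit 152) (nat_lit 633897653518) (nat_lit 0) (nat_lit 12427259146) (nat_lit 43) (nat_lit 5) (nat_lit 45) (nat_lit 4) (nat_lit 43) (nat_lit 4) (nat_lit 544) (nat_lit 457) (nat_lit 199)) (XT.lf (nat_lit 0) (nat_lit 556464244887) (nat_lit 152) (nat_lit 106794729848) (nat_lit 0) (nat_lit 292080627843) (nat_lit 43) (nat_lit 5) (nat_lit 45) (nat_lit 4) (nat_lit 43) (nat_lit 4) (nat_lit 545) (nat_lit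 457) (nat_lit 198))))) (XT.nd (nat_lit 55614) (nat_lit 0) (nat_lit 9424) (XT.nd (nat_lit 156) (nat_lit 76) (nat_lit 0) (XT.nd (nat_lit 78) (nat_lit 152) (nat_lit 0) (XT.lf (nat_lit 0) (nat_lit 461431864031) (nat_lit 76) (nat_lit 395872619122) (nat_lit 76) (nat_lit 131488961153) (nat_lit 42) (nat_lit 4) (nat_lit 43) (nat_lit 5) (nat_lit 43) (nat_lit 4) (nat_lit 546) (nat_lit 457) (nat_lit 197)) (XT.lf (nat_lit 0) (nat_lit 36764300313) (nat_lit 76) (nat_lit 110137161764) (nat_lit 152) (nat_lit 876781383665) (nat_lit 40) (nat_lit 5) (nat_lit 41) (nat_lit 5) (nat_lit 42) (nat_lit 4) (nat_lit 547) (nat_lit 457) (nat_lit 196))) (XT.nd (nat_lit 78) (nat_lit 76) (nat_lit 0) (XT.lf (nat_lit 0) (nat_lit 446834600265) (nat_lit 152) (nat_lit 417731667071) (nat_lit 0) (nat_lit 195040567821) (nat_lit 40) (nat_lit 5) (nat_lit 42) (nat_lit 4) (nat_lit 40) (nat_lit 4) (nat_lit 548) (nat_lit 457) (nat_lit 195))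 (XT.lf (nat_lit 0) (nat_lit 183997942146) (nat_lit 76) (nat_lit 582444619839) (nat_lit 76) (nat_lit 330650553727) (nat_lit 39) (nat_lit 4) (nat_lit 40) (nat_lit 5) (nat_lit 40) (nat_lit 4) (nat_lit 549) (nat_lit 457) (nat_lit 194)))) (XT.nd (nat_lit 156) (nat_lit 0) (nat_lit 76) (XT.nd (nat_lit 78) (nat_lit 0) (nat_lit 0) (XT.lf (nat_lit 0) (nat_lit 15140625346) (nat_lit 836) (nat_lit 9623623503) (nat_lit 836) (nat_lit 9623623503) (nat_lit 163) (nat_lit 3) (nat_lit 174) (nat_lit 3) (nat_lit 174) (nat_lit 5) (nat_lit 458) (nat_lit 458) (nat_lit 284)) (XT.lf (nat_lit 76) (nat_lit 15497321229) (nat_lit 0) (nat_lit 15796529749) (nat_lit 836) (nat_lit 39188507844) (nat_lit 164) (nat_lit 5) (nat_lit 163) (nat_lit 3) (nat_lit 174) (nat_lit 5) (nat_lit 459) (nat_lit 458) (nat_lit 283))) (XT.nd (nat_lit 78) (nat_lit 0) (nat_lit 0) (XT.lf (nat_lit 0) (nat_lit 32993868929) (nat_lit 760) (nat_lit 19922888325)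 (nat_lit 836) (nat_lit 19325707075) (nat_lit 164) (nat_lit 5) (nat_lit 174) (nat_lit 5) (nat_lit 175) (nat_lit 5) (nat_lit 460) (nat_lit 458) (nat_lit 282)) (XT.lf (nat_lit 76) (nat_lit 17182869983) (nat_lit 0) (nat_lit 18122419194) (nat_lit 836) (nat_lit 38758965928) (nat_lit 165) (nat_lit 5) (nat_lit 164) (nat_lit 5) (nat_lit 175) (nat_lit 5) (nat_lit 461) (nat_lit 458) (nat_lit 281)))))) (XT.nd (nat_lit 624) (nat_lit 1900) (nat_lit 0) (XT.nd (nat_lit 312) (nat_lit 532) (nat_lit 0) (XT.nd (nat_lit 156) (nat_lit 0) (nat_lit 76) (XT.nd (nat_lit 78) (nat_lit 0) (nat_lit 0) (XT.lf (nat_lit 0) (nat_lit 38361878512) (nat_lit 760) (nat_lit 19418194638) (nat_lit 836) (nat_lit 18165582428) (nat_lit 165) (nat_lit 5) (nat_lit 175) (nat_lit 5) (nat_lit 176) (nat_lit 5) (nat_lit 462) (nat_lit 458) (nat_lit 280)) (XT.lf (nat_lit 76) (nat_lit 20269301362) (nat_lit 0) (nat_lit 21914789081) (nat_lit 836) (nat_lit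 35706396031) (nat_lit 166) (nat_lit 5) (nat_lit 165) (nat_lit 5) (nat_lit 176) (nat_lit 5) (nat_lit 463) (nat_lit 458) (nat_lit 279))) (XT.nd (nat_lit 78) (nat_lit 0) (nat_lit 0) (XT.lf (nat_lit 0) (nat_lit 46776740214) (nat_lit 760) (nat_lit 17552524535) (nat_lit 836) (nat_lit 15574327860) (nat_lit 166) (nat_lit 5) (nat_lit 176) (nat_lit 5) (nat_lit 177) (nat_lit 5) (nat_lit 464) (nat_lit 458) (nat_lit 278)) (XT.lf (nat_lit 76) (nat_lit 24958626744) (nat_lit 0) (nat_lit 27388638605) (nat_lit 836) (nat_lit 29632676612) (nat_lit 167) (nat_lit 5) (nat_lit 166) (nat_lit 5) (nat_lit 177) (nat_lit 5) (nat_lit 465) (nat_lit 458) (nat_lit 277)))) (XT.nd (nat_lit 156) (nat_lit 684) (nat_lit 0) (XT.nd (nat_lit 78) (nat_lit 0) (nat_lit 0) (XT.lf (nat_lit 0) (nat_lit 58675758331) (nat_lit 760) (nat_lit 14123912777) (nat_lit 836) (nat_lit 11336465642) (nat_lit 167) (nat_lit 5) (nat_lit 177) (nat_lit 5) (nat_lit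 178) (nat_lit 5) (nat_lit 466) (nat_lit 458) (nat_lit 276)) (XT.lf (nat_lit 76) (nat_lit 31476286425) (nat_lit 0) (nat_lit 34784185550) (nat_lit 836) (nat_lit 20092679551) (nat_lit 168) (nat_lit 5) (nat_lit 167) (nat_lit 5) (nat_lit 178) (nat_lit 5) (nat_lit 467) (nat_lit 458) (nat_lit 275))) (XT.nd (nat_lit 78) (nat_lit 760) (nat_lit 0) (XT.lf (nat_lit 0) (nat_lit 74547056468) (nat_lit 760) (nat_lit 8906799372) (nat_lit 76) (nat_lit 5211029488) (nat_lit 168) (nat_lit 5) (nat_lit 178) (nat_lit 5) (nat_lit 169) (nat_lit 5) (nat_lit 468) (nat_lit 458) (nat_lit 274)) (XT.lf (nat_lit 0) (nat_lit 40073628473) (nat_lit 760) (nat_lit 44369657405) (nat_lit 836) (nat_lit 6589154201) (nat_lit 158) (nat_lit 5) (nat_lit 168) (nat_lit 5) (nat_lit 169) (nat_lit 5) (nat_lit 469) (nat_lit 458) (nat_lit 273))))) (XT.nd (nat_lit 312) (nat_lit 988) (nat_lit 0) (XT.nd (nat_lit 156) (nat_lit 380) (nat_lit 0) (XT.nd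 (nat_lit 78) (nat_lit 456) (nat_lit 0) (XT.lf (nat_lit 0) (nat_lit 1426581130) (nat_lit 836) (nat_lit 1722072893) (nat_lit 76) (nat_lit 90361054012) (nat_lit 157) (nat_lit 5) (nat_lit 168) (nat_lit 5) (nat_lit 158) (nat_lit 5) (nat_lit 470) (nat_lit 458) (nat_lit 272)) (XT.lf (nat_lit 0) (nat_lit 11066997623) (nat_lit 532) (nat_lit 45189957218) (nat_lit 76) (nat_lit 39776216981) (nat_lit 151) (nat_lit 5) (nat_lit 158) (nat_lit 5) (nat_lit 152) (nat_lit 5) (nat_lit 471) (nat_lit 458) (nat_lit 271))) (XT.nd (nat_lit 78) (nat_lit 0) (nat_lit 0) (XT.lf (nat_lit 0) (nat_lit 7606028321) (nat_lit 380) (nat_lit 13782895088) (nat_lit 456) (nat_lit 77283911001) (nat_lit 146) (nat_lit 5) (nat_lit 151) (nat_lit 5) (nat_lit 152) (nat_lit 5) (nat_lit 472) (nat_lit 458) (nat_lit 270)) (XT.lf (nat_lit 0) (nat_lit 33485406207) (nat_lit 456) (nat_lit 37289696531) (nat_lit 76) (nat_lit 30606454386) (nat_lit 146)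 (nat_lit 5) (nat_lit 152) (nat_lit 5) (nat_lit 147) (nat_lit 5) (nat_lit 473) (nat_lit 458) (nat_lit 269)))) (XT.nd (nat_lit 156) (nat_lit 608) (nat_lit 0) (XT.nd (nat_lit 78) (nat_lit 0) (nat_lit 0) (XT.lf (nat_lit 0) (nat_lit 19576375256) (nat_lit 380) (nat_lit 27141447508) (nat_lit 456) (nat_lit 57481337764) (nat_lit 141) (nat_lit 5) (nat_lit 146) (nat_lit 5) (nat_lit 147) (nat_lit 5) (nat_lit 474) (nat_lit 458) (nat_lit 268)) (XT.lf (nat_lit 0) (nat_lit 61544816709) (nat_lit 456) (nat_lit 26848132966) (nat_lit 76) (nat_lit 18718046627) (nat_lit 141) (nat_lit 5) (nat_lit 147) (nat_lit 5) (nat_lit 142) (nat_lit 5) (nat_lit 475) (nat_lit 458) (nat_lit 267))) (XT.nd (nat_lit 78) (nat_lit 304) (nat_lit 0) (XT.lf (nat_lit 0) (nat_lit 34473166841) (nat_lit 304) (nat_lit 43622713230) (nat_lit 380) (nat_lit 32023407840) (nat_lit 137) (nat_lit 5) (nat_lit 141) (nat_lit 5) (nat_lit 142) (nat_lit 5) (nat_lit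 476) (nat_lit 458) (nat_lit 266)) (XT.nd (nat_lit 78) (nat_lit 304) (nat_lit 0) (XT.lf (nat_lit 0) (nat_lit 95989069855) (nat_lit 380) (nat_lit 13523453529) (nat_lit 76) (nat_lit 3739742079) (nat_lit 137) (nat_lit 5) (nat_lit 142) (nat_lit 5) (nat_lit 138) (nat_lit 5) (nat_lit 477) (nat_lit 458) (nat_lit 265)) (XT.lf (nat_lit 0) (nat_lit 52675683632) (nat_lit 304) (nat_lit 63638365335) (nat_lit 380) (nat_lit 150986461) (nat_lit 133) (nat_lit 5) (nat_lit 137) (nat_lit 5) (nat_lit 138) (nat_lit 5) (nat_lit 478) (nat_lit 458) (nat_lit 264))))))))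
noncomputable def xc407 : XT := (XT.nd (nat_lit 1248) (nat_lit 1900) (nat_lit 0) (XT.nd (nat_lit 624) (nat_lit 912) (nat_lit 0) (XT.nd (nat_lit 312) (nat_lit 836) (nat_lit 0) (XT.nd (nat_lit 156) (nat_lit 304) (nat_lit 0) (XT.nd (nat_lit 78) (nat_lit 0) (nat_lit 0) (XT.lf (nat_lit 0) (nat_lit 2629014774) (nat_lit 304) (nat_lit 14890989362) (nat_lit 380) (nat_lit 102290860199) (nat_lit 128) (nat_lit 5) (nat_lit 132) (nat_lit 5) (nat_lit 133) (nat_lit 5) (nat_lit 479) (nat_lit 458) (nat_lit 263)) (XT.lf (nat_lit 0) (nat_lit 37733735002) (nat_lit 380) (nat_lit 49274383982) (nat_lit 76) (nat_lit 36232528723) (nat_lit 128) (nat_lit 5) (nat_lit 133) (nat_lit 5) (nat_lit 129) (nat_lit 5) (nat_lit 480) (nat_lit 458) (nat_lit 262))) (XT.nd (nat_lit 78) (nat_lit 0) (nat_lit 0) (XT.lf (nat_lit 0) (nat_lit 22504133014) (nat_lit 304) (nat_lit 37049109613) (nat_lit 380) (nat_lit 67258923132) (nat_lit 124) (nat_lit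 5) (nat_lit 128) (nat_lit 5) (nat_lit 129) (nat_lit 5) (nat_lit 481) (nat_lit 458) (nat_lit 261)) (XT.lf (nat_lit 0) (nat_lit 83552082956) (nat_lit 380) (nat_lit 31192993062) (nat_lit 76) (nat_lit 15762765850) (nat_lit 124) (nat_lit 5) (nat_lit 129) (nat_lit 5) (nat_lit 125) (nat_lit 5) (nat_lit 482) (nat_lit 458) (nat_lit 260)))) (XT.nd (nat_lit 156) (nat_lit 532) (nat_lit 0) (XT.nd (nat_lit 78) (nat_lit 76) (nat_lit 0) (XT.lf (nat_lit 0) (nat_lit 46456880731) (nat_lit 228) (nat_lit 63626318624) (nat_lit 304) (nat_lit 24238485745) (nat_lit 121) (nat_lit 5) (nat_lit 124) (nat_lit 5) (nat_lit 125) (nat_lit 5) (nat_lit 483) (nat_lit 458) (nat_lit 259)) (XT.lf (nat_lit 0) (nat_lit 163566648) (nat_lit 304) (nat_lit 9230722036) (nat_lit 76) (nat_lit 128905403546) (nat_lit 120) (nat_lit 5) (nat_lit 124) (nat_lit 5) (nat_lit 121) (nat_lit 5) (nat_lit 484) (nat_lit 458) (nat_lit 258))) (XT.nd (nat_lit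 78) (nat_lit 228) (nat_lit 0) (XT.lf (nat_lit 0) (nat_lit 26915403034) (nat_lit 380) (nat_lit 67817204032) (nat_lit 76) (nat_lit 47626912385) (nat_lit 116) (nat_lit 5) (nat_lit 121) (nat_lit 5) (nat_lit 117) (nat_lit 5) (nat_lit 485) (nat_lit 458) (nat_lit 257)) (XT.lf (nat_lit 0) (nat_lit 16583713470) (nat_lit 228) (nat_lit 38992607143) (nat_lit 304) (nat_lit 91017442968) (nat_lit 113) (nat_lit 5) (nat_lit 116) (nat_lit 5) (nat_lit 117) (nat_lit 5) (nat_lit 486) (nat_lit 458) (nat_lit 256))))) (XT.nd (nat_lit 312) (nat_lit 456) (nat_lit 0) (XT.nd (nat_lit 156) (nat_lit 228) (nat_lit 0) (XT.nd (nat_lit 78) (nat_lit 228) (nat_lit 0) (XT.lf (nat_lit 0) (nat_lit 87142299263) (nat_lit 304) (nat_lit 43747432482) (nat_lit 76) (nat_lit 20076387428) (nat_lit 113) (nat_lit 5) (nat_lit 117) (nat_lit 5) (nat_lit 114) (nat_lit 5) (nat_lit 487) (nat_lit 458) (nat_lit 255)) (XT.lf (nat_lit 0) (nat_lit 47715859704)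 (nat_lit 228) (nat_lit 73954616844) (nat_lit 304) (nat_lit 33817421026) (nat_lit 110) (nat_lit 5) (nat_lit 113) (nat_lit 5) (nat_lit 114) (nat_lit 5) (nat_lit 488) (nat_lit 458) (nat_lit 254))) (XT.nd (nat_lit 78) (nat_lit 228) (nat_lit 0) (XT.lf (nat_lit 0) (nat_lit 145270696894) (nat_lit 228) (nat_lit 13394955710) (nat_lit 304) (nat_lit 1533082811) (nat_lit 110) (nat_lit 5) (nat_lit 113) (nat_lit 5) (nat_lit 114) (nat_lit 5) (nat_lit 489) (nat_lit 458) (nat_lit 253)) (XT.lf (nat_lit 0) (nat_lit 33466342427) (nat_lit 228) (nat_lit 81101869848) (nat_lit 76) (nat_lit 50444798731) (nat_lit 107) (nat_lit 5) (nat_lit 110) (nat_lit 5) (nat_lit 108) (nat_lit 5) (nat_lit 490) (nat_lit 458) (nat_lit 252)))) (XT.nd (nat_lit 156) (nat_lit 228) (nat_lit 0) (XT.nd (nat_lit 78) (nat_lit 0) (nat_lit 0) (XT.lf (nat_lit 0) (nat_lit 18497945743) (nat_lit 228) (nat_lit 52431344132) (nat_lit 304) (nat_lit 99099200259)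 (nat_lit 104) (nat_lit 5) (nat_lit 107) (nat_lit 5) (nat_lit 108) (nat_lit 5) (nat_lit 491) (nat_lit 458) (nat_lit 251)) (XT.lf (nat_lit 0) (nat_lit 111861162290) (nat_lit 304) (nat_lit 49555625735) (nat_lit 76) (nat_lit 13798166326) (nat_lit 104) (nat_lit 5) (nat_lit 108) (nat_lit 5) (nat_lit 105) (nat_lit 5) (nat_lit 492) (nat_lit 458) (nat_lit 250))) (XT.nd (nat_lit 78) (nat_lit 76) (nat_lit 0) (XT.lf (nat_lit 0) (nat_lit 58531471686) (nat_lit 152) (nat_lit 98081265117) (nat_lit 228) (nat_lit 23959349563) (nat_lit 102) (nat_lit 5) (nat_lit 104) (nat_lit 5) (nat_lit 105) (nat_lit 5) (nat_lit 493) (nat_lit 458) (nat_lit 249)) (XT.lf (nat_lit 0) (nat_lit 17700498879) (nat_lit 228) (nat_lit 12697636832) (nat_lit 76) (nat_lit 155742715054) (nat_lit 101) (nat_lit 5) (nat_lit 104) (nat_lit 5) (nat_lit 102) (nat_lit 5) (nat_lit 494) (nat_lit 458) (nat_lit 248)))))) (XT.nd (nat_lit 624) (nat_lit 912)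 (nat_lit 0) (XT.nd (nat_lit 312) (nat_lit 380) (nat_lit 0) (XT.nd (nat_lit 156) (nat_lit 228) (nat_lit 0) (XT.nd (nat_lit 78) (nat_lit 152) (nat_lit 0) (XT.lf (nat_lit 0) (nat_lit 62946826772) (nat_lit 304) (nat_lit 87472065140) (nat_lit 76) (nat_lit 41434088755) (nat_lit 98) (nat_lit 5) (nat_lit 102) (nat_lit 5) (nat_lit 99) (nat_lit 5) (nat_lit 495) (nat_lit 458) (nat_lit 247)) (XT.lf (nat_lit 0) (nat_lit 30384506865) (nat_lit 152) (nat_lit 81262003311) (nat_lit 228) (nat_lit 86144654944) (nat_lit 96) (nat_lit 5) (nat_lit 98) (nat_lit 5) (nat_lit 99) (nat_lit 5) (nat_lit 496) (nat_lit 458) (nat_lit 246))) (XT.nd (nat_lit 78) (nat_lit 228) (nat_lit 0) (XT.lf (nat_lit 0) (nat_lit 157170350925) (nat_lit 152) (nat_lit 7091969961) (nat_lit 228) (nat_lit 39689880758) (nat_lit 96) (nat_lit 5) (nat_lit 98) (nat_lit 5) (nat_lit 99) (nat_lit 5) (nat_lit 497) (nat_lit 458) (nat_lit 245)) (XT.lf (nat_lit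 0) (nat_lit 11211121401) (nat_lit 228) (nat_lit 129110256295) (nat_lit 76) (nat_lit 69972100626) (nat_lit 93) (nat_lit 5) (nat_lit 96) (nat_lit 5) (nat_lit 94) (nat_lit 5) (nat_lit 498) (nat_lit 458) (nat_lit 244)))) (XT.nd (nat_lit 156) (nat_lit 228) (nat_lit 0) (XT.nd (nat_lit 78) (nat_lit 152) (nat_lit 0) (XT.lf (nat_lit 0) (nat_lit 64244628503) (nat_lit 228) (nat_lit 521781364) (nat_lit 76) (nat_lit 152106811529) (nat_lit 93) (nat_lit 5) (nat_lit 96) (nat_lit 5) (nat_lit 94) (nat_lit 5) (nat_lit 499) (nat_lit 458) (nat_lit 243)) (XT.lf (nat_lit 0) (nat_lit 122361860763) (nat_lit 228) (nat_lit 84993687492) (nat_lit 76) (nat_lit 16304800887) (nat_lit 91) (nat_lit 5) (nat_lit 94) (nat_lit 5) (nat_lit 92) (nat_lit 5) (nat_lit 500) (nat_lit 458) (nat_lit 242))) (XT.nd (nat_lit 78) (nat_lit 76) (nat_lit 0) (XT.lf (nat_lit 0) (nat_lit 54735885813) (nat_lit 152) (nat_lit 130574160596) (nat_lit 228)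 (nat_lit 45380532285) (nat_lit 89) (nat_lit 5) (nat_lit 91) (nat_lit 5) (nat_lit 92) (nat_lit 5) (nat_lit 501) (nat_lit 458) (nat_lit 241)) (XT.lf (nat_lit 0) (nat_lit 14369364600) (nat_lit 228) (nat_lit 33829756651) (nat_lit 76) (nat_lit 189789650325) (nat_lit 88) (nat_lit 5) (nat_lit 91) (nat_lit 5) (nat_lit 89) (nat_lit 5) (nat_lit 502) (nat_lit 458) (nat_lit 240))))) (XT.nd (nat_lit 312) (nat_lit 456) (nat_lit 0) (XT.nd (nat_lit 156) (nat_lit 152) (nat_lit 0) (XT.nd (nat_lit 78) (nat_lit 152) (nat_lit 0) (XT.lf (nat_lit 0) (nat_lit 78071175268) (nat_lit 228) (nat_lit 127714402192) (nat_lit 76) (nat_lit 39704624369) (nat_lit 86) (nat_lit 5) (nat_lit 89) (nat_lit 5) (nat_lit 87) (nat_lit 5) (nat_lit 503) (nat_lit 458) (nat_lit 239)) (XT.lf (nat_lit 0) (nat_lit 24791664135) (nat_lit 152) (nat_lit 121925743384) (nat_lit 228) (nat_lit 106561329530) (nat_lit 84) (nat_lit 5) (nat_lit 86) (nat_lit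 5) (nat_lit 87) (nat_lit 5) (nat_lit 504) (nat_lit 458) (nat_lit 238))) (XT.nd (nat_lit 78) (nat_lit 152) (nat_lit 0) (XT.lf (nat_lit 0) (nat_lit 189356643802) (nat_lit 152) (nat_lit 31602015653) (nat_lit 228) (nat_lit 40389904176) (nat_lit 84) (nat_lit 5) (nat_lit 86) (nat_lit 5) (nat_lit 87) (nat_lit 5) (nat_lit 505) (nat_lit 458) (nat_lit 237)) (XT.lf (nat_lit 0) (nat_lit 30659723674) (nat_lit 152) (nat_lit 175832917451) (nat_lit 76) (nat_lit 63181496736) (nat_lit 82) (nat_lit 5) (nat_lit 84) (nat_lit 5) (nat_lit 83) (nat_lit 5) (nat_lit 506) (nat_lit 458) (nat_lit 236)))) (XT.nd (nat_lit 156) (nat_lit 304) (nat_lit 0) (XT.nd (nat_lit 78) (nat_lit 152) (nat_lit 0) (XT.lf (nat_lit 0) (nat_lit 105661549170) (nat_lit 152) (nat_lit 9090135123) (nat_lit 76) (nat_lit 163543345942) (nat_lit 82) (nat_lit 5) (nat_lit 84) (nat_lit 5) (nat_lit 83) (nat_lit 5) (nat_lit 507) (nat_lit 458) (nat_lit 235))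 (XT.lf (nat_lit 0) (nat_lit 171477826533) (nat_lit 152) (nat_lit 15612708726) (nat_lit 228) (nat_lit 100122578507) (nat_lit 80) (nat_lit 5) (nat_lit 82) (nat_lit 5) (nat_lit 83) (nat_lit 5) (nat_lit 508) (nat_lit 458) (nat_lit 234))) (XT.nd (nat_lit 78) (nat_lit 228) (nat_lit 0) (XT.lf (nat_lit 0) (nat_lit 65533536203) (nat_lit 76) (nat_lit 209618358465) (nat_lit 152) (nat_lit 21297160608) (nat_lit 79) (nat_lit 5) (nat_lit 80) (nat_lit 5) (nat_lit 81) (nat_lit 4) (nat_lit 509) (nat_lit 458) (nat_lit 233)) (XT.nd (nat_lit 78) (nat_lit 152) (nat_lit 0) (XT.lf (nat_lit 0) (nat_lit 61750052247) (nat_lit 152) (nat_lit 47413036191) (nat_lit 76) (nat_lit 196823323205) (nat_lit 78) (nat_lit 5) (nat_lit 80) (nat_lit 5) (nat_lit 79) (nat_lit 5) (nat_lit 510) (nat_lit 458) (nat_lit 232)) (XT.lf (nat_lit 0) (nat_lit 149706677784) (nat_lit 152) (nat_lit 864395005) (nat_lit 228) (nat_lit 165295247788) (nat_lit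 76) (nat_lit 5) (nat_lit 78) (nat_lit 5) (nat_lit 79) (nat_lit 5) (nat_lit 511) (nat_lit 458) (nat_lit 231))))))))
noncomputable def xc408 : XT := (XT.nd (nat_lit 1248) (nat_lit 1064) (nat_lit 0) (XT.nd (nat_lit 624) (nat_lit 608) (nat_lit 0) (XT.nd (nat_lit 312) (nat_lit 380) (nat_lit 0) (XT.nd (nat_lit 156) (nat_lit 152) (nat_lit 0) (XT.nd (nat_lit 78) (nat_lit 76) (nat_lit 0) (XT.lf (nat_lit 0) (nat_lit 31356616525) (nat_lit 76) (nat_lit 215543943022) (nat_lit 152) (nat_lit 79186294656) (nat_lit 75) (nat_lit 5) (nat_lit 76) (nat_lit 5) (nat_lit 77) (nat_lit 4) (nat_lit 512) (nat_lit 458) (nat_lit 230)) (XT.lf (nat_lit 0) (nat_lit 13742864287) (nat_lit 152) (nat_lit 92396251735) (nat_lit 76) (nat_lit 230526826998) (nat_lit 74) (nat_lit 5) (nat_lit 76) (nat_lit 5) (nat_lit 75) (nat_lit 5) (nat_lit 513) (nat_lit 458) (nat_lit 229))) (XT.nd (nat_lit 78) (nat_lit 0) (nat_lit 0) (XT.lf (nat_lit 0)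 (nat_lit 110761633896) (nat_lit 228) (nat_lit 225119775957) (nat_lit 76) (nat_lit 11722453056) (nat_lit 72) (nat_lit 5) (nat_lit 75) (nat_lit 5) (nat_lit 73) (nat_lit 4) (nat_lit 514) (nat_lit 458) (nat_lit 228)) (XT.lf (nat_lit 0) (nat_lit 215961596021) (nat_lit 228) (nat_lit 9460141711) (nat_lit 76) (nat_lit 133500428359) (nat_lit 72) (nat_lit 5) (nat_lit 75) (nat_lit 5) (nat_lit 73) (nat_lit 4) (nat_lit 515) (nat_lit 458) (nat_lit 227)))) (XT.nd (nat_lit 156) (nat_lit 76) (nat_lit 0) (XT.nd (nat_lit 78) (nat_lit 228) (nat_lit 0) (XT.lf (nat_lit 0) (nat_lit 224156603618) (nat_lit 76) (nat_lit 105764514218) (nat_lit 152) (nat_lit 40710288521) (nat_lit 71) (nat_lit 5) (nat_lit 72) (nat_lit 5) (nat_lit 73) (nat_lit 4) (nat_lit 516) (nat_lit 458) (nat_lit 226)) (XT.lf (nat_lit 0) (nat_lit 66418840046) (nat_lit 228) (nat_lit 294490853402) (nat_lit 76) (nat_lit 21869402099) (nat_lit 68) (nat_lit 5)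 (nat_lit 71) (nat_lit 5) (nat_lit 69) (nat_lit 4) (nat_lit 517) (nat_lit 458) (nat_lit 225))) (XT.nd (nat_lit 78) (nat_lit 76) (nat_lit 0) (XT.lf (nat_lit 0) (nat_lit 181791274536) (nat_lit 228) (nat_lit 57977599727) (nat_lit 76) (nat_lit 155519176738) (nat_lit 68) (nat_lit 5) (nat_lit 71) (nat_lit 5) (nat_lit 69) (nat_lit 4) (nat_lit 518) (nat_lit 458) (nat_lit 224)) (XT.lf (nat_lit 0) (nat_lit 196655242932) (nat_lit 76) (nat_lit 109347284483) (nat_lit 152) (nat_lit 102266416983) (nat_lit 67) (nat_lit 5) (nat_lit 68) (nat_lit 5) (nat_lit 69) (nat_lit 4) (nat_lit 519) (nat_lit 458) (nat_lit 223))))) (XT.nd (nat_lit 312) (nat_lit 380) (nat_lit 0) (XT.nd (nat_lit 156) (nat_lit 76) (nat_lit 0) (XT.nd (nat_lit 78) (nat_lit 0) (nat_lit 0) (XT.lf (nat_lit 0) (nat_lit 16229626948) (nat_lit 152) (nat_lit 376872267863) (nat_lit 76) (nat_lit 28677194902) (nat_lit 65) (nat_lit 5) (nat_lit 67) (nat_lit 5)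 (nat_lit 66) (nat_lit 4) (nat_lit 520) (nat_lit 458) (nat_lit 222)) (XT.lf (nat_lit 0) (nat_lit 142648618455) (nat_lit 152) (nat_lit 117713530278) (nat_lit 76) (nat_lit 175247020251) (nat_lit 65) (nat_lit 5) (nat_lit 67) (nat_lit 5) (nat_lit 66) (nat_lit 4) (nat_lit 521) (nat_lit 458) (nat_lit 221))) (XT.nd (nat_lit 78) (nat_lit 0) (nat_lit 0) (XT.lf (nat_lit 0) (nat_lit 159508143156) (nat_lit 76) (nat_lit 118370650495) (nat_lit 152) (nat_lit 172127446863) (nat_lit 64) (nat_lit 5) (nat_lit 65) (nat_lit 5) (nat_lit 66) (nat_lit 4) (nat_lit 522) (nat_lit 458) (nat_lit 220)) (XT.lf (nat_lit 0) (nat_lit 422376191565) (nat_lit 152) (nat_lit 10858411754) (nat_lit 0) (nat_lit 31763276606) (nat_lit 64) (nat_lit 5) (nat_lit 66) (nat_lit 4) (nat_lit 64) (nat_lit 4) (nat_lit 523) (nat_lit 458) (nat_lit 219)))) (XT.nd (nat_lit 156) (nat_lit 152) (nat_lit 0) (XT.nd (nat_lit 78) (nat_lit 76) (nat_lit 0) (XT.lf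 (nat_lit 0) (nat_lit 96947107108) (nat_lit 152) (nat_lit 191871505816) (nat_lit 76) (nat_lit 191518816747) (nat_lit 62) (nat_lit 5) (nat_lit 64) (nat_lit 5) (nat_lit 63) (nat_lit 4) (nat_lit 524) (nat_lit 458) (nat_lit 218)) (XT.lf (nat_lit 0) (nat_lit 109501446511) (nat_lit 76) (nat_lit 134456931387) (nat_lit 152) (nat_lit 252355823009) (nat_lit 61) (nat_lit 5) (nat_lit 62) (nat_lit 5) (nat_lit 63) (nat_lit 4) (nat_lit 525) (nat_lit 458) (nat_lit 217))) (XT.nd (nat_lit 78) (nat_lit 152) (nat_lit 0) (XT.lf (nat_lit 0) (nat_lit 402054061025) (nat_lit 152) (nat_lit 80807733071) (nat_lit 0) (nat_lit 30041324170) (nat_lit 61) (nat_lit 5) (nat_lit 63) (nat_lit 4) (nat_lit 61) (nat_lit 4) (nat_lit 526) (nat_lit 458) (nat_lit 216)) (XT.lf (nat_lit 0) (nat_lit 42672021183) (nat_lit 152) (nat_lit 284535225416) (nat_lit 76) (nat_lit 202777445591) (nat_lit 59) (nat_lit 5) (nat_lit 61) (nat_lit 5) (nat_lit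 60) (nat_lit 4) (nat_lit 527) (nat_lit 458) (nat_lit 215)))))) (XT.nd (nat_lit 624) (nat_lit 532) (nat_lit 0) (XT.nd (nat_lit 312) (nat_lit 304) (nat_lit 0) (XT.nd (nat_lit 156) (nat_lit 152) (nat_lit 0) (XT.nd (nat_lit 78) (nat_lit 0) (nat_lit 0) (XT.lf (nat_lit 0) (nat_lit 42493251537) (nat_lit 76) (nat_lit 159704917282) (nat_lit 152) (nat_lit 345528602582) (nat_lit 58) (nat_lit 5) (nat_lit 59) (nat_lit 5) (nat_lit 60) (nat_lit 4) (nat_lit 528) (nat_lit 458) (nat_lit 214)) (XT.lf (nat_lit 0) (nat_lit 374850739177) (nat_lit 152) (nat_lit 170695174511) (nat_lit 0) (nat_lit 20552535120) (nat_lit 58) (nat_lit 5) (nat_lit 60) (nat_lit 4) (nat_lit 58) (nat_lit 4) (nat_lit 529) (nat_lit 458) (nat_lit 213))) (XT.nd (nat_lit 78) (nat_lit 76) (nat_lit 0) (XT.lf (nat_lit 0) (nat_lit 183835638820) (nat_lit 76) (nat_lit 377788487254) (nat_lit 76) (nat_lit 23490174611) (nat_lit 57) (nat_lit 4) (nat_lit 58)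 (nat_lit 5) (nat_lit 58) (nat_lit 4) (nat_lit 530) (nat_lit 458) (nat_lit 212)) (XT.lf (nat_lit 0) (nat_lit 150707397123) (nat_lit 152) (nat_lit 45348251955) (nat_lit 76) (nat_lit 408759223231) (nat_lit 56) (nat_lit 5) (nat_lit 58) (nat_lit 5) (nat_lit 57) (nat_lit 4) (nat_lit 531) (nat_lit 458) (nat_lit 211)))) (XT.nd (nat_lit 156) (nat_lit 152) (nat_lit 0) (XT.nd (nat_lit 78) (nat_lit 76) (nat_lit 0) (XT.lf (nat_lit 0) (nat_lit 338126814894) (nat_lit 152) (nat_lit 286389675631) (nat_lit 0) (nat_lit 699658181) (nat_lit 55) (nat_lit 5) (nat_lit 57) (nat_lit 4) (nat_lit 55) (nat_lit 4) (nat_lit 532) (nat_lit 458) (nat_lit 210)) (XT.lf (nat_lit 0) (nat_lit 97065091889) (nat_lit 76) (nat_lit 443362072520) (nat_lit 76) (nat_lit 105934826472) (nat_lit 54) (nat_lit 4) (nat_lit 55) (nat_lit 5) (nat_lit 55) (nat_lit 4) (nat_lit 533) (nat_lit 458) (nat_lit 209))) (XT.nd (nat_lit 78) (nat_lit 76) (nat_lit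 0) (XT.lf (nat_lit 0) (nat_lit 86509552452) (nat_lit 152) (nat_lit 160082748599) (nat_lit 76) (nat_lit 421660556312) (nat_lit 53) (nat_lit 5) (nat_lit 55) (nat_lit 5) (nat_lit 54) (nat_lit 4) (nat_lit 534) (nat_lit 458) (nat_lit 208)) (XT.lf (nat_lit 0) (nat_lit 255017418692) (nat_lit 76) (nat_lit 33980059770) (nat_lit 152) (nat_lit 401954885236) (nat_lit 52) (nat_lit 5) (nat_lit 53) (nat_lit 5) (nat_lit 54) (nat_lit 4) (nat_lit 535) (nat_lit 458) (nat_lit 207))))) (XT.nd (nat_lit 312) (nat_lit 304) (nat_lit 0) (XT.nd (nat_lit 156) (nat_lit 76) (nat_lit 0) (XT.nd (nat_lit 78) (nat_lit 152) (nat_lit 0) (XT.lf (nat_lit 0) (nat_lit 507320142734) (nat_lit 152) (nat_lit 21220556427) (nat_lit 0) (nat_lit 185960629090) (nat_lit 52) (nat_lit 5) (nat_lit 54) (nat_lit 4) (nat_lit 52) (nat_lit 4) (nat_lit 536) (nat_lit 458) (nat_lit 206)) (XT.lf (nat_lit 0) (nat_lit 4764212766) (nat_lit 152) (nat_lit 311592947468)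 (nat_lit 76) (nat_lit 422505284408) (nat_lit 50) (nat_lit 5) (nat_lit 52) (nat_lit 5) (nat_lit 51) (nat_lit 4) (nat_lit 537) (nat_lit 458) (nat_lit 205))) (XT.nd (nat_lit 78) (nat_lit 0) (nat_lit 0) (XT.lf (nat_lit 0) (nat_lit 135429217014) (nat_lit 76) (nat_lit 87394620701) (nat_lit 152) (nat_lit 541323978338) (nat_lit 49) (nat_lit 5) (nat_lit 50) (nat_lit 5) (nat_lit 51) (nat_lit 4) (nat_lit 538) (nat_lit 458) (nat_lit 204)) (XT.lf (nat_lit 0) (nat_lit 459538840241) (nat_lit 152) (nat_lit 177289026011) (nat_lit 0) (nat_lit 153481969964) (nat_lit 49) (nat_lit 5) (nat_lit 51) (nat_lit 4) (nat_lit 49) (nat_lit 4) (nat_lit 539) (nat_lit 458) (nat_lit 203)))) (XT.nd (nat_lit 156) (nat_lit 152) (nat_lit 0) (XT.nd (nat_lit 78) (nat_lit 76) (nat_lit 0) (XT.lf (nat_lit 0) (nat_lit 305042403203) (nat_lit 76) (nat_lit 409242361723) (nat_lit 76) (nat_lit 103185433861) (nat_lit 48) (nat_lit 4) (nat_lit 49)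 (nat_lit 5) (nat_lit 49) (nat_lit 4) (nat_lit 540) (nat_lit 458) (nat_lit 202)) (XT.lf (nat_lit 0) (nat_lit 134485220376) (nat_lit 152) (nat_lit 30362280933) (nat_lit 76) (nat_lit 680882503177) (nat_lit 47) (nat_lit 5) (nat_lit 49) (nat_lit 5) (nat_lit 48) (nat_lit 4) (nat_lit 541) (nat_lit 458) (nat_lit 201))) (XT.nd (nat_lit 78) (nat_lit 76) (nat_lit 0) (XT.lf (nat_lit 0) (nat_lit 389804455278) (nat_lit 152) (nat_lit 386730564348) (nat_lit 0) (nat_lit 98321564862) (nat_lit 46) (nat_lit 5) (nat_lit 48) (nat_lit 4) (nat_lit 46) (nat_lit 4) (nat_lit 542) (nat_lit 458) (nat_lit 200)) (XT.lf (nat_lit 0) (nat_lit 129616577908) (nat_lit 76) (nat_lit 533521710768) (nat_lit 76) (nat_lit 242038772976) (nat_lit 45) (nat_lit 4) (nat_lit 46) (nat_lit 5) (nat_lit 46) (nat_lit 4) (nat_lit 543) (nat_lit 458) (nat_lit 199)))))))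
noncomputable def xc409 : XT := (XT.nd (nat_lit 56628) (nat_lit 0) (nat_lit 6080) (XT.nd (nat_lit 56004) (nat_lit 0) (nat_lit 9424) (XT.nd (nat_lit 312) (nat_lit 152) (nat_lit 0) (XT.nd (nat_lit 156) (nat_lit 76) (nat_lit 0) (XT.nd (nat_lit 78) (nat_lit 76) (nat_lit 0) (XT.lf (nat_lit 0) (nat_lit 19361909964) (nat_lit 152) (nat_lit 251791067485) (nat_lit 76) (nat_lit 665517501685) (nat_lit 44) (nat_lit 5) (nat_lit 46) (nat_lit 5) (nat_lit 45) (nat_lit 4) (nat_lit 544) (nat_lit 458) (nat_lit 198)) (XT.lf (nat_lit 0) (nat_lit 290654098138) (nat_lit 152) (nat_lit 665587082521) (nat_lit 0) (nat_lit 13051216344) (nat_lit 43) (nat_lit 5) (nat_lit 45) (nat_lit 4) (nat_lit 43) (nat_lit 4) (nat_lit 545) (nat_lit 458) (nat_lit 197))) (XT.nd (nat_lit 78) (nat_lit 76) (nat_lit 0) (XT.lf (nat_lit 0) (nat_lit 584290050710) (nat_lit 152) (nat_lit 112129272366) (nat_lit 0) (nat_lit 306687129940) (nat_lit 43) (nat_lit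 5) (nat_lit 45) (nat_lit 4) (nat_lit 43) (nat_lit 4) (nat_lit 546) (nat_lit 458) (nat_lit 196)) (XT.lf (nat_lit 0) (nat_lit 484508567434) (nat_lit 76) (nat_lit 415663689736) (nat_lit 76) (nat_lit 138060731847) (nat_lit 42) (nat_lit 4) (nat_lit 43) (nat_lit 5) (nat_lit 43) (nat_lit 4) (nat_lit 547) (nat_lit 458) (nat_lit 195)))) (XT.nd (nat_lit 55536) (nat_lit 0) (nat_lit 9348) (XT.nd (nat_lit 78) (nat_lit 0) (nat_lit 0) (XT.lf (nat_lit 0) (nat_lit 38607627428) (nat_lit 76) (nat_lit 115641455825) (nat_lit 152) (nat_lit 920617777361) (nat_lit 40) (nat_lit 5) (nat_lit 41) (nat_lit 5) (nat_lit 42) (nat_lit 4) (nat_lit 548) (nat_lit 458) (nat_lit 194)) (XT.lf (nat_lit 0) (nat_lit 469178795139) (nat_lit 152) (nat_lit 438613298536) (nat_lit 0) (nat_lit 204794959986) (nat_lit 40) (nat_lit 5) (nat_lit 42) (nat_lit 4) (nat_lit 40) (nat_lit 4) (nat_lit 549) (nat_lit 458) (nat_lit 193))) (XT.nd (nat_lit 78)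 (nat_lit 0) (nat_lit 0) (XT.lf (nat_lit 0) (nat_lit 15911056488) (nat_lit 836) (nat_lit 10097769227) (nat_lit 836) (nat_lit 10097769227) (nat_lit 163) (nat_lit 3) (nat_lit 174) (nat_lit 3) (nat_lit 174) (nat_lit 5) (nat_lit 459) (nat_lit 459) (nat_lit 282)) (XT.lf (nat_lit 76) (nat_lit 16286031243) (nat_lit 0) (nat_lit 16598251997) (nat_lit 836) (nat_lit 41120904568) (nat_lit 164) (nat_lit 5) (nat_lit 163) (nat_lit 3) (nat_lit 174) (nat_lit 5) (nat_lit 460) (nat_lit 459) (nat_lit 281))))) (XT.nd (nat_lit 312) (nat_lit 0) (nat_lit 152) (XT.nd (nat_lit 156) (nat_lit 0) (nat_lit 76) (XT.nd (nat_lit 78) (nat_lit 0) (nat_lit 0) (XT.lf (nat_lit 0) (nat_lit 34667899506) (nat_lit 760) (nat_lit 20904443566) (nat_lit 836) (nat_lit 20281025741) (nat_lit 164) (nat_lit 5) (nat_lit 174) (nat_lit 5) (nat_lit 175) (nat_lit 5) (nat_lit 461) (nat_lit 459) (nat_lit 280)) (XT.lf (nat_lit 76) (nat_lit 18056367348)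 (nat_lit 0) (nat_lit 19037588611) (nat_lit 836) (nat_lit 40672339998) (nat_lit 165) (nat_lit 5) (nat_lit 164) (nat_lit 5) (nat_lit 175) (nat_lit 5) (nat_lit 462) (nat_lit 459) (nat_lit 279))) (XT.nd (nat_lit 78) (nat_lit 0) (nat_lit 0) (XT.lf (nat_lit 0) (nat_lit 40302125820) (nat_lit 760) (nat_lit 20374183379) (nat_lit 836) (nat_lit 19065519787) (nat_lit 165) (nat_lit 5) (nat_lit 175) (nat_lit 5) (nat_lit 176) (nat_lit 5) (nat_lit 463) (nat_lit 459) (nat_lit 278)) (XT.lf (nat_lit 76) (nat_lit 21297446760) (nat_lit 0) (nat_lit 23017175866) (nat_lit 836) (nat_lit 37469320168) (nat_lit 166) (nat_lit 5) (nat_lit 165) (nat_lit 5) (nat_lit 176) (nat_lit 5) (nat_lit 464) (nat_lit 459) (nat_lit 277)))) (XT.nd (nat_lit 156) (nat_lit 0) (nat_lit 76) (XT.nd (nat_lit 78) (nat_lit 0) (nat_lit 0) (XT.lf (nat_lit 0) (nat_lit 49135790442) (nat_lit 760) (nat_lit 18415053508) (nat_lit 836) (nat_lit 16346916087)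 (nat_lit 166) (nat_lit 5) (nat_lit 176) (nat_lit 5) (nat_lit 177) (nat_lit 5) (nat_lit 465) (nat_lit 459) (nat_lit 276)) (XT.lf (nat_lit 76) (nat_lit 26221411832) (nat_lit 0) (nat_lit 28762699376) (nat_lit 836) (nat_lit 31093852252) (nat_lit 167) (nat_lit 5) (nat_lit 166) (nat_lit 5) (nat_lit 177) (nat_lit 5) (nat_lit 466) (nat_lit 459) (nat_lit 275))) (XT.nd (nat_lit 78) (nat_lit 0) (nat_lit 0) (XT.lf (nat_lit 0) (nat_lit 61628032269) (nat_lit 760) (nat_lit 14814964017) (nat_lit 836) (nat_lit 11899021602) (nat_lit 167) (nat_lit 5) (nat_lit 177) (nat_lit 5) (nat_lit 178) (nat_lit 5) (nat_lit 467) (nat_lit 459) (nat_lit 274)) (XT.lf (nat_lit 76) (nat_lit 33065000881) (nat_lit 0) (nat_lit 36526333060) (nat_lit 836) (nat_lit 21078581910) (nat_lit 168) (nat_lit 5) (nat_lit 167) (nat_lit 5) (nat_lit 178) (nat_lit 5) (nat_lit 468) (nat_lit 459) (nat_lit 273)))))) (XT.nd (nat_lit 624) (nat_lit 1596) (nat_lit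 0) (XT.nd (nat_lit 312) (nat_lit 760) (nat_lit 0) (XT.nd (nat_lit 156) (nat_lit 532) (nat_lit 0) (XT.nd (nat_lit 78) (nat_lit 760) (nat_lit 0) (XT.lf (nat_lit 0) (nat_lit 78291354523) (nat_lit 760) (nat_lit 9337054331) (nat_lit 76) (nat_lit 5468872210) (nat_lit 168) (nat_lit 5) (nat_lit 178) (nat_lit 5) (nat_lit 169) (nat_lit 5) (nat_lit 469) (nat_lit 459) (nat_lit 272)) (XT.lf (nat_lit 0) (nat_lit 42092151600) (nat_lit 760) (nat_lit 46589668608) (nat_lit 836) (nat_lit 6901422164) (nat_lit 158) (nat_lit 5) (nat_lit 168) (nat_lit 5) (nat_lit 169) (nat_lit 5) (nat_lit 470) (nat_lit 459) (nat_lit 271))) (XT.nd (nat_lit 78) (nat_lit 456) (nat_lit 0) (XT.lf (nat_lit 0) (nat_lit 1513757395) (nat_lit 836) (nat_lit 1793516505) (nat_lit 76) (nat_lit 94877126080) (nat_lit 157) (nat_lit 5) (nat_lit 168) (nat_lit 5) (nat_lit 158) (nat_lit 5) (nat_lit 471) (nat_lit 459) (nat_lit 270)) (XT.lf (nat_lit 0) (nat_lit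 11635651314) (nat_lit 532) (nat_lit 47434250604) (nat_lit 76) (nat_lit 41764162259) (nat_lit 151) (nat_lit 5) (nat_lit 158) (nat_lit 5) (nat_lit 152) (nat_lit 5) (nat_lit 472) (nat_lit 459) (nat_lit 269)))) (XT.nd (nat_lit 156) (nat_lit 380) (nat_lit 0) (XT.nd (nat_lit 78) (nat_lit 0) (nat_lit 0) (XT.lf (nat_lit 0) (nat_lit 8001288978) (nat_lit 380) (nat_lit 14471889214) (nat_lit 456) (nat_lit 81132556512) (nat_lit 146) (nat_lit 5) (nat_lit 151) (nat_lit 5) (nat_lit 152) (nat_lit 5) (nat_lit 473) (nat_lit 459) (nat_lit 268)) (XT.lf (nat_lit 0) (nat_lit 35173782199) (nat_lit 456) (nat_lit 39139230582) (nat_lit 76) (nat_lit 32136915969) (nat_lit 146) (nat_lit 5) (nat_lit 152) (nat_lit 5) (nat_lit 147) (nat_lit 5) (nat_lit 474) (nat_lit 459) (nat_lit 267))) (XT.nd (nat_lit 78) (nat_lit 0) (nat_lit 0) (XT.lf (nat_lit 0) (nat_lit 20569903653) (nat_lit 380) (nat_lit 28497473889) (nat_lit 456) (nat_lit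 60341056928) (nat_lit 141) (nat_lit 5) (nat_lit 146) (nat_lit 5) (nat_lit 147) (nat_lit 5) (nat_lit 475) (nat_lit 459) (nat_lit 266)) (XT.lf (nat_lit 0) (nat_lit 64635086089) (nat_lit 456) (nat_lit 28175894483) (nat_lit 76) (nat_lit 19654913259) (nat_lit 141) (nat_lit 5) (nat_lit 147) (nat_lit 5) (nat_lit 142) (nat_lit 5) (nat_lit 476) (nat_lit 459) (nat_lit 265))))) (XT.nd (nat_lit 312) (nat_lit 608) (nat_lit 0) (XT.nd (nat_lit 156) (nat_lit 684) (nat_lit 0) (XT.nd (nat_lit 78) (nat_lit 0) (nat_lit 0) (XT.lf (nat_lit 0) (nat_lit 36211234103) (nat_lit 304) (nat_lit 45802073072) (nat_lit 380) (nat_lit 33611312657) (nat_lit 137) (nat_lit 5) (nat_lit 141) (nat_lit 5) (nat_lit 142) (nat_lit 5) (nat_lit 477) (nat_lit 459) (nat_lit 264)) (XT.lf (nat_lit 0) (nat_lit 100800581278) (nat_lit 380) (nat_lit 14185327474) (nat_lit 76) (nat_lit 3928366309) (nat_lit 137) (nat_lit 5) (nat_lit 142) (nat_lit 5) (nat_lit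 138) (nat_lit 5) (nat_lit 478) (nat_lit 459) (nat_lit 263))) (XT.nd (nat_lit 78) (nat_lit 380) (nat_lit 0) (XT.lf (nat_lit 0) (nat_lit 55323535920) (nat_lit 304) (nat_lit 66817918881) (nat_lit 380) (nat_lit 146246487) (nat_lit 133) (nat_lit 5) (nat_lit 137) (nat_lit 5) (nat_lit 138) (nat_lit 5) (nat_lit 479) (nat_lit 459) (nat_lit 262)) (XT.lf (nat_lit 0) (nat_lit 2774694400) (nat_lit 304) (nat_lit 15632861584) (nat_lit 380) (nat_lit 107393273313) (nat_lit 128) (nat_lit 5) (nat_lit 132) (nat_lit 5) (nat_lit 133) (nat_lit 5) (nat_lit 480) (nat_lit 459) (nat_lit 261)))) (XT.nd (nat_lit 156) (nat_lit 304) (nat_lit 0) (XT.nd (nat_lit 78) (nat_lit 304) (nat_lit 0) (XT.lf (nat_lit 0) (nat_lit 39631463124) (nat_lit 380) (nat_lit 51724040950) (nat_lit 76) (nat_lit 38046623309) (nat_lit 128) (nat_lit 5) (nat_lit 133) (nat_lit 5) (nat_lit 129) (nat_lit 5) (nat_lit 481) (nat_lit 459) (nat_lit 260)) (XT.lf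 (nat_lit 0) (nat_lit 23643175087) (nat_lit 304) (nat_lit 38898461274) (nat_lit 380) (nat_lit 70610600496) (nat_lit 124) (nat_lit 5) (nat_lit 128) (nat_lit 5) (nat_lit 129) (nat_lit 5) (nat_lit 482) (nat_lit 459) (nat_lit 259))) (XT.nd (nat_lit 78) (nat_lit 304) (nat_lit 0) (XT.lf (nat_lit 0) (nat_lit 87739953829) (nat_lit 380) (nat_lit 32739000664) (nat_lit 76) (nat_lit 16553765551) (nat_lit 124) (nat_lit 5) (nat_lit 129) (nat_lit 5) (nat_lit 125) (nat_lit 5) (nat_lit 483) (nat_lit 459) (nat_lit 258)) (XT.nd (nat_lit 78) (nat_lit 76) (nat_lit 0) (XT.lf (nat_lit 0) (nat_lit 48793146785) (nat_lit 228) (nat_lit 66804199926) (nat_lit 304) (nat_lit 25439922720) (nat_lit 121) (nat_lit 5) (nat_lit 124) (nat_lit 5) (nat_lit 125) (nat_lit 5) (nat_lit 484) (nat_lit 459) (nat_lit 257)) (XT.lf (nat_lit 0) (nat_lit 181413221) (nat_lit 304) (nat_lit 9679155085) (nat_lit 76) (nat_lit 135353624621) (nat_lit 120)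 (nat_lit 5) (nat_lit 124) (nat_lit 5) (nat_lit 121) (nat_lit 5) (nat_lit 485) (nat_lit 459) (nat_lit 256))))))))
noncomputable def xc410 : XT := (XT.nd (nat_lit 1248) (nat_lit 1748) (nat_lit 0) (XT.nd (nat_lit 624) (nat_lit 988) (nat_lit 0) (XT.nd (nat_lit 312) (nat_lit 456) (nat_lit 0) (XT.nd (nat_lit 156) (nat_lit 228) (nat_lit 0) (XT.nd (nat_lit 78) (nat_lit 228) (nat_lit 0) (XT.lf (nat_lit 0) (nat_lit 28270636683) (nat_lit 380) (nat_lit 71194755959) (nat_lit 76) (nat_lit 50011629128) (nat_lit 116) (nat_lit 5) (nat_lit 121) (nat_lit 5) (nat_lit 117) (nat_lit 5) (nat_lit 486) (nat_lit 459) (nat_lit 255)) (XT.lf (nat_lit 0) (nat_lit 17425992769) (nat_lit 228) (nat_lit 40938361157) (nat_lit 304) (nat_lit 95558636514) (nat_lit 113) (nat_lit 5) (nat_lit 116) (nat_lit 5) (nat_lit 117) (nat_lit 5) (nat_lit 487) (nat_lit 459) (nat_lit 254))) (XT.nd (nat_lit 78) (nat_lit 228) (nat_lit 0) (XT.lf (nat_lit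 0) (nat_lit 91508250229) (nat_lit 304) (nat_lit 45921952274) (nat_lit 76) (nat_lit 21083780395) (nat_lit 113) (nat_lit 5) (nat_lit 117) (nat_lit 5) (nat_lit 114) (nat_lit 5) (nat_lit 488) (nat_lit 459) (nat_lit 253)) (XT.lf (nat_lit 0) (nat_lit 50114297235) (nat_lit 228) (nat_lit 77648315799) (nat_lit 304) (nat_lit 35499248373) (nat_lit 110) (nat_lit 5) (nat_lit 113) (nat_lit 5) (nat_lit 114) (nat_lit 5) (nat_lit 489) (nat_lit 459) (nat_lit 252)))) (XT.nd (nat_lit 156) (nat_lit 228) (nat_lit 0) (XT.nd (nat_lit 78) (nat_lit 228) (nat_lit 0) (XT.lf (nat_lit 0) (nat_lit 152546274162) (nat_lit 228) (nat_lit 14060863603) (nat_lit 304) (nat_lit 1601123900) (nat_lit 110) (nat_lit 5) (nat_lit 113) (nat_lit 5) (nat_lit 114) (nat_lit 5) (nat_lit 490) (nat_lit 459) (nat_lit 251)) (XT.lf (nat_lit 0) (nat_lit 35147851432) (nat_lit 228) (nat_lit 85144499017) (nat_lit 76) (nat_lit 52970901156) (nat_lit 107) (nat_lit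 5) (nat_lit 110) (nat_lit 5) (nat_lit 108) (nat_lit 5) (nat_lit 491) (nat_lit 459) (nat_lit 250))) (XT.nd (nat_lit 78) (nat_lit 0) (nat_lit 0) (XT.lf (nat_lit 0) (nat_lit 19435106316) (nat_lit 228) (nat_lit 55048641311) (nat_lit 304) (nat_lit 104045767011) (nat_lit 104) (nat_lit 5) (nat_lit 107) (nat_lit 5) (nat_lit 108) (nat_lit 5) (nat_lit 492) (nat_lit 459) (nat_lit 249)) (XT.lf (nat_lit 0) (nat_lit 117461896524) (nat_lit 304) (nat_lit 52021410239) (nat_lit 76) (nat_lit 14492011176) (nat_lit 104) (nat_lit 5) (nat_lit 108) (nat_lit 5) (nat_lit 105) (nat_lit 5) (nat_lit 493) (nat_lit 459) (nat_lit 248))))) (XT.nd (nat_lit 312) (nat_lit 380) (nat_lit 0) (XT.nd (nat_lit 156) (nat_lit 380) (nat_lit 0) (XT.nd (nat_lit 78) (nat_lit 76) (nat_lit 0) (XT.lf (nat_lit 0) (nat_lit 61469848557) (nat_lit 152) (nat_lit 102981019959) (nat_lit 228) (nat_lit 25149447116) (nat_lit 102) (nat_lit 5) (nat_lit 104)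 (nat_lit 5) (nat_lit 105) (nat_lit 5) (nat_lit 494) (nat_lit 459) (nat_lit 247)) (XT.lf (nat_lit 0) (nat_lit 18592779097) (nat_lit 228) (nat_lit 13321037276) (nat_lit 76) (nat_lit 163533713886) (nat_lit 101) (nat_lit 5) (nat_lit 104) (nat_lit 5) (nat_lit 102) (nat_lit 5) (nat_lit 495) (nat_lit 459) (nat_lit 246))) (XT.nd (nat_lit 78) (nat_lit 152) (nat_lit 0) (XT.lf (nat_lit 0) (nat_lit 66101319992) (nat_lit 304) (nat_lit 91834083341) (nat_lit 76) (nat_lit 43509868507) (nat_lit 98) (nat_lit 5) (nat_lit 102) (nat_lit 5) (nat_lit 99) (nat_lit 5) (nat_lit 496) (nat_lit 459) (nat_lit 245)) (XT.lf (nat_lit 0) (nat_lit 31915130408) (nat_lit 152) (nat_lit 85320694549) (nat_lit 228) (nat_lit 90444548700) (nat_lit 96) (nat_lit 5) (nat_lit 98) (nat_lit 5) (nat_lit 99) (nat_lit 5) (nat_lit 497) (nat_lit 459) (nat_lit 244)))) (XT.nd (nat_lit 156) (nat_lit 152) (nat_lit 0) (XT.nd (nat_lit 78) (nat_lit 228)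 (nat_lit 0) (XT.lf (nat_lit 0) (nat_lit 165039723901) (nat_lit 152) (nat_lit 7442369481) (nat_lit 228) (nat_lit 41667385281) (nat_lit 96) (nat_lit 5) (nat_lit 98) (nat_lit 5) (nat_lit 99) (nat_lit 5) (nat_lit 498) (nat_lit 459) (nat_lit 243)) (XT.lf (nat_lit 0) (nat_lit 11778358216) (nat_lit 228) (nat_lit 135554604462) (nat_lit 76) (nat_lit 73474855304) (nat_lit 93) (nat_lit 5) (nat_lit 96) (nat_lit 5) (nat_lit 94) (nat_lit 5) (nat_lit 499) (nat_lit 459) (nat_lit 242))) (XT.nd (nat_lit 78) (nat_lit 152) (nat_lit 0) (XT.lf (nat_lit 0) (nat_lit 67463222543) (nat_lit 228) (nat_lit 537237434) (nat_lit 76) (nat_lit 159716104150) (nat_lit 93) (nat_lit 5) (nat_lit 96) (nat_lit 5) (nat_lit 94) (nat_lit 5) (nat_lit 500) (nat_lit 459) (nat_lit 241)) (XT.lf (nat_lit 0) (nat_lit 128486242943) (nat_lit 228) (nat_lit 89232665197) (nat_lit 76) (nat_lit 17124143804) (nat_lit 91) (nat_lit 5) (nat_lit 94) (nat_lit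 5) (nat_lit 92) (nat_lit 5) (nat_lit 501) (nat_lit 459) (nat_lit 240)))))) (XT.nd (nat_lit 624) (nat_lit 912) (nat_lit 0) (XT.nd (nat_lit 312) (nat_lit 304) (nat_lit 0) (XT.nd (nat_lit 156) (nat_lit 304) (nat_lit 0) (XT.nd (nat_lit 78) (nat_lit 76) (nat_lit 0) (XT.lf (nat_lit 0) (nat_lit 57483214086) (nat_lit 152) (nat_lit 137098488767) (nat_lit 228) (nat_lit 47643096880) (nat_lit 89) (nat_lit 5) (nat_lit 91) (nat_lit 5) (nat_lit 92) (nat_lit 5) (nat_lit 502) (nat_lit 459) (nat_lit 239)) (XT.lf (nat_lit 0) (nat_lit 15093790158) (nat_lit 228) (nat_lit 35511014972) (nat_lit 76) (nat_lit 199283106987) (nat_lit 88) (nat_lit 5) (nat_lit 91) (nat_lit 5) (nat_lit 89) (nat_lit 5) (nat_lit 503) (nat_lit 459) (nat_lit 238))) (XT.nd (nat_lit 78) (nat_lit 152) (nat_lit 0) (XT.lf (nat_lit 0) (nat_lit 81980630913) (nat_lit 228) (nat_lit 134089832180) (nat_lit 76) (nat_lit 41693953820) (nat_lit 86) (nat_lit 5)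 (nat_lit 89) (nat_lit 5) (nat_lit 87) (nat_lit 5) (nat_lit 504) (nat_lit 459) (nat_lit 237)) (XT.lf (nat_lit 0) (nat_lit 26041371494) (nat_lit 152) (nat_lit 128017680546) (nat_lit 228) (nat_lit 111883333000) (nat_lit 84) (nat_lit 5) (nat_lit 86) (nat_lit 5) (nat_lit 87) (nat_lit 5) (nat_lit 505) (nat_lit 459) (nat_lit 236)))) (XT.nd (nat_lit 156) (nat_lit 152) (nat_lit 0) (XT.nd (nat_lit 78) (nat_lit 152) (nat_lit 0) (XT.lf (nat_lit 0) (nat_lit 198834118042) (nat_lit 152) (nat_lit 33177973571) (nat_lit 228) (nat_lit 42403625093) (nat_lit 84) (nat_lit 5) (nat_lit 86) (nat_lit 5) (nat_lit 87) (nat_lit 5) (nat_lit 506) (nat_lit 459) (nat_lit 235)) (XT.lf (nat_lit 0) (nat_lit 32198249608) (nat_lit 152) (nat_lit 184614686456) (nat_lit 76) (nat_lit 66344631570) (nat_lit 82) (nat_lit 5) (nat_lit 84) (nat_lit 5) (nat_lit 83) (nat_lit 5) (nat_lit 507) (nat_lit 459) (nat_lit 234))) (XT.nd (nat_lit 78) (nat_lit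 152) (nat_lit 0) (XT.lf (nat_lit 0) (nat_lit 110949902580) (nat_lit 152) (nat_lit 9535235338) (nat_lit 76) (nat_lit 171724379903) (nat_lit 82) (nat_lit 5) (nat_lit 84) (nat_lit 5) (nat_lit 83) (nat_lit 5) (nat_lit 508) (nat_lit 459) (nat_lit 233)) (XT.lf (nat_lit 0) (nat_lit 180060972683) (nat_lit 152) (nat_lit 16389258549) (nat_lit 228) (nat_lit 105123279640) (nat_lit 80) (nat_lit 5) (nat_lit 82) (nat_lit 5) (nat_lit 83) (nat_lit 5) (nat_lit 509) (nat_lit 459) (nat_lit 232))))) (XT.nd (nat_lit 312) (nat_lit 532) (nat_lit 0) (XT.nd (nat_lit 156) (nat_lit 228) (nat_lit 0) (XT.nd (nat_lit 78) (nat_lit 76) (nat_lit 0) (XT.lf (nat_lit 0) (nat_lit 68819510217) (nat_lit 76) (nat_lit 220095108147) (nat_lit 152) (nat_lit 22356633112) (nat_lit 79) (nat_lit 5) (nat_lit 80) (nat_lit 5) (nat_lit 81) (nat_lit 4) (nat_lit 510) (nat_lit 459) (nat_lit 231)) (XT.lf (nat_lit 0) (nat_lit 64842519771) (nat_lit 152)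 (nat_lit 49774669252) (nat_lit 76) (nat_lit 206668294851) (nat_lit 78) (nat_lit 5) (nat_lit 80) (nat_lit 5) (nat_lit 79) (nat_lit 5) (nat_lit 511) (nat_lit 459) (nat_lit 230))) (XT.nd (nat_lit 78) (nat_lit 76) (nat_lit 0) (XT.lf (nat_lit 0) (nat_lit 157200884958) (nat_lit 152) (nat_lit 903608495) (nat_lit 228) (nat_lit 173554899703) (nat_lit 76) (nat_lit 5) (nat_lit 78) (nat_lit 5) (nat_lit 79) (nat_lit 5) (nat_lit 512) (nat_lit 459) (nat_lit 229)) (XT.lf (nat_lit 0) (nat_lit 32933355503) (nat_lit 76) (nat_lit 226317065934) (nat_lit 152) (nat_lit 83140533685) (nat_lit 75) (nat_lit 5) (nat_lit 76) (nat_lit 5) (nat_lit 77) (nat_lit 4) (nat_lit 513) (nat_lit 459) (nat_lit 228)))) (XT.nd (nat_lit 156) (nat_lit 304) (nat_lit 0) (XT.nd (nat_lit 78) (nat_lit 152) (nat_lit 0) (XT.lf (nat_lit 0) (nat_lit 14434686787) (nat_lit 152) (nat_lit 97007425563) (nat_lit 76) (nat_lit 242056893771) (nat_lit 74) (nat_lit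 5) (nat_lit 76) (nat_lit 5) (nat_lit 75) (nat_lit 5) (nat_lit 514) (nat_lit 459) (nat_lit 227)) (XT.lf (nat_lit 0) (nat_lit 116304365802) (nat_lit 228) (nat_lit 236367096840) (nat_lit 76) (nat_lit 12312360818) (nat_lit 72) (nat_lit 5) (nat_lit 75) (nat_lit 5) (nat_lit 73) (nat_lit 4) (nat_lit 515) (nat_lit 459) (nat_lit 226))) (XT.nd (nat_lit 78) (nat_lit 304) (nat_lit 0) (XT.lf (nat_lit 0) (nat_lit 226764104595) (nat_lit 228) (nat_lit 9924893640) (nat_lit 76) (nat_lit 140179054644) (nat_lit 72) (nat_lit 5) (nat_lit 75) (nat_lit 5) (nat_lit 73) (nat_lit 4) (nat_lit 516) (nat_lit 459) (nat_lit 225)) (XT.nd (nat_lit 78) (nat_lit 228) (nat_lit 0) (XT.lf (nat_lit 0) (nat_lit 235372555809) (nat_lit 76) (nat_lit 111048962606) (nat_lit 152) (nat_lit 42741240951) (nat_lit 71) (nat_lit 5) (nat_lit 72) (nat_lit 5) (nat_lit 73) (nat_lit 4) (nat_lit 517) (nat_lit 459) (nat_lit 224)) (XT.lf (nat_lit 0) (nat_lit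 69744174113) (nat_lit 228) (nat_lit 309207103992) (nat_lit 76) (nat_lit 22966552547) (nat_lit 68) (nat_lit 5) (nat_lit 71) (nat_lit 5) (nat_lit 69) (nat_lit 4) (nat_lit 518) (nat_lit 459) (nat_lit 223))))))))
noncomputable def xc411 : XT := (XT.nd (nat_lit 1248) (nat_lit 912) (nat_lit 0) (XT.nd (nat_lit 624) (nat_lit 532) (nat_lit 0) (XT.nd (nat_lit 312) (nat_lit 304) (nat_lit 0) (XT.nd (nat_lit 156) (nat_lit 152) (nat_lit 0) (XT.nd (nat_lit 78) (nat_lit 76) (nat_lit 0) (XT.lf (nat_lit 0) (nat_lit 190885021182) (nat_lit 228) (nat_lit 60868582495) (nat_lit 76) (nat_lit 163298640664) (nat_lit 68) (nat_lit 5) (nat_lit 71) (nat_lit 5) (nat_lit 69) (nat_lit 4) (nat_lit 519) (nat_lit 459) (nat_lit 222)) (XT.lf (nat_lit 0) (nat_lit 206495774923) (nat_lit 76) (nat_lit 114810983904) (nat_lit 152) (nat_lit 107375427477) (nat_lit 67) (nat_lit 5) (nat_lit 68) (nat_lit 5) (nat_lit 69) (nat_lit 4) (nat_lit 520)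 (nat_lit 459) (nat_lit 221))) (XT.nd (nat_lit 78) (nat_lit 0) (nat_lit 0) (XT.lf (nat_lit 0) (nat_lit 17045261015) (nat_lit 152) (nat_lit 395707953661) (nat_lit 76) (nat_lit 30114621831) (nat_lit 65) (nat_lit 5) (nat_lit 67) (nat_lit 5) (nat_lit 66) (nat_lit 4) (nat_lit 521) (nat_lit 459) (nat_lit 220)) (XT.lf (nat_lit 0) (nat_lit 149785004348) (nat_lit 152) (nat_lit 123591656702) (nat_lit 76) (nat_lit 184012768581) (nat_lit 65) (nat_lit 5) (nat_lit 67) (nat_lit 5) (nat_lit 66) (nat_lit 4) (nat_lit 522) (nat_lit 459) (nat_lit 219)))) (XT.nd (nat_lit 156) (nat_lit 228) (nat_lit 0) (XT.nd (nat_lit 78) (nat_lit 0) (nat_lit 0) (XT.lf (nat_lit 0) (nat_lit 167490978629) (nat_lit 76) (nat_lit 124285637321) (nat_lit 152) (nat_lit 180729742409) (nat_lit 64) (nat_lit 5) (nat_lit 65) (nat_lit 5) (nat_lit 66) (nat_lit 4) (nat_lit 523) (nat_lit 459) (nat_lit 218)) (XT.lf (nat_lit 0) (nat_lit 443498751595) (nat_lit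 152) (nat_lit 11394125544) (nat_lit 0) (nat_lit 33354709213) (nat_lit 64) (nat_lit 5) (nat_lit 66) (nat_lit 4) (nat_lit 64) (nat_lit 4) (nat_lit 524) (nat_lit 459) (nat_lit 217))) (XT.nd (nat_lit 78) (nat_lit 76) (nat_lit 0) (XT.lf (nat_lit 0) (nat_lit 101798205440) (nat_lit 152) (nat_lit 201457866744) (nat_lit 76) (nat_lit 201098041778) (nat_lit 62) (nat_lit 5) (nat_lit 64) (nat_lit 5) (nat_lit 63) (nat_lit 4) (nat_lit 525) (nat_lit 459) (nat_lit 216)) (XT.lf (nat_lit 0) (nat_lit 114983616839) (nat_lit 76) (nat_lit 141176355513) (nat_lit 152) (nat_lit 264969754781) (nat_lit 61) (nat_lit 5) (nat_lit 62) (nat_lit 5) (nat_lit 63) (nat_lit 4) (nat_lit 526) (nat_lit 459) (nat_lit 215))))) (XT.nd (nat_lit 312) (nat_lit 304) (nat_lit 0) (XT.nd (nat_lit 156) (nat_lit 76) (nat_lit 0) (XT.nd (nat_lit 78) (nat_lit 152) (nat_lit 0) (XT.lf (nat_lit 0) (nat_lit 422160315498) (nat_lit 152) (nat_lit 84841235546)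 (nat_lit 0) (nat_lit 31546545525) (nat_lit 61) (nat_lit 5) (nat_lit 63) (nat_lit 4) (nat_lit 61) (nat_lit 4) (nat_lit 527) (nat_lit 459) (nat_lit 214)) (XT.lf (nat_lit 0) (nat_lit 44809167514) (nat_lit 152) (nat_lit 298755096284) (nat_lit 76) (nat_lit 212919485701) (nat_lit 59) (nat_lit 5) (nat_lit 61) (nat_lit 5) (nat_lit 60) (nat_lit 4) (nat_lit 528) (nat_lit 459) (nat_lit 213))) (XT.nd (nat_lit 78) (nat_lit 0) (nat_lit 0) (XT.lf (nat_lit 0) (nat_lit 44624693381) (nat_lit 76) (nat_lit 167686866172) (nat_lit 152) (nat_lit 362801376269) (nat_lit 58) (nat_lit 5) (nat_lit 59) (nat_lit 5) (nat_lit 60) (nat_lit 4) (nat_lit 529) (nat_lit 459) (nat_lit 212)) (XT.lf (nat_lit 0) (nat_lit 393596641629) (nat_lit 152) (nat_lit 179223359960) (nat_lit 0) (nat_lit 21583201353) (nat_lit 58) (nat_lit 5) (nat_lit 60) (nat_lit 4) (nat_lit 58) (nat_lit 4) (nat_lit 530) (nat_lit 459) (nat_lit 211)))) (XT.nd (nat_lit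 156) (nat_lit 152) (nat_lit 0) (XT.nd (nat_lit 78) (nat_lit 76) (nat_lit 0) (XT.lf (nat_lit 0) (nat_lit 193033888018) (nat_lit 76) (nat_lit 396674750564) (nat_lit 76) (nat_lit 24661211797) (nat_lit 57) (nat_lit 4) (nat_lit 58) (nat_lit 5) (nat_lit 58) (nat_lit 4) (nat_lit 531) (nat_lit 459) (nat_lit 210)) (XT.lf (nat_lit 0) (nat_lit 158245967392) (nat_lit 152) (nat_lit 47609399413) (nat_lit 76) (nat_lit 429200089071) (nat_lit 56) (nat_lit 5) (nat_lit 58) (nat_lit 5) (nat_lit 57) (nat_lit 4) (nat_lit 532) (nat_lit 459) (nat_lit 209))) (XT.nd (nat_lit 78) (nat_lit 76) (nat_lit 0) (XT.lf (nat_lit 0) (nat_lit 355036347038) (nat_lit 152) (nat_lit 300702885232) (nat_lit 0) (nat_lit 737564275) (nat_lit 55) (nat_lit 5) (nat_lit 57) (nat_lit 4) (nat_lit 55) (nat_lit 4) (nat_lit 533) (nat_lit 459) (nat_lit 208)) (XT.lf (nat_lit 0) (nat_lit 101924519468) (nat_lit 76) (nat_lit 465527138967) (nat_lit 76) (nat_lit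 111228275174) (nat_lit 54) (nat_lit 4) (nat_lit 55) (nat_lit 5) (nat_lit 55) (nat_lit 4) (nat_lit 534) (nat_lit 459) (nat_lit 207)))))) (XT.nd (nat_lit 624) (nat_lit 380) (nat_lit 0) (XT.nd (nat_lit 312) (nat_lit 228) (nat_lit 0) (XT.nd (nat_lit 156) (nat_lit 152) (nat_lit 0) (XT.nd (nat_lit 78) (nat_lit 76) (nat_lit 0) (XT.lf (nat_lit 0) (nat_lit 90838065539) (nat_lit 152) (nat_lit 168080906606) (nat_lit 76) (nat_lit 442746376290) (nat_lit 53) (nat_lit 5) (nat_lit 55) (nat_lit 5) (nat_lit 54) (nat_lit 4) (nat_lit 535) (nat_lit 459) (nat_lit 206)) (XT.lf (nat_lit 0) (nat_lit 267774172606) (nat_lit 76) (nat_lit 35676162546) (nat_lit 152) (nat_lit 422049497570) (nat_lit 52) (nat_lit 5) (nat_lit 53) (nat_lit 5) (nat_lit 54) (nat_lit 4) (nat_lit 536) (nat_lit 459) (nat_lit 205))) (XT.nd (nat_lit 78) (nat_lit 152) (nat_lit 0) (XT.lf (nat_lit 0) (nat_lit 532689033726) (nat_lit 152) (nat_lit 22275882477)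 (nat_lit 0) (nat_lit 195261334247) (nat_lit 52) (nat_lit 5) (nat_lit 54) (nat_lit 4) (nat_lit 52) (nat_lit 4) (nat_lit 537) (nat_lit 459) (nat_lit 204)) (XT.lf (nat_lit 0) (nat_lit 5005303998) (nat_lit 152) (nat_lit 327166889769) (nat_lit 76) (nat_lit 443633229058) (nat_lit 50) (nat_lit 5) (nat_lit 52) (nat_lit 5) (nat_lit 51) (nat_lit 4) (nat_lit 538) (nat_lit 459) (nat_lit 203)))) (XT.nd (nat_lit 156) (nat_lit 152) (nat_lit 0) (XT.nd (nat_lit 78) (nat_lit 0) (nat_lit 0) (XT.lf (nat_lit 0) (nat_lit 142206290919) (nat_lit 76) (nat_lit 91761569739) (nat_lit 152) (nat_lit 568387204625) (nat_lit 49) (nat_lit 5) (nat_lit 50) (nat_lit 5) (nat_lit 51) (nat_lit 4) (nat_lit 539) (nat_lit 459) (nat_lit 202)) (XT.lf (nat_lit 0) (nat_lit 482518519865) (nat_lit 152) (nat_lit 186148038082) (nat_lit 0) (nat_lit 161158633182) (nat_lit 49) (nat_lit 5) (nat_lit 51) (nat_lit 4) (nat_lit 49) (nat_lit 4) (nat_lit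 540) (nat_lit 459) (nat_lit 201))) (XT.nd (nat_lit 78) (nat_lit 76) (nat_lit 0) (XT.lf (nat_lit 0) (nat_lit 320299874863) (nat_lit 76) (nat_lit 429701819111) (nat_lit 76) (nat_lit 108341880196) (nat_lit 48) (nat_lit 4) (nat_lit 49) (nat_lit 5) (nat_lit 49) (nat_lit 4) (nat_lit 541) (nat_lit 459) (nat_lit 200)) (XT.lf (nat_lit 0) (nat_lit 141212086090) (nat_lit 152) (nat_lit 31875212175) (nat_lit 76) (nat_lit 714929076196) (nat_lit 47) (nat_lit 5) (nat_lit 49) (nat_lit 5) (nat_lit 48) (nat_lit 4) (nat_lit 542) (nat_lit 459) (nat_lit 199))))) (XT.nd (nat_lit 312) (nat_lit 76) (nat_lit 0) (XT.nd (nat_lit 156) (nat_lit 152) (nat_lit 0) (XT.nd (nat_lit 78) (nat_lit 76) (nat_lit 0) (XT.lf (nat_lit 0) (nat_lit 409297277957) (nat_lit 152) (nat_lit 406061904966) (nat_lit 0) (nat_lit 103240100780) (nat_lit 46) (nat_lit 5) (nat_lit 48) (nat_lit 4) (nat_lit 46) (nat_lit 4) (nat_lit 543) (nat_lit 459) (nat_lit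 198)) (XT.lf (nat_lit 0) (nat_lit 136102510732) (nat_lit 76) (nat_lit 560195248174) (nat_lit 76) (nat_lit 254138028026) (nat_lit 45) (nat_lit 4) (nat_lit 46) (nat_lit 5) (nat_lit 46) (nat_lit 4) (nat_lit 544) (nat_lit 459) (nat_lit 197))) (XT.nd (nat_lit 78) (nat_lit 76) (nat_lit 0) (XT.lf (nat_lit 0) (nat_lit 20332479469) (nat_lit 152) (nat_lit 264375678161) (nat_lit 76) (nat_lit 698795721748) (nat_lit 44) (nat_lit 5) (nat_lit 46) (nat_lit 5) (nat_lit 45) (nat_lit 4) (nat_lit 545) (nat_lit 459) (nat_lit 196)) (XT.lf (nat_lit 0) (nat_lit 305189273119) (nat_lit 152) (nat_lit 698861490004) (nat_lit 0) (nat_lit 13706130215) (nat_lit 43) (nat_lit 5) (nat_lit 45) (nat_lit 4) (nat_lit 43) (nat_lit 4) (nat_lit 546) (nat_lit 459) (nat_lit 195)))) (XT.nd (nat_lit 55692) (nat_lit 0) (nat_lit 9196) (XT.nd (nat_lit 78) (nat_lit 76) (nat_lit 0) (XT.lf (nat_lit 0) (nat_lit 613506905697) (nat_lit 152) (nat_lit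 117731024896) (nat_lit 0) (nat_lit 322023727440) (nat_lit 43) (nat_lit 5) (nat_lit 45) (nat_lit 4) (nat_lit 43) (nat_lit 4) (nat_lit 547) (nat_lit 459) (nat_lit 194)) (XT.lf (nat_lit 0) (nat_lit 508738630908) (nat_lit 76) (nat_lit 436444551917) (nat_lit 76) (nat_lit 144961339992) (nat_lit 42) (nat_lit 4) (nat_lit 43) (nat_lit 5) (nat_lit 43) (nat_lit 4) (nat_lit 548) (nat_lit 459) (nat_lit 193))) (XT.nd (nat_lit 78) (nat_lit 0) (nat_lit 0) (XT.lf (nat_lit 0) (nat_lit 16718763394) (nat_lit 836) (nat_lit 10596276327) (nat_lit 836) (nat_lit 10596276327) (nat_lit 163) (nat_lit 3) (nat_lit 174) (nat_lit 3) (nat_lit 174) (nat_lit 5) (nat_lit 460) (nat_lit 460) (nat_lit 280)) (XT.nd (nat_lit 78) (nat_lit 0) (nat_lit 76) (XT.lf (nat_lit 76) (nat_lit 17112889678) (nat_lit 0) (nat_lit 17438954403) (nat_lit 836) (nat_lit 43152433997) (nat_lit 164) (nat_lit 5) (nat_lit 163) (nat_lit 3) (nat_lit 174) (nat_lit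 5) (nat_lit 461) (nat_lit 460) (nat_lit 279)) (XT.lf (nat_lit 0) (nat_lit 36423368976) (nat_lit 760) (nat_lit 21936432932) (nat_lit 836) (nat_lit 21285129919) (nat_lit 164) (nat_lit 5) (nat_lit 174) (nat_lit 5) (nat_lit 175) (nat_lit 5) (nat_lit 462) (nat_lit 460) (nat_lit 278))))))))
noncomputable def xc412 : XT := (XT.nd (nat_lit 1248) (nat_lit 2660) (nat_lit 0) (XT.nd (nat_lit 624) (nat_lit 2052) (nat_lit 0) (XT.nd (nat_lit 312) (nat_lit 0) (nat_lit 152) (XT.nd (nat_lit 156) (nat_lit 0) (nat_lit 76) (XT.nd (nat_lit 78) (nat_lit 0) (nat_lit 76) (XT.lf (nat_lit 76) (nat_lit 18972205095) (nat_lit 0) (nat_lit 19997675259) (nat_lit 836) (nat_lit 42683667450) (nat_lit 165) (nat_lit 5) (nat_lit 164) (nat_lit 5) (nat_lit 175) (nat_lit 5) (nat_lit 463) (nat_lit 460) (nat_lit 277)) (XT.lf (nat_lit 0) (nat_lit 42337325882) (nat_lit 760) (nat_lit 21379358769) (nat_lit 836) (nat_lit 20011229552) (nat_lit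 165) (nat_lit 5) (nat_lit 175) (nat_lit 5) (nat_lit 176) (nat_lit 5) (nat_lit 464) (nat_lit 460) (nat_lit 276))) (XT.nd (nat_lit 78) (nat_lit 0) (nat_lit 76) (XT.lf (nat_lit 76) (nat_lit 22375634590) (nat_lit 0) (nat_lit 24174063985) (nat_lit 836) (nat_lit 39322472649) (nat_lit 166) (nat_lit 5) (nat_lit 165) (nat_lit 5) (nat_lit 176) (nat_lit 5) (nat_lit 465) (nat_lit 460) (nat_lit 275)) (XT.lf (nat_lit 0) (nat_lit 51610913947) (nat_lit 760) (nat_lit 19322112529) (nat_lit 836) (nat_lit 17158703464) (nat_lit 166) (nat_lit 5) (nat_lit 176) (nat_lit 5) (nat_lit 177) (nat_lit 5) (nat_lit 466) (nat_lit 460) (nat_lit 274)))) (XT.nd (nat_lit 156) (nat_lit 0) (nat_lit 76) (XT.nd (nat_lit 78) (nat_lit 0) (nat_lit 76) (XT.lf (nat_lit 76) (nat_lit 27545955213) (nat_lit 0) (nat_lit 30205032840) (nat_lit 836) (nat_lit 32629988682) (nat_lit 167) (nat_lit 5) (nat_lit 166) (nat_lit 5) (nat_lit 177) (nat_lit 5)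 (nat_lit 467) (nat_lit 460) (nat_lit 273)) (XT.lf (nat_lit 0) (nat_lit 64726201248) (nat_lit 760) (nat_lit 15541975801) (nat_lit 836) (nat_lit 12490102094) (nat_lit 167) (nat_lit 5) (nat_lit 177) (nat_lit 5) (nat_lit 178) (nat_lit 5) (nat_lit 468) (nat_lit 460) (nat_lit 272))) (XT.nd (nat_lit 78) (nat_lit 0) (nat_lit 76) (XT.lf (nat_lit 76) (nat_lit 34731765786) (nat_lit 0) (nat_lit 38355314777) (nat_lit 836) (nat_lit 22115520875) (nat_lit 168) (nat_lit 5) (nat_lit 167) (nat_lit 5) (nat_lit 178) (nat_lit 5) (nat_lit 469) (nat_lit 460) (nat_lit 271)) (XT.lf (nat_lit 0) (nat_lit 82221292073) (nat_lit 760) (nat_lit 9790224499) (nat_lit 76) (nat_lit 5739858901) (nat_lit 168) (nat_lit 5) (nat_lit 178) (nat_lit 5) (nat_lit 169) (nat_lit 5) (nat_lit 470) (nat_lit 460) (nat_lit 270))))) (XT.nd (nat_lit 312) (nat_lit 684) (nat_lit 0) (XT.nd (nat_lit 156) (nat_lit 836) (nat_lit 0) (XT.nd (nat_lit 78) (nat_lit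 76) (nat_lit 0) (XT.lf (nat_lit 0) (nat_lit 44210221042) (nat_lit 760) (nat_lit 48920538282) (nat_lit 836) (nat_lit 7230901665) (nat_lit 158) (nat_lit 5) (nat_lit 168) (nat_lit 5) (nat_lit 169) (nat_lit 5) (nat_lit 471) (nat_lit 460) (nat_lit 269)) (XT.lf (nat_lit 0) (nat_lit 1603819149) (nat_lit 836) (nat_lit 1869895249) (nat_lit 76) (nat_lit 99619185892) (nat_lit 157) (nat_lit 5) (nat_lit 168) (nat_lit 5) (nat_lit 158) (nat_lit 5) (nat_lit 472) (nat_lit 460) (nat_lit 268))) (XT.nd (nat_lit 78) (nat_lit 380) (nat_lit 0) (XT.lf (nat_lit 0) (nat_lit 12231314887) (nat_lit 532) (nat_lit 49792172228) (nat_lit 76) (nat_lit 43851585274) (nat_lit 151) (nat_lit 5) (nat_lit 158) (nat_lit 5) (nat_lit 152) (nat_lit 5) (nat_lit 473) (nat_lit 460) (nat_lit 267)) (XT.lf (nat_lit 0) (nat_lit 8414921900) (nat_lit 380) (nat_lit 15195347051) (nat_lit 456) (nat_lit 85175079994) (nat_lit 146) (nat_lit 5) (nat_lit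 151) (nat_lit 5) (nat_lit 152) (nat_lit 5) (nat_lit 474) (nat_lit 460) (nat_lit 266)))) (XT.nd (nat_lit 156) (nat_lit 304) (nat_lit 0) (XT.nd (nat_lit 78) (nat_lit 380) (nat_lit 0) (XT.lf (nat_lit 0) (nat_lit 36945265577) (nat_lit 456) (nat_lit 41082631316) (nat_lit 76) (nat_lit 33743887721) (nat_lit 146) (nat_lit 5) (nat_lit 152) (nat_lit 5) (nat_lit 147) (nat_lit 5) (nat_lit 475) (nat_lit 460) (nat_lit 265)) (XT.lf (nat_lit 0) (nat_lit 21611740908) (nat_lit 380) (nat_lit 29921398836) (nat_lit 456) (nat_lit 63345095965) (nat_lit 141) (nat_lit 5) (nat_lit 146) (nat_lit 5) (nat_lit 147) (nat_lit 5) (nat_lit 476) (nat_lit 460) (nat_lit 264))) (XT.nd (nat_lit 78) (nat_lit 304) (nat_lit 0) (XT.lf (nat_lit 0) (nat_lit 67878657667) (nat_lit 456) (nat_lit 29571405641) (nat_lit 76) (nat_lit 20638533571) (nat_lit 141) (nat_lit 5) (nat_lit 147) (nat_lit 5) (nat_lit 142) (nat_lit 5) (nat_lit 477) (nat_lit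 460) (nat_lit 263)) (XT.lf (nat_lit 0) (nat_lit 38034865123) (nat_lit 304) (nat_lit 48090566006) (nat_lit 380) (nat_lit 35279846023) (nat_lit 137) (nat_lit 5) (nat_lit 141) (nat_lit 5) (nat_lit 142) (nat_lit 5) (nat_lit 478) (nat_lit 460) (nat_lit 262)))))) (XT.nd (nat_lit 624) (nat_lit 1368) (nat_lit 0) (XT.nd (nat_lit 312) (nat_lit 608) (nat_lit 0) (XT.nd (nat_lit 156) (nat_lit 380) (nat_lit 0) (XT.nd (nat_lit 78) (nat_lit 304) (nat_lit 0) (XT.lf (nat_lit 0) (nat_lit 105851547240) (nat_lit 380) (nat_lit 14881624477) (nat_lit 76) (nat_lit 4126269545) (nat_lit 137) (nat_lit 5) (nat_lit 142) (nat_lit 5) (nat_lit 138) (nat_lit 5) (nat_lit 479) (nat_lit 460) (nat_lit 261)) (XT.lf (nat_lit 0) (nat_lit 58102472904) (nat_lit 304) (nat_lit 70156669953) (nat_lit 380) (nat_lit 142412057) (nat_lit 133) (nat_lit 5) (nat_lit 137) (nat_lit 5) (nat_lit 138) (nat_lit 5) (nat_lit 480) (nat_lit 460) (nat_lit 260)))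 (XT.nd (nat_lit 78) (nat_lit 0) (nat_lit 0) (XT.lf (nat_lit 0) (nat_lit 2926335140) (nat_lit 304) (nat_lit 16412076322) (nat_lit 380) (nat_lit 112751934805) (nat_lit 128) (nat_lit 5) (nat_lit 132) (nat_lit 5) (nat_lit 133) (nat_lit 5) (nat_lit 481) (nat_lit 460) (nat_lit 259)) (XT.lf (nat_lit 0) (nat_lit 41623051130) (nat_lit 380) (nat_lit 54297488138) (nat_lit 76) (nat_lit 39951193160) (nat_lit 128) (nat_lit 5) (nat_lit 133) (nat_lit 5) (nat_lit 129) (nat_lit 5) (nat_lit 482) (nat_lit 460) (nat_lit 258)))) (XT.nd (nat_lit 156) (nat_lit 304) (nat_lit 0) (XT.nd (nat_lit 78) (nat_lit 0) (nat_lit 0) (XT.lf (nat_lit 0) (nat_lit 24837882977) (nat_lit 304) (nat_lit 40840569081) (nat_lit 380) (nat_lit 74130909393) (nat_lit 124) (nat_lit 5) (nat_lit 128) (nat_lit 5) (nat_lit 129) (nat_lit 5) (nat_lit 483) (nat_lit 460) (nat_lit 257)) (XT.lf (nat_lit 0) (nat_lit 92136263742) (nat_lit 380) (nat_lit 34363576955)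 (nat_lit 76) (nat_lit 17384049210) (nat_lit 124) (nat_lit 5) (nat_lit 129) (nat_lit 5) (nat_lit 125) (nat_lit 5) (nat_lit 484) (nat_lit 460) (nat_lit 256))) (XT.nd (nat_lit 78) (nat_lit 76) (nat_lit 0) (XT.lf (nat_lit 0) (nat_lit 51244978290) (nat_lit 228) (nat_lit 70141294613) (nat_lit 304) (nat_lit 26702406555) (nat_lit 121) (nat_lit 5) (nat_lit 124) (nat_lit 5) (nat_lit 125) (nat_lit 5) (nat_lit 485) (nat_lit 460) (nat_lit 255)) (XT.lf (nat_lit 0) (nat_lit 199253261) (nat_lit 304) (nat_lit 10151227985) (nat_lit 76) (nat_lit 142123982402) (nat_lit 120) (nat_lit 5) (nat_lit 124) (nat_lit 5) (nat_lit 121) (nat_lit 5) (nat_lit 486) (nat_lit 460) (nat_lit 254))))) (XT.nd (nat_lit 312) (nat_lit 608) (nat_lit 0) (XT.nd (nat_lit 156) (nat_lit 228) (nat_lit 0) (XT.nd (nat_lit 78) (nat_lit 228) (nat_lit 0) (XT.lf (nat_lit 0) (nat_lit 29692752188) (nat_lit 380) (nat_lit 74742422760) (nat_lit 76) (nat_lit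 52515268294) (nat_lit 116) (nat_lit 5) (nat_lit 121) (nat_lit 5) (nat_lit 117) (nat_lit 5) (nat_lit 487) (nat_lit 460) (nat_lit 253)) (XT.lf (nat_lit 0) (nat_lit 18309168711) (nat_lit 228) (nat_lit 42981763258) (nat_lit 304) (nat_lit 100327789562) (nat_lit 113) (nat_lit 5) (nat_lit 116) (nat_lit 5) (nat_lit 117) (nat_lit 5) (nat_lit 488) (nat_lit 460) (nat_lit 252))) (XT.nd (nat_lit 78) (nat_lit 228) (nat_lit 0) (XT.lf (nat_lit 0) (nat_lit 96091677255) (nat_lit 304) (nat_lit 48206392897) (nat_lit 76) (nat_lit 22141210771) (nat_lit 113) (nat_lit 5) (nat_lit 117) (nat_lit 5) (nat_lit 114) (nat_lit 5) (nat_lit 489) (nat_lit 460) (nat_lit 251)) (XT.lf (nat_lit 0) (nat_lit 52631481071) (nat_lit 228) (nat_lit 81527074548) (nat_lit 304) (nat_lit 37266007886) (nat_lit 110) (nat_lit 5) (nat_lit 113) (nat_lit 5) (nat_lit 114) (nat_lit 5) (nat_lit 490) (nat_lit 460) (nat_lit 250)))) (XT.nd (nat_lit 156) (nat_lit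 380) (nat_lit 0) (XT.nd (nat_lit 78) (nat_lit 228) (nat_lit 0) (XT.lf (nat_lit 0) (nat_lit 160184510704) (nat_lit 228) (nat_lit 14760423887) (nat_lit 304) (nat_lit 1673367804) (nat_lit 110) (nat_lit 5) (nat_lit 113) (nat_lit 5) (nat_lit 114) (nat_lit 5) (nat_lit 491) (nat_lit 460) (nat_lit 249)) (XT.lf (nat_lit 0) (nat_lit 36912674283) (nat_lit 228) (nat_lit 89390418459) (nat_lit 76) (nat_lit 55622949604) (nat_lit 107) (nat_lit 5) (nat_lit 110) (nat_lit 5) (nat_lit 108) (nat_lit 5) (nat_lit 492) (nat_lit 460) (nat_lit 248))) (XT.nd (nat_lit 78) (nat_lit 152) (nat_lit 0) (XT.lf (nat_lit 0) (nat_lit 20417984794) (nat_lit 228) (nat_lit 57797200336) (nat_lit 304) (nat_lit 109240442426) (nat_lit 104) (nat_lit 5) (nat_lit 107) (nat_lit 5) (nat_lit 108) (nat_lit 5) (nat_lit 493) (nat_lit 460) (nat_lit 247)) (XT.nd (nat_lit 78) (nat_lit 152) (nat_lit 0) (XT.lf (nat_lit 0) (nat_lit 123341953816) (nat_lit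 304) (nat_lit 54611599316) (nat_lit 76) (nat_lit 15220182287) (nat_lit 104) (nat_lit 5) (nat_lit 108) (nat_lit 5) (nat_lit 105) (nat_lit 5) (nat_lit 494) (nat_lit 460) (nat_lit 246)) (XT.lf (nat_lit 0) (nat_lit 64554046914) (nat_lit 152) (nat_lit 108126163098) (nat_lit 228) (nat_lit 26399781219) (nat_lit 102) (nat_lit 5) (nat_lit 104) (nat_lit 5) (nat_lit 105) (nat_lit 5) (nat_lit 495) (nat_lit 460) (nat_lit 245))))))))
noncomputable def xc413 : XT := (XT.nd (nat_lit 1248) (nat_lit 1368) (nat_lit 0) (XT.nd (nat_lit 624) (nat_lit 760) (nat_lit 0) (XT.nd (nat_lit 312) (nat_lit 532) (nat_lit 0) (XT.nd (nat_lit 156) (nat_lit 152) (nat_lit 0) (XT.nd (nat_lit 78) (nat_lit 228) (nat_lit 0) (XT.lf (nat_lit 0) (nat_lit 19528998800) (nat_lit 228) (nat_lit 13976675175) (nat_lit 76) (nat_lit 171713903507) (nat_lit 101) (nat_lit 5) (nat_lit 104) (nat_lit 5) (nat_lit 102) (nat_lit 5) (nat_lit 496) (nat_lit 460)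 (nat_lit 244)) (XT.lf (nat_lit 0) (nat_lit 69412872959) (nat_lit 304) (nat_lit 96415279521) (nat_lit 76) (nat_lit 45689058363) (nat_lit 98) (nat_lit 5) (nat_lit 102) (nat_lit 5) (nat_lit 99) (nat_lit 5) (nat_lit 497) (nat_lit 460) (nat_lit 243))) (XT.nd (nat_lit 78) (nat_lit 0) (nat_lit 0) (XT.lf (nat_lit 0) (nat_lit 33521225433) (nat_lit 152) (nat_lit 89582730250) (nat_lit 228) (nat_lit 94960119454) (nat_lit 96) (nat_lit 5) (nat_lit 98) (nat_lit 5) (nat_lit 99) (nat_lit 5) (nat_lit 498) (nat_lit 460) (nat_lit 242)) (XT.lf (nat_lit 0) (nat_lit 173301556290) (nat_lit 152) (nat_lit 7810679358) (nat_lit 228) (nat_lit 43744414849) (nat_lit 96) (nat_lit 5) (nat_lit 98) (nat_lit 5) (nat_lit 99) (nat_lit 5) (nat_lit 499) (nat_lit 460) (nat_lit 241)))) (XT.nd (nat_lit 156) (nat_lit 304) (nat_lit 0) (XT.nd (nat_lit 78) (nat_lit 0) (nat_lit 0) (XT.lf (nat_lit 0) (nat_lit 12373335760) (nat_lit 228) (nat_lit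 142322208020) (nat_lit 76) (nat_lit 77152361921) (nat_lit 93) (nat_lit 5) (nat_lit 96) (nat_lit 5) (nat_lit 94) (nat_lit 5) (nat_lit 500) (nat_lit 460) (nat_lit 240)) (XT.lf (nat_lit 0) (nat_lit 70842154749) (nat_lit 228) (nat_lit 554454863) (nat_lit 76) (nat_lit 167705493978) (nat_lit 93) (nat_lit 5) (nat_lit 96) (nat_lit 5) (nat_lit 94) (nat_lit 5) (nat_lit 501) (nat_lit 460) (nat_lit 239))) (XT.nd (nat_lit 78) (nat_lit 152) (nat_lit 0) (XT.lf (nat_lit 0) (nat_lit 134916259527) (nat_lit 228) (nat_lit 93684587191) (nat_lit 76) (nat_lit 17984072421) (nat_lit 91) (nat_lit 5) (nat_lit 94) (nat_lit 5) (nat_lit 92) (nat_lit 5) (nat_lit 502) (nat_lit 460) (nat_lit 238)) (XT.lf (nat_lit 0) (nat_lit 60366929422) (nat_lit 152) (nat_lit 143949440545) (nat_lit 228) (nat_lit 50019390482) (nat_lit 89) (nat_lit 5) (nat_lit 91) (nat_lit 5) (nat_lit 92) (nat_lit 5) (nat_lit 503) (nat_lit 460) (nat_lit 237)))))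 (XT.nd (nat_lit 312) (nat_lit 380) (nat_lit 0) (XT.nd (nat_lit 156) (nat_lit 152) (nat_lit 0) (XT.nd (nat_lit 78) (nat_lit 152) (nat_lit 0) (XT.lf (nat_lit 0) (nat_lit 15853883138) (nat_lit 228) (nat_lit 37277287252) (nat_lit 76) (nat_lit 209250867003) (nat_lit 88) (nat_lit 5) (nat_lit 91) (nat_lit 5) (nat_lit 89) (nat_lit 5) (nat_lit 504) (nat_lit 460) (nat_lit 236)) (XT.lf (nat_lit 0) (nat_lit 86085011104) (nat_lit 228) (nat_lit 140784990346) (nat_lit 76) (nat_lit 43782368729) (nat_lit 86) (nat_lit 5) (nat_lit 89) (nat_lit 5) (nat_lit 87) (nat_lit 5) (nat_lit 505) (nat_lit 460) (nat_lit 235))) (XT.nd (nat_lit 78) (nat_lit 0) (nat_lit 0) (XT.lf (nat_lit 0) (nat_lit 27352622973) (nat_lit 152) (nat_lit 134414618988) (nat_lit 228) (nat_lit 117472000324) (nat_lit 84) (nat_lit 5) (nat_lit 86) (nat_lit 5) (nat_lit 87) (nat_lit 5) (nat_lit 506) (nat_lit 460) (nat_lit 234)) (XT.lf (nat_lit 0) (nat_lit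 208784569567) (nat_lit 152) (nat_lit 34833114550) (nat_lit 228) (nat_lit 44518568894) (nat_lit 84) (nat_lit 5) (nat_lit 86) (nat_lit 5) (nat_lit 87) (nat_lit 5) (nat_lit 507) (nat_lit 460) (nat_lit 233)))) (XT.nd (nat_lit 156) (nat_lit 228) (nat_lit 0) (XT.nd (nat_lit 78) (nat_lit 0) (nat_lit 0) (XT.lf (nat_lit 0) (nat_lit 33813186804) (nat_lit 152) (nat_lit 193836462168) (nat_lit 76) (nat_lit 69665545685) (nat_lit 82) (nat_lit 5) (nat_lit 84) (nat_lit 5) (nat_lit 83) (nat_lit 5) (nat_lit 508) (nat_lit 460) (nat_lit 232)) (XT.lf (nat_lit 0) (nat_lit 116502183153) (nat_lit 152) (nat_lit 10003465095) (nat_lit 76) (nat_lit 180314106076) (nat_lit 82) (nat_lit 5) (nat_lit 84) (nat_lit 5) (nat_lit 83) (nat_lit 5) (nat_lit 509) (nat_lit 460) (nat_lit 231))) (XT.nd (nat_lit 78) (nat_lit 76) (nat_lit 0) (XT.lf (nat_lit 0) (nat_lit 189072415714) (nat_lit 152) (nat_lit 17205015705) (nat_lit 228) (nat_lit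 110374520454) (nat_lit 80) (nat_lit 5) (nat_lit 82) (nat_lit 5) (nat_lit 83) (nat_lit 5) (nat_lit 510) (nat_lit 460) (nat_lit 230)) (XT.lf (nat_lit 0) (nat_lit 72268918566) (nat_lit 76) (nat_lit 231096082836) (nat_lit 152) (nat_lit 23469579935) (nat_lit 79) (nat_lit 5) (nat_lit 80) (nat_lit 5) (nat_lit 81) (nat_lit 4) (nat_lit 511) (nat_lit 460) (nat_lit 229)))))) (XT.nd (nat_lit 624) (nat_lit 532) (nat_lit 0) (XT.nd (nat_lit 312) (nat_lit 456) (nat_lit 0) (XT.nd (nat_lit 156) (nat_lit 152) (nat_lit 0) (XT.nd (nat_lit 78) (nat_lit 152) (nat_lit 0) (XT.lf (nat_lit 0) (nat_lit 68089149080) (nat_lit 152) (nat_lit 52255222444) (nat_lit 76) (nat_lit 217005161281) (nat_lit 78) (nat_lit 5) (nat_lit 80) (nat_lit 5) (nat_lit 79) (nat_lit 5) (nat_lit 512) (nat_lit 460) (nat_lit 228)) (XT.lf (nat_lit 0) (nat_lit 165068977536) (nat_lit 152) (nat_lit 945155123) (nat_lit 228) (nat_lit 182228009336) (nat_lit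 76) (nat_lit 5) (nat_lit 78) (nat_lit 5) (nat_lit 79) (nat_lit 5) (nat_lit 513) (nat_lit 460) (nat_lit 227))) (XT.nd (nat_lit 78) (nat_lit 76) (nat_lit 0) (XT.lf (nat_lit 0) (nat_lit 34588103235) (nat_lit 76) (nat_lit 237629223775) (nat_lit 152) (nat_lit 87292956557) (nat_lit 75) (nat_lit 5) (nat_lit 76) (nat_lit 5) (nat_lit 77) (nat_lit 4) (nat_lit 514) (nat_lit 460) (nat_lit 226)) (XT.lf (nat_lit 0) (nat_lit 15160665376) (nat_lit 152) (nat_lit 101849961232) (nat_lit 76) (nat_lit 254163117528) (nat_lit 74) (nat_lit 5) (nat_lit 76) (nat_lit 5) (nat_lit 75) (nat_lit 5) (nat_lit 515) (nat_lit 460) (nat_lit 225)))) (XT.nd (nat_lit 156) (nat_lit 304) (nat_lit 0) (XT.nd (nat_lit 78) (nat_lit 0) (nat_lit 0) (XT.lf (nat_lit 0) (nat_lit 122123801972) (nat_lit 228) (nat_lit 248177589627) (nat_lit 76) (nat_lit 12931412065) (nat_lit 72) (nat_lit 5) (nat_lit 75) (nat_lit 5) (nat_lit 73) (nat_lit 4) (nat_lit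 516) (nat_lit 460) (nat_lit 224)) (XT.lf (nat_lit 0) (nat_lit 238106326853) (nat_lit 228) (nat_lit 10413650651) (nat_lit 76) (nat_lit 147191277096) (nat_lit 72) (nat_lit 5) (nat_lit 75) (nat_lit 5) (nat_lit 73) (nat_lit 4) (nat_lit 517) (nat_lit 460) (nat_lit 223))) (XT.nd (nat_lit 78) (nat_lit 228) (nat_lit 0) (XT.lf (nat_lit 0) (nat_lit 247148550501) (nat_lit 76) (nat_lit 116597984593) (nat_lit 152) (nat_lit 44874165134) (nat_lit 71) (nat_lit 5) (nat_lit 72) (nat_lit 5) (nat_lit 73) (nat_lit 4) (nat_lit 518) (nat_lit 460) (nat_lit 222)) (XT.lf (nat_lit 0) (nat_lit 73235366552) (nat_lit 228) (nat_lit 324659938031) (nat_lit 76) (nat_lit 24118218354) (nat_lit 68) (nat_lit 5) (nat_lit 71) (nat_lit 5) (nat_lit 69) (nat_lit 4) (nat_lit 519) (nat_lit 460) (nat_lit 221))))) (XT.nd (nat_lit 312) (nat_lit 304) (nat_lit 0) (XT.nd (nat_lit 156) (nat_lit 152) (nat_lit 0) (XT.nd (nat_lit 78) (nat_lit 76) (nat_lit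 0) (XT.lf (nat_lit 0) (nat_lit 200433066272) (nat_lit 228) (nat_lit 63904848609) (nat_lit 76) (nat_lit 171466751916) (nat_lit 68) (nat_lit 5) (nat_lit 71) (nat_lit 5) (nat_lit 69) (nat_lit 4) (nat_lit 520) (nat_lit 460) (nat_lit 220)) (XT.lf (nat_lit 0) (nat_lit 216827611147) (nat_lit 76) (nat_lit 120548209015) (nat_lit 152) (nat_lit 112740289231) (nat_lit 67) (nat_lit 5) (nat_lit 68) (nat_lit 5) (nat_lit 69) (nat_lit 4) (nat_lit 521) (nat_lit 460) (nat_lit 219))) (XT.nd (nat_lit 78) (nat_lit 0) (nat_lit 0) (XT.lf (nat_lit 0) (nat_lit 17901290704) (nat_lit 152) (nat_lit 415486160782) (nat_lit 76) (nat_lit 31623588463) (nat_lit 65) (nat_lit 5) (nat_lit 67) (nat_lit 5) (nat_lit 66) (nat_lit 4) (nat_lit 522) (nat_lit 460) (nat_lit 218)) (XT.lf (nat_lit 0) (nat_lit 157277841841) (nat_lit 152) (nat_lit 129764391382) (nat_lit 76) (nat_lit 193216488478) (nat_lit 65) (nat_lit 5) (nat_lit 67) (nat_lit 5)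 (nat_lit 66) (nat_lit 4) (nat_lit 523) (nat_lit 460) (nat_lit 217)))) (XT.nd (nat_lit 156) (nat_lit 228) (nat_lit 0) (XT.nd (nat_lit 78) (nat_lit 0) (nat_lit 0) (XT.lf (nat_lit 0) (nat_lit 175872265261) (nat_lit 76) (nat_lit 130496703133) (nat_lit 152) (nat_lit 189762531754) (nat_lit 64) (nat_lit 5) (nat_lit 65) (nat_lit 5) (nat_lit 66) (nat_lit 4) (nat_lit 524) (nat_lit 460) (nat_lit 216)) (XT.lf (nat_lit 0) (nat_lit 465677090944) (nat_lit 152) (nat_lit 11957295043) (nat_lit 0) (nat_lit 35025409550) (nat_lit 64) (nat_lit 5) (nat_lit 66) (nat_lit 4) (nat_lit 64) (nat_lit 4) (nat_lit 525) (nat_lit 460) (nat_lit 215))) (XT.nd (nat_lit 78) (nat_lit 76) (nat_lit 0) (XT.lf (nat_lit 0) (nat_lit 106891510702) (nat_lit 152) (nat_lit 211524216442) (nat_lit 76) (nat_lit 211155922728) (nat_lit 62) (nat_lit 5) (nat_lit 64) (nat_lit 5) (nat_lit 63) (nat_lit 4) (nat_lit 526) (nat_lit 460) (nat_lit 214)) (XT.nd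 (nat_lit 78) (nat_lit 0) (nat_lit 0) (XT.lf (nat_lit 0) (nat_lit 120739235778) (nat_lit 76) (nat_lit 148232069032) (nat_lit 152) (nat_lit 278214741950) (nat_lit 61) (nat_lit 5) (nat_lit 62) (nat_lit 5) (nat_lit 63) (nat_lit 4) (nat_lit 527) (nat_lit 460) (nat_lit 213)) (XT.lf (nat_lit 0) (nat_lit 443271552517) (nat_lit 152) (nat_lit 89077053170) (nat_lit 0) (nat_lit 33126734612) (nat_lit 61) (nat_lit 5) (nat_lit 63) (nat_lit 4) (nat_lit 61) (nat_lit 4) (nat_lit 528) (nat_lit 460) (nat_lit 212))))))))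
noncomputable def xc414 : XT := (XT.nd (nat_lit 1248) (nat_lit 228) (nat_lit 0) (XT.nd (nat_lit 624) (nat_lit 532) (nat_lit 0) (XT.nd (nat_lit 312) (nat_lit 304) (nat_lit 0) (XT.nd (nat_lit 156) (nat_lit 76) (nat_lit 0) (XT.nd (nat_lit 78) (nat_lit 76) (nat_lit 0) (XT.lf (nat_lit 0) (nat_lit 47052841556) (nat_lit 152) (nat_lit 313686601300) (nat_lit 76) (nat_lit 223568333302) (nat_lit 59) (nat_lit 5) (nat_lit 61) (nat_lit 5) (nat_lit 60) (nat_lit 4) (nat_lit 529) (nat_lit 460) (nat_lit 211)) (XT.lf (nat_lit 0) (nat_lit 46862077045) (nat_lit 76) (nat_lit 176068219028) (nat_lit 152) (nat_lit 380938128582) (nat_lit 58) (nat_lit 5) (nat_lit 59) (nat_lit 5) (nat_lit 60) (nat_lit 4) (nat_lit 530) (nat_lit 460) (nat_lit 210))) (XT.nd (nat_lit 78) (nat_lit 76) (nat_lit 0) (XT.lf (nat_lit 0) (nat_lit 413279526312) (nat_lit 152) (nat_lit 188178565802) (nat_lit 0) (nat_lit 22665118315) (nat_lit 58) (nat_lit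 5) (nat_lit 60) (nat_lit 4) (nat_lit 58) (nat_lit 4) (nat_lit 531) (nat_lit 460) (nat_lit 209)) (XT.lf (nat_lit 0) (nat_lit 202691448411) (nat_lit 76) (nat_lit 416505620924) (nat_lit 76) (nat_lit 25891123593) (nat_lit 57) (nat_lit 4) (nat_lit 58) (nat_lit 5) (nat_lit 58) (nat_lit 4) (nat_lit 532) (nat_lit 460) (nat_lit 208)))) (XT.nd (nat_lit 156) (nat_lit 152) (nat_lit 0) (XT.nd (nat_lit 78) (nat_lit 76) (nat_lit 0) (XT.lf (nat_lit 0) (nat_lit 166161168631) (nat_lit 152) (nat_lit 49984186717) (nat_lit 76) (nat_lit 450662728153) (nat_lit 56) (nat_lit 5) (nat_lit 58) (nat_lit 5) (nat_lit 57) (nat_lit 4) (nat_lit 533) (nat_lit 460) (nat_lit 207)) (XT.lf (nat_lit 0) (nat_lit 372791059084) (nat_lit 152) (nat_lit 315732338626) (nat_lit 0) (nat_lit 777093903) (nat_lit 55) (nat_lit 5) (nat_lit 57) (nat_lit 4) (nat_lit 55) (nat_lit 4) (nat_lit 534) (nat_lit 460) (nat_lit 206))) (XT.nd (nat_lit 78) (nat_lit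 76) (nat_lit 0) (XT.lf (nat_lit 0) (nat_lit 107026344521) (nat_lit 76) (nat_lit 488800741104) (nat_lit 76) (nat_lit 116786702428) (nat_lit 54) (nat_lit 4) (nat_lit 55) (nat_lit 5) (nat_lit 55) (nat_lit 4) (nat_lit 535) (nat_lit 460) (nat_lit 205)) (XT.lf (nat_lit 0) (nat_lit 95382722071) (nat_lit 152) (nat_lit 176479528424) (nat_lit 76) (nat_lit 464886227678) (nat_lit 53) (nat_lit 5) (nat_lit 55) (nat_lit 5) (nat_lit 54) (nat_lit 4) (nat_lit 536) (nat_lit 460) (nat_lit 204))))) (XT.nd (nat_lit 312) (nat_lit 228) (nat_lit 0) (XT.nd (nat_lit 156) (nat_lit 228) (nat_lit 0) (XT.nd (nat_lit 78) (nat_lit 0) (nat_lit 0) (XT.lf (nat_lit 0) (nat_lit 281168217273) (nat_lit 76) (nat_lit 37457340096) (nat_lit 152) (nat_lit 443149131697) (nat_lit 52) (nat_lit 5) (nat_lit 53) (nat_lit 5) (nat_lit 54) (nat_lit 4) (nat_lit 537) (nat_lit 460) (nat_lit 203)) (XT.lf (nat_lit 0) (nat_lit 559326101155) (nat_lit 152)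 (nat_lit 23384504926) (nat_lit 0) (nat_lit 205026826086) (nat_lit 52) (nat_lit 5) (nat_lit 54) (nat_lit 4) (nat_lit 52) (nat_lit 4) (nat_lit 538) (nat_lit 460) (nat_lit 202))) (XT.nd (nat_lit 78) (nat_lit 76) (nat_lit 0) (XT.lf (nat_lit 0) (nat_lit 5258181982) (nat_lit 152) (nat_lit 343520059589) (nat_lit 76) (nat_lit 465817321739) (nat_lit 50) (nat_lit 5) (nat_lit 52) (nat_lit 5) (nat_lit 51) (nat_lit 4) (nat_lit 539) (nat_lit 460) (nat_lit 201)) (XT.lf (nat_lit 0) (nat_lit 149321696671) (nat_lit 76) (nat_lit 96347124874) (nat_lit 152) (nat_lit 596803868593) (nat_lit 49) (nat_lit 5) (nat_lit 50) (nat_lit 5) (nat_lit 51) (nat_lit 4) (nat_lit 540) (nat_lit 460) (nat_lit 200)))) (XT.nd (nat_lit 156) (nat_lit 152) (nat_lit 0) (XT.nd (nat_lit 78) (nat_lit 76) (nat_lit 0) (XT.lf (nat_lit 0) (nat_lit 506646928954) (nat_lit 152) (nat_lit 195450506445) (nat_lit 0) (nat_lit 169218891116) (nat_lit 49) (nat_lit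 5) (nat_lit 51) (nat_lit 4) (nat_lit 49) (nat_lit 4) (nat_lit 541) (nat_lit 460) (nat_lit 199)) (XT.lf (nat_lit 0) (nat_lit 336319722575) (nat_lit 76) (nat_lit 451184496735) (nat_lit 76) (nat_lit 113756411522) (nat_lit 48) (nat_lit 4) (nat_lit 49) (nat_lit 5) (nat_lit 49) (nat_lit 4) (nat_lit 542) (nat_lit 460) (nat_lit 198))) (XT.nd (nat_lit 78) (nat_lit 76) (nat_lit 0) (XT.lf (nat_lit 0) (nat_lit 148275052929) (nat_lit 152) (nat_lit 33464271827) (nat_lit 76) (nat_lit 750677750287) (nat_lit 47) (nat_lit 5) (nat_lit 49) (nat_lit 5) (nat_lit 48) (nat_lit 4) (nat_lit 543) (nat_lit 460) (nat_lit 197)) (XT.lf (nat_lit 0) (nat_lit 429764500054) (nat_lit 152) (nat_lit 426360294909) (nat_lit 0) (nat_lit 108404335002) (nat_lit 46) (nat_lit 5) (nat_lit 48) (nat_lit 4) (nat_lit 46) (nat_lit 4) (nat_lit 544) (nat_lit 460) (nat_lit 196)))))) (XT.nd (nat_lit 56238) (nat_lit 0) (nat_lit 8664) (XT.nd (nat_lit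 55926) (nat_lit 0) (nat_lit 9120) (XT.nd (nat_lit 156) (nat_lit 76) (nat_lit 0) (XT.nd (nat_lit 78) (nat_lit 76) (nat_lit 0) (XT.lf (nat_lit 0) (nat_lit 142912265682) (nat_lit 76) (nat_lit 588202699352) (nat_lit 76) (nat_lit 266842495324) (nat_lit 45) (nat_lit 4) (nat_lit 46) (nat_lit 5) (nat_lit 46) (nat_lit 4) (nat_lit 545) (nat_lit 460) (nat_lit 195)) (XT.lf (nat_lit 0) (nat_lit 21351347439) (nat_lit 152) (nat_lit 277589978896) (nat_lit 76) (nat_lit 733737634801) (nat_lit 44) (nat_lit 5) (nat_lit 46) (nat_lit 5) (nat_lit 45) (nat_lit 4) (nat_lit 546) (nat_lit 460) (nat_lit 194))) (XT.nd (nat_lit 78) (nat_lit 0) (nat_lit 0) (XT.lf (nat_lit 0) (nat_lit 320450977205) (nat_lit 152) (nat_lit 733800077753) (nat_lit 0) (nat_lit 14393571014) (nat_lit 43) (nat_lit 5) (nat_lit 45) (nat_lit 4) (nat_lit 43) (nat_lit 4) (nat_lit 547) (nat_lit 460) (nat_lit 193)) (XT.lf (nat_lit 0) (nat_lit 644184384725)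 (nat_lit 152) (nat_lit 123613303045) (nat_lit 0) (nat_lit 338126946468) (nat_lit 43) (nat_lit 5) (nat_lit 45) (nat_lit 4) (nat_lit 43) (nat_lit 4) (nat_lit 548) (nat_lit 460) (nat_lit 192)))) (XT.nd (nat_lit 156) (nat_lit 0) (nat_lit 76) (XT.nd (nat_lit 78) (nat_lit 0) (nat_lit 0) (XT.lf (nat_lit 0) (nat_lit 17565725673) (nat_lit 836) (nat_lit 11120302060) (nat_lit 836) (nat_lit 11120302060) (nat_lit 163) (nat_lit 3) (nat_lit 174) (nat_lit 3) (nat_lit 174) (nat_lit 5) (nat_lit 461) (nat_lit 461) (nat_lit 278)) (XT.lf (nat_lit 76) (nat_lit 17979923615) (nat_lit 0) (nat_lit 18320688795) (nat_lit 836) (nat_lit 45287819144) (nat_lit 164) (nat_lit 5) (nat_lit 163) (nat_lit 3) (nat_lit 174) (nat_lit 5) (nat_lit 462) (nat_lit 461) (nat_lit 277))) (XT.nd (nat_lit 78) (nat_lit 0) (nat_lit 0) (XT.lf (nat_lit 0) (nat_lit 38264559642) (nat_lit 760) (nat_lit 23021252028) (nat_lit 836) (nat_lit 22340364094)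 (nat_lit 164) (nat_lit 5) (nat_lit 174) (nat_lit 5) (nat_lit 175) (nat_lit 5) (nat_lit 463) (nat_lit 461) (nat_lit 276)) (XT.lf (nat_lit 76) (nat_lit 19932624311) (nat_lit 0) (nat_lit 21005003211) (nat_lit 836) (nat_lit 44797633546) (nat_lit 165) (nat_lit 5) (nat_lit 164) (nat_lit 5) (nat_lit 175) (nat_lit 5) (nat_lit 464) (nat_lit 461) (nat_lit 275))))) (XT.nd (nat_lit 312) (nat_lit 608) (nat_lit 0) (XT.nd (nat_lit 156) (nat_lit 0) (nat_lit 76) (XT.nd (nat_lit 78) (nat_lit 0) (nat_lit 0) (XT.lf (nat_lit 0) (nat_lit 44472417819) (nat_lit 760) (nat_lit 22436051171) (nat_lit 836) (nat_lit 21004928241) (nat_lit 165) (nat_lit 5) (nat_lit 175) (nat_lit 5) (nat_lit 176) (nat_lit 5) (nat_lit 465) (nat_lit 461) (nat_lit 274)) (XT.lf (nat_lit 76) (nat_lit 23506493864) (nat_lit 0) (nat_lit 25388235959) (nat_lit 836) (nat_lit 41270171313) (nat_lit 166) (nat_lit 5) (nat_lit 165) (nat_lit 5) (nat_lit 176) (nat_lit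 5) (nat_lit 466) (nat_lit 461) (nat_lit 273))) (XT.nd (nat_lit 78) (nat_lit 0) (nat_lit 0) (XT.lf (nat_lit 0) (nat_lit 54208089107) (nat_lit 760) (nat_lit 20275797606) (nat_lit 836) (nat_lit 18011596979) (nat_lit 166) (nat_lit 5) (nat_lit 176) (nat_lit 5) (nat_lit 177) (nat_lit 5) (nat_lit 467) (nat_lit 461) (nat_lit 272)) (XT.lf (nat_lit 76) (nat_lit 28935473190) (nat_lit 0) (nat_lit 31719092641) (nat_lit 836) (nat_lit 34244657113) (nat_lit 167) (nat_lit 5) (nat_lit 166) (nat_lit 5) (nat_lit 177) (nat_lit 5) (nat_lit 468) (nat_lit 461) (nat_lit 271)))) (XT.nd (nat_lit 156) (nat_lit 760) (nat_lit 0) (XT.nd (nat_lit 78) (nat_lit 0) (nat_lit 0) (XT.lf (nat_lit 0) (nat_lit 67977719805) (nat_lit 760) (nat_lit 16306615257) (nat_lit 836) (nat_lit 13111096462) (nat_lit 167) (nat_lit 5) (nat_lit 177) (nat_lit 5) (nat_lit 178) (nat_lit 5) (nat_lit 469) (nat_lit 461) (nat_lit 270)) (XT.lf (nat_lit 76) (nat_lit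 36480612453) (nat_lit 0) (nat_lit 40275497807) (nat_lit 836) (nat_lit 23205886370) (nat_lit 168) (nat_lit 5) (nat_lit 167) (nat_lit 5) (nat_lit 178) (nat_lit 5) (nat_lit 470) (nat_lit 461) (nat_lit 269))) (XT.nd (nat_lit 78) (nat_lit 836) (nat_lit 0) (XT.lf (nat_lit 0) (nat_lit 86346297561) (nat_lit 760) (nat_lit 10267325249) (nat_lit 76) (nat_lit 6024623349) (nat_lit 168) (nat_lit 5) (nat_lit 178) (nat_lit 5) (nat_lit 169) (nat_lit 5) (nat_lit 471) (nat_lit 461) (nat_lit 268)) (XT.nd (nat_lit 78) (nat_lit 76) (nat_lit 0) (XT.lf (nat_lit 0) (nat_lit 46432942400) (nat_lit 760) (nat_lit 51367822559) (nat_lit 836) (nat_lit 7578304700) (nat_lit 158) (nat_lit 5) (nat_lit 168) (nat_lit 5) (nat_lit 169) (nat_lit 5) (nat_lit 472) (nat_lit 461) (nat_lit 267)) (XT.lf (nat_lit 0) (nat_lit 1697047643) (nat_lit 836) (nat_lit 1951329166) (nat_lit 76) (nat_lit 104598515716) (nat_lit 157) (nat_lit 5) (nat_lit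 168) (nat_lit 5) (nat_lit 158) (nat_lit 5) (nat_lit 473) (nat_lit 461) (nat_lit 266))))))))
noncomputable def xc415 : XT := (XT.nd (nat_lit 1248) (nat_lit 2052) (nat_lit 0) (XT.nd (nat_lit 624) (nat_lit 1520) (nat_lit 0) (XT.nd (nat_lit 312) (nat_lit 608) (nat_lit 0) (XT.nd (nat_lit 156) (nat_lit 380) (nat_lit 0) (XT.nd (nat_lit 78) (nat_lit 380) (nat_lit 0) (XT.lf (nat_lit 0) (nat_lit 12855471114) (nat_lit 532) (nat_lit 52269272081) (nat_lit 76) (nat_lit 46043452430) (nat_lit 151) (nat_lit 5) (nat_lit 158) (nat_lit 5) (nat_lit 152) (nat_lit 5) (nat_lit 474) (nat_lit 461) (nat_lit 265)) (XT.lf (nat_lit 0) (nat_lit 8847974999) (nat_lit 380) (nat_lit 15954990482) (nat_lit 456) (nat_lit 89421040939) (nat_lit 146) (nat_lit 5) (nat_lit 151) (nat_lit 5) (nat_lit 152) (nat_lit 5) (nat_lit 475) (nat_lit 461) (nat_lit 264))) (XT.nd (nat_lit 78) (nat_lit 380) (nat_lit 0) (XT.lf (nat_lit 0) (nat_lit 38804133634)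 (nat_lit 456) (nat_lit 43124462842) (nat_lit 76) (nat_lit 35431196351) (nat_lit 146) (nat_lit 5) (nat_lit 152) (nat_lit 5) (nat_lit 147) (nat_lit 5) (nat_lit 476) (nat_lit 461) (nat_lit 263)) (XT.lf (nat_lit 0) (nat_lit 22704429606) (nat_lit 380) (nat_lit 31416608236) (nat_lit 456) (nat_lit 66500546854) (nat_lit 141) (nat_lit 5) (nat_lit 146) (nat_lit 5) (nat_lit 147) (nat_lit 5) (nat_lit 477) (nat_lit 461) (nat_lit 262)))) (XT.nd (nat_lit 156) (nat_lit 304) (nat_lit 0) (XT.nd (nat_lit 78) (nat_lit 304) (nat_lit 0) (XT.lf (nat_lit 0) (nat_lit 71283309166) (nat_lit 456) (nat_lit 31037927338) (nat_lit 76) (nat_lit 21671253583) (nat_lit 141) (nat_lit 5) (nat_lit 147) (nat_lit 5) (nat_lit 142) (nat_lit 5) (nat_lit 478) (nat_lit 461) (nat_lit 261)) (XT.lf (nat_lit 0) (nat_lit 39948462633) (nat_lit 304) (nat_lit 50493633335) (nat_lit 380) (nat_lit 37032924704) (nat_lit 137) (nat_lit 5) (nat_lit 141)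 (nat_lit 5) (nat_lit 142) (nat_lit 5) (nat_lit 479) (nat_lit 461) (nat_lit 260))) (XT.nd (nat_lit 78) (nat_lit 304) (nat_lit 0) (XT.lf (nat_lit 0) (nat_lit 111154044690) (nat_lit 380) (nat_lit 15613942099) (nat_lit 76) (nat_lit 4333929889) (nat_lit 137) (nat_lit 5) (nat_lit 142) (nat_lit 5) (nat_lit 138) (nat_lit 5) (nat_lit 480) (nat_lit 461) (nat_lit 259)) (XT.lf (nat_lit 0) (nat_lit 61019170415) (nat_lit 304) (nat_lit 73662557989) (nat_lit 380) (nat_lit 139422225) (nat_lit 133) (nat_lit 5) (nat_lit 137) (nat_lit 5) (nat_lit 138) (nat_lit 5) (nat_lit 481) (nat_lit 461) (nat_lit 258))))) (XT.nd (nat_lit 312) (nat_lit 836) (nat_lit 0) (XT.nd (nat_lit 156) (nat_lit 304) (nat_lit 0) (XT.nd (nat_lit 78) (nat_lit 0) (nat_lit 0) (XT.lf (nat_lit 0) (nat_lit 3084358038) (nat_lit 304) (nat_lit 17230477561) (nat_lit 380) (nat_lit 118379552249) (nat_lit 128) (nat_lit 5) (nat_lit 132) (nat_lit 5) (nat_lit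 133) (nat_lit 5) (nat_lit 482) (nat_lit 461) (nat_lit 257)) (XT.lf (nat_lit 0) (nat_lit 43713287451) (nat_lit 380) (nat_lit 57000793512) (nat_lit 76) (nat_lit 41950783371) (nat_lit 128) (nat_lit 5) (nat_lit 133) (nat_lit 5) (nat_lit 129) (nat_lit 5) (nat_lit 483) (nat_lit 461) (nat_lit 256))) (XT.nd (nat_lit 78) (nat_lit 0) (nat_lit 0) (XT.lf (nat_lit 0) (nat_lit 26091159561) (nat_lit 304) (nat_lit 42880044015) (nat_lit 380) (nat_lit 77828183999) (nat_lit 124) (nat_lit 5) (nat_lit 128) (nat_lit 5) (nat_lit 129) (nat_lit 5) (nat_lit 484) (nat_lit 461) (nat_lit 255)) (XT.lf (nat_lit 0) (nat_lit 96751523390) (nat_lit 380) (nat_lit 36070532454) (nat_lit 76) (nat_lit 18255605757) (nat_lit 124) (nat_lit 5) (nat_lit 129) (nat_lit 5) (nat_lit 125) (nat_lit 5) (nat_lit 485) (nat_lit 461) (nat_lit 254)))) (XT.nd (nat_lit 156) (nat_lit 532) (nat_lit 0) (XT.nd (nat_lit 78) (nat_lit 76) (nat_lit 0) (XT.lf (nat_lit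 0) (nat_lit 53818269532) (nat_lit 228) (nat_lit 73645533666) (nat_lit 304) (nat_lit 28028898945) (nat_lit 121) (nat_lit 5) (nat_lit 124) (nat_lit 5) (nat_lit 125) (nat_lit 5) (nat_lit 486) (nat_lit 461) (nat_lit 253)) (XT.lf (nat_lit 0) (nat_lit 217170010) (nat_lit 304) (nat_lit 10648009471) (nat_lit 76) (nat_lit 149232609233) (nat_lit 120) (nat_lit 5) (nat_lit 124) (nat_lit 5) (nat_lit 121) (nat_lit 5) (nat_lit 487) (nat_lit 461) (nat_lit 252))) (XT.nd (nat_lit 78) (nat_lit 228) (nat_lit 0) (XT.lf (nat_lit 0) (nat_lit 31185175440) (nat_lit 380) (nat_lit 78468595148) (nat_lit 76) (nat_lit 55143805140) (nat_lit 116) (nat_lit 5) (nat_lit 121) (nat_lit 5) (nat_lit 117) (nat_lit 5) (nat_lit 488) (nat_lit 461) (nat_lit 251)) (XT.lf (nat_lit 0) (nat_lit 19235399304) (nat_lit 228) (nat_lit 45127662345) (nat_lit 304) (nat_lit 105336216430) (nat_lit 113) (nat_lit 5) (nat_lit 116) (nat_lit 5) (nat_lit 117)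 (nat_lit 5) (nat_lit 489) (nat_lit 461) (nat_lit 250)))))) (XT.nd (nat_lit 624) (nat_lit 1140) (nat_lit 0) (XT.nd (nat_lit 312) (nat_lit 456) (nat_lit 0) (XT.nd (nat_lit 156) (nat_lit 228) (nat_lit 0) (XT.nd (nat_lit 78) (nat_lit 228) (nat_lit 0) (XT.lf (nat_lit 0) (nat_lit 100903530520) (nat_lit 304) (nat_lit 50606139307) (nat_lit 76) (nat_lit 23251211315) (nat_lit 113) (nat_lit 5) (nat_lit 117) (nat_lit 5) (nat_lit 114) (nat_lit 5) (nat_lit 490) (nat_lit 461) (nat_lit 249)) (XT.lf (nat_lit 0) (nat_lit 55273457824) (nat_lit 228) (nat_lit 85600111232) (nat_lit 304) (nat_lit 39121868003) (nat_lit 110) (nat_lit 5) (nat_lit 113) (nat_lit 5) (nat_lit 114) (nat_lit 5) (nat_lit 491) (nat_lit 461) (nat_lit 248))) (XT.nd (nat_lit 78) (nat_lit 228) (nat_lit 0) (XT.lf (nat_lit 0) (nat_lit 168203643571) (nat_lit 228) (nat_lit 15495285992) (nat_lit 304) (nat_lit 1749950215) (nat_lit 110) (nat_lit 5) (nat_lit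 113) (nat_lit 5) (nat_lit 114) (nat_lit 5) (nat_lit 492) (nat_lit 461) (nat_lit 247)) (XT.lf (nat_lit 0) (nat_lit 38765047481) (nat_lit 228) (nat_lit 93849684953) (nat_lit 76) (nat_lit 58407274763) (nat_lit 107) (nat_lit 5) (nat_lit 110) (nat_lit 5) (nat_lit 108) (nat_lit 5) (nat_lit 493) (nat_lit 461) (nat_lit 246)))) (XT.nd (nat_lit 156) (nat_lit 228) (nat_lit 0) (XT.nd (nat_lit 78) (nat_lit 0) (nat_lit 0) (XT.lf (nat_lit 0) (nat_lit 21448973069) (nat_lit 228) (nat_lit 60683547390) (nat_lit 304) (nat_lit 114695559390) (nat_lit 104) (nat_lit 5) (nat_lit 107) (nat_lit 5) (nat_lit 108) (nat_lit 5) (nat_lit 494) (nat_lit 461) (nat_lit 245)) (XT.lf (nat_lit 0) (nat_lit 129515366670) (nat_lit 304) (nat_lit 57332309499) (nat_lit 76) (nat_lit 15984429997) (nat_lit 104) (nat_lit 5) (nat_lit 108) (nat_lit 5) (nat_lit 105) (nat_lit 5) (nat_lit 495) (nat_lit 461) (nat_lit 244))) (XT.nd (nat_lit 78) (nat_lit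 76) (nat_lit 0) (XT.lf (nat_lit 0) (nat_lit 67791459852) (nat_lit 152) (nat_lit 113528926710) (nat_lit 228) (nat_lit 27713295673) (nat_lit 102) (nat_lit 5) (nat_lit 104) (nat_lit 5) (nat_lit 105) (nat_lit 5) (nat_lit 496) (nat_lit 461) (nat_lit 243)) (XT.lf (nat_lit 0) (nat_lit 20511417672) (nat_lit 228) (nat_lit 14666063160) (nat_lit 76) (nat_lit 180302776847) (nat_lit 101) (nat_lit 5) (nat_lit 104) (nat_lit 5) (nat_lit 102) (nat_lit 5) (nat_lit 497) (nat_lit 461) (nat_lit 242))))) (XT.nd (nat_lit 312) (nat_lit 532) (nat_lit 0) (XT.nd (nat_lit 156) (nat_lit 228) (nat_lit 0) (XT.nd (nat_lit 78) (nat_lit 152) (nat_lit 0) (XT.lf (nat_lit 0) (nat_lit 72889400477) (nat_lit 304) (nat_lit 101226512442) (nat_lit 76) (nat_lit 47976864052) (nat_lit 98) (nat_lit 5) (nat_lit 102) (nat_lit 5) (nat_lit 99) (nat_lit 5) (nat_lit 498) (nat_lit 461) (nat_lit 241)) (XT.lf (nat_lit 0) (nat_lit 35206664032) (nat_lit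 152) (nat_lit 94058239527) (nat_lit 228) (nat_lit 99702087621) (nat_lit 96) (nat_lit 5) (nat_lit 98) (nat_lit 5) (nat_lit 99) (nat_lit 5) (nat_lit 499) (nat_lit 461) (nat_lit 240))) (XT.nd (nat_lit 78) (nat_lit 228) (nat_lit 0) (XT.lf (nat_lit 0) (nat_lit 181975564893) (nat_lit 152) (nat_lit 8197758816) (nat_lit 228) (nat_lit 45925885300) (nat_lit 96) (nat_lit 5) (nat_lit 98) (nat_lit 5) (nat_lit 99) (nat_lit 5) (nat_lit 500) (nat_lit 461) (nat_lit 239)) (XT.lf (nat_lit 0) (nat_lit 12997498814) (nat_lit 228) (nat_lit 149429133237) (nat_lit 76) (nat_lit 81013393941) (nat_lit 93) (nat_lit 5) (nat_lit 96) (nat_lit 5) (nat_lit 94) (nat_lit 5) (nat_lit 501) (nat_lit 461) (nat_lit 238)))) (XT.nd (nat_lit 156) (nat_lit 380) (nat_lit 0) (XT.nd (nat_lit 78) (nat_lit 152) (nat_lit 0) (XT.lf (nat_lit 0) (nat_lit 74389497026) (nat_lit 228) (nat_lit 573429812) (nat_lit 76) (nat_lit 176094020033) (nat_lit 93)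 (nat_lit 5) (nat_lit 96) (nat_lit 5) (nat_lit 94) (nat_lit 5) (nat_lit 502) (nat_lit 461) (nat_lit 237)) (XT.lf (nat_lit 0) (nat_lit 141667246596) (nat_lit 228) (nat_lit 98360008147) (nat_lit 76) (nat_lit 18886651485) (nat_lit 91) (nat_lit 5) (nat_lit 94) (nat_lit 5) (nat_lit 92) (nat_lit 5) (nat_lit 503) (nat_lit 461) (nat_lit 236))) (XT.nd (nat_lit 78) (nat_lit 228) (nat_lit 0) (XT.lf (nat_lit 0) (nat_lit 63393942226) (nat_lit 152) (nat_lit 151143309252) (nat_lit 228) (nat_lit 52515043687) (nat_lit 89) (nat_lit 5) (nat_lit 91) (nat_lit 5) (nat_lit 92) (nat_lit 5) (nat_lit 504) (nat_lit 461) (nat_lit 235)) (XT.nd (nat_lit 78) (nat_lit 152) (nat_lit 0) (XT.lf (nat_lit 0) (nat_lit 16651478403) (nat_lit 228) (nat_lit 39132735770) (nat_lit 76) (nat_lit 219716679893) (nat_lit 88) (nat_lit 5) (nat_lit 91) (nat_lit 5) (nat_lit 89) (nat_lit 5) (nat_lit 505) (nat_lit 461) (nat_lit 234)) (XT.lf (nat_lit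 0) (nat_lit 90394113038) (nat_lit 228) (nat_lit 147815774155) (nat_lit 76) (nat_lit 45974858792) (nat_lit 86) (nat_lit 5) (nat_lit 89) (nat_lit 5) (nat_lit 87) (nat_lit 5) (nat_lit 506) (nat_lit 461) (nat_lit 233))))))))
noncomputable def xc416 : XT := (XT.nd (nat_lit 1248) (nat_lit 1140) (nat_lit 0) (XT.nd (nat_lit 624) (nat_lit 684) (nat_lit 0) (XT.nd (nat_lit 312) (nat_lit 456) (nat_lit 0) (XT.nd (nat_lit 156) (nat_lit 152) (nat_lit 0) (XT.nd (nat_lit 78) (nat_lit 0) (nat_lit 0) (XT.lf (nat_lit 0) (nat_lit 28728583286) (nat_lit 152) (nat_lit 141131771175) (nat_lit 228) (nat_lit 123340612289) (nat_lit 84) (nat_lit 5) (nat_lit 86) (nat_lit 5) (nat_lit 87) (nat_lit 5) (nat_lit 507) (nat_lit 461) (nat_lit 232)) (XT.lf (nat_lit 0) (nat_lit 219231730583) (nat_lit 152) (nat_lit 36571361932) (nat_lit 228) (nat_lit 46739746814) (nat_lit 84) (nat_lit 5) (nat_lit 86) (nat_lit 5) (nat_lit 87) (nat_lit 5)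 (nat_lit 508) (nat_lit 461) (nat_lit 231))) (XT.nd (nat_lit 78) (nat_lit 0) (nat_lit 0) (XT.lf (nat_lit 0) (nat_lit 35508403710) (nat_lit 152) (nat_lit 203520159552) (nat_lit 76) (nat_lit 73152163138) (nat_lit 82) (nat_lit 5) (nat_lit 84) (nat_lit 5) (nat_lit 83) (nat_lit 5) (nat_lit 509) (nat_lit 461) (nat_lit 230)) (XT.lf (nat_lit 0) (nat_lit 122331632850) (nat_lit 152) (nat_lit 10495899565) (nat_lit 76) (nat_lit 189332992493) (nat_lit 82) (nat_lit 5) (nat_lit 84) (nat_lit 5) (nat_lit 83) (nat_lit 5) (nat_lit 510) (nat_lit 461) (nat_lit 229)))) (XT.nd (nat_lit 156) (nat_lit 228) (nat_lit 0) (XT.nd (nat_lit 78) (nat_lit 76) (nat_lit 0) (XT.lf (nat_lit 0) (nat_lit 198533650465) (nat_lit 152) (nat_lit 18061905247) (nat_lit 228) (nat_lit 115888781018) (nat_lit 80) (nat_lit 5) (nat_lit 82) (nat_lit 5) (nat_lit 83) (nat_lit 5) (nat_lit 511) (nat_lit 461) (nat_lit 228)) (XT.lf (nat_lit 0) (nat_lit 75890013327)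 (nat_lit 76) (nat_lit 242647457755) (nat_lit 152) (nat_lit 24638628245) (nat_lit 79) (nat_lit 5) (nat_lit 80) (nat_lit 5) (nat_lit 81) (nat_lit 4) (nat_lit 512) (nat_lit 461) (nat_lit 227))) (XT.nd (nat_lit 78) (nat_lit 152) (nat_lit 0) (XT.lf (nat_lit 0) (nat_lit 71497691179) (nat_lit 152) (nat_lit 54860563820) (nat_lit 76) (nat_lit 227858550128) (nat_lit 78) (nat_lit 5) (nat_lit 80) (nat_lit 5) (nat_lit 79) (nat_lit 5) (nat_lit 513) (nat_lit 461) (nat_lit 226)) (XT.lf (nat_lit 0) (nat_lit 173329726486) (nat_lit 152) (nat_lit 989116918) (nat_lit 228) (nat_lit 191335205402) (nat_lit 76) (nat_lit 5) (nat_lit 78) (nat_lit 5) (nat_lit 79) (nat_lit 5) (nat_lit 514) (nat_lit 461) (nat_lit 225))))) (XT.nd (nat_lit 312) (nat_lit 380) (nat_lit 0) (XT.nd (nat_lit 156) (nat_lit 152) (nat_lit 0) (XT.nd (nat_lit 78) (nat_lit 76) (nat_lit 0) (XT.lf (nat_lit 0) (nat_lit 36324837155) (nat_lit 76) (nat_lit 249507333077)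 (nat_lit 152) (nat_lit 91653428591) (nat_lit 75) (nat_lit 5) (nat_lit 76) (nat_lit 5) (nat_lit 77) (nat_lit 4) (nat_lit 515) (nat_lit 461) (nat_lit 224)) (XT.lf (nat_lit 0) (nat_lit 15922548304) (nat_lit 152) (nat_lit 106935352165) (nat_lit 76) (nat_lit 266874338319) (nat_lit 74) (nat_lit 5) (nat_lit 76) (nat_lit 5) (nat_lit 75) (nat_lit 5) (nat_lit 516) (nat_lit 461) (nat_lit 223))) (XT.nd (nat_lit 78) (nat_lit 0) (nat_lit 0) (XT.lf (nat_lit 0) (nat_lit 128233817811) (nat_lit 228) (nat_lit 260579337994) (nat_lit 76) (nat_lit 13581096688) (nat_lit 72) (nat_lit 5) (nat_lit 75) (nat_lit 5) (nat_lit 73) (nat_lit 4) (nat_lit 517) (nat_lit 461) (nat_lit 222)) (XT.lf (nat_lit 0) (nat_lit 250015286758) (nat_lit 228) (nat_lit 10927541646) (nat_lit 76) (nat_lit 154553806683) (nat_lit 72) (nat_lit 5) (nat_lit 75) (nat_lit 5) (nat_lit 73) (nat_lit 4) (nat_lit 518) (nat_lit 461) (nat_lit 221)))) (XT.nd (nat_lit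 156) (nat_lit 76) (nat_lit 0) (XT.nd (nat_lit 78) (nat_lit 228) (nat_lit 0) (XT.lf (nat_lit 0) (nat_lit 259512660023) (nat_lit 76) (nat_lit 122424776210) (nat_lit 152) (nat_lit 47114120226) (nat_lit 71) (nat_lit 5) (nat_lit 72) (nat_lit 5) (nat_lit 73) (nat_lit 4) (nat_lit 519) (nat_lit 461) (nat_lit 220)) (XT.lf (nat_lit 0) (nat_lit 76900748242) (nat_lit 228) (nat_lit 340886113018) (nat_lit 76) (nat_lit 25327157099) (nat_lit 68) (nat_lit 5) (nat_lit 71) (nat_lit 5) (nat_lit 69) (nat_lit 4) (nat_lit 520) (nat_lit 461) (nat_lit 219))) (XT.nd (nat_lit 78) (nat_lit 76) (nat_lit 0) (XT.lf (nat_lit 0) (nat_lit 210458160883) (nat_lit 228) (nat_lit 67093593979) (nat_lit 76) (nat_lit 180042973157) (nat_lit 68) (nat_lit 5) (nat_lit 71) (nat_lit 5) (nat_lit 69) (nat_lit 4) (nat_lit 521) (nat_lit 461) (nat_lit 218)) (XT.lf (nat_lit 0) (nat_lit 227675383974) (nat_lit 76) (nat_lit 126572604424) (nat_lit 152)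 (nat_lit 118373757553) (nat_lit 67) (nat_lit 5) (nat_lit 68) (nat_lit 5) (nat_lit 69) (nat_lit 4) (nat_lit 522) (nat_lit 461) (nat_lit 217)))))) (XT.nd (nat_lit 624) (nat_lit 532) (nat_lit 0) (XT.nd (nat_lit 312) (nat_lit 380) (nat_lit 0) (XT.nd (nat_lit 156) (nat_lit 76) (nat_lit 0) (XT.nd (nat_lit 78) (nat_lit 0) (nat_lit 0) (XT.lf (nat_lit 0) (nat_lit 18799771691) (nat_lit 152) (nat_lit 436253946769) (nat_lit 76) (nat_lit 33207702618) (nat_lit 65) (nat_lit 5) (nat_lit 67) (nat_lit 5) (nat_lit 66) (nat_lit 4) (nat_lit 523) (nat_lit 461) (nat_lit 216)) (XT.lf (nat_lit 0) (nat_lit 165144987697) (nat_lit 152) (nat_lit 136246399473) (nat_lit 76) (nat_lit 202880107884) (nat_lit 65) (nat_lit 5) (nat_lit 67) (nat_lit 5) (nat_lit 66) (nat_lit 4) (nat_lit 524) (nat_lit 461) (nat_lit 215))) (XT.nd (nat_lit 78) (nat_lit 0) (nat_lit 0) (XT.lf (nat_lit 0) (nat_lit 184671989817) (nat_lit 76) (nat_lit 137018621234)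 (nat_lit 152) (nat_lit 199247304351) (nat_lit 64) (nat_lit 5) (nat_lit 65) (nat_lit 5) (nat_lit 66) (nat_lit 4) (nat_lit 525) (nat_lit 461) (nat_lit 214)) (XT.lf (nat_lit 0) (nat_lit 488964030997) (nat_lit 152) (nat_lit 12549230744) (nat_lit 0) (nat_lit 36779369257) (nat_lit 64) (nat_lit 5) (nat_lit 66) (nat_lit 4) (nat_lit 64) (nat_lit 4) (nat_lit 526) (nat_lit 461) (nat_lit 213)))) (XT.nd (nat_lit 156) (nat_lit 152) (nat_lit 0) (XT.nd (nat_lit 78) (nat_lit 76) (nat_lit 0) (XT.lf (nat_lit 0) (nat_lit 112239165593) (nat_lit 152) (nat_lit 222094491990) (nat_lit 76) (nat_lit 221716420779) (nat_lit 62) (nat_lit 5) (nat_lit 64) (nat_lit 5) (nat_lit 63) (nat_lit 4) (nat_lit 527) (nat_lit 461) (nat_lit 212)) (XT.lf (nat_lit 0) (nat_lit 126782037111) (nat_lit 76) (nat_lit 155640856831) (nat_lit 152) (nat_lit 292122303927) (nat_lit 61) (nat_lit 5) (nat_lit 62) (nat_lit 5) (nat_lit 63) (nat_lit 4) (nat_lit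 528) (nat_lit 461) (nat_lit 211))) (XT.nd (nat_lit 78) (nat_lit 152) (nat_lit 0) (XT.lf (nat_lit 0) (nat_lit 465438051907) (nat_lit 152) (nat_lit 93525242197) (nat_lit 0) (nat_lit 34785667090) (nat_lit 61) (nat_lit 5) (nat_lit 63) (nat_lit 4) (nat_lit 61) (nat_lit 4) (nat_lit 529) (nat_lit 461) (nat_lit 210)) (XT.lf (nat_lit 0) (nat_lit 49408400338) (nat_lit 152) (nat_lit 329365262613) (nat_lit 76) (nat_lit 234749356150) (nat_lit 59) (nat_lit 5) (nat_lit 61) (nat_lit 5) (nat_lit 60) (nat_lit 4) (nat_lit 530) (nat_lit 461) (nat_lit 209))))) (XT.nd (nat_lit 312) (nat_lit 304) (nat_lit 0) (XT.nd (nat_lit 156) (nat_lit 152) (nat_lit 0) (XT.nd (nat_lit 78) (nat_lit 0) (nat_lit 0) (XT.lf (nat_lit 0) (nat_lit 49210758217) (nat_lit 76) (nat_lit 184868917551) (nat_lit 152) (nat_lit 399982026847) (nat_lit 58) (nat_lit 5) (nat_lit 59) (nat_lit 5) (nat_lit 60) (nat_lit 4) (nat_lit 531) (nat_lit 461) (nat_lit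 208)) (XT.lf (nat_lit 0) (nat_lit 433946271428) (nat_lit 152) (nat_lit 197582086240) (nat_lit 0) (nat_lit 23800874816) (nat_lit 58) (nat_lit 5) (nat_lit 60) (nat_lit 4) (nat_lit 58) (nat_lit 4) (nat_lit 532) (nat_lit 461) (nat_lit 207))) (XT.nd (nat_lit 78) (nat_lit 76) (nat_lit 0) (XT.lf (nat_lit 0) (nat_lit 212831341459) (nat_lit 76) (nat_lit 437328301365) (nat_lit 76) (nat_lit 27182823724) (nat_lit 57) (nat_lit 4) (nat_lit 58) (nat_lit 5) (nat_lit 58) (nat_lit 4) (nat_lit 533) (nat_lit 461) (nat_lit 206)) (XT.lf (nat_lit 0) (nat_lit 174471860050) (nat_lit 152) (nat_lit 52478241706) (nat_lit 76) (nat_lit 473198254247) (nat_lit 56) (nat_lit 5) (nat_lit 58) (nat_lit 5) (nat_lit 57) (nat_lit 4) (nat_lit 534) (nat_lit 461) (nat_lit 205)))) (XT.nd (nat_lit 156) (nat_lit 152) (nat_lit 0) (XT.nd (nat_lit 78) (nat_lit 76) (nat_lit 0) (XT.lf (nat_lit 0) (nat_lit 391433237610) (nat_lit 152) (nat_lit 331513793773)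 (nat_lit 0) (nat_lit 818353509) (nat_lit 55) (nat_lit 5) (nat_lit 57) (nat_lit 4) (nat_lit 55) (nat_lit 4) (nat_lit 535) (nat_lit 461) (nat_lit 204)) (XT.lf (nat_lit 0) (nat_lit 112382740277) (nat_lit 76) (nat_lit 513238279465) (nat_lit 76) (nat_lit 122623328701) (nat_lit 54) (nat_lit 4) (nat_lit 55) (nat_lit 5) (nat_lit 55) (nat_lit 4) (nat_lit 536) (nat_lit 461) (nat_lit 203))) (XT.nd (nat_lit 78) (nat_lit 76) (nat_lit 0) (XT.lf (nat_lit 0) (nat_lit 100154355458) (nat_lit 152) (nat_lit 185298585560) (nat_lit 76) (nat_lit 488132836180) (nat_lit 53) (nat_lit 5) (nat_lit 55) (nat_lit 5) (nat_lit 54) (nat_lit 4) (nat_lit 537) (nat_lit 461) (nat_lit 202)) (XT.lf (nat_lit 0) (nat_lit 295231468079) (nat_lit 76) (nat_lit 39327821089) (nat_lit 152) (nat_lit 465304011637) (nat_lit 52) (nat_lit 5) (nat_lit 53) (nat_lit 5) (nat_lit 54) (nat_lit 4) (nat_lit 538) (nat_lit 461) (nat_lit 201)))))))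
noncomputable def xc417 : XT := (XT.nd (nat_lit 56940) (nat_lit 0) (nat_lit 6460) (XT.nd (nat_lit 624) (nat_lit 152) (nat_lit 0) (XT.nd (nat_lit 312) (nat_lit 304) (nat_lit 0) (XT.nd (nat_lit 156) (nat_lit 76) (nat_lit 0) (XT.nd (nat_lit 78) (nat_lit 152) (nat_lit 0) (XT.lf (nat_lit 0) (nat_lit 587294778768) (nat_lit 152) (nat_lit 24549039311) (nat_lit 0) (nat_lit 215280367052) (nat_lit 52) (nat_lit 5) (nat_lit 54) (nat_lit 4) (nat_lit 52) (nat_lit 4) (nat_lit 539) (nat_lit 461) (nat_lit 200)) (XT.lf (nat_lit 0) (nat_lit 5523460953) (nat_lit 152) (nat_lit 360691368992) (nat_lit 76) (nat_lit 489110393021) (nat_lit 50) (nat_lit 5) (nat_lit 52) (nat_lit 5) (nat_lit 51) (nat_lit 4) (nat_lit 540) (nat_lit 461) (nat_lit 199))) (XT.nd (nat_lit 78) (nat_lit 0) (nat_lit 0) (XT.lf (nat_lit 0) (nat_lit 156792399379) (nat_lit 76) (nat_lit 101162192362) (nat_lit 152) (nat_lit 626641616433) (nat_lit 49) (nat_lit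 5) (nat_lit 50) (nat_lit 5) (nat_lit 51) (nat_lit 4) (nat_lit 541) (nat_lit 461) (nat_lit 198)) (XT.lf (nat_lit 0) (nat_lit 531981527642) (nat_lit 152) (nat_lit 205218556899) (nat_lit 0) (nat_lit 177681945673) (nat_lit 49) (nat_lit 5) (nat_lit 51) (nat_lit 4) (nat_lit 49) (nat_lit 4) (nat_lit 542) (nat_lit 461) (nat_lit 197)))) (XT.nd (nat_lit 156) (nat_lit 152) (nat_lit 0) (XT.nd (nat_lit 78) (nat_lit 76) (nat_lit 0) (XT.lf (nat_lit 0) (nat_lit 353140111396) (nat_lit 76) (nat_lit 473741532609) (nat_lit 76) (nat_lit 119441907668) (nat_lit 48) (nat_lit 4) (nat_lit 49) (nat_lit 5) (nat_lit 49) (nat_lit 4) (nat_lit 543) (nat_lit 461) (nat_lit 196)) (XT.lf (nat_lit 0) (nat_lit 155690948464) (nat_lit 152) (nat_lit 35133221512) (nat_lit 76) (nat_lit 788213651662) (nat_lit 47) (nat_lit 5) (nat_lit 49) (nat_lit 5) (nat_lit 48) (nat_lit 4) (nat_lit 544) (nat_lit 461) (nat_lit 195))) (XT.nd (nat_lit 78)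 (nat_lit 76) (nat_lit 0) (XT.lf (nat_lit 0) (nat_lit 451254864013) (nat_lit 152) (nat_lit 447674041804) (nat_lit 0) (nat_lit 113826573687) (nat_lit 46) (nat_lit 5) (nat_lit 48) (nat_lit 4) (nat_lit 46) (nat_lit 4) (nat_lit 545) (nat_lit 461) (nat_lit 194)) (XT.lf (nat_lit 0) (nat_lit 150062077980) (nat_lit 76) (nat_lit 617610737965) (nat_lit 76) (nat_lit 280182412286) (nat_lit 45) (nat_lit 4) (nat_lit 46) (nat_lit 5) (nat_lit 46) (nat_lit 4) (nat_lit 546) (nat_lit 461) (nat_lit 193))))) (XT.nd (nat_lit 56004) (nat_lit 0) (nat_lit 9196) (XT.nd (nat_lit 55848) (nat_lit 0) (nat_lit 9120) (XT.nd (nat_lit 78) (nat_lit 76) (nat_lit 0) (XT.lf (nat_lit 0) (nat_lit 22420950183) (nat_lit 152) (nat_lit 291465411471) (nat_lit 76) (nat_lit 770426445760) (nat_lit 44) (nat_lit 5) (nat_lit 46) (nat_lit 5) (nat_lit 45) (nat_lit 4) (nat_lit 547) (nat_lit 461) (nat_lit 192)) (XT.lf (nat_lit 0) (nat_lit 336475558201)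 (nat_lit 152) (nat_lit 770486012026) (nat_lit 0) (nat_lit 15115185427) (nat_lit 43) (nat_lit 5) (nat_lit 45) (nat_lit 4) (nat_lit 43) (nat_lit 4) (nat_lit 548) (nat_lit 461) (nat_lit 191))) (XT.nd (nat_lit 78) (nat_lit 0) (nat_lit 0) (XT.lf (nat_lit 0) (nat_lit 18454011149) (nat_lit 836) (nat_lit 11671067201) (nat_lit 836) (nat_lit 11671067201) (nat_lit 163) (nat_lit 3) (nat_lit 174) (nat_lit 3) (nat_lit 174) (nat_lit 5) (nat_lit 462) (nat_lit 462) (nat_lit 276)) (XT.lf (nat_lit 76) (nat_lit 18889250367) (nat_lit 0) (nat_lit 19245600034) (nat_lit 836) (nat_lit 47532040893) (nat_lit 164) (nat_lit 5) (nat_lit 163) (nat_lit 3) (nat_lit 174) (nat_lit 5) (nat_lit 463) (nat_lit 462) (nat_lit 275)))) (XT.nd (nat_lit 156) (nat_lit 0) (nat_lit 76) (XT.nd (nat_lit 78) (nat_lit 0) (nat_lit 0) (XT.lf (nat_lit 0) (nat_lit 40195948366) (nat_lit 760) (nat_lit 24161427962) (nat_lit 836) (nat_lit 23449198787) (nat_lit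 164) (nat_lit 5) (nat_lit 174) (nat_lit 5) (nat_lit 175) (nat_lit 5) (nat_lit 464) (nat_lit 462) (nat_lit 274)) (XT.lf (nat_lit 76) (nat_lit 20939966602) (nat_lit 0) (nat_lit 22062005470) (nat_lit 836) (nat_lit 47019177557) (nat_lit 165) (nat_lit 5) (nat_lit 164) (nat_lit 5) (nat_lit 175) (nat_lit 5) (nat_lit 465) (nat_lit 462) (nat_lit 273))) (XT.nd (nat_lit 78) (nat_lit 0) (nat_lit 0) (XT.lf (nat_lit 0) (nat_lit 46712569905) (nat_lit 760) (nat_lit 23546719456) (nat_lit 836) (nat_lit 22048949901) (nat_lit 165) (nat_lit 5) (nat_lit 175) (nat_lit 5) (nat_lit 176) (nat_lit 5) (nat_lit 466) (nat_lit 462) (nat_lit 272)) (XT.lf (nat_lit 76) (nat_lit 24692773245) (nat_lit 0) (nat_lit 26662608098) (nat_lit 836) (nat_lit 43316967889) (nat_lit 166) (nat_lit 5) (nat_lit 165) (nat_lit 5) (nat_lit 176) (nat_lit 5) (nat_lit 467) (nat_lit 462) (nat_lit 271)))))) (XT.nd (nat_lit 624) (nat_lit 1748) (nat_lit 0)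 (XT.nd (nat_lit 312) (nat_lit 1140) (nat_lit 0) (XT.nd (nat_lit 156) (nat_lit 0) (nat_lit 76) (XT.nd (nat_lit 78) (nat_lit 0) (nat_lit 0) (XT.lf (nat_lit 0) (nat_lit 56933576976) (nat_lit 760) (nat_lit 21278321683) (nat_lit 836) (nat_lit 18907603896) (nat_lit 166) (nat_lit 5) (nat_lit 176) (nat_lit 5) (nat_lit 177) (nat_lit 5) (nat_lit 468) (nat_lit 462) (nat_lit 270)) (XT.lf (nat_lit 76) (nat_lit 30393330947) (nat_lit 0) (nat_lit 33308501385) (nat_lit 836) (nat_lit 35941623751) (nat_lit 167) (nat_lit 5) (nat_lit 166) (nat_lit 5) (nat_lit 177) (nat_lit 5) (nat_lit 469) (nat_lit 462) (nat_lit 269))) (XT.nd (nat_lit 78) (nat_lit 0) (nat_lit 0) (XT.lf (nat_lit 0) (nat_lit 71390400349) (nat_lit 760) (nat_lit 17110645036) (nat_lit 836) (nat_lit 13763466943) (nat_lit 167) (nat_lit 5) (nat_lit 177) (nat_lit 5) (nat_lit 178) (nat_lit 5) (nat_lit 470) (nat_lit 462) (nat_lit 268)) (XT.lf (nat_lit 76) (nat_lit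 38315761785) (nat_lit 0) (nat_lit 42291465251) (nat_lit 836) (nat_lit 24352202867) (nat_lit 168) (nat_lit 5) (nat_lit 167) (nat_lit 5) (nat_lit 178) (nat_lit 5) (nat_lit 471) (nat_lit 462) (nat_lit 267)))) (XT.nd (nat_lit 156) (nat_lit 532) (nat_lit 0) (XT.nd (nat_lit 78) (nat_lit 760) (nat_lit 0) (XT.lf (nat_lit 0) (nat_lit 90676257231) (nat_lit 760) (nat_lit 10769434845) (nat_lit 76) (nat_lit 6323833203) (nat_lit 168) (nat_lit 5) (nat_lit 178) (nat_lit 5) (nat_lit 169) (nat_lit 5) (nat_lit 472) (nat_lit 462) (nat_lit 266)) (XT.lf (nat_lit 0) (nat_lit 48765664628) (nat_lit 760) (nat_lit 53937354153) (nat_lit 836) (nat_lit 7944392681) (nat_lit 158) (nat_lit 5) (nat_lit 168) (nat_lit 5) (nat_lit 169) (nat_lit 5) (nat_lit 473) (nat_lit 462) (nat_lit 265))) (XT.nd (nat_lit 78) (nat_lit 456) (nat_lit 0) (XT.lf (nat_lit 0) (nat_lit 1793725456) (nat_lit 836) (nat_lit 2037956083) (nat_lit 76) (nat_lit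 109826963523) (nat_lit 157) (nat_lit 5) (nat_lit 168) (nat_lit 5) (nat_lit 158) (nat_lit 5) (nat_lit 474) (nat_lit 462) (nat_lit 264)) (XT.lf (nat_lit 0) (nat_lit 13509664609) (nat_lit 532) (nat_lit 54871389872) (nat_lit 76) (nat_lit 48344979149) (nat_lit 151) (nat_lit 5) (nat_lit 158) (nat_lit 5) (nat_lit 152) (nat_lit 5) (nat_lit 475) (nat_lit 462) (nat_lit 263))))) (XT.nd (nat_lit 312) (nat_lit 988) (nat_lit 0) (XT.nd (nat_lit 156) (nat_lit 380) (nat_lit 0) (XT.nd (nat_lit 78) (nat_lit 0) (nat_lit 0) (XT.lf (nat_lit 0) (nat_lit 9301536565) (nat_lit 380) (nat_lit 16752627605) (nat_lit 456) (nat_lit 93880489307) (nat_lit 146) (nat_lit 5) (nat_lit 151) (nat_lit 5) (nat_lit 152) (nat_lit 5) (nat_lit 476) (nat_lit 462) (nat_lit 262)) (XT.lf (nat_lit 0) (nat_lit 40754866192) (nat_lit 456) (nat_lit 45269529484) (nat_lit 76) (nat_lit 37202859791) (nat_lit 146) (nat_lit 5) (nat_lit 152) (nat_lit 5) (nat_lit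 147) (nat_lit 5) (nat_lit 477) (nat_lit 462) (nat_lit 261))) (XT.nd (nat_lit 78) (nat_lit 0) (nat_lit 0) (XT.lf (nat_lit 0) (nat_lit 23850627642) (nat_lit 380) (nat_lit 32986658110) (nat_lit 456) (nat_lit 69814867704) (nat_lit 141) (nat_lit 5) (nat_lit 146) (nat_lit 5) (nat_lit 147) (nat_lit 5) (nat_lit 478) (nat_lit 462) (nat_lit 260)) (XT.lf (nat_lit 0) (nat_lit 74857196724) (nat_lit 456) (nat_lit 32578895282) (nat_lit 76) (nat_lit 22755535838) (nat_lit 141) (nat_lit 5) (nat_lit 147) (nat_lit 5) (nat_lit 142) (nat_lit 5) (nat_lit 479) (nat_lit 462) (nat_lit 259)))) (XT.nd (nat_lit 156) (nat_lit 684) (nat_lit 0) (XT.nd (nat_lit 78) (nat_lit 0) (nat_lit 0) (XT.lf (nat_lit 0) (nat_lit 41956637922) (nat_lit 304) (nat_lit 53016989859) (nat_lit 380) (nat_lit 38874671963) (nat_lit 137) (nat_lit 5) (nat_lit 141) (nat_lit 5) (nat_lit 142) (nat_lit 5) (nat_lit 480) (nat_lit 462) (nat_lit 258)) (XT.lf (nat_lit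 0) (nat_lit 116720744738) (nat_lit 380) (nat_lit 16383969271) (nat_lit 76) (nat_lit 4551848032) (nat_lit 137) (nat_lit 5) (nat_lit 142) (nat_lit 5) (nat_lit 138) (nat_lit 5) (nat_lit 481) (nat_lit 462) (nat_lit 257))) (XT.nd (nat_lit 78) (nat_lit 380) (nat_lit 0) (XT.lf (nat_lit 0) (nat_lit 64080626773) (nat_lit 304) (nat_lit 77343921297) (nat_lit 380) (nat_lit 137222873) (nat_lit 133) (nat_lit 5) (nat_lit 137) (nat_lit 5) (nat_lit 138) (nat_lit 5) (nat_lit 482) (nat_lit 462) (nat_lit 256)) (XT.nd (nat_lit 78) (nat_lit 0) (nat_lit 0) (XT.lf (nat_lit 0) (nat_lit 3249193755) (nat_lit 304) (nat_lit 18090003636) (nat_lit 380) (nat_lit 124289478346) (nat_lit 128) (nat_lit 5) (nat_lit 132) (nat_lit 5) (nat_lit 133) (nat_lit 5) (nat_lit 483) (nat_lit 462) (nat_lit 255)) (XT.lf (nat_lit 0) (nat_lit 45907191065) (nat_lit 380) (nat_lit 59840339734) (nat_lit 76) (nat_lit 44050164311) (nat_lit 128) (nat_lit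 5) (nat_lit 133) (nat_lit 5) (nat_lit 129) (nat_lit 5) (nat_lit 484) (nat_lit 462) (nat_lit 254))))))))
noncomputable def xc418 : XT := (XT.nd (nat_lit 1248) (nat_lit 1672) (nat_lit 0) (XT.nd (nat_lit 624) (nat_lit 1064) (nat_lit 0) (XT.nd (nat_lit 312) (nat_lit 760) (nat_lit 0) (XT.nd (nat_lit 156) (nat_lit 304) (nat_lit 0) (XT.nd (nat_lit 78) (nat_lit 0) (nat_lit 0) (XT.lf (nat_lit 0) (nat_lit 27406041744) (nat_lit 304) (nat_lit 45021730098) (nat_lit 380) (nat_lit 81711184252) (nat_lit 124) (nat_lit 5) (nat_lit 128) (nat_lit 5) (nat_lit 129) (nat_lit 5) (nat_lit 485) (nat_lit 462) (nat_lit 253)) (XT.lf (nat_lit 0) (nat_lit 101596760748) (nat_lit 380) (nat_lit 37863879168) (nat_lit 76) (nat_lit 19170521272) (nat_lit 124) (nat_lit 5) (nat_lit 129) (nat_lit 5) (nat_lit 125) (nat_lit 5) (nat_lit 486) (nat_lit 462) (nat_lit 252))) (XT.nd (nat_lit 78) (nat_lit 76) (nat_lit 0) (XT.lf (nat_lit 0) (nat_lit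 56519198725) (nat_lit 228) (nat_lit 77325247376) (nat_lit 304) (nat_lit 29422518099) (nat_lit 121) (nat_lit 5) (nat_lit 124) (nat_lit 5) (nat_lit 125) (nat_lit 5) (nat_lit 487) (nat_lit 462) (nat_lit 251)) (XT.lf (nat_lit 0) (nat_lit 235243101) (nat_lit 304) (nat_lit 11170632245) (nat_lit 76) (nat_lit 156696441699) (nat_lit 120) (nat_lit 5) (nat_lit 124) (nat_lit 5) (nat_lit 121) (nat_lit 5) (nat_lit 488) (nat_lit 462) (nat_lit 250)))) (XT.nd (nat_lit 156) (nat_lit 228) (nat_lit 0) (XT.nd (nat_lit 78) (nat_lit 228) (nat_lit 0) (XT.lf (nat_lit 0) (nat_lit 32751496019) (nat_lit 380) (nat_lit 82382094066) (nat_lit 76) (nat_lit 57903510982) (nat_lit 116) (nat_lit 5) (nat_lit 121) (nat_lit 5) (nat_lit 117) (nat_lit 5) (nat_lit 489) (nat_lit 462) (nat_lit 249)) (XT.lf (nat_lit 0) (nat_lit 20206939934) (nat_lit 228) (nat_lit 47381152875) (nat_lit 304) (nat_lit 110595804930) (nat_lit 113) (nat_lit 5) (nat_lit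 116) (nat_lit 5) (nat_lit 117) (nat_lit 5) (nat_lit 490) (nat_lit 462) (nat_lit 248))) (XT.nd (nat_lit 78) (nat_lit 228) (nat_lit 0) (XT.lf (nat_lit 0) (nat_lit 105955300607) (nat_lit 304) (nat_lit 53126856037) (nat_lit 76) (nat_lit 24416438553) (nat_lit 113) (nat_lit 5) (nat_lit 117) (nat_lit 5) (nat_lit 114) (nat_lit 5) (nat_lit 491) (nat_lit 462) (nat_lit 247)) (XT.lf (nat_lit 0) (nat_lit 58046566269) (nat_lit 228) (nat_lit 89877108137) (nat_lit 304) (nat_lit 41071212852) (nat_lit 110) (nat_lit 5) (nat_lit 113) (nat_lit 5) (nat_lit 114) (nat_lit 5) (nat_lit 492) (nat_lit 462) (nat_lit 246))))) (XT.nd (nat_lit 312) (nat_lit 608) (nat_lit 0) (XT.nd (nat_lit 156) (nat_lit 228) (nat_lit 0) (XT.nd (nat_lit 78) (nat_lit 228) (nat_lit 0) (XT.lf (nat_lit 0) (nat_lit 176622811991) (nat_lit 228) (nat_lit 16267184905) (nat_lit 304) (nat_lit 1831020535) (nat_lit 110) (nat_lit 5) (nat_lit 113) (nat_lit 5)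 (nat_lit 114) (nat_lit 5) (nat_lit 493) (nat_lit 462) (nat_lit 245)) (XT.lf (nat_lit 0) (nat_lit 40709412765) (nat_lit 228) (nat_lit 98532868130) (nat_lit 76) (nat_lit 61330520750) (nat_lit 107) (nat_lit 5) (nat_lit 110) (nat_lit 5) (nat_lit 108) (nat_lit 5) (nat_lit 494) (nat_lit 462) (nat_lit 244))) (XT.nd (nat_lit 78) (nat_lit 0) (nat_lit 0) (XT.lf (nat_lit 0) (nat_lit 22530572776) (nat_lit 228) (nat_lit 63714538400) (nat_lit 304) (nat_lit 120424074179) (nat_lit 104) (nat_lit 5) (nat_lit 107) (nat_lit 5) (nat_lit 108) (nat_lit 5) (nat_lit 495) (nat_lit 462) (nat_lit 243)) (XT.lf (nat_lit 0) (nat_lit 135996863042) (nat_lit 304) (nat_lit 60189972789) (nat_lit 76) (nat_lit 16786588998) (nat_lit 104) (nat_lit 5) (nat_lit 108) (nat_lit 5) (nat_lit 105) (nat_lit 5) (nat_lit 496) (nat_lit 462) (nat_lit 242)))) (XT.nd (nat_lit 156) (nat_lit 380) (nat_lit 0) (XT.nd (nat_lit 78) (nat_lit 76) (nat_lit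 0) (XT.lf (nat_lit 0) (nat_lit 71189840639) (nat_lit 152) (nat_lit 119202158041) (nat_lit 228) (nat_lit 29093087798) (nat_lit 102) (nat_lit 5) (nat_lit 104) (nat_lit 5) (nat_lit 105) (nat_lit 5) (nat_lit 497) (nat_lit 462) (nat_lit 241)) (XT.lf (nat_lit 0) (nat_lit 21542402552) (nat_lit 228) (nat_lit 15390798722) (nat_lit 76) (nat_lit 189320798379) (nat_lit 101) (nat_lit 5) (nat_lit 104) (nat_lit 5) (nat_lit 102) (nat_lit 5) (nat_lit 498) (nat_lit 462) (nat_lit 240))) (XT.nd (nat_lit 78) (nat_lit 152) (nat_lit 0) (XT.lf (nat_lit 0) (nat_lit 76539207345) (nat_lit 304) (nat_lit 106279193117) (nat_lit 76) (nat_lit 50378748317) (nat_lit 98) (nat_lit 5) (nat_lit 102) (nat_lit 5) (nat_lit 99) (nat_lit 5) (nat_lit 499) (nat_lit 462) (nat_lit 239)) (XT.lf (nat_lit 0) (nat_lit 36975502746) (nat_lit 152) (nat_lit 98757861494) (nat_lit 228) (nat_lit 104681715534) (nat_lit 96) (nat_lit 5) (nat_lit 98) (nat_lit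 5) (nat_lit 99) (nat_lit 5) (nat_lit 500) (nat_lit 462) (nat_lit 238)))))) (XT.nd (nat_lit 624) (nat_lit 760) (nat_lit 0) (XT.nd (nat_lit 312) (nat_lit 532) (nat_lit 0) (XT.nd (nat_lit 156) (nat_lit 152) (nat_lit 0) (XT.nd (nat_lit 78) (nat_lit 228) (nat_lit 0) (XT.lf (nat_lit 0) (nat_lit 191082443626) (nat_lit 152) (nat_lit 8604513415) (nat_lit 228) (nat_lit 48216963881) (nat_lit 96) (nat_lit 5) (nat_lit 98) (nat_lit 5) (nat_lit 99) (nat_lit 5) (nat_lit 501) (nat_lit 462) (nat_lit 237)) (XT.lf (nat_lit 0) (nat_lit 13652359030) (nat_lit 228) (nat_lit 156892258667) (nat_lit 76) (nat_lit 85067160168) (nat_lit 93) (nat_lit 5) (nat_lit 96) (nat_lit 5) (nat_lit 94) (nat_lit 5) (nat_lit 502) (nat_lit 462) (nat_lit 236))) (XT.nd (nat_lit 78) (nat_lit 152) (nat_lit 0) (XT.lf (nat_lit 0) (nat_lit 78113719758) (nat_lit 228) (nat_lit 594166796) (nat_lit 76) (nat_lit 184901670111) (nat_lit 93) (nat_lit 5)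 (nat_lit 96) (nat_lit 5) (nat_lit 94) (nat_lit 5) (nat_lit 503) (nat_lit 462) (nat_lit 235)) (XT.lf (nat_lit 0) (nat_lit 148755301980) (nat_lit 228) (nat_lit 103270019072) (nat_lit 76) (nat_lit 19834045686) (nat_lit 91) (nat_lit 5) (nat_lit 94) (nat_lit 5) (nat_lit 92) (nat_lit 5) (nat_lit 504) (nat_lit 462) (nat_lit 234)))) (XT.nd (nat_lit 156) (nat_lit 304) (nat_lit 0) (XT.nd (nat_lit 78) (nat_lit 76) (nat_lit 0) (XT.lf (nat_lit 0) (nat_lit 66571499957) (nat_lit 152) (nat_lit 158697206397) (nat_lit 228) (nat_lit 55135973813) (nat_lit 89) (nat_lit 5) (nat_lit 91) (nat_lit 5) (nat_lit 92) (nat_lit 5) (nat_lit 505) (nat_lit 462) (nat_lit 233)) (XT.lf (nat_lit 0) (nat_lit 17488497773) (nat_lit 228) (nat_lit 41081739139) (nat_lit 76) (nat_lit 230705479456) (nat_lit 88) (nat_lit 5) (nat_lit 91) (nat_lit 5) (nat_lit 89) (nat_lit 5) (nat_lit 506) (nat_lit 462) (nat_lit 232))) (XT.nd (nat_lit 78) (nat_lit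 152) (nat_lit 0) (XT.lf (nat_lit 0) (nat_lit 94918219034) (nat_lit 228) (nat_lit 155198884215) (nat_lit 76) (nat_lit 48276659895) (nat_lit 86) (nat_lit 5) (nat_lit 89) (nat_lit 5) (nat_lit 87) (nat_lit 5) (nat_lit 507) (nat_lit 462) (nat_lit 231)) (XT.lf (nat_lit 0) (nat_lit 30172567248) (nat_lit 152) (nat_lit 148185113691) (nat_lit 228) (nat_lit 129503118594) (nat_lit 84) (nat_lit 5) (nat_lit 86) (nat_lit 5) (nat_lit 87) (nat_lit 5) (nat_lit 508) (nat_lit 462) (nat_lit 230))))) (XT.nd (nat_lit 312) (nat_lit 456) (nat_lit 0) (XT.nd (nat_lit 156) (nat_lit 152) (nat_lit 0) (XT.nd (nat_lit 78) (nat_lit 152) (nat_lit 0) (XT.lf (nat_lit 0) (nat_lit 230200512158) (nat_lit 152) (nat_lit 38396838559) (nat_lit 228) (nat_lit 49072425289) (nat_lit 84) (nat_lit 5) (nat_lit 86) (nat_lit 5) (nat_lit 87) (nat_lit 5) (nat_lit 509) (nat_lit 462) (nat_lit 229)) (XT.lf (nat_lit 0) (nat_lit 37287957742) (nat_lit 152)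 (nat_lit 213688797259) (nat_lit 76) (nat_lit 76812800927) (nat_lit 82) (nat_lit 5) (nat_lit 84) (nat_lit 5) (nat_lit 83) (nat_lit 5) (nat_lit 510) (nat_lit 462) (nat_lit 228))) (XT.nd (nat_lit 78) (nat_lit 152) (nat_lit 0) (XT.lf (nat_lit 0) (nat_lit 128452151489) (nat_lit 152) (nat_lit 11013675238) (nat_lit 76) (nat_lit 198802527481) (nat_lit 82) (nat_lit 5) (nat_lit 84) (nat_lit 5) (nat_lit 83) (nat_lit 5) (nat_lit 511) (nat_lit 462) (nat_lit 227)) (XT.lf (nat_lit 0) (nat_lit 208467239080) (nat_lit 152) (nat_lit 18961951762) (nat_lit 228) (nat_lit 121679169767) (nat_lit 80) (nat_lit 5) (nat_lit 82) (nat_lit 5) (nat_lit 83) (nat_lit 5) (nat_lit 512) (nat_lit 462) (nat_lit 226)))) (XT.nd (nat_lit 156) (nat_lit 304) (nat_lit 0) (XT.nd (nat_lit 78) (nat_lit 76) (nat_lit 0) (XT.lf (nat_lit 0) (nat_lit 79691451711) (nat_lit 76) (nat_lit 254776720237) (nat_lit 152) (nat_lit 25866540894) (nat_lit 79)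 (nat_lit 5) (nat_lit 80) (nat_lit 5) (nat_lit 81) (nat_lit 4) (nat_lit 513) (nat_lit 462) (nat_lit 225)) (XT.lf (nat_lit 0) (nat_lit 75076280631) (nat_lit 152) (nat_lit 57596862083) (nat_lit 76) (nat_lit 239254317347) (nat_lit 78) (nat_lit 5) (nat_lit 80) (nat_lit 5) (nat_lit 79) (nat_lit 5) (nat_lit 514) (nat_lit 462) (nat_lit 224))) (XT.nd (nat_lit 78) (nat_lit 152) (nat_lit 0) (XT.lf (nat_lit 0) (nat_lit 182002834192) (nat_lit 152) (nat_lit 1035583231) (nat_lit 228) (nat_lit 200898152157) (nat_lit 76) (nat_lit 5) (nat_lit 78) (nat_lit 5) (nat_lit 79) (nat_lit 5) (nat_lit 515) (nat_lit 462) (nat_lit 223)) (XT.nd (nat_lit 78) (nat_lit 76) (nat_lit 0) (XT.lf (nat_lit 0) (nat_lit 38147726413) (nat_lit 76) (nat_lit 261979659471) (nat_lit 152) (nat_lit 96232312453) (nat_lit 75) (nat_lit 5) (nat_lit 76) (nat_lit 5) (nat_lit 77) (nat_lit 4) (nat_lit 516) (nat_lit 462) (nat_lit 222)) (XT.lf (nat_lit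 0) (nat_lit 16722167474) (nat_lit 152) (nat_lit 112275673398) (nat_lit 76) (nat_lit 280220835203) (nat_lit 74) (nat_lit 5) (nat_lit 76) (nat_lit 5) (nat_lit 75) (nat_lit 5) (nat_lit 517) (nat_lit 462) (nat_lit 221))))))))
noncomputable def xc419 : XT := (XT.nd (nat_lit 1248) (nat_lit 1064) (nat_lit 0) (XT.nd (nat_lit 624) (nat_lit 532) (nat_lit 0) (XT.nd (nat_lit 312) (nat_lit 228) (nat_lit 0) (XT.nd (nat_lit 156) (nat_lit 304) (nat_lit 0) (XT.nd (nat_lit 78) (nat_lit 0) (nat_lit 0) (XT.lf (nat_lit 0) (nat_lit 134648978762) (nat_lit 228) (nat_lit 273601836762) (nat_lit 76) (nat_lit 14262976029) (nat_lit 72) (nat_lit 5) (nat_lit 75) (nat_lit 5) (nat_lit 73) (nat_lit 4) (nat_lit 518) (nat_lit 462) (nat_lit 220)) (XT.lf (nat_lit 0) (nat_lit 262519355915) (nat_lit 228) (nat_lit 11467758603) (nat_lit 76) (nat_lit 162284187024) (nat_lit 72) (nat_lit 5) (nat_lit 75) (nat_lit 5) (nat_lit 73) (nat_lit 4)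 (nat_lit 519) (nat_lit 462) (nat_lit 219))) (XT.nd (nat_lit 78) (nat_lit 228) (nat_lit 0) (XT.lf (nat_lit 0) (nat_lit 272494353793) (nat_lit 76) (nat_lit 128543196324) (nat_lit 152) (nat_lit 49466422005) (nat_lit 71) (nat_lit 5) (nat_lit 72) (nat_lit 5) (nat_lit 73) (nat_lit 4) (nat_lit 520) (nat_lit 462) (nat_lit 218)) (XT.lf (nat_lit 0) (nat_lit 80749063081) (nat_lit 228) (nat_lit 357924230992) (nat_lit 76) (nat_lit 26596261283) (nat_lit 68) (nat_lit 5) (nat_lit 71) (nat_lit 5) (nat_lit 69) (nat_lit 4) (nat_lit 521) (nat_lit 462) (nat_lit 217)))) (XT.nd (nat_lit 156) (nat_lit 152) (nat_lit 0) (XT.nd (nat_lit 78) (nat_lit 76) (nat_lit 0) (XT.lf (nat_lit 0) (nat_lit 220984190286) (nat_lit 228) (nat_lit 70442380651) (nat_lit 76) (nat_lit 189047737366) (nat_lit 68) (nat_lit 5) (nat_lit 71) (nat_lit 5) (nat_lit 69) (nat_lit 4) (nat_lit 522) (nat_lit 462) (nat_lit 216)) (XT.lf (nat_lit 0) (nat_lit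 239064951150) (nat_lit 76) (nat_lit 132898499913) (nat_lit 152) (nat_lit 124289228977) (nat_lit 67) (nat_lit 5) (nat_lit 68) (nat_lit 5) (nat_lit 69) (nat_lit 4) (nat_lit 523) (nat_lit 462) (nat_lit 215))) (XT.nd (nat_lit 78) (nat_lit 0) (nat_lit 0) (XT.lf (nat_lit 0) (nat_lit 19742859099) (nat_lit 152) (nat_lit 458060728414) (nat_lit 76) (nat_lit 34870749636) (nat_lit 65) (nat_lit 5) (nat_lit 67) (nat_lit 5) (nat_lit 66) (nat_lit 4) (nat_lit 524) (nat_lit 462) (nat_lit 214)) (XT.lf (nat_lit 0) (nat_lit 173405188342) (nat_lit 152) (nat_lit 143053085453) (nat_lit 76) (nat_lit 213026648409) (nat_lit 65) (nat_lit 5) (nat_lit 67) (nat_lit 5) (nat_lit 66) (nat_lit 4) (nat_lit 525) (nat_lit 462) (nat_lit 213))))) (XT.nd (nat_lit 312) (nat_lit 228) (nat_lit 0) (XT.nd (nat_lit 156) (nat_lit 228) (nat_lit 0) (XT.nd (nat_lit 78) (nat_lit 0) (nat_lit 0) (XT.lf (nat_lit 0) (nat_lit 193911132431) (nat_lit 76)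 (nat_lit 143866906441) (nat_lit 152) (nat_lit 209206627400) (nat_lit 64) (nat_lit 5) (nat_lit 65) (nat_lit 5) (nat_lit 66) (nat_lit 4) (nat_lit 526) (nat_lit 462) (nat_lit 212)) (XT.lf (nat_lit 0) (nat_lit 513415031192) (nat_lit 152) (nat_lit 13171314458) (nat_lit 0) (nat_lit 38620776931) (nat_lit 64) (nat_lit 5) (nat_lit 66) (nat_lit 4) (nat_lit 64) (nat_lit 4) (nat_lit 527) (nat_lit 462) (nat_lit 211))) (XT.nd (nat_lit 78) (nat_lit 76) (nat_lit 0) (XT.lf (nat_lit 0) (nat_lit 117853916939) (nat_lit 152) (nat_lit 233193833120) (nat_lit 76) (nat_lit 232804692534) (nat_lit 62) (nat_lit 5) (nat_lit 64) (nat_lit 5) (nat_lit 63) (nat_lit 4) (nat_lit 528) (nat_lit 462) (nat_lit 210)) (XT.lf (nat_lit 0) (nat_lit 133126435605) (nat_lit 76) (nat_lit 163420345793) (nat_lit 152) (nat_lit 306725539196) (nat_lit 61) (nat_lit 5) (nat_lit 62) (nat_lit 5) (nat_lit 63) (nat_lit 4) (nat_lit 529) (nat_lit 462) (nat_lit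 209)))) (XT.nd (nat_lit 156) (nat_lit 76) (nat_lit 0) (XT.nd (nat_lit 78) (nat_lit 152) (nat_lit 0) (XT.lf (nat_lit 0) (nat_lit 488712604628) (nat_lit 152) (nat_lit 98196367227) (nat_lit 0) (nat_lit 36527304863) (nat_lit 61) (nat_lit 5) (nat_lit 63) (nat_lit 4) (nat_lit 61) (nat_lit 4) (nat_lit 530) (nat_lit 462) (nat_lit 208)) (XT.lf (nat_lit 0) (nat_lit 51881465892) (nat_lit 152) (nat_lit 345828384020) (nat_lit 76) (nat_lit 246489187841) (nat_lit 59) (nat_lit 5) (nat_lit 61) (nat_lit 5) (nat_lit 60) (nat_lit 4) (nat_lit 531) (nat_lit 462) (nat_lit 207))) (XT.nd (nat_lit 78) (nat_lit 0) (nat_lit 0) (XT.lf (nat_lit 0) (nat_lit 51676354922) (nat_lit 76) (nat_lit 194109903175) (nat_lit 152) (nat_lit 419978399697) (nat_lit 58) (nat_lit 5) (nat_lit 59) (nat_lit 5) (nat_lit 60) (nat_lit 4) (nat_lit 532) (nat_lit 462) (nat_lit 206)) (XT.lf (nat_lit 0) (nat_lit 455646096382) (nat_lit 152) (nat_lit 207456285472)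 (nat_lit 0) (nat_lit 24993186661) (nat_lit 58) (nat_lit 5) (nat_lit 60) (nat_lit 4) (nat_lit 58) (nat_lit 4) (nat_lit 533) (nat_lit 462) (nat_lit 205)))))) (XT.nd (nat_lit 624) (nat_lit 456) (nat_lit 0) (XT.nd (nat_lit 312) (nat_lit 304) (nat_lit 0) (XT.nd (nat_lit 156) (nat_lit 152) (nat_lit 0) (XT.nd (nat_lit 78) (nat_lit 76) (nat_lit 0) (XT.lf (nat_lit 0) (nat_lit 223477734499) (nat_lit 76) (nat_lit 459192357607) (nat_lit 76) (nat_lit 28539374390) (nat_lit 57) (nat_lit 4) (nat_lit 58) (nat_lit 5) (nat_lit 58) (nat_lit 4) (nat_lit 534) (nat_lit 462) (nat_lit 204)) (XT.lf (nat_lit 0) (nat_lit 183197841251) (nat_lit 152) (nat_lit 55097478647) (nat_lit 76) (nat_lit 496860334475) (nat_lit 56) (nat_lit 5) (nat_lit 58) (nat_lit 5) (nat_lit 57) (nat_lit 4) (nat_lit 535) (nat_lit 462) (nat_lit 203))) (XT.nd (nat_lit 78) (nat_lit 76) (nat_lit 0) (XT.lf (nat_lit 0) (nat_lit 411007280962) (nat_lit 152)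 (nat_lit 348084801571) (nat_lit 0) (nat_lit 861452510) (nat_lit 55) (nat_lit 5) (nat_lit 57) (nat_lit 4) (nat_lit 55) (nat_lit 4) (nat_lit 536) (nat_lit 462) (nat_lit 202)) (XT.lf (nat_lit 0) (nat_lit 118006483667) (nat_lit 76) (nat_lit 538897927048) (nat_lit 76) (nat_lit 128752038132) (nat_lit 54) (nat_lit 4) (nat_lit 55) (nat_lit 5) (nat_lit 55) (nat_lit 4) (nat_lit 537) (nat_lit 462) (nat_lit 201)))) (XT.nd (nat_lit 156) (nat_lit 152) (nat_lit 0) (XT.nd (nat_lit 78) (nat_lit 76) (nat_lit 0) (XT.lf (nat_lit 0) (nat_lit 105164338341) (nat_lit 152) (nat_lit 194559052901) (nat_lit 76) (nat_lit 512541561544) (nat_lit 53) (nat_lit 5) (nat_lit 55) (nat_lit 5) (nat_lit 54) (nat_lit 4) (nat_lit 538) (nat_lit 462) (nat_lit 200)) (XT.lf (nat_lit 0) (nat_lit 309997431453) (nat_lit 76) (nat_lit 41292047960) (nat_lit 152) (nat_lit 488566875125) (nat_lit 52) (nat_lit 5) (nat_lit 53) (nat_lit 5) (nat_lit 54)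 (nat_lit 4) (nat_lit 539) (nat_lit 462) (nat_lit 199))) (XT.nd (nat_lit 78) (nat_lit 152) (nat_lit 0) (XT.lf (nat_lit 0) (nat_lit 616661669683) (nat_lit 152) (nat_lit 25772236527) (nat_lit 0) (nat_lit 226046380562) (nat_lit 52) (nat_lit 5) (nat_lit 54) (nat_lit 4) (nat_lit 52) (nat_lit 4) (nat_lit 540) (nat_lit 462) (nat_lit 198)) (XT.lf (nat_lit 0) (nat_lit 5801783545) (nat_lit 152) (nat_lit 378721680229) (nat_lit 76) (nat_lit 513567912850) (nat_lit 50) (nat_lit 5) (nat_lit 52) (nat_lit 5) (nat_lit 51) (nat_lit 4) (nat_lit 541) (nat_lit 462) (nat_lit 197))))) (XT.nd (nat_lit 312) (nat_lit 228) (nat_lit 0) (XT.nd (nat_lit 156) (nat_lit 152) (nat_lit 0) (XT.nd (nat_lit 78) (nat_lit 0) (nat_lit 0) (XT.lf (nat_lit 0) (nat_lit 164636207896) (nat_lit 76) (nat_lit 106218226012) (nat_lit 152) (nat_lit 657971479033) (nat_lit 49) (nat_lit 5) (nat_lit 50) (nat_lit 5) (nat_lit 51) (nat_lit 4) (nat_lit 542)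 (nat_lit 462) (nat_lit 196)) (XT.lf (nat_lit 0) (nat_lit 558582646873) (nat_lit 152) (nat_lit 215475425907) (nat_lit 0) (nat_lit 186567956789) (nat_lit 49) (nat_lit 5) (nat_lit 51) (nat_lit 4) (nat_lit 49) (nat_lit 4) (nat_lit 543) (nat_lit 462) (nat_lit 195))) (XT.nd (nat_lit 78) (nat_lit 76) (nat_lit 0) (XT.lf (nat_lit 0) (nat_lit 370801110338) (nat_lit 76) (nat_lit 497426623786) (nat_lit 76) (nat_lit 125411894726) (nat_lit 48) (nat_lit 4) (nat_lit 49) (nat_lit 5) (nat_lit 49) (nat_lit 4) (nat_lit 544) (nat_lit 462) (nat_lit 194)) (XT.lf (nat_lit 0) (nat_lit 163477439551) (nat_lit 152) (nat_lit 36886015099) (nat_lit 76) (nat_lit 827626160877) (nat_lit 47) (nat_lit 5) (nat_lit 49) (nat_lit 5) (nat_lit 48) (nat_lit 4) (nat_lit 545) (nat_lit 462) (nat_lit 193)))) (XT.nd (nat_lit 156) (nat_lit 76) (nat_lit 0) (XT.nd (nat_lit 78) (nat_lit 76) (nat_lit 0) (XT.lf (nat_lit 0) (nat_lit 473819547310) (nat_lit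 152) (nat_lit 470053872828) (nat_lit 0) (nat_lit 119519736326) (nat_lit 46) (nat_lit 5) (nat_lit 48) (nat_lit 4) (nat_lit 46) (nat_lit 4) (nat_lit 546) (nat_lit 462) (nat_lit 192)) (XT.lf (nat_lit 0) (nat_lit 157568990509) (nat_lit 76) (nat_lit 648489373407) (nat_lit 76) (nat_lit 294189530358) (nat_lit 45) (nat_lit 4) (nat_lit 46) (nat_lit 5) (nat_lit 46) (nat_lit 4) (nat_lit 547) (nat_lit 462) (nat_lit 191))) (XT.nd (nat_lit 55848) (nat_lit 0) (nat_lit 9044) (XT.lf (nat_lit 0) (nat_lit 23543843834) (nat_lit 152) (nat_lit 306034993727) (nat_lit 76) (nat_lit 808949517908) (nat_lit 44) (nat_lit 5) (nat_lit 46) (nat_lit 5) (nat_lit 45) (nat_lit 4) (nat_lit 548) (nat_lit 462) (nat_lit 190)) (XT.nd (nat_lit 78) (nat_lit 0) (nat_lit 0) (XT.lf (nat_lit 0) (nat_lit 19385781269) (nat_lit 836) (nat_lit 12249858691) (nat_lit 836) (nat_lit 12249858691) (nat_lit 163) (nat_lit 3) (nat_lit 174) (nat_lit 3) (nat_lit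 174) (nat_lit 5) (nat_lit 463) (nat_lit 463) (nat_lit 274)) (XT.lf (nat_lit 76) (nat_lit 19843083017) (nat_lit 0) (nat_lit 20215931555) (nat_lit 836) (nat_lit 49890348871) (nat_lit 164) (nat_lit 5) (nat_lit 163) (nat_lit 3) (nat_lit 174) (nat_lit 5) (nat_lit 464) (nat_lit 463) (nat_lit 273))))))))
noncomputable def xc420 : XT := (XT.nd (nat_lit 1248) (nat_lit 2812) (nat_lit 0) (XT.nd (nat_lit 624) (nat_lit 1748) (nat_lit 0) (XT.nd (nat_lit 312) (nat_lit 0) (nat_lit 152) (XT.nd (nat_lit 156) (nat_lit 0) (nat_lit 76) (XT.nd (nat_lit 78) (nat_lit 0) (nat_lit 0) (XT.lf (nat_lit 0) (nat_lit 42222218112) (nat_lit 760) (nat_lit 25359624832) (nat_lit 836) (nat_lit 24614236041) (nat_lit 164) (nat_lit 5) (nat_lit 174) (nat_lit 5) (nat_lit 175) (nat_lit 5) (nat_lit 465) (nat_lit 463) (nat_lit 272)) (XT.lf (nat_lit 76) (nat_lit 21996680194) (nat_lit 0) (nat_lit 23171230096) (nat_lit 836) (nat_lit 49353503631)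 (nat_lit 165) (nat_lit 5) (nat_lit 164) (nat_lit 5) (nat_lit 175) (nat_lit 5) (nat_lit 466) (nat_lit 463) (nat_lit 271))) (XT.nd (nat_lit 78) (nat_lit 0) (nat_lit 0) (XT.lf (nat_lit 0) (nat_lit 49063192682) (nat_lit 760) (nat_lit 24713956315) (nat_lit 836) (nat_lit 23145751363) (nat_lit 165) (nat_lit 5) (nat_lit 175) (nat_lit 5) (nat_lit 176) (nat_lit 5) (nat_lit 467) (nat_lit 463) (nat_lit 270)) (XT.lf (nat_lit 76) (nat_lit 25937348132) (nat_lit 0) (nat_lit 28000237678) (nat_lit 836) (nat_lit 45467658016) (nat_lit 166) (nat_lit 5) (nat_lit 165) (nat_lit 5) (nat_lit 176) (nat_lit 5) (nat_lit 468) (nat_lit 463) (nat_lit 269)))) (XT.nd (nat_lit 156) (nat_lit 0) (nat_lit 76) (XT.nd (nat_lit 78) (nat_lit 0) (nat_lit 0) (XT.lf (nat_lit 0) (nat_lit 59793936925) (nat_lit 760) (nat_lit 22332019351) (nat_lit 836) (nat_lit 19848836307) (nat_lit 166) (nat_lit 5) (nat_lit 176) (nat_lit 5) (nat_lit 177) (nat_lit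 5) (nat_lit 469) (nat_lit 463) (nat_lit 268)) (XT.lf (nat_lit 76) (nat_lit 31923051097) (nat_lit 0) (nat_lit 34977059436) (nat_lit 836) (nat_lit 37724858030) (nat_lit 167) (nat_lit 5) (nat_lit 166) (nat_lit 5) (nat_lit 177) (nat_lit 5) (nat_lit 470) (nat_lit 463) (nat_lit 267))) (XT.nd (nat_lit 78) (nat_lit 0) (nat_lit 0) (XT.lf (nat_lit 0) (nat_lit 74972432433) (nat_lit 760) (nat_lit 17955926962) (nat_lit 836) (nat_lit 14448751998) (nat_lit 167) (nat_lit 5) (nat_lit 177) (nat_lit 5) (nat_lit 178) (nat_lit 5) (nat_lit 471) (nat_lit 463) (nat_lit 266)) (XT.lf (nat_lit 76) (nat_lit 40241634872) (nat_lit 0) (nat_lit 44408027225) (nat_lit 836) (nat_lit 25557134713) (nat_lit 168) (nat_lit 5) (nat_lit 167) (nat_lit 5) (nat_lit 178) (nat_lit 5) (nat_lit 472) (nat_lit 463) (nat_lit 265))))) (XT.nd (nat_lit 312) (nat_lit 760) (nat_lit 0) (XT.nd (nat_lit 156) (nat_lit 532) (nat_lit 0) (XT.nd (nat_lit 78)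 (nat_lit 760) (nat_lit 0) (XT.lf (nat_lit 0) (nat_lit 95221539292) (nat_lit 760) (nat_lit 11297696459) (nat_lit 76) (nat_lit 6638191473) (nat_lit 168) (nat_lit 5) (nat_lit 178) (nat_lit 5) (nat_lit 169) (nat_lit 5) (nat_lit 473) (nat_lit 463) (nat_lit 264)) (XT.lf (nat_lit 0) (nat_lit 51213993308) (nat_lit 760) (nat_lit 56635256296) (nat_lit 836) (nat_lit 8329977618) (nat_lit 158) (nat_lit 5) (nat_lit 168) (nat_lit 5) (nat_lit 169) (nat_lit 5) (nat_lit 474) (nat_lit 463) (nat_lit 263))) (XT.nd (nat_lit 78) (nat_lit 456) (nat_lit 0) (XT.lf (nat_lit 0) (nat_lit 1894137742) (nat_lit 836) (nat_lit 2129931400) (nat_lit 76) (nat_lit 115316971129) (nat_lit 157) (nat_lit 5) (nat_lit 168) (nat_lit 5) (nat_lit 158) (nat_lit 5) (nat_lit 475) (nat_lit 463) (nat_lit 262)) (XT.lf (nat_lit 0) (nat_lit 14195506061) (nat_lit 532) (nat_lit 57604668379) (nat_lit 76) (nat_lit 50761642254) (nat_lit 151) (nat_lit 5)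 (nat_lit 158) (nat_lit 5) (nat_lit 152) (nat_lit 5) (nat_lit 476) (nat_lit 463) (nat_lit 261)))) (XT.nd (nat_lit 156) (nat_lit 380) (nat_lit 0) (XT.nd (nat_lit 78) (nat_lit 0) (nat_lit 0) (XT.lf (nat_lit 0) (nat_lit 9776738397) (nat_lit 380) (nat_lit 17590157035) (nat_lit 456) (nat_lit 98563988894) (nat_lit 146) (nat_lit 5) (nat_lit 151) (nat_lit 5) (nat_lit 152) (nat_lit 5) (nat_lit 477) (nat_lit 463) (nat_lit 260)) (XT.lf (nat_lit 0) (nat_lit 42802156782) (nat_lit 456) (nat_lit 47522886685) (nat_lit 76) (nat_lit 39063096768) (nat_lit 146) (nat_lit 5) (nat_lit 152) (nat_lit 5) (nat_lit 147) (nat_lit 5) (nat_lit 478) (nat_lit 463) (nat_lit 259))) (XT.nd (nat_lit 78) (nat_lit 0) (nat_lit 0) (XT.lf (nat_lit 0) (nat_lit 25053115084) (nat_lit 380) (nat_lit 34635283046) (nat_lit 456) (nat_lit 73295899984) (nat_lit 141) (nat_lit 5) (nat_lit 146) (nat_lit 5) (nat_lit 147) (nat_lit 5) (nat_lit 479) (nat_lit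 463) (nat_lit 258)) (XT.lf (nat_lit 0) (nat_lit 78608874792) (nat_lit 456) (nat_lit 34197927644) (nat_lit 76) (nat_lit 23893965307) (nat_lit 141) (nat_lit 5) (nat_lit 147) (nat_lit 5) (nat_lit 142) (nat_lit 5) (nat_lit 480) (nat_lit 463) (nat_lit 257)))))) (XT.nd (nat_lit 624) (nat_lit 1292) (nat_lit 0) (XT.nd (nat_lit 312) (nat_lit 532) (nat_lit 0) (XT.nd (nat_lit 156) (nat_lit 684) (nat_lit 0) (XT.nd (nat_lit 78) (nat_lit 0) (nat_lit 0) (XT.lf (nat_lit 0) (nat_lit 44064222342) (nat_lit 304) (nat_lit 55666637408) (nat_lit 380) (nat_lit 40809426898) (nat_lit 137) (nat_lit 5) (nat_lit 141) (nat_lit 5) (nat_lit 142) (nat_lit 5) (nat_lit 481) (nat_lit 463) (nat_lit 256)) (XT.lf (nat_lit 0) (nat_lit 122564943256) (nat_lit 380) (nat_lit 17193489790) (nat_lit 76) (nat_lit 4780548504) (nat_lit 137) (nat_lit 5) (nat_lit 142) (nat_lit 5) (nat_lit 138) (nat_lit 5) (nat_lit 482) (nat_lit 463) (nat_lit 255)))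 (XT.nd (nat_lit 78) (nat_lit 380) (nat_lit 0) (XT.lf (nat_lit 0) (nat_lit 67294179960) (nat_lit 304) (nat_lit 81209516825) (nat_lit 380) (nat_lit 135766137) (nat_lit 133) (nat_lit 5) (nat_lit 137) (nat_lit 5) (nat_lit 138) (nat_lit 5) (nat_lit 483) (nat_lit 463) (nat_lit 254)) (XT.lf (nat_lit 0) (nat_lit 3421284114) (nat_lit 304) (nat_lit 18992691753) (nat_lit 380) (nat_lit 130495742272) (nat_lit 128) (nat_lit 5) (nat_lit 132) (nat_lit 5) (nat_lit 133) (nat_lit 5) (nat_lit 484) (nat_lit 463) (nat_lit 253)))) (XT.nd (nat_lit 156) (nat_lit 228) (nat_lit 0) (XT.nd (nat_lit 78) (nat_lit 304) (nat_lit 0) (XT.lf (nat_lit 0) (nat_lit 48210023853) (nat_lit 380) (nat_lit 62822838848) (nat_lit 76) (nat_lit 46254343068) (nat_lit 128) (nat_lit 5) (nat_lit 133) (nat_lit 5) (nat_lit 129) (nat_lit 5) (nat_lit 485) (nat_lit 463) (nat_lit 252)) (XT.lf (nat_lit 0) (nat_lit 28785708189) (nat_lit 304) (nat_lit 47270715815)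 (nat_lit 380) (nat_lit 85789116303) (nat_lit 124) (nat_lit 5) (nat_lit 128) (nat_lit 5) (nat_lit 129) (nat_lit 5) (nat_lit 486) (nat_lit 463) (nat_lit 251))) (XT.nd (nat_lit 78) (nat_lit 228) (nat_lit 0) (XT.lf (nat_lit 0) (nat_lit 106683547709) (nat_lit 380) (nat_lit 39747839650) (nat_lit 76) (nat_lit 20130984049) (nat_lit 124) (nat_lit 5) (nat_lit 129) (nat_lit 5) (nat_lit 125) (nat_lit 5) (nat_lit 487) (nat_lit 463) (nat_lit 250)) (XT.lf (nat_lit 0) (nat_lit 59354243211) (nat_lit 228) (nat_lit 81189185053) (nat_lit 304) (nat_lit 30886545778) (nat_lit 121) (nat_lit 5) (nat_lit 124) (nat_lit 5) (nat_lit 125) (nat_lit 5) (nat_lit 488) (nat_lit 463) (nat_lit 249))))) (XT.nd (nat_lit 312) (nat_lit 684) (nat_lit 0) (XT.nd (nat_lit 156) (nat_lit 228) (nat_lit 0) (XT.nd (nat_lit 78) (nat_lit 304) (nat_lit 0) (XT.lf (nat_lit 0) (nat_lit 253549101) (nat_lit 304) (nat_lit 11720295196) (nat_lit 76) (nat_lit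 164533261068) (nat_lit 120) (nat_lit 5) (nat_lit 124) (nat_lit 5) (nat_lit 121) (nat_lit 5) (nat_lit 489) (nat_lit 463) (nat_lit 248)) (XT.lf (nat_lit 0) (nat_lit 34395476087) (nat_lit 380) (nat_lit 86492191205) (nat_lit 76) (nat_lit 60800968241) (nat_lit 116) (nat_lit 5) (nat_lit 121) (nat_lit 5) (nat_lit 117) (nat_lit 5) (nat_lit 490) (nat_lit 463) (nat_lit 247))) (XT.nd (nat_lit 78) (nat_lit 0) (nat_lit 0) (XT.lf (nat_lit 0) (nat_lit 21226149211) (nat_lit 228) (nat_lit 49747586858) (nat_lit 304) (nat_lit 116119044317) (nat_lit 113) (nat_lit 5) (nat_lit 116) (nat_lit 5) (nat_lit 117) (nat_lit 5) (nat_lit 491) (nat_lit 463) (nat_lit 246)) (XT.lf (nat_lit 0) (nat_lit 111259046192) (nat_lit 304) (nat_lit 55774500213) (nat_lit 76) (nat_lit 25639679231) (nat_lit 113) (nat_lit 5) (nat_lit 117) (nat_lit 5) (nat_lit 114) (nat_lit 5) (nat_lit 492) (nat_lit 463) (nat_lit 245)))) (XT.nd (nat_lit 156) (nat_lit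 456) (nat_lit 0) (XT.nd (nat_lit 78) (nat_lit 0) (nat_lit 0) (XT.lf (nat_lit 0) (nat_lit 60957452908) (nat_lit 228) (nat_lit 94368234604) (nat_lit 304) (nat_lit 43118652360) (nat_lit 110) (nat_lit 5) (nat_lit 113) (nat_lit 5) (nat_lit 114) (nat_lit 5) (nat_lit 493) (nat_lit 463) (nat_lit 244)) (XT.lf (nat_lit 0) (nat_lit 185462103377) (nat_lit 228) (nat_lit 17077945159) (nat_lit 304) (nat_lit 1916741909) (nat_lit 110) (nat_lit 5) (nat_lit 113) (nat_lit 5) (nat_lit 114) (nat_lit 5) (nat_lit 494) (nat_lit 463) (nat_lit 243))) (XT.nd (nat_lit 78) (nat_lit 228) (nat_lit 0) (XT.lf (nat_lit 0) (nat_lit 42750427992) (nat_lit 228) (nat_lit 103451075192) (nat_lit 76) (nat_lit 64399661071) (nat_lit 107) (nat_lit 5) (nat_lit 110) (nat_lit 5) (nat_lit 108) (nat_lit 5) (nat_lit 495) (nat_lit 463) (nat_lit 242)) (XT.nd (nat_lit 78) (nat_lit 0) (nat_lit 0) (XT.lf (nat_lit 0) (nat_lit 23665401689) (nat_lit 228)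 (nat_lit 66897375197) (nat_lit 304) (nat_lit 126439596998) (nat_lit 104) (nat_lit 5) (nat_lit 107) (nat_lit 5) (nat_lit 108) (nat_lit 5) (nat_lit 496) (nat_lit 463) (nat_lit 241)) (XT.lf (nat_lit 0) (nat_lit 142801901694) (nat_lit 304) (nat_lit 63191351534) (nat_lit 76) (nat_lit 17628582849) (nat_lit 104) (nat_lit 5) (nat_lit 108) (nat_lit 5) (nat_lit 105) (nat_lit 5) (nat_lit 497) (nat_lit 463) (nat_lit 240))))))))
noncomputable def xc421 : XT := (XT.nd (nat_lit 1248) (nat_lit 1444) (nat_lit 0) (XT.nd (nat_lit 624) (nat_lit 836) (nat_lit 0) (XT.nd (nat_lit 312) (nat_lit 380) (nat_lit 0) (XT.nd (nat_lit 156) (nat_lit 380) (nat_lit 0) (XT.nd (nat_lit 78) (nat_lit 76) (nat_lit 0) (XT.lf (nat_lit 0) (nat_lit 74757321599) (nat_lit 152) (nat_lit 125159349839) (nat_lit 228) (nat_lit 30542415514) (nat_lit 102) (nat_lit 5) (nat_lit 104) (nat_lit 5) (nat_lit 105) (nat_lit 5) (nat_lit 498) (nat_lit 463)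 (nat_lit 239)) (XT.lf (nat_lit 0) (nat_lit 22624433335) (nat_lit 228) (nat_lit 16152567597) (nat_lit 76) (nat_lit 198789452982) (nat_lit 101) (nat_lit 5) (nat_lit 104) (nat_lit 5) (nat_lit 102) (nat_lit 5) (nat_lit 499) (nat_lit 463) (nat_lit 238))) (XT.nd (nat_lit 78) (nat_lit 152) (nat_lit 0) (XT.lf (nat_lit 0) (nat_lit 80371008387) (nat_lit 304) (nat_lit 111585311551) (nat_lit 76) (nat_lit 52900444067) (nat_lit 98) (nat_lit 5) (nat_lit 102) (nat_lit 5) (nat_lit 99) (nat_lit 5) (nat_lit 500) (nat_lit 463) (nat_lit 237)) (XT.lf (nat_lit 0) (nat_lit 38831992635) (nat_lit 152) (nat_lit 103692770433) (nat_lit 228) (nat_lit 109910833993) (nat_lit 96) (nat_lit 5) (nat_lit 98) (nat_lit 5) (nat_lit 99) (nat_lit 5) (nat_lit 501) (nat_lit 463) (nat_lit 236)))) (XT.nd (nat_lit 156) (nat_lit 152) (nat_lit 0) (XT.nd (nat_lit 78) (nat_lit 228) (nat_lit 0) (XT.lf (nat_lit 0) (nat_lit 200643913189) (nat_lit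 152) (nat_lit 9031897052) (nat_lit 228) (nat_lit 50623081297) (nat_lit 96) (nat_lit 5) (nat_lit 98) (nat_lit 5) (nat_lit 99) (nat_lit 5) (nat_lit 502) (nat_lit 463) (nat_lit 235)) (XT.lf (nat_lit 0) (nat_lit 14339498772) (nat_lit 228) (nat_lit 164729314927) (nat_lit 76) (nat_lit 89323326820) (nat_lit 93) (nat_lit 5) (nat_lit 96) (nat_lit 5) (nat_lit 94) (nat_lit 5) (nat_lit 503) (nat_lit 463) (nat_lit 234))) (XT.nd (nat_lit 78) (nat_lit 152) (nat_lit 0) (XT.lf (nat_lit 0) (nat_lit 82023712214) (nat_lit 228) (nat_lit 616678304) (nat_lit 76) (nat_lit 194149428516) (nat_lit 93) (nat_lit 5) (nat_lit 96) (nat_lit 5) (nat_lit 94) (nat_lit 5) (nat_lit 504) (nat_lit 463) (nat_lit 233)) (XT.lf (nat_lit 0) (nat_lit 156197323818) (nat_lit 228) (nat_lit 108426273330) (nat_lit 76) (nat_lit 20828524956) (nat_lit 91) (nat_lit 5) (nat_lit 94) (nat_lit 5) (nat_lit 92) (nat_lit 5) (nat_lit 505) (nat_lit 463) (nat_lit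 232))))) (XT.nd (nat_lit 312) (nat_lit 304) (nat_lit 0) (XT.nd (nat_lit 156) (nat_lit 304) (nat_lit 0) (XT.nd (nat_lit 78) (nat_lit 76) (nat_lit 0) (XT.lf (nat_lit 0) (nat_lit 69907204768) (nat_lit 152) (nat_lit 166629102257) (nat_lit 228) (nat_lit 57888398755) (nat_lit 89) (nat_lit 5) (nat_lit 91) (nat_lit 5) (nat_lit 92) (nat_lit 5) (nat_lit 506) (nat_lit 463) (nat_lit 231)) (XT.lf (nat_lit 0) (nat_lit 18366954816) (nat_lit 228) (nat_lit 43128902360) (nat_lit 76) (nat_lit 242243443287) (nat_lit 88) (nat_lit 5) (nat_lit 91) (nat_lit 5) (nat_lit 89) (nat_lit 5) (nat_lit 507) (nat_lit 463) (nat_lit 230))) (XT.nd (nat_lit 78) (nat_lit 152) (nat_lit 0) (XT.lf (nat_lit 0) (nat_lit 99668121227) (nat_lit 228) (nat_lit 162951863667) (nat_lit 76) (nat_lit 50693266735) (nat_lit 86) (nat_lit 5) (nat_lit 89) (nat_lit 5) (nat_lit 87) (nat_lit 5) (nat_lit 508) (nat_lit 463) (nat_lit 229)) (XT.lf (nat_lit 0)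 (nat_lit 31688048035) (nat_lit 152) (nat_lit 155591425119) (nat_lit 228) (nat_lit 135974170842) (nat_lit 84) (nat_lit 5) (nat_lit 86) (nat_lit 5) (nat_lit 87) (nat_lit 5) (nat_lit 509) (nat_lit 463) (nat_lit 228)))) (XT.nd (nat_lit 156) (nat_lit 152) (nat_lit 0) (XT.nd (nat_lit 78) (nat_lit 152) (nat_lit 0) (XT.lf (nat_lit 0) (nat_lit 241717063885) (nat_lit 152) (nat_lit 40313876433) (nat_lit 228) (nat_lit 51522138285) (nat_lit 84) (nat_lit 5) (nat_lit 86) (nat_lit 5) (nat_lit 87) (nat_lit 5) (nat_lit 510) (nat_lit 463) (nat_lit 227)) (XT.lf (nat_lit 0) (nat_lit 39156105150) (nat_lit 152) (nat_lit 224366552069) (nat_lit 76) (nat_lit 80656188939) (nat_lit 82) (nat_lit 5) (nat_lit 84) (nat_lit 5) (nat_lit 83) (nat_lit 5) (nat_lit 511) (nat_lit 463) (nat_lit 226))) (XT.nd (nat_lit 78) (nat_lit 152) (nat_lit 0) (XT.lf (nat_lit 0) (nat_lit 134878330035) (nat_lit 152) (nat_lit 11557992283) (nat_lit 76)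 (nat_lit 208745270965) (nat_lit 82) (nat_lit 5) (nat_lit 84) (nat_lit 5) (nat_lit 83) (nat_lit 5) (nat_lit 512) (nat_lit 463) (nat_lit 225)) (XT.lf (nat_lit 0) (nat_lit 218896865062) (nat_lit 152) (nat_lit 19907284046) (nat_lit 228) (nat_lit 127759454512) (nat_lit 80) (nat_lit 5) (nat_lit 82) (nat_lit 5) (nat_lit 83) (nat_lit 5) (nat_lit 513) (nat_lit 463) (nat_lit 224)))))) (XT.nd (nat_lit 624) (nat_lit 760) (nat_lit 0) (XT.nd (nat_lit 312) (nat_lit 304) (nat_lit 0) (XT.nd (nat_lit 156) (nat_lit 228) (nat_lit 0) (XT.nd (nat_lit 78) (nat_lit 76) (nat_lit 0) (XT.lf (nat_lit 0) (nat_lit 83682317010) (nat_lit 76) (nat_lit 267512735019) (nat_lit 152) (nat_lit 27156222802) (nat_lit 79) (nat_lit 5) (nat_lit 80) (nat_lit 5) (nat_lit 81) (nat_lit 4) (nat_lit 514) (nat_lit 463) (nat_lit 223)) (XT.lf (nat_lit 0) (nat_lit 78833455110) (nat_lit 152) (nat_lit 60470600943) (nat_lit 76) (nat_lit 251219608917)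 (nat_lit 78) (nat_lit 5) (nat_lit 80) (nat_lit 5) (nat_lit 79) (nat_lit 5) (nat_lit 515) (nat_lit 463) (nat_lit 222))) (XT.nd (nat_lit 78) (nat_lit 76) (nat_lit 0) (XT.lf (nat_lit 0) (nat_lit 191108981690) (nat_lit 152) (nat_lit 1084650797) (nat_lit 228) (nat_lit 210939600794) (nat_lit 76) (nat_lit 5) (nat_lit 78) (nat_lit 5) (nat_lit 79) (nat_lit 5) (nat_lit 516) (nat_lit 463) (nat_lit 221)) (XT.lf (nat_lit 0) (nat_lit 40061142121) (nat_lit 76) (nat_lit 275075884839) (nat_lit 152) (nat_lit 101040492639) (nat_lit 75) (nat_lit 5) (nat_lit 76) (nat_lit 5) (nat_lit 77) (nat_lit 4) (nat_lit 517) (nat_lit 463) (nat_lit 220)))) (XT.nd (nat_lit 156) (nat_lit 76) (nat_lit 0) (XT.nd (nat_lit 78) (nat_lit 152) (nat_lit 0) (XT.lf (nat_lit 0) (nat_lit 17561442972) (nat_lit 152) (nat_lit 117883610016) (nat_lit 76) (nat_lit 294234398476) (nat_lit 74) (nat_lit 5) (nat_lit 76) (nat_lit 5) (nat_lit 75) (nat_lit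 5) (nat_lit 518) (nat_lit 463) (nat_lit 219)) (XT.lf (nat_lit 0) (nat_lit 141384575146) (nat_lit 228) (nat_lit 287276061814) (nat_lit 76) (nat_lit 14978686742) (nat_lit 72) (nat_lit 5) (nat_lit 75) (nat_lit 5) (nat_lit 73) (nat_lit 4) (nat_lit 519) (nat_lit 463) (nat_lit 218))) (XT.nd (nat_lit 78) (nat_lit 76) (nat_lit 0) (XT.lf (nat_lit 0) (nat_lit 275648321279) (nat_lit 228) (nat_lit 12035559118) (nat_lit 76) (nat_lit 170400836291) (nat_lit 72) (nat_lit 5) (nat_lit 75) (nat_lit 5) (nat_lit 73) (nat_lit 4) (nat_lit 520) (nat_lit 463) (nat_lit 217)) (XT.lf (nat_lit 0) (nat_lit 286124568778) (nat_lit 76) (nat_lit 134967799500) (nat_lit 152) (nat_lit 51936655367) (nat_lit 71) (nat_lit 5) (nat_lit 72) (nat_lit 5) (nat_lit 73) (nat_lit 4) (nat_lit 521) (nat_lit 463) (nat_lit 216))))) (XT.nd (nat_lit 312) (nat_lit 304) (nat_lit 0) (XT.nd (nat_lit 156) (nat_lit 228) (nat_lit 0) (XT.nd (nat_lit 78) (nat_lit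 0) (nat_lit 0) (XT.lf (nat_lit 0) (nat_lit 84789488957) (nat_lit 228) (nat_lit 375814830135) (nat_lit 76) (nat_lit 27928565349) (nat_lit 68) (nat_lit 5) (nat_lit 71) (nat_lit 5) (nat_lit 69) (nat_lit 4) (nat_lit 522) (nat_lit 463) (nat_lit 215)) (XT.lf (nat_lit 0) (nat_lit 232036230965) (nat_lit 228) (nat_lit 73959154536) (nat_lit 76) (nat_lit 198502496617) (nat_lit 68) (nat_lit 5) (nat_lit 71) (nat_lit 5) (nat_lit 69) (nat_lit 4) (nat_lit 523) (nat_lit 463) (nat_lit 214))) (XT.nd (nat_lit 78) (nat_lit 152) (nat_lit 0) (XT.lf (nat_lit 0) (nat_lit 251023457644) (nat_lit 76) (nat_lit 139540944426) (nat_lit 152) (nat_lit 130500773008) (nat_lit 67) (nat_lit 5) (nat_lit 68) (nat_lit 5) (nat_lit 69) (nat_lit 4) (nat_lit 524) (nat_lit 463) (nat_lit 213)) (XT.lf (nat_lit 0) (nat_lit 20732812778) (nat_lit 152) (nat_lit 480958399126) (nat_lit 76) (nat_lit 36616701528) (nat_lit 65) (nat_lit 5) (nat_lit 67)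 (nat_lit 5) (nat_lit 66) (nat_lit 4) (nat_lit 525) (nat_lit 463) (nat_lit 212)))) (XT.nd (nat_lit 156) (nat_lit 228) (nat_lit 0) (XT.nd (nat_lit 78) (nat_lit 76) (nat_lit 0) (XT.lf (nat_lit 0) (nat_lit 182078124639) (nat_lit 152) (nat_lit 150200629528) (nat_lit 76) (nat_lit 223680280268) (nat_lit 65) (nat_lit 5) (nat_lit 67) (nat_lit 5) (nat_lit 66) (nat_lit 4) (nat_lit 526) (nat_lit 463) (nat_lit 211)) (XT.lf (nat_lit 0) (nat_lit 203611716828) (nat_lit 76) (nat_lit 151057851894) (nat_lit 152) (nat_lit 219664199433) (nat_lit 64) (nat_lit 5) (nat_lit 65) (nat_lit 5) (nat_lit 66) (nat_lit 4) (nat_lit 527) (nat_lit 463) (nat_lit 210))) (XT.nd (nat_lit 78) (nat_lit 228) (nat_lit 0) (XT.lf (nat_lit 0) (nat_lit 539088321204) (nat_lit 152) (nat_lit 13825002336) (nat_lit 0) (nat_lit 40554028214) (nat_lit 64) (nat_lit 5) (nat_lit 66) (nat_lit 4) (nat_lit 64) (nat_lit 4) (nat_lit 528) (nat_lit 463) (nat_lit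 209)) (XT.nd (nat_lit 78) (nat_lit 76) (nat_lit 0) (XT.lf (nat_lit 0) (nat_lit 123749146180) (nat_lit 152) (nat_lit 244848641812) (nat_lit 76) (nat_lit 244447150032) (nat_lit 62) (nat_lit 5) (nat_lit 64) (nat_lit 5) (nat_lit 63) (nat_lit 4) (nat_lit 529) (nat_lit 463) (nat_lit 208)) (XT.lf (nat_lit 0) (nat_lit 139787561593) (nat_lit 76) (nat_lit 171589046638) (nat_lit 152) (nat_lit 322059203976) (nat_lit 61) (nat_lit 5) (nat_lit 62) (nat_lit 5) (nat_lit 63) (nat_lit 4) (nat_lit 530) (nat_lit 463) (nat_lit 207))))))))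
noncomputable def xc422 : XT := (XT.nd (nat_lit 1248) (nat_lit 152) (nat_lit 0) (XT.nd (nat_lit 624) (nat_lit 532) (nat_lit 0) (XT.nd (nat_lit 312) (nat_lit 304) (nat_lit 0) (XT.nd (nat_lit 156) (nat_lit 76) (nat_lit 0) (XT.nd (nat_lit 78) (nat_lit 152) (nat_lit 0) (XT.lf (nat_lit 0) (nat_lit 513150638601) (nat_lit 152) (nat_lit 103101526105) (nat_lit 0) (nat_lit 38355805633) (nat_lit 61) (nat_lit 5) (nat_lit 63) (nat_lit 4) (nat_lit 61) (nat_lit 4) (nat_lit 531) (nat_lit 463) (nat_lit 206)) (XT.lf (nat_lit 0) (nat_lit 54477938766) (nat_lit 152) (nat_lit 363115139525) (nat_lit 76) (nat_lit 258815791346) (nat_lit 59) (nat_lit 5) (nat_lit 61) (nat_lit 5) (nat_lit 60) (nat_lit 4) (nat_lit 532) (nat_lit 463) (nat_lit 205))) (XT.nd (nat_lit 78) (nat_lit 0) (nat_lit 0) (XT.lf (nat_lit 0) (nat_lit 54264761143) (nat_lit 76) (nat_lit 203813166812) (nat_lit 152) (nat_lit 440974844858) (nat_lit 58) (nat_lit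 5) (nat_lit 59) (nat_lit 5) (nat_lit 60) (nat_lit 4) (nat_lit 533) (nat_lit 463) (nat_lit 204)) (XT.lf (nat_lit 0) (nat_lit 478430679099) (nat_lit 152) (nat_lit 217824650692) (nat_lit 0) (nat_lit 26244903231) (nat_lit 58) (nat_lit 5) (nat_lit 60) (nat_lit 4) (nat_lit 58) (nat_lit 4) (nat_lit 534) (nat_lit 463) (nat_lit 203)))) (XT.nd (nat_lit 156) (nat_lit 152) (nat_lit 0) (XT.nd (nat_lit 78) (nat_lit 76) (nat_lit 0) (XT.lf (nat_lit 0) (nat_lit 234655998518) (nat_lit 76) (nat_lit 482149835962) (nat_lit 76) (nat_lit 29963993431) (nat_lit 57) (nat_lit 4) (nat_lit 58) (nat_lit 5) (nat_lit 58) (nat_lit 4) (nat_lit 535) (nat_lit 463) (nat_lit 202)) (XT.lf (nat_lit 0) (nat_lit 192359899479) (nat_lit 152) (nat_lit 57848112086) (nat_lit 76) (nat_lit 521705317199) (nat_lit 56) (nat_lit 5) (nat_lit 58) (nat_lit 5) (nat_lit 57) (nat_lit 4) (nat_lit 536) (nat_lit 463) (nat_lit 201))) (XT.nd (nat_lit 78) (nat_lit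 76) (nat_lit 0) (XT.lf (nat_lit 0) (nat_lit 431559805075) (nat_lit 152) (nat_lit 365484795037) (nat_lit 0) (nat_lit 906503662) (nat_lit 55) (nat_lit 5) (nat_lit 57) (nat_lit 4) (nat_lit 55) (nat_lit 4) (nat_lit 537) (nat_lit 463) (nat_lit 200)) (XT.lf (nat_lit 0) (nat_lit 123910985969) (nat_lit 76) (nat_lit 565840767719) (nat_lit 76) (nat_lit 135187411462) (nat_lit 54) (nat_lit 4) (nat_lit 55) (nat_lit 5) (nat_lit 55) (nat_lit 4) (nat_lit 538) (nat_lit 463) (nat_lit 199))))) (XT.nd (nat_lit 312) (nat_lit 228) (nat_lit 0) (XT.nd (nat_lit 156) (nat_lit 152) (nat_lit 0) (XT.nd (nat_lit 78) (nat_lit 76) (nat_lit 0) (XT.lf (nat_lit 0) (nat_lit 110424609780) (nat_lit 152) (nat_lit 204282958438) (nat_lit 76) (nat_lit 538170529466) (nat_lit 53) (nat_lit 5) (nat_lit 55) (nat_lit 5) (nat_lit 54) (nat_lit 4) (nat_lit 539) (nat_lit 463) (nat_lit 198)) (XT.lf (nat_lit 0) (nat_lit 325501284858) (nat_lit 76)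 (nat_lit 43354687380) (nat_lit 152) (nat_lit 512993099069) (nat_lit 52) (nat_lit 5) (nat_lit 53) (nat_lit 5) (nat_lit 54) (nat_lit 4) (nat_lit 540) (nat_lit 463) (nat_lit 197))) (XT.nd (nat_lit 78) (nat_lit 152) (nat_lit 0) (XT.lf (nat_lit 0) (nat_lit 647496705074) (nat_lit 152) (nat_lit 27056989170) (nat_lit 0) (nat_lit 237350509257) (nat_lit 52) (nat_lit 5) (nat_lit 54) (nat_lit 4) (nat_lit 52) (nat_lit 4) (nat_lit 541) (nat_lit 463) (nat_lit 196)) (XT.lf (nat_lit 0) (nat_lit 6093822422) (nat_lit 152) (nat_lit 397653902823) (nat_lit 76) (nat_lit 539248122712) (nat_lit 50) (nat_lit 5) (nat_lit 52) (nat_lit 5) (nat_lit 51) (nat_lit 4) (nat_lit 542) (nat_lit 463) (nat_lit 195)))) (XT.nd (nat_lit 156) (nat_lit 152) (nat_lit 0) (XT.nd (nat_lit 78) (nat_lit 0) (nat_lit 0) (XT.lf (nat_lit 0) (nat_lit 172871817427) (nat_lit 76) (nat_lit 111527254348) (nat_lit 152) (nat_lit 690868040992) (nat_lit 49)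 (nat_lit 5) (nat_lit 50) (nat_lit 5) (nat_lit 51) (nat_lit 4) (nat_lit 543) (nat_lit 463) (nat_lit 194)) (XT.lf (nat_lit 0) (nat_lit 586513632141) (nat_lit 152) (nat_lit 226245515718) (nat_lit 0) (nat_lit 195898090532) (nat_lit 49) (nat_lit 5) (nat_lit 51) (nat_lit 4) (nat_lit 49) (nat_lit 4) (nat_lit 544) (nat_lit 463) (nat_lit 193))) (XT.nd (nat_lit 78) (nat_lit 76) (nat_lit 0) (XT.lf (nat_lit 0) (nat_lit 389344787961) (nat_lit 76) (nat_lit 522296154110) (nat_lit 76) (nat_lit 131680577148) (nat_lit 48) (nat_lit 4) (nat_lit 49) (nat_lit 5) (nat_lit 49) (nat_lit 4) (nat_lit 545) (nat_lit 463) (nat_lit 192)) (XT.lf (nat_lit 0) (nat_lit 171653074489) (nat_lit 152) (nat_lit 38726807928) (nat_lit 76) (nat_lit 869009125729) (nat_lit 47) (nat_lit 5) (nat_lit 49) (nat_lit 5) (nat_lit 48) (nat_lit 4) (nat_lit 546) (nat_lit 463) (nat_lit 191)))))) (XT.nd (nat_lit 56472) (nat_lit 0) (nat_lit 7676) (XT.nd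 (nat_lit 56160) (nat_lit 0) (nat_lit 9044) (XT.nd (nat_lit 56004) (nat_lit 0) (nat_lit 8968) (XT.nd (nat_lit 78) (nat_lit 76) (nat_lit 0) (XT.lf (nat_lit 0) (nat_lit 497512284400) (nat_lit 152) (nat_lit 493553055298) (nat_lit 0) (nat_lit 125497386593) (nat_lit 46) (nat_lit 5) (nat_lit 48) (nat_lit 4) (nat_lit 46) (nat_lit 4) (nat_lit 547) (nat_lit 463) (nat_lit 190)) (XT.lf (nat_lit 0) (nat_lit 165450894574) (nat_lit 76) (nat_lit 680912117401) (nat_lit 76) (nat_lit 308897190510) (nat_lit 45) (nat_lit 4) (nat_lit 46) (nat_lit 5) (nat_lit 46) (nat_lit 4) (nat_lit 548) (nat_lit 463) (nat_lit 189))) (XT.nd (nat_lit 78) (nat_lit 0) (nat_lit 0) (XT.lf (nat_lit 0) (nat_lit 20363296693) (nat_lit 836) (nat_lit 12858032469) (nat_lit 836) (nat_lit 12858032469) (nat_lit 163) (nat_lit 3) (nat_lit 174) (nat_lit 3) (nat_lit 174) (nat_lit 5) (nat_lit 464) (nat_lit 464) (nat_lit 272)) (XT.lf (nat_lit 76) (nat_lit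 20843736153) (nat_lit 0) (nat_lit 21234031098) (nat_lit 836) (nat_lit 52368273056) (nat_lit 164) (nat_lit 5) (nat_lit 163) (nat_lit 3) (nat_lit 174) (nat_lit 5) (nat_lit 465) (nat_lit 464) (nat_lit 271)))) (XT.nd (nat_lit 156) (nat_lit 0) (nat_lit 76) (XT.nd (nat_lit 78) (nat_lit 0) (nat_lit 0) (XT.lf (nat_lit 0) (nat_lit 44348269904) (nat_lit 760) (nat_lit 26618649586) (nat_lit 836) (nat_lit 25838215248) (nat_lit 164) (nat_lit 5) (nat_lit 174) (nat_lit 5) (nat_lit 175) (nat_lit 5) (nat_lit 466) (nat_lit 464) (nat_lit 270)) (XT.lf (nat_lit 76) (nat_lit 23105326232) (nat_lit 0) (nat_lit 24335346568) (nat_lit 836) (nat_lit 51806092369) (nat_lit 165) (nat_lit 5) (nat_lit 164) (nat_lit 5) (nat_lit 175) (nat_lit 5) (nat_lit 467) (nat_lit 464) (nat_lit 269))) (XT.nd (nat_lit 78) (nat_lit 0) (nat_lit 0) (XT.lf (nat_lit 0) (nat_lit 51529952571) (nat_lit 760) (nat_lit 25940493937) (nat_lit 836) (nat_lit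 24297917813) (nat_lit 165) (nat_lit 5) (nat_lit 175) (nat_lit 5) (nat_lit 176) (nat_lit 5) (nat_lit 468) (nat_lit 464) (nat_lit 268)) (XT.lf (nat_lit 76) (nat_lit 27243227988) (nat_lit 0) (nat_lit 29404330446) (nat_lit 836) (nat_lit 47727291922) (nat_lit 166) (nat_lit 5) (nat_lit 165) (nat_lit 5) (nat_lit 176) (nat_lit 5) (nat_lit 469) (nat_lit 464) (nat_lit 267))))) (XT.nd (nat_lit 312) (nat_lit 1520) (nat_lit 0) (XT.nd (nat_lit 156) (nat_lit 0) (nat_lit 76) (XT.nd (nat_lit 78) (nat_lit 0) (nat_lit 0) (XT.lf (nat_lit 0) (nat_lit 62796042933) (nat_lit 760) (nat_lit 23439351914) (nat_lit 836) (nat_lit 20837515960) (nat_lit 166) (nat_lit 5) (nat_lit 176) (nat_lit 5) (nat_lit 177) (nat_lit 5) (nat_lit 470) (nat_lit 464) (nat_lit 266)) (XT.lf (nat_lit 76) (nat_lit 33528322566) (nat_lit 0) (nat_lit 36728754115) (nat_lit 836) (nat_lit 39598541378) (nat_lit 167) (nat_lit 5) (nat_lit 166) (nat_lit 5) (nat_lit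 177) (nat_lit 5) (nat_lit 471) (nat_lit 464) (nat_lit 265))) (XT.nd (nat_lit 78) (nat_lit 0) (nat_lit 0) (XT.lf (nat_lit 0) (nat_lit 78732402868) (nat_lit 760) (nat_lit 18844425963) (nat_lit 836) (nat_lit 15168569832) (nat_lit 167) (nat_lit 5) (nat_lit 177) (nat_lit 5) (nat_lit 178) (nat_lit 5) (nat_lit 472) (nat_lit 464) (nat_lit 264)) (XT.lf (nat_lit 76) (nat_lit 42262864006) (nat_lit 0) (nat_lit 46630232406) (nat_lit 836) (nat_lit 26823491860) (nat_lit 168) (nat_lit 5) (nat_lit 167) (nat_lit 5) (nat_lit 178) (nat_lit 5) (nat_lit 473) (nat_lit 464) (nat_lit 263)))) (XT.nd (nat_lit 156) (nat_lit 912) (nat_lit 0) (XT.nd (nat_lit 78) (nat_lit 760) (nat_lit 0) (XT.lf (nat_lit 0) (nat_lit 99993019159) (nat_lit 760) (nat_lit 11853320395) (nat_lit 76) (nat_lit 6968438107) (nat_lit 168) (nat_lit 5) (nat_lit 178) (nat_lit 5) (nat_lit 169) (nat_lit 5) (nat_lit 474) (nat_lit 464) (nat_lit 262)) (XT.lf (nat_lit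 0) (nat_lit 53783804492) (nat_lit 760) (nat_lit 59467957375) (nat_lit 836) (nat_lit 8735923485) (nat_lit 158) (nat_lit 5) (nat_lit 168) (nat_lit 5) (nat_lit 169) (nat_lit 5) (nat_lit 475) (nat_lit 464) (nat_lit 261))) (XT.nd (nat_lit 78) (nat_lit 836) (nat_lit 0) (XT.lf (nat_lit 0) (nat_lit 1998573440) (nat_lit 836) (nat_lit 2227427982) (nat_lit 76) (nat_lit 121081603749) (nat_lit 157) (nat_lit 5) (nat_lit 168) (nat_lit 5) (nat_lit 158) (nat_lit 5) (nat_lit 476) (nat_lit 464) (nat_lit 260)) (XT.nd (nat_lit 78) (nat_lit 380) (nat_lit 0) (XT.lf (nat_lit 0) (nat_lit 14914676576) (nat_lit 532) (nat_lit 60475567569) (nat_lit 76) (nat_lit 53299192981) (nat_lit 151) (nat_lit 5) (nat_lit 158) (nat_lit 5) (nat_lit 152) (nat_lit 5) (nat_lit 477) (nat_lit 464) (nat_lit 259)) (XT.lf (nat_lit 0) (nat_lit 10274758993) (nat_lit 380) (nat_lit 18469572414) (nat_lit 456) (nat_lit 103482641964) (nat_lit 146) (nat_lit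 5) (nat_lit 151) (nat_lit 5) (nat_lit 152) (nat_lit 5) (nat_lit 478) (nat_lit 464) (nat_lit 258))))))))
noncomputable def xc423 : XT := (XT.nd (nat_lit 1248) (nat_lit 1976) (nat_lit 0) (XT.nd (nat_lit 624) (nat_lit 1368) (nat_lit 0) (XT.nd (nat_lit 312) (nat_lit 684) (nat_lit 0) (XT.nd (nat_lit 156) (nat_lit 304) (nat_lit 0) (XT.nd (nat_lit 78) (nat_lit 380) (nat_lit 0) (XT.lf (nat_lit 0) (nat_lit 44950924286) (nat_lit 456) (nat_lit 49889852539) (nat_lit 76) (nat_lit 41016336857) (nat_lit 146) (nat_lit 5) (nat_lit 152) (nat_lit 5) (nat_lit 147) (nat_lit 5) (nat_lit 479) (nat_lit 464) (nat_lit 257)) (XT.lf (nat_lit 0) (nat_lit 26314801278) (nat_lit 380) (nat_lit 36366405049) (nat_lit 456) (nat_lit 76951886725) (nat_lit 141) (nat_lit 5) (nat_lit 146) (nat_lit 5) (nat_lit 147) (nat_lit 5) (nat_lit 480) (nat_lit 464) (nat_lit 256))) (XT.nd (nat_lit 78) (nat_lit 304) (nat_lit 0) (XT.lf (nat_lit 0) (nat_lit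 82547316927) (nat_lit 456) (nat_lit 35898833186) (nat_lit 76) (nat_lit 25089255569) (nat_lit 141) (nat_lit 5) (nat_lit 147) (nat_lit 5) (nat_lit 142) (nat_lit 5) (nat_lit 481) (nat_lit 464) (nat_lit 255)) (XT.lf (nat_lit 0) (nat_lit 46276279286) (nat_lit 304) (nat_lit 58448879079) (nat_lit 380) (nat_lit 42841754331) (nat_lit 137) (nat_lit 5) (nat_lit 141) (nat_lit 5) (nat_lit 142) (nat_lit 5) (nat_lit 482) (nat_lit 464) (nat_lit 254)))) (XT.nd (nat_lit 156) (nat_lit 380) (nat_lit 0) (XT.nd (nat_lit 78) (nat_lit 304) (nat_lit 0) (XT.lf (nat_lit 0) (nat_lit 128700592942) (nat_lit 380) (nat_lit 18044386099) (nat_lit 76) (nat_lit 5020580983) (nat_lit 137) (nat_lit 5) (nat_lit 142) (nat_lit 5) (nat_lit 138) (nat_lit 5) (nat_lit 483) (nat_lit 464) (nat_lit 253)) (XT.lf (nat_lit 0) (nat_lit 70667525555) (nat_lit 304) (nat_lit 85268540933) (nat_lit 380) (nat_lit 135009882) (nat_lit 133) (nat_lit 5) (nat_lit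 137) (nat_lit 5) (nat_lit 138) (nat_lit 5) (nat_lit 484) (nat_lit 464) (nat_lit 252))) (XT.nd (nat_lit 78) (nat_lit 0) (nat_lit 0) (XT.lf (nat_lit 0) (nat_lit 3601083622) (nat_lit 304) (nat_lit 19940682743) (nat_lit 380) (nat_lit 137013082681) (nat_lit 128) (nat_lit 5) (nat_lit 132) (nat_lit 5) (nat_lit 133) (nat_lit 5) (nat_lit 485) (nat_lit 464) (nat_lit 251)) (XT.lf (nat_lit 0) (nat_lit 50627303491) (nat_lit 380) (nat_lit 65955347800) (nat_lit 76) (nat_lit 48568575451) (nat_lit 128) (nat_lit 5) (nat_lit 133) (nat_lit 5) (nat_lit 129) (nat_lit 5) (nat_lit 486) (nat_lit 464) (nat_lit 250))))) (XT.nd (nat_lit 312) (nat_lit 760) (nat_lit 0) (XT.nd (nat_lit 156) (nat_lit 304) (nat_lit 0) (XT.nd (nat_lit 78) (nat_lit 0) (nat_lit 0) (XT.lf (nat_lit 0) (nat_lit 30233487348) (nat_lit 304) (nat_lit 49632346130) (nat_lit 380) (nat_lit 90071654056) (nat_lit 124) (nat_lit 5) (nat_lit 128) (nat_lit 5) (nat_lit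 129) (nat_lit 5) (nat_lit 487) (nat_lit 464) (nat_lit 249)) (XT.lf (nat_lit 0) (nat_lit 112024027973) (nat_lit 380) (nat_lit 41726856596) (nat_lit 76) (nat_lit 21139289908) (nat_lit 124) (nat_lit 5) (nat_lit 129) (nat_lit 5) (nat_lit 125) (nat_lit 5) (nat_lit 488) (nat_lit 464) (nat_lit 248))) (XT.nd (nat_lit 78) (nat_lit 76) (nat_lit 0) (XT.lf (nat_lit 0) (nat_lit 62330195326) (nat_lit 228) (nat_lit 85246535741) (nat_lit 304) (nat_lit 32424434767) (nat_lit 121) (nat_lit 5) (nat_lit 124) (nat_lit 5) (nat_lit 125) (nat_lit 5) (nat_lit 489) (nat_lit 464) (nat_lit 247)) (XT.lf (nat_lit 0) (nat_lit 272162018) (nat_lit 304) (nat_lit 12298265818) (nat_lit 76) (nat_lit 172761735716) (nat_lit 120) (nat_lit 5) (nat_lit 124) (nat_lit 5) (nat_lit 121) (nat_lit 5) (nat_lit 490) (nat_lit 464) (nat_lit 246)))) (XT.nd (nat_lit 156) (nat_lit 228) (nat_lit 0) (XT.nd (nat_lit 78) (nat_lit 228) (nat_lit 0) (XT.lf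 (nat_lit 0) (nat_lit 36121059657) (nat_lit 380) (nat_lit 90808630639) (nat_lit 76) (nat_lit 63843086231) (nat_lit 116) (nat_lit 5) (nat_lit 121) (nat_lit 5) (nat_lit 117) (nat_lit 5) (nat_lit 491) (nat_lit 464) (nat_lit 245)) (XT.lf (nat_lit 0) (nat_lit 22295495022) (nat_lit 228) (nat_lit 52232586463) (nat_lit 304) (nat_lit 121919054711) (nat_lit 113) (nat_lit 5) (nat_lit 116) (nat_lit 5) (nat_lit 117) (nat_lit 5) (nat_lit 492) (nat_lit 464) (nat_lit 244))) (XT.nd (nat_lit 78) (nat_lit 228) (nat_lit 0) (XT.lf (nat_lit 0) (nat_lit 116827423041) (nat_lit 304) (nat_lit 58555335313) (nat_lit 76) (nat_lit 26923857070) (nat_lit 113) (nat_lit 5) (nat_lit 117) (nat_lit 5) (nat_lit 114) (nat_lit 5) (nat_lit 493) (nat_lit 464) (nat_lit 243)) (XT.lf (nat_lit 0) (nat_lit 64013088207) (nat_lit 228) (nat_lit 99084171105) (nat_lit 304) (nat_lit 45269032928) (nat_lit 110) (nat_lit 5) (nat_lit 113) (nat_lit 5)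 (nat_lit 114) (nat_lit 5) (nat_lit 494) (nat_lit 464) (nat_lit 242)))))) (XT.nd (nat_lit 624) (nat_lit 912) (nat_lit 0) (XT.nd (nat_lit 312) (nat_lit 608) (nat_lit 0) (XT.nd (nat_lit 156) (nat_lit 228) (nat_lit 0) (XT.nd (nat_lit 78) (nat_lit 228) (nat_lit 0) (XT.lf (nat_lit 0) (nat_lit 194742601550) (nat_lit 228) (nat_lit 17929485056) (nat_lit 304) (nat_lit 2007291339) (nat_lit 110) (nat_lit 5) (nat_lit 113) (nat_lit 5) (nat_lit 114) (nat_lit 5) (nat_lit 495) (nat_lit 464) (nat_lit 241)) (XT.lf (nat_lit 0) (nat_lit 44892978498) (nat_lit 228) (nat_lit 108615976938) (nat_lit 76) (nat_lit 67622015358) (nat_lit 107) (nat_lit 5) (nat_lit 110) (nat_lit 5) (nat_lit 108) (nat_lit 5) (nat_lit 496) (nat_lit 464) (nat_lit 240))) (XT.nd (nat_lit 78) (nat_lit 0) (nat_lit 0) (XT.lf (nat_lit 0) (nat_lit 24856200367) (nat_lit 228) (nat_lit 70239622530) (nat_lit 304) (nat_lit 132756424113) (nat_lit 104) (nat_lit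 5) (nat_lit 107) (nat_lit 5) (nat_lit 108) (nat_lit 5) (nat_lit 497) (nat_lit 464) (nat_lit 239)) (XT.lf (nat_lit 0) (nat_lit 149946709250) (nat_lit 304) (nat_lit 66343554127) (nat_lit 76) (nat_lit 18512428682) (nat_lit 104) (nat_lit 5) (nat_lit 108) (nat_lit 5) (nat_lit 105) (nat_lit 5) (nat_lit 498) (nat_lit 464) (nat_lit 238)))) (XT.nd (nat_lit 156) (nat_lit 380) (nat_lit 0) (XT.nd (nat_lit 78) (nat_lit 76) (nat_lit 0) (XT.lf (nat_lit 0) (nat_lit 78502433873) (nat_lit 152) (nat_lit 131414672339) (nat_lit 228) (nat_lit 32064704838) (nat_lit 102) (nat_lit 5) (nat_lit 104) (nat_lit 5) (nat_lit 105) (nat_lit 5) (nat_lit 499) (nat_lit 464) (nat_lit 237)) (XT.lf (nat_lit 0) (nat_lit 23760109111) (nat_lit 228) (nat_lit 16953147395) (nat_lit 76) (nat_lit 208731297227) (nat_lit 101) (nat_lit 5) (nat_lit 104) (nat_lit 5) (nat_lit 102) (nat_lit 5) (nat_lit 500) (nat_lit 464) (nat_lit 236))) (XT.nd (nat_lit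 78) (nat_lit 152) (nat_lit 0) (XT.lf (nat_lit 0) (nat_lit 84393949441) (nat_lit 304) (nat_lit 117157464909) (nat_lit 76) (nat_lit 55547968160) (nat_lit 98) (nat_lit 5) (nat_lit 102) (nat_lit 5) (nat_lit 99) (nat_lit 5) (nat_lit 501) (nat_lit 464) (nat_lit 235)) (XT.lf (nat_lit 0) (nat_lit 40780589773) (nat_lit 152) (nat_lit 108874702256) (nat_lit 228) (nat_lit 115401870189) (nat_lit 96) (nat_lit 5) (nat_lit 98) (nat_lit 5) (nat_lit 99) (nat_lit 5) (nat_lit 502) (nat_lit 464) (nat_lit 234))))) (XT.nd (nat_lit 312) (nat_lit 532) (nat_lit 0) (XT.nd (nat_lit 156) (nat_lit 152) (nat_lit 0) (XT.nd (nat_lit 78) (nat_lit 228) (nat_lit 0) (XT.lf (nat_lit 0) (nat_lit 210682773140) (nat_lit 152) (nat_lit 9480914096) (nat_lit 228) (nat_lit 53149944406) (nat_lit 96) (nat_lit 5) (nat_lit 98) (nat_lit 5) (nat_lit 99) (nat_lit 5) (nat_lit 503) (nat_lit 464) (nat_lit 233)) (XT.lf (nat_lit 0) (nat_lit 15060575109)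 (nat_lit 228) (nat_lit 172958926547) (nat_lit 76) (nat_lit 93792040684) (nat_lit 93) (nat_lit 5) (nat_lit 96) (nat_lit 5) (nat_lit 94) (nat_lit 5) (nat_lit 504) (nat_lit 464) (nat_lit 232))) (XT.nd (nat_lit 78) (nat_lit 152) (nat_lit 0) (XT.lf (nat_lit 0) (nat_lit 86128803918) (nat_lit 228) (nat_lit 640984481) (nat_lit 76) (nat_lit 203859326154) (nat_lit 93) (nat_lit 5) (nat_lit 96) (nat_lit 5) (nat_lit 94) (nat_lit 5) (nat_lit 505) (nat_lit 464) (nat_lit 231)) (XT.lf (nat_lit 0) (nat_lit 164011050996) (nat_lit 228) (nat_lit 113841014030) (nat_lit 76) (nat_lit 21872470011) (nat_lit 91) (nat_lit 5) (nat_lit 94) (nat_lit 5) (nat_lit 92) (nat_lit 5) (nat_lit 506) (nat_lit 464) (nat_lit 230)))) (XT.nd (nat_lit 156) (nat_lit 304) (nat_lit 0) (XT.nd (nat_lit 78) (nat_lit 76) (nat_lit 0) (XT.lf (nat_lit 0) (nat_lit 73409031958) (nat_lit 152) (nat_lit 174957868517) (nat_lit 228) (nat_lit 60778851573) (nat_lit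 89) (nat_lit 5) (nat_lit 91) (nat_lit 5) (nat_lit 92) (nat_lit 5) (nat_lit 507) (nat_lit 464) (nat_lit 229)) (XT.lf (nat_lit 0) (nat_lit 19288959839) (nat_lit 228) (nat_lit 45279067446) (nat_lit 76) (nat_lit 254358055232) (nat_lit 88) (nat_lit 5) (nat_lit 91) (nat_lit 5) (nat_lit 89) (nat_lit 5) (nat_lit 508) (nat_lit 464) (nat_lit 228))) (XT.nd (nat_lit 78) (nat_lit 152) (nat_lit 0) (XT.lf (nat_lit 0) (nat_lit 104655147462) (nat_lit 228) (nat_lit 171093139608) (nat_lit 76) (nat_lit 53230446031) (nat_lit 86) (nat_lit 5) (nat_lit 89) (nat_lit 5) (nat_lit 87) (nat_lit 5) (nat_lit 509) (nat_lit 464) (nat_lit 227)) (XT.nd (nat_lit 78) (nat_lit 0) (nat_lit 0) (XT.lf (nat_lit 0) (nat_lit 33278665788) (nat_lit 152) (nat_lit 163368325847) (nat_lit 228) (nat_lit 142769157224) (nat_lit 84) (nat_lit 5) (nat_lit 86) (nat_lit 5) (nat_lit 87) (nat_lit 5) (nat_lit 510) (nat_lit 464) (nat_lit 226)) (XT.lf (nat_lit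 0) (nat_lit 253808836461) (nat_lit 152) (nat_lit 42327026896) (nat_lit 228) (nat_lit 54094700285) (nat_lit 84) (nat_lit 5) (nat_lit 86) (nat_lit 5) (nat_lit 87) (nat_lit 5) (nat_lit 511) (nat_lit 464) (nat_lit 225))))))))
noncomputable def xc424 : XT := (XT.nd (nat_lit 1248) (nat_lit 1140) (nat_lit 0) (XT.nd (nat_lit 624) (nat_lit 684) (nat_lit 0) (XT.nd (nat_lit 312) (nat_lit 380) (nat_lit 0) (XT.nd (nat_lit 156) (nat_lit 228) (nat_lit 0) (XT.nd (nat_lit 78) (nat_lit 0) (nat_lit 0) (XT.lf (nat_lit 0) (nat_lit 41117311333) (nat_lit 152) (nat_lit 235578816132) (nat_lit 76) (nat_lit 84691490872) (nat_lit 82) (nat_lit 5) (nat_lit 84) (nat_lit 5) (nat_lit 83) (nat_lit 5) (nat_lit 512) (nat_lit 464) (nat_lit 224)) (XT.lf (nat_lit 0) (nat_lit 141625485514) (nat_lit 152) (nat_lit 12130117096) (nat_lit 76) (nat_lit 219184908310) (nat_lit 82) (nat_lit 5) (nat_lit 84) (nat_lit 5) (nat_lit 83) (nat_lit 5)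 (nat_lit 513) (nat_lit 464) (nat_lit 223))) (XT.nd (nat_lit 78) (nat_lit 76) (nat_lit 0) (XT.lf (nat_lit 0) (nat_lit 229847389973) (nat_lit 152) (nat_lit 20900140037) (nat_lit 228) (nat_lit 134144095043) (nat_lit 80) (nat_lit 5) (nat_lit 82) (nat_lit 5) (nat_lit 83) (nat_lit 5) (nat_lit 514) (nat_lit 464) (nat_lit 222)) (XT.lf (nat_lit 0) (nat_lit 87872140538) (nat_lit 76) (nat_lit 280885812832) (nat_lit 152) (nat_lit 28510727696) (nat_lit 79) (nat_lit 5) (nat_lit 80) (nat_lit 5) (nat_lit 81) (nat_lit 4) (nat_lit 515) (nat_lit 464) (nat_lit 221)))) (XT.nd (nat_lit 156) (nat_lit 152) (nat_lit 0) (XT.nd (nat_lit 78) (nat_lit 152) (nat_lit 0) (XT.lf (nat_lit 0) (nat_lit 82778175890) (nat_lit 152) (nat_lit 63488594261) (nat_lit 76) (nat_lit 263782925601) (nat_lit 78) (nat_lit 5) (nat_lit 80) (nat_lit 5) (nat_lit 79) (nat_lit 5) (nat_lit 516) (nat_lit 464) (nat_lit 220)) (XT.lf (nat_lit 0) (nat_lit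 200669878201) (nat_lit 152) (nat_lit 1136423841) (nat_lit 228) (nat_lit 221483443445) (nat_lit 76) (nat_lit 5) (nat_lit 78) (nat_lit 5) (nat_lit 79) (nat_lit 5) (nat_lit 517) (nat_lit 464) (nat_lit 219))) (XT.nd (nat_lit 78) (nat_lit 76) (nat_lit 0) (XT.lf (nat_lit 0) (nat_lit 42069668060) (nat_lit 76) (nat_lit 288827177851) (nat_lit 152) (nat_lit 106089401230) (nat_lit 75) (nat_lit 5) (nat_lit 76) (nat_lit 5) (nat_lit 77) (nat_lit 4) (nat_lit 518) (nat_lit 464) (nat_lit 218)) (XT.lf (nat_lit 0) (nat_lit 18442387795) (nat_lit 152) (nat_lit 123772487068) (nat_lit 76) (nat_lit 308948405487) (nat_lit 74) (nat_lit 5) (nat_lit 76) (nat_lit 5) (nat_lit 75) (nat_lit 5) (nat_lit 519) (nat_lit 464) (nat_lit 217))))) (XT.nd (nat_lit 312) (nat_lit 228) (nat_lit 0) (XT.nd (nat_lit 156) (nat_lit 304) (nat_lit 0) (XT.nd (nat_lit 78) (nat_lit 0) (nat_lit 0) (XT.lf (nat_lit 0) (nat_lit 148456658730) (nat_lit 228)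 (nat_lit 301634543557) (nat_lit 76) (nat_lit 15729944808) (nat_lit 72) (nat_lit 5) (nat_lit 75) (nat_lit 5) (nat_lit 73) (nat_lit 4) (nat_lit 520) (nat_lit 464) (nat_lit 216)) (XT.lf (nat_lit 0) (nat_lit 289433456225) (nat_lit 228) (nat_lit 12632269123) (nat_lit 76) (nat_lit 178923091181) (nat_lit 72) (nat_lit 5) (nat_lit 75) (nat_lit 5) (nat_lit 73) (nat_lit 4) (nat_lit 521) (nat_lit 464) (nat_lit 215))) (XT.nd (nat_lit 78) (nat_lit 228) (nat_lit 0) (XT.lf (nat_lit 0) (nat_lit 300435783426) (nat_lit 76) (nat_lit 141713870526) (nat_lit 152) (nat_lit 54530687466) (nat_lit 71) (nat_lit 5) (nat_lit 72) (nat_lit 5) (nat_lit 73) (nat_lit 4) (nat_lit 522) (nat_lit 464) (nat_lit 214)) (XT.lf (nat_lit 0) (nat_lit 89031659752) (nat_lit 228) (nat_lit 394600481025) (nat_lit 76) (nat_lit 29327253028) (nat_lit 68) (nat_lit 5) (nat_lit 71) (nat_lit 5) (nat_lit 69) (nat_lit 4) (nat_lit 523) (nat_lit 464) (nat_lit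 213)))) (XT.nd (nat_lit 156) (nat_lit 152) (nat_lit 0) (XT.nd (nat_lit 78) (nat_lit 76) (nat_lit 0) (XT.lf (nat_lit 0) (nat_lit 243640610463) (nat_lit 228) (nat_lit 77652264055) (nat_lit 76) (nat_lit 208429773268) (nat_lit 68) (nat_lit 5) (nat_lit 71) (nat_lit 5) (nat_lit 69) (nat_lit 4) (nat_lit 524) (nat_lit 464) (nat_lit 212)) (XT.lf (nat_lit 0) (nat_lit 263579400537) (nat_lit 76) (nat_lit 146515741777) (nat_lit 152) (nat_lit 137023165474) (nat_lit 67) (nat_lit 5) (nat_lit 68) (nat_lit 5) (nat_lit 69) (nat_lit 4) (nat_lit 525) (nat_lit 464) (nat_lit 211))) (XT.nd (nat_lit 78) (nat_lit 0) (nat_lit 0) (XT.lf (nat_lit 0) (nat_lit 21772002826) (nat_lit 152) (nat_lit 505001452227) (nat_lit 76) (nat_lit 38449726546) (nat_lit 65) (nat_lit 5) (nat_lit 67) (nat_lit 5) (nat_lit 66) (nat_lit 4) (nat_lit 526) (nat_lit 464) (nat_lit 210)) (XT.lf (nat_lit 0) (nat_lit 191184458880) (nat_lit 152) (nat_lit 157706025903)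 (nat_lit 76) (nat_lit 234866379940) (nat_lit 65) (nat_lit 5) (nat_lit 67) (nat_lit 5) (nat_lit 66) (nat_lit 4) (nat_lit 527) (nat_lit 464) (nat_lit 209)))))) (XT.nd (nat_lit 624) (nat_lit 608) (nat_lit 0) (XT.nd (nat_lit 312) (nat_lit 228) (nat_lit 0) (XT.nd (nat_lit 156) (nat_lit 228) (nat_lit 0) (XT.nd (nat_lit 78) (nat_lit 0) (nat_lit 0) (XT.lf (nat_lit 0) (nat_lit 213796863010) (nat_lit 76) (nat_lit 158608567737) (nat_lit 152) (nat_lit 230644906605) (nat_lit 64) (nat_lit 5) (nat_lit 65) (nat_lit 5) (nat_lit 66) (nat_lit 4) (nat_lit 528) (nat_lit 464) (nat_lit 208)) (XT.lf (nat_lit 0) (nat_lit 566045039716) (nat_lit 152) (nat_lit 14511828104) (nat_lit 0) (nat_lit 42583736369) (nat_lit 64) (nat_lit 5) (nat_lit 66) (nat_lit 4) (nat_lit 64) (nat_lit 4) (nat_lit 529) (nat_lit 464) (nat_lit 207))) (XT.nd (nat_lit 78) (nat_lit 76) (nat_lit 0) (XT.lf (nat_lit 0) (nat_lit 129938901351) (nat_lit 152)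 (nat_lit 257086644909) (nat_lit 76) (nat_lit 256671523744) (nat_lit 62) (nat_lit 5) (nat_lit 64) (nat_lit 5) (nat_lit 63) (nat_lit 4) (nat_lit 530) (nat_lit 464) (nat_lit 206)) (XT.lf (nat_lit 0) (nat_lit 146781297230) (nat_lit 76) (nat_lit 180166397887) (nat_lit 152) (nat_lit 338159794851) (nat_lit 61) (nat_lit 5) (nat_lit 62) (nat_lit 5) (nat_lit 63) (nat_lit 4) (nat_lit 531) (nat_lit 464) (nat_lit 205)))) (XT.nd (nat_lit 156) (nat_lit 76) (nat_lit 0) (XT.nd (nat_lit 78) (nat_lit 152) (nat_lit 0) (XT.lf (nat_lit 0) (nat_lit 538810350796) (nat_lit 152) (nat_lit 108252376121) (nat_lit 0) (nat_lit 40275532901) (nat_lit 61) (nat_lit 5) (nat_lit 63) (nat_lit 4) (nat_lit 61) (nat_lit 4) (nat_lit 532) (nat_lit 464) (nat_lit 204)) (XT.lf (nat_lit 0) (nat_lit 57204012194) (nat_lit 152) (nat_lit 381266666392) (nat_lit 76) (nat_lit 271758525687) (nat_lit 59) (nat_lit 5) (nat_lit 61) (nat_lit 5) (nat_lit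 60) (nat_lit 4) (nat_lit 533) (nat_lit 464) (nat_lit 203))) (XT.nd (nat_lit 78) (nat_lit 0) (nat_lit 0) (XT.lf (nat_lit 0) (nat_lit 56982161082) (nat_lit 76) (nat_lit 214001801097) (nat_lit 152) (nat_lit 463021342362) (nat_lit 58) (nat_lit 5) (nat_lit 59) (nat_lit 5) (nat_lit 60) (nat_lit 4) (nat_lit 534) (nat_lit 464) (nat_lit 202)) (XT.lf (nat_lit 0) (nat_lit 502354279175) (nat_lit 152) (nat_lit 228711847805) (nat_lit 0) (nat_lit 27559014368) (nat_lit 58) (nat_lit 5) (nat_lit 60) (nat_lit 4) (nat_lit 58) (nat_lit 4) (nat_lit 535) (nat_lit 464) (nat_lit 201))))) (XT.nd (nat_lit 312) (nat_lit 304) (nat_lit 0) (XT.nd (nat_lit 156) (nat_lit 152) (nat_lit 0) (XT.nd (nat_lit 78) (nat_lit 76) (nat_lit 0) (XT.lf (nat_lit 0) (nat_lit 246392768778) (nat_lit 76) (nat_lit 506255387148) (nat_lit 76) (nat_lit 31460061875) (nat_lit 57) (nat_lit 4) (nat_lit 58) (nat_lit 5) (nat_lit 58) (nat_lit 4) (nat_lit 536)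 (nat_lit 464) (nat_lit 200)) (XT.lf (nat_lit 0) (nat_lit 201979859229) (nat_lit 152) (nat_lit 60736671437) (nat_lit 76) (nat_lit 547792366280) (nat_lit 56) (nat_lit 5) (nat_lit 58) (nat_lit 5) (nat_lit 57) (nat_lit 4) (nat_lit 537) (nat_lit 464) (nat_lit 199))) (XT.nd (nat_lit 78) (nat_lit 76) (nat_lit 0) (XT.lf (nat_lit 0) (nat_lit 453139754572) (nat_lit 152) (nat_lit 383755182986) (nat_lit 0) (nat_lit 953623427) (nat_lit 55) (nat_lit 5) (nat_lit 57) (nat_lit 4) (nat_lit 55) (nat_lit 4) (nat_lit 538) (nat_lit 464) (nat_lit 198)) (XT.lf (nat_lit 0) (nat_lit 130110324945) (nat_lit 76) (nat_lit 594130941540) (nat_lit 76) (nat_lit 141944760651) (nat_lit 54) (nat_lit 4) (nat_lit 55) (nat_lit 5) (nat_lit 55) (nat_lit 4) (nat_lit 539) (nat_lit 464) (nat_lit 197)))) (XT.nd (nat_lit 156) (nat_lit 152) (nat_lit 0) (XT.nd (nat_lit 78) (nat_lit 76) (nat_lit 0) (XT.lf (nat_lit 0) (nat_lit 115947703780) (nat_lit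 152) (nat_lit 214493435513) (nat_lit 76) (nat_lit 565080770084) (nat_lit 53) (nat_lit 5) (nat_lit 55) (nat_lit 5) (nat_lit 54) (nat_lit 4) (nat_lit 540) (nat_lit 464) (nat_lit 196)) (XT.lf (nat_lit 0) (nat_lit 341779960741) (nat_lit 76) (nat_lit 45520641271) (nat_lit 152) (nat_lit 538640831290) (nat_lit 52) (nat_lit 5) (nat_lit 53) (nat_lit 5) (nat_lit 54) (nat_lit 4) (nat_lit 541) (nat_lit 464) (nat_lit 195))) (XT.nd (nat_lit 78) (nat_lit 152) (nat_lit 0) (XT.lf (nat_lit 0) (nat_lit 679873310765) (nat_lit 152) (nat_lit 28406338235) (nat_lit 0) (nat_lit 249219676141) (nat_lit 52) (nat_lit 5) (nat_lit 54) (nat_lit 4) (nat_lit 52) (nat_lit 4) (nat_lit 542) (nat_lit 464) (nat_lit 194)) (XT.lf (nat_lit 0) (nat_lit 6400281978) (nat_lit 152) (nat_lit 417533095545) (nat_lit 76) (nat_lit 566212174399) (nat_lit 50) (nat_lit 5) (nat_lit 52) (nat_lit 5) (nat_lit 51) (nat_lit 4) (nat_lit 543) (nat_lit 464)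 (nat_lit 193)))))))
noncomputable def xc425 : XT := (XT.nd (nat_lit 57174) (nat_lit 0) (nat_lit 5320) (XT.nd (nat_lit 56550) (nat_lit 0) (nat_lit 8968) (XT.nd (nat_lit 312) (nat_lit 76) (nat_lit 0) (XT.nd (nat_lit 156) (nat_lit 152) (nat_lit 0) (XT.nd (nat_lit 78) (nat_lit 0) (nat_lit 0) (XT.lf (nat_lit 0) (nat_lit 181518854227) (nat_lit 76) (nat_lit 117101909161) (nat_lit 152) (nat_lit 725409618105) (nat_lit 49) (nat_lit 5) (nat_lit 50) (nat_lit 5) (nat_lit 51) (nat_lit 4) (nat_lit 544) (nat_lit 464) (nat_lit 192)) (XT.lf (nat_lit 0) (nat_lit 615840994405) (nat_lit 152) (nat_lit 237554452289) (nat_lit 0) (nat_lit 205694569573) (nat_lit 49) (nat_lit 5) (nat_lit 51) (nat_lit 4) (nat_lit 49) (nat_lit 4) (nat_lit 545) (nat_lit 464) (nat_lit 191))) (XT.nd (nat_lit 78) (nat_lit 76) (nat_lit 0) (XT.lf (nat_lit 0) (nat_lit 408815312715) (nat_lit 76) (nat_lit 548409328378) (nat_lit 76) (nat_lit 138262871480)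 (nat_lit 48) (nat_lit 4) (nat_lit 49) (nat_lit 5) (nat_lit 49) (nat_lit 4) (nat_lit 546) (nat_lit 464) (nat_lit 190)) (XT.lf (nat_lit 0) (nat_lit 180237327270) (nat_lit 152) (nat_lit 40659966532) (nat_lit 76) (nat_lit 912461084789) (nat_lit 47) (nat_lit 5) (nat_lit 49) (nat_lit 5) (nat_lit 48) (nat_lit 4) (nat_lit 547) (nat_lit 464) (nat_lit 189)))) (XT.nd (nat_lit 56082) (nat_lit 0) (nat_lit 8892) (XT.nd (nat_lit 56004) (nat_lit 0) (nat_lit 8892) (XT.lf (nat_lit 0) (nat_lit 522389494742) (nat_lit 152) (nat_lit 518227523327) (nat_lit 0) (nat_lit 131773764722) (nat_lit 46) (nat_lit 5) (nat_lit 48) (nat_lit 4) (nat_lit 46) (nat_lit 4) (nat_lit 548) (nat_lit 464) (nat_lit 188)) (XT.lf (nat_lit 0) (nat_lit 21388923079) (nat_lit 836) (nat_lit 13497016490) (nat_lit 836) (nat_lit 13497016490) (nat_lit 163) (nat_lit 3) (nat_lit 174) (nat_lit 3) (nat_lit 174) (nat_lit 5) (nat_lit 465) (nat_lit 465) (nat_lit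 270))) (XT.nd (nat_lit 78) (nat_lit 0) (nat_lit 76) (XT.lf (nat_lit 76) (nat_lit 21893631792) (nat_lit 0) (nat_lit 22302356658) (nat_lit 836) (nat_lit 54971636135) (nat_lit 164) (nat_lit 5) (nat_lit 163) (nat_lit 3) (nat_lit 174) (nat_lit 5) (nat_lit 466) (nat_lit 465) (nat_lit 269)) (XT.lf (nat_lit 0) (nat_lit 46579235224) (nat_lit 760) (nat_lit 27941458267) (nat_lit 836) (nat_lit 27124019348) (nat_lit 164) (nat_lit 5) (nat_lit 174) (nat_lit 5) (nat_lit 175) (nat_lit 5) (nat_lit 467) (nat_lit 465) (nat_lit 268))))) (XT.nd (nat_lit 312) (nat_lit 0) (nat_lit 152) (XT.nd (nat_lit 156) (nat_lit 0) (nat_lit 76) (XT.nd (nat_lit 78) (nat_lit 0) (nat_lit 76) (XT.lf (nat_lit 76) (nat_lit 24268585313) (nat_lit 0) (nat_lit 25557152417) (nat_lit 836) (nat_lit 54382713139) (nat_lit 165) (nat_lit 5) (nat_lit 164) (nat_lit 5) (nat_lit 175) (nat_lit 5) (nat_lit 468) (nat_lit 465) (nat_lit 267)) (XT.lf (nat_lit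 0) (nat_lit 54118786032) (nat_lit 760) (nat_lit 27229210067) (nat_lit 836) (nat_lit 25508168698) (nat_lit 165) (nat_lit 5) (nat_lit 175) (nat_lit 5) (nat_lit 176) (nat_lit 5) (nat_lit 469) (nat_lit 465) (nat_lit 266))) (XT.nd (nat_lit 78) (nat_lit 0) (nat_lit 76) (XT.lf (nat_lit 76) (nat_lit 28613563945) (nat_lit 0) (nat_lit 30878248451) (nat_lit 836) (nat_lit 50101185774) (nat_lit 166) (nat_lit 5) (nat_lit 165) (nat_lit 5) (nat_lit 176) (nat_lit 5) (nat_lit 470) (nat_lit 465) (nat_lit 265)) (XT.lf (nat_lit 0) (nat_lit 65947100555) (nat_lit 760) (nat_lit 24602912794) (nat_lit 836) (nat_lit 21875979365) (nat_lit 166) (nat_lit 5) (nat_lit 176) (nat_lit 5) (nat_lit 177) (nat_lit 5) (nat_lit 471) (nat_lit 465) (nat_lit 264)))) (XT.nd (nat_lit 156) (nat_lit 0) (nat_lit 76) (XT.nd (nat_lit 78) (nat_lit 0) (nat_lit 76) (XT.lf (nat_lit 76) (nat_lit 35213009819) (nat_lit 0) (nat_lit 38567769332) (nat_lit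 836) (nat_lit 41567076561) (nat_lit 167) (nat_lit 5) (nat_lit 166) (nat_lit 5) (nat_lit 177) (nat_lit 5) (nat_lit 472) (nat_lit 465) (nat_lit 263)) (XT.lf (nat_lit 0) (nat_lit 82679316719) (nat_lit 760) (nat_lit 19778214293) (nat_lit 836) (nat_lit 15924622119) (nat_lit 167) (nat_lit 5) (nat_lit 177) (nat_lit 5) (nat_lit 178) (nat_lit 5) (nat_lit 473) (nat_lit 465) (nat_lit 262))) (XT.nd (nat_lit 78) (nat_lit 0) (nat_lit 76) (XT.lf (nat_lit 76) (nat_lit 44384304159) (nat_lit 0) (nat_lit 48963380144) (nat_lit 836) (nat_lit 28154235987) (nat_lit 168) (nat_lit 5) (nat_lit 167) (nat_lit 5) (nat_lit 178) (nat_lit 5) (nat_lit 474) (nat_lit 465) (nat_lit 261)) (XT.lf (nat_lit 0) (nat_lit 105002105856) (nat_lit 760) (nat_lit 12437586517) (nat_lit 76) (nat_lit 7315351677) (nat_lit 168) (nat_lit 5) (nat_lit 178) (nat_lit 5) (nat_lit 169) (nat_lit 5) (nat_lit 475) (nat_lit 465) (nat_lit 260)))))) (XT.nd (nat_lit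 624) (nat_lit 1596) (nat_lit 0) (XT.nd (nat_lit 312) (nat_lit 684) (nat_lit 0) (XT.nd (nat_lit 156) (nat_lit 836) (nat_lit 0) (XT.nd (nat_lit 78) (nat_lit 76) (nat_lit 0) (XT.lf (nat_lit 0) (nat_lit 56481259132) (nat_lit 760) (nat_lit 62442206277) (nat_lit 836) (nat_lit 9163147765) (nat_lit 158) (nat_lit 5) (nat_lit 168) (nat_lit 5) (nat_lit 169) (nat_lit 5) (nat_lit 476) (nat_lit 465) (nat_lit 259)) (XT.lf (nat_lit 0) (nat_lit 2107326431) (nat_lit 836) (nat_lit 2330636126) (nat_lit 76) (nat_lit 127134581046) (nat_lit 157) (nat_lit 5) (nat_lit 168) (nat_lit 5) (nat_lit 158) (nat_lit 5) (nat_lit 477) (nat_lit 465) (nat_lit 258))) (XT.nd (nat_lit 78) (nat_lit 380) (nat_lit 0) (XT.lf (nat_lit 0) (nat_lit 15668932139) (nat_lit 532) (nat_lit 63490879527) (nat_lit 76) (nat_lit 55963670648) (nat_lit 151) (nat_lit 5) (nat_lit 158) (nat_lit 5) (nat_lit 152) (nat_lit 5) (nat_lit 478) (nat_lit 465) (nat_lit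 257)) (XT.lf (nat_lit 0) (nat_lit 10796826808) (nat_lit 380) (nat_lit 19392967159) (nat_lit 456) (nat_lit 108648115219) (nat_lit 146) (nat_lit 5) (nat_lit 151) (nat_lit 5) (nat_lit 152) (nat_lit 5) (nat_lit 479) (nat_lit 465) (nat_lit 256)))) (XT.nd (nat_lit 156) (nat_lit 304) (nat_lit 0) (XT.nd (nat_lit 78) (nat_lit 380) (nat_lit 0) (XT.lf (nat_lit 0) (nat_lit 47206325071) (nat_lit 456) (nat_lit 52376020015) (nat_lit 76) (nat_lit 43067231024) (nat_lit 146) (nat_lit 5) (nat_lit 152) (nat_lit 5) (nat_lit 147) (nat_lit 5) (nat_lit 480) (nat_lit 465) (nat_lit 255)) (XT.lf (nat_lit 0) (nat_lit 27638732217) (nat_lit 380) (nat_lit 38184142852) (nat_lit 456) (nat_lit 80791491711) (nat_lit 141) (nat_lit 5) (nat_lit 146) (nat_lit 5) (nat_lit 147) (nat_lit 5) (nat_lit 481) (nat_lit 465) (nat_lit 254))) (XT.nd (nat_lit 78) (nat_lit 304) (nat_lit 0) (XT.lf (nat_lit 0) (nat_lit 86681937555) (nat_lit 456) (nat_lit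 37685619888) (nat_lit 76) (nat_lit 26344255306) (nat_lit 141) (nat_lit 5) (nat_lit 147) (nat_lit 5) (nat_lit 142) (nat_lit 5) (nat_lit 482) (nat_lit 465) (nat_lit 253)) (XT.lf (nat_lit 0) (nat_lit 48598116676) (nat_lit 304) (nat_lit 61370334191) (nat_lit 380) (nat_lit 44976455279) (nat_lit 137) (nat_lit 5) (nat_lit 141) (nat_lit 5) (nat_lit 142) (nat_lit 5) (nat_lit 483) (nat_lit 465) (nat_lit 252))))) (XT.nd (nat_lit 312) (nat_lit 912) (nat_lit 0) (XT.nd (nat_lit 156) (nat_lit 380) (nat_lit 0) (XT.nd (nat_lit 78) (nat_lit 304) (nat_lit 0) (XT.lf (nat_lit 0) (nat_lit 135142336896) (nat_lit 380) (nat_lit 18938643335) (nat_lit 76) (nat_lit 5272521644) (nat_lit 137) (nat_lit 5) (nat_lit 142) (nat_lit 5) (nat_lit 138) (nat_lit 5) (nat_lit 484) (nat_lit 465) (nat_lit 251)) (XT.lf (nat_lit 0) (nat_lit 74208735481) (nat_lit 304) (nat_lit 89530651214) (nat_lit 380) (nat_lit 134917236) (nat_lit 133) (nat_lit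 5) (nat_lit 137) (nat_lit 5) (nat_lit 138) (nat_lit 5) (nat_lit 485) (nat_lit 465) (nat_lit 250))) (XT.nd (nat_lit 78) (nat_lit 0) (nat_lit 0) (XT.lf (nat_lit 0) (nat_lit 3789060980) (nat_lit 304) (nat_lit 20936226090) (nat_lit 380) (nat_lit 143856982435) (nat_lit 128) (nat_lit 5) (nat_lit 132) (nat_lit 5) (nat_lit 133) (nat_lit 5) (nat_lit 486) (nat_lit 465) (nat_lit 249)) (XT.lf (nat_lit 0) (nat_lit 53164816914) (nat_lit 380) (nat_lit 69245284813) (nat_lit 76) (nat_lit 50998378582) (nat_lit 128) (nat_lit 5) (nat_lit 133) (nat_lit 5) (nat_lit 129) (nat_lit 5) (nat_lit 487) (nat_lit 465) (nat_lit 248)))) (XT.nd (nat_lit 156) (nat_lit 608) (nat_lit 0) (XT.nd (nat_lit 78) (nat_lit 0) (nat_lit 0) (XT.lf (nat_lit 0) (nat_lit 31752865796) (nat_lit 304) (nat_lit 52112235113) (nat_lit 380) (nat_lit 94568961874) (nat_lit 124) (nat_lit 5) (nat_lit 128) (nat_lit 5) (nat_lit 129) (nat_lit 5) (nat_lit 488)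 (nat_lit 465) (nat_lit 247)) (XT.lf (nat_lit 0) (nat_lit 117630946268) (nat_lit 380) (nat_lit 43805603022) (nat_lit 76) (nat_lit 22197847742) (nat_lit 124) (nat_lit 5) (nat_lit 129) (nat_lit 5) (nat_lit 125) (nat_lit 5) (nat_lit 489) (nat_lit 465) (nat_lit 246))) (XT.nd (nat_lit 78) (nat_lit 380) (nat_lit 0) (XT.lf (nat_lit 0) (nat_lit 65454178974) (nat_lit 228) (nat_lit 89506949998) (nat_lit 304) (nat_lit 34039816777) (nat_lit 121) (nat_lit 5) (nat_lit 124) (nat_lit 5) (nat_lit 125) (nat_lit 5) (nat_lit 490) (nat_lit 465) (nat_lit 245)) (XT.nd (nat_lit 78) (nat_lit 304) (nat_lit 0) (XT.lf (nat_lit 0) (nat_lit 291153757) (nat_lit 304) (nat_lit 12905882839) (nat_lit 76) (nat_lit 181401465672) (nat_lit 120) (nat_lit 5) (nat_lit 124) (nat_lit 5) (nat_lit 121) (nat_lit 5) (nat_lit 491) (nat_lit 465) (nat_lit 244)) (XT.lf (nat_lit 0) (nat_lit 37932382270) (nat_lit 380) (nat_lit 95341651626) (nat_lit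 76) (nat_lit 67037117710) (nat_lit 116) (nat_lit 5) (nat_lit 121) (nat_lit 5) (nat_lit 117) (nat_lit 5) (nat_lit 492) (nat_lit 465) (nat_lit 243))))))))
noncomputable def xc426 : XT := (XT.nd (nat_lit 1248) (nat_lit 1596) (nat_lit 0) (XT.nd (nat_lit 624) (nat_lit 988) (nat_lit 0) (XT.nd (nat_lit 312) (nat_lit 608) (nat_lit 0) (XT.nd (nat_lit 156) (nat_lit 228) (nat_lit 0) (XT.nd (nat_lit 78) (nat_lit 0) (nat_lit 0) (XT.lf (nat_lit 0) (nat_lit 23417560793) (nat_lit 228) (nat_lit 54842057293) (nat_lit 304) (nat_lit 128009618038) (nat_lit 113) (nat_lit 5) (nat_lit 116) (nat_lit 5) (nat_lit 117) (nat_lit 5) (nat_lit 493) (nat_lit 465) (nat_lit 242)) (XT.lf (nat_lit 0) (nat_lit 122673714410) (nat_lit 304) (nat_lit 61475945697) (nat_lit 76) (nat_lit 28272039835) (nat_lit 113) (nat_lit 5) (nat_lit 117) (nat_lit 5) (nat_lit 114) (nat_lit 5) (nat_lit 494) (nat_lit 465) (nat_lit 241))) (XT.nd (nat_lit 78)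 (nat_lit 0) (nat_lit 0) (XT.lf (nat_lit 0) (nat_lit 67220783573) (nat_lit 228) (nat_lit 104036134554) (nat_lit 304) (nat_lit 47527448702) (nat_lit 110) (nat_lit 5) (nat_lit 113) (nat_lit 5) (nat_lit 114) (nat_lit 5) (nat_lit 495) (nat_lit 465) (nat_lit 240)) (XT.lf (nat_lit 0) (nat_lit 204486437300) (nat_lit 228) (nat_lit 18823821113) (nat_lit 304) (nat_lit 2102859836) (nat_lit 110) (nat_lit 5) (nat_lit 113) (nat_lit 5) (nat_lit 114) (nat_lit 5) (nat_lit 496) (nat_lit 465) (nat_lit 239)))) (XT.nd (nat_lit 156) (nat_lit 152) (nat_lit 0) (XT.nd (nat_lit 78) (nat_lit 228) (nat_lit 0) (XT.lf (nat_lit 0) (nat_lit 47142188970) (nat_lit 228) (nat_lit 114039835184) (nat_lit 76) (nat_lit 71005266904) (nat_lit 107) (nat_lit 5) (nat_lit 110) (nat_lit 5) (nat_lit 108) (nat_lit 5) (nat_lit 497) (nat_lit 465) (nat_lit 238)) (XT.lf (nat_lit 0) (nat_lit 26105839042) (nat_lit 228) (nat_lit 73749225946) (nat_lit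 304) (nat_lit 139389571637) (nat_lit 104) (nat_lit 5) (nat_lit 107) (nat_lit 5) (nat_lit 108) (nat_lit 5) (nat_lit 498) (nat_lit 465) (nat_lit 237))) (XT.nd (nat_lit 78) (nat_lit 152) (nat_lit 0) (XT.lf (nat_lit 0) (nat_lit 157448319063) (nat_lit 304) (nat_lit 69654051576) (nat_lit 76) (nat_lit 19440242125) (nat_lit 104) (nat_lit 5) (nat_lit 108) (nat_lit 5) (nat_lit 105) (nat_lit 5) (nat_lit 499) (nat_lit 465) (nat_lit 236)) (XT.lf (nat_lit 0) (nat_lit 82434128078) (nat_lit 152) (nat_lit 137983006870) (nat_lit 228) (nat_lit 33663557812) (nat_lit 102) (nat_lit 5) (nat_lit 104) (nat_lit 5) (nat_lit 105) (nat_lit 5) (nat_lit 500) (nat_lit 465) (nat_lit 235))))) (XT.nd (nat_lit 312) (nat_lit 532) (nat_lit 0) (XT.nd (nat_lit 156) (nat_lit 152) (nat_lit 0) (XT.nd (nat_lit 78) (nat_lit 228) (nat_lit 0) (XT.lf (nat_lit 0) (nat_lit 24952154574) (nat_lit 228) (nat_lit 17794411494) (nat_lit 76) (nat_lit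 219170013196) (nat_lit 101) (nat_lit 5) (nat_lit 104) (nat_lit 5) (nat_lit 102) (nat_lit 5) (nat_lit 501) (nat_lit 465) (nat_lit 234)) (XT.lf (nat_lit 0) (nat_lit 88617629348) (nat_lit 304) (nat_lit 123008887162) (nat_lit 76) (nat_lit 58327635855) (nat_lit 98) (nat_lit 5) (nat_lit 102) (nat_lit 5) (nat_lit 99) (nat_lit 5) (nat_lit 502) (nat_lit 465) (nat_lit 233))) (XT.nd (nat_lit 78) (nat_lit 0) (nat_lit 0) (XT.lf (nat_lit 0) (nat_lit 42825966206) (nat_lit 152) (nat_lit 114315982313) (nat_lit 228) (nat_lit 121167877074) (nat_lit 96) (nat_lit 5) (nat_lit 98) (nat_lit 5) (nat_lit 99) (nat_lit 5) (nat_lit 503) (nat_lit 465) (nat_lit 232)) (XT.lf (nat_lit 0) (nat_lit 221222956506) (nat_lit 152) (nat_lit 9952621652) (nat_lit 228) (nat_lit 55803549602) (nat_lit 96) (nat_lit 5) (nat_lit 98) (nat_lit 5) (nat_lit 99) (nat_lit 5) (nat_lit 504) (nat_lit 465) (nat_lit 231)))) (XT.nd (nat_lit 156) (nat_lit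 304) (nat_lit 0) (XT.nd (nat_lit 78) (nat_lit 0) (nat_lit 0) (XT.lf (nat_lit 0) (nat_lit 15817323954) (nat_lit 228) (nat_lit 181600655981) (nat_lit 76) (nat_lit 98483953397) (nat_lit 93) (nat_lit 5) (nat_lit 96) (nat_lit 5) (nat_lit 94) (nat_lit 5) (nat_lit 505) (nat_lit 465) (nat_lit 230)) (XT.lf (nat_lit 0) (nat_lit 90438787056) (nat_lit 228) (nat_lit 667112854) (nat_lit 76) (nat_lit 214054493107) (nat_lit 93) (nat_lit 5) (nat_lit 96) (nat_lit 5) (nat_lit 94) (nat_lit 5) (nat_lit 506) (nat_lit 465) (nat_lit 229))) (XT.nd (nat_lit 78) (nat_lit 152) (nat_lit 0) (XT.lf (nat_lit 0) (nat_lit 172215105575) (nat_lit 228) (nat_lit 119527102857) (nat_lit 76) (nat_lit 22968378145) (nat_lit 91) (nat_lit 5) (nat_lit 94) (nat_lit 5) (nat_lit 92) (nat_lit 5) (nat_lit 507) (nat_lit 465) (nat_lit 228)) (XT.lf (nat_lit 0) (nat_lit 77085349271) (nat_lit 152) (nat_lit 183703323073) (nat_lit 228) (nat_lit 63814195858)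 (nat_lit 89) (nat_lit 5) (nat_lit 91) (nat_lit 5) (nat_lit 92) (nat_lit 5) (nat_lit 508) (nat_lit 465) (nat_lit 227)))))) (XT.nd (nat_lit 624) (nat_lit 836) (nat_lit 0) (XT.nd (nat_lit 312) (nat_lit 380) (nat_lit 0) (XT.nd (nat_lit 156) (nat_lit 152) (nat_lit 0) (XT.nd (nat_lit 78) (nat_lit 152) (nat_lit 0) (XT.lf (nat_lit 0) (nat_lit 20256725094) (nat_lit 228) (nat_lit 47537324643) (nat_lit 76) (nat_lit 267078170946) (nat_lit 88) (nat_lit 5) (nat_lit 91) (nat_lit 5) (nat_lit 89) (nat_lit 5) (nat_lit 509) (nat_lit 465) (nat_lit 226)) (XT.lf (nat_lit 0) (nat_lit 109891188439) (nat_lit 228) (nat_lit 179642066664) (nat_lit 76) (nat_lit 55894250382) (nat_lit 86) (nat_lit 5) (nat_lit 89) (nat_lit 5) (nat_lit 87) (nat_lit 5) (nat_lit 510) (nat_lit 465) (nat_lit 225))) (XT.nd (nat_lit 78) (nat_lit 0) (nat_lit 0) (XT.lf (nat_lit 0) (nat_lit 34948236584) (nat_lit 152) (nat_lit 171534319892) (nat_lit 228)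 (nat_lit 149904238976) (nat_lit 84) (nat_lit 5) (nat_lit 86) (nat_lit 5) (nat_lit 87) (nat_lit 5) (nat_lit 511) (nat_lit 465) (nat_lit 224)) (XT.lf (nat_lit 0) (nat_lit 266504647338) (nat_lit 152) (nat_lit 44441071338) (nat_lit 228) (nat_lit 56796219957) (nat_lit 84) (nat_lit 5) (nat_lit 86) (nat_lit 5) (nat_lit 87) (nat_lit 5) (nat_lit 512) (nat_lit 465) (nat_lit 223)))) (XT.nd (nat_lit 156) (nat_lit 228) (nat_lit 0) (XT.nd (nat_lit 78) (nat_lit 0) (nat_lit 0) (XT.lf (nat_lit 0) (nat_lit 43176261640) (nat_lit 152) (nat_lit 247352257129) (nat_lit 76) (nat_lit 88928326173) (nat_lit 82) (nat_lit 5) (nat_lit 84) (nat_lit 5) (nat_lit 83) (nat_lit 5) (nat_lit 513) (nat_lit 465) (nat_lit 222)) (XT.lf (nat_lit 0) (nat_lit 148709697637) (nat_lit 152) (nat_lit 12731385037) (nat_lit 76) (nat_lit 230146306828) (nat_lit 82) (nat_lit 5) (nat_lit 84) (nat_lit 5) (nat_lit 83) (nat_lit 5) (nat_lit 514) (nat_lit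 465) (nat_lit 221))) (XT.nd (nat_lit 78) (nat_lit 76) (nat_lit 0) (XT.lf (nat_lit 0) (nat_lit 241344912904) (nat_lit 152) (nat_lit 21942872017) (nat_lit 228) (nat_lit 140848277398) (nat_lit 80) (nat_lit 5) (nat_lit 82) (nat_lit 5) (nat_lit 83) (nat_lit 5) (nat_lit 515) (nat_lit 465) (nat_lit 220)) (XT.lf (nat_lit 0) (nat_lit 92270924596) (nat_lit 76) (nat_lit 294927782440) (nat_lit 152) (nat_lit 29933265218) (nat_lit 79) (nat_lit 5) (nat_lit 80) (nat_lit 5) (nat_lit 81) (nat_lit 4) (nat_lit 516) (nat_lit 465) (nat_lit 219))))) (XT.nd (nat_lit 312) (nat_lit 456) (nat_lit 0) (XT.nd (nat_lit 156) (nat_lit 152) (nat_lit 0) (XT.nd (nat_lit 78) (nat_lit 152) (nat_lit 0) (XT.lf (nat_lit 0) (nat_lit 86919849333) (nat_lit 152) (nat_lit 66658001998) (nat_lit 76) (nat_lit 276974190918) (nat_lit 78) (nat_lit 5) (nat_lit 80) (nat_lit 5) (nat_lit 79) (nat_lit 5) (nat_lit 517) (nat_lit 465) (nat_lit 218)) (XT.lf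 (nat_lit 0) (nat_lit 210708313088) (nat_lit 152) (nat_lit 1191014197) (nat_lit 228) (nat_lit 232554769914) (nat_lit 76) (nat_lit 5) (nat_lit 78) (nat_lit 5) (nat_lit 79) (nat_lit 5) (nat_lit 518) (nat_lit 465) (nat_lit 217))) (XT.nd (nat_lit 78) (nat_lit 76) (nat_lit 0) (XT.lf (nat_lit 0) (nat_lit 44178111855) (nat_lit 76) (nat_lit 303266268055) (nat_lit 152) (nat_lit 111391044949) (nat_lit 75) (nat_lit 5) (nat_lit 76) (nat_lit 5) (nat_lit 77) (nat_lit 4) (nat_lit 519) (nat_lit 465) (nat_lit 216)) (XT.lf (nat_lit 0) (nat_lit 19367112786) (nat_lit 152) (nat_lit 129956301037) (nat_lit 76) (nat_lit 324397900216) (nat_lit 74) (nat_lit 5) (nat_lit 76) (nat_lit 5) (nat_lit 75) (nat_lit 5) (nat_lit 520) (nat_lit 465) (nat_lit 215)))) (XT.nd (nat_lit 156) (nat_lit 304) (nat_lit 0) (XT.nd (nat_lit 78) (nat_lit 0) (nat_lit 0) (XT.lf (nat_lit 0) (nat_lit 155882081079) (nat_lit 228) (nat_lit 316711444115)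 (nat_lit 76) (nat_lit 16518549740) (nat_lit 72) (nat_lit 5) (nat_lit 75) (nat_lit 5) (nat_lit 73) (nat_lit 4) (nat_lit 521) (nat_lit 465) (nat_lit 214)) (XT.lf (nat_lit 0) (nat_lit 303907595143) (nat_lit 228) (nat_lit 13259285799) (nat_lit 76) (nat_lit 187871253064) (nat_lit 72) (nat_lit 5) (nat_lit 75) (nat_lit 5) (nat_lit 73) (nat_lit 4) (nat_lit 522) (nat_lit 465) (nat_lit 213))) (XT.nd (nat_lit 78) (nat_lit 228) (nat_lit 0) (XT.lf (nat_lit 0) (nat_lit 315462095236) (nat_lit 76) (nat_lit 148797460698) (nat_lit 152) (nat_lit 57254681549) (nat_lit 71) (nat_lit 5) (nat_lit 72) (nat_lit 5) (nat_lit 73) (nat_lit 4) (nat_lit 523) (nat_lit 465) (nat_lit 212)) (XT.nd (nat_lit 78) (nat_lit 0) (nat_lit 0) (XT.lf (nat_lit 0) (nat_lit 93485688406) (nat_lit 228) (nat_lit 414325887736) (nat_lit 76) (nat_lit 30795665032) (nat_lit 68) (nat_lit 5) (nat_lit 71) (nat_lit 5) (nat_lit 69) (nat_lit 4) (nat_lit 524)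 (nat_lit 465) (nat_lit 211)) (XT.lf (nat_lit 0) (nat_lit 255824970192) (nat_lit 228) (nat_lit 81530479791) (nat_lit 76) (nat_lit 218853213696) (nat_lit 68) (nat_lit 5) (nat_lit 71) (nat_lit 5) (nat_lit 69) (nat_lit 4) (nat_lit 525) (nat_lit 465) (nat_lit 210))))))))
noncomputable def xc427 : XT := (XT.nd (nat_lit 1248) (nat_lit 380) (nat_lit 0) (XT.nd (nat_lit 624) (nat_lit 608) (nat_lit 0) (XT.nd (nat_lit 312) (nat_lit 228) (nat_lit 0) (XT.nd (nat_lit 156) (nat_lit 76) (nat_lit 0) (XT.nd (nat_lit 78) (nat_lit 152) (nat_lit 0) (XT.lf (nat_lit 0) (nat_lit 276762697104) (nat_lit 76) (nat_lit 153839488166) (nat_lit 152) (nat_lit 143871923581) (nat_lit 67) (nat_lit 5) (nat_lit 68) (nat_lit 5) (nat_lit 69) (nat_lit 4) (nat_lit 526) (nat_lit 465) (nat_lit 209)) (XT.lf (nat_lit 0) (nat_lit 22862915357) (nat_lit 152) (nat_lit 530247110457) (nat_lit 76) (nat_lit 40374199215) (nat_lit 65) (nat_lit 5) (nat_lit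 67) (nat_lit 5) (nat_lit 66) (nat_lit 4) (nat_lit 527) (nat_lit 465) (nat_lit 208))) (XT.nd (nat_lit 78) (nat_lit 76) (nat_lit 0) (XT.lf (nat_lit 0) (nat_lit 200745884099) (nat_lit 152) (nat_lit 165587123026) (nat_lit 76) (nat_lit 246611590691) (nat_lit 65) (nat_lit 5) (nat_lit 67) (nat_lit 5) (nat_lit 66) (nat_lit 4) (nat_lit 528) (nat_lit 465) (nat_lit 207)) (XT.lf (nat_lit 0) (nat_lit 224490842525) (nat_lit 76) (nat_lit 166537021746) (nat_lit 152) (nat_lit 242174881822) (nat_lit 64) (nat_lit 5) (nat_lit 65) (nat_lit 5) (nat_lit 66) (nat_lit 4) (nat_lit 529) (nat_lit 465) (nat_lit 206)))) (XT.nd (nat_lit 156) (nat_lit 76) (nat_lit 0) (XT.nd (nat_lit 78) (nat_lit 152) (nat_lit 0) (XT.lf (nat_lit 0) (nat_lit 594349380094) (nat_lit 152) (nat_lit 15233406495) (nat_lit 0) (nat_lit 44714743365) (nat_lit 64) (nat_lit 5) (nat_lit 66) (nat_lit 4) (nat_lit 64) (nat_lit 4) (nat_lit 530) (nat_lit 465) (nat_lit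 205)) (XT.lf (nat_lit 0) (nat_lit 136437930648) (nat_lit 152) (nat_lit 269936959928) (nat_lit 76) (nat_lit 269506928694) (nat_lit 62) (nat_lit 5) (nat_lit 64) (nat_lit 5) (nat_lit 63) (nat_lit 4) (nat_lit 531) (nat_lit 465) (nat_lit 204))) (XT.nd (nat_lit 78) (nat_lit 0) (nat_lit 0) (XT.lf (nat_lit 0) (nat_lit 154124314525) (nat_lit 76) (nat_lit 189172812037) (nat_lit 152) (nat_lit 355065635547) (nat_lit 61) (nat_lit 5) (nat_lit 62) (nat_lit 5) (nat_lit 63) (nat_lit 4) (nat_lit 532) (nat_lit 465) (nat_lit 203)) (XT.lf (nat_lit 0) (nat_lit 565752845900) (nat_lit 152) (nat_lit 113661161559) (nat_lit 0) (nat_lit 42291066450) (nat_lit 61) (nat_lit 5) (nat_lit 63) (nat_lit 4) (nat_lit 61) (nat_lit 4) (nat_lit 533) (nat_lit 465) (nat_lit 202))))) (XT.nd (nat_lit 312) (nat_lit 304) (nat_lit 0) (XT.nd (nat_lit 156) (nat_lit 76) (nat_lit 0) (XT.nd (nat_lit 78) (nat_lit 76) (nat_lit 0) (XT.lf (nat_lit 0)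 (nat_lit 60066186944) (nat_lit 152) (nat_lit 400326162877) (nat_lit 76) (nat_lit 285348215938) (nat_lit 59) (nat_lit 5) (nat_lit 61) (nat_lit 5) (nat_lit 60) (nat_lit 4) (nat_lit 534) (nat_lit 465) (nat_lit 201)) (XT.lf (nat_lit 0) (nat_lit 59835044085) (nat_lit 76) (nat_lit 224700055273) (nat_lit 152) (nat_lit 486170373437) (nat_lit 58) (nat_lit 5) (nat_lit 59) (nat_lit 5) (nat_lit 60) (nat_lit 4) (nat_lit 535) (nat_lit 465) (nat_lit 200))) (XT.nd (nat_lit 78) (nat_lit 76) (nat_lit 0) (XT.lf (nat_lit 0) (nat_lit 527473867167) (nat_lit 152) (nat_lit 240143779949) (nat_lit 0) (nat_lit 28938657580) (nat_lit 58) (nat_lit 5) (nat_lit 60) (nat_lit 4) (nat_lit 58) (nat_lit 4) (nat_lit 536) (nat_lit 465) (nat_lit 199)) (XT.lf (nat_lit 0) (nat_lit 258716008427) (nat_lit 76) (nat_lit 531566396313) (nat_lit 76) (nat_lit 33031131883) (nat_lit 57) (nat_lit 4) (nat_lit 58) (nat_lit 5) (nat_lit 58) (nat_lit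 4) (nat_lit 537) (nat_lit 465) (nat_lit 198)))) (XT.nd (nat_lit 156) (nat_lit 152) (nat_lit 0) (XT.nd (nat_lit 78) (nat_lit 76) (nat_lit 0) (XT.lf (nat_lit 0) (nat_lit 212080634300) (nat_lit 152) (nat_lit 63770016345) (nat_lit 76) (nat_lit 575183602027) (nat_lit 56) (nat_lit 5) (nat_lit 58) (nat_lit 5) (nat_lit 57) (nat_lit 4) (nat_lit 538) (nat_lit 465) (nat_lit 197)) (XT.lf (nat_lit 0) (nat_lit 475798519391) (nat_lit 152) (nat_lit 402939448437) (nat_lit 0) (nat_lit 1002932337) (nat_lit 55) (nat_lit 5) (nat_lit 57) (nat_lit 4) (nat_lit 55) (nat_lit 4) (nat_lit 539) (nat_lit 465) (nat_lit 196))) (XT.nd (nat_lit 78) (nat_lit 76) (nat_lit 0) (XT.lf (nat_lit 0) (nat_lit 136619278541) (nat_lit 76) (nat_lit 623835797402) (nat_lit 76) (nat_lit 149040165229) (nat_lit 54) (nat_lit 4) (nat_lit 55) (nat_lit 5) (nat_lit 55) (nat_lit 4) (nat_lit 540) (nat_lit 465) (nat_lit 195)) (XT.lf (nat_lit 0) (nat_lit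 121746779229) (nat_lit 152) (nat_lit 225214777723) (nat_lit 76) (nat_lit 593336363369) (nat_lit 53) (nat_lit 5) (nat_lit 55) (nat_lit 5) (nat_lit 54) (nat_lit 4) (nat_lit 541) (nat_lit 465) (nat_lit 194)))))) (XT.nd (nat_lit 56706) (nat_lit 0) (nat_lit 8816) (XT.nd (nat_lit 312) (nat_lit 76) (nat_lit 0) (XT.nd (nat_lit 156) (nat_lit 228) (nat_lit 0) (XT.nd (nat_lit 78) (nat_lit 0) (nat_lit 0) (XT.lf (nat_lit 0) (nat_lit 358872234641) (nat_lit 76) (nat_lit 47795058388) (nat_lit 152) (nat_lit 565571128880) (nat_lit 52) (nat_lit 5) (nat_lit 53) (nat_lit 5) (nat_lit 54) (nat_lit 4) (nat_lit 542) (nat_lit 465) (nat_lit 193)) (XT.lf (nat_lit 0) (nat_lit 713868582142) (nat_lit 152) (nat_lit 29823480187) (nat_lit 0) (nat_lit 261682148766) (nat_lit 52) (nat_lit 5) (nat_lit 54) (nat_lit 4) (nat_lit 52) (nat_lit 4) (nat_lit 543) (nat_lit 465) (nat_lit 192))) (XT.nd (nat_lit 78) (nat_lit 76) (nat_lit 0) (XT.lf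 (nat_lit 0) (nat_lit 6721900099) (nat_lit 152) (nat_lit 438406573525) (nat_lit 76) (nat_lit 594524275682) (nat_lit 50) (nat_lit 5) (nat_lit 52) (nat_lit 5) (nat_lit 51) (nat_lit 4) (nat_lit 544) (nat_lit 465) (nat_lit 191)) (XT.lf (nat_lit 0) (nat_lit 190597922497) (nat_lit 76) (nat_lit 122955455500) (nat_lit 152) (nat_lit 761678443738) (nat_lit 49) (nat_lit 5) (nat_lit 50) (nat_lit 5) (nat_lit 51) (nat_lit 4) (nat_lit 545) (nat_lit 465) (nat_lit 190)))) (XT.nd (nat_lit 56238) (nat_lit 0) (nat_lit 8740) (XT.nd (nat_lit 78) (nat_lit 76) (nat_lit 0) (XT.lf (nat_lit 0) (nat_lit 646634568530) (nat_lit 152) (nat_lit 249429146136) (nat_lit 0) (nat_lit 215980726183) (nat_lit 49) (nat_lit 5) (nat_lit 51) (nat_lit 4) (nat_lit 49) (nat_lit 4) (nat_lit 546) (nat_lit 465) (nat_lit 189)) (XT.lf (nat_lit 0) (nat_lit 429259058267) (nat_lit 76) (nat_lit 575828313220) (nat_lit 76) (nat_lit 145174441789) (nat_lit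 48) (nat_lit 4) (nat_lit 49) (nat_lit 5) (nat_lit 49) (nat_lit 4) (nat_lit 547) (nat_lit 465) (nat_lit 188))) (XT.nd (nat_lit 78) (nat_lit 0) (nat_lit 0) (XT.lf (nat_lit 0) (nat_lit 22465137080) (nat_lit 836) (nat_lit 14168313933) (nat_lit 836) (nat_lit 14168313933) (nat_lit 163) (nat_lit 3) (nat_lit 174) (nat_lit 3) (nat_lit 174) (nat_lit 5) (nat_lit 466) (nat_lit 466) (nat_lit 268)) (XT.lf (nat_lit 76) (nat_lit 22995305518) (nat_lit 0) (nat_lit 23423482659) (nat_lit 836) (nat_lit 57706566628) (nat_lit 164) (nat_lit 5) (nat_lit 163) (nat_lit 3) (nat_lit 174) (nat_lit 5) (nat_lit 467) (nat_lit 466) (nat_lit 267))))) (XT.nd (nat_lit 312) (nat_lit 0) (nat_lit 152) (XT.nd (nat_lit 156) (nat_lit 0) (nat_lit 76) (XT.nd (nat_lit 78) (nat_lit 0) (nat_lit 0) (XT.lf (nat_lit 0) (nat_lit 48920488890) (nat_lit 760) (nat_lit 29331162655) (nat_lit 836) (nat_lit 28474681393) (nat_lit 164) (nat_lit 5) (nat_lit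 174) (nat_lit 5) (nat_lit 175) (nat_lit 5) (nat_lit 468) (nat_lit 466) (nat_lit 266)) (XT.lf (nat_lit 76) (nat_lit 25489264257) (nat_lit 0) (nat_lit 26839580123) (nat_lit 836) (nat_lit 57089437142) (nat_lit 165) (nat_lit 5) (nat_lit 164) (nat_lit 5) (nat_lit 175) (nat_lit 5) (nat_lit 469) (nat_lit 466) (nat_lit 265))) (XT.nd (nat_lit 78) (nat_lit 0) (nat_lit 0) (XT.lf (nat_lit 0) (nat_lit 56835914297) (nat_lit 760) (nat_lit 28583134456) (nat_lit 836) (nat_lit 26779363976) (nat_lit 165) (nat_lit 5) (nat_lit 175) (nat_lit 5) (nat_lit 176) (nat_lit 5) (nat_lit 470) (nat_lit 466) (nat_lit 264)) (XT.lf (nat_lit 76) (nat_lit 30051656706) (nat_lit 0) (nat_lit 32425518228) (nat_lit 836) (nat_lit 52594933730) (nat_lit 166) (nat_lit 5) (nat_lit 165) (nat_lit 5) (nat_lit 176) (nat_lit 5) (nat_lit 471) (nat_lit 466) (nat_lit 263)))) (XT.nd (nat_lit 156) (nat_lit 0) (nat_lit 76) (XT.nd (nat_lit 78) (nat_lit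 0) (nat_lit 0) (XT.lf (nat_lit 0) (nat_lit 69254664631) (nat_lit 760) (nat_lit 25825433294) (nat_lit 836) (nat_lit 22966683193) (nat_lit 166) (nat_lit 5) (nat_lit 176) (nat_lit 5) (nat_lit 177) (nat_lit 5) (nat_lit 472) (nat_lit 466) (nat_lit 262)) (XT.lf (nat_lit 76) (nat_lit 36981162463) (nat_lit 0) (nat_lit 40498495678) (nat_lit 836) (nat_lit 43635097612) (nat_lit 167) (nat_lit 5) (nat_lit 166) (nat_lit 5) (nat_lit 177) (nat_lit 5) (nat_lit 473) (nat_lit 466) (nat_lit 261))) (XT.nd (nat_lit 78) (nat_lit 0) (nat_lit 0) (XT.lf (nat_lit 0) (nat_lit 86822619252) (nat_lit 760) (nat_lit 20759476057) (nat_lit 836) (nat_lit 16718697937) (nat_lit 167) (nat_lit 5) (nat_lit 177) (nat_lit 5) (nat_lit 178) (nat_lit 5) (nat_lit 474) (nat_lit 466) (nat_lit 260)) (XT.nd (nat_lit 78) (nat_lit 0) (nat_lit 76) (XT.lf (nat_lit 76) (nat_lit 46611044947) (nat_lit 0) (nat_lit 51413033159) (nat_lit 836) (nat_lit 29552487046)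 (nat_lit 168) (nat_lit 5) (nat_lit 167) (nat_lit 5) (nat_lit 178) (nat_lit 5) (nat_lit 475) (nat_lit 466) (nat_lit 259)) (XT.lf (nat_lit 0) (nat_lit 110260769642) (nat_lit 760) (nat_lit 13051846887) (nat_lit 76) (nat_lit 7679751157) (nat_lit 168) (nat_lit 5) (nat_lit 178) (nat_lit 5) (nat_lit 169) (nat_lit 5) (nat_lit 476) (nat_lit 466) (nat_lit 258))))))))
noncomputable def xc428 : XT := (XT.nd (nat_lit 1248) (nat_lit 2356) (nat_lit 0) (XT.nd (nat_lit 624) (nat_lit 1292) (nat_lit 0) (XT.nd (nat_lit 312) (nat_lit 684) (nat_lit 0) (XT.nd (nat_lit 156) (nat_lit 836) (nat_lit 0) (XT.nd (nat_lit 78) (nat_lit 76) (nat_lit 0) (XT.lf (nat_lit 0) (nat_lit 59312818157) (nat_lit 760) (nat_lit 65565088503) (nat_lit 836) (nat_lit 9612623162) (nat_lit 158) (nat_lit 5) (nat_lit 168) (nat_lit 5) (nat_lit 169) (nat_lit 5) (nat_lit 477) (nat_lit 466) (nat_lit 257)) (XT.lf (nat_lit 0) (nat_lit 2220696669) (nat_lit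 836) (nat_lit 2439763620) (nat_lit 76) (nat_lit 133490309745) (nat_lit 157) (nat_lit 5) (nat_lit 168) (nat_lit 5) (nat_lit 158) (nat_lit 5) (nat_lit 478) (nat_lit 466) (nat_lit 256))) (XT.nd (nat_lit 78) (nat_lit 380) (nat_lit 0) (XT.lf (nat_lit 0) (nat_lit 16460108210) (nat_lit 532) (nat_lit 66657744211) (nat_lit 76) (nat_lit 58761417008) (nat_lit 151) (nat_lit 5) (nat_lit 158) (nat_lit 5) (nat_lit 152) (nat_lit 5) (nat_lit 479) (nat_lit 466) (nat_lit 255)) (XT.lf (nat_lit 0) (nat_lit 11344223582) (nat_lit 380) (nat_lit 20362539440) (nat_lit 456) (nat_lit 114072667154) (nat_lit 146) (nat_lit 5) (nat_lit 151) (nat_lit 5) (nat_lit 152) (nat_lit 5) (nat_lit 480) (nat_lit 466) (nat_lit 254)))) (XT.nd (nat_lit 156) (nat_lit 304) (nat_lit 0) (XT.nd (nat_lit 78) (nat_lit 380) (nat_lit 0) (XT.lf (nat_lit 0) (nat_lit 49573765652) (nat_lit 456) (nat_lit 54987269858) (nat_lit 76) (nat_lit 45220662711) (nat_lit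 146) (nat_lit 5) (nat_lit 152) (nat_lit 5) (nat_lit 147) (nat_lit 5) (nat_lit 481) (nat_lit 466) (nat_lit 253)) (XT.lf (nat_lit 0) (nat_lit 29028098193) (nat_lit 380) (nat_lit 40092821697) (nat_lit 456) (nat_lit 84823819720) (nat_lit 141) (nat_lit 5) (nat_lit 146) (nat_lit 5) (nat_lit 147) (nat_lit 5) (nat_lit 482) (nat_lit 466) (nat_lit 252))) (XT.nd (nat_lit 78) (nat_lit 304) (nat_lit 0) (XT.lf (nat_lit 0) (nat_lit 91022614733) (nat_lit 456) (nat_lit 39562504096) (nat_lit 76) (nat_lit 27661955109) (nat_lit 141) (nat_lit 5) (nat_lit 147) (nat_lit 5) (nat_lit 142) (nat_lit 5) (nat_lit 483) (nat_lit 466) (nat_lit 251)) (XT.lf (nat_lit 0) (nat_lit 51035299994) (nat_lit 304) (nat_lit 64437953991) (nat_lit 380) (nat_lit 47218578027) (nat_lit 137) (nat_lit 5) (nat_lit 141) (nat_lit 5) (nat_lit 142) (nat_lit 5) (nat_lit 484) (nat_lit 466) (nat_lit 250))))) (XT.nd (nat_lit 312) (nat_lit 608) (nat_lit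 0) (XT.nd (nat_lit 156) (nat_lit 380) (nat_lit 0) (XT.nd (nat_lit 78) (nat_lit 304) (nat_lit 0) (XT.lf (nat_lit 0) (nat_lit 141905543815) (nat_lit 380) (nat_lit 19878353671) (nat_lit 76) (nat_lit 5536974586) (nat_lit 137) (nat_lit 5) (nat_lit 142) (nat_lit 5) (nat_lit 138) (nat_lit 5) (nat_lit 485) (nat_lit 466) (nat_lit 249)) (XT.lf (nat_lit 0) (nat_lit 77926277605) (nat_lit 304) (nat_lit 94005989430) (nat_lit 380) (nat_lit 135456167) (nat_lit 133) (nat_lit 5) (nat_lit 137) (nat_lit 5) (nat_lit 138) (nat_lit 5) (nat_lit 486) (nat_lit 466) (nat_lit 248))) (XT.nd (nat_lit 78) (nat_lit 0) (nat_lit 0) (XT.lf (nat_lit 0) (nat_lit 3985700584) (nat_lit 304) (nat_lit 21981685203) (nat_lit 380) (nat_lit 151043705135) (nat_lit 128) (nat_lit 5) (nat_lit 132) (nat_lit 5) (nat_lit 133) (nat_lit 5) (nat_lit 487) (nat_lit 466) (nat_lit 247)) (XT.lf (nat_lit 0) (nat_lit 55828634403) (nat_lit 380) (nat_lit 72700446671)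 (nat_lit 76) (nat_lit 53549544095) (nat_lit 128) (nat_lit 5) (nat_lit 133) (nat_lit 5) (nat_lit 129) (nat_lit 5) (nat_lit 488) (nat_lit 466) (nat_lit 246)))) (XT.nd (nat_lit 156) (nat_lit 304) (nat_lit 0) (XT.nd (nat_lit 78) (nat_lit 0) (nat_lit 0) (XT.lf (nat_lit 0) (nat_lit 33347496913) (nat_lit 304) (nat_lit 54716279229) (nat_lit 380) (nat_lit 99291718461) (nat_lit 124) (nat_lit 5) (nat_lit 128) (nat_lit 5) (nat_lit 129) (nat_lit 5) (nat_lit 489) (nat_lit 466) (nat_lit 245)) (XT.lf (nat_lit 0) (nat_lit 123517678975) (nat_lit 380) (nat_lit 45988993010) (nat_lit 76) (nat_lit 23309185334) (nat_lit 124) (nat_lit 5) (nat_lit 129) (nat_lit 5) (nat_lit 125) (nat_lit 5) (nat_lit 490) (nat_lit 466) (nat_lit 244))) (XT.nd (nat_lit 78) (nat_lit 76) (nat_lit 0) (XT.lf (nat_lit 0) (nat_lit 68733666954) (nat_lit 228) (nat_lit 93980562777) (nat_lit 304) (nat_lit 35736510811) (nat_lit 121) (nat_lit 5) (nat_lit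 124) (nat_lit 5) (nat_lit 125) (nat_lit 5) (nat_lit 491) (nat_lit 466) (nat_lit 243)) (XT.lf (nat_lit 0) (nat_lit 310594563) (nat_lit 304) (nat_lit 13544559050) (nat_lit 76) (nat_lit 190473029359) (nat_lit 120) (nat_lit 5) (nat_lit 124) (nat_lit 5) (nat_lit 121) (nat_lit 5) (nat_lit 492) (nat_lit 466) (nat_lit 242)))))) (XT.nd (nat_lit 624) (nat_lit 1140) (nat_lit 0) (XT.nd (nat_lit 312) (nat_lit 456) (nat_lit 0) (XT.nd (nat_lit 156) (nat_lit 228) (nat_lit 0) (XT.nd (nat_lit 78) (nat_lit 228) (nat_lit 0) (XT.lf (nat_lit 0) (nat_lit 39833781092) (nat_lit 380) (nat_lit 100102012624) (nat_lit 76) (nat_lit 70390676243) (nat_lit 116) (nat_lit 5) (nat_lit 121) (nat_lit 5) (nat_lit 117) (nat_lit 5) (nat_lit 493) (nat_lit 466) (nat_lit 241)) (XT.lf (nat_lit 0) (nat_lit 24595052003) (nat_lit 228) (nat_lit 57582202342) (nat_lit 304) (nat_lit 134405210589) (nat_lit 113) (nat_lit 5) (nat_lit 116) (nat_lit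 5) (nat_lit 117) (nat_lit 5) (nat_lit 494) (nat_lit 466) (nat_lit 240))) (XT.nd (nat_lit 78) (nat_lit 228) (nat_lit 0) (XT.lf (nat_lit 0) (nat_lit 128811862912) (nat_lit 304) (nat_lit 64543251934) (nat_lit 76) (nat_lit 29687446736) (nat_lit 113) (nat_lit 5) (nat_lit 117) (nat_lit 5) (nat_lit 114) (nat_lit 5) (nat_lit 495) (nat_lit 466) (nat_lit 239)) (XT.lf (nat_lit 0) (nat_lit 70588209107) (nat_lit 228) (nat_lit 109235904905) (nat_lit 304) (nat_lit 49899253452) (nat_lit 110) (nat_lit 5) (nat_lit 113) (nat_lit 5) (nat_lit 114) (nat_lit 5) (nat_lit 496) (nat_lit 466) (nat_lit 238)))) (XT.nd (nat_lit 156) (nat_lit 228) (nat_lit 0) (XT.nd (nat_lit 78) (nat_lit 228) (nat_lit 0) (XT.lf (nat_lit 0) (nat_lit 214716841407) (nat_lit 228) (nat_lit 19763072762) (nat_lit 304) (nat_lit 2203652652) (nat_lit 110) (nat_lit 5) (nat_lit 113) (nat_lit 5) (nat_lit 114) (nat_lit 5) (nat_lit 497) (nat_lit 466) (nat_lit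 237)) (XT.lf (nat_lit 0) (nat_lit 49503435877) (nat_lit 228) (nat_lit 119735531612) (nat_lit 76) (nat_lit 74557481068) (nat_lit 107) (nat_lit 5) (nat_lit 110) (nat_lit 5) (nat_lit 108) (nat_lit 5) (nat_lit 498) (nat_lit 466) (nat_lit 236))) (XT.nd (nat_lit 78) (nat_lit 0) (nat_lit 0) (XT.lf (nat_lit 0) (nat_lit 27417324787) (nat_lit 228) (nat_lit 77434530589) (nat_lit 304) (nat_lit 146354811052) (nat_lit 104) (nat_lit 5) (nat_lit 107) (nat_lit 5) (nat_lit 108) (nat_lit 5) (nat_lit 499) (nat_lit 466) (nat_lit 235)) (XT.lf (nat_lit 0) (nat_lit 165324611978) (nat_lit 304) (nat_lit 73130694964) (nat_lit 76) (nat_lit 20414242448) (nat_lit 104) (nat_lit 5) (nat_lit 108) (nat_lit 5) (nat_lit 105) (nat_lit 5) (nat_lit 500) (nat_lit 466) (nat_lit 234))))) (XT.nd (nat_lit 312) (nat_lit 532) (nat_lit 0) (XT.nd (nat_lit 156) (nat_lit 380) (nat_lit 0) (XT.nd (nat_lit 78) (nat_lit 76) (nat_lit 0) (XT.lf (nat_lit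 0) (nat_lit 86561795944) (nat_lit 152) (nat_lit 144879981171) (nat_lit 228) (nat_lit 35342760856) (nat_lit 102) (nat_lit 5) (nat_lit 104) (nat_lit 5) (nat_lit 105) (nat_lit 5) (nat_lit 501) (nat_lit 466) (nat_lit 233)) (XT.lf (nat_lit 0) (nat_lit 26203426710) (nat_lit 228) (nat_lit 18678333183) (nat_lit 76) (nat_lit 230130464973) (nat_lit 101) (nat_lit 5) (nat_lit 104) (nat_lit 5) (nat_lit 102) (nat_lit 5) (nat_lit 502) (nat_lit 466) (nat_lit 232))) (XT.nd (nat_lit 78) (nat_lit 152) (nat_lit 0) (XT.lf (nat_lit 0) (nat_lit 93052123002) (nat_lit 304) (nat_lit 129153480279) (nat_lit 76) (nat_lit 61246075959) (nat_lit 98) (nat_lit 5) (nat_lit 102) (nat_lit 5) (nat_lit 99) (nat_lit 5) (nat_lit 503) (nat_lit 466) (nat_lit 231)) (XT.lf (nat_lit 0) (nat_lit 44973021382) (nat_lit 152) (nat_lit 120029554621) (nat_lit 228) (nat_lit 127222564239) (nat_lit 96) (nat_lit 5) (nat_lit 98) (nat_lit 5) (nat_lit 99)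 (nat_lit 5) (nat_lit 504) (nat_lit 466) (nat_lit 230)))) (XT.nd (nat_lit 156) (nat_lit 304) (nat_lit 0) (XT.nd (nat_lit 78) (nat_lit 228) (nat_lit 0) (XT.lf (nat_lit 0) (nat_lit 232289587061) (nat_lit 152) (nat_lit 10448131966) (nat_lit 228) (nat_lit 58590196902) (nat_lit 96) (nat_lit 5) (nat_lit 98) (nat_lit 5) (nat_lit 99) (nat_lit 5) (nat_lit 505) (nat_lit 466) (nat_lit 229)) (XT.lf (nat_lit 0) (nat_lit 16611564382) (nat_lit 228) (nat_lit 190675049874) (nat_lit 76) (nat_lit 103410246920) (nat_lit 93) (nat_lit 5) (nat_lit 96) (nat_lit 5) (nat_lit 94) (nat_lit 5) (nat_lit 506) (nat_lit 466) (nat_lit 228))) (XT.nd (nat_lit 78) (nat_lit 304) (nat_lit 0) (XT.lf (nat_lit 0) (nat_lit 94963939961) (nat_lit 228) (nat_lit 695098110) (nat_lit 76) (nat_lit 224759213814) (nat_lit 93) (nat_lit 5) (nat_lit 96) (nat_lit 5) (nat_lit 94) (nat_lit 5) (nat_lit 507) (nat_lit 466) (nat_lit 227)) (XT.nd (nat_lit 78)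 (nat_lit 152) (nat_lit 0) (XT.lf (nat_lit 0) (nat_lit 180829037298) (nat_lit 228) (nat_lit 125498050404) (nat_lit 76) (nat_lit 24118869282) (nat_lit 91) (nat_lit 5) (nat_lit 94) (nat_lit 5) (nat_lit 92) (nat_lit 5) (nat_lit 508) (nat_lit 466) (nat_lit 226)) (XT.lf (nat_lit 0) (nat_lit 80944937111) (nat_lit 152) (nat_lit 192886277101) (nat_lit 228) (nat_lit 67001641892) (nat_lit 89) (nat_lit 5) (nat_lit 91) (nat_lit 5) (nat_lit 92) (nat_lit 5) (nat_lit 509) (nat_lit 466) (nat_lit 225))))))))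
noncomputable def xc429 : XT := (XT.nd (nat_lit 1248) (nat_lit 1140) (nat_lit 0) (XT.nd (nat_lit 624) (nat_lit 836) (nat_lit 0) (XT.nd (nat_lit 312) (nat_lit 380) (nat_lit 0) (XT.nd (nat_lit 156) (nat_lit 152) (nat_lit 0) (XT.nd (nat_lit 78) (nat_lit 152) (nat_lit 0) (XT.lf (nat_lit 0) (nat_lit 21272570204) (nat_lit 228) (nat_lit 49909024277) (nat_lit 76) (nat_lit 280434086707) (nat_lit 88) (nat_lit 5) (nat_lit 91) (nat_lit 5) (nat_lit 89) (nat_lit 5) (nat_lit 510) (nat_lit 466) (nat_lit 224)) (XT.lf (nat_lit 0) (nat_lit 115388726187) (nat_lit 228) (nat_lit 188618972786) (nat_lit 76) (nat_lit 58691032787) (nat_lit 86) (nat_lit 5) (nat_lit 89) (nat_lit 5) (nat_lit 87) (nat_lit 5) (nat_lit 511) (nat_lit 466) (nat_lit 223))) (XT.nd (nat_lit 78) (nat_lit 0) (nat_lit 0) (XT.lf (nat_lit 0) (nat_lit 36700761798) (nat_lit 152) (nat_lit 180108838837) (nat_lit 228) (nat_lit 157396388694) (nat_lit 84) (nat_lit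 5) (nat_lit 86) (nat_lit 5) (nat_lit 87) (nat_lit 5) (nat_lit 512) (nat_lit 466) (nat_lit 222)) (XT.lf (nat_lit 0) (nat_lit 279834749595) (nat_lit 152) (nat_lit 46661032477) (nat_lit 228) (nat_lit 59633114545) (nat_lit 84) (nat_lit 5) (nat_lit 86) (nat_lit 5) (nat_lit 87) (nat_lit 5) (nat_lit 513) (nat_lit 466) (nat_lit 221)))) (XT.nd (nat_lit 156) (nat_lit 228) (nat_lit 0) (XT.nd (nat_lit 78) (nat_lit 0) (nat_lit 0) (XT.lf (nat_lit 0) (nat_lit 45337872672) (nat_lit 152) (nat_lit 259714881495) (nat_lit 76) (nat_lit 93376793056) (nat_lit 82) (nat_lit 5) (nat_lit 84) (nat_lit 5) (nat_lit 83) (nat_lit 5) (nat_lit 514) (nat_lit 466) (nat_lit 220)) (XT.lf (nat_lit 0) (nat_lit 156147847233) (nat_lit 152) (nat_lit 13363203347) (nat_lit 76) (nat_lit 241655575097) (nat_lit 82) (nat_lit 5) (nat_lit 84) (nat_lit 5) (nat_lit 83) (nat_lit 5) (nat_lit 515) (nat_lit 466) (nat_lit 219))) (XT.nd (nat_lit 78) (nat_lit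 76) (nat_lit 0) (XT.lf (nat_lit 0) (nat_lit 253416832863) (nat_lit 152) (nat_lit 23037952105) (nat_lit 228) (nat_lit 147887949864) (nat_lit 80) (nat_lit 5) (nat_lit 82) (nat_lit 5) (nat_lit 83) (nat_lit 5) (nat_lit 516) (nat_lit 466) (nat_lit 218)) (XT.lf (nat_lit 0) (nat_lit 96889166546) (nat_lit 76) (nat_lit 309672066317) (nat_lit 152) (nat_lit 31427208421) (nat_lit 79) (nat_lit 5) (nat_lit 80) (nat_lit 5) (nat_lit 81) (nat_lit 4) (nat_lit 517) (nat_lit 466) (nat_lit 217))))) (XT.nd (nat_lit 312) (nat_lit 456) (nat_lit 0) (XT.nd (nat_lit 156) (nat_lit 152) (nat_lit 0) (XT.nd (nat_lit 78) (nat_lit 152) (nat_lit 0) (XT.lf (nat_lit 0) (nat_lit 91268349417) (nat_lit 152) (nat_lit 69986347017) (nat_lit 76) (nat_lit 290824822493) (nat_lit 78) (nat_lit 5) (nat_lit 80) (nat_lit 5) (nat_lit 79) (nat_lit 5) (nat_lit 518) (nat_lit 466) (nat_lit 216)) (XT.lf (nat_lit 0) (nat_lit 221248210354) (nat_lit 152)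 (nat_lit 1248541473) (nat_lit 228) (nat_lit 244179927272) (nat_lit 76) (nat_lit 5) (nat_lit 78) (nat_lit 5) (nat_lit 79) (nat_lit 5) (nat_lit 519) (nat_lit 466) (nat_lit 215))) (XT.nd (nat_lit 78) (nat_lit 76) (nat_lit 0) (XT.lf (nat_lit 0) (nat_lit 46391516670) (nat_lit 76) (nat_lit 318427523689) (nat_lit 152) (nat_lit 116958033622) (nat_lit 75) (nat_lit 5) (nat_lit 76) (nat_lit 5) (nat_lit 77) (nat_lit 4) (nat_lit 520) (nat_lit 466) (nat_lit 214)) (XT.lf (nat_lit 0) (nat_lit 20337831782) (nat_lit 152) (nat_lit 136449752928) (nat_lit 76) (nat_lit 340619676819) (nat_lit 74) (nat_lit 5) (nat_lit 76) (nat_lit 5) (nat_lit 75) (nat_lit 5) (nat_lit 521) (nat_lit 466) (nat_lit 213)))) (XT.nd (nat_lit 156) (nat_lit 304) (nat_lit 0) (XT.nd (nat_lit 78) (nat_lit 0) (nat_lit 0) (XT.lf (nat_lit 0) (nat_lit 163678533806) (nat_lit 228) (nat_lit 332542638435) (nat_lit 76) (nat_lit 17346388964) (nat_lit 72) (nat_lit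 5) (nat_lit 75) (nat_lit 5) (nat_lit 73) (nat_lit 4) (nat_lit 522) (nat_lit 466) (nat_lit 212)) (XT.lf (nat_lit 0) (nat_lit 319105211732) (nat_lit 228) (nat_lit 13918080674) (nat_lit 76) (nat_lit 197266636420) (nat_lit 72) (nat_lit 5) (nat_lit 75) (nat_lit 5) (nat_lit 73) (nat_lit 4) (nat_lit 523) (nat_lit 466) (nat_lit 211))) (XT.nd (nat_lit 78) (nat_lit 228) (nat_lit 0) (XT.lf (nat_lit 0) (nat_lit 331239302165) (nat_lit 76) (nat_lit 156235425928) (nat_lit 152) (nat_lit 60115111509) (nat_lit 71) (nat_lit 5) (nat_lit 72) (nat_lit 5) (nat_lit 73) (nat_lit 4) (nat_lit 524) (nat_lit 466) (nat_lit 210)) (XT.lf (nat_lit 0) (nat_lit 98162191117) (nat_lit 228) (nat_lit 435037994059) (nat_lit 76) (nat_lit 32337307107) (nat_lit 68) (nat_lit 5) (nat_lit 71) (nat_lit 5) (nat_lit 69) (nat_lit 4) (nat_lit 525) (nat_lit 466) (nat_lit 209)))))) (XT.nd (nat_lit 624) (nat_lit 608) (nat_lit 0) (XT.nd (nat_lit 312)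 (nat_lit 304) (nat_lit 0) (XT.nd (nat_lit 156) (nat_lit 152) (nat_lit 0) (XT.nd (nat_lit 78) (nat_lit 76) (nat_lit 0) (XT.lf (nat_lit 0) (nat_lit 268618331360) (nat_lit 228) (nat_lit 85603015149) (nat_lit 76) (nat_lit 229797644689) (nat_lit 68) (nat_lit 5) (nat_lit 71) (nat_lit 5) (nat_lit 69) (nat_lit 4) (nat_lit 526) (nat_lit 466) (nat_lit 208)) (XT.lf (nat_lit 0) (nat_lit 290604756258) (nat_lit 76) (nat_lit 161529611600) (nat_lit 152) (nat_lit 151063342737) (nat_lit 67) (nat_lit 5) (nat_lit 68) (nat_lit 5) (nat_lit 69) (nat_lit 4) (nat_lit 527) (nat_lit 466) (nat_lit 207))) (XT.nd (nat_lit 78) (nat_lit 0) (nat_lit 0) (XT.lf (nat_lit 0) (nat_lit 24008158530) (nat_lit 152) (nat_lit 556755462006) (nat_lit 76) (nat_lit 42394710846) (nat_lit 65) (nat_lit 5) (nat_lit 67) (nat_lit 5) (nat_lit 66) (nat_lit 4) (nat_lit 528) (nat_lit 466) (nat_lit 206)) (XT.lf (nat_lit 0) (nat_lit 210785175833) (nat_lit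 152) (nat_lit 173862665868) (nat_lit 76) (nat_lit 258943886102) (nat_lit 65) (nat_lit 5) (nat_lit 67) (nat_lit 5) (nat_lit 66) (nat_lit 4) (nat_lit 529) (nat_lit 466) (nat_lit 205)))) (XT.nd (nat_lit 156) (nat_lit 228) (nat_lit 0) (XT.nd (nat_lit 78) (nat_lit 0) (nat_lit 0) (XT.lf (nat_lit 0) (nat_lit 235719136455) (nat_lit 76) (nat_lit 174862082014) (nat_lit 152) (nat_lit 254281566854) (nat_lit 64) (nat_lit 5) (nat_lit 65) (nat_lit 5) (nat_lit 66) (nat_lit 4) (nat_lit 530) (nat_lit 466) (nat_lit 204)) (XT.lf (nat_lit 0) (nat_lit 624068743331) (nat_lit 152) (nat_lit 15991436897) (nat_lit 0) (nat_lit 46952131487) (nat_lit 64) (nat_lit 5) (nat_lit 66) (nat_lit 4) (nat_lit 64) (nat_lit 4) (nat_lit 531) (nat_lit 466) (nat_lit 203))) (XT.nd (nat_lit 78) (nat_lit 76) (nat_lit 0) (XT.lf (nat_lit 0) (nat_lit 143261717638) (nat_lit 152) (nat_lit 283430164180) (nat_lit 76) (nat_lit 282983933869) (nat_lit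 62) (nat_lit 5) (nat_lit 64) (nat_lit 5) (nat_lit 63) (nat_lit 4) (nat_lit 532) (nat_lit 466) (nat_lit 202)) (XT.lf (nat_lit 0) (nat_lit 161834115224) (nat_lit 76) (nat_lit 198629724072) (nat_lit 152) (nat_lit 372816968076) (nat_lit 61) (nat_lit 5) (nat_lit 62) (nat_lit 5) (nat_lit 63) (nat_lit 4) (nat_lit 533) (nat_lit 466) (nat_lit 201))))) (XT.nd (nat_lit 312) (nat_lit 380) (nat_lit 0) (XT.nd (nat_lit 156) (nat_lit 76) (nat_lit 0) (XT.nd (nat_lit 78) (nat_lit 152) (nat_lit 0) (XT.lf (nat_lit 0) (nat_lit 594042281905) (nat_lit 152) (nat_lit 119340742659) (nat_lit 0) (nat_lit 44407213336) (nat_lit 61) (nat_lit 5) (nat_lit 63) (nat_lit 4) (nat_lit 61) (nat_lit 4) (nat_lit 534) (nat_lit 466) (nat_lit 200)) (XT.lf (nat_lit 0) (nat_lit 63071286894) (nat_lit 152) (nat_lit 420338990900) (nat_lit 76) (nat_lit 299617226705) (nat_lit 59) (nat_lit 5) (nat_lit 61) (nat_lit 5) (nat_lit 60) (nat_lit 4) (nat_lit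 535) (nat_lit 466) (nat_lit 199))) (XT.nd (nat_lit 78) (nat_lit 0) (nat_lit 0) (XT.lf (nat_lit 0) (nat_lit 62830220280) (nat_lit 76) (nat_lit 235933392841) (nat_lit 152) (nat_lit 510477045357) (nat_lit 58) (nat_lit 5) (nat_lit 59) (nat_lit 5) (nat_lit 60) (nat_lit 4) (nat_lit 536) (nat_lit 466) (nat_lit 198)) (XT.lf (nat_lit 0) (nat_lit 553849260328) (nat_lit 152) (nat_lit 252147648994) (nat_lit 0) (nat_lit 30387125601) (nat_lit 58) (nat_lit 5) (nat_lit 60) (nat_lit 4) (nat_lit 58) (nat_lit 4) (nat_lit 537) (nat_lit 466) (nat_lit 197)))) (XT.nd (nat_lit 156) (nat_lit 228) (nat_lit 0) (XT.nd (nat_lit 78) (nat_lit 76) (nat_lit 0) (XT.lf (nat_lit 0) (nat_lit 271655075253) (nat_lit 76) (nat_lit 558143119582) (nat_lit 76) (nat_lit 34680935111) (nat_lit 57) (nat_lit 4) (nat_lit 58) (nat_lit 5) (nat_lit 58) (nat_lit 4) (nat_lit 538) (nat_lit 466) (nat_lit 196)) (XT.lf (nat_lit 0) (nat_lit 222686282441)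 (nat_lit 152) (nat_lit 66955352840) (nat_lit 76) (nat_lit 603944249188) (nat_lit 56) (nat_lit 5) (nat_lit 58) (nat_lit 5) (nat_lit 57) (nat_lit 4) (nat_lit 539) (nat_lit 466) (nat_lit 195))) (XT.nd (nat_lit 78) (nat_lit 152) (nat_lit 0) (XT.lf (nat_lit 0) (nat_lit 499590057234) (nat_lit 152) (nat_lit 423083251971) (nat_lit 0) (nat_lit 1054555361) (nat_lit 55) (nat_lit 5) (nat_lit 57) (nat_lit 4) (nat_lit 55) (nat_lit 4) (nat_lit 540) (nat_lit 466) (nat_lit 194)) (XT.nd (nat_lit 78) (nat_lit 76) (nat_lit 0) (XT.lf (nat_lit 0) (nat_lit 143453360244) (nat_lit 76) (nat_lit 655026053291) (nat_lit 76) (nat_lit 156490510493) (nat_lit 54) (nat_lit 4) (nat_lit 55) (nat_lit 5) (nat_lit 55) (nat_lit 4) (nat_lit 541) (nat_lit 466) (nat_lit 193)) (XT.lf (nat_lit 0) (nat_lit 127835651306) (nat_lit 152) (nat_lit 236472496594) (nat_lit 76) (nat_lit 623004591769) (nat_lit 53) (nat_lit 5) (nat_lit 55) (nat_lit 5)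 (nat_lit 54) (nat_lit 4) (nat_lit 542) (nat_lit 466) (nat_lit 192))))))))
noncomputable def xc430 : XT := (XT.nd (nat_lit 57408) (nat_lit 0) (nat_lit 5092) (XT.nd (nat_lit 56784) (nat_lit 0) (nat_lit 8740) (XT.nd (nat_lit 312) (nat_lit 0) (nat_lit 0) (XT.nd (nat_lit 156) (nat_lit 228) (nat_lit 0) (XT.nd (nat_lit 78) (nat_lit 0) (nat_lit 0) (XT.lf (nat_lit 0) (nat_lit 376818817678) (nat_lit 76) (nat_lit 50183346503) (nat_lit 152) (nat_lit 593848103487) (nat_lit 52) (nat_lit 5) (nat_lit 53) (nat_lit 5) (nat_lit 54) (nat_lit 4) (nat_lit 543) (nat_lit 466) (nat_lit 191)) (XT.lf (nat_lit 0) (nat_lit 749563467792) (nat_lit 152) (nat_lit 31311774414) (nat_lit 0) (nat_lit 274767606605) (nat_lit 52) (nat_lit 5) (nat_lit 54) (nat_lit 4) (nat_lit 52) (nat_lit 4) (nat_lit 544) (nat_lit 466) (nat_lit 190))) (XT.nd (nat_lit 78) (nat_lit 76) (nat_lit 0) (XT.lf (nat_lit 0) (nat_lit 7059450000) (nat_lit 152) (nat_lit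 460324020752) (nat_lit 76) (nat_lit 624251843265) (nat_lit 50) (nat_lit 5) (nat_lit 52) (nat_lit 5) (nat_lit 51) (nat_lit 4) (nat_lit 545) (nat_lit 466) (nat_lit 189)) (XT.lf (nat_lit 0) (nat_lit 200130653596) (nat_lit 76) (nat_lit 129101823178) (nat_lit 152) (nat_lit 799760864545) (nat_lit 49) (nat_lit 5) (nat_lit 50) (nat_lit 5) (nat_lit 51) (nat_lit 4) (nat_lit 546) (nat_lit 466) (nat_lit 188)))) (XT.nd (nat_lit 56316) (nat_lit 0) (nat_lit 8664) (XT.nd (nat_lit 56238) (nat_lit 0) (nat_lit 8664) (XT.lf (nat_lit 0) (nat_lit 678967679637) (nat_lit 152) (nat_lit 261897856263) (nat_lit 0) (nat_lit 226781057850) (nat_lit 49) (nat_lit 5) (nat_lit 51) (nat_lit 4) (nat_lit 49) (nat_lit 4) (nat_lit 547) (nat_lit 466) (nat_lit 187)) (XT.lf (nat_lit 0) (nat_lit 23594532571) (nat_lit 836) (nat_lit 14873506609) (nat_lit 836) (nat_lit 14873506609) (nat_lit 163) (nat_lit 3) (nat_lit 174) (nat_lit 3) (nat_lit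 174) (nat_lit 5) (nat_lit 467) (nat_lit 467) (nat_lit 266))) (XT.nd (nat_lit 78) (nat_lit 0) (nat_lit 76) (XT.lf (nat_lit 76) (nat_lit 24151412868) (nat_lit 0) (nat_lit 24600106377) (nat_lit 836) (nat_lit 60579512815) (nat_lit 164) (nat_lit 5) (nat_lit 163) (nat_lit 3) (nat_lit 174) (nat_lit 5) (nat_lit 468) (nat_lit 467) (nat_lit 265)) (XT.lf (nat_lit 0) (nat_lit 51377662455) (nat_lit 760) (nat_lit 30791037319) (nat_lit 836) (nat_lit 29893391497) (nat_lit 164) (nat_lit 5) (nat_lit 174) (nat_lit 5) (nat_lit 175) (nat_lit 5) (nat_lit 469) (nat_lit 467) (nat_lit 264))))) (XT.nd (nat_lit 312) (nat_lit 0) (nat_lit 152) (XT.nd (nat_lit 156) (nat_lit 0) (nat_lit 76) (XT.nd (nat_lit 78) (nat_lit 0) (nat_lit 76) (XT.lf (nat_lit 76) (nat_lit 26770303141) (nat_lit 0) (nat_lit 28185704332) (nat_lit 836) (nat_lit 59932651263) (nat_lit 165) (nat_lit 5) (nat_lit 164) (nat_lit 5) (nat_lit 175) (nat_lit 5) (nat_lit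 470) (nat_lit 467) (nat_lit 263)) (XT.lf (nat_lit 0) (nat_lit 59687858732) (nat_lit 760) (nat_lit 30005455701) (nat_lit 836) (nat_lit 28114510718) (nat_lit 165) (nat_lit 5) (nat_lit 175) (nat_lit 5) (nat_lit 176) (nat_lit 5) (nat_lit 471) (nat_lit 467) (nat_lit 262))) (XT.nd (nat_lit 78) (nat_lit 0) (nat_lit 76) (XT.lf (nat_lit 76) (nat_lit 31560964770) (nat_lit 0) (nat_lit 34049839358) (nat_lit 836) (nat_lit 55214420705) (nat_lit 166) (nat_lit 5) (nat_lit 165) (nat_lit 5) (nat_lit 176) (nat_lit 5) (nat_lit 472) (nat_lit 467) (nat_lit 261)) (XT.lf (nat_lit 0) (nat_lit 72726657770) (nat_lit 760) (nat_lit 27109788733) (nat_lit 836) (nat_lit 24112209969) (nat_lit 166) (nat_lit 5) (nat_lit 176) (nat_lit 5) (nat_lit 177) (nat_lit 5) (nat_lit 473) (nat_lit 467) (nat_lit 260)))) (XT.nd (nat_lit 156) (nat_lit 0) (nat_lit 76) (XT.nd (nat_lit 78) (nat_lit 0) (nat_lit 76) (XT.lf (nat_lit 76) (nat_lit 38837025260)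 (nat_lit 0) (nat_lit 42525540987) (nat_lit 836) (nat_lit 45807480360) (nat_lit 167) (nat_lit 5) (nat_lit 166) (nat_lit 5) (nat_lit 177) (nat_lit 5) (nat_lit 474) (nat_lit 467) (nat_lit 259)) (XT.lf (nat_lit 0) (nat_lit 91172218874) (nat_lit 760) (nat_lit 21790512036) (nat_lit 836) (nat_lit 17552677924) (nat_lit 167) (nat_lit 5) (nat_lit 177) (nat_lit 5) (nat_lit 178) (nat_lit 5) (nat_lit 475) (nat_lit 467) (nat_lit 258))) (XT.nd (nat_lit 78) (nat_lit 0) (nat_lit 76) (XT.lf (nat_lit 76) (nat_lit 48948423118) (nat_lit 0) (nat_lit 53985030855) (nat_lit 836) (nat_lit 31021530228) (nat_lit 168) (nat_lit 5) (nat_lit 167) (nat_lit 5) (nat_lit 178) (nat_lit 5) (nat_lit 476) (nat_lit 467) (nat_lit 257)) (XT.lf (nat_lit 0) (nat_lit 115781570930) (nat_lit 760) (nat_lit 13697528615) (nat_lit 76) (nat_lit 8062497804) (nat_lit 168) (nat_lit 5) (nat_lit 178) (nat_lit 5) (nat_lit 169) (nat_lit 5) (nat_lit 477)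 (nat_lit 467) (nat_lit 256)))))) (XT.nd (nat_lit 624) (nat_lit 1596) (nat_lit 0) (XT.nd (nat_lit 312) (nat_lit 684) (nat_lit 0) (XT.nd (nat_lit 156) (nat_lit 836) (nat_lit 0) (XT.nd (nat_lit 78) (nat_lit 76) (nat_lit 0) (XT.lf (nat_lit 0) (nat_lit 62285258220) (nat_lit 760) (nat_lit 68844043075) (nat_lit 836) (nat_lit 10085379499) (nat_lit 158) (nat_lit 5) (nat_lit 168) (nat_lit 5) (nat_lit 169) (nat_lit 5) (nat_lit 478) (nat_lit 467) (nat_lit 255)) (XT.lf (nat_lit 0) (nat_lit 2338991291) (nat_lit 836) (nat_lit 2555035871) (nat_lit 76) (nat_lit 140163917882) (nat_lit 157) (nat_lit 5) (nat_lit 168) (nat_lit 5) (nat_lit 158) (nat_lit 5) (nat_lit 479) (nat_lit 467) (nat_lit 254))) (XT.nd (nat_lit 78) (nat_lit 380) (nat_lit 0) (XT.lf (nat_lit 0) (nat_lit 17290124472) (nat_lit 532) (nat_lit 69983666077) (nat_lit 76) (nat_lit 61699091330) (nat_lit 151) (nat_lit 5) (nat_lit 158) (nat_lit 5) (nat_lit 152)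 (nat_lit 5) (nat_lit 480) (nat_lit 467) (nat_lit 253)) (XT.lf (nat_lit 0) (nat_lit 11918287761) (nat_lit 380) (nat_lit 21380597408) (nat_lit 456) (nat_lit 119769176859) (nat_lit 146) (nat_lit 5) (nat_lit 151) (nat_lit 5) (nat_lit 152) (nat_lit 5) (nat_lit 481) (nat_lit 467) (nat_lit 252)))) (XT.nd (nat_lit 156) (nat_lit 304) (nat_lit 0) (XT.nd (nat_lit 78) (nat_lit 380) (nat_lit 0) (XT.lf (nat_lit 0) (nat_lit 52058915909) (nat_lit 456) (nat_lit 57729784228) (nat_lit 76) (nat_lit 47481759462) (nat_lit 146) (nat_lit 5) (nat_lit 152) (nat_lit 5) (nat_lit 147) (nat_lit 5) (nat_lit 482) (nat_lit 467) (nat_lit 251)) (XT.lf (nat_lit 0) (nat_lit 30486241755) (nat_lit 380) (nat_lit 42096983600) (nat_lit 456) (nat_lit 89058437848) (nat_lit 141) (nat_lit 5) (nat_lit 146) (nat_lit 5) (nat_lit 147) (nat_lit 5) (nat_lit 483) (nat_lit 467) (nat_lit 250))) (XT.nd (nat_lit 78) (nat_lit 304) (nat_lit 0) (XT.lf (nat_lit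 0) (nat_lit 95579713995) (nat_lit 456) (nat_lit 41533920198) (nat_lit 76) (nat_lit 29045494622) (nat_lit 141) (nat_lit 5) (nat_lit 147) (nat_lit 5) (nat_lit 142) (nat_lit 5) (nat_lit 484) (nat_lit 467) (nat_lit 249)) (XT.lf (nat_lit 0) (nat_lit 53593665885) (nat_lit 304) (nat_lit 67659038168) (nat_lit 380) (nat_lit 49573429816) (nat_lit 137) (nat_lit 5) (nat_lit 141) (nat_lit 5) (nat_lit 142) (nat_lit 5) (nat_lit 485) (nat_lit 467) (nat_lit 248))))) (XT.nd (nat_lit 312) (nat_lit 912) (nat_lit 0) (XT.nd (nat_lit 156) (nat_lit 380) (nat_lit 0) (XT.nd (nat_lit 78) (nat_lit 304) (nat_lit 0) (XT.lf (nat_lit 0) (nat_lit 149006344882) (nat_lit 380) (nat_lit 20865720941) (nat_lit 76) (nat_lit 5814573301) (nat_lit 137) (nat_lit 5) (nat_lit 142) (nat_lit 5) (nat_lit 138) (nat_lit 5) (nat_lit 486) (nat_lit 467) (nat_lit 247)) (XT.lf (nat_lit 0) (nat_lit 81829036247) (nat_lit 304) (nat_lit 98705205595) (nat_lit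 380) (nat_lit 136599107) (nat_lit 133) (nat_lit 5) (nat_lit 137) (nat_lit 5) (nat_lit 138) (nat_lit 5) (nat_lit 487) (nat_lit 467) (nat_lit 246))) (XT.nd (nat_lit 78) (nat_lit 0) (nat_lit 0) (XT.lf (nat_lit 0) (nat_lit 4191504031) (nat_lit 304) (nat_lit 23079542986) (nat_lit 380) (nat_lit 158590333546) (nat_lit 128) (nat_lit 5) (nat_lit 132) (nat_lit 5) (nat_lit 133) (nat_lit 5) (nat_lit 488) (nat_lit 467) (nat_lit 245)) (XT.lf (nat_lit 0) (nat_lit 58625124303) (nat_lit 380) (nat_lit 76329026934) (nat_lit 76) (nat_lit 56228151988) (nat_lit 128) (nat_lit 5) (nat_lit 133) (nat_lit 5) (nat_lit 129) (nat_lit 5) (nat_lit 489) (nat_lit 467) (nat_lit 244)))) (XT.nd (nat_lit 156) (nat_lit 608) (nat_lit 0) (XT.nd (nat_lit 78) (nat_lit 0) (nat_lit 0) (XT.lf (nat_lit 0) (nat_lit 35021209925) (nat_lit 304) (nat_lit 57450671295) (nat_lit 380) (nat_lit 104251142021) (nat_lit 124) (nat_lit 5) (nat_lit 128) (nat_lit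 5) (nat_lit 129) (nat_lit 5) (nat_lit 490) (nat_lit 467) (nat_lit 243)) (XT.lf (nat_lit 0) (nat_lit 129698266229) (nat_lit 380) (nat_lit 48282193080) (nat_lit 76) (nat_lit 24475955445) (nat_lit 124) (nat_lit 5) (nat_lit 129) (nat_lit 5) (nat_lit 125) (nat_lit 5) (nat_lit 491) (nat_lit 467) (nat_lit 242))) (XT.nd (nat_lit 78) (nat_lit 380) (nat_lit 0) (XT.lf (nat_lit 0) (nat_lit 72176499082) (nat_lit 228) (nat_lit 98678017473) (nat_lit 304) (nat_lit 37518531993) (nat_lit 121) (nat_lit 5) (nat_lit 124) (nat_lit 5) (nat_lit 125) (nat_lit 5) (nat_lit 492) (nat_lit 467) (nat_lit 241)) (XT.nd (nat_lit 78) (nat_lit 304) (nat_lit 0) (XT.lf (nat_lit 0) (nat_lit 330553424) (nat_lit 304) (nat_lit 14215784343) (nat_lit 76) (nat_lit 199998032667) (nat_lit 120) (nat_lit 5) (nat_lit 124) (nat_lit 5) (nat_lit 121) (nat_lit 5) (nat_lit 493) (nat_lit 467) (nat_lit 240)) (XT.lf (nat_lit 0) (nat_lit 41829805484) (nat_lit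 380) (nat_lit 105101016582) (nat_lit 76) (nat_lit 73911754406) (nat_lit 116) (nat_lit 5) (nat_lit 121) (nat_lit 5) (nat_lit 117) (nat_lit 5) (nat_lit 494) (nat_lit 467) (nat_lit 239))))))))
noncomputable def xc431 : XT := (XT.nd (nat_lit 1248) (nat_lit 1596) (nat_lit 0) (XT.nd (nat_lit 624) (nat_lit 988) (nat_lit 0) (XT.nd (nat_lit 312) (nat_lit 608) (nat_lit 0) (XT.nd (nat_lit 156) (nat_lit 228) (nat_lit 0) (XT.nd (nat_lit 78) (nat_lit 0) (nat_lit 0) (XT.lf (nat_lit 0) (nat_lit 25830802944) (nat_lit 228) (nat_lit 60459536662) (nat_lit 304) (nat_lit 141121037239) (nat_lit 113) (nat_lit 5) (nat_lit 116) (nat_lit 5) (nat_lit 117) (nat_lit 5) (nat_lit 495) (nat_lit 467) (nat_lit 238)) (XT.lf (nat_lit 0) (nat_lit 135256503932) (nat_lit 304) (nat_lit 67764526958) (nat_lit 76) (nat_lit 31173456178) (nat_lit 113) (nat_lit 5) (nat_lit 117) (nat_lit 5) (nat_lit 114) (nat_lit 5) (nat_lit 496) (nat_lit 467)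 (nat_lit 237))) (XT.nd (nat_lit 78) (nat_lit 0) (nat_lit 0) (XT.lf (nat_lit 0) (nat_lit 74123412174) (nat_lit 228) (nat_lit 114695853096) (nat_lit 304) (nat_lit 52390073100) (nat_lit 110) (nat_lit 5) (nat_lit 113) (nat_lit 5) (nat_lit 114) (nat_lit 5) (nat_lit 497) (nat_lit 467) (nat_lit 236)) (XT.lf (nat_lit 0) (nat_lit 225458200250) (nat_lit 228) (nat_lit 20749467301) (nat_lit 304) (nat_lit 2309889546) (nat_lit 110) (nat_lit 5) (nat_lit 113) (nat_lit 5) (nat_lit 114) (nat_lit 5) (nat_lit 498) (nat_lit 467) (nat_lit 235)))) (XT.nd (nat_lit 156) (nat_lit 152) (nat_lit 0) (XT.nd (nat_lit 78) (nat_lit 228) (nat_lit 0) (XT.lf (nat_lit 0) (nat_lit 51982360467) (nat_lit 228) (nat_lit 125716598143) (nat_lit 76) (nat_lit 78287124572) (nat_lit 107) (nat_lit 5) (nat_lit 110) (nat_lit 5) (nat_lit 108) (nat_lit 5) (nat_lit 499) (nat_lit 467) (nat_lit 234)) (XT.lf (nat_lit 0) (nat_lit 28793808979) (nat_lit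 228) (nat_lit 81304300969) (nat_lit 304) (nat_lit 153668706554) (nat_lit 104) (nat_lit 5) (nat_lit 107) (nat_lit 5) (nat_lit 108) (nat_lit 5) (nat_lit 500) (nat_lit 467) (nat_lit 233))) (XT.nd (nat_lit 78) (nat_lit 152) (nat_lit 0) (XT.lf (nat_lit 0) (nat_lit 173594359096) (nat_lit 304) (nat_lit 76781733848) (nat_lit 76) (nat_lit 21436757942) (nat_lit 104) (nat_lit 5) (nat_lit 108) (nat_lit 5) (nat_lit 105) (nat_lit 5) (nat_lit 501) (nat_lit 467) (nat_lit 232)) (XT.lf (nat_lit 0) (nat_lit 90895292963) (nat_lit 152) (nat_lit 152122006496) (nat_lit 228) (nat_lit 37106293596) (nat_lit 102) (nat_lit 5) (nat_lit 104) (nat_lit 5) (nat_lit 105) (nat_lit 5) (nat_lit 502) (nat_lit 467) (nat_lit 231))))) (XT.nd (nat_lit 312) (nat_lit 532) (nat_lit 0) (XT.nd (nat_lit 156) (nat_lit 152) (nat_lit 0) (XT.nd (nat_lit 78) (nat_lit 228) (nat_lit 0) (XT.lf (nat_lit 0) (nat_lit 27516921770) (nat_lit 228) (nat_lit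 19606990082) (nat_lit 76) (nat_lit 241638757943) (nat_lit 101) (nat_lit 5) (nat_lit 104) (nat_lit 5) (nat_lit 102) (nat_lit 5) (nat_lit 503) (nat_lit 467) (nat_lit 230)) (XT.lf (nat_lit 0) (nat_lit 97708005511) (nat_lit 304) (nat_lit 135605847045) (nat_lit 76) (nat_lit 64310246705) (nat_lit 98) (nat_lit 5) (nat_lit 102) (nat_lit 5) (nat_lit 99) (nat_lit 5) (nat_lit 504) (nat_lit 467) (nat_lit 229))) (XT.nd (nat_lit 78) (nat_lit 0) (nat_lit 0) (XT.lf (nat_lit 0) (nat_lit 47226894098) (nat_lit 152) (nat_lit 126029012572) (nat_lit 228) (nat_lit 133580330374) (nat_lit 96) (nat_lit 5) (nat_lit 98) (nat_lit 5) (nat_lit 99) (nat_lit 5) (nat_lit 505) (nat_lit 467) (nat_lit 228)) (XT.lf (nat_lit 0) (nat_lit 243909039411) (nat_lit 152) (nat_lit 10968614964) (nat_lit 228) (nat_lit 61516504770) (nat_lit 96) (nat_lit 5) (nat_lit 98) (nat_lit 5) (nat_lit 99) (nat_lit 5) (nat_lit 506) (nat_lit 467) (nat_lit 227))))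 (XT.nd (nat_lit 156) (nat_lit 304) (nat_lit 0) (XT.nd (nat_lit 78) (nat_lit 0) (nat_lit 0) (XT.lf (nat_lit 0) (nat_lit 17445203127) (nat_lit 228) (nat_lit 200203687714) (nat_lit 76) (nat_lit 108582660267) (nat_lit 93) (nat_lit 5) (nat_lit 96) (nat_lit 5) (nat_lit 94) (nat_lit 5) (nat_lit 507) (nat_lit 467) (nat_lit 226)) (XT.lf (nat_lit 0) (nat_lit 99715051747) (nat_lit 228) (nat_lit 724981916) (nat_lit 76) (nat_lit 235998984981) (nat_lit 93) (nat_lit 5) (nat_lit 96) (nat_lit 5) (nat_lit 94) (nat_lit 5) (nat_lit 508) (nat_lit 467) (nat_lit 225))) (XT.nd (nat_lit 78) (nat_lit 152) (nat_lit 0) (XT.lf (nat_lit 0) (nat_lit 189873370291) (nat_lit 228) (nat_lit 131768048075) (nat_lit 76) (nat_lit 25326692319) (nat_lit 91) (nat_lit 5) (nat_lit 94) (nat_lit 5) (nat_lit 92) (nat_lit 5) (nat_lit 509) (nat_lit 467) (nat_lit 224)) (XT.lf (nat_lit 0) (nat_lit 84997009705) (nat_lit 152) (nat_lit 202528584493)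 (nat_lit 228) (nat_lit 70348763661) (nat_lit 89) (nat_lit 5) (nat_lit 91) (nat_lit 5) (nat_lit 92) (nat_lit 5) (nat_lit 510) (nat_lit 467) (nat_lit 223)))))) (XT.nd (nat_lit 624) (nat_lit 836) (nat_lit 0) (XT.nd (nat_lit 312) (nat_lit 380) (nat_lit 0) (XT.nd (nat_lit 156) (nat_lit 152) (nat_lit 0) (XT.nd (nat_lit 78) (nat_lit 152) (nat_lit 0) (XT.lf (nat_lit 0) (nat_lit 22338927835) (nat_lit 228) (nat_lit 52399789233) (nat_lit 76) (nat_lit 294457611645) (nat_lit 88) (nat_lit 5) (nat_lit 91) (nat_lit 5) (nat_lit 89) (nat_lit 5) (nat_lit 511) (nat_lit 467) (nat_lit 222)) (XT.lf (nat_lit 0) (nat_lit 121160863926) (nat_lit 228) (nat_lit 198045207402) (nat_lit 76) (nat_lit 61627461874) (nat_lit 86) (nat_lit 5) (nat_lit 89) (nat_lit 5) (nat_lit 87) (nat_lit 5) (nat_lit 512) (nat_lit 467) (nat_lit 221))) (XT.nd (nat_lit 78) (nat_lit 0) (nat_lit 0) (XT.lf (nat_lit 0) (nat_lit 38540437879) (nat_lit 152)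 (nat_lit 189112287990) (nat_lit 228) (nat_lit 165263430596) (nat_lit 84) (nat_lit 5) (nat_lit 86) (nat_lit 5) (nat_lit 87) (nat_lit 5) (nat_lit 513) (nat_lit 467) (nat_lit 220)) (XT.lf (nat_lit 0) (nat_lit 293830904209) (nat_lit 152) (nat_lit 48992186207) (nat_lit 228) (nat_lit 62612125002) (nat_lit 84) (nat_lit 5) (nat_lit 86) (nat_lit 5) (nat_lit 87) (nat_lit 5) (nat_lit 514) (nat_lit 467) (nat_lit 219)))) (XT.nd (nat_lit 156) (nat_lit 228) (nat_lit 0) (XT.nd (nat_lit 78) (nat_lit 0) (nat_lit 0) (XT.lf (nat_lit 0) (nat_lit 47607304128) (nat_lit 152) (nat_lit 272696100863) (nat_lit 76) (nat_lit 98047492640) (nat_lit 82) (nat_lit 5) (nat_lit 84) (nat_lit 5) (nat_lit 83) (nat_lit 5) (nat_lit 515) (nat_lit 467) (nat_lit 218)) (XT.lf (nat_lit 0) (nat_lit 163957656569) (nat_lit 152) (nat_lit 14027054269) (nat_lit 76) (nat_lit 253740125215) (nat_lit 82) (nat_lit 5) (nat_lit 84) (nat_lit 5) (nat_lit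 83) (nat_lit 5) (nat_lit 516) (nat_lit 467) (nat_lit 217))) (XT.nd (nat_lit 78) (nat_lit 76) (nat_lit 0) (XT.lf (nat_lit 0) (nat_lit 266091914247) (nat_lit 152) (nat_lit 24187978044) (nat_lit 228) (nat_lit 155279860823) (nat_lit 80) (nat_lit 5) (nat_lit 82) (nat_lit 5) (nat_lit 83) (nat_lit 5) (nat_lit 517) (nat_lit 467) (nat_lit 216)) (XT.lf (nat_lit 0) (nat_lit 101737884029) (nat_lit 76) (nat_lit 325153760114) (nat_lit 152) (nat_lit 32996101670) (nat_lit 79) (nat_lit 5) (nat_lit 80) (nat_lit 5) (nat_lit 81) (nat_lit 4) (nat_lit 518) (nat_lit 467) (nat_lit 215))))) (XT.nd (nat_lit 312) (nat_lit 456) (nat_lit 0) (XT.nd (nat_lit 156) (nat_lit 152) (nat_lit 0) (XT.nd (nat_lit 78) (nat_lit 152) (nat_lit 0) (XT.lf (nat_lit 0) (nat_lit 95834041371) (nat_lit 152) (nat_lit 73481532776) (nat_lit 76) (nat_lit 305367806954) (nat_lit 78) (nat_lit 5) (nat_lit 80) (nat_lit 5) (nat_lit 79) (nat_lit 5) (nat_lit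 519) (nat_lit 467) (nat_lit 214)) (XT.lf (nat_lit 0) (nat_lit 232314685826) (nat_lit 152) (nat_lit 1309133232) (nat_lit 228) (nat_lit 256386582468) (nat_lit 76) (nat_lit 5) (nat_lit 78) (nat_lit 5) (nat_lit 79) (nat_lit 5) (nat_lit 520) (nat_lit 467) (nat_lit 213))) (XT.nd (nat_lit 78) (nat_lit 76) (nat_lit 0) (XT.lf (nat_lit 0) (nat_lit 48715173430) (nat_lit 76) (nat_lit 334347033418) (nat_lit 152) (nat_lit 122803610065) (nat_lit 75) (nat_lit 5) (nat_lit 76) (nat_lit 5) (nat_lit 77) (nat_lit 4) (nat_lit 521) (nat_lit 467) (nat_lit 212)) (XT.lf (nat_lit 0) (nat_lit 21356867006) (nat_lit 152) (nat_lit 143268283060) (nat_lit 76) (nat_lit 357652367319) (nat_lit 74) (nat_lit 5) (nat_lit 76) (nat_lit 5) (nat_lit 75) (nat_lit 5) (nat_lit 522) (nat_lit 467) (nat_lit 211)))) (XT.nd (nat_lit 156) (nat_lit 304) (nat_lit 0) (XT.nd (nat_lit 78) (nat_lit 0) (nat_lit 0) (XT.lf (nat_lit 0) (nat_lit 171864590812)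 (nat_lit 228) (nat_lit 349165799485) (nat_lit 76) (nat_lit 18215442415) (nat_lit 72) (nat_lit 5) (nat_lit 75) (nat_lit 5) (nat_lit 73) (nat_lit 4) (nat_lit 523) (nat_lit 467) (nat_lit 210)) (XT.lf (nat_lit 0) (nat_lit 335062501191) (nat_lit 228) (nat_lit 14610202925) (nat_lit 76) (nat_lit 207131619672) (nat_lit 72) (nat_lit 5) (nat_lit 75) (nat_lit 5) (nat_lit 73) (nat_lit 4) (nat_lit 524) (nat_lit 467) (nat_lit 209))) (XT.nd (nat_lit 78) (nat_lit 228) (nat_lit 0) (XT.lf (nat_lit 0) (nat_lit 347804988059) (nat_lit 76) (nat_lit 164045466790) (nat_lit 152) (nat_lit 63118777181) (nat_lit 71) (nat_lit 5) (nat_lit 72) (nat_lit 5) (nat_lit 73) (nat_lit 4) (nat_lit 525) (nat_lit 467) (nat_lit 208)) (XT.nd (nat_lit 78) (nat_lit 0) (nat_lit 0) (XT.lf (nat_lit 0) (nat_lit 103072312729) (nat_lit 228) (nat_lit 456786095065) (nat_lit 76) (nat_lit 33955858470) (nat_lit 68) (nat_lit 5) (nat_lit 71) (nat_lit 5)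 (nat_lit 69) (nat_lit 4) (nat_lit 526) (nat_lit 467) (nat_lit 207)) (XT.lf (nat_lit 0) (nat_lit 282051164171) (nat_lit 228) (nat_lit 89879548099) (nat_lit 76) (nat_lit 241289132645) (nat_lit 68) (nat_lit 5) (nat_lit 71) (nat_lit 5) (nat_lit 69) (nat_lit 4) (nat_lit 527) (nat_lit 467) (nat_lit 206))))))))
noncomputable def xc432 : XT := (XT.nd (nat_lit 1248) (nat_lit 304) (nat_lit 0) (XT.nd (nat_lit 624) (nat_lit 608) (nat_lit 0) (XT.nd (nat_lit 312) (nat_lit 228) (nat_lit 0) (XT.nd (nat_lit 156) (nat_lit 76) (nat_lit 0) (XT.nd (nat_lit 78) (nat_lit 152) (nat_lit 0) (XT.lf (nat_lit 0) (nat_lit 305138553526) (nat_lit 76) (nat_lit 169604413292) (nat_lit 152) (nat_lit 158614535251) (nat_lit 67) (nat_lit 5) (nat_lit 68) (nat_lit 5) (nat_lit 69) (nat_lit 4) (nat_lit 528) (nat_lit 467) (nat_lit 205)) (XT.lf (nat_lit 0) (nat_lit 25210468865) (nat_lit 152) (nat_lit 584589603384) (nat_lit 76) (nat_lit 44516080556)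 (nat_lit 65) (nat_lit 5) (nat_lit 67) (nat_lit 5) (nat_lit 66) (nat_lit 4) (nat_lit 529) (nat_lit 467) (nat_lit 204))) (XT.nd (nat_lit 78) (nat_lit 76) (nat_lit 0) (XT.lf (nat_lit 0) (nat_lit 221326246442) (nat_lit 152) (nat_lit 182552340378) (nat_lit 76) (nat_lit 271892636757) (nat_lit 65) (nat_lit 5) (nat_lit 67) (nat_lit 5) (nat_lit 66) (nat_lit 4) (nat_lit 530) (nat_lit 467) (nat_lit 203)) (XT.lf (nat_lit 0) (nat_lit 247508496274) (nat_lit 76) (nat_lit 183603561789) (nat_lit 152) (nat_lit 266993777569) (nat_lit 64) (nat_lit 5) (nat_lit 65) (nat_lit 5) (nat_lit 66) (nat_lit 4) (nat_lit 531) (nat_lit 467) (nat_lit 202)))) (XT.nd (nat_lit 156) (nat_lit 76) (nat_lit 0) (XT.nd (nat_lit 78) (nat_lit 152) (nat_lit 0) (XT.lf (nat_lit 0) (nat_lit 655273898623) (nat_lit 152) (nat_lit 16787707224) (nat_lit 0) (nat_lit 49301235525) (nat_lit 64) (nat_lit 5) (nat_lit 66) (nat_lit 4) (nat_lit 64) (nat_lit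 4) (nat_lit 532) (nat_lit 467) (nat_lit 201)) (XT.lf (nat_lit 0) (nat_lit 150426518220) (nat_lit 152) (nat_lit 297598367407) (nat_lit 76) (nat_lit 297134635090) (nat_lit 62) (nat_lit 5) (nat_lit 64) (nat_lit 5) (nat_lit 63) (nat_lit 4) (nat_lit 533) (nat_lit 467) (nat_lit 200))) (XT.nd (nat_lit 78) (nat_lit 0) (nat_lit 0) (XT.lf (nat_lit 0) (nat_lit 169929072662) (nat_lit 76) (nat_lit 208559642415) (nat_lit 152) (nat_lit 391456048454) (nat_lit 61) (nat_lit 5) (nat_lit 62) (nat_lit 5) (nat_lit 63) (nat_lit 4) (nat_lit 534) (nat_lit 467) (nat_lit 199)) (XT.lf (nat_lit 0) (nat_lit 623746022947) (nat_lit 152) (nat_lit 125304626070) (nat_lit 0) (nat_lit 46629019411) (nat_lit 61) (nat_lit 5) (nat_lit 63) (nat_lit 4) (nat_lit 61) (nat_lit 4) (nat_lit 535) (nat_lit 467) (nat_lit 198))))) (XT.nd (nat_lit 312) (nat_lit 304) (nat_lit 0) (XT.nd (nat_lit 156) (nat_lit 76) (nat_lit 0) (XT.nd (nat_lit 78) (nat_lit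 76) (nat_lit 0) (XT.lf (nat_lit 0) (nat_lit 66226475369) (nat_lit 152) (nat_lit 441352783872) (nat_lit 76) (nat_lit 314599539260) (nat_lit 59) (nat_lit 5) (nat_lit 61) (nat_lit 5) (nat_lit 60) (nat_lit 4) (nat_lit 536) (nat_lit 467) (nat_lit 197)) (XT.lf (nat_lit 0) (nat_lit 65974836955) (nat_lit 76) (nat_lit 247728552101) (nat_lit 152) (nat_lit 535999222567) (nat_lit 58) (nat_lit 5) (nat_lit 59) (nat_lit 5) (nat_lit 60) (nat_lit 4) (nat_lit 537) (nat_lit 467) (nat_lit 196))) (XT.nd (nat_lit 78) (nat_lit 76) (nat_lit 0) (XT.lf (nat_lit 0) (nat_lit 581543265116) (nat_lit 152) (nat_lit 264752020150) (nat_lit 0) (nat_lit 31907874301) (nat_lit 58) (nat_lit 5) (nat_lit 60) (nat_lit 4) (nat_lit 58) (nat_lit 4) (nat_lit 538) (nat_lit 467) (nat_lit 195)) (XT.lf (nat_lit 0) (nat_lit 285240791740) (nat_lit 76) (nat_lit 586048827446) (nat_lit 76) (nat_lit 36413391511) (nat_lit 57) (nat_lit 4) (nat_lit 58)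 (nat_lit 5) (nat_lit 58) (nat_lit 4) (nat_lit 539) (nat_lit 467) (nat_lit 194)))) (XT.nd (nat_lit 156) (nat_lit 152) (nat_lit 0) (XT.nd (nat_lit 78) (nat_lit 76) (nat_lit 0) (XT.lf (nat_lit 0) (nat_lit 233822062710) (nat_lit 152) (nat_lit 70300250349) (nat_lit 76) (nat_lit 634142792314) (nat_lit 56) (nat_lit 5) (nat_lit 58) (nat_lit 5) (nat_lit 57) (nat_lit 4) (nat_lit 540) (nat_lit 467) (nat_lit 193)) (XT.lf (nat_lit 0) (nat_lit 524571022113) (nat_lit 152) (nat_lit 444234540295) (nat_lit 0) (nat_lit 1108622274) (nat_lit 55) (nat_lit 5) (nat_lit 57) (nat_lit 4) (nat_lit 55) (nat_lit 4) (nat_lit 541) (nat_lit 467) (nat_lit 192))) (XT.nd (nat_lit 78) (nat_lit 76) (nat_lit 0) (XT.lf (nat_lit 0) (nat_lit 150628856172) (nat_lit 76) (nat_lit 687775964589) (nat_lit 76) (nat_lit 164313527630) (nat_lit 54) (nat_lit 4) (nat_lit 55) (nat_lit 5) (nat_lit 55) (nat_lit 4) (nat_lit 542) (nat_lit 467) (nat_lit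 191)) (XT.lf (nat_lit 0) (nat_lit 134228824453) (nat_lit 152) (nat_lit 248293382182) (nat_lit 76) (nat_lit 654156100479) (nat_lit 53) (nat_lit 5) (nat_lit 55) (nat_lit 5) (nat_lit 54) (nat_lit 4) (nat_lit 543) (nat_lit 467) (nat_lit 190)))))) (XT.nd (nat_lit 56862) (nat_lit 0) (nat_lit 8284) (XT.nd (nat_lit 56550) (nat_lit 0) (nat_lit 8664) (XT.nd (nat_lit 156) (nat_lit 228) (nat_lit 0) (XT.nd (nat_lit 78) (nat_lit 0) (nat_lit 0) (XT.lf (nat_lit 0) (nat_lit 395662453623) (nat_lit 76) (nat_lit 52691185207) (nat_lit 152) (nat_lit 623539073889) (nat_lit 52) (nat_lit 5) (nat_lit 53) (nat_lit 5) (nat_lit 54) (nat_lit 4) (nat_lit 544) (nat_lit 467) (nat_lit 189)) (XT.lf (nat_lit 0) (nat_lit 787042962310) (nat_lit 152) (nat_lit 32874751088) (nat_lit 0) (nat_lit 288507211789) (nat_lit 52) (nat_lit 5) (nat_lit 54) (nat_lit 4) (nat_lit 52) (nat_lit 4) (nat_lit 545) (nat_lit 467) (nat_lit 188))) (XT.nd (nat_lit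 78) (nat_lit 76) (nat_lit 0) (XT.lf (nat_lit 0) (nat_lit 7413742133) (nat_lit 152) (nat_lit 483337608230) (nat_lit 76) (nat_lit 655465663364) (nat_lit 50) (nat_lit 5) (nat_lit 52) (nat_lit 5) (nat_lit 51) (nat_lit 4) (nat_lit 546) (nat_lit 467) (nat_lit 187)) (XT.lf (nat_lit 0) (nat_lit 210139757681) (nat_lit 76) (nat_lit 135555639872) (nat_lit 152) (nat_lit 839747545977) (nat_lit 49) (nat_lit 5) (nat_lit 50) (nat_lit 5) (nat_lit 51) (nat_lit 4) (nat_lit 547) (nat_lit 467) (nat_lit 186)))) (XT.nd (nat_lit 156) (nat_lit 0) (nat_lit 76) (XT.nd (nat_lit 78) (nat_lit 0) (nat_lit 0) (XT.lf (nat_lit 0) (nat_lit 24779827124) (nat_lit 836) (nat_lit 15614258564) (nat_lit 836) (nat_lit 15614258564) (nat_lit 163) (nat_lit 3) (nat_lit 174) (nat_lit 3) (nat_lit 174) (nat_lit 5) (nat_lit 468) (nat_lit 468) (nat_lit 264)) (XT.lf (nat_lit 76) (nat_lit 25364735959) (nat_lit 0) (nat_lit 25835054630) (nat_lit 836)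 (nat_lit 63597257485) (nat_lit 164) (nat_lit 5) (nat_lit 163) (nat_lit 3) (nat_lit 174) (nat_lit 5) (nat_lit 469) (nat_lit 468) (nat_lit 263))) (XT.nd (nat_lit 78) (nat_lit 0) (nat_lit 0) (XT.lf (nat_lit 0) (nat_lit 53956658158) (nat_lit 760) (nat_lit 32324527081) (nat_lit 836) (nat_lit 31383504186) (nat_lit 164) (nat_lit 5) (nat_lit 174) (nat_lit 5) (nat_lit 175) (nat_lit 5) (nat_lit 470) (nat_lit 468) (nat_lit 262)) (XT.lf (nat_lit 76) (nat_lit 28114782626) (nat_lit 0) (nat_lit 29598749370) (nat_lit 836) (nat_lit 62919072727) (nat_lit 165) (nat_lit 5) (nat_lit 164) (nat_lit 5) (nat_lit 175) (nat_lit 5) (nat_lit 471) (nat_lit 468) (nat_lit 261))))) (XT.nd (nat_lit 312) (nat_lit 532) (nat_lit 0) (XT.nd (nat_lit 156) (nat_lit 0) (nat_lit 76) (XT.nd (nat_lit 78) (nat_lit 0) (nat_lit 0) (XT.lf (nat_lit 0) (nat_lit 62681456857) (nat_lit 760) (nat_lit 31499528506) (nat_lit 836) (nat_lit 29516770079)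 (nat_lit 165) (nat_lit 5) (nat_lit 175) (nat_lit 5) (nat_lit 176) (nat_lit 5) (nat_lit 472) (nat_lit 468) (nat_lit 260)) (XT.lf (nat_lit 76) (nat_lit 33145112989) (nat_lit 0) (nat_lit 35755093429) (nat_lit 836) (nat_lit 57965835879) (nat_lit 166) (nat_lit 5) (nat_lit 165) (nat_lit 5) (nat_lit 176) (nat_lit 5) (nat_lit 473) (nat_lit 468) (nat_lit 259))) (XT.nd (nat_lit 78) (nat_lit 0) (nat_lit 0) (XT.lf (nat_lit 0) (nat_lit 76371389667) (nat_lit 760) (nat_lit 28459004948) (nat_lit 836) (nat_lit 25315274088) (nat_lit 166) (nat_lit 5) (nat_lit 176) (nat_lit 5) (nat_lit 177) (nat_lit 5) (nat_lit 474) (nat_lit 468) (nat_lit 258)) (XT.lf (nat_lit 76) (nat_lit 40785048563) (nat_lit 0) (nat_lit 44653741415) (nat_lit 836) (nat_lit 48089353577) (nat_lit 167) (nat_lit 5) (nat_lit 166) (nat_lit 5) (nat_lit 177) (nat_lit 5) (nat_lit 475) (nat_lit 468) (nat_lit 257)))) (XT.nd (nat_lit 156) (nat_lit 684) (nat_lit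 0) (XT.nd (nat_lit 78) (nat_lit 0) (nat_lit 0) (XT.lf (nat_lit 0) (nat_lit 95738511141) (nat_lit 760) (nat_lit 22873744828) (nat_lit 836) (nat_lit 18428538660) (nat_lit 167) (nat_lit 5) (nat_lit 177) (nat_lit 5) (nat_lit 178) (nat_lit 5) (nat_lit 476) (nat_lit 468) (nat_lit 256)) (XT.lf (nat_lit 76) (nat_lit 51402035587) (nat_lit 0) (nat_lit 56685503294) (nat_lit 836) (nat_lit 32564823365) (nat_lit 168) (nat_lit 5) (nat_lit 167) (nat_lit 5) (nat_lit 178) (nat_lit 5) (nat_lit 477) (nat_lit 468) (nat_lit 255))) (XT.nd (nat_lit 78) (nat_lit 760) (nat_lit 0) (XT.lf (nat_lit 0) (nat_lit 121577690570) (nat_lit 760) (nat_lit 14376136913) (nat_lit 76) (nat_lit 8464497151) (nat_lit 168) (nat_lit 5) (nat_lit 178) (nat_lit 5) (nat_lit 169) (nat_lit 5) (nat_lit 478) (nat_lit 468) (nat_lit 254)) (XT.lf (nat_lit 0) (nat_lit 65405688166) (nat_lit 760) (nat_lit 72286880283) (nat_lit 836) (nat_lit 10582505779)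 (nat_lit 158) (nat_lit 5) (nat_lit 168) (nat_lit 5) (nat_lit 169) (nat_lit 5) (nat_lit 479) (nat_lit 468) (nat_lit 253)))))))
noncomputable def xc433 : XT := (XT.nd (nat_lit 1248) (nat_lit 2128) (nat_lit 0) (XT.nd (nat_lit 624) (nat_lit 1596) (nat_lit 0) (XT.nd (nat_lit 312) (nat_lit 684) (nat_lit 0) (XT.nd (nat_lit 156) (nat_lit 380) (nat_lit 0) (XT.nd (nat_lit 78) (nat_lit 456) (nat_lit 0) (XT.lf (nat_lit 0) (nat_lit 2462525697) (nat_lit 836) (nat_lit 2676696118) (nat_lit 76) (nat_lit 147171290782) (nat_lit 157) (nat_lit 5) (nat_lit 168) (nat_lit 5) (nat_lit 158) (nat_lit 5) (nat_lit 480) (nat_lit 468) (nat_lit 252)) (XT.lf (nat_lit 0) (nat_lit 18160989745) (nat_lit 532) (nat_lit 73476531607) (nat_lit 76) (nat_lit 64783686234) (nat_lit 151) (nat_lit 5) (nat_lit 158) (nat_lit 5) (nat_lit 152) (nat_lit 5) (nat_lit 481) (nat_lit 468) (nat_lit 251))) (XT.nd (nat_lit 78) (nat_lit 0) (nat_lit 0) (XT.lf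 (nat_lit 0) (nat_lit 12520418023) (nat_lit 380) (nat_lit 22449564689) (nat_lit 456) (nat_lit 125751174340) (nat_lit 146) (nat_lit 5) (nat_lit 151) (nat_lit 5) (nat_lit 152) (nat_lit 5) (nat_lit 482) (nat_lit 468) (nat_lit 250)) (XT.lf (nat_lit 0) (nat_lit 54667722907) (nat_lit 456) (nat_lit 60610061083) (nat_lit 76) (nat_lit 49855905136) (nat_lit 146) (nat_lit 5) (nat_lit 152) (nat_lit 5) (nat_lit 147) (nat_lit 5) (nat_lit 483) (nat_lit 468) (nat_lit 249)))) (XT.nd (nat_lit 156) (nat_lit 304) (nat_lit 0) (XT.nd (nat_lit 78) (nat_lit 0) (nat_lit 0) (XT.lf (nat_lit 0) (nat_lit 32016666000) (nat_lit 380) (nat_lit 44201398148) (nat_lit 456) (nat_lit 93505397965) (nat_lit 141) (nat_lit 5) (nat_lit 146) (nat_lit 5) (nat_lit 147) (nat_lit 5) (nat_lit 484) (nat_lit 468) (nat_lit 248)) (XT.lf (nat_lit 0) (nat_lit 100364113324) (nat_lit 456) (nat_lit 43604530853) (nat_lit 76) (nat_lit 30498170040) (nat_lit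 141) (nat_lit 5) (nat_lit 147) (nat_lit 5) (nat_lit 142) (nat_lit 5) (nat_lit 485) (nat_lit 468) (nat_lit 247))) (XT.nd (nat_lit 78) (nat_lit 0) (nat_lit 0) (XT.lf (nat_lit 0) (nat_lit 56279336384) (nat_lit 304) (nat_lit 71041252187) (nat_lit 380) (nat_lit 52046589186) (nat_lit 137) (nat_lit 5) (nat_lit 141) (nat_lit 5) (nat_lit 142) (nat_lit 5) (nat_lit 486) (nat_lit 468) (nat_lit 246)) (XT.lf (nat_lit 0) (nat_lit 156461672445) (nat_lit 380) (nat_lit 21903065570) (nat_lit 76) (nat_lit 6105982226) (nat_lit 137) (nat_lit 5) (nat_lit 142) (nat_lit 5) (nat_lit 138) (nat_lit 5) (nat_lit 487) (nat_lit 468) (nat_lit 245))))) (XT.nd (nat_lit 312) (nat_lit 608) (nat_lit 0) (XT.nd (nat_lit 156) (nat_lit 304) (nat_lit 0) (XT.nd (nat_lit 78) (nat_lit 380) (nat_lit 0) (XT.lf (nat_lit 0) (nat_lit 85926333648) (nat_lit 304) (nat_lit 103639483285) (nat_lit 380) (nat_lit 138322606) (nat_lit 133) (nat_lit 5) (nat_lit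 137) (nat_lit 5) (nat_lit 138) (nat_lit 5) (nat_lit 488) (nat_lit 468) (nat_lit 244)) (XT.lf (nat_lit 0) (nat_lit 4406991629) (nat_lit 304) (nat_lit 24232407684) (nat_lit 380) (nat_lit 166514810001) (nat_lit 128) (nat_lit 5) (nat_lit 132) (nat_lit 5) (nat_lit 133) (nat_lit 5) (nat_lit 489) (nat_lit 468) (nat_lit 243))) (XT.nd (nat_lit 78) (nat_lit 304) (nat_lit 0) (XT.lf (nat_lit 0) (nat_lit 61560968436) (nat_lit 380) (nat_lit 80139635133) (nat_lit 76) (nat_lit 59040585154) (nat_lit 128) (nat_lit 5) (nat_lit 133) (nat_lit 5) (nat_lit 129) (nat_lit 5) (nat_lit 490) (nat_lit 468) (nat_lit 242)) (XT.lf (nat_lit 0) (nat_lit 36778019325) (nat_lit 304) (nat_lit 60321915158) (nat_lit 380) (nat_lit 109459016705) (nat_lit 124) (nat_lit 5) (nat_lit 128) (nat_lit 5) (nat_lit 129) (nat_lit 5) (nat_lit 491) (nat_lit 468) (nat_lit 241)))) (XT.nd (nat_lit 156) (nat_lit 380) (nat_lit 0) (XT.nd (nat_lit 78) (nat_lit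 228) (nat_lit 0) (XT.lf (nat_lit 0) (nat_lit 136187445577) (nat_lit 380) (nat_lit 50690634180) (nat_lit 76) (nat_lit 25700942191) (nat_lit 124) (nat_lit 5) (nat_lit 129) (nat_lit 5) (nat_lit 125) (nat_lit 5) (nat_lit 492) (nat_lit 468) (nat_lit 240)) (XT.lf (nat_lit 0) (nat_lit 75790901162) (nat_lit 228) (nat_lit 103610491187) (nat_lit 304) (nat_lit 39390100898) (nat_lit 121) (nat_lit 5) (nat_lit 124) (nat_lit 5) (nat_lit 125) (nat_lit 5) (nat_lit 493) (nat_lit 468) (nat_lit 239))) (XT.nd (nat_lit 78) (nat_lit 304) (nat_lit 0) (XT.lf (nat_lit 0) (nat_lit 351098448) (nat_lit 304) (nat_lit 14921128971) (nat_lit 76) (nat_lit 209999160459) (nat_lit 120) (nat_lit 5) (nat_lit 124) (nat_lit 5) (nat_lit 121) (nat_lit 5) (nat_lit 494) (nat_lit 468) (nat_lit 238)) (XT.lf (nat_lit 0) (nat_lit 43925228036) (nat_lit 380) (nat_lit 110350537548) (nat_lit 76) (nat_lit 77608742898) (nat_lit 116) (nat_lit 5) (nat_lit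 121) (nat_lit 5) (nat_lit 117) (nat_lit 5) (nat_lit 495) (nat_lit 468) (nat_lit 237)))))) (XT.nd (nat_lit 624) (nat_lit 1064) (nat_lit 0) (XT.nd (nat_lit 312) (nat_lit 608) (nat_lit 0) (XT.nd (nat_lit 156) (nat_lit 228) (nat_lit 0) (XT.nd (nat_lit 78) (nat_lit 0) (nat_lit 0) (XT.lf (nat_lit 0) (nat_lit 27127783763) (nat_lit 228) (nat_lit 63480902795) (nat_lit 304) (nat_lit 148173067442) (nat_lit 113) (nat_lit 5) (nat_lit 116) (nat_lit 5) (nat_lit 117) (nat_lit 5) (nat_lit 496) (nat_lit 468) (nat_lit 236)) (XT.lf (nat_lit 0) (nat_lit 142023000671) (nat_lit 304) (nat_lit 71147413104) (nat_lit 76) (nat_lit 32733613890) (nat_lit 113) (nat_lit 5) (nat_lit 117) (nat_lit 5) (nat_lit 114) (nat_lit 5) (nat_lit 497) (nat_lit 468) (nat_lit 235))) (XT.nd (nat_lit 78) (nat_lit 0) (nat_lit 0) (XT.lf (nat_lit 0) (nat_lit 77834836852) (nat_lit 228) (nat_lit 120428970418) (nat_lit 304) (nat_lit 55005818909) (nat_lit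 110) (nat_lit 5) (nat_lit 113) (nat_lit 5) (nat_lit 114) (nat_lit 5) (nat_lit 498) (nat_lit 468) (nat_lit 234)) (XT.lf (nat_lit 0) (nat_lit 236736114139) (nat_lit 228) (nat_lit 21785345111) (nat_lit 304) (nat_lit 2421805123) (nat_lit 110) (nat_lit 5) (nat_lit 113) (nat_lit 5) (nat_lit 114) (nat_lit 5) (nat_lit 499) (nat_lit 468) (nat_lit 233)))) (XT.nd (nat_lit 156) (nat_lit 152) (nat_lit 0) (XT.nd (nat_lit 78) (nat_lit 228) (nat_lit 0) (XT.lf (nat_lit 0) (nat_lit 54584882387) (nat_lit 228) (nat_lit 131997248866) (nat_lit 76) (nat_lit 82203085744) (nat_lit 107) (nat_lit 5) (nat_lit 110) (nat_lit 5) (nat_lit 108) (nat_lit 5) (nat_lit 500) (nat_lit 468) (nat_lit 232)) (XT.lf (nat_lit 0) (nat_lit 30238595077) (nat_lit 228) (nat_lit 85367741733) (nat_lit 304) (nat_lit 161348654309) (nat_lit 104) (nat_lit 5) (nat_lit 107) (nat_lit 5) (nat_lit 108) (nat_lit 5) (nat_lit 501) (nat_lit 468) (nat_lit 231)))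 (XT.nd (nat_lit 78) (nat_lit 152) (nat_lit 0) (XT.lf (nat_lit 0) (nat_lit 182277266637) (nat_lit 304) (nat_lit 80615835629) (nat_lit 76) (nat_lit 22510231550) (nat_lit 104) (nat_lit 5) (nat_lit 108) (nat_lit 5) (nat_lit 105) (nat_lit 5) (nat_lit 502) (nat_lit 468) (nat_lit 230)) (XT.lf (nat_lit 0) (nat_lit 95444962120) (nat_lit 152) (nat_lit 159726316586) (nat_lit 228) (nat_lit 38958338159) (nat_lit 102) (nat_lit 5) (nat_lit 104) (nat_lit 5) (nat_lit 105) (nat_lit 5) (nat_lit 503) (nat_lit 468) (nat_lit 229))))) (XT.nd (nat_lit 312) (nat_lit 608) (nat_lit 0) (XT.nd (nat_lit 156) (nat_lit 152) (nat_lit 0) (XT.nd (nat_lit 78) (nat_lit 228) (nat_lit 0) (XT.lf (nat_lit 0) (nat_lit 28895782575) (nat_lit 228) (nat_lit 20582568828) (nat_lit 76) (nat_lit 253722301029) (nat_lit 101) (nat_lit 5) (nat_lit 104) (nat_lit 5) (nat_lit 102) (nat_lit 5) (nat_lit 504) (nat_lit 468) (nat_lit 228)) (XT.lf (nat_lit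 0) (nat_lit 102596377541) (nat_lit 304) (nat_lit 142381325567) (nat_lit 76) (nat_lit 67527452418) (nat_lit 98) (nat_lit 5) (nat_lit 102) (nat_lit 5) (nat_lit 99) (nat_lit 5) (nat_lit 505) (nat_lit 468) (nat_lit 227))) (XT.nd (nat_lit 78) (nat_lit 0) (nat_lit 0) (XT.lf (nat_lit 0) (nat_lit 49592974991) (nat_lit 152) (nat_lit 132328631200) (nat_lit 228) (nat_lit 140256297391) (nat_lit 96) (nat_lit 5) (nat_lit 98) (nat_lit 5) (nat_lit 99) (nat_lit 5) (nat_lit 506) (nat_lit 468) (nat_lit 226)) (XT.lf (nat_lit 0) (nat_lit 256109002036) (nat_lit 152) (nat_lit 11515300950) (nat_lit 228) (nat_lit 64589425721) (nat_lit 96) (nat_lit 5) (nat_lit 98) (nat_lit 5) (nat_lit 99) (nat_lit 5) (nat_lit 507) (nat_lit 468) (nat_lit 225)))) (XT.nd (nat_lit 156) (nat_lit 380) (nat_lit 0) (XT.nd (nat_lit 78) (nat_lit 0) (nat_lit 0) (XT.lf (nat_lit 0) (nat_lit 18320239271) (nat_lit 228) (nat_lit 210209232958) (nat_lit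 76) (nat_lit 114013517544) (nat_lit 93) (nat_lit 5) (nat_lit 96) (nat_lit 5) (nat_lit 94) (nat_lit 5) (nat_lit 508) (nat_lit 468) (nat_lit 224)) (XT.lf (nat_lit 0) (nat_lit 104703448132) (nat_lit 228) (nat_lit 756812782) (nat_lit 76) (nat_lit 247800576386) (nat_lit 93) (nat_lit 5) (nat_lit 96) (nat_lit 5) (nat_lit 94) (nat_lit 5) (nat_lit 509) (nat_lit 468) (nat_lit 223))) (XT.nd (nat_lit 78) (nat_lit 228) (nat_lit 0) (XT.lf (nat_lit 0) (nat_lit 199369652074) (nat_lit 228) (nat_lit 138352001636) (nat_lit 76) (nat_lit 26594731763) (nat_lit 91) (nat_lit 5) (nat_lit 94) (nat_lit 5) (nat_lit 92) (nat_lit 5) (nat_lit 510) (nat_lit 468) (nat_lit 222)) (XT.nd (nat_lit 78) (nat_lit 76) (nat_lit 0) (XT.lf (nat_lit 0) (nat_lit 89251237278) (nat_lit 152) (nat_lit 212653193796) (nat_lit 228) (nat_lit 73863516742) (nat_lit 89) (nat_lit 5) (nat_lit 91) (nat_lit 5) (nat_lit 92) (nat_lit 5) (nat_lit 511) (nat_lit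 468) (nat_lit 221)) (XT.lf (nat_lit 0) (nat_lit 23458349620) (nat_lit 228) (nat_lit 55015528122) (nat_lit 76) (nat_lit 309182143566) (nat_lit 88) (nat_lit 5) (nat_lit 91) (nat_lit 5) (nat_lit 89) (nat_lit 5) (nat_lit 512) (nat_lit 468) (nat_lit 220))))))))
noncomputable def xc434 : XT := (XT.nd (nat_lit 1248) (nat_lit 1216) (nat_lit 0) (XT.nd (nat_lit 624) (nat_lit 760) (nat_lit 0) (XT.nd (nat_lit 312) (nat_lit 304) (nat_lit 0) (XT.nd (nat_lit 156) (nat_lit 152) (nat_lit 0) (XT.nd (nat_lit 78) (nat_lit 152) (nat_lit 0) (XT.lf (nat_lit 0) (nat_lit 127221357398) (nat_lit 228) (nat_lit 207943192014) (nat_lit 76) (nat_lit 64710537868) (nat_lit 86) (nat_lit 5) (nat_lit 89) (nat_lit 5) (nat_lit 87) (nat_lit 5) (nat_lit 513) (nat_lit 468) (nat_lit 219)) (XT.lf (nat_lit 0) (nat_lit 40471666567) (nat_lit 152) (nat_lit 198566094872) (nat_lit 228) (nat_lit 173524082821) (nat_lit 84) (nat_lit 5) (nat_lit 86)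 (nat_lit 5) (nat_lit 87) (nat_lit 5) (nat_lit 514) (nat_lit 468) (nat_lit 218))) (XT.nd (nat_lit 78) (nat_lit 152) (nat_lit 0) (XT.lf (nat_lit 0) (nat_lit 308526455890) (nat_lit 152) (nat_lit 51440074071) (nat_lit 228) (nat_lit 65740331914) (nat_lit 84) (nat_lit 5) (nat_lit 86) (nat_lit 5) (nat_lit 87) (nat_lit 5) (nat_lit 515) (nat_lit 468) (nat_lit 217)) (XT.lf (nat_lit 0) (nat_lit 49989971215) (nat_lit 152) (nat_lit 286326801863) (nat_lit 76) (nat_lit 102951554285) (nat_lit 82) (nat_lit 5) (nat_lit 84) (nat_lit 5) (nat_lit 83) (nat_lit 5) (nat_lit 516) (nat_lit 468) (nat_lit 216)))) (XT.nd (nat_lit 156) (nat_lit 152) (nat_lit 0) (XT.nd (nat_lit 78) (nat_lit 152) (nat_lit 0) (XT.lf (nat_lit 0) (nat_lit 172157731665) (nat_lit 152) (nat_lit 14724498370) (nat_lit 76) (nat_lit 266428738154) (nat_lit 82) (nat_lit 5) (nat_lit 84) (nat_lit 5) (nat_lit 83) (nat_lit 5) (nat_lit 517) (nat_lit 468) (nat_lit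 215)) (XT.lf (nat_lit 0) (nat_lit 279400355530) (nat_lit 152) (nat_lit 25395679290) (nat_lit 228) (nat_lit 163041598504) (nat_lit 80) (nat_lit 5) (nat_lit 82) (nat_lit 5) (nat_lit 83) (nat_lit 5) (nat_lit 518) (nat_lit 468) (nat_lit 214))) (XT.nd (nat_lit 78) (nat_lit 76) (nat_lit 0) (XT.lf (nat_lit 0) (nat_lit 106828641411) (nat_lit 76) (nat_lit 341409716129) (nat_lit 152) (nat_lit 34643668956) (nat_lit 79) (nat_lit 5) (nat_lit 80) (nat_lit 5) (nat_lit 81) (nat_lit 4) (nat_lit 519) (nat_lit 468) (nat_lit 213)) (XT.lf (nat_lit 0) (nat_lit 100627806463) (nat_lit 152) (nat_lit 77151861938) (nat_lit 76) (nat_lit 320637778560) (nat_lit 78) (nat_lit 5) (nat_lit 80) (nat_lit 5) (nat_lit 79) (nat_lit 5) (nat_lit 520) (nat_lit 468) (nat_lit 212))))) (XT.nd (nat_lit 312) (nat_lit 304) (nat_lit 0) (XT.nd (nat_lit 156) (nat_lit 228) (nat_lit 0) (XT.nd (nat_lit 78) (nat_lit 76) (nat_lit 0) (XT.lf (nat_lit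 0) (nat_lit 243934107150) (nat_lit 152) (nat_lit 1372925210) (nat_lit 228) (nat_lit 269203788084) (nat_lit 76) (nat_lit 5) (nat_lit 78) (nat_lit 5) (nat_lit 79) (nat_lit 5) (nat_lit 521) (nat_lit 468) (nat_lit 211)) (XT.lf (nat_lit 0) (nat_lit 51154633623) (nat_lit 76) (nat_lit 351062692158) (nat_lit 152) (nat_lit 128941681508) (nat_lit 75) (nat_lit 5) (nat_lit 76) (nat_lit 5) (nat_lit 77) (nat_lit 4) (nat_lit 522) (nat_lit 468) (nat_lit 210))) (XT.nd (nat_lit 78) (nat_lit 152) (nat_lit 0) (XT.lf (nat_lit 0) (nat_lit 22426654696) (nat_lit 152) (nat_lit 150428107630) (nat_lit 76) (nat_lit 375536533675) (nat_lit 74) (nat_lit 5) (nat_lit 76) (nat_lit 5) (nat_lit 75) (nat_lit 5) (nat_lit 523) (nat_lit 468) (nat_lit 209)) (XT.lf (nat_lit 0) (nat_lit 180459752612) (nat_lit 228) (nat_lit 366620487762) (nat_lit 76) (nat_lit 19127787327) (nat_lit 72) (nat_lit 5) (nat_lit 75) (nat_lit 5) (nat_lit 73) (nat_lit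 4) (nat_lit 524) (nat_lit 468) (nat_lit 208)))) (XT.nd (nat_lit 156) (nat_lit 228) (nat_lit 0) (XT.nd (nat_lit 78) (nat_lit 76) (nat_lit 0) (XT.lf (nat_lit 0) (nat_lit 351817466497) (nat_lit 228) (nat_lit 15337282883) (nat_lit 76) (nat_lit 217489698552) (nat_lit 72) (nat_lit 5) (nat_lit 75) (nat_lit 5) (nat_lit 73) (nat_lit 4) (nat_lit 525) (nat_lit 468) (nat_lit 207)) (XT.lf (nat_lit 0) (nat_lit 365198612325) (nat_lit 76) (nat_lit 172246170574) (nat_lit 152) (nat_lit 66272820437) (nat_lit 71) (nat_lit 5) (nat_lit 72) (nat_lit 5) (nat_lit 73) (nat_lit 4) (nat_lit 526) (nat_lit 468) (nat_lit 206))) (XT.nd (nat_lit 78) (nat_lit 0) (nat_lit 0) (XT.lf (nat_lit 0) (nat_lit 108227753359) (nat_lit 228) (nat_lit 479621954288) (nat_lit 76) (nat_lit 35655180652) (nat_lit 68) (nat_lit 5) (nat_lit 71) (nat_lit 5) (nat_lit 69) (nat_lit 4) (nat_lit 527) (nat_lit 468) (nat_lit 205)) (XT.lf (nat_lit 0) (nat_lit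 296155460469) (nat_lit 228) (nat_lit 94370244047) (nat_lit 76) (nat_lit 253355045714) (nat_lit 68) (nat_lit 5) (nat_lit 71) (nat_lit 5) (nat_lit 69) (nat_lit 4) (nat_lit 528) (nat_lit 468) (nat_lit 204)))))) (XT.nd (nat_lit 624) (nat_lit 684) (nat_lit 0) (XT.nd (nat_lit 312) (nat_lit 228) (nat_lit 0) (XT.nd (nat_lit 156) (nat_lit 76) (nat_lit 0) (XT.nd (nat_lit 78) (nat_lit 152) (nat_lit 0) (XT.lf (nat_lit 0) (nat_lit 320398709733) (nat_lit 76) (nat_lit 178083111155) (nat_lit 152) (nat_lit 166543470972) (nat_lit 67) (nat_lit 5) (nat_lit 68) (nat_lit 5) (nat_lit 69) (nat_lit 4) (nat_lit 529) (nat_lit 468) (nat_lit 203)) (XT.lf (nat_lit 0) (nat_lit 26472717849) (nat_lit 152) (nat_lit 613815789473) (nat_lit 76) (nat_lit 46743366823) (nat_lit 65) (nat_lit 5) (nat_lit 67) (nat_lit 5) (nat_lit 66) (nat_lit 4) (nat_lit 530) (nat_lit 468) (nat_lit 202))) (XT.nd (nat_lit 78) (nat_lit 76) (nat_lit 0) (XT.lf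 (nat_lit 0) (nat_lit 232394202137) (nat_lit 152) (nat_lit 191676820179) (nat_lit 76) (nat_lit 285488680251) (nat_lit 65) (nat_lit 5) (nat_lit 67) (nat_lit 5) (nat_lit 66) (nat_lit 4) (nat_lit 531) (nat_lit 468) (nat_lit 201)) (XT.lf (nat_lit 0) (nat_lit 259887007706) (nat_lit 76) (nat_lit 192782266567) (nat_lit 152) (nat_lit 280341772454) (nat_lit 64) (nat_lit 5) (nat_lit 65) (nat_lit 5) (nat_lit 66) (nat_lit 4) (nat_lit 532) (nat_lit 468) (nat_lit 200)))) (XT.nd (nat_lit 156) (nat_lit 76) (nat_lit 0) (XT.nd (nat_lit 78) (nat_lit 152) (nat_lit 0) (XT.lf (nat_lit 0) (nat_lit 688039151944) (nat_lit 152) (nat_lit 17624098012) (nat_lit 0) (nat_lit 51767655545) (nat_lit 64) (nat_lit 5) (nat_lit 66) (nat_lit 4) (nat_lit 64) (nat_lit 4) (nat_lit 533) (nat_lit 468) (nat_lit 199)) (XT.lf (nat_lit 0) (nat_lit 157949399415) (nat_lit 152) (nat_lit 312475288060) (nat_lit 76) (nat_lit 311992731495) (nat_lit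 62) (nat_lit 5) (nat_lit 64) (nat_lit 5) (nat_lit 63) (nat_lit 4) (nat_lit 534) (nat_lit 468) (nat_lit 198))) (XT.nd (nat_lit 78) (nat_lit 0) (nat_lit 0) (XT.lf (nat_lit 0) (nat_lit 178428475662) (nat_lit 76) (nat_lit 218986202440) (nat_lit 152) (nat_lit 411027247225) (nat_lit 61) (nat_lit 5) (nat_lit 62) (nat_lit 5) (nat_lit 63) (nat_lit 4) (nat_lit 535) (nat_lit 468) (nat_lit 197)) (XT.lf (nat_lit 0) (nat_lit 654934799784) (nat_lit 152) (nat_lit 131566996855) (nat_lit 0) (nat_lit 48961781410) (nat_lit 61) (nat_lit 5) (nat_lit 63) (nat_lit 4) (nat_lit 61) (nat_lit 4) (nat_lit 536) (nat_lit 468) (nat_lit 196))))) (XT.nd (nat_lit 312) (nat_lit 380) (nat_lit 0) (XT.nd (nat_lit 156) (nat_lit 76) (nat_lit 0) (XT.nd (nat_lit 78) (nat_lit 76) (nat_lit 0) (XT.lf (nat_lit 0) (nat_lit 69539272271) (nat_lit 152) (nat_lit 463417559961) (nat_lit 76) (nat_lit 330330832522) (nat_lit 59) (nat_lit 5) (nat_lit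 61) (nat_lit 5) (nat_lit 60) (nat_lit 4) (nat_lit 537) (nat_lit 468) (nat_lit 195)) (XT.lf (nat_lit 0) (nat_lit 69276395728) (nat_lit 76) (nat_lit 260113609745) (nat_lit 152) (nat_lit 562797664368) (nat_lit 58) (nat_lit 5) (nat_lit 59) (nat_lit 5) (nat_lit 60) (nat_lit 4) (nat_lit 538) (nat_lit 468) (nat_lit 194))) (XT.nd (nat_lit 78) (nat_lit 76) (nat_lit 0) (XT.lf (nat_lit 0) (nat_lit 610621826803) (nat_lit 152) (nat_lit 277986889825) (nat_lit 0) (nat_lit 33504530981) (nat_lit 58) (nat_lit 5) (nat_lit 60) (nat_lit 4) (nat_lit 58) (nat_lit 4) (nat_lit 539) (nat_lit 468) (nat_lit 193)) (XT.lf (nat_lit 0) (nat_lit 299505518606) (nat_lit 76) (nat_lit 615349955336) (nat_lit 76) (nat_lit 38232618588) (nat_lit 57) (nat_lit 4) (nat_lit 58) (nat_lit 5) (nat_lit 58) (nat_lit 4) (nat_lit 540) (nat_lit 468) (nat_lit 192)))) (XT.nd (nat_lit 156) (nat_lit 228) (nat_lit 0) (XT.nd (nat_lit 78) (nat_lit 76) (nat_lit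 0) (XT.lf (nat_lit 0) (nat_lit 245514495683) (nat_lit 152) (nat_lit 73812659572) (nat_lit 76) (nat_lit 665851138884) (nat_lit 56) (nat_lit 5) (nat_lit 58) (nat_lit 5) (nat_lit 57) (nat_lit 4) (nat_lit 541) (nat_lit 468) (nat_lit 191)) (XT.lf (nat_lit 0) (nat_lit 550800899311) (nat_lit 152) (nat_lit 466443660258) (nat_lit 0) (nat_lit 1165268031) (nat_lit 55) (nat_lit 5) (nat_lit 57) (nat_lit 4) (nat_lit 55) (nat_lit 4) (nat_lit 542) (nat_lit 468) (nat_lit 190))) (XT.nd (nat_lit 78) (nat_lit 152) (nat_lit 0) (XT.lf (nat_lit 0) (nat_lit 158162863983) (nat_lit 76) (nat_lit 722163500808) (nat_lit 76) (nat_lit 172527835859) (nat_lit 54) (nat_lit 4) (nat_lit 55) (nat_lit 5) (nat_lit 55) (nat_lit 4) (nat_lit 543) (nat_lit 468) (nat_lit 189)) (XT.nd (nat_lit 78) (nat_lit 76) (nat_lit 0) (XT.lf (nat_lit 0) (nat_lit 140941526973) (nat_lit 152) (nat_lit 260705566717) (nat_lit 76) (nat_lit 686865065704) (nat_lit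 53) (nat_lit 5) (nat_lit 55) (nat_lit 5) (nat_lit 54) (nat_lit 4) (nat_lit 544) (nat_lit 468) (nat_lit 188)) (XT.lf (nat_lit 0) (nat_lit 415448020804) (nat_lit 76) (nat_lit 55324539370) (nat_lit 152) (nat_lit 654714726203) (nat_lit 52) (nat_lit 5) (nat_lit 53) (nat_lit 5) (nat_lit 54) (nat_lit 4) (nat_lit 545) (nat_lit 468) (nat_lit 187))))))))
noncomputable def xc435 : XT := (XT.nd (nat_lit 57564) (nat_lit 0) (nat_lit 4560) (XT.nd (nat_lit 56940) (nat_lit 0) (nat_lit 7676) (XT.nd (nat_lit 56628) (nat_lit 0) (nat_lit 8664) (XT.nd (nat_lit 56472) (nat_lit 0) (nat_lit 8588) (XT.nd (nat_lit 78) (nat_lit 152) (nat_lit 0) (XT.lf (nat_lit 0) (nat_lit 826396308727) (nat_lit 152) (nat_lit 34516119438) (nat_lit 0) (nat_lit 302933683357) (nat_lit 52) (nat_lit 5) (nat_lit 54) (nat_lit 4) (nat_lit 52) (nat_lit 4) (nat_lit 546) (nat_lit 468) (nat_lit 186)) (XT.lf (nat_lit 0) (nat_lit 7785626186) (nat_lit 152)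 (nat_lit 507502118066) (nat_lit 76) (nat_lit 688240060306) (nat_lit 50) (nat_lit 5) (nat_lit 52) (nat_lit 5) (nat_lit 51) (nat_lit 4) (nat_lit 547) (nat_lit 468) (nat_lit 185))) (XT.nd (nat_lit 78) (nat_lit 0) (nat_lit 0) (XT.lf (nat_lit 0) (nat_lit 26023868752) (nat_lit 836) (nat_lit 16392319905) (nat_lit 836) (nat_lit 16392319905) (nat_lit 163) (nat_lit 3) (nat_lit 174) (nat_lit 3) (nat_lit 174) (nat_lit 5) (nat_lit 469) (nat_lit 469) (nat_lit 262)) (XT.lf (nat_lit 76) (nat_lit 26638190397) (nat_lit 0) (nat_lit 27131290749) (nat_lit 836) (nat_lit 66766933538) (nat_lit 164) (nat_lit 5) (nat_lit 163) (nat_lit 3) (nat_lit 174) (nat_lit 5) (nat_lit 470) (nat_lit 469) (nat_lit 261)))) (XT.nd (nat_lit 156) (nat_lit 0) (nat_lit 76) (XT.nd (nat_lit 78) (nat_lit 0) (nat_lit 0) (XT.lf (nat_lit 0) (nat_lit 56663663474) (nat_lit 760) (nat_lit 33935254929) (nat_lit 836) (nat_lit 32948546166) (nat_lit 164)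 (nat_lit 5) (nat_lit 174) (nat_lit 5) (nat_lit 175) (nat_lit 5) (nat_lit 471) (nat_lit 469) (nat_lit 260)) (XT.lf (nat_lit 76) (nat_lit 29525931578) (nat_lit 0) (nat_lit 31082097107) (nat_lit 836) (nat_lit 66055764596) (nat_lit 165) (nat_lit 5) (nat_lit 164) (nat_lit 5) (nat_lit 175) (nat_lit 5) (nat_lit 472) (nat_lit 469) (nat_lit 259))) (XT.nd (nat_lit 78) (nat_lit 0) (nat_lit 0) (XT.lf (nat_lit 0) (nat_lit 65823879076) (nat_lit 760) (nat_lit 33068881367) (nat_lit 836) (nat_lit 30989464661) (nat_lit 165) (nat_lit 5) (nat_lit 175) (nat_lit 5) (nat_lit 176) (nat_lit 5) (nat_lit 473) (nat_lit 469) (nat_lit 258)) (XT.lf (nat_lit 76) (nat_lit 34807901500) (nat_lit 0) (nat_lit 37545353409) (nat_lit 836) (nat_lit 60855686982) (nat_lit 166) (nat_lit 5) (nat_lit 165) (nat_lit 5) (nat_lit 176) (nat_lit 5) (nat_lit 474) (nat_lit 469) (nat_lit 257))))) (XT.nd (nat_lit 312) (nat_lit 1140) (nat_lit 0) (XT.nd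 (nat_lit 156) (nat_lit 0) (nat_lit 76) (XT.nd (nat_lit 78) (nat_lit 0) (nat_lit 0) (XT.lf (nat_lit 0) (nat_lit 80197577299) (nat_lit 760) (nat_lit 29876265199) (nat_lit 836) (nat_lit 26578728151) (nat_lit 166) (nat_lit 5) (nat_lit 176) (nat_lit 5) (nat_lit 177) (nat_lit 5) (nat_lit 475) (nat_lit 469) (nat_lit 256)) (XT.lf (nat_lit 76) (nat_lit 42829899214) (nat_lit 0) (nat_lit 46888173047) (nat_lit 836) (nat_lit 50486110779) (nat_lit 167) (nat_lit 5) (nat_lit 166) (nat_lit 5) (nat_lit 177) (nat_lit 5) (nat_lit 476) (nat_lit 469) (nat_lit 255))) (XT.nd (nat_lit 78) (nat_lit 0) (nat_lit 0) (XT.lf (nat_lit 0) (nat_lit 100532403885) (nat_lit 760) (nat_lit 24011724304) (nat_lit 836) (nat_lit 19348357284) (nat_lit 167) (nat_lit 5) (nat_lit 177) (nat_lit 5) (nat_lit 178) (nat_lit 5) (nat_lit 477) (nat_lit 469) (nat_lit 254)) (XT.lf (nat_lit 76) (nat_lit 53977753071) (nat_lit 0) (nat_lit 59520885847) (nat_lit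 836) (nat_lit 34186004783) (nat_lit 168) (nat_lit 5) (nat_lit 167) (nat_lit 5) (nat_lit 178) (nat_lit 5) (nat_lit 478) (nat_lit 469) (nat_lit 253)))) (XT.nd (nat_lit 156) (nat_lit 532) (nat_lit 0) (XT.nd (nat_lit 78) (nat_lit 760) (nat_lit 0) (XT.lf (nat_lit 0) (nat_lit 127662961578) (nat_lit 760) (nat_lit 15089258377) (nat_lit 76) (nat_lit 8886701108) (nat_lit 168) (nat_lit 5) (nat_lit 178) (nat_lit 5) (nat_lit 169) (nat_lit 5) (nat_lit 479) (nat_lit 469) (nat_lit 252)) (XT.lf (nat_lit 0) (nat_lit 68681566256) (nat_lit 760) (nat_lit 75901800309) (nat_lit 836) (nat_lit 11105152433) (nat_lit 158) (nat_lit 5) (nat_lit 168) (nat_lit 5) (nat_lit 169) (nat_lit 5) (nat_lit 480) (nat_lit 469) (nat_lit 251))) (XT.nd (nat_lit 78) (nat_lit 456) (nat_lit 0) (XT.lf (nat_lit 0) (nat_lit 2591624628) (nat_lit 836) (nat_lit 2805005712) (nat_lit 76) (nat_lit 154529108842) (nat_lit 157) (nat_lit 5) (nat_lit 168)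 (nat_lit 5) (nat_lit 158) (nat_lit 5) (nat_lit 481) (nat_lit 469) (nat_lit 250)) (XT.lf (nat_lit 0) (nat_lit 19074807078) (nat_lit 532) (nat_lit 77144627781) (nat_lit 76) (nat_lit 68022544321) (nat_lit 151) (nat_lit 5) (nat_lit 158) (nat_lit 5) (nat_lit 152) (nat_lit 5) (nat_lit 482) (nat_lit 469) (nat_lit 249)))))) (XT.nd (nat_lit 624) (nat_lit 1368) (nat_lit 0) (XT.nd (nat_lit 312) (nat_lit 988) (nat_lit 0) (XT.nd (nat_lit 156) (nat_lit 380) (nat_lit 0) (XT.nd (nat_lit 78) (nat_lit 0) (nat_lit 0) (XT.lf (nat_lit 0) (nat_lit 13152076905) (nat_lit 380) (nat_lit 23571986154) (nat_lit 456) (nat_lit 132032872411) (nat_lit 146) (nat_lit 5) (nat_lit 151) (nat_lit 5) (nat_lit 152) (nat_lit 5) (nat_lit 483) (nat_lit 469) (nat_lit 248)) (XT.lf (nat_lit 0) (nat_lit 57406425335) (nat_lit 456) (nat_lit 63634929347) (nat_lit 76) (nat_lit 52348752729) (nat_lit 146) (nat_lit 5) (nat_lit 152) (nat_lit 5) (nat_lit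 147) (nat_lit 5) (nat_lit 484) (nat_lit 469) (nat_lit 247))) (XT.nd (nat_lit 78) (nat_lit 0) (nat_lit 0) (XT.lf (nat_lit 0) (nat_lit 33623043207) (nat_lit 380) (nat_lit 46411073831) (nat_lit 456) (nat_lit 98175260356) (nat_lit 141) (nat_lit 5) (nat_lit 146) (nat_lit 5) (nat_lit 147) (nat_lit 5) (nat_lit 485) (nat_lit 469) (nat_lit 246)) (XT.lf (nat_lit 0) (nat_lit 105387229312) (nat_lit 456) (nat_lit 45779237800) (nat_lit 76) (nat_lit 32023441976) (nat_lit 141) (nat_lit 5) (nat_lit 147) (nat_lit 5) (nat_lit 142) (nat_lit 5) (nat_lit 486) (nat_lit 469) (nat_lit 245)))) (XT.nd (nat_lit 156) (nat_lit 684) (nat_lit 0) (XT.nd (nat_lit 78) (nat_lit 0) (nat_lit 0) (XT.lf (nat_lit 0) (nat_lit 59098733773) (nat_lit 304) (nat_lit 74592645509) (nat_lit 380) (nat_lit 54643918990) (nat_lit 137) (nat_lit 5) (nat_lit 141) (nat_lit 5) (nat_lit 142) (nat_lit 5) (nat_lit 487) (nat_lit 469) (nat_lit 244)) (XT.lf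 (nat_lit 0) (nat_lit 164289300574) (nat_lit 380) (nat_lit 22992829807) (nat_lit 76) (nat_lit 6411898353) (nat_lit 137) (nat_lit 5) (nat_lit 142) (nat_lit 5) (nat_lit 138) (nat_lit 5) (nat_lit 488) (nat_lit 469) (nat_lit 243))) (XT.nd (nat_lit 78) (nat_lit 380) (nat_lit 0) (XT.lf (nat_lit 0) (nat_lit 90227952452) (nat_lit 304) (nat_lit 108820566210) (nat_lit 380) (nat_lit 140607029) (nat_lit 133) (nat_lit 5) (nat_lit 137) (nat_lit 5) (nat_lit 138) (nat_lit 5) (nat_lit 489) (nat_lit 469) (nat_lit 242)) (XT.lf (nat_lit 0) (nat_lit 4632703929) (nat_lit 304) (nat_lit 25443019042) (nat_lit 380) (nat_lit 174835978870) (nat_lit 128) (nat_lit 5) (nat_lit 132) (nat_lit 5) (nat_lit 133) (nat_lit 5) (nat_lit 490) (nat_lit 469) (nat_lit 241))))) (XT.nd (nat_lit 312) (nat_lit 836) (nat_lit 0) (XT.nd (nat_lit 156) (nat_lit 228) (nat_lit 0) (XT.nd (nat_lit 78) (nat_lit 304) (nat_lit 0) (XT.lf (nat_lit 0) (nat_lit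 64643178235) (nat_lit 380) (nat_lit 84141316983) (nat_lit 76) (nat_lit 61993544632) (nat_lit 128) (nat_lit 5) (nat_lit 133) (nat_lit 5) (nat_lit 129) (nat_lit 5) (nat_lit 491) (nat_lit 469) (nat_lit 240)) (XT.lf (nat_lit 0) (nat_lit 38622134716) (nat_lit 304) (nat_lit 63336841119) (nat_lit 380) (nat_lit 114927720451) (nat_lit 124) (nat_lit 5) (nat_lit 128) (nat_lit 5) (nat_lit 129) (nat_lit 5) (nat_lit 492) (nat_lit 469) (nat_lit 239))) (XT.nd (nat_lit 78) (nat_lit 228) (nat_lit 0) (XT.lf (nat_lit 0) (nat_lit 143000687276) (nat_lit 380) (nat_lit 53220024344) (nat_lit 76) (nat_lit 26987067735) (nat_lit 124) (nat_lit 5) (nat_lit 129) (nat_lit 5) (nat_lit 125) (nat_lit 5) (nat_lit 493) (nat_lit 469) (nat_lit 238)) (XT.lf (nat_lit 0) (nat_lit 79585504838) (nat_lit 228) (nat_lit 108789721271) (nat_lit 304) (nat_lit 41355653385) (nat_lit 121) (nat_lit 5) (nat_lit 124) (nat_lit 5) (nat_lit 125) (nat_lit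 5) (nat_lit 494) (nat_lit 469) (nat_lit 237)))) (XT.nd (nat_lit 156) (nat_lit 456) (nat_lit 0) (XT.nd (nat_lit 78) (nat_lit 304) (nat_lit 0) (XT.lf (nat_lit 0) (nat_lit 372297229) (nat_lit 304) (nat_lit 15662247017) (nat_lit 76) (nat_lit 220500230644) (nat_lit 120) (nat_lit 5) (nat_lit 124) (nat_lit 5) (nat_lit 121) (nat_lit 5) (nat_lit 495) (nat_lit 469) (nat_lit 236)) (XT.lf (nat_lit 0) (nat_lit 46125056131) (nat_lit 380) (nat_lit 115863048677) (nat_lit 76) (nat_lit 81490450584) (nat_lit 116) (nat_lit 5) (nat_lit 121) (nat_lit 5) (nat_lit 117) (nat_lit 5) (nat_lit 496) (nat_lit 469) (nat_lit 235))) (XT.nd (nat_lit 78) (nat_lit 228) (nat_lit 0) (XT.lf (nat_lit 0) (nat_lit 28489107800) (nat_lit 228) (nat_lit 66653486982) (nat_lit 304) (nat_lit 155578073050) (nat_lit 113) (nat_lit 5) (nat_lit 116) (nat_lit 5) (nat_lit 117) (nat_lit 5) (nat_lit 497) (nat_lit 469) (nat_lit 234)) (XT.nd (nat_lit 78)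 (nat_lit 228) (nat_lit 0) (XT.lf (nat_lit 0) (nat_lit 149127480901) (nat_lit 304) (nat_lit 74699940038) (nat_lit 76) (nat_lit 34371641435) (nat_lit 113) (nat_lit 5) (nat_lit 117) (nat_lit 5) (nat_lit 114) (nat_lit 5) (nat_lit 498) (nat_lit 469) (nat_lit 233)) (XT.lf (nat_lit 0) (nat_lit 81731344291) (nat_lit 228) (nat_lit 126448899363) (nat_lit 304) (nat_lit 57752701377) (nat_lit 110) (nat_lit 5) (nat_lit 113) (nat_lit 5) (nat_lit 114) (nat_lit 5) (nat_lit 499) (nat_lit 469) (nat_lit 232))))))))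
noncomputable def xc436 : XT := (XT.nd (nat_lit 1248) (nat_lit 1444) (nat_lit 0) (XT.nd (nat_lit 624) (nat_lit 912) (nat_lit 0) (XT.nd (nat_lit 312) (nat_lit 608) (nat_lit 0) (XT.nd (nat_lit 156) (nat_lit 228) (nat_lit 0) (XT.nd (nat_lit 78) (nat_lit 228) (nat_lit 0) (XT.lf (nat_lit 0) (nat_lit 248577458509) (nat_lit 228) (nat_lit 22873165152) (nat_lit 304) (nat_lit 2539649211) (nat_lit 110) (nat_lit 5) (nat_lit 113) (nat_lit 5) (nat_lit 114) (nat_lit 5) (nat_lit 500) (nat_lit 469) (nat_lit 231)) (XT.lf (nat_lit 0) (nat_lit 57317213942) (nat_lit 228) (nat_lit 138592413637) (nat_lit 76) (nat_lit 86314695763) (nat_lit 107) (nat_lit 5) (nat_lit 110) (nat_lit 5) (nat_lit 108) (nat_lit 5) (nat_lit 501) (nat_lit 469) (nat_lit 230))) (XT.nd (nat_lit 78) (nat_lit 0) (nat_lit 0) (XT.lf (nat_lit 0) (nat_lit 31755146734) (nat_lit 228) (nat_lit 89634519492) (nat_lit 304) (nat_lit 169412923692) (nat_lit 104)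 (nat_lit 5) (nat_lit 107) (nat_lit 5) (nat_lit 108) (nat_lit 5) (nat_lit 502) (nat_lit 469) (nat_lit 229)) (XT.lf (nat_lit 0) (nat_lit 191394023017) (nat_lit 304) (nat_lit 84642105950) (nat_lit 76) (nat_lit 23637226765) (nat_lit 104) (nat_lit 5) (nat_lit 108) (nat_lit 5) (nat_lit 105) (nat_lit 5) (nat_lit 503) (nat_lit 469) (nat_lit 228)))) (XT.nd (nat_lit 156) (nat_lit 380) (nat_lit 0) (XT.nd (nat_lit 78) (nat_lit 76) (nat_lit 0) (XT.lf (nat_lit 0) (nat_lit 100221658760) (nat_lit 152) (nat_lit 167711008619) (nat_lit 228) (nat_lit 40903288975) (nat_lit 102) (nat_lit 5) (nat_lit 104) (nat_lit 5) (nat_lit 105) (nat_lit 5) (nat_lit 504) (nat_lit 469) (nat_lit 227)) (XT.lf (nat_lit 0) (nat_lit 30343306140) (nat_lit 228) (nat_lit 21607370052) (nat_lit 76) (nat_lit 266409872035) (nat_lit 101) (nat_lit 5) (nat_lit 104) (nat_lit 5) (nat_lit 102) (nat_lit 5) (nat_lit 505) (nat_lit 469) (nat_lit 226))) (XT.nd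 (nat_lit 78) (nat_lit 152) (nat_lit 0) (XT.lf (nat_lit 0) (nat_lit 107728891887) (nat_lit 304) (nat_lit 149496025560) (nat_lit 76) (nat_lit 70905360982) (nat_lit 98) (nat_lit 5) (nat_lit 102) (nat_lit 5) (nat_lit 99) (nat_lit 5) (nat_lit 506) (nat_lit 469) (nat_lit 225)) (XT.lf (nat_lit 0) (nat_lit 52076919602) (nat_lit 152) (nat_lit 138943401082) (nat_lit 228) (nat_lit 147266346272) (nat_lit 96) (nat_lit 5) (nat_lit 98) (nat_lit 5) (nat_lit 99) (nat_lit 5) (nat_lit 507) (nat_lit 469) (nat_lit 224))))) (XT.nd (nat_lit 312) (nat_lit 532) (nat_lit 0) (XT.nd (nat_lit 156) (nat_lit 152) (nat_lit 0) (XT.nd (nat_lit 78) (nat_lit 228) (nat_lit 0) (XT.lf (nat_lit 0) (nat_lit 268918543435) (nat_lit 152) (nat_lit 12089483446) (nat_lit 228) (nat_lit 67816262732) (nat_lit 96) (nat_lit 5) (nat_lit 98) (nat_lit 5) (nat_lit 99) (nat_lit 5) (nat_lit 508) (nat_lit 469) (nat_lit 223)) (XT.lf (nat_lit 0) (nat_lit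 19238769138) (nat_lit 228) (nat_lit 220715486767) (nat_lit 76) (nat_lit 119715757379) (nat_lit 93) (nat_lit 5) (nat_lit 96) (nat_lit 5) (nat_lit 94) (nat_lit 5) (nat_lit 509) (nat_lit 469) (nat_lit 222))) (XT.nd (nat_lit 78) (nat_lit 152) (nat_lit 0) (XT.lf (nat_lit 0) (nat_lit 109941018541) (nat_lit 228) (nat_lit 790645955) (nat_lit 76) (nat_lit 260192094689) (nat_lit 93) (nat_lit 5) (nat_lit 96) (nat_lit 5) (nat_lit 94) (nat_lit 5) (nat_lit 510) (nat_lit 469) (nat_lit 221)) (XT.lf (nat_lit 0) (nat_lit 209340504989) (nat_lit 228) (nat_lit 145265566487) (nat_lit 76) (nat_lit 27926014681) (nat_lit 91) (nat_lit 5) (nat_lit 94) (nat_lit 5) (nat_lit 92) (nat_lit 5) (nat_lit 511) (nat_lit 469) (nat_lit 220)))) (XT.nd (nat_lit 156) (nat_lit 304) (nat_lit 0) (XT.nd (nat_lit 78) (nat_lit 76) (nat_lit 0) (XT.lf (nat_lit 0) (nat_lit 93717769289) (nat_lit 152) (nat_lit 223284202763) (nat_lit 228) (nat_lit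 77554257112) (nat_lit 89) (nat_lit 5) (nat_lit 91) (nat_lit 5) (nat_lit 92) (nat_lit 5) (nat_lit 512) (nat_lit 469) (nat_lit 219)) (XT.lf (nat_lit 0) (nat_lit 24633512355) (nat_lit 228) (nat_lit 57762449132) (nat_lit 76) (nat_lit 324642748558) (nat_lit 88) (nat_lit 5) (nat_lit 91) (nat_lit 5) (nat_lit 89) (nat_lit 5) (nat_lit 513) (nat_lit 469) (nat_lit 218))) (XT.nd (nat_lit 78) (nat_lit 152) (nat_lit 0) (XT.lf (nat_lit 0) (nat_lit 133584647741) (nat_lit 228) (nat_lit 218336473376) (nat_lit 76) (nat_lit 67947609342) (nat_lit 86) (nat_lit 5) (nat_lit 89) (nat_lit 5) (nat_lit 87) (nat_lit 5) (nat_lit 514) (nat_lit 469) (nat_lit 217)) (XT.lf (nat_lit 0) (nat_lit 42499065582) (nat_lit 152) (nat_lit 208492760143) (nat_lit 228) (nat_lit 182198001878) (nat_lit 84) (nat_lit 5) (nat_lit 86) (nat_lit 5) (nat_lit 87) (nat_lit 5) (nat_lit 515) (nat_lit 469) (nat_lit 216)))))) (XT.nd (nat_lit 624) (nat_lit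 760) (nat_lit 0) (XT.nd (nat_lit 312) (nat_lit 380) (nat_lit 0) (XT.nd (nat_lit 156) (nat_lit 152) (nat_lit 0) (XT.nd (nat_lit 78) (nat_lit 152) (nat_lit 0) (XT.lf (nat_lit 0) (nat_lit 323956412672) (nat_lit 152) (nat_lit 54010516373) (nat_lit 228) (nat_lit 69025172240) (nat_lit 84) (nat_lit 5) (nat_lit 86) (nat_lit 5) (nat_lit 87) (nat_lit 5) (nat_lit 516) (nat_lit 469) (nat_lit 215)) (XT.lf (nat_lit 0) (nat_lit 52491557649) (nat_lit 152) (nat_lit 300639419469) (nat_lit 76) (nat_lit 108100662169) (nat_lit 82) (nat_lit 5) (nat_lit 84) (nat_lit 5) (nat_lit 83) (nat_lit 5) (nat_lit 517) (nat_lit 469) (nat_lit 214))) (XT.nd (nat_lit 78) (nat_lit 152) (nat_lit 0) (XT.lf (nat_lit 0) (nat_lit 180767606699) (nat_lit 152) (nat_lit 15457178062) (nat_lit 76) (nat_lit 279751632367) (nat_lit 82) (nat_lit 5) (nat_lit 84) (nat_lit 5) (nat_lit 83) (nat_lit 5) (nat_lit 518) (nat_lit 469) (nat_lit 213)) (XT.lf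 (nat_lit 0) (nat_lit 293373861352) (nat_lit 152) (nat_lit 26663923430) (nat_lit 228) (nat_lit 171191632751) (nat_lit 80) (nat_lit 5) (nat_lit 82) (nat_lit 5) (nat_lit 83) (nat_lit 5) (nat_lit 519) (nat_lit 469) (nat_lit 212)))) (XT.nd (nat_lit 156) (nat_lit 228) (nat_lit 0) (XT.nd (nat_lit 78) (nat_lit 76) (nat_lit 0) (XT.lf (nat_lit 0) (nat_lit 112173577500) (nat_lit 76) (nat_lit 358478630969) (nat_lit 152) (nat_lit 36373822656) (nat_lit 79) (nat_lit 5) (nat_lit 80) (nat_lit 5) (nat_lit 81) (nat_lit 4) (nat_lit 520) (nat_lit 469) (nat_lit 211)) (XT.lf (nat_lit 0) (nat_lit 105661068009) (nat_lit 152) (nat_lit 81006055964) (nat_lit 76) (nat_lit 336671101736) (nat_lit 78) (nat_lit 5) (nat_lit 80) (nat_lit 5) (nat_lit 79) (nat_lit 5) (nat_lit 521) (nat_lit 469) (nat_lit 210))) (XT.nd (nat_lit 78) (nat_lit 76) (nat_lit 0) (XT.lf (nat_lit 0) (nat_lit 256134156755) (nat_lit 152) (nat_lit 1440061553)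 (nat_lit 228) (nat_lit 282662051404) (nat_lit 76) (nat_lit 5) (nat_lit 78) (nat_lit 5) (nat_lit 79) (nat_lit 5) (nat_lit 522) (nat_lit 469) (nat_lit 209)) (XT.lf (nat_lit 0) (nat_lit 53715722693) (nat_lit 76) (nat_lit 368614291228) (nat_lit 152) (nat_lit 135386852604) (nat_lit 75) (nat_lit 5) (nat_lit 76) (nat_lit 5) (nat_lit 77) (nat_lit 4) (nat_lit 523) (nat_lit 469) (nat_lit 208))))) (XT.nd (nat_lit 312) (nat_lit 456) (nat_lit 0) (XT.nd (nat_lit 156) (nat_lit 76) (nat_lit 0) (XT.nd (nat_lit 78) (nat_lit 152) (nat_lit 0) (XT.lf (nat_lit 0) (nat_lit 23549751004) (nat_lit 152) (nat_lit 157946257154) (nat_lit 76) (nat_lit 394314764432) (nat_lit 74) (nat_lit 5) (nat_lit 76) (nat_lit 5) (nat_lit 75) (nat_lit 5) (nat_lit 524) (nat_lit 469) (nat_lit 207)) (XT.lf (nat_lit 0) (nat_lit 189484492858) (nat_lit 228) (nat_lit 384948245304) (nat_lit 76) (nat_lit 20085603261) (nat_lit 72) (nat_lit 5) (nat_lit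 75) (nat_lit 5) (nat_lit 73) (nat_lit 4) (nat_lit 525) (nat_lit 469) (nat_lit 206))) (XT.nd (nat_lit 78) (nat_lit 76) (nat_lit 0) (XT.lf (nat_lit 0) (nat_lit 369410008980) (nat_lit 228) (nat_lit 16101035745) (nat_lit 76) (nat_lit 228365542116) (nat_lit 72) (nat_lit 5) (nat_lit 75) (nat_lit 5) (nat_lit 73) (nat_lit 4) (nat_lit 526) (nat_lit 469) (nat_lit 205)) (XT.lf (nat_lit 0) (nat_lit 383461604041) (nat_lit 76) (nat_lit 180857055469) (nat_lit 152) (nat_lit 69584742090) (nat_lit 71) (nat_lit 5) (nat_lit 72) (nat_lit 5) (nat_lit 73) (nat_lit 4) (nat_lit 527) (nat_lit 469) (nat_lit 204)))) (XT.nd (nat_lit 156) (nat_lit 228) (nat_lit 0) (XT.nd (nat_lit 78) (nat_lit 0) (nat_lit 0) (XT.lf (nat_lit 0) (nat_lit 113640796350) (nat_lit 228) (nat_lit 503599926804) (nat_lit 76) (nat_lit 37439326767) (nat_lit 68) (nat_lit 5) (nat_lit 71) (nat_lit 5) (nat_lit 69) (nat_lit 4) (nat_lit 528) (nat_lit 469) (nat_lit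 203)) (XT.lf (nat_lit 0) (nat_lit 310964809991) (nat_lit 228) (nat_lit 99085779870) (nat_lit 76) (nat_lit 266024119031) (nat_lit 68) (nat_lit 5) (nat_lit 71) (nat_lit 5) (nat_lit 69) (nat_lit 4) (nat_lit 529) (nat_lit 469) (nat_lit 202))) (XT.nd (nat_lit 78) (nat_lit 152) (nat_lit 0) (XT.lf (nat_lit 0) (nat_lit 336421573592) (nat_lit 76) (nat_lit 186985885487) (nat_lit 152) (nat_lit 174869019993) (nat_lit 67) (nat_lit 5) (nat_lit 68) (nat_lit 5) (nat_lit 69) (nat_lit 4) (nat_lit 530) (nat_lit 469) (nat_lit 201)) (XT.nd (nat_lit 78) (nat_lit 0) (nat_lit 0) (XT.lf (nat_lit 0) (nat_lit 27797918858) (nat_lit 152) (nat_lit 644503591120) (nat_lit 76) (nat_lit 49081879598) (nat_lit 65) (nat_lit 5) (nat_lit 67) (nat_lit 5) (nat_lit 66) (nat_lit 4) (nat_lit 531) (nat_lit 469) (nat_lit 200)) (XT.lf (nat_lit 0) (nat_lit 244015402830) (nat_lit 152) (nat_lit 201257815638) (nat_lit 76) (nat_lit 299764394677)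 (nat_lit 65) (nat_lit 5) (nat_lit 67) (nat_lit 5) (nat_lit 66) (nat_lit 4) (nat_lit 532) (nat_lit 469) (nat_lit 199))))))))
noncomputable def xc437 : XT := (XT.nd (nat_lit 57642) (nat_lit 0) (nat_lit 6764) (XT.nd (nat_lit 624) (nat_lit 456) (nat_lit 0) (XT.nd (nat_lit 312) (nat_lit 228) (nat_lit 0) (XT.nd (nat_lit 156) (nat_lit 228) (nat_lit 0) (XT.nd (nat_lit 78) (nat_lit 0) (nat_lit 0) (XT.lf (nat_lit 0) (nat_lit 272884157745) (nat_lit 76) (nat_lit 202420043559) (nat_lit 152) (nat_lit 294357324575) (nat_lit 64) (nat_lit 5) (nat_lit 65) (nat_lit 5) (nat_lit 66) (nat_lit 4) (nat_lit 533) (nat_lit 469) (nat_lit 198)) (XT.lf (nat_lit 0) (nat_lit 722442523046) (nat_lit 152) (nat_lit 18502586746) (nat_lit 0) (nat_lit 54357270290) (nat_lit 64) (nat_lit 5) (nat_lit 66) (nat_lit 4) (nat_lit 64) (nat_lit 4) (nat_lit 534) (nat_lit 469) (nat_lit 197))) (XT.nd (nat_lit 78) (nat_lit 76) (nat_lit 0) (XT.lf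 (nat_lit 0) (nat_lit 165848280074) (nat_lit 152) (nat_lit 328096333446) (nat_lit 76) (nat_lit 327593605848) (nat_lit 62) (nat_lit 5) (nat_lit 64) (nat_lit 5) (nat_lit 63) (nat_lit 4) (nat_lit 535) (nat_lit 469) (nat_lit 196)) (XT.lf (nat_lit 0) (nat_lit 187352574607) (nat_lit 76) (nat_lit 229934222679) (nat_lit 152) (nat_lit 431577155027) (nat_lit 61) (nat_lit 5) (nat_lit 62) (nat_lit 5) (nat_lit 63) (nat_lit 4) (nat_lit 536) (nat_lit 469) (nat_lit 195)))) (XT.nd (nat_lit 156) (nat_lit 76) (nat_lit 0) (XT.nd (nat_lit 78) (nat_lit 152) (nat_lit 0) (XT.lf (nat_lit 0) (nat_lit 687682878267) (nat_lit 152) (nat_lit 138142752123) (nat_lit 0) (nat_lit 51411059623) (nat_lit 61) (nat_lit 5) (nat_lit 63) (nat_lit 4) (nat_lit 61) (nat_lit 4) (nat_lit 537) (nat_lit 469) (nat_lit 194)) (XT.lf (nat_lit 0) (nat_lit 73017572060) (nat_lit 152) (nat_lit 486585841039) (nat_lit 76) (nat_lit 346848568070) (nat_lit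 59) (nat_lit 5) (nat_lit 61) (nat_lit 5) (nat_lit 60) (nat_lit 4) (nat_lit 538) (nat_lit 469) (nat_lit 193))) (XT.nd (nat_lit 78) (nat_lit 0) (nat_lit 0) (XT.lf (nat_lit 0) (nat_lit 72742770549) (nat_lit 76) (nat_lit 273118047638) (nat_lit 152) (nat_lit 590936169512) (nat_lit 58) (nat_lit 5) (nat_lit 59) (nat_lit 5) (nat_lit 60) (nat_lit 4) (nat_lit 539) (nat_lit 469) (nat_lit 192)) (XT.lf (nat_lit 0) (nat_lit 641154186563) (nat_lit 152) (nat_lit 291883756917) (nat_lit 0) (nat_lit 35180903077) (nat_lit 58) (nat_lit 5) (nat_lit 60) (nat_lit 4) (nat_lit 58) (nat_lit 4) (nat_lit 540) (nat_lit 469) (nat_lit 191))))) (XT.nd (nat_lit 312) (nat_lit 152) (nat_lit 0) (XT.nd (nat_lit 156) (nat_lit 152) (nat_lit 0) (XT.nd (nat_lit 78) (nat_lit 76) (nat_lit 0) (XT.lf (nat_lit 0) (nat_lit 314483231977) (nat_lit 76) (nat_lit 646116261735) (nat_lit 76) (nat_lit 40142941129) (nat_lit 57) (nat_lit 4) (nat_lit 58)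 (nat_lit 5) (nat_lit 58) (nat_lit 4) (nat_lit 541) (nat_lit 469) (nat_lit 190)) (XT.lf (nat_lit 0) (nat_lit 257791426669) (nat_lit 152) (nat_lit 77500931285) (nat_lit 76) (nat_lit 699144790571) (nat_lit 56) (nat_lit 5) (nat_lit 58) (nat_lit 5) (nat_lit 57) (nat_lit 4) (nat_lit 542) (nat_lit 469) (nat_lit 189))) (XT.nd (nat_lit 78) (nat_lit 76) (nat_lit 0) (XT.lf (nat_lit 0) (nat_lit 578342147081) (nat_lit 152) (nat_lit 489763478598) (nat_lit 0) (nat_lit 1224633150) (nat_lit 55) (nat_lit 5) (nat_lit 57) (nat_lit 4) (nat_lit 55) (nat_lit 4) (nat_lit 543) (nat_lit 469) (nat_lit 188)) (XT.lf (nat_lit 0) (nat_lit 166073333715) (nat_lit 76) (nat_lit 758270531167) (nat_lit 76) (nat_lit 181152986698) (nat_lit 54) (nat_lit 4) (nat_lit 55) (nat_lit 5) (nat_lit 55) (nat_lit 4) (nat_lit 544) (nat_lit 469) (nat_lit 187)))) (XT.nd (nat_lit 156) (nat_lit 0) (nat_lit 0) (XT.nd (nat_lit 78) (nat_lit 76) (nat_lit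 0) (XT.lf (nat_lit 0) (nat_lit 147989747357) (nat_lit 152) (nat_lit 273738591472) (nat_lit 76) (nat_lit 721209371326) (nat_lit 53) (nat_lit 5) (nat_lit 55) (nat_lit 5) (nat_lit 54) (nat_lit 4) (nat_lit 545) (nat_lit 469) (nat_lit 186)) (XT.lf (nat_lit 0) (nat_lit 436222639077) (nat_lit 76) (nat_lit 58089673279) (nat_lit 152) (nat_lit 687449282122) (nat_lit 52) (nat_lit 5) (nat_lit 53) (nat_lit 5) (nat_lit 54) (nat_lit 4) (nat_lit 546) (nat_lit 469) (nat_lit 185))) (XT.nd (nat_lit 56472) (nat_lit 0) (nat_lit 8436) (XT.lf (nat_lit 0) (nat_lit 867717211058) (nat_lit 152) (nat_lit 36239776473) (nat_lit 0) (nat_lit 318081375215) (nat_lit 52) (nat_lit 5) (nat_lit 54) (nat_lit 4) (nat_lit 52) (nat_lit 4) (nat_lit 547) (nat_lit 469) (nat_lit 184)) (XT.lf (nat_lit 0) (nat_lit 27329642935) (nat_lit 836) (nat_lit 17209530832) (nat_lit 836) (nat_lit 17209530832) (nat_lit 163) (nat_lit 3) (nat_lit 174) (nat_lit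 3) (nat_lit 174) (nat_lit 5) (nat_lit 470) (nat_lit 470) (nat_lit 260)))))) (XT.nd (nat_lit 624) (nat_lit 1672) (nat_lit 0) (XT.nd (nat_lit 312) (nat_lit 0) (nat_lit 152) (XT.nd (nat_lit 156) (nat_lit 0) (nat_lit 76) (XT.nd (nat_lit 78) (nat_lit 0) (nat_lit 76) (XT.lf (nat_lit 76) (nat_lit 27974832470) (nat_lit 0) (nat_lit 28491921850) (nat_lit 836) (nat_lit 70096040469) (nat_lit 164) (nat_lit 5) (nat_lit 163) (nat_lit 3) (nat_lit 174) (nat_lit 5) (nat_lit 471) (nat_lit 470) (nat_lit 259)) (XT.lf (nat_lit 0) (nat_lit 59505166293) (nat_lit 760) (nat_lit 35627030367) (nat_lit 836) (nat_lit 34592224514) (nat_lit 164) (nat_lit 5) (nat_lit 174) (nat_lit 5) (nat_lit 175) (nat_lit 5) (nat_lit 472) (nat_lit 470) (nat_lit 258))) (XT.nd (nat_lit 78) (nat_lit 0) (nat_lit 76) (XT.lf (nat_lit 76) (nat_lit 31007135025) (nat_lit 0) (nat_lit 32639295176) (nat_lit 836) (nat_lit 69350152130) (nat_lit 165) (nat_lit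 5) (nat_lit 164) (nat_lit 5) (nat_lit 175) (nat_lit 5) (nat_lit 473) (nat_lit 470) (nat_lit 257)) (XT.lf (nat_lit 0) (nat_lit 69122646161) (nat_lit 760) (nat_lit 34717224697) (nat_lit 836) (nat_lit 32536086263) (nat_lit 165) (nat_lit 5) (nat_lit 175) (nat_lit 5) (nat_lit 176) (nat_lit 5) (nat_lit 474) (nat_lit 470) (nat_lit 256)))) (XT.nd (nat_lit 156) (nat_lit 0) (nat_lit 76) (XT.nd (nat_lit 78) (nat_lit 0) (nat_lit 76) (XT.lf (nat_lit 76) (nat_lit 36553315044) (nat_lit 0) (nat_lit 39424893469) (nat_lit 836) (nat_lit 63890815377) (nat_lit 166) (nat_lit 5) (nat_lit 165) (nat_lit 5) (nat_lit 176) (nat_lit 5) (nat_lit 475) (nat_lit 470) (nat_lit 255)) (XT.lf (nat_lit 0) (nat_lit 84214366050) (nat_lit 760) (nat_lit 31364917465) (nat_lit 836) (nat_lit 27905569646) (nat_lit 166) (nat_lit 5) (nat_lit 176) (nat_lit 5) (nat_lit 177) (nat_lit 5) (nat_lit 476) (nat_lit 470) (nat_lit 254))) (XT.nd (nat_lit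 78) (nat_lit 0) (nat_lit 76) (XT.lf (nat_lit 76) (nat_lit 44976471927) (nat_lit 0) (nat_lit 49234164068) (nat_lit 836) (nat_lit 53003422689) (nat_lit 167) (nat_lit 5) (nat_lit 166) (nat_lit 5) (nat_lit 177) (nat_lit 5) (nat_lit 477) (nat_lit 470) (nat_lit 253)) (XT.lf (nat_lit 0) (nat_lit 105565343523) (nat_lit 760) (nat_lit 25207133409) (nat_lit 836) (nat_lit 20314316364) (nat_lit 167) (nat_lit 5) (nat_lit 177) (nat_lit 5) (nat_lit 178) (nat_lit 5) (nat_lit 478) (nat_lit 470) (nat_lit 252))))) (XT.nd (nat_lit 312) (nat_lit 1216) (nat_lit 0) (XT.nd (nat_lit 156) (nat_lit 760) (nat_lit 0) (XT.nd (nat_lit 78) (nat_lit 0) (nat_lit 76) (XT.lf (nat_lit 76) (nat_lit 56681734334) (nat_lit 0) (nat_lit 62497934574) (nat_lit 836) (nat_lit 35888901621) (nat_lit 168) (nat_lit 5) (nat_lit 167) (nat_lit 5) (nat_lit 178) (nat_lit 5) (nat_lit 479) (nat_lit 470) (nat_lit 251)) (XT.lf (nat_lit 0) (nat_lit 134051902382)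 (nat_lit 760) (nat_lit 15838564487) (nat_lit 76) (nat_lit 9330110177) (nat_lit 168) (nat_lit 5) (nat_lit 178) (nat_lit 5) (nat_lit 169) (nat_lit 5) (nat_lit 480) (nat_lit 470) (nat_lit 250))) (XT.nd (nat_lit 78) (nat_lit 76) (nat_lit 0) (XT.lf (nat_lit 0) (nat_lit 72120718203) (nat_lit 760) (nat_lit 79697412785) (nat_lit 836) (nat_lit 11654533742) (nat_lit 158) (nat_lit 5) (nat_lit 168) (nat_lit 5) (nat_lit 169) (nat_lit 5) (nat_lit 481) (nat_lit 470) (nat_lit 249)) (XT.lf (nat_lit 0) (nat_lit 2726623226) (nat_lit 836) (nat_lit 2940244468) (nat_lit 76) (nat_lit 162254887205) (nat_lit 157) (nat_lit 5) (nat_lit 168) (nat_lit 5) (nat_lit 158) (nat_lit 5) (nat_lit 482) (nat_lit 470) (nat_lit 248)))) (XT.nd (nat_lit 156) (nat_lit 380) (nat_lit 0) (XT.nd (nat_lit 78) (nat_lit 380) (nat_lit 0) (XT.lf (nat_lit 0) (nat_lit 20033779037) (nat_lit 532) (nat_lit 80996661523) (nat_lit 76) (nat_lit 71423375642)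 (nat_lit 151) (nat_lit 5) (nat_lit 158) (nat_lit 5) (nat_lit 152) (nat_lit 5) (nat_lit 483) (nat_lit 470) (nat_lit 247)) (XT.lf (nat_lit 0) (nat_lit 13814794565) (nat_lit 380) (nat_lit 24750533969) (nat_lit 456) (nat_lit 138629200253) (nat_lit 146) (nat_lit 5) (nat_lit 151) (nat_lit 5) (nat_lit 152) (nat_lit 5) (nat_lit 484) (nat_lit 470) (nat_lit 246))) (XT.nd (nat_lit 78) (nat_lit 380) (nat_lit 0) (XT.lf (nat_lit 0) (nat_lit 60281568627) (nat_lit 456) (nat_lit 66811564894) (nat_lit 76) (nat_lit 54966237836) (nat_lit 146) (nat_lit 5) (nat_lit 152) (nat_lit 5) (nat_lit 147) (nat_lit 5) (nat_lit 485) (nat_lit 470) (nat_lit 245)) (XT.nd (nat_lit 78) (nat_lit 0) (nat_lit 0) (XT.lf (nat_lit 0) (nat_lit 35309223854) (nat_lit 380) (nat_lit 48731269950) (nat_lit 456) (nat_lit 103079118606) (nat_lit 141) (nat_lit 5) (nat_lit 146) (nat_lit 5) (nat_lit 147) (nat_lit 5) (nat_lit 486) (nat_lit 470) (nat_lit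 244)) (XT.lf (nat_lit 0) (nat_lit 110661044584) (nat_lit 456) (nat_lit 48063193253) (nat_lit 76) (nat_lit 33624943721) (nat_lit 141) (nat_lit 5) (nat_lit 147) (nat_lit 5) (nat_lit 142) (nat_lit 5) (nat_lit 487) (nat_lit 470) (nat_lit 243))))))))
noncomputable def xc438 : XT := (XT.nd (nat_lit 1248) (nat_lit 1824) (nat_lit 0) (XT.nd (nat_lit 624) (nat_lit 1292) (nat_lit 0) (XT.nd (nat_lit 312) (nat_lit 532) (nat_lit 0) (XT.nd (nat_lit 156) (nat_lit 684) (nat_lit 0) (XT.nd (nat_lit 78) (nat_lit 0) (nat_lit 0) (XT.lf (nat_lit 0) (nat_lit 62058596149) (nat_lit 304) (nat_lit 78321670721) (nat_lit 380) (nat_lit 57371580105) (nat_lit 137) (nat_lit 5) (nat_lit 141) (nat_lit 5) (nat_lit 142) (nat_lit 5) (nat_lit 488) (nat_lit 470) (nat_lit 242)) (XT.lf (nat_lit 0) (nat_lit 172507887605) (nat_lit 380) (nat_lit 24137583278) (nat_lit 76) (nat_lit 6733052921) (nat_lit 137) (nat_lit 5) (nat_lit 142) (nat_lit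 5) (nat_lit 138) (nat_lit 5) (nat_lit 489) (nat_lit 470) (nat_lit 241))) (XT.nd (nat_lit 78) (nat_lit 380) (nat_lit 0) (XT.lf (nat_lit 0) (nat_lit 94744159255) (nat_lit 304) (nat_lit 114260786141) (nat_lit 380) (nat_lit 143436286) (nat_lit 133) (nat_lit 5) (nat_lit 137) (nat_lit 5) (nat_lit 138) (nat_lit 5) (nat_lit 490) (nat_lit 470) (nat_lit 240)) (XT.lf (nat_lit 0) (nat_lit 4869203268) (nat_lit 304) (nat_lit 26714254778) (nat_lit 380) (nat_lit 183573631210) (nat_lit 128) (nat_lit 5) (nat_lit 132) (nat_lit 5) (nat_lit 133) (nat_lit 5) (nat_lit 491) (nat_lit 470) (nat_lit 239)))) (XT.nd (nat_lit 156) (nat_lit 228) (nat_lit 0) (XT.nd (nat_lit 78) (nat_lit 304) (nat_lit 0) (XT.lf (nat_lit 0) (nat_lit 67879111638) (nat_lit 380) (nat_lit 88343575659) (nat_lit 76) (nat_lit 65094065600) (nat_lit 128) (nat_lit 5) (nat_lit 133) (nat_lit 5) (nat_lit 129) (nat_lit 5) (nat_lit 492) (nat_lit 470) (nat_lit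 238)) (XT.lf (nat_lit 0) (nat_lit 40557971089) (nat_lit 304) (nat_lit 66502622135) (nat_lit 380) (nat_lit 120670254238) (nat_lit 124) (nat_lit 5) (nat_lit 128) (nat_lit 5) (nat_lit 129) (nat_lit 5) (nat_lit 493) (nat_lit 470) (nat_lit 237))) (XT.nd (nat_lit 78) (nat_lit 228) (nat_lit 0) (XT.lf (nat_lit 0) (nat_lit 150154231319) (nat_lit 380) (nat_lit 55876362028) (nat_lit 76) (nat_lit 28337399294) (nat_lit 124) (nat_lit 5) (nat_lit 129) (nat_lit 5) (nat_lit 125) (nat_lit 5) (nat_lit 494) (nat_lit 470) (nat_lit 236)) (XT.lf (nat_lit 0) (nat_lit 83569368394) (nat_lit 228) (nat_lit 114228033207) (nat_lit 304) (nat_lit 43419850968) (nat_lit 121) (nat_lit 5) (nat_lit 124) (nat_lit 5) (nat_lit 125) (nat_lit 5) (nat_lit 495) (nat_lit 470) (nat_lit 235))))) (XT.nd (nat_lit 312) (nat_lit 684) (nat_lit 0) (XT.nd (nat_lit 156) (nat_lit 228) (nat_lit 0) (XT.nd (nat_lit 78) (nat_lit 304) (nat_lit 0) (XT.lf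 (nat_lit 0) (nat_lit 394217177) (nat_lit 304) (nat_lit 16440880091) (nat_lit 76) (nat_lit 231526250940) (nat_lit 120) (nat_lit 5) (nat_lit 124) (nat_lit 5) (nat_lit 121) (nat_lit 5) (nat_lit 496) (nat_lit 470) (nat_lit 234)) (XT.lf (nat_lit 0) (nat_lit 48434544032) (nat_lit 380) (nat_lit 121651651678) (nat_lit 76) (nat_lit 85566125531) (nat_lit 116) (nat_lit 5) (nat_lit 121) (nat_lit 5) (nat_lit 117) (nat_lit 5) (nat_lit 497) (nat_lit 470) (nat_lit 233))) (XT.nd (nat_lit 78) (nat_lit 0) (nat_lit 0) (XT.lf (nat_lit 0) (nat_lit 29918039244) (nat_lit 228) (nat_lit 69984836203) (nat_lit 304) (nat_lit 163353668074) (nat_lit 113) (nat_lit 5) (nat_lit 116) (nat_lit 5) (nat_lit 117) (nat_lit 5) (nat_lit 498) (nat_lit 470) (nat_lit 232)) (XT.lf (nat_lit 0) (nat_lit 156586875532) (nat_lit 304) (nat_lit 78430543643) (nat_lit 76) (nat_lit 36091445140) (nat_lit 113) (nat_lit 5) (nat_lit 117) (nat_lit 5) (nat_lit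 114) (nat_lit 5) (nat_lit 499) (nat_lit 470) (nat_lit 231)))) (XT.nd (nat_lit 156) (nat_lit 456) (nat_lit 0) (XT.nd (nat_lit 78) (nat_lit 0) (nat_lit 0) (XT.lf (nat_lit 0) (nat_lit 85822234041) (nat_lit 228) (nat_lit 132769966031) (nat_lit 304) (nat_lit 60637244857) (nat_lit 110) (nat_lit 5) (nat_lit 113) (nat_lit 5) (nat_lit 114) (nat_lit 5) (nat_lit 500) (nat_lit 470) (nat_lit 230)) (XT.lf (nat_lit 0) (nat_lit 261010448135) (nat_lit 228) (nat_lit 24015510742) (nat_lit 304) (nat_lit 2663687301) (nat_lit 110) (nat_lit 5) (nat_lit 113) (nat_lit 5) (nat_lit 114) (nat_lit 5) (nat_lit 501) (nat_lit 470) (nat_lit 229))) (XT.nd (nat_lit 78) (nat_lit 228) (nat_lit 0) (XT.lf (nat_lit 0) (nat_lit 60185875033) (nat_lit 228) (nat_lit 145517773392) (nat_lit 76) (nat_lit 90631750942) (nat_lit 107) (nat_lit 5) (nat_lit 110) (nat_lit 5) (nat_lit 108) (nat_lit 5) (nat_lit 502) (nat_lit 470) (nat_lit 228)) (XT.lf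 (nat_lit 0) (nat_lit 33347096274) (nat_lit 228) (nat_lit 94114785758) (nat_lit 304) (nat_lit 177880700642) (nat_lit 104) (nat_lit 5) (nat_lit 107) (nat_lit 5) (nat_lit 108) (nat_lit 5) (nat_lit 503) (nat_lit 470) (nat_lit 227)))))) (XT.nd (nat_lit 624) (nat_lit 988) (nat_lit 0) (XT.nd (nat_lit 312) (nat_lit 380) (nat_lit 0) (XT.nd (nat_lit 156) (nat_lit 304) (nat_lit 0) (XT.nd (nat_lit 78) (nat_lit 152) (nat_lit 0) (XT.lf (nat_lit 0) (nat_lit 200966348249) (nat_lit 304) (nat_lit 88870110148) (nat_lit 76) (nat_lit 24820433807) (nat_lit 104) (nat_lit 5) (nat_lit 108) (nat_lit 5) (nat_lit 105) (nat_lit 5) (nat_lit 504) (nat_lit 470) (nat_lit 226)) (XT.lf (nat_lit 0) (nat_lit 105236776650) (nat_lit 152) (nat_lit 176095086219) (nat_lit 228) (nat_lit 42945763091) (nat_lit 102) (nat_lit 5) (nat_lit 104) (nat_lit 5) (nat_lit 105) (nat_lit 5) (nat_lit 505) (nat_lit 470) (nat_lit 225))) (XT.nd (nat_lit 78)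 (nat_lit 228) (nat_lit 0) (XT.lf (nat_lit 0) (nat_lit 31862951661) (nat_lit 228) (nat_lit 22683813640) (nat_lit 76) (nat_lit 279731686230) (nat_lit 101) (nat_lit 5) (nat_lit 104) (nat_lit 5) (nat_lit 102) (nat_lit 5) (nat_lit 506) (nat_lit 470) (nat_lit 224)) (XT.lf (nat_lit 0) (nat_lit 113117781351) (nat_lit 304) (nat_lit 156966866488) (nat_lit 76) (nat_lit 74452022177) (nat_lit 98) (nat_lit 5) (nat_lit 102) (nat_lit 5) (nat_lit 99) (nat_lit 5) (nat_lit 507) (nat_lit 470) (nat_lit 223)))) (XT.nd (nat_lit 156) (nat_lit 228) (nat_lit 0) (XT.nd (nat_lit 78) (nat_lit 0) (nat_lit 0) (XT.lf (nat_lit 0) (nat_lit 54684662056) (nat_lit 152) (nat_lit 145889063944) (nat_lit 228) (nat_lit 154627154752) (nat_lit 96) (nat_lit 5) (nat_lit 98) (nat_lit 5) (nat_lit 99) (nat_lit 5) (nat_lit 508) (nat_lit 470) (nat_lit 222)) (XT.lf (nat_lit 0) (nat_lit 282368181534) (nat_lit 152) (nat_lit 12692522199) (nat_lit 228)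 (nat_lit 71204686504) (nat_lit 96) (nat_lit 5) (nat_lit 98) (nat_lit 5) (nat_lit 99) (nat_lit 5) (nat_lit 509) (nat_lit 470) (nat_lit 221))) (XT.nd (nat_lit 78) (nat_lit 0) (nat_lit 0) (XT.lf (nat_lit 0) (nat_lit 20202991407) (nat_lit 228) (nat_lit 231747444472) (nat_lit 76) (nat_lit 125702963804) (nat_lit 93) (nat_lit 5) (nat_lit 96) (nat_lit 5) (nat_lit 94) (nat_lit 5) (nat_lit 510) (nat_lit 470) (nat_lit 220)) (XT.lf (nat_lit 0) (nat_lit 115440244527) (nat_lit 228) (nat_lit 826543364) (nat_lit 76) (nat_lit 273203050430) (nat_lit 93) (nat_lit 5) (nat_lit 96) (nat_lit 5) (nat_lit 94) (nat_lit 5) (nat_lit 511) (nat_lit 470) (nat_lit 219))))) (XT.nd (nat_lit 312) (nat_lit 456) (nat_lit 0) (XT.nd (nat_lit 156) (nat_lit 228) (nat_lit 0) (XT.nd (nat_lit 78) (nat_lit 152) (nat_lit 0) (XT.lf (nat_lit 0) (nat_lit 219809680181) (nat_lit 228) (nat_lit 152525184737) (nat_lit 76) (nat_lit 29323717981) (nat_lit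 91) (nat_lit 5) (nat_lit 94) (nat_lit 5) (nat_lit 92) (nat_lit 5) (nat_lit 512) (nat_lit 470) (nat_lit 218)) (XT.lf (nat_lit 0) (nat_lit 98407258793) (nat_lit 152) (nat_lit 234446915647) (nat_lit 228) (nat_lit 81429760927) (nat_lit 89) (nat_lit 5) (nat_lit 91) (nat_lit 5) (nat_lit 92) (nat_lit 5) (nat_lit 513) (nat_lit 470) (nat_lit 217))) (XT.nd (nat_lit 78) (nat_lit 152) (nat_lit 0) (XT.lf (nat_lit 0) (nat_lit 25867224484) (nat_lit 228) (nat_lit 60647074632) (nat_lit 76) (nat_lit 340876244548) (nat_lit 88) (nat_lit 5) (nat_lit 91) (nat_lit 5) (nat_lit 89) (nat_lit 5) (nat_lit 514) (nat_lit 470) (nat_lit 216)) (XT.lf (nat_lit 0) (nat_lit 140265895976) (nat_lit 228) (nat_lit 229249779368) (nat_lit 76) (nat_lit 71346390789) (nat_lit 86) (nat_lit 5) (nat_lit 89) (nat_lit 5) (nat_lit 87) (nat_lit 5) (nat_lit 515) (nat_lit 470) (nat_lit 215)))) (XT.nd (nat_lit 156) (nat_lit 304) (nat_lit 0) (XT.nd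 (nat_lit 78) (nat_lit 0) (nat_lit 0) (XT.lf (nat_lit 0) (nat_lit 44627479801) (nat_lit 152) (nat_lit 218915911101) (nat_lit 228) (nat_lit 191305829334) (nat_lit 84) (nat_lit 5) (nat_lit 86) (nat_lit 5) (nat_lit 87) (nat_lit 5) (nat_lit 516) (nat_lit 470) (nat_lit 214)) (XT.lf (nat_lit 0) (nat_lit 340157529439) (nat_lit 152) (nat_lit 56709625954) (nat_lit 228) (nat_lit 72474456911) (nat_lit 84) (nat_lit 5) (nat_lit 86) (nat_lit 5) (nat_lit 87) (nat_lit 5) (nat_lit 517) (nat_lit 470) (nat_lit 213))) (XT.nd (nat_lit 78) (nat_lit 152) (nat_lit 0) (XT.lf (nat_lit 0) (nat_lit 55118029294) (nat_lit 152) (nat_lit 315668014036) (nat_lit 76) (nat_lit 113507083187) (nat_lit 82) (nat_lit 5) (nat_lit 84) (nat_lit 5) (nat_lit 83) (nat_lit 5) (nat_lit 518) (nat_lit 470) (nat_lit 212)) (XT.nd (nat_lit 78) (nat_lit 152) (nat_lit 0) (XT.lf (nat_lit 0) (nat_lit 189807790617) (nat_lit 152) (nat_lit 16226821341) (nat_lit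 76) (nat_lit 293740535804) (nat_lit 82) (nat_lit 5) (nat_lit 84) (nat_lit 5) (nat_lit 83) (nat_lit 5) (nat_lit 519) (nat_lit 470) (nat_lit 211)) (XT.lf (nat_lit 0) (nat_lit 308045718179) (nat_lit 152) (nat_lit 27995722935) (nat_lit 228) (nat_lit 179749358899) (nat_lit 80) (nat_lit 5) (nat_lit 82) (nat_lit 5) (nat_lit 83) (nat_lit 5) (nat_lit 520) (nat_lit 470) (nat_lit 210))))))))
noncomputable def xc439 : XT := (XT.nd (nat_lit 1248) (nat_lit 760) (nat_lit 0) (XT.nd (nat_lit 624) (nat_lit 684) (nat_lit 0) (XT.nd (nat_lit 312) (nat_lit 304) (nat_lit 0) (XT.nd (nat_lit 156) (nat_lit 228) (nat_lit 0) (XT.nd (nat_lit 78) (nat_lit 76) (nat_lit 0) (XT.lf (nat_lit 0) (nat_lit 117785434623) (nat_lit 76) (nat_lit 376401137605) (nat_lit 152) (nat_lit 38190672747) (nat_lit 79) (nat_lit 5) (nat_lit 80) (nat_lit 5) (nat_lit 81) (nat_lit 4) (nat_lit 521) (nat_lit 470) (nat_lit 209)) (XT.lf (nat_lit 0) (nat_lit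 110945818664) (nat_lit 152) (nat_lit 85053275704) (nat_lit 76) (nat_lit 353505957728) (nat_lit 78) (nat_lit 5) (nat_lit 80) (nat_lit 5) (nat_lit 79) (nat_lit 5) (nat_lit 522) (nat_lit 470) (nat_lit 208))) (XT.nd (nat_lit 78) (nat_lit 76) (nat_lit 0) (XT.lf (nat_lit 0) (nat_lit 268943897924) (nat_lit 152) (nat_lit 1510695091) (nat_lit 228) (nat_lit 296793406958) (nat_lit 76) (nat_lit 5) (nat_lit 78) (nat_lit 5) (nat_lit 79) (nat_lit 5) (nat_lit 523) (nat_lit 470) (nat_lit 207)) (XT.lf (nat_lit 0) (nat_lit 56404554078) (nat_lit 76) (nat_lit 387043613011) (nat_lit 152) (nat_lit 142154460106) (nat_lit 75) (nat_lit 5) (nat_lit 76) (nat_lit 5) (nat_lit 77) (nat_lit 4) (nat_lit 524) (nat_lit 470) (nat_lit 206)))) (XT.nd (nat_lit 156) (nat_lit 76) (nat_lit 0) (XT.nd (nat_lit 78) (nat_lit 152) (nat_lit 0) (XT.lf (nat_lit 0) (nat_lit 24728838167) (nat_lit 152) (nat_lit 165840616853) (nat_lit 76) (nat_lit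 414031776189) (nat_lit 74) (nat_lit 5) (nat_lit 76) (nat_lit 5) (nat_lit 75) (nat_lit 5) (nat_lit 525) (nat_lit 470) (nat_lit 205)) (XT.lf (nat_lit 0) (nat_lit 198960307176) (nat_lit 228) (nat_lit 404192694443) (nat_lit 76) (nat_lit 21091177364) (nat_lit 72) (nat_lit 5) (nat_lit 75) (nat_lit 5) (nat_lit 73) (nat_lit 4) (nat_lit 526) (nat_lit 470) (nat_lit 204))) (XT.nd (nat_lit 78) (nat_lit 76) (nat_lit 0) (XT.lf (nat_lit 0) (nat_lit 387882023404) (nat_lit 228) (nat_lit 16903265508) (nat_lit 76) (nat_lit 239785051545) (nat_lit 72) (nat_lit 5) (nat_lit 75) (nat_lit 5) (nat_lit 73) (nat_lit 4) (nat_lit 527) (nat_lit 470) (nat_lit 203)) (XT.lf (nat_lit 0) (nat_lit 402637460751) (nat_lit 76) (nat_lit 189898616965) (nat_lit 152) (nat_lit 73062419677) (nat_lit 71) (nat_lit 5) (nat_lit 72) (nat_lit 5) (nat_lit 73) (nat_lit 4) (nat_lit 528) (nat_lit 470) (nat_lit 202))))) (XT.nd (nat_lit 312) (nat_lit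 228) (nat_lit 0) (XT.nd (nat_lit 156) (nat_lit 228) (nat_lit 0) (XT.nd (nat_lit 78) (nat_lit 0) (nat_lit 0) (XT.lf (nat_lit 0) (nat_lit 119324337595) (nat_lit 228) (nat_lit 528777088498) (nat_lit 76) (nat_lit 39312551231) (nat_lit 68) (nat_lit 5) (nat_lit 71) (nat_lit 5) (nat_lit 69) (nat_lit 4) (nat_lit 529) (nat_lit 470) (nat_lit 201)) (XT.lf (nat_lit 0) (nat_lit 326514480421) (nat_lit 228) (nat_lit 104037369201) (nat_lit 76) (nat_lit 279326523197) (nat_lit 68) (nat_lit 5) (nat_lit 71) (nat_lit 5) (nat_lit 69) (nat_lit 4) (nat_lit 530) (nat_lit 470) (nat_lit 200))) (XT.nd (nat_lit 78) (nat_lit 152) (nat_lit 0) (XT.lf (nat_lit 0) (nat_lit 353245308392) (nat_lit 76) (nat_lit 196333926950) (nat_lit 152) (nat_lit 183610997498) (nat_lit 67) (nat_lit 5) (nat_lit 68) (nat_lit 5) (nat_lit 69) (nat_lit 4) (nat_lit 531) (nat_lit 470) (nat_lit 199)) (XT.lf (nat_lit 0) (nat_lit 29189234407) (nat_lit 152)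 (nat_lit 676726060629) (nat_lit 76) (nat_lit 51537193019) (nat_lit 65) (nat_lit 5) (nat_lit 67) (nat_lit 5) (nat_lit 66) (nat_lit 4) (nat_lit 532) (nat_lit 470) (nat_lit 198)))) (XT.nd (nat_lit 156) (nat_lit 152) (nat_lit 0) (XT.nd (nat_lit 78) (nat_lit 76) (nat_lit 0) (XT.lf (nat_lit 0) (nat_lit 256217524978) (nat_lit 152) (nat_lit 211318125423) (nat_lit 76) (nat_lit 314753775783) (nat_lit 65) (nat_lit 5) (nat_lit 67) (nat_lit 5) (nat_lit 66) (nat_lit 4) (nat_lit 533) (nat_lit 470) (nat_lit 197)) (XT.lf (nat_lit 0) (nat_lit 286530905001) (nat_lit 76) (nat_lit 212539833640) (nat_lit 152) (nat_lit 309073797151) (nat_lit 64) (nat_lit 5) (nat_lit 65) (nat_lit 5) (nat_lit 66) (nat_lit 4) (nat_lit 534) (nat_lit 470) (nat_lit 196))) (XT.nd (nat_lit 78) (nat_lit 152) (nat_lit 0) (XT.lf (nat_lit 0) (nat_lit 758565931290) (nat_lit 152) (nat_lit 19425252441) (nat_lit 0) (nat_lit 57076251235) (nat_lit 64)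 (nat_lit 5) (nat_lit 66) (nat_lit 4) (nat_lit 64) (nat_lit 4) (nat_lit 535) (nat_lit 470) (nat_lit 195)) (XT.lf (nat_lit 0) (nat_lit 174141973614) (nat_lit 152) (nat_lit 344498683889) (nat_lit 76) (nat_lit 343974408842) (nat_lit 62) (nat_lit 5) (nat_lit 64) (nat_lit 5) (nat_lit 63) (nat_lit 4) (nat_lit 536) (nat_lit 470) (nat_lit 194)))))) (XT.nd (nat_lit 624) (nat_lit 228) (nat_lit 0) (XT.nd (nat_lit 312) (nat_lit 228) (nat_lit 0) (XT.nd (nat_lit 156) (nat_lit 228) (nat_lit 0) (XT.nd (nat_lit 78) (nat_lit 0) (nat_lit 0) (XT.lf (nat_lit 0) (nat_lit 196722629789) (nat_lit 76) (nat_lit 241429763851) (nat_lit 152) (nat_lit 453154693451) (nat_lit 61) (nat_lit 5) (nat_lit 62) (nat_lit 5) (nat_lit 63) (nat_lit 4) (nat_lit 537) (nat_lit 470) (nat_lit 193)) (XT.lf (nat_lit 0) (nat_lit 722068236233) (nat_lit 152) (nat_lit 145047536374) (nat_lit 0) (nat_lit 53982691190) (nat_lit 61) (nat_lit 5) (nat_lit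 63) (nat_lit 4) (nat_lit 61) (nat_lit 4) (nat_lit 538) (nat_lit 470) (nat_lit 192))) (XT.nd (nat_lit 78) (nat_lit 76) (nat_lit 0) (XT.lf (nat_lit 0) (nat_lit 76669662614) (nat_lit 152) (nat_lit 510912777607) (nat_lit 76) (nat_lit 364192079396) (nat_lit 59) (nat_lit 5) (nat_lit 61) (nat_lit 5) (nat_lit 60) (nat_lit 4) (nat_lit 539) (nat_lit 470) (nat_lit 191)) (XT.lf (nat_lit 0) (nat_lit 76382226568) (nat_lit 76) (nat_lit 286772822950) (nat_lit 152) (nat_lit 620481728033) (nat_lit 58) (nat_lit 5) (nat_lit 59) (nat_lit 5) (nat_lit 60) (nat_lit 4) (nat_lit 540) (nat_lit 470) (nat_lit 190)))) (XT.nd (nat_lit 156) (nat_lit 152) (nat_lit 0) (XT.nd (nat_lit 78) (nat_lit 76) (nat_lit 0) (XT.lf (nat_lit 0) (nat_lit 673213046384) (nat_lit 152) (nat_lit 306475697689) (nat_lit 0) (nat_lit 36940987275) (nat_lit 58) (nat_lit 5) (nat_lit 60) (nat_lit 4) (nat_lit 58) (nat_lit 4) (nat_lit 541) (nat_lit 470) (nat_lit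 189)) (XT.lf (nat_lit 0) (nat_lit 330209604407) (nat_lit 76) (nat_lit 678420994216) (nat_lit 76) (nat_lit 42148901438) (nat_lit 57) (nat_lit 4) (nat_lit 58) (nat_lit 5) (nat_lit 58) (nat_lit 4) (nat_lit 542) (nat_lit 470) (nat_lit 188))) (XT.nd (nat_lit 78) (nat_lit 76) (nat_lit 0) (XT.lf (nat_lit 0) (nat_lit 270682092064) (nat_lit 152) (nat_lit 81373836112) (nat_lit 76) (nat_lit 734103023063) (nat_lit 56) (nat_lit 5) (nat_lit 58) (nat_lit 5) (nat_lit 57) (nat_lit 4) (nat_lit 543) (nat_lit 470) (nat_lit 187)) (XT.lf (nat_lit 0) (nat_lit 607260345415) (nat_lit 152) (nat_lit 514249507700) (nat_lit 0) (nat_lit 1286864098) (nat_lit 55) (nat_lit 5) (nat_lit 57) (nat_lit 4) (nat_lit 55) (nat_lit 4) (nat_lit 544) (nat_lit 470) (nat_lit 186))))) (XT.nd (nat_lit 56784) (nat_lit 0) (nat_lit 8436) (XT.nd (nat_lit 156) (nat_lit 76) (nat_lit 0) (XT.nd (nat_lit 78) (nat_lit 76) (nat_lit 0) (XT.lf (nat_lit 0)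 (nat_lit 174379110635) (nat_lit 76) (nat_lit 796183019466) (nat_lit 76) (nat_lit 190209510450) (nat_lit 54) (nat_lit 4) (nat_lit 55) (nat_lit 5) (nat_lit 55) (nat_lit 4) (nat_lit 545) (nat_lit 470) (nat_lit 185)) (XT.lf (nat_lit 0) (nat_lit 155390272397) (nat_lit 152) (nat_lit 287423476981) (nat_lit 76) (nat_lit 757270794392) (nat_lit 53) (nat_lit 5) (nat_lit 55) (nat_lit 5) (nat_lit 54) (nat_lit 4) (nat_lit 546) (nat_lit 470) (nat_lit 184))) (XT.nd (nat_lit 56550) (nat_lit 0) (nat_lit 8436) (XT.lf (nat_lit 0) (nat_lit 458035782127) (nat_lit 76) (nat_lit 60993165506) (nat_lit 152) (nat_lit 721820675579) (nat_lit 52) (nat_lit 5) (nat_lit 53) (nat_lit 5) (nat_lit 54) (nat_lit 4) (nat_lit 547) (nat_lit 470) (nat_lit 183)) (XT.lf (nat_lit 0) (nat_lit 28700279953) (nat_lit 836) (nat_lit 18067825906) (nat_lit 836) (nat_lit 18067825906) (nat_lit 163) (nat_lit 3) (nat_lit 174) (nat_lit 3) (nat_lit 174)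 (nat_lit 5) (nat_lit 471) (nat_lit 471) (nat_lit 258)))) (XT.nd (nat_lit 156) (nat_lit 0) (nat_lit 76) (XT.nd (nat_lit 78) (nat_lit 0) (nat_lit 76) (XT.lf (nat_lit 76) (nat_lit 29377866659) (nat_lit 0) (nat_lit 29920206437) (nat_lit 836) (nat_lit 73592461769) (nat_lit 164) (nat_lit 5) (nat_lit 163) (nat_lit 3) (nat_lit 174) (nat_lit 5) (nat_lit 472) (nat_lit 471) (nat_lit 257)) (XT.lf (nat_lit 0) (nat_lit 62487970771) (nat_lit 760) (nat_lit 37403858251) (nat_lit 836) (nat_lit 36318435321) (nat_lit 164) (nat_lit 5) (nat_lit 174) (nat_lit 5) (nat_lit 175) (nat_lit 5) (nat_lit 473) (nat_lit 471) (nat_lit 256))) (XT.nd (nat_lit 78) (nat_lit 0) (nat_lit 76) (XT.lf (nat_lit 76) (nat_lit 32561942449) (nat_lit 0) (nat_lit 34274065572) (nat_lit 836) (nat_lit 72810040057) (nat_lit 165) (nat_lit 5) (nat_lit 164) (nat_lit 5) (nat_lit 175) (nat_lit 5) (nat_lit 474) (nat_lit 471) (nat_lit 255)) (XT.nd (nat_lit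 78) (nat_lit 0) (nat_lit 0) (XT.lf (nat_lit 0) (nat_lit 72585647522) (nat_lit 760) (nat_lit 36448459411) (nat_lit 836) (nat_lit 34160304064) (nat_lit 165) (nat_lit 5) (nat_lit 175) (nat_lit 5) (nat_lit 176) (nat_lit 5) (nat_lit 475) (nat_lit 471) (nat_lit 254)) (XT.lf (nat_lit 76) (nat_lit 38385532695) (nat_lit 0) (nat_lit 41398199267) (nat_lit 836) (nat_lit 67078411969) (nat_lit 166) (nat_lit 5) (nat_lit 165) (nat_lit 5) (nat_lit 176) (nat_lit 5) (nat_lit 476) (nat_lit 471) (nat_lit 253))))))))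
noncomputable def xc440 : XT := (XT.nd (nat_lit 1248) (nat_lit 2280) (nat_lit 0) (XT.nd (nat_lit 624) (nat_lit 1748) (nat_lit 0) (XT.nd (nat_lit 312) (nat_lit 1140) (nat_lit 0) (XT.nd (nat_lit 156) (nat_lit 0) (nat_lit 76) (XT.nd (nat_lit 78) (nat_lit 0) (nat_lit 0) (XT.lf (nat_lit 0) (nat_lit 88431351822) (nat_lit 760) (nat_lit 32928482164) (nat_lit 836) (nat_lit 29298947980) (nat_lit 166) (nat_lit 5) (nat_lit 176) (nat_lit 5) (nat_lit 177) (nat_lit 5) (nat_lit 477) (nat_lit 471) (nat_lit 252)) (XT.lf (nat_lit 76) (nat_lit 47229901195) (nat_lit 0) (nat_lit 51697307527) (nat_lit 836) (nat_lit 55647250395) (nat_lit 167) (nat_lit 5) (nat_lit 166) (nat_lit 5) (nat_lit 177) (nat_lit 5) (nat_lit 478) (nat_lit 471) (nat_lit 251))) (XT.nd (nat_lit 78) (nat_lit 0) (nat_lit 0) (XT.lf (nat_lit 0) (nat_lit 110849342621) (nat_lit 760) (nat_lit 26462794287) (nat_lit 836) (nat_lit 21328709022) (nat_lit 167)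 (nat_lit 5) (nat_lit 177) (nat_lit 5) (nat_lit 178) (nat_lit 5) (nat_lit 479) (nat_lit 471) (nat_lit 250)) (XT.lf (nat_lit 76) (nat_lit 59520441104) (nat_lit 0) (nat_lit 65623742354) (nat_lit 836) (nat_lit 37677538628) (nat_lit 168) (nat_lit 5) (nat_lit 167) (nat_lit 5) (nat_lit 178) (nat_lit 5) (nat_lit 480) (nat_lit 471) (nat_lit 249)))) (XT.nd (nat_lit 156) (nat_lit 532) (nat_lit 0) (XT.nd (nat_lit 78) (nat_lit 760) (nat_lit 0) (XT.lf (nat_lit 0) (nat_lit 140759751674) (nat_lit 760) (nat_lit 16625815334) (nat_lit 76) (nat_lit 9795775788) (nat_lit 168) (nat_lit 5) (nat_lit 178) (nat_lit 5) (nat_lit 169) (nat_lit 5) (nat_lit 481) (nat_lit 471) (nat_lit 248)) (XT.lf (nat_lit 0) (nat_lit 75731356049) (nat_lit 760) (nat_lit 83682757312) (nat_lit 836) (nat_lit 12231930440) (nat_lit 158) (nat_lit 5) (nat_lit 168) (nat_lit 5) (nat_lit 169) (nat_lit 5) (nat_lit 482) (nat_lit 471) (nat_lit 247))) (XT.nd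 (nat_lit 78) (nat_lit 456) (nat_lit 0) (XT.lf (nat_lit 0) (nat_lit 2867868097) (nat_lit 836) (nat_lit 3082711085) (nat_lit 76) (nat_lit 170367017434) (nat_lit 157) (nat_lit 5) (nat_lit 168) (nat_lit 5) (nat_lit 158) (nat_lit 5) (nat_lit 483) (nat_lit 471) (nat_lit 246)) (XT.lf (nat_lit 0) (nat_lit 21040213210) (nat_lit 532) (nat_lit 85041780179) (nat_lit 76) (nat_lit 74994276038) (nat_lit 151) (nat_lit 5) (nat_lit 158) (nat_lit 5) (nat_lit 152) (nat_lit 5) (nat_lit 484) (nat_lit 471) (nat_lit 245))))) (XT.nd (nat_lit 312) (nat_lit 988) (nat_lit 0) (XT.nd (nat_lit 156) (nat_lit 380) (nat_lit 0) (XT.nd (nat_lit 78) (nat_lit 0) (nat_lit 0) (XT.lf (nat_lit 0) (nat_lit 14510172674) (nat_lit 380) (nat_lit 25988013963) (nat_lit 456) (nat_lit 145555838698) (nat_lit 146) (nat_lit 5) (nat_lit 151) (nat_lit 5) (nat_lit 152) (nat_lit 5) (nat_lit 485) (nat_lit 471) (nat_lit 244)) (XT.lf (nat_lit 0) (nat_lit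 63300020777) (nat_lit 456) (nat_lit 70147507382) (nat_lit 76) (nat_lit 57714592785) (nat_lit 146) (nat_lit 5) (nat_lit 152) (nat_lit 5) (nat_lit 147) (nat_lit 5) (nat_lit 486) (nat_lit 471) (nat_lit 243))) (XT.nd (nat_lit 78) (nat_lit 0) (nat_lit 0) (XT.lf (nat_lit 0) (nat_lit 37079246032) (nat_lit 380) (nat_lit 51167509118) (nat_lit 456) (nat_lit 108228625768) (nat_lit 141) (nat_lit 5) (nat_lit 146) (nat_lit 5) (nat_lit 147) (nat_lit 5) (nat_lit 487) (nat_lit 471) (nat_lit 242)) (XT.lf (nat_lit 0) (nat_lit 116198136546) (nat_lit 456) (nat_lit 50461811931) (nat_lit 76) (nat_lit 35306489906) (nat_lit 141) (nat_lit 5) (nat_lit 147) (nat_lit 5) (nat_lit 142) (nat_lit 5) (nat_lit 488) (nat_lit 471) (nat_lit 241)))) (XT.nd (nat_lit 156) (nat_lit 684) (nat_lit 0) (XT.nd (nat_lit 78) (nat_lit 0) (nat_lit 0) (XT.lf (nat_lit 0) (nat_lit 65165993700) (nat_lit 304) (nat_lit 82237203632) (nat_lit 380) (nat_lit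 60236045881) (nat_lit 137) (nat_lit 5) (nat_lit 141) (nat_lit 5) (nat_lit 142) (nat_lit 5) (nat_lit 489) (nat_lit 471) (nat_lit 240)) (XT.lf (nat_lit 0) (nat_lit 181137020762) (nat_lit 380) (nat_lit 25340028865) (nat_lit 76) (nat_lit 7070213187) (nat_lit 137) (nat_lit 5) (nat_lit 142) (nat_lit 5) (nat_lit 138) (nat_lit 5) (nat_lit 490) (nat_lit 471) (nat_lit 239))) (XT.nd (nat_lit 78) (nat_lit 380) (nat_lit 0) (XT.lf (nat_lit 0) (nat_lit 99485729286) (nat_lit 304) (nat_lit 119973092224) (nat_lit 380) (nat_lit 146797584) (nat_lit 133) (nat_lit 5) (nat_lit 137) (nat_lit 5) (nat_lit 138) (nat_lit 5) (nat_lit 491) (nat_lit 471) (nat_lit 238)) (XT.lf (nat_lit 0) (nat_lit 5117075353) (nat_lit 304) (nat_lit 28049137389) (nat_lit 380) (nat_lit 192748551679) (nat_lit 128) (nat_lit 5) (nat_lit 132) (nat_lit 5) (nat_lit 133) (nat_lit 5) (nat_lit 492) (nat_lit 471) (nat_lit 237)))))) (XT.nd (nat_lit 624) (nat_lit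 1140) (nat_lit 0) (XT.nd (nat_lit 312) (nat_lit 608) (nat_lit 0) (XT.nd (nat_lit 156) (nat_lit 228) (nat_lit 0) (XT.nd (nat_lit 78) (nat_lit 304) (nat_lit 0) (XT.lf (nat_lit 0) (nat_lit 71276490795) (nat_lit 380) (nat_lit 92756394196) (nat_lit 76) (nat_lit 68349534175) (nat_lit 128) (nat_lit 5) (nat_lit 133) (nat_lit 5) (nat_lit 129) (nat_lit 5) (nat_lit 493) (nat_lit 471) (nat_lit 236)) (XT.lf (nat_lit 0) (nat_lit 42590159564) (nat_lit 304) (nat_lit 69826790847) (nat_lit 380) (nat_lit 126700272859) (nat_lit 124) (nat_lit 5) (nat_lit 128) (nat_lit 5) (nat_lit 129) (nat_lit 5) (nat_lit 494) (nat_lit 471) (nat_lit 235))) (XT.nd (nat_lit 78) (nat_lit 228) (nat_lit 0) (XT.lf (nat_lit 0) (nat_lit 157665126267) (nat_lit 380) (nat_lit 58665950167) (nat_lit 76) (nat_lit 29755156490) (nat_lit 124) (nat_lit 5) (nat_lit 129) (nat_lit 5) (nat_lit 125) (nat_lit 5) (nat_lit 495) (nat_lit 471) (nat_lit 234))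 (XT.lf (nat_lit 0) (nat_lit 87751998551) (nat_lit 228) (nat_lit 119938369899) (nat_lit 304) (nat_lit 45587591738) (nat_lit 121) (nat_lit 5) (nat_lit 124) (nat_lit 5) (nat_lit 125) (nat_lit 5) (nat_lit 496) (nat_lit 471) (nat_lit 233)))) (XT.nd (nat_lit 156) (nat_lit 228) (nat_lit 0) (XT.nd (nat_lit 78) (nat_lit 304) (nat_lit 0) (XT.lf (nat_lit 0) (nat_lit 416925847) (nat_lit 304) (nat_lit 17258861260) (nat_lit 76) (nat_lit 243103478465) (nat_lit 120) (nat_lit 5) (nat_lit 124) (nat_lit 5) (nat_lit 121) (nat_lit 5) (nat_lit 497) (nat_lit 471) (nat_lit 232)) (XT.lf (nat_lit 0) (nat_lit 50859205561) (nat_lit 380) (nat_lit 127730107794) (nat_lit 76) (nat_lit 89845477085) (nat_lit 116) (nat_lit 5) (nat_lit 121) (nat_lit 5) (nat_lit 117) (nat_lit 5) (nat_lit 498) (nat_lit 471) (nat_lit 231))) (XT.nd (nat_lit 78) (nat_lit 0) (nat_lit 0) (XT.lf (nat_lit 0) (nat_lit 31418001120) (nat_lit 228) (nat_lit 73482876084)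 (nat_lit 304) (nat_lit 171518350454) (nat_lit 113) (nat_lit 5) (nat_lit 116) (nat_lit 5) (nat_lit 117) (nat_lit 5) (nat_lit 499) (nat_lit 471) (nat_lit 230)) (XT.lf (nat_lit 0) (nat_lit 164418959070) (nat_lit 304) (nat_lit 82348085884) (nat_lit 76) (nat_lit 37897125454) (nat_lit 113) (nat_lit 5) (nat_lit 117) (nat_lit 5) (nat_lit 114) (nat_lit 5) (nat_lit 500) (nat_lit 471) (nat_lit 229))))) (XT.nd (nat_lit 312) (nat_lit 456) (nat_lit 0) (XT.nd (nat_lit 156) (nat_lit 456) (nat_lit 0) (XT.nd (nat_lit 78) (nat_lit 0) (nat_lit 0) (XT.lf (nat_lit 0) (nat_lit 90117266411) (nat_lit 228) (nat_lit 139407214174) (nat_lit 304) (nat_lit 63666302938) (nat_lit 110) (nat_lit 5) (nat_lit 113) (nat_lit 5) (nat_lit 114) (nat_lit 5) (nat_lit 501) (nat_lit 471) (nat_lit 228)) (XT.lf (nat_lit 0) (nat_lit 274064704511) (nat_lit 228) (nat_lit 25215095652) (nat_lit 304) (nat_lit 2794201035) (nat_lit 110) (nat_lit 5)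 (nat_lit 113) (nat_lit 5) (nat_lit 114) (nat_lit 5) (nat_lit 502) (nat_lit 471) (nat_lit 227))) (XT.nd (nat_lit 78) (nat_lit 228) (nat_lit 0) (XT.lf (nat_lit 0) (nat_lit 63197708825) (nat_lit 228) (nat_lit 152789797275) (nat_lit 76) (nat_lit 95164536123) (nat_lit 107) (nat_lit 5) (nat_lit 110) (nat_lit 5) (nat_lit 108) (nat_lit 5) (nat_lit 503) (nat_lit 471) (nat_lit 226)) (XT.lf (nat_lit 0) (nat_lit 35018253539) (nat_lit 228) (nat_lit 98819201047) (nat_lit 304) (nat_lit 186772133193) (nat_lit 104) (nat_lit 5) (nat_lit 107) (nat_lit 5) (nat_lit 108) (nat_lit 5) (nat_lit 504) (nat_lit 471) (nat_lit 225)))) (XT.nd (nat_lit 156) (nat_lit 304) (nat_lit 0) (XT.nd (nat_lit 78) (nat_lit 152) (nat_lit 0) (XT.lf (nat_lit 0) (nat_lit 211017045780) (nat_lit 304) (nat_lit 93309895839) (nat_lit 76) (nat_lit 26062676090) (nat_lit 104) (nat_lit 5) (nat_lit 108) (nat_lit 5) (nat_lit 105) (nat_lit 5) (nat_lit 505)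 (nat_lit 471) (nat_lit 224)) (XT.lf (nat_lit 0) (nat_lit 110502275303) (nat_lit 152) (nat_lit 184898504629) (nat_lit 228) (nat_lit 45090611035) (nat_lit 102) (nat_lit 5) (nat_lit 104) (nat_lit 5) (nat_lit 105) (nat_lit 5) (nat_lit 506) (nat_lit 471) (nat_lit 223))) (XT.nd (nat_lit 78) (nat_lit 228) (nat_lit 0) (XT.lf (nat_lit 0) (nat_lit 33458348872) (nat_lit 228) (nat_lit 23814444310) (nat_lit 76) (nat_lit 293719468358) (nat_lit 101) (nat_lit 5) (nat_lit 104) (nat_lit 5) (nat_lit 102) (nat_lit 5) (nat_lit 507) (nat_lit 471) (nat_lit 222)) (XT.lf (nat_lit 0) (nat_lit 118775887987) (nat_lit 304) (nat_lit 164811617658) (nat_lit 76) (nat_lit 78175886910) (nat_lit 98) (nat_lit 5) (nat_lit 102) (nat_lit 5) (nat_lit 99) (nat_lit 5) (nat_lit 508) (nat_lit 471) (nat_lit 221)))))))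
noncomputable def xc441 : XT := (XT.nd (nat_lit 1248) (nat_lit 1368) (nat_lit 0) (XT.nd (nat_lit 624) (nat_lit 760) (nat_lit 0) (XT.nd (nat_lit 312) (nat_lit 532) (nat_lit 0) (XT.nd (nat_lit 156) (nat_lit 228) (nat_lit 0) (XT.nd (nat_lit 78) (nat_lit 0) (nat_lit 0) (XT.lf (nat_lit 0) (nat_lit 57422429375) (nat_lit 152) (nat_lit 153182150075) (nat_lit 228) (nat_lit 162356236905) (nat_lit 96) (nat_lit 5) (nat_lit 98) (nat_lit 5) (nat_lit 99) (nat_lit 5) (nat_lit 509) (nat_lit 471) (nat_lit 220)) (XT.lf (nat_lit 0) (nat_lit 296489956531) (nat_lit 152) (nat_lit 13325846340) (nat_lit 228) (nat_lit 74762753605) (nat_lit 96) (nat_lit 5) (nat_lit 98) (nat_lit 5) (nat_lit 99) (nat_lit 5) (nat_lit 510) (nat_lit 471) (nat_lit 219))) (XT.nd (nat_lit 78) (nat_lit 0) (nat_lit 0) (XT.lf (nat_lit 0) (nat_lit 21215212462) (nat_lit 228) (nat_lit 243331354896) (nat_lit 76) (nat_lit 131989398667) (nat_lit 93) (nat_lit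 5) (nat_lit 96) (nat_lit 5) (nat_lit 94) (nat_lit 5) (nat_lit 511) (nat_lit 471) (nat_lit 218)) (XT.lf (nat_lit 0) (nat_lit 121214229596) (nat_lit 228) (nat_lit 864573581) (nat_lit 76) (nat_lit 286864428353) (nat_lit 93) (nat_lit 5) (nat_lit 96) (nat_lit 5) (nat_lit 94) (nat_lit 5) (nat_lit 512) (nat_lit 471) (nat_lit 217)))) (XT.nd (nat_lit 156) (nat_lit 228) (nat_lit 0) (XT.nd (nat_lit 78) (nat_lit 152) (nat_lit 0) (XT.lf (nat_lit 0) (nat_lit 230802114251) (nat_lit 228) (nat_lit 160148124179) (nat_lit 76) (nat_lit 30791176049) (nat_lit 91) (nat_lit 5) (nat_lit 94) (nat_lit 5) (nat_lit 92) (nat_lit 5) (nat_lit 513) (nat_lit 471) (nat_lit 216)) (XT.lf (nat_lit 0) (nat_lit 103330887983) (nat_lit 152) (nat_lit 246167903376) (nat_lit 228) (nat_lit 85499245309) (nat_lit 89) (nat_lit 5) (nat_lit 91) (nat_lit 5) (nat_lit 92) (nat_lit 5) (nat_lit 514) (nat_lit 471) (nat_lit 215))) (XT.nd (nat_lit 78)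 (nat_lit 152) (nat_lit 0) (XT.lf (nat_lit 0) (nat_lit 27162432885) (nat_lit 228) (nat_lit 63676256520) (nat_lit 76) (nat_lit 357921289030) (nat_lit 88) (nat_lit 5) (nat_lit 91) (nat_lit 5) (nat_lit 89) (nat_lit 5) (nat_lit 515) (nat_lit 471) (nat_lit 214)) (XT.lf (nat_lit 0) (nat_lit 147281019208) (nat_lit 228) (nat_lit 240709077700) (nat_lit 76) (nat_lit 74914981059) (nat_lit 86) (nat_lit 5) (nat_lit 89) (nat_lit 5) (nat_lit 87) (nat_lit 5) (nat_lit 516) (nat_lit 471) (nat_lit 213))))) (XT.nd (nat_lit 312) (nat_lit 456) (nat_lit 0) (XT.nd (nat_lit 156) (nat_lit 152) (nat_lit 0) (XT.nd (nat_lit 78) (nat_lit 0) (nat_lit 0) (XT.lf (nat_lit 0) (nat_lit 46861992966) (nat_lit 152) (nat_lit 229860357858) (nat_lit 228) (nat_lit 200869240857) (nat_lit 84) (nat_lit 5) (nat_lit 86) (nat_lit 5) (nat_lit 87) (nat_lit 5) (nat_lit 517) (nat_lit 471) (nat_lit 212)) (XT.lf (nat_lit 0) (nat_lit 357168395601) (nat_lit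 152) (nat_lit 59543822682) (nat_lit 228) (nat_lit 76096389334) (nat_lit 84) (nat_lit 5) (nat_lit 86) (nat_lit 5) (nat_lit 87) (nat_lit 5) (nat_lit 518) (nat_lit 471) (nat_lit 211))) (XT.nd (nat_lit 78) (nat_lit 0) (nat_lit 0) (XT.lf (nat_lit 0) (nat_lit 57875648458) (nat_lit 152) (nat_lit 331448352238) (nat_lit 76) (nat_lit 119183696221) (nat_lit 82) (nat_lit 5) (nat_lit 84) (nat_lit 5) (nat_lit 83) (nat_lit 5) (nat_lit 519) (nat_lit 471) (nat_lit 210)) (XT.lf (nat_lit 0) (nat_lit 199299816051) (nat_lit 152) (nat_lit 17035245741) (nat_lit 76) (nat_lit 308428761522) (nat_lit 82) (nat_lit 5) (nat_lit 84) (nat_lit 5) (nat_lit 83) (nat_lit 5) (nat_lit 520) (nat_lit 471) (nat_lit 209)))) (XT.nd (nat_lit 156) (nat_lit 228) (nat_lit 0) (XT.nd (nat_lit 78) (nat_lit 76) (nat_lit 0) (XT.lf (nat_lit 0) (nat_lit 323450873712) (nat_lit 152) (nat_lit 29394242265) (nat_lit 228) (nat_lit 188735143859) (nat_lit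 80) (nat_lit 5) (nat_lit 82) (nat_lit 5) (nat_lit 83) (nat_lit 5) (nat_lit 521) (nat_lit 471) (nat_lit 208)) (XT.lf (nat_lit 0) (nat_lit 123677589119) (nat_lit 76) (nat_lit 395219902047) (nat_lit 152) (nat_lit 40098536505) (nat_lit 79) (nat_lit 5) (nat_lit 80) (nat_lit 5) (nat_lit 81) (nat_lit 4) (nat_lit 522) (nat_lit 471) (nat_lit 207))) (XT.nd (nat_lit 78) (nat_lit 152) (nat_lit 0) (XT.lf (nat_lit 0) (nat_lit 116494649056) (nat_lit 152) (nat_lit 89303143065) (nat_lit 76) (nat_lit 371182435573) (nat_lit 78) (nat_lit 5) (nat_lit 80) (nat_lit 5) (nat_lit 79) (nat_lit 5) (nat_lit 523) (nat_lit 471) (nat_lit 206)) (XT.lf (nat_lit 0) (nat_lit 282393844141) (nat_lit 152) (nat_lit 1584987632) (nat_lit 228) (nat_lit 311631492712) (nat_lit 76) (nat_lit 5) (nat_lit 78) (nat_lit 5) (nat_lit 79) (nat_lit 5) (nat_lit 524) (nat_lit 471) (nat_lit 205)))))) (XT.nd (nat_lit 624) (nat_lit 684) (nat_lit 0) (XT.nd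 (nat_lit 312) (nat_lit 380) (nat_lit 0) (XT.nd (nat_lit 156) (nat_lit 152) (nat_lit 0) (XT.nd (nat_lit 78) (nat_lit 76) (nat_lit 0) (XT.lf (nat_lit 0) (nat_lit 59227543914) (nat_lit 76) (nat_lit 406394530371) (nat_lit 152) (nat_lit 149260609298) (nat_lit 75) (nat_lit 5) (nat_lit 76) (nat_lit 5) (nat_lit 77) (nat_lit 4) (nat_lit 525) (nat_lit 471) (nat_lit 204)) (XT.lf (nat_lit 0) (nat_lit 25966730972) (nat_lit 152) (nat_lit 174129969094) (nat_lit 76) (nat_lit 434734520132) (nat_lit 74) (nat_lit 5) (nat_lit 76) (nat_lit 5) (nat_lit 75) (nat_lit 5) (nat_lit 526) (nat_lit 471) (nat_lit 203))) (XT.nd (nat_lit 78) (nat_lit 0) (nat_lit 0) (XT.lf (nat_lit 0) (nat_lit 208909764416) (nat_lit 228) (nat_lit 424399641523) (nat_lit 76) (nat_lit 22146909873) (nat_lit 72) (nat_lit 5) (nat_lit 75) (nat_lit 5) (nat_lit 73) (nat_lit 4) (nat_lit 527) (nat_lit 471) (nat_lit 202)) (XT.lf (nat_lit 0) (nat_lit 407277497795)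 (nat_lit 228) (nat_lit 17745869124) (nat_lit 76) (nat_lit 251775421875) (nat_lit 72) (nat_lit 5) (nat_lit 75) (nat_lit 5) (nat_lit 73) (nat_lit 4) (nat_lit 528) (nat_lit 471) (nat_lit 201)))) (XT.nd (nat_lit 156) (nat_lit 76) (nat_lit 0) (XT.nd (nat_lit 78) (nat_lit 228) (nat_lit 0) (XT.lf (nat_lit 0) (nat_lit 422771852163) (nat_lit 76) (nat_lit 199392376587) (nat_lit 152) (nat_lit 76714126132) (nat_lit 71) (nat_lit 5) (nat_lit 72) (nat_lit 5) (nat_lit 73) (nat_lit 4) (nat_lit 529) (nat_lit 471) (nat_lit 200)) (XT.lf (nat_lit 0) (nat_lit 125291916313) (nat_lit 228) (nat_lit 555213371815) (nat_lit 76) (nat_lit 41279319949) (nat_lit 68) (nat_lit 5) (nat_lit 71) (nat_lit 5) (nat_lit 69) (nat_lit 4) (nat_lit 530) (nat_lit 471) (nat_lit 199))) (XT.nd (nat_lit 78) (nat_lit 76) (nat_lit 0) (XT.lf (nat_lit 0) (nat_lit 342841501431) (nat_lit 228) (nat_lit 109236788987) (nat_lit 76) (nat_lit 293293936172)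 (nat_lit 68) (nat_lit 5) (nat_lit 71) (nat_lit 5) (nat_lit 69) (nat_lit 4) (nat_lit 531) (nat_lit 471) (nat_lit 198)) (XT.lf (nat_lit 0) (nat_lit 370909982991) (nat_lit 76) (nat_lit 206149486959) (nat_lit 152) (nat_lit 192790210870) (nat_lit 67) (nat_lit 5) (nat_lit 68) (nat_lit 5) (nat_lit 69) (nat_lit 4) (nat_lit 532) (nat_lit 471) (nat_lit 197))))) (XT.nd (nat_lit 312) (nat_lit 456) (nat_lit 0) (XT.nd (nat_lit 156) (nat_lit 76) (nat_lit 0) (XT.nd (nat_lit 78) (nat_lit 0) (nat_lit 0) (XT.lf (nat_lit 0) (nat_lit 30649983752) (nat_lit 152) (nat_lit 710559905567) (nat_lit 76) (nat_lit 54115158740) (nat_lit 65) (nat_lit 5) (nat_lit 67) (nat_lit 5) (nat_lit 66) (nat_lit 4) (nat_lit 533) (nat_lit 471) (nat_lit 196)) (XT.lf (nat_lit 0) (nat_lit 269029627536) (nat_lit 152) (nat_lit 221881690653) (nat_lit 76) (nat_lit 330492517972) (nat_lit 65) (nat_lit 5) (nat_lit 67) (nat_lit 5) (nat_lit 66) (nat_lit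 4) (nat_lit 534) (nat_lit 471) (nat_lit 195))) (XT.nd (nat_lit 78) (nat_lit 0) (nat_lit 0) (XT.lf (nat_lit 0) (nat_lit 300859753533) (nat_lit 76) (nat_lit 223165725915) (nat_lit 152) (nat_lit 324526222925) (nat_lit 64) (nat_lit 5) (nat_lit 65) (nat_lit 5) (nat_lit 66) (nat_lit 4) (nat_lit 535) (nat_lit 471) (nat_lit 194)) (XT.lf (nat_lit 0) (nat_lit 796495390749) (nat_lit 152) (nat_lit 20394280466) (nat_lit 0) (nat_lit 59931077339) (nat_lit 64) (nat_lit 5) (nat_lit 66) (nat_lit 4) (nat_lit 64) (nat_lit 4) (nat_lit 536) (nat_lit 471) (nat_lit 193)))) (XT.nd (nat_lit 156) (nat_lit 228) (nat_lit 0) (XT.nd (nat_lit 78) (nat_lit 76) (nat_lit 0) (XT.lf (nat_lit 0) (nat_lit 182850232872) (nat_lit 152) (nat_lit 361721381141) (nat_lit 76) (nat_lit 361174147607) (nat_lit 62) (nat_lit 5) (nat_lit 64) (nat_lit 5) (nat_lit 63) (nat_lit 4) (nat_lit 537) (nat_lit 471) (nat_lit 192)) (XT.lf (nat_lit 0) (nat_lit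 206560962141) (nat_lit 76) (nat_lit 253500190854) (nat_lit 152) (nat_lit 475811231454) (nat_lit 61) (nat_lit 5) (nat_lit 62) (nat_lit 5) (nat_lit 63) (nat_lit 4) (nat_lit 538) (nat_lit 471) (nat_lit 191))) (XT.nd (nat_lit 78) (nat_lit 228) (nat_lit 0) (XT.lf (nat_lit 0) (nat_lit 758172749227) (nat_lit 152) (nat_lit 152297778629) (nat_lit 0) (nat_lit 56682804059) (nat_lit 61) (nat_lit 5) (nat_lit 63) (nat_lit 4) (nat_lit 61) (nat_lit 4) (nat_lit 539) (nat_lit 471) (nat_lit 190)) (XT.nd (nat_lit 78) (nat_lit 76) (nat_lit 0) (XT.lf (nat_lit 0) (nat_lit 80504245020) (nat_lit 152) (nat_lit 536456279995) (nat_lit 76) (nat_lit 382402665609) (nat_lit 59) (nat_lit 5) (nat_lit 61) (nat_lit 5) (nat_lit 60) (nat_lit 4) (nat_lit 540) (nat_lit 471) (nat_lit 189)) (XT.lf (nat_lit 0) (nat_lit 80203439929) (nat_lit 76) (nat_lit 301110441811) (nat_lit 152) (nat_lit 651504680690) (nat_lit 58) (nat_lit 5) (nat_lit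 59) (nat_lit 5) (nat_lit 60) (nat_lit 4) (nat_lit 541) (nat_lit 471) (nat_lit 188))))))))
noncomputable def xc442 : XT := (XT.nd (nat_lit 57876) (nat_lit 0) (nat_lit 4712) (XT.nd (nat_lit 57252) (nat_lit 0) (nat_lit 8360) (XT.nd (nat_lit 312) (nat_lit 76) (nat_lit 0) (XT.nd (nat_lit 156) (nat_lit 152) (nat_lit 0) (XT.nd (nat_lit 78) (nat_lit 76) (nat_lit 0) (XT.lf (nat_lit 0) (nat_lit 706874742235) (nat_lit 152) (nat_lit 321797444412) (nat_lit 0) (nat_lit 38788979083) (nat_lit 58) (nat_lit 5) (nat_lit 60) (nat_lit 4) (nat_lit 58) (nat_lit 4) (nat_lit 542) (nat_lit 471) (nat_lit 187)) (XT.lf (nat_lit 0) (nat_lit 346722089916) (nat_lit 76) (nat_lit 712341063786) (nat_lit 76) (nat_lit 44255270096) (nat_lit 57) (nat_lit 4) (nat_lit 58) (nat_lit 5) (nat_lit 58) (nat_lit 4) (nat_lit 543) (nat_lit 471) (nat_lit 186))) (XT.nd (nat_lit 78) (nat_lit 76) (nat_lit 0) (XT.lf (nat_lit 0) (nat_lit 284217189012)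 (nat_lit 152) (nat_lit 85440585298) (nat_lit 76) (nat_lit 770809074864) (nat_lit 56) (nat_lit 5) (nat_lit 58) (nat_lit 5) (nat_lit 57) (nat_lit 4) (nat_lit 544) (nat_lit 471) (nat_lit 185)) (XT.lf (nat_lit 0) (nat_lit 637624352236) (nat_lit 152) (nat_lit 539960037663) (nat_lit 0) (nat_lit 1352113689) (nat_lit 55) (nat_lit 5) (nat_lit 57) (nat_lit 4) (nat_lit 55) (nat_lit 4) (nat_lit 545) (nat_lit 471) (nat_lit 184)))) (XT.nd (nat_lit 56784) (nat_lit 0) (nat_lit 8284) (XT.nd (nat_lit 56706) (nat_lit 0) (nat_lit 8284) (XT.lf (nat_lit 0) (nat_lit 183099980211) (nat_lit 76) (nat_lit 835991228708) (nat_lit 76) (nat_lit 199718965036) (nat_lit 54) (nat_lit 4) (nat_lit 55) (nat_lit 5) (nat_lit 55) (nat_lit 4) (nat_lit 546) (nat_lit 471) (nat_lit 183)) (XT.lf (nat_lit 0) (nat_lit 30139062541) (nat_lit 836) (nat_lit 18969238546) (nat_lit 836) (nat_lit 18969238546) (nat_lit 163) (nat_lit 3) (nat_lit 174)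 (nat_lit 3) (nat_lit 174) (nat_lit 5) (nat_lit 472) (nat_lit 472) (nat_lit 256))) (XT.nd (nat_lit 78) (nat_lit 0) (nat_lit 76) (XT.lf (nat_lit 76) (nat_lit 30850653476) (nat_lit 0) (nat_lit 31419562331) (nat_lit 836) (nat_lit 77264483295) (nat_lit 164) (nat_lit 5) (nat_lit 163) (nat_lit 3) (nat_lit 174) (nat_lit 5) (nat_lit 473) (nat_lit 472) (nat_lit 255)) (XT.lf (nat_lit 0) (nat_lit 65619213902) (nat_lit 760) (nat_lit 39269948093) (nat_lit 836) (nat_lit 38131272808) (nat_lit 164) (nat_lit 5) (nat_lit 174) (nat_lit 5) (nat_lit 175) (nat_lit 5) (nat_lit 474) (nat_lit 472) (nat_lit 254))))) (XT.nd (nat_lit 312) (nat_lit 0) (nat_lit 152) (XT.nd (nat_lit 156) (nat_lit 0) (nat_lit 76) (XT.nd (nat_lit 78) (nat_lit 0) (nat_lit 76) (XT.lf (nat_lit 76) (nat_lit 34194076463) (nat_lit 0) (nat_lit 35990313645) (nat_lit 836) (nat_lit 76443630786) (nat_lit 165) (nat_lit 5) (nat_lit 164) (nat_lit 5) (nat_lit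 175) (nat_lit 5) (nat_lit 475) (nat_lit 472) (nat_lit 253)) (XT.lf (nat_lit 0) (nat_lit 76221160332) (nat_lit 760) (nat_lit 38266685991) (nat_lit 836) (nat_lit 35865973224) (nat_lit 165) (nat_lit 5) (nat_lit 175) (nat_lit 5) (nat_lit 176) (nat_lit 5) (nat_lit 476) (nat_lit 472) (nat_lit 252))) (XT.nd (nat_lit 78) (nat_lit 0) (nat_lit 76) (XT.lf (nat_lit 76) (nat_lit 40308938037) (nat_lit 0) (nat_lit 43469978730) (nat_lit 836) (nat_lit 70426033994) (nat_lit 166) (nat_lit 5) (nat_lit 165) (nat_lit 5) (nat_lit 176) (nat_lit 5) (nat_lit 477) (nat_lit 472) (nat_lit 251)) (XT.lf (nat_lit 0) (nat_lit 92858604193) (nat_lit 760) (nat_lit 34570660310) (nat_lit 836) (nat_lit 30762171889) (nat_lit 166) (nat_lit 5) (nat_lit 176) (nat_lit 5) (nat_lit 177) (nat_lit 5) (nat_lit 478) (nat_lit 472) (nat_lit 250)))) (XT.nd (nat_lit 156) (nat_lit 0) (nat_lit 76) (XT.nd (nat_lit 78) (nat_lit 0) (nat_lit 76) (XT.lf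 (nat_lit 76) (nat_lit 49595573734) (nat_lit 0) (nat_lit 54283474722) (nat_lit 836) (nat_lit 58423859238) (nat_lit 167) (nat_lit 5) (nat_lit 166) (nat_lit 5) (nat_lit 177) (nat_lit 5) (nat_lit 479) (nat_lit 472) (nat_lit 249)) (XT.lf (nat_lit 0) (nat_lit 116397008774) (nat_lit 760) (nat_lit 27781674779) (nat_lit 836) (nat_lit 22393944329) (nat_lit 167) (nat_lit 5) (nat_lit 177) (nat_lit 5) (nat_lit 178) (nat_lit 5) (nat_lit 480) (nat_lit 472) (nat_lit 248))) (XT.nd (nat_lit 78) (nat_lit 0) (nat_lit 76) (XT.lf (nat_lit 76) (nat_lit 62500653684) (nat_lit 0) (nat_lit 68905755823) (nat_lit 836) (nat_lit 39556147465) (nat_lit 168) (nat_lit 5) (nat_lit 167) (nat_lit 5) (nat_lit 178) (nat_lit 5) (nat_lit 481) (nat_lit 472) (nat_lit 247)) (XT.lf (nat_lit 0) (nat_lit 147802504947) (nat_lit 760) (nat_lit 17452863581) (nat_lit 76) (nat_lit 10284802766) (nat_lit 168) (nat_lit 5) (nat_lit 178) (nat_lit 5) (nat_lit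 169) (nat_lit 5) (nat_lit 482) (nat_lit 472) (nat_lit 246)))))) (XT.nd (nat_lit 624) (nat_lit 1596) (nat_lit 0) (XT.nd (nat_lit 312) (nat_lit 684) (nat_lit 0) (XT.nd (nat_lit 156) (nat_lit 836) (nat_lit 0) (XT.nd (nat_lit 78) (nat_lit 76) (nat_lit 0) (XT.lf (nat_lit 0) (nat_lit 79522097943) (nat_lit 760) (nat_lit 87867325007) (nat_lit 836) (nat_lit 12838692505) (nat_lit 158) (nat_lit 5) (nat_lit 168) (nat_lit 5) (nat_lit 169) (nat_lit 5) (nat_lit 483) (nat_lit 472) (nat_lit 245)) (XT.lf (nat_lit 0) (nat_lit 3015718383) (nat_lit 836) (nat_lit 3232723641) (nat_lit 76) (nat_lit 178884811272) (nat_lit 157) (nat_lit 5) (nat_lit 168) (nat_lit 5) (nat_lit 158) (nat_lit 5) (nat_lit 484) (nat_lit 472) (nat_lit 244))) (XT.nd (nat_lit 78) (nat_lit 380) (nat_lit 0) (XT.lf (nat_lit 0) (nat_lit 22096527925) (nat_lit 532) (nat_lit 89289593070) (nat_lit 76) (nat_lit 78743746406) (nat_lit 151) (nat_lit 5) (nat_lit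 158) (nat_lit 5) (nat_lit 152) (nat_lit 5) (nat_lit 485) (nat_lit 472) (nat_lit 243)) (XT.lf (nat_lit 0) (nat_lit 15239888455) (nat_lit 380) (nat_lit 27287372298) (nat_lit 456) (nat_lit 152829257328) (nat_lit 146) (nat_lit 5) (nat_lit 151) (nat_lit 5) (nat_lit 152) (nat_lit 5) (nat_lit 486) (nat_lit 472) (nat_lit 242)))) (XT.nd (nat_lit 156) (nat_lit 304) (nat_lit 0) (XT.nd (nat_lit 78) (nat_lit 380) (nat_lit 0) (XT.lf (nat_lit 0) (nat_lit 66468988908) (nat_lit 456) (nat_lit 73650677984) (nat_lit 76) (nat_lit 60600361478) (nat_lit 146) (nat_lit 5) (nat_lit 152) (nat_lit 5) (nat_lit 147) (nat_lit 5) (nat_lit 487) (nat_lit 472) (nat_lit 241)) (XT.lf (nat_lit 0) (nat_lit 38937345282) (nat_lit 380) (nat_lit 53725590398) (nat_lit 456) (nat_lit 113636021891) (nat_lit 141) (nat_lit 5) (nat_lit 146) (nat_lit 5) (nat_lit 147) (nat_lit 5) (nat_lit 488) (nat_lit 472) (nat_lit 240))) (XT.nd (nat_lit 78) (nat_lit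 304) (nat_lit 0) (XT.lf (nat_lit 0) (nat_lit 122011707531) (nat_lit 456) (nat_lit 52980783720) (nat_lit 76) (nat_lit 37072085602) (nat_lit 141) (nat_lit 5) (nat_lit 147) (nat_lit 5) (nat_lit 142) (nat_lit 5) (nat_lit 489) (nat_lit 472) (nat_lit 239)) (XT.lf (nat_lit 0) (nat_lit 68428345760) (nat_lit 304) (nat_lit 86348564382) (nat_lit 380) (nat_lit 63244117355) (nat_lit 137) (nat_lit 5) (nat_lit 141) (nat_lit 5) (nat_lit 142) (nat_lit 5) (nat_lit 490) (nat_lit 472) (nat_lit 238))))) (XT.nd (nat_lit 312) (nat_lit 912) (nat_lit 0) (XT.nd (nat_lit 156) (nat_lit 380) (nat_lit 0) (XT.nd (nat_lit 78) (nat_lit 304) (nat_lit 0) (XT.lf (nat_lit 0) (nat_lit 190197262981) (nat_lit 380) (nat_lit 26603008922) (nat_lit 76) (nat_lit 7424184273) (nat_lit 137) (nat_lit 5) (nat_lit 142) (nat_lit 5) (nat_lit 138) (nat_lit 5) (nat_lit 491) (nat_lit 472) (nat_lit 237)) (XT.lf (nat_lit 0) (nat_lit 104463972275) (nat_lit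 304) (nat_lit 125971081779) (nat_lit 380) (nat_lit 150681212) (nat_lit 133) (nat_lit 5) (nat_lit 137) (nat_lit 5) (nat_lit 138) (nat_lit 5) (nat_lit 492) (nat_lit 472) (nat_lit 236))) (XT.nd (nat_lit 78) (nat_lit 0) (nat_lit 0) (XT.lf (nat_lit 0) (nat_lit 5376930864) (nat_lit 304) (nat_lit 29450841307) (nat_lit 380) (nat_lit 202382567842) (nat_lit 128) (nat_lit 5) (nat_lit 132) (nat_lit 5) (nat_lit 133) (nat_lit 5) (nat_lit 493) (nat_lit 472) (nat_lit 235)) (XT.lf (nat_lit 0) (nat_lit 74843420618) (nat_lit 380) (nat_lit 97390259033) (nat_lit 76) (nat_lit 71767705028) (nat_lit 128) (nat_lit 5) (nat_lit 133) (nat_lit 5) (nat_lit 129) (nat_lit 5) (nat_lit 494) (nat_lit 472) (nat_lit 234)))) (XT.nd (nat_lit 156) (nat_lit 608) (nat_lit 0) (XT.nd (nat_lit 78) (nat_lit 0) (nat_lit 0) (XT.lf (nat_lit 0) (nat_lit 44723558627) (nat_lit 304) (nat_lit 73317257469) (nat_lit 380) (nat_lit 133032117259) (nat_lit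 124) (nat_lit 5) (nat_lit 128) (nat_lit 5) (nat_lit 129) (nat_lit 5) (nat_lit 495) (nat_lit 472) (nat_lit 233)) (XT.lf (nat_lit 0) (nat_lit 165551270001) (nat_lit 380) (nat_lit 61595410975) (nat_lit 76) (nat_lit 31243719059) (nat_lit 124) (nat_lit 5) (nat_lit 129) (nat_lit 5) (nat_lit 125) (nat_lit 5) (nat_lit 496) (nat_lit 472) (nat_lit 232))) (XT.nd (nat_lit 78) (nat_lit 380) (nat_lit 0) (XT.lf (nat_lit 0) (nat_lit 92143373297) (nat_lit 228) (nat_lit 125934322436) (nat_lit 304) (nat_lit 47864021865) (nat_lit 121) (nat_lit 5) (nat_lit 124) (nat_lit 5) (nat_lit 125) (nat_lit 5) (nat_lit 497) (nat_lit 472) (nat_lit 231)) (XT.nd (nat_lit 78) (nat_lit 304) (nat_lit 0) (XT.lf (nat_lit 0) (nat_lit 440491243) (nat_lit 304) (nat_lit 18118119211) (nat_lit 76) (nat_lit 255259482301) (nat_lit 120) (nat_lit 5) (nat_lit 124) (nat_lit 5) (nat_lit 121) (nat_lit 5) (nat_lit 498) (nat_lit 472) (nat_lit 230)) (XT.lf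 (nat_lit 0) (nat_lit 53404827360) (nat_lit 380) (nat_lit 134112870354) (nat_lit 76) (nat_lit 94338699037) (nat_lit 116) (nat_lit 5) (nat_lit 121) (nat_lit 5) (nat_lit 117) (nat_lit 5) (nat_lit 499) (nat_lit 472) (nat_lit 229))))))))
noncomputable def xc443 : XT := (XT.nd (nat_lit 1248) (nat_lit 1596) (nat_lit 0) (XT.nd (nat_lit 624) (nat_lit 988) (nat_lit 0) (XT.nd (nat_lit 312) (nat_lit 608) (nat_lit 0) (XT.nd (nat_lit 156) (nat_lit 228) (nat_lit 0) (XT.nd (nat_lit 78) (nat_lit 0) (nat_lit 0) (XT.lf (nat_lit 0) (nat_lit 32992583636) (nat_lit 228) (nat_lit 77155929703) (nat_lit 304) (nat_lit 180091545959) (nat_lit 113) (nat_lit 5) (nat_lit 116) (nat_lit 5) (nat_lit 117) (nat_lit 5) (nat_lit 500) (nat_lit 472) (nat_lit 228)) (XT.lf (nat_lit 0) (nat_lit 172642392067) (nat_lit 304) (nat_lit 86461875720) (nat_lit 76) (nat_lit 39792986767) (nat_lit 113) (nat_lit 5) (nat_lit 117) (nat_lit 5) (nat_lit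 114) (nat_lit 5) (nat_lit 501) (nat_lit 472) (nat_lit 227))) (XT.nd (nat_lit 78) (nat_lit 0) (nat_lit 0) (XT.lf (nat_lit 0) (nat_lit 94626685893) (nat_lit 228) (nat_lit 146376440952) (nat_lit 304) (nat_lit 66847074627) (nat_lit 110) (nat_lit 5) (nat_lit 113) (nat_lit 5) (nat_lit 114) (nat_lit 5) (nat_lit 502) (nat_lit 472) (nat_lit 226)) (XT.lf (nat_lit 0) (nat_lit 287771326557) (nat_lit 228) (nat_lit 26474770500) (nat_lit 304) (nat_lit 2931488746) (nat_lit 110) (nat_lit 5) (nat_lit 113) (nat_lit 5) (nat_lit 114) (nat_lit 5) (nat_lit 503) (nat_lit 472) (nat_lit 225)))) (XT.nd (nat_lit 156) (nat_lit 152) (nat_lit 0) (XT.nd (nat_lit 78) (nat_lit 228) (nat_lit 0) (XT.lf (nat_lit 0) (nat_lit 66359898158) (nat_lit 228) (nat_lit 160425781663) (nat_lit 76) (nat_lit 99923849218) (nat_lit 107) (nat_lit 5) (nat_lit 110) (nat_lit 5) (nat_lit 108) (nat_lit 5) (nat_lit 504) (nat_lit 472) (nat_lit 224)) (XT.lf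 (nat_lit 0) (nat_lit 36772615151) (nat_lit 228) (nat_lit 103758960194) (nat_lit 304) (nat_lit 196108379325) (nat_lit 104) (nat_lit 5) (nat_lit 107) (nat_lit 5) (nat_lit 108) (nat_lit 5) (nat_lit 505) (nat_lit 472) (nat_lit 223))) (XT.nd (nat_lit 78) (nat_lit 152) (nat_lit 0) (XT.lf (nat_lit 0) (nat_lit 221570056906) (nat_lit 304) (nat_lit 97972016647) (nat_lit 76) (nat_lit 27366917008) (nat_lit 104) (nat_lit 5) (nat_lit 108) (nat_lit 5) (nat_lit 105) (nat_lit 5) (nat_lit 506) (nat_lit 472) (nat_lit 222)) (XT.lf (nat_lit 0) (nat_lit 116030708633) (nat_lit 152) (nat_lit 194142218159) (nat_lit 228) (nat_lit 47342928243) (nat_lit 102) (nat_lit 5) (nat_lit 104) (nat_lit 5) (nat_lit 105) (nat_lit 5) (nat_lit 507) (nat_lit 472) (nat_lit 221))))) (XT.nd (nat_lit 312) (nat_lit 532) (nat_lit 0) (XT.nd (nat_lit 156) (nat_lit 152) (nat_lit 0) (XT.nd (nat_lit 78) (nat_lit 228) (nat_lit 0) (XT.lf (nat_lit 0)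 (nat_lit 35133306794) (nat_lit 228) (nat_lit 25001937489) (nat_lit 76) (nat_lit 308406528231) (nat_lit 101) (nat_lit 5) (nat_lit 104) (nat_lit 5) (nat_lit 102) (nat_lit 5) (nat_lit 508) (nat_lit 472) (nat_lit 220)) (XT.lf (nat_lit 0) (nat_lit 124716693787) (nat_lit 304) (nat_lit 173048940351) (nat_lit 76) (nat_lit 82085827400) (nat_lit 98) (nat_lit 5) (nat_lit 102) (nat_lit 5) (nat_lit 99) (nat_lit 5) (nat_lit 509) (nat_lit 472) (nat_lit 219))) (XT.nd (nat_lit 78) (nat_lit 0) (nat_lit 0) (XT.lf (nat_lit 0) (nat_lit 60296756482) (nat_lit 152) (nat_lit 160840017609) (nat_lit 228) (nat_lit 170471984727) (nat_lit 96) (nat_lit 5) (nat_lit 98) (nat_lit 5) (nat_lit 99) (nat_lit 5) (nat_lit 510) (nat_lit 472) (nat_lit 218)) (XT.lf (nat_lit 0) (nat_lit 311317507347) (nat_lit 152) (nat_lit 13990957733) (nat_lit 228) (nat_lit 78498925549) (nat_lit 96) (nat_lit 5) (nat_lit 98) (nat_lit 5) (nat_lit 99) (nat_lit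 5) (nat_lit 511) (nat_lit 472) (nat_lit 217)))) (XT.nd (nat_lit 156) (nat_lit 304) (nat_lit 0) (XT.nd (nat_lit 78) (nat_lit 0) (nat_lit 0) (XT.lf (nat_lit 0) (nat_lit 22277851982) (nat_lit 228) (nat_lit 255494782687) (nat_lit 76) (nat_lit 138590035649) (nat_lit 93) (nat_lit 5) (nat_lit 96) (nat_lit 5) (nat_lit 94) (nat_lit 5) (nat_lit 512) (nat_lit 472) (nat_lit 216)) (XT.lf (nat_lit 0) (nat_lit 127276730502) (nat_lit 228) (nat_lit 904811828) (nat_lit 76) (nat_lit 301208761247) (nat_lit 93) (nat_lit 5) (nat_lit 96) (nat_lit 5) (nat_lit 94) (nat_lit 5) (nat_lit 513) (nat_lit 472) (nat_lit 215))) (XT.nd (nat_lit 78) (nat_lit 152) (nat_lit 0) (XT.lf (nat_lit 0) (nat_lit 242343988726) (nat_lit 228) (nat_lit 168152519237) (nat_lit 76) (nat_lit 32331888747) (nat_lit 91) (nat_lit 5) (nat_lit 94) (nat_lit 5) (nat_lit 92) (nat_lit 5) (nat_lit 514) (nat_lit 472) (nat_lit 214)) (XT.lf (nat_lit 0) (nat_lit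 108500394967) (nat_lit 152) (nat_lit 258475066751) (nat_lit 228) (nat_lit 89772390191) (nat_lit 89) (nat_lit 5) (nat_lit 91) (nat_lit 5) (nat_lit 92) (nat_lit 5) (nat_lit 515) (nat_lit 472) (nat_lit 213)))))) (XT.nd (nat_lit 624) (nat_lit 836) (nat_lit 0) (XT.nd (nat_lit 312) (nat_lit 380) (nat_lit 0) (XT.nd (nat_lit 156) (nat_lit 152) (nat_lit 0) (XT.nd (nat_lit 78) (nat_lit 152) (nat_lit 0) (XT.lf (nat_lit 0) (nat_lit 28522229972) (nat_lit 228) (nat_lit 66857192391) (nat_lit 76) (nat_lit 375818471173) (nat_lit 88) (nat_lit 5) (nat_lit 91) (nat_lit 5) (nat_lit 89) (nat_lit 5) (nat_lit 516) (nat_lit 472) (nat_lit 212)) (XT.lf (nat_lit 0) (nat_lit 154646728612) (nat_lit 228) (nat_lit 252741637584) (nat_lit 76) (nat_lit 78661882702) (nat_lit 86) (nat_lit 5) (nat_lit 89) (nat_lit 5) (nat_lit 87) (nat_lit 5) (nat_lit 517) (nat_lit 472) (nat_lit 211))) (XT.nd (nat_lit 78) (nat_lit 0) (nat_lit 0) (XT.lf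 (nat_lit 0) (nat_lit 49207939938) (nat_lit 152) (nat_lit 241352152351) (nat_lit 228) (nat_lit 210910997735) (nat_lit 84) (nat_lit 5) (nat_lit 86) (nat_lit 5) (nat_lit 87) (nat_lit 5) (nat_lit 518) (nat_lit 472) (nat_lit 210)) (XT.lf (nat_lit 0) (nat_lit 375029527118) (nat_lit 152) (nat_lit 62519848674) (nat_lit 228) (nat_lit 79899584834) (nat_lit 84) (nat_lit 5) (nat_lit 86) (nat_lit 5) (nat_lit 87) (nat_lit 5) (nat_lit 519) (nat_lit 472) (nat_lit 209)))) (XT.nd (nat_lit 156) (nat_lit 228) (nat_lit 0) (XT.nd (nat_lit 78) (nat_lit 0) (nat_lit 0) (XT.lf (nat_lit 0) (nat_lit 60770988884) (nat_lit 152) (nat_lit 348017992072) (nat_lit 76) (nat_lit 125144022868) (nat_lit 82) (nat_lit 5) (nat_lit 84) (nat_lit 5) (nat_lit 83) (nat_lit 5) (nat_lit 520) (nat_lit 472) (nat_lit 208)) (XT.lf (nat_lit 0) (nat_lit 209266290667) (nat_lit 152) (nat_lit 17884362526) (nat_lit 76) (nat_lit 323851287061) (nat_lit 82)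 (nat_lit 5) (nat_lit 84) (nat_lit 5) (nat_lit 83) (nat_lit 5) (nat_lit 521) (nat_lit 472) (nat_lit 207))) (XT.nd (nat_lit 78) (nat_lit 76) (nat_lit 0) (XT.lf (nat_lit 0) (nat_lit 339626020231) (nat_lit 152) (nat_lit 30862805337) (nat_lit 228) (nat_lit 198170374536) (nat_lit 80) (nat_lit 5) (nat_lit 82) (nat_lit 5) (nat_lit 83) (nat_lit 5) (nat_lit 522) (nat_lit 472) (nat_lit 206)) (XT.lf (nat_lit 0) (nat_lit 129864083328) (nat_lit 76) (nat_lit 414979724870) (nat_lit 152) (nat_lit 42101948700) (nat_lit 79) (nat_lit 5) (nat_lit 80) (nat_lit 5) (nat_lit 81) (nat_lit 4) (nat_lit 523) (nat_lit 472) (nat_lit 205))))) (XT.nd (nat_lit 312) (nat_lit 456) (nat_lit 0) (XT.nd (nat_lit 156) (nat_lit 152) (nat_lit 0) (XT.nd (nat_lit 78) (nat_lit 152) (nat_lit 0) (XT.lf (nat_lit 0) (nat_lit 122320777844) (nat_lit 152) (nat_lit 93765763779) (nat_lit 76) (nat_lit 389742627609) (nat_lit 78) (nat_lit 5) (nat_lit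 80) (nat_lit 5) (nat_lit 79) (nat_lit 5) (nat_lit 524) (nat_lit 472) (nat_lit 204)) (XT.lf (nat_lit 0) (nat_lit 296516031877) (nat_lit 152) (nat_lit 1663110290) (nat_lit 228) (nat_lit 327211630074) (nat_lit 76) (nat_lit 5) (nat_lit 78) (nat_lit 5) (nat_lit 79) (nat_lit 5) (nat_lit 525) (nat_lit 472) (nat_lit 203))) (XT.nd (nat_lit 78) (nat_lit 76) (nat_lit 0) (XT.lf (nat_lit 0) (nat_lit 62191426445) (nat_lit 76) (nat_lit 426713111047) (nat_lit 152) (nat_lit 156722212269) (nat_lit 75) (nat_lit 5) (nat_lit 76) (nat_lit 5) (nat_lit 77) (nat_lit 4) (nat_lit 526) (nat_lit 472) (nat_lit 202)) (XT.lf (nat_lit 0) (nat_lit 27266383526) (nat_lit 152) (nat_lit 182834037977) (nat_lit 76) (nat_lit 456472293879) (nat_lit 74) (nat_lit 5) (nat_lit 76) (nat_lit 5) (nat_lit 75) (nat_lit 5) (nat_lit 527) (nat_lit 472) (nat_lit 201)))) (XT.nd (nat_lit 156) (nat_lit 304) (nat_lit 0) (XT.nd (nat_lit 78) (nat_lit 0)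 (nat_lit 0) (XT.lf (nat_lit 0) (nat_lit 219356560466) (nat_lit 228) (nat_lit 445617185829) (nat_lit 76) (nat_lit 23255319893) (nat_lit 72) (nat_lit 5) (nat_lit 75) (nat_lit 5) (nat_lit 73) (nat_lit 4) (nat_lit 528) (nat_lit 472) (nat_lit 200)) (XT.lf (nat_lit 0) (nat_lit 427642618236) (nat_lit 228) (nat_lit 18630840894) (nat_lit 76) (nat_lit 264365206804) (nat_lit 72) (nat_lit 5) (nat_lit 75) (nat_lit 5) (nat_lit 73) (nat_lit 4) (nat_lit 529) (nat_lit 472) (nat_lit 199))) (XT.nd (nat_lit 78) (nat_lit 228) (nat_lit 0) (XT.lf (nat_lit 0) (nat_lit 443912729011) (nat_lit 76) (nat_lit 209360933079) (nat_lit 152) (nat_lit 80548549420) (nat_lit 71) (nat_lit 5) (nat_lit 72) (nat_lit 5) (nat_lit 73) (nat_lit 4) (nat_lit 530) (nat_lit 472) (nat_lit 198)) (XT.nd (nat_lit 78) (nat_lit 0) (nat_lit 0) (XT.lf (nat_lit 0) (nat_lit 131557747356) (nat_lit 228) (nat_lit 582971708336) (nat_lit 76) (nat_lit 43344321009)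 (nat_lit 68) (nat_lit 5) (nat_lit 71) (nat_lit 5) (nat_lit 69) (nat_lit 4) (nat_lit 531) (nat_lit 472) (nat_lit 197)) (XT.lf (nat_lit 0) (nat_lit 359984752909) (nat_lit 228) (nat_lit 114696407416) (nat_lit 76) (nat_lit 307959618755) (nat_lit 68) (nat_lit 5) (nat_lit 71) (nat_lit 5) (nat_lit 69) (nat_lit 4) (nat_lit 532) (nat_lit 472) (nat_lit 196))))))))
noncomputable def xc444 : XT := (XT.nd (nat_lit 57954) (nat_lit 0) (nat_lit 6232) (XT.nd (nat_lit 624) (nat_lit 456) (nat_lit 0) (XT.nd (nat_lit 312) (nat_lit 228) (nat_lit 0) (XT.nd (nat_lit 156) (nat_lit 76) (nat_lit 0) (XT.nd (nat_lit 78) (nat_lit 152) (nat_lit 0) (XT.lf (nat_lit 0) (nat_lit 389457667338) (nat_lit 76) (nat_lit 216455930616) (nat_lit 152) (nat_lit 202428509166) (nat_lit 67) (nat_lit 5) (nat_lit 68) (nat_lit 5) (nat_lit 69) (nat_lit 4) (nat_lit 533) (nat_lit 472) (nat_lit 195)) (XT.lf (nat_lit 0) (nat_lit 32183650854) (nat_lit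 152) (nat_lit 746085671283) (nat_lit 76) (nat_lit 56821919914) (nat_lit 65) (nat_lit 5) (nat_lit 67) (nat_lit 5) (nat_lit 66) (nat_lit 4) (nat_lit 534) (nat_lit 472) (nat_lit 194))) (XT.nd (nat_lit 78) (nat_lit 76) (nat_lit 0) (XT.lf (nat_lit 0) (nat_lit 282482221212) (nat_lit 152) (nat_lit 232973651793) (nat_lit 76) (nat_lit 347018099335) (nat_lit 65) (nat_lit 5) (nat_lit 67) (nat_lit 5) (nat_lit 66) (nat_lit 4) (nat_lit 535) (nat_lit 472) (nat_lit 193)) (XT.lf (nat_lit 0) (nat_lit 315904830354) (nat_lit 76) (nat_lit 234323015015) (nat_lit 152) (nat_lit 340751387510) (nat_lit 64) (nat_lit 5) (nat_lit 65) (nat_lit 5) (nat_lit 66) (nat_lit 4) (nat_lit 536) (nat_lit 472) (nat_lit 192)))) (XT.nd (nat_lit 156) (nat_lit 76) (nat_lit 0) (XT.nd (nat_lit 78) (nat_lit 152) (nat_lit 0) (XT.lf (nat_lit 0) (nat_lit 836321215066) (nat_lit 152) (nat_lit 21411967644) (nat_lit 0) (nat_lit 62928550519) (nat_lit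 64) (nat_lit 5) (nat_lit 66) (nat_lit 4) (nat_lit 64) (nat_lit 4) (nat_lit 537) (nat_lit 472) (nat_lit 191)) (XT.lf (nat_lit 0) (nat_lit 191993797193) (nat_lit 152) (nat_lit 379805421225) (nat_lit 76) (nat_lit 379233778637) (nat_lit 62) (nat_lit 5) (nat_lit 64) (nat_lit 5) (nat_lit 63) (nat_lit 4) (nat_lit 538) (nat_lit 472) (nat_lit 190))) (XT.nd (nat_lit 78) (nat_lit 0) (nat_lit 0) (XT.lf (nat_lit 0) (nat_lit 216891006495) (nat_lit 76) (nat_lit 266174237867) (nat_lit 152) (nat_lit 499600707612) (nat_lit 61) (nat_lit 5) (nat_lit 62) (nat_lit 5) (nat_lit 63) (nat_lit 4) (nat_lit 539) (nat_lit 472) (nat_lit 189)) (XT.lf (nat_lit 0) (nat_lit 796082385493) (nat_lit 152) (nat_lit 159910731449) (nat_lit 0) (nat_lit 59517831618) (nat_lit 61) (nat_lit 5) (nat_lit 63) (nat_lit 4) (nat_lit 61) (nat_lit 4) (nat_lit 540) (nat_lit 472) (nat_lit 188))))) (XT.nd (nat_lit 312) (nat_lit 152) (nat_lit 0) (XT.nd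 (nat_lit 156) (nat_lit 76) (nat_lit 0) (XT.nd (nat_lit 78) (nat_lit 76) (nat_lit 0) (XT.lf (nat_lit 0) (nat_lit 84530454346) (nat_lit 152) (nat_lit 563277156133) (nat_lit 76) (nat_lit 401523689812) (nat_lit 59) (nat_lit 5) (nat_lit 61) (nat_lit 5) (nat_lit 60) (nat_lit 4) (nat_lit 541) (nat_lit 472) (nat_lit 187)) (XT.lf (nat_lit 0) (nat_lit 84215518532) (nat_lit 76) (nat_lit 316165036658) (nat_lit 152) (nat_lit 684078886384) (nat_lit 58) (nat_lit 5) (nat_lit 59) (nat_lit 5) (nat_lit 60) (nat_lit 4) (nat_lit 542) (nat_lit 472) (nat_lit 186))) (XT.nd (nat_lit 78) (nat_lit 76) (nat_lit 0) (XT.lf (nat_lit 0) (nat_lit 742219425861) (nat_lit 152) (nat_lit 337885467959) (nat_lit 0) (nat_lit 40729282862) (nat_lit 58) (nat_lit 5) (nat_lit 60) (nat_lit 4) (nat_lit 58) (nat_lit 4) (nat_lit 543) (nat_lit 472) (nat_lit 185)) (XT.lf (nat_lit 0) (nat_lit 364060013268) (nat_lit 76) (nat_lit 747957227958) (nat_lit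 76) (nat_lit 46467057260) (nat_lit 57) (nat_lit 4) (nat_lit 58) (nat_lit 5) (nat_lit 58) (nat_lit 4) (nat_lit 544) (nat_lit 472) (nat_lit 184)))) (XT.nd (nat_lit 56862) (nat_lit 0) (nat_lit 8208) (XT.nd (nat_lit 78) (nat_lit 76) (nat_lit 0) (XT.lf (nat_lit 0) (nat_lit 298428948550) (nat_lit 152) (nat_lit 89710852550) (nat_lit 76) (nat_lit 809350345521) (nat_lit 56) (nat_lit 5) (nat_lit 58) (nat_lit 5) (nat_lit 57) (nat_lit 4) (nat_lit 545) (nat_lit 472) (nat_lit 183)) (XT.lf (nat_lit 0) (nat_lit 669506467399) (nat_lit 152) (nat_lit 566956274990) (nat_lit 0) (nat_lit 1420541492) (nat_lit 55) (nat_lit 5) (nat_lit 57) (nat_lit 4) (nat_lit 55) (nat_lit 4) (nat_lit 546) (nat_lit 472) (nat_lit 182))) (XT.nd (nat_lit 78) (nat_lit 0) (nat_lit 0) (XT.lf (nat_lit 0) (nat_lit 31649433891) (nat_lit 836) (nat_lit 19915905774) (nat_lit 836) (nat_lit 19915905774) (nat_lit 163) (nat_lit 3) (nat_lit 174) (nat_lit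 3) (nat_lit 174) (nat_lit 5) (nat_lit 473) (nat_lit 473) (nat_lit 254)) (XT.lf (nat_lit 76) (nat_lit 32396717654) (nat_lit 0) (nat_lit 32993574981) (nat_lit 836) (nat_lit 81120812618) (nat_lit 164) (nat_lit 5) (nat_lit 163) (nat_lit 3) (nat_lit 174) (nat_lit 5) (nat_lit 474) (nat_lit 473) (nat_lit 253)))))) (XT.nd (nat_lit 624) (nat_lit 2052) (nat_lit 0) (XT.nd (nat_lit 312) (nat_lit 0) (nat_lit 152) (XT.nd (nat_lit 156) (nat_lit 0) (nat_lit 76) (XT.nd (nat_lit 78) (nat_lit 0) (nat_lit 0) (XT.lf (nat_lit 0) (nat_lit 68906382844) (nat_lit 760) (nat_lit 41229723892) (nat_lit 836) (nat_lit 40035038916) (nat_lit 164) (nat_lit 5) (nat_lit 174) (nat_lit 5) (nat_lit 175) (nat_lit 5) (nat_lit 475) (nat_lit 473) (nat_lit 252)) (XT.lf (nat_lit 76) (nat_lit 35907441866) (nat_lit 0) (nat_lit 37792137531) (nat_lit 836) (nat_lit 80259543597) (nat_lit 165) (nat_lit 5) (nat_lit 164) (nat_lit 5) (nat_lit 175) (nat_lit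 5) (nat_lit 476) (nat_lit 473) (nat_lit 251))) (XT.nd (nat_lit 78) (nat_lit 0) (nat_lit 0) (XT.lf (nat_lit 0) (nat_lit 80037869536) (nat_lit 760) (nat_lit 40176214041) (nat_lit 836) (nat_lit 37657143954) (nat_lit 165) (nat_lit 5) (nat_lit 175) (nat_lit 5) (nat_lit 176) (nat_lit 5) (nat_lit 477) (nat_lit 473) (nat_lit 250)) (XT.lf (nat_lit 76) (nat_lit 42328129798) (nat_lit 0) (nat_lit 45645173358) (nat_lit 836) (nat_lit 73941622702) (nat_lit 166) (nat_lit 5) (nat_lit 165) (nat_lit 5) (nat_lit 176) (nat_lit 5) (nat_lit 478) (nat_lit 473) (nat_lit 249)))) (XT.nd (nat_lit 156) (nat_lit 0) (nat_lit 76) (XT.nd (nat_lit 78) (nat_lit 0) (nat_lit 0) (XT.lf (nat_lit 0) (nat_lit 97506690665) (nat_lit 760) (nat_lit 36295342111) (nat_lit 836) (nat_lit 32298717228) (nat_lit 166) (nat_lit 5) (nat_lit 176) (nat_lit 5) (nat_lit 177) (nat_lit 5) (nat_lit 479) (nat_lit 473) (nat_lit 248)) (XT.lf (nat_lit 76) (nat_lit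 52079141518) (nat_lit 0) (nat_lit 56998829246) (nat_lit 836) (nat_lit 61339833446) (nat_lit 167) (nat_lit 5) (nat_lit 166) (nat_lit 5) (nat_lit 177) (nat_lit 5) (nat_lit 480) (nat_lit 473) (nat_lit 247))) (XT.nd (nat_lit 78) (nat_lit 0) (nat_lit 0) (XT.lf (nat_lit 0) (nat_lit 122221574879) (nat_lit 760) (nat_lit 29166895279) (nat_lit 836) (nat_lit 23512552978) (nat_lit 167) (nat_lit 5) (nat_lit 177) (nat_lit 5) (nat_lit 178) (nat_lit 5) (nat_lit 481) (nat_lit 473) (nat_lit 246)) (XT.lf (nat_lit 76) (nat_lit 65629487298) (nat_lit 0) (nat_lit 72351793138) (nat_lit 836) (nat_lit 41529176522) (nat_lit 168) (nat_lit 5) (nat_lit 167) (nat_lit 5) (nat_lit 178) (nat_lit 5) (nat_lit 482) (nat_lit 473) (nat_lit 245))))) (XT.nd (nat_lit 312) (nat_lit 1064) (nat_lit 0) (XT.nd (nat_lit 156) (nat_lit 532) (nat_lit 0) (XT.nd (nat_lit 78) (nat_lit 760) (nat_lit 0) (XT.lf (nat_lit 0) (nat_lit 155196952815) (nat_lit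 760) (nat_lit 18321658671) (nat_lit 76) (nat_lit 10798351919) (nat_lit 168) (nat_lit 5) (nat_lit 178) (nat_lit 5) (nat_lit 169) (nat_lit 5) (nat_lit 483) (nat_lit 473) (nat_lit 244)) (XT.lf (nat_lit 0) (nat_lit 83501988864) (nat_lit 760) (nat_lit 92261081125) (nat_lit 836) (nat_lit 13476242135) (nat_lit 158) (nat_lit 5) (nat_lit 168) (nat_lit 5) (nat_lit 169) (nat_lit 5) (nat_lit 484) (nat_lit 473) (nat_lit 243))) (XT.nd (nat_lit 78) (nat_lit 456) (nat_lit 0) (XT.lf (nat_lit 0) (nat_lit 3170546824) (nat_lit 836) (nat_lit 3390620142) (nat_lit 76) (nat_lit 187828546589) (nat_lit 157) (nat_lit 5) (nat_lit 168) (nat_lit 5) (nat_lit 158) (nat_lit 5) (nat_lit 485) (nat_lit 473) (nat_lit 242)) (XT.lf (nat_lit 0) (nat_lit 23205258226) (nat_lit 532) (nat_lit 93750194159) (nat_lit 76) (nat_lit 82680712925) (nat_lit 151) (nat_lit 5) (nat_lit 158) (nat_lit 5) (nat_lit 152) (nat_lit 5) (nat_lit 486) (nat_lit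 473) (nat_lit 241)))) (XT.nd (nat_lit 156) (nat_lit 684) (nat_lit 0) (XT.nd (nat_lit 78) (nat_lit 0) (nat_lit 0) (XT.lf (nat_lit 0) (nat_lit 16005698885) (nat_lit 380) (nat_lit 28651702489) (nat_lit 456) (nat_lit 160466753479) (nat_lit 146) (nat_lit 5) (nat_lit 151) (nat_lit 5) (nat_lit 152) (nat_lit 5) (nat_lit 487) (nat_lit 473) (nat_lit 240)) (XT.lf (nat_lit 0) (nat_lit 69796036623) (nat_lit 456) (nat_lit 77329398036) (nat_lit 76) (nat_lit 63630414975) (nat_lit 146) (nat_lit 5) (nat_lit 152) (nat_lit 5) (nat_lit 147) (nat_lit 5) (nat_lit 488) (nat_lit 473) (nat_lit 239))) (XT.nd (nat_lit 78) (nat_lit 304) (nat_lit 0) (XT.lf (nat_lit 0) (nat_lit 40887964880) (nat_lit 380) (nat_lit 56411603091) (nat_lit 456) (nat_lit 119314162973) (nat_lit 141) (nat_lit 5) (nat_lit 146) (nat_lit 5) (nat_lit 147) (nat_lit 5) (nat_lit 489) (nat_lit 473) (nat_lit 238)) (XT.nd (nat_lit 78) (nat_lit 304) (nat_lit 0)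 (XT.lf (nat_lit 0) (nat_lit 128115616406) (nat_lit 456) (nat_lit 55626087026) (nat_lit 76) (nat_lit 38925935869) (nat_lit 141) (nat_lit 5) (nat_lit 147) (nat_lit 5) (nat_lit 142) (nat_lit 5) (nat_lit 490) (nat_lit 473) (nat_lit 237)) (XT.lf (nat_lit 0) (nat_lit 71853438672) (nat_lit 304) (nat_lit 90665539601) (nat_lit 380) (nat_lit 66402939260) (nat_lit 137) (nat_lit 5) (nat_lit 141) (nat_lit 5) (nat_lit 142) (nat_lit 5) (nat_lit 491) (nat_lit 473) (nat_lit 236))))))))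
noncomputable def xc445 : XT := (XT.nd (nat_lit 1248) (nat_lit 1900) (nat_lit 0) (XT.nd (nat_lit 624) (nat_lit 1216) (nat_lit 0) (XT.nd (nat_lit 312) (nat_lit 608) (nat_lit 0) (XT.nd (nat_lit 156) (nat_lit 380) (nat_lit 0) (XT.nd (nat_lit 78) (nat_lit 304) (nat_lit 0) (XT.lf (nat_lit 0) (nat_lit 199710202032) (nat_lit 380) (nat_lit 27929511853) (nat_lit 76) (nat_lit 7795811107) (nat_lit 137) (nat_lit 5) (nat_lit 142) (nat_lit 5) (nat_lit 138) (nat_lit 5) (nat_lit 492) (nat_lit 473) (nat_lit 235)) (XT.lf (nat_lit 0) (nat_lit 109690759574) (nat_lit 304) (nat_lit 132269032643) (nat_lit 380) (nat_lit 155080351) (nat_lit 133) (nat_lit 5) (nat_lit 137) (nat_lit 5) (nat_lit 138) (nat_lit 5) (nat_lit 493) (nat_lit 473) (nat_lit 234))) (XT.nd (nat_lit 78) (nat_lit 0) (nat_lit 0) (XT.lf (nat_lit 0) (nat_lit 5649407105) (nat_lit 304) (nat_lit 30922700424) (nat_lit 380) (nat_lit 212498601975) (nat_lit 128)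 (nat_lit 5) (nat_lit 132) (nat_lit 5) (nat_lit 133) (nat_lit 5) (nat_lit 494) (nat_lit 473) (nat_lit 233)) (XT.lf (nat_lit 0) (nat_lit 78588408233) (nat_lit 380) (nat_lit 102256184799) (nat_lit 76) (nat_lit 75356719889) (nat_lit 128) (nat_lit 5) (nat_lit 133) (nat_lit 5) (nat_lit 129) (nat_lit 5) (nat_lit 495) (nat_lit 473) (nat_lit 232)))) (XT.nd (nat_lit 156) (nat_lit 304) (nat_lit 0) (XT.nd (nat_lit 78) (nat_lit 0) (nat_lit 0) (XT.lf (nat_lit 0) (nat_lit 46963265886) (nat_lit 304) (nat_lit 76982328577) (nat_lit 380) (nat_lit 139680848524) (nat_lit 124) (nat_lit 5) (nat_lit 128) (nat_lit 5) (nat_lit 129) (nat_lit 5) (nat_lit 496) (nat_lit 473) (nat_lit 231)) (XT.lf (nat_lit 0) (nat_lit 173831452478) (nat_lit 380) (nat_lit 64671701524) (nat_lit 76) (nat_lit 32806634938) (nat_lit 124) (nat_lit 5) (nat_lit 129) (nat_lit 5) (nat_lit 125) (nat_lit 5) (nat_lit 497) (nat_lit 473) (nat_lit 230))) (XT.nd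 (nat_lit 78) (nat_lit 76) (nat_lit 0) (XT.lf (nat_lit 0) (nat_lit 96753965833) (nat_lit 228) (nat_lit 132230162406) (nat_lit 304) (nat_lit 50254547712) (nat_lit 121) (nat_lit 5) (nat_lit 124) (nat_lit 5) (nat_lit 125) (nat_lit 5) (nat_lit 498) (nat_lit 473) (nat_lit 229)) (XT.lf (nat_lit 0) (nat_lit 464982112) (nat_lit 304) (nat_lit 19020682666) (nat_lit 76) (nat_lit 268023209171) (nat_lit 120) (nat_lit 5) (nat_lit 124) (nat_lit 5) (nat_lit 121) (nat_lit 5) (nat_lit 499) (nat_lit 473) (nat_lit 228))))) (XT.nd (nat_lit 312) (nat_lit 456) (nat_lit 0) (XT.nd (nat_lit 156) (nat_lit 228) (nat_lit 0) (XT.nd (nat_lit 78) (nat_lit 228) (nat_lit 0) (XT.lf (nat_lit 0) (nat_lit 56077482806) (nat_lit 380) (nat_lit 140815119016) (nat_lit 76) (nat_lit 99056493941) (nat_lit 116) (nat_lit 5) (nat_lit 121) (nat_lit 5) (nat_lit 117) (nat_lit 5) (nat_lit 500) (nat_lit 473) (nat_lit 227)) (XT.lf (nat_lit 0) (nat_lit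 34645552918) (nat_lit 228) (nat_lit 81012737358) (nat_lit 304) (nat_lit 189093654307) (nat_lit 113) (nat_lit 5) (nat_lit 116) (nat_lit 5) (nat_lit 117) (nat_lit 5) (nat_lit 501) (nat_lit 473) (nat_lit 226))) (XT.nd (nat_lit 78) (nat_lit 228) (nat_lit 0) (XT.lf (nat_lit 0) (nat_lit 181276765679) (nat_lit 304) (nat_lit 90781691085) (nat_lit 76) (nat_lit 41783547707) (nat_lit 113) (nat_lit 5) (nat_lit 117) (nat_lit 5) (nat_lit 114) (nat_lit 5) (nat_lit 502) (nat_lit 473) (nat_lit 225)) (XT.lf (nat_lit 0) (nat_lit 99361245730) (nat_lit 228) (nat_lit 153694234491) (nat_lit 304) (nat_lit 70187121367) (nat_lit 110) (nat_lit 5) (nat_lit 113) (nat_lit 5) (nat_lit 114) (nat_lit 5) (nat_lit 503) (nat_lit 473) (nat_lit 224)))) (XT.nd (nat_lit 156) (nat_lit 228) (nat_lit 0) (XT.nd (nat_lit 78) (nat_lit 228) (nat_lit 0) (XT.lf (nat_lit 0) (nat_lit 302162964830) (nat_lit 228) (nat_lit 27797529493) (nat_lit 304)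 (nat_lit 3075866049) (nat_lit 110) (nat_lit 5) (nat_lit 113) (nat_lit 5) (nat_lit 114) (nat_lit 5) (nat_lit 504) (nat_lit 473) (nat_lit 223)) (XT.lf (nat_lit 0) (nat_lit 69679982763) (nat_lit 228) (nat_lit 168443891177) (nat_lit 76) (nat_lit 104921026975) (nat_lit 107) (nat_lit 5) (nat_lit 110) (nat_lit 5) (nat_lit 108) (nat_lit 5) (nat_lit 505) (nat_lit 473) (nat_lit 222))) (XT.nd (nat_lit 78) (nat_lit 0) (nat_lit 0) (XT.lf (nat_lit 0) (nat_lit 38614374195) (nat_lit 228) (nat_lit 108945818947) (nat_lit 304) (nat_lit 205911657224) (nat_lit 104) (nat_lit 5) (nat_lit 107) (nat_lit 5) (nat_lit 108) (nat_lit 5) (nat_lit 506) (nat_lit 473) (nat_lit 221)) (XT.lf (nat_lit 0) (nat_lit 232650517881) (nat_lit 304) (nat_lit 102867557176) (nat_lit 76) (nat_lit 28736267043) (nat_lit 104) (nat_lit 5) (nat_lit 108) (nat_lit 5) (nat_lit 105) (nat_lit 5) (nat_lit 507) (nat_lit 473) (nat_lit 220)))))) (XT.nd (nat_lit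 624) (nat_lit 912) (nat_lit 0) (XT.nd (nat_lit 312) (nat_lit 380) (nat_lit 0) (XT.nd (nat_lit 156) (nat_lit 380) (nat_lit 0) (XT.nd (nat_lit 78) (nat_lit 76) (nat_lit 0) (XT.lf (nat_lit 0) (nat_lit 121835255008) (nat_lit 152) (nat_lit 203848230018) (nat_lit 228) (nat_lit 49708067088) (nat_lit 102) (nat_lit 5) (nat_lit 104) (nat_lit 5) (nat_lit 105) (nat_lit 5) (nat_lit 508) (nat_lit 473) (nat_lit 219)) (XT.lf (nat_lit 0) (nat_lit 36891822908) (nat_lit 228) (nat_lit 26249105532) (nat_lit 76) (nat_lit 323827840090) (nat_lit 101) (nat_lit 5) (nat_lit 104) (nat_lit 5) (nat_lit 102) (nat_lit 5) (nat_lit 509) (nat_lit 473) (nat_lit 218))) (XT.nd (nat_lit 78) (nat_lit 152) (nat_lit 0) (XT.lf (nat_lit 0) (nat_lit 130954352876) (nat_lit 304) (nat_lit 181698432095) (nat_lit 76) (nat_lit 86191158357) (nat_lit 98) (nat_lit 5) (nat_lit 102) (nat_lit 5) (nat_lit 99) (nat_lit 5) (nat_lit 510) (nat_lit 473) (nat_lit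 217)) (XT.lf (nat_lit 0) (nat_lit 63314501914) (nat_lit 152) (nat_lit 168880893800) (nat_lit 228) (nat_lit 178993711833) (nat_lit 96) (nat_lit 5) (nat_lit 98) (nat_lit 5) (nat_lit 99) (nat_lit 5) (nat_lit 511) (nat_lit 473) (nat_lit 216)))) (XT.nd (nat_lit 156) (nat_lit 152) (nat_lit 0) (XT.nd (nat_lit 78) (nat_lit 228) (nat_lit 0) (XT.lf (nat_lit 0) (nat_lit 326886151865) (nat_lit 152) (nat_lit 14689434487) (nat_lit 228) (nat_lit 82422088846) (nat_lit 96) (nat_lit 5) (nat_lit 98) (nat_lit 5) (nat_lit 99) (nat_lit 5) (nat_lit 512) (nat_lit 473) (nat_lit 215)) (XT.lf (nat_lit 0) (nat_lit 23393448797) (nat_lit 228) (nat_lit 268266673791) (nat_lit 76) (nat_lit 145520595980) (nat_lit 93) (nat_lit 5) (nat_lit 96) (nat_lit 5) (nat_lit 94) (nat_lit 5) (nat_lit 513) (nat_lit 473) (nat_lit 214))) (XT.nd (nat_lit 78) (nat_lit 152) (nat_lit 0) (XT.lf (nat_lit 0) (nat_lit 133642190090) (nat_lit 228) (nat_lit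 947340009) (nat_lit 76) (nat_lit 316270207450) (nat_lit 93) (nat_lit 5) (nat_lit 96) (nat_lit 5) (nat_lit 94) (nat_lit 5) (nat_lit 514) (nat_lit 473) (nat_lit 213)) (XT.lf (nat_lit 0) (nat_lit 254462792483) (nat_lit 228) (nat_lit 176557413995) (nat_lit 76) (nat_lit 33949529801) (nat_lit 91) (nat_lit 5) (nat_lit 94) (nat_lit 5) (nat_lit 92) (nat_lit 5) (nat_lit 515) (nat_lit 473) (nat_lit 212))))) (XT.nd (nat_lit 312) (nat_lit 380) (nat_lit 0) (XT.nd (nat_lit 156) (nat_lit 304) (nat_lit 0) (XT.nd (nat_lit 78) (nat_lit 76) (nat_lit 0) (XT.lf (nat_lit 0) (nat_lit 113928101867) (nat_lit 152) (nat_lit 271397702814) (nat_lit 228) (nat_lit 94259361281) (nat_lit 89) (nat_lit 5) (nat_lit 91) (nat_lit 5) (nat_lit 92) (nat_lit 5) (nat_lit 516) (nat_lit 473) (nat_lit 211)) (XT.lf (nat_lit 0) (nat_lit 29949861147) (nat_lit 228) (nat_lit 70197442527) (nat_lit 76) (nat_lit 394610408511) (nat_lit 88) (nat_lit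 5) (nat_lit 91) (nat_lit 5) (nat_lit 89) (nat_lit 5) (nat_lit 517) (nat_lit 473) (nat_lit 210))) (XT.nd (nat_lit 78) (nat_lit 152) (nat_lit 0) (XT.lf (nat_lit 0) (nat_lit 162380569300) (nat_lit 228) (nat_lit 265376094519) (nat_lit 76) (nat_lit 82596022270) (nat_lit 86) (nat_lit 5) (nat_lit 89) (nat_lit 5) (nat_lit 87) (nat_lit 5) (nat_lit 518) (nat_lit 473) (nat_lit 209)) (XT.lf (nat_lit 0) (nat_lit 51670919542) (nat_lit 152) (nat_lit 253418650310) (nat_lit 228) (nat_lit 221455000987) (nat_lit 84) (nat_lit 5) (nat_lit 86) (nat_lit 5) (nat_lit 87) (nat_lit 5) (nat_lit 519) (nat_lit 473) (nat_lit 208)))) (XT.nd (nat_lit 156) (nat_lit 228) (nat_lit 0) (XT.nd (nat_lit 78) (nat_lit 152) (nat_lit 0) (XT.lf (nat_lit 0) (nat_lit 393783463099) (nat_lit 152) (nat_lit 65644784289) (nat_lit 228) (nat_lit 83893091091) (nat_lit 84) (nat_lit 5) (nat_lit 86) (nat_lit 5) (nat_lit 87) (nat_lit 5) (nat_lit 520) (nat_lit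 473) (nat_lit 207)) (XT.lf (nat_lit 0) (nat_lit 63810951483) (nat_lit 152) (nat_lit 365416372150) (nat_lit 76) (nat_lit 131402259691) (nat_lit 82) (nat_lit 5) (nat_lit 84) (nat_lit 5) (nat_lit 83) (nat_lit 5) (nat_lit 521) (nat_lit 473) (nat_lit 206))) (XT.nd (nat_lit 78) (nat_lit 228) (nat_lit 0) (XT.lf (nat_lit 0) (nat_lit 219730951062) (nat_lit 152) (nat_lit 18776181103) (nat_lit 76) (nat_lit 340044837776) (nat_lit 82) (nat_lit 5) (nat_lit 84) (nat_lit 5) (nat_lit 83) (nat_lit 5) (nat_lit 522) (nat_lit 473) (nat_lit 205)) (XT.nd (nat_lit 78) (nat_lit 76) (nat_lit 0) (XT.lf (nat_lit 0) (nat_lit 356609682089) (nat_lit 152) (nat_lit 32404903390) (nat_lit 228) (nat_lit 208077508667) (nat_lit 80) (nat_lit 5) (nat_lit 82) (nat_lit 5) (nat_lit 83) (nat_lit 5) (nat_lit 523) (nat_lit 473) (nat_lit 204)) (XT.lf (nat_lit 0) (nat_lit 136359659152) (nat_lit 76) (nat_lit 435727647822) (nat_lit 152) (nat_lit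 44205672322) (nat_lit 79) (nat_lit 5) (nat_lit 80) (nat_lit 5) (nat_lit 81) (nat_lit 4) (nat_lit 524) (nat_lit 473) (nat_lit 203))))))))
noncomputable def xc446 : XT := (XT.nd (nat_lit 1248) (nat_lit 380) (nat_lit 0) (XT.nd (nat_lit 624) (nat_lit 532) (nat_lit 0) (XT.nd (nat_lit 312) (nat_lit 456) (nat_lit 0) (XT.nd (nat_lit 156) (nat_lit 152) (nat_lit 0) (XT.nd (nat_lit 78) (nat_lit 152) (nat_lit 0) (XT.lf (nat_lit 0) (nat_lit 128438083254) (nat_lit 152) (nat_lit 98451751343) (nat_lit 76) (nat_lit 409230729745) (nat_lit 78) (nat_lit 5) (nat_lit 80) (nat_lit 5) (nat_lit 79) (nat_lit 5) (nat_lit 525) (nat_lit 473) (nat_lit 202)) (XT.lf (nat_lit 0) (nat_lit 311344096989) (nat_lit 152) (nat_lit 1745243833) (nat_lit 228) (nat_lit 343570907928) (nat_lit 76) (nat_lit 5) (nat_lit 78) (nat_lit 5) (nat_lit 79) (nat_lit 5) (nat_lit 526) (nat_lit 473) (nat_lit 201))) (XT.nd (nat_lit 78) (nat_lit 76) (nat_lit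 0) (XT.lf (nat_lit 0) (nat_lit 65303270180) (nat_lit 76) (nat_lit 448047727287) (nat_lit 152) (nat_lit 164557028103) (nat_lit 75) (nat_lit 5) (nat_lit 76) (nat_lit 5) (nat_lit 77) (nat_lit 4) (nat_lit 527) (nat_lit 473) (nat_lit 200)) (XT.lf (nat_lit 0) (nat_lit 28630896358) (nat_lit 152) (nat_lit 191973536184) (nat_lit 76) (nat_lit 479296858905) (nat_lit 74) (nat_lit 5) (nat_lit 76) (nat_lit 5) (nat_lit 75) (nat_lit 5) (nat_lit 528) (nat_lit 473) (nat_lit 199)))) (XT.nd (nat_lit 156) (nat_lit 304) (nat_lit 0) (XT.nd (nat_lit 78) (nat_lit 0) (nat_lit 0) (XT.lf (nat_lit 0) (nat_lit 230325574728) (nat_lit 228) (nat_lit 467895833990) (nat_lit 76) (nat_lit 24419051446) (nat_lit 72) (nat_lit 5) (nat_lit 75) (nat_lit 5) (nat_lit 73) (nat_lit 4) (nat_lit 529) (nat_lit 473) (nat_lit 198)) (XT.lf (nat_lit 0) (nat_lit 449025878900) (nat_lit 228) (nat_lit 19560277101) (nat_lit 76) (nat_lit 277584386723) (nat_lit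 72) (nat_lit 5) (nat_lit 75) (nat_lit 5) (nat_lit 73) (nat_lit 4) (nat_lit 530) (nat_lit 473) (nat_lit 197))) (XT.nd (nat_lit 78) (nat_lit 228) (nat_lit 0) (XT.lf (nat_lit 0) (nat_lit 466110437334) (nat_lit 76) (nat_lit 219828016162) (nat_lit 152) (nat_lit 84574813155) (nat_lit 71) (nat_lit 5) (nat_lit 72) (nat_lit 5) (nat_lit 73) (nat_lit 4) (nat_lit 531) (nat_lit 473) (nat_lit 196)) (XT.lf (nat_lit 0) (nat_lit 138136755112) (nat_lit 228) (nat_lit 612118178496) (nat_lit 76) (nat_lit 45512475891) (nat_lit 68) (nat_lit 5) (nat_lit 71) (nat_lit 5) (nat_lit 69) (nat_lit 4) (nat_lit 532) (nat_lit 473) (nat_lit 195))))) (XT.nd (nat_lit 312) (nat_lit 304) (nat_lit 0) (XT.nd (nat_lit 156) (nat_lit 152) (nat_lit 0) (XT.nd (nat_lit 78) (nat_lit 76) (nat_lit 0) (XT.lf (nat_lit 0) (nat_lit 377985057591) (nat_lit 228) (nat_lit 120429213257) (nat_lit 76) (nat_lit 323358493818) (nat_lit 68) (nat_lit 5) (nat_lit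 71) (nat_lit 5) (nat_lit 69) (nat_lit 4) (nat_lit 533) (nat_lit 473) (nat_lit 194)) (XT.lf (nat_lit 0) (nat_lit 408932532742) (nat_lit 76) (nat_lit 227277792278) (nat_lit 152) (nat_lit 212548835080) (nat_lit 67) (nat_lit 5) (nat_lit 68) (nat_lit 5) (nat_lit 69) (nat_lit 4) (nat_lit 534) (nat_lit 473) (nat_lit 193))) (XT.nd (nat_lit 78) (nat_lit 0) (nat_lit 0) (XT.lf (nat_lit 0) (nat_lit 33793892729) (nat_lit 152) (nat_lit 783387932568) (nat_lit 76) (nat_lit 59663925876) (nat_lit 65) (nat_lit 5) (nat_lit 67) (nat_lit 5) (nat_lit 66) (nat_lit 4) (nat_lit 535) (nat_lit 473) (nat_lit 192)) (XT.lf (nat_lit 0) (nat_lit 296607341161) (nat_lit 152) (nat_lit 244620408402) (nat_lit 76) (nat_lit 364369870936) (nat_lit 65) (nat_lit 5) (nat_lit 67) (nat_lit 5) (nat_lit 66) (nat_lit 4) (nat_lit 536) (nat_lit 473) (nat_lit 191)))) (XT.nd (nat_lit 156) (nat_lit 228) (nat_lit 0) (XT.nd (nat_lit 78) (nat_lit 0)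 (nat_lit 0) (XT.lf (nat_lit 0) (nat_lit 331701966788) (nat_lit 76) (nat_lit 246038261281) (nat_lit 152) (nat_lit 357787916920) (nat_lit 64) (nat_lit 5) (nat_lit 65) (nat_lit 5) (nat_lit 66) (nat_lit 4) (nat_lit 537) (nat_lit 473) (nat_lit 190)) (XT.lf (nat_lit 0) (nat_lit 878138232536) (nat_lit 152) (nat_lit 22480727618) (nat_lit 0) (nat_lit 66075811889) (nat_lit 64) (nat_lit 5) (nat_lit 66) (nat_lit 4) (nat_lit 64) (nat_lit 4) (nat_lit 538) (nat_lit 473) (nat_lit 189))) (XT.nd (nat_lit 78) (nat_lit 76) (nat_lit 0) (XT.lf (nat_lit 0) (nat_lit 201594441862) (nat_lit 152) (nat_lit 398793851949) (nat_lit 76) (nat_lit 398196305345) (nat_lit 62) (nat_lit 5) (nat_lit 64) (nat_lit 5) (nat_lit 63) (nat_lit 4) (nat_lit 539) (nat_lit 473) (nat_lit 188)) (XT.lf (nat_lit 0) (nat_lit 227737367475) (nat_lit 76) (nat_lit 279482076716) (nat_lit 152) (nat_lit 524579758490) (nat_lit 61) (nat_lit 5) (nat_lit 62)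 (nat_lit 5) (nat_lit 63) (nat_lit 4) (nat_lit 540) (nat_lit 473) (nat_lit 187)))))) (XT.nd (nat_lit 57408) (nat_lit 0) (nat_lit 8208) (XT.nd (nat_lit 312) (nat_lit 152) (nat_lit 0) (XT.nd (nat_lit 156) (nat_lit 76) (nat_lit 0) (XT.nd (nat_lit 78) (nat_lit 152) (nat_lit 0) (XT.lf (nat_lit 0) (nat_lit 835887410712) (nat_lit 152) (nat_lit 167904511912) (nat_lit 0) (nat_lit 62494528057) (nat_lit 61) (nat_lit 5) (nat_lit 63) (nat_lit 4) (nat_lit 61) (nat_lit 4) (nat_lit 541) (nat_lit 473) (nat_lit 186)) (XT.lf (nat_lit 0) (nat_lit 88757881440) (nat_lit 152) (nat_lit 591439256242) (nat_lit 76) (nat_lit 421600682396) (nat_lit 59) (nat_lit 5) (nat_lit 61) (nat_lit 5) (nat_lit 60) (nat_lit 4) (nat_lit 542) (nat_lit 473) (nat_lit 185))) (XT.nd (nat_lit 78) (nat_lit 0) (nat_lit 0) (XT.lf (nat_lit 0) (nat_lit 88428023806) (nat_lit 76) (nat_lit 331972447454) (nat_lit 152) (nat_lit 718281897968) (nat_lit 58)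 (nat_lit 5) (nat_lit 59) (nat_lit 5) (nat_lit 60) (nat_lit 4) (nat_lit 543) (nat_lit 473) (nat_lit 184)) (XT.lf (nat_lit 0) (nat_lit 779331255670) (nat_lit 152) (nat_lit 354778064556) (nat_lit 0) (nat_lit 42766522356) (nat_lit 58) (nat_lit 5) (nat_lit 60) (nat_lit 4) (nat_lit 58) (nat_lit 4) (nat_lit 544) (nat_lit 473) (nat_lit 183)))) (XT.nd (nat_lit 56940) (nat_lit 0) (nat_lit 8132) (XT.nd (nat_lit 78) (nat_lit 76) (nat_lit 0) (XT.lf (nat_lit 0) (nat_lit 382264663688) (nat_lit 76) (nat_lit 785354282992) (nat_lit 76) (nat_lit 48789524554) (nat_lit 57) (nat_lit 4) (nat_lit 58) (nat_lit 5) (nat_lit 58) (nat_lit 4) (nat_lit 545) (nat_lit 473) (nat_lit 182)) (XT.lf (nat_lit 0) (nat_lit 313351212382) (nat_lit 152) (nat_lit 94194796981) (nat_lit 76) (nat_lit 849818603762) (nat_lit 56) (nat_lit 5) (nat_lit 58) (nat_lit 5) (nat_lit 57) (nat_lit 4) (nat_lit 546) (nat_lit 473) (nat_lit 181))) (XT.nd (nat_lit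 78) (nat_lit 0) (nat_lit 0) (XT.lf (nat_lit 0) (nat_lit 33235006015) (nat_lit 836) (nat_lit 20910073218) (nat_lit 836) (nat_lit 20910073218) (nat_lit 163) (nat_lit 3) (nat_lit 174) (nat_lit 3) (nat_lit 174) (nat_lit 5) (nat_lit 474) (nat_lit 474) (nat_lit 252)) (XT.lf (nat_lit 76) (nat_lit 34019756715) (nat_lit 0) (nat_lit 34646006140) (nat_lit 836) (nat_lit 85170599425) (nat_lit 164) (nat_lit 5) (nat_lit 163) (nat_lit 3) (nat_lit 174) (nat_lit 5) (nat_lit 475) (nat_lit 474) (nat_lit 251))))) (XT.nd (nat_lit 312) (nat_lit 0) (nat_lit 152) (XT.nd (nat_lit 156) (nat_lit 0) (nat_lit 76) (XT.nd (nat_lit 78) (nat_lit 0) (nat_lit 0) (XT.lf (nat_lit 0) (nat_lit 72357333049) (nat_lit 760) (nat_lit 43287834480) (nat_lit 836) (nat_lit 42034253418) (nat_lit 164) (nat_lit 5) (nat_lit 174) (nat_lit 5) (nat_lit 175) (nat_lit 5) (nat_lit 476) (nat_lit 474) (nat_lit 250)) (XT.lf (nat_lit 76) (nat_lit 37706135121)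 (nat_lit 0) (nat_lit 39683838017) (nat_lit 836) (nat_lit 84266834855) (nat_lit 165) (nat_lit 5) (nat_lit 164) (nat_lit 5) (nat_lit 175) (nat_lit 5) (nat_lit 477) (nat_lit 474) (nat_lit 249))) (XT.nd (nat_lit 78) (nat_lit 0) (nat_lit 0) (XT.lf (nat_lit 0) (nat_lit 84044888806) (nat_lit 760) (nat_lit 42181572362) (nat_lit 836) (nat_lit 39538071056) (nat_lit 165) (nat_lit 5) (nat_lit 175) (nat_lit 5) (nat_lit 176) (nat_lit 5) (nat_lit 478) (nat_lit 474) (nat_lit 248)) (XT.lf (nat_lit 76) (nat_lit 44447932985) (nat_lit 0) (nat_lit 47928970069) (nat_lit 836) (nat_lit 77633521986) (nat_lit 166) (nat_lit 5) (nat_lit 165) (nat_lit 5) (nat_lit 176) (nat_lit 5) (nat_lit 479) (nat_lit 474) (nat_lit 247)))) (XT.nd (nat_lit 156) (nat_lit 0) (nat_lit 76) (XT.nd (nat_lit 78) (nat_lit 0) (nat_lit 0) (XT.lf (nat_lit 0) (nat_lit 102386702081) (nat_lit 760) (nat_lit 38106616053) (nat_lit 836) (nat_lit 33912235169)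 (nat_lit 166) (nat_lit 5) (nat_lit 176) (nat_lit 5) (nat_lit 177) (nat_lit 5) (nat_lit 480) (nat_lit 474) (nat_lit 246)) (XT.lf (nat_lit 76) (nat_lit 54686535417) (nat_lit 0) (nat_lit 59849841717) (nat_lit 836) (nat_lit 64402091554) (nat_lit 167) (nat_lit 5) (nat_lit 166) (nat_lit 5) (nat_lit 177) (nat_lit 5) (nat_lit 481) (nat_lit 474) (nat_lit 245))) (XT.nd (nat_lit 78) (nat_lit 0) (nat_lit 0) (XT.lf (nat_lit 0) (nat_lit 128336930871) (nat_lit 760) (nat_lit 30621735970) (nat_lit 836) (nat_lit 24687193265) (nat_lit 167) (nat_lit 5) (nat_lit 177) (nat_lit 5) (nat_lit 178) (nat_lit 5) (nat_lit 482) (nat_lit 474) (nat_lit 244)) (XT.nd (nat_lit 78) (nat_lit 0) (nat_lit 76) (XT.lf (nat_lit 76) (nat_lit 68914409218) (nat_lit 0) (nat_lit 75970062636) (nat_lit 836) (nat_lit 43601301274) (nat_lit 168) (nat_lit 5) (nat_lit 167) (nat_lit 5) (nat_lit 178) (nat_lit 5) (nat_lit 483) (nat_lit 474) (nat_lit 243))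 (XT.lf (nat_lit 0) (nat_lit 162960721200) (nat_lit 760) (nat_lit 19234251273) (nat_lit 76) (nat_lit 11337642770) (nat_lit 168) (nat_lit 5) (nat_lit 178) (nat_lit 5) (nat_lit 169) (nat_lit 5) (nat_lit 484) (nat_lit 474) (nat_lit 242))))))))
noncomputable def xc447 : XT := (XT.nd (nat_lit 1248) (nat_lit 2356) (nat_lit 0) (XT.nd (nat_lit 624) (nat_lit 1292) (nat_lit 0) (XT.nd (nat_lit 312) (nat_lit 684) (nat_lit 0) (XT.nd (nat_lit 156) (nat_lit 836) (nat_lit 0) (XT.nd (nat_lit 78) (nat_lit 76) (nat_lit 0) (XT.lf (nat_lit 0) (nat_lit 87680522343) (nat_lit 760) (nat_lit 96874488803) (nat_lit 836) (nat_lit 14146076922) (nat_lit 158) (nat_lit 5) (nat_lit 168) (nat_lit 5) (nat_lit 169) (nat_lit 5) (nat_lit 485) (nat_lit 474) (nat_lit 241)) (XT.lf (nat_lit 0) (nat_lit 3332740851) (nat_lit 836) (nat_lit 3556759149) (nat_lit 76) (nat_lit 197219515644) (nat_lit 157) (nat_lit 5) (nat_lit 168) (nat_lit 5) (nat_lit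 158) (nat_lit 5) (nat_lit 486) (nat_lit 474) (nat_lit 240))) (XT.nd (nat_lit 78) (nat_lit 380) (nat_lit 0) (XT.lf (nat_lit 0) (nat_lit 24369062094) (nat_lit 532) (nat_lit 98434185895) (nat_lit 76) (nat_lit 86814548298) (nat_lit 151) (nat_lit 5) (nat_lit 158) (nat_lit 5) (nat_lit 152) (nat_lit 5) (nat_lit 487) (nat_lit 474) (nat_lit 239)) (XT.lf (nat_lit 0) (nat_lit 16809445060) (nat_lit 380) (nat_lit 30084252762) (nat_lit 456) (nat_lit 168486493224) (nat_lit 146) (nat_lit 5) (nat_lit 151) (nat_lit 5) (nat_lit 152) (nat_lit 5) (nat_lit 488) (nat_lit 474) (nat_lit 238)))) (XT.nd (nat_lit 156) (nat_lit 304) (nat_lit 0) (XT.nd (nat_lit 78) (nat_lit 380) (nat_lit 0) (XT.lf (nat_lit 0) (nat_lit 73289102191) (nat_lit 456) (nat_lit 81192408665) (nat_lit 76) (nat_lit 66811967854) (nat_lit 146) (nat_lit 5) (nat_lit 152) (nat_lit 5) (nat_lit 147) (nat_lit 5) (nat_lit 489) (nat_lit 474) (nat_lit 237)) (XT.lf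 (nat_lit 0) (nat_lit 42935766602) (nat_lit 380) (nat_lit 59231941226) (nat_lit 456) (nat_lit 125276551381) (nat_lit 141) (nat_lit 5) (nat_lit 146) (nat_lit 5) (nat_lit 147) (nat_lit 5) (nat_lit 490) (nat_lit 474) (nat_lit 236))) (XT.nd (nat_lit 78) (nat_lit 304) (nat_lit 0) (XT.lf (nat_lit 0) (nat_lit 134524411738) (nat_lit 456) (nat_lit 58404002824) (nat_lit 76) (nat_lit 40872455780) (nat_lit 141) (nat_lit 5) (nat_lit 147) (nat_lit 5) (nat_lit 142) (nat_lit 5) (nat_lit 491) (nat_lit 474) (nat_lit 235)) (XT.lf (nat_lit 0) (nat_lit 75449444505) (nat_lit 304) (nat_lit 95198405696) (nat_lit 380) (nat_lit 69720016868) (nat_lit 137) (nat_lit 5) (nat_lit 141) (nat_lit 5) (nat_lit 142) (nat_lit 5) (nat_lit 492) (nat_lit 474) (nat_lit 234))))) (XT.nd (nat_lit 312) (nat_lit 608) (nat_lit 0) (XT.nd (nat_lit 156) (nat_lit 380) (nat_lit 0) (XT.nd (nat_lit 78) (nat_lit 304) (nat_lit 0) (XT.lf (nat_lit 0) (nat_lit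 209698502066) (nat_lit 380) (nat_lit 29322679042) (nat_lit 76) (nat_lit 8185980456) (nat_lit 137) (nat_lit 5) (nat_lit 142) (nat_lit 5) (nat_lit 138) (nat_lit 5) (nat_lit 493) (nat_lit 474) (nat_lit 233)) (XT.lf (nat_lit 0) (nat_lit 115178552595) (nat_lit 304) (nat_lit 138881937132) (nat_lit 380) (nat_lit 159990903) (nat_lit 133) (nat_lit 5) (nat_lit 137) (nat_lit 5) (nat_lit 138) (nat_lit 5) (nat_lit 494) (nat_lit 474) (nat_lit 232))) (XT.nd (nat_lit 78) (nat_lit 0) (nat_lit 0) (XT.lf (nat_lit 0) (nat_lit 5935169704) (nat_lit 304) (nat_lit 32468215991) (nat_lit 380) (nat_lit 223120725489) (nat_lit 128) (nat_lit 5) (nat_lit 132) (nat_lit 5) (nat_lit 133) (nat_lit 5) (nat_lit 495) (nat_lit 474) (nat_lit 231)) (XT.lf (nat_lit 0) (nat_lit 82520383369) (nat_lit 380) (nat_lit 107365740355) (nat_lit 76) (nat_lit 79125126957) (nat_lit 128) (nat_lit 5) (nat_lit 133) (nat_lit 5) (nat_lit 129) (nat_lit 5)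 (nat_lit 496) (nat_lit 474) (nat_lit 230)))) (XT.nd (nat_lit 156) (nat_lit 304) (nat_lit 0) (XT.nd (nat_lit 78) (nat_lit 0) (nat_lit 0) (XT.lf (nat_lit 0) (nat_lit 49314630385) (nat_lit 304) (nat_lit 80830726852) (nat_lit 380) (nat_lit 146662283606) (nat_lit 124) (nat_lit 5) (nat_lit 128) (nat_lit 5) (nat_lit 129) (nat_lit 5) (nat_lit 497) (nat_lit 474) (nat_lit 229)) (XT.lf (nat_lit 0) (nat_lit 182525400590) (nat_lit 380) (nat_lit 67902130137) (nat_lit 76) (nat_lit 34447628751) (nat_lit 124) (nat_lit 5) (nat_lit 129) (nat_lit 5) (nat_lit 125) (nat_lit 5) (nat_lit 498) (nat_lit 474) (nat_lit 228))) (XT.nd (nat_lit 78) (nat_lit 76) (nat_lit 0) (XT.lf (nat_lit 0) (nat_lit 101594769677) (nat_lit 228) (nat_lit 138840875831) (nat_lit 304) (nat_lit 52764848570) (nat_lit 121) (nat_lit 5) (nat_lit 124) (nat_lit 5) (nat_lit 125) (nat_lit 5) (nat_lit 499) (nat_lit 474) (nat_lit 227)) (XT.lf (nat_lit 0) (nat_lit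 490468230) (nat_lit 304) (nat_lit 19968685049) (nat_lit 76) (nat_lit 281425052401) (nat_lit 120) (nat_lit 5) (nat_lit 124) (nat_lit 5) (nat_lit 121) (nat_lit 5) (nat_lit 500) (nat_lit 474) (nat_lit 226)))))) (XT.nd (nat_lit 624) (nat_lit 1140) (nat_lit 0) (XT.nd (nat_lit 312) (nat_lit 456) (nat_lit 0) (XT.nd (nat_lit 156) (nat_lit 228) (nat_lit 0) (XT.nd (nat_lit 78) (nat_lit 228) (nat_lit 0) (XT.lf (nat_lit 0) (nat_lit 58883546586) (nat_lit 380) (nat_lit 147852795732) (nat_lit 76) (nat_lit 104010098640) (nat_lit 116) (nat_lit 5) (nat_lit 121) (nat_lit 5) (nat_lit 117) (nat_lit 5) (nat_lit 501) (nat_lit 474) (nat_lit 225)) (XT.lf (nat_lit 0) (nat_lit 36380860134) (nat_lit 228) (nat_lit 85062477328) (nat_lit 304) (nat_lit 198546097612) (nat_lit 113) (nat_lit 5) (nat_lit 116) (nat_lit 5) (nat_lit 117) (nat_lit 5) (nat_lit 502) (nat_lit 474) (nat_lit 224))) (XT.nd (nat_lit 78) (nat_lit 228) (nat_lit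 0) (XT.lf (nat_lit 0) (nat_lit 190342648415) (nat_lit 304) (nat_lit 95317802015) (nat_lit 76) (nat_lit 43873551942) (nat_lit 113) (nat_lit 5) (nat_lit 117) (nat_lit 5) (nat_lit 114) (nat_lit 5) (nat_lit 503) (nat_lit 474) (nat_lit 223)) (XT.lf (nat_lit 0) (nat_lit 104332233680) (nat_lit 228) (nat_lit 161378013327) (nat_lit 304) (nat_lit 73694384926) (nat_lit 110) (nat_lit 5) (nat_lit 113) (nat_lit 5) (nat_lit 114) (nat_lit 5) (nat_lit 504) (nat_lit 474) (nat_lit 222)))) (XT.nd (nat_lit 156) (nat_lit 228) (nat_lit 0) (XT.nd (nat_lit 78) (nat_lit 228) (nat_lit 0) (XT.lf (nat_lit 0) (nat_lit 317273899417) (nat_lit 228) (nat_lit 29186517503) (nat_lit 304) (nat_lit 3227666485) (nat_lit 110) (nat_lit 5) (nat_lit 113) (nat_lit 5) (nat_lit 114) (nat_lit 5) (nat_lit 505) (nat_lit 474) (nat_lit 221)) (XT.lf (nat_lit 0) (nat_lit 73165877319) (nat_lit 228) (nat_lit 176863201772) (nat_lit 76) (nat_lit 110167972016)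 (nat_lit 107) (nat_lit 5) (nat_lit 110) (nat_lit 5) (nat_lit 108) (nat_lit 5) (nat_lit 506) (nat_lit 474) (nat_lit 220))) (XT.nd (nat_lit 78) (nat_lit 0) (nat_lit 0) (XT.lf (nat_lit 0) (nat_lit 40547930353) (nat_lit 228) (nat_lit 114392121906) (nat_lit 304) (nat_lit 216205298074) (nat_lit 104) (nat_lit 5) (nat_lit 107) (nat_lit 5) (nat_lit 108) (nat_lit 5) (nat_lit 507) (nat_lit 474) (nat_lit 219)) (XT.lf (nat_lit 0) (nat_lit 244284819856) (nat_lit 304) (nat_lit 108008159250) (nat_lit 76) (nat_lit 30173991220) (nat_lit 104) (nat_lit 5) (nat_lit 108) (nat_lit 5) (nat_lit 105) (nat_lit 5) (nat_lit 508) (nat_lit 474) (nat_lit 218))))) (XT.nd (nat_lit 312) (nat_lit 532) (nat_lit 0) (XT.nd (nat_lit 156) (nat_lit 380) (nat_lit 0) (XT.nd (nat_lit 78) (nat_lit 76) (nat_lit 0) (XT.lf (nat_lit 0) (nat_lit 127929748773) (nat_lit 152) (nat_lit 214039644650) (nat_lit 228) (nat_lit 52191649519) (nat_lit 102)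 (nat_lit 5) (nat_lit 104) (nat_lit 5) (nat_lit 105) (nat_lit 5) (nat_lit 509) (nat_lit 474) (nat_lit 217)) (XT.lf (nat_lit 0) (nat_lit 38738092760) (nat_lit 228) (nat_lit 27558904272) (nat_lit 76) (nat_lit 340020125924) (nat_lit 101) (nat_lit 5) (nat_lit 104) (nat_lit 5) (nat_lit 102) (nat_lit 5) (nat_lit 510) (nat_lit 474) (nat_lit 216))) (XT.nd (nat_lit 78) (nat_lit 152) (nat_lit 0) (XT.lf (nat_lit 0) (nat_lit 137503725303) (nat_lit 304) (nat_lit 190780673179) (nat_lit 76) (nat_lit 90501659210) (nat_lit 98) (nat_lit 5) (nat_lit 102) (nat_lit 5) (nat_lit 99) (nat_lit 5) (nat_lit 511) (nat_lit 474) (nat_lit 215)) (XT.lf (nat_lit 0) (nat_lit 66482864297) (nat_lit 152) (nat_lit 177323918364) (nat_lit 228) (nat_lit 187941699348) (nat_lit 96) (nat_lit 5) (nat_lit 98) (nat_lit 5) (nat_lit 99) (nat_lit 5) (nat_lit 512) (nat_lit 474) (nat_lit 214)))) (XT.nd (nat_lit 156) (nat_lit 304) (nat_lit 0) (XT.nd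 (nat_lit 78) (nat_lit 228) (nat_lit 0) (XT.lf (nat_lit 0) (nat_lit 343232971160) (nat_lit 152) (nat_lit 15422934663) (nat_lit 228) (nat_lit 86541576072) (nat_lit 96) (nat_lit 5) (nat_lit 98) (nat_lit 5) (nat_lit 99) (nat_lit 5) (nat_lit 513) (nat_lit 474) (nat_lit 213)) (XT.lf (nat_lit 0) (nat_lit 24564667011) (nat_lit 228) (nat_lit 281677424233) (nat_lit 76) (nat_lit 152797585914) (nat_lit 93) (nat_lit 5) (nat_lit 96) (nat_lit 5) (nat_lit 94) (nat_lit 5) (nat_lit 514) (nat_lit 474) (nat_lit 212))) (XT.nd (nat_lit 78) (nat_lit 304) (nat_lit 0) (XT.lf (nat_lit 0) (nat_lit 140325771760) (nat_lit 228) (nat_lit 992246773) (nat_lit 76) (nat_lit 332084632237) (nat_lit 93) (nat_lit 5) (nat_lit 96) (nat_lit 5) (nat_lit 94) (nat_lit 5) (nat_lit 515) (nat_lit 474) (nat_lit 211)) (XT.nd (nat_lit 78) (nat_lit 152) (nat_lit 0) (XT.lf (nat_lit 0) (nat_lit 267187387273) (nat_lit 228) (nat_lit 185382807413) (nat_lit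 76) (nat_lit 35647955603) (nat_lit 91) (nat_lit 5) (nat_lit 94) (nat_lit 5) (nat_lit 92) (nat_lit 5) (nat_lit 516) (nat_lit 474) (nat_lit 210)) (XT.lf (nat_lit 0) (nat_lit 119626944286) (nat_lit 152) (nat_lit 284966574555) (nat_lit 228) (nat_lit 98970834179) (nat_lit 89) (nat_lit 5) (nat_lit 91) (nat_lit 5) (nat_lit 92) (nat_lit 5) (nat_lit 517) (nat_lit 474) (nat_lit 209))))))))
noncomputable def xc448 : XT := (XT.nd (nat_lit 1248) (nat_lit 836) (nat_lit 0) (XT.nd (nat_lit 624) (nat_lit 836) (nat_lit 0) (XT.nd (nat_lit 312) (nat_lit 380) (nat_lit 0) (XT.nd (nat_lit 156) (nat_lit 152) (nat_lit 0) (XT.nd (nat_lit 78) (nat_lit 152) (nat_lit 0) (XT.lf (nat_lit 0) (nat_lit 31448732596) (nat_lit 228) (nat_lit 73704947775) (nat_lit 76) (nat_lit 414341848464) (nat_lit 88) (nat_lit 5) (nat_lit 91) (nat_lit 5) (nat_lit 89) (nat_lit 5) (nat_lit 518) (nat_lit 474) (nat_lit 208)) (XT.lf (nat_lit 0) (nat_lit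 170500962170) (nat_lit 228) (nat_lit 278642518343) (nat_lit 76) (nat_lit 86726771622) (nat_lit 86) (nat_lit 5) (nat_lit 89) (nat_lit 5) (nat_lit 87) (nat_lit 5) (nat_lit 519) (nat_lit 474) (nat_lit 207))) (XT.nd (nat_lit 78) (nat_lit 0) (nat_lit 0) (XT.lf (nat_lit 0) (nat_lit 54256808019) (nat_lit 152) (nat_lit 266088576331) (nat_lit 228) (nat_lit 232526348194) (nat_lit 84) (nat_lit 5) (nat_lit 86) (nat_lit 5) (nat_lit 87) (nat_lit 5) (nat_lit 520) (nat_lit 474) (nat_lit 206)) (XT.lf (nat_lit 0) (nat_lit 413474867207) (nat_lit 152) (nat_lit 68926064938) (nat_lit 228) (nat_lit 88086409604) (nat_lit 84) (nat_lit 5) (nat_lit 86) (nat_lit 5) (nat_lit 87) (nat_lit 5) (nat_lit 521) (nat_lit 474) (nat_lit 205)))) (XT.nd (nat_lit 156) (nat_lit 228) (nat_lit 0) (XT.nd (nat_lit 78) (nat_lit 0) (nat_lit 0) (XT.lf (nat_lit 0) (nat_lit 67002780830) (nat_lit 152) (nat_lit 383684905473) (nat_lit 76) (nat_lit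 137973312067) (nat_lit 82) (nat_lit 5) (nat_lit 84) (nat_lit 5) (nat_lit 83) (nat_lit 5) (nat_lit 522) (nat_lit 474) (nat_lit 204)) (XT.lf (nat_lit 0) (nat_lit 230718719351) (nat_lit 152) (nat_lit 19712813697) (nat_lit 76) (nat_lit 357047974323) (nat_lit 82) (nat_lit 5) (nat_lit 84) (nat_lit 5) (nat_lit 83) (nat_lit 5) (nat_lit 523) (nat_lit 474) (nat_lit 203))) (XT.nd (nat_lit 78) (nat_lit 76) (nat_lit 0) (XT.lf (nat_lit 0) (nat_lit 374442307550) (nat_lit 152) (nat_lit 34024203241) (nat_lit 228) (nat_lit 218480128232) (nat_lit 80) (nat_lit 5) (nat_lit 82) (nat_lit 5) (nat_lit 83) (nat_lit 5) (nat_lit 524) (nat_lit 474) (nat_lit 202)) (XT.lf (nat_lit 0) (nat_lit 143179793273) (nat_lit 76) (nat_lit 457513065776) (nat_lit 152) (nat_lit 46414709848) (nat_lit 79) (nat_lit 5) (nat_lit 80) (nat_lit 5) (nat_lit 81) (nat_lit 4) (nat_lit 525) (nat_lit 474) (nat_lit 201))))) (XT.nd (nat_lit 312) (nat_lit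 456) (nat_lit 0) (XT.nd (nat_lit 156) (nat_lit 152) (nat_lit 0) (XT.nd (nat_lit 78) (nat_lit 152) (nat_lit 0) (XT.lf (nat_lit 0) (nat_lit 134861136185) (nat_lit 152) (nat_lit 103372252175) (nat_lit 76) (nat_lit 429693146736) (nat_lit 78) (nat_lit 5) (nat_lit 80) (nat_lit 5) (nat_lit 79) (nat_lit 5) (nat_lit 526) (nat_lit 474) (nat_lit 200)) (XT.lf (nat_lit 0) (nat_lit 326913354917) (nat_lit 152) (nat_lit 1831579066) (nat_lit 228) (nat_lit 360748270875) (nat_lit 76) (nat_lit 5) (nat_lit 78) (nat_lit 5) (nat_lit 79) (nat_lit 5) (nat_lit 527) (nat_lit 474) (nat_lit 199))) (XT.nd (nat_lit 78) (nat_lit 76) (nat_lit 0) (XT.lf (nat_lit 0) (nat_lit 68570494835) (nat_lit 76) (nat_lit 470449170964) (nat_lit 152) (nat_lit 172783705104) (nat_lit 75) (nat_lit 5) (nat_lit 76) (nat_lit 5) (nat_lit 77) (nat_lit 4) (nat_lit 528) (nat_lit 474) (nat_lit 198)) (XT.lf (nat_lit 0) (nat_lit 30063523857) (nat_lit 152)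 (nat_lit 201570214179) (nat_lit 76) (nat_lit 503262563829) (nat_lit 74) (nat_lit 5) (nat_lit 76) (nat_lit 5) (nat_lit 75) (nat_lit 5) (nat_lit 529) (nat_lit 474) (nat_lit 197)))) (XT.nd (nat_lit 156) (nat_lit 304) (nat_lit 0) (XT.nd (nat_lit 78) (nat_lit 0) (nat_lit 0) (XT.lf (nat_lit 0) (nat_lit 241842929419) (nat_lit 228) (nat_lit 491288620130) (nat_lit 76) (nat_lit 25640879807) (nat_lit 72) (nat_lit 5) (nat_lit 75) (nat_lit 5) (nat_lit 73) (nat_lit 4) (nat_lit 530) (nat_lit 474) (nat_lit 196)) (XT.lf (nat_lit 0) (nat_lit 471478197563) (nat_lit 228) (nat_lit 20536380899) (nat_lit 76) (nat_lit 291464440144) (nat_lit 72) (nat_lit 5) (nat_lit 75) (nat_lit 5) (nat_lit 73) (nat_lit 4) (nat_lit 531) (nat_lit 474) (nat_lit 195))) (XT.nd (nat_lit 78) (nat_lit 228) (nat_lit 0) (XT.lf (nat_lit 0) (nat_lit 489417838451) (nat_lit 76) (nat_lit 230818542983) (nat_lit 152) (nat_lit 88802498270) (nat_lit 71)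 (nat_lit 5) (nat_lit 72) (nat_lit 5) (nat_lit 73) (nat_lit 4) (nat_lit 532) (nat_lit 474) (nat_lit 194)) (XT.lf (nat_lit 0) (nat_lit 145044609092) (nat_lit 228) (nat_lit 642722168820) (nat_lit 76) (nat_lit 47788951234) (nat_lit 68) (nat_lit 5) (nat_lit 71) (nat_lit 5) (nat_lit 69) (nat_lit 4) (nat_lit 533) (nat_lit 474) (nat_lit 193)))))) (XT.nd (nat_lit 624) (nat_lit 304) (nat_lit 0) (XT.nd (nat_lit 312) (nat_lit 304) (nat_lit 0) (XT.nd (nat_lit 156) (nat_lit 152) (nat_lit 0) (XT.nd (nat_lit 78) (nat_lit 76) (nat_lit 0) (XT.lf (nat_lit 0) (nat_lit 396885278304) (nat_lit 228) (nat_lit 126448846682) (nat_lit 76) (nat_lit 339527229508) (nat_lit 68) (nat_lit 5) (nat_lit 71) (nat_lit 5) (nat_lit 69) (nat_lit 4) (nat_lit 534) (nat_lit 474) (nat_lit 192)) (XT.lf (nat_lit 0) (nat_lit 429380957146) (nat_lit 76) (nat_lit 238640833940) (nat_lit 152) (nat_lit 223175279515) (nat_lit 67) (nat_lit 5) (nat_lit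 68) (nat_lit 5) (nat_lit 69) (nat_lit 4) (nat_lit 535) (nat_lit 474) (nat_lit 191))) (XT.nd (nat_lit 78) (nat_lit 0) (nat_lit 0) (XT.lf (nat_lit 0) (nat_lit 35484548211) (nat_lit 152) (nat_lit 822555494930) (nat_lit 76) (nat_lit 62647947536) (nat_lit 65) (nat_lit 5) (nat_lit 67) (nat_lit 5) (nat_lit 66) (nat_lit 4) (nat_lit 536) (nat_lit 474) (nat_lit 190)) (XT.lf (nat_lit 0) (nat_lit 311438623310) (nat_lit 152) (nat_lit 256849681902) (nat_lit 76) (nat_lit 382589150545) (nat_lit 65) (nat_lit 5) (nat_lit 67) (nat_lit 5) (nat_lit 66) (nat_lit 4) (nat_lit 537) (nat_lit 474) (nat_lit 189)))) (XT.nd (nat_lit 156) (nat_lit 228) (nat_lit 0) (XT.nd (nat_lit 78) (nat_lit 0) (nat_lit 0) (XT.lf (nat_lit 0) (nat_lit 348288783871) (nat_lit 76) (nat_lit 258339353950) (nat_lit 152) (nat_lit 375676369487) (nat_lit 64) (nat_lit 5) (nat_lit 65) (nat_lit 5) (nat_lit 66) (nat_lit 4) (nat_lit 538) (nat_lit 474) (nat_lit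 188)) (XT.lf (nat_lit 0) (nat_lit 922046011933) (nat_lit 152) (nat_lit 23603096508) (nat_lit 0) (nat_lit 69380358805) (nat_lit 64) (nat_lit 5) (nat_lit 66) (nat_lit 4) (nat_lit 64) (nat_lit 4) (nat_lit 539) (nat_lit 474) (nat_lit 187))) (XT.nd (nat_lit 78) (nat_lit 76) (nat_lit 0) (XT.lf (nat_lit 0) (nat_lit 211675029995) (nat_lit 152) (nat_lit 418731875305) (nat_lit 76) (nat_lit 418106880501) (nat_lit 62) (nat_lit 5) (nat_lit 64) (nat_lit 5) (nat_lit 63) (nat_lit 4) (nat_lit 540) (nat_lit 474) (nat_lit 186)) (XT.lf (nat_lit 0) (nat_lit 239125878167) (nat_lit 76) (nat_lit 293455388676) (nat_lit 152) (nat_lit 550807853441) (nat_lit 61) (nat_lit 5) (nat_lit 62) (nat_lit 5) (nat_lit 63) (nat_lit 4) (nat_lit 541) (nat_lit 474) (nat_lit 185))))) (XT.nd (nat_lit 312) (nat_lit 76) (nat_lit 0) (XT.nd (nat_lit 156) (nat_lit 76) (nat_lit 0) (XT.nd (nat_lit 78) (nat_lit 152) (nat_lit 0) (XT.lf (nat_lit 0)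 (nat_lit 877682602967) (nat_lit 152) (nat_lit 176298144663) (nat_lit 0) (nat_lit 65619984489) (nat_lit 61) (nat_lit 5) (nat_lit 63) (nat_lit 4) (nat_lit 61) (nat_lit 4) (nat_lit 542) (nat_lit 474) (nat_lit 184)) (XT.lf (nat_lit 0) (nat_lit 93196595808) (nat_lit 152) (nat_lit 621009624770) (nat_lit 76) (nat_lit 442681449481) (nat_lit 59) (nat_lit 5) (nat_lit 61) (nat_lit 5) (nat_lit 60) (nat_lit 4) (nat_lit 543) (nat_lit 474) (nat_lit 183))) (XT.nd (nat_lit 78) (nat_lit 0) (nat_lit 0) (XT.lf (nat_lit 0) (nat_lit 92850993566) (nat_lit 76) (nat_lit 348570306981) (nat_lit 152) (nat_lit 754195146848) (nat_lit 58) (nat_lit 5) (nat_lit 59) (nat_lit 5) (nat_lit 60) (nat_lit 4) (nat_lit 544) (nat_lit 474) (nat_lit 182)) (XT.lf (nat_lit 0) (nat_lit 818298597152) (nat_lit 152) (nat_lit 372515446875) (nat_lit 0) (nat_lit 44905551741) (nat_lit 58) (nat_lit 5) (nat_lit 60) (nat_lit 4) (nat_lit 58) (nat_lit 4)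 (nat_lit 545) (nat_lit 474) (nat_lit 181)))) (XT.nd (nat_lit 57018) (nat_lit 0) (nat_lit 8056) (XT.nd (nat_lit 56940) (nat_lit 0) (nat_lit 8056) (XT.lf (nat_lit 0) (nat_lit 401379393249) (nat_lit 76) (nat_lit 824621265745) (nat_lit 76) (nat_lit 51228197545) (nat_lit 57) (nat_lit 4) (nat_lit 58) (nat_lit 5) (nat_lit 58) (nat_lit 4) (nat_lit 546) (nat_lit 474) (nat_lit 180)) (XT.lf (nat_lit 0) (nat_lit 34899568496) (nat_lit 836) (nat_lit 21954100376) (nat_lit 836) (nat_lit 21954100376) (nat_lit 163) (nat_lit 3) (nat_lit 174) (nat_lit 3) (nat_lit 174) (nat_lit 5) (nat_lit 475) (nat_lit 475) (nat_lit 250))) (XT.nd (nat_lit 78) (nat_lit 0) (nat_lit 76) (XT.lf (nat_lit 76) (nat_lit 35723649928) (nat_lit 0) (nat_lit 36380802965) (nat_lit 836) (nat_lit 89423456993) (nat_lit 164) (nat_lit 5) (nat_lit 163) (nat_lit 3) (nat_lit 174) (nat_lit 5) (nat_lit 476) (nat_lit 475) (nat_lit 249)) (XT.lf (nat_lit 0)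 (nat_lit 75980307242) (nat_lit 760) (nat_lit 45449164430) (nat_lit 836) (nat_lit 44133664552) (nat_lit 164) (nat_lit 5) (nat_lit 174) (nat_lit 5) (nat_lit 175) (nat_lit 5) (nat_lit 477) (nat_lit 475) (nat_lit 248)))))))
noncomputable def xc449 : XT := (XT.nd (nat_lit 1248) (nat_lit 2660) (nat_lit 0) (XT.nd (nat_lit 624) (nat_lit 2052) (nat_lit 0) (XT.nd (nat_lit 312) (nat_lit 0) (nat_lit 152) (XT.nd (nat_lit 156) (nat_lit 0) (nat_lit 76) (XT.nd (nat_lit 78) (nat_lit 0) (nat_lit 76) (XT.lf (nat_lit 76) (nat_lit 39594454267) (nat_lit 0) (nat_lit 41669928883) (nat_lit 836) (nat_lit 88475019299) (nat_lit 165) (nat_lit 5) (nat_lit 164) (nat_lit 5) (nat_lit 175) (nat_lit 5) (nat_lit 478) (nat_lit 475) (nat_lit 247)) (XT.lf (nat_lit 0) (nat_lit 88251782491) (nat_lit 760) (nat_lit 44287519569) (nat_lit 836) (nat_lit 41513223956) (nat_lit 165) (nat_lit 5) (nat_lit 175) (nat_lit 5) (nat_lit 176) (nat_lit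 5) (nat_lit 479) (nat_lit 475) (nat_lit 246))) (XT.nd (nat_lit 78) (nat_lit 0) (nat_lit 76) (XT.lf (nat_lit 76) (nat_lit 46673410539) (nat_lit 0) (nat_lit 50326813622) (nat_lit 836) (nat_lit 81510497993) (nat_lit 166) (nat_lit 5) (nat_lit 165) (nat_lit 5) (nat_lit 176) (nat_lit 5) (nat_lit 480) (nat_lit 475) (nat_lit 245)) (XT.lf (nat_lit 0) (nat_lit 107510279256) (nat_lit 760) (nat_lit 40008778453) (nat_lit 836) (nat_lit 35606560833) (nat_lit 166) (nat_lit 5) (nat_lit 176) (nat_lit 5) (nat_lit 177) (nat_lit 5) (nat_lit 481) (nat_lit 475) (nat_lit 244)))) (XT.nd (nat_lit 156) (nat_lit 0) (nat_lit 76) (XT.nd (nat_lit 78) (nat_lit 0) (nat_lit 76) (XT.lf (nat_lit 76) (nat_lit 57423979487) (nat_lit 0) (nat_lit 62843305240) (nat_lit 836) (nat_lit 67617902650) (nat_lit 167) (nat_lit 5) (nat_lit 166) (nat_lit 5) (nat_lit 177) (nat_lit 5) (nat_lit 482) (nat_lit 475) (nat_lit 243)) (XT.lf (nat_lit 0) (nat_lit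 134757657005) (nat_lit 760) (nat_lit 32149644472) (nat_lit 836) (nat_lit 25920657361) (nat_lit 167) (nat_lit 5) (nat_lit 177) (nat_lit 5) (nat_lit 178) (nat_lit 5) (nat_lit 483) (nat_lit 475) (nat_lit 242))) (XT.nd (nat_lit 78) (nat_lit 0) (nat_lit 76) (XT.lf (nat_lit 76) (nat_lit 72363256713) (nat_lit 0) (nat_lit 79769182403) (nat_lit 836) (nat_lit 45777435205) (nat_lit 168) (nat_lit 5) (nat_lit 167) (nat_lit 5) (nat_lit 178) (nat_lit 5) (nat_lit 484) (nat_lit 475) (nat_lit 241)) (XT.lf (nat_lit 0) (nat_lit 171112313491) (nat_lit 760) (nat_lit 20192798004) (nat_lit 76) (nat_lit 11903956433) (nat_lit 168) (nat_lit 5) (nat_lit 178) (nat_lit 5) (nat_lit 169) (nat_lit 5) (nat_lit 485) (nat_lit 475) (nat_lit 240))))) (XT.nd (nat_lit 312) (nat_lit 684) (nat_lit 0) (XT.nd (nat_lit 156) (nat_lit 836) (nat_lit 0) (XT.nd (nat_lit 78) (nat_lit 76) (nat_lit 0) (XT.lf (nat_lit 0) (nat_lit 92067663231) (nat_lit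 760) (nat_lit 101718533989) (nat_lit 836) (nat_lit 14849773222) (nat_lit 158) (nat_lit 5) (nat_lit 168) (nat_lit 5) (nat_lit 169) (nat_lit 5) (nat_lit 486) (nat_lit 475) (nat_lit 239)) (XT.lf (nat_lit 0) (nat_lit 3502703687) (nat_lit 836) (nat_lit 3731520461) (nat_lit 76) (nat_lit 207080075759) (nat_lit 157) (nat_lit 5) (nat_lit 168) (nat_lit 5) (nat_lit 158) (nat_lit 5) (nat_lit 487) (nat_lit 475) (nat_lit 238))) (XT.nd (nat_lit 78) (nat_lit 380) (nat_lit 0) (XT.lf (nat_lit 0) (nat_lit 25590726950) (nat_lit 532) (nat_lit 103352704285) (nat_lit 76) (nat_lit 91155094058) (nat_lit 151) (nat_lit 5) (nat_lit 158) (nat_lit 5) (nat_lit 152) (nat_lit 5) (nat_lit 488) (nat_lit 475) (nat_lit 237)) (XT.lf (nat_lit 0) (nat_lit 17653056752) (nat_lit 380) (nat_lit 31588433788) (nat_lit 456) (nat_lit 176907554459) (nat_lit 146) (nat_lit 5) (nat_lit 151) (nat_lit 5) (nat_lit 152) (nat_lit 5) (nat_lit 489) (nat_lit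 475) (nat_lit 236)))) (XT.nd (nat_lit 156) (nat_lit 304) (nat_lit 0) (XT.nd (nat_lit 78) (nat_lit 380) (nat_lit 0) (XT.lf (nat_lit 0) (nat_lit 76956517605) (nat_lit 456) (nat_lit 85248891436) (nat_lit 76) (nat_lit 70152595389) (nat_lit 146) (nat_lit 5) (nat_lit 152) (nat_lit 5) (nat_lit 147) (nat_lit 5) (nat_lit 490) (nat_lit 475) (nat_lit 235)) (XT.lf (nat_lit 0) (nat_lit 45085641987) (nat_lit 380) (nat_lit 62193318769) (nat_lit 456) (nat_lit 131537367848) (nat_lit 141) (nat_lit 5) (nat_lit 146) (nat_lit 5) (nat_lit 147) (nat_lit 5) (nat_lit 491) (nat_lit 475) (nat_lit 234))) (XT.nd (nat_lit 78) (nat_lit 304) (nat_lit 0) (XT.lf (nat_lit 0) (nat_lit 141253366575) (nat_lit 456) (nat_lit 61321129448) (nat_lit 76) (nat_lit 42916280943) (nat_lit 141) (nat_lit 5) (nat_lit 147) (nat_lit 5) (nat_lit 142) (nat_lit 5) (nat_lit 492) (nat_lit 475) (nat_lit 233)) (XT.lf (nat_lit 0) (nat_lit 79224940675) (nat_lit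 304) (nat_lit 99957953297) (nat_lit 380) (nat_lit 73203233716) (nat_lit 137) (nat_lit 5) (nat_lit 141) (nat_lit 5) (nat_lit 142) (nat_lit 5) (nat_lit 493) (nat_lit 475) (nat_lit 232)))))) (XT.nd (nat_lit 624) (nat_lit 1368) (nat_lit 0) (XT.nd (nat_lit 312) (nat_lit 608) (nat_lit 0) (XT.nd (nat_lit 156) (nat_lit 380) (nat_lit 0) (XT.nd (nat_lit 78) (nat_lit 304) (nat_lit 0) (XT.lf (nat_lit 0) (nat_lit 220185957721) (nat_lit 380) (nat_lit 30785812174) (nat_lit 76) (nat_lit 8595623056) (nat_lit 137) (nat_lit 5) (nat_lit 142) (nat_lit 5) (nat_lit 138) (nat_lit 5) (nat_lit 494) (nat_lit 475) (nat_lit 231)) (XT.lf (nat_lit 0) (nat_lit 120940432644) (nat_lit 304) (nat_lit 145825537714) (nat_lit 380) (nat_lit 165411340) (nat_lit 133) (nat_lit 5) (nat_lit 137) (nat_lit 5) (nat_lit 138) (nat_lit 5) (nat_lit 495) (nat_lit 475) (nat_lit 230))) (XT.nd (nat_lit 78) (nat_lit 0) (nat_lit 0) (XT.lf (nat_lit 0)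 (nat_lit 6234914352) (nat_lit 304) (nat_lit 34091064927) (nat_lit 380) (nat_lit 234274216108) (nat_lit 128) (nat_lit 5) (nat_lit 132) (nat_lit 5) (nat_lit 133) (nat_lit 5) (nat_lit 496) (nat_lit 475) (nat_lit 229)) (XT.lf (nat_lit 0) (nat_lit 86648719748) (nat_lit 380) (nat_lit 112731076186) (nat_lit 76) (nat_lit 83081901287) (nat_lit 128) (nat_lit 5) (nat_lit 133) (nat_lit 5) (nat_lit 129) (nat_lit 5) (nat_lit 497) (nat_lit 475) (nat_lit 228)))) (XT.nd (nat_lit 156) (nat_lit 304) (nat_lit 0) (XT.nd (nat_lit 78) (nat_lit 0) (nat_lit 0) (XT.lf (nat_lit 0) (nat_lit 51783265491) (nat_lit 304) (nat_lit 84871611808) (nat_lit 380) (nat_lit 153993032848) (nat_lit 124) (nat_lit 5) (nat_lit 128) (nat_lit 5) (nat_lit 129) (nat_lit 5) (nat_lit 498) (nat_lit 475) (nat_lit 227)) (XT.lf (nat_lit 0) (nat_lit 191653825258) (nat_lit 380) (nat_lit 71294373639) (nat_lit 76) (nat_lit 36170610701) (nat_lit 124) (nat_lit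 5) (nat_lit 129) (nat_lit 5) (nat_lit 125) (nat_lit 5) (nat_lit 499) (nat_lit 475) (nat_lit 226))) (XT.nd (nat_lit 78) (nat_lit 76) (nat_lit 0) (XT.lf (nat_lit 0) (nat_lit 106677324988) (nat_lit 228) (nat_lit 145782198810) (nat_lit 304) (nat_lit 55400890067) (nat_lit 121) (nat_lit 5) (nat_lit 124) (nat_lit 5) (nat_lit 125) (nat_lit 5) (nat_lit 500) (nat_lit 475) (nat_lit 225)) (XT.lf (nat_lit 0) (nat_lit 517020678) (nat_lit 304) (nat_lit 20964369414) (nat_lit 76) (nat_lit 295496924314) (nat_lit 120) (nat_lit 5) (nat_lit 124) (nat_lit 5) (nat_lit 121) (nat_lit 5) (nat_lit 501) (nat_lit 475) (nat_lit 224))))) (XT.nd (nat_lit 312) (nat_lit 608) (nat_lit 0) (XT.nd (nat_lit 156) (nat_lit 228) (nat_lit 0) (XT.nd (nat_lit 78) (nat_lit 228) (nat_lit 0) (XT.lf (nat_lit 0) (nat_lit 61829709983) (nat_lit 380) (nat_lit 155242642562) (nat_lit 76) (nat_lit 109211311057) (nat_lit 116) (nat_lit 5) (nat_lit 121)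 (nat_lit 5) (nat_lit 117) (nat_lit 5) (nat_lit 502) (nat_lit 475) (nat_lit 223)) (XT.lf (nat_lit 0) (nat_lit 38202651050) (nat_lit 228) (nat_lit 89314787681) (nat_lit 304) (nat_lit 208471371282) (nat_lit 113) (nat_lit 5) (nat_lit 116) (nat_lit 5) (nat_lit 117) (nat_lit 5) (nat_lit 503) (nat_lit 475) (nat_lit 222))) (XT.nd (nat_lit 78) (nat_lit 228) (nat_lit 0) (XT.lf (nat_lit 0) (nat_lit 199861635214) (nat_lit 304) (nat_lit 100080994951) (nat_lit 76) (nat_lit 46067979516) (nat_lit 113) (nat_lit 5) (nat_lit 117) (nat_lit 5) (nat_lit 114) (nat_lit 5) (nat_lit 504) (nat_lit 475) (nat_lit 221)) (XT.lf (nat_lit 0) (nat_lit 109551499026) (nat_lit 228) (nat_lit 169446067837) (nat_lit 304) (nat_lit 77377206205) (nat_lit 110) (nat_lit 5) (nat_lit 113) (nat_lit 5) (nat_lit 114) (nat_lit 5) (nat_lit 505) (nat_lit 475) (nat_lit 220)))) (XT.nd (nat_lit 156) (nat_lit 380) (nat_lit 0) (XT.nd (nat_lit 78) (nat_lit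 228) (nat_lit 0) (XT.lf (nat_lit 0) (nat_lit 333140121685) (nat_lit 228) (nat_lit 30645037515) (nat_lit 304) (nat_lit 3387242222) (nat_lit 110) (nat_lit 5) (nat_lit 113) (nat_lit 5) (nat_lit 114) (nat_lit 5) (nat_lit 506) (nat_lit 475) (nat_lit 219)) (XT.lf (nat_lit 0) (nat_lit 76825890384) (nat_lit 228) (nat_lit 185703746021) (nat_lit 76) (nat_lit 115677181223) (nat_lit 107) (nat_lit 5) (nat_lit 110) (nat_lit 5) (nat_lit 108) (nat_lit 5) (nat_lit 507) (nat_lit 475) (nat_lit 218))) (XT.nd (nat_lit 78) (nat_lit 152) (nat_lit 0) (XT.lf (nat_lit 0) (nat_lit 42577900519) (nat_lit 228) (nat_lit 120110831867) (nat_lit 304) (nat_lit 227013801516) (nat_lit 104) (nat_lit 5) (nat_lit 107) (nat_lit 5) (nat_lit 108) (nat_lit 5) (nat_lit 508) (nat_lit 475) (nat_lit 217)) (XT.nd (nat_lit 78) (nat_lit 152) (nat_lit 0) (XT.lf (nat_lit 0) (nat_lit 256500671806) (nat_lit 304) (nat_lit 113406049493) (nat_lit 76)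 (nat_lit 31683516927) (nat_lit 104) (nat_lit 5) (nat_lit 108) (nat_lit 5) (nat_lit 105) (nat_lit 5) (nat_lit 509) (nat_lit 475) (nat_lit 216)) (XT.lf (nat_lit 0) (nat_lit 134328713322) (nat_lit 152) (nat_lit 224740722692) (nat_lit 228) (nat_lit 54799580365) (nat_lit 102) (nat_lit 5) (nat_lit 104) (nat_lit 5) (nat_lit 105) (nat_lit 5) (nat_lit 510) (nat_lit 475) (nat_lit 215))))))))
noncomputable def xc450 : XT := (XT.nd (nat_lit 1248) (nat_lit 1368) (nat_lit 0) (XT.nd (nat_lit 624) (nat_lit 760) (nat_lit 0) (XT.nd (nat_lit 312) (nat_lit 532) (nat_lit 0) (XT.nd (nat_lit 156) (nat_lit 152) (nat_lit 0) (XT.nd (nat_lit 78) (nat_lit 228) (nat_lit 0) (XT.lf (nat_lit 0) (nat_lit 40676520035) (nat_lit 228) (nat_lit 28934439929) (nat_lit 76) (nat_lit 357021942950) (nat_lit 101) (nat_lit 5) (nat_lit 104) (nat_lit 5) (nat_lit 102) (nat_lit 5) (nat_lit 511) (nat_lit 475) (nat_lit 214)) (XT.lf (nat_lit 0) (nat_lit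 144380412507) (nat_lit 304) (nat_lit 200317275526) (nat_lit 76) (nat_lit 95027597441) (nat_lit 98) (nat_lit 5) (nat_lit 102) (nat_lit 5) (nat_lit 99) (nat_lit 5) (nat_lit 512) (nat_lit 475) (nat_lit 213))) (XT.nd (nat_lit 78) (nat_lit 0) (nat_lit 0) (XT.lf (nat_lit 0) (nat_lit 69809399608) (nat_lit 152) (nat_lit 186189188997) (nat_lit 228) (nat_lit 197337244109) (nat_lit 96) (nat_lit 5) (nat_lit 98) (nat_lit 5) (nat_lit 99) (nat_lit 5) (nat_lit 513) (nat_lit 475) (nat_lit 212)) (XT.lf (nat_lit 0) (nat_lit 360396897905) (nat_lit 152) (nat_lit 16193200173) (nat_lit 228) (nat_lit 90867188013) (nat_lit 96) (nat_lit 5) (nat_lit 98) (nat_lit 5) (nat_lit 99) (nat_lit 5) (nat_lit 514) (nat_lit 475) (nat_lit 211)))) (XT.nd (nat_lit 156) (nat_lit 304) (nat_lit 0) (XT.nd (nat_lit 78) (nat_lit 0) (nat_lit 0) (XT.lf (nat_lit 0) (nat_lit 25794302424) (nat_lit 228) (nat_lit 295758952363) (nat_lit 76) (nat_lit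 160438336080) (nat_lit 93) (nat_lit 5) (nat_lit 96) (nat_lit 5) (nat_lit 94) (nat_lit 5) (nat_lit 515) (nat_lit 475) (nat_lit 210)) (XT.lf (nat_lit 0) (nat_lit 147343395646) (nat_lit 228) (nat_lit 1039627605) (nat_lit 76) (nat_lit 348689693249) (nat_lit 93) (nat_lit 5) (nat_lit 96) (nat_lit 5) (nat_lit 94) (nat_lit 5) (nat_lit 516) (nat_lit 475) (nat_lit 209))) (XT.nd (nat_lit 78) (nat_lit 152) (nat_lit 0) (XT.lf (nat_lit 0) (nat_lit 280548076514) (nat_lit 228) (nat_lit 194649700816) (nat_lit 76) (nat_lit 37431214437) (nat_lit 91) (nat_lit 5) (nat_lit 94) (nat_lit 5) (nat_lit 92) (nat_lit 5) (nat_lit 517) (nat_lit 475) (nat_lit 208)) (XT.lf (nat_lit 0) (nat_lit 125610502227) (nat_lit 152) (nat_lit 299213984098) (nat_lit 228) (nat_lit 103918019729) (nat_lit 89) (nat_lit 5) (nat_lit 91) (nat_lit 5) (nat_lit 92) (nat_lit 5) (nat_lit 518) (nat_lit 475) (nat_lit 207))))) (XT.nd (nat_lit 312) (nat_lit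 380) (nat_lit 0) (XT.nd (nat_lit 156) (nat_lit 152) (nat_lit 0) (XT.nd (nat_lit 78) (nat_lit 152) (nat_lit 0) (XT.lf (nat_lit 0) (nat_lit 33022419468) (nat_lit 228) (nat_lit 77388048336) (nat_lit 76) (nat_lit 435059774926) (nat_lit 88) (nat_lit 5) (nat_lit 91) (nat_lit 5) (nat_lit 89) (nat_lit 5) (nat_lit 519) (nat_lit 475) (nat_lit 206)) (XT.lf (nat_lit 0) (nat_lit 179027247835) (nat_lit 228) (nat_lit 292572484711) (nat_lit 76) (nat_lit 91063970284) (nat_lit 86) (nat_lit 5) (nat_lit 89) (nat_lit 5) (nat_lit 87) (nat_lit 5) (nat_lit 520) (nat_lit 475) (nat_lit 205))) (XT.nd (nat_lit 78) (nat_lit 0) (nat_lit 0) (XT.lf (nat_lit 0) (nat_lit 56971773137) (nat_lit 152) (nat_lit 279392092229) (nat_lit 228) (nat_lit 244151393183) (nat_lit 84) (nat_lit 5) (nat_lit 86) (nat_lit 5) (nat_lit 87) (nat_lit 5) (nat_lit 521) (nat_lit 475) (nat_lit 204)) (XT.lf (nat_lit 0) (nat_lit 434150634107) (nat_lit 152)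 (nat_lit 72371498738) (nat_lit 228) (nat_lit 92489518256) (nat_lit 84) (nat_lit 5) (nat_lit 86) (nat_lit 5) (nat_lit 87) (nat_lit 5) (nat_lit 522) (nat_lit 475) (nat_lit 203)))) (XT.nd (nat_lit 156) (nat_lit 228) (nat_lit 0) (XT.nd (nat_lit 78) (nat_lit 0) (nat_lit 0) (XT.lf (nat_lit 0) (nat_lit 70354082478) (nat_lit 152) (nat_lit 402867077926) (nat_lit 76) (nat_lit 144872829727) (nat_lit 82) (nat_lit 5) (nat_lit 84) (nat_lit 5) (nat_lit 83) (nat_lit 5) (nat_lit 523) (nat_lit 475) (nat_lit 202)) (XT.lf (nat_lit 0) (nat_lit 242255762563) (nat_lit 152) (nat_lit 20696480267) (nat_lit 76) (nat_lit 374901184521) (nat_lit 82) (nat_lit 5) (nat_lit 84) (nat_lit 5) (nat_lit 83) (nat_lit 5) (nat_lit 524) (nat_lit 475) (nat_lit 201))) (XT.nd (nat_lit 78) (nat_lit 76) (nat_lit 0) (XT.lf (nat_lit 0) (nat_lit 393166365202) (nat_lit 152) (nat_lit 35724555971) (nat_lit 228) (nat_lit 229402995534) (nat_lit 80)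 (nat_lit 5) (nat_lit 82) (nat_lit 5) (nat_lit 83) (nat_lit 5) (nat_lit 525) (nat_lit 475) (nat_lit 200)) (XT.lf (nat_lit 0) (nat_lit 150340734105) (nat_lit 76) (nat_lit 480387844292) (nat_lit 152) (nat_lit 48734315101) (nat_lit 79) (nat_lit 5) (nat_lit 80) (nat_lit 5) (nat_lit 81) (nat_lit 4) (nat_lit 526) (nat_lit 475) (nat_lit 199)))))) (XT.nd (nat_lit 624) (nat_lit 532) (nat_lit 0) (XT.nd (nat_lit 312) (nat_lit 456) (nat_lit 0) (XT.nd (nat_lit 156) (nat_lit 152) (nat_lit 0) (XT.nd (nat_lit 78) (nat_lit 152) (nat_lit 0) (XT.lf (nat_lit 0) (nat_lit 141605234961) (nat_lit 152) (nat_lit 108538972054) (nat_lit 76) (nat_lit 451178602716) (nat_lit 78) (nat_lit 5) (nat_lit 80) (nat_lit 5) (nat_lit 79) (nat_lit 5) (nat_lit 527) (nat_lit 475) (nat_lit 198)) (XT.lf (nat_lit 0) (nat_lit 343260884865) (nat_lit 152) (nat_lit 1922317241) (nat_lit 228) (nat_lit 378784611903) (nat_lit 76) (nat_lit 5) (nat_lit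 78) (nat_lit 5) (nat_lit 79) (nat_lit 5) (nat_lit 528) (nat_lit 475) (nat_lit 197))) (XT.nd (nat_lit 78) (nat_lit 76) (nat_lit 0) (XT.lf (nat_lit 0) (nat_lit 72000889096) (nat_lit 76) (nat_lit 493970774467) (nat_lit 152) (nat_lit 181421825141) (nat_lit 75) (nat_lit 5) (nat_lit 76) (nat_lit 5) (nat_lit 77) (nat_lit 4) (nat_lit 529) (nat_lit 475) (nat_lit 196)) (XT.lf (nat_lit 0) (nat_lit 31567682074) (nat_lit 152) (nat_lit 211646911905) (nat_lit 76) (nat_lit 528426473861) (nat_lit 74) (nat_lit 5) (nat_lit 76) (nat_lit 5) (nat_lit 75) (nat_lit 5) (nat_lit 530) (nat_lit 475) (nat_lit 195)))) (XT.nd (nat_lit 156) (nat_lit 304) (nat_lit 0) (XT.nd (nat_lit 78) (nat_lit 0) (nat_lit 0) (XT.lf (nat_lit 0) (nat_lit 253936051812) (nat_lit 228) (nat_lit 515851232034) (nat_lit 76) (nat_lit 26923718164) (nat_lit 72) (nat_lit 5) (nat_lit 75) (nat_lit 5) (nat_lit 73) (nat_lit 4) (nat_lit 531) (nat_lit 475) (nat_lit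 194)) (XT.lf (nat_lit 0) (nat_lit 495053036891) (nat_lit 228) (nat_lit 21561467466) (nat_lit 76) (nat_lit 306038418691) (nat_lit 72) (nat_lit 5) (nat_lit 75) (nat_lit 5) (nat_lit 73) (nat_lit 4) (nat_lit 532) (nat_lit 475) (nat_lit 193))) (XT.nd (nat_lit 78) (nat_lit 228) (nat_lit 0) (XT.lf (nat_lit 0) (nat_lit 513890434908) (nat_lit 76) (nat_lit 242358677400) (nat_lit 152) (nat_lit 93241665774) (nat_lit 71) (nat_lit 5) (nat_lit 72) (nat_lit 5) (nat_lit 73) (nat_lit 4) (nat_lit 533) (nat_lit 475) (nat_lit 192)) (XT.lf (nat_lit 0) (nat_lit 152297761293) (nat_lit 228) (nat_lit 674856537034) (nat_lit 76) (nat_lit 50179171176) (nat_lit 68) (nat_lit 5) (nat_lit 71) (nat_lit 5) (nat_lit 69) (nat_lit 4) (nat_lit 534) (nat_lit 475) (nat_lit 191))))) (XT.nd (nat_lit 312) (nat_lit 304) (nat_lit 0) (XT.nd (nat_lit 156) (nat_lit 152) (nat_lit 0) (XT.nd (nat_lit 78) (nat_lit 76) (nat_lit 0) (XT.lf (nat_lit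 0) (nat_lit 416730420072) (nat_lit 228) (nat_lit 132769631657) (nat_lit 76) (nat_lit 356504326583) (nat_lit 68) (nat_lit 5) (nat_lit 71) (nat_lit 5) (nat_lit 69) (nat_lit 4) (nat_lit 535) (nat_lit 475) (nat_lit 190)) (XT.lf (nat_lit 0) (nat_lit 450851635631) (nat_lit 76) (nat_lit 250572106519) (nat_lit 152) (nat_lit 234333138894) (nat_lit 67) (nat_lit 5) (nat_lit 68) (nat_lit 5) (nat_lit 69) (nat_lit 4) (nat_lit 536) (nat_lit 475) (nat_lit 189))) (XT.nd (nat_lit 78) (nat_lit 0) (nat_lit 0) (XT.lf (nat_lit 0) (nat_lit 37259647136) (nat_lit 152) (nat_lit 863681605942) (nat_lit 76) (nat_lit 65781093544) (nat_lit 65) (nat_lit 5) (nat_lit 67) (nat_lit 5) (nat_lit 66) (nat_lit 4) (nat_lit 537) (nat_lit 475) (nat_lit 188)) (XT.lf (nat_lit 0) (nat_lit 327011384490) (nat_lit 152) (nat_lit 269690581488) (nat_lit 76) (nat_lit 401719321055) (nat_lit 65) (nat_lit 5) (nat_lit 67) (nat_lit 5) (nat_lit 66) (nat_lit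 4) (nat_lit 538) (nat_lit 475) (nat_lit 187)))) (XT.nd (nat_lit 156) (nat_lit 228) (nat_lit 0) (XT.nd (nat_lit 78) (nat_lit 0) (nat_lit 0) (XT.lf (nat_lit 0) (nat_lit 365704782017) (nat_lit 76) (nat_lit 271255577525) (nat_lit 152) (nat_lit 394459332380) (nat_lit 64) (nat_lit 5) (nat_lit 65) (nat_lit 5) (nat_lit 66) (nat_lit 4) (nat_lit 539) (nat_lit 475) (nat_lit 186)) (XT.lf (nat_lit 0) (nat_lit 968149099622) (nat_lit 152) (nat_lit 24781738871) (nat_lit 0) (nat_lit 72850062750) (nat_lit 64) (nat_lit 5) (nat_lit 66) (nat_lit 4) (nat_lit 64) (nat_lit 4) (nat_lit 540) (nat_lit 475) (nat_lit 185))) (XT.nd (nat_lit 78) (nat_lit 76) (nat_lit 0) (XT.lf (nat_lit 0) (nat_lit 222259567019) (nat_lit 152) (nat_lit 439666955020) (nat_lit 76) (nat_lit 439012913767) (nat_lit 62) (nat_lit 5) (nat_lit 64) (nat_lit 5) (nat_lit 63) (nat_lit 4) (nat_lit 541) (nat_lit 475) (nat_lit 184)) (XT.nd (nat_lit 78) (nat_lit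 0) (nat_lit 0) (XT.lf (nat_lit 0) (nat_lit 251083661706) (nat_lit 76) (nat_lit 308127439855) (nat_lit 152) (nat_lit 578347436160) (nat_lit 61) (nat_lit 5) (nat_lit 62) (nat_lit 5) (nat_lit 63) (nat_lit 4) (nat_lit 542) (nat_lit 475) (nat_lit 183)) (XT.lf (nat_lit 0) (nat_lit 921567478439) (nat_lit 152) (nat_lit 185111607140) (nat_lit 0) (nat_lit 68901645872) (nat_lit 61) (nat_lit 5) (nat_lit 63) (nat_lit 4) (nat_lit 61) (nat_lit 4) (nat_lit 543) (nat_lit 475) (nat_lit 182))))))))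
noncomputable def xc451 : XT := (XT.nd (nat_lit 58188) (nat_lit 0) (nat_lit 4180) (XT.nd (nat_lit 57564) (nat_lit 0) (nat_lit 7524) (XT.nd (nat_lit 57252) (nat_lit 0) (nat_lit 7980) (XT.nd (nat_lit 156) (nat_lit 0) (nat_lit 0) (XT.nd (nat_lit 78) (nat_lit 76) (nat_lit 0) (XT.lf (nat_lit 0) (nat_lit 97857169631) (nat_lit 152) (nat_lit 652058659946) (nat_lit 76) (nat_lit 464816186775) (nat_lit 59) (nat_lit 5) (nat_lit 61) (nat_lit 5) (nat_lit 60) (nat_lit 4) (nat_lit 544) (nat_lit 475) (nat_lit 181)) (XT.lf (nat_lit 0) (nat_lit 97494965983) (nat_lit 76) (nat_lit 365998130407) (nat_lit 152) (nat_lit 791904136827) (nat_lit 58) (nat_lit 5) (nat_lit 59) (nat_lit 5) (nat_lit 60) (nat_lit 4) (nat_lit 545) (nat_lit 475) (nat_lit 180))) (XT.nd (nat_lit 57018) (nat_lit 0) (nat_lit 7980) (XT.lf (nat_lit 0) (nat_lit 859214233313) (nat_lit 152) (nat_lit 391139839711) (nat_lit 0) (nat_lit 47151467211) (nat_lit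 58) (nat_lit 5) (nat_lit 60) (nat_lit 4) (nat_lit 58) (nat_lit 4) (nat_lit 546) (nat_lit 475) (nat_lit 179)) (XT.lf (nat_lit 0) (nat_lit 36647097651) (nat_lit 836) (nat_lit 23050466163) (nat_lit 836) (nat_lit 23050466163) (nat_lit 163) (nat_lit 3) (nat_lit 174) (nat_lit 3) (nat_lit 174) (nat_lit 5) (nat_lit 476) (nat_lit 476) (nat_lit 248)))) (XT.nd (nat_lit 156) (nat_lit 0) (nat_lit 76) (XT.nd (nat_lit 78) (nat_lit 0) (nat_lit 76) (XT.lf (nat_lit 76) (nat_lit 37512467687) (nat_lit 0) (nat_lit 38202107529) (nat_lit 836) (nat_lit 93889484806) (nat_lit 164) (nat_lit 5) (nat_lit 163) (nat_lit 3) (nat_lit 174) (nat_lit 5) (nat_lit 477) (nat_lit 476) (nat_lit 247)) (XT.lf (nat_lit 0) (nat_lit 79783955294) (nat_lit 760) (nat_lit 47718845532) (nat_lit 836) (nat_lit 46338260218) (nat_lit 164) (nat_lit 5) (nat_lit 174) (nat_lit 5) (nat_lit 175) (nat_lit 5) (nat_lit 478) (nat_lit 476) (nat_lit 246))) (XT.nd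 (nat_lit 78) (nat_lit 0) (nat_lit 76) (XT.lf (nat_lit 76) (nat_lit 41576909308) (nat_lit 0) (nat_lit 43755147744) (nat_lit 836) (nat_lit 92894092442) (nat_lit 165) (nat_lit 5) (nat_lit 164) (nat_lit 5) (nat_lit 175) (nat_lit 5) (nat_lit 479) (nat_lit 476) (nat_lit 245)) (XT.lf (nat_lit 0) (nat_lit 92668588619) (nat_lit 760) (nat_lit 46499055265) (nat_lit 836) (nat_lit 43587297259) (nat_lit 165) (nat_lit 5) (nat_lit 175) (nat_lit 5) (nat_lit 176) (nat_lit 5) (nat_lit 480) (nat_lit 476) (nat_lit 244))))) (XT.nd (nat_lit 312) (nat_lit 608) (nat_lit 0) (XT.nd (nat_lit 156) (nat_lit 0) (nat_lit 76) (XT.nd (nat_lit 78) (nat_lit 0) (nat_lit 76) (XT.lf (nat_lit 76) (nat_lit 49009875537) (nat_lit 0) (nat_lit 52844419654) (nat_lit 836) (nat_lit 85581759770) (nat_lit 166) (nat_lit 5) (nat_lit 165) (nat_lit 5) (nat_lit 176) (nat_lit 5) (nat_lit 481) (nat_lit 476) (nat_lit 243)) (XT.lf (nat_lit 0) (nat_lit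 112889640901) (nat_lit 760) (nat_lit 42006343540) (nat_lit 836) (nat_lit 37385722349) (nat_lit 166) (nat_lit 5) (nat_lit 176) (nat_lit 5) (nat_lit 177) (nat_lit 5) (nat_lit 482) (nat_lit 476) (nat_lit 242))) (XT.nd (nat_lit 78) (nat_lit 0) (nat_lit 76) (XT.lf (nat_lit 76) (nat_lit 60298005944) (nat_lit 0) (nat_lit 65986351624) (nat_lit 836) (nat_lit 70994903467) (nat_lit 167) (nat_lit 5) (nat_lit 166) (nat_lit 5) (nat_lit 177) (nat_lit 5) (nat_lit 483) (nat_lit 476) (nat_lit 241)) (XT.lf (nat_lit 0) (nat_lit 141499058758) (nat_lit 760) (nat_lit 33754243886) (nat_lit 836) (nat_lit 27215877924) (nat_lit 167) (nat_lit 5) (nat_lit 177) (nat_lit 5) (nat_lit 178) (nat_lit 5) (nat_lit 484) (nat_lit 476) (nat_lit 240)))) (XT.nd (nat_lit 156) (nat_lit 760) (nat_lit 0) (XT.nd (nat_lit 78) (nat_lit 0) (nat_lit 76) (XT.lf (nat_lit 76) (nat_lit 75984255860) (nat_lit 0) (nat_lit 83758200830) (nat_lit 836) (nat_lit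 48062741312) (nat_lit 168) (nat_lit 5) (nat_lit 167) (nat_lit 5) (nat_lit 178) (nat_lit 5) (nat_lit 485) (nat_lit 476) (nat_lit 239)) (XT.lf (nat_lit 0) (nat_lit 179671154771) (nat_lit 760) (nat_lit 21199566400) (nat_lit 76) (nat_lit 12498638631) (nat_lit 168) (nat_lit 5) (nat_lit 178) (nat_lit 5) (nat_lit 169) (nat_lit 5) (nat_lit 486) (nat_lit 476) (nat_lit 238))) (XT.nd (nat_lit 78) (nat_lit 76) (nat_lit 0) (XT.lf (nat_lit 0) (nat_lit 96673871582) (nat_lit 760) (nat_lit 106804751614) (nat_lit 836) (nat_lit 15588989732) (nat_lit 158) (nat_lit 5) (nat_lit 168) (nat_lit 5) (nat_lit 169) (nat_lit 5) (nat_lit 487) (nat_lit 476) (nat_lit 237)) (XT.lf (nat_lit 0) (nat_lit 3680855463) (nat_lit 836) (nat_lit 3915305877) (nat_lit 76) (nat_lit 217433702524) (nat_lit 157) (nat_lit 5) (nat_lit 168) (nat_lit 5) (nat_lit 158) (nat_lit 5) (nat_lit 488) (nat_lit 476) (nat_lit 236)))))) (XT.nd (nat_lit 624) (nat_lit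 1520) (nat_lit 0) (XT.nd (nat_lit 312) (nat_lit 608) (nat_lit 0) (XT.nd (nat_lit 156) (nat_lit 380) (nat_lit 0) (XT.nd (nat_lit 78) (nat_lit 380) (nat_lit 0) (XT.lf (nat_lit 0) (nat_lit 26873176452) (nat_lit 532) (nat_lit 108517445254) (nat_lit 76) (nat_lit 95712683996) (nat_lit 151) (nat_lit 5) (nat_lit 158) (nat_lit 5) (nat_lit 152) (nat_lit 5) (nat_lit 489) (nat_lit 476) (nat_lit 235)) (XT.lf (nat_lit 0) (nat_lit 18538557153) (nat_lit 380) (nat_lit 33167826805) (nat_lit 456) (nat_lit 185749972157) (nat_lit 146) (nat_lit 5) (nat_lit 151) (nat_lit 5) (nat_lit 152) (nat_lit 5) (nat_lit 490) (nat_lit 476) (nat_lit 234))) (XT.nd (nat_lit 78) (nat_lit 380) (nat_lit 0) (XT.lf (nat_lit 0) (nat_lit 80807028570) (nat_lit 456) (nat_lit 89508490056) (nat_lit 76) (nat_lit 73660251592) (nat_lit 146) (nat_lit 5) (nat_lit 152) (nat_lit 5) (nat_lit 147) (nat_lit 5) (nat_lit 491) (nat_lit 476) (nat_lit 233))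 (XT.lf (nat_lit 0) (nat_lit 47342724136) (nat_lit 380) (nat_lit 65302785597) (nat_lit 456) (nat_lit 138111505083) (nat_lit 141) (nat_lit 5) (nat_lit 146) (nat_lit 5) (nat_lit 147) (nat_lit 5) (nat_lit 492) (nat_lit 476) (nat_lit 232)))) (XT.nd (nat_lit 156) (nat_lit 304) (nat_lit 0) (XT.nd (nat_lit 78) (nat_lit 304) (nat_lit 0) (XT.lf (nat_lit 0) (nat_lit 148318514950) (nat_lit 456) (nat_lit 64384398149) (nat_lit 76) (nat_lit 45062278550) (nat_lit 141) (nat_lit 5) (nat_lit 147) (nat_lit 5) (nat_lit 142) (nat_lit 5) (nat_lit 493) (nat_lit 476) (nat_lit 231)) (XT.lf (nat_lit 0) (nat_lit 83188930516) (nat_lit 304) (nat_lit 104955512926) (nat_lit 380) (nat_lit 76860870236) (nat_lit 137) (nat_lit 5) (nat_lit 141) (nat_lit 5) (nat_lit 142) (nat_lit 5) (nat_lit 494) (nat_lit 476) (nat_lit 230))) (XT.nd (nat_lit 78) (nat_lit 304) (nat_lit 0) (XT.lf (nat_lit 0) (nat_lit 231197550892) (nat_lit 380) (nat_lit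 32322380951) (nat_lit 76) (nat_lit 9025715844) (nat_lit 137) (nat_lit 5) (nat_lit 142) (nat_lit 5) (nat_lit 138) (nat_lit 5) (nat_lit 495) (nat_lit 476) (nat_lit 229)) (XT.lf (nat_lit 0) (nat_lit 126990132208) (nat_lit 304) (nat_lit 153116364463) (nat_lit 380) (nat_lit 171342581) (nat_lit 133) (nat_lit 5) (nat_lit 137) (nat_lit 5) (nat_lit 138) (nat_lit 5) (nat_lit 496) (nat_lit 476) (nat_lit 228))))) (XT.nd (nat_lit 312) (nat_lit 836) (nat_lit 0) (XT.nd (nat_lit 156) (nat_lit 304) (nat_lit 0) (XT.nd (nat_lit 78) (nat_lit 0) (nat_lit 0) (XT.lf (nat_lit 0) (nat_lit 6549368606) (nat_lit 304) (nat_lit 35795108547) (nat_lit 380) (nat_lit 245985617930) (nat_lit 128) (nat_lit 5) (nat_lit 132) (nat_lit 5) (nat_lit 133) (nat_lit 5) (nat_lit 497) (nat_lit 476) (nat_lit 227)) (XT.lf (nat_lit 0) (nat_lit 90983257514) (nat_lit 380) (nat_lit 118364953182) (nat_lit 76) (nat_lit 87236466175) (nat_lit 128) (nat_lit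 5) (nat_lit 133) (nat_lit 5) (nat_lit 129) (nat_lit 5) (nat_lit 498) (nat_lit 476) (nat_lit 226))) (XT.nd (nat_lit 78) (nat_lit 0) (nat_lit 0) (XT.lf (nat_lit 0) (nat_lit 54375062405) (nat_lit 304) (nat_lit 89114601572) (nat_lit 380) (nat_lit 161690539422) (nat_lit 124) (nat_lit 5) (nat_lit 128) (nat_lit 5) (nat_lit 129) (nat_lit 5) (nat_lit 499) (nat_lit 476) (nat_lit 225)) (XT.lf (nat_lit 0) (nat_lit 201238470841) (nat_lit 380) (nat_lit 74856495491) (nat_lit 76) (nat_lit 37979685919) (nat_lit 124) (nat_lit 5) (nat_lit 129) (nat_lit 5) (nat_lit 125) (nat_lit 5) (nat_lit 500) (nat_lit 476) (nat_lit 224)))) (XT.nd (nat_lit 156) (nat_lit 532) (nat_lit 0) (XT.nd (nat_lit 78) (nat_lit 76) (nat_lit 0) (XT.lf (nat_lit 0) (nat_lit 112013746183) (nat_lit 228) (nat_lit 153070654952) (nat_lit 304) (nat_lit 58168938260) (nat_lit 121) (nat_lit 5) (nat_lit 124) (nat_lit 5) (nat_lit 125) (nat_lit 5) (nat_lit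 501) (nat_lit 476) (nat_lit 223)) (XT.lf (nat_lit 0) (nat_lit 544712108) (nat_lit 304) (nat_lit 22010093656) (nat_lit 76) (nat_lit 310272332247) (nat_lit 120) (nat_lit 5) (nat_lit 124) (nat_lit 5) (nat_lit 121) (nat_lit 5) (nat_lit 502) (nat_lit 476) (nat_lit 222))) (XT.nd (nat_lit 78) (nat_lit 228) (nat_lit 0) (XT.lf (nat_lit 0) (nat_lit 64922996904) (nat_lit 380) (nat_lit 163002241396) (nat_lit 76) (nat_lit 114672518320) (nat_lit 116) (nat_lit 5) (nat_lit 121) (nat_lit 5) (nat_lit 117) (nat_lit 5) (nat_lit 503) (nat_lit 476) (nat_lit 221)) (XT.nd (nat_lit 78) (nat_lit 0) (nat_lit 0) (XT.lf (nat_lit 0) (nat_lit 40115276036) (nat_lit 228) (nat_lit 93779789185) (nat_lit 304) (nat_lit 218893097477) (nat_lit 113) (nat_lit 5) (nat_lit 116) (nat_lit 5) (nat_lit 117) (nat_lit 5) (nat_lit 504) (nat_lit 476) (nat_lit 220)) (XT.lf (nat_lit 0) (nat_lit 209856398950) (nat_lit 304) (nat_lit 105082598290) (nat_lit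 76) (nat_lit 48372058743) (nat_lit 113) (nat_lit 5) (nat_lit 117) (nat_lit 5) (nat_lit 114) (nat_lit 5) (nat_lit 505) (nat_lit 476) (nat_lit 219))))))))
noncomputable def xc452 : XT := (XT.nd (nat_lit 1248) (nat_lit 1596) (nat_lit 0) (XT.nd (nat_lit 624) (nat_lit 912) (nat_lit 0) (XT.nd (nat_lit 312) (nat_lit 456) (nat_lit 0) (XT.nd (nat_lit 156) (nat_lit 456) (nat_lit 0) (XT.nd (nat_lit 78) (nat_lit 0) (nat_lit 0) (XT.lf (nat_lit 0) (nat_lit 115031480927) (nat_lit 228) (nat_lit 177917603740) (nat_lit 304) (nat_lit 81244345003) (nat_lit 110) (nat_lit 5) (nat_lit 113) (nat_lit 5) (nat_lit 114) (nat_lit 5) (nat_lit 506) (nat_lit 476) (nat_lit 218)) (XT.lf (nat_lit 0) (nat_lit 349799420103) (nat_lit 228) (nat_lit 32176558449) (nat_lit 304) (nat_lit 3554964797) (nat_lit 110) (nat_lit 5) (nat_lit 113) (nat_lit 5) (nat_lit 114) (nat_lit 5) (nat_lit 507) (nat_lit 476) (nat_lit 217))) (XT.nd (nat_lit 78)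 (nat_lit 228) (nat_lit 0) (XT.lf (nat_lit 0) (nat_lit 80668744267) (nat_lit 228) (nat_lit 194986560678) (nat_lit 76) (nat_lit 121461775527) (nat_lit 107) (nat_lit 5) (nat_lit 110) (nat_lit 5) (nat_lit 108) (nat_lit 5) (nat_lit 508) (nat_lit 476) (nat_lit 216)) (XT.lf (nat_lit 0) (nat_lit 44709129920) (nat_lit 228) (nat_lit 126115560640) (nat_lit 304) (nat_lit 238362893894) (nat_lit 104) (nat_lit 5) (nat_lit 107) (nat_lit 5) (nat_lit 108) (nat_lit 5) (nat_lit 509) (nat_lit 476) (nat_lit 215)))) (XT.nd (nat_lit 156) (nat_lit 304) (nat_lit 0) (XT.nd (nat_lit 78) (nat_lit 152) (nat_lit 0) (XT.lf (nat_lit 0) (nat_lit 269327166583) (nat_lit 304) (nat_lit 119074068323) (nat_lit 76) (nat_lit 33268442111) (nat_lit 104) (nat_lit 5) (nat_lit 108) (nat_lit 5) (nat_lit 105) (nat_lit 5) (nat_lit 510) (nat_lit 476) (nat_lit 214)) (XT.lf (nat_lit 0) (nat_lit 141047395800) (nat_lit 152) (nat_lit 235976938699) (nat_lit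 228) (nat_lit 57538061305) (nat_lit 102) (nat_lit 5) (nat_lit 104) (nat_lit 5) (nat_lit 105) (nat_lit 5) (nat_lit 511) (nat_lit 476) (nat_lit 213))) (XT.nd (nat_lit 78) (nat_lit 228) (nat_lit 0) (XT.lf (nat_lit 0) (nat_lit 42711727113) (nat_lit 228) (nat_lit 30378976386) (nat_lit 76) (nat_lit 374873775453) (nat_lit 101) (nat_lit 5) (nat_lit 104) (nat_lit 5) (nat_lit 102) (nat_lit 5) (nat_lit 512) (nat_lit 476) (nat_lit 212)) (XT.lf (nat_lit 0) (nat_lit 151600794527) (nat_lit 304) (nat_lit 210330934032) (nat_lit 76) (nat_lit 99779753069) (nat_lit 98) (nat_lit 5) (nat_lit 102) (nat_lit 5) (nat_lit 99) (nat_lit 5) (nat_lit 513) (nat_lit 476) (nat_lit 211))))) (XT.nd (nat_lit 312) (nat_lit 532) (nat_lit 0) (XT.nd (nat_lit 156) (nat_lit 228) (nat_lit 0) (XT.nd (nat_lit 78) (nat_lit 0) (nat_lit 0) (XT.lf (nat_lit 0) (nat_lit 73302039291) (nat_lit 152) (nat_lit 195497809186) (nat_lit 228) (nat_lit 207202709303)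 (nat_lit 96) (nat_lit 5) (nat_lit 98) (nat_lit 5) (nat_lit 99) (nat_lit 5) (nat_lit 514) (nat_lit 476) (nat_lit 210)) (XT.lf (nat_lit 0) (nat_lit 378418809183) (nat_lit 152) (nat_lit 17002060886) (nat_lit 228) (nat_lit 95409216926) (nat_lit 96) (nat_lit 5) (nat_lit 98) (nat_lit 5) (nat_lit 99) (nat_lit 5) (nat_lit 515) (nat_lit 476) (nat_lit 209))) (XT.nd (nat_lit 78) (nat_lit 0) (nat_lit 0) (XT.lf (nat_lit 0) (nat_lit 27085289257) (nat_lit 228) (nat_lit 310544774736) (nat_lit 76) (nat_lit 168461042789) (nat_lit 93) (nat_lit 5) (nat_lit 96) (nat_lit 5) (nat_lit 94) (nat_lit 5) (nat_lit 516) (nat_lit 476) (nat_lit 208)) (XT.lf (nat_lit 0) (nat_lit 154711776582) (nat_lit 228) (nat_lit 1089584943) (nat_lit 76) (nat_lit 366124930202) (nat_lit 93) (nat_lit 5) (nat_lit 96) (nat_lit 5) (nat_lit 94) (nat_lit 5) (nat_lit 517) (nat_lit 476) (nat_lit 207)))) (XT.nd (nat_lit 156) (nat_lit 228) (nat_lit 0)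 (XT.nd (nat_lit 78) (nat_lit 152) (nat_lit 0) (XT.lf (nat_lit 0) (nat_lit 294576677508) (nat_lit 228) (nat_lit 204380147790) (nat_lit 76) (nat_lit 39303556161) (nat_lit 91) (nat_lit 5) (nat_lit 94) (nat_lit 5) (nat_lit 92) (nat_lit 5) (nat_lit 518) (nat_lit 476) (nat_lit 206)) (XT.lf (nat_lit 0) (nat_lit 131893032532) (nat_lit 152) (nat_lit 314173849576) (nat_lit 228) (nat_lit 109112690639) (nat_lit 89) (nat_lit 5) (nat_lit 91) (nat_lit 5) (nat_lit 92) (nat_lit 5) (nat_lit 519) (nat_lit 476) (nat_lit 205))) (XT.nd (nat_lit 78) (nat_lit 152) (nat_lit 0) (XT.lf (nat_lit 0) (nat_lit 34674674447) (nat_lit 228) (nat_lit 81255503516) (nat_lit 76) (nat_lit 456813520170) (nat_lit 88) (nat_lit 5) (nat_lit 91) (nat_lit 5) (nat_lit 89) (nat_lit 5) (nat_lit 520) (nat_lit 476) (nat_lit 204)) (XT.lf (nat_lit 0) (nat_lit 187979732726) (nat_lit 228) (nat_lit 307199150173) (nat_lit 76) (nat_lit 95617948916) (nat_lit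 86) (nat_lit 5) (nat_lit 89) (nat_lit 5) (nat_lit 87) (nat_lit 5) (nat_lit 521) (nat_lit 476) (nat_lit 203)))))) (XT.nd (nat_lit 624) (nat_lit 836) (nat_lit 0) (XT.nd (nat_lit 312) (nat_lit 456) (nat_lit 0) (XT.nd (nat_lit 156) (nat_lit 152) (nat_lit 0) (XT.nd (nat_lit 78) (nat_lit 0) (nat_lit 0) (XT.lf (nat_lit 0) (nat_lit 59822288975) (nat_lit 152) (nat_lit 293360868795) (nat_lit 228) (nat_lit 256357808720) (nat_lit 84) (nat_lit 5) (nat_lit 86) (nat_lit 5) (nat_lit 87) (nat_lit 5) (nat_lit 522) (nat_lit 476) (nat_lit 202)) (XT.lf (nat_lit 0) (nat_lit 455860001223) (nat_lit 152) (nat_lit 75989285061) (nat_lit 228) (nat_lit 97112895004) (nat_lit 84) (nat_lit 5) (nat_lit 86) (nat_lit 5) (nat_lit 87) (nat_lit 5) (nat_lit 523) (nat_lit 476) (nat_lit 201))) (XT.nd (nat_lit 78) (nat_lit 0) (nat_lit 0) (XT.lf (nat_lit 0) (nat_lit 73872841120) (nat_lit 152) (nat_lit 423008551713) (nat_lit 76) (nat_lit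 152117244053) (nat_lit 82) (nat_lit 5) (nat_lit 84) (nat_lit 5) (nat_lit 83) (nat_lit 5) (nat_lit 524) (nat_lit 476) (nat_lit 200)) (XT.lf (nat_lit 0) (nat_lit 254369554994) (nat_lit 152) (nat_lit 21729513700) (nat_lit 76) (nat_lit 393646979785) (nat_lit 82) (nat_lit 5) (nat_lit 84) (nat_lit 5) (nat_lit 83) (nat_lit 5) (nat_lit 525) (nat_lit 476) (nat_lit 199)))) (XT.nd (nat_lit 156) (nat_lit 228) (nat_lit 0) (XT.nd (nat_lit 78) (nat_lit 76) (nat_lit 0) (XT.lf (nat_lit 0) (nat_lit 412826445162) (nat_lit 152) (nat_lit 37510006054) (nat_lit 228) (nat_lit 240872112104) (nat_lit 80) (nat_lit 5) (nat_lit 82) (nat_lit 5) (nat_lit 83) (nat_lit 5) (nat_lit 526) (nat_lit 476) (nat_lit 198)) (XT.lf (nat_lit 0) (nat_lit 157859540578) (nat_lit 76) (nat_lit 504406443062) (nat_lit 152) (nat_lit 51170005695) (nat_lit 79) (nat_lit 5) (nat_lit 80) (nat_lit 5) (nat_lit 81) (nat_lit 4) (nat_lit 527) (nat_lit 476)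 (nat_lit 197))) (XT.nd (nat_lit 78) (nat_lit 152) (nat_lit 0) (XT.lf (nat_lit 0) (nat_lit 148686441804) (nat_lit 152) (nat_lit 113964203895) (nat_lit 76) (nat_lit 473738257244) (nat_lit 78) (nat_lit 5) (nat_lit 80) (nat_lit 5) (nat_lit 79) (nat_lit 5) (nat_lit 528) (nat_lit 476) (nat_lit 196)) (XT.lf (nat_lit 0) (nat_lit 360425618180) (nat_lit 152) (nat_lit 2017670492) (nat_lit 228) (nat_lit 397722869695) (nat_lit 76) (nat_lit 5) (nat_lit 78) (nat_lit 5) (nat_lit 79) (nat_lit 5) (nat_lit 529) (nat_lit 476) (nat_lit 195))))) (XT.nd (nat_lit 312) (nat_lit 532) (nat_lit 0) (XT.nd (nat_lit 156) (nat_lit 152) (nat_lit 0) (XT.nd (nat_lit 78) (nat_lit 76) (nat_lit 0) (XT.lf (nat_lit 0) (nat_lit 75602629260) (nat_lit 76) (nat_lit 518668537640) (nat_lit 152) (nat_lit 190491950214) (nat_lit 75) (nat_lit 5) (nat_lit 76) (nat_lit 5) (nat_lit 77) (nat_lit 4) (nat_lit 530) (nat_lit 476) (nat_lit 194)) (XT.lf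 (nat_lit 0) (nat_lit 33146956902) (nat_lit 152) (nat_lit 222227613071) (nat_lit 76) (nat_lit 554848506706) (nat_lit 74) (nat_lit 5) (nat_lit 76) (nat_lit 5) (nat_lit 75) (nat_lit 5) (nat_lit 531) (nat_lit 476) (nat_lit 193))) (XT.nd (nat_lit 78) (nat_lit 0) (nat_lit 0) (XT.lf (nat_lit 0) (nat_lit 266633739593) (nat_lit 228) (nat_lit 541642143657) (nat_lit 76) (nat_lit 28270624586) (nat_lit 72) (nat_lit 5) (nat_lit 75) (nat_lit 5) (nat_lit 73) (nat_lit 4) (nat_lit 532) (nat_lit 476) (nat_lit 192)) (XT.lf (nat_lit 0) (nat_lit 519806531774) (nat_lit 228) (nat_lit 22637969430) (nat_lit 76) (nat_lit 321341025829) (nat_lit 72) (nat_lit 5) (nat_lit 75) (nat_lit 5) (nat_lit 73) (nat_lit 4) (nat_lit 533) (nat_lit 476) (nat_lit 191)))) (XT.nd (nat_lit 156) (nat_lit 228) (nat_lit 0) (XT.nd (nat_lit 78) (nat_lit 228) (nat_lit 0) (XT.lf (nat_lit 0) (nat_lit 539586502717) (nat_lit 76) (nat_lit 254475892239)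 (nat_lit 152) (nat_lit 97902880665) (nat_lit 71) (nat_lit 5) (nat_lit 72) (nat_lit 5) (nat_lit 73) (nat_lit 4) (nat_lit 534) (nat_lit 476) (nat_lit 190)) (XT.lf (nat_lit 0) (nat_lit 159913485408) (nat_lit 228) (nat_lit 708597785449) (nat_lit 76) (nat_lit 52688830305) (nat_lit 68) (nat_lit 5) (nat_lit 71) (nat_lit 5) (nat_lit 69) (nat_lit 4) (nat_lit 535) (nat_lit 476) (nat_lit 189))) (XT.nd (nat_lit 78) (nat_lit 228) (nat_lit 0) (XT.lf (nat_lit 0) (nat_lit 437567737314) (nat_lit 228) (nat_lit 139406609966) (nat_lit 76) (nat_lit 374330210122) (nat_lit 68) (nat_lit 5) (nat_lit 71) (nat_lit 5) (nat_lit 69) (nat_lit 4) (nat_lit 536) (nat_lit 476) (nat_lit 188)) (XT.nd (nat_lit 78) (nat_lit 152) (nat_lit 0) (XT.lf (nat_lit 0) (nat_lit 473395696440) (nat_lit 76) (nat_lit 263100014232) (nat_lit 152) (nat_lit 246048975341) (nat_lit 67) (nat_lit 5) (nat_lit 68) (nat_lit 5) (nat_lit 69) (nat_lit 4) (nat_lit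 537) (nat_lit 476) (nat_lit 187)) (XT.lf (nat_lit 0) (nat_lit 39123419983) (nat_lit 152) (nat_lit 906864177184) (nat_lit 76) (nat_lit 69070827251) (nat_lit 65) (nat_lit 5) (nat_lit 67) (nat_lit 5) (nat_lit 66) (nat_lit 4) (nat_lit 538) (nat_lit 476) (nat_lit 186))))))))
noncomputable def xc453 : XT := (XT.nd (nat_lit 58344) (nat_lit 0) (nat_lit 4712) (XT.nd (nat_lit 57720) (nat_lit 0) (nat_lit 7904) (XT.nd (nat_lit 312) (nat_lit 228) (nat_lit 0) (XT.nd (nat_lit 156) (nat_lit 152) (nat_lit 0) (XT.nd (nat_lit 78) (nat_lit 76) (nat_lit 0) (XT.lf (nat_lit 0) (nat_lit 343362706562) (nat_lit 152) (nat_lit 283173673367) (nat_lit 76) (nat_lit 421805933803) (nat_lit 65) (nat_lit 5) (nat_lit 67) (nat_lit 5) (nat_lit 66) (nat_lit 4) (nat_lit 539) (nat_lit 476) (nat_lit 185)) (XT.lf (nat_lit 0) (nat_lit 383991435133) (nat_lit 76) (nat_lit 284817681461) (nat_lit 152) (nat_lit 414181522961) (nat_lit 64) (nat_lit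 5) (nat_lit 65) (nat_lit 5) (nat_lit 66) (nat_lit 4) (nat_lit 540) (nat_lit 476) (nat_lit 184))) (XT.nd (nat_lit 78) (nat_lit 152) (nat_lit 0) (XT.lf (nat_lit 0) (nat_lit 1016557268520) (nat_lit 152) (nat_lit 26019453966) (nat_lit 0) (nat_lit 76493188115) (nat_lit 64) (nat_lit 5) (nat_lit 66) (nat_lit 4) (nat_lit 64) (nat_lit 4) (nat_lit 541) (nat_lit 476) (nat_lit 183)) (XT.lf (nat_lit 0) (nat_lit 233373257864) (nat_lit 152) (nat_lit 461648929482) (nat_lit 76) (nat_lit 460964184618) (nat_lit 62) (nat_lit 5) (nat_lit 64) (nat_lit 5) (nat_lit 63) (nat_lit 4) (nat_lit 542) (nat_lit 476) (nat_lit 182)))) (XT.nd (nat_lit 156) (nat_lit 152) (nat_lit 0) (XT.nd (nat_lit 78) (nat_lit 0) (nat_lit 0) (XT.lf (nat_lit 0) (nat_lit 263639195930) (nat_lit 76) (nat_lit 323533160369) (nat_lit 152) (nat_lit 607264073317) (nat_lit 61) (nat_lit 5) (nat_lit 62) (nat_lit 5) (nat_lit 63) (nat_lit 4) (nat_lit 543) (nat_lit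 476) (nat_lit 181)) (XT.lf (nat_lit 0) (nat_lit 967646528391) (nat_lit 152) (nat_lit 194365877061) (nat_lit 0) (nat_lit 72347328763) (nat_lit 61) (nat_lit 5) (nat_lit 63) (nat_lit 4) (nat_lit 61) (nat_lit 4) (nat_lit 544) (nat_lit 476) (nat_lit 180))) (XT.nd (nat_lit 57174) (nat_lit 0) (nat_lit 7904) (XT.lf (nat_lit 0) (nat_lit 102750702972) (nat_lit 152) (nat_lit 684660281322) (nat_lit 76) (nat_lit 488057599126) (nat_lit 59) (nat_lit 5) (nat_lit 61) (nat_lit 5) (nat_lit 60) (nat_lit 4) (nat_lit 545) (nat_lit 476) (nat_lit 179)) (XT.lf (nat_lit 0) (nat_lit 38481766121) (nat_lit 836) (nat_lit 24201774748) (nat_lit 836) (nat_lit 24201774748) (nat_lit 163) (nat_lit 3) (nat_lit 174) (nat_lit 3) (nat_lit 174) (nat_lit 5) (nat_lit 477) (nat_lit 477) (nat_lit 246))))) (XT.nd (nat_lit 312) (nat_lit 0) (nat_lit 152) (XT.nd (nat_lit 156) (nat_lit 0) (nat_lit 76) (XT.nd (nat_lit 78) (nat_lit 0) (nat_lit 76)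 (XT.lf (nat_lit 76) (nat_lit 39390481332) (nat_lit 0) (nat_lit 40114266796) (nat_lit 836) (nat_lit 98579292346) (nat_lit 164) (nat_lit 5) (nat_lit 163) (nat_lit 3) (nat_lit 174) (nat_lit 5) (nat_lit 478) (nat_lit 477) (nat_lit 245)) (XT.lf (nat_lit 0) (nat_lit 83777355045) (nat_lit 760) (nat_lit 50102268879) (nat_lit 836) (nat_lit 48653279749) (nat_lit 164) (nat_lit 5) (nat_lit 174) (nat_lit 5) (nat_lit 175) (nat_lit 5) (nat_lit 479) (nat_lit 477) (nat_lit 244))) (XT.nd (nat_lit 78) (nat_lit 0) (nat_lit 76) (XT.lf (nat_lit 76) (nat_lit 43658233075) (nat_lit 0) (nat_lit 45944467415) (nat_lit 836) (nat_lit 97534554142) (nat_lit 165) (nat_lit 5) (nat_lit 164) (nat_lit 5) (nat_lit 175) (nat_lit 5) (nat_lit 480) (nat_lit 477) (nat_lit 243)) (XT.lf (nat_lit 0) (nat_lit 97305842995) (nat_lit 760) (nat_lit 48821431809) (nat_lit 836) (nat_lit 45765221855) (nat_lit 165) (nat_lit 5) (nat_lit 175) (nat_lit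 5) (nat_lit 176) (nat_lit 5) (nat_lit 481) (nat_lit 477) (nat_lit 242)))) (XT.nd (nat_lit 156) (nat_lit 0) (nat_lit 76) (XT.nd (nat_lit 78) (nat_lit 0) (nat_lit 76) (XT.lf (nat_lit 76) (nat_lit 51462903982) (nat_lit 0) (nat_lit 55487788348) (nat_lit 836) (nat_lit 89856980981) (nat_lit 166) (nat_lit 5) (nat_lit 165) (nat_lit 5) (nat_lit 176) (nat_lit 5) (nat_lit 482) (nat_lit 477) (nat_lit 241)) (XT.lf (nat_lit 0) (nat_lit 118537612908) (nat_lit 760) (nat_lit 44104054065) (nat_lit 836) (nat_lit 39253950393) (nat_lit 166) (nat_lit 5) (nat_lit 176) (nat_lit 5) (nat_lit 177) (nat_lit 5) (nat_lit 483) (nat_lit 477) (nat_lit 240))) (XT.nd (nat_lit 78) (nat_lit 0) (nat_lit 76) (XT.lf (nat_lit 76) (nat_lit 63315470852) (nat_lit 0) (nat_lit 69286468409) (nat_lit 836) (nat_lit 74541116383) (nat_lit 167) (nat_lit 5) (nat_lit 166) (nat_lit 5) (nat_lit 177) (nat_lit 5) (nat_lit 484) (nat_lit 477) (nat_lit 239))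 (XT.lf (nat_lit 0) (nat_lit 148577203445) (nat_lit 760) (nat_lit 35439341288) (nat_lit 836) (nat_lit 28575935035) (nat_lit 167) (nat_lit 5) (nat_lit 177) (nat_lit 5) (nat_lit 178) (nat_lit 5) (nat_lit 485) (nat_lit 477) (nat_lit 238)))))) (XT.nd (nat_lit 624) (nat_lit 1520) (nat_lit 0) (XT.nd (nat_lit 312) (nat_lit 1216) (nat_lit 0) (XT.nd (nat_lit 156) (nat_lit 760) (nat_lit 0) (XT.nd (nat_lit 78) (nat_lit 0) (nat_lit 76) (XT.lf (nat_lit 76) (nat_lit 79786041272) (nat_lit 0) (nat_lit 87946618179) (nat_lit 836) (nat_lit 50462644224) (nat_lit 168) (nat_lit 5) (nat_lit 167) (nat_lit 5) (nat_lit 178) (nat_lit 5) (nat_lit 486) (nat_lit 477) (nat_lit 237)) (XT.lf (nat_lit 0) (nat_lit 188657638230) (nat_lit 760) (nat_lit 22256940181) (nat_lit 76) (nat_lit 13123102876) (nat_lit 168) (nat_lit 5) (nat_lit 178) (nat_lit 5) (nat_lit 169) (nat_lit 5) (nat_lit 487) (nat_lit 477) (nat_lit 236))) (XT.nd (nat_lit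 78) (nat_lit 76) (nat_lit 0) (XT.lf (nat_lit 0) (nat_lit 101510127691) (nat_lit 760) (nat_lit 112145253072) (nat_lit 836) (nat_lit 16365471281) (nat_lit 158) (nat_lit 5) (nat_lit 168) (nat_lit 5) (nat_lit 169) (nat_lit 5) (nat_lit 488) (nat_lit 477) (nat_lit 235)) (XT.lf (nat_lit 0) (nat_lit 3867634374) (nat_lit 836) (nat_lit 4108540007) (nat_lit 76) (nat_lit 228305045679) (nat_lit 157) (nat_lit 5) (nat_lit 168) (nat_lit 5) (nat_lit 158) (nat_lit 5) (nat_lit 489) (nat_lit 477) (nat_lit 234)))) (XT.nd (nat_lit 156) (nat_lit 380) (nat_lit 0) (XT.nd (nat_lit 78) (nat_lit 380) (nat_lit 0) (XT.lf (nat_lit 0) (nat_lit 28219477591) (nat_lit 532) (nat_lit 113940692352) (nat_lit 76) (nat_lit 100498168748) (nat_lit 151) (nat_lit 5) (nat_lit 158) (nat_lit 5) (nat_lit 152) (nat_lit 5) (nat_lit 490) (nat_lit 477) (nat_lit 233)) (XT.lf (nat_lit 0) (nat_lit 19468067835) (nat_lit 380) (nat_lit 34826192138) (nat_lit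 456) (nat_lit 195034785935) (nat_lit 146) (nat_lit 5) (nat_lit 151) (nat_lit 5) (nat_lit 152) (nat_lit 5) (nat_lit 491) (nat_lit 477) (nat_lit 232))) (XT.nd (nat_lit 78) (nat_lit 380) (nat_lit 0) (XT.lf (nat_lit 0) (nat_lit 84849815449) (nat_lit 456) (nat_lit 93981333197) (nat_lit 76) (nat_lit 77343288148) (nat_lit 146) (nat_lit 5) (nat_lit 152) (nat_lit 5) (nat_lit 147) (nat_lit 5) (nat_lit 492) (nat_lit 477) (nat_lit 231)) (XT.lf (nat_lit 0) (nat_lit 49712400070) (nat_lit 380) (nat_lit 68567744278) (nat_lit 456) (nat_lit 145014603096) (nat_lit 141) (nat_lit 5) (nat_lit 146) (nat_lit 5) (nat_lit 147) (nat_lit 5) (nat_lit 493) (nat_lit 477) (nat_lit 230))))) (XT.nd (nat_lit 312) (nat_lit 912) (nat_lit 0) (XT.nd (nat_lit 156) (nat_lit 304) (nat_lit 0) (XT.nd (nat_lit 78) (nat_lit 304) (nat_lit 0) (XT.lf (nat_lit 0) (nat_lit 155736690172) (nat_lit 456) (nat_lit 67601089466) (nat_lit 76) (nat_lit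 47315558971) (nat_lit 141) (nat_lit 5) (nat_lit 147) (nat_lit 5) (nat_lit 142) (nat_lit 5) (nat_lit 494) (nat_lit 477) (nat_lit 229)) (XT.lf (nat_lit 0) (nat_lit 87350864848) (nat_lit 304) (nat_lit 110202981964) (nat_lit 380) (nat_lit 80701623348) (nat_lit 137) (nat_lit 5) (nat_lit 141) (nat_lit 5) (nat_lit 142) (nat_lit 5) (nat_lit 495) (nat_lit 477) (nat_lit 228))) (XT.nd (nat_lit 78) (nat_lit 304) (nat_lit 0) (XT.lf (nat_lit 0) (nat_lit 242759510328) (nat_lit 380) (nat_lit 33936031216) (nat_lit 76) (nat_lit 9477284298) (nat_lit 137) (nat_lit 5) (nat_lit 142) (nat_lit 5) (nat_lit 138) (nat_lit 5) (nat_lit 496) (nat_lit 477) (nat_lit 227)) (XT.lf (nat_lit 0) (nat_lit 133342067782) (nat_lit 304) (nat_lit 160771774400) (nat_lit 380) (nat_lit 177787871) (nat_lit 133) (nat_lit 5) (nat_lit 137) (nat_lit 5) (nat_lit 138) (nat_lit 5) (nat_lit 497) (nat_lit 477) (nat_lit 226)))) (XT.nd (nat_lit 156) (nat_lit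 532) (nat_lit 0) (XT.nd (nat_lit 78) (nat_lit 0) (nat_lit 0) (XT.lf (nat_lit 0) (nat_lit 6879293760) (nat_lit 304) (nat_lit 37584401728) (nat_lit 380) (nat_lit 258282804510) (nat_lit 128) (nat_lit 5) (nat_lit 132) (nat_lit 5) (nat_lit 133) (nat_lit 5) (nat_lit 498) (nat_lit 477) (nat_lit 225)) (XT.lf (nat_lit 0) (nat_lit 95534326764) (nat_lit 380) (nat_lit 124280772893) (nat_lit 76) (nat_lit 91598715628) (nat_lit 128) (nat_lit 5) (nat_lit 133) (nat_lit 5) (nat_lit 129) (nat_lit 5) (nat_lit 499) (nat_lit 477) (nat_lit 224))) (XT.nd (nat_lit 78) (nat_lit 228) (nat_lit 0) (XT.lf (nat_lit 0) (nat_lit 57096204313) (nat_lit 304) (nat_lit 93569795753) (nat_lit 380) (nat_lit 169773120752) (nat_lit 124) (nat_lit 5) (nat_lit 128) (nat_lit 5) (nat_lit 129) (nat_lit 5) (nat_lit 500) (nat_lit 477) (nat_lit 223)) (XT.nd (nat_lit 78) (nat_lit 228) (nat_lit 0) (XT.lf (nat_lit 0) (nat_lit 211302167010) (nat_lit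 380) (nat_lit 78596964864) (nat_lit 76) (nat_lit 39879164258) (nat_lit 124) (nat_lit 5) (nat_lit 129) (nat_lit 5) (nat_lit 125) (nat_lit 5) (nat_lit 501) (nat_lit 477) (nat_lit 222)) (XT.lf (nat_lit 0) (nat_lit 117616750903) (nat_lit 228) (nat_lit 160723594686) (nat_lit 304) (nat_lit 61075574461) (nat_lit 121) (nat_lit 5) (nat_lit 124) (nat_lit 5) (nat_lit 125) (nat_lit 5) (nat_lit 502) (nat_lit 477) (nat_lit 221))))))))
noncomputable def xc454 : XT := (XT.nd (nat_lit 1248) (nat_lit 1672) (nat_lit 0) (XT.nd (nat_lit 624) (nat_lit 836) (nat_lit 0) (XT.nd (nat_lit 312) (nat_lit 684) (nat_lit 0) (XT.nd (nat_lit 156) (nat_lit 228) (nat_lit 0) (XT.nd (nat_lit 78) (nat_lit 304) (nat_lit 0) (XT.lf (nat_lit 0) (nat_lit 573617007) (nat_lit 304) (nat_lit 23108335999) (nat_lit 76) (nat_lit 325786458354) (nat_lit 120) (nat_lit 5) (nat_lit 124) (nat_lit 5) (nat_lit 121) (nat_lit 5) (nat_lit 503) (nat_lit 477)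 (nat_lit 220)) (XT.lf (nat_lit 0) (nat_lit 68170780692) (nat_lit 380) (nat_lit 171150055694) (nat_lit 76) (nat_lit 120406726285) (nat_lit 116) (nat_lit 5) (nat_lit 121) (nat_lit 5) (nat_lit 117) (nat_lit 5) (nat_lit 504) (nat_lit 477) (nat_lit 219))) (XT.nd (nat_lit 78) (nat_lit 0) (nat_lit 0) (XT.lf (nat_lit 0) (nat_lit 42123300550) (nat_lit 228) (nat_lit 98468109365) (nat_lit 304) (nat_lit 229836081269) (nat_lit 113) (nat_lit 5) (nat_lit 116) (nat_lit 5) (nat_lit 117) (nat_lit 5) (nat_lit 505) (nat_lit 477) (nat_lit 218)) (XT.lf (nat_lit 0) (nat_lit 220350744499) (nat_lit 304) (nat_lit 110334509241) (nat_lit 76) (nat_lit 50791278688) (nat_lit 113) (nat_lit 5) (nat_lit 117) (nat_lit 5) (nat_lit 114) (nat_lit 5) (nat_lit 506) (nat_lit 477) (nat_lit 217)))) (XT.nd (nat_lit 156) (nat_lit 456) (nat_lit 0) (XT.nd (nat_lit 78) (nat_lit 0) (nat_lit 0) (XT.lf (nat_lit 0) (nat_lit 120785238148) (nat_lit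 228) (nat_lit 186812787792) (nat_lit 304) (nat_lit 85305000790) (nat_lit 110) (nat_lit 5) (nat_lit 113) (nat_lit 5) (nat_lit 114) (nat_lit 5) (nat_lit 507) (nat_lit 477) (nat_lit 216)) (XT.lf (nat_lit 0) (nat_lit 367291470322) (nat_lit 228) (nat_lit 33784723385) (nat_lit 304) (nat_lit 3731225930) (nat_lit 110) (nat_lit 5) (nat_lit 113) (nat_lit 5) (nat_lit 114) (nat_lit 5) (nat_lit 508) (nat_lit 477) (nat_lit 215))) (XT.nd (nat_lit 78) (nat_lit 228) (nat_lit 0) (XT.lf (nat_lit 0) (nat_lit 84703595870) (nat_lit 228) (nat_lit 204733736654) (nat_lit 76) (nat_lit 127535531191) (nat_lit 107) (nat_lit 5) (nat_lit 110) (nat_lit 5) (nat_lit 108) (nat_lit 5) (nat_lit 509) (nat_lit 477) (nat_lit 214)) (XT.lf (nat_lit 0) (nat_lit 46946703764) (nat_lit 228) (nat_lit 132420601420) (nat_lit 304) (nat_lit 250279589430) (nat_lit 104) (nat_lit 5) (nat_lit 107) (nat_lit 5) (nat_lit 108) (nat_lit 5) (nat_lit 510)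 (nat_lit 477) (nat_lit 213))))) (XT.nd (nat_lit 312) (nat_lit 380) (nat_lit 0) (XT.nd (nat_lit 156) (nat_lit 304) (nat_lit 0) (XT.nd (nat_lit 78) (nat_lit 152) (nat_lit 0) (XT.lf (nat_lit 0) (nat_lit 282794850251) (nat_lit 304) (nat_lit 125025700406) (nat_lit 76) (nat_lit 34932543888) (nat_lit 104) (nat_lit 5) (nat_lit 108) (nat_lit 5) (nat_lit 105) (nat_lit 5) (nat_lit 511) (nat_lit 477) (nat_lit 212)) (XT.lf (nat_lit 0) (nat_lit 148101803515) (nat_lit 152) (nat_lit 247775041754) (nat_lit 228) (nat_lit 60413605569) (nat_lit 102) (nat_lit 5) (nat_lit 104) (nat_lit 5) (nat_lit 105) (nat_lit 5) (nat_lit 512) (nat_lit 477) (nat_lit 211))) (XT.nd (nat_lit 78) (nat_lit 228) (nat_lit 0) (XT.lf (nat_lit 0) (nat_lit 44848566146) (nat_lit 228) (nat_lit 31895942857) (nat_lit 76) (nat_lit 393618131215) (nat_lit 101) (nat_lit 5) (nat_lit 104) (nat_lit 5) (nat_lit 102) (nat_lit 5) (nat_lit 513) (nat_lit 477)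 (nat_lit 210)) (XT.lf (nat_lit 0) (nat_lit 159182069078) (nat_lit 304) (nat_lit 220845480487) (nat_lit 76) (nat_lit 104769444356) (nat_lit 98) (nat_lit 5) (nat_lit 102) (nat_lit 5) (nat_lit 99) (nat_lit 5) (nat_lit 514) (nat_lit 477) (nat_lit 209)))) (XT.nd (nat_lit 156) (nat_lit 228) (nat_lit 0) (XT.nd (nat_lit 78) (nat_lit 0) (nat_lit 0) (XT.lf (nat_lit 0) (nat_lit 76969109239) (nat_lit 152) (nat_lit 205271938412) (nat_lit 228) (nat_lit 217561577637) (nat_lit 96) (nat_lit 5) (nat_lit 98) (nat_lit 5) (nat_lit 99) (nat_lit 5) (nat_lit 515) (nat_lit 477) (nat_lit 208)) (XT.lf (nat_lit 0) (nat_lit 397341623913) (nat_lit 152) (nat_lit 17851438945) (nat_lit 228) (nat_lit 100178470980) (nat_lit 96) (nat_lit 5) (nat_lit 98) (nat_lit 5) (nat_lit 99) (nat_lit 5) (nat_lit 516) (nat_lit 477) (nat_lit 207))) (XT.nd (nat_lit 78) (nat_lit 0) (nat_lit 0) (XT.lf (nat_lit 0) (nat_lit 28440707200) (nat_lit 228)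 (nat_lit 326070085814) (nat_lit 76) (nat_lit 176884811396) (nat_lit 93) (nat_lit 5) (nat_lit 96) (nat_lit 5) (nat_lit 94) (nat_lit 5) (nat_lit 517) (nat_lit 477) (nat_lit 206)) (XT.lf (nat_lit 0) (nat_lit 162448463964) (nat_lit 228) (nat_lit 1142228325) (nat_lit 76) (nat_lit 384431859062) (nat_lit 93) (nat_lit 5) (nat_lit 96) (nat_lit 5) (nat_lit 94) (nat_lit 5) (nat_lit 518) (nat_lit 477) (nat_lit 205)))))) (XT.nd (nat_lit 624) (nat_lit 836) (nat_lit 0) (XT.nd (nat_lit 312) (nat_lit 304) (nat_lit 0) (XT.nd (nat_lit 156) (nat_lit 228) (nat_lit 0) (XT.nd (nat_lit 78) (nat_lit 152) (nat_lit 0) (XT.lf (nat_lit 0) (nat_lit 309306597251) (nat_lit 228) (nat_lit 214597306594) (nat_lit 76) (nat_lit 41269442360) (nat_lit 91) (nat_lit 5) (nat_lit 94) (nat_lit 5) (nat_lit 92) (nat_lit 5) (nat_lit 519) (nat_lit 477) (nat_lit 204)) (XT.lf (nat_lit 0) (nat_lit 138489502929) (nat_lit 152) (nat_lit 329881785840)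 (nat_lit 228) (nat_lit 114567209455) (nat_lit 89) (nat_lit 5) (nat_lit 91) (nat_lit 5) (nat_lit 92) (nat_lit 5) (nat_lit 520) (nat_lit 477) (nat_lit 203))) (XT.nd (nat_lit 78) (nat_lit 152) (nat_lit 0) (XT.lf (nat_lit 0) (nat_lit 36409436746) (nat_lit 228) (nat_lit 85316512490) (nat_lit 76) (nat_lit 479654882344) (nat_lit 88) (nat_lit 5) (nat_lit 91) (nat_lit 5) (nat_lit 89) (nat_lit 5) (nat_lit 521) (nat_lit 477) (nat_lit 202)) (XT.lf (nat_lit 0) (nat_lit 197379737503) (nat_lit 228) (nat_lit 322557331016) (nat_lit 76) (nat_lit 100399553952) (nat_lit 86) (nat_lit 5) (nat_lit 89) (nat_lit 5) (nat_lit 87) (nat_lit 5) (nat_lit 522) (nat_lit 477) (nat_lit 201)))) (XT.nd (nat_lit 156) (nat_lit 152) (nat_lit 0) (XT.nd (nat_lit 78) (nat_lit 0) (nat_lit 0) (XT.lf (nat_lit 0) (nat_lit 62815151433) (nat_lit 152) (nat_lit 308028161174) (nat_lit 228) (nat_lit 269174652333) (nat_lit 84) (nat_lit 5) (nat_lit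 86) (nat_lit 5) (nat_lit 87) (nat_lit 5) (nat_lit 523) (nat_lit 477) (nat_lit 200)) (XT.lf (nat_lit 0) (nat_lit 478654666056) (nat_lit 152) (nat_lit 79788034018) (nat_lit 228) (nat_lit 101967542780) (nat_lit 84) (nat_lit 5) (nat_lit 86) (nat_lit 5) (nat_lit 87) (nat_lit 5) (nat_lit 524) (nat_lit 477) (nat_lit 199))) (XT.nd (nat_lit 78) (nat_lit 0) (nat_lit 0) (XT.lf (nat_lit 0) (nat_lit 77567439655) (nat_lit 152) (nat_lit 444157273984) (nat_lit 76) (nat_lit 159723807244) (nat_lit 82) (nat_lit 5) (nat_lit 84) (nat_lit 5) (nat_lit 83) (nat_lit 5) (nat_lit 525) (nat_lit 477) (nat_lit 198)) (XT.lf (nat_lit 0) (nat_lit 267088943675) (nat_lit 152) (nat_lit 22814365276) (nat_lit 76) (nat_lit 413329996383) (nat_lit 82) (nat_lit 5) (nat_lit 84) (nat_lit 5) (nat_lit 83) (nat_lit 5) (nat_lit 526) (nat_lit 477) (nat_lit 197))))) (XT.nd (nat_lit 312) (nat_lit 380) (nat_lit 0) (XT.nd (nat_lit 156) (nat_lit 228)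 (nat_lit 0) (XT.nd (nat_lit 78) (nat_lit 76) (nat_lit 0) (XT.lf (nat_lit 0) (nat_lit 433469365334) (nat_lit 152) (nat_lit 39384800945) (nat_lit 228) (nat_lit 252914780561) (nat_lit 80) (nat_lit 5) (nat_lit 82) (nat_lit 5) (nat_lit 83) (nat_lit 5) (nat_lit 527) (nat_lit 477) (nat_lit 196)) (XT.lf (nat_lit 0) (nat_lit 165754122838) (nat_lit 76) (nat_lit 529626045537) (nat_lit 152) (nat_lit 53727576128) (nat_lit 79) (nat_lit 5) (nat_lit 80) (nat_lit 5) (nat_lit 81) (nat_lit 4) (nat_lit 528) (nat_lit 477) (nat_lit 195))) (XT.nd (nat_lit 78) (nat_lit 152) (nat_lit 0) (XT.lf (nat_lit 0) (nat_lit 156121621123) (nat_lit 152) (nat_lit 119660856936) (nat_lit 76) (nat_lit 497425827151) (nat_lit 78) (nat_lit 5) (nat_lit 80) (nat_lit 5) (nat_lit 79) (nat_lit 5) (nat_lit 529) (nat_lit 477) (nat_lit 194)) (XT.lf (nat_lit 0) (nat_lit 378448431128) (nat_lit 152) (nat_lit 2117862306) (nat_lit 228) (nat_lit 417608130818)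 (nat_lit 76) (nat_lit 5) (nat_lit 78) (nat_lit 5) (nat_lit 79) (nat_lit 5) (nat_lit 530) (nat_lit 477) (nat_lit 193)))) (XT.nd (nat_lit 156) (nat_lit 228) (nat_lit 0) (XT.nd (nat_lit 78) (nat_lit 76) (nat_lit 0) (XT.lf (nat_lit 0) (nat_lit 79384298782) (nat_lit 76) (nat_lit 544601261074) (nat_lit 152) (nat_lit 200015671367) (nat_lit 75) (nat_lit 5) (nat_lit 76) (nat_lit 5) (nat_lit 77) (nat_lit 4) (nat_lit 531) (nat_lit 477) (nat_lit 192)) (XT.lf (nat_lit 0) (nat_lit 34805112660) (nat_lit 152) (nat_lit 233337502178) (nat_lit 76) (nat_lit 582591575264) (nat_lit 74) (nat_lit 5) (nat_lit 76) (nat_lit 5) (nat_lit 75) (nat_lit 5) (nat_lit 532) (nat_lit 477) (nat_lit 191))) (XT.nd (nat_lit 78) (nat_lit 76) (nat_lit 0) (XT.lf (nat_lit 0) (nat_lit 279966229466) (nat_lit 228) (nat_lit 568722754260) (nat_lit 76) (nat_lit 29684809342) (nat_lit 72) (nat_lit 5) (nat_lit 75) (nat_lit 5) (nat_lit 73) (nat_lit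 4) (nat_lit 533) (nat_lit 477) (nat_lit 190)) (XT.nd (nat_lit 78) (nat_lit 76) (nat_lit 0) (XT.lf (nat_lit 0) (nat_lit 545797623023) (nat_lit 228) (nat_lit 23768442588) (nat_lit 76) (nat_lit 337408699527) (nat_lit 72) (nat_lit 5) (nat_lit 75) (nat_lit 5) (nat_lit 73) (nat_lit 4) (nat_lit 534) (nat_lit 477) (nat_lit 189)) (XT.lf (nat_lit 0) (nat_lit 566567230178) (nat_lit 76) (nat_lit 267199034668) (nat_lit 152) (nat_lit 102797237036) (nat_lit 71) (nat_lit 5) (nat_lit 72) (nat_lit 5) (nat_lit 73) (nat_lit 4) (nat_lit 535) (nat_lit 477) (nat_lit 188))))))))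
noncomputable def xc455 : XT := (XT.nd (nat_lit 58422) (nat_lit 0) (nat_lit 5092) (XT.nd (nat_lit 624) (nat_lit 76) (nat_lit 0) (XT.nd (nat_lit 312) (nat_lit 228) (nat_lit 0) (XT.nd (nat_lit 156) (nat_lit 228) (nat_lit 0) (XT.nd (nat_lit 78) (nat_lit 0) (nat_lit 0) (XT.lf (nat_lit 0) (nat_lit 167909918001) (nat_lit 228) (nat_lit 744026243032) (nat_lit 76) (nat_lit 55323907259) (nat_lit 68) (nat_lit 5) (nat_lit 71) (nat_lit 5) (nat_lit 69) (nat_lit 4) (nat_lit 536) (nat_lit 477) (nat_lit 187)) (XT.lf (nat_lit 0) (nat_lit 459446846392) (nat_lit 228) (nat_lit 146375576951) (nat_lit 76) (nat_lit 393047325808) (nat_lit 68) (nat_lit 5) (nat_lit 71) (nat_lit 5) (nat_lit 69) (nat_lit 4) (nat_lit 537) (nat_lit 477) (nat_lit 186))) (XT.nd (nat_lit 78) (nat_lit 152) (nat_lit 0) (XT.lf (nat_lit 0) (nat_lit 497066822783) (nat_lit 76) (nat_lit 276254382188) (nat_lit 152) (nat_lit 258350679894) (nat_lit 67) (nat_lit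 5) (nat_lit 68) (nat_lit 5) (nat_lit 69) (nat_lit 4) (nat_lit 538) (nat_lit 477) (nat_lit 185)) (XT.lf (nat_lit 0) (nat_lit 41080307980) (nat_lit 152) (nat_lit 952206017285) (nat_lit 76) (nat_lit 72524984515) (nat_lit 65) (nat_lit 5) (nat_lit 67) (nat_lit 5) (nat_lit 66) (nat_lit 4) (nat_lit 539) (nat_lit 477) (nat_lit 184)))) (XT.nd (nat_lit 156) (nat_lit 152) (nat_lit 0) (XT.nd (nat_lit 78) (nat_lit 76) (nat_lit 0) (XT.lf (nat_lit 0) (nat_lit 360531524745) (nat_lit 152) (nat_lit 297331053456) (nat_lit 76) (nat_lit 442896817065) (nat_lit 65) (nat_lit 5) (nat_lit 67) (nat_lit 5) (nat_lit 66) (nat_lit 4) (nat_lit 540) (nat_lit 477) (nat_lit 183)) (XT.lf (nat_lit 0) (nat_lit 403192289444) (nat_lit 76) (nat_lit 299057953342) (nat_lit 152) (nat_lit 434889895220) (nat_lit 64) (nat_lit 5) (nat_lit 65) (nat_lit 5) (nat_lit 66) (nat_lit 4) (nat_lit 541) (nat_lit 477) (nat_lit 182))) (XT.nd (nat_lit 78)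 (nat_lit 152) (nat_lit 0) (XT.lf (nat_lit 0) (nat_lit 1067385779489) (nat_lit 152) (nat_lit 27319182357) (nat_lit 0) (nat_lit 80318411899) (nat_lit 64) (nat_lit 5) (nat_lit 66) (nat_lit 4) (nat_lit 64) (nat_lit 4) (nat_lit 542) (nat_lit 477) (nat_lit 181)) (XT.lf (nat_lit 0) (nat_lit 245042567009) (nat_lit 152) (nat_lit 484730130343) (nat_lit 76) (nat_lit 484012960889) (nat_lit 62) (nat_lit 5) (nat_lit 64) (nat_lit 5) (nat_lit 63) (nat_lit 4) (nat_lit 543) (nat_lit 477) (nat_lit 180))))) (XT.nd (nat_lit 57486) (nat_lit 0) (nat_lit 7828) (XT.nd (nat_lit 57330) (nat_lit 0) (nat_lit 7752) (XT.nd (nat_lit 78) (nat_lit 0) (nat_lit 0) (XT.lf (nat_lit 0) (nat_lit 276822381249) (nat_lit 76) (nat_lit 339709227477) (nat_lit 152) (nat_lit 637626610633) (nat_lit 61) (nat_lit 5) (nat_lit 62) (nat_lit 5) (nat_lit 63) (nat_lit 4) (nat_lit 544) (nat_lit 477) (nat_lit 179)) (XT.lf (nat_lit 0) (nat_lit 1016029467989)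 (nat_lit 152) (nat_lit 204082982309) (nat_lit 0) (nat_lit 75965239961) (nat_lit 61) (nat_lit 5) (nat_lit 63) (nat_lit 4) (nat_lit 61) (nat_lit 4) (nat_lit 545) (nat_lit 477) (nat_lit 178))) (XT.nd (nat_lit 78) (nat_lit 0) (nat_lit 0) (XT.lf (nat_lit 0) (nat_lit 40407952919) (nat_lit 836) (nat_lit 25410761697) (nat_lit 836) (nat_lit 25410761697) (nat_lit 163) (nat_lit 3) (nat_lit 174) (nat_lit 3) (nat_lit 174) (nat_lit 5) (nat_lit 478) (nat_lit 478) (nat_lit 244)) (XT.lf (nat_lit 76) (nat_lit 41362173436) (nat_lit 0) (nat_lit 42121843076) (nat_lit 836) (nat_lit 103504024129) (nat_lit 164) (nat_lit 5) (nat_lit 163) (nat_lit 3) (nat_lit 174) (nat_lit 5) (nat_lit 479) (nat_lit 478) (nat_lit 243)))) (XT.nd (nat_lit 156) (nat_lit 0) (nat_lit 76) (XT.nd (nat_lit 78) (nat_lit 0) (nat_lit 0) (XT.lf (nat_lit 0) (nat_lit 87970034122) (nat_lit 760) (nat_lit 52605097580) (nat_lit 836) (nat_lit 51084226294)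 (nat_lit 164) (nat_lit 5) (nat_lit 174) (nat_lit 5) (nat_lit 175) (nat_lit 5) (nat_lit 480) (nat_lit 478) (nat_lit 242)) (XT.lf (nat_lit 76) (nat_lit 45843392621) (nat_lit 0) (nat_lit 48243107823) (nat_lit 836) (nat_lit 102407433393) (nat_lit 165) (nat_lit 5) (nat_lit 164) (nat_lit 5) (nat_lit 175) (nat_lit 5) (nat_lit 481) (nat_lit 478) (nat_lit 241))) (XT.nd (nat_lit 78) (nat_lit 0) (nat_lit 0) (XT.lf (nat_lit 0) (nat_lit 102174604484) (nat_lit 760) (nat_lit 51260166692) (nat_lit 836) (nat_lit 48052176583) (nat_lit 165) (nat_lit 5) (nat_lit 175) (nat_lit 5) (nat_lit 176) (nat_lit 5) (nat_lit 482) (nat_lit 478) (nat_lit 240)) (XT.lf (nat_lit 76) (nat_lit 54038348199) (nat_lit 0) (nat_lit 58263218773) (nat_lit 836) (nat_lit 94346322749) (nat_lit 166) (nat_lit 5) (nat_lit 165) (nat_lit 5) (nat_lit 176) (nat_lit 5) (nat_lit 483) (nat_lit 478) (nat_lit 239)))))) (XT.nd (nat_lit 624) (nat_lit 1748)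 (nat_lit 0) (XT.nd (nat_lit 312) (nat_lit 1140) (nat_lit 0) (XT.nd (nat_lit 156) (nat_lit 0) (nat_lit 76) (XT.nd (nat_lit 78) (nat_lit 0) (nat_lit 0) (XT.lf (nat_lit 0) (nat_lit 124467659051) (nat_lit 760) (nat_lit 46306892457) (nat_lit 836) (nat_lit 41215688209) (nat_lit 166) (nat_lit 5) (nat_lit 176) (nat_lit 5) (nat_lit 177) (nat_lit 5) (nat_lit 484) (nat_lit 478) (nat_lit 238)) (XT.lf (nat_lit 76) (nat_lit 66483570571) (nat_lit 0) (nat_lit 72751516731) (nat_lit 836) (nat_lit 78264968339) (nat_lit 167) (nat_lit 5) (nat_lit 166) (nat_lit 5) (nat_lit 177) (nat_lit 5) (nat_lit 485) (nat_lit 478) (nat_lit 237))) (XT.nd (nat_lit 78) (nat_lit 0) (nat_lit 0) (XT.lf (nat_lit 0) (nat_lit 156008958627) (nat_lit 760) (nat_lit 37208936658) (nat_lit 836) (nat_lit 30004063502) (nat_lit 167) (nat_lit 5) (nat_lit 177) (nat_lit 5) (nat_lit 178) (nat_lit 5) (nat_lit 486) (nat_lit 478) (nat_lit 236)) (XT.lf (nat_lit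 76) (nat_lit 83777676777) (nat_lit 0) (nat_lit 92344409231) (nat_lit 836) (nat_lit 52982842964) (nat_lit 168) (nat_lit 5) (nat_lit 167) (nat_lit 5) (nat_lit 178) (nat_lit 5) (nat_lit 487) (nat_lit 478) (nat_lit 235)))) (XT.nd (nat_lit 156) (nat_lit 532) (nat_lit 0) (XT.nd (nat_lit 78) (nat_lit 760) (nat_lit 0) (XT.lf (nat_lit 0) (nat_lit 198093173855) (nat_lit 760) (nat_lit 23367424797) (nat_lit 76) (nat_lit 13778833815) (nat_lit 168) (nat_lit 5) (nat_lit 178) (nat_lit 5) (nat_lit 169) (nat_lit 5) (nat_lit 488) (nat_lit 478) (nat_lit 234)) (XT.lf (nat_lit 0) (nat_lit 106587958366) (nat_lit 760) (nat_lit 117752755071) (nat_lit 836) (nat_lit 17181052839) (nat_lit 158) (nat_lit 5) (nat_lit 168) (nat_lit 5) (nat_lit 169) (nat_lit 5) (nat_lit 489) (nat_lit 478) (nat_lit 233))) (XT.nd (nat_lit 78) (nat_lit 456) (nat_lit 0) (XT.lf (nat_lit 0) (nat_lit 4063497850) (nat_lit 836) (nat_lit 4311671168) (nat_lit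 76) (nat_lit 239719987786) (nat_lit 157) (nat_lit 5) (nat_lit 168) (nat_lit 5) (nat_lit 158) (nat_lit 5) (nat_lit 490) (nat_lit 478) (nat_lit 232)) (XT.lf (nat_lit 0) (nat_lit 29632848129) (nat_lit 532) (nat_lit 119635345867) (nat_lit 76) (nat_lit 105522941633) (nat_lit 151) (nat_lit 5) (nat_lit 158) (nat_lit 5) (nat_lit 152) (nat_lit 5) (nat_lit 491) (nat_lit 478) (nat_lit 231))))) (XT.nd (nat_lit 312) (nat_lit 988) (nat_lit 0) (XT.nd (nat_lit 156) (nat_lit 380) (nat_lit 0) (XT.nd (nat_lit 78) (nat_lit 0) (nat_lit 0) (XT.lf (nat_lit 0) (nat_lit 20443813924) (nat_lit 380) (nat_lit 36567478156) (nat_lit 456) (nat_lit 204784090013) (nat_lit 146) (nat_lit 5) (nat_lit 151) (nat_lit 5) (nat_lit 152) (nat_lit 5) (nat_lit 492) (nat_lit 478) (nat_lit 230)) (XT.lf (nat_lit 0) (nat_lit 89094515246) (nat_lit 456) (nat_lit 98678058485) (nat_lit 76) (nat_lit 81210474302) (nat_lit 146) (nat_lit 5) (nat_lit 152)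 (nat_lit 5) (nat_lit 147) (nat_lit 5) (nat_lit 493) (nat_lit 478) (nat_lit 229))) (XT.nd (nat_lit 78) (nat_lit 0) (nat_lit 0) (XT.lf (nat_lit 0) (nat_lit 52200323681) (nat_lit 380) (nat_lit 71995967684) (nat_lit 456) (nat_lit 152263086320) (nat_lit 141) (nat_lit 5) (nat_lit 146) (nat_lit 5) (nat_lit 147) (nat_lit 5) (nat_lit 494) (nat_lit 478) (nat_lit 228)) (XT.lf (nat_lit 0) (nat_lit 163525565021) (nat_lit 456) (nat_lit 70978850433) (nat_lit 76) (nat_lit 49681487934) (nat_lit 141) (nat_lit 5) (nat_lit 147) (nat_lit 5) (nat_lit 142) (nat_lit 5) (nat_lit 495) (nat_lit 478) (nat_lit 227)))) (XT.nd (nat_lit 156) (nat_lit 684) (nat_lit 0) (XT.nd (nat_lit 78) (nat_lit 0) (nat_lit 0) (XT.lf (nat_lit 0) (nat_lit 91720664605) (nat_lit 304) (nat_lit 115712852959) (nat_lit 380) (nat_lit 84734627055) (nat_lit 137) (nat_lit 5) (nat_lit 141) (nat_lit 5) (nat_lit 142) (nat_lit 5) (nat_lit 496) (nat_lit 478)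 (nat_lit 226)) (XT.lf (nat_lit 0) (nat_lit 254899374181) (nat_lit 380) (nat_lit 35630593519) (nat_lit 76) (nat_lit 9951404895) (nat_lit 137) (nat_lit 5) (nat_lit 142) (nat_lit 5) (nat_lit 138) (nat_lit 5) (nat_lit 497) (nat_lit 478) (nat_lit 225))) (XT.nd (nat_lit 78) (nat_lit 380) (nat_lit 0) (XT.lf (nat_lit 0) (nat_lit 140011374312) (nat_lit 304) (nat_lit 168809992792) (nat_lit 380) (nat_lit 184752695) (nat_lit 133) (nat_lit 5) (nat_lit 137) (nat_lit 5) (nat_lit 138) (nat_lit 5) (nat_lit 498) (nat_lit 478) (nat_lit 224)) (XT.nd (nat_lit 78) (nat_lit 0) (nat_lit 0) (XT.lf (nat_lit 0) (nat_lit 7225486768) (nat_lit 304) (nat_lit 39463202543) (nat_lit 380) (nat_lit 271195045128) (nat_lit 128) (nat_lit 5) (nat_lit 132) (nat_lit 5) (nat_lit 133) (nat_lit 5) (nat_lit 499) (nat_lit 478) (nat_lit 223)) (XT.lf (nat_lit 0) (nat_lit 100312772240) (nat_lit 380) (nat_lit 130492609317) (nat_lit 76) (nat_lit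 96179037935) (nat_lit 128) (nat_lit 5) (nat_lit 133) (nat_lit 5) (nat_lit 129) (nat_lit 5) (nat_lit 500) (nat_lit 478) (nat_lit 222))))))))
noncomputable def xc456 : XT := (XT.nd (nat_lit 1248) (nat_lit 1596) (nat_lit 0) (XT.nd (nat_lit 624) (nat_lit 1064) (nat_lit 0) (XT.nd (nat_lit 312) (nat_lit 760) (nat_lit 0) (XT.nd (nat_lit 156) (nat_lit 304) (nat_lit 0) (XT.nd (nat_lit 78) (nat_lit 0) (nat_lit 0) (XT.lf (nat_lit 0) (nat_lit 59953181230) (nat_lit 304) (nat_lit 98247799466) (nat_lit 380) (nat_lit 178260012036) (nat_lit 124) (nat_lit 5) (nat_lit 128) (nat_lit 5) (nat_lit 129) (nat_lit 5) (nat_lit 501) (nat_lit 478) (nat_lit 221)) (XT.lf (nat_lit 0) (nat_lit 221868883184) (nat_lit 380) (nat_lit 82524676689) (nat_lit 76) (nat_lit 41873570583) (nat_lit 124) (nat_lit 5) (nat_lit 129) (nat_lit 5) (nat_lit 125) (nat_lit 5) (nat_lit 502) (nat_lit 478) (nat_lit 220))) (XT.nd (nat_lit 78) (nat_lit 76)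 (nat_lit 0) (XT.lf (nat_lit 0) (nat_lit 123499690408) (nat_lit 228) (nat_lit 168759236539) (nat_lit 304) (nat_lit 64127710814) (nat_lit 121) (nat_lit 5) (nat_lit 124) (nat_lit 5) (nat_lit 125) (nat_lit 5) (nat_lit 503) (nat_lit 478) (nat_lit 219)) (XT.lf (nat_lit 0) (nat_lit 603811956) (nat_lit 304) (nat_lit 24261700791) (nat_lit 76) (nat_lit 342076243398) (nat_lit 120) (nat_lit 5) (nat_lit 124) (nat_lit 5) (nat_lit 121) (nat_lit 5) (nat_lit 504) (nat_lit 478) (nat_lit 218)))) (XT.nd (nat_lit 156) (nat_lit 228) (nat_lit 0) (XT.nd (nat_lit 78) (nat_lit 228) (nat_lit 0) (XT.lf (nat_lit 0) (nat_lit 71580801761) (nat_lit 380) (nat_lit 179705474332) (nat_lit 76) (nat_lit 126427590536) (nat_lit 116) (nat_lit 5) (nat_lit 121) (nat_lit 5) (nat_lit 117) (nat_lit 5) (nat_lit 505) (nat_lit 478) (nat_lit 217)) (XT.lf (nat_lit 0) (nat_lit 44231516109) (nat_lit 228) (nat_lit 103390907777) (nat_lit 304) (nat_lit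 241326369611) (nat_lit 113) (nat_lit 5) (nat_lit 116) (nat_lit 5) (nat_lit 117) (nat_lit 5) (nat_lit 506) (nat_lit 478) (nat_lit 216))) (XT.nd (nat_lit 78) (nat_lit 228) (nat_lit 0) (XT.lf (nat_lit 0) (nat_lit 231369665489) (nat_lit 304) (nat_lit 115849222037) (nat_lit 76) (nat_lit 53331402267) (nat_lit 113) (nat_lit 5) (nat_lit 117) (nat_lit 5) (nat_lit 114) (nat_lit 5) (nat_lit 507) (nat_lit 478) (nat_lit 215)) (XT.lf (nat_lit 0) (nat_lit 126826480259) (nat_lit 228) (nat_lit 196152795766) (nat_lit 304) (nat_lit 89568834537) (nat_lit 110) (nat_lit 5) (nat_lit 113) (nat_lit 5) (nat_lit 114) (nat_lit 5) (nat_lit 508) (nat_lit 478) (nat_lit 214))))) (XT.nd (nat_lit 312) (nat_lit 608) (nat_lit 0) (XT.nd (nat_lit 156) (nat_lit 228) (nat_lit 0) (XT.nd (nat_lit 78) (nat_lit 228) (nat_lit 0) (XT.lf (nat_lit 0) (nat_lit 385657929746) (nat_lit 228) (nat_lit 35473358207) (nat_lit 304) (nat_lit 3916438376)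 (nat_lit 110) (nat_lit 5) (nat_lit 113) (nat_lit 5) (nat_lit 114) (nat_lit 5) (nat_lit 509) (nat_lit 478) (nat_lit 213)) (XT.lf (nat_lit 0) (nat_lit 88940058557) (nat_lit 228) (nat_lit 214968471507) (nat_lit 76) (nat_lit 133912912637) (nat_lit 107) (nat_lit 5) (nat_lit 110) (nat_lit 5) (nat_lit 108) (nat_lit 5) (nat_lit 510) (nat_lit 478) (nat_lit 212))) (XT.nd (nat_lit 78) (nat_lit 0) (nat_lit 0) (XT.lf (nat_lit 0) (nat_lit 49295959448) (nat_lit 228) (nat_lit 139040962782) (nat_lit 304) (nat_lit 262792254472) (nat_lit 104) (nat_lit 5) (nat_lit 107) (nat_lit 5) (nat_lit 108) (nat_lit 5) (nat_lit 511) (nat_lit 478) (nat_lit 211)) (XT.lf (nat_lit 0) (nat_lit 296935794885) (nat_lit 304) (nat_lit 131275106665) (nat_lit 76) (nat_lit 36679787565) (nat_lit 104) (nat_lit 5) (nat_lit 108) (nat_lit 5) (nat_lit 105) (nat_lit 5) (nat_lit 512) (nat_lit 478) (nat_lit 210)))) (XT.nd (nat_lit 156) (nat_lit 380)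 (nat_lit 0) (XT.nd (nat_lit 78) (nat_lit 76) (nat_lit 0) (XT.lf (nat_lit 0) (nat_lit 155508742149) (nat_lit 152) (nat_lit 260163119122) (nat_lit 228) (nat_lit 63433053375) (nat_lit 102) (nat_lit 5) (nat_lit 104) (nat_lit 5) (nat_lit 105) (nat_lit 5) (nat_lit 513) (nat_lit 478) (nat_lit 209)) (XT.lf (nat_lit 0) (nat_lit 47092130668) (nat_lit 228) (nat_lit 33488941952) (nat_lit 76) (nat_lit 413299642755) (nat_lit 101) (nat_lit 5) (nat_lit 104) (nat_lit 5) (nat_lit 102) (nat_lit 5) (nat_lit 514) (nat_lit 478) (nat_lit 208))) (XT.nd (nat_lit 78) (nat_lit 152) (nat_lit 0) (XT.lf (nat_lit 0) (nat_lit 167142292555) (nat_lit 304) (nat_lit 231885940230) (nat_lit 76) (nat_lit 110008554790) (nat_lit 98) (nat_lit 5) (nat_lit 102) (nat_lit 5) (nat_lit 99) (nat_lit 5) (nat_lit 515) (nat_lit 478) (nat_lit 207)) (XT.lf (nat_lit 0) (nat_lit 80819349721) (nat_lit 152) (nat_lit 215534844871) (nat_lit 228) (nat_lit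 228438507193) (nat_lit 96) (nat_lit 5) (nat_lit 98) (nat_lit 5) (nat_lit 99) (nat_lit 5) (nat_lit 516) (nat_lit 478) (nat_lit 206)))))) (XT.nd (nat_lit 624) (nat_lit 684) (nat_lit 0) (XT.nd (nat_lit 312) (nat_lit 532) (nat_lit 0) (XT.nd (nat_lit 156) (nat_lit 152) (nat_lit 0) (XT.nd (nat_lit 78) (nat_lit 228) (nat_lit 0) (XT.lf (nat_lit 0) (nat_lit 417210405127) (nat_lit 152) (nat_lit 18743353310) (nat_lit 228) (nat_lit 105186299934) (nat_lit 96) (nat_lit 5) (nat_lit 98) (nat_lit 5) (nat_lit 99) (nat_lit 5) (nat_lit 517) (nat_lit 478) (nat_lit 205)) (XT.lf (nat_lit 0) (nat_lit 29863788801) (nat_lit 228) (nat_lit 342371841661) (nat_lit 76) (nat_lit 185729701822) (nat_lit 93) (nat_lit 5) (nat_lit 96) (nat_lit 5) (nat_lit 94) (nat_lit 5) (nat_lit 518) (nat_lit 478) (nat_lit 204))) (XT.nd (nat_lit 78) (nat_lit 152) (nat_lit 0) (XT.lf (nat_lit 0) (nat_lit 170571883582) (nat_lit 228) (nat_lit 1197674556)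 (nat_lit 76) (nat_lit 403654070926) (nat_lit 93) (nat_lit 5) (nat_lit 96) (nat_lit 5) (nat_lit 94) (nat_lit 5) (nat_lit 519) (nat_lit 478) (nat_lit 203)) (XT.lf (nat_lit 0) (nat_lit 324772912026) (nat_lit 228) (nat_lit 225325495202) (nat_lit 76) (nat_lit 43333557010) (nat_lit 91) (nat_lit 5) (nat_lit 94) (nat_lit 5) (nat_lit 92) (nat_lit 5) (nat_lit 520) (nat_lit 478) (nat_lit 202)))) (XT.nd (nat_lit 156) (nat_lit 304) (nat_lit 0) (XT.nd (nat_lit 78) (nat_lit 76) (nat_lit 0) (XT.lf (nat_lit 0) (nat_lit 145415627753) (nat_lit 152) (nat_lit 346375189223) (nat_lit 228) (nat_lit 120294557941) (nat_lit 89) (nat_lit 5) (nat_lit 91) (nat_lit 5) (nat_lit 92) (nat_lit 5) (nat_lit 521) (nat_lit 478) (nat_lit 201)) (XT.lf (nat_lit 0) (nat_lit 38230841533) (nat_lit 228) (nat_lit 89580736119) (nat_lit 76) (nat_lit 503638248834) (nat_lit 88) (nat_lit 5) (nat_lit 91) (nat_lit 5) (nat_lit 89) (nat_lit 5) (nat_lit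 522) (nat_lit 478) (nat_lit 200))) (XT.nd (nat_lit 78) (nat_lit 152) (nat_lit 0) (XT.lf (nat_lit 0) (nat_lit 207249647861) (nat_lit 228) (nat_lit 338683586078) (nat_lit 76) (nat_lit 105420173455) (nat_lit 86) (nat_lit 5) (nat_lit 89) (nat_lit 5) (nat_lit 87) (nat_lit 5) (nat_lit 523) (nat_lit 478) (nat_lit 199)) (XT.lf (nat_lit 0) (nat_lit 65957494502) (nat_lit 152) (nat_lit 323428887998) (nat_lit 228) (nat_lit 282632435450) (nat_lit 84) (nat_lit 5) (nat_lit 86) (nat_lit 5) (nat_lit 87) (nat_lit 5) (nat_lit 524) (nat_lit 478) (nat_lit 198))))) (XT.nd (nat_lit 312) (nat_lit 380) (nat_lit 0) (XT.nd (nat_lit 156) (nat_lit 152) (nat_lit 0) (XT.nd (nat_lit 78) (nat_lit 152) (nat_lit 0) (XT.lf (nat_lit 0) (nat_lit 502588909355) (nat_lit 152) (nat_lit 83776786924) (nat_lit 228) (nat_lit 107065015634) (nat_lit 84) (nat_lit 5) (nat_lit 86) (nat_lit 5) (nat_lit 87) (nat_lit 5) (nat_lit 525) (nat_lit 478)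 (nat_lit 197)) (XT.lf (nat_lit 0) (nat_lit 81446679192) (nat_lit 152) (nat_lit 466363590913) (nat_lit 76) (nat_lit 167710633424) (nat_lit 82) (nat_lit 5) (nat_lit 84) (nat_lit 5) (nat_lit 83) (nat_lit 5) (nat_lit 526) (nat_lit 478) (nat_lit 196))) (XT.nd (nat_lit 78) (nat_lit 152) (nat_lit 0) (XT.lf (nat_lit 0) (nat_lit 280444217102) (nat_lit 152) (nat_lit 23953610425) (nat_lit 76) (nat_lit 433997101742) (nat_lit 82) (nat_lit 5) (nat_lit 84) (nat_lit 5) (nat_lit 83) (nat_lit 5) (nat_lit 527) (nat_lit 478) (nat_lit 195)) (XT.lf (nat_lit 0) (nat_lit 455144282956) (nat_lit 152) (nat_lit 41353401164) (nat_lit 228) (nat_lit 265559669567) (nat_lit 80) (nat_lit 5) (nat_lit 82) (nat_lit 5) (nat_lit 83) (nat_lit 5) (nat_lit 528) (nat_lit 478) (nat_lit 194)))) (XT.nd (nat_lit 156) (nat_lit 228) (nat_lit 0) (XT.nd (nat_lit 78) (nat_lit 76) (nat_lit 0) (XT.lf (nat_lit 0) (nat_lit 174043284972) (nat_lit 76)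 (nat_lit 556106695045) (nat_lit 152) (nat_lit 56413111532) (nat_lit 79) (nat_lit 5) (nat_lit 80) (nat_lit 5) (nat_lit 81) (nat_lit 4) (nat_lit 529) (nat_lit 478) (nat_lit 193)) (XT.lf (nat_lit 0) (nat_lit 163928479711) (nat_lit 152) (nat_lit 125642487398) (nat_lit 76) (nat_lit 522297714469) (nat_lit 78) (nat_lit 5) (nat_lit 80) (nat_lit 5) (nat_lit 79) (nat_lit 5) (nat_lit 530) (nat_lit 478) (nat_lit 192))) (XT.nd (nat_lit 78) (nat_lit 76) (nat_lit 0) (XT.lf (nat_lit 0) (nat_lit 397372242288) (nat_lit 152) (nat_lit 2223128019) (nat_lit 228) (nat_lit 438487737032) (nat_lit 76) (nat_lit 5) (nat_lit 78) (nat_lit 5) (nat_lit 79) (nat_lit 5) (nat_lit 531) (nat_lit 478) (nat_lit 191)) (XT.lf (nat_lit 0) (nat_lit 83354908785) (nat_lit 76) (nat_lit 571830686080) (nat_lit 152) (nat_lit 210015660053) (nat_lit 75) (nat_lit 5) (nat_lit 76) (nat_lit 5) (nat_lit 77) (nat_lit 4) (nat_lit 532) (nat_lit 478) (nat_lit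 190)))))))
noncomputable def xc457 : XT := (XT.nd (nat_lit 58500) (nat_lit 0) (nat_lit 5776) (XT.nd (nat_lit 624) (nat_lit 304) (nat_lit 0) (XT.nd (nat_lit 312) (nat_lit 456) (nat_lit 0) (XT.nd (nat_lit 156) (nat_lit 76) (nat_lit 0) (XT.nd (nat_lit 78) (nat_lit 152) (nat_lit 0) (XT.lf (nat_lit 0) (nat_lit 36546101094) (nat_lit 152) (nat_lit 245003024411) (nat_lit 76) (nat_lit 611721737448) (nat_lit 74) (nat_lit 5) (nat_lit 76) (nat_lit 5) (nat_lit 75) (nat_lit 5) (nat_lit 533) (nat_lit 478) (nat_lit 189)) (XT.lf (nat_lit 0) (nat_lit 293965269188) (nat_lit 228) (nat_lit 597157534531) (nat_lit 76) (nat_lit 31169642578) (nat_lit 72) (nat_lit 5) (nat_lit 75) (nat_lit 5) (nat_lit 73) (nat_lit 4) (nat_lit 534) (nat_lit 478) (nat_lit 188))) (XT.nd (nat_lit 78) (nat_lit 76) (nat_lit 0) (XT.lf (nat_lit 0) (nat_lit 573088197744) (nat_lit 228) (nat_lit 24955571915) (nat_lit 76) (nat_lit 354279699045) (nat_lit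 72) (nat_lit 5) (nat_lit 75) (nat_lit 5) (nat_lit 73) (nat_lit 4) (nat_lit 535) (nat_lit 478) (nat_lit 187)) (XT.lf (nat_lit 0) (nat_lit 594896863638) (nat_lit 76) (nat_lit 280558394852) (nat_lit 152) (nat_lit 107936384455) (nat_lit 71) (nat_lit 5) (nat_lit 72) (nat_lit 5) (nat_lit 73) (nat_lit 4) (nat_lit 536) (nat_lit 478) (nat_lit 186)))) (XT.nd (nat_lit 156) (nat_lit 228) (nat_lit 0) (XT.nd (nat_lit 78) (nat_lit 0) (nat_lit 0) (XT.lf (nat_lit 0) (nat_lit 176306101722) (nat_lit 228) (nat_lit 781226256600) (nat_lit 76) (nat_lit 58090678984) (nat_lit 68) (nat_lit 5) (nat_lit 71) (nat_lit 5) (nat_lit 69) (nat_lit 4) (nat_lit 537) (nat_lit 478) (nat_lit 185)) (XT.lf (nat_lit 0) (nat_lit 482419843779) (nat_lit 228) (nat_lit 153693119052) (nat_lit 76) (nat_lit 412700241014) (nat_lit 68) (nat_lit 5) (nat_lit 71) (nat_lit 5) (nat_lit 69) (nat_lit 4) (nat_lit 538) (nat_lit 478) (nat_lit 184))) (XT.nd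 (nat_lit 78) (nat_lit 152) (nat_lit 0) (XT.lf (nat_lit 0) (nat_lit 521921380721) (nat_lit 76) (nat_lit 290066527370) (nat_lit 152) (nat_lit 271267538864) (nat_lit 67) (nat_lit 5) (nat_lit 68) (nat_lit 5) (nat_lit 69) (nat_lit 4) (nat_lit 539) (nat_lit 478) (nat_lit 183)) (XT.lf (nat_lit 0) (nat_lit 43134973717) (nat_lit 152) (nat_lit 999815076645) (nat_lit 76) (nat_lit 76151792381) (nat_lit 65) (nat_lit 5) (nat_lit 67) (nat_lit 5) (nat_lit 66) (nat_lit 4) (nat_lit 540) (nat_lit 478) (nat_lit 182))))) (XT.nd (nat_lit 312) (nat_lit 76) (nat_lit 0) (XT.nd (nat_lit 156) (nat_lit 152) (nat_lit 0) (XT.nd (nat_lit 78) (nat_lit 76) (nat_lit 0) (XT.lf (nat_lit 0) (nat_lit 378558720352) (nat_lit 152) (nat_lit 312196423744) (nat_lit 76) (nat_lit 465042189957) (nat_lit 65) (nat_lit 5) (nat_lit 67) (nat_lit 5) (nat_lit 66) (nat_lit 4) (nat_lit 541) (nat_lit 478) (nat_lit 181)) (XT.lf (nat_lit 0) (nat_lit 423353067230)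 (nat_lit 76) (nat_lit 314010295734) (nat_lit 152) (nat_lit 456633751533) (nat_lit 64) (nat_lit 5) (nat_lit 65) (nat_lit 5) (nat_lit 66) (nat_lit 4) (nat_lit 542) (nat_lit 478) (nat_lit 180))) (XT.nd (nat_lit 78) (nat_lit 152) (nat_lit 0) (XT.lf (nat_lit 0) (nat_lit 1120755655804) (nat_lit 152) (nat_lit 28684012851) (nat_lit 0) (nat_lit 84334844402) (nat_lit 64) (nat_lit 5) (nat_lit 66) (nat_lit 4) (nat_lit 64) (nat_lit 4) (nat_lit 543) (nat_lit 478) (nat_lit 179)) (XT.lf (nat_lit 0) (nat_lit 257295281530) (nat_lit 152) (nat_lit 508965507052) (nat_lit 76) (nat_lit 508214123256) (nat_lit 62) (nat_lit 5) (nat_lit 64) (nat_lit 5) (nat_lit 63) (nat_lit 4) (nat_lit 544) (nat_lit 478) (nat_lit 178)))) (XT.nd (nat_lit 57408) (nat_lit 0) (nat_lit 7752) (XT.nd (nat_lit 57330) (nat_lit 0) (nat_lit 7752) (XT.lf (nat_lit 0) (nat_lit 290664611897) (nat_lit 76) (nat_lit 356694152878) (nat_lit 152) (nat_lit 669507336765)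 (nat_lit 61) (nat_lit 5) (nat_lit 62) (nat_lit 5) (nat_lit 63) (nat_lit 4) (nat_lit 545) (nat_lit 478) (nat_lit 177)) (XT.lf (nat_lit 0) (nat_lit 42430253960) (nat_lit 836) (nat_lit 26680300426) (nat_lit 836) (nat_lit 26680300426) (nat_lit 163) (nat_lit 3) (nat_lit 174) (nat_lit 3) (nat_lit 174) (nat_lit 5) (nat_lit 479) (nat_lit 479) (nat_lit 242))) (XT.nd (nat_lit 78) (nat_lit 0) (nat_lit 76) (XT.lf (nat_lit 76) (nat_lit 43432248581) (nat_lit 0) (nat_lit 44229624972) (nat_lit 836) (nat_lit 108675386030) (nat_lit 164) (nat_lit 5) (nat_lit 163) (nat_lit 3) (nat_lit 174) (nat_lit 5) (nat_lit 480) (nat_lit 479) (nat_lit 241)) (XT.lf (nat_lit 0) (nat_lit 92371992812) (nat_lit 760) (nat_lit 55233280130) (nat_lit 836) (nat_lit 53636879839) (nat_lit 164) (nat_lit 5) (nat_lit 174) (nat_lit 5) (nat_lit 175) (nat_lit 5) (nat_lit 481) (nat_lit 479) (nat_lit 240)))))) (XT.nd (nat_lit 624) (nat_lit 2052) (nat_lit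 0) (XT.nd (nat_lit 312) (nat_lit 0) (nat_lit 152) (XT.nd (nat_lit 156) (nat_lit 0) (nat_lit 76) (XT.nd (nat_lit 78) (nat_lit 0) (nat_lit 76) (XT.lf (nat_lit 76) (nat_lit 48137601157) (nat_lit 0) (nat_lit 50656548508) (nat_lit 836) (nat_lit 107524314400) (nat_lit 165) (nat_lit 5) (nat_lit 164) (nat_lit 5) (nat_lit 175) (nat_lit 5) (nat_lit 482) (nat_lit 479) (nat_lit 239)) (XT.lf (nat_lit 0) (nat_lit 107286481500) (nat_lit 760) (nat_lit 53821055564) (nat_lit 836) (nat_lit 50453600501) (nat_lit 165) (nat_lit 5) (nat_lit 175) (nat_lit 5) (nat_lit 176) (nat_lit 5) (nat_lit 483) (nat_lit 479) (nat_lit 238))) (XT.nd (nat_lit 78) (nat_lit 0) (nat_lit 76) (XT.lf (nat_lit 76) (nat_lit 56742350887) (nat_lit 0) (nat_lit 61177323937) (nat_lit 836) (nat_lit 99060457679) (nat_lit 166) (nat_lit 5) (nat_lit 165) (nat_lit 5) (nat_lit 176) (nat_lit 5) (nat_lit 484) (nat_lit 479) (nat_lit 237)) (XT.lf (nat_lit 0)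 (nat_lit 130693913204) (nat_lit 760) (nat_lit 48620092580) (nat_lit 836) (nat_lit 43275602140) (nat_lit 166) (nat_lit 5) (nat_lit 176) (nat_lit 5) (nat_lit 177) (nat_lit 5) (nat_lit 485) (nat_lit 479) (nat_lit 236)))) (XT.nd (nat_lit 156) (nat_lit 0) (nat_lit 76) (XT.nd (nat_lit 78) (nat_lit 0) (nat_lit 76) (XT.lf (nat_lit 76) (nat_lit 69809859011) (nat_lit 0) (nat_lit 76389750075) (nat_lit 836) (nat_lit 82175310759) (nat_lit 167) (nat_lit 5) (nat_lit 166) (nat_lit 5) (nat_lit 177) (nat_lit 5) (nat_lit 486) (nat_lit 479) (nat_lit 235)) (XT.lf (nat_lit 0) (nat_lit 163812032418) (nat_lit 760) (nat_lit 39067232295) (nat_lit 836) (nat_lit 31503660522) (nat_lit 167) (nat_lit 5) (nat_lit 177) (nat_lit 5) (nat_lit 178) (nat_lit 5) (nat_lit 487) (nat_lit 479) (nat_lit 234))) (XT.nd (nat_lit 78) (nat_lit 0) (nat_lit 76) (XT.lf (nat_lit 76) (nat_lit 87968677115) (nat_lit 0) (nat_lit 96962047056) (nat_lit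 836) (nat_lit 55629324366) (nat_lit 168) (nat_lit 5) (nat_lit 167) (nat_lit 5) (nat_lit 178) (nat_lit 5) (nat_lit 488) (nat_lit 479) (nat_lit 233)) (XT.lf (nat_lit 0) (nat_lit 208000239545) (nat_lit 760) (nat_lit 24533653276) (nat_lit 76) (nat_lit 14467390739) (nat_lit 168) (nat_lit 5) (nat_lit 178) (nat_lit 5) (nat_lit 169) (nat_lit 5) (nat_lit 489) (nat_lit 479) (nat_lit 232))))) (XT.nd (nat_lit 312) (nat_lit 684) (nat_lit 0) (XT.nd (nat_lit 156) (nat_lit 836) (nat_lit 0) (XT.nd (nat_lit 78) (nat_lit 76) (nat_lit 0) (XT.lf (nat_lit 0) (nat_lit 111919464484) (nat_lit 760) (nat_lit 123640609918) (nat_lit 836) (nat_lit 18037663751) (nat_lit 158) (nat_lit 5) (nat_lit 168) (nat_lit 5) (nat_lit 169) (nat_lit 5) (nat_lit 490) (nat_lit 479) (nat_lit 231)) (XT.lf (nat_lit 0) (nat_lit 4268923770) (nat_lit 836) (nat_lit 4525172332) (nat_lit 76) (nat_lit 251705705835) (nat_lit 157) (nat_lit 5) (nat_lit 168)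 (nat_lit 5) (nat_lit 158) (nat_lit 5) (nat_lit 491) (nat_lit 479) (nat_lit 230))) (XT.nd (nat_lit 78) (nat_lit 380) (nat_lit 0) (XT.lf (nat_lit 0) (nat_lit 31116664376) (nat_lit 532) (nat_lit 125614953431) (nat_lit 76) (nat_lit 110798965764) (nat_lit 151) (nat_lit 5) (nat_lit 158) (nat_lit 5) (nat_lit 152) (nat_lit 5) (nat_lit 492) (nat_lit 479) (nat_lit 229)) (XT.lf (nat_lit 0) (nat_lit 21468129515) (nat_lit 380) (nat_lit 38395830668) (nat_lit 456) (nat_lit 215021085697) (nat_lit 146) (nat_lit 5) (nat_lit 151) (nat_lit 5) (nat_lit 152) (nat_lit 5) (nat_lit 493) (nat_lit 479) (nat_lit 228)))) (XT.nd (nat_lit 156) (nat_lit 304) (nat_lit 0) (XT.nd (nat_lit 78) (nat_lit 380) (nat_lit 0) (XT.lf (nat_lit 0) (nat_lit 93551244660) (nat_lit 456) (nat_lit 103609837716) (nat_lit 76) (nat_lit 85271017742) (nat_lit 146) (nat_lit 5) (nat_lit 152) (nat_lit 5) (nat_lit 147) (nat_lit 5) (nat_lit 494) (nat_lit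 479) (nat_lit 227)) (XT.lf (nat_lit 0) (nat_lit 54812429305) (nat_lit 380) (nat_lit 75595617489) (nat_lit 456) (nat_lit 159874202603) (nat_lit 141) (nat_lit 5) (nat_lit 146) (nat_lit 5) (nat_lit 147) (nat_lit 5) (nat_lit 495) (nat_lit 479) (nat_lit 226))) (XT.nd (nat_lit 78) (nat_lit 304) (nat_lit 0) (XT.lf (nat_lit 0) (nat_lit 171703693920) (nat_lit 456) (nat_lit 74525712677) (nat_lit 76) (nat_lit 52165699306) (nat_lit 141) (nat_lit 5) (nat_lit 147) (nat_lit 5) (nat_lit 142) (nat_lit 5) (nat_lit 496) (nat_lit 479) (nat_lit 225)) (XT.nd (nat_lit 78) (nat_lit 0) (nat_lit 0) (XT.lf (nat_lit 0) (nat_lit 96308744560) (nat_lit 304) (nat_lit 121498243360) (nat_lit 380) (nat_lit 88969474091) (nat_lit 137) (nat_lit 5) (nat_lit 141) (nat_lit 5) (nat_lit 142) (nat_lit 5) (nat_lit 497) (nat_lit 479) (nat_lit 224)) (XT.lf (nat_lit 0) (nat_lit 267646055667) (nat_lit 380) (nat_lit 37410092122) (nat_lit 76) (nat_lit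 10449207687) (nat_lit 137) (nat_lit 5) (nat_lit 142) (nat_lit 5) (nat_lit 138) (nat_lit 5) (nat_lit 498) (nat_lit 479) (nat_lit 223))))))))
noncomputable def xc458 : XT := (XT.nd (nat_lit 1248) (nat_lit 1824) (nat_lit 0) (XT.nd (nat_lit 624) (nat_lit 1064) (nat_lit 0) (XT.nd (nat_lit 312) (nat_lit 608) (nat_lit 0) (XT.nd (nat_lit 156) (nat_lit 304) (nat_lit 0) (XT.nd (nat_lit 78) (nat_lit 380) (nat_lit 0) (XT.lf (nat_lit 0) (nat_lit 147013941341) (nat_lit 304) (nat_lit 177250156533) (nat_lit 380) (nat_lit 192244688) (nat_lit 133) (nat_lit 5) (nat_lit 137) (nat_lit 5) (nat_lit 138) (nat_lit 5) (nat_lit 499) (nat_lit 479) (nat_lit 222)) (XT.lf (nat_lit 0) (nat_lit 7588782258) (nat_lit 304) (nat_lit 41435982379) (nat_lit 380) (nat_lit 284753074385) (nat_lit 128) (nat_lit 5) (nat_lit 132) (nat_lit 5) (nat_lit 133) (nat_lit 5) (nat_lit 500) (nat_lit 479) (nat_lit 221))) (XT.nd (nat_lit 78) (nat_lit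 304) (nat_lit 0) (XT.lf (nat_lit 0) (nat_lit 105329979231) (nat_lit 380) (nat_lit 137015242303) (nat_lit 76) (nat_lit 100988340422) (nat_lit 128) (nat_lit 5) (nat_lit 133) (nat_lit 5) (nat_lit 129) (nat_lit 5) (nat_lit 501) (nat_lit 479) (nat_lit 220)) (XT.lf (nat_lit 0) (nat_lit 62952805553) (nat_lit 304) (nat_lit 103159748555) (nat_lit 380) (nat_lit 187171411955) (nat_lit 124) (nat_lit 5) (nat_lit 128) (nat_lit 5) (nat_lit 129) (nat_lit 5) (nat_lit 502) (nat_lit 479) (nat_lit 219)))) (XT.nd (nat_lit 156) (nat_lit 380) (nat_lit 0) (XT.nd (nat_lit 78) (nat_lit 228) (nat_lit 0) (XT.lf (nat_lit 0) (nat_lit 232963785687) (nat_lit 380) (nat_lit 86648972729) (nat_lit 76) (nat_lit 43967655562) (nat_lit 124) (nat_lit 5) (nat_lit 129) (nat_lit 5) (nat_lit 125) (nat_lit 5) (nat_lit 503) (nat_lit 479) (nat_lit 218)) (XT.lf (nat_lit 0) (nat_lit 129676581469) (nat_lit 228) (nat_lit 177196710492) (nat_lit 304)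 (nat_lit 67332606678) (nat_lit 121) (nat_lit 5) (nat_lit 124) (nat_lit 5) (nat_lit 125) (nat_lit 5) (nat_lit 504) (nat_lit 479) (nat_lit 217))) (XT.nd (nat_lit 78) (nat_lit 304) (nat_lit 0) (XT.lf (nat_lit 0) (nat_lit 635375886) (nat_lit 304) (nat_lit 25472924599) (nat_lit 76) (nat_lit 359180474730) (nat_lit 120) (nat_lit 5) (nat_lit 124) (nat_lit 5) (nat_lit 121) (nat_lit 5) (nat_lit 505) (nat_lit 479) (nat_lit 216)) (XT.lf (nat_lit 0) (nat_lit 75161186098) (nat_lit 380) (nat_lit 188688857665) (nat_lit 76) (nat_lit 132749448916) (nat_lit 116) (nat_lit 5) (nat_lit 121) (nat_lit 5) (nat_lit 117) (nat_lit 5) (nat_lit 506) (nat_lit 479) (nat_lit 215))))) (XT.nd (nat_lit 312) (nat_lit 608) (nat_lit 0) (XT.nd (nat_lit 156) (nat_lit 228) (nat_lit 0) (XT.nd (nat_lit 78) (nat_lit 0) (nat_lit 0) (XT.lf (nat_lit 0) (nat_lit 46444951807) (nat_lit 228) (nat_lit 108559902548) (nat_lit 304) (nat_lit 253391313288)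 (nat_lit 113) (nat_lit 5) (nat_lit 116) (nat_lit 5) (nat_lit 117) (nat_lit 5) (nat_lit 507) (nat_lit 479) (nat_lit 214)) (XT.lf (nat_lit 0) (nat_lit 242939403880) (nat_lit 304) (nat_lit 121639857591) (nat_lit 76) (nat_lit 55998479994) (nat_lit 113) (nat_lit 5) (nat_lit 117) (nat_lit 5) (nat_lit 114) (nat_lit 5) (nat_lit 508) (nat_lit 479) (nat_lit 213))) (XT.nd (nat_lit 78) (nat_lit 0) (nat_lit 0) (XT.lf (nat_lit 0) (nat_lit 133169600375) (nat_lit 228) (nat_lit 205959862842) (nat_lit 304) (nat_lit 94045991645) (nat_lit 110) (nat_lit 5) (nat_lit 113) (nat_lit 5) (nat_lit 114) (nat_lit 5) (nat_lit 509) (nat_lit 479) (nat_lit 212)) (XT.lf (nat_lit 0) (nat_lit 404942536808) (nat_lit 228) (nat_lit 37246480677) (nat_lit 304) (nat_lit 4111036848) (nat_lit 110) (nat_lit 5) (nat_lit 113) (nat_lit 5) (nat_lit 114) (nat_lit 5) (nat_lit 510) (nat_lit 479) (nat_lit 211)))) (XT.nd (nat_lit 156) (nat_lit 152)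 (nat_lit 0) (XT.nd (nat_lit 78) (nat_lit 228) (nat_lit 0) (XT.lf (nat_lit 0) (nat_lit 93388225106) (nat_lit 228) (nat_lit 225715124579) (nat_lit 76) (nat_lit 140609106919) (nat_lit 107) (nat_lit 5) (nat_lit 110) (nat_lit 5) (nat_lit 108) (nat_lit 5) (nat_lit 511) (nat_lit 479) (nat_lit 210)) (XT.lf (nat_lit 0) (nat_lit 51762499367) (nat_lit 228) (nat_lit 145992404382) (nat_lit 304) (nat_lit 275930674969) (nat_lit 104) (nat_lit 5) (nat_lit 107) (nat_lit 5) (nat_lit 108) (nat_lit 5) (nat_lit 512) (nat_lit 479) (nat_lit 209))) (XT.nd (nat_lit 78) (nat_lit 152) (nat_lit 0) (XT.lf (nat_lit 0) (nat_lit 311783674989) (nat_lit 304) (nat_lit 137837157908) (nat_lit 76) (nat_lit 38514336111) (nat_lit 104) (nat_lit 5) (nat_lit 108) (nat_lit 5) (nat_lit 105) (nat_lit 5) (nat_lit 513) (nat_lit 479) (nat_lit 208)) (XT.lf (nat_lit 0) (nat_lit 163285855862) (nat_lit 152) (nat_lit 273170663086) (nat_lit 228) (nat_lit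 66603588155) (nat_lit 102) (nat_lit 5) (nat_lit 104) (nat_lit 5) (nat_lit 105) (nat_lit 5) (nat_lit 514) (nat_lit 479) (nat_lit 207)))))) (XT.nd (nat_lit 624) (nat_lit 836) (nat_lit 0) (XT.nd (nat_lit 312) (nat_lit 532) (nat_lit 0) (XT.nd (nat_lit 156) (nat_lit 152) (nat_lit 0) (XT.nd (nat_lit 78) (nat_lit 228) (nat_lit 0) (XT.lf (nat_lit 0) (nat_lit 49447767781) (nat_lit 228) (nat_lit 35161758167) (nat_lit 76) (nat_lit 433965173626) (nat_lit 101) (nat_lit 5) (nat_lit 104) (nat_lit 5) (nat_lit 102) (nat_lit 5) (nat_lit 515) (nat_lit 479) (nat_lit 206)) (XT.lf (nat_lit 0) (nat_lit 175500423077) (nat_lit 304) (nat_lit 243478591634) (nat_lit 76) (nat_lit 115509561410) (nat_lit 98) (nat_lit 5) (nat_lit 102) (nat_lit 5) (nat_lit 99) (nat_lit 5) (nat_lit 516) (nat_lit 479) (nat_lit 205))) (XT.nd (nat_lit 78) (nat_lit 0) (nat_lit 0) (XT.lf (nat_lit 0) (nat_lit 84861936272) (nat_lit 152) (nat_lit 226310960845)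 (nat_lit 228) (nat_lit 239859390081) (nat_lit 96) (nat_lit 5) (nat_lit 98) (nat_lit 5) (nat_lit 99) (nat_lit 5) (nat_lit 517) (nat_lit 479) (nat_lit 204)) (XT.lf (nat_lit 0) (nat_lit 438072467350) (nat_lit 152) (nat_lit 19679924529) (nat_lit 228) (nat_lit 110444622100) (nat_lit 96) (nat_lit 5) (nat_lit 98) (nat_lit 5) (nat_lit 99) (nat_lit 5) (nat_lit 518) (nat_lit 479) (nat_lit 203)))) (XT.nd (nat_lit 156) (nat_lit 304) (nat_lit 0) (XT.nd (nat_lit 78) (nat_lit 0) (nat_lit 0) (XT.lf (nat_lit 0) (nat_lit 31357927212) (nat_lit 228) (nat_lit 359488847854) (nat_lit 76) (nat_lit 195016776353) (nat_lit 93) (nat_lit 5) (nat_lit 96) (nat_lit 5) (nat_lit 94) (nat_lit 5) (nat_lit 519) (nat_lit 479) (nat_lit 202)) (XT.lf (nat_lit 0) (nat_lit 179101381543) (nat_lit 228) (nat_lit 1256047913) (nat_lit 76) (nat_lit 423837335843) (nat_lit 93) (nat_lit 5) (nat_lit 96) (nat_lit 5) (nat_lit 94) (nat_lit 5) (nat_lit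 520) (nat_lit 479) (nat_lit 201))) (XT.nd (nat_lit 78) (nat_lit 152) (nat_lit 0) (XT.lf (nat_lit 0) (nat_lit 341012450973) (nat_lit 228) (nat_lit 236590249126) (nat_lit 76) (nat_lit 45500817656) (nat_lit 91) (nat_lit 5) (nat_lit 94) (nat_lit 5) (nat_lit 92) (nat_lit 5) (nat_lit 521) (nat_lit 479) (nat_lit 200)) (XT.lf (nat_lit 0) (nat_lit 152687905448) (nat_lit 152) (nat_lit 363693326544) (nat_lit 228) (nat_lit 126308367937) (nat_lit 89) (nat_lit 5) (nat_lit 91) (nat_lit 5) (nat_lit 92) (nat_lit 5) (nat_lit 522) (nat_lit 479) (nat_lit 199))))) (XT.nd (nat_lit 312) (nat_lit 456) (nat_lit 0) (XT.nd (nat_lit 156) (nat_lit 152) (nat_lit 0) (XT.nd (nat_lit 78) (nat_lit 152) (nat_lit 0) (XT.lf (nat_lit 0) (nat_lit 40143229822) (nat_lit 228) (nat_lit 94058319867) (nat_lit 76) (nat_lit 528820725786) (nat_lit 88) (nat_lit 5) (nat_lit 91) (nat_lit 5) (nat_lit 89) (nat_lit 5) (nat_lit 523) (nat_lit 479) (nat_lit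 198)) (XT.lf (nat_lit 0) (nat_lit 217612967881) (nat_lit 228) (nat_lit 355616303715) (nat_lit 76) (nat_lit 110691764264) (nat_lit 86) (nat_lit 5) (nat_lit 89) (nat_lit 5) (nat_lit 87) (nat_lit 5) (nat_lit 524) (nat_lit 479) (nat_lit 197))) (XT.nd (nat_lit 78) (nat_lit 0) (nat_lit 0) (XT.lf (nat_lit 0) (nat_lit 69256807319) (nat_lit 152) (nat_lit 339599714498) (nat_lit 228) (nat_lit 296763195999) (nat_lit 84) (nat_lit 5) (nat_lit 86) (nat_lit 5) (nat_lit 87) (nat_lit 5) (nat_lit 525) (nat_lit 479) (nat_lit 196)) (XT.lf (nat_lit 0) (nat_lit 527719724434) (nat_lit 152) (nat_lit 87965037794) (nat_lit 228) (nat_lit 112417446203) (nat_lit 84) (nat_lit 5) (nat_lit 86) (nat_lit 5) (nat_lit 87) (nat_lit 5) (nat_lit 526) (nat_lit 479) (nat_lit 195)))) (XT.nd (nat_lit 156) (nat_lit 304) (nat_lit 0) (XT.nd (nat_lit 78) (nat_lit 0) (nat_lit 0) (XT.lf (nat_lit 0) (nat_lit 85519800049) (nat_lit 152) (nat_lit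 489680367492) (nat_lit 76) (nat_lit 176096741800) (nat_lit 82) (nat_lit 5) (nat_lit 84) (nat_lit 5) (nat_lit 83) (nat_lit 5) (nat_lit 527) (nat_lit 479) (nat_lit 194)) (XT.lf (nat_lit 0) (nat_lit 294467177383) (nat_lit 152) (nat_lit 25149954788) (nat_lit 76) (nat_lit 455697506072) (nat_lit 82) (nat_lit 5) (nat_lit 84) (nat_lit 5) (nat_lit 83) (nat_lit 5) (nat_lit 528) (nat_lit 479) (nat_lit 193))) (XT.nd (nat_lit 78) (nat_lit 152) (nat_lit 0) (XT.lf (nat_lit 0) (nat_lit 477902811711) (nat_lit 152) (nat_lit 43420490878) (nat_lit 228) (nat_lit 278836882051) (nat_lit 80) (nat_lit 5) (nat_lit 82) (nat_lit 5) (nat_lit 83) (nat_lit 5) (nat_lit 529) (nat_lit 479) (nat_lit 192)) (XT.nd (nat_lit 78) (nat_lit 76) (nat_lit 0) (XT.lf (nat_lit 0) (nat_lit 182746769848) (nat_lit 76) (nat_lit 583911437716) (nat_lit 152) (nat_lit 59233002118) (nat_lit 79) (nat_lit 5) (nat_lit 80) (nat_lit 5) (nat_lit 81) (nat_lit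 4) (nat_lit 530) (nat_lit 479) (nat_lit 191)) (XT.lf (nat_lit 0) (nat_lit 172125608941) (nat_lit 152) (nat_lit 131923330694) (nat_lit 76) (nat_lit 548413140745) (nat_lit 78) (nat_lit 5) (nat_lit 80) (nat_lit 5) (nat_lit 79) (nat_lit 5) (nat_lit 531) (nat_lit 479) (nat_lit 190))))))))
noncomputable def xc459 : XT := (XT.nd (nat_lit 58578) (nat_lit 0) (nat_lit 5700) (XT.nd (nat_lit 624) (nat_lit 456) (nat_lit 0) (XT.nd (nat_lit 312) (nat_lit 304) (nat_lit 0) (XT.nd (nat_lit 156) (nat_lit 228) (nat_lit 0) (XT.nd (nat_lit 78) (nat_lit 76) (nat_lit 0) (XT.lf (nat_lit 0) (nat_lit 417242114814) (nat_lit 152) (nat_lit 2333715348) (nat_lit 228) (nat_lit 460411397962) (nat_lit 76) (nat_lit 5) (nat_lit 78) (nat_lit 5) (nat_lit 79) (nat_lit 5) (nat_lit 532) (nat_lit 479) (nat_lit 189)) (XT.lf (nat_lit 0) (nat_lit 87523919589) (nat_lit 76) (nat_lit 600421641656) (nat_lit 152) (nat_lit 220515722073) (nat_lit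 75) (nat_lit 5) (nat_lit 76) (nat_lit 5) (nat_lit 77) (nat_lit 4) (nat_lit 533) (nat_lit 479) (nat_lit 188))) (XT.nd (nat_lit 78) (nat_lit 152) (nat_lit 0) (XT.lf (nat_lit 0) (nat_lit 38374070821) (nat_lit 152) (nat_lit 257251948533) (nat_lit 76) (nat_lit 642308353501) (nat_lit 74) (nat_lit 5) (nat_lit 76) (nat_lit 5) (nat_lit 75) (nat_lit 5) (nat_lit 534) (nat_lit 479) (nat_lit 187)) (XT.lf (nat_lit 0) (nat_lit 308664193190) (nat_lit 228) (nat_lit 627014180018) (nat_lit 76) (nat_lit 32728662365) (nat_lit 72) (nat_lit 5) (nat_lit 75) (nat_lit 5) (nat_lit 73) (nat_lit 4) (nat_lit 535) (nat_lit 479) (nat_lit 186)))) (XT.nd (nat_lit 156) (nat_lit 228) (nat_lit 0) (XT.nd (nat_lit 78) (nat_lit 76) (nat_lit 0) (XT.lf (nat_lit 0) (nat_lit 601743236720) (nat_lit 228) (nat_lit 26202177901) (nat_lit 76) (nat_lit 371994196053) (nat_lit 72) (nat_lit 5) (nat_lit 75) (nat_lit 5) (nat_lit 73) (nat_lit 4) (nat_lit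 536) (nat_lit 479) (nat_lit 185)) (XT.lf (nat_lit 0) (nat_lit 624642860516) (nat_lit 76) (nat_lit 294585778043) (nat_lit 152) (nat_lit 113332555666) (nat_lit 71) (nat_lit 5) (nat_lit 72) (nat_lit 5) (nat_lit 73) (nat_lit 4) (nat_lit 537) (nat_lit 479) (nat_lit 184))) (XT.nd (nat_lit 78) (nat_lit 0) (nat_lit 0) (XT.lf (nat_lit 0) (nat_lit 185122030682) (nat_lit 228) (nat_lit 820286391576) (nat_lit 76) (nat_lit 60995735710) (nat_lit 68) (nat_lit 5) (nat_lit 71) (nat_lit 5) (nat_lit 69) (nat_lit 4) (nat_lit 538) (nat_lit 479) (nat_lit 183)) (XT.lf (nat_lit 0) (nat_lit 506541430134) (nat_lit 228) (nat_lit 161376653239) (nat_lit 76) (nat_lit 433335750948) (nat_lit 68) (nat_lit 5) (nat_lit 71) (nat_lit 5) (nat_lit 69) (nat_lit 4) (nat_lit 539) (nat_lit 479) (nat_lit 182))))) (XT.nd (nat_lit 312) (nat_lit 152) (nat_lit 0) (XT.nd (nat_lit 156) (nat_lit 76) (nat_lit 0) (XT.nd (nat_lit 78) (nat_lit 152)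 (nat_lit 0) (XT.lf (nat_lit 0) (nat_lit 548018553430) (nat_lit 76) (nat_lit 304569333169) (nat_lit 152) (nat_lit 284830303540) (nat_lit 67) (nat_lit 5) (nat_lit 68) (nat_lit 5) (nat_lit 69) (nat_lit 4) (nat_lit 540) (nat_lit 479) (nat_lit 181)) (XT.lf (nat_lit 0) (nat_lit 45292312279) (nat_lit 152) (nat_lit 1049804704397) (nat_lit 76) (nat_lit 79959888703) (nat_lit 65) (nat_lit 5) (nat_lit 67) (nat_lit 5) (nat_lit 66) (nat_lit 4) (nat_lit 541) (nat_lit 479) (nat_lit 180))) (XT.nd (nat_lit 78) (nat_lit 76) (nat_lit 0) (XT.lf (nat_lit 0) (nat_lit 397487218156) (nat_lit 152) (nat_lit 327805172474) (nat_lit 76) (nat_lit 488294782029) (nat_lit 65) (nat_lit 5) (nat_lit 67) (nat_lit 5) (nat_lit 66) (nat_lit 4) (nat_lit 542) (nat_lit 479) (nat_lit 179)) (XT.lf (nat_lit 0) (nat_lit 444521775751) (nat_lit 76) (nat_lit 329710306870) (nat_lit 152) (nat_lit 479464860018) (nat_lit 64) (nat_lit 5) (nat_lit 65)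 (nat_lit 5) (nat_lit 66) (nat_lit 4) (nat_lit 543) (nat_lit 479) (nat_lit 178)))) (XT.nd (nat_lit 57486) (nat_lit 0) (nat_lit 7676) (XT.nd (nat_lit 78) (nat_lit 152) (nat_lit 0) (XT.lf (nat_lit 0) (nat_lit 1176793971330) (nat_lit 152) (nat_lit 30117189799) (nat_lit 0) (nat_lit 88552050938) (nat_lit 64) (nat_lit 5) (nat_lit 66) (nat_lit 4) (nat_lit 64) (nat_lit 4) (nat_lit 544) (nat_lit 479) (nat_lit 177)) (XT.lf (nat_lit 0) (nat_lit 270160577280) (nat_lit 152) (nat_lit 534412757636) (nat_lit 76) (nat_lit 533625295925) (nat_lit 62) (nat_lit 5) (nat_lit 64) (nat_lit 5) (nat_lit 63) (nat_lit 4) (nat_lit 545) (nat_lit 479) (nat_lit 176))) (XT.nd (nat_lit 78) (nat_lit 0) (nat_lit 0) (XT.lf (nat_lit 0) (nat_lit 44553493092) (nat_lit 836) (nat_lit 28013409002) (nat_lit 836) (nat_lit 28013409002) (nat_lit 163) (nat_lit 3) (nat_lit 174) (nat_lit 3) (nat_lit 174) (nat_lit 5) (nat_lit 480) (nat_lit 480) (nat_lit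 240)) (XT.lf (nat_lit 76) (nat_lit 45605644660) (nat_lit 0) (nat_lit 46442638866) (nat_lit 836) (nat_lit 114105672968) (nat_lit 164) (nat_lit 5) (nat_lit 163) (nat_lit 3) (nat_lit 174) (nat_lit 5) (nat_lit 481) (nat_lit 480) (nat_lit 239)))))) (XT.nd (nat_lit 624) (nat_lit 2052) (nat_lit 0) (XT.nd (nat_lit 312) (nat_lit 0) (nat_lit 152) (XT.nd (nat_lit 156) (nat_lit 0) (nat_lit 76) (XT.nd (nat_lit 78) (nat_lit 0) (nat_lit 0) (XT.lf (nat_lit 0) (nat_lit 96993728040) (nat_lit 760) (nat_lit 57993064473) (nat_lit 836) (nat_lit 56317310887) (nat_lit 164) (nat_lit 5) (nat_lit 174) (nat_lit 5) (nat_lit 175) (nat_lit 5) (nat_lit 482) (nat_lit 480) (nat_lit 238)) (XT.lf (nat_lit 76) (nat_lit 50546330561) (nat_lit 0) (nat_lit 53190541733) (nat_lit 836) (nat_lit 112897363986) (nat_lit 165) (nat_lit 5) (nat_lit 164) (nat_lit 5) (nat_lit 175) (nat_lit 5) (nat_lit 483) (nat_lit 480) (nat_lit 237))) (XT.nd (nat_lit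 78) (nat_lit 0) (nat_lit 0) (XT.lf (nat_lit 0) (nat_lit 112653659809) (nat_lit 760) (nat_lit 56510185927) (nat_lit 836) (nat_lit 52975205776) (nat_lit 165) (nat_lit 5) (nat_lit 175) (nat_lit 5) (nat_lit 176) (nat_lit 5) (nat_lit 484) (nat_lit 480) (nat_lit 236)) (XT.lf (nat_lit 76) (nat_lit 59581359839) (nat_lit 0) (nat_lit 64237046573) (nat_lit 836) (nat_lit 104010595114) (nat_lit 166) (nat_lit 5) (nat_lit 165) (nat_lit 5) (nat_lit 176) (nat_lit 5) (nat_lit 485) (nat_lit 480) (nat_lit 235)))) (XT.nd (nat_lit 156) (nat_lit 0) (nat_lit 76) (XT.nd (nat_lit 78) (nat_lit 0) (nat_lit 0) (XT.lf (nat_lit 0) (nat_lit 137231213127) (nat_lit 760) (nat_lit 51049152084) (nat_lit 836) (nat_lit 45438592696) (nat_lit 166) (nat_lit 5) (nat_lit 176) (nat_lit 5) (nat_lit 177) (nat_lit 5) (nat_lit 486) (nat_lit 480) (nat_lit 234)) (XT.lf (nat_lit 76) (nat_lit 73302265713) (nat_lit 0) (nat_lit 80209833956) (nat_lit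 836) (nat_lit 86281440471) (nat_lit 167) (nat_lit 5) (nat_lit 166) (nat_lit 5) (nat_lit 177) (nat_lit 5) (nat_lit 487) (nat_lit 480) (nat_lit 233))) (XT.nd (nat_lit 78) (nat_lit 0) (nat_lit 0) (XT.lf (nat_lit 0) (nat_lit 172005015771) (nat_lit 760) (nat_lit 41018642711) (nat_lit 836) (nat_lit 33078293748) (nat_lit 167) (nat_lit 5) (nat_lit 177) (nat_lit 5) (nat_lit 178) (nat_lit 5) (nat_lit 488) (nat_lit 480) (nat_lit 232)) (XT.lf (nat_lit 76) (nat_lit 92369030699) (nat_lit 0) (nat_lit 101810527970) (nat_lit 836) (nat_lit 58408377210) (nat_lit 168) (nat_lit 5) (nat_lit 167) (nat_lit 5) (nat_lit 178) (nat_lit 5) (nat_lit 489) (nat_lit 480) (nat_lit 231))))) (XT.nd (nat_lit 312) (nat_lit 1064) (nat_lit 0) (XT.nd (nat_lit 156) (nat_lit 532) (nat_lit 0) (XT.nd (nat_lit 78) (nat_lit 760) (nat_lit 0) (XT.lf (nat_lit 0) (nat_lit 218402434740) (nat_lit 760) (nat_lit 25758392393) (nat_lit 76) (nat_lit 15190411281)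 (nat_lit 168) (nat_lit 5) (nat_lit 178) (nat_lit 5) (nat_lit 169) (nat_lit 5) (nat_lit 490) (nat_lit 480) (nat_lit 230)) (XT.lf (nat_lit 0) (nat_lit 117517349908) (nat_lit 760) (nat_lit 129822837324) (nat_lit 836) (nat_lit 18937332218) (nat_lit 158) (nat_lit 5) (nat_lit 168) (nat_lit 5) (nat_lit 169) (nat_lit 5) (nat_lit 491) (nat_lit 480) (nat_lit 229))) (XT.nd (nat_lit 78) (nat_lit 456) (nat_lit 0) (XT.lf (nat_lit 0) (nat_lit 4484411707) (nat_lit 836) (nat_lit 4749542156) (nat_lit 76) (nat_lit 264290735943) (nat_lit 157) (nat_lit 5) (nat_lit 168) (nat_lit 5) (nat_lit 158) (nat_lit 5) (nat_lit 492) (nat_lit 480) (nat_lit 228)) (XT.lf (nat_lit 0) (nat_lit 32674469332) (nat_lit 532) (nat_lit 131893742163) (nat_lit 76) (nat_lit 116338802532) (nat_lit 151) (nat_lit 5) (nat_lit 158) (nat_lit 5) (nat_lit 152) (nat_lit 5) (nat_lit 493) (nat_lit 480) (nat_lit 227)))) (XT.nd (nat_lit 156) (nat_lit 684)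 (nat_lit 0) (XT.nd (nat_lit 78) (nat_lit 0) (nat_lit 0) (XT.lf (nat_lit 0) (nat_lit 22543463334) (nat_lit 380) (nat_lit 40315602794) (nat_lit 456) (nat_lit 225770136521) (nat_lit 146) (nat_lit 5) (nat_lit 151) (nat_lit 5) (nat_lit 152) (nat_lit 5) (nat_lit 494) (nat_lit 480) (nat_lit 226)) (XT.lf (nat_lit 0) (nat_lit 98230624263) (nat_lit 456) (nat_lit 108788403349) (nat_lit 76) (nat_lit 89534586520) (nat_lit 146) (nat_lit 5) (nat_lit 152) (nat_lit 5) (nat_lit 147) (nat_lit 5) (nat_lit 495) (nat_lit 480) (nat_lit 225))) (XT.nd (nat_lit 78) (nat_lit 304) (nat_lit 0) (XT.lf (nat_lit 0) (nat_lit 57554945954) (nat_lit 380) (nat_lit 79375263598) (nat_lit 456) (nat_lit 167866064178) (nat_lit 141) (nat_lit 5) (nat_lit 146) (nat_lit 5) (nat_lit 147) (nat_lit 5) (nat_lit 496) (nat_lit 480) (nat_lit 224)) (XT.nd (nat_lit 78) (nat_lit 304) (nat_lit 0) (XT.lf (nat_lit 0) (nat_lit 180290557209) (nat_lit 456)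 (nat_lit 78250111438) (nat_lit 76) (nat_lit 54774108511) (nat_lit 141) (nat_lit 5) (nat_lit 147) (nat_lit 5) (nat_lit 142) (nat_lit 5) (nat_lit 497) (nat_lit 480) (nat_lit 223)) (XT.lf (nat_lit 0) (nat_lit 101126038228) (nat_lit 304) (nat_lit 127572926732) (nat_lit 380) (nat_lit 93416238664) (nat_lit 137) (nat_lit 5) (nat_lit 141) (nat_lit 5) (nat_lit 142) (nat_lit 5) (nat_lit 498) (nat_lit 480) (nat_lit 222))))))))
noncomputable def xc460 : XT := (XT.nd (nat_lit 1248) (nat_lit 1900) (nat_lit 0) (XT.nd (nat_lit 624) (nat_lit 1216) (nat_lit 0) (XT.nd (nat_lit 312) (nat_lit 608) (nat_lit 0) (XT.nd (nat_lit 156) (nat_lit 380) (nat_lit 0) (XT.nd (nat_lit 78) (nat_lit 304) (nat_lit 0) (XT.lf (nat_lit 0) (nat_lit 281029911989) (nat_lit 380) (nat_lit 39278754485) (nat_lit 76) (nat_lit 10971878998) (nat_lit 137) (nat_lit 5) (nat_lit 142) (nat_lit 5) (nat_lit 138) (nat_lit 5) (nat_lit 499) (nat_lit 480)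 (nat_lit 221)) (XT.lf (nat_lit 0) (nat_lit 154366450938) (nat_lit 304) (nat_lit 186112359690) (nat_lit 380) (nat_lit 200273574) (nat_lit 133) (nat_lit 5) (nat_lit 137) (nat_lit 5) (nat_lit 138) (nat_lit 5) (nat_lit 500) (nat_lit 480) (nat_lit 220))) (XT.nd (nat_lit 78) (nat_lit 0) (nat_lit 0) (XT.lf (nat_lit 0) (nat_lit 7970054616) (nat_lit 304) (nat_lit 43507436563) (nat_lit 380) (nat_lit 298989165293) (nat_lit 128) (nat_lit 5) (nat_lit 132) (nat_lit 5) (nat_lit 133) (nat_lit 5) (nat_lit 501) (nat_lit 480) (nat_lit 219)) (XT.lf (nat_lit 0) (nat_lit 110597900759) (nat_lit 380) (nat_lit 143864192646) (nat_lit 76) (nat_lit 106038075439) (nat_lit 128) (nat_lit 5) (nat_lit 133) (nat_lit 5) (nat_lit 129) (nat_lit 5) (nat_lit 502) (nat_lit 480) (nat_lit 218)))) (XT.nd (nat_lit 156) (nat_lit 304) (nat_lit 0) (XT.nd (nat_lit 78) (nat_lit 0) (nat_lit 0) (XT.lf (nat_lit 0) (nat_lit 66102228382) (nat_lit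 304) (nat_lit 108317336088) (nat_lit 380) (nat_lit 196528530685) (nat_lit 124) (nat_lit 5) (nat_lit 128) (nat_lit 5) (nat_lit 129) (nat_lit 5) (nat_lit 503) (nat_lit 480) (nat_lit 217)) (XT.lf (nat_lit 0) (nat_lit 244613297733) (nat_lit 380) (nat_lit 90979663729) (nat_lit 76) (nat_lit 46166407003) (nat_lit 124) (nat_lit 5) (nat_lit 129) (nat_lit 5) (nat_lit 125) (nat_lit 5) (nat_lit 504) (nat_lit 480) (nat_lit 216))) (XT.nd (nat_lit 78) (nat_lit 76) (nat_lit 0) (XT.lf (nat_lit 0) (nat_lit 136162139830) (nat_lit 228) (nat_lit 186056103500) (nat_lit 304) (nat_lit 70697885830) (nat_lit 121) (nat_lit 5) (nat_lit 124) (nat_lit 5) (nat_lit 125) (nat_lit 5) (nat_lit 505) (nat_lit 480) (nat_lit 215)) (XT.lf (nat_lit 0) (nat_lit 668390332) (nat_lit 304) (nat_lit 26744882636) (nat_lit 76) (nat_lit 377139878659) (nat_lit 120) (nat_lit 5) (nat_lit 124) (nat_lit 5) (nat_lit 121) (nat_lit 5) (nat_lit 506) (nat_lit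 480) (nat_lit 214))))) (XT.nd (nat_lit 312) (nat_lit 456) (nat_lit 0) (XT.nd (nat_lit 156) (nat_lit 228) (nat_lit 0) (XT.nd (nat_lit 78) (nat_lit 228) (nat_lit 0) (XT.lf (nat_lit 0) (nat_lit 78920464676) (nat_lit 380) (nat_lit 198121585916) (nat_lit 76) (nat_lit 139387355696) (nat_lit 116) (nat_lit 5) (nat_lit 121) (nat_lit 5) (nat_lit 117) (nat_lit 5) (nat_lit 507) (nat_lit 480) (nat_lit 213)) (XT.lf (nat_lit 0) (nat_lit 48768886375) (nat_lit 228) (nat_lit 113987398249) (nat_lit 304) (nat_lit 266059631965) (nat_lit 113) (nat_lit 5) (nat_lit 116) (nat_lit 5) (nat_lit 117) (nat_lit 5) (nat_lit 508) (nat_lit 480) (nat_lit 212))) (XT.nd (nat_lit 78) (nat_lit 228) (nat_lit 0) (XT.lf (nat_lit 0) (nat_lit 255087512501) (nat_lit 304) (nat_lit 127720194646) (nat_lit 76) (nat_lit 58798864414) (nat_lit 113) (nat_lit 5) (nat_lit 117) (nat_lit 5) (nat_lit 114) (nat_lit 5) (nat_lit 509) (nat_lit 480) (nat_lit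 211)) (XT.lf (nat_lit 0) (nat_lit 139829709512) (nat_lit 228) (nat_lit 216257336517) (nat_lit 304) (nat_lit 98747126040) (nat_lit 110) (nat_lit 5) (nat_lit 113) (nat_lit 5) (nat_lit 114) (nat_lit 5) (nat_lit 510) (nat_lit 480) (nat_lit 210)))) (XT.nd (nat_lit 156) (nat_lit 228) (nat_lit 0) (XT.nd (nat_lit 78) (nat_lit 228) (nat_lit 0) (XT.lf (nat_lit 0) (nat_lit 425191215189) (nat_lit 228) (nat_lit 39108309980) (nat_lit 304) (nat_lit 4315478988) (nat_lit 110) (nat_lit 5) (nat_lit 113) (nat_lit 5) (nat_lit 114) (nat_lit 5) (nat_lit 511) (nat_lit 480) (nat_lit 209)) (XT.lf (nat_lit 0) (nat_lit 98058691801) (nat_lit 228) (nat_lit 236999274909) (nat_lit 76) (nat_lit 147640059906) (nat_lit 107) (nat_lit 5) (nat_lit 110) (nat_lit 5) (nat_lit 108) (nat_lit 5) (nat_lit 512) (nat_lit 480) (nat_lit 208))) (XT.nd (nat_lit 78) (nat_lit 0) (nat_lit 0) (XT.lf (nat_lit 0) (nat_lit 54352204333) (nat_lit 228) (nat_lit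 153291474453) (nat_lit 304) (nat_lit 289726127333) (nat_lit 104) (nat_lit 5) (nat_lit 107) (nat_lit 5) (nat_lit 108) (nat_lit 5) (nat_lit 513) (nat_lit 480) (nat_lit 207)) (XT.lf (nat_lit 0) (nat_lit 327373847727) (nat_lit 304) (nat_lit 144727470142) (nat_lit 76) (nat_lit 40440560098) (nat_lit 104) (nat_lit 5) (nat_lit 108) (nat_lit 5) (nat_lit 105) (nat_lit 5) (nat_lit 514) (nat_lit 480) (nat_lit 206)))))) (XT.nd (nat_lit 624) (nat_lit 912) (nat_lit 0) (XT.nd (nat_lit 312) (nat_lit 380) (nat_lit 0) (XT.nd (nat_lit 156) (nat_lit 380) (nat_lit 0) (XT.nd (nat_lit 78) (nat_lit 76) (nat_lit 0) (XT.lf (nat_lit 0) (nat_lit 171451669386) (nat_lit 152) (nat_lit 286828641146) (nat_lit 228) (nat_lit 69932753605) (nat_lit 102) (nat_lit 5) (nat_lit 104) (nat_lit 5) (nat_lit 105) (nat_lit 5) (nat_lit 515) (nat_lit 480) (nat_lit 205)) (XT.lf (nat_lit 0) (nat_lit 51921090937) (nat_lit 228) (nat_lit 36918366816)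 (nat_lit 76) (nat_lit 455663930025) (nat_lit 101) (nat_lit 5) (nat_lit 104) (nat_lit 5) (nat_lit 102) (nat_lit 5) (nat_lit 516) (nat_lit 480) (nat_lit 204))) (XT.nd (nat_lit 78) (nat_lit 152) (nat_lit 0) (XT.lf (nat_lit 0) (nat_lit 184276365677) (nat_lit 304) (nat_lit 255651028602) (nat_lit 76) (nat_lit 121285564543) (nat_lit 98) (nat_lit 5) (nat_lit 102) (nat_lit 5) (nat_lit 99) (nat_lit 5) (nat_lit 517) (nat_lit 480) (nat_lit 203)) (XT.lf (nat_lit 0) (nat_lit 89106501625) (nat_lit 152) (nat_lit 237625940843) (nat_lit 228) (nat_lit 251851414032) (nat_lit 96) (nat_lit 5) (nat_lit 98) (nat_lit 5) (nat_lit 99) (nat_lit 5) (nat_lit 518) (nat_lit 480) (nat_lit 202)))) (XT.nd (nat_lit 156) (nat_lit 152) (nat_lit 0) (XT.nd (nat_lit 78) (nat_lit 228) (nat_lit 0) (XT.lf (nat_lit 0) (nat_lit 459977489327) (nat_lit 152) (nat_lit 20663379760) (nat_lit 228) (nat_lit 115965952679) (nat_lit 96) (nat_lit 5) (nat_lit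 98) (nat_lit 5) (nat_lit 99) (nat_lit 5) (nat_lit 519) (nat_lit 480) (nat_lit 201)) (XT.lf (nat_lit 0) (nat_lit 32926684317) (nat_lit 228) (nat_lit 377461851797) (nat_lit 76) (nat_lit 204768149810) (nat_lit 93) (nat_lit 5) (nat_lit 96) (nat_lit 5) (nat_lit 94) (nat_lit 5) (nat_lit 520) (nat_lit 480) (nat_lit 200))) (XT.nd (nat_lit 78) (nat_lit 152) (nat_lit 0) (XT.lf (nat_lit 0) (nat_lit 188057270377) (nat_lit 228) (nat_lit 1317480357) (nat_lit 76) (nat_lit 445029711816) (nat_lit 93) (nat_lit 5) (nat_lit 96) (nat_lit 5) (nat_lit 94) (nat_lit 5) (nat_lit 521) (nat_lit 480) (nat_lit 199)) (XT.lf (nat_lit 0) (nat_lit 358063883813) (nat_lit 228) (nat_lit 248418382138) (nat_lit 76) (nat_lit 47776387151) (nat_lit 91) (nat_lit 5) (nat_lit 94) (nat_lit 5) (nat_lit 92) (nat_lit 5) (nat_lit 522) (nat_lit 480) (nat_lit 198))))) (XT.nd (nat_lit 312) (nat_lit 380) (nat_lit 0) (XT.nd (nat_lit 156) (nat_lit 304)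 (nat_lit 0) (XT.nd (nat_lit 78) (nat_lit 76) (nat_lit 0) (XT.lf (nat_lit 0) (nat_lit 160323657914) (nat_lit 152) (nat_lit 381877428572) (nat_lit 228) (nat_lit 132622953769) (nat_lit 89) (nat_lit 5) (nat_lit 91) (nat_lit 5) (nat_lit 92) (nat_lit 5) (nat_lit 523) (nat_lit 480) (nat_lit 197)) (XT.lf (nat_lit 0) (nat_lit 42151158853) (nat_lit 228) (nat_lit 98759917894) (nat_lit 76) (nat_lit 555262274103) (nat_lit 88) (nat_lit 5) (nat_lit 91) (nat_lit 5) (nat_lit 89) (nat_lit 5) (nat_lit 524) (nat_lit 480) (nat_lit 196))) (XT.nd (nat_lit 78) (nat_lit 152) (nat_lit 0) (XT.lf (nat_lit 0) (nat_lit 228494376027) (nat_lit 228) (nat_lit 373395793125) (nat_lit 76) (nat_lit 116226880492) (nat_lit 86) (nat_lit 5) (nat_lit 89) (nat_lit 5) (nat_lit 87) (nat_lit 5) (nat_lit 525) (nat_lit 480) (nat_lit 195)) (XT.lf (nat_lit 0) (nat_lit 72720952077) (nat_lit 152) (nat_lit 356579139769) (nat_lit 228) (nat_lit 311600574643)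 (nat_lit 84) (nat_lit 5) (nat_lit 86) (nat_lit 5) (nat_lit 87) (nat_lit 5) (nat_lit 526) (nat_lit 480) (nat_lit 194)))) (XT.nd (nat_lit 156) (nat_lit 228) (nat_lit 0) (XT.nd (nat_lit 78) (nat_lit 152) (nat_lit 0) (XT.lf (nat_lit 0) (nat_lit 554106952934) (nat_lit 152) (nat_lit 92362755918) (nat_lit 228) (nat_lit 118037574555) (nat_lit 84) (nat_lit 5) (nat_lit 86) (nat_lit 5) (nat_lit 87) (nat_lit 5) (nat_lit 527) (nat_lit 480) (nat_lit 193)) (XT.lf (nat_lit 0) (nat_lit 89796503791) (nat_lit 152) (nat_lit 514163113335) (nat_lit 76) (nat_lit 184902101978) (nat_lit 82) (nat_lit 5) (nat_lit 84) (nat_lit 5) (nat_lit 83) (nat_lit 5) (nat_lit 528) (nat_lit 480) (nat_lit 192))) (XT.nd (nat_lit 78) (nat_lit 228) (nat_lit 0) (XT.lf (nat_lit 0) (nat_lit 309191216004) (nat_lit 152) (nat_lit 26406240592) (nat_lit 76) (nat_lit 478482879555) (nat_lit 82) (nat_lit 5) (nat_lit 84) (nat_lit 5) (nat_lit 83) (nat_lit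 5) (nat_lit 529) (nat_lit 480) (nat_lit 191)) (XT.nd (nat_lit 78) (nat_lit 76) (nat_lit 0) (XT.lf (nat_lit 0) (nat_lit 501799144684) (nat_lit 152) (nat_lit 45590989033) (nat_lit 228) (nat_lit 292778026839) (nat_lit 80) (nat_lit 5) (nat_lit 82) (nat_lit 5) (nat_lit 83) (nat_lit 5) (nat_lit 530) (nat_lit 480) (nat_lit 190)) (XT.lf (nat_lit 0) (nat_lit 191885306189) (nat_lit 76) (nat_lit 613106472568) (nat_lit 152) (nat_lit 62193958355) (nat_lit 79) (nat_lit 5) (nat_lit 80) (nat_lit 5) (nat_lit 81) (nat_lit 4) (nat_lit 531) (nat_lit 480) (nat_lit 189))))))))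
noncomputable def xc461 : XT := (XT.nd (nat_lit 58656) (nat_lit 0) (nat_lit 5548) (XT.nd (nat_lit 624) (nat_lit 304) (nat_lit 0) (XT.nd (nat_lit 312) (nat_lit 456) (nat_lit 0) (XT.nd (nat_lit 156) (nat_lit 152) (nat_lit 0) (XT.nd (nat_lit 78) (nat_lit 152) (nat_lit 0) (XT.lf (nat_lit 0) (nat_lit 180732529065) (nat_lit 152) (nat_lit 138518335256) (nat_lit 76) (nat_lit 575834288080) (nat_lit 78) (nat_lit 5) (nat_lit 80) (nat_lit 5) (nat_lit 79) (nat_lit 5) (nat_lit 532) (nat_lit 480) (nat_lit 188)) (XT.lf (nat_lit 0) (nat_lit 438105363786) (nat_lit 152) (nat_lit 2449884951) (nat_lit 228) (nat_lit 483431309429) (nat_lit 76) (nat_lit 5) (nat_lit 78) (nat_lit 5) (nat_lit 79) (nat_lit 5) (nat_lit 533) (nat_lit 480) (nat_lit 187))) (XT.nd (nat_lit 78) (nat_lit 76) (nat_lit 0) (XT.lf (nat_lit 0) (nat_lit 91901263291) (nat_lit 76) (nat_lit 630442198815) (nat_lit 152) (nat_lit 231540854225) (nat_lit 75)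 (nat_lit 5) (nat_lit 76) (nat_lit 5) (nat_lit 77) (nat_lit 4) (nat_lit 534) (nat_lit 480) (nat_lit 186)) (XT.lf (nat_lit 0) (nat_lit 40293377240) (nat_lit 152) (nat_lit 270113432946) (nat_lit 76) (nat_lit 674424251158) (nat_lit 74) (nat_lit 5) (nat_lit 76) (nat_lit 5) (nat_lit 75) (nat_lit 5) (nat_lit 535) (nat_lit 480) (nat_lit 185)))) (XT.nd (nat_lit 156) (nat_lit 304) (nat_lit 0) (XT.nd (nat_lit 78) (nat_lit 0) (nat_lit 0) (XT.lf (nat_lit 0) (nat_lit 324098001981) (nat_lit 228) (nat_lit 658363772248) (nat_lit 76) (nat_lit 34365583156) (nat_lit 72) (nat_lit 5) (nat_lit 75) (nat_lit 5) (nat_lit 73) (nat_lit 4) (nat_lit 536) (nat_lit 480) (nat_lit 184)) (XT.lf (nat_lit 0) (nat_lit 631830969157) (nat_lit 228) (nat_lit 27511223205) (nat_lit 76) (nat_lit 390594370305) (nat_lit 72) (nat_lit 5) (nat_lit 75) (nat_lit 5) (nat_lit 73) (nat_lit 4) (nat_lit 537) (nat_lit 480) (nat_lit 183))) (XT.nd (nat_lit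 78) (nat_lit 228) (nat_lit 0) (XT.lf (nat_lit 0) (nat_lit 655876049978) (nat_lit 76) (nat_lit 309314580276) (nat_lit 152) (nat_lit 118998595683) (nat_lit 71) (nat_lit 5) (nat_lit 72) (nat_lit 5) (nat_lit 73) (nat_lit 4) (nat_lit 538) (nat_lit 480) (nat_lit 182)) (XT.lf (nat_lit 0) (nat_lit 194378698088) (nat_lit 228) (nat_lit 861299642806) (nat_lit 76) (nat_lit 64045996669) (nat_lit 68) (nat_lit 5) (nat_lit 71) (nat_lit 5) (nat_lit 69) (nat_lit 4) (nat_lit 539) (nat_lit 480) (nat_lit 181))))) (XT.nd (nat_lit 312) (nat_lit 76) (nat_lit 0) (XT.nd (nat_lit 156) (nat_lit 152) (nat_lit 0) (XT.nd (nat_lit 78) (nat_lit 76) (nat_lit 0) (XT.lf (nat_lit 0) (nat_lit 531869040566) (nat_lit 228) (nat_lit 169444468426) (nat_lit 76) (nat_lit 455002990089) (nat_lit 68) (nat_lit 5) (nat_lit 71) (nat_lit 5) (nat_lit 69) (nat_lit 4) (nat_lit 540) (nat_lit 480) (nat_lit 180)) (XT.lf (nat_lit 0) (nat_lit 575420482165)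 (nat_lit 76) (nat_lit 319797327656) (nat_lit 152) (nat_lit 299071263372) (nat_lit 67) (nat_lit 5) (nat_lit 68) (nat_lit 5) (nat_lit 69) (nat_lit 4) (nat_lit 541) (nat_lit 480) (nat_lit 179))) (XT.nd (nat_lit 78) (nat_lit 0) (nat_lit 0) (XT.lf (nat_lit 0) (nat_lit 47557462928) (nat_lit 152) (nat_lit 1102293918229) (nat_lit 76) (nat_lit 83958342732) (nat_lit 65) (nat_lit 5) (nat_lit 67) (nat_lit 5) (nat_lit 66) (nat_lit 4) (nat_lit 542) (nat_lit 480) (nat_lit 178)) (XT.lf (nat_lit 0) (nat_lit 417362088621) (nat_lit 152) (nat_lit 344194458347) (nat_lit 76) (nat_lit 512709958840) (nat_lit 65) (nat_lit 5) (nat_lit 67) (nat_lit 5) (nat_lit 66) (nat_lit 4) (nat_lit 543) (nat_lit 480) (nat_lit 177)))) (XT.nd (nat_lit 57564) (nat_lit 0) (nat_lit 7524) (XT.nd (nat_lit 78) (nat_lit 0) (nat_lit 0) (XT.lf (nat_lit 0) (nat_lit 466748821600) (nat_lit 76) (nat_lit 346195365386) (nat_lit 152) (nat_lit 503437577766)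 (nat_lit 64) (nat_lit 5) (nat_lit 65) (nat_lit 5) (nat_lit 66) (nat_lit 4) (nat_lit 544) (nat_lit 480) (nat_lit 176)) (XT.lf (nat_lit 0) (nat_lit 1235634153103) (nat_lit 152) (nat_lit 31622120768) (nat_lit 0) (nat_lit 92980074632) (nat_lit 64) (nat_lit 5) (nat_lit 66) (nat_lit 4) (nat_lit 64) (nat_lit 4) (nat_lit 545) (nat_lit 480) (nat_lit 175))) (XT.nd (nat_lit 78) (nat_lit 0) (nat_lit 0) (XT.lf (nat_lit 0) (nat_lit 46782733674) (nat_lit 836) (nat_lit 29413257280) (nat_lit 836) (nat_lit 29413257280) (nat_lit 163) (nat_lit 3) (nat_lit 174) (nat_lit 3) (nat_lit 174) (nat_lit 5) (nat_lit 481) (nat_lit 481) (nat_lit 238)) (XT.lf (nat_lit 76) (nat_lit 47887544716) (nat_lit 0) (nat_lit 48766160963) (nat_lit 836) (nat_lit 119807798010) (nat_lit 164) (nat_lit 5) (nat_lit 163) (nat_lit 3) (nat_lit 174) (nat_lit 5) (nat_lit 482) (nat_lit 481) (nat_lit 237)))))) (XT.nd (nat_lit 624) (nat_lit 2052) (nat_lit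 0) (XT.nd (nat_lit 312) (nat_lit 0) (nat_lit 152) (XT.nd (nat_lit 156) (nat_lit 0) (nat_lit 76) (XT.nd (nat_lit 78) (nat_lit 0) (nat_lit 0) (XT.lf (nat_lit 0) (nat_lit 101846258511) (nat_lit 760) (nat_lit 60891012786) (nat_lit 836) (nat_lit 59131894849) (nat_lit 164) (nat_lit 5) (nat_lit 174) (nat_lit 5) (nat_lit 175) (nat_lit 5) (nat_lit 483) (nat_lit 481) (nat_lit 236)) (XT.lf (nat_lit 76) (nat_lit 53075324501) (nat_lit 0) (nat_lit 55851126235) (nat_lit 836) (nat_lit 118539360409) (nat_lit 165) (nat_lit 5) (nat_lit 164) (nat_lit 5) (nat_lit 175) (nat_lit 5) (nat_lit 484) (nat_lit 481) (nat_lit 235))) (XT.nd (nat_lit 78) (nat_lit 0) (nat_lit 0) (XT.lf (nat_lit 0) (nat_lit 118288931673) (nat_lit 760) (nat_lit 59333951537) (nat_lit 836) (nat_lit 55622991236) (nat_lit 165) (nat_lit 5) (nat_lit 175) (nat_lit 5) (nat_lit 176) (nat_lit 5) (nat_lit 485) (nat_lit 481) (nat_lit 234)) (XT.lf (nat_lit 76)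 (nat_lit 62562143394) (nat_lit 0) (nat_lit 67449675718) (nat_lit 836) (nat_lit 109208507683) (nat_lit 166) (nat_lit 5) (nat_lit 165) (nat_lit 5) (nat_lit 176) (nat_lit 5) (nat_lit 486) (nat_lit 481) (nat_lit 233)))) (XT.nd (nat_lit 156) (nat_lit 0) (nat_lit 76) (XT.nd (nat_lit 78) (nat_lit 0) (nat_lit 0) (XT.lf (nat_lit 0) (nat_lit 144095135927) (nat_lit 760) (nat_lit 53599845403) (nat_lit 836) (nat_lit 47709806185) (nat_lit 166) (nat_lit 5) (nat_lit 176) (nat_lit 5) (nat_lit 177) (nat_lit 5) (nat_lit 487) (nat_lit 481) (nat_lit 232)) (XT.lf (nat_lit 76) (nat_lit 76969114828) (nat_lit 0) (nat_lit 84220866587) (nat_lit 836) (nat_lit 90593121723) (nat_lit 167) (nat_lit 5) (nat_lit 166) (nat_lit 5) (nat_lit 177) (nat_lit 5) (nat_lit 488) (nat_lit 481) (nat_lit 231))) (XT.nd (nat_lit 78) (nat_lit 0) (nat_lit 0) (XT.lf (nat_lit 0) (nat_lit 180607426860) (nat_lit 760) (nat_lit 43067805052) (nat_lit 836)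 (nat_lit 34731709750) (nat_lit 167) (nat_lit 5) (nat_lit 177) (nat_lit 5) (nat_lit 178) (nat_lit 5) (nat_lit 489) (nat_lit 481) (nat_lit 230)) (XT.lf (nat_lit 76) (nat_lit 96989223483) (nat_lit 0) (nat_lit 106901397734) (nat_lit 836) (nat_lit 61326607068) (nat_lit 168) (nat_lit 5) (nat_lit 167) (nat_lit 5) (nat_lit 178) (nat_lit 5) (nat_lit 490) (nat_lit 481) (nat_lit 229))))) (XT.nd (nat_lit 312) (nat_lit 1064) (nat_lit 0) (XT.nd (nat_lit 156) (nat_lit 532) (nat_lit 0) (XT.nd (nat_lit 78) (nat_lit 760) (nat_lit 0) (XT.lf (nat_lit 0) (nat_lit 229324536719) (nat_lit 760) (nat_lit 27044549158) (nat_lit 76) (nat_lit 15949615297) (nat_lit 168) (nat_lit 5) (nat_lit 178) (nat_lit 5) (nat_lit 169) (nat_lit 5) (nat_lit 491) (nat_lit 481) (nat_lit 228)) (XT.lf (nat_lit 0) (nat_lit 123394951825) (nat_lit 760) (nat_lit 136314157793) (nat_lit 836) (nat_lit 19882190012) (nat_lit 158) (nat_lit 5) (nat_lit 168)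 (nat_lit 5) (nat_lit 169) (nat_lit 5) (nat_lit 492) (nat_lit 481) (nat_lit 227))) (XT.nd (nat_lit 78) (nat_lit 456) (nat_lit 0) (XT.lf (nat_lit 0) (nat_lit 4710484218) (nat_lit 836) (nat_lit 4985306072) (nat_lit 76) (nat_lit 277505041280) (nat_lit 157) (nat_lit 5) (nat_lit 168) (nat_lit 5) (nat_lit 158) (nat_lit 5) (nat_lit 493) (nat_lit 481) (nat_lit 226)) (XT.lf (nat_lit 0) (nat_lit 34309981222) (nat_lit 532) (nat_lit 138486652457) (nat_lit 76) (nat_lit 122155641507) (nat_lit 151) (nat_lit 5) (nat_lit 158) (nat_lit 5) (nat_lit 152) (nat_lit 5) (nat_lit 494) (nat_lit 481) (nat_lit 225)))) (XT.nd (nat_lit 156) (nat_lit 684) (nat_lit 0) (XT.nd (nat_lit 78) (nat_lit 0) (nat_lit 0) (XT.lf (nat_lit 0) (nat_lit 23672384658) (nat_lit 380) (nat_lit 42331365332) (nat_lit 456) (nat_lit 237056826149) (nat_lit 146) (nat_lit 5) (nat_lit 151) (nat_lit 5) (nat_lit 152) (nat_lit 5) (nat_lit 495) (nat_lit 481)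 (nat_lit 224)) (XT.lf (nat_lit 0) (nat_lit 103143803885) (nat_lit 456) (nat_lit 114226076349) (nat_lit 76) (nat_lit 94011332074) (nat_lit 146) (nat_lit 5) (nat_lit 152) (nat_lit 5) (nat_lit 147) (nat_lit 5) (nat_lit 496) (nat_lit 481) (nat_lit 223))) (XT.nd (nat_lit 78) (nat_lit 304) (nat_lit 0) (XT.lf (nat_lit 0) (nat_lit 60434412240) (nat_lit 380) (nat_lit 83343904542) (nat_lit 456) (nat_lit 176257690693) (nat_lit 141) (nat_lit 5) (nat_lit 146) (nat_lit 5) (nat_lit 147) (nat_lit 5) (nat_lit 497) (nat_lit 481) (nat_lit 222)) (XT.nd (nat_lit 78) (nat_lit 304) (nat_lit 0) (XT.lf (nat_lit 0) (nat_lit 189306607602) (nat_lit 456) (nat_lit 82160905560) (nat_lit 76) (nat_lit 57512926626) (nat_lit 141) (nat_lit 5) (nat_lit 147) (nat_lit 5) (nat_lit 142) (nat_lit 5) (nat_lit 498) (nat_lit 481) (nat_lit 221)) (XT.lf (nat_lit 0) (nat_lit 106184023985) (nat_lit 304) (nat_lit 133951365544) (nat_lit 380) (nat_lit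 98085500364) (nat_lit 137) (nat_lit 5) (nat_lit 141) (nat_lit 5) (nat_lit 142) (nat_lit 5) (nat_lit 499) (nat_lit 481) (nat_lit 220))))))))
noncomputable def xc462 : XT := (XT.nd (nat_lit 1248) (nat_lit 1900) (nat_lit 0) (XT.nd (nat_lit 624) (nat_lit 1216) (nat_lit 0) (XT.nd (nat_lit 312) (nat_lit 608) (nat_lit 0) (XT.nd (nat_lit 156) (nat_lit 380) (nat_lit 0) (XT.nd (nat_lit 78) (nat_lit 304) (nat_lit 0) (XT.lf (nat_lit 0) (nat_lit 295082816694) (nat_lit 380) (nat_lit 41241021240) (nat_lit 76) (nat_lit 11520664264) (nat_lit 137) (nat_lit 5) (nat_lit 142) (nat_lit 5) (nat_lit 138) (nat_lit 5) (nat_lit 500) (nat_lit 481) (nat_lit 219)) (XT.lf (nat_lit 0) (nat_lit 162086417502) (nat_lit 304) (nat_lit 195417701330) (nat_lit 380) (nat_lit 208851110) (nat_lit 133) (nat_lit 5) (nat_lit 137) (nat_lit 5) (nat_lit 138) (nat_lit 5) (nat_lit 501) (nat_lit 481) (nat_lit 218))) (XT.nd (nat_lit 78) (nat_lit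 0) (nat_lit 0) (XT.lf (nat_lit 0) (nat_lit 8370220153) (nat_lit 304) (nat_lit 45682495524) (nat_lit 380) (nat_lit 313937206042) (nat_lit 128) (nat_lit 5) (nat_lit 132) (nat_lit 5) (nat_lit 133) (nat_lit 5) (nat_lit 502) (nat_lit 481) (nat_lit 217)) (XT.lf (nat_lit 0) (nat_lit 116129086107) (nat_lit 380) (nat_lit 151055758947) (nat_lit 76) (nat_lit 111340267642) (nat_lit 128) (nat_lit 5) (nat_lit 133) (nat_lit 5) (nat_lit 129) (nat_lit 5) (nat_lit 503) (nat_lit 481) (nat_lit 216)))) (XT.nd (nat_lit 156) (nat_lit 304) (nat_lit 0) (XT.nd (nat_lit 78) (nat_lit 0) (nat_lit 0) (XT.lf (nat_lit 0) (nat_lit 69408956627) (nat_lit 304) (nat_lit 113732840175) (nat_lit 380) (nat_lit 206353640334) (nat_lit 124) (nat_lit 5) (nat_lit 128) (nat_lit 5) (nat_lit 129) (nat_lit 5) (nat_lit 504) (nat_lit 481) (nat_lit 215)) (XT.lf (nat_lit 0) (nat_lit 256845162403) (nat_lit 380) (nat_lit 95527052687) (nat_lit 76) (nat_lit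 48475061741) (nat_lit 124) (nat_lit 5) (nat_lit 129) (nat_lit 5) (nat_lit 125) (nat_lit 5) (nat_lit 505) (nat_lit 481) (nat_lit 214))) (XT.nd (nat_lit 78) (nat_lit 76) (nat_lit 0) (XT.lf (nat_lit 0) (nat_lit 142971815336) (nat_lit 228) (nat_lit 195358507300) (nat_lit 304) (nat_lit 74231554561) (nat_lit 121) (nat_lit 5) (nat_lit 124) (nat_lit 5) (nat_lit 125) (nat_lit 5) (nat_lit 506) (nat_lit 481) (nat_lit 213)) (XT.lf (nat_lit 0) (nat_lit 702939693) (nat_lit 304) (nat_lit 28080595528) (nat_lit 76) (nat_lit 395997217438) (nat_lit 120) (nat_lit 5) (nat_lit 124) (nat_lit 5) (nat_lit 121) (nat_lit 5) (nat_lit 507) (nat_lit 481) (nat_lit 212))))) (XT.nd (nat_lit 312) (nat_lit 456) (nat_lit 0) (XT.nd (nat_lit 156) (nat_lit 228) (nat_lit 0) (XT.nd (nat_lit 78) (nat_lit 228) (nat_lit 0) (XT.lf (nat_lit 0) (nat_lit 82867593827) (nat_lit 380) (nat_lit 208026109989) (nat_lit 76) (nat_lit 146357117435) (nat_lit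 116) (nat_lit 5) (nat_lit 121) (nat_lit 5) (nat_lit 117) (nat_lit 5) (nat_lit 508) (nat_lit 481) (nat_lit 211)) (XT.lf (nat_lit 0) (nat_lit 51208860833) (nat_lit 228) (nat_lit 119686315167) (nat_lit 304) (nat_lit 279361482509) (nat_lit 113) (nat_lit 5) (nat_lit 116) (nat_lit 5) (nat_lit 117) (nat_lit 5) (nat_lit 509) (nat_lit 481) (nat_lit 210))) (XT.nd (nat_lit 78) (nat_lit 228) (nat_lit 0) (XT.lf (nat_lit 0) (nat_lit 267842920713) (nat_lit 304) (nat_lit 134104702496) (nat_lit 76) (nat_lit 61739225250) (nat_lit 113) (nat_lit 5) (nat_lit 117) (nat_lit 5) (nat_lit 114) (nat_lit 5) (nat_lit 510) (nat_lit 481) (nat_lit 209)) (XT.lf (nat_lit 0) (nat_lit 146822672646) (nat_lit 228) (nat_lit 227069732171) (nat_lit 304) (nat_lit 103683425483) (nat_lit 110) (nat_lit 5) (nat_lit 113) (nat_lit 5) (nat_lit 114) (nat_lit 5) (nat_lit 511) (nat_lit 481) (nat_lit 208)))) (XT.nd (nat_lit 156) (nat_lit 228) (nat_lit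 0) (XT.nd (nat_lit 78) (nat_lit 228) (nat_lit 0) (XT.lf (nat_lit 0) (nat_lit 446452183243) (nat_lit 228) (nat_lit 41063276744) (nat_lit 304) (nat_lit 4530246405) (nat_lit 110) (nat_lit 5) (nat_lit 113) (nat_lit 5) (nat_lit 114) (nat_lit 5) (nat_lit 512) (nat_lit 481) (nat_lit 207)) (XT.lf (nat_lit 0) (nat_lit 102962583705) (nat_lit 228) (nat_lit 248847782057) (nat_lit 76) (nat_lit 155022514277) (nat_lit 107) (nat_lit 5) (nat_lit 110) (nat_lit 5) (nat_lit 108) (nat_lit 5) (nat_lit 513) (nat_lit 481) (nat_lit 206))) (XT.nd (nat_lit 78) (nat_lit 0) (nat_lit 0) (XT.lf (nat_lit 0) (nat_lit 57071247654) (nat_lit 228) (nat_lit 160955549174) (nat_lit 304) (nat_lit 304211452852) (nat_lit 104) (nat_lit 5) (nat_lit 107) (nat_lit 5) (nat_lit 108) (nat_lit 5) (nat_lit 514) (nat_lit 481) (nat_lit 205)) (XT.lf (nat_lit 0) (nat_lit 343743437155) (nat_lit 304) (nat_lit 151962441689) (nat_lit 76) (nat_lit 42463048131)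 (nat_lit 104) (nat_lit 5) (nat_lit 108) (nat_lit 5) (nat_lit 105) (nat_lit 5) (nat_lit 515) (nat_lit 481) (nat_lit 204)))))) (XT.nd (nat_lit 624) (nat_lit 912) (nat_lit 0) (XT.nd (nat_lit 312) (nat_lit 380) (nat_lit 0) (XT.nd (nat_lit 156) (nat_lit 380) (nat_lit 0) (XT.nd (nat_lit 78) (nat_lit 76) (nat_lit 0) (XT.lf (nat_lit 0) (nat_lit 180025632203) (nat_lit 152) (nat_lit 301169569716) (nat_lit 228) (nat_lit 73428471596) (nat_lit 102) (nat_lit 5) (nat_lit 104) (nat_lit 5) (nat_lit 105) (nat_lit 5) (nat_lit 516) (nat_lit 481) (nat_lit 203)) (XT.lf (nat_lit 0) (nat_lit 54517993345) (nat_lit 228) (nat_lit 38762943426) (nat_lit 76) (nat_lit 478447577971) (nat_lit 101) (nat_lit 5) (nat_lit 104) (nat_lit 5) (nat_lit 102) (nat_lit 5) (nat_lit 517) (nat_lit 481) (nat_lit 202))) (XT.nd (nat_lit 78) (nat_lit 152) (nat_lit 0) (XT.lf (nat_lit 0) (nat_lit 193491019739) (nat_lit 304) (nat_lit 268432226187)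 (nat_lit 76) (nat_lit 127350319017) (nat_lit 98) (nat_lit 5) (nat_lit 102) (nat_lit 5) (nat_lit 99) (nat_lit 5) (nat_lit 518) (nat_lit 481) (nat_lit 201)) (XT.lf (nat_lit 0) (nat_lit 93563158715) (nat_lit 152) (nat_lit 249506722652) (nat_lit 228) (nat_lit 264443127090) (nat_lit 96) (nat_lit 5) (nat_lit 98) (nat_lit 5) (nat_lit 99) (nat_lit 5) (nat_lit 519) (nat_lit 481) (nat_lit 200)))) (XT.nd (nat_lit 156) (nat_lit 152) (nat_lit 0) (XT.nd (nat_lit 78) (nat_lit 228) (nat_lit 0) (XT.lf (nat_lit 0) (nat_lit 482977632373) (nat_lit 152) (nat_lit 21696058050) (nat_lit 228) (nat_lit 121763433509) (nat_lit 96) (nat_lit 5) (nat_lit 98) (nat_lit 5) (nat_lit 99) (nat_lit 5) (nat_lit 520) (nat_lit 481) (nat_lit 199)) (XT.lf (nat_lit 0) (nat_lit 34573799254) (nat_lit 228) (nat_lit 396333639672) (nat_lit 76) (nat_lit 215007042233) (nat_lit 93) (nat_lit 5) (nat_lit 96) (nat_lit 5) (nat_lit 94) (nat_lit 5) (nat_lit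 521) (nat_lit 481) (nat_lit 198))) (XT.nd (nat_lit 78) (nat_lit 152) (nat_lit 0) (XT.lf (nat_lit 0) (nat_lit 197460877439) (nat_lit 228) (nat_lit 1382111788) (nat_lit 76) (nat_lit 467281659247) (nat_lit 93) (nat_lit 5) (nat_lit 96) (nat_lit 5) (nat_lit 94) (nat_lit 5) (nat_lit 522) (nat_lit 481) (nat_lit 197)) (XT.lf (nat_lit 0) (nat_lit 375967812961) (nat_lit 228) (nat_lit 260838050050) (nat_lit 76) (nat_lit 50165685976) (nat_lit 91) (nat_lit 5) (nat_lit 94) (nat_lit 5) (nat_lit 92) (nat_lit 5) (nat_lit 523) (nat_lit 481) (nat_lit 196))))) (XT.nd (nat_lit 312) (nat_lit 380) (nat_lit 0) (XT.nd (nat_lit 156) (nat_lit 304) (nat_lit 0) (XT.nd (nat_lit 78) (nat_lit 76) (nat_lit 0) (XT.lf (nat_lit 0) (nat_lit 168341071825) (nat_lit 152) (nat_lit 400970788165) (nat_lit 228) (nat_lit 139253346298) (nat_lit 89) (nat_lit 5) (nat_lit 91) (nat_lit 5) (nat_lit 92) (nat_lit 5) (nat_lit 524) (nat_lit 481) (nat_lit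 195)) (XT.lf (nat_lit 0) (nat_lit 44259412977) (nat_lit 228) (nat_lit 103696718354) (nat_lit 76) (nat_lit 583025852232) (nat_lit 88) (nat_lit 5) (nat_lit 91) (nat_lit 5) (nat_lit 89) (nat_lit 5) (nat_lit 525) (nat_lit 481) (nat_lit 194))) (XT.nd (nat_lit 78) (nat_lit 152) (nat_lit 0) (XT.lf (nat_lit 0) (nat_lit 239919783946) (nat_lit 228) (nat_lit 392064380264) (nat_lit 76) (nat_lit 122038703441) (nat_lit 86) (nat_lit 5) (nat_lit 89) (nat_lit 5) (nat_lit 87) (nat_lit 5) (nat_lit 526) (nat_lit 481) (nat_lit 193)) (XT.lf (nat_lit 0) (nat_lit 76358182802) (nat_lit 152) (nat_lit 374407588410) (nat_lit 228) (nat_lit 327179894844) (nat_lit 84) (nat_lit 5) (nat_lit 86) (nat_lit 5) (nat_lit 87) (nat_lit 5) (nat_lit 527) (nat_lit 481) (nat_lit 192)))) (XT.nd (nat_lit 156) (nat_lit 228) (nat_lit 0) (XT.nd (nat_lit 78) (nat_lit 152) (nat_lit 0) (XT.lf (nat_lit 0) (nat_lit 581813427363) (nat_lit 152) (nat_lit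 96980409574) (nat_lit 228) (nat_lit 123938778491) (nat_lit 84) (nat_lit 5) (nat_lit 86) (nat_lit 5) (nat_lit 87) (nat_lit 5) (nat_lit 528) (nat_lit 481) (nat_lit 191)) (XT.lf (nat_lit 0) (nat_lit 94286976363) (nat_lit 152) (nat_lit 539870114778) (nat_lit 76) (nat_lit 194147681534) (nat_lit 82) (nat_lit 5) (nat_lit 84) (nat_lit 5) (nat_lit 83) (nat_lit 5) (nat_lit 529) (nat_lit 481) (nat_lit 190))) (XT.nd (nat_lit 78) (nat_lit 228) (nat_lit 0) (XT.lf (nat_lit 0) (nat_lit 324651393359) (nat_lit 152) (nat_lit 27725453361) (nat_lit 76) (nat_lit 502407475396) (nat_lit 82) (nat_lit 5) (nat_lit 84) (nat_lit 5) (nat_lit 83) (nat_lit 5) (nat_lit 530) (nat_lit 481) (nat_lit 189)) (XT.nd (nat_lit 78) (nat_lit 76) (nat_lit 0) (XT.lf (nat_lit 0) (nat_lit 526890183450) (nat_lit 152) (nat_lit 47870061035) (nat_lit 228) (nat_lit 307416293882) (nat_lit 80) (nat_lit 5) (nat_lit 82) (nat_lit 5) (nat_lit 83) (nat_lit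 5) (nat_lit 531) (nat_lit 481) (nat_lit 188)) (XT.lf (nat_lit 0) (nat_lit 201480657982) (nat_lit 76) (nat_lit 643761309090) (nat_lit 152) (nat_lit 65303026913) (nat_lit 79) (nat_lit 5) (nat_lit 80) (nat_lit 5) (nat_lit 81) (nat_lit 4) (nat_lit 532) (nat_lit 481) (nat_lit 187))))))))
noncomputable def xc463 : XT := (XT.nd (nat_lit 58812) (nat_lit 0) (nat_lit 5168) (XT.nd (nat_lit 624) (nat_lit 228) (nat_lit 0) (XT.nd (nat_lit 312) (nat_lit 456) (nat_lit 0) (XT.nd (nat_lit 156) (nat_lit 152) (nat_lit 0) (XT.nd (nat_lit 78) (nat_lit 152) (nat_lit 0) (XT.lf (nat_lit 0) (nat_lit 189769735724) (nat_lit 152) (nat_lit 145443198076) (nat_lit 76) (nat_lit 604626447198) (nat_lit 78) (nat_lit 5) (nat_lit 80) (nat_lit 5) (nat_lit 79) (nat_lit 5) (nat_lit 533) (nat_lit 481) (nat_lit 186)) (XT.lf (nat_lit 0) (nat_lit 460011668919) (nat_lit 152) (nat_lit 2571911021) (nat_lit 228) (nat_lit 507602277683) (nat_lit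 76) (nat_lit 5) (nat_lit 78) (nat_lit 5) (nat_lit 79) (nat_lit 5) (nat_lit 534) (nat_lit 481) (nat_lit 185))) (XT.nd (nat_lit 78) (nat_lit 76) (nat_lit 0) (XT.lf (nat_lit 0) (nat_lit 96497367475) (nat_lit 76) (nat_lit 661963832635) (nat_lit 152) (nat_lit 243117303783) (nat_lit 75) (nat_lit 5) (nat_lit 76) (nat_lit 5) (nat_lit 77) (nat_lit 4) (nat_lit 535) (nat_lit 481) (nat_lit 184)) (XT.lf (nat_lit 0) (nat_lit 42308592929) (nat_lit 152) (nat_lit 283618095056) (nat_lit 76) (nat_lit 708145899074) (nat_lit 74) (nat_lit 5) (nat_lit 76) (nat_lit 5) (nat_lit 75) (nat_lit 5) (nat_lit 536) (nat_lit 481) (nat_lit 183)))) (XT.nd (nat_lit 156) (nat_lit 304) (nat_lit 0) (XT.nd (nat_lit 78) (nat_lit 0) (nat_lit 0) (XT.lf (nat_lit 0) (nat_lit 340303445510) (nat_lit 228) (nat_lit 691280947916) (nat_lit 76) (nat_lit 36084304647) (nat_lit 72) (nat_lit 5) (nat_lit 75) (nat_lit 5) (nat_lit 73) (nat_lit 4) (nat_lit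 537) (nat_lit 481) (nat_lit 182)) (XT.lf (nat_lit 0) (nat_lit 663423035167) (nat_lit 228) (nat_lit 28885819657) (nat_lit 76) (nat_lit 410124510090) (nat_lit 72) (nat_lit 5) (nat_lit 75) (nat_lit 5) (nat_lit 73) (nat_lit 4) (nat_lit 538) (nat_lit 481) (nat_lit 181))) (XT.nd (nat_lit 78) (nat_lit 228) (nat_lit 0) (XT.lf (nat_lit 0) (nat_lit 688670801626) (nat_lit 76) (nat_lit 324779867867) (nat_lit 152) (nat_lit 124947992347) (nat_lit 71) (nat_lit 5) (nat_lit 72) (nat_lit 5) (nat_lit 73) (nat_lit 4) (nat_lit 539) (nat_lit 481) (nat_lit 180)) (XT.lf (nat_lit 0) (nat_lit 204098146255) (nat_lit 228) (nat_lit 904363655923) (nat_lit 76) (nat_lit 67248726593) (nat_lit 68) (nat_lit 5) (nat_lit 71) (nat_lit 5) (nat_lit 69) (nat_lit 4) (nat_lit 540) (nat_lit 481) (nat_lit 179))))) (XT.nd (nat_lit 57876) (nat_lit 0) (nat_lit 7448) (XT.nd (nat_lit 156) (nat_lit 152) (nat_lit 0) (XT.nd (nat_lit 78) (nat_lit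 76) (nat_lit 0) (XT.lf (nat_lit 0) (nat_lit 558462981416) (nat_lit 228) (nat_lit 177915768968) (nat_lit 76) (nat_lit 477753549203) (nat_lit 68) (nat_lit 5) (nat_lit 71) (nat_lit 5) (nat_lit 69) (nat_lit 4) (nat_lit 541) (nat_lit 481) (nat_lit 178)) (XT.lf (nat_lit 0) (nat_lit 604192414268) (nat_lit 76) (nat_lit 335786765765) (nat_lit 152) (nat_lit 314024322827) (nat_lit 67) (nat_lit 5) (nat_lit 68) (nat_lit 5) (nat_lit 69) (nat_lit 4) (nat_lit 542) (nat_lit 481) (nat_lit 177))) (XT.nd (nat_lit 78) (nat_lit 0) (nat_lit 0) (XT.lf (nat_lit 0) (nat_lit 49935821367) (nat_lit 152) (nat_lit 1157407687711) (nat_lit 76) (nat_lit 88156676735) (nat_lit 65) (nat_lit 5) (nat_lit 67) (nat_lit 5) (nat_lit 66) (nat_lit 4) (nat_lit 543) (nat_lit 481) (nat_lit 176)) (XT.lf (nat_lit 0) (nat_lit 438230655235) (nat_lit 152) (nat_lit 361403298951) (nat_lit 76) (nat_lit 538345853797) (nat_lit 65) (nat_lit 5) (nat_lit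 67) (nat_lit 5) (nat_lit 66) (nat_lit 4) (nat_lit 544) (nat_lit 481) (nat_lit 175)))) (XT.nd (nat_lit 156) (nat_lit 0) (nat_lit 76) (XT.nd (nat_lit 78) (nat_lit 0) (nat_lit 0) (XT.lf (nat_lit 0) (nat_lit 49123290700) (nat_lit 836) (nat_lit 30883174410) (nat_lit 836) (nat_lit 30883174410) (nat_lit 163) (nat_lit 3) (nat_lit 174) (nat_lit 3) (nat_lit 174) (nat_lit 5) (nat_lit 482) (nat_lit 482) (nat_lit 236)) (XT.lf (nat_lit 76) (nat_lit 50283389365) (nat_lit 0) (nat_lit 51205729923) (nat_lit 836) (nat_lit 125795322962) (nat_lit 164) (nat_lit 5) (nat_lit 163) (nat_lit 3) (nat_lit 174) (nat_lit 5) (nat_lit 483) (nat_lit 482) (nat_lit 235))) (XT.nd (nat_lit 78) (nat_lit 0) (nat_lit 0) (XT.lf (nat_lit 0) (nat_lit 106941151092) (nat_lit 760) (nat_lit 63934017021) (nat_lit 836) (nat_lit 62087327159) (nat_lit 164) (nat_lit 5) (nat_lit 174) (nat_lit 5) (nat_lit 175) (nat_lit 5) (nat_lit 484) (nat_lit 482)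 (nat_lit 234)) (XT.lf (nat_lit 76) (nat_lit 55730612189) (nat_lit 0) (nat_lit 58644641653) (nat_lit 836) (nat_lit 124463723643) (nat_lit 165) (nat_lit 5) (nat_lit 164) (nat_lit 5) (nat_lit 175) (nat_lit 5) (nat_lit 485) (nat_lit 482) (nat_lit 233)))))) (XT.nd (nat_lit 624) (nat_lit 1900) (nat_lit 0) (XT.nd (nat_lit 312) (nat_lit 532) (nat_lit 0) (XT.nd (nat_lit 156) (nat_lit 0) (nat_lit 76) (XT.nd (nat_lit 78) (nat_lit 0) (nat_lit 0) (XT.lf (nat_lit 0) (nat_lit 124205726442) (nat_lit 760) (nat_lit 62299067538) (nat_lit 836) (nat_lit 58403256598) (nat_lit 165) (nat_lit 5) (nat_lit 175) (nat_lit 5) (nat_lit 176) (nat_lit 5) (nat_lit 486) (nat_lit 482) (nat_lit 232)) (XT.lf (nat_lit 76) (nat_lit 65691806630) (nat_lit 0) (nat_lit 70822864098) (nat_lit 836) (nat_lit 114666559201) (nat_lit 166) (nat_lit 5) (nat_lit 165) (nat_lit 5) (nat_lit 176) (nat_lit 5) (nat_lit 487) (nat_lit 482) (nat_lit 231)))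 (XT.nd (nat_lit 78) (nat_lit 0) (nat_lit 0) (XT.lf (nat_lit 0) (nat_lit 151302035257) (nat_lit 760) (nat_lit 56278237415) (nat_lit 836) (nat_lit 50094646930) (nat_lit 166) (nat_lit 5) (nat_lit 176) (nat_lit 5) (nat_lit 177) (nat_lit 5) (nat_lit 488) (nat_lit 482) (nat_lit 230)) (XT.lf (nat_lit 76) (nat_lit 80819145018) (nat_lit 0) (nat_lit 88432400558) (nat_lit 836) (nat_lit 95120609309) (nat_lit 167) (nat_lit 5) (nat_lit 166) (nat_lit 5) (nat_lit 177) (nat_lit 5) (nat_lit 489) (nat_lit 482) (nat_lit 229)))) (XT.nd (nat_lit 156) (nat_lit 684) (nat_lit 0) (XT.nd (nat_lit 78) (nat_lit 0) (nat_lit 0) (XT.lf (nat_lit 0) (nat_lit 189639757660) (nat_lit 760) (nat_lit 45219590048) (nat_lit 836) (nat_lit 36467842916) (nat_lit 167) (nat_lit 5) (nat_lit 177) (nat_lit 5) (nat_lit 178) (nat_lit 5) (nat_lit 490) (nat_lit 482) (nat_lit 228)) (XT.lf (nat_lit 76) (nat_lit 101840264022) (nat_lit 0) (nat_lit 112246779063)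 (nat_lit 836) (nat_lit 64390951933) (nat_lit 168) (nat_lit 5) (nat_lit 167) (nat_lit 5) (nat_lit 178) (nat_lit 5) (nat_lit 491) (nat_lit 482) (nat_lit 227))) (XT.nd (nat_lit 78) (nat_lit 760) (nat_lit 0) (XT.lf (nat_lit 0) (nat_lit 240792559693) (nat_lit 760) (nat_lit 28395177655) (nat_lit 76) (nat_lit 16746808943) (nat_lit 168) (nat_lit 5) (nat_lit 178) (nat_lit 5) (nat_lit 169) (nat_lit 5) (nat_lit 492) (nat_lit 482) (nat_lit 226)) (XT.lf (nat_lit 0) (nat_lit 129566272587) (nat_lit 760) (nat_lit 143130027681) (nat_lit 836) (nat_lit 20874477457) (nat_lit 158) (nat_lit 5) (nat_lit 168) (nat_lit 5) (nat_lit 169) (nat_lit 5) (nat_lit 493) (nat_lit 482) (nat_lit 225))))) (XT.nd (nat_lit 312) (nat_lit 988) (nat_lit 0) (XT.nd (nat_lit 156) (nat_lit 380) (nat_lit 0) (XT.nd (nat_lit 78) (nat_lit 456) (nat_lit 0) (XT.lf (nat_lit 0) (nat_lit 4947688181) (nat_lit 836) (nat_lit 5233017461) (nat_lit 76) (nat_lit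 291380083404) (nat_lit 157) (nat_lit 5) (nat_lit 168) (nat_lit 5) (nat_lit 158) (nat_lit 5) (nat_lit 494) (nat_lit 482) (nat_lit 224)) (XT.lf (nat_lit 0) (nat_lit 36027102436) (nat_lit 532) (nat_lit 145409373456) (nat_lit 76) (nat_lit 128263331835) (nat_lit 151) (nat_lit 5) (nat_lit 158) (nat_lit 5) (nat_lit 152) (nat_lit 5) (nat_lit 495) (nat_lit 482) (nat_lit 223))) (XT.nd (nat_lit 78) (nat_lit 0) (nat_lit 0) (XT.lf (nat_lit 0) (nat_lit 24857589521) (nat_lit 380) (nat_lit 44447917632) (nat_lit 456) (nat_lit 248908019204) (nat_lit 146) (nat_lit 5) (nat_lit 151) (nat_lit 5) (nat_lit 152) (nat_lit 5) (nat_lit 496) (nat_lit 482) (nat_lit 222)) (XT.lf (nat_lit 0) (nat_lit 108302489235) (nat_lit 456) (nat_lit 119935795434) (nat_lit 76) (nat_lit 98711913397) (nat_lit 146) (nat_lit 5) (nat_lit 152) (nat_lit 5) (nat_lit 147) (nat_lit 5) (nat_lit 497) (nat_lit 482) (nat_lit 221)))) (XT.nd (nat_lit 156)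 (nat_lit 608) (nat_lit 0) (XT.nd (nat_lit 78) (nat_lit 0) (nat_lit 0) (XT.lf (nat_lit 0) (nat_lit 63457692024) (nat_lit 380) (nat_lit 87510988897) (nat_lit 456) (nat_lit 185069054416) (nat_lit 141) (nat_lit 5) (nat_lit 146) (nat_lit 5) (nat_lit 147) (nat_lit 5) (nat_lit 498) (nat_lit 482) (nat_lit 220)) (XT.lf (nat_lit 0) (nat_lit 198773318965) (nat_lit 456) (nat_lit 86267398503) (nat_lit 76) (nat_lit 60388675170) (nat_lit 141) (nat_lit 5) (nat_lit 147) (nat_lit 5) (nat_lit 142) (nat_lit 5) (nat_lit 499) (nat_lit 482) (nat_lit 219))) (XT.nd (nat_lit 78) (nat_lit 304) (nat_lit 0) (XT.lf (nat_lit 0) (nat_lit 111494752482) (nat_lit 304) (nat_lit 140648745591) (nat_lit 380) (nat_lit 102988369276) (nat_lit 137) (nat_lit 5) (nat_lit 141) (nat_lit 5) (nat_lit 142) (nat_lit 5) (nat_lit 500) (nat_lit 482) (nat_lit 218)) (XT.nd (nat_lit 78) (nat_lit 304) (nat_lit 0) (XT.lf (nat_lit 0) (nat_lit 309838235629)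 (nat_lit 380) (nat_lit 43301556684) (nat_lit 76) (nat_lit 12096871007) (nat_lit 137) (nat_lit 5) (nat_lit 142) (nat_lit 5) (nat_lit 138) (nat_lit 5) (nat_lit 501) (nat_lit 482) (nat_lit 217)) (XT.lf (nat_lit 0) (nat_lit 170192229550) (nat_lit 304) (nat_lit 205188335744) (nat_lit 380) (nat_lit 217991040) (nat_lit 133) (nat_lit 5) (nat_lit 137) (nat_lit 5) (nat_lit 138) (nat_lit 5) (nat_lit 502) (nat_lit 482) (nat_lit 216))))))))
noncomputable def xc464 : XT := (XT.nd (nat_lit 1248) (nat_lit 1748) (nat_lit 0) (XT.nd (nat_lit 624) (nat_lit 912) (nat_lit 0) (XT.nd (nat_lit 312) (nat_lit 836) (nat_lit 0) (XT.nd (nat_lit 156) (nat_lit 304) (nat_lit 0) (XT.nd (nat_lit 78) (nat_lit 0) (nat_lit 0) (XT.lf (nat_lit 0) (nat_lit 8790239376) (nat_lit 304) (nat_lit 47966336521) (nat_lit 380) (nat_lit 329632780616) (nat_lit 128) (nat_lit 5) (nat_lit 132) (nat_lit 5) (nat_lit 133) (nat_lit 5) (nat_lit 503) (nat_lit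 482) (nat_lit 215)) (XT.lf (nat_lit 0) (nat_lit 121936710761) (nat_lit 380) (nat_lit 158607056344) (nat_lit 76) (nat_lit 116907542640) (nat_lit 128) (nat_lit 5) (nat_lit 133) (nat_lit 5) (nat_lit 129) (nat_lit 5) (nat_lit 504) (nat_lit 482) (nat_lit 214))) (XT.nd (nat_lit 78) (nat_lit 0) (nat_lit 0) (XT.lf (nat_lit 0) (nat_lit 72880870967) (nat_lit 304) (nat_lit 119419153190) (nat_lit 380) (nat_lit 216670127896) (nat_lit 124) (nat_lit 5) (nat_lit 128) (nat_lit 5) (nat_lit 129) (nat_lit 5) (nat_lit 505) (nat_lit 482) (nat_lit 213)) (XT.lf (nat_lit 0) (nat_lit 269688508762) (nat_lit 380) (nat_lit 100301959310) (nat_lit 76) (nat_lit 50899118128) (nat_lit 124) (nat_lit 5) (nat_lit 129) (nat_lit 5) (nat_lit 125) (nat_lit 5) (nat_lit 506) (nat_lit 482) (nat_lit 212)))) (XT.nd (nat_lit 156) (nat_lit 532) (nat_lit 0) (XT.nd (nat_lit 78) (nat_lit 76) (nat_lit 0) (XT.lf (nat_lit 0) (nat_lit 150121828792)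 (nat_lit 228) (nat_lit 205126068605) (nat_lit 304) (nat_lit 77942020668) (nat_lit 121) (nat_lit 5) (nat_lit 124) (nat_lit 5) (nat_lit 125) (nat_lit 5) (nat_lit 507) (nat_lit 482) (nat_lit 211)) (XT.lf (nat_lit 0) (nat_lit 739111479) (nat_lit 304) (nat_lit 29483236425) (nat_lit 76) (nat_lit 415797391095) (nat_lit 120) (nat_lit 5) (nat_lit 124) (nat_lit 5) (nat_lit 121) (nat_lit 5) (nat_lit 508) (nat_lit 482) (nat_lit 210))) (XT.nd (nat_lit 78) (nat_lit 228) (nat_lit 0) (XT.lf (nat_lit 0) (nat_lit 87011976618) (nat_lit 380) (nat_lit 218426004855) (nat_lit 76) (nat_lit 153675330635) (nat_lit 116) (nat_lit 5) (nat_lit 121) (nat_lit 5) (nat_lit 117) (nat_lit 5) (nat_lit 509) (nat_lit 482) (nat_lit 209)) (XT.lf (nat_lit 0) (nat_lit 53770691755) (nat_lit 228) (nat_lit 125670220046) (nat_lit 304) (nat_lit 293328530735) (nat_lit 113) (nat_lit 5) (nat_lit 116) (nat_lit 5) (nat_lit 117) (nat_lit 5) (nat_lit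 510) (nat_lit 482) (nat_lit 208))))) (XT.nd (nat_lit 312) (nat_lit 456) (nat_lit 0) (XT.nd (nat_lit 156) (nat_lit 228) (nat_lit 0) (XT.nd (nat_lit 78) (nat_lit 228) (nat_lit 0) (XT.lf (nat_lit 0) (nat_lit 281236003336) (nat_lit 304) (nat_lit 140808575369) (nat_lit 76) (nat_lit 64826565302) (nat_lit 113) (nat_lit 5) (nat_lit 117) (nat_lit 5) (nat_lit 114) (nat_lit 5) (nat_lit 511) (nat_lit 482) (nat_lit 207)) (XT.lf (nat_lit 0) (nat_lit 154165146558) (nat_lit 228) (nat_lit 238422791413) (nat_lit 304) (nat_lit 108866638154) (nat_lit 110) (nat_lit 5) (nat_lit 113) (nat_lit 5) (nat_lit 114) (nat_lit 5) (nat_lit 512) (nat_lit 482) (nat_lit 206))) (XT.nd (nat_lit 78) (nat_lit 228) (nat_lit 0) (XT.lf (nat_lit 0) (nat_lit 468776068862) (nat_lit 228) (nat_lit 43116033566) (nat_lit 304) (nat_lit 4755845771) (nat_lit 110) (nat_lit 5) (nat_lit 113) (nat_lit 5) (nat_lit 114) (nat_lit 5) (nat_lit 513) (nat_lit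 482) (nat_lit 205)) (XT.lf (nat_lit 0) (nat_lit 108111581203) (nat_lit 228) (nat_lit 261288849983) (nat_lit 76) (nat_lit 162774049402) (nat_lit 107) (nat_lit 5) (nat_lit 110) (nat_lit 5) (nat_lit 108) (nat_lit 5) (nat_lit 514) (nat_lit 482) (nat_lit 204)))) (XT.nd (nat_lit 156) (nat_lit 228) (nat_lit 0) (XT.nd (nat_lit 78) (nat_lit 0) (nat_lit 0) (XT.lf (nat_lit 0) (nat_lit 59926109904) (nat_lit 228) (nat_lit 169002874024) (nat_lit 304) (nat_lit 319421135836) (nat_lit 104) (nat_lit 5) (nat_lit 107) (nat_lit 5) (nat_lit 108) (nat_lit 5) (nat_lit 515) (nat_lit 482) (nat_lit 203)) (XT.lf (nat_lit 0) (nat_lit 360931422655) (nat_lit 304) (nat_lit 159559292155) (nat_lit 76) (nat_lit 44586617797) (nat_lit 104) (nat_lit 5) (nat_lit 108) (nat_lit 5) (nat_lit 105) (nat_lit 5) (nat_lit 516) (nat_lit 482) (nat_lit 202))) (XT.nd (nat_lit 78) (nat_lit 76) (nat_lit 0) (XT.lf (nat_lit 0) (nat_lit 189028164923)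 (nat_lit 152) (nat_lit 316227591525) (nat_lit 228) (nat_lit 77099060990) (nat_lit 102) (nat_lit 5) (nat_lit 104) (nat_lit 5) (nat_lit 105) (nat_lit 5) (nat_lit 517) (nat_lit 482) (nat_lit 201)) (XT.lf (nat_lit 0) (nat_lit 57244662047) (nat_lit 228) (nat_lit 40699873607) (nat_lit 76) (nat_lit 502370366343) (nat_lit 101) (nat_lit 5) (nat_lit 104) (nat_lit 5) (nat_lit 102) (nat_lit 5) (nat_lit 518) (nat_lit 482) (nat_lit 200)))))) (XT.nd (nat_lit 624) (nat_lit 760) (nat_lit 0) (XT.nd (nat_lit 312) (nat_lit 380) (nat_lit 0) (XT.nd (nat_lit 156) (nat_lit 228) (nat_lit 0) (XT.nd (nat_lit 78) (nat_lit 152) (nat_lit 0) (XT.lf (nat_lit 0) (nat_lit 203166328801) (nat_lit 304) (nat_lit 281852609519) (nat_lit 76) (nat_lit 133718266937) (nat_lit 98) (nat_lit 5) (nat_lit 102) (nat_lit 5) (nat_lit 99) (nat_lit 5) (nat_lit 519) (nat_lit 482) (nat_lit 199)) (XT.lf (nat_lit 0) (nat_lit 98242524823) (nat_lit 152)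 (nat_lit 261981591453) (nat_lit 228) (nat_lit 277664505536) (nat_lit 96) (nat_lit 5) (nat_lit 98) (nat_lit 5) (nat_lit 99) (nat_lit 5) (nat_lit 520) (nat_lit 482) (nat_lit 198))) (XT.nd (nat_lit 78) (nat_lit 228) (nat_lit 0) (XT.lf (nat_lit 0) (nat_lit 507127664631) (nat_lit 152) (nat_lit 22780415875) (nat_lit 228) (nat_lit 127850864319) (nat_lit 96) (nat_lit 5) (nat_lit 98) (nat_lit 5) (nat_lit 99) (nat_lit 5) (nat_lit 521) (nat_lit 482) (nat_lit 197)) (XT.lf (nat_lit 0) (nat_lit 36303197353) (nat_lit 228) (nat_lit 416149138240) (nat_lit 76) (nat_lit 225757834194) (nat_lit 93) (nat_lit 5) (nat_lit 96) (nat_lit 5) (nat_lit 94) (nat_lit 5) (nat_lit 522) (nat_lit 482) (nat_lit 196)))) (XT.nd (nat_lit 156) (nat_lit 228) (nat_lit 0) (XT.nd (nat_lit 78) (nat_lit 152) (nat_lit 0) (XT.lf (nat_lit 0) (nat_lit 207334595727) (nat_lit 228) (nat_lit 1450090315) (nat_lit 76) (nat_lit 490646161113) (nat_lit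 93) (nat_lit 5) (nat_lit 96) (nat_lit 5) (nat_lit 94) (nat_lit 5) (nat_lit 523) (nat_lit 482) (nat_lit 195)) (XT.lf (nat_lit 0) (nat_lit 394766870237) (nat_lit 228) (nat_lit 273878817681) (nat_lit 76) (nat_lit 52674405166) (nat_lit 91) (nat_lit 5) (nat_lit 94) (nat_lit 5) (nat_lit 92) (nat_lit 5) (nat_lit 524) (nat_lit 482) (nat_lit 194))) (XT.nd (nat_lit 78) (nat_lit 76) (nat_lit 0) (XT.lf (nat_lit 0) (nat_lit 176759241984) (nat_lit 152) (nat_lit 421018863323) (nat_lit 228) (nat_lit 146215328660) (nat_lit 89) (nat_lit 5) (nat_lit 91) (nat_lit 5) (nat_lit 92) (nat_lit 5) (nat_lit 525) (nat_lit 482) (nat_lit 193)) (XT.lf (nat_lit 0) (nat_lit 46473015083) (nat_lit 228) (nat_lit 108880469977) (nat_lit 76) (nat_lit 612177566090) (nat_lit 88) (nat_lit 5) (nat_lit 91) (nat_lit 5) (nat_lit 89) (nat_lit 5) (nat_lit 526) (nat_lit 482) (nat_lit 192))))) (XT.nd (nat_lit 312) (nat_lit 304) (nat_lit 0) (XT.nd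 (nat_lit 156) (nat_lit 152) (nat_lit 0) (XT.nd (nat_lit 78) (nat_lit 152) (nat_lit 0) (XT.lf (nat_lit 0) (nat_lit 251916398193) (nat_lit 228) (nat_lit 411666508559) (nat_lit 76) (nat_lit 128141073013) (nat_lit 86) (nat_lit 5) (nat_lit 89) (nat_lit 5) (nat_lit 87) (nat_lit 5) (nat_lit 527) (nat_lit 482) (nat_lit 191)) (XT.lf (nat_lit 0) (nat_lit 80177165069) (nat_lit 152) (nat_lit 393127506744) (nat_lit 228) (nat_lit 343538246928) (nat_lit 84) (nat_lit 5) (nat_lit 86) (nat_lit 5) (nat_lit 87) (nat_lit 5) (nat_lit 528) (nat_lit 482) (nat_lit 190))) (XT.nd (nat_lit 78) (nat_lit 152) (nat_lit 0) (XT.lf (nat_lit 0) (nat_lit 610905120757) (nat_lit 152) (nat_lit 101828990922) (nat_lit 228) (nat_lit 130135105360) (nat_lit 84) (nat_lit 5) (nat_lit 86) (nat_lit 5) (nat_lit 87) (nat_lit 5) (nat_lit 529) (nat_lit 482) (nat_lit 189)) (XT.lf (nat_lit 0) (nat_lit 99001912376) (nat_lit 152) (nat_lit 566862573601)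 (nat_lit 76) (nat_lit 203855495957) (nat_lit 82) (nat_lit 5) (nat_lit 84) (nat_lit 5) (nat_lit 83) (nat_lit 5) (nat_lit 530) (nat_lit 482) (nat_lit 188)))) (XT.nd (nat_lit 156) (nat_lit 152) (nat_lit 0) (XT.nd (nat_lit 78) (nat_lit 152) (nat_lit 0) (XT.lf (nat_lit 0) (nat_lit 340884522260) (nat_lit 152) (nat_lit 29110728967) (nat_lit 76) (nat_lit 527528259020) (nat_lit 82) (nat_lit 5) (nat_lit 84) (nat_lit 5) (nat_lit 83) (nat_lit 5) (nat_lit 531) (nat_lit 482) (nat_lit 187)) (XT.lf (nat_lit 0) (nat_lit 553235673603) (nat_lit 152) (nat_lit 50263131025) (nat_lit 228) (nat_lit 322786533248) (nat_lit 80) (nat_lit 5) (nat_lit 82) (nat_lit 5) (nat_lit 83) (nat_lit 5) (nat_lit 532) (nat_lit 482) (nat_lit 186))) (XT.nd (nat_lit 78) (nat_lit 76) (nat_lit 0) (XT.lf (nat_lit 0) (nat_lit 211555676354) (nat_lit 76) (nat_lit 675948932725) (nat_lit 152) (nat_lit 68567607410) (nat_lit 79) (nat_lit 5) (nat_lit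 80) (nat_lit 5) (nat_lit 81) (nat_lit 4) (nat_lit 533) (nat_lit 482) (nat_lit 185)) (XT.lf (nat_lit 0) (nat_lit 199258748775) (nat_lit 152) (nat_lit 152714402023) (nat_lit 76) (nat_lit 634858172926) (nat_lit 78) (nat_lit 5) (nat_lit 80) (nat_lit 5) (nat_lit 79) (nat_lit 5) (nat_lit 534) (nat_lit 482) (nat_lit 184)))))))
noncomputable def xc465 : XT := (XT.nd (nat_lit 58890) (nat_lit 0) (nat_lit 4788) (XT.nd (nat_lit 624) (nat_lit 228) (nat_lit 0) (XT.nd (nat_lit 312) (nat_lit 304) (nat_lit 0) (XT.nd (nat_lit 156) (nat_lit 228) (nat_lit 0) (XT.nd (nat_lit 78) (nat_lit 76) (nat_lit 0) (XT.lf (nat_lit 0) (nat_lit 483013192903) (nat_lit 152) (nat_lit 2700081922) (nat_lit 228) (nat_lit 532981849874) (nat_lit 76) (nat_lit 5) (nat_lit 78) (nat_lit 5) (nat_lit 79) (nat_lit 5) (nat_lit 535) (nat_lit 482) (nat_lit 183)) (XT.lf (nat_lit 0) (nat_lit 101323180083) (nat_lit 76) (nat_lit 695061592411) (nat_lit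 152) (nat_lit 255272630965) (nat_lit 75) (nat_lit 5) (nat_lit 76) (nat_lit 5) (nat_lit 77) (nat_lit 4) (nat_lit 536) (nat_lit 482) (nat_lit 182))) (XT.nd (nat_lit 78) (nat_lit 152) (nat_lit 0) (XT.lf (nat_lit 0) (nat_lit 44424518564) (nat_lit 152) (nat_lit 297798084129) (nat_lit 76) (nat_lit 743553588910) (nat_lit 74) (nat_lit 5) (nat_lit 76) (nat_lit 5) (nat_lit 75) (nat_lit 5) (nat_lit 537) (nat_lit 482) (nat_lit 181)) (XT.lf (nat_lit 0) (nat_lit 357319110692) (nat_lit 228) (nat_lit 725844076542) (nat_lit 76) (nat_lit 37888921088) (nat_lit 72) (nat_lit 5) (nat_lit 75) (nat_lit 5) (nat_lit 73) (nat_lit 4) (nat_lit 538) (nat_lit 482) (nat_lit 180)))) (XT.nd (nat_lit 156) (nat_lit 228) (nat_lit 0) (XT.nd (nat_lit 78) (nat_lit 76) (nat_lit 0) (XT.lf (nat_lit 0) (nat_lit 696594656361) (nat_lit 228) (nat_lit 30329235621) (nat_lit 76) (nat_lit 430631117699) (nat_lit 72) (nat_lit 5) (nat_lit 75) (nat_lit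 5) (nat_lit 73) (nat_lit 4) (nat_lit 539) (nat_lit 482) (nat_lit 179)) (XT.lf (nat_lit 0) (nat_lit 723105202613) (nat_lit 76) (nat_lit 341018460877) (nat_lit 152) (nat_lit 131194908408) (nat_lit 71) (nat_lit 5) (nat_lit 72) (nat_lit 5) (nat_lit 73) (nat_lit 4) (nat_lit 540) (nat_lit 482) (nat_lit 178))) (XT.nd (nat_lit 78) (nat_lit 0) (nat_lit 0) (XT.lf (nat_lit 0) (nat_lit 214303519113) (nat_lit 228) (nat_lit 949580959787) (nat_lit 76) (nat_lit 70611553026) (nat_lit 68) (nat_lit 5) (nat_lit 71) (nat_lit 5) (nat_lit 69) (nat_lit 4) (nat_lit 541) (nat_lit 482) (nat_lit 177)) (XT.lf (nat_lit 0) (nat_lit 586386573863) (nat_lit 228) (nat_lit 186810720337) (nat_lit 76) (nat_lit 501641598191) (nat_lit 68) (nat_lit 5) (nat_lit 71) (nat_lit 5) (nat_lit 69) (nat_lit 4) (nat_lit 542) (nat_lit 482) (nat_lit 176))))) (XT.nd (nat_lit 57954) (nat_lit 0) (nat_lit 7524) (XT.nd (nat_lit 57798) (nat_lit 0) (nat_lit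 7448) (XT.nd (nat_lit 78) (nat_lit 152) (nat_lit 0) (XT.lf (nat_lit 0) (nat_lit 634402858559) (nat_lit 76) (nat_lit 352575715596) (nat_lit 152) (nat_lit 329725082085) (nat_lit 67) (nat_lit 5) (nat_lit 68) (nat_lit 5) (nat_lit 69) (nat_lit 4) (nat_lit 543) (nat_lit 482) (nat_lit 175)) (XT.lf (nat_lit 0) (nat_lit 52433052609) (nat_lit 152) (nat_lit 1215277231798) (nat_lit 76) (nat_lit 92564888681) (nat_lit 65) (nat_lit 5) (nat_lit 67) (nat_lit 5) (nat_lit 66) (nat_lit 4) (nat_lit 544) (nat_lit 482) (nat_lit 174))) (XT.nd (nat_lit 78) (nat_lit 0) (nat_lit 0) (XT.lf (nat_lit 0) (nat_lit 51580743527) (nat_lit 836) (nat_lit 32426656727) (nat_lit 836) (nat_lit 32426656727) (nat_lit 163) (nat_lit 3) (nat_lit 174) (nat_lit 3) (nat_lit 174) (nat_lit 5) (nat_lit 483) (nat_lit 483) (nat_lit 234)) (XT.lf (nat_lit 76) (nat_lit 52798889820) (nat_lit 0) (nat_lit 53767160102) (nat_lit 836) (nat_lit 132082490517)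 (nat_lit 164) (nat_lit 5) (nat_lit 163) (nat_lit 3) (nat_lit 174) (nat_lit 5) (nat_lit 484) (nat_lit 483) (nat_lit 233)))) (XT.nd (nat_lit 156) (nat_lit 0) (nat_lit 76) (XT.nd (nat_lit 78) (nat_lit 0) (nat_lit 0) (XT.lf (nat_lit 0) (nat_lit 112290548469) (nat_lit 760) (nat_lit 67129315238) (nat_lit 836) (nat_lit 65190639157) (nat_lit 164) (nat_lit 5) (nat_lit 174) (nat_lit 5) (nat_lit 175) (nat_lit 5) (nat_lit 485) (nat_lit 483) (nat_lit 232)) (XT.lf (nat_lit 76) (nat_lit 58518522809) (nat_lit 0) (nat_lit 61577743674) (nat_lit 836) (nat_lit 130684547207) (nat_lit 165) (nat_lit 5) (nat_lit 164) (nat_lit 5) (nat_lit 175) (nat_lit 5) (nat_lit 486) (nat_lit 483) (nat_lit 231))) (XT.nd (nat_lit 78) (nat_lit 0) (nat_lit 0) (XT.lf (nat_lit 0) (nat_lit 130418142637) (nat_lit 760) (nat_lit 65412586380) (nat_lit 836) (nat_lit 61322617434) (nat_lit 165) (nat_lit 5) (nat_lit 175) (nat_lit 5) (nat_lit 176)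 (nat_lit 5) (nat_lit 487) (nat_lit 483) (nat_lit 230)) (XT.lf (nat_lit 76) (nat_lit 68977808359) (nat_lit 0) (nat_lit 74364646392) (nat_lit 836) (nat_lit 120397733995) (nat_lit 166) (nat_lit 5) (nat_lit 165) (nat_lit 5) (nat_lit 176) (nat_lit 5) (nat_lit 488) (nat_lit 483) (nat_lit 229)))))) (XT.nd (nat_lit 624) (nat_lit 1748) (nat_lit 0) (XT.nd (nat_lit 312) (nat_lit 1140) (nat_lit 0) (XT.nd (nat_lit 156) (nat_lit 0) (nat_lit 76) (XT.nd (nat_lit 78) (nat_lit 0) (nat_lit 0) (XT.lf (nat_lit 0) (nat_lit 158869080362) (nat_lit 760) (nat_lit 59090697804) (nat_lit 836) (nat_lit 52598790101) (nat_lit 166) (nat_lit 5) (nat_lit 176) (nat_lit 5) (nat_lit 177) (nat_lit 5) (nat_lit 489) (nat_lit 483) (nat_lit 228)) (XT.lf (nat_lit 76) (nat_lit 84861530339) (nat_lit 0) (nat_lit 92854465612) (nat_lit 836) (nat_lit 99874672881) (nat_lit 167) (nat_lit 5) (nat_lit 166) (nat_lit 5) (nat_lit 177) (nat_lit 5) (nat_lit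 490) (nat_lit 483) (nat_lit 227))) (XT.nd (nat_lit 78) (nat_lit 0) (nat_lit 0) (XT.lf (nat_lit 0) (nat_lit 199123522828) (nat_lit 760) (nat_lit 47479113536) (nat_lit 836) (nat_lit 38290824792) (nat_lit 167) (nat_lit 5) (nat_lit 177) (nat_lit 5) (nat_lit 178) (nat_lit 5) (nat_lit 491) (nat_lit 483) (nat_lit 226)) (XT.lf (nat_lit 76) (nat_lit 106933709754) (nat_lit 0) (nat_lit 117859400505) (nat_lit 836) (nat_lit 67608698632) (nat_lit 168) (nat_lit 5) (nat_lit 167) (nat_lit 5) (nat_lit 178) (nat_lit 5) (nat_lit 492) (nat_lit 483) (nat_lit 225)))) (XT.nd (nat_lit 156) (nat_lit 532) (nat_lit 0) (XT.nd (nat_lit 78) (nat_lit 760) (nat_lit 0) (XT.lf (nat_lit 0) (nat_lit 252833816828) (nat_lit 760) (nat_lit 29813486233) (nat_lit 76) (nat_lit 17583888965) (nat_lit 168) (nat_lit 5) (nat_lit 178) (nat_lit 5) (nat_lit 169) (nat_lit 5) (nat_lit 493) (nat_lit 483) (nat_lit 224)) (XT.lf (nat_lit 0) (nat_lit 136046013129)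 (nat_lit 760) (nat_lit 150286676002) (nat_lit 836) (nat_lit 21916548671) (nat_lit 158) (nat_lit 5) (nat_lit 168) (nat_lit 5) (nat_lit 169) (nat_lit 5) (nat_lit 494) (nat_lit 483) (nat_lit 223))) (XT.nd (nat_lit 78) (nat_lit 456) (nat_lit 0) (XT.lf (nat_lit 0) (nat_lit 5196596174) (nat_lit 836) (nat_lit 5493258888) (nat_lit 76) (nat_lit 305948897152) (nat_lit 157) (nat_lit 5) (nat_lit 168) (nat_lit 5) (nat_lit 158) (nat_lit 5) (nat_lit 495) (nat_lit 483) (nat_lit 222)) (XT.lf (nat_lit 0) (nat_lit 37829928899) (nat_lit 532) (nat_lit 152678380338) (nat_lit 76) (nat_lit 134676415208) (nat_lit 151) (nat_lit 5) (nat_lit 158) (nat_lit 5) (nat_lit 152) (nat_lit 5) (nat_lit 496) (nat_lit 483) (nat_lit 221))))) (XT.nd (nat_lit 312) (nat_lit 988) (nat_lit 0) (XT.nd (nat_lit 156) (nat_lit 380) (nat_lit 0) (XT.nd (nat_lit 78) (nat_lit 0) (nat_lit 0) (XT.lf (nat_lit 0) (nat_lit 26101907210) (nat_lit 380) (nat_lit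 46670299032) (nat_lit 456) (nat_lit 261351925151) (nat_lit 146) (nat_lit 5) (nat_lit 151) (nat_lit 5) (nat_lit 152) (nat_lit 5) (nat_lit 497) (nat_lit 483) (nat_lit 220)) (XT.lf (nat_lit 0) (nat_lit 113718969846) (nat_lit 456) (nat_lit 125931147807) (nat_lit 76) (nat_lit 103647522417) (nat_lit 146) (nat_lit 5) (nat_lit 152) (nat_lit 5) (nat_lit 147) (nat_lit 5) (nat_lit 498) (nat_lit 483) (nat_lit 219))) (XT.nd (nat_lit 78) (nat_lit 0) (nat_lit 0) (XT.lf (nat_lit 0) (nat_lit 66631990841) (nat_lit 380) (nat_lit 91886437778) (nat_lit 456) (nat_lit 194321127717) (nat_lit 141) (nat_lit 5) (nat_lit 146) (nat_lit 5) (nat_lit 147) (nat_lit 5) (nat_lit 499) (nat_lit 483) (nat_lit 218)) (XT.lf (nat_lit 0) (nat_lit 208713237505) (nat_lit 456) (nat_lit 90579360414) (nat_lit 76) (nat_lit 63408201639) (nat_lit 141) (nat_lit 5) (nat_lit 147) (nat_lit 5) (nat_lit 142) (nat_lit 5) (nat_lit 500) (nat_lit 483) (nat_lit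 217)))) (XT.nd (nat_lit 156) (nat_lit 684) (nat_lit 0) (XT.nd (nat_lit 78) (nat_lit 0) (nat_lit 0) (XT.lf (nat_lit 0) (nat_lit 117070875410) (nat_lit 304) (nat_lit 147681012139) (nat_lit 380) (nat_lit 108136512359) (nat_lit 137) (nat_lit 5) (nat_lit 141) (nat_lit 5) (nat_lit 142) (nat_lit 5) (nat_lit 501) (nat_lit 483) (nat_lit 216)) (XT.lf (nat_lit 0) (nat_lit 325331306686) (nat_lit 380) (nat_lit 45465259808) (nat_lit 76) (nat_lit 12701871954) (nat_lit 137) (nat_lit 5) (nat_lit 142) (nat_lit 5) (nat_lit 138) (nat_lit 5) (nat_lit 502) (nat_lit 483) (nat_lit 215))) (XT.nd (nat_lit 78) (nat_lit 380) (nat_lit 0) (XT.lf (nat_lit 0) (nat_lit 178703193565) (nat_lit 304) (nat_lit 215447525182) (nat_lit 380) (nat_lit 227709074) (nat_lit 133) (nat_lit 5) (nat_lit 137) (nat_lit 5) (nat_lit 138) (nat_lit 5) (nat_lit 503) (nat_lit 483) (nat_lit 214)) (XT.nd (nat_lit 78) (nat_lit 0) (nat_lit 0) (XT.lf (nat_lit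 0) (nat_lit 9231119340) (nat_lit 304) (nat_lit 50364395951) (nat_lit 380) (nat_lit 346113253453) (nat_lit 128) (nat_lit 5) (nat_lit 132) (nat_lit 5) (nat_lit 133) (nat_lit 5) (nat_lit 504) (nat_lit 483) (nat_lit 213)) (XT.lf (nat_lit 0) (nat_lit 128034607840) (nat_lit 380) (nat_lit 166536057189) (nat_lit 76) (nat_lit 122753157065) (nat_lit 128) (nat_lit 5) (nat_lit 133) (nat_lit 5) (nat_lit 129) (nat_lit 5) (nat_lit 505) (nat_lit 483) (nat_lit 212))))))))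
noncomputable def xc466 : XT := (XT.nd (nat_lit 1248) (nat_lit 1672) (nat_lit 0) (XT.nd (nat_lit 624) (nat_lit 1064) (nat_lit 0) (XT.nd (nat_lit 312) (nat_lit 760) (nat_lit 0) (XT.nd (nat_lit 156) (nat_lit 304) (nat_lit 0) (XT.nd (nat_lit 78) (nat_lit 0) (nat_lit 0) (XT.lf (nat_lit 0) (nat_lit 76526244682) (nat_lit 304) (nat_lit 125389812441) (nat_lit 380) (nat_lit 227502550885) (nat_lit 124) (nat_lit 5) (nat_lit 128) (nat_lit 5) (nat_lit 129) (nat_lit 5) (nat_lit 506) (nat_lit 483) (nat_lit 211)) (XT.lf (nat_lit 0) (nat_lit 283173921264) (nat_lit 380) (nat_lit 105315745700) (nat_lit 76) (nat_lit 53444349136) (nat_lit 124) (nat_lit 5) (nat_lit 129) (nat_lit 5) (nat_lit 125) (nat_lit 5) (nat_lit 507) (nat_lit 483) (nat_lit 210))) (XT.nd (nat_lit 78) (nat_lit 76) (nat_lit 0) (XT.lf (nat_lit 0) (nat_lit 157629210653) (nat_lit 228) (nat_lit 215382041823) (nat_lit 304) (nat_lit 81838113430) (nat_lit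 121) (nat_lit 5) (nat_lit 124) (nat_lit 5) (nat_lit 125) (nat_lit 5) (nat_lit 508) (nat_lit 483) (nat_lit 209)) (XT.lf (nat_lit 0) (nat_lit 776996578) (nat_lit 304) (nat_lit 30956138491) (nat_lit 76) (nat_lit 436587544355) (nat_lit 120) (nat_lit 5) (nat_lit 124) (nat_lit 5) (nat_lit 121) (nat_lit 5) (nat_lit 509) (nat_lit 483) (nat_lit 208)))) (XT.nd (nat_lit 156) (nat_lit 228) (nat_lit 0) (XT.nd (nat_lit 78) (nat_lit 228) (nat_lit 0) (XT.lf (nat_lit 0) (nat_lit 91363485289) (nat_lit 380) (nat_lit 229346025612) (nat_lit 76) (nat_lit 161359421274) (nat_lit 116) (nat_lit 5) (nat_lit 121) (nat_lit 5) (nat_lit 117) (nat_lit 5) (nat_lit 510) (nat_lit 483) (nat_lit 207)) (XT.lf (nat_lit 0) (nat_lit 56460485192) (nat_lit 228) (nat_lit 131953358368) (nat_lit 304) (nat_lit 307994026750) (nat_lit 113) (nat_lit 5) (nat_lit 116) (nat_lit 5) (nat_lit 117) (nat_lit 5) (nat_lit 511) (nat_lit 483) (nat_lit 206)))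 (XT.nd (nat_lit 78) (nat_lit 228) (nat_lit 0) (XT.lf (nat_lit 0) (nat_lit 295298653014) (nat_lit 304) (nat_lit 147847768535) (nat_lit 76) (nat_lit 68068237140) (nat_lit 113) (nat_lit 5) (nat_lit 117) (nat_lit 5) (nat_lit 114) (nat_lit 5) (nat_lit 512) (nat_lit 483) (nat_lit 205)) (XT.lf (nat_lit 0) (nat_lit 161874619559) (nat_lit 228) (nat_lit 250343543350) (nat_lit 304) (nat_lit 114309100581) (nat_lit 110) (nat_lit 5) (nat_lit 113) (nat_lit 5) (nat_lit 114) (nat_lit 5) (nat_lit 513) (nat_lit 483) (nat_lit 204))))) (XT.nd (nat_lit 312) (nat_lit 608) (nat_lit 0) (XT.nd (nat_lit 156) (nat_lit 228) (nat_lit 0) (XT.nd (nat_lit 78) (nat_lit 228) (nat_lit 0) (XT.lf (nat_lit 0) (nat_lit 492216030089) (nat_lit 228) (nat_lit 45271466069) (nat_lit 304) (nat_lit 4992809982) (nat_lit 110) (nat_lit 5) (nat_lit 113) (nat_lit 5) (nat_lit 114) (nat_lit 5) (nat_lit 514) (nat_lit 483) (nat_lit 203)) (XT.lf (nat_lit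 0) (nat_lit 113517947848) (nat_lit 228) (nat_lit 274352094136) (nat_lit 76) (nat_lit 170913123220) (nat_lit 107) (nat_lit 5) (nat_lit 110) (nat_lit 5) (nat_lit 108) (nat_lit 5) (nat_lit 515) (nat_lit 483) (nat_lit 202))) (XT.nd (nat_lit 78) (nat_lit 0) (nat_lit 0) (XT.lf (nat_lit 0) (nat_lit 62923594417) (nat_lit 228) (nat_lit 177452607196) (nat_lit 304) (nat_lit 335391385682) (nat_lit 104) (nat_lit 5) (nat_lit 107) (nat_lit 5) (nat_lit 108) (nat_lit 5) (nat_lit 516) (nat_lit 483) (nat_lit 201)) (XT.lf (nat_lit 0) (nat_lit 378978731787) (nat_lit 304) (nat_lit 167536103366) (nat_lit 76) (nat_lit 46816327154) (nat_lit 104) (nat_lit 5) (nat_lit 108) (nat_lit 5) (nat_lit 105) (nat_lit 5) (nat_lit 517) (nat_lit 483) (nat_lit 200)))) (XT.nd (nat_lit 156) (nat_lit 380) (nat_lit 0) (XT.nd (nat_lit 78) (nat_lit 76) (nat_lit 0) (XT.lf (nat_lit 0) (nat_lit 198480707962) (nat_lit 152) (nat_lit 332038556881)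 (nat_lit 228) (nat_lit 80953257408) (nat_lit 102) (nat_lit 5) (nat_lit 104) (nat_lit 5) (nat_lit 105) (nat_lit 5) (nat_lit 518) (nat_lit 483) (nat_lit 199)) (XT.lf (nat_lit 0) (nat_lit 60107592687) (nat_lit 228) (nat_lit 42733763442) (nat_lit 76) (nat_lit 527489256065) (nat_lit 101) (nat_lit 5) (nat_lit 104) (nat_lit 5) (nat_lit 102) (nat_lit 5) (nat_lit 519) (nat_lit 483) (nat_lit 198))) (XT.nd (nat_lit 78) (nat_lit 152) (nat_lit 0) (XT.lf (nat_lit 0) (nat_lit 213325332838) (nat_lit 304) (nat_lit 295944126183) (nat_lit 76) (nat_lit 140404572093) (nat_lit 98) (nat_lit 5) (nat_lit 102) (nat_lit 5) (nat_lit 99) (nat_lit 5) (nat_lit 520) (nat_lit 483) (nat_lit 197)) (XT.lf (nat_lit 0) (nat_lit 103155746911) (nat_lit 152) (nat_lit 275080247142) (nat_lit 228) (nat_lit 291547025226) (nat_lit 96) (nat_lit 5) (nat_lit 98) (nat_lit 5) (nat_lit 99) (nat_lit 5) (nat_lit 521) (nat_lit 483) (nat_lit 196))))))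 (XT.nd (nat_lit 624) (nat_lit 760) (nat_lit 0) (XT.nd (nat_lit 312) (nat_lit 532) (nat_lit 0) (XT.nd (nat_lit 156) (nat_lit 152) (nat_lit 0) (XT.nd (nat_lit 78) (nat_lit 228) (nat_lit 0) (XT.lf (nat_lit 0) (nat_lit 532485091527) (nat_lit 152) (nat_lit 23919032970) (nat_lit 228) (nat_lit 134242735548) (nat_lit 96) (nat_lit 5) (nat_lit 98) (nat_lit 5) (nat_lit 99) (nat_lit 5) (nat_lit 522) (nat_lit 483) (nat_lit 195)) (XT.lf (nat_lit 0) (nat_lit 38118999522) (nat_lit 228) (nat_lit 436955521759) (nat_lit 76) (nat_lit 237046124859) (nat_lit 93) (nat_lit 5) (nat_lit 96) (nat_lit 5) (nat_lit 94) (nat_lit 5) (nat_lit 523) (nat_lit 483) (nat_lit 194))) (XT.nd (nat_lit 78) (nat_lit 152) (nat_lit 0) (XT.lf (nat_lit 0) (nat_lit 217701937229) (nat_lit 228) (nat_lit 1521572552) (nat_lit 76) (nat_lit 515178849127) (nat_lit 93) (nat_lit 5) (nat_lit 96) (nat_lit 5) (nat_lit 94) (nat_lit 5) (nat_lit 524) (nat_lit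 483) (nat_lit 193)) (XT.lf (nat_lit 0) (nat_lit 414505818400) (nat_lit 228) (nat_lit 287571729203) (nat_lit 76) (nat_lit 55308519883) (nat_lit 91) (nat_lit 5) (nat_lit 94) (nat_lit 5) (nat_lit 92) (nat_lit 5) (nat_lit 525) (nat_lit 483) (nat_lit 192)))) (XT.nd (nat_lit 156) (nat_lit 304) (nat_lit 0) (XT.nd (nat_lit 78) (nat_lit 76) (nat_lit 0) (XT.lf (nat_lit 0) (nat_lit 185598216842) (nat_lit 152) (nat_lit 442069385400) (nat_lit 228) (nat_lit 153525473821) (nat_lit 89) (nat_lit 5) (nat_lit 91) (nat_lit 5) (nat_lit 92) (nat_lit 5) (nat_lit 526) (nat_lit 483) (nat_lit 191)) (XT.lf (nat_lit 0) (nat_lit 48797238587) (nat_lit 228) (nat_lit 114323509990) (nat_lit 76) (nat_lit 642786826477) (nat_lit 88) (nat_lit 5) (nat_lit 91) (nat_lit 5) (nat_lit 89) (nat_lit 5) (nat_lit 527) (nat_lit 483) (nat_lit 190))) (XT.nd (nat_lit 78) (nat_lit 152) (nat_lit 0) (XT.lf (nat_lit 0) (nat_lit 264512785041) (nat_lit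 228) (nat_lit 432248844673) (nat_lit 76) (nat_lit 134548520676) (nat_lit 86) (nat_lit 5) (nat_lit 89) (nat_lit 5) (nat_lit 87) (nat_lit 5) (nat_lit 528) (nat_lit 483) (nat_lit 189)) (XT.lf (nat_lit 0) (nat_lit 84186996680) (nat_lit 152) (nat_lit 412783463863) (nat_lit 228) (nat_lit 360714576364) (nat_lit 84) (nat_lit 5) (nat_lit 86) (nat_lit 5) (nat_lit 87) (nat_lit 5) (nat_lit 529) (nat_lit 483) (nat_lit 188))))) (XT.nd (nat_lit 312) (nat_lit 456) (nat_lit 0) (XT.nd (nat_lit 156) (nat_lit 152) (nat_lit 0) (XT.nd (nat_lit 78) (nat_lit 152) (nat_lit 0) (XT.lf (nat_lit 0) (nat_lit 641451303802) (nat_lit 152) (nat_lit 106920042165) (nat_lit 228) (nat_lit 136641305476) (nat_lit 84) (nat_lit 5) (nat_lit 86) (nat_lit 5) (nat_lit 87) (nat_lit 5) (nat_lit 530) (nat_lit 483) (nat_lit 187)) (XT.lf (nat_lit 0) (nat_lit 103952540598) (nat_lit 152) (nat_lit 595204752698) (nat_lit 76) (nat_lit 214048661091)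 (nat_lit 82) (nat_lit 5) (nat_lit 84) (nat_lit 5) (nat_lit 83) (nat_lit 5) (nat_lit 531) (nat_lit 483) (nat_lit 186))) (XT.nd (nat_lit 78) (nat_lit 152) (nat_lit 0) (XT.lf (nat_lit 0) (nat_lit 357929255614) (nat_lit 152) (nat_lit 30565361051) (nat_lit 76) (nat_lit 553905043720) (nat_lit 82) (nat_lit 5) (nat_lit 84) (nat_lit 5) (nat_lit 83) (nat_lit 5) (nat_lit 532) (nat_lit 483) (nat_lit 185)) (XT.lf (nat_lit 0) (nat_lit 580898347061) (nat_lit 152) (nat_lit 52775894777) (nat_lit 228) (nat_lit 338925338071) (nat_lit 80) (nat_lit 5) (nat_lit 82) (nat_lit 5) (nat_lit 83) (nat_lit 5) (nat_lit 533) (nat_lit 483) (nat_lit 184)))) (XT.nd (nat_lit 156) (nat_lit 304) (nat_lit 0) (XT.nd (nat_lit 78) (nat_lit 76) (nat_lit 0) (XT.lf (nat_lit 0) (nat_lit 222134354025) (nat_lit 76) (nat_lit 709745978617) (nat_lit 152) (nat_lit 71995470005) (nat_lit 79) (nat_lit 5) (nat_lit 80) (nat_lit 5) (nat_lit 81) (nat_lit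 4) (nat_lit 534) (nat_lit 483) (nat_lit 183)) (XT.lf (nat_lit 0) (nat_lit 209222163551) (nat_lit 152) (nat_lit 160349255043) (nat_lit 76) (nat_lit 666601447440) (nat_lit 78) (nat_lit 5) (nat_lit 80) (nat_lit 5) (nat_lit 79) (nat_lit 5) (nat_lit 535) (nat_lit 483) (nat_lit 182))) (XT.nd (nat_lit 78) (nat_lit 152) (nat_lit 0) (XT.lf (nat_lit 0) (nat_lit 507164705645) (nat_lit 152) (nat_lit 2834700848) (nat_lit 228) (nat_lit 559630451036) (nat_lit 76) (nat_lit 5) (nat_lit 78) (nat_lit 5) (nat_lit 79) (nat_lit 5) (nat_lit 536) (nat_lit 483) (nat_lit 181)) (XT.nd (nat_lit 78) (nat_lit 76) (nat_lit 0) (XT.lf (nat_lit 0) (nat_lit 106390195535) (nat_lit 76) (nat_lit 729814280326) (nat_lit 152) (nat_lit 268035774524) (nat_lit 75) (nat_lit 5) (nat_lit 76) (nat_lit 5) (nat_lit 77) (nat_lit 4) (nat_lit 537) (nat_lit 483) (nat_lit 180)) (XT.lf (nat_lit 0) (nat_lit 46646194369) (nat_lit 152) (nat_lit 312687157787)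 (nat_lit 76) (nat_lit 780731626525) (nat_lit 74) (nat_lit 5) (nat_lit 76) (nat_lit 5) (nat_lit 75) (nat_lit 5) (nat_lit 538) (nat_lit 483) (nat_lit 179))))))))
noncomputable def xc467 : XT := (XT.nd (nat_lit 58968) (nat_lit 0) (nat_lit 4028) (XT.nd (nat_lit 58344) (nat_lit 0) (nat_lit 7372) (XT.nd (nat_lit 312) (nat_lit 76) (nat_lit 0) (XT.nd (nat_lit 156) (nat_lit 304) (nat_lit 0) (XT.nd (nat_lit 78) (nat_lit 0) (nat_lit 0) (XT.lf (nat_lit 0) (nat_lit 375185513308) (nat_lit 228) (nat_lit 762135447017) (nat_lit 76) (nat_lit 39783731051) (nat_lit 72) (nat_lit 5) (nat_lit 75) (nat_lit 5) (nat_lit 73) (nat_lit 4) (nat_lit 539) (nat_lit 483) (nat_lit 178)) (XT.lf (nat_lit 0) (nat_lit 731424814971) (nat_lit 228) (nat_lit 31844903733) (nat_lit 76) (nat_lit 452163020163) (nat_lit 72) (nat_lit 5) (nat_lit 75) (nat_lit 5) (nat_lit 73) (nat_lit 4) (nat_lit 540) (nat_lit 483) (nat_lit 177))) (XT.nd (nat_lit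 78) (nat_lit 228) (nat_lit 0) (XT.lf (nat_lit 0) (nat_lit 759261243611) (nat_lit 76) (nat_lit 358069020761) (nat_lit 152) (nat_lit 137754215228) (nat_lit 71) (nat_lit 5) (nat_lit 72) (nat_lit 5) (nat_lit 73) (nat_lit 4) (nat_lit 541) (nat_lit 483) (nat_lit 176)) (XT.lf (nat_lit 0) (nat_lit 225019117331) (nat_lit 228) (nat_lit 997059210558) (nat_lit 76) (nat_lit 74142484514) (nat_lit 68) (nat_lit 5) (nat_lit 71) (nat_lit 5) (nat_lit 69) (nat_lit 4) (nat_lit 542) (nat_lit 483) (nat_lit 175)))) (XT.nd (nat_lit 57876) (nat_lit 0) (nat_lit 7296) (XT.nd (nat_lit 78) (nat_lit 76) (nat_lit 0) (XT.lf (nat_lit 0) (nat_lit 615706304710) (nat_lit 228) (nat_lit 196150497099) (nat_lit 76) (nat_lit 526724015087) (nat_lit 68) (nat_lit 5) (nat_lit 71) (nat_lit 5) (nat_lit 69) (nat_lit 4) (nat_lit 543) (nat_lit 483) (nat_lit 174)) (XT.lf (nat_lit 0) (nat_lit 666123748496) (nat_lit 76) (nat_lit 370204149034) (nat_lit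 152) (nat_lit 346210921782) (nat_lit 67) (nat_lit 5) (nat_lit 68) (nat_lit 5) (nat_lit 69) (nat_lit 4) (nat_lit 544) (nat_lit 483) (nat_lit 173))) (XT.nd (nat_lit 78) (nat_lit 0) (nat_lit 0) (XT.lf (nat_lit 0) (nat_lit 54160949223) (nat_lit 836) (nat_lit 34047376046) (nat_lit 836) (nat_lit 34047376046) (nat_lit 163) (nat_lit 3) (nat_lit 174) (nat_lit 3) (nat_lit 174) (nat_lit 5) (nat_lit 484) (nat_lit 484) (nat_lit 232)) (XT.lf (nat_lit 76) (nat_lit 55440041555) (nat_lit 0) (nat_lit 56456555462) (nat_lit 836) (nat_lit 138684258042) (nat_lit 164) (nat_lit 5) (nat_lit 163) (nat_lit 3) (nat_lit 174) (nat_lit 5) (nat_lit 485) (nat_lit 484) (nat_lit 231))))) (XT.nd (nat_lit 312) (nat_lit 0) (nat_lit 152) (XT.nd (nat_lit 156) (nat_lit 0) (nat_lit 76) (XT.nd (nat_lit 78) (nat_lit 0) (nat_lit 0) (XT.lf (nat_lit 0) (nat_lit 117907198181) (nat_lit 760) (nat_lit 70484508769) (nat_lit 836) (nat_lit 68449214778)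 (nat_lit 164) (nat_lit 5) (nat_lit 174) (nat_lit 5) (nat_lit 175) (nat_lit 5) (nat_lit 486) (nat_lit 484) (nat_lit 230)) (XT.lf (nat_lit 76) (nat_lit 61445700660) (nat_lit 0) (nat_lit 64657419917) (nat_lit 836) (nat_lit 137216631603) (nat_lit 165) (nat_lit 5) (nat_lit 164) (nat_lit 5) (nat_lit 175) (nat_lit 5) (nat_lit 487) (nat_lit 484) (nat_lit 229))) (XT.nd (nat_lit 78) (nat_lit 0) (nat_lit 0) (XT.lf (nat_lit 0) (nat_lit 136940981626) (nat_lit 760) (nat_lit 68681914533) (nat_lit 836) (nat_lit 64388020873) (nat_lit 165) (nat_lit 5) (nat_lit 175) (nat_lit 5) (nat_lit 176) (nat_lit 5) (nat_lit 488) (nat_lit 484) (nat_lit 228)) (XT.lf (nat_lit 76) (nat_lit 72427978957) (nat_lit 0) (nat_lit 78083458383) (nat_lit 836) (nat_lit 126415667709) (nat_lit 166) (nat_lit 5) (nat_lit 165) (nat_lit 5) (nat_lit 176) (nat_lit 5) (nat_lit 489) (nat_lit 484) (nat_lit 227)))) (XT.nd (nat_lit 156) (nat_lit 0) (nat_lit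 76) (XT.nd (nat_lit 78) (nat_lit 0) (nat_lit 0) (XT.lf (nat_lit 0) (nat_lit 166814297048) (nat_lit 760) (nat_lit 62043916157) (nat_lit 836) (nat_lit 55228195207) (nat_lit 166) (nat_lit 5) (nat_lit 176) (nat_lit 5) (nat_lit 177) (nat_lit 5) (nat_lit 490) (nat_lit 484) (nat_lit 226)) (XT.lf (nat_lit 76) (nat_lit 89105902159) (nat_lit 0) (nat_lit 97497592545) (nat_lit 836) (nat_lit 104866622495) (nat_lit 167) (nat_lit 5) (nat_lit 166) (nat_lit 5) (nat_lit 177) (nat_lit 5) (nat_lit 491) (nat_lit 484) (nat_lit 225))) (XT.nd (nat_lit 78) (nat_lit 0) (nat_lit 0) (XT.lf (nat_lit 0) (nat_lit 209081311020) (nat_lit 760) (nat_lit 49851748565) (nat_lit 836) (nat_lit 40204993905) (nat_lit 167) (nat_lit 5) (nat_lit 177) (nat_lit 5) (nat_lit 178) (nat_lit 5) (nat_lit 492) (nat_lit 484) (nat_lit 224)) (XT.lf (nat_lit 76) (nat_lit 112281694589) (nat_lit 0) (nat_lit 123752626755) (nat_lit 836) (nat_lit 70987500097)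 (nat_lit 168) (nat_lit 5) (nat_lit 167) (nat_lit 5) (nat_lit 178) (nat_lit 5) (nat_lit 493) (nat_lit 484) (nat_lit 223)))))) (XT.nd (nat_lit 624) (nat_lit 1596) (nat_lit 0) (XT.nd (nat_lit 312) (nat_lit 760) (nat_lit 0) (XT.nd (nat_lit 156) (nat_lit 532) (nat_lit 0) (XT.nd (nat_lit 78) (nat_lit 760) (nat_lit 0) (XT.lf (nat_lit 0) (nat_lit 265476985357) (nat_lit 760) (nat_lit 31302845076) (nat_lit 76) (nat_lit 18462847200) (nat_lit 168) (nat_lit 5) (nat_lit 178) (nat_lit 5) (nat_lit 169) (nat_lit 5) (nat_lit 494) (nat_lit 484) (nat_lit 222)) (XT.lf (nat_lit 0) (nat_lit 142849608037) (nat_lit 760) (nat_lit 157801143078) (nat_lit 836) (nat_lit 23010877095) (nat_lit 158) (nat_lit 5) (nat_lit 168) (nat_lit 5) (nat_lit 169) (nat_lit 5) (nat_lit 495) (nat_lit 484) (nat_lit 221))) (XT.nd (nat_lit 78) (nat_lit 456) (nat_lit 0) (XT.lf (nat_lit 0) (nat_lit 5457807918) (nat_lit 836) (nat_lit 5766643423) (nat_lit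 76) (nat_lit 321246169291) (nat_lit 157) (nat_lit 5) (nat_lit 168) (nat_lit 5) (nat_lit 158) (nat_lit 5) (nat_lit 496) (nat_lit 484) (nat_lit 220)) (XT.lf (nat_lit 0) (nat_lit 39722759893) (nat_lit 532) (nat_lit 160310973468) (nat_lit 76) (nat_lit 141410160488) (nat_lit 151) (nat_lit 5) (nat_lit 158) (nat_lit 5) (nat_lit 152) (nat_lit 5) (nat_lit 497) (nat_lit 484) (nat_lit 219)))) (XT.nd (nat_lit 156) (nat_lit 380) (nat_lit 0) (XT.nd (nat_lit 78) (nat_lit 0) (nat_lit 0) (XT.lf (nat_lit 0) (nat_lit 27408307072) (nat_lit 380) (nat_lit 49003800848) (nat_lit 456) (nat_lit 274418165387) (nat_lit 146) (nat_lit 5) (nat_lit 151) (nat_lit 5) (nat_lit 152) (nat_lit 5) (nat_lit 498) (nat_lit 484) (nat_lit 218)) (XT.lf (nat_lit 0) (nat_lit 119406148407) (nat_lit 456) (nat_lit 132226401433) (nat_lit 76) (nat_lit 108829910648) (nat_lit 146) (nat_lit 5) (nat_lit 152) (nat_lit 5) (nat_lit 147) (nat_lit 5) (nat_lit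 499) (nat_lit 484) (nat_lit 217))) (XT.nd (nat_lit 78) (nat_lit 0) (nat_lit 0) (XT.lf (nat_lit 0) (nat_lit 69964873118) (nat_lit 380) (nat_lit 96480668453) (nat_lit 456) (nat_lit 204035932927) (nat_lit 141) (nat_lit 5) (nat_lit 146) (nat_lit 5) (nat_lit 147) (nat_lit 5) (nat_lit 500) (nat_lit 484) (nat_lit 216)) (XT.lf (nat_lit 0) (nat_lit 219150035518) (nat_lit 456) (nat_lit 95107051325) (nat_lit 76) (nat_lit 66578695811) (nat_lit 141) (nat_lit 5) (nat_lit 147) (nat_lit 5) (nat_lit 142) (nat_lit 5) (nat_lit 501) (nat_lit 484) (nat_lit 215))))) (XT.nd (nat_lit 312) (nat_lit 608) (nat_lit 0) (XT.nd (nat_lit 156) (nat_lit 684) (nat_lit 0) (XT.nd (nat_lit 78) (nat_lit 0) (nat_lit 0) (XT.lf (nat_lit 0) (nat_lit 122925675692) (nat_lit 304) (nat_lit 155064907888) (nat_lit 380) (nat_lit 113542181170) (nat_lit 137) (nat_lit 5) (nat_lit 141) (nat_lit 5) (nat_lit 142) (nat_lit 5) (nat_lit 502) (nat_lit 484)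 (nat_lit 214)) (XT.lf (nat_lit 0) (nat_lit 341598923517) (nat_lit 380) (nat_lit 47737275896) (nat_lit 76) (nat_lit 13337108316) (nat_lit 137) (nat_lit 5) (nat_lit 142) (nat_lit 5) (nat_lit 138) (nat_lit 5) (nat_lit 503) (nat_lit 484) (nat_lit 213))) (XT.nd (nat_lit 78) (nat_lit 380) (nat_lit 0) (XT.lf (nat_lit 0) (nat_lit 187639580034) (nat_lit 304) (nat_lit 226219695229) (nat_lit 380) (nat_lit 238022855) (nat_lit 133) (nat_lit 5) (nat_lit 137) (nat_lit 5) (nat_lit 138) (nat_lit 5) (nat_lit 504) (nat_lit 484) (nat_lit 212)) (XT.lf (nat_lit 0) (nat_lit 9693916119) (nat_lit 304) (nat_lit 52882382283) (nat_lit 380) (nat_lit 363417858353) (nat_lit 128) (nat_lit 5) (nat_lit 132) (nat_lit 5) (nat_lit 133) (nat_lit 5) (nat_lit 505) (nat_lit 484) (nat_lit 211)))) (XT.nd (nat_lit 156) (nat_lit 304) (nat_lit 0) (XT.nd (nat_lit 78) (nat_lit 304) (nat_lit 0) (XT.lf (nat_lit 0) (nat_lit 134437301080) (nat_lit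 380) (nat_lit 174861633769) (nat_lit 76) (nat_lit 128891030150) (nat_lit 128) (nat_lit 5) (nat_lit 133) (nat_lit 5) (nat_lit 129) (nat_lit 5) (nat_lit 506) (nat_lit 484) (nat_lit 210)) (XT.lf (nat_lit 0) (nat_lit 80353763416) (nat_lit 304) (nat_lit 131659032399) (nat_lit 380) (nat_lit 238876695749) (nat_lit 124) (nat_lit 5) (nat_lit 128) (nat_lit 5) (nat_lit 129) (nat_lit 5) (nat_lit 507) (nat_lit 484) (nat_lit 209))) (XT.nd (nat_lit 78) (nat_lit 304) (nat_lit 0) (XT.lf (nat_lit 0) (nat_lit 297333512624) (nat_lit 380) (nat_lit 110580343347) (nat_lit 76) (nat_lit 56116816119) (nat_lit 124) (nat_lit 5) (nat_lit 129) (nat_lit 5) (nat_lit 125) (nat_lit 5) (nat_lit 508) (nat_lit 484) (nat_lit 208)) (XT.nd (nat_lit 78) (nat_lit 76) (nat_lit 0) (XT.lf (nat_lit 0) (nat_lit 165511841636) (nat_lit 228) (nat_lit 226150844402) (nat_lit 304) (nat_lit 85929104568) (nat_lit 121) (nat_lit 5) (nat_lit 124) (nat_lit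 5) (nat_lit 125) (nat_lit 5) (nat_lit 509) (nat_lit 484) (nat_lit 207)) (XT.lf (nat_lit 0) (nat_lit 816689513) (nat_lit 304) (nat_lit 32502802780) (nat_lit 76) (nat_lit 458417178902) (nat_lit 120) (nat_lit 5) (nat_lit 124) (nat_lit 5) (nat_lit 121) (nat_lit 5) (nat_lit 510) (nat_lit 484) (nat_lit 206))))))))
noncomputable def xc468 : XT := (XT.nd (nat_lit 1248) (nat_lit 1748) (nat_lit 0) (XT.nd (nat_lit 624) (nat_lit 988) (nat_lit 0) (XT.nd (nat_lit 312) (nat_lit 456) (nat_lit 0) (XT.nd (nat_lit 156) (nat_lit 228) (nat_lit 0) (XT.nd (nat_lit 78) (nat_lit 228) (nat_lit 0) (XT.lf (nat_lit 0) (nat_lit 95932484806) (nat_lit 380) (nat_lit 240812166362) (nat_lit 76) (nat_lit 169427686312) (nat_lit 116) (nat_lit 5) (nat_lit 121) (nat_lit 5) (nat_lit 117) (nat_lit 5) (nat_lit 511) (nat_lit 484) (nat_lit 205)) (XT.lf (nat_lit 0) (nat_lit 59284651264) (nat_lit 228) (nat_lit 138550688255) (nat_lit 304) (nat_lit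 323392884078) (nat_lit 113) (nat_lit 5) (nat_lit 116) (nat_lit 5) (nat_lit 117) (nat_lit 5) (nat_lit 512) (nat_lit 484) (nat_lit 204))) (XT.nd (nat_lit 78) (nat_lit 228) (nat_lit 0) (XT.lf (nat_lit 0) (nat_lit 310064356198) (nat_lit 304) (nat_lit 155239036234) (nat_lit 76) (nat_lit 71471960628) (nat_lit 113) (nat_lit 5) (nat_lit 117) (nat_lit 5) (nat_lit 114) (nat_lit 5) (nat_lit 513) (nat_lit 484) (nat_lit 203)) (XT.lf (nat_lit 0) (nat_lit 169969453189) (nat_lit 228) (nat_lit 262860368922) (nat_lit 304) (nat_lit 120023766966) (nat_lit 110) (nat_lit 5) (nat_lit 113) (nat_lit 5) (nat_lit 114) (nat_lit 5) (nat_lit 514) (nat_lit 484) (nat_lit 202)))) (XT.nd (nat_lit 156) (nat_lit 228) (nat_lit 0) (XT.nd (nat_lit 78) (nat_lit 228) (nat_lit 0) (XT.lf (nat_lit 0) (nat_lit 516827881737) (nat_lit 228) (nat_lit 47534704519) (nat_lit 304) (nat_lit 5241699391) (nat_lit 110) (nat_lit 5) (nat_lit 113) (nat_lit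 5) (nat_lit 114) (nat_lit 5) (nat_lit 515) (nat_lit 484) (nat_lit 201)) (XT.lf (nat_lit 0) (nat_lit 119194559603) (nat_lit 228) (nat_lit 288068611908) (nat_lit 76) (nat_lit 179459116204) (nat_lit 107) (nat_lit 5) (nat_lit 110) (nat_lit 5) (nat_lit 108) (nat_lit 5) (nat_lit 516) (nat_lit 484) (nat_lit 200))) (XT.nd (nat_lit 78) (nat_lit 0) (nat_lit 0) (XT.lf (nat_lit 0) (nat_lit 66070843542) (nat_lit 228) (nat_lit 186324865193) (nat_lit 304) (nat_lit 352160223043) (nat_lit 104) (nat_lit 5) (nat_lit 107) (nat_lit 5) (nat_lit 108) (nat_lit 5) (nat_lit 517) (nat_lit 484) (nat_lit 199)) (XT.lf (nat_lit 0) (nat_lit 397928337762) (nat_lit 304) (nat_lit 175911862370) (nat_lit 76) (nat_lit 49157486792) (nat_lit 104) (nat_lit 5) (nat_lit 108) (nat_lit 5) (nat_lit 105) (nat_lit 5) (nat_lit 518) (nat_lit 484) (nat_lit 198))))) (XT.nd (nat_lit 312) (nat_lit 380) (nat_lit 0) (XT.nd (nat_lit 156) (nat_lit 380)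 (nat_lit 0) (XT.nd (nat_lit 78) (nat_lit 76) (nat_lit 0) (XT.lf (nat_lit 0) (nat_lit 208405772650) (nat_lit 152) (nat_lit 348640109015) (nat_lit 228) (nat_lit 85000233992) (nat_lit 102) (nat_lit 5) (nat_lit 104) (nat_lit 5) (nat_lit 105) (nat_lit 5) (nat_lit 519) (nat_lit 484) (nat_lit 197)) (XT.lf (nat_lit 0) (nat_lit 63113605009) (nat_lit 228) (nat_lit 44869450393) (nat_lit 76) (nat_lit 553864055743) (nat_lit 101) (nat_lit 5) (nat_lit 104) (nat_lit 5) (nat_lit 102) (nat_lit 5) (nat_lit 520) (nat_lit 484) (nat_lit 196))) (XT.nd (nat_lit 78) (nat_lit 152) (nat_lit 0) (XT.lf (nat_lit 0) (nat_lit 223992223151) (nat_lit 304) (nat_lit 310740322232) (nat_lit 76) (nat_lit 147425156081) (nat_lit 98) (nat_lit 5) (nat_lit 102) (nat_lit 5) (nat_lit 99) (nat_lit 5) (nat_lit 521) (nat_lit 484) (nat_lit 195)) (XT.lf (nat_lit 0) (nat_lit 108314528222) (nat_lit 152) (nat_lit 288833875025) (nat_lit 228) (nat_lit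 306123736500) (nat_lit 96) (nat_lit 5) (nat_lit 98) (nat_lit 5) (nat_lit 99) (nat_lit 5) (nat_lit 522) (nat_lit 484) (nat_lit 194)))) (XT.nd (nat_lit 156) (nat_lit 152) (nat_lit 0) (XT.nd (nat_lit 78) (nat_lit 228) (nat_lit 0) (XT.lf (nat_lit 0) (nat_lit 559110292737) (nat_lit 152) (nat_lit 25114618452) (nat_lit 228) (nat_lit 140954262814) (nat_lit 96) (nat_lit 5) (nat_lit 98) (nat_lit 5) (nat_lit 99) (nat_lit 5) (nat_lit 523) (nat_lit 484) (nat_lit 193)) (XT.lf (nat_lit 0) (nat_lit 40025532084) (nat_lit 228) (nat_lit 458802324248) (nat_lit 76) (nat_lit 248898792967) (nat_lit 93) (nat_lit 5) (nat_lit 96) (nat_lit 5) (nat_lit 94) (nat_lit 5) (nat_lit 524) (nat_lit 484) (nat_lit 192))) (XT.nd (nat_lit 78) (nat_lit 152) (nat_lit 0) (XT.lf (nat_lit 0) (nat_lit 228587588934) (nat_lit 228) (nat_lit 1596723943) (nat_lit 76) (nat_lit 540938136216) (nat_lit 93) (nat_lit 5) (nat_lit 96) (nat_lit 5) (nat_lit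 94) (nat_lit 5) (nat_lit 525) (nat_lit 484) (nat_lit 191)) (XT.lf (nat_lit 0) (nat_lit 435231657757) (nat_lit 228) (nat_lit 301949382002) (nat_lit 76) (nat_lit 58074303663) (nat_lit 91) (nat_lit 5) (nat_lit 94) (nat_lit 5) (nat_lit 92) (nat_lit 5) (nat_lit 526) (nat_lit 484) (nat_lit 190)))))) (XT.nd (nat_lit 624) (nat_lit 912) (nat_lit 0) (XT.nd (nat_lit 312) (nat_lit 304) (nat_lit 0) (XT.nd (nat_lit 156) (nat_lit 304) (nat_lit 0) (XT.nd (nat_lit 78) (nat_lit 76) (nat_lit 0) (XT.lf (nat_lit 0) (nat_lit 194879046287) (nat_lit 152) (nat_lit 464172472730) (nat_lit 228) (nat_lit 161201184000) (nat_lit 89) (nat_lit 5) (nat_lit 91) (nat_lit 5) (nat_lit 92) (nat_lit 5) (nat_lit 527) (nat_lit 484) (nat_lit 189)) (XT.lf (nat_lit 0) (nat_lit 51237620018) (nat_lit 228) (nat_lit 120038793437) (nat_lit 76) (nat_lit 674926514361) (nat_lit 88) (nat_lit 5) (nat_lit 91) (nat_lit 5) (nat_lit 89) (nat_lit 5) (nat_lit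 528) (nat_lit 484) (nat_lit 188))) (XT.nd (nat_lit 78) (nat_lit 152) (nat_lit 0) (XT.lf (nat_lit 0) (nat_lit 277738938523) (nat_lit 228) (nat_lit 453860389569) (nat_lit 76) (nat_lit 141276304091) (nat_lit 86) (nat_lit 5) (nat_lit 89) (nat_lit 5) (nat_lit 87) (nat_lit 5) (nat_lit 529) (nat_lit 484) (nat_lit 187)) (XT.lf (nat_lit 0) (nat_lit 88397229378) (nat_lit 152) (nat_lit 433422257719) (nat_lit 228) (nat_lit 378749776465) (nat_lit 84) (nat_lit 5) (nat_lit 86) (nat_lit 5) (nat_lit 87) (nat_lit 5) (nat_lit 530) (nat_lit 484) (nat_lit 186)))) (XT.nd (nat_lit 156) (nat_lit 152) (nat_lit 0) (XT.nd (nat_lit 78) (nat_lit 152) (nat_lit 0) (XT.lf (nat_lit 0) (nat_lit 673524709814) (nat_lit 152) (nat_lit 112265683000) (nat_lit 228) (nat_lit 143472867210) (nat_lit 84) (nat_lit 5) (nat_lit 86) (nat_lit 5) (nat_lit 87) (nat_lit 5) (nat_lit 531) (nat_lit 484) (nat_lit 185)) (XT.lf (nat_lit 0) (nat_lit 109150650715)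 (nat_lit 152) (nat_lit 624964129034) (nat_lit 76) (nat_lit 224751448192) (nat_lit 82) (nat_lit 5) (nat_lit 84) (nat_lit 5) (nat_lit 83) (nat_lit 5) (nat_lit 532) (nat_lit 484) (nat_lit 184))) (XT.nd (nat_lit 78) (nat_lit 152) (nat_lit 0) (XT.lf (nat_lit 0) (nat_lit 375826178478) (nat_lit 152) (nat_lit 32092808818) (nat_lit 76) (nat_lit 581600633093) (nat_lit 82) (nat_lit 5) (nat_lit 84) (nat_lit 5) (nat_lit 83) (nat_lit 5) (nat_lit 533) (nat_lit 484) (nat_lit 183)) (XT.lf (nat_lit 0) (nat_lit 609944071469) (nat_lit 152) (nat_lit 55414333235) (nat_lit 228) (nat_lit 355871131651) (nat_lit 80) (nat_lit 5) (nat_lit 82) (nat_lit 5) (nat_lit 83) (nat_lit 5) (nat_lit 534) (nat_lit 484) (nat_lit 182))))) (XT.nd (nat_lit 312) (nat_lit 532) (nat_lit 0) (XT.nd (nat_lit 156) (nat_lit 228) (nat_lit 0) (XT.nd (nat_lit 78) (nat_lit 76) (nat_lit 0) (XT.lf (nat_lit 0) (nat_lit 233241882477) (nat_lit 76) (nat_lit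 745232914062) (nat_lit 152) (nat_lit 75594773867) (nat_lit 79) (nat_lit 5) (nat_lit 80) (nat_lit 5) (nat_lit 81) (nat_lit 4) (nat_lit 535) (nat_lit 484) (nat_lit 181)) (XT.lf (nat_lit 0) (nat_lit 219683704687) (nat_lit 152) (nat_lit 168365931326) (nat_lit 76) (nat_lit 699931851665) (nat_lit 78) (nat_lit 5) (nat_lit 80) (nat_lit 5) (nat_lit 79) (nat_lit 5) (nat_lit 536) (nat_lit 484) (nat_lit 180))) (XT.nd (nat_lit 78) (nat_lit 76) (nat_lit 0) (XT.lf (nat_lit 0) (nat_lit 532523714711) (nat_lit 152) (nat_lit 2976086529) (nat_lit 228) (nat_lit 587611527935) (nat_lit 76) (nat_lit 5) (nat_lit 78) (nat_lit 5) (nat_lit 79) (nat_lit 5) (nat_lit 537) (nat_lit 484) (nat_lit 179)) (XT.lf (nat_lit 0) (nat_lit 111710482136) (nat_lit 76) (nat_lit 766304639053) (nat_lit 152) (nat_lit 281437120630) (nat_lit 75) (nat_lit 5) (nat_lit 76) (nat_lit 5) (nat_lit 77) (nat_lit 4) (nat_lit 538) (nat_lit 484) (nat_lit 178))))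 (XT.nd (nat_lit 156) (nat_lit 304) (nat_lit 0) (XT.nd (nat_lit 78) (nat_lit 152) (nat_lit 0) (XT.lf (nat_lit 0) (nat_lit 48978912138) (nat_lit 152) (nat_lit 328320762345) (nat_lit 76) (nat_lit 819768532723) (nat_lit 74) (nat_lit 5) (nat_lit 76) (nat_lit 5) (nat_lit 75) (nat_lit 5) (nat_lit 539) (nat_lit 484) (nat_lit 177)) (XT.lf (nat_lit 0) (nat_lit 393945194489) (nat_lit 228) (nat_lit 800241463494) (nat_lit 76) (nat_lit 41773247679) (nat_lit 72) (nat_lit 5) (nat_lit 75) (nat_lit 5) (nat_lit 73) (nat_lit 4) (nat_lit 540) (nat_lit 484) (nat_lit 176))) (XT.nd (nat_lit 78) (nat_lit 304) (nat_lit 0) (XT.lf (nat_lit 0) (nat_lit 767996441925) (nat_lit 228) (nat_lit 33436429040) (nat_lit 76) (nat_lit 474771485529) (nat_lit 72) (nat_lit 5) (nat_lit 75) (nat_lit 5) (nat_lit 73) (nat_lit 4) (nat_lit 541) (nat_lit 484) (nat_lit 175)) (XT.nd (nat_lit 78) (nat_lit 228) (nat_lit 0) (XT.lf (nat_lit 0) (nat_lit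 797225014061) (nat_lit 76) (nat_lit 375972142402) (nat_lit 152) (nat_lit 144641528167) (nat_lit 71) (nat_lit 5) (nat_lit 72) (nat_lit 5) (nat_lit 73) (nat_lit 4) (nat_lit 542) (nat_lit 484) (nat_lit 174)) (XT.lf (nat_lit 0) (nat_lit 236270456202) (nat_lit 228) (nat_lit 1046911447986) (nat_lit 76) (nat_lit 77849929679) (nat_lit 68) (nat_lit 5) (nat_lit 71) (nat_lit 5) (nat_lit 69) (nat_lit 4) (nat_lit 543) (nat_lit 484) (nat_lit 173))))))))
noncomputable def xc469 : XT := (XT.nd (nat_lit 59046) (nat_lit 0) (nat_lit 3192) (XT.nd (nat_lit 58422) (nat_lit 0) (nat_lit 5928) (XT.nd (nat_lit 58110) (nat_lit 0) (nat_lit 7296) (XT.nd (nat_lit 57954) (nat_lit 0) (nat_lit 7220) (XT.nd (nat_lit 57876) (nat_lit 0) (nat_lit 7220) (XT.lf (nat_lit 0) (nat_lit 646491984712) (nat_lit 228) (nat_lit 205957333287) (nat_lit 76) (nat_lit 553060521499) (nat_lit 68) (nat_lit 5) (nat_lit 71) (nat_lit 5) (nat_lit 69) (nat_lit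 4) (nat_lit 544) (nat_lit 484) (nat_lit 172)) (XT.lf (nat_lit 0) (nat_lit 56870056565) (nat_lit 836) (nat_lit 35749188370) (nat_lit 836) (nat_lit 35749188370) (nat_lit 163) (nat_lit 3) (nat_lit 174) (nat_lit 3) (nat_lit 174) (nat_lit 5) (nat_lit 485) (nat_lit 485) (nat_lit 230))) (XT.nd (nat_lit 78) (nat_lit 0) (nat_lit 76) (XT.lf (nat_lit 76) (nat_lit 58213138639) (nat_lit 0) (nat_lit 59280324147) (nat_lit 836) (nat_lit 145616333075) (nat_lit 164) (nat_lit 5) (nat_lit 163) (nat_lit 3) (nat_lit 174) (nat_lit 5) (nat_lit 486) (nat_lit 485) (nat_lit 229)) (XT.lf (nat_lit 0) (nat_lit 123804483069) (nat_lit 760) (nat_lit 74007580257) (nat_lit 836) (nat_lit 71870808092) (nat_lit 164) (nat_lit 5) (nat_lit 174) (nat_lit 5) (nat_lit 175) (nat_lit 5) (nat_lit 487) (nat_lit 485) (nat_lit 228)))) (XT.nd (nat_lit 156) (nat_lit 0) (nat_lit 76) (XT.nd (nat_lit 78) (nat_lit 0) (nat_lit 76) (XT.lf (nat_lit 76)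 (nat_lit 64519121032) (nat_lit 0) (nat_lit 67891006612) (nat_lit 836) (nat_lit 144075519452) (nat_lit 165) (nat_lit 5) (nat_lit 164) (nat_lit 5) (nat_lit 175) (nat_lit 5) (nat_lit 488) (nat_lit 485) (nat_lit 227)) (XT.lf (nat_lit 0) (nat_lit 143789782959) (nat_lit 760) (nat_lit 72114830063) (nat_lit 836) (nat_lit 67606762113) (nat_lit 165) (nat_lit 5) (nat_lit 175) (nat_lit 5) (nat_lit 176) (nat_lit 5) (nat_lit 489) (nat_lit 485) (nat_lit 226))) (XT.nd (nat_lit 78) (nat_lit 0) (nat_lit 76) (XT.lf (nat_lit 76) (nat_lit 76050539065) (nat_lit 0) (nat_lit 81988157082) (nat_lit 836) (nat_lit 132734679679) (nat_lit 166) (nat_lit 5) (nat_lit 165) (nat_lit 5) (nat_lit 176) (nat_lit 5) (nat_lit 490) (nat_lit 485) (nat_lit 225)) (XT.lf (nat_lit 0) (nat_lit 175156610692) (nat_lit 760) (nat_lit 65144917827) (nat_lit 836) (nat_lit 57989120252) (nat_lit 166) (nat_lit 5) (nat_lit 176) (nat_lit 5) (nat_lit 177)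 (nat_lit 5) (nat_lit 491) (nat_lit 485) (nat_lit 224))))) (XT.nd (nat_lit 312) (nat_lit 1520) (nat_lit 0) (XT.nd (nat_lit 156) (nat_lit 0) (nat_lit 76) (XT.nd (nat_lit 78) (nat_lit 0) (nat_lit 76) (XT.lf (nat_lit 76) (nat_lit 93562372144) (nat_lit 0) (nat_lit 102372838297) (nat_lit 836) (nat_lit 110108335451) (nat_lit 167) (nat_lit 5) (nat_lit 166) (nat_lit 5) (nat_lit 177) (nat_lit 5) (nat_lit 492) (nat_lit 485) (nat_lit 223)) (XT.lf (nat_lit 0) (nat_lit 219536838747) (nat_lit 760) (nat_lit 52343138127) (nat_lit 836) (nat_lit 42214906071) (nat_lit 167) (nat_lit 5) (nat_lit 177) (nat_lit 5) (nat_lit 178) (nat_lit 5) (nat_lit 493) (nat_lit 485) (nat_lit 222))) (XT.nd (nat_lit 78) (nat_lit 0) (nat_lit 76) (XT.lf (nat_lit 76) (nat_lit 117896957865) (nat_lit 0) (nat_lit 129940490496) (nat_lit 836) (nat_lit 74535393499) (nat_lit 168) (nat_lit 5) (nat_lit 167) (nat_lit 5) (nat_lit 178) (nat_lit 5) (nat_lit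 494) (nat_lit 485) (nat_lit 221)) (XT.lf (nat_lit 0) (nat_lit 278752174931) (nat_lit 760) (nat_lit 32866794161) (nat_lit 76) (nat_lit 19385775307) (nat_lit 168) (nat_lit 5) (nat_lit 178) (nat_lit 5) (nat_lit 169) (nat_lit 5) (nat_lit 495) (nat_lit 485) (nat_lit 220)))) (XT.nd (nat_lit 156) (nat_lit 836) (nat_lit 0) (XT.nd (nat_lit 78) (nat_lit 76) (nat_lit 0) (XT.lf (nat_lit 0) (nat_lit 149993262364) (nat_lit 760) (nat_lit 165691321118) (nat_lit 836) (nat_lit 24160061303) (nat_lit 158) (nat_lit 5) (nat_lit 168) (nat_lit 5) (nat_lit 169) (nat_lit 5) (nat_lit 496) (nat_lit 485) (nat_lit 219)) (XT.lf (nat_lit 0) (nat_lit 5731951770) (nat_lit 836) (nat_lit 6053816039) (nat_lit 76) (nat_lit 337308321095) (nat_lit 157) (nat_lit 5) (nat_lit 168) (nat_lit 5) (nat_lit 158) (nat_lit 5) (nat_lit 497) (nat_lit 485) (nat_lit 218))) (XT.nd (nat_lit 78) (nat_lit 380) (nat_lit 0) (XT.lf (nat_lit 0) (nat_lit 41710108363)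 (nat_lit 532) (nat_lit 168325319523) (nat_lit 76) (nat_lit 148480600049) (nat_lit 151) (nat_lit 5) (nat_lit 158) (nat_lit 5) (nat_lit 152) (nat_lit 5) (nat_lit 498) (nat_lit 485) (nat_lit 217)) (XT.lf (nat_lit 0) (nat_lit 28779905647) (nat_lit 380) (nat_lit 51453978977) (nat_lit 456) (nat_lit 288137843705) (nat_lit 146) (nat_lit 5) (nat_lit 151) (nat_lit 5) (nat_lit 152) (nat_lit 5) (nat_lit 499) (nat_lit 485) (nat_lit 216)))))) (XT.nd (nat_lit 624) (nat_lit 1368) (nat_lit 0) (XT.nd (nat_lit 312) (nat_lit 684) (nat_lit 0) (XT.nd (nat_lit 156) (nat_lit 304) (nat_lit 0) (XT.nd (nat_lit 78) (nat_lit 380) (nat_lit 0) (XT.lf (nat_lit 0) (nat_lit 125377571535) (nat_lit 456) (nat_lit 138836538953) (nat_lit 76) (nat_lit 114271417164) (nat_lit 146) (nat_lit 5) (nat_lit 152) (nat_lit 5) (nat_lit 147) (nat_lit 5) (nat_lit 500) (nat_lit 485) (nat_lit 215)) (XT.lf (nat_lit 0) (nat_lit 73464280252) (nat_lit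 380) (nat_lit 101304619141) (nat_lit 456) (nat_lit 214236594721) (nat_lit 141) (nat_lit 5) (nat_lit 146) (nat_lit 5) (nat_lit 147) (nat_lit 5) (nat_lit 501) (nat_lit 485) (nat_lit 214))) (XT.nd (nat_lit 78) (nat_lit 304) (nat_lit 0) (XT.lf (nat_lit 0) (nat_lit 230108567804) (nat_lit 456) (nat_lit 99861245514) (nat_lit 76) (nat_lit 69907706875) (nat_lit 141) (nat_lit 5) (nat_lit 147) (nat_lit 5) (nat_lit 142) (nat_lit 5) (nat_lit 502) (nat_lit 485) (nat_lit 213)) (XT.lf (nat_lit 0) (nat_lit 129073099169) (nat_lit 304) (nat_lit 162818012822) (nat_lit 380) (nat_lit 119218240970) (nat_lit 137) (nat_lit 5) (nat_lit 141) (nat_lit 5) (nat_lit 142) (nat_lit 5) (nat_lit 503) (nat_lit 485) (nat_lit 212)))) (XT.nd (nat_lit 156) (nat_lit 380) (nat_lit 0) (XT.nd (nat_lit 78) (nat_lit 304) (nat_lit 0) (XT.lf (nat_lit 0) (nat_lit 358679823431) (nat_lit 380) (nat_lit 50123008714) (nat_lit 76) (nat_lit 14004093222)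 (nat_lit 137) (nat_lit 5) (nat_lit 142) (nat_lit 5) (nat_lit 138) (nat_lit 5) (nat_lit 504) (nat_lit 485) (nat_lit 211)) (XT.lf (nat_lit 0) (nat_lit 197022671772) (nat_lit 304) (nat_lit 237530492949) (nat_lit 380) (nat_lit 248951959) (nat_lit 133) (nat_lit 5) (nat_lit 137) (nat_lit 5) (nat_lit 138) (nat_lit 5) (nat_lit 505) (nat_lit 485) (nat_lit 210))) (XT.nd (nat_lit 78) (nat_lit 0) (nat_lit 0) (XT.lf (nat_lit 0) (nat_lit 10179737378) (nat_lit 304) (nat_lit 55526289637) (nat_lit 380) (nat_lit 381587791840) (nat_lit 128) (nat_lit 5) (nat_lit 132) (nat_lit 5) (nat_lit 133) (nat_lit 5) (nat_lit 506) (nat_lit 485) (nat_lit 209)) (XT.lf (nat_lit 0) (nat_lit 141160039467) (nat_lit 380) (nat_lit 183603603187) (nat_lit 76) (nat_lit 135335776880) (nat_lit 128) (nat_lit 5) (nat_lit 133) (nat_lit 5) (nat_lit 129) (nat_lit 5) (nat_lit 507) (nat_lit 485) (nat_lit 208))))) (XT.nd (nat_lit 312) (nat_lit 760)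 (nat_lit 0) (XT.nd (nat_lit 156) (nat_lit 304) (nat_lit 0) (XT.nd (nat_lit 78) (nat_lit 0) (nat_lit 0) (XT.lf (nat_lit 0) (nat_lit 84372545918) (nat_lit 304) (nat_lit 138241738518) (nat_lit 380) (nat_lit 250819639216) (nat_lit 124) (nat_lit 5) (nat_lit 128) (nat_lit 5) (nat_lit 129) (nat_lit 5) (nat_lit 508) (nat_lit 485) (nat_lit 207)) (XT.lf (nat_lit 0) (nat_lit 312201000316) (nat_lit 380) (nat_lit 116108281478) (nat_lit 76) (nat_lit 58922883252) (nat_lit 124) (nat_lit 5) (nat_lit 129) (nat_lit 5) (nat_lit 125) (nat_lit 5) (nat_lit 509) (nat_lit 485) (nat_lit 206))) (XT.nd (nat_lit 78) (nat_lit 76) (nat_lit 0) (XT.lf (nat_lit 0) (nat_lit 173788495350) (nat_lit 228) (nat_lit 237458114955) (nat_lit 304) (nat_lit 90224730289) (nat_lit 121) (nat_lit 5) (nat_lit 124) (nat_lit 5) (nat_lit 125) (nat_lit 5) (nat_lit 510) (nat_lit 485) (nat_lit 205)) (XT.lf (nat_lit 0) (nat_lit 858288711) (nat_lit 304)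 (nat_lit 34126906516) (nat_lit 76) (nat_lit 481338271253) (nat_lit 120) (nat_lit 5) (nat_lit 124) (nat_lit 5) (nat_lit 121) (nat_lit 5) (nat_lit 511) (nat_lit 485) (nat_lit 204)))) (XT.nd (nat_lit 156) (nat_lit 228) (nat_lit 0) (XT.nd (nat_lit 78) (nat_lit 228) (nat_lit 0) (XT.lf (nat_lit 0) (nat_lit 100729857574) (nat_lit 380) (nat_lit 252851722044) (nat_lit 76) (nat_lit 177899337271) (nat_lit 116) (nat_lit 5) (nat_lit 121) (nat_lit 5) (nat_lit 117) (nat_lit 5) (nat_lit 512) (nat_lit 485) (nat_lit 203)) (XT.lf (nat_lit 0) (nat_lit 62249919485) (nat_lit 228) (nat_lit 145477916063) (nat_lit 304) (nat_lit 339561762739) (nat_lit 113) (nat_lit 5) (nat_lit 116) (nat_lit 5) (nat_lit 117) (nat_lit 5) (nat_lit 513) (nat_lit 485) (nat_lit 202))) (XT.nd (nat_lit 78) (nat_lit 228) (nat_lit 0) (XT.lf (nat_lit 0) (nat_lit 325568272903) (nat_lit 304) (nat_lit 162999971513) (nat_lit 76) (nat_lit 75045841318)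 (nat_lit 113) (nat_lit 5) (nat_lit 117) (nat_lit 5) (nat_lit 114) (nat_lit 5) (nat_lit 514) (nat_lit 485) (nat_lit 201)) (XT.nd (nat_lit 78) (nat_lit 0) (nat_lit 0) (XT.lf (nat_lit 0) (nat_lit 178468925985) (nat_lit 228) (nat_lit 276003068460) (nat_lit 304) (nat_lit 126024239990) (nat_lit 110) (nat_lit 5) (nat_lit 113) (nat_lit 5) (nat_lit 114) (nat_lit 5) (nat_lit 515) (nat_lit 485) (nat_lit 200)) (XT.lf (nat_lit 0) (nat_lit 542670228336) (nat_lit 228) (nat_lit 49911136024) (nat_lit 304) (nat_lit 5503103100) (nat_lit 110) (nat_lit 5) (nat_lit 113) (nat_lit 5) (nat_lit 114) (nat_lit 5) (nat_lit 516) (nat_lit 485) (nat_lit 199))))))))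
noncomputable def xc470 : XT := (XT.nd (nat_lit 1248) (nat_lit 1216) (nat_lit 0) (XT.nd (nat_lit 624) (nat_lit 912) (nat_lit 0) (XT.nd (nat_lit 312) (nat_lit 456) (nat_lit 0) (XT.nd (nat_lit 156) (nat_lit 152) (nat_lit 0) (XT.nd (nat_lit 78) (nat_lit 228) (nat_lit 0) (XT.lf (nat_lit 0) (nat_lit 125154935532) (nat_lit 228) (nat_lit 302471056621) (nat_lit 76) (nat_lit 188432377523) (nat_lit 107) (nat_lit 5) (nat_lit 110) (nat_lit 5) (nat_lit 108) (nat_lit 5) (nat_lit 517) (nat_lit 485) (nat_lit 198)) (XT.lf (nat_lit 0) (nat_lit 69375355701) (nat_lit 228) (nat_lit 195640770709) (nat_lit 304) (nat_lit 369767570319) (nat_lit 104) (nat_lit 5) (nat_lit 107) (nat_lit 5) (nat_lit 108) (nat_lit 5) (nat_lit 518) (nat_lit 485) (nat_lit 197))) (XT.nd (nat_lit 78) (nat_lit 152) (nat_lit 0) (XT.lf (nat_lit 0) (nat_lit 417825361803) (nat_lit 304) (nat_lit 184706506587) (nat_lit 76) (nat_lit 51615672497) (nat_lit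 104) (nat_lit 5) (nat_lit 108) (nat_lit 5) (nat_lit 105) (nat_lit 5) (nat_lit 519) (nat_lit 485) (nat_lit 196)) (XT.lf (nat_lit 0) (nat_lit 218826994880) (nat_lit 152) (nat_lit 366071773686) (nat_lit 228) (nat_lit 89249623209) (nat_lit 102) (nat_lit 5) (nat_lit 104) (nat_lit 5) (nat_lit 105) (nat_lit 5) (nat_lit 520) (nat_lit 485) (nat_lit 195)))) (XT.nd (nat_lit 156) (nat_lit 152) (nat_lit 0) (XT.nd (nat_lit 78) (nat_lit 228) (nat_lit 0) (XT.lf (nat_lit 0) (nat_lit 66269859125) (nat_lit 228) (nat_lit 47112014776) (nat_lit 76) (nat_lit 581557564086) (nat_lit 101) (nat_lit 5) (nat_lit 104) (nat_lit 5) (nat_lit 102) (nat_lit 5) (nat_lit 521) (nat_lit 485) (nat_lit 194)) (XT.lf (nat_lit 0) (nat_lit 235192399996) (nat_lit 304) (nat_lit 326276422008) (nat_lit 76) (nat_lit 154796736227) (nat_lit 98) (nat_lit 5) (nat_lit 102) (nat_lit 5) (nat_lit 99) (nat_lit 5) (nat_lit 522) (nat_lit 485) (nat_lit 193)))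 (XT.nd (nat_lit 78) (nat_lit 0) (nat_lit 0) (XT.lf (nat_lit 0) (nat_lit 113731156189) (nat_lit 152) (nat_lit 303275220046) (nat_lit 228) (nat_lit 321429342838) (nat_lit 96) (nat_lit 5) (nat_lit 98) (nat_lit 5) (nat_lit 99) (nat_lit 5) (nat_lit 523) (nat_lit 485) (nat_lit 192)) (XT.lf (nat_lit 0) (nat_lit 587066665998) (nat_lit 152) (nat_lit 26370017251) (nat_lit 228) (nat_lit 148001423109) (nat_lit 96) (nat_lit 5) (nat_lit 98) (nat_lit 5) (nat_lit 99) (nat_lit 5) (nat_lit 524) (nat_lit 485) (nat_lit 191))))) (XT.nd (nat_lit 312) (nat_lit 380) (nat_lit 0) (XT.nd (nat_lit 156) (nat_lit 304) (nat_lit 0) (XT.nd (nat_lit 78) (nat_lit 0) (nat_lit 0) (XT.lf (nat_lit 0) (nat_lit 42027337111) (nat_lit 228) (nat_lit 481741557377) (nat_lit 76) (nat_lit 261344060837) (nat_lit 93) (nat_lit 5) (nat_lit 96) (nat_lit 5) (nat_lit 94) (nat_lit 5) (nat_lit 525) (nat_lit 485) (nat_lit 190)) (XT.lf (nat_lit 0) (nat_lit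 240017471640) (nat_lit 228) (nat_lit 1675719109) (nat_lit 76) (nat_lit 567985355619) (nat_lit 93) (nat_lit 5) (nat_lit 96) (nat_lit 5) (nat_lit 94) (nat_lit 5) (nat_lit 526) (nat_lit 485) (nat_lit 189))) (XT.nd (nat_lit 78) (nat_lit 152) (nat_lit 0) (XT.lf (nat_lit 0) (nat_lit 456993738093) (nat_lit 228) (nat_lit 317046004243) (nat_lit 76) (nat_lit 60978343368) (nat_lit 91) (nat_lit 5) (nat_lit 94) (nat_lit 5) (nat_lit 92) (nat_lit 5) (nat_lit 527) (nat_lit 485) (nat_lit 188)) (XT.lf (nat_lit 0) (nat_lit 204623831801) (nat_lit 152) (nat_lit 487380749936) (nat_lit 228) (nat_lit 169260732078) (nat_lit 89) (nat_lit 5) (nat_lit 91) (nat_lit 5) (nat_lit 92) (nat_lit 5) (nat_lit 528) (nat_lit 485) (nat_lit 187)))) (XT.nd (nat_lit 156) (nat_lit 152) (nat_lit 0) (XT.nd (nat_lit 78) (nat_lit 152) (nat_lit 0) (XT.lf (nat_lit 0) (nat_lit 53799972222) (nat_lit 228) (nat_lit 126039923992) (nat_lit 76) (nat_lit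 708673154420) (nat_lit 88) (nat_lit 5) (nat_lit 91) (nat_lit 5) (nat_lit 89) (nat_lit 5) (nat_lit 529) (nat_lit 485) (nat_lit 186)) (XT.lf (nat_lit 0) (nat_lit 291626351871) (nat_lit 228) (nat_lit 476552595137) (nat_lit 76) (nat_lit 148340443451) (nat_lit 86) (nat_lit 5) (nat_lit 89) (nat_lit 5) (nat_lit 87) (nat_lit 5) (nat_lit 530) (nat_lit 485) (nat_lit 185))) (XT.nd (nat_lit 78) (nat_lit 0) (nat_lit 0) (XT.lf (nat_lit 0) (nat_lit 92817891630) (nat_lit 152) (nat_lit 455093026535) (nat_lit 228) (nat_lit 397686785727) (nat_lit 84) (nat_lit 5) (nat_lit 86) (nat_lit 5) (nat_lit 87) (nat_lit 5) (nat_lit 531) (nat_lit 485) (nat_lit 184)) (XT.lf (nat_lit 0) (nat_lit 707201707956) (nat_lit 152) (nat_lit 117878639464) (nat_lit 228) (nat_lit 150646053845) (nat_lit 84) (nat_lit 5) (nat_lit 86) (nat_lit 5) (nat_lit 87) (nat_lit 5) (nat_lit 532) (nat_lit 485) (nat_lit 183)))))) (XT.nd (nat_lit 624) (nat_lit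 456) (nat_lit 0) (XT.nd (nat_lit 312) (nat_lit 380) (nat_lit 0) (XT.nd (nat_lit 156) (nat_lit 228) (nat_lit 0) (XT.nd (nat_lit 78) (nat_lit 0) (nat_lit 0) (XT.lf (nat_lit 0) (nat_lit 114608621424) (nat_lit 152) (nat_lit 656211554261) (nat_lit 76) (nat_lit 235989341733) (nat_lit 82) (nat_lit 5) (nat_lit 84) (nat_lit 5) (nat_lit 83) (nat_lit 5) (nat_lit 533) (nat_lit 485) (nat_lit 182)) (XT.lf (nat_lit 0) (nat_lit 394617904710) (nat_lit 152) (nat_lit 33696705236) (nat_lit 76) (nat_lit 610680970587) (nat_lit 82) (nat_lit 5) (nat_lit 84) (nat_lit 5) (nat_lit 83) (nat_lit 5) (nat_lit 534) (nat_lit 485) (nat_lit 181))) (XT.nd (nat_lit 78) (nat_lit 76) (nat_lit 0) (XT.lf (nat_lit 0) (nat_lit 640442007065) (nat_lit 152) (nat_lit 58184726740) (nat_lit 228) (nat_lit 373664258915) (nat_lit 80) (nat_lit 5) (nat_lit 82) (nat_lit 5) (nat_lit 83) (nat_lit 5) (nat_lit 535) (nat_lit 485) (nat_lit 180)) (XT.lf (nat_lit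 0) (nat_lit 244904711976) (nat_lit 76) (nat_lit 782494230072) (nat_lit 152) (nat_lit 79374086585) (nat_lit 79) (nat_lit 5) (nat_lit 80) (nat_lit 5) (nat_lit 81) (nat_lit 4) (nat_lit 536) (nat_lit 485) (nat_lit 179)))) (XT.nd (nat_lit 156) (nat_lit 152) (nat_lit 0) (XT.nd (nat_lit 78) (nat_lit 152) (nat_lit 0) (XT.lf (nat_lit 0) (nat_lit 230668282628) (nat_lit 152) (nat_lit 176783514542) (nat_lit 76) (nat_lit 734928745248) (nat_lit 78) (nat_lit 5) (nat_lit 80) (nat_lit 5) (nat_lit 79) (nat_lit 5) (nat_lit 537) (nat_lit 485) (nat_lit 178)) (XT.lf (nat_lit 0) (nat_lit 559150602291) (nat_lit 152) (nat_lit 3124573975) (nat_lit 228) (nat_lit 616991700112) (nat_lit 76) (nat_lit 5) (nat_lit 78) (nat_lit 5) (nat_lit 79) (nat_lit 5) (nat_lit 538) (nat_lit 485) (nat_lit 177))) (XT.nd (nat_lit 78) (nat_lit 76) (nat_lit 0) (XT.lf (nat_lit 0) (nat_lit 117296710845) (nat_lit 76) (nat_lit 804619548748) (nat_lit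 152) (nat_lit 295508575192) (nat_lit 75) (nat_lit 5) (nat_lit 76) (nat_lit 5) (nat_lit 77) (nat_lit 4) (nat_lit 539) (nat_lit 485) (nat_lit 176)) (XT.lf (nat_lit 0) (nat_lit 51428227860) (nat_lit 152) (nat_lit 344736117167) (nat_lit 76) (nat_lit 860757254026) (nat_lit 74) (nat_lit 5) (nat_lit 76) (nat_lit 5) (nat_lit 75) (nat_lit 5) (nat_lit 540) (nat_lit 485) (nat_lit 175))))) (XT.nd (nat_lit 58188) (nat_lit 0) (nat_lit 7220) (XT.nd (nat_lit 156) (nat_lit 304) (nat_lit 0) (XT.nd (nat_lit 78) (nat_lit 0) (nat_lit 0) (XT.lf (nat_lit 0) (nat_lit 413642822029) (nat_lit 228) (nat_lit 840252851068) (nat_lit 76) (nat_lit 43862209451) (nat_lit 72) (nat_lit 5) (nat_lit 75) (nat_lit 5) (nat_lit 73) (nat_lit 4) (nat_lit 541) (nat_lit 485) (nat_lit 174)) (XT.lf (nat_lit 0) (nat_lit 806396614321) (nat_lit 228) (nat_lit 35107597539) (nat_lit 76) (nat_lit 498510344937) (nat_lit 72) (nat_lit 5) (nat_lit 75) (nat_lit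 5) (nat_lit 73) (nat_lit 4) (nat_lit 542) (nat_lit 485) (nat_lit 173))) (XT.nd (nat_lit 78) (nat_lit 228) (nat_lit 0) (XT.lf (nat_lit 0) (nat_lit 837086907186) (nat_lit 76) (nat_lit 394770450750) (nat_lit 152) (nat_lit 151873243738) (nat_lit 71) (nat_lit 5) (nat_lit 72) (nat_lit 5) (nat_lit 73) (nat_lit 4) (nat_lit 543) (nat_lit 485) (nat_lit 172)) (XT.lf (nat_lit 0) (nat_lit 248084326408) (nat_lit 228) (nat_lit 1099256364512) (nat_lit 76) (nat_lit 81742717265) (nat_lit 68) (nat_lit 5) (nat_lit 71) (nat_lit 5) (nat_lit 69) (nat_lit 4) (nat_lit 544) (nat_lit 485) (nat_lit 171)))) (XT.nd (nat_lit 156) (nat_lit 0) (nat_lit 76) (XT.nd (nat_lit 78) (nat_lit 0) (nat_lit 0) (XT.lf (nat_lit 0) (nat_lit 59714520737) (nat_lit 836) (nat_lit 37536143046) (nat_lit 836) (nat_lit 37536143046) (nat_lit 163) (nat_lit 3) (nat_lit 174) (nat_lit 3) (nat_lit 174) (nat_lit 5) (nat_lit 486) (nat_lit 486) (nat_lit 228))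 (XT.lf (nat_lit 76) (nat_lit 61124788773) (nat_lit 0) (nat_lit 62245193788) (nat_lit 836) (nat_lit 152895210618) (nat_lit 164) (nat_lit 5) (nat_lit 163) (nat_lit 3) (nat_lit 174) (nat_lit 5) (nat_lit 487) (nat_lit 486) (nat_lit 227))) (XT.nd (nat_lit 78) (nat_lit 0) (nat_lit 0) (XT.lf (nat_lit 0) (nat_lit 129996453234) (nat_lit 760) (nat_lit 77706912603) (nat_lit 836) (nat_lit 75463561717) (nat_lit 164) (nat_lit 5) (nat_lit 174) (nat_lit 5) (nat_lit 175) (nat_lit 5) (nat_lit 488) (nat_lit 486) (nat_lit 226)) (XT.nd (nat_lit 78) (nat_lit 0) (nat_lit 76) (XT.lf (nat_lit 76) (nat_lit 67746106869) (nat_lit 0) (nat_lit 71286206104) (nat_lit 836) (nat_lit 151277532403) (nat_lit 165) (nat_lit 5) (nat_lit 164) (nat_lit 5) (nat_lit 175) (nat_lit 5) (nat_lit 489) (nat_lit 486) (nat_lit 225)) (XT.lf (nat_lit 0) (nat_lit 150980861451) (nat_lit 760) (nat_lit 75719501094) (nat_lit 836) (nat_lit 70986501758)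 (nat_lit 165) (nat_lit 5) (nat_lit 175) (nat_lit 5) (nat_lit 176) (nat_lit 5) (nat_lit 490) (nat_lit 486) (nat_lit 224))))))))
noncomputable def xc471 : XT := (XT.nd (nat_lit 1248) (nat_lit 2660) (nat_lit 0) (XT.nd (nat_lit 624) (nat_lit 1824) (nat_lit 0) (XT.nd (nat_lit 312) (nat_lit 608) (nat_lit 0) (XT.nd (nat_lit 156) (nat_lit 0) (nat_lit 76) (XT.nd (nat_lit 78) (nat_lit 0) (nat_lit 76) (XT.lf (nat_lit 76) (nat_lit 79854119225) (nat_lit 0) (nat_lit 86088041834) (nat_lit 836) (nat_lit 139369806937) (nat_lit 166) (nat_lit 5) (nat_lit 165) (nat_lit 5) (nat_lit 176) (nat_lit 5) (nat_lit 491) (nat_lit 486) (nat_lit 223)) (XT.lf (nat_lit 0) (nat_lit 183915891377) (nat_lit 760) (nat_lit 68401080600) (nat_lit 836) (nat_lit 60888136613) (nat_lit 166) (nat_lit 5) (nat_lit 176) (nat_lit 5) (nat_lit 177) (nat_lit 5) (nat_lit 492) (nat_lit 486) (nat_lit 222))) (XT.nd (nat_lit 78) (nat_lit 0) (nat_lit 76)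 (XT.lf (nat_lit 76) (nat_lit 98241556400) (nat_lit 0) (nat_lit 107491812297) (nat_lit 836) (nat_lit 115612284498) (nat_lit 167) (nat_lit 5) (nat_lit 166) (nat_lit 5) (nat_lit 177) (nat_lit 5) (nat_lit 493) (nat_lit 486) (nat_lit 221)) (XT.lf (nat_lit 0) (nat_lit 230515006922) (nat_lit 760) (nat_lit 54959208533) (nat_lit 836) (nat_lit 44325345225) (nat_lit 167) (nat_lit 5) (nat_lit 177) (nat_lit 5) (nat_lit 178) (nat_lit 5) (nat_lit 494) (nat_lit 486) (nat_lit 220)))) (XT.nd (nat_lit 156) (nat_lit 760) (nat_lit 0) (XT.nd (nat_lit 78) (nat_lit 0) (nat_lit 76) (XT.lf (nat_lit 76) (nat_lit 123792874734) (nat_lit 0) (nat_lit 136437725817) (nat_lit 836) (nat_lit 78260819317) (nat_lit 168) (nat_lit 5) (nat_lit 167) (nat_lit 5) (nat_lit 178) (nat_lit 5) (nat_lit 495) (nat_lit 486) (nat_lit 219)) (XT.lf (nat_lit 0) (nat_lit 292690999374) (nat_lit 760) (nat_lit 34509051629) (nat_lit 76) (nat_lit 20354869739)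 (nat_lit 168) (nat_lit 5) (nat_lit 178) (nat_lit 5) (nat_lit 169) (nat_lit 5) (nat_lit 496) (nat_lit 486) (nat_lit 218))) (XT.nd (nat_lit 78) (nat_lit 76) (nat_lit 0) (XT.lf (nat_lit 0) (nat_lit 157493990266) (nat_lit 760) (nat_lit 173975996821) (nat_lit 836) (nat_lit 25366831129) (nat_lit 158) (nat_lit 5) (nat_lit 168) (nat_lit 5) (nat_lit 169) (nat_lit 5) (nat_lit 497) (nat_lit 486) (nat_lit 217)) (XT.lf (nat_lit 0) (nat_lit 6019686281) (nat_lit 836) (nat_lit 6355455090) (nat_lit 76) (nat_lit 354173595054) (nat_lit 157) (nat_lit 5) (nat_lit 168) (nat_lit 5) (nat_lit 158) (nat_lit 5) (nat_lit 498) (nat_lit 486) (nat_lit 216))))) (XT.nd (nat_lit 312) (nat_lit 608) (nat_lit 0) (XT.nd (nat_lit 156) (nat_lit 380) (nat_lit 0) (XT.nd (nat_lit 78) (nat_lit 380) (nat_lit 0) (XT.lf (nat_lit 0) (nat_lit 43796711718) (nat_lit 532) (nat_lit 176740494689) (nat_lit 76) (nat_lit 155904567953) (nat_lit 151) (nat_lit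 5) (nat_lit 158) (nat_lit 5) (nat_lit 152) (nat_lit 5) (nat_lit 499) (nat_lit 486) (nat_lit 215)) (XT.lf (nat_lit 0) (nat_lit 30219974146) (nat_lit 380) (nat_lit 54026667119) (nat_lit 456) (nat_lit 302543620288) (nat_lit 146) (nat_lit 5) (nat_lit 151) (nat_lit 5) (nat_lit 152) (nat_lit 5) (nat_lit 500) (nat_lit 486) (nat_lit 214))) (XT.nd (nat_lit 78) (nat_lit 380) (nat_lit 0) (XT.lf (nat_lit 0) (nat_lit 131647462092) (nat_lit 456) (nat_lit 145777293292) (nat_lit 76) (nat_lit 119984997984) (nat_lit 146) (nat_lit 5) (nat_lit 152) (nat_lit 5) (nat_lit 147) (nat_lit 5) (nat_lit 501) (nat_lit 486) (nat_lit 213)) (XT.lf (nat_lit 0) (nat_lit 77138549574) (nat_lit 380) (nat_lit 106369775055) (nat_lit 456) (nat_lit 224947395112) (nat_lit 141) (nat_lit 5) (nat_lit 146) (nat_lit 5) (nat_lit 147) (nat_lit 5) (nat_lit 502) (nat_lit 486) (nat_lit 212)))) (XT.nd (nat_lit 156) (nat_lit 304) (nat_lit 0) (XT.nd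 (nat_lit 78) (nat_lit 304) (nat_lit 0) (XT.lf (nat_lit 0) (nat_lit 241614930898) (nat_lit 456) (nat_lit 104853257109) (nat_lit 76) (nat_lit 73403161400) (nat_lit 141) (nat_lit 5) (nat_lit 147) (nat_lit 5) (nat_lit 142) (nat_lit 5) (nat_lit 503) (nat_lit 486) (nat_lit 211)) (XT.lf (nat_lit 0) (nat_lit 135527787863) (nat_lit 304) (nat_lit 170958786061) (nat_lit 380) (nat_lit 125178201310) (nat_lit 137) (nat_lit 5) (nat_lit 141) (nat_lit 5) (nat_lit 142) (nat_lit 5) (nat_lit 504) (nat_lit 486) (nat_lit 210))) (XT.nd (nat_lit 78) (nat_lit 304) (nat_lit 0) (XT.lf (nat_lit 0) (nat_lit 376614679671) (nat_lit 380) (nat_lit 52628133319) (nat_lit 76) (nat_lit 14704415335) (nat_lit 137) (nat_lit 5) (nat_lit 142) (nat_lit 5) (nat_lit 138) (nat_lit 5) (nat_lit 505) (nat_lit 486) (nat_lit 209)) (XT.lf (nat_lit 0) (nat_lit 206874814645) (nat_lit 304) (nat_lit 249406847945) (nat_lit 380) (nat_lit 260517889) (nat_lit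 133) (nat_lit 5) (nat_lit 137) (nat_lit 5) (nat_lit 138) (nat_lit 5) (nat_lit 506) (nat_lit 486) (nat_lit 208)))))) (XT.nd (nat_lit 624) (nat_lit 1140) (nat_lit 0) (XT.nd (nat_lit 312) (nat_lit 836) (nat_lit 0) (XT.nd (nat_lit 156) (nat_lit 304) (nat_lit 0) (XT.nd (nat_lit 78) (nat_lit 0) (nat_lit 0) (XT.lf (nat_lit 0) (nat_lit 10689745066) (nat_lit 304) (nat_lit 58302412046) (nat_lit 380) (nat_lit 400666311200) (nat_lit 128) (nat_lit 5) (nat_lit 132) (nat_lit 5) (nat_lit 133) (nat_lit 5) (nat_lit 507) (nat_lit 486) (nat_lit 207)) (XT.lf (nat_lit 0) (nat_lit 148218833578) (nat_lit 380) (nat_lit 192782774483) (nat_lit 76) (nat_lit 142102742795) (nat_lit 128) (nat_lit 5) (nat_lit 133) (nat_lit 5) (nat_lit 129) (nat_lit 5) (nat_lit 508) (nat_lit 486) (nat_lit 206))) (XT.nd (nat_lit 78) (nat_lit 0) (nat_lit 0) (XT.lf (nat_lit 0) (nat_lit 88592165805) (nat_lit 304) (nat_lit 145153602767) (nat_lit 380)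 (nat_lit 263359812723) (nat_lit 124) (nat_lit 5) (nat_lit 128) (nat_lit 5) (nat_lit 129) (nat_lit 5) (nat_lit 509) (nat_lit 486) (nat_lit 205)) (XT.lf (nat_lit 0) (nat_lit 327811786894) (nat_lit 380) (nat_lit 121912716834) (nat_lit 76) (nat_lit 61869232699) (nat_lit 124) (nat_lit 5) (nat_lit 129) (nat_lit 5) (nat_lit 125) (nat_lit 5) (nat_lit 510) (nat_lit 486) (nat_lit 204)))) (XT.nd (nat_lit 156) (nat_lit 532) (nat_lit 0) (XT.nd (nat_lit 78) (nat_lit 76) (nat_lit 0) (XT.lf (nat_lit 0) (nat_lit 182478883050) (nat_lit 228) (nat_lit 249330774294) (nat_lit 304) (nat_lit 94735214415) (nat_lit 121) (nat_lit 5) (nat_lit 124) (nat_lit 5) (nat_lit 125) (nat_lit 5) (nat_lit 511) (nat_lit 486) (nat_lit 203)) (XT.lf (nat_lit 0) (nat_lit 901896773) (nat_lit 304) (nat_lit 35832311793) (nat_lit 76) (nat_lit 505405396521) (nat_lit 120) (nat_lit 5) (nat_lit 124) (nat_lit 5) (nat_lit 121) (nat_lit 5) (nat_lit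 512) (nat_lit 486) (nat_lit 202))) (XT.nd (nat_lit 78) (nat_lit 228) (nat_lit 0) (XT.lf (nat_lit 0) (nat_lit 105767029390) (nat_lit 380) (nat_lit 265493353374) (nat_lit 76) (nat_lit 186794545989) (nat_lit 116) (nat_lit 5) (nat_lit 121) (nat_lit 5) (nat_lit 117) (nat_lit 5) (nat_lit 513) (nat_lit 486) (nat_lit 201)) (XT.lf (nat_lit 0) (nat_lit 65363354832) (nat_lit 228) (nat_lit 152751533767) (nat_lit 304) (nat_lit 356539156507) (nat_lit 113) (nat_lit 5) (nat_lit 116) (nat_lit 5) (nat_lit 117) (nat_lit 5) (nat_lit 514) (nat_lit 486) (nat_lit 200))))) (XT.nd (nat_lit 312) (nat_lit 684) (nat_lit 0) (XT.nd (nat_lit 156) (nat_lit 228) (nat_lit 0) (XT.nd (nat_lit 78) (nat_lit 228) (nat_lit 0) (XT.lf (nat_lit 0) (nat_lit 341847320467) (nat_lit 304) (nat_lit 171149048063) (nat_lit 76) (nat_lit 78798389763) (nat_lit 113) (nat_lit 5) (nat_lit 117) (nat_lit 5) (nat_lit 114) (nat_lit 5) (nat_lit 515) (nat_lit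 486) (nat_lit 199)) (XT.lf (nat_lit 0) (nat_lit 187393279439) (nat_lit 228) (nat_lit 289802932625) (nat_lit 304) (nat_lit 132324803170) (nat_lit 110) (nat_lit 5) (nat_lit 113) (nat_lit 5) (nat_lit 114) (nat_lit 5) (nat_lit 516) (nat_lit 486) (nat_lit 198))) (XT.nd (nat_lit 78) (nat_lit 228) (nat_lit 0) (XT.lf (nat_lit 0) (nat_lit 569804603709) (nat_lit 228) (nat_lit 52406417341) (nat_lit 304) (nat_lit 5777640331) (nat_lit 110) (nat_lit 5) (nat_lit 113) (nat_lit 5) (nat_lit 114) (nat_lit 5) (nat_lit 517) (nat_lit 486) (nat_lit 197)) (XT.lf (nat_lit 0) (nat_lit 131413270016) (nat_lit 228) (nat_lit 317593715227) (nat_lit 76) (nat_lit 197854273505) (nat_lit 107) (nat_lit 5) (nat_lit 110) (nat_lit 5) (nat_lit 108) (nat_lit 5) (nat_lit 518) (nat_lit 486) (nat_lit 196)))) (XT.nd (nat_lit 156) (nat_lit 456) (nat_lit 0) (XT.nd (nat_lit 78) (nat_lit 0) (nat_lit 0) (XT.lf (nat_lit 0) (nat_lit 72845003287)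 (nat_lit 228) (nat_lit 205422502901) (nat_lit 304) (nat_lit 388255346679) (nat_lit 104) (nat_lit 5) (nat_lit 107) (nat_lit 5) (nat_lit 108) (nat_lit 5) (nat_lit 519) (nat_lit 486) (nat_lit 195)) (XT.lf (nat_lit 0) (nat_lit 438717180599) (nat_lit 304) (nat_lit 193940971235) (nat_lit 76) (nat_lit 54196738539) (nat_lit 104) (nat_lit 5) (nat_lit 108) (nat_lit 5) (nat_lit 105) (nat_lit 5) (nat_lit 520) (nat_lit 486) (nat_lit 194))) (XT.nd (nat_lit 78) (nat_lit 304) (nat_lit 0) (XT.lf (nat_lit 0) (nat_lit 229769191424) (nat_lit 152) (nat_lit 384375053273) (nat_lit 228) (nat_lit 93711539760) (nat_lit 102) (nat_lit 5) (nat_lit 104) (nat_lit 5) (nat_lit 105) (nat_lit 5) (nat_lit 521) (nat_lit 486) (nat_lit 193)) (XT.nd (nat_lit 78) (nat_lit 228) (nat_lit 0) (XT.lf (nat_lit 0) (nat_lit 69583872594) (nat_lit 228) (nat_lit 49466791809) (nat_lit 76) (nat_lit 610635719438) (nat_lit 101) (nat_lit 5) (nat_lit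 104) (nat_lit 5) (nat_lit 102) (nat_lit 5) (nat_lit 522) (nat_lit 486) (nat_lit 192)) (XT.lf (nat_lit 0) (nat_lit 246952533092) (nat_lit 304) (nat_lit 342589411965) (nat_lit 76) (nat_lit 162536865413) (nat_lit 98) (nat_lit 5) (nat_lit 102) (nat_lit 5) (nat_lit 99) (nat_lit 5) (nat_lit 523) (nat_lit 486) (nat_lit 191))))))))
noncomputable def xc472 : XT := (XT.nd (nat_lit 1248) (nat_lit 304) (nat_lit 0) (XT.nd (nat_lit 624) (nat_lit 760) (nat_lit 0) (XT.nd (nat_lit 312) (nat_lit 532) (nat_lit 0) (XT.nd (nat_lit 156) (nat_lit 228) (nat_lit 0) (XT.nd (nat_lit 78) (nat_lit 0) (nat_lit 0) (XT.lf (nat_lit 0) (nat_lit 119418531736) (nat_lit 152) (nat_lit 318438664740) (nat_lit 228) (nat_lit 337500283461) (nat_lit 96) (nat_lit 5) (nat_lit 98) (nat_lit 5) (nat_lit 99) (nat_lit 5) (nat_lit 524) (nat_lit 486) (nat_lit 190)) (XT.lf (nat_lit 0) (nat_lit 616420778096) (nat_lit 152) (nat_lit 27688216867) (nat_lit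 228) (nat_lit 155400992818) (nat_lit 96) (nat_lit 5) (nat_lit 98) (nat_lit 5) (nat_lit 99) (nat_lit 5) (nat_lit 525) (nat_lit 486) (nat_lit 189))) (XT.nd (nat_lit 78) (nat_lit 0) (nat_lit 0) (XT.lf (nat_lit 0) (nat_lit 44129183261) (nat_lit 228) (nat_lit 505827834264) (nat_lit 76) (nat_lit 274411561586) (nat_lit 93) (nat_lit 5) (nat_lit 96) (nat_lit 5) (nat_lit 94) (nat_lit 5) (nat_lit 526) (nat_lit 486) (nat_lit 188)) (XT.lf (nat_lit 0) (nat_lit 252018801694) (nat_lit 228) (nat_lit 1758742224) (nat_lit 76) (nat_lit 596384906931) (nat_lit 93) (nat_lit 5) (nat_lit 96) (nat_lit 5) (nat_lit 94) (nat_lit 5) (nat_lit 527) (nat_lit 486) (nat_lit 187)))) (XT.nd (nat_lit 156) (nat_lit 228) (nat_lit 0) (XT.nd (nat_lit 78) (nat_lit 152) (nat_lit 0) (XT.lf (nat_lit 0) (nat_lit 479843876198) (nat_lit 228) (nat_lit 332897536330) (nat_lit 76) (nat_lit 64027554888) (nat_lit 91) (nat_lit 5) (nat_lit 94) (nat_lit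 5) (nat_lit 92) (nat_lit 5) (nat_lit 528) (nat_lit 486) (nat_lit 186)) (XT.lf (nat_lit 0) (nat_lit 214855779127) (nat_lit 152) (nat_lit 511749473210) (nat_lit 228) (nat_lit 177723305079) (nat_lit 89) (nat_lit 5) (nat_lit 91) (nat_lit 5) (nat_lit 92) (nat_lit 5) (nat_lit 529) (nat_lit 486) (nat_lit 185))) (XT.nd (nat_lit 78) (nat_lit 152) (nat_lit 0) (XT.lf (nat_lit 0) (nat_lit 56490398228) (nat_lit 228) (nat_lit 132341186299) (nat_lit 76) (nat_lit 744107097257) (nat_lit 88) (nat_lit 5) (nat_lit 91) (nat_lit 5) (nat_lit 89) (nat_lit 5) (nat_lit 530) (nat_lit 486) (nat_lit 184)) (XT.lf (nat_lit 0) (nat_lit 306208092523) (nat_lit 228) (nat_lit 500379486652) (nat_lit 76) (nat_lit 155757759642) (nat_lit 86) (nat_lit 5) (nat_lit 89) (nat_lit 5) (nat_lit 87) (nat_lit 5) (nat_lit 531) (nat_lit 486) (nat_lit 183))))) (XT.nd (nat_lit 312) (nat_lit 456) (nat_lit 0) (XT.nd (nat_lit 156) (nat_lit 152) (nat_lit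 0) (XT.nd (nat_lit 78) (nat_lit 0) (nat_lit 0) (XT.lf (nat_lit 0) (nat_lit 97459512546) (nat_lit 152) (nat_lit 477847365781) (nat_lit 228) (nat_lit 417570690037) (nat_lit 84) (nat_lit 5) (nat_lit 86) (nat_lit 5) (nat_lit 87) (nat_lit 5) (nat_lit 532) (nat_lit 486) (nat_lit 182)) (XT.lf (nat_lit 0) (nat_lit 742562485101) (nat_lit 152) (nat_lit 123772274217) (nat_lit 228) (nat_lit 158177942273) (nat_lit 84) (nat_lit 5) (nat_lit 86) (nat_lit 5) (nat_lit 87) (nat_lit 5) (nat_lit 533) (nat_lit 486) (nat_lit 181))) (XT.nd (nat_lit 78) (nat_lit 0) (nat_lit 0) (XT.lf (nat_lit 0) (nat_lit 120339449932) (nat_lit 152) (nat_lit 689021423381) (nat_lit 76) (nat_lit 247789100095) (nat_lit 82) (nat_lit 5) (nat_lit 84) (nat_lit 5) (nat_lit 83) (nat_lit 5) (nat_lit 534) (nat_lit 486) (nat_lit 180)) (XT.lf (nat_lit 0) (nat_lit 414349178457) (nat_lit 152) (nat_lit 35380865646) (nat_lit 76) (nat_lit 641215296521) (nat_lit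 82) (nat_lit 5) (nat_lit 84) (nat_lit 5) (nat_lit 83) (nat_lit 5) (nat_lit 535) (nat_lit 486) (nat_lit 179)))) (XT.nd (nat_lit 156) (nat_lit 228) (nat_lit 0) (XT.nd (nat_lit 78) (nat_lit 76) (nat_lit 0) (XT.lf (nat_lit 0) (nat_lit 672464771385) (nat_lit 152) (nat_lit 61093669964) (nat_lit 228) (nat_lit 392347082456) (nat_lit 80) (nat_lit 5) (nat_lit 82) (nat_lit 5) (nat_lit 83) (nat_lit 5) (nat_lit 536) (nat_lit 486) (nat_lit 178)) (XT.lf (nat_lit 0) (nat_lit 257150614581) (nat_lit 76) (nat_lit 821618642535) (nat_lit 152) (nat_lit 83342404542) (nat_lit 79) (nat_lit 5) (nat_lit 80) (nat_lit 5) (nat_lit 81) (nat_lit 4) (nat_lit 537) (nat_lit 486) (nat_lit 177))) (XT.nd (nat_lit 78) (nat_lit 152) (nat_lit 0) (XT.lf (nat_lit 0) (nat_lit 242202052955) (nat_lit 152) (nat_lit 185622043240) (nat_lit 76) (nat_lit 771675455526) (nat_lit 78) (nat_lit 5) (nat_lit 80) (nat_lit 5) (nat_lit 79) (nat_lit 5) (nat_lit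 538) (nat_lit 486) (nat_lit 176)) (XT.lf (nat_lit 0) (nat_lit 587108768999) (nat_lit 152) (nat_lit 3280515254) (nat_lit 228) (nat_lit 647840918478) (nat_lit 76) (nat_lit 5) (nat_lit 78) (nat_lit 5) (nat_lit 79) (nat_lit 5) (nat_lit 539) (nat_lit 486) (nat_lit 175)))))) (XT.nd (nat_lit 58656) (nat_lit 0) (nat_lit 6536) (XT.nd (nat_lit 58344) (nat_lit 0) (nat_lit 6916) (XT.nd (nat_lit 156) (nat_lit 152) (nat_lit 0) (XT.nd (nat_lit 78) (nat_lit 76) (nat_lit 0) (XT.lf (nat_lit 0) (nat_lit 123162185483) (nat_lit 76) (nat_lit 844850233889) (nat_lit 152) (nat_lit 310283639807) (nat_lit 75) (nat_lit 5) (nat_lit 76) (nat_lit 5) (nat_lit 77) (nat_lit 4) (nat_lit 540) (nat_lit 486) (nat_lit 174)) (XT.lf (nat_lit 0) (nat_lit 53999974957) (nat_lit 152) (nat_lit 361972303258) (nat_lit 76) (nat_lit 903795383999) (nat_lit 74) (nat_lit 5) (nat_lit 76) (nat_lit 5) (nat_lit 75) (nat_lit 5) (nat_lit 541) (nat_lit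 486) (nat_lit 173))) (XT.nd (nat_lit 78) (nat_lit 0) (nat_lit 0) (XT.lf (nat_lit 0) (nat_lit 434325296749) (nat_lit 228) (nat_lit 882264871761) (nat_lit 76) (nat_lit 46055591478) (nat_lit 72) (nat_lit 5) (nat_lit 75) (nat_lit 5) (nat_lit 73) (nat_lit 4) (nat_lit 542) (nat_lit 486) (nat_lit 172)) (XT.lf (nat_lit 0) (nat_lit 846716762769) (nat_lit 228) (nat_lit 36862385168) (nat_lit 76) (nat_lit 523436120807) (nat_lit 72) (nat_lit 5) (nat_lit 75) (nat_lit 5) (nat_lit 73) (nat_lit 4) (nat_lit 543) (nat_lit 486) (nat_lit 171)))) (XT.nd (nat_lit 156) (nat_lit 0) (nat_lit 76) (XT.nd (nat_lit 78) (nat_lit 0) (nat_lit 0) (XT.lf (nat_lit 0) (nat_lit 62701118740) (nat_lit 836) (nat_lit 39412492382) (nat_lit 836) (nat_lit 39412492382) (nat_lit 163) (nat_lit 3) (nat_lit 174) (nat_lit 3) (nat_lit 174) (nat_lit 5) (nat_lit 487) (nat_lit 487) (nat_lit 226)) (XT.lf (nat_lit 76) (nat_lit 64181929076) (nat_lit 0)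 (nat_lit 65358227568) (nat_lit 836) (nat_lit 160538212319) (nat_lit 164) (nat_lit 5) (nat_lit 163) (nat_lit 3) (nat_lit 174) (nat_lit 5) (nat_lit 488) (nat_lit 487) (nat_lit 225))) (XT.nd (nat_lit 78) (nat_lit 0) (nat_lit 0) (XT.lf (nat_lit 0) (nat_lit 136497859580) (nat_lit 760) (nat_lit 81591308875) (nat_lit 836) (nat_lit 79236026170) (nat_lit 164) (nat_lit 5) (nat_lit 174) (nat_lit 5) (nat_lit 175) (nat_lit 5) (nat_lit 489) (nat_lit 487) (nat_lit 224)) (XT.lf (nat_lit 76) (nat_lit 71134346258) (nat_lit 0) (nat_lit 74851105217) (nat_lit 836) (nat_lit 158839809910) (nat_lit 165) (nat_lit 5) (nat_lit 164) (nat_lit 5) (nat_lit 175) (nat_lit 5) (nat_lit 490) (nat_lit 487) (nat_lit 223))))) (XT.nd (nat_lit 312) (nat_lit 532) (nat_lit 0) (XT.nd (nat_lit 156) (nat_lit 0) (nat_lit 76) (XT.nd (nat_lit 78) (nat_lit 0) (nat_lit 0) (XT.lf (nat_lit 0) (nat_lit 158531346106) (nat_lit 760) (nat_lit 79504505199)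 (nat_lit 836) (nat_lit 74535284025) (nat_lit 165) (nat_lit 5) (nat_lit 175) (nat_lit 5) (nat_lit 176) (nat_lit 5) (nat_lit 491) (nat_lit 487) (nat_lit 222)) (XT.lf (nat_lit 76) (nat_lit 83847780476) (nat_lit 0) (nat_lit 90392876486) (nat_lit 836) (nat_lit 146336839936) (nat_lit 166) (nat_lit 5) (nat_lit 165) (nat_lit 5) (nat_lit 176) (nat_lit 5) (nat_lit 492) (nat_lit 487) (nat_lit 221))) (XT.nd (nat_lit 78) (nat_lit 0) (nat_lit 0) (XT.lf (nat_lit 0) (nat_lit 193113001276) (nat_lit 760) (nat_lit 71820152210) (nat_lit 836) (nat_lit 63932144667) (nat_lit 166) (nat_lit 5) (nat_lit 176) (nat_lit 5) (nat_lit 177) (nat_lit 5) (nat_lit 493) (nat_lit 487) (nat_lit 220)) (XT.lf (nat_lit 76) (nat_lit 103154600794) (nat_lit 0) (nat_lit 112866704124) (nat_lit 836) (nat_lit 121391567452) (nat_lit 167) (nat_lit 5) (nat_lit 166) (nat_lit 5) (nat_lit 177) (nat_lit 5) (nat_lit 494) (nat_lit 487) (nat_lit 219))))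 (XT.nd (nat_lit 156) (nat_lit 684) (nat_lit 0) (XT.nd (nat_lit 78) (nat_lit 0) (nat_lit 0) (XT.lf (nat_lit 0) (nat_lit 242041960205) (nat_lit 760) (nat_lit 57706183471) (nat_lit 836) (nat_lit 46541334800) (nat_lit 167) (nat_lit 5) (nat_lit 177) (nat_lit 5) (nat_lit 178) (nat_lit 5) (nat_lit 495) (nat_lit 487) (nat_lit 218)) (XT.lf (nat_lit 76) (nat_lit 129983488064) (nat_lit 0) (nat_lit 143259803307) (nat_lit 836) (nat_lit 82172641364) (nat_lit 168) (nat_lit 5) (nat_lit 167) (nat_lit 5) (nat_lit 178) (nat_lit 5) (nat_lit 496) (nat_lit 487) (nat_lit 217))) (XT.nd (nat_lit 78) (nat_lit 760) (nat_lit 0) (XT.lf (nat_lit 0) (nat_lit 307326652016) (nat_lit 760) (nat_lit 36233522587) (nat_lit 76) (nat_lit 21372436960) (nat_lit 168) (nat_lit 5) (nat_lit 178) (nat_lit 5) (nat_lit 169) (nat_lit 5) (nat_lit 497) (nat_lit 487) (nat_lit 216)) (XT.lf (nat_lit 0) (nat_lit 165369655570) (nat_lit 760) (nat_lit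 182674896114) (nat_lit 836) (nat_lit 26634054101) (nat_lit 158) (nat_lit 5) (nat_lit 168) (nat_lit 5) (nat_lit 169) (nat_lit 5) (nat_lit 498) (nat_lit 487) (nat_lit 215)))))))
noncomputable def xc473 : XT := (XT.nd (nat_lit 1248) (nat_lit 2128) (nat_lit 0) (XT.nd (nat_lit 624) (nat_lit 1596) (nat_lit 0) (XT.nd (nat_lit 312) (nat_lit 684) (nat_lit 0) (XT.nd (nat_lit 156) (nat_lit 380) (nat_lit 0) (XT.nd (nat_lit 78) (nat_lit 456) (nat_lit 0) (XT.lf (nat_lit 0) (nat_lit 6321701816) (nat_lit 836) (nat_lit 6672273876) (nat_lit 76) (nat_lit 371882145921) (nat_lit 157) (nat_lit 5) (nat_lit 168) (nat_lit 5) (nat_lit 158) (nat_lit 5) (nat_lit 499) (nat_lit 487) (nat_lit 214)) (XT.lf (nat_lit 0) (nat_lit 45987543165) (nat_lit 532) (nat_lit 185576530026) (nat_lit 76) (nat_lit 163699740025) (nat_lit 151) (nat_lit 5) (nat_lit 158) (nat_lit 5) (nat_lit 152) (nat_lit 5) (nat_lit 500) (nat_lit 487) (nat_lit 213)))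 (XT.nd (nat_lit 78) (nat_lit 0) (nat_lit 0) (XT.lf (nat_lit 0) (nat_lit 31731946292) (nat_lit 380) (nat_lit 56727990673) (nat_lit 456) (nat_lit 317669789419) (nat_lit 146) (nat_lit 5) (nat_lit 151) (nat_lit 5) (nat_lit 152) (nat_lit 5) (nat_lit 501) (nat_lit 487) (nat_lit 212)) (XT.lf (nat_lit 0) (nat_lit 138230753092) (nat_lit 456) (nat_lit 153065185068) (nat_lit 76) (nat_lit 125984256920) (nat_lit 146) (nat_lit 5) (nat_lit 152) (nat_lit 5) (nat_lit 147) (nat_lit 5) (nat_lit 502) (nat_lit 487) (nat_lit 211)))) (XT.nd (nat_lit 156) (nat_lit 304) (nat_lit 0) (XT.nd (nat_lit 78) (nat_lit 0) (nat_lit 0) (XT.lf (nat_lit 0) (nat_lit 80996434249) (nat_lit 380) (nat_lit 111688195743) (nat_lit 456) (nat_lit 236193831222) (nat_lit 141) (nat_lit 5) (nat_lit 146) (nat_lit 5) (nat_lit 147) (nat_lit 5) (nat_lit 503) (nat_lit 487) (nat_lit 210)) (XT.lf (nat_lit 0) (nat_lit 253696525246) (nat_lit 456) (nat_lit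 110094966965) (nat_lit 76) (nat_lit 77073382220) (nat_lit 141) (nat_lit 5) (nat_lit 147) (nat_lit 5) (nat_lit 142) (nat_lit 5) (nat_lit 504) (nat_lit 487) (nat_lit 209))) (XT.nd (nat_lit 78) (nat_lit 0) (nat_lit 0) (XT.lf (nat_lit 0) (nat_lit 142305114884) (nat_lit 304) (nat_lit 179506609806) (nat_lit 380) (nat_lit 131436248148) (nat_lit 137) (nat_lit 5) (nat_lit 141) (nat_lit 5) (nat_lit 142) (nat_lit 5) (nat_lit 505) (nat_lit 487) (nat_lit 208)) (XT.lf (nat_lit 0) (nat_lit 395446198297) (nat_lit 380) (nat_lit 55258609527) (nat_lit 76) (nat_lit 15439742634) (nat_lit 137) (nat_lit 5) (nat_lit 142) (nat_lit 5) (nat_lit 138) (nat_lit 5) (nat_lit 506) (nat_lit 487) (nat_lit 207))))) (XT.nd (nat_lit 312) (nat_lit 608) (nat_lit 0) (XT.nd (nat_lit 156) (nat_lit 304) (nat_lit 0) (XT.nd (nat_lit 78) (nat_lit 380) (nat_lit 0) (XT.lf (nat_lit 0) (nat_lit 217219470828) (nat_lit 304) (nat_lit 261877036464)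 (nat_lit 380) (nat_lit 272744085) (nat_lit 133) (nat_lit 5) (nat_lit 137) (nat_lit 5) (nat_lit 138) (nat_lit 5) (nat_lit 507) (nat_lit 487) (nat_lit 206)) (XT.lf (nat_lit 0) (nat_lit 11225158232) (nat_lit 304) (nat_lit 61217358432) (nat_lit 380) (nat_lit 420698837435) (nat_lit 128) (nat_lit 5) (nat_lit 132) (nat_lit 5) (nat_lit 133) (nat_lit 5) (nat_lit 508) (nat_lit 487) (nat_lit 205))) (XT.nd (nat_lit 78) (nat_lit 304) (nat_lit 0) (XT.lf (nat_lit 0) (nat_lit 155630493750) (nat_lit 380) (nat_lit 202420998139) (nat_lit 76) (nat_lit 149208040544) (nat_lit 128) (nat_lit 5) (nat_lit 133) (nat_lit 5) (nat_lit 129) (nat_lit 5) (nat_lit 509) (nat_lit 487) (nat_lit 204)) (XT.lf (nat_lit 0) (nat_lit 93022674404) (nat_lit 304) (nat_lit 152411080932) (nat_lit 380) (nat_lit 276527070067) (nat_lit 124) (nat_lit 5) (nat_lit 128) (nat_lit 5) (nat_lit 129) (nat_lit 5) (nat_lit 510) (nat_lit 487) (nat_lit 203))))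 (XT.nd (nat_lit 156) (nat_lit 380) (nat_lit 0) (XT.nd (nat_lit 78) (nat_lit 228) (nat_lit 0) (XT.lf (nat_lit 0) (nat_lit 344203044323) (nat_lit 380) (nat_lit 128007464950) (nat_lit 76) (nat_lit 64962880534) (nat_lit 124) (nat_lit 5) (nat_lit 129) (nat_lit 5) (nat_lit 125) (nat_lit 5) (nat_lit 511) (nat_lit 487) (nat_lit 202)) (XT.lf (nat_lit 0) (nat_lit 191603700610) (nat_lit 228) (nat_lit 261797089507) (nat_lit 304) (nat_lit 99471292697) (nat_lit 121) (nat_lit 5) (nat_lit 124) (nat_lit 5) (nat_lit 125) (nat_lit 5) (nat_lit 512) (nat_lit 487) (nat_lit 201))) (XT.nd (nat_lit 78) (nat_lit 304) (nat_lit 0) (XT.lf (nat_lit 0) (nat_lit 947620751) (nat_lit 304) (nat_lit 37623074731) (nat_lit 76) (nat_lit 530675858370) (nat_lit 120) (nat_lit 5) (nat_lit 124) (nat_lit 5) (nat_lit 121) (nat_lit 5) (nat_lit 513) (nat_lit 487) (nat_lit 200)) (XT.lf (nat_lit 0) (nat_lit 111055996676) (nat_lit 380) (nat_lit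 278767155037) (nat_lit 76) (nat_lit 196134492656) (nat_lit 116) (nat_lit 5) (nat_lit 121) (nat_lit 5) (nat_lit 117) (nat_lit 5) (nat_lit 514) (nat_lit 487) (nat_lit 199)))))) (XT.nd (nat_lit 624) (nat_lit 1064) (nat_lit 0) (XT.nd (nat_lit 312) (nat_lit 608) (nat_lit 0) (XT.nd (nat_lit 156) (nat_lit 228) (nat_lit 0) (XT.nd (nat_lit 78) (nat_lit 0) (nat_lit 0) (XT.lf (nat_lit 0) (nat_lit 68632374612) (nat_lit 228) (nat_lit 160388858211) (nat_lit 304) (nat_lit 374365484519) (nat_lit 113) (nat_lit 5) (nat_lit 116) (nat_lit 5) (nat_lit 117) (nat_lit 5) (nat_lit 515) (nat_lit 487) (nat_lit 198)) (XT.lf (nat_lit 0) (nat_lit 358940261474) (nat_lit 304) (nat_lit 179705664162) (nat_lit 76) (nat_lit 82738541795) (nat_lit 113) (nat_lit 5) (nat_lit 117) (nat_lit 5) (nat_lit 114) (nat_lit 5) (nat_lit 516) (nat_lit 487) (nat_lit 197))) (XT.nd (nat_lit 78) (nat_lit 0) (nat_lit 0) (XT.lf (nat_lit 0) (nat_lit 196763766226)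 (nat_lit 228) (nat_lit 304292816890) (nat_lit 304) (nat_lit 138940454830) (nat_lit 110) (nat_lit 5) (nat_lit 113) (nat_lit 5) (nat_lit 114) (nat_lit 5) (nat_lit 517) (nat_lit 487) (nat_lit 196)) (XT.lf (nat_lit 0) (nat_lit 598295617528) (nat_lit 228) (nat_lit 55026488335) (nat_lit 304) (nat_lit 6065961873) (nat_lit 110) (nat_lit 5) (nat_lit 113) (nat_lit 5) (nat_lit 114) (nat_lit 5) (nat_lit 518) (nat_lit 487) (nat_lit 195)))) (XT.nd (nat_lit 156) (nat_lit 152) (nat_lit 0) (XT.nd (nat_lit 78) (nat_lit 228) (nat_lit 0) (XT.lf (nat_lit 0) (nat_lit 137984466586) (nat_lit 228) (nat_lit 333472589901) (nat_lit 76) (nat_lit 207747238523) (nat_lit 107) (nat_lit 5) (nat_lit 110) (nat_lit 5) (nat_lit 108) (nat_lit 5) (nat_lit 519) (nat_lit 487) (nat_lit 194)) (XT.lf (nat_lit 0) (nat_lit 76488051458) (nat_lit 228) (nat_lit 215693350184) (nat_lit 304) (nat_lit 407667567841) (nat_lit 104) (nat_lit 5) (nat_lit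 107) (nat_lit 5) (nat_lit 108) (nat_lit 5) (nat_lit 520) (nat_lit 487) (nat_lit 193))) (XT.nd (nat_lit 78) (nat_lit 152) (nat_lit 0) (XT.lf (nat_lit 0) (nat_lit 460653539135) (nat_lit 304) (nat_lit 203637239133) (nat_lit 76) (nat_lit 56906831628) (nat_lit 104) (nat_lit 5) (nat_lit 108) (nat_lit 5) (nat_lit 105) (nat_lit 5) (nat_lit 521) (nat_lit 487) (nat_lit 192)) (XT.lf (nat_lit 0) (nat_lit 241258419067) (nat_lit 152) (nat_lit 403593525576) (nat_lit 228) (nat_lit 98396604630) (nat_lit 102) (nat_lit 5) (nat_lit 104) (nat_lit 5) (nat_lit 105) (nat_lit 5) (nat_lit 522) (nat_lit 487) (nat_lit 191))))) (XT.nd (nat_lit 312) (nat_lit 608) (nat_lit 0) (XT.nd (nat_lit 156) (nat_lit 152) (nat_lit 0) (XT.nd (nat_lit 78) (nat_lit 228) (nat_lit 0) (XT.lf (nat_lit 0) (nat_lit 73063538345) (nat_lit 228) (nat_lit 51939384273) (nat_lit 76) (nat_lit 641167756791) (nat_lit 101) (nat_lit 5) (nat_lit 104) (nat_lit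 5) (nat_lit 102) (nat_lit 5) (nat_lit 523) (nat_lit 487) (nat_lit 190)) (XT.lf (nat_lit 0) (nat_lit 259300625139) (nat_lit 304) (nat_lit 359718128691) (nat_lit 76) (nat_lit 170663973876) (nat_lit 98) (nat_lit 5) (nat_lit 102) (nat_lit 5) (nat_lit 99) (nat_lit 5) (nat_lit 524) (nat_lit 487) (nat_lit 189))) (XT.nd (nat_lit 78) (nat_lit 0) (nat_lit 0) (XT.lf (nat_lit 0) (nat_lit 125390200036) (nat_lit 152) (nat_lit 334360311076) (nat_lit 228) (nat_lit 354374820065) (nat_lit 96) (nat_lit 5) (nat_lit 98) (nat_lit 5) (nat_lit 99) (nat_lit 5) (nat_lit 525) (nat_lit 487) (nat_lit 188)) (XT.lf (nat_lit 0) (nat_lit 647242523394) (nat_lit 152) (nat_lit 29072354472) (nat_lit 228) (nat_lit 163170587632) (nat_lit 96) (nat_lit 5) (nat_lit 98) (nat_lit 5) (nat_lit 99) (nat_lit 5) (nat_lit 526) (nat_lit 487) (nat_lit 187)))) (XT.nd (nat_lit 156) (nat_lit 380) (nat_lit 0) (XT.nd (nat_lit 78) (nat_lit 0) (nat_lit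 0) (XT.lf (nat_lit 0) (nat_lit 46336077159) (nat_lit 228) (nat_lit 531118499463) (nat_lit 76) (nat_lit 288132409694) (nat_lit 93) (nat_lit 5) (nat_lit 96) (nat_lit 5) (nat_lit 94) (nat_lit 5) (nat_lit 527) (nat_lit 487) (nat_lit 186)) (XT.lf (nat_lit 0) (nat_lit 264620155811) (nat_lit 228) (nat_lit 1845987417) (nat_lit 76) (nat_lit 626204409448) (nat_lit 93) (nat_lit 5) (nat_lit 96) (nat_lit 5) (nat_lit 94) (nat_lit 5) (nat_lit 528) (nat_lit 487) (nat_lit 185))) (XT.nd (nat_lit 78) (nat_lit 228) (nat_lit 0) (XT.lf (nat_lit 0) (nat_lit 503836479259) (nat_lit 228) (nat_lit 349541716434) (nat_lit 76) (nat_lit 67229199617) (nat_lit 91) (nat_lit 5) (nat_lit 94) (nat_lit 5) (nat_lit 92) (nat_lit 5) (nat_lit 529) (nat_lit 487) (nat_lit 184)) (XT.nd (nat_lit 78) (nat_lit 76) (nat_lit 0) (XT.lf (nat_lit 0) (nat_lit 225599253559) (nat_lit 152) (nat_lit 537336661861) (nat_lit 228) (nat_lit 186609049831) (nat_lit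 89) (nat_lit 5) (nat_lit 91) (nat_lit 5) (nat_lit 92) (nat_lit 5) (nat_lit 530) (nat_lit 487) (nat_lit 183)) (XT.lf (nat_lit 0) (nat_lit 59315305799) (nat_lit 228) (nat_lit 138957579951) (nat_lit 76) (nat_lit 781312710728) (nat_lit 88) (nat_lit 5) (nat_lit 91) (nat_lit 5) (nat_lit 89) (nat_lit 5) (nat_lit 531) (nat_lit 487) (nat_lit 182))))))))
noncomputable def xc474 : XT := (XT.nd (nat_lit 59358) (nat_lit 0) (nat_lit 4636) (XT.nd (nat_lit 624) (nat_lit 456) (nat_lit 0) (XT.nd (nat_lit 312) (nat_lit 304) (nat_lit 0) (XT.nd (nat_lit 156) (nat_lit 152) (nat_lit 0) (XT.nd (nat_lit 78) (nat_lit 152) (nat_lit 0) (XT.lf (nat_lit 0) (nat_lit 321518880876) (nat_lit 228) (nat_lit 525397791378) (nat_lit 76) (nat_lit 163545914307) (nat_lit 86) (nat_lit 5) (nat_lit 89) (nat_lit 5) (nat_lit 87) (nat_lit 5) (nat_lit 532) (nat_lit 487) (nat_lit 181)) (XT.lf (nat_lit 0) (nat_lit 102333146980) (nat_lit 152) (nat_lit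 501739451003) (nat_lit 228) (nat_lit 438448830002) (nat_lit 84) (nat_lit 5) (nat_lit 86) (nat_lit 5) (nat_lit 87) (nat_lit 5) (nat_lit 533) (nat_lit 487) (nat_lit 180))) (XT.nd (nat_lit 78) (nat_lit 152) (nat_lit 0) (XT.lf (nat_lit 0) (nat_lit 779691236791) (nat_lit 152) (nat_lit 129960618340) (nat_lit 228) (nat_lit 166086463638) (nat_lit 84) (nat_lit 5) (nat_lit 86) (nat_lit 5) (nat_lit 87) (nat_lit 5) (nat_lit 534) (nat_lit 487) (nat_lit 179)) (XT.lf (nat_lit 0) (nat_lit 126356782916) (nat_lit 152) (nat_lit 723471851835) (nat_lit 76) (nat_lit 260178819295) (nat_lit 82) (nat_lit 5) (nat_lit 84) (nat_lit 5) (nat_lit 83) (nat_lit 5) (nat_lit 535) (nat_lit 487) (nat_lit 178)))) (XT.nd (nat_lit 156) (nat_lit 152) (nat_lit 0) (XT.nd (nat_lit 78) (nat_lit 152) (nat_lit 0) (XT.lf (nat_lit 0) (nat_lit 435066980701) (nat_lit 152) (nat_lit 37149296819) (nat_lit 76) (nat_lit 673276312962) (nat_lit 82) (nat_lit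 5) (nat_lit 84) (nat_lit 5) (nat_lit 83) (nat_lit 5) (nat_lit 536) (nat_lit 487) (nat_lit 177)) (XT.lf (nat_lit 0) (nat_lit 706088612191) (nat_lit 152) (nat_lit 64148087600) (nat_lit 228) (nat_lit 411964083377) (nat_lit 80) (nat_lit 5) (nat_lit 82) (nat_lit 5) (nat_lit 83) (nat_lit 5) (nat_lit 537) (nat_lit 487) (nat_lit 176))) (XT.nd (nat_lit 78) (nat_lit 76) (nat_lit 0) (XT.lf (nat_lit 0) (nat_lit 270008750305) (nat_lit 76) (nat_lit 862699303423) (nat_lit 152) (nat_lit 87509174318) (nat_lit 79) (nat_lit 5) (nat_lit 80) (nat_lit 5) (nat_lit 81) (nat_lit 4) (nat_lit 538) (nat_lit 487) (nat_lit 175)) (XT.lf (nat_lit 0) (nat_lit 254312478683) (nat_lit 152) (nat_lit 194902558527) (nat_lit 76) (nat_lit 810259475936) (nat_lit 78) (nat_lit 5) (nat_lit 80) (nat_lit 5) (nat_lit 79) (nat_lit 5) (nat_lit 539) (nat_lit 487) (nat_lit 174))))) (XT.nd (nat_lit 58422) (nat_lit 0) (nat_lit 6916) (XT.nd (nat_lit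 156) (nat_lit 228) (nat_lit 0) (XT.nd (nat_lit 78) (nat_lit 76) (nat_lit 0) (XT.lf (nat_lit 0) (nat_lit 616464784858) (nat_lit 152) (nat_lit 3444280318) (nat_lit 228) (nat_lit 680232631849) (nat_lit 76) (nat_lit 5) (nat_lit 78) (nat_lit 5) (nat_lit 79) (nat_lit 5) (nat_lit 540) (nat_lit 487) (nat_lit 173)) (XT.lf (nat_lit 0) (nat_lit 129320874435) (nat_lit 76) (nat_lit 887092480461) (nat_lit 152) (nat_lit 325797491507) (nat_lit 75) (nat_lit 5) (nat_lit 76) (nat_lit 5) (nat_lit 77) (nat_lit 4) (nat_lit 541) (nat_lit 487) (nat_lit 172))) (XT.nd (nat_lit 78) (nat_lit 152) (nat_lit 0) (XT.lf (nat_lit 0) (nat_lit 56700278199) (nat_lit 152) (nat_lit 380070356273) (nat_lit 76) (nat_lit 948985395623) (nat_lit 74) (nat_lit 5) (nat_lit 76) (nat_lit 5) (nat_lit 75) (nat_lit 5) (nat_lit 542) (nat_lit 487) (nat_lit 171)) (XT.lf (nat_lit 0) (nat_lit 456041864189) (nat_lit 228) (nat_lit 926377551304) (nat_lit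 76) (nat_lit 48358617360) (nat_lit 72) (nat_lit 5) (nat_lit 75) (nat_lit 5) (nat_lit 73) (nat_lit 4) (nat_lit 543) (nat_lit 487) (nat_lit 170)))) (XT.nd (nat_lit 156) (nat_lit 0) (nat_lit 76) (XT.nd (nat_lit 78) (nat_lit 0) (nat_lit 0) (XT.lf (nat_lit 0) (nat_lit 65836965577) (nat_lit 836) (nat_lit 41382701749) (nat_lit 836) (nat_lit 41382701749) (nat_lit 163) (nat_lit 3) (nat_lit 174) (nat_lit 3) (nat_lit 174) (nat_lit 5) (nat_lit 488) (nat_lit 488) (nat_lit 224)) (XT.lf (nat_lit 76) (nat_lit 67391842641) (nat_lit 0) (nat_lit 68626841068) (nat_lit 836) (nat_lit 168563527624) (nat_lit 164) (nat_lit 5) (nat_lit 163) (nat_lit 3) (nat_lit 174) (nat_lit 5) (nat_lit 489) (nat_lit 488) (nat_lit 223))) (XT.nd (nat_lit 78) (nat_lit 0) (nat_lit 0) (XT.lf (nat_lit 0) (nat_lit 143324189008) (nat_lit 760) (nat_lit 85670013224) (nat_lit 836) (nat_lit 83197180193) (nat_lit 164) (nat_lit 5) (nat_lit 174) (nat_lit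 5) (nat_lit 175) (nat_lit 5) (nat_lit 490) (nat_lit 488) (nat_lit 222)) (XT.lf (nat_lit 76) (nat_lit 74691910778) (nat_lit 0) (nat_lit 78594194545) (nat_lit 836) (nat_lit 166780349963) (nat_lit 165) (nat_lit 5) (nat_lit 164) (nat_lit 5) (nat_lit 175) (nat_lit 5) (nat_lit 491) (nat_lit 488) (nat_lit 221)))))) (XT.nd (nat_lit 624) (nat_lit 1900) (nat_lit 0) (XT.nd (nat_lit 312) (nat_lit 532) (nat_lit 0) (XT.nd (nat_lit 156) (nat_lit 0) (nat_lit 76) (XT.nd (nat_lit 78) (nat_lit 0) (nat_lit 0) (XT.lf (nat_lit 0) (nat_lit 166459220968) (nat_lit 760) (nat_lit 83478849778) (nat_lit 836) (nat_lit 78261555871) (nat_lit 165) (nat_lit 5) (nat_lit 175) (nat_lit 5) (nat_lit 176) (nat_lit 5) (nat_lit 492) (nat_lit 488) (nat_lit 220)) (XT.lf (nat_lit 76) (nat_lit 88041035976) (nat_lit 0) (nat_lit 94912912655) (nat_lit 836) (nat_lit 153652360076) (nat_lit 166) (nat_lit 5) (nat_lit 165) (nat_lit 5) (nat_lit 176)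 (nat_lit 5) (nat_lit 493) (nat_lit 488) (nat_lit 219))) (XT.nd (nat_lit 78) (nat_lit 0) (nat_lit 0) (XT.lf (nat_lit 0) (nat_lit 202769844383) (nat_lit 760) (nat_lit 75410268737) (nat_lit 836) (nat_lit 67128390199) (nat_lit 166) (nat_lit 5) (nat_lit 176) (nat_lit 5) (nat_lit 177) (nat_lit 5) (nat_lit 494) (nat_lit 488) (nat_lit 218)) (XT.lf (nat_lit 76) (nat_lit 108313207546) (nat_lit 0) (nat_lit 118510312537) (nat_lit 836) (nat_lit 127459938322) (nat_lit 167) (nat_lit 5) (nat_lit 166) (nat_lit 5) (nat_lit 177) (nat_lit 5) (nat_lit 495) (nat_lit 488) (nat_lit 217)))) (XT.nd (nat_lit 156) (nat_lit 684) (nat_lit 0) (XT.nd (nat_lit 78) (nat_lit 0) (nat_lit 0) (XT.lf (nat_lit 0) (nat_lit 254145149314) (nat_lit 760) (nat_lit 60590598778) (nat_lit 836) (nat_lit 48868149670) (nat_lit 167) (nat_lit 5) (nat_lit 177) (nat_lit 5) (nat_lit 178) (nat_lit 5) (nat_lit 496) (nat_lit 488) (nat_lit 216)) (XT.lf (nat_lit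 76) (nat_lit 136483541916) (nat_lit 0) (nat_lit 150422966896) (nat_lit 836) (nat_lit 86280167838) (nat_lit 168) (nat_lit 5) (nat_lit 167) (nat_lit 5) (nat_lit 178) (nat_lit 5) (nat_lit 497) (nat_lit 488) (nat_lit 215))) (XT.nd (nat_lit 78) (nat_lit 760) (nat_lit 0) (XT.lf (nat_lit 0) (nat_lit 322693984774) (nat_lit 760) (nat_lit 38044308355) (nat_lit 76) (nat_lit 22440898930) (nat_lit 168) (nat_lit 5) (nat_lit 178) (nat_lit 5) (nat_lit 169) (nat_lit 5) (nat_lit 498) (nat_lit 488) (nat_lit 214)) (XT.lf (nat_lit 0) (nat_lit 173639014349) (nat_lit 760) (nat_lit 191808731127) (nat_lit 836) (nat_lit 27964742218) (nat_lit 158) (nat_lit 5) (nat_lit 168) (nat_lit 5) (nat_lit 169) (nat_lit 5) (nat_lit 499) (nat_lit 488) (nat_lit 213))))) (XT.nd (nat_lit 312) (nat_lit 988) (nat_lit 0) (XT.nd (nat_lit 156) (nat_lit 380) (nat_lit 0) (XT.nd (nat_lit 78) (nat_lit 456) (nat_lit 0) (XT.lf (nat_lit 0) (nat_lit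 6638722255) (nat_lit 836) (nat_lit 7005022292) (nat_lit 76) (nat_lit 390476136314) (nat_lit 157) (nat_lit 5) (nat_lit 168) (nat_lit 5) (nat_lit 158) (nat_lit 5) (nat_lit 500) (nat_lit 488) (nat_lit 212)) (XT.lf (nat_lit 0) (nat_lit 48287823599) (nat_lit 532) (nat_lit 194854459115) (nat_lit 76) (nat_lit 171884675938) (nat_lit 151) (nat_lit 5) (nat_lit 158) (nat_lit 5) (nat_lit 152) (nat_lit 5) (nat_lit 501) (nat_lit 488) (nat_lit 211))) (XT.nd (nat_lit 78) (nat_lit 0) (nat_lit 0) (XT.lf (nat_lit 0) (nat_lit 33319426545) (nat_lit 380) (nat_lit 59564381317) (nat_lit 456) (nat_lit 333552361081) (nat_lit 146) (nat_lit 5) (nat_lit 151) (nat_lit 5) (nat_lit 152) (nat_lit 5) (nat_lit 502) (nat_lit 488) (nat_lit 210)) (XT.lf (nat_lit 0) (nat_lit 145143123305) (nat_lit 456) (nat_lit 160717561883) (nat_lit 76) (nat_lit 132283477962) (nat_lit 146) (nat_lit 5) (nat_lit 152) (nat_lit 5) (nat_lit 147) (nat_lit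 5) (nat_lit 503) (nat_lit 488) (nat_lit 209)))) (XT.nd (nat_lit 156) (nat_lit 608) (nat_lit 0) (XT.nd (nat_lit 78) (nat_lit 0) (nat_lit 0) (XT.lf (nat_lit 0) (nat_lit 85047124167) (nat_lit 380) (nat_lit 117272543792) (nat_lit 456) (nat_lit 248002675938) (nat_lit 141) (nat_lit 5) (nat_lit 146) (nat_lit 5) (nat_lit 147) (nat_lit 5) (nat_lit 504) (nat_lit 488) (nat_lit 208)) (XT.lf (nat_lit 0) (nat_lit 266382120491) (nat_lit 456) (nat_lit 115598850915) (nat_lit 76) (nat_lit 80927108246) (nat_lit 141) (nat_lit 5) (nat_lit 147) (nat_lit 5) (nat_lit 142) (nat_lit 5) (nat_lit 505) (nat_lit 488) (nat_lit 207))) (XT.nd (nat_lit 78) (nat_lit 304) (nat_lit 0) (XT.lf (nat_lit 0) (nat_lit 149421221085) (nat_lit 304) (nat_lit 188481835483) (nat_lit 380) (nat_lit 138007277582) (nat_lit 137) (nat_lit 5) (nat_lit 141) (nat_lit 5) (nat_lit 142) (nat_lit 5) (nat_lit 506) (nat_lit 488) (nat_lit 206)) (XT.nd (nat_lit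 78) (nat_lit 304) (nat_lit 0) (XT.lf (nat_lit 0) (nat_lit 415219219906) (nat_lit 380) (nat_lit 58020696051) (nat_lit 76) (nat_lit 16211826394) (nat_lit 137) (nat_lit 5) (nat_lit 142) (nat_lit 5) (nat_lit 138) (nat_lit 5) (nat_lit 507) (nat_lit 488) (nat_lit 205)) (XT.lf (nat_lit 0) (nat_lit 228081274710) (nat_lit 304) (nat_lit 274970748714) (nat_lit 380) (nat_lit 285655939) (nat_lit 133) (nat_lit 5) (nat_lit 137) (nat_lit 5) (nat_lit 138) (nat_lit 5) (nat_lit 508) (nat_lit 488) (nat_lit 204))))))))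
noncomputable def xc475 : XT := (XT.nd (nat_lit 1248) (nat_lit 1900) (nat_lit 0) (XT.nd (nat_lit 624) (nat_lit 912) (nat_lit 0) (XT.nd (nat_lit 312) (nat_lit 836) (nat_lit 0) (XT.nd (nat_lit 156) (nat_lit 304) (nat_lit 0) (XT.nd (nat_lit 78) (nat_lit 0) (nat_lit 0) (XT.lf (nat_lit 0) (nat_lit 11787255974) (nat_lit 304) (nat_lit 64278068335) (nat_lit 380) (nat_lit 441733063364) (nat_lit 128) (nat_lit 5) (nat_lit 132) (nat_lit 5) (nat_lit 133) (nat_lit 5) (nat_lit 509) (nat_lit 488) (nat_lit 203)) (XT.lf (nat_lit 0) (nat_lit 163412670131) (nat_lit 380) (nat_lit 212541218052) (nat_lit 76) (nat_lit 156668588249) (nat_lit 128) (nat_lit 5) (nat_lit 133) (nat_lit 5) (nat_lit 129) (nat_lit 5) (nat_lit 510) (nat_lit 488) (nat_lit 202))) (XT.nd (nat_lit 78) (nat_lit 0) (nat_lit 0) (XT.lf (nat_lit 0) (nat_lit 97674624732) (nat_lit 304) (nat_lit 160031451782) (nat_lit 380) (nat_lit 290352758454) (nat_lit 124)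 (nat_lit 5) (nat_lit 128) (nat_lit 5) (nat_lit 129) (nat_lit 5) (nat_lit 511) (nat_lit 488) (nat_lit 201)) (XT.lf (nat_lit 0) (nat_lit 361413802512) (nat_lit 380) (nat_lit 134407033004) (nat_lit 76) (nat_lit 68211193449) (nat_lit 124) (nat_lit 5) (nat_lit 129) (nat_lit 5) (nat_lit 125) (nat_lit 5) (nat_lit 512) (nat_lit 488) (nat_lit 200)))) (XT.nd (nat_lit 156) (nat_lit 532) (nat_lit 0) (XT.nd (nat_lit 78) (nat_lit 76) (nat_lit 0) (XT.lf (nat_lit 0) (nat_lit 201184677847) (nat_lit 228) (nat_lit 274886741261) (nat_lit 304) (nat_lit 104444238340) (nat_lit 121) (nat_lit 5) (nat_lit 124) (nat_lit 5) (nat_lit 125) (nat_lit 5) (nat_lit 513) (nat_lit 488) (nat_lit 199)) (XT.lf (nat_lit 0) (nat_lit 995572436) (nat_lit 304) (nat_lit 39503455087) (nat_lit 76) (nat_lit 557209825459) (nat_lit 120) (nat_lit 5) (nat_lit 124) (nat_lit 5) (nat_lit 121) (nat_lit 5) (nat_lit 514) (nat_lit 488) (nat_lit 198))) (XT.nd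 (nat_lit 78) (nat_lit 228) (nat_lit 0) (XT.lf (nat_lit 0) (nat_lit 116609355073) (nat_lit 380) (nat_lit 292704727296) (nat_lit 76) (nat_lit 205941416263) (nat_lit 116) (nat_lit 5) (nat_lit 121) (nat_lit 5) (nat_lit 117) (nat_lit 5) (nat_lit 515) (nat_lit 488) (nat_lit 197)) (XT.lf (nat_lit 0) (nat_lit 72064766166) (nat_lit 228) (nat_lit 168408072329) (nat_lit 304) (nat_lit 393083187486) (nat_lit 113) (nat_lit 5) (nat_lit 116) (nat_lit 5) (nat_lit 117) (nat_lit 5) (nat_lit 516) (nat_lit 488) (nat_lit 196))))) (XT.nd (nat_lit 312) (nat_lit 456) (nat_lit 0) (XT.nd (nat_lit 156) (nat_lit 228) (nat_lit 0) (XT.nd (nat_lit 78) (nat_lit 228) (nat_lit 0) (XT.lf (nat_lit 0) (nat_lit 376887796074) (nat_lit 304) (nat_lit 188690188817) (nat_lit 76) (nat_lit 86875679809) (nat_lit 113) (nat_lit 5) (nat_lit 117) (nat_lit 5) (nat_lit 114) (nat_lit 5) (nat_lit 517) (nat_lit 488) (nat_lit 195)) (XT.lf (nat_lit 0)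 (nat_lit 206602700855) (nat_lit 228) (nat_lit 319507219761) (nat_lit 304) (nat_lit 145886943785) (nat_lit 110) (nat_lit 5) (nat_lit 113) (nat_lit 5) (nat_lit 114) (nat_lit 5) (nat_lit 518) (nat_lit 488) (nat_lit 194))) (XT.nd (nat_lit 78) (nat_lit 228) (nat_lit 0) (XT.lf (nat_lit 0) (nat_lit 628211109184) (nat_lit 228) (nat_lit 57777586110) (nat_lit 304) (nat_lit 6368751599) (nat_lit 110) (nat_lit 5) (nat_lit 113) (nat_lit 5) (nat_lit 114) (nat_lit 5) (nat_lit 519) (nat_lit 488) (nat_lit 193)) (XT.lf (nat_lit 0) (nat_lit 144884173424) (nat_lit 228) (nat_lit 350145483715) (nat_lit 76) (nat_lit 218134828424) (nat_lit 107) (nat_lit 5) (nat_lit 110) (nat_lit 5) (nat_lit 108) (nat_lit 5) (nat_lit 520) (nat_lit 488) (nat_lit 192)))) (XT.nd (nat_lit 156) (nat_lit 228) (nat_lit 0) (XT.nd (nat_lit 78) (nat_lit 0) (nat_lit 0) (XT.lf (nat_lit 0) (nat_lit 80313177845) (nat_lit 228) (nat_lit 226477765664) (nat_lit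 304) (nat_lit 428050450838) (nat_lit 104) (nat_lit 5) (nat_lit 107) (nat_lit 5) (nat_lit 108) (nat_lit 5) (nat_lit 521) (nat_lit 488) (nat_lit 191)) (XT.lf (nat_lit 0) (nat_lit 483686669159) (nat_lit 304) (nat_lit 213818393004) (nat_lit 76) (nat_lit 59752405555) (nat_lit 104) (nat_lit 5) (nat_lit 108) (nat_lit 5) (nat_lit 105) (nat_lit 5) (nat_lit 522) (nat_lit 488) (nat_lit 190))) (XT.nd (nat_lit 78) (nat_lit 76) (nat_lit 0) (XT.lf (nat_lit 0) (nat_lit 253322036685) (nat_lit 152) (nat_lit 423772947560) (nat_lit 228) (nat_lit 103315970355) (nat_lit 102) (nat_lit 5) (nat_lit 104) (nat_lit 5) (nat_lit 105) (nat_lit 5) (nat_lit 523) (nat_lit 488) (nat_lit 189)) (XT.lf (nat_lit 0) (nat_lit 76717143489) (nat_lit 228) (nat_lit 54535675821) (nat_lit 76) (nat_lit 673226372641) (nat_lit 101) (nat_lit 5) (nat_lit 104) (nat_lit 5) (nat_lit 102) (nat_lit 5) (nat_lit 524) (nat_lit 488) (nat_lit 188)))))) (XT.nd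 (nat_lit 624) (nat_lit 912) (nat_lit 0) (XT.nd (nat_lit 312) (nat_lit 380) (nat_lit 0) (XT.nd (nat_lit 156) (nat_lit 228) (nat_lit 0) (XT.nd (nat_lit 78) (nat_lit 152) (nat_lit 0) (XT.lf (nat_lit 0) (nat_lit 272266078521) (nat_lit 304) (nat_lit 377703351342) (nat_lit 76) (nat_lit 179197413106) (nat_lit 98) (nat_lit 5) (nat_lit 102) (nat_lit 5) (nat_lit 99) (nat_lit 5) (nat_lit 525) (nat_lit 488) (nat_lit 187)) (XT.lf (nat_lit 0) (nat_lit 131660382793) (nat_lit 152) (nat_lit 351078066402) (nat_lit 228) (nat_lit 372093127900) (nat_lit 96) (nat_lit 5) (nat_lit 98) (nat_lit 5) (nat_lit 99) (nat_lit 5) (nat_lit 526) (nat_lit 488) (nat_lit 186))) (XT.nd (nat_lit 78) (nat_lit 228) (nat_lit 0) (XT.lf (nat_lit 0) (nat_lit 679605290283) (nat_lit 152) (nat_lit 30525724359) (nat_lit 228) (nat_lit 171328704472) (nat_lit 96) (nat_lit 5) (nat_lit 98) (nat_lit 5) (nat_lit 99) (nat_lit 5) (nat_lit 527) (nat_lit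 488) (nat_lit 185)) (XT.lf (nat_lit 0) (nat_lit 48653275334) (nat_lit 228) (nat_lit 557673765466) (nat_lit 76) (nat_lit 302539275103) (nat_lit 93) (nat_lit 5) (nat_lit 96) (nat_lit 5) (nat_lit 94) (nat_lit 5) (nat_lit 528) (nat_lit 488) (nat_lit 184)))) (XT.nd (nat_lit 156) (nat_lit 228) (nat_lit 0) (XT.nd (nat_lit 78) (nat_lit 152) (nat_lit 0) (XT.lf (nat_lit 0) (nat_lit 277851539142) (nat_lit 228) (nat_lit 1937659197) (nat_lit 76) (nat_lit 657514863181) (nat_lit 93) (nat_lit 5) (nat_lit 96) (nat_lit 5) (nat_lit 94) (nat_lit 5) (nat_lit 529) (nat_lit 488) (nat_lit 183)) (XT.lf (nat_lit 0) (nat_lit 529028674426) (nat_lit 228) (nat_lit 367018170316) (nat_lit 76) (nat_lit 70590901762) (nat_lit 91) (nat_lit 5) (nat_lit 94) (nat_lit 5) (nat_lit 92) (nat_lit 5) (nat_lit 530) (nat_lit 488) (nat_lit 182))) (XT.nd (nat_lit 78) (nat_lit 76) (nat_lit 0) (XT.lf (nat_lit 0) (nat_lit 236879837983) (nat_lit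 152) (nat_lit 564203236442) (nat_lit 228) (nat_lit 195939120915) (nat_lit 89) (nat_lit 5) (nat_lit 91) (nat_lit 5) (nat_lit 92) (nat_lit 5) (nat_lit 531) (nat_lit 488) (nat_lit 181)) (XT.lf (nat_lit 0) (nat_lit 62281422708) (nat_lit 228) (nat_lit 145904855173) (nat_lit 76) (nat_lit 820378580830) (nat_lit 88) (nat_lit 5) (nat_lit 91) (nat_lit 5) (nat_lit 89) (nat_lit 5) (nat_lit 532) (nat_lit 488) (nat_lit 180))))) (XT.nd (nat_lit 312) (nat_lit 456) (nat_lit 0) (XT.nd (nat_lit 156) (nat_lit 152) (nat_lit 0) (XT.nd (nat_lit 78) (nat_lit 152) (nat_lit 0) (XT.lf (nat_lit 0) (nat_lit 337595172971) (nat_lit 228) (nat_lit 551667073594) (nat_lit 76) (nat_lit 171723451912) (nat_lit 86) (nat_lit 5) (nat_lit 89) (nat_lit 5) (nat_lit 87) (nat_lit 5) (nat_lit 533) (nat_lit 488) (nat_lit 179)) (XT.lf (nat_lit 0) (nat_lit 107450401886) (nat_lit 152) (nat_lit 526826166803) (nat_lit 228) (nat_lit 460370913646)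 (nat_lit 84) (nat_lit 5) (nat_lit 86) (nat_lit 5) (nat_lit 87) (nat_lit 5) (nat_lit 534) (nat_lit 488) (nat_lit 178))) (XT.nd (nat_lit 78) (nat_lit 152) (nat_lit 0) (XT.lf (nat_lit 0) (nat_lit 818676367732) (nat_lit 152) (nat_lit 136458404734) (nat_lit 228) (nat_lit 174390446004) (nat_lit 84) (nat_lit 5) (nat_lit 86) (nat_lit 5) (nat_lit 87) (nat_lit 5) (nat_lit 535) (nat_lit 488) (nat_lit 177)) (XT.lf (nat_lit 0) (nat_lit 132674949034) (nat_lit 152) (nat_lit 759644861465) (nat_lit 76) (nat_lit 273187999892) (nat_lit 82) (nat_lit 5) (nat_lit 84) (nat_lit 5) (nat_lit 83) (nat_lit 5) (nat_lit 536) (nat_lit 488) (nat_lit 176)))) (XT.nd (nat_lit 156) (nat_lit 304) (nat_lit 0) (XT.nd (nat_lit 78) (nat_lit 152) (nat_lit 0) (XT.lf (nat_lit 0) (nat_lit 456820641138) (nat_lit 152) (nat_lit 39006206459) (nat_lit 76) (nat_lit 706940356832) (nat_lit 82) (nat_lit 5) (nat_lit 84) (nat_lit 5) (nat_lit 83) (nat_lit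 5) (nat_lit 537) (nat_lit 488) (nat_lit 175)) (XT.lf (nat_lit 0) (nat_lit 741393589047) (nat_lit 152) (nat_lit 67355250836) (nat_lit 228) (nat_lit 432561967182) (nat_lit 80) (nat_lit 5) (nat_lit 82) (nat_lit 5) (nat_lit 83) (nat_lit 5) (nat_lit 538) (nat_lit 488) (nat_lit 174))) (XT.nd (nat_lit 78) (nat_lit 228) (nat_lit 0) (XT.lf (nat_lit 0) (nat_lit 283509736569) (nat_lit 76) (nat_lit 905834022572) (nat_lit 152) (nat_lit 91884315164) (nat_lit 79) (nat_lit 5) (nat_lit 80) (nat_lit 5) (nat_lit 81) (nat_lit 4) (nat_lit 539) (nat_lit 488) (nat_lit 173)) (XT.nd (nat_lit 78) (nat_lit 152) (nat_lit 0) (XT.lf (nat_lit 0) (nat_lit 267028395661) (nat_lit 152) (nat_lit 204647154141) (nat_lit 76) (nat_lit 850772674344) (nat_lit 78) (nat_lit 5) (nat_lit 80) (nat_lit 5) (nat_lit 79) (nat_lit 5) (nat_lit 540) (nat_lit 488) (nat_lit 172)) (XT.lf (nat_lit 0) (nat_lit 647288547828) (nat_lit 152) (nat_lit 3616257873)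 (nat_lit 228) (nat_lit 714243961807) (nat_lit 76) (nat_lit 5) (nat_lit 78) (nat_lit 5) (nat_lit 79) (nat_lit 5) (nat_lit 541) (nat_lit 488) (nat_lit 171))))))))
noncomputable def xc476 : XT := (XT.nd (nat_lit 59436) (nat_lit 0) (nat_lit 2736) (XT.nd (nat_lit 58812) (nat_lit 0) (nat_lit 5852) (XT.nd (nat_lit 58500) (nat_lit 0) (nat_lit 6840) (XT.nd (nat_lit 58344) (nat_lit 0) (nat_lit 6764) (XT.nd (nat_lit 78) (nat_lit 76) (nat_lit 0) (XT.lf (nat_lit 0) (nat_lit 135787443942) (nat_lit 76) (nat_lit 931446864011) (nat_lit 152) (nat_lit 342087066500) (nat_lit 75) (nat_lit 5) (nat_lit 76) (nat_lit 5) (nat_lit 77) (nat_lit 4) (nat_lit 542) (nat_lit 488) (nat_lit 170)) (XT.lf (nat_lit 0) (nat_lit 59535568294) (nat_lit 152) (nat_lit 399073364202) (nat_lit 76) (nat_lit 996434885289) (nat_lit 74) (nat_lit 5) (nat_lit 76) (nat_lit 5) (nat_lit 75) (nat_lit 5) (nat_lit 543) (nat_lit 488) (nat_lit 169))) (XT.nd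 (nat_lit 78) (nat_lit 0) (nat_lit 0) (XT.lf (nat_lit 0) (nat_lit 69129531225) (nat_lit 836) (nat_lit 43451460189) (nat_lit 836) (nat_lit 43451460189) (nat_lit 163) (nat_lit 3) (nat_lit 174) (nat_lit 3) (nat_lit 174) (nat_lit 5) (nat_lit 489) (nat_lit 489) (nat_lit 222)) (XT.lf (nat_lit 76) (nat_lit 70762175916) (nat_lit 0) (nat_lit 72058819968) (nat_lit 836) (nat_lit 176990257012) (nat_lit 164) (nat_lit 5) (nat_lit 163) (nat_lit 3) (nat_lit 174) (nat_lit 5) (nat_lit 490) (nat_lit 489) (nat_lit 221)))) (XT.nd (nat_lit 156) (nat_lit 0) (nat_lit 76) (XT.nd (nat_lit 78) (nat_lit 0) (nat_lit 0) (XT.lf (nat_lit 0) (nat_lit 150491701359) (nat_lit 760) (nat_lit 89952732846) (nat_lit 836) (nat_lit 87356452095) (nat_lit 164) (nat_lit 5) (nat_lit 174) (nat_lit 5) (nat_lit 175) (nat_lit 5) (nat_lit 491) (nat_lit 489) (nat_lit 220)) (XT.lf (nat_lit 76) (nat_lit 78427274758) (nat_lit 0) (nat_lit 82524388686)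 (nat_lit 836) (nat_lit 175118051867) (nat_lit 165) (nat_lit 5) (nat_lit 164) (nat_lit 5) (nat_lit 175) (nat_lit 5) (nat_lit 492) (nat_lit 489) (nat_lit 219))) (XT.nd (nat_lit 78) (nat_lit 0) (nat_lit 0) (XT.lf (nat_lit 0) (nat_lit 174783368009) (nat_lit 760) (nat_lit 87651993464) (nat_lit 836) (nat_lit 82174187084) (nat_lit 165) (nat_lit 5) (nat_lit 175) (nat_lit 5) (nat_lit 176) (nat_lit 5) (nat_lit 493) (nat_lit 489) (nat_lit 218)) (XT.lf (nat_lit 76) (nat_lit 92443873694) (nat_lit 0) (nat_lit 99658914156) (nat_lit 836) (nat_lit 161333779116) (nat_lit 166) (nat_lit 5) (nat_lit 165) (nat_lit 5) (nat_lit 176) (nat_lit 5) (nat_lit 494) (nat_lit 489) (nat_lit 217))))) (XT.nd (nat_lit 312) (nat_lit 1140) (nat_lit 0) (XT.nd (nat_lit 156) (nat_lit 0) (nat_lit 76) (XT.nd (nat_lit 78) (nat_lit 0) (nat_lit 0) (XT.lf (nat_lit 0) (nat_lit 212909418727) (nat_lit 760) (nat_lit 79179973934) (nat_lit 836) (nat_lit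 70484481634) (nat_lit 166) (nat_lit 5) (nat_lit 176) (nat_lit 5) (nat_lit 177) (nat_lit 5) (nat_lit 495) (nat_lit 489) (nat_lit 216)) (XT.lf (nat_lit 76) (nat_lit 113729663126) (nat_lit 0) (nat_lit 124436075972) (nat_lit 836) (nat_lit 133831839998) (nat_lit 167) (nat_lit 5) (nat_lit 166) (nat_lit 5) (nat_lit 177) (nat_lit 5) (nat_lit 496) (nat_lit 489) (nat_lit 215))) (XT.nd (nat_lit 78) (nat_lit 0) (nat_lit 0) (XT.lf (nat_lit 0) (nat_lit 266853396439) (nat_lit 760) (nat_lit 63619317954) (nat_lit 836) (nat_lit 51311328700) (nat_lit 167) (nat_lit 5) (nat_lit 177) (nat_lit 5) (nat_lit 178) (nat_lit 5) (nat_lit 497) (nat_lit 489) (nat_lit 214)) (XT.lf (nat_lit 76) (nat_lit 143308516699) (nat_lit 0) (nat_lit 157944272540) (nat_lit 836) (nat_lit 90593173423) (nat_lit 168) (nat_lit 5) (nat_lit 167) (nat_lit 5) (nat_lit 178) (nat_lit 5) (nat_lit 498) (nat_lit 489) (nat_lit 213)))) (XT.nd (nat_lit 156)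 (nat_lit 532) (nat_lit 0) (XT.nd (nat_lit 78) (nat_lit 760) (nat_lit 0) (XT.lf (nat_lit 0) (nat_lit 338829591184) (nat_lit 760) (nat_lit 39945716189) (nat_lit 76) (nat_lit 23562798862) (nat_lit 168) (nat_lit 5) (nat_lit 178) (nat_lit 5) (nat_lit 169) (nat_lit 5) (nat_lit 499) (nat_lit 489) (nat_lit 212)) (XT.lf (nat_lit 0) (nat_lit 182321759625) (nat_lit 760) (nat_lit 201399249503) (nat_lit 836) (nat_lit 29362059066) (nat_lit 158) (nat_lit 5) (nat_lit 168) (nat_lit 5) (nat_lit 169) (nat_lit 5) (nat_lit 500) (nat_lit 489) (nat_lit 211))) (XT.nd (nat_lit 78) (nat_lit 456) (nat_lit 0) (XT.lf (nat_lit 0) (nat_lit 6971506757) (nat_lit 836) (nat_lit 7354488574) (nat_lit 76) (nat_lit 409999837096) (nat_lit 157) (nat_lit 5) (nat_lit 168) (nat_lit 5) (nat_lit 158) (nat_lit 5) (nat_lit 501) (nat_lit 489) (nat_lit 210)) (XT.lf (nat_lit 0) (nat_lit 50703034077) (nat_lit 532) (nat_lit 204596368092) (nat_lit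 76) (nat_lit 180478863396) (nat_lit 151) (nat_lit 5) (nat_lit 158) (nat_lit 5) (nat_lit 152) (nat_lit 5) (nat_lit 502) (nat_lit 489) (nat_lit 209)))))) (XT.nd (nat_lit 624) (nat_lit 1368) (nat_lit 0) (XT.nd (nat_lit 312) (nat_lit 988) (nat_lit 0) (XT.nd (nat_lit 156) (nat_lit 380) (nat_lit 0) (XT.nd (nat_lit 78) (nat_lit 0) (nat_lit 0) (XT.lf (nat_lit 0) (nat_lit 34986198723) (nat_lit 380) (nat_lit 62542592318) (nat_lit 456) (nat_lit 350229146656) (nat_lit 146) (nat_lit 5) (nat_lit 151) (nat_lit 5) (nat_lit 152) (nat_lit 5) (nat_lit 503) (nat_lit 489) (nat_lit 208)) (XT.lf (nat_lit 0) (nat_lit 152401034625) (nat_lit 456) (nat_lit 168752639580) (nat_lit 76) (nat_lit 138897659294) (nat_lit 146) (nat_lit 5) (nat_lit 152) (nat_lit 5) (nat_lit 147) (nat_lit 5) (nat_lit 504) (nat_lit 489) (nat_lit 207))) (XT.nd (nat_lit 78) (nat_lit 0) (nat_lit 0) (XT.lf (nat_lit 0) (nat_lit 89300267863) (nat_lit 380)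 (nat_lit 123136114984) (nat_lit 456) (nat_lit 260402041622) (nat_lit 141) (nat_lit 5) (nat_lit 146) (nat_lit 5) (nat_lit 147) (nat_lit 5) (nat_lit 505) (nat_lit 489) (nat_lit 206)) (XT.lf (nat_lit 0) (nat_lit 279701924005) (nat_lit 456) (nat_lit 121378009426) (nat_lit 76) (nat_lit 84973515283) (nat_lit 141) (nat_lit 5) (nat_lit 147) (nat_lit 5) (nat_lit 142) (nat_lit 5) (nat_lit 506) (nat_lit 489) (nat_lit 205)))) (XT.nd (nat_lit 156) (nat_lit 684) (nat_lit 0) (XT.nd (nat_lit 78) (nat_lit 0) (nat_lit 0) (XT.lf (nat_lit 0) (nat_lit 156893053528) (nat_lit 304) (nat_lit 197905832188) (nat_lit 380) (nat_lit 144906931282) (nat_lit 137) (nat_lit 5) (nat_lit 141) (nat_lit 5) (nat_lit 142) (nat_lit 5) (nat_lit 507) (nat_lit 489) (nat_lit 204)) (XT.lf (nat_lit 0) (nat_lit 435980826429) (nat_lit 380) (nat_lit 60920965364) (nat_lit 76) (nat_lit 17022505358) (nat_lit 137) (nat_lit 5) (nat_lit 142) (nat_lit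 5) (nat_lit 138) (nat_lit 5) (nat_lit 508) (nat_lit 489) (nat_lit 203))) (XT.nd (nat_lit 78) (nat_lit 380) (nat_lit 0) (XT.lf (nat_lit 0) (nat_lit 239486091589) (nat_lit 304) (nat_lit 288719159553) (nat_lit 380) (nat_lit 299280822) (nat_lit 133) (nat_lit 5) (nat_lit 137) (nat_lit 5) (nat_lit 138) (nat_lit 5) (nat_lit 509) (nat_lit 489) (nat_lit 202)) (XT.lf (nat_lit 0) (nat_lit 12377380524) (nat_lit 304) (nat_lit 67491828424) (nat_lit 380) (nat_lit 463819067152) (nat_lit 128) (nat_lit 5) (nat_lit 132) (nat_lit 5) (nat_lit 133) (nat_lit 5) (nat_lit 510) (nat_lit 489) (nat_lit 201))))) (XT.nd (nat_lit 312) (nat_lit 836) (nat_lit 0) (XT.nd (nat_lit 156) (nat_lit 228) (nat_lit 0) (XT.nd (nat_lit 78) (nat_lit 304) (nat_lit 0) (XT.lf (nat_lit 0) (nat_lit 171583894743) (nat_lit 380) (nat_lit 223167526126) (nat_lit 76) (nat_lit 164502149795) (nat_lit 128) (nat_lit 5) (nat_lit 133) (nat_lit 5) (nat_lit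 129) (nat_lit 5) (nat_lit 511) (nat_lit 489) (nat_lit 200)) (XT.lf (nat_lit 0) (nat_lit 102559096655) (nat_lit 304) (nat_lit 168032858206) (nat_lit 380) (nat_lit 304869793096) (nat_lit 124) (nat_lit 5) (nat_lit 128) (nat_lit 5) (nat_lit 129) (nat_lit 5) (nat_lit 512) (nat_lit 489) (nat_lit 199))) (XT.nd (nat_lit 78) (nat_lit 228) (nat_lit 0) (XT.lf (nat_lit 0) (nat_lit 379485042272) (nat_lit 380) (nat_lit 141126654319) (nat_lit 76) (nat_lit 71621906309) (nat_lit 124) (nat_lit 5) (nat_lit 129) (nat_lit 5) (nat_lit 125) (nat_lit 5) (nat_lit 513) (nat_lit 489) (nat_lit 198)) (XT.lf (nat_lit 0) (nat_lit 211244630294) (nat_lit 228) (nat_lit 288630894449) (nat_lit 304) (nat_lit 109665888814) (nat_lit 121) (nat_lit 5) (nat_lit 124) (nat_lit 5) (nat_lit 125) (nat_lit 5) (nat_lit 514) (nat_lit 489) (nat_lit 197)))) (XT.nd (nat_lit 156) (nat_lit 456) (nat_lit 0) (XT.nd (nat_lit 78) (nat_lit 304) (nat_lit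 0) (XT.lf (nat_lit 0) (nat_lit 1045868652) (nat_lit 304) (nat_lit 41477926363) (nat_lit 76) (nat_lit 585070474710) (nat_lit 120) (nat_lit 5) (nat_lit 124) (nat_lit 5) (nat_lit 121) (nat_lit 5) (nat_lit 515) (nat_lit 489) (nat_lit 196)) (XT.lf (nat_lit 0) (nat_lit 122440329459) (nat_lit 380) (nat_lit 307339251195) (nat_lit 76) (nat_lit 216238667551) (nat_lit 116) (nat_lit 5) (nat_lit 121) (nat_lit 5) (nat_lit 117) (nat_lit 5) (nat_lit 516) (nat_lit 489) (nat_lit 195))) (XT.nd (nat_lit 78) (nat_lit 228) (nat_lit 0) (XT.lf (nat_lit 0) (nat_lit 75668705449) (nat_lit 228) (nat_lit 176828268423) (nat_lit 304) (nat_lit 412736828711) (nat_lit 113) (nat_lit 5) (nat_lit 116) (nat_lit 5) (nat_lit 117) (nat_lit 5) (nat_lit 517) (nat_lit 489) (nat_lit 194)) (XT.nd (nat_lit 78) (nat_lit 228) (nat_lit 0) (XT.lf (nat_lit 0) (nat_lit 395732658918) (nat_lit 304) (nat_lit 198124010229) (nat_lit 76) (nat_lit 91219655113)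 (nat_lit 113) (nat_lit 5) (nat_lit 117) (nat_lit 5) (nat_lit 114) (nat_lit 5) (nat_lit 518) (nat_lit 489) (nat_lit 193)) (XT.lf (nat_lit 0) (nat_lit 216933512831) (nat_lit 228) (nat_lit 335482364900) (nat_lit 304) (nat_lit 153180806815) (nat_lit 110) (nat_lit 5) (nat_lit 113) (nat_lit 5) (nat_lit 114) (nat_lit 5) (nat_lit 519) (nat_lit 489) (nat_lit 192))))))))
noncomputable def xc477 : XT := (XT.nd (nat_lit 1248) (nat_lit 684) (nat_lit 0) (XT.nd (nat_lit 624) (nat_lit 912) (nat_lit 0) (XT.nd (nat_lit 312) (nat_lit 608) (nat_lit 0) (XT.nd (nat_lit 156) (nat_lit 228) (nat_lit 0) (XT.nd (nat_lit 78) (nat_lit 228) (nat_lit 0) (XT.lf (nat_lit 0) (nat_lit 659622309341) (nat_lit 228) (nat_lit 60666259845) (nat_lit 304) (nat_lit 6686728075) (nat_lit 110) (nat_lit 5) (nat_lit 113) (nat_lit 5) (nat_lit 114) (nat_lit 5) (nat_lit 520) (nat_lit 489) (nat_lit 191)) (XT.lf (nat_lit 0) (nat_lit 152128820652)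 (nat_lit 228) (nat_lit 367652090617) (nat_lit 76) (nat_lit 229041776626) (nat_lit 107) (nat_lit 5) (nat_lit 110) (nat_lit 5) (nat_lit 108) (nat_lit 5) (nat_lit 521) (nat_lit 489) (nat_lit 190))) (XT.nd (nat_lit 78) (nat_lit 0) (nat_lit 0) (XT.lf (nat_lit 0) (nat_lit 84329493259) (nat_lit 228) (nat_lit 237801425349) (nat_lit 304) (nat_lit 449452524042) (nat_lit 104) (nat_lit 5) (nat_lit 107) (nat_lit 5) (nat_lit 108) (nat_lit 5) (nat_lit 522) (nat_lit 489) (nat_lit 189)) (XT.lf (nat_lit 0) (nat_lit 507871413562) (nat_lit 304) (nat_lit 224508670401) (nat_lit 76) (nat_lit 62740236577) (nat_lit 104) (nat_lit 5) (nat_lit 108) (nat_lit 5) (nat_lit 105) (nat_lit 5) (nat_lit 523) (nat_lit 489) (nat_lit 188)))) (XT.nd (nat_lit 156) (nat_lit 380) (nat_lit 0) (XT.nd (nat_lit 78) (nat_lit 76) (nat_lit 0) (XT.lf (nat_lit 0) (nat_lit 265988770415) (nat_lit 152) (nat_lit 444961364285) (nat_lit 228) (nat_lit 108481347553)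 (nat_lit 102) (nat_lit 5) (nat_lit 104) (nat_lit 5) (nat_lit 105) (nat_lit 5) (nat_lit 524) (nat_lit 489) (nat_lit 187)) (XT.lf (nat_lit 0) (nat_lit 80553389079) (nat_lit 228) (nat_lit 57261844949) (nat_lit 76) (nat_lit 706887898085) (nat_lit 101) (nat_lit 5) (nat_lit 104) (nat_lit 5) (nat_lit 102) (nat_lit 5) (nat_lit 525) (nat_lit 489) (nat_lit 186))) (XT.nd (nat_lit 78) (nat_lit 152) (nat_lit 0) (XT.lf (nat_lit 0) (nat_lit 285879765327) (nat_lit 304) (nat_lit 396587898697) (nat_lit 76) (nat_lit 188157501936) (nat_lit 98) (nat_lit 5) (nat_lit 102) (nat_lit 5) (nat_lit 99) (nat_lit 5) (nat_lit 526) (nat_lit 489) (nat_lit 185)) (XT.lf (nat_lit 0) (nat_lit 138244012141) (nat_lit 152) (nat_lit 368631733688) (nat_lit 228) (nat_lit 390697391398) (nat_lit 96) (nat_lit 5) (nat_lit 98) (nat_lit 5) (nat_lit 99) (nat_lit 5) (nat_lit 527) (nat_lit 489) (nat_lit 184))))) (XT.nd (nat_lit 312) (nat_lit 532)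 (nat_lit 0) (XT.nd (nat_lit 156) (nat_lit 152) (nat_lit 0) (XT.nd (nat_lit 78) (nat_lit 228) (nat_lit 0) (XT.lf (nat_lit 0) (nat_lit 713586135948) (nat_lit 152) (nat_lit 32051785783) (nat_lit 228) (nat_lit 179894765508) (nat_lit 96) (nat_lit 5) (nat_lit 98) (nat_lit 5) (nat_lit 99) (nat_lit 5) (nat_lit 528) (nat_lit 489) (nat_lit 183)) (XT.lf (nat_lit 0) (nat_lit 51086296758) (nat_lit 228) (nat_lit 585556856034) (nat_lit 76) (nat_lit 317666461012) (nat_lit 93) (nat_lit 5) (nat_lit 96) (nat_lit 5) (nat_lit 94) (nat_lit 5) (nat_lit 529) (nat_lit 489) (nat_lit 182))) (XT.nd (nat_lit 78) (nat_lit 152) (nat_lit 0) (XT.lf (nat_lit 0) (nat_lit 291744456725) (nat_lit 228) (nat_lit 2033972914) (nat_lit 76) (nat_lit 690390817915) (nat_lit 93) (nat_lit 5) (nat_lit 96) (nat_lit 5) (nat_lit 94) (nat_lit 5) (nat_lit 530) (nat_lit 489) (nat_lit 181)) (XT.lf (nat_lit 0) (nat_lit 555480444840) (nat_lit 228) (nat_lit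 385368505645) (nat_lit 76) (nat_lit 74120666499) (nat_lit 91) (nat_lit 5) (nat_lit 94) (nat_lit 5) (nat_lit 92) (nat_lit 5) (nat_lit 531) (nat_lit 489) (nat_lit 180)))) (XT.nd (nat_lit 156) (nat_lit 304) (nat_lit 0) (XT.nd (nat_lit 78) (nat_lit 76) (nat_lit 0) (XT.lf (nat_lit 0) (nat_lit 248724393824) (nat_lit 152) (nat_lit 592413163786) (nat_lit 228) (nat_lit 205735731014) (nat_lit 89) (nat_lit 5) (nat_lit 91) (nat_lit 5) (nat_lit 92) (nat_lit 5) (nat_lit 532) (nat_lit 489) (nat_lit 179)) (XT.lf (nat_lit 0) (nat_lit 65395812772) (nat_lit 228) (nat_lit 153199550290) (nat_lit 76) (nat_lit 861397722630) (nat_lit 88) (nat_lit 5) (nat_lit 91) (nat_lit 5) (nat_lit 89) (nat_lit 5) (nat_lit 533) (nat_lit 489) (nat_lit 178))) (XT.nd (nat_lit 78) (nat_lit 152) (nat_lit 0) (XT.lf (nat_lit 0) (nat_lit 354475247312) (nat_lit 228) (nat_lit 579249876387) (nat_lit 76) (nat_lit 180309843909) (nat_lit 86) (nat_lit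 5) (nat_lit 89) (nat_lit 5) (nat_lit 87) (nat_lit 5) (nat_lit 534) (nat_lit 489) (nat_lit 177)) (XT.lf (nat_lit 0) (nat_lit 112823463982) (nat_lit 152) (nat_lit 553167242263) (nat_lit 228) (nat_lit 483389134742) (nat_lit 84) (nat_lit 5) (nat_lit 86) (nat_lit 5) (nat_lit 87) (nat_lit 5) (nat_lit 535) (nat_lit 489) (nat_lit 176)))))) (XT.nd (nat_lit 58890) (nat_lit 0) (nat_lit 6688) (XT.nd (nat_lit 312) (nat_lit 380) (nat_lit 0) (XT.nd (nat_lit 156) (nat_lit 152) (nat_lit 0) (XT.nd (nat_lit 78) (nat_lit 152) (nat_lit 0) (XT.lf (nat_lit 0) (nat_lit 859610702311) (nat_lit 152) (nat_lit 143281103180) (nat_lit 228) (nat_lit 183109659175) (nat_lit 84) (nat_lit 5) (nat_lit 86) (nat_lit 5) (nat_lit 87) (nat_lit 5) (nat_lit 536) (nat_lit 489) (nat_lit 175)) (XT.lf (nat_lit 0) (nat_lit 139308993059) (nat_lit 152) (nat_lit 797626575775) (nat_lit 76) (nat_lit 286847617241) (nat_lit 82) (nat_lit 5) (nat_lit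 84) (nat_lit 5) (nat_lit 83) (nat_lit 5) (nat_lit 537) (nat_lit 489) (nat_lit 174))) (XT.nd (nat_lit 78) (nat_lit 152) (nat_lit 0) (XT.lf (nat_lit 0) (nat_lit 479661955645) (nat_lit 152) (nat_lit 40956013198) (nat_lit 76) (nat_lit 742287581677) (nat_lit 82) (nat_lit 5) (nat_lit 84) (nat_lit 5) (nat_lit 83) (nat_lit 5) (nat_lit 538) (nat_lit 489) (nat_lit 173)) (XT.lf (nat_lit 0) (nat_lit 778463763961) (nat_lit 152) (nat_lit 70722794652) (nat_lit 228) (nat_lit 454189774962) (nat_lit 80) (nat_lit 5) (nat_lit 82) (nat_lit 5) (nat_lit 83) (nat_lit 5) (nat_lit 539) (nat_lit 489) (nat_lit 172)))) (XT.nd (nat_lit 156) (nat_lit 228) (nat_lit 0) (XT.nd (nat_lit 78) (nat_lit 76) (nat_lit 0) (XT.lf (nat_lit 0) (nat_lit 297685721128) (nat_lit 76) (nat_lit 951125500552) (nat_lit 152) (nat_lit 96478242605) (nat_lit 79) (nat_lit 5) (nat_lit 80) (nat_lit 5) (nat_lit 81) (nat_lit 4) (nat_lit 540) (nat_lit 489)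 (nat_lit 171)) (XT.lf (nat_lit 0) (nat_lit 280380081243) (nat_lit 152) (nat_lit 214879029025) (nat_lit 76) (nat_lit 893311511790) (nat_lit 78) (nat_lit 5) (nat_lit 80) (nat_lit 5) (nat_lit 79) (nat_lit 5) (nat_lit 541) (nat_lit 489) (nat_lit 170))) (XT.nd (nat_lit 78) (nat_lit 76) (nat_lit 0) (XT.lf (nat_lit 0) (nat_lit 679653450255) (nat_lit 152) (nat_lit 3796856290) (nat_lit 228) (nat_lit 749955886305) (nat_lit 76) (nat_lit 5) (nat_lit 78) (nat_lit 5) (nat_lit 79) (nat_lit 5) (nat_lit 542) (nat_lit 489) (nat_lit 169)) (XT.lf (nat_lit 0) (nat_lit 142577293042) (nat_lit 76) (nat_lit 978018989095) (nat_lit 152) (nat_lit 359191148094) (nat_lit 75) (nat_lit 5) (nat_lit 76) (nat_lit 5) (nat_lit 77) (nat_lit 4) (nat_lit 543) (nat_lit 489) (nat_lit 168))))) (XT.nd (nat_lit 312) (nat_lit 0) (nat_lit 152) (XT.nd (nat_lit 156) (nat_lit 0) (nat_lit 76) (XT.nd (nat_lit 78) (nat_lit 0) (nat_lit 0) (XT.lf (nat_lit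 0) (nat_lit 72586658462) (nat_lit 836) (nat_lit 45623691569) (nat_lit 836) (nat_lit 45623691569) (nat_lit 163) (nat_lit 3) (nat_lit 174) (nat_lit 3) (nat_lit 174) (nat_lit 5) (nat_lit 490) (nat_lit 490) (nat_lit 220)) (XT.lf (nat_lit 76) (nat_lit 74300956951) (nat_lit 0) (nat_lit 75662338604) (nat_lit 836) (nat_lit 185838457396) (nat_lit 164) (nat_lit 5) (nat_lit 163) (nat_lit 3) (nat_lit 174) (nat_lit 5) (nat_lit 491) (nat_lit 490) (nat_lit 219))) (XT.nd (nat_lit 78) (nat_lit 0) (nat_lit 0) (XT.lf (nat_lit 0) (nat_lit 158017468197) (nat_lit 760) (nat_lit 94449661062) (nat_lit 836) (nat_lit 91723742176) (nat_lit 164) (nat_lit 5) (nat_lit 174) (nat_lit 5) (nat_lit 175) (nat_lit 5) (nat_lit 492) (nat_lit 490) (nat_lit 218)) (XT.lf (nat_lit 76) (nat_lit 82349335496) (nat_lit 0) (nat_lit 86651047498) (nat_lit 836) (nat_lit 183872761178) (nat_lit 165) (nat_lit 5) (nat_lit 164) (nat_lit 5) (nat_lit 175)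 (nat_lit 5) (nat_lit 493) (nat_lit 490) (nat_lit 217)))) (XT.nd (nat_lit 156) (nat_lit 0) (nat_lit 76) (XT.nd (nat_lit 78) (nat_lit 0) (nat_lit 0) (XT.lf (nat_lit 0) (nat_lit 183523612140) (nat_lit 760) (nat_lit 92033868599) (nat_lit 836) (nat_lit 86282491376) (nat_lit 165) (nat_lit 5) (nat_lit 175) (nat_lit 5) (nat_lit 176) (nat_lit 5) (nat_lit 494) (nat_lit 490) (nat_lit 216)) (XT.lf (nat_lit 76) (nat_lit 97066780230) (nat_lit 0) (nat_lit 104642182647) (nat_lit 836) (nat_lit 169399380576) (nat_lit 166) (nat_lit 5) (nat_lit 165) (nat_lit 5) (nat_lit 176) (nat_lit 5) (nat_lit 495) (nat_lit 490) (nat_lit 215))) (XT.nd (nat_lit 78) (nat_lit 0) (nat_lit 0) (XT.lf (nat_lit 0) (nat_lit 223555871183) (nat_lit 760) (nat_lit 83138239534) (nat_lit 836) (nat_lit 74008408142) (nat_lit 166) (nat_lit 5) (nat_lit 176) (nat_lit 5) (nat_lit 177) (nat_lit 5) (nat_lit 496) (nat_lit 490) (nat_lit 214)) (XT.nd (nat_lit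 78) (nat_lit 0) (nat_lit 76) (XT.lf (nat_lit 76) (nat_lit 119416867556) (nat_lit 0) (nat_lit 130658104539) (nat_lit 836) (nat_lit 140522438583) (nat_lit 167) (nat_lit 5) (nat_lit 166) (nat_lit 5) (nat_lit 177) (nat_lit 5) (nat_lit 497) (nat_lit 490) (nat_lit 213)) (XT.lf (nat_lit 0) (nat_lit 280196963910) (nat_lit 760) (nat_lit 66799548465) (nat_lit 836) (nat_lit 53876687921) (nat_lit 167) (nat_lit 5) (nat_lit 177) (nat_lit 5) (nat_lit 178) (nat_lit 5) (nat_lit 498) (nat_lit 490) (nat_lit 212))))))))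
noncomputable def xc478 : XT := (XT.nd (nat_lit 1248) (nat_lit 2356) (nat_lit 0) (XT.nd (nat_lit 624) (nat_lit 1292) (nat_lit 0) (XT.nd (nat_lit 312) (nat_lit 1216) (nat_lit 0) (XT.nd (nat_lit 156) (nat_lit 760) (nat_lit 0) (XT.nd (nat_lit 78) (nat_lit 0) (nat_lit 76) (XT.lf (nat_lit 76) (nat_lit 150474666059) (nat_lit 0) (nat_lit 165841628843) (nat_lit 836) (nat_lit 95121922518) (nat_lit 168) (nat_lit 5) (nat_lit 167) (nat_lit 5) (nat_lit 178) (nat_lit 5) (nat_lit 499) (nat_lit 490) (nat_lit 211)) (XT.lf (nat_lit 0) (nat_lit 355771893575) (nat_lit 760) (nat_lit 41942269496) (nat_lit 76) (nat_lit 24740807273) (nat_lit 168) (nat_lit 5) (nat_lit 178) (nat_lit 5) (nat_lit 169) (nat_lit 5) (nat_lit 500) (nat_lit 490) (nat_lit 210))) (XT.nd (nat_lit 78) (nat_lit 76) (nat_lit 0) (XT.lf (nat_lit 0) (nat_lit 191438568294) (nat_lit 760) (nat_lit 211469286192) (nat_lit 836) (nat_lit 30829327315) (nat_lit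 158) (nat_lit 5) (nat_lit 168) (nat_lit 5) (nat_lit 169) (nat_lit 5) (nat_lit 501) (nat_lit 490) (nat_lit 209)) (XT.lf (nat_lit 0) (nat_lit 7320851608) (nat_lit 836) (nat_lit 7721501137) (nat_lit 76) (nat_lit 430499732775) (nat_lit 157) (nat_lit 5) (nat_lit 168) (nat_lit 5) (nat_lit 158) (nat_lit 5) (nat_lit 502) (nat_lit 490) (nat_lit 208)))) (XT.nd (nat_lit 156) (nat_lit 380) (nat_lit 0) (XT.nd (nat_lit 78) (nat_lit 380) (nat_lit 0) (XT.lf (nat_lit 0) (nat_lit 53238928908) (nat_lit 532) (nat_lit 214825448193) (nat_lit 76) (nat_lit 189502764535) (nat_lit 151) (nat_lit 5) (nat_lit 158) (nat_lit 5) (nat_lit 152) (nat_lit 5) (nat_lit 503) (nat_lit 490) (nat_lit 207)) (XT.lf (nat_lit 0) (nat_lit 36736235054) (nat_lit 380) (nat_lit 65669714620) (nat_lit 456) (nat_lit 367739848905) (nat_lit 146) (nat_lit 5) (nat_lit 151) (nat_lit 5) (nat_lit 152) (nat_lit 5) (nat_lit 504) (nat_lit 490) (nat_lit 206)))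 (XT.nd (nat_lit 78) (nat_lit 380) (nat_lit 0) (XT.lf (nat_lit 0) (nat_lit 160021771304) (nat_lit 456) (nat_lit 177189545574) (nat_lit 76) (nat_lit 145842549002) (nat_lit 146) (nat_lit 5) (nat_lit 152) (nat_lit 5) (nat_lit 147) (nat_lit 5) (nat_lit 505) (nat_lit 490) (nat_lit 205)) (XT.lf (nat_lit 0) (nat_lit 93765995531) (nat_lit 380) (nat_lit 129292869941) (nat_lit 456) (nat_lit 273421447002) (nat_lit 141) (nat_lit 5) (nat_lit 146) (nat_lit 5) (nat_lit 147) (nat_lit 5) (nat_lit 506) (nat_lit 490) (nat_lit 204))))) (XT.nd (nat_lit 312) (nat_lit 684) (nat_lit 0) (XT.nd (nat_lit 156) (nat_lit 304) (nat_lit 0) (XT.nd (nat_lit 78) (nat_lit 304) (nat_lit 0) (XT.lf (nat_lit 0) (nat_lit 293687652849) (nat_lit 456) (nat_lit 127446198754) (nat_lit 76) (nat_lit 89222237872) (nat_lit 141) (nat_lit 5) (nat_lit 147) (nat_lit 5) (nat_lit 142) (nat_lit 5) (nat_lit 507) (nat_lit 490) (nat_lit 203)) (XT.lf (nat_lit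 0) (nat_lit 164738405877) (nat_lit 304) (nat_lit 207801037566) (nat_lit 380) (nat_lit 152151633692) (nat_lit 137) (nat_lit 5) (nat_lit 141) (nat_lit 5) (nat_lit 142) (nat_lit 5) (nat_lit 508) (nat_lit 490) (nat_lit 202))) (XT.nd (nat_lit 78) (nat_lit 304) (nat_lit 0) (XT.lf (nat_lit 0) (nat_lit 457780453263) (nat_lit 380) (nat_lit 63966319310) (nat_lit 76) (nat_lit 17873710122) (nat_lit 137) (nat_lit 5) (nat_lit 142) (nat_lit 5) (nat_lit 138) (nat_lit 5) (nat_lit 509) (nat_lit 490) (nat_lit 201)) (XT.lf (nat_lit 0) (nat_lit 251461079292) (nat_lit 304) (nat_lit 303155002704) (nat_lit 380) (nat_lit 313648116) (nat_lit 133) (nat_lit 5) (nat_lit 137) (nat_lit 5) (nat_lit 138) (nat_lit 5) (nat_lit 510) (nat_lit 490) (nat_lit 200)))) (XT.nd (nat_lit 156) (nat_lit 304) (nat_lit 0) (XT.nd (nat_lit 78) (nat_lit 0) (nat_lit 0) (XT.lf (nat_lit 0) (nat_lit 12996940481) (nat_lit 304) (nat_lit 70866289843) (nat_lit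 380) (nat_lit 487009431503) (nat_lit 128) (nat_lit 5) (nat_lit 132) (nat_lit 5) (nat_lit 133) (nat_lit 5) (nat_lit 511) (nat_lit 490) (nat_lit 199)) (XT.lf (nat_lit 0) (nat_lit 180163625631) (nat_lit 380) (nat_lit 234325219594) (nat_lit 76) (nat_lit 172727377134) (nat_lit 128) (nat_lit 5) (nat_lit 133) (nat_lit 5) (nat_lit 129) (nat_lit 5) (nat_lit 512) (nat_lit 490) (nat_lit 198))) (XT.nd (nat_lit 78) (nat_lit 0) (nat_lit 0) (XT.lf (nat_lit 0) (nat_lit 107687723312) (nat_lit 304) (nat_lit 176434350400) (nat_lit 380) (nat_lit 320112735557) (nat_lit 124) (nat_lit 5) (nat_lit 128) (nat_lit 5) (nat_lit 129) (nat_lit 5) (nat_lit 513) (nat_lit 490) (nat_lit 197)) (XT.lf (nat_lit 0) (nat_lit 398459792920) (nat_lit 380) (nat_lit 148182324601) (nat_lit 76) (nat_lit 75203140569) (nat_lit 124) (nat_lit 5) (nat_lit 129) (nat_lit 5) (nat_lit 125) (nat_lit 5) (nat_lit 514) (nat_lit 490) (nat_lit 196)))))) (XT.nd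 (nat_lit 624) (nat_lit 1064) (nat_lit 0) (XT.nd (nat_lit 312) (nat_lit 456) (nat_lit 0) (XT.nd (nat_lit 156) (nat_lit 532) (nat_lit 0) (XT.nd (nat_lit 78) (nat_lit 76) (nat_lit 0) (XT.lf (nat_lit 0) (nat_lit 221807513559) (nat_lit 228) (nat_lit 303062272392) (nat_lit 304) (nat_lit 115148674008) (nat_lit 121) (nat_lit 5) (nat_lit 124) (nat_lit 5) (nat_lit 125) (nat_lit 5) (nat_lit 515) (nat_lit 490) (nat_lit 195)) (XT.lf (nat_lit 0) (nat_lit 1098631558) (nat_lit 304) (nat_lit 43551186419) (nat_lit 76) (nat_lit 614324141736) (nat_lit 120) (nat_lit 5) (nat_lit 124) (nat_lit 5) (nat_lit 121) (nat_lit 5) (nat_lit 516) (nat_lit 490) (nat_lit 194))) (XT.nd (nat_lit 78) (nat_lit 228) (nat_lit 0) (XT.lf (nat_lit 0) (nat_lit 128562805464) (nat_lit 380) (nat_lit 322705567528) (nat_lit 76) (nat_lit 227050764624) (nat_lit 116) (nat_lit 5) (nat_lit 121) (nat_lit 5) (nat_lit 117) (nat_lit 5) (nat_lit 517) (nat_lit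 490) (nat_lit 193)) (XT.lf (nat_lit 0) (nat_lit 79452776525) (nat_lit 228) (nat_lit 185669493616) (nat_lit 304) (nat_lit 433373200170) (nat_lit 113) (nat_lit 5) (nat_lit 116) (nat_lit 5) (nat_lit 117) (nat_lit 5) (nat_lit 518) (nat_lit 490) (nat_lit 192)))) (XT.nd (nat_lit 156) (nat_lit 228) (nat_lit 0) (XT.nd (nat_lit 78) (nat_lit 228) (nat_lit 0) (XT.lf (nat_lit 0) (nat_lit 415519720925) (nat_lit 304) (nat_lit 208029586677) (nat_lit 76) (nat_lit 95780811397) (nat_lit 113) (nat_lit 5) (nat_lit 117) (nat_lit 5) (nat_lit 114) (nat_lit 5) (nat_lit 519) (nat_lit 490) (nat_lit 191)) (XT.lf (nat_lit 0) (nat_lit 227780802470) (nat_lit 228) (nat_lit 352256287363) (nat_lit 304) (nat_lit 160839408009) (nat_lit 110) (nat_lit 5) (nat_lit 113) (nat_lit 5) (nat_lit 114) (nat_lit 5) (nat_lit 520) (nat_lit 490) (nat_lit 190))) (XT.nd (nat_lit 78) (nat_lit 228) (nat_lit 0) (XT.lf (nat_lit 0) (nat_lit 692604009567)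 (nat_lit 228) (nat_lit 63699386379) (nat_lit 304) (nat_lit 7020646244) (nat_lit 110) (nat_lit 5) (nat_lit 113) (nat_lit 5) (nat_lit 114) (nat_lit 5) (nat_lit 521) (nat_lit 490) (nat_lit 189)) (XT.lf (nat_lit 0) (nat_lit 159735659469) (nat_lit 228) (nat_lit 386034089901) (nat_lit 76) (nat_lit 240494053013) (nat_lit 107) (nat_lit 5) (nat_lit 110) (nat_lit 5) (nat_lit 108) (nat_lit 5) (nat_lit 522) (nat_lit 490) (nat_lit 188))))) (XT.nd (nat_lit 312) (nat_lit 608) (nat_lit 0) (XT.nd (nat_lit 156) (nat_lit 228) (nat_lit 0) (XT.nd (nat_lit 78) (nat_lit 0) (nat_lit 0) (XT.lf (nat_lit 0) (nat_lit 88546563406) (nat_lit 228) (nat_lit 249691289271) (nat_lit 304) (nat_lit 471924742682) (nat_lit 104) (nat_lit 5) (nat_lit 107) (nat_lit 5) (nat_lit 108) (nat_lit 5) (nat_lit 523) (nat_lit 490) (nat_lit 187)) (XT.lf (nat_lit 0) (nat_lit 533265356980) (nat_lit 304) (nat_lit 235733521377) (nat_lit 76) (nat_lit 65877439557)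 (nat_lit 104) (nat_lit 5) (nat_lit 108) (nat_lit 5) (nat_lit 105) (nat_lit 5) (nat_lit 524) (nat_lit 490) (nat_lit 186))) (XT.nd (nat_lit 78) (nat_lit 76) (nat_lit 0) (XT.lf (nat_lit 0) (nat_lit 279288782083) (nat_lit 152) (nat_lit 467209223290) (nat_lit 228) (nat_lit 113905032780) (nat_lit 102) (nat_lit 5) (nat_lit 104) (nat_lit 5) (nat_lit 105) (nat_lit 5) (nat_lit 525) (nat_lit 490) (nat_lit 185)) (XT.lf (nat_lit 0) (nat_lit 84581410836) (nat_lit 228) (nat_lit 60124379680) (nat_lit 76) (nat_lit 742232480574) (nat_lit 101) (nat_lit 5) (nat_lit 104) (nat_lit 5) (nat_lit 102) (nat_lit 5) (nat_lit 526) (nat_lit 490) (nat_lit 184)))) (XT.nd (nat_lit 156) (nat_lit 228) (nat_lit 0) (XT.nd (nat_lit 78) (nat_lit 152) (nat_lit 0) (XT.lf (nat_lit 0) (nat_lit 300174100876) (nat_lit 304) (nat_lit 416416731082) (nat_lit 76) (nat_lit 197565574923) (nat_lit 98) (nat_lit 5) (nat_lit 102) (nat_lit 5) (nat_lit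 99) (nat_lit 5) (nat_lit 527) (nat_lit 490) (nat_lit 183)) (XT.lf (nat_lit 0) (nat_lit 145156766225) (nat_lit 152) (nat_lit 387063106282) (nat_lit 228) (nat_lit 410231904599) (nat_lit 96) (nat_lit 5) (nat_lit 98) (nat_lit 5) (nat_lit 99) (nat_lit 5) (nat_lit 528) (nat_lit 490) (nat_lit 182))) (XT.nd (nat_lit 78) (nat_lit 228) (nat_lit 0) (XT.lf (nat_lit 0) (nat_lit 749265969867) (nat_lit 152) (nat_lit 33654171177) (nat_lit 228) (nat_lit 188889164384) (nat_lit 96) (nat_lit 5) (nat_lit 98) (nat_lit 5) (nat_lit 99) (nat_lit 5) (nat_lit 529) (nat_lit 490) (nat_lit 181)) (XT.nd (nat_lit 78) (nat_lit 0) (nat_lit 0) (XT.lf (nat_lit 0) (nat_lit 53640936002) (nat_lit 228) (nat_lit 614834156699) (nat_lit 76) (nat_lit 333549985562) (nat_lit 93) (nat_lit 5) (nat_lit 96) (nat_lit 5) (nat_lit 94) (nat_lit 5) (nat_lit 530) (nat_lit 490) (nat_lit 180)) (XT.lf (nat_lit 0) (nat_lit 306331988519) (nat_lit 228) (nat_lit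 2135155239) (nat_lit 76) (nat_lit 724910550716) (nat_lit 93) (nat_lit 5) (nat_lit 96) (nat_lit 5) (nat_lit 94) (nat_lit 5) (nat_lit 531) (nat_lit 490) (nat_lit 179))))))))
noncomputable def xc479 : XT := (XT.nd (nat_lit 59670) (nat_lit 0) (nat_lit 3800) (XT.nd (nat_lit 624) (nat_lit 304) (nat_lit 0) (XT.nd (nat_lit 312) (nat_lit 304) (nat_lit 0) (XT.nd (nat_lit 156) (nat_lit 228) (nat_lit 0) (XT.nd (nat_lit 78) (nat_lit 152) (nat_lit 0) (XT.lf (nat_lit 0) (nat_lit 583254772472) (nat_lit 228) (nat_lit 404636411030) (nat_lit 76) (nat_lit 77826899053) (nat_lit 91) (nat_lit 5) (nat_lit 94) (nat_lit 5) (nat_lit 92) (nat_lit 5) (nat_lit 532) (nat_lit 490) (nat_lit 178)) (XT.lf (nat_lit 0) (nat_lit 261161125028) (nat_lit 152) (nat_lit 622033609297) (nat_lit 228) (nat_lit 216022203780) (nat_lit 89) (nat_lit 5) (nat_lit 91) (nat_lit 5) (nat_lit 92) (nat_lit 5) (nat_lit 533) (nat_lit 490) (nat_lit 177)))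 (XT.nd (nat_lit 78) (nat_lit 152) (nat_lit 0) (XT.lf (nat_lit 0) (nat_lit 68665892688) (nat_lit 228) (nat_lit 160859031077) (nat_lit 76) (nat_lit 904467801739) (nat_lit 88) (nat_lit 5) (nat_lit 91) (nat_lit 5) (nat_lit 89) (nat_lit 5) (nat_lit 534) (nat_lit 490) (nat_lit 176)) (XT.lf (nat_lit 0) (nat_lit 372199296020) (nat_lit 228) (nat_lit 608211870536) (nat_lit 76) (nat_lit 189325535107) (nat_lit 86) (nat_lit 5) (nat_lit 89) (nat_lit 5) (nat_lit 87) (nat_lit 5) (nat_lit 535) (nat_lit 490) (nat_lit 175)))) (XT.nd (nat_lit 156) (nat_lit 152) (nat_lit 0) (XT.nd (nat_lit 78) (nat_lit 0) (nat_lit 0) (XT.lf (nat_lit 0) (nat_lit 118465128792) (nat_lit 152) (nat_lit 580825393147) (nat_lit 228) (nat_lit 507558297070) (nat_lit 84) (nat_lit 5) (nat_lit 86) (nat_lit 5) (nat_lit 87) (nat_lit 5) (nat_lit 536) (nat_lit 490) (nat_lit 174)) (XT.lf (nat_lit 0) (nat_lit 902591705628) (nat_lit 152) (nat_lit 150444957168)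 (nat_lit 228) (nat_lit 192264861744) (nat_lit 84) (nat_lit 5) (nat_lit 86) (nat_lit 5) (nat_lit 87) (nat_lit 5) (nat_lit 537) (nat_lit 490) (nat_lit 173))) (XT.nd (nat_lit 78) (nat_lit 0) (nat_lit 0) (XT.lf (nat_lit 0) (nat_lit 146274711713) (nat_lit 152) (nat_lit 837507424960) (nat_lit 76) (nat_lit 301190195250) (nat_lit 82) (nat_lit 5) (nat_lit 84) (nat_lit 5) (nat_lit 83) (nat_lit 5) (nat_lit 538) (nat_lit 490) (nat_lit 172)) (XT.lf (nat_lit 0) (nat_lit 503645309619) (nat_lit 152) (nat_lit 43003357092) (nat_lit 76) (nat_lit 779402148519) (nat_lit 82) (nat_lit 5) (nat_lit 84) (nat_lit 5) (nat_lit 83) (nat_lit 5) (nat_lit 539) (nat_lit 490) (nat_lit 171))))) (XT.nd (nat_lit 58734) (nat_lit 0) (nat_lit 6460) (XT.nd (nat_lit 156) (nat_lit 76) (nat_lit 0) (XT.nd (nat_lit 78) (nat_lit 76) (nat_lit 0) (XT.lf (nat_lit 0) (nat_lit 817387401558) (nat_lit 152) (nat_lit 74258735994) (nat_lit 228) (nat_lit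 476899000145) (nat_lit 80) (nat_lit 5) (nat_lit 82) (nat_lit 5) (nat_lit 83) (nat_lit 5) (nat_lit 540) (nat_lit 490) (nat_lit 170)) (XT.lf (nat_lit 0) (nat_lit 312570458641) (nat_lit 76) (nat_lit 998681573177) (nat_lit 152) (nat_lit 101301893224) (nat_lit 79) (nat_lit 5) (nat_lit 80) (nat_lit 5) (nat_lit 81) (nat_lit 4) (nat_lit 541) (nat_lit 490) (nat_lit 169))) (XT.nd (nat_lit 58500) (nat_lit 0) (nat_lit 6460) (XT.lf (nat_lit 0) (nat_lit 294399326393) (nat_lit 152) (nat_lit 225622542541) (nat_lit 76) (nat_lit 937977272167) (nat_lit 78) (nat_lit 5) (nat_lit 80) (nat_lit 5) (nat_lit 79) (nat_lit 5) (nat_lit 542) (nat_lit 490) (nat_lit 168)) (XT.lf (nat_lit 0) (nat_lit 76216581566) (nat_lit 836) (nat_lit 47904566280) (nat_lit 836) (nat_lit 47904566280) (nat_lit 163) (nat_lit 3) (nat_lit 174) (nat_lit 3) (nat_lit 174) (nat_lit 5) (nat_lit 491) (nat_lit 491) (nat_lit 218)))) (XT.nd (nat_lit 156) (nat_lit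 0) (nat_lit 76) (XT.nd (nat_lit 78) (nat_lit 0) (nat_lit 76) (XT.lf (nat_lit 76) (nat_lit 78016614538) (nat_lit 0) (nat_lit 79445979469) (nat_lit 836) (nat_lit 195129189820) (nat_lit 164) (nat_lit 5) (nat_lit 163) (nat_lit 3) (nat_lit 174) (nat_lit 5) (nat_lit 492) (nat_lit 491) (nat_lit 217)) (XT.lf (nat_lit 0) (nat_lit 165919413506) (nat_lit 760) (nat_lit 99171501553) (nat_lit 836) (nat_lit 96309446270) (nat_lit 164) (nat_lit 5) (nat_lit 174) (nat_lit 5) (nat_lit 175) (nat_lit 5) (nat_lit 493) (nat_lit 491) (nat_lit 216))) (XT.nd (nat_lit 78) (nat_lit 0) (nat_lit 76) (XT.lf (nat_lit 76) (nat_lit 86467434469) (nat_lit 0) (nat_lit 90983998401) (nat_lit 836) (nat_lit 193065316894) (nat_lit 165) (nat_lit 5) (nat_lit 164) (nat_lit 5) (nat_lit 175) (nat_lit 5) (nat_lit 494) (nat_lit 491) (nat_lit 215)) (XT.lf (nat_lit 0) (nat_lit 192700768467) (nat_lit 760) (nat_lit 96634904852) (nat_lit 836) (nat_lit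 90596248542) (nat_lit 165) (nat_lit 5) (nat_lit 175) (nat_lit 5) (nat_lit 176) (nat_lit 5) (nat_lit 495) (nat_lit 491) (nat_lit 214)))))) (XT.nd (nat_lit 624) (nat_lit 2204) (nat_lit 0) (XT.nd (nat_lit 312) (nat_lit 608) (nat_lit 0) (XT.nd (nat_lit 156) (nat_lit 0) (nat_lit 76) (XT.nd (nat_lit 78) (nat_lit 0) (nat_lit 76) (XT.lf (nat_lit 76) (nat_lit 101920765820) (nat_lit 0) (nat_lit 109874584553) (nat_lit 836) (nat_lit 177868363215) (nat_lit 166) (nat_lit 5) (nat_lit 165) (nat_lit 5) (nat_lit 176) (nat_lit 5) (nat_lit 496) (nat_lit 491) (nat_lit 213)) (XT.lf (nat_lit 0) (nat_lit 234734555009) (nat_lit 760) (nat_lit 87294486570) (nat_lit 836) (nat_lit 77708558642) (nat_lit 166) (nat_lit 5) (nat_lit 176) (nat_lit 5) (nat_lit 177) (nat_lit 5) (nat_lit 497) (nat_lit 491) (nat_lit 212))) (XT.nd (nat_lit 78) (nat_lit 0) (nat_lit 76) (XT.lf (nat_lit 76) (nat_lit 125388365149) (nat_lit 0) (nat_lit 137191213638)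 (nat_lit 836) (nat_lit 147547659456) (nat_lit 167) (nat_lit 5) (nat_lit 166) (nat_lit 5) (nat_lit 177) (nat_lit 5) (nat_lit 498) (nat_lit 491) (nat_lit 211)) (XT.lf (nat_lit 0) (nat_lit 294207626301) (nat_lit 760) (nat_lit 70138858872) (nat_lit 836) (nat_lit 56570334368) (nat_lit 167) (nat_lit 5) (nat_lit 177) (nat_lit 5) (nat_lit 178) (nat_lit 5) (nat_lit 499) (nat_lit 491) (nat_lit 210)))) (XT.nd (nat_lit 156) (nat_lit 760) (nat_lit 0) (XT.nd (nat_lit 78) (nat_lit 0) (nat_lit 76) (XT.lf (nat_lit 76) (nat_lit 157999055620) (nat_lit 0) (nat_lit 174133839696) (nat_lit 836) (nat_lit 99877193632) (nat_lit 168) (nat_lit 5) (nat_lit 167) (nat_lit 5) (nat_lit 178) (nat_lit 5) (nat_lit 500) (nat_lit 491) (nat_lit 209)) (XT.lf (nat_lit 0) (nat_lit 373561234586) (nat_lit 760) (nat_lit 44038718570) (nat_lit 76) (nat_lit 25977728332) (nat_lit 168) (nat_lit 5) (nat_lit 178) (nat_lit 5) (nat_lit 169) (nat_lit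 5) (nat_lit 501) (nat_lit 491) (nat_lit 208))) (XT.nd (nat_lit 78) (nat_lit 76) (nat_lit 0) (XT.lf (nat_lit 0) (nat_lit 201011150394) (nat_lit 760) (nat_lit 222042817815) (nat_lit 836) (nat_lit 32370036579) (nat_lit 158) (nat_lit 5) (nat_lit 168) (nat_lit 5) (nat_lit 169) (nat_lit 5) (nat_lit 502) (nat_lit 491) (nat_lit 207)) (XT.lf (nat_lit 0) (nat_lit 7687592160) (nat_lit 836) (nat_lit 8106930510) (nat_lit 76) (nat_lit 452024632179) (nat_lit 157) (nat_lit 5) (nat_lit 168) (nat_lit 5) (nat_lit 158) (nat_lit 5) (nat_lit 503) (nat_lit 491) (nat_lit 206))))) (XT.nd (nat_lit 312) (nat_lit 988) (nat_lit 0) (XT.nd (nat_lit 156) (nat_lit 380) (nat_lit 0) (XT.nd (nat_lit 78) (nat_lit 380) (nat_lit 0) (XT.lf (nat_lit 0) (nat_lit 55901549391) (nat_lit 532) (nat_lit 225566050940) (nat_lit 76) (nat_lit 198977864639) (nat_lit 151) (nat_lit 5) (nat_lit 158) (nat_lit 5) (nat_lit 152) (nat_lit 5) (nat_lit 504)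 (nat_lit 491) (nat_lit 205)) (XT.lf (nat_lit 0) (nat_lit 38573705669) (nat_lit 380) (nat_lit 68953193717) (nat_lit 456) (nat_lit 386126156467) (nat_lit 146) (nat_lit 5) (nat_lit 151) (nat_lit 5) (nat_lit 152) (nat_lit 5) (nat_lit 505) (nat_lit 491) (nat_lit 204))) (XT.nd (nat_lit 78) (nat_lit 380) (nat_lit 0) (XT.lf (nat_lit 0) (nat_lit 168023481137) (nat_lit 456) (nat_lit 186048364364) (nat_lit 76) (nat_lit 153134682568) (nat_lit 146) (nat_lit 5) (nat_lit 152) (nat_lit 5) (nat_lit 147) (nat_lit 5) (nat_lit 506) (nat_lit 491) (nat_lit 203)) (XT.lf (nat_lit 0) (nat_lit 98454943176) (nat_lit 380) (nat_lit 135757467369) (nat_lit 456) (nat_lit 287091887424) (nat_lit 141) (nat_lit 5) (nat_lit 146) (nat_lit 5) (nat_lit 147) (nat_lit 5) (nat_lit 507) (nat_lit 491) (nat_lit 202)))) (XT.nd (nat_lit 156) (nat_lit 684) (nat_lit 0) (XT.nd (nat_lit 78) (nat_lit 304) (nat_lit 0) (XT.lf (nat_lit 0) (nat_lit 308372609319)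 (nat_lit 456) (nat_lit 133817863665) (nat_lit 76) (nat_lit 93683392237) (nat_lit 141) (nat_lit 5) (nat_lit 147) (nat_lit 5) (nat_lit 142) (nat_lit 5) (nat_lit 508) (nat_lit 491) (nat_lit 201)) (XT.lf (nat_lit 0) (nat_lit 172975960795) (nat_lit 304) (nat_lit 218191011231) (nat_lit 380) (nat_lit 159758631110) (nat_lit 137) (nat_lit 5) (nat_lit 141) (nat_lit 5) (nat_lit 142) (nat_lit 5) (nat_lit 509) (nat_lit 491) (nat_lit 200))) (XT.nd (nat_lit 78) (nat_lit 684) (nat_lit 0) (XT.lf (nat_lit 0) (nat_lit 480670007004) (nat_lit 380) (nat_lit 67164005505) (nat_lit 76) (nat_lit 18767467733) (nat_lit 137) (nat_lit 5) (nat_lit 142) (nat_lit 5) (nat_lit 138) (nat_lit 5) (nat_lit 510) (nat_lit 491) (nat_lit 199)) (XT.nd (nat_lit 78) (nat_lit 380) (nat_lit 0) (XT.lf (nat_lit 0) (nat_lit 264034752869) (nat_lit 304) (nat_lit 318312648688) (nat_lit 380) (nat_lit 328789255) (nat_lit 133) (nat_lit 5) (nat_lit 137)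 (nat_lit 5) (nat_lit 138) (nat_lit 5) (nat_lit 511) (nat_lit 491) (nat_lit 198)) (XT.lf (nat_lit 0) (nat_lit 13647414199) (nat_lit 304) (nat_lit 74409486419) (nat_lit 380) (nat_lit 511359368831) (nat_lit 128) (nat_lit 5) (nat_lit 132) (nat_lit 5) (nat_lit 133) (nat_lit 5) (nat_lit 512) (nat_lit 491) (nat_lit 197))))))))
noncomputable def xc480 : XT := (XT.nd (nat_lit 1248) (nat_lit 1444) (nat_lit 0) (XT.nd (nat_lit 624) (nat_lit 1140) (nat_lit 0) (XT.nd (nat_lit 312) (nat_lit 608) (nat_lit 0) (XT.nd (nat_lit 156) (nat_lit 228) (nat_lit 0) (XT.nd (nat_lit 78) (nat_lit 304) (nat_lit 0) (XT.lf (nat_lit 0) (nat_lit 189172293216) (nat_lit 380) (nat_lit 246040861220) (nat_lit 76) (nat_lit 181363854698) (nat_lit 128) (nat_lit 5) (nat_lit 133) (nat_lit 5) (nat_lit 129) (nat_lit 5) (nat_lit 513) (nat_lit 491) (nat_lit 196)) (XT.lf (nat_lit 0) (nat_lit 113072718842) (nat_lit 304) (nat_lit 185255931216) (nat_lit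 380) (nat_lit 336117876014) (nat_lit 124) (nat_lit 5) (nat_lit 128) (nat_lit 5) (nat_lit 129) (nat_lit 5) (nat_lit 514) (nat_lit 491) (nat_lit 195))) (XT.nd (nat_lit 78) (nat_lit 228) (nat_lit 0) (XT.lf (nat_lit 0) (nat_lit 418383234752) (nat_lit 380) (nat_lit 155590839983) (nat_lit 76) (nat_lit 78963423625) (nat_lit 124) (nat_lit 5) (nat_lit 129) (nat_lit 5) (nat_lit 125) (nat_lit 5) (nat_lit 515) (nat_lit 491) (nat_lit 194)) (XT.lf (nat_lit 0) (nat_lit 232898480394) (nat_lit 228) (nat_lit 318215234738) (nat_lit 304) (nat_lit 120905645808) (nat_lit 121) (nat_lit 5) (nat_lit 124) (nat_lit 5) (nat_lit 125) (nat_lit 5) (nat_lit 516) (nat_lit 491) (nat_lit 193)))) (XT.nd (nat_lit 156) (nat_lit 228) (nat_lit 0) (XT.nd (nat_lit 78) (nat_lit 304) (nat_lit 0) (XT.lf (nat_lit 0) (nat_lit 1153988962) (nat_lit 304) (nat_lit 45728168632) (nat_lit 76) (nat_lit 645040478791) (nat_lit 120) (nat_lit 5) (nat_lit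 124) (nat_lit 5) (nat_lit 121) (nat_lit 5) (nat_lit 517) (nat_lit 491) (nat_lit 192)) (XT.lf (nat_lit 0) (nat_lit 134991362545) (nat_lit 380) (nat_lit 338840259757) (nat_lit 76) (nat_lit 238403451333) (nat_lit 116) (nat_lit 5) (nat_lit 121) (nat_lit 5) (nat_lit 117) (nat_lit 5) (nat_lit 518) (nat_lit 491) (nat_lit 191))) (XT.nd (nat_lit 78) (nat_lit 0) (nat_lit 0) (XT.lf (nat_lit 0) (nat_lit 83425992045) (nat_lit 228) (nat_lit 194952797568) (nat_lit 304) (nat_lit 455041433896) (nat_lit 113) (nat_lit 5) (nat_lit 116) (nat_lit 5) (nat_lit 117) (nat_lit 5) (nat_lit 519) (nat_lit 491) (nat_lit 190)) (XT.lf (nat_lit 0) (nat_lit 436296096142) (nat_lit 304) (nat_lit 218430499967) (nat_lit 76) (nat_lit 100570009361) (nat_lit 113) (nat_lit 5) (nat_lit 117) (nat_lit 5) (nat_lit 114) (nat_lit 5) (nat_lit 520) (nat_lit 491) (nat_lit 189))))) (XT.nd (nat_lit 312) (nat_lit 456) (nat_lit 0) (XT.nd (nat_lit 156)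 (nat_lit 456) (nat_lit 0) (XT.nd (nat_lit 78) (nat_lit 0) (nat_lit 0) (XT.lf (nat_lit 0) (nat_lit 239170399507) (nat_lit 228) (nat_lit 369868924152) (nat_lit 304) (nat_lit 168880980090) (nat_lit 110) (nat_lit 5) (nat_lit 113) (nat_lit 5) (nat_lit 114) (nat_lit 5) (nat_lit 521) (nat_lit 491) (nat_lit 188)) (XT.lf (nat_lit 0) (nat_lit 727234740440) (nat_lit 228) (nat_lit 66884186574) (nat_lit 304) (nat_lit 7371299204) (nat_lit 110) (nat_lit 5) (nat_lit 113) (nat_lit 5) (nat_lit 114) (nat_lit 5) (nat_lit 522) (nat_lit 491) (nat_lit 187))) (XT.nd (nat_lit 78) (nat_lit 228) (nat_lit 0) (XT.lf (nat_lit 0) (nat_lit 167722803244) (nat_lit 228) (nat_lit 405335245420) (nat_lit 76) (nat_lit 252518925782) (nat_lit 107) (nat_lit 5) (nat_lit 110) (nat_lit 5) (nat_lit 108) (nat_lit 5) (nat_lit 523) (nat_lit 491) (nat_lit 186)) (XT.lf (nat_lit 0) (nat_lit 92974431698) (nat_lit 228) (nat_lit 262175665666) (nat_lit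 304) (nat_lit 495520610145) (nat_lit 104) (nat_lit 5) (nat_lit 107) (nat_lit 5) (nat_lit 108) (nat_lit 5) (nat_lit 524) (nat_lit 491) (nat_lit 185)))) (XT.nd (nat_lit 156) (nat_lit 304) (nat_lit 0) (XT.nd (nat_lit 78) (nat_lit 152) (nat_lit 0) (XT.lf (nat_lit 0) (nat_lit 559928962914) (nat_lit 304) (nat_lit 247519669062) (nat_lit 76) (nat_lit 69171484915) (nat_lit 104) (nat_lit 5) (nat_lit 108) (nat_lit 5) (nat_lit 105) (nat_lit 5) (nat_lit 525) (nat_lit 491) (nat_lit 184)) (XT.lf (nat_lit 0) (nat_lit 293253741049) (nat_lit 152) (nat_lit 490569494695) (nat_lit 228) (nat_lit 119599937798) (nat_lit 102) (nat_lit 5) (nat_lit 104) (nat_lit 5) (nat_lit 105) (nat_lit 5) (nat_lit 526) (nat_lit 491) (nat_lit 183))) (XT.nd (nat_lit 78) (nat_lit 228) (nat_lit 0) (XT.lf (nat_lit 0) (nat_lit 88810800928) (nat_lit 228) (nat_lit 63130092979) (nat_lit 76) (nat_lit 779344274747) (nat_lit 101) (nat_lit 5) (nat_lit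 104) (nat_lit 5) (nat_lit 102) (nat_lit 5) (nat_lit 527) (nat_lit 491) (nat_lit 182)) (XT.lf (nat_lit 0) (nat_lit 315183120916) (nat_lit 304) (nat_lit 437237057386) (nat_lit 76) (nat_lit 207444033161) (nat_lit 98) (nat_lit 5) (nat_lit 102) (nat_lit 5) (nat_lit 99) (nat_lit 5) (nat_lit 528) (nat_lit 491) (nat_lit 181)))))) (XT.nd (nat_lit 624) (nat_lit 532) (nat_lit 0) (XT.nd (nat_lit 312) (nat_lit 532) (nat_lit 0) (XT.nd (nat_lit 156) (nat_lit 228) (nat_lit 0) (XT.nd (nat_lit 78) (nat_lit 0) (nat_lit 0) (XT.lf (nat_lit 0) (nat_lit 152415106557) (nat_lit 152) (nat_lit 406416067410) (nat_lit 228) (nat_lit 430743176592) (nat_lit 96) (nat_lit 5) (nat_lit 98) (nat_lit 5) (nat_lit 99) (nat_lit 5) (nat_lit 529) (nat_lit 491) (nat_lit 180)) (XT.lf (nat_lit 0) (nat_lit 786729746474) (nat_lit 152) (nat_lit 35336694797) (nat_lit 228) (nat_lit 198333314759) (nat_lit 96) (nat_lit 5) (nat_lit 98) (nat_lit 5)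 (nat_lit 99) (nat_lit 5) (nat_lit 530) (nat_lit 491) (nat_lit 179))) (XT.nd (nat_lit 78) (nat_lit 0) (nat_lit 0) (XT.lf (nat_lit 0) (nat_lit 56323277047) (nat_lit 228) (nat_lit 645575372801) (nat_lit 76) (nat_lit 350227667606) (nat_lit 93) (nat_lit 5) (nat_lit 96) (nat_lit 5) (nat_lit 94) (nat_lit 5) (nat_lit 531) (nat_lit 491) (nat_lit 178)) (XT.lf (nat_lit 0) (nat_lit 321648868179) (nat_lit 228) (nat_lit 2241444683) (nat_lit 76) (nat_lit 761156252314) (nat_lit 93) (nat_lit 5) (nat_lit 96) (nat_lit 5) (nat_lit 94) (nat_lit 5) (nat_lit 532) (nat_lit 491) (nat_lit 177)))) (XT.nd (nat_lit 156) (nat_lit 228) (nat_lit 0) (XT.nd (nat_lit 78) (nat_lit 152) (nat_lit 0) (XT.lf (nat_lit 0) (nat_lit 612417788093) (nat_lit 228) (nat_lit 424867760019) (nat_lit 76) (nat_lit 81718424712) (nat_lit 91) (nat_lit 5) (nat_lit 94) (nat_lit 5) (nat_lit 92) (nat_lit 5) (nat_lit 533) (nat_lit 491) (nat_lit 176)) (XT.lf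 (nat_lit 0) (nat_lit 274219645236) (nat_lit 152) (nat_lit 653135096856) (nat_lit 228) (nat_lit 226823029357) (nat_lit 89) (nat_lit 5) (nat_lit 91) (nat_lit 5) (nat_lit 92) (nat_lit 5) (nat_lit 534) (nat_lit 491) (nat_lit 175))) (XT.nd (nat_lit 78) (nat_lit 152) (nat_lit 0) (XT.lf (nat_lit 0) (nat_lit 72099449706) (nat_lit 228) (nat_lit 168901532084) (nat_lit 76) (nat_lit 949691366863) (nat_lit 88) (nat_lit 5) (nat_lit 91) (nat_lit 5) (nat_lit 89) (nat_lit 5) (nat_lit 535) (nat_lit 491) (nat_lit 174)) (XT.lf (nat_lit 0) (nat_lit 390809520542) (nat_lit 228) (nat_lit 638622010846) (nat_lit 76) (nat_lit 198791992364) (nat_lit 86) (nat_lit 5) (nat_lit 89) (nat_lit 5) (nat_lit 87) (nat_lit 5) (nat_lit 536) (nat_lit 491) (nat_lit 173))))) (XT.nd (nat_lit 312) (nat_lit 228) (nat_lit 0) (XT.nd (nat_lit 156) (nat_lit 152) (nat_lit 0) (XT.nd (nat_lit 78) (nat_lit 0) (nat_lit 0) (XT.lf (nat_lit 0) (nat_lit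 124388831138) (nat_lit 152) (nat_lit 609866471213) (nat_lit 228) (nat_lit 532935944885) (nat_lit 84) (nat_lit 5) (nat_lit 86) (nat_lit 5) (nat_lit 87) (nat_lit 5) (nat_lit 537) (nat_lit 491) (nat_lit 172)) (XT.lf (nat_lit 0) (nat_lit 947721715582) (nat_lit 152) (nat_lit 157967022559) (nat_lit 228) (nat_lit 201877850509) (nat_lit 84) (nat_lit 5) (nat_lit 86) (nat_lit 5) (nat_lit 87) (nat_lit 5) (nat_lit 538) (nat_lit 491) (nat_lit 171))) (XT.nd (nat_lit 78) (nat_lit 0) (nat_lit 0) (XT.lf (nat_lit 0) (nat_lit 153588691290) (nat_lit 152) (nat_lit 879382361193) (nat_lit 76) (nat_lit 316249883830) (nat_lit 82) (nat_lit 5) (nat_lit 84) (nat_lit 5) (nat_lit 83) (nat_lit 5) (nat_lit 539) (nat_lit 491) (nat_lit 170)) (XT.lf (nat_lit 0) (nat_lit 528827807473) (nat_lit 152) (nat_lit 45153110647) (nat_lit 76) (nat_lit 818372426248) (nat_lit 82) (nat_lit 5) (nat_lit 84) (nat_lit 5) (nat_lit 83) (nat_lit 5)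 (nat_lit 540) (nat_lit 491) (nat_lit 169)))) (XT.nd (nat_lit 58656) (nat_lit 0) (nat_lit 6384) (XT.nd (nat_lit 78) (nat_lit 76) (nat_lit 0) (XT.lf (nat_lit 0) (nat_lit 858257179253) (nat_lit 152) (nat_lit 77971492848) (nat_lit 228) (nat_lit 500743711092) (nat_lit 80) (nat_lit 5) (nat_lit 82) (nat_lit 5) (nat_lit 83) (nat_lit 5) (nat_lit 541) (nat_lit 491) (nat_lit 168)) (XT.lf (nat_lit 0) (nat_lit 328199391057) (nat_lit 76) (nat_lit 1048615468250) (nat_lit 152) (nat_lit 106366750686) (nat_lit 79) (nat_lit 5) (nat_lit 80) (nat_lit 5) (nat_lit 81) (nat_lit 4) (nat_lit 542) (nat_lit 491) (nat_lit 167))) (XT.nd (nat_lit 78) (nat_lit 0) (nat_lit 0) (XT.lf (nat_lit 0) (nat_lit 80027945957) (nat_lit 836) (nat_lit 50299513534) (nat_lit 836) (nat_lit 50299513534) (nat_lit 163) (nat_lit 3) (nat_lit 174) (nat_lit 3) (nat_lit 174) (nat_lit 5) (nat_lit 492) (nat_lit 492) (nat_lit 216)) (XT.lf (nat_lit 76) (nat_lit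 81917998318) (nat_lit 0) (nat_lit 83418753666) (nat_lit 836) (nat_lit 204884569542) (nat_lit 164) (nat_lit 5) (nat_lit 163) (nat_lit 3) (nat_lit 174) (nat_lit 5) (nat_lit 493) (nat_lit 492) (nat_lit 215)))))))
noncomputable def xc481 : XT := (XT.nd (nat_lit 1248) (nat_lit 2812) (nat_lit 0) (XT.nd (nat_lit 624) (nat_lit 1748) (nat_lit 0) (XT.nd (nat_lit 312) (nat_lit 0) (nat_lit 152) (XT.nd (nat_lit 156) (nat_lit 0) (nat_lit 76) (XT.nd (nat_lit 78) (nat_lit 0) (nat_lit 0) (XT.lf (nat_lit 0) (nat_lit 174216356427) (nat_lit 760) (nat_lit 104129493807) (nat_lit 836) (nat_lit 101124480475) (nat_lit 164) (nat_lit 5) (nat_lit 174) (nat_lit 5) (nat_lit 175) (nat_lit 5) (nat_lit 494) (nat_lit 492) (nat_lit 214)) (XT.lf (nat_lit 76) (nat_lit 90791379616) (nat_lit 0) (nat_lit 95533559798) (nat_lit 836) (nat_lit 202717601022) (nat_lit 165) (nat_lit 5) (nat_lit 164) (nat_lit 5) (nat_lit 175) (nat_lit 5) (nat_lit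 495) (nat_lit 492) (nat_lit 213))) (XT.nd (nat_lit 78) (nat_lit 0) (nat_lit 0) (XT.lf (nat_lit 0) (nat_lit 202336691896) (nat_lit 760) (nat_lit 101466054015) (nat_lit 836) (nat_lit 95125727724) (nat_lit 165) (nat_lit 5) (nat_lit 175) (nat_lit 5) (nat_lit 176) (nat_lit 5) (nat_lit 496) (nat_lit 492) (nat_lit 212)) (XT.lf (nat_lit 76) (nat_lit 107017390576) (nat_lit 0) (nat_lit 115368579335) (nat_lit 836) (nat_lit 186760886690) (nat_lit 166) (nat_lit 5) (nat_lit 165) (nat_lit 5) (nat_lit 176) (nat_lit 5) (nat_lit 497) (nat_lit 492) (nat_lit 211)))) (XT.nd (nat_lit 156) (nat_lit 0) (nat_lit 76) (XT.nd (nat_lit 78) (nat_lit 0) (nat_lit 0) (XT.lf (nat_lit 0) (nat_lit 246472090258) (nat_lit 760) (nat_lit 91658607778) (nat_lit 836) (nat_lit 81593741759) (nat_lit 166) (nat_lit 5) (nat_lit 176) (nat_lit 5) (nat_lit 177) (nat_lit 5) (nat_lit 498) (nat_lit 492) (nat_lit 210)) (XT.lf (nat_lit 76) (nat_lit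 131658376800) (nat_lit 0) (nat_lit 144050959237) (nat_lit 836) (nat_lit 154924225144) (nat_lit 167) (nat_lit 5) (nat_lit 166) (nat_lit 5) (nat_lit 177) (nat_lit 5) (nat_lit 499) (nat_lit 492) (nat_lit 209))) (XT.nd (nat_lit 78) (nat_lit 0) (nat_lit 0) (XT.lf (nat_lit 0) (nat_lit 308918746114) (nat_lit 760) (nat_lit 73645196811) (nat_lit 836) (nat_lit 59398680611) (nat_lit 167) (nat_lit 5) (nat_lit 177) (nat_lit 5) (nat_lit 178) (nat_lit 5) (nat_lit 500) (nat_lit 492) (nat_lit 208)) (XT.lf (nat_lit 76) (nat_lit 165899603647) (nat_lit 0) (nat_lit 182840649060) (nat_lit 836) (nat_lit 104870305004) (nat_lit 168) (nat_lit 5) (nat_lit 167) (nat_lit 5) (nat_lit 178) (nat_lit 5) (nat_lit 501) (nat_lit 492) (nat_lit 207))))) (XT.nd (nat_lit 312) (nat_lit 760) (nat_lit 0) (XT.nd (nat_lit 156) (nat_lit 532) (nat_lit 0) (XT.nd (nat_lit 78) (nat_lit 760) (nat_lit 0) (XT.lf (nat_lit 0) (nat_lit 392239973261)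 (nat_lit 760) (nat_lit 46240051867) (nat_lit 76) (nat_lit 27276506537) (nat_lit 168) (nat_lit 5) (nat_lit 178) (nat_lit 5) (nat_lit 169) (nat_lit 5) (nat_lit 502) (nat_lit 492) (nat_lit 206)) (XT.lf (nat_lit 0) (nat_lit 211062300826) (nat_lit 760) (nat_lit 233145019761) (nat_lit 836) (nat_lit 33987851694) (nat_lit 158) (nat_lit 5) (nat_lit 168) (nat_lit 5) (nat_lit 169) (nat_lit 5) (nat_lit 503) (nat_lit 492) (nat_lit 205))) (XT.nd (nat_lit 78) (nat_lit 456) (nat_lit 0) (XT.lf (nat_lit 0) (nat_lit 8072604849) (nat_lit 836) (nat_lit 8511691381) (nat_lit 76) (nat_lit 474625784664) (nat_lit 157) (nat_lit 5) (nat_lit 168) (nat_lit 5) (nat_lit 158) (nat_lit 5) (nat_lit 504) (nat_lit 492) (nat_lit 204)) (XT.lf (nat_lit 0) (nat_lit 58697238233) (nat_lit 532) (nat_lit 236843746082) (nat_lit 76) (nat_lit 208926723292) (nat_lit 151) (nat_lit 5) (nat_lit 158) (nat_lit 5) (nat_lit 152) (nat_lit 5) (nat_lit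 505) (nat_lit 492) (nat_lit 203)))) (XT.nd (nat_lit 156) (nat_lit 380) (nat_lit 0) (XT.nd (nat_lit 78) (nat_lit 0) (nat_lit 0) (XT.lf (nat_lit 0) (nat_lit 40502988560) (nat_lit 380) (nat_lit 72400847385) (nat_lit 456) (nat_lit 405431843082) (nat_lit 146) (nat_lit 5) (nat_lit 151) (nat_lit 5) (nat_lit 152) (nat_lit 5) (nat_lit 506) (nat_lit 492) (nat_lit 202)) (XT.lf (nat_lit 0) (nat_lit 176425218703) (nat_lit 456) (nat_lit 195350185313) (nat_lit 76) (nat_lit 160791422244) (nat_lit 146) (nat_lit 5) (nat_lit 152) (nat_lit 5) (nat_lit 147) (nat_lit 5) (nat_lit 507) (nat_lit 492) (nat_lit 201))) (XT.nd (nat_lit 78) (nat_lit 0) (nat_lit 0) (XT.lf (nat_lit 0) (nat_lit 103378277971) (nat_lit 380) (nat_lit 142545298951) (nat_lit 456) (nat_lit 301445908618) (nat_lit 141) (nat_lit 5) (nat_lit 146) (nat_lit 5) (nat_lit 147) (nat_lit 5) (nat_lit 508) (nat_lit 492) (nat_lit 200)) (XT.lf (nat_lit 0) (nat_lit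 323791760262) (nat_lit 456) (nat_lit 140508171789) (nat_lit 76) (nat_lit 98367600372) (nat_lit 141) (nat_lit 5) (nat_lit 147) (nat_lit 5) (nat_lit 142) (nat_lit 5) (nat_lit 509) (nat_lit 492) (nat_lit 199)))))) (XT.nd (nat_lit 624) (nat_lit 1292) (nat_lit 0) (XT.nd (nat_lit 312) (nat_lit 532) (nat_lit 0) (XT.nd (nat_lit 156) (nat_lit 684) (nat_lit 0) (XT.nd (nat_lit 78) (nat_lit 0) (nat_lit 0) (XT.lf (nat_lit 0) (nat_lit 181625334457) (nat_lit 304) (nat_lit 229100490850) (nat_lit 380) (nat_lit 167746032719) (nat_lit 137) (nat_lit 5) (nat_lit 141) (nat_lit 5) (nat_lit 142) (nat_lit 5) (nat_lit 510) (nat_lit 492) (nat_lit 198)) (XT.lf (nat_lit 0) (nat_lit 504703989057) (nat_lit 380) (nat_lit 70521634559) (nat_lit 76) (nat_lit 19705906521) (nat_lit 137) (nat_lit 5) (nat_lit 142) (nat_lit 5) (nat_lit 138) (nat_lit 5) (nat_lit 511) (nat_lit 492) (nat_lit 197))) (XT.nd (nat_lit 78) (nat_lit 380) (nat_lit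 0) (XT.lf (nat_lit 0) (nat_lit 277237052520) (nat_lit 304) (nat_lit 334228186654) (nat_lit 380) (nat_lit 344737772) (nat_lit 133) (nat_lit 5) (nat_lit 137) (nat_lit 5) (nat_lit 138) (nat_lit 5) (nat_lit 512) (nat_lit 492) (nat_lit 196)) (XT.lf (nat_lit 0) (nat_lit 14330353339) (nat_lit 304) (nat_lit 78129853786) (nat_lit 380) (nat_lit 536926852695) (nat_lit 128) (nat_lit 5) (nat_lit 132) (nat_lit 5) (nat_lit 133) (nat_lit 5) (nat_lit 513) (nat_lit 492) (nat_lit 195)))) (XT.nd (nat_lit 156) (nat_lit 228) (nat_lit 0) (XT.nd (nat_lit 78) (nat_lit 304) (nat_lit 0) (XT.lf (nat_lit 0) (nat_lit 198631348969) (nat_lit 380) (nat_lit 258342342508) (nat_lit 76) (nat_lit 190432146033) (nat_lit 128) (nat_lit 5) (nat_lit 133) (nat_lit 5) (nat_lit 129) (nat_lit 5) (nat_lit 514) (nat_lit 492) (nat_lit 194)) (XT.lf (nat_lit 0) (nat_lit 118726907496) (nat_lit 304) (nat_lit 194518603783) (nat_lit 380) (nat_lit 352923319638)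 (nat_lit 124) (nat_lit 5) (nat_lit 128) (nat_lit 5) (nat_lit 129) (nat_lit 5) (nat_lit 515) (nat_lit 492) (nat_lit 193))) (XT.nd (nat_lit 78) (nat_lit 228) (nat_lit 0) (XT.lf (nat_lit 0) (nat_lit 439302806635) (nat_lit 380) (nat_lit 163369836995) (nat_lit 76) (nat_lit 82911709117) (nat_lit 124) (nat_lit 5) (nat_lit 129) (nat_lit 5) (nat_lit 125) (nat_lit 5) (nat_lit 516) (nat_lit 492) (nat_lit 192)) (XT.lf (nat_lit 0) (nat_lit 244543940610) (nat_lit 228) (nat_lit 334125859264) (nat_lit 304) (nat_lit 126950509140) (nat_lit 121) (nat_lit 5) (nat_lit 124) (nat_lit 5) (nat_lit 125) (nat_lit 5) (nat_lit 517) (nat_lit 492) (nat_lit 191))))) (XT.nd (nat_lit 312) (nat_lit 684) (nat_lit 0) (XT.nd (nat_lit 156) (nat_lit 228) (nat_lit 0) (XT.nd (nat_lit 78) (nat_lit 304) (nat_lit 0) (XT.lf (nat_lit 0) (nat_lit 1212074647) (nat_lit 304) (nat_lit 48014053609) (nat_lit 76) (nat_lit 677292620616) (nat_lit 120)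 (nat_lit 5) (nat_lit 124) (nat_lit 5) (nat_lit 121) (nat_lit 5) (nat_lit 518) (nat_lit 492) (nat_lit 190)) (XT.lf (nat_lit 0) (nat_lit 141741308730) (nat_lit 380) (nat_lit 355781741092) (nat_lit 76) (nat_lit 250323758573) (nat_lit 116) (nat_lit 5) (nat_lit 121) (nat_lit 5) (nat_lit 117) (nat_lit 5) (nat_lit 519) (nat_lit 492) (nat_lit 189))) (XT.nd (nat_lit 78) (nat_lit 0) (nat_lit 0) (XT.lf (nat_lit 0) (nat_lit 87597814725) (nat_lit 228) (nat_lit 204700282590) (nat_lit 304) (nat_lit 477793118940) (nat_lit 113) (nat_lit 5) (nat_lit 116) (nat_lit 5) (nat_lit 117) (nat_lit 5) (nat_lit 520) (nat_lit 492) (nat_lit 188)) (XT.lf (nat_lit 0) (nat_lit 458111253939) (nat_lit 304) (nat_lit 229351511547) (nat_lit 76) (nat_lit 105598652591) (nat_lit 113) (nat_lit 5) (nat_lit 117) (nat_lit 5) (nat_lit 114) (nat_lit 5) (nat_lit 521) (nat_lit 492) (nat_lit 187)))) (XT.nd (nat_lit 156) (nat_lit 456) (nat_lit 0)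 (XT.nd (nat_lit 78) (nat_lit 0) (nat_lit 0) (XT.lf (nat_lit 0) (nat_lit 251129424620) (nat_lit 228) (nat_lit 388362209289) (nat_lit 304) (nat_lit 177324667808) (nat_lit 110) (nat_lit 5) (nat_lit 113) (nat_lit 5) (nat_lit 114) (nat_lit 5) (nat_lit 522) (nat_lit 492) (nat_lit 186)) (XT.lf (nat_lit 0) (nat_lit 763596958545) (nat_lit 228) (nat_lit 70228242503) (nat_lit 304) (nat_lit 7739520081) (nat_lit 110) (nat_lit 5) (nat_lit 113) (nat_lit 5) (nat_lit 114) (nat_lit 5) (nat_lit 523) (nat_lit 492) (nat_lit 185))) (XT.nd (nat_lit 78) (nat_lit 228) (nat_lit 0) (XT.lf (nat_lit 0) (nat_lit 176109270664) (nat_lit 228) (nat_lit 425601509753) (nat_lit 76) (nat_lit 265145026374) (nat_lit 107) (nat_lit 5) (nat_lit 110) (nat_lit 5) (nat_lit 108) (nat_lit 5) (nat_lit 524) (nat_lit 492) (nat_lit 184)) (XT.nd (nat_lit 78) (nat_lit 0) (nat_lit 0) (XT.lf (nat_lit 0) (nat_lit 97623643190) (nat_lit 228) (nat_lit 275284278366)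 (nat_lit 304) (nat_lit 520296305349) (nat_lit 104) (nat_lit 5) (nat_lit 107) (nat_lit 5) (nat_lit 108) (nat_lit 5) (nat_lit 525) (nat_lit 492) (nat_lit 183)) (XT.lf (nat_lit 0) (nat_lit 587925717714) (nat_lit 304) (nat_lit 259895173255) (nat_lit 76) (nat_lit 72630216421) (nat_lit 104) (nat_lit 5) (nat_lit 108) (nat_lit 5) (nat_lit 105) (nat_lit 5) (nat_lit 526) (nat_lit 492) (nat_lit 182))))))))
noncomputable def xc482 : XT := (XT.nd (nat_lit 59826) (nat_lit 0) (nat_lit 4636) (XT.nd (nat_lit 624) (nat_lit 836) (nat_lit 0) (XT.nd (nat_lit 312) (nat_lit 380) (nat_lit 0) (XT.nd (nat_lit 156) (nat_lit 380) (nat_lit 0) (XT.nd (nat_lit 78) (nat_lit 76) (nat_lit 0) (XT.lf (nat_lit 0) (nat_lit 307916899631) (nat_lit 152) (nat_lit 515097797313) (nat_lit 228) (nat_lit 125579620292) (nat_lit 102) (nat_lit 5) (nat_lit 104) (nat_lit 5) (nat_lit 105) (nat_lit 5) (nat_lit 527) (nat_lit 492) (nat_lit 181)) (XT.lf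 (nat_lit 0) (nat_lit 93251630816) (nat_lit 228) (nat_lit 66286138958) (nat_lit 76) (nat_lit 818311642811) (nat_lit 101) (nat_lit 5) (nat_lit 104) (nat_lit 5) (nat_lit 102) (nat_lit 5) (nat_lit 528) (nat_lit 492) (nat_lit 180))) (XT.nd (nat_lit 78) (nat_lit 152) (nat_lit 0) (XT.lf (nat_lit 0) (nat_lit 330942562673) (nat_lit 304) (nat_lit 459098447443) (nat_lit 76) (nat_lit 217816397624) (nat_lit 98) (nat_lit 5) (nat_lit 102) (nat_lit 5) (nat_lit 99) (nat_lit 5) (nat_lit 529) (nat_lit 492) (nat_lit 179)) (XT.lf (nat_lit 0) (nat_lit 160036317231) (nat_lit 152) (nat_lit 426736694648) (nat_lit 228) (nat_lit 452280042236) (nat_lit 96) (nat_lit 5) (nat_lit 98) (nat_lit 5) (nat_lit 99) (nat_lit 5) (nat_lit 530) (nat_lit 492) (nat_lit 178)))) (XT.nd (nat_lit 156) (nat_lit 152) (nat_lit 0) (XT.nd (nat_lit 78) (nat_lit 228) (nat_lit 0) (XT.lf (nat_lit 0) (nat_lit 826066667462) (nat_lit 152) (nat_lit 37103361791)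 (nat_lit 228) (nat_lit 208249701272) (nat_lit 96) (nat_lit 5) (nat_lit 98) (nat_lit 5) (nat_lit 99) (nat_lit 5) (nat_lit 531) (nat_lit 492) (nat_lit 177)) (XT.lf (nat_lit 0) (nat_lit 59139707789) (nat_lit 228) (nat_lit 677853695424) (nat_lit 76) (nat_lit 367739216761) (nat_lit 93) (nat_lit 5) (nat_lit 96) (nat_lit 5) (nat_lit 94) (nat_lit 5) (nat_lit 532) (nat_lit 492) (nat_lit 176))) (XT.nd (nat_lit 78) (nat_lit 152) (nat_lit 0) (XT.lf (nat_lit 0) (nat_lit 337731565768) (nat_lit 228) (nat_lit 2353092139) (nat_lit 76) (nat_lit 799214222811) (nat_lit 93) (nat_lit 5) (nat_lit 96) (nat_lit 5) (nat_lit 94) (nat_lit 5) (nat_lit 533) (nat_lit 492) (nat_lit 175)) (XT.lf (nat_lit 0) (nat_lit 643038928743) (nat_lit 228) (nat_lit 446110720299) (nat_lit 76) (nat_lit 85804509853) (nat_lit 91) (nat_lit 5) (nat_lit 94) (nat_lit 5) (nat_lit 92) (nat_lit 5) (nat_lit 534) (nat_lit 492) (nat_lit 174))))) (XT.nd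 (nat_lit 312) (nat_lit 304) (nat_lit 0) (XT.nd (nat_lit 156) (nat_lit 304) (nat_lit 0) (XT.nd (nat_lit 78) (nat_lit 76) (nat_lit 0) (XT.lf (nat_lit 0) (nat_lit 287931048320) (nat_lit 152) (nat_lit 685791676727) (nat_lit 228) (nat_lit 238163922673) (nat_lit 89) (nat_lit 5) (nat_lit 91) (nat_lit 5) (nat_lit 92) (nat_lit 5) (nat_lit 535) (nat_lit 492) (nat_lit 173)) (XT.lf (nat_lit 0) (nat_lit 75704660181) (nat_lit 228) (nat_lit 177346200029) (nat_lit 76) (nat_lit 997176093969) (nat_lit 88) (nat_lit 5) (nat_lit 91) (nat_lit 5) (nat_lit 89) (nat_lit 5) (nat_lit 536) (nat_lit 492) (nat_lit 172))) (XT.nd (nat_lit 78) (nat_lit 152) (nat_lit 0) (XT.lf (nat_lit 0) (nat_lit 410350232144) (nat_lit 228) (nat_lit 670552700308) (nat_lit 76) (nat_lit 208731755703) (nat_lit 86) (nat_lit 5) (nat_lit 89) (nat_lit 5) (nat_lit 87) (nat_lit 5) (nat_lit 537) (nat_lit 492) (nat_lit 171)) (XT.lf (nat_lit 0) (nat_lit 130608677145)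 (nat_lit 152) (nat_lit 640359620996) (nat_lit 228) (nat_lit 559582499918) (nat_lit 84) (nat_lit 5) (nat_lit 86) (nat_lit 5) (nat_lit 87) (nat_lit 5) (nat_lit 538) (nat_lit 492) (nat_lit 170)))) (XT.nd (nat_lit 156) (nat_lit 152) (nat_lit 0) (XT.nd (nat_lit 78) (nat_lit 152) (nat_lit 0) (XT.lf (nat_lit 0) (nat_lit 995108186552) (nat_lit 152) (nat_lit 165865208184) (nat_lit 228) (nat_lit 211971512357) (nat_lit 84) (nat_lit 5) (nat_lit 86) (nat_lit 5) (nat_lit 87) (nat_lit 5) (nat_lit 539) (nat_lit 492) (nat_lit 169)) (XT.lf (nat_lit 0) (nat_lit 161268347162) (nat_lit 152) (nat_lit 923351084681) (nat_lit 76) (nat_lit 332062540214) (nat_lit 82) (nat_lit 5) (nat_lit 84) (nat_lit 5) (nat_lit 83) (nat_lit 5) (nat_lit 540) (nat_lit 492) (nat_lit 168))) (XT.nd (nat_lit 78) (nat_lit 152) (nat_lit 0) (XT.lf (nat_lit 0) (nat_lit 555269408616) (nat_lit 152) (nat_lit 47410390397) (nat_lit 76) (nat_lit 859291202030)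 (nat_lit 82) (nat_lit 5) (nat_lit 84) (nat_lit 5) (nat_lit 83) (nat_lit 5) (nat_lit 541) (nat_lit 492) (nat_lit 167)) (XT.lf (nat_lit 0) (nat_lit 901170407937) (nat_lit 152) (nat_lit 81869904274) (nat_lit 228) (nat_lit 525780679812) (nat_lit 80) (nat_lit 5) (nat_lit 82) (nat_lit 5) (nat_lit 83) (nat_lit 5) (nat_lit 542) (nat_lit 492) (nat_lit 166)))))) (XT.nd (nat_lit 624) (nat_lit 1672) (nat_lit 0) (XT.nd (nat_lit 312) (nat_lit 0) (nat_lit 152) (XT.nd (nat_lit 156) (nat_lit 0) (nat_lit 76) (XT.nd (nat_lit 78) (nat_lit 0) (nat_lit 0) (XT.lf (nat_lit 0) (nat_lit 84029828798) (nat_lit 836) (nat_lit 52814234282) (nat_lit 836) (nat_lit 52814234282) (nat_lit 163) (nat_lit 3) (nat_lit 174) (nat_lit 3) (nat_lit 174) (nat_lit 5) (nat_lit 493) (nat_lit 493) (nat_lit 214)) (XT.lf (nat_lit 76) (nat_lit 86014399869) (nat_lit 0) (nat_lit 87590122392) (nat_lit 836) (nat_lit 215127818637) (nat_lit 164) (nat_lit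 5) (nat_lit 163) (nat_lit 3) (nat_lit 174) (nat_lit 5) (nat_lit 494) (nat_lit 493) (nat_lit 213))) (XT.nd (nat_lit 78) (nat_lit 0) (nat_lit 0) (XT.lf (nat_lit 0) (nat_lit 182928056103) (nat_lit 760) (nat_lit 109335439859) (nat_lit 836) (nat_lit 106180307122) (nat_lit 164) (nat_lit 5) (nat_lit 174) (nat_lit 5) (nat_lit 175) (nat_lit 5) (nat_lit 495) (nat_lit 493) (nat_lit 212)) (XT.lf (nat_lit 76) (nat_lit 95331468708) (nat_lit 0) (nat_lit 100310565659) (nat_lit 836) (nat_lit 212852590628) (nat_lit 165) (nat_lit 5) (nat_lit 164) (nat_lit 5) (nat_lit 175) (nat_lit 5) (nat_lit 496) (nat_lit 493) (nat_lit 211)))) (XT.nd (nat_lit 156) (nat_lit 0) (nat_lit 76) (XT.nd (nat_lit 78) (nat_lit 0) (nat_lit 0) (XT.lf (nat_lit 0) (nat_lit 212454329218) (nat_lit 760) (nat_lit 106538816055) (nat_lit 836) (nat_lit 99881711847) (nat_lit 165) (nat_lit 5) (nat_lit 175) (nat_lit 5) (nat_lit 176) (nat_lit 5) (nat_lit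 497) (nat_lit 493) (nat_lit 210)) (XT.lf (nat_lit 76) (nat_lit 112368792045) (nat_lit 0) (nat_lit 121137249168) (nat_lit 836) (nat_lit 196098119519) (nat_lit 166) (nat_lit 5) (nat_lit 165) (nat_lit 5) (nat_lit 176) (nat_lit 5) (nat_lit 498) (nat_lit 493) (nat_lit 209))) (XT.nd (nat_lit 78) (nat_lit 0) (nat_lit 0) (XT.lf (nat_lit 0) (nat_lit 258796427196) (nat_lit 760) (nat_lit 96240991119) (nat_lit 836) (nat_lit 85673206794) (nat_lit 166) (nat_lit 5) (nat_lit 176) (nat_lit 5) (nat_lit 177) (nat_lit 5) (nat_lit 499) (nat_lit 493) (nat_lit 208)) (XT.lf (nat_lit 76) (nat_lit 138241833864) (nat_lit 0) (nat_lit 151253674925) (nat_lit 836) (nat_lit 162669695100) (nat_lit 167) (nat_lit 5) (nat_lit 166) (nat_lit 5) (nat_lit 177) (nat_lit 5) (nat_lit 500) (nat_lit 493) (nat_lit 207))))) (XT.nd (nat_lit 312) (nat_lit 1292) (nat_lit 0) (XT.nd (nat_lit 156) (nat_lit 684) (nat_lit 0) (XT.nd (nat_lit 78) (nat_lit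 0) (nat_lit 0) (XT.lf (nat_lit 0) (nat_lit 324365353260) (nat_lit 760) (nat_lit 77326907895) (nat_lit 836) (nat_lit 62368460016) (nat_lit 167) (nat_lit 5) (nat_lit 177) (nat_lit 5) (nat_lit 178) (nat_lit 5) (nat_lit 501) (nat_lit 493) (nat_lit 206)) (XT.lf (nat_lit 76) (nat_lit 174195123735) (nat_lit 0) (nat_lit 191982787980) (nat_lit 836) (nat_lit 110113141515) (nat_lit 168) (nat_lit 5) (nat_lit 167) (nat_lit 5) (nat_lit 178) (nat_lit 5) (nat_lit 502) (nat_lit 493) (nat_lit 205))) (XT.nd (nat_lit 78) (nat_lit 760) (nat_lit 0) (XT.lf (nat_lit 0) (nat_lit 411852585934) (nat_lit 760) (nat_lit 48551507856) (nat_lit 76) (nat_lit 28640233712) (nat_lit 168) (nat_lit 5) (nat_lit 178) (nat_lit 5) (nat_lit 169) (nat_lit 5) (nat_lit 503) (nat_lit 493) (nat_lit 204)) (XT.lf (nat_lit 0) (nat_lit 221615953655) (nat_lit 760) (nat_lit 244802326128) (nat_lit 836) (nat_lit 35686621409) (nat_lit 158) (nat_lit 5)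 (nat_lit 168) (nat_lit 5) (nat_lit 169) (nat_lit 5) (nat_lit 504) (nat_lit 493) (nat_lit 203)))) (XT.nd (nat_lit 156) (nat_lit 760) (nat_lit 0) (XT.nd (nat_lit 78) (nat_lit 456) (nat_lit 0) (XT.lf (nat_lit 0) (nat_lit 8476809314) (nat_lit 836) (nat_lit 8936744745) (nat_lit 76) (nat_lit 498357002129) (nat_lit 157) (nat_lit 5) (nat_lit 168) (nat_lit 5) (nat_lit 158) (nat_lit 5) (nat_lit 505) (nat_lit 493) (nat_lit 202)) (XT.lf (nat_lit 0) (nat_lit 61632654678) (nat_lit 532) (nat_lit 248685382453) (nat_lit 76) (nat_lit 219373028093) (nat_lit 151) (nat_lit 5) (nat_lit 158) (nat_lit 5) (nat_lit 152) (nat_lit 5) (nat_lit 506) (nat_lit 493) (nat_lit 201))) (XT.nd (nat_lit 78) (nat_lit 380) (nat_lit 0) (XT.lf (nat_lit 0) (nat_lit 42528680035) (nat_lit 380) (nat_lit 76020884297) (nat_lit 456) (nat_lit 425702871781) (nat_lit 146) (nat_lit 5) (nat_lit 151) (nat_lit 5) (nat_lit 152) (nat_lit 5) (nat_lit 507)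 (nat_lit 493) (nat_lit 200)) (XT.nd (nat_lit 78) (nat_lit 380) (nat_lit 0) (XT.lf (nat_lit 0) (nat_lit 185246990756) (nat_lit 456) (nat_lit 205117152838) (nat_lit 76) (nat_lit 168830998388) (nat_lit 146) (nat_lit 5) (nat_lit 152) (nat_lit 5) (nat_lit 147) (nat_lit 5) (nat_lit 508) (nat_lit 493) (nat_lit 199)) (XT.lf (nat_lit 0) (nat_lit 108547724872) (nat_lit 380) (nat_lit 149672525997) (nat_lit 456) (nat_lit 316517684160) (nat_lit 141) (nat_lit 5) (nat_lit 146) (nat_lit 5) (nat_lit 147) (nat_lit 5) (nat_lit 509) (nat_lit 493) (nat_lit 198))))))))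
noncomputable def xc483 : XT := (XT.nd (nat_lit 1248) (nat_lit 1900) (nat_lit 0) (XT.nd (nat_lit 624) (nat_lit 1292) (nat_lit 0) (XT.nd (nat_lit 312) (nat_lit 684) (nat_lit 0) (XT.nd (nat_lit 156) (nat_lit 304) (nat_lit 0) (XT.nd (nat_lit 78) (nat_lit 304) (nat_lit 0) (XT.lf (nat_lit 0) (nat_lit 339981820364) (nat_lit 456) (nat_lit 147533049713) (nat_lit 76) (nat_lit 103286015332) (nat_lit 141) (nat_lit 5) (nat_lit 147) (nat_lit 5) (nat_lit 142) (nat_lit 5) (nat_lit 510) (nat_lit 493) (nat_lit 197)) (XT.lf (nat_lit 0) (nat_lit 190707123286) (nat_lit 304) (nat_lit 240555451046) (nat_lit 380) (nat_lit 176132853678) (nat_lit 137) (nat_lit 5) (nat_lit 141) (nat_lit 5) (nat_lit 142) (nat_lit 5) (nat_lit 511) (nat_lit 493) (nat_lit 196))) (XT.nd (nat_lit 78) (nat_lit 304) (nat_lit 0) (XT.lf (nat_lit 0) (nat_lit 529939625428) (nat_lit 380) (nat_lit 74047198174) (nat_lit 76) (nat_lit 20691261169) (nat_lit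 137) (nat_lit 5) (nat_lit 142) (nat_lit 5) (nat_lit 138) (nat_lit 5) (nat_lit 512) (nat_lit 493) (nat_lit 195)) (XT.lf (nat_lit 0) (nat_lit 291099414903) (nat_lit 304) (nat_lit 350939510301) (nat_lit 380) (nat_lit 361529358) (nat_lit 133) (nat_lit 5) (nat_lit 137) (nat_lit 5) (nat_lit 138) (nat_lit 5) (nat_lit 513) (nat_lit 493) (nat_lit 194)))) (XT.nd (nat_lit 156) (nat_lit 304) (nat_lit 0) (XT.nd (nat_lit 78) (nat_lit 0) (nat_lit 0) (XT.lf (nat_lit 0) (nat_lit 15047386589) (nat_lit 304) (nat_lit 82036249466) (nat_lit 380) (nat_lit 563772755804) (nat_lit 128) (nat_lit 5) (nat_lit 132) (nat_lit 5) (nat_lit 133) (nat_lit 5) (nat_lit 514) (nat_lit 493) (nat_lit 193)) (XT.lf (nat_lit 0) (nat_lit 208563316501) (nat_lit 380) (nat_lit 271258950089) (nat_lit 76) (nat_lit 199953842768) (nat_lit 128) (nat_lit 5) (nat_lit 133) (nat_lit 5) (nat_lit 129) (nat_lit 5) (nat_lit 515) (nat_lit 493) (nat_lit 192)))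 (XT.nd (nat_lit 78) (nat_lit 0) (nat_lit 0) (XT.lf (nat_lit 0) (nat_lit 124663754197) (nat_lit 304) (nat_lit 204244421505) (nat_lit 380) (nat_lit 370569077295) (nat_lit 124) (nat_lit 5) (nat_lit 128) (nat_lit 5) (nat_lit 129) (nat_lit 5) (nat_lit 516) (nat_lit 493) (nat_lit 191)) (XT.lf (nat_lit 0) (nat_lit 461268318981) (nat_lit 380) (nat_lit 171537834526) (nat_lit 76) (nat_lit 87057398256) (nat_lit 124) (nat_lit 5) (nat_lit 129) (nat_lit 5) (nat_lit 125) (nat_lit 5) (nat_lit 517) (nat_lit 493) (nat_lit 190))))) (XT.nd (nat_lit 312) (nat_lit 456) (nat_lit 0) (XT.nd (nat_lit 156) (nat_lit 532) (nat_lit 0) (XT.nd (nat_lit 78) (nat_lit 76) (nat_lit 0) (XT.lf (nat_lit 0) (nat_lit 256771623987) (nat_lit 228) (nat_lit 350832027774) (nat_lit 304) (nat_lit 133297654590) (nat_lit 121) (nat_lit 5) (nat_lit 124) (nat_lit 5) (nat_lit 125) (nat_lit 5) (nat_lit 518) (nat_lit 493) (nat_lit 189)) (XT.lf (nat_lit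 0) (nat_lit 1273028708) (nat_lit 304) (nat_lit 50414281501) (nat_lit 76) (nat_lit 711157358573) (nat_lit 120) (nat_lit 5) (nat_lit 124) (nat_lit 5) (nat_lit 121) (nat_lit 5) (nat_lit 519) (nat_lit 493) (nat_lit 188))) (XT.nd (nat_lit 78) (nat_lit 228) (nat_lit 0) (XT.lf (nat_lit 0) (nat_lit 148828717076) (nat_lit 380) (nat_lit 373570345922) (nat_lit 76) (nat_lit 262840068654) (nat_lit 116) (nat_lit 5) (nat_lit 121) (nat_lit 5) (nat_lit 117) (nat_lit 5) (nat_lit 520) (nat_lit 493) (nat_lit 187)) (XT.lf (nat_lit 0) (nat_lit 91978179908) (nat_lit 228) (nat_lit 214935156261) (nat_lit 304) (nat_lit 501682424184) (nat_lit 113) (nat_lit 5) (nat_lit 116) (nat_lit 5) (nat_lit 117) (nat_lit 5) (nat_lit 521) (nat_lit 493) (nat_lit 186)))) (XT.nd (nat_lit 156) (nat_lit 228) (nat_lit 0) (XT.nd (nat_lit 78) (nat_lit 228) (nat_lit 0) (XT.lf (nat_lit 0) (nat_lit 481017136808) (nat_lit 304) (nat_lit 240818621439)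 (nat_lit 76) (nat_lit 110878714710) (nat_lit 113) (nat_lit 5) (nat_lit 117) (nat_lit 5) (nat_lit 114) (nat_lit 5) (nat_lit 522) (nat_lit 493) (nat_lit 185)) (XT.lf (nat_lit 0) (nat_lit 263686354025) (nat_lit 228) (nat_lit 407780173658) (nat_lit 304) (nat_lit 186190573500) (nat_lit 110) (nat_lit 5) (nat_lit 113) (nat_lit 5) (nat_lit 114) (nat_lit 5) (nat_lit 523) (nat_lit 493) (nat_lit 184))) (XT.nd (nat_lit 78) (nat_lit 228) (nat_lit 0) (XT.lf (nat_lit 0) (nat_lit 801777242829) (nat_lit 228) (nat_lit 73739515490) (nat_lit 304) (nat_lit 8126183992) (nat_lit 110) (nat_lit 5) (nat_lit 113) (nat_lit 5) (nat_lit 114) (nat_lit 5) (nat_lit 524) (nat_lit 493) (nat_lit 183)) (XT.lf (nat_lit 0) (nat_lit 184915031030) (nat_lit 228) (nat_lit 446881133597) (nat_lit 76) (nat_lit 278402417650) (nat_lit 107) (nat_lit 5) (nat_lit 110) (nat_lit 5) (nat_lit 108) (nat_lit 5) (nat_lit 525) (nat_lit 493) (nat_lit 182))))))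 (XT.nd (nat_lit 624) (nat_lit 836) (nat_lit 0) (XT.nd (nat_lit 312) (nat_lit 608) (nat_lit 0) (XT.nd (nat_lit 156) (nat_lit 228) (nat_lit 0) (XT.nd (nat_lit 78) (nat_lit 0) (nat_lit 0) (XT.lf (nat_lit 0) (nat_lit 102505269709) (nat_lit 228) (nat_lit 289048337560) (nat_lit 304) (nat_lit 546310816487) (nat_lit 104) (nat_lit 5) (nat_lit 107) (nat_lit 5) (nat_lit 108) (nat_lit 5) (nat_lit 526) (nat_lit 493) (nat_lit 181)) (XT.lf (nat_lit 0) (nat_lit 617322281743) (nat_lit 304) (nat_lit 272889497215) (nat_lit 76) (nat_lit 76261869882) (nat_lit 104) (nat_lit 5) (nat_lit 108) (nat_lit 5) (nat_lit 105) (nat_lit 5) (nat_lit 527) (nat_lit 493) (nat_lit 180))) (XT.nd (nat_lit 78) (nat_lit 76) (nat_lit 0) (XT.lf (nat_lit 0) (nat_lit 323313172304) (nat_lit 152) (nat_lit 540852531064) (nat_lit 228) (nat_lit 131858316140) (nat_lit 102) (nat_lit 5) (nat_lit 104) (nat_lit 5) (nat_lit 105) (nat_lit 5) (nat_lit 528)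 (nat_lit 493) (nat_lit 179)) (XT.lf (nat_lit 0) (nat_lit 97914475251) (nat_lit 228) (nat_lit 69600029878) (nat_lit 76) (nat_lit 859227364930) (nat_lit 101) (nat_lit 5) (nat_lit 104) (nat_lit 5) (nat_lit 102) (nat_lit 5) (nat_lit 529) (nat_lit 493) (nat_lit 178)))) (XT.nd (nat_lit 156) (nat_lit 228) (nat_lit 0) (XT.nd (nat_lit 78) (nat_lit 152) (nat_lit 0) (XT.lf (nat_lit 0) (nat_lit 347489949954) (nat_lit 304) (nat_lit 482052950031) (nat_lit 76) (nat_lit 228707365174) (nat_lit 98) (nat_lit 5) (nat_lit 102) (nat_lit 5) (nat_lit 99) (nat_lit 5) (nat_lit 530) (nat_lit 493) (nat_lit 177)) (XT.lf (nat_lit 0) (nat_lit 168038546106) (nat_lit 152) (nat_lit 448073369623) (nat_lit 228) (nat_lit 474893778420) (nat_lit 96) (nat_lit 5) (nat_lit 98) (nat_lit 5) (nat_lit 99) (nat_lit 5) (nat_lit 531) (nat_lit 493) (nat_lit 176))) (XT.nd (nat_lit 78) (nat_lit 228) (nat_lit 0) (XT.lf (nat_lit 0) (nat_lit 867370394181)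 (nat_lit 152) (nat_lit 38958377731) (nat_lit 228) (nat_lit 218661933071) (nat_lit 96) (nat_lit 5) (nat_lit 98) (nat_lit 5) (nat_lit 99) (nat_lit 5) (nat_lit 532) (nat_lit 493) (nat_lit 175)) (XT.lf (nat_lit 0) (nat_lit 62096935255) (nat_lit 228) (nat_lit 711745975645) (nat_lit 76) (nat_lit 386126327961) (nat_lit 93) (nat_lit 5) (nat_lit 96) (nat_lit 5) (nat_lit 94) (nat_lit 5) (nat_lit 533) (nat_lit 493) (nat_lit 174))))) (XT.nd (nat_lit 312) (nat_lit 456) (nat_lit 0) (XT.nd (nat_lit 156) (nat_lit 228) (nat_lit 0) (XT.nd (nat_lit 78) (nat_lit 152) (nat_lit 0) (XT.lf (nat_lit 0) (nat_lit 354618374605) (nat_lit 228) (nat_lit 2470361460) (nat_lit 76) (nat_lit 839175077153) (nat_lit 93) (nat_lit 5) (nat_lit 96) (nat_lit 5) (nat_lit 94) (nat_lit 5) (nat_lit 534) (nat_lit 493) (nat_lit 173)) (XT.lf (nat_lit 0) (nat_lit 675191103067) (nat_lit 228) (nat_lit 468415868358) (nat_lit 76) (nat_lit 90094884013)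 (nat_lit 91) (nat_lit 5) (nat_lit 94) (nat_lit 5) (nat_lit 92) (nat_lit 5) (nat_lit 535) (nat_lit 493) (nat_lit 172))) (XT.nd (nat_lit 78) (nat_lit 76) (nat_lit 0) (XT.lf (nat_lit 0) (nat_lit 302327982435) (nat_lit 152) (nat_lit 720081101860) (nat_lit 228) (nat_lit 250071884656) (nat_lit 89) (nat_lit 5) (nat_lit 91) (nat_lit 5) (nat_lit 92) (nat_lit 5) (nat_lit 536) (nat_lit 493) (nat_lit 171)) (XT.lf (nat_lit 0) (nat_lit 79490109054) (nat_lit 228) (nat_lit 186213139365) (nat_lit 76) (nat_lit 1047035042671) (nat_lit 88) (nat_lit 5) (nat_lit 91) (nat_lit 5) (nat_lit 89) (nat_lit 5) (nat_lit 537) (nat_lit 493) (nat_lit 170)))) (XT.nd (nat_lit 156) (nat_lit 152) (nat_lit 0) (XT.nd (nat_lit 78) (nat_lit 152) (nat_lit 0) (XT.lf (nat_lit 0) (nat_lit 430867957424) (nat_lit 228) (nat_lit 704079962462) (nat_lit 76) (nat_lit 219168491988) (nat_lit 86) (nat_lit 5) (nat_lit 89) (nat_lit 5) (nat_lit 87) (nat_lit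 5) (nat_lit 538) (nat_lit 493) (nat_lit 169)) (XT.lf (nat_lit 0) (nat_lit 137139477851) (nat_lit 152) (nat_lit 672377444423) (nat_lit 228) (nat_lit 587561405221) (nat_lit 84) (nat_lit 5) (nat_lit 86) (nat_lit 5) (nat_lit 87) (nat_lit 5) (nat_lit 539) (nat_lit 493) (nat_lit 168))) (XT.nd (nat_lit 78) (nat_lit 152) (nat_lit 0) (XT.lf (nat_lit 0) (nat_lit 1044863945259) (nat_lit 152) (nat_lit 174158318477) (nat_lit 228) (nat_lit 222569878744) (nat_lit 84) (nat_lit 5) (nat_lit 86) (nat_lit 5) (nat_lit 87) (nat_lit 5) (nat_lit 540) (nat_lit 493) (nat_lit 167)) (XT.nd (nat_lit 78) (nat_lit 0) (nat_lit 0) (XT.lf (nat_lit 0) (nat_lit 169331965253) (nat_lit 152) (nat_lit 969518281028) (nat_lit 76) (nat_lit 348665814339) (nat_lit 82) (nat_lit 5) (nat_lit 84) (nat_lit 5) (nat_lit 83) (nat_lit 5) (nat_lit 541) (nat_lit 493) (nat_lit 166)) (XT.lf (nat_lit 0) (nat_lit 583033070220) (nat_lit 152) (nat_lit 49780569071)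 (nat_lit 76) (nat_lit 902255902240) (nat_lit 82) (nat_lit 5) (nat_lit 84) (nat_lit 5) (nat_lit 83) (nat_lit 5) (nat_lit 542) (nat_lit 493) (nat_lit 165))))))))
noncomputable def xc484 : XT := (XT.nd (nat_lit 1248) (nat_lit 2964) (nat_lit 0) (XT.nd (nat_lit 624) (nat_lit 1292) (nat_lit 0) (XT.nd (nat_lit 312) (nat_lit 0) (nat_lit 152) (XT.nd (nat_lit 156) (nat_lit 0) (nat_lit 76) (XT.nd (nat_lit 78) (nat_lit 0) (nat_lit 0) (XT.lf (nat_lit 0) (nat_lit 88231760641) (nat_lit 836) (nat_lit 55454714768) (nat_lit 836) (nat_lit 55454714768) (nat_lit 163) (nat_lit 3) (nat_lit 174) (nat_lit 3) (nat_lit 174) (nat_lit 5) (nat_lit 494) (nat_lit 494) (nat_lit 212)) (XT.lf (nat_lit 76) (nat_lit 90315574860) (nat_lit 0) (nat_lit 91970019480) (nat_lit 836) (nat_lit 225883321240) (nat_lit 164) (nat_lit 5) (nat_lit 163) (nat_lit 3) (nat_lit 174) (nat_lit 5) (nat_lit 495) (nat_lit 494) (nat_lit 211))) (XT.nd (nat_lit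 78) (nat_lit 0) (nat_lit 0) (XT.lf (nat_lit 0) (nat_lit 192075258776) (nat_lit 760) (nat_lit 114801732362) (nat_lit 836) (nat_lit 111488962045) (nat_lit 164) (nat_lit 5) (nat_lit 174) (nat_lit 5) (nat_lit 175) (nat_lit 5) (nat_lit 496) (nat_lit 494) (nat_lit 210)) (XT.lf (nat_lit 76) (nat_lit 100098513900) (nat_lit 0) (nat_lit 105326391330) (nat_lit 836) (nat_lit 223494412498) (nat_lit 165) (nat_lit 5) (nat_lit 164) (nat_lit 5) (nat_lit 175) (nat_lit 5) (nat_lit 497) (nat_lit 494) (nat_lit 209)))) (XT.nd (nat_lit 156) (nat_lit 0) (nat_lit 76) (XT.nd (nat_lit 78) (nat_lit 0) (nat_lit 0) (XT.lf (nat_lit 0) (nat_lit 223077773776) (nat_lit 760) (nat_lit 111865266462) (nat_lit 836) (nat_lit 104875523277) (nat_lit 165) (nat_lit 5) (nat_lit 175) (nat_lit 5) (nat_lit 176) (nat_lit 5) (nat_lit 498) (nat_lit 494) (nat_lit 208)) (XT.lf (nat_lit 76) (nat_lit 117987714134) (nat_lit 0) (nat_lit 127194330099)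 (nat_lit 836) (nat_lit 205902289435) (nat_lit 166) (nat_lit 5) (nat_lit 165) (nat_lit 5) (nat_lit 176) (nat_lit 5) (nat_lit 499) (nat_lit 494) (nat_lit 207))) (XT.nd (nat_lit 78) (nat_lit 0) (nat_lit 0) (XT.lf (nat_lit 0) (nat_lit 271736912887) (nat_lit 760) (nat_lit 101052544486) (nat_lit 836) (nat_lit 89956665724) (nat_lit 166) (nat_lit 5) (nat_lit 176) (nat_lit 5) (nat_lit 177) (nat_lit 5) (nat_lit 500) (nat_lit 494) (nat_lit 206)) (XT.lf (nat_lit 76) (nat_lit 145154413744) (nat_lit 0) (nat_lit 158816510804) (nat_lit 836) (nat_lit 170802507472) (nat_lit 167) (nat_lit 5) (nat_lit 166) (nat_lit 5) (nat_lit 177) (nat_lit 5) (nat_lit 501) (nat_lit 494) (nat_lit 205))))) (XT.nd (nat_lit 312) (nat_lit 912) (nat_lit 0) (XT.nd (nat_lit 156) (nat_lit 684) (nat_lit 0) (XT.nd (nat_lit 78) (nat_lit 0) (nat_lit 0) (XT.lf (nat_lit 0) (nat_lit 340584228488) (nat_lit 760) (nat_lit 81192755552) (nat_lit 836)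 (nat_lit 65486742766) (nat_lit 167) (nat_lit 5) (nat_lit 177) (nat_lit 5) (nat_lit 178) (nat_lit 5) (nat_lit 502) (nat_lit 494) (nat_lit 204)) (XT.lf (nat_lit 76) (nat_lit 182905369632) (nat_lit 0) (nat_lit 201582023948) (nat_lit 836) (nat_lit 115618182954) (nat_lit 168) (nat_lit 5) (nat_lit 167) (nat_lit 5) (nat_lit 178) (nat_lit 5) (nat_lit 503) (nat_lit 494) (nat_lit 203))) (XT.nd (nat_lit 78) (nat_lit 760) (nat_lit 0) (XT.lf (nat_lit 0) (nat_lit 432445772156) (nat_lit 760) (nat_lit 50978587462) (nat_lit 76) (nat_lit 30072156372) (nat_lit 168) (nat_lit 5) (nat_lit 178) (nat_lit 5) (nat_lit 169) (nat_lit 5) (nat_lit 504) (nat_lit 494) (nat_lit 202)) (XT.lf (nat_lit 0) (nat_lit 232697239128) (nat_lit 760) (nat_lit 257042492665) (nat_lit 836) (nat_lit 37470387518) (nat_lit 158) (nat_lit 5) (nat_lit 168) (nat_lit 5) (nat_lit 169) (nat_lit 5) (nat_lit 505) (nat_lit 494) (nat_lit 201)))) (XT.nd (nat_lit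 156) (nat_lit 380) (nat_lit 0) (XT.nd (nat_lit 78) (nat_lit 456) (nat_lit 0) (XT.lf (nat_lit 0) (nat_lit 8901170616) (nat_lit 836) (nat_lit 9383100163) (nat_lit 76) (nat_lit 523274787139) (nat_lit 157) (nat_lit 5) (nat_lit 168) (nat_lit 5) (nat_lit 158) (nat_lit 5) (nat_lit 506) (nat_lit 494) (nat_lit 200)) (XT.lf (nat_lit 0) (nat_lit 64714790389) (nat_lit 532) (nat_lit 261119151863) (nat_lit 76) (nat_lit 230341651050) (nat_lit 151) (nat_lit 5) (nat_lit 158) (nat_lit 5) (nat_lit 152) (nat_lit 5) (nat_lit 507) (nat_lit 494) (nat_lit 199))) (XT.nd (nat_lit 78) (nat_lit 0) (nat_lit 0) (XT.lf (nat_lit 0) (nat_lit 44655605690) (nat_lit 380) (nat_lit 79821923561) (nat_lit 456) (nat_lit 446987504300) (nat_lit 146) (nat_lit 5) (nat_lit 151) (nat_lit 5) (nat_lit 152) (nat_lit 5) (nat_lit 508) (nat_lit 494) (nat_lit 198)) (XT.lf (nat_lit 0) (nat_lit 194509803894) (nat_lit 456) (nat_lit 215372519105) (nat_lit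 76) (nat_lit 177272552871) (nat_lit 146) (nat_lit 5) (nat_lit 152) (nat_lit 5) (nat_lit 147) (nat_lit 5) (nat_lit 509) (nat_lit 494) (nat_lit 197)))))) (XT.nd (nat_lit 624) (nat_lit 1292) (nat_lit 0) (XT.nd (nat_lit 312) (nat_lit 988) (nat_lit 0) (XT.nd (nat_lit 156) (nat_lit 304) (nat_lit 0) (XT.nd (nat_lit 78) (nat_lit 0) (nat_lit 0) (XT.lf (nat_lit 0) (nat_lit 113975594565) (nat_lit 380) (nat_lit 157156117919) (nat_lit 456) (nat_lit 332343096813) (nat_lit 141) (nat_lit 5) (nat_lit 146) (nat_lit 5) (nat_lit 147) (nat_lit 5) (nat_lit 510) (nat_lit 494) (nat_lit 196)) (XT.lf (nat_lit 0) (nat_lit 356981339581) (nat_lit 456) (nat_lit 154909220870) (nat_lit 76) (nat_lit 108450347791) (nat_lit 141) (nat_lit 5) (nat_lit 147) (nat_lit 5) (nat_lit 142) (nat_lit 5) (nat_lit 511) (nat_lit 494) (nat_lit 195))) (XT.nd (nat_lit 78) (nat_lit 0) (nat_lit 0) (XT.lf (nat_lit 0) (nat_lit 200242953017) (nat_lit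 304) (nat_lit 252583165234) (nat_lit 380) (nat_lit 184939060373) (nat_lit 137) (nat_lit 5) (nat_lit 141) (nat_lit 5) (nat_lit 142) (nat_lit 5) (nat_lit 512) (nat_lit 494) (nat_lit 194)) (XT.lf (nat_lit 0) (nat_lit 556437002997) (nat_lit 380) (nat_lit 77749088138) (nat_lit 76) (nat_lit 21725878033) (nat_lit 137) (nat_lit 5) (nat_lit 142) (nat_lit 5) (nat_lit 138) (nat_lit 5) (nat_lit 513) (nat_lit 494) (nat_lit 193)))) (XT.nd (nat_lit 156) (nat_lit 304) (nat_lit 0) (XT.nd (nat_lit 78) (nat_lit 380) (nat_lit 0) (XT.lf (nat_lit 0) (nat_lit 305654848013) (nat_lit 304) (nat_lit 368486408097) (nat_lit 380) (nat_lit 379201924) (nat_lit 133) (nat_lit 5) (nat_lit 137) (nat_lit 5) (nat_lit 138) (nat_lit 5) (nat_lit 514) (nat_lit 494) (nat_lit 192)) (XT.lf (nat_lit 0) (nat_lit 15800223568) (nat_lit 304) (nat_lit 86137973948) (nat_lit 380) (nat_lit 591960994931) (nat_lit 128) (nat_lit 5) (nat_lit 132) (nat_lit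 5) (nat_lit 133) (nat_lit 5) (nat_lit 515) (nat_lit 494) (nat_lit 191))) (XT.nd (nat_lit 78) (nat_lit 304) (nat_lit 0) (XT.lf (nat_lit 0) (nat_lit 218991845214) (nat_lit 380) (nat_lit 284821435422) (nat_lit 76) (nat_lit 209951616025) (nat_lit 128) (nat_lit 5) (nat_lit 133) (nat_lit 5) (nat_lit 129) (nat_lit 5) (nat_lit 516) (nat_lit 494) (nat_lit 190)) (XT.lf (nat_lit 0) (nat_lit 130897396624) (nat_lit 304) (nat_lit 214456540570) (nat_lit 380) (nat_lit 389097160798) (nat_lit 124) (nat_lit 5) (nat_lit 128) (nat_lit 5) (nat_lit 129) (nat_lit 5) (nat_lit 517) (nat_lit 494) (nat_lit 189))))) (XT.nd (nat_lit 312) (nat_lit 684) (nat_lit 0) (XT.nd (nat_lit 156) (nat_lit 380) (nat_lit 0) (XT.nd (nat_lit 78) (nat_lit 228) (nat_lit 0) (XT.lf (nat_lit 0) (nat_lit 484332072358) (nat_lit 380) (nat_lit 180114277891) (nat_lit 76) (nat_lit 91410362212) (nat_lit 124) (nat_lit 5) (nat_lit 129) (nat_lit 5) (nat_lit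 125) (nat_lit 5) (nat_lit 518) (nat_lit 494) (nat_lit 188)) (XT.lf (nat_lit 0) (nat_lit 269610646317) (nat_lit 228) (nat_lit 368373516280) (nat_lit 304) (nat_lit 139962192642) (nat_lit 121) (nat_lit 5) (nat_lit 124) (nat_lit 5) (nat_lit 125) (nat_lit 5) (nat_lit 519) (nat_lit 494) (nat_lit 187))) (XT.nd (nat_lit 78) (nat_lit 304) (nat_lit 0) (XT.lf (nat_lit 0) (nat_lit 1336997901) (nat_lit 304) (nat_lit 52934564929) (nat_lit 76) (nat_lit 746715323486) (nat_lit 120) (nat_lit 5) (nat_lit 124) (nat_lit 5) (nat_lit 121) (nat_lit 5) (nat_lit 520) (nat_lit 494) (nat_lit 186)) (XT.lf (nat_lit 0) (nat_lit 156270463959) (nat_lit 380) (nat_lit 392248425826) (nat_lit 76) (nat_lit 275982182883) (nat_lit 116) (nat_lit 5) (nat_lit 121) (nat_lit 5) (nat_lit 117) (nat_lit 5) (nat_lit 521) (nat_lit 494) (nat_lit 185)))) (XT.nd (nat_lit 156) (nat_lit 456) (nat_lit 0) (XT.nd (nat_lit 78) (nat_lit 0) (nat_lit 0) (XT.lf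 (nat_lit 0) (nat_lit 96577519240) (nat_lit 228) (nat_lit 225681786673) (nat_lit 304) (nat_lit 526766227294) (nat_lit 113) (nat_lit 5) (nat_lit 116) (nat_lit 5) (nat_lit 117) (nat_lit 5) (nat_lit 522) (nat_lit 494) (nat_lit 184)) (XT.lf (nat_lit 0) (nat_lit 505068284054) (nat_lit 304) (nat_lit 252859130121) (nat_lit 76) (nat_lit 116422767896) (nat_lit 113) (nat_lit 5) (nat_lit 117) (nat_lit 5) (nat_lit 114) (nat_lit 5) (nat_lit 523) (nat_lit 494) (nat_lit 183))) (XT.nd (nat_lit 78) (nat_lit 228) (nat_lit 0) (XT.lf (nat_lit 0) (nat_lit 276871087304) (nat_lit 228) (nat_lit 428169049829) (nat_lit 304) (nat_lit 195499804943) (nat_lit 110) (nat_lit 5) (nat_lit 113) (nat_lit 5) (nat_lit 114) (nat_lit 5) (nat_lit 524) (nat_lit 494) (nat_lit 182)) (XT.nd (nat_lit 78) (nat_lit 228) (nat_lit 0) (XT.lf (nat_lit 0) (nat_lit 841866500759) (nat_lit 228) (nat_lit 77426365062) (nat_lit 304) (nat_lit 8532210114)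 (nat_lit 110) (nat_lit 5) (nat_lit 113) (nat_lit 5) (nat_lit 114) (nat_lit 5) (nat_lit 525) (nat_lit 494) (nat_lit 181)) (XT.lf (nat_lit 0) (nat_lit 194161051817) (nat_lit 228) (nat_lit 469224780622) (nat_lit 76) (nat_lit 292322665477) (nat_lit 107) (nat_lit 5) (nat_lit 110) (nat_lit 5) (nat_lit 108) (nat_lit 5) (nat_lit 526) (nat_lit 494) (nat_lit 180))))))))
noncomputable def xc485 : XT := (XT.nd (nat_lit 60060) (nat_lit 0) (nat_lit 4332) (XT.nd (nat_lit 624) (nat_lit 684) (nat_lit 0) (XT.nd (nat_lit 312) (nat_lit 608) (nat_lit 0) (XT.nd (nat_lit 156) (nat_lit 228) (nat_lit 0) (XT.nd (nat_lit 78) (nat_lit 0) (nat_lit 0) (XT.lf (nat_lit 0) (nat_lit 107630936242) (nat_lit 228) (nat_lit 303500614099) (nat_lit 304) (nat_lit 573626081458) (nat_lit 104) (nat_lit 5) (nat_lit 107) (nat_lit 5) (nat_lit 108) (nat_lit 5) (nat_lit 527) (nat_lit 494) (nat_lit 179)) (XT.lf (nat_lit 0) (nat_lit 648188648115)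 (nat_lit 304) (nat_lit 286533577788) (nat_lit 76) (nat_lit 80075092755) (nat_lit 104) (nat_lit 5) (nat_lit 108) (nat_lit 5) (nat_lit 105) (nat_lit 5) (nat_lit 528) (nat_lit 494) (nat_lit 178))) (XT.nd (nat_lit 78) (nat_lit 76) (nat_lit 0) (XT.lf (nat_lit 0) (nat_lit 339479218848) (nat_lit 152) (nat_lit 567895016016) (nat_lit 228) (nat_lit 138450973293) (nat_lit 102) (nat_lit 5) (nat_lit 104) (nat_lit 5) (nat_lit 105) (nat_lit 5) (nat_lit 529) (nat_lit 494) (nat_lit 177)) (XT.lf (nat_lit 0) (nat_lit 102810437467) (nat_lit 228) (nat_lit 73079654022) (nat_lit 76) (nat_lit 902188860141) (nat_lit 101) (nat_lit 5) (nat_lit 104) (nat_lit 5) (nat_lit 102) (nat_lit 5) (nat_lit 530) (nat_lit 494) (nat_lit 176)))) (XT.nd (nat_lit 156) (nat_lit 228) (nat_lit 0) (XT.nd (nat_lit 78) (nat_lit 152) (nat_lit 0) (XT.lf (nat_lit 0) (nat_lit 364864682507) (nat_lit 304) (nat_lit 506155216777) (nat_lit 76) (nat_lit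 240142867373) (nat_lit 98) (nat_lit 5) (nat_lit 102) (nat_lit 5) (nat_lit 99) (nat_lit 5) (nat_lit 531) (nat_lit 494) (nat_lit 175)) (XT.lf (nat_lit 0) (nat_lit 176440848027) (nat_lit 152) (nat_lit 470476893200) (nat_lit 228) (nat_lit 498638226137) (nat_lit 96) (nat_lit 5) (nat_lit 98) (nat_lit 5) (nat_lit 99) (nat_lit 5) (nat_lit 532) (nat_lit 494) (nat_lit 174))) (XT.nd (nat_lit 78) (nat_lit 228) (nat_lit 0) (XT.lf (nat_lit 0) (nat_lit 910739270667) (nat_lit 152) (nat_lit 40906158613) (nat_lit 228) (nat_lit 229594800006) (nat_lit 96) (nat_lit 5) (nat_lit 98) (nat_lit 5) (nat_lit 99) (nat_lit 5) (nat_lit 533) (nat_lit 494) (nat_lit 173)) (XT.lf (nat_lit 0) (nat_lit 65202001588) (nat_lit 228) (nat_lit 747332907488) (nat_lit 76) (nat_lit 405432780742) (nat_lit 93) (nat_lit 5) (nat_lit 96) (nat_lit 5) (nat_lit 94) (nat_lit 5) (nat_lit 534) (nat_lit 494) (nat_lit 172))))) (XT.nd (nat_lit 312) (nat_lit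 304) (nat_lit 0) (XT.nd (nat_lit 156) (nat_lit 228) (nat_lit 0) (XT.nd (nat_lit 78) (nat_lit 152) (nat_lit 0) (XT.lf (nat_lit 0) (nat_lit 372349502450) (nat_lit 228) (nat_lit 2593530067) (nat_lit 76) (nat_lit 881133960899) (nat_lit 93) (nat_lit 5) (nat_lit 96) (nat_lit 5) (nat_lit 94) (nat_lit 5) (nat_lit 535) (nat_lit 494) (nat_lit 171)) (XT.lf (nat_lit 0) (nat_lit 708950864920) (nat_lit 228) (nat_lit 491836309889) (nat_lit 76) (nat_lit 94599763060) (nat_lit 91) (nat_lit 5) (nat_lit 94) (nat_lit 5) (nat_lit 92) (nat_lit 5) (nat_lit 536) (nat_lit 494) (nat_lit 170))) (XT.nd (nat_lit 78) (nat_lit 76) (nat_lit 0) (XT.lf (nat_lit 0) (nat_lit 317444727768) (nat_lit 152) (nat_lit 756085013004) (nat_lit 228) (nat_lit 262575266507) (nat_lit 89) (nat_lit 5) (nat_lit 91) (nat_lit 5) (nat_lit 92) (nat_lit 5) (nat_lit 537) (nat_lit 494) (nat_lit 169)) (XT.lf (nat_lit 0) (nat_lit 83464810301) (nat_lit 228)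 (nat_lit 195523460128) (nat_lit 76) (nat_lit 1099386925419) (nat_lit 88) (nat_lit 5) (nat_lit 91) (nat_lit 5) (nat_lit 89) (nat_lit 5) (nat_lit 538) (nat_lit 494) (nat_lit 168)))) (XT.nd (nat_lit 156) (nat_lit 0) (nat_lit 0) (XT.nd (nat_lit 78) (nat_lit 152) (nat_lit 0) (XT.lf (nat_lit 0) (nat_lit 452411549104) (nat_lit 228) (nat_lit 739283622388) (nat_lit 76) (nat_lit 230127051280) (nat_lit 86) (nat_lit 5) (nat_lit 89) (nat_lit 5) (nat_lit 87) (nat_lit 5) (nat_lit 539) (nat_lit 494) (nat_lit 167)) (XT.lf (nat_lit 0) (nat_lit 143996784485) (nat_lit 152) (nat_lit 705996173676) (nat_lit 228) (nat_lit 616939276215) (nat_lit 84) (nat_lit 5) (nat_lit 86) (nat_lit 5) (nat_lit 87) (nat_lit 5) (nat_lit 540) (nat_lit 494) (nat_lit 166))) (XT.nd (nat_lit 58890) (nat_lit 0) (nat_lit 6004) (XT.lf (nat_lit 0) (nat_lit 1097107459419) (nat_lit 152) (nat_lit 182866098240) (nat_lit 228) (nat_lit 233698182902) (nat_lit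 84) (nat_lit 5) (nat_lit 86) (nat_lit 5) (nat_lit 87) (nat_lit 5) (nat_lit 541) (nat_lit 494) (nat_lit 165)) (XT.lf (nat_lit 0) (nat_lit 92643748131) (nat_lit 836) (nat_lit 58227240775) (nat_lit 836) (nat_lit 58227240775) (nat_lit 163) (nat_lit 3) (nat_lit 174) (nat_lit 3) (nat_lit 174) (nat_lit 5) (nat_lit 495) (nat_lit 495) (nat_lit 210)))))) (XT.nd (nat_lit 624) (nat_lit 1672) (nat_lit 0) (XT.nd (nat_lit 312) (nat_lit 0) (nat_lit 152) (XT.nd (nat_lit 156) (nat_lit 0) (nat_lit 76) (XT.nd (nat_lit 78) (nat_lit 0) (nat_lit 76) (XT.lf (nat_lit 76) (nat_lit 94831766299) (nat_lit 0) (nat_lit 96568875073) (nat_lit 836) (nat_lit 237176681562) (nat_lit 164) (nat_lit 5) (nat_lit 163) (nat_lit 3) (nat_lit 174) (nat_lit 5) (nat_lit 496) (nat_lit 495) (nat_lit 209)) (XT.lf (nat_lit 0) (nat_lit 201679747219) (nat_lit 760) (nat_lit 120541384068) (nat_lit 836) (nat_lit 117063083224) (nat_lit 164) (nat_lit 5)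 (nat_lit 174) (nat_lit 5) (nat_lit 175) (nat_lit 5) (nat_lit 497) (nat_lit 495) (nat_lit 208))) (XT.nd (nat_lit 78) (nat_lit 0) (nat_lit 76) (XT.lf (nat_lit 76) (nat_lit 105103867492) (nat_lit 0) (nat_lit 110592980636) (nat_lit 836) (nat_lit 234668400551) (nat_lit 165) (nat_lit 5) (nat_lit 164) (nat_lit 5) (nat_lit 175) (nat_lit 5) (nat_lit 498) (nat_lit 495) (nat_lit 207)) (XT.lf (nat_lit 0) (nat_lit 234232322870) (nat_lit 760) (nat_lit 117458084982) (nat_lit 836) (nat_lit 110119050768) (nat_lit 165) (nat_lit 5) (nat_lit 175) (nat_lit 5) (nat_lit 176) (nat_lit 5) (nat_lit 499) (nat_lit 495) (nat_lit 206)))) (XT.nd (nat_lit 156) (nat_lit 0) (nat_lit 76) (XT.nd (nat_lit 78) (nat_lit 0) (nat_lit 76) (XT.lf (nat_lit 76) (nat_lit 123887537470) (nat_lit 0) (nat_lit 133554244764) (nat_lit 836) (nat_lit 216196736279) (nat_lit 166) (nat_lit 5) (nat_lit 165) (nat_lit 5) (nat_lit 176) (nat_lit 5) (nat_lit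 500) (nat_lit 495) (nat_lit 205)) (XT.lf (nat_lit 0) (nat_lit 285324361099) (nat_lit 760) (nat_lit 106104721652) (nat_lit 836) (nat_lit 94454316326) (nat_lit 166) (nat_lit 5) (nat_lit 176) (nat_lit 5) (nat_lit 177) (nat_lit 5) (nat_lit 501) (nat_lit 495) (nat_lit 204))) (XT.nd (nat_lit 78) (nat_lit 0) (nat_lit 76) (XT.lf (nat_lit 76) (nat_lit 152412577230) (nat_lit 0) (nat_lit 166757474332) (nat_lit 836) (nat_lit 179342022975) (nat_lit 167) (nat_lit 5) (nat_lit 166) (nat_lit 5) (nat_lit 177) (nat_lit 5) (nat_lit 502) (nat_lit 495) (nat_lit 203)) (XT.lf (nat_lit 0) (nat_lit 357613990991) (nat_lit 760) (nat_lit 85251941866) (nat_lit 836) (nat_lit 68760952693) (nat_lit 167) (nat_lit 5) (nat_lit 177) (nat_lit 5) (nat_lit 178) (nat_lit 5) (nat_lit 503) (nat_lit 495) (nat_lit 202))))) (XT.nd (nat_lit 312) (nat_lit 1216) (nat_lit 0) (XT.nd (nat_lit 156) (nat_lit 760) (nat_lit 0) (XT.nd (nat_lit 78) (nat_lit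 0) (nat_lit 76) (XT.lf (nat_lit 76) (nat_lit 192051082296) (nat_lit 0) (nat_lit 211661212735) (nat_lit 836) (nat_lit 121398533701) (nat_lit 168) (nat_lit 5) (nat_lit 167) (nat_lit 5) (nat_lit 178) (nat_lit 5) (nat_lit 504) (nat_lit 495) (nat_lit 201)) (XT.lf (nat_lit 0) (nat_lit 454068565911) (nat_lit 760) (nat_lit 53527067142) (nat_lit 76) (nat_lit 31575683441) (nat_lit 168) (nat_lit 5) (nat_lit 178) (nat_lit 5) (nat_lit 169) (nat_lit 5) (nat_lit 505) (nat_lit 495) (nat_lit 200))) (XT.nd (nat_lit 78) (nat_lit 76) (nat_lit 0) (XT.lf (nat_lit 0) (nat_lit 244332543524) (nat_lit 760) (nat_lit 269894662859) (nat_lit 836) (nat_lit 39343394458) (nat_lit 158) (nat_lit 5) (nat_lit 168) (nat_lit 5) (nat_lit 169) (nat_lit 5) (nat_lit 506) (nat_lit 495) (nat_lit 199)) (XT.lf (nat_lit 0) (nat_lit 9346701562) (nat_lit 836) (nat_lit 9851818147) (nat_lit 76) (nat_lit 549438467452) (nat_lit 157) (nat_lit 5) (nat_lit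 168) (nat_lit 5) (nat_lit 158) (nat_lit 5) (nat_lit 507) (nat_lit 495) (nat_lit 198)))) (XT.nd (nat_lit 156) (nat_lit 380) (nat_lit 0) (XT.nd (nat_lit 78) (nat_lit 380) (nat_lit 0) (XT.lf (nat_lit 0) (nat_lit 67950986124) (nat_lit 532) (nat_lit 274174656202) (nat_lit 76) (nat_lit 241858707799) (nat_lit 151) (nat_lit 5) (nat_lit 158) (nat_lit 5) (nat_lit 152) (nat_lit 5) (nat_lit 508) (nat_lit 495) (nat_lit 197)) (XT.lf (nat_lit 0) (nat_lit 46888831918) (nat_lit 380) (nat_lit 83813015249) (nat_lit 456) (nat_lit 469336415959) (nat_lit 146) (nat_lit 5) (nat_lit 151) (nat_lit 5) (nat_lit 152) (nat_lit 5) (nat_lit 509) (nat_lit 495) (nat_lit 196))) (XT.nd (nat_lit 78) (nat_lit 380) (nat_lit 0) (XT.lf (nat_lit 0) (nat_lit 204235714587) (nat_lit 456) (nat_lit 226140699369) (nat_lit 76) (nat_lit 186136184655) (nat_lit 146) (nat_lit 5) (nat_lit 152) (nat_lit 5) (nat_lit 147) (nat_lit 5) (nat_lit 510) (nat_lit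 495) (nat_lit 195)) (XT.nd (nat_lit 78) (nat_lit 0) (nat_lit 0) (XT.lf (nat_lit 0) (nat_lit 119674812796) (nat_lit 380) (nat_lit 165013892633) (nat_lit 456) (nat_lit 348959823939) (nat_lit 141) (nat_lit 5) (nat_lit 146) (nat_lit 5) (nat_lit 147) (nat_lit 5) (nat_lit 511) (nat_lit 495) (nat_lit 194)) (XT.lf (nat_lit 0) (nat_lit 374830794948) (nat_lit 456) (nat_lit 162654245333) (nat_lit 76) (nat_lit 113872893927) (nat_lit 141) (nat_lit 5) (nat_lit 147) (nat_lit 5) (nat_lit 142) (nat_lit 5) (nat_lit 512) (nat_lit 495) (nat_lit 193))))))))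
noncomputable def xc486 : XT := (XT.nd (nat_lit 1248) (nat_lit 1520) (nat_lit 0) (XT.nd (nat_lit 624) (nat_lit 1292) (nat_lit 0) (XT.nd (nat_lit 312) (nat_lit 532) (nat_lit 0) (XT.nd (nat_lit 156) (nat_lit 684) (nat_lit 0) (XT.nd (nat_lit 78) (nat_lit 0) (nat_lit 0) (XT.lf (nat_lit 0) (nat_lit 210255530206) (nat_lit 304) (nat_lit 265212270557) (nat_lit 380) (nat_lit 194185617937) (nat_lit 137) (nat_lit 5) (nat_lit 141) (nat_lit 5) (nat_lit 142) (nat_lit 5) (nat_lit 513) (nat_lit 495) (nat_lit 192)) (XT.lf (nat_lit 0) (nat_lit 584259212601) (nat_lit 380) (nat_lit 81636116291) (nat_lit 76) (nat_lit 22812220738) (nat_lit 137) (nat_lit 5) (nat_lit 142) (nat_lit 5) (nat_lit 138) (nat_lit 5) (nat_lit 514) (nat_lit 495) (nat_lit 191))) (XT.nd (nat_lit 78) (nat_lit 380) (nat_lit 0) (XT.lf (nat_lit 0) (nat_lit 320938009792) (nat_lit 304) (nat_lit 386910658008) (nat_lit 380) (nat_lit 397795669) (nat_lit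 133) (nat_lit 5) (nat_lit 137) (nat_lit 5) (nat_lit 138) (nat_lit 5) (nat_lit 515) (nat_lit 495) (nat_lit 190)) (XT.lf (nat_lit 0) (nat_lit 16590658918) (nat_lit 304) (nat_lit 90444792835) (nat_lit 380) (nat_lit 621558683078) (nat_lit 128) (nat_lit 5) (nat_lit 132) (nat_lit 5) (nat_lit 133) (nat_lit 5) (nat_lit 516) (nat_lit 495) (nat_lit 189)))) (XT.nd (nat_lit 156) (nat_lit 228) (nat_lit 0) (XT.nd (nat_lit 78) (nat_lit 304) (nat_lit 0) (XT.lf (nat_lit 0) (nat_lit 229941766624) (nat_lit 380) (nat_lit 299062087990) (nat_lit 76) (nat_lit 220449270403) (nat_lit 128) (nat_lit 5) (nat_lit 133) (nat_lit 5) (nat_lit 129) (nat_lit 5) (nat_lit 517) (nat_lit 495) (nat_lit 188)) (XT.lf (nat_lit 0) (nat_lit 137442678897) (nat_lit 304) (nat_lit 225179275071) (nat_lit 380) (nat_lit 408551682909) (nat_lit 124) (nat_lit 5) (nat_lit 128) (nat_lit 5) (nat_lit 129) (nat_lit 5) (nat_lit 518) (nat_lit 495) (nat_lit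 187))) (XT.nd (nat_lit 78) (nat_lit 228) (nat_lit 0) (XT.lf (nat_lit 0) (nat_lit 508548982033) (nat_lit 380) (nat_lit 189119585108) (nat_lit 76) (nat_lit 95980965623) (nat_lit 124) (nat_lit 5) (nat_lit 129) (nat_lit 5) (nat_lit 125) (nat_lit 5) (nat_lit 519) (nat_lit 495) (nat_lit 186)) (XT.lf (nat_lit 0) (nat_lit 283091578751) (nat_lit 228) (nat_lit 386792089705) (nat_lit 304) (nat_lit 146959989641) (nat_lit 121) (nat_lit 5) (nat_lit 124) (nat_lit 5) (nat_lit 125) (nat_lit 5) (nat_lit 520) (nat_lit 495) (nat_lit 185))))) (XT.nd (nat_lit 312) (nat_lit 684) (nat_lit 0) (XT.nd (nat_lit 156) (nat_lit 228) (nat_lit 0) (XT.nd (nat_lit 78) (nat_lit 304) (nat_lit 0) (XT.lf (nat_lit 0) (nat_lit 1404136012) (nat_lit 304) (nat_lit 55580902566) (nat_lit 76) (nat_lit 784051177629) (nat_lit 120) (nat_lit 5) (nat_lit 124) (nat_lit 5) (nat_lit 121) (nat_lit 5) (nat_lit 521) (nat_lit 495) (nat_lit 184)) (XT.lf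 (nat_lit 0) (nat_lit 164084269269) (nat_lit 380) (nat_lit 411860450390) (nat_lit 76) (nat_lit 289781392522) (nat_lit 116) (nat_lit 5) (nat_lit 121) (nat_lit 5) (nat_lit 117) (nat_lit 5) (nat_lit 522) (nat_lit 495) (nat_lit 183))) (XT.nd (nat_lit 78) (nat_lit 0) (nat_lit 0) (XT.lf (nat_lit 0) (nat_lit 101406785531) (nat_lit 228) (nat_lit 236965760451) (nat_lit 304) (nat_lit 553104250134) (nat_lit 113) (nat_lit 5) (nat_lit 116) (nat_lit 5) (nat_lit 117) (nat_lit 5) (nat_lit 523) (nat_lit 495) (nat_lit 182)) (XT.lf (nat_lit 0) (nat_lit 530321961663) (nat_lit 304) (nat_lit 265501703506) (nat_lit 76) (nat_lit 122244012822) (nat_lit 113) (nat_lit 5) (nat_lit 117) (nat_lit 5) (nat_lit 114) (nat_lit 5) (nat_lit 524) (nat_lit 495) (nat_lit 181)))) (XT.nd (nat_lit 156) (nat_lit 456) (nat_lit 0) (XT.nd (nat_lit 78) (nat_lit 0) (nat_lit 0) (XT.lf (nat_lit 0) (nat_lit 290715018611) (nat_lit 228) (nat_lit 449577382127)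 (nat_lit 304) (nat_lit 205274525592) (nat_lit 110) (nat_lit 5) (nat_lit 113) (nat_lit 5) (nat_lit 114) (nat_lit 5) (nat_lit 525) (nat_lit 495) (nat_lit 180)) (XT.lf (nat_lit 0) (nat_lit 883960184788) (nat_lit 228) (nat_lit 81297568846) (nat_lit 304) (nat_lit 8958563859) (nat_lit 110) (nat_lit 5) (nat_lit 113) (nat_lit 5) (nat_lit 114) (nat_lit 5) (nat_lit 526) (nat_lit 495) (nat_lit 179))) (XT.nd (nat_lit 78) (nat_lit 228) (nat_lit 0) (XT.lf (nat_lit 0) (nat_lit 203869348613) (nat_lit 228) (nat_lit 492685648085) (nat_lit 76) (nat_lit 306938913894) (nat_lit 107) (nat_lit 5) (nat_lit 110) (nat_lit 5) (nat_lit 108) (nat_lit 5) (nat_lit 527) (nat_lit 495) (nat_lit 178)) (XT.lf (nat_lit 0) (nat_lit 113012848629) (nat_lit 228) (nat_lit 318675517512) (nat_lit 304) (nat_lit 602307135322) (nat_lit 104) (nat_lit 5) (nat_lit 107) (nat_lit 5) (nat_lit 108) (nat_lit 5) (nat_lit 528) (nat_lit 495) (nat_lit 177))))))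 (XT.nd (nat_lit 624) (nat_lit 684) (nat_lit 0) (XT.nd (nat_lit 312) (nat_lit 380) (nat_lit 0) (XT.nd (nat_lit 156) (nat_lit 304) (nat_lit 0) (XT.nd (nat_lit 78) (nat_lit 152) (nat_lit 0) (XT.lf (nat_lit 0) (nat_lit 680598309350) (nat_lit 304) (nat_lit 300859899046) (nat_lit 76) (nat_lit 84078964743) (nat_lit 104) (nat_lit 5) (nat_lit 108) (nat_lit 5) (nat_lit 105) (nat_lit 5) (nat_lit 529) (nat_lit 495) (nat_lit 176)) (XT.lf (nat_lit 0) (nat_lit 356453531653) (nat_lit 152) (nat_lit 596289638380) (nat_lit 228) (nat_lit 145373287351) (nat_lit 102) (nat_lit 5) (nat_lit 104) (nat_lit 5) (nat_lit 105) (nat_lit 5) (nat_lit 530) (nat_lit 495) (nat_lit 175))) (XT.nd (nat_lit 78) (nat_lit 228) (nat_lit 0) (XT.lf (nat_lit 0) (nat_lit 107951175624) (nat_lit 228) (nat_lit 76733294456) (nat_lit 76) (nat_lit 947298418309) (nat_lit 101) (nat_lit 5) (nat_lit 104) (nat_lit 5) (nat_lit 102) (nat_lit 5) (nat_lit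 531) (nat_lit 495) (nat_lit 174)) (XT.lf (nat_lit 0) (nat_lit 383108129834) (nat_lit 304) (nat_lit 531462632258) (nat_lit 76) (nat_lit 252150132229) (nat_lit 98) (nat_lit 5) (nat_lit 102) (nat_lit 5) (nat_lit 99) (nat_lit 5) (nat_lit 532) (nat_lit 495) (nat_lit 173)))) (XT.nd (nat_lit 156) (nat_lit 228) (nat_lit 0) (XT.nd (nat_lit 78) (nat_lit 0) (nat_lit 0) (XT.lf (nat_lit 0) (nat_lit 185263230215) (nat_lit 152) (nat_lit 494000606427) (nat_lit 228) (nat_lit 523569918664) (nat_lit 96) (nat_lit 5) (nat_lit 98) (nat_lit 5) (nat_lit 99) (nat_lit 5) (nat_lit 533) (nat_lit 495) (nat_lit 172)) (XT.lf (nat_lit 0) (nat_lit 956276557807) (nat_lit 152) (nat_lit 42951341370) (nat_lit 228) (nat_lit 241074331645) (nat_lit 96) (nat_lit 5) (nat_lit 98) (nat_lit 5) (nat_lit 99) (nat_lit 5) (nat_lit 534) (nat_lit 495) (nat_lit 171))) (XT.nd (nat_lit 78) (nat_lit 0) (nat_lit 0) (XT.lf (nat_lit 0) (nat_lit 68462300824)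 (nat_lit 228) (nat_lit 784699220037) (nat_lit 76) (nat_lit 425704543483) (nat_lit 93) (nat_lit 5) (nat_lit 96) (nat_lit 5) (nat_lit 94) (nat_lit 5) (nat_lit 535) (nat_lit 495) (nat_lit 170)) (XT.lf (nat_lit 0) (nat_lit 390967167246) (nat_lit 228) (nat_lit 2722889595) (nat_lit 76) (nat_lit 925190776757) (nat_lit 93) (nat_lit 5) (nat_lit 96) (nat_lit 5) (nat_lit 94) (nat_lit 5) (nat_lit 536) (nat_lit 495) (nat_lit 169))))) (XT.nd (nat_lit 312) (nat_lit 152) (nat_lit 0) (XT.nd (nat_lit 156) (nat_lit 228) (nat_lit 0) (XT.nd (nat_lit 78) (nat_lit 152) (nat_lit 0) (XT.lf (nat_lit 0) (nat_lit 744398595649) (nat_lit 228) (nat_lit 516427806211) (nat_lit 76) (nat_lit 99329873522) (nat_lit 91) (nat_lit 5) (nat_lit 94) (nat_lit 5) (nat_lit 92) (nat_lit 5) (nat_lit 537) (nat_lit 495) (nat_lit 168)) (XT.lf (nat_lit 0) (nat_lit 333317278181) (nat_lit 152) (nat_lit 793889133088) (nat_lit 228) (nat_lit 275703837196)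 (nat_lit 89) (nat_lit 5) (nat_lit 91) (nat_lit 5) (nat_lit 92) (nat_lit 5) (nat_lit 538) (nat_lit 495) (nat_lit 167))) (XT.nd (nat_lit 78) (nat_lit 152) (nat_lit 0) (XT.lf (nat_lit 0) (nat_lit 87638228407) (nat_lit 228) (nat_lit 205299328187) (nat_lit 76) (nat_lit 1154356390162) (nat_lit 88) (nat_lit 5) (nat_lit 91) (nat_lit 5) (nat_lit 89) (nat_lit 5) (nat_lit 539) (nat_lit 495) (nat_lit 166)) (XT.lf (nat_lit 0) (nat_lit 475032302348) (nat_lit 228) (nat_lit 776247496753) (nat_lit 76) (nat_lit 241633526015) (nat_lit 86) (nat_lit 5) (nat_lit 89) (nat_lit 5) (nat_lit 87) (nat_lit 5) (nat_lit 540) (nat_lit 495) (nat_lit 165)))) (XT.nd (nat_lit 59046) (nat_lit 0) (nat_lit 6004) (XT.nd (nat_lit 58968) (nat_lit 0) (nat_lit 6004) (XT.lf (nat_lit 0) (nat_lit 151196925516) (nat_lit 152) (nat_lit 741295852684) (nat_lit 228) (nat_lit 647786059284) (nat_lit 84) (nat_lit 5) (nat_lit 86) (nat_lit 5) (nat_lit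 87) (nat_lit 5) (nat_lit 541) (nat_lit 495) (nat_lit 164)) (XT.lf (nat_lit 0) (nat_lit 97276297858) (nat_lit 836) (nat_lit 61138412582) (nat_lit 836) (nat_lit 61138412582) (nat_lit 163) (nat_lit 3) (nat_lit 174) (nat_lit 3) (nat_lit 174) (nat_lit 5) (nat_lit 496) (nat_lit 496) (nat_lit 208))) (XT.nd (nat_lit 78) (nat_lit 0) (nat_lit 76) (XT.lf (nat_lit 76) (nat_lit 99573728942) (nat_lit 0) (nat_lit 101397640478) (nat_lit 836) (nat_lit 249034784810) (nat_lit 164) (nat_lit 5) (nat_lit 163) (nat_lit 3) (nat_lit 174) (nat_lit 5) (nat_lit 497) (nat_lit 496) (nat_lit 207)) (XT.nd (nat_lit 78) (nat_lit 0) (nat_lit 0) (XT.lf (nat_lit 0) (nat_lit 211764392633) (nat_lit 760) (nat_lit 126568058794) (nat_lit 836) (nat_lit 122915940856) (nat_lit 164) (nat_lit 5) (nat_lit 174) (nat_lit 5) (nat_lit 175) (nat_lit 5) (nat_lit 498) (nat_lit 496) (nat_lit 206)) (XT.lf (nat_lit 76) (nat_lit 110359448982) (nat_lit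 0) (nat_lit 116122874330) (nat_lit 836) (nat_lit 246401156115) (nat_lit 165) (nat_lit 5) (nat_lit 164) (nat_lit 5) (nat_lit 175) (nat_lit 5) (nat_lit 499) (nat_lit 496) (nat_lit 205))))))))
noncomputable def xc487 : XT := (XT.nd (nat_lit 1248) (nat_lit 2736) (nat_lit 0) (XT.nd (nat_lit 624) (nat_lit 1596) (nat_lit 0) (XT.nd (nat_lit 312) (nat_lit 532) (nat_lit 0) (XT.nd (nat_lit 156) (nat_lit 0) (nat_lit 76) (XT.nd (nat_lit 78) (nat_lit 0) (nat_lit 0) (XT.lf (nat_lit 0) (nat_lit 245944538020) (nat_lit 760) (nat_lit 123330585781) (nat_lit 836) (nat_lit 115624777753) (nat_lit 165) (nat_lit 5) (nat_lit 175) (nat_lit 5) (nat_lit 176) (nat_lit 5) (nat_lit 500) (nat_lit 496) (nat_lit 204)) (XT.lf (nat_lit 76) (nat_lit 130082311286) (nat_lit 0) (nat_lit 140232136740) (nat_lit 836) (nat_lit 227005967535) (nat_lit 166) (nat_lit 5) (nat_lit 165) (nat_lit 5) (nat_lit 176) (nat_lit 5) (nat_lit 501) (nat_lit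 496) (nat_lit 203))) (XT.nd (nat_lit 78) (nat_lit 0) (nat_lit 0) (XT.lf (nat_lit 0) (nat_lit 299591125700) (nat_lit 760) (nat_lit 111409549519) (nat_lit 836) (nat_lit 99176866442) (nat_lit 166) (nat_lit 5) (nat_lit 176) (nat_lit 5) (nat_lit 177) (nat_lit 5) (nat_lit 502) (nat_lit 496) (nat_lit 202)) (XT.lf (nat_lit 76) (nat_lit 160033607723) (nat_lit 0) (nat_lit 175095473208) (nat_lit 836) (nat_lit 188308570954) (nat_lit 167) (nat_lit 5) (nat_lit 166) (nat_lit 5) (nat_lit 177) (nat_lit 5) (nat_lit 503) (nat_lit 496) (nat_lit 201)))) (XT.nd (nat_lit 156) (nat_lit 684) (nat_lit 0) (XT.nd (nat_lit 78) (nat_lit 0) (nat_lit 0) (XT.lf (nat_lit 0) (nat_lit 375495190386) (nat_lit 760) (nat_lit 89514129469) (nat_lit 836) (nat_lit 72198884943) (nat_lit 167) (nat_lit 5) (nat_lit 177) (nat_lit 5) (nat_lit 178) (nat_lit 5) (nat_lit 504) (nat_lit 496) (nat_lit 200)) (XT.lf (nat_lit 76) (nat_lit 201654039296)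 (nat_lit 0) (nat_lit 222244352819) (nat_lit 836) (nat_lit 127467953901) (nat_lit 168) (nat_lit 5) (nat_lit 167) (nat_lit 5) (nat_lit 178) (nat_lit 5) (nat_lit 505) (nat_lit 496) (nat_lit 199))) (XT.nd (nat_lit 78) (nat_lit 760) (nat_lit 0) (XT.lf (nat_lit 0) (nat_lit 476772452390) (nat_lit 760) (nat_lit 56203012615) (nat_lit 76) (nat_lit 33154394371) (nat_lit 168) (nat_lit 5) (nat_lit 178) (nat_lit 5) (nat_lit 169) (nat_lit 5) (nat_lit 506) (nat_lit 496) (nat_lit 198)) (XT.lf (nat_lit 0) (nat_lit 256549572007) (nat_lit 760) (nat_lit 283389437327) (nat_lit 836) (nat_lit 41310099386) (nat_lit 158) (nat_lit 5) (nat_lit 168) (nat_lit 5) (nat_lit 169) (nat_lit 5) (nat_lit 507) (nat_lit 496) (nat_lit 197))))) (XT.nd (nat_lit 312) (nat_lit 684) (nat_lit 0) (XT.nd (nat_lit 156) (nat_lit 380) (nat_lit 0) (XT.nd (nat_lit 78) (nat_lit 456) (nat_lit 0) (XT.lf (nat_lit 0) (nat_lit 9814465134) (nat_lit 836)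 (nat_lit 10344012661) (nat_lit 76) (nat_lit 576910337271) (nat_lit 157) (nat_lit 5) (nat_lit 168) (nat_lit 5) (nat_lit 158) (nat_lit 5) (nat_lit 508) (nat_lit 496) (nat_lit 196)) (XT.lf (nat_lit 0) (nat_lit 71348949231) (nat_lit 532) (nat_lit 287882977897) (nat_lit 76) (nat_lit 253951619785) (nat_lit 151) (nat_lit 5) (nat_lit 158) (nat_lit 5) (nat_lit 152) (nat_lit 5) (nat_lit 509) (nat_lit 496) (nat_lit 195))) (XT.nd (nat_lit 78) (nat_lit 0) (nat_lit 0) (XT.lf (nat_lit 0) (nat_lit 49233677998) (nat_lit 380) (nat_lit 88003661938) (nat_lit 456) (nat_lit 492802816299) (nat_lit 146) (nat_lit 5) (nat_lit 151) (nat_lit 5) (nat_lit 152) (nat_lit 5) (nat_lit 510) (nat_lit 496) (nat_lit 194)) (XT.lf (nat_lit 0) (nat_lit 214447881721) (nat_lit 456) (nat_lit 237447330083) (nat_lit 76) (nat_lit 195442997642) (nat_lit 146) (nat_lit 5) (nat_lit 152) (nat_lit 5) (nat_lit 147) (nat_lit 5) (nat_lit 511) (nat_lit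 496) (nat_lit 193)))) (XT.nd (nat_lit 156) (nat_lit 304) (nat_lit 0) (XT.nd (nat_lit 78) (nat_lit 0) (nat_lit 0) (XT.lf (nat_lit 0) (nat_lit 125658951171) (nat_lit 380) (nat_lit 173264558982) (nat_lit 456) (nat_lit 366407427187) (nat_lit 141) (nat_lit 5) (nat_lit 146) (nat_lit 5) (nat_lit 147) (nat_lit 5) (nat_lit 512) (nat_lit 496) (nat_lit 192)) (XT.lf (nat_lit 0) (nat_lit 393572686975) (nat_lit 456) (nat_lit 170786561609) (nat_lit 76) (nat_lit 119566564698) (nat_lit 141) (nat_lit 5) (nat_lit 147) (nat_lit 5) (nat_lit 142) (nat_lit 5) (nat_lit 513) (nat_lit 496) (nat_lit 191))) (XT.nd (nat_lit 78) (nat_lit 0) (nat_lit 0) (XT.lf (nat_lit 0) (nat_lit 220768696320) (nat_lit 304) (nat_lit 278472836069) (nat_lit 380) (nat_lit 203894540145) (nat_lit 137) (nat_lit 5) (nat_lit 141) (nat_lit 5) (nat_lit 142) (nat_lit 5) (nat_lit 514) (nat_lit 496) (nat_lit 190)) (XT.lf (nat_lit 0) (nat_lit 613472499266)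 (nat_lit 380) (nat_lit 85717535481) (nat_lit 76) (nat_lit 23952876042) (nat_lit 137) (nat_lit 5) (nat_lit 142) (nat_lit 5) (nat_lit 138) (nat_lit 5) (nat_lit 515) (nat_lit 496) (nat_lit 189)))))) (XT.nd (nat_lit 624) (nat_lit 1140) (nat_lit 0) (XT.nd (nat_lit 312) (nat_lit 608) (nat_lit 0) (XT.nd (nat_lit 156) (nat_lit 304) (nat_lit 0) (XT.nd (nat_lit 78) (nat_lit 380) (nat_lit 0) (XT.lf (nat_lit 0) (nat_lit 336985290670) (nat_lit 304) (nat_lit 406256126969) (nat_lit 380) (nat_lit 417353162) (nat_lit 133) (nat_lit 5) (nat_lit 137) (nat_lit 5) (nat_lit 138) (nat_lit 5) (nat_lit 516) (nat_lit 496) (nat_lit 188)) (XT.lf (nat_lit 0) (nat_lit 17420576599) (nat_lit 304) (nat_lit 94966960087) (nat_lit 380) (nat_lit 652636289251) (nat_lit 128) (nat_lit 5) (nat_lit 132) (nat_lit 5) (nat_lit 133) (nat_lit 5) (nat_lit 517) (nat_lit 496) (nat_lit 187))) (XT.nd (nat_lit 78) (nat_lit 304) (nat_lit 0) (XT.lf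 (nat_lit 0) (nat_lit 241439153504) (nat_lit 380) (nat_lit 314014812160) (nat_lit 76) (nat_lit 231471800660) (nat_lit 128) (nat_lit 5) (nat_lit 133) (nat_lit 5) (nat_lit 129) (nat_lit 5) (nat_lit 518) (nat_lit 496) (nat_lit 186)) (XT.lf (nat_lit 0) (nat_lit 144315186939) (nat_lit 304) (nat_lit 236438154901) (nat_lit 380) (nat_lit 428978962357) (nat_lit 124) (nat_lit 5) (nat_lit 128) (nat_lit 5) (nat_lit 129) (nat_lit 5) (nat_lit 519) (nat_lit 496) (nat_lit 185)))) (XT.nd (nat_lit 156) (nat_lit 380) (nat_lit 0) (XT.nd (nat_lit 78) (nat_lit 228) (nat_lit 0) (XT.lf (nat_lit 0) (nat_lit 533976708738) (nat_lit 380) (nat_lit 198575195495) (nat_lit 76) (nat_lit 100780091274) (nat_lit 124) (nat_lit 5) (nat_lit 129) (nat_lit 5) (nat_lit 125) (nat_lit 5) (nat_lit 520) (nat_lit 496) (nat_lit 184)) (XT.lf (nat_lit 0) (nat_lit 297246520607) (nat_lit 228) (nat_lit 406131601322) (nat_lit 304) (nat_lit 154307705556)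 (nat_lit 121) (nat_lit 5) (nat_lit 124) (nat_lit 5) (nat_lit 125) (nat_lit 5) (nat_lit 521) (nat_lit 496) (nat_lit 183))) (XT.nd (nat_lit 78) (nat_lit 304) (nat_lit 0) (XT.lf (nat_lit 0) (nat_lit 1474604233) (nat_lit 304) (nat_lit 58359593400) (nat_lit 76) (nat_lit 823253816300) (nat_lit 120) (nat_lit 5) (nat_lit 124) (nat_lit 5) (nat_lit 121) (nat_lit 5) (nat_lit 522) (nat_lit 496) (nat_lit 182)) (XT.lf (nat_lit 0) (nat_lit 172288738617) (nat_lit 380) (nat_lit 432453113066) (nat_lit 76) (nat_lit 304270553300) (nat_lit 116) (nat_lit 5) (nat_lit 121) (nat_lit 5) (nat_lit 117) (nat_lit 5) (nat_lit 523) (nat_lit 496) (nat_lit 181))))) (XT.nd (nat_lit 312) (nat_lit 684) (nat_lit 0) (XT.nd (nat_lit 156) (nat_lit 228) (nat_lit 0) (XT.nd (nat_lit 78) (nat_lit 0) (nat_lit 0) (XT.lf (nat_lit 0) (nat_lit 106477478847) (nat_lit 228) (nat_lit 248813943661) (nat_lit 304) (nat_lit 580759200940) (nat_lit 113)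 (nat_lit 5) (nat_lit 116) (nat_lit 5) (nat_lit 117) (nat_lit 5) (nat_lit 524) (nat_lit 496) (nat_lit 180)) (XT.lf (nat_lit 0) (nat_lit 556838298664) (nat_lit 304) (nat_lit 278776441180) (nat_lit 76) (nat_lit 128356310089) (nat_lit 113) (nat_lit 5) (nat_lit 117) (nat_lit 5) (nat_lit 114) (nat_lit 5) (nat_lit 525) (nat_lit 496) (nat_lit 179))) (XT.nd (nat_lit 78) (nat_lit 0) (nat_lit 0) (XT.lf (nat_lit 0) (nat_lit 305251111438) (nat_lit 228) (nat_lit 472056142215) (nat_lit 304) (nat_lit 215538007338) (nat_lit 110) (nat_lit 5) (nat_lit 113) (nat_lit 5) (nat_lit 114) (nat_lit 5) (nat_lit 526) (nat_lit 496) (nat_lit 178)) (XT.lf (nat_lit 0) (nat_lit 928158519644) (nat_lit 228) (nat_lit 85362343461) (nat_lit 304) (nat_lit 9406259163) (nat_lit 110) (nat_lit 5) (nat_lit 113) (nat_lit 5) (nat_lit 114) (nat_lit 5) (nat_lit 527) (nat_lit 496) (nat_lit 177)))) (XT.nd (nat_lit 156) (nat_lit 228) (nat_lit 0)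 (XT.nd (nat_lit 78) (nat_lit 228) (nat_lit 0) (XT.lf (nat_lit 0) (nat_lit 214063037544) (nat_lit 228) (nat_lit 517319593465) (nat_lit 76) (nat_lit 322285964027) (nat_lit 107) (nat_lit 5) (nat_lit 110) (nat_lit 5) (nat_lit 108) (nat_lit 5) (nat_lit 528) (nat_lit 496) (nat_lit 176)) (XT.lf (nat_lit 0) (nat_lit 118663822649) (nat_lit 228) (nat_lit 334609177930) (nat_lit 304) (nat_lit 632422265142) (nat_lit 104) (nat_lit 5) (nat_lit 107) (nat_lit 5) (nat_lit 108) (nat_lit 5) (nat_lit 529) (nat_lit 496) (nat_lit 175))) (XT.nd (nat_lit 78) (nat_lit 228) (nat_lit 0) (XT.lf (nat_lit 0) (nat_lit 714628432373) (nat_lit 304) (nat_lit 315902569617) (nat_lit 76) (nat_lit 88283019421) (nat_lit 104) (nat_lit 5) (nat_lit 108) (nat_lit 5) (nat_lit 105) (nat_lit 5) (nat_lit 530) (nat_lit 496) (nat_lit 174)) (XT.nd (nat_lit 78) (nat_lit 76) (nat_lit 0) (XT.lf (nat_lit 0) (nat_lit 374276527386) (nat_lit 152) (nat_lit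 626104003804) (nat_lit 228) (nat_lit 152641738923) (nat_lit 102) (nat_lit 5) (nat_lit 104) (nat_lit 5) (nat_lit 105) (nat_lit 5) (nat_lit 531) (nat_lit 496) (nat_lit 173)) (XT.lf (nat_lit 0) (nat_lit 113348930581) (nat_lit 228) (nat_lit 80569648733) (nat_lit 76) (nat_lit 994663443679) (nat_lit 101) (nat_lit 5) (nat_lit 104) (nat_lit 5) (nat_lit 102) (nat_lit 5) (nat_lit 532) (nat_lit 496) (nat_lit 172))))))))
noncomputable def xc488 : XT := (XT.nd (nat_lit 60216) (nat_lit 0) (nat_lit 3192) (XT.nd (nat_lit 624) (nat_lit 152) (nat_lit 0) (XT.nd (nat_lit 312) (nat_lit 380) (nat_lit 0) (XT.nd (nat_lit 156) (nat_lit 228) (nat_lit 0) (XT.nd (nat_lit 78) (nat_lit 152) (nat_lit 0) (XT.lf (nat_lit 0) (nat_lit 402263729706) (nat_lit 304) (nat_lit 558035450622) (nat_lit 76) (nat_lit 264757749034) (nat_lit 98) (nat_lit 5) (nat_lit 102) (nat_lit 5) (nat_lit 99) (nat_lit 5) (nat_lit 533) (nat_lit 496) (nat_lit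 171)) (XT.lf (nat_lit 0) (nat_lit 194526699923) (nat_lit 152) (nat_lit 518700517536) (nat_lit 228) (nat_lit 549748216158) (nat_lit 96) (nat_lit 5) (nat_lit 98) (nat_lit 5) (nat_lit 99) (nat_lit 5) (nat_lit 534) (nat_lit 496) (nat_lit 170))) (XT.nd (nat_lit 78) (nat_lit 228) (nat_lit 0) (XT.lf (nat_lit 0) (nat_lit 1004090679218) (nat_lit 152) (nat_lit 45098794902) (nat_lit 228) (nat_lit 253127859237) (nat_lit 96) (nat_lit 5) (nat_lit 98) (nat_lit 5) (nat_lit 99) (nat_lit 5) (nat_lit 535) (nat_lit 496) (nat_lit 169)) (XT.lf (nat_lit 0) (nat_lit 71885596507) (nat_lit 228) (nat_lit 823933879158) (nat_lit 76) (nat_lit 446989882860) (nat_lit 93) (nat_lit 5) (nat_lit 96) (nat_lit 5) (nat_lit 94) (nat_lit 5) (nat_lit 536) (nat_lit 496) (nat_lit 168)))) (XT.nd (nat_lit 156) (nat_lit 228) (nat_lit 0) (XT.nd (nat_lit 78) (nat_lit 152) (nat_lit 0) (XT.lf (nat_lit 0) (nat_lit 410515697648) (nat_lit 228) (nat_lit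 2858746568) (nat_lit 76) (nat_lit 971450422455) (nat_lit 93) (nat_lit 5) (nat_lit 96) (nat_lit 5) (nat_lit 94) (nat_lit 5) (nat_lit 537) (nat_lit 496) (nat_lit 167)) (XT.lf (nat_lit 0) (nat_lit 781618695484) (nat_lit 228) (nat_lit 542248907023) (nat_lit 76) (nat_lit 104296478136) (nat_lit 91) (nat_lit 5) (nat_lit 94) (nat_lit 5) (nat_lit 92) (nat_lit 5) (nat_lit 538) (nat_lit 496) (nat_lit 166))) (XT.nd (nat_lit 78) (nat_lit 76) (nat_lit 0) (XT.lf (nat_lit 0) (nat_lit 349983426919) (nat_lit 152) (nat_lit 833583471315) (nat_lit 228) (nat_lit 289488854329) (nat_lit 89) (nat_lit 5) (nat_lit 91) (nat_lit 5) (nat_lit 92) (nat_lit 5) (nat_lit 539) (nat_lit 496) (nat_lit 165)) (XT.lf (nat_lit 0) (nat_lit 92020300908) (nat_lit 228) (nat_lit 215564018000) (nat_lit 76) (nat_lit 1212074317127) (nat_lit 88) (nat_lit 5) (nat_lit 91) (nat_lit 5) (nat_lit 89) (nat_lit 5) (nat_lit 540) (nat_lit 496) (nat_lit 164)))))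 (XT.nd (nat_lit 59280) (nat_lit 0) (nat_lit 5928) (XT.nd (nat_lit 59124) (nat_lit 0) (nat_lit 5852) (XT.nd (nat_lit 59046) (nat_lit 0) (nat_lit 5852) (XT.lf (nat_lit 0) (nat_lit 498784076912) (nat_lit 228) (nat_lit 815059593355) (nat_lit 76) (nat_lit 253715313128) (nat_lit 86) (nat_lit 5) (nat_lit 89) (nat_lit 5) (nat_lit 87) (nat_lit 5) (nat_lit 541) (nat_lit 496) (nat_lit 163)) (XT.lf (nat_lit 0) (nat_lit 102140441386) (nat_lit 836) (nat_lit 64195160665) (nat_lit 836) (nat_lit 64195160665) (nat_lit 163) (nat_lit 3) (nat_lit 174) (nat_lit 3) (nat_lit 174) (nat_lit 5) (nat_lit 497) (nat_lit 497) (nat_lit 206))) (XT.nd (nat_lit 78) (nat_lit 0) (nat_lit 76) (XT.lf (nat_lit 76) (nat_lit 104552754915) (nat_lit 0) (nat_lit 106467814248) (nat_lit 836) (nat_lit 261485861165) (nat_lit 164) (nat_lit 5) (nat_lit 163) (nat_lit 3) (nat_lit 174) (nat_lit 5) (nat_lit 498) (nat_lit 497) (nat_lit 205)) (XT.lf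 (nat_lit 0) (nat_lit 222353209139) (nat_lit 760) (nat_lit 132896103931) (nat_lit 836) (nat_lit 129061468938) (nat_lit 164) (nat_lit 5) (nat_lit 174) (nat_lit 5) (nat_lit 175) (nat_lit 5) (nat_lit 499) (nat_lit 497) (nat_lit 204)))) (XT.nd (nat_lit 156) (nat_lit 0) (nat_lit 76) (XT.nd (nat_lit 78) (nat_lit 0) (nat_lit 76) (XT.lf (nat_lit 76) (nat_lit 115877773463) (nat_lit 0) (nat_lit 121929239962) (nat_lit 836) (nat_lit 258720611232) (nat_lit 165) (nat_lit 5) (nat_lit 164) (nat_lit 5) (nat_lit 175) (nat_lit 5) (nat_lit 500) (nat_lit 497) (nat_lit 203)) (XT.lf (nat_lit 0) (nat_lit 258242308238) (nat_lit 760) (nat_lit 129496749129) (nat_lit 836) (nat_lit 121405812057) (nat_lit 165) (nat_lit 5) (nat_lit 175) (nat_lit 5) (nat_lit 176) (nat_lit 5) (nat_lit 501) (nat_lit 497) (nat_lit 202))) (XT.nd (nat_lit 78) (nat_lit 0) (nat_lit 76) (XT.lf (nat_lit 76) (nat_lit 136586786889) (nat_lit 0) (nat_lit 147243906605)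 (nat_lit 836) (nat_lit 238355716653) (nat_lit 166) (nat_lit 5) (nat_lit 165) (nat_lit 5) (nat_lit 176) (nat_lit 5) (nat_lit 502) (nat_lit 497) (nat_lit 201)) (XT.lf (nat_lit 0) (nat_lit 314571177720) (nat_lit 760) (nat_lit 116979656731) (nat_lit 836) (nat_lit 104135559470) (nat_lit 166) (nat_lit 5) (nat_lit 176) (nat_lit 5) (nat_lit 177) (nat_lit 5) (nat_lit 503) (nat_lit 497) (nat_lit 200)))))) (XT.nd (nat_lit 624) (nat_lit 1368) (nat_lit 0) (XT.nd (nat_lit 312) (nat_lit 1520) (nat_lit 0) (XT.nd (nat_lit 156) (nat_lit 0) (nat_lit 76) (XT.nd (nat_lit 78) (nat_lit 0) (nat_lit 76) (XT.lf (nat_lit 76) (nat_lit 168035652401) (nat_lit 0) (nat_lit 183850360392) (nat_lit 836) (nat_lit 197723497759) (nat_lit 167) (nat_lit 5) (nat_lit 166) (nat_lit 5) (nat_lit 177) (nat_lit 5) (nat_lit 504) (nat_lit 497) (nat_lit 199)) (XT.lf (nat_lit 0) (nat_lit 394270403279) (nat_lit 760) (nat_lit 93989464522) (nat_lit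 836) (nat_lit 75808724533) (nat_lit 167) (nat_lit 5) (nat_lit 177) (nat_lit 5) (nat_lit 178) (nat_lit 5) (nat_lit 505) (nat_lit 497) (nat_lit 198))) (XT.nd (nat_lit 78) (nat_lit 0) (nat_lit 76) (XT.lf (nat_lit 76) (nat_lit 211737106691) (nat_lit 0) (nat_lit 233356642521) (nat_lit 836) (nat_lit 133840892198) (nat_lit 168) (nat_lit 5) (nat_lit 167) (nat_lit 5) (nat_lit 178) (nat_lit 5) (nat_lit 506) (nat_lit 497) (nat_lit 197)) (XT.lf (nat_lit 0) (nat_lit 500611490595) (nat_lit 760) (nat_lit 59012793282) (nat_lit 76) (nat_lit 34812047656) (nat_lit 168) (nat_lit 5) (nat_lit 178) (nat_lit 5) (nat_lit 169) (nat_lit 5) (nat_lit 507) (nat_lit 497) (nat_lit 196)))) (XT.nd (nat_lit 156) (nat_lit 836) (nat_lit 0) (XT.nd (nat_lit 78) (nat_lit 76) (nat_lit 0) (XT.lf (nat_lit 0) (nat_lit 269377414603) (nat_lit 760) (nat_lit 297558946676) (nat_lit 836) (nat_lit 43375182772) (nat_lit 158) (nat_lit 5) (nat_lit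 168) (nat_lit 5) (nat_lit 169) (nat_lit 5) (nat_lit 508) (nat_lit 497) (nat_lit 195)) (XT.lf (nat_lit 0) (nat_lit 10305577047) (nat_lit 836) (nat_lit 10860853753) (nat_lit 76) (nat_lit 605755805559) (nat_lit 157) (nat_lit 5) (nat_lit 168) (nat_lit 5) (nat_lit 158) (nat_lit 5) (nat_lit 509) (nat_lit 497) (nat_lit 194))) (XT.nd (nat_lit 78) (nat_lit 380) (nat_lit 0) (XT.lf (nat_lit 0) (nat_lit 74916772022) (nat_lit 532) (nat_lit 302276753899) (nat_lit 76) (nat_lit 266649179546) (nat_lit 151) (nat_lit 5) (nat_lit 158) (nat_lit 5) (nat_lit 152) (nat_lit 5) (nat_lit 510) (nat_lit 497) (nat_lit 193)) (XT.lf (nat_lit 0) (nat_lit 51695728777) (nat_lit 380) (nat_lit 92403841341) (nat_lit 456) (nat_lit 517442575745) (nat_lit 146) (nat_lit 5) (nat_lit 151) (nat_lit 5) (nat_lit 152) (nat_lit 5) (nat_lit 511) (nat_lit 497) (nat_lit 192))))) (XT.nd (nat_lit 312) (nat_lit 684) (nat_lit 0) (XT.nd (nat_lit 156)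 (nat_lit 304) (nat_lit 0) (XT.nd (nat_lit 78) (nat_lit 380) (nat_lit 0) (XT.lf (nat_lit 0) (nat_lit 225170621753) (nat_lit 456) (nat_lit 249319329915) (nat_lit 76) (nat_lit 205215150930) (nat_lit 146) (nat_lit 5) (nat_lit 152) (nat_lit 5) (nat_lit 147) (nat_lit 5) (nat_lit 512) (nat_lit 497) (nat_lit 191)) (XT.lf (nat_lit 0) (nat_lit 131942259487) (nat_lit 380) (nat_lit 181927761278) (nat_lit 456) (nat_lit 384727446665) (nat_lit 141) (nat_lit 5) (nat_lit 146) (nat_lit 5) (nat_lit 147) (nat_lit 5) (nat_lit 513) (nat_lit 497) (nat_lit 190))) (XT.nd (nat_lit 78) (nat_lit 304) (nat_lit 0) (XT.lf (nat_lit 0) (nat_lit 413251640852) (nat_lit 456) (nat_lit 179325530514) (nat_lit 76) (nat_lit 125544916582) (nat_lit 141) (nat_lit 5) (nat_lit 147) (nat_lit 5) (nat_lit 142) (nat_lit 5) (nat_lit 514) (nat_lit 497) (nat_lit 189)) (XT.lf (nat_lit 0) (nat_lit 231807484518) (nat_lit 304) (nat_lit 292396434320)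 (nat_lit 380) (nat_lit 214088941811) (nat_lit 137) (nat_lit 5) (nat_lit 141) (nat_lit 5) (nat_lit 142) (nat_lit 5) (nat_lit 515) (nat_lit 497) (nat_lit 188)))) (XT.nd (nat_lit 156) (nat_lit 380) (nat_lit 0) (XT.nd (nat_lit 78) (nat_lit 304) (nat_lit 0) (XT.lf (nat_lit 0) (nat_lit 644146419953) (nat_lit 380) (nat_lit 90003061576) (nat_lit 76) (nat_lit 25150559995) (nat_lit 137) (nat_lit 5) (nat_lit 142) (nat_lit 5) (nat_lit 138) (nat_lit 5) (nat_lit 516) (nat_lit 497) (nat_lit 187)) (XT.lf (nat_lit 0) (nat_lit 353834900228) (nat_lit 304) (nat_lit 426568875322) (nat_lit 380) (nat_lit 437919422) (nat_lit 133) (nat_lit 5) (nat_lit 137) (nat_lit 5) (nat_lit 138) (nat_lit 5) (nat_lit 517) (nat_lit 497) (nat_lit 186))) (XT.nd (nat_lit 78) (nat_lit 0) (nat_lit 0) (XT.lf (nat_lit 0) (nat_lit 18291954396) (nat_lit 304) (nat_lit 99715242431) (nat_lit 380) (nat_lit 685267806225) (nat_lit 128) (nat_lit 5) (nat_lit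 132) (nat_lit 5) (nat_lit 133) (nat_lit 5) (nat_lit 518) (nat_lit 497) (nat_lit 185)) (XT.lf (nat_lit 0) (nat_lit 253511381972) (nat_lit 380) (nat_lit 329715207888) (nat_lit 76) (nat_lit 243045451225) (nat_lit 128) (nat_lit 5) (nat_lit 133) (nat_lit 5) (nat_lit 129) (nat_lit 5) (nat_lit 519) (nat_lit 497) (nat_lit 184)))))))
noncomputable def xc489 : XT := (XT.nd (nat_lit 1248) (nat_lit 608) (nat_lit 0) (XT.nd (nat_lit 624) (nat_lit 1064) (nat_lit 0) (XT.nd (nat_lit 312) (nat_lit 760) (nat_lit 0) (XT.nd (nat_lit 156) (nat_lit 304) (nat_lit 0) (XT.nd (nat_lit 78) (nat_lit 0) (nat_lit 0) (XT.lf (nat_lit 0) (nat_lit 151531285603) (nat_lit 304) (nat_lit 248259986524) (nat_lit 380) (nat_lit 450427634105) (nat_lit 124) (nat_lit 5) (nat_lit 128) (nat_lit 5) (nat_lit 129) (nat_lit 5) (nat_lit 520) (nat_lit 497) (nat_lit 183)) (XT.lf (nat_lit 0) (nat_lit 560675795968) (nat_lit 380) (nat_lit 208503620695)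 (nat_lit 76) (nat_lit 105819166014) (nat_lit 124) (nat_lit 5) (nat_lit 129) (nat_lit 5) (nat_lit 125) (nat_lit 5) (nat_lit 521) (nat_lit 497) (nat_lit 182))) (XT.nd (nat_lit 78) (nat_lit 76) (nat_lit 0) (XT.lf (nat_lit 0) (nat_lit 312109175816) (nat_lit 228) (nat_lit 426438097153) (nat_lit 304) (nat_lit 162022833630) (nat_lit 121) (nat_lit 5) (nat_lit 124) (nat_lit 5) (nat_lit 125) (nat_lit 5) (nat_lit 522) (nat_lit 497) (nat_lit 181)) (XT.lf (nat_lit 0) (nat_lit 1548571560) (nat_lit 304) (nat_lit 61277251714) (nat_lit 76) (nat_lit 864416579486) (nat_lit 120) (nat_lit 5) (nat_lit 124) (nat_lit 5) (nat_lit 121) (nat_lit 5) (nat_lit 523) (nat_lit 497) (nat_lit 180)))) (XT.nd (nat_lit 156) (nat_lit 228) (nat_lit 0) (XT.nd (nat_lit 78) (nat_lit 228) (nat_lit 0) (XT.lf (nat_lit 0) (nat_lit 180903407642) (nat_lit 380) (nat_lit 454075442331) (nat_lit 76) (nat_lit 319484163643) (nat_lit 116) (nat_lit 5)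 (nat_lit 121) (nat_lit 5) (nat_lit 117) (nat_lit 5) (nat_lit 524) (nat_lit 497) (nat_lit 179)) (XT.lf (nat_lit 0) (nat_lit 111801673914) (nat_lit 228) (nat_lit 261254545775) (nat_lit 304) (nat_lit 609796923617) (nat_lit 113) (nat_lit 5) (nat_lit 116) (nat_lit 5) (nat_lit 117) (nat_lit 5) (nat_lit 525) (nat_lit 497) (nat_lit 178))) (XT.nd (nat_lit 78) (nat_lit 228) (nat_lit 0) (XT.lf (nat_lit 0) (nat_lit 584680430302) (nat_lit 304) (nat_lit 292714948045) (nat_lit 76) (nat_lit 134774213237) (nat_lit 113) (nat_lit 5) (nat_lit 117) (nat_lit 5) (nat_lit 114) (nat_lit 5) (nat_lit 526) (nat_lit 497) (nat_lit 177)) (XT.lf (nat_lit 0) (nat_lit 320513977121) (nat_lit 228) (nat_lit 495658850443) (nat_lit 304) (nat_lit 226314685906) (nat_lit 110) (nat_lit 5) (nat_lit 113) (nat_lit 5) (nat_lit 114) (nat_lit 5) (nat_lit 527) (nat_lit 497) (nat_lit 176))))) (XT.nd (nat_lit 312) (nat_lit 608) (nat_lit 0) (XT.nd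 (nat_lit 156) (nat_lit 228) (nat_lit 0) (XT.nd (nat_lit 78) (nat_lit 228) (nat_lit 0) (XT.lf (nat_lit 0) (nat_lit 974566740969) (nat_lit 228) (nat_lit 89630366460) (nat_lit 304) (nat_lit 9876360884) (nat_lit 110) (nat_lit 5) (nat_lit 113) (nat_lit 5) (nat_lit 114) (nat_lit 5) (nat_lit 528) (nat_lit 497) (nat_lit 175)) (XT.lf (nat_lit 0) (nat_lit 224766390329) (nat_lit 228) (nat_lit 543185267448) (nat_lit 76) (nat_lit 338400356957) (nat_lit 107) (nat_lit 5) (nat_lit 110) (nat_lit 5) (nat_lit 108) (nat_lit 5) (nat_lit 529) (nat_lit 497) (nat_lit 174))) (XT.nd (nat_lit 78) (nat_lit 0) (nat_lit 0) (XT.lf (nat_lit 0) (nat_lit 124597314541) (nat_lit 228) (nat_lit 351339532103) (nat_lit 304) (nat_lit 664043172553) (nat_lit 104) (nat_lit 5) (nat_lit 107) (nat_lit 5) (nat_lit 108) (nat_lit 5) (nat_lit 530) (nat_lit 497) (nat_lit 173)) (XT.lf (nat_lit 0) (nat_lit 750360042250) (nat_lit 304) (nat_lit 331697403873)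 (nat_lit 76) (nat_lit 92697266936) (nat_lit 104) (nat_lit 5) (nat_lit 108) (nat_lit 5) (nat_lit 105) (nat_lit 5) (nat_lit 531) (nat_lit 497) (nat_lit 172)))) (XT.nd (nat_lit 156) (nat_lit 380) (nat_lit 0) (XT.nd (nat_lit 78) (nat_lit 76) (nat_lit 0) (XT.lf (nat_lit 0) (nat_lit 392990643234) (nat_lit 152) (nat_lit 657409098329) (nat_lit 228) (nat_lit 160273632857) (nat_lit 102) (nat_lit 5) (nat_lit 104) (nat_lit 5) (nat_lit 105) (nat_lit 5) (nat_lit 532) (nat_lit 497) (nat_lit 171)) (XT.lf (nat_lit 0) (nat_lit 119016555047) (nat_lit 228) (nat_lit 84597849585) (nat_lit 76) (nat_lit 1044396710605) (nat_lit 101) (nat_lit 5) (nat_lit 104) (nat_lit 5) (nat_lit 102) (nat_lit 5) (nat_lit 533) (nat_lit 497) (nat_lit 170))) (XT.nd (nat_lit 78) (nat_lit 152) (nat_lit 0) (XT.lf (nat_lit 0) (nat_lit 422377091593) (nat_lit 304) (nat_lit 585936939027) (nat_lit 76) (nat_lit 277995736433) (nat_lit 98) (nat_lit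 5) (nat_lit 102) (nat_lit 5) (nat_lit 99) (nat_lit 5) (nat_lit 534) (nat_lit 497) (nat_lit 169)) (XT.lf (nat_lit 0) (nat_lit 204253314463) (nat_lit 152) (nat_lit 544635435282) (nat_lit 228) (nat_lit 577235446975) (nat_lit 96) (nat_lit 5) (nat_lit 98) (nat_lit 5) (nat_lit 99) (nat_lit 5) (nat_lit 535) (nat_lit 497) (nat_lit 168)))))) (XT.nd (nat_lit 59670) (nat_lit 0) (nat_lit 5776) (XT.nd (nat_lit 312) (nat_lit 228) (nat_lit 0) (XT.nd (nat_lit 156) (nat_lit 152) (nat_lit 0) (XT.nd (nat_lit 78) (nat_lit 228) (nat_lit 0) (XT.lf (nat_lit 0) (nat_lit 1054295479411) (nat_lit 152) (nat_lit 47353631666) (nat_lit 228) (nat_lit 265784080780) (nat_lit 96) (nat_lit 5) (nat_lit 98) (nat_lit 5) (nat_lit 99) (nat_lit 5) (nat_lit 536) (nat_lit 497) (nat_lit 167)) (XT.lf (nat_lit 0) (nat_lit 75480040179) (nat_lit 228) (nat_lit 865130299300) (nat_lit 76) (nat_lit 469339478774) (nat_lit 93) (nat_lit 5) (nat_lit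 96) (nat_lit 5) (nat_lit 94) (nat_lit 5) (nat_lit 537) (nat_lit 497) (nat_lit 166))) (XT.nd (nat_lit 78) (nat_lit 152) (nat_lit 0) (XT.lf (nat_lit 0) (nat_lit 431041638575) (nat_lit 228) (nat_lit 3001423120) (nat_lit 76) (nat_lit 1020023040502) (nat_lit 93) (nat_lit 5) (nat_lit 96) (nat_lit 5) (nat_lit 94) (nat_lit 5) (nat_lit 538) (nat_lit 497) (nat_lit 165)) (XT.lf (nat_lit 0) (nat_lit 820699784501) (nat_lit 228) (nat_lit 569361089791) (nat_lit 76) (nat_lit 109511402666) (nat_lit 91) (nat_lit 5) (nat_lit 94) (nat_lit 5) (nat_lit 92) (nat_lit 5) (nat_lit 539) (nat_lit 497) (nat_lit 164)))) (XT.nd (nat_lit 59202) (nat_lit 0) (nat_lit 5700) (XT.nd (nat_lit 78) (nat_lit 76) (nat_lit 0) (XT.lf (nat_lit 0) (nat_lit 367482856613) (nat_lit 152) (nat_lit 875262537464) (nat_lit 228) (nat_lit 303963138562) (nat_lit 89) (nat_lit 5) (nat_lit 91) (nat_lit 5) (nat_lit 92) (nat_lit 5) (nat_lit 540) (nat_lit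 497) (nat_lit 163)) (XT.lf (nat_lit 0) (nat_lit 96621462059) (nat_lit 228) (nat_lit 226341968018) (nat_lit 76) (nat_lit 1272678130450) (nat_lit 88) (nat_lit 5) (nat_lit 91) (nat_lit 5) (nat_lit 89) (nat_lit 5) (nat_lit 541) (nat_lit 497) (nat_lit 162))) (XT.nd (nat_lit 78) (nat_lit 0) (nat_lit 0) (XT.lf (nat_lit 0) (nat_lit 107247761537) (nat_lit 836) (nat_lit 67404762194) (nat_lit 836) (nat_lit 67404762194) (nat_lit 163) (nat_lit 3) (nat_lit 174) (nat_lit 3) (nat_lit 174) (nat_lit 5) (nat_lit 498) (nat_lit 498) (nat_lit 204)) (XT.lf (nat_lit 76) (nat_lit 109780700621) (nat_lit 0) (nat_lit 111791469583) (nat_lit 836) (nat_lit 274559552968) (nat_lit 164) (nat_lit 5) (nat_lit 163) (nat_lit 3) (nat_lit 174) (nat_lit 5) (nat_lit 499) (nat_lit 498) (nat_lit 203))))) (XT.nd (nat_lit 312) (nat_lit 0) (nat_lit 152) (XT.nd (nat_lit 156) (nat_lit 0) (nat_lit 76) (XT.nd (nat_lit 78) (nat_lit 0) (nat_lit 0)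 (XT.lf (nat_lit 0) (nat_lit 233471410978) (nat_lit 760) (nat_lit 139540584589) (nat_lit 836) (nat_lit 135514298430) (nat_lit 164) (nat_lit 5) (nat_lit 174) (nat_lit 5) (nat_lit 175) (nat_lit 5) (nat_lit 500) (nat_lit 498) (nat_lit 202)) (XT.lf (nat_lit 76) (nat_lit 121671981440) (nat_lit 0) (nat_lit 128025903244) (nat_lit 836) (nat_lit 271656095137) (nat_lit 165) (nat_lit 5) (nat_lit 164) (nat_lit 5) (nat_lit 175) (nat_lit 5) (nat_lit 501) (nat_lit 498) (nat_lit 201))) (XT.nd (nat_lit 78) (nat_lit 0) (nat_lit 0) (XT.lf (nat_lit 0) (nat_lit 271154916455) (nat_lit 760) (nat_lit 135971254666) (nat_lit 836) (nat_lit 127475917097) (nat_lit 165) (nat_lit 5) (nat_lit 175) (nat_lit 5) (nat_lit 176) (nat_lit 5) (nat_lit 502) (nat_lit 498) (nat_lit 200)) (XT.lf (nat_lit 76) (nat_lit 143416452799) (nat_lit 0) (nat_lit 154606249806) (nat_lit 836) (nat_lit 250273004292) (nat_lit 166) (nat_lit 5) (nat_lit 165)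 (nat_lit 5) (nat_lit 176) (nat_lit 5) (nat_lit 503) (nat_lit 498) (nat_lit 199)))) (XT.nd (nat_lit 156) (nat_lit 0) (nat_lit 76) (XT.nd (nat_lit 78) (nat_lit 0) (nat_lit 0) (XT.lf (nat_lit 0) (nat_lit 330300186251) (nat_lit 760) (nat_lit 122828303728) (nat_lit 836) (nat_lit 109342201121) (nat_lit 166) (nat_lit 5) (nat_lit 176) (nat_lit 5) (nat_lit 177) (nat_lit 5) (nat_lit 504) (nat_lit 498) (nat_lit 198)) (XT.lf (nat_lit 76) (nat_lit 176437765444) (nat_lit 0) (nat_lit 193042981381) (nat_lit 836) (nat_lit 207609217553) (nat_lit 167) (nat_lit 5) (nat_lit 166) (nat_lit 5) (nat_lit 177) (nat_lit 5) (nat_lit 505) (nat_lit 498) (nat_lit 197))) (XT.nd (nat_lit 78) (nat_lit 0) (nat_lit 0) (XT.lf (nat_lit 0) (nat_lit 413984334667) (nat_lit 760) (nat_lit 98688600859) (nat_lit 836) (nat_lit 79599065833) (nat_lit 167) (nat_lit 5) (nat_lit 177) (nat_lit 5) (nat_lit 178) (nat_lit 5) (nat_lit 506) (nat_lit 498)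 (nat_lit 196)) (XT.nd (nat_lit 78) (nat_lit 0) (nat_lit 76) (XT.lf (nat_lit 76) (nat_lit 222324293480) (nat_lit 0) (nat_lit 245024540008) (nat_lit 836) (nat_lit 140532520121) (nat_lit 168) (nat_lit 5) (nat_lit 167) (nat_lit 5) (nat_lit 178) (nat_lit 5) (nat_lit 507) (nat_lit 498) (nat_lit 195)) (XT.lf (nat_lit 0) (nat_lit 525642442073) (nat_lit 760) (nat_lit 61963097378) (nat_lit 76) (nat_lit 36552589783) (nat_lit 168) (nat_lit 5) (nat_lit 178) (nat_lit 5) (nat_lit 169) (nat_lit 5) (nat_lit 508) (nat_lit 498) (nat_lit 194))))))))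
noncomputable def xc490 : XT := (XT.nd (nat_lit 1248) (nat_lit 2356) (nat_lit 0) (XT.nd (nat_lit 624) (nat_lit 1292) (nat_lit 0) (XT.nd (nat_lit 312) (nat_lit 684) (nat_lit 0) (XT.nd (nat_lit 156) (nat_lit 836) (nat_lit 0) (XT.nd (nat_lit 78) (nat_lit 76) (nat_lit 0) (XT.lf (nat_lit 0) (nat_lit 282846615489) (nat_lit 760) (nat_lit 312436928008) (nat_lit 836) (nat_lit 45543559523) (nat_lit 158) (nat_lit 5) (nat_lit 168) (nat_lit 5) (nat_lit 169) (nat_lit 5) (nat_lit 509) (nat_lit 498) (nat_lit 193)) (XT.lf (nat_lit 0) (nat_lit 10821208422) (nat_lit 836) (nat_lit 11403570327) (nat_lit 76) (nat_lit 636043551777) (nat_lit 157) (nat_lit 5) (nat_lit 168) (nat_lit 5) (nat_lit 158) (nat_lit 5) (nat_lit 510) (nat_lit 498) (nat_lit 192))) (XT.nd (nat_lit 78) (nat_lit 380) (nat_lit 0) (XT.lf (nat_lit 0) (nat_lit 78662951059) (nat_lit 532) (nat_lit 317390253368) (nat_lit 76) (nat_lit 279981619268) (nat_lit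 151) (nat_lit 5) (nat_lit 158) (nat_lit 5) (nat_lit 152) (nat_lit 5) (nat_lit 511) (nat_lit 498) (nat_lit 191)) (XT.lf (nat_lit 0) (nat_lit 54280847986) (nat_lit 380) (nat_lit 97024030058) (nat_lit 456) (nat_lit 543314358620) (nat_lit 146) (nat_lit 5) (nat_lit 151) (nat_lit 5) (nat_lit 152) (nat_lit 5) (nat_lit 512) (nat_lit 498) (nat_lit 190)))) (XT.nd (nat_lit 156) (nat_lit 304) (nat_lit 0) (XT.nd (nat_lit 78) (nat_lit 380) (nat_lit 0) (XT.lf (nat_lit 0) (nat_lit 236429466623) (nat_lit 456) (nat_lit 261784963830) (nat_lit 76) (nat_lit 215475911565) (nat_lit 146) (nat_lit 5) (nat_lit 152) (nat_lit 5) (nat_lit 147) (nat_lit 5) (nat_lit 513) (nat_lit 498) (nat_lit 189)) (XT.lf (nat_lit 0) (nat_lit 138539699679) (nat_lit 380) (nat_lit 191024126074) (nat_lit 456) (nat_lit 403963499832) (nat_lit 141) (nat_lit 5) (nat_lit 146) (nat_lit 5) (nat_lit 147) (nat_lit 5) (nat_lit 514) (nat_lit 498) (nat_lit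 188))) (XT.nd (nat_lit 78) (nat_lit 304) (nat_lit 0) (XT.lf (nat_lit 0) (nat_lit 433914512717) (nat_lit 456) (nat_lit 188291481257) (nat_lit 76) (nat_lit 131822183862) (nat_lit 141) (nat_lit 5) (nat_lit 147) (nat_lit 5) (nat_lit 142) (nat_lit 5) (nat_lit 515) (nat_lit 498) (nat_lit 187)) (XT.lf (nat_lit 0) (nat_lit 243398179272) (nat_lit 304) (nat_lit 307016216533) (nat_lit 380) (nat_lit 224793093807) (nat_lit 137) (nat_lit 5) (nat_lit 141) (nat_lit 5) (nat_lit 142) (nat_lit 5) (nat_lit 516) (nat_lit 498) (nat_lit 186))))) (XT.nd (nat_lit 312) (nat_lit 608) (nat_lit 0) (XT.nd (nat_lit 156) (nat_lit 380) (nat_lit 0) (XT.nd (nat_lit 78) (nat_lit 304) (nat_lit 0) (XT.lf (nat_lit 0) (nat_lit 676354009181) (nat_lit 380) (nat_lit 94502896578) (nat_lit 76) (nat_lit 26408124412) (nat_lit 137) (nat_lit 5) (nat_lit 142) (nat_lit 5) (nat_lit 138) (nat_lit 5) (nat_lit 517) (nat_lit 498) (nat_lit 185)) (XT.lf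 (nat_lit 0) (nat_lit 371526958186) (nat_lit 304) (nat_lit 447897266484) (nat_lit 380) (nat_lit 459542016) (nat_lit 133) (nat_lit 5) (nat_lit 137) (nat_lit 5) (nat_lit 138) (nat_lit 5) (nat_lit 518) (nat_lit 498) (nat_lit 184))) (XT.nd (nat_lit 78) (nat_lit 0) (nat_lit 0) (XT.lf (nat_lit 0) (nat_lit 19206868639) (nat_lit 304) (nat_lit 104700944997) (nat_lit 380) (nat_lit 719530926705) (nat_lit 128) (nat_lit 5) (nat_lit 132) (nat_lit 5) (nat_lit 133) (nat_lit 5) (nat_lit 519) (nat_lit 498) (nat_lit 183)) (XT.lf (nat_lit 0) (nat_lit 266187196687) (nat_lit 380) (nat_lit 346200655466) (nat_lit 76) (nat_lit 255197778690) (nat_lit 128) (nat_lit 5) (nat_lit 133) (nat_lit 5) (nat_lit 129) (nat_lit 5) (nat_lit 520) (nat_lit 498) (nat_lit 182)))) (XT.nd (nat_lit 156) (nat_lit 304) (nat_lit 0) (XT.nd (nat_lit 78) (nat_lit 0) (nat_lit 0) (XT.lf (nat_lit 0) (nat_lit 159108157654) (nat_lit 304) (nat_lit 260672916805)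 (nat_lit 380) (nat_lit 472948765134) (nat_lit 124) (nat_lit 5) (nat_lit 128) (nat_lit 5) (nat_lit 129) (nat_lit 5) (nat_lit 521) (nat_lit 498) (nat_lit 181)) (XT.lf (nat_lit 0) (nat_lit 588709814151) (nat_lit 380) (nat_lit 218928498260) (nat_lit 76) (nat_lit 111110187968) (nat_lit 124) (nat_lit 5) (nat_lit 129) (nat_lit 5) (nat_lit 125) (nat_lit 5) (nat_lit 522) (nat_lit 498) (nat_lit 180))) (XT.nd (nat_lit 78) (nat_lit 76) (nat_lit 0) (XT.lf (nat_lit 0) (nat_lit 327714933181) (nat_lit 228) (nat_lit 447759925606) (nat_lit 304) (nat_lit 170123742020) (nat_lit 121) (nat_lit 5) (nat_lit 124) (nat_lit 5) (nat_lit 125) (nat_lit 5) (nat_lit 523) (nat_lit 498) (nat_lit 179)) (XT.lf (nat_lit 0) (nat_lit 1626215210) (nat_lit 304) (nat_lit 64340822821) (nat_lit 76) (nat_lit 907637474103) (nat_lit 120) (nat_lit 5) (nat_lit 124) (nat_lit 5) (nat_lit 121) (nat_lit 5) (nat_lit 524) (nat_lit 498) (nat_lit 178))))))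 (XT.nd (nat_lit 624) (nat_lit 1140) (nat_lit 0) (XT.nd (nat_lit 312) (nat_lit 456) (nat_lit 0) (XT.nd (nat_lit 156) (nat_lit 228) (nat_lit 0) (XT.nd (nat_lit 78) (nat_lit 228) (nat_lit 0) (XT.lf (nat_lit 0) (nat_lit 189948788541) (nat_lit 380) (nat_lit 476778918404) (nat_lit 76) (nat_lit 335458446816) (nat_lit 116) (nat_lit 5) (nat_lit 121) (nat_lit 5) (nat_lit 117) (nat_lit 5) (nat_lit 525) (nat_lit 498) (nat_lit 177)) (XT.lf (nat_lit 0) (nat_lit 117392048879) (nat_lit 228) (nat_lit 274317186835) (nat_lit 304) (nat_lit 640286554497) (nat_lit 113) (nat_lit 5) (nat_lit 116) (nat_lit 5) (nat_lit 117) (nat_lit 5) (nat_lit 526) (nat_lit 498) (nat_lit 176))) (XT.nd (nat_lit 78) (nat_lit 228) (nat_lit 0) (XT.lf (nat_lit 0) (nat_lit 613914648375) (nat_lit 304) (nat_lit 307350409556) (nat_lit 76) (nat_lit 141513003394) (nat_lit 113) (nat_lit 5) (nat_lit 117) (nat_lit 5) (nat_lit 114) (nat_lit 5) (nat_lit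 527) (nat_lit 498) (nat_lit 175)) (XT.lf (nat_lit 0) (nat_lit 336539957256) (nat_lit 228) (nat_lit 520441703275) (nat_lit 304) (nat_lit 237630219023) (nat_lit 110) (nat_lit 5) (nat_lit 113) (nat_lit 5) (nat_lit 114) (nat_lit 5) (nat_lit 528) (nat_lit 498) (nat_lit 174)))) (XT.nd (nat_lit 156) (nat_lit 228) (nat_lit 0) (XT.nd (nat_lit 78) (nat_lit 228) (nat_lit 0) (XT.lf (nat_lit 0) (nat_lit 1023295345903) (nat_lit 228) (nat_lit 94111799364) (nat_lit 304) (nat_lit 10369987330) (nat_lit 110) (nat_lit 5) (nat_lit 113) (nat_lit 5) (nat_lit 114) (nat_lit 5) (nat_lit 529) (nat_lit 498) (nat_lit 173)) (XT.lf (nat_lit 0) (nat_lit 236004892075) (nat_lit 228) (nat_lit 570344253550) (nat_lit 76) (nat_lit 355320460726) (nat_lit 107) (nat_lit 5) (nat_lit 110) (nat_lit 5) (nat_lit 108) (nat_lit 5) (nat_lit 530) (nat_lit 498) (nat_lit 172))) (XT.nd (nat_lit 78) (nat_lit 0) (nat_lit 0) (XT.lf (nat_lit 0) (nat_lit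 130827453067) (nat_lit 228) (nat_lit 368906413721) (nat_lit 304) (nat_lit 697245144471) (nat_lit 104) (nat_lit 5) (nat_lit 107) (nat_lit 5) (nat_lit 108) (nat_lit 5) (nat_lit 531) (nat_lit 498) (nat_lit 171)) (XT.lf (nat_lit 0) (nat_lit 787878215119) (nat_lit 304) (nat_lit 348282007197) (nat_lit 76) (nat_lit 97332217852) (nat_lit 104) (nat_lit 5) (nat_lit 108) (nat_lit 5) (nat_lit 105) (nat_lit 5) (nat_lit 532) (nat_lit 498) (nat_lit 170))))) (XT.nd (nat_lit 390) (nat_lit 532) (nat_lit 0) (XT.nd (nat_lit 156) (nat_lit 380) (nat_lit 0) (XT.nd (nat_lit 78) (nat_lit 76) (nat_lit 0) (XT.lf (nat_lit 0) (nat_lit 412640437961) (nat_lit 152) (nat_lit 690279457405) (nat_lit 228) (nat_lit 168287139432) (nat_lit 102) (nat_lit 5) (nat_lit 104) (nat_lit 5) (nat_lit 105) (nat_lit 5) (nat_lit 533) (nat_lit 498) (nat_lit 169)) (XT.lf (nat_lit 0) (nat_lit 124967544194) (nat_lit 228) (nat_lit 88827486660) (nat_lit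 76) (nat_lit 1096616632070) (nat_lit 101) (nat_lit 5) (nat_lit 104) (nat_lit 5) (nat_lit 102) (nat_lit 5) (nat_lit 534) (nat_lit 498) (nat_lit 168))) (XT.nd (nat_lit 78) (nat_lit 152) (nat_lit 0) (XT.lf (nat_lit 0) (nat_lit 443496105267) (nat_lit 304) (nat_lit 615233528267) (nat_lit 76) (nat_lit 291895613911) (nat_lit 98) (nat_lit 5) (nat_lit 102) (nat_lit 5) (nat_lit 99) (nat_lit 5) (nat_lit 535) (nat_lit 498) (nat_lit 167)) (XT.lf (nat_lit 0) (nat_lit 214466233740) (nat_lit 152) (nat_lit 571867108969) (nat_lit 228) (nat_lit 606097056067) (nat_lit 96) (nat_lit 5) (nat_lit 98) (nat_lit 5) (nat_lit 99) (nat_lit 5) (nat_lit 536) (nat_lit 498) (nat_lit 166)))) (XT.nd (nat_lit 156) (nat_lit 304) (nat_lit 0) (XT.nd (nat_lit 78) (nat_lit 0) (nat_lit 0) (XT.lf (nat_lit 0) (nat_lit 79254190802) (nat_lit 228) (nat_lit 908386565906) (nat_lit 76) (nat_lit 492806545022) (nat_lit 93) (nat_lit 5) (nat_lit 96)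 (nat_lit 5) (nat_lit 94) (nat_lit 5) (nat_lit 538) (nat_lit 498) (nat_lit 164)) (XT.lf (nat_lit 0) (nat_lit 452593862041) (nat_lit 228) (nat_lit 3151257744) (nat_lit 76) (nat_lit 1071024280441) (nat_lit 93) (nat_lit 5) (nat_lit 96) (nat_lit 5) (nat_lit 94) (nat_lit 5) (nat_lit 539) (nat_lit 498) (nat_lit 163))) (XT.nd (nat_lit 78) (nat_lit 152) (nat_lit 0) (XT.lf (nat_lit 0) (nat_lit 861734913629) (nat_lit 228) (nat_lit 597828906109) (nat_lit 76) (nat_lit 114987064068) (nat_lit 91) (nat_lit 5) (nat_lit 94) (nat_lit 5) (nat_lit 92) (nat_lit 5) (nat_lit 540) (nat_lit 498) (nat_lit 162)) (XT.nd (nat_lit 59202) (nat_lit 0) (nat_lit 5624) (XT.lf (nat_lit 0) (nat_lit 385857233773) (nat_lit 152) (nat_lit 919025566906) (nat_lit 228) (nat_lit 319161151742) (nat_lit 89) (nat_lit 5) (nat_lit 91) (nat_lit 5) (nat_lit 92) (nat_lit 5) (nat_lit 541) (nat_lit 498) (nat_lit 161)) (XT.lf (nat_lit 0) (nat_lit 112610419982)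 (nat_lit 836) (nat_lit 70774858349) (nat_lit 836) (nat_lit 70774858349) (nat_lit 163) (nat_lit 3) (nat_lit 174) (nat_lit 3) (nat_lit 174) (nat_lit 5) (nat_lit 499) (nat_lit 499) (nat_lit 202))))))))
noncomputable def xc491 : XT := (XT.nd (nat_lit 1248) (nat_lit 2812) (nat_lit 0) (XT.nd (nat_lit 624) (nat_lit 1672) (nat_lit 0) (XT.nd (nat_lit 312) (nat_lit 0) (nat_lit 152) (XT.nd (nat_lit 156) (nat_lit 0) (nat_lit 76) (XT.nd (nat_lit 78) (nat_lit 0) (nat_lit 76) (XT.lf (nat_lit 76) (nat_lit 115270014981) (nat_lit 0) (nat_lit 117381283082) (nat_lit 836) (nat_lit 288286985259) (nat_lit 164) (nat_lit 5) (nat_lit 163) (nat_lit 3) (nat_lit 174) (nat_lit 5) (nat_lit 500) (nat_lit 499) (nat_lit 201)) (XT.lf (nat_lit 0) (nat_lit 245145472577) (nat_lit 760) (nat_lit 146517319453) (nat_lit 836) (nat_lit 142289792077) (nat_lit 164) (nat_lit 5) (nat_lit 174) (nat_lit 5) (nat_lit 175) (nat_lit 5) (nat_lit 501)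 (nat_lit 499) (nat_lit 200))) (XT.nd (nat_lit 78) (nat_lit 0) (nat_lit 76) (XT.lf (nat_lit 76) (nat_lit 127755870130) (nat_lit 0) (nat_lit 134427380977) (nat_lit 836) (nat_lit 285238404060) (nat_lit 165) (nat_lit 5) (nat_lit 164) (nat_lit 5) (nat_lit 175) (nat_lit 5) (nat_lit 502) (nat_lit 499) (nat_lit 199)) (XT.lf (nat_lit 0) (nat_lit 284713109266) (nat_lit 760) (nat_lit 142769516339) (nat_lit 836) (nat_lit 133849544640) (nat_lit 165) (nat_lit 5) (nat_lit 175) (nat_lit 5) (nat_lit 176) (nat_lit 5) (nat_lit 503) (nat_lit 499) (nat_lit 198)))) (XT.nd (nat_lit 156) (nat_lit 0) (nat_lit 76) (XT.nd (nat_lit 78) (nat_lit 0) (nat_lit 76) (XT.lf (nat_lit 76) (nat_lit 150587571644) (nat_lit 0) (nat_lit 162336696419) (nat_lit 836) (nat_lit 262786202629) (nat_lit 166) (nat_lit 5) (nat_lit 165) (nat_lit 5) (nat_lit 176) (nat_lit 5) (nat_lit 504) (nat_lit 499) (nat_lit 197)) (XT.lf (nat_lit 0) (nat_lit 346815603405)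 (nat_lit 760) (nat_lit 128969414297) (nat_lit 836) (nat_lit 114809187530) (nat_lit 166) (nat_lit 5) (nat_lit 176) (nat_lit 5) (nat_lit 177) (nat_lit 5) (nat_lit 505) (nat_lit 499) (nat_lit 196))) (XT.nd (nat_lit 78) (nat_lit 0) (nat_lit 76) (XT.lf (nat_lit 76) (nat_lit 185259953420) (nat_lit 0) (nat_lit 202695223846) (nat_lit 836) (nat_lit 217989265646) (nat_lit 167) (nat_lit 5) (nat_lit 166) (nat_lit 5) (nat_lit 177) (nat_lit 5) (nat_lit 506) (nat_lit 499) (nat_lit 195)) (XT.lf (nat_lit 0) (nat_lit 434683924392) (nat_lit 760) (nat_lit 103622725334) (nat_lit 836) (nat_lit 83578933023) (nat_lit 167) (nat_lit 5) (nat_lit 177) (nat_lit 5) (nat_lit 178) (nat_lit 5) (nat_lit 507) (nat_lit 499) (nat_lit 194))))) (XT.nd (nat_lit 312) (nat_lit 1216) (nat_lit 0) (XT.nd (nat_lit 156) (nat_lit 760) (nat_lit 0) (XT.nd (nat_lit 78) (nat_lit 0) (nat_lit 76) (XT.lf (nat_lit 76) (nat_lit 233440808794) (nat_lit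 0) (nat_lit 257275826294) (nat_lit 836) (nat_lit 147558768180) (nat_lit 168) (nat_lit 5) (nat_lit 167) (nat_lit 5) (nat_lit 178) (nat_lit 5) (nat_lit 508) (nat_lit 499) (nat_lit 193)) (XT.lf (nat_lit 0) (nat_lit 551924906081) (nat_lit 760) (nat_lit 65060947877) (nat_lit 76) (nat_lit 38380164617) (nat_lit 168) (nat_lit 5) (nat_lit 178) (nat_lit 5) (nat_lit 169) (nat_lit 5) (nat_lit 509) (nat_lit 499) (nat_lit 192))) (XT.nd (nat_lit 78) (nat_lit 76) (nat_lit 0) (XT.lf (nat_lit 0) (nat_lit 296989245724) (nat_lit 760) (nat_lit 328058805245) (nat_lit 836) (nat_lit 47820390662) (nat_lit 158) (nat_lit 5) (nat_lit 168) (nat_lit 5) (nat_lit 169) (nat_lit 5) (nat_lit 510) (nat_lit 499) (nat_lit 191)) (XT.lf (nat_lit 0) (nat_lit 11362588592) (nat_lit 836) (nat_lit 11973453048) (nat_lit 76) (nat_lit 667845689403) (nat_lit 157) (nat_lit 5) (nat_lit 168) (nat_lit 5) (nat_lit 158) (nat_lit 5) (nat_lit 511) (nat_lit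 499) (nat_lit 190)))) (XT.nd (nat_lit 156) (nat_lit 380) (nat_lit 0) (XT.nd (nat_lit 78) (nat_lit 380) (nat_lit 0) (XT.lf (nat_lit 0) (nat_lit 82596407396) (nat_lit 532) (nat_lit 333259459257) (nat_lit 76) (nat_lit 293980682767) (nat_lit 151) (nat_lit 5) (nat_lit 158) (nat_lit 5) (nat_lit 152) (nat_lit 5) (nat_lit 512) (nat_lit 499) (nat_lit 189)) (XT.lf (nat_lit 0) (nat_lit 56995192217) (nat_lit 380) (nat_lit 101875228521) (nat_lit 456) (nat_lit 570479762798) (nat_lit 146) (nat_lit 5) (nat_lit 151) (nat_lit 5) (nat_lit 152) (nat_lit 5) (nat_lit 513) (nat_lit 499) (nat_lit 188))) (XT.nd (nat_lit 78) (nat_lit 380) (nat_lit 0) (XT.lf (nat_lit 0) (nat_lit 248251224564) (nat_lit 456) (nat_lit 274873910360) (nat_lit 76) (nat_lit 226249709946) (nat_lit 146) (nat_lit 5) (nat_lit 152) (nat_lit 5) (nat_lit 147) (nat_lit 5) (nat_lit 514) (nat_lit 499) (nat_lit 187)) (XT.lf (nat_lit 0) (nat_lit 145466981459)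 (nat_lit 380) (nat_lit 200575311272) (nat_lit 456) (nat_lit 424161385330) (nat_lit 141) (nat_lit 5) (nat_lit 146) (nat_lit 5) (nat_lit 147) (nat_lit 5) (nat_lit 515) (nat_lit 499) (nat_lit 186)))))) (XT.nd (nat_lit 624) (nat_lit 1520) (nat_lit 0) (XT.nd (nat_lit 312) (nat_lit 684) (nat_lit 0) (XT.nd (nat_lit 156) (nat_lit 304) (nat_lit 0) (XT.nd (nat_lit 78) (nat_lit 304) (nat_lit 0) (XT.lf (nat_lit 0) (nat_lit 455610501229) (nat_lit 456) (nat_lit 197705759826) (nat_lit 76) (nat_lit 138413312512) (nat_lit 141) (nat_lit 5) (nat_lit 147) (nat_lit 5) (nat_lit 142) (nat_lit 5) (nat_lit 516) (nat_lit 499) (nat_lit 185)) (XT.lf (nat_lit 0) (nat_lit 255568378964) (nat_lit 304) (nat_lit 322366991529) (nat_lit 380) (nat_lit 236032480838) (nat_lit 137) (nat_lit 5) (nat_lit 141) (nat_lit 5) (nat_lit 142) (nat_lit 5) (nat_lit 517) (nat_lit 499) (nat_lit 184))) (XT.nd (nat_lit 78) (nat_lit 304) (nat_lit 0)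 (XT.lf (nat_lit 0) (nat_lit 710171952933) (nat_lit 380) (nat_lit 99227752901) (nat_lit 76) (nat_lit 27728563665) (nat_lit 137) (nat_lit 5) (nat_lit 142) (nat_lit 5) (nat_lit 138) (nat_lit 5) (nat_lit 518) (nat_lit 499) (nat_lit 183)) (XT.lf (nat_lit 0) (nat_lit 390103589947) (nat_lit 304) (nat_lit 470292082096) (nat_lit 380) (nat_lit 482271156) (nat_lit 133) (nat_lit 5) (nat_lit 137) (nat_lit 5) (nat_lit 138) (nat_lit 5) (nat_lit 519) (nat_lit 499) (nat_lit 182)))) (XT.nd (nat_lit 156) (nat_lit 304) (nat_lit 0) (XT.nd (nat_lit 78) (nat_lit 0) (nat_lit 0) (XT.lf (nat_lit 0) (nat_lit 20167499167) (nat_lit 304) (nat_lit 109935938228) (nat_lit 380) (nat_lit 755507228296) (nat_lit 128) (nat_lit 5) (nat_lit 132) (nat_lit 5) (nat_lit 133) (nat_lit 5) (nat_lit 520) (nat_lit 499) (nat_lit 181)) (XT.lf (nat_lit 0) (nat_lit 279496779303) (nat_lit 380) (nat_lit 363510404506) (nat_lit 76) (nat_lit 267957717425)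 (nat_lit 128) (nat_lit 5) (nat_lit 133) (nat_lit 5) (nat_lit 129) (nat_lit 5) (nat_lit 521) (nat_lit 499) (nat_lit 180))) (XT.nd (nat_lit 78) (nat_lit 0) (nat_lit 0) (XT.lf (nat_lit 0) (nat_lit 167063844694) (nat_lit 304) (nat_lit 273706500020) (nat_lit 380) (nat_lit 496595976021) (nat_lit 124) (nat_lit 5) (nat_lit 128) (nat_lit 5) (nat_lit 129) (nat_lit 5) (nat_lit 522) (nat_lit 499) (nat_lit 179)) (XT.lf (nat_lit 0) (nat_lit 618145512010) (nat_lit 380) (nat_lit 229874647918) (nat_lit 76) (nat_lit 116665755101) (nat_lit 124) (nat_lit 5) (nat_lit 129) (nat_lit 5) (nat_lit 125) (nat_lit 5) (nat_lit 523) (nat_lit 499) (nat_lit 178))))) (XT.nd (nat_lit 312) (nat_lit 684) (nat_lit 0) (XT.nd (nat_lit 156) (nat_lit 532) (nat_lit 0) (XT.nd (nat_lit 78) (nat_lit 76) (nat_lit 0) (XT.lf (nat_lit 0) (nat_lit 344100950656) (nat_lit 228) (nat_lit 470147852586) (nat_lit 304) (nat_lit 178629717518) (nat_lit 121)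 (nat_lit 5) (nat_lit 124) (nat_lit 5) (nat_lit 125) (nat_lit 5) (nat_lit 524) (nat_lit 499) (nat_lit 177)) (XT.lf (nat_lit 0) (nat_lit 1707721046) (nat_lit 304) (nat_lit 67557599582) (nat_lit 76) (nat_lit 953019407349) (nat_lit 120) (nat_lit 5) (nat_lit 124) (nat_lit 5) (nat_lit 121) (nat_lit 5) (nat_lit 525) (nat_lit 499) (nat_lit 176))) (XT.nd (nat_lit 78) (nat_lit 228) (nat_lit 0) (XT.lf (nat_lit 0) (nat_lit 199446418913) (nat_lit 380) (nat_lit 500617595803) (nat_lit 76) (nat_lit 352231437176) (nat_lit 116) (nat_lit 5) (nat_lit 121) (nat_lit 5) (nat_lit 117) (nat_lit 5) (nat_lit 526) (nat_lit 499) (nat_lit 175)) (XT.lf (nat_lit 0) (nat_lit 123261915513) (nat_lit 228) (nat_lit 288032967963) (nat_lit 304) (nat_lit 672300686937) (nat_lit 113) (nat_lit 5) (nat_lit 116) (nat_lit 5) (nat_lit 117) (nat_lit 5) (nat_lit 527) (nat_lit 499) (nat_lit 174)))) (XT.nd (nat_lit 156) (nat_lit 456) (nat_lit 0)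 (XT.nd (nat_lit 78) (nat_lit 228) (nat_lit 0) (XT.lf (nat_lit 0) (nat_lit 644610559078) (nat_lit 304) (nat_lit 322717670723) (nat_lit 76) (nat_lit 148588725668) (nat_lit 113) (nat_lit 5) (nat_lit 117) (nat_lit 5) (nat_lit 114) (nat_lit 5) (nat_lit 528) (nat_lit 499) (nat_lit 173)) (XT.lf (nat_lit 0) (nat_lit 353367210248) (nat_lit 228) (nat_lit 546463707088) (nat_lit 304) (nat_lit 249511547500) (nat_lit 110) (nat_lit 5) (nat_lit 113) (nat_lit 5) (nat_lit 114) (nat_lit 5) (nat_lit 529) (nat_lit 499) (nat_lit 172))) (XT.nd (nat_lit 78) (nat_lit 456) (nat_lit 0) (XT.lf (nat_lit 0) (nat_lit 1074460356178) (nat_lit 228) (nat_lit 98817311854) (nat_lit 304) (nat_lit 10888312911) (nat_lit 110) (nat_lit 5) (nat_lit 113) (nat_lit 5) (nat_lit 114) (nat_lit 5) (nat_lit 530) (nat_lit 499) (nat_lit 171)) (XT.nd (nat_lit 78) (nat_lit 228) (nat_lit 0) (XT.lf (nat_lit 0) (nat_lit 247805301966) (nat_lit 228) (nat_lit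 598861214735) (nat_lit 76) (nat_lit 373086561696) (nat_lit 107) (nat_lit 5) (nat_lit 110) (nat_lit 5) (nat_lit 108) (nat_lit 5) (nat_lit 531) (nat_lit 499) (nat_lit 170)) (XT.lf (nat_lit 0) (nat_lit 137369073156) (nat_lit 228) (nat_lit 387351648251) (nat_lit 304) (nat_lit 732107232344) (nat_lit 104) (nat_lit 5) (nat_lit 107) (nat_lit 5) (nat_lit 108) (nat_lit 5) (nat_lit 532) (nat_lit 499) (nat_lit 169))))))))
noncomputable def xc492 : XT := (XT.nd (nat_lit 60528) (nat_lit 0) (nat_lit 2356) (XT.nd (nat_lit 59904) (nat_lit 0) (nat_lit 5320) (XT.nd (nat_lit 312) (nat_lit 380) (nat_lit 0) (XT.nd (nat_lit 156) (nat_lit 304) (nat_lit 0) (XT.nd (nat_lit 78) (nat_lit 152) (nat_lit 0) (XT.lf (nat_lit 0) (nat_lit 827272280756) (nat_lit 304) (nat_lit 365695865498) (nat_lit 76) (nat_lit 102198908172) (nat_lit 104) (nat_lit 5) (nat_lit 108) (nat_lit 5) (nat_lit 105) (nat_lit 5) (nat_lit 533) (nat_lit 499)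 (nat_lit 168)) (XT.lf (nat_lit 0) (nat_lit 433272698014) (nat_lit 152) (nat_lit 724793343344) (nat_lit 228) (nat_lit 176701337613) (nat_lit 102) (nat_lit 5) (nat_lit 104) (nat_lit 5) (nat_lit 105) (nat_lit 5) (nat_lit 534) (nat_lit 499) (nat_lit 167))) (XT.nd (nat_lit 78) (nat_lit 228) (nat_lit 0) (XT.lf (nat_lit 0) (nat_lit 131216067793) (nat_lit 228) (nat_lit 93268629333) (nat_lit 76) (nat_lit 1151447541619) (nat_lit 101) (nat_lit 5) (nat_lit 104) (nat_lit 5) (nat_lit 102) (nat_lit 5) (nat_lit 535) (nat_lit 499) (nat_lit 166)) (XT.lf (nat_lit 0) (nat_lit 465671054834) (nat_lit 304) (nat_lit 645994970929) (nat_lit 76) (nat_lit 306490476834) (nat_lit 98) (nat_lit 5) (nat_lit 102) (nat_lit 5) (nat_lit 99) (nat_lit 5) (nat_lit 536) (nat_lit 499) (nat_lit 165)))) (XT.nd (nat_lit 156) (nat_lit 228) (nat_lit 0) (XT.nd (nat_lit 78) (nat_lit 0) (nat_lit 0) (XT.lf (nat_lit 0) (nat_lit 225189775408) (nat_lit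 152) (nat_lit 600460375459) (nat_lit 228) (nat_lit 636401760792) (nat_lit 96) (nat_lit 5) (nat_lit 98) (nat_lit 5) (nat_lit 99) (nat_lit 5) (nat_lit 537) (nat_lit 499) (nat_lit 164)) (XT.lf (nat_lit 0) (nat_lit 1162361238634) (nat_lit 152) (nat_lit 52207196112) (nat_lit 228) (nat_lit 293026644776) (nat_lit 96) (nat_lit 5) (nat_lit 98) (nat_lit 5) (nat_lit 99) (nat_lit 5) (nat_lit 538) (nat_lit 499) (nat_lit 163))) (XT.nd (nat_lit 78) (nat_lit 0) (nat_lit 0) (XT.lf (nat_lit 0) (nat_lit 83217035139) (nat_lit 228) (nat_lit 953805668932) (nat_lit 76) (nat_lit 517446956000) (nat_lit 93) (nat_lit 5) (nat_lit 96) (nat_lit 5) (nat_lit 94) (nat_lit 5) (nat_lit 539) (nat_lit 499) (nat_lit 162)) (XT.lf (nat_lit 0) (nat_lit 475223683521) (nat_lit 228) (nat_lit 3308606089) (nat_lit 76) (nat_lit 1124575574203) (nat_lit 93) (nat_lit 5) (nat_lit 96) (nat_lit 5) (nat_lit 94) (nat_lit 5) (nat_lit 540) (nat_lit 499)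 (nat_lit 161))))) (XT.nd (nat_lit 312) (nat_lit 0) (nat_lit 152) (XT.nd (nat_lit 156) (nat_lit 0) (nat_lit 76) (XT.nd (nat_lit 78) (nat_lit 0) (nat_lit 0) (XT.lf (nat_lit 0) (nat_lit 118241186214) (nat_lit 836) (nat_lit 74313472510) (nat_lit 836) (nat_lit 74313472510) (nat_lit 163) (nat_lit 3) (nat_lit 174) (nat_lit 3) (nat_lit 174) (nat_lit 5) (nat_lit 500) (nat_lit 500) (nat_lit 200)) (XT.lf (nat_lit 76) (nat_lit 121033769090) (nat_lit 0) (nat_lit 123250564942) (nat_lit 836) (nat_lit 302700839868) (nat_lit 164) (nat_lit 5) (nat_lit 163) (nat_lit 3) (nat_lit 174) (nat_lit 5) (nat_lit 501) (nat_lit 500) (nat_lit 199))) (XT.nd (nat_lit 78) (nat_lit 0) (nat_lit 0) (XT.lf (nat_lit 0) (nat_lit 257403191602) (nat_lit 760) (nat_lit 153842918428) (nat_lit 836) (nat_lit 149404080978) (nat_lit 164) (nat_lit 5) (nat_lit 174) (nat_lit 5) (nat_lit 175) (nat_lit 5) (nat_lit 502) (nat_lit 500) (nat_lit 198))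 (XT.lf (nat_lit 76) (nat_lit 134143926328) (nat_lit 0) (nat_lit 141148915623) (nat_lit 836) (nat_lit 299499874527) (nat_lit 165) (nat_lit 5) (nat_lit 164) (nat_lit 5) (nat_lit 175) (nat_lit 5) (nat_lit 503) (nat_lit 500) (nat_lit 197)))) (XT.nd (nat_lit 156) (nat_lit 0) (nat_lit 76) (XT.nd (nat_lit 78) (nat_lit 0) (nat_lit 0) (XT.lf (nat_lit 0) (nat_lit 298949170161) (nat_lit 760) (nat_lit 149907719085) (nat_lit 836) (nat_lit 140541869208) (nat_lit 165) (nat_lit 5) (nat_lit 175) (nat_lit 5) (nat_lit 176) (nat_lit 5) (nat_lit 504) (nat_lit 500) (nat_lit 196)) (XT.lf (nat_lit 76) (nat_lit 158117218892) (nat_lit 0) (nat_lit 170453652893) (nat_lit 836) (nat_lit 275925102895) (nat_lit 166) (nat_lit 5) (nat_lit 165) (nat_lit 5) (nat_lit 176) (nat_lit 5) (nat_lit 505) (nat_lit 500) (nat_lit 195))) (XT.nd (nat_lit 78) (nat_lit 0) (nat_lit 0) (XT.lf (nat_lit 0) (nat_lit 364156753500) (nat_lit 760) (nat_lit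 135417608716) (nat_lit 836) (nat_lit 120549534754) (nat_lit 166) (nat_lit 5) (nat_lit 176) (nat_lit 5) (nat_lit 177) (nat_lit 5) (nat_lit 506) (nat_lit 500) (nat_lit 194)) (XT.lf (nat_lit 76) (nat_lit 194523222932) (nat_lit 0) (nat_lit 212830069751) (nat_lit 836) (nat_lit 228888354520) (nat_lit 167) (nat_lit 5) (nat_lit 166) (nat_lit 5) (nat_lit 177) (nat_lit 5) (nat_lit 507) (nat_lit 500) (nat_lit 193)))))) (XT.nd (nat_lit 624) (nat_lit 1672) (nat_lit 0) (XT.nd (nat_lit 312) (nat_lit 912) (nat_lit 0) (XT.nd (nat_lit 156) (nat_lit 684) (nat_lit 0) (XT.nd (nat_lit 78) (nat_lit 0) (nat_lit 0) (XT.lf (nat_lit 0) (nat_lit 456418458926) (nat_lit 760) (nat_lit 108803584442) (nat_lit 836) (nat_lit 87757801577) (nat_lit 167) (nat_lit 5) (nat_lit 177) (nat_lit 5) (nat_lit 178) (nat_lit 5) (nat_lit 508) (nat_lit 500) (nat_lit 192)) (XT.lf (nat_lit 76) (nat_lit 245113121923) (nat_lit 0) (nat_lit 270139671381)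 (nat_lit 836) (nat_lit 154936363780) (nat_lit 168) (nat_lit 5) (nat_lit 167) (nat_lit 5) (nat_lit 178) (nat_lit 5) (nat_lit 509) (nat_lit 500) (nat_lit 191))) (XT.nd (nat_lit 78) (nat_lit 760) (nat_lit 0) (XT.lf (nat_lit 0) (nat_lit 579521461501) (nat_lit 760) (nat_lit 68313719199) (nat_lit 76) (nat_lit 40299123275) (nat_lit 168) (nat_lit 5) (nat_lit 178) (nat_lit 5) (nat_lit 169) (nat_lit 5) (nat_lit 510) (nat_lit 500) (nat_lit 190)) (XT.lf (nat_lit 0) (nat_lit 311838979630) (nat_lit 760) (nat_lit 344461773478) (nat_lit 836) (nat_lit 50211095604) (nat_lit 158) (nat_lit 5) (nat_lit 168) (nat_lit 5) (nat_lit 169) (nat_lit 5) (nat_lit 511) (nat_lit 500) (nat_lit 189)))) (XT.nd (nat_lit 156) (nat_lit 380) (nat_lit 0) (XT.nd (nat_lit 78) (nat_lit 456) (nat_lit 0) (XT.lf (nat_lit 0) (nat_lit 11931008044) (nat_lit 836) (nat_lit 12571857405) (nat_lit 76) (nat_lit 701237937625) (nat_lit 157) (nat_lit 5)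 (nat_lit 168) (nat_lit 5) (nat_lit 158) (nat_lit 5) (nat_lit 512) (nat_lit 500) (nat_lit 188)) (XT.lf (nat_lit 0) (nat_lit 86726507843) (nat_lit 532) (nat_lit 349922153961) (nat_lit 76) (nat_lit 308679701065) (nat_lit 151) (nat_lit 5) (nat_lit 158) (nat_lit 5) (nat_lit 152) (nat_lit 5) (nat_lit 513) (nat_lit 500) (nat_lit 187))) (XT.nd (nat_lit 78) (nat_lit 0) (nat_lit 0) (XT.lf (nat_lit 0) (nat_lit 59845225599) (nat_lit 380) (nat_lit 106968987191) (nat_lit 456) (nat_lit 599003466355) (nat_lit 146) (nat_lit 5) (nat_lit 151) (nat_lit 5) (nat_lit 152) (nat_lit 5) (nat_lit 514) (nat_lit 500) (nat_lit 186)) (XT.lf (nat_lit 0) (nat_lit 260664043942) (nat_lit 456) (nat_lit 288617332262) (nat_lit 76) (nat_lit 237562197984) (nat_lit 146) (nat_lit 5) (nat_lit 152) (nat_lit 5) (nat_lit 147) (nat_lit 5) (nat_lit 515) (nat_lit 500) (nat_lit 185))))) (XT.nd (nat_lit 312) (nat_lit 988) (nat_lit 0) (XT.nd (nat_lit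 156) (nat_lit 304) (nat_lit 0) (XT.nd (nat_lit 78) (nat_lit 0) (nat_lit 0) (XT.lf (nat_lit 0) (nat_lit 152740599734) (nat_lit 380) (nat_lit 210604057693) (nat_lit 456) (nat_lit 445369192017) (nat_lit 141) (nat_lit 5) (nat_lit 146) (nat_lit 5) (nat_lit 147) (nat_lit 5) (nat_lit 516) (nat_lit 500) (nat_lit 184)) (XT.lf (nat_lit 0) (nat_lit 478391264727) (nat_lit 456) (nat_lit 207590779795) (nat_lit 76) (nat_lit 145333995786) (nat_lit 141) (nat_lit 5) (nat_lit 147) (nat_lit 5) (nat_lit 142) (nat_lit 5) (nat_lit 517) (nat_lit 500) (nat_lit 183))) (XT.nd (nat_lit 78) (nat_lit 0) (nat_lit 0) (XT.lf (nat_lit 0) (nat_lit 268347061612) (nat_lit 304) (nat_lit 338485308606) (nat_lit 380) (nat_lit 247833862106) (nat_lit 137) (nat_lit 5) (nat_lit 141) (nat_lit 5) (nat_lit 142) (nat_lit 5) (nat_lit 518) (nat_lit 500) (nat_lit 182)) (XT.lf (nat_lit 0) (nat_lit 745680771253) (nat_lit 380) (nat_lit 104188878864)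 (nat_lit 76) (nat_lit 29115021810) (nat_lit 137) (nat_lit 5) (nat_lit 142) (nat_lit 5) (nat_lit 138) (nat_lit 5) (nat_lit 519) (nat_lit 500) (nat_lit 181)))) (XT.nd (nat_lit 156) (nat_lit 304) (nat_lit 0) (XT.nd (nat_lit 78) (nat_lit 380) (nat_lit 0) (XT.lf (nat_lit 0) (nat_lit 409609026906) (nat_lit 304) (nat_lit 493806642924) (nat_lit 380) (nat_lit 506159806) (nat_lit 133) (nat_lit 5) (nat_lit 137) (nat_lit 5) (nat_lit 138) (nat_lit 5) (nat_lit 520) (nat_lit 500) (nat_lit 180)) (XT.lf (nat_lit 0) (nat_lit 21176134530) (nat_lit 304) (nat_lit 115432686143) (nat_lit 380) (nat_lit 793282367720) (nat_lit 128) (nat_lit 5) (nat_lit 132) (nat_lit 5) (nat_lit 133) (nat_lit 5) (nat_lit 521) (nat_lit 500) (nat_lit 179))) (XT.nd (nat_lit 78) (nat_lit 304) (nat_lit 0) (XT.lf (nat_lit 0) (nat_lit 293471820337) (nat_lit 380) (nat_lit 381685667377) (nat_lit 76) (nat_lit 281355648466) (nat_lit 128) (nat_lit 5)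 (nat_lit 133) (nat_lit 5) (nat_lit 129) (nat_lit 5) (nat_lit 522) (nat_lit 500) (nat_lit 178)) (XT.nd (nat_lit 78) (nat_lit 0) (nat_lit 0) (XT.lf (nat_lit 0) (nat_lit 175417290132) (nat_lit 304) (nat_lit 287391768217) (nat_lit 380) (nat_lit 521425568590) (nat_lit 124) (nat_lit 5) (nat_lit 128) (nat_lit 5) (nat_lit 129) (nat_lit 5) (nat_lit 523) (nat_lit 500) (nat_lit 177)) (XT.lf (nat_lit 0) (nat_lit 649052975503) (nat_lit 380) (nat_lit 241368130649) (nat_lit 76) (nat_lit 122499095223) (nat_lit 124) (nat_lit 5) (nat_lit 129) (nat_lit 5) (nat_lit 125) (nat_lit 5) (nat_lit 524) (nat_lit 500) (nat_lit 176))))))))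
noncomputable def xc493 : XT := (XT.nd (nat_lit 60606) (nat_lit 0) (nat_lit 3648) (XT.nd (nat_lit 624) (nat_lit 1064) (nat_lit 0) (XT.nd (nat_lit 312) (nat_lit 456) (nat_lit 0) (XT.nd (nat_lit 156) (nat_lit 532) (nat_lit 0) (XT.nd (nat_lit 78) (nat_lit 76) (nat_lit 0) (XT.lf (nat_lit 0) (nat_lit 361306243826) (nat_lit 228) (nat_lit 493655182358) (nat_lit 304) (nat_lit 187561011465) (nat_lit 121) (nat_lit 5) (nat_lit 124) (nat_lit 5) (nat_lit 125) (nat_lit 5) (nat_lit 525) (nat_lit 500) (nat_lit 175)) (XT.lf (nat_lit 0) (nat_lit 1793284038) (nat_lit 304) (nat_lit 70935239761) (nat_lit 76) (nat_lit 1000670431721) (nat_lit 120) (nat_lit 5) (nat_lit 124) (nat_lit 5) (nat_lit 121) (nat_lit 5) (nat_lit 526) (nat_lit 500) (nat_lit 174))) (XT.nd (nat_lit 78) (nat_lit 228) (nat_lit 0) (XT.lf (nat_lit 0) (nat_lit 209418913051) (nat_lit 380) (nat_lit 525648232037) (nat_lit 76) (nat_lit 369843070730) (nat_lit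 116) (nat_lit 5) (nat_lit 121) (nat_lit 5) (nat_lit 117) (nat_lit 5) (nat_lit 527) (nat_lit 500) (nat_lit 173)) (XT.lf (nat_lit 0) (nat_lit 129425250916) (nat_lit 228) (nat_lit 302434545420) (nat_lit 304) (nat_lit 705915544154) (nat_lit 113) (nat_lit 5) (nat_lit 116) (nat_lit 5) (nat_lit 117) (nat_lit 5) (nat_lit 528) (nat_lit 500) (nat_lit 172)))) (XT.nd (nat_lit 156) (nat_lit 228) (nat_lit 0) (XT.nd (nat_lit 78) (nat_lit 228) (nat_lit 0) (XT.lf (nat_lit 0) (nat_lit 676841248741) (nat_lit 304) (nat_lit 338853319057) (nat_lit 76) (nat_lit 156018227352) (nat_lit 113) (nat_lit 5) (nat_lit 117) (nat_lit 5) (nat_lit 114) (nat_lit 5) (nat_lit 529) (nat_lit 500) (nat_lit 171)) (XT.lf (nat_lit 0) (nat_lit 371035802169) (nat_lit 228) (nat_lit 573786818654) (nat_lit 304) (nat_lit 261986959365) (nat_lit 110) (nat_lit 5) (nat_lit 113) (nat_lit 5) (nat_lit 114) (nat_lit 5) (nat_lit 530) (nat_lit 500) (nat_lit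 170))) (XT.nd (nat_lit 78) (nat_lit 228) (nat_lit 0) (XT.lf (nat_lit 0) (nat_lit 1128183594376) (nat_lit 228) (nat_lit 103758107173) (nat_lit 304) (nat_lit 11432570929) (nat_lit 110) (nat_lit 5) (nat_lit 113) (nat_lit 5) (nat_lit 114) (nat_lit 5) (nat_lit 531) (nat_lit 500) (nat_lit 169)) (XT.lf (nat_lit 0) (nat_lit 260195716985) (nat_lit 228) (nat_lit 628804047361) (nat_lit 76) (nat_lit 391740960469) (nat_lit 107) (nat_lit 5) (nat_lit 110) (nat_lit 5) (nat_lit 108) (nat_lit 5) (nat_lit 532) (nat_lit 500) (nat_lit 168))))) (XT.nd (nat_lit 312) (nat_lit 608) (nat_lit 0) (XT.nd (nat_lit 156) (nat_lit 228) (nat_lit 0) (XT.nd (nat_lit 78) (nat_lit 0) (nat_lit 0) (XT.lf (nat_lit 0) (nat_lit 144237751246) (nat_lit 228) (nat_lit 406719152517) (nat_lit 304) (nat_lit 768712440356) (nat_lit 104) (nat_lit 5) (nat_lit 107) (nat_lit 5) (nat_lit 108) (nat_lit 5) (nat_lit 533) (nat_lit 500) (nat_lit 167)) (XT.lf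 (nat_lit 0) (nat_lit 868636035275) (nat_lit 304) (nat_lit 383980439219) (nat_lit 76) (nat_lit 107308925623) (nat_lit 104) (nat_lit 5) (nat_lit 108) (nat_lit 5) (nat_lit 105) (nat_lit 5) (nat_lit 534) (nat_lit 500) (nat_lit 166))) (XT.nd (nat_lit 78) (nat_lit 76) (nat_lit 0) (XT.lf (nat_lit 0) (nat_lit 454936548927) (nat_lit 152) (nat_lit 761032931663) (nat_lit 228) (nat_lit 185536260465) (nat_lit 102) (nat_lit 5) (nat_lit 104) (nat_lit 5) (nat_lit 105) (nat_lit 5) (nat_lit 535) (nat_lit 500) (nat_lit 165)) (XT.lf (nat_lit 0) (nat_lit 137777003963) (nat_lit 228) (nat_lit 97931850677) (nat_lit 76) (nat_lit 1209019989399) (nat_lit 101) (nat_lit 5) (nat_lit 104) (nat_lit 5) (nat_lit 102) (nat_lit 5) (nat_lit 536) (nat_lit 500) (nat_lit 164)))) (XT.nd (nat_lit 156) (nat_lit 228) (nat_lit 0) (XT.nd (nat_lit 78) (nat_lit 152) (nat_lit 0) (XT.lf (nat_lit 0) (nat_lit 488954738463) (nat_lit 304) (nat_lit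 678294507456) (nat_lit 76) (nat_lit 321815075258) (nat_lit 98) (nat_lit 5) (nat_lit 102) (nat_lit 5) (nat_lit 99) (nat_lit 5) (nat_lit 537) (nat_lit 500) (nat_lit 163)) (XT.lf (nat_lit 0) (nat_lit 236449472778) (nat_lit 152) (nat_lit 630483313544) (nat_lit 228) (nat_lit 668221714520) (nat_lit 96) (nat_lit 5) (nat_lit 98) (nat_lit 5) (nat_lit 99) (nat_lit 5) (nat_lit 538) (nat_lit 500) (nat_lit 162))) (XT.nd (nat_lit 78) (nat_lit 228) (nat_lit 0) (XT.lf (nat_lit 0) (nat_lit 1220479499233) (nat_lit 152) (nat_lit 54817479072) (nat_lit 228) (nat_lit 307677849099) (nat_lit 96) (nat_lit 5) (nat_lit 98) (nat_lit 5) (nat_lit 99) (nat_lit 5) (nat_lit 539) (nat_lit 500) (nat_lit 161)) (XT.lf (nat_lit 0) (nat_lit 87378009161) (nat_lit 228) (nat_lit 1001495748054) (nat_lit 76) (nat_lit 543319379743) (nat_lit 93) (nat_lit 5) (nat_lit 96) (nat_lit 5) (nat_lit 94) (nat_lit 5) (nat_lit 540) (nat_lit 500) (nat_lit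 160)))))) (XT.nd (nat_lit 624) (nat_lit 1672) (nat_lit 0) (XT.nd (nat_lit 312) (nat_lit 0) (nat_lit 152) (XT.nd (nat_lit 156) (nat_lit 0) (nat_lit 76) (XT.nd (nat_lit 78) (nat_lit 0) (nat_lit 0) (XT.lf (nat_lit 0) (nat_lit 124153467958) (nat_lit 836) (nat_lit 78029029350) (nat_lit 836) (nat_lit 78029029350) (nat_lit 163) (nat_lit 3) (nat_lit 174) (nat_lit 3) (nat_lit 174) (nat_lit 5) (nat_lit 501) (nat_lit 501) (nat_lit 198)) (XT.lf (nat_lit 76) (nat_lit 127085687350) (nat_lit 0) (nat_lit 129413290655) (nat_lit 836) (nat_lit 317835433195) (nat_lit 164) (nat_lit 5) (nat_lit 163) (nat_lit 3) (nat_lit 174) (nat_lit 5) (nat_lit 502) (nat_lit 501) (nat_lit 197))) (XT.nd (nat_lit 78) (nat_lit 0) (nat_lit 0) (XT.lf (nat_lit 0) (nat_lit 270273755170) (nat_lit 760) (nat_lit 161534822174) (nat_lit 836) (nat_lit 156874102984) (nat_lit 164) (nat_lit 5) (nat_lit 174) (nat_lit 5) (nat_lit 175) (nat_lit 5) (nat_lit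 503) (nat_lit 501) (nat_lit 196)) (XT.lf (nat_lit 76) (nat_lit 140851360913) (nat_lit 0) (nat_lit 148206511605) (nat_lit 836) (nat_lit 314474460330) (nat_lit 165) (nat_lit 5) (nat_lit 164) (nat_lit 5) (nat_lit 175) (nat_lit 5) (nat_lit 504) (nat_lit 501) (nat_lit 195)))) (XT.nd (nat_lit 156) (nat_lit 0) (nat_lit 76) (XT.nd (nat_lit 78) (nat_lit 0) (nat_lit 0) (XT.lf (nat_lit 0) (nat_lit 313896996407) (nat_lit 760) (nat_lit 157402857357) (nat_lit 836) (nat_lit 147568824199) (nat_lit 165) (nat_lit 5) (nat_lit 175) (nat_lit 5) (nat_lit 176) (nat_lit 5) (nat_lit 505) (nat_lit 501) (nat_lit 194)) (XT.lf (nat_lit 76) (nat_lit 166023323525) (nat_lit 0) (nat_lit 178976445881) (nat_lit 836) (nat_lit 289720986280) (nat_lit 166) (nat_lit 5) (nat_lit 165) (nat_lit 5) (nat_lit 176) (nat_lit 5) (nat_lit 506) (nat_lit 501) (nat_lit 193))) (XT.nd (nat_lit 78) (nat_lit 0) (nat_lit 0) (XT.lf (nat_lit 0) (nat_lit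 382364926707) (nat_lit 760) (nat_lit 142188238542) (nat_lit 836) (nat_lit 126576909766) (nat_lit 166) (nat_lit 5) (nat_lit 176) (nat_lit 5) (nat_lit 177) (nat_lit 5) (nat_lit 507) (nat_lit 501) (nat_lit 192)) (XT.lf (nat_lit 76) (nat_lit 204249630645) (nat_lit 0) (nat_lit 223471650076) (nat_lit 836) (nat_lit 240332432648) (nat_lit 167) (nat_lit 5) (nat_lit 166) (nat_lit 5) (nat_lit 177) (nat_lit 5) (nat_lit 508) (nat_lit 501) (nat_lit 191))))) (XT.nd (nat_lit 312) (nat_lit 1292) (nat_lit 0) (XT.nd (nat_lit 156) (nat_lit 684) (nat_lit 0) (XT.nd (nat_lit 78) (nat_lit 0) (nat_lit 0) (XT.lf (nat_lit 0) (nat_lit 479239688734) (nat_lit 760) (nat_lit 114243512272) (nat_lit 836) (nat_lit 92145620820) (nat_lit 167) (nat_lit 5) (nat_lit 177) (nat_lit 5) (nat_lit 178) (nat_lit 5) (nat_lit 509) (nat_lit 501) (nat_lit 190)) (XT.lf (nat_lit 76) (nat_lit 257369025356) (nat_lit 0) (nat_lit 283646703724) (nat_lit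 836) (nat_lit 162682871030) (nat_lit 168) (nat_lit 5) (nat_lit 167) (nat_lit 5) (nat_lit 178) (nat_lit 5) (nat_lit 510) (nat_lit 501) (nat_lit 189))) (XT.nd (nat_lit 78) (nat_lit 760) (nat_lit 0) (XT.lf (nat_lit 0) (nat_lit 608497815861) (nat_lit 760) (nat_lit 71729154753) (nat_lit 76) (nat_lit 42314034474) (nat_lit 168) (nat_lit 5) (nat_lit 178) (nat_lit 5) (nat_lit 169) (nat_lit 5) (nat_lit 511) (nat_lit 501) (nat_lit 188)) (XT.lf (nat_lit 0) (nat_lit 327431174978) (nat_lit 760) (nat_lit 361684887521) (nat_lit 836) (nat_lit 52721365040) (nat_lit 158) (nat_lit 5) (nat_lit 168) (nat_lit 5) (nat_lit 169) (nat_lit 5) (nat_lit 512) (nat_lit 501) (nat_lit 187)))) (XT.nd (nat_lit 156) (nat_lit 760) (nat_lit 0) (XT.nd (nat_lit 78) (nat_lit 456) (nat_lit 0) (XT.lf (nat_lit 0) (nat_lit 12527821504) (nat_lit 836) (nat_lit 13200206924) (nat_lit 76) (nat_lit 736299801629) (nat_lit 157) (nat_lit 5) (nat_lit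 168) (nat_lit 5) (nat_lit 158) (nat_lit 5) (nat_lit 513) (nat_lit 501) (nat_lit 186)) (XT.lf (nat_lit 0) (nat_lit 91063087273) (nat_lit 532) (nat_lit 367418009270) (nat_lit 76) (nat_lit 324113671750) (nat_lit 151) (nat_lit 5) (nat_lit 158) (nat_lit 5) (nat_lit 152) (nat_lit 5) (nat_lit 514) (nat_lit 501) (nat_lit 185))) (XT.nd (nat_lit 78) (nat_lit 380) (nat_lit 0) (XT.lf (nat_lit 0) (nat_lit 62837735197) (nat_lit 380) (nat_lit 112317434050) (nat_lit 456) (nat_lit 628953381548) (nat_lit 146) (nat_lit 5) (nat_lit 151) (nat_lit 5) (nat_lit 152) (nat_lit 5) (nat_lit 515) (nat_lit 501) (nat_lit 184)) (XT.nd (nat_lit 78) (nat_lit 380) (nat_lit 0) (XT.lf (nat_lit 0) (nat_lit 273697480288) (nat_lit 456) (nat_lit 303047950697) (nat_lit 76) (nat_lit 249440310189) (nat_lit 146) (nat_lit 5) (nat_lit 152) (nat_lit 5) (nat_lit 147) (nat_lit 5) (nat_lit 516) (nat_lit 501) (nat_lit 183)) (XT.lf (nat_lit 0) (nat_lit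 160377873896) (nat_lit 380) (nat_lit 221134243215) (nat_lit 456) (nat_lit 467637413450) (nat_lit 141) (nat_lit 5) (nat_lit 146) (nat_lit 5) (nat_lit 147) (nat_lit 5) (nat_lit 517) (nat_lit 501) (nat_lit 182))))))))
noncomputable def xc494 : XT := (XT.nd (nat_lit 1248) (nat_lit 836) (nat_lit 0) (XT.nd (nat_lit 624) (nat_lit 1292) (nat_lit 0) (XT.nd (nat_lit 312) (nat_lit 684) (nat_lit 0) (XT.nd (nat_lit 156) (nat_lit 304) (nat_lit 0) (XT.nd (nat_lit 78) (nat_lit 304) (nat_lit 0) (XT.lf (nat_lit 0) (nat_lit 502311044233) (nat_lit 456) (nat_lit 217970075680) (nat_lit 76) (nat_lit 152600711582) (nat_lit 141) (nat_lit 5) (nat_lit 147) (nat_lit 5) (nat_lit 142) (nat_lit 5) (nat_lit 518) (nat_lit 501) (nat_lit 181)) (XT.lf (nat_lit 0) (nat_lit 281764653876) (nat_lit 304) (nat_lit 355409544558) (nat_lit 380) (nat_lit 260225335007) (nat_lit 137) (nat_lit 5) (nat_lit 141) (nat_lit 5) (nat_lit 142) (nat_lit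 5) (nat_lit 519) (nat_lit 501) (nat_lit 180))) (XT.nd (nat_lit 78) (nat_lit 304) (nat_lit 0) (XT.lf (nat_lit 0) (nat_lit 782965009973) (nat_lit 380) (nat_lit 109398085453) (nat_lit 76) (nat_lit 30570800076) (nat_lit 137) (nat_lit 5) (nat_lit 142) (nat_lit 5) (nat_lit 138) (nat_lit 5) (nat_lit 520) (nat_lit 501) (nat_lit 179)) (XT.lf (nat_lit 0) (nat_lit 430089711777) (nat_lit 304) (nat_lit 518496935816) (nat_lit 380) (nat_lit 531263798) (nat_lit 133) (nat_lit 5) (nat_lit 137) (nat_lit 5) (nat_lit 138) (nat_lit 5) (nat_lit 521) (nat_lit 501) (nat_lit 178)))) (XT.nd (nat_lit 156) (nat_lit 304) (nat_lit 0) (XT.nd (nat_lit 78) (nat_lit 0) (nat_lit 0) (XT.lf (nat_lit 0) (nat_lit 22235177451) (nat_lit 304) (nat_lit 121204276009) (nat_lit 380) (nat_lit 832946284754) (nat_lit 128) (nat_lit 5) (nat_lit 132) (nat_lit 5) (nat_lit 133) (nat_lit 5) (nat_lit 522) (nat_lit 501) (nat_lit 177)) (XT.lf (nat_lit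 0) (nat_lit 308145594637) (nat_lit 380) (nat_lit 400769717318) (nat_lit 76) (nat_lit 295423471860) (nat_lit 128) (nat_lit 5) (nat_lit 133) (nat_lit 5) (nat_lit 129) (nat_lit 5) (nat_lit 523) (nat_lit 501) (nat_lit 176))) (XT.nd (nat_lit 78) (nat_lit 0) (nat_lit 0) (XT.lf (nat_lit 0) (nat_lit 184188384302) (nat_lit 304) (nat_lit 301761305106) (nat_lit 380) (nat_lit 547496659962) (nat_lit 124) (nat_lit 5) (nat_lit 128) (nat_lit 5) (nat_lit 129) (nat_lit 5) (nat_lit 524) (nat_lit 501) (nat_lit 175)) (XT.lf (nat_lit 0) (nat_lit 681505794703) (nat_lit 380) (nat_lit 253436310729) (nat_lit 76) (nat_lit 128624097482) (nat_lit 124) (nat_lit 5) (nat_lit 129) (nat_lit 5) (nat_lit 125) (nat_lit 5) (nat_lit 525) (nat_lit 501) (nat_lit 174))))) (XT.nd (nat_lit 312) (nat_lit 456) (nat_lit 0) (XT.nd (nat_lit 156) (nat_lit 532) (nat_lit 0) (XT.nd (nat_lit 78) (nat_lit 76) (nat_lit 0) (XT.lf (nat_lit 0) (nat_lit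 379371778819) (nat_lit 228) (nat_lit 518337884462) (nat_lit 304) (nat_lit 196938887952) (nat_lit 121) (nat_lit 5) (nat_lit 124) (nat_lit 5) (nat_lit 125) (nat_lit 5) (nat_lit 526) (nat_lit 501) (nat_lit 173)) (XT.lf (nat_lit 0) (nat_lit 1883108729) (nat_lit 304) (nat_lit 74481784243) (nat_lit 76) (nat_lit 1050704002291) (nat_lit 120) (nat_lit 5) (nat_lit 124) (nat_lit 5) (nat_lit 121) (nat_lit 5) (nat_lit 527) (nat_lit 501) (nat_lit 172))) (XT.nd (nat_lit 78) (nat_lit 228) (nat_lit 0) (XT.lf (nat_lit 0) (nat_lit 219890015794) (nat_lit 380) (nat_lit 551930422726) (nat_lit 76) (nat_lit 388335280226) (nat_lit 116) (nat_lit 5) (nat_lit 121) (nat_lit 5) (nat_lit 117) (nat_lit 5) (nat_lit 528) (nat_lit 501) (nat_lit 171)) (XT.lf (nat_lit 0) (nat_lit 135896730811) (nat_lit 228) (nat_lit 317556208345) (nat_lit 304) (nat_lit 741211160701) (nat_lit 113) (nat_lit 5) (nat_lit 116) (nat_lit 5) (nat_lit 117)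 (nat_lit 5) (nat_lit 529) (nat_lit 501) (nat_lit 170)))) (XT.nd (nat_lit 156) (nat_lit 228) (nat_lit 0) (XT.nd (nat_lit 78) (nat_lit 228) (nat_lit 0) (XT.lf (nat_lit 0) (nat_lit 710683457852) (nat_lit 304) (nat_lit 355795771673) (nat_lit 76) (nat_lit 163819198040) (nat_lit 113) (nat_lit 5) (nat_lit 117) (nat_lit 5) (nat_lit 114) (nat_lit 5) (nat_lit 530) (nat_lit 501) (nat_lit 169)) (XT.lf (nat_lit 0) (nat_lit 389587802173) (nat_lit 228) (nat_lit 602476092659) (nat_lit 304) (nat_lit 275086157211) (nat_lit 110) (nat_lit 5) (nat_lit 113) (nat_lit 5) (nat_lit 114) (nat_lit 5) (nat_lit 531) (nat_lit 501) (nat_lit 168))) (XT.nd (nat_lit 78) (nat_lit 228) (nat_lit 0) (XT.lf (nat_lit 0) (nat_lit 1184592973995) (nat_lit 228) (nat_lit 108945948791) (nat_lit 304) (nat_lit 12004056501) (nat_lit 110) (nat_lit 5) (nat_lit 113) (nat_lit 5) (nat_lit 114) (nat_lit 5) (nat_lit 532) (nat_lit 501) (nat_lit 167))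 (XT.lf (nat_lit 0) (nat_lit 273205638817) (nat_lit 228) (nat_lit 660244042826) (nat_lit 76) (nat_lit 411328072608) (nat_lit 107) (nat_lit 5) (nat_lit 110) (nat_lit 5) (nat_lit 108) (nat_lit 5) (nat_lit 533) (nat_lit 501) (nat_lit 166)))))) (XT.nd (nat_lit 60060) (nat_lit 0) (nat_lit 5092) (XT.nd (nat_lit 312) (nat_lit 380) (nat_lit 0) (XT.nd (nat_lit 156) (nat_lit 228) (nat_lit 0) (XT.nd (nat_lit 78) (nat_lit 0) (nat_lit 0) (XT.lf (nat_lit 0) (nat_lit 151449842374) (nat_lit 228) (nat_lit 427055039262) (nat_lit 304) (nat_lit 807147923048) (nat_lit 104) (nat_lit 5) (nat_lit 107) (nat_lit 5) (nat_lit 108) (nat_lit 5) (nat_lit 534) (nat_lit 501) (nat_lit 165)) (XT.lf (nat_lit 0) (nat_lit 912067964460) (nat_lit 304) (nat_lit 403179262038) (nat_lit 76) (nat_lit 112674437250) (nat_lit 104) (nat_lit 5) (nat_lit 108) (nat_lit 5) (nat_lit 105) (nat_lit 5) (nat_lit 535) (nat_lit 501) (nat_lit 164))) (XT.nd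 (nat_lit 78) (nat_lit 76) (nat_lit 0) (XT.lf (nat_lit 0) (nat_lit 477683572304) (nat_lit 152) (nat_lit 799084506728) (nat_lit 228) (nat_lit 194812942850) (nat_lit 102) (nat_lit 5) (nat_lit 104) (nat_lit 5) (nat_lit 105) (nat_lit 5) (nat_lit 536) (nat_lit 501) (nat_lit 163)) (XT.lf (nat_lit 0) (nat_lit 144665974596) (nat_lit 228) (nat_lit 102828252624) (nat_lit 76) (nat_lit 1269471052995) (nat_lit 101) (nat_lit 5) (nat_lit 104) (nat_lit 5) (nat_lit 102) (nat_lit 5) (nat_lit 537) (nat_lit 501) (nat_lit 162)))) (XT.nd (nat_lit 156) (nat_lit 0) (nat_lit 0) (XT.nd (nat_lit 78) (nat_lit 152) (nat_lit 0) (XT.lf (nat_lit 0) (nat_lit 513402594105) (nat_lit 304) (nat_lit 712209040521) (nat_lit 76) (nat_lit 337905896670) (nat_lit 98) (nat_lit 5) (nat_lit 102) (nat_lit 5) (nat_lit 99) (nat_lit 5) (nat_lit 538) (nat_lit 501) (nat_lit 161)) (XT.lf (nat_lit 0) (nat_lit 248272135623) (nat_lit 152) (nat_lit 662007406034)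 (nat_lit 228) (nat_lit 701632678421) (nat_lit 96) (nat_lit 5) (nat_lit 98) (nat_lit 5) (nat_lit 99) (nat_lit 5) (nat_lit 539) (nat_lit 501) (nat_lit 160))) (XT.nd (nat_lit 59514) (nat_lit 0) (nat_lit 5092) (XT.lf (nat_lit 0) (nat_lit 1281503654390) (nat_lit 152) (nat_lit 57558283324) (nat_lit 228) (nat_lit 323061625530) (nat_lit 96) (nat_lit 5) (nat_lit 98) (nat_lit 5) (nat_lit 99) (nat_lit 5) (nat_lit 540) (nat_lit 501) (nat_lit 159)) (XT.lf (nat_lit 0) (nat_lit 130361343109) (nat_lit 836) (nat_lit 81930374889) (nat_lit 836) (nat_lit 81930374889) (nat_lit 163) (nat_lit 3) (nat_lit 174) (nat_lit 3) (nat_lit 174) (nat_lit 5) (nat_lit 502) (nat_lit 502) (nat_lit 196))))) (XT.nd (nat_lit 312) (nat_lit 0) (nat_lit 152) (XT.nd (nat_lit 156) (nat_lit 0) (nat_lit 76) (XT.nd (nat_lit 78) (nat_lit 0) (nat_lit 76) (XT.lf (nat_lit 76) (nat_lit 133440180157) (nat_lit 0) (nat_lit 135884134295) (nat_lit 836)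 (nat_lit 333726797901) (nat_lit 164) (nat_lit 5) (nat_lit 163) (nat_lit 3) (nat_lit 174) (nat_lit 5) (nat_lit 503) (nat_lit 502) (nat_lit 195)) (XT.lf (nat_lit 0) (nat_lit 283787809358) (nat_lit 760) (nat_lit 169611343623) (nat_lit 836) (nat_lit 164717643014) (nat_lit 164) (nat_lit 5) (nat_lit 174) (nat_lit 5) (nat_lit 175) (nat_lit 5) (nat_lit 504) (nat_lit 502) (nat_lit 194))) (XT.nd (nat_lit 78) (nat_lit 0) (nat_lit 76) (XT.lf (nat_lit 76) (nat_lit 147894145076) (nat_lit 0) (nat_lit 155616973422) (nat_lit 836) (nat_lit 330197813348) (nat_lit 165) (nat_lit 5) (nat_lit 164) (nat_lit 5) (nat_lit 175) (nat_lit 5) (nat_lit 505) (nat_lit 502) (nat_lit 193)) (XT.lf (nat_lit 0) (nat_lit 329592179777) (nat_lit 760) (nat_lit 165272775568) (nat_lit 836) (nat_lit 154947139812) (nat_lit 165) (nat_lit 5) (nat_lit 175) (nat_lit 5) (nat_lit 176) (nat_lit 5) (nat_lit 506) (nat_lit 502) (nat_lit 192)))) (XT.nd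 (nat_lit 156) (nat_lit 0) (nat_lit 76) (XT.nd (nat_lit 78) (nat_lit 0) (nat_lit 76) (XT.lf (nat_lit 76) (nat_lit 174324710734) (nat_lit 0) (nat_lit 187925368260) (nat_lit 836) (nat_lit 304206698397) (nat_lit 166) (nat_lit 5) (nat_lit 165) (nat_lit 5) (nat_lit 176) (nat_lit 5) (nat_lit 507) (nat_lit 502) (nat_lit 191)) (XT.lf (nat_lit 0) (nat_lit 401483477380) (nat_lit 760) (nat_lit 149297423160) (nat_lit 836) (nat_lit 132905662987) (nat_lit 166) (nat_lit 5) (nat_lit 176) (nat_lit 5) (nat_lit 177) (nat_lit 5) (nat_lit 508) (nat_lit 502) (nat_lit 190))) (XT.nd (nat_lit 78) (nat_lit 0) (nat_lit 76) (XT.lf (nat_lit 76) (nat_lit 214462335821) (nat_lit 0) (nat_lit 234645302274) (nat_lit 836) (nat_lit 252348746254) (nat_lit 167) (nat_lit 5) (nat_lit 166) (nat_lit 5) (nat_lit 177) (nat_lit 5) (nat_lit 509) (nat_lit 502) (nat_lit 189)) (XT.nd (nat_lit 78) (nat_lit 0) (nat_lit 0) (XT.lf (nat_lit 0) (nat_lit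 503201951503) (nat_lit 760) (nat_lit 119955459866) (nat_lit 836) (nat_lit 96752837611) (nat_lit 167) (nat_lit 5) (nat_lit 177) (nat_lit 5) (nat_lit 178) (nat_lit 5) (nat_lit 510) (nat_lit 502) (nat_lit 188)) (XT.lf (nat_lit 76) (nat_lit 270237700966) (nat_lit 0) (nat_lit 297829083149) (nat_lit 836) (nat_lit 170816732552) (nat_lit 168) (nat_lit 5) (nat_lit 167) (nat_lit 5) (nat_lit 178) (nat_lit 5) (nat_lit 511) (nat_lit 502) (nat_lit 187))))))))
noncomputable def xc495 : XT := (XT.nd (nat_lit 1248) (nat_lit 1748) (nat_lit 0) (XT.nd (nat_lit 624) (nat_lit 1520) (nat_lit 0) (XT.nd (nat_lit 312) (nat_lit 760) (nat_lit 0) (XT.nd (nat_lit 156) (nat_lit 532) (nat_lit 0) (XT.nd (nat_lit 78) (nat_lit 760) (nat_lit 0) (XT.lf (nat_lit 0) (nat_lit 638922961788) (nat_lit 760) (nat_lit 75315385365) (nat_lit 76) (nat_lit 44429695414) (nat_lit 168) (nat_lit 5) (nat_lit 178) (nat_lit 5) (nat_lit 169) (nat_lit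 5) (nat_lit 512) (nat_lit 502) (nat_lit 186)) (XT.lf (nat_lit 0) (nat_lit 343802957190) (nat_lit 760) (nat_lit 379769154909) (nat_lit 836) (nat_lit 55357174477) (nat_lit 158) (nat_lit 5) (nat_lit 168) (nat_lit 5) (nat_lit 169) (nat_lit 5) (nat_lit 513) (nat_lit 502) (nat_lit 185))) (XT.nd (nat_lit 78) (nat_lit 456) (nat_lit 0) (XT.lf (nat_lit 0) (nat_lit 13154451180) (nat_lit 836) (nat_lit 13859996544) (nat_lit 76) (nat_lit 773114761889) (nat_lit 157) (nat_lit 5) (nat_lit 168) (nat_lit 5) (nat_lit 158) (nat_lit 5) (nat_lit 514) (nat_lit 502) (nat_lit 184)) (XT.lf (nat_lit 0) (nat_lit 95616472056) (nat_lit 532) (nat_lit 385788680809) (nat_lit 76) (nat_lit 340319342305) (nat_lit 151) (nat_lit 5) (nat_lit 158) (nat_lit 5) (nat_lit 152) (nat_lit 5) (nat_lit 515) (nat_lit 502) (nat_lit 183)))) (XT.nd (nat_lit 156) (nat_lit 380) (nat_lit 0) (XT.nd (nat_lit 78) (nat_lit 0) (nat_lit 0) (XT.lf (nat_lit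 0) (nat_lit 65979847189) (nat_lit 380) (nat_lit 117933303484) (nat_lit 456) (nat_lit 660400816498) (nat_lit 146) (nat_lit 5) (nat_lit 151) (nat_lit 5) (nat_lit 152) (nat_lit 5) (nat_lit 516) (nat_lit 502) (nat_lit 182)) (XT.lf (nat_lit 0) (nat_lit 287382566683) (nat_lit 456) (nat_lit 318200123128) (nat_lit 76) (nat_lit 261912327789) (nat_lit 146) (nat_lit 5) (nat_lit 152) (nat_lit 5) (nat_lit 147) (nat_lit 5) (nat_lit 517) (nat_lit 502) (nat_lit 181))) (XT.nd (nat_lit 78) (nat_lit 0) (nat_lit 0) (XT.lf (nat_lit 0) (nat_lit 168396989064) (nat_lit 380) (nat_lit 232190939627) (nat_lit 456) (nat_lit 491019068098) (nat_lit 141) (nat_lit 5) (nat_lit 146) (nat_lit 5) (nat_lit 147) (nat_lit 5) (nat_lit 518) (nat_lit 502) (nat_lit 180)) (XT.lf (nat_lit 0) (nat_lit 527426792607) (nat_lit 456) (nat_lit 228868358962) (nat_lit 76) (nat_lit 160230761680) (nat_lit 141) (nat_lit 5) (nat_lit 147) (nat_lit 5) (nat_lit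 142) (nat_lit 5) (nat_lit 519) (nat_lit 502) (nat_lit 179))))) (XT.nd (nat_lit 312) (nat_lit 532) (nat_lit 0) (XT.nd (nat_lit 156) (nat_lit 684) (nat_lit 0) (XT.nd (nat_lit 78) (nat_lit 0) (nat_lit 0) (XT.lf (nat_lit 0) (nat_lit 295853103515) (nat_lit 304) (nat_lit 373179995048) (nat_lit 380) (nat_lit 273236402026) (nat_lit 137) (nat_lit 5) (nat_lit 141) (nat_lit 5) (nat_lit 142) (nat_lit 5) (nat_lit 520) (nat_lit 502) (nat_lit 178)) (XT.lf (nat_lit 0) (nat_lit 822113442020) (nat_lit 380) (nat_lit 114867774439) (nat_lit 76) (nat_lit 32099364729) (nat_lit 137) (nat_lit 5) (nat_lit 142) (nat_lit 5) (nat_lit 138) (nat_lit 5) (nat_lit 521) (nat_lit 502) (nat_lit 177))) (XT.nd (nat_lit 78) (nat_lit 380) (nat_lit 0) (XT.lf (nat_lit 0) (nat_lit 451594409181) (nat_lit 304) (nat_lit 544421747003) (nat_lit 380) (nat_lit 557641956) (nat_lit 133) (nat_lit 5) (nat_lit 137) (nat_lit 5) (nat_lit 138) (nat_lit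 5) (nat_lit 522) (nat_lit 502) (nat_lit 176)) (XT.lf (nat_lit 0) (nat_lit 23347150559) (nat_lit 304) (nat_lit 127264449500) (nat_lit 380) (nat_lit 874593416359) (nat_lit 128) (nat_lit 5) (nat_lit 132) (nat_lit 5) (nat_lit 133) (nat_lit 5) (nat_lit 523) (nat_lit 502) (nat_lit 175)))) (XT.nd (nat_lit 156) (nat_lit 228) (nat_lit 0) (XT.nd (nat_lit 78) (nat_lit 304) (nat_lit 0) (XT.lf (nat_lit 0) (nat_lit 323553040612) (nat_lit 380) (nat_lit 420807991458) (nat_lit 76) (nat_lit 310194682614) (nat_lit 128) (nat_lit 5) (nat_lit 133) (nat_lit 5) (nat_lit 129) (nat_lit 5) (nat_lit 524) (nat_lit 502) (nat_lit 174)) (XT.lf (nat_lit 0) (nat_lit 193398011828) (nat_lit 304) (nat_lit 316849323629) (nat_lit 380) (nat_lit 574871323293) (nat_lit 124) (nat_lit 5) (nat_lit 128) (nat_lit 5) (nat_lit 129) (nat_lit 5) (nat_lit 525) (nat_lit 502) (nat_lit 173))) (XT.nd (nat_lit 78) (nat_lit 228) (nat_lit 0) (XT.lf (nat_lit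 0) (nat_lit 715581239017) (nat_lit 380) (nat_lit 266107920865) (nat_lit 76) (nat_lit 135055345439) (nat_lit 124) (nat_lit 5) (nat_lit 129) (nat_lit 5) (nat_lit 125) (nat_lit 5) (nat_lit 526) (nat_lit 502) (nat_lit 172)) (XT.lf (nat_lit 0) (nat_lit 398340569846) (nat_lit 228) (nat_lit 544254726973) (nat_lit 304) (nat_lit 206785674449) (nat_lit 121) (nat_lit 5) (nat_lit 124) (nat_lit 5) (nat_lit 125) (nat_lit 5) (nat_lit 527) (nat_lit 502) (nat_lit 171)))))) (XT.nd (nat_lit 702) (nat_lit 456) (nat_lit 0) (XT.nd (nat_lit 312) (nat_lit 684) (nat_lit 0) (XT.nd (nat_lit 156) (nat_lit 228) (nat_lit 0) (XT.nd (nat_lit 78) (nat_lit 304) (nat_lit 0) (XT.lf (nat_lit 0) (nat_lit 1977409734) (nat_lit 304) (nat_lit 78205676170) (nat_lit 76) (nat_lit 1103239246835) (nat_lit 120) (nat_lit 5) (nat_lit 124) (nat_lit 5) (nat_lit 121) (nat_lit 5) (nat_lit 528) (nat_lit 502) (nat_lit 170)) (XT.lf (nat_lit 0) (nat_lit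 230884659070) (nat_lit 380) (nat_lit 579526743488) (nat_lit 76) (nat_lit 407752094994) (nat_lit 116) (nat_lit 5) (nat_lit 121) (nat_lit 5) (nat_lit 117) (nat_lit 5) (nat_lit 529) (nat_lit 502) (nat_lit 169))) (XT.nd (nat_lit 78) (nat_lit 0) (nat_lit 0) (XT.lf (nat_lit 0) (nat_lit 142691764495) (nat_lit 228) (nat_lit 333433960399) (nat_lit 304) (nat_lit 778271573011) (nat_lit 113) (nat_lit 5) (nat_lit 116) (nat_lit 5) (nat_lit 117) (nat_lit 5) (nat_lit 530) (nat_lit 502) (nat_lit 168)) (XT.lf (nat_lit 0) (nat_lit 746217763783) (nat_lit 304) (nat_lit 373585366755) (nat_lit 76) (nat_lit 172010211748) (nat_lit 113) (nat_lit 5) (nat_lit 117) (nat_lit 5) (nat_lit 114) (nat_lit 5) (nat_lit 531) (nat_lit 502) (nat_lit 167)))) (XT.nd (nat_lit 156) (nat_lit 456) (nat_lit 0) (XT.nd (nat_lit 78) (nat_lit 0) (nat_lit 0) (XT.lf (nat_lit 0) (nat_lit 409067382662) (nat_lit 228) (nat_lit 632599836586) (nat_lit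 304) (nat_lit 288840328906) (nat_lit 110) (nat_lit 5) (nat_lit 113) (nat_lit 5) (nat_lit 114) (nat_lit 5) (nat_lit 532) (nat_lit 502) (nat_lit 166)) (XT.lf (nat_lit 0) (nat_lit 1243822804010) (nat_lit 228) (nat_lit 114393188415) (nat_lit 304) (nat_lit 12604129645) (nat_lit 110) (nat_lit 5) (nat_lit 113) (nat_lit 5) (nat_lit 114) (nat_lit 5) (nat_lit 533) (nat_lit 502) (nat_lit 165))) (XT.nd (nat_lit 78) (nat_lit 228) (nat_lit 0) (XT.lf (nat_lit 0) (nat_lit 286866044098) (nat_lit 228) (nat_lit 693256057299) (nat_lit 76) (nat_lit 431894534394) (nat_lit 107) (nat_lit 5) (nat_lit 110) (nat_lit 5) (nat_lit 108) (nat_lit 5) (nat_lit 534) (nat_lit 502) (nat_lit 164)) (XT.lf (nat_lit 0) (nat_lit 159022519133) (nat_lit 228) (nat_lit 448407726934) (nat_lit 304) (nat_lit 847505192829) (nat_lit 104) (nat_lit 5) (nat_lit 107) (nat_lit 5) (nat_lit 108) (nat_lit 5) (nat_lit 535) (nat_lit 502) (nat_lit 163)))))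 (XT.nd (nat_lit 59904) (nat_lit 0) (nat_lit 4940) (XT.nd (nat_lit 156) (nat_lit 228) (nat_lit 0) (XT.nd (nat_lit 78) (nat_lit 76) (nat_lit 0) (XT.lf (nat_lit 0) (nat_lit 501567928634) (nat_lit 152) (nat_lit 839038667195) (nat_lit 228) (nat_lit 204553471500) (nat_lit 102) (nat_lit 5) (nat_lit 104) (nat_lit 5) (nat_lit 105) (nat_lit 5) (nat_lit 537) (nat_lit 502) (nat_lit 161)) (XT.lf (nat_lit 0) (nat_lit 151899382564) (nat_lit 228) (nat_lit 107969492387) (nat_lit 76) (nat_lit 1332944663808) (nat_lit 101) (nat_lit 5) (nat_lit 104) (nat_lit 5) (nat_lit 102) (nat_lit 5) (nat_lit 538) (nat_lit 502) (nat_lit 160))) (XT.nd (nat_lit 59670) (nat_lit 0) (nat_lit 4940) (XT.lf (nat_lit 0) (nat_lit 539072831492) (nat_lit 304) (nat_lit 747819318118) (nat_lit 76) (nat_lit 354801252863) (nat_lit 98) (nat_lit 5) (nat_lit 102) (nat_lit 5) (nat_lit 99) (nat_lit 5) (nat_lit 539) (nat_lit 502) (nat_lit 159)) (XT.lf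 (nat_lit 0) (nat_lit 136879593261) (nat_lit 836) (nat_lit 86026797553) (nat_lit 836) (nat_lit 86026797553) (nat_lit 163) (nat_lit 3) (nat_lit 174) (nat_lit 3) (nat_lit 174) (nat_lit 5) (nat_lit 503) (nat_lit 503) (nat_lit 194)))) (XT.nd (nat_lit 156) (nat_lit 0) (nat_lit 76) (XT.nd (nat_lit 78) (nat_lit 0) (nat_lit 76) (XT.lf (nat_lit 76) (nat_lit 140112378226) (nat_lit 0) (nat_lit 142678503465) (nat_lit 836) (nat_lit 350412768677) (nat_lit 164) (nat_lit 5) (nat_lit 163) (nat_lit 3) (nat_lit 174) (nat_lit 5) (nat_lit 504) (nat_lit 503) (nat_lit 193)) (XT.lf (nat_lit 0) (nat_lit 297977532187) (nat_lit 760) (nat_lit 178091711566) (nat_lit 836) (nat_lit 172953375398) (nat_lit 164) (nat_lit 5) (nat_lit 174) (nat_lit 5) (nat_lit 175) (nat_lit 5) (nat_lit 505) (nat_lit 503) (nat_lit 192))) (XT.nd (nat_lit 78) (nat_lit 0) (nat_lit 76) (XT.lf (nat_lit 76) (nat_lit 155289048355) (nat_lit 0) (nat_lit 163397945664)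 (nat_lit 836) (nat_lit 346707368416) (nat_lit 165) (nat_lit 5) (nat_lit 164) (nat_lit 5) (nat_lit 175) (nat_lit 5) (nat_lit 506) (nat_lit 503) (nat_lit 191)) (XT.nd (nat_lit 78) (nat_lit 0) (nat_lit 0) (XT.lf (nat_lit 0) (nat_lit 346072091305) (nat_lit 760) (nat_lit 173536210577) (nat_lit 836) (nat_lit 162694382883) (nat_lit 165) (nat_lit 5) (nat_lit 175) (nat_lit 5) (nat_lit 176) (nat_lit 5) (nat_lit 507) (nat_lit 503) (nat_lit 190)) (XT.lf (nat_lit 76) (nat_lit 183041146753) (nat_lit 0) (nat_lit 197321727453) (nat_lit 836) (nat_lit 319416727469) (nat_lit 166) (nat_lit 5) (nat_lit 165) (nat_lit 5) (nat_lit 176) (nat_lit 5) (nat_lit 508) (nat_lit 503) (nat_lit 189))))))))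
noncomputable def xc496 : XT := (XT.nd (nat_lit 1248) (nat_lit 2052) (nat_lit 0) (XT.nd (nat_lit 624) (nat_lit 1748) (nat_lit 0) (XT.nd (nat_lit 312) (nat_lit 1140) (nat_lit 0) (XT.nd (nat_lit 156) (nat_lit 0) (nat_lit 76) (XT.nd (nat_lit 78) (nat_lit 0) (nat_lit 0) (XT.lf (nat_lit 0) (nat_lit 421557927292) (nat_lit 760) (nat_lit 156762088141) (nat_lit 836) (nat_lit 139550862446) (nat_lit 166) (nat_lit 5) (nat_lit 176) (nat_lit 5) (nat_lit 177) (nat_lit 5) (nat_lit 509) (nat_lit 503) (nat_lit 188)) (XT.lf (nat_lit 76) (nat_lit 225185655463) (nat_lit 0) (nat_lit 246377630601) (nat_lit 836) (nat_lit 264965904178) (nat_lit 167) (nat_lit 5) (nat_lit 166) (nat_lit 5) (nat_lit 177) (nat_lit 5) (nat_lit 510) (nat_lit 503) (nat_lit 187))) (XT.nd (nat_lit 78) (nat_lit 0) (nat_lit 0) (XT.lf (nat_lit 0) (nat_lit 528362301534) (nat_lit 760) (nat_lit 125953026039) (nat_lit 836) (nat_lit 101590421214) (nat_lit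 167) (nat_lit 5) (nat_lit 177) (nat_lit 5) (nat_lit 178) (nat_lit 5) (nat_lit 511) (nat_lit 503) (nat_lit 186)) (XT.lf (nat_lit 76) (nat_lit 283749789499) (nat_lit 0) (nat_lit 312720577433) (nat_lit 836) (nat_lit 179357313370) (nat_lit 168) (nat_lit 5) (nat_lit 167) (nat_lit 5) (nat_lit 178) (nat_lit 5) (nat_lit 512) (nat_lit 503) (nat_lit 185)))) (XT.nd (nat_lit 156) (nat_lit 532) (nat_lit 0) (XT.nd (nat_lit 78) (nat_lit 760) (nat_lit 0) (XT.lf (nat_lit 0) (nat_lit 670869341291) (nat_lit 760) (nat_lit 79080948624) (nat_lit 76) (nat_lit 46651143193) (nat_lit 168) (nat_lit 5) (nat_lit 178) (nat_lit 5) (nat_lit 169) (nat_lit 5) (nat_lit 513) (nat_lit 503) (nat_lit 184)) (XT.lf (nat_lit 0) (nat_lit 360993307736) (nat_lit 760) (nat_lit 398757633526) (nat_lit 836) (nat_lit 58124798448) (nat_lit 158) (nat_lit 5) (nat_lit 168) (nat_lit 5) (nat_lit 169) (nat_lit 5) (nat_lit 514) (nat_lit 503) (nat_lit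 183))) (XT.nd (nat_lit 78) (nat_lit 456) (nat_lit 0) (XT.lf (nat_lit 0) (nat_lit 13812390158) (nat_lit 836) (nat_lit 14552796165) (nat_lit 76) (nat_lit 811770472935) (nat_lit 157) (nat_lit 5) (nat_lit 168) (nat_lit 5) (nat_lit 158) (nat_lit 5) (nat_lit 515) (nat_lit 503) (nat_lit 182)) (XT.lf (nat_lit 0) (nat_lit 100397504657) (nat_lit 532) (nat_lit 405077907209) (nat_lit 76) (nat_lit 357335297600) (nat_lit 151) (nat_lit 5) (nat_lit 158) (nat_lit 5) (nat_lit 152) (nat_lit 5) (nat_lit 516) (nat_lit 503) (nat_lit 181))))) (XT.nd (nat_lit 312) (nat_lit 988) (nat_lit 0) (XT.nd (nat_lit 156) (nat_lit 380) (nat_lit 0) (XT.nd (nat_lit 78) (nat_lit 0) (nat_lit 0) (XT.lf (nat_lit 0) (nat_lit 69279043840) (nat_lit 380) (nat_lit 123829966602) (nat_lit 456) (nat_lit 693420644963) (nat_lit 146) (nat_lit 5) (nat_lit 151) (nat_lit 5) (nat_lit 152) (nat_lit 5) (nat_lit 517) (nat_lit 503) (nat_lit 180)) (XT.lf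 (nat_lit 0) (nat_lit 301751887652) (nat_lit 456) (nat_lit 334109925108) (nat_lit 76) (nat_lit 275007946075) (nat_lit 146) (nat_lit 5) (nat_lit 152) (nat_lit 5) (nat_lit 147) (nat_lit 5) (nat_lit 518) (nat_lit 503) (nat_lit 179))) (XT.nd (nat_lit 78) (nat_lit 0) (nat_lit 0) (XT.lf (nat_lit 0) (nat_lit 176817039401) (nat_lit 380) (nat_lit 243800472323) (nat_lit 456) (nat_lit 515569825563) (nat_lit 141) (nat_lit 5) (nat_lit 146) (nat_lit 5) (nat_lit 147) (nat_lit 5) (nat_lit 519) (nat_lit 503) (nat_lit 178)) (XT.lf (nat_lit 0) (nat_lit 553798310163) (nat_lit 456) (nat_lit 240311576908) (nat_lit 76) (nat_lit 168242312933) (nat_lit 141) (nat_lit 5) (nat_lit 147) (nat_lit 5) (nat_lit 142) (nat_lit 5) (nat_lit 520) (nat_lit 503) (nat_lit 177)))) (XT.nd (nat_lit 156) (nat_lit 684) (nat_lit 0) (XT.nd (nat_lit 78) (nat_lit 0) (nat_lit 0) (XT.lf (nat_lit 0) (nat_lit 310645955468) (nat_lit 304) (nat_lit 391838970549)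 (nat_lit 380) (nat_lit 286898040965) (nat_lit 137) (nat_lit 5) (nat_lit 141) (nat_lit 5) (nat_lit 142) (nat_lit 5) (nat_lit 521) (nat_lit 503) (nat_lit 176)) (XT.lf (nat_lit 0) (nat_lit 863219278791) (nat_lit 380) (nat_lit 120610967889) (nat_lit 76) (nat_lit 33704355323) (nat_lit 137) (nat_lit 5) (nat_lit 142) (nat_lit 5) (nat_lit 138) (nat_lit 5) (nat_lit 522) (nat_lit 503) (nat_lit 175))) (XT.nd (nat_lit 78) (nat_lit 380) (nat_lit 0) (XT.lf (nat_lit 0) (nat_lit 474174321762) (nat_lit 304) (nat_lit 571642802059) (nat_lit 380) (nat_lit 585356224) (nat_lit 133) (nat_lit 5) (nat_lit 137) (nat_lit 5) (nat_lit 138) (nat_lit 5) (nat_lit 523) (nat_lit 503) (nat_lit 174)) (XT.lf (nat_lit 0) (nat_lit 24514702405) (nat_lit 304) (nat_lit 133627635413) (nat_lit 380) (nat_lit 918322921524) (nat_lit 128) (nat_lit 5) (nat_lit 132) (nat_lit 5) (nat_lit 133) (nat_lit 5) (nat_lit 524) (nat_lit 503) (nat_lit 173))))))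 (XT.nd (nat_lit 624) (nat_lit 912) (nat_lit 0) (XT.nd (nat_lit 312) (nat_lit 608) (nat_lit 0) (XT.nd (nat_lit 156) (nat_lit 228) (nat_lit 0) (XT.nd (nat_lit 78) (nat_lit 304) (nat_lit 0) (XT.lf (nat_lit 0) (nat_lit 339730843430) (nat_lit 380) (nat_lit 441848198989) (nat_lit 76) (nat_lit 325704450451) (nat_lit 128) (nat_lit 5) (nat_lit 133) (nat_lit 5) (nat_lit 129) (nat_lit 5) (nat_lit 525) (nat_lit 503) (nat_lit 172)) (XT.lf (nat_lit 0) (nat_lit 203068101364) (nat_lit 304) (nat_lit 332691747423) (nat_lit 380) (nat_lit 603614735565) (nat_lit 124) (nat_lit 5) (nat_lit 128) (nat_lit 5) (nat_lit 129) (nat_lit 5) (nat_lit 526) (nat_lit 503) (nat_lit 171))) (XT.nd (nat_lit 78) (nat_lit 228) (nat_lit 0) (XT.lf (nat_lit 0) (nat_lit 751360441176) (nat_lit 380) (nat_lit 279413130605) (nat_lit 76) (nat_lit 141808151788) (nat_lit 124) (nat_lit 5) (nat_lit 129) (nat_lit 5) (nat_lit 125) (nat_lit 5) (nat_lit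 527) (nat_lit 503) (nat_lit 170)) (XT.lf (nat_lit 0) (nat_lit 418257781638) (nat_lit 228) (nat_lit 571467416416) (nat_lit 304) (nat_lit 217124814951) (nat_lit 121) (nat_lit 5) (nat_lit 124) (nat_lit 5) (nat_lit 125) (nat_lit 5) (nat_lit 528) (nat_lit 503) (nat_lit 169)))) (XT.nd (nat_lit 156) (nat_lit 228) (nat_lit 0) (XT.nd (nat_lit 78) (nat_lit 304) (nat_lit 0) (XT.lf (nat_lit 0) (nat_lit 2076412256) (nat_lit 304) (nat_lit 82115781036) (nat_lit 76) (nat_lit 1158401249476) (nat_lit 120) (nat_lit 5) (nat_lit 124) (nat_lit 5) (nat_lit 121) (nat_lit 5) (nat_lit 529) (nat_lit 503) (nat_lit 168)) (XT.lf (nat_lit 0) (nat_lit 242429021262) (nat_lit 380) (nat_lit 608502898917) (nat_lit 76) (nat_lit 428139745782) (nat_lit 116) (nat_lit 5) (nat_lit 121) (nat_lit 5) (nat_lit 117) (nat_lit 5) (nat_lit 530) (nat_lit 503) (nat_lit 167))) (XT.nd (nat_lit 78) (nat_lit 0) (nat_lit 0) (XT.lf (nat_lit 0) (nat_lit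 149826531533) (nat_lit 228) (nat_lit 350105605481) (nat_lit 304) (nat_lit 817185019485) (nat_lit 113) (nat_lit 5) (nat_lit 116) (nat_lit 5) (nat_lit 117) (nat_lit 5) (nat_lit 531) (nat_lit 503) (nat_lit 166)) (XT.lf (nat_lit 0) (nat_lit 783528772642) (nat_lit 304) (nat_lit 392264459581) (nat_lit 76) (nat_lit 180610771138) (nat_lit 113) (nat_lit 5) (nat_lit 117) (nat_lit 5) (nat_lit 114) (nat_lit 5) (nat_lit 532) (nat_lit 503) (nat_lit 165))))) (XT.nd (nat_lit 390) (nat_lit 228) (nat_lit 0) (XT.nd (nat_lit 156) (nat_lit 456) (nat_lit 0) (XT.nd (nat_lit 78) (nat_lit 0) (nat_lit 0) (XT.lf (nat_lit 0) (nat_lit 429520924476) (nat_lit 228) (nat_lit 664229773354) (nat_lit 304) (nat_lit 303282221846) (nat_lit 110) (nat_lit 5) (nat_lit 113) (nat_lit 5) (nat_lit 114) (nat_lit 5) (nat_lit 533) (nat_lit 503) (nat_lit 164)) (XT.lf (nat_lit 0) (nat_lit 1306014108669) (nat_lit 228) (nat_lit 120112795396) (nat_lit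 304) (nat_lit 13234218503) (nat_lit 110) (nat_lit 5) (nat_lit 113) (nat_lit 5) (nat_lit 114) (nat_lit 5) (nat_lit 534) (nat_lit 503) (nat_lit 163))) (XT.nd (nat_lit 156) (nat_lit 228) (nat_lit 0) (XT.lf (nat_lit 0) (nat_lit 301209458176) (nat_lit 228) (nat_lit 727918689944) (nat_lit 76) (nat_lit 453489313862) (nat_lit 107) (nat_lit 5) (nat_lit 110) (nat_lit 5) (nat_lit 108) (nat_lit 5) (nat_lit 535) (nat_lit 503) (nat_lit 162)) (XT.lf (nat_lit 0) (nat_lit 1005555157000) (nat_lit 304) (nat_lit 444504782902) (nat_lit 76) (nat_lit 124223683061) (nat_lit 104) (nat_lit 5) (nat_lit 108) (nat_lit 5) (nat_lit 105) (nat_lit 5) (nat_lit 537) (nat_lit 503) (nat_lit 160)))) (XT.nd (nat_lit 59826) (nat_lit 0) (nat_lit 4712) (XT.nd (nat_lit 78) (nat_lit 76) (nat_lit 0) (XT.lf (nat_lit 0) (nat_lit 526646486258) (nat_lit 152) (nat_lit 880990541717) (nat_lit 228) (nat_lit 214781037599) (nat_lit 102) (nat_lit 5)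 (nat_lit 104) (nat_lit 5) (nat_lit 105) (nat_lit 5) (nat_lit 538) (nat_lit 503) (nat_lit 159)) (XT.lf (nat_lit 0) (nat_lit 159494450774) (nat_lit 228) (nat_lit 113367810210) (nat_lit 76) (nat_lit 1399591949755) (nat_lit 101) (nat_lit 5) (nat_lit 104) (nat_lit 5) (nat_lit 102) (nat_lit 5) (nat_lit 539) (nat_lit 503) (nat_lit 158))) (XT.nd (nat_lit 78) (nat_lit 0) (nat_lit 0) (XT.lf (nat_lit 0) (nat_lit 143723738907) (nat_lit 836) (nat_lit 90328050283) (nat_lit 836) (nat_lit 90328050283) (nat_lit 163) (nat_lit 3) (nat_lit 174) (nat_lit 3) (nat_lit 174) (nat_lit 5) (nat_lit 504) (nat_lit 504) (nat_lit 192)) (XT.lf (nat_lit 76) (nat_lit 147118168621) (nat_lit 0) (nat_lit 149812575990) (nat_lit 836) (nat_lit 367933072309) (nat_lit 164) (nat_lit 5) (nat_lit 163) (nat_lit 3) (nat_lit 174) (nat_lit 5) (nat_lit 505) (nat_lit 504) (nat_lit 191)))))))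
noncomputable def xc497 : XT := (XT.nd (nat_lit 1248) (nat_lit 2812) (nat_lit 0) (XT.nd (nat_lit 624) (nat_lit 1748) (nat_lit 0) (XT.nd (nat_lit 312) (nat_lit 0) (nat_lit 152) (XT.nd (nat_lit 156) (nat_lit 0) (nat_lit 76) (XT.nd (nat_lit 78) (nat_lit 0) (nat_lit 0) (XT.lf (nat_lit 0) (nat_lit 312876710259) (nat_lit 760) (nat_lit 186996116429) (nat_lit 836) (nat_lit 181600908324) (nat_lit 164) (nat_lit 5) (nat_lit 174) (nat_lit 5) (nat_lit 175) (nat_lit 5) (nat_lit 506) (nat_lit 504) (nat_lit 190)) (XT.lf (nat_lit 76) (nat_lit 163053678573) (nat_lit 0) (nat_lit 171567955030) (nat_lit 836) (nat_lit 364042432438) (nat_lit 165) (nat_lit 5) (nat_lit 164) (nat_lit 5) (nat_lit 175) (nat_lit 5) (nat_lit 507) (nat_lit 504) (nat_lit 189))) (XT.nd (nat_lit 78) (nat_lit 0) (nat_lit 0) (XT.lf (nat_lit 0) (nat_lit 363375970282) (nat_lit 760) (nat_lit 182212836281) (nat_lit 836) (nat_lit 170828998698) (nat_lit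 165) (nat_lit 5) (nat_lit 175) (nat_lit 5) (nat_lit 176) (nat_lit 5) (nat_lit 508) (nat_lit 504) (nat_lit 188)) (XT.lf (nat_lit 76) (nat_lit 192193385935) (nat_lit 0) (nat_lit 207187896166) (nat_lit 836) (nat_lit 335387286429) (nat_lit 166) (nat_lit 5) (nat_lit 165) (nat_lit 5) (nat_lit 176) (nat_lit 5) (nat_lit 509) (nat_lit 504) (nat_lit 187)))) (XT.nd (nat_lit 156) (nat_lit 0) (nat_lit 76) (XT.nd (nat_lit 78) (nat_lit 0) (nat_lit 0) (XT.lf (nat_lit 0) (nat_lit 442636074036) (nat_lit 760) (nat_lit 164600005539) (nat_lit 836) (nat_lit 146528329660) (nat_lit 166) (nat_lit 5) (nat_lit 176) (nat_lit 5) (nat_lit 177) (nat_lit 5) (nat_lit 510) (nat_lit 504) (nat_lit 186)) (XT.lf (nat_lit 76) (nat_lit 236445122229) (nat_lit 0) (nat_lit 258696569468) (nat_lit 836) (nat_lit 278213945973) (nat_lit 167) (nat_lit 5) (nat_lit 166) (nat_lit 5) (nat_lit 177) (nat_lit 5) (nat_lit 511) (nat_lit 504) (nat_lit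 185))) (XT.nd (nat_lit 78) (nat_lit 0) (nat_lit 0) (XT.lf (nat_lit 0) (nat_lit 554780645596) (nat_lit 760) (nat_lit 132250489748) (nat_lit 836) (nat_lit 106669889416) (nat_lit 167) (nat_lit 5) (nat_lit 177) (nat_lit 5) (nat_lit 178) (nat_lit 5) (nat_lit 512) (nat_lit 504) (nat_lit 184)) (XT.lf (nat_lit 76) (nat_lit 297937463541) (nat_lit 0) (nat_lit 328356642700) (nat_lit 836) (nat_lit 188324947011) (nat_lit 168) (nat_lit 5) (nat_lit 167) (nat_lit 5) (nat_lit 178) (nat_lit 5) (nat_lit 513) (nat_lit 504) (nat_lit 183))))) (XT.nd (nat_lit 312) (nat_lit 760) (nat_lit 0) (XT.nd (nat_lit 156) (nat_lit 532) (nat_lit 0) (XT.nd (nat_lit 78) (nat_lit 760) (nat_lit 0) (XT.lf (nat_lit 0) (nat_lit 704413018255) (nat_lit 760) (nat_lit 83034809198) (nat_lit 76) (nat_lit 48983666799) (nat_lit 168) (nat_lit 5) (nat_lit 178) (nat_lit 5) (nat_lit 169) (nat_lit 5) (nat_lit 514) (nat_lit 504) (nat_lit 182)) (XT.lf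 (nat_lit 0) (nat_lit 379043156966) (nat_lit 760) (nat_lit 418695534134) (nat_lit 836) (nat_lit 61030825443) (nat_lit 158) (nat_lit 5) (nat_lit 168) (nat_lit 5) (nat_lit 169) (nat_lit 5) (nat_lit 515) (nat_lit 504) (nat_lit 181))) (XT.nd (nat_lit 78) (nat_lit 456) (nat_lit 0) (XT.lf (nat_lit 0) (nat_lit 14503205964) (nat_lit 836) (nat_lit 15280254381) (nat_lit 76) (nat_lit 852358972048) (nat_lit 157) (nat_lit 5) (nat_lit 168) (nat_lit 5) (nat_lit 158) (nat_lit 5) (nat_lit 516) (nat_lit 504) (nat_lit 180)) (XT.lf (nat_lit 0) (nat_lit 105417569457) (nat_lit 532) (nat_lit 425331614233) (nat_lit 76) (nat_lit 375202051758) (nat_lit 151) (nat_lit 5) (nat_lit 158) (nat_lit 5) (nat_lit 152) (nat_lit 5) (nat_lit 517) (nat_lit 504) (nat_lit 179)))) (XT.nd (nat_lit 156) (nat_lit 380) (nat_lit 0) (XT.nd (nat_lit 78) (nat_lit 0) (nat_lit 0) (XT.lf (nat_lit 0) (nat_lit 72743181331) (nat_lit 380) (nat_lit 130021463066)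 (nat_lit 456) (nat_lit 728091484594) (nat_lit 146) (nat_lit 5) (nat_lit 151) (nat_lit 5) (nat_lit 152) (nat_lit 5) (nat_lit 518) (nat_lit 504) (nat_lit 178)) (XT.lf (nat_lit 0) (nat_lit 316839656761) (nat_lit 456) (nat_lit 350815236169) (nat_lit 76) (nat_lit 288758345098) (nat_lit 146) (nat_lit 5) (nat_lit 152) (nat_lit 5) (nat_lit 147) (nat_lit 5) (nat_lit 519) (nat_lit 504) (nat_lit 177))) (XT.nd (nat_lit 78) (nat_lit 0) (nat_lit 0) (XT.lf (nat_lit 0) (nat_lit 185658073578) (nat_lit 380) (nat_lit 255990482983) (nat_lit 456) (nat_lit 541348139117) (nat_lit 141) (nat_lit 5) (nat_lit 146) (nat_lit 5) (nat_lit 147) (nat_lit 5) (nat_lit 520) (nat_lit 504) (nat_lit 176)) (XT.lf (nat_lit 0) (nat_lit 581488387054) (nat_lit 456) (nat_lit 252326974345) (nat_lit 76) (nat_lit 176654440524) (nat_lit 141) (nat_lit 5) (nat_lit 147) (nat_lit 5) (nat_lit 142) (nat_lit 5) (nat_lit 521) (nat_lit 504) (nat_lit 175))))))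 (XT.nd (nat_lit 624) (nat_lit 1292) (nat_lit 0) (XT.nd (nat_lit 312) (nat_lit 532) (nat_lit 0) (XT.nd (nat_lit 156) (nat_lit 684) (nat_lit 0) (XT.nd (nat_lit 78) (nat_lit 0) (nat_lit 0) (XT.lf (nat_lit 0) (nat_lit 326178431723) (nat_lit 304) (nat_lit 411430897080) (nat_lit 380) (nat_lit 301242778694) (nat_lit 137) (nat_lit 5) (nat_lit 141) (nat_lit 5) (nat_lit 142) (nat_lit 5) (nat_lit 522) (nat_lit 504) (nat_lit 174)) (XT.lf (nat_lit 0) (nat_lit 906380392091) (nat_lit 380) (nat_lit 126641339166) (nat_lit 76) (nat_lit 35389593368) (nat_lit 137) (nat_lit 5) (nat_lit 142) (nat_lit 5) (nat_lit 138) (nat_lit 5) (nat_lit 523) (nat_lit 504) (nat_lit 173))) (XT.nd (nat_lit 78) (nat_lit 380) (nat_lit 0) (XT.lf (nat_lit 0) (nat_lit 497883212110) (nat_lit 304) (nat_lit 600224912871) (nat_lit 380) (nat_lit 614471809) (nat_lit 133) (nat_lit 5) (nat_lit 137) (nat_lit 5) (nat_lit 138) (nat_lit 5) (nat_lit 524)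 (nat_lit 504) (nat_lit 172)) (XT.lf (nat_lit 0) (nat_lit 25740613777) (nat_lit 304) (nat_lit 140308984020) (nat_lit 380) (nat_lit 964238917349) (nat_lit 128) (nat_lit 5) (nat_lit 132) (nat_lit 5) (nat_lit 133) (nat_lit 5) (nat_lit 525) (nat_lit 504) (nat_lit 171)))) (XT.nd (nat_lit 156) (nat_lit 228) (nat_lit 0) (XT.nd (nat_lit 78) (nat_lit 304) (nat_lit 0) (XT.lf (nat_lit 0) (nat_lit 356717522370) (nat_lit 380) (nat_lit 463940434751) (nat_lit 76) (nat_lit 341989703547) (nat_lit 128) (nat_lit 5) (nat_lit 133) (nat_lit 5) (nat_lit 129) (nat_lit 5) (nat_lit 526) (nat_lit 504) (nat_lit 170)) (XT.lf (nat_lit 0) (nat_lit 213221677810) (nat_lit 304) (nat_lit 349326296347) (nat_lit 380) (nat_lit 633795332757) (nat_lit 124) (nat_lit 5) (nat_lit 128) (nat_lit 5) (nat_lit 129) (nat_lit 5) (nat_lit 527) (nat_lit 504) (nat_lit 169))) (XT.nd (nat_lit 78) (nat_lit 228) (nat_lit 0) (XT.lf (nat_lit 0) (nat_lit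 788928590408) (nat_lit 380) (nat_lit 293383618152) (nat_lit 76) (nat_lit 148898594821) (nat_lit 124) (nat_lit 5) (nat_lit 129) (nat_lit 5) (nat_lit 125) (nat_lit 5) (nat_lit 528) (nat_lit 504) (nat_lit 168)) (XT.lf (nat_lit 0) (nat_lit 439170836977) (nat_lit 228) (nat_lit 600040744692) (nat_lit 304) (nat_lit 227980925793) (nat_lit 121) (nat_lit 5) (nat_lit 124) (nat_lit 5) (nat_lit 125) (nat_lit 5) (nat_lit 529) (nat_lit 504) (nat_lit 167))))) (XT.nd (nat_lit 312) (nat_lit 684) (nat_lit 0) (XT.nd (nat_lit 156) (nat_lit 228) (nat_lit 0) (XT.nd (nat_lit 78) (nat_lit 304) (nat_lit 0) (XT.lf (nat_lit 0) (nat_lit 2180352629) (nat_lit 304) (nat_lit 86221407782) (nat_lit 76) (nat_lit 1216321348502) (nat_lit 120) (nat_lit 5) (nat_lit 124) (nat_lit 5) (nat_lit 121) (nat_lit 5) (nat_lit 530) (nat_lit 504) (nat_lit 166)) (XT.lf (nat_lit 0) (nat_lit 254550589549) (nat_lit 380) (nat_lit 638927879015) (nat_lit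 76) (nat_lit 449546774829) (nat_lit 116) (nat_lit 5) (nat_lit 121) (nat_lit 5) (nat_lit 117) (nat_lit 5) (nat_lit 531) (nat_lit 504) (nat_lit 165))) (XT.nd (nat_lit 78) (nat_lit 0) (nat_lit 0) (XT.lf (nat_lit 0) (nat_lit 157318020300) (nat_lit 228) (nat_lit 367610837740) (nat_lit 304) (nat_lit 858044150572) (nat_lit 113) (nat_lit 5) (nat_lit 116) (nat_lit 5) (nat_lit 117) (nat_lit 5) (nat_lit 532) (nat_lit 504) (nat_lit 164)) (XT.lf (nat_lit 0) (nat_lit 822705320725) (nat_lit 304) (nat_lit 411877523366) (nat_lit 76) (nat_lit 189641353961) (nat_lit 113) (nat_lit 5) (nat_lit 117) (nat_lit 5) (nat_lit 114) (nat_lit 5) (nat_lit 533) (nat_lit 504) (nat_lit 163)))) (XT.nd (nat_lit 156) (nat_lit 456) (nat_lit 0) (XT.nd (nat_lit 78) (nat_lit 0) (nat_lit 0) (XT.lf (nat_lit 0) (nat_lit 450997127327) (nat_lit 228) (nat_lit 697441212079) (nat_lit 304) (nat_lit 318446220915) (nat_lit 110) (nat_lit 5) (nat_lit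 113) (nat_lit 5) (nat_lit 114) (nat_lit 5) (nat_lit 534) (nat_lit 504) (nat_lit 162)) (XT.lf (nat_lit 0) (nat_lit 1371314963271) (nat_lit 228) (nat_lit 126118387602) (nat_lit 304) (nat_lit 13895822739) (nat_lit 110) (nat_lit 5) (nat_lit 113) (nat_lit 5) (nat_lit 114) (nat_lit 5) (nat_lit 535) (nat_lit 504) (nat_lit 161))) (XT.nd (nat_lit 78) (nat_lit 228) (nat_lit 0) (XT.lf (nat_lit 0) (nat_lit 316270032557) (nat_lit 228) (nat_lit 764314470047) (nat_lit 76) (nat_lit 476163827399) (nat_lit 107) (nat_lit 5) (nat_lit 110) (nat_lit 5) (nat_lit 108) (nat_lit 5) (nat_lit 536) (nat_lit 504) (nat_lit 160)) (XT.nd (nat_lit 78) (nat_lit 0) (nat_lit 0) (XT.lf (nat_lit 0) (nat_lit 175322655097) (nat_lit 228) (nat_lit 494369404823) (nat_lit 304) (nat_lit 934374250773) (nat_lit 104) (nat_lit 5) (nat_lit 107) (nat_lit 5) (nat_lit 108) (nat_lit 5) (nat_lit 537) (nat_lit 504) (nat_lit 159)) (XT.lf (nat_lit 0) (nat_lit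 1055833009933) (nat_lit 304) (nat_lit 466729873444) (nat_lit 76) (nat_lit 130434915975) (nat_lit 104) (nat_lit 5) (nat_lit 108) (nat_lit 5) (nat_lit 105) (nat_lit 5) (nat_lit 538) (nat_lit 504) (nat_lit 158))))))))
noncomputable def xc498 : XT := (XT.nd (nat_lit 60996) (nat_lit 0) (nat_lit 380) (XT.nd (nat_lit 60372) (nat_lit 0) (nat_lit 3344) (XT.nd (nat_lit 60060) (nat_lit 0) (nat_lit 4712) (XT.nd (nat_lit 59904) (nat_lit 0) (nat_lit 4636) (XT.nd (nat_lit 59826) (nat_lit 0) (nat_lit 4636) (XT.lf (nat_lit 0) (nat_lit 552978956778) (nat_lit 152) (nat_lit 925040015434) (nat_lit 228) (nat_lit 225519991995) (nat_lit 102) (nat_lit 5) (nat_lit 104) (nat_lit 5) (nat_lit 105) (nat_lit 5) (nat_lit 539) (nat_lit 504) (nat_lit 157)) (XT.lf (nat_lit 0) (nat_lit 150910076404) (nat_lit 836) (nat_lit 94844373752) (nat_lit 836) (nat_lit 94844373752) (nat_lit 163) (nat_lit 3) (nat_lit 174) (nat_lit 3) (nat_lit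 174) (nat_lit 5) (nat_lit 505) (nat_lit 505) (nat_lit 190))) (XT.nd (nat_lit 78) (nat_lit 0) (nat_lit 76) (XT.lf (nat_lit 76) (nat_lit 154474232593) (nat_lit 0) (nat_lit 157303338442) (nat_lit 836) (nat_lit 386329422250) (nat_lit 164) (nat_lit 5) (nat_lit 163) (nat_lit 3) (nat_lit 174) (nat_lit 5) (nat_lit 506) (nat_lit 505) (nat_lit 189)) (XT.lf (nat_lit 0) (nat_lit 328520819207) (nat_lit 760) (nat_lit 196345758337) (nat_lit 836) (nat_lit 190680830527) (nat_lit 164) (nat_lit 5) (nat_lit 174) (nat_lit 5) (nat_lit 175) (nat_lit 5) (nat_lit 507) (nat_lit 505) (nat_lit 188)))) (XT.nd (nat_lit 156) (nat_lit 0) (nat_lit 76) (XT.nd (nat_lit 78) (nat_lit 0) (nat_lit 76) (XT.lf (nat_lit 76) (nat_lit 171206523771) (nat_lit 0) (nat_lit 180146454444) (nat_lit 836) (nat_lit 382244277961) (nat_lit 165) (nat_lit 5) (nat_lit 164) (nat_lit 5) (nat_lit 175) (nat_lit 5) (nat_lit 508) (nat_lit 505) (nat_lit 187))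 (XT.lf (nat_lit 0) (nat_lit 381545017696) (nat_lit 760) (nat_lit 191323310454) (nat_lit 836) (nat_lit 179370354911) (nat_lit 165) (nat_lit 5) (nat_lit 175) (nat_lit 5) (nat_lit 176) (nat_lit 5) (nat_lit 509) (nat_lit 505) (nat_lit 186))) (XT.nd (nat_lit 78) (nat_lit 0) (nat_lit 76) (XT.lf (nat_lit 76) (nat_lit 201803220170) (nat_lit 0) (nat_lit 217547365659) (nat_lit 836) (nat_lit 352156399128) (nat_lit 166) (nat_lit 5) (nat_lit 165) (nat_lit 5) (nat_lit 176) (nat_lit 5) (nat_lit 510) (nat_lit 505) (nat_lit 185)) (XT.lf (nat_lit 0) (nat_lit 464768104839) (nat_lit 760) (nat_lit 172829836194) (nat_lit 836) (nat_lit 153854677291) (nat_lit 166) (nat_lit 5) (nat_lit 176) (nat_lit 5) (nat_lit 177) (nat_lit 5) (nat_lit 511) (nat_lit 505) (nat_lit 184))))) (XT.nd (nat_lit 312) (nat_lit 1520) (nat_lit 0) (XT.nd (nat_lit 156) (nat_lit 0) (nat_lit 76) (XT.nd (nat_lit 78) (nat_lit 0) (nat_lit 76) (XT.lf (nat_lit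 76) (nat_lit 248267545226) (nat_lit 0) (nat_lit 271631449948) (nat_lit 836) (nat_lit 292124413418) (nat_lit 167) (nat_lit 5) (nat_lit 166) (nat_lit 5) (nat_lit 177) (nat_lit 5) (nat_lit 512) (nat_lit 505) (nat_lit 183)) (XT.lf (nat_lit 0) (nat_lit 582519885571) (nat_lit 760) (nat_lit 138862844084) (nat_lit 836) (nat_lit 112003335942) (nat_lit 167) (nat_lit 5) (nat_lit 177) (nat_lit 5) (nat_lit 178) (nat_lit 5) (nat_lit 513) (nat_lit 505) (nat_lit 182))) (XT.nd (nat_lit 78) (nat_lit 0) (nat_lit 76) (XT.lf (nat_lit 76) (nat_lit 312834504125) (nat_lit 0) (nat_lit 344774507847) (nat_lit 836) (nat_lit 197740983907) (nat_lit 168) (nat_lit 5) (nat_lit 167) (nat_lit 5) (nat_lit 178) (nat_lit 5) (nat_lit 514) (nat_lit 505) (nat_lit 181)) (XT.lf (nat_lit 0) (nat_lit 739633859552) (nat_lit 760) (nat_lit 87186380174) (nat_lit 76) (nat_lit 51432819706) (nat_lit 168) (nat_lit 5) (nat_lit 178) (nat_lit 5) (nat_lit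 169) (nat_lit 5) (nat_lit 515) (nat_lit 505) (nat_lit 180)))) (XT.nd (nat_lit 156) (nat_lit 836) (nat_lit 0) (XT.nd (nat_lit 78) (nat_lit 76) (nat_lit 0) (XT.lf (nat_lit 0) (nat_lit 397995481565) (nat_lit 760) (nat_lit 439630328011) (nat_lit 836) (nat_lit 64082173583) (nat_lit 158) (nat_lit 5) (nat_lit 168) (nat_lit 5) (nat_lit 169) (nat_lit 5) (nat_lit 516) (nat_lit 505) (nat_lit 179)) (XT.lf (nat_lit 0) (nat_lit 15228544310) (nat_lit 836) (nat_lit 16044102390) (nat_lit 76) (nat_lit 894976898397) (nat_lit 157) (nat_lit 5) (nat_lit 168) (nat_lit 5) (nat_lit 158) (nat_lit 5) (nat_lit 517) (nat_lit 505) (nat_lit 178))) (XT.nd (nat_lit 78) (nat_lit 380) (nat_lit 0) (XT.lf (nat_lit 0) (nat_lit 110688619872) (nat_lit 532) (nat_lit 446598024117) (nat_lit 76) (nat_lit 393962144621) (nat_lit 151) (nat_lit 5) (nat_lit 158) (nat_lit 5) (nat_lit 152) (nat_lit 5) (nat_lit 518) (nat_lit 505) (nat_lit 177))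 (XT.lf (nat_lit 0) (nat_lit 76380508469) (nat_lit 380) (nat_lit 136522534527) (nat_lit 456) (nat_lit 764495884114) (nat_lit 146) (nat_lit 5) (nat_lit 151) (nat_lit 5) (nat_lit 152) (nat_lit 5) (nat_lit 519) (nat_lit 505) (nat_lit 176)))))) (XT.nd (nat_lit 624) (nat_lit 1596) (nat_lit 0) (XT.nd (nat_lit 312) (nat_lit 684) (nat_lit 0) (XT.nd (nat_lit 156) (nat_lit 304) (nat_lit 0) (XT.nd (nat_lit 78) (nat_lit 380) (nat_lit 0) (XT.lf (nat_lit 0) (nat_lit 332681798080) (nat_lit 456) (nat_lit 368355830001) (nat_lit 76) (nat_lit 303196263914) (nat_lit 146) (nat_lit 5) (nat_lit 152) (nat_lit 5) (nat_lit 147) (nat_lit 5) (nat_lit 520) (nat_lit 505) (nat_lit 175)) (XT.lf (nat_lit 0) (nat_lit 194941142524) (nat_lit 380) (nat_lit 268789995380) (nat_lit 456) (nat_lit 568415384872) (nat_lit 141) (nat_lit 5) (nat_lit 146) (nat_lit 5) (nat_lit 147) (nat_lit 5) (nat_lit 521) (nat_lit 505) (nat_lit 174))) (XT.nd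 (nat_lit 78) (nat_lit 304) (nat_lit 0) (XT.lf (nat_lit 0) (nat_lit 610562952787) (nat_lit 456) (nat_lit 264943158520) (nat_lit 76) (nat_lit 185487173385) (nat_lit 141) (nat_lit 5) (nat_lit 147) (nat_lit 5) (nat_lit 142) (nat_lit 5) (nat_lit 522) (nat_lit 505) (nat_lit 173)) (XT.lf (nat_lit 0) (nat_lit 342487515198) (nat_lit 304) (nat_lit 432002421982) (nat_lit 380) (nat_lit 316304768586) (nat_lit 137) (nat_lit 5) (nat_lit 141) (nat_lit 5) (nat_lit 142) (nat_lit 5) (nat_lit 523) (nat_lit 505) (nat_lit 172)))) (XT.nd (nat_lit 156) (nat_lit 380) (nat_lit 0) (XT.nd (nat_lit 78) (nat_lit 304) (nat_lit 0) (XT.lf (nat_lit 0) (nat_lit 951699547170) (nat_lit 380) (nat_lit 132973245474) (nat_lit 76) (nat_lit 37159091430) (nat_lit 137) (nat_lit 5) (nat_lit 142) (nat_lit 5) (nat_lit 138) (nat_lit 5) (nat_lit 524) (nat_lit 505) (nat_lit 171)) (XT.lf (nat_lit 0) (nat_lit 522777530775) (nat_lit 304) (nat_lit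 630236131946) (nat_lit 380) (nat_lit 645057326) (nat_lit 133) (nat_lit 5) (nat_lit 137) (nat_lit 5) (nat_lit 138) (nat_lit 5) (nat_lit 525) (nat_lit 505) (nat_lit 170))) (XT.nd (nat_lit 78) (nat_lit 0) (nat_lit 0) (XT.lf (nat_lit 0) (nat_lit 27027804332) (nat_lit 304) (nat_lit 147324403142) (nat_lit 380) (nat_lit 1012450726933) (nat_lit 128) (nat_lit 5) (nat_lit 132) (nat_lit 5) (nat_lit 133) (nat_lit 5) (nat_lit 526) (nat_lit 505) (nat_lit 169)) (XT.lf (nat_lit 0) (nat_lit 374553522541) (nat_lit 380) (nat_lit 487137298495) (nat_lit 76) (nat_lit 359089216454) (nat_lit 128) (nat_lit 5) (nat_lit 133) (nat_lit 5) (nat_lit 129) (nat_lit 5) (nat_lit 527) (nat_lit 505) (nat_lit 168))))) (XT.nd (nat_lit 312) (nat_lit 988) (nat_lit 0) (XT.nd (nat_lit 156) (nat_lit 304) (nat_lit 0) (XT.nd (nat_lit 78) (nat_lit 0) (nat_lit 0) (XT.lf (nat_lit 0) (nat_lit 223882917146) (nat_lit 304) (nat_lit 366792576292)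 (nat_lit 380) (nat_lit 665484972787) (nat_lit 124) (nat_lit 5) (nat_lit 128) (nat_lit 5) (nat_lit 129) (nat_lit 5) (nat_lit 528) (nat_lit 505) (nat_lit 167)) (XT.lf (nat_lit 0) (nat_lit 828375135278) (nat_lit 380) (nat_lit 308052645788) (nat_lit 76) (nat_lit 156343556711) (nat_lit 124) (nat_lit 5) (nat_lit 129) (nat_lit 5) (nat_lit 125) (nat_lit 5) (nat_lit 529) (nat_lit 505) (nat_lit 166))) (XT.nd (nat_lit 78) (nat_lit 76) (nat_lit 0) (XT.lf (nat_lit 0) (nat_lit 461129529626) (nat_lit 228) (nat_lit 630042743338) (nat_lit 304) (nat_lit 239379854255) (nat_lit 121) (nat_lit 5) (nat_lit 124) (nat_lit 5) (nat_lit 125) (nat_lit 5) (nat_lit 530) (nat_lit 505) (nat_lit 165)) (XT.lf (nat_lit 0) (nat_lit 2289478886) (nat_lit 304) (nat_lit 90532330954) (nat_lit 76) (nat_lit 1277137449082) (nat_lit 120) (nat_lit 5) (nat_lit 124) (nat_lit 5) (nat_lit 121) (nat_lit 5) (nat_lit 531) (nat_lit 505) (nat_lit 164))))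 (XT.nd (nat_lit 156) (nat_lit 456) (nat_lit 0) (XT.nd (nat_lit 78) (nat_lit 228) (nat_lit 0) (XT.lf (nat_lit 0) (nat_lit 267278225352) (nat_lit 380) (nat_lit 670874123443) (nat_lit 76) (nat_lit 472024151446) (nat_lit 116) (nat_lit 5) (nat_lit 121) (nat_lit 5) (nat_lit 117) (nat_lit 5) (nat_lit 532) (nat_lit 505) (nat_lit 163)) (XT.lf (nat_lit 0) (nat_lit 165184068425) (nat_lit 228) (nat_lit 385991336075) (nat_lit 304) (nat_lit 900946249358) (nat_lit 113) (nat_lit 5) (nat_lit 116) (nat_lit 5) (nat_lit 117) (nat_lit 5) (nat_lit 533) (nat_lit 505) (nat_lit 162))) (XT.nd (nat_lit 156) (nat_lit 456) (nat_lit 0) (XT.lf (nat_lit 0) (nat_lit 863840686036) (nat_lit 304) (nat_lit 432471255140) (nat_lit 76) (nat_lit 199123461810) (nat_lit 113) (nat_lit 5) (nat_lit 117) (nat_lit 5) (nat_lit 114) (nat_lit 5) (nat_lit 534) (nat_lit 505) (nat_lit 161)) (XT.nd (nat_lit 78) (nat_lit 228) (nat_lit 0) (XT.lf (nat_lit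 0) (nat_lit 1439880846735) (nat_lit 228) (nat_lit 132424263840) (nat_lit 304) (nat_lit 14590517106) (nat_lit 110) (nat_lit 5) (nat_lit 113) (nat_lit 5) (nat_lit 114) (nat_lit 5) (nat_lit 536) (nat_lit 505) (nat_lit 159)) (XT.lf (nat_lit 0) (nat_lit 332083626223) (nat_lit 228) (nat_lit 802530053509) (nat_lit 76) (nat_lit 499972062165) (nat_lit 107) (nat_lit 5) (nat_lit 110) (nat_lit 5) (nat_lit 108) (nat_lit 5) (nat_lit 537) (nat_lit 505) (nat_lit 158))))))))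
noncomputable def xc499 : XT := (XT.nd (nat_lit 61074) (nat_lit 0) (nat_lit 456) (XT.nd (nat_lit 60450) (nat_lit 0) (nat_lit 3572) (XT.nd (nat_lit 60138) (nat_lit 0) (nat_lit 4560) (XT.nd (nat_lit 59982) (nat_lit 0) (nat_lit 4484) (XT.nd (nat_lit 78) (nat_lit 0) (nat_lit 0) (XT.lf (nat_lit 0) (nat_lit 184088925634) (nat_lit 228) (nat_lit 519087827089) (nat_lit 304) (nat_lit 981092869011) (nat_lit 104) (nat_lit 5) (nat_lit 107) (nat_lit 5) (nat_lit 108) (nat_lit 5) (nat_lit 538) (nat_lit 505) (nat_lit 157)) (XT.lf (nat_lit 0) (nat_lit 1108624746673) (nat_lit 304) (nat_lit 490066232329) (nat_lit 76) (nat_lit 136956706002) (nat_lit 104) (nat_lit 5) (nat_lit 108) (nat_lit 5) (nat_lit 105) (nat_lit 5) (nat_lit 539) (nat_lit 505) (nat_lit 156))) (XT.nd (nat_lit 78) (nat_lit 0) (nat_lit 0) (XT.lf (nat_lit 0) (nat_lit 158455716779) (nat_lit 836) (nat_lit 99586520743) (nat_lit 836) (nat_lit 99586520743)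 (nat_lit 163) (nat_lit 3) (nat_lit 174) (nat_lit 3) (nat_lit 174) (nat_lit 5) (nat_lit 506) (nat_lit 506) (nat_lit 188)) (XT.lf (nat_lit 76) (nat_lit 162198085302) (nat_lit 0) (nat_lit 165168626590) (nat_lit 836) (nat_lit 405645617920) (nat_lit 164) (nat_lit 5) (nat_lit 163) (nat_lit 3) (nat_lit 174) (nat_lit 5) (nat_lit 507) (nat_lit 506) (nat_lit 187)))) (XT.nd (nat_lit 156) (nat_lit 0) (nat_lit 76) (XT.nd (nat_lit 78) (nat_lit 0) (nat_lit 0) (XT.lf (nat_lit 0) (nat_lit 344947108180) (nat_lit 760) (nat_lit 206162897580) (nat_lit 836) (nat_lit 200214760294) (nat_lit 164) (nat_lit 5) (nat_lit 174) (nat_lit 5) (nat_lit 175) (nat_lit 5) (nat_lit 508) (nat_lit 506) (nat_lit 186)) (XT.lf (nat_lit 76) (nat_lit 179766996236) (nat_lit 0) (nat_lit 189153869376) (nat_lit 836) (nat_lit 401356241429) (nat_lit 165) (nat_lit 5) (nat_lit 164) (nat_lit 5) (nat_lit 175) (nat_lit 5) (nat_lit 509) (nat_lit 506)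 (nat_lit 185))) (XT.nd (nat_lit 78) (nat_lit 0) (nat_lit 0) (XT.lf (nat_lit 0) (nat_lit 400622494341) (nat_lit 760) (nat_lit 200889323920) (nat_lit 836) (nat_lit 188338787648) (nat_lit 165) (nat_lit 5) (nat_lit 175) (nat_lit 5) (nat_lit 176) (nat_lit 5) (nat_lit 510) (nat_lit 506) (nat_lit 184)) (XT.lf (nat_lit 76) (nat_lit 211893530782) (nat_lit 0) (nat_lit 228424801683) (nat_lit 836) (nat_lit 369763990856) (nat_lit 166) (nat_lit 5) (nat_lit 165) (nat_lit 5) (nat_lit 176) (nat_lit 5) (nat_lit 511) (nat_lit 506) (nat_lit 183))))) (XT.nd (nat_lit 312) (nat_lit 1140) (nat_lit 0) (XT.nd (nat_lit 156) (nat_lit 0) (nat_lit 76) (XT.nd (nat_lit 78) (nat_lit 0) (nat_lit 0) (XT.lf (nat_lit 0) (nat_lit 488006716069) (nat_lit 760) (nat_lit 181471174152) (nat_lit 836) (nat_lit 161547348705) (nat_lit 166) (nat_lit 5) (nat_lit 176) (nat_lit 5) (nat_lit 177) (nat_lit 5) (nat_lit 512) (nat_lit 506) (nat_lit 182))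 (XT.lf (nat_lit 76) (nat_lit 260681073858) (nat_lit 0) (nat_lit 285213069617) (nat_lit 836) (nat_lit 306730425605) (nat_lit 167) (nat_lit 5) (nat_lit 166) (nat_lit 5) (nat_lit 177) (nat_lit 5) (nat_lit 513) (nat_lit 506) (nat_lit 181))) (XT.nd (nat_lit 78) (nat_lit 0) (nat_lit 0) (XT.lf (nat_lit 0) (nat_lit 611646068236) (nat_lit 760) (nat_lit 145805831956) (nat_lit 836) (nat_lit 117603459252) (nat_lit 167) (nat_lit 5) (nat_lit 177) (nat_lit 5) (nat_lit 178) (nat_lit 5) (nat_lit 514) (nat_lit 506) (nat_lit 180)) (XT.lf (nat_lit 76) (nat_lit 328476381175) (nat_lit 0) (nat_lit 362013263182) (nat_lit 836) (nat_lit 207627842213) (nat_lit 168) (nat_lit 5) (nat_lit 167) (nat_lit 5) (nat_lit 178) (nat_lit 5) (nat_lit 515) (nat_lit 506) (nat_lit 179)))) (XT.nd (nat_lit 156) (nat_lit 532) (nat_lit 0) (XT.nd (nat_lit 78) (nat_lit 760) (nat_lit 0) (XT.lf (nat_lit 0) (nat_lit 776615725214) (nat_lit 760) (nat_lit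 91545545455) (nat_lit 76) (nat_lit 54004433087) (nat_lit 168) (nat_lit 5) (nat_lit 178) (nat_lit 5) (nat_lit 169) (nat_lit 5) (nat_lit 516) (nat_lit 506) (nat_lit 178)) (XT.lf (nat_lit 0) (nat_lit 417895406891) (nat_lit 760) (nat_lit 461611859987) (nat_lit 836) (nat_lit 67286107086) (nat_lit 158) (nat_lit 5) (nat_lit 168) (nat_lit 5) (nat_lit 169) (nat_lit 5) (nat_lit 517) (nat_lit 506) (nat_lit 177))) (XT.nd (nat_lit 78) (nat_lit 456) (nat_lit 0) (XT.lf (nat_lit 0) (nat_lit 15990133021) (nat_lit 836) (nat_lit 16846158113) (nat_lit 76) (nat_lit 939725723133) (nat_lit 157) (nat_lit 5) (nat_lit 168) (nat_lit 5) (nat_lit 158) (nat_lit 5) (nat_lit 518) (nat_lit 506) (nat_lit 176)) (XT.lf (nat_lit 0) (nat_lit 116223206823) (nat_lit 532) (nat_lit 468927770378) (nat_lit 76) (nat_lit 413660243031) (nat_lit 151) (nat_lit 5) (nat_lit 158) (nat_lit 5) (nat_lit 152) (nat_lit 5) (nat_lit 519) (nat_lit 506)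 (nat_lit 175)))))) (XT.nd (nat_lit 624) (nat_lit 1368) (nat_lit 0) (XT.nd (nat_lit 312) (nat_lit 988) (nat_lit 0) (XT.nd (nat_lit 156) (nat_lit 380) (nat_lit 0) (XT.nd (nat_lit 78) (nat_lit 0) (nat_lit 0) (XT.lf (nat_lit 0) (nat_lit 80199686338) (nat_lit 380) (nat_lit 143348659718) (nat_lit 456) (nat_lit 802720519854) (nat_lit 146) (nat_lit 5) (nat_lit 151) (nat_lit 5) (nat_lit 152) (nat_lit 5) (nat_lit 520) (nat_lit 506) (nat_lit 174)) (XT.lf (nat_lit 0) (nat_lit 349316031732) (nat_lit 456) (nat_lit 386773469142) (nat_lit 76) (nat_lit 318356078524) (nat_lit 146) (nat_lit 5) (nat_lit 152) (nat_lit 5) (nat_lit 147) (nat_lit 5) (nat_lit 521) (nat_lit 506) (nat_lit 173))) (XT.nd (nat_lit 78) (nat_lit 0) (nat_lit 0) (XT.lf (nat_lit 0) (nat_lit 204688349552) (nat_lit 380) (nat_lit 282229484490) (nat_lit 456) (nat_lit 596836007901) (nat_lit 141) (nat_lit 5) (nat_lit 146) (nat_lit 5) (nat_lit 147) (nat_lit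 5) (nat_lit 522) (nat_lit 506) (nat_lit 172)) (XT.lf (nat_lit 0) (nat_lit 641091233197) (nat_lit 456) (nat_lit 278190167201) (nat_lit 76) (nat_lit 194761541881) (nat_lit 141) (nat_lit 5) (nat_lit 147) (nat_lit 5) (nat_lit 142) (nat_lit 5) (nat_lit 523) (nat_lit 506) (nat_lit 171)))) (XT.nd (nat_lit 156) (nat_lit 684) (nat_lit 0) (XT.nd (nat_lit 78) (nat_lit 0) (nat_lit 0) (XT.lf (nat_lit 0) (nat_lit 359612037795) (nat_lit 304) (nat_lit 453602524984) (nat_lit 380) (nat_lit 332119871829) (nat_lit 137) (nat_lit 5) (nat_lit 141) (nat_lit 5) (nat_lit 142) (nat_lit 5) (nat_lit 524) (nat_lit 506) (nat_lit 170)) (XT.lf (nat_lit 0) (nat_lit 999284647408) (nat_lit 380) (nat_lit 139621762033) (nat_lit 76) (nat_lit 39017062685) (nat_lit 137) (nat_lit 5) (nat_lit 142) (nat_lit 5) (nat_lit 138) (nat_lit 5) (nat_lit 525) (nat_lit 506) (nat_lit 169))) (XT.nd (nat_lit 78) (nat_lit 380) (nat_lit 0) (XT.lf (nat_lit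 0) (nat_lit 548916550678) (nat_lit 304) (nat_lit 661747914445) (nat_lit 380) (nat_lit 677184955) (nat_lit 133) (nat_lit 5) (nat_lit 137) (nat_lit 5) (nat_lit 138) (nat_lit 5) (nat_lit 526) (nat_lit 506) (nat_lit 168)) (XT.lf (nat_lit 0) (nat_lit 28379339551) (nat_lit 304) (nat_lit 154690596016) (nat_lit 380) (nat_lit 1063073139667) (nat_lit 128) (nat_lit 5) (nat_lit 132) (nat_lit 5) (nat_lit 133) (nat_lit 5) (nat_lit 527) (nat_lit 506) (nat_lit 167))))) (XT.nd (nat_lit 312) (nat_lit 836) (nat_lit 0) (XT.nd (nat_lit 156) (nat_lit 228) (nat_lit 0) (XT.nd (nat_lit 78) (nat_lit 304) (nat_lit 0) (XT.lf (nat_lit 0) (nat_lit 393281311188) (nat_lit 380) (nat_lit 511494020115) (nat_lit 76) (nat_lit 377043702429) (nat_lit 128) (nat_lit 5) (nat_lit 133) (nat_lit 5) (nat_lit 129) (nat_lit 5) (nat_lit 528) (nat_lit 506) (nat_lit 166)) (XT.lf (nat_lit 0) (nat_lit 235077203997) (nat_lit 304) (nat_lit 385132173477)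 (nat_lit 380) (nat_lit 698759106589) (nat_lit 124) (nat_lit 5) (nat_lit 128) (nat_lit 5) (nat_lit 129) (nat_lit 5) (nat_lit 529) (nat_lit 506) (nat_lit 165))) (XT.nd (nat_lit 78) (nat_lit 228) (nat_lit 0) (XT.lf (nat_lit 0) (nat_lit 869793996668) (nat_lit 380) (nat_lit 323455139054) (nat_lit 76) (nat_lit 164160763706) (nat_lit 124) (nat_lit 5) (nat_lit 129) (nat_lit 5) (nat_lit 125) (nat_lit 5) (nat_lit 530) (nat_lit 506) (nat_lit 164)) (XT.lf (nat_lit 0) (nat_lit 484186142888) (nat_lit 228) (nat_lit 661544845503) (nat_lit 304) (nat_lit 251348740094) (nat_lit 121) (nat_lit 5) (nat_lit 124) (nat_lit 5) (nat_lit 125) (nat_lit 5) (nat_lit 531) (nat_lit 506) (nat_lit 163)))) (XT.nd (nat_lit 156) (nat_lit 456) (nat_lit 0) (XT.nd (nat_lit 78) (nat_lit 304) (nat_lit 0) (XT.lf (nat_lit 0) (nat_lit 2404051356) (nat_lit 304) (nat_lit 95058813972) (nat_lit 76) (nat_lit 1340994351608) (nat_lit 120) (nat_lit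 5) (nat_lit 124) (nat_lit 5) (nat_lit 121) (nat_lit 5) (nat_lit 532) (nat_lit 506) (nat_lit 162)) (XT.lf (nat_lit 0) (nat_lit 280642233059) (nat_lit 380) (nat_lit 704417693994) (nat_lit 76) (nat_lit 495625393372) (nat_lit 116) (nat_lit 5) (nat_lit 121) (nat_lit 5) (nat_lit 117) (nat_lit 5) (nat_lit 533) (nat_lit 506) (nat_lit 161))) (XT.nd (nat_lit 156) (nat_lit 228) (nat_lit 0) (XT.lf (nat_lit 0) (nat_lit 173443405280) (nat_lit 228) (nat_lit 405290863376) (nat_lit 304) (nat_lit 945993463194) (nat_lit 113) (nat_lit 5) (nat_lit 116) (nat_lit 5) (nat_lit 117) (nat_lit 5) (nat_lit 534) (nat_lit 506) (nat_lit 160)) (XT.nd (nat_lit 78) (nat_lit 0) (nat_lit 0) (XT.lf (nat_lit 0) (nat_lit 497224610904) (nat_lit 228) (nat_lit 768928847665) (nat_lit 304) (nat_lit 351086759707) (nat_lit 110) (nat_lit 5) (nat_lit 113) (nat_lit 5) (nat_lit 114) (nat_lit 5) (nat_lit 536) (nat_lit 506) (nat_lit 158)) (XT.lf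 (nat_lit 0) (nat_lit 1511875011793) (nat_lit 228) (nat_lit 139045437900) (nat_lit 304) (nat_lit 15319955188) (nat_lit 110) (nat_lit 5) (nat_lit 113) (nat_lit 5) (nat_lit 114) (nat_lit 5) (nat_lit 537) (nat_lit 506) (nat_lit 157))))))))
noncomputable def xc500 : XT := (XT.nd (nat_lit 61230) (nat_lit 0) (nat_lit 228) (XT.nd (nat_lit 60606) (nat_lit 0) (nat_lit 2964) (XT.nd (nat_lit 60294) (nat_lit 0) (nat_lit 4332) (XT.nd (nat_lit 60138) (nat_lit 0) (nat_lit 4256) (XT.nd (nat_lit 60060) (nat_lit 0) (nat_lit 4256) (XT.lf (nat_lit 0) (nat_lit 348687891016) (nat_lit 228) (nat_lit 842656429164) (nat_lit 76) (nat_lit 524970704635) (nat_lit 107) (nat_lit 5) (nat_lit 110) (nat_lit 5) (nat_lit 108) (nat_lit 5) (nat_lit 538) (nat_lit 506) (nat_lit 156)) (XT.lf (nat_lit 0) (nat_lit 166378626477) (nat_lit 836) (nat_lit 104565781750) (nat_lit 836) (nat_lit 104565781750) (nat_lit 163) (nat_lit 3) (nat_lit 174)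 (nat_lit 3) (nat_lit 174) (nat_lit 5) (nat_lit 507) (nat_lit 507) (nat_lit 186))) (XT.nd (nat_lit 78) (nat_lit 0) (nat_lit 76) (XT.lf (nat_lit 76) (nat_lit 170308117531) (nat_lit 0) (nat_lit 173427167876) (nat_lit 836) (nat_lit 425927648982) (nat_lit 164) (nat_lit 5) (nat_lit 163) (nat_lit 3) (nat_lit 174) (nat_lit 5) (nat_lit 508) (nat_lit 507) (nat_lit 185)) (XT.lf (nat_lit 0) (nat_lit 362194688545) (nat_lit 760) (nat_lit 216470907606) (nat_lit 836) (nat_lit 210225396941) (nat_lit 164) (nat_lit 5) (nat_lit 174) (nat_lit 5) (nat_lit 175) (nat_lit 5) (nat_lit 509) (nat_lit 507) (nat_lit 184)))) (XT.nd (nat_lit 156) (nat_lit 0) (nat_lit 76) (XT.nd (nat_lit 78) (nat_lit 0) (nat_lit 76) (XT.lf (nat_lit 76) (nat_lit 188755478725) (nat_lit 0) (nat_lit 198611646483) (nat_lit 836) (nat_lit 421423826354) (nat_lit 165) (nat_lit 5) (nat_lit 164) (nat_lit 5) (nat_lit 175) (nat_lit 5) (nat_lit 510) (nat_lit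 507) (nat_lit 183)) (XT.lf (nat_lit 0) (nat_lit 420653823828) (nat_lit 760) (nat_lit 210933652197) (nat_lit 836) (nat_lit 197755649925) (nat_lit 165) (nat_lit 5) (nat_lit 175) (nat_lit 5) (nat_lit 176) (nat_lit 5) (nat_lit 511) (nat_lit 507) (nat_lit 182))) (XT.nd (nat_lit 78) (nat_lit 0) (nat_lit 76) (XT.lf (nat_lit 76) (nat_lit 222488343016) (nat_lit 0) (nat_lit 239846103210) (nat_lit 836) (nat_lit 388251983389) (nat_lit 166) (nat_lit 5) (nat_lit 165) (nat_lit 5) (nat_lit 176) (nat_lit 5) (nat_lit 512) (nat_lit 507) (nat_lit 181)) (XT.lf (nat_lit 0) (nat_lit 512407238710) (nat_lit 760) (nat_lit 190544593311) (nat_lit 836) (nat_lit 169624659496) (nat_lit 166) (nat_lit 5) (nat_lit 176) (nat_lit 5) (nat_lit 177) (nat_lit 5) (nat_lit 513) (nat_lit 507) (nat_lit 180))))) (XT.nd (nat_lit 312) (nat_lit 1520) (nat_lit 0) (XT.nd (nat_lit 156) (nat_lit 0) (nat_lit 76) (XT.nd (nat_lit 78) (nat_lit 0) (nat_lit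 76) (XT.lf (nat_lit 76) (nat_lit 273715264849) (nat_lit 0) (nat_lit 299473765884) (nat_lit 836) (nat_lit 322066757784) (nat_lit 167) (nat_lit 5) (nat_lit 166) (nat_lit 5) (nat_lit 177) (nat_lit 5) (nat_lit 514) (nat_lit 507) (nat_lit 179)) (XT.lf (nat_lit 0) (nat_lit 642228542520) (nat_lit 760) (nat_lit 153095983569) (nat_lit 836) (nat_lit 123483592770) (nat_lit 167) (nat_lit 5) (nat_lit 177) (nat_lit 5) (nat_lit 178) (nat_lit 5) (nat_lit 515) (nat_lit 507) (nat_lit 178))) (XT.nd (nat_lit 78) (nat_lit 0) (nat_lit 76) (XT.lf (nat_lit 76) (nat_lit 344900337960) (nat_lit 0) (nat_lit 380113953500) (nat_lit 836) (nat_lit 218009061181) (nat_lit 168) (nat_lit 5) (nat_lit 167) (nat_lit 5) (nat_lit 178) (nat_lit 5) (nat_lit 516) (nat_lit 507) (nat_lit 177)) (XT.lf (nat_lit 0) (nat_lit 815446668105) (nat_lit 760) (nat_lit 96122683292) (nat_lit 76) (nat_lit 56704629703) (nat_lit 168) (nat_lit 5) (nat_lit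 178) (nat_lit 5) (nat_lit 169) (nat_lit 5) (nat_lit 517) (nat_lit 507) (nat_lit 176)))) (XT.nd (nat_lit 156) (nat_lit 836) (nat_lit 0) (XT.nd (nat_lit 78) (nat_lit 76) (nat_lit 0) (XT.lf (nat_lit 0) (nat_lit 438790314422) (nat_lit 760) (nat_lit 484692467113) (nat_lit 836) (nat_lit 70650253550) (nat_lit 158) (nat_lit 5) (nat_lit 168) (nat_lit 5) (nat_lit 169) (nat_lit 5) (nat_lit 518) (nat_lit 507) (nat_lit 175)) (XT.lf (nat_lit 0) (nat_lit 16789786152) (nat_lit 836) (nat_lit 17688330511) (nat_lit 76) (nat_lit 986711990982) (nat_lit 157) (nat_lit 5) (nat_lit 168) (nat_lit 5) (nat_lit 158) (nat_lit 5) (nat_lit 519) (nat_lit 507) (nat_lit 174))) (XT.nd (nat_lit 78) (nat_lit 380) (nat_lit 0) (XT.lf (nat_lit 0) (nat_lit 122034508622) (nat_lit 532) (nat_lit 492374018358) (nat_lit 76) (nat_lit 434343247182) (nat_lit 151) (nat_lit 5) (nat_lit 158) (nat_lit 5) (nat_lit 152) (nat_lit 5) (nat_lit 520) (nat_lit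 507) (nat_lit 173)) (XT.lf (nat_lit 0) (nat_lit 84209808928) (nat_lit 380) (nat_lit 150516091312) (nat_lit 456) (nat_lit 842856402113) (nat_lit 146) (nat_lit 5) (nat_lit 151) (nat_lit 5) (nat_lit 152) (nat_lit 5) (nat_lit 521) (nat_lit 507) (nat_lit 172)))))) (XT.nd (nat_lit 624) (nat_lit 1368) (nat_lit 0) (XT.nd (nat_lit 312) (nat_lit 684) (nat_lit 0) (XT.nd (nat_lit 156) (nat_lit 304) (nat_lit 0) (XT.nd (nat_lit 78) (nat_lit 380) (nat_lit 0) (XT.lf (nat_lit 0) (nat_lit 366781963701) (nat_lit 456) (nat_lit 406112004404) (nat_lit 76) (nat_lit 334273883734) (nat_lit 146) (nat_lit 5) (nat_lit 152) (nat_lit 5) (nat_lit 147) (nat_lit 5) (nat_lit 522) (nat_lit 507) (nat_lit 171)) (XT.lf (nat_lit 0) (nat_lit 214922902995) (nat_lit 380) (nat_lit 296340949046) (nat_lit 456) (nat_lit 626677675676) (nat_lit 141) (nat_lit 5) (nat_lit 146) (nat_lit 5) (nat_lit 147) (nat_lit 5) (nat_lit 523) (nat_lit 507) (nat_lit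 170))) (XT.nd (nat_lit 78) (nat_lit 304) (nat_lit 0) (XT.lf (nat_lit 0) (nat_lit 673145915283) (nat_lit 456) (nat_lit 292099540192) (nat_lit 76) (nat_lit 204499627888) (nat_lit 141) (nat_lit 5) (nat_lit 147) (nat_lit 5) (nat_lit 142) (nat_lit 5) (nat_lit 524) (nat_lit 507) (nat_lit 169)) (XT.lf (nat_lit 0) (nat_lit 377592772871) (nat_lit 304) (nat_lit 476282634819) (nat_lit 380) (nat_lit 348725742803) (nat_lit 137) (nat_lit 5) (nat_lit 141) (nat_lit 5) (nat_lit 142) (nat_lit 5) (nat_lit 525) (nat_lit 507) (nat_lit 168)))) (XT.nd (nat_lit 156) (nat_lit 380) (nat_lit 0) (XT.nd (nat_lit 78) (nat_lit 304) (nat_lit 0) (XT.lf (nat_lit 0) (nat_lit 1049248991234) (nat_lit 380) (nat_lit 146602717967) (nat_lit 76) (nat_lit 40967930952) (nat_lit 137) (nat_lit 5) (nat_lit 142) (nat_lit 5) (nat_lit 138) (nat_lit 5) (nat_lit 526) (nat_lit 507) (nat_lit 167)) (XT.lf (nat_lit 0) (nat_lit 576362508248) (nat_lit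 304) (nat_lit 694835288309) (nat_lit 380) (nat_lit 710930609) (nat_lit 133) (nat_lit 5) (nat_lit 137) (nat_lit 5) (nat_lit 138) (nat_lit 5) (nat_lit 527) (nat_lit 507) (nat_lit 166))) (XT.nd (nat_lit 78) (nat_lit 0) (nat_lit 0) (XT.lf (nat_lit 0) (nat_lit 29798438051) (nat_lit 304) (nat_lit 162425101070) (nat_lit 380) (nat_lit 1116226684530) (nat_lit 128) (nat_lit 5) (nat_lit 132) (nat_lit 5) (nat_lit 133) (nat_lit 5) (nat_lit 528) (nat_lit 507) (nat_lit 165)) (XT.lf (nat_lit 0) (nat_lit 412945478807) (nat_lit 380) (nat_lit 537068591139) (nat_lit 76) (nat_lit 395895910365) (nat_lit 128) (nat_lit 5) (nat_lit 133) (nat_lit 5) (nat_lit 129) (nat_lit 5) (nat_lit 529) (nat_lit 507) (nat_lit 164))))) (XT.nd (nat_lit 312) (nat_lit 760) (nat_lit 0) (XT.nd (nat_lit 156) (nat_lit 304) (nat_lit 0) (XT.nd (nat_lit 78) (nat_lit 0) (nat_lit 0) (XT.lf (nat_lit 0) (nat_lit 246831192081) (nat_lit 304) (nat_lit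 404388753461) (nat_lit 380) (nat_lit 733696957758) (nat_lit 124) (nat_lit 5) (nat_lit 128) (nat_lit 5) (nat_lit 129) (nat_lit 5) (nat_lit 530) (nat_lit 507) (nat_lit 163)) (XT.lf (nat_lit 0) (nat_lit 913283791400) (nat_lit 380) (nat_lit 339627769909) (nat_lit 76) (nat_lit 172368828340) (nat_lit 124) (nat_lit 5) (nat_lit 129) (nat_lit 5) (nat_lit 125) (nat_lit 5) (nat_lit 531) (nat_lit 507) (nat_lit 162))) (XT.nd (nat_lit 78) (nat_lit 76) (nat_lit 0) (XT.lf (nat_lit 0) (nat_lit 508395574096) (nat_lit 228) (nat_lit 694622056031) (nat_lit 304) (nat_lit 263916080161) (nat_lit 121) (nat_lit 5) (nat_lit 124) (nat_lit 5) (nat_lit 125) (nat_lit 5) (nat_lit 532) (nat_lit 507) (nat_lit 161)) (XT.lf (nat_lit 0) (nat_lit 2524343291) (nat_lit 304) (nat_lit 99811633555) (nat_lit 76) (nat_lit 1408044096464) (nat_lit 120) (nat_lit 5) (nat_lit 124) (nat_lit 5) (nat_lit 121) (nat_lit 5) (nat_lit 533) (nat_lit 507)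 (nat_lit 160)))) (XT.nd (nat_lit 234) (nat_lit 228) (nat_lit 0) (XT.nd (nat_lit 156) (nat_lit 228) (nat_lit 0) (XT.lf (nat_lit 0) (nat_lit 294674432186) (nat_lit 380) (nat_lit 739638455681) (nat_lit 76) (nat_lit 520406694201) (nat_lit 116) (nat_lit 5) (nat_lit 121) (nat_lit 5) (nat_lit 117) (nat_lit 5) (nat_lit 534) (nat_lit 507) (nat_lit 159)) (XT.lf (nat_lit 0) (nat_lit 952384532576) (nat_lit 304) (nat_lit 476799302480) (nat_lit 76) (nat_lit 219533687915) (nat_lit 113) (nat_lit 5) (nat_lit 117) (nat_lit 5) (nat_lit 114) (nat_lit 5) (nat_lit 536) (nat_lit 507) (nat_lit 157))) (XT.nd (nat_lit 78) (nat_lit 0) (nat_lit 0) (XT.lf (nat_lit 0) (nat_lit 522085958327) (nat_lit 228) (nat_lit 807375252780) (nat_lit 304) (nat_lit 368641014099) (nat_lit 110) (nat_lit 5) (nat_lit 113) (nat_lit 5) (nat_lit 114) (nat_lit 5) (nat_lit 537) (nat_lit 507) (nat_lit 156)) (XT.nd (nat_lit 60138) (nat_lit 0) (nat_lit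 4028) (XT.lf (nat_lit 0) (nat_lit 1587468873694) (nat_lit 228) (nat_lit 145997674302) (nat_lit 304) (nat_lit 16085873334) (nat_lit 110) (nat_lit 5) (nat_lit 113) (nat_lit 5) (nat_lit 114) (nat_lit 5) (nat_lit 538) (nat_lit 507) (nat_lit 155)) (XT.lf (nat_lit 0) (nat_lit 174697670145) (nat_lit 836) (nat_lit 109794011852) (nat_lit 836) (nat_lit 109794011852) (nat_lit 163) (nat_lit 3) (nat_lit 174) (nat_lit 3) (nat_lit 174) (nat_lit 5) (nat_lit 508) (nat_lit 508) (nat_lit 184))))))))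
noncomputable def xc501 : XT := (XT.nd (nat_lit 1248) (nat_lit 2356) (nat_lit 0) (XT.nd (nat_lit 624) (nat_lit 1672) (nat_lit 0) (XT.nd (nat_lit 312) (nat_lit 0) (nat_lit 152) (XT.nd (nat_lit 156) (nat_lit 0) (nat_lit 76) (XT.nd (nat_lit 78) (nat_lit 0) (nat_lit 76) (XT.lf (nat_lit 76) (nat_lit 178823639475) (nat_lit 0) (nat_lit 182098626003) (nat_lit 836) (nat_lit 447223804824) (nat_lit 164) (nat_lit 5) (nat_lit 163) (nat_lit 3) (nat_lit 174) (nat_lit 5) (nat_lit 509) (nat_lit 508) (nat_lit 183)) (XT.lf (nat_lit 0) (nat_lit 380304627013) (nat_lit 760) (nat_lit 227294330672) (nat_lit 836) (nat_lit 220736574843) (nat_lit 164) (nat_lit 5) (nat_lit 174) (nat_lit 5) (nat_lit 175) (nat_lit 5) (nat_lit 510) (nat_lit 508) (nat_lit 182))) (XT.nd (nat_lit 78) (nat_lit 0) (nat_lit 76) (XT.lf (nat_lit 76) (nat_lit 198193373004) (nat_lit 0) (nat_lit 208542304669) (nat_lit 836) (nat_lit 442494811642) (nat_lit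 165) (nat_lit 5) (nat_lit 164) (nat_lit 5) (nat_lit 175) (nat_lit 5) (nat_lit 511) (nat_lit 508) (nat_lit 181)) (XT.lf (nat_lit 0) (nat_lit 441686700752) (nat_lit 760) (nat_lit 221480209710) (nat_lit 836) (nat_lit 207643362484) (nat_lit 165) (nat_lit 5) (nat_lit 175) (nat_lit 5) (nat_lit 176) (nat_lit 5) (nat_lit 512) (nat_lit 508) (nat_lit 180)))) (XT.nd (nat_lit 156) (nat_lit 0) (nat_lit 76) (XT.nd (nat_lit 78) (nat_lit 0) (nat_lit 76) (XT.lf (nat_lit 76) (nat_lit 233612883246) (nat_lit 0) (nat_lit 251838464102) (nat_lit 836) (nat_lit 407664394795) (nat_lit 166) (nat_lit 5) (nat_lit 165) (nat_lit 5) (nat_lit 176) (nat_lit 5) (nat_lit 513) (nat_lit 508) (nat_lit 179)) (XT.lf (nat_lit 0) (nat_lit 538027770112) (nat_lit 760) (nat_lit 200071696402) (nat_lit 836) (nat_lit 178105841092) (nat_lit 166) (nat_lit 5) (nat_lit 176) (nat_lit 5) (nat_lit 177) (nat_lit 5) (nat_lit 514) (nat_lit 508) (nat_lit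 178))) (XT.nd (nat_lit 78) (nat_lit 0) (nat_lit 76) (XT.lf (nat_lit 76) (nat_lit 287401152625) (nat_lit 0) (nat_lit 314447492986) (nat_lit 836) (nat_lit 338169924152) (nat_lit 167) (nat_lit 5) (nat_lit 166) (nat_lit 5) (nat_lit 177) (nat_lit 5) (nat_lit 515) (nat_lit 508) (nat_lit 177)) (XT.lf (nat_lit 0) (nat_lit 674340124632) (nat_lit 760) (nat_lit 160750655778) (nat_lit 836) (nat_lit 129657736632) (nat_lit 167) (nat_lit 5) (nat_lit 177) (nat_lit 5) (nat_lit 178) (nat_lit 5) (nat_lit 516) (nat_lit 508) (nat_lit 176))))) (XT.nd (nat_lit 312) (nat_lit 1216) (nat_lit 0) (XT.nd (nat_lit 156) (nat_lit 760) (nat_lit 0) (XT.nd (nat_lit 78) (nat_lit 0) (nat_lit 76) (XT.lf (nat_lit 76) (nat_lit 362145479780) (nat_lit 0) (nat_lit 399119675809) (nat_lit 836) (nat_lit 228909357196) (nat_lit 168) (nat_lit 5) (nat_lit 167) (nat_lit 5) (nat_lit 178) (nat_lit 5) (nat_lit 517) (nat_lit 508) (nat_lit 175)) (XT.lf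 (nat_lit 0) (nat_lit 856219143578) (nat_lit 760) (nat_lit 100928690985) (nat_lit 76) (nat_lit 59539838478) (nat_lit 168) (nat_lit 5) (nat_lit 178) (nat_lit 5) (nat_lit 169) (nat_lit 5) (nat_lit 518) (nat_lit 508) (nat_lit 174))) (XT.nd (nat_lit 78) (nat_lit 76) (nat_lit 0) (XT.lf (nat_lit 0) (nat_lit 460729954575) (nat_lit 760) (nat_lit 508927103282) (nat_lit 836) (nat_lit 74182622110) (nat_lit 158) (nat_lit 5) (nat_lit 168) (nat_lit 5) (nat_lit 169) (nat_lit 5) (nat_lit 519) (nat_lit 508) (nat_lit 173)) (XT.lf (nat_lit 0) (nat_lit 17629408322) (nat_lit 836) (nat_lit 18572624128) (nat_lit 76) (nat_lit 1036047573926) (nat_lit 157) (nat_lit 5) (nat_lit 168) (nat_lit 5) (nat_lit 158) (nat_lit 5) (nat_lit 520) (nat_lit 508) (nat_lit 172)))) (XT.nd (nat_lit 156) (nat_lit 380) (nat_lit 0) (XT.nd (nat_lit 78) (nat_lit 380) (nat_lit 0) (XT.lf (nat_lit 0) (nat_lit 128136362360) (nat_lit 532) (nat_lit 516992591802)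 (nat_lit 76) (nat_lit 456060402284) (nat_lit 151) (nat_lit 5) (nat_lit 158) (nat_lit 5) (nat_lit 152) (nat_lit 5) (nat_lit 521) (nat_lit 508) (nat_lit 171)) (XT.lf (nat_lit 0) (nat_lit 88420424792) (nat_lit 380) (nat_lit 158041894615) (nat_lit 456) (nat_lit 884999091847) (nat_lit 146) (nat_lit 5) (nat_lit 151) (nat_lit 5) (nat_lit 152) (nat_lit 5) (nat_lit 522) (nat_lit 508) (nat_lit 170))) (XT.nd (nat_lit 78) (nat_lit 380) (nat_lit 0) (XT.lf (nat_lit 0) (nat_lit 385121180148) (nat_lit 456) (nat_lit 426417479278) (nat_lit 76) (nat_lit 350987579085) (nat_lit 146) (nat_lit 5) (nat_lit 152) (nat_lit 5) (nat_lit 147) (nat_lit 5) (nat_lit 523) (nat_lit 508) (nat_lit 169)) (XT.lf (nat_lit 0) (nat_lit 225669171470) (nat_lit 380) (nat_lit 311157987728) (nat_lit 456) (nat_lit 658011439169) (nat_lit 141) (nat_lit 5) (nat_lit 146) (nat_lit 5) (nat_lit 147) (nat_lit 5) (nat_lit 524) (nat_lit 508) (nat_lit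 168)))))) (XT.nd (nat_lit 624) (nat_lit 1064) (nat_lit 0) (XT.nd (nat_lit 312) (nat_lit 684) (nat_lit 0) (XT.nd (nat_lit 156) (nat_lit 304) (nat_lit 0) (XT.nd (nat_lit 78) (nat_lit 304) (nat_lit 0) (XT.lf (nat_lit 0) (nat_lit 706803320278) (nat_lit 456) (nat_lit 306704394418) (nat_lit 76) (nat_lit 214724617368) (nat_lit 141) (nat_lit 5) (nat_lit 147) (nat_lit 5) (nat_lit 142) (nat_lit 5) (nat_lit 525) (nat_lit 508) (nat_lit 167)) (XT.lf (nat_lit 0) (nat_lit 396472532318) (nat_lit 304) (nat_lit 500096751672) (nat_lit 380) (nat_lit 366161918725) (nat_lit 137) (nat_lit 5) (nat_lit 141) (nat_lit 5) (nat_lit 142) (nat_lit 5) (nat_lit 526) (nat_lit 508) (nat_lit 166))) (XT.nd (nat_lit 78) (nat_lit 304) (nat_lit 0) (XT.lf (nat_lit 0) (nat_lit 1101711541889) (nat_lit 380) (nat_lit 153932733986) (nat_lit 76) (nat_lit 43016341225) (nat_lit 137) (nat_lit 5) (nat_lit 142) (nat_lit 5) (nat_lit 138) (nat_lit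 5) (nat_lit 527) (nat_lit 508) (nat_lit 165)) (XT.lf (nat_lit 0) (nat_lit 605180751607) (nat_lit 304) (nat_lit 729577032899) (nat_lit 380) (nat_lit 746374107) (nat_lit 133) (nat_lit 5) (nat_lit 137) (nat_lit 5) (nat_lit 138) (nat_lit 5) (nat_lit 528) (nat_lit 508) (nat_lit 164)))) (XT.nd (nat_lit 156) (nat_lit 304) (nat_lit 0) (XT.nd (nat_lit 78) (nat_lit 0) (nat_lit 0) (XT.lf (nat_lit 0) (nat_lit 31288479248) (nat_lit 304) (nat_lit 170546333678) (nat_lit 380) (nat_lit 1172037917060) (nat_lit 128) (nat_lit 5) (nat_lit 132) (nat_lit 5) (nat_lit 133) (nat_lit 5) (nat_lit 529) (nat_lit 508) (nat_lit 163)) (XT.lf (nat_lit 0) (nat_lit 433592845317) (nat_lit 380) (nat_lit 563921902799) (nat_lit 76) (nat_lit 415690726576) (nat_lit 128) (nat_lit 5) (nat_lit 133) (nat_lit 5) (nat_lit 129) (nat_lit 5) (nat_lit 530) (nat_lit 508) (nat_lit 162))) (XT.nd (nat_lit 78) (nat_lit 0) (nat_lit 0) (XT.lf (nat_lit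 0) (nat_lit 259172867681) (nat_lit 304) (nat_lit 424608165112) (nat_lit 380) (nat_lit 770381711169) (nat_lit 124) (nat_lit 5) (nat_lit 128) (nat_lit 5) (nat_lit 129) (nat_lit 5) (nat_lit 531) (nat_lit 508) (nat_lit 161)) (XT.lf (nat_lit 0) (nat_lit 958948067046) (nat_lit 380) (nat_lit 356609044031) (nat_lit 76) (nat_lit 180987293747) (nat_lit 124) (nat_lit 5) (nat_lit 129) (nat_lit 5) (nat_lit 125) (nat_lit 5) (nat_lit 532) (nat_lit 508) (nat_lit 160))))) (XT.nd (nat_lit 390) (nat_lit 228) (nat_lit 0) (XT.nd (nat_lit 234) (nat_lit 532) (nat_lit 0) (XT.nd (nat_lit 78) (nat_lit 76) (nat_lit 0) (XT.lf (nat_lit 0) (nat_lit 533815465330) (nat_lit 228) (nat_lit 729353130037) (nat_lit 304) (nat_lit 277111796244) (nat_lit 121) (nat_lit 5) (nat_lit 124) (nat_lit 5) (nat_lit 125) (nat_lit 5) (nat_lit 533) (nat_lit 508) (nat_lit 159)) (XT.lf (nat_lit 0) (nat_lit 2650641513) (nat_lit 304) (nat_lit 104802105378)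 (nat_lit 76) (nat_lit 1478446326028) (nat_lit 120) (nat_lit 5) (nat_lit 124) (nat_lit 5) (nat_lit 121) (nat_lit 5) (nat_lit 534) (nat_lit 508) (nat_lit 158))) (XT.nd (nat_lit 78) (nat_lit 0) (nat_lit 0) (XT.lf (nat_lit 0) (nat_lit 191221591178) (nat_lit 228) (nat_lit 446833106751) (nat_lit 304) (nat_lit 1042957618091) (nat_lit 113) (nat_lit 5) (nat_lit 116) (nat_lit 5) (nat_lit 117) (nat_lit 5) (nat_lit 536) (nat_lit 508) (nat_lit 156)) (XT.lf (nat_lit 0) (nat_lit 1000003833286) (nat_lit 304) (nat_lit 500639159855) (nat_lit 76) (nat_lit 230510402272) (nat_lit 113) (nat_lit 5) (nat_lit 117) (nat_lit 5) (nat_lit 114) (nat_lit 5) (nat_lit 537) (nat_lit 508) (nat_lit 155)))) (XT.nd (nat_lit 60294) (nat_lit 0) (nat_lit 4028) (XT.nd (nat_lit 60216) (nat_lit 0) (nat_lit 4028) (XT.lf (nat_lit 0) (nat_lit 548190362254) (nat_lit 228) (nat_lit 847743981616) (nat_lit 304) (nat_lit 387072988982) (nat_lit 110)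 (nat_lit 5) (nat_lit 113) (nat_lit 5) (nat_lit 114) (nat_lit 5) (nat_lit 538) (nat_lit 508) (nat_lit 154)) (XT.lf (nat_lit 0) (nat_lit 183432655552) (nat_lit 836) (nat_lit 115283658944) (nat_lit 836) (nat_lit 115283658944) (nat_lit 163) (nat_lit 3) (nat_lit 174) (nat_lit 3) (nat_lit 174) (nat_lit 5) (nat_lit 509) (nat_lit 509) (nat_lit 182))) (XT.nd (nat_lit 78) (nat_lit 0) (nat_lit 76) (XT.lf (nat_lit 76) (nat_lit 187764926725) (nat_lit 0) (nat_lit 191203647765) (nat_lit 836) (nat_lit 469584789526) (nat_lit 164) (nat_lit 5) (nat_lit 163) (nat_lit 3) (nat_lit 174) (nat_lit 5) (nat_lit 510) (nat_lit 509) (nat_lit 181)) (XT.nd (nat_lit 78) (nat_lit 0) (nat_lit 0) (XT.lf (nat_lit 0) (nat_lit 399320043436) (nat_lit 760) (nat_lit 238658936262) (nat_lit 836) (nat_lit 231773320190) (nat_lit 164) (nat_lit 5) (nat_lit 174) (nat_lit 5) (nat_lit 175) (nat_lit 5) (nat_lit 511) (nat_lit 509) (nat_lit 180))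 (XT.lf (nat_lit 76) (nat_lit 208103150808) (nat_lit 0) (nat_lit 218969488711) (nat_lit 836) (nat_lit 464619365350) (nat_lit 165) (nat_lit 5) (nat_lit 164) (nat_lit 5) (nat_lit 175) (nat_lit 5) (nat_lit 512) (nat_lit 509) (nat_lit 179))))))))
noncomputable def xc502 : XT := (XT.nd (nat_lit 1248) (nat_lit 1824) (nat_lit 0) (XT.nd (nat_lit 624) (nat_lit 1596) (nat_lit 0) (XT.nd (nat_lit 312) (nat_lit 532) (nat_lit 0) (XT.nd (nat_lit 156) (nat_lit 0) (nat_lit 76) (XT.nd (nat_lit 78) (nat_lit 0) (nat_lit 0) (XT.lf (nat_lit 0) (nat_lit 463771204255) (nat_lit 760) (nat_lit 232554106729) (nat_lit 836) (nat_lit 218025467173) (nat_lit 165) (nat_lit 5) (nat_lit 175) (nat_lit 5) (nat_lit 176) (nat_lit 5) (nat_lit 513) (nat_lit 509) (nat_lit 178)) (XT.lf (nat_lit 76) (nat_lit 245293639044) (nat_lit 0) (nat_lit 264430437856) (nat_lit 836) (nat_lit 428047444227) (nat_lit 166) (nat_lit 5) (nat_lit 165) (nat_lit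 5) (nat_lit 176) (nat_lit 5) (nat_lit 514) (nat_lit 509) (nat_lit 177))) (XT.nd (nat_lit 78) (nat_lit 0) (nat_lit 0) (XT.lf (nat_lit 0) (nat_lit 564929312328) (nat_lit 760) (nat_lit 210075166415) (nat_lit 836) (nat_lit 187011086545) (nat_lit 166) (nat_lit 5) (nat_lit 176) (nat_lit 5) (nat_lit 177) (nat_lit 5) (nat_lit 515) (nat_lit 509) (nat_lit 176)) (XT.lf (nat_lit 76) (nat_lit 301771323211) (nat_lit 0) (nat_lit 330169902835) (nat_lit 836) (nat_lit 355078264786) (nat_lit 167) (nat_lit 5) (nat_lit 166) (nat_lit 5) (nat_lit 177) (nat_lit 5) (nat_lit 516) (nat_lit 509) (nat_lit 175)))) (XT.nd (nat_lit 156) (nat_lit 684) (nat_lit 0) (XT.nd (nat_lit 78) (nat_lit 0) (nat_lit 0) (XT.lf (nat_lit 0) (nat_lit 708057271440) (nat_lit 760) (nat_lit 168788073401) (nat_lit 836) (nat_lit 136140591013) (nat_lit 167) (nat_lit 5) (nat_lit 177) (nat_lit 5) (nat_lit 178) (nat_lit 5) (nat_lit 517) (nat_lit 509) (nat_lit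 174)) (XT.lf (nat_lit 76) (nat_lit 380252867077) (nat_lit 0) (nat_lit 419075681944) (nat_lit 836) (nat_lit 240354682611) (nat_lit 168) (nat_lit 5) (nat_lit 167) (nat_lit 5) (nat_lit 178) (nat_lit 5) (nat_lit 518) (nat_lit 509) (nat_lit 173))) (XT.nd (nat_lit 78) (nat_lit 760) (nat_lit 0) (XT.lf (nat_lit 0) (nat_lit 899030229617) (nat_lit 760) (nat_lit 105975010820) (nat_lit 76) (nat_lit 62516809804) (nat_lit 168) (nat_lit 5) (nat_lit 178) (nat_lit 5) (nat_lit 169) (nat_lit 5) (nat_lit 519) (nat_lit 509) (nat_lit 172)) (XT.lf (nat_lit 0) (nat_lit 483766565168) (nat_lit 760) (nat_lit 534373470069) (nat_lit 836) (nat_lit 77891622496) (nat_lit 158) (nat_lit 5) (nat_lit 168) (nat_lit 5) (nat_lit 169) (nat_lit 5) (nat_lit 520) (nat_lit 509) (nat_lit 171))))) (XT.nd (nat_lit 312) (nat_lit 684) (nat_lit 0) (XT.nd (nat_lit 156) (nat_lit 380) (nat_lit 0) (XT.nd (nat_lit 78) (nat_lit 456) (nat_lit 0) (XT.lf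 (nat_lit 0) (nat_lit 18510999248) (nat_lit 836) (nat_lit 19501143852) (nat_lit 76) (nat_lit 1087849937560) (nat_lit 157) (nat_lit 5) (nat_lit 168) (nat_lit 5) (nat_lit 158) (nat_lit 5) (nat_lit 521) (nat_lit 509) (nat_lit 170)) (XT.lf (nat_lit 0) (nat_lit 134543296855) (nat_lit 532) (nat_lit 542842105770) (nat_lit 76) (nat_lit 478863415816) (nat_lit 151) (nat_lit 5) (nat_lit 158) (nat_lit 5) (nat_lit 152) (nat_lit 5) (nat_lit 522) (nat_lit 509) (nat_lit 169))) (XT.nd (nat_lit 78) (nat_lit 0) (nat_lit 0) (XT.lf (nat_lit 0) (nat_lit 92841559789) (nat_lit 380) (nat_lit 165943988200) (nat_lit 456) (nat_lit 929248928190) (nat_lit 146) (nat_lit 5) (nat_lit 151) (nat_lit 5) (nat_lit 152) (nat_lit 5) (nat_lit 523) (nat_lit 509) (nat_lit 168)) (XT.lf (nat_lit 0) (nat_lit 404377346422) (nat_lit 456) (nat_lit 447738239549) (nat_lit 76) (nat_lit 368536959095) (nat_lit 146) (nat_lit 5) (nat_lit 152) (nat_lit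 5) (nat_lit 147) (nat_lit 5) (nat_lit 524) (nat_lit 509) (nat_lit 167)))) (XT.nd (nat_lit 156) (nat_lit 304) (nat_lit 0) (XT.nd (nat_lit 78) (nat_lit 0) (nat_lit 0) (XT.lf (nat_lit 0) (nat_lit 236952741903) (nat_lit 380) (nat_lit 326715879161) (nat_lit 456) (nat_lit 690911902020) (nat_lit 141) (nat_lit 5) (nat_lit 146) (nat_lit 5) (nat_lit 147) (nat_lit 5) (nat_lit 525) (nat_lit 509) (nat_lit 166)) (XT.lf (nat_lit 0) (nat_lit 742143585368) (nat_lit 456) (nat_lit 322039502770) (nat_lit 76) (nat_lit 225460855569) (nat_lit 141) (nat_lit 5) (nat_lit 147) (nat_lit 5) (nat_lit 142) (nat_lit 5) (nat_lit 526) (nat_lit 509) (nat_lit 165))) (XT.nd (nat_lit 78) (nat_lit 0) (nat_lit 0) (XT.lf (nat_lit 0) (nat_lit 416296268507) (nat_lit 304) (nat_lit 525101575751) (nat_lit 380) (nat_lit 384469913784) (nat_lit 137) (nat_lit 5) (nat_lit 141) (nat_lit 5) (nat_lit 142) (nat_lit 5) (nat_lit 527) (nat_lit 509) (nat_lit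 164)) (XT.lf (nat_lit 0) (nat_lit 1156797210678) (nat_lit 380) (nat_lit 161629261951) (nat_lit 76) (nat_lit 45167170736) (nat_lit 137) (nat_lit 5) (nat_lit 142) (nat_lit 5) (nat_lit 138) (nat_lit 5) (nat_lit 528) (nat_lit 509) (nat_lit 163)))))) (XT.nd (nat_lit 702) (nat_lit 0) (nat_lit 0) (XT.nd (nat_lit 312) (nat_lit 836) (nat_lit 0) (XT.nd (nat_lit 156) (nat_lit 304) (nat_lit 0) (XT.nd (nat_lit 78) (nat_lit 380) (nat_lit 0) (XT.lf (nat_lit 0) (nat_lit 635439896168) (nat_lit 304) (nat_lit 766055866561) (nat_lit 380) (nat_lit 783599358) (nat_lit 133) (nat_lit 5) (nat_lit 137) (nat_lit 5) (nat_lit 138) (nat_lit 5) (nat_lit 529) (nat_lit 509) (nat_lit 162)) (XT.lf (nat_lit 0) (nat_lit 32853011414) (nat_lit 304) (nat_lit 179073630002) (nat_lit 380) (nat_lit 1230639720672) (nat_lit 128) (nat_lit 5) (nat_lit 132) (nat_lit 5) (nat_lit 133) (nat_lit 5) (nat_lit 530) (nat_lit 509) (nat_lit 161))) (XT.nd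 (nat_lit 78) (nat_lit 304) (nat_lit 0) (XT.lf (nat_lit 0) (nat_lit 455272571547) (nat_lit 380) (nat_lit 592117891003) (nat_lit 76) (nat_lit 436475281674) (nat_lit 128) (nat_lit 5) (nat_lit 133) (nat_lit 5) (nat_lit 129) (nat_lit 5) (nat_lit 531) (nat_lit 509) (nat_lit 160)) (XT.lf (nat_lit 0) (nat_lit 272131616276) (nat_lit 304) (nat_lit 445838549764) (nat_lit 380) (nat_lit 808900711034) (nat_lit 124) (nat_lit 5) (nat_lit 128) (nat_lit 5) (nat_lit 129) (nat_lit 5) (nat_lit 532) (nat_lit 509) (nat_lit 159)))) (XT.nd (nat_lit 234) (nat_lit 532) (nat_lit 0) (XT.nd (nat_lit 156) (nat_lit 304) (nat_lit 0) (XT.lf (nat_lit 0) (nat_lit 1006895548471) (nat_lit 380) (nat_lit 374439392491) (nat_lit 76) (nat_lit 190036680194) (nat_lit 124) (nat_lit 5) (nat_lit 129) (nat_lit 5) (nat_lit 125) (nat_lit 5) (nat_lit 533) (nat_lit 509) (nat_lit 158)) (XT.lf (nat_lit 0) (nat_lit 2783247111) (nat_lit 304) (nat_lit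 110042111004) (nat_lit 76) (nat_lit 1552368664769) (nat_lit 120) (nat_lit 5) (nat_lit 124) (nat_lit 5) (nat_lit 121) (nat_lit 5) (nat_lit 535) (nat_lit 509) (nat_lit 156))) (XT.nd (nat_lit 78) (nat_lit 228) (nat_lit 0) (XT.lf (nat_lit 0) (nat_lit 324878716759) (nat_lit 380) (nat_lit 815451179031) (nat_lit 76) (nat_lit 573748435669) (nat_lit 116) (nat_lit 5) (nat_lit 121) (nat_lit 5) (nat_lit 117) (nat_lit 5) (nat_lit 536) (nat_lit 509) (nat_lit 155)) (XT.lf (nat_lit 0) (nat_lit 200782770307) (nat_lit 228) (nat_lit 469174732611) (nat_lit 304) (nat_lit 1095105425395) (nat_lit 113) (nat_lit 5) (nat_lit 116) (nat_lit 5) (nat_lit 117) (nat_lit 5) (nat_lit 537) (nat_lit 509) (nat_lit 154))))) (XT.nd (nat_lit 60528) (nat_lit 0) (nat_lit 3876) (XT.nd (nat_lit 60372) (nat_lit 0) (nat_lit 3800) (XT.nd (nat_lit 60294) (nat_lit 0) (nat_lit 3800) (XT.lf (nat_lit 0) (nat_lit 1050004092143) (nat_lit 304) (nat_lit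 525671020116) (nat_lit 76) (nat_lit 242035949561) (nat_lit 113) (nat_lit 5) (nat_lit 117) (nat_lit 5) (nat_lit 114) (nat_lit 5) (nat_lit 538) (nat_lit 509) (nat_lit 153)) (XT.lf (nat_lit 0) (nat_lit 192604380755) (nat_lit 836) (nat_lit 121047793364) (nat_lit 836) (nat_lit 121047793364) (nat_lit 163) (nat_lit 3) (nat_lit 174) (nat_lit 3) (nat_lit 174) (nat_lit 5) (nat_lit 510) (nat_lit 510) (nat_lit 180))) (XT.nd (nat_lit 78) (nat_lit 0) (nat_lit 76) (XT.lf (nat_lit 76) (nat_lit 197153268550) (nat_lit 0) (nat_lit 200763912204) (nat_lit 836) (nat_lit 493063842572) (nat_lit 164) (nat_lit 5) (nat_lit 163) (nat_lit 3) (nat_lit 174) (nat_lit 5) (nat_lit 511) (nat_lit 510) (nat_lit 179)) (XT.lf (nat_lit 0) (nat_lit 419286213473) (nat_lit 760) (nat_lit 250591782447) (nat_lit 836) (nat_lit 243361910556) (nat_lit 164) (nat_lit 5) (nat_lit 174) (nat_lit 5) (nat_lit 175) (nat_lit 5) (nat_lit 512) (nat_lit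 510) (nat_lit 178)))) (XT.nd (nat_lit 156) (nat_lit 0) (nat_lit 76) (XT.nd (nat_lit 78) (nat_lit 0) (nat_lit 76) (XT.lf (nat_lit 76) (nat_lit 218508407354) (nat_lit 0) (nat_lit 229918025558) (nat_lit 836) (nat_lit 487850164117) (nat_lit 165) (nat_lit 5) (nat_lit 164) (nat_lit 5) (nat_lit 175) (nat_lit 5) (nat_lit 513) (nat_lit 510) (nat_lit 177)) (XT.lf (nat_lit 0) (nat_lit 486959917271) (nat_lit 760) (nat_lit 244181709148) (nat_lit 836) (nat_lit 228926682995) (nat_lit 165) (nat_lit 5) (nat_lit 175) (nat_lit 5) (nat_lit 176) (nat_lit 5) (nat_lit 514) (nat_lit 510) (nat_lit 176))) (XT.nd (nat_lit 78) (nat_lit 0) (nat_lit 76) (XT.lf (nat_lit 76) (nat_lit 257558422254) (nat_lit 0) (nat_lit 277652005599) (nat_lit 836) (nat_lit 449449661964) (nat_lit 166) (nat_lit 5) (nat_lit 165) (nat_lit 5) (nat_lit 176) (nat_lit 5) (nat_lit 515) (nat_lit 510) (nat_lit 175)) (XT.nd (nat_lit 78) (nat_lit 0) (nat_lit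 0) (XT.lf (nat_lit 0) (nat_lit 593175917366) (nat_lit 760) (nat_lit 220578820603) (nat_lit 836) (nat_lit 196361598603) (nat_lit 166) (nat_lit 5) (nat_lit 176) (nat_lit 5) (nat_lit 177) (nat_lit 5) (nat_lit 516) (nat_lit 510) (nat_lit 174)) (XT.lf (nat_lit 76) (nat_lit 316859991826) (nat_lit 0) (nat_lit 346678429904) (nat_lit 836) (nat_lit 372832036915) (nat_lit 167) (nat_lit 5) (nat_lit 166) (nat_lit 5) (nat_lit 177) (nat_lit 5) (nat_lit 517) (nat_lit 510) (nat_lit 173))))))))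
noncomputable def xc503 : XT := (XT.nd (nat_lit 1326) (nat_lit 608) (nat_lit 0) (XT.nd (nat_lit 624) (nat_lit 1672) (nat_lit 0) (XT.nd (nat_lit 312) (nat_lit 912) (nat_lit 0) (XT.nd (nat_lit 156) (nat_lit 684) (nat_lit 0) (XT.nd (nat_lit 78) (nat_lit 0) (nat_lit 0) (XT.lf (nat_lit 0) (nat_lit 743460262520) (nat_lit 760) (nat_lit 177227372613) (nat_lit 836) (nat_lit 142947591130) (nat_lit 167) (nat_lit 5) (nat_lit 177) (nat_lit 5) (nat_lit 178) (nat_lit 5) (nat_lit 518) (nat_lit 510) (nat_lit 172)) (XT.lf (nat_lit 76) (nat_lit 399265613204) (nat_lit 0) (nat_lit 440029486307) (nat_lit 836) (nat_lit 252372287540) (nat_lit 168) (nat_lit 5) (nat_lit 167) (nat_lit 5) (nat_lit 178) (nat_lit 5) (nat_lit 519) (nat_lit 510) (nat_lit 171))) (XT.nd (nat_lit 78) (nat_lit 760) (nat_lit 0) (XT.lf (nat_lit 0) (nat_lit 943981857978) (nat_lit 760) (nat_lit 111273657313) (nat_lit 76) (nat_lit 65642631610) (nat_lit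 168) (nat_lit 5) (nat_lit 178) (nat_lit 5) (nat_lit 169) (nat_lit 5) (nat_lit 520) (nat_lit 510) (nat_lit 170)) (XT.lf (nat_lit 0) (nat_lit 507954995797) (nat_lit 760) (nat_lit 561092154114) (nat_lit 836) (nat_lit 81786085054) (nat_lit 158) (nat_lit 5) (nat_lit 168) (nat_lit 5) (nat_lit 169) (nat_lit 5) (nat_lit 521) (nat_lit 510) (nat_lit 169)))) (XT.nd (nat_lit 156) (nat_lit 380) (nat_lit 0) (XT.nd (nat_lit 78) (nat_lit 456) (nat_lit 0) (XT.lf (nat_lit 0) (nat_lit 19436658517) (nat_lit 836) (nat_lit 20476099927) (nat_lit 76) (nat_lit 1142242420777) (nat_lit 157) (nat_lit 5) (nat_lit 168) (nat_lit 5) (nat_lit 158) (nat_lit 5) (nat_lit 522) (nat_lit 510) (nat_lit 168)) (XT.lf (nat_lit 0) (nat_lit 141270567256) (nat_lit 532) (nat_lit 569984106186) (nat_lit 76) (nat_lit 502806580637) (nat_lit 151) (nat_lit 5) (nat_lit 158) (nat_lit 5) (nat_lit 152) (nat_lit 5) (nat_lit 523) (nat_lit 510) (nat_lit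 167))) (XT.nd (nat_lit 78) (nat_lit 0) (nat_lit 0) (XT.lf (nat_lit 0) (nat_lit 97483740960) (nat_lit 380) (nat_lit 174241186571) (nat_lit 456) (nat_lit 975711267343) (nat_lit 146) (nat_lit 5) (nat_lit 151) (nat_lit 5) (nat_lit 152) (nat_lit 5) (nat_lit 524) (nat_lit 510) (nat_lit 166)) (XT.lf (nat_lit 0) (nat_lit 424596311037) (nat_lit 456) (nat_lit 470125048404) (nat_lit 76) (nat_lit 386963808008) (nat_lit 146) (nat_lit 5) (nat_lit 152) (nat_lit 5) (nat_lit 147) (nat_lit 5) (nat_lit 525) (nat_lit 510) (nat_lit 165))))) (XT.nd (nat_lit 312) (nat_lit 988) (nat_lit 0) (XT.nd (nat_lit 156) (nat_lit 304) (nat_lit 0) (XT.nd (nat_lit 78) (nat_lit 0) (nat_lit 0) (XT.lf (nat_lit 0) (nat_lit 248800480458) (nat_lit 380) (nat_lit 343051665904) (nat_lit 456) (nat_lit 725457398158) (nat_lit 141) (nat_lit 5) (nat_lit 146) (nat_lit 5) (nat_lit 147) (nat_lit 5) (nat_lit 526) (nat_lit 510) (nat_lit 164)) (XT.lf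 (nat_lit 0) (nat_lit 779250854500) (nat_lit 456) (nat_lit 338141376894) (nat_lit 76) (nat_lit 236733904999) (nat_lit 141) (nat_lit 5) (nat_lit 147) (nat_lit 5) (nat_lit 142) (nat_lit 5) (nat_lit 527) (nat_lit 510) (nat_lit 163))) (XT.nd (nat_lit 78) (nat_lit 0) (nat_lit 0) (XT.lf (nat_lit 0) (nat_lit 437111181318) (nat_lit 304) (nat_lit 551356642290) (nat_lit 380) (nat_lit 403693317973) (nat_lit 137) (nat_lit 5) (nat_lit 141) (nat_lit 5) (nat_lit 142) (nat_lit 5) (nat_lit 528) (nat_lit 510) (nat_lit 162)) (XT.lf (nat_lit 0) (nat_lit 1214637154381) (nat_lit 380) (nat_lit 169710626423) (nat_lit 76) (nat_lit 47425540565) (nat_lit 137) (nat_lit 5) (nat_lit 142) (nat_lit 5) (nat_lit 138) (nat_lit 5) (nat_lit 529) (nat_lit 510) (nat_lit 161)))) (XT.nd (nat_lit 156) (nat_lit 304) (nat_lit 0) (XT.nd (nat_lit 78) (nat_lit 380) (nat_lit 0) (XT.lf (nat_lit 0) (nat_lit 667211988011) (nat_lit 304) (nat_lit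 804358643579) (nat_lit 380) (nat_lit 822694561) (nat_lit 133) (nat_lit 5) (nat_lit 137) (nat_lit 5) (nat_lit 138) (nat_lit 5) (nat_lit 530) (nat_lit 510) (nat_lit 160)) (XT.lf (nat_lit 0) (nat_lit 34495760128) (nat_lit 304) (nat_lit 188027293036) (nat_lit 380) (nat_lit 1292171623039) (nat_lit 128) (nat_lit 5) (nat_lit 132) (nat_lit 5) (nat_lit 133) (nat_lit 5) (nat_lit 531) (nat_lit 510) (nat_lit 159))) (XT.nd (nat_lit 78) (nat_lit 304) (nat_lit 0) (XT.lf (nat_lit 0) (nat_lit 478036276282) (nat_lit 380) (nat_lit 621723688559) (nat_lit 76) (nat_lit 458299062781) (nat_lit 128) (nat_lit 5) (nat_lit 133) (nat_lit 5) (nat_lit 129) (nat_lit 5) (nat_lit 532) (nat_lit 510) (nat_lit 158)) (XT.lf (nat_lit 0) (nat_lit 285738292520) (nat_lit 304) (nat_lit 468130455844) (nat_lit 380) (nat_lit 849345668859) (nat_lit 124) (nat_lit 5) (nat_lit 128) (nat_lit 5) (nat_lit 129) (nat_lit 5) (nat_lit 533) (nat_lit 510)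 (nat_lit 157)))))) (XT.nd (nat_lit 60996) (nat_lit 0) (nat_lit 2660) (XT.nd (nat_lit 60684) (nat_lit 0) (nat_lit 3572) (XT.nd (nat_lit 156) (nat_lit 304) (nat_lit 0) (XT.nd (nat_lit 78) (nat_lit 76) (nat_lit 0) (XT.lf (nat_lit 0) (nat_lit 588531750276) (nat_lit 228) (nat_lit 804111774751) (nat_lit 304) (nat_lit 305515599285) (nat_lit 121) (nat_lit 5) (nat_lit 124) (nat_lit 5) (nat_lit 125) (nat_lit 5) (nat_lit 535) (nat_lit 510) (nat_lit 155)) (XT.lf (nat_lit 0) (nat_lit 2922476153) (nat_lit 304) (nat_lit 115544126176) (nat_lit 76) (nat_lit 1629987118361) (nat_lit 120) (nat_lit 5) (nat_lit 124) (nat_lit 5) (nat_lit 121) (nat_lit 5) (nat_lit 536) (nat_lit 510) (nat_lit 154))) (XT.nd (nat_lit 60450) (nat_lit 0) (nat_lit 3572) (XT.lf (nat_lit 0) (nat_lit 341122717872) (nat_lit 380) (nat_lit 856223646189) (nat_lit 76) (nat_lit 602435880705) (nat_lit 116) (nat_lit 5) (nat_lit 121) (nat_lit 5) (nat_lit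 117) (nat_lit 5) (nat_lit 537) (nat_lit 510) (nat_lit 153)) (XT.lf (nat_lit 0) (nat_lit 202234683625) (nat_lit 836) (nat_lit 127100139017) (nat_lit 836) (nat_lit 127100139017) (nat_lit 163) (nat_lit 3) (nat_lit 174) (nat_lit 3) (nat_lit 174) (nat_lit 5) (nat_lit 511) (nat_lit 511) (nat_lit 178)))) (XT.nd (nat_lit 156) (nat_lit 0) (nat_lit 76) (XT.nd (nat_lit 78) (nat_lit 0) (nat_lit 76) (XT.lf (nat_lit 76) (nat_lit 207011018588) (nat_lit 0) (nat_lit 210802182237) (nat_lit 836) (nat_lit 517716865603) (nat_lit 164) (nat_lit 5) (nat_lit 163) (nat_lit 3) (nat_lit 174) (nat_lit 5) (nat_lit 512) (nat_lit 511) (nat_lit 177)) (XT.lf (nat_lit 0) (nat_lit 440250676405) (nat_lit 760) (nat_lit 263121280296) (nat_lit 836) (nat_lit 255529937474) (nat_lit 164) (nat_lit 5) (nat_lit 174) (nat_lit 5) (nat_lit 175) (nat_lit 5) (nat_lit 513) (nat_lit 511) (nat_lit 176))) (XT.nd (nat_lit 78) (nat_lit 0) (nat_lit 76)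 (XT.lf (nat_lit 76) (nat_lit 229433917523) (nat_lit 0) (nat_lit 241413983446) (nat_lit 836) (nat_lit 512242518581) (nat_lit 165) (nat_lit 5) (nat_lit 164) (nat_lit 5) (nat_lit 175) (nat_lit 5) (nat_lit 514) (nat_lit 511) (nat_lit 175)) (XT.lf (nat_lit 0) (nat_lit 511308051731) (nat_lit 760) (nat_lit 256390701256) (nat_lit 836) (nat_lit 240372964957) (nat_lit 165) (nat_lit 5) (nat_lit 175) (nat_lit 5) (nat_lit 176) (nat_lit 5) (nat_lit 515) (nat_lit 511) (nat_lit 174))))) (XT.nd (nat_lit 312) (nat_lit 1064) (nat_lit 0) (XT.nd (nat_lit 156) (nat_lit 0) (nat_lit 76) (XT.nd (nat_lit 78) (nat_lit 0) (nat_lit 76) (XT.lf (nat_lit 76) (nat_lit 270436435210) (nat_lit 0) (nat_lit 291534647466) (nat_lit 836) (nat_lit 471922004950) (nat_lit 166) (nat_lit 5) (nat_lit 165) (nat_lit 5) (nat_lit 176) (nat_lit 5) (nat_lit 516) (nat_lit 511) (nat_lit 173)) (XT.lf (nat_lit 0) (nat_lit 622834839692) (nat_lit 760)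 (nat_lit 231607667181) (nat_lit 836) (nat_lit 206179640194) (nat_lit 166) (nat_lit 5) (nat_lit 176) (nat_lit 5) (nat_lit 177) (nat_lit 5) (nat_lit 517) (nat_lit 511) (nat_lit 172))) (XT.nd (nat_lit 78) (nat_lit 0) (nat_lit 76) (XT.lf (nat_lit 76) (nat_lit 332703084345) (nat_lit 0) (nat_lit 364012380359) (nat_lit 836) (nat_lit 391473510770) (nat_lit 167) (nat_lit 5) (nat_lit 166) (nat_lit 5) (nat_lit 177) (nat_lit 5) (nat_lit 518) (nat_lit 511) (nat_lit 171)) (XT.lf (nat_lit 0) (nat_lit 780633391298) (nat_lit 760) (nat_lit 186088646497) (nat_lit 836) (nat_lit 150094943989) (nat_lit 167) (nat_lit 5) (nat_lit 177) (nat_lit 5) (nat_lit 178) (nat_lit 5) (nat_lit 519) (nat_lit 511) (nat_lit 170)))) (XT.nd (nat_lit 156) (nat_lit 1216) (nat_lit 0) (XT.nd (nat_lit 78) (nat_lit 0) (nat_lit 76) (XT.lf (nat_lit 76) (nat_lit 419228987083) (nat_lit 0) (nat_lit 462030979005) (nat_lit 836) (nat_lit 264990784728)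 (nat_lit 168) (nat_lit 5) (nat_lit 167) (nat_lit 5) (nat_lit 178) (nat_lit 5) (nat_lit 520) (nat_lit 511) (nat_lit 169)) (XT.lf (nat_lit 0) (nat_lit 991181056890) (nat_lit 760) (nat_lit 116837245803) (nat_lit 76) (nat_lit 68924746244) (nat_lit 168) (nat_lit 5) (nat_lit 178) (nat_lit 5) (nat_lit 169) (nat_lit 5) (nat_lit 521) (nat_lit 511) (nat_lit 168))) (XT.nd (nat_lit 78) (nat_lit 532) (nat_lit 0) (XT.lf (nat_lit 0) (nat_lit 533352838440) (nat_lit 760) (nat_lit 589146771381) (nat_lit 836) (nat_lit 85875281764) (nat_lit 158) (nat_lit 5) (nat_lit 168) (nat_lit 5) (nat_lit 169) (nat_lit 5) (nat_lit 522) (nat_lit 511) (nat_lit 167)) (XT.nd (nat_lit 78) (nat_lit 456) (nat_lit 0) (XT.lf (nat_lit 0) (nat_lit 20408590586) (nat_lit 836) (nat_lit 21499813207) (nat_lit 76) (nat_lit 1199354529425) (nat_lit 157) (nat_lit 5) (nat_lit 168) (nat_lit 5) (nat_lit 158) (nat_lit 5) (nat_lit 523) (nat_lit 511) (nat_lit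 166)) (XT.lf (nat_lit 0) (nat_lit 148334191363) (nat_lit 532) (nat_lit 598483216372) (nat_lit 76) (nat_lit 527946904253) (nat_lit 151) (nat_lit 5) (nat_lit 158) (nat_lit 5) (nat_lit 152) (nat_lit 5) (nat_lit 524) (nat_lit 511) (nat_lit 165))))))))
noncomputable def xc504 : XT := (XT.nd (nat_lit 61776) (nat_lit 0) (nat_lit 1292) (XT.nd (nat_lit 624) (nat_lit 608) (nat_lit 0) (XT.nd (nat_lit 312) (nat_lit 988) (nat_lit 0) (XT.nd (nat_lit 156) (nat_lit 380) (nat_lit 0) (XT.nd (nat_lit 78) (nat_lit 0) (nat_lit 0) (XT.lf (nat_lit 0) (nat_lit 102358021596) (nat_lit 380) (nat_lit 182953244957) (nat_lit 456) (nat_lit 1024496733425) (nat_lit 146) (nat_lit 5) (nat_lit 151) (nat_lit 5) (nat_lit 152) (nat_lit 5) (nat_lit 525) (nat_lit 511) (nat_lit 164)) (XT.lf (nat_lit 0) (nat_lit 445826214837) (nat_lit 456) (nat_lit 493631207288) (nat_lit 76) (nat_lit 406311999277) (nat_lit 146) (nat_lit 5) (nat_lit 152)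 (nat_lit 5) (nat_lit 147) (nat_lit 5) (nat_lit 526) (nat_lit 511) (nat_lit 163))) (XT.nd (nat_lit 78) (nat_lit 0) (nat_lit 0) (XT.lf (nat_lit 0) (nat_lit 261240596508) (nat_lit 380) (nat_lit 360204242655) (nat_lit 456) (nat_lit 761730178303) (nat_lit 141) (nat_lit 5) (nat_lit 146) (nat_lit 5) (nat_lit 147) (nat_lit 5) (nat_lit 527) (nat_lit 511) (nat_lit 162)) (XT.lf (nat_lit 0) (nat_lit 818213478735) (nat_lit 456) (nat_lit 355048354115) (nat_lit 76) (nat_lit 248570606282) (nat_lit 141) (nat_lit 5) (nat_lit 147) (nat_lit 5) (nat_lit 142) (nat_lit 5) (nat_lit 528) (nat_lit 511) (nat_lit 161)))) (XT.nd (nat_lit 156) (nat_lit 684) (nat_lit 0) (XT.nd (nat_lit 78) (nat_lit 0) (nat_lit 0) (XT.lf (nat_lit 0) (nat_lit 458966830529) (nat_lit 304) (nat_lit 578924463294) (nat_lit 380) (nat_lit 423877900880) (nat_lit 137) (nat_lit 5) (nat_lit 141) (nat_lit 5) (nat_lit 142) (nat_lit 5) (nat_lit 529) (nat_lit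 511) (nat_lit 160)) (XT.lf (nat_lit 0) (nat_lit 1275369087537) (nat_lit 380) (nat_lit 178196068288) (nat_lit 76) (nat_lit 49796827835) (nat_lit 137) (nat_lit 5) (nat_lit 142) (nat_lit 5) (nat_lit 138) (nat_lit 5) (nat_lit 530) (nat_lit 511) (nat_lit 159))) (XT.nd (nat_lit 78) (nat_lit 380) (nat_lit 0) (XT.lf (nat_lit 0) (nat_lit 700572675425) (nat_lit 304) (nat_lit 844576560964) (nat_lit 380) (nat_lit 863752404) (nat_lit 133) (nat_lit 5) (nat_lit 137) (nat_lit 5) (nat_lit 138) (nat_lit 5) (nat_lit 531) (nat_lit 511) (nat_lit 158)) (XT.lf (nat_lit 0) (nat_lit 36220637154) (nat_lit 304) (nat_lit 197428640939) (nat_lit 380) (nat_lit 1356780128304) (nat_lit 128) (nat_lit 5) (nat_lit 132) (nat_lit 5) (nat_lit 133) (nat_lit 5) (nat_lit 532) (nat_lit 511) (nat_lit 157))))) (XT.nd (nat_lit 60840) (nat_lit 0) (nat_lit 3268) (XT.nd (nat_lit 234) (nat_lit 304) (nat_lit 0) (XT.nd (nat_lit 156) (nat_lit 304)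 (nat_lit 0) (XT.lf (nat_lit 0) (nat_lit 501938159174) (nat_lit 380) (nat_lit 652809785011) (nat_lit 76) (nat_lit 481214031362) (nat_lit 128) (nat_lit 5) (nat_lit 133) (nat_lit 5) (nat_lit 129) (nat_lit 5) (nat_lit 533) (nat_lit 511) (nat_lit 156)) (XT.lf (nat_lit 0) (nat_lit 1110102480776) (nat_lit 380) (nat_lit 412819246073) (nat_lit 76) (nat_lit 209515478539) (nat_lit 124) (nat_lit 5) (nat_lit 129) (nat_lit 5) (nat_lit 125) (nat_lit 5) (nat_lit 535) (nat_lit 511) (nat_lit 154))) (XT.nd (nat_lit 78) (nat_lit 76) (nat_lit 0) (XT.lf (nat_lit 0) (nat_lit 617958421761) (nat_lit 228) (nat_lit 844317342001) (nat_lit 304) (nat_lit 320791313638) (nat_lit 121) (nat_lit 5) (nat_lit 124) (nat_lit 5) (nat_lit 125) (nat_lit 5) (nat_lit 536) (nat_lit 511) (nat_lit 153)) (XT.lf (nat_lit 0) (nat_lit 3068660448) (nat_lit 304) (nat_lit 121321250510) (nat_lit 76) (nat_lit 1711486492741) (nat_lit 120) (nat_lit 5)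 (nat_lit 124) (nat_lit 5) (nat_lit 121) (nat_lit 5) (nat_lit 537) (nat_lit 511) (nat_lit 152)))) (XT.nd (nat_lit 156) (nat_lit 0) (nat_lit 76) (XT.nd (nat_lit 78) (nat_lit 0) (nat_lit 0) (XT.lf (nat_lit 0) (nat_lit 212346493846) (nat_lit 836) (nat_lit 133455106045) (nat_lit 836) (nat_lit 133455106045) (nat_lit 163) (nat_lit 3) (nat_lit 174) (nat_lit 3) (nat_lit 174) (nat_lit 5) (nat_lit 512) (nat_lit 512) (nat_lit 176)) (XT.lf (nat_lit 76) (nat_lit 217361648077) (nat_lit 0) (nat_lit 221342358852) (nat_lit 836) (nat_lit 543602555506) (nat_lit 164) (nat_lit 5) (nat_lit 163) (nat_lit 3) (nat_lit 174) (nat_lit 5) (nat_lit 513) (nat_lit 512) (nat_lit 175))) (XT.nd (nat_lit 78) (nat_lit 0) (nat_lit 0) (XT.lf (nat_lit 0) (nat_lit 462263348329) (nat_lit 760) (nat_lit 276277261523) (nat_lit 836) (nat_lit 268306372116) (nat_lit 164) (nat_lit 5) (nat_lit 174) (nat_lit 5) (nat_lit 175) (nat_lit 5) (nat_lit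 514) (nat_lit 512) (nat_lit 174)) (XT.lf (nat_lit 76) (nat_lit 240905694851) (nat_lit 0) (nat_lit 253484733964) (nat_lit 836) (nat_lit 537854505061) (nat_lit 165) (nat_lit 5) (nat_lit 164) (nat_lit 5) (nat_lit 175) (nat_lit 5) (nat_lit 515) (nat_lit 512) (nat_lit 173)))))) (XT.nd (nat_lit 624) (nat_lit 1596) (nat_lit 0) (XT.nd (nat_lit 312) (nat_lit 532) (nat_lit 0) (XT.nd (nat_lit 156) (nat_lit 0) (nat_lit 76) (XT.nd (nat_lit 78) (nat_lit 0) (nat_lit 0) (XT.lf (nat_lit 0) (nat_lit 536873580029) (nat_lit 760) (nat_lit 269210151649) (nat_lit 836) (nat_lit 252391565868) (nat_lit 165) (nat_lit 5) (nat_lit 175) (nat_lit 5) (nat_lit 176) (nat_lit 5) (nat_lit 516) (nat_lit 512) (nat_lit 172)) (XT.lf (nat_lit 76) (nat_lit 283958340276) (nat_lit 0) (nat_lit 306111417561) (nat_lit 836) (nat_lit 495517978111) (nat_lit 166) (nat_lit 5) (nat_lit 165) (nat_lit 5) (nat_lit 176) (nat_lit 5) (nat_lit 517) (nat_lit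 512) (nat_lit 171))) (XT.nd (nat_lit 78) (nat_lit 0) (nat_lit 0) (XT.lf (nat_lit 0) (nat_lit 653976696379) (nat_lit 760) (nat_lit 243187964869) (nat_lit 836) (nat_lit 216488587429) (nat_lit 166) (nat_lit 5) (nat_lit 176) (nat_lit 5) (nat_lit 177) (nat_lit 5) (nat_lit 518) (nat_lit 512) (nat_lit 170)) (XT.lf (nat_lit 76) (nat_lit 349338322852) (nat_lit 0) (nat_lit 382213025644) (nat_lit 836) (nat_lit 411047070216) (nat_lit 167) (nat_lit 5) (nat_lit 166) (nat_lit 5) (nat_lit 177) (nat_lit 5) (nat_lit 519) (nat_lit 512) (nat_lit 169)))) (XT.nd (nat_lit 156) (nat_lit 684) (nat_lit 0) (XT.nd (nat_lit 78) (nat_lit 0) (nat_lit 0) (XT.lf (nat_lit 0) (nat_lit 819665165764) (nat_lit 760) (nat_lit 195392992883) (nat_lit 836) (nat_lit 157599666973) (nat_lit 167) (nat_lit 5) (nat_lit 177) (nat_lit 5) (nat_lit 178) (nat_lit 5) (nat_lit 520) (nat_lit 512) (nat_lit 168)) (XT.lf (nat_lit 76) (nat_lit 440190520990)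 (nat_lit 0) (nat_lit 485132544629) (nat_lit 836) (nat_lit 278240217670) (nat_lit 168) (nat_lit 5) (nat_lit 167) (nat_lit 5) (nat_lit 178) (nat_lit 5) (nat_lit 521) (nat_lit 512) (nat_lit 167))) (XT.nd (nat_lit 78) (nat_lit 760) (nat_lit 0) (XT.lf (nat_lit 0) (nat_lit 1040740205892) (nat_lit 760) (nat_lit 122679022492) (nat_lit 76) (nat_lit 72370968185) (nat_lit 168) (nat_lit 5) (nat_lit 178) (nat_lit 5) (nat_lit 169) (nat_lit 5) (nat_lit 522) (nat_lit 512) (nat_lit 166)) (XT.lf (nat_lit 0) (nat_lit 560020564582) (nat_lit 760) (nat_lit 618604118623) (nat_lit 836) (nat_lit 90168948308) (nat_lit 158) (nat_lit 5) (nat_lit 168) (nat_lit 5) (nat_lit 169) (nat_lit 5) (nat_lit 523) (nat_lit 512) (nat_lit 165))))) (XT.nd (nat_lit 312) (nat_lit 684) (nat_lit 0) (XT.nd (nat_lit 156) (nat_lit 380) (nat_lit 0) (XT.nd (nat_lit 78) (nat_lit 456) (nat_lit 0) (XT.lf (nat_lit 0) (nat_lit 21429110042) (nat_lit 836)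 (nat_lit 22574720678) (nat_lit 76) (nat_lit 1259322244657) (nat_lit 157) (nat_lit 5) (nat_lit 168) (nat_lit 5) (nat_lit 158) (nat_lit 5) (nat_lit 524) (nat_lit 512) (nat_lit 164)) (XT.lf (nat_lit 0) (nat_lit 155750987774) (nat_lit 532) (nat_lit 628407290912) (nat_lit 76) (nat_lit 554344244554) (nat_lit 151) (nat_lit 5) (nat_lit 158) (nat_lit 5) (nat_lit 152) (nat_lit 5) (nat_lit 525) (nat_lit 512) (nat_lit 163))) (XT.nd (nat_lit 78) (nat_lit 0) (nat_lit 0) (XT.lf (nat_lit 0) (nat_lit 107476007564) (nat_lit 380) (nat_lit 192100906350) (nat_lit 456) (nat_lit 1075721481857) (nat_lit 146) (nat_lit 5) (nat_lit 151) (nat_lit 5) (nat_lit 152) (nat_lit 5) (nat_lit 526) (nat_lit 512) (nat_lit 162)) (XT.lf (nat_lit 0) (nat_lit 468117605623) (nat_lit 456) (nat_lit 518312682813) (nat_lit 76) (nat_lit 426627600029) (nat_lit 146) (nat_lit 5) (nat_lit 152) (nat_lit 5) (nat_lit 147) (nat_lit 5) (nat_lit 527) (nat_lit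 512) (nat_lit 161)))) (XT.nd (nat_lit 156) (nat_lit 304) (nat_lit 0) (XT.nd (nat_lit 78) (nat_lit 0) (nat_lit 0) (XT.lf (nat_lit 0) (nat_lit 274302709804) (nat_lit 380) (nat_lit 378214448852) (nat_lit 456) (nat_lit 799816605801) (nat_lit 141) (nat_lit 5) (nat_lit 146) (nat_lit 5) (nat_lit 147) (nat_lit 5) (nat_lit 528) (nat_lit 512) (nat_lit 160)) (XT.lf (nat_lit 0) (nat_lit 859124226603) (nat_lit 456) (nat_lit 372800688716) (nat_lit 76) (nat_lit 260999142068) (nat_lit 141) (nat_lit 5) (nat_lit 147) (nat_lit 5) (nat_lit 142) (nat_lit 5) (nat_lit 529) (nat_lit 512) (nat_lit 159))) (XT.nd (nat_lit 78) (nat_lit 0) (nat_lit 0) (XT.lf (nat_lit 0) (nat_lit 481915253820) (nat_lit 304) (nat_lit 607870676382) (nat_lit 380) (nat_lit 445071720647) (nat_lit 137) (nat_lit 5) (nat_lit 141) (nat_lit 5) (nat_lit 142) (nat_lit 5) (nat_lit 530) (nat_lit 512) (nat_lit 158)) (XT.lf (nat_lit 0) (nat_lit 1339137610338)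 (nat_lit 380) (nat_lit 187105790563) (nat_lit 76) (nat_lit 52286678517) (nat_lit 137) (nat_lit 5) (nat_lit 142) (nat_lit 5) (nat_lit 138) (nat_lit 5) (nat_lit 531) (nat_lit 512) (nat_lit 157)))))))
noncomputable def xc505 : XT := (XT.nd (nat_lit 61776) (nat_lit 0) (nat_lit 228) (XT.nd (nat_lit 61152) (nat_lit 0) (nat_lit 3268) (XT.nd (nat_lit 312) (nat_lit 228) (nat_lit 0) (XT.nd (nat_lit 156) (nat_lit 304) (nat_lit 0) (XT.nd (nat_lit 78) (nat_lit 380) (nat_lit 0) (XT.lf (nat_lit 0) (nat_lit 735601389027) (nat_lit 304) (nat_lit 886805375593) (nat_lit 380) (nat_lit 906870288) (nat_lit 133) (nat_lit 5) (nat_lit 137) (nat_lit 5) (nat_lit 138) (nat_lit 5) (nat_lit 532) (nat_lit 512) (nat_lit 156)) (XT.lf (nat_lit 0) (nat_lit 38031749755) (nat_lit 304) (nat_lit 207300057793) (nat_lit 380) (nat_lit 1424619065887) (nat_lit 128) (nat_lit 5) (nat_lit 132) (nat_lit 5) (nat_lit 133) (nat_lit 5) (nat_lit 533)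 (nat_lit 512) (nat_lit 155))) (XT.nd (nat_lit 78) (nat_lit 304) (nat_lit 0) (XT.lf (nat_lit 0) (nat_lit 527035129788) (nat_lit 380) (nat_lit 685450194464) (nat_lit 76) (nat_lit 505274746936) (nat_lit 128) (nat_lit 5) (nat_lit 133) (nat_lit 5) (nat_lit 129) (nat_lit 5) (nat_lit 534) (nat_lit 512) (nat_lit 154)) (XT.lf (nat_lit 0) (nat_lit 315026636899) (nat_lit 304) (nat_lit 516113789566) (nat_lit 380) (nat_lit 936403461946) (nat_lit 124) (nat_lit 5) (nat_lit 128) (nat_lit 5) (nat_lit 129) (nat_lit 5) (nat_lit 535) (nat_lit 512) (nat_lit 153)))) (XT.nd (nat_lit 60684) (nat_lit 0) (nat_lit 3192) (XT.nd (nat_lit 78) (nat_lit 228) (nat_lit 0) (XT.lf (nat_lit 0) (nat_lit 1165607663074) (nat_lit 380) (nat_lit 433460130964) (nat_lit 76) (nat_lit 219991268704) (nat_lit 124) (nat_lit 5) (nat_lit 129) (nat_lit 5) (nat_lit 125) (nat_lit 5) (nat_lit 536) (nat_lit 512) (nat_lit 152)) (XT.lf (nat_lit 0) (nat_lit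 648856419013) (nat_lit 228) (nat_lit 886533189611) (nat_lit 304) (nat_lit 336830819809) (nat_lit 121) (nat_lit 5) (nat_lit 124) (nat_lit 5) (nat_lit 125) (nat_lit 5) (nat_lit 537) (nat_lit 512) (nat_lit 151))) (XT.nd (nat_lit 78) (nat_lit 0) (nat_lit 0) (XT.lf (nat_lit 0) (nat_lit 222963887507) (nat_lit 836) (nat_lit 140127825135) (nat_lit 836) (nat_lit 140127825135) (nat_lit 163) (nat_lit 3) (nat_lit 174) (nat_lit 3) (nat_lit 174) (nat_lit 5) (nat_lit 513) (nat_lit 513) (nat_lit 174)) (XT.lf (nat_lit 76) (nat_lit 228229801735) (nat_lit 0) (nat_lit 232409538022) (nat_lit 836) (nat_lit 570782544165) (nat_lit 164) (nat_lit 5) (nat_lit 163) (nat_lit 3) (nat_lit 174) (nat_lit 5) (nat_lit 514) (nat_lit 513) (nat_lit 173))))) (XT.nd (nat_lit 312) (nat_lit 0) (nat_lit 152) (XT.nd (nat_lit 156) (nat_lit 0) (nat_lit 76) (XT.nd (nat_lit 78) (nat_lit 0) (nat_lit 0) (XT.lf (nat_lit 0) (nat_lit 485376641009)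 (nat_lit 760) (nat_lit 290091049508) (nat_lit 836) (nat_lit 281721634276) (nat_lit 164) (nat_lit 5) (nat_lit 174) (nat_lit 5) (nat_lit 175) (nat_lit 5) (nat_lit 515) (nat_lit 513) (nat_lit 172)) (XT.lf (nat_lit 76) (nat_lit 252951053473) (nat_lit 0) (nat_lit 266159017235) (nat_lit 836) (nat_lit 564747103830) (nat_lit 165) (nat_lit 5) (nat_lit 164) (nat_lit 5) (nat_lit 175) (nat_lit 5) (nat_lit 516) (nat_lit 513) (nat_lit 171))) (XT.nd (nat_lit 78) (nat_lit 0) (nat_lit 0) (XT.lf (nat_lit 0) (nat_lit 563717373054) (nat_lit 760) (nat_lit 282670582432) (nat_lit 836) (nat_lit 265011101227) (nat_lit 165) (nat_lit 5) (nat_lit 175) (nat_lit 5) (nat_lit 176) (nat_lit 5) (nat_lit 517) (nat_lit 513) (nat_lit 170)) (XT.lf (nat_lit 76) (nat_lit 298156332850) (nat_lit 0) (nat_lit 321417022653) (nat_lit 836) (nat_lit 520293761746) (nat_lit 166) (nat_lit 5) (nat_lit 165) (nat_lit 5) (nat_lit 176) (nat_lit 5) (nat_lit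 518) (nat_lit 513) (nat_lit 169)))) (XT.nd (nat_lit 156) (nat_lit 0) (nat_lit 76) (XT.nd (nat_lit 78) (nat_lit 0) (nat_lit 0) (XT.lf (nat_lit 0) (nat_lit 686675635235) (nat_lit 760) (nat_lit 255347285407) (nat_lit 836) (nat_lit 227312985259) (nat_lit 166) (nat_lit 5) (nat_lit 176) (nat_lit 5) (nat_lit 177) (nat_lit 5) (nat_lit 519) (nat_lit 513) (nat_lit 168)) (XT.lf (nat_lit 76) (nat_lit 366805315447) (nat_lit 0) (nat_lit 401323700750) (nat_lit 836) (nat_lit 431599318428) (nat_lit 167) (nat_lit 5) (nat_lit 166) (nat_lit 5) (nat_lit 177) (nat_lit 5) (nat_lit 520) (nat_lit 513) (nat_lit 167))) (XT.nd (nat_lit 78) (nat_lit 0) (nat_lit 0) (XT.lf (nat_lit 0) (nat_lit 860648519200) (nat_lit 760) (nat_lit 205162564579) (nat_lit 836) (nat_lit 165479628358) (nat_lit 167) (nat_lit 5) (nat_lit 177) (nat_lit 5) (nat_lit 178) (nat_lit 5) (nat_lit 521) (nat_lit 513) (nat_lit 166)) (XT.lf (nat_lit 76) (nat_lit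 462200123730) (nat_lit 0) (nat_lit 509389186983) (nat_lit 836) (nat_lit 292152132142) (nat_lit 168) (nat_lit 5) (nat_lit 167) (nat_lit 5) (nat_lit 178) (nat_lit 5) (nat_lit 522) (nat_lit 513) (nat_lit 165)))))) (XT.nd (nat_lit 624) (nat_lit 1292) (nat_lit 0) (XT.nd (nat_lit 312) (nat_lit 760) (nat_lit 0) (XT.nd (nat_lit 156) (nat_lit 532) (nat_lit 0) (XT.nd (nat_lit 78) (nat_lit 760) (nat_lit 0) (XT.lf (nat_lit 0) (nat_lit 1092777303404) (nat_lit 760) (nat_lit 128812895974) (nat_lit 76) (nat_lit 75989502653) (nat_lit 168) (nat_lit 5) (nat_lit 178) (nat_lit 5) (nat_lit 169) (nat_lit 5) (nat_lit 523) (nat_lit 513) (nat_lit 164)) (XT.lf (nat_lit 0) (nat_lit 588021669202) (nat_lit 760) (nat_lit 649534332420) (nat_lit 836) (nat_lit 94677307247) (nat_lit 158) (nat_lit 5) (nat_lit 168) (nat_lit 5) (nat_lit 169) (nat_lit 5) (nat_lit 524) (nat_lit 513) (nat_lit 163))) (XT.nd (nat_lit 78) (nat_lit 456) (nat_lit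 0) (XT.lf (nat_lit 0) (nat_lit 22500647110) (nat_lit 836) (nat_lit 23703381256) (nat_lit 76) (nat_lit 1322288346695) (nat_lit 157) (nat_lit 5) (nat_lit 168) (nat_lit 5) (nat_lit 158) (nat_lit 5) (nat_lit 525) (nat_lit 513) (nat_lit 162)) (XT.lf (nat_lit 0) (nat_lit 163538615932) (nat_lit 532) (nat_lit 659827577200) (nat_lit 76) (nat_lit 582061452327) (nat_lit 151) (nat_lit 5) (nat_lit 158) (nat_lit 5) (nat_lit 152) (nat_lit 5) (nat_lit 526) (nat_lit 513) (nat_lit 161)))) (XT.nd (nat_lit 156) (nat_lit 380) (nat_lit 0) (XT.nd (nat_lit 78) (nat_lit 0) (nat_lit 0) (XT.lf (nat_lit 0) (nat_lit 112849884937) (nat_lit 380) (nat_lit 201705950893) (nat_lit 456) (nat_lit 1129507475913) (nat_lit 146) (nat_lit 5) (nat_lit 151) (nat_lit 5) (nat_lit 152) (nat_lit 5) (nat_lit 527) (nat_lit 513) (nat_lit 160)) (XT.lf (nat_lit 0) (nat_lit 491523558506) (nat_lit 456) (nat_lit 544228240002) (nat_lit 76) (nat_lit 447958980745)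 (nat_lit 146) (nat_lit 5) (nat_lit 152) (nat_lit 5) (nat_lit 147) (nat_lit 5) (nat_lit 528) (nat_lit 513) (nat_lit 159))) (XT.nd (nat_lit 78) (nat_lit 0) (nat_lit 0) (XT.lf (nat_lit 0) (nat_lit 288017921005) (nat_lit 380) (nat_lit 397125165911) (nat_lit 456) (nat_lit 839807362243) (nat_lit 141) (nat_lit 5) (nat_lit 146) (nat_lit 5) (nat_lit 147) (nat_lit 5) (nat_lit 529) (nat_lit 513) (nat_lit 158)) (XT.lf (nat_lit 0) (nat_lit 902080504992) (nat_lit 456) (nat_lit 391440647773) (nat_lit 76) (nat_lit 274049104134) (nat_lit 141) (nat_lit 5) (nat_lit 147) (nat_lit 5) (nat_lit 142) (nat_lit 5) (nat_lit 530) (nat_lit 513) (nat_lit 157))))) (XT.nd (nat_lit 390) (nat_lit 304) (nat_lit 0) (XT.nd (nat_lit 234) (nat_lit 684) (nat_lit 0) (XT.nd (nat_lit 78) (nat_lit 0) (nat_lit 0) (XT.lf (nat_lit 0) (nat_lit 506011090674) (nat_lit 304) (nat_lit 638264201061) (nat_lit 380) (nat_lit 467325238401) (nat_lit 137)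 (nat_lit 5) (nat_lit 141) (nat_lit 5) (nat_lit 142) (nat_lit 5) (nat_lit 531) (nat_lit 513) (nat_lit 156)) (XT.lf (nat_lit 0) (nat_lit 1406094552917) (nat_lit 380) (nat_lit 196461006495) (nat_lit 76) (nat_lit 54901020869) (nat_lit 137) (nat_lit 5) (nat_lit 142) (nat_lit 5) (nat_lit 138) (nat_lit 5) (nat_lit 532) (nat_lit 513) (nat_lit 155))) (XT.nd (nat_lit 78) (nat_lit 0) (nat_lit 0) (XT.lf (nat_lit 0) (nat_lit 39933410479) (nat_lit 304) (nat_lit 217665046903) (nat_lit 380) (nat_lit 1495849956749) (nat_lit 128) (nat_lit 5) (nat_lit 132) (nat_lit 5) (nat_lit 133) (nat_lit 5) (nat_lit 534) (nat_lit 513) (nat_lit 153)) (XT.lf (nat_lit 0) (nat_lit 553386943107) (nat_lit 380) (nat_lit 719722631808) (nat_lit 76) (nat_lit 530538496986) (nat_lit 128) (nat_lit 5) (nat_lit 133) (nat_lit 5) (nat_lit 129) (nat_lit 5) (nat_lit 535) (nat_lit 513) (nat_lit 152)))) (XT.nd (nat_lit 60840) (nat_lit 0) (nat_lit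 2964) (XT.nd (nat_lit 60762) (nat_lit 0) (nat_lit 2964) (XT.lf (nat_lit 0) (nat_lit 330778039955) (nat_lit 304) (nat_lit 541919463069) (nat_lit 380) (nat_lit 983223577043) (nat_lit 124) (nat_lit 5) (nat_lit 128) (nat_lit 5) (nat_lit 129) (nat_lit 5) (nat_lit 536) (nat_lit 513) (nat_lit 151)) (XT.lf (nat_lit 0) (nat_lit 234112144440) (nat_lit 836) (nat_lit 147134183547) (nat_lit 836) (nat_lit 147134183547) (nat_lit 163) (nat_lit 3) (nat_lit 174) (nat_lit 3) (nat_lit 174) (nat_lit 5) (nat_lit 514) (nat_lit 514) (nat_lit 172))) (XT.nd (nat_lit 78) (nat_lit 0) (nat_lit 76) (XT.lf (nat_lit 76) (nat_lit 239641356453) (nat_lit 0) (nat_lit 244030070459) (nat_lit 836) (nat_lit 599321545190) (nat_lit 164) (nat_lit 5) (nat_lit 163) (nat_lit 3) (nat_lit 174) (nat_lit 5) (nat_lit 515) (nat_lit 514) (nat_lit 171)) (XT.nd (nat_lit 78) (nat_lit 0) (nat_lit 0) (XT.lf (nat_lit 0) (nat_lit 509645586677) (nat_lit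 760) (nat_lit 304595533874) (nat_lit 836) (nat_lit 295807664792) (nat_lit 164) (nat_lit 5) (nat_lit 174) (nat_lit 5) (nat_lit 175) (nat_lit 5) (nat_lit 516) (nat_lit 514) (nat_lit 170)) (XT.lf (nat_lit 76) (nat_lit 265598673158) (nat_lit 0) (nat_lit 279467010339) (nat_lit 836) (nat_lit 592984344297) (nat_lit 165) (nat_lit 5) (nat_lit 164) (nat_lit 5) (nat_lit 175) (nat_lit 5) (nat_lit 517) (nat_lit 514) (nat_lit 169))))))))
noncomputable def xc506 : XT := (XT.nd (nat_lit 1326) (nat_lit 380) (nat_lit 0) (XT.nd (nat_lit 624) (nat_lit 1900) (nat_lit 0) (XT.nd (nat_lit 312) (nat_lit 532) (nat_lit 0) (XT.nd (nat_lit 156) (nat_lit 0) (nat_lit 76) (XT.nd (nat_lit 78) (nat_lit 0) (nat_lit 0) (XT.lf (nat_lit 0) (nat_lit 591903345130) (nat_lit 760) (nat_lit 296804041895) (nat_lit 836) (nat_lit 278261617344) (nat_lit 165) (nat_lit 5) (nat_lit 175) (nat_lit 5) (nat_lit 176) (nat_lit 5) (nat_lit 518) (nat_lit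 514) (nat_lit 168)) (XT.lf (nat_lit 76) (nat_lit 313064218027) (nat_lit 0) (nat_lit 337487904818) (nat_lit 836) (nat_lit 546308345279) (nat_lit 166) (nat_lit 5) (nat_lit 165) (nat_lit 5) (nat_lit 176) (nat_lit 5) (nat_lit 519) (nat_lit 514) (nat_lit 167))) (XT.nd (nat_lit 78) (nat_lit 0) (nat_lit 0) (XT.lf (nat_lit 0) (nat_lit 721009511363) (nat_lit 760) (nat_lit 268114579196) (nat_lit 836) (nat_lit 238678605913) (nat_lit 166) (nat_lit 5) (nat_lit 176) (nat_lit 5) (nat_lit 177) (nat_lit 5) (nat_lit 520) (nat_lit 514) (nat_lit 166)) (XT.lf (nat_lit 76) (nat_lit 385145650564) (nat_lit 0) (nat_lit 421389907398) (nat_lit 836) (nat_lit 453179188841) (nat_lit 167) (nat_lit 5) (nat_lit 166) (nat_lit 5) (nat_lit 177) (nat_lit 5) (nat_lit 521) (nat_lit 514) (nat_lit 165)))) (XT.nd (nat_lit 156) (nat_lit 684) (nat_lit 0) (XT.nd (nat_lit 78) (nat_lit 0) (nat_lit 0) (XT.lf (nat_lit 0) (nat_lit 903681031462)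 (nat_lit 760) (nat_lit 215420622106) (nat_lit 836) (nat_lit 173753589854) (nat_lit 167) (nat_lit 5) (nat_lit 177) (nat_lit 5) (nat_lit 178) (nat_lit 5) (nat_lit 522) (nat_lit 514) (nat_lit 164)) (XT.lf (nat_lit 76) (nat_lit 485310199478) (nat_lit 0) (nat_lit 534858660049) (nat_lit 836) (nat_lit 306759651300) (nat_lit 168) (nat_lit 5) (nat_lit 167) (nat_lit 5) (nat_lit 178) (nat_lit 5) (nat_lit 523) (nat_lit 514) (nat_lit 163))) (XT.nd (nat_lit 78) (nat_lit 760) (nat_lit 0) (XT.lf (nat_lit 0) (nat_lit 1147416247683) (nat_lit 760) (nat_lit 135253470348) (nat_lit 76) (nat_lit 79788965140) (nat_lit 168) (nat_lit 5) (nat_lit 178) (nat_lit 5) (nat_lit 169) (nat_lit 5) (nat_lit 524) (nat_lit 514) (nat_lit 162)) (XT.lf (nat_lit 0) (nat_lit 617422821950) (nat_lit 760) (nat_lit 682011056176) (nat_lit 836) (nat_lit 99411092359) (nat_lit 158) (nat_lit 5) (nat_lit 168) (nat_lit 5) (nat_lit 169) (nat_lit 5)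 (nat_lit 525) (nat_lit 514) (nat_lit 161))))) (XT.nd (nat_lit 312) (nat_lit 988) (nat_lit 0) (XT.nd (nat_lit 156) (nat_lit 380) (nat_lit 0) (XT.nd (nat_lit 78) (nat_lit 456) (nat_lit 0) (XT.lf (nat_lit 0) (nat_lit 23625753448) (nat_lit 836) (nat_lit 24888481879) (nat_lit 76) (nat_lit 1388402754783) (nat_lit 157) (nat_lit 5) (nat_lit 168) (nat_lit 5) (nat_lit 158) (nat_lit 5) (nat_lit 526) (nat_lit 514) (nat_lit 160)) (XT.lf (nat_lit 0) (nat_lit 171715618174) (nat_lit 532) (nat_lit 692818885078) (nat_lit 76) (nat_lit 611164520902) (nat_lit 151) (nat_lit 5) (nat_lit 158) (nat_lit 5) (nat_lit 152) (nat_lit 5) (nat_lit 527) (nat_lit 514) (nat_lit 159))) (XT.nd (nat_lit 78) (nat_lit 0) (nat_lit 0) (XT.lf (nat_lit 0) (nat_lit 118492449022) (nat_lit 380) (nat_lit 211791247734) (nat_lit 456) (nat_lit 1185982777114) (nat_lit 146) (nat_lit 5) (nat_lit 151) (nat_lit 5) (nat_lit 152) (nat_lit 5) (nat_lit 528)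 (nat_lit 514) (nat_lit 158)) (XT.lf (nat_lit 0) (nat_lit 516099802284) (nat_lit 456) (nat_lit 571439582204) (nat_lit 76) (nat_lit 470356930431) (nat_lit 146) (nat_lit 5) (nat_lit 152) (nat_lit 5) (nat_lit 147) (nat_lit 5) (nat_lit 529) (nat_lit 514) (nat_lit 157)))) (XT.nd (nat_lit 156) (nat_lit 608) (nat_lit 0) (XT.nd (nat_lit 78) (nat_lit 0) (nat_lit 0) (XT.lf (nat_lit 0) (nat_lit 302418885727) (nat_lit 380) (nat_lit 416981419324) (nat_lit 456) (nat_lit 881797663373) (nat_lit 141) (nat_lit 5) (nat_lit 146) (nat_lit 5) (nat_lit 147) (nat_lit 5) (nat_lit 530) (nat_lit 514) (nat_lit 156)) (XT.lf (nat_lit 0) (nat_lit 947184591065) (nat_lit 456) (nat_lit 411012611791) (nat_lit 76) (nat_lit 287751563843) (nat_lit 141) (nat_lit 5) (nat_lit 147) (nat_lit 5) (nat_lit 142) (nat_lit 5) (nat_lit 531) (nat_lit 514) (nat_lit 155))) (XT.nd (nat_lit 156) (nat_lit 304) (nat_lit 0) (XT.lf (nat_lit 0) (nat_lit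 531311712476) (nat_lit 304) (nat_lit 670177402824) (nat_lit 380) (nat_lit 490691438391) (nat_lit 137) (nat_lit 5) (nat_lit 141) (nat_lit 5) (nat_lit 142) (nat_lit 5) (nat_lit 532) (nat_lit 514) (nat_lit 154)) (XT.lf (nat_lit 0) (nat_lit 811000673108) (nat_lit 304) (nat_lit 977702902772) (nat_lit 380) (nat_lit 999700704) (nat_lit 133) (nat_lit 5) (nat_lit 137) (nat_lit 5) (nat_lit 138) (nat_lit 5) (nat_lit 534) (nat_lit 514) (nat_lit 152)))))) (XT.nd (nat_lit 61386) (nat_lit 0) (nat_lit 1368) (XT.nd (nat_lit 61074) (nat_lit 0) (nat_lit 2736) (XT.nd (nat_lit 60918) (nat_lit 0) (nat_lit 2660) (XT.nd (nat_lit 78) (nat_lit 0) (nat_lit 0) (XT.lf (nat_lit 0) (nat_lit 41930147430) (nat_lit 304) (nat_lit 228548286750) (nat_lit 380) (nat_lit 1570642397958) (nat_lit 128) (nat_lit 5) (nat_lit 132) (nat_lit 5) (nat_lit 133) (nat_lit 5) (nat_lit 535) (nat_lit 514) (nat_lit 151)) (XT.lf (nat_lit 0) (nat_lit 581056341809)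 (nat_lit 380) (nat_lit 755708697749) (nat_lit 76) (nat_lit 557065433358) (nat_lit 128) (nat_lit 5) (nat_lit 133) (nat_lit 5) (nat_lit 129) (nat_lit 5) (nat_lit 536) (nat_lit 514) (nat_lit 150))) (XT.nd (nat_lit 78) (nat_lit 0) (nat_lit 0) (XT.lf (nat_lit 0) (nat_lit 245817808403) (nat_lit 836) (nat_lit 154490862933) (nat_lit 836) (nat_lit 154490862933) (nat_lit 163) (nat_lit 3) (nat_lit 174) (nat_lit 3) (nat_lit 174) (nat_lit 5) (nat_lit 515) (nat_lit 515) (nat_lit 170)) (XT.lf (nat_lit 76) (nat_lit 251623482897) (nat_lit 0) (nat_lit 256231624354) (nat_lit 836) (nat_lit 629287507997) (nat_lit 164) (nat_lit 5) (nat_lit 163) (nat_lit 3) (nat_lit 174) (nat_lit 5) (nat_lit 516) (nat_lit 515) (nat_lit 169)))) (XT.nd (nat_lit 156) (nat_lit 0) (nat_lit 76) (XT.nd (nat_lit 78) (nat_lit 0) (nat_lit 0) (XT.lf (nat_lit 0) (nat_lit 535127969066) (nat_lit 760) (nat_lit 319825248791) (nat_lit 836) (nat_lit 310598001594)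 (nat_lit 164) (nat_lit 5) (nat_lit 174) (nat_lit 5) (nat_lit 175) (nat_lit 5) (nat_lit 517) (nat_lit 515) (nat_lit 168)) (XT.lf (nat_lit 76) (nat_lit 278878667597) (nat_lit 0) (nat_lit 293440399172) (nat_lit 836) (nat_lit 622633457453) (nat_lit 165) (nat_lit 5) (nat_lit 164) (nat_lit 5) (nat_lit 175) (nat_lit 5) (nat_lit 518) (nat_lit 515) (nat_lit 167))) (XT.nd (nat_lit 78) (nat_lit 0) (nat_lit 0) (XT.lf (nat_lit 0) (nat_lit 621498606194) (nat_lit 760) (nat_lit 311644180808) (nat_lit 836) (nat_lit 292174662889) (nat_lit 165) (nat_lit 5) (nat_lit 175) (nat_lit 5) (nat_lit 176) (nat_lit 5) (nat_lit 519) (nat_lit 515) (nat_lit 166)) (XT.lf (nat_lit 76) (nat_lit 328717491092) (nat_lit 0) (nat_lit 354362328207) (nat_lit 836) (nat_lit 573623667709) (nat_lit 166) (nat_lit 5) (nat_lit 165) (nat_lit 5) (nat_lit 176) (nat_lit 5) (nat_lit 520) (nat_lit 515) (nat_lit 165))))) (XT.nd (nat_lit 312) (nat_lit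 1520) (nat_lit 0) (XT.nd (nat_lit 156) (nat_lit 0) (nat_lit 76) (XT.nd (nat_lit 78) (nat_lit 0) (nat_lit 0) (XT.lf (nat_lit 0) (nat_lit 757060072523) (nat_lit 760) (nat_lit 281520244227) (nat_lit 836) (nat_lit 250612510259) (nat_lit 166) (nat_lit 5) (nat_lit 176) (nat_lit 5) (nat_lit 177) (nat_lit 5) (nat_lit 521) (nat_lit 515) (nat_lit 164)) (XT.lf (nat_lit 76) (nat_lit 404402995990) (nat_lit 0) (nat_lit 442459422368) (nat_lit 836) (nat_lit 475838061653) (nat_lit 167) (nat_lit 5) (nat_lit 166) (nat_lit 5) (nat_lit 177) (nat_lit 5) (nat_lit 522) (nat_lit 515) (nat_lit 163))) (XT.nd (nat_lit 78) (nat_lit 0) (nat_lit 0) (XT.lf (nat_lit 0) (nat_lit 948865161313) (nat_lit 760) (nat_lit 226191589083) (nat_lit 836) (nat_lit 182441251276) (nat_lit 167) (nat_lit 5) (nat_lit 177) (nat_lit 5) (nat_lit 178) (nat_lit 5) (nat_lit 523) (nat_lit 515) (nat_lit 162)) (XT.lf (nat_lit 76) (nat_lit 509575772546) (nat_lit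 0) (nat_lit 561601605494) (nat_lit 836) (nat_lit 322097554547) (nat_lit 168) (nat_lit 5) (nat_lit 167) (nat_lit 5) (nat_lit 178) (nat_lit 5) (nat_lit 524) (nat_lit 515) (nat_lit 161)))) (XT.nd (nat_lit 156) (nat_lit 912) (nat_lit 0) (XT.nd (nat_lit 78) (nat_lit 760) (nat_lit 0) (XT.lf (nat_lit 0) (nat_lit 1204787131821) (nat_lit 760) (nat_lit 142016079988) (nat_lit 76) (nat_lit 83778401926) (nat_lit 168) (nat_lit 5) (nat_lit 178) (nat_lit 5) (nat_lit 169) (nat_lit 5) (nat_lit 525) (nat_lit 515) (nat_lit 160)) (XT.lf (nat_lit 0) (nat_lit 648294025894) (nat_lit 760) (nat_lit 716111615457) (nat_lit 836) (nat_lit 104381574188) (nat_lit 158) (nat_lit 5) (nat_lit 168) (nat_lit 5) (nat_lit 169) (nat_lit 5) (nat_lit 526) (nat_lit 515) (nat_lit 159))) (XT.nd (nat_lit 78) (nat_lit 836) (nat_lit 0) (XT.lf (nat_lit 0) (nat_lit 24807108225) (nat_lit 836) (nat_lit 26132843896) (nat_lit 76) (nat_lit 1457822884136)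 (nat_lit 157) (nat_lit 5) (nat_lit 168) (nat_lit 5) (nat_lit 158) (nat_lit 5) (nat_lit 527) (nat_lit 515) (nat_lit 158)) (XT.nd (nat_lit 78) (nat_lit 380) (nat_lit 0) (XT.lf (nat_lit 0) (nat_lit 180301463886) (nat_lit 532) (nat_lit 727459764949) (nat_lit 76) (nat_lit 641722743282) (nat_lit 151) (nat_lit 5) (nat_lit 158) (nat_lit 5) (nat_lit 152) (nat_lit 5) (nat_lit 528) (nat_lit 515) (nat_lit 157)) (XT.lf (nat_lit 0) (nat_lit 124417134817) (nat_lit 380) (nat_lit 222380809483) (nat_lit 456) (nat_lit 1245281850123) (nat_lit 146) (nat_lit 5) (nat_lit 151) (nat_lit 5) (nat_lit 152) (nat_lit 5) (nat_lit 529) (nat_lit 515) (nat_lit 156))))))))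
noncomputable def xc507 : XT := (XT.nd (nat_lit 62088) (nat_lit 0) (nat_lit 684) (XT.nd (nat_lit 61464) (nat_lit 0) (nat_lit 2660) (XT.nd (nat_lit 312) (nat_lit 684) (nat_lit 0) (XT.nd (nat_lit 156) (nat_lit 304) (nat_lit 0) (XT.nd (nat_lit 78) (nat_lit 380) (nat_lit 0) (XT.lf (nat_lit 0) (nat_lit 541904852128) (nat_lit 456) (nat_lit 600011498006) (nat_lit 76) (nat_lit 493874777540) (nat_lit 146) (nat_lit 5) (nat_lit 152) (nat_lit 5) (nat_lit 147) (nat_lit 5) (nat_lit 530) (nat_lit 515) (nat_lit 155)) (XT.lf (nat_lit 0) (nat_lit 317539892301) (nat_lit 380) (nat_lit 437830485861) (nat_lit 456) (nat_lit 925887485787) (nat_lit 141) (nat_lit 5) (nat_lit 146) (nat_lit 5) (nat_lit 147) (nat_lit 5) (nat_lit 531) (nat_lit 515) (nat_lit 154))) (XT.nd (nat_lit 78) (nat_lit 304) (nat_lit 0) (XT.lf (nat_lit 0) (nat_lit 994543875787) (nat_lit 456) (nat_lit 431563180366) (nat_lit 76) (nat_lit 302139146118) (nat_lit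 141) (nat_lit 5) (nat_lit 147) (nat_lit 5) (nat_lit 142) (nat_lit 5) (nat_lit 532) (nat_lit 515) (nat_lit 153)) (XT.lf (nat_lit 0) (nat_lit 557877359114) (nat_lit 304) (nat_lit 703686265445) (nat_lit 380) (nat_lit 515225954138) (nat_lit 137) (nat_lit 5) (nat_lit 141) (nat_lit 5) (nat_lit 142) (nat_lit 5) (nat_lit 533) (nat_lit 515) (nat_lit 152)))) (XT.nd (nat_lit 156) (nat_lit 380) (nat_lit 0) (XT.nd (nat_lit 78) (nat_lit 304) (nat_lit 0) (XT.lf (nat_lit 0) (nat_lit 1550219354757) (nat_lit 380) (nat_lit 216598129022) (nat_lit 76) (nat_lit 60528390466) (nat_lit 137) (nat_lit 5) (nat_lit 142) (nat_lit 5) (nat_lit 138) (nat_lit 5) (nat_lit 534) (nat_lit 515) (nat_lit 151)) (XT.lf (nat_lit 0) (nat_lit 851550766335) (nat_lit 304) (nat_lit 1026588037897) (nat_lit 380) (nat_lit 1049633700) (nat_lit 133) (nat_lit 5) (nat_lit 137) (nat_lit 5) (nat_lit 138) (nat_lit 5) (nat_lit 535) (nat_lit 515) (nat_lit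 150))) (XT.nd (nat_lit 60918) (nat_lit 0) (nat_lit 2660) (XT.lf (nat_lit 0) (nat_lit 44026715053) (nat_lit 304) (nat_lit 239975689750) (nat_lit 380) (nat_lit 1649174466492) (nat_lit 128) (nat_lit 5) (nat_lit 132) (nat_lit 5) (nat_lit 133) (nat_lit 5) (nat_lit 536) (nat_lit 515) (nat_lit 149)) (XT.lf (nat_lit 0) (nat_lit 258108750289) (nat_lit 836) (nat_lit 162215379058) (nat_lit 836) (nat_lit 162215379058) (nat_lit 163) (nat_lit 3) (nat_lit 174) (nat_lit 3) (nat_lit 174) (nat_lit 5) (nat_lit 516) (nat_lit 516) (nat_lit 168))))) (XT.nd (nat_lit 312) (nat_lit 0) (nat_lit 152) (XT.nd (nat_lit 156) (nat_lit 0) (nat_lit 76) (XT.nd (nat_lit 78) (nat_lit 0) (nat_lit 76) (XT.lf (nat_lit 76) (nat_lit 264204710214) (nat_lit 0) (nat_lit 269043251261) (nat_lit 836) (nat_lit 660751779586) (nat_lit 164) (nat_lit 5) (nat_lit 163) (nat_lit 3) (nat_lit 174) (nat_lit 5) (nat_lit 517) (nat_lit 516) (nat_lit 167))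 (XT.lf (nat_lit 0) (nat_lit 561884460993) (nat_lit 760) (nat_lit 335816455196) (nat_lit 836) (nat_lit 326127859553) (nat_lit 164) (nat_lit 5) (nat_lit 174) (nat_lit 5) (nat_lit 175) (nat_lit 5) (nat_lit 518) (nat_lit 516) (nat_lit 166))) (XT.nd (nat_lit 78) (nat_lit 0) (nat_lit 76) (XT.lf (nat_lit 76) (nat_lit 292822656107) (nat_lit 0) (nat_lit 308112453884) (nat_lit 836) (nat_lit 653765035942) (nat_lit 165) (nat_lit 5) (nat_lit 164) (nat_lit 5) (nat_lit 175) (nat_lit 5) (nat_lit 519) (nat_lit 516) (nat_lit 165)) (XT.lf (nat_lit 0) (nat_lit 652573621591) (nat_lit 760) (nat_lit 327226332540) (nat_lit 836) (nat_lit 306783363994) (nat_lit 165) (nat_lit 5) (nat_lit 175) (nat_lit 5) (nat_lit 176) (nat_lit 5) (nat_lit 520) (nat_lit 516) (nat_lit 164)))) (XT.nd (nat_lit 156) (nat_lit 0) (nat_lit 76) (XT.nd (nat_lit 78) (nat_lit 0) (nat_lit 76) (XT.lf (nat_lit 76) (nat_lit 345153422030) (nat_lit 0) (nat_lit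 372080470148) (nat_lit 836) (nat_lit 602304765078) (nat_lit 166) (nat_lit 5) (nat_lit 165) (nat_lit 5) (nat_lit 176) (nat_lit 5) (nat_lit 521) (nat_lit 516) (nat_lit 163)) (XT.lf (nat_lit 0) (nat_lit 794913153784) (nat_lit 760) (nat_lit 295596198453) (nat_lit 836) (nat_lit 263143112235) (nat_lit 166) (nat_lit 5) (nat_lit 176) (nat_lit 5) (nat_lit 177) (nat_lit 5) (nat_lit 522) (nat_lit 516) (nat_lit 162))) (XT.nd (nat_lit 78) (nat_lit 0) (nat_lit 76) (XT.lf (nat_lit 76) (nat_lit 424623202839) (nat_lit 0) (nat_lit 464582411265) (nat_lit 836) (nat_lit 499629886161) (nat_lit 167) (nat_lit 5) (nat_lit 166) (nat_lit 5) (nat_lit 177) (nat_lit 5) (nat_lit 523) (nat_lit 516) (nat_lit 161)) (XT.lf (nat_lit 0) (nat_lit 996308490380) (nat_lit 760) (nat_lit 237501110371) (nat_lit 836) (nat_lit 191563297450) (nat_lit 167) (nat_lit 5) (nat_lit 177) (nat_lit 5) (nat_lit 178) (nat_lit 5) (nat_lit 524) (nat_lit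 516) (nat_lit 160)))))) (XT.nd (nat_lit 702) (nat_lit 304) (nat_lit 0) (XT.nd (nat_lit 312) (nat_lit 1216) (nat_lit 0) (XT.nd (nat_lit 156) (nat_lit 760) (nat_lit 0) (XT.nd (nat_lit 78) (nat_lit 0) (nat_lit 76) (XT.lf (nat_lit 76) (nat_lit 535054618402) (nat_lit 0) (nat_lit 589681697054) (nat_lit 836) (nat_lit 338202360330) (nat_lit 168) (nat_lit 5) (nat_lit 167) (nat_lit 5) (nat_lit 178) (nat_lit 5) (nat_lit 525) (nat_lit 516) (nat_lit 159)) (XT.lf (nat_lit 0) (nat_lit 1265026553495) (nat_lit 760) (nat_lit 149116826050) (nat_lit 76) (nat_lit 87967311619) (nat_lit 168) (nat_lit 5) (nat_lit 178) (nat_lit 5) (nat_lit 169) (nat_lit 5) (nat_lit 526) (nat_lit 516) (nat_lit 158))) (XT.nd (nat_lit 78) (nat_lit 76) (nat_lit 0) (XT.lf (nat_lit 0) (nat_lit 680708784193) (nat_lit 760) (nat_lit 751917202100) (nat_lit 836) (nat_lit 109600586875) (nat_lit 158) (nat_lit 5) (nat_lit 168) (nat_lit 5) (nat_lit 169)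 (nat_lit 5) (nat_lit 527) (nat_lit 516) (nat_lit 157)) (XT.lf (nat_lit 0) (nat_lit 26047524502) (nat_lit 836) (nat_lit 27439429784) (nat_lit 76) (nat_lit 1530714020735) (nat_lit 157) (nat_lit 5) (nat_lit 168) (nat_lit 5) (nat_lit 158) (nat_lit 5) (nat_lit 528) (nat_lit 516) (nat_lit 156)))) (XT.nd (nat_lit 156) (nat_lit 380) (nat_lit 0) (XT.nd (nat_lit 78) (nat_lit 380) (nat_lit 0) (XT.lf (nat_lit 0) (nat_lit 189316595859) (nat_lit 532) (nat_lit 763832694799) (nat_lit 76) (nat_lit 673808877122) (nat_lit 151) (nat_lit 5) (nat_lit 158) (nat_lit 5) (nat_lit 152) (nat_lit 5) (nat_lit 529) (nat_lit 516) (nat_lit 155)) (XT.lf (nat_lit 0) (nat_lit 130638049013) (nat_lit 380) (nat_lit 233499849379) (nat_lit 456) (nat_lit 1307545882905) (nat_lit 146) (nat_lit 5) (nat_lit 151) (nat_lit 5) (nat_lit 152) (nat_lit 5) (nat_lit 530) (nat_lit 516) (nat_lit 154))) (XT.nd (nat_lit 156) (nat_lit 380) (nat_lit 0)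 (XT.lf (nat_lit 0) (nat_lit 569000148912) (nat_lit 456) (nat_lit 630012015484) (nat_lit 76) (nat_lit 518568516951) (nat_lit 146) (nat_lit 5) (nat_lit 152) (nat_lit 5) (nat_lit 147) (nat_lit 5) (nat_lit 531) (nat_lit 516) (nat_lit 153)) (XT.lf (nat_lit 0) (nat_lit 1044271119616) (nat_lit 456) (nat_lit 453141283135) (nat_lit 76) (nat_lit 317246107128) (nat_lit 141) (nat_lit 5) (nat_lit 147) (nat_lit 5) (nat_lit 142) (nat_lit 5) (nat_lit 533) (nat_lit 516) (nat_lit 151))))) (XT.nd (nat_lit 61308) (nat_lit 0) (nat_lit 2052) (XT.nd (nat_lit 61152) (nat_lit 0) (nat_lit 1976) (XT.nd (nat_lit 78) (nat_lit 0) (nat_lit 0) (XT.lf (nat_lit 0) (nat_lit 585771282411) (nat_lit 304) (nat_lit 738870571897) (nat_lit 380) (nat_lit 540987200895) (nat_lit 137) (nat_lit 5) (nat_lit 141) (nat_lit 5) (nat_lit 142) (nat_lit 5) (nat_lit 534) (nat_lit 516) (nat_lit 150)) (XT.lf (nat_lit 0) (nat_lit 1627730368807) (nat_lit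 380) (nat_lit 227427980555) (nat_lit 76) (nat_lit 63554816277) (nat_lit 137) (nat_lit 5) (nat_lit 142) (nat_lit 5) (nat_lit 138) (nat_lit 5) (nat_lit 535) (nat_lit 516) (nat_lit 149))) (XT.nd (nat_lit 78) (nat_lit 0) (nat_lit 0) (XT.lf (nat_lit 0) (nat_lit 271014234485) (nat_lit 836) (nat_lit 170326123502) (nat_lit 836) (nat_lit 170326123502) (nat_lit 163) (nat_lit 3) (nat_lit 174) (nat_lit 3) (nat_lit 174) (nat_lit 5) (nat_lit 517) (nat_lit 517) (nat_lit 166)) (XT.lf (nat_lit 76) (nat_lit 277414993953) (nat_lit 0) (nat_lit 282495455265) (nat_lit 836) (nat_lit 693789274405) (nat_lit 164) (nat_lit 5) (nat_lit 163) (nat_lit 3) (nat_lit 174) (nat_lit 5) (nat_lit 518) (nat_lit 517) (nat_lit 165)))) (XT.nd (nat_lit 156) (nat_lit 0) (nat_lit 76) (XT.nd (nat_lit 78) (nat_lit 0) (nat_lit 0) (XT.lf (nat_lit 0) (nat_lit 589978768826) (nat_lit 760) (nat_lit 352607227132) (nat_lit 836) (nat_lit 342434214326)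 (nat_lit 164) (nat_lit 5) (nat_lit 174) (nat_lit 5) (nat_lit 175) (nat_lit 5) (nat_lit 519) (nat_lit 517) (nat_lit 164)) (XT.lf (nat_lit 76) (nat_lit 307463838917) (nat_lit 0) (nat_lit 323518108100) (nat_lit 836) (nat_lit 686453202130) (nat_lit 165) (nat_lit 5) (nat_lit 164) (nat_lit 5) (nat_lit 175) (nat_lit 5) (nat_lit 520) (nat_lit 517) (nat_lit 163))) (XT.nd (nat_lit 78) (nat_lit 0) (nat_lit 0) (XT.lf (nat_lit 0) (nat_lit 685202379846) (nat_lit 760) (nat_lit 343587597187) (nat_lit 836) (nat_lit 322122503134) (nat_lit 165) (nat_lit 5) (nat_lit 175) (nat_lit 5) (nat_lit 176) (nat_lit 5) (nat_lit 521) (nat_lit 517) (nat_lit 162)) (XT.nd (nat_lit 78) (nat_lit 0) (nat_lit 76) (XT.lf (nat_lit 76) (nat_lit 362411144274) (nat_lit 0) (nat_lit 390684516813) (nat_lit 836) (nat_lit 632419925312) (nat_lit 166) (nat_lit 5) (nat_lit 165) (nat_lit 5) (nat_lit 176) (nat_lit 5) (nat_lit 522) (nat_lit 517) (nat_lit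 161)) (XT.lf (nat_lit 0) (nat_lit 834658881890) (nat_lit 760) (nat_lit 310375955781) (nat_lit 836) (nat_lit 276300246498) (nat_lit 166) (nat_lit 5) (nat_lit 176) (nat_lit 5) (nat_lit 177) (nat_lit 5) (nat_lit 523) (nat_lit 517) (nat_lit 160))))))))
noncomputable def xc508 : XT := (XT.nd (nat_lit 62322) (nat_lit 0) (nat_lit 304) (XT.nd (nat_lit 624) (nat_lit 684) (nat_lit 0) (XT.nd (nat_lit 312) (nat_lit 1520) (nat_lit 0) (XT.nd (nat_lit 156) (nat_lit 0) (nat_lit 76) (XT.nd (nat_lit 78) (nat_lit 0) (nat_lit 76) (XT.lf (nat_lit 76) (nat_lit 445854414727) (nat_lit 0) (nat_lit 487811547954) (nat_lit 836) (nat_lit 524611309198) (nat_lit 167) (nat_lit 5) (nat_lit 166) (nat_lit 5) (nat_lit 177) (nat_lit 5) (nat_lit 524) (nat_lit 517) (nat_lit 159)) (XT.lf (nat_lit 0) (nat_lit 1046123979299) (nat_lit 760) (nat_lit 249376113131) (nat_lit 836) (nat_lit 201141447457) (nat_lit 167) (nat_lit 5) (nat_lit 177)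 (nat_lit 5) (nat_lit 178) (nat_lit 5) (nat_lit 525) (nat_lit 517) (nat_lit 158))) (XT.nd (nat_lit 78) (nat_lit 0) (nat_lit 76) (XT.lf (nat_lit 76) (nat_lit 561807401230) (nat_lit 0) (nat_lit 619165792142) (nat_lit 836) (nat_lit 355112413091) (nat_lit 168) (nat_lit 5) (nat_lit 167) (nat_lit 5) (nat_lit 178) (nat_lit 5) (nat_lit 526) (nat_lit 517) (nat_lit 157)) (XT.lf (nat_lit 0) (nat_lit 1328277940202) (nat_lit 760) (nat_lit 156572614800) (nat_lit 76) (nat_lit 92365667764) (nat_lit 168) (nat_lit 5) (nat_lit 178) (nat_lit 5) (nat_lit 169) (nat_lit 5) (nat_lit 527) (nat_lit 517) (nat_lit 156)))) (XT.nd (nat_lit 156) (nat_lit 836) (nat_lit 0) (XT.nd (nat_lit 78) (nat_lit 76) (nat_lit 0) (XT.lf (nat_lit 0) (nat_lit 714744275107) (nat_lit 760) (nat_lit 789513067529) (nat_lit 836) (nat_lit 115080556335) (nat_lit 158) (nat_lit 5) (nat_lit 168) (nat_lit 5) (nat_lit 169) (nat_lit 5) (nat_lit 528) (nat_lit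 517) (nat_lit 155)) (XT.lf (nat_lit 0) (nat_lit 27349955934) (nat_lit 836) (nat_lit 28811350202) (nat_lit 76) (nat_lit 1607249714872) (nat_lit 157) (nat_lit 5) (nat_lit 168) (nat_lit 5) (nat_lit 158) (nat_lit 5) (nat_lit 529) (nat_lit 517) (nat_lit 154))) (XT.nd (nat_lit 78) (nat_lit 380) (nat_lit 0) (XT.lf (nat_lit 0) (nat_lit 198782478966) (nat_lit 532) (nat_lit 802024276571) (nat_lit 76) (nat_lit 707499317963) (nat_lit 151) (nat_lit 5) (nat_lit 158) (nat_lit 5) (nat_lit 152) (nat_lit 5) (nat_lit 530) (nat_lit 517) (nat_lit 153)) (XT.lf (nat_lit 0) (nat_lit 137170003577) (nat_lit 380) (nat_lit 245174841323) (nat_lit 456) (nat_lit 1372923122878) (nat_lit 146) (nat_lit 5) (nat_lit 151) (nat_lit 5) (nat_lit 152) (nat_lit 5) (nat_lit 531) (nat_lit 517) (nat_lit 152))))) (XT.nd (nat_lit 61386) (nat_lit 0) (nat_lit 1976) (XT.nd (nat_lit 156) (nat_lit 304) (nat_lit 0) (XT.nd (nat_lit 78) (nat_lit 380)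 (nat_lit 0) (XT.lf (nat_lit 0) (nat_lit 597450205497) (nat_lit 456) (nat_lit 661512564174) (nat_lit 76) (nat_lit 544496943282) (nat_lit 146) (nat_lit 5) (nat_lit 152) (nat_lit 5) (nat_lit 147) (nat_lit 5) (nat_lit 532) (nat_lit 517) (nat_lit 151)) (XT.lf (nat_lit 0) (nat_lit 350087841827) (nat_lit 380) (nat_lit 482708102799) (nat_lit 456) (nat_lit 1020790845235) (nat_lit 141) (nat_lit 5) (nat_lit 146) (nat_lit 5) (nat_lit 147) (nat_lit 5) (nat_lit 533) (nat_lit 517) (nat_lit 150))) (XT.nd (nat_lit 78) (nat_lit 304) (nat_lit 0) (XT.lf (nat_lit 0) (nat_lit 1096484720985) (nat_lit 456) (nat_lit 475798296273) (nat_lit 76) (nat_lit 333108415844) (nat_lit 141) (nat_lit 5) (nat_lit 147) (nat_lit 5) (nat_lit 142) (nat_lit 5) (nat_lit 534) (nat_lit 517) (nat_lit 149)) (XT.lf (nat_lit 0) (nat_lit 615059896728) (nat_lit 304) (nat_lit 775814094306) (nat_lit 380) (nat_lit 568036514726) (nat_lit 137) (nat_lit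 5) (nat_lit 141) (nat_lit 5) (nat_lit 142) (nat_lit 5) (nat_lit 535) (nat_lit 517) (nat_lit 148)))) (XT.nd (nat_lit 156) (nat_lit 0) (nat_lit 76) (XT.nd (nat_lit 78) (nat_lit 0) (nat_lit 0) (XT.lf (nat_lit 0) (nat_lit 284564988551) (nat_lit 836) (nat_lit 178842407446) (nat_lit 836) (nat_lit 178842407446) (nat_lit 163) (nat_lit 3) (nat_lit 174) (nat_lit 3) (nat_lit 174) (nat_lit 5) (nat_lit 518) (nat_lit 518) (nat_lit 164)) (XT.lf (nat_lit 76) (nat_lit 291285787395) (nat_lit 0) (nat_lit 296620265617) (nat_lit 836) (nat_lit 728478652720) (nat_lit 164) (nat_lit 5) (nat_lit 163) (nat_lit 3) (nat_lit 174) (nat_lit 5) (nat_lit 519) (nat_lit 518) (nat_lit 163))) (XT.nd (nat_lit 78) (nat_lit 0) (nat_lit 0) (XT.lf (nat_lit 0) (nat_lit 619477784168) (nat_lit 760) (nat_lit 370237542389) (nat_lit 836) (nat_lit 359555890390) (nat_lit 164) (nat_lit 5) (nat_lit 174) (nat_lit 5) (nat_lit 175) (nat_lit 5) (nat_lit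 520) (nat_lit 518) (nat_lit 162)) (XT.lf (nat_lit 76) (nat_lit 322837076218) (nat_lit 0) (nat_lit 339694042096) (nat_lit 836) (nat_lit 720775784586) (nat_lit 165) (nat_lit 5) (nat_lit 164) (nat_lit 5) (nat_lit 175) (nat_lit 5) (nat_lit 521) (nat_lit 518) (nat_lit 161)))))) (XT.nd (nat_lit 624) (nat_lit 1292) (nat_lit 0) (XT.nd (nat_lit 312) (nat_lit 532) (nat_lit 0) (XT.nd (nat_lit 156) (nat_lit 0) (nat_lit 76) (XT.nd (nat_lit 78) (nat_lit 0) (nat_lit 0) (XT.lf (nat_lit 0) (nat_lit 719462568839) (nat_lit 760) (nat_lit 360766929898) (nat_lit 836) (nat_lit 338228601932) (nat_lit 165) (nat_lit 5) (nat_lit 175) (nat_lit 5) (nat_lit 176) (nat_lit 5) (nat_lit 522) (nat_lit 518) (nat_lit 160)) (XT.lf (nat_lit 76) (nat_lit 380531747875) (nat_lit 0) (nat_lit 410218763658) (nat_lit 836) (nat_lit 664040850811) (nat_lit 166) (nat_lit 5) (nat_lit 165) (nat_lit 5) (nat_lit 176) (nat_lit 5) (nat_lit 523) (nat_lit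 518) (nat_lit 159))) (XT.nd (nat_lit 78) (nat_lit 0) (nat_lit 0) (XT.lf (nat_lit 0) (nat_lit 876391889854) (nat_lit 760) (nat_lit 325894705866) (nat_lit 836) (nat_lit 290115239459) (nat_lit 166) (nat_lit 5) (nat_lit 176) (nat_lit 5) (nat_lit 177) (nat_lit 5) (nat_lit 524) (nat_lit 518) (nat_lit 158)) (XT.lf (nat_lit 76) (nat_lit 468147182399) (nat_lit 0) (nat_lit 512202139978) (nat_lit 836) (nat_lit 550841810014) (nat_lit 167) (nat_lit 5) (nat_lit 166) (nat_lit 5) (nat_lit 177) (nat_lit 5) (nat_lit 525) (nat_lit 518) (nat_lit 157)))) (XT.nd (nat_lit 156) (nat_lit 684) (nat_lit 0) (XT.nd (nat_lit 78) (nat_lit 0) (nat_lit 0) (XT.lf (nat_lit 0) (nat_lit 1098430236676) (nat_lit 760) (nat_lit 261844870934) (nat_lit 836) (nat_lit 211198506346) (nat_lit 167) (nat_lit 5) (nat_lit 177) (nat_lit 5) (nat_lit 178) (nat_lit 5) (nat_lit 526) (nat_lit 518) (nat_lit 156)) (XT.lf (nat_lit 76) (nat_lit 589897818373)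 (nat_lit 0) (nat_lit 650124091034) (nat_lit 836) (nat_lit 372867974557) (nat_lit 168) (nat_lit 5) (nat_lit 167) (nat_lit 5) (nat_lit 178) (nat_lit 5) (nat_lit 527) (nat_lit 518) (nat_lit 155))) (XT.nd (nat_lit 78) (nat_lit 760) (nat_lit 0) (XT.lf (nat_lit 0) (nat_lit 1394691890756) (nat_lit 760) (nat_lit 164401197875) (nat_lit 76) (nat_lit 96983942593) (nat_lit 168) (nat_lit 5) (nat_lit 178) (nat_lit 5) (nat_lit 169) (nat_lit 5) (nat_lit 528) (nat_lit 518) (nat_lit 154)) (XT.lf (nat_lit 0) (nat_lit 750481535759) (nat_lit 760) (nat_lit 828988725735) (nat_lit 836) (nat_lit 120834529835) (nat_lit 158) (nat_lit 5) (nat_lit 168) (nat_lit 5) (nat_lit 169) (nat_lit 5) (nat_lit 529) (nat_lit 518) (nat_lit 153))))) (XT.nd (nat_lit 312) (nat_lit 380) (nat_lit 0) (XT.nd (nat_lit 156) (nat_lit 380) (nat_lit 0) (XT.nd (nat_lit 78) (nat_lit 456) (nat_lit 0) (XT.lf (nat_lit 0) (nat_lit 28717503805) (nat_lit 836)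 (nat_lit 30251871389) (nat_lit 76) (nat_lit 1687612194357) (nat_lit 157) (nat_lit 5) (nat_lit 168) (nat_lit 5) (nat_lit 158) (nat_lit 5) (nat_lit 530) (nat_lit 518) (nat_lit 152)) (XT.lf (nat_lit 0) (nat_lit 208721651272) (nat_lit 532) (nat_lit 842125442356) (nat_lit 76) (nat_lit 742874281126) (nat_lit 151) (nat_lit 5) (nat_lit 158) (nat_lit 5) (nat_lit 152) (nat_lit 5) (nat_lit 531) (nat_lit 518) (nat_lit 151))) (XT.nd (nat_lit 78) (nat_lit 0) (nat_lit 0) (XT.lf (nat_lit 0) (nat_lit 144028551025) (nat_lit 380) (nat_lit 257433582913) (nat_lit 456) (nat_lit 1441569229887) (nat_lit 146) (nat_lit 5) (nat_lit 151) (nat_lit 5) (nat_lit 152) (nat_lit 5) (nat_lit 532) (nat_lit 518) (nat_lit 150)) (XT.lf (nat_lit 0) (nat_lit 627322760343) (nat_lit 456) (nat_lit 694588145141) (nat_lit 76) (nat_lit 571721790885) (nat_lit 146) (nat_lit 5) (nat_lit 152) (nat_lit 5) (nat_lit 147) (nat_lit 5) (nat_lit 533) (nat_lit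 518) (nat_lit 149)))) (XT.nd (nat_lit 61308) (nat_lit 0) (nat_lit 1672) (XT.nd (nat_lit 78) (nat_lit 0) (nat_lit 0) (XT.lf (nat_lit 0) (nat_lit 367592280399) (nat_lit 380) (nat_lit 506843504634) (nat_lit 456) (nat_lit 1071830342160) (nat_lit 141) (nat_lit 5) (nat_lit 146) (nat_lit 5) (nat_lit 147) (nat_lit 5) (nat_lit 534) (nat_lit 518) (nat_lit 148)) (XT.lf (nat_lit 0) (nat_lit 1151308998202) (nat_lit 456) (nat_lit 499588164810) (nat_lit 76) (nat_lit 349763839683) (nat_lit 141) (nat_lit 5) (nat_lit 147) (nat_lit 5) (nat_lit 142) (nat_lit 5) (nat_lit 535) (nat_lit 518) (nat_lit 147))) (XT.nd (nat_lit 78) (nat_lit 0) (nat_lit 0) (XT.lf (nat_lit 0) (nat_lit 298793276383) (nat_lit 836) (nat_lit 187784507654) (nat_lit 836) (nat_lit 187784507654) (nat_lit 163) (nat_lit 3) (nat_lit 174) (nat_lit 3) (nat_lit 174) (nat_lit 5) (nat_lit 519) (nat_lit 519) (nat_lit 162)) (XT.nd (nat_lit 78) (nat_lit 0) (nat_lit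 76) (XT.lf (nat_lit 76) (nat_lit 305850116442) (nat_lit 0) (nat_lit 311451312992) (nat_lit 836) (nat_lit 764902507890) (nat_lit 164) (nat_lit 5) (nat_lit 163) (nat_lit 3) (nat_lit 174) (nat_lit 5) (nat_lit 520) (nat_lit 519) (nat_lit 161)) (XT.lf (nat_lit 0) (nat_lit 650451743128) (nat_lit 760) (nat_lit 388749377695) (nat_lit 836) (nat_lit 377533653478) (nat_lit 164) (nat_lit 5) (nat_lit 174) (nat_lit 5) (nat_lit 175) (nat_lit 5) (nat_lit 521) (nat_lit 519) (nat_lit 160))))))))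
noncomputable def xc509 : XT := (XT.nd (nat_lit 62556) (nat_lit 0) (nat_lit 0) (XT.nd (nat_lit 624) (nat_lit 1368) (nat_lit 0) (XT.nd (nat_lit 312) (nat_lit 0) (nat_lit 152) (XT.nd (nat_lit 156) (nat_lit 0) (nat_lit 76) (XT.nd (nat_lit 78) (nat_lit 0) (nat_lit 76) (XT.lf (nat_lit 76) (nat_lit 338978971168) (nat_lit 0) (nat_lit 356678770135) (nat_lit 836) (nat_lit 756814503384) (nat_lit 165) (nat_lit 5) (nat_lit 164) (nat_lit 5) (nat_lit 175) (nat_lit 5) (nat_lit 522) (nat_lit 519) (nat_lit 159)) (XT.lf (nat_lit 0) (nat_lit 755435760774) (nat_lit 760) (nat_lit 378805233629) (nat_lit 836) (nat_lit 355140008121) (nat_lit 165) (nat_lit 5) (nat_lit 175) (nat_lit 5) (nat_lit 176) (nat_lit 5) (nat_lit 523) (nat_lit 519) (nat_lit 158))) (XT.nd (nat_lit 78) (nat_lit 0) (nat_lit 76) (XT.lf (nat_lit 76) (nat_lit 399558377343) (nat_lit 0) (nat_lit 430729720893) (nat_lit 836) (nat_lit 697242829165) (nat_lit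 166) (nat_lit 5) (nat_lit 165) (nat_lit 5) (nat_lit 176) (nat_lit 5) (nat_lit 524) (nat_lit 519) (nat_lit 157)) (XT.lf (nat_lit 0) (nat_lit 920211542279) (nat_lit 760) (nat_lit 342189397889) (nat_lit 836) (nat_lit 304620983868) (nat_lit 166) (nat_lit 5) (nat_lit 176) (nat_lit 5) (nat_lit 177) (nat_lit 5) (nat_lit 525) (nat_lit 519) (nat_lit 156)))) (XT.nd (nat_lit 156) (nat_lit 0) (nat_lit 76) (XT.nd (nat_lit 78) (nat_lit 0) (nat_lit 76) (XT.lf (nat_lit 76) (nat_lit 491554584090) (nat_lit 0) (nat_lit 537812260243) (nat_lit 836) (nat_lit 578383841881) (nat_lit 167) (nat_lit 5) (nat_lit 166) (nat_lit 5) (nat_lit 177) (nat_lit 5) (nat_lit 526) (nat_lit 519) (nat_lit 155)) (XT.lf (nat_lit 0) (nat_lit 1153351801492) (nat_lit 760) (nat_lit 274937071076) (nat_lit 836) (nat_lit 221758419433) (nat_lit 167) (nat_lit 5) (nat_lit 177) (nat_lit 5) (nat_lit 178) (nat_lit 5) (nat_lit 527) (nat_lit 519) (nat_lit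 154))) (XT.nd (nat_lit 78) (nat_lit 0) (nat_lit 76) (XT.lf (nat_lit 76) (nat_lit 619392751996) (nat_lit 0) (nat_lit 682630304007) (nat_lit 836) (nat_lit 391511319599) (nat_lit 168) (nat_lit 5) (nat_lit 167) (nat_lit 5) (nat_lit 178) (nat_lit 5) (nat_lit 528) (nat_lit 519) (nat_lit 153)) (XT.lf (nat_lit 0) (nat_lit 1464426533860) (nat_lit 760) (nat_lit 172621214534) (nat_lit 76) (nat_lit 101833131959) (nat_lit 168) (nat_lit 5) (nat_lit 178) (nat_lit 5) (nat_lit 169) (nat_lit 5) (nat_lit 529) (nat_lit 519) (nat_lit 152))))) (XT.nd (nat_lit 312) (nat_lit 0) (nat_lit 0) (XT.nd (nat_lit 156) (nat_lit 836) (nat_lit 0) (XT.nd (nat_lit 78) (nat_lit 76) (nat_lit 0) (XT.lf (nat_lit 0) (nat_lit 788005655084) (nat_lit 760) (nat_lit 870438166402) (nat_lit 836) (nat_lit 126876207060) (nat_lit 158) (nat_lit 5) (nat_lit 168) (nat_lit 5) (nat_lit 169) (nat_lit 5) (nat_lit 530) (nat_lit 519) (nat_lit 151)) (XT.lf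 (nat_lit 0) (nat_lit 30153424414) (nat_lit 836) (nat_lit 31764422943) (nat_lit 76) (nat_lit 1771992798399) (nat_lit 157) (nat_lit 5) (nat_lit 168) (nat_lit 5) (nat_lit 158) (nat_lit 5) (nat_lit 531) (nat_lit 519) (nat_lit 150))) (XT.nd (nat_lit 78) (nat_lit 380) (nat_lit 0) (XT.lf (nat_lit 0) (nat_lit 219157777697) (nat_lit 532) (nat_lit 884231670897) (nat_lit 76) (nat_lit 780017992701) (nat_lit 151) (nat_lit 5) (nat_lit 158) (nat_lit 5) (nat_lit 152) (nat_lit 5) (nat_lit 532) (nat_lit 519) (nat_lit 149)) (XT.lf (nat_lit 0) (nat_lit 151230021450) (nat_lit 380) (nat_lit 270305261627) (nat_lit 456) (nat_lit 1513647646814) (nat_lit 146) (nat_lit 5) (nat_lit 151) (nat_lit 5) (nat_lit 152) (nat_lit 5) (nat_lit 533) (nat_lit 519) (nat_lit 148)))) (XT.nd (nat_lit 61464) (nat_lit 0) (nat_lit 1292) (XT.nd (nat_lit 61386) (nat_lit 0) (nat_lit 1292) (XT.lf (nat_lit 0) (nat_lit 658688938788) (nat_lit 456)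 (nat_lit 729317509548) (nat_lit 76) (nat_lit 600307880827) (nat_lit 146) (nat_lit 5) (nat_lit 152) (nat_lit 5) (nat_lit 147) (nat_lit 5) (nat_lit 534) (nat_lit 519) (nat_lit 147)) (XT.lf (nat_lit 0) (nat_lit 313732975036) (nat_lit 836) (nat_lit 197173714748) (nat_lit 836) (nat_lit 197173714748) (nat_lit 163) (nat_lit 3) (nat_lit 174) (nat_lit 3) (nat_lit 174) (nat_lit 5) (nat_lit 520) (nat_lit 520) (nat_lit 160))) (XT.nd (nat_lit 78) (nat_lit 0) (nat_lit 76) (XT.lf (nat_lit 76) (nat_lit 321142658253) (nat_lit 0) (nat_lit 327023909566) (nat_lit 836) (nat_lit 803147563021) (nat_lit 164) (nat_lit 5) (nat_lit 163) (nat_lit 3) (nat_lit 174) (nat_lit 5) (nat_lit 521) (nat_lit 520) (nat_lit 159)) (XT.lf (nat_lit 0) (nat_lit 682974393551) (nat_lit 760) (nat_lit 408186808654) (nat_lit 836) (nat_lit 396410307643) (nat_lit 164) (nat_lit 5) (nat_lit 174) (nat_lit 5) (nat_lit 175) (nat_lit 5) (nat_lit 522)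 (nat_lit 520) (nat_lit 158)))))) (XT.nd (nat_lit 624) (nat_lit 1368) (nat_lit 0) (XT.nd (nat_lit 312) (nat_lit 0) (nat_lit 152) (XT.nd (nat_lit 156) (nat_lit 0) (nat_lit 76) (XT.nd (nat_lit 78) (nat_lit 0) (nat_lit 76) (XT.lf (nat_lit 76) (nat_lit 355927957041) (nat_lit 0) (nat_lit 374512732164) (nat_lit 836) (nat_lit 794655164671) (nat_lit 165) (nat_lit 5) (nat_lit 164) (nat_lit 5) (nat_lit 175) (nat_lit 5) (nat_lit 523) (nat_lit 520) (nat_lit 157)) (XT.lf (nat_lit 0) (nat_lit 793207606402) (nat_lit 760) (nat_lit 397745456522) (nat_lit 836) (nat_lit 372896986842) (nat_lit 165) (nat_lit 5) (nat_lit 175) (nat_lit 5) (nat_lit 176) (nat_lit 5) (nat_lit 524) (nat_lit 520) (nat_lit 156))) (XT.nd (nat_lit 78) (nat_lit 0) (nat_lit 76) (XT.lf (nat_lit 76) (nat_lit 419536334373) (nat_lit 0) (nat_lit 452266224218) (nat_lit 836) (nat_lit 732104912403) (nat_lit 166) (nat_lit 5) (nat_lit 165) (nat_lit 5) (nat_lit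 176) (nat_lit 5) (nat_lit 525) (nat_lit 520) (nat_lit 155)) (XT.lf (nat_lit 0) (nat_lit 966222171939) (nat_lit 760) (nat_lit 359298828537) (nat_lit 836) (nat_lit 319852017131) (nat_lit 166) (nat_lit 5) (nat_lit 176) (nat_lit 5) (nat_lit 177) (nat_lit 5) (nat_lit 526) (nat_lit 520) (nat_lit 154)))) (XT.nd (nat_lit 156) (nat_lit 0) (nat_lit 76) (XT.nd (nat_lit 78) (nat_lit 0) (nat_lit 76) (XT.lf (nat_lit 76) (nat_lit 516132351909) (nat_lit 0) (nat_lit 564702885289) (nat_lit 836) (nat_lit 607302980792) (nat_lit 167) (nat_lit 5) (nat_lit 166) (nat_lit 5) (nat_lit 177) (nat_lit 5) (nat_lit 527) (nat_lit 520) (nat_lit 153)) (XT.lf (nat_lit 0) (nat_lit 1211019439623) (nat_lit 760) (nat_lit 288683885261) (nat_lit 836) (nat_lit 232846329311) (nat_lit 167) (nat_lit 5) (nat_lit 177) (nat_lit 5) (nat_lit 178) (nat_lit 5) (nat_lit 528) (nat_lit 520) (nat_lit 152))) (XT.nd (nat_lit 78) (nat_lit 0) (nat_lit 76)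 (XT.lf (nat_lit 76) (nat_lit 650362428330) (nat_lit 0) (nat_lit 716761826845) (nat_lit 836) (nat_lit 411086836885) (nat_lit 168) (nat_lit 5) (nat_lit 167) (nat_lit 5) (nat_lit 178) (nat_lit 5) (nat_lit 529) (nat_lit 520) (nat_lit 151)) (XT.lf (nat_lit 0) (nat_lit 1537647904603) (nat_lit 760) (nat_lit 181252236046) (nat_lit 76) (nat_lit 106924781515) (nat_lit 168) (nat_lit 5) (nat_lit 178) (nat_lit 5) (nat_lit 169) (nat_lit 5) (nat_lit 530) (nat_lit 520) (nat_lit 150))))) (XT.nd (nat_lit 61698) (nat_lit 0) (nat_lit 1292) (XT.nd (nat_lit 156) (nat_lit 836) (nat_lit 0) (XT.nd (nat_lit 78) (nat_lit 76) (nat_lit 0) (XT.lf (nat_lit 0) (nat_lit 827405976421) (nat_lit 760) (nat_lit 913960078695) (nat_lit 836) (nat_lit 133219972727) (nat_lit 158) (nat_lit 5) (nat_lit 168) (nat_lit 5) (nat_lit 169) (nat_lit 5) (nat_lit 531) (nat_lit 520) (nat_lit 149)) (XT.lf (nat_lit 0) (nat_lit 31661136831) (nat_lit 836)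 (nat_lit 33352605980) (nat_lit 76) (nat_lit 1860592433170) (nat_lit 157) (nat_lit 5) (nat_lit 168) (nat_lit 5) (nat_lit 158) (nat_lit 5) (nat_lit 532) (nat_lit 520) (nat_lit 148))) (XT.nd (nat_lit 78) (nat_lit 380) (nat_lit 0) (XT.lf (nat_lit 0) (nat_lit 230115706366) (nat_lit 532) (nat_lit 928443214917) (nat_lit 76) (nat_lit 819018890086) (nat_lit 151) (nat_lit 5) (nat_lit 158) (nat_lit 5) (nat_lit 152) (nat_lit 5) (nat_lit 533) (nat_lit 520) (nat_lit 147)) (XT.lf (nat_lit 0) (nat_lit 158791561411) (nat_lit 380) (nat_lit 283820524317) (nat_lit 456) (nat_lit 1589329988731) (nat_lit 146) (nat_lit 5) (nat_lit 151) (nat_lit 5) (nat_lit 152) (nat_lit 5) (nat_lit 534) (nat_lit 520) (nat_lit 146)))) (XT.nd (nat_lit 156) (nat_lit 0) (nat_lit 76) (XT.nd (nat_lit 78) (nat_lit 0) (nat_lit 0) (XT.lf (nat_lit 0) (nat_lit 329419655384) (nat_lit 836) (nat_lit 207032383896) (nat_lit 836) (nat_lit 207032383896)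 (nat_lit 163) (nat_lit 3) (nat_lit 174) (nat_lit 3) (nat_lit 174) (nat_lit 5) (nat_lit 521) (nat_lit 521) (nat_lit 158)) (XT.lf (nat_lit 76) (nat_lit 337199823808) (nat_lit 0) (nat_lit 343375133093) (nat_lit 836) (nat_lit 843304877441) (nat_lit 164) (nat_lit 5) (nat_lit 163) (nat_lit 3) (nat_lit 174) (nat_lit 5) (nat_lit 522) (nat_lit 521) (nat_lit 157))) (XT.nd (nat_lit 78) (nat_lit 0) (nat_lit 0) (XT.lf (nat_lit 0) (nat_lit 717123170613) (nat_lit 760) (nat_lit 428596114687) (nat_lit 836) (nat_lit 416230797167) (nat_lit 164) (nat_lit 5) (nat_lit 174) (nat_lit 5) (nat_lit 175) (nat_lit 5) (nat_lit 523) (nat_lit 521) (nat_lit 156)) (XT.nd (nat_lit 78) (nat_lit 0) (nat_lit 76) (XT.lf (nat_lit 76) (nat_lit 373724388738) (nat_lit 0) (nat_lit 393238390107) (nat_lit 836) (nat_lit 834387864960) (nat_lit 165) (nat_lit 5) (nat_lit 164) (nat_lit 5) (nat_lit 175) (nat_lit 5) (nat_lit 524) (nat_lit 521) (nat_lit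 155)) (XT.lf (nat_lit 0) (nat_lit 832868038958) (nat_lit 760) (nat_lit 417632694166) (nat_lit 836) (nat_lit 391541816515) (nat_lit 165) (nat_lit 5) (nat_lit 175) (nat_lit 5) (nat_lit 176) (nat_lit 5) (nat_lit 525) (nat_lit 521) (nat_lit 154))))))))
noncomputable def xc510 : XT := (XT.nd (nat_lit 62712) (nat_lit 0) (nat_lit 532) (XT.nd (nat_lit 624) (nat_lit 456) (nat_lit 0) (XT.nd (nat_lit 312) (nat_lit 608) (nat_lit 0) (XT.nd (nat_lit 156) (nat_lit 0) (nat_lit 76) (XT.nd (nat_lit 78) (nat_lit 0) (nat_lit 76) (XT.lf (nat_lit 76) (nat_lit 440513185707) (nat_lit 0) (nat_lit 474879551103) (nat_lit 836) (nat_lit 768710105217) (nat_lit 166) (nat_lit 5) (nat_lit 165) (nat_lit 5) (nat_lit 176) (nat_lit 5) (nat_lit 526) (nat_lit 521) (nat_lit 153)) (XT.lf (nat_lit 0) (nat_lit 1014533328197) (nat_lit 760) (nat_lit 377263734366) (nat_lit 836) (nat_lit 335844603538) (nat_lit 166) (nat_lit 5) (nat_lit 176)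 (nat_lit 5) (nat_lit 177) (nat_lit 5) (nat_lit 527) (nat_lit 521) (nat_lit 152))) (XT.nd (nat_lit 78) (nat_lit 0) (nat_lit 76) (XT.lf (nat_lit 76) (nat_lit 541939004528) (nat_lit 0) (nat_lit 592938040467) (nat_lit 836) (nat_lit 637668081593) (nat_lit 167) (nat_lit 5) (nat_lit 166) (nat_lit 5) (nat_lit 177) (nat_lit 5) (nat_lit 528) (nat_lit 521) (nat_lit 151)) (XT.lf (nat_lit 0) (nat_lit 1271570455192) (nat_lit 760) (nat_lit 303118043815) (nat_lit 836) (nat_lit 244488635715) (nat_lit 167) (nat_lit 5) (nat_lit 177) (nat_lit 5) (nat_lit 178) (nat_lit 5) (nat_lit 529) (nat_lit 521) (nat_lit 150)))) (XT.nd (nat_lit 156) (nat_lit 760) (nat_lit 0) (XT.nd (nat_lit 78) (nat_lit 0) (nat_lit 76) (XT.lf (nat_lit 76) (nat_lit 682880584880) (nat_lit 0) (nat_lit 752599925115) (nat_lit 836) (nat_lit 431641134562) (nat_lit 168) (nat_lit 5) (nat_lit 167) (nat_lit 5) (nat_lit 178) (nat_lit 5) (nat_lit 530) (nat_lit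 521) (nat_lit 149)) (XT.lf (nat_lit 0) (nat_lit 1614530339789) (nat_lit 760) (nat_lit 190314812279) (nat_lit 76) (nat_lit 112271014204) (nat_lit 168) (nat_lit 5) (nat_lit 178) (nat_lit 5) (nat_lit 169) (nat_lit 5) (nat_lit 531) (nat_lit 521) (nat_lit 148))) (XT.nd (nat_lit 78) (nat_lit 76) (nat_lit 0) (XT.lf (nat_lit 0) (nat_lit 868776310238) (nat_lit 760) (nat_lit 959658086233) (nat_lit 836) (nat_lit 139880930831) (nat_lit 158) (nat_lit 5) (nat_lit 168) (nat_lit 5) (nat_lit 169) (nat_lit 5) (nat_lit 532) (nat_lit 521) (nat_lit 147)) (XT.lf (nat_lit 0) (nat_lit 33244231039) (nat_lit 836) (nat_lit 35020201712) (nat_lit 76) (nat_lit 1953622050158) (nat_lit 157) (nat_lit 5) (nat_lit 168) (nat_lit 5) (nat_lit 158) (nat_lit 5) (nat_lit 533) (nat_lit 521) (nat_lit 146))))) (XT.nd (nat_lit 61776) (nat_lit 0) (nat_lit 988) (XT.nd (nat_lit 61620) (nat_lit 0) (nat_lit 912) (XT.nd (nat_lit 61542) (nat_lit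 0) (nat_lit 912) (XT.lf (nat_lit 0) (nat_lit 241621527769) (nat_lit 532) (nat_lit 974865339812) (nat_lit 76) (nat_lit 859969832550) (nat_lit 151) (nat_lit 5) (nat_lit 158) (nat_lit 5) (nat_lit 152) (nat_lit 5) (nat_lit 534) (nat_lit 521) (nat_lit 145)) (XT.lf (nat_lit 0) (nat_lit 345890666811) (nat_lit 836) (nat_lit 217383988044) (nat_lit 836) (nat_lit 217383988044) (nat_lit 163) (nat_lit 3) (nat_lit 174) (nat_lit 3) (nat_lit 174) (nat_lit 5) (nat_lit 522) (nat_lit 522) (nat_lit 156))) (XT.nd (nat_lit 78) (nat_lit 0) (nat_lit 76) (XT.lf (nat_lit 76) (nat_lit 354059844607) (nat_lit 0) (nat_lit 360543915189) (nat_lit 836) (nat_lit 885470063507) (nat_lit 164) (nat_lit 5) (nat_lit 163) (nat_lit 3) (nat_lit 174) (nat_lit 5) (nat_lit 523) (nat_lit 522) (nat_lit 155)) (XT.lf (nat_lit 0) (nat_lit 752979381193) (nat_lit 760) (nat_lit 450025889220) (nat_lit 836) (nat_lit 437042313571) (nat_lit 164) (nat_lit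 5) (nat_lit 174) (nat_lit 5) (nat_lit 175) (nat_lit 5) (nat_lit 524) (nat_lit 522) (nat_lit 154)))) (XT.nd (nat_lit 156) (nat_lit 0) (nat_lit 76) (XT.nd (nat_lit 78) (nat_lit 0) (nat_lit 76) (XT.lf (nat_lit 76) (nat_lit 392410638873) (nat_lit 0) (nat_lit 412900328965) (nat_lit 836) (nat_lit 876107205652) (nat_lit 165) (nat_lit 5) (nat_lit 164) (nat_lit 5) (nat_lit 175) (nat_lit 5) (nat_lit 525) (nat_lit 522) (nat_lit 153)) (XT.lf (nat_lit 0) (nat_lit 874511488285) (nat_lit 760) (nat_lit 438514296963) (nat_lit 836) (nat_lit 411118889500) (nat_lit 165) (nat_lit 5) (nat_lit 175) (nat_lit 5) (nat_lit 176) (nat_lit 5) (nat_lit 526) (nat_lit 522) (nat_lit 152))) (XT.nd (nat_lit 78) (nat_lit 0) (nat_lit 76) (XT.lf (nat_lit 76) (nat_lit 462538876389) (nat_lit 0) (nat_lit 498623542874) (nat_lit 836) (nat_lit 807145562580) (nat_lit 166) (nat_lit 5) (nat_lit 165) (nat_lit 5) (nat_lit 176) (nat_lit 5) (nat_lit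 527) (nat_lit 522) (nat_lit 151)) (XT.lf (nat_lit 0) (nat_lit 1065260037837) (nat_lit 760) (nat_lit 396126888796) (nat_lit 836) (nat_lit 352636820609) (nat_lit 166) (nat_lit 5) (nat_lit 176) (nat_lit 5) (nat_lit 177) (nat_lit 5) (nat_lit 528) (nat_lit 522) (nat_lit 150)))))) (XT.nd (nat_lit 62244) (nat_lit 0) (nat_lit 380) (XT.nd (nat_lit 312) (nat_lit 608) (nat_lit 0) (XT.nd (nat_lit 156) (nat_lit 0) (nat_lit 76) (XT.nd (nat_lit 78) (nat_lit 0) (nat_lit 76) (XT.lf (nat_lit 76) (nat_lit 569035986522) (nat_lit 0) (nat_lit 622584952391) (nat_lit 836) (nat_lit 669551441919) (nat_lit 167) (nat_lit 5) (nat_lit 166) (nat_lit 5) (nat_lit 177) (nat_lit 5) (nat_lit 529) (nat_lit 522) (nat_lit 149)) (XT.lf (nat_lit 0) (nat_lit 1335149017488) (nat_lit 760) (nat_lit 318273913616) (nat_lit 836) (nat_lit 256713058374) (nat_lit 167) (nat_lit 5) (nat_lit 177) (nat_lit 5) (nat_lit 178) (nat_lit 5) (nat_lit 530)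 (nat_lit 522) (nat_lit 148))) (XT.nd (nat_lit 78) (nat_lit 0) (nat_lit 76) (XT.lf (nat_lit 76) (nat_lit 717024645991) (nat_lit 0) (nat_lit 790229927655) (nat_lit 836) (nat_lit 453223151228) (nat_lit 168) (nat_lit 5) (nat_lit 167) (nat_lit 5) (nat_lit 178) (nat_lit 5) (nat_lit 531) (nat_lit 522) (nat_lit 147)) (XT.lf (nat_lit 0) (nat_lit 1695256893019) (nat_lit 760) (nat_lit 199830520631) (nat_lit 76) (nat_lit 117884559121) (nat_lit 168) (nat_lit 5) (nat_lit 178) (nat_lit 5) (nat_lit 169) (nat_lit 5) (nat_lit 532) (nat_lit 522) (nat_lit 146)))) (XT.nd (nat_lit 61776) (nat_lit 0) (nat_lit 380) (XT.nd (nat_lit 61698) (nat_lit 0) (nat_lit 380) (XT.lf (nat_lit 0) (nat_lit 912215157491) (nat_lit 760) (nat_lit 1007640993814) (nat_lit 836) (nat_lit 146874940609) (nat_lit 158) (nat_lit 5) (nat_lit 168) (nat_lit 5) (nat_lit 169) (nat_lit 5) (nat_lit 533) (nat_lit 522) (nat_lit 145)) (XT.lf (nat_lit 0) (nat_lit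 363185226146) (nat_lit 836) (nat_lit 228253173799) (nat_lit 836) (nat_lit 228253173799) (nat_lit 163) (nat_lit 3) (nat_lit 174) (nat_lit 3) (nat_lit 174) (nat_lit 5) (nat_lit 523) (nat_lit 523) (nat_lit 154))) (XT.nd (nat_lit 78) (nat_lit 0) (nat_lit 76) (XT.lf (nat_lit 76) (nat_lit 371762863692) (nat_lit 0) (nat_lit 378571134025) (nat_lit 836) (nat_lit 929743514251) (nat_lit 164) (nat_lit 5) (nat_lit 163) (nat_lit 3) (nat_lit 174) (nat_lit 5) (nat_lit 524) (nat_lit 523) (nat_lit 153)) (XT.lf (nat_lit 0) (nat_lit 790628397464) (nat_lit 760) (nat_lit 472527155380) (nat_lit 836) (nat_lit 458894407975) (nat_lit 164) (nat_lit 5) (nat_lit 174) (nat_lit 5) (nat_lit 175) (nat_lit 5) (nat_lit 525) (nat_lit 523) (nat_lit 152))))) (XT.nd (nat_lit 312) (nat_lit 76) (nat_lit 0) (XT.nd (nat_lit 156) (nat_lit 0) (nat_lit 76) (XT.nd (nat_lit 78) (nat_lit 0) (nat_lit 76) (XT.lf (nat_lit 76) (nat_lit 412031198662)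 (nat_lit 0) (nat_lit 433545362966) (nat_lit 836) (nat_lit 919912518264) (nat_lit 165) (nat_lit 5) (nat_lit 164) (nat_lit 5) (nat_lit 175) (nat_lit 5) (nat_lit 526) (nat_lit 523) (nat_lit 151)) (XT.lf (nat_lit 0) (nat_lit 918237105674) (nat_lit 760) (nat_lit 460439982866) (nat_lit 836) (nat_lit 431674817793) (nat_lit 165) (nat_lit 5) (nat_lit 175) (nat_lit 5) (nat_lit 176) (nat_lit 5) (nat_lit 527) (nat_lit 523) (nat_lit 150))) (XT.nd (nat_lit 78) (nat_lit 0) (nat_lit 76) (XT.lf (nat_lit 76) (nat_lit 485665848686) (nat_lit 0) (nat_lit 523554732913) (nat_lit 836) (nat_lit 847502797265) (nat_lit 166) (nat_lit 5) (nat_lit 165) (nat_lit 5) (nat_lit 176) (nat_lit 5) (nat_lit 528) (nat_lit 523) (nat_lit 149)) (XT.lf (nat_lit 0) (nat_lit 1118523078940) (nat_lit 760) (nat_lit 415933203949) (nat_lit 836) (nat_lit 370268649751) (nat_lit 166) (nat_lit 5) (nat_lit 176) (nat_lit 5) (nat_lit 177) (nat_lit 5)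 (nat_lit 529) (nat_lit 523) (nat_lit 148)))) (XT.nd (nat_lit 156) (nat_lit 228) (nat_lit 0) (XT.nd (nat_lit 78) (nat_lit 0) (nat_lit 76) (XT.lf (nat_lit 76) (nat_lit 597487814662) (nat_lit 0) (nat_lit 653714208989) (nat_lit 836) (nat_lit 703028974329) (nat_lit 167) (nat_lit 5) (nat_lit 166) (nat_lit 5) (nat_lit 177) (nat_lit 5) (nat_lit 530) (nat_lit 523) (nat_lit 147)) (XT.lf (nat_lit 0) (nat_lit 1401906504223) (nat_lit 760) (nat_lit 334187579919) (nat_lit 836) (nat_lit 269548703015) (nat_lit 167) (nat_lit 5) (nat_lit 177) (nat_lit 5) (nat_lit 178) (nat_lit 5) (nat_lit 531) (nat_lit 523) (nat_lit 146))) (XT.nd (nat_lit 78) (nat_lit 304) (nat_lit 0) (XT.lf (nat_lit 76) (nat_lit 752875907195) (nat_lit 0) (nat_lit 829741429738) (nat_lit 836) (nat_lit 475884272453) (nat_lit 168) (nat_lit 5) (nat_lit 167) (nat_lit 5) (nat_lit 178) (nat_lit 5) (nat_lit 532) (nat_lit 523) (nat_lit 145)) (XT.nd (nat_lit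 61776) (nat_lit 380) (nat_lit 0) (XT.lf (nat_lit 0) (nat_lit 1780019770541) (nat_lit 760) (nat_lit 209822017400) (nat_lit 76) (nat_lit 123778781822) (nat_lit 168) (nat_lit 5) (nat_lit 178) (nat_lit 5) (nat_lit 169) (nat_lit 5) (nat_lit 533) (nat_lit 523) (nat_lit 144)) (XT.lf (nat_lit 0) (nat_lit 381344511030) (nat_lit 836) (nat_lit 239665820110) (nat_lit 836) (nat_lit 239665820110) (nat_lit 163) (nat_lit 3) (nat_lit 174) (nat_lit 3) (nat_lit 174) (nat_lit 5) (nat_lit 524) (nat_lit 524) (nat_lit 152))))))))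
noncomputable def xc511 : XT := (XT.nd (nat_lit 125034) (nat_lit 0) (nat_lit 0) (XT.nd (nat_lit 62478) (nat_lit 0) (nat_lit 0) (XT.nd (nat_lit 312) (nat_lit 0) (nat_lit 152) (XT.nd (nat_lit 156) (nat_lit 0) (nat_lit 76) (XT.nd (nat_lit 78) (nat_lit 0) (nat_lit 76) (XT.lf (nat_lit 76) (nat_lit 390351031235) (nat_lit 0) (nat_lit 397499711656) (nat_lit 836) (nat_lit 976230642406) (nat_lit 164) (nat_lit 5) (nat_lit 163) (nat_lit 3) (nat_lit 174) (nat_lit 5) (nat_lit 525) (nat_lit 524) (nat_lit 151)) (XT.lf (nat_lit 0) (nat_lit 830159860158) (nat_lit 760) (nat_lit 496153487479) (nat_lit 836) (nat_lit 481839109078) (nat_lit 164) (nat_lit 5) (nat_lit 174) (nat_lit 5) (nat_lit 175) (nat_lit 5) (nat_lit 526) (nat_lit 524) (nat_lit 150))) (XT.nd (nat_lit 78) (nat_lit 0) (nat_lit 76) (XT.lf (nat_lit 76) (nat_lit 432632783850) (nat_lit 0) (nat_lit 455222647035) (nat_lit 836) (nat_lit 965908100938) (nat_lit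 165) (nat_lit 5) (nat_lit 164) (nat_lit 5) (nat_lit 175) (nat_lit 5) (nat_lit 527) (nat_lit 524) (nat_lit 149)) (XT.lf (nat_lit 0) (nat_lit 964148999937) (nat_lit 760) (nat_lit 483461955756) (nat_lit 836) (nat_lit 453258544005) (nat_lit 165) (nat_lit 5) (nat_lit 175) (nat_lit 5) (nat_lit 176) (nat_lit 5) (nat_lit 528) (nat_lit 524) (nat_lit 148)))) (XT.nd (nat_lit 156) (nat_lit 0) (nat_lit 76) (XT.nd (nat_lit 78) (nat_lit 0) (nat_lit 76) (XT.lf (nat_lit 76) (nat_lit 509949166951) (nat_lit 0) (nat_lit 549732481255) (nat_lit 836) (nat_lit 889877897723) (nat_lit 166) (nat_lit 5) (nat_lit 165) (nat_lit 5) (nat_lit 176) (nat_lit 5) (nat_lit 529) (nat_lit 524) (nat_lit 147)) (XT.lf (nat_lit 0) (nat_lit 1174449268452) (nat_lit 760) (nat_lit 436729837583) (nat_lit 836) (nat_lit 388782071456) (nat_lit 166) (nat_lit 5) (nat_lit 176) (nat_lit 5) (nat_lit 177) (nat_lit 5) (nat_lit 530) (nat_lit 524) (nat_lit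 146))) (XT.nd (nat_lit 78) (nat_lit 0) (nat_lit 76) (XT.lf (nat_lit 76) (nat_lit 627362231531) (nat_lit 0) (nat_lit 686399927583) (nat_lit 836) (nat_lit 738180387049) (nat_lit 167) (nat_lit 5) (nat_lit 166) (nat_lit 5) (nat_lit 177) (nat_lit 5) (nat_lit 531) (nat_lit 524) (nat_lit 145)) (XT.lf (nat_lit 0) (nat_lit 1472001861960) (nat_lit 760) (nat_lit 350896932268) (nat_lit 836) (nat_lit 283026130657) (nat_lit 167) (nat_lit 5) (nat_lit 177) (nat_lit 5) (nat_lit 178) (nat_lit 5) (nat_lit 532) (nat_lit 524) (nat_lit 144))))) (XT.nd (nat_lit 312) (nat_lit 0) (nat_lit 152) (XT.nd (nat_lit 156) (nat_lit 0) (nat_lit 76) (XT.nd (nat_lit 78) (nat_lit 0) (nat_lit 0) (XT.lf (nat_lit 0) (nat_lit 400411757967) (nat_lit 836) (nat_lit 251649099887) (nat_lit 836) (nat_lit 251649099887) (nat_lit 163) (nat_lit 3) (nat_lit 174) (nat_lit 3) (nat_lit 174) (nat_lit 5) (nat_lit 525) (nat_lit 525) (nat_lit 150)) (XT.lf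 (nat_lit 76) (nat_lit 409868604891) (nat_lit 0) (nat_lit 417374716224) (nat_lit 836) (nat_lit 1025042131391) (nat_lit 164) (nat_lit 5) (nat_lit 163) (nat_lit 3) (nat_lit 174) (nat_lit 5) (nat_lit 526) (nat_lit 525) (nat_lit 149))) (XT.nd (nat_lit 78) (nat_lit 0) (nat_lit 0) (XT.lf (nat_lit 0) (nat_lit 871667892006) (nat_lit 760) (nat_lit 520961138570) (nat_lit 836) (nat_lit 505931047030) (nat_lit 164) (nat_lit 5) (nat_lit 174) (nat_lit 5) (nat_lit 175) (nat_lit 5) (nat_lit 527) (nat_lit 525) (nat_lit 148)) (XT.lf (nat_lit 76) (nat_lit 454264445951) (nat_lit 0) (nat_lit 477983793827) (nat_lit 836) (nat_lit 1014203466767) (nat_lit 165) (nat_lit 5) (nat_lit 164) (nat_lit 5) (nat_lit 175) (nat_lit 5) (nat_lit 528) (nat_lit 525) (nat_lit 147)))) (XT.nd (nat_lit 156) (nat_lit 0) (nat_lit 76) (XT.nd (nat_lit 78) (nat_lit 0) (nat_lit 0) (XT.lf (nat_lit 0) (nat_lit 1012356485289) (nat_lit 760) (nat_lit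 507635029731) (nat_lit 836) (nat_lit 475921457893) (nat_lit 165) (nat_lit 5) (nat_lit 175) (nat_lit 5) (nat_lit 176) (nat_lit 5) (nat_lit 529) (nat_lit 525) (nat_lit 146)) (XT.lf (nat_lit 76) (nat_lit 535446648727) (nat_lit 0) (nat_lit 577219115926) (nat_lit 836) (nat_lit 934371756867) (nat_lit 166) (nat_lit 5) (nat_lit 165) (nat_lit 5) (nat_lit 176) (nat_lit 5) (nat_lit 530) (nat_lit 525) (nat_lit 145))) (XT.nd (nat_lit 78) (nat_lit 0) (nat_lit 0) (XT.lf (nat_lit 0) (nat_lit 1233171764134) (nat_lit 760) (nat_lit 458566305368) (nat_lit 836) (nat_lit 408221165249) (nat_lit 166) (nat_lit 5) (nat_lit 176) (nat_lit 5) (nat_lit 177) (nat_lit 5) (nat_lit 531) (nat_lit 525) (nat_lit 144)) (XT.lf (nat_lit 76) (nat_lit 658730366813) (nat_lit 0) (nat_lit 720719931350) (nat_lit 836) (nat_lit 775089373752) (nat_lit 167) (nat_lit 5) (nat_lit 166) (nat_lit 5) (nat_lit 177) (nat_lit 5) (nat_lit 532) (nat_lit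 525) (nat_lit 143)))))) (XT.nd (nat_lit 62634) (nat_lit 0) (nat_lit 0) (XT.nd (nat_lit 312) (nat_lit 0) (nat_lit 0) (XT.nd (nat_lit 156) (nat_lit 0) (nat_lit 76) (XT.nd (nat_lit 78) (nat_lit 0) (nat_lit 0) (XT.lf (nat_lit 0) (nat_lit 420432365262) (nat_lit 836) (nat_lit 264231544698) (nat_lit 836) (nat_lit 264231544698) (nat_lit 163) (nat_lit 3) (nat_lit 174) (nat_lit 3) (nat_lit 174) (nat_lit 5) (nat_lit 526) (nat_lit 526) (nat_lit 148)) (XT.lf (nat_lit 76) (nat_lit 430362055175) (nat_lit 0) (nat_lit 438243469255) (nat_lit 836) (nat_lit 1076294198835) (nat_lit 164) (nat_lit 5) (nat_lit 163) (nat_lit 3) (nat_lit 174) (nat_lit 5) (nat_lit 527) (nat_lit 526) (nat_lit 147))) (XT.nd (nat_lit 78) (nat_lit 0) (nat_lit 0) (XT.lf (nat_lit 0) (nat_lit 915251321836) (nat_lit 760) (nat_lit 547009174380) (nat_lit 836) (nat_lit 531227583507) (nat_lit 164) (nat_lit 5) (nat_lit 174) (nat_lit 5) (nat_lit 175)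 (nat_lit 5) (nat_lit 528) (nat_lit 526) (nat_lit 146)) (XT.lf (nat_lit 76) (nat_lit 476977689026) (nat_lit 0) (nat_lit 501882996617) (nat_lit 836) (nat_lit 1064913604533) (nat_lit 165) (nat_lit 5) (nat_lit 164) (nat_lit 5) (nat_lit 175) (nat_lit 5) (nat_lit 529) (nat_lit 526) (nat_lit 145)))) (XT.nd (nat_lit 156) (nat_lit 152) (nat_lit 0) (XT.nd (nat_lit 78) (nat_lit 0) (nat_lit 0) (XT.lf (nat_lit 0) (nat_lit 1062974341621) (nat_lit 760) (nat_lit 533016759619) (nat_lit 836) (nat_lit 499717518712) (nat_lit 165) (nat_lit 5) (nat_lit 175) (nat_lit 5) (nat_lit 176) (nat_lit 5) (nat_lit 530) (nat_lit 526) (nat_lit 144)) (XT.lf (nat_lit 76) (nat_lit 562219002414) (nat_lit 0) (nat_lit 606080081345) (nat_lit 836) (nat_lit 981090312292) (nat_lit 166) (nat_lit 5) (nat_lit 165) (nat_lit 5) (nat_lit 176) (nat_lit 5) (nat_lit 531) (nat_lit 526) (nat_lit 143))) (XT.nd (nat_lit 62088) (nat_lit 228) (nat_lit 0)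 (XT.lf (nat_lit 0) (nat_lit 1294830381600) (nat_lit 760) (nat_lit 481494598782) (nat_lit 836) (nat_lit 428632214641) (nat_lit 166) (nat_lit 5) (nat_lit 176) (nat_lit 5) (nat_lit 177) (nat_lit 5) (nat_lit 532) (nat_lit 526) (nat_lit 142)) (XT.lf (nat_lit 0) (nat_lit 441454001119) (nat_lit 836) (nat_lit 277443112695) (nat_lit 836) (nat_lit 277443112695) (nat_lit 163) (nat_lit 3) (nat_lit 174) (nat_lit 3) (nat_lit 174) (nat_lit 5) (nat_lit 527) (nat_lit 527) (nat_lit 146))))) (XT.nd (nat_lit 62556) (nat_lit 0) (nat_lit 0) (XT.nd (nat_lit 156) (nat_lit 0) (nat_lit 76) (XT.nd (nat_lit 78) (nat_lit 0) (nat_lit 76) (XT.lf (nat_lit 76) (nat_lit 451880176111) (nat_lit 0) (nat_lit 460155658337) (nat_lit 836) (nat_lit 1130108873289) (nat_lit 164) (nat_lit 5) (nat_lit 163) (nat_lit 3) (nat_lit 174) (nat_lit 5) (nat_lit 528) (nat_lit 527) (nat_lit 145)) (XT.lf (nat_lit 0) (nat_lit 961013919882) (nat_lit 760)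 (nat_lit 574359613943) (nat_lit 836) (nat_lit 557788948283) (nat_lit 164) (nat_lit 5) (nat_lit 174) (nat_lit 5) (nat_lit 175) (nat_lit 5) (nat_lit 529) (nat_lit 527) (nat_lit 144))) (XT.nd (nat_lit 78) (nat_lit 0) (nat_lit 76) (XT.lf (nat_lit 76) (nat_lit 500826592324) (nat_lit 0) (nat_lit 526977158328) (nat_lit 836) (nat_lit 1118159252494) (nat_lit 165) (nat_lit 5) (nat_lit 164) (nat_lit 5) (nat_lit 175) (nat_lit 5) (nat_lit 530) (nat_lit 527) (nat_lit 143)) (XT.lf (nat_lit 0) (nat_lit 1116123087789) (nat_lit 760) (nat_lit 559667578009) (nat_lit 836) (nat_lit 524703383696) (nat_lit 165) (nat_lit 5) (nat_lit 175) (nat_lit 5) (nat_lit 176) (nat_lit 5) (nat_lit 531) (nat_lit 527) (nat_lit 142)))) (XT.nd (nat_lit 156) (nat_lit 0) (nat_lit 0) (XT.nd (nat_lit 78) (nat_lit 0) (nat_lit 76) (XT.lf (nat_lit 76) (nat_lit 474474201403) (nat_lit 0) (nat_lit 483163455420) (nat_lit 836) (nat_lit 1186614284765)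 (nat_lit 164) (nat_lit 5) (nat_lit 163) (nat_lit 3) (nat_lit 174) (nat_lit 5) (nat_lit 529) (nat_lit 528) (nat_lit 143)) (XT.lf (nat_lit 0) (nat_lit 1009064644859) (nat_lit 760) (nat_lit 603077577266) (nat_lit 836) (nat_lit 585678382637) (nat_lit 164) (nat_lit 5) (nat_lit 174) (nat_lit 5) (nat_lit 175) (nat_lit 5) (nat_lit 530) (nat_lit 528) (nat_lit 142))) (XT.nd (nat_lit 62400) (nat_lit 76) (nat_lit 0) (XT.lf (nat_lit 76) (nat_lit 525867939034) (nat_lit 0) (nat_lit 553326027020) (nat_lit 836) (nat_lit 1174067185853) (nat_lit 165) (nat_lit 5) (nat_lit 164) (nat_lit 5) (nat_lit 175) (nat_lit 5) (nat_lit 531) (nat_lit 528) (nat_lit 141)) (XT.nd (nat_lit 78) (nat_lit 0) (nat_lit 76) (XT.lf (nat_lit 76) (nat_lit 498197926428) (nat_lit 0) (nat_lit 507321641041) (nat_lit 836) (nat_lit 1245944969807) (nat_lit 164) (nat_lit 5) (nat_lit 163) (nat_lit 3) (nat_lit 174) (nat_lit 5) (nat_lit 530) (nat_lit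 529) (nat_lit 141)) (XT.lf (nat_lit 0) (nat_lit 1059517903391) (nat_lit 760) (nat_lit 633231440371) (nat_lit 836) (nat_lit 614962289923) (nat_lit 164) (nat_lit 5) (nat_lit 174) (nat_lit 5) (nat_lit 175) (nat_lit 5) (nat_lit 531) (nat_lit 529) (nat_lit 140))))))))

set_option maxRecDepth 10000000 in
noncomputable def Tp : PT := (PT.nd (nat_lit 12824370) (PT.nd (nat_lit 11948820) (PT.nd (nat_lit 10638030) (PT.nd (nat_lit 9014694) (PT.nd (nat_lit 8140392) pc0 pc1) (PT.nd (nat_lit 936546) pc2 pc3)) (PT.nd (nat_lit 811668) (PT.nd (nat_lit 437268) pc4 pc5) (PT.nd (nat_lit 249912) pc6 pc7))) (PT.nd (nat_lit 561912) (PT.nd (nat_lit 312312) (PT.nd (nat_lit 125736) pc8 pc9) (PT.nd (nat_lit 124956) pc10 pc11)) (PT.nd (nat_lit 187356) (PT.nd (nat_lit 63492) pc12 pc13) (PT.nd (nat_lit 63180) pc14 pc15)))) (PT.nd (nat_lit 625170) (PT.nd (nat_lit 310128) (PT.nd (nat_lit 185328) (PT.nd (nat_lit 122694) pc16 pc17)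 (PT.nd (nat_lit 62478) pc18 pc19)) (PT.nd (nat_lit 124800) (PT.nd (nat_lit 62088) pc20 pc21) (PT.nd (nat_lit 65052) pc22 pc23))) (PT.nd (nat_lit 806754) (PT.nd (nat_lit 370266) (PT.nd (nat_lit 183300) pc24 pc25) (PT.nd (nat_lit 192582) pc26 pc27)) (PT.nd (nat_lit 444366) (PT.nd (nat_lit 249054) pc28 pc29) (PT.nd (nat_lit 241254) pc30 pc31)))))

set_option maxRecDepth 10000000 in
noncomputable def Tx : XT := (XT.nd (nat_lit 20161284) (nat_lit 0) (nat_lit 76) XT.nil (XT.nd (nat_lit 12931074) (nat_lit 0) (nat_lit 0) (XT.nd (nat_lit 5804370) (nat_lit 0) (nat_lit 684) (XT.nd (nat_lit 3993600) (nat_lit 0) (nat_lit 152) (XT.nd (nat_lit 2807142) (nat_lit 0) (nat_lit 0) (XT.nd (nat_lit 1936662) (nat_lit 0) (nat_lit 0) (XT.nd (nat_lit 1372644) (nat_lit 0) (nat_lit 0) (XT.nd (nat_lit 936624) (nat_lit 0) (nat_lit 0) (XT.nd (nat_lit 624858) (nat_lit 0) (nat_lit 0) (XT.nd (nat_lit 436956) (nat_lit 0) (nat_lit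 0) (XT.nd (nat_lit 311766) (nat_lit 0) (nat_lit 0) xc0 xc1) (XT.nd (nat_lit 124566) (nat_lit 0) (nat_lit 0) xc2 xc3)) (XT.nd (nat_lit 186498) (nat_lit 0) (nat_lit 0) (XT.nd (nat_lit 123630) (nat_lit 0) (nat_lit 0) xc4 xc5) (XT.nd (nat_lit 62712) (nat_lit 0) (nat_lit 0) xc6 xc7))) (XT.nd (nat_lit 248586) (nat_lit 0) (nat_lit 0) (XT.nd (nat_lit 124566) (nat_lit 0) (nat_lit 0) (XT.nd (nat_lit 62322) (nat_lit 0) (nat_lit 0) xc8 xc9) (XT.nd (nat_lit 62088) (nat_lit 0) (nat_lit 0) xc10 xc11)) (XT.nd (nat_lit 64350) (nat_lit 0) (nat_lit 0) (XT.nd (nat_lit 61776) (nat_lit 0) (nat_lit 0) xc12 xc13) (XT.nd (nat_lit 61620) (nat_lit 0) (nat_lit 0) xc14 xc15)))) (XT.nd (nat_lit 312624) (nat_lit 0) (nat_lit 0) (XT.nd (nat_lit 185952) (nat_lit 0) (nat_lit 0) (XT.nd (nat_lit 63804) (nat_lit 0) (nat_lit 0) (XT.nd (nat_lit 61230) (nat_lit 0) (nat_lit 0) xc16 xc17) (XT.nd (nat_lit 61152) (nat_lit 0) (nat_lit 0) xc18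 xc19)) (XT.nd (nat_lit 63414) (nat_lit 0) (nat_lit 0) (XT.nd (nat_lit 2574) (nat_lit 0) (nat_lit 0) xc20 xc21) (XT.nd (nat_lit 60684) (nat_lit 0) (nat_lit 152) xc22 xc23))) (XT.nd (nat_lit 125970) (nat_lit 0) (nat_lit 0) (XT.nd (nat_lit 63024) (nat_lit 0) (nat_lit 0) (XT.nd (nat_lit 60450) (nat_lit 0) (nat_lit 0) xc24 xc25) (XT.nd (nat_lit 60372) (nat_lit 0) (nat_lit 0) xc26 xc27)) (XT.nd (nat_lit 62790) (nat_lit 0) (nat_lit 0) (XT.nd (nat_lit 60216) (nat_lit 0) (nat_lit 0) xc28 xc29) (XT.nd (nat_lit 60060) (nat_lit 0) (nat_lit 0) xc30 xc31))))) (XT.nd (nat_lit 495300) (nat_lit 0) (nat_lit 0) (XT.nd (nat_lit 248898) (nat_lit 0) (nat_lit 0) (XT.nd (nat_lit 124722) (nat_lit 0) (nat_lit 0) (XT.nd (nat_lit 62400) (nat_lit 0) (nat_lit 0) (XT.nd (nat_lit 59826) (nat_lit 0) (nat_lit 0) xc32 xc33) (XT.nd (nat_lit 59748) (nat_lit 0) (nat_lit 0) xc34 xc35)) (XT.nd (nat_lit 62166) (nat_lit 0) (nat_lit 0)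 (XT.nd (nat_lit 59592) (nat_lit 0) (nat_lit 0) xc36 xc37) (XT.nd (nat_lit 59436) (nat_lit 0) (nat_lit 152) xc38 xc39))) (XT.nd (nat_lit 123474) (nat_lit 0) (nat_lit 0) (XT.nd (nat_lit 61776) (nat_lit 0) (nat_lit 0) (XT.nd (nat_lit 59202) (nat_lit 0) (nat_lit 152) xc40 xc41) (XT.nd (nat_lit 59124) (nat_lit 0) (nat_lit 228) xc42 xc43)) (XT.nd (nat_lit 61542) (nat_lit 0) (nat_lit 0) (XT.nd (nat_lit 2574) (nat_lit 0) (nat_lit 0) xc44 xc45) (XT.nd (nat_lit 2574) (nat_lit 152) (nat_lit 0) xc46 xc47)))) (XT.nd (nat_lit 188292) (nat_lit 0) (nat_lit 0) (XT.nd (nat_lit 66300) (nat_lit 0) (nat_lit 0) (XT.nd (nat_lit 61152) (nat_lit 0) (nat_lit 152) (XT.nd (nat_lit 2496) (nat_lit 228) (nat_lit 0) xc48 xc49) (XT.nd (nat_lit 2574) (nat_lit 304) (nat_lit 0) xc50 xc51)) (XT.nd (nat_lit 61074) (nat_lit 0) (nat_lit 0) (XT.nd (nat_lit 58500) (nat_lit 0) (nat_lit 228) xc52 xc53) (XT.nd (nat_lit 58344) (nat_lit 0)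 (nat_lit 684) xc54 xc55))) (XT.nd (nat_lit 65832) (nat_lit 0) (nat_lit 0) (XT.nd (nat_lit 60684) (nat_lit 0) (nat_lit 0) (XT.nd (nat_lit 2496) (nat_lit 152) (nat_lit 0) xc56 xc57) (XT.nd (nat_lit 2574) (nat_lit 456) (nat_lit 0) xc58 xc59)) (XT.nd (nat_lit 60606) (nat_lit 0) (nat_lit 0) (XT.nd (nat_lit 58032) (nat_lit 0) (nat_lit 228) xc60 xc61) (XT.nd (nat_lit 57876) (nat_lit 0) (nat_lit 1064) xc62 xc63)))))) (XT.nd (nat_lit 627042) (nat_lit 0) (nat_lit 152) (XT.nd (nat_lit 315354) (nat_lit 0) (nat_lit 0) (XT.nd (nat_lit 185484) (nat_lit 0) (nat_lit 0) (XT.nd (nat_lit 65364) (nat_lit 0) (nat_lit 0) (XT.nd (nat_lit 60216) (nat_lit 0) (nat_lit 152) (XT.nd (nat_lit 2496) (nat_lit 228) (nat_lit 0) xc64 xc65) (XT.nd (nat_lit 2574) (nat_lit 760) (nat_lit 0) xc66 xc67)) (XT.nd (nat_lit 60138) (nat_lit 0) (nat_lit 0) (XT.nd (nat_lit 57564) (nat_lit 0) (nat_lit 836) xc68 xc69) (XT.nd (nat_lit 2574) (nat_lit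 152) (nat_lit 0) xc70 xc71))) (XT.nd (nat_lit 64974) (nat_lit 0) (nat_lit 0) (XT.nd (nat_lit 5070) (nat_lit 152) (nat_lit 0) (XT.nd (nat_lit 2496) (nat_lit 684) (nat_lit 0) xc72 xc73) (XT.nd (nat_lit 57330) (nat_lit 0) (nat_lit 836) xc74 xc75)) (XT.nd (nat_lit 59748) (nat_lit 0) (nat_lit 228) (XT.nd (nat_lit 2574) (nat_lit 152) (nat_lit 0) xc76 xc77) (XT.nd (nat_lit 2574) (nat_lit 684) (nat_lit 0) xc78 xc79)))) (XT.nd (nat_lit 183378) (nat_lit 0) (nat_lit 152) (XT.nd (nat_lit 118950) (nat_lit 0) (nat_lit 152) (XT.nd (nat_lit 59514) (nat_lit 0) (nat_lit 0) (XT.nd (nat_lit 56940) (nat_lit 0) (nat_lit 1140) xc80 xc81) (XT.nd (nat_lit 2574) (nat_lit 228) (nat_lit 0) xc82 xc83)) (XT.nd (nat_lit 5148) (nat_lit 228) (nat_lit 0) (XT.nd (nat_lit 2574) (nat_lit 1140) (nat_lit 0) xc84 xc85) (XT.nd (nat_lit 56706) (nat_lit 0) (nat_lit 1900) xc86 xc87))) (XT.nd (nat_lit 64194) (nat_lit 0) (nat_lit 0) (XT.nd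 (nat_lit 5070) (nat_lit 0) (nat_lit 0) (XT.nd (nat_lit 2496) (nat_lit 456) (nat_lit 0) xc88 xc89) (XT.nd (nat_lit 56550) (nat_lit 0) (nat_lit 760) xc90 xc91)) (XT.nd (nat_lit 58968) (nat_lit 0) (nat_lit 228) (XT.nd (nat_lit 2574) (nat_lit 76) (nat_lit 0) xc92 xc93) (XT.nd (nat_lit 2574) (nat_lit 1140) (nat_lit 0) xc94 xc95))))) (XT.nd (nat_lit 307788) (nat_lit 0) (nat_lit 0) (XT.nd (nat_lit 181038) (nat_lit 0) (nat_lit 0) (XT.nd (nat_lit 63882) (nat_lit 0) (nat_lit 0) (XT.nd (nat_lit 58734) (nat_lit 0) (nat_lit 0) (XT.nd (nat_lit 56160) (nat_lit 0) (nat_lit 2356) xc96 xc97) (XT.nd (nat_lit 2574) (nat_lit 684) (nat_lit 0) xc98 xc99)) (XT.nd (nat_lit 58656) (nat_lit 0) (nat_lit 0) (XT.nd (nat_lit 56082) (nat_lit 0) (nat_lit 1368) xc100 xc101) (XT.nd (nat_lit 2574) (nat_lit 228) (nat_lit 0) xc102 xc103))) (XT.nd (nat_lit 63414) (nat_lit 0) (nat_lit 0) (XT.nd (nat_lit 5070) (nat_lit 760) (nat_lit 0)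 (XT.nd (nat_lit 2496) (nat_lit 1824) (nat_lit 0) xc104 xc105) (XT.nd (nat_lit 2574) (nat_lit 76) (nat_lit 0) xc106 xc107)) (XT.nd (nat_lit 5148) (nat_lit 456) (nat_lit 0) (XT.nd (nat_lit 2574) (nat_lit 1368) (nat_lit 0) xc108 xc109) (XT.nd (nat_lit 55614) (nat_lit 0) (nat_lit 3268) xc110 xc111)))) (XT.nd (nat_lit 126126) (nat_lit 0) (nat_lit 0) (XT.nd (nat_lit 63102) (nat_lit 0) (nat_lit 0) (XT.nd (nat_lit 5070) (nat_lit 228) (nat_lit 0) (XT.nd (nat_lit 2496) (nat_lit 988) (nat_lit 0) xc112 xc113) (XT.nd (nat_lit 55458) (nat_lit 0) (nat_lit 2812) xc114 xc115)) (XT.nd (nat_lit 5148) (nat_lit 76) (nat_lit 0) (XT.nd (nat_lit 2574) (nat_lit 836) (nat_lit 0) xc116 xc117) (XT.nd (nat_lit 55302) (nat_lit 0) (nat_lit 2356) xc118 xc119))) (XT.nd (nat_lit 62790) (nat_lit 0) (nat_lit 0) (XT.nd (nat_lit 5070) (nat_lit 76) (nat_lit 0) (XT.nd (nat_lit 2496) (nat_lit 684) (nat_lit 0) xc120 xc121) (XT.nd (nat_lit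 55146) (nat_lit 0) (nat_lit 2128) xc122 xc123)) (XT.nd (nat_lit 5148) (nat_lit 0) (nat_lit 0) (XT.nd (nat_lit 2574) (nat_lit 684) (nat_lit 0) xc124 xc125) (XT.nd (nat_lit 54990) (nat_lit 0) (nat_lit 2052) xc126 xc127))))))) (XT.nd (nat_lit 932490) (nat_lit 0) (nat_lit 228) (XT.nd (nat_lit 495846) (nat_lit 0) (nat_lit 76) (XT.nd (nat_lit 249132) (nat_lit 0) (nat_lit 76) (XT.nd (nat_lit 124878) (nat_lit 0) (nat_lit 0) (XT.nd (nat_lit 62478) (nat_lit 0) (nat_lit 0) (XT.nd (nat_lit 57330) (nat_lit 0) (nat_lit 2052) (XT.nd (nat_lit 2496) (nat_lit 532) (nat_lit 0) xc128 xc129) (XT.nd (nat_lit 2574) (nat_lit 2356) (nat_lit 0) xc130 xc131)) (XT.nd (nat_lit 57252) (nat_lit 0) (nat_lit 2128) (XT.nd (nat_lit 2574) (nat_lit 532) (nat_lit 0) xc132 xc133) (XT.nd (nat_lit 2574) (nat_lit 2432) (nat_lit 0) xc134 xc135))) (XT.nd (nat_lit 62166) (nat_lit 0) (nat_lit 0) (XT.nd (nat_lit 5070) (nat_lit 0) (nat_lit 0)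 (XT.nd (nat_lit 2496) (nat_lit 684) (nat_lit 0) xc136 xc137) (XT.nd (nat_lit 54522) (nat_lit 0) (nat_lit 2508) xc138 xc139)) (XT.nd (nat_lit 5148) (nat_lit 76) (nat_lit 0) (XT.nd (nat_lit 2574) (nat_lit 684) (nat_lit 0) xc140 xc141) (XT.nd (nat_lit 54366) (nat_lit 0) (nat_lit 2812) xc142 xc143)))) (XT.nd (nat_lit 123630) (nat_lit 0) (nat_lit 0) (XT.nd (nat_lit 61854) (nat_lit 0) (nat_lit 0) (XT.nd (nat_lit 5070) (nat_lit 152) (nat_lit 0) (XT.nd (nat_lit 2496) (nat_lit 912) (nat_lit 0) xc144 xc145) (XT.nd (nat_lit 54210) (nat_lit 0) (nat_lit 3420) xc146 xc147)) (XT.nd (nat_lit 5148) (nat_lit 228) (nat_lit 0) (XT.nd (nat_lit 2574) (nat_lit 1140) (nat_lit 0) xc148 xc149) (XT.nd (nat_lit 54054) (nat_lit 0) (nat_lit 4104) xc150 xc151))) (XT.nd (nat_lit 61542) (nat_lit 0) (nat_lit 0) (XT.nd (nat_lit 5070) (nat_lit 456) (nat_lit 0) (XT.nd (nat_lit 2496) (nat_lit 1520) (nat_lit 0) xc152 xc153) (XT.nd (nat_lit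 53898) (nat_lit 0) (nat_lit 5168) xc154 xc155)) (XT.nd (nat_lit 5148) (nat_lit 912) (nat_lit 0) (XT.nd (nat_lit 2574) (nat_lit 1824) (nat_lit 0) xc156 xc157) (XT.nd (nat_lit 2574) (nat_lit 0) (nat_lit 0) xc158 xc159))))) (XT.nd (nat_lit 193830) (nat_lit 0) (nat_lit 0) (XT.nd (nat_lit 122538) (nat_lit 0) (nat_lit 0) (XT.nd (nat_lit 61308) (nat_lit 0) (nat_lit 0) (XT.nd (nat_lit 5070) (nat_lit 1596) (nat_lit 0) (XT.nd (nat_lit 2496) (nat_lit 2052) (nat_lit 0) xc160 xc161) (XT.nd (nat_lit 2574) (nat_lit 380) (nat_lit 0) xc162 xc163)) (XT.nd (nat_lit 5148) (nat_lit 2432) (nat_lit 0) (XT.nd (nat_lit 2574) (nat_lit 2356) (nat_lit 0) xc164 xc165) (XT.nd (nat_lit 2574) (nat_lit 836) (nat_lit 0) xc166 xc167))) (XT.nd (nat_lit 10218) (nat_lit 380) (nat_lit 0) (XT.nd (nat_lit 5070) (nat_lit 3268) (nat_lit 0) (XT.nd (nat_lit 2496) (nat_lit 3040) (nat_lit 0) xc168 xc169) (XT.nd (nat_lit 2574) (nat_lit 1216)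 (nat_lit 0) xc170 xc171)) (XT.nd (nat_lit 55926) (nat_lit 0) (nat_lit 912) (XT.nd (nat_lit 53352) (nat_lit 0) (nat_lit 5092) xc172 xc173) (XT.nd (nat_lit 2574) (nat_lit 1824) (nat_lit 0) xc174 xc175)))) (XT.nd (nat_lit 121602) (nat_lit 0) (nat_lit 152) (XT.nd (nat_lit 60840) (nat_lit 0) (nat_lit 0) (XT.nd (nat_lit 55692) (nat_lit 0) (nat_lit 2052) (XT.nd (nat_lit 2496) (nat_lit 0) (nat_lit 0) xc176 xc177) (XT.nd (nat_lit 2574) (nat_lit 2128) (nat_lit 0) xc178 xc179)) (XT.nd (nat_lit 55614) (nat_lit 0) (nat_lit 3496) (XT.nd (nat_lit 2574) (nat_lit 456) (nat_lit 0) xc180 xc181) (XT.nd (nat_lit 2574) (nat_lit 2736) (nat_lit 0) xc182 xc183))) (XT.nd (nat_lit 60528) (nat_lit 0) (nat_lit 0) (XT.nd (nat_lit 5070) (nat_lit 76) (nat_lit 0) (XT.nd (nat_lit 2496) (nat_lit 1292) (nat_lit 0) xc184 xc185) (XT.nd (nat_lit 52884) (nat_lit 0) (nat_lit 5320) xc186 xc187)) (XT.nd (nat_lit 5148) (nat_lit 988) (nat_lit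 0) (XT.nd (nat_lit 2574) (nat_lit 1824) (nat_lit 0) xc188 xc189) (XT.nd (nat_lit 2574) (nat_lit 0) (nat_lit 0) xc190 xc191)))))) (XT.nd (nat_lit 436956) (nat_lit 0) (nat_lit 76) (XT.nd (nat_lit 192660) (nat_lit 0) (nat_lit 0) (XT.nd (nat_lit 70980) (nat_lit 0) (nat_lit 0) (XT.nd (nat_lit 60684) (nat_lit 0) (nat_lit 304) (XT.nd (nat_lit 5070) (nat_lit 2356) (nat_lit 0) (XT.nd (nat_lit 2496) (nat_lit 2280) (nat_lit 0) xc192 xc193) (XT.nd (nat_lit 2574) (nat_lit 684) (nat_lit 0) xc194 xc195)) (XT.nd (nat_lit 5148) (nat_lit 3572) (nat_lit 0) (XT.nd (nat_lit 2574) (nat_lit 3192) (nat_lit 0) xc196 xc197) (XT.nd (nat_lit 2574) (nat_lit 1368) (nat_lit 0) xc198 xc199))) (XT.nd (nat_lit 60762) (nat_lit 0) (nat_lit 0) (XT.nd (nat_lit 55614) (nat_lit 0) (nat_lit 1216) (XT.nd (nat_lit 53040) (nat_lit 0) (nat_lit 5852) xc200 xc201) (XT.nd (nat_lit 2574) (nat_lit 1976) (nat_lit 0) xc202 xc203)) (XT.nd (nat_lit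 55770) (nat_lit 0) (nat_lit 2356) (XT.nd (nat_lit 2574) (nat_lit 76) (nat_lit 0) xc204 xc205) (XT.nd (nat_lit 2574) (nat_lit 2280) (nat_lit 0) xc206 xc207)))) (XT.nd (nat_lit 121992) (nat_lit 0) (nat_lit 76) (XT.nd (nat_lit 60918) (nat_lit 0) (nat_lit 76) (XT.nd (nat_lit 55770) (nat_lit 0) (nat_lit 3800) (XT.nd (nat_lit 2496) (nat_lit 760) (nat_lit 0) xc208 xc209) (XT.nd (nat_lit 2574) (nat_lit 3040) (nat_lit 0) xc210 xc211)) (XT.nd (nat_lit 5148) (nat_lit 228) (nat_lit 0) (XT.nd (nat_lit 2574) (nat_lit 1368) (nat_lit 0) xc212 xc213) (XT.nd (nat_lit 53352) (nat_lit 0) (nat_lit 5244) xc214 xc215))) (XT.nd (nat_lit 61074) (nat_lit 0) (nat_lit 0) (XT.nd (nat_lit 5070) (nat_lit 912) (nat_lit 0) (XT.nd (nat_lit 2496) (nat_lit 1976) (nat_lit 0) xc216 xc217) (XT.nd (nat_lit 53430) (nat_lit 0) (nat_lit 7372) xc218 xc219)) (XT.nd (nat_lit 5148) (nat_lit 1824) (nat_lit 0) (XT.nd (nat_lit 2574) (nat_lit 2280)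 (nat_lit 0) xc220 xc221) (XT.nd (nat_lit 2574) (nat_lit 380) (nat_lit 0) xc222 xc223))))) (XT.nd (nat_lit 194532) (nat_lit 0) (nat_lit 152) (XT.nd (nat_lit 71604) (nat_lit 0) (nat_lit 0) (XT.nd (nat_lit 61308) (nat_lit 0) (nat_lit 380) (XT.nd (nat_lit 5070) (nat_lit 3040) (nat_lit 0) (XT.nd (nat_lit 2496) (nat_lit 2508) (nat_lit 0) xc224 xc225) (XT.nd (nat_lit 2574) (nat_lit 1064) (nat_lit 0) xc226 xc227)) (XT.nd (nat_lit 5148) (nat_lit 3724) (nat_lit 0) (XT.nd (nat_lit 2574) (nat_lit 3268) (nat_lit 0) xc228 xc229) (XT.nd (nat_lit 2574) (nat_lit 1444) (nat_lit 0) xc230 xc231))) (XT.nd (nat_lit 61386) (nat_lit 0) (nat_lit 152) (XT.nd (nat_lit 56238) (nat_lit 0) (nat_lit 912) (XT.nd (nat_lit 53664) (nat_lit 0) (nat_lit 5244) xc232 xc233) (XT.nd (nat_lit 2574) (nat_lit 1976) (nat_lit 0) xc234 xc235)) (XT.nd (nat_lit 56394) (nat_lit 0) (nat_lit 1444) (XT.nd (nat_lit 53820) (nat_lit 0) (nat_lit 6460)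 xc236 xc237) (XT.nd (nat_lit 2574) (nat_lit 2128) (nat_lit 0) xc238 xc239)))) (XT.nd (nat_lit 123240) (nat_lit 0) (nat_lit 0) (XT.nd (nat_lit 61542) (nat_lit 0) (nat_lit 0) (XT.nd (nat_lit 56394) (nat_lit 0) (nat_lit 2280) (XT.nd (nat_lit 2496) (nat_lit 76) (nat_lit 0) xc240 xc241) (XT.nd (nat_lit 2574) (nat_lit 2204) (nat_lit 0) xc242 xc243)) (XT.nd (nat_lit 56550) (nat_lit 0) (nat_lit 2964) (XT.nd (nat_lit 2574) (nat_lit 532) (nat_lit 0) xc244 xc245) (XT.nd (nat_lit 2574) (nat_lit 2584) (nat_lit 0) xc246 xc247))) (XT.nd (nat_lit 61698) (nat_lit 0) (nat_lit 0) (XT.nd (nat_lit 56550) (nat_lit 0) (nat_lit 3724) (XT.nd (nat_lit 2496) (nat_lit 988) (nat_lit 0) xc248 xc249) (XT.nd (nat_lit 2574) (nat_lit 3040) (nat_lit 0) xc250 xc251)) (XT.nd (nat_lit 5148) (nat_lit 76) (nat_lit 0) (XT.nd (nat_lit 2574) (nat_lit 1520) (nat_lit 0) xc252 xc253) (XT.nd (nat_lit 54132) (nat_lit 0) (nat_lit 4256) xc254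 xc255)))))))) (XT.nd (nat_lit 2187588) (nat_lit 0) (nat_lit 1748) (XT.nd (nat_lit 1000818) (nat_lit 0) (nat_lit 608) (XT.nd (nat_lit 497640) (nat_lit 0) (nat_lit 228) (XT.nd (nat_lit 248040) (nat_lit 0) (nat_lit 152) (XT.nd (nat_lit 123864) (nat_lit 0) (nat_lit 0) (XT.nd (nat_lit 61854) (nat_lit 0) (nat_lit 0) (XT.nd (nat_lit 5070) (nat_lit 380) (nat_lit 0) (XT.nd (nat_lit 2496) (nat_lit 1672) (nat_lit 0) xc256 xc257) (XT.nd (nat_lit 54210) (nat_lit 0) (nat_lit 5016) xc258 xc259)) (XT.nd (nat_lit 5148) (nat_lit 684) (nat_lit 0) (XT.nd (nat_lit 2574) (nat_lit 1900) (nat_lit 0) xc260 xc261) (XT.nd (nat_lit 54288) (nat_lit 0) (nat_lit 5776) xc262 xc263))) (XT.nd (nat_lit 62010) (nat_lit 0) (nat_lit 0) (XT.nd (nat_lit 5070) (nat_lit 1140) (nat_lit 0) (XT.nd (nat_lit 2496) (nat_lit 2052) (nat_lit 0) xc264 xc265) (XT.nd (nat_lit 54366) (nat_lit 0) (nat_lit 6536) xc266 xc267)) (XT.nd (nat_lit 5148) (nat_lit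 1368) (nat_lit 0) (XT.nd (nat_lit 2574) (nat_lit 2204) (nat_lit 0) xc268 xc269) (XT.nd (nat_lit 54444) (nat_lit 0) (nat_lit 7144) xc270 xc271)))) (XT.nd (nat_lit 124644) (nat_lit 0) (nat_lit 76) (XT.nd (nat_lit 62244) (nat_lit 0) (nat_lit 0) (XT.nd (nat_lit 5070) (nat_lit 1672) (nat_lit 0) (XT.nd (nat_lit 2496) (nat_lit 2128) (nat_lit 0) xc272 xc273) (XT.nd (nat_lit 2574) (nat_lit 76) (nat_lit 0) xc274 xc275)) (XT.nd (nat_lit 5148) (nat_lit 1824) (nat_lit 0) (XT.nd (nat_lit 2574) (nat_lit 2204) (nat_lit 0) xc276 xc277) (XT.nd (nat_lit 2574) (nat_lit 152) (nat_lit 0) xc278 xc279))) (XT.nd (nat_lit 62400) (nat_lit 0) (nat_lit 0) (XT.nd (nat_lit 5070) (nat_lit 1976) (nat_lit 0) (XT.nd (nat_lit 2496) (nat_lit 2204) (nat_lit 0) xc280 xc281) (XT.nd (nat_lit 2574) (nat_lit 228) (nat_lit 0) xc282 xc283)) (XT.nd (nat_lit 5148) (nat_lit 1976) (nat_lit 0) (XT.nd (nat_lit 2574) (nat_lit 2204) (nat_lit 0) xc284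 xc285) (XT.nd (nat_lit 2574) (nat_lit 228) (nat_lit 0) xc286 xc287))))) (XT.nd (nat_lit 250848) (nat_lit 0) (nat_lit 228) (XT.nd (nat_lit 125268) (nat_lit 0) (nat_lit 152) (XT.nd (nat_lit 62556) (nat_lit 0) (nat_lit 76) (XT.nd (nat_lit 5070) (nat_lit 2052) (nat_lit 0) (XT.nd (nat_lit 2496) (nat_lit 2356) (nat_lit 0) xc288 xc289) (XT.nd (nat_lit 2574) (nat_lit 228) (nat_lit 0) xc290 xc291)) (XT.nd (nat_lit 5148) (nat_lit 1900) (nat_lit 0) (XT.nd (nat_lit 2574) (nat_lit 2204) (nat_lit 0) xc292 xc293) (XT.nd (nat_lit 2574) (nat_lit 152) (nat_lit 0) xc294 xc295))) (XT.nd (nat_lit 62712) (nat_lit 0) (nat_lit 0) (XT.nd (nat_lit 5070) (nat_lit 1824) (nat_lit 0) (XT.nd (nat_lit 2496) (nat_lit 2204) (nat_lit 0) xc296 xc297) (XT.nd (nat_lit 2574) (nat_lit 76) (nat_lit 0) xc298 xc299)) (XT.nd (nat_lit 5148) (nat_lit 1596) (nat_lit 0) (XT.nd (nat_lit 2574) (nat_lit 2204) (nat_lit 0) xc300 xc301) (XT.nd (nat_lit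 55146) (nat_lit 0) (nat_lit 6764) xc302 xc303)))) (XT.nd (nat_lit 125970) (nat_lit 0) (nat_lit 152) (XT.nd (nat_lit 62868) (nat_lit 0) (nat_lit 0) (XT.nd (nat_lit 5070) (nat_lit 1368) (nat_lit 0) (XT.nd (nat_lit 2496) (nat_lit 2128) (nat_lit 0) xc304 xc305) (XT.nd (nat_lit 55224) (nat_lit 0) (nat_lit 6080) xc306 xc307)) (XT.nd (nat_lit 5148) (nat_lit 1064) (nat_lit 0) (XT.nd (nat_lit 2574) (nat_lit 2128) (nat_lit 0) xc308 xc309) (XT.nd (nat_lit 55380) (nat_lit 0) (nat_lit 5320) xc310 xc311))) (XT.nd (nat_lit 63102) (nat_lit 0) (nat_lit 0) (XT.nd (nat_lit 5070) (nat_lit 532) (nat_lit 0) (XT.nd (nat_lit 2496) (nat_lit 2052) (nat_lit 0) xc312 xc313) (XT.nd (nat_lit 55458) (nat_lit 0) (nat_lit 4560) xc314 xc315)) (XT.nd (nat_lit 5148) (nat_lit 152) (nat_lit 0) (XT.nd (nat_lit 2574) (nat_lit 1900) (nat_lit 0) xc316 xc317) (XT.nd (nat_lit 55536) (nat_lit 0) (nat_lit 3724) xc318 xc319)))))) (XT.nd (nat_lit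 562536) (nat_lit 0) (nat_lit 532) (XT.nd (nat_lit 253656) (nat_lit 0) (nat_lit 228) (XT.nd (nat_lit 126672) (nat_lit 0) (nat_lit 76) (XT.nd (nat_lit 63258) (nat_lit 0) (nat_lit 76) (XT.nd (nat_lit 58110) (nat_lit 0) (nat_lit 3040) (XT.nd (nat_lit 2496) (nat_lit 1596) (nat_lit 0) xc320 xc321) (XT.nd (nat_lit 2574) (nat_lit 3040) (nat_lit 0) xc322 xc323)) (XT.nd (nat_lit 58266) (nat_lit 0) (nat_lit 2280) (XT.nd (nat_lit 2574) (nat_lit 836) (nat_lit 0) xc324 xc325) (XT.nd (nat_lit 2574) (nat_lit 2508) (nat_lit 0) xc326 xc327))) (XT.nd (nat_lit 63414) (nat_lit 0) (nat_lit 76) (XT.nd (nat_lit 58266) (nat_lit 0) (nat_lit 1520) (XT.nd (nat_lit 2496) (nat_lit 380) (nat_lit 0) xc328 xc329) (XT.nd (nat_lit 2574) (nat_lit 2204) (nat_lit 0) xc330 xc331)) (XT.nd (nat_lit 58422) (nat_lit 0) (nat_lit 608) (XT.nd (nat_lit 55848) (nat_lit 0) (nat_lit 5776) xc332 xc333) (XT.nd (nat_lit 2574) (nat_lit 2204) (nat_lit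 0) xc334 xc335)))) (XT.nd (nat_lit 180960) (nat_lit 0) (nat_lit 228) (XT.nd (nat_lit 117078) (nat_lit 0) (nat_lit 76) (XT.nd (nat_lit 58422) (nat_lit 0) (nat_lit 76) (XT.nd (nat_lit 55848) (nat_lit 0) (nat_lit 4332) xc336 xc337) (XT.nd (nat_lit 2574) (nat_lit 1748) (nat_lit 0) xc338 xc339)) (XT.nd (nat_lit 5148) (nat_lit 2964) (nat_lit 0) (XT.nd (nat_lit 2574) (nat_lit 3116) (nat_lit 0) xc340 xc341) (XT.nd (nat_lit 2574) (nat_lit 684) (nat_lit 0) xc342 xc343))) (XT.nd (nat_lit 63882) (nat_lit 0) (nat_lit 0) (XT.nd (nat_lit 5070) (nat_lit 1672) (nat_lit 0) (XT.nd (nat_lit 2496) (nat_lit 2508) (nat_lit 0) xc344 xc345) (XT.nd (nat_lit 56238) (nat_lit 0) (nat_lit 5852) xc346 xc347)) (XT.nd (nat_lit 5148) (nat_lit 532) (nat_lit 0) (XT.nd (nat_lit 2574) (nat_lit 2128) (nat_lit 0) xc348 xc349) (XT.nd (nat_lit 56316) (nat_lit 0) (nat_lit 3800) xc350 xc351))))) (XT.nd (nat_lit 310986) (nat_lit 0) (nat_lit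 228) (XT.nd (nat_lit 128232) (nat_lit 0) (nat_lit 0) (XT.nd (nat_lit 64038) (nat_lit 0) (nat_lit 0) (XT.nd (nat_lit 58890) (nat_lit 0) (nat_lit 2280) (XT.nd (nat_lit 2496) (nat_lit 1368) (nat_lit 0) xc352 xc353) (XT.nd (nat_lit 2574) (nat_lit 2888) (nat_lit 0) xc354 xc355)) (XT.nd (nat_lit 59046) (nat_lit 0) (nat_lit 912) (XT.nd (nat_lit 2574) (nat_lit 152) (nat_lit 0) xc356 xc357) (XT.nd (nat_lit 2574) (nat_lit 2128) (nat_lit 0) xc358 xc359))) (XT.nd (nat_lit 118248) (nat_lit 0) (nat_lit 228) (XT.nd (nat_lit 59046) (nat_lit 0) (nat_lit 152) (XT.nd (nat_lit 56472) (nat_lit 0) (nat_lit 4180) xc360 xc361) (XT.nd (nat_lit 2574) (nat_lit 1520) (nat_lit 0) xc362 xc363)) (XT.nd (nat_lit 5148) (nat_lit 2128) (nat_lit 0) (XT.nd (nat_lit 2574) (nat_lit 2812) (nat_lit 0) xc364 xc365) (XT.nd (nat_lit 56784) (nat_lit 0) (nat_lit 6004) xc366 xc367)))) (XT.nd (nat_lit 129168) (nat_lit 0) (nat_lit 152) (XT.nd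 (nat_lit 64506) (nat_lit 0) (nat_lit 152) (XT.nd (nat_lit 5070) (nat_lit 532) (nat_lit 0) (XT.nd (nat_lit 2496) (nat_lit 2204) (nat_lit 0) xc368 xc369) (XT.nd (nat_lit 56862) (nat_lit 0) (nat_lit 3344) xc370 xc371)) (XT.nd (nat_lit 59514) (nat_lit 0) (nat_lit 1216) (XT.nd (nat_lit 2574) (nat_lit 760) (nat_lit 0) xc372 xc373) (XT.nd (nat_lit 2574) (nat_lit 2508) (nat_lit 0) xc374 xc375))) (XT.nd (nat_lit 119184) (nat_lit 0) (nat_lit 76) (XT.nd (nat_lit 59514) (nat_lit 0) (nat_lit 76) (XT.nd (nat_lit 56940) (nat_lit 0) (nat_lit 4256) xc376 xc377) (XT.nd (nat_lit 2574) (nat_lit 1596) (nat_lit 0) xc378 xc379)) (XT.nd (nat_lit 5148) (nat_lit 1824) (nat_lit 0) (XT.nd (nat_lit 2574) (nat_lit 2888) (nat_lit 0) xc380 xc381) (XT.nd (nat_lit 57174) (nat_lit 0) (nat_lit 4940) xc382 xc383))))))) (XT.nd (nat_lit 1501734) (nat_lit 0) (nat_lit 1824) (XT.nd (nat_lit 688662) (nat_lit 0) (nat_lit 760) (XT.nd (nat_lit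 315432) (nat_lit 0) (nat_lit 304) (XT.nd (nat_lit 184860) (nat_lit 0) (nat_lit 228) (XT.nd (nat_lit 64896) (nat_lit 0) (nat_lit 76) (XT.nd (nat_lit 59748) (nat_lit 0) (nat_lit 2128) (XT.nd (nat_lit 2496) (nat_lit 1900) (nat_lit 0) xc384 xc385) (XT.nd (nat_lit 2574) (nat_lit 3116) (nat_lit 0) xc386 xc387)) (XT.nd (nat_lit 59904) (nat_lit 0) (nat_lit 76) (XT.nd (nat_lit 57330) (nat_lit 0) (nat_lit 5320) xc388 xc389) (XT.nd (nat_lit 2574) (nat_lit 1976) (nat_lit 0) xc390 xc391))) (XT.nd (nat_lit 65208) (nat_lit 0) (nat_lit 76) (XT.nd (nat_lit 5070) (nat_lit 1900) (nat_lit 0) (XT.nd (nat_lit 2496) (nat_lit 3268) (nat_lit 0) xc392 xc393) (XT.nd (nat_lit 57564) (nat_lit 0) (nat_lit 4940) xc394 xc395)) (XT.nd (nat_lit 60216) (nat_lit 0) (nat_lit 1520) (XT.nd (nat_lit 2574) (nat_lit 1672) (nat_lit 0) xc396 xc397) (XT.nd (nat_lit 2574) (nat_lit 2964) (nat_lit 0) xc398 xc399)))) (XT.nd (nat_lit 186186) (nat_lit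 0) (nat_lit 228) (XT.nd (nat_lit 120588) (nat_lit 0) (nat_lit 152) (XT.nd (nat_lit 60216) (nat_lit 0) (nat_lit 152) (XT.nd (nat_lit 57642) (nat_lit 0) (nat_lit 4104) xc400 xc401) (XT.nd (nat_lit 2574) (nat_lit 1140) (nat_lit 0) xc402 xc403)) (XT.nd (nat_lit 5148) (nat_lit 760) (nat_lit 0) (XT.nd (nat_lit 2574) (nat_lit 2660) (nat_lit 0) xc404 xc405) (XT.nd (nat_lit 57876) (nat_lit 0) (nat_lit 2812) xc406 xc407))) (XT.nd (nat_lit 121134) (nat_lit 0) (nat_lit 228) (XT.nd (nat_lit 60450) (nat_lit 0) (nat_lit 152) (XT.nd (nat_lit 2496) (nat_lit 380) (nat_lit 0) xc408 xc409) (XT.nd (nat_lit 2574) (nat_lit 1976) (nat_lit 0) xc410 xc411)) (XT.nd (nat_lit 5148) (nat_lit 1368) (nat_lit 0) (XT.nd (nat_lit 2574) (nat_lit 3116) (nat_lit 0) xc412 xc413) (XT.nd (nat_lit 58188) (nat_lit 0) (nat_lit 3268) xc414 xc415))))) (XT.nd (nat_lit 376506) (nat_lit 0) (nat_lit 456) (XT.nd (nat_lit 187824) (nat_lit 0) (nat_lit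 228) (XT.nd (nat_lit 121680) (nat_lit 0) (nat_lit 152) (XT.nd (nat_lit 60762) (nat_lit 0) (nat_lit 76) (XT.nd (nat_lit 2496) (nat_lit 684) (nat_lit 0) xc416 xc417) (XT.nd (nat_lit 2574) (nat_lit 2280) (nat_lit 0) xc418 xc419)) (XT.nd (nat_lit 5148) (nat_lit 1216) (nat_lit 0) (XT.nd (nat_lit 2574) (nat_lit 3268) (nat_lit 0) xc420 xc421) (XT.nd (nat_lit 58422) (nat_lit 0) (nat_lit 2964) xc422 xc423))) (XT.nd (nat_lit 122226) (nat_lit 0) (nat_lit 228) (XT.nd (nat_lit 60996) (nat_lit 0) (nat_lit 152) (XT.nd (nat_lit 2496) (nat_lit 304) (nat_lit 0) xc424 xc425) (XT.nd (nat_lit 2574) (nat_lit 1520) (nat_lit 0) xc426 xc427)) (XT.nd (nat_lit 5148) (nat_lit 304) (nat_lit 0) (XT.nd (nat_lit 2574) (nat_lit 2736) (nat_lit 0) xc428 xc429) (XT.nd (nat_lit 58734) (nat_lit 0) (nat_lit 1444) xc430 xc431)))) (XT.nd (nat_lit 245934) (nat_lit 0) (nat_lit 380) (XT.nd (nat_lit 122772) (nat_lit 0) (nat_lit 228) (XT.nd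 (nat_lit 61308) (nat_lit 0) (nat_lit 76) (XT.nd (nat_lit 58734) (nat_lit 0) (nat_lit 2964) xc432 xc433) (XT.nd (nat_lit 2574) (nat_lit 152) (nat_lit 0) xc434 xc435)) (XT.nd (nat_lit 61542) (nat_lit 0) (nat_lit 0) (XT.nd (nat_lit 2574) (nat_lit 988) (nat_lit 0) xc436 xc437) (XT.nd (nat_lit 2574) (nat_lit 2128) (nat_lit 0) xc438 xc439))) (XT.nd (nat_lit 66846) (nat_lit 0) (nat_lit 76) (XT.nd (nat_lit 5070) (nat_lit 304) (nat_lit 0) (XT.nd (nat_lit 2496) (nat_lit 3040) (nat_lit 0) xc440 xc441) (XT.nd (nat_lit 59202) (nat_lit 0) (nat_lit 1064) xc442 xc443)) (XT.nd (nat_lit 61854) (nat_lit 0) (nat_lit 76) (XT.nd (nat_lit 59280) (nat_lit 0) (nat_lit 1824) xc444 xc445) (XT.nd (nat_lit 59358) (nat_lit 0) (nat_lit 2508) xc446 xc447)))))) (XT.nd (nat_lit 1061736) (nat_lit 0) (nat_lit 1672) (XT.nd (nat_lit 498654) (nat_lit 0) (nat_lit 608) (XT.nd (nat_lit 248586) (nat_lit 0) (nat_lit 304) (XT.nd (nat_lit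 124020) (nat_lit 0) (nat_lit 152) (XT.nd (nat_lit 61932) (nat_lit 0) (nat_lit 76) (XT.nd (nat_lit 59358) (nat_lit 0) (nat_lit 3420) xc448 xc449) (XT.nd (nat_lit 2574) (nat_lit 228) (nat_lit 0) xc450 xc451)) (XT.nd (nat_lit 62244) (nat_lit 0) (nat_lit 152) (XT.nd (nat_lit 2574) (nat_lit 456) (nat_lit 0) xc452 xc453) (XT.nd (nat_lit 2574) (nat_lit 760) (nat_lit 0) xc454 xc455))) (XT.nd (nat_lit 124800) (nat_lit 0) (nat_lit 228) (XT.nd (nat_lit 62322) (nat_lit 0) (nat_lit 76) (XT.nd (nat_lit 2496) (nat_lit 1064) (nat_lit 0) xc456 xc457) (XT.nd (nat_lit 2574) (nat_lit 1216) (nat_lit 0) xc458 xc459)) (XT.nd (nat_lit 62556) (nat_lit 0) (nat_lit 76) (XT.nd (nat_lit 2574) (nat_lit 1140) (nat_lit 0) xc460 xc461) (XT.nd (nat_lit 2574) (nat_lit 1064) (nat_lit 0) xc462 xc463)))) (XT.nd (nat_lit 251550) (nat_lit 0) (nat_lit 532) (XT.nd (nat_lit 125580) (nat_lit 0) (nat_lit 228) (XT.nd (nat_lit 62712) (nat_lit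 0) (nat_lit 152) (XT.nd (nat_lit 2496) (nat_lit 988) (nat_lit 0) xc464 xc465) (XT.nd (nat_lit 2574) (nat_lit 532) (nat_lit 0) xc466 xc467)) (XT.nd (nat_lit 62946) (nat_lit 0) (nat_lit 0) (XT.nd (nat_lit 2574) (nat_lit 0) (nat_lit 0) xc468 xc469) (XT.nd (nat_lit 60450) (nat_lit 0) (nat_lit 2280) xc470 xc471))) (XT.nd (nat_lit 126360) (nat_lit 0) (nat_lit 152) (XT.nd (nat_lit 63102) (nat_lit 0) (nat_lit 0) (XT.nd (nat_lit 60528) (nat_lit 0) (nat_lit 1216) xc472 xc473) (XT.nd (nat_lit 60684) (nat_lit 0) (nat_lit 304) xc474 xc475)) (XT.nd (nat_lit 121602) (nat_lit 0) (nat_lit 304) (XT.nd (nat_lit 60762) (nat_lit 0) (nat_lit 76) xc476 xc477) (XT.nd (nat_lit 2574) (nat_lit 1140) (nat_lit 0) xc478 xc479))))) (XT.nd (nat_lit 749424) (nat_lit 0) (nat_lit 1672) (XT.nd (nat_lit 313950) (nat_lit 0) (nat_lit 532) (XT.nd (nat_lit 185952) (nat_lit 0) (nat_lit 380) (XT.nd (nat_lit 63570) (nat_lit 0) (nat_lit 76)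 (XT.nd (nat_lit 60996) (nat_lit 0) (nat_lit 1900) xc480 xc481) (XT.nd (nat_lit 61152) (nat_lit 0) (nat_lit 152) xc482 xc483)) (XT.nd (nat_lit 63960) (nat_lit 0) (nat_lit 0) (XT.nd (nat_lit 2574) (nat_lit 1748) (nat_lit 0) xc484 xc485) (XT.nd (nat_lit 61464) (nat_lit 0) (nat_lit 1292) xc486 xc487))) (XT.nd (nat_lit 187434) (nat_lit 0) (nat_lit 532) (XT.nd (nat_lit 123084) (nat_lit 0) (nat_lit 228) (XT.nd (nat_lit 61464) (nat_lit 0) (nat_lit 152) xc488 xc489) (XT.nd (nat_lit 61776) (nat_lit 0) (nat_lit 1140) xc490 xc491)) (XT.nd (nat_lit 123786) (nat_lit 0) (nat_lit 228) (XT.nd (nat_lit 61854) (nat_lit 0) (nat_lit 0) xc492 xc493) (XT.nd (nat_lit 62010) (nat_lit 0) (nat_lit 152) xc494 xc495)))) (XT.nd (nat_lit 501072) (nat_lit 0) (nat_lit 1444) (XT.nd (nat_lit 189696) (nat_lit 0) (nat_lit 456) (XT.nd (nat_lit 64818) (nat_lit 0) (nat_lit 76) (XT.nd (nat_lit 62244) (nat_lit 0) (nat_lit 228) xc496 xc497)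 (XT.nd (nat_lit 62400) (nat_lit 0) (nat_lit 152) xc498 xc499)) (XT.nd (nat_lit 185484) (nat_lit 0) (nat_lit 456) (XT.nd (nat_lit 122694) (nat_lit 0) (nat_lit 228) xc500 xc501) (XT.nd (nat_lit 62868) (nat_lit 0) (nat_lit 228) xc502 xc503))) (XT.nd (nat_lit 374790) (nat_lit 0) (nat_lit 1292) (XT.nd (nat_lit 186888) (nat_lit 0) (nat_lit 608) (XT.nd (nat_lit 63024) (nat_lit 0) (nat_lit 76) xc504 xc505) (XT.nd (nat_lit 63414) (nat_lit 0) (nat_lit 0) xc506 xc507)) (XT.nd (nat_lit 250068) (nat_lit 0) (nat_lit 1064) (XT.nd (nat_lit 124800) (nat_lit 0) (nat_lit 684) xc508 xc509) (XT.nd (nat_lit 187356) (nat_lit 0) (nat_lit 912) xc510 xc511))))))))) XT.nil))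

set_option maxRecDepth 10000000 in
noncomputable def Te : XT := XT.nil

set_option maxRecDepth 10000000 in
noncomputable def Tz : ZL := (ZL.cons (nat_lit 76) (nat_lit 6) (nat_lit 587604934973519945594) (ZL.cons (nat_lit 152) (nat_lit 6) (nat_lit 573998286423324635106) (ZL.cons (nat_lit 228) (nat_lit 3) (nat_lit 286658247927769602979) (ZL.cons (nat_lit 304) (nat_lit 6) (nat_lit 559711305445619559092) (ZL.cons (nat_lit 380) (nat_lit 6) (nat_lit 546756970433261196314) (ZL.cons (nat_lit 456) (nat_lit 3) (nat_lit 273053823041494679515) (ZL.cons (nat_lit 532) (nat_lit 6) (nat_lit 533154918670284915398) (ZL.cons (nat_lit 608) (nat_lit 6) (nat_lit 520822283380333122376) (ZL.cons (nat_lit 684) (nat_lit 3) (nat_lit 260101939618608543434) (ZL.cons (nat_lit 760) (nat_lit 6) (nat_lit 507873016325883739702) (ZL.cons (nat_lit 836) (nat_lit 6) (nat_lit 496132970738876937360) (ZL.cons (nat_lit 912) (nat_lit 3)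 (nat_lit 247772007206049880343) (ZL.cons (nat_lit 988) (nat_lit 6) (nat_lit 483805922872519794902) (ZL.cons (nat_lit 1064) (nat_lit 6) (nat_lit 472630793870144842432) (ZL.cons (nat_lit 1140) (nat_lit 3) (nat_lit 236034941541369003752) (ZL.cons (nat_lit 1216) (nat_lit 6) (nat_lit 460896908417651142338) (ZL.cons (nat_lit 1292) (nat_lit 6) (nat_lit 450260396556628040200) (ZL.cons (nat_lit 1368) (nat_lit 3) (nat_lit 224863097903358384420) (ZL.cons (nat_lit 1444) (nat_lit 6) (nat_lit 439092059102553782958) (ZL.cons (nat_lit 1520) (nat_lit 6) (nat_lit 428969178932057034722) (ZL.cons (nat_lit 1596) (nat_lit 3) (nat_lit 214230208156546959570) (ZL.cons (nat_lit 1672) (nat_lit 6) (nat_lit 418340154753035449074) (ZL.cons (nat_lit 1748) (nat_lit 6) (nat_lit 408707178561521090686) (ZL.cons (nat_lit 1824) (nat_lit 3) (nat_lit 204111321366968585543) (ZL.cons (nat_lit 1900) (nat_lit 6) (nat_lit 398592553560431014380)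 (ZL.cons (nat_lit 1976) (nat_lit 6) (nat_lit 389426958448770535726) (ZL.cons (nat_lit 2052) (nat_lit 3) (nat_lit 194482747877916734719) (ZL.cons (nat_lit 2128) (nat_lit 6) (nat_lit 379803083581527033140) (ZL.cons (nat_lit 2204) (nat_lit 6) (nat_lit 371083501770430023488) (ZL.cons (nat_lit 2280) (nat_lit 3) (nat_lit 185322006745721170656) (ZL.cons (nat_lit 2356) (nat_lit 6) (nat_lit 361927940868778163356) (ZL.cons (nat_lit 2432) (nat_lit 6) (nat_lit 353634113159671013136) (ZL.cons (nat_lit 2508) (nat_lit 3) (nat_lit 176607776446984229340) (ZL.cons (nat_lit 2584) (nat_lit 6) (nat_lit 344925594065108505402) (ZL.cons (nat_lit 2660) (nat_lit 6) (nat_lit 337038326384986732208) (ZL.cons (nat_lit 2736) (nat_lit 3) (nat_lit 168319848780254054459) (ZL.cons (nat_lit 2812) (nat_lit 6) (nat_lit 328756695320858870354) (ZL.cons (nat_lit 2888) (nat_lit 6) (nat_lit 321257818293209243906) (ZL.cons (nat_lit 2964)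 (nat_lit 3) (nat_lit 160439085896852896576) (ZL.cons (nat_lit 3040) (nat_lit 6) (nat_lit 313383997414177136134) (ZL.cons (nat_lit 3116) (nat_lit 6) (nat_lit 306256328909940688210) (ZL.cons (nat_lit 3192) (nat_lit 3) (nat_lit 152947380407587748509) (ZL.cons (nat_lit 3268) (nat_lit 6) (nat_lit 298772276980492417892) (ZL.cons (nat_lit 3344) (nat_lit 6) (nat_lit 291999587615283415234) (ZL.cons (nat_lit 3420) (nat_lit 3) (nat_lit 145827618524420188001) (ZL.cons (nat_lit 3496) (nat_lit 6) (nat_lit 284888263781813962442) (ZL.cons (nat_lit 3572) (nat_lit 6) (nat_lit 278455245338301209562) (ZL.cons (nat_lit 3648) (nat_lit 3) (nat_lit 139063646208939633718) (ZL.cons (nat_lit 3724) (nat_lit 6) (nat_lit 271700575972612819038) (ZL.cons (nat_lit 3800) (nat_lit 6) (nat_lit 265592812740192554274) (ZL.cons (nat_lit 3876) (nat_lit 3) (nat_lit 132640238312752495173) (ZL.cons (nat_lit 3952) (nat_lit 6) (nat_lit 259179661346151276272)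 (ZL.cons (nat_lit 4028) (nat_lit 6) (nat_lit 253383604383886548926) (ZL.cons (nat_lit 4104) (nat_lit 3) (nat_lit 126543070708758720211) (ZL.cons (nat_lit 4180) (nat_lit 6) (nat_lit 247297744573508585214) (ZL.cons (nat_lit 4256) (nat_lit 6) (nat_lit 241800688916877070514) (ZL.cons (nat_lit 4332) (nat_lit 3) (nat_lit 120758695426834197874) (ZL.cons (nat_lit 4408) (nat_lit 6) (nat_lit 236028780477413980080) (ZL.cons (nat_lit 4484) (nat_lit 6) (nat_lit 230818845324801875310) (ZL.cons (nat_lit 4560) (nat_lit 3) (nat_lit 115274518822777759196) (ZL.cons (nat_lit 4636) (nat_lit 6) (nat_lit 225348413414559165306) (ZL.cons (nat_lit 4712) (nat_lit 6) (nat_lit 220414525345779691406) (ZL.cons (nat_lit 4788) (nat_lit 3) (nat_lit 110078782825629675741) (ZL.cons (nat_lit 4864) (nat_lit 6) (nat_lit 215233942873561243812) (ZL.cons (nat_lit 4940) (nat_lit 6) (nat_lit 210565822170089370610) (ZL.cons (nat_lit 5016)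 (nat_lit 3) (nat_lit 105160549325749285341) (ZL.cons (nat_lit 5092) (nat_lit 6) (nat_lit 205664295431443903746) (ZL.cons (nat_lit 5168) (nat_lit 6) (nat_lit 201252445586682827128) (ZL.cons (nat_lit 5244) (nat_lit 3) (nat_lit 100509687784488651695) (ZL.cons (nat_lit 5320) (nat_lit 6) (nat_lit 197075044712823052554) (ZL.cons (nat_lit 5396) (nat_lit 6) (nat_lit 196620003249683696682) (ZL.cons (nat_lit 5472) (nat_lit 6) (nat_lit 192455703777564765512) (ZL.cons (nat_lit 5548) (nat_lit 3) (nat_lit 96116866166065466689) (ZL.cons (nat_lit 5624) (nat_lit 6) (nat_lit 188516562153877369568) (ZL.cons (nat_lit 5700) (nat_lit 6) (nat_lit 188083189331839887782) (ZL.cons (nat_lit 5776) (nat_lit 6) (nat_lit 184158492003571771692) (ZL.cons (nat_lit 5852) (nat_lit 3) (nat_lit 91973545313484061020) (ZL.cons (nat_lit 5928) (nat_lit 6) (nat_lit 180450295829878327688) (ZL.cons (nat_lit 6004) (nat_lit 6) (nat_lit 180037559808890249798)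 (ZL.cons (nat_lit 6080) (nat_lit 6) (nat_lit 176345288470896561830) (ZL.cons (nat_lit 6156) (nat_lit 3) (nat_lit 88071976913256066796) (ZL.cons (nat_lit 6232) (nat_lit 6) (nat_lit 172861485490753739836) (ZL.cons (nat_lit 6308) (nat_lit 6) (nat_lit 172468403566003189466) (ZL.cons (nat_lit 6384) (nat_lit 6) (nat_lit 169002157717219348504) (ZL.cons (nat_lit 6460) (nat_lit 3) (nat_lit 84405205218426613186) (ZL.cons (nat_lit 6536) (nat_lit 6) (nat_lit 165736963313853982514) (ZL.cons (nat_lit 6612) (nat_lit 6) (nat_lit 165362599575996315494) (ZL.cons (nat_lit 6688) (nat_lit 6) (nat_lit 162665046083518126338) (ZL.cons (nat_lit 6764) (nat_lit 6) (nat_lit 162116761909954226092) (ZL.cons (nat_lit 6840) (nat_lit 3) (nat_lit 80967072726231340602) (ZL.cons (nat_lit 6916) (nat_lit 6) (nat_lit 159065169253807810334) (ZL.cons (nat_lit 6992) (nat_lit 6) (nat_lit 158708632360610032220) (ZL.cons (nat_lit 7068) (nat_lit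 6) (nat_lit 156200555910756719614) (ZL.cons (nat_lit 7144) (nat_lit 6) (nat_lit 155678380507362528902) (ZL.cons (nat_lit 7220) (nat_lit 3) (nat_lit 77752230035828147838) (ZL.cons (nat_lit 7296) (nat_lit 6) (nat_lit 152836175007355296240) (ZL.cons (nat_lit 7372) (nat_lit 6) (nat_lit 152496616061452650416) (ZL.cons (nat_lit 7448) (nat_lit 6) (nat_lit 150175248704635936062) (ZL.cons (nat_lit 7524) (nat_lit 6) (nat_lit 149677938796641468720) (ZL.cons (nat_lit 7600) (nat_lit 3) (nat_lit 74756150143222528061) (ZL.cons (nat_lit 7676) (nat_lit 6) (nat_lit 147689266060388449892) (ZL.cons (nat_lit 7752) (nat_lit 6) (nat_lit 147041717140877962052) (ZL.cons (nat_lit 7828) (nat_lit 6) (nat_lit 146718327668589727936) (ZL.cons (nat_lit 7904) (nat_lit 6) (nat_lit 144581674375934122070) (ZL.cons (nat_lit 7980) (nat_lit 6) (nat_lit 144108045892129867456) (ZL.cons (nat_lit 8056) (nat_lit 3) (nat_lit 71975147465019022969)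 (ZL.cons (nat_lit 8132) (nat_lit 6) (nat_lit 142291953257131511056) (ZL.cons (nat_lit 8208) (nat_lit 6) (nat_lit 141675240000454855970) (ZL.cons (nat_lit 8284) (nat_lit 6) (nat_lit 141367250026847013954) (ZL.cons (nat_lit 8360) (nat_lit 6) (nat_lit 139414117598584514880) (ZL.cons (nat_lit 8436) (nat_lit 6) (nat_lit 138963042852104272392) (ZL.cons (nat_lit 8512) (nat_lit 3) (nat_lit 69406401920294125947) (ZL.cons (nat_lit 8588) (nat_lit 6) (nat_lit 137319295061752486226) (ZL.cons (nat_lit 8664) (nat_lit 6) (nat_lit 136731949103012814718) (ZL.cons (nat_lit 8740) (nat_lit 6) (nat_lit 136438625318624393748) (ZL.cons (nat_lit 8816) (nat_lit 6) (nat_lit 135385784717252027086) (ZL.cons (nat_lit 8892) (nat_lit 6) (nat_lit 134668656651598613652) (ZL.cons (nat_lit 8968) (nat_lit 6) (nat_lit 134239061654950763662) (ZL.cons (nat_lit 9044) (nat_lit 3) (nat_lit 67047988441039181595) (ZL.cons (nat_lit 9120) (nat_lit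 6) (nat_lit 133608982969024803034) (ZL.cons (nat_lit 9196) (nat_lit 6) (nat_lit 132768252896786873480) (ZL.cons (nat_lit 9272) (nat_lit 6) (nat_lit 132208875793225281564) (ZL.cons (nat_lit 9348) (nat_lit 6) (nat_lit 131929519808093452072) (ZL.cons (nat_lit 9424) (nat_lit 6) (nat_lit 131026213067732804344) (ZL.cons (nat_lit 9500) (nat_lit 6) (nat_lit 130343233957586696308) (ZL.cons (nat_lit 9576) (nat_lit 6) (nat_lit 129934095865541124890) (ZL.cons (nat_lit 9652) (nat_lit 3) (nat_lit 64898912326640847935) (ZL.cons (nat_lit 9728) (nat_lit 6) (nat_lit 129438389450557706076) (ZL.cons (nat_lit 9804) (nat_lit 6) (nat_lit 128637694143664439834) (ZL.cons (nat_lit 9880) (nat_lit 6) (nat_lit 128104954045034352296) (ZL.cons (nat_lit 9956) (nat_lit 6) (nat_lit 127838900725861181350) (ZL.cons (nat_lit 10032) (nat_lit 6) (nat_lit 128001001512839733208) (ZL.cons (nat_lit 10108) (nat_lit 6) (nat_lit 127088195542377744862)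 (ZL.cons (nat_lit 10184) (nat_lit 6) (nat_lit 126437739247000499118) (ZL.cons (nat_lit 10260) (nat_lit 6) (nat_lit 126048083921242812052) (ZL.cons (nat_lit 10336) (nat_lit 3) (nat_lit 62959150907164535063) (ZL.cons (nat_lit 10412) (nat_lit 6) (nat_lit 125691048871342595454) (ZL.cons (nat_lit 10488) (nat_lit 6) (nat_lit 124928481912396627606) (ZL.cons (nat_lit 10564) (nat_lit 6) (nat_lit 124421110389891782334) (ZL.cons (nat_lit 10640) (nat_lit 6) (nat_lit 124167726276393524288) (ZL.cons (nat_lit 10716) (nat_lit 6) (nat_lit 124442927590866050780) (ZL.cons (nat_lit 10792) (nat_lit 6) (nat_lit 123573588571378442832) (ZL.cons (nat_lit 10868) (nat_lit 6) (nat_lit 122954106385304875456) (ZL.cons (nat_lit 10944) (nat_lit 6) (nat_lit 122583006075059459204) (ZL.cons (nat_lit 11020) (nat_lit 3) (nat_lit 61229702034237471542) (ZL.cons (nat_lit 11096) (nat_lit 6) (nat_lit 123340859983613642870) (ZL.cons (nat_lit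 11172) (nat_lit 6) (nat_lit 122369833287419711020) (ZL.cons (nat_lit 11248) (nat_lit 6) (nat_lit 121643579040804503544) (ZL.cons (nat_lit 11324) (nat_lit 6) (nat_lit 121160368066990365188) (ZL.cons (nat_lit 11400) (nat_lit 6) (nat_lit 120919049863658690862) (ZL.cons (nat_lit 11476) (nat_lit 6) (nat_lit 122382222079091913616) (ZL.cons (nat_lit 11552) (nat_lit 6) (nat_lit 121314349976511006620) (ZL.cons (nat_lit 11628) (nat_lit 6) (nat_lit 120486408053189475242) (ZL.cons (nat_lit 11704) (nat_lit 6) (nat_lit 119896425018833696786) (ZL.cons (nat_lit 11780) (nat_lit 6) (nat_lit 119542996151933300356) (ZL.cons (nat_lit 11856) (nat_lit 3) (nat_lit 59712639977593071075) (ZL.cons (nat_lit 11932) (nat_lit 6) (nat_lit 121564731406099620804) (ZL.cons (nat_lit 12008) (nat_lit 6) (nat_lit 120404625583150166048) (ZL.cons (nat_lit 12084) (nat_lit 6) (nat_lit 119479838253441659524) (ZL.cons (nat_lit 12160) (nat_lit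 6) (nat_lit 118788167542379557166) (ZL.cons (nat_lit 12236) (nat_lit 6) (nat_lit 118327966614937520636) (ZL.cons (nat_lit 12312) (nat_lit 6) (nat_lit 118098139754621640326) (ZL.cons (nat_lit 12388) (nat_lit 3) (nat_lit 58954815639000919652) (ZL.cons (nat_lit 12464) (nat_lit 6) (nat_lit 117978457500229926972) (ZL.cons (nat_lit 12540) (nat_lit 6) (nat_lit 118185100038871875900) (ZL.cons (nat_lit 12616) (nat_lit 6) (nat_lit 118530050899972071678) (ZL.cons (nat_lit 12692) (nat_lit 6) (nat_lit 119014131395104562392) (ZL.cons (nat_lit 12768) (nat_lit 6) (nat_lit 119638494096876806356) (ZL.cons (nat_lit 12844) (nat_lit 6) (nat_lit 118621473046799752072) (ZL.cons (nat_lit 12920) (nat_lit 6) (nat_lit 117832956929350674568) (ZL.cons (nat_lit 12996) (nat_lit 6) (nat_lit 117271068325202314136) (ZL.cons (nat_lit 13072) (nat_lit 6) (nat_lit 116934469404344793726) (ZL.cons (nat_lit 13148) (nat_lit 3) (nat_lit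 58411179370388035811) (ZL.cons (nat_lit 13224) (nat_lit 6) (nat_lit 116493286487343670884) (ZL.cons (nat_lit 13300) (nat_lit 6) (nat_lit 116634380242911250604) (ZL.cons (nat_lit 13376) (nat_lit 6) (nat_lit 116916903691559666186) (ZL.cons (nat_lit 13452) (nat_lit 6) (nat_lit 117341529508166651950) (ZL.cons (nat_lit 13528) (nat_lit 6) (nat_lit 117909268706581272150) (ZL.cons (nat_lit 13604) (nat_lit 6) (nat_lit 117028518868763646886) (ZL.cons (nat_lit 13680) (nat_lit 6) (nat_lit 116369784858228311308) (ZL.cons (nat_lit 13756) (nat_lit 6) (nat_lit 115931498260664466996) (ZL.cons (nat_lit 13832) (nat_lit 6) (nat_lit 115712615536554104792) (ZL.cons (nat_lit 13908) (nat_lit 3) (nat_lit 57606606454472465742) (ZL.cons (nat_lit 13984) (nat_lit 6) (nat_lit 115285480442284423536) (ZL.cons (nat_lit 14060) (nat_lit 6) (nat_lit 115502455107858469910) (ZL.cons (nat_lit 14136) (nat_lit 6) (nat_lit 115864653512013675478)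 (ZL.cons (nat_lit 14212) (nat_lit 6) (nat_lit 116372938031902790728) (ZL.cons (nat_lit 14288) (nat_lit 6) (nat_lit 115621970300998907390) (ZL.cons (nat_lit 14364) (nat_lit 6) (nat_lit 115086838297048087932) (ZL.cons (nat_lit 14440) (nat_lit 6) (nat_lit 114766267896231401826) (ZL.cons (nat_lit 14516) (nat_lit 3) (nat_lit 57329747917844880863) (ZL.cons (nat_lit 14592) (nat_lit 6) (nat_lit 114135188970799426062) (ZL.cons (nat_lit 14668) (nat_lit 6) (nat_lit 114283337414145384768) (ZL.cons (nat_lit 14744) (nat_lit 6) (nat_lit 114579987035226221128) (ZL.cons (nat_lit 14820) (nat_lit 6) (nat_lit 115025844142663556182) (ZL.cons (nat_lit 14896) (nat_lit 6) (nat_lit 114398478418344188964) (ZL.cons (nat_lit 14972) (nat_lit 6) (nat_lit 113981062611140527712) (ZL.cons (nat_lit 15048) (nat_lit 6) (nat_lit 113772602873892563710) (ZL.cons (nat_lit 15124) (nat_lit 3) (nat_lit 56590383519619218380) (ZL.cons (nat_lit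 15200) (nat_lit 6) (nat_lit 113256647949244903414) (ZL.cons (nat_lit 15276) (nat_lit 6) (nat_lit 113484471348097652106) (ZL.cons (nat_lit 15352) (nat_lit 6) (nat_lit 113864779672460617952) (ZL.cons (nat_lit 15428) (nat_lit 6) (nat_lit 113355130144888408940) (ZL.cons (nat_lit 15504) (nat_lit 6) (nat_lit 113049825001253469792) (ZL.cons (nat_lit 15580) (nat_lit 3) (nat_lit 56474068662273572945) (ZL.cons (nat_lit 15656) (nat_lit 6) (nat_lit 112419942214431072318) (ZL.cons (nat_lit 15732) (nat_lit 6) (nat_lit 112575498079944328958) (ZL.cons (nat_lit 15808) (nat_lit 6) (nat_lit 112886980182079207136) (ZL.cons (nat_lit 15884) (nat_lit 6) (nat_lit 112489441318075720228) (ZL.cons (nat_lit 15960) (nat_lit 6) (nat_lit 112290908234982421180) (ZL.cons (nat_lit 16036) (nat_lit 3) (nat_lit 55885614026596214990) (ZL.cons (nat_lit 16112) (nat_lit 6) (nat_lit 111850903008699219966) (ZL.cons (nat_lit 16188) (nat_lit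 6) (nat_lit 112090117577494606092) (ZL.cons (nat_lit 16264) (nat_lit 6) (nat_lit 111799350774032759284) (ZL.cons (nat_lit 16340) (nat_lit 3) (nat_lit 55851252683822892069) (ZL.cons (nat_lit 16416) (nat_lit 6) (nat_lit 111308960908002217728) (ZL.cons (nat_lit 16492) (nat_lit 6) (nat_lit 111472294566791137200) (ZL.cons (nat_lit 16568) (nat_lit 6) (nat_lit 111283215440035614294) (ZL.cons (nat_lit 16644) (nat_lit 3) (nat_lit 55474190719759164689) (ZL.cons (nat_lit 16720) (nat_lit 6) (nat_lit 111032040142800458864) (ZL.cons (nat_lit 16796) (nat_lit 3) (nat_lit 55469903211215955552) (ZL.cons (nat_lit 16872) (nat_lit 6) (nat_lit 110768306080703545660) (ZL.cons (nat_lit 16948) (nat_lit 1) (nat_lit 18446744073709551617) ZL.nil)))))))))))))))))))))))))))))))))))))))))))))))))))))))))))))))))))))))))))))))))))))))))))))))))))))))))))))))))))))))))))))))))))))))))))))))))))))))))))))))))))))))))))))))))))))))))))))))))))))))))))))))))))))))))))))))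

noncomputable def vl : XL := ⟨(nat_lit 0), (nat_lit 76), (nat_lit 91225250), (nat_lit 228), (nat_lit 20291461), (nat_lit 76), (nat_lit 91225250), (nat_lit 1), (nat_lit 5), (nat_lit 3), (nat_lit 4), (nat_lit 1), (nat_lit 4), (nat_lit 0), (nat_lit 0), (nat_lit 0)⟩

noncomputable def cp0 : Nat := (nat_lit 4361078916508435287872804995835056524131604371409190592677955910170553637033244705458278941845856150133063200490892449683171382608588007997110671273385342214017085433992992649764645532688010945912482511464077853834412338423701115218320140730585827353974370592138760853930702819101223299837562920441427848324284114433253629122259280250124059659181634075790241306631796034798555540807178317259493681888846346695948636858855724496667682356975365554550101772321537970398919525172545036905797401020827995344134031121775302066749871967469636941721117719053120645127687286317886682935031753324022509239608210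7226447791127829796917427159099089013204797677173286092070328032368758803339398328422979273921440225286339533922150615732556734093464925914935003815850402444876988320498971948273768045349641859011514471169071190204474243342392895953668293632006303498420833798712889805816596747360893046532811553368270936209345551490398785974227562580580074072707595971440150070289044266035505443469583027945722473528955113381918800669945829610469877414548450323080154568112718693181035244433437333524373605333403743748744599455201661800991291701158548549553299883230450674928835215541337061287981724829560895753354133346273499660106940793636526507756923224529371920180790596257315497708138618575558528564275039967852161865678753802153173544458996976940922190214085280151592972257371576204782145755837169984652327597839005461775287015746399216572391514423964048052427456803885488890421091968786083616578091029454307643331805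5749510584786395940711584467627664823602049892783434505657615497684843749104555829057174559040740844362919785346710160759723473436299640418028834528889154733787638260870538831720845622748738968434998852248012711073817116056619830365847664512639587782641436060292586154428731788184041266518343384635829400986240684357019870493828848906715400888885298687764646207853365935540732114185230029120594169508540590096899328853158363267173407056046311559496349668985396080334864229764184581164242421260524490439308497456816299862535827151673458165087047317102777896931137167092045683820551151387447322435485745876367601421656212420945095099592317704170748332932437297516590331620548291217681588033312500282754529081547839895075009608960538798887647004446098292130948004602290889303393481224050268995096422220235711738863769944306075445294921430198142465373384430139568357114452018554886265080980328636956223855063773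9058526383447156726240917528075049723309092955204973242043127859764253203527745384188291633276197080813887283962263111517657209498862877140316126152716753658798311098967304749176979078293518066552271186255227260476045987267108815332129337727851738358921746896963492945112620619675078804851054593412552750595480642879111052714210770343537199683564409114978258490063313793276180272345927270690000384186048697790861614394697137295272299359186587324047074282473643122935166120247709073781050254442654366155797110476528300146463790646022162200776411404203423122921625317223754868475807660610323251728111033232591369342849583339453053807307403530786051576416739287542038298265273315533676939069194075773471049856593027730659197104332842483099843128171445812378783002815890135062168313326331249416366233032788958093287609466822556902151662061904587585265112316553491017738264759985461696470610016669825694851922652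8064089944720473154983635833542617618083931329801276661942769975010041035010685987952581910768109656577607600652324743278080105049563563308938351389474447155970718507476070184157594602600480725555502606302098242998143451055666691025170177708227172682485910996798026970303102549998377707843519129191040269195684858290184331615794318869768334719158552318990880649377009911643878483356725004903878158388576333670995314146476505165806790285233412627675947043848462735293478643362402322305363265723750456324724388273994079190226479416320533501395408627912473825185120741726827033667281234873551352195461227519881036900456706724076071366523821620507740174981554476730628411763954123294254165464356430268525647207828736813321930699144067692938959245623690822830319354613591999538918989556056532957868323373782212338775700147476845303709737168149374243339488438976907717774643426926497353621706473162629810196372739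6021493752321059042921354424231577592666437978379392256553421976761111442465476990231424552722316933549950760889486628563714405935779943374084861878219230046859844134190965749247558084182255881910311271852744596552290117446729237082989296362191794750187989628770923883800170191837338557112949059737951891408835757811103740129654110805298770635907166408144942028526386600172132355579149590044019864733520056792291682752247083513642070718541751418961087154019644983019673063957369542408499223151315332555034927442520768162686988381288230964386432716789158621172611246259016195629961404803059044099267658722654465110169922166873026796963041961250342385717025625374343678538316064727458908355468443188500832806194896508071354014939098698621356540237808381914163007476106545646316347770725497851237837172068977576343911043733234566763689965336809783260344550479865320850455889027538156850035818496)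

noncomputable def cp1 : Nat := (nat_lit 4978666800606604927774212500200253043277796227096737043879602673343879348833638425282151669450852611153606392011977530149144556030176480878098385805855628854521068485762183543831680166748193184603295328871624285192625986851657677989099280077961735747430535396843531657073648680817530874218034224952670995021329076068141292785261779339825013866729175363577003587781977093608483873573239452522702899197025125166837397562024206048719390114166794897058236341565479787005427190689657538349601851071195501100271263697933883173151009328374365909766102468305342406606003144103227606424586739804844337962332802348711373953906455566721531426606126145220060868867241367105709055192752379276747258971040708540724595947129989113054612286547104630182444846821692533074749326278568007419784206686086525169371712579210885223284680040513382437021755557007915270606849421827820337490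6517593257540382073880811357646317863492729454252897498605923484098751190190102842108103739592772181948283330571572016842051635948031945941275845892997043244223972934609529944180481284259822540998860297737240597295432444296996935689456590888878519529426220546343752362613255390602176744437364787823273631139397970054231612314872487947461538051038483575609132220703573520167513764301742413689223133059809760291034572517478784883241154577887855976978632726182997441597052853697758536710499958432938427763556794953926648501123381237907734221856234422759799964535127480552692823105666289408167720944973735488692089650611517830040447163631288284116062220841564962146296728073740114243029971345649662369902915930554060780686918562236489265091133596779541515123879821835153840706187413767512288157993911552566081502528491125031924184619745581280620304121247724529382998191585011094911311415930907653230355031380453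6536410157767896672310747130654573568786712379218251372748748624232220635917797834017851579919916104409270697240107623061607822510879055084554688617016632079498856256214627428328578948642418266063232967411070368316084300920853116547927491024744938925261535004931099834252341393407939669983413992872281099192469066954433131215504993112582519768823335315646738117094228160929901141712142235061246821519487833824144319625678044055580088591685004308135714873930164092118673345633905222177880075158429794703860046991375903449490501140281519503846581076133189894140678571694302117998919661074535691994850798984715529426952346296513434082921195408020236816007573685938467378717102344815658395645365766274961215840293383667883742547388809661070421054016926785769131291328494751367957976326693648172762773385480834721360799110655273816765764560843310711565713052066873240198838310664362298795699107498096883181751583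0849829499975777508207878088846148904542999282244393717271601894988464170026836411754214414807749716252585847861800695366560103045312854381537060838331678693965814916487429786855655926517688271434063202660718452467496990042163797865006917743044833588644483375493938123342622586968975728861806338134963525070829656635978242506488307245794135985000905936028439643349259770856673209815944682312960138463167743632104049696278874114207097248310792754147135819901383736094953237082991114370233400437791475444553143621273506704929943772713080946593292733647024242898377924096048260052119092147411580272495626304907284102016790499802646880593240458319389451837664493471405479910270270196689942509503573051408090269923141709691025878605914329707483073837969231205409439537032810669728043914494219243271499563834752443533066217802858835206189779403753208551893259693772313725190061122845058160201909725279554796983691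4470143989018729006261431026102174078637797717234606238855552697644001864087826375669801314632023447746864561870415874202309039818617894938834464846369532803427941338802860966423057540501743091541418773853709595890881411609034339419221407490008433793885217262277627094318170710059797659285285346084053806033416369847662676262874772616972027785535927011296539000493088403524576632269413541324188803934757382527179114413685973693180787333798404533318442950414322875442620719644837723059592576043043212106731772480802096389410822774586511199066966452862995466055694044595817046811054407215882977816776424678768509400136784797823353185595214202979567860104188593266739216692420729711676977192627321575818643583034126541018086075896279474141443697485957478154586437813768554471391614604395342534567170578000104059428884590871989359604277336720820522494279686353511634177526599575891861477018553001233853836633639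8330165557805251006116218064393812708145937172916368898947405821937722787254648783118654841448256180117873516186125848904062454092393398458410097632765402926178931746295472763702950809628340011073732086663078354547763706994256790938231146338922627139520851027378704164680829864635338897309672191305201160580013230881279239796405698200299463605007307618108433053577214876077658069702077957904958056267234274513746217465085593399139452354006817034581453565134904588293904220570679542487556189005224356455267851165920453535680382066431265266285257561342048509063653830153815756695365157468359234297024132200087611609423266606743552)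

noncomputable def rc0 : Nat := (nat_lit 4340712652162598061907405129448314673276391551797741379712209419576334189773189681574987473680071524683453143939316497521289087121567855548852509783436729253314768506791664215430535840334396489715464465217858684010326160886781030894192223476621311187848831798505573189398431023311161037795664409797207533190942874022536765707618261098022449296674998626545418372757103683815503202086475005060803051385997065809444935007023773024441817997493306748579672047911681337663714963497838548201498864911289093731298519955784189519266265185667074869643016704975395534134093235120847262313772963470927570615365347265040307862686320798729813642344175559426523110471888561775000086452306149099153301553133964322869497855372815438276017743720122507879115699381931248284611560762505014150789283532159122958178961543845486398647778737347537963176500666022088580372569438802519313479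3385230874260638959032976800271290923755474312735859148479057051176023207501396213518289637497198148570462136749464221752157282408938612064345272627578690557502466881073778453460599488189440610997897624411866671368136484583275460193048014894176809183267335822919694931459919992087082792641904599458068803546427758309066219763964117669012148591776280723391402330378773525118926986272710799304657104568494485311879162265574634009908880413209979416381812901922886269087140089807171792559548273885370582950860773850619162150555391746125522967568007725662823271778519930882182518301755499875475505789669700268130490374353123116219584595771511965018422212521974246714339345572003405128634731135116227076048497010692691654618326792910609593235840541525475927708513646843556786245501929637429618679653370369532680476870634309221834684123104780465546065288090722737170838692155017520904617580491900560975285101247046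0300492174020141621989848331658022302460961320822340165796428999536395091618469400602540805403822258927047264261787948459608857026921731427132961495787062446025192328074817170147517934289479769477098088308673031831108030261613791217162323583913878753334658244742936585523549173532063558724226995952901475447404518482943317075150517294042013783111030660548534147631533077754321300543755767907447054094991070336561297968270616245864396782854640811228118428678474013097003912287485133444971210894006540681112561203032797605604573022734831202840426023518382187121263708637008603813313162585789648379106599885480189355469321782763637622858336123077076453658512600222199233829797754497318404777126736729031501457717261988247247529104586020952384302434081488710574314550811485988838646780812314278373762646596656198932135398299779129144028095631444764495162327422197689091755915108589359820697471599321639183517034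6201773877945020136938141505479973316876369467525541064607548257009845141314659817948542658527273595767385416190374499552866268779790215723971421188111336929882611926529550544455357554760835013615771224337231087546537834090394094807131606547277132806303207588786420890253864227487426500938705188810295881877695169902983519261379557452800826674374359315066463094711759815234121586092993650796195174352715398155492670061036752873773267030619770099413618160586460338241297423119663011305414642811810277443883615646848320106098580764322267949803213373725502156261697407088928041391296208895371417919787452368968530054476730223089395654034575882700499909123614010388537972825260762370488088942707403553478850308378288985368146031835616167386259638611955135000576412939337494492413718773438660174269479591791489579314467444069562394072605840575539429154688530101119410319163574546084709645421435131113369733107567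5354231302477446443183242798938811822760286589802644987694943443074628636618541056626409406389426364694746075918325291241799970898709784643618305217436421759564946471830806429195708713905289001577119450749217578128270128055924079676228683260286665055326832526152023688458846744242513829301279612560226586993210627775538310111816033212366981658025224635358023155174123839661410908375219207755607328625451789760981398721665319361884972221009589954488607979806645328728260254462335931326738908789850154303574377952849564801689712224705305836761778702393512023449341580205403190877458010675868131022781689986428670159134037284982546605741903482341975936663011818984797498861508398469860392046303861319354744909251912848789172209967908439017678490821079050410929594943002528356550910530008393010332866347093429313268523063720765901687860360015358695137754743601074907096842571670300997252498138251634060397221889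1597453728527820601121709593868866054697931227335132100378830306220024308117863254230794385680636924518794299958890187512391669401650063784884124034698729976358629998904975678570101294853096423721965091893444026595870860107021742672932546338208481864673093870618877333053080333665746152749716985658711171428213361835225661784021251508132577376163770642998519253258985590429445936846924124337703319385273877546754842317687374631800767431002143351552074215885659933684637106232951668638026391560436107130828766036949791916528275103332877138542160382318807360369874076788083607220297877683931040146414730458049594162686965485404160)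

noncomputable def rc1 : Nat := (nat_lit 4409801684784231146334102414680187939140920218541275064002443468109416549144175619553102725703029653850926427455428806089479093830222189028080447536143203167417714517983769802274737608602731966736062787953891115921649129550803008693993121209344341568118528956110784932211928667096188917855953197932515152246400819325479690735964884708008223834929471451035103394598943328795487731081605110622464362269443928369958012919573377272506782355499853436530544372851487301955640335602543769766856164448840934984643751376500278548218929741273300225634771689022608027507117236006847321953211711544851684915830864118611429721987771264694860860263691307516558284130827474615781485761502212118747722411463083215623715834143178738826943867611444949228859015785569901047336310323519509651841201574794729659486498192957449249700581164758292613966282812512812666462915290369921138450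5670831515111139882852085993856489764878582425895912645376407542394005850505004520132502171952334627217908655613217739945755022389411714605901005170969829386251806926865896890339033292617732553378815743875359136613551731160315515033541237829963664855269712759043433273201024867154915143677741565758471228629607678465796183430541849232523124888839556240589377881978603467091614572427196886227598407672812816191163463727723544358429348591296221421788681352270112944153273436885096249948269074865999785257426434913314582824446158848059456012452975784397729643554173795221645056083986040118922504445222845838735538146606479483106510679504936964149470206463448909434622546342151878086062359736744227209013213633715406546184039904369451326785179811634366696571012174399141025925738286618611907093260923346481690452787047300096543223938424458349938544961225146165306062079057359761435491657875685341709977167358492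4858640126199898946923543683430162543525338779547884656722585798820148859712444653787095986340315660970394578861932560625827021635300250974552958627846074684287586754489686927528465545580107178563823259071087706650651200521361029198361304741604145600025001670853977405905475011796862756365272040700841970102545614698375277695960601134124063073549283496970922949352666766111945421209813908916739053341812455504847278920311889697597013343102487708595644577529812010424040991853376707632600562744985884971545675311090274436409444012124872990546669823658089612744518112015843802523011922868890184190092918605173476228523510628848325935096861497386306164303325511754592574198723008916254624838595071841736645271567422071700276266203135246321142047474670389676152138951751965674363921318783199896908441840588464982973262246508036167659166321973728743021882148063345312776155082129159300562293694086635685909934518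9125380374235064824871919978553882071312694177807332630400120632841422669271709079274777931376142851764013527998043618423980236362575672185580386649057362988110649352242133069982026078202827417952370297626654550290542033002843841714139490363004889703873257380635454532806497144428186926302654438866733713243201485315635261087450407003949141337900056677595237372849887924914348576420239012157532361455392811849076980234747359009237328794150828477562652856933513987524041635733953112830685854986609693488003729205773568530007678843595436778021466431246644387075325408527015447668437623073793821099193476329862009585009822433068993512532858718194625674275753513480410202354768662982585172178868286439934498952155428338706067970729253069882798017619537329736824767567379963490368495065101176021336723210536730219589084472787073043574560615287739257999879653149981387082327297592542593596385813896489094022819053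7282845454326261841509587807190460295515284911409346127628630722293002400940661784415319603819820512553251218425947841861540442392547045463984129227312345603378074528290780259403660718197743380678782545243331876285058612038707674416131751756298573191961922387871198889924683182360369516248343579314392696611129769107184663018299266863474179747021226129830215442138897672218482644918940466134252151624799147400253429974699455616010284388562146942109730839868636374014289461086113194385685595861230453019615598921469154758404966158130785532004899924692300598915502419821642656370329695105057171694438688530365287753593148319545247808746118831431761561177729538653216838745398988467300590767427009054940133004487855703193127685780034549485039938585901746625735393829532100795957089723133237644713660283410028190588982397323242592398456597118471094938426889088915533205784930506027772281714088218361365306935716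2496652138367100892761316091715850504862656009396128665539465396737254857553168910516631955132265122393437750403742169599249155829724911652121276866574912590733841038346173184921380848060943296726300981618881626938435506623419554044309458082387537801949886835168958848295987196636214956359099127880047294295140276542729241104215489376387757480301365998878009194633203548482790092110821773829912061045135663059752354148935787415579287785758779073722894533246676780402821005911451569436171373897344561119876777274929720014447354297956361533289608834162368923172964552927594168813343618686647602997040540651330487667714435502309376)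

noncomputable def rc2 : Nat := (nat_lit 4486817439652474670435890054707700017259108579682222811084995789594347732379434575422999426462865196286057668541189825740502007054858856815363576595171476126680431321933317115494208544189299409655048285341689090368364770190788095722159639824488562809833713924495225784272538340674228633557944028552841874882346387803202329186074969177279185586171937660197489996901021803820373701170546218994312289629266512733628961247573044848071205694296046375010489893489550997695486961672711231919251465080847834545556762697971972860220440277036595513902146249409364669661160336083735516602795202493509763523723041508854086689927359646270757104425063357997527828141311147925404742447762457755383294921437346952913531933224056830413949874525076254951803048764133600385805447963792117882025835326607723542929579595080926349696572389723945222290243622113433133479111006933908406109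7943101749929703916624454531522355676675525469035315541968509330934318253994993712829156237793123702251440850392986020160951155357385553580737418184934842109781164599475431425900981588521566434868754308045587768488003090173101264687064630676650770031567533350287183987281838547329995200180934709810995791774134707828959825223587700294099887182348922469259397322448568781247185298136834151538472332594343168826360283925518065180569229782749335034543831268664319633824347223727327092939356004584321421087600834522698703773984791051978936167627517162217232932513615288234923167403465876910721884740733628244573608899859892869743534405307770437149247216171769174281890126055178525392865934636015166913831536785941924211729478794233167297428026214262034105701784659607605129252851790817270009769067247542219510277522473266167216654464654813729823514920401854396434561789298647146115168696204574317632822522734985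1380933263767106893877012663111789365725841140259759521678763803598719751225936629629921097852796168180255849767384997097352876584429991510250532599017021516711565234596979993836838526314379362033270967549114670180837192682601148491177695913847175370439732131070855543530892457286416426332875796044018528141287020097455136538186983173806914507373237495405929065742404599195930407350371567713133499239826788071184359502538164924124084804782198746930307305276597813808648439340961126069063125652705427772414035866901735006332973011363100076157934774079695671107956244540539247074519010527482527050562444768634590644529769629299346591810355288310954578251689552109646644530356447752603790926241857481018100206781960242744129634297094041988214508305623032429521360288792714507509004964510121317793039313115595780874156406467406781924851529008935744642211534800610947258120767100624317852172174094082030367389769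1888011076232512072444479701082715227172045014566795048198726402200707761479749018289722793302332037096604706683874364633605876655660690977662543531542869482952310957445424506763034865157420323281132597210776700493525842489428649268945800526032943656633678211258831178385876534041853240634245560286265322963292307986337314721718033169138754436531862064282109145280971326562590003332182550198816298263770199128597019981462529113127900577182267318840226429638283279895422494615867075565991370815934993641297126285004962815758637485042270093014290872153156723136510199773846302578797152717824622994145121971504577788209407537285203341961533916984187904163680364178853647194998504720318338846535656557506673543119476116048451324827715645538057752992781730273553477721041152080529931759333377415950297711670759458380445824300324917660865249356489517853959606894786114263538466334768017168970168721097652534519586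7588125279245133428653319206302398830732600399185586660208706755812907270560729867353823060783144390810073075179209222884492881171916968255153743615036904297243640101203098279021818736217364363928100113045063874371145407103931071339178921185128159279973005863829988166602959895365603248403095387507693098566411236630783740218463472314042490081798300346183806717585259245060189758078869276503852189036909844330292149132010883532438307534207439512310118024547984165612301817116889362166257651955137279597187417801442949183405826902474535331028128594701314708280691970947506023698898501312759722723326297317075429038311958623243960034734587097547446856421831659397037233672224432040553062827026931937860801807604858200694799477496976664837341519274130486395128995015863631680188532675090217939381760086034729386285274064667310556148412585225841747378748900728639626440326448325332906618304079280575764979498465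0791166208338815747533881970619492653137692691999063854270113895167191997093390681589680241975684869661201507930124440038629655925317534541909094612362542419568457403793093732809386422986889422235047055767063166745117970407296899774809992089787404091272743824738386478982642361044509205525331147388149599549808390540617933578185550405079143763883438458396729563363616007296362488295154376251005021661781340823398753477560623017984542947721583798038649458798858917640237165066274472170863712566507790621400260105408363348054673921851964072837620184667546490308213170667266029435342651607084018845634734437274162557919680316571648)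

noncomputable def rc3 : Nat := (nat_lit 4571760176780946560737625678886567656569416339803056321769614310571457340008035421782362672376734968938384944670195423401576351356243333844117407429765238528569550711623370585597911726708040632822776307551490152115383945923602548106504709721283257179978246828057633044707869016710331616087541661981789796645085919002136146193440101196787648476200004159245092981273943704111383744929828246717873507637116029330900149069901301838008726043526875902223001216420345598090109026207010190763596740165427035733004166766679273877996394205805365430864338288536971108384639845191652484094449167774604804898932131379486255535938862706407088563548782724566824284445730351692403501214645659909671573799379583285315224170316333101091715878841726682192445967274941472157397085462760624813425259336519567936523892872466237906121755727819840293237269588273822076136576423634556846274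2058555196281867703658195399585056595268533740227396352690536359118185299074472056128954787740675297737440750966915919558602803331499690737232933505060498180326795760186489179976113644470518884157558792413796863125658678559291158490283761960844150779337597788124733480974555059263066651354786669584114133249654632430199974800302203226827809269286532748314014981602431980315854596608242607665805845345851583977053512712558884223014407319265570596714914767512969388354411539091038203207822745977783214835966777998985927485970447589443345718589865271473957404232542372046413188973764573977824942362763807428533857341505712499727143503299073335992290908441295161939597274671567835717428271971730298376810120061766502519451187117108157283421854892923491929428674061201065164767569686004144145897941614640831213798353755347490894059932803943474575686006606033503564686406454463755439022411236872944109445983610757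7519726546598391818524838843687033679668037021307627437329233388717031274904049961496997162313823354194028438233486406926878013411757572451353937088619678380264612188034349800577378368377263765474069097744013189968261557736141723924239038656474201231571951633407983221767441421966870134208052370254715906692008324064978624310259143994124833154061830883156688792372828095860498069071540265722226884082719122475689308732596942445744304510739176873608227402046650860642663852954032227456150331131016356497243152716440260174633671736612226252196108627523360194315490793593952376804122629863540142468990812769259167203039802820197875644327722976324171950021663260457944572784647885866604548050550234388074350757812500769789038362970945510048798925918418190722247743869741287855463024953129573667813201241991571246218238401413374761275469227393655448123368870693759843011257116267567497238685721307923393592631471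2136585015769320328303735958830031454006724286471813067764426040989568071853504484441917687926455277606684857286167700293832971979405909887464611731380792436821256298767754736716965565799388806214171253435102957552766545627915695033056027037131579715269666664160416166966757670178775702287176628118129506762871167810269738230603009837566850123629414744454443361561600496720202412268483516251501667460362507706998929355302754968709878456925095016416424208575111098281035452654678199810522784825183570528163691785821645693176936350208260112790984950268592354354295427742792245974248599588164295579075001875489375167369646741507331559634735506269873328349492762301962661762371006463695356418257682994432364790192017696017248826404504973603817589019216226437681952933375027383817454825328056519856374900994674823606065255485822427181867583641320556744461189566958411964354686177162869007218555984111658621395157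2700424392954552472490585535616397333801857571311074965837979230258052674864274159679720600621119335231797040221840563555738880065445399799892921494674062109051611578821962476589042321071546789948438440113065757127316220278282173725697323280975525150432900005489277212563073940922399475438805824022907466989665601448220955920418546053083498248879080350220742206394333429671409497775618730149908883416679608680752966026113174705606061939113672562089807172125651918844368651134900043428438439135549436640292735808734970256047641820540829101939051893624927976638102893625270588945282627257490194381947981539014196328939177734725187689165014053598866061885419338603325924865562538647917548895390842063629079127764894977739510940180445584453814796802076306476377771398905927547179771906939198450820699090216121668244370263479607176488011891331576253102558088375179611204884970808757831683554079364101861110585813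7790710229109741088287836664657114336691276209181623788699142611930533033466213966633435338887917723418700350773652277394447828772818190049586044537659726932303234830611265917593646395178051383495596487202074576857258513205863675997220361226237489120812536337441938247204796349434583723390450949996398206229401210137291799057116641438903236245670408516059182433290401770411143571039713597880388262898724329211214373261276554482907059210305981893112853905957804796897156922996188749054475640872673890825846888215905594894962796160525665653118787413425565441630921301510821252224026111726618250314957815983492635060380947525402624)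

noncomputable def rc4 : Nat := (nat_lit 4664119030551803475681509255712396892922036574155688133630312200037612156142705242635000854606709920615012049909675783682105969163092209248121043016684207802720584950413825901398217893967240713182966278320806840132192595353811653559662725068903778813842011397737291792172315551653679020368536475110436958007800431728220238573281645906525138593711803303766720025792841054379632457009719572476590329157195488232119984579577482591848996791561491364855065945803841724022747458628999270359383476090073952024543590278602846852849062194086821198493013528696455165744897172392001099919598625934294050721270081390338746385208258264429586715443115540856755925675470564003679589756766530769129649706738080563088880878681059458284652975047132253049505328744555265333109525268115015540256143989213948439167108908106458922181325158460441013629138280648681005047218204384132879484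6602576782581985360505921498110386131830258754261947736425830216077392836536518745185010705105919410720691183384952724815841674788501517417632925674459808197567560614710532734555150260025761193689690693999723799547545457370340912652718610274747863414949279193301718673122569538582749988231816281647772367413806972026671898870748862290503236701123926498665425732895229170597723536977394023911865259255174090645100753358529730110981199596370149032636508445543751410035901613145857223677846279812873527794721145916160959793348621646711908020180077698891049795648851139608736669023112566959142033142356766361095741577241797975397959222225460079392329744735725273501850920665172739541986063333450970058058928379591038120457632880019348414938393866629529872718137179676083980838472294495643640374071112017662631644584104191204493915350047037436677115252298517905779365870069117700717766878650479556324918682558588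5210548604375406076132301368704682351312803434808866323080456101450119560131227911223923924554221585574842784368916665573724999405723822398173100953156314122601407297637811596858853817237737748083982146792697400478029920447011239683210177059087057710778724821689859974110092407056284798303998774276927509176991346972778086971759183981978187859370294411972409738894121648088342147834027433669903824587489480290062323453543603516307032001224317473969468450578194196870412875501013526260439514357427278594281235463054521942559050481563532340032088323344161302773516107017166164289346749110783615929176015208779080128506271641521575114856627184345254265046730339643198162582735896312679887993584208675157612600950131228318776432675954909822688405543763731054879561078365263937670333642252269663476499313437471611434356192107434281376991262241252870986690426210070814108107929449488192905779801056166610628543163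2221095440814777684226992004023282155265760553505865834849413714375704113562370160954210067091064310606048028294594949996047866013203619199400286817433678808677010573606465876916269302434404388108199429673482555456859976787013249212532115068668786147692498778877396049316164079008151594422946785655742854924288385053312333297709169630092910760658551921291063689705740952970975829944234326644033121851552258543933988254008936125145774820600584985021300473433729440341722837783266185203625289046951858342511125804816438328146050666258455135150648489086543990512803612973283516979969862762257391280621344700845676372831520884010122477940446613613932411029769085479510516810451264067039607374897955817859662208800946102475520750897209488778807063108782324304824871178242605181735700906855235377520323435222894011673674200851766930842076410608688538904086120769922371090374156240073598689149172835471117556733397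7562074309810815705688763432545499093083238893965395833803459329001297595779472457204043006419034425953798795144699550434101562851782013714397280843244436159918519912272803535900089966251866836664223823583368952151364017582428217569668116470394911537236211256330400271903869166377880893775239086326446074220534129486892053072782563352273391444306166307738638731732025307406080966051532427581382432509375004345538669791585624789370075326021980002373201883017421423947469095313998376399338741044857987188934161135689306762235192057882654566280651543861452217333794705581061615545819878182926277268814989242509956317964468463816106264453628686645132229664283479837844412224266357330355997228535948855516095715989244360858225675241303967350317005368005250925265297217859104591853156172844770317012705947601331749248126757352340840126548967700139324361724337896892762013806963715240928021321449093353001312964131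3499626510189412297443559227554830725713971784548819256776916139538269961544906754331602732383675916416867064737742915616803192691365807877815210232126434391574132881500155412572753507351076079249016810818876167809494842679894917065979887797251728762667045600469500622193729411347177603218578888591225064135587816537312067266697348495257009938903655713948947446516158546899005301440400762256427149054057247017172906330199404333205006076904510110191153742288995784751389403578923581230473707970875657711677029900520696213693163201564573991908319133618034941197544915536411159677597484366217520188479719990973110032215780735582208)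

noncomputable def rc5 : Nat := (nat_lit 4763205354854933888195262224809575356717108146552308587121195058492098713779250292372316264883995731354553608425787340906489118420952763563706056569302724812056113326438428603694492246376494679011485175703548705182058470535072458448018040331316080862021959873723801820842270147103914675526276811014442084794159177963608510546546338712773320733140477362212469755397626065047766956288656681388378662574591530345620144021903821133526395158510126637161430346881990913527572741504636124421068881806598903830430572504714862086254989588901032311926451945057844520484241033389253482318893412479712755326026782201082664706186945200530144013543310449388344124741459719486387344190464511578360870662744924054732714037031180240511732313986433685060628049221949906101809765717512832247486576703916846363502567652315658605017476619264884757822639002050348085762398785806937179074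7668480728051639222294772881430410694730336965516063803166144838400205000917806304535369932803090175466286737139433885141596148109916218250243193281187428186125672869724908068375460904973820836862318361686739656184583166317579271498836426448028495354158059741213135521251709950461960013847425056090337306915833597805004844093859854582180271663401943614337445509950560932587046738998365082246415118474620254295178720795143762272265260535187167681059951939041135658964214103770925262069458460099047778303509969769800204661329024229754801020002718143952470699514286858212769747614482265222882485485175656934324189210563240669277575842501081325124170885316451386063720803863746634118191652775810404377739960316693077049017528597635965235551144620521975489843952290903788446210310941330936835661356065933401665214525819177569973492726858311825412813171765483481409657077452300492467748773068896656175422072779801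4844142710166392055202118541701828678076337220401755299671048592437290000062186895437901354244647968797959945312838783047167866864313312417279038295669530799545844484893052567322306686919647290736007626272888442990428265205973311236566534476104380157088040592494158603367101127943975024634442156953097903649066038128446324931557302777551933635764736495406954002382231798745147575597875077648827070716223375217500508144495829884427387722945497330310228775739840125158136488809196807186273163755910212371973487168407060763528807108067392111338713507128459595158520824959530099606130980799534316295825001224472032820295662820939449709230752842640923220547249011883422564652088057285882008812376289825842491137796443519815951819493129491459417465366628839548670900958285144048139551400044407289548402903371599949132067018466309138863706317748422204632546110265155911309213148737075389951379471266397474414683338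3778008280085386821026127223638016594211852248511236876633852784249998329352050184326698252616216557728481565334172597850723730404604603847674392414042695355516853430802370133463711381495220722931194319121082233443088040510047065561461229104018291903751079990571582178870896345875932739013210126108545399793825314869799210151981594659018181251182427659211909567661719794252390768183779607490555601873912884076653224088381668442705167709125414198261173832768736733800433814180756805816951690517334533279336580817948390944368240856045839422450113126286345319700200359172983601233393020146813798376481362852603795126799517339226457214064788894231247381260462327304959781909377500064918285410040704815941498850112309816539703121613180982058843586907191833090258953598427088687800442028773509002274486531657046180713878769996316990592712816885767026698265594916669665531815340626437058039229156858885521034326501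3591216518558688932541314476935072568914331172279317818269970981911021076446971650601684987417440921172582489345571418935587726722266291038656784637633736250107276345086678920855392655230601380892466776514363353517391021438615714211698082139926938841225385197388071602126422597067831258107147344506733839053811443642333268525451727976483658760425245633452567017496553710038643927173762067959992625541620496345085782009594734461922497140021081350389320333676173103865894619891209742984387084149262330476399114014913811014675735454379669111576753322701233192646462965874132999155946923065915378604150418180782225741450074540402483311045058769641939843770398826496195460033443627345128117722735570221830223097059820642833858916626184471846070457783471044542942160416452549030447196442736944786921397064478552887489481536298183025201411492030175271179659295080054847096299324486975533427624011766346617782740051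7076648934971191948650496424635673685531679359267411546556667332485564804707744525275723050721052052629908212807599708882752897191471115061085237899251887313067542126687534418454267940252558789300504611045846697668274880326194259433188634120230820260080108078909921264640371756721007177818134540456296994393081402870362597339060017846848244770194802798829292034445088368026064413772675244607415772906941874833712676490297286635640879848921010411185469075470062631436590232314817831100210804096802178904497572847296209880103686002408840979784326765831414336865857821980762884094240374148073170358167810857841287292213276262268928)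

noncomputable def rc6 : Nat := (nat_lit 4868303459806381709475694399665524185524836961809755426898535141697475282088034289182308189632008676231513369994036301514244431930266255776281701919920578320887370448243807216834847491799793994992998870504010676118471692630945872886228099293751047599487626673693985880629604129622859555817000507355245766352079615174285799018740389093399211579932516878709022795584795502245395887421955628564428354466538791914567968445139633364788010439245346151045403202413966161152401289851693857335955833840899071310420118737337674487836849284118898468911712535121431909888065887789432311553862582405306395696605753541597424255321804935442291440200785302190607641214749920225065719376736543081455162066407378468719871772966484299145976072835394460126865593723970533836050476108984063210930972222269804529235120845374274739084178320059345166107149053746675196956699167025022343552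3781944176813388830858042763157172968529056999827883916379155712287961644720741609294950761031433588859275393128997719035461622216982563308498858098757420424724904220310908620296348441151531675558382352939166965912382584834207668746854334433549011387487113888624134787960897603739013741429455329744133420604196073932909547853669907436027133955561118194799178931694153178234816274311222033698903475764319585794903984102534263503006981532156478775856113568301250830027737608432545996773117100223257703474034721169182528215349471569116776694281229044275586470988292577242995789798530388586032833807432151468059479471258003800395350009170394169892397375934304892052972517226154059310652978663702445392925967475313822721059700029921685857905268042851237151392175885019373757602619280633563252386610549164572682644787379620926915798708384726386624177680708689918136200417223643206068502357444994562181564488719943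3435689997164107201056919533080715202896268481794227975419828394549732207078170053569993272589744462245400834099276683854698480188529928953209745478354073872207068398009928411444823115633156066759541819758525094567244943125937364833179012629435893416951655831528349476816106752205740781346614944237451784795853172699090913832722923864208642169957021321377538707282296924287253076680218814263175171109773868332142162748380140528684700257510064338884947223220027767217455953770148333973475804878731774943247063577239685957810808060637348324393565729956006295719088719567086915031714661865521563625208712282426685671291986460991646395387639914667592990023871965254783663416740673940121790794101711571239608122306992800988115897136136137351531613063624350911851796209174830547769709532785232263787535081823401569764017764480388968581527917910850810846287383081447368435048890392531903678214927590641025964653397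8657969184658925517246542532363828752417002868274264267680800502008832856764900091046378362298758092194876829811557636133930185943407245408130802848135364755405482781218192041503207728098344474213017987311147980805533673092702768383409779619285481053668707164404232563087601521391187269929258554900045323344448604051865336606735192078979078054769769625383759206966070892057013044913002672806881083277011446796645607776988421032018948892705899760202154562174669666065366922060786614647385264040572332508186600439448706409070200983786135682224951987689569540957448466155857240950530984452455013988143035220047717781751516000992760840020873932481118906456770733322948172289964268609609771218590631338435752171337993484096472020656521799835294423422384611880467360912670232910687553624876116790455319899940900884956130174794543357466237751537378555536109005612744691913566325158690295939464522081232528390168816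5244274183884101158084813341448740343632811441429320152724795838179221914894795435627495676109356704002527976914017426356743645655736311559599152558264165823081840385405083448276304425031983633849970349540015768640208018169392448676105874884164376085097232584612220056466586790975503755274530987330180334874840297533284105391357956634208948653245412048742494288087132336729299644175963666096161091832239975626107557372369490204124603322321632371654051199631517747334813540968006398553110551256792791422738280146148773644927584804904857753915314716890848577016431644274886686534354565044766077713783235829352051085012219363684914227950998741296432113111114502318873064428053797356044048114403044448023177731635974396343498099927299629361019606869124425234630792721794389072795100320489398927776832403558243502355519779457096550068710583735653818109013696818018222149243712220130949810118083862665349238977101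9748045995642826894821413906361964707933443584365124942370520459375482854617312599444862750361355170402989394329512601635375997036214741246721720879794596739196115320402678264912450787436393526436014771753619170837630189301009021546534285889220021078415538139702610489937165532680186954980960586823197089373114120053224917047150351296651452742880700688284670105999233963906906650028611601554699134904048616551101263474613612490137951292386362489234917903653987816727919384988147077769006861313061900587263543615683307684580712688152684884527686466953037948079665956134841398803350682405999275913795478245108106663880927890898944)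

noncomputable def rc7 : Nat := (nat_lit 4978666800606604927774212500200253043277796227096737043879602673343879348833638425282151669450852611153606392011977530149144556030176480878098385805855628854521068485762183543831680166748193184603295328871624285192625986851657677989099280077961735747430535396843531657073648680817530874218034224952670995021329076068141292785261779339825013866729175363577003587781977093608483873573239452522702899197025125166837397562024206048719390114166794897058236341565479787005427190689657538349601851071195501100271263697933883173151009328374365909766102468305342406606003144103227606424586739804844337962332802348711373953906455566721531426606126145220060868867241367105709055192752379276747258971040708540724595947129989113054612286547104630182444846821692533074749326278568007419784206686086525169371712579210885223284680040513382437021755557007915270606849421827820337490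6517593257540382073880811357646317863492729454252897498605923484098751190190102842108103739592772181948283330571572016842051635948031945941275845892997043244223972934609529944180481284259822540998860297737240597295432444296996935689456590888878519529426220546343752362613255390602176744437364787823273631139397970054231612314872487947461538051038483575609132220703573520167513764301742413689223133059809760291034572517478784883241154577887855976978632726182997441597052853697758536710499958432938427763556794953926648501123381237907734221856234422759799964535127480552692823105666289408167720944973735488692089650611517830040447163631288284116062220841564962146296728073740114243029971345649662369902915930554060780686918562236489265091133596779541515123879821835153840706187413767512288157993911552566081502528491125031924184619745581280620304121247724529382998191585011094911311415930907653230355031380453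6536410157767896672310747130654573568786712379218251372748748624232220635917797834017851579919916104409270697240107623061607822510879055084554688617016632079498856256214627428328578948642418266063232967411070368316084300920853116547927491024744938925261535004931099834252341393407939669983413992872281099192469066954433131215504993112582519768823335315646738117094228160929901141712142235061246821519487833824144319625678044055580088591685004308135714873930164092118673345633905222177880075158429794703860046991375903449490501140281519503846581076133189894140678571694302117998919661074535691994850798984715529426952346296513434082921195408020236816007573685938467378717102344815658395645365766274961215840293383667883742547388809661070421054016926785769131291328494751367957976326693648172762773385480834721360799110655273816765764560843310711565713052066873240198838310664362298795699107498096883181751583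0849829499975777508207878088846148904542999282244393717271601894988464170026836411754214414807749716252585847861800695366560103045312854381537060838331678693965814916487429786855655926517688271434063202660718452467496990042163797865006917743044833588644483375493938123342622586968975728861806338134963525070829656635978242506488307245794135985000905936028439643349259770856673209815944682312960138463167743632104049696278874114207097248310792754147135819901383736094953237082991114370233400437791475444553143621273506704929943772713080946593292733647024242898377924096048260052119092147411580272495626304907284102016790499802646880593240458319389451837664493471405479910270270196689942509503573051408090269923141709691025878605914329707483073837969231205409439537032810669728043914494219243271499563834752443533066217802858835206189779403753208551893259693772313725190061122845058160201909725279554796983691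4470143989018729006261431026102174078637797717234606238855552697644001864087826375669801314632023447746864561870415874202309039818617894938834464846369532803427941338802860966423057540501743091541418773853709595890881411609034339419221407490008433793885217262277627094318170710059797659285285346084053806033416369847662676262874772616972027785535927011296539000493088403524576632269413541324188803934757382527179114413685973693180787333798404533318442950414322875442620719644837723059592576043043212106731772480802096389410822774586511199066966452862995466055694044595817046811054407215882977816776424678768509400136784797823353185595214202979567860104188593266739216692420729711676977192627321575818643583034126541018086075896279474141443697485957478154586437813768554471391614604395342534567170578000104059428884590871989359604277336720820522494279686353511634177526599575891861477018553001233853836633639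8330165557805251006116218064393812708145937172916368898947405821937722787254648783118654841448256180117873516186125848904062454092393398458410097632765402926178931746295472763702950809628340011073732086663078354547763706994256790938231146338922627139520851027378704164680829864635338897309672191305201160580013230881279239796405698200299463605007307618108433053577214876077658069702077957904958056267234274513746217465085593399139452354006817034581453565134904588293904220570679542487556189005224356455267851165920453535680382066431265266285257561342048509063653830153815756695365157468359234297024132200087611609423266606743552)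

end Vale.Agent.Lib.P154.PChain.BB.S4
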