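import Vale.Agent.Lib.P154.PChain.BB.R4_0

set_option linter.all false

namespace Vale.Agent.Lib.P154.PChain.BB.S5

open Vale.Agent.Lib.P154.Chain

noncomputable def pc0 : PT := (PT.nd (nat_lit 8077992) (PT.nd (nat_lit 7765836) (PT.nd (nat_lit 7578558) (PT.nd (nat_lit 7266324) (PT.nd (nat_lit 7203924) (PT.nd (nat_lit 7203846) PT.nil (PT.lf (nat_lit 76) (nat_lit 6) (nat_lit 1) (nat_lit 3) (nat_lit 242) (nat_lit 115) (nat_lit 243))) (PT.lf (nat_lit 76) (nat_lit 6) (nat_lit 1) (nat_lit 1) (nat_lit 243) (nat_lit 115) (nat_lit 242))) (PT.nd (nat_lit 312156) (PT.lf (nat_lit 228) (nat_lit 3) (nat_lit 3) (nat_lit 1) (nat_lit 242) (nat_lit 116) (nat_lit 242)) (PT.lf (nat_lit 760) (nat_lit 6) (nat_lit 10) (nat_lit 3) (nat_lit 239) (nat_lit 121) (nat_lit 240)))) (PT.nd (nat_lit 124800) (PT.nd (nat_lit 62400) (PT.lf (nat_lit 760) (nat_lit 6) (nat_lit 10) (nat_lit 1) (nat_lit 240) (nat_lit 121) (nat_lit 239))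 (PT.lf (nat_lit 912) (nat_lit 3) (nat_lit 12) (nat_lit 1) (nat_lit 239) (nat_lit 122) (nat_lit 239))) (PT.nd (nat_lit 78) (PT.lf (nat_lit 988) (nat_lit 6) (nat_lit 13) (nat_lit 3) (nat_lit 238) (nat_lit 123) (nat_lit 239)) (PT.lf (nat_lit 988) (nat_lit 6) (nat_lit 13) (nat_lit 1) (nat_lit 239) (nat_lit 123) (nat_lit 238))))) (PT.nd (nat_lit 187278) (PT.nd (nat_lit 62478) (PT.nd (nat_lit 62400) (PT.lf (nat_lit 1140) (nat_lit 3) (nat_lit 15) (nat_lit 1) (nat_lit 238) (nat_lit 124) (nat_lit 238)) (PT.lf (nat_lit 1216) (nat_lit 6) (nat_lit 16) (nat_lit 3) (nat_lit 237) (nat_lit 125) (nat_lit 238))) (PT.nd (nat_lit 62400) (PT.lf (nat_lit 1216) (nat_lit 6) (nat_lit 16) (nat_lit 1) (nat_lit 238) (nat_lit 125) (nat_lit 237)) (PT.lf (nat_lit 1368) (nat_lit 3) (nat_lit 18) (nat_lit 1) (nat_lit 237) (nat_lit 126) (nat_lit 237)))) (PT.nd (nat_lit 62400) (PT.nd (nat_lit 78) (PT.lf (nat_lit 1444) (nat_lit 6)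 (nat_lit 19) (nat_lit 3) (nat_lit 236) (nat_lit 127) (nat_lit 237)) (PT.lf (nat_lit 1444) (nat_lit 6) (nat_lit 19) (nat_lit 1) (nat_lit 237) (nat_lit 127) (nat_lit 236))) (PT.nd (nat_lit 78) (PT.lf (nat_lit 1520) (nat_lit 6) (nat_lit 20) (nat_lit 3) (nat_lit 235) (nat_lit 128) (nat_lit 237)) (PT.nd (nat_lit 78) (PT.lf (nat_lit 1596) (nat_lit 3) (nat_lit 21) (nat_lit 1) (nat_lit 236) (nat_lit 128) (nat_lit 236)) (PT.lf (nat_lit 1520) (nat_lit 6) (nat_lit 20) (nat_lit 1) (nat_lit 237) (nat_lit 128) (nat_lit 235))))))) (PT.nd (nat_lit 187434) (PT.nd (nat_lit 62556) (PT.nd (nat_lit 62400) (PT.nd (nat_lit 78) (PT.lf (nat_lit 1672) (nat_lit 6) (nat_lit 22) (nat_lit 3) (nat_lit 235) (nat_lit 129) (nat_lit 236)) (PT.lf (nat_lit 1672) (nat_lit 6) (nat_lit 22) (nat_lit 1) (nat_lit 236) (nat_lit 129) (nat_lit 235))) (PT.nd (nat_lit 78) (PT.lf (nat_lit 1748) (nat_lit 6) (nat_lit 23) (nat_lit 3) (nat_lit 234)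 (nat_lit 130) (nat_lit 236)) (PT.lf (nat_lit 1824) (nat_lit 3) (nat_lit 24) (nat_lit 1) (nat_lit 235) (nat_lit 130) (nat_lit 235)))) (PT.nd (nat_lit 62400) (PT.nd (nat_lit 62322) (PT.lf (nat_lit 1748) (nat_lit 6) (nat_lit 23) (nat_lit 1) (nat_lit 236) (nat_lit 130) (nat_lit 234)) (PT.lf (nat_lit 1900) (nat_lit 6) (nat_lit 25) (nat_lit 3) (nat_lit 234) (nat_lit 131) (nat_lit 235))) (PT.nd (nat_lit 62322) (PT.lf (nat_lit 1900) (nat_lit 6) (nat_lit 25) (nat_lit 1) (nat_lit 235) (nat_lit 131) (nat_lit 234)) (PT.nd (nat_lit 78) (PT.lf (nat_lit 1976) (nat_lit 6) (nat_lit 26) (nat_lit 3) (nat_lit 233) (nat_lit 132) (nat_lit 235)) (PT.lf (nat_lit 2052) (nat_lit 3) (nat_lit 27) (nat_lit 1) (nat_lit 234) (nat_lit 132) (nat_lit 234)))))) (PT.nd (nat_lit 124800) (PT.nd (nat_lit 62400) (PT.nd (nat_lit 62322) (PT.lf (nat_lit 1976) (nat_lit 6) (nat_lit 26) (nat_lit 1) (nat_lit 235) (nat_lit 132) (nat_lit 233))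 (PT.lf (nat_lit 2128) (nat_lit 6) (nat_lit 28) (nat_lit 3) (nat_lit 233) (nat_lit 133) (nat_lit 234))) (PT.nd (nat_lit 62322) (PT.lf (nat_lit 2128) (nat_lit 6) (nat_lit 28) (nat_lit 1) (nat_lit 234) (nat_lit 133) (nat_lit 233)) (PT.lf (nat_lit 2204) (nat_lit 6) (nat_lit 29) (nat_lit 3) (nat_lit 232) (nat_lit 134) (nat_lit 234)))) (PT.nd (nat_lit 62400) (PT.nd (nat_lit 78) (PT.lf (nat_lit 2280) (nat_lit 3) (nat_lit 30) (nat_lit 1) (nat_lit 233) (nat_lit 134) (nat_lit 233)) (PT.lf (nat_lit 2204) (nat_lit 6) (nat_lit 29) (nat_lit 1) (nat_lit 234) (nat_lit 134) (nat_lit 232))) (PT.nd (nat_lit 78) (PT.lf (nat_lit 2356) (nat_lit 6) (nat_lit 31) (nat_lit 3) (nat_lit 232) (nat_lit 135) (nat_lit 233)) (PT.nd (nat_lit 62322) (PT.lf (nat_lit 2356) (nat_lit 6) (nat_lit 31) (nat_lit 1) (nat_lit 233) (nat_lit 135) (nat_lit 232)) (PT.lf (nat_lit 2432) (nat_lit 6) (nat_lit 32) (nat_lit 3) (nat_lit 231) (nat_lit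 136) (nat_lit 233))))))))
noncomputable def pc1 : PT := (PT.nd (nat_lit 437112) (PT.nd (nat_lit 249678) (PT.nd (nat_lit 124800) (PT.nd (nat_lit 62400) (PT.nd (nat_lit 78) (PT.lf (nat_lit 2508) (nat_lit 3) (nat_lit 33) (nat_lit 1) (nat_lit 232) (nat_lit 136) (nat_lit 232)) (PT.lf (nat_lit 2432) (nat_lit 6) (nat_lit 32) (nat_lit 1) (nat_lit 233) (nat_lit 136) (nat_lit 231))) (PT.nd (nat_lit 78) (PT.lf (nat_lit 2584) (nat_lit 6) (nat_lit 34) (nat_lit 3) (nat_lit 231) (nat_lit 137) (nat_lit 232)) (PT.lf (nat_lit 2584) (nat_lit 6) (nat_lit 34) (nat_lit 1) (nat_lit 232) (nat_lit 137) (nat_lit 231)))) (PT.nd (nat_lit 156) (PT.nd (nat_lit 78) (PT.lf (nat_lit 2660) (nat_lit 6) (nat_lit 35) (nat_lit 3) (nat_lit 230) (nat_lit 138) (nat_lit 232)) (PT.lf (nat_lit 2736) (nat_lit 3) (nat_lit 36) (nat_lit 1) (nat_lit 231) (nat_lit 138) (nat_lit 231))) (PT.nd (nat_lit 62322) (PT.lf (nat_lit 2660) (nat_lit 6) (nat_lit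 35) (nat_lit 1) (nat_lit 232) (nat_lit 138) (nat_lit 230)) (PT.nd (nat_lit 78) (PT.lf (nat_lit 2812) (nat_lit 6) (nat_lit 37) (nat_lit 3) (nat_lit 230) (nat_lit 139) (nat_lit 231)) (PT.lf (nat_lit 2812) (nat_lit 6) (nat_lit 37) (nat_lit 1) (nat_lit 231) (nat_lit 139) (nat_lit 230)))))) (PT.nd (nat_lit 62556) (PT.nd (nat_lit 156) (PT.nd (nat_lit 78) (PT.lf (nat_lit 2888) (nat_lit 6) (nat_lit 38) (nat_lit 3) (nat_lit 229) (nat_lit 140) (nat_lit 231)) (PT.lf (nat_lit 2964) (nat_lit 3) (nat_lit 39) (nat_lit 1) (nat_lit 230) (nat_lit 140) (nat_lit 230))) (PT.nd (nat_lit 62322) (PT.lf (nat_lit 2888) (nat_lit 6) (nat_lit 38) (nat_lit 1) (nat_lit 231) (nat_lit 140) (nat_lit 229)) (PT.lf (nat_lit 3040) (nat_lit 6) (nat_lit 40) (nat_lit 3) (nat_lit 229) (nat_lit 141) (nat_lit 230)))) (PT.nd (nat_lit 62400) (PT.nd (nat_lit 62322) (PT.lf (nat_lit 3040) (nat_lit 6) (nat_lit 40) (nat_lit 1) (nat_lit 230) (nat_lit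 141) (nat_lit 229)) (PT.lf (nat_lit 3116) (nat_lit 6) (nat_lit 41) (nat_lit 3) (nat_lit 228) (nat_lit 142) (nat_lit 230))) (PT.nd (nat_lit 78) (PT.lf (nat_lit 3192) (nat_lit 3) (nat_lit 42) (nat_lit 1) (nat_lit 229) (nat_lit 142) (nat_lit 229)) (PT.nd (nat_lit 62322) (PT.lf (nat_lit 3116) (nat_lit 6) (nat_lit 41) (nat_lit 1) (nat_lit 230) (nat_lit 142) (nat_lit 228)) (PT.lf (nat_lit 3268) (nat_lit 6) (nat_lit 43) (nat_lit 3) (nat_lit 228) (nat_lit 143) (nat_lit 229))))))) (PT.nd (nat_lit 249678) (PT.nd (nat_lit 124800) (PT.nd (nat_lit 62400) (PT.nd (nat_lit 62322) (PT.lf (nat_lit 3268) (nat_lit 6) (nat_lit 43) (nat_lit 1) (nat_lit 229) (nat_lit 143) (nat_lit 228)) (PT.lf (nat_lit 3344) (nat_lit 6) (nat_lit 44) (nat_lit 3) (nat_lit 227) (nat_lit 144) (nat_lit 229))) (PT.nd (nat_lit 78) (PT.lf (nat_lit 3420) (nat_lit 3) (nat_lit 45) (nat_lit 1) (nat_lit 228) (nat_lit 144) (nat_lit 228)) (PT.lf (nat_lit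 3344) (nat_lit 6) (nat_lit 44) (nat_lit 1) (nat_lit 229) (nat_lit 144) (nat_lit 227)))) (PT.nd (nat_lit 62400) (PT.nd (nat_lit 78) (PT.lf (nat_lit 3496) (nat_lit 6) (nat_lit 46) (nat_lit 3) (nat_lit 227) (nat_lit 145) (nat_lit 228)) (PT.lf (nat_lit 3496) (nat_lit 6) (nat_lit 46) (nat_lit 1) (nat_lit 228) (nat_lit 145) (nat_lit 227))) (PT.nd (nat_lit 78) (PT.lf (nat_lit 3572) (nat_lit 6) (nat_lit 47) (nat_lit 3) (nat_lit 226) (nat_lit 146) (nat_lit 228)) (PT.nd (nat_lit 78) (PT.lf (nat_lit 3648) (nat_lit 3) (nat_lit 48) (nat_lit 1) (nat_lit 227) (nat_lit 146) (nat_lit 227)) (PT.lf (nat_lit 3572) (nat_lit 6) (nat_lit 47) (nat_lit 1) (nat_lit 228) (nat_lit 146) (nat_lit 226)))))) (PT.nd (nat_lit 62556) (PT.nd (nat_lit 62400) (PT.nd (nat_lit 78) (PT.lf (nat_lit 3724) (nat_lit 6) (nat_lit 49) (nat_lit 3) (nat_lit 226) (nat_lit 147) (nat_lit 227)) (PT.lf (nat_lit 3724) (nat_lit 6) (nat_lit 49) (nat_lit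 1) (nat_lit 227) (nat_lit 147) (nat_lit 226))) (PT.nd (nat_lit 78) (PT.lf (nat_lit 3800) (nat_lit 6) (nat_lit 50) (nat_lit 3) (nat_lit 225) (nat_lit 148) (nat_lit 227)) (PT.lf (nat_lit 3876) (nat_lit 3) (nat_lit 51) (nat_lit 1) (nat_lit 226) (nat_lit 148) (nat_lit 226)))) (PT.nd (nat_lit 62400) (PT.nd (nat_lit 62322) (PT.lf (nat_lit 3800) (nat_lit 6) (nat_lit 50) (nat_lit 1) (nat_lit 227) (nat_lit 148) (nat_lit 225)) (PT.lf (nat_lit 3952) (nat_lit 6) (nat_lit 52) (nat_lit 3) (nat_lit 225) (nat_lit 149) (nat_lit 226))) (PT.nd (nat_lit 62322) (PT.lf (nat_lit 3952) (nat_lit 6) (nat_lit 52) (nat_lit 1) (nat_lit 226) (nat_lit 149) (nat_lit 225)) (PT.nd (nat_lit 78) (PT.lf (nat_lit 4028) (nat_lit 6) (nat_lit 53) (nat_lit 3) (nat_lit 224) (nat_lit 150) (nat_lit 226)) (PT.lf (nat_lit 4104) (nat_lit 3) (nat_lit 54) (nat_lit 1) (nat_lit 225) (nat_lit 150) (nat_lit 225))))))))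
noncomputable def pc2 : PT := (PT.nd (nat_lit 437034) (PT.nd (nat_lit 249600) (PT.nd (nat_lit 124800) (PT.nd (nat_lit 62400) (PT.nd (nat_lit 62322) (PT.lf (nat_lit 4028) (nat_lit 6) (nat_lit 53) (nat_lit 1) (nat_lit 226) (nat_lit 150) (nat_lit 224)) (PT.lf (nat_lit 4180) (nat_lit 6) (nat_lit 55) (nat_lit 3) (nat_lit 224) (nat_lit 151) (nat_lit 225))) (PT.nd (nat_lit 62322) (PT.lf (nat_lit 4180) (nat_lit 6) (nat_lit 55) (nat_lit 1) (nat_lit 225) (nat_lit 151) (nat_lit 224)) (PT.lf (nat_lit 4256) (nat_lit 6) (nat_lit 56) (nat_lit 3) (nat_lit 223) (nat_lit 152) (nat_lit 225)))) (PT.nd (nat_lit 62400) (PT.nd (nat_lit 78) (PT.lf (nat_lit 4332) (nat_lit 3) (nat_lit 57) (nat_lit 1) (nat_lit 224) (nat_lit 152) (nat_lit 224)) (PT.lf (nat_lit 4256) (nat_lit 6) (nat_lit 56) (nat_lit 1) (nat_lit 225) (nat_lit 152) (nat_lit 223))) (PT.nd (nat_lit 78) (PT.lf (nat_lit 4408) (nat_lit 6) (nat_lit 58) (nat_lit 3)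 (nat_lit 223) (nat_lit 153) (nat_lit 224)) (PT.lf (nat_lit 4408) (nat_lit 6) (nat_lit 58) (nat_lit 1) (nat_lit 224) (nat_lit 153) (nat_lit 223))))) (PT.nd (nat_lit 62556) (PT.nd (nat_lit 156) (PT.nd (nat_lit 78) (PT.lf (nat_lit 4484) (nat_lit 6) (nat_lit 59) (nat_lit 3) (nat_lit 222) (nat_lit 154) (nat_lit 224)) (PT.lf (nat_lit 4560) (nat_lit 3) (nat_lit 60) (nat_lit 1) (nat_lit 223) (nat_lit 154) (nat_lit 223))) (PT.nd (nat_lit 62322) (PT.lf (nat_lit 4484) (nat_lit 6) (nat_lit 59) (nat_lit 1) (nat_lit 224) (nat_lit 154) (nat_lit 222)) (PT.lf (nat_lit 4636) (nat_lit 6) (nat_lit 61) (nat_lit 3) (nat_lit 222) (nat_lit 155) (nat_lit 223)))) (PT.nd (nat_lit 62400) (PT.nd (nat_lit 62322) (PT.lf (nat_lit 4636) (nat_lit 6) (nat_lit 61) (nat_lit 1) (nat_lit 223) (nat_lit 155) (nat_lit 222)) (PT.lf (nat_lit 4712) (nat_lit 6) (nat_lit 62) (nat_lit 3) (nat_lit 221) (nat_lit 156) (nat_lit 223))) (PT.nd (nat_lit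 78) (PT.lf (nat_lit 4788) (nat_lit 3) (nat_lit 63) (nat_lit 1) (nat_lit 222) (nat_lit 156) (nat_lit 222)) (PT.nd (nat_lit 62322) (PT.lf (nat_lit 4712) (nat_lit 6) (nat_lit 62) (nat_lit 1) (nat_lit 223) (nat_lit 156) (nat_lit 221)) (PT.lf (nat_lit 4864) (nat_lit 6) (nat_lit 64) (nat_lit 3) (nat_lit 221) (nat_lit 157) (nat_lit 222))))))) (PT.nd (nat_lit 249600) (PT.nd (nat_lit 124800) (PT.nd (nat_lit 62400) (PT.nd (nat_lit 62322) (PT.lf (nat_lit 4864) (nat_lit 6) (nat_lit 64) (nat_lit 1) (nat_lit 222) (nat_lit 157) (nat_lit 221)) (PT.lf (nat_lit 4940) (nat_lit 6) (nat_lit 65) (nat_lit 3) (nat_lit 220) (nat_lit 158) (nat_lit 222))) (PT.nd (nat_lit 78) (PT.lf (nat_lit 5016) (nat_lit 3) (nat_lit 66) (nat_lit 1) (nat_lit 221) (nat_lit 158) (nat_lit 221)) (PT.lf (nat_lit 4940) (nat_lit 6) (nat_lit 65) (nat_lit 1) (nat_lit 222) (nat_lit 158) (nat_lit 220)))) (PT.nd (nat_lit 62400) (PT.nd (nat_lit 78) (PT.lf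 (nat_lit 5092) (nat_lit 6) (nat_lit 67) (nat_lit 3) (nat_lit 220) (nat_lit 159) (nat_lit 221)) (PT.lf (nat_lit 5092) (nat_lit 6) (nat_lit 67) (nat_lit 1) (nat_lit 221) (nat_lit 159) (nat_lit 220))) (PT.nd (nat_lit 78) (PT.lf (nat_lit 5168) (nat_lit 6) (nat_lit 68) (nat_lit 3) (nat_lit 219) (nat_lit 160) (nat_lit 221)) (PT.nd (nat_lit 78) (PT.lf (nat_lit 5244) (nat_lit 3) (nat_lit 69) (nat_lit 1) (nat_lit 220) (nat_lit 160) (nat_lit 220)) (PT.lf (nat_lit 5168) (nat_lit 6) (nat_lit 68) (nat_lit 1) (nat_lit 221) (nat_lit 160) (nat_lit 219)))))) (PT.nd (nat_lit 62478) (PT.nd (nat_lit 156) (PT.nd (nat_lit 78) (PT.lf (nat_lit 5320) (nat_lit 6) (nat_lit 70) (nat_lit 3) (nat_lit 218) (nat_lit 161) (nat_lit 221)) (PT.lf (nat_lit 5396) (nat_lit 6) (nat_lit 71) (nat_lit 3) (nat_lit 219) (nat_lit 161) (nat_lit 220))) (PT.nd (nat_lit 78) (PT.lf (nat_lit 5396) (nat_lit 6) (nat_lit 71) (nat_lit 1) (nat_lit 220)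 (nat_lit 161) (nat_lit 219)) (PT.lf (nat_lit 5320) (nat_lit 6) (nat_lit 70) (nat_lit 1) (nat_lit 221) (nat_lit 161) (nat_lit 218)))) (PT.nd (nat_lit 156) (PT.nd (nat_lit 78) (PT.lf (nat_lit 5472) (nat_lit 6) (nat_lit 72) (nat_lit 3) (nat_lit 218) (nat_lit 162) (nat_lit 220)) (PT.lf (nat_lit 5548) (nat_lit 3) (nat_lit 73) (nat_lit 1) (nat_lit 219) (nat_lit 162) (nat_lit 219))) (PT.nd (nat_lit 62244) (PT.lf (nat_lit 5472) (nat_lit 6) (nat_lit 72) (nat_lit 1) (nat_lit 220) (nat_lit 162) (nat_lit 218)) (PT.nd (nat_lit 78) (PT.lf (nat_lit 5624) (nat_lit 6) (nat_lit 74) (nat_lit 3) (nat_lit 217) (nat_lit 163) (nat_lit 220)) (PT.lf (nat_lit 5700) (nat_lit 6) (nat_lit 75) (nat_lit 3) (nat_lit 218) (nat_lit 163) (nat_lit 219))))))))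
noncomputable def pc3 : PT := (PT.nd (nat_lit 312234) (PT.nd (nat_lit 187200) (PT.nd (nat_lit 62478) (PT.nd (nat_lit 62322) (PT.nd (nat_lit 78) (PT.lf (nat_lit 5700) (nat_lit 6) (nat_lit 75) (nat_lit 1) (nat_lit 219) (nat_lit 163) (nat_lit 218)) (PT.lf (nat_lit 5624) (nat_lit 6) (nat_lit 74) (nat_lit 1) (nat_lit 220) (nat_lit 163) (nat_lit 217))) (PT.nd (nat_lit 78) (PT.lf (nat_lit 5776) (nat_lit 6) (nat_lit 76) (nat_lit 3) (nat_lit 217) (nat_lit 164) (nat_lit 219)) (PT.lf (nat_lit 5852) (nat_lit 3) (nat_lit 77) (nat_lit 1) (nat_lit 218) (nat_lit 164) (nat_lit 218)))) (PT.nd (nat_lit 62322) (PT.nd (nat_lit 62244) (PT.lf (nat_lit 5776) (nat_lit 6) (nat_lit 76) (nat_lit 1) (nat_lit 219) (nat_lit 164) (nat_lit 217)) (PT.lf (nat_lit 5928) (nat_lit 6) (nat_lit 78) (nat_lit 3) (nat_lit 216) (nat_lit 165) (nat_lit 219))) (PT.nd (nat_lit 78) (PT.lf (nat_lit 6004) (nat_lit 6) (nat_lit 79) (nat_lit 3) (nat_lit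 217) (nat_lit 165) (nat_lit 218)) (PT.nd (nat_lit 78) (PT.lf (nat_lit 6004) (nat_lit 6) (nat_lit 79) (nat_lit 1) (nat_lit 218) (nat_lit 165) (nat_lit 217)) (PT.lf (nat_lit 5928) (nat_lit 6) (nat_lit 78) (nat_lit 1) (nat_lit 219) (nat_lit 165) (nat_lit 216)))))) (PT.nd (nat_lit 62478) (PT.nd (nat_lit 156) (PT.nd (nat_lit 78) (PT.lf (nat_lit 6080) (nat_lit 6) (nat_lit 80) (nat_lit 3) (nat_lit 216) (nat_lit 166) (nat_lit 218)) (PT.lf (nat_lit 6156) (nat_lit 3) (nat_lit 81) (nat_lit 1) (nat_lit 217) (nat_lit 166) (nat_lit 217))) (PT.nd (nat_lit 62244) (PT.lf (nat_lit 6080) (nat_lit 6) (nat_lit 80) (nat_lit 1) (nat_lit 218) (nat_lit 166) (nat_lit 216)) (PT.lf (nat_lit 6232) (nat_lit 6) (nat_lit 82) (nat_lit 3) (nat_lit 215) (nat_lit 167) (nat_lit 218)))) (PT.nd (nat_lit 156) (PT.nd (nat_lit 78) (PT.lf (nat_lit 6308) (nat_lit 6) (nat_lit 83) (nat_lit 3) (nat_lit 216) (nat_lit 167) (nat_lit 217)) (PT.lf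 (nat_lit 6308) (nat_lit 6) (nat_lit 83) (nat_lit 1) (nat_lit 217) (nat_lit 167) (nat_lit 216))) (PT.nd (nat_lit 62244) (PT.lf (nat_lit 6232) (nat_lit 6) (nat_lit 82) (nat_lit 1) (nat_lit 218) (nat_lit 167) (nat_lit 215)) (PT.nd (nat_lit 78) (PT.lf (nat_lit 6384) (nat_lit 6) (nat_lit 84) (nat_lit 3) (nat_lit 215) (nat_lit 168) (nat_lit 217)) (PT.lf (nat_lit 6460) (nat_lit 3) (nat_lit 85) (nat_lit 1) (nat_lit 216) (nat_lit 168) (nat_lit 216))))))) (PT.nd (nat_lit 124956) (PT.nd (nat_lit 62478) (PT.nd (nat_lit 62322) (PT.nd (nat_lit 62244) (PT.lf (nat_lit 6384) (nat_lit 6) (nat_lit 84) (nat_lit 1) (nat_lit 217) (nat_lit 168) (nat_lit 215)) (PT.lf (nat_lit 6536) (nat_lit 6) (nat_lit 86) (nat_lit 3) (nat_lit 214) (nat_lit 169) (nat_lit 217))) (PT.nd (nat_lit 78) (PT.lf (nat_lit 6612) (nat_lit 6) (nat_lit 87) (nat_lit 3) (nat_lit 215) (nat_lit 169) (nat_lit 216)) (PT.lf (nat_lit 6612) (nat_lit 6) (nat_lit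 87) (nat_lit 1) (nat_lit 216) (nat_lit 169) (nat_lit 215)))) (PT.nd (nat_lit 62244) (PT.nd (nat_lit 62166) (PT.lf (nat_lit 6536) (nat_lit 6) (nat_lit 86) (nat_lit 1) (nat_lit 217) (nat_lit 169) (nat_lit 214)) (PT.lf (nat_lit 6688) (nat_lit 6) (nat_lit 88) (nat_lit 3) (nat_lit 213) (nat_lit 170) (nat_lit 217))) (PT.nd (nat_lit 78) (PT.lf (nat_lit 6764) (nat_lit 6) (nat_lit 89) (nat_lit 3) (nat_lit 214) (nat_lit 170) (nat_lit 216)) (PT.nd (nat_lit 78) (PT.lf (nat_lit 6840) (nat_lit 3) (nat_lit 90) (nat_lit 1) (nat_lit 215) (nat_lit 170) (nat_lit 215)) (PT.lf (nat_lit 6764) (nat_lit 6) (nat_lit 89) (nat_lit 1) (nat_lit 216) (nat_lit 170) (nat_lit 214)))))) (PT.nd (nat_lit 62400) (PT.nd (nat_lit 62244) (PT.nd (nat_lit 62166) (PT.lf (nat_lit 6688) (nat_lit 6) (nat_lit 88) (nat_lit 1) (nat_lit 217) (nat_lit 170) (nat_lit 213)) (PT.lf (nat_lit 6916) (nat_lit 6) (nat_lit 91) (nat_lit 3) (nat_lit 213) (nat_lit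 171) (nat_lit 216))) (PT.nd (nat_lit 78) (PT.lf (nat_lit 6992) (nat_lit 6) (nat_lit 92) (nat_lit 3) (nat_lit 214) (nat_lit 171) (nat_lit 215)) (PT.lf (nat_lit 6992) (nat_lit 6) (nat_lit 92) (nat_lit 1) (nat_lit 215) (nat_lit 171) (nat_lit 214)))) (PT.nd (nat_lit 62244) (PT.nd (nat_lit 62166) (PT.lf (nat_lit 6916) (nat_lit 6) (nat_lit 91) (nat_lit 1) (nat_lit 216) (nat_lit 171) (nat_lit 213)) (PT.lf (nat_lit 7068) (nat_lit 6) (nat_lit 93) (nat_lit 3) (nat_lit 212) (nat_lit 172) (nat_lit 216))) (PT.nd (nat_lit 78) (PT.lf (nat_lit 7144) (nat_lit 6) (nat_lit 94) (nat_lit 3) (nat_lit 213) (nat_lit 172) (nat_lit 215)) (PT.nd (nat_lit 78) (PT.lf (nat_lit 7220) (nat_lit 3) (nat_lit 95) (nat_lit 1) (nat_lit 214) (nat_lit 172) (nat_lit 214)) (PT.lf (nat_lit 7144) (nat_lit 6) (nat_lit 94) (nat_lit 1) (nat_lit 215) (nat_lit 172) (nat_lit 213))))))))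
noncomputable def pc4 : PT := (PT.nd (nat_lit 249522) (PT.nd (nat_lit 124800) (PT.nd (nat_lit 62400) (PT.nd (nat_lit 62244) (PT.nd (nat_lit 62166) (PT.lf (nat_lit 7068) (nat_lit 6) (nat_lit 93) (nat_lit 1) (nat_lit 216) (nat_lit 172) (nat_lit 212)) (PT.lf (nat_lit 7296) (nat_lit 6) (nat_lit 96) (nat_lit 3) (nat_lit 212) (nat_lit 173) (nat_lit 215))) (PT.nd (nat_lit 78) (PT.lf (nat_lit 7372) (nat_lit 6) (nat_lit 97) (nat_lit 3) (nat_lit 213) (nat_lit 173) (nat_lit 214)) (PT.lf (nat_lit 7372) (nat_lit 6) (nat_lit 97) (nat_lit 1) (nat_lit 214) (nat_lit 173) (nat_lit 213)))) (PT.nd (nat_lit 62244) (PT.nd (nat_lit 62166) (PT.lf (nat_lit 7296) (nat_lit 6) (nat_lit 96) (nat_lit 1) (nat_lit 215) (nat_lit 173) (nat_lit 212)) (PT.lf (nat_lit 7448) (nat_lit 6) (nat_lit 98) (nat_lit 3) (nat_lit 211) (nat_lit 174) (nat_lit 215))) (PT.nd (nat_lit 78) (PT.lf (nat_lit 7524) (nat_lit 6) (nat_lit 99) (nat_lit 3)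 (nat_lit 212) (nat_lit 174) (nat_lit 214)) (PT.lf (nat_lit 7600) (nat_lit 3) (nat_lit 100) (nat_lit 1) (nat_lit 213) (nat_lit 174) (nat_lit 213))))) (PT.nd (nat_lit 62322) (PT.nd (nat_lit 62166) (PT.nd (nat_lit 78) (PT.lf (nat_lit 7524) (nat_lit 6) (nat_lit 99) (nat_lit 1) (nat_lit 214) (nat_lit 174) (nat_lit 212)) (PT.lf (nat_lit 7448) (nat_lit 6) (nat_lit 98) (nat_lit 1) (nat_lit 215) (nat_lit 174) (nat_lit 211))) (PT.nd (nat_lit 78) (PT.lf (nat_lit 7676) (nat_lit 6) (nat_lit 101) (nat_lit 3) (nat_lit 210) (nat_lit 175) (nat_lit 215)) (PT.lf (nat_lit 7752) (nat_lit 6) (nat_lit 102) (nat_lit 3) (nat_lit 211) (nat_lit 175) (nat_lit 214)))) (PT.nd (nat_lit 156) (PT.nd (nat_lit 78) (PT.lf (nat_lit 7828) (nat_lit 6) (nat_lit 103) (nat_lit 3) (nat_lit 212) (nat_lit 175) (nat_lit 213)) (PT.lf (nat_lit 7828) (nat_lit 6) (nat_lit 103) (nat_lit 1) (nat_lit 213) (nat_lit 175) (nat_lit 212))) (PT.nd (nat_lit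 78) (PT.lf (nat_lit 7752) (nat_lit 6) (nat_lit 102) (nat_lit 1) (nat_lit 214) (nat_lit 175) (nat_lit 211)) (PT.nd (nat_lit 62088) (PT.lf (nat_lit 7676) (nat_lit 6) (nat_lit 101) (nat_lit 1) (nat_lit 215) (nat_lit 175) (nat_lit 210)) (PT.lf (nat_lit 7904) (nat_lit 6) (nat_lit 104) (nat_lit 3) (nat_lit 210) (nat_lit 176) (nat_lit 214))))))) (PT.nd (nat_lit 62712) (PT.nd (nat_lit 62322) (PT.nd (nat_lit 156) (PT.nd (nat_lit 78) (PT.lf (nat_lit 7980) (nat_lit 6) (nat_lit 105) (nat_lit 3) (nat_lit 211) (nat_lit 176) (nat_lit 213)) (PT.lf (nat_lit 8056) (nat_lit 3) (nat_lit 106) (nat_lit 1) (nat_lit 212) (nat_lit 176) (nat_lit 212))) (PT.nd (nat_lit 78) (PT.lf (nat_lit 7980) (nat_lit 6) (nat_lit 105) (nat_lit 1) (nat_lit 213) (nat_lit 176) (nat_lit 211)) (PT.lf (nat_lit 7904) (nat_lit 6) (nat_lit 104) (nat_lit 1) (nat_lit 214) (nat_lit 176) (nat_lit 210)))) (PT.nd (nat_lit 156) (PT.nd (nat_lit 78) (PT.lf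 (nat_lit 8132) (nat_lit 6) (nat_lit 107) (nat_lit 3) (nat_lit 209) (nat_lit 177) (nat_lit 214)) (PT.lf (nat_lit 8208) (nat_lit 6) (nat_lit 108) (nat_lit 3) (nat_lit 210) (nat_lit 177) (nat_lit 213))) (PT.nd (nat_lit 78) (PT.lf (nat_lit 8284) (nat_lit 6) (nat_lit 109) (nat_lit 3) (nat_lit 211) (nat_lit 177) (nat_lit 212)) (PT.nd (nat_lit 78) (PT.lf (nat_lit 8284) (nat_lit 6) (nat_lit 109) (nat_lit 1) (nat_lit 212) (nat_lit 177) (nat_lit 211)) (PT.lf (nat_lit 8208) (nat_lit 6) (nat_lit 108) (nat_lit 1) (nat_lit 213) (nat_lit 177) (nat_lit 210)))))) (PT.nd (nat_lit 62322) (PT.nd (nat_lit 62166) (PT.nd (nat_lit 62088) (PT.lf (nat_lit 8132) (nat_lit 6) (nat_lit 107) (nat_lit 1) (nat_lit 214) (nat_lit 177) (nat_lit 209)) (PT.lf (nat_lit 8360) (nat_lit 6) (nat_lit 110) (nat_lit 3) (nat_lit 209) (nat_lit 178) (nat_lit 213))) (PT.nd (nat_lit 78) (PT.lf (nat_lit 8436) (nat_lit 6) (nat_lit 111) (nat_lit 3)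 (nat_lit 210) (nat_lit 178) (nat_lit 212)) (PT.lf (nat_lit 8512) (nat_lit 3) (nat_lit 112) (nat_lit 1) (nat_lit 211) (nat_lit 178) (nat_lit 211)))) (PT.nd (nat_lit 62166) (PT.nd (nat_lit 78) (PT.lf (nat_lit 8436) (nat_lit 6) (nat_lit 111) (nat_lit 1) (nat_lit 212) (nat_lit 178) (nat_lit 210)) (PT.lf (nat_lit 8360) (nat_lit 6) (nat_lit 110) (nat_lit 1) (nat_lit 213) (nat_lit 178) (nat_lit 209))) (PT.nd (nat_lit 78) (PT.lf (nat_lit 8588) (nat_lit 6) (nat_lit 113) (nat_lit 3) (nat_lit 208) (nat_lit 179) (nat_lit 213)) (PT.nd (nat_lit 78) (PT.lf (nat_lit 8664) (nat_lit 6) (nat_lit 114) (nat_lit 3) (nat_lit 209) (nat_lit 179) (nat_lit 212)) (PT.lf (nat_lit 8740) (nat_lit 6) (nat_lit 115) (nat_lit 3) (nat_lit 210) (nat_lit 179) (nat_lit 211))))))))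
noncomputable def pc5 : PT := (PT.nd (nat_lit 187044) (PT.nd (nat_lit 62634) (PT.nd (nat_lit 62244) (PT.nd (nat_lit 156) (PT.nd (nat_lit 78) (PT.lf (nat_lit 8740) (nat_lit 6) (nat_lit 115) (nat_lit 1) (nat_lit 211) (nat_lit 179) (nat_lit 210)) (PT.lf (nat_lit 8664) (nat_lit 6) (nat_lit 114) (nat_lit 1) (nat_lit 212) (nat_lit 179) (nat_lit 209))) (PT.nd (nat_lit 62010) (PT.lf (nat_lit 8588) (nat_lit 6) (nat_lit 113) (nat_lit 1) (nat_lit 213) (nat_lit 179) (nat_lit 208)) (PT.lf (nat_lit 8816) (nat_lit 6) (nat_lit 116) (nat_lit 3) (nat_lit 207) (nat_lit 180) (nat_lit 213)))) (PT.nd (nat_lit 156) (PT.nd (nat_lit 78) (PT.lf (nat_lit 8892) (nat_lit 6) (nat_lit 117) (nat_lit 3) (nat_lit 208) (nat_lit 180) (nat_lit 212)) (PT.lf (nat_lit 8968) (nat_lit 6) (nat_lit 118) (nat_lit 3) (nat_lit 209) (nat_lit 180) (nat_lit 211))) (PT.nd (nat_lit 78) (PT.lf (nat_lit 9044) (nat_lit 3) (nat_lit 119) (nat_lit 1) (nat_lit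 210) (nat_lit 180) (nat_lit 210)) (PT.nd (nat_lit 78) (PT.lf (nat_lit 8968) (nat_lit 6) (nat_lit 118) (nat_lit 1) (nat_lit 211) (nat_lit 180) (nat_lit 209)) (PT.lf (nat_lit 8892) (nat_lit 6) (nat_lit 117) (nat_lit 1) (nat_lit 212) (nat_lit 180) (nat_lit 208)))))) (PT.nd (nat_lit 62166) (PT.nd (nat_lit 62010) (PT.nd (nat_lit 61932) (PT.lf (nat_lit 8816) (nat_lit 6) (nat_lit 116) (nat_lit 1) (nat_lit 213) (nat_lit 180) (nat_lit 207)) (PT.lf (nat_lit 9120) (nat_lit 6) (nat_lit 120) (nat_lit 3) (nat_lit 206) (nat_lit 181) (nat_lit 213))) (PT.nd (nat_lit 78) (PT.lf (nat_lit 9196) (nat_lit 6) (nat_lit 121) (nat_lit 3) (nat_lit 207) (nat_lit 181) (nat_lit 212)) (PT.lf (nat_lit 9272) (nat_lit 6) (nat_lit 122) (nat_lit 3) (nat_lit 208) (nat_lit 181) (nat_lit 211)))) (PT.nd (nat_lit 156) (PT.nd (nat_lit 78) (PT.lf (nat_lit 9348) (nat_lit 6) (nat_lit 123) (nat_lit 3) (nat_lit 209) (nat_lit 181) (nat_lit 210))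 (PT.lf (nat_lit 9348) (nat_lit 6) (nat_lit 123) (nat_lit 1) (nat_lit 210) (nat_lit 181) (nat_lit 209))) (PT.nd (nat_lit 78) (PT.lf (nat_lit 9272) (nat_lit 6) (nat_lit 122) (nat_lit 1) (nat_lit 211) (nat_lit 181) (nat_lit 208)) (PT.nd (nat_lit 78) (PT.lf (nat_lit 9196) (nat_lit 6) (nat_lit 121) (nat_lit 1) (nat_lit 212) (nat_lit 181) (nat_lit 207)) (PT.lf (nat_lit 9120) (nat_lit 6) (nat_lit 120) (nat_lit 1) (nat_lit 213) (nat_lit 181) (nat_lit 206))))))) (PT.nd (nat_lit 62556) (PT.nd (nat_lit 312) (PT.nd (nat_lit 156) (PT.nd (nat_lit 78) (PT.lf (nat_lit 9424) (nat_lit 6) (nat_lit 124) (nat_lit 3) (nat_lit 206) (nat_lit 182) (nat_lit 212)) (PT.lf (nat_lit 9500) (nat_lit 6) (nat_lit 125) (nat_lit 3) (nat_lit 207) (nat_lit 182) (nat_lit 211))) (PT.nd (nat_lit 78) (PT.lf (nat_lit 9576) (nat_lit 6) (nat_lit 126) (nat_lit 3) (nat_lit 208) (nat_lit 182) (nat_lit 210)) (PT.lf (nat_lit 9652) (nat_lit 3) (nat_lit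 127) (nat_lit 1) (nat_lit 209) (nat_lit 182) (nat_lit 209)))) (PT.nd (nat_lit 156) (PT.nd (nat_lit 78) (PT.lf (nat_lit 9576) (nat_lit 6) (nat_lit 126) (nat_lit 1) (nat_lit 210) (nat_lit 182) (nat_lit 208)) (PT.lf (nat_lit 9500) (nat_lit 6) (nat_lit 125) (nat_lit 1) (nat_lit 211) (nat_lit 182) (nat_lit 207))) (PT.nd (nat_lit 61932) (PT.lf (nat_lit 9424) (nat_lit 6) (nat_lit 124) (nat_lit 1) (nat_lit 212) (nat_lit 182) (nat_lit 206)) (PT.nd (nat_lit 78) (PT.lf (nat_lit 9728) (nat_lit 6) (nat_lit 128) (nat_lit 3) (nat_lit 205) (nat_lit 183) (nat_lit 212)) (PT.lf (nat_lit 9804) (nat_lit 6) (nat_lit 129) (nat_lit 3) (nat_lit 206) (nat_lit 183) (nat_lit 211)))))) (PT.nd (nat_lit 312) (PT.nd (nat_lit 156) (PT.nd (nat_lit 78) (PT.lf (nat_lit 9880) (nat_lit 6) (nat_lit 130) (nat_lit 3) (nat_lit 207) (nat_lit 183) (nat_lit 210)) (PT.lf (nat_lit 9956) (nat_lit 6) (nat_lit 131) (nat_lit 3) (nat_lit 208) (nat_lit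 183) (nat_lit 209))) (PT.nd (nat_lit 78) (PT.lf (nat_lit 9956) (nat_lit 6) (nat_lit 131) (nat_lit 1) (nat_lit 209) (nat_lit 183) (nat_lit 208)) (PT.lf (nat_lit 9880) (nat_lit 6) (nat_lit 130) (nat_lit 1) (nat_lit 210) (nat_lit 183) (nat_lit 207)))) (PT.nd (nat_lit 61932) (PT.nd (nat_lit 78) (PT.lf (nat_lit 9804) (nat_lit 6) (nat_lit 129) (nat_lit 1) (nat_lit 211) (nat_lit 183) (nat_lit 206)) (PT.lf (nat_lit 9728) (nat_lit 6) (nat_lit 128) (nat_lit 1) (nat_lit 212) (nat_lit 183) (nat_lit 205))) (PT.nd (nat_lit 78) (PT.lf (nat_lit 10032) (nat_lit 6) (nat_lit 132) (nat_lit 3) (nat_lit 204) (nat_lit 184) (nat_lit 212)) (PT.nd (nat_lit 78) (PT.lf (nat_lit 10108) (nat_lit 6) (nat_lit 133) (nat_lit 3) (nat_lit 205) (nat_lit 184) (nat_lit 211)) (PT.lf (nat_lit 10184) (nat_lit 6) (nat_lit 134) (nat_lit 3) (nat_lit 206) (nat_lit 184) (nat_lit 210))))))))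
noncomputable def pc6 : PT := (PT.nd (nat_lit 124878) (PT.nd (nat_lit 62400) (PT.nd (nat_lit 312) (PT.nd (nat_lit 156) (PT.nd (nat_lit 78) (PT.lf (nat_lit 10260) (nat_lit 6) (nat_lit 135) (nat_lit 3) (nat_lit 207) (nat_lit 184) (nat_lit 209)) (PT.lf (nat_lit 10336) (nat_lit 3) (nat_lit 136) (nat_lit 1) (nat_lit 208) (nat_lit 184) (nat_lit 208))) (PT.nd (nat_lit 78) (PT.lf (nat_lit 10260) (nat_lit 6) (nat_lit 135) (nat_lit 1) (nat_lit 209) (nat_lit 184) (nat_lit 207)) (PT.lf (nat_lit 10184) (nat_lit 6) (nat_lit 134) (nat_lit 1) (nat_lit 210) (nat_lit 184) (nat_lit 206)))) (PT.nd (nat_lit 61932) (PT.nd (nat_lit 78) (PT.lf (nat_lit 10108) (nat_lit 6) (nat_lit 133) (nat_lit 1) (nat_lit 211) (nat_lit 184) (nat_lit 205)) (PT.lf (nat_lit 10032) (nat_lit 6) (nat_lit 132) (nat_lit 1) (nat_lit 212) (nat_lit 184) (nat_lit 204))) (PT.nd (nat_lit 78) (PT.lf (nat_lit 10412) (nat_lit 6) (nat_lit 137) (nat_lit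 3) (nat_lit 204) (nat_lit 185) (nat_lit 211)) (PT.lf (nat_lit 10488) (nat_lit 6) (nat_lit 138) (nat_lit 3) (nat_lit 205) (nat_lit 185) (nat_lit 210))))) (PT.nd (nat_lit 312) (PT.nd (nat_lit 156) (PT.nd (nat_lit 78) (PT.lf (nat_lit 10564) (nat_lit 6) (nat_lit 139) (nat_lit 3) (nat_lit 206) (nat_lit 185) (nat_lit 209)) (PT.lf (nat_lit 10640) (nat_lit 6) (nat_lit 140) (nat_lit 3) (nat_lit 207) (nat_lit 185) (nat_lit 208))) (PT.nd (nat_lit 78) (PT.lf (nat_lit 10640) (nat_lit 6) (nat_lit 140) (nat_lit 1) (nat_lit 208) (nat_lit 185) (nat_lit 207)) (PT.lf (nat_lit 10564) (nat_lit 6) (nat_lit 139) (nat_lit 1) (nat_lit 209) (nat_lit 185) (nat_lit 206)))) (PT.nd (nat_lit 61932) (PT.nd (nat_lit 78) (PT.lf (nat_lit 10488) (nat_lit 6) (nat_lit 138) (nat_lit 1) (nat_lit 210) (nat_lit 185) (nat_lit 205)) (PT.lf (nat_lit 10412) (nat_lit 6) (nat_lit 137) (nat_lit 1) (nat_lit 211) (nat_lit 185) (nat_lit 204))) (PT.nd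 (nat_lit 78) (PT.lf (nat_lit 10716) (nat_lit 6) (nat_lit 141) (nat_lit 3) (nat_lit 203) (nat_lit 186) (nat_lit 211)) (PT.nd (nat_lit 78) (PT.lf (nat_lit 10792) (nat_lit 6) (nat_lit 142) (nat_lit 3) (nat_lit 204) (nat_lit 186) (nat_lit 210)) (PT.lf (nat_lit 10868) (nat_lit 6) (nat_lit 143) (nat_lit 3) (nat_lit 205) (nat_lit 186) (nat_lit 209))))))) (PT.nd (nat_lit 62400) (PT.nd (nat_lit 312) (PT.nd (nat_lit 156) (PT.nd (nat_lit 78) (PT.lf (nat_lit 10944) (nat_lit 6) (nat_lit 144) (nat_lit 3) (nat_lit 206) (nat_lit 186) (nat_lit 208)) (PT.lf (nat_lit 11020) (nat_lit 3) (nat_lit 145) (nat_lit 1) (nat_lit 207) (nat_lit 186) (nat_lit 207))) (PT.nd (nat_lit 78) (PT.lf (nat_lit 10944) (nat_lit 6) (nat_lit 144) (nat_lit 1) (nat_lit 208) (nat_lit 186) (nat_lit 206)) (PT.lf (nat_lit 10868) (nat_lit 6) (nat_lit 143) (nat_lit 1) (nat_lit 209) (nat_lit 186) (nat_lit 205)))) (PT.nd (nat_lit 61854) (PT.nd (nat_lit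 78) (PT.lf (nat_lit 10792) (nat_lit 6) (nat_lit 142) (nat_lit 1) (nat_lit 210) (nat_lit 186) (nat_lit 204)) (PT.lf (nat_lit 10716) (nat_lit 6) (nat_lit 141) (nat_lit 1) (nat_lit 211) (nat_lit 186) (nat_lit 203))) (PT.nd (nat_lit 78) (PT.lf (nat_lit 11096) (nat_lit 6) (nat_lit 146) (nat_lit 3) (nat_lit 202) (nat_lit 187) (nat_lit 211)) (PT.nd (nat_lit 78) (PT.lf (nat_lit 11172) (nat_lit 6) (nat_lit 147) (nat_lit 3) (nat_lit 203) (nat_lit 187) (nat_lit 210)) (PT.lf (nat_lit 11248) (nat_lit 6) (nat_lit 148) (nat_lit 3) (nat_lit 204) (nat_lit 187) (nat_lit 209)))))) (PT.nd (nat_lit 312) (PT.nd (nat_lit 156) (PT.nd (nat_lit 78) (PT.lf (nat_lit 11324) (nat_lit 6) (nat_lit 149) (nat_lit 3) (nat_lit 205) (nat_lit 187) (nat_lit 208)) (PT.lf (nat_lit 11400) (nat_lit 6) (nat_lit 150) (nat_lit 3) (nat_lit 206) (nat_lit 187) (nat_lit 207))) (PT.nd (nat_lit 78) (PT.lf (nat_lit 11400) (nat_lit 6) (nat_lit 150)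 (nat_lit 1) (nat_lit 207) (nat_lit 187) (nat_lit 206)) (PT.lf (nat_lit 11324) (nat_lit 6) (nat_lit 149) (nat_lit 1) (nat_lit 208) (nat_lit 187) (nat_lit 205)))) (PT.nd (nat_lit 156) (PT.nd (nat_lit 78) (PT.lf (nat_lit 11248) (nat_lit 6) (nat_lit 148) (nat_lit 1) (nat_lit 209) (nat_lit 187) (nat_lit 204)) (PT.lf (nat_lit 11172) (nat_lit 6) (nat_lit 147) (nat_lit 1) (nat_lit 210) (nat_lit 187) (nat_lit 203))) (PT.nd (nat_lit 61698) (PT.lf (nat_lit 11096) (nat_lit 6) (nat_lit 146) (nat_lit 1) (nat_lit 211) (nat_lit 187) (nat_lit 202)) (PT.nd (nat_lit 78) (PT.lf (nat_lit 11476) (nat_lit 6) (nat_lit 151) (nat_lit 3) (nat_lit 201) (nat_lit 188) (nat_lit 211)) (PT.lf (nat_lit 11552) (nat_lit 6) (nat_lit 152) (nat_lit 3) (nat_lit 202) (nat_lit 188) (nat_lit 210))))))))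
noncomputable def pc7 : PT := (PT.nd (nat_lit 62946) (PT.nd (nat_lit 62244) (PT.nd (nat_lit 312) (PT.nd (nat_lit 156) (PT.nd (nat_lit 78) (PT.lf (nat_lit 11628) (nat_lit 6) (nat_lit 153) (nat_lit 3) (nat_lit 203) (nat_lit 188) (nat_lit 209)) (PT.lf (nat_lit 11704) (nat_lit 6) (nat_lit 154) (nat_lit 3) (nat_lit 204) (nat_lit 188) (nat_lit 208))) (PT.nd (nat_lit 78) (PT.lf (nat_lit 11780) (nat_lit 6) (nat_lit 155) (nat_lit 3) (nat_lit 205) (nat_lit 188) (nat_lit 207)) (PT.lf (nat_lit 11856) (nat_lit 3) (nat_lit 156) (nat_lit 1) (nat_lit 206) (nat_lit 188) (nat_lit 206)))) (PT.nd (nat_lit 156) (PT.nd (nat_lit 78) (PT.lf (nat_lit 11780) (nat_lit 6) (nat_lit 155) (nat_lit 1) (nat_lit 207) (nat_lit 188) (nat_lit 205)) (PT.lf (nat_lit 11704) (nat_lit 6) (nat_lit 154) (nat_lit 1) (nat_lit 208) (nat_lit 188) (nat_lit 204))) (PT.nd (nat_lit 78) (PT.lf (nat_lit 11628) (nat_lit 6) (nat_lit 153) (nat_lit 1)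 (nat_lit 209) (nat_lit 188) (nat_lit 203)) (PT.nd (nat_lit 78) (PT.lf (nat_lit 11552) (nat_lit 6) (nat_lit 152) (nat_lit 1) (nat_lit 210) (nat_lit 188) (nat_lit 202)) (PT.lf (nat_lit 11476) (nat_lit 6) (nat_lit 151) (nat_lit 1) (nat_lit 211) (nat_lit 188) (nat_lit 201)))))) (PT.nd (nat_lit 312) (PT.nd (nat_lit 156) (PT.nd (nat_lit 78) (PT.lf (nat_lit 11932) (nat_lit 6) (nat_lit 157) (nat_lit 3) (nat_lit 200) (nat_lit 189) (nat_lit 211)) (PT.lf (nat_lit 12008) (nat_lit 6) (nat_lit 158) (nat_lit 3) (nat_lit 201) (nat_lit 189) (nat_lit 210))) (PT.nd (nat_lit 78) (PT.lf (nat_lit 12084) (nat_lit 6) (nat_lit 159) (nat_lit 3) (nat_lit 202) (nat_lit 189) (nat_lit 209)) (PT.lf (nat_lit 12160) (nat_lit 6) (nat_lit 160) (nat_lit 3) (nat_lit 203) (nat_lit 189) (nat_lit 208)))) (PT.nd (nat_lit 156) (PT.nd (nat_lit 78) (PT.lf (nat_lit 12236) (nat_lit 6) (nat_lit 161) (nat_lit 3) (nat_lit 204) (nat_lit 189) (nat_lit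 207)) (PT.lf (nat_lit 12312) (nat_lit 6) (nat_lit 162) (nat_lit 3) (nat_lit 205) (nat_lit 189) (nat_lit 206))) (PT.nd (nat_lit 78) (PT.lf (nat_lit 12312) (nat_lit 6) (nat_lit 162) (nat_lit 1) (nat_lit 206) (nat_lit 189) (nat_lit 205)) (PT.nd (nat_lit 78) (PT.lf (nat_lit 12236) (nat_lit 6) (nat_lit 161) (nat_lit 1) (nat_lit 207) (nat_lit 189) (nat_lit 204)) (PT.lf (nat_lit 12160) (nat_lit 6) (nat_lit 160) (nat_lit 1) (nat_lit 208) (nat_lit 189) (nat_lit 203))))))) (PT.nd (nat_lit 62244) (PT.nd (nat_lit 61854) (PT.nd (nat_lit 156) (PT.nd (nat_lit 78) (PT.lf (nat_lit 12084) (nat_lit 6) (nat_lit 159) (nat_lit 1) (nat_lit 209) (nat_lit 189) (nat_lit 202)) (PT.lf (nat_lit 12008) (nat_lit 6) (nat_lit 158) (nat_lit 1) (nat_lit 210) (nat_lit 189) (nat_lit 201))) (PT.nd (nat_lit 61620) (PT.lf (nat_lit 11932) (nat_lit 6) (nat_lit 157) (nat_lit 1) (nat_lit 211) (nat_lit 189) (nat_lit 200)) (PT.lf (nat_lit 12768)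 (nat_lit 6) (nat_lit 168) (nat_lit 3) (nat_lit 200) (nat_lit 190) (nat_lit 210)))) (PT.nd (nat_lit 156) (PT.nd (nat_lit 78) (PT.lf (nat_lit 12844) (nat_lit 6) (nat_lit 169) (nat_lit 3) (nat_lit 201) (nat_lit 190) (nat_lit 209)) (PT.lf (nat_lit 12920) (nat_lit 6) (nat_lit 170) (nat_lit 3) (nat_lit 202) (nat_lit 190) (nat_lit 208))) (PT.nd (nat_lit 78) (PT.lf (nat_lit 12996) (nat_lit 6) (nat_lit 171) (nat_lit 3) (nat_lit 203) (nat_lit 190) (nat_lit 207)) (PT.nd (nat_lit 78) (PT.lf (nat_lit 13072) (nat_lit 6) (nat_lit 172) (nat_lit 3) (nat_lit 204) (nat_lit 190) (nat_lit 206)) (PT.lf (nat_lit 13148) (nat_lit 3) (nat_lit 173) (nat_lit 1) (nat_lit 205) (nat_lit 190) (nat_lit 205)))))) (PT.nd (nat_lit 312) (PT.nd (nat_lit 156) (PT.nd (nat_lit 78) (PT.lf (nat_lit 13072) (nat_lit 6) (nat_lit 172) (nat_lit 1) (nat_lit 206) (nat_lit 190) (nat_lit 204)) (PT.lf (nat_lit 12996) (nat_lit 6) (nat_lit 171) (nat_lit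 1) (nat_lit 207) (nat_lit 190) (nat_lit 203))) (PT.nd (nat_lit 78) (PT.lf (nat_lit 12920) (nat_lit 6) (nat_lit 170) (nat_lit 1) (nat_lit 208) (nat_lit 190) (nat_lit 202)) (PT.lf (nat_lit 12844) (nat_lit 6) (nat_lit 169) (nat_lit 1) (nat_lit 209) (nat_lit 190) (nat_lit 201)))) (PT.nd (nat_lit 61698) (PT.nd (nat_lit 61620) (PT.lf (nat_lit 12768) (nat_lit 6) (nat_lit 168) (nat_lit 1) (nat_lit 210) (nat_lit 190) (nat_lit 200)) (PT.lf (nat_lit 12692) (nat_lit 6) (nat_lit 167) (nat_lit 3) (nat_lit 199) (nat_lit 191) (nat_lit 210))) (PT.nd (nat_lit 78) (PT.lf (nat_lit 13528) (nat_lit 6) (nat_lit 178) (nat_lit 3) (nat_lit 200) (nat_lit 191) (nat_lit 209)) (PT.nd (nat_lit 78) (PT.lf (nat_lit 13604) (nat_lit 6) (nat_lit 179) (nat_lit 3) (nat_lit 201) (nat_lit 191) (nat_lit 208)) (PT.lf (nat_lit 13680) (nat_lit 6) (nat_lit 180) (nat_lit 3) (nat_lit 202) (nat_lit 191) (nat_lit 207))))))))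
noncomputable def pc8 : PT := (PT.nd (nat_lit 62790) (PT.nd (nat_lit 62088) (PT.nd (nat_lit 312) (PT.nd (nat_lit 156) (PT.nd (nat_lit 78) (PT.lf (nat_lit 13756) (nat_lit 6) (nat_lit 181) (nat_lit 3) (nat_lit 203) (nat_lit 191) (nat_lit 206)) (PT.lf (nat_lit 13832) (nat_lit 6) (nat_lit 182) (nat_lit 3) (nat_lit 204) (nat_lit 191) (nat_lit 205))) (PT.nd (nat_lit 78) (PT.lf (nat_lit 13832) (nat_lit 6) (nat_lit 182) (nat_lit 1) (nat_lit 205) (nat_lit 191) (nat_lit 204)) (PT.lf (nat_lit 13756) (nat_lit 6) (nat_lit 181) (nat_lit 1) (nat_lit 206) (nat_lit 191) (nat_lit 203)))) (PT.nd (nat_lit 156) (PT.nd (nat_lit 78) (PT.lf (nat_lit 13680) (nat_lit 6) (nat_lit 180) (nat_lit 1) (nat_lit 207) (nat_lit 191) (nat_lit 202)) (PT.lf (nat_lit 13604) (nat_lit 6) (nat_lit 179) (nat_lit 1) (nat_lit 208) (nat_lit 191) (nat_lit 201))) (PT.nd (nat_lit 78) (PT.lf (nat_lit 13528) (nat_lit 6) (nat_lit 178) (nat_lit 1)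 (nat_lit 209) (nat_lit 191) (nat_lit 200)) (PT.lf (nat_lit 12692) (nat_lit 6) (nat_lit 167) (nat_lit 1) (nat_lit 210) (nat_lit 191) (nat_lit 199))))) (PT.nd (nat_lit 312) (PT.nd (nat_lit 156) (PT.nd (nat_lit 78) (PT.lf (nat_lit 12616) (nat_lit 6) (nat_lit 166) (nat_lit 3) (nat_lit 198) (nat_lit 192) (nat_lit 210)) (PT.lf (nat_lit 13452) (nat_lit 6) (nat_lit 177) (nat_lit 3) (nat_lit 199) (nat_lit 192) (nat_lit 209))) (PT.nd (nat_lit 78) (PT.lf (nat_lit 14212) (nat_lit 6) (nat_lit 187) (nat_lit 3) (nat_lit 200) (nat_lit 192) (nat_lit 208)) (PT.lf (nat_lit 14288) (nat_lit 6) (nat_lit 188) (nat_lit 3) (nat_lit 201) (nat_lit 192) (nat_lit 207)))) (PT.nd (nat_lit 156) (PT.nd (nat_lit 78) (PT.lf (nat_lit 14364) (nat_lit 6) (nat_lit 189) (nat_lit 3) (nat_lit 202) (nat_lit 192) (nat_lit 206)) (PT.lf (nat_lit 14440) (nat_lit 6) (nat_lit 190) (nat_lit 3) (nat_lit 203) (nat_lit 192) (nat_lit 205))) (PT.nd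 (nat_lit 78) (PT.lf (nat_lit 14516) (nat_lit 3) (nat_lit 191) (nat_lit 1) (nat_lit 204) (nat_lit 192) (nat_lit 204)) (PT.nd (nat_lit 78) (PT.lf (nat_lit 14440) (nat_lit 6) (nat_lit 190) (nat_lit 1) (nat_lit 205) (nat_lit 192) (nat_lit 203)) (PT.lf (nat_lit 14364) (nat_lit 6) (nat_lit 189) (nat_lit 1) (nat_lit 206) (nat_lit 192) (nat_lit 202))))))) (PT.nd (nat_lit 62088) (PT.nd (nat_lit 61698) (PT.nd (nat_lit 156) (PT.nd (nat_lit 78) (PT.lf (nat_lit 14288) (nat_lit 6) (nat_lit 188) (nat_lit 1) (nat_lit 207) (nat_lit 192) (nat_lit 201)) (PT.lf (nat_lit 14212) (nat_lit 6) (nat_lit 187) (nat_lit 1) (nat_lit 208) (nat_lit 192) (nat_lit 200))) (PT.nd (nat_lit 78) (PT.lf (nat_lit 13452) (nat_lit 6) (nat_lit 177) (nat_lit 1) (nat_lit 209) (nat_lit 192) (nat_lit 199)) (PT.lf (nat_lit 12616) (nat_lit 6) (nat_lit 166) (nat_lit 1) (nat_lit 210) (nat_lit 192) (nat_lit 198)))) (PT.nd (nat_lit 156) (PT.nd (nat_lit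 78) (PT.lf (nat_lit 12540) (nat_lit 6) (nat_lit 165) (nat_lit 3) (nat_lit 197) (nat_lit 193) (nat_lit 210)) (PT.lf (nat_lit 13376) (nat_lit 6) (nat_lit 176) (nat_lit 3) (nat_lit 198) (nat_lit 193) (nat_lit 209))) (PT.nd (nat_lit 78) (PT.lf (nat_lit 14136) (nat_lit 6) (nat_lit 186) (nat_lit 3) (nat_lit 199) (nat_lit 193) (nat_lit 208)) (PT.nd (nat_lit 78) (PT.lf (nat_lit 14820) (nat_lit 6) (nat_lit 195) (nat_lit 3) (nat_lit 200) (nat_lit 193) (nat_lit 207)) (PT.lf (nat_lit 14896) (nat_lit 6) (nat_lit 196) (nat_lit 3) (nat_lit 201) (nat_lit 193) (nat_lit 206)))))) (PT.nd (nat_lit 312) (PT.nd (nat_lit 156) (PT.nd (nat_lit 78) (PT.lf (nat_lit 14972) (nat_lit 6) (nat_lit 197) (nat_lit 3) (nat_lit 202) (nat_lit 193) (nat_lit 205)) (PT.lf (nat_lit 15048) (nat_lit 6) (nat_lit 198) (nat_lit 3) (nat_lit 203) (nat_lit 193) (nat_lit 204))) (PT.nd (nat_lit 78) (PT.lf (nat_lit 15048) (nat_lit 6) (nat_lit 198)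 (nat_lit 1) (nat_lit 204) (nat_lit 193) (nat_lit 203)) (PT.lf (nat_lit 14972) (nat_lit 6) (nat_lit 197) (nat_lit 1) (nat_lit 205) (nat_lit 193) (nat_lit 202)))) (PT.nd (nat_lit 156) (PT.nd (nat_lit 78) (PT.lf (nat_lit 14896) (nat_lit 6) (nat_lit 196) (nat_lit 1) (nat_lit 206) (nat_lit 193) (nat_lit 201)) (PT.lf (nat_lit 14820) (nat_lit 6) (nat_lit 195) (nat_lit 1) (nat_lit 207) (nat_lit 193) (nat_lit 200))) (PT.nd (nat_lit 78) (PT.lf (nat_lit 14136) (nat_lit 6) (nat_lit 186) (nat_lit 1) (nat_lit 208) (nat_lit 193) (nat_lit 199)) (PT.nd (nat_lit 78) (PT.lf (nat_lit 13376) (nat_lit 6) (nat_lit 176) (nat_lit 1) (nat_lit 209) (nat_lit 193) (nat_lit 198)) (PT.lf (nat_lit 12540) (nat_lit 6) (nat_lit 165) (nat_lit 1) (nat_lit 210) (nat_lit 193) (nat_lit 197))))))))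
noncomputable def pc9 : PT := (PT.nd (nat_lit 62634) (PT.nd (nat_lit 702) (PT.nd (nat_lit 312) (PT.nd (nat_lit 156) (PT.nd (nat_lit 78) (PT.lf (nat_lit 12464) (nat_lit 6) (nat_lit 164) (nat_lit 3) (nat_lit 196) (nat_lit 194) (nat_lit 210)) (PT.lf (nat_lit 13300) (nat_lit 6) (nat_lit 175) (nat_lit 3) (nat_lit 197) (nat_lit 194) (nat_lit 209))) (PT.nd (nat_lit 78) (PT.lf (nat_lit 14060) (nat_lit 6) (nat_lit 185) (nat_lit 3) (nat_lit 198) (nat_lit 194) (nat_lit 208)) (PT.lf (nat_lit 14744) (nat_lit 6) (nat_lit 194) (nat_lit 3) (nat_lit 199) (nat_lit 194) (nat_lit 207)))) (PT.nd (nat_lit 156) (PT.nd (nat_lit 78) (PT.lf (nat_lit 15352) (nat_lit 6) (nat_lit 202) (nat_lit 3) (nat_lit 200) (nat_lit 194) (nat_lit 206)) (PT.lf (nat_lit 15428) (nat_lit 6) (nat_lit 203) (nat_lit 3) (nat_lit 201) (nat_lit 194) (nat_lit 205))) (PT.nd (nat_lit 78) (PT.lf (nat_lit 15504) (nat_lit 6) (nat_lit 204) (nat_lit 3) (nat_lit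 202) (nat_lit 194) (nat_lit 204)) (PT.nd (nat_lit 78) (PT.lf (nat_lit 15580) (nat_lit 3) (nat_lit 205) (nat_lit 1) (nat_lit 203) (nat_lit 194) (nat_lit 203)) (PT.lf (nat_lit 15504) (nat_lit 6) (nat_lit 204) (nat_lit 1) (nat_lit 204) (nat_lit 194) (nat_lit 202)))))) (PT.nd (nat_lit 312) (PT.nd (nat_lit 156) (PT.nd (nat_lit 78) (PT.lf (nat_lit 15428) (nat_lit 6) (nat_lit 203) (nat_lit 1) (nat_lit 205) (nat_lit 194) (nat_lit 201)) (PT.lf (nat_lit 15352) (nat_lit 6) (nat_lit 202) (nat_lit 1) (nat_lit 206) (nat_lit 194) (nat_lit 200))) (PT.nd (nat_lit 78) (PT.lf (nat_lit 14744) (nat_lit 6) (nat_lit 194) (nat_lit 1) (nat_lit 207) (nat_lit 194) (nat_lit 199)) (PT.lf (nat_lit 14060) (nat_lit 6) (nat_lit 185) (nat_lit 1) (nat_lit 208) (nat_lit 194) (nat_lit 198)))) (PT.nd (nat_lit 61386) (PT.nd (nat_lit 78) (PT.lf (nat_lit 13300) (nat_lit 6) (nat_lit 175) (nat_lit 1) (nat_lit 209) (nat_lit 194) (nat_lit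 197)) (PT.lf (nat_lit 12464) (nat_lit 6) (nat_lit 164) (nat_lit 1) (nat_lit 210) (nat_lit 194) (nat_lit 196))) (PT.nd (nat_lit 78) (PT.lf (nat_lit 12388) (nat_lit 3) (nat_lit 163) (nat_lit 3) (nat_lit 195) (nat_lit 195) (nat_lit 210)) (PT.nd (nat_lit 78) (PT.lf (nat_lit 13224) (nat_lit 6) (nat_lit 174) (nat_lit 3) (nat_lit 196) (nat_lit 195) (nat_lit 209)) (PT.lf (nat_lit 13984) (nat_lit 6) (nat_lit 184) (nat_lit 3) (nat_lit 197) (nat_lit 195) (nat_lit 208))))))) (PT.nd (nat_lit 702) (PT.nd (nat_lit 312) (PT.nd (nat_lit 156) (PT.nd (nat_lit 78) (PT.lf (nat_lit 14668) (nat_lit 6) (nat_lit 193) (nat_lit 3) (nat_lit 198) (nat_lit 195) (nat_lit 207)) (PT.lf (nat_lit 15276) (nat_lit 6) (nat_lit 201) (nat_lit 3) (nat_lit 199) (nat_lit 195) (nat_lit 206))) (PT.nd (nat_lit 78) (PT.lf (nat_lit 15808) (nat_lit 6) (nat_lit 208) (nat_lit 3) (nat_lit 200) (nat_lit 195) (nat_lit 205)) (PT.lf (nat_lit 15884) (nat_lit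 6) (nat_lit 209) (nat_lit 3) (nat_lit 201) (nat_lit 195) (nat_lit 204)))) (PT.nd (nat_lit 156) (PT.nd (nat_lit 78) (PT.lf (nat_lit 15960) (nat_lit 6) (nat_lit 210) (nat_lit 3) (nat_lit 202) (nat_lit 195) (nat_lit 203)) (PT.lf (nat_lit 15960) (nat_lit 6) (nat_lit 210) (nat_lit 1) (nat_lit 203) (nat_lit 195) (nat_lit 202))) (PT.nd (nat_lit 78) (PT.lf (nat_lit 15884) (nat_lit 6) (nat_lit 209) (nat_lit 1) (nat_lit 204) (nat_lit 195) (nat_lit 201)) (PT.nd (nat_lit 78) (PT.lf (nat_lit 15808) (nat_lit 6) (nat_lit 208) (nat_lit 1) (nat_lit 205) (nat_lit 195) (nat_lit 200)) (PT.lf (nat_lit 15276) (nat_lit 6) (nat_lit 201) (nat_lit 1) (nat_lit 206) (nat_lit 195) (nat_lit 199)))))) (PT.nd (nat_lit 61464) (PT.nd (nat_lit 156) (PT.nd (nat_lit 78) (PT.lf (nat_lit 14668) (nat_lit 6) (nat_lit 193) (nat_lit 1) (nat_lit 207) (nat_lit 195) (nat_lit 198)) (PT.lf (nat_lit 13984) (nat_lit 6) (nat_lit 184) (nat_lit 1)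 (nat_lit 208) (nat_lit 195) (nat_lit 197))) (PT.nd (nat_lit 78) (PT.lf (nat_lit 13224) (nat_lit 6) (nat_lit 174) (nat_lit 1) (nat_lit 209) (nat_lit 195) (nat_lit 196)) (PT.lf (nat_lit 12388) (nat_lit 3) (nat_lit 163) (nat_lit 0) (nat_lit 210) (nat_lit 195) (nat_lit 195)))) (PT.nd (nat_lit 156) (PT.nd (nat_lit 78) (PT.lf (nat_lit 12464) (nat_lit 6) (nat_lit 164) (nat_lit 5) (nat_lit 194) (nat_lit 196) (nat_lit 210)) (PT.lf (nat_lit 13224) (nat_lit 6) (nat_lit 174) (nat_lit 5) (nat_lit 195) (nat_lit 196) (nat_lit 209))) (PT.nd (nat_lit 78) (PT.lf (nat_lit 13908) (nat_lit 3) (nat_lit 183) (nat_lit 3) (nat_lit 196) (nat_lit 196) (nat_lit 208)) (PT.nd (nat_lit 78) (PT.lf (nat_lit 14592) (nat_lit 6) (nat_lit 192) (nat_lit 3) (nat_lit 197) (nat_lit 196) (nat_lit 207)) (PT.lf (nat_lit 15200) (nat_lit 6) (nat_lit 200) (nat_lit 3) (nat_lit 198) (nat_lit 196) (nat_lit 206))))))))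
noncomputable def pc10 : PT := (PT.nd (nat_lit 62400) (PT.nd (nat_lit 624) (PT.nd (nat_lit 312) (PT.nd (nat_lit 156) (PT.nd (nat_lit 78) (PT.lf (nat_lit 15732) (nat_lit 6) (nat_lit 207) (nat_lit 3) (nat_lit 199) (nat_lit 196) (nat_lit 205)) (PT.lf (nat_lit 16188) (nat_lit 6) (nat_lit 213) (nat_lit 3) (nat_lit 200) (nat_lit 196) (nat_lit 204))) (PT.nd (nat_lit 78) (PT.lf (nat_lit 16264) (nat_lit 6) (nat_lit 214) (nat_lit 3) (nat_lit 201) (nat_lit 196) (nat_lit 203)) (PT.lf (nat_lit 16340) (nat_lit 3) (nat_lit 215) (nat_lit 1) (nat_lit 202) (nat_lit 196) (nat_lit 202)))) (PT.nd (nat_lit 156) (PT.nd (nat_lit 78) (PT.lf (nat_lit 16264) (nat_lit 6) (nat_lit 214) (nat_lit 1) (nat_lit 203) (nat_lit 196) (nat_lit 201)) (PT.lf (nat_lit 16188) (nat_lit 6) (nat_lit 213) (nat_lit 1) (nat_lit 204) (nat_lit 196) (nat_lit 200))) (PT.nd (nat_lit 78) (PT.lf (nat_lit 15732) (nat_lit 6) (nat_lit 207) (nat_lit 1) (nat_lit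 205) (nat_lit 196) (nat_lit 199)) (PT.lf (nat_lit 15200) (nat_lit 6) (nat_lit 200) (nat_lit 1) (nat_lit 206) (nat_lit 196) (nat_lit 198))))) (PT.nd (nat_lit 61386) (PT.nd (nat_lit 156) (PT.nd (nat_lit 78) (PT.lf (nat_lit 14592) (nat_lit 6) (nat_lit 192) (nat_lit 1) (nat_lit 207) (nat_lit 196) (nat_lit 197)) (PT.lf (nat_lit 13908) (nat_lit 3) (nat_lit 183) (nat_lit 0) (nat_lit 208) (nat_lit 196) (nat_lit 196))) (PT.nd (nat_lit 78) (PT.lf (nat_lit 13224) (nat_lit 6) (nat_lit 174) (nat_lit 0) (nat_lit 209) (nat_lit 196) (nat_lit 195)) (PT.lf (nat_lit 12464) (nat_lit 6) (nat_lit 164) (nat_lit 0) (nat_lit 210) (nat_lit 196) (nat_lit 194)))) (PT.nd (nat_lit 156) (PT.nd (nat_lit 78) (PT.lf (nat_lit 12540) (nat_lit 6) (nat_lit 165) (nat_lit 5) (nat_lit 193) (nat_lit 197) (nat_lit 210)) (PT.lf (nat_lit 13300) (nat_lit 6) (nat_lit 175) (nat_lit 5) (nat_lit 194) (nat_lit 197) (nat_lit 209))) (PT.nd (nat_lit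 78) (PT.lf (nat_lit 13984) (nat_lit 6) (nat_lit 184) (nat_lit 5) (nat_lit 195) (nat_lit 197) (nat_lit 208)) (PT.nd (nat_lit 78) (PT.lf (nat_lit 14592) (nat_lit 6) (nat_lit 192) (nat_lit 5) (nat_lit 196) (nat_lit 197) (nat_lit 207)) (PT.lf (nat_lit 15124) (nat_lit 3) (nat_lit 199) (nat_lit 3) (nat_lit 197) (nat_lit 197) (nat_lit 206))))))) (PT.nd (nat_lit 702) (PT.nd (nat_lit 312) (PT.nd (nat_lit 156) (PT.nd (nat_lit 78) (PT.lf (nat_lit 15656) (nat_lit 6) (nat_lit 206) (nat_lit 3) (nat_lit 198) (nat_lit 197) (nat_lit 205)) (PT.lf (nat_lit 16112) (nat_lit 6) (nat_lit 212) (nat_lit 3) (nat_lit 199) (nat_lit 197) (nat_lit 204))) (PT.nd (nat_lit 78) (PT.lf (nat_lit 16492) (nat_lit 6) (nat_lit 217) (nat_lit 3) (nat_lit 200) (nat_lit 197) (nat_lit 203)) (PT.lf (nat_lit 16568) (nat_lit 6) (nat_lit 218) (nat_lit 3) (nat_lit 201) (nat_lit 197) (nat_lit 202)))) (PT.nd (nat_lit 156) (PT.nd (nat_lit 78) (PT.lf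 (nat_lit 16568) (nat_lit 6) (nat_lit 218) (nat_lit 1) (nat_lit 202) (nat_lit 197) (nat_lit 201)) (PT.lf (nat_lit 16492) (nat_lit 6) (nat_lit 217) (nat_lit 1) (nat_lit 203) (nat_lit 197) (nat_lit 200))) (PT.nd (nat_lit 78) (PT.lf (nat_lit 16112) (nat_lit 6) (nat_lit 212) (nat_lit 1) (nat_lit 204) (nat_lit 197) (nat_lit 199)) (PT.nd (nat_lit 78) (PT.lf (nat_lit 15656) (nat_lit 6) (nat_lit 206) (nat_lit 1) (nat_lit 205) (nat_lit 197) (nat_lit 198)) (PT.lf (nat_lit 15124) (nat_lit 3) (nat_lit 199) (nat_lit 0) (nat_lit 206) (nat_lit 197) (nat_lit 197)))))) (PT.nd (nat_lit 61308) (PT.nd (nat_lit 156) (PT.nd (nat_lit 78) (PT.lf (nat_lit 14592) (nat_lit 6) (nat_lit 192) (nat_lit 0) (nat_lit 207) (nat_lit 197) (nat_lit 196)) (PT.lf (nat_lit 13984) (nat_lit 6) (nat_lit 184) (nat_lit 0) (nat_lit 208) (nat_lit 197) (nat_lit 195))) (PT.nd (nat_lit 78) (PT.lf (nat_lit 13300) (nat_lit 6) (nat_lit 175) (nat_lit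 0) (nat_lit 209) (nat_lit 197) (nat_lit 194)) (PT.lf (nat_lit 12540) (nat_lit 6) (nat_lit 165) (nat_lit 0) (nat_lit 210) (nat_lit 197) (nat_lit 193)))) (PT.nd (nat_lit 156) (PT.nd (nat_lit 78) (PT.lf (nat_lit 12616) (nat_lit 6) (nat_lit 166) (nat_lit 5) (nat_lit 192) (nat_lit 198) (nat_lit 210)) (PT.lf (nat_lit 13376) (nat_lit 6) (nat_lit 176) (nat_lit 5) (nat_lit 193) (nat_lit 198) (nat_lit 209))) (PT.nd (nat_lit 78) (PT.lf (nat_lit 14060) (nat_lit 6) (nat_lit 185) (nat_lit 5) (nat_lit 194) (nat_lit 198) (nat_lit 208)) (PT.nd (nat_lit 78) (PT.lf (nat_lit 14668) (nat_lit 6) (nat_lit 193) (nat_lit 5) (nat_lit 195) (nat_lit 198) (nat_lit 207)) (PT.lf (nat_lit 15200) (nat_lit 6) (nat_lit 200) (nat_lit 5) (nat_lit 196) (nat_lit 198) (nat_lit 206))))))))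
noncomputable def pc11 : PT := (PT.nd (nat_lit 62322) (PT.nd (nat_lit 702) (PT.nd (nat_lit 312) (PT.nd (nat_lit 156) (PT.nd (nat_lit 78) (PT.lf (nat_lit 15656) (nat_lit 6) (nat_lit 206) (nat_lit 5) (nat_lit 197) (nat_lit 198) (nat_lit 205)) (PT.lf (nat_lit 16036) (nat_lit 3) (nat_lit 211) (nat_lit 3) (nat_lit 198) (nat_lit 198) (nat_lit 204))) (PT.nd (nat_lit 78) (PT.lf (nat_lit 16416) (nat_lit 6) (nat_lit 216) (nat_lit 3) (nat_lit 199) (nat_lit 198) (nat_lit 203)) (PT.lf (nat_lit 16720) (nat_lit 6) (nat_lit 220) (nat_lit 3) (nat_lit 200) (nat_lit 198) (nat_lit 202)))) (PT.nd (nat_lit 156) (PT.nd (nat_lit 78) (PT.lf (nat_lit 16796) (nat_lit 3) (nat_lit 221) (nat_lit 1) (nat_lit 201) (nat_lit 198) (nat_lit 201)) (PT.lf (nat_lit 16720) (nat_lit 6) (nat_lit 220) (nat_lit 1) (nat_lit 202) (nat_lit 198) (nat_lit 200))) (PT.nd (nat_lit 78) (PT.lf (nat_lit 16416) (nat_lit 6) (nat_lit 216) (nat_lit 1) (nat_lit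 203) (nat_lit 198) (nat_lit 199)) (PT.nd (nat_lit 78) (PT.lf (nat_lit 16036) (nat_lit 3) (nat_lit 211) (nat_lit 0) (nat_lit 204) (nat_lit 198) (nat_lit 198)) (PT.lf (nat_lit 15656) (nat_lit 6) (nat_lit 206) (nat_lit 0) (nat_lit 205) (nat_lit 198) (nat_lit 197)))))) (PT.nd (nat_lit 312) (PT.nd (nat_lit 156) (PT.nd (nat_lit 78) (PT.lf (nat_lit 15200) (nat_lit 6) (nat_lit 200) (nat_lit 0) (nat_lit 206) (nat_lit 198) (nat_lit 196)) (PT.lf (nat_lit 14668) (nat_lit 6) (nat_lit 193) (nat_lit 0) (nat_lit 207) (nat_lit 198) (nat_lit 195))) (PT.nd (nat_lit 78) (PT.lf (nat_lit 14060) (nat_lit 6) (nat_lit 185) (nat_lit 0) (nat_lit 208) (nat_lit 198) (nat_lit 194)) (PT.lf (nat_lit 13376) (nat_lit 6) (nat_lit 176) (nat_lit 0) (nat_lit 209) (nat_lit 198) (nat_lit 193)))) (PT.nd (nat_lit 61074) (PT.nd (nat_lit 60996) (PT.lf (nat_lit 12616) (nat_lit 6) (nat_lit 166) (nat_lit 0) (nat_lit 210) (nat_lit 198) (nat_lit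 192)) (PT.lf (nat_lit 12692) (nat_lit 6) (nat_lit 167) (nat_lit 5) (nat_lit 191) (nat_lit 199) (nat_lit 210))) (PT.nd (nat_lit 78) (PT.lf (nat_lit 13452) (nat_lit 6) (nat_lit 177) (nat_lit 5) (nat_lit 192) (nat_lit 199) (nat_lit 209)) (PT.nd (nat_lit 78) (PT.lf (nat_lit 14136) (nat_lit 6) (nat_lit 186) (nat_lit 5) (nat_lit 193) (nat_lit 199) (nat_lit 208)) (PT.lf (nat_lit 14744) (nat_lit 6) (nat_lit 194) (nat_lit 5) (nat_lit 194) (nat_lit 199) (nat_lit 207))))))) (PT.nd (nat_lit 702) (PT.nd (nat_lit 312) (PT.nd (nat_lit 156) (PT.nd (nat_lit 78) (PT.lf (nat_lit 15276) (nat_lit 6) (nat_lit 201) (nat_lit 5) (nat_lit 195) (nat_lit 199) (nat_lit 206)) (PT.lf (nat_lit 15732) (nat_lit 6) (nat_lit 207) (nat_lit 5) (nat_lit 196) (nat_lit 199) (nat_lit 205))) (PT.nd (nat_lit 78) (PT.lf (nat_lit 16112) (nat_lit 6) (nat_lit 212) (nat_lit 5) (nat_lit 197) (nat_lit 199) (nat_lit 204)) (PT.lf (nat_lit 16416) (nat_lit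 6) (nat_lit 216) (nat_lit 5) (nat_lit 198) (nat_lit 199) (nat_lit 203)))) (PT.nd (nat_lit 156) (PT.nd (nat_lit 78) (PT.lf (nat_lit 16644) (nat_lit 3) (nat_lit 219) (nat_lit 3) (nat_lit 199) (nat_lit 199) (nat_lit 202)) (PT.lf (nat_lit 16872) (nat_lit 6) (nat_lit 222) (nat_lit 3) (nat_lit 200) (nat_lit 199) (nat_lit 201))) (PT.nd (nat_lit 78) (PT.lf (nat_lit 16872) (nat_lit 6) (nat_lit 222) (nat_lit 1) (nat_lit 201) (nat_lit 199) (nat_lit 200)) (PT.nd (nat_lit 78) (PT.lf (nat_lit 16644) (nat_lit 3) (nat_lit 219) (nat_lit 0) (nat_lit 202) (nat_lit 199) (nat_lit 199)) (PT.lf (nat_lit 16416) (nat_lit 6) (nat_lit 216) (nat_lit 0) (nat_lit 203) (nat_lit 199) (nat_lit 198)))))) (PT.nd (nat_lit 312) (PT.nd (nat_lit 156) (PT.nd (nat_lit 78) (PT.lf (nat_lit 16112) (nat_lit 6) (nat_lit 212) (nat_lit 0) (nat_lit 204) (nat_lit 199) (nat_lit 197)) (PT.lf (nat_lit 15732) (nat_lit 6) (nat_lit 207) (nat_lit 0) (nat_lit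 205) (nat_lit 199) (nat_lit 196))) (PT.nd (nat_lit 78) (PT.lf (nat_lit 15276) (nat_lit 6) (nat_lit 201) (nat_lit 0) (nat_lit 206) (nat_lit 199) (nat_lit 195)) (PT.lf (nat_lit 14744) (nat_lit 6) (nat_lit 194) (nat_lit 0) (nat_lit 207) (nat_lit 199) (nat_lit 194)))) (PT.nd (nat_lit 156) (PT.nd (nat_lit 78) (PT.lf (nat_lit 14136) (nat_lit 6) (nat_lit 186) (nat_lit 0) (nat_lit 208) (nat_lit 199) (nat_lit 193)) (PT.lf (nat_lit 13452) (nat_lit 6) (nat_lit 177) (nat_lit 0) (nat_lit 209) (nat_lit 199) (nat_lit 192))) (PT.nd (nat_lit 60840) (PT.lf (nat_lit 12692) (nat_lit 6) (nat_lit 167) (nat_lit 0) (nat_lit 210) (nat_lit 199) (nat_lit 191)) (PT.nd (nat_lit 78) (PT.lf (nat_lit 11932) (nat_lit 6) (nat_lit 157) (nat_lit 5) (nat_lit 189) (nat_lit 200) (nat_lit 211)) (PT.lf (nat_lit 12768) (nat_lit 6) (nat_lit 168) (nat_lit 5) (nat_lit 190) (nat_lit 200) (nat_lit 210))))))))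
noncomputable def pc12 : PT := (PT.nd (nat_lit 1326) (PT.nd (nat_lit 624) (PT.nd (nat_lit 312) (PT.nd (nat_lit 156) (PT.nd (nat_lit 78) (PT.lf (nat_lit 13528) (nat_lit 6) (nat_lit 178) (nat_lit 5) (nat_lit 191) (nat_lit 200) (nat_lit 209)) (PT.lf (nat_lit 14212) (nat_lit 6) (nat_lit 187) (nat_lit 5) (nat_lit 192) (nat_lit 200) (nat_lit 208))) (PT.nd (nat_lit 78) (PT.lf (nat_lit 14820) (nat_lit 6) (nat_lit 195) (nat_lit 5) (nat_lit 193) (nat_lit 200) (nat_lit 207)) (PT.lf (nat_lit 15352) (nat_lit 6) (nat_lit 202) (nat_lit 5) (nat_lit 194) (nat_lit 200) (nat_lit 206)))) (PT.nd (nat_lit 156) (PT.nd (nat_lit 78) (PT.lf (nat_lit 15808) (nat_lit 6) (nat_lit 208) (nat_lit 5) (nat_lit 195) (nat_lit 200) (nat_lit 205)) (PT.lf (nat_lit 16188) (nat_lit 6) (nat_lit 213) (nat_lit 5) (nat_lit 196) (nat_lit 200) (nat_lit 204))) (PT.nd (nat_lit 78) (PT.lf (nat_lit 16492) (nat_lit 6) (nat_lit 217) (nat_lit 5) (nat_lit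 197) (nat_lit 200) (nat_lit 203)) (PT.lf (nat_lit 16720) (nat_lit 6) (nat_lit 220) (nat_lit 5) (nat_lit 198) (nat_lit 200) (nat_lit 202))))) (PT.nd (nat_lit 312) (PT.nd (nat_lit 156) (PT.nd (nat_lit 78) (PT.lf (nat_lit 16872) (nat_lit 6) (nat_lit 222) (nat_lit 5) (nat_lit 199) (nat_lit 200) (nat_lit 201)) (PT.lf (nat_lit 16948) (nat_lit 1) (nat_lit 223) (nat_lit 0) (nat_lit 200) (nat_lit 200) (nat_lit 200))) (PT.nd (nat_lit 78) (PT.lf (nat_lit 16872) (nat_lit 6) (nat_lit 222) (nat_lit 0) (nat_lit 201) (nat_lit 200) (nat_lit 199)) (PT.lf (nat_lit 16720) (nat_lit 6) (nat_lit 220) (nat_lit 0) (nat_lit 202) (nat_lit 200) (nat_lit 198)))) (PT.nd (nat_lit 156) (PT.nd (nat_lit 78) (PT.lf (nat_lit 16492) (nat_lit 6) (nat_lit 217) (nat_lit 0) (nat_lit 203) (nat_lit 200) (nat_lit 197)) (PT.lf (nat_lit 16188) (nat_lit 6) (nat_lit 213) (nat_lit 0) (nat_lit 204) (nat_lit 200) (nat_lit 196))) (PT.nd (nat_lit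 78) (PT.lf (nat_lit 15808) (nat_lit 6) (nat_lit 208) (nat_lit 0) (nat_lit 205) (nat_lit 200) (nat_lit 195)) (PT.nd (nat_lit 78) (PT.lf (nat_lit 15352) (nat_lit 6) (nat_lit 202) (nat_lit 0) (nat_lit 206) (nat_lit 200) (nat_lit 194)) (PT.lf (nat_lit 14820) (nat_lit 6) (nat_lit 195) (nat_lit 0) (nat_lit 207) (nat_lit 200) (nat_lit 193))))))) (PT.nd (nat_lit 61308) (PT.nd (nat_lit 60918) (PT.nd (nat_lit 156) (PT.nd (nat_lit 78) (PT.lf (nat_lit 14212) (nat_lit 6) (nat_lit 187) (nat_lit 0) (nat_lit 208) (nat_lit 200) (nat_lit 192)) (PT.lf (nat_lit 13528) (nat_lit 6) (nat_lit 178) (nat_lit 0) (nat_lit 209) (nat_lit 200) (nat_lit 191))) (PT.nd (nat_lit 78) (PT.lf (nat_lit 12768) (nat_lit 6) (nat_lit 168) (nat_lit 0) (nat_lit 210) (nat_lit 200) (nat_lit 190)) (PT.lf (nat_lit 11932) (nat_lit 6) (nat_lit 157) (nat_lit 0) (nat_lit 211) (nat_lit 200) (nat_lit 189)))) (PT.nd (nat_lit 156) (PT.nd (nat_lit 78)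 (PT.lf (nat_lit 11476) (nat_lit 6) (nat_lit 151) (nat_lit 5) (nat_lit 188) (nat_lit 201) (nat_lit 211)) (PT.lf (nat_lit 12008) (nat_lit 6) (nat_lit 158) (nat_lit 5) (nat_lit 189) (nat_lit 201) (nat_lit 210))) (PT.nd (nat_lit 78) (PT.lf (nat_lit 12844) (nat_lit 6) (nat_lit 169) (nat_lit 5) (nat_lit 190) (nat_lit 201) (nat_lit 209)) (PT.nd (nat_lit 78) (PT.lf (nat_lit 13604) (nat_lit 6) (nat_lit 179) (nat_lit 5) (nat_lit 191) (nat_lit 201) (nat_lit 208)) (PT.lf (nat_lit 14288) (nat_lit 6) (nat_lit 188) (nat_lit 5) (nat_lit 192) (nat_lit 201) (nat_lit 207)))))) (PT.nd (nat_lit 312) (PT.nd (nat_lit 156) (PT.nd (nat_lit 78) (PT.lf (nat_lit 14896) (nat_lit 6) (nat_lit 196) (nat_lit 5) (nat_lit 193) (nat_lit 201) (nat_lit 206)) (PT.lf (nat_lit 15428) (nat_lit 6) (nat_lit 203) (nat_lit 5) (nat_lit 194) (nat_lit 201) (nat_lit 205))) (PT.nd (nat_lit 78) (PT.lf (nat_lit 15884) (nat_lit 6) (nat_lit 209) (nat_lit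 5) (nat_lit 195) (nat_lit 201) (nat_lit 204)) (PT.lf (nat_lit 16264) (nat_lit 6) (nat_lit 214) (nat_lit 5) (nat_lit 196) (nat_lit 201) (nat_lit 203)))) (PT.nd (nat_lit 156) (PT.nd (nat_lit 78) (PT.lf (nat_lit 16568) (nat_lit 6) (nat_lit 218) (nat_lit 5) (nat_lit 197) (nat_lit 201) (nat_lit 202)) (PT.lf (nat_lit 16796) (nat_lit 3) (nat_lit 221) (nat_lit 4) (nat_lit 198) (nat_lit 201) (nat_lit 201))) (PT.nd (nat_lit 78) (PT.lf (nat_lit 16872) (nat_lit 6) (nat_lit 222) (nat_lit 4) (nat_lit 199) (nat_lit 201) (nat_lit 200)) (PT.nd (nat_lit 78) (PT.lf (nat_lit 16872) (nat_lit 6) (nat_lit 222) (nat_lit 2) (nat_lit 200) (nat_lit 201) (nat_lit 199)) (PT.lf (nat_lit 16796) (nat_lit 3) (nat_lit 221) (nat_lit 0) (nat_lit 201) (nat_lit 201) (nat_lit 198))))))))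
noncomputable def pc13 : PT := (PT.nd (nat_lit 61932) (PT.nd (nat_lit 702) (PT.nd (nat_lit 312) (PT.nd (nat_lit 156) (PT.nd (nat_lit 78) (PT.lf (nat_lit 16568) (nat_lit 6) (nat_lit 218) (nat_lit 0) (nat_lit 202) (nat_lit 201) (nat_lit 197)) (PT.lf (nat_lit 16264) (nat_lit 6) (nat_lit 214) (nat_lit 0) (nat_lit 203) (nat_lit 201) (nat_lit 196))) (PT.nd (nat_lit 78) (PT.lf (nat_lit 15884) (nat_lit 6) (nat_lit 209) (nat_lit 0) (nat_lit 204) (nat_lit 201) (nat_lit 195)) (PT.lf (nat_lit 15428) (nat_lit 6) (nat_lit 203) (nat_lit 0) (nat_lit 205) (nat_lit 201) (nat_lit 194)))) (PT.nd (nat_lit 156) (PT.nd (nat_lit 78) (PT.lf (nat_lit 14896) (nat_lit 6) (nat_lit 196) (nat_lit 0) (nat_lit 206) (nat_lit 201) (nat_lit 193)) (PT.lf (nat_lit 14288) (nat_lit 6) (nat_lit 188) (nat_lit 0) (nat_lit 207) (nat_lit 201) (nat_lit 192))) (PT.nd (nat_lit 78) (PT.lf (nat_lit 13604) (nat_lit 6) (nat_lit 179) (nat_lit 0) (nat_lit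 208) (nat_lit 201) (nat_lit 191)) (PT.nd (nat_lit 78) (PT.lf (nat_lit 12844) (nat_lit 6) (nat_lit 169) (nat_lit 0) (nat_lit 209) (nat_lit 201) (nat_lit 190)) (PT.lf (nat_lit 12008) (nat_lit 6) (nat_lit 158) (nat_lit 0) (nat_lit 210) (nat_lit 201) (nat_lit 189)))))) (PT.nd (nat_lit 60840) (PT.nd (nat_lit 60684) (PT.nd (nat_lit 60606) (PT.lf (nat_lit 11476) (nat_lit 6) (nat_lit 151) (nat_lit 0) (nat_lit 211) (nat_lit 201) (nat_lit 188)) (PT.lf (nat_lit 11096) (nat_lit 6) (nat_lit 146) (nat_lit 5) (nat_lit 187) (nat_lit 202) (nat_lit 211))) (PT.nd (nat_lit 78) (PT.lf (nat_lit 11552) (nat_lit 6) (nat_lit 152) (nat_lit 5) (nat_lit 188) (nat_lit 202) (nat_lit 210)) (PT.lf (nat_lit 12084) (nat_lit 6) (nat_lit 159) (nat_lit 5) (nat_lit 189) (nat_lit 202) (nat_lit 209)))) (PT.nd (nat_lit 156) (PT.nd (nat_lit 78) (PT.lf (nat_lit 12920) (nat_lit 6) (nat_lit 170) (nat_lit 5) (nat_lit 190) (nat_lit 202) (nat_lit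 208)) (PT.lf (nat_lit 13680) (nat_lit 6) (nat_lit 180) (nat_lit 5) (nat_lit 191) (nat_lit 202) (nat_lit 207))) (PT.nd (nat_lit 78) (PT.lf (nat_lit 14364) (nat_lit 6) (nat_lit 189) (nat_lit 5) (nat_lit 192) (nat_lit 202) (nat_lit 206)) (PT.nd (nat_lit 78) (PT.lf (nat_lit 14972) (nat_lit 6) (nat_lit 197) (nat_lit 5) (nat_lit 193) (nat_lit 202) (nat_lit 205)) (PT.lf (nat_lit 15504) (nat_lit 6) (nat_lit 204) (nat_lit 5) (nat_lit 194) (nat_lit 202) (nat_lit 204))))))) (PT.nd (nat_lit 702) (PT.nd (nat_lit 312) (PT.nd (nat_lit 156) (PT.nd (nat_lit 78) (PT.lf (nat_lit 15960) (nat_lit 6) (nat_lit 210) (nat_lit 5) (nat_lit 195) (nat_lit 202) (nat_lit 203)) (PT.lf (nat_lit 16340) (nat_lit 3) (nat_lit 215) (nat_lit 4) (nat_lit 196) (nat_lit 202) (nat_lit 202))) (PT.nd (nat_lit 78) (PT.lf (nat_lit 16568) (nat_lit 6) (nat_lit 218) (nat_lit 4) (nat_lit 197) (nat_lit 202) (nat_lit 201)) (PT.lf (nat_lit 16720) (nat_lit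 6) (nat_lit 220) (nat_lit 4) (nat_lit 198) (nat_lit 202) (nat_lit 200)))) (PT.nd (nat_lit 156) (PT.nd (nat_lit 78) (PT.lf (nat_lit 16644) (nat_lit 3) (nat_lit 219) (nat_lit 2) (nat_lit 199) (nat_lit 202) (nat_lit 199)) (PT.lf (nat_lit 16720) (nat_lit 6) (nat_lit 220) (nat_lit 2) (nat_lit 200) (nat_lit 202) (nat_lit 198))) (PT.nd (nat_lit 78) (PT.lf (nat_lit 16568) (nat_lit 6) (nat_lit 218) (nat_lit 2) (nat_lit 201) (nat_lit 202) (nat_lit 197)) (PT.nd (nat_lit 78) (PT.lf (nat_lit 16340) (nat_lit 3) (nat_lit 215) (nat_lit 0) (nat_lit 202) (nat_lit 202) (nat_lit 196)) (PT.lf (nat_lit 15960) (nat_lit 6) (nat_lit 210) (nat_lit 0) (nat_lit 203) (nat_lit 202) (nat_lit 195)))))) (PT.nd (nat_lit 312) (PT.nd (nat_lit 156) (PT.nd (nat_lit 78) (PT.lf (nat_lit 15504) (nat_lit 6) (nat_lit 204) (nat_lit 0) (nat_lit 204) (nat_lit 202) (nat_lit 194)) (PT.lf (nat_lit 14972) (nat_lit 6) (nat_lit 197) (nat_lit 0) (nat_lit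 205) (nat_lit 202) (nat_lit 193))) (PT.nd (nat_lit 78) (PT.lf (nat_lit 14364) (nat_lit 6) (nat_lit 189) (nat_lit 0) (nat_lit 206) (nat_lit 202) (nat_lit 192)) (PT.lf (nat_lit 13680) (nat_lit 6) (nat_lit 180) (nat_lit 0) (nat_lit 207) (nat_lit 202) (nat_lit 191)))) (PT.nd (nat_lit 156) (PT.nd (nat_lit 78) (PT.lf (nat_lit 12920) (nat_lit 6) (nat_lit 170) (nat_lit 0) (nat_lit 208) (nat_lit 202) (nat_lit 190)) (PT.lf (nat_lit 12084) (nat_lit 6) (nat_lit 159) (nat_lit 0) (nat_lit 209) (nat_lit 202) (nat_lit 189))) (PT.nd (nat_lit 78) (PT.lf (nat_lit 11552) (nat_lit 6) (nat_lit 152) (nat_lit 0) (nat_lit 210) (nat_lit 202) (nat_lit 188)) (PT.nd (nat_lit 60528) (PT.lf (nat_lit 11096) (nat_lit 6) (nat_lit 146) (nat_lit 0) (nat_lit 211) (nat_lit 202) (nat_lit 187)) (PT.lf (nat_lit 10716) (nat_lit 6) (nat_lit 141) (nat_lit 5) (nat_lit 186) (nat_lit 203) (nat_lit 211))))))))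
noncomputable def pc14 : PT := (PT.nd (nat_lit 1404) (PT.nd (nat_lit 702) (PT.nd (nat_lit 312) (PT.nd (nat_lit 156) (PT.nd (nat_lit 78) (PT.lf (nat_lit 11172) (nat_lit 6) (nat_lit 147) (nat_lit 5) (nat_lit 187) (nat_lit 203) (nat_lit 210)) (PT.lf (nat_lit 11628) (nat_lit 6) (nat_lit 153) (nat_lit 5) (nat_lit 188) (nat_lit 203) (nat_lit 209))) (PT.nd (nat_lit 78) (PT.lf (nat_lit 12160) (nat_lit 6) (nat_lit 160) (nat_lit 5) (nat_lit 189) (nat_lit 203) (nat_lit 208)) (PT.lf (nat_lit 12996) (nat_lit 6) (nat_lit 171) (nat_lit 5) (nat_lit 190) (nat_lit 203) (nat_lit 207)))) (PT.nd (nat_lit 156) (PT.nd (nat_lit 78) (PT.lf (nat_lit 13756) (nat_lit 6) (nat_lit 181) (nat_lit 5) (nat_lit 191) (nat_lit 203) (nat_lit 206)) (PT.lf (nat_lit 14440) (nat_lit 6) (nat_lit 190) (nat_lit 5) (nat_lit 192) (nat_lit 203) (nat_lit 205))) (PT.nd (nat_lit 78) (PT.lf (nat_lit 15048) (nat_lit 6) (nat_lit 198) (nat_lit 5) (nat_lit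 193) (nat_lit 203) (nat_lit 204)) (PT.nd (nat_lit 78) (PT.lf (nat_lit 15580) (nat_lit 3) (nat_lit 205) (nat_lit 4) (nat_lit 194) (nat_lit 203) (nat_lit 203)) (PT.lf (nat_lit 15960) (nat_lit 6) (nat_lit 210) (nat_lit 4) (nat_lit 195) (nat_lit 203) (nat_lit 202)))))) (PT.nd (nat_lit 312) (PT.nd (nat_lit 156) (PT.nd (nat_lit 78) (PT.lf (nat_lit 16264) (nat_lit 6) (nat_lit 214) (nat_lit 4) (nat_lit 196) (nat_lit 203) (nat_lit 201)) (PT.lf (nat_lit 16492) (nat_lit 6) (nat_lit 217) (nat_lit 4) (nat_lit 197) (nat_lit 203) (nat_lit 200))) (PT.nd (nat_lit 78) (PT.lf (nat_lit 16416) (nat_lit 6) (nat_lit 216) (nat_lit 4) (nat_lit 198) (nat_lit 203) (nat_lit 199)) (PT.lf (nat_lit 16416) (nat_lit 6) (nat_lit 216) (nat_lit 2) (nat_lit 199) (nat_lit 203) (nat_lit 198)))) (PT.nd (nat_lit 156) (PT.nd (nat_lit 78) (PT.lf (nat_lit 16492) (nat_lit 6) (nat_lit 217) (nat_lit 2) (nat_lit 200) (nat_lit 203) (nat_lit 197))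 (PT.lf (nat_lit 16264) (nat_lit 6) (nat_lit 214) (nat_lit 2) (nat_lit 201) (nat_lit 203) (nat_lit 196))) (PT.nd (nat_lit 78) (PT.lf (nat_lit 15960) (nat_lit 6) (nat_lit 210) (nat_lit 2) (nat_lit 202) (nat_lit 203) (nat_lit 195)) (PT.nd (nat_lit 78) (PT.lf (nat_lit 15580) (nat_lit 3) (nat_lit 205) (nat_lit 0) (nat_lit 203) (nat_lit 203) (nat_lit 194)) (PT.lf (nat_lit 15048) (nat_lit 6) (nat_lit 198) (nat_lit 0) (nat_lit 204) (nat_lit 203) (nat_lit 193))))))) (PT.nd (nat_lit 60996) (PT.nd (nat_lit 312) (PT.nd (nat_lit 156) (PT.nd (nat_lit 78) (PT.lf (nat_lit 14440) (nat_lit 6) (nat_lit 190) (nat_lit 0) (nat_lit 205) (nat_lit 203) (nat_lit 192)) (PT.lf (nat_lit 13756) (nat_lit 6) (nat_lit 181) (nat_lit 0) (nat_lit 206) (nat_lit 203) (nat_lit 191))) (PT.nd (nat_lit 78) (PT.lf (nat_lit 12996) (nat_lit 6) (nat_lit 171) (nat_lit 0) (nat_lit 207) (nat_lit 203) (nat_lit 190)) (PT.lf (nat_lit 12160) (nat_lit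 6) (nat_lit 160) (nat_lit 0) (nat_lit 208) (nat_lit 203) (nat_lit 189)))) (PT.nd (nat_lit 156) (PT.nd (nat_lit 78) (PT.lf (nat_lit 11628) (nat_lit 6) (nat_lit 153) (nat_lit 0) (nat_lit 209) (nat_lit 203) (nat_lit 188)) (PT.lf (nat_lit 11172) (nat_lit 6) (nat_lit 147) (nat_lit 0) (nat_lit 210) (nat_lit 203) (nat_lit 187))) (PT.nd (nat_lit 60372) (PT.lf (nat_lit 10716) (nat_lit 6) (nat_lit 141) (nat_lit 0) (nat_lit 211) (nat_lit 203) (nat_lit 186)) (PT.nd (nat_lit 78) (PT.lf (nat_lit 10032) (nat_lit 6) (nat_lit 132) (nat_lit 5) (nat_lit 184) (nat_lit 204) (nat_lit 212)) (PT.lf (nat_lit 10412) (nat_lit 6) (nat_lit 137) (nat_lit 5) (nat_lit 185) (nat_lit 204) (nat_lit 211)))))) (PT.nd (nat_lit 312) (PT.nd (nat_lit 156) (PT.nd (nat_lit 78) (PT.lf (nat_lit 10792) (nat_lit 6) (nat_lit 142) (nat_lit 5) (nat_lit 186) (nat_lit 204) (nat_lit 210)) (PT.lf (nat_lit 11248) (nat_lit 6) (nat_lit 148) (nat_lit 5)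 (nat_lit 187) (nat_lit 204) (nat_lit 209))) (PT.nd (nat_lit 78) (PT.lf (nat_lit 11704) (nat_lit 6) (nat_lit 154) (nat_lit 5) (nat_lit 188) (nat_lit 204) (nat_lit 208)) (PT.lf (nat_lit 12236) (nat_lit 6) (nat_lit 161) (nat_lit 5) (nat_lit 189) (nat_lit 204) (nat_lit 207)))) (PT.nd (nat_lit 156) (PT.nd (nat_lit 78) (PT.lf (nat_lit 13072) (nat_lit 6) (nat_lit 172) (nat_lit 5) (nat_lit 190) (nat_lit 204) (nat_lit 206)) (PT.lf (nat_lit 13832) (nat_lit 6) (nat_lit 182) (nat_lit 5) (nat_lit 191) (nat_lit 204) (nat_lit 205))) (PT.nd (nat_lit 78) (PT.lf (nat_lit 14516) (nat_lit 3) (nat_lit 191) (nat_lit 4) (nat_lit 192) (nat_lit 204) (nat_lit 204)) (PT.nd (nat_lit 78) (PT.lf (nat_lit 15048) (nat_lit 6) (nat_lit 198) (nat_lit 4) (nat_lit 193) (nat_lit 204) (nat_lit 203)) (PT.lf (nat_lit 15504) (nat_lit 6) (nat_lit 204) (nat_lit 4) (nat_lit 194) (nat_lit 204) (nat_lit 202))))))))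
noncomputable def pc15 : PT := (PT.nd (nat_lit 61542) (PT.nd (nat_lit 702) (PT.nd (nat_lit 312) (PT.nd (nat_lit 156) (PT.nd (nat_lit 78) (PT.lf (nat_lit 15884) (nat_lit 6) (nat_lit 209) (nat_lit 4) (nat_lit 195) (nat_lit 204) (nat_lit 201)) (PT.lf (nat_lit 16188) (nat_lit 6) (nat_lit 213) (nat_lit 4) (nat_lit 196) (nat_lit 204) (nat_lit 200))) (PT.nd (nat_lit 78) (PT.lf (nat_lit 16112) (nat_lit 6) (nat_lit 212) (nat_lit 4) (nat_lit 197) (nat_lit 204) (nat_lit 199)) (PT.lf (nat_lit 16036) (nat_lit 3) (nat_lit 211) (nat_lit 2) (nat_lit 198) (nat_lit 204) (nat_lit 198)))) (PT.nd (nat_lit 156) (PT.nd (nat_lit 78) (PT.lf (nat_lit 16112) (nat_lit 6) (nat_lit 212) (nat_lit 2) (nat_lit 199) (nat_lit 204) (nat_lit 197)) (PT.lf (nat_lit 16188) (nat_lit 6) (nat_lit 213) (nat_lit 2) (nat_lit 200) (nat_lit 204) (nat_lit 196))) (PT.nd (nat_lit 78) (PT.lf (nat_lit 15884) (nat_lit 6) (nat_lit 209) (nat_lit 2) (nat_lit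 201) (nat_lit 204) (nat_lit 195)) (PT.nd (nat_lit 78) (PT.lf (nat_lit 15504) (nat_lit 6) (nat_lit 204) (nat_lit 2) (nat_lit 202) (nat_lit 204) (nat_lit 194)) (PT.lf (nat_lit 15048) (nat_lit 6) (nat_lit 198) (nat_lit 2) (nat_lit 203) (nat_lit 204) (nat_lit 193)))))) (PT.nd (nat_lit 312) (PT.nd (nat_lit 156) (PT.nd (nat_lit 78) (PT.lf (nat_lit 14516) (nat_lit 3) (nat_lit 191) (nat_lit 0) (nat_lit 204) (nat_lit 204) (nat_lit 192)) (PT.lf (nat_lit 13832) (nat_lit 6) (nat_lit 182) (nat_lit 0) (nat_lit 205) (nat_lit 204) (nat_lit 191))) (PT.nd (nat_lit 78) (PT.lf (nat_lit 13072) (nat_lit 6) (nat_lit 172) (nat_lit 0) (nat_lit 206) (nat_lit 204) (nat_lit 190)) (PT.lf (nat_lit 12236) (nat_lit 6) (nat_lit 161) (nat_lit 0) (nat_lit 207) (nat_lit 204) (nat_lit 189)))) (PT.nd (nat_lit 156) (PT.nd (nat_lit 78) (PT.lf (nat_lit 11704) (nat_lit 6) (nat_lit 154) (nat_lit 0) (nat_lit 208) (nat_lit 204) (nat_lit 188))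 (PT.lf (nat_lit 11248) (nat_lit 6) (nat_lit 148) (nat_lit 0) (nat_lit 209) (nat_lit 204) (nat_lit 187))) (PT.nd (nat_lit 78) (PT.lf (nat_lit 10792) (nat_lit 6) (nat_lit 142) (nat_lit 0) (nat_lit 210) (nat_lit 204) (nat_lit 186)) (PT.nd (nat_lit 78) (PT.lf (nat_lit 10412) (nat_lit 6) (nat_lit 137) (nat_lit 0) (nat_lit 211) (nat_lit 204) (nat_lit 185)) (PT.lf (nat_lit 10032) (nat_lit 6) (nat_lit 132) (nat_lit 0) (nat_lit 212) (nat_lit 204) (nat_lit 184))))))) (PT.nd (nat_lit 702) (PT.nd (nat_lit 312) (PT.nd (nat_lit 156) (PT.nd (nat_lit 78) (PT.lf (nat_lit 9728) (nat_lit 6) (nat_lit 128) (nat_lit 5) (nat_lit 183) (nat_lit 205) (nat_lit 212)) (PT.lf (nat_lit 10108) (nat_lit 6) (nat_lit 133) (nat_lit 5) (nat_lit 184) (nat_lit 205) (nat_lit 211))) (PT.nd (nat_lit 78) (PT.lf (nat_lit 10488) (nat_lit 6) (nat_lit 138) (nat_lit 5) (nat_lit 185) (nat_lit 205) (nat_lit 210)) (PT.lf (nat_lit 10868) (nat_lit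 6) (nat_lit 143) (nat_lit 5) (nat_lit 186) (nat_lit 205) (nat_lit 209)))) (PT.nd (nat_lit 156) (PT.nd (nat_lit 78) (PT.lf (nat_lit 11324) (nat_lit 6) (nat_lit 149) (nat_lit 5) (nat_lit 187) (nat_lit 205) (nat_lit 208)) (PT.lf (nat_lit 11780) (nat_lit 6) (nat_lit 155) (nat_lit 5) (nat_lit 188) (nat_lit 205) (nat_lit 207))) (PT.nd (nat_lit 78) (PT.lf (nat_lit 12312) (nat_lit 6) (nat_lit 162) (nat_lit 5) (nat_lit 189) (nat_lit 205) (nat_lit 206)) (PT.nd (nat_lit 78) (PT.lf (nat_lit 13148) (nat_lit 3) (nat_lit 173) (nat_lit 4) (nat_lit 190) (nat_lit 205) (nat_lit 205)) (PT.lf (nat_lit 13832) (nat_lit 6) (nat_lit 182) (nat_lit 4) (nat_lit 191) (nat_lit 205) (nat_lit 204)))))) (PT.nd (nat_lit 312) (PT.nd (nat_lit 156) (PT.nd (nat_lit 78) (PT.lf (nat_lit 14440) (nat_lit 6) (nat_lit 190) (nat_lit 4) (nat_lit 192) (nat_lit 205) (nat_lit 203)) (PT.lf (nat_lit 14972) (nat_lit 6) (nat_lit 197) (nat_lit 4) (nat_lit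 193) (nat_lit 205) (nat_lit 202))) (PT.nd (nat_lit 78) (PT.lf (nat_lit 15428) (nat_lit 6) (nat_lit 203) (nat_lit 4) (nat_lit 194) (nat_lit 205) (nat_lit 201)) (PT.lf (nat_lit 15808) (nat_lit 6) (nat_lit 208) (nat_lit 4) (nat_lit 195) (nat_lit 205) (nat_lit 200)))) (PT.nd (nat_lit 156) (PT.nd (nat_lit 78) (PT.lf (nat_lit 15732) (nat_lit 6) (nat_lit 207) (nat_lit 4) (nat_lit 196) (nat_lit 205) (nat_lit 199)) (PT.lf (nat_lit 15656) (nat_lit 6) (nat_lit 206) (nat_lit 4) (nat_lit 197) (nat_lit 205) (nat_lit 198))) (PT.nd (nat_lit 78) (PT.lf (nat_lit 15656) (nat_lit 6) (nat_lit 206) (nat_lit 2) (nat_lit 198) (nat_lit 205) (nat_lit 197)) (PT.nd (nat_lit 78) (PT.lf (nat_lit 15732) (nat_lit 6) (nat_lit 207) (nat_lit 2) (nat_lit 199) (nat_lit 205) (nat_lit 196)) (PT.lf (nat_lit 15808) (nat_lit 6) (nat_lit 208) (nat_lit 2) (nat_lit 200) (nat_lit 205) (nat_lit 195))))))))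
noncomputable def pc16 : PT := (PT.nd (nat_lit 61308) (PT.nd (nat_lit 624) (PT.nd (nat_lit 312) (PT.nd (nat_lit 156) (PT.nd (nat_lit 78) (PT.lf (nat_lit 15428) (nat_lit 6) (nat_lit 203) (nat_lit 2) (nat_lit 201) (nat_lit 205) (nat_lit 194)) (PT.lf (nat_lit 14972) (nat_lit 6) (nat_lit 197) (nat_lit 2) (nat_lit 202) (nat_lit 205) (nat_lit 193))) (PT.nd (nat_lit 78) (PT.lf (nat_lit 14440) (nat_lit 6) (nat_lit 190) (nat_lit 2) (nat_lit 203) (nat_lit 205) (nat_lit 192)) (PT.lf (nat_lit 13832) (nat_lit 6) (nat_lit 182) (nat_lit 2) (nat_lit 204) (nat_lit 205) (nat_lit 191)))) (PT.nd (nat_lit 156) (PT.nd (nat_lit 78) (PT.lf (nat_lit 13148) (nat_lit 3) (nat_lit 173) (nat_lit 0) (nat_lit 205) (nat_lit 205) (nat_lit 190)) (PT.lf (nat_lit 12312) (nat_lit 6) (nat_lit 162) (nat_lit 0) (nat_lit 206) (nat_lit 205) (nat_lit 189))) (PT.nd (nat_lit 78) (PT.lf (nat_lit 11780) (nat_lit 6) (nat_lit 155) (nat_lit 0) (nat_lit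 207) (nat_lit 205) (nat_lit 188)) (PT.lf (nat_lit 11324) (nat_lit 6) (nat_lit 149) (nat_lit 0) (nat_lit 208) (nat_lit 205) (nat_lit 187))))) (PT.nd (nat_lit 60294) (PT.nd (nat_lit 156) (PT.nd (nat_lit 78) (PT.lf (nat_lit 10868) (nat_lit 6) (nat_lit 143) (nat_lit 0) (nat_lit 209) (nat_lit 205) (nat_lit 186)) (PT.lf (nat_lit 10488) (nat_lit 6) (nat_lit 138) (nat_lit 0) (nat_lit 210) (nat_lit 205) (nat_lit 185))) (PT.nd (nat_lit 78) (PT.lf (nat_lit 10108) (nat_lit 6) (nat_lit 133) (nat_lit 0) (nat_lit 211) (nat_lit 205) (nat_lit 184)) (PT.lf (nat_lit 9728) (nat_lit 6) (nat_lit 128) (nat_lit 0) (nat_lit 212) (nat_lit 205) (nat_lit 183)))) (PT.nd (nat_lit 156) (PT.nd (nat_lit 78) (PT.lf (nat_lit 9120) (nat_lit 6) (nat_lit 120) (nat_lit 5) (nat_lit 181) (nat_lit 206) (nat_lit 213)) (PT.lf (nat_lit 9424) (nat_lit 6) (nat_lit 124) (nat_lit 5) (nat_lit 182) (nat_lit 206) (nat_lit 212))) (PT.nd (nat_lit 78)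 (PT.lf (nat_lit 9804) (nat_lit 6) (nat_lit 129) (nat_lit 5) (nat_lit 183) (nat_lit 206) (nat_lit 211)) (PT.nd (nat_lit 78) (PT.lf (nat_lit 10184) (nat_lit 6) (nat_lit 134) (nat_lit 5) (nat_lit 184) (nat_lit 206) (nat_lit 210)) (PT.lf (nat_lit 10564) (nat_lit 6) (nat_lit 139) (nat_lit 5) (nat_lit 185) (nat_lit 206) (nat_lit 209))))))) (PT.nd (nat_lit 702) (PT.nd (nat_lit 312) (PT.nd (nat_lit 156) (PT.nd (nat_lit 78) (PT.lf (nat_lit 10944) (nat_lit 6) (nat_lit 144) (nat_lit 5) (nat_lit 186) (nat_lit 206) (nat_lit 208)) (PT.lf (nat_lit 11400) (nat_lit 6) (nat_lit 150) (nat_lit 5) (nat_lit 187) (nat_lit 206) (nat_lit 207))) (PT.nd (nat_lit 78) (PT.lf (nat_lit 11856) (nat_lit 3) (nat_lit 156) (nat_lit 4) (nat_lit 188) (nat_lit 206) (nat_lit 206)) (PT.lf (nat_lit 12312) (nat_lit 6) (nat_lit 162) (nat_lit 4) (nat_lit 189) (nat_lit 206) (nat_lit 205)))) (PT.nd (nat_lit 156) (PT.nd (nat_lit 78) (PT.lf (nat_lit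 13072) (nat_lit 6) (nat_lit 172) (nat_lit 4) (nat_lit 190) (nat_lit 206) (nat_lit 204)) (PT.lf (nat_lit 13756) (nat_lit 6) (nat_lit 181) (nat_lit 4) (nat_lit 191) (nat_lit 206) (nat_lit 203))) (PT.nd (nat_lit 78) (PT.lf (nat_lit 14364) (nat_lit 6) (nat_lit 189) (nat_lit 4) (nat_lit 192) (nat_lit 206) (nat_lit 202)) (PT.nd (nat_lit 78) (PT.lf (nat_lit 14896) (nat_lit 6) (nat_lit 196) (nat_lit 4) (nat_lit 193) (nat_lit 206) (nat_lit 201)) (PT.lf (nat_lit 15352) (nat_lit 6) (nat_lit 202) (nat_lit 4) (nat_lit 194) (nat_lit 206) (nat_lit 200)))))) (PT.nd (nat_lit 312) (PT.nd (nat_lit 156) (PT.nd (nat_lit 78) (PT.lf (nat_lit 15276) (nat_lit 6) (nat_lit 201) (nat_lit 4) (nat_lit 195) (nat_lit 206) (nat_lit 199)) (PT.lf (nat_lit 15200) (nat_lit 6) (nat_lit 200) (nat_lit 4) (nat_lit 196) (nat_lit 206) (nat_lit 198))) (PT.nd (nat_lit 78) (PT.lf (nat_lit 15124) (nat_lit 3) (nat_lit 199) (nat_lit 2) (nat_lit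 197) (nat_lit 206) (nat_lit 197)) (PT.lf (nat_lit 15200) (nat_lit 6) (nat_lit 200) (nat_lit 2) (nat_lit 198) (nat_lit 206) (nat_lit 196)))) (PT.nd (nat_lit 156) (PT.nd (nat_lit 78) (PT.lf (nat_lit 15276) (nat_lit 6) (nat_lit 201) (nat_lit 2) (nat_lit 199) (nat_lit 206) (nat_lit 195)) (PT.lf (nat_lit 15352) (nat_lit 6) (nat_lit 202) (nat_lit 2) (nat_lit 200) (nat_lit 206) (nat_lit 194))) (PT.nd (nat_lit 78) (PT.lf (nat_lit 14896) (nat_lit 6) (nat_lit 196) (nat_lit 2) (nat_lit 201) (nat_lit 206) (nat_lit 193)) (PT.nd (nat_lit 78) (PT.lf (nat_lit 14364) (nat_lit 6) (nat_lit 189) (nat_lit 2) (nat_lit 202) (nat_lit 206) (nat_lit 192)) (PT.lf (nat_lit 13756) (nat_lit 6) (nat_lit 181) (nat_lit 2) (nat_lit 203) (nat_lit 206) (nat_lit 191))))))))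
noncomputable def pc17 : PT := (PT.nd (nat_lit 61230) (PT.nd (nat_lit 702) (PT.nd (nat_lit 312) (PT.nd (nat_lit 156) (PT.nd (nat_lit 78) (PT.lf (nat_lit 13072) (nat_lit 6) (nat_lit 172) (nat_lit 2) (nat_lit 204) (nat_lit 206) (nat_lit 190)) (PT.lf (nat_lit 12312) (nat_lit 6) (nat_lit 162) (nat_lit 2) (nat_lit 205) (nat_lit 206) (nat_lit 189))) (PT.nd (nat_lit 78) (PT.lf (nat_lit 11856) (nat_lit 3) (nat_lit 156) (nat_lit 0) (nat_lit 206) (nat_lit 206) (nat_lit 188)) (PT.lf (nat_lit 11400) (nat_lit 6) (nat_lit 150) (nat_lit 0) (nat_lit 207) (nat_lit 206) (nat_lit 187)))) (PT.nd (nat_lit 156) (PT.nd (nat_lit 78) (PT.lf (nat_lit 10944) (nat_lit 6) (nat_lit 144) (nat_lit 0) (nat_lit 208) (nat_lit 206) (nat_lit 186)) (PT.lf (nat_lit 10564) (nat_lit 6) (nat_lit 139) (nat_lit 0) (nat_lit 209) (nat_lit 206) (nat_lit 185))) (PT.nd (nat_lit 78) (PT.lf (nat_lit 10184) (nat_lit 6) (nat_lit 134) (nat_lit 0) (nat_lit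 210) (nat_lit 206) (nat_lit 184)) (PT.nd (nat_lit 78) (PT.lf (nat_lit 9804) (nat_lit 6) (nat_lit 129) (nat_lit 0) (nat_lit 211) (nat_lit 206) (nat_lit 183)) (PT.lf (nat_lit 9424) (nat_lit 6) (nat_lit 124) (nat_lit 0) (nat_lit 212) (nat_lit 206) (nat_lit 182)))))) (PT.nd (nat_lit 60138) (PT.nd (nat_lit 59982) (PT.nd (nat_lit 59904) (PT.lf (nat_lit 9120) (nat_lit 6) (nat_lit 120) (nat_lit 0) (nat_lit 213) (nat_lit 206) (nat_lit 181)) (PT.lf (nat_lit 8816) (nat_lit 6) (nat_lit 116) (nat_lit 5) (nat_lit 180) (nat_lit 207) (nat_lit 213))) (PT.nd (nat_lit 78) (PT.lf (nat_lit 9196) (nat_lit 6) (nat_lit 121) (nat_lit 5) (nat_lit 181) (nat_lit 207) (nat_lit 212)) (PT.lf (nat_lit 9500) (nat_lit 6) (nat_lit 125) (nat_lit 5) (nat_lit 182) (nat_lit 207) (nat_lit 211)))) (PT.nd (nat_lit 156) (PT.nd (nat_lit 78) (PT.lf (nat_lit 9880) (nat_lit 6) (nat_lit 130) (nat_lit 5) (nat_lit 183) (nat_lit 207) (nat_lit 210))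 (PT.lf (nat_lit 10260) (nat_lit 6) (nat_lit 135) (nat_lit 5) (nat_lit 184) (nat_lit 207) (nat_lit 209))) (PT.nd (nat_lit 78) (PT.lf (nat_lit 10640) (nat_lit 6) (nat_lit 140) (nat_lit 5) (nat_lit 185) (nat_lit 207) (nat_lit 208)) (PT.nd (nat_lit 78) (PT.lf (nat_lit 11020) (nat_lit 3) (nat_lit 145) (nat_lit 4) (nat_lit 186) (nat_lit 207) (nat_lit 207)) (PT.lf (nat_lit 11400) (nat_lit 6) (nat_lit 150) (nat_lit 4) (nat_lit 187) (nat_lit 207) (nat_lit 206))))))) (PT.nd (nat_lit 702) (PT.nd (nat_lit 312) (PT.nd (nat_lit 156) (PT.nd (nat_lit 78) (PT.lf (nat_lit 11780) (nat_lit 6) (nat_lit 155) (nat_lit 4) (nat_lit 188) (nat_lit 207) (nat_lit 205)) (PT.lf (nat_lit 12236) (nat_lit 6) (nat_lit 161) (nat_lit 4) (nat_lit 189) (nat_lit 207) (nat_lit 204))) (PT.nd (nat_lit 78) (PT.lf (nat_lit 12996) (nat_lit 6) (nat_lit 171) (nat_lit 4) (nat_lit 190) (nat_lit 207) (nat_lit 203)) (PT.lf (nat_lit 13680) (nat_lit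 6) (nat_lit 180) (nat_lit 4) (nat_lit 191) (nat_lit 207) (nat_lit 202)))) (PT.nd (nat_lit 156) (PT.nd (nat_lit 78) (PT.lf (nat_lit 14288) (nat_lit 6) (nat_lit 188) (nat_lit 4) (nat_lit 192) (nat_lit 207) (nat_lit 201)) (PT.lf (nat_lit 14820) (nat_lit 6) (nat_lit 195) (nat_lit 4) (nat_lit 193) (nat_lit 207) (nat_lit 200))) (PT.nd (nat_lit 78) (PT.lf (nat_lit 14744) (nat_lit 6) (nat_lit 194) (nat_lit 4) (nat_lit 194) (nat_lit 207) (nat_lit 199)) (PT.nd (nat_lit 78) (PT.lf (nat_lit 14668) (nat_lit 6) (nat_lit 193) (nat_lit 4) (nat_lit 195) (nat_lit 207) (nat_lit 198)) (PT.lf (nat_lit 14592) (nat_lit 6) (nat_lit 192) (nat_lit 4) (nat_lit 196) (nat_lit 207) (nat_lit 197)))))) (PT.nd (nat_lit 312) (PT.nd (nat_lit 156) (PT.nd (nat_lit 78) (PT.lf (nat_lit 14592) (nat_lit 6) (nat_lit 192) (nat_lit 2) (nat_lit 197) (nat_lit 207) (nat_lit 196)) (PT.lf (nat_lit 14668) (nat_lit 6) (nat_lit 193) (nat_lit 2) (nat_lit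 198) (nat_lit 207) (nat_lit 195))) (PT.nd (nat_lit 78) (PT.lf (nat_lit 14744) (nat_lit 6) (nat_lit 194) (nat_lit 2) (nat_lit 199) (nat_lit 207) (nat_lit 194)) (PT.lf (nat_lit 14820) (nat_lit 6) (nat_lit 195) (nat_lit 2) (nat_lit 200) (nat_lit 207) (nat_lit 193)))) (PT.nd (nat_lit 156) (PT.nd (nat_lit 78) (PT.lf (nat_lit 14288) (nat_lit 6) (nat_lit 188) (nat_lit 2) (nat_lit 201) (nat_lit 207) (nat_lit 192)) (PT.lf (nat_lit 13680) (nat_lit 6) (nat_lit 180) (nat_lit 2) (nat_lit 202) (nat_lit 207) (nat_lit 191))) (PT.nd (nat_lit 78) (PT.lf (nat_lit 12996) (nat_lit 6) (nat_lit 171) (nat_lit 2) (nat_lit 203) (nat_lit 207) (nat_lit 190)) (PT.nd (nat_lit 78) (PT.lf (nat_lit 12236) (nat_lit 6) (nat_lit 161) (nat_lit 2) (nat_lit 204) (nat_lit 207) (nat_lit 189)) (PT.lf (nat_lit 11780) (nat_lit 6) (nat_lit 155) (nat_lit 2) (nat_lit 205) (nat_lit 207) (nat_lit 188))))))))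
noncomputable def pc18 : PT := (PT.nd (nat_lit 61074) (PT.nd (nat_lit 60372) (PT.nd (nat_lit 312) (PT.nd (nat_lit 156) (PT.nd (nat_lit 78) (PT.lf (nat_lit 11400) (nat_lit 6) (nat_lit 150) (nat_lit 2) (nat_lit 206) (nat_lit 207) (nat_lit 187)) (PT.lf (nat_lit 11020) (nat_lit 3) (nat_lit 145) (nat_lit 0) (nat_lit 207) (nat_lit 207) (nat_lit 186))) (PT.nd (nat_lit 78) (PT.lf (nat_lit 10640) (nat_lit 6) (nat_lit 140) (nat_lit 0) (nat_lit 208) (nat_lit 207) (nat_lit 185)) (PT.lf (nat_lit 10260) (nat_lit 6) (nat_lit 135) (nat_lit 0) (nat_lit 209) (nat_lit 207) (nat_lit 184)))) (PT.nd (nat_lit 156) (PT.nd (nat_lit 78) (PT.lf (nat_lit 9880) (nat_lit 6) (nat_lit 130) (nat_lit 0) (nat_lit 210) (nat_lit 207) (nat_lit 183)) (PT.lf (nat_lit 9500) (nat_lit 6) (nat_lit 125) (nat_lit 0) (nat_lit 211) (nat_lit 207) (nat_lit 182))) (PT.nd (nat_lit 78) (PT.lf (nat_lit 9196) (nat_lit 6) (nat_lit 121) (nat_lit 0) (nat_lit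 212) (nat_lit 207) (nat_lit 181)) (PT.lf (nat_lit 8816) (nat_lit 6) (nat_lit 116) (nat_lit 0) (nat_lit 213) (nat_lit 207) (nat_lit 180))))) (PT.nd (nat_lit 312) (PT.nd (nat_lit 156) (PT.nd (nat_lit 78) (PT.lf (nat_lit 8588) (nat_lit 6) (nat_lit 113) (nat_lit 5) (nat_lit 179) (nat_lit 208) (nat_lit 213)) (PT.lf (nat_lit 8892) (nat_lit 6) (nat_lit 117) (nat_lit 5) (nat_lit 180) (nat_lit 208) (nat_lit 212))) (PT.nd (nat_lit 78) (PT.lf (nat_lit 9272) (nat_lit 6) (nat_lit 122) (nat_lit 5) (nat_lit 181) (nat_lit 208) (nat_lit 211)) (PT.lf (nat_lit 9576) (nat_lit 6) (nat_lit 126) (nat_lit 5) (nat_lit 182) (nat_lit 208) (nat_lit 210)))) (PT.nd (nat_lit 156) (PT.nd (nat_lit 78) (PT.lf (nat_lit 9956) (nat_lit 6) (nat_lit 131) (nat_lit 5) (nat_lit 183) (nat_lit 208) (nat_lit 209)) (PT.lf (nat_lit 10336) (nat_lit 3) (nat_lit 136) (nat_lit 4) (nat_lit 184) (nat_lit 208) (nat_lit 208))) (PT.nd (nat_lit 78) (PT.lf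 (nat_lit 10640) (nat_lit 6) (nat_lit 140) (nat_lit 4) (nat_lit 185) (nat_lit 208) (nat_lit 207)) (PT.nd (nat_lit 78) (PT.lf (nat_lit 10944) (nat_lit 6) (nat_lit 144) (nat_lit 4) (nat_lit 186) (nat_lit 208) (nat_lit 206)) (PT.lf (nat_lit 11324) (nat_lit 6) (nat_lit 149) (nat_lit 4) (nat_lit 187) (nat_lit 208) (nat_lit 205))))))) (PT.nd (nat_lit 702) (PT.nd (nat_lit 312) (PT.nd (nat_lit 156) (PT.nd (nat_lit 78) (PT.lf (nat_lit 11704) (nat_lit 6) (nat_lit 154) (nat_lit 4) (nat_lit 188) (nat_lit 208) (nat_lit 204)) (PT.lf (nat_lit 12160) (nat_lit 6) (nat_lit 160) (nat_lit 4) (nat_lit 189) (nat_lit 208) (nat_lit 203))) (PT.nd (nat_lit 78) (PT.lf (nat_lit 12920) (nat_lit 6) (nat_lit 170) (nat_lit 4) (nat_lit 190) (nat_lit 208) (nat_lit 202)) (PT.lf (nat_lit 13604) (nat_lit 6) (nat_lit 179) (nat_lit 4) (nat_lit 191) (nat_lit 208) (nat_lit 201)))) (PT.nd (nat_lit 156) (PT.nd (nat_lit 78) (PT.lf (nat_lit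 14212) (nat_lit 6) (nat_lit 187) (nat_lit 4) (nat_lit 192) (nat_lit 208) (nat_lit 200)) (PT.lf (nat_lit 14136) (nat_lit 6) (nat_lit 186) (nat_lit 4) (nat_lit 193) (nat_lit 208) (nat_lit 199))) (PT.nd (nat_lit 78) (PT.lf (nat_lit 14060) (nat_lit 6) (nat_lit 185) (nat_lit 4) (nat_lit 194) (nat_lit 208) (nat_lit 198)) (PT.nd (nat_lit 78) (PT.lf (nat_lit 13984) (nat_lit 6) (nat_lit 184) (nat_lit 4) (nat_lit 195) (nat_lit 208) (nat_lit 197)) (PT.lf (nat_lit 13908) (nat_lit 3) (nat_lit 183) (nat_lit 2) (nat_lit 196) (nat_lit 208) (nat_lit 196)))))) (PT.nd (nat_lit 312) (PT.nd (nat_lit 156) (PT.nd (nat_lit 78) (PT.lf (nat_lit 13984) (nat_lit 6) (nat_lit 184) (nat_lit 2) (nat_lit 197) (nat_lit 208) (nat_lit 195)) (PT.lf (nat_lit 14060) (nat_lit 6) (nat_lit 185) (nat_lit 2) (nat_lit 198) (nat_lit 208) (nat_lit 194))) (PT.nd (nat_lit 78) (PT.lf (nat_lit 14136) (nat_lit 6) (nat_lit 186) (nat_lit 2) (nat_lit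 199) (nat_lit 208) (nat_lit 193)) (PT.lf (nat_lit 14212) (nat_lit 6) (nat_lit 187) (nat_lit 2) (nat_lit 200) (nat_lit 208) (nat_lit 192)))) (PT.nd (nat_lit 156) (PT.nd (nat_lit 78) (PT.lf (nat_lit 13604) (nat_lit 6) (nat_lit 179) (nat_lit 2) (nat_lit 201) (nat_lit 208) (nat_lit 191)) (PT.lf (nat_lit 12920) (nat_lit 6) (nat_lit 170) (nat_lit 2) (nat_lit 202) (nat_lit 208) (nat_lit 190))) (PT.nd (nat_lit 78) (PT.lf (nat_lit 12160) (nat_lit 6) (nat_lit 160) (nat_lit 2) (nat_lit 203) (nat_lit 208) (nat_lit 189)) (PT.nd (nat_lit 78) (PT.lf (nat_lit 11704) (nat_lit 6) (nat_lit 154) (nat_lit 2) (nat_lit 204) (nat_lit 208) (nat_lit 188)) (PT.lf (nat_lit 11324) (nat_lit 6) (nat_lit 149) (nat_lit 2) (nat_lit 205) (nat_lit 208) (nat_lit 187))))))))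
noncomputable def pc19 : PT := (PT.nd (nat_lit 60996) (PT.nd (nat_lit 60294) (PT.nd (nat_lit 312) (PT.nd (nat_lit 156) (PT.nd (nat_lit 78) (PT.lf (nat_lit 10944) (nat_lit 6) (nat_lit 144) (nat_lit 2) (nat_lit 206) (nat_lit 208) (nat_lit 186)) (PT.lf (nat_lit 10640) (nat_lit 6) (nat_lit 140) (nat_lit 2) (nat_lit 207) (nat_lit 208) (nat_lit 185))) (PT.nd (nat_lit 78) (PT.lf (nat_lit 10336) (nat_lit 3) (nat_lit 136) (nat_lit 0) (nat_lit 208) (nat_lit 208) (nat_lit 184)) (PT.lf (nat_lit 9956) (nat_lit 6) (nat_lit 131) (nat_lit 0) (nat_lit 209) (nat_lit 208) (nat_lit 183)))) (PT.nd (nat_lit 156) (PT.nd (nat_lit 78) (PT.lf (nat_lit 9576) (nat_lit 6) (nat_lit 126) (nat_lit 0) (nat_lit 210) (nat_lit 208) (nat_lit 182)) (PT.lf (nat_lit 9272) (nat_lit 6) (nat_lit 122) (nat_lit 0) (nat_lit 211) (nat_lit 208) (nat_lit 181))) (PT.nd (nat_lit 78) (PT.lf (nat_lit 8892) (nat_lit 6) (nat_lit 117) (nat_lit 0) (nat_lit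 212) (nat_lit 208) (nat_lit 180)) (PT.nd (nat_lit 59670) (PT.lf (nat_lit 8588) (nat_lit 6) (nat_lit 113) (nat_lit 0) (nat_lit 213) (nat_lit 208) (nat_lit 179)) (PT.lf (nat_lit 8132) (nat_lit 6) (nat_lit 107) (nat_lit 5) (nat_lit 177) (nat_lit 209) (nat_lit 214)))))) (PT.nd (nat_lit 312) (PT.nd (nat_lit 156) (PT.nd (nat_lit 78) (PT.lf (nat_lit 8360) (nat_lit 6) (nat_lit 110) (nat_lit 5) (nat_lit 178) (nat_lit 209) (nat_lit 213)) (PT.lf (nat_lit 8664) (nat_lit 6) (nat_lit 114) (nat_lit 5) (nat_lit 179) (nat_lit 209) (nat_lit 212))) (PT.nd (nat_lit 78) (PT.lf (nat_lit 8968) (nat_lit 6) (nat_lit 118) (nat_lit 5) (nat_lit 180) (nat_lit 209) (nat_lit 211)) (PT.lf (nat_lit 9348) (nat_lit 6) (nat_lit 123) (nat_lit 5) (nat_lit 181) (nat_lit 209) (nat_lit 210)))) (PT.nd (nat_lit 156) (PT.nd (nat_lit 78) (PT.lf (nat_lit 9652) (nat_lit 3) (nat_lit 127) (nat_lit 4) (nat_lit 182) (nat_lit 209) (nat_lit 209))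 (PT.lf (nat_lit 9956) (nat_lit 6) (nat_lit 131) (nat_lit 4) (nat_lit 183) (nat_lit 209) (nat_lit 208))) (PT.nd (nat_lit 78) (PT.lf (nat_lit 10260) (nat_lit 6) (nat_lit 135) (nat_lit 4) (nat_lit 184) (nat_lit 209) (nat_lit 207)) (PT.nd (nat_lit 78) (PT.lf (nat_lit 10564) (nat_lit 6) (nat_lit 139) (nat_lit 4) (nat_lit 185) (nat_lit 209) (nat_lit 206)) (PT.lf (nat_lit 10868) (nat_lit 6) (nat_lit 143) (nat_lit 4) (nat_lit 186) (nat_lit 209) (nat_lit 205))))))) (PT.nd (nat_lit 702) (PT.nd (nat_lit 312) (PT.nd (nat_lit 156) (PT.nd (nat_lit 78) (PT.lf (nat_lit 11248) (nat_lit 6) (nat_lit 148) (nat_lit 4) (nat_lit 187) (nat_lit 209) (nat_lit 204)) (PT.lf (nat_lit 11628) (nat_lit 6) (nat_lit 153) (nat_lit 4) (nat_lit 188) (nat_lit 209) (nat_lit 203))) (PT.nd (nat_lit 78) (PT.lf (nat_lit 12084) (nat_lit 6) (nat_lit 159) (nat_lit 4) (nat_lit 189) (nat_lit 209) (nat_lit 202)) (PT.lf (nat_lit 12844) (nat_lit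 6) (nat_lit 169) (nat_lit 4) (nat_lit 190) (nat_lit 209) (nat_lit 201)))) (PT.nd (nat_lit 156) (PT.nd (nat_lit 78) (PT.lf (nat_lit 13528) (nat_lit 6) (nat_lit 178) (nat_lit 4) (nat_lit 191) (nat_lit 209) (nat_lit 200)) (PT.lf (nat_lit 13452) (nat_lit 6) (nat_lit 177) (nat_lit 4) (nat_lit 192) (nat_lit 209) (nat_lit 199))) (PT.nd (nat_lit 78) (PT.lf (nat_lit 13376) (nat_lit 6) (nat_lit 176) (nat_lit 4) (nat_lit 193) (nat_lit 209) (nat_lit 198)) (PT.nd (nat_lit 78) (PT.lf (nat_lit 13300) (nat_lit 6) (nat_lit 175) (nat_lit 4) (nat_lit 194) (nat_lit 209) (nat_lit 197)) (PT.lf (nat_lit 13224) (nat_lit 6) (nat_lit 174) (nat_lit 4) (nat_lit 195) (nat_lit 209) (nat_lit 196)))))) (PT.nd (nat_lit 312) (PT.nd (nat_lit 156) (PT.nd (nat_lit 78) (PT.lf (nat_lit 13224) (nat_lit 6) (nat_lit 174) (nat_lit 2) (nat_lit 196) (nat_lit 209) (nat_lit 195)) (PT.lf (nat_lit 13300) (nat_lit 6) (nat_lit 175) (nat_lit 2) (nat_lit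 197) (nat_lit 209) (nat_lit 194))) (PT.nd (nat_lit 78) (PT.lf (nat_lit 13376) (nat_lit 6) (nat_lit 176) (nat_lit 2) (nat_lit 198) (nat_lit 209) (nat_lit 193)) (PT.lf (nat_lit 13452) (nat_lit 6) (nat_lit 177) (nat_lit 2) (nat_lit 199) (nat_lit 209) (nat_lit 192)))) (PT.nd (nat_lit 156) (PT.nd (nat_lit 78) (PT.lf (nat_lit 13528) (nat_lit 6) (nat_lit 178) (nat_lit 2) (nat_lit 200) (nat_lit 209) (nat_lit 191)) (PT.lf (nat_lit 12844) (nat_lit 6) (nat_lit 169) (nat_lit 2) (nat_lit 201) (nat_lit 209) (nat_lit 190))) (PT.nd (nat_lit 78) (PT.lf (nat_lit 12084) (nat_lit 6) (nat_lit 159) (nat_lit 2) (nat_lit 202) (nat_lit 209) (nat_lit 189)) (PT.nd (nat_lit 78) (PT.lf (nat_lit 11628) (nat_lit 6) (nat_lit 153) (nat_lit 2) (nat_lit 203) (nat_lit 209) (nat_lit 188)) (PT.lf (nat_lit 11248) (nat_lit 6) (nat_lit 148) (nat_lit 2) (nat_lit 204) (nat_lit 209) (nat_lit 187))))))))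
noncomputable def pc20 : PT := (PT.nd (nat_lit 60684) (PT.nd (nat_lit 624) (PT.nd (nat_lit 312) (PT.nd (nat_lit 156) (PT.nd (nat_lit 78) (PT.lf (nat_lit 10868) (nat_lit 6) (nat_lit 143) (nat_lit 2) (nat_lit 205) (nat_lit 209) (nat_lit 186)) (PT.lf (nat_lit 10564) (nat_lit 6) (nat_lit 139) (nat_lit 2) (nat_lit 206) (nat_lit 209) (nat_lit 185))) (PT.nd (nat_lit 78) (PT.lf (nat_lit 10260) (nat_lit 6) (nat_lit 135) (nat_lit 2) (nat_lit 207) (nat_lit 209) (nat_lit 184)) (PT.lf (nat_lit 9956) (nat_lit 6) (nat_lit 131) (nat_lit 2) (nat_lit 208) (nat_lit 209) (nat_lit 183)))) (PT.nd (nat_lit 156) (PT.nd (nat_lit 78) (PT.lf (nat_lit 9652) (nat_lit 3) (nat_lit 127) (nat_lit 0) (nat_lit 209) (nat_lit 209) (nat_lit 182)) (PT.lf (nat_lit 9348) (nat_lit 6) (nat_lit 123) (nat_lit 0) (nat_lit 210) (nat_lit 209) (nat_lit 181))) (PT.nd (nat_lit 78) (PT.lf (nat_lit 8968) (nat_lit 6) (nat_lit 118) (nat_lit 0) (nat_lit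 211) (nat_lit 209) (nat_lit 180)) (PT.lf (nat_lit 8664) (nat_lit 6) (nat_lit 114) (nat_lit 0) (nat_lit 212) (nat_lit 209) (nat_lit 179))))) (PT.nd (nat_lit 59670) (PT.nd (nat_lit 59514) (PT.nd (nat_lit 78) (PT.lf (nat_lit 8360) (nat_lit 6) (nat_lit 110) (nat_lit 0) (nat_lit 213) (nat_lit 209) (nat_lit 178)) (PT.lf (nat_lit 8132) (nat_lit 6) (nat_lit 107) (nat_lit 0) (nat_lit 214) (nat_lit 209) (nat_lit 177))) (PT.nd (nat_lit 78) (PT.lf (nat_lit 7676) (nat_lit 6) (nat_lit 101) (nat_lit 5) (nat_lit 175) (nat_lit 210) (nat_lit 215)) (PT.lf (nat_lit 7904) (nat_lit 6) (nat_lit 104) (nat_lit 5) (nat_lit 176) (nat_lit 210) (nat_lit 214)))) (PT.nd (nat_lit 156) (PT.nd (nat_lit 78) (PT.lf (nat_lit 8208) (nat_lit 6) (nat_lit 108) (nat_lit 5) (nat_lit 177) (nat_lit 210) (nat_lit 213)) (PT.lf (nat_lit 8436) (nat_lit 6) (nat_lit 111) (nat_lit 5) (nat_lit 178) (nat_lit 210) (nat_lit 212))) (PT.nd (nat_lit 78)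 (PT.lf (nat_lit 8740) (nat_lit 6) (nat_lit 115) (nat_lit 5) (nat_lit 179) (nat_lit 210) (nat_lit 211)) (PT.nd (nat_lit 78) (PT.lf (nat_lit 9044) (nat_lit 3) (nat_lit 119) (nat_lit 4) (nat_lit 180) (nat_lit 210) (nat_lit 210)) (PT.lf (nat_lit 9348) (nat_lit 6) (nat_lit 123) (nat_lit 4) (nat_lit 181) (nat_lit 210) (nat_lit 209))))))) (PT.nd (nat_lit 702) (PT.nd (nat_lit 312) (PT.nd (nat_lit 156) (PT.nd (nat_lit 78) (PT.lf (nat_lit 9576) (nat_lit 6) (nat_lit 126) (nat_lit 4) (nat_lit 182) (nat_lit 210) (nat_lit 208)) (PT.lf (nat_lit 9880) (nat_lit 6) (nat_lit 130) (nat_lit 4) (nat_lit 183) (nat_lit 210) (nat_lit 207))) (PT.nd (nat_lit 78) (PT.lf (nat_lit 10184) (nat_lit 6) (nat_lit 134) (nat_lit 4) (nat_lit 184) (nat_lit 210) (nat_lit 206)) (PT.lf (nat_lit 10488) (nat_lit 6) (nat_lit 138) (nat_lit 4) (nat_lit 185) (nat_lit 210) (nat_lit 205)))) (PT.nd (nat_lit 156) (PT.nd (nat_lit 78) (PT.lf (nat_lit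 10792) (nat_lit 6) (nat_lit 142) (nat_lit 4) (nat_lit 186) (nat_lit 210) (nat_lit 204)) (PT.lf (nat_lit 11172) (nat_lit 6) (nat_lit 147) (nat_lit 4) (nat_lit 187) (nat_lit 210) (nat_lit 203))) (PT.nd (nat_lit 78) (PT.lf (nat_lit 11552) (nat_lit 6) (nat_lit 152) (nat_lit 4) (nat_lit 188) (nat_lit 210) (nat_lit 202)) (PT.nd (nat_lit 78) (PT.lf (nat_lit 12008) (nat_lit 6) (nat_lit 158) (nat_lit 4) (nat_lit 189) (nat_lit 210) (nat_lit 201)) (PT.lf (nat_lit 12768) (nat_lit 6) (nat_lit 168) (nat_lit 4) (nat_lit 190) (nat_lit 210) (nat_lit 200)))))) (PT.nd (nat_lit 312) (PT.nd (nat_lit 156) (PT.nd (nat_lit 78) (PT.lf (nat_lit 12692) (nat_lit 6) (nat_lit 167) (nat_lit 4) (nat_lit 191) (nat_lit 210) (nat_lit 199)) (PT.lf (nat_lit 12616) (nat_lit 6) (nat_lit 166) (nat_lit 4) (nat_lit 192) (nat_lit 210) (nat_lit 198))) (PT.nd (nat_lit 78) (PT.lf (nat_lit 12540) (nat_lit 6) (nat_lit 165) (nat_lit 4) (nat_lit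 193) (nat_lit 210) (nat_lit 197)) (PT.lf (nat_lit 12464) (nat_lit 6) (nat_lit 164) (nat_lit 4) (nat_lit 194) (nat_lit 210) (nat_lit 196)))) (PT.nd (nat_lit 156) (PT.nd (nat_lit 78) (PT.lf (nat_lit 12388) (nat_lit 3) (nat_lit 163) (nat_lit 2) (nat_lit 195) (nat_lit 210) (nat_lit 195)) (PT.lf (nat_lit 12464) (nat_lit 6) (nat_lit 164) (nat_lit 2) (nat_lit 196) (nat_lit 210) (nat_lit 194))) (PT.nd (nat_lit 78) (PT.lf (nat_lit 12540) (nat_lit 6) (nat_lit 165) (nat_lit 2) (nat_lit 197) (nat_lit 210) (nat_lit 193)) (PT.nd (nat_lit 78) (PT.lf (nat_lit 12616) (nat_lit 6) (nat_lit 166) (nat_lit 2) (nat_lit 198) (nat_lit 210) (nat_lit 192)) (PT.lf (nat_lit 12692) (nat_lit 6) (nat_lit 167) (nat_lit 2) (nat_lit 199) (nat_lit 210) (nat_lit 191))))))))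
noncomputable def pc21 : PT := (PT.nd (nat_lit 60606) (PT.nd (nat_lit 702) (PT.nd (nat_lit 312) (PT.nd (nat_lit 156) (PT.nd (nat_lit 78) (PT.lf (nat_lit 12768) (nat_lit 6) (nat_lit 168) (nat_lit 2) (nat_lit 200) (nat_lit 210) (nat_lit 190)) (PT.lf (nat_lit 12008) (nat_lit 6) (nat_lit 158) (nat_lit 2) (nat_lit 201) (nat_lit 210) (nat_lit 189))) (PT.nd (nat_lit 78) (PT.lf (nat_lit 11552) (nat_lit 6) (nat_lit 152) (nat_lit 2) (nat_lit 202) (nat_lit 210) (nat_lit 188)) (PT.lf (nat_lit 11172) (nat_lit 6) (nat_lit 147) (nat_lit 2) (nat_lit 203) (nat_lit 210) (nat_lit 187)))) (PT.nd (nat_lit 156) (PT.nd (nat_lit 78) (PT.lf (nat_lit 10792) (nat_lit 6) (nat_lit 142) (nat_lit 2) (nat_lit 204) (nat_lit 210) (nat_lit 186)) (PT.lf (nat_lit 10488) (nat_lit 6) (nat_lit 138) (nat_lit 2) (nat_lit 205) (nat_lit 210) (nat_lit 185))) (PT.nd (nat_lit 78) (PT.lf (nat_lit 10184) (nat_lit 6) (nat_lit 134) (nat_lit 2) (nat_lit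 206) (nat_lit 210) (nat_lit 184)) (PT.nd (nat_lit 78) (PT.lf (nat_lit 9880) (nat_lit 6) (nat_lit 130) (nat_lit 2) (nat_lit 207) (nat_lit 210) (nat_lit 183)) (PT.lf (nat_lit 9576) (nat_lit 6) (nat_lit 126) (nat_lit 2) (nat_lit 208) (nat_lit 210) (nat_lit 182)))))) (PT.nd (nat_lit 312) (PT.nd (nat_lit 156) (PT.nd (nat_lit 78) (PT.lf (nat_lit 9348) (nat_lit 6) (nat_lit 123) (nat_lit 2) (nat_lit 209) (nat_lit 210) (nat_lit 181)) (PT.lf (nat_lit 9044) (nat_lit 3) (nat_lit 119) (nat_lit 0) (nat_lit 210) (nat_lit 210) (nat_lit 180))) (PT.nd (nat_lit 78) (PT.lf (nat_lit 8740) (nat_lit 6) (nat_lit 115) (nat_lit 0) (nat_lit 211) (nat_lit 210) (nat_lit 179)) (PT.lf (nat_lit 8436) (nat_lit 6) (nat_lit 111) (nat_lit 0) (nat_lit 212) (nat_lit 210) (nat_lit 178)))) (PT.nd (nat_lit 156) (PT.nd (nat_lit 78) (PT.lf (nat_lit 8208) (nat_lit 6) (nat_lit 108) (nat_lit 0) (nat_lit 213) (nat_lit 210) (nat_lit 177)) (PT.lf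 (nat_lit 7904) (nat_lit 6) (nat_lit 104) (nat_lit 0) (nat_lit 214) (nat_lit 210) (nat_lit 176))) (PT.nd (nat_lit 59280) (PT.lf (nat_lit 7676) (nat_lit 6) (nat_lit 101) (nat_lit 0) (nat_lit 215) (nat_lit 210) (nat_lit 175)) (PT.nd (nat_lit 78) (PT.lf (nat_lit 7448) (nat_lit 6) (nat_lit 98) (nat_lit 5) (nat_lit 174) (nat_lit 211) (nat_lit 215)) (PT.lf (nat_lit 7752) (nat_lit 6) (nat_lit 102) (nat_lit 5) (nat_lit 175) (nat_lit 211) (nat_lit 214))))))) (PT.nd (nat_lit 702) (PT.nd (nat_lit 312) (PT.nd (nat_lit 156) (PT.nd (nat_lit 78) (PT.lf (nat_lit 7980) (nat_lit 6) (nat_lit 105) (nat_lit 5) (nat_lit 176) (nat_lit 211) (nat_lit 213)) (PT.lf (nat_lit 8284) (nat_lit 6) (nat_lit 109) (nat_lit 5) (nat_lit 177) (nat_lit 211) (nat_lit 212))) (PT.nd (nat_lit 78) (PT.lf (nat_lit 8512) (nat_lit 3) (nat_lit 112) (nat_lit 4) (nat_lit 178) (nat_lit 211) (nat_lit 211)) (PT.lf (nat_lit 8740) (nat_lit 6) (nat_lit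 115) (nat_lit 4) (nat_lit 179) (nat_lit 211) (nat_lit 210)))) (PT.nd (nat_lit 156) (PT.nd (nat_lit 78) (PT.lf (nat_lit 8968) (nat_lit 6) (nat_lit 118) (nat_lit 4) (nat_lit 180) (nat_lit 211) (nat_lit 209)) (PT.lf (nat_lit 9272) (nat_lit 6) (nat_lit 122) (nat_lit 4) (nat_lit 181) (nat_lit 211) (nat_lit 208))) (PT.nd (nat_lit 78) (PT.lf (nat_lit 9500) (nat_lit 6) (nat_lit 125) (nat_lit 4) (nat_lit 182) (nat_lit 211) (nat_lit 207)) (PT.nd (nat_lit 78) (PT.lf (nat_lit 9804) (nat_lit 6) (nat_lit 129) (nat_lit 4) (nat_lit 183) (nat_lit 211) (nat_lit 206)) (PT.lf (nat_lit 10108) (nat_lit 6) (nat_lit 133) (nat_lit 4) (nat_lit 184) (nat_lit 211) (nat_lit 205)))))) (PT.nd (nat_lit 312) (PT.nd (nat_lit 156) (PT.nd (nat_lit 78) (PT.lf (nat_lit 10412) (nat_lit 6) (nat_lit 137) (nat_lit 4) (nat_lit 185) (nat_lit 211) (nat_lit 204)) (PT.lf (nat_lit 10716) (nat_lit 6) (nat_lit 141) (nat_lit 4) (nat_lit 186) (nat_lit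 211) (nat_lit 203))) (PT.nd (nat_lit 78) (PT.lf (nat_lit 11096) (nat_lit 6) (nat_lit 146) (nat_lit 4) (nat_lit 187) (nat_lit 211) (nat_lit 202)) (PT.lf (nat_lit 11476) (nat_lit 6) (nat_lit 151) (nat_lit 4) (nat_lit 188) (nat_lit 211) (nat_lit 201)))) (PT.nd (nat_lit 936) (PT.nd (nat_lit 858) (PT.lf (nat_lit 11932) (nat_lit 6) (nat_lit 157) (nat_lit 4) (nat_lit 189) (nat_lit 211) (nat_lit 200)) (PT.lf (nat_lit 11932) (nat_lit 6) (nat_lit 157) (nat_lit 2) (nat_lit 200) (nat_lit 211) (nat_lit 189))) (PT.nd (nat_lit 78) (PT.lf (nat_lit 11476) (nat_lit 6) (nat_lit 151) (nat_lit 2) (nat_lit 201) (nat_lit 211) (nat_lit 188)) (PT.nd (nat_lit 78) (PT.lf (nat_lit 11096) (nat_lit 6) (nat_lit 146) (nat_lit 2) (nat_lit 202) (nat_lit 211) (nat_lit 187)) (PT.lf (nat_lit 10716) (nat_lit 6) (nat_lit 141) (nat_lit 2) (nat_lit 203) (nat_lit 211) (nat_lit 186))))))))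
noncomputable def pc22 : PT := (PT.nd (nat_lit 60372) (PT.nd (nat_lit 624) (PT.nd (nat_lit 312) (PT.nd (nat_lit 156) (PT.nd (nat_lit 78) (PT.lf (nat_lit 10412) (nat_lit 6) (nat_lit 137) (nat_lit 2) (nat_lit 204) (nat_lit 211) (nat_lit 185)) (PT.lf (nat_lit 10108) (nat_lit 6) (nat_lit 133) (nat_lit 2) (nat_lit 205) (nat_lit 211) (nat_lit 184))) (PT.nd (nat_lit 78) (PT.lf (nat_lit 9804) (nat_lit 6) (nat_lit 129) (nat_lit 2) (nat_lit 206) (nat_lit 211) (nat_lit 183)) (PT.lf (nat_lit 9500) (nat_lit 6) (nat_lit 125) (nat_lit 2) (nat_lit 207) (nat_lit 211) (nat_lit 182)))) (PT.nd (nat_lit 156) (PT.nd (nat_lit 78) (PT.lf (nat_lit 9272) (nat_lit 6) (nat_lit 122) (nat_lit 2) (nat_lit 208) (nat_lit 211) (nat_lit 181)) (PT.lf (nat_lit 8968) (nat_lit 6) (nat_lit 118) (nat_lit 2) (nat_lit 209) (nat_lit 211) (nat_lit 180))) (PT.nd (nat_lit 78) (PT.lf (nat_lit 8740) (nat_lit 6) (nat_lit 115) (nat_lit 2) (nat_lit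 210) (nat_lit 211) (nat_lit 179)) (PT.lf (nat_lit 8512) (nat_lit 3) (nat_lit 112) (nat_lit 0) (nat_lit 211) (nat_lit 211) (nat_lit 178))))) (PT.nd (nat_lit 59358) (PT.nd (nat_lit 156) (PT.nd (nat_lit 78) (PT.lf (nat_lit 8284) (nat_lit 6) (nat_lit 109) (nat_lit 0) (nat_lit 212) (nat_lit 211) (nat_lit 177)) (PT.lf (nat_lit 7980) (nat_lit 6) (nat_lit 105) (nat_lit 0) (nat_lit 213) (nat_lit 211) (nat_lit 176))) (PT.nd (nat_lit 78) (PT.lf (nat_lit 7752) (nat_lit 6) (nat_lit 102) (nat_lit 0) (nat_lit 214) (nat_lit 211) (nat_lit 175)) (PT.lf (nat_lit 7448) (nat_lit 6) (nat_lit 98) (nat_lit 0) (nat_lit 215) (nat_lit 211) (nat_lit 174)))) (PT.nd (nat_lit 156) (PT.nd (nat_lit 78) (PT.lf (nat_lit 7068) (nat_lit 6) (nat_lit 93) (nat_lit 5) (nat_lit 172) (nat_lit 212) (nat_lit 216)) (PT.lf (nat_lit 7296) (nat_lit 6) (nat_lit 96) (nat_lit 5) (nat_lit 173) (nat_lit 212) (nat_lit 215))) (PT.nd (nat_lit 78) (PT.lf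 (nat_lit 7524) (nat_lit 6) (nat_lit 99) (nat_lit 5) (nat_lit 174) (nat_lit 212) (nat_lit 214)) (PT.nd (nat_lit 78) (PT.lf (nat_lit 7828) (nat_lit 6) (nat_lit 103) (nat_lit 5) (nat_lit 175) (nat_lit 212) (nat_lit 213)) (PT.lf (nat_lit 8056) (nat_lit 3) (nat_lit 106) (nat_lit 4) (nat_lit 176) (nat_lit 212) (nat_lit 212))))))) (PT.nd (nat_lit 2184) (PT.nd (nat_lit 312) (PT.nd (nat_lit 156) (PT.nd (nat_lit 78) (PT.lf (nat_lit 8284) (nat_lit 6) (nat_lit 109) (nat_lit 4) (nat_lit 177) (nat_lit 212) (nat_lit 211)) (PT.lf (nat_lit 8436) (nat_lit 6) (nat_lit 111) (nat_lit 4) (nat_lit 178) (nat_lit 212) (nat_lit 210))) (PT.nd (nat_lit 78) (PT.lf (nat_lit 8664) (nat_lit 6) (nat_lit 114) (nat_lit 4) (nat_lit 179) (nat_lit 212) (nat_lit 209)) (PT.lf (nat_lit 8892) (nat_lit 6) (nat_lit 117) (nat_lit 4) (nat_lit 180) (nat_lit 212) (nat_lit 208)))) (PT.nd (nat_lit 156) (PT.nd (nat_lit 78) (PT.lf (nat_lit 9196)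 (nat_lit 6) (nat_lit 121) (nat_lit 4) (nat_lit 181) (nat_lit 212) (nat_lit 207)) (PT.lf (nat_lit 9424) (nat_lit 6) (nat_lit 124) (nat_lit 4) (nat_lit 182) (nat_lit 212) (nat_lit 206))) (PT.nd (nat_lit 78) (PT.lf (nat_lit 9728) (nat_lit 6) (nat_lit 128) (nat_lit 4) (nat_lit 183) (nat_lit 212) (nat_lit 205)) (PT.nd (nat_lit 1560) (PT.lf (nat_lit 10032) (nat_lit 6) (nat_lit 132) (nat_lit 4) (nat_lit 184) (nat_lit 212) (nat_lit 204)) (PT.lf (nat_lit 10032) (nat_lit 6) (nat_lit 132) (nat_lit 2) (nat_lit 204) (nat_lit 212) (nat_lit 184)))))) (PT.nd (nat_lit 312) (PT.nd (nat_lit 156) (PT.nd (nat_lit 78) (PT.lf (nat_lit 9728) (nat_lit 6) (nat_lit 128) (nat_lit 2) (nat_lit 205) (nat_lit 212) (nat_lit 183)) (PT.lf (nat_lit 9424) (nat_lit 6) (nat_lit 124) (nat_lit 2) (nat_lit 206) (nat_lit 212) (nat_lit 182))) (PT.nd (nat_lit 78) (PT.lf (nat_lit 9196) (nat_lit 6) (nat_lit 121) (nat_lit 2) (nat_lit 207) (nat_lit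 212) (nat_lit 181)) (PT.lf (nat_lit 8892) (nat_lit 6) (nat_lit 117) (nat_lit 2) (nat_lit 208) (nat_lit 212) (nat_lit 180)))) (PT.nd (nat_lit 156) (PT.nd (nat_lit 78) (PT.lf (nat_lit 8664) (nat_lit 6) (nat_lit 114) (nat_lit 2) (nat_lit 209) (nat_lit 212) (nat_lit 179)) (PT.lf (nat_lit 8436) (nat_lit 6) (nat_lit 111) (nat_lit 2) (nat_lit 210) (nat_lit 212) (nat_lit 178))) (PT.nd (nat_lit 78) (PT.lf (nat_lit 8284) (nat_lit 6) (nat_lit 109) (nat_lit 2) (nat_lit 211) (nat_lit 212) (nat_lit 177)) (PT.nd (nat_lit 78) (PT.lf (nat_lit 8056) (nat_lit 3) (nat_lit 106) (nat_lit 0) (nat_lit 212) (nat_lit 212) (nat_lit 176)) (PT.lf (nat_lit 7828) (nat_lit 6) (nat_lit 103) (nat_lit 0) (nat_lit 213) (nat_lit 212) (nat_lit 175))))))))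
noncomputable def pc23 : PT := (PT.nd (nat_lit 62088) (PT.nd (nat_lit 59514) (PT.nd (nat_lit 59124) (PT.nd (nat_lit 156) (PT.nd (nat_lit 78) (PT.lf (nat_lit 7524) (nat_lit 6) (nat_lit 99) (nat_lit 0) (nat_lit 214) (nat_lit 212) (nat_lit 174)) (PT.lf (nat_lit 7296) (nat_lit 6) (nat_lit 96) (nat_lit 0) (nat_lit 215) (nat_lit 212) (nat_lit 173))) (PT.nd (nat_lit 58890) (PT.lf (nat_lit 7068) (nat_lit 6) (nat_lit 93) (nat_lit 0) (nat_lit 216) (nat_lit 212) (nat_lit 172)) (PT.lf (nat_lit 6688) (nat_lit 6) (nat_lit 88) (nat_lit 5) (nat_lit 170) (nat_lit 213) (nat_lit 217)))) (PT.nd (nat_lit 156) (PT.nd (nat_lit 78) (PT.lf (nat_lit 6916) (nat_lit 6) (nat_lit 91) (nat_lit 5) (nat_lit 171) (nat_lit 213) (nat_lit 216)) (PT.lf (nat_lit 7144) (nat_lit 6) (nat_lit 94) (nat_lit 5) (nat_lit 172) (nat_lit 213) (nat_lit 215))) (PT.nd (nat_lit 78) (PT.lf (nat_lit 7372) (nat_lit 6) (nat_lit 97) (nat_lit 5) (nat_lit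 173) (nat_lit 213) (nat_lit 214)) (PT.nd (nat_lit 78) (PT.lf (nat_lit 7600) (nat_lit 3) (nat_lit 100) (nat_lit 4) (nat_lit 174) (nat_lit 213) (nat_lit 213)) (PT.lf (nat_lit 7828) (nat_lit 6) (nat_lit 103) (nat_lit 4) (nat_lit 175) (nat_lit 213) (nat_lit 212)))))) (PT.nd (nat_lit 312) (PT.nd (nat_lit 156) (PT.nd (nat_lit 78) (PT.lf (nat_lit 7980) (nat_lit 6) (nat_lit 105) (nat_lit 4) (nat_lit 176) (nat_lit 213) (nat_lit 211)) (PT.lf (nat_lit 8208) (nat_lit 6) (nat_lit 108) (nat_lit 4) (nat_lit 177) (nat_lit 213) (nat_lit 210))) (PT.nd (nat_lit 78) (PT.lf (nat_lit 8360) (nat_lit 6) (nat_lit 110) (nat_lit 4) (nat_lit 178) (nat_lit 213) (nat_lit 209)) (PT.lf (nat_lit 8588) (nat_lit 6) (nat_lit 113) (nat_lit 4) (nat_lit 179) (nat_lit 213) (nat_lit 208)))) (PT.nd (nat_lit 2028) (PT.nd (nat_lit 78) (PT.lf (nat_lit 8816) (nat_lit 6) (nat_lit 116) (nat_lit 4) (nat_lit 180) (nat_lit 213) (nat_lit 207)) (PT.lf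 (nat_lit 9120) (nat_lit 6) (nat_lit 120) (nat_lit 4) (nat_lit 181) (nat_lit 213) (nat_lit 206))) (PT.nd (nat_lit 78) (PT.lf (nat_lit 9120) (nat_lit 6) (nat_lit 120) (nat_lit 2) (nat_lit 206) (nat_lit 213) (nat_lit 181)) (PT.nd (nat_lit 78) (PT.lf (nat_lit 8816) (nat_lit 6) (nat_lit 116) (nat_lit 2) (nat_lit 207) (nat_lit 213) (nat_lit 180)) (PT.lf (nat_lit 8588) (nat_lit 6) (nat_lit 113) (nat_lit 2) (nat_lit 208) (nat_lit 213) (nat_lit 179))))))) (PT.nd (nat_lit 59358) (PT.nd (nat_lit 312) (PT.nd (nat_lit 156) (PT.nd (nat_lit 78) (PT.lf (nat_lit 8360) (nat_lit 6) (nat_lit 110) (nat_lit 2) (nat_lit 209) (nat_lit 213) (nat_lit 178)) (PT.lf (nat_lit 8208) (nat_lit 6) (nat_lit 108) (nat_lit 2) (nat_lit 210) (nat_lit 213) (nat_lit 177))) (PT.nd (nat_lit 78) (PT.lf (nat_lit 7980) (nat_lit 6) (nat_lit 105) (nat_lit 2) (nat_lit 211) (nat_lit 213) (nat_lit 176)) (PT.lf (nat_lit 7828) (nat_lit 6) (nat_lit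 103) (nat_lit 2) (nat_lit 212) (nat_lit 213) (nat_lit 175)))) (PT.nd (nat_lit 156) (PT.nd (nat_lit 78) (PT.lf (nat_lit 7600) (nat_lit 3) (nat_lit 100) (nat_lit 0) (nat_lit 213) (nat_lit 213) (nat_lit 174)) (PT.lf (nat_lit 7372) (nat_lit 6) (nat_lit 97) (nat_lit 0) (nat_lit 214) (nat_lit 213) (nat_lit 173))) (PT.nd (nat_lit 78) (PT.lf (nat_lit 7144) (nat_lit 6) (nat_lit 94) (nat_lit 0) (nat_lit 215) (nat_lit 213) (nat_lit 172)) (PT.nd (nat_lit 78) (PT.lf (nat_lit 6916) (nat_lit 6) (nat_lit 91) (nat_lit 0) (nat_lit 216) (nat_lit 213) (nat_lit 171)) (PT.lf (nat_lit 6688) (nat_lit 6) (nat_lit 88) (nat_lit 0) (nat_lit 217) (nat_lit 213) (nat_lit 170)))))) (PT.nd (nat_lit 312) (PT.nd (nat_lit 156) (PT.nd (nat_lit 78) (PT.lf (nat_lit 6536) (nat_lit 6) (nat_lit 86) (nat_lit 5) (nat_lit 169) (nat_lit 214) (nat_lit 217)) (PT.lf (nat_lit 6764) (nat_lit 6) (nat_lit 89) (nat_lit 5) (nat_lit 170) (nat_lit 214)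 (nat_lit 216))) (PT.nd (nat_lit 78) (PT.lf (nat_lit 6992) (nat_lit 6) (nat_lit 92) (nat_lit 5) (nat_lit 171) (nat_lit 214) (nat_lit 215)) (PT.lf (nat_lit 7220) (nat_lit 3) (nat_lit 95) (nat_lit 4) (nat_lit 172) (nat_lit 214) (nat_lit 214)))) (PT.nd (nat_lit 156) (PT.nd (nat_lit 78) (PT.lf (nat_lit 7372) (nat_lit 6) (nat_lit 97) (nat_lit 4) (nat_lit 173) (nat_lit 214) (nat_lit 213)) (PT.lf (nat_lit 7524) (nat_lit 6) (nat_lit 99) (nat_lit 4) (nat_lit 174) (nat_lit 214) (nat_lit 212))) (PT.nd (nat_lit 78) (PT.lf (nat_lit 7752) (nat_lit 6) (nat_lit 102) (nat_lit 4) (nat_lit 175) (nat_lit 214) (nat_lit 211)) (PT.nd (nat_lit 78) (PT.lf (nat_lit 7904) (nat_lit 6) (nat_lit 104) (nat_lit 4) (nat_lit 176) (nat_lit 214) (nat_lit 210)) (PT.lf (nat_lit 8132) (nat_lit 6) (nat_lit 107) (nat_lit 4) (nat_lit 177) (nat_lit 214) (nat_lit 209))))))))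
noncomputable def pc24 : PT := (PT.nd (nat_lit 59826) (PT.nd (nat_lit 624) (PT.nd (nat_lit 312) (PT.nd (nat_lit 156) (PT.nd (nat_lit 78) (PT.lf (nat_lit 8132) (nat_lit 6) (nat_lit 107) (nat_lit 2) (nat_lit 209) (nat_lit 214) (nat_lit 177)) (PT.lf (nat_lit 7904) (nat_lit 6) (nat_lit 104) (nat_lit 2) (nat_lit 210) (nat_lit 214) (nat_lit 176))) (PT.nd (nat_lit 78) (PT.lf (nat_lit 7752) (nat_lit 6) (nat_lit 102) (nat_lit 2) (nat_lit 211) (nat_lit 214) (nat_lit 175)) (PT.lf (nat_lit 7524) (nat_lit 6) (nat_lit 99) (nat_lit 2) (nat_lit 212) (nat_lit 214) (nat_lit 174)))) (PT.nd (nat_lit 156) (PT.nd (nat_lit 78) (PT.lf (nat_lit 7372) (nat_lit 6) (nat_lit 97) (nat_lit 2) (nat_lit 213) (nat_lit 214) (nat_lit 173)) (PT.lf (nat_lit 7220) (nat_lit 3) (nat_lit 95) (nat_lit 0) (nat_lit 214) (nat_lit 214) (nat_lit 172))) (PT.nd (nat_lit 78) (PT.lf (nat_lit 6992) (nat_lit 6) (nat_lit 92) (nat_lit 0) (nat_lit 215)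 (nat_lit 214) (nat_lit 171)) (PT.lf (nat_lit 6764) (nat_lit 6) (nat_lit 89) (nat_lit 0) (nat_lit 216) (nat_lit 214) (nat_lit 170))))) (PT.nd (nat_lit 58812) (PT.nd (nat_lit 58656) (PT.nd (nat_lit 58578) (PT.lf (nat_lit 6536) (nat_lit 6) (nat_lit 86) (nat_lit 0) (nat_lit 217) (nat_lit 214) (nat_lit 169)) (PT.lf (nat_lit 6232) (nat_lit 6) (nat_lit 82) (nat_lit 5) (nat_lit 167) (nat_lit 215) (nat_lit 218))) (PT.nd (nat_lit 78) (PT.lf (nat_lit 6384) (nat_lit 6) (nat_lit 84) (nat_lit 5) (nat_lit 168) (nat_lit 215) (nat_lit 217)) (PT.lf (nat_lit 6612) (nat_lit 6) (nat_lit 87) (nat_lit 5) (nat_lit 169) (nat_lit 215) (nat_lit 216)))) (PT.nd (nat_lit 156) (PT.nd (nat_lit 78) (PT.lf (nat_lit 6840) (nat_lit 3) (nat_lit 90) (nat_lit 4) (nat_lit 170) (nat_lit 215) (nat_lit 215)) (PT.lf (nat_lit 6992) (nat_lit 6) (nat_lit 92) (nat_lit 4) (nat_lit 171) (nat_lit 215) (nat_lit 214))) (PT.nd (nat_lit 78) (PT.lf (nat_lit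 7144) (nat_lit 6) (nat_lit 94) (nat_lit 4) (nat_lit 172) (nat_lit 215) (nat_lit 213)) (PT.nd (nat_lit 78) (PT.lf (nat_lit 7296) (nat_lit 6) (nat_lit 96) (nat_lit 4) (nat_lit 173) (nat_lit 215) (nat_lit 212)) (PT.lf (nat_lit 7448) (nat_lit 6) (nat_lit 98) (nat_lit 4) (nat_lit 174) (nat_lit 215) (nat_lit 211))))))) (PT.nd (nat_lit 3354) (PT.nd (nat_lit 2964) (PT.nd (nat_lit 2808) (PT.nd (nat_lit 2730) (PT.lf (nat_lit 7676) (nat_lit 6) (nat_lit 101) (nat_lit 4) (nat_lit 175) (nat_lit 215) (nat_lit 210)) (PT.lf (nat_lit 7676) (nat_lit 6) (nat_lit 101) (nat_lit 2) (nat_lit 210) (nat_lit 215) (nat_lit 175))) (PT.nd (nat_lit 78) (PT.lf (nat_lit 7448) (nat_lit 6) (nat_lit 98) (nat_lit 2) (nat_lit 211) (nat_lit 215) (nat_lit 174)) (PT.lf (nat_lit 7296) (nat_lit 6) (nat_lit 96) (nat_lit 2) (nat_lit 212) (nat_lit 215) (nat_lit 173)))) (PT.nd (nat_lit 156) (PT.nd (nat_lit 78) (PT.lf (nat_lit 7144) (nat_lit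 6) (nat_lit 94) (nat_lit 2) (nat_lit 213) (nat_lit 215) (nat_lit 172)) (PT.lf (nat_lit 6992) (nat_lit 6) (nat_lit 92) (nat_lit 2) (nat_lit 214) (nat_lit 215) (nat_lit 171))) (PT.nd (nat_lit 78) (PT.lf (nat_lit 6840) (nat_lit 3) (nat_lit 90) (nat_lit 0) (nat_lit 215) (nat_lit 215) (nat_lit 170)) (PT.nd (nat_lit 78) (PT.lf (nat_lit 6612) (nat_lit 6) (nat_lit 87) (nat_lit 0) (nat_lit 216) (nat_lit 215) (nat_lit 169)) (PT.lf (nat_lit 6384) (nat_lit 6) (nat_lit 84) (nat_lit 0) (nat_lit 217) (nat_lit 215) (nat_lit 168)))))) (PT.nd (nat_lit 58578) (PT.nd (nat_lit 58422) (PT.nd (nat_lit 58344) (PT.lf (nat_lit 6232) (nat_lit 6) (nat_lit 82) (nat_lit 0) (nat_lit 218) (nat_lit 215) (nat_lit 167)) (PT.lf (nat_lit 5928) (nat_lit 6) (nat_lit 78) (nat_lit 5) (nat_lit 165) (nat_lit 216) (nat_lit 219))) (PT.nd (nat_lit 78) (PT.lf (nat_lit 6080) (nat_lit 6) (nat_lit 80) (nat_lit 5) (nat_lit 166) (nat_lit 216) (nat_lit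 218)) (PT.lf (nat_lit 6308) (nat_lit 6) (nat_lit 83) (nat_lit 5) (nat_lit 167) (nat_lit 216) (nat_lit 217)))) (PT.nd (nat_lit 156) (PT.nd (nat_lit 78) (PT.lf (nat_lit 6460) (nat_lit 3) (nat_lit 85) (nat_lit 4) (nat_lit 168) (nat_lit 216) (nat_lit 216)) (PT.lf (nat_lit 6612) (nat_lit 6) (nat_lit 87) (nat_lit 4) (nat_lit 169) (nat_lit 216) (nat_lit 215))) (PT.nd (nat_lit 78) (PT.lf (nat_lit 6764) (nat_lit 6) (nat_lit 89) (nat_lit 4) (nat_lit 170) (nat_lit 216) (nat_lit 214)) (PT.nd (nat_lit 78) (PT.lf (nat_lit 6916) (nat_lit 6) (nat_lit 91) (nat_lit 4) (nat_lit 171) (nat_lit 216) (nat_lit 213)) (PT.lf (nat_lit 7068) (nat_lit 6) (nat_lit 93) (nat_lit 4) (nat_lit 172) (nat_lit 216) (nat_lit 212))))))))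
noncomputable def pc25 : PT := (PT.nd (nat_lit 62712) (PT.nd (nat_lit 58734) (PT.nd (nat_lit 312) (PT.nd (nat_lit 156) (PT.nd (nat_lit 78) (PT.lf (nat_lit 7068) (nat_lit 6) (nat_lit 93) (nat_lit 2) (nat_lit 212) (nat_lit 216) (nat_lit 172)) (PT.lf (nat_lit 6916) (nat_lit 6) (nat_lit 91) (nat_lit 2) (nat_lit 213) (nat_lit 216) (nat_lit 171))) (PT.nd (nat_lit 78) (PT.lf (nat_lit 6764) (nat_lit 6) (nat_lit 89) (nat_lit 2) (nat_lit 214) (nat_lit 216) (nat_lit 170)) (PT.lf (nat_lit 6612) (nat_lit 6) (nat_lit 87) (nat_lit 2) (nat_lit 215) (nat_lit 216) (nat_lit 169)))) (PT.nd (nat_lit 156) (PT.nd (nat_lit 78) (PT.lf (nat_lit 6460) (nat_lit 3) (nat_lit 85) (nat_lit 0) (nat_lit 216) (nat_lit 216) (nat_lit 168)) (PT.lf (nat_lit 6308) (nat_lit 6) (nat_lit 83) (nat_lit 0) (nat_lit 217) (nat_lit 216) (nat_lit 167))) (PT.nd (nat_lit 78) (PT.lf (nat_lit 6080) (nat_lit 6) (nat_lit 80) (nat_lit 0) (nat_lit 218)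 (nat_lit 216) (nat_lit 166)) (PT.nd (nat_lit 58110) (PT.lf (nat_lit 5928) (nat_lit 6) (nat_lit 78) (nat_lit 0) (nat_lit 219) (nat_lit 216) (nat_lit 165)) (PT.lf (nat_lit 5624) (nat_lit 6) (nat_lit 74) (nat_lit 5) (nat_lit 163) (nat_lit 217) (nat_lit 220)))))) (PT.nd (nat_lit 312) (PT.nd (nat_lit 156) (PT.nd (nat_lit 78) (PT.lf (nat_lit 5776) (nat_lit 6) (nat_lit 76) (nat_lit 5) (nat_lit 164) (nat_lit 217) (nat_lit 219)) (PT.lf (nat_lit 6004) (nat_lit 6) (nat_lit 79) (nat_lit 5) (nat_lit 165) (nat_lit 217) (nat_lit 218))) (PT.nd (nat_lit 78) (PT.lf (nat_lit 6156) (nat_lit 3) (nat_lit 81) (nat_lit 4) (nat_lit 166) (nat_lit 217) (nat_lit 217)) (PT.lf (nat_lit 6308) (nat_lit 6) (nat_lit 83) (nat_lit 4) (nat_lit 167) (nat_lit 217) (nat_lit 216)))) (PT.nd (nat_lit 156) (PT.nd (nat_lit 78) (PT.lf (nat_lit 6384) (nat_lit 6) (nat_lit 84) (nat_lit 4) (nat_lit 168) (nat_lit 217) (nat_lit 215)) (PT.lf (nat_lit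 6536) (nat_lit 6) (nat_lit 86) (nat_lit 4) (nat_lit 169) (nat_lit 217) (nat_lit 214))) (PT.nd (nat_lit 3354) (PT.lf (nat_lit 6688) (nat_lit 6) (nat_lit 88) (nat_lit 4) (nat_lit 170) (nat_lit 217) (nat_lit 213)) (PT.nd (nat_lit 78) (PT.lf (nat_lit 6688) (nat_lit 6) (nat_lit 88) (nat_lit 2) (nat_lit 213) (nat_lit 217) (nat_lit 170)) (PT.lf (nat_lit 6536) (nat_lit 6) (nat_lit 86) (nat_lit 2) (nat_lit 214) (nat_lit 217) (nat_lit 169))))))) (PT.nd (nat_lit 58500) (PT.nd (nat_lit 312) (PT.nd (nat_lit 156) (PT.nd (nat_lit 78) (PT.lf (nat_lit 6384) (nat_lit 6) (nat_lit 84) (nat_lit 2) (nat_lit 215) (nat_lit 217) (nat_lit 168)) (PT.lf (nat_lit 6308) (nat_lit 6) (nat_lit 83) (nat_lit 2) (nat_lit 216) (nat_lit 217) (nat_lit 167))) (PT.nd (nat_lit 78) (PT.lf (nat_lit 6156) (nat_lit 3) (nat_lit 81) (nat_lit 0) (nat_lit 217) (nat_lit 217) (nat_lit 166)) (PT.lf (nat_lit 6004) (nat_lit 6) (nat_lit 79) (nat_lit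 0) (nat_lit 218) (nat_lit 217) (nat_lit 165)))) (PT.nd (nat_lit 57954) (PT.nd (nat_lit 78) (PT.lf (nat_lit 5776) (nat_lit 6) (nat_lit 76) (nat_lit 0) (nat_lit 219) (nat_lit 217) (nat_lit 164)) (PT.lf (nat_lit 5624) (nat_lit 6) (nat_lit 74) (nat_lit 0) (nat_lit 220) (nat_lit 217) (nat_lit 163))) (PT.nd (nat_lit 78) (PT.lf (nat_lit 5320) (nat_lit 6) (nat_lit 70) (nat_lit 5) (nat_lit 161) (nat_lit 218) (nat_lit 221)) (PT.nd (nat_lit 78) (PT.lf (nat_lit 5472) (nat_lit 6) (nat_lit 72) (nat_lit 5) (nat_lit 162) (nat_lit 218) (nat_lit 220)) (PT.lf (nat_lit 5700) (nat_lit 6) (nat_lit 75) (nat_lit 5) (nat_lit 163) (nat_lit 218) (nat_lit 219)))))) (PT.nd (nat_lit 3978) (PT.nd (nat_lit 156) (PT.nd (nat_lit 78) (PT.lf (nat_lit 5852) (nat_lit 3) (nat_lit 77) (nat_lit 4) (nat_lit 164) (nat_lit 218) (nat_lit 218)) (PT.lf (nat_lit 6004) (nat_lit 6) (nat_lit 79) (nat_lit 4) (nat_lit 165) (nat_lit 218) (nat_lit 217)))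 (PT.nd (nat_lit 78) (PT.lf (nat_lit 6080) (nat_lit 6) (nat_lit 80) (nat_lit 4) (nat_lit 166) (nat_lit 218) (nat_lit 216)) (PT.lf (nat_lit 6232) (nat_lit 6) (nat_lit 82) (nat_lit 4) (nat_lit 167) (nat_lit 218) (nat_lit 215)))) (PT.nd (nat_lit 156) (PT.nd (nat_lit 78) (PT.lf (nat_lit 6232) (nat_lit 6) (nat_lit 82) (nat_lit 2) (nat_lit 215) (nat_lit 218) (nat_lit 167)) (PT.lf (nat_lit 6080) (nat_lit 6) (nat_lit 80) (nat_lit 2) (nat_lit 216) (nat_lit 218) (nat_lit 166))) (PT.nd (nat_lit 78) (PT.lf (nat_lit 6004) (nat_lit 6) (nat_lit 79) (nat_lit 2) (nat_lit 217) (nat_lit 218) (nat_lit 165)) (PT.nd (nat_lit 78) (PT.lf (nat_lit 5852) (nat_lit 3) (nat_lit 77) (nat_lit 0) (nat_lit 218) (nat_lit 218) (nat_lit 164)) (PT.lf (nat_lit 5700) (nat_lit 6) (nat_lit 75) (nat_lit 0) (nat_lit 219) (nat_lit 218) (nat_lit 163))))))))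
noncomputable def pc26 : PT := (PT.nd (nat_lit 120354) (PT.nd (nat_lit 62166) (PT.nd (nat_lit 57954) (PT.nd (nat_lit 57798) (PT.nd (nat_lit 78) (PT.lf (nat_lit 5472) (nat_lit 6) (nat_lit 72) (nat_lit 0) (nat_lit 220) (nat_lit 218) (nat_lit 162)) (PT.lf (nat_lit 5320) (nat_lit 6) (nat_lit 70) (nat_lit 0) (nat_lit 221) (nat_lit 218) (nat_lit 161))) (PT.nd (nat_lit 78) (PT.lf (nat_lit 5168) (nat_lit 6) (nat_lit 68) (nat_lit 5) (nat_lit 160) (nat_lit 219) (nat_lit 221)) (PT.lf (nat_lit 5396) (nat_lit 6) (nat_lit 71) (nat_lit 5) (nat_lit 161) (nat_lit 219) (nat_lit 220)))) (PT.nd (nat_lit 156) (PT.nd (nat_lit 78) (PT.lf (nat_lit 5548) (nat_lit 3) (nat_lit 73) (nat_lit 4) (nat_lit 162) (nat_lit 219) (nat_lit 219)) (PT.lf (nat_lit 5700) (nat_lit 6) (nat_lit 75) (nat_lit 4) (nat_lit 163) (nat_lit 219) (nat_lit 218))) (PT.nd (nat_lit 78) (PT.lf (nat_lit 5776) (nat_lit 6) (nat_lit 76) (nat_lit 4) (nat_lit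 164) (nat_lit 219) (nat_lit 217)) (PT.lf (nat_lit 5928) (nat_lit 6) (nat_lit 78) (nat_lit 4) (nat_lit 165) (nat_lit 219) (nat_lit 216))))) (PT.nd (nat_lit 312) (PT.nd (nat_lit 156) (PT.nd (nat_lit 78) (PT.lf (nat_lit 5928) (nat_lit 6) (nat_lit 78) (nat_lit 2) (nat_lit 216) (nat_lit 219) (nat_lit 165)) (PT.lf (nat_lit 5776) (nat_lit 6) (nat_lit 76) (nat_lit 2) (nat_lit 217) (nat_lit 219) (nat_lit 164))) (PT.nd (nat_lit 78) (PT.lf (nat_lit 5700) (nat_lit 6) (nat_lit 75) (nat_lit 2) (nat_lit 218) (nat_lit 219) (nat_lit 163)) (PT.lf (nat_lit 5548) (nat_lit 3) (nat_lit 73) (nat_lit 0) (nat_lit 219) (nat_lit 219) (nat_lit 162)))) (PT.nd (nat_lit 57642) (PT.nd (nat_lit 78) (PT.lf (nat_lit 5396) (nat_lit 6) (nat_lit 71) (nat_lit 0) (nat_lit 220) (nat_lit 219) (nat_lit 161)) (PT.lf (nat_lit 5168) (nat_lit 6) (nat_lit 68) (nat_lit 0) (nat_lit 221) (nat_lit 219) (nat_lit 160))) (PT.nd (nat_lit 78) (PT.lf (nat_lit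 4940) (nat_lit 6) (nat_lit 65) (nat_lit 5) (nat_lit 158) (nat_lit 220) (nat_lit 222)) (PT.nd (nat_lit 78) (PT.lf (nat_lit 5092) (nat_lit 6) (nat_lit 67) (nat_lit 5) (nat_lit 159) (nat_lit 220) (nat_lit 221)) (PT.lf (nat_lit 5244) (nat_lit 3) (nat_lit 69) (nat_lit 4) (nat_lit 160) (nat_lit 220) (nat_lit 220))))))) (PT.nd (nat_lit 62088) (PT.nd (nat_lit 4446) (PT.nd (nat_lit 156) (PT.nd (nat_lit 78) (PT.lf (nat_lit 5396) (nat_lit 6) (nat_lit 71) (nat_lit 4) (nat_lit 161) (nat_lit 220) (nat_lit 219)) (PT.lf (nat_lit 5472) (nat_lit 6) (nat_lit 72) (nat_lit 4) (nat_lit 162) (nat_lit 220) (nat_lit 218))) (PT.nd (nat_lit 4212) (PT.lf (nat_lit 5624) (nat_lit 6) (nat_lit 74) (nat_lit 4) (nat_lit 163) (nat_lit 220) (nat_lit 217)) (PT.lf (nat_lit 5624) (nat_lit 6) (nat_lit 74) (nat_lit 2) (nat_lit 217) (nat_lit 220) (nat_lit 163)))) (PT.nd (nat_lit 156) (PT.nd (nat_lit 78) (PT.lf (nat_lit 5472) (nat_lit 6)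 (nat_lit 72) (nat_lit 2) (nat_lit 218) (nat_lit 220) (nat_lit 162)) (PT.lf (nat_lit 5396) (nat_lit 6) (nat_lit 71) (nat_lit 2) (nat_lit 219) (nat_lit 220) (nat_lit 161))) (PT.nd (nat_lit 78) (PT.lf (nat_lit 5244) (nat_lit 3) (nat_lit 69) (nat_lit 0) (nat_lit 220) (nat_lit 220) (nat_lit 160)) (PT.nd (nat_lit 78) (PT.lf (nat_lit 5092) (nat_lit 6) (nat_lit 67) (nat_lit 0) (nat_lit 221) (nat_lit 220) (nat_lit 159)) (PT.lf (nat_lit 4940) (nat_lit 6) (nat_lit 65) (nat_lit 0) (nat_lit 222) (nat_lit 220) (nat_lit 158)))))) (PT.nd (nat_lit 312) (PT.nd (nat_lit 156) (PT.nd (nat_lit 78) (PT.lf (nat_lit 4712) (nat_lit 6) (nat_lit 62) (nat_lit 5) (nat_lit 156) (nat_lit 221) (nat_lit 223)) (PT.lf (nat_lit 4864) (nat_lit 6) (nat_lit 64) (nat_lit 5) (nat_lit 157) (nat_lit 221) (nat_lit 222))) (PT.nd (nat_lit 78) (PT.lf (nat_lit 5016) (nat_lit 3) (nat_lit 66) (nat_lit 4) (nat_lit 158) (nat_lit 221) (nat_lit 221))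 (PT.lf (nat_lit 5092) (nat_lit 6) (nat_lit 67) (nat_lit 4) (nat_lit 159) (nat_lit 221) (nat_lit 220)))) (PT.nd (nat_lit 4524) (PT.nd (nat_lit 78) (PT.lf (nat_lit 5168) (nat_lit 6) (nat_lit 68) (nat_lit 4) (nat_lit 160) (nat_lit 221) (nat_lit 219)) (PT.lf (nat_lit 5320) (nat_lit 6) (nat_lit 70) (nat_lit 4) (nat_lit 161) (nat_lit 221) (nat_lit 218))) (PT.nd (nat_lit 78) (PT.lf (nat_lit 5320) (nat_lit 6) (nat_lit 70) (nat_lit 2) (nat_lit 218) (nat_lit 221) (nat_lit 161)) (PT.nd (nat_lit 78) (PT.lf (nat_lit 5168) (nat_lit 6) (nat_lit 68) (nat_lit 2) (nat_lit 219) (nat_lit 221) (nat_lit 160)) (PT.lf (nat_lit 5092) (nat_lit 6) (nat_lit 67) (nat_lit 2) (nat_lit 220) (nat_lit 221) (nat_lit 159))))))))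
noncomputable def pc27 : PT := (PT.nd (nat_lit 124956) (PT.nd (nat_lit 62478) (PT.nd (nat_lit 57330) (PT.nd (nat_lit 156) (PT.nd (nat_lit 78) (PT.lf (nat_lit 5016) (nat_lit 3) (nat_lit 66) (nat_lit 0) (nat_lit 221) (nat_lit 221) (nat_lit 158)) (PT.lf (nat_lit 4864) (nat_lit 6) (nat_lit 64) (nat_lit 0) (nat_lit 222) (nat_lit 221) (nat_lit 157))) (PT.nd (nat_lit 57096) (PT.lf (nat_lit 4712) (nat_lit 6) (nat_lit 62) (nat_lit 0) (nat_lit 223) (nat_lit 221) (nat_lit 156)) (PT.lf (nat_lit 4484) (nat_lit 6) (nat_lit 59) (nat_lit 5) (nat_lit 154) (nat_lit 222) (nat_lit 224)))) (PT.nd (nat_lit 156) (PT.nd (nat_lit 78) (PT.lf (nat_lit 4636) (nat_lit 6) (nat_lit 61) (nat_lit 5) (nat_lit 155) (nat_lit 222) (nat_lit 223)) (PT.lf (nat_lit 4788) (nat_lit 3) (nat_lit 63) (nat_lit 4) (nat_lit 156) (nat_lit 222) (nat_lit 222))) (PT.nd (nat_lit 78) (PT.lf (nat_lit 4864) (nat_lit 6) (nat_lit 64) (nat_lit 4) (nat_lit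 157) (nat_lit 222) (nat_lit 221)) (PT.nd (nat_lit 4836) (PT.lf (nat_lit 4940) (nat_lit 6) (nat_lit 65) (nat_lit 4) (nat_lit 158) (nat_lit 222) (nat_lit 220)) (PT.lf (nat_lit 4940) (nat_lit 6) (nat_lit 65) (nat_lit 2) (nat_lit 220) (nat_lit 222) (nat_lit 158)))))) (PT.nd (nat_lit 57096) (PT.nd (nat_lit 156) (PT.nd (nat_lit 78) (PT.lf (nat_lit 4864) (nat_lit 6) (nat_lit 64) (nat_lit 2) (nat_lit 221) (nat_lit 222) (nat_lit 157)) (PT.lf (nat_lit 4788) (nat_lit 3) (nat_lit 63) (nat_lit 0) (nat_lit 222) (nat_lit 222) (nat_lit 156))) (PT.nd (nat_lit 78) (PT.lf (nat_lit 4636) (nat_lit 6) (nat_lit 61) (nat_lit 0) (nat_lit 223) (nat_lit 222) (nat_lit 155)) (PT.lf (nat_lit 4484) (nat_lit 6) (nat_lit 59) (nat_lit 0) (nat_lit 224) (nat_lit 222) (nat_lit 154)))) (PT.nd (nat_lit 156) (PT.nd (nat_lit 78) (PT.lf (nat_lit 4256) (nat_lit 6) (nat_lit 56) (nat_lit 5) (nat_lit 152) (nat_lit 223) (nat_lit 225)) (PT.lf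 (nat_lit 4408) (nat_lit 6) (nat_lit 58) (nat_lit 5) (nat_lit 153) (nat_lit 223) (nat_lit 224))) (PT.nd (nat_lit 78) (PT.lf (nat_lit 4560) (nat_lit 3) (nat_lit 60) (nat_lit 4) (nat_lit 154) (nat_lit 223) (nat_lit 223)) (PT.nd (nat_lit 78) (PT.lf (nat_lit 4636) (nat_lit 6) (nat_lit 61) (nat_lit 4) (nat_lit 155) (nat_lit 223) (nat_lit 222)) (PT.lf (nat_lit 4712) (nat_lit 6) (nat_lit 62) (nat_lit 4) (nat_lit 156) (nat_lit 223) (nat_lit 221))))))) (PT.nd (nat_lit 57252) (PT.nd (nat_lit 312) (PT.nd (nat_lit 156) (PT.nd (nat_lit 78) (PT.lf (nat_lit 4712) (nat_lit 6) (nat_lit 62) (nat_lit 2) (nat_lit 221) (nat_lit 223) (nat_lit 156)) (PT.lf (nat_lit 4636) (nat_lit 6) (nat_lit 61) (nat_lit 2) (nat_lit 222) (nat_lit 223) (nat_lit 155))) (PT.nd (nat_lit 78) (PT.lf (nat_lit 4560) (nat_lit 3) (nat_lit 60) (nat_lit 0) (nat_lit 223) (nat_lit 223) (nat_lit 154)) (PT.lf (nat_lit 4408) (nat_lit 6) (nat_lit 58) (nat_lit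 0) (nat_lit 224) (nat_lit 223) (nat_lit 153)))) (PT.nd (nat_lit 56706) (PT.nd (nat_lit 56628) (PT.lf (nat_lit 4256) (nat_lit 6) (nat_lit 56) (nat_lit 0) (nat_lit 225) (nat_lit 223) (nat_lit 152)) (PT.lf (nat_lit 4028) (nat_lit 6) (nat_lit 53) (nat_lit 5) (nat_lit 150) (nat_lit 224) (nat_lit 226))) (PT.nd (nat_lit 78) (PT.lf (nat_lit 4180) (nat_lit 6) (nat_lit 55) (nat_lit 5) (nat_lit 151) (nat_lit 224) (nat_lit 225)) (PT.nd (nat_lit 78) (PT.lf (nat_lit 4332) (nat_lit 3) (nat_lit 57) (nat_lit 4) (nat_lit 152) (nat_lit 224) (nat_lit 224)) (PT.lf (nat_lit 4408) (nat_lit 6) (nat_lit 58) (nat_lit 4) (nat_lit 153) (nat_lit 224) (nat_lit 223)))))) (PT.nd (nat_lit 5538) (PT.nd (nat_lit 5382) (PT.nd (nat_lit 5304) (PT.lf (nat_lit 4484) (nat_lit 6) (nat_lit 59) (nat_lit 4) (nat_lit 154) (nat_lit 224) (nat_lit 222)) (PT.lf (nat_lit 4484) (nat_lit 6) (nat_lit 59) (nat_lit 2) (nat_lit 222) (nat_lit 224) (nat_lit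 154))) (PT.nd (nat_lit 78) (PT.lf (nat_lit 4408) (nat_lit 6) (nat_lit 58) (nat_lit 2) (nat_lit 223) (nat_lit 224) (nat_lit 153)) (PT.lf (nat_lit 4332) (nat_lit 3) (nat_lit 57) (nat_lit 0) (nat_lit 224) (nat_lit 224) (nat_lit 152)))) (PT.nd (nat_lit 56472) (PT.nd (nat_lit 78) (PT.lf (nat_lit 4180) (nat_lit 6) (nat_lit 55) (nat_lit 0) (nat_lit 225) (nat_lit 224) (nat_lit 151)) (PT.lf (nat_lit 4028) (nat_lit 6) (nat_lit 53) (nat_lit 0) (nat_lit 226) (nat_lit 224) (nat_lit 150))) (PT.nd (nat_lit 78) (PT.lf (nat_lit 3800) (nat_lit 6) (nat_lit 50) (nat_lit 5) (nat_lit 148) (nat_lit 225) (nat_lit 227)) (PT.nd (nat_lit 78) (PT.lf (nat_lit 3952) (nat_lit 6) (nat_lit 52) (nat_lit 5) (nat_lit 149) (nat_lit 225) (nat_lit 226)) (PT.lf (nat_lit 4104) (nat_lit 3) (nat_lit 54) (nat_lit 4) (nat_lit 150) (nat_lit 225) (nat_lit 225))))))))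
noncomputable def pc28 : PT := (PT.nd (nat_lit 124410) (PT.nd (nat_lit 62166) (PT.nd (nat_lit 5772) (PT.nd (nat_lit 5616) (PT.nd (nat_lit 78) (PT.lf (nat_lit 4180) (nat_lit 6) (nat_lit 55) (nat_lit 4) (nat_lit 151) (nat_lit 225) (nat_lit 224)) (PT.lf (nat_lit 4256) (nat_lit 6) (nat_lit 56) (nat_lit 4) (nat_lit 152) (nat_lit 225) (nat_lit 223))) (PT.nd (nat_lit 78) (PT.lf (nat_lit 4256) (nat_lit 6) (nat_lit 56) (nat_lit 2) (nat_lit 223) (nat_lit 225) (nat_lit 152)) (PT.lf (nat_lit 4180) (nat_lit 6) (nat_lit 55) (nat_lit 2) (nat_lit 224) (nat_lit 225) (nat_lit 151)))) (PT.nd (nat_lit 156) (PT.nd (nat_lit 78) (PT.lf (nat_lit 4104) (nat_lit 3) (nat_lit 54) (nat_lit 0) (nat_lit 225) (nat_lit 225) (nat_lit 150)) (PT.lf (nat_lit 3952) (nat_lit 6) (nat_lit 52) (nat_lit 0) (nat_lit 226) (nat_lit 225) (nat_lit 149))) (PT.nd (nat_lit 56160) (PT.lf (nat_lit 3800) (nat_lit 6) (nat_lit 50) (nat_lit 0) (nat_lit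 227) (nat_lit 225) (nat_lit 148)) (PT.lf (nat_lit 3572) (nat_lit 6) (nat_lit 47) (nat_lit 5) (nat_lit 146) (nat_lit 226) (nat_lit 228))))) (PT.nd (nat_lit 6006) (PT.nd (nat_lit 156) (PT.nd (nat_lit 78) (PT.lf (nat_lit 3724) (nat_lit 6) (nat_lit 49) (nat_lit 5) (nat_lit 147) (nat_lit 226) (nat_lit 227)) (PT.lf (nat_lit 3876) (nat_lit 3) (nat_lit 51) (nat_lit 4) (nat_lit 148) (nat_lit 226) (nat_lit 226))) (PT.nd (nat_lit 78) (PT.lf (nat_lit 3952) (nat_lit 6) (nat_lit 52) (nat_lit 4) (nat_lit 149) (nat_lit 226) (nat_lit 225)) (PT.lf (nat_lit 4028) (nat_lit 6) (nat_lit 53) (nat_lit 4) (nat_lit 150) (nat_lit 226) (nat_lit 224)))) (PT.nd (nat_lit 156) (PT.nd (nat_lit 78) (PT.lf (nat_lit 4028) (nat_lit 6) (nat_lit 53) (nat_lit 2) (nat_lit 224) (nat_lit 226) (nat_lit 150)) (PT.lf (nat_lit 3952) (nat_lit 6) (nat_lit 52) (nat_lit 2) (nat_lit 225) (nat_lit 226) (nat_lit 149))) (PT.nd (nat_lit 78) (PT.lf (nat_lit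 3876) (nat_lit 3) (nat_lit 51) (nat_lit 0) (nat_lit 226) (nat_lit 226) (nat_lit 148)) (PT.nd (nat_lit 78) (PT.lf (nat_lit 3724) (nat_lit 6) (nat_lit 49) (nat_lit 0) (nat_lit 227) (nat_lit 226) (nat_lit 147)) (PT.lf (nat_lit 3572) (nat_lit 6) (nat_lit 47) (nat_lit 0) (nat_lit 228) (nat_lit 226) (nat_lit 146))))))) (PT.nd (nat_lit 6630) (PT.nd (nat_lit 312) (PT.nd (nat_lit 156) (PT.nd (nat_lit 78) (PT.lf (nat_lit 3344) (nat_lit 6) (nat_lit 44) (nat_lit 5) (nat_lit 144) (nat_lit 227) (nat_lit 229)) (PT.lf (nat_lit 3496) (nat_lit 6) (nat_lit 46) (nat_lit 5) (nat_lit 145) (nat_lit 227) (nat_lit 228))) (PT.nd (nat_lit 78) (PT.lf (nat_lit 3648) (nat_lit 3) (nat_lit 48) (nat_lit 4) (nat_lit 146) (nat_lit 227) (nat_lit 227)) (PT.lf (nat_lit 3724) (nat_lit 6) (nat_lit 49) (nat_lit 4) (nat_lit 147) (nat_lit 227) (nat_lit 226)))) (PT.nd (nat_lit 6084) (PT.nd (nat_lit 6006) (PT.lf (nat_lit 3800) (nat_lit 6)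 (nat_lit 50) (nat_lit 4) (nat_lit 148) (nat_lit 227) (nat_lit 225)) (PT.lf (nat_lit 3800) (nat_lit 6) (nat_lit 50) (nat_lit 2) (nat_lit 225) (nat_lit 227) (nat_lit 148))) (PT.nd (nat_lit 78) (PT.lf (nat_lit 3724) (nat_lit 6) (nat_lit 49) (nat_lit 2) (nat_lit 226) (nat_lit 227) (nat_lit 147)) (PT.nd (nat_lit 78) (PT.lf (nat_lit 3648) (nat_lit 3) (nat_lit 48) (nat_lit 0) (nat_lit 227) (nat_lit 227) (nat_lit 146)) (PT.lf (nat_lit 3496) (nat_lit 6) (nat_lit 46) (nat_lit 0) (nat_lit 228) (nat_lit 227) (nat_lit 145)))))) (PT.nd (nat_lit 55926) (PT.nd (nat_lit 55770) (PT.nd (nat_lit 55692) (PT.lf (nat_lit 3344) (nat_lit 6) (nat_lit 44) (nat_lit 0) (nat_lit 229) (nat_lit 227) (nat_lit 144)) (PT.lf (nat_lit 3116) (nat_lit 6) (nat_lit 41) (nat_lit 5) (nat_lit 142) (nat_lit 228) (nat_lit 230))) (PT.nd (nat_lit 78) (PT.lf (nat_lit 3268) (nat_lit 6) (nat_lit 43) (nat_lit 5) (nat_lit 143) (nat_lit 228) (nat_lit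 229)) (PT.lf (nat_lit 3420) (nat_lit 3) (nat_lit 45) (nat_lit 4) (nat_lit 144) (nat_lit 228) (nat_lit 228)))) (PT.nd (nat_lit 6318) (PT.nd (nat_lit 78) (PT.lf (nat_lit 3496) (nat_lit 6) (nat_lit 46) (nat_lit 4) (nat_lit 145) (nat_lit 228) (nat_lit 227)) (PT.lf (nat_lit 3572) (nat_lit 6) (nat_lit 47) (nat_lit 4) (nat_lit 146) (nat_lit 228) (nat_lit 226))) (PT.nd (nat_lit 78) (PT.lf (nat_lit 3572) (nat_lit 6) (nat_lit 47) (nat_lit 2) (nat_lit 226) (nat_lit 228) (nat_lit 146)) (PT.nd (nat_lit 78) (PT.lf (nat_lit 3496) (nat_lit 6) (nat_lit 46) (nat_lit 2) (nat_lit 227) (nat_lit 228) (nat_lit 145)) (PT.lf (nat_lit 3420) (nat_lit 3) (nat_lit 45) (nat_lit 0) (nat_lit 228) (nat_lit 228) (nat_lit 144))))))))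
noncomputable def pc29 : PT := (PT.nd (nat_lit 124956) (PT.nd (nat_lit 62478) (PT.nd (nat_lit 55692) (PT.nd (nat_lit 55536) (PT.nd (nat_lit 78) (PT.lf (nat_lit 3268) (nat_lit 6) (nat_lit 43) (nat_lit 0) (nat_lit 229) (nat_lit 228) (nat_lit 143)) (PT.lf (nat_lit 3116) (nat_lit 6) (nat_lit 41) (nat_lit 0) (nat_lit 230) (nat_lit 228) (nat_lit 142))) (PT.nd (nat_lit 78) (PT.lf (nat_lit 2888) (nat_lit 6) (nat_lit 38) (nat_lit 5) (nat_lit 140) (nat_lit 229) (nat_lit 231)) (PT.lf (nat_lit 3040) (nat_lit 6) (nat_lit 40) (nat_lit 5) (nat_lit 141) (nat_lit 229) (nat_lit 230)))) (PT.nd (nat_lit 156) (PT.nd (nat_lit 78) (PT.lf (nat_lit 3192) (nat_lit 3) (nat_lit 42) (nat_lit 4) (nat_lit 142) (nat_lit 229) (nat_lit 229)) (PT.lf (nat_lit 3268) (nat_lit 6) (nat_lit 43) (nat_lit 4) (nat_lit 143) (nat_lit 229) (nat_lit 228))) (PT.nd (nat_lit 6474) (PT.lf (nat_lit 3344) (nat_lit 6) (nat_lit 44) (nat_lit 4) (nat_lit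 144) (nat_lit 229) (nat_lit 227)) (PT.nd (nat_lit 78) (PT.lf (nat_lit 3344) (nat_lit 6) (nat_lit 44) (nat_lit 2) (nat_lit 227) (nat_lit 229) (nat_lit 144)) (PT.lf (nat_lit 3268) (nat_lit 6) (nat_lit 43) (nat_lit 2) (nat_lit 228) (nat_lit 229) (nat_lit 143)))))) (PT.nd (nat_lit 55458) (PT.nd (nat_lit 156) (PT.nd (nat_lit 78) (PT.lf (nat_lit 3192) (nat_lit 3) (nat_lit 42) (nat_lit 0) (nat_lit 229) (nat_lit 229) (nat_lit 142)) (PT.lf (nat_lit 3040) (nat_lit 6) (nat_lit 40) (nat_lit 0) (nat_lit 230) (nat_lit 229) (nat_lit 141))) (PT.nd (nat_lit 55224) (PT.lf (nat_lit 2888) (nat_lit 6) (nat_lit 38) (nat_lit 0) (nat_lit 231) (nat_lit 229) (nat_lit 140)) (PT.lf (nat_lit 2660) (nat_lit 6) (nat_lit 35) (nat_lit 5) (nat_lit 138) (nat_lit 230) (nat_lit 232)))) (PT.nd (nat_lit 156) (PT.nd (nat_lit 78) (PT.lf (nat_lit 2812) (nat_lit 6) (nat_lit 37) (nat_lit 5) (nat_lit 139) (nat_lit 230) (nat_lit 231)) (PT.lf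 (nat_lit 2964) (nat_lit 3) (nat_lit 39) (nat_lit 4) (nat_lit 140) (nat_lit 230) (nat_lit 230))) (PT.nd (nat_lit 78) (PT.lf (nat_lit 3040) (nat_lit 6) (nat_lit 40) (nat_lit 4) (nat_lit 141) (nat_lit 230) (nat_lit 229)) (PT.nd (nat_lit 6708) (PT.lf (nat_lit 3116) (nat_lit 6) (nat_lit 41) (nat_lit 4) (nat_lit 142) (nat_lit 230) (nat_lit 228)) (PT.lf (nat_lit 3116) (nat_lit 6) (nat_lit 41) (nat_lit 2) (nat_lit 228) (nat_lit 230) (nat_lit 142))))))) (PT.nd (nat_lit 62478) (PT.nd (nat_lit 55224) (PT.nd (nat_lit 156) (PT.nd (nat_lit 78) (PT.lf (nat_lit 3040) (nat_lit 6) (nat_lit 40) (nat_lit 2) (nat_lit 229) (nat_lit 230) (nat_lit 141)) (PT.lf (nat_lit 2964) (nat_lit 3) (nat_lit 39) (nat_lit 0) (nat_lit 230) (nat_lit 230) (nat_lit 140))) (PT.nd (nat_lit 78) (PT.lf (nat_lit 2812) (nat_lit 6) (nat_lit 37) (nat_lit 0) (nat_lit 231) (nat_lit 230) (nat_lit 139)) (PT.lf (nat_lit 2660) (nat_lit 6) (nat_lit 35)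 (nat_lit 0) (nat_lit 232) (nat_lit 230) (nat_lit 138)))) (PT.nd (nat_lit 156) (PT.nd (nat_lit 78) (PT.lf (nat_lit 2432) (nat_lit 6) (nat_lit 32) (nat_lit 5) (nat_lit 136) (nat_lit 231) (nat_lit 233)) (PT.lf (nat_lit 2584) (nat_lit 6) (nat_lit 34) (nat_lit 5) (nat_lit 137) (nat_lit 231) (nat_lit 232))) (PT.nd (nat_lit 78) (PT.lf (nat_lit 2736) (nat_lit 3) (nat_lit 36) (nat_lit 4) (nat_lit 138) (nat_lit 231) (nat_lit 231)) (PT.nd (nat_lit 78) (PT.lf (nat_lit 2812) (nat_lit 6) (nat_lit 37) (nat_lit 4) (nat_lit 139) (nat_lit 231) (nat_lit 230)) (PT.lf (nat_lit 2888) (nat_lit 6) (nat_lit 38) (nat_lit 4) (nat_lit 140) (nat_lit 231) (nat_lit 229)))))) (PT.nd (nat_lit 312) (PT.nd (nat_lit 156) (PT.nd (nat_lit 78) (PT.lf (nat_lit 2888) (nat_lit 6) (nat_lit 38) (nat_lit 2) (nat_lit 229) (nat_lit 231) (nat_lit 140)) (PT.lf (nat_lit 2812) (nat_lit 6) (nat_lit 37) (nat_lit 2) (nat_lit 230) (nat_lit 231) (nat_lit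 139))) (PT.nd (nat_lit 78) (PT.lf (nat_lit 2736) (nat_lit 3) (nat_lit 36) (nat_lit 0) (nat_lit 231) (nat_lit 231) (nat_lit 138)) (PT.lf (nat_lit 2584) (nat_lit 6) (nat_lit 34) (nat_lit 0) (nat_lit 232) (nat_lit 231) (nat_lit 137)))) (PT.nd (nat_lit 54834) (PT.nd (nat_lit 54756) (PT.lf (nat_lit 2432) (nat_lit 6) (nat_lit 32) (nat_lit 0) (nat_lit 233) (nat_lit 231) (nat_lit 136)) (PT.lf (nat_lit 2204) (nat_lit 6) (nat_lit 29) (nat_lit 5) (nat_lit 134) (nat_lit 232) (nat_lit 234))) (PT.nd (nat_lit 78) (PT.lf (nat_lit 2356) (nat_lit 6) (nat_lit 31) (nat_lit 5) (nat_lit 135) (nat_lit 232) (nat_lit 233)) (PT.nd (nat_lit 78) (PT.lf (nat_lit 2508) (nat_lit 3) (nat_lit 33) (nat_lit 4) (nat_lit 136) (nat_lit 232) (nat_lit 232)) (PT.lf (nat_lit 2584) (nat_lit 6) (nat_lit 34) (nat_lit 4) (nat_lit 137) (nat_lit 232) (nat_lit 231))))))))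
noncomputable def pc30 : PT := (PT.nd (nat_lit 124488) (PT.nd (nat_lit 62244) (PT.nd (nat_lit 7410) (PT.nd (nat_lit 7254) (PT.nd (nat_lit 7176) (PT.lf (nat_lit 2660) (nat_lit 6) (nat_lit 35) (nat_lit 4) (nat_lit 138) (nat_lit 232) (nat_lit 230)) (PT.lf (nat_lit 2660) (nat_lit 6) (nat_lit 35) (nat_lit 2) (nat_lit 230) (nat_lit 232) (nat_lit 138))) (PT.nd (nat_lit 78) (PT.lf (nat_lit 2584) (nat_lit 6) (nat_lit 34) (nat_lit 2) (nat_lit 231) (nat_lit 232) (nat_lit 137)) (PT.lf (nat_lit 2508) (nat_lit 3) (nat_lit 33) (nat_lit 0) (nat_lit 232) (nat_lit 232) (nat_lit 136)))) (PT.nd (nat_lit 54600) (PT.nd (nat_lit 78) (PT.lf (nat_lit 2356) (nat_lit 6) (nat_lit 31) (nat_lit 0) (nat_lit 233) (nat_lit 232) (nat_lit 135)) (PT.lf (nat_lit 2204) (nat_lit 6) (nat_lit 29) (nat_lit 0) (nat_lit 234) (nat_lit 232) (nat_lit 134))) (PT.nd (nat_lit 78) (PT.lf (nat_lit 1976) (nat_lit 6) (nat_lit 26) (nat_lit 5) (nat_lit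 132) (nat_lit 233) (nat_lit 235)) (PT.nd (nat_lit 78) (PT.lf (nat_lit 2128) (nat_lit 6) (nat_lit 28) (nat_lit 5) (nat_lit 133) (nat_lit 233) (nat_lit 234)) (PT.lf (nat_lit 2280) (nat_lit 3) (nat_lit 30) (nat_lit 4) (nat_lit 134) (nat_lit 233) (nat_lit 233)))))) (PT.nd (nat_lit 7644) (PT.nd (nat_lit 7488) (PT.nd (nat_lit 78) (PT.lf (nat_lit 2356) (nat_lit 6) (nat_lit 31) (nat_lit 4) (nat_lit 135) (nat_lit 233) (nat_lit 232)) (PT.lf (nat_lit 2432) (nat_lit 6) (nat_lit 32) (nat_lit 4) (nat_lit 136) (nat_lit 233) (nat_lit 231))) (PT.nd (nat_lit 78) (PT.lf (nat_lit 2432) (nat_lit 6) (nat_lit 32) (nat_lit 2) (nat_lit 231) (nat_lit 233) (nat_lit 136)) (PT.lf (nat_lit 2356) (nat_lit 6) (nat_lit 31) (nat_lit 2) (nat_lit 232) (nat_lit 233) (nat_lit 135)))) (PT.nd (nat_lit 156) (PT.nd (nat_lit 78) (PT.lf (nat_lit 2280) (nat_lit 3) (nat_lit 30) (nat_lit 0) (nat_lit 233) (nat_lit 233) (nat_lit 134)) (PT.lf (nat_lit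 2128) (nat_lit 6) (nat_lit 28) (nat_lit 0) (nat_lit 234) (nat_lit 233) (nat_lit 133))) (PT.nd (nat_lit 54288) (PT.lf (nat_lit 1976) (nat_lit 6) (nat_lit 26) (nat_lit 0) (nat_lit 235) (nat_lit 233) (nat_lit 132)) (PT.nd (nat_lit 78) (PT.lf (nat_lit 1748) (nat_lit 6) (nat_lit 23) (nat_lit 5) (nat_lit 130) (nat_lit 234) (nat_lit 236)) (PT.lf (nat_lit 1900) (nat_lit 6) (nat_lit 25) (nat_lit 5) (nat_lit 131) (nat_lit 234) (nat_lit 235))))))) (PT.nd (nat_lit 62244) (PT.nd (nat_lit 7878) (PT.nd (nat_lit 156) (PT.nd (nat_lit 78) (PT.lf (nat_lit 2052) (nat_lit 3) (nat_lit 27) (nat_lit 4) (nat_lit 132) (nat_lit 234) (nat_lit 234)) (PT.lf (nat_lit 2128) (nat_lit 6) (nat_lit 28) (nat_lit 4) (nat_lit 133) (nat_lit 234) (nat_lit 233))) (PT.nd (nat_lit 7644) (PT.lf (nat_lit 2204) (nat_lit 6) (nat_lit 29) (nat_lit 4) (nat_lit 134) (nat_lit 234) (nat_lit 232)) (PT.lf (nat_lit 2204) (nat_lit 6) (nat_lit 29) (nat_lit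 2) (nat_lit 232) (nat_lit 234) (nat_lit 134)))) (PT.nd (nat_lit 156) (PT.nd (nat_lit 78) (PT.lf (nat_lit 2128) (nat_lit 6) (nat_lit 28) (nat_lit 2) (nat_lit 233) (nat_lit 234) (nat_lit 133)) (PT.lf (nat_lit 2052) (nat_lit 3) (nat_lit 27) (nat_lit 0) (nat_lit 234) (nat_lit 234) (nat_lit 132))) (PT.nd (nat_lit 78) (PT.lf (nat_lit 1900) (nat_lit 6) (nat_lit 25) (nat_lit 0) (nat_lit 235) (nat_lit 234) (nat_lit 131)) (PT.nd (nat_lit 54054) (PT.lf (nat_lit 1748) (nat_lit 6) (nat_lit 23) (nat_lit 0) (nat_lit 236) (nat_lit 234) (nat_lit 130)) (PT.lf (nat_lit 1520) (nat_lit 6) (nat_lit 20) (nat_lit 5) (nat_lit 128) (nat_lit 235) (nat_lit 237)))))) (PT.nd (nat_lit 8112) (PT.nd (nat_lit 156) (PT.nd (nat_lit 78) (PT.lf (nat_lit 1672) (nat_lit 6) (nat_lit 22) (nat_lit 5) (nat_lit 129) (nat_lit 235) (nat_lit 236)) (PT.lf (nat_lit 1824) (nat_lit 3) (nat_lit 24) (nat_lit 4) (nat_lit 130) (nat_lit 235) (nat_lit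 235))) (PT.nd (nat_lit 78) (PT.lf (nat_lit 1900) (nat_lit 6) (nat_lit 25) (nat_lit 4) (nat_lit 131) (nat_lit 235) (nat_lit 234)) (PT.lf (nat_lit 1976) (nat_lit 6) (nat_lit 26) (nat_lit 4) (nat_lit 132) (nat_lit 235) (nat_lit 233)))) (PT.nd (nat_lit 156) (PT.nd (nat_lit 78) (PT.lf (nat_lit 1976) (nat_lit 6) (nat_lit 26) (nat_lit 2) (nat_lit 233) (nat_lit 235) (nat_lit 132)) (PT.lf (nat_lit 1900) (nat_lit 6) (nat_lit 25) (nat_lit 2) (nat_lit 234) (nat_lit 235) (nat_lit 131))) (PT.nd (nat_lit 78) (PT.lf (nat_lit 1824) (nat_lit 3) (nat_lit 24) (nat_lit 0) (nat_lit 235) (nat_lit 235) (nat_lit 130)) (PT.nd (nat_lit 78) (PT.lf (nat_lit 1672) (nat_lit 6) (nat_lit 22) (nat_lit 0) (nat_lit 236) (nat_lit 235) (nat_lit 129)) (PT.lf (nat_lit 1520) (nat_lit 6) (nat_lit 20) (nat_lit 0) (nat_lit 237) (nat_lit 235) (nat_lit 128))))))))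
noncomputable def pc31 : PT := (PT.nd (nat_lit 124800) (PT.nd (nat_lit 62400) (PT.nd (nat_lit 8346) (PT.nd (nat_lit 156) (PT.nd (nat_lit 78) (PT.lf (nat_lit 1444) (nat_lit 6) (nat_lit 19) (nat_lit 5) (nat_lit 127) (nat_lit 236) (nat_lit 237)) (PT.lf (nat_lit 1596) (nat_lit 3) (nat_lit 21) (nat_lit 4) (nat_lit 128) (nat_lit 236) (nat_lit 236))) (PT.nd (nat_lit 78) (PT.lf (nat_lit 1672) (nat_lit 6) (nat_lit 22) (nat_lit 4) (nat_lit 129) (nat_lit 236) (nat_lit 235)) (PT.lf (nat_lit 1748) (nat_lit 6) (nat_lit 23) (nat_lit 4) (nat_lit 130) (nat_lit 236) (nat_lit 234)))) (PT.nd (nat_lit 156) (PT.nd (nat_lit 78) (PT.lf (nat_lit 1748) (nat_lit 6) (nat_lit 23) (nat_lit 2) (nat_lit 234) (nat_lit 236) (nat_lit 130)) (PT.lf (nat_lit 1672) (nat_lit 6) (nat_lit 22) (nat_lit 2) (nat_lit 235) (nat_lit 236) (nat_lit 129))) (PT.nd (nat_lit 78) (PT.lf (nat_lit 1596) (nat_lit 3) (nat_lit 21) (nat_lit 0) (nat_lit 236)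 (nat_lit 236) (nat_lit 128)) (PT.nd (nat_lit 53742) (PT.lf (nat_lit 1444) (nat_lit 6) (nat_lit 19) (nat_lit 0) (nat_lit 237) (nat_lit 236) (nat_lit 127)) (PT.lf (nat_lit 1216) (nat_lit 6) (nat_lit 16) (nat_lit 5) (nat_lit 125) (nat_lit 237) (nat_lit 238)))))) (PT.nd (nat_lit 8580) (PT.nd (nat_lit 156) (PT.nd (nat_lit 78) (PT.lf (nat_lit 1368) (nat_lit 3) (nat_lit 18) (nat_lit 4) (nat_lit 126) (nat_lit 237) (nat_lit 237)) (PT.lf (nat_lit 1444) (nat_lit 6) (nat_lit 19) (nat_lit 4) (nat_lit 127) (nat_lit 237) (nat_lit 236))) (PT.nd (nat_lit 8346) (PT.lf (nat_lit 1520) (nat_lit 6) (nat_lit 20) (nat_lit 4) (nat_lit 128) (nat_lit 237) (nat_lit 235)) (PT.lf (nat_lit 1520) (nat_lit 6) (nat_lit 20) (nat_lit 2) (nat_lit 235) (nat_lit 237) (nat_lit 128)))) (PT.nd (nat_lit 156) (PT.nd (nat_lit 78) (PT.lf (nat_lit 1444) (nat_lit 6) (nat_lit 19) (nat_lit 2) (nat_lit 236) (nat_lit 237) (nat_lit 127)) (PT.lf (nat_lit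 1368) (nat_lit 3) (nat_lit 18) (nat_lit 0) (nat_lit 237) (nat_lit 237) (nat_lit 126))) (PT.nd (nat_lit 53508) (PT.lf (nat_lit 1216) (nat_lit 6) (nat_lit 16) (nat_lit 0) (nat_lit 238) (nat_lit 237) (nat_lit 125)) (PT.nd (nat_lit 78) (PT.lf (nat_lit 988) (nat_lit 6) (nat_lit 13) (nat_lit 5) (nat_lit 123) (nat_lit 238) (nat_lit 239)) (PT.lf (nat_lit 1140) (nat_lit 3) (nat_lit 15) (nat_lit 4) (nat_lit 124) (nat_lit 238) (nat_lit 238))))))) (PT.nd (nat_lit 71448) (PT.nd (nat_lit 62166) (PT.nd (nat_lit 8814) (PT.nd (nat_lit 8736) (PT.lf (nat_lit 1216) (nat_lit 6) (nat_lit 16) (nat_lit 4) (nat_lit 125) (nat_lit 238) (nat_lit 237)) (PT.lf (nat_lit 1216) (nat_lit 6) (nat_lit 16) (nat_lit 2) (nat_lit 237) (nat_lit 238) (nat_lit 125))) (PT.nd (nat_lit 78) (PT.lf (nat_lit 1140) (nat_lit 3) (nat_lit 15) (nat_lit 0) (nat_lit 238) (nat_lit 238) (nat_lit 124)) (PT.lf (nat_lit 988) (nat_lit 6) (nat_lit 13) (nat_lit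 0) (nat_lit 239) (nat_lit 238) (nat_lit 123)))) (PT.nd (nat_lit 156) (PT.nd (nat_lit 78) (PT.lf (nat_lit 760) (nat_lit 6) (nat_lit 10) (nat_lit 5) (nat_lit 121) (nat_lit 239) (nat_lit 240)) (PT.lf (nat_lit 912) (nat_lit 3) (nat_lit 12) (nat_lit 4) (nat_lit 122) (nat_lit 239) (nat_lit 239))) (PT.nd (nat_lit 8970) (PT.lf (nat_lit 988) (nat_lit 6) (nat_lit 13) (nat_lit 4) (nat_lit 123) (nat_lit 239) (nat_lit 238)) (PT.nd (nat_lit 78) (PT.lf (nat_lit 988) (nat_lit 6) (nat_lit 13) (nat_lit 2) (nat_lit 238) (nat_lit 239) (nat_lit 123)) (PT.lf (nat_lit 912) (nat_lit 3) (nat_lit 12) (nat_lit 0) (nat_lit 239) (nat_lit 239) (nat_lit 122)))))) (PT.nd (nat_lit 177762) (PT.nd (nat_lit 62400) (PT.nd (nat_lit 53196) (PT.lf (nat_lit 760) (nat_lit 6) (nat_lit 10) (nat_lit 0) (nat_lit 240) (nat_lit 239) (nat_lit 121)) (PT.lf (nat_lit 760) (nat_lit 6) (nat_lit 10) (nat_lit 4) (nat_lit 121) (nat_lit 240) (nat_lit 239)))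 (PT.nd (nat_lit 115284) (PT.lf (nat_lit 760) (nat_lit 6) (nat_lit 10) (nat_lit 2) (nat_lit 239) (nat_lit 240) (nat_lit 121)) (PT.lf (nat_lit 76) (nat_lit 6) (nat_lit 1) (nat_lit 5) (nat_lit 115) (nat_lit 242) (nat_lit 243)))) (PT.nd (nat_lit 9906) (PT.nd (nat_lit 9828) (PT.lf (nat_lit 228) (nat_lit 3) (nat_lit 3) (nat_lit 4) (nat_lit 116) (nat_lit 242) (nat_lit 242)) (PT.lf (nat_lit 228) (nat_lit 3) (nat_lit 3) (nat_lit 0) (nat_lit 242) (nat_lit 242) (nat_lit 116))) (PT.nd (nat_lit 52494) (PT.lf (nat_lit 76) (nat_lit 6) (nat_lit 1) (nat_lit 0) (nat_lit 243) (nat_lit 242) (nat_lit 115)) (PT.nd (nat_lit 9906) (PT.lf (nat_lit 76) (nat_lit 6) (nat_lit 1) (nat_lit 4) (nat_lit 115) (nat_lit 243) (nat_lit 242)) (PT.lf (nat_lit 76) (nat_lit 6) (nat_lit 1) (nat_lit 2) (nat_lit 242) (nat_lit 243) (nat_lit 115))))))))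
noncomputable def xc0 : XT := (XT.nd (nat_lit 249444) (nat_lit 0) (nat_lit 0) (XT.nd (nat_lit 125034) (nat_lit 0) (nat_lit 0) (XT.nd (nat_lit 62556) (nat_lit 0) (nat_lit 0) (XT.nd (nat_lit 62322) (nat_lit 0) (nat_lit 152) (XT.nd (nat_lit 78) (nat_lit 0) (nat_lit 0) (XT.lf (nat_lit 0) (nat_lit 580615502) (nat_lit 152) (nat_lit 59714042654) (nat_lit 0) (nat_lit 510224411) (nat_lit 3) (nat_lit 5) (nat_lit 5) (nat_lit 4) (nat_lit 3) (nat_lit 4) (nat_lit 499) (nat_lit 351) (nat_lit 350)) (XT.nd (nat_lit 62166) (nat_lit 0) (nat_lit 380) (XT.lf (nat_lit 0) (nat_lit 21594525405) (nat_lit 152) (nat_lit 20161729699) (nat_lit 0) (nat_lit 21457095179) (nat_lit 3) (nat_lit 5) (nat_lit 5) (nat_lit 4) (nat_lit 3) (nat_lit 4) (nat_lit 500) (nat_lit 351) (nat_lit 349)) (XT.lf (nat_lit 0) (nat_lit 22546213901) (nat_lit 76) (nat_lit 2291603252) (nat_lit 76) (nat_lit 2291603252) (nat_lit 8) (nat_lit 4) (nat_lit 9)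 (nat_lit 5) (nat_lit 9) (nat_lit 4) (nat_lit 496) (nat_lit 352) (nat_lit 352)))) (XT.nd (nat_lit 78) (nat_lit 76) (nat_lit 0) (XT.lf (nat_lit 0) (nat_lit 16586740916) (nat_lit 152) (nat_lit 23234248499) (nat_lit 0) (nat_lit 16510612951) (nat_lit 6) (nat_lit 5) (nat_lit 8) (nat_lit 4) (nat_lit 6) (nat_lit 4) (nat_lit 497) (nat_lit 352) (nat_lit 351)) (XT.nd (nat_lit 78) (nat_lit 0) (nat_lit 0) (XT.lf (nat_lit 0) (nat_lit 18050815569) (nat_lit 76) (nat_lit 20307657039) (nat_lit 76) (nat_lit 20159026250) (nat_lit 5) (nat_lit 4) (nat_lit 6) (nat_lit 5) (nat_lit 6) (nat_lit 4) (nat_lit 498) (nat_lit 352) (nat_lit 350)) (XT.lf (nat_lit 0) (nat_lit 60556235834) (nat_lit 76) (nat_lit 243355919) (nat_lit 76) (nat_lit 25674822) (nat_lit 5) (nat_lit 4) (nat_lit 6) (nat_lit 5) (nat_lit 6) (nat_lit 4) (nat_lit 499) (nat_lit 352) (nat_lit 349))))) (XT.nd (nat_lit 62166) (nat_lit 0) (nat_lit 152) (XT.nd (nat_lit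 62010) (nat_lit 0) (nat_lit 380) (XT.lf (nat_lit 0) (nat_lit 20665636538) (nat_lit 152) (nat_lit 22187349465) (nat_lit 0) (nat_lit 20390448872) (nat_lit 3) (nat_lit 5) (nat_lit 5) (nat_lit 4) (nat_lit 3) (nat_lit 4) (nat_lit 500) (nat_lit 352) (nat_lit 348)) (XT.nd (nat_lit 78) (nat_lit 76) (nat_lit 0) (XT.lf (nat_lit 0) (nat_lit 2791178743) (nat_lit 152) (nat_lit 19620495661) (nat_lit 0) (nat_lit 2791178743) (nat_lit 9) (nat_lit 5) (nat_lit 11) (nat_lit 4) (nat_lit 9) (nat_lit 4) (nat_lit 494) (nat_lit 353) (nat_lit 353)) (XT.lf (nat_lit 0) (nat_lit 1842376923) (nat_lit 76) (nat_lit 25263010446) (nat_lit 76) (nat_lit 25180678051) (nat_lit 8) (nat_lit 4) (nat_lit 9) (nat_lit 5) (nat_lit 9) (nat_lit 4) (nat_lit 495) (nat_lit 353) (nat_lit 352)))) (XT.nd (nat_lit 156) (nat_lit 76) (nat_lit 0) (XT.nd (nat_lit 78) (nat_lit 152) (nat_lit 0) (XT.lf (nat_lit 0) (nat_lit 44418611533) (nat_lit 76) (nat_lit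 5005494761) (nat_lit 76) (nat_lit 4844750563) (nat_lit 8) (nat_lit 4) (nat_lit 9) (nat_lit 5) (nat_lit 9) (nat_lit 4) (nat_lit 496) (nat_lit 353) (nat_lit 351)) (XT.lf (nat_lit 0) (nat_lit 15988799502) (nat_lit 152) (nat_lit 24602905233) (nat_lit 0) (nat_lit 15760234350) (nat_lit 6) (nat_lit 5) (nat_lit 8) (nat_lit 4) (nat_lit 6) (nat_lit 4) (nat_lit 497) (nat_lit 353) (nat_lit 350))) (XT.nd (nat_lit 78) (nat_lit 0) (nat_lit 0) (XT.lf (nat_lit 0) (nat_lit 16006420143) (nat_lit 76) (nat_lit 21419534205) (nat_lit 76) (nat_lit 21121918744) (nat_lit 5) (nat_lit 4) (nat_lit 6) (nat_lit 5) (nat_lit 6) (nat_lit 4) (nat_lit 498) (nat_lit 353) (nat_lit 349)) (XT.lf (nat_lit 0) (nat_lit 57894221609) (nat_lit 76) (nat_lit 1666986509) (nat_lit 76) (nat_lit 1303608850) (nat_lit 5) (nat_lit 4) (nat_lit 6) (nat_lit 5) (nat_lit 6) (nat_lit 4) (nat_lit 499) (nat_lit 353) (nat_lit 348)))))) (XT.nd (nat_lit 62244)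 (nat_lit 0) (nat_lit 0) (XT.nd (nat_lit 62010) (nat_lit 0) (nat_lit 380) (XT.nd (nat_lit 61854) (nat_lit 0) (nat_lit 608) (XT.lf (nat_lit 0) (nat_lit 19069257496) (nat_lit 152) (nat_lit 25568740766) (nat_lit 0) (nat_lit 18655657180) (nat_lit 3) (nat_lit 5) (nat_lit 5) (nat_lit 4) (nat_lit 3) (nat_lit 4) (nat_lit 500) (nat_lit 353) (nat_lit 347)) (XT.nd (nat_lit 78) (nat_lit 76) (nat_lit 0) (XT.lf (nat_lit 0) (nat_lit 5765142722) (nat_lit 152) (nat_lit 11924346356) (nat_lit 0) (nat_lit 5765142722) (nat_lit 12) (nat_lit 5) (nat_lit 14) (nat_lit 4) (nat_lit 12) (nat_lit 4) (nat_lit 492) (nat_lit 354) (nat_lit 354)) (XT.lf (nat_lit 0) (nat_lit 17867341708) (nat_lit 76) (nat_lit 15419108299) (nat_lit 76) (nat_lit 15330065814) (nat_lit 11) (nat_lit 4) (nat_lit 12) (nat_lit 5) (nat_lit 12) (nat_lit 4) (nat_lit 493) (nat_lit 354) (nat_lit 353)))) (XT.nd (nat_lit 78) (nat_lit 76) (nat_lit 0) (XT.lf (nat_lit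 0) (nat_lit 5325054066) (nat_lit 152) (nat_lit 39934692393) (nat_lit 0) (nat_lit 5156272658) (nat_lit 9) (nat_lit 5) (nat_lit 11) (nat_lit 4) (nat_lit 9) (nat_lit 4) (nat_lit 494) (nat_lit 354) (nat_lit 352)) (XT.nd (nat_lit 78) (nat_lit 0) (nat_lit 0) (XT.lf (nat_lit 0) (nat_lit 461053571) (nat_lit 76) (nat_lit 26046368980) (nat_lit 76) (nat_lit 25799175767) (nat_lit 8) (nat_lit 4) (nat_lit 9) (nat_lit 5) (nat_lit 9) (nat_lit 4) (nat_lit 495) (nat_lit 354) (nat_lit 351)) (XT.lf (nat_lit 0) (nat_lit 42395558402) (nat_lit 76) (nat_lit 6112620785) (nat_lit 76) (nat_lit 5790749663) (nat_lit 8) (nat_lit 4) (nat_lit 9) (nat_lit 5) (nat_lit 9) (nat_lit 4) (nat_lit 496) (nat_lit 354) (nat_lit 350))))) (XT.nd (nat_lit 234) (nat_lit 152) (nat_lit 0) (XT.nd (nat_lit 78) (nat_lit 76) (nat_lit 0) (XT.lf (nat_lit 0) (nat_lit 14715365040) (nat_lit 152) (nat_lit 27343477410) (nat_lit 0) (nat_lit 14333818497) (nat_lit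 6) (nat_lit 5) (nat_lit 8) (nat_lit 4) (nat_lit 6) (nat_lit 4) (nat_lit 497) (nat_lit 354) (nat_lit 349)) (XT.nd (nat_lit 78) (nat_lit 0) (nat_lit 0) (XT.lf (nat_lit 0) (nat_lit 12593686408) (nat_lit 76) (nat_lit 23226099748) (nat_lit 76) (nat_lit 22778791007) (nat_lit 5) (nat_lit 4) (nat_lit 6) (nat_lit 5) (nat_lit 6) (nat_lit 4) (nat_lit 498) (nat_lit 354) (nat_lit 348)) (XT.lf (nat_lit 0) (nat_lit 53893279494) (nat_lit 76) (nat_lit 3770460076) (nat_lit 76) (nat_lit 3260520669) (nat_lit 5) (nat_lit 4) (nat_lit 6) (nat_lit 5) (nat_lit 6) (nat_lit 4) (nat_lit 499) (nat_lit 354) (nat_lit 347)))) (XT.nd (nat_lit 61776) (nat_lit 0) (nat_lit 684) (XT.nd (nat_lit 61698) (nat_lit 0) (nat_lit 912) (XT.lf (nat_lit 0) (nat_lit 16801587377) (nat_lit 152) (nat_lit 30313954534) (nat_lit 0) (nat_lit 16248589649) (nat_lit 3) (nat_lit 5) (nat_lit 5) (nat_lit 4) (nat_lit 3) (nat_lit 4) (nat_lit 500) (nat_lit 354)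 (nat_lit 346)) (XT.lf (nat_lit 0) (nat_lit 7020125900) (nat_lit 152) (nat_lit 7827135982) (nat_lit 0) (nat_lit 7020125900) (nat_lit 15) (nat_lit 5) (nat_lit 17) (nat_lit 4) (nat_lit 15) (nat_lit 4) (nat_lit 490) (nat_lit 355) (nat_lit 355))) (XT.nd (nat_lit 78) (nat_lit 152) (nat_lit 0) (XT.lf (nat_lit 0) (nat_lit 26188186923) (nat_lit 76) (nat_lit 9597634380) (nat_lit 76) (nat_lit 9501334933) (nat_lit 14) (nat_lit 4) (nat_lit 15) (nat_lit 5) (nat_lit 15) (nat_lit 4) (nat_lit 491) (nat_lit 355) (nat_lit 354)) (XT.lf (nat_lit 0) (nat_lit 11283435003) (nat_lit 152) (nat_lit 24535141307) (nat_lit 0) (nat_lit 11100897909) (nat_lit 12) (nat_lit 5) (nat_lit 14) (nat_lit 4) (nat_lit 12) (nat_lit 4) (nat_lit 492) (nat_lit 355) (nat_lit 353))))))) (XT.nd (nat_lit 62478) (nat_lit 0) (nat_lit 0) (XT.nd (nat_lit 468) (nat_lit 152) (nat_lit 0) (XT.nd (nat_lit 234) (nat_lit 304) (nat_lit 0) (XT.nd (nat_lit 78)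 (nat_lit 152) (nat_lit 0) (XT.lf (nat_lit 0) (nat_lit 16500459757) (nat_lit 76) (nat_lit 16201862361) (nat_lit 76) (nat_lit 15934522901) (nat_lit 11) (nat_lit 4) (nat_lit 12) (nat_lit 5) (nat_lit 12) (nat_lit 4) (nat_lit 493) (nat_lit 355) (nat_lit 352)) (XT.nd (nat_lit 78) (nat_lit 0) (nat_lit 0) (XT.lf (nat_lit 0) (nat_lit 4383749768) (nat_lit 152) (nat_lit 42017447275) (nat_lit 0) (nat_lit 4045785090) (nat_lit 9) (nat_lit 5) (nat_lit 11) (nat_lit 4) (nat_lit 9) (nat_lit 4) (nat_lit 494) (nat_lit 355) (nat_lit 351)) (XT.lf (nat_lit 0) (nat_lit 25249892733) (nat_lit 152) (nat_lit 2259905446) (nat_lit 0) (nat_lit 24837250147) (nat_lit 9) (nat_lit 5) (nat_lit 11) (nat_lit 4) (nat_lit 9) (nat_lit 4) (nat_lit 495) (nat_lit 355) (nat_lit 350)))) (XT.nd (nat_lit 78) (nat_lit 228) (nat_lit 0) (XT.lf (nat_lit 0) (nat_lit 39018451614) (nat_lit 76) (nat_lit 7907220588) (nat_lit 76) (nat_lit 7423456184) (nat_lit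 8) (nat_lit 4) (nat_lit 9) (nat_lit 5) (nat_lit 9) (nat_lit 4) (nat_lit 496) (nat_lit 355) (nat_lit 349)) (XT.nd (nat_lit 78) (nat_lit 76) (nat_lit 0) (XT.lf (nat_lit 0) (nat_lit 12763405543) (nat_lit 152) (nat_lit 31462490199) (nat_lit 0) (nat_lit 12227969166) (nat_lit 6) (nat_lit 5) (nat_lit 8) (nat_lit 4) (nat_lit 6) (nat_lit 4) (nat_lit 497) (nat_lit 355) (nat_lit 348)) (XT.lf (nat_lit 0) (nat_lit 7804488807) (nat_lit 76) (nat_lit 25731655016) (nat_lit 76) (nat_lit 25133587973) (nat_lit 5) (nat_lit 4) (nat_lit 6) (nat_lit 5) (nat_lit 6) (nat_lit 4) (nat_lit 498) (nat_lit 355) (nat_lit 347))))) (XT.nd (nat_lit 61698) (nat_lit 0) (nat_lit 684) (XT.nd (nat_lit 78) (nat_lit 152) (nat_lit 0) (XT.lf (nat_lit 0) (nat_lit 48543883437) (nat_lit 76) (nat_lit 6558784889) (nat_lit 76) (nat_lit 5901069594) (nat_lit 5) (nat_lit 4) (nat_lit 6) (nat_lit 5) (nat_lit 6) (nat_lit 4) (nat_lit 499) (nat_lit 355)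 (nat_lit 346)) (XT.nd (nat_lit 61542) (nat_lit 0) (nat_lit 1140) (XT.lf (nat_lit 0) (nat_lit 13857226965) (nat_lit 152) (nat_lit 36434288896) (nat_lit 0) (nat_lit 13163515165) (nat_lit 3) (nat_lit 5) (nat_lit 5) (nat_lit 4) (nat_lit 3) (nat_lit 4) (nat_lit 500) (nat_lit 355) (nat_lit 345)) (XT.lf (nat_lit 0) (nat_lit 6901970455) (nat_lit 152) (nat_lit 6619635764) (nat_lit 0) (nat_lit 6901970455) (nat_lit 18) (nat_lit 5) (nat_lit 20) (nat_lit 4) (nat_lit 18) (nat_lit 4) (nat_lit 488) (nat_lit 356) (nat_lit 356)))) (XT.nd (nat_lit 156) (nat_lit 228) (nat_lit 0) (XT.nd (nat_lit 78) (nat_lit 152) (nat_lit 0) (XT.lf (nat_lit 0) (nat_lit 28323840219) (nat_lit 76) (nat_lit 7020506154) (nat_lit 76) (nat_lit 6916358303) (nat_lit 17) (nat_lit 4) (nat_lit 18) (nat_lit 5) (nat_lit 18) (nat_lit 4) (nat_lit 489) (nat_lit 356) (nat_lit 355)) (XT.lf (nat_lit 0) (nat_lit 13804383406) (nat_lit 152) (nat_lit 16333532393)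 (nat_lit 0) (nat_lit 13606969539) (nat_lit 15) (nat_lit 5) (nat_lit 17) (nat_lit 4) (nat_lit 15) (nat_lit 4) (nat_lit 490) (nat_lit 356) (nat_lit 354))) (XT.nd (nat_lit 78) (nat_lit 152) (nat_lit 0) (XT.lf (nat_lit 0) (nat_lit 24835618313) (nat_lit 76) (nat_lit 10380396865) (nat_lit 76) (nat_lit 10091269240) (nat_lit 14) (nat_lit 4) (nat_lit 15) (nat_lit 5) (nat_lit 15) (nat_lit 4) (nat_lit 491) (nat_lit 356) (nat_lit 353)) (XT.lf (nat_lit 0) (nat_lit 10359758847) (nat_lit 152) (nat_lit 26596121492) (nat_lit 0) (nat_lit 9994250049) (nat_lit 12) (nat_lit 5) (nat_lit 14) (nat_lit 4) (nat_lit 12) (nat_lit 4) (nat_lit 492) (nat_lit 356) (nat_lit 352)))))) (XT.nd (nat_lit 546) (nat_lit 152) (nat_lit 0) (XT.nd (nat_lit 234) (nat_lit 304) (nat_lit 0) (XT.nd (nat_lit 78) (nat_lit 152) (nat_lit 0) (XT.lf (nat_lit 0) (nat_lit 13763441374) (nat_lit 76) (nat_lit 17680191700) (nat_lit 76) (nat_lit 17233918744)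 (nat_lit 11) (nat_lit 4) (nat_lit 12) (nat_lit 5) (nat_lit 12) (nat_lit 4) (nat_lit 493) (nat_lit 356) (nat_lit 351)) (XT.nd (nat_lit 78) (nat_lit 0) (nat_lit 0) (XT.lf (nat_lit 0) (nat_lit 2756203391) (nat_lit 152) (nat_lit 45494214909) (nat_lit 0) (nat_lit 2248250767) (nat_lit 9) (nat_lit 5) (nat_lit 11) (nat_lit 4) (nat_lit 9) (nat_lit 4) (nat_lit 494) (nat_lit 356) (nat_lit 350)) (XT.lf (nat_lit 0) (nat_lit 23325400078) (nat_lit 152) (nat_lit 6335918147) (nat_lit 0) (nat_lit 22746325636) (nat_lit 9) (nat_lit 5) (nat_lit 11) (nat_lit 4) (nat_lit 9) (nat_lit 4) (nat_lit 495) (nat_lit 356) (nat_lit 349)))) (XT.nd (nat_lit 156) (nat_lit 76) (nat_lit 0) (XT.nd (nat_lit 78) (nat_lit 152) (nat_lit 0) (XT.lf (nat_lit 0) (nat_lit 34279250441) (nat_lit 76) (nat_lit 10393567027) (nat_lit 76) (nat_lit 9746757521) (nat_lit 8) (nat_lit 4) (nat_lit 9) (nat_lit 5) (nat_lit 9) (nat_lit 4) (nat_lit 496) (nat_lit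 356) (nat_lit 348)) (XT.lf (nat_lit 0) (nat_lit 10128273487) (nat_lit 152) (nat_lit 36969750775) (nat_lit 0) (nat_lit 9437672427) (nat_lit 6) (nat_lit 5) (nat_lit 8) (nat_lit 4) (nat_lit 6) (nat_lit 4) (nat_lit 497) (nat_lit 356) (nat_lit 347))) (XT.nd (nat_lit 78) (nat_lit 0) (nat_lit 0) (XT.lf (nat_lit 0) (nat_lit 1627424490) (nat_lit 76) (nat_lit 28942165615) (nat_lit 76) (nat_lit 28191916302) (nat_lit 5) (nat_lit 4) (nat_lit 6) (nat_lit 5) (nat_lit 6) (nat_lit 4) (nat_lit 498) (nat_lit 356) (nat_lit 346)) (XT.lf (nat_lit 0) (nat_lit 41833296780) (nat_lit 76) (nat_lit 10038599817) (nat_lit 76) (nat_lit 9231542645) (nat_lit 5) (nat_lit 4) (nat_lit 6) (nat_lit 5) (nat_lit 6) (nat_lit 4) (nat_lit 499) (nat_lit 356) (nat_lit 345))))) (XT.nd (nat_lit 61542) (nat_lit 0) (nat_lit 836) (XT.nd (nat_lit 61386) (nat_lit 0) (nat_lit 1292) (XT.lf (nat_lit 0) (nat_lit 10229165881) (nat_lit 152) (nat_lit 43944316077)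 (nat_lit 0) (nat_lit 9393088312) (nat_lit 3) (nat_lit 5) (nat_lit 5) (nat_lit 4) (nat_lit 3) (nat_lit 4) (nat_lit 500) (nat_lit 356) (nat_lit 344)) (XT.nd (nat_lit 78) (nat_lit 76) (nat_lit 0) (XT.lf (nat_lit 0) (nat_lit 5699962812) (nat_lit 152) (nat_lit 7707898621) (nat_lit 0) (nat_lit 5699962812) (nat_lit 21) (nat_lit 5) (nat_lit 23) (nat_lit 4) (nat_lit 21) (nat_lit 4) (nat_lit 486) (nat_lit 357) (nat_lit 357)) (XT.lf (nat_lit 0) (nat_lit 25546316288) (nat_lit 76) (nat_lit 7035413623) (nat_lit 76) (nat_lit 6922777721) (nat_lit 20) (nat_lit 4) (nat_lit 21) (nat_lit 5) (nat_lit 21) (nat_lit 4) (nat_lit 487) (nat_lit 357) (nat_lit 356)))) (XT.nd (nat_lit 156) (nat_lit 228) (nat_lit 0) (XT.nd (nat_lit 78) (nat_lit 76) (nat_lit 0) (XT.lf (nat_lit 0) (nat_lit 13579630064) (nat_lit 152) (nat_lit 13911406613) (nat_lit 0) (nat_lit 13366126968) (nat_lit 18) (nat_lit 5) (nat_lit 20) (nat_lit 4) (nat_lit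 18) (nat_lit 4) (nat_lit 488) (nat_lit 357) (nat_lit 355)) (XT.lf (nat_lit 0) (nat_lit 26985459863) (nat_lit 76) (nat_lit 7803933106) (nat_lit 76) (nat_lit 7491241579) (nat_lit 17) (nat_lit 4) (nat_lit 18) (nat_lit 5) (nat_lit 18) (nat_lit 4) (nat_lit 489) (nat_lit 357) (nat_lit 354))) (XT.nd (nat_lit 78) (nat_lit 76) (nat_lit 0) (XT.lf (nat_lit 0) (nat_lit 12898802764) (nat_lit 152) (nat_lit 18372930969) (nat_lit 0) (nat_lit 12503504999) (nat_lit 15) (nat_lit 5) (nat_lit 17) (nat_lit 4) (nat_lit 15) (nat_lit 4) (nat_lit 490) (nat_lit 357) (nat_lit 353)) (XT.lf (nat_lit 0) (nat_lit 22127260693) (nat_lit 76) (nat_lit 11851486109) (nat_lit 76) (nat_lit 11368841906) (nat_lit 14) (nat_lit 4) (nat_lit 15) (nat_lit 5) (nat_lit 15) (nat_lit 4) (nat_lit 491) (nat_lit 357) (nat_lit 352))))))))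
noncomputable def xc1 : XT := (XT.nd (nat_lit 124176) (nat_lit 0) (nat_lit 152) (XT.nd (nat_lit 62166) (nat_lit 0) (nat_lit 0) (XT.nd (nat_lit 468) (nat_lit 228) (nat_lit 0) (XT.nd (nat_lit 234) (nat_lit 228) (nat_lit 0) (XT.nd (nat_lit 78) (nat_lit 228) (nat_lit 0) (XT.lf (nat_lit 0) (nat_lit 8757057749) (nat_lit 152) (nat_lit 30036540364) (nat_lit 0) (nat_lit 8207706986) (nat_lit 12) (nat_lit 5) (nat_lit 14) (nat_lit 4) (nat_lit 12) (nat_lit 4) (nat_lit 492) (nat_lit 357) (nat_lit 351)) (XT.nd (nat_lit 78) (nat_lit 152) (nat_lit 0) (XT.lf (nat_lit 0) (nat_lit 9649769849) (nat_lit 76) (nat_lit 19857616149) (nat_lit 76) (nat_lit 19231347141) (nat_lit 11) (nat_lit 4) (nat_lit 12) (nat_lit 5) (nat_lit 12) (nat_lit 4) (nat_lit 493) (nat_lit 357) (nat_lit 350)) (XT.lf (nat_lit 0) (nat_lit 195499980) (nat_lit 76) (nat_lit 245398768) (nat_lit 152) (nat_lit 50130233466) (nat_lit 9) (nat_lit 5) (nat_lit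 10) (nat_lit 5) (nat_lit 11) (nat_lit 4) (nat_lit 494) (nat_lit 357) (nat_lit 349)))) (XT.nd (nat_lit 78) (nat_lit 228) (nat_lit 0) (XT.lf (nat_lit 0) (nat_lit 20724930534) (nat_lit 152) (nat_lit 11785686138) (nat_lit 0) (nat_lit 19978045488) (nat_lit 9) (nat_lit 5) (nat_lit 11) (nat_lit 4) (nat_lit 9) (nat_lit 4) (nat_lit 495) (nat_lit 357) (nat_lit 348)) (XT.nd (nat_lit 78) (nat_lit 152) (nat_lit 0) (XT.lf (nat_lit 0) (nat_lit 28166671069) (nat_lit 76) (nat_lit 13577579975) (nat_lit 76) (nat_lit 12766185344) (nat_lit 8) (nat_lit 4) (nat_lit 9) (nat_lit 5) (nat_lit 9) (nat_lit 4) (nat_lit 496) (nat_lit 357) (nat_lit 347)) (XT.lf (nat_lit 0) (nat_lit 6803694749) (nat_lit 152) (nat_lit 43878371663) (nat_lit 0) (nat_lit 5956284718) (nat_lit 6) (nat_lit 5) (nat_lit 8) (nat_lit 4) (nat_lit 6) (nat_lit 4) (nat_lit 497) (nat_lit 357) (nat_lit 346))))) (XT.nd (nat_lit 61386) (nat_lit 0) (nat_lit 1292)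 (XT.nd (nat_lit 78) (nat_lit 228) (nat_lit 0) (XT.lf (nat_lit 0) (nat_lit 26970278101) (nat_lit 152) (nat_lit 5836064707) (nat_lit 0) (nat_lit 26066060210) (nat_lit 6) (nat_lit 5) (nat_lit 8) (nat_lit 4) (nat_lit 6) (nat_lit 4) (nat_lit 498) (nat_lit 357) (nat_lit 345)) (XT.nd (nat_lit 78) (nat_lit 152) (nat_lit 0) (XT.lf (nat_lit 0) (nat_lit 33745541936) (nat_lit 76) (nat_lit 14218190134) (nat_lit 76) (nat_lit 13259869520) (nat_lit 5) (nat_lit 4) (nat_lit 6) (nat_lit 5) (nat_lit 6) (nat_lit 4) (nat_lit 499) (nat_lit 357) (nat_lit 344)) (XT.lf (nat_lit 0) (nat_lit 5908765881) (nat_lit 152) (nat_lit 52861917095) (nat_lit 0) (nat_lit 4928331883) (nat_lit 3) (nat_lit 5) (nat_lit 5) (nat_lit 4) (nat_lit 3) (nat_lit 4) (nat_lit 500) (nat_lit 357) (nat_lit 343)))) (XT.nd (nat_lit 156) (nat_lit 228) (nat_lit 0) (XT.nd (nat_lit 78) (nat_lit 76) (nat_lit 0) (XT.lf (nat_lit 0) (nat_lit 3655463432) (nat_lit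 152) (nat_lit 10595709728) (nat_lit 0) (nat_lit 3655463432) (nat_lit 24) (nat_lit 5) (nat_lit 26) (nat_lit 4) (nat_lit 24) (nat_lit 4) (nat_lit 484) (nat_lit 358) (nat_lit 358)) (XT.lf (nat_lit 0) (nat_lit 18918303809) (nat_lit 76) (nat_lit 9096716218) (nat_lit 76) (nat_lit 8974900490) (nat_lit 23) (nat_lit 4) (nat_lit 24) (nat_lit 5) (nat_lit 24) (nat_lit 4) (nat_lit 485) (nat_lit 358) (nat_lit 357))) (XT.nd (nat_lit 78) (nat_lit 76) (nat_lit 0) (XT.lf (nat_lit 0) (nat_lit 11187798017) (nat_lit 152) (nat_lit 16080868255) (nat_lit 0) (nat_lit 10956894418) (nat_lit 21) (nat_lit 5) (nat_lit 23) (nat_lit 4) (nat_lit 21) (nat_lit 4) (nat_lit 486) (nat_lit 358) (nat_lit 356)) (XT.lf (nat_lit 0) (nat_lit 24222002174) (nat_lit 76) (nat_lit 7820207817) (nat_lit 76) (nat_lit 7482031931) (nat_lit 20) (nat_lit 4) (nat_lit 21) (nat_lit 5) (nat_lit 21) (nat_lit 4) (nat_lit 487) (nat_lit 358) (nat_lit 355))))))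 (XT.nd (nat_lit 468) (nat_lit 608) (nat_lit 0) (XT.nd (nat_lit 234) (nat_lit 304) (nat_lit 0) (XT.nd (nat_lit 78) (nat_lit 228) (nat_lit 0) (XT.lf (nat_lit 0) (nat_lit 12692660358) (nat_lit 152) (nat_lit 15929412185) (nat_lit 0) (nat_lit 12265145824) (nat_lit 18) (nat_lit 5) (nat_lit 20) (nat_lit 4) (nat_lit 18) (nat_lit 4) (nat_lit 488) (nat_lit 358) (nat_lit 354)) (XT.nd (nat_lit 78) (nat_lit 152) (nat_lit 0) (XT.lf (nat_lit 0) (nat_lit 24305512531) (nat_lit 76) (nat_lit 9268504458) (nat_lit 76) (nat_lit 8746524753) (nat_lit 17) (nat_lit 4) (nat_lit 18) (nat_lit 5) (nat_lit 18) (nat_lit 4) (nat_lit 489) (nat_lit 358) (nat_lit 353)) (XT.lf (nat_lit 0) (nat_lit 11321353732) (nat_lit 152) (nat_lit 21777323401) (nat_lit 0) (nat_lit 10727230882) (nat_lit 15) (nat_lit 5) (nat_lit 17) (nat_lit 4) (nat_lit 15) (nat_lit 4) (nat_lit 490) (nat_lit 358) (nat_lit 352)))) (XT.nd (nat_lit 78) (nat_lit 228) (nat_lit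 0) (XT.lf (nat_lit 0) (nat_lit 18056665590) (nat_lit 76) (nat_lit 14014404704) (nat_lit 76) (nat_lit 13337094771) (nat_lit 14) (nat_lit 4) (nat_lit 15) (nat_lit 5) (nat_lit 15) (nat_lit 4) (nat_lit 491) (nat_lit 358) (nat_lit 351)) (XT.nd (nat_lit 78) (nat_lit 76) (nat_lit 0) (XT.lf (nat_lit 0) (nat_lit 6471515752) (nat_lit 152) (nat_lit 34864589395) (nat_lit 0) (nat_lit 5737015047) (nat_lit 12) (nat_lit 5) (nat_lit 14) (nat_lit 4) (nat_lit 12) (nat_lit 4) (nat_lit 492) (nat_lit 358) (nat_lit 350)) (XT.lf (nat_lit 0) (nat_lit 4149650725) (nat_lit 76) (nat_lit 22739320052) (nat_lit 76) (nat_lit 21931563874) (nat_lit 11) (nat_lit 4) (nat_lit 12) (nat_lit 5) (nat_lit 12) (nat_lit 4) (nat_lit 493) (nat_lit 358) (nat_lit 349))))) (XT.nd (nat_lit 234) (nat_lit 380) (nat_lit 0) (XT.nd (nat_lit 78) (nat_lit 228) (nat_lit 0) (XT.lf (nat_lit 0) (nat_lit 44718633064) (nat_lit 76) (nat_lit 3410083969) (nat_lit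 76) (nat_lit 2532560675) (nat_lit 11) (nat_lit 4) (nat_lit 12) (nat_lit 5) (nat_lit 12) (nat_lit 4) (nat_lit 494) (nat_lit 358) (nat_lit 348)) (XT.nd (nat_lit 78) (nat_lit 76) (nat_lit 0) (XT.lf (nat_lit 0) (nat_lit 17442292507) (nat_lit 152) (nat_lit 18622185058) (nat_lit 0) (nat_lit 16525818558) (nat_lit 9) (nat_lit 5) (nat_lit 11) (nat_lit 4) (nat_lit 9) (nat_lit 4) (nat_lit 495) (nat_lit 358) (nat_lit 347)) (XT.lf (nat_lit 0) (nat_lit 20666159738) (nat_lit 76) (nat_lit 17466840416) (nat_lit 76) (nat_lit 16488928767) (nat_lit 8) (nat_lit 4) (nat_lit 9) (nat_lit 5) (nat_lit 9) (nat_lit 4) (nat_lit 496) (nat_lit 358) (nat_lit 346)))) (XT.nd (nat_lit 156) (nat_lit 228) (nat_lit 0) (XT.nd (nat_lit 78) (nat_lit 0) (nat_lit 0) (XT.lf (nat_lit 0) (nat_lit 2781753666) (nat_lit 152) (nat_lit 52204801960) (nat_lit 0) (nat_lit 1775517021) (nat_lit 6) (nat_lit 5) (nat_lit 8) (nat_lit 4) (nat_lit 6) (nat_lit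 4) (nat_lit 497) (nat_lit 358) (nat_lit 345)) (XT.lf (nat_lit 0) (nat_lit 22701585143) (nat_lit 152) (nat_lit 14660696335) (nat_lit 0) (nat_lit 21641245775) (nat_lit 6) (nat_lit 5) (nat_lit 8) (nat_lit 4) (nat_lit 6) (nat_lit 4) (nat_lit 498) (nat_lit 358) (nat_lit 344))) (XT.nd (nat_lit 78) (nat_lit 152) (nat_lit 0) (XT.lf (nat_lit 0) (nat_lit 24261362346) (nat_lit 76) (nat_lit 19107507246) (nat_lit 76) (nat_lit 17995641474) (nat_lit 5) (nat_lit 4) (nat_lit 6) (nat_lit 5) (nat_lit 6) (nat_lit 4) (nat_lit 499) (nat_lit 358) (nat_lit 343)) (XT.lf (nat_lit 0) (nat_lit 641918299) (nat_lit 76) (nat_lit 246188516) (nat_lit 152) (nat_lit 62964502330) (nat_lit 3) (nat_lit 5) (nat_lit 4) (nat_lit 5) (nat_lit 5) (nat_lit 4) (nat_lit 500) (nat_lit 358) (nat_lit 342))))))) (XT.nd (nat_lit 1014) (nat_lit 456) (nat_lit 0) (XT.nd (nat_lit 468) (nat_lit 684) (nat_lit 0) (XT.nd (nat_lit 234) (nat_lit 304) (nat_lit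 0) (XT.nd (nat_lit 78) (nat_lit 228) (nat_lit 0) (XT.lf (nat_lit 0) (nat_lit 969257284) (nat_lit 152) (nat_lit 14869636135) (nat_lit 0) (nat_lit 969257284) (nat_lit 27) (nat_lit 5) (nat_lit 29) (nat_lit 4) (nat_lit 27) (nat_lit 4) (nat_lit 482) (nat_lit 359) (nat_lit 359)) (XT.nd (nat_lit 78) (nat_lit 152) (nat_lit 0) (XT.lf (nat_lit 0) (nat_lit 9325185767) (nat_lit 76) (nat_lit 12749166281) (nat_lit 76) (nat_lit 12617422571) (nat_lit 26) (nat_lit 4) (nat_lit 27) (nat_lit 5) (nat_lit 27) (nat_lit 4) (nat_lit 483) (nat_lit 359) (nat_lit 358)) (XT.lf (nat_lit 0) (nat_lit 7111662426) (nat_lit 152) (nat_lit 21849486070) (nat_lit 0) (nat_lit 6861940184) (nat_lit 24) (nat_lit 5) (nat_lit 26) (nat_lit 4) (nat_lit 24) (nat_lit 4) (nat_lit 484) (nat_lit 359) (nat_lit 357)))) (XT.nd (nat_lit 78) (nat_lit 228) (nat_lit 0) (XT.lf (nat_lit 0) (nat_lit 17607937115) (nat_lit 76) (nat_lit 9883631045) (nat_lit 76)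 (nat_lit 9517893824) (nat_lit 23) (nat_lit 4) (nat_lit 24) (nat_lit 5) (nat_lit 24) (nat_lit 4) (nat_lit 485) (nat_lit 359) (nat_lit 356)) (XT.nd (nat_lit 78) (nat_lit 76) (nat_lit 0) (XT.lf (nat_lit 0) (nat_lit 10320006529) (nat_lit 152) (nat_lit 18077664793) (nat_lit 0) (nat_lit 9857649561) (nat_lit 21) (nat_lit 5) (nat_lit 23) (nat_lit 4) (nat_lit 21) (nat_lit 4) (nat_lit 486) (nat_lit 359) (nat_lit 355)) (XT.lf (nat_lit 0) (nat_lit 21570220816) (nat_lit 76) (nat_lit 9279028862) (nat_lit 76) (nat_lit 8714507811) (nat_lit 20) (nat_lit 4) (nat_lit 21) (nat_lit 5) (nat_lit 21) (nat_lit 4) (nat_lit 487) (nat_lit 359) (nat_lit 354))))) (XT.nd (nat_lit 234) (nat_lit 304) (nat_lit 0) (XT.nd (nat_lit 78) (nat_lit 228) (nat_lit 0) (XT.lf (nat_lit 0) (nat_lit 11140919957) (nat_lit 152) (nat_lit 19298093022) (nat_lit 0) (nat_lit 10498376095) (nat_lit 18) (nat_lit 5) (nat_lit 20) (nat_lit 4) (nat_lit 18)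 (nat_lit 4) (nat_lit 488) (nat_lit 359) (nat_lit 353)) (XT.nd (nat_lit 78) (nat_lit 152) (nat_lit 0) (XT.lf (nat_lit 0) (nat_lit 20277617396) (nat_lit 76) (nat_lit 11417707287) (nat_lit 76) (nat_lit 10685196594) (nat_lit 17) (nat_lit 4) (nat_lit 18) (nat_lit 5) (nat_lit 18) (nat_lit 4) (nat_lit 489) (nat_lit 359) (nat_lit 352)) (XT.lf (nat_lit 0) (nat_lit 9068280477) (nat_lit 152) (nat_lit 26554815386) (nat_lit 0) (nat_lit 8273917964) (nat_lit 15) (nat_lit 5) (nat_lit 17) (nat_lit 4) (nat_lit 15) (nat_lit 4) (nat_lit 490) (nat_lit 359) (nat_lit 351)))) (XT.nd (nat_lit 156) (nat_lit 76) (nat_lit 0) (XT.nd (nat_lit 78) (nat_lit 152) (nat_lit 0) (XT.lf (nat_lit 0) (nat_lit 12614141113) (nat_lit 76) (nat_lit 16874302457) (nat_lit 76) (nat_lit 16000714151) (nat_lit 14) (nat_lit 4) (nat_lit 15) (nat_lit 5) (nat_lit 15) (nat_lit 4) (nat_lit 491) (nat_lit 359) (nat_lit 350)) (XT.lf (nat_lit 0) (nat_lit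 3497691090) (nat_lit 152) (nat_lit 41091763941) (nat_lit 0) (nat_lit 2576291631) (nat_lit 12) (nat_lit 5) (nat_lit 14) (nat_lit 4) (nat_lit 12) (nat_lit 4) (nat_lit 492) (nat_lit 359) (nat_lit 349))) (XT.nd (nat_lit 78) (nat_lit 76) (nat_lit 0) (XT.lf (nat_lit 0) (nat_lit 23608587882) (nat_lit 152) (nat_lit 2696348887) (nat_lit 0) (nat_lit 22617421307) (nat_lit 12) (nat_lit 5) (nat_lit 14) (nat_lit 4) (nat_lit 12) (nat_lit 4) (nat_lit 493) (nat_lit 359) (nat_lit 348)) (XT.lf (nat_lit 0) (nat_lit 37296537760) (nat_lit 76) (nat_lit 7266368923) (nat_lit 76) (nat_lit 6208757475) (nat_lit 11) (nat_lit 4) (nat_lit 12) (nat_lit 5) (nat_lit 12) (nat_lit 4) (nat_lit 494) (nat_lit 359) (nat_lit 347)))))) (XT.nd (nat_lit 61386) (nat_lit 0) (nat_lit 1140) (XT.nd (nat_lit 234) (nat_lit 228) (nat_lit 0) (XT.nd (nat_lit 78) (nat_lit 76) (nat_lit 0) (XT.lf (nat_lit 0) (nat_lit 13469670190) (nat_lit 152) (nat_lit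 26861692284) (nat_lit 0) (nat_lit 12381425259) (nat_lit 9) (nat_lit 5) (nat_lit 11) (nat_lit 4) (nat_lit 9) (nat_lit 4) (nat_lit 495) (nat_lit 359) (nat_lit 346)) (XT.nd (nat_lit 78) (nat_lit 0) (nat_lit 0) (XT.lf (nat_lit 0) (nat_lit 11759858087) (nat_lit 76) (nat_lit 22070608492) (nat_lit 76) (nat_lit 20923851465) (nat_lit 8) (nat_lit 4) (nat_lit 9) (nat_lit 5) (nat_lit 9) (nat_lit 4) (nat_lit 496) (nat_lit 359) (nat_lit 345)) (XT.lf (nat_lit 0) (nat_lit 51892135625) (nat_lit 76) (nat_lit 3107284452) (nat_lit 76) (nat_lit 1904801619) (nat_lit 8) (nat_lit 4) (nat_lit 9) (nat_lit 5) (nat_lit 9) (nat_lit 4) (nat_lit 497) (nat_lit 359) (nat_lit 344)))) (XT.nd (nat_lit 156) (nat_lit 0) (nat_lit 0) (XT.nd (nat_lit 78) (nat_lit 76) (nat_lit 0) (XT.lf (nat_lit 0) (nat_lit 17737703879) (nat_lit 152) (nat_lit 24899238333) (nat_lit 0) (nat_lit 16518718415) (nat_lit 6) (nat_lit 5) (nat_lit 8) (nat_lit 4)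 (nat_lit 6) (nat_lit 4) (nat_lit 498) (nat_lit 359) (nat_lit 343)) (XT.lf (nat_lit 0) (nat_lit 13358176630) (nat_lit 76) (nat_lit 24718192383) (nat_lit 76) (nat_lit 23450134154) (nat_lit 5) (nat_lit 4) (nat_lit 6) (nat_lit 5) (nat_lit 6) (nat_lit 4) (nat_lit 499) (nat_lit 359) (nat_lit 342))) (XT.nd (nat_lit 60918) (nat_lit 0) (nat_lit 2052) (XT.lf (nat_lit 0) (nat_lit 53148976384) (nat_lit 76) (nat_lit 6093692446) (nat_lit 76) (nat_lit 4778898250) (nat_lit 5) (nat_lit 4) (nat_lit 6) (nat_lit 5) (nat_lit 6) (nat_lit 4) (nat_lit 500) (nat_lit 359) (nat_lit 341)) (XT.lf (nat_lit 0) (nat_lit 11457987138) (nat_lit 76) (nat_lit 2170695539) (nat_lit 76) (nat_lit 2170695539) (nat_lit 32) (nat_lit 4) (nat_lit 33) (nat_lit 5) (nat_lit 33) (nat_lit 4) (nat_lit 480) (nat_lit 360) (nat_lit 360))))) (XT.nd (nat_lit 234) (nat_lit 456) (nat_lit 0) (XT.nd (nat_lit 78) (nat_lit 304) (nat_lit 0) (XT.lf (nat_lit 0)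 (nat_lit 15140362966) (nat_lit 152) (nat_lit 2448952830) (nat_lit 0) (nat_lit 14997882144) (nat_lit 30) (nat_lit 5) (nat_lit 32) (nat_lit 4) (nat_lit 30) (nat_lit 4) (nat_lit 481) (nat_lit 360) (nat_lit 359)) (XT.nd (nat_lit 78) (nat_lit 76) (nat_lit 0) (XT.lf (nat_lit 0) (nat_lit 1752851862) (nat_lit 152) (nat_lit 30390392491) (nat_lit 0) (nat_lit 1482777258) (nat_lit 27) (nat_lit 5) (nat_lit 29) (nat_lit 4) (nat_lit 27) (nat_lit 4) (nat_lit 482) (nat_lit 360) (nat_lit 358)) (XT.lf (nat_lit 0) (nat_lit 8028650986) (nat_lit 76) (nat_lit 13539009936) (nat_lit 76) (nat_lit 13143465131) (nat_lit 26) (nat_lit 4) (nat_lit 27) (nat_lit 5) (nat_lit 27) (nat_lit 4) (nat_lit 483) (nat_lit 360) (nat_lit 357)))) (XT.nd (nat_lit 156) (nat_lit 228) (nat_lit 0) (XT.nd (nat_lit 78) (nat_lit 76) (nat_lit 0) (XT.lf (nat_lit 0) (nat_lit 6263672431) (nat_lit 152) (nat_lit 23825252734) (nat_lit 0) (nat_lit 5763633370)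 (nat_lit 24) (nat_lit 5) (nat_lit 26) (nat_lit 4) (nat_lit 24) (nat_lit 4) (nat_lit 484) (nat_lit 360) (nat_lit 356)) (XT.lf (nat_lit 0) (nat_lit 14984083806) (nat_lit 76) (nat_lit 11337518578) (nat_lit 76) (nat_lit 10726989062) (nat_lit 23) (nat_lit 4) (nat_lit 24) (nat_lit 5) (nat_lit 24) (nat_lit 4) (nat_lit 485) (nat_lit 360) (nat_lit 355))) (XT.nd (nat_lit 78) (nat_lit 76) (nat_lit 0) (XT.lf (nat_lit 0) (nat_lit 8794484992) (nat_lit 152) (nat_lit 21410941136) (nat_lit 0) (nat_lit 8099573805) (nat_lit 21) (nat_lit 5) (nat_lit 23) (nat_lit 4) (nat_lit 21) (nat_lit 4) (nat_lit 486) (nat_lit 360) (nat_lit 354)) (XT.lf (nat_lit 0) (nat_lit 17584658450) (nat_lit 76) (nat_lit 11415350140) (nat_lit 76) (nat_lit 10623139826) (nat_lit 20) (nat_lit 4) (nat_lit 21) (nat_lit 5) (nat_lit 21) (nat_lit 4) (nat_lit 487) (nat_lit 360) (nat_lit 353))))))))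
noncomputable def xc2 : XT := (XT.nd (nat_lit 62712) (nat_lit 0) (nat_lit 0) (XT.nd (nat_lit 61698) (nat_lit 0) (nat_lit 760) (XT.nd (nat_lit 468) (nat_lit 532) (nat_lit 0) (XT.nd (nat_lit 234) (nat_lit 228) (nat_lit 0) (XT.nd (nat_lit 78) (nat_lit 228) (nat_lit 0) (XT.lf (nat_lit 0) (nat_lit 8920714244) (nat_lit 152) (nat_lit 24025469791) (nat_lit 0) (nat_lit 8061611186) (nat_lit 18) (nat_lit 5) (nat_lit 20) (nat_lit 4) (nat_lit 18) (nat_lit 4) (nat_lit 488) (nat_lit 360) (nat_lit 352)) (XT.nd (nat_lit 78) (nat_lit 152) (nat_lit 0) (XT.lf (nat_lit 0) (nat_lit 14892184232) (nat_lit 76) (nat_lit 14256658742) (nat_lit 76) (nat_lit 13311872989) (nat_lit 17) (nat_lit 4) (nat_lit 18) (nat_lit 5) (nat_lit 18) (nat_lit 4) (nat_lit 489) (nat_lit 360) (nat_lit 351)) (XT.lf (nat_lit 0) (nat_lit 6134218540) (nat_lit 152) (nat_lit 32716781905) (nat_lit 0) (nat_lit 5137725025) (nat_lit 15) (nat_lit 5) (nat_lit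 17) (nat_lit 4) (nat_lit 15) (nat_lit 4) (nat_lit 490) (nat_lit 360) (nat_lit 350)))) (XT.nd (nat_lit 78) (nat_lit 152) (nat_lit 0) (XT.lf (nat_lit 0) (nat_lit 5786728869) (nat_lit 76) (nat_lit 20437988648) (nat_lit 76) (nat_lit 19366041997) (nat_lit 14) (nat_lit 4) (nat_lit 15) (nat_lit 5) (nat_lit 15) (nat_lit 4) (nat_lit 491) (nat_lit 360) (nat_lit 349)) (XT.nd (nat_lit 78) (nat_lit 152) (nat_lit 0) (XT.lf (nat_lit 0) (nat_lit 45839326801) (nat_lit 76) (nat_lit 1291521242) (nat_lit 76) (nat_lit 147714461) (nat_lit 14) (nat_lit 4) (nat_lit 15) (nat_lit 5) (nat_lit 15) (nat_lit 4) (nat_lit 492) (nat_lit 360) (nat_lit 348)) (XT.lf (nat_lit 0) (nat_lit 19685429305) (nat_lit 152) (nat_lit 10849714064) (nat_lit 0) (nat_lit 18508492411) (nat_lit 12) (nat_lit 5) (nat_lit 14) (nat_lit 4) (nat_lit 12) (nat_lit 4) (nat_lit 493) (nat_lit 360) (nat_lit 347))))) (XT.nd (nat_lit 234) (nat_lit 228) (nat_lit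 0) (XT.nd (nat_lit 78) (nat_lit 228) (nat_lit 0) (XT.lf (nat_lit 0) (nat_lit 28483349333) (nat_lit 76) (nat_lit 11829804141) (nat_lit 76) (nat_lit 10589586416) (nat_lit 11) (nat_lit 4) (nat_lit 12) (nat_lit 5) (nat_lit 12) (nat_lit 4) (nat_lit 494) (nat_lit 360) (nat_lit 346)) (XT.nd (nat_lit 78) (nat_lit 76) (nat_lit 0) (XT.lf (nat_lit 0) (nat_lit 8797604961) (nat_lit 152) (nat_lit 36523825691) (nat_lit 0) (nat_lit 7534997987) (nat_lit 9) (nat_lit 5) (nat_lit 11) (nat_lit 4) (nat_lit 9) (nat_lit 4) (nat_lit 495) (nat_lit 360) (nat_lit 345)) (XT.lf (nat_lit 0) (nat_lit 1426560638) (nat_lit 76) (nat_lit 27399845557) (nat_lit 76) (nat_lit 26081512778) (nat_lit 8) (nat_lit 4) (nat_lit 9) (nat_lit 5) (nat_lit 9) (nat_lit 4) (nat_lit 496) (nat_lit 360) (nat_lit 344)))) (XT.nd (nat_lit 156) (nat_lit 76) (nat_lit 0) (XT.nd (nat_lit 78) (nat_lit 152) (nat_lit 0) (XT.lf (nat_lit 0) (nat_lit 41102772802)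 (nat_lit 76) (nat_lit 8666617027) (nat_lit 76) (nat_lit 7295212052) (nat_lit 8) (nat_lit 4) (nat_lit 9) (nat_lit 5) (nat_lit 9) (nat_lit 4) (nat_lit 497) (nat_lit 360) (nat_lit 343)) (XT.lf (nat_lit 0) (nat_lit 12066815543) (nat_lit 152) (nat_lit 36576068182) (nat_lit 0) (nat_lit 10686281638) (nat_lit 6) (nat_lit 5) (nat_lit 8) (nat_lit 4) (nat_lit 6) (nat_lit 4) (nat_lit 498) (nat_lit 360) (nat_lit 342))) (XT.nd (nat_lit 78) (nat_lit 0) (nat_lit 0) (XT.lf (nat_lit 0) (nat_lit 1010024822) (nat_lit 76) (nat_lit 31063604320) (nat_lit 76) (nat_lit 29636334448) (nat_lit 5) (nat_lit 4) (nat_lit 6) (nat_lit 5) (nat_lit 6) (nat_lit 4) (nat_lit 499) (nat_lit 360) (nat_lit 341)) (XT.lf (nat_lit 0) (nat_lit 40382795862) (nat_lit 76) (nat_lit 12650111371) (nat_lit 76) (nat_lit 11178331055) (nat_lit 5) (nat_lit 4) (nat_lit 6) (nat_lit 5) (nat_lit 6) (nat_lit 4) (nat_lit 500) (nat_lit 360) (nat_lit 340))))))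 (XT.nd (nat_lit 468) (nat_lit 836) (nat_lit 0) (XT.nd (nat_lit 234) (nat_lit 456) (nat_lit 0) (XT.nd (nat_lit 78) (nat_lit 228) (nat_lit 0) (XT.lf (nat_lit 0) (nat_lit 3600939073) (nat_lit 76) (nat_lit 5635595257) (nat_lit 76) (nat_lit 5635595257) (nat_lit 35) (nat_lit 4) (nat_lit 36) (nat_lit 5) (nat_lit 36) (nat_lit 4) (nat_lit 478) (nat_lit 361) (nat_lit 361)) (XT.nd (nat_lit 78) (nat_lit 76) (nat_lit 0) (XT.lf (nat_lit 0) (nat_lit 7588796486) (nat_lit 152) (nat_lit 15630724140) (nat_lit 0) (nat_lit 7434703477) (nat_lit 33) (nat_lit 5) (nat_lit 35) (nat_lit 4) (nat_lit 33) (nat_lit 4) (nat_lit 479) (nat_lit 361) (nat_lit 360)) (XT.lf (nat_lit 0) (nat_lit 22296850611) (nat_lit 76) (nat_lit 4806006282) (nat_lit 76) (nat_lit 4505158026) (nat_lit 32) (nat_lit 4) (nat_lit 33) (nat_lit 5) (nat_lit 33) (nat_lit 4) (nat_lit 480) (nat_lit 361) (nat_lit 359)))) (XT.nd (nat_lit 78) (nat_lit 304) (nat_lit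 0) (XT.lf (nat_lit 0) (nat_lit 14663519265) (nat_lit 152) (nat_lit 3706735412) (nat_lit 0) (nat_lit 14235737559) (nat_lit 30) (nat_lit 5) (nat_lit 32) (nat_lit 4) (nat_lit 30) (nat_lit 4) (nat_lit 481) (nat_lit 361) (nat_lit 358)) (XT.nd (nat_lit 78) (nat_lit 76) (nat_lit 0) (XT.lf (nat_lit 0) (nat_lit 925347086) (nat_lit 152) (nat_lit 32345303439) (nat_lit 0) (nat_lit 384554842) (nat_lit 27) (nat_lit 5) (nat_lit 29) (nat_lit 4) (nat_lit 27) (nat_lit 4) (nat_lit 482) (nat_lit 361) (nat_lit 357)) (XT.lf (nat_lit 0) (nat_lit 5432494438) (nat_lit 76) (nat_lit 14988834116) (nat_lit 76) (nat_lit 14328546443) (nat_lit 26) (nat_lit 4) (nat_lit 27) (nat_lit 5) (nat_lit 27) (nat_lit 4) (nat_lit 483) (nat_lit 361) (nat_lit 356))))) (XT.nd (nat_lit 234) (nat_lit 456) (nat_lit 0) (XT.nd (nat_lit 78) (nat_lit 228) (nat_lit 0) (XT.lf (nat_lit 0) (nat_lit 4764937856) (nat_lit 152) (nat_lit 27123423654) (nat_lit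 0) (nat_lit 4013391407) (nat_lit 24) (nat_lit 5) (nat_lit 26) (nat_lit 4) (nat_lit 24) (nat_lit 4) (nat_lit 484) (nat_lit 361) (nat_lit 355)) (XT.nd (nat_lit 78) (nat_lit 152) (nat_lit 0) (XT.lf (nat_lit 0) (nat_lit 11040496613) (nat_lit 76) (nat_lit 13461840455) (nat_lit 76) (nat_lit 12605065000) (nat_lit 23) (nat_lit 4) (nat_lit 24) (nat_lit 5) (nat_lit 24) (nat_lit 4) (nat_lit 485) (nat_lit 361) (nat_lit 354)) (XT.lf (nat_lit 0) (nat_lit 6607601211) (nat_lit 152) (nat_lit 26088633655) (nat_lit 0) (nat_lit 5678481254) (nat_lit 21) (nat_lit 5) (nat_lit 23) (nat_lit 4) (nat_lit 21) (nat_lit 4) (nat_lit 486) (nat_lit 361) (nat_lit 353)))) (XT.nd (nat_lit 156) (nat_lit 228) (nat_lit 0) (XT.nd (nat_lit 78) (nat_lit 152) (nat_lit 0) (XT.lf (nat_lit 0) (nat_lit 12255825642) (nat_lit 76) (nat_lit 14234258131) (nat_lit 76) (nat_lit 13212472340) (nat_lit 20) (nat_lit 4) (nat_lit 21) (nat_lit 5) (nat_lit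 21) (nat_lit 4) (nat_lit 487) (nat_lit 361) (nat_lit 352)) (XT.lf (nat_lit 0) (nat_lit 6026757012) (nat_lit 152) (nat_lit 30122798152) (nat_lit 0) (nat_lit 4949049276) (nat_lit 18) (nat_lit 5) (nat_lit 20) (nat_lit 4) (nat_lit 18) (nat_lit 4) (nat_lit 488) (nat_lit 361) (nat_lit 351))) (XT.nd (nat_lit 78) (nat_lit 152) (nat_lit 0) (XT.lf (nat_lit 0) (nat_lit 8136390578) (nat_lit 76) (nat_lit 17792118230) (nat_lit 76) (nat_lit 16632807927) (nat_lit 17) (nat_lit 4) (nat_lit 18) (nat_lit 5) (nat_lit 18) (nat_lit 4) (nat_lit 489) (nat_lit 361) (nat_lit 350)) (XT.lf (nat_lit 0) (nat_lit 2512182059) (nat_lit 152) (nat_lit 40277894307) (nat_lit 0) (nat_lit 1311184939) (nat_lit 15) (nat_lit 5) (nat_lit 17) (nat_lit 4) (nat_lit 15) (nat_lit 4) (nat_lit 490) (nat_lit 361) (nat_lit 349))))))) (XT.nd (nat_lit 61542) (nat_lit 0) (nat_lit 684) (XT.nd (nat_lit 468) (nat_lit 304) (nat_lit 0) (XT.nd (nat_lit 234)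 (nat_lit 228) (nat_lit 0) (XT.nd (nat_lit 78) (nat_lit 228) (nat_lit 0) (XT.lf (nat_lit 0) (nat_lit 22295593694) (nat_lit 152) (nat_lit 2394178046) (nat_lit 0) (nat_lit 21022736444) (nat_lit 15) (nat_lit 5) (nat_lit 17) (nat_lit 4) (nat_lit 15) (nat_lit 4) (nat_lit 491) (nat_lit 361) (nat_lit 348)) (XT.nd (nat_lit 78) (nat_lit 152) (nat_lit 0) (XT.lf (nat_lit 0) (nat_lit 37118425915) (nat_lit 76) (nat_lit 5815605854) (nat_lit 76) (nat_lit 4474310385) (nat_lit 14) (nat_lit 4) (nat_lit 15) (nat_lit 5) (nat_lit 15) (nat_lit 4) (nat_lit 492) (nat_lit 361) (nat_lit 347)) (XT.lf (nat_lit 0) (nat_lit 15070265209) (nat_lit 152) (nat_lit 20410832211) (nat_lit 0) (nat_lit 13704755767) (nat_lit 12) (nat_lit 5) (nat_lit 14) (nat_lit 4) (nat_lit 12) (nat_lit 4) (nat_lit 493) (nat_lit 361) (nat_lit 346)))) (XT.nd (nat_lit 78) (nat_lit 152) (nat_lit 0) (XT.lf (nat_lit 0) (nat_lit 18258084001) (nat_lit 76) (nat_lit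 17111254945) (nat_lit 76) (nat_lit 15685478044) (nat_lit 11) (nat_lit 4) (nat_lit 12) (nat_lit 5) (nat_lit 12) (nat_lit 4) (nat_lit 494) (nat_lit 361) (nat_lit 345)) (XT.nd (nat_lit 78) (nat_lit 0) (nat_lit 0) (XT.lf (nat_lit 0) (nat_lit 3414972854) (nat_lit 152) (nat_lit 47631590359) (nat_lit 0) (nat_lit 1974997630) (nat_lit 9) (nat_lit 5) (nat_lit 11) (nat_lit 4) (nat_lit 9) (nat_lit 4) (nat_lit 495) (nat_lit 361) (nat_lit 344)) (XT.lf (nat_lit 0) (nat_lit 23208475230) (nat_lit 152) (nat_lit 10156207261) (nat_lit 0) (nat_lit 21715427811) (nat_lit 9) (nat_lit 5) (nat_lit 11) (nat_lit 4) (nat_lit 9) (nat_lit 4) (nat_lit 496) (nat_lit 361) (nat_lit 343))))) (XT.nd (nat_lit 234) (nat_lit 76) (nat_lit 0) (XT.nd (nat_lit 78) (nat_lit 152) (nat_lit 0) (XT.lf (nat_lit 0) (nat_lit 28883528489) (nat_lit 76) (nat_lit 14953150320) (nat_lit 76) (nat_lit 13409557953) (nat_lit 8) (nat_lit 4) (nat_lit 9) (nat_lit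 5) (nat_lit 9) (nat_lit 4) (nat_lit 497) (nat_lit 361) (nat_lit 342)) (XT.nd (nat_lit 78) (nat_lit 0) (nat_lit 0) (XT.lf (nat_lit 0) (nat_lit 5675418021) (nat_lit 152) (nat_lit 49718987858) (nat_lit 0) (nat_lit 4130048688) (nat_lit 6) (nat_lit 5) (nat_lit 8) (nat_lit 4) (nat_lit 6) (nat_lit 4) (nat_lit 498) (nat_lit 361) (nat_lit 341)) (XT.lf (nat_lit 0) (nat_lit 25469519266) (nat_lit 152) (nat_lit 12562475543) (nat_lit 0) (nat_lit 23879639489) (nat_lit 6) (nat_lit 5) (nat_lit 8) (nat_lit 4) (nat_lit 6) (nat_lit 4) (nat_lit 499) (nat_lit 361) (nat_lit 340)))) (XT.nd (nat_lit 60684) (nat_lit 0) (nat_lit 2280) (XT.nd (nat_lit 60606) (nat_lit 0) (nat_lit 2584) (XT.lf (nat_lit 0) (nat_lit 26162155016) (nat_lit 76) (nat_lit 19946317269) (nat_lit 76) (nat_lit 18314046592) (nat_lit 5) (nat_lit 4) (nat_lit 6) (nat_lit 5) (nat_lit 6) (nat_lit 4) (nat_lit 500) (nat_lit 361) (nat_lit 339)) (XT.lf (nat_lit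 0) (nat_lit 4740955740) (nat_lit 152) (nat_lit 4536269738) (nat_lit 0) (nat_lit 4740955740) (nat_lit 39) (nat_lit 5) (nat_lit 41) (nat_lit 4) (nat_lit 39) (nat_lit 4) (nat_lit 476) (nat_lit 362) (nat_lit 362))) (XT.nd (nat_lit 78) (nat_lit 228) (nat_lit 0) (XT.lf (nat_lit 0) (nat_lit 27855966824) (nat_lit 76) (nat_lit 596762091) (nat_lit 76) (nat_lit 425110954) (nat_lit 38) (nat_lit 4) (nat_lit 39) (nat_lit 5) (nat_lit 39) (nat_lit 4) (nat_lit 477) (nat_lit 362) (nat_lit 361)) (XT.lf (nat_lit 0) (nat_lit 6589343123) (nat_lit 76) (nat_lit 11744726715) (nat_lit 76) (nat_lit 11419359326) (nat_lit 35) (nat_lit 4) (nat_lit 36) (nat_lit 5) (nat_lit 36) (nat_lit 4) (nat_lit 478) (nat_lit 362) (nat_lit 360)))))) (XT.nd (nat_lit 546) (nat_lit 684) (nat_lit 0) (XT.nd (nat_lit 234) (nat_lit 532) (nat_lit 0) (XT.nd (nat_lit 78) (nat_lit 228) (nat_lit 0) (XT.lf (nat_lit 0) (nat_lit 7130161490) (nat_lit 152)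 (nat_lit 16875160923) (nat_lit 0) (nat_lit 6667515575) (nat_lit 33) (nat_lit 5) (nat_lit 35) (nat_lit 4) (nat_lit 33) (nat_lit 4) (nat_lit 479) (nat_lit 362) (nat_lit 359)) (XT.nd (nat_lit 78) (nat_lit 152) (nat_lit 0) (XT.lf (nat_lit 0) (nat_lit 20438005510) (nat_lit 76) (nat_lit 5900109864) (nat_lit 76) (nat_lit 5297697047) (nat_lit 32) (nat_lit 4) (nat_lit 33) (nat_lit 5) (nat_lit 33) (nat_lit 4) (nat_lit 480) (nat_lit 362) (nat_lit 358)) (XT.lf (nat_lit 0) (nat_lit 13566215697) (nat_lit 152) (nat_lit 6225295294) (nat_lit 0) (nat_lit 12852114580) (nat_lit 30) (nat_lit 5) (nat_lit 32) (nat_lit 4) (nat_lit 30) (nat_lit 4) (nat_lit 481) (nat_lit 362) (nat_lit 357)))) (XT.nd (nat_lit 156) (nat_lit 228) (nat_lit 0) (XT.nd (nat_lit 78) (nat_lit 228) (nat_lit 0) (XT.lf (nat_lit 0) (nat_lit 31816754440) (nat_lit 76) (nat_lit 1361622507) (nat_lit 76) (nat_lit 524441098) (nat_lit 29) (nat_lit 4) (nat_lit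 30) (nat_lit 5) (nat_lit 30) (nat_lit 4) (nat_lit 482) (nat_lit 362) (nat_lit 356)) (XT.lf (nat_lit 0) (nat_lit 1530534797) (nat_lit 76) (nat_lit 17102090784) (nat_lit 76) (nat_lit 16175488130) (nat_lit 26) (nat_lit 4) (nat_lit 27) (nat_lit 5) (nat_lit 27) (nat_lit 4) (nat_lit 483) (nat_lit 362) (nat_lit 355))) (XT.nd (nat_lit 78) (nat_lit 76) (nat_lit 0) (XT.lf (nat_lit 0) (nat_lit 2611890284) (nat_lit 152) (nat_lit 31751851620) (nat_lit 0) (nat_lit 1607047051) (nat_lit 24) (nat_lit 5) (nat_lit 26) (nat_lit 4) (nat_lit 24) (nat_lit 4) (nat_lit 484) (nat_lit 362) (nat_lit 354)) (XT.lf (nat_lit 0) (nat_lit 5767786041) (nat_lit 76) (nat_lit 16261654583) (nat_lit 76) (nat_lit 15156593249) (nat_lit 23) (nat_lit 4) (nat_lit 24) (nat_lit 5) (nat_lit 24) (nat_lit 4) (nat_lit 485) (nat_lit 362) (nat_lit 353))))) (XT.nd (nat_lit 234) (nat_lit 304) (nat_lit 0) (XT.nd (nat_lit 78) (nat_lit 228) (nat_lit 0)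 (XT.lf (nat_lit 0) (nat_lit 3754148319) (nat_lit 152) (nat_lit 32121879713) (nat_lit 0) (nat_lit 2588607402) (nat_lit 21) (nat_lit 5) (nat_lit 23) (nat_lit 4) (nat_lit 21) (nat_lit 4) (nat_lit 486) (nat_lit 362) (nat_lit 352)) (XT.nd (nat_lit 78) (nat_lit 152) (nat_lit 0) (XT.lf (nat_lit 0) (nat_lit 5571034694) (nat_lit 76) (nat_lit 17742464521) (nat_lit 76) (nat_lit 16488670428) (nat_lit 20) (nat_lit 4) (nat_lit 21) (nat_lit 5) (nat_lit 21) (nat_lit 4) (nat_lit 487) (nat_lit 362) (nat_lit 351)) (XT.lf (nat_lit 0) (nat_lit 2452157888) (nat_lit 152) (nat_lit 37604595553) (nat_lit 0) (nat_lit 1153279503) (nat_lit 18) (nat_lit 5) (nat_lit 20) (nat_lit 4) (nat_lit 18) (nat_lit 4) (nat_lit 488) (nat_lit 362) (nat_lit 350)))) (XT.nd (nat_lit 156) (nat_lit 228) (nat_lit 0) (XT.nd (nat_lit 78) (nat_lit 76) (nat_lit 0) (XT.lf (nat_lit 0) (nat_lit 22026710947) (nat_lit 152) (nat_lit 5734657) (nat_lit 0) (nat_lit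 20650115831) (nat_lit 18) (nat_lit 5) (nat_lit 20) (nat_lit 4) (nat_lit 18) (nat_lit 4) (nat_lit 489) (nat_lit 362) (nat_lit 349)) (XT.lf (nat_lit 0) (nat_lit 39259940732) (nat_lit 76) (nat_lit 3211324459) (nat_lit 76) (nat_lit 1760713409) (nat_lit 17) (nat_lit 4) (nat_lit 18) (nat_lit 5) (nat_lit 18) (nat_lit 4) (nat_lit 490) (nat_lit 362) (nat_lit 348))) (XT.nd (nat_lit 78) (nat_lit 76) (nat_lit 0) (XT.lf (nat_lit 0) (nat_lit 17737471378) (nat_lit 152) (nat_lit 11855176685) (nat_lit 0) (nat_lit 16260672916) (nat_lit 15) (nat_lit 5) (nat_lit 17) (nat_lit 4) (nat_lit 15) (nat_lit 4) (nat_lit 491) (nat_lit 362) (nat_lit 347)) (XT.lf (nat_lit 0) (nat_lit 27000234726) (nat_lit 76) (nat_lit 11050329251) (nat_lit 76) (nat_lit 9508351533) (nat_lit 14) (nat_lit 4) (nat_lit 15) (nat_lit 5) (nat_lit 15) (nat_lit 4) (nat_lit 492) (nat_lit 362) (nat_lit 346))))))))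
noncomputable def xc3 : XT := (XT.nd (nat_lit 62400) (nat_lit 0) (nat_lit 76) (XT.nd (nat_lit 61386) (nat_lit 0) (nat_lit 760) (XT.nd (nat_lit 468) (nat_lit 228) (nat_lit 0) (XT.nd (nat_lit 234) (nat_lit 228) (nat_lit 0) (XT.nd (nat_lit 78) (nat_lit 76) (nat_lit 0) (XT.lf (nat_lit 0) (nat_lit 9752107110) (nat_lit 152) (nat_lit 31402467893) (nat_lit 0) (nat_lit 8194773906) (nat_lit 12) (nat_lit 5) (nat_lit 14) (nat_lit 4) (nat_lit 12) (nat_lit 4) (nat_lit 493) (nat_lit 362) (nat_lit 345)) (XT.nd (nat_lit 78) (nat_lit 0) (nat_lit 0) (XT.lf (nat_lit 0) (nat_lit 6596395895) (nat_lit 76) (nat_lit 23123296218) (nat_lit 76) (nat_lit 21508565434) (nat_lit 11) (nat_lit 4) (nat_lit 12) (nat_lit 5) (nat_lit 12) (nat_lit 4) (nat_lit 494) (nat_lit 362) (nat_lit 344)) (XT.lf (nat_lit 0) (nat_lit 46270317800) (nat_lit 76) (nat_lit 4301797762) (nat_lit 76) (nat_lit 2632402617) (nat_lit 11) (nat_lit 4) (nat_lit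 12) (nat_lit 5) (nat_lit 12) (nat_lit 4) (nat_lit 495) (nat_lit 362) (nat_lit 343)))) (XT.nd (nat_lit 78) (nat_lit 76) (nat_lit 0) (XT.lf (nat_lit 0) (nat_lit 16891426278) (nat_lit 152) (nat_lit 23161922529) (nat_lit 0) (nat_lit 15220109345) (nat_lit 9) (nat_lit 5) (nat_lit 11) (nat_lit 4) (nat_lit 9) (nat_lit 4) (nat_lit 496) (nat_lit 362) (nat_lit 342)) (XT.nd (nat_lit 78) (nat_lit 0) (nat_lit 0) (XT.lf (nat_lit 0) (nat_lit 15205309247) (nat_lit 76) (nat_lit 21981852270) (nat_lit 76) (nat_lit 20262397291) (nat_lit 8) (nat_lit 4) (nat_lit 9) (nat_lit 5) (nat_lit 9) (nat_lit 4) (nat_lit 497) (nat_lit 362) (nat_lit 341)) (XT.lf (nat_lit 0) (nat_lit 55167287516) (nat_lit 76) (nat_lit 3168664966) (nat_lit 76) (nat_lit 1403364229) (nat_lit 8) (nat_lit 4) (nat_lit 9) (nat_lit 5) (nat_lit 9) (nat_lit 4) (nat_lit 498) (nat_lit 362) (nat_lit 340))))) (XT.nd (nat_lit 60606) (nat_lit 0) (nat_lit 2280) (XT.nd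 (nat_lit 78) (nat_lit 76) (nat_lit 0) (XT.lf (nat_lit 0) (nat_lit 18149058394) (nat_lit 152) (nat_lit 27593131491) (nat_lit 0) (nat_lit 16392783284) (nat_lit 6) (nat_lit 5) (nat_lit 8) (nat_lit 4) (nat_lit 6) (nat_lit 4) (nat_lit 499) (nat_lit 362) (nat_lit 339)) (XT.nd (nat_lit 60450) (nat_lit 0) (nat_lit 2812) (XT.lf (nat_lit 0) (nat_lit 10453195176) (nat_lit 76) (nat_lit 27999682057) (nat_lit 76) (nat_lit 26203034661) (nat_lit 5) (nat_lit 4) (nat_lit 6) (nat_lit 5) (nat_lit 6) (nat_lit 4) (nat_lit 500) (nat_lit 362) (nat_lit 338)) (XT.lf (nat_lit 0) (nat_lit 218363727) (nat_lit 152) (nat_lit 12793942396) (nat_lit 0) (nat_lit 218363727) (nat_lit 42) (nat_lit 5) (nat_lit 44) (nat_lit 4) (nat_lit 42) (nat_lit 4) (nat_lit 474) (nat_lit 363) (nat_lit 363)))) (XT.nd (nat_lit 156) (nat_lit 304) (nat_lit 0) (XT.nd (nat_lit 78) (nat_lit 152) (nat_lit 0) (XT.lf (nat_lit 0) (nat_lit 9767205313) (nat_lit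 76) (nat_lit 8826453458) (nat_lit 76) (nat_lit 8640812753) (nat_lit 41) (nat_lit 4) (nat_lit 42) (nat_lit 5) (nat_lit 42) (nat_lit 4) (nat_lit 475) (nat_lit 363) (nat_lit 362)) (XT.lf (nat_lit 0) (nat_lit 9365222803) (nat_lit 152) (nat_lit 9666709848) (nat_lit 0) (nat_lit 9013337973) (nat_lit 39) (nat_lit 5) (nat_lit 41) (nat_lit 4) (nat_lit 39) (nat_lit 4) (nat_lit 476) (nat_lit 363) (nat_lit 361))) (XT.nd (nat_lit 78) (nat_lit 228) (nat_lit 0) (XT.lf (nat_lit 0) (nat_lit 26672832700) (nat_lit 76) (nat_lit 1369051319) (nat_lit 76) (nat_lit 853689215) (nat_lit 38) (nat_lit 4) (nat_lit 39) (nat_lit 5) (nat_lit 39) (nat_lit 4) (nat_lit 477) (nat_lit 363) (nat_lit 360)) (XT.lf (nat_lit 0) (nat_lit 4750279636) (nat_lit 76) (nat_lit 12841095396) (nat_lit 76) (nat_lit 12189585935) (nat_lit 35) (nat_lit 4) (nat_lit 36) (nat_lit 5) (nat_lit 36) (nat_lit 4) (nat_lit 478) (nat_lit 363) (nat_lit 359))))))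 (XT.nd (nat_lit 468) (nat_lit 836) (nat_lit 0) (XT.nd (nat_lit 234) (nat_lit 304) (nat_lit 0) (XT.nd (nat_lit 78) (nat_lit 228) (nat_lit 0) (XT.lf (nat_lit 0) (nat_lit 6057706502) (nat_lit 152) (nat_lit 19366997432) (nat_lit 0) (nat_lit 5285406143) (nat_lit 33) (nat_lit 5) (nat_lit 35) (nat_lit 4) (nat_lit 33) (nat_lit 4) (nat_lit 479) (nat_lit 363) (nat_lit 358)) (XT.nd (nat_lit 78) (nat_lit 152) (nat_lit 0) (XT.lf (nat_lit 0) (nat_lit 17335013152) (nat_lit 76) (nat_lit 7626306832) (nat_lit 76) (nat_lit 6720895138) (nat_lit 32) (nat_lit 4) (nat_lit 33) (nat_lit 5) (nat_lit 33) (nat_lit 4) (nat_lit 480) (nat_lit 363) (nat_lit 357)) (XT.lf (nat_lit 0) (nat_lit 11845839637) (nat_lit 152) (nat_lit 10010629050) (nat_lit 0) (nat_lit 10843718866) (nat_lit 30) (nat_lit 5) (nat_lit 32) (nat_lit 4) (nat_lit 30) (nat_lit 4) (nat_lit 481) (nat_lit 363) (nat_lit 356)))) (XT.nd (nat_lit 78) (nat_lit 228) (nat_lit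 0) (XT.lf (nat_lit 0) (nat_lit 27415527188) (nat_lit 76) (nat_lit 3736190885) (nat_lit 76) (nat_lit 2616850790) (nat_lit 29) (nat_lit 4) (nat_lit 30) (nat_lit 5) (nat_lit 30) (nat_lit 4) (nat_lit 482) (nat_lit 363) (nat_lit 355)) (XT.nd (nat_lit 78) (nat_lit 76) (nat_lit 0) (XT.lf (nat_lit 0) (nat_lit 16232730256) (nat_lit 152) (nat_lit 3614581065) (nat_lit 0) (nat_lit 15037606423) (nat_lit 27) (nat_lit 5) (nat_lit 29) (nat_lit 4) (nat_lit 27) (nat_lit 4) (nat_lit 483) (nat_lit 363) (nat_lit 354)) (XT.lf (nat_lit 0) (nat_lit 34413433527) (nat_lit 76) (nat_lit 1471891361) (nat_lit 76) (nat_lit 173542884) (nat_lit 26) (nat_lit 4) (nat_lit 27) (nat_lit 5) (nat_lit 27) (nat_lit 4) (nat_lit 484) (nat_lit 363) (nat_lit 353))))) (XT.nd (nat_lit 234) (nat_lit 456) (nat_lit 0) (XT.nd (nat_lit 78) (nat_lit 228) (nat_lit 0) (XT.lf (nat_lit 0) (nat_lit 18905163264) (nat_lit 152) (nat_lit 830081726) (nat_lit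 0) (nat_lit 17549184952) (nat_lit 24) (nat_lit 5) (nat_lit 26) (nat_lit 4) (nat_lit 24) (nat_lit 4) (nat_lit 485) (nat_lit 363) (nat_lit 352)) (XT.nd (nat_lit 78) (nat_lit 76) (nat_lit 0) (XT.lf (nat_lit 0) (nat_lit 248122528) (nat_lit 152) (nat_lit 943190350) (nat_lit 76) (nat_lit 37383035390) (nat_lit 22) (nat_lit 5) (nat_lit 24) (nat_lit 5) (nat_lit 23) (nat_lit 4) (nat_lit 486) (nat_lit 363) (nat_lit 351)) (XT.lf (nat_lit 0) (nat_lit 19486585022) (nat_lit 152) (nat_lit 2437126956) (nat_lit 0) (nat_lit 17997797404) (nat_lit 21) (nat_lit 5) (nat_lit 23) (nat_lit 4) (nat_lit 21) (nat_lit 4) (nat_lit 487) (nat_lit 363) (nat_lit 350)))) (XT.nd (nat_lit 156) (nat_lit 228) (nat_lit 0) (XT.nd (nat_lit 78) (nat_lit 152) (nat_lit 0) (XT.lf (nat_lit 0) (nat_lit 36243487332) (nat_lit 76) (nat_lit 3332355696) (nat_lit 76) (nat_lit 1763519846) (nat_lit 20) (nat_lit 4) (nat_lit 21) (nat_lit 5) (nat_lit 21)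 (nat_lit 4) (nat_lit 488) (nat_lit 363) (nat_lit 349)) (XT.lf (nat_lit 0) (nat_lit 17525828721) (nat_lit 152) (nat_lit 9367488757) (nat_lit 0) (nat_lit 15928671184) (nat_lit 18) (nat_lit 5) (nat_lit 20) (nat_lit 4) (nat_lit 18) (nat_lit 4) (nat_lit 489) (nat_lit 363) (nat_lit 348))) (XT.nd (nat_lit 78) (nat_lit 152) (nat_lit 0) (XT.lf (nat_lit 0) (nat_lit 29247887939) (nat_lit 76) (nat_lit 8400414706) (nat_lit 76) (nat_lit 6732765804) (nat_lit 17) (nat_lit 4) (nat_lit 18) (nat_lit 5) (nat_lit 18) (nat_lit 4) (nat_lit 490) (nat_lit 363) (nat_lit 347)) (XT.lf (nat_lit 0) (nat_lit 12483872319) (nat_lit 152) (nat_lit 22731713157) (nat_lit 0) (nat_lit 10799616459) (nat_lit 15) (nat_lit 5) (nat_lit 17) (nat_lit 4) (nat_lit 15) (nat_lit 4) (nat_lit 491) (nat_lit 363) (nat_lit 346))))))) (XT.nd (nat_lit 61230) (nat_lit 0) (nat_lit 912) (XT.nd (nat_lit 468) (nat_lit 152) (nat_lit 0) (XT.nd (nat_lit 234)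 (nat_lit 304) (nat_lit 0) (XT.nd (nat_lit 78) (nat_lit 152) (nat_lit 0) (XT.lf (nat_lit 0) (nat_lit 15460662302) (nat_lit 76) (nat_lit 17008155059) (nat_lit 76) (nat_lit 15261823717) (nat_lit 14) (nat_lit 4) (nat_lit 15) (nat_lit 5) (nat_lit 15) (nat_lit 4) (nat_lit 492) (nat_lit 363) (nat_lit 345)) (XT.nd (nat_lit 78) (nat_lit 0) (nat_lit 0) (XT.lf (nat_lit 0) (nat_lit 3718292725) (nat_lit 152) (nat_lit 43850791674) (nat_lit 0) (nat_lit 1965427823) (nat_lit 12) (nat_lit 5) (nat_lit 14) (nat_lit 4) (nat_lit 12) (nat_lit 4) (nat_lit 493) (nat_lit 363) (nat_lit 344)) (XT.lf (nat_lit 0) (nat_lit 23413526800) (nat_lit 152) (nat_lit 6402067217) (nat_lit 0) (nat_lit 21605997536) (nat_lit 12) (nat_lit 5) (nat_lit 14) (nat_lit 4) (nat_lit 12) (nat_lit 4) (nat_lit 494) (nat_lit 363) (nat_lit 343)))) (XT.nd (nat_lit 78) (nat_lit 228) (nat_lit 0) (XT.lf (nat_lit 0) (nat_lit 32735101022) (nat_lit 76) (nat_lit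 11265156333) (nat_lit 76) (nat_lit 9405565773) (nat_lit 11) (nat_lit 4) (nat_lit 12) (nat_lit 5) (nat_lit 12) (nat_lit 4) (nat_lit 495) (nat_lit 363) (nat_lit 342)) (XT.nd (nat_lit 78) (nat_lit 76) (nat_lit 0) (XT.lf (nat_lit 0) (nat_lit 9846505774) (nat_lit 152) (nat_lit 37649388491) (nat_lit 0) (nat_lit 7992940000) (nat_lit 9) (nat_lit 5) (nat_lit 11) (nat_lit 4) (nat_lit 9) (nat_lit 4) (nat_lit 496) (nat_lit 363) (nat_lit 341)) (XT.lf (nat_lit 0) (nat_lit 35547889) (nat_lit 76) (nat_lit 29769457880) (nat_lit 76) (nat_lit 27870046348) (nat_lit 8) (nat_lit 4) (nat_lit 9) (nat_lit 5) (nat_lit 9) (nat_lit 4) (nat_lit 497) (nat_lit 363) (nat_lit 340))))) (XT.nd (nat_lit 60450) (nat_lit 0) (nat_lit 2660) (XT.nd (nat_lit 78) (nat_lit 152) (nat_lit 0) (XT.lf (nat_lit 0) (nat_lit 39622320046) (nat_lit 76) (nat_lit 11145570721) (nat_lit 76) (nat_lit 9202496563) (nat_lit 8) (nat_lit 4) (nat_lit 9) (nat_lit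 5) (nat_lit 9) (nat_lit 4) (nat_lit 498) (nat_lit 363) (nat_lit 339)) (XT.nd (nat_lit 78) (nat_lit 0) (nat_lit 0) (XT.lf (nat_lit 0) (nat_lit 10085107881) (nat_lit 152) (nat_lit 44137439519) (nat_lit 0) (nat_lit 8158255830) (nat_lit 6) (nat_lit 5) (nat_lit 8) (nat_lit 4) (nat_lit 6) (nat_lit 4) (nat_lit 499) (nat_lit 363) (nat_lit 338)) (XT.lf (nat_lit 0) (nat_lit 30113082264) (nat_lit 152) (nat_lit 6649154724) (nat_lit 0) (nat_lit 28147780417) (nat_lit 6) (nat_lit 5) (nat_lit 8) (nat_lit 4) (nat_lit 6) (nat_lit 4) (nat_lit 500) (nat_lit 363) (nat_lit 337)))) (XT.nd (nat_lit 156) (nat_lit 304) (nat_lit 0) (XT.nd (nat_lit 78) (nat_lit 152) (nat_lit 0) (XT.lf (nat_lit 0) (nat_lit 3985313230) (nat_lit 76) (nat_lit 4257034915) (nat_lit 76) (nat_lit 4257034915) (nat_lit 47) (nat_lit 4) (nat_lit 48) (nat_lit 5) (nat_lit 48) (nat_lit 4) (nat_lit 472) (nat_lit 364) (nat_lit 364)) (XT.lf (nat_lit 0) (nat_lit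 8827065703) (nat_lit 152) (nat_lit 8263788002) (nat_lit 0) (nat_lit 8626295281) (nat_lit 45) (nat_lit 5) (nat_lit 47) (nat_lit 4) (nat_lit 45) (nat_lit 4) (nat_lit 473) (nat_lit 364) (nat_lit 363))) (XT.nd (nat_lit 78) (nat_lit 76) (nat_lit 0) (XT.lf (nat_lit 0) (nat_lit 294040045) (nat_lit 76) (nat_lit 43901034) (nat_lit 152) (nat_lit 26132210455) (nat_lit 42) (nat_lit 5) (nat_lit 43) (nat_lit 5) (nat_lit 44) (nat_lit 4) (nat_lit 474) (nat_lit 364) (nat_lit 362)) (XT.lf (nat_lit 0) (nat_lit 8596746764) (nat_lit 76) (nat_lit 9606327590) (nat_lit 76) (nat_lit 9048963475) (nat_lit 41) (nat_lit 4) (nat_lit 42) (nat_lit 5) (nat_lit 42) (nat_lit 4) (nat_lit 475) (nat_lit 364) (nat_lit 361)))))) (XT.nd (nat_lit 546) (nat_lit 836) (nat_lit 0) (XT.nd (nat_lit 234) (nat_lit 456) (nat_lit 0) (XT.nd (nat_lit 78) (nat_lit 304) (nat_lit 0) (XT.lf (nat_lit 0) (nat_lit 8662994113) (nat_lit 152) (nat_lit 11450635654)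 (nat_lit 0) (nat_lit 7958386630) (nat_lit 39) (nat_lit 5) (nat_lit 41) (nat_lit 4) (nat_lit 39) (nat_lit 4) (nat_lit 476) (nat_lit 364) (nat_lit 360)) (XT.nd (nat_lit 78) (nat_lit 228) (nat_lit 0) (XT.lf (nat_lit 0) (nat_lit 24303747466) (nat_lit 76) (nat_lit 2743817423) (nat_lit 76) (nat_lit 1883517300) (nat_lit 38) (nat_lit 4) (nat_lit 39) (nat_lit 5) (nat_lit 39) (nat_lit 4) (nat_lit 477) (nat_lit 364) (nat_lit 359)) (XT.lf (nat_lit 0) (nat_lit 1680308963) (nat_lit 76) (nat_lit 14562906960) (nat_lit 76) (nat_lit 13583704213) (nat_lit 35) (nat_lit 4) (nat_lit 36) (nat_lit 5) (nat_lit 36) (nat_lit 4) (nat_lit 478) (nat_lit 364) (nat_lit 358)))) (XT.nd (nat_lit 156) (nat_lit 228) (nat_lit 0) (XT.nd (nat_lit 78) (nat_lit 76) (nat_lit 0) (XT.lf (nat_lit 0) (nat_lit 4368878056) (nat_lit 152) (nat_lit 23112166614) (nat_lit 0) (nat_lit 3285084443) (nat_lit 33) (nat_lit 5) (nat_lit 35) (nat_lit 4) (nat_lit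 33) (nat_lit 4) (nat_lit 479) (nat_lit 364) (nat_lit 357)) (XT.lf (nat_lit 0) (nat_lit 12980485460) (nat_lit 76) (nat_lit 9988707179) (nat_lit 76) (nat_lit 8778140866) (nat_lit 32) (nat_lit 4) (nat_lit 33) (nat_lit 5) (nat_lit 33) (nat_lit 4) (nat_lit 480) (nat_lit 364) (nat_lit 356))) (XT.nd (nat_lit 78) (nat_lit 76) (nat_lit 0) (XT.lf (nat_lit 0) (nat_lit 9498294950) (nat_lit 152) (nat_lit 15071749378) (nat_lit 0) (nat_lit 8205768525) (nat_lit 30) (nat_lit 5) (nat_lit 32) (nat_lit 4) (nat_lit 30) (nat_lit 4) (nat_lit 481) (nat_lit 364) (nat_lit 355)) (XT.lf (nat_lit 0) (nat_lit 21738863564) (nat_lit 76) (nat_lit 6759336998) (nat_lit 76) (nat_lit 5355173121) (nat_lit 29) (nat_lit 4) (nat_lit 30) (nat_lit 5) (nat_lit 30) (nat_lit 4) (nat_lit 482) (nat_lit 364) (nat_lit 354))))) (XT.nd (nat_lit 234) (nat_lit 456) (nat_lit 0) (XT.nd (nat_lit 78) (nat_lit 228) (nat_lit 0) (XT.lf (nat_lit 0) (nat_lit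 13207880421) (nat_lit 152) (nat_lit 10031441110) (nat_lit 0) (nat_lit 11741389877) (nat_lit 27) (nat_lit 5) (nat_lit 29) (nat_lit 4) (nat_lit 27) (nat_lit 4) (nat_lit 483) (nat_lit 364) (nat_lit 353)) (XT.nd (nat_lit 78) (nat_lit 152) (nat_lit 0) (XT.lf (nat_lit 0) (nat_lit 27373319567) (nat_lit 76) (nat_lit 5177712590) (nat_lit 76) (nat_lit 3612912862) (nat_lit 26) (nat_lit 4) (nat_lit 27) (nat_lit 5) (nat_lit 27) (nat_lit 4) (nat_lit 484) (nat_lit 364) (nat_lit 352)) (XT.lf (nat_lit 0) (nat_lit 15182400693) (nat_lit 152) (nat_lit 8646336937) (nat_lit 0) (nat_lit 13572276884) (nat_lit 24) (nat_lit 5) (nat_lit 26) (nat_lit 4) (nat_lit 24) (nat_lit 4) (nat_lit 485) (nat_lit 364) (nat_lit 351)))) (XT.nd (nat_lit 156) (nat_lit 228) (nat_lit 0) (XT.nd (nat_lit 78) (nat_lit 152) (nat_lit 0) (XT.lf (nat_lit 0) (nat_lit 29184866135) (nat_lit 76) (nat_lit 5606123897) (nat_lit 76) (nat_lit 3909427925) (nat_lit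 23) (nat_lit 4) (nat_lit 24) (nat_lit 5) (nat_lit 24) (nat_lit 4) (nat_lit 486) (nat_lit 364) (nat_lit 350)) (XT.lf (nat_lit 0) (nat_lit 15043203083) (nat_lit 152) (nat_lit 11700489970) (nat_lit 0) (nat_lit 13315877208) (nat_lit 21) (nat_lit 5) (nat_lit 23) (nat_lit 4) (nat_lit 21) (nat_lit 4) (nat_lit 487) (nat_lit 364) (nat_lit 349))) (XT.nd (nat_lit 78) (nat_lit 152) (nat_lit 0) (XT.lf (nat_lit 0) (nat_lit 26336660198) (nat_lit 76) (nat_lit 8476945862) (nat_lit 76) (nat_lit 6673383574) (nat_lit 20) (nat_lit 4) (nat_lit 21) (nat_lit 5) (nat_lit 21) (nat_lit 4) (nat_lit 488) (nat_lit 364) (nat_lit 348)) (XT.lf (nat_lit 0) (nat_lit 12336933778) (nat_lit 152) (nat_lit 20129931898) (nat_lit 0) (nat_lit 10515411066) (nat_lit 18) (nat_lit 5) (nat_lit 20) (nat_lit 4) (nat_lit 18) (nat_lit 4) (nat_lit 489) (nat_lit 364) (nat_lit 347))))))))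
noncomputable def xc4 : XT := (XT.nd (nat_lit 62088) (nat_lit 0) (nat_lit 152) (XT.nd (nat_lit 61074) (nat_lit 0) (nat_lit 1520) (XT.nd (nat_lit 468) (nat_lit 380) (nat_lit 0) (XT.nd (nat_lit 234) (nat_lit 228) (nat_lit 0) (XT.nd (nat_lit 78) (nat_lit 228) (nat_lit 0) (XT.lf (nat_lit 0) (nat_lit 17829364000) (nat_lit 76) (nat_lit 14305197729) (nat_lit 76) (nat_lit 12416540382) (nat_lit 17) (nat_lit 4) (nat_lit 18) (nat_lit 5) (nat_lit 18) (nat_lit 4) (nat_lit 490) (nat_lit 364) (nat_lit 346)) (XT.nd (nat_lit 78) (nat_lit 76) (nat_lit 0) (XT.lf (nat_lit 0) (nat_lit 6522287948) (nat_lit 152) (nat_lit 35049683978) (nat_lit 0) (nat_lit 4626564556) (nat_lit 15) (nat_lit 5) (nat_lit 17) (nat_lit 4) (nat_lit 15) (nat_lit 4) (nat_lit 491) (nat_lit 364) (nat_lit 345)) (XT.lf (nat_lit 0) (nat_lit 2472233472) (nat_lit 76) (nat_lit 23703268579) (nat_lit 76) (nat_lit 21748425681) (nat_lit 14) (nat_lit 4) (nat_lit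 15) (nat_lit 5) (nat_lit 15) (nat_lit 4) (nat_lit 492) (nat_lit 364) (nat_lit 344)))) (XT.nd (nat_lit 78) (nat_lit 228) (nat_lit 0) (XT.lf (nat_lit 0) (nat_lit 41772322309) (nat_lit 76) (nat_lit 4987973109) (nat_lit 76) (nat_lit 2976825918) (nat_lit 14) (nat_lit 4) (nat_lit 15) (nat_lit 5) (nat_lit 15) (nat_lit 4) (nat_lit 493) (nat_lit 364) (nat_lit 343)) (XT.nd (nat_lit 78) (nat_lit 76) (nat_lit 0) (XT.lf (nat_lit 0) (nat_lit 16450697204) (nat_lit 152) (nat_lit 20738070238) (nat_lit 0) (nat_lit 14446065820) (nat_lit 12) (nat_lit 5) (nat_lit 14) (nat_lit 4) (nat_lit 12) (nat_lit 4) (nat_lit 494) (nat_lit 364) (nat_lit 342)) (XT.lf (nat_lit 0) (nat_lit 17723935838) (nat_lit 76) (nat_lit 18979678560) (nat_lit 76) (nat_lit 16925464988) (nat_lit 11) (nat_lit 4) (nat_lit 12) (nat_lit 5) (nat_lit 12) (nat_lit 4) (nat_lit 495) (nat_lit 364) (nat_lit 341))))) (XT.nd (nat_lit 234) (nat_lit 152) (nat_lit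 0) (XT.nd (nat_lit 78) (nat_lit 76) (nat_lit 0) (XT.lf (nat_lit 0) (nat_lit 2056940096) (nat_lit 152) (nat_lit 53653099114) (nat_lit 0) (nat_lit 16712230) (nat_lit 9) (nat_lit 5) (nat_lit 11) (nat_lit 4) (nat_lit 9) (nat_lit 4) (nat_lit 496) (nat_lit 364) (nat_lit 340)) (XT.nd (nat_lit 78) (nat_lit 76) (nat_lit 0) (XT.lf (nat_lit 0) (nat_lit 21832799128) (nat_lit 152) (nat_lit 16336740889) (nat_lit 0) (nat_lit 19748908635) (nat_lit 9) (nat_lit 5) (nat_lit 11) (nat_lit 4) (nat_lit 9) (nat_lit 4) (nat_lit 497) (nat_lit 364) (nat_lit 339)) (XT.lf (nat_lit 0) (nat_lit 22567558936) (nat_lit 76) (nat_lit 19890907762) (nat_lit 76) (nat_lit 17765433816) (nat_lit 8) (nat_lit 4) (nat_lit 9) (nat_lit 5) (nat_lit 9) (nat_lit 4) (nat_lit 498) (nat_lit 364) (nat_lit 338)))) (XT.nd (nat_lit 60216) (nat_lit 0) (nat_lit 3344) (XT.nd (nat_lit 78) (nat_lit 0) (nat_lit 0) (XT.lf (nat_lit 0) (nat_lit 406400766) (nat_lit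 76) (nat_lit 860337165) (nat_lit 152) (nat_lit 61382723758) (nat_lit 6) (nat_lit 5) (nat_lit 7) (nat_lit 5) (nat_lit 8) (nat_lit 4) (nat_lit 499) (nat_lit 364) (nat_lit 337)) (XT.lf (nat_lit 0) (nat_lit 21119430846) (nat_lit 152) (nat_lit 25083708312) (nat_lit 0) (nat_lit 18980795259) (nat_lit 6) (nat_lit 5) (nat_lit 8) (nat_lit 4) (nat_lit 6) (nat_lit 4) (nat_lit 500) (nat_lit 364) (nat_lit 336))) (XT.nd (nat_lit 78) (nat_lit 76) (nat_lit 0) (XT.lf (nat_lit 0) (nat_lit 3204031574) (nat_lit 152) (nat_lit 5413885073) (nat_lit 0) (nat_lit 3204031574) (nat_lit 51) (nat_lit 5) (nat_lit 53) (nat_lit 4) (nat_lit 51) (nat_lit 4) (nat_lit 470) (nat_lit 365) (nat_lit 365)) (XT.lf (nat_lit 0) (nat_lit 22669142841) (nat_lit 76) (nat_lit 933639765) (nat_lit 76) (nat_lit 709992558) (nat_lit 50) (nat_lit 4) (nat_lit 51) (nat_lit 5) (nat_lit 51) (nat_lit 4) (nat_lit 471) (nat_lit 365) (nat_lit 364)))))) (XT.nd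 (nat_lit 468) (nat_lit 912) (nat_lit 0) (XT.nd (nat_lit 234) (nat_lit 456) (nat_lit 0) (XT.nd (nat_lit 78) (nat_lit 228) (nat_lit 0) (XT.lf (nat_lit 0) (nat_lit 7411911009) (nat_lit 76) (nat_lit 9009596077) (nat_lit 76) (nat_lit 8585669331) (nat_lit 47) (nat_lit 4) (nat_lit 48) (nat_lit 5) (nat_lit 48) (nat_lit 4) (nat_lit 472) (nat_lit 365) (nat_lit 363)) (XT.nd (nat_lit 78) (nat_lit 76) (nat_lit 0) (XT.lf (nat_lit 0) (nat_lit 8468970972) (nat_lit 152) (nat_lit 9399064623) (nat_lit 0) (nat_lit 7866181681) (nat_lit 45) (nat_lit 5) (nat_lit 47) (nat_lit 4) (nat_lit 45) (nat_lit 4) (nat_lit 473) (nat_lit 365) (nat_lit 362)) (XT.lf (nat_lit 0) (nat_lit 25066132650) (nat_lit 76) (nat_lit 1107291531) (nat_lit 76) (nat_lit 322397549) (nat_lit 44) (nat_lit 4) (nat_lit 45) (nat_lit 5) (nat_lit 45) (nat_lit 4) (nat_lit 474) (nat_lit 365) (nat_lit 361)))) (XT.nd (nat_lit 78) (nat_lit 228) (nat_lit 0) (XT.lf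 (nat_lit 0) (nat_lit 6253042860) (nat_lit 76) (nat_lit 10982291994) (nat_lit 76) (nat_lit 10051877411) (nat_lit 41) (nat_lit 4) (nat_lit 42) (nat_lit 5) (nat_lit 42) (nat_lit 4) (nat_lit 475) (nat_lit 365) (nat_lit 360)) (XT.nd (nat_lit 78) (nat_lit 76) (nat_lit 0) (XT.lf (nat_lit 0) (nat_lit 7373553435) (nat_lit 152) (nat_lit 14428564336) (nat_lit 0) (nat_lit 6314545664) (nat_lit 39) (nat_lit 5) (nat_lit 41) (nat_lit 4) (nat_lit 39) (nat_lit 4) (nat_lit 476) (nat_lit 365) (nat_lit 359)) (XT.lf (nat_lit 0) (nat_lit 20743070443) (nat_lit 76) (nat_lit 4724333655) (nat_lit 76) (nat_lit 3517047179) (nat_lit 38) (nat_lit 4) (nat_lit 39) (nat_lit 5) (nat_lit 39) (nat_lit 4) (nat_lit 477) (nat_lit 365) (nat_lit 358))))) (XT.nd (nat_lit 234) (nat_lit 456) (nat_lit 0) (XT.nd (nat_lit 78) (nat_lit 304) (nat_lit 0) (XT.lf (nat_lit 0) (nat_lit 14311643381) (nat_lit 152) (nat_lit 2576598978) (nat_lit 0) (nat_lit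 13002415913) (nat_lit 36) (nat_lit 5) (nat_lit 38) (nat_lit 4) (nat_lit 36) (nat_lit 4) (nat_lit 478) (nat_lit 365) (nat_lit 357)) (XT.nd (nat_lit 78) (nat_lit 76) (nat_lit 0) (XT.lf (nat_lit 0) (nat_lit 2059655133) (nat_lit 152) (nat_lit 28119585536) (nat_lit 0) (nat_lit 661787804) (nat_lit 33) (nat_lit 5) (nat_lit 35) (nat_lit 4) (nat_lit 33) (nat_lit 4) (nat_lit 479) (nat_lit 365) (nat_lit 356)) (XT.lf (nat_lit 0) (nat_lit 7364054511) (nat_lit 76) (nat_lit 12992935669) (nat_lit 76) (nat_lit 11474332436) (nat_lit 32) (nat_lit 4) (nat_lit 33) (nat_lit 5) (nat_lit 33) (nat_lit 4) (nat_lit 480) (nat_lit 365) (nat_lit 355)))) (XT.nd (nat_lit 156) (nat_lit 228) (nat_lit 0) (XT.nd (nat_lit 78) (nat_lit 76) (nat_lit 0) (XT.lf (nat_lit 0) (nat_lit 6517992243) (nat_lit 152) (nat_lit 21420706564) (nat_lit 0) (nat_lit 4931982720) (nat_lit 30) (nat_lit 5) (nat_lit 32) (nat_lit 4) (nat_lit 30) (nat_lit 4)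 (nat_lit 481) (nat_lit 365) (nat_lit 354)) (XT.lf (nat_lit 0) (nat_lit 14773247702) (nat_lit 76) (nat_lit 10438258812) (nat_lit 76) (nat_lit 8745927905) (nat_lit 29) (nat_lit 4) (nat_lit 30) (nat_lit 5) (nat_lit 30) (nat_lit 4) (nat_lit 482) (nat_lit 365) (nat_lit 353))) (XT.nd (nat_lit 78) (nat_lit 76) (nat_lit 0) (XT.lf (nat_lit 0) (nat_lit 9536161616) (nat_lit 152) (nat_lit 17765189822) (nat_lit 0) (nat_lit 7794812717) (nat_lit 27) (nat_lit 5) (nat_lit 29) (nat_lit 4) (nat_lit 27) (nat_lit 4) (nat_lit 483) (nat_lit 365) (nat_lit 352)) (XT.lf (nat_lit 0) (nat_lit 19013705694) (nat_lit 76) (nat_lit 9554993733) (nat_lit 76) (nat_lit 7720017039) (nat_lit 26) (nat_lit 4) (nat_lit 27) (nat_lit 5) (nat_lit 27) (nat_lit 4) (nat_lit 484) (nat_lit 365) (nat_lit 351))))))) (XT.nd (nat_lit 1014) (nat_lit 76) (nat_lit 0) (XT.nd (nat_lit 468) (nat_lit 608) (nat_lit 0) (XT.nd (nat_lit 234) (nat_lit 304) (nat_lit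 0) (XT.nd (nat_lit 78) (nat_lit 228) (nat_lit 0) (XT.lf (nat_lit 0) (nat_lit 10796845705) (nat_lit 152) (nat_lit 17812140003) (nat_lit 0) (nat_lit 8928742770) (nat_lit 24) (nat_lit 5) (nat_lit 26) (nat_lit 4) (nat_lit 24) (nat_lit 4) (nat_lit 485) (nat_lit 365) (nat_lit 350)) (XT.nd (nat_lit 78) (nat_lit 152) (nat_lit 0) (XT.lf (nat_lit 0) (nat_lit 19382375789) (nat_lit 76) (nat_lit 10707389542) (nat_lit 76) (nat_lit 8756836928) (nat_lit 23) (nat_lit 4) (nat_lit 24) (nat_lit 5) (nat_lit 24) (nat_lit 4) (nat_lit 486) (nat_lit 365) (nat_lit 349)) (XT.lf (nat_lit 0) (nat_lit 9919221727) (nat_lit 152) (nat_lit 22349820926) (nat_lit 0) (nat_lit 7949244913) (nat_lit 21) (nat_lit 5) (nat_lit 23) (nat_lit 4) (nat_lit 21) (nat_lit 4) (nat_lit 487) (nat_lit 365) (nat_lit 348)))) (XT.nd (nat_lit 78) (nat_lit 228) (nat_lit 0) (XT.lf (nat_lit 0) (nat_lit 15038143787) (nat_lit 76) (nat_lit 14329896905) (nat_lit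 76) (nat_lit 12287313984) (nat_lit 20) (nat_lit 4) (nat_lit 21) (nat_lit 5) (nat_lit 21) (nat_lit 4) (nat_lit 488) (nat_lit 365) (nat_lit 347)) (XT.nd (nat_lit 78) (nat_lit 76) (nat_lit 0) (XT.lf (nat_lit 0) (nat_lit 6447671609) (nat_lit 152) (nat_lit 32318688946) (nat_lit 0) (nat_lit 4397446761) (nat_lit 18) (nat_lit 5) (nat_lit 20) (nat_lit 4) (nat_lit 18) (nat_lit 4) (nat_lit 489) (nat_lit 365) (nat_lit 346)) (XT.lf (nat_lit 0) (nat_lit 4977181953) (nat_lit 76) (nat_lit 20939732535) (nat_lit 76) (nat_lit 18825569940) (nat_lit 17) (nat_lit 4) (nat_lit 18) (nat_lit 5) (nat_lit 18) (nat_lit 4) (nat_lit 490) (nat_lit 365) (nat_lit 345))))) (XT.nd (nat_lit 234) (nat_lit 380) (nat_lit 0) (XT.nd (nat_lit 78) (nat_lit 228) (nat_lit 0) (XT.lf (nat_lit 0) (nat_lit 43991562504) (nat_lit 76) (nat_lit 2292921511) (nat_lit 76) (nat_lit 117865824) (nat_lit 17) (nat_lit 4) (nat_lit 18) (nat_lit 5) (nat_lit 18)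 (nat_lit 4) (nat_lit 491) (nat_lit 365) (nat_lit 344)) (XT.nd (nat_lit 78) (nat_lit 76) (nat_lit 0) (XT.lf (nat_lit 0) (nat_lit 19270946628) (nat_lit 152) (nat_lit 11761891883) (nat_lit 0) (nat_lit 17102937785) (nat_lit 15) (nat_lit 5) (nat_lit 17) (nat_lit 4) (nat_lit 15) (nat_lit 4) (nat_lit 492) (nat_lit 365) (nat_lit 343)) (XT.lf (nat_lit 0) (nat_lit 26918346947) (nat_lit 76) (nat_lit 12630727528) (nat_lit 76) (nat_lit 10409095551) (nat_lit 14) (nat_lit 4) (nat_lit 15) (nat_lit 5) (nat_lit 15) (nat_lit 4) (nat_lit 493) (nat_lit 365) (nat_lit 342)))) (XT.nd (nat_lit 156) (nat_lit 152) (nat_lit 0) (XT.nd (nat_lit 78) (nat_lit 76) (nat_lit 0) (XT.lf (nat_lit 0) (nat_lit 8751216568) (nat_lit 152) (nat_lit 36574465949) (nat_lit 0) (nat_lit 6544710131) (nat_lit 12) (nat_lit 5) (nat_lit 14) (nat_lit 4) (nat_lit 12) (nat_lit 4) (nat_lit 494) (nat_lit 365) (nat_lit 341)) (XT.lf (nat_lit 0) (nat_lit 1201081378)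 (nat_lit 76) (nat_lit 27463732353) (nat_lit 76) (nat_lit 25210004785) (nat_lit 11) (nat_lit 4) (nat_lit 12) (nat_lit 5) (nat_lit 12) (nat_lit 4) (nat_lit 495) (nat_lit 365) (nat_lit 340))) (XT.nd (nat_lit 78) (nat_lit 152) (nat_lit 0) (XT.lf (nat_lit 0) (nat_lit 40904818156) (nat_lit 76) (nat_lit 8686416773) (nat_lit 76) (nat_lit 6387716700) (nat_lit 11) (nat_lit 4) (nat_lit 12) (nat_lit 5) (nat_lit 12) (nat_lit 4) (nat_lit 496) (nat_lit 365) (nat_lit 339)) (XT.lf (nat_lit 0) (nat_lit 13106423354) (nat_lit 152) (nat_lit 34245166426) (nat_lit 0) (nat_lit 10833092256) (nat_lit 9) (nat_lit 5) (nat_lit 11) (nat_lit 4) (nat_lit 9) (nat_lit 4) (nat_lit 497) (nat_lit 365) (nat_lit 338)))))) (XT.nd (nat_lit 60528) (nat_lit 0) (nat_lit 2052) (XT.nd (nat_lit 60216) (nat_lit 0) (nat_lit 2964) (XT.nd (nat_lit 78) (nat_lit 0) (nat_lit 0) (XT.lf (nat_lit 0) (nat_lit 3962397614) (nat_lit 76) (nat_lit 29425498320)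 (nat_lit 76) (nat_lit 27112563933) (nat_lit 8) (nat_lit 4) (nat_lit 9) (nat_lit 5) (nat_lit 9) (nat_lit 4) (nat_lit 498) (nat_lit 365) (nat_lit 337)) (XT.nd (nat_lit 60060) (nat_lit 0) (nat_lit 3648) (XT.lf (nat_lit 0) (nat_lit 44131522963) (nat_lit 76) (nat_lit 10575228197) (nat_lit 76) (nat_lit 8224576391) (nat_lit 8) (nat_lit 4) (nat_lit 9) (nat_lit 5) (nat_lit 9) (nat_lit 4) (nat_lit 499) (nat_lit 365) (nat_lit 336)) (XT.lf (nat_lit 0) (nat_lit 7928004620) (nat_lit 76) (nat_lit 1632145378) (nat_lit 76) (nat_lit 1632145378) (nat_lit 56) (nat_lit 4) (nat_lit 57) (nat_lit 5) (nat_lit 57) (nat_lit 4) (nat_lit 468) (nat_lit 366) (nat_lit 366)))) (XT.nd (nat_lit 156) (nat_lit 304) (nat_lit 0) (XT.nd (nat_lit 78) (nat_lit 152) (nat_lit 0) (XT.lf (nat_lit 0) (nat_lit 2854676487) (nat_lit 76) (nat_lit 10196001745) (nat_lit 76) (nat_lit 9954127290) (nat_lit 53) (nat_lit 4) (nat_lit 54) (nat_lit 5) (nat_lit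 54) (nat_lit 4) (nat_lit 469) (nat_lit 366) (nat_lit 365)) (XT.lf (nat_lit 0) (nat_lit 6370453422) (nat_lit 152) (nat_lit 11369640225) (nat_lit 0) (nat_lit 5911976647) (nat_lit 51) (nat_lit 5) (nat_lit 53) (nat_lit 4) (nat_lit 51) (nat_lit 4) (nat_lit 470) (nat_lit 366) (nat_lit 364))) (XT.nd (nat_lit 78) (nat_lit 228) (nat_lit 0) (XT.lf (nat_lit 0) (nat_lit 21590151004) (nat_lit 76) (nat_lit 1705183953) (nat_lit 76) (nat_lit 1033709837) (nat_lit 50) (nat_lit 4) (nat_lit 51) (nat_lit 5) (nat_lit 51) (nat_lit 4) (nat_lit 471) (nat_lit 366) (nat_lit 363)) (XT.lf (nat_lit 0) (nat_lit 5734434381) (nat_lit 76) (nat_lit 10073427893) (nat_lit 76) (nat_lit 9224565052) (nat_lit 47) (nat_lit 4) (nat_lit 48) (nat_lit 5) (nat_lit 48) (nat_lit 4) (nat_lit 472) (nat_lit 366) (nat_lit 362))))) (XT.nd (nat_lit 234) (nat_lit 456) (nat_lit 0) (XT.nd (nat_lit 78) (nat_lit 304) (nat_lit 0) (XT.lf (nat_lit 0) (nat_lit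 7551158481) (nat_lit 152) (nat_lit 11672320903) (nat_lit 0) (nat_lit 6544915109) (nat_lit 45) (nat_lit 5) (nat_lit 47) (nat_lit 4) (nat_lit 45) (nat_lit 4) (nat_lit 473) (nat_lit 366) (nat_lit 361)) (XT.nd (nat_lit 78) (nat_lit 228) (nat_lit 0) (XT.lf (nat_lit 0) (nat_lit 22235330213) (nat_lit 76) (nat_lit 2741356706) (nat_lit 76) (nat_lit 1561680295) (nat_lit 44) (nat_lit 4) (nat_lit 45) (nat_lit 5) (nat_lit 45) (nat_lit 4) (nat_lit 474) (nat_lit 366) (nat_lit 360)) (XT.lf (nat_lit 0) (nat_lit 2730513352) (nat_lit 76) (nat_lit 12957622775) (nat_lit 76) (nat_lit 11651942451) (nat_lit 41) (nat_lit 4) (nat_lit 42) (nat_lit 5) (nat_lit 42) (nat_lit 4) (nat_lit 475) (nat_lit 366) (nat_lit 359)))) (XT.nd (nat_lit 156) (nat_lit 228) (nat_lit 0) (XT.nd (nat_lit 78) (nat_lit 76) (nat_lit 0) (XT.lf (nat_lit 0) (nat_lit 5493830673) (nat_lit 152) (nat_lit 18607586201) (nat_lit 0) (nat_lit 4077901167) (nat_lit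 39) (nat_lit 5) (nat_lit 41) (nat_lit 4) (nat_lit 39) (nat_lit 4) (nat_lit 476) (nat_lit 366) (nat_lit 358)) (XT.lf (nat_lit 0) (nat_lit 15982323829) (nat_lit 76) (nat_lit 7315315530) (nat_lit 76) (nat_lit 5758168209) (nat_lit 38) (nat_lit 4) (nat_lit 39) (nat_lit 5) (nat_lit 39) (nat_lit 4) (nat_lit 477) (nat_lit 366) (nat_lit 357))) (XT.nd (nat_lit 78) (nat_lit 76) (nat_lit 0) (XT.lf (nat_lit 0) (nat_lit 11794890761) (nat_lit 152) (nat_lit 8024830039) (nat_lit 0) (nat_lit 10152521364) (nat_lit 36) (nat_lit 5) (nat_lit 38) (nat_lit 4) (nat_lit 36) (nat_lit 4) (nat_lit 478) (nat_lit 366) (nat_lit 356)) (XT.lf (nat_lit 0) (nat_lit 27500769374) (nat_lit 76) (nat_lit 2599467627) (nat_lit 76) (nat_lit 832740248) (nat_lit 35) (nat_lit 4) (nat_lit 36) (nat_lit 5) (nat_lit 36) (nat_lit 4) (nat_lit 479) (nat_lit 366) (nat_lit 355))))))))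
noncomputable def xc5 : XT := (XT.nd (nat_lit 61854) (nat_lit 0) (nat_lit 76) (XT.nd (nat_lit 1014) (nat_lit 532) (nat_lit 0) (XT.nd (nat_lit 468) (nat_lit 684) (nat_lit 0) (XT.nd (nat_lit 234) (nat_lit 380) (nat_lit 0) (XT.nd (nat_lit 78) (nat_lit 228) (nat_lit 0) (XT.lf (nat_lit 0) (nat_lit 472347850) (nat_lit 76) (nat_lit 16646145226) (nat_lit 76) (nat_lit 14815889351) (nat_lit 32) (nat_lit 4) (nat_lit 33) (nat_lit 5) (nat_lit 33) (nat_lit 4) (nat_lit 480) (nat_lit 366) (nat_lit 354)) (XT.nd (nat_lit 78) (nat_lit 76) (nat_lit 0) (XT.lf (nat_lit 0) (nat_lit 2897835560) (nat_lit 152) (nat_lit 29072617174) (nat_lit 0) (nat_lit 1014566725) (nat_lit 30) (nat_lit 5) (nat_lit 32) (nat_lit 4) (nat_lit 30) (nat_lit 4) (nat_lit 481) (nat_lit 366) (nat_lit 353)) (XT.lf (nat_lit 0) (nat_lit 6502094801) (nat_lit 76) (nat_lit 14781715664) (nat_lit 76) (nat_lit 12797188369) (nat_lit 29) (nat_lit 4) (nat_lit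 30) (nat_lit 5) (nat_lit 30) (nat_lit 4) (nat_lit 482) (nat_lit 366) (nat_lit 352)))) (XT.nd (nat_lit 78) (nat_lit 228) (nat_lit 0) (XT.lf (nat_lit 0) (nat_lit 5208831655) (nat_lit 152) (nat_lit 26834240888) (nat_lit 0) (nat_lit 3188478332) (nat_lit 27) (nat_lit 5) (nat_lit 29) (nat_lit 4) (nat_lit 27) (nat_lit 4) (nat_lit 483) (nat_lit 366) (nat_lit 351)) (XT.nd (nat_lit 78) (nat_lit 152) (nat_lit 0) (XT.lf (nat_lit 0) (nat_lit 9314688065) (nat_lit 76) (nat_lit 14614156888) (nat_lit 76) (nat_lit 12504634236) (nat_lit 26) (nat_lit 4) (nat_lit 27) (nat_lit 5) (nat_lit 27) (nat_lit 4) (nat_lit 484) (nat_lit 366) (nat_lit 350)) (XT.lf (nat_lit 0) (nat_lit 5738056502) (nat_lit 152) (nat_lit 28349314264) (nat_lit 0) (nat_lit 3607526577) (nat_lit 24) (nat_lit 5) (nat_lit 26) (nat_lit 4) (nat_lit 24) (nat_lit 4) (nat_lit 485) (nat_lit 366) (nat_lit 349))))) (XT.nd (nat_lit 234) (nat_lit 380) (nat_lit 0)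 (XT.nd (nat_lit 78) (nat_lit 228) (nat_lit 0) (XT.lf (nat_lit 0) (nat_lit 8202853169) (nat_lit 76) (nat_lit 16509761236) (nat_lit 76) (nat_lit 14300707808) (nat_lit 23) (nat_lit 4) (nat_lit 24) (nat_lit 5) (nat_lit 24) (nat_lit 4) (nat_lit 486) (nat_lit 366) (nat_lit 348)) (XT.nd (nat_lit 78) (nat_lit 76) (nat_lit 0) (XT.lf (nat_lit 0) (nat_lit 4102440995) (nat_lit 152) (nat_lit 34410475373) (nat_lit 0) (nat_lit 1885122822) (nat_lit 21) (nat_lit 5) (nat_lit 23) (nat_lit 4) (nat_lit 21) (nat_lit 4) (nat_lit 487) (nat_lit 366) (nat_lit 347)) (XT.lf (nat_lit 0) (nat_lit 2321036870) (nat_lit 76) (nat_lit 20905144423) (nat_lit 76) (nat_lit 18618677577) (nat_lit 20) (nat_lit 4) (nat_lit 21) (nat_lit 5) (nat_lit 21) (nat_lit 4) (nat_lit 488) (nat_lit 366) (nat_lit 346)))) (XT.nd (nat_lit 156) (nat_lit 228) (nat_lit 0) (XT.nd (nat_lit 78) (nat_lit 152) (nat_lit 0) (XT.lf (nat_lit 0) (nat_lit 40795188468)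 (nat_lit 76) (nat_lit 2461321084) (nat_lit 76) (nat_lit 108998359) (nat_lit 20) (nat_lit 4) (nat_lit 21) (nat_lit 5) (nat_lit 21) (nat_lit 4) (nat_lit 489) (nat_lit 366) (nat_lit 345)) (XT.lf (nat_lit 0) (nat_lit 19070331669) (nat_lit 152) (nat_lit 9157016059) (nat_lit 0) (nat_lit 16725630106) (nat_lit 18) (nat_lit 5) (nat_lit 20) (nat_lit 4) (nat_lit 18) (nat_lit 4) (nat_lit 490) (nat_lit 366) (nat_lit 344))) (XT.nd (nat_lit 78) (nat_lit 152) (nat_lit 0) (XT.lf (nat_lit 0) (nat_lit 29293403245) (nat_lit 76) (nat_lit 9865256205) (nat_lit 76) (nat_lit 7462561221) (nat_lit 17) (nat_lit 4) (nat_lit 18) (nat_lit 5) (nat_lit 18) (nat_lit 4) (nat_lit 491) (nat_lit 366) (nat_lit 343)) (XT.lf (nat_lit 0) (nat_lit 11661444772) (nat_lit 152) (nat_lit 27432456348) (nat_lit 0) (nat_lit 9275108060) (nat_lit 15) (nat_lit 5) (nat_lit 17) (nat_lit 4) (nat_lit 15) (nat_lit 4) (nat_lit 492) (nat_lit 366) (nat_lit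 342)))))) (XT.nd (nat_lit 468) (nat_lit 76) (nat_lit 0) (XT.nd (nat_lit 234) (nat_lit 228) (nat_lit 0) (XT.nd (nat_lit 78) (nat_lit 152) (nat_lit 0) (XT.lf (nat_lit 0) (nat_lit 10568512005) (nat_lit 76) (nat_lit 21035186818) (nat_lit 76) (nat_lit 18597780453) (nat_lit 14) (nat_lit 4) (nat_lit 15) (nat_lit 5) (nat_lit 15) (nat_lit 4) (nat_lit 493) (nat_lit 366) (nat_lit 341)) (XT.nd (nat_lit 78) (nat_lit 76) (nat_lit 0) (XT.lf (nat_lit 0) (nat_lit 335208224) (nat_lit 152) (nat_lit 1805571433) (nat_lit 76) (nat_lit 49986897248) (nat_lit 13) (nat_lit 5) (nat_lit 15) (nat_lit 5) (nat_lit 14) (nat_lit 4) (nat_lit 494) (nat_lit 366) (nat_lit 340)) (XT.lf (nat_lit 0) (nat_lit 20026907052) (nat_lit 152) (nat_lit 16543553336) (nat_lit 0) (nat_lit 17568299470) (nat_lit 12) (nat_lit 5) (nat_lit 14) (nat_lit 4) (nat_lit 12) (nat_lit 4) (nat_lit 495) (nat_lit 366) (nat_lit 339)))) (XT.nd (nat_lit 78) (nat_lit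 152) (nat_lit 0) (XT.lf (nat_lit 0) (nat_lit 22494169281) (nat_lit 76) (nat_lit 18130018290) (nat_lit 76) (nat_lit 15628579750) (nat_lit 11) (nat_lit 4) (nat_lit 12) (nat_lit 5) (nat_lit 12) (nat_lit 4) (nat_lit 496) (nat_lit 366) (nat_lit 338)) (XT.nd (nat_lit 78) (nat_lit 0) (nat_lit 0) (XT.lf (nat_lit 0) (nat_lit 3604759654) (nat_lit 152) (nat_lit 53733061495) (nat_lit 0) (nat_lit 1136575258) (nat_lit 9) (nat_lit 5) (nat_lit 11) (nat_lit 4) (nat_lit 9) (nat_lit 4) (nat_lit 497) (nat_lit 366) (nat_lit 337)) (XT.lf (nat_lit 0) (nat_lit 23690666293) (nat_lit 152) (nat_lit 15920610557) (nat_lit 0) (nat_lit 21184764478) (nat_lit 9) (nat_lit 5) (nat_lit 11) (nat_lit 4) (nat_lit 9) (nat_lit 4) (nat_lit 498) (nat_lit 366) (nat_lit 336))))) (XT.nd (nat_lit 60060) (nat_lit 0) (nat_lit 3192) (XT.nd (nat_lit 59904) (nat_lit 0) (nat_lit 3724) (XT.lf (nat_lit 0) (nat_lit 23622980427) (nat_lit 76) (nat_lit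 21077511375) (nat_lit 76) (nat_lit 18535688210) (nat_lit 8) (nat_lit 4) (nat_lit 9) (nat_lit 5) (nat_lit 9) (nat_lit 4) (nat_lit 499) (nat_lit 366) (nat_lit 335)) (XT.nd (nat_lit 78) (nat_lit 228) (nat_lit 0) (XT.lf (nat_lit 0) (nat_lit 4360435245) (nat_lit 152) (nat_lit 1884157620) (nat_lit 0) (nat_lit 4360435245) (nat_lit 60) (nat_lit 5) (nat_lit 62) (nat_lit 4) (nat_lit 60) (nat_lit 4) (nat_lit 466) (nat_lit 367) (nat_lit 367)) (XT.lf (nat_lit 0) (nat_lit 3030831964) (nat_lit 152) (nat_lit 15989317746) (nat_lit 0) (nat_lit 2769244741) (nat_lit 57) (nat_lit 5) (nat_lit 59) (nat_lit 4) (nat_lit 57) (nat_lit 4) (nat_lit 467) (nat_lit 367) (nat_lit 366)))) (XT.nd (nat_lit 156) (nat_lit 228) (nat_lit 0) (XT.nd (nat_lit 78) (nat_lit 228) (nat_lit 0) (XT.lf (nat_lit 0) (nat_lit 15341115835) (nat_lit 76) (nat_lit 3780993458) (nat_lit 76) (nat_lit 3270275546) (nat_lit 56) (nat_lit 4) (nat_lit 57) (nat_lit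 5) (nat_lit 57) (nat_lit 4) (nat_lit 468) (nat_lit 367) (nat_lit 365)) (XT.lf (nat_lit 0) (nat_lit 1787447663) (nat_lit 76) (nat_lit 10979839654) (nat_lit 76) (nat_lit 10253640397) (nat_lit 53) (nat_lit 4) (nat_lit 54) (nat_lit 5) (nat_lit 54) (nat_lit 4) (nat_lit 469) (nat_lit 367) (nat_lit 364))) (XT.nd (nat_lit 78) (nat_lit 76) (nat_lit 0) (XT.lf (nat_lit 0) (nat_lit 5799057923) (nat_lit 152) (nat_lit 12996540627) (nat_lit 0) (nat_lit 4881012760) (nat_lit 51) (nat_lit 5) (nat_lit 53) (nat_lit 4) (nat_lit 51) (nat_lit 4) (nat_lit 470) (nat_lit 367) (nat_lit 363)) (XT.lf (nat_lit 0) (nat_lit 19429598302) (nat_lit 76) (nat_lit 3026462132) (nat_lit 76) (nat_lit 1905562359) (nat_lit 50) (nat_lit 4) (nat_lit 51) (nat_lit 5) (nat_lit 51) (nat_lit 4) (nat_lit 471) (nat_lit 367) (nat_lit 362))))))) (XT.nd (nat_lit 1014) (nat_lit 1368) (nat_lit 0) (XT.nd (nat_lit 468) (nat_lit 836) (nat_lit 0) (XT.nd (nat_lit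 234) (nat_lit 456) (nat_lit 0) (XT.nd (nat_lit 78) (nat_lit 228) (nat_lit 0) (XT.lf (nat_lit 0) (nat_lit 2934202583) (nat_lit 76) (nat_lit 11708098212) (nat_lit 76) (nat_lit 10432278174) (nat_lit 47) (nat_lit 4) (nat_lit 48) (nat_lit 5) (nat_lit 48) (nat_lit 4) (nat_lit 472) (nat_lit 367) (nat_lit 361)) (XT.nd (nat_lit 78) (nat_lit 76) (nat_lit 0) (XT.lf (nat_lit 0) (nat_lit 6071442963) (nat_lit 152) (nat_lit 15088969358) (nat_lit 0) (nat_lit 4659349693) (nat_lit 45) (nat_lit 5) (nat_lit 47) (nat_lit 4) (nat_lit 45) (nat_lit 4) (nat_lit 473) (nat_lit 367) (nat_lit 360)) (XT.lf (nat_lit 0) (nat_lit 18262775278) (nat_lit 76) (nat_lit 4956282479) (nat_lit 76) (nat_lit 3379014885) (nat_lit 44) (nat_lit 4) (nat_lit 45) (nat_lit 5) (nat_lit 45) (nat_lit 4) (nat_lit 474) (nat_lit 367) (nat_lit 359)))) (XT.nd (nat_lit 78) (nat_lit 304) (nat_lit 0) (XT.lf (nat_lit 0) (nat_lit 13576819927) (nat_lit 152) (nat_lit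 1940606850) (nat_lit 0) (nat_lit 11892765099) (nat_lit 42) (nat_lit 5) (nat_lit 44) (nat_lit 4) (nat_lit 42) (nat_lit 4) (nat_lit 475) (nat_lit 367) (nat_lit 358)) (XT.nd (nat_lit 78) (nat_lit 76) (nat_lit 0) (XT.lf (nat_lit 0) (nat_lit 3019350297) (nat_lit 152) (nat_lit 23997651302) (nat_lit 0) (nat_lit 1243127795) (nat_lit 39) (nat_lit 5) (nat_lit 41) (nat_lit 4) (nat_lit 39) (nat_lit 4) (nat_lit 476) (nat_lit 367) (nat_lit 357)) (XT.lf (nat_lit 0) (nat_lit 10010172512) (nat_lit 76) (nat_lit 10522932052) (nat_lit 76) (nat_lit 8612216393) (nat_lit 38) (nat_lit 4) (nat_lit 39) (nat_lit 5) (nat_lit 39) (nat_lit 4) (nat_lit 477) (nat_lit 367) (nat_lit 356))))) (XT.nd (nat_lit 234) (nat_lit 456) (nat_lit 0) (XT.nd (nat_lit 78) (nat_lit 228) (nat_lit 0) (XT.lf (nat_lit 0) (nat_lit 8670813637) (nat_lit 152) (nat_lit 14710145080) (nat_lit 0) (nat_lit 6691391908) (nat_lit 36) (nat_lit 5) (nat_lit 38) (nat_lit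 4) (nat_lit 36) (nat_lit 4) (nat_lit 478) (nat_lit 367) (nat_lit 355)) (XT.nd (nat_lit 78) (nat_lit 152) (nat_lit 0) (XT.lf (nat_lit 0) (nat_lit 20225320390) (nat_lit 76) (nat_lit 6457216139) (nat_lit 76) (nat_lit 4359358237) (nat_lit 35) (nat_lit 4) (nat_lit 36) (nat_lit 5) (nat_lit 36) (nat_lit 4) (nat_lit 479) (nat_lit 367) (nat_lit 354)) (XT.lf (nat_lit 0) (nat_lit 13320113886) (nat_lit 152) (nat_lit 7560573117) (nat_lit 0) (nat_lit 11173847617) (nat_lit 33) (nat_lit 5) (nat_lit 35) (nat_lit 4) (nat_lit 33) (nat_lit 4) (nat_lit 480) (nat_lit 367) (nat_lit 353)))) (XT.nd (nat_lit 156) (nat_lit 228) (nat_lit 0) (XT.nd (nat_lit 78) (nat_lit 152) (nat_lit 0) (XT.lf (nat_lit 0) (nat_lit 28237941929) (nat_lit 76) (nat_lit 3564431817) (nat_lit 76) (nat_lit 1313869334) (nat_lit 32) (nat_lit 4) (nat_lit 33) (nat_lit 5) (nat_lit 33) (nat_lit 4) (nat_lit 481) (nat_lit 367) (nat_lit 352)) (XT.lf (nat_lit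 0) (nat_lit 16735504954) (nat_lit 152) (nat_lit 3033907646) (nat_lit 0) (nat_lit 14454056206) (nat_lit 30) (nat_lit 5) (nat_lit 32) (nat_lit 4) (nat_lit 30) (nat_lit 4) (nat_lit 482) (nat_lit 367) (nat_lit 351))) (XT.nd (nat_lit 78) (nat_lit 76) (nat_lit 0) (XT.lf (nat_lit 0) (nat_lit 254270746) (nat_lit 152) (nat_lit 1857123540) (nat_lit 76) (nat_lit 33274639127) (nat_lit 28) (nat_lit 5) (nat_lit 30) (nat_lit 5) (nat_lit 29) (nat_lit 4) (nat_lit 483) (nat_lit 367) (nat_lit 350)) (XT.lf (nat_lit 0) (nat_lit 18637213025) (nat_lit 152) (nat_lit 1712739347) (nat_lit 0) (nat_lit 16248121742) (nat_lit 27) (nat_lit 5) (nat_lit 29) (nat_lit 4) (nat_lit 27) (nat_lit 4) (nat_lit 484) (nat_lit 367) (nat_lit 349)))))) (XT.nd (nat_lit 546) (nat_lit 608) (nat_lit 0) (XT.nd (nat_lit 234) (nat_lit 456) (nat_lit 0) (XT.nd (nat_lit 78) (nat_lit 152) (nat_lit 0) (XT.lf (nat_lit 0) (nat_lit 40957638) (nat_lit 152)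 (nat_lit 2386826485) (nat_lit 76) (nat_lit 35443702118) (nat_lit 25) (nat_lit 5) (nat_lit 27) (nat_lit 5) (nat_lit 26) (nat_lit 4) (nat_lit 485) (nat_lit 367) (nat_lit 348)) (XT.nd (nat_lit 78) (nat_lit 76) (nat_lit 0) (XT.lf (nat_lit 0) (nat_lit 18688840824) (nat_lit 152) (nat_lit 4294843823) (nat_lit 0) (nat_lit 16216026930) (nat_lit 24) (nat_lit 5) (nat_lit 26) (nat_lit 4) (nat_lit 24) (nat_lit 4) (nat_lit 486) (nat_lit 367) (nat_lit 347)) (XT.lf (nat_lit 0) (nat_lit 33354784045) (nat_lit 76) (nat_lit 4892133806) (nat_lit 76) (nat_lit 2348096778) (nat_lit 23) (nat_lit 4) (nat_lit 24) (nat_lit 5) (nat_lit 24) (nat_lit 4) (nat_lit 487) (nat_lit 367) (nat_lit 346)))) (XT.nd (nat_lit 156) (nat_lit 228) (nat_lit 0) (XT.nd (nat_lit 78) (nat_lit 76) (nat_lit 0) (XT.lf (nat_lit 0) (nat_lit 16487265192) (nat_lit 152) (nat_lit 11613801948) (nat_lit 0) (nat_lit 13951470452) (nat_lit 21) (nat_lit 5) (nat_lit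 23) (nat_lit 4) (nat_lit 21) (nat_lit 4) (nat_lit 488) (nat_lit 367) (nat_lit 345)) (XT.lf (nat_lit 0) (nat_lit 26251505372) (nat_lit 76) (nat_lit 9964620058) (nat_lit 76) (nat_lit 7366105433) (nat_lit 20) (nat_lit 4) (nat_lit 21) (nat_lit 5) (nat_lit 21) (nat_lit 4) (nat_lit 489) (nat_lit 367) (nat_lit 344))) (XT.nd (nat_lit 78) (nat_lit 76) (nat_lit 0) (XT.lf (nat_lit 0) (nat_lit 11550770195) (nat_lit 152) (nat_lit 24663198517) (nat_lit 0) (nat_lit 8969947041) (nat_lit 18) (nat_lit 5) (nat_lit 20) (nat_lit 4) (nat_lit 18) (nat_lit 4) (nat_lit 490) (nat_lit 367) (nat_lit 343)) (XT.lf (nat_lit 0) (nat_lit 13115075761) (nat_lit 76) (nat_lit 18191555983) (nat_lit 76) (nat_lit 15555500999) (nat_lit 17) (nat_lit 4) (nat_lit 18) (nat_lit 5) (nat_lit 18) (nat_lit 4) (nat_lit 491) (nat_lit 367) (nat_lit 342))))) (XT.nd (nat_lit 234) (nat_lit 380) (nat_lit 0) (XT.nd (nat_lit 78) (nat_lit 76) (nat_lit 0)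 (XT.lf (nat_lit 0) (nat_lit 3305114002) (nat_lit 152) (nat_lit 44625012968) (nat_lit 0) (nat_lit 694767666) (nat_lit 15) (nat_lit 5) (nat_lit 17) (nat_lit 4) (nat_lit 15) (nat_lit 4) (nat_lit 492) (nat_lit 367) (nat_lit 341)) (XT.nd (nat_lit 78) (nat_lit 76) (nat_lit 0) (XT.lf (nat_lit 0) (nat_lit 22975577831) (nat_lit 152) (nat_lit 7173347025) (nat_lit 0) (nat_lit 20316593730) (nat_lit 15) (nat_lit 5) (nat_lit 17) (nat_lit 4) (nat_lit 15) (nat_lit 4) (nat_lit 493) (nat_lit 367) (nat_lit 340)) (XT.lf (nat_lit 0) (nat_lit 32107629151) (nat_lit 76) (nat_lit 11498280158) (nat_lit 76) (nat_lit 8792974377) (nat_lit 14) (nat_lit 4) (nat_lit 15) (nat_lit 5) (nat_lit 15) (nat_lit 4) (nat_lit 494) (nat_lit 367) (nat_lit 339)))) (XT.nd (nat_lit 156) (nat_lit 152) (nat_lit 0) (XT.nd (nat_lit 78) (nat_lit 76) (nat_lit 0) (XT.lf (nat_lit 0) (nat_lit 10633618678) (nat_lit 152) (nat_lit 35827707190) (nat_lit 0)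 (nat_lit 7964277254) (nat_lit 12) (nat_lit 5) (nat_lit 14) (nat_lit 4) (nat_lit 12) (nat_lit 4) (nat_lit 495) (nat_lit 367) (nat_lit 338)) (XT.lf (nat_lit 0) (nat_lit 2505494374) (nat_lit 76) (nat_lit 28377345464) (nat_lit 76) (nat_lit 25667212652) (nat_lit 11) (nat_lit 4) (nat_lit 12) (nat_lit 5) (nat_lit 12) (nat_lit 4) (nat_lit 496) (nat_lit 367) (nat_lit 337))) (XT.nd (nat_lit 78) (nat_lit 152) (nat_lit 0) (XT.lf (nat_lit 0) (nat_lit 42877865350) (nat_lit 76) (nat_lit 9325044664) (nat_lit 76) (nat_lit 6576062910) (nat_lit 11) (nat_lit 4) (nat_lit 12) (nat_lit 5) (nat_lit 12) (nat_lit 4) (nat_lit 497) (nat_lit 367) (nat_lit 336)) (XT.lf (nat_lit 0) (nat_lit 13241113610) (nat_lit 152) (nat_lit 37337034389) (nat_lit 0) (nat_lit 10536277935) (nat_lit 9) (nat_lit 5) (nat_lit 11) (nat_lit 4) (nat_lit 9) (nat_lit 4) (nat_lit 498) (nat_lit 367) (nat_lit 335))))))))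
noncomputable def xc6 : XT := (XT.nd (nat_lit 61698) (nat_lit 0) (nat_lit 76) (XT.nd (nat_lit 60684) (nat_lit 0) (nat_lit 988) (XT.nd (nat_lit 60138) (nat_lit 0) (nat_lit 2584) (XT.nd (nat_lit 59904) (nat_lit 0) (nat_lit 3648) (XT.nd (nat_lit 59748) (nat_lit 0) (nat_lit 4104) (XT.lf (nat_lit 0) (nat_lit 1486343963) (nat_lit 76) (nat_lit 32408968028) (nat_lit 76) (nat_lit 29669921543) (nat_lit 8) (nat_lit 4) (nat_lit 9) (nat_lit 5) (nat_lit 9) (nat_lit 4) (nat_lit 499) (nat_lit 367) (nat_lit 334)) (XT.nd (nat_lit 78) (nat_lit 228) (nat_lit 0) (XT.lf (nat_lit 0) (nat_lit 9005884472) (nat_lit 76) (nat_lit 525919033) (nat_lit 76) (nat_lit 525919033) (nat_lit 65) (nat_lit 4) (nat_lit 66) (nat_lit 5) (nat_lit 66) (nat_lit 4) (nat_lit 464) (nat_lit 368) (nat_lit 368)) (XT.lf (nat_lit 0) (nat_lit 7403152132) (nat_lit 76) (nat_lit 6771410485) (nat_lit 76) (nat_lit 6480016705) (nat_lit 62) (nat_lit 4) (nat_lit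 63) (nat_lit 5) (nat_lit 63) (nat_lit 4) (nat_lit 465) (nat_lit 368) (nat_lit 367)))) (XT.nd (nat_lit 78) (nat_lit 304) (nat_lit 0) (XT.lf (nat_lit 0) (nat_lit 8751190289) (nat_lit 152) (nat_lit 4267595481) (nat_lit 0) (nat_lit 8198848867) (nat_lit 60) (nat_lit 5) (nat_lit 62) (nat_lit 4) (nat_lit 60) (nat_lit 4) (nat_lit 466) (nat_lit 368) (nat_lit 366)) (XT.nd (nat_lit 78) (nat_lit 76) (nat_lit 0) (XT.lf (nat_lit 0) (nat_lit 2783100214) (nat_lit 152) (nat_lit 17024252005) (nat_lit 0) (nat_lit 1997715718) (nat_lit 57) (nat_lit 5) (nat_lit 59) (nat_lit 4) (nat_lit 57) (nat_lit 4) (nat_lit 467) (nat_lit 368) (nat_lit 365)) (XT.lf (nat_lit 0) (nat_lit 13795209684) (nat_lit 76) (nat_lit 4821613897) (nat_lit 76) (nat_lit 3798962078) (nat_lit 56) (nat_lit 4) (nat_lit 57) (nat_lit 5) (nat_lit 57) (nat_lit 4) (nat_lit 468) (nat_lit 368) (nat_lit 364))))) (XT.nd (nat_lit 234) (nat_lit 608) (nat_lit 0) (XT.nd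 (nat_lit 78) (nat_lit 304) (nat_lit 0) (XT.lf (nat_lit 0) (nat_lit 11961316393) (nat_lit 152) (nat_lit 342730005) (nat_lit 0) (nat_lit 10749063288) (nat_lit 54) (nat_lit 5) (nat_lit 56) (nat_lit 4) (nat_lit 54) (nat_lit 4) (nat_lit 469) (nat_lit 368) (nat_lit 363)) (XT.nd (nat_lit 78) (nat_lit 76) (nat_lit 0) (XT.lf (nat_lit 0) (nat_lit 4692516185) (nat_lit 152) (nat_lit 15712344926) (nat_lit 0) (nat_lit 3312716813) (nat_lit 51) (nat_lit 5) (nat_lit 53) (nat_lit 4) (nat_lit 51) (nat_lit 4) (nat_lit 470) (nat_lit 368) (nat_lit 362)) (XT.lf (nat_lit 0) (nat_lit 16182340561) (nat_lit 76) (nat_lit 4900620201) (nat_lit 76) (nat_lit 3327625963) (nat_lit 50) (nat_lit 4) (nat_lit 51) (nat_lit 5) (nat_lit 51) (nat_lit 4) (nat_lit 471) (nat_lit 368) (nat_lit 361)))) (XT.nd (nat_lit 156) (nat_lit 228) (nat_lit 0) (XT.nd (nat_lit 78) (nat_lit 228) (nat_lit 0) (XT.lf (nat_lit 0) (nat_lit 12931616395) (nat_lit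 152) (nat_lit 976026755) (nat_lit 0) (nat_lit 11225801492) (nat_lit 48) (nat_lit 5) (nat_lit 50) (nat_lit 4) (nat_lit 48) (nat_lit 4) (nat_lit 472) (nat_lit 368) (nat_lit 360)) (XT.lf (nat_lit 0) (nat_lit 4026301286) (nat_lit 152) (nat_lit 19657144866) (nat_lit 0) (nat_lit 2204995990) (nat_lit 45) (nat_lit 5) (nat_lit 47) (nat_lit 4) (nat_lit 45) (nat_lit 4) (nat_lit 473) (nat_lit 368) (nat_lit 359))) (XT.nd (nat_lit 78) (nat_lit 152) (nat_lit 0) (XT.lf (nat_lit 0) (nat_lit 13139009381) (nat_lit 76) (nat_lit 7757342481) (nat_lit 76) (nat_lit 5778728306) (nat_lit 44) (nat_lit 4) (nat_lit 45) (nat_lit 5) (nat_lit 45) (nat_lit 4) (nat_lit 474) (nat_lit 368) (nat_lit 358)) (XT.lf (nat_lit 0) (nat_lit 10915055822) (nat_lit 152) (nat_lit 7733485540) (nat_lit 0) (nat_lit 8848616836) (nat_lit 42) (nat_lit 5) (nat_lit 44) (nat_lit 4) (nat_lit 42) (nat_lit 4) (nat_lit 475) (nat_lit 368) (nat_lit 357))))))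 (XT.nd (nat_lit 468) (nat_lit 836) (nat_lit 0) (XT.nd (nat_lit 234) (nat_lit 304) (nat_lit 0) (XT.nd (nat_lit 78) (nat_lit 380) (nat_lit 0) (XT.lf (nat_lit 0) (nat_lit 26127762490) (nat_lit 76) (nat_lit 2217594379) (nat_lit 76) (nat_lit 12627441) (nat_lit 41) (nat_lit 4) (nat_lit 42) (nat_lit 5) (nat_lit 42) (nat_lit 4) (nat_lit 476) (nat_lit 368) (nat_lit 356)) (XT.nd (nat_lit 78) (nat_lit 152) (nat_lit 0) (XT.lf (nat_lit 0) (nat_lit 2812397085) (nat_lit 76) (nat_lit 14354820404) (nat_lit 76) (nat_lit 12085987083) (nat_lit 38) (nat_lit 4) (nat_lit 39) (nat_lit 5) (nat_lit 39) (nat_lit 4) (nat_lit 477) (nat_lit 368) (nat_lit 355)) (XT.lf (nat_lit 0) (nat_lit 4931973731) (nat_lit 152) (nat_lit 22648461515) (nat_lit 0) (nat_lit 2610786760) (nat_lit 36) (nat_lit 5) (nat_lit 38) (nat_lit 4) (nat_lit 36) (nat_lit 4) (nat_lit 478) (nat_lit 368) (nat_lit 354)))) (XT.nd (nat_lit 78) (nat_lit 228) (nat_lit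 0) (XT.lf (nat_lit 0) (nat_lit 11693698687) (nat_lit 76) (nat_lit 10954951263) (nat_lit 76) (nat_lit 8520967938) (nat_lit 35) (nat_lit 4) (nat_lit 36) (nat_lit 5) (nat_lit 36) (nat_lit 4) (nat_lit 479) (nat_lit 368) (nat_lit 353)) (XT.nd (nat_lit 78) (nat_lit 76) (nat_lit 0) (XT.lf (nat_lit 0) (nat_lit 8895653353) (nat_lit 152) (nat_lit 16869860054) (nat_lit 0) (nat_lit 6428266532) (nat_lit 33) (nat_lit 5) (nat_lit 35) (nat_lit 4) (nat_lit 33) (nat_lit 4) (nat_lit 480) (nat_lit 368) (nat_lit 352)) (XT.lf (nat_lit 0) (nat_lit 18324334662) (nat_lit 76) (nat_lit 8753437409) (nat_lit 76) (nat_lit 6186720860) (nat_lit 32) (nat_lit 4) (nat_lit 33) (nat_lit 5) (nat_lit 33) (nat_lit 4) (nat_lit 481) (nat_lit 368) (nat_lit 351))))) (XT.nd (nat_lit 234) (nat_lit 456) (nat_lit 0) (XT.nd (nat_lit 78) (nat_lit 228) (nat_lit 0) (XT.lf (nat_lit 0) (nat_lit 11601406339) (nat_lit 152) (nat_lit 13764803724) (nat_lit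 0) (nat_lit 9017604116) (nat_lit 30) (nat_lit 5) (nat_lit 32) (nat_lit 4) (nat_lit 30) (nat_lit 4) (nat_lit 482) (nat_lit 368) (nat_lit 350)) (XT.nd (nat_lit 78) (nat_lit 152) (nat_lit 0) (XT.lf (nat_lit 0) (nat_lit 22183642908) (nat_lit 76) (nat_lit 8021632981) (nat_lit 76) (nat_lit 5350359893) (nat_lit 29) (nat_lit 4) (nat_lit 30) (nat_lit 5) (nat_lit 30) (nat_lit 4) (nat_lit 483) (nat_lit 368) (nat_lit 349)) (XT.lf (nat_lit 0) (nat_lit 12767261774) (nat_lit 152) (nat_lit 13920136093) (nat_lit 0) (nat_lit 10092913548) (nat_lit 27) (nat_lit 5) (nat_lit 29) (nat_lit 4) (nat_lit 27) (nat_lit 4) (nat_lit 484) (nat_lit 368) (nat_lit 348)))) (XT.nd (nat_lit 156) (nat_lit 228) (nat_lit 0) (XT.nd (nat_lit 78) (nat_lit 152) (nat_lit 0) (XT.lf (nat_lit 0) (nat_lit 22646452356) (nat_lit 76) (nat_lit 9084022430) (nat_lit 76) (nat_lit 6332646385) (nat_lit 26) (nat_lit 4) (nat_lit 27) (nat_lit 5) (nat_lit 27)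 (nat_lit 4) (nat_lit 485) (nat_lit 368) (nat_lit 347)) (XT.lf (nat_lit 0) (nat_lit 12054527286) (nat_lit 152) (nat_lit 18038108829) (nat_lit 0) (nat_lit 9312065274) (nat_lit 24) (nat_lit 5) (nat_lit 26) (nat_lit 4) (nat_lit 24) (nat_lit 4) (nat_lit 486) (nat_lit 368) (nat_lit 346))) (XT.nd (nat_lit 78) (nat_lit 152) (nat_lit 0) (XT.lf (nat_lit 0) (nat_lit 18964272207) (nat_lit 76) (nat_lit 12327820673) (nat_lit 76) (nat_lit 9517527106) (nat_lit 23) (nat_lit 4) (nat_lit 24) (nat_lit 5) (nat_lit 24) (nat_lit 4) (nat_lit 487) (nat_lit 368) (nat_lit 345)) (XT.lf (nat_lit 0) (nat_lit 9057678313) (nat_lit 152) (nat_lit 26957016000) (nat_lit 0) (nat_lit 6266518072) (nat_lit 21) (nat_lit 5) (nat_lit 23) (nat_lit 4) (nat_lit 21) (nat_lit 4) (nat_lit 488) (nat_lit 368) (nat_lit 344))))))) (XT.nd (nat_lit 60528) (nat_lit 0) (nat_lit 2280) (XT.nd (nat_lit 468) (nat_lit 380) (nat_lit 0) (XT.nd (nat_lit 234)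 (nat_lit 304) (nat_lit 0) (XT.nd (nat_lit 78) (nat_lit 152) (nat_lit 0) (XT.lf (nat_lit 0) (nat_lit 10243210469) (nat_lit 76) (nat_lit 18214230874) (nat_lit 76) (nat_lit 15363337409) (nat_lit 20) (nat_lit 4) (nat_lit 21) (nat_lit 5) (nat_lit 21) (nat_lit 4) (nat_lit 489) (nat_lit 368) (nat_lit 343)) (XT.nd (nat_lit 78) (nat_lit 0) (nat_lit 0) (XT.lf (nat_lit 0) (nat_lit 3292482632) (nat_lit 152) (nat_lit 41675407647) (nat_lit 0) (nat_lit 469393070) (nat_lit 18) (nat_lit 5) (nat_lit 20) (nat_lit 4) (nat_lit 18) (nat_lit 4) (nat_lit 490) (nat_lit 368) (nat_lit 342)) (XT.lf (nat_lit 0) (nat_lit 22753750001) (nat_lit 152) (nat_lit 4492529626) (nat_lit 0) (nat_lit 19878058696) (nat_lit 18) (nat_lit 5) (nat_lit 20) (nat_lit 4) (nat_lit 18) (nat_lit 4) (nat_lit 491) (nat_lit 368) (nat_lit 341)))) (XT.nd (nat_lit 78) (nat_lit 228) (nat_lit 0) (XT.lf (nat_lit 0) (nat_lit 34561121909) (nat_lit 76) (nat_lit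 8630158331) (nat_lit 76) (nat_lit 5704370128) (nat_lit 17) (nat_lit 4) (nat_lit 18) (nat_lit 5) (nat_lit 18) (nat_lit 4) (nat_lit 492) (nat_lit 368) (nat_lit 340)) (XT.nd (nat_lit 78) (nat_lit 76) (nat_lit 0) (XT.lf (nat_lit 0) (nat_lit 13690427626) (nat_lit 152) (nat_lit 26255566340) (nat_lit 0) (nat_lit 10803534876) (nat_lit 15) (nat_lit 5) (nat_lit 17) (nat_lit 4) (nat_lit 15) (nat_lit 4) (nat_lit 493) (nat_lit 368) (nat_lit 339)) (XT.lf (nat_lit 0) (nat_lit 12328266193) (nat_lit 76) (nat_lit 21647985864) (nat_lit 76) (nat_lit 18716977228) (nat_lit 14) (nat_lit 4) (nat_lit 15) (nat_lit 5) (nat_lit 15) (nat_lit 4) (nat_lit 494) (nat_lit 368) (nat_lit 338))))) (XT.nd (nat_lit 234) (nat_lit 152) (nat_lit 0) (XT.nd (nat_lit 78) (nat_lit 152) (nat_lit 0) (XT.lf (nat_lit 0) (nat_lit 494225739) (nat_lit 152) (nat_lit 1969745514) (nat_lit 76) (nat_lit 52271110753) (nat_lit 13) (nat_lit 5) (nat_lit 15)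 (nat_lit 5) (nat_lit 14) (nat_lit 4) (nat_lit 495) (nat_lit 368) (nat_lit 337)) (XT.nd (nat_lit 78) (nat_lit 76) (nat_lit 0) (XT.lf (nat_lit 0) (nat_lit 20527683507) (nat_lit 152) (nat_lit 18735917161) (nat_lit 0) (nat_lit 17602403724) (nat_lit 12) (nat_lit 5) (nat_lit 14) (nat_lit 4) (nat_lit 12) (nat_lit 4) (nat_lit 496) (nat_lit 368) (nat_lit 336)) (XT.lf (nat_lit 0) (nat_lit 20972662049) (nat_lit 76) (nat_lit 20547189366) (nat_lit 76) (nat_lit 17584910592) (nat_lit 11) (nat_lit 4) (nat_lit 12) (nat_lit 5) (nat_lit 12) (nat_lit 4) (nat_lit 497) (nat_lit 368) (nat_lit 335)))) (XT.nd (nat_lit 59670) (nat_lit 0) (nat_lit 4332) (XT.nd (nat_lit 78) (nat_lit 0) (nat_lit 0) (XT.lf (nat_lit 0) (nat_lit 1032897424) (nat_lit 76) (nat_lit 952527862) (nat_lit 152) (nat_lit 59471814432) (nat_lit 9) (nat_lit 5) (nat_lit 10) (nat_lit 5) (nat_lit 11) (nat_lit 4) (nat_lit 498) (nat_lit 368) (nat_lit 334)) (XT.lf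 (nat_lit 0) (nat_lit 22480145229) (nat_lit 152) (nat_lit 21895332656) (nat_lit 0) (nat_lit 19537353885) (nat_lit 9) (nat_lit 5) (nat_lit 11) (nat_lit 4) (nat_lit 9) (nat_lit 4) (nat_lit 499) (nat_lit 368) (nat_lit 333))) (XT.nd (nat_lit 78) (nat_lit 228) (nat_lit 0) (XT.lf (nat_lit 0) (nat_lit 4422389386) (nat_lit 152) (nat_lit 700007947) (nat_lit 0) (nat_lit 4422389386) (nat_lit 69) (nat_lit 5) (nat_lit 71) (nat_lit 4) (nat_lit 69) (nat_lit 4) (nat_lit 462) (nat_lit 369) (nat_lit 369)) (XT.lf (nat_lit 0) (nat_lit 4183095038) (nat_lit 152) (nat_lit 11544214099) (nat_lit 0) (nat_lit 3867952666) (nat_lit 66) (nat_lit 5) (nat_lit 68) (nat_lit 4) (nat_lit 66) (nat_lit 4) (nat_lit 463) (nat_lit 369) (nat_lit 368)))))) (XT.nd (nat_lit 546) (nat_lit 912) (nat_lit 0) (XT.nd (nat_lit 234) (nat_lit 684) (nat_lit 0) (XT.nd (nat_lit 78) (nat_lit 380) (nat_lit 0) (XT.lf (nat_lit 0) (nat_lit 17537538908) (nat_lit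 76) (nat_lit 1600207562) (nat_lit 76) (nat_lit 984929597) (nat_lit 65) (nat_lit 4) (nat_lit 66) (nat_lit 5) (nat_lit 66) (nat_lit 4) (nat_lit 464) (nat_lit 369) (nat_lit 367)) (XT.nd (nat_lit 78) (nat_lit 152) (nat_lit 0) (XT.lf (nat_lit 0) (nat_lit 6419997083) (nat_lit 76) (nat_lit 7562204411) (nat_lit 76) (nat_lit 6687329278) (nat_lit 62) (nat_lit 4) (nat_lit 63) (nat_lit 5) (nat_lit 63) (nat_lit 4) (nat_lit 465) (nat_lit 369) (nat_lit 366)) (XT.lf (nat_lit 0) (nat_lit 8289880453) (nat_lit 152) (nat_lit 5766624961) (nat_lit 0) (nat_lit 7183882510) (nat_lit 60) (nat_lit 5) (nat_lit 62) (nat_lit 4) (nat_lit 60) (nat_lit 4) (nat_lit 466) (nat_lit 369) (nat_lit 365)))) (XT.nd (nat_lit 156) (nat_lit 380) (nat_lit 0) (XT.nd (nat_lit 78) (nat_lit 76) (nat_lit 0) (XT.lf (nat_lit 0) (nat_lit 2025459654) (nat_lit 152) (nat_lit 19096584652) (nat_lit 0) (nat_lit 714407922) (nat_lit 57) (nat_lit 5) (nat_lit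 59) (nat_lit 4) (nat_lit 57) (nat_lit 4) (nat_lit 467) (nat_lit 369) (nat_lit 364)) (XT.lf (nat_lit 0) (nat_lit 11214610056) (nat_lit 76) (nat_lit 6388629741) (nat_lit 76) (nat_lit 4851609129) (nat_lit 56) (nat_lit 4) (nat_lit 57) (nat_lit 5) (nat_lit 57) (nat_lit 4) (nat_lit 468) (nat_lit 369) (nat_lit 363))) (XT.nd (nat_lit 78) (nat_lit 228) (nat_lit 0) (XT.lf (nat_lit 0) (nat_lit 10654992612) (nat_lit 152) (nat_lit 3491911718) (nat_lit 0) (nat_lit 8953799343) (nat_lit 54) (nat_lit 5) (nat_lit 56) (nat_lit 4) (nat_lit 54) (nat_lit 4) (nat_lit 469) (nat_lit 369) (nat_lit 362)) (XT.lf (nat_lit 0) (nat_lit 3048193584) (nat_lit 152) (nat_lit 19523519322) (nat_lit 0) (nat_lit 1203354767) (nat_lit 51) (nat_lit 5) (nat_lit 53) (nat_lit 4) (nat_lit 51) (nat_lit 4) (nat_lit 470) (nat_lit 369) (nat_lit 361))))) (XT.nd (nat_lit 234) (nat_lit 456) (nat_lit 0) (XT.nd (nat_lit 78) (nat_lit 380) (nat_lit 0)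 (XT.lf (nat_lit 0) (nat_lit 11840646216) (nat_lit 76) (nat_lit 7332120442) (nat_lit 76) (nat_lit 5303286514) (nat_lit 50) (nat_lit 4) (nat_lit 51) (nat_lit 5) (nat_lit 51) (nat_lit 4) (nat_lit 471) (nat_lit 369) (nat_lit 360)) (XT.nd (nat_lit 78) (nat_lit 228) (nat_lit 0) (XT.lf (nat_lit 0) (nat_lit 10701296329) (nat_lit 152) (nat_lit 5945556267) (nat_lit 0) (nat_lit 8561425098) (nat_lit 48) (nat_lit 5) (nat_lit 50) (nat_lit 4) (nat_lit 48) (nat_lit 4) (nat_lit 472) (nat_lit 369) (nat_lit 359)) (XT.lf (nat_lit 0) (nat_lit 578553686) (nat_lit 76) (nat_lit 840388709) (nat_lit 152) (nat_lit 24555413656) (nat_lit 45) (nat_lit 5) (nat_lit 46) (nat_lit 5) (nat_lit 47) (nat_lit 4) (nat_lit 473) (nat_lit 369) (nat_lit 358)))) (XT.nd (nat_lit 156) (nat_lit 228) (nat_lit 0) (XT.nd (nat_lit 78) (nat_lit 152) (nat_lit 0) (XT.lf (nat_lit 0) (nat_lit 6851833081) (nat_lit 76) (nat_lit 11151205905) (nat_lit 76)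 (nat_lit 8766534161) (nat_lit 44) (nat_lit 4) (nat_lit 45) (nat_lit 5) (nat_lit 45) (nat_lit 4) (nat_lit 474) (nat_lit 369) (nat_lit 357)) (XT.lf (nat_lit 0) (nat_lit 7670258916) (nat_lit 152) (nat_lit 14715197435) (nat_lit 0) (nat_lit 5216515679) (nat_lit 42) (nat_lit 5) (nat_lit 44) (nat_lit 4) (nat_lit 42) (nat_lit 4) (nat_lit 475) (nat_lit 369) (nat_lit 356))) (XT.nd (nat_lit 78) (nat_lit 152) (nat_lit 0) (XT.lf (nat_lit 0) (nat_lit 18581045136) (nat_lit 76) (nat_lit 6237937668) (nat_lit 76) (nat_lit 3652263048) (nat_lit 41) (nat_lit 4) (nat_lit 42) (nat_lit 5) (nat_lit 42) (nat_lit 4) (nat_lit 476) (nat_lit 369) (nat_lit 355)) (XT.lf (nat_lit 0) (nat_lit 13246065242) (nat_lit 152) (nat_lit 5518314729) (nat_lit 0) (nat_lit 10613712275) (nat_lit 39) (nat_lit 5) (nat_lit 41) (nat_lit 4) (nat_lit 39) (nat_lit 4) (nat_lit 477) (nat_lit 369) (nat_lit 354))))))))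
noncomputable def xc7 : XT := (XT.nd (nat_lit 61386) (nat_lit 0) (nat_lit 836) (XT.nd (nat_lit 1014) (nat_lit 836) (nat_lit 0) (XT.nd (nat_lit 468) (nat_lit 684) (nat_lit 0) (XT.nd (nat_lit 234) (nat_lit 304) (nat_lit 0) (XT.nd (nat_lit 78) (nat_lit 304) (nat_lit 0) (XT.lf (nat_lit 0) (nat_lit 604954199) (nat_lit 152) (nat_lit 1520476188) (nat_lit 76) (nat_lit 28202644396) (nat_lit 37) (nat_lit 5) (nat_lit 39) (nat_lit 5) (nat_lit 38) (nat_lit 4) (nat_lit 478) (nat_lit 369) (nat_lit 353)) (XT.nd (nat_lit 78) (nat_lit 152) (nat_lit 0) (XT.lf (nat_lit 0) (nat_lit 1885590879) (nat_lit 76) (nat_lit 16103381892) (nat_lit 76) (nat_lit 13327477945) (nat_lit 35) (nat_lit 4) (nat_lit 36) (nat_lit 5) (nat_lit 36) (nat_lit 4) (nat_lit 479) (nat_lit 369) (nat_lit 352)) (XT.lf (nat_lit 0) (nat_lit 3830036551) (nat_lit 152) (nat_lit 27486895135) (nat_lit 0) (nat_lit 1035654447) (nat_lit 33) (nat_lit 5) (nat_lit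 35) (nat_lit 4) (nat_lit 33) (nat_lit 4) (nat_lit 480) (nat_lit 369) (nat_lit 351)))) (XT.nd (nat_lit 78) (nat_lit 228) (nat_lit 0) (XT.lf (nat_lit 0) (nat_lit 7096907130) (nat_lit 76) (nat_lit 14612232300) (nat_lit 76) (nat_lit 11723250456) (nat_lit 32) (nat_lit 4) (nat_lit 33) (nat_lit 5) (nat_lit 33) (nat_lit 4) (nat_lit 481) (nat_lit 369) (nat_lit 350)) (XT.nd (nat_lit 78) (nat_lit 76) (nat_lit 0) (XT.lf (nat_lit 0) (nat_lit 5806788462) (nat_lit 152) (nat_lit 25843022471) (nat_lit 0) (nat_lit 2914480855) (nat_lit 30) (nat_lit 5) (nat_lit 32) (nat_lit 4) (nat_lit 30) (nat_lit 4) (nat_lit 482) (nat_lit 369) (nat_lit 349)) (XT.lf (nat_lit 0) (nat_lit 9480879494) (nat_lit 76) (nat_lit 14620069309) (nat_lit 76) (nat_lit 11644456116) (nat_lit 29) (nat_lit 4) (nat_lit 30) (nat_lit 5) (nat_lit 30) (nat_lit 4) (nat_lit 483) (nat_lit 369) (nat_lit 348))))) (XT.nd (nat_lit 234) (nat_lit 304) (nat_lit 0)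 (XT.nd (nat_lit 78) (nat_lit 228) (nat_lit 0) (XT.lf (nat_lit 0) (nat_lit 6215476647) (nat_lit 152) (nat_lit 27518330517) (nat_lit 0) (nat_lit 3249503982) (nat_lit 27) (nat_lit 5) (nat_lit 29) (nat_lit 4) (nat_lit 27) (nat_lit 4) (nat_lit 484) (nat_lit 369) (nat_lit 347)) (XT.nd (nat_lit 78) (nat_lit 152) (nat_lit 0) (XT.lf (nat_lit 0) (nat_lit 8407843281) (nat_lit 76) (nat_lit 16453564398) (nat_lit 76) (nat_lit 13414231905) (nat_lit 26) (nat_lit 4) (nat_lit 27) (nat_lit 5) (nat_lit 27) (nat_lit 4) (nat_lit 485) (nat_lit 369) (nat_lit 346)) (XT.lf (nat_lit 0) (nat_lit 4715026962) (nat_lit 152) (nat_lit 33219731118) (nat_lit 0) (nat_lit 1696387161) (nat_lit 24) (nat_lit 5) (nat_lit 26) (nat_lit 4) (nat_lit 24) (nat_lit 4) (nat_lit 486) (nat_lit 369) (nat_lit 345)))) (XT.nd (nat_lit 156) (nat_lit 152) (nat_lit 0) (XT.nd (nat_lit 78) (nat_lit 76) (nat_lit 0) (XT.lf (nat_lit 0) (nat_lit 3124573571)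 (nat_lit 76) (nat_lit 20502252372) (nat_lit 76) (nat_lit 17419011090) (nat_lit 23) (nat_lit 4) (nat_lit 24) (nat_lit 5) (nat_lit 24) (nat_lit 4) (nat_lit 487) (nat_lit 369) (nat_lit 344)) (XT.lf (nat_lit 0) (nat_lit 930859863) (nat_lit 152) (nat_lit 1255120979) (nat_lit 76) (nat_lit 40345113012) (nat_lit 22) (nat_lit 5) (nat_lit 24) (nat_lit 5) (nat_lit 23) (nat_lit 4) (nat_lit 488) (nat_lit 369) (nat_lit 343))) (XT.nd (nat_lit 78) (nat_lit 76) (nat_lit 0) (XT.lf (nat_lit 0) (nat_lit 20031846882) (nat_lit 152) (nat_lit 7125990053) (nat_lit 0) (nat_lit 16921786736) (nat_lit 21) (nat_lit 5) (nat_lit 23) (nat_lit 4) (nat_lit 21) (nat_lit 4) (nat_lit 489) (nat_lit 369) (nat_lit 342)) (XT.lf (nat_lit 0) (nat_lit 31327159489) (nat_lit 76) (nat_lit 8771173636) (nat_lit 76) (nat_lit 5606933695) (nat_lit 20) (nat_lit 4) (nat_lit 21) (nat_lit 5) (nat_lit 21) (nat_lit 4) (nat_lit 490) (nat_lit 369) (nat_lit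 341)))))) (XT.nd (nat_lit 468) (nat_lit 228) (nat_lit 0) (XT.nd (nat_lit 234) (nat_lit 228) (nat_lit 0) (XT.nd (nat_lit 78) (nat_lit 228) (nat_lit 0) (XT.lf (nat_lit 0) (nat_lit 13576574665) (nat_lit 152) (nat_lit 23374579156) (nat_lit 0) (nat_lit 10454400155) (nat_lit 18) (nat_lit 5) (nat_lit 20) (nat_lit 4) (nat_lit 18) (nat_lit 4) (nat_lit 491) (nat_lit 369) (nat_lit 340)) (XT.nd (nat_lit 78) (nat_lit 152) (nat_lit 0) (XT.lf (nat_lit 0) (nat_lit 14989241674) (nat_lit 76) (nat_lit 18683870063) (nat_lit 76) (nat_lit 15513984222) (nat_lit 17) (nat_lit 4) (nat_lit 18) (nat_lit 5) (nat_lit 18) (nat_lit 4) (nat_lit 492) (nat_lit 369) (nat_lit 339)) (XT.lf (nat_lit 0) (nat_lit 3624549706) (nat_lit 152) (nat_lit 46929809530) (nat_lit 0) (nat_lit 502874752) (nat_lit 15) (nat_lit 5) (nat_lit 17) (nat_lit 4) (nat_lit 15) (nat_lit 4) (nat_lit 493) (nat_lit 369) (nat_lit 338)))) (XT.nd (nat_lit 78) (nat_lit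 228) (nat_lit 0) (XT.lf (nat_lit 0) (nat_lit 23644842817) (nat_lit 152) (nat_lit 8882904950) (nat_lit 0) (nat_lit 20481152732) (nat_lit 15) (nat_lit 5) (nat_lit 17) (nat_lit 4) (nat_lit 15) (nat_lit 4) (nat_lit 494) (nat_lit 369) (nat_lit 337)) (XT.nd (nat_lit 78) (nat_lit 152) (nat_lit 0) (XT.lf (nat_lit 0) (nat_lit 31094504832) (nat_lit 76) (nat_lit 13583497347) (nat_lit 76) (nat_lit 10379792854) (nat_lit 14) (nat_lit 4) (nat_lit 15) (nat_lit 5) (nat_lit 15) (nat_lit 4) (nat_lit 495) (nat_lit 369) (nat_lit 336)) (XT.lf (nat_lit 0) (nat_lit 9390146104) (nat_lit 152) (nat_lit 41572792310) (nat_lit 0) (nat_lit 6242754401) (nat_lit 12) (nat_lit 5) (nat_lit 14) (nat_lit 4) (nat_lit 12) (nat_lit 4) (nat_lit 496) (nat_lit 369) (nat_lit 335))))) (XT.nd (nat_lit 59592) (nat_lit 0) (nat_lit 4332) (XT.nd (nat_lit 78) (nat_lit 228) (nat_lit 0) (XT.lf (nat_lit 0) (nat_lit 30046025863) (nat_lit 152) (nat_lit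 2545116295) (nat_lit 0) (nat_lit 26863397024) (nat_lit 12) (nat_lit 5) (nat_lit 14) (nat_lit 4) (nat_lit 12) (nat_lit 4) (nat_lit 497) (nat_lit 369) (nat_lit 334)) (XT.nd (nat_lit 78) (nat_lit 152) (nat_lit 0) (XT.lf (nat_lit 0) (nat_lit 38657932755) (nat_lit 76) (nat_lit 13185411989) (nat_lit 76) (nat_lit 9969223974) (nat_lit 11) (nat_lit 4) (nat_lit 12) (nat_lit 5) (nat_lit 12) (nat_lit 4) (nat_lit 498) (nat_lit 369) (nat_lit 333)) (XT.lf (nat_lit 0) (nat_lit 10243630970) (nat_lit 152) (nat_lit 46951608694) (nat_lit 0) (nat_lit 7090088121) (nat_lit 9) (nat_lit 5) (nat_lit 11) (nat_lit 4) (nat_lit 9) (nat_lit 4) (nat_lit 499) (nat_lit 369) (nat_lit 332)))) (XT.nd (nat_lit 156) (nat_lit 380) (nat_lit 0) (XT.nd (nat_lit 78) (nat_lit 228) (nat_lit 0) (XT.lf (nat_lit 0) (nat_lit 8426054465) (nat_lit 76) (nat_lit 319723765) (nat_lit 76) (nat_lit 319723765) (nat_lit 74) (nat_lit 4) (nat_lit 75) (nat_lit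 5) (nat_lit 75) (nat_lit 4) (nat_lit 460) (nat_lit 370) (nat_lit 370)) (XT.lf (nat_lit 0) (nat_lit 7941055479) (nat_lit 76) (nat_lit 5506718616) (nat_lit 76) (nat_lit 5155667346) (nat_lit 71) (nat_lit 4) (nat_lit 72) (nat_lit 5) (nat_lit 72) (nat_lit 4) (nat_lit 461) (nat_lit 370) (nat_lit 369))) (XT.nd (nat_lit 78) (nat_lit 228) (nat_lit 0) (XT.lf (nat_lit 0) (nat_lit 8951136629) (nat_lit 152) (nat_lit 1859758337) (nat_lit 0) (nat_lit 8285713510) (nat_lit 69) (nat_lit 5) (nat_lit 71) (nat_lit 4) (nat_lit 69) (nat_lit 4) (nat_lit 462) (nat_lit 370) (nat_lit 368)) (XT.lf (nat_lit 0) (nat_lit 4029283665) (nat_lit 152) (nat_lit 12497415106) (nat_lit 0) (nat_lit 3083106209) (nat_lit 66) (nat_lit 5) (nat_lit 68) (nat_lit 4) (nat_lit 66) (nat_lit 4) (nat_lit 463) (nat_lit 370) (nat_lit 367))))))) (XT.nd (nat_lit 1014) (nat_lit 1596) (nat_lit 0) (XT.nd (nat_lit 468) (nat_lit 988) (nat_lit 0) (XT.nd (nat_lit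 234) (nat_lit 456) (nat_lit 0) (XT.nd (nat_lit 78) (nat_lit 380) (nat_lit 0) (XT.lf (nat_lit 0) (nat_lit 16113719678) (nat_lit 76) (nat_lit 2631343727) (nat_lit 76) (nat_lit 1399322850) (nat_lit 65) (nat_lit 4) (nat_lit 66) (nat_lit 5) (nat_lit 66) (nat_lit 4) (nat_lit 464) (nat_lit 370) (nat_lit 366)) (XT.nd (nat_lit 78) (nat_lit 152) (nat_lit 0) (XT.lf (nat_lit 0) (nat_lit 4451346139) (nat_lit 76) (nat_lit 8854281326) (nat_lit 76) (nat_lit 7393841804) (nat_lit 62) (nat_lit 4) (nat_lit 63) (nat_lit 5) (nat_lit 63) (nat_lit 4) (nat_lit 465) (nat_lit 370) (nat_lit 365)) (XT.lf (nat_lit 0) (nat_lit 7335842624) (nat_lit 152) (nat_lit 8268972800) (nat_lit 0) (nat_lit 5673554833) (nat_lit 60) (nat_lit 5) (nat_lit 62) (nat_lit 4) (nat_lit 60) (nat_lit 4) (nat_lit 466) (nat_lit 370) (nat_lit 364)))) (XT.nd (nat_lit 78) (nat_lit 304) (nat_lit 0) (XT.lf (nat_lit 0) (nat_lit 769985778) (nat_lit 152) (nat_lit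 331964606) (nat_lit 76) (nat_lit 20781255283) (nat_lit 58) (nat_lit 5) (nat_lit 60) (nat_lit 5) (nat_lit 59) (nat_lit 4) (nat_lit 467) (nat_lit 370) (nat_lit 363)) (XT.nd (nat_lit 78) (nat_lit 152) (nat_lit 0) (XT.lf (nat_lit 0) (nat_lit 7593172669) (nat_lit 76) (nat_lit 8485771979) (nat_lit 76) (nat_lit 6430723003) (nat_lit 56) (nat_lit 4) (nat_lit 57) (nat_lit 5) (nat_lit 57) (nat_lit 4) (nat_lit 468) (nat_lit 370) (nat_lit 362)) (XT.lf (nat_lit 0) (nat_lit 8828023640) (nat_lit 152) (nat_lit 7702475070) (nat_lit 0) (nat_lit 6633839747) (nat_lit 54) (nat_lit 5) (nat_lit 56) (nat_lit 4) (nat_lit 54) (nat_lit 4) (nat_lit 469) (nat_lit 370) (nat_lit 361))))) (XT.nd (nat_lit 234) (nat_lit 532) (nat_lit 0) (XT.nd (nat_lit 78) (nat_lit 304) (nat_lit 0) (XT.lf (nat_lit 0) (nat_lit 882222929) (nat_lit 152) (nat_lit 592786310) (nat_lit 76) (nat_lit 22373606761) (nat_lit 52) (nat_lit 5) (nat_lit 54) (nat_lit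 5) (nat_lit 53) (nat_lit 4) (nat_lit 470) (nat_lit 370) (nat_lit 360)) (XT.nd (nat_lit 78) (nat_lit 152) (nat_lit 0) (XT.lf (nat_lit 0) (nat_lit 6394177899) (nat_lit 76) (nat_lit 10326752142) (nat_lit 76) (nat_lit 7837247966) (nat_lit 50) (nat_lit 4) (nat_lit 51) (nat_lit 5) (nat_lit 51) (nat_lit 4) (nat_lit 471) (nat_lit 370) (nat_lit 359)) (XT.lf (nat_lit 0) (nat_lit 7917824960) (nat_lit 152) (nat_lit 12043475024) (nat_lit 0) (nat_lit 5338802470) (nat_lit 48) (nat_lit 5) (nat_lit 50) (nat_lit 4) (nat_lit 48) (nat_lit 4) (nat_lit 472) (nat_lit 370) (nat_lit 358)))) (XT.nd (nat_lit 156) (nat_lit 304) (nat_lit 0) (XT.nd (nat_lit 78) (nat_lit 152) (nat_lit 0) (XT.lf (nat_lit 0) (nat_lit 19919857921) (nat_lit 76) (nat_lit 4444154920) (nat_lit 76) (nat_lit 1710819910) (nat_lit 47) (nat_lit 4) (nat_lit 48) (nat_lit 5) (nat_lit 48) (nat_lit 4) (nat_lit 473) (nat_lit 370) (nat_lit 357)) (XT.lf (nat_lit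 0) (nat_lit 14538129767) (nat_lit 152) (nat_lit 601747142) (nat_lit 0) (nat_lit 11741722666) (nat_lit 45) (nat_lit 5) (nat_lit 47) (nat_lit 4) (nat_lit 45) (nat_lit 4) (nat_lit 474) (nat_lit 370) (nat_lit 356))) (XT.nd (nat_lit 78) (nat_lit 76) (nat_lit 0) (XT.lf (nat_lit 0) (nat_lit 3834703500) (nat_lit 152) (nat_lit 22902365658) (nat_lit 0) (nat_lit 987813767) (nat_lit 42) (nat_lit 5) (nat_lit 44) (nat_lit 4) (nat_lit 42) (nat_lit 4) (nat_lit 475) (nat_lit 370) (nat_lit 355)) (XT.lf (nat_lit 0) (nat_lit 9825168876) (nat_lit 76) (nat_lit 10875012156) (nat_lit 76) (nat_lit 7902473486) (nat_lit 41) (nat_lit 4) (nat_lit 42) (nat_lit 5) (nat_lit 42) (nat_lit 4) (nat_lit 476) (nat_lit 370) (nat_lit 354)))))) (XT.nd (nat_lit 546) (nat_lit 760) (nat_lit 0) (XT.nd (nat_lit 234) (nat_lit 456) (nat_lit 0) (XT.nd (nat_lit 78) (nat_lit 228) (nat_lit 0) (XT.lf (nat_lit 0) (nat_lit 8745255654) (nat_lit 152)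 (nat_lit 15032361822) (nat_lit 0) (nat_lit 5743115535) (nat_lit 39) (nat_lit 5) (nat_lit 41) (nat_lit 4) (nat_lit 39) (nat_lit 4) (nat_lit 477) (nat_lit 370) (nat_lit 353)) (XT.nd (nat_lit 78) (nat_lit 152) (nat_lit 0) (XT.lf (nat_lit 0) (nat_lit 18719682041) (nat_lit 76) (nat_lit 7436326301) (nat_lit 76) (nat_lit 4323538329) (nat_lit 38) (nat_lit 4) (nat_lit 39) (nat_lit 5) (nat_lit 39) (nat_lit 4) (nat_lit 478) (nat_lit 370) (nat_lit 352)) (XT.lf (nat_lit 0) (nat_lit 12781061448) (nat_lit 152) (nat_lit 9042394294) (nat_lit 0) (nat_lit 9656627583) (nat_lit 36) (nat_lit 5) (nat_lit 38) (nat_lit 4) (nat_lit 36) (nat_lit 4) (nat_lit 479) (nat_lit 370) (nat_lit 351)))) (XT.nd (nat_lit 156) (nat_lit 228) (nat_lit 0) (XT.nd (nat_lit 78) (nat_lit 152) (nat_lit 0) (XT.lf (nat_lit 0) (nat_lit 25689404848) (nat_lit 76) (nat_lit 5029897543) (nat_lit 76) (nat_lit 1808025946) (nat_lit 35) (nat_lit 4) (nat_lit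 36) (nat_lit 5) (nat_lit 36) (nat_lit 4) (nat_lit 480) (nat_lit 370) (nat_lit 350)) (XT.lf (nat_lit 0) (nat_lit 15736284661) (nat_lit 152) (nat_lit 5364312304) (nat_lit 0) (nat_lit 12518158993) (nat_lit 33) (nat_lit 5) (nat_lit 35) (nat_lit 4) (nat_lit 33) (nat_lit 4) (nat_lit 481) (nat_lit 370) (nat_lit 349))) (XT.nd (nat_lit 78) (nat_lit 152) (nat_lit 0) (XT.lf (nat_lit 0) (nat_lit 30275145362) (nat_lit 76) (nat_lit 3895744675) (nat_lit 76) (nat_lit 591814254) (nat_lit 32) (nat_lit 4) (nat_lit 33) (nat_lit 5) (nat_lit 33) (nat_lit 4) (nat_lit 482) (nat_lit 370) (nat_lit 348)) (XT.lf (nat_lit 0) (nat_lit 17362209917) (nat_lit 152) (nat_lit 4517157121) (nat_lit 0) (nat_lit 14075171826) (nat_lit 30) (nat_lit 5) (nat_lit 32) (nat_lit 4) (nat_lit 30) (nat_lit 4) (nat_lit 483) (nat_lit 370) (nat_lit 347))))) (XT.nd (nat_lit 234) (nat_lit 456) (nat_lit 0) (XT.nd (nat_lit 78) (nat_lit 228) (nat_lit 0)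 (XT.lf (nat_lit 0) (nat_lit 31924599040) (nat_lit 76) (nat_lit 4321232718) (nat_lit 76) (nat_lit 958634005) (nat_lit 29) (nat_lit 4) (nat_lit 30) (nat_lit 5) (nat_lit 30) (nat_lit 4) (nat_lit 484) (nat_lit 370) (nat_lit 346)) (XT.nd (nat_lit 78) (nat_lit 76) (nat_lit 0) (XT.lf (nat_lit 0) (nat_lit 17359547130) (nat_lit 152) (nat_lit 7122895736) (nat_lit 0) (nat_lit 14025021684) (nat_lit 27) (nat_lit 5) (nat_lit 29) (nat_lit 4) (nat_lit 27) (nat_lit 4) (nat_lit 485) (nat_lit 370) (nat_lit 345)) (XT.lf (nat_lit 0) (nat_lit 29975515338) (nat_lit 76) (nat_lit 6649668697) (nat_lit 76) (nat_lit 3248603725) (nat_lit 26) (nat_lit 4) (nat_lit 27) (nat_lit 5) (nat_lit 27) (nat_lit 4) (nat_lit 486) (nat_lit 370) (nat_lit 344)))) (XT.nd (nat_lit 156) (nat_lit 228) (nat_lit 0) (XT.nd (nat_lit 78) (nat_lit 76) (nat_lit 0) (XT.lf (nat_lit 0) (nat_lit 15369384959) (nat_lit 152) (nat_lit 13924892762) (nat_lit 0)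 (nat_lit 12005854911) (nat_lit 24) (nat_lit 5) (nat_lit 26) (nat_lit 4) (nat_lit 24) (nat_lit 4) (nat_lit 487) (nat_lit 370) (nat_lit 343)) (XT.lf (nat_lit 0) (nat_lit 23635932647) (nat_lit 76) (nat_lit 11290383081) (nat_lit 76) (nat_lit 7868257585) (nat_lit 23) (nat_lit 4) (nat_lit 24) (nat_lit 5) (nat_lit 24) (nat_lit 4) (nat_lit 488) (nat_lit 370) (nat_lit 342))) (XT.nd (nat_lit 78) (nat_lit 76) (nat_lit 0) (XT.lf (nat_lit 0) (nat_lit 10962562033) (nat_lit 152) (nat_lit 25809591159) (nat_lit 0) (nat_lit 7585930301) (nat_lit 21) (nat_lit 5) (nat_lit 23) (nat_lit 4) (nat_lit 21) (nat_lit 4) (nat_lit 489) (nat_lit 370) (nat_lit 341)) (XT.lf (nat_lit 0) (nat_lit 11960977730) (nat_lit 76) (nat_lit 18730553063) (nat_lit 76) (nat_lit 15302321526) (nat_lit 20) (nat_lit 4) (nat_lit 21) (nat_lit 5) (nat_lit 21) (nat_lit 4) (nat_lit 490) (nat_lit 370) (nat_lit 340))))))))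
noncomputable def xc8 : XT := (XT.nd (nat_lit 61230) (nat_lit 0) (nat_lit 0) (XT.nd (nat_lit 60216) (nat_lit 0) (nat_lit 2584) (XT.nd (nat_lit 468) (nat_lit 228) (nat_lit 0) (XT.nd (nat_lit 234) (nat_lit 228) (nat_lit 0) (XT.nd (nat_lit 78) (nat_lit 76) (nat_lit 0) (XT.lf (nat_lit 0) (nat_lit 3627185187) (nat_lit 152) (nat_lit 43831952457) (nat_lit 0) (nat_lit 251093723) (nat_lit 18) (nat_lit 5) (nat_lit 20) (nat_lit 4) (nat_lit 18) (nat_lit 4) (nat_lit 491) (nat_lit 370) (nat_lit 339)) (XT.nd (nat_lit 78) (nat_lit 76) (nat_lit 0) (XT.lf (nat_lit 0) (nat_lit 23434059090) (nat_lit 152) (nat_lit 6053876030) (nat_lit 0) (nat_lit 20012528263) (nat_lit 18) (nat_lit 5) (nat_lit 20) (nat_lit 4) (nat_lit 18) (nat_lit 4) (nat_lit 492) (nat_lit 370) (nat_lit 338)) (XT.lf (nat_lit 0) (nat_lit 33698139983) (nat_lit 76) (nat_lit 10572841278) (nat_lit 76) (nat_lit 7108034868) (nat_lit 17) (nat_lit 4) (nat_lit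 18) (nat_lit 5) (nat_lit 18) (nat_lit 4) (nat_lit 493) (nat_lit 370) (nat_lit 337)))) (XT.nd (nat_lit 78) (nat_lit 76) (nat_lit 0) (XT.lf (nat_lit 0) (nat_lit 12634247486) (nat_lit 152) (nat_lit 31480643143) (nat_lit 0) (nat_lit 9230343358) (nat_lit 15) (nat_lit 5) (nat_lit 17) (nat_lit 4) (nat_lit 15) (nat_lit 4) (nat_lit 494) (nat_lit 370) (nat_lit 336)) (XT.nd (nat_lit 78) (nat_lit 0) (nat_lit 0) (XT.lf (nat_lit 0) (nat_lit 7772871147) (nat_lit 76) (nat_lit 25536998350) (nat_lit 76) (nat_lit 22094985261) (nat_lit 14) (nat_lit 4) (nat_lit 15) (nat_lit 5) (nat_lit 15) (nat_lit 4) (nat_lit 495) (nat_lit 370) (nat_lit 335)) (XT.lf (nat_lit 0) (nat_lit 49111656675) (nat_lit 76) (nat_lit 5966175335) (nat_lit 76) (nat_lit 2487867997) (nat_lit 14) (nat_lit 4) (nat_lit 15) (nat_lit 5) (nat_lit 15) (nat_lit 4) (nat_lit 496) (nat_lit 370) (nat_lit 334))))) (XT.nd (nat_lit 59436) (nat_lit 0) (nat_lit 4560)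 (XT.nd (nat_lit 78) (nat_lit 76) (nat_lit 0) (XT.lf (nat_lit 0) (nat_lit 17947232629) (nat_lit 152) (nat_lit 27339435045) (nat_lit 0) (nat_lit 14536676038) (nat_lit 12) (nat_lit 5) (nat_lit 14) (nat_lit 4) (nat_lit 12) (nat_lit 4) (nat_lit 497) (nat_lit 370) (nat_lit 333)) (XT.nd (nat_lit 78) (nat_lit 0) (nat_lit 0) (XT.lf (nat_lit 0) (nat_lit 13118859209) (nat_lit 76) (nat_lit 26258030846) (nat_lit 76) (nat_lit 22815513134) (nat_lit 11) (nat_lit 4) (nat_lit 12) (nat_lit 5) (nat_lit 12) (nat_lit 4) (nat_lit 498) (nat_lit 370) (nat_lit 332)) (XT.lf (nat_lit 0) (nat_lit 55680750121) (nat_lit 76) (nat_lit 6235488171) (nat_lit 76) (nat_lit 2762531298) (nat_lit 11) (nat_lit 4) (nat_lit 12) (nat_lit 5) (nat_lit 12) (nat_lit 4) (nat_lit 499) (nat_lit 370) (nat_lit 331)))) (XT.nd (nat_lit 156) (nat_lit 304) (nat_lit 0) (XT.nd (nat_lit 78) (nat_lit 228) (nat_lit 0) (XT.lf (nat_lit 0) (nat_lit 3879720716)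 (nat_lit 152) (nat_lit 855484547) (nat_lit 0) (nat_lit 3879720716) (nat_lit 78) (nat_lit 5) (nat_lit 80) (nat_lit 4) (nat_lit 78) (nat_lit 4) (nat_lit 458) (nat_lit 371) (nat_lit 371)) (XT.lf (nat_lit 0) (nat_lit 3843517232) (nat_lit 152) (nat_lit 10367007283) (nat_lit 0) (nat_lit 3463855284) (nat_lit 75) (nat_lit 5) (nat_lit 77) (nat_lit 4) (nat_lit 75) (nat_lit 4) (nat_lit 459) (nat_lit 371) (nat_lit 370))) (XT.nd (nat_lit 78) (nat_lit 228) (nat_lit 0) (XT.lf (nat_lit 0) (nat_lit 16415666986) (nat_lit 76) (nat_lit 1231649947) (nat_lit 76) (nat_lit 490405191) (nat_lit 74) (nat_lit 4) (nat_lit 75) (nat_lit 5) (nat_lit 75) (nat_lit 4) (nat_lit 460) (nat_lit 371) (nat_lit 369)) (XT.lf (nat_lit 0) (nat_lit 7035987688) (nat_lit 76) (nat_lit 6317663630) (nat_lit 76) (nat_lit 5263673984) (nat_lit 71) (nat_lit 4) (nat_lit 72) (nat_lit 5) (nat_lit 72) (nat_lit 4) (nat_lit 461) (nat_lit 371) (nat_lit 368))))))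 (XT.nd (nat_lit 468) (nat_lit 1064) (nat_lit 0) (XT.nd (nat_lit 234) (nat_lit 456) (nat_lit 0) (XT.nd (nat_lit 78) (nat_lit 304) (nat_lit 0) (XT.lf (nat_lit 0) (nat_lit 8605040312) (nat_lit 152) (nat_lit 3240080288) (nat_lit 0) (nat_lit 7272609733) (nat_lit 69) (nat_lit 5) (nat_lit 71) (nat_lit 4) (nat_lit 69) (nat_lit 4) (nat_lit 462) (nat_lit 371) (nat_lit 367)) (XT.nd (nat_lit 78) (nat_lit 76) (nat_lit 0) (XT.lf (nat_lit 0) (nat_lit 3406152329) (nat_lit 152) (nat_lit 14406086646) (nat_lit 0) (nat_lit 1826686986) (nat_lit 66) (nat_lit 5) (nat_lit 68) (nat_lit 4) (nat_lit 66) (nat_lit 4) (nat_lit 463) (nat_lit 371) (nat_lit 366)) (XT.lf (nat_lit 0) (nat_lit 13736921209) (nat_lit 76) (nat_lit 4147701648) (nat_lit 76) (nat_lit 2296004475) (nat_lit 65) (nat_lit 4) (nat_lit 66) (nat_lit 5) (nat_lit 66) (nat_lit 4) (nat_lit 464) (nat_lit 371) (nat_lit 365)))) (XT.nd (nat_lit 78) (nat_lit 228) (nat_lit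 0) (XT.lf (nat_lit 0) (nat_lit 1492512037) (nat_lit 76) (nat_lit 10650717605) (nat_lit 76) (nat_lit 8601236456) (nat_lit 62) (nat_lit 4) (nat_lit 63) (nat_lit 5) (nat_lit 63) (nat_lit 4) (nat_lit 465) (nat_lit 371) (nat_lit 364)) (XT.nd (nat_lit 78) (nat_lit 76) (nat_lit 0) (XT.lf (nat_lit 0) (nat_lit 5886805285) (nat_lit 152) (nat_lit 11780596969) (nat_lit 0) (nat_lit 3664269817) (nat_lit 60) (nat_lit 5) (nat_lit 62) (nat_lit 4) (nat_lit 60) (nat_lit 4) (nat_lit 466) (nat_lit 371) (nat_lit 363)) (XT.lf (nat_lit 0) (nat_lit 17558570033) (nat_lit 76) (nat_lit 3414876257) (nat_lit 76) (nat_lit 970676080) (nat_lit 59) (nat_lit 4) (nat_lit 60) (nat_lit 5) (nat_lit 60) (nat_lit 4) (nat_lit 467) (nat_lit 371) (nat_lit 362))))) (XT.nd (nat_lit 234) (nat_lit 608) (nat_lit 0) (XT.nd (nat_lit 78) (nat_lit 228) (nat_lit 0) (XT.lf (nat_lit 0) (nat_lit 2922275051) (nat_lit 76) (nat_lit 11118033808) (nat_lit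 76) (nat_lit 8540063493) (nat_lit 56) (nat_lit 4) (nat_lit 57) (nat_lit 5) (nat_lit 57) (nat_lit 4) (nat_lit 468) (nat_lit 371) (nat_lit 361)) (XT.nd (nat_lit 78) (nat_lit 76) (nat_lit 0) (XT.lf (nat_lit 0) (nat_lit 6476059552) (nat_lit 152) (nat_lit 12984445211) (nat_lit 0) (nat_lit 3783660786) (nat_lit 54) (nat_lit 5) (nat_lit 56) (nat_lit 4) (nat_lit 54) (nat_lit 4) (nat_lit 469) (nat_lit 371) (nat_lit 360)) (XT.lf (nat_lit 0) (nat_lit 17469743437) (nat_lit 76) (nat_lit 4669781946) (nat_lit 76) (nat_lit 1796892738) (nat_lit 53) (nat_lit 4) (nat_lit 54) (nat_lit 5) (nat_lit 54) (nat_lit 4) (nat_lit 470) (nat_lit 371) (nat_lit 359)))) (XT.nd (nat_lit 156) (nat_lit 228) (nat_lit 0) (XT.nd (nat_lit 78) (nat_lit 228) (nat_lit 0) (XT.lf (nat_lit 0) (nat_lit 13723247657) (nat_lit 152) (nat_lit 166714230) (nat_lit 0) (nat_lit 10767145844) (nat_lit 51) (nat_lit 5) (nat_lit 53) (nat_lit 4) (nat_lit 51)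 (nat_lit 4) (nat_lit 471) (nat_lit 371) (nat_lit 358)) (XT.lf (nat_lit 0) (nat_lit 4574574977) (nat_lit 152) (nat_lit 19284301882) (nat_lit 0) (nat_lit 1550260697) (nat_lit 48) (nat_lit 5) (nat_lit 50) (nat_lit 4) (nat_lit 48) (nat_lit 4) (nat_lit 472) (nat_lit 371) (nat_lit 357))) (XT.nd (nat_lit 78) (nat_lit 152) (nat_lit 0) (XT.lf (nat_lit 0) (nat_lit 12137855771) (nat_lit 76) (nat_lit 8612698680) (nat_lit 76) (nat_lit 5441420096) (nat_lit 47) (nat_lit 4) (nat_lit 48) (nat_lit 5) (nat_lit 48) (nat_lit 4) (nat_lit 473) (nat_lit 371) (nat_lit 356)) (XT.lf (nat_lit 0) (nat_lit 10564823079) (nat_lit 152) (nat_lit 9094437136) (nat_lit 0) (nat_lit 7350022508) (nat_lit 45) (nat_lit 5) (nat_lit 47) (nat_lit 4) (nat_lit 45) (nat_lit 4) (nat_lit 474) (nat_lit 371) (nat_lit 355))))))) (XT.nd (nat_lit 1014) (nat_lit 988) (nat_lit 0) (XT.nd (nat_lit 468) (nat_lit 836) (nat_lit 0) (XT.nd (nat_lit 234) (nat_lit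 304) (nat_lit 0) (XT.nd (nat_lit 78) (nat_lit 380) (nat_lit 0) (XT.lf (nat_lit 0) (nat_lit 23458915841) (nat_lit 76) (nat_lit 3874454063) (nat_lit 76) (nat_lit 530235088) (nat_lit 44) (nat_lit 4) (nat_lit 45) (nat_lit 5) (nat_lit 45) (nat_lit 4) (nat_lit 475) (nat_lit 371) (nat_lit 354)) (XT.nd (nat_lit 78) (nat_lit 228) (nat_lit 0) (XT.lf (nat_lit 0) (nat_lit 15980689758) (nat_lit 152) (nat_lit 157577513) (nat_lit 0) (nat_lit 12614209566) (nat_lit 42) (nat_lit 5) (nat_lit 44) (nat_lit 4) (nat_lit 42) (nat_lit 4) (nat_lit 476) (nat_lit 371) (nat_lit 353)) (XT.lf (nat_lit 0) (nat_lit 3627038031) (nat_lit 152) (nat_lit 25807276685) (nat_lit 0) (nat_lit 247962807) (nat_lit 39) (nat_lit 5) (nat_lit 41) (nat_lit 4) (nat_lit 39) (nat_lit 4) (nat_lit 477) (nat_lit 371) (nat_lit 352)))) (XT.nd (nat_lit 78) (nat_lit 228) (nat_lit 0) (XT.lf (nat_lit 0) (nat_lit 7358296559) (nat_lit 76) (nat_lit 13387996994)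 (nat_lit 76) (nat_lit 9903542862) (nat_lit 38) (nat_lit 4) (nat_lit 39) (nat_lit 5) (nat_lit 39) (nat_lit 4) (nat_lit 478) (nat_lit 371) (nat_lit 351)) (XT.nd (nat_lit 78) (nat_lit 76) (nat_lit 0) (XT.lf (nat_lit 0) (nat_lit 6954528720) (nat_lit 152) (nat_lit 21233990412) (nat_lit 0) (nat_lit 3474125810) (nat_lit 36) (nat_lit 5) (nat_lit 38) (nat_lit 4) (nat_lit 36) (nat_lit 4) (nat_lit 479) (nat_lit 371) (nat_lit 350)) (XT.lf (nat_lit 0) (nat_lit 12897035521) (nat_lit 76) (nat_lit 11697501225) (nat_lit 76) (nat_lit 8124300474) (nat_lit 35) (nat_lit 4) (nat_lit 36) (nat_lit 5) (nat_lit 36) (nat_lit 4) (nat_lit 480) (nat_lit 371) (nat_lit 349))))) (XT.nd (nat_lit 234) (nat_lit 456) (nat_lit 0) (XT.nd (nat_lit 78) (nat_lit 228) (nat_lit 0) (XT.lf (nat_lit 0) (nat_lit 9173663833) (nat_lit 152) (nat_lit 19030778592) (nat_lit 0) (nat_lit 5618732137) (nat_lit 33) (nat_lit 5) (nat_lit 35) (nat_lit 4) (nat_lit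 33) (nat_lit 4) (nat_lit 481) (nat_lit 371) (nat_lit 348)) (XT.nd (nat_lit 78) (nat_lit 152) (nat_lit 0) (XT.lf (nat_lit 0) (nat_lit 15991938374) (nat_lit 76) (nat_lit 11310505025) (nat_lit 76) (nat_lit 7673854517) (nat_lit 32) (nat_lit 4) (nat_lit 33) (nat_lit 5) (nat_lit 33) (nat_lit 4) (nat_lit 482) (nat_lit 371) (nat_lit 347)) (XT.lf (nat_lit 0) (nat_lit 10033396900) (nat_lit 152) (nat_lit 19721219561) (nat_lit 0) (nat_lit 6427107629) (nat_lit 30) (nat_lit 5) (nat_lit 32) (nat_lit 4) (nat_lit 30) (nat_lit 4) (nat_lit 483) (nat_lit 371) (nat_lit 346)))) (XT.nd (nat_lit 156) (nat_lit 228) (nat_lit 0) (XT.nd (nat_lit 78) (nat_lit 152) (nat_lit 0) (XT.lf (nat_lit 0) (nat_lit 16086090268) (nat_lit 76) (nat_lit 12516620965) (nat_lit 76) (nat_lit 8838369198) (nat_lit 29) (nat_lit 4) (nat_lit 30) (nat_lit 5) (nat_lit 30) (nat_lit 4) (nat_lit 484) (nat_lit 371) (nat_lit 345)) (XT.lf (nat_lit 0) (nat_lit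 9231996445) (nat_lit 152) (nat_lit 23932063944) (nat_lit 0) (nat_lit 5594338698) (nat_lit 27) (nat_lit 5) (nat_lit 29) (nat_lit 4) (nat_lit 27) (nat_lit 4) (nat_lit 485) (nat_lit 371) (nat_lit 344))) (XT.nd (nat_lit 78) (nat_lit 152) (nat_lit 0) (XT.lf (nat_lit 0) (nat_lit 12512378470) (nat_lit 76) (nat_lit 15661542063) (nat_lit 76) (nat_lit 11960513339) (nat_lit 26) (nat_lit 4) (nat_lit 27) (nat_lit 5) (nat_lit 27) (nat_lit 4) (nat_lit 486) (nat_lit 371) (nat_lit 343)) (XT.lf (nat_lit 0) (nat_lit 6407990618) (nat_lit 152) (nat_lit 32411721793) (nat_lit 0) (nat_lit 2756163400) (nat_lit 24) (nat_lit 5) (nat_lit 26) (nat_lit 4) (nat_lit 24) (nat_lit 4) (nat_lit 487) (nat_lit 371) (nat_lit 342)))))) (XT.nd (nat_lit 546) (nat_lit 380) (nat_lit 0) (XT.nd (nat_lit 234) (nat_lit 380) (nat_lit 0) (XT.nd (nat_lit 78) (nat_lit 152) (nat_lit 0) (XT.lf (nat_lit 0) (nat_lit 4473711770) (nat_lit 76) (nat_lit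 21157129845) (nat_lit 76) (nat_lit 17449497438) (nat_lit 23) (nat_lit 4) (nat_lit 24) (nat_lit 5) (nat_lit 24) (nat_lit 4) (nat_lit 488) (nat_lit 371) (nat_lit 341)) (XT.nd (nat_lit 78) (nat_lit 76) (nat_lit 0) (XT.lf (nat_lit 0) (nat_lit 1167879245) (nat_lit 152) (nat_lit 1389985336) (nat_lit 76) (nat_lit 42100760052) (nat_lit 22) (nat_lit 5) (nat_lit 24) (nat_lit 5) (nat_lit 23) (nat_lit 4) (nat_lit 489) (nat_lit 371) (nat_lit 340)) (XT.lf (nat_lit 0) (nat_lit 20599371403) (nat_lit 152) (nat_lit 8804960688) (nat_lit 0) (nat_lit 16898985815) (nat_lit 21) (nat_lit 5) (nat_lit 23) (nat_lit 4) (nat_lit 21) (nat_lit 4) (nat_lit 490) (nat_lit 371) (nat_lit 339)))) (XT.nd (nat_lit 156) (nat_lit 152) (nat_lit 0) (XT.nd (nat_lit 78) (nat_lit 152) (nat_lit 0) (XT.lf (nat_lit 0) (nat_lit 30329710989) (nat_lit 76) (nat_lit 10723105956) (nat_lit 76) (nat_lit 6975917823) (nat_lit 20) (nat_lit 4) (nat_lit 21)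 (nat_lit 5) (nat_lit 21) (nat_lit 4) (nat_lit 491) (nat_lit 371) (nat_lit 338)) (XT.lf (nat_lit 0) (nat_lit 12550121296) (nat_lit 152) (nat_lit 28414567142) (nat_lit 0) (nat_lit 8868798982) (nat_lit 18) (nat_lit 5) (nat_lit 20) (nat_lit 4) (nat_lit 18) (nat_lit 4) (nat_lit 492) (nat_lit 371) (nat_lit 337))) (XT.nd (nat_lit 78) (nat_lit 76) (nat_lit 0) (XT.lf (nat_lit 0) (nat_lit 10621146941) (nat_lit 76) (nat_lit 22412023350) (nat_lit 76) (nat_lit 18689486195) (nat_lit 17) (nat_lit 4) (nat_lit 18) (nat_lit 5) (nat_lit 18) (nat_lit 4) (nat_lit 493) (nat_lit 371) (nat_lit 336)) (XT.lf (nat_lit 0) (nat_lit 847718046) (nat_lit 152) (nat_lit 2040921751) (nat_lit 76) (nat_lit 50816506719) (nat_lit 16) (nat_lit 5) (nat_lit 18) (nat_lit 5) (nat_lit 17) (nat_lit 4) (nat_lit 494) (nat_lit 371) (nat_lit 335))))) (XT.nd (nat_lit 234) (nat_lit 76) (nat_lit 0) (XT.nd (nat_lit 78) (nat_lit 228) (nat_lit 0) (XT.lf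 (nat_lit 0) (nat_lit 21273642667) (nat_lit 152) (nat_lit 16913489936) (nat_lit 0) (nat_lit 17585125713) (nat_lit 15) (nat_lit 5) (nat_lit 17) (nat_lit 4) (nat_lit 15) (nat_lit 4) (nat_lit 495) (nat_lit 371) (nat_lit 334)) (XT.nd (nat_lit 78) (nat_lit 152) (nat_lit 0) (XT.lf (nat_lit 0) (nat_lit 23840016230) (nat_lit 76) (nat_lit 18912422667) (nat_lit 76) (nat_lit 15189339763) (nat_lit 14) (nat_lit 4) (nat_lit 15) (nat_lit 5) (nat_lit 15) (nat_lit 4) (nat_lit 496) (nat_lit 371) (nat_lit 333)) (XT.lf (nat_lit 0) (nat_lit 4993063008) (nat_lit 152) (nat_lit 53878580471) (nat_lit 0) (nat_lit 1346458291) (nat_lit 12) (nat_lit 5) (nat_lit 14) (nat_lit 4) (nat_lit 12) (nat_lit 4) (nat_lit 497) (nat_lit 371) (nat_lit 332)))) (XT.nd (nat_lit 59202) (nat_lit 0) (nat_lit 5244) (XT.nd (nat_lit 78) (nat_lit 76) (nat_lit 0) (XT.lf (nat_lit 0) (nat_lit 26180267022) (nat_lit 152) (nat_lit 13910944775) (nat_lit 0)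 (nat_lit 22503223144) (nat_lit 12) (nat_lit 5) (nat_lit 14) (nat_lit 4) (nat_lit 12) (nat_lit 4) (nat_lit 498) (nat_lit 371) (nat_lit 331)) (XT.lf (nat_lit 0) (nat_lit 28146155244) (nat_lit 76) (nat_lit 20324080562) (nat_lit 76) (nat_lit 16618047005) (nat_lit 11) (nat_lit 4) (nat_lit 12) (nat_lit 5) (nat_lit 12) (nat_lit 4) (nat_lit 499) (nat_lit 371) (nat_lit 330))) (XT.nd (nat_lit 78) (nat_lit 304) (nat_lit 0) (XT.lf (nat_lit 0) (nat_lit 6990057181) (nat_lit 152) (nat_lit 601410686) (nat_lit 152) (nat_lit 601410686) (nat_lit 84) (nat_lit 4) (nat_lit 86) (nat_lit 5) (nat_lit 86) (nat_lit 4) (nat_lit 456) (nat_lit 372) (nat_lit 372)) (XT.lf (nat_lit 0) (nat_lit 6283547918) (nat_lit 152) (nat_lit 5470801409) (nat_lit 152) (nat_lit 5047878880) (nat_lit 80) (nat_lit 4) (nat_lit 82) (nat_lit 5) (nat_lit 82) (nat_lit 4) (nat_lit 457) (nat_lit 372) (nat_lit 371))))))))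
noncomputable def xc9 : XT := (XT.nd (nat_lit 2028) (nat_lit 1368) (nat_lit 0) (XT.nd (nat_lit 1014) (nat_lit 1748) (nat_lit 0) (XT.nd (nat_lit 468) (nat_lit 988) (nat_lit 0) (XT.nd (nat_lit 234) (nat_lit 608) (nat_lit 0) (XT.nd (nat_lit 78) (nat_lit 304) (nat_lit 0) (XT.lf (nat_lit 0) (nat_lit 7952050567) (nat_lit 152) (nat_lit 2133948065) (nat_lit 0) (nat_lit 7150394362) (nat_lit 78) (nat_lit 5) (nat_lit 80) (nat_lit 4) (nat_lit 78) (nat_lit 4) (nat_lit 458) (nat_lit 372) (nat_lit 370)) (XT.nd (nat_lit 78) (nat_lit 76) (nat_lit 0) (XT.lf (nat_lit 0) (nat_lit 3791764713) (nat_lit 152) (nat_lit 11244254333) (nat_lit 0) (nat_lit 2651874911) (nat_lit 75) (nat_lit 5) (nat_lit 77) (nat_lit 4) (nat_lit 75) (nat_lit 4) (nat_lit 459) (nat_lit 372) (nat_lit 369)) (XT.lf (nat_lit 0) (nat_lit 15105302005) (nat_lit 76) (nat_lit 2268422446) (nat_lit 76) (nat_lit 784168065) (nat_lit 74) (nat_lit 4) (nat_lit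 75) (nat_lit 5) (nat_lit 75) (nat_lit 4) (nat_lit 460) (nat_lit 372) (nat_lit 368)))) (XT.nd (nat_lit 78) (nat_lit 380) (nat_lit 0) (XT.lf (nat_lit 0) (nat_lit 5223697181) (nat_lit 76) (nat_lit 7590433211) (nat_lit 76) (nat_lit 5830995689) (nat_lit 71) (nat_lit 4) (nat_lit 72) (nat_lit 5) (nat_lit 72) (nat_lit 4) (nat_lit 461) (nat_lit 372) (nat_lit 367)) (XT.nd (nat_lit 78) (nat_lit 228) (nat_lit 0) (XT.lf (nat_lit 0) (nat_lit 7805665782) (nat_lit 152) (nat_lit 5544268228) (nat_lit 0) (nat_lit 5803055289) (nat_lit 69) (nat_lit 5) (nat_lit 71) (nat_lit 4) (nat_lit 69) (nat_lit 4) (nat_lit 462) (nat_lit 372) (nat_lit 366)) (XT.lf (nat_lit 0) (nat_lit 2312217385) (nat_lit 152) (nat_lit 17274773175) (nat_lit 0) (nat_lit 95703523) (nat_lit 66) (nat_lit 5) (nat_lit 68) (nat_lit 4) (nat_lit 66) (nat_lit 4) (nat_lit 463) (nat_lit 372) (nat_lit 365))))) (XT.nd (nat_lit 234) (nat_lit 532) (nat_lit 0) (XT.nd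 (nat_lit 78) (nat_lit 380) (nat_lit 0) (XT.lf (nat_lit 0) (nat_lit 10401484457) (nat_lit 76) (nat_lit 6152891700) (nat_lit 76) (nat_lit 3677109428) (nat_lit 65) (nat_lit 4) (nat_lit 66) (nat_lit 5) (nat_lit 66) (nat_lit 4) (nat_lit 464) (nat_lit 372) (nat_lit 364)) (XT.nd (nat_lit 78) (nat_lit 228) (nat_lit 0) (XT.lf (nat_lit 0) (nat_lit 10515921559) (nat_lit 152) (nat_lit 2415477331) (nat_lit 0) (nat_lit 7872519067) (nat_lit 63) (nat_lit 5) (nat_lit 65) (nat_lit 4) (nat_lit 63) (nat_lit 4) (nat_lit 465) (nat_lit 372) (nat_lit 363)) (XT.lf (nat_lit 0) (nat_lit 3939318347) (nat_lit 152) (nat_lit 16309858479) (nat_lit 0) (nat_lit 1151243451) (nat_lit 60) (nat_lit 5) (nat_lit 62) (nat_lit 4) (nat_lit 60) (nat_lit 4) (nat_lit 466) (nat_lit 372) (nat_lit 362)))) (XT.nd (nat_lit 156) (nat_lit 304) (nat_lit 0) (XT.nd (nat_lit 78) (nat_lit 152) (nat_lit 0) (XT.lf (nat_lit 0) (nat_lit 12540182577) (nat_lit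 76) (nat_lit 6239628610) (nat_lit 76) (nat_lit 3240444467) (nat_lit 59) (nat_lit 4) (nat_lit 60) (nat_lit 5) (nat_lit 60) (nat_lit 4) (nat_lit 467) (nat_lit 372) (nat_lit 361)) (XT.lf (nat_lit 0) (nat_lit 11509482323) (nat_lit 152) (nat_lit 2754386293) (nat_lit 0) (nat_lit 8402452645) (nat_lit 57) (nat_lit 5) (nat_lit 59) (nat_lit 4) (nat_lit 57) (nat_lit 4) (nat_lit 468) (nat_lit 372) (nat_lit 360))) (XT.nd (nat_lit 78) (nat_lit 76) (nat_lit 0) (XT.lf (nat_lit 0) (nat_lit 3593500433) (nat_lit 152) (nat_lit 19350398261) (nat_lit 0) (nat_lit 396476322) (nat_lit 54) (nat_lit 5) (nat_lit 56) (nat_lit 4) (nat_lit 54) (nat_lit 4) (nat_lit 469) (nat_lit 372) (nat_lit 359)) (XT.lf (nat_lit 0) (nat_lit 10588616132) (nat_lit 76) (nat_lit 8410336082) (nat_lit 76) (nat_lit 5041416311) (nat_lit 53) (nat_lit 4) (nat_lit 54) (nat_lit 5) (nat_lit 54) (nat_lit 4) (nat_lit 470) (nat_lit 372) (nat_lit 358)))))) (XT.nd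 (nat_lit 468) (nat_lit 912) (nat_lit 0) (XT.nd (nat_lit 234) (nat_lit 380) (nat_lit 0) (XT.nd (nat_lit 78) (nat_lit 304) (nat_lit 0) (XT.lf (nat_lit 0) (nat_lit 10243303226) (nat_lit 152) (nat_lit 7714087597) (nat_lit 0) (nat_lit 6813565437) (nat_lit 51) (nat_lit 5) (nat_lit 53) (nat_lit 4) (nat_lit 51) (nat_lit 4) (nat_lit 471) (nat_lit 372) (nat_lit 357)) (XT.nd (nat_lit 78) (nat_lit 152) (nat_lit 0) (XT.lf (nat_lit 0) (nat_lit 712103529) (nat_lit 152) (nat_lit 2135540856) (nat_lit 76) (nat_lit 22686542703) (nat_lit 49) (nat_lit 5) (nat_lit 51) (nat_lit 5) (nat_lit 50) (nat_lit 4) (nat_lit 472) (nat_lit 372) (nat_lit 356)) (XT.lf (nat_lit 0) (nat_lit 3191524264) (nat_lit 76) (nat_lit 13375945725) (nat_lit 76) (nat_lit 9759172903) (nat_lit 47) (nat_lit 4) (nat_lit 48) (nat_lit 5) (nat_lit 48) (nat_lit 4) (nat_lit 473) (nat_lit 372) (nat_lit 355)))) (XT.nd (nat_lit 78) (nat_lit 228) (nat_lit 0)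 (XT.lf (nat_lit 0) (nat_lit 6007794657) (nat_lit 152) (nat_lit 18780161534) (nat_lit 0) (nat_lit 2366946329) (nat_lit 45) (nat_lit 5) (nat_lit 47) (nat_lit 4) (nat_lit 45) (nat_lit 4) (nat_lit 474) (nat_lit 372) (nat_lit 354)) (XT.nd (nat_lit 78) (nat_lit 152) (nat_lit 0) (XT.lf (nat_lit 0) (nat_lit 13216341720) (nat_lit 76) (nat_lit 9282653883) (nat_lit 76) (nat_lit 5518549932) (nat_lit 44) (nat_lit 4) (nat_lit 45) (nat_lit 5) (nat_lit 45) (nat_lit 4) (nat_lit 475) (nat_lit 372) (nat_lit 353)) (XT.lf (nat_lit 0) (nat_lit 10754221198) (nat_lit 152) (nat_lit 11177915805) (nat_lit 0) (nat_lit 6985784054) (nat_lit 42) (nat_lit 5) (nat_lit 44) (nat_lit 4) (nat_lit 42) (nat_lit 4) (nat_lit 476) (nat_lit 372) (nat_lit 352))))) (XT.nd (nat_lit 234) (nat_lit 532) (nat_lit 0) (XT.nd (nat_lit 78) (nat_lit 304) (nat_lit 0) (XT.lf (nat_lit 0) (nat_lit 21931352663) (nat_lit 76) (nat_lit 5902047286) (nat_lit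 76) (nat_lit 2025069867) (nat_lit 41) (nat_lit 4) (nat_lit 42) (nat_lit 5) (nat_lit 42) (nat_lit 4) (nat_lit 477) (nat_lit 372) (nat_lit 351)) (XT.nd (nat_lit 78) (nat_lit 152) (nat_lit 0) (XT.lf (nat_lit 0) (nat_lit 14754144856) (nat_lit 152) (nat_lit 5194126610) (nat_lit 0) (nat_lit 10889728245) (nat_lit 39) (nat_lit 5) (nat_lit 41) (nat_lit 4) (nat_lit 39) (nat_lit 4) (nat_lit 478) (nat_lit 372) (nat_lit 350)) (XT.lf (nat_lit 0) (nat_lit 538495407) (nat_lit 152) (nat_lit 2866852710) (nat_lit 76) (nat_lit 28457932312) (nat_lit 37) (nat_lit 5) (nat_lit 39) (nat_lit 5) (nat_lit 38) (nat_lit 4) (nat_lit 479) (nat_lit 372) (nat_lit 349)))) (XT.nd (nat_lit 156) (nat_lit 304) (nat_lit 0) (XT.nd (nat_lit 78) (nat_lit 152) (nat_lit 0) (XT.lf (nat_lit 0) (nat_lit 17826491375) (nat_lit 152) (nat_lit 1210088109) (nat_lit 0) (nat_lit 13893453851) (nat_lit 36) (nat_lit 5) (nat_lit 38) (nat_lit 4) (nat_lit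 36) (nat_lit 4) (nat_lit 480) (nat_lit 372) (nat_lit 348)) (XT.lf (nat_lit 0) (nat_lit 1957108777) (nat_lit 152) (nat_lit 44277082) (nat_lit 76) (nat_lit 32046202837) (nat_lit 34) (nat_lit 5) (nat_lit 36) (nat_lit 5) (nat_lit 35) (nat_lit 4) (nat_lit 481) (nat_lit 372) (nat_lit 347))) (XT.nd (nat_lit 78) (nat_lit 152) (nat_lit 0) (XT.lf (nat_lit 0) (nat_lit 321485314) (nat_lit 76) (nat_lit 19433590320) (nat_lit 76) (nat_lit 15455561033) (nat_lit 32) (nat_lit 4) (nat_lit 33) (nat_lit 5) (nat_lit 33) (nat_lit 4) (nat_lit 482) (nat_lit 372) (nat_lit 346)) (XT.lf (nat_lit 0) (nat_lit 58250447) (nat_lit 76) (nat_lit 1966577683) (nat_lit 152) (nat_lit 34404840344) (nat_lit 30) (nat_lit 5) (nat_lit 31) (nat_lit 5) (nat_lit 32) (nat_lit 4) (nat_lit 483) (nat_lit 372) (nat_lit 345))))))) (XT.nd (nat_lit 1014) (nat_lit 228) (nat_lit 0) (XT.nd (nat_lit 468) (nat_lit 608) (nat_lit 0) (XT.nd (nat_lit 234) (nat_lit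 304) (nat_lit 0) (XT.nd (nat_lit 78) (nat_lit 228) (nat_lit 0) (XT.lf (nat_lit 0) (nat_lit 20266268155) (nat_lit 152) (nat_lit 1168987505) (nat_lit 0) (nat_lit 16263605590) (nat_lit 30) (nat_lit 5) (nat_lit 32) (nat_lit 4) (nat_lit 30) (nat_lit 4) (nat_lit 484) (nat_lit 372) (nat_lit 344)) (XT.nd (nat_lit 78) (nat_lit 76) (nat_lit 0) (XT.lf (nat_lit 0) (nat_lit 444624307) (nat_lit 152) (nat_lit 3165347327) (nat_lit 76) (nat_lit 35419512427) (nat_lit 28) (nat_lit 5) (nat_lit 30) (nat_lit 5) (nat_lit 29) (nat_lit 4) (nat_lit 485) (nat_lit 372) (nat_lit 343)) (XT.lf (nat_lit 0) (nat_lit 19051805230) (nat_lit 152) (nat_lit 6321755311) (nat_lit 0) (nat_lit 15042000782) (nat_lit 27) (nat_lit 5) (nat_lit 29) (nat_lit 4) (nat_lit 27) (nat_lit 4) (nat_lit 486) (nat_lit 372) (nat_lit 342)))) (XT.nd (nat_lit 78) (nat_lit 228) (nat_lit 0) (XT.lf (nat_lit 0) (nat_lit 31405812872) (nat_lit 76) (nat_lit 7264985070)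 (nat_lit 76) (nat_lit 3197701278) (nat_lit 26) (nat_lit 4) (nat_lit 27) (nat_lit 5) (nat_lit 27) (nat_lit 4) (nat_lit 487) (nat_lit 372) (nat_lit 341)) (XT.nd (nat_lit 78) (nat_lit 76) (nat_lit 0) (XT.lf (nat_lit 0) (nat_lit 15728374296) (nat_lit 152) (nat_lit 15929878415) (nat_lit 0) (nat_lit 11726407282) (nat_lit 24) (nat_lit 5) (nat_lit 26) (nat_lit 4) (nat_lit 24) (nat_lit 4) (nat_lit 488) (nat_lit 372) (nat_lit 340)) (XT.lf (nat_lit 0) (nat_lit 22280924319) (nat_lit 76) (nat_lit 13371896468) (nat_lit 76) (nat_lit 9319312503) (nat_lit 23) (nat_lit 4) (nat_lit 24) (nat_lit 5) (nat_lit 24) (nat_lit 4) (nat_lit 489) (nat_lit 372) (nat_lit 339))))) (XT.nd (nat_lit 234) (nat_lit 304) (nat_lit 0) (XT.nd (nat_lit 78) (nat_lit 152) (nat_lit 0) (XT.lf (nat_lit 0) (nat_lit 9841892640) (nat_lit 152) (nat_lit 30930643205) (nat_lit 0) (nat_lit 5860542558) (nat_lit 21) (nat_lit 5) (nat_lit 23) (nat_lit 4)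 (nat_lit 21) (nat_lit 4) (nat_lit 490) (nat_lit 372) (nat_lit 338)) (XT.nd (nat_lit 78) (nat_lit 76) (nat_lit 0) (XT.lf (nat_lit 0) (nat_lit 7495254802) (nat_lit 76) (nat_lit 22449835976) (nat_lit 76) (nat_lit 18423912042) (nat_lit 20) (nat_lit 4) (nat_lit 21) (nat_lit 5) (nat_lit 21) (nat_lit 4) (nat_lit 491) (nat_lit 372) (nat_lit 337)) (XT.lf (nat_lit 0) (nat_lit 903579720) (nat_lit 152) (nat_lit 2234108387) (nat_lit 76) (nat_lit 47052027012) (nat_lit 19) (nat_lit 5) (nat_lit 21) (nat_lit 5) (nat_lit 20) (nat_lit 4) (nat_lit 492) (nat_lit 372) (nat_lit 336)))) (XT.nd (nat_lit 156) (nat_lit 152) (nat_lit 0) (XT.nd (nat_lit 78) (nat_lit 76) (nat_lit 0) (XT.lf (nat_lit 0) (nat_lit 21106495251) (nat_lit 152) (nat_lit 13863428889) (nat_lit 0) (nat_lit 17117364166) (nat_lit 18) (nat_lit 5) (nat_lit 20) (nat_lit 4) (nat_lit 18) (nat_lit 4) (nat_lit 493) (nat_lit 372) (nat_lit 335)) (XT.lf (nat_lit 0)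 (nat_lit 26666240548) (nat_lit 76) (nat_lit 15719021418) (nat_lit 76) (nat_lit 11692507257) (nat_lit 17) (nat_lit 4) (nat_lit 18) (nat_lit 5) (nat_lit 18) (nat_lit 4) (nat_lit 494) (nat_lit 372) (nat_lit 334))) (XT.nd (nat_lit 78) (nat_lit 0) (nat_lit 0) (XT.lf (nat_lit 0) (nat_lit 8466095281) (nat_lit 152) (nat_lit 43174729983) (nat_lit 0) (nat_lit 4522292280) (nat_lit 15) (nat_lit 5) (nat_lit 17) (nat_lit 4) (nat_lit 15) (nat_lit 4) (nat_lit 495) (nat_lit 372) (nat_lit 333)) (XT.lf (nat_lit 0) (nat_lit 29600529160) (nat_lit 152) (nat_lit 3118633491) (nat_lit 0) (nat_lit 25623806205) (nat_lit 15) (nat_lit 5) (nat_lit 17) (nat_lit 4) (nat_lit 15) (nat_lit 4) (nat_lit 496) (nat_lit 372) (nat_lit 332)))))) (XT.nd (nat_lit 59436) (nat_lit 0) (nat_lit 4028) (XT.nd (nat_lit 59124) (nat_lit 0) (nat_lit 5168) (XT.nd (nat_lit 78) (nat_lit 152) (nat_lit 0) (XT.lf (nat_lit 0) (nat_lit 39252880103) (nat_lit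 76) (nat_lit 12691217859) (nat_lit 76) (nat_lit 8683142568) (nat_lit 14) (nat_lit 4) (nat_lit 15) (nat_lit 5) (nat_lit 15) (nat_lit 4) (nat_lit 497) (nat_lit 372) (nat_lit 331)) (XT.nd (nat_lit 78) (nat_lit 0) (nat_lit 0) (XT.lf (nat_lit 0) (nat_lit 12229071169) (nat_lit 152) (nat_lit 42481593282) (nat_lit 0) (nat_lit 8308746257) (nat_lit 12) (nat_lit 5) (nat_lit 14) (nat_lit 4) (nat_lit 12) (nat_lit 4) (nat_lit 498) (nat_lit 372) (nat_lit 330)) (XT.lf (nat_lit 0) (nat_lit 34142951813) (nat_lit 152) (nat_lit 1186571811) (nat_lit 0) (nat_lit 30195017683) (nat_lit 12) (nat_lit 5) (nat_lit 14) (nat_lit 4) (nat_lit 12) (nat_lit 4) (nat_lit 499) (nat_lit 372) (nat_lit 329)))) (XT.nd (nat_lit 156) (nat_lit 456) (nat_lit 0) (XT.nd (nat_lit 78) (nat_lit 304) (nat_lit 0) (XT.lf (nat_lit 0) (nat_lit 3056336338) (nat_lit 152) (nat_lit 1682810362) (nat_lit 0) (nat_lit 3056336338) (nat_lit 90) (nat_lit 5) (nat_lit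 92) (nat_lit 4) (nat_lit 90) (nat_lit 4) (nat_lit 454) (nat_lit 373) (nat_lit 373)) (XT.lf (nat_lit 0) (nat_lit 2748253813) (nat_lit 152) (nat_lit 10944586580) (nat_lit 0) (nat_lit 2290863098) (nat_lit 86) (nat_lit 5) (nat_lit 88) (nat_lit 4) (nat_lit 86) (nat_lit 4) (nat_lit 455) (nat_lit 373) (nat_lit 372))) (XT.nd (nat_lit 78) (nat_lit 304) (nat_lit 0) (XT.lf (nat_lit 0) (nat_lit 13578855346) (nat_lit 152) (nat_lit 1853077893) (nat_lit 152) (nat_lit 960076973) (nat_lit 84) (nat_lit 4) (nat_lit 86) (nat_lit 5) (nat_lit 86) (nat_lit 4) (nat_lit 456) (nat_lit 373) (nat_lit 371)) (XT.lf (nat_lit 0) (nat_lit 5451133994) (nat_lit 152) (nat_lit 6316891509) (nat_lit 152) (nat_lit 5047116963) (nat_lit 80) (nat_lit 4) (nat_lit 82) (nat_lit 5) (nat_lit 82) (nat_lit 4) (nat_lit 457) (nat_lit 373) (nat_lit 370))))) (XT.nd (nat_lit 234) (nat_lit 684) (nat_lit 0) (XT.nd (nat_lit 78) (nat_lit 304) (nat_lit 0)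 (XT.lf (nat_lit 0) (nat_lit 7728680358) (nat_lit 152) (nat_lit 3403892069) (nat_lit 0) (nat_lit 6123459245) (nat_lit 78) (nat_lit 5) (nat_lit 80) (nat_lit 4) (nat_lit 78) (nat_lit 4) (nat_lit 458) (nat_lit 373) (nat_lit 369)) (XT.nd (nat_lit 78) (nat_lit 76) (nat_lit 0) (XT.lf (nat_lit 0) (nat_lit 3308474506) (nat_lit 152) (nat_lit 13000837116) (nat_lit 0) (nat_lit 1405642826) (nat_lit 75) (nat_lit 5) (nat_lit 77) (nat_lit 4) (nat_lit 75) (nat_lit 4) (nat_lit 459) (nat_lit 373) (nat_lit 368)) (XT.lf (nat_lit 0) (nat_lit 12917894072) (nat_lit 76) (nat_lit 3752233534) (nat_lit 76) (nat_lit 1521435588) (nat_lit 74) (nat_lit 4) (nat_lit 75) (nat_lit 5) (nat_lit 75) (nat_lit 4) (nat_lit 460) (nat_lit 373) (nat_lit 367)))) (XT.nd (nat_lit 156) (nat_lit 304) (nat_lit 0) (XT.nd (nat_lit 78) (nat_lit 152) (nat_lit 0) (XT.lf (nat_lit 0) (nat_lit 2499868982) (nat_lit 76) (nat_lit 9328057760) (nat_lit 76) (nat_lit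 6858983226) (nat_lit 71) (nat_lit 4) (nat_lit 72) (nat_lit 5) (nat_lit 72) (nat_lit 4) (nat_lit 461) (nat_lit 373) (nat_lit 366)) (XT.lf (nat_lit 0) (nat_lit 6551109767) (nat_lit 152) (nat_lit 8777808320) (nat_lit 0) (nat_lit 3873551240) (nat_lit 69) (nat_lit 5) (nat_lit 71) (nat_lit 4) (nat_lit 69) (nat_lit 4) (nat_lit 462) (nat_lit 373) (nat_lit 365))) (XT.nd (nat_lit 78) (nat_lit 152) (nat_lit 0) (XT.lf (nat_lit 0) (nat_lit 778965120) (nat_lit 152) (nat_lit 1363305794) (nat_lit 76) (nat_lit 17597919912) (nat_lit 67) (nat_lit 5) (nat_lit 69) (nat_lit 5) (nat_lit 68) (nat_lit 4) (nat_lit 463) (nat_lit 373) (nat_lit 364)) (XT.lf (nat_lit 0) (nat_lit 6099467906) (nat_lit 76) (nat_lit 8651688146) (nat_lit 76) (nat_lit 5545926056) (nat_lit 65) (nat_lit 4) (nat_lit 66) (nat_lit 5) (nat_lit 66) (nat_lit 4) (nat_lit 464) (nat_lit 373) (nat_lit 363))))))))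
noncomputable def xc10 : XT := (XT.nd (nat_lit 2028) (nat_lit 836) (nat_lit 0) (XT.nd (nat_lit 1014) (nat_lit 1368) (nat_lit 0) (XT.nd (nat_lit 468) (nat_lit 912) (nat_lit 0) (XT.nd (nat_lit 234) (nat_lit 456) (nat_lit 0) (XT.nd (nat_lit 78) (nat_lit 304) (nat_lit 0) (XT.lf (nat_lit 0) (nat_lit 8420114587) (nat_lit 152) (nat_lit 7281346299) (nat_lit 0) (nat_lit 5176496937) (nat_lit 63) (nat_lit 5) (nat_lit 65) (nat_lit 4) (nat_lit 63) (nat_lit 4) (nat_lit 465) (nat_lit 373) (nat_lit 362)) (XT.nd (nat_lit 78) (nat_lit 152) (nat_lit 0) (XT.lf (nat_lit 0) (nat_lit 1510954064) (nat_lit 152) (nat_lit 393823425) (nat_lit 76) (nat_lit 19579334794) (nat_lit 61) (nat_lit 5) (nat_lit 63) (nat_lit 5) (nat_lit 62) (nat_lit 4) (nat_lit 466) (nat_lit 373) (nat_lit 361)) (XT.lf (nat_lit 0) (nat_lit 6491905499) (nat_lit 76) (nat_lit 9590708390) (nat_lit 76) (nat_lit 6029399367) (nat_lit 59) (nat_lit 4) (nat_lit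 60) (nat_lit 5) (nat_lit 60) (nat_lit 4) (nat_lit 467) (nat_lit 373) (nat_lit 360)))) (XT.nd (nat_lit 78) (nat_lit 304) (nat_lit 0) (XT.lf (nat_lit 0) (nat_lit 8491788011) (nat_lit 152) (nat_lit 9427289266) (nat_lit 0) (nat_lit 4848301279) (nat_lit 57) (nat_lit 5) (nat_lit 59) (nat_lit 4) (nat_lit 57) (nat_lit 4) (nat_lit 468) (nat_lit 373) (nat_lit 359)) (XT.nd (nat_lit 78) (nat_lit 152) (nat_lit 0) (XT.lf (nat_lit 0) (nat_lit 240811192) (nat_lit 152) (nat_lit 3331692540) (nat_lit 76) (nat_lit 19878672347) (nat_lit 55) (nat_lit 5) (nat_lit 57) (nat_lit 5) (nat_lit 56) (nat_lit 4) (nat_lit 469) (nat_lit 373) (nat_lit 358)) (XT.lf (nat_lit 0) (nat_lit 2604972862) (nat_lit 76) (nat_lit 12714486450) (nat_lit 76) (nat_lit 8841514879) (nat_lit 53) (nat_lit 4) (nat_lit 54) (nat_lit 5) (nat_lit 54) (nat_lit 4) (nat_lit 470) (nat_lit 373) (nat_lit 357))))) (XT.nd (nat_lit 234) (nat_lit 532) (nat_lit 0)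 (XT.nd (nat_lit 78) (nat_lit 228) (nat_lit 0) (XT.lf (nat_lit 0) (nat_lit 6211346415) (nat_lit 152) (nat_lit 16390685579) (nat_lit 0) (nat_lit 2299806609) (nat_lit 51) (nat_lit 5) (nat_lit 53) (nat_lit 4) (nat_lit 51) (nat_lit 4) (nat_lit 471) (nat_lit 373) (nat_lit 356)) (XT.nd (nat_lit 78) (nat_lit 152) (nat_lit 0) (XT.lf (nat_lit 0) (nat_lit 14200311863) (nat_lit 76) (nat_lit 7764297707) (nat_lit 76) (nat_lit 3708592917) (nat_lit 50) (nat_lit 4) (nat_lit 51) (nat_lit 5) (nat_lit 51) (nat_lit 4) (nat_lit 472) (nat_lit 373) (nat_lit 355)) (XT.lf (nat_lit 0) (nat_lit 11871515459) (nat_lit 152) (nat_lit 6805004457) (nat_lit 0) (nat_lit 7800637036) (nat_lit 48) (nat_lit 5) (nat_lit 50) (nat_lit 4) (nat_lit 48) (nat_lit 4) (nat_lit 473) (nat_lit 373) (nat_lit 354)))) (XT.nd (nat_lit 156) (nat_lit 228) (nat_lit 0) (XT.nd (nat_lit 78) (nat_lit 152) (nat_lit 0) (XT.lf (nat_lit 0) (nat_lit 910785679) (nat_lit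 152) (nat_lit 2348936784) (nat_lit 76) (nat_lit 24057445477) (nat_lit 46) (nat_lit 5) (nat_lit 48) (nat_lit 5) (nat_lit 47) (nat_lit 4) (nat_lit 474) (nat_lit 373) (nat_lit 353)) (XT.lf (nat_lit 0) (nat_lit 1750806631) (nat_lit 76) (nat_lit 15316005496) (nat_lit 76) (nat_lit 11123054417) (nat_lit 44) (nat_lit 4) (nat_lit 45) (nat_lit 5) (nat_lit 45) (nat_lit 4) (nat_lit 475) (nat_lit 373) (nat_lit 352))) (XT.nd (nat_lit 78) (nat_lit 76) (nat_lit 0) (XT.lf (nat_lit 0) (nat_lit 4913885845) (nat_lit 152) (nat_lit 23453809333) (nat_lit 0) (nat_lit 734519279) (nat_lit 42) (nat_lit 5) (nat_lit 44) (nat_lit 4) (nat_lit 42) (nat_lit 4) (nat_lit 476) (nat_lit 373) (nat_lit 351)) (XT.lf (nat_lit 0) (nat_lit 9077318991) (nat_lit 76) (nat_lit 12628401557) (nat_lit 76) (nat_lit 8345663301) (nat_lit 41) (nat_lit 4) (nat_lit 42) (nat_lit 5) (nat_lit 42) (nat_lit 4) (nat_lit 477) (nat_lit 373) (nat_lit 350))))))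 (XT.nd (nat_lit 468) (nat_lit 684) (nat_lit 0) (XT.nd (nat_lit 234) (nat_lit 304) (nat_lit 0) (XT.nd (nat_lit 78) (nat_lit 228) (nat_lit 0) (XT.lf (nat_lit 0) (nat_lit 8197715948) (nat_lit 152) (nat_lit 18901660133) (nat_lit 0) (nat_lit 3944135865) (nat_lit 39) (nat_lit 5) (nat_lit 41) (nat_lit 4) (nat_lit 39) (nat_lit 4) (nat_lit 478) (nat_lit 373) (nat_lit 349)) (XT.nd (nat_lit 78) (nat_lit 152) (nat_lit 0) (XT.lf (nat_lit 0) (nat_lit 14700152784) (nat_lit 76) (nat_lit 10861128556) (nat_lit 76) (nat_lit 6516518210) (nat_lit 38) (nat_lit 4) (nat_lit 39) (nat_lit 5) (nat_lit 39) (nat_lit 4) (nat_lit 479) (nat_lit 373) (nat_lit 348)) (XT.lf (nat_lit 0) (nat_lit 10524327373) (nat_lit 152) (nat_lit 16411245193) (nat_lit 0) (nat_lit 6222088699) (nat_lit 36) (nat_lit 5) (nat_lit 38) (nat_lit 4) (nat_lit 36) (nat_lit 4) (nat_lit 480) (nat_lit 373) (nat_lit 347)))) (XT.nd (nat_lit 78) (nat_lit 228) (nat_lit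 0) (XT.lf (nat_lit 0) (nat_lit 18210012850) (nat_lit 76) (nat_lit 10228641366) (nat_lit 76) (nat_lit 5846240429) (nat_lit 35) (nat_lit 4) (nat_lit 36) (nat_lit 5) (nat_lit 36) (nat_lit 4) (nat_lit 481) (nat_lit 373) (nat_lit 346)) (XT.nd (nat_lit 78) (nat_lit 76) (nat_lit 0) (XT.lf (nat_lit 0) (nat_lit 11672054196) (nat_lit 152) (nat_lit 16446212542) (nat_lit 0) (nat_lit 7343174632) (nat_lit 33) (nat_lit 5) (nat_lit 35) (nat_lit 4) (nat_lit 33) (nat_lit 4) (nat_lit 482) (nat_lit 373) (nat_lit 345)) (XT.lf (nat_lit 0) (nat_lit 19114421381) (nat_lit 76) (nat_lit 10987712962) (nat_lit 76) (nat_lit 6588241616) (nat_lit 32) (nat_lit 4) (nat_lit 33) (nat_lit 5) (nat_lit 33) (nat_lit 4) (nat_lit 483) (nat_lit 373) (nat_lit 344))))) (XT.nd (nat_lit 234) (nat_lit 304) (nat_lit 0) (XT.nd (nat_lit 78) (nat_lit 228) (nat_lit 0) (XT.lf (nat_lit 0) (nat_lit 11374031259) (nat_lit 152) (nat_lit 19562241656) (nat_lit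 0) (nat_lit 7037427748) (nat_lit 30) (nat_lit 5) (nat_lit 32) (nat_lit 4) (nat_lit 30) (nat_lit 4) (nat_lit 484) (nat_lit 373) (nat_lit 343)) (XT.nd (nat_lit 78) (nat_lit 152) (nat_lit 0) (XT.lf (nat_lit 0) (nat_lit 16822641181) (nat_lit 76) (nat_lit 13445136439) (nat_lit 76) (nat_lit 9046369017) (nat_lit 29) (nat_lit 4) (nat_lit 30) (nat_lit 5) (nat_lit 30) (nat_lit 4) (nat_lit 485) (nat_lit 373) (nat_lit 342)) (XT.lf (nat_lit 0) (nat_lit 9310092092) (nat_lit 152) (nat_lit 26423593403) (nat_lit 0) (nat_lit 4981964766) (nat_lit 27) (nat_lit 5) (nat_lit 29) (nat_lit 4) (nat_lit 27) (nat_lit 4) (nat_lit 486) (nat_lit 373) (nat_lit 341)))) (XT.nd (nat_lit 156) (nat_lit 76) (nat_lit 0) (XT.nd (nat_lit 78) (nat_lit 152) (nat_lit 0) (XT.lf (nat_lit 0) (nat_lit 10627970333) (nat_lit 76) (nat_lit 17966759105) (nat_lit 76) (nat_lit 13583889547) (nat_lit 26) (nat_lit 4) (nat_lit 27) (nat_lit 5) (nat_lit 27)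 (nat_lit 4) (nat_lit 487) (nat_lit 373) (nat_lit 340)) (XT.lf (nat_lit 0) (nat_lit 5097247977) (nat_lit 152) (nat_lit 37822537522) (nat_lit 0) (nat_lit 791417863) (nat_lit 24) (nat_lit 5) (nat_lit 26) (nat_lit 4) (nat_lit 24) (nat_lit 4) (nat_lit 488) (nat_lit 373) (nat_lit 339))) (XT.nd (nat_lit 78) (nat_lit 76) (nat_lit 0) (XT.lf (nat_lit 0) (nat_lit 24678043939) (nat_lit 152) (nat_lit 306935177) (nat_lit 0) (nat_lit 20324007204) (nat_lit 24) (nat_lit 5) (nat_lit 26) (nat_lit 4) (nat_lit 24) (nat_lit 4) (nat_lit 489) (nat_lit 373) (nat_lit 338)) (XT.lf (nat_lit 0) (nat_lit 39343747824) (nat_lit 76) (nat_lit 6019548100) (nat_lit 76) (nat_lit 1619600298) (nat_lit 23) (nat_lit 4) (nat_lit 24) (nat_lit 5) (nat_lit 24) (nat_lit 4) (nat_lit 490) (nat_lit 373) (nat_lit 337))))))) (XT.nd (nat_lit 59748) (nat_lit 0) (nat_lit 3344) (XT.nd (nat_lit 468) (nat_lit 228) (nat_lit 0) (XT.nd (nat_lit 234) (nat_lit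 228) (nat_lit 0) (XT.nd (nat_lit 78) (nat_lit 228) (nat_lit 0) (XT.lf (nat_lit 0) (nat_lit 18185131873) (nat_lit 152) (nat_lit 16673171453) (nat_lit 0) (nat_lit 13870886605) (nat_lit 21) (nat_lit 5) (nat_lit 23) (nat_lit 4) (nat_lit 21) (nat_lit 4) (nat_lit 491) (nat_lit 373) (nat_lit 336)) (XT.nd (nat_lit 78) (nat_lit 152) (nat_lit 0) (XT.lf (nat_lit 0) (nat_lit 23221002855) (nat_lit 76) (nat_lit 15846186097) (nat_lit 76) (nat_lit 11491511031) (nat_lit 20) (nat_lit 4) (nat_lit 21) (nat_lit 5) (nat_lit 21) (nat_lit 4) (nat_lit 492) (nat_lit 373) (nat_lit 335)) (XT.lf (nat_lit 0) (nat_lit 8445166134) (nat_lit 152) (nat_lit 39849192238) (nat_lit 0) (nat_lit 4179943188) (nat_lit 18) (nat_lit 5) (nat_lit 20) (nat_lit 4) (nat_lit 18) (nat_lit 4) (nat_lit 493) (nat_lit 373) (nat_lit 334)))) (XT.nd (nat_lit 78) (nat_lit 228) (nat_lit 0) (XT.lf (nat_lit 0) (nat_lit 29353536922) (nat_lit 152) (nat_lit 69646493)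 (nat_lit 0) (nat_lit 25052711046) (nat_lit 18) (nat_lit 5) (nat_lit 20) (nat_lit 4) (nat_lit 18) (nat_lit 4) (nat_lit 494) (nat_lit 373) (nat_lit 333)) (XT.nd (nat_lit 78) (nat_lit 152) (nat_lit 0) (XT.lf (nat_lit 0) (nat_lit 42071240793) (nat_lit 76) (nat_lit 9417804145) (nat_lit 76) (nat_lit 5083070718) (nat_lit 17) (nat_lit 4) (nat_lit 18) (nat_lit 5) (nat_lit 18) (nat_lit 4) (nat_lit 495) (nat_lit 373) (nat_lit 332)) (XT.lf (nat_lit 0) (nat_lit 15806737531) (nat_lit 152) (nat_lit 31390103680) (nat_lit 0) (nat_lit 11566906138) (nat_lit 15) (nat_lit 5) (nat_lit 17) (nat_lit 4) (nat_lit 15) (nat_lit 4) (nat_lit 496) (nat_lit 373) (nat_lit 331))))) (XT.nd (nat_lit 58968) (nat_lit 0) (nat_lit 5624) (XT.nd (nat_lit 78) (nat_lit 152) (nat_lit 0) (XT.lf (nat_lit 0) (nat_lit 10203943673) (nat_lit 76) (nat_lit 27562638956) (nat_lit 76) (nat_lit 23292948195) (nat_lit 14) (nat_lit 4) (nat_lit 15) (nat_lit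 5) (nat_lit 15) (nat_lit 4) (nat_lit 497) (nat_lit 373) (nat_lit 330)) (XT.nd (nat_lit 78) (nat_lit 152) (nat_lit 0) (XT.lf (nat_lit 0) (nat_lit 54114266114) (nat_lit 76) (nat_lit 6825256357) (nat_lit 76) (nat_lit 2527128102) (nat_lit 14) (nat_lit 4) (nat_lit 15) (nat_lit 5) (nat_lit 15) (nat_lit 4) (nat_lit 498) (nat_lit 373) (nat_lit 329)) (XT.lf (nat_lit 0) (nat_lit 19177354670) (nat_lit 152) (nat_lit 31824796563) (nat_lit 0) (nat_lit 14978120124) (nat_lit 12) (nat_lit 5) (nat_lit 14) (nat_lit 4) (nat_lit 12) (nat_lit 4) (nat_lit 499) (nat_lit 373) (nat_lit 328)))) (XT.nd (nat_lit 156) (nat_lit 456) (nat_lit 0) (XT.nd (nat_lit 78) (nat_lit 304) (nat_lit 0) (XT.lf (nat_lit 0) (nat_lit 5225643227) (nat_lit 152) (nat_lit 1098402821) (nat_lit 152) (nat_lit 1098402821) (nat_lit 96) (nat_lit 4) (nat_lit 98) (nat_lit 5) (nat_lit 98) (nat_lit 4) (nat_lit 452) (nat_lit 374) (nat_lit 374)) (XT.lf (nat_lit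 0) (nat_lit 3630925030) (nat_lit 152) (nat_lit 6046044100) (nat_lit 152) (nat_lit 5536536000) (nat_lit 92) (nat_lit 4) (nat_lit 94) (nat_lit 5) (nat_lit 94) (nat_lit 4) (nat_lit 453) (nat_lit 374) (nat_lit 373))) (XT.nd (nat_lit 78) (nat_lit 304) (nat_lit 0) (XT.lf (nat_lit 0) (nat_lit 6404247800) (nat_lit 152) (nat_lit 3754345178) (nat_lit 0) (nat_lit 5438467305) (nat_lit 90) (nat_lit 5) (nat_lit 92) (nat_lit 4) (nat_lit 90) (nat_lit 4) (nat_lit 454) (nat_lit 374) (nat_lit 372)) (XT.lf (nat_lit 0) (nat_lit 2809215137) (nat_lit 152) (nat_lit 11751116044) (nat_lit 0) (nat_lit 1435953965) (nat_lit 86) (nat_lit 5) (nat_lit 88) (nat_lit 4) (nat_lit 86) (nat_lit 4) (nat_lit 455) (nat_lit 374) (nat_lit 371)))))) (XT.nd (nat_lit 546) (nat_lit 988) (nat_lit 0) (XT.nd (nat_lit 234) (nat_lit 684) (nat_lit 0) (XT.nd (nat_lit 78) (nat_lit 456) (nat_lit 0) (XT.lf (nat_lit 0) (nat_lit 12374122921) (nat_lit 152)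 (nat_lit 2912394767) (nat_lit 152) (nat_lit 1124266734) (nat_lit 84) (nat_lit 4) (nat_lit 86) (nat_lit 5) (nat_lit 86) (nat_lit 4) (nat_lit 456) (nat_lit 374) (nat_lit 370)) (XT.nd (nat_lit 78) (nat_lit 152) (nat_lit 0) (XT.lf (nat_lit 0) (nat_lit 3784324209) (nat_lit 152) (nat_lit 7588163679) (nat_lit 152) (nat_lit 5468513844) (nat_lit 80) (nat_lit 4) (nat_lit 82) (nat_lit 5) (nat_lit 82) (nat_lit 4) (nat_lit 457) (nat_lit 374) (nat_lit 369)) (XT.lf (nat_lit 0) (nat_lit 7088798973) (nat_lit 152) (nat_lit 5523824782) (nat_lit 0) (nat_lit 4676190995) (nat_lit 78) (nat_lit 5) (nat_lit 80) (nat_lit 4) (nat_lit 78) (nat_lit 4) (nat_lit 458) (nat_lit 374) (nat_lit 368)))) (XT.nd (nat_lit 156) (nat_lit 380) (nat_lit 0) (XT.nd (nat_lit 78) (nat_lit 76) (nat_lit 0) (XT.lf (nat_lit 0) (nat_lit 2111882414) (nat_lit 76) (nat_lit 283337115) (nat_lit 152) (nat_lit 15360324466) (nat_lit 75) (nat_lit 5) (nat_lit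 76) (nat_lit 5) (nat_lit 77) (nat_lit 4) (nat_lit 459) (nat_lit 374) (nat_lit 367)) (XT.lf (nat_lit 0) (nat_lit 9848235071) (nat_lit 76) (nat_lit 5686616093) (nat_lit 76) (nat_lit 2703963160) (nat_lit 74) (nat_lit 4) (nat_lit 75) (nat_lit 5) (nat_lit 75) (nat_lit 4) (nat_lit 460) (nat_lit 374) (nat_lit 366))) (XT.nd (nat_lit 78) (nat_lit 228) (nat_lit 0) (XT.lf (nat_lit 0) (nat_lit 10403669698) (nat_lit 152) (nat_lit 1119698028) (nat_lit 0) (nat_lit 7219079403) (nat_lit 72) (nat_lit 5) (nat_lit 74) (nat_lit 4) (nat_lit 72) (nat_lit 4) (nat_lit 461) (nat_lit 374) (nat_lit 365)) (XT.lf (nat_lit 0) (nat_lit 4838385229) (nat_lit 152) (nat_lit 12948399468) (nat_lit 0) (nat_lit 1479503529) (nat_lit 69) (nat_lit 5) (nat_lit 71) (nat_lit 4) (nat_lit 69) (nat_lit 4) (nat_lit 462) (nat_lit 374) (nat_lit 364))))) (XT.nd (nat_lit 234) (nat_lit 532) (nat_lit 0) (XT.nd (nat_lit 78) (nat_lit 380) (nat_lit 0) (XT.lf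 (nat_lit 0) (nat_lit 13763767642) (nat_lit 76) (nat_lit 4830263790) (nat_lit 76) (nat_lit 1217052126) (nat_lit 68) (nat_lit 4) (nat_lit 69) (nat_lit 5) (nat_lit 69) (nat_lit 4) (nat_lit 463) (nat_lit 374) (nat_lit 363)) (XT.nd (nat_lit 78) (nat_lit 152) (nat_lit 0) (XT.lf (nat_lit 0) (nat_lit 820628659) (nat_lit 76) (nat_lit 11650040500) (nat_lit 76) (nat_lit 7906903920) (nat_lit 65) (nat_lit 4) (nat_lit 66) (nat_lit 5) (nat_lit 66) (nat_lit 4) (nat_lit 464) (nat_lit 374) (nat_lit 362)) (XT.lf (nat_lit 0) (nat_lit 5836471771) (nat_lit 152) (nat_lit 13145804554) (nat_lit 0) (nat_lit 1984916062) (nat_lit 63) (nat_lit 5) (nat_lit 65) (nat_lit 4) (nat_lit 63) (nat_lit 4) (nat_lit 465) (nat_lit 374) (nat_lit 361)))) (XT.nd (nat_lit 156) (nat_lit 304) (nat_lit 0) (XT.nd (nat_lit 78) (nat_lit 152) (nat_lit 0) (XT.lf (nat_lit 0) (nat_lit 14766498237) (nat_lit 76) (nat_lit 5436552059) (nat_lit 76) (nat_lit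 1377908231) (nat_lit 62) (nat_lit 4) (nat_lit 63) (nat_lit 5) (nat_lit 63) (nat_lit 4) (nat_lit 466) (nat_lit 374) (nat_lit 360)) (XT.lf (nat_lit 0) (nat_lit 12881206429) (nat_lit 152) (nat_lit 588940782) (nat_lit 0) (nat_lit 8749293218) (nat_lit 60) (nat_lit 5) (nat_lit 62) (nat_lit 4) (nat_lit 60) (nat_lit 4) (nat_lit 467) (nat_lit 374) (nat_lit 359))) (XT.nd (nat_lit 78) (nat_lit 76) (nat_lit 0) (XT.lf (nat_lit 0) (nat_lit 4951950240) (nat_lit 152) (nat_lit 17169345844) (nat_lit 0) (nat_lit 763331486) (nat_lit 57) (nat_lit 5) (nat_lit 59) (nat_lit 4) (nat_lit 57) (nat_lit 4) (nat_lit 468) (nat_lit 374) (nat_lit 358)) (XT.lf (nat_lit 0) (nat_lit 11877276452) (nat_lit 76) (nat_lit 8028006049) (nat_lit 76) (nat_lit 3670765839) (nat_lit 56) (nat_lit 4) (nat_lit 57) (nat_lit 5) (nat_lit 57) (nat_lit 4) (nat_lit 469) (nat_lit 374) (nat_lit 357))))))))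
noncomputable def xc11 : XT := (XT.nd (nat_lit 2028) (nat_lit 380) (nat_lit 0) (XT.nd (nat_lit 1014) (nat_lit 1216) (nat_lit 0) (XT.nd (nat_lit 468) (nat_lit 912) (nat_lit 0) (XT.nd (nat_lit 234) (nat_lit 380) (nat_lit 0) (XT.nd (nat_lit 78) (nat_lit 304) (nat_lit 0) (XT.lf (nat_lit 0) (nat_lit 11154769832) (nat_lit 152) (nat_lit 6373352828) (nat_lit 0) (nat_lit 6768525100) (nat_lit 54) (nat_lit 5) (nat_lit 56) (nat_lit 4) (nat_lit 54) (nat_lit 4) (nat_lit 470) (nat_lit 374) (nat_lit 356)) (XT.nd (nat_lit 78) (nat_lit 152) (nat_lit 0) (XT.lf (nat_lit 0) (nat_lit 1656569258) (nat_lit 152) (nat_lit 1171899069) (nat_lit 76) (nat_lit 22220434301) (nat_lit 52) (nat_lit 5) (nat_lit 54) (nat_lit 5) (nat_lit 53) (nat_lit 4) (nat_lit 471) (nat_lit 374) (nat_lit 355)) (XT.lf (nat_lit 0) (nat_lit 3838982623) (nat_lit 76) (nat_lit 13265204332) (nat_lit 76) (nat_lit 8725249333) (nat_lit 50) (nat_lit 4) (nat_lit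 51) (nat_lit 5) (nat_lit 51) (nat_lit 4) (nat_lit 472) (nat_lit 374) (nat_lit 354)))) (XT.nd (nat_lit 78) (nat_lit 228) (nat_lit 0) (XT.lf (nat_lit 0) (nat_lit 6626943217) (nat_lit 152) (nat_lit 17925402254) (nat_lit 0) (nat_lit 2092266625) (nat_lit 48) (nat_lit 5) (nat_lit 50) (nat_lit 4) (nat_lit 48) (nat_lit 4) (nat_lit 473) (nat_lit 374) (nat_lit 353)) (XT.nd (nat_lit 78) (nat_lit 152) (nat_lit 0) (XT.lf (nat_lit 0) (nat_lit 13309043435) (nat_lit 76) (nat_lit 9419810024) (nat_lit 76) (nat_lit 4764225535) (nat_lit 47) (nat_lit 4) (nat_lit 48) (nat_lit 5) (nat_lit 48) (nat_lit 4) (nat_lit 474) (nat_lit 374) (nat_lit 352)) (XT.lf (nat_lit 0) (nat_lit 11129287881) (nat_lit 152) (nat_lit 10751021901) (nat_lit 0) (nat_lit 6497506457) (nat_lit 45) (nat_lit 5) (nat_lit 47) (nat_lit 4) (nat_lit 45) (nat_lit 4) (nat_lit 475) (nat_lit 374) (nat_lit 351))))) (XT.nd (nat_lit 234) (nat_lit 532) (nat_lit 0)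 (XT.nd (nat_lit 78) (nat_lit 304) (nat_lit 0) (XT.lf (nat_lit 0) (nat_lit 21668212162) (nat_lit 76) (nat_lit 6185684724) (nat_lit 76) (nat_lit 1447430459) (nat_lit 44) (nat_lit 4) (nat_lit 45) (nat_lit 5) (nat_lit 45) (nat_lit 4) (nat_lit 476) (nat_lit 374) (nat_lit 350)) (XT.nd (nat_lit 78) (nat_lit 152) (nat_lit 0) (XT.lf (nat_lit 0) (nat_lit 14994372087) (nat_lit 152) (nat_lit 4972214659) (nat_lit 0) (nat_lit 10295675998) (nat_lit 42) (nat_lit 5) (nat_lit 44) (nat_lit 4) (nat_lit 42) (nat_lit 4) (nat_lit 477) (nat_lit 374) (nat_lit 349)) (XT.lf (nat_lit 0) (nat_lit 1052603823) (nat_lit 152) (nat_lit 2655671497) (nat_lit 76) (nat_lit 27558850886) (nat_lit 40) (nat_lit 5) (nat_lit 42) (nat_lit 5) (nat_lit 41) (nat_lit 4) (nat_lit 478) (nat_lit 374) (nat_lit 348)))) (XT.nd (nat_lit 156) (nat_lit 228) (nat_lit 0) (XT.nd (nat_lit 78) (nat_lit 228) (nat_lit 0) (XT.lf (nat_lit 0) (nat_lit 18062956392)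 (nat_lit 152) (nat_lit 925664285) (nat_lit 0) (nat_lit 13323389778) (nat_lit 39) (nat_lit 5) (nat_lit 41) (nat_lit 4) (nat_lit 39) (nat_lit 4) (nat_lit 479) (nat_lit 374) (nat_lit 347)) (XT.lf (nat_lit 0) (nat_lit 390126330) (nat_lit 76) (nat_lit 2177489470) (nat_lit 152) (nat_lit 30837738469) (nat_lit 36) (nat_lit 5) (nat_lit 37) (nat_lit 5) (nat_lit 38) (nat_lit 4) (nat_lit 480) (nat_lit 374) (nat_lit 346))) (XT.nd (nat_lit 78) (nat_lit 152) (nat_lit 0) (XT.lf (nat_lit 0) (nat_lit 1002286407) (nat_lit 76) (nat_lit 19149122867) (nat_lit 76) (nat_lit 14391094605) (nat_lit 35) (nat_lit 4) (nat_lit 36) (nat_lit 5) (nat_lit 36) (nat_lit 4) (nat_lit 481) (nat_lit 374) (nat_lit 345)) (XT.lf (nat_lit 0) (nat_lit 1071158909) (nat_lit 76) (nat_lit 1836179369) (nat_lit 152) (nat_lit 32825774768) (nat_lit 33) (nat_lit 5) (nat_lit 34) (nat_lit 5) (nat_lit 35) (nat_lit 4) (nat_lit 482) (nat_lit 374) (nat_lit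 344)))))) (XT.nd (nat_lit 468) (nat_lit 684) (nat_lit 0) (XT.nd (nat_lit 234) (nat_lit 304) (nat_lit 0) (XT.nd (nat_lit 78) (nat_lit 152) (nat_lit 0) (XT.lf (nat_lit 0) (nat_lit 270524884) (nat_lit 76) (nat_lit 20729456515) (nat_lit 76) (nat_lit 15972189549) (nat_lit 32) (nat_lit 4) (nat_lit 33) (nat_lit 5) (nat_lit 33) (nat_lit 4) (nat_lit 483) (nat_lit 374) (nat_lit 343)) (XT.nd (nat_lit 78) (nat_lit 76) (nat_lit 0) (XT.lf (nat_lit 0) (nat_lit 1790563164) (nat_lit 152) (nat_lit 1186452570) (nat_lit 76) (nat_lit 35292665276) (nat_lit 31) (nat_lit 5) (nat_lit 33) (nat_lit 5) (nat_lit 32) (nat_lit 4) (nat_lit 484) (nat_lit 374) (nat_lit 342)) (XT.lf (nat_lit 0) (nat_lit 20348910478) (nat_lit 152) (nat_lit 3662441605) (nat_lit 0) (nat_lit 15608837051) (nat_lit 30) (nat_lit 5) (nat_lit 32) (nat_lit 4) (nat_lit 30) (nat_lit 4) (nat_lit 485) (nat_lit 374) (nat_lit 341)))) (XT.nd (nat_lit 78) (nat_lit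 228) (nat_lit 0) (XT.lf (nat_lit 0) (nat_lit 34057883411) (nat_lit 76) (nat_lit 5886756788) (nat_lit 76) (nat_lit 1090298861) (nat_lit 29) (nat_lit 4) (nat_lit 30) (nat_lit 5) (nat_lit 30) (nat_lit 4) (nat_lit 486) (nat_lit 374) (nat_lit 340)) (XT.nd (nat_lit 78) (nat_lit 76) (nat_lit 0) (XT.lf (nat_lit 0) (nat_lit 17859569453) (nat_lit 152) (nat_lit 11498655522) (nat_lit 0) (nat_lit 13150678725) (nat_lit 27) (nat_lit 5) (nat_lit 29) (nat_lit 4) (nat_lit 27) (nat_lit 4) (nat_lit 487) (nat_lit 374) (nat_lit 339)) (XT.lf (nat_lit 0) (nat_lit 26939794703) (nat_lit 76) (nat_lit 10935383987) (nat_lit 76) (nat_lit 6176840440) (nat_lit 26) (nat_lit 4) (nat_lit 27) (nat_lit 5) (nat_lit 27) (nat_lit 4) (nat_lit 488) (nat_lit 374) (nat_lit 338))))) (XT.nd (nat_lit 234) (nat_lit 304) (nat_lit 0) (XT.nd (nat_lit 78) (nat_lit 228) (nat_lit 0) (XT.lf (nat_lit 0) (nat_lit 13126635069) (nat_lit 152) (nat_lit 24076105199)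 (nat_lit 0) (nat_lit 8460778811) (nat_lit 24) (nat_lit 5) (nat_lit 26) (nat_lit 4) (nat_lit 24) (nat_lit 4) (nat_lit 489) (nat_lit 374) (nat_lit 337)) (XT.nd (nat_lit 78) (nat_lit 152) (nat_lit 0) (XT.lf (nat_lit 0) (nat_lit 14860615724) (nat_lit 76) (nat_lit 18598488972) (nat_lit 76) (nat_lit 13888907888) (nat_lit 23) (nat_lit 4) (nat_lit 24) (nat_lit 5) (nat_lit 24) (nat_lit 4) (nat_lit 490) (nat_lit 374) (nat_lit 336)) (XT.lf (nat_lit 0) (nat_lit 5669711058) (nat_lit 152) (nat_lit 42385827065) (nat_lit 0) (nat_lit 1056872442) (nat_lit 21) (nat_lit 5) (nat_lit 23) (nat_lit 4) (nat_lit 21) (nat_lit 4) (nat_lit 491) (nat_lit 374) (nat_lit 335)))) (XT.nd (nat_lit 156) (nat_lit 228) (nat_lit 0) (XT.nd (nat_lit 78) (nat_lit 76) (nat_lit 0) (XT.lf (nat_lit 0) (nat_lit 26215608059) (nat_lit 152) (nat_lit 3172132600) (nat_lit 0) (nat_lit 21564264875) (nat_lit 21) (nat_lit 5) (nat_lit 23) (nat_lit 4) (nat_lit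 21) (nat_lit 4) (nat_lit 492) (nat_lit 374) (nat_lit 334)) (XT.lf (nat_lit 0) (nat_lit 38305849199) (nat_lit 76) (nat_lit 9630657145) (nat_lit 76) (nat_lit 4942642943) (nat_lit 20) (nat_lit 4) (nat_lit 21) (nat_lit 5) (nat_lit 21) (nat_lit 4) (nat_lit 493) (nat_lit 374) (nat_lit 333))) (XT.nd (nat_lit 78) (nat_lit 76) (nat_lit 0) (XT.lf (nat_lit 0) (nat_lit 15716678638) (nat_lit 152) (nat_lit 28044552954) (nat_lit 0) (nat_lit 11131300987) (nat_lit 18) (nat_lit 5) (nat_lit 20) (nat_lit 4) (nat_lit 18) (nat_lit 4) (nat_lit 494) (nat_lit 374) (nat_lit 332)) (XT.lf (nat_lit 0) (nat_lit 13327023601) (nat_lit 76) (nat_lit 24145396906) (nat_lit 76) (nat_lit 19527726348) (nat_lit 17) (nat_lit 4) (nat_lit 18) (nat_lit 5) (nat_lit 18) (nat_lit 4) (nat_lit 495) (nat_lit 374) (nat_lit 331))))))) (XT.nd (nat_lit 59592) (nat_lit 0) (nat_lit 2964) (XT.nd (nat_lit 59046) (nat_lit 0) (nat_lit 5016) (XT.nd (nat_lit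 234) (nat_lit 152) (nat_lit 0) (XT.nd (nat_lit 78) (nat_lit 152) (nat_lit 0) (XT.lf (nat_lit 0) (nat_lit 1164819764) (nat_lit 152) (nat_lit 2283841585) (nat_lit 76) (nat_lit 55761656697) (nat_lit 16) (nat_lit 5) (nat_lit 18) (nat_lit 5) (nat_lit 17) (nat_lit 4) (nat_lit 496) (nat_lit 374) (nat_lit 330)) (XT.nd (nat_lit 78) (nat_lit 76) (nat_lit 0) (XT.lf (nat_lit 0) (nat_lit 22871303419) (nat_lit 152) (nat_lit 20312567774) (nat_lit 0) (nat_lit 18329831258) (nat_lit 15) (nat_lit 5) (nat_lit 17) (nat_lit 4) (nat_lit 15) (nat_lit 4) (nat_lit 497) (nat_lit 374) (nat_lit 329)) (XT.lf (nat_lit 0) (nat_lit 22998657053) (nat_lit 76) (nat_lit 22749797194) (nat_lit 76) (nat_lit 18181241706) (nat_lit 14) (nat_lit 4) (nat_lit 15) (nat_lit 5) (nat_lit 15) (nat_lit 4) (nat_lit 498) (nat_lit 374) (nat_lit 328)))) (XT.nd (nat_lit 58656) (nat_lit 0) (nat_lit 6536) (XT.lf (nat_lit 0) (nat_lit 2061924964) (nat_lit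 76) (nat_lit 1217027792) (nat_lit 152) (nat_lit 63185371056) (nat_lit 12) (nat_lit 5) (nat_lit 13) (nat_lit 5) (nat_lit 14) (nat_lit 4) (nat_lit 499) (nat_lit 374) (nat_lit 327)) (XT.nd (nat_lit 78) (nat_lit 304) (nat_lit 0) (XT.lf (nat_lit 0) (nat_lit 2164571413) (nat_lit 152) (nat_lit 2741957870) (nat_lit 0) (nat_lit 2164571413) (nat_lit 102) (nat_lit 5) (nat_lit 104) (nat_lit 4) (nat_lit 102) (nat_lit 4) (nat_lit 450) (nat_lit 375) (nat_lit 375)) (XT.lf (nat_lit 0) (nat_lit 1382744861) (nat_lit 152) (nat_lit 12275803965) (nat_lit 0) (nat_lit 831711851) (nat_lit 98) (nat_lit 5) (nat_lit 100) (nat_lit 4) (nat_lit 98) (nat_lit 4) (nat_lit 451) (nat_lit 375) (nat_lit 374))))) (XT.nd (nat_lit 234) (nat_lit 912) (nat_lit 0) (XT.nd (nat_lit 78) (nat_lit 456) (nat_lit 0) (XT.lf (nat_lit 0) (nat_lit 10082864771) (nat_lit 152) (nat_lit 2921846655) (nat_lit 152) (nat_lit 1846020301) (nat_lit 96) (nat_lit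 4) (nat_lit 98) (nat_lit 5) (nat_lit 98) (nat_lit 4) (nat_lit 452) (nat_lit 375) (nat_lit 373)) (XT.nd (nat_lit 78) (nat_lit 152) (nat_lit 0) (XT.lf (nat_lit 0) (nat_lit 2866261572) (nat_lit 152) (nat_lit 6944509704) (nat_lit 152) (nat_lit 5414772288) (nat_lit 92) (nat_lit 4) (nat_lit 94) (nat_lit 5) (nat_lit 94) (nat_lit 4) (nat_lit 453) (nat_lit 375) (nat_lit 372)) (XT.lf (nat_lit 0) (nat_lit 6313886902) (nat_lit 152) (nat_lit 4921444076) (nat_lit 0) (nat_lit 4380026433) (nat_lit 90) (nat_lit 5) (nat_lit 92) (nat_lit 4) (nat_lit 90) (nat_lit 4) (nat_lit 454) (nat_lit 375) (nat_lit 371)))) (XT.nd (nat_lit 156) (nat_lit 456) (nat_lit 0) (XT.nd (nat_lit 78) (nat_lit 152) (nat_lit 0) (XT.lf (nat_lit 0) (nat_lit 2473892214) (nat_lit 152) (nat_lit 13366095280) (nat_lit 0) (nat_lit 181490917) (nat_lit 86) (nat_lit 5) (nat_lit 88) (nat_lit 4) (nat_lit 86) (nat_lit 4) (nat_lit 455) (nat_lit 375) (nat_lit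 370)) (XT.lf (nat_lit 0) (nat_lit 10363048676) (nat_lit 152) (nat_lit 4383294176) (nat_lit 152) (nat_lit 1695781582) (nat_lit 84) (nat_lit 4) (nat_lit 86) (nat_lit 5) (nat_lit 86) (nat_lit 4) (nat_lit 456) (nat_lit 375) (nat_lit 369))) (XT.nd (nat_lit 78) (nat_lit 152) (nat_lit 0) (XT.lf (nat_lit 0) (nat_lit 1279149968) (nat_lit 152) (nat_lit 9287644759) (nat_lit 152) (nat_lit 6313072848) (nat_lit 80) (nat_lit 4) (nat_lit 82) (nat_lit 5) (nat_lit 82) (nat_lit 4) (nat_lit 457) (nat_lit 375) (nat_lit 368)) (XT.lf (nat_lit 0) (nat_lit 6030882885) (nat_lit 152) (nat_lit 8498793665) (nat_lit 0) (nat_lit 2805143738) (nat_lit 78) (nat_lit 5) (nat_lit 80) (nat_lit 4) (nat_lit 78) (nat_lit 4) (nat_lit 458) (nat_lit 375) (nat_lit 367)))))) (XT.nd (nat_lit 546) (nat_lit 912) (nat_lit 0) (XT.nd (nat_lit 234) (nat_lit 684) (nat_lit 0) (XT.nd (nat_lit 78) (nat_lit 304) (nat_lit 0) (XT.lf (nat_lit 0) (nat_lit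 1078516258) (nat_lit 152) (nat_lit 1358070432) (nat_lit 76) (nat_lit 15372311822) (nat_lit 76) (nat_lit 5) (nat_lit 78) (nat_lit 5) (nat_lit 77) (nat_lit 4) (nat_lit 459) (nat_lit 375) (nat_lit 366)) (XT.nd (nat_lit 78) (nat_lit 152) (nat_lit 0) (XT.lf (nat_lit 0) (nat_lit 5889016291) (nat_lit 76) (nat_lit 8076175797) (nat_lit 76) (nat_lit 4334566322) (nat_lit 74) (nat_lit 4) (nat_lit 75) (nat_lit 5) (nat_lit 75) (nat_lit 4) (nat_lit 460) (nat_lit 375) (nat_lit 365)) (XT.lf (nat_lit 0) (nat_lit 8559902822) (nat_lit 152) (nat_lit 5599094523) (nat_lit 0) (nat_lit 4652214408) (nat_lit 72) (nat_lit 5) (nat_lit 74) (nat_lit 4) (nat_lit 72) (nat_lit 4) (nat_lit 461) (nat_lit 375) (nat_lit 364)))) (XT.nd (nat_lit 156) (nat_lit 380) (nat_lit 0) (XT.nd (nat_lit 78) (nat_lit 76) (nat_lit 0) (XT.lf (nat_lit 0) (nat_lit 1264642650) (nat_lit 76) (nat_lit 1412347954) (nat_lit 152) (nat_lit 16667200049) (nat_lit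 69) (nat_lit 5) (nat_lit 70) (nat_lit 5) (nat_lit 71) (nat_lit 4) (nat_lit 462) (nat_lit 375) (nat_lit 363)) (XT.lf (nat_lit 0) (nat_lit 8194451145) (nat_lit 76) (nat_lit 7996109538) (nat_lit 76) (nat_lit 3705688314) (nat_lit 68) (nat_lit 4) (nat_lit 69) (nat_lit 5) (nat_lit 69) (nat_lit 4) (nat_lit 463) (nat_lit 375) (nat_lit 362))) (XT.nd (nat_lit 78) (nat_lit 228) (nat_lit 0) (XT.lf (nat_lit 0) (nat_lit 9759851431) (nat_lit 152) (nat_lit 5341299612) (nat_lit 0) (nat_lit 5370428132) (nat_lit 66) (nat_lit 5) (nat_lit 68) (nat_lit 4) (nat_lit 66) (nat_lit 4) (nat_lit 464) (nat_lit 375) (nat_lit 361)) (XT.lf (nat_lit 0) (nat_lit 1031753169) (nat_lit 76) (nat_lit 1743851378) (nat_lit 152) (nat_lit 18295726681) (nat_lit 63) (nat_lit 5) (nat_lit 64) (nat_lit 5) (nat_lit 65) (nat_lit 4) (nat_lit 465) (nat_lit 375) (nat_lit 360))))) (XT.nd (nat_lit 234) (nat_lit 532) (nat_lit 0) (XT.nd (nat_lit 78) (nat_lit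 304) (nat_lit 0) (XT.lf (nat_lit 0) (nat_lit 7411787588) (nat_lit 76) (nat_lit 9473454755) (nat_lit 76) (nat_lit 4807563837) (nat_lit 62) (nat_lit 4) (nat_lit 63) (nat_lit 5) (nat_lit 63) (nat_lit 4) (nat_lit 466) (nat_lit 375) (nat_lit 359)) (XT.nd (nat_lit 78) (nat_lit 152) (nat_lit 0) (XT.lf (nat_lit 0) (nat_lit 9234783581) (nat_lit 152) (nat_lit 8583576560) (nat_lit 0) (nat_lit 4522428294) (nat_lit 60) (nat_lit 5) (nat_lit 62) (nat_lit 4) (nat_lit 60) (nat_lit 4) (nat_lit 467) (nat_lit 375) (nat_lit 358)) (XT.lf (nat_lit 0) (nat_lit 948432014) (nat_lit 152) (nat_lit 2960718398) (nat_lit 76) (nat_lit 19107190320) (nat_lit 58) (nat_lit 5) (nat_lit 60) (nat_lit 5) (nat_lit 59) (nat_lit 4) (nat_lit 468) (nat_lit 375) (nat_lit 357)))) (XT.nd (nat_lit 156) (nat_lit 228) (nat_lit 0) (XT.nd (nat_lit 78) (nat_lit 152) (nat_lit 0) (XT.lf (nat_lit 0) (nat_lit 2540000700) (nat_lit 76) (nat_lit 13040852085)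 (nat_lit 76) (nat_lit 8136536545) (nat_lit 56) (nat_lit 4) (nat_lit 57) (nat_lit 5) (nat_lit 57) (nat_lit 4) (nat_lit 469) (nat_lit 375) (nat_lit 356)) (XT.lf (nat_lit 0) (nat_lit 6468364988) (nat_lit 152) (nat_lit 16421741707) (nat_lit 0) (nat_lit 1558403656) (nat_lit 54) (nat_lit 5) (nat_lit 56) (nat_lit 4) (nat_lit 54) (nat_lit 4) (nat_lit 470) (nat_lit 375) (nat_lit 355))) (XT.nd (nat_lit 78) (nat_lit 152) (nat_lit 0) (XT.lf (nat_lit 0) (nat_lit 13325757254) (nat_lit 76) (nat_lit 8467329514) (nat_lit 76) (nat_lit 3415949198) (nat_lit 53) (nat_lit 4) (nat_lit 54) (nat_lit 5) (nat_lit 54) (nat_lit 4) (nat_lit 471) (nat_lit 375) (nat_lit 354)) (XT.lf (nat_lit 0) (nat_lit 11741876263) (nat_lit 152) (nat_lit 7552510695) (nat_lit 0) (nat_lit 6706861638) (nat_lit 51) (nat_lit 5) (nat_lit 53) (nat_lit 4) (nat_lit 51) (nat_lit 4) (nat_lit 472) (nat_lit 375) (nat_lit 353))))))))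
noncomputable def xc12 : XT := (XT.nd (nat_lit 2028) (nat_lit 76) (nat_lit 0) (XT.nd (nat_lit 1014) (nat_lit 1140) (nat_lit 0) (XT.nd (nat_lit 468) (nat_lit 836) (nat_lit 0) (XT.nd (nat_lit 234) (nat_lit 304) (nat_lit 0) (XT.nd (nat_lit 78) (nat_lit 304) (nat_lit 0) (XT.lf (nat_lit 0) (nat_lit 865309421) (nat_lit 152) (nat_lit 3402971632) (nat_lit 76) (nat_lit 22559804679) (nat_lit 49) (nat_lit 5) (nat_lit 51) (nat_lit 5) (nat_lit 50) (nat_lit 4) (nat_lit 473) (nat_lit 375) (nat_lit 352)) (XT.nd (nat_lit 78) (nat_lit 152) (nat_lit 0) (XT.lf (nat_lit 0) (nat_lit 419456299) (nat_lit 76) (nat_lit 16196035254) (nat_lit 76) (nat_lit 11071613267) (nat_lit 47) (nat_lit 4) (nat_lit 48) (nat_lit 5) (nat_lit 48) (nat_lit 4) (nat_lit 474) (nat_lit 375) (nat_lit 351)) (XT.lf (nat_lit 0) (nat_lit 4104997638) (nat_lit 76) (nat_lit 495537658) (nat_lit 152) (nat_lit 23983459345) (nat_lit 45) (nat_lit 5) (nat_lit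 46) (nat_lit 5) (nat_lit 47) (nat_lit 4) (nat_lit 475) (nat_lit 375) (nat_lit 350)))) (XT.nd (nat_lit 78) (nat_lit 228) (nat_lit 0) (XT.lf (nat_lit 0) (nat_lit 7372348170) (nat_lit 76) (nat_lit 13663440538) (nat_lit 76) (nat_lit 8480398012) (nat_lit 44) (nat_lit 4) (nat_lit 45) (nat_lit 5) (nat_lit 45) (nat_lit 4) (nat_lit 476) (nat_lit 375) (nat_lit 349)) (XT.nd (nat_lit 78) (nat_lit 76) (nat_lit 0) (XT.lf (nat_lit 0) (nat_lit 7734535569) (nat_lit 152) (nat_lit 20146843936) (nat_lit 0) (nat_lit 2608694276) (nat_lit 42) (nat_lit 5) (nat_lit 44) (nat_lit 4) (nat_lit 42) (nat_lit 4) (nat_lit 477) (nat_lit 375) (nat_lit 348)) (XT.lf (nat_lit 0) (nat_lit 12857078520) (nat_lit 76) (nat_lit 11931048488) (nat_lit 76) (nat_lit 6715910842) (nat_lit 41) (nat_lit 4) (nat_lit 42) (nat_lit 5) (nat_lit 42) (nat_lit 4) (nat_lit 478) (nat_lit 375) (nat_lit 347))))) (XT.nd (nat_lit 234) (nat_lit 456) (nat_lit 0)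 (XT.nd (nat_lit 78) (nat_lit 228) (nat_lit 0) (XT.lf (nat_lit 0) (nat_lit 10045296691) (nat_lit 152) (nat_lit 17617479154) (nat_lit 0) (nat_lit 4899489126) (nat_lit 39) (nat_lit 5) (nat_lit 41) (nat_lit 4) (nat_lit 39) (nat_lit 4) (nat_lit 479) (nat_lit 375) (nat_lit 346)) (XT.nd (nat_lit 78) (nat_lit 152) (nat_lit 0) (XT.lf (nat_lit 0) (nat_lit 16512242103) (nat_lit 76) (nat_lit 11188873275) (nat_lit 76) (nat_lit 5964430347) (nat_lit 38) (nat_lit 4) (nat_lit 39) (nat_lit 5) (nat_lit 39) (nat_lit 4) (nat_lit 480) (nat_lit 375) (nat_lit 345)) (XT.lf (nat_lit 0) (nat_lit 11332333845) (nat_lit 152) (nat_lit 17296834604) (nat_lit 0) (nat_lit 6187349621) (nat_lit 36) (nat_lit 5) (nat_lit 38) (nat_lit 4) (nat_lit 36) (nat_lit 4) (nat_lit 481) (nat_lit 375) (nat_lit 344)))) (XT.nd (nat_lit 156) (nat_lit 228) (nat_lit 0) (XT.nd (nat_lit 78) (nat_lit 152) (nat_lit 0) (XT.lf (nat_lit 0) (nat_lit 17902324189)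 (nat_lit 76) (nat_lit 11664641780) (nat_lit 76) (nat_lit 6450410379) (nat_lit 35) (nat_lit 4) (nat_lit 36) (nat_lit 5) (nat_lit 36) (nat_lit 4) (nat_lit 482) (nat_lit 375) (nat_lit 343)) (XT.lf (nat_lit 0) (nat_lit 11359623660) (nat_lit 152) (nat_lit 19677691089) (nat_lit 0) (nat_lit 6233234248) (nat_lit 33) (nat_lit 5) (nat_lit 35) (nat_lit 4) (nat_lit 33) (nat_lit 4) (nat_lit 483) (nat_lit 375) (nat_lit 342))) (XT.nd (nat_lit 78) (nat_lit 152) (nat_lit 0) (XT.lf (nat_lit 0) (nat_lit 16504210336) (nat_lit 76) (nat_lit 13630689628) (nat_lit 76) (nat_lit 8443320380) (nat_lit 32) (nat_lit 4) (nat_lit 33) (nat_lit 5) (nat_lit 33) (nat_lit 4) (nat_lit 484) (nat_lit 375) (nat_lit 341)) (XT.lf (nat_lit 0) (nat_lit 9843592656) (nat_lit 152) (nat_lit 25349729335) (nat_lit 0) (nat_lit 4750927333) (nat_lit 30) (nat_lit 5) (nat_lit 32) (nat_lit 4) (nat_lit 30) (nat_lit 4) (nat_lit 485) (nat_lit 375) (nat_lit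 340)))))) (XT.nd (nat_lit 468) (nat_lit 608) (nat_lit 0) (XT.nd (nat_lit 234) (nat_lit 228) (nat_lit 0) (XT.nd (nat_lit 78) (nat_lit 228) (nat_lit 0) (XT.lf (nat_lit 0) (nat_lit 11691340314) (nat_lit 76) (nat_lit 17412050939) (nat_lit 76) (nat_lit 12265686093) (nat_lit 29) (nat_lit 4) (nat_lit 30) (nat_lit 5) (nat_lit 30) (nat_lit 4) (nat_lit 486) (nat_lit 375) (nat_lit 339)) (XT.nd (nat_lit 78) (nat_lit 76) (nat_lit 0) (XT.lf (nat_lit 0) (nat_lit 6444597099) (nat_lit 152) (nat_lit 35016923935) (nat_lit 0) (nat_lit 1398473556) (nat_lit 27) (nat_lit 5) (nat_lit 29) (nat_lit 4) (nat_lit 27) (nat_lit 4) (nat_lit 487) (nat_lit 375) (nat_lit 338)) (XT.lf (nat_lit 0) (nat_lit 2715100623) (nat_lit 76) (nat_lit 23395948104) (nat_lit 76) (nat_lit 18302536163) (nat_lit 26) (nat_lit 4) (nat_lit 27) (nat_lit 5) (nat_lit 27) (nat_lit 4) (nat_lit 488) (nat_lit 375) (nat_lit 337)))) (XT.nd (nat_lit 78) (nat_lit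 152) (nat_lit 0) (XT.lf (nat_lit 0) (nat_lit 832216105) (nat_lit 152) (nat_lit 3449049818) (nat_lit 76) (nat_lit 41759476013) (nat_lit 25) (nat_lit 5) (nat_lit 27) (nat_lit 5) (nat_lit 26) (nat_lit 4) (nat_lit 489) (nat_lit 375) (nat_lit 336)) (XT.nd (nat_lit 78) (nat_lit 76) (nat_lit 0) (XT.lf (nat_lit 0) (nat_lit 20834689899) (nat_lit 152) (nat_lit 11096183295) (nat_lit 0) (nat_lit 15804262246) (nat_lit 24) (nat_lit 5) (nat_lit 26) (nat_lit 4) (nat_lit 24) (nat_lit 4) (nat_lit 490) (nat_lit 375) (nat_lit 335)) (XT.lf (nat_lit 0) (nat_lit 29380799982) (nat_lit 76) (nat_lit 12599621115) (nat_lit 76) (nat_lit 7529533756) (nat_lit 23) (nat_lit 4) (nat_lit 24) (nat_lit 5) (nat_lit 24) (nat_lit 4) (nat_lit 491) (nat_lit 375) (nat_lit 334))))) (XT.nd (nat_lit 234) (nat_lit 304) (nat_lit 0) (XT.nd (nat_lit 78) (nat_lit 152) (nat_lit 0) (XT.lf (nat_lit 0) (nat_lit 12735310509) (nat_lit 152) (nat_lit 30853025632)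 (nat_lit 0) (nat_lit 7776224579) (nat_lit 21) (nat_lit 5) (nat_lit 23) (nat_lit 4) (nat_lit 21) (nat_lit 4) (nat_lit 492) (nat_lit 375) (nat_lit 333)) (XT.nd (nat_lit 78) (nat_lit 76) (nat_lit 0) (XT.lf (nat_lit 0) (nat_lit 9863730814) (nat_lit 76) (nat_lit 24216629955) (nat_lit 76) (nat_lit 19222619247) (nat_lit 20) (nat_lit 4) (nat_lit 21) (nat_lit 5) (nat_lit 21) (nat_lit 4) (nat_lit 493) (nat_lit 375) (nat_lit 332)) (XT.lf (nat_lit 0) (nat_lit 1246588719) (nat_lit 152) (nat_lit 2496697301) (nat_lit 76) (nat_lit 51591258445) (nat_lit 19) (nat_lit 5) (nat_lit 21) (nat_lit 5) (nat_lit 20) (nat_lit 4) (nat_lit 494) (nat_lit 375) (nat_lit 331)))) (XT.nd (nat_lit 156) (nat_lit 152) (nat_lit 0) (XT.nd (nat_lit 78) (nat_lit 76) (nat_lit 0) (XT.lf (nat_lit 0) (nat_lit 22714988033) (nat_lit 152) (nat_lit 16932405185) (nat_lit 0) (nat_lit 17803385891) (nat_lit 18) (nat_lit 5) (nat_lit 20) (nat_lit 4) (nat_lit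 18) (nat_lit 4) (nat_lit 495) (nat_lit 375) (nat_lit 330)) (XT.lf (nat_lit 0) (nat_lit 26149028138) (nat_lit 76) (nat_lit 19230504268) (nat_lit 76) (nat_lit 14289611508) (nat_lit 17) (nat_lit 4) (nat_lit 18) (nat_lit 5) (nat_lit 18) (nat_lit 4) (nat_lit 496) (nat_lit 375) (nat_lit 329))) (XT.nd (nat_lit 78) (nat_lit 0) (nat_lit 0) (XT.lf (nat_lit 0) (nat_lit 7139965871) (nat_lit 152) (nat_lit 52537456504) (nat_lit 0) (nat_lit 2315899282) (nat_lit 15) (nat_lit 5) (nat_lit 17) (nat_lit 4) (nat_lit 15) (nat_lit 4) (nat_lit 497) (nat_lit 375) (nat_lit 328)) (XT.lf (nat_lit 0) (nat_lit 29705779258) (nat_lit 152) (nat_lit 9856957078) (nat_lit 0) (nat_lit 24855919024) (nat_lit 15) (nat_lit 5) (nat_lit 17) (nat_lit 4) (nat_lit 15) (nat_lit 4) (nat_lit 498) (nat_lit 375) (nat_lit 327))))))) (XT.nd (nat_lit 59436) (nat_lit 0) (nat_lit 2736) (XT.nd (nat_lit 58890) (nat_lit 0) (nat_lit 4788) (XT.nd (nat_lit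 58656) (nat_lit 0) (nat_lit 6232) (XT.nd (nat_lit 58500) (nat_lit 0) (nat_lit 6840) (XT.lf (nat_lit 0) (nat_lit 35291008224) (nat_lit 76) (nat_lit 18271891398) (nat_lit 76) (nat_lit 13397465787) (nat_lit 14) (nat_lit 4) (nat_lit 15) (nat_lit 5) (nat_lit 15) (nat_lit 4) (nat_lit 499) (nat_lit 375) (nat_lit 326)) (XT.nd (nat_lit 78) (nat_lit 304) (nat_lit 0) (XT.lf (nat_lit 0) (nat_lit 3477349315) (nat_lit 152) (nat_lit 1631691681) (nat_lit 152) (nat_lit 1631691681) (nat_lit 108) (nat_lit 4) (nat_lit 110) (nat_lit 5) (nat_lit 110) (nat_lit 4) (nat_lit 448) (nat_lit 376) (nat_lit 376)) (XT.lf (nat_lit 0) (nat_lit 770621325) (nat_lit 152) (nat_lit 6825796436) (nat_lit 152) (nat_lit 6211975969) (nat_lit 104) (nat_lit 4) (nat_lit 106) (nat_lit 5) (nat_lit 106) (nat_lit 4) (nat_lit 449) (nat_lit 376) (nat_lit 375)))) (XT.nd (nat_lit 78) (nat_lit 456) (nat_lit 0) (XT.lf (nat_lit 0) (nat_lit 4735380800)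 (nat_lit 152) (nat_lit 5840638830) (nat_lit 0) (nat_lit 3571874599) (nat_lit 102) (nat_lit 5) (nat_lit 104) (nat_lit 4) (nat_lit 102) (nat_lit 4) (nat_lit 450) (nat_lit 376) (nat_lit 374)) (XT.nd (nat_lit 78) (nat_lit 152) (nat_lit 0) (XT.lf (nat_lit 0) (nat_lit 1484820102) (nat_lit 76) (nat_lit 86048591) (nat_lit 152) (nat_lit 12931109046) (nat_lit 98) (nat_lit 5) (nat_lit 99) (nat_lit 5) (nat_lit 100) (nat_lit 4) (nat_lit 451) (nat_lit 376) (nat_lit 373)) (XT.lf (nat_lit 0) (nat_lit 8976722527) (nat_lit 152) (nat_lit 4022869629) (nat_lit 152) (nat_lit 1868655430) (nat_lit 96) (nat_lit 4) (nat_lit 98) (nat_lit 5) (nat_lit 98) (nat_lit 4) (nat_lit 452) (nat_lit 376) (nat_lit 372))))) (XT.nd (nat_lit 234) (nat_lit 684) (nat_lit 0) (XT.nd (nat_lit 78) (nat_lit 456) (nat_lit 0) (XT.lf (nat_lit 0) (nat_lit 1335114029) (nat_lit 152) (nat_lit 8234072015) (nat_lit 152) (nat_lit 5680463052) (nat_lit 92)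 (nat_lit 4) (nat_lit 94) (nat_lit 5) (nat_lit 94) (nat_lit 4) (nat_lit 453) (nat_lit 376) (nat_lit 371)) (XT.nd (nat_lit 78) (nat_lit 304) (nat_lit 0) (XT.lf (nat_lit 0) (nat_lit 5841374836) (nat_lit 152) (nat_lit 6869696223) (nat_lit 0) (nat_lit 2934829965) (nat_lit 90) (nat_lit 5) (nat_lit 92) (nat_lit 4) (nat_lit 90) (nat_lit 4) (nat_lit 454) (nat_lit 376) (nat_lit 370)) (XT.lf (nat_lit 0) (nat_lit 251074010) (nat_lit 76) (nat_lit 1504878461) (nat_lit 152) (nat_lit 14302956829) (nat_lit 86) (nat_lit 5) (nat_lit 87) (nat_lit 5) (nat_lit 88) (nat_lit 4) (nat_lit 455) (nat_lit 376) (nat_lit 369)))) (XT.nd (nat_lit 156) (nat_lit 380) (nat_lit 0) (XT.nd (nat_lit 78) (nat_lit 152) (nat_lit 0) (XT.lf (nat_lit 0) (nat_lit 7540844339) (nat_lit 152) (nat_lit 6269278262) (nat_lit 152) (nat_lit 2675982268) (nat_lit 84) (nat_lit 4) (nat_lit 86) (nat_lit 5) (nat_lit 86) (nat_lit 4) (nat_lit 456) (nat_lit 376)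 (nat_lit 368)) (XT.lf (nat_lit 0) (nat_lit 9368929206) (nat_lit 152) (nat_lit 2029953376) (nat_lit 0) (nat_lit 5532352906) (nat_lit 82) (nat_lit 5) (nat_lit 84) (nat_lit 4) (nat_lit 82) (nat_lit 4) (nat_lit 457) (nat_lit 376) (nat_lit 367))) (XT.nd (nat_lit 78) (nat_lit 76) (nat_lit 0) (XT.lf (nat_lit 0) (nat_lit 4552413245) (nat_lit 152) (nat_lit 12335881975) (nat_lit 0) (nat_lit 505862597) (nat_lit 78) (nat_lit 5) (nat_lit 80) (nat_lit 4) (nat_lit 78) (nat_lit 4) (nat_lit 458) (nat_lit 376) (nat_lit 366)) (XT.lf (nat_lit 0) (nat_lit 12210254187) (nat_lit 76) (nat_lit 5008800069) (nat_lit 76) (nat_lit 655850098) (nat_lit 77) (nat_lit 4) (nat_lit 78) (nat_lit 5) (nat_lit 78) (nat_lit 4) (nat_lit 459) (nat_lit 376) (nat_lit 365)))))) (XT.nd (nat_lit 546) (nat_lit 988) (nat_lit 0) (XT.nd (nat_lit 234) (nat_lit 532) (nat_lit 0) (XT.nd (nat_lit 78) (nat_lit 304) (nat_lit 0) (XT.lf (nat_lit 0) (nat_lit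 1030811021) (nat_lit 76) (nat_lit 10926602074) (nat_lit 76) (nat_lit 6417127462) (nat_lit 74) (nat_lit 4) (nat_lit 75) (nat_lit 5) (nat_lit 75) (nat_lit 4) (nat_lit 460) (nat_lit 376) (nat_lit 364)) (XT.nd (nat_lit 78) (nat_lit 152) (nat_lit 0) (XT.lf (nat_lit 0) (nat_lit 6268205924) (nat_lit 152) (nat_lit 10997767181) (nat_lit 0) (nat_lit 1628115370) (nat_lit 72) (nat_lit 5) (nat_lit 74) (nat_lit 4) (nat_lit 72) (nat_lit 4) (nat_lit 461) (nat_lit 376) (nat_lit 363)) (XT.lf (nat_lit 0) (nat_lit 113040364) (nat_lit 152) (nat_lit 4660104197) (nat_lit 76) (nat_lit 14661679711) (nat_lit 70) (nat_lit 5) (nat_lit 72) (nat_lit 5) (nat_lit 71) (nat_lit 4) (nat_lit 462) (nat_lit 376) (nat_lit 362)))) (XT.nd (nat_lit 156) (nat_lit 228) (nat_lit 0) (XT.nd (nat_lit 78) (nat_lit 152) (nat_lit 0) (XT.lf (nat_lit 0) (nat_lit 1663541286) (nat_lit 76) (nat_lit 11655211907) (nat_lit 76) (nat_lit 6677365835) (nat_lit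 68) (nat_lit 4) (nat_lit 69) (nat_lit 5) (nat_lit 69) (nat_lit 4) (nat_lit 463) (nat_lit 376) (nat_lit 361)) (XT.lf (nat_lit 0) (nat_lit 6577300660) (nat_lit 152) (nat_lit 12471932365) (nat_lit 0) (nat_lit 1531139633) (nat_lit 66) (nat_lit 5) (nat_lit 68) (nat_lit 4) (nat_lit 66) (nat_lit 4) (nat_lit 464) (nat_lit 376) (nat_lit 360))) (XT.nd (nat_lit 78) (nat_lit 152) (nat_lit 0) (XT.lf (nat_lit 0) (nat_lit 14517652842) (nat_lit 76) (nat_lit 5959939456) (nat_lit 76) (nat_lit 710634846) (nat_lit 65) (nat_lit 4) (nat_lit 66) (nat_lit 5) (nat_lit 66) (nat_lit 4) (nat_lit 465) (nat_lit 376) (nat_lit 359)) (XT.lf (nat_lit 0) (nat_lit 13073641133) (nat_lit 152) (nat_lit 957049467) (nat_lit 0) (nat_lit 7789393862) (nat_lit 63) (nat_lit 5) (nat_lit 65) (nat_lit 4) (nat_lit 63) (nat_lit 4) (nat_lit 466) (nat_lit 376) (nat_lit 358))))) (XT.nd (nat_lit 234) (nat_lit 532) (nat_lit 0) (XT.nd (nat_lit 78) (nat_lit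 228) (nat_lit 0) (XT.lf (nat_lit 0) (nat_lit 4838160884) (nat_lit 76) (nat_lit 236370474) (nat_lit 152) (nat_lit 17403618802) (nat_lit 60) (nat_lit 5) (nat_lit 61) (nat_lit 5) (nat_lit 62) (nat_lit 4) (nat_lit 467) (nat_lit 376) (nat_lit 357)) (XT.nd (nat_lit 78) (nat_lit 152) (nat_lit 0) (XT.lf (nat_lit 0) (nat_lit 10518248907) (nat_lit 76) (nat_lit 9056316581) (nat_lit 76) (nat_lit 3586889706) (nat_lit 59) (nat_lit 4) (nat_lit 60) (nat_lit 5) (nat_lit 60) (nat_lit 4) (nat_lit 468) (nat_lit 376) (nat_lit 356)) (XT.lf (nat_lit 0) (nat_lit 10789321669) (nat_lit 152) (nat_lit 7757749183) (nat_lit 0) (nat_lit 5326253857) (nat_lit 57) (nat_lit 5) (nat_lit 59) (nat_lit 4) (nat_lit 57) (nat_lit 4) (nat_lit 469) (nat_lit 376) (nat_lit 355)))) (XT.nd (nat_lit 156) (nat_lit 228) (nat_lit 0) (XT.nd (nat_lit 78) (nat_lit 152) (nat_lit 0) (XT.lf (nat_lit 0) (nat_lit 1294653003) (nat_lit 152) (nat_lit 2980583769)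 (nat_lit 76) (nat_lit 20340319779) (nat_lit 55) (nat_lit 5) (nat_lit 57) (nat_lit 5) (nat_lit 56) (nat_lit 4) (nat_lit 470) (nat_lit 376) (nat_lit 354)) (XT.lf (nat_lit 0) (nat_lit 1605397536) (nat_lit 76) (nat_lit 14680373111) (nat_lit 76) (nat_lit 9100320047) (nat_lit 53) (nat_lit 4) (nat_lit 54) (nat_lit 5) (nat_lit 54) (nat_lit 4) (nat_lit 471) (nat_lit 376) (nat_lit 353))) (XT.nd (nat_lit 78) (nat_lit 76) (nat_lit 0) (XT.lf (nat_lit 0) (nat_lit 5839203811) (nat_lit 152) (nat_lit 20053474430) (nat_lit 0) (nat_lit 297141432) (nat_lit 51) (nat_lit 5) (nat_lit 53) (nat_lit 4) (nat_lit 51) (nat_lit 4) (nat_lit 472) (nat_lit 376) (nat_lit 352)) (XT.lf (nat_lit 0) (nat_lit 10391010200) (nat_lit 76) (nat_lit 11147332212) (nat_lit 76) (nat_lit 5486664943) (nat_lit 50) (nat_lit 4) (nat_lit 51) (nat_lit 5) (nat_lit 51) (nat_lit 4) (nat_lit 473) (nat_lit 376) (nat_lit 351))))))))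
noncomputable def xc13 : XT := (XT.nd (nat_lit 60294) (nat_lit 0) (nat_lit 2964) (XT.nd (nat_lit 1014) (nat_lit 1216) (nat_lit 0) (XT.nd (nat_lit 468) (nat_lit 760) (nat_lit 0) (XT.nd (nat_lit 234) (nat_lit 380) (nat_lit 0) (XT.nd (nat_lit 78) (nat_lit 228) (nat_lit 0) (XT.lf (nat_lit 0) (nat_lit 10023611055) (nat_lit 152) (nat_lit 13454256510) (nat_lit 0) (nat_lit 4418150563) (nat_lit 48) (nat_lit 5) (nat_lit 50) (nat_lit 4) (nat_lit 48) (nat_lit 4) (nat_lit 474) (nat_lit 376) (nat_lit 350)) (XT.nd (nat_lit 78) (nat_lit 152) (nat_lit 0) (XT.lf (nat_lit 0) (nat_lit 18232462539) (nat_lit 76) (nat_lit 8140540440) (nat_lit 76) (nat_lit 2430635161) (nat_lit 47) (nat_lit 4) (nat_lit 48) (nat_lit 5) (nat_lit 48) (nat_lit 4) (nat_lit 475) (nat_lit 376) (nat_lit 349)) (XT.lf (nat_lit 0) (nat_lit 13662864206) (nat_lit 152) (nat_lit 8062649938) (nat_lit 0) (nat_lit 8022692843) (nat_lit 45) (nat_lit 5) (nat_lit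 47) (nat_lit 4) (nat_lit 45) (nat_lit 4) (nat_lit 476) (nat_lit 376) (nat_lit 348)))) (XT.nd (nat_lit 78) (nat_lit 304) (nat_lit 0) (XT.lf (nat_lit 0) (nat_lit 24870748712) (nat_lit 76) (nat_lit 5797971126) (nat_lit 76) (nat_lit 65824518) (nat_lit 44) (nat_lit 4) (nat_lit 45) (nat_lit 5) (nat_lit 45) (nat_lit 4) (nat_lit 477) (nat_lit 376) (nat_lit 347)) (XT.nd (nat_lit 78) (nat_lit 152) (nat_lit 0) (XT.lf (nat_lit 0) (nat_lit 16616925407) (nat_lit 152) (nat_lit 4176075655) (nat_lit 0) (nat_lit 10966690381) (nat_lit 42) (nat_lit 5) (nat_lit 44) (nat_lit 4) (nat_lit 42) (nat_lit 4) (nat_lit 478) (nat_lit 376) (nat_lit 346)) (XT.lf (nat_lit 0) (nat_lit 1417225862) (nat_lit 152) (nat_lit 2854260950) (nat_lit 76) (nat_lit 28559831730) (nat_lit 40) (nat_lit 5) (nat_lit 42) (nat_lit 5) (nat_lit 41) (nat_lit 4) (nat_lit 479) (nat_lit 376) (nat_lit 345))))) (XT.nd (nat_lit 234) (nat_lit 456) (nat_lit 0)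 (XT.nd (nat_lit 78) (nat_lit 228) (nat_lit 0) (XT.lf (nat_lit 0) (nat_lit 18715452377) (nat_lit 152) (nat_lit 2153613793) (nat_lit 0) (nat_lit 13076261116) (nat_lit 39) (nat_lit 5) (nat_lit 41) (nat_lit 4) (nat_lit 39) (nat_lit 4) (nat_lit 480) (nat_lit 376) (nat_lit 344)) (XT.nd (nat_lit 78) (nat_lit 76) (nat_lit 0) (XT.lf (nat_lit 0) (nat_lit 1869654164) (nat_lit 152) (nat_lit 1915117898) (nat_lit 76) (nat_lit 31325540850) (nat_lit 37) (nat_lit 5) (nat_lit 39) (nat_lit 5) (nat_lit 38) (nat_lit 4) (nat_lit 481) (nat_lit 376) (nat_lit 343)) (XT.lf (nat_lit 0) (nat_lit 19752297642) (nat_lit 152) (nat_lit 2427275607) (nat_lit 0) (nat_lit 14142157800) (nat_lit 36) (nat_lit 5) (nat_lit 38) (nat_lit 4) (nat_lit 36) (nat_lit 4) (nat_lit 482) (nat_lit 376) (nat_lit 342)))) (XT.nd (nat_lit 156) (nat_lit 228) (nat_lit 0) (XT.nd (nat_lit 78) (nat_lit 76) (nat_lit 0) (XT.lf (nat_lit 0) (nat_lit 1061044264)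 (nat_lit 152) (nat_lit 3519029215) (nat_lit 76) (nat_lit 33009058957) (nat_lit 34) (nat_lit 5) (nat_lit 36) (nat_lit 5) (nat_lit 35) (nat_lit 4) (nat_lit 483) (nat_lit 376) (nat_lit 341)) (XT.lf (nat_lit 0) (nat_lit 19479034748) (nat_lit 152) (nat_lit 5515246617) (nat_lit 0) (nat_lit 13913241167) (nat_lit 33) (nat_lit 5) (nat_lit 35) (nat_lit 4) (nat_lit 33) (nat_lit 4) (nat_lit 484) (nat_lit 376) (nat_lit 340))) (XT.nd (nat_lit 78) (nat_lit 152) (nat_lit 0) (XT.lf (nat_lit 0) (nat_lit 32041583398) (nat_lit 76) (nat_lit 6933321874) (nat_lit 76) (nat_lit 1312217784) (nat_lit 32) (nat_lit 4) (nat_lit 33) (nat_lit 5) (nat_lit 33) (nat_lit 4) (nat_lit 485) (nat_lit 376) (nat_lit 339)) (XT.lf (nat_lit 0) (nat_lit 17597344608) (nat_lit 152) (nat_lit 12037440716) (nat_lit 0) (nat_lit 12088819593) (nat_lit 30) (nat_lit 5) (nat_lit 32) (nat_lit 4) (nat_lit 30) (nat_lit 4) (nat_lit 486) (nat_lit 376) (nat_lit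 338)))))) (XT.nd (nat_lit 468) (nat_lit 684) (nat_lit 0) (XT.nd (nat_lit 234) (nat_lit 228) (nat_lit 0) (XT.nd (nat_lit 78) (nat_lit 228) (nat_lit 0) (XT.lf (nat_lit 0) (nat_lit 26437756090) (nat_lit 76) (nat_lit 11172720241) (nat_lit 76) (nat_lit 5615488176) (nat_lit 29) (nat_lit 4) (nat_lit 30) (nat_lit 5) (nat_lit 30) (nat_lit 4) (nat_lit 487) (nat_lit 376) (nat_lit 337)) (XT.nd (nat_lit 78) (nat_lit 76) (nat_lit 0) (XT.lf (nat_lit 0) (nat_lit 13750066567) (nat_lit 152) (nat_lit 22733762960) (nat_lit 0) (nat_lit 8309659059) (nat_lit 27) (nat_lit 5) (nat_lit 29) (nat_lit 4) (nat_lit 27) (nat_lit 4) (nat_lit 488) (nat_lit 376) (nat_lit 336)) (XT.lf (nat_lit 0) (nat_lit 16482580827) (nat_lit 76) (nat_lit 17715761211) (nat_lit 76) (nat_lit 12232461732) (nat_lit 26) (nat_lit 4) (nat_lit 27) (nat_lit 5) (nat_lit 27) (nat_lit 4) (nat_lit 489) (nat_lit 376) (nat_lit 335)))) (XT.nd (nat_lit 78) (nat_lit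 76) (nat_lit 0) (XT.lf (nat_lit 0) (nat_lit 7510685337) (nat_lit 152) (nat_lit 38485546514) (nat_lit 0) (nat_lit 2147433904) (nat_lit 24) (nat_lit 5) (nat_lit 26) (nat_lit 4) (nat_lit 24) (nat_lit 4) (nat_lit 490) (nat_lit 376) (nat_lit 334)) (XT.nd (nat_lit 78) (nat_lit 0) (nat_lit 0) (XT.lf (nat_lit 0) (nat_lit 1238228489) (nat_lit 76) (nat_lit 27046219219) (nat_lit 76) (nat_lit 21645196638) (nat_lit 23) (nat_lit 4) (nat_lit 24) (nat_lit 5) (nat_lit 24) (nat_lit 4) (nat_lit 491) (nat_lit 376) (nat_lit 333)) (XT.lf (nat_lit 0) (nat_lit 43346124310) (nat_lit 76) (nat_lit 6944983300) (nat_lit 76) (nat_lit 1507988197) (nat_lit 23) (nat_lit 4) (nat_lit 24) (nat_lit 5) (nat_lit 24) (nat_lit 4) (nat_lit 492) (nat_lit 376) (nat_lit 332))))) (XT.nd (nat_lit 234) (nat_lit 304) (nat_lit 0) (XT.nd (nat_lit 78) (nat_lit 228) (nat_lit 0) (XT.lf (nat_lit 0) (nat_lit 19523653266) (nat_lit 152) (nat_lit 20012826314)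 (nat_lit 0) (nat_lit 14211755549) (nat_lit 21) (nat_lit 5) (nat_lit 23) (nat_lit 4) (nat_lit 21) (nat_lit 4) (nat_lit 493) (nat_lit 376) (nat_lit 331)) (XT.nd (nat_lit 78) (nat_lit 152) (nat_lit 0) (XT.lf (nat_lit 0) (nat_lit 22384816029) (nat_lit 76) (nat_lit 19373827282) (nat_lit 76) (nat_lit 14030251762) (nat_lit 20) (nat_lit 4) (nat_lit 21) (nat_lit 5) (nat_lit 21) (nat_lit 4) (nat_lit 494) (nat_lit 376) (nat_lit 330)) (XT.lf (nat_lit 0) (nat_lit 7161823796) (nat_lit 152) (nat_lit 48819259386) (nat_lit 0) (nat_lit 1944595779) (nat_lit 18) (nat_lit 5) (nat_lit 20) (nat_lit 4) (nat_lit 18) (nat_lit 4) (nat_lit 495) (nat_lit 376) (nat_lit 329)))) (XT.nd (nat_lit 156) (nat_lit 228) (nat_lit 0) (XT.nd (nat_lit 78) (nat_lit 76) (nat_lit 0) (XT.lf (nat_lit 0) (nat_lit 29485635814) (nat_lit 152) (nat_lit 6428118038) (nat_lit 0) (nat_lit 24240511970) (nat_lit 18) (nat_lit 5) (nat_lit 20) (nat_lit 4)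 (nat_lit 18) (nat_lit 4) (nat_lit 496) (nat_lit 376) (nat_lit 328)) (XT.lf (nat_lit 0) (nat_lit 38482015470) (nat_lit 76) (nat_lit 14639047638) (nat_lit 76) (nat_lit 9367356340) (nat_lit 17) (nat_lit 4) (nat_lit 18) (nat_lit 5) (nat_lit 18) (nat_lit 4) (nat_lit 497) (nat_lit 376) (nat_lit 327))) (XT.nd (nat_lit 78) (nat_lit 76) (nat_lit 0) (XT.lf (nat_lit 0) (nat_lit 12916879087) (nat_lit 152) (nat_lit 44239339725) (nat_lit 0) (nat_lit 7774166819) (nat_lit 15) (nat_lit 5) (nat_lit 17) (nat_lit 4) (nat_lit 15) (nat_lit 4) (nat_lit 498) (nat_lit 376) (nat_lit 326)) (XT.lf (nat_lit 0) (nat_lit 56040625) (nat_lit 76) (nat_lit 36297390027) (nat_lit 76) (nat_lit 31131282163) (nat_lit 14) (nat_lit 4) (nat_lit 15) (nat_lit 5) (nat_lit 15) (nat_lit 4) (nat_lit 499) (nat_lit 376) (nat_lit 325))))))) (XT.nd (nat_lit 1014) (nat_lit 1900) (nat_lit 0) (XT.nd (nat_lit 468) (nat_lit 1520) (nat_lit 0) (XT.nd (nat_lit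 234) (nat_lit 760) (nat_lit 0) (XT.nd (nat_lit 78) (nat_lit 532) (nat_lit 0) (XT.lf (nat_lit 0) (nat_lit 1342557054) (nat_lit 228) (nat_lit 3744710907) (nat_lit 0) (nat_lit 1342557054) (nat_lit 115) (nat_lit 5) (nat_lit 118) (nat_lit 4) (nat_lit 115) (nat_lit 4) (nat_lit 446) (nat_lit 377) (nat_lit 377)) (XT.nd (nat_lit 78) (nat_lit 304) (nat_lit 0) (XT.lf (nat_lit 0) (nat_lit 76153183) (nat_lit 228) (nat_lit 529171276) (nat_lit 76) (nat_lit 12562825463) (nat_lit 112) (nat_lit 5) (nat_lit 115) (nat_lit 5) (nat_lit 113) (nat_lit 4) (nat_lit 447) (nat_lit 377) (nat_lit 376)) (XT.lf (nat_lit 0) (nat_lit 6617020594) (nat_lit 152) (nat_lit 4082993018) (nat_lit 152) (nat_lit 2786911102) (nat_lit 108) (nat_lit 4) (nat_lit 110) (nat_lit 5) (nat_lit 110) (nat_lit 4) (nat_lit 448) (nat_lit 377) (nat_lit 375)))) (XT.nd (nat_lit 78) (nat_lit 456) (nat_lit 0) (XT.lf (nat_lit 0) (nat_lit 69317495) (nat_lit 152)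 (nat_lit 7796626144) (nat_lit 152) (nat_lit 5953703266) (nat_lit 104) (nat_lit 4) (nat_lit 106) (nat_lit 5) (nat_lit 106) (nat_lit 4) (nat_lit 449) (nat_lit 377) (nat_lit 374)) (XT.nd (nat_lit 78) (nat_lit 304) (nat_lit 0) (XT.lf (nat_lit 0) (nat_lit 4791555751) (nat_lit 152) (nat_lit 6911657442) (nat_lit 0) (nat_lit 2461773095) (nat_lit 102) (nat_lit 5) (nat_lit 104) (nat_lit 4) (nat_lit 102) (nat_lit 4) (nat_lit 450) (nat_lit 377) (nat_lit 373)) (XT.lf (nat_lit 0) (nat_lit 12556689) (nat_lit 76) (nat_lit 1394899776) (nat_lit 152) (nat_lit 13117655540) (nat_lit 98) (nat_lit 5) (nat_lit 99) (nat_lit 5) (nat_lit 100) (nat_lit 4) (nat_lit 451) (nat_lit 377) (nat_lit 372))))) (XT.nd (nat_lit 234) (nat_lit 912) (nat_lit 0) (XT.nd (nat_lit 78) (nat_lit 456) (nat_lit 0) (XT.lf (nat_lit 0) (nat_lit 7130226049) (nat_lit 152) (nat_lit 5502496048) (nat_lit 152) (nat_lit 2264764922) (nat_lit 96) (nat_lit 4)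 (nat_lit 98) (nat_lit 5) (nat_lit 98) (nat_lit 4) (nat_lit 452) (nat_lit 377) (nat_lit 371)) (XT.nd (nat_lit 78) (nat_lit 304) (nat_lit 0) (XT.lf (nat_lit 0) (nat_lit 8960925582) (nat_lit 152) (nat_lit 947309864) (nat_lit 0) (nat_lit 5377365051) (nat_lit 94) (nat_lit 5) (nat_lit 96) (nat_lit 4) (nat_lit 94) (nat_lit 4) (nat_lit 453) (nat_lit 377) (nat_lit 370)) (XT.lf (nat_lit 0) (nat_lit 4985586574) (nat_lit 152) (nat_lit 9603740315) (nat_lit 0) (nat_lit 1099436956) (nat_lit 90) (nat_lit 5) (nat_lit 92) (nat_lit 4) (nat_lit 90) (nat_lit 4) (nat_lit 454) (nat_lit 377) (nat_lit 369)))) (XT.nd (nat_lit 156) (nat_lit 456) (nat_lit 0) (XT.nd (nat_lit 78) (nat_lit 228) (nat_lit 0) (XT.lf (nat_lit 0) (nat_lit 673447193) (nat_lit 228) (nat_lit 2906637182) (nat_lit 76) (nat_lit 12527989733) (nat_lit 87) (nat_lit 5) (nat_lit 90) (nat_lit 5) (nat_lit 88) (nat_lit 4) (nat_lit 455) (nat_lit 377) (nat_lit 368))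 (XT.lf (nat_lit 0) (nat_lit 3900790375) (nat_lit 152) (nat_lit 8574837463) (nat_lit 152) (nat_lit 4067202602) (nat_lit 84) (nat_lit 4) (nat_lit 86) (nat_lit 5) (nat_lit 86) (nat_lit 4) (nat_lit 456) (nat_lit 377) (nat_lit 367))) (XT.nd (nat_lit 78) (nat_lit 304) (nat_lit 0) (XT.lf (nat_lit 0) (nat_lit 7776579216) (nat_lit 152) (nat_lit 6149768538) (nat_lit 0) (nat_lit 3068863822) (nat_lit 82) (nat_lit 5) (nat_lit 84) (nat_lit 4) (nat_lit 82) (nat_lit 4) (nat_lit 457) (nat_lit 377) (nat_lit 366)) (XT.lf (nat_lit 0) (nat_lit 400253369) (nat_lit 76) (nat_lit 2271451096) (nat_lit 152) (nat_lit 14794609118) (nat_lit 78) (nat_lit 5) (nat_lit 79) (nat_lit 5) (nat_lit 80) (nat_lit 4) (nat_lit 458) (nat_lit 377) (nat_lit 365)))))) (XT.nd (nat_lit 546) (nat_lit 912) (nat_lit 0) (XT.nd (nat_lit 234) (nat_lit 532) (nat_lit 0) (XT.nd (nat_lit 78) (nat_lit 380) (nat_lit 0) (XT.lf (nat_lit 0) (nat_lit 7086290110)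 (nat_lit 76) (nat_lit 8018294691) (nat_lit 76) (nat_lit 2849489019) (nat_lit 77) (nat_lit 4) (nat_lit 78) (nat_lit 5) (nat_lit 78) (nat_lit 4) (nat_lit 459) (nat_lit 377) (nat_lit 364)) (XT.nd (nat_lit 78) (nat_lit 228) (nat_lit 0) (XT.lf (nat_lit 0) (nat_lit 9552277812) (nat_lit 152) (nat_lit 4645493465) (nat_lit 0) (nat_lit 4264201220) (nat_lit 75) (nat_lit 5) (nat_lit 77) (nat_lit 4) (nat_lit 75) (nat_lit 4) (nat_lit 460) (nat_lit 377) (nat_lit 363)) (XT.lf (nat_lit 0) (nat_lit 1643918062) (nat_lit 76) (nat_lit 1897443910) (nat_lit 152) (nat_lit 15449365465) (nat_lit 72) (nat_lit 5) (nat_lit 73) (nat_lit 5) (nat_lit 74) (nat_lit 4) (nat_lit 461) (nat_lit 377) (nat_lit 362)))) (XT.nd (nat_lit 156) (nat_lit 304) (nat_lit 0) (XT.nd (nat_lit 78) (nat_lit 152) (nat_lit 0) (XT.lf (nat_lit 0) (nat_lit 8005300061) (nat_lit 76) (nat_lit 8577282310) (nat_lit 76) (nat_lit 2956136465) (nat_lit 71) (nat_lit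 4) (nat_lit 72) (nat_lit 5) (nat_lit 72) (nat_lit 4) (nat_lit 462) (nat_lit 377) (nat_lit 361)) (XT.lf (nat_lit 0) (nat_lit 10027952348) (nat_lit 152) (nat_lit 5730464245) (nat_lit 0) (nat_lit 4350829412) (nat_lit 69) (nat_lit 5) (nat_lit 71) (nat_lit 4) (nat_lit 69) (nat_lit 4) (nat_lit 463) (nat_lit 377) (nat_lit 360))) (XT.nd (nat_lit 78) (nat_lit 76) (nat_lit 0) (XT.lf (nat_lit 0) (nat_lit 71839635) (nat_lit 76) (nat_lit 2863234483) (nat_lit 152) (nat_lit 17768549395) (nat_lit 66) (nat_lit 5) (nat_lit 67) (nat_lit 5) (nat_lit 68) (nat_lit 4) (nat_lit 464) (nat_lit 377) (nat_lit 359)) (XT.lf (nat_lit 0) (nat_lit 5917782300) (nat_lit 76) (nat_lit 10654978960) (nat_lit 76) (nat_lit 4746595458) (nat_lit 65) (nat_lit 4) (nat_lit 66) (nat_lit 5) (nat_lit 66) (nat_lit 4) (nat_lit 465) (nat_lit 377) (nat_lit 358))))) (XT.nd (nat_lit 234) (nat_lit 532) (nat_lit 0) (XT.nd (nat_lit 78) (nat_lit 228) (nat_lit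 0) (XT.lf (nat_lit 0) (nat_lit 8831136353) (nat_lit 152) (nat_lit 10213849925) (nat_lit 0) (nat_lit 2915951187) (nat_lit 63) (nat_lit 5) (nat_lit 65) (nat_lit 4) (nat_lit 63) (nat_lit 4) (nat_lit 466) (nat_lit 377) (nat_lit 357)) (XT.nd (nat_lit 78) (nat_lit 76) (nat_lit 0) (XT.lf (nat_lit 0) (nat_lit 487838557) (nat_lit 152) (nat_lit 5095244802) (nat_lit 76) (nat_lit 17045850472) (nat_lit 61) (nat_lit 5) (nat_lit 63) (nat_lit 5) (nat_lit 62) (nat_lit 4) (nat_lit 467) (nat_lit 377) (nat_lit 356)) (XT.lf (nat_lit 0) (nat_lit 14637238740) (nat_lit 152) (nat_lit 114121687) (nat_lit 0) (nat_lit 8571397930) (nat_lit 60) (nat_lit 5) (nat_lit 62) (nat_lit 4) (nat_lit 60) (nat_lit 4) (nat_lit 468) (nat_lit 377) (nat_lit 355)))) (XT.nd (nat_lit 156) (nat_lit 228) (nat_lit 0) (XT.nd (nat_lit 78) (nat_lit 76) (nat_lit 0) (XT.lf (nat_lit 0) (nat_lit 4916384648) (nat_lit 76) (nat_lit 567485724) (nat_lit 152)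 (nat_lit 18561417694) (nat_lit 57) (nat_lit 5) (nat_lit 58) (nat_lit 5) (nat_lit 59) (nat_lit 4) (nat_lit 469) (nat_lit 377) (nat_lit 354)) (XT.lf (nat_lit 0) (nat_lit 9769435409) (nat_lit 76) (nat_lit 10599932249) (nat_lit 76) (nat_lit 4426379571) (nat_lit 56) (nat_lit 4) (nat_lit 57) (nat_lit 5) (nat_lit 57) (nat_lit 4) (nat_lit 470) (nat_lit 377) (nat_lit 353))) (XT.nd (nat_lit 78) (nat_lit 76) (nat_lit 0) (XT.lf (nat_lit 0) (nat_lit 10312443954) (nat_lit 152) (nat_lit 11074842037) (nat_lit 0) (nat_lit 4190432302) (nat_lit 54) (nat_lit 5) (nat_lit 56) (nat_lit 4) (nat_lit 54) (nat_lit 4) (nat_lit 471) (nat_lit 377) (nat_lit 352)) (XT.lf (nat_lit 0) (nat_lit 19092826081) (nat_lit 76) (nat_lit 6771890468) (nat_lit 76) (nat_lit 527715781) (nat_lit 53) (nat_lit 4) (nat_lit 54) (nat_lit 5) (nat_lit 54) (nat_lit 4) (nat_lit 472) (nat_lit 377) (nat_lit 351))))))))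
noncomputable def xc14 : XT := (XT.nd (nat_lit 2028) (nat_lit 152) (nat_lit 0) (XT.nd (nat_lit 1014) (nat_lit 1140) (nat_lit 0) (XT.nd (nat_lit 468) (nat_lit 760) (nat_lit 0) (XT.nd (nat_lit 234) (nat_lit 380) (nat_lit 0) (XT.nd (nat_lit 78) (nat_lit 304) (nat_lit 0) (XT.lf (nat_lit 0) (nat_lit 14806866468) (nat_lit 152) (nat_lit 3800547776) (nat_lit 0) (nat_lit 8631603909) (nat_lit 51) (nat_lit 5) (nat_lit 53) (nat_lit 4) (nat_lit 51) (nat_lit 4) (nat_lit 473) (nat_lit 377) (nat_lit 350)) (XT.nd (nat_lit 78) (nat_lit 152) (nat_lit 0) (XT.lf (nat_lit 0) (nat_lit 2858533016) (nat_lit 152) (nat_lit 480018667) (nat_lit 76) (nat_lit 24784134170) (nat_lit 49) (nat_lit 5) (nat_lit 51) (nat_lit 5) (nat_lit 50) (nat_lit 4) (nat_lit 474) (nat_lit 377) (nat_lit 349)) (XT.lf (nat_lit 0) (nat_lit 2536670012) (nat_lit 76) (nat_lit 16351276037) (nat_lit 76) (nat_lit 10151959481) (nat_lit 47) (nat_lit 4) (nat_lit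 48) (nat_lit 5) (nat_lit 48) (nat_lit 4) (nat_lit 475) (nat_lit 377) (nat_lit 348)))) (XT.nd (nat_lit 78) (nat_lit 228) (nat_lit 0) (XT.lf (nat_lit 0) (nat_lit 5329449904) (nat_lit 76) (nat_lit 396412638) (nat_lit 152) (nat_lit 24271829221) (nat_lit 45) (nat_lit 5) (nat_lit 46) (nat_lit 5) (nat_lit 47) (nat_lit 4) (nat_lit 476) (nat_lit 377) (nat_lit 347)) (XT.nd (nat_lit 78) (nat_lit 152) (nat_lit 0) (XT.lf (nat_lit 0) (nat_lit 7679811069) (nat_lit 76) (nat_lit 14755714380) (nat_lit 76) (nat_lit 8557389729) (nat_lit 44) (nat_lit 4) (nat_lit 45) (nat_lit 5) (nat_lit 45) (nat_lit 4) (nat_lit 477) (nat_lit 377) (nat_lit 346)) (XT.lf (nat_lit 0) (nat_lit 7903860049) (nat_lit 152) (nat_lit 22323192577) (nat_lit 0) (nat_lit 1805074701) (nat_lit 42) (nat_lit 5) (nat_lit 44) (nat_lit 4) (nat_lit 42) (nat_lit 4) (nat_lit 478) (nat_lit 377) (nat_lit 345))))) (XT.nd (nat_lit 234) (nat_lit 456) (nat_lit 0)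 (XT.nd (nat_lit 78) (nat_lit 228) (nat_lit 0) (XT.lf (nat_lit 0) (nat_lit 11233982718) (nat_lit 76) (nat_lit 14027593708) (nat_lit 76) (nat_lit 7851670813) (nat_lit 41) (nat_lit 4) (nat_lit 42) (nat_lit 5) (nat_lit 42) (nat_lit 4) (nat_lit 479) (nat_lit 377) (nat_lit 344)) (XT.nd (nat_lit 78) (nat_lit 76) (nat_lit 0) (XT.lf (nat_lit 0) (nat_lit 9194244662) (nat_lit 152) (nat_lit 21920563127) (nat_lit 0) (nat_lit 3126878423) (nat_lit 39) (nat_lit 5) (nat_lit 41) (nat_lit 4) (nat_lit 39) (nat_lit 4) (nat_lit 480) (nat_lit 377) (nat_lit 343)) (XT.lf (nat_lit 0) (nat_lit 12813911464) (nat_lit 76) (nat_lit 14369006467) (nat_lit 76) (nat_lit 8233712045) (nat_lit 38) (nat_lit 4) (nat_lit 39) (nat_lit 5) (nat_lit 39) (nat_lit 4) (nat_lit 481) (nat_lit 377) (nat_lit 342)))) (XT.nd (nat_lit 156) (nat_lit 228) (nat_lit 0) (XT.nd (nat_lit 78) (nat_lit 76) (nat_lit 0) (XT.lf (nat_lit 0) (nat_lit 9384404805)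 (nat_lit 152) (nat_lit 23893774753) (nat_lit 0) (nat_lit 3364999047) (nat_lit 36) (nat_lit 5) (nat_lit 38) (nat_lit 4) (nat_lit 36) (nat_lit 4) (nat_lit 482) (nat_lit 377) (nat_lit 341)) (XT.lf (nat_lit 0) (nat_lit 11956235109) (nat_lit 76) (nat_lit 16021825389) (nat_lit 76) (nat_lit 9942601315) (nat_lit 35) (nat_lit 4) (nat_lit 36) (nat_lit 5) (nat_lit 36) (nat_lit 4) (nat_lit 483) (nat_lit 377) (nat_lit 340))) (XT.nd (nat_lit 78) (nat_lit 76) (nat_lit 0) (XT.lf (nat_lit 0) (nat_lit 8223122723) (nat_lit 152) (nat_lit 28766532135) (nat_lit 0) (nat_lit 2265652920) (nat_lit 33) (nat_lit 5) (nat_lit 35) (nat_lit 4) (nat_lit 33) (nat_lit 4) (nat_lit 484) (nat_lit 377) (nat_lit 339)) (XT.lf (nat_lit 0) (nat_lit 8105321995) (nat_lit 76) (nat_lit 19274947331) (nat_lit 76) (nat_lit 13264800853) (nat_lit 32) (nat_lit 4) (nat_lit 33) (nat_lit 5) (nat_lit 33) (nat_lit 4) (nat_lit 485) (nat_lit 377) (nat_lit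 338)))))) (XT.nd (nat_lit 468) (nat_lit 532) (nat_lit 0) (XT.nd (nat_lit 234) (nat_lit 304) (nat_lit 0) (XT.nd (nat_lit 78) (nat_lit 152) (nat_lit 0) (XT.lf (nat_lit 0) (nat_lit 4929686606) (nat_lit 76) (nat_lit 484107160) (nat_lit 152) (nat_lit 36685131458) (nat_lit 30) (nat_lit 5) (nat_lit 31) (nat_lit 5) (nat_lit 32) (nat_lit 4) (nat_lit 486) (nat_lit 377) (nat_lit 337)) (XT.nd (nat_lit 78) (nat_lit 76) (nat_lit 0) (XT.lf (nat_lit 0) (nat_lit 596615150) (nat_lit 76) (nat_lit 24472791872) (nat_lit 76) (nat_lit 18542603485) (nat_lit 29) (nat_lit 4) (nat_lit 30) (nat_lit 5) (nat_lit 30) (nat_lit 4) (nat_lit 487) (nat_lit 377) (nat_lit 336)) (XT.lf (nat_lit 0) (nat_lit 678427861) (nat_lit 152) (nat_lit 4597158558) (nat_lit 76) (nat_lit 39919579536) (nat_lit 28) (nat_lit 5) (nat_lit 30) (nat_lit 5) (nat_lit 29) (nat_lit 4) (nat_lit 488) (nat_lit 377) (nat_lit 335)))) (XT.nd (nat_lit 78) (nat_lit 228)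 (nat_lit 0) (XT.lf (nat_lit 0) (nat_lit 20771574079) (nat_lit 152) (nat_lit 11141192903) (nat_lit 0) (nat_lit 14930368158) (nat_lit 27) (nat_lit 5) (nat_lit 29) (nat_lit 4) (nat_lit 27) (nat_lit 4) (nat_lit 489) (nat_lit 377) (nat_lit 334)) (XT.nd (nat_lit 78) (nat_lit 152) (nat_lit 0) (XT.lf (nat_lit 0) (nat_lit 29671086443) (nat_lit 76) (nat_lit 12388411587) (nat_lit 76) (nat_lit 6508301383) (nat_lit 26) (nat_lit 4) (nat_lit 27) (nat_lit 5) (nat_lit 27) (nat_lit 4) (nat_lit 490) (nat_lit 377) (nat_lit 333)) (XT.lf (nat_lit 0) (nat_lit 13977763133) (nat_lit 152) (nat_lit 28157387028) (nat_lit 0) (nat_lit 8232945752) (nat_lit 24) (nat_lit 5) (nat_lit 26) (nat_lit 4) (nat_lit 24) (nat_lit 4) (nat_lit 491) (nat_lit 377) (nat_lit 332))))) (XT.nd (nat_lit 234) (nat_lit 304) (nat_lit 0) (XT.nd (nat_lit 78) (nat_lit 152) (nat_lit 0) (XT.lf (nat_lit 0) (nat_lit 13201363084) (nat_lit 76) (nat_lit 22413178875)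 (nat_lit 76) (nat_lit 16634101950) (nat_lit 23) (nat_lit 4) (nat_lit 24) (nat_lit 5) (nat_lit 24) (nat_lit 4) (nat_lit 492) (nat_lit 377) (nat_lit 331)) (XT.nd (nat_lit 78) (nat_lit 0) (nat_lit 0) (XT.lf (nat_lit 0) (nat_lit 2638839173) (nat_lit 76) (nat_lit 1523990499) (nat_lit 152) (nat_lit 50055211941) (nat_lit 21) (nat_lit 5) (nat_lit 22) (nat_lit 5) (nat_lit 23) (nat_lit 4) (nat_lit 493) (nat_lit 377) (nat_lit 330)) (XT.lf (nat_lit 0) (nat_lit 26079497817) (nat_lit 152) (nat_lit 9781857108) (nat_lit 0) (nat_lit 20406896380) (nat_lit 21) (nat_lit 5) (nat_lit 23) (nat_lit 4) (nat_lit 21) (nat_lit 4) (nat_lit 494) (nat_lit 377) (nat_lit 329)))) (XT.nd (nat_lit 156) (nat_lit 76) (nat_lit 0) (XT.nd (nat_lit 78) (nat_lit 152) (nat_lit 0) (XT.lf (nat_lit 0) (nat_lit 34413715491) (nat_lit 76) (nat_lit 14851694001) (nat_lit 76) (nat_lit 9150359863) (nat_lit 20) (nat_lit 4) (nat_lit 21) (nat_lit 5) (nat_lit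 21) (nat_lit 4) (nat_lit 495) (nat_lit 377) (nat_lit 328)) (XT.lf (nat_lit 0) (nat_lit 12886484871) (nat_lit 152) (nat_lit 40449834349) (nat_lit 0) (nat_lit 7324641553) (nat_lit 18) (nat_lit 5) (nat_lit 20) (nat_lit 4) (nat_lit 18) (nat_lit 4) (nat_lit 496) (nat_lit 377) (nat_lit 327))) (XT.nd (nat_lit 78) (nat_lit 0) (nat_lit 0) (XT.lf (nat_lit 0) (nat_lit 3616657703) (nat_lit 76) (nat_lit 32489044365) (nat_lit 76) (nat_lit 26901898710) (nat_lit 17) (nat_lit 4) (nat_lit 18) (nat_lit 5) (nat_lit 18) (nat_lit 4) (nat_lit 497) (nat_lit 377) (nat_lit 326)) (XT.lf (nat_lit 0) (nat_lit 50406602343) (nat_lit 76) (nat_lit 10334281794) (nat_lit 76) (nat_lit 4723038675) (nat_lit 17) (nat_lit 4) (nat_lit 18) (nat_lit 5) (nat_lit 18) (nat_lit 4) (nat_lit 498) (nat_lit 377) (nat_lit 325))))))) (XT.nd (nat_lit 59124) (nat_lit 0) (nat_lit 3344) (XT.nd (nat_lit 58578) (nat_lit 0) (nat_lit 5548) (XT.nd (nat_lit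 58344) (nat_lit 0) (nat_lit 7068) (XT.nd (nat_lit 58188) (nat_lit 0) (nat_lit 7980) (XT.lf (nat_lit 0) (nat_lit 18478745646) (nat_lit 152) (nat_lit 36542019089) (nat_lit 0) (nat_lit 13008655273) (nat_lit 15) (nat_lit 5) (nat_lit 17) (nat_lit 4) (nat_lit 15) (nat_lit 4) (nat_lit 499) (nat_lit 377) (nat_lit 324)) (XT.nd (nat_lit 78) (nat_lit 228) (nat_lit 0) (XT.lf (nat_lit 0) (nat_lit 1968805040) (nat_lit 152) (nat_lit 2084187205) (nat_lit 152) (nat_lit 2084187205) (nat_lit 123) (nat_lit 4) (nat_lit 125) (nat_lit 5) (nat_lit 125) (nat_lit 4) (nat_lit 444) (nat_lit 378) (nat_lit 378)) (XT.lf (nat_lit 0) (nat_lit 5777145745) (nat_lit 228) (nat_lit 1749048579) (nat_lit 0) (nat_lit 5037656882) (nat_lit 120) (nat_lit 5) (nat_lit 123) (nat_lit 4) (nat_lit 120) (nat_lit 4) (nat_lit 445) (nat_lit 378) (nat_lit 377)))) (XT.nd (nat_lit 78) (nat_lit 532) (nat_lit 0) (XT.lf (nat_lit 0) (nat_lit 3225275417) (nat_lit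 228) (nat_lit 7816147517) (nat_lit 0) (nat_lit 1823562825) (nat_lit 115) (nat_lit 5) (nat_lit 118) (nat_lit 4) (nat_lit 115) (nat_lit 4) (nat_lit 446) (nat_lit 378) (nat_lit 376)) (XT.nd (nat_lit 78) (nat_lit 304) (nat_lit 0) (XT.lf (nat_lit 0) (nat_lit 423225334) (nat_lit 228) (nat_lit 1193767295) (nat_lit 76) (nat_lit 11561660204) (nat_lit 112) (nat_lit 5) (nat_lit 115) (nat_lit 5) (nat_lit 113) (nat_lit 4) (nat_lit 447) (nat_lit 378) (nat_lit 375)) (XT.lf (nat_lit 0) (nat_lit 5603182490) (nat_lit 152) (nat_lit 5247691520) (nat_lit 152) (nat_lit 2652441779) (nat_lit 108) (nat_lit 4) (nat_lit 110) (nat_lit 5) (nat_lit 110) (nat_lit 4) (nat_lit 448) (nat_lit 378) (nat_lit 374))))) (XT.nd (nat_lit 234) (nat_lit 836) (nat_lit 0) (XT.nd (nat_lit 78) (nat_lit 532) (nat_lit 0) (XT.lf (nat_lit 0) (nat_lit 7804649108) (nat_lit 152) (nat_lit 1308910058) (nat_lit 0) (nat_lit 4728235907) (nat_lit 106) (nat_lit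 5) (nat_lit 108) (nat_lit 4) (nat_lit 106) (nat_lit 4) (nat_lit 449) (nat_lit 378) (nat_lit 373)) (XT.nd (nat_lit 78) (nat_lit 228) (nat_lit 0) (XT.lf (nat_lit 0) (nat_lit 4497801429) (nat_lit 152) (nat_lit 8699521620) (nat_lit 0) (nat_lit 996195216) (nat_lit 102) (nat_lit 5) (nat_lit 104) (nat_lit 4) (nat_lit 102) (nat_lit 4) (nat_lit 450) (nat_lit 378) (nat_lit 372)) (XT.lf (nat_lit 0) (nat_lit 905088204) (nat_lit 228) (nat_lit 2154560281) (nat_lit 76) (nat_lit 11499680997) (nat_lit 99) (nat_lit 5) (nat_lit 102) (nat_lit 5) (nat_lit 100) (nat_lit 4) (nat_lit 451) (nat_lit 378) (nat_lit 371)))) (XT.nd (nat_lit 156) (nat_lit 456) (nat_lit 0) (XT.nd (nat_lit 78) (nat_lit 152) (nat_lit 0) (XT.lf (nat_lit 0) (nat_lit 4538978919) (nat_lit 152) (nat_lit 7364248831) (nat_lit 152) (nat_lit 3035291895) (nat_lit 96) (nat_lit 4) (nat_lit 98) (nat_lit 5) (nat_lit 98) (nat_lit 4) (nat_lit 452) (nat_lit 378)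 (nat_lit 370)) (XT.lf (nat_lit 0) (nat_lit 7995521748) (nat_lit 152) (nat_lit 3964154856) (nat_lit 0) (nat_lit 3373477361) (nat_lit 94) (nat_lit 5) (nat_lit 96) (nat_lit 4) (nat_lit 94) (nat_lit 4) (nat_lit 453) (nat_lit 378) (nat_lit 369))) (XT.nd (nat_lit 78) (nat_lit 152) (nat_lit 0) (XT.lf (nat_lit 0) (nat_lit 2602545887) (nat_lit 76) (nat_lit 1153022192) (nat_lit 152) (nat_lit 11988147343) (nat_lit 90) (nat_lit 5) (nat_lit 91) (nat_lit 5) (nat_lit 92) (nat_lit 4) (nat_lit 454) (nat_lit 378) (nat_lit 368)) (XT.lf (nat_lit 0) (nat_lit 9301073126) (nat_lit 152) (nat_lit 6056260437) (nat_lit 152) (nat_lit 812124413) (nat_lit 88) (nat_lit 4) (nat_lit 90) (nat_lit 5) (nat_lit 90) (nat_lit 4) (nat_lit 455) (nat_lit 378) (nat_lit 367)))))) (XT.nd (nat_lit 546) (nat_lit 912) (nat_lit 0) (XT.nd (nat_lit 234) (nat_lit 608) (nat_lit 0) (XT.nd (nat_lit 78) (nat_lit 532) (nat_lit 0) (XT.lf (nat_lit 0) (nat_lit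 10745119821) (nat_lit 152) (nat_lit 554739603) (nat_lit 0) (nat_lit 5312413628) (nat_lit 86) (nat_lit 5) (nat_lit 88) (nat_lit 4) (nat_lit 86) (nat_lit 4) (nat_lit 456) (nat_lit 378) (nat_lit 366)) (XT.nd (nat_lit 78) (nat_lit 228) (nat_lit 0) (XT.lf (nat_lit 0) (nat_lit 5773657476) (nat_lit 152) (nat_lit 11115065425) (nat_lit 0) (nat_lit 183594141) (nat_lit 82) (nat_lit 5) (nat_lit 84) (nat_lit 4) (nat_lit 82) (nat_lit 4) (nat_lit 457) (nat_lit 378) (nat_lit 365)) (XT.lf (nat_lit 0) (nat_lit 421039115) (nat_lit 228) (nat_lit 5035917075) (nat_lit 76) (nat_lit 12093400382) (nat_lit 79) (nat_lit 5) (nat_lit 82) (nat_lit 5) (nat_lit 80) (nat_lit 4) (nat_lit 458) (nat_lit 378) (nat_lit 364)))) (XT.nd (nat_lit 156) (nat_lit 304) (nat_lit 0) (XT.nd (nat_lit 78) (nat_lit 152) (nat_lit 0) (XT.lf (nat_lit 0) (nat_lit 1077626833) (nat_lit 76) (nat_lit 11483126918) (nat_lit 76) (nat_lit 5486158865) (nat_lit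 77) (nat_lit 4) (nat_lit 78) (nat_lit 5) (nat_lit 78) (nat_lit 4) (nat_lit 459) (nat_lit 378) (nat_lit 363)) (XT.lf (nat_lit 0) (nat_lit 6717200849) (nat_lit 152) (nat_lit 11207935699) (nat_lit 0) (nat_lit 637931618) (nat_lit 75) (nat_lit 5) (nat_lit 77) (nat_lit 4) (nat_lit 75) (nat_lit 4) (nat_lit 460) (nat_lit 378) (nat_lit 362))) (XT.nd (nat_lit 78) (nat_lit 152) (nat_lit 0) (XT.lf (nat_lit 0) (nat_lit 428661120) (nat_lit 152) (nat_lit 5453820633) (nat_lit 76) (nat_lit 13217203502) (nat_lit 73) (nat_lit 5) (nat_lit 75) (nat_lit 5) (nat_lit 74) (nat_lit 4) (nat_lit 461) (nat_lit 378) (nat_lit 361)) (XT.lf (nat_lit 0) (nat_lit 283624979) (nat_lit 76) (nat_lit 12869822308) (nat_lit 76) (nat_lit 6503723075) (nat_lit 71) (nat_lit 4) (nat_lit 72) (nat_lit 5) (nat_lit 72) (nat_lit 4) (nat_lit 462) (nat_lit 378) (nat_lit 360))))) (XT.nd (nat_lit 234) (nat_lit 532) (nat_lit 0) (XT.nd (nat_lit 78) (nat_lit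 228) (nat_lit 0) (XT.lf (nat_lit 0) (nat_lit 6168096558) (nat_lit 76) (nat_lit 112549165) (nat_lit 152) (nat_lit 13956143871) (nat_lit 69) (nat_lit 5) (nat_lit 70) (nat_lit 5) (nat_lit 71) (nat_lit 4) (nat_lit 463) (nat_lit 378) (nat_lit 359)) (XT.nd (nat_lit 78) (nat_lit 152) (nat_lit 0) (XT.lf (nat_lit 0) (nat_lit 12012781919) (nat_lit 76) (nat_lit 7707673183) (nat_lit 76) (nat_lit 1118482244) (nat_lit 68) (nat_lit 4) (nat_lit 69) (nat_lit 5) (nat_lit 69) (nat_lit 4) (nat_lit 464) (nat_lit 378) (nat_lit 358)) (XT.lf (nat_lit 0) (nat_lit 12205033481) (nat_lit 152) (nat_lit 3636536575) (nat_lit 0) (nat_lit 5623503506) (nat_lit 66) (nat_lit 5) (nat_lit 68) (nat_lit 4) (nat_lit 66) (nat_lit 4) (nat_lit 465) (nat_lit 378) (nat_lit 357)))) (XT.nd (nat_lit 156) (nat_lit 228) (nat_lit 0) (XT.nd (nat_lit 78) (nat_lit 76) (nat_lit 0) (XT.lf (nat_lit 0) (nat_lit 1567471717) (nat_lit 76) (nat_lit 2533259690)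 (nat_lit 152) (nat_lit 18016376011) (nat_lit 63) (nat_lit 5) (nat_lit 64) (nat_lit 5) (nat_lit 65) (nat_lit 4) (nat_lit 466) (nat_lit 378) (nat_lit 356)) (XT.lf (nat_lit 0) (nat_lit 6741557871) (nat_lit 76) (nat_lit 11387091398) (nat_lit 76) (nat_lit 4664625603) (nat_lit 62) (nat_lit 4) (nat_lit 63) (nat_lit 5) (nat_lit 63) (nat_lit 4) (nat_lit 467) (nat_lit 378) (nat_lit 355))) (XT.nd (nat_lit 78) (nat_lit 76) (nat_lit 0) (XT.lf (nat_lit 0) (nat_lit 9270876855) (nat_lit 152) (nat_lit 11632536179) (nat_lit 0) (nat_lit 2594179634) (nat_lit 60) (nat_lit 5) (nat_lit 62) (nat_lit 4) (nat_lit 60) (nat_lit 4) (nat_lit 468) (nat_lit 378) (nat_lit 354)) (XT.lf (nat_lit 0) (nat_lit 16904351117) (nat_lit 76) (nat_lit 7072928476) (nat_lit 76) (nat_lit 253344206) (nat_lit 59) (nat_lit 4) (nat_lit 60) (nat_lit 5) (nat_lit 60) (nat_lit 4) (nat_lit 469) (nat_lit 378) (nat_lit 353))))))))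
noncomputable def xc15 : XT := (XT.nd (nat_lit 2106) (nat_lit 228) (nat_lit 0) (XT.nd (nat_lit 1014) (nat_lit 1368) (nat_lit 0) (XT.nd (nat_lit 468) (nat_lit 760) (nat_lit 0) (XT.nd (nat_lit 234) (nat_lit 380) (nat_lit 0) (XT.nd (nat_lit 78) (nat_lit 304) (nat_lit 0) (XT.lf (nat_lit 0) (nat_lit 14272974327) (nat_lit 152) (nat_lit 3199206362) (nat_lit 0) (nat_lit 7519899403) (nat_lit 57) (nat_lit 5) (nat_lit 59) (nat_lit 4) (nat_lit 57) (nat_lit 4) (nat_lit 470) (nat_lit 378) (nat_lit 352)) (XT.nd (nat_lit 78) (nat_lit 76) (nat_lit 0) (XT.lf (nat_lit 0) (nat_lit 846399012) (nat_lit 76) (nat_lit 2959168408) (nat_lit 152) (nat_lit 21980407112) (nat_lit 54) (nat_lit 5) (nat_lit 55) (nat_lit 5) (nat_lit 56) (nat_lit 4) (nat_lit 471) (nat_lit 378) (nat_lit 351)) (XT.lf (nat_lit 0) (nat_lit 4718230585) (nat_lit 76) (nat_lit 14343122573) (nat_lit 76) (nat_lit 7548230367) (nat_lit 53) (nat_lit 4) (nat_lit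 54) (nat_lit 5) (nat_lit 54) (nat_lit 4) (nat_lit 472) (nat_lit 378) (nat_lit 350)))) (XT.nd (nat_lit 78) (nat_lit 228) (nat_lit 0) (XT.lf (nat_lit 0) (nat_lit 7575047396) (nat_lit 152) (nat_lit 19023109298) (nat_lit 0) (nat_lit 870486541) (nat_lit 51) (nat_lit 5) (nat_lit 53) (nat_lit 4) (nat_lit 51) (nat_lit 4) (nat_lit 473) (nat_lit 378) (nat_lit 349)) (XT.nd (nat_lit 78) (nat_lit 152) (nat_lit 0) (XT.lf (nat_lit 0) (nat_lit 11892835092) (nat_lit 76) (nat_lit 11637813788) (nat_lit 76) (nat_lit 4830797570) (nat_lit 50) (nat_lit 4) (nat_lit 51) (nat_lit 5) (nat_lit 51) (nat_lit 4) (nat_lit 474) (nat_lit 378) (nat_lit 348)) (XT.lf (nat_lit 0) (nat_lit 10904458674) (nat_lit 152) (nat_lit 14186282964) (nat_lit 0) (nat_lit 4200970564) (nat_lit 48) (nat_lit 5) (nat_lit 50) (nat_lit 4) (nat_lit 48) (nat_lit 4) (nat_lit 475) (nat_lit 378) (nat_lit 347))))) (XT.nd (nat_lit 234) (nat_lit 456) (nat_lit 0)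 (XT.nd (nat_lit 78) (nat_lit 228) (nat_lit 0) (XT.lf (nat_lit 0) (nat_lit 18032930940) (nat_lit 76) (nat_lit 9510663333) (nat_lit 76) (nat_lit 2716951888) (nat_lit 47) (nat_lit 4) (nat_lit 48) (nat_lit 5) (nat_lit 48) (nat_lit 4) (nat_lit 476) (nat_lit 378) (nat_lit 346)) (XT.nd (nat_lit 78) (nat_lit 76) (nat_lit 0) (XT.lf (nat_lit 0) (nat_lit 13642149809) (nat_lit 152) (nat_lit 10663621693) (nat_lit 0) (nat_lit 6962889198) (nat_lit 45) (nat_lit 5) (nat_lit 47) (nat_lit 4) (nat_lit 45) (nat_lit 4) (nat_lit 477) (nat_lit 378) (nat_lit 345)) (XT.lf (nat_lit 0) (nat_lit 22861152347) (nat_lit 76) (nat_lit 8108862208) (nat_lit 76) (nat_lit 1350149923) (nat_lit 44) (nat_lit 4) (nat_lit 45) (nat_lit 5) (nat_lit 45) (nat_lit 4) (nat_lit 478) (nat_lit 378) (nat_lit 344)))) (XT.nd (nat_lit 156) (nat_lit 228) (nat_lit 0) (XT.nd (nat_lit 78) (nat_lit 76) (nat_lit 0) (XT.lf (nat_lit 0) (nat_lit 15637926227)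 (nat_lit 152) (nat_lit 8773022024) (nat_lit 0) (nat_lit 9002605309) (nat_lit 42) (nat_lit 5) (nat_lit 44) (nat_lit 4) (nat_lit 42) (nat_lit 4) (nat_lit 479) (nat_lit 378) (nat_lit 343)) (XT.lf (nat_lit 0) (nat_lit 26041604626) (nat_lit 76) (nat_lit 7609394171) (nat_lit 76) (nat_lit 904107224) (nat_lit 41) (nat_lit 4) (nat_lit 42) (nat_lit 5) (nat_lit 42) (nat_lit 4) (nat_lit 480) (nat_lit 378) (nat_lit 342))) (XT.nd (nat_lit 78) (nat_lit 76) (nat_lit 0) (XT.lf (nat_lit 0) (nat_lit 16709688113) (nat_lit 152) (nat_lit 8897390921) (nat_lit 0) (nat_lit 10135007278) (nat_lit 39) (nat_lit 5) (nat_lit 41) (nat_lit 4) (nat_lit 39) (nat_lit 4) (nat_lit 481) (nat_lit 378) (nat_lit 341)) (XT.lf (nat_lit 0) (nat_lit 27169083355) (nat_lit 76) (nat_lit 8224556426) (nat_lit 76) (nat_lit 1588262725) (nat_lit 38) (nat_lit 4) (nat_lit 39) (nat_lit 5) (nat_lit 39) (nat_lit 4) (nat_lit 482) (nat_lit 378) (nat_lit 340))))))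 (XT.nd (nat_lit 546) (nat_lit 532) (nat_lit 0) (XT.nd (nat_lit 234) (nat_lit 456) (nat_lit 0) (XT.nd (nat_lit 78) (nat_lit 228) (nat_lit 0) (XT.lf (nat_lit 0) (nat_lit 16637641548) (nat_lit 152) (nat_lit 11496496552) (nat_lit 0) (nat_lit 10137668131) (nat_lit 36) (nat_lit 5) (nat_lit 38) (nat_lit 4) (nat_lit 36) (nat_lit 4) (nat_lit 483) (nat_lit 378) (nat_lit 339)) (XT.nd (nat_lit 78) (nat_lit 152) (nat_lit 0) (XT.lf (nat_lit 0) (nat_lit 25756402800) (nat_lit 76) (nat_lit 10208437943) (nat_lit 76) (nat_lit 3654207551) (nat_lit 35) (nat_lit 4) (nat_lit 36) (nat_lit 5) (nat_lit 36) (nat_lit 4) (nat_lit 484) (nat_lit 378) (nat_lit 338)) (XT.lf (nat_lit 0) (nat_lit 15157487934) (nat_lit 152) (nat_lit 17120890248) (nat_lit 0) (nat_lit 8743989194) (nat_lit 33) (nat_lit 5) (nat_lit 35) (nat_lit 4) (nat_lit 33) (nat_lit 4) (nat_lit 485) (nat_lit 378) (nat_lit 337)))) (XT.nd (nat_lit 156) (nat_lit 228)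 (nat_lit 0) (XT.nd (nat_lit 78) (nat_lit 152) (nat_lit 0) (XT.lf (nat_lit 0) (nat_lit 21219507258) (nat_lit 76) (nat_lit 13864521512) (nat_lit 76) (nat_lit 7403243475) (nat_lit 32) (nat_lit 4) (nat_lit 33) (nat_lit 5) (nat_lit 33) (nat_lit 4) (nat_lit 486) (nat_lit 378) (nat_lit 336)) (XT.lf (nat_lit 0) (nat_lit 11952416439) (nat_lit 152) (nat_lit 26428256441) (nat_lit 0) (nat_lit 5635152235) (nat_lit 30) (nat_lit 5) (nat_lit 32) (nat_lit 4) (nat_lit 30) (nat_lit 4) (nat_lit 487) (nat_lit 378) (nat_lit 335))) (XT.nd (nat_lit 78) (nat_lit 152) (nat_lit 0) (XT.lf (nat_lit 0) (nat_lit 12859983331) (nat_lit 76) (nat_lit 19554603806) (nat_lit 76) (nat_lit 13195264620) (nat_lit 29) (nat_lit 4) (nat_lit 30) (nat_lit 5) (nat_lit 30) (nat_lit 4) (nat_lit 488) (nat_lit 378) (nat_lit 334)) (XT.lf (nat_lit 0) (nat_lit 6643694177) (nat_lit 152) (nat_lit 40202608168) (nat_lit 0) (nat_lit 430674180) (nat_lit 27)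 (nat_lit 5) (nat_lit 29) (nat_lit 4) (nat_lit 27) (nat_lit 4) (nat_lit 489) (nat_lit 378) (nat_lit 333))))) (XT.nd (nat_lit 234) (nat_lit 304) (nat_lit 0) (XT.nd (nat_lit 78) (nat_lit 228) (nat_lit 0) (XT.lf (nat_lit 0) (nat_lit 27555281295) (nat_lit 152) (nat_lit 152440118) (nat_lit 0) (nat_lit 21305209600) (nat_lit 27) (nat_lit 5) (nat_lit 29) (nat_lit 4) (nat_lit 27) (nat_lit 4) (nat_lit 490) (nat_lit 378) (nat_lit 332)) (XT.nd (nat_lit 78) (nat_lit 152) (nat_lit 0) (XT.lf (nat_lit 0) (nat_lit 42369494800) (nat_lit 76) (nat_lit 7372333132) (nat_lit 76) (nat_lit 1086974106) (nat_lit 26) (nat_lit 4) (nat_lit 27) (nat_lit 5) (nat_lit 27) (nat_lit 4) (nat_lit 491) (nat_lit 378) (nat_lit 331)) (XT.lf (nat_lit 0) (nat_lit 20201860839) (nat_lit 152) (nat_lit 18451935008) (nat_lit 0) (nat_lit 14066942385) (nat_lit 24) (nat_lit 5) (nat_lit 26) (nat_lit 4) (nat_lit 24) (nat_lit 4) (nat_lit 492) (nat_lit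 378) (nat_lit 330)))) (XT.nd (nat_lit 156) (nat_lit 76) (nat_lit 0) (XT.nd (nat_lit 78) (nat_lit 152) (nat_lit 0) (XT.lf (nat_lit 0) (nat_lit 24656191483) (nat_lit 76) (nat_lit 18104947746) (nat_lit 76) (nat_lit 11938954875) (nat_lit 23) (nat_lit 4) (nat_lit 24) (nat_lit 5) (nat_lit 24) (nat_lit 4) (nat_lit 493) (nat_lit 378) (nat_lit 329)) (XT.lf (nat_lit 0) (nat_lit 9669552854) (nat_lit 152) (nat_lit 43446008632) (nat_lit 0) (nat_lit 3654419306) (nat_lit 21) (nat_lit 5) (nat_lit 23) (nat_lit 4) (nat_lit 21) (nat_lit 4) (nat_lit 494) (nat_lit 378) (nat_lit 328))) (XT.nd (nat_lit 78) (nat_lit 76) (nat_lit 0) (XT.lf (nat_lit 0) (nat_lit 32444390520) (nat_lit 152) (nat_lit 83548130) (nat_lit 0) (nat_lit 26401892494) (nat_lit 21) (nat_lit 5) (nat_lit 23) (nat_lit 4) (nat_lit 21) (nat_lit 4) (nat_lit 495) (nat_lit 378) (nat_lit 327)) (XT.lf (nat_lit 0) (nat_lit 46029783270) (nat_lit 76) (nat_lit 10613938888)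 (nat_lit 76) (nat_lit 4545379454) (nat_lit 20) (nat_lit 4) (nat_lit 21) (nat_lit 5) (nat_lit 21) (nat_lit 4) (nat_lit 496) (nat_lit 378) (nat_lit 326))))))) (XT.nd (nat_lit 58968) (nat_lit 0) (nat_lit 3724) (XT.nd (nat_lit 58422) (nat_lit 0) (nat_lit 6232) (XT.nd (nat_lit 58188) (nat_lit 0) (nat_lit 8056) (XT.nd (nat_lit 78) (nat_lit 76) (nat_lit 0) (XT.lf (nat_lit 0) (nat_lit 18398446198) (nat_lit 152) (nat_lit 32666985471) (nat_lit 0) (nat_lit 12482543459) (nat_lit 18) (nat_lit 5) (nat_lit 20) (nat_lit 4) (nat_lit 18) (nat_lit 4) (nat_lit 497) (nat_lit 378) (nat_lit 325)) (XT.nd (nat_lit 78) (nat_lit 0) (nat_lit 0) (XT.lf (nat_lit 0) (nat_lit 13321763064) (nat_lit 76) (nat_lit 29316622082) (nat_lit 76) (nat_lit 23377769377) (nat_lit 17) (nat_lit 4) (nat_lit 18) (nat_lit 5) (nat_lit 18) (nat_lit 4) (nat_lit 498) (nat_lit 378) (nat_lit 324)) (XT.lf (nat_lit 0) (nat_lit 61997668152) (nat_lit 76)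 (nat_lit 6282543978) (nat_lit 76) (nat_lit 321834163) (nat_lit 17) (nat_lit 4) (nat_lit 18) (nat_lit 5) (nat_lit 18) (nat_lit 4) (nat_lit 499) (nat_lit 378) (nat_lit 323)))) (XT.nd (nat_lit 78) (nat_lit 532) (nat_lit 0) (XT.lf (nat_lit 0) (nat_lit 679944152) (nat_lit 228) (nat_lit 4502381535) (nat_lit 0) (nat_lit 679944152) (nat_lit 130) (nat_lit 5) (nat_lit 133) (nat_lit 4) (nat_lit 130) (nat_lit 4) (nat_lit 442) (nat_lit 379) (nat_lit 379)) (XT.nd (nat_lit 78) (nat_lit 380) (nat_lit 0) (XT.lf (nat_lit 0) (nat_lit 9231302301) (nat_lit 152) (nat_lit 1794586155) (nat_lit 152) (nat_lit 970836234) (nat_lit 128) (nat_lit 4) (nat_lit 130) (nat_lit 5) (nat_lit 130) (nat_lit 4) (nat_lit 443) (nat_lit 379) (nat_lit 378)) (XT.lf (nat_lit 0) (nat_lit 3628829358) (nat_lit 152) (nat_lit 5106044305) (nat_lit 152) (nat_lit 3544613572) (nat_lit 123) (nat_lit 4) (nat_lit 125) (nat_lit 5) (nat_lit 125) (nat_lit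 4) (nat_lit 444) (nat_lit 379) (nat_lit 377))))) (XT.nd (nat_lit 234) (nat_lit 988) (nat_lit 0) (XT.nd (nat_lit 78) (nat_lit 608) (nat_lit 0) (XT.lf (nat_lit 0) (nat_lit 6208045911) (nat_lit 228) (nat_lit 2378357897) (nat_lit 0) (nat_lit 3987818635) (nat_lit 120) (nat_lit 5) (nat_lit 123) (nat_lit 4) (nat_lit 120) (nat_lit 4) (nat_lit 445) (nat_lit 379) (nat_lit 376)) (XT.nd (nat_lit 78) (nat_lit 228) (nat_lit 0) (XT.lf (nat_lit 0) (nat_lit 3445332851) (nat_lit 228) (nat_lit 8797102543) (nat_lit 0) (nat_lit 638570256) (nat_lit 115) (nat_lit 5) (nat_lit 118) (nat_lit 4) (nat_lit 115) (nat_lit 4) (nat_lit 446) (nat_lit 379) (nat_lit 375)) (XT.lf (nat_lit 0) (nat_lit 447776422) (nat_lit 228) (nat_lit 2517968964) (nat_lit 76) (nat_lit 10234135458) (nat_lit 112) (nat_lit 5) (nat_lit 115) (nat_lit 5) (nat_lit 113) (nat_lit 4) (nat_lit 447) (nat_lit 379) (nat_lit 374)))) (XT.nd (nat_lit 156) (nat_lit 532)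 (nat_lit 0) (XT.nd (nat_lit 78) (nat_lit 152) (nat_lit 0) (XT.lf (nat_lit 0) (nat_lit 3910770420) (nat_lit 152) (nat_lit 6760251960) (nat_lit 152) (nat_lit 2859655227) (nat_lit 108) (nat_lit 4) (nat_lit 110) (nat_lit 5) (nat_lit 110) (nat_lit 4) (nat_lit 448) (nat_lit 379) (nat_lit 373)) (XT.lf (nat_lit 0) (nat_lit 7406981097) (nat_lit 152) (nat_lit 3378319306) (nat_lit 0) (nat_lit 3089752780) (nat_lit 106) (nat_lit 5) (nat_lit 108) (nat_lit 4) (nat_lit 106) (nat_lit 4) (nat_lit 449) (nat_lit 379) (nat_lit 372))) (XT.nd (nat_lit 78) (nat_lit 228) (nat_lit 0) (XT.lf (nat_lit 0) (nat_lit 3016705217) (nat_lit 76) (nat_lit 844834266) (nat_lit 152) (nat_lit 10371774980) (nat_lit 102) (nat_lit 5) (nat_lit 103) (nat_lit 5) (nat_lit 104) (nat_lit 4) (nat_lit 450) (nat_lit 379) (nat_lit 371)) (XT.lf (nat_lit 0) (nat_lit 48657189) (nat_lit 228) (nat_lit 5049929139) (nat_lit 76) (nat_lit 9506542632) (nat_lit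 99) (nat_lit 5) (nat_lit 102) (nat_lit 5) (nat_lit 100) (nat_lit 4) (nat_lit 451) (nat_lit 379) (nat_lit 370)))))) (XT.nd (nat_lit 546) (nat_lit 1064) (nat_lit 0) (XT.nd (nat_lit 234) (nat_lit 836) (nat_lit 0) (XT.nd (nat_lit 78) (nat_lit 380) (nat_lit 0) (XT.lf (nat_lit 0) (nat_lit 1196811498) (nat_lit 152) (nat_lit 9612560723) (nat_lit 152) (nat_lit 4182070936) (nat_lit 96) (nat_lit 4) (nat_lit 98) (nat_lit 5) (nat_lit 98) (nat_lit 4) (nat_lit 452) (nat_lit 379) (nat_lit 369)) (XT.nd (nat_lit 78) (nat_lit 228) (nat_lit 0) (XT.lf (nat_lit 0) (nat_lit 6657842027) (nat_lit 152) (nat_lit 7748656796) (nat_lit 0) (nat_lit 986308917) (nat_lit 94) (nat_lit 5) (nat_lit 96) (nat_lit 4) (nat_lit 94) (nat_lit 4) (nat_lit 453) (nat_lit 379) (nat_lit 368)) (XT.lf (nat_lit 0) (nat_lit 2168160048) (nat_lit 228) (nat_lit 1650371000) (nat_lit 76) (nat_lit 11991762467) (nat_lit 91) (nat_lit 5) (nat_lit 94) (nat_lit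 5) (nat_lit 92) (nat_lit 4) (nat_lit 454) (nat_lit 379) (nat_lit 367)))) (XT.nd (nat_lit 156) (nat_lit 456) (nat_lit 0) (XT.nd (nat_lit 78) (nat_lit 152) (nat_lit 0) (XT.lf (nat_lit 0) (nat_lit 4592068001) (nat_lit 152) (nat_lit 8939077809) (nat_lit 152) (nat_lit 2712054709) (nat_lit 88) (nat_lit 4) (nat_lit 90) (nat_lit 5) (nat_lit 90) (nat_lit 4) (nat_lit 455) (nat_lit 379) (nat_lit 366)) (XT.lf (nat_lit 0) (nat_lit 8654570708) (nat_lit 152) (nat_lit 5754966391) (nat_lit 0) (nat_lit 2283858170) (nat_lit 86) (nat_lit 5) (nat_lit 88) (nat_lit 4) (nat_lit 86) (nat_lit 4) (nat_lit 456) (nat_lit 379) (nat_lit 365))) (XT.nd (nat_lit 78) (nat_lit 152) (nat_lit 0) (XT.lf (nat_lit 0) (nat_lit 193459148) (nat_lit 76) (nat_lit 3192625445) (nat_lit 152) (nat_lit 13775730195) (nat_lit 82) (nat_lit 5) (nat_lit 83) (nat_lit 5) (nat_lit 84) (nat_lit 4) (nat_lit 457) (nat_lit 379) (nat_lit 364)) (XT.lf (nat_lit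 0) (nat_lit 6291633134) (nat_lit 152) (nat_lit 9063713416) (nat_lit 152) (nat_lit 2291741852) (nat_lit 80) (nat_lit 4) (nat_lit 82) (nat_lit 5) (nat_lit 82) (nat_lit 4) (nat_lit 458) (nat_lit 379) (nat_lit 363))))) (XT.nd (nat_lit 234) (nat_lit 608) (nat_lit 0) (XT.nd (nat_lit 78) (nat_lit 304) (nat_lit 0) (XT.lf (nat_lit 0) (nat_lit 9637546296) (nat_lit 152) (nat_lit 5716276866) (nat_lit 0) (nat_lit 2798137367) (nat_lit 78) (nat_lit 5) (nat_lit 80) (nat_lit 4) (nat_lit 78) (nat_lit 4) (nat_lit 459) (nat_lit 379) (nat_lit 362)) (XT.nd (nat_lit 78) (nat_lit 152) (nat_lit 0) (XT.lf (nat_lit 0) (nat_lit 3469809360) (nat_lit 152) (nat_lit 47771409) (nat_lit 76) (nat_lit 15159756179) (nat_lit 76) (nat_lit 5) (nat_lit 78) (nat_lit 5) (nat_lit 77) (nat_lit 4) (nat_lit 460) (nat_lit 379) (nat_lit 361)) (XT.lf (nat_lit 0) (nat_lit 5735586575) (nat_lit 76) (nat_lit 10302034893) (nat_lit 76) (nat_lit 3184019069)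 (nat_lit 74) (nat_lit 4) (nat_lit 75) (nat_lit 5) (nat_lit 75) (nat_lit 4) (nat_lit 461) (nat_lit 379) (nat_lit 360)))) (XT.nd (nat_lit 156) (nat_lit 304) (nat_lit 0) (XT.nd (nat_lit 78) (nat_lit 152) (nat_lit 0) (XT.lf (nat_lit 0) (nat_lit 9335396251) (nat_lit 152) (nat_lit 8243487068) (nat_lit 0) (nat_lit 2209186250) (nat_lit 72) (nat_lit 5) (nat_lit 74) (nat_lit 4) (nat_lit 72) (nat_lit 4) (nat_lit 462) (nat_lit 379) (nat_lit 359)) (XT.lf (nat_lit 0) (nat_lit 2127898226) (nat_lit 152) (nat_lit 3011829008) (nat_lit 76) (nat_lit 15237526624) (nat_lit 70) (nat_lit 5) (nat_lit 72) (nat_lit 5) (nat_lit 71) (nat_lit 4) (nat_lit 463) (nat_lit 379) (nat_lit 358))) (XT.nd (nat_lit 78) (nat_lit 152) (nat_lit 0) (XT.lf (nat_lit 0) (nat_lit 2220293004) (nat_lit 76) (nat_lit 13038049861) (nat_lit 76) (nat_lit 5730340258) (nat_lit 68) (nat_lit 4) (nat_lit 69) (nat_lit 5) (nat_lit 69) (nat_lit 4) (nat_lit 464)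 (nat_lit 379) (nat_lit 357)) (XT.lf (nat_lit 0) (nat_lit 7395248520) (nat_lit 152) (nat_lit 14104637172) (nat_lit 0) (nat_lit 124901763) (nat_lit 66) (nat_lit 5) (nat_lit 68) (nat_lit 4) (nat_lit 66) (nat_lit 4) (nat_lit 465) (nat_lit 379) (nat_lit 356))))))))
noncomputable def xc16 : XT := (XT.nd (nat_lit 2028) (nat_lit 684) (nat_lit 0) (XT.nd (nat_lit 1014) (nat_lit 1368) (nat_lit 0) (XT.nd (nat_lit 468) (nat_lit 912) (nat_lit 0) (XT.nd (nat_lit 234) (nat_lit 380) (nat_lit 0) (XT.nd (nat_lit 78) (nat_lit 304) (nat_lit 0) (XT.lf (nat_lit 0) (nat_lit 12755195983) (nat_lit 76) (nat_lit 8483928922) (nat_lit 76) (nat_lit 1046455436) (nat_lit 65) (nat_lit 4) (nat_lit 66) (nat_lit 5) (nat_lit 66) (nat_lit 4) (nat_lit 466) (nat_lit 379) (nat_lit 355)) (XT.nd (nat_lit 78) (nat_lit 152) (nat_lit 0) (XT.lf (nat_lit 0) (nat_lit 12652725003) (nat_lit 152) (nat_lit 5042455142) (nat_lit 0) (nat_lit 5277344616)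 (nat_lit 63) (nat_lit 5) (nat_lit 65) (nat_lit 4) (nat_lit 63) (nat_lit 4) (nat_lit 467) (nat_lit 379) (nat_lit 354)) (XT.lf (nat_lit 0) (nat_lit 3406201032) (nat_lit 152) (nat_lit 607965949) (nat_lit 76) (nat_lit 19673902469) (nat_lit 61) (nat_lit 5) (nat_lit 63) (nat_lit 5) (nat_lit 62) (nat_lit 4) (nat_lit 468) (nat_lit 379) (nat_lit 353)))) (XT.nd (nat_lit 78) (nat_lit 228) (nat_lit 0) (XT.lf (nat_lit 0) (nat_lit 3758526168) (nat_lit 76) (nat_lit 14055532308) (nat_lit 76) (nat_lit 6615998874) (nat_lit 59) (nat_lit 4) (nat_lit 60) (nat_lit 5) (nat_lit 60) (nat_lit 4) (nat_lit 469) (nat_lit 379) (nat_lit 352)) (XT.nd (nat_lit 78) (nat_lit 76) (nat_lit 0) (XT.lf (nat_lit 0) (nat_lit 7706519951) (nat_lit 152) (nat_lit 17138823633) (nat_lit 0) (nat_lit 357844030) (nat_lit 57) (nat_lit 5) (nat_lit 59) (nat_lit 4) (nat_lit 57) (nat_lit 4) (nat_lit 470) (nat_lit 379) (nat_lit 351)) (XT.lf (nat_lit 0)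 (nat_lit 12189732425) (nat_lit 76) (nat_lit 10642535811) (nat_lit 76) (nat_lit 3174023769) (nat_lit 56) (nat_lit 4) (nat_lit 57) (nat_lit 5) (nat_lit 57) (nat_lit 4) (nat_lit 471) (nat_lit 379) (nat_lit 350))))) (XT.nd (nat_lit 234) (nat_lit 532) (nat_lit 0) (XT.nd (nat_lit 78) (nat_lit 228) (nat_lit 0) (XT.lf (nat_lit 0) (nat_lit 11764009129) (nat_lit 152) (nat_lit 10675977118) (nat_lit 0) (nat_lit 4402221089) (nat_lit 54) (nat_lit 5) (nat_lit 56) (nat_lit 4) (nat_lit 54) (nat_lit 4) (nat_lit 472) (nat_lit 379) (nat_lit 349)) (XT.nd (nat_lit 78) (nat_lit 152) (nat_lit 0) (XT.lf (nat_lit 0) (nat_lit 19991100256) (nat_lit 76) (nat_lit 7594561135) (nat_lit 76) (nat_lit 127244072) (nat_lit 53) (nat_lit 4) (nat_lit 54) (nat_lit 5) (nat_lit 54) (nat_lit 4) (nat_lit 473) (nat_lit 379) (nat_lit 348)) (XT.lf (nat_lit 0) (nat_lit 15448197750) (nat_lit 152) (nat_lit 5068228374) (nat_lit 0) (nat_lit 8100798822)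 (nat_lit 51) (nat_lit 5) (nat_lit 53) (nat_lit 4) (nat_lit 51) (nat_lit 4) (nat_lit 474) (nat_lit 379) (nat_lit 347)))) (XT.nd (nat_lit 156) (nat_lit 304) (nat_lit 0) (XT.nd (nat_lit 78) (nat_lit 76) (nat_lit 0) (XT.lf (nat_lit 0) (nat_lit 2375406518) (nat_lit 152) (nat_lit 2618253729) (nat_lit 76) (nat_lit 24566841229) (nat_lit 49) (nat_lit 5) (nat_lit 51) (nat_lit 5) (nat_lit 50) (nat_lit 4) (nat_lit 475) (nat_lit 379) (nat_lit 346)) (XT.lf (nat_lit 0) (nat_lit 18653025021) (nat_lit 152) (nat_lit 543678502) (nat_lit 0) (nat_lit 11343477685) (nat_lit 48) (nat_lit 5) (nat_lit 50) (nat_lit 4) (nat_lit 48) (nat_lit 4) (nat_lit 476) (nat_lit 379) (nat_lit 345))) (XT.nd (nat_lit 78) (nat_lit 76) (nat_lit 0) (XT.lf (nat_lit 0) (nat_lit 1294811573) (nat_lit 76) (nat_lit 2984101792) (nat_lit 152) (nat_lit 27283186383) (nat_lit 45) (nat_lit 5) (nat_lit 46) (nat_lit 5) (nat_lit 47) (nat_lit 4) (nat_lit 477)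 (nat_lit 379) (nat_lit 344)) (XT.lf (nat_lit 0) (nat_lit 2673073868) (nat_lit 76) (nat_lit 18601137363) (nat_lit 76) (nat_lit 11349369530) (nat_lit 44) (nat_lit 4) (nat_lit 45) (nat_lit 5) (nat_lit 45) (nat_lit 4) (nat_lit 478) (nat_lit 379) (nat_lit 343)))))) (XT.nd (nat_lit 468) (nat_lit 684) (nat_lit 0) (XT.nd (nat_lit 234) (nat_lit 304) (nat_lit 0) (XT.nd (nat_lit 78) (nat_lit 228) (nat_lit 0) (XT.lf (nat_lit 0) (nat_lit 3710860436) (nat_lit 76) (nat_lit 1724949060) (nat_lit 152) (nat_lit 28295984654) (nat_lit 42) (nat_lit 5) (nat_lit 43) (nat_lit 5) (nat_lit 44) (nat_lit 4) (nat_lit 479) (nat_lit 379) (nat_lit 342)) (XT.nd (nat_lit 78) (nat_lit 152) (nat_lit 0) (XT.lf (nat_lit 0) (nat_lit 4172542014) (nat_lit 76) (nat_lit 18943963860) (nat_lit 76) (nat_lit 11766812223) (nat_lit 41) (nat_lit 4) (nat_lit 42) (nat_lit 5) (nat_lit 42) (nat_lit 4) (nat_lit 480) (nat_lit 379) (nat_lit 341)) (XT.lf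 (nat_lit 0) (nat_lit 4203371710) (nat_lit 76) (nat_lit 1434059126) (nat_lit 152) (nat_lit 30448645991) (nat_lit 39) (nat_lit 5) (nat_lit 40) (nat_lit 5) (nat_lit 41) (nat_lit 4) (nat_lit 481) (nat_lit 379) (nat_lit 340)))) (XT.nd (nat_lit 78) (nat_lit 228) (nat_lit 0) (XT.lf (nat_lit 0) (nat_lit 3533216248) (nat_lit 76) (nat_lit 20445675914) (nat_lit 76) (nat_lit 13357275745) (nat_lit 38) (nat_lit 4) (nat_lit 39) (nat_lit 5) (nat_lit 39) (nat_lit 4) (nat_lit 482) (nat_lit 379) (nat_lit 339)) (XT.nd (nat_lit 78) (nat_lit 76) (nat_lit 0) (XT.lf (nat_lit 0) (nat_lit 2322237565) (nat_lit 76) (nat_lit 2341073971) (nat_lit 152) (nat_lit 33979203373) (nat_lit 36) (nat_lit 5) (nat_lit 37) (nat_lit 5) (nat_lit 38) (nat_lit 4) (nat_lit 483) (nat_lit 379) (nat_lit 338)) (XT.lf (nat_lit 0) (nat_lit 262107974) (nat_lit 76) (nat_lit 23363238144) (nat_lit 76) (nat_lit 16375365947) (nat_lit 35) (nat_lit 4) (nat_lit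 36) (nat_lit 5) (nat_lit 36) (nat_lit 4) (nat_lit 484) (nat_lit 379) (nat_lit 337))))) (XT.nd (nat_lit 234) (nat_lit 456) (nat_lit 0) (XT.nd (nat_lit 78) (nat_lit 152) (nat_lit 0) (XT.lf (nat_lit 0) (nat_lit 2272524518) (nat_lit 152) (nat_lit 2423860101) (nat_lit 76) (nat_lit 36723676399) (nat_lit 34) (nat_lit 5) (nat_lit 36) (nat_lit 5) (nat_lit 35) (nat_lit 4) (nat_lit 485) (nat_lit 379) (nat_lit 336)) (XT.nd (nat_lit 78) (nat_lit 76) (nat_lit 0) (XT.lf (nat_lit 0) (nat_lit 21832105256) (nat_lit 152) (nat_lit 6109389642) (nat_lit 0) (nat_lit 14954479927) (nat_lit 33) (nat_lit 5) (nat_lit 35) (nat_lit 4) (nat_lit 33) (nat_lit 4) (nat_lit 486) (nat_lit 379) (nat_lit 335)) (XT.lf (nat_lit 0) (nat_lit 33807846941) (nat_lit 76) (nat_lit 8776184607) (nat_lit 76) (nat_lit 1855222047) (nat_lit 32) (nat_lit 4) (nat_lit 33) (nat_lit 5) (nat_lit 33) (nat_lit 4) (nat_lit 487) (nat_lit 379) (nat_lit 334))))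 (XT.nd (nat_lit 156) (nat_lit 228) (nat_lit 0) (XT.nd (nat_lit 78) (nat_lit 76) (nat_lit 0) (XT.lf (nat_lit 0) (nat_lit 18239669183) (nat_lit 152) (nat_lit 16326033982) (nat_lit 0) (nat_lit 11480216645) (nat_lit 30) (nat_lit 5) (nat_lit 32) (nat_lit 4) (nat_lit 30) (nat_lit 4) (nat_lit 488) (nat_lit 379) (nat_lit 333)) (XT.lf (nat_lit 0) (nat_lit 24599161567) (nat_lit 76) (nat_lit 14961515257) (nat_lit 76) (nat_lit 8163899471) (nat_lit 29) (nat_lit 4) (nat_lit 30) (nat_lit 5) (nat_lit 30) (nat_lit 4) (nat_lit 489) (nat_lit 379) (nat_lit 332))) (XT.nd (nat_lit 78) (nat_lit 76) (nat_lit 0) (XT.lf (nat_lit 0) (nat_lit 12447429849) (nat_lit 152) (nat_lit 31216726737) (nat_lit 0) (nat_lit 5812515541) (nat_lit 27) (nat_lit 5) (nat_lit 29) (nat_lit 4) (nat_lit 27) (nat_lit 4) (nat_lit 490) (nat_lit 379) (nat_lit 331)) (XT.lf (nat_lit 0) (nat_lit 10517565692) (nat_lit 76) (nat_lit 23727581860) (nat_lit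 76) (nat_lit 17059060570) (nat_lit 26) (nat_lit 4) (nat_lit 27) (nat_lit 5) (nat_lit 27) (nat_lit 4) (nat_lit 491) (nat_lit 379) (nat_lit 330))))))) (XT.nd (nat_lit 58812) (nat_lit 0) (nat_lit 4940) (XT.nd (nat_lit 468) (nat_lit 228) (nat_lit 0) (XT.nd (nat_lit 234) (nat_lit 228) (nat_lit 0) (XT.nd (nat_lit 78) (nat_lit 76) (nat_lit 0) (XT.lf (nat_lit 0) (nat_lit 1430536474) (nat_lit 76) (nat_lit 2574913975) (nat_lit 152) (nat_lit 49211379870) (nat_lit 24) (nat_lit 5) (nat_lit 25) (nat_lit 5) (nat_lit 26) (nat_lit 4) (nat_lit 492) (nat_lit 379) (nat_lit 329)) (XT.nd (nat_lit 78) (nat_lit 76) (nat_lit 0) (XT.lf (nat_lit 0) (nat_lit 26223481817) (nat_lit 152) (nat_lit 9294421671) (nat_lit 0) (nat_lit 19688520202) (nat_lit 24) (nat_lit 5) (nat_lit 26) (nat_lit 4) (nat_lit 24) (nat_lit 4) (nat_lit 493) (nat_lit 379) (nat_lit 328)) (XT.lf (nat_lit 0) (nat_lit 35680166813) (nat_lit 76) (nat_lit 14086031802)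 (nat_lit 76) (nat_lit 7522884775) (nat_lit 23) (nat_lit 4) (nat_lit 24) (nat_lit 5) (nat_lit 24) (nat_lit 4) (nat_lit 494) (nat_lit 379) (nat_lit 327)))) (XT.nd (nat_lit 78) (nat_lit 76) (nat_lit 0) (XT.lf (nat_lit 0) (nat_lit 14972952222) (nat_lit 152) (nat_lit 35916021603) (nat_lit 0) (nat_lit 8574903410) (nat_lit 21) (nat_lit 5) (nat_lit 23) (nat_lit 4) (nat_lit 21) (nat_lit 4) (nat_lit 495) (nat_lit 379) (nat_lit 326)) (XT.nd (nat_lit 78) (nat_lit 0) (nat_lit 0) (XT.lf (nat_lit 0) (nat_lit 9334701891) (nat_lit 76) (nat_lit 29412040664) (nat_lit 76) (nat_lit 22989171463) (nat_lit 20) (nat_lit 4) (nat_lit 21) (nat_lit 5) (nat_lit 21) (nat_lit 4) (nat_lit 496) (nat_lit 379) (nat_lit 325)) (XT.lf (nat_lit 0) (nat_lit 57306675613) (nat_lit 76) (nat_lit 6627320808) (nat_lit 76) (nat_lit 180813143) (nat_lit 20) (nat_lit 4) (nat_lit 21) (nat_lit 5) (nat_lit 21) (nat_lit 4) (nat_lit 497) (nat_lit 379)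 (nat_lit 324))))) (XT.nd (nat_lit 58032) (nat_lit 0) (nat_lit 8056) (XT.nd (nat_lit 78) (nat_lit 76) (nat_lit 0) (XT.lf (nat_lit 0) (nat_lit 23733458833) (nat_lit 152) (nat_lit 25406601778) (nat_lit 0) (nat_lit 17452856416) (nat_lit 18) (nat_lit 5) (nat_lit 20) (nat_lit 4) (nat_lit 18) (nat_lit 4) (nat_lit 498) (nat_lit 379) (nat_lit 323)) (XT.nd (nat_lit 57876) (nat_lit 0) (nat_lit 9272) (XT.lf (nat_lit 0) (nat_lit 22626647114) (nat_lit 76) (nat_lit 26431546610) (nat_lit 76) (nat_lit 20130127898) (nat_lit 17) (nat_lit 4) (nat_lit 18) (nat_lit 5) (nat_lit 18) (nat_lit 4) (nat_lit 499) (nat_lit 379) (nat_lit 322)) (XT.lf (nat_lit 0) (nat_lit 845674567) (nat_lit 228) (nat_lit 2378902150) (nat_lit 228) (nat_lit 2378902150) (nat_lit 139) (nat_lit 4) (nat_lit 142) (nat_lit 5) (nat_lit 142) (nat_lit 4) (nat_lit 440) (nat_lit 380) (nat_lit 380)))) (XT.nd (nat_lit 156) (nat_lit 532) (nat_lit 0) (XT.nd (nat_lit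 78) (nat_lit 456) (nat_lit 0) (XT.lf (nat_lit 0) (nat_lit 4364217685) (nat_lit 228) (nat_lit 3625094496) (nat_lit 0) (nat_lit 3473332146) (nat_lit 136) (nat_lit 5) (nat_lit 139) (nat_lit 4) (nat_lit 136) (nat_lit 4) (nat_lit 441) (nat_lit 380) (nat_lit 379)) (XT.lf (nat_lit 0) (nat_lit 2057499814) (nat_lit 228) (nat_lit 9303249644) (nat_lit 0) (nat_lit 368812476) (nat_lit 130) (nat_lit 5) (nat_lit 133) (nat_lit 4) (nat_lit 130) (nat_lit 4) (nat_lit 442) (nat_lit 380) (nat_lit 378))) (XT.nd (nat_lit 78) (nat_lit 380) (nat_lit 0) (XT.lf (nat_lit 0) (nat_lit 8636944743) (nat_lit 152) (nat_lit 2921483888) (nat_lit 152) (nat_lit 448272815) (nat_lit 128) (nat_lit 4) (nat_lit 130) (nat_lit 5) (nat_lit 130) (nat_lit 4) (nat_lit 443) (nat_lit 380) (nat_lit 377)) (XT.lf (nat_lit 0) (nat_lit 2701751999) (nat_lit 152) (nat_lit 6359855802) (nat_lit 152) (nat_lit 3233276643) (nat_lit 123) (nat_lit 4) (nat_lit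 125) (nat_lit 5) (nat_lit 125) (nat_lit 4) (nat_lit 444) (nat_lit 380) (nat_lit 376)))))) (XT.nd (nat_lit 546) (nat_lit 1368) (nat_lit 0) (XT.nd (nat_lit 234) (nat_lit 912) (nat_lit 0) (XT.nd (nat_lit 78) (nat_lit 608) (nat_lit 0) (XT.lf (nat_lit 0) (nat_lit 6331383334) (nat_lit 228) (nat_lit 3638474891) (nat_lit 0) (nat_lit 2625131390) (nat_lit 120) (nat_lit 5) (nat_lit 123) (nat_lit 4) (nat_lit 120) (nat_lit 4) (nat_lit 445) (nat_lit 380) (nat_lit 375)) (XT.nd (nat_lit 78) (nat_lit 228) (nat_lit 0) (XT.lf (nat_lit 0) (nat_lit 2464312939) (nat_lit 152) (nat_lit 890053152) (nat_lit 228) (nat_lit 9553125082) (nat_lit 115) (nat_lit 5) (nat_lit 117) (nat_lit 5) (nat_lit 118) (nat_lit 4) (nat_lit 446) (nat_lit 380) (nat_lit 374)) (XT.lf (nat_lit 0) (nat_lit 149864903) (nat_lit 228) (nat_lit 4504929144) (nat_lit 76) (nat_lit 8577090451) (nat_lit 112) (nat_lit 5) (nat_lit 115) (nat_lit 5) (nat_lit 113)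 (nat_lit 4) (nat_lit 447) (nat_lit 380) (nat_lit 373)))) (XT.nd (nat_lit 156) (nat_lit 456) (nat_lit 0) (XT.nd (nat_lit 78) (nat_lit 152) (nat_lit 0) (XT.lf (nat_lit 0) (nat_lit 1535754829) (nat_lit 152) (nat_lit 8624275672) (nat_lit 152) (nat_lit 3409044813) (nat_lit 108) (nat_lit 4) (nat_lit 110) (nat_lit 5) (nat_lit 110) (nat_lit 4) (nat_lit 448) (nat_lit 380) (nat_lit 372)) (XT.lf (nat_lit 0) (nat_lit 6671326456) (nat_lit 152) (nat_lit 6145190047) (nat_lit 0) (nat_lit 1103003908) (nat_lit 106) (nat_lit 5) (nat_lit 108) (nat_lit 4) (nat_lit 106) (nat_lit 4) (nat_lit 449) (nat_lit 380) (nat_lit 371))) (XT.nd (nat_lit 78) (nat_lit 228) (nat_lit 0) (XT.lf (nat_lit 0) (nat_lit 2888267440) (nat_lit 228) (nat_lit 186084041) (nat_lit 76) (nat_lit 11209907780) (nat_lit 103) (nat_lit 5) (nat_lit 106) (nat_lit 5) (nat_lit 104) (nat_lit 4) (nat_lit 450) (nat_lit 380) (nat_lit 370)) (XT.lf (nat_lit 0) (nat_lit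 5970180381) (nat_lit 152) (nat_lit 7504938162) (nat_lit 152) (nat_lit 1187162212) (nat_lit 100) (nat_lit 4) (nat_lit 102) (nat_lit 5) (nat_lit 102) (nat_lit 4) (nat_lit 451) (nat_lit 380) (nat_lit 369))))) (XT.nd (nat_lit 234) (nat_lit 684) (nat_lit 0) (XT.nd (nat_lit 78) (nat_lit 532) (nat_lit 0) (XT.lf (nat_lit 0) (nat_lit 9376468367) (nat_lit 152) (nat_lit 2847561691) (nat_lit 0) (nat_lit 2831515992) (nat_lit 98) (nat_lit 5) (nat_lit 100) (nat_lit 4) (nat_lit 98) (nat_lit 4) (nat_lit 452) (nat_lit 380) (nat_lit 368)) (XT.nd (nat_lit 78) (nat_lit 228) (nat_lit 0) (XT.lf (nat_lit 0) (nat_lit 3136803739) (nat_lit 76) (nat_lit 1825445022) (nat_lit 152) (nat_lit 10501928673) (nat_lit 94) (nat_lit 5) (nat_lit 95) (nat_lit 5) (nat_lit 96) (nat_lit 4) (nat_lit 453) (nat_lit 380) (nat_lit 367)) (XT.lf (nat_lit 0) (nat_lit 225315807) (nat_lit 228) (nat_lit 6639232288) (nat_lit 76) (nat_lit 9023936560)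 (nat_lit 91) (nat_lit 5) (nat_lit 94) (nat_lit 5) (nat_lit 92) (nat_lit 4) (nat_lit 454) (nat_lit 380) (nat_lit 366)))) (XT.nd (nat_lit 156) (nat_lit 304) (nat_lit 0) (XT.nd (nat_lit 78) (nat_lit 304) (nat_lit 0) (XT.lf (nat_lit 0) (nat_lit 11321150600) (nat_lit 152) (nat_lit 911842418) (nat_lit 0) (nat_lit 4096414177) (nat_lit 90) (nat_lit 5) (nat_lit 92) (nat_lit 4) (nat_lit 90) (nat_lit 4) (nat_lit 455) (nat_lit 380) (nat_lit 365)) (XT.lf (nat_lit 0) (nat_lit 4987387426) (nat_lit 76) (nat_lit 1185514686) (nat_lit 152) (nat_lit 10614271156) (nat_lit 86) (nat_lit 5) (nat_lit 87) (nat_lit 5) (nat_lit 88) (nat_lit 4) (nat_lit 456) (nat_lit 380) (nat_lit 364))) (XT.nd (nat_lit 78) (nat_lit 76) (nat_lit 0) (XT.lf (nat_lit 0) (nat_lit 645342882) (nat_lit 228) (nat_lit 6308679327) (nat_lit 76) (nat_lit 10308780683) (nat_lit 83) (nat_lit 5) (nat_lit 86) (nat_lit 5) (nat_lit 84) (nat_lit 4) (nat_lit 457)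 (nat_lit 380) (nat_lit 363)) (XT.lf (nat_lit 0) (nat_lit 12316047904) (nat_lit 152) (nat_lit 794378616) (nat_lit 0) (nat_lit 4646607514) (nat_lit 82) (nat_lit 5) (nat_lit 84) (nat_lit 4) (nat_lit 82) (nat_lit 4) (nat_lit 458) (nat_lit 380) (nat_lit 362))))))))
noncomputable def xc17 : XT := (XT.nd (nat_lit 2028) (nat_lit 1368) (nat_lit 0) (XT.nd (nat_lit 1014) (nat_lit 1596) (nat_lit 0) (XT.nd (nat_lit 468) (nat_lit 912) (nat_lit 0) (XT.nd (nat_lit 234) (nat_lit 456) (nat_lit 0) (XT.nd (nat_lit 78) (nat_lit 228) (nat_lit 0) (XT.lf (nat_lit 0) (nat_lit 4869627953) (nat_lit 76) (nat_lit 1435153371) (nat_lit 152) (nat_lit 11965382983) (nat_lit 78) (nat_lit 5) (nat_lit 79) (nat_lit 5) (nat_lit 80) (nat_lit 4) (nat_lit 459) (nat_lit 380) (nat_lit 361)) (XT.nd (nat_lit 78) (nat_lit 152) (nat_lit 0) (XT.lf (nat_lit 0) (nat_lit 10576642236) (nat_lit 76) (nat_lit 8082443455) (nat_lit 76) (nat_lit 144237455)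 (nat_lit 77) (nat_lit 4) (nat_lit 78) (nat_lit 5) (nat_lit 78) (nat_lit 4) (nat_lit 460) (nat_lit 380) (nat_lit 360)) (XT.lf (nat_lit 0) (nat_lit 12111515218) (nat_lit 152) (nat_lit 3063061378) (nat_lit 0) (nat_lit 4182538624) (nat_lit 75) (nat_lit 5) (nat_lit 77) (nat_lit 4) (nat_lit 75) (nat_lit 4) (nat_lit 461) (nat_lit 380) (nat_lit 359)))) (XT.nd (nat_lit 78) (nat_lit 228) (nat_lit 0) (XT.lf (nat_lit 0) (nat_lit 2169050121) (nat_lit 76) (nat_lit 2909490122) (nat_lit 152) (nat_lit 14854411833) (nat_lit 72) (nat_lit 5) (nat_lit 73) (nat_lit 5) (nat_lit 74) (nat_lit 4) (nat_lit 462) (nat_lit 380) (nat_lit 358)) (XT.nd (nat_lit 78) (nat_lit 152) (nat_lit 0) (XT.lf (nat_lit 0) (nat_lit 7447413202) (nat_lit 76) (nat_lit 10590853086) (nat_lit 76) (nat_lit 2492086667) (nat_lit 71) (nat_lit 4) (nat_lit 72) (nat_lit 5) (nat_lit 72) (nat_lit 4) (nat_lit 463) (nat_lit 380) (nat_lit 357)) (XT.lf (nat_lit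 0) (nat_lit 10382970319) (nat_lit 152) (nat_lit 8429308882) (nat_lit 0) (nat_lit 2339342744) (nat_lit 69) (nat_lit 5) (nat_lit 71) (nat_lit 4) (nat_lit 69) (nat_lit 4) (nat_lit 464) (nat_lit 380) (nat_lit 356))))) (XT.nd (nat_lit 234) (nat_lit 456) (nat_lit 0) (XT.nd (nat_lit 78) (nat_lit 304) (nat_lit 0) (XT.lf (nat_lit 0) (nat_lit 2170279992) (nat_lit 152) (nat_lit 3810099719) (nat_lit 76) (nat_lit 15817349190) (nat_lit 67) (nat_lit 5) (nat_lit 69) (nat_lit 5) (nat_lit 68) (nat_lit 4) (nat_lit 465) (nat_lit 380) (nat_lit 355)) (XT.nd (nat_lit 78) (nat_lit 152) (nat_lit 0) (XT.lf (nat_lit 0) (nat_lit 752102018) (nat_lit 76) (nat_lit 14926070976) (nat_lit 76) (nat_lit 6790428774) (nat_lit 65) (nat_lit 4) (nat_lit 66) (nat_lit 5) (nat_lit 66) (nat_lit 4) (nat_lit 466) (nat_lit 380) (nat_lit 354)) (XT.lf (nat_lit 0) (nat_lit 5364249993) (nat_lit 76) (nat_lit 1360617525) (nat_lit 152) (nat_lit 16441214643)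 (nat_lit 63) (nat_lit 5) (nat_lit 64) (nat_lit 5) (nat_lit 65) (nat_lit 4) (nat_lit 467) (nat_lit 380) (nat_lit 353)))) (XT.nd (nat_lit 156) (nat_lit 228) (nat_lit 0) (XT.nd (nat_lit 78) (nat_lit 152) (nat_lit 0) (XT.lf (nat_lit 0) (nat_lit 9872300750) (nat_lit 76) (nat_lit 11102086833) (nat_lit 76) (nat_lit 2916066034) (nat_lit 62) (nat_lit 4) (nat_lit 63) (nat_lit 5) (nat_lit 63) (nat_lit 4) (nat_lit 468) (nat_lit 380) (nat_lit 352)) (XT.lf (nat_lit 0) (nat_lit 11190158997) (nat_lit 152) (nat_lit 10340916678) (nat_lit 0) (nat_lit 3112963223) (nat_lit 60) (nat_lit 5) (nat_lit 62) (nat_lit 4) (nat_lit 60) (nat_lit 4) (nat_lit 469) (nat_lit 380) (nat_lit 351))) (XT.nd (nat_lit 78) (nat_lit 76) (nat_lit 0) (XT.lf (nat_lit 0) (nat_lit 699499121) (nat_lit 152) (nat_lit 6780643761) (nat_lit 76) (nat_lit 17948075681) (nat_lit 58) (nat_lit 5) (nat_lit 60) (nat_lit 5) (nat_lit 59) (nat_lit 4) (nat_lit 470)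 (nat_lit 380) (nat_lit 350)) (XT.lf (nat_lit 0) (nat_lit 15452293594) (nat_lit 152) (nat_lit 3413828128) (nat_lit 0) (nat_lit 7376390190) (nat_lit 57) (nat_lit 5) (nat_lit 59) (nat_lit 4) (nat_lit 57) (nat_lit 4) (nat_lit 471) (nat_lit 380) (nat_lit 349)))))) (XT.nd (nat_lit 468) (nat_lit 836) (nat_lit 0) (XT.nd (nat_lit 234) (nat_lit 304) (nat_lit 0) (XT.nd (nat_lit 78) (nat_lit 304) (nat_lit 0) (XT.lf (nat_lit 0) (nat_lit 3949184896) (nat_lit 152) (nat_lit 167752957) (nat_lit 76) (nat_lit 22974103525) (nat_lit 55) (nat_lit 5) (nat_lit 57) (nat_lit 5) (nat_lit 56) (nat_lit 4) (nat_lit 472) (nat_lit 380) (nat_lit 348)) (XT.nd (nat_lit 78) (nat_lit 152) (nat_lit 0) (XT.lf (nat_lit 0) (nat_lit 2888040019) (nat_lit 76) (nat_lit 16564975111) (nat_lit 76) (nat_lit 8518259339) (nat_lit 53) (nat_lit 4) (nat_lit 54) (nat_lit 5) (nat_lit 54) (nat_lit 4) (nat_lit 473) (nat_lit 380) (nat_lit 347)) (XT.lf (nat_lit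 0) (nat_lit 5783249860) (nat_lit 76) (nat_lit 1076692783) (nat_lit 152) (nat_lit 22028900738) (nat_lit 51) (nat_lit 5) (nat_lit 52) (nat_lit 5) (nat_lit 53) (nat_lit 4) (nat_lit 474) (nat_lit 380) (nat_lit 346)))) (XT.nd (nat_lit 78) (nat_lit 228) (nat_lit 0) (XT.lf (nat_lit 0) (nat_lit 8361742330) (nat_lit 76) (nat_lit 14736883384) (nat_lit 76) (nat_lit 6743103146) (nat_lit 50) (nat_lit 4) (nat_lit 51) (nat_lit 5) (nat_lit 51) (nat_lit 4) (nat_lit 475) (nat_lit 380) (nat_lit 345)) (XT.nd (nat_lit 78) (nat_lit 76) (nat_lit 0) (XT.lf (nat_lit 0) (nat_lit 9276882211) (nat_lit 152) (nat_lit 20124052354) (nat_lit 0) (nat_lit 1434095299) (nat_lit 48) (nat_lit 5) (nat_lit 50) (nat_lit 4) (nat_lit 48) (nat_lit 4) (nat_lit 476) (nat_lit 380) (nat_lit 344)) (XT.lf (nat_lit 0) (nat_lit 12694465569) (nat_lit 76) (nat_lit 13546882489) (nat_lit 76) (nat_lit 5626157269) (nat_lit 47) (nat_lit 4) (nat_lit 48) (nat_lit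 5) (nat_lit 48) (nat_lit 4) (nat_lit 477) (nat_lit 380) (nat_lit 343))))) (XT.nd (nat_lit 234) (nat_lit 456) (nat_lit 0) (XT.nd (nat_lit 78) (nat_lit 228) (nat_lit 0) (XT.lf (nat_lit 0) (nat_lit 11057271877) (nat_lit 152) (nat_lit 18590804419) (nat_lit 0) (nat_lit 3295182382) (nat_lit 45) (nat_lit 5) (nat_lit 47) (nat_lit 4) (nat_lit 45) (nat_lit 4) (nat_lit 478) (nat_lit 380) (nat_lit 342)) (XT.nd (nat_lit 78) (nat_lit 152) (nat_lit 0) (XT.lf (nat_lit 0) (nat_lit 15589235477) (nat_lit 76) (nat_lit 13152066369) (nat_lit 76) (nat_lit 5321343531) (nat_lit 44) (nat_lit 4) (nat_lit 45) (nat_lit 5) (nat_lit 45) (nat_lit 4) (nat_lit 479) (nat_lit 380) (nat_lit 341)) (XT.lf (nat_lit 0) (nat_lit 12029784223) (nat_lit 152) (nat_lit 18835242627) (nat_lit 0) (nat_lit 4363679440) (nat_lit 42) (nat_lit 5) (nat_lit 44) (nat_lit 4) (nat_lit 42) (nat_lit 4) (nat_lit 480) (nat_lit 380) (nat_lit 340)))) (XT.nd (nat_lit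 156) (nat_lit 228) (nat_lit 0) (XT.nd (nat_lit 78) (nat_lit 152) (nat_lit 0) (XT.lf (nat_lit 0) (nat_lit 16687332831) (nat_lit 76) (nat_lit 13741001834) (nat_lit 76) (nat_lit 6014457765) (nat_lit 41) (nat_lit 4) (nat_lit 42) (nat_lit 5) (nat_lit 42) (nat_lit 4) (nat_lit 481) (nat_lit 380) (nat_lit 339)) (XT.lf (nat_lit 0) (nat_lit 11999833983) (nat_lit 152) (nat_lit 21265669933) (nat_lit 0) (nat_lit 4442450201) (nat_lit 39) (nat_lit 5) (nat_lit 41) (nat_lit 4) (nat_lit 39) (nat_lit 4) (nat_lit 482) (nat_lit 380) (nat_lit 338))) (XT.nd (nat_lit 78) (nat_lit 152) (nat_lit 0) (XT.lf (nat_lit 0) (nat_lit 15556957348) (nat_lit 76) (nat_lit 15539528340) (nat_lit 76) (nat_lit 7928921049) (nat_lit 38) (nat_lit 4) (nat_lit 39) (nat_lit 5) (nat_lit 39) (nat_lit 4) (nat_lit 483) (nat_lit 380) (nat_lit 337)) (XT.lf (nat_lit 0) (nat_lit 10733136611) (nat_lit 152) (nat_lit 26371410104) (nat_lit 0) (nat_lit 3294984817)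 (nat_lit 36) (nat_lit 5) (nat_lit 38) (nat_lit 4) (nat_lit 36) (nat_lit 4) (nat_lit 484) (nat_lit 380) (nat_lit 336))))))) (XT.nd (nat_lit 1014) (nat_lit 152) (nat_lit 0) (XT.nd (nat_lit 468) (nat_lit 684) (nat_lit 0) (XT.nd (nat_lit 234) (nat_lit 228) (nat_lit 0) (XT.nd (nat_lit 78) (nat_lit 228) (nat_lit 0) (XT.lf (nat_lit 0) (nat_lit 11679904819) (nat_lit 76) (nat_lit 18817564642) (nat_lit 76) (nat_lit 11332543633) (nat_lit 35) (nat_lit 4) (nat_lit 36) (nat_lit 5) (nat_lit 36) (nat_lit 4) (nat_lit 485) (nat_lit 380) (nat_lit 335)) (XT.nd (nat_lit 78) (nat_lit 76) (nat_lit 0) (XT.lf (nat_lit 0) (nat_lit 7948543712) (nat_lit 152) (nat_lit 34737444553) (nat_lit 0) (nat_lit 638195793) (nat_lit 33) (nat_lit 5) (nat_lit 35) (nat_lit 4) (nat_lit 33) (nat_lit 4) (nat_lit 486) (nat_lit 380) (nat_lit 334)) (XT.lf (nat_lit 0) (nat_lit 4435914809) (nat_lit 76) (nat_lit 23897096685) (nat_lit 76) (nat_lit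 16545475212) (nat_lit 32) (nat_lit 4) (nat_lit 33) (nat_lit 5) (nat_lit 33) (nat_lit 4) (nat_lit 487) (nat_lit 380) (nat_lit 333)))) (XT.nd (nat_lit 78) (nat_lit 152) (nat_lit 0) (XT.lf (nat_lit 0) (nat_lit 3353247633) (nat_lit 152) (nat_lit 583836923) (nat_lit 76) (nat_lit 42566789676) (nat_lit 31) (nat_lit 5) (nat_lit 33) (nat_lit 5) (nat_lit 32) (nat_lit 4) (nat_lit 488) (nat_lit 380) (nat_lit 332)) (XT.nd (nat_lit 78) (nat_lit 76) (nat_lit 0) (XT.lf (nat_lit 0) (nat_lit 24312316517) (nat_lit 152) (nat_lit 6780761730) (nat_lit 0) (nat_lit 17100310742) (nat_lit 30) (nat_lit 5) (nat_lit 32) (nat_lit 4) (nat_lit 30) (nat_lit 4) (nat_lit 489) (nat_lit 380) (nat_lit 331)) (XT.lf (nat_lit 0) (nat_lit 35893681159) (nat_lit 76) (nat_lit 10656694205) (nat_lit 76) (nat_lit 3410073238) (nat_lit 29) (nat_lit 4) (nat_lit 30) (nat_lit 5) (nat_lit 30) (nat_lit 4) (nat_lit 490) (nat_lit 380) (nat_lit 330)))))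 (XT.nd (nat_lit 234) (nat_lit 304) (nat_lit 0) (XT.nd (nat_lit 78) (nat_lit 228) (nat_lit 0) (XT.lf (nat_lit 0) (nat_lit 18032659358) (nat_lit 152) (nat_lit 22803856191) (nat_lit 0) (nat_lit 10965098372) (nat_lit 27) (nat_lit 5) (nat_lit 29) (nat_lit 4) (nat_lit 27) (nat_lit 4) (nat_lit 491) (nat_lit 380) (nat_lit 329)) (XT.nd (nat_lit 78) (nat_lit 152) (nat_lit 0) (XT.lf (nat_lit 0) (nat_lit 20731256555) (nat_lit 76) (nat_lit 20045805000) (nat_lit 76) (nat_lit 12947761491) (nat_lit 26) (nat_lit 4) (nat_lit 27) (nat_lit 5) (nat_lit 27) (nat_lit 4) (nat_lit 492) (nat_lit 380) (nat_lit 328)) (XT.lf (nat_lit 0) (nat_lit 8952617490) (nat_lit 152) (nat_lit 44749514462) (nat_lit 0) (nat_lit 2033127700) (nat_lit 24) (nat_lit 5) (nat_lit 26) (nat_lit 4) (nat_lit 24) (nat_lit 4) (nat_lit 493) (nat_lit 380) (nat_lit 327)))) (XT.nd (nat_lit 156) (nat_lit 228) (nat_lit 0) (XT.nd (nat_lit 78) (nat_lit 76) (nat_lit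 0) (XT.lf (nat_lit 0) (nat_lit 32080259478) (nat_lit 152) (nat_lit 616185759) (nat_lit 0) (nat_lit 25133926438) (nat_lit 24) (nat_lit 5) (nat_lit 26) (nat_lit 4) (nat_lit 24) (nat_lit 4) (nat_lit 494) (nat_lit 380) (nat_lit 326)) (XT.lf (nat_lit 0) (nat_lit 46345051122) (nat_lit 76) (nat_lit 10323972094) (nat_lit 76) (nat_lit 3352074053) (nat_lit 23) (nat_lit 4) (nat_lit 24) (nat_lit 5) (nat_lit 24) (nat_lit 4) (nat_lit 495) (nat_lit 380) (nat_lit 325))) (XT.nd (nat_lit 78) (nat_lit 76) (nat_lit 0) (XT.lf (nat_lit 0) (nat_lit 20093410923) (nat_lit 152) (nat_lit 28911561948) (nat_lit 0) (nat_lit 13300939409) (nat_lit 21) (nat_lit 5) (nat_lit 23) (nat_lit 4) (nat_lit 21) (nat_lit 4) (nat_lit 496) (nat_lit 380) (nat_lit 324)) (XT.lf (nat_lit 0) (nat_lit 18349440013) (nat_lit 76) (nat_lit 26580437912) (nat_lit 76) (nat_lit 19765453575) (nat_lit 20) (nat_lit 4) (nat_lit 21) (nat_lit 5) (nat_lit 21) (nat_lit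 4) (nat_lit 497) (nat_lit 380) (nat_lit 323)))))) (XT.nd (nat_lit 58188) (nat_lit 0) (nat_lit 6688) (XT.nd (nat_lit 57876) (nat_lit 0) (nat_lit 8512) (XT.nd (nat_lit 78) (nat_lit 0) (nat_lit 0) (XT.lf (nat_lit 0) (nat_lit 1096921224) (nat_lit 76) (nat_lit 2811131163) (nat_lit 152) (nat_lit 63289722412) (nat_lit 18) (nat_lit 5) (nat_lit 19) (nat_lit 5) (nat_lit 20) (nat_lit 4) (nat_lit 498) (nat_lit 380) (nat_lit 322)) (XT.nd (nat_lit 57720) (nat_lit 0) (nat_lit 9880) (XT.lf (nat_lit 0) (nat_lit 28924748850) (nat_lit 152) (nat_lit 18610053892) (nat_lit 0) (nat_lit 22267617863) (nat_lit 18) (nat_lit 5) (nat_lit 20) (nat_lit 4) (nat_lit 18) (nat_lit 4) (nat_lit 499) (nat_lit 380) (nat_lit 321)) (XT.lf (nat_lit 0) (nat_lit 235663071) (nat_lit 228) (nat_lit 4889711836) (nat_lit 0) (nat_lit 235663071) (nat_lit 148) (nat_lit 5) (nat_lit 151) (nat_lit 4) (nat_lit 148) (nat_lit 4) (nat_lit 438) (nat_lit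 381) (nat_lit 381)))) (XT.nd (nat_lit 156) (nat_lit 684) (nat_lit 0) (XT.nd (nat_lit 78) (nat_lit 456) (nat_lit 0) (XT.lf (nat_lit 0) (nat_lit 6711693157) (nat_lit 228) (nat_lit 2621149953) (nat_lit 228) (nat_lit 1628752461) (nat_lit 145) (nat_lit 4) (nat_lit 148) (nat_lit 5) (nat_lit 148) (nat_lit 4) (nat_lit 439) (nat_lit 381) (nat_lit 380)) (XT.lf (nat_lit 0) (nat_lit 1409865553) (nat_lit 228) (nat_lit 5841518806) (nat_lit 228) (nat_lit 3960413990) (nat_lit 139) (nat_lit 4) (nat_lit 142) (nat_lit 5) (nat_lit 142) (nat_lit 4) (nat_lit 440) (nat_lit 381) (nat_lit 379))) (XT.nd (nat_lit 78) (nat_lit 456) (nat_lit 0) (XT.lf (nat_lit 0) (nat_lit 4973889454) (nat_lit 228) (nat_lit 4199421168) (nat_lit 0) (nat_lit 2299111680) (nat_lit 136) (nat_lit 5) (nat_lit 139) (nat_lit 4) (nat_lit 136) (nat_lit 4) (nat_lit 441) (nat_lit 381) (nat_lit 378)) (XT.lf (nat_lit 0) (nat_lit 1535949730) (nat_lit 152) (nat_lit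 936359112) (nat_lit 228) (nat_lit 9272061792) (nat_lit 130) (nat_lit 5) (nat_lit 132) (nat_lit 5) (nat_lit 133) (nat_lit 4) (nat_lit 442) (nat_lit 381) (nat_lit 377))))) (XT.nd (nat_lit 234) (nat_lit 1064) (nat_lit 0) (XT.nd (nat_lit 78) (nat_lit 608) (nat_lit 0) (XT.lf (nat_lit 0) (nat_lit 7446814491) (nat_lit 152) (nat_lit 4354212522) (nat_lit 152) (nat_lit 225651700) (nat_lit 128) (nat_lit 4) (nat_lit 130) (nat_lit 5) (nat_lit 130) (nat_lit 4) (nat_lit 443) (nat_lit 381) (nat_lit 376)) (XT.nd (nat_lit 78) (nat_lit 228) (nat_lit 0) (XT.lf (nat_lit 0) (nat_lit 1154170677) (nat_lit 152) (nat_lit 7932794167) (nat_lit 152) (nat_lit 3233622346) (nat_lit 123) (nat_lit 4) (nat_lit 125) (nat_lit 5) (nat_lit 125) (nat_lit 4) (nat_lit 444) (nat_lit 381) (nat_lit 375)) (XT.lf (nat_lit 0) (nat_lit 6147451674) (nat_lit 228) (nat_lit 5532399837) (nat_lit 0) (nat_lit 946350652) (nat_lit 120) (nat_lit 5) (nat_lit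 123) (nat_lit 4) (nat_lit 120) (nat_lit 4) (nat_lit 445) (nat_lit 381) (nat_lit 374)))) (XT.nd (nat_lit 156) (nat_lit 532) (nat_lit 0) (XT.nd (nat_lit 78) (nat_lit 152) (nat_lit 0) (XT.lf (nat_lit 0) (nat_lit 185265703) (nat_lit 152) (nat_lit 2767811164) (nat_lit 228) (nat_lit 9991400971) (nat_lit 115) (nat_lit 5) (nat_lit 117) (nat_lit 5) (nat_lit 118) (nat_lit 4) (nat_lit 446) (nat_lit 381) (nat_lit 373)) (XT.lf (nat_lit 0) (nat_lit 6110602918) (nat_lit 152) (nat_lit 6683401771) (nat_lit 152) (nat_lit 480596710) (nat_lit 113) (nat_lit 4) (nat_lit 115) (nat_lit 5) (nat_lit 115) (nat_lit 4) (nat_lit 447) (nat_lit 381) (nat_lit 372))) (XT.nd (nat_lit 78) (nat_lit 304) (nat_lit 0) (XT.lf (nat_lit 0) (nat_lit 9331365176) (nat_lit 228) (nat_lit 1497711681) (nat_lit 0) (nat_lit 2789082974) (nat_lit 110) (nat_lit 5) (nat_lit 113) (nat_lit 4) (nat_lit 110) (nat_lit 4) (nat_lit 448) (nat_lit 381) (nat_lit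 371)) (XT.lf (nat_lit 0) (nat_lit 4346703904) (nat_lit 76) (nat_lit 1261354635) (nat_lit 152) (nat_lit 8366880345) (nat_lit 106) (nat_lit 5) (nat_lit 107) (nat_lit 5) (nat_lit 108) (nat_lit 4) (nat_lit 449) (nat_lit 381) (nat_lit 370))))))))
noncomputable def xc18 : XT := (XT.nd (nat_lit 2028) (nat_lit 2508) (nat_lit 0) (XT.nd (nat_lit 1014) (nat_lit 1672) (nat_lit 0) (XT.nd (nat_lit 468) (nat_lit 1292) (nat_lit 0) (XT.nd (nat_lit 234) (nat_lit 608) (nat_lit 0) (XT.nd (nat_lit 78) (nat_lit 380) (nat_lit 0) (XT.lf (nat_lit 0) (nat_lit 1600057302) (nat_lit 228) (nat_lit 4042600649) (nat_lit 76) (nat_lit 8703084326) (nat_lit 103) (nat_lit 5) (nat_lit 106) (nat_lit 5) (nat_lit 104) (nat_lit 4) (nat_lit 450) (nat_lit 381) (nat_lit 369)) (XT.nd (nat_lit 78) (nat_lit 152) (nat_lit 0) (XT.lf (nat_lit 0) (nat_lit 1648839537) (nat_lit 152) (nat_lit 10292097815) (nat_lit 152) (nat_lit 2790206825) (nat_lit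 100) (nat_lit 4) (nat_lit 102) (nat_lit 5) (nat_lit 102) (nat_lit 4) (nat_lit 451) (nat_lit 381) (nat_lit 368)) (XT.lf (nat_lit 0) (nat_lit 7508191662) (nat_lit 76) (nat_lit 84635821) (nat_lit 152) (nat_lit 7538401774) (nat_lit 98) (nat_lit 5) (nat_lit 99) (nat_lit 5) (nat_lit 100) (nat_lit 4) (nat_lit 452) (nat_lit 381) (nat_lit 367)))) (XT.nd (nat_lit 78) (nat_lit 380) (nat_lit 0) (XT.lf (nat_lit 0) (nat_lit 2921423138) (nat_lit 228) (nat_lit 2117470042) (nat_lit 76) (nat_lit 10508038249) (nat_lit 95) (nat_lit 5) (nat_lit 98) (nat_lit 5) (nat_lit 96) (nat_lit 4) (nat_lit 453) (nat_lit 381) (nat_lit 366)) (XT.nd (nat_lit 78) (nat_lit 152) (nat_lit 0) (XT.lf (nat_lit 0) (nat_lit 3531292053) (nat_lit 152) (nat_lit 10302861321) (nat_lit 152) (nat_lit 2144453742) (nat_lit 92) (nat_lit 4) (nat_lit 94) (nat_lit 5) (nat_lit 94) (nat_lit 4) (nat_lit 454) (nat_lit 381) (nat_lit 365)) (XT.lf (nat_lit 0)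 (nat_lit 8765208833) (nat_lit 152) (nat_lit 7136223407) (nat_lit 0) (nat_lit 525557335) (nat_lit 90) (nat_lit 5) (nat_lit 92) (nat_lit 4) (nat_lit 90) (nat_lit 4) (nat_lit 455) (nat_lit 381) (nat_lit 364))))) (XT.nd (nat_lit 234) (nat_lit 684) (nat_lit 0) (XT.nd (nat_lit 78) (nat_lit 380) (nat_lit 0) (XT.lf (nat_lit 0) (nat_lit 3326894877) (nat_lit 228) (nat_lit 1789738174) (nat_lit 76) (nat_lit 11776216592) (nat_lit 87) (nat_lit 5) (nat_lit 90) (nat_lit 5) (nat_lit 88) (nat_lit 4) (nat_lit 456) (nat_lit 381) (nat_lit 363)) (XT.nd (nat_lit 78) (nat_lit 152) (nat_lit 0) (XT.lf (nat_lit 0) (nat_lit 3684054392) (nat_lit 152) (nat_lit 11133816284) (nat_lit 152) (nat_lit 2558518280) (nat_lit 84) (nat_lit 4) (nat_lit 86) (nat_lit 5) (nat_lit 86) (nat_lit 4) (nat_lit 457) (nat_lit 381) (nat_lit 362)) (XT.lf (nat_lit 0) (nat_lit 8916010423) (nat_lit 152) (nat_lit 8631890711) (nat_lit 0) (nat_lit 330840634)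 (nat_lit 82) (nat_lit 5) (nat_lit 84) (nat_lit 4) (nat_lit 82) (nat_lit 4) (nat_lit 458) (nat_lit 381) (nat_lit 361)))) (XT.nd (nat_lit 156) (nat_lit 304) (nat_lit 0) (XT.nd (nat_lit 78) (nat_lit 152) (nat_lit 0) (XT.lf (nat_lit 0) (nat_lit 2597182624) (nat_lit 228) (nat_lit 3560163105) (nat_lit 76) (nat_lit 12243179892) (nat_lit 79) (nat_lit 5) (nat_lit 82) (nat_lit 5) (nat_lit 80) (nat_lit 4) (nat_lit 459) (nat_lit 381) (nat_lit 360)) (XT.lf (nat_lit 0) (nat_lit 1567213258) (nat_lit 76) (nat_lit 13089570532) (nat_lit 76) (nat_lit 4285742453) (nat_lit 77) (nat_lit 4) (nat_lit 78) (nat_lit 5) (nat_lit 78) (nat_lit 4) (nat_lit 460) (nat_lit 381) (nat_lit 359))) (XT.nd (nat_lit 78) (nat_lit 152) (nat_lit 0) (XT.lf (nat_lit 0) (nat_lit 6798649303) (nat_lit 76) (nat_lit 994567278) (nat_lit 152) (nat_lit 11712024971) (nat_lit 75) (nat_lit 5) (nat_lit 76) (nat_lit 5) (nat_lit 77) (nat_lit 4) (nat_lit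 461) (nat_lit 381) (nat_lit 358)) (XT.lf (nat_lit 0) (nat_lit 447468446) (nat_lit 152) (nat_lit 8051797772) (nat_lit 76) (nat_lit 11590654885) (nat_lit 73) (nat_lit 5) (nat_lit 75) (nat_lit 5) (nat_lit 74) (nat_lit 4) (nat_lit 462) (nat_lit 381) (nat_lit 357)))))) (XT.nd (nat_lit 468) (nat_lit 912) (nat_lit 0) (XT.nd (nat_lit 234) (nat_lit 380) (nat_lit 0) (XT.nd (nat_lit 78) (nat_lit 304) (nat_lit 0) (XT.lf (nat_lit 0) (nat_lit 13078825955) (nat_lit 152) (nat_lit 3424874894) (nat_lit 0) (nat_lit 4193472750) (nat_lit 72) (nat_lit 5) (nat_lit 74) (nat_lit 4) (nat_lit 72) (nat_lit 4) (nat_lit 463) (nat_lit 381) (nat_lit 356)) (XT.nd (nat_lit 78) (nat_lit 76) (nat_lit 0) (XT.lf (nat_lit 0) (nat_lit 1225928954) (nat_lit 76) (nat_lit 3842340457) (nat_lit 152) (nat_lit 16260306150) (nat_lit 69) (nat_lit 5) (nat_lit 70) (nat_lit 5) (nat_lit 71) (nat_lit 4) (nat_lit 464) (nat_lit 381) (nat_lit 355)) (XT.lf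 (nat_lit 0) (nat_lit 5904732292) (nat_lit 76) (nat_lit 12520690466) (nat_lit 76) (nat_lit 3558050063) (nat_lit 68) (nat_lit 4) (nat_lit 69) (nat_lit 5) (nat_lit 69) (nat_lit 4) (nat_lit 465) (nat_lit 381) (nat_lit 354)))) (XT.nd (nat_lit 78) (nat_lit 228) (nat_lit 0) (XT.lf (nat_lit 0) (nat_lit 9708282036) (nat_lit 152) (nat_lit 12101319368) (nat_lit 0) (nat_lit 855100542) (nat_lit 66) (nat_lit 5) (nat_lit 68) (nat_lit 4) (nat_lit 66) (nat_lit 4) (nat_lit 466) (nat_lit 381) (nat_lit 353)) (XT.nd (nat_lit 78) (nat_lit 76) (nat_lit 0) (XT.lf (nat_lit 0) (nat_lit 390742848) (nat_lit 152) (nat_lit 8204343864) (nat_lit 76) (nat_lit 14777527815) (nat_lit 64) (nat_lit 5) (nat_lit 66) (nat_lit 5) (nat_lit 65) (nat_lit 4) (nat_lit 467) (nat_lit 381) (nat_lit 352)) (XT.lf (nat_lit 0) (nat_lit 14279880458) (nat_lit 152) (nat_lit 4417015017) (nat_lit 0) (nat_lit 5410902382) (nat_lit 63) (nat_lit 5) (nat_lit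 65) (nat_lit 4) (nat_lit 63) (nat_lit 4) (nat_lit 468) (nat_lit 381) (nat_lit 351))))) (XT.nd (nat_lit 234) (nat_lit 456) (nat_lit 0) (XT.nd (nat_lit 78) (nat_lit 304) (nat_lit 0) (XT.lf (nat_lit 0) (nat_lit 4088675080) (nat_lit 152) (nat_lit 696101803) (nat_lit 76) (nat_lit 20088335084) (nat_lit 61) (nat_lit 5) (nat_lit 63) (nat_lit 5) (nat_lit 62) (nat_lit 4) (nat_lit 469) (nat_lit 381) (nat_lit 350)) (XT.nd (nat_lit 78) (nat_lit 152) (nat_lit 0) (XT.lf (nat_lit 0) (nat_lit 2933738834) (nat_lit 76) (nat_lit 15792414093) (nat_lit 76) (nat_lit 6940771034) (nat_lit 59) (nat_lit 4) (nat_lit 60) (nat_lit 5) (nat_lit 60) (nat_lit 4) (nat_lit 470) (nat_lit 381) (nat_lit 349)) (XT.lf (nat_lit 0) (nat_lit 6483194712) (nat_lit 76) (nat_lit 1126063175) (nat_lit 152) (nat_lit 18884107468) (nat_lit 57) (nat_lit 5) (nat_lit 58) (nat_lit 5) (nat_lit 59) (nat_lit 4) (nat_lit 471) (nat_lit 381) (nat_lit 348))))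 (XT.nd (nat_lit 156) (nat_lit 228) (nat_lit 0) (XT.nd (nat_lit 78) (nat_lit 152) (nat_lit 0) (XT.lf (nat_lit 0) (nat_lit 9833616163) (nat_lit 76) (nat_lit 13161961834) (nat_lit 76) (nat_lit 4355919780) (nat_lit 56) (nat_lit 4) (nat_lit 57) (nat_lit 5) (nat_lit 57) (nat_lit 4) (nat_lit 472) (nat_lit 381) (nat_lit 347)) (XT.lf (nat_lit 0) (nat_lit 10839579245) (nat_lit 152) (nat_lit 15210902073) (nat_lit 0) (nat_lit 2194305917) (nat_lit 54) (nat_lit 5) (nat_lit 56) (nat_lit 4) (nat_lit 54) (nat_lit 4) (nat_lit 473) (nat_lit 381) (nat_lit 346))) (XT.nd (nat_lit 78) (nat_lit 152) (nat_lit 0) (XT.lf (nat_lit 0) (nat_lit 16021931830) (nat_lit 76) (nat_lit 10944056333) (nat_lit 76) (nat_lit 2207623067) (nat_lit 53) (nat_lit 4) (nat_lit 54) (nat_lit 5) (nat_lit 54) (nat_lit 4) (nat_lit 474) (nat_lit 381) (nat_lit 345)) (XT.lf (nat_lit 0) (nat_lit 13666015211) (nat_lit 152) (nat_lit 11373611198) (nat_lit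 0) (nat_lit 5099750886) (nat_lit 51) (nat_lit 5) (nat_lit 53) (nat_lit 4) (nat_lit 51) (nat_lit 4) (nat_lit 475) (nat_lit 381) (nat_lit 344))))))) (XT.nd (nat_lit 1014) (nat_lit 1064) (nat_lit 0) (XT.nd (nat_lit 468) (nat_lit 760) (nat_lit 0) (XT.nd (nat_lit 234) (nat_lit 304) (nat_lit 0) (XT.nd (nat_lit 78) (nat_lit 304) (nat_lit 0) (XT.lf (nat_lit 0) (nat_lit 21287124856) (nat_lit 76) (nat_lit 9252319686) (nat_lit 76) (nat_lit 605778904) (nat_lit 50) (nat_lit 4) (nat_lit 51) (nat_lit 5) (nat_lit 51) (nat_lit 4) (nat_lit 476) (nat_lit 381) (nat_lit 343)) (XT.nd (nat_lit 78) (nat_lit 152) (nat_lit 0) (XT.lf (nat_lit 0) (nat_lit 15963245196) (nat_lit 152) (nat_lit 8732528066) (nat_lit 0) (nat_lit 7494318447) (nat_lit 48) (nat_lit 5) (nat_lit 50) (nat_lit 4) (nat_lit 48) (nat_lit 4) (nat_lit 477) (nat_lit 381) (nat_lit 342)) (XT.lf (nat_lit 0) (nat_lit 309612266) (nat_lit 152) (nat_lit 7911106191)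 (nat_lit 76) (nat_lit 25058798657) (nat_lit 46) (nat_lit 5) (nat_lit 48) (nat_lit 5) (nat_lit 47) (nat_lit 4) (nat_lit 478) (nat_lit 381) (nat_lit 341)))) (XT.nd (nat_lit 78) (nat_lit 228) (nat_lit 0) (XT.lf (nat_lit 0) (nat_lit 17591570487) (nat_lit 152) (nat_lit 7584082597) (nat_lit 0) (nat_lit 9235313076) (nat_lit 45) (nat_lit 5) (nat_lit 47) (nat_lit 4) (nat_lit 45) (nat_lit 4) (nat_lit 479) (nat_lit 381) (nat_lit 340)) (XT.nd (nat_lit 78) (nat_lit 76) (nat_lit 0) (XT.lf (nat_lit 0) (nat_lit 387191339) (nat_lit 152) (nat_lit 7632511456) (nat_lit 76) (nat_lit 27571707525) (nat_lit 43) (nat_lit 5) (nat_lit 45) (nat_lit 5) (nat_lit 44) (nat_lit 4) (nat_lit 480) (nat_lit 381) (nat_lit 339)) (XT.lf (nat_lit 0) (nat_lit 18381472600) (nat_lit 152) (nat_lit 8285551295) (nat_lit 0) (nat_lit 10150600815) (nat_lit 42) (nat_lit 5) (nat_lit 44) (nat_lit 4) (nat_lit 42) (nat_lit 4) (nat_lit 481) (nat_lit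 381) (nat_lit 338))))) (XT.nd (nat_lit 234) (nat_lit 456) (nat_lit 0) (XT.nd (nat_lit 78) (nat_lit 228) (nat_lit 0) (XT.lf (nat_lit 0) (nat_lit 28683752729) (nat_lit 76) (nat_lit 8849675311) (nat_lit 76) (nat_lit 563983311) (nat_lit 41) (nat_lit 4) (nat_lit 42) (nat_lit 5) (nat_lit 42) (nat_lit 4) (nat_lit 482) (nat_lit 381) (nat_lit 337)) (XT.nd (nat_lit 78) (nat_lit 76) (nat_lit 0) (XT.lf (nat_lit 0) (nat_lit 18128175715) (nat_lit 152) (nat_lit 11266190496) (nat_lit 0) (nat_lit 10033125494) (nat_lit 39) (nat_lit 5) (nat_lit 41) (nat_lit 4) (nat_lit 39) (nat_lit 4) (nat_lit 483) (nat_lit 381) (nat_lit 336)) (XT.lf (nat_lit 0) (nat_lit 27080456270) (nat_lit 76) (nat_lit 10939242743) (nat_lit 76) (nat_lit 2795917230) (nat_lit 38) (nat_lit 4) (nat_lit 39) (nat_lit 5) (nat_lit 39) (nat_lit 4) (nat_lit 484) (nat_lit 381) (nat_lit 335)))) (XT.nd (nat_lit 156) (nat_lit 228) (nat_lit 0) (XT.nd (nat_lit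 78) (nat_lit 76) (nat_lit 0) (XT.lf (nat_lit 0) (nat_lit 16585247886) (nat_lit 152) (nat_lit 17040318859) (nat_lit 0) (nat_lit 8634469263) (nat_lit 36) (nat_lit 5) (nat_lit 38) (nat_lit 4) (nat_lit 36) (nat_lit 4) (nat_lit 485) (nat_lit 381) (nat_lit 334)) (XT.lf (nat_lit 0) (nat_lit 22608291395) (nat_lit 76) (nat_lit 14575825724) (nat_lit 76) (nat_lit 6582535341) (nat_lit 35) (nat_lit 4) (nat_lit 36) (nat_lit 5) (nat_lit 36) (nat_lit 4) (nat_lit 486) (nat_lit 381) (nat_lit 333))) (XT.nd (nat_lit 78) (nat_lit 76) (nat_lit 0) (XT.lf (nat_lit 0) (nat_lit 13457075897) (nat_lit 152) (nat_lit 26222685105) (nat_lit 0) (nat_lit 5657291651) (nat_lit 33) (nat_lit 5) (nat_lit 35) (nat_lit 4) (nat_lit 33) (nat_lit 4) (nat_lit 487) (nat_lit 381) (nat_lit 332)) (XT.lf (nat_lit 0) (nat_lit 14615481262) (nat_lit 76) (nat_lit 20097620038) (nat_lit 76) (nat_lit 12260399463) (nat_lit 32) (nat_lit 4) (nat_lit 33)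 (nat_lit 5) (nat_lit 33) (nat_lit 4) (nat_lit 488) (nat_lit 381) (nat_lit 331)))))) (XT.nd (nat_lit 546) (nat_lit 380) (nat_lit 0) (XT.nd (nat_lit 234) (nat_lit 380) (nat_lit 0) (XT.nd (nat_lit 78) (nat_lit 152) (nat_lit 0) (XT.lf (nat_lit 0) (nat_lit 8390020450) (nat_lit 152) (nat_lit 39546514370) (nat_lit 0) (nat_lit 746453243) (nat_lit 30) (nat_lit 5) (nat_lit 32) (nat_lit 4) (nat_lit 30) (nat_lit 4) (nat_lit 489) (nat_lit 381) (nat_lit 330)) (XT.nd (nat_lit 78) (nat_lit 76) (nat_lit 0) (XT.lf (nat_lit 0) (nat_lit 2323798886) (nat_lit 76) (nat_lit 27907345496) (nat_lit 76) (nat_lit 20230811441) (nat_lit 29) (nat_lit 4) (nat_lit 30) (nat_lit 5) (nat_lit 30) (nat_lit 4) (nat_lit 490) (nat_lit 381) (nat_lit 329)) (XT.lf (nat_lit 0) (nat_lit 1080033714) (nat_lit 152) (nat_lit 5515462615) (nat_lit 76) (nat_lit 45726279261) (nat_lit 28) (nat_lit 5) (nat_lit 30) (nat_lit 5) (nat_lit 29) (nat_lit 4)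 (nat_lit 491) (nat_lit 381) (nat_lit 328)))) (XT.nd (nat_lit 156) (nat_lit 228) (nat_lit 0) (XT.nd (nat_lit 78) (nat_lit 76) (nat_lit 0) (XT.lf (nat_lit 0) (nat_lit 23435750845) (nat_lit 152) (nat_lit 14897602848) (nat_lit 0) (nat_lit 15923291661) (nat_lit 27) (nat_lit 5) (nat_lit 29) (nat_lit 4) (nat_lit 27) (nat_lit 4) (nat_lit 492) (nat_lit 381) (nat_lit 327)) (XT.lf (nat_lit 0) (nat_lit 30554950972) (nat_lit 76) (nat_lit 16632534296) (nat_lit 76) (nat_lit 9092426565) (nat_lit 26) (nat_lit 4) (nat_lit 27) (nat_lit 5) (nat_lit 27) (nat_lit 4) (nat_lit 493) (nat_lit 381) (nat_lit 326))) (XT.nd (nat_lit 78) (nat_lit 76) (nat_lit 0) (XT.lf (nat_lit 0) (nat_lit 13729394622) (nat_lit 152) (nat_lit 38279412094) (nat_lit 0) (nat_lit 6383336680) (nat_lit 24) (nat_lit 5) (nat_lit 26) (nat_lit 4) (nat_lit 24) (nat_lit 4) (nat_lit 494) (nat_lit 381) (nat_lit 325)) (XT.lf (nat_lit 0) (nat_lit 7798105594)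 (nat_lit 76) (nat_lit 30084123455) (nat_lit 76) (nat_lit 22713717893) (nat_lit 23) (nat_lit 4) (nat_lit 24) (nat_lit 5) (nat_lit 24) (nat_lit 4) (nat_lit 495) (nat_lit 381) (nat_lit 324))))) (XT.nd (nat_lit 234) (nat_lit 152) (nat_lit 0) (XT.nd (nat_lit 78) (nat_lit 152) (nat_lit 0) (XT.lf (nat_lit 0) (nat_lit 592747590) (nat_lit 152) (nat_lit 6190316160) (nat_lit 76) (nat_lit 56118786797) (nat_lit 22) (nat_lit 5) (nat_lit 24) (nat_lit 5) (nat_lit 23) (nat_lit 4) (nat_lit 496) (nat_lit 381) (nat_lit 323)) (XT.nd (nat_lit 78) (nat_lit 76) (nat_lit 0) (XT.lf (nat_lit 0) (nat_lit 25063443001) (nat_lit 152) (nat_lit 22375044140) (nat_lit 0) (nat_lit 17863755838) (nat_lit 21) (nat_lit 5) (nat_lit 23) (nat_lit 4) (nat_lit 21) (nat_lit 4) (nat_lit 497) (nat_lit 381) (nat_lit 322)) (XT.lf (nat_lit 0) (nat_lit 27020202742) (nat_lit 76) (nat_lit 24007233246) (nat_lit 76) (nat_lit 16787126288) (nat_lit 20)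 (nat_lit 4) (nat_lit 21) (nat_lit 5) (nat_lit 21) (nat_lit 4) (nat_lit 498) (nat_lit 381) (nat_lit 321)))) (XT.nd (nat_lit 57642) (nat_lit 0) (nat_lit 9880) (XT.nd (nat_lit 57564) (nat_lit 0) (nat_lit 10640) (XT.lf (nat_lit 0) (nat_lit 7889002602) (nat_lit 152) (nat_lit 61694781898) (nat_lit 0) (nat_lit 860309028) (nat_lit 18) (nat_lit 5) (nat_lit 20) (nat_lit 4) (nat_lit 18) (nat_lit 4) (nat_lit 499) (nat_lit 381) (nat_lit 320)) (XT.lf (nat_lit 0) (nat_lit 205378353) (nat_lit 228) (nat_lit 2463853111) (nat_lit 228) (nat_lit 2463853111) (nat_lit 158) (nat_lit 4) (nat_lit 161) (nat_lit 5) (nat_lit 161) (nat_lit 4) (nat_lit 436) (nat_lit 382) (nat_lit 382))) (XT.nd (nat_lit 78) (nat_lit 456) (nat_lit 0) (XT.lf (nat_lit 0) (nat_lit 3455330468) (nat_lit 304) (nat_lit 4653724470) (nat_lit 0) (nat_lit 2382052580) (nat_lit 154) (nat_lit 5) (nat_lit 158) (nat_lit 4) (nat_lit 154) (nat_lit 4) (nat_lit 437)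 (nat_lit 382) (nat_lit 381)) (XT.lf (nat_lit 0) (nat_lit 668784245) (nat_lit 152) (nat_lit 692906173) (nat_lit 228) (nat_lit 9364938117) (nat_lit 148) (nat_lit 5) (nat_lit 150) (nat_lit 5) (nat_lit 151) (nat_lit 4) (nat_lit 438) (nat_lit 382) (nat_lit 380))))))))
noncomputable def xc19 : XT := (XT.nd (nat_lit 2028) (nat_lit 3192) (nat_lit 0) (XT.nd (nat_lit 1014) (nat_lit 2356) (nat_lit 0) (XT.nd (nat_lit 468) (nat_lit 1748) (nat_lit 0) (XT.nd (nat_lit 234) (nat_lit 836) (nat_lit 0) (XT.nd (nat_lit 78) (nat_lit 684) (nat_lit 0) (XT.lf (nat_lit 0) (nat_lit 6170554588) (nat_lit 228) (nat_lit 3890015428) (nat_lit 228) (nat_lit 910460100) (nat_lit 145) (nat_lit 4) (nat_lit 148) (nat_lit 5) (nat_lit 148) (nat_lit 4) (nat_lit 439) (nat_lit 382) (nat_lit 379)) (XT.nd (nat_lit 78) (nat_lit 228) (nat_lit 0) (XT.lf (nat_lit 0) (nat_lit 564744610) (nat_lit 228) (nat_lit 7214137781) (nat_lit 228) (nat_lit 3447449326)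 (nat_lit 139) (nat_lit 4) (nat_lit 142) (nat_lit 5) (nat_lit 142) (nat_lit 4) (nat_lit 440) (nat_lit 382) (nat_lit 378)) (XT.lf (nat_lit 0) (nat_lit 5303799052) (nat_lit 228) (nat_lit 5349441957) (nat_lit 0) (nat_lit 838760524) (nat_lit 136) (nat_lit 5) (nat_lit 139) (nat_lit 4) (nat_lit 136) (nat_lit 4) (nat_lit 441) (nat_lit 382) (nat_lit 377)))) (XT.nd (nat_lit 78) (nat_lit 380) (nat_lit 0) (XT.lf (nat_lit 0) (nat_lit 49119506) (nat_lit 152) (nat_lit 2553707321) (nat_lit 228) (nat_lit 9166248496) (nat_lit 130) (nat_lit 5) (nat_lit 132) (nat_lit 5) (nat_lit 133) (nat_lit 4) (nat_lit 442) (nat_lit 382) (nat_lit 376)) (XT.nd (nat_lit 78) (nat_lit 228) (nat_lit 0) (XT.lf (nat_lit 0) (nat_lit 5658077900) (nat_lit 152) (nat_lit 6096183317) (nat_lit 152) (nat_lit 302442839) (nat_lit 128) (nat_lit 4) (nat_lit 130) (nat_lit 5) (nat_lit 130) (nat_lit 4) (nat_lit 443) (nat_lit 382) (nat_lit 375)) (XT.lf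 (nat_lit 0) (nat_lit 8820786951) (nat_lit 228) (nat_lit 997742298) (nat_lit 0) (nat_lit 2537833964) (nat_lit 125) (nat_lit 5) (nat_lit 128) (nat_lit 4) (nat_lit 125) (nat_lit 4) (nat_lit 444) (nat_lit 382) (nat_lit 374))))) (XT.nd (nat_lit 234) (nat_lit 836) (nat_lit 0) (XT.nd (nat_lit 78) (nat_lit 532) (nat_lit 0) (XT.lf (nat_lit 0) (nat_lit 4592663928) (nat_lit 152) (nat_lit 1073467900) (nat_lit 228) (nat_lit 7001493011) (nat_lit 120) (nat_lit 5) (nat_lit 122) (nat_lit 5) (nat_lit 123) (nat_lit 4) (nat_lit 445) (nat_lit 382) (nat_lit 373)) (XT.nd (nat_lit 78) (nat_lit 304) (nat_lit 0) (XT.lf (nat_lit 0) (nat_lit 2260705226) (nat_lit 228) (nat_lit 2698510936) (nat_lit 76) (nat_lit 8032231684) (nat_lit 117) (nat_lit 5) (nat_lit 120) (nat_lit 5) (nat_lit 118) (nat_lit 4) (nat_lit 446) (nat_lit 382) (nat_lit 372)) (XT.lf (nat_lit 0) (nat_lit 2826603198) (nat_lit 152) (nat_lit 9056376613) (nat_lit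 152) (nat_lit 1445152805) (nat_lit 113) (nat_lit 4) (nat_lit 115) (nat_lit 5) (nat_lit 115) (nat_lit 4) (nat_lit 447) (nat_lit 382) (nat_lit 371)))) (XT.nd (nat_lit 156) (nat_lit 304) (nat_lit 0) (XT.nd (nat_lit 78) (nat_lit 304) (nat_lit 0) (XT.lf (nat_lit 0) (nat_lit 8189783667) (nat_lit 228) (nat_lit 5183189190) (nat_lit 0) (nat_lit 304873260) (nat_lit 110) (nat_lit 5) (nat_lit 113) (nat_lit 4) (nat_lit 110) (nat_lit 4) (nat_lit 448) (nat_lit 382) (nat_lit 370)) (XT.lf (nat_lit 0) (nat_lit 203452875) (nat_lit 76) (nat_lit 4013368225) (nat_lit 152) (nat_lit 9824554189) (nat_lit 106) (nat_lit 5) (nat_lit 107) (nat_lit 5) (nat_lit 108) (nat_lit 4) (nat_lit 449) (nat_lit 382) (nat_lit 369))) (XT.nd (nat_lit 78) (nat_lit 152) (nat_lit 0) (XT.lf (nat_lit 0) (nat_lit 5797531265) (nat_lit 152) (nat_lit 8585382048) (nat_lit 152) (nat_lit 35856197) (nat_lit 104) (nat_lit 4) (nat_lit 106) (nat_lit 5) (nat_lit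 106) (nat_lit 4) (nat_lit 450) (nat_lit 382) (nat_lit 368)) (XT.lf (nat_lit 0) (nat_lit 10081434319) (nat_lit 152) (nat_lit 3351910678) (nat_lit 0) (nat_lit 1377566644) (nat_lit 102) (nat_lit 5) (nat_lit 104) (nat_lit 4) (nat_lit 102) (nat_lit 4) (nat_lit 451) (nat_lit 382) (nat_lit 367)))))) (XT.nd (nat_lit 468) (nat_lit 1140) (nat_lit 0) (XT.nd (nat_lit 234) (nat_lit 608) (nat_lit 0) (XT.nd (nat_lit 78) (nat_lit 304) (nat_lit 0) (XT.lf (nat_lit 0) (nat_lit 2023031251) (nat_lit 76) (nat_lit 3450391695) (nat_lit 152) (nat_lit 9744673426) (nat_lit 98) (nat_lit 5) (nat_lit 99) (nat_lit 5) (nat_lit 100) (nat_lit 4) (nat_lit 452) (nat_lit 382) (nat_lit 366)) (XT.nd (nat_lit 78) (nat_lit 76) (nat_lit 0) (XT.lf (nat_lit 0) (nat_lit 537790779) (nat_lit 228) (nat_lit 8086803305) (nat_lit 76) (nat_lit 7016454130) (nat_lit 95) (nat_lit 5) (nat_lit 98) (nat_lit 5) (nat_lit 96) (nat_lit 4) (nat_lit 453) (nat_lit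 382) (nat_lit 365)) (XT.lf (nat_lit 0) (nat_lit 11192976408) (nat_lit 152) (nat_lit 2934114972) (nat_lit 0) (nat_lit 1953359848) (nat_lit 94) (nat_lit 5) (nat_lit 96) (nat_lit 4) (nat_lit 94) (nat_lit 4) (nat_lit 454) (nat_lit 382) (nat_lit 364)))) (XT.nd (nat_lit 78) (nat_lit 304) (nat_lit 0) (XT.lf (nat_lit 0) (nat_lit 2317051309) (nat_lit 76) (nat_lit 3529974131) (nat_lit 152) (nat_lit 10689460846) (nat_lit 90) (nat_lit 5) (nat_lit 91) (nat_lit 5) (nat_lit 92) (nat_lit 4) (nat_lit 455) (nat_lit 382) (nat_lit 363)) (XT.nd (nat_lit 78) (nat_lit 76) (nat_lit 0) (XT.lf (nat_lit 0) (nat_lit 125953069) (nat_lit 228) (nat_lit 9307722228) (nat_lit 76) (nat_lit 7576515297) (nat_lit 87) (nat_lit 5) (nat_lit 90) (nat_lit 5) (nat_lit 88) (nat_lit 4) (nat_lit 456) (nat_lit 382) (nat_lit 362)) (XT.lf (nat_lit 0) (nat_lit 11340014548) (nat_lit 152) (nat_lit 4374297050) (nat_lit 0) (nat_lit 1787726543) (nat_lit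 86) (nat_lit 5) (nat_lit 88) (nat_lit 4) (nat_lit 86) (nat_lit 4) (nat_lit 457) (nat_lit 382) (nat_lit 361))))) (XT.nd (nat_lit 234) (nat_lit 532) (nat_lit 0) (XT.nd (nat_lit 78) (nat_lit 304) (nat_lit 0) (XT.lf (nat_lit 0) (nat_lit 607197861) (nat_lit 76) (nat_lit 4522939149) (nat_lit 152) (nat_lit 12882874424) (nat_lit 82) (nat_lit 5) (nat_lit 83) (nat_lit 5) (nat_lit 84) (nat_lit 4) (nat_lit 458) (nat_lit 382) (nat_lit 360)) (XT.nd (nat_lit 78) (nat_lit 152) (nat_lit 0) (XT.lf (nat_lit 0) (nat_lit 5724978094) (nat_lit 152) (nat_lit 11287487796) (nat_lit 152) (nat_lit 1530648638) (nat_lit 80) (nat_lit 4) (nat_lit 82) (nat_lit 5) (nat_lit 82) (nat_lit 4) (nat_lit 459) (nat_lit 382) (nat_lit 359)) (XT.lf (nat_lit 0) (nat_lit 10281390898) (nat_lit 152) (nat_lit 8221509974) (nat_lit 0) (nat_lit 590979243) (nat_lit 78) (nat_lit 5) (nat_lit 80) (nat_lit 4) (nat_lit 78) (nat_lit 4) (nat_lit 460) (nat_lit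 382) (nat_lit 358)))) (XT.nd (nat_lit 156) (nat_lit 228) (nat_lit 0) (XT.nd (nat_lit 78) (nat_lit 152) (nat_lit 0) (XT.lf (nat_lit 0) (nat_lit 3089075364) (nat_lit 152) (nat_lit 3626971787) (nat_lit 76) (nat_lit 12949826123) (nat_lit 76) (nat_lit 5) (nat_lit 78) (nat_lit 5) (nat_lit 77) (nat_lit 4) (nat_lit 461) (nat_lit 382) (nat_lit 357)) (XT.lf (nat_lit 0) (nat_lit 995990978) (nat_lit 76) (nat_lit 14532683468) (nat_lit 76) (nat_lit 4731418893) (nat_lit 74) (nat_lit 4) (nat_lit 75) (nat_lit 5) (nat_lit 75) (nat_lit 4) (nat_lit 462) (nat_lit 382) (nat_lit 356))) (XT.nd (nat_lit 78) (nat_lit 76) (nat_lit 0) (XT.lf (nat_lit 0) (nat_lit 5698441000) (nat_lit 76) (nat_lit 2026844450) (nat_lit 152) (nat_lit 13151434764) (nat_lit 72) (nat_lit 5) (nat_lit 73) (nat_lit 5) (nat_lit 74) (nat_lit 4) (nat_lit 463) (nat_lit 382) (nat_lit 355)) (XT.lf (nat_lit 0) (nat_lit 10391561529) (nat_lit 76) (nat_lit 10493907460)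 (nat_lit 76) (nat_lit 631950201) (nat_lit 71) (nat_lit 4) (nat_lit 72) (nat_lit 5) (nat_lit 72) (nat_lit 4) (nat_lit 464) (nat_lit 382) (nat_lit 354))))))) (XT.nd (nat_lit 1014) (nat_lit 1444) (nat_lit 0) (XT.nd (nat_lit 468) (nat_lit 912) (nat_lit 0) (XT.nd (nat_lit 234) (nat_lit 380) (nat_lit 0) (XT.nd (nat_lit 78) (nat_lit 304) (nat_lit 0) (XT.lf (nat_lit 0) (nat_lit 12393895518) (nat_lit 152) (nat_lit 7125869623) (nat_lit 0) (nat_lit 2663043197) (nat_lit 69) (nat_lit 5) (nat_lit 71) (nat_lit 4) (nat_lit 69) (nat_lit 4) (nat_lit 465) (nat_lit 382) (nat_lit 353)) (XT.nd (nat_lit 78) (nat_lit 152) (nat_lit 0) (XT.lf (nat_lit 0) (nat_lit 3307882664) (nat_lit 152) (nat_lit 3164551975) (nat_lit 76) (nat_lit 16402133801) (nat_lit 67) (nat_lit 5) (nat_lit 69) (nat_lit 5) (nat_lit 68) (nat_lit 4) (nat_lit 466) (nat_lit 382) (nat_lit 352)) (XT.lf (nat_lit 0) (nat_lit 738360566) (nat_lit 76) (nat_lit 16291874789)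 (nat_lit 76) (nat_lit 6562579426) (nat_lit 65) (nat_lit 4) (nat_lit 66) (nat_lit 5) (nat_lit 66) (nat_lit 4) (nat_lit 467) (nat_lit 382) (nat_lit 351)))) (XT.nd (nat_lit 78) (nat_lit 228) (nat_lit 0) (XT.lf (nat_lit 0) (nat_lit 4654906431) (nat_lit 76) (nat_lit 2495413745) (nat_lit 152) (nat_lit 17188699751) (nat_lit 63) (nat_lit 5) (nat_lit 64) (nat_lit 5) (nat_lit 65) (nat_lit 4) (nat_lit 468) (nat_lit 382) (nat_lit 350)) (XT.nd (nat_lit 78) (nat_lit 152) (nat_lit 0) (XT.lf (nat_lit 0) (nat_lit 8462576351) (nat_lit 76) (nat_lit 13172738658) (nat_lit 76) (nat_lit 3478606555) (nat_lit 62) (nat_lit 4) (nat_lit 63) (nat_lit 5) (nat_lit 63) (nat_lit 4) (nat_lit 469) (nat_lit 382) (nat_lit 349)) (XT.lf (nat_lit 0) (nat_lit 10854992590) (nat_lit 152) (nat_lit 13733639115) (nat_lit 0) (nat_lit 1331258108) (nat_lit 60) (nat_lit 5) (nat_lit 62) (nat_lit 4) (nat_lit 60) (nat_lit 4) (nat_lit 470) (nat_lit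 382) (nat_lit 348))))) (XT.nd (nat_lit 234) (nat_lit 532) (nat_lit 0) (XT.nd (nat_lit 78) (nat_lit 304) (nat_lit 0) (XT.lf (nat_lit 0) (nat_lit 15785909758) (nat_lit 76) (nat_lit 10300983100) (nat_lit 76) (nat_lit 670624103) (nat_lit 59) (nat_lit 4) (nat_lit 60) (nat_lit 5) (nat_lit 60) (nat_lit 4) (nat_lit 471) (nat_lit 382) (nat_lit 347)) (XT.nd (nat_lit 78) (nat_lit 152) (nat_lit 0) (XT.lf (nat_lit 0) (nat_lit 14336586572) (nat_lit 152) (nat_lit 8402888378) (nat_lit 0) (nat_lit 4888133995) (nat_lit 57) (nat_lit 5) (nat_lit 59) (nat_lit 4) (nat_lit 57) (nat_lit 4) (nat_lit 472) (nat_lit 382) (nat_lit 346)) (XT.lf (nat_lit 0) (nat_lit 1749743065) (nat_lit 152) (nat_lit 5990368890) (nat_lit 76) (nat_lit 20793236101) (nat_lit 55) (nat_lit 5) (nat_lit 57) (nat_lit 5) (nat_lit 56) (nat_lit 4) (nat_lit 473) (nat_lit 382) (nat_lit 345)))) (XT.nd (nat_lit 156) (nat_lit 304) (nat_lit 0) (XT.nd (nat_lit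 78) (nat_lit 152) (nat_lit 0) (XT.lf (nat_lit 0) (nat_lit 17491519497) (nat_lit 152) (nat_lit 3841906150) (nat_lit 0) (nat_lit 8140285640) (nat_lit 54) (nat_lit 5) (nat_lit 56) (nat_lit 4) (nat_lit 54) (nat_lit 4) (nat_lit 474) (nat_lit 382) (nat_lit 344)) (XT.lf (nat_lit 0) (nat_lit 3718244172) (nat_lit 152) (nat_lit 1885882936) (nat_lit 76) (nat_lit 24849087441) (nat_lit 52) (nat_lit 5) (nat_lit 54) (nat_lit 5) (nat_lit 53) (nat_lit 4) (nat_lit 475) (nat_lit 382) (nat_lit 343))) (XT.nd (nat_lit 78) (nat_lit 228) (nat_lit 0) (XT.lf (nat_lit 0) (nat_lit 20221372894) (nat_lit 152) (nat_lit 263022209) (nat_lit 0) (nat_lit 10985774845) (nat_lit 51) (nat_lit 5) (nat_lit 53) (nat_lit 4) (nat_lit 51) (nat_lit 4) (nat_lit 476) (nat_lit 382) (nat_lit 342)) (XT.lf (nat_lit 0) (nat_lit 1136379125) (nat_lit 76) (nat_lit 4008837764) (nat_lit 152) (nat_lit 27384371563) (nat_lit 48) (nat_lit 5) (nat_lit 49) (nat_lit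 5) (nat_lit 50) (nat_lit 4) (nat_lit 477) (nat_lit 382) (nat_lit 341)))))) (XT.nd (nat_lit 546) (nat_lit 760) (nat_lit 0) (XT.nd (nat_lit 234) (nat_lit 380) (nat_lit 0) (XT.nd (nat_lit 78) (nat_lit 228) (nat_lit 0) (XT.lf (nat_lit 0) (nat_lit 2117264761) (nat_lit 76) (nat_lit 20308503188) (nat_lit 76) (nat_lit 11203884756) (nat_lit 47) (nat_lit 4) (nat_lit 48) (nat_lit 5) (nat_lit 48) (nat_lit 4) (nat_lit 478) (nat_lit 382) (nat_lit 340)) (XT.nd (nat_lit 78) (nat_lit 76) (nat_lit 0) (XT.lf (nat_lit 0) (nat_lit 2780521095) (nat_lit 76) (nat_lit 3105813666) (nat_lit 152) (nat_lit 28890309142) (nat_lit 45) (nat_lit 5) (nat_lit 46) (nat_lit 5) (nat_lit 47) (nat_lit 4) (nat_lit 479) (nat_lit 382) (nat_lit 339)) (XT.lf (nat_lit 0) (nat_lit 2920239192) (nat_lit 76) (nat_lit 21004318828) (nat_lit 76) (nat_lit 12043342930) (nat_lit 44) (nat_lit 4) (nat_lit 45) (nat_lit 5) (nat_lit 45) (nat_lit 4) (nat_lit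 480) (nat_lit 382) (nat_lit 338)))) (XT.nd (nat_lit 156) (nat_lit 152) (nat_lit 0) (XT.nd (nat_lit 78) (nat_lit 76) (nat_lit 0) (XT.lf (nat_lit 0) (nat_lit 2659861070) (nat_lit 76) (nat_lit 3092504343) (nat_lit 152) (nat_lit 31458230589) (nat_lit 42) (nat_lit 5) (nat_lit 43) (nat_lit 5) (nat_lit 44) (nat_lit 4) (nat_lit 481) (nat_lit 382) (nat_lit 337)) (XT.lf (nat_lit 0) (nat_lit 1757554398) (nat_lit 76) (nat_lit 22775486669) (nat_lit 76) (nat_lit 13968480127) (nat_lit 41) (nat_lit 4) (nat_lit 42) (nat_lit 5) (nat_lit 42) (nat_lit 4) (nat_lit 482) (nat_lit 382) (nat_lit 336))) (XT.nd (nat_lit 78) (nat_lit 0) (nat_lit 0) (XT.lf (nat_lit 0) (nat_lit 354379399) (nat_lit 76) (nat_lit 4183112961) (nat_lit 152) (nat_lit 35311407597) (nat_lit 39) (nat_lit 5) (nat_lit 40) (nat_lit 5) (nat_lit 41) (nat_lit 4) (nat_lit 483) (nat_lit 382) (nat_lit 335)) (XT.lf (nat_lit 0) (nat_lit 24048960948) (nat_lit 152)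 (nat_lit 1795247927) (nat_lit 0) (nat_lit 15404217399) (nat_lit 39) (nat_lit 5) (nat_lit 41) (nat_lit 4) (nat_lit 39) (nat_lit 4) (nat_lit 484) (nat_lit 382) (nat_lit 334))))) (XT.nd (nat_lit 234) (nat_lit 456) (nat_lit 0) (XT.nd (nat_lit 78) (nat_lit 152) (nat_lit 0) (XT.lf (nat_lit 0) (nat_lit 2039079264) (nat_lit 152) (nat_lit 4549199753) (nat_lit 76) (nat_lit 36121431388) (nat_lit 37) (nat_lit 5) (nat_lit 39) (nat_lit 5) (nat_lit 38) (nat_lit 4) (nat_lit 485) (nat_lit 382) (nat_lit 333)) (XT.nd (nat_lit 78) (nat_lit 76) (nat_lit 0) (XT.lf (nat_lit 0) (nat_lit 22235784152) (nat_lit 152) (nat_lit 8232777659) (nat_lit 0) (nat_lit 13759830100) (nat_lit 36) (nat_lit 5) (nat_lit 38) (nat_lit 4) (nat_lit 36) (nat_lit 4) (nat_lit 486) (nat_lit 382) (nat_lit 332)) (XT.lf (nat_lit 0) (nat_lit 33121373841) (nat_lit 76) (nat_lit 10603830478) (nat_lit 76) (nat_lit 2089317006) (nat_lit 35) (nat_lit 4) (nat_lit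 36) (nat_lit 5) (nat_lit 36) (nat_lit 4) (nat_lit 487) (nat_lit 382) (nat_lit 331)))) (XT.nd (nat_lit 156) (nat_lit 228) (nat_lit 0) (XT.nd (nat_lit 78) (nat_lit 76) (nat_lit 0) (XT.lf (nat_lit 0) (nat_lit 18765852594) (nat_lit 152) (nat_lit 18235287228) (nat_lit 0) (nat_lit 10463681013) (nat_lit 33) (nat_lit 5) (nat_lit 35) (nat_lit 4) (nat_lit 33) (nat_lit 4) (nat_lit 488) (nat_lit 382) (nat_lit 330)) (XT.lf (nat_lit 0) (nat_lit 24378246900) (nat_lit 76) (nat_lit 16572495162) (nat_lit 76) (nat_lit 8236367726) (nat_lit 32) (nat_lit 4) (nat_lit 33) (nat_lit 5) (nat_lit 33) (nat_lit 4) (nat_lit 489) (nat_lit 382) (nat_lit 329))) (XT.nd (nat_lit 78) (nat_lit 76) (nat_lit 0) (XT.lf (nat_lit 0) (nat_lit 13267496961) (nat_lit 152) (nat_lit 32573122929) (nat_lit 0) (nat_lit 5142772355) (nat_lit 30) (nat_lit 5) (nat_lit 32) (nat_lit 4) (nat_lit 30) (nat_lit 4) (nat_lit 490) (nat_lit 382) (nat_lit 328))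 (XT.lf (nat_lit 0) (nat_lit 11134135478) (nat_lit 76) (nat_lit 24937830521) (nat_lit 76) (nat_lit 16783204010) (nat_lit 29) (nat_lit 4) (nat_lit 30) (nat_lit 5) (nat_lit 30) (nat_lit 4) (nat_lit 491) (nat_lit 382) (nat_lit 327))))))))
noncomputable def xc20 : XT := (XT.nd (nat_lit 59358) (nat_lit 0) (nat_lit 2128) (XT.nd (nat_lit 58344) (nat_lit 0) (nat_lit 6232) (XT.nd (nat_lit 468) (nat_lit 76) (nat_lit 0) (XT.nd (nat_lit 234) (nat_lit 380) (nat_lit 0) (XT.nd (nat_lit 78) (nat_lit 76) (nat_lit 0) (XT.lf (nat_lit 0) (nat_lit 2622963135) (nat_lit 76) (nat_lit 2700222898) (nat_lit 152) (nat_lit 49488998571) (nat_lit 27) (nat_lit 5) (nat_lit 28) (nat_lit 5) (nat_lit 29) (nat_lit 4) (nat_lit 492) (nat_lit 382) (nat_lit 326)) (XT.nd (nat_lit 78) (nat_lit 76) (nat_lit 0) (XT.lf (nat_lit 0) (nat_lit 28690493959) (nat_lit 152) (nat_lit 7437089654) (nat_lit 0) (nat_lit 20719400345) (nat_lit 27) (nat_lit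 5) (nat_lit 29) (nat_lit 4) (nat_lit 27) (nat_lit 4) (nat_lit 493) (nat_lit 382) (nat_lit 325)) (XT.lf (nat_lit 0) (nat_lit 40052885904) (nat_lit 76) (nat_lit 13459117061) (nat_lit 76) (nat_lit 5462945400) (nat_lit 26) (nat_lit 4) (nat_lit 27) (nat_lit 5) (nat_lit 27) (nat_lit 4) (nat_lit 494) (nat_lit 382) (nat_lit 324)))) (XT.nd (nat_lit 78) (nat_lit 228) (nat_lit 0) (XT.lf (nat_lit 0) (nat_lit 18342527626) (nat_lit 152) (nat_lit 32295352685) (nat_lit 0) (nat_lit 10556065959) (nat_lit 24) (nat_lit 5) (nat_lit 26) (nat_lit 4) (nat_lit 24) (nat_lit 4) (nat_lit 495) (nat_lit 382) (nat_lit 323)) (XT.nd (nat_lit 78) (nat_lit 152) (nat_lit 0) (XT.lf (nat_lit 0) (nat_lit 15859645443) (nat_lit 76) (nat_lit 27730118809) (nat_lit 76) (nat_lit 19921573135) (nat_lit 23) (nat_lit 4) (nat_lit 24) (nat_lit 5) (nat_lit 24) (nat_lit 4) (nat_lit 496) (nat_lit 382) (nat_lit 322)) (XT.lf (nat_lit 0) (nat_lit 896990363)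 (nat_lit 76) (nat_lit 3401811817) (nat_lit 152) (nat_lit 61637844504) (nat_lit 21) (nat_lit 5) (nat_lit 22) (nat_lit 5) (nat_lit 23) (nat_lit 4) (nat_lit 497) (nat_lit 382) (nat_lit 321))))) (XT.nd (nat_lit 57564) (nat_lit 0) (nat_lit 9880) (XT.nd (nat_lit 78) (nat_lit 76) (nat_lit 0) (XT.lf (nat_lit 0) (nat_lit 29913314954) (nat_lit 152) (nat_lit 16253800062) (nat_lit 0) (nat_lit 22292335430) (nat_lit 21) (nat_lit 5) (nat_lit 23) (nat_lit 4) (nat_lit 21) (nat_lit 4) (nat_lit 498) (nat_lit 382) (nat_lit 320)) (XT.nd (nat_lit 57408) (nat_lit 0) (nat_lit 11248) (XT.lf (nat_lit 0) (nat_lit 35403676125) (nat_lit 76) (nat_lit 21668160385) (nat_lit 76) (nat_lit 14028659505) (nat_lit 20) (nat_lit 4) (nat_lit 21) (nat_lit 5) (nat_lit 21) (nat_lit 4) (nat_lit 499) (nat_lit 382) (nat_lit 319)) (XT.lf (nat_lit 0) (nat_lit 50259835) (nat_lit 304) (nat_lit 4819803668) (nat_lit 0) (nat_lit 50259835) (nat_lit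 168) (nat_lit 5) (nat_lit 172) (nat_lit 4) (nat_lit 168) (nat_lit 4) (nat_lit 434) (nat_lit 383) (nat_lit 383)))) (XT.nd (nat_lit 156) (nat_lit 608) (nat_lit 0) (XT.nd (nat_lit 78) (nat_lit 532) (nat_lit 0) (XT.lf (nat_lit 0) (nat_lit 5251255474) (nat_lit 228) (nat_lit 2997409458) (nat_lit 228) (nat_lit 1801836921) (nat_lit 165) (nat_lit 4) (nat_lit 168) (nat_lit 5) (nat_lit 168) (nat_lit 4) (nat_lit 435) (nat_lit 383) (nat_lit 382)) (XT.lf (nat_lit 0) (nat_lit 155218794) (nat_lit 228) (nat_lit 6190886587) (nat_lit 228) (nat_lit 3924660326) (nat_lit 158) (nat_lit 4) (nat_lit 161) (nat_lit 5) (nat_lit 161) (nat_lit 4) (nat_lit 436) (nat_lit 383) (nat_lit 381))) (XT.nd (nat_lit 78) (nat_lit 304) (nat_lit 0) (XT.lf (nat_lit 0) (nat_lit 4273431014) (nat_lit 304) (nat_lit 5175906119) (nat_lit 0) (nat_lit 1051041927) (nat_lit 154) (nat_lit 5) (nat_lit 158) (nat_lit 4) (nat_lit 154) (nat_lit 4) (nat_lit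 437) (nat_lit 383) (nat_lit 380)) (XT.lf (nat_lit 0) (nat_lit 1995831748) (nat_lit 304) (nat_lit 144345321) (nat_lit 76) (nat_lit 8600259739) (nat_lit 150) (nat_lit 5) (nat_lit 154) (nat_lit 5) (nat_lit 151) (nat_lit 4) (nat_lit 438) (nat_lit 383) (nat_lit 379)))))) (XT.nd (nat_lit 468) (nat_lit 1748) (nat_lit 0) (XT.nd (nat_lit 234) (nat_lit 836) (nat_lit 0) (XT.nd (nat_lit 78) (nat_lit 684) (nat_lit 0) (XT.lf (nat_lit 0) (nat_lit 5086989024) (nat_lit 228) (nat_lit 5438369994) (nat_lit 228) (nat_lit 464562650) (nat_lit 145) (nat_lit 4) (nat_lit 148) (nat_lit 5) (nat_lit 148) (nat_lit 4) (nat_lit 439) (nat_lit 383) (nat_lit 378)) (XT.nd (nat_lit 78) (nat_lit 456) (nat_lit 0) (XT.lf (nat_lit 0) (nat_lit 8041035998) (nat_lit 228) (nat_lit 829516872) (nat_lit 0) (nat_lit 2379795599) (nat_lit 142) (nat_lit 5) (nat_lit 145) (nat_lit 4) (nat_lit 142) (nat_lit 4) (nat_lit 440) (nat_lit 383) (nat_lit 377))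 (XT.lf (nat_lit 0) (nat_lit 4434332313) (nat_lit 152) (nat_lit 929332981) (nat_lit 228) (nat_lit 6157495344) (nat_lit 136) (nat_lit 5) (nat_lit 138) (nat_lit 5) (nat_lit 139) (nat_lit 4) (nat_lit 441) (nat_lit 383) (nat_lit 376)))) (XT.nd (nat_lit 78) (nat_lit 532) (nat_lit 0) (XT.lf (nat_lit 0) (nat_lit 2465300712) (nat_lit 304) (nat_lit 1994303617) (nat_lit 76) (nat_lit 7343652405) (nat_lit 132) (nat_lit 5) (nat_lit 136) (nat_lit 5) (nat_lit 133) (nat_lit 4) (nat_lit 442) (nat_lit 383) (nat_lit 375)) (XT.nd (nat_lit 78) (nat_lit 228) (nat_lit 0) (XT.lf (nat_lit 0) (nat_lit 3266476074) (nat_lit 152) (nat_lit 8151543822) (nat_lit 152) (nat_lit 678829068) (nat_lit 128) (nat_lit 4) (nat_lit 130) (nat_lit 5) (nat_lit 130) (nat_lit 4) (nat_lit 443) (nat_lit 383) (nat_lit 374)) (XT.lf (nat_lit 0) (nat_lit 8269779674) (nat_lit 228) (nat_lit 3744211736) (nat_lit 0) (nat_lit 388086109) (nat_lit 125) (nat_lit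 5) (nat_lit 128) (nat_lit 4) (nat_lit 125) (nat_lit 4) (nat_lit 444) (nat_lit 383) (nat_lit 373))))) (XT.nd (nat_lit 234) (nat_lit 988) (nat_lit 0) (XT.nd (nat_lit 78) (nat_lit 380) (nat_lit 0) (XT.lf (nat_lit 0) (nat_lit 1444961508) (nat_lit 152) (nat_lit 3443435641) (nat_lit 228) (nat_lit 7830895540) (nat_lit 120) (nat_lit 5) (nat_lit 122) (nat_lit 5) (nat_lit 123) (nat_lit 4) (nat_lit 445) (nat_lit 383) (nat_lit 372)) (XT.nd (nat_lit 78) (nat_lit 152) (nat_lit 0) (XT.lf (nat_lit 0) (nat_lit 1257261082) (nat_lit 228) (nat_lit 6231116525) (nat_lit 76) (nat_lit 5560685670) (nat_lit 117) (nat_lit 5) (nat_lit 120) (nat_lit 5) (nat_lit 118) (nat_lit 4) (nat_lit 446) (nat_lit 383) (nat_lit 371)) (XT.lf (nat_lit 0) (nat_lit 10660407567) (nat_lit 228) (nat_lit 1109272808) (nat_lit 0) (nat_lit 1622643051) (nat_lit 115) (nat_lit 5) (nat_lit 118) (nat_lit 4) (nat_lit 115) (nat_lit 4) (nat_lit 447) (nat_lit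 383) (nat_lit 370)))) (XT.nd (nat_lit 156) (nat_lit 380) (nat_lit 0) (XT.nd (nat_lit 78) (nat_lit 228) (nat_lit 0) (XT.lf (nat_lit 0) (nat_lit 4163765446) (nat_lit 152) (nat_lit 2578829144) (nat_lit 228) (nat_lit 7005380892) (nat_lit 110) (nat_lit 5) (nat_lit 112) (nat_lit 5) (nat_lit 113) (nat_lit 4) (nat_lit 448) (nat_lit 383) (nat_lit 369)) (XT.lf (nat_lit 0) (nat_lit 2528226436) (nat_lit 228) (nat_lit 4563330209) (nat_lit 76) (nat_lit 7026413420) (nat_lit 107) (nat_lit 5) (nat_lit 110) (nat_lit 5) (nat_lit 108) (nat_lit 4) (nat_lit 449) (nat_lit 383) (nat_lit 368))) (XT.nd (nat_lit 78) (nat_lit 152) (nat_lit 0) (XT.lf (nat_lit 0) (nat_lit 551271532) (nat_lit 152) (nat_lit 11890185302) (nat_lit 152) (nat_lit 2061494559) (nat_lit 104) (nat_lit 4) (nat_lit 106) (nat_lit 5) (nat_lit 106) (nat_lit 4) (nat_lit 450) (nat_lit 383) (nat_lit 367)) (XT.lf (nat_lit 0) (nat_lit 5817549313) (nat_lit 76) (nat_lit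 2084871475) (nat_lit 152) (nat_lit 6999045121) (nat_lit 102) (nat_lit 5) (nat_lit 103) (nat_lit 5) (nat_lit 104) (nat_lit 4) (nat_lit 451) (nat_lit 383) (nat_lit 366))))))) (XT.nd (nat_lit 1014) (nat_lit 1824) (nat_lit 0) (XT.nd (nat_lit 468) (nat_lit 1064) (nat_lit 0) (XT.nd (nat_lit 234) (nat_lit 608) (nat_lit 0) (XT.nd (nat_lit 78) (nat_lit 380) (nat_lit 0) (XT.lf (nat_lit 0) (nat_lit 3026128822) (nat_lit 228) (nat_lit 4149383158) (nat_lit 76) (nat_lit 8140454635) (nat_lit 99) (nat_lit 5) (nat_lit 102) (nat_lit 5) (nat_lit 100) (nat_lit 4) (nat_lit 452) (nat_lit 383) (nat_lit 365)) (XT.nd (nat_lit 78) (nat_lit 152) (nat_lit 0) (XT.lf (nat_lit 0) (nat_lit 878574528) (nat_lit 152) (nat_lit 12599679728) (nat_lit 152) (nat_lit 2268747950) (nat_lit 96) (nat_lit 4) (nat_lit 98) (nat_lit 5) (nat_lit 98) (nat_lit 4) (nat_lit 453) (nat_lit 383) (nat_lit 364)) (XT.lf (nat_lit 0) (nat_lit 6038584031) (nat_lit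 76) (nat_lit 2183925031) (nat_lit 152) (nat_lit 7970797358) (nat_lit 94) (nat_lit 5) (nat_lit 95) (nat_lit 5) (nat_lit 96) (nat_lit 4) (nat_lit 454) (nat_lit 383) (nat_lit 363)))) (XT.nd (nat_lit 78) (nat_lit 380) (nat_lit 0) (XT.lf (nat_lit 0) (nat_lit 2587780196) (nat_lit 228) (nat_lit 5387529663) (nat_lit 76) (nat_lit 8682004336) (nat_lit 91) (nat_lit 5) (nat_lit 94) (nat_lit 5) (nat_lit 92) (nat_lit 4) (nat_lit 455) (nat_lit 383) (nat_lit 362)) (XT.nd (nat_lit 78) (nat_lit 304) (nat_lit 0) (XT.lf (nat_lit 0) (nat_lit 13590571717) (nat_lit 152) (nat_lit 564828219) (nat_lit 0) (nat_lit 2984322555) (nat_lit 90) (nat_lit 5) (nat_lit 92) (nat_lit 4) (nat_lit 90) (nat_lit 4) (nat_lit 456) (nat_lit 383) (nat_lit 361)) (XT.lf (nat_lit 0) (nat_lit 4377548566) (nat_lit 76) (nat_lit 3132860675) (nat_lit 152) (nat_lit 10128897807) (nat_lit 86) (nat_lit 5) (nat_lit 87) (nat_lit 5) (nat_lit 88) (nat_lit 4)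 (nat_lit 457) (nat_lit 383) (nat_lit 360))))) (XT.nd (nat_lit 234) (nat_lit 456) (nat_lit 0) (XT.nd (nat_lit 78) (nat_lit 380) (nat_lit 0) (XT.lf (nat_lit 0) (nat_lit 999533628) (nat_lit 228) (nat_lit 8765532345) (nat_lit 76) (nat_lit 8393593152) (nat_lit 83) (nat_lit 5) (nat_lit 86) (nat_lit 5) (nat_lit 84) (nat_lit 4) (nat_lit 458) (nat_lit 383) (nat_lit 359)) (XT.nd (nat_lit 78) (nat_lit 304) (nat_lit 0) (XT.lf (nat_lit 0) (nat_lit 12574919363) (nat_lit 152) (nat_lit 4252597513) (nat_lit 0) (nat_lit 1870454312) (nat_lit 82) (nat_lit 5) (nat_lit 84) (nat_lit 4) (nat_lit 82) (nat_lit 4) (nat_lit 459) (nat_lit 383) (nat_lit 358)) (XT.lf (nat_lit 0) (nat_lit 280191186) (nat_lit 76) (nat_lit 5236193470) (nat_lit 152) (nat_lit 13741543615) (nat_lit 78) (nat_lit 5) (nat_lit 79) (nat_lit 5) (nat_lit 80) (nat_lit 4) (nat_lit 460) (nat_lit 383) (nat_lit 357)))) (XT.nd (nat_lit 156) (nat_lit 228) (nat_lit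 0) (XT.nd (nat_lit 78) (nat_lit 152) (nat_lit 0) (XT.lf (nat_lit 0) (nat_lit 4933248359) (nat_lit 76) (nat_lit 12851591147) (nat_lit 76) (nat_lit 2054015773) (nat_lit 77) (nat_lit 4) (nat_lit 78) (nat_lit 5) (nat_lit 78) (nat_lit 4) (nat_lit 461) (nat_lit 383) (nat_lit 356)) (XT.lf (nat_lit 0) (nat_lit 9597880230) (nat_lit 76) (nat_lit 541803616) (nat_lit 152) (nat_lit 10302563803) (nat_lit 75) (nat_lit 5) (nat_lit 76) (nat_lit 5) (nat_lit 77) (nat_lit 4) (nat_lit 462) (nat_lit 383) (nat_lit 355))) (XT.nd (nat_lit 78) (nat_lit 76) (nat_lit 0) (XT.lf (nat_lit 0) (nat_lit 1986731328) (nat_lit 152) (nat_lit 6806569692) (nat_lit 76) (nat_lit 12275464278) (nat_lit 73) (nat_lit 5) (nat_lit 75) (nat_lit 5) (nat_lit 74) (nat_lit 4) (nat_lit 463) (nat_lit 383) (nat_lit 354)) (XT.lf (nat_lit 0) (nat_lit 14808055805) (nat_lit 152) (nat_lit 2788256338) (nat_lit 0) (nat_lit 4123318388) (nat_lit 72) (nat_lit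 5) (nat_lit 74) (nat_lit 4) (nat_lit 72) (nat_lit 4) (nat_lit 464) (nat_lit 383) (nat_lit 353)))))) (XT.nd (nat_lit 546) (nat_lit 912) (nat_lit 0) (XT.nd (nat_lit 234) (nat_lit 456) (nat_lit 0) (XT.nd (nat_lit 78) (nat_lit 228) (nat_lit 0) (XT.lf (nat_lit 0) (nat_lit 1231480769) (nat_lit 76) (nat_lit 4714026961) (nat_lit 152) (nat_lit 16450062345) (nat_lit 69) (nat_lit 5) (nat_lit 70) (nat_lit 5) (nat_lit 71) (nat_lit 4) (nat_lit 465) (nat_lit 383) (nat_lit 352)) (XT.nd (nat_lit 78) (nat_lit 152) (nat_lit 0) (XT.lf (nat_lit 0) (nat_lit 5267451642) (nat_lit 76) (nat_lit 14246654079) (nat_lit 76) (nat_lit 3582800703) (nat_lit 68) (nat_lit 4) (nat_lit 69) (nat_lit 5) (nat_lit 69) (nat_lit 4) (nat_lit 466) (nat_lit 383) (nat_lit 351)) (XT.lf (nat_lit 0) (nat_lit 9268248140) (nat_lit 76) (nat_lit 616962758) (nat_lit 152) (nat_lit 13940703097) (nat_lit 66) (nat_lit 5) (nat_lit 67) (nat_lit 5) (nat_lit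 68) (nat_lit 4) (nat_lit 467) (nat_lit 383) (nat_lit 350)))) (XT.nd (nat_lit 156) (nat_lit 228) (nat_lit 0) (XT.nd (nat_lit 78) (nat_lit 152) (nat_lit 0) (XT.lf (nat_lit 0) (nat_lit 13199430873) (nat_lit 76) (nat_lit 10996249696) (nat_lit 76) (nat_lit 387333288) (nat_lit 65) (nat_lit 4) (nat_lit 66) (nat_lit 5) (nat_lit 66) (nat_lit 4) (nat_lit 468) (nat_lit 383) (nat_lit 349)) (XT.lf (nat_lit 0) (nat_lit 13730357052) (nat_lit 152) (nat_lit 8323792572) (nat_lit 0) (nat_lit 3315123797) (nat_lit 63) (nat_lit 5) (nat_lit 65) (nat_lit 4) (nat_lit 63) (nat_lit 4) (nat_lit 469) (nat_lit 383) (nat_lit 348))) (XT.nd (nat_lit 78) (nat_lit 76) (nat_lit 0) (XT.lf (nat_lit 0) (nat_lit 2544033730) (nat_lit 152) (nat_lit 5360668033) (nat_lit 76) (nat_lit 18282190068) (nat_lit 61) (nat_lit 5) (nat_lit 63) (nat_lit 5) (nat_lit 62) (nat_lit 4) (nat_lit 470) (nat_lit 383) (nat_lit 347)) (XT.lf (nat_lit 0) (nat_lit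 17399932125) (nat_lit 152) (nat_lit 2555983711) (nat_lit 0) (nat_lit 7079883505) (nat_lit 60) (nat_lit 5) (nat_lit 62) (nat_lit 4) (nat_lit 60) (nat_lit 4) (nat_lit 471) (nat_lit 383) (nat_lit 346))))) (XT.nd (nat_lit 234) (nat_lit 456) (nat_lit 0) (XT.nd (nat_lit 78) (nat_lit 228) (nat_lit 0) (XT.lf (nat_lit 0) (nat_lit 130514634) (nat_lit 76) (nat_lit 5065187253) (nat_lit 152) (nat_lit 22723292675) (nat_lit 57) (nat_lit 5) (nat_lit 58) (nat_lit 5) (nat_lit 59) (nat_lit 4) (nat_lit 472) (nat_lit 383) (nat_lit 345)) (XT.nd (nat_lit 78) (nat_lit 152) (nat_lit 0) (XT.lf (nat_lit 0) (nat_lit 2654086950) (nat_lit 76) (nat_lit 18191944985) (nat_lit 76) (nat_lit 7989162011) (nat_lit 56) (nat_lit 4) (nat_lit 57) (nat_lit 5) (nat_lit 57) (nat_lit 4) (nat_lit 473) (nat_lit 383) (nat_lit 344)) (XT.lf (nat_lit 0) (nat_lit 5018417806) (nat_lit 76) (nat_lit 2521664003) (nat_lit 152) (nat_lit 22248832415) (nat_lit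 54) (nat_lit 5) (nat_lit 55) (nat_lit 5) (nat_lit 56) (nat_lit 4) (nat_lit 474) (nat_lit 383) (nat_lit 343)))) (XT.nd (nat_lit 156) (nat_lit 228) (nat_lit 0) (XT.nd (nat_lit 78) (nat_lit 152) (nat_lit 0) (XT.lf (nat_lit 0) (nat_lit 7106523687) (nat_lit 76) (nat_lit 16869799039) (nat_lit 76) (nat_lit 6802752368) (nat_lit 53) (nat_lit 4) (nat_lit 54) (nat_lit 5) (nat_lit 54) (nat_lit 4) (nat_lit 475) (nat_lit 383) (nat_lit 342)) (XT.lf (nat_lit 0) (nat_lit 8989895189) (nat_lit 76) (nat_lit 434705484) (nat_lit 152) (nat_lit 22385647461) (nat_lit 51) (nat_lit 5) (nat_lit 52) (nat_lit 5) (nat_lit 53) (nat_lit 4) (nat_lit 476) (nat_lit 383) (nat_lit 341))) (XT.nd (nat_lit 78) (nat_lit 152) (nat_lit 0) (XT.lf (nat_lit 0) (nat_lit 10522602320) (nat_lit 76) (nat_lit 16137117636) (nat_lit 76) (nat_lit 6221126980) (nat_lit 50) (nat_lit 4) (nat_lit 51) (nat_lit 5) (nat_lit 51) (nat_lit 4) (nat_lit 477) (nat_lit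 383) (nat_lit 340)) (XT.lf (nat_lit 0) (nat_lit 10737261325) (nat_lit 152) (nat_lit 22212784985) (nat_lit 0) (nat_lit 1045965892) (nat_lit 48) (nat_lit 5) (nat_lit 50) (nat_lit 4) (nat_lit 48) (nat_lit 4) (nat_lit 478) (nat_lit 383) (nat_lit 339))))))))
noncomputable def xc21 : XT := (XT.nd (nat_lit 59202) (nat_lit 0) (nat_lit 4028) (XT.nd (nat_lit 1014) (nat_lit 684) (nat_lit 0) (XT.nd (nat_lit 468) (nat_lit 684) (nat_lit 0) (XT.nd (nat_lit 234) (nat_lit 380) (nat_lit 0) (XT.nd (nat_lit 78) (nat_lit 228) (nat_lit 0) (XT.lf (nat_lit 0) (nat_lit 12625761454) (nat_lit 76) (nat_lit 16140573047) (nat_lit 76) (nat_lit 6388210910) (nat_lit 47) (nat_lit 4) (nat_lit 48) (nat_lit 5) (nat_lit 48) (nat_lit 4) (nat_lit 479) (nat_lit 383) (nat_lit 338)) (XT.nd (nat_lit 78) (nat_lit 76) (nat_lit 0) (XT.lf (nat_lit 0) (nat_lit 11316292230) (nat_lit 152) (nat_lit 23253589280) (nat_lit 0) (nat_lit 1791514654) (nat_lit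 45) (nat_lit 5) (nat_lit 47) (nat_lit 4) (nat_lit 45) (nat_lit 4) (nat_lit 480) (nat_lit 383) (nat_lit 337)) (XT.lf (nat_lit 0) (nat_lit 13081680576) (nat_lit 76) (nat_lit 17056321170) (nat_lit 76) (nat_lit 7477767575) (nat_lit 44) (nat_lit 4) (nat_lit 45) (nat_lit 5) (nat_lit 45) (nat_lit 4) (nat_lit 481) (nat_lit 383) (nat_lit 336)))) (XT.nd (nat_lit 78) (nat_lit 228) (nat_lit 0) (XT.lf (nat_lit 0) (nat_lit 10976008526) (nat_lit 152) (nat_lit 26320308719) (nat_lit 0) (nat_lit 1626718378) (nat_lit 42) (nat_lit 5) (nat_lit 44) (nat_lit 4) (nat_lit 42) (nat_lit 4) (nat_lit 482) (nat_lit 383) (nat_lit 335)) (XT.nd (nat_lit 78) (nat_lit 152) (nat_lit 0) (XT.lf (nat_lit 0) (nat_lit 11487633399) (nat_lit 76) (nat_lit 19095449544) (nat_lit 76) (nat_lit 9698803633) (nat_lit 41) (nat_lit 4) (nat_lit 42) (nat_lit 5) (nat_lit 42) (nat_lit 4) (nat_lit 483) (nat_lit 383) (nat_lit 334)) (XT.lf (nat_lit 0) (nat_lit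 9497742422) (nat_lit 152) (nat_lit 31870594848) (nat_lit 0) (nat_lit 330998114) (nat_lit 39) (nat_lit 5) (nat_lit 41) (nat_lit 4) (nat_lit 39) (nat_lit 4) (nat_lit 484) (nat_lit 383) (nat_lit 333))))) (XT.nd (nat_lit 234) (nat_lit 380) (nat_lit 0) (XT.nd (nat_lit 78) (nat_lit 228) (nat_lit 0) (XT.lf (nat_lit 0) (nat_lit 7359971676) (nat_lit 76) (nat_lit 22510373123) (nat_lit 76) (nat_lit 13301926803) (nat_lit 38) (nat_lit 4) (nat_lit 39) (nat_lit 5) (nat_lit 39) (nat_lit 4) (nat_lit 485) (nat_lit 383) (nat_lit 332)) (XT.nd (nat_lit 78) (nat_lit 76) (nat_lit 0) (XT.lf (nat_lit 0) (nat_lit 4235235154) (nat_lit 76) (nat_lit 2406832666) (nat_lit 152) (nat_lit 38068089754) (nat_lit 36) (nat_lit 5) (nat_lit 37) (nat_lit 5) (nat_lit 38) (nat_lit 4) (nat_lit 486) (nat_lit 383) (nat_lit 331)) (XT.lf (nat_lit 0) (nat_lit 119416787) (nat_lit 76) (nat_lit 27602342005) (nat_lit 76) (nat_lit 18586820183) (nat_lit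 35) (nat_lit 4) (nat_lit 36) (nat_lit 5) (nat_lit 36) (nat_lit 4) (nat_lit 487) (nat_lit 383) (nat_lit 330)))) (XT.nd (nat_lit 156) (nat_lit 228) (nat_lit 0) (XT.nd (nat_lit 78) (nat_lit 76) (nat_lit 0) (XT.lf (nat_lit 0) (nat_lit 2137682237) (nat_lit 152) (nat_lit 4711001410) (nat_lit 76) (nat_lit 41128530248) (nat_lit 34) (nat_lit 5) (nat_lit 36) (nat_lit 5) (nat_lit 35) (nat_lit 4) (nat_lit 488) (nat_lit 383) (nat_lit 329)) (XT.lf (nat_lit 0) (nat_lit 23909063955) (nat_lit 152) (nat_lit 10713008839) (nat_lit 0) (nat_lit 15089835384) (nat_lit 33) (nat_lit 5) (nat_lit 35) (nat_lit 4) (nat_lit 33) (nat_lit 4) (nat_lit 489) (nat_lit 383) (nat_lit 328))) (XT.nd (nat_lit 78) (nat_lit 152) (nat_lit 0) (XT.lf (nat_lit 0) (nat_lit 33789441853) (nat_lit 76) (nat_lit 13292271051) (nat_lit 76) (nat_lit 4442243518) (nat_lit 32) (nat_lit 4) (nat_lit 33) (nat_lit 5) (nat_lit 33) (nat_lit 4) (nat_lit 490) (nat_lit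 383) (nat_lit 327)) (XT.lf (nat_lit 0) (nat_lit 17974386992) (nat_lit 152) (nat_lit 26083214759) (nat_lit 0) (nat_lit 9353649248) (nat_lit 30) (nat_lit 5) (nat_lit 32) (nat_lit 4) (nat_lit 30) (nat_lit 4) (nat_lit 491) (nat_lit 383) (nat_lit 326)))))) (XT.nd (nat_lit 468) (nat_lit 152) (nat_lit 0) (XT.nd (nat_lit 234) (nat_lit 304) (nat_lit 0) (XT.nd (nat_lit 78) (nat_lit 152) (nat_lit 0) (XT.lf (nat_lit 0) (nat_lit 19576689552) (nat_lit 76) (nat_lit 22225645175) (nat_lit 76) (nat_lit 13577785523) (nat_lit 29) (nat_lit 4) (nat_lit 30) (nat_lit 5) (nat_lit 30) (nat_lit 4) (nat_lit 492) (nat_lit 383) (nat_lit 325)) (XT.nd (nat_lit 78) (nat_lit 0) (nat_lit 0) (XT.lf (nat_lit 0) (nat_lit 9450620448) (nat_lit 152) (nat_lit 46956768219) (nat_lit 0) (nat_lit 1029562156) (nat_lit 27) (nat_lit 5) (nat_lit 29) (nat_lit 4) (nat_lit 27) (nat_lit 4) (nat_lit 493) (nat_lit 383) (nat_lit 324)) (XT.lf (nat_lit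 0) (nat_lit 33828379721) (nat_lit 152) (nat_lit 366410499) (nat_lit 0) (nat_lit 25383437574) (nat_lit 27) (nat_lit 5) (nat_lit 29) (nat_lit 4) (nat_lit 27) (nat_lit 4) (nat_lit 494) (nat_lit 383) (nat_lit 323)))) (XT.nd (nat_lit 78) (nat_lit 228) (nat_lit 0) (XT.lf (nat_lit 0) (nat_lit 49284725105) (nat_lit 76) (nat_lit 10499379990) (nat_lit 76) (nat_lit 2031691314) (nat_lit 26) (nat_lit 4) (nat_lit 27) (nat_lit 5) (nat_lit 27) (nat_lit 4) (nat_lit 495) (nat_lit 383) (nat_lit 322)) (XT.nd (nat_lit 78) (nat_lit 76) (nat_lit 0) (XT.lf (nat_lit 0) (nat_lit 22821253347) (nat_lit 152) (nat_lit 26746374274) (nat_lit 0) (nat_lit 14579163992) (nat_lit 24) (nat_lit 5) (nat_lit 26) (nat_lit 4) (nat_lit 24) (nat_lit 4) (nat_lit 496) (nat_lit 383) (nat_lit 321)) (XT.lf (nat_lit 0) (nat_lit 23611026418) (nat_lit 76) (nat_lit 25617113803) (nat_lit 76) (nat_lit 17354993602) (nat_lit 23) (nat_lit 4) (nat_lit 24)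 (nat_lit 5) (nat_lit 24) (nat_lit 4) (nat_lit 497) (nat_lit 383) (nat_lit 320))))) (XT.nd (nat_lit 57408) (nat_lit 0) (nat_lit 10640) (XT.nd (nat_lit 78) (nat_lit 0) (nat_lit 0) (XT.lf (nat_lit 0) (nat_lit 7768308574) (nat_lit 76) (nat_lit 137851904) (nat_lit 152) (nat_lit 61225542481) (nat_lit 21) (nat_lit 5) (nat_lit 22) (nat_lit 5) (nat_lit 23) (nat_lit 4) (nat_lit 498) (nat_lit 383) (nat_lit 319)) (XT.nd (nat_lit 57252) (nat_lit 0) (nat_lit 12084) (XT.lf (nat_lit 0) (nat_lit 34671293447) (nat_lit 152) (nat_lit 10499600010) (nat_lit 0) (nat_lit 26613656781) (nat_lit 21) (nat_lit 5) (nat_lit 23) (nat_lit 4) (nat_lit 21) (nat_lit 4) (nat_lit 499) (nat_lit 383) (nat_lit 318)) (XT.lf (nat_lit 0) (nat_lit 117841046) (nat_lit 304) (nat_lit 2301524105) (nat_lit 304) (nat_lit 2301524105) (nat_lit 180) (nat_lit 4) (nat_lit 184) (nat_lit 5) (nat_lit 184) (nat_lit 4) (nat_lit 432) (nat_lit 384) (nat_lit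 384)))) (XT.nd (nat_lit 156) (nat_lit 760) (nat_lit 0) (XT.nd (nat_lit 78) (nat_lit 380) (nat_lit 0) (XT.lf (nat_lit 0) (nat_lit 3125257482) (nat_lit 304) (nat_lit 4680862523) (nat_lit 0) (nat_lit 1832245784) (nat_lit 176) (nat_lit 5) (nat_lit 180) (nat_lit 4) (nat_lit 176) (nat_lit 4) (nat_lit 433) (nat_lit 384) (nat_lit 383)) (XT.lf (nat_lit 0) (nat_lit 1217823211) (nat_lit 380) (nat_lit 52270291) (nat_lit 76) (nat_lit 8574698202) (nat_lit 171) (nat_lit 5) (nat_lit 176) (nat_lit 5) (nat_lit 172) (nat_lit 4) (nat_lit 434) (nat_lit 384) (nat_lit 382))) (XT.nd (nat_lit 78) (nat_lit 304) (nat_lit 0) (XT.lf (nat_lit 0) (nat_lit 4760821075) (nat_lit 228) (nat_lit 4444112249) (nat_lit 228) (nat_lit 854548037) (nat_lit 165) (nat_lit 4) (nat_lit 168) (nat_lit 5) (nat_lit 168) (nat_lit 4) (nat_lit 435) (nat_lit 384) (nat_lit 381)) (XT.lf (nat_lit 0) (nat_lit 7111088575) (nat_lit 304) (nat_lit 600060973)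 (nat_lit 0) (nat_lit 2573240277) (nat_lit 161) (nat_lit 5) (nat_lit 165) (nat_lit 4) (nat_lit 161) (nat_lit 4) (nat_lit 436) (nat_lit 384) (nat_lit 380))))))) (XT.nd (nat_lit 1014) (nat_lit 2508) (nat_lit 0) (XT.nd (nat_lit 468) (nat_lit 1900) (nat_lit 0) (XT.nd (nat_lit 234) (nat_lit 988) (nat_lit 0) (XT.nd (nat_lit 78) (nat_lit 684) (nat_lit 0) (XT.lf (nat_lit 0) (nat_lit 4291969782) (nat_lit 228) (nat_lit 551634948) (nat_lit 304) (nat_lit 5675180410) (nat_lit 154) (nat_lit 5) (nat_lit 157) (nat_lit 5) (nat_lit 158) (nat_lit 4) (nat_lit 437) (nat_lit 384) (nat_lit 379)) (XT.nd (nat_lit 78) (nat_lit 380) (nat_lit 0) (XT.lf (nat_lit 0) (nat_lit 2380833640) (nat_lit 304) (nat_lit 1473218146) (nat_lit 76) (nat_lit 6909314656) (nat_lit 150) (nat_lit 5) (nat_lit 154) (nat_lit 5) (nat_lit 151) (nat_lit 4) (nat_lit 438) (nat_lit 384) (nat_lit 378)) (XT.lf (nat_lit 0) (nat_lit 3458416547) (nat_lit 228)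 (nat_lit 7269900208) (nat_lit 228) (nat_lit 289998450) (nat_lit 145) (nat_lit 4) (nat_lit 148) (nat_lit 5) (nat_lit 148) (nat_lit 4) (nat_lit 439) (nat_lit 384) (nat_lit 377)))) (XT.nd (nat_lit 78) (nat_lit 760) (nat_lit 0) (XT.lf (nat_lit 0) (nat_lit 8041215800) (nat_lit 228) (nat_lit 2770663280) (nat_lit 0) (nat_lit 471944313) (nat_lit 142) (nat_lit 5) (nat_lit 145) (nat_lit 4) (nat_lit 142) (nat_lit 4) (nat_lit 440) (nat_lit 384) (nat_lit 376)) (XT.nd (nat_lit 78) (nat_lit 304) (nat_lit 0) (XT.lf (nat_lit 0) (nat_lit 2142038981) (nat_lit 152) (nat_lit 3013740436) (nat_lit 228) (nat_lit 6404125166) (nat_lit 136) (nat_lit 5) (nat_lit 138) (nat_lit 5) (nat_lit 139) (nat_lit 4) (nat_lit 441) (nat_lit 384) (nat_lit 375)) (XT.lf (nat_lit 0) (nat_lit 2046056191) (nat_lit 304) (nat_lit 4626279069) (nat_lit 76) (nat_lit 5175061401) (nat_lit 132) (nat_lit 5) (nat_lit 136) (nat_lit 5) (nat_lit 133) (nat_lit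 4) (nat_lit 442) (nat_lit 384) (nat_lit 374))))) (XT.nd (nat_lit 234) (nat_lit 1140) (nat_lit 0) (XT.nd (nat_lit 78) (nat_lit 456) (nat_lit 0) (XT.lf (nat_lit 0) (nat_lit 266314724) (nat_lit 152) (nat_lit 10525187752) (nat_lit 152) (nat_lit 1355706544) (nat_lit 128) (nat_lit 4) (nat_lit 130) (nat_lit 5) (nat_lit 130) (nat_lit 4) (nat_lit 443) (nat_lit 384) (nat_lit 373)) (XT.nd (nat_lit 78) (nat_lit 228) (nat_lit 0) (XT.lf (nat_lit 0) (nat_lit 5322892582) (nat_lit 152) (nat_lit 2119013163) (nat_lit 228) (nat_lit 5015654965) (nat_lit 125) (nat_lit 5) (nat_lit 127) (nat_lit 5) (nat_lit 128) (nat_lit 4) (nat_lit 444) (nat_lit 384) (nat_lit 372)) (XT.lf (nat_lit 0) (nat_lit 3825681075) (nat_lit 228) (nat_lit 2301440009) (nat_lit 76) (nat_lit 6653809089) (nat_lit 122) (nat_lit 5) (nat_lit 125) (nat_lit 5) (nat_lit 123) (nat_lit 4) (nat_lit 445) (nat_lit 384) (nat_lit 371)))) (XT.nd (nat_lit 156) (nat_lit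 608) (nat_lit 0) (XT.nd (nat_lit 78) (nat_lit 228) (nat_lit 0) (XT.lf (nat_lit 0) (nat_lit 2692317228) (nat_lit 152) (nat_lit 10362531347) (nat_lit 152) (nat_lit 62648095) (nat_lit 118) (nat_lit 4) (nat_lit 120) (nat_lit 5) (nat_lit 120) (nat_lit 4) (nat_lit 446) (nat_lit 384) (nat_lit 370)) (XT.lf (nat_lit 0) (nat_lit 7793080931) (nat_lit 152) (nat_lit 1366268504) (nat_lit 228) (nat_lit 4306898056) (nat_lit 115) (nat_lit 5) (nat_lit 117) (nat_lit 5) (nat_lit 118) (nat_lit 4) (nat_lit 447) (nat_lit 384) (nat_lit 369))) (XT.nd (nat_lit 78) (nat_lit 380) (nat_lit 0) (XT.lf (nat_lit 0) (nat_lit 4976283901) (nat_lit 228) (nat_lit 846764589) (nat_lit 76) (nat_lit 8005968462) (nat_lit 112) (nat_lit 5) (nat_lit 115) (nat_lit 5) (nat_lit 113) (nat_lit 4) (nat_lit 448) (nat_lit 384) (nat_lit 368)) (XT.lf (nat_lit 0) (nat_lit 502342705) (nat_lit 228) (nat_lit 10037894935) (nat_lit 76) (nat_lit 3665745284)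 (nat_lit 107) (nat_lit 5) (nat_lit 110) (nat_lit 5) (nat_lit 108) (nat_lit 4) (nat_lit 449) (nat_lit 384) (nat_lit 367)))))) (XT.nd (nat_lit 546) (nat_lit 1216) (nat_lit 0) (XT.nd (nat_lit 234) (nat_lit 684) (nat_lit 0) (XT.nd (nat_lit 78) (nat_lit 532) (nat_lit 0) (XT.lf (nat_lit 0) (nat_lit 9262028235) (nat_lit 76) (nat_lit 948426559) (nat_lit 152) (nat_lit 4386664197) (nat_lit 106) (nat_lit 5) (nat_lit 107) (nat_lit 5) (nat_lit 108) (nat_lit 4) (nat_lit 450) (nat_lit 384) (nat_lit 366)) (XT.nd (nat_lit 78) (nat_lit 304) (nat_lit 0) (XT.lf (nat_lit 0) (nat_lit 5385681909) (nat_lit 228) (nat_lit 575155522) (nat_lit 76) (nat_lit 9042575956) (nat_lit 103) (nat_lit 5) (nat_lit 106) (nat_lit 5) (nat_lit 104) (nat_lit 4) (nat_lit 451) (nat_lit 384) (nat_lit 365)) (XT.lf (nat_lit 0) (nat_lit 231331032) (nat_lit 228) (nat_lit 11051735783) (nat_lit 76) (nat_lit 4142419812) (nat_lit 99) (nat_lit 5) (nat_lit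 102) (nat_lit 5) (nat_lit 100) (nat_lit 4) (nat_lit 452) (nat_lit 384) (nat_lit 364)))) (XT.nd (nat_lit 156) (nat_lit 380) (nat_lit 0) (XT.nd (nat_lit 78) (nat_lit 228) (nat_lit 0) (XT.lf (nat_lit 0) (nat_lit 9381389812) (nat_lit 76) (nat_lit 1078989748) (nat_lit 152) (nat_lit 5402835934) (nat_lit 98) (nat_lit 5) (nat_lit 99) (nat_lit 5) (nat_lit 100) (nat_lit 4) (nat_lit 453) (nat_lit 384) (nat_lit 363)) (XT.lf (nat_lit 0) (nat_lit 4902187459) (nat_lit 228) (nat_lit 1863337680) (nat_lit 76) (nat_lit 9552320997) (nat_lit 95) (nat_lit 5) (nat_lit 98) (nat_lit 5) (nat_lit 96) (nat_lit 4) (nat_lit 454) (nat_lit 384) (nat_lit 362))) (XT.nd (nat_lit 78) (nat_lit 152) (nat_lit 0) (XT.lf (nat_lit 0) (nat_lit 2898344128) (nat_lit 152) (nat_lit 12823154750) (nat_lit 152) (nat_lit 1068783106) (nat_lit 92) (nat_lit 4) (nat_lit 94) (nat_lit 5) (nat_lit 94) (nat_lit 4) (nat_lit 455) (nat_lit 384) (nat_lit 361))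 (XT.lf (nat_lit 0) (nat_lit 7727773381) (nat_lit 76) (nat_lit 2002447332) (nat_lit 152) (nat_lit 7549517876) (nat_lit 90) (nat_lit 5) (nat_lit 91) (nat_lit 5) (nat_lit 92) (nat_lit 4) (nat_lit 456) (nat_lit 384) (nat_lit 360))))) (XT.nd (nat_lit 234) (nat_lit 608) (nat_lit 0) (XT.nd (nat_lit 78) (nat_lit 380) (nat_lit 0) (XT.lf (nat_lit 0) (nat_lit 3326981017) (nat_lit 228) (nat_lit 5170413856) (nat_lit 76) (nat_lit 9290916304) (nat_lit 87) (nat_lit 5) (nat_lit 90) (nat_lit 5) (nat_lit 88) (nat_lit 4) (nat_lit 457) (nat_lit 384) (nat_lit 359)) (XT.nd (nat_lit 78) (nat_lit 304) (nat_lit 0) (XT.lf (nat_lit 0) (nat_lit 14693332443) (nat_lit 152) (nat_lit 738233951) (nat_lit 0) (nat_lit 2885440097) (nat_lit 86) (nat_lit 5) (nat_lit 88) (nat_lit 4) (nat_lit 86) (nat_lit 4) (nat_lit 458) (nat_lit 384) (nat_lit 358)) (XT.lf (nat_lit 0) (nat_lit 3781306567) (nat_lit 76) (nat_lit 4006482431) (nat_lit 152)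 (nat_lit 11076614198) (nat_lit 82) (nat_lit 5) (nat_lit 83) (nat_lit 5) (nat_lit 84) (nat_lit 4) (nat_lit 459) (nat_lit 384) (nat_lit 357)))) (XT.nd (nat_lit 156) (nat_lit 304) (nat_lit 0) (XT.nd (nat_lit 78) (nat_lit 76) (nat_lit 0) (XT.lf (nat_lit 0) (nat_lit 403957075) (nat_lit 228) (nat_lit 11060977870) (nat_lit 76) (nat_lit 7968520239) (nat_lit 79) (nat_lit 5) (nat_lit 82) (nat_lit 5) (nat_lit 80) (nat_lit 4) (nat_lit 460) (nat_lit 384) (nat_lit 356)) (XT.lf (nat_lit 0) (nat_lit 12350741969) (nat_lit 152) (nat_lit 7045613401) (nat_lit 0) (nat_lit 627677485) (nat_lit 78) (nat_lit 5) (nat_lit 80) (nat_lit 4) (nat_lit 78) (nat_lit 4) (nat_lit 461) (nat_lit 384) (nat_lit 355))) (XT.nd (nat_lit 78) (nat_lit 152) (nat_lit 0) (XT.lf (nat_lit 0) (nat_lit 4365267811) (nat_lit 152) (nat_lit 3040716165) (nat_lit 76) (nat_lit 13231006048) (nat_lit 76) (nat_lit 5) (nat_lit 78) (nat_lit 5) (nat_lit 77) (nat_lit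 4) (nat_lit 462) (nat_lit 384) (nat_lit 354)) (XT.lf (nat_lit 0) (nat_lit 998535424) (nat_lit 76) (nat_lit 15998239373) (nat_lit 76) (nat_lit 4277050606) (nat_lit 74) (nat_lit 4) (nat_lit 75) (nat_lit 5) (nat_lit 75) (nat_lit 4) (nat_lit 463) (nat_lit 384) (nat_lit 353))))))))
noncomputable def xc22 : XT := (XT.nd (nat_lit 2028) (nat_lit 912) (nat_lit 0) (XT.nd (nat_lit 1014) (nat_lit 1520) (nat_lit 0) (XT.nd (nat_lit 468) (nat_lit 836) (nat_lit 0) (XT.nd (nat_lit 234) (nat_lit 380) (nat_lit 0) (XT.nd (nat_lit 78) (nat_lit 228) (nat_lit 0) (XT.lf (nat_lit 0) (nat_lit 5081958416) (nat_lit 76) (nat_lit 3273166985) (nat_lit 152) (nat_lit 13578977379) (nat_lit 72) (nat_lit 5) (nat_lit 73) (nat_lit 5) (nat_lit 74) (nat_lit 4) (nat_lit 464) (nat_lit 384) (nat_lit 352)) (XT.nd (nat_lit 78) (nat_lit 152) (nat_lit 0) (XT.lf (nat_lit 0) (nat_lit 9158973228) (nat_lit 76) (nat_lit 12570010933) (nat_lit 76)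 (nat_lit 891184454) (nat_lit 71) (nat_lit 4) (nat_lit 72) (nat_lit 5) (nat_lit 72) (nat_lit 4) (nat_lit 465) (nat_lit 384) (nat_lit 351)) (XT.lf (nat_lit 0) (nat_lit 12337947547) (nat_lit 152) (nat_lit 10130116056) (nat_lit 0) (nat_lit 864404453) (nat_lit 69) (nat_lit 5) (nat_lit 71) (nat_lit 4) (nat_lit 69) (nat_lit 4) (nat_lit 466) (nat_lit 384) (nat_lit 350)))) (XT.nd (nat_lit 78) (nat_lit 228) (nat_lit 0) (XT.lf (nat_lit 0) (nat_lit 2333222590) (nat_lit 152) (nat_lit 6865555150) (nat_lit 76) (nat_lit 14873382578) (nat_lit 67) (nat_lit 5) (nat_lit 69) (nat_lit 5) (nat_lit 68) (nat_lit 4) (nat_lit 467) (nat_lit 384) (nat_lit 349)) (XT.nd (nat_lit 78) (nat_lit 152) (nat_lit 0) (XT.lf (nat_lit 0) (nat_lit 16272772759) (nat_lit 152) (nat_lit 3677691216) (nat_lit 0) (nat_lit 4889924147) (nat_lit 66) (nat_lit 5) (nat_lit 68) (nat_lit 4) (nat_lit 66) (nat_lit 4) (nat_lit 468) (nat_lit 384) (nat_lit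 348)) (XT.lf (nat_lit 0) (nat_lit 5384883244) (nat_lit 152) (nat_lit 564653572) (nat_lit 76) (nat_lit 19689214771) (nat_lit 64) (nat_lit 5) (nat_lit 66) (nat_lit 5) (nat_lit 65) (nat_lit 4) (nat_lit 469) (nat_lit 384) (nat_lit 347))))) (XT.nd (nat_lit 234) (nat_lit 456) (nat_lit 0) (XT.nd (nat_lit 78) (nat_lit 228) (nat_lit 0) (XT.lf (nat_lit 0) (nat_lit 2482463952) (nat_lit 76) (nat_lit 17625128956) (nat_lit 76) (nat_lit 6359402801) (nat_lit 62) (nat_lit 4) (nat_lit 63) (nat_lit 5) (nat_lit 63) (nat_lit 4) (nat_lit 470) (nat_lit 384) (nat_lit 346)) (XT.nd (nat_lit 78) (nat_lit 76) (nat_lit 0) (XT.lf (nat_lit 0) (nat_lit 5441781213) (nat_lit 76) (nat_lit 2837588389) (nat_lit 152) (nat_lit 19048604447) (nat_lit 60) (nat_lit 5) (nat_lit 61) (nat_lit 5) (nat_lit 62) (nat_lit 4) (nat_lit 471) (nat_lit 384) (nat_lit 345)) (XT.lf (nat_lit 0) (nat_lit 8238279332) (nat_lit 76) (nat_lit 15555003959) (nat_lit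 76) (nat_lit 4428587907) (nat_lit 59) (nat_lit 4) (nat_lit 60) (nat_lit 5) (nat_lit 60) (nat_lit 4) (nat_lit 472) (nat_lit 384) (nat_lit 344)))) (XT.nd (nat_lit 156) (nat_lit 228) (nat_lit 0) (XT.nd (nat_lit 78) (nat_lit 76) (nat_lit 0) (XT.lf (nat_lit 0) (nat_lit 10896842179) (nat_lit 152) (nat_lit 18245514094) (nat_lit 0) (nat_lit 9331203) (nat_lit 57) (nat_lit 5) (nat_lit 59) (nat_lit 4) (nat_lit 57) (nat_lit 4) (nat_lit 473) (nat_lit 384) (nat_lit 343)) (XT.lf (nat_lit 0) (nat_lit 13356147670) (nat_lit 76) (nat_lit 13864717705) (nat_lit 76) (nat_lit 2896096925) (nat_lit 56) (nat_lit 4) (nat_lit 57) (nat_lit 5) (nat_lit 57) (nat_lit 4) (nat_lit 474) (nat_lit 384) (nat_lit 342))) (XT.nd (nat_lit 78) (nat_lit 76) (nat_lit 0) (XT.lf (nat_lit 0) (nat_lit 13169648422) (nat_lit 152) (nat_lit 15505615883) (nat_lit 0) (nat_lit 2445504527) (nat_lit 54) (nat_lit 5) (nat_lit 56) (nat_lit 4) (nat_lit 54)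 (nat_lit 4) (nat_lit 475) (nat_lit 384) (nat_lit 341)) (XT.lf (nat_lit 0) (nat_lit 17639455026) (nat_lit 76) (nat_lit 12660197477) (nat_lit 76) (nat_lit 1864627385) (nat_lit 53) (nat_lit 4) (nat_lit 54) (nat_lit 5) (nat_lit 54) (nat_lit 4) (nat_lit 476) (nat_lit 384) (nat_lit 340)))))) (XT.nd (nat_lit 468) (nat_lit 836) (nat_lit 0) (XT.nd (nat_lit 234) (nat_lit 304) (nat_lit 0) (XT.nd (nat_lit 78) (nat_lit 228) (nat_lit 0) (XT.lf (nat_lit 0) (nat_lit 14963946669) (nat_lit 152) (nat_lit 13867990845) (nat_lit 0) (nat_lit 4416767018) (nat_lit 51) (nat_lit 5) (nat_lit 53) (nat_lit 4) (nat_lit 51) (nat_lit 4) (nat_lit 477) (nat_lit 384) (nat_lit 339)) (XT.nd (nat_lit 78) (nat_lit 152) (nat_lit 0) (XT.lf (nat_lit 0) (nat_lit 20848525661) (nat_lit 76) (nat_lit 12069337662) (nat_lit 76) (nat_lit 1459259306) (nat_lit 50) (nat_lit 4) (nat_lit 51) (nat_lit 5) (nat_lit 51) (nat_lit 4) (nat_lit 478) (nat_lit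 384) (nat_lit 338)) (XT.lf (nat_lit 0) (nat_lit 16149630751) (nat_lit 152) (nat_lit 13609480799) (nat_lit 0) (nat_lit 5790425038) (nat_lit 48) (nat_lit 5) (nat_lit 50) (nat_lit 4) (nat_lit 48) (nat_lit 4) (nat_lit 479) (nat_lit 384) (nat_lit 337)))) (XT.nd (nat_lit 78) (nat_lit 228) (nat_lit 0) (XT.lf (nat_lit 0) (nat_lit 22692544724) (nat_lit 76) (nat_lit 12246145645) (nat_lit 76) (nat_lit 1831550630) (nat_lit 47) (nat_lit 4) (nat_lit 48) (nat_lit 5) (nat_lit 48) (nat_lit 4) (nat_lit 480) (nat_lit 384) (nat_lit 336)) (XT.nd (nat_lit 78) (nat_lit 76) (nat_lit 0) (XT.lf (nat_lit 0) (nat_lit 16568717690) (nat_lit 152) (nat_lit 15063895104) (nat_lit 0) (nat_lit 6406245137) (nat_lit 45) (nat_lit 5) (nat_lit 47) (nat_lit 4) (nat_lit 45) (nat_lit 4) (nat_lit 481) (nat_lit 384) (nat_lit 335)) (XT.lf (nat_lit 0) (nat_lit 22820054333) (nat_lit 76) (nat_lit 13375610155) (nat_lit 76) (nat_lit 3164361167) (nat_lit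 44) (nat_lit 4) (nat_lit 45) (nat_lit 5) (nat_lit 45) (nat_lit 4) (nat_lit 482) (nat_lit 384) (nat_lit 334))))) (XT.nd (nat_lit 234) (nat_lit 456) (nat_lit 0) (XT.nd (nat_lit 78) (nat_lit 228) (nat_lit 0) (XT.lf (nat_lit 0) (nat_lit 16030240461) (nat_lit 152) (nat_lit 18632469675) (nat_lit 0) (nat_lit 6071305766) (nat_lit 42) (nat_lit 5) (nat_lit 44) (nat_lit 4) (nat_lit 42) (nat_lit 4) (nat_lit 483) (nat_lit 384) (nat_lit 333)) (XT.nd (nat_lit 78) (nat_lit 152) (nat_lit 0) (XT.lf (nat_lit 0) (nat_lit 20807775867) (nat_lit 76) (nat_lit 15679417976) (nat_lit 76) (nat_lit 5677530209) (nat_lit 41) (nat_lit 4) (nat_lit 42) (nat_lit 5) (nat_lit 42) (nat_lit 4) (nat_lit 484) (nat_lit 384) (nat_lit 332)) (XT.lf (nat_lit 0) (nat_lit 14304236452) (nat_lit 152) (nat_lit 24796160358) (nat_lit 0) (nat_lit 4553949601) (nat_lit 39) (nat_lit 5) (nat_lit 41) (nat_lit 4) (nat_lit 39) (nat_lit 4) (nat_lit 485) (nat_lit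 384) (nat_lit 331)))) (XT.nd (nat_lit 156) (nat_lit 228) (nat_lit 0) (XT.nd (nat_lit 78) (nat_lit 152) (nat_lit 0) (XT.lf (nat_lit 0) (nat_lit 16147469037) (nat_lit 76) (nat_lit 19422666288) (nat_lit 76) (nat_lit 9634554483) (nat_lit 38) (nat_lit 4) (nat_lit 39) (nat_lit 5) (nat_lit 39) (nat_lit 4) (nat_lit 486) (nat_lit 384) (nat_lit 330)) (XT.lf (nat_lit 0) (nat_lit 11114676110) (nat_lit 152) (nat_lit 34130087150) (nat_lit 0) (nat_lit 1576680410) (nat_lit 36) (nat_lit 5) (nat_lit 38) (nat_lit 4) (nat_lit 36) (nat_lit 4) (nat_lit 487) (nat_lit 384) (nat_lit 329))) (XT.nd (nat_lit 78) (nat_lit 152) (nat_lit 0) (XT.lf (nat_lit 0) (nat_lit 8230488913) (nat_lit 76) (nat_lit 24921742957) (nat_lit 76) (nat_lit 15350438181) (nat_lit 35) (nat_lit 4) (nat_lit 36) (nat_lit 5) (nat_lit 36) (nat_lit 4) (nat_lit 488) (nat_lit 384) (nat_lit 328)) (XT.lf (nat_lit 0) (nat_lit 2906736738) (nat_lit 76) (nat_lit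 3255708800) (nat_lit 152) (nat_lit 44096086833) (nat_lit 33) (nat_lit 5) (nat_lit 34) (nat_lit 5) (nat_lit 35) (nat_lit 4) (nat_lit 489) (nat_lit 384) (nat_lit 327))))))) (XT.nd (nat_lit 58032) (nat_lit 0) (nat_lit 7524) (XT.nd (nat_lit 468) (nat_lit 380) (nat_lit 0) (XT.nd (nat_lit 234) (nat_lit 304) (nat_lit 0) (XT.nd (nat_lit 78) (nat_lit 228) (nat_lit 0) (XT.lf (nat_lit 0) (nat_lit 28918502398) (nat_lit 152) (nat_lit 3598733884) (nat_lit 0) (nat_lit 19565842184) (nat_lit 33) (nat_lit 5) (nat_lit 35) (nat_lit 4) (nat_lit 33) (nat_lit 4) (nat_lit 490) (nat_lit 384) (nat_lit 326)) (XT.nd (nat_lit 78) (nat_lit 152) (nat_lit 0) (XT.lf (nat_lit 0) (nat_lit 42909555766) (nat_lit 76) (nat_lit 10230037556) (nat_lit 76) (nat_lit 849441777) (nat_lit 32) (nat_lit 4) (nat_lit 33) (nat_lit 5) (nat_lit 33) (nat_lit 4) (nat_lit 491) (nat_lit 384) (nat_lit 325)) (XT.lf (nat_lit 0) (nat_lit 22540693809) (nat_lit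 152) (nat_lit 20023598339) (nat_lit 0) (nat_lit 13407488877) (nat_lit 30) (nat_lit 5) (nat_lit 32) (nat_lit 4) (nat_lit 30) (nat_lit 4) (nat_lit 492) (nat_lit 384) (nat_lit 324)))) (XT.nd (nat_lit 78) (nat_lit 228) (nat_lit 0) (XT.lf (nat_lit 0) (nat_lit 27708219994) (nat_lit 76) (nat_lit 19745928005) (nat_lit 76) (nat_lit 10588122702) (nat_lit 29) (nat_lit 4) (nat_lit 30) (nat_lit 5) (nat_lit 30) (nat_lit 4) (nat_lit 493) (nat_lit 384) (nat_lit 323)) (XT.nd (nat_lit 78) (nat_lit 76) (nat_lit 0) (XT.lf (nat_lit 0) (nat_lit 13450162007) (nat_lit 152) (nat_lit 42216479356) (nat_lit 0) (nat_lit 4536342370) (nat_lit 27) (nat_lit 5) (nat_lit 29) (nat_lit 4) (nat_lit 27) (nat_lit 4) (nat_lit 494) (nat_lit 384) (nat_lit 322)) (XT.lf (nat_lit 0) (nat_lit 6492559602) (nat_lit 76) (nat_lit 32448707213) (nat_lit 76) (nat_lit 23513224215) (nat_lit 26) (nat_lit 4) (nat_lit 27) (nat_lit 5) (nat_lit 27) (nat_lit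 4) (nat_lit 495) (nat_lit 384) (nat_lit 321))))) (XT.nd (nat_lit 234) (nat_lit 152) (nat_lit 0) (XT.nd (nat_lit 78) (nat_lit 152) (nat_lit 0) (XT.lf (nat_lit 0) (nat_lit 1202787518) (nat_lit 152) (nat_lit 6514456106) (nat_lit 76) (nat_lit 57091120930) (nat_lit 25) (nat_lit 5) (nat_lit 27) (nat_lit 5) (nat_lit 26) (nat_lit 4) (nat_lit 496) (nat_lit 384) (nat_lit 320)) (XT.nd (nat_lit 78) (nat_lit 76) (nat_lit 0) (XT.lf (nat_lit 0) (nat_lit 27192791605) (nat_lit 152) (nat_lit 21585964149) (nat_lit 0) (nat_lit 18478457551) (nat_lit 24) (nat_lit 5) (nat_lit 26) (nat_lit 4) (nat_lit 24) (nat_lit 4) (nat_lit 497) (nat_lit 384) (nat_lit 319)) (XT.lf (nat_lit 0) (nat_lit 31103050485) (nat_lit 76) (nat_lit 23723809905) (nat_lit 76) (nat_lit 14991307283) (nat_lit 23) (nat_lit 4) (nat_lit 24) (nat_lit 5) (nat_lit 24) (nat_lit 4) (nat_lit 498) (nat_lit 384) (nat_lit 318)))) (XT.nd (nat_lit 57174) (nat_lit 0)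 (nat_lit 12084) (XT.nd (nat_lit 57096) (nat_lit 0) (nat_lit 13072) (XT.lf (nat_lit 0) (nat_lit 11407041650) (nat_lit 152) (nat_lit 58175991727) (nat_lit 0) (nat_lit 2912084348) (nat_lit 21) (nat_lit 5) (nat_lit 23) (nat_lit 4) (nat_lit 21) (nat_lit 4) (nat_lit 499) (nat_lit 384) (nat_lit 317)) (XT.lf (nat_lit 0) (nat_lit 154566277) (nat_lit 380) (nat_lit 4226509679) (nat_lit 0) (nat_lit 154566277) (nat_lit 193) (nat_lit 5) (nat_lit 198) (nat_lit 4) (nat_lit 193) (nat_lit 4) (nat_lit 430) (nat_lit 385) (nat_lit 385))) (XT.nd (nat_lit 78) (nat_lit 684) (nat_lit 0) (XT.lf (nat_lit 0) (nat_lit 4975360850) (nat_lit 304) (nat_lit 2859442888) (nat_lit 304) (nat_lit 1419098971) (nat_lit 189) (nat_lit 4) (nat_lit 193) (nat_lit 5) (nat_lit 193) (nat_lit 4) (nat_lit 431) (nat_lit 385) (nat_lit 384)) (XT.lf (nat_lit 0) (nat_lit 4993809) (nat_lit 304) (nat_lit 6085688066) (nat_lit 304) (nat_lit 3355493864) (nat_lit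 180) (nat_lit 4) (nat_lit 184) (nat_lit 5) (nat_lit 184) (nat_lit 4) (nat_lit 432) (nat_lit 385) (nat_lit 383)))))) (XT.nd (nat_lit 546) (nat_lit 1900) (nat_lit 0) (XT.nd (nat_lit 234) (nat_lit 1520) (nat_lit 0) (XT.nd (nat_lit 78) (nat_lit 836) (nat_lit 0) (XT.lf (nat_lit 0) (nat_lit 4188048085) (nat_lit 304) (nat_lit 5153237060) (nat_lit 0) (nat_lit 305934390) (nat_lit 176) (nat_lit 5) (nat_lit 180) (nat_lit 4) (nat_lit 176) (nat_lit 4) (nat_lit 433) (nat_lit 385) (nat_lit 382)) (XT.nd (nat_lit 78) (nat_lit 456) (nat_lit 0) (XT.lf (nat_lit 0) (nat_lit 2105994049) (nat_lit 380) (nat_lit 779745501) (nat_lit 76) (nat_lit 6971961392) (nat_lit 171) (nat_lit 5) (nat_lit 176) (nat_lit 5) (nat_lit 172) (nat_lit 4) (nat_lit 434) (nat_lit 385) (nat_lit 381)) (XT.lf (nat_lit 0) (nat_lit 3778784576) (nat_lit 228) (nat_lit 6145389824) (nat_lit 228) (nat_lit 153287354) (nat_lit 165) (nat_lit 4) (nat_lit 168)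 (nat_lit 5) (nat_lit 168) (nat_lit 4) (nat_lit 435) (nat_lit 385) (nat_lit 380)))) (XT.nd (nat_lit 156) (nat_lit 684) (nat_lit 0) (XT.nd (nat_lit 78) (nat_lit 532) (nat_lit 0) (XT.lf (nat_lit 0) (nat_lit 7635765180) (nat_lit 304) (nat_lit 1855802383) (nat_lit 0) (nat_lit 815490443) (nat_lit 161) (nat_lit 5) (nat_lit 165) (nat_lit 4) (nat_lit 161) (nat_lit 4) (nat_lit 436) (nat_lit 385) (nat_lit 379)) (XT.lf (nat_lit 0) (nat_lit 2729603631) (nat_lit 228) (nat_lit 2445189617) (nat_lit 304) (nat_lit 5371348812) (nat_lit 154) (nat_lit 5) (nat_lit 157) (nat_lit 5) (nat_lit 158) (nat_lit 4) (nat_lit 437) (nat_lit 385) (nat_lit 378))) (XT.nd (nat_lit 78) (nat_lit 380) (nat_lit 0) (XT.lf (nat_lit 0) (nat_lit 2511184002) (nat_lit 304) (nat_lit 3334048599) (nat_lit 76) (nat_lit 4950432292) (nat_lit 150) (nat_lit 5) (nat_lit 154) (nat_lit 5) (nat_lit 151) (nat_lit 4) (nat_lit 438) (nat_lit 385) (nat_lit 377))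 (XT.lf (nat_lit 0) (nat_lit 1280959604) (nat_lit 228) (nat_lit 9388966858) (nat_lit 228) (nat_lit 386351872) (nat_lit 145) (nat_lit 4) (nat_lit 148) (nat_lit 5) (nat_lit 148) (nat_lit 4) (nat_lit 439) (nat_lit 385) (nat_lit 376))))) (XT.nd (nat_lit 234) (nat_lit 912) (nat_lit 0) (XT.nd (nat_lit 78) (nat_lit 760) (nat_lit 0) (XT.lf (nat_lit 0) (nat_lit 6035280392) (nat_lit 152) (nat_lit 1755588957) (nat_lit 228) (nat_lit 3535623428) (nat_lit 142) (nat_lit 5) (nat_lit 144) (nat_lit 5) (nat_lit 145) (nat_lit 4) (nat_lit 440) (nat_lit 385) (nat_lit 375)) (XT.nd (nat_lit 78) (nat_lit 456) (nat_lit 0) (XT.lf (nat_lit 0) (nat_lit 4678453094) (nat_lit 304) (nat_lit 717037962) (nat_lit 76) (nat_lit 6212870359) (nat_lit 138) (nat_lit 5) (nat_lit 142) (nat_lit 5) (nat_lit 139) (nat_lit 4) (nat_lit 441) (nat_lit 385) (nat_lit 374)) (XT.lf (nat_lit 0) (nat_lit 1343622894) (nat_lit 304) (nat_lit 7854031956) (nat_lit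 76) (nat_lit 2703959511) (nat_lit 132) (nat_lit 5) (nat_lit 136) (nat_lit 5) (nat_lit 133) (nat_lit 4) (nat_lit 442) (nat_lit 385) (nat_lit 373)))) (XT.nd (nat_lit 156) (nat_lit 380) (nat_lit 0) (XT.nd (nat_lit 78) (nat_lit 380) (nat_lit 0) (XT.lf (nat_lit 0) (nat_lit 8912827586) (nat_lit 152) (nat_lit 1002221546) (nat_lit 228) (nat_lit 2291600039) (nat_lit 130) (nat_lit 5) (nat_lit 132) (nat_lit 5) (nat_lit 133) (nat_lit 4) (nat_lit 443) (nat_lit 385) (nat_lit 372)) (XT.lf (nat_lit 0) (nat_lit 1359621990) (nat_lit 152) (nat_lit 4962114679) (nat_lit 228) (nat_lit 6201611942) (nat_lit 125) (nat_lit 5) (nat_lit 127) (nat_lit 5) (nat_lit 128) (nat_lit 4) (nat_lit 444) (nat_lit 385) (nat_lit 371))) (XT.nd (nat_lit 78) (nat_lit 152) (nat_lit 0) (XT.lf (nat_lit 0) (nat_lit 2473008470) (nat_lit 228) (nat_lit 6660423699) (nat_lit 76) (nat_lit 3719325228) (nat_lit 122) (nat_lit 5) (nat_lit 125) (nat_lit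 5) (nat_lit 123) (nat_lit 4) (nat_lit 445) (nat_lit 385) (nat_lit 370)) (XT.lf (nat_lit 0) (nat_lit 11124349257) (nat_lit 152) (nat_lit 363587085) (nat_lit 228) (nat_lit 1707816246) (nat_lit 120) (nat_lit 5) (nat_lit 122) (nat_lit 5) (nat_lit 123) (nat_lit 4) (nat_lit 446) (nat_lit 385) (nat_lit 369))))))))
noncomputable def xc23 : XT := (XT.nd (nat_lit 2106) (nat_lit 2660) (nat_lit 0) (XT.nd (nat_lit 1014) (nat_lit 1900) (nat_lit 0) (XT.nd (nat_lit 468) (nat_lit 1444) (nat_lit 0) (XT.nd (nat_lit 234) (nat_lit 608) (nat_lit 0) (XT.nd (nat_lit 78) (nat_lit 380) (nat_lit 0) (XT.lf (nat_lit 0) (nat_lit 2613460705) (nat_lit 152) (nat_lit 4741748818) (nat_lit 228) (nat_lit 6195501957) (nat_lit 115) (nat_lit 5) (nat_lit 117) (nat_lit 5) (nat_lit 118) (nat_lit 4) (nat_lit 447) (nat_lit 385) (nat_lit 368)) (XT.nd (nat_lit 78) (nat_lit 152) (nat_lit 0) (XT.lf (nat_lit 0) (nat_lit 2922140987) (nat_lit 228)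 (nat_lit 6467662184) (nat_lit 76) (nat_lit 4530295464) (nat_lit 112) (nat_lit 5) (nat_lit 115) (nat_lit 5) (nat_lit 113) (nat_lit 4) (nat_lit 448) (nat_lit 385) (nat_lit 367)) (XT.lf (nat_lit 0) (nat_lit 12391935337) (nat_lit 152) (nat_lit 27431376) (nat_lit 228) (nat_lit 1885195710) (nat_lit 110) (nat_lit 5) (nat_lit 112) (nat_lit 5) (nat_lit 113) (nat_lit 4) (nat_lit 449) (nat_lit 385) (nat_lit 366)))) (XT.nd (nat_lit 78) (nat_lit 304) (nat_lit 0) (XT.lf (nat_lit 0) (nat_lit 2725576536) (nat_lit 76) (nat_lit 4939306788) (nat_lit 152) (nat_lit 7037204549) (nat_lit 106) (nat_lit 5) (nat_lit 107) (nat_lit 5) (nat_lit 108) (nat_lit 4) (nat_lit 450) (nat_lit 385) (nat_lit 365)) (XT.nd (nat_lit 78) (nat_lit 76) (nat_lit 0) (XT.lf (nat_lit 0) (nat_lit 2569333919) (nat_lit 228) (nat_lit 7603467066) (nat_lit 76) (nat_lit 4942872569) (nat_lit 103) (nat_lit 5) (nat_lit 106) (nat_lit 5) (nat_lit 104) (nat_lit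 4) (nat_lit 451) (nat_lit 385) (nat_lit 364)) (XT.lf (nat_lit 0) (nat_lit 12384511558) (nat_lit 76) (nat_lit 199490749) (nat_lit 152) (nat_lit 2961647703) (nat_lit 102) (nat_lit 5) (nat_lit 103) (nat_lit 5) (nat_lit 104) (nat_lit 4) (nat_lit 452) (nat_lit 385) (nat_lit 363))))) (XT.nd (nat_lit 234) (nat_lit 836) (nat_lit 0) (XT.nd (nat_lit 78) (nat_lit 304) (nat_lit 0) (XT.lf (nat_lit 0) (nat_lit 1331349638) (nat_lit 76) (nat_lit 5774597730) (nat_lit 152) (nat_lit 8884863884) (nat_lit 98) (nat_lit 5) (nat_lit 99) (nat_lit 5) (nat_lit 100) (nat_lit 4) (nat_lit 453) (nat_lit 385) (nat_lit 362)) (XT.nd (nat_lit 78) (nat_lit 76) (nat_lit 0) (XT.lf (nat_lit 0) (nat_lit 1252673143) (nat_lit 228) (nat_lit 10461651021) (nat_lit 76) (nat_lit 4739185723) (nat_lit 95) (nat_lit 5) (nat_lit 98) (nat_lit 5) (nat_lit 96) (nat_lit 4) (nat_lit 454) (nat_lit 385) (nat_lit 361)) (XT.lf (nat_lit 0) (nat_lit 10701862335)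 (nat_lit 76) (nat_lit 1113284932) (nat_lit 152) (nat_lit 5118504401) (nat_lit 94) (nat_lit 5) (nat_lit 95) (nat_lit 5) (nat_lit 96) (nat_lit 4) (nat_lit 455) (nat_lit 385) (nat_lit 360)))) (XT.nd (nat_lit 156) (nat_lit 380) (nat_lit 0) (XT.nd (nat_lit 78) (nat_lit 228) (nat_lit 0) (XT.lf (nat_lit 0) (nat_lit 5508026263) (nat_lit 228) (nat_lit 1972049324) (nat_lit 76) (nat_lit 9951746224) (nat_lit 91) (nat_lit 5) (nat_lit 94) (nat_lit 5) (nat_lit 92) (nat_lit 4) (nat_lit 456) (nat_lit 385) (nat_lit 359)) (XT.lf (nat_lit 0) (nat_lit 2416552631) (nat_lit 152) (nat_lit 14270597283) (nat_lit 152) (nat_lit 1262417917) (nat_lit 88) (nat_lit 4) (nat_lit 90) (nat_lit 5) (nat_lit 90) (nat_lit 4) (nat_lit 457) (nat_lit 385) (nat_lit 358))) (XT.nd (nat_lit 78) (nat_lit 228) (nat_lit 0) (XT.lf (nat_lit 0) (nat_lit 6854908372) (nat_lit 76) (nat_lit 3041495999) (nat_lit 152) (nat_lit 8589188395) (nat_lit 86) (nat_lit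 5) (nat_lit 87) (nat_lit 5) (nat_lit 88) (nat_lit 4) (nat_lit 458) (nat_lit 385) (nat_lit 357)) (XT.lf (nat_lit 0) (nat_lit 2644504929) (nat_lit 228) (nat_lit 7690504059) (nat_lit 76) (nat_lit 8707652985) (nat_lit 83) (nat_lit 5) (nat_lit 86) (nat_lit 5) (nat_lit 84) (nat_lit 4) (nat_lit 459) (nat_lit 385) (nat_lit 356)))))) (XT.nd (nat_lit 546) (nat_lit 912) (nat_lit 0) (XT.nd (nat_lit 234) (nat_lit 532) (nat_lit 0) (XT.nd (nat_lit 78) (nat_lit 380) (nat_lit 0) (XT.lf (nat_lit 0) (nat_lit 14385677852) (nat_lit 152) (nat_lit 3722215834) (nat_lit 0) (nat_lit 1513437930) (nat_lit 82) (nat_lit 5) (nat_lit 84) (nat_lit 4) (nat_lit 82) (nat_lit 4) (nat_lit 460) (nat_lit 385) (nat_lit 355)) (XT.nd (nat_lit 78) (nat_lit 76) (nat_lit 0) (XT.lf (nat_lit 0) (nat_lit 241076113) (nat_lit 76) (nat_lit 6309581883) (nat_lit 152) (nat_lit 13670640868) (nat_lit 78) (nat_lit 5) (nat_lit 79) (nat_lit 5) (nat_lit 80)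 (nat_lit 4) (nat_lit 461) (nat_lit 385) (nat_lit 354)) (XT.lf (nat_lit 0) (nat_lit 4321962594) (nat_lit 76) (nat_lit 14684585857) (nat_lit 76) (nat_lit 1837505597) (nat_lit 77) (nat_lit 4) (nat_lit 78) (nat_lit 5) (nat_lit 78) (nat_lit 4) (nat_lit 462) (nat_lit 385) (nat_lit 353)))) (XT.nd (nat_lit 156) (nat_lit 228) (nat_lit 0) (XT.nd (nat_lit 78) (nat_lit 152) (nat_lit 0) (XT.lf (nat_lit 0) (nat_lit 8389959019) (nat_lit 76) (nat_lit 2151681070) (nat_lit 152) (nat_lit 10948426240) (nat_lit 75) (nat_lit 5) (nat_lit 76) (nat_lit 5) (nat_lit 77) (nat_lit 4) (nat_lit 463) (nat_lit 385) (nat_lit 352)) (XT.lf (nat_lit 0) (nat_lit 1520736857) (nat_lit 152) (nat_lit 9693800141) (nat_lit 76) (nat_lit 10946526891) (nat_lit 73) (nat_lit 5) (nat_lit 75) (nat_lit 5) (nat_lit 74) (nat_lit 4) (nat_lit 464) (nat_lit 385) (nat_lit 351))) (XT.nd (nat_lit 78) (nat_lit 152) (nat_lit 0) (XT.lf (nat_lit 0) (nat_lit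 14542210435) (nat_lit 152) (nat_lit 6320840594) (nat_lit 0) (nat_lit 1994650670) (nat_lit 72) (nat_lit 5) (nat_lit 74) (nat_lit 4) (nat_lit 72) (nat_lit 4) (nat_lit 465) (nat_lit 385) (nat_lit 350)) (XT.lf (nat_lit 0) (nat_lit 4770255595) (nat_lit 152) (nat_lit 2996248436) (nat_lit 76) (nat_lit 15814286307) (nat_lit 70) (nat_lit 5) (nat_lit 72) (nat_lit 5) (nat_lit 71) (nat_lit 4) (nat_lit 466) (nat_lit 385) (nat_lit 349))))) (XT.nd (nat_lit 234) (nat_lit 532) (nat_lit 0) (XT.nd (nat_lit 78) (nat_lit 228) (nat_lit 0) (XT.lf (nat_lit 0) (nat_lit 293918906) (nat_lit 76) (nat_lit 18235401457) (nat_lit 76) (nat_lit 5802513623) (nat_lit 68) (nat_lit 4) (nat_lit 69) (nat_lit 5) (nat_lit 69) (nat_lit 4) (nat_lit 467) (nat_lit 385) (nat_lit 348)) (XT.nd (nat_lit 78) (nat_lit 76) (nat_lit 0) (XT.lf (nat_lit 0) (nat_lit 3581425759) (nat_lit 76) (nat_lit 4364793492) (nat_lit 152) (nat_lit 17164637557) (nat_lit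 66) (nat_lit 5) (nat_lit 67) (nat_lit 5) (nat_lit 68) (nat_lit 4) (nat_lit 468) (nat_lit 385) (nat_lit 347)) (XT.lf (nat_lit 0) (nat_lit 6794021161) (nat_lit 76) (nat_lit 15708744754) (nat_lit 76) (nat_lit 3417130539) (nat_lit 65) (nat_lit 4) (nat_lit 66) (nat_lit 5) (nat_lit 66) (nat_lit 4) (nat_lit 469) (nat_lit 385) (nat_lit 346)))) (XT.nd (nat_lit 156) (nat_lit 304) (nat_lit 0) (XT.nd (nat_lit 78) (nat_lit 76) (nat_lit 0) (XT.lf (nat_lit 0) (nat_lit 9926622083) (nat_lit 76) (nat_lit 1068864425) (nat_lit 152) (nat_lit 15764942988) (nat_lit 63) (nat_lit 5) (nat_lit 64) (nat_lit 5) (nat_lit 65) (nat_lit 4) (nat_lit 470) (nat_lit 385) (nat_lit 345)) (XT.lf (nat_lit 0) (nat_lit 12943447862) (nat_lit 76) (nat_lit 13408893491) (nat_lit 76) (nat_lit 1280805078) (nat_lit 62) (nat_lit 4) (nat_lit 63) (nat_lit 5) (nat_lit 63) (nat_lit 4) (nat_lit 471) (nat_lit 385) (nat_lit 344))) (XT.nd (nat_lit 78) (nat_lit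 152) (nat_lit 0) (XT.lf (nat_lit 0) (nat_lit 13849614929) (nat_lit 152) (nat_lit 12703001319) (nat_lit 0) (nat_lit 1987051556) (nat_lit 60) (nat_lit 5) (nat_lit 62) (nat_lit 4) (nat_lit 60) (nat_lit 4) (nat_lit 472) (nat_lit 385) (nat_lit 343)) (XT.lf (nat_lit 0) (nat_lit 524286344) (nat_lit 152) (nat_lit 10881805190) (nat_lit 76) (nat_lit 18075691848) (nat_lit 58) (nat_lit 5) (nat_lit 60) (nat_lit 5) (nat_lit 59) (nat_lit 4) (nat_lit 473) (nat_lit 385) (nat_lit 342))))))) (XT.nd (nat_lit 1014) (nat_lit 1216) (nat_lit 0) (XT.nd (nat_lit 468) (nat_lit 760) (nat_lit 0) (XT.nd (nat_lit 234) (nat_lit 380) (nat_lit 0) (XT.nd (nat_lit 78) (nat_lit 228) (nat_lit 0) (XT.lf (nat_lit 0) (nat_lit 16423524977) (nat_lit 152) (nat_lit 9288161075) (nat_lit 0) (nat_lit 4748115923) (nat_lit 57) (nat_lit 5) (nat_lit 59) (nat_lit 4) (nat_lit 57) (nat_lit 4) (nat_lit 474) (nat_lit 385) (nat_lit 341)) (XT.nd (nat_lit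 78) (nat_lit 76) (nat_lit 0) (XT.lf (nat_lit 0) (nat_lit 1903103183) (nat_lit 152) (nat_lit 7885678574) (nat_lit 76) (nat_lit 21688352058) (nat_lit 55) (nat_lit 5) (nat_lit 57) (nat_lit 5) (nat_lit 56) (nat_lit 4) (nat_lit 475) (nat_lit 385) (nat_lit 340)) (XT.lf (nat_lit 0) (nat_lit 18615445389) (nat_lit 152) (nat_lit 6777083895) (nat_lit 0) (nat_lit 7140645647) (nat_lit 54) (nat_lit 5) (nat_lit 56) (nat_lit 4) (nat_lit 54) (nat_lit 4) (nat_lit 476) (nat_lit 385) (nat_lit 339)))) (XT.nd (nat_lit 78) (nat_lit 228) (nat_lit 0) (XT.lf (nat_lit 0) (nat_lit 2774463750) (nat_lit 152) (nat_lit 5907423995) (nat_lit 76) (nat_lit 24950335280) (nat_lit 52) (nat_lit 5) (nat_lit 54) (nat_lit 5) (nat_lit 53) (nat_lit 4) (nat_lit 477) (nat_lit 385) (nat_lit 338)) (XT.nd (nat_lit 78) (nat_lit 152) (nat_lit 0) (XT.lf (nat_lit 0) (nat_lit 20313054252) (nat_lit 152) (nat_lit 5410377090) (nat_lit 0) (nat_lit 9049669744)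 (nat_lit 51) (nat_lit 5) (nat_lit 53) (nat_lit 4) (nat_lit 51) (nat_lit 4) (nat_lit 478) (nat_lit 385) (nat_lit 337)) (XT.lf (nat_lit 0) (nat_lit 3009180762) (nat_lit 152) (nat_lit 5211798540) (nat_lit 76) (nat_lit 27740085695) (nat_lit 49) (nat_lit 5) (nat_lit 51) (nat_lit 5) (nat_lit 50) (nat_lit 4) (nat_lit 479) (nat_lit 385) (nat_lit 336))))) (XT.nd (nat_lit 234) (nat_lit 456) (nat_lit 0) (XT.nd (nat_lit 78) (nat_lit 228) (nat_lit 0) (XT.lf (nat_lit 0) (nat_lit 21379340280) (nat_lit 152) (nat_lit 5479121791) (nat_lit 0) (nat_lit 10335874499) (nat_lit 48) (nat_lit 5) (nat_lit 50) (nat_lit 4) (nat_lit 48) (nat_lit 4) (nat_lit 480) (nat_lit 385) (nat_lit 335)) (XT.nd (nat_lit 78) (nat_lit 76) (nat_lit 0) (XT.lf (nat_lit 0) (nat_lit 2450835385) (nat_lit 152) (nat_lit 6118509677) (nat_lit 76) (nat_lit 29909860230) (nat_lit 46) (nat_lit 5) (nat_lit 48) (nat_lit 5) (nat_lit 47) (nat_lit 4) (nat_lit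 481) (nat_lit 385) (nat_lit 334)) (XT.lf (nat_lit 0) (nat_lit 21648047768) (nat_lit 152) (nat_lit 7334211273) (nat_lit 0) (nat_lit 10831006147) (nat_lit 45) (nat_lit 5) (nat_lit 47) (nat_lit 4) (nat_lit 45) (nat_lit 4) (nat_lit 482) (nat_lit 385) (nat_lit 333)))) (XT.nd (nat_lit 156) (nat_lit 228) (nat_lit 0) (XT.nd (nat_lit 78) (nat_lit 76) (nat_lit 0) (XT.lf (nat_lit 0) (nat_lit 910808446) (nat_lit 152) (nat_lit 9012342139) (nat_lit 76) (nat_lit 31280769797) (nat_lit 43) (nat_lit 5) (nat_lit 45) (nat_lit 5) (nat_lit 44) (nat_lit 4) (nat_lit 483) (nat_lit 385) (nat_lit 332)) (XT.lf (nat_lit 0) (nat_lit 20918311676) (nat_lit 152) (nat_lit 11397331726) (nat_lit 0) (nat_lit 10332468759) (nat_lit 42) (nat_lit 5) (nat_lit 44) (nat_lit 4) (nat_lit 42) (nat_lit 4) (nat_lit 484) (nat_lit 385) (nat_lit 331))) (XT.nd (nat_lit 78) (nat_lit 152) (nat_lit 0) (XT.lf (nat_lit 0) (nat_lit 29780827517) (nat_lit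 76) (nat_lit 12498940762) (nat_lit 76) (nat_lit 1874138142) (nat_lit 41) (nat_lit 4) (nat_lit 42) (nat_lit 5) (nat_lit 42) (nat_lit 4) (nat_lit 485) (nat_lit 385) (nat_lit 330)) (XT.lf (nat_lit 0) (nat_lit 18948343429) (nat_lit 152) (nat_lit 18173869300) (nat_lit 0) (nat_lit 8596977314) (nat_lit 39) (nat_lit 5) (nat_lit 41) (nat_lit 4) (nat_lit 39) (nat_lit 4) (nat_lit 486) (nat_lit 385) (nat_lit 329)))))) (XT.nd (nat_lit 546) (nat_lit 532) (nat_lit 0) (XT.nd (nat_lit 234) (nat_lit 380) (nat_lit 0) (XT.nd (nat_lit 78) (nat_lit 228) (nat_lit 0) (XT.lf (nat_lit 0) (nat_lit 24591576074) (nat_lit 76) (nat_lit 16572279882) (nat_lit 76) (nat_lit 6186605418) (nat_lit 38) (nat_lit 4) (nat_lit 39) (nat_lit 5) (nat_lit 39) (nat_lit 4) (nat_lit 487) (nat_lit 385) (nat_lit 328)) (XT.nd (nat_lit 78) (nat_lit 76) (nat_lit 0) (XT.lf (nat_lit 0) (nat_lit 15448004150) (nat_lit 152) (nat_lit 28268075729) (nat_lit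 0) (nat_lit 5333102129) (nat_lit 36) (nat_lit 5) (nat_lit 38) (nat_lit 4) (nat_lit 36) (nat_lit 4) (nat_lit 488) (nat_lit 385) (nat_lit 327)) (XT.lf (nat_lit 0) (nat_lit 15993579152) (nat_lit 76) (nat_lit 22484640855) (nat_lit 76) (nat_lit 12339526519) (nat_lit 35) (nat_lit 4) (nat_lit 36) (nat_lit 5) (nat_lit 36) (nat_lit 4) (nat_lit 489) (nat_lit 385) (nat_lit 326)))) (XT.nd (nat_lit 156) (nat_lit 152) (nat_lit 0) (XT.nd (nat_lit 78) (nat_lit 76) (nat_lit 0) (XT.lf (nat_lit 0) (nat_lit 10070074057) (nat_lit 152) (nat_lit 42400881523) (nat_lit 0) (nat_lit 192512923) (nat_lit 33) (nat_lit 5) (nat_lit 35) (nat_lit 4) (nat_lit 33) (nat_lit 4) (nat_lit 490) (nat_lit 385) (nat_lit 325)) (XT.lf (nat_lit 0) (nat_lit 3222928201) (nat_lit 76) (nat_lit 30631877120) (nat_lit 76) (nat_lit 20727710686) (nat_lit 32) (nat_lit 4) (nat_lit 33) (nat_lit 5) (nat_lit 33) (nat_lit 4) (nat_lit 491) (nat_lit 385) (nat_lit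 324))) (XT.nd (nat_lit 78) (nat_lit 76) (nat_lit 0) (XT.lf (nat_lit 0) (nat_lit 2518208232) (nat_lit 152) (nat_lit 4817542103) (nat_lit 76) (nat_lit 49251207532) (nat_lit 31) (nat_lit 5) (nat_lit 33) (nat_lit 5) (nat_lit 32) (nat_lit 4) (nat_lit 492) (nat_lit 385) (nat_lit 323)) (XT.lf (nat_lit 0) (nat_lit 26994338447) (nat_lit 152) (nat_lit 14345615301) (nat_lit 0) (nat_lit 17330613585) (nat_lit 30) (nat_lit 5) (nat_lit 32) (nat_lit 4) (nat_lit 30) (nat_lit 4) (nat_lit 493) (nat_lit 385) (nat_lit 322))))) (XT.nd (nat_lit 234) (nat_lit 228) (nat_lit 0) (XT.nd (nat_lit 78) (nat_lit 228) (nat_lit 0) (XT.lf (nat_lit 0) (nat_lit 35581337083) (nat_lit 76) (nat_lit 17476082065) (nat_lit 76) (nat_lit 7790043942) (nat_lit 29) (nat_lit 4) (nat_lit 30) (nat_lit 5) (nat_lit 30) (nat_lit 4) (nat_lit 494) (nat_lit 385) (nat_lit 321)) (XT.nd (nat_lit 78) (nat_lit 76) (nat_lit 0) (XT.lf (nat_lit 0) (nat_lit 17321772635)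 (nat_lit 152) (nat_lit 37898162939) (nat_lit 0) (nat_lit 7897220356) (nat_lit 27) (nat_lit 5) (nat_lit 29) (nat_lit 4) (nat_lit 27) (nat_lit 4) (nat_lit 495) (nat_lit 385) (nat_lit 320)) (XT.lf (nat_lit 0) (nat_lit 13062037948) (nat_lit 76) (nat_lit 30933085841) (nat_lit 76) (nat_lit 21488884255) (nat_lit 26) (nat_lit 4) (nat_lit 27) (nat_lit 5) (nat_lit 27) (nat_lit 4) (nat_lit 496) (nat_lit 385) (nat_lit 319)))) (XT.nd (nat_lit 156) (nat_lit 76) (nat_lit 0) (XT.nd (nat_lit 78) (nat_lit 76) (nat_lit 0) (XT.lf (nat_lit 0) (nat_lit 4251077010) (nat_lit 152) (nat_lit 833228878) (nat_lit 76) (nat_lit 62874828943) (nat_lit 25) (nat_lit 5) (nat_lit 27) (nat_lit 5) (nat_lit 26) (nat_lit 4) (nat_lit 497) (nat_lit 385) (nat_lit 318)) (XT.lf (nat_lit 0) (nat_lit 31482567777) (nat_lit 152) (nat_lit 16771630757) (nat_lit 0) (nat_lit 22277968057) (nat_lit 24) (nat_lit 5) (nat_lit 26) (nat_lit 4) (nat_lit 24)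 (nat_lit 4) (nat_lit 498) (nat_lit 385) (nat_lit 317))) (XT.nd (nat_lit 56940) (nat_lit 0) (nat_lit 13984) (XT.lf (nat_lit 0) (nat_lit 38382894842) (nat_lit 76) (nat_lit 22030944085) (nat_lit 76) (nat_lit 12809864938) (nat_lit 23) (nat_lit 4) (nat_lit 24) (nat_lit 5) (nat_lit 24) (nat_lit 4) (nat_lit 499) (nat_lit 385) (nat_lit 316)) (XT.lf (nat_lit 0) (nat_lit 640207106) (nat_lit 380) (nat_lit 1861400769) (nat_lit 380) (nat_lit 1861400769) (nat_lit 207) (nat_lit 4) (nat_lit 212) (nat_lit 5) (nat_lit 212) (nat_lit 4) (nat_lit 428) (nat_lit 386) (nat_lit 386))))))))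
noncomputable def xc24 : XT := (XT.nd (nat_lit 2028) (nat_lit 3876) (nat_lit 0) (XT.nd (nat_lit 1014) (nat_lit 3040) (nat_lit 0) (XT.nd (nat_lit 468) (nat_lit 2508) (nat_lit 0) (XT.nd (nat_lit 234) (nat_lit 1368) (nat_lit 0) (XT.nd (nat_lit 78) (nat_lit 988) (nat_lit 0) (XT.lf (nat_lit 0) (nat_lit 3434238608) (nat_lit 380) (nat_lit 3585333889) (nat_lit 0) (nat_lit 1876506662) (nat_lit 202) (nat_lit 5) (nat_lit 207) (nat_lit 4) (nat_lit 202) (nat_lit 4) (nat_lit 429) (nat_lit 386) (nat_lit 385)) (XT.nd (nat_lit 78) (nat_lit 304) (nat_lit 0) (XT.lf (nat_lit 0) (nat_lit 387889508) (nat_lit 304) (nat_lit 1301359599) (nat_lit 380) (nat_lit 7386007030) (nat_lit 193) (nat_lit 5) (nat_lit 197) (nat_lit 5) (nat_lit 198) (nat_lit 4) (nat_lit 430) (nat_lit 386) (nat_lit 384)) (XT.lf (nat_lit 0) (nat_lit 4533629167) (nat_lit 304) (nat_lit 4526674490) (nat_lit 304) (nat_lit 202213349) (nat_lit 189) (nat_lit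 4) (nat_lit 193) (nat_lit 5) (nat_lit 193) (nat_lit 4) (nat_lit 431) (nat_lit 386) (nat_lit 383)))) (XT.nd (nat_lit 78) (nat_lit 988) (nat_lit 0) (XT.lf (nat_lit 0) (nat_lit 7125933052) (nat_lit 380) (nat_lit 674202351) (nat_lit 0) (nat_lit 1659044185) (nat_lit 184) (nat_lit 5) (nat_lit 189) (nat_lit 4) (nat_lit 184) (nat_lit 4) (nat_lit 432) (nat_lit 386) (nat_lit 382)) (XT.nd (nat_lit 78) (nat_lit 380) (nat_lit 0) (XT.lf (nat_lit 0) (nat_lit 3551121292) (nat_lit 228) (nat_lit 1486314115) (nat_lit 304) (nat_lit 4627084082) (nat_lit 176) (nat_lit 5) (nat_lit 179) (nat_lit 5) (nat_lit 180) (nat_lit 4) (nat_lit 433) (nat_lit 386) (nat_lit 381)) (XT.lf (nat_lit 0) (nat_lit 2764219120) (nat_lit 380) (nat_lit 1986046126) (nat_lit 76) (nat_lit 5129227714) (nat_lit 171) (nat_lit 5) (nat_lit 176) (nat_lit 5) (nat_lit 172) (nat_lit 4) (nat_lit 434) (nat_lit 386) (nat_lit 380))))) (XT.nd (nat_lit 234) (nat_lit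 1216) (nat_lit 0) (XT.nd (nat_lit 78) (nat_lit 760) (nat_lit 0) (XT.lf (nat_lit 0) (nat_lit 297690174) (nat_lit 304) (nat_lit 7804596581) (nat_lit 76) (nat_lit 2002111533) (nat_lit 164) (nat_lit 5) (nat_lit 168) (nat_lit 5) (nat_lit 165) (nat_lit 4) (nat_lit 435) (nat_lit 386) (nat_lit 379)) (XT.nd (nat_lit 78) (nat_lit 532) (nat_lit 0) (XT.lf (nat_lit 0) (nat_lit 6708736785) (nat_lit 228) (nat_lit 1222910952) (nat_lit 304) (nat_lit 2406868586) (nat_lit 161) (nat_lit 5) (nat_lit 164) (nat_lit 5) (nat_lit 165) (nat_lit 4) (nat_lit 436) (nat_lit 386) (nat_lit 378)) (XT.lf (nat_lit 0) (nat_lit 644268032) (nat_lit 228) (nat_lit 4613212746) (nat_lit 304) (nat_lit 5325343306) (nat_lit 154) (nat_lit 5) (nat_lit 157) (nat_lit 5) (nat_lit 158) (nat_lit 4) (nat_lit 437) (nat_lit 386) (nat_lit 377)))) (XT.nd (nat_lit 156) (nat_lit 760) (nat_lit 0) (XT.nd (nat_lit 78) (nat_lit 152) (nat_lit 0) (XT.lf (nat_lit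 0) (nat_lit 2387193194) (nat_lit 304) (nat_lit 5731267231) (nat_lit 76) (nat_lit 2718948641) (nat_lit 150) (nat_lit 5) (nat_lit 154) (nat_lit 5) (nat_lit 151) (nat_lit 4) (nat_lit 438) (nat_lit 386) (nat_lit 376)) (XT.lf (nat_lit 0) (nat_lit 9674328037) (nat_lit 152) (nat_lit 696358631) (nat_lit 228) (nat_lit 732595647) (nat_lit 148) (nat_lit 5) (nat_lit 150) (nat_lit 5) (nat_lit 151) (nat_lit 4) (nat_lit 439) (nat_lit 386) (nat_lit 375))) (XT.nd (nat_lit 78) (nat_lit 304) (nat_lit 0) (XT.lf (nat_lit 0) (nat_lit 2991015505) (nat_lit 152) (nat_lit 4288945482) (nat_lit 228) (nat_lit 4098780416) (nat_lit 142) (nat_lit 5) (nat_lit 144) (nat_lit 5) (nat_lit 145) (nat_lit 4) (nat_lit 440) (nat_lit 386) (nat_lit 374)) (XT.lf (nat_lit 0) (nat_lit 3949745111) (nat_lit 304) (nat_lit 4110739431) (nat_lit 76) (nat_lit 3605586107) (nat_lit 138) (nat_lit 5) (nat_lit 142) (nat_lit 5) (nat_lit 139) (nat_lit 4)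 (nat_lit 441) (nat_lit 386) (nat_lit 373)))))) (XT.nd (nat_lit 468) (nat_lit 1444) (nat_lit 0) (XT.nd (nat_lit 234) (nat_lit 760) (nat_lit 0) (XT.nd (nat_lit 78) (nat_lit 380) (nat_lit 0) (XT.lf (nat_lit 0) (nat_lit 280028750) (nat_lit 228) (nat_lit 77040170) (nat_lit 304) (nat_lit 11608947789) (nat_lit 132) (nat_lit 5) (nat_lit 135) (nat_lit 5) (nat_lit 136) (nat_lit 5) (nat_lit 442) (nat_lit 386) (nat_lit 372)) (XT.nd (nat_lit 78) (nat_lit 228) (nat_lit 0) (XT.lf (nat_lit 0) (nat_lit 4795898597) (nat_lit 152) (nat_lit 3976258534) (nat_lit 228) (nat_lit 3503586289) (nat_lit 130) (nat_lit 5) (nat_lit 132) (nat_lit 5) (nat_lit 133) (nat_lit 4) (nat_lit 443) (nat_lit 386) (nat_lit 371)) (XT.lf (nat_lit 0) (nat_lit 4933921089) (nat_lit 228) (nat_lit 3174288870) (nat_lit 76) (nat_lit 4490568427) (nat_lit 127) (nat_lit 5) (nat_lit 130) (nat_lit 5) (nat_lit 128) (nat_lit 4) (nat_lit 444) (nat_lit 386)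 (nat_lit 370)))) (XT.nd (nat_lit 78) (nat_lit 380) (nat_lit 0) (XT.lf (nat_lit 0) (nat_lit 813268829) (nat_lit 228) (nat_lit 11670564496) (nat_lit 76) (nat_lit 451528747) (nat_lit 122) (nat_lit 5) (nat_lit 125) (nat_lit 5) (nat_lit 123) (nat_lit 4) (nat_lit 445) (nat_lit 386) (nat_lit 369)) (XT.nd (nat_lit 78) (nat_lit 228) (nat_lit 0) (XT.lf (nat_lit 0) (nat_lit 5809233369) (nat_lit 152) (nat_lit 3856636156) (nat_lit 228) (nat_lit 3617358988) (nat_lit 120) (nat_lit 5) (nat_lit 122) (nat_lit 5) (nat_lit 123) (nat_lit 4) (nat_lit 446) (nat_lit 386) (nat_lit 368)) (XT.lf (nat_lit 0) (nat_lit 5259041873) (nat_lit 228) (nat_lit 3188303483) (nat_lit 76) (nat_lit 5198110653) (nat_lit 117) (nat_lit 5) (nat_lit 120) (nat_lit 5) (nat_lit 118) (nat_lit 4) (nat_lit 447) (nat_lit 386) (nat_lit 367))))) (XT.nd (nat_lit 234) (nat_lit 684) (nat_lit 0) (XT.nd (nat_lit 78) (nat_lit 380) (nat_lit 0) (XT.lf (nat_lit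 0) (nat_lit 535250373) (nat_lit 228) (nat_lit 12793560489) (nat_lit 76) (nat_lit 693827273) (nat_lit 112) (nat_lit 5) (nat_lit 115) (nat_lit 5) (nat_lit 113) (nat_lit 4) (nat_lit 448) (nat_lit 386) (nat_lit 366)) (XT.nd (nat_lit 78) (nat_lit 228) (nat_lit 0) (XT.lf (nat_lit 0) (nat_lit 5739259632) (nat_lit 152) (nat_lit 4122395540) (nat_lit 228) (nat_lit 4550572545) (nat_lit 110) (nat_lit 5) (nat_lit 112) (nat_lit 5) (nat_lit 113) (nat_lit 4) (nat_lit 449) (nat_lit 386) (nat_lit 365)) (XT.lf (nat_lit 0) (nat_lit 4811604073) (nat_lit 228) (nat_lit 4466079427) (nat_lit 76) (nat_lit 5540036790) (nat_lit 107) (nat_lit 5) (nat_lit 110) (nat_lit 5) (nat_lit 108) (nat_lit 4) (nat_lit 450) (nat_lit 386) (nat_lit 364)))) (XT.nd (nat_lit 156) (nat_lit 304) (nat_lit 0) (XT.nd (nat_lit 78) (nat_lit 304) (nat_lit 0) (XT.lf (nat_lit 0) (nat_lit 14620208902) (nat_lit 152) (nat_lit 160409162) (nat_lit 0) (nat_lit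 459346914) (nat_lit 106) (nat_lit 5) (nat_lit 108) (nat_lit 4) (nat_lit 106) (nat_lit 4) (nat_lit 451) (nat_lit 386) (nat_lit 363)) (XT.lf (nat_lit 0) (nat_lit 4238844639) (nat_lit 76) (nat_lit 4985405964) (nat_lit 152) (nat_lit 6451353169) (nat_lit 102) (nat_lit 5) (nat_lit 103) (nat_lit 5) (nat_lit 104) (nat_lit 4) (nat_lit 452) (nat_lit 386) (nat_lit 362))) (XT.nd (nat_lit 78) (nat_lit 76) (nat_lit 0) (XT.lf (nat_lit 0) (nat_lit 3440124676) (nat_lit 228) (nat_lit 7381988784) (nat_lit 76) (nat_lit 5306985208) (nat_lit 99) (nat_lit 5) (nat_lit 102) (nat_lit 5) (nat_lit 100) (nat_lit 4) (nat_lit 453) (nat_lit 386) (nat_lit 361)) (XT.lf (nat_lit 0) (nat_lit 13340430484) (nat_lit 76) (nat_lit 448993530) (nat_lit 152) (nat_lit 2811029622) (nat_lit 98) (nat_lit 5) (nat_lit 99) (nat_lit 5) (nat_lit 100) (nat_lit 4) (nat_lit 454) (nat_lit 386) (nat_lit 360))))))) (XT.nd (nat_lit 1014) (nat_lit 1672) (nat_lit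 0) (XT.nd (nat_lit 468) (nat_lit 988) (nat_lit 0) (XT.nd (nat_lit 234) (nat_lit 608) (nat_lit 0) (XT.nd (nat_lit 78) (nat_lit 304) (nat_lit 0) (XT.lf (nat_lit 0) (nat_lit 889320287) (nat_lit 76) (nat_lit 6686894811) (nat_lit 152) (nat_lit 9512094214) (nat_lit 94) (nat_lit 5) (nat_lit 95) (nat_lit 5) (nat_lit 96) (nat_lit 4) (nat_lit 455) (nat_lit 386) (nat_lit 359)) (XT.nd (nat_lit 78) (nat_lit 76) (nat_lit 0) (XT.lf (nat_lit 0) (nat_lit 948088871) (nat_lit 228) (nat_lit 12388807681) (nat_lit 76) (nat_lit 4258413105) (nat_lit 91) (nat_lit 5) (nat_lit 94) (nat_lit 5) (nat_lit 92) (nat_lit 4) (nat_lit 456) (nat_lit 386) (nat_lit 358)) (XT.lf (nat_lit 0) (nat_lit 9547581480) (nat_lit 76) (nat_lit 2321591476) (nat_lit 152) (nat_lit 6251624591) (nat_lit 90) (nat_lit 5) (nat_lit 91) (nat_lit 5) (nat_lit 92) (nat_lit 4) (nat_lit 457) (nat_lit 386) (nat_lit 357)))) (XT.nd (nat_lit 78) (nat_lit 380) (nat_lit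 0) (XT.lf (nat_lit 0) (nat_lit 4735737443) (nat_lit 228) (nat_lit 4725420290) (nat_lit 76) (nat_lit 9205168687) (nat_lit 87) (nat_lit 5) (nat_lit 90) (nat_lit 5) (nat_lit 88) (nat_lit 4) (nat_lit 458) (nat_lit 386) (nat_lit 356)) (XT.nd (nat_lit 78) (nat_lit 304) (nat_lit 0) (XT.lf (nat_lit 0) (nat_lit 16268331637) (nat_lit 152) (nat_lit 817743590) (nat_lit 0) (nat_lit 2147446106) (nat_lit 86) (nat_lit 5) (nat_lit 88) (nat_lit 4) (nat_lit 86) (nat_lit 4) (nat_lit 459) (nat_lit 386) (nat_lit 355)) (XT.lf (nat_lit 0) (nat_lit 3139525291) (nat_lit 76) (nat_lit 5456763433) (nat_lit 152) (nat_lit 11223884585) (nat_lit 82) (nat_lit 5) (nat_lit 83) (nat_lit 5) (nat_lit 84) (nat_lit 4) (nat_lit 460) (nat_lit 386) (nat_lit 354))))) (XT.nd (nat_lit 234) (nat_lit 532) (nat_lit 0) (XT.nd (nat_lit 78) (nat_lit 228) (nat_lit 0) (XT.lf (nat_lit 0) (nat_lit 403699836) (nat_lit 228) (nat_lit 13250339679) (nat_lit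 76) (nat_lit 6776095810) (nat_lit 79) (nat_lit 5) (nat_lit 82) (nat_lit 5) (nat_lit 80) (nat_lit 4) (nat_lit 461) (nat_lit 386) (nat_lit 353)) (XT.nd (nat_lit 78) (nat_lit 152) (nat_lit 0) (XT.lf (nat_lit 0) (nat_lit 11215710221) (nat_lit 76) (nat_lit 1322676662) (nat_lit 152) (nat_lit 8524140217) (nat_lit 78) (nat_lit 5) (nat_lit 79) (nat_lit 5) (nat_lit 80) (nat_lit 4) (nat_lit 462) (nat_lit 386) (nat_lit 352)) (XT.lf (nat_lit 0) (nat_lit 3705848739) (nat_lit 152) (nat_lit 6454418520) (nat_lit 76) (nat_lit 11558589965) (nat_lit 76) (nat_lit 5) (nat_lit 78) (nat_lit 5) (nat_lit 77) (nat_lit 4) (nat_lit 463) (nat_lit 386) (nat_lit 351)))) (XT.nd (nat_lit 156) (nat_lit 228) (nat_lit 0) (XT.nd (nat_lit 78) (nat_lit 228) (nat_lit 0) (XT.lf (nat_lit 0) (nat_lit 16528897997) (nat_lit 152) (nat_lit 3056217708) (nat_lit 0) (nat_lit 2815621516) (nat_lit 75) (nat_lit 5) (nat_lit 77) (nat_lit 4) (nat_lit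 75) (nat_lit 4) (nat_lit 464) (nat_lit 386) (nat_lit 350)) (XT.lf (nat_lit 0) (nat_lit 305553968) (nat_lit 76) (nat_lit 6667405247) (nat_lit 152) (nat_lit 16134847202) (nat_lit 72) (nat_lit 5) (nat_lit 73) (nat_lit 5) (nat_lit 74) (nat_lit 4) (nat_lit 465) (nat_lit 386) (nat_lit 349))) (XT.nd (nat_lit 78) (nat_lit 152) (nat_lit 0) (XT.lf (nat_lit 0) (nat_lit 3722259199) (nat_lit 76) (nat_lit 16845759063) (nat_lit 76) (nat_lit 3273583697) (nat_lit 71) (nat_lit 4) (nat_lit 72) (nat_lit 5) (nat_lit 72) (nat_lit 4) (nat_lit 466) (nat_lit 386) (nat_lit 348)) (XT.lf (nat_lit 0) (nat_lit 7086565306) (nat_lit 76) (nat_lit 3149270902) (nat_lit 152) (nat_lit 14367159508) (nat_lit 69) (nat_lit 5) (nat_lit 70) (nat_lit 5) (nat_lit 71) (nat_lit 4) (nat_lit 467) (nat_lit 386) (nat_lit 347)))))) (XT.nd (nat_lit 546) (nat_lit 836) (nat_lit 0) (XT.nd (nat_lit 234) (nat_lit 456) (nat_lit 0) (XT.nd (nat_lit 78) (nat_lit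 304) (nat_lit 0) (XT.lf (nat_lit 0) (nat_lit 10414946278) (nat_lit 76) (nat_lit 14191639238) (nat_lit 76) (nat_lit 787295143) (nat_lit 68) (nat_lit 4) (nat_lit 69) (nat_lit 5) (nat_lit 69) (nat_lit 4) (nat_lit 468) (nat_lit 386) (nat_lit 346)) (XT.nd (nat_lit 78) (nat_lit 152) (nat_lit 0) (XT.lf (nat_lit 0) (nat_lit 13395709801) (nat_lit 152) (nat_lit 12539922812) (nat_lit 0) (nat_lit 279182182) (nat_lit 66) (nat_lit 5) (nat_lit 68) (nat_lit 4) (nat_lit 66) (nat_lit 4) (nat_lit 469) (nat_lit 386) (nat_lit 345)) (XT.lf (nat_lit 0) (nat_lit 1478159234) (nat_lit 152) (nat_lit 10213579909) (nat_lit 76) (nat_lit 15375284880) (nat_lit 64) (nat_lit 5) (nat_lit 66) (nat_lit 5) (nat_lit 65) (nat_lit 4) (nat_lit 470) (nat_lit 386) (nat_lit 344)))) (XT.nd (nat_lit 156) (nat_lit 228) (nat_lit 0) (XT.nd (nat_lit 78) (nat_lit 152) (nat_lit 0) (XT.lf (nat_lit 0) (nat_lit 16429714976) (nat_lit 152) (nat_lit 8012184401)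 (nat_lit 0) (nat_lit 3510000828) (nat_lit 63) (nat_lit 5) (nat_lit 65) (nat_lit 4) (nat_lit 63) (nat_lit 4) (nat_lit 471) (nat_lit 386) (nat_lit 343)) (XT.lf (nat_lit 0) (nat_lit 3480727500) (nat_lit 152) (nat_lit 5939886713) (nat_lit 76) (nat_lit 19450581613) (nat_lit 61) (nat_lit 5) (nat_lit 63) (nat_lit 5) (nat_lit 62) (nat_lit 4) (nat_lit 472) (nat_lit 386) (nat_lit 342))) (XT.nd (nat_lit 78) (nat_lit 152) (nat_lit 0) (XT.lf (nat_lit 0) (nat_lit 19244968522) (nat_lit 152) (nat_lit 4042132616) (nat_lit 0) (nat_lit 6538448776) (nat_lit 60) (nat_lit 5) (nat_lit 62) (nat_lit 4) (nat_lit 60) (nat_lit 4) (nat_lit 473) (nat_lit 386) (nat_lit 341)) (XT.lf (nat_lit 0) (nat_lit 5161444028) (nat_lit 152) (nat_lit 2304564421) (nat_lit 76) (nat_lit 23351521844) (nat_lit 58) (nat_lit 5) (nat_lit 60) (nat_lit 5) (nat_lit 59) (nat_lit 4) (nat_lit 474) (nat_lit 386) (nat_lit 340))))) (XT.nd (nat_lit 234) (nat_lit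 456) (nat_lit 0) (XT.nd (nat_lit 78) (nat_lit 304) (nat_lit 0) (XT.lf (nat_lit 0) (nat_lit 21763377588) (nat_lit 152) (nat_lit 800524934) (nat_lit 0) (nat_lit 9283315968) (nat_lit 57) (nat_lit 5) (nat_lit 59) (nat_lit 4) (nat_lit 57) (nat_lit 4) (nat_lit 475) (nat_lit 386) (nat_lit 339)) (XT.nd (nat_lit 78) (nat_lit 76) (nat_lit 0) (XT.lf (nat_lit 0) (nat_lit 513685644) (nat_lit 76) (nat_lit 5920046621) (nat_lit 152) (nat_lit 26484181731) (nat_lit 54) (nat_lit 5) (nat_lit 55) (nat_lit 5) (nat_lit 56) (nat_lit 4) (nat_lit 476) (nat_lit 386) (nat_lit 338)) (XT.lf (nat_lit 0) (nat_lit 1534238784) (nat_lit 76) (nat_lit 22368962332) (nat_lit 76) (nat_lit 10125911352) (nat_lit 53) (nat_lit 4) (nat_lit 54) (nat_lit 5) (nat_lit 54) (nat_lit 4) (nat_lit 477) (nat_lit 386) (nat_lit 337)))) (XT.nd (nat_lit 156) (nat_lit 228) (nat_lit 0) (XT.nd (nat_lit 78) (nat_lit 76) (nat_lit 0) (XT.lf (nat_lit 0) (nat_lit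 2299973992) (nat_lit 76) (nat_lit 4893024766) (nat_lit 152) (nat_lit 27992430239) (nat_lit 51) (nat_lit 5) (nat_lit 52) (nat_lit 5) (nat_lit 53) (nat_lit 4) (nat_lit 478) (nat_lit 386) (nat_lit 336)) (XT.lf (nat_lit 0) (nat_lit 2671472932) (nat_lit 76) (nat_lit 22856075089) (nat_lit 76) (nat_lit 10858232581) (nat_lit 50) (nat_lit 4) (nat_lit 51) (nat_lit 5) (nat_lit 51) (nat_lit 4) (nat_lit 479) (nat_lit 386) (nat_lit 335))) (XT.nd (nat_lit 78) (nat_lit 76) (nat_lit 0) (XT.lf (nat_lit 0) (nat_lit 2724540967) (nat_lit 76) (nat_lit 4553355779) (nat_lit 152) (nat_lit 30357664261) (nat_lit 48) (nat_lit 5) (nat_lit 49) (nat_lit 5) (nat_lit 50) (nat_lit 4) (nat_lit 480) (nat_lit 386) (nat_lit 334)) (XT.lf (nat_lit 0) (nat_lit 2283160100) (nat_lit 76) (nat_lit 24198185473) (nat_lit 76) (nat_lit 12451707599) (nat_lit 47) (nat_lit 4) (nat_lit 48) (nat_lit 5) (nat_lit 48) (nat_lit 4) (nat_lit 481) (nat_lit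 386) (nat_lit 333))))))))
noncomputable def xc25 : XT := (XT.nd (nat_lit 58734) (nat_lit 0) (nat_lit 4484) (XT.nd (nat_lit 1014) (nat_lit 456) (nat_lit 0) (XT.nd (nat_lit 468) (nat_lit 684) (nat_lit 0) (XT.nd (nat_lit 234) (nat_lit 304) (nat_lit 0) (XT.nd (nat_lit 78) (nat_lit 152) (nat_lit 0) (XT.lf (nat_lit 0) (nat_lit 1444648678) (nat_lit 76) (nat_lit 5075890960) (nat_lit 152) (nat_lit 33764202651) (nat_lit 45) (nat_lit 5) (nat_lit 46) (nat_lit 5) (nat_lit 47) (nat_lit 4) (nat_lit 482) (nat_lit 386) (nat_lit 332)) (XT.nd (nat_lit 78) (nat_lit 152) (nat_lit 0) (XT.lf (nat_lit 0) (nat_lit 26586136499) (nat_lit 152) (nat_lit 6700898) (nat_lit 0) (nat_lit 15095412466) (nat_lit 45) (nat_lit 5) (nat_lit 47) (nat_lit 4) (nat_lit 45) (nat_lit 4) (nat_lit 483) (nat_lit 386) (nat_lit 331)) (XT.lf (nat_lit 0) (nat_lit 4737348581) (nat_lit 152) (nat_lit 1914034906) (nat_lit 76) (nat_lit 36499295531) (nat_lit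 43) (nat_lit 5) (nat_lit 45) (nat_lit 5) (nat_lit 44) (nat_lit 4) (nat_lit 484) (nat_lit 386) (nat_lit 330)))) (XT.nd (nat_lit 78) (nat_lit 228) (nat_lit 0) (XT.lf (nat_lit 0) (nat_lit 25670856912) (nat_lit 152) (nat_lit 4559704949) (nat_lit 0) (nat_lit 14438749979) (nat_lit 42) (nat_lit 5) (nat_lit 44) (nat_lit 4) (nat_lit 42) (nat_lit 4) (nat_lit 485) (nat_lit 386) (nat_lit 329)) (XT.nd (nat_lit 78) (nat_lit 76) (nat_lit 0) (XT.lf (nat_lit 0) (nat_lit 1705485529) (nat_lit 152) (nat_lit 7805308907) (nat_lit 76) (nat_lit 36742320356) (nat_lit 40) (nat_lit 5) (nat_lit 42) (nat_lit 5) (nat_lit 41) (nat_lit 4) (nat_lit 486) (nat_lit 386) (nat_lit 328)) (XT.lf (nat_lit 0) (nat_lit 23459384324) (nat_lit 152) (nat_lit 11951407140) (nat_lit 0) (nat_lit 12487443170) (nat_lit 39) (nat_lit 5) (nat_lit 41) (nat_lit 4) (nat_lit 39) (nat_lit 4) (nat_lit 487) (nat_lit 386) (nat_lit 327))))) (XT.nd (nat_lit 234)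 (nat_lit 380) (nat_lit 0) (XT.nd (nat_lit 78) (nat_lit 228) (nat_lit 0) (XT.lf (nat_lit 0) (nat_lit 32747897358) (nat_lit 76) (nat_lit 13934662838) (nat_lit 76) (nat_lit 2931603000) (nat_lit 38) (nat_lit 4) (nat_lit 39) (nat_lit 5) (nat_lit 39) (nat_lit 4) (nat_lit 488) (nat_lit 386) (nat_lit 326)) (XT.nd (nat_lit 78) (nat_lit 76) (nat_lit 0) (XT.lf (nat_lit 0) (nat_lit 19646793686) (nat_lit 152) (nat_lit 22816612597) (nat_lit 0) (nat_lit 8935437687) (nat_lit 36) (nat_lit 5) (nat_lit 38) (nat_lit 4) (nat_lit 36) (nat_lit 4) (nat_lit 489) (nat_lit 386) (nat_lit 325)) (XT.lf (nat_lit 0) (nat_lit 23461344996) (nat_lit 76) (nat_lit 20268111673) (nat_lit 76) (nat_lit 9529352214) (nat_lit 35) (nat_lit 4) (nat_lit 36) (nat_lit 5) (nat_lit 36) (nat_lit 4) (nat_lit 490) (nat_lit 386) (nat_lit 324)))) (XT.nd (nat_lit 156) (nat_lit 152) (nat_lit 0) (XT.nd (nat_lit 78) (nat_lit 76) (nat_lit 0) (XT.lf (nat_lit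 0) (nat_lit 13868241614) (nat_lit 152) (nat_lit 37912632415) (nat_lit 0) (nat_lit 3416923176) (nat_lit 33) (nat_lit 5) (nat_lit 35) (nat_lit 4) (nat_lit 33) (nat_lit 4) (nat_lit 491) (nat_lit 386) (nat_lit 323)) (XT.lf (nat_lit 0) (nat_lit 9802942398) (nat_lit 76) (nat_lit 28944080373) (nat_lit 76) (nat_lit 18468630143) (nat_lit 32) (nat_lit 4) (nat_lit 33) (nat_lit 5) (nat_lit 33) (nat_lit 4) (nat_lit 492) (nat_lit 386) (nat_lit 322))) (XT.nd (nat_lit 78) (nat_lit 0) (nat_lit 0) (XT.lf (nat_lit 0) (nat_lit 1138247960) (nat_lit 76) (nat_lit 4594107137) (nat_lit 152) (nat_lit 53591299336) (nat_lit 30) (nat_lit 5) (nat_lit 31) (nat_lit 5) (nat_lit 32) (nat_lit 4) (nat_lit 493) (nat_lit 386) (nat_lit 321)) (XT.lf (nat_lit 0) (nat_lit 31361388655) (nat_lit 152) (nat_lit 9004698375) (nat_lit 0) (nat_lit 21147484640) (nat_lit 30) (nat_lit 5) (nat_lit 32) (nat_lit 4) (nat_lit 30) (nat_lit 4) (nat_lit 494)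 (nat_lit 386) (nat_lit 320)))))) (XT.nd (nat_lit 57174) (nat_lit 0) (nat_lit 11552) (XT.nd (nat_lit 234) (nat_lit 152) (nat_lit 0) (XT.nd (nat_lit 78) (nat_lit 228) (nat_lit 0) (XT.lf (nat_lit 0) (nat_lit 43244944608) (nat_lit 76) (nat_lit 15395562050) (nat_lit 76) (nat_lit 5161419250) (nat_lit 29) (nat_lit 4) (nat_lit 30) (nat_lit 5) (nat_lit 30) (nat_lit 4) (nat_lit 495) (nat_lit 386) (nat_lit 319)) (XT.nd (nat_lit 78) (nat_lit 76) (nat_lit 0) (XT.lf (nat_lit 0) (nat_lit 21089541564) (nat_lit 152) (nat_lit 33961651236) (nat_lit 0) (nat_lit 11134766967) (nat_lit 27) (nat_lit 5) (nat_lit 29) (nat_lit 4) (nat_lit 27) (nat_lit 4) (nat_lit 496) (nat_lit 386) (nat_lit 318)) (XT.lf (nat_lit 0) (nat_lit 19379403217) (nat_lit 76) (nat_lit 29633430172) (nat_lit 76) (nat_lit 19660833075) (nat_lit 26) (nat_lit 4) (nat_lit 27) (nat_lit 5) (nat_lit 27) (nat_lit 4) (nat_lit 497) (nat_lit 386) (nat_lit 317))))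 (XT.nd (nat_lit 78) (nat_lit 0) (nat_lit 0) (XT.lf (nat_lit 0) (nat_lit 4664613849) (nat_lit 76) (nat_lit 2554196374) (nat_lit 152) (nat_lit 64055622842) (nat_lit 24) (nat_lit 5) (nat_lit 25) (nat_lit 5) (nat_lit 26) (nat_lit 4) (nat_lit 498) (nat_lit 386) (nat_lit 316)) (XT.nd (nat_lit 56784) (nat_lit 0) (nat_lit 15124) (XT.lf (nat_lit 0) (nat_lit 35714416430) (nat_lit 152) (nat_lit 12264514699) (nat_lit 0) (nat_lit 26000109207) (nat_lit 24) (nat_lit 5) (nat_lit 26) (nat_lit 4) (nat_lit 24) (nat_lit 4) (nat_lit 499) (nat_lit 386) (nat_lit 315)) (XT.lf (nat_lit 0) (nat_lit 575924036) (nat_lit 456) (nat_lit 3051810599) (nat_lit 0) (nat_lit 575924036) (nat_lit 223) (nat_lit 5) (nat_lit 229) (nat_lit 4) (nat_lit 223) (nat_lit 4) (nat_lit 426) (nat_lit 387) (nat_lit 387))))) (XT.nd (nat_lit 234) (nat_lit 1976) (nat_lit 0) (XT.nd (nat_lit 78) (nat_lit 1216) (nat_lit 0) (XT.lf (nat_lit 0) (nat_lit 5991138178)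 (nat_lit 380) (nat_lit 2154353900) (nat_lit 380) (nat_lit 419126187) (nat_lit 218) (nat_lit 4) (nat_lit 223) (nat_lit 5) (nat_lit 223) (nat_lit 4) (nat_lit 427) (nat_lit 387) (nat_lit 386)) (XT.nd (nat_lit 78) (nat_lit 380) (nat_lit 0) (XT.lf (nat_lit 0) (nat_lit 1073746440) (nat_lit 380) (nat_lit 5472833188) (nat_lit 380) (nat_lit 2183682184) (nat_lit 207) (nat_lit 4) (nat_lit 212) (nat_lit 5) (nat_lit 212) (nat_lit 4) (nat_lit 428) (nat_lit 387) (nat_lit 385)) (XT.lf (nat_lit 0) (nat_lit 4785895901) (nat_lit 380) (nat_lit 4009720069) (nat_lit 0) (nat_lit 108991178) (nat_lit 202) (nat_lit 5) (nat_lit 207) (nat_lit 4) (nat_lit 202) (nat_lit 4) (nat_lit 429) (nat_lit 387) (nat_lit 384)))) (XT.nd (nat_lit 156) (nat_lit 912) (nat_lit 0) (XT.nd (nat_lit 78) (nat_lit 684) (nat_lit 0) (XT.lf (nat_lit 0) (nat_lit 2863054645) (nat_lit 380) (nat_lit 277812587) (nat_lit 76) (nat_lit 5946827126) (nat_lit 197)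 (nat_lit 5) (nat_lit 202) (nat_lit 5) (nat_lit 198) (nat_lit 4) (nat_lit 430) (nat_lit 387) (nat_lit 383)) (XT.lf (nat_lit 0) (nat_lit 778615351) (nat_lit 380) (nat_lit 5638285537) (nat_lit 76) (nat_lit 2862636219) (nat_lit 188) (nat_lit 5) (nat_lit 193) (nat_lit 5) (nat_lit 189) (nat_lit 4) (nat_lit 431) (nat_lit 387) (nat_lit 382))) (XT.nd (nat_lit 78) (nat_lit 608) (nat_lit 0) (XT.lf (nat_lit 0) (nat_lit 7670310340) (nat_lit 304) (nat_lit 277181418) (nat_lit 380) (nat_lit 1533312973) (nat_lit 184) (nat_lit 5) (nat_lit 188) (nat_lit 5) (nat_lit 189) (nat_lit 4) (nat_lit 432) (nat_lit 387) (nat_lit 381)) (XT.lf (nat_lit 0) (nat_lit 2135901529) (nat_lit 228) (nat_lit 3530582286) (nat_lit 304) (nat_lit 4024091761) (nat_lit 176) (nat_lit 5) (nat_lit 179) (nat_lit 5) (nat_lit 180) (nat_lit 4) (nat_lit 433) (nat_lit 387) (nat_lit 380))))))) (XT.nd (nat_lit 1014) (nat_lit 2964) (nat_lit 0) (XT.nd (nat_lit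 468) (nat_lit 1976) (nat_lit 0) (XT.nd (nat_lit 234) (nat_lit 988) (nat_lit 0) (XT.nd (nat_lit 78) (nat_lit 760) (nat_lit 0) (XT.lf (nat_lit 0) (nat_lit 3194065626) (nat_lit 380) (nat_lit 3674044311) (nat_lit 76) (nat_lit 3042109707) (nat_lit 171) (nat_lit 5) (nat_lit 176) (nat_lit 5) (nat_lit 172) (nat_lit 4) (nat_lit 434) (nat_lit 387) (nat_lit 379)) (XT.nd (nat_lit 78) (nat_lit 228) (nat_lit 0) (XT.lf (nat_lit 0) (nat_lit 322408344) (nat_lit 228) (nat_lit 186537701) (nat_lit 304) (nat_lit 9631468974) (nat_lit 164) (nat_lit 5) (nat_lit 167) (nat_lit 5) (nat_lit 168) (nat_lit 5) (nat_lit 435) (nat_lit 387) (nat_lit 378)) (XT.lf (nat_lit 0) (nat_lit 4453883992) (nat_lit 228) (nat_lit 3544332939) (nat_lit 304) (nat_lit 2380659459) (nat_lit 161) (nat_lit 5) (nat_lit 164) (nat_lit 5) (nat_lit 165) (nat_lit 4) (nat_lit 436) (nat_lit 387) (nat_lit 377)))) (XT.nd (nat_lit 78) (nat_lit 684) (nat_lit 0)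 (XT.lf (nat_lit 0) (nat_lit 5110791450) (nat_lit 304) (nat_lit 1930579776) (nat_lit 76) (nat_lit 3586979509) (nat_lit 157) (nat_lit 5) (nat_lit 161) (nat_lit 5) (nat_lit 158) (nat_lit 4) (nat_lit 437) (nat_lit 387) (nat_lit 376)) (XT.nd (nat_lit 78) (nat_lit 152) (nat_lit 0) (XT.lf (nat_lit 0) (nat_lit 2008565998) (nat_lit 304) (nat_lit 8670581704) (nat_lit 76) (nat_lit 209550647) (nat_lit 150) (nat_lit 5) (nat_lit 154) (nat_lit 5) (nat_lit 151) (nat_lit 4) (nat_lit 438) (nat_lit 387) (nat_lit 375)) (XT.lf (nat_lit 0) (nat_lit 6476451232) (nat_lit 152) (nat_lit 3369450477) (nat_lit 228) (nat_lit 1313056850) (nat_lit 148) (nat_lit 5) (nat_lit 150) (nat_lit 5) (nat_lit 151) (nat_lit 4) (nat_lit 439) (nat_lit 387) (nat_lit 374))))) (XT.nd (nat_lit 234) (nat_lit 1064) (nat_lit 0) (XT.nd (nat_lit 78) (nat_lit 608) (nat_lit 0) (XT.lf (nat_lit 0) (nat_lit 6508627528) (nat_lit 304) (nat_lit 609977339) (nat_lit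 76) (nat_lit 4322048206) (nat_lit 144) (nat_lit 5) (nat_lit 148) (nat_lit 5) (nat_lit 145) (nat_lit 4) (nat_lit 440) (nat_lit 387) (nat_lit 373)) (XT.nd (nat_lit 78) (nat_lit 152) (nat_lit 0) (XT.lf (nat_lit 0) (nat_lit 2947329861) (nat_lit 304) (nat_lit 8088944563) (nat_lit 76) (nat_lit 697512983) (nat_lit 138) (nat_lit 5) (nat_lit 142) (nat_lit 5) (nat_lit 139) (nat_lit 4) (nat_lit 441) (nat_lit 387) (nat_lit 372)) (XT.lf (nat_lit 0) (nat_lit 7990310951) (nat_lit 152) (nat_lit 3183783199) (nat_lit 228) (nat_lit 864359780) (nat_lit 136) (nat_lit 5) (nat_lit 138) (nat_lit 5) (nat_lit 139) (nat_lit 4) (nat_lit 442) (nat_lit 387) (nat_lit 371)))) (XT.nd (nat_lit 156) (nat_lit 380) (nat_lit 0) (XT.nd (nat_lit 78) (nat_lit 228) (nat_lit 0) (XT.lf (nat_lit 0) (nat_lit 64167991) (nat_lit 152) (nat_lit 7277500262) (nat_lit 228) (nat_lit 5013541139) (nat_lit 130) (nat_lit 5) (nat_lit 132) (nat_lit 5) (nat_lit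 133) (nat_lit 4) (nat_lit 443) (nat_lit 387) (nat_lit 370)) (XT.lf (nat_lit 0) (nat_lit 3263227456) (nat_lit 228) (nat_lit 8313847296) (nat_lit 76) (nat_lit 1107312698) (nat_lit 127) (nat_lit 5) (nat_lit 130) (nat_lit 5) (nat_lit 128) (nat_lit 4) (nat_lit 444) (nat_lit 387) (nat_lit 369))) (XT.nd (nat_lit 78) (nat_lit 228) (nat_lit 0) (XT.lf (nat_lit 0) (nat_lit 8753891715) (nat_lit 152) (nat_lit 3166207664) (nat_lit 228) (nat_lit 1106340311) (nat_lit 125) (nat_lit 5) (nat_lit 127) (nat_lit 5) (nat_lit 128) (nat_lit 4) (nat_lit 445) (nat_lit 387) (nat_lit 368)) (XT.lf (nat_lit 0) (nat_lit 7533331058) (nat_lit 228) (nat_lit 169026829) (nat_lit 76) (nat_lit 5679304196) (nat_lit 122) (nat_lit 5) (nat_lit 125) (nat_lit 5) (nat_lit 123) (nat_lit 4) (nat_lit 446) (nat_lit 387) (nat_lit 367)))))) (XT.nd (nat_lit 546) (nat_lit 1444) (nat_lit 0) (XT.nd (nat_lit 234) (nat_lit 760) (nat_lit 0) (XT.nd (nat_lit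 78) (nat_lit 380) (nat_lit 0) (XT.lf (nat_lit 0) (nat_lit 2866370111) (nat_lit 228) (nat_lit 9624980920) (nat_lit 76) (nat_lit 1259340196) (nat_lit 117) (nat_lit 5) (nat_lit 120) (nat_lit 5) (nat_lit 118) (nat_lit 4) (nat_lit 447) (nat_lit 387) (nat_lit 366)) (XT.nd (nat_lit 78) (nat_lit 228) (nat_lit 0) (XT.lf (nat_lit 0) (nat_lit 8486840622) (nat_lit 152) (nat_lit 3504453928) (nat_lit 228) (nat_lit 2142279396) (nat_lit 115) (nat_lit 5) (nat_lit 117) (nat_lit 5) (nat_lit 118) (nat_lit 4) (nat_lit 448) (nat_lit 387) (nat_lit 365)) (XT.lf (nat_lit 0) (nat_lit 6979382283) (nat_lit 228) (nat_lit 1606275372) (nat_lit 76) (nat_lit 5945521175) (nat_lit 112) (nat_lit 5) (nat_lit 115) (nat_lit 5) (nat_lit 113) (nat_lit 4) (nat_lit 449) (nat_lit 387) (nat_lit 364)))) (XT.nd (nat_lit 156) (nat_lit 304) (nat_lit 0) (XT.nd (nat_lit 78) (nat_lit 76) (nat_lit 0) (XT.lf (nat_lit 0) (nat_lit 1633453345) (nat_lit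 228) (nat_lit 12351114099) (nat_lit 76) (nat_lit 960035218) (nat_lit 107) (nat_lit 5) (nat_lit 110) (nat_lit 5) (nat_lit 108) (nat_lit 4) (nat_lit 450) (nat_lit 387) (nat_lit 363)) (XT.lf (nat_lit 0) (nat_lit 6857611493) (nat_lit 76) (nat_lit 4403434637) (nat_lit 152) (nat_lit 4111232561) (nat_lit 106) (nat_lit 5) (nat_lit 107) (nat_lit 5) (nat_lit 108) (nat_lit 4) (nat_lit 451) (nat_lit 387) (nat_lit 362))) (XT.nd (nat_lit 78) (nat_lit 76) (nat_lit 0) (XT.lf (nat_lit 0) (nat_lit 5537147446) (nat_lit 228) (nat_lit 4605837120) (nat_lit 76) (nat_lit 5673853429) (nat_lit 103) (nat_lit 5) (nat_lit 106) (nat_lit 5) (nat_lit 104) (nat_lit 4) (nat_lit 452) (nat_lit 387) (nat_lit 361)) (XT.lf (nat_lit 0) (nat_lit 15676187041) (nat_lit 152) (nat_lit 598597444) (nat_lit 0) (nat_lit 4823374) (nat_lit 102) (nat_lit 5) (nat_lit 104) (nat_lit 4) (nat_lit 102) (nat_lit 4) (nat_lit 453) (nat_lit 387) (nat_lit 360)))))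 (XT.nd (nat_lit 234) (nat_lit 836) (nat_lit 0) (XT.nd (nat_lit 78) (nat_lit 304) (nat_lit 0) (XT.lf (nat_lit 0) (nat_lit 3468472173) (nat_lit 76) (nat_lit 6094505082) (nat_lit 152) (nat_lit 7194000670) (nat_lit 98) (nat_lit 5) (nat_lit 99) (nat_lit 5) (nat_lit 100) (nat_lit 4) (nat_lit 454) (nat_lit 387) (nat_lit 359)) (XT.nd (nat_lit 78) (nat_lit 76) (nat_lit 0) (XT.lf (nat_lit 0) (nat_lit 3022219941) (nat_lit 228) (nat_lit 9597300570) (nat_lit 76) (nat_lit 4634274330) (nat_lit 95) (nat_lit 5) (nat_lit 98) (nat_lit 5) (nat_lit 96) (nat_lit 4) (nat_lit 455) (nat_lit 387) (nat_lit 358)) (XT.lf (nat_lit 0) (nat_lit 11902195914) (nat_lit 76) (nat_lit 1829339476) (nat_lit 152) (nat_lit 4037849819) (nat_lit 94) (nat_lit 5) (nat_lit 95) (nat_lit 5) (nat_lit 96) (nat_lit 4) (nat_lit 456) (nat_lit 387) (nat_lit 357)))) (XT.nd (nat_lit 156) (nat_lit 380) (nat_lit 0) (XT.nd (nat_lit 78) (nat_lit 228) (nat_lit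 0) (XT.lf (nat_lit 0) (nat_lit 6704034446) (nat_lit 228) (nat_lit 2120699906) (nat_lit 76) (nat_lit 9479043609) (nat_lit 91) (nat_lit 5) (nat_lit 94) (nat_lit 5) (nat_lit 92) (nat_lit 4) (nat_lit 457) (nat_lit 387) (nat_lit 356)) (XT.lf (nat_lit 0) (nat_lit 1748912130) (nat_lit 152) (nat_lit 16293881960) (nat_lit 152) (nat_lit 816599464) (nat_lit 88) (nat_lit 4) (nat_lit 90) (nat_lit 5) (nat_lit 90) (nat_lit 4) (nat_lit 458) (nat_lit 387) (nat_lit 355))) (XT.nd (nat_lit 78) (nat_lit 228) (nat_lit 0) (XT.lf (nat_lit 0) (nat_lit 5644141259) (nat_lit 76) (nat_lit 4856932979) (nat_lit 152) (nat_lit 8932675949) (nat_lit 86) (nat_lit 5) (nat_lit 87) (nat_lit 5) (nat_lit 88) (nat_lit 4) (nat_lit 459) (nat_lit 387) (nat_lit 354)) (XT.lf (nat_lit 0) (nat_lit 2452498903) (nat_lit 228) (nat_lit 10418975413) (nat_lit 76) (nat_lit 7159431790) (nat_lit 83) (nat_lit 5) (nat_lit 86) (nat_lit 5) (nat_lit 84) (nat_lit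 4) (nat_lit 460) (nat_lit 387) (nat_lit 353))))))))
noncomputable def xc26 : XT := (XT.nd (nat_lit 2028) (nat_lit 1292) (nat_lit 0) (XT.nd (nat_lit 1014) (nat_lit 1444) (nat_lit 0) (XT.nd (nat_lit 468) (nat_lit 912) (nat_lit 0) (XT.nd (nat_lit 234) (nat_lit 456) (nat_lit 0) (XT.nd (nat_lit 78) (nat_lit 304) (nat_lit 0) (XT.lf (nat_lit 0) (nat_lit 13614200848) (nat_lit 76) (nat_lit 762220228) (nat_lit 152) (nat_lit 6274219608) (nat_lit 82) (nat_lit 5) (nat_lit 83) (nat_lit 5) (nat_lit 84) (nat_lit 4) (nat_lit 461) (nat_lit 387) (nat_lit 352)) (XT.nd (nat_lit 78) (nat_lit 76) (nat_lit 0) (XT.lf (nat_lit 0) (nat_lit 5714186693) (nat_lit 228) (nat_lit 3676036782) (nat_lit 76) (nat_lit 11902680201) (nat_lit 79) (nat_lit 5) (nat_lit 82) (nat_lit 5) (nat_lit 80) (nat_lit 4) (nat_lit 462) (nat_lit 387) (nat_lit 351)) (XT.lf (nat_lit 0) (nat_lit 18332151822) (nat_lit 152) (nat_lit 274608311) (nat_lit 0)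 (nat_lit 3353859994) (nat_lit 78) (nat_lit 5) (nat_lit 80) (nat_lit 4) (nat_lit 78) (nat_lit 4) (nat_lit 463) (nat_lit 387) (nat_lit 350)))) (XT.nd (nat_lit 78) (nat_lit 228) (nat_lit 0) (XT.lf (nat_lit 0) (nat_lit 3148453428) (nat_lit 76) (nat_lit 5850123082) (nat_lit 152) (nat_lit 13652974662) (nat_lit 75) (nat_lit 5) (nat_lit 76) (nat_lit 5) (nat_lit 77) (nat_lit 4) (nat_lit 464) (nat_lit 387) (nat_lit 349)) (XT.nd (nat_lit 78) (nat_lit 152) (nat_lit 0) (XT.lf (nat_lit 0) (nat_lit 6604361044) (nat_lit 76) (nat_lit 15786705870) (nat_lit 76) (nat_lit 978610824) (nat_lit 74) (nat_lit 4) (nat_lit 75) (nat_lit 5) (nat_lit 75) (nat_lit 4) (nat_lit 465) (nat_lit 387) (nat_lit 348)) (XT.lf (nat_lit 0) (nat_lit 10013907429) (nat_lit 76) (nat_lit 2274570162) (nat_lit 152) (nat_lit 11825690266) (nat_lit 72) (nat_lit 5) (nat_lit 73) (nat_lit 5) (nat_lit 74) (nat_lit 4) (nat_lit 466) (nat_lit 387) (nat_lit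 347))))) (XT.nd (nat_lit 234) (nat_lit 532) (nat_lit 0) (XT.nd (nat_lit 78) (nat_lit 228) (nat_lit 0) (XT.lf (nat_lit 0) (nat_lit 1543093765) (nat_lit 152) (nat_lit 11478610014) (nat_lit 76) (nat_lit 11865549960) (nat_lit 70) (nat_lit 5) (nat_lit 72) (nat_lit 5) (nat_lit 71) (nat_lit 4) (nat_lit 467) (nat_lit 387) (nat_lit 346)) (XT.nd (nat_lit 78) (nat_lit 152) (nat_lit 0) (XT.lf (nat_lit 0) (nat_lit 15528842516) (nat_lit 152) (nat_lit 8923207959) (nat_lit 0) (nat_lit 1237638543) (nat_lit 69) (nat_lit 5) (nat_lit 71) (nat_lit 4) (nat_lit 69) (nat_lit 4) (nat_lit 468) (nat_lit 387) (nat_lit 345)) (XT.lf (nat_lit 0) (nat_lit 3907673285) (nat_lit 152) (nat_lit 6459274206) (nat_lit 76) (nat_lit 16155300992) (nat_lit 67) (nat_lit 5) (nat_lit 69) (nat_lit 5) (nat_lit 68) (nat_lit 4) (nat_lit 469) (nat_lit 387) (nat_lit 344)))) (XT.nd (nat_lit 156) (nat_lit 304) (nat_lit 0) (XT.nd (nat_lit 78) (nat_lit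 152) (nat_lit 0) (XT.lf (nat_lit 0) (nat_lit 18687930217) (nat_lit 152) (nat_lit 4076737664) (nat_lit 0) (nat_lit 4622196950) (nat_lit 66) (nat_lit 5) (nat_lit 68) (nat_lit 4) (nat_lit 66) (nat_lit 4) (nat_lit 470) (nat_lit 387) (nat_lit 343)) (XT.lf (nat_lit 0) (nat_lit 6083705972) (nat_lit 152) (nat_lit 1804441015) (nat_lit 76) (nat_lit 20396262749) (nat_lit 64) (nat_lit 5) (nat_lit 66) (nat_lit 5) (nat_lit 65) (nat_lit 4) (nat_lit 471) (nat_lit 387) (nat_lit 342))) (XT.nd (nat_lit 78) (nat_lit 152) (nat_lit 0) (XT.lf (nat_lit 0) (nat_lit 349144224) (nat_lit 76) (nat_lit 21345541894) (nat_lit 76) (nat_lit 7521488987) (nat_lit 62) (nat_lit 4) (nat_lit 63) (nat_lit 5) (nat_lit 63) (nat_lit 4) (nat_lit 472) (nat_lit 387) (nat_lit 341)) (XT.lf (nat_lit 0) (nat_lit 2400777941) (nat_lit 76) (nat_lit 5630197517) (nat_lit 152) (nat_lit 22152479435) (nat_lit 60) (nat_lit 5) (nat_lit 61) (nat_lit 5) (nat_lit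 62) (nat_lit 4) (nat_lit 473) (nat_lit 387) (nat_lit 340)))))) (XT.nd (nat_lit 468) (nat_lit 760) (nat_lit 0) (XT.nd (nat_lit 234) (nat_lit 380) (nat_lit 0) (XT.nd (nat_lit 78) (nat_lit 228) (nat_lit 0) (XT.lf (nat_lit 0) (nat_lit 4270863742) (nat_lit 76) (nat_lit 20243051666) (nat_lit 76) (nat_lit 6673697356) (nat_lit 59) (nat_lit 4) (nat_lit 60) (nat_lit 5) (nat_lit 60) (nat_lit 4) (nat_lit 474) (nat_lit 387) (nat_lit 339)) (XT.nd (nat_lit 78) (nat_lit 76) (nat_lit 0) (XT.lf (nat_lit 0) (nat_lit 5970020077) (nat_lit 76) (nat_lit 3689145193) (nat_lit 152) (nat_lit 22572039406) (nat_lit 57) (nat_lit 5) (nat_lit 58) (nat_lit 5) (nat_lit 59) (nat_lit 4) (nat_lit 475) (nat_lit 387) (nat_lit 338)) (XT.lf (nat_lit 0) (nat_lit 7424087482) (nat_lit 76) (nat_lit 19597396519) (nat_lit 76) (nat_lit 6292985231) (nat_lit 56) (nat_lit 4) (nat_lit 57) (nat_lit 5) (nat_lit 57) (nat_lit 4) (nat_lit 476) (nat_lit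 387) (nat_lit 337)))) (XT.nd (nat_lit 78) (nat_lit 228) (nat_lit 0) (XT.lf (nat_lit 0) (nat_lit 8664935130) (nat_lit 76) (nat_lit 2187218467) (nat_lit 152) (nat_lit 23588742910) (nat_lit 54) (nat_lit 5) (nat_lit 55) (nat_lit 5) (nat_lit 56) (nat_lit 4) (nat_lit 477) (nat_lit 387) (nat_lit 336)) (XT.nd (nat_lit 78) (nat_lit 152) (nat_lit 0) (XT.lf (nat_lit 0) (nat_lit 9585370675) (nat_lit 76) (nat_lit 19528181025) (nat_lit 76) (nat_lit 6496550059) (nat_lit 53) (nat_lit 4) (nat_lit 54) (nat_lit 5) (nat_lit 54) (nat_lit 4) (nat_lit 478) (nat_lit 387) (nat_lit 335)) (XT.lf (nat_lit 0) (nat_lit 10239205776) (nat_lit 76) (nat_lit 1250516425) (nat_lit 152) (nat_lit 25336856224) (nat_lit 51) (nat_lit 5) (nat_lit 52) (nat_lit 5) (nat_lit 53) (nat_lit 4) (nat_lit 479) (nat_lit 387) (nat_lit 334))))) (XT.nd (nat_lit 234) (nat_lit 456) (nat_lit 0) (XT.nd (nat_lit 78) (nat_lit 228) (nat_lit 0) (XT.lf (nat_lit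 0) (nat_lit 10483440997) (nat_lit 76) (nat_lit 20179474098) (nat_lit 76) (nat_lit 7426375497) (nat_lit 50) (nat_lit 4) (nat_lit 51) (nat_lit 5) (nat_lit 51) (nat_lit 4) (nat_lit 480) (nat_lit 387) (nat_lit 333)) (XT.nd (nat_lit 78) (nat_lit 76) (nat_lit 0) (XT.lf (nat_lit 0) (nat_lit 10394410370) (nat_lit 76) (nat_lit 1031424582) (nat_lit 152) (nat_lit 27977974160) (nat_lit 48) (nat_lit 5) (nat_lit 49) (nat_lit 5) (nat_lit 50) (nat_lit 4) (nat_lit 481) (nat_lit 387) (nat_lit 332)) (XT.lf (nat_lit 0) (nat_lit 9790275486) (nat_lit 76) (nat_lit 21724380907) (nat_lit 76) (nat_lit 9253763898) (nat_lit 47) (nat_lit 4) (nat_lit 48) (nat_lit 5) (nat_lit 48) (nat_lit 4) (nat_lit 482) (nat_lit 387) (nat_lit 331)))) (XT.nd (nat_lit 156) (nat_lit 228) (nat_lit 0) (XT.nd (nat_lit 78) (nat_lit 76) (nat_lit 0) (XT.lf (nat_lit 0) (nat_lit 8770343875) (nat_lit 76) (nat_lit 1713544416) (nat_lit 152) (nat_lit 31705963849)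 (nat_lit 45) (nat_lit 5) (nat_lit 46) (nat_lit 5) (nat_lit 47) (nat_lit 4) (nat_lit 483) (nat_lit 387) (nat_lit 330)) (XT.lf (nat_lit 0) (nat_lit 7110602732) (nat_lit 76) (nat_lit 24370413228) (nat_lit 76) (nat_lit 12184671966) (nat_lit 44) (nat_lit 4) (nat_lit 45) (nat_lit 5) (nat_lit 45) (nat_lit 4) (nat_lit 484) (nat_lit 387) (nat_lit 329))) (XT.nd (nat_lit 78) (nat_lit 76) (nat_lit 0) (XT.lf (nat_lit 0) (nat_lit 4933633209) (nat_lit 76) (nat_lit 3517486099) (nat_lit 152) (nat_lit 36752779858) (nat_lit 42) (nat_lit 5) (nat_lit 43) (nat_lit 5) (nat_lit 44) (nat_lit 4) (nat_lit 485) (nat_lit 387) (nat_lit 328)) (XT.lf (nat_lit 0) (nat_lit 1969557811) (nat_lit 76) (nat_lit 28365796900) (nat_lit 76) (nat_lit 16465987686) (nat_lit 41) (nat_lit 4) (nat_lit 42) (nat_lit 5) (nat_lit 42) (nat_lit 4) (nat_lit 486) (nat_lit 387) (nat_lit 327))))))) (XT.nd (nat_lit 57564) (nat_lit 0) (nat_lit 10108) (XT.nd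 (nat_lit 468) (nat_lit 684) (nat_lit 0) (XT.nd (nat_lit 234) (nat_lit 304) (nat_lit 0) (XT.nd (nat_lit 78) (nat_lit 228) (nat_lit 0) (XT.lf (nat_lit 0) (nat_lit 5087749224) (nat_lit 152) (nat_lit 1603730532) (nat_lit 76) (nat_lit 41775375190) (nat_lit 40) (nat_lit 5) (nat_lit 42) (nat_lit 5) (nat_lit 41) (nat_lit 4) (nat_lit 487) (nat_lit 387) (nat_lit 326)) (XT.nd (nat_lit 78) (nat_lit 152) (nat_lit 0) (XT.lf (nat_lit 0) (nat_lit 27864665307) (nat_lit 152) (nat_lit 6080809130) (nat_lit 0) (nat_lit 16250696953) (nat_lit 39) (nat_lit 5) (nat_lit 41) (nat_lit 4) (nat_lit 39) (nat_lit 4) (nat_lit 488) (nat_lit 387) (nat_lit 325)) (XT.lf (nat_lit 0) (nat_lit 151751516) (nat_lit 152) (nat_lit 11334138339) (nat_lit 76) (nat_lit 40514767936) (nat_lit 37) (nat_lit 5) (nat_lit 39) (nat_lit 5) (nat_lit 38) (nat_lit 4) (nat_lit 489) (nat_lit 387) (nat_lit 324)))) (XT.nd (nat_lit 78) (nat_lit 228) (nat_lit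 0) (XT.lf (nat_lit 0) (nat_lit 23736969496) (nat_lit 152) (nat_lit 17730806565) (nat_lit 0) (nat_lit 12407770072) (nat_lit 36) (nat_lit 5) (nat_lit 38) (nat_lit 4) (nat_lit 36) (nat_lit 4) (nat_lit 490) (nat_lit 387) (nat_lit 323)) (XT.nd (nat_lit 78) (nat_lit 152) (nat_lit 0) (XT.lf (nat_lit 0) (nat_lit 30682563617) (nat_lit 76) (nat_lit 18251348345) (nat_lit 76) (nat_lit 6897293176) (nat_lit 35) (nat_lit 4) (nat_lit 36) (nat_lit 5) (nat_lit 36) (nat_lit 4) (nat_lit 491) (nat_lit 387) (nat_lit 322)) (XT.lf (nat_lit 0) (nat_lit 17550010932) (nat_lit 152) (nat_lit 33814347316) (nat_lit 0) (nat_lit 6503673740) (nat_lit 33) (nat_lit 5) (nat_lit 35) (nat_lit 4) (nat_lit 33) (nat_lit 4) (nat_lit 492) (nat_lit 387) (nat_lit 321))))) (XT.nd (nat_lit 234) (nat_lit 456) (nat_lit 0) (XT.nd (nat_lit 78) (nat_lit 152) (nat_lit 0) (XT.lf (nat_lit 0) (nat_lit 16115191818) (nat_lit 76) (nat_lit 27471202212) (nat_lit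 76) (nat_lit 16402976773) (nat_lit 32) (nat_lit 4) (nat_lit 33) (nat_lit 5) (nat_lit 33) (nat_lit 4) (nat_lit 493) (nat_lit 387) (nat_lit 320)) (XT.nd (nat_lit 78) (nat_lit 0) (nat_lit 0) (XT.lf (nat_lit 0) (nat_lit 6907033038) (nat_lit 76) (nat_lit 1958043033) (nat_lit 152) (nat_lit 53339374148) (nat_lit 30) (nat_lit 5) (nat_lit 31) (nat_lit 5) (nat_lit 32) (nat_lit 4) (nat_lit 494) (nat_lit 387) (nat_lit 319)) (XT.lf (nat_lit 0) (nat_lit 35666268324) (nat_lit 152) (nat_lit 3959969401) (nat_lit 0) (nat_lit 24880904564) (nat_lit 30) (nat_lit 5) (nat_lit 32) (nat_lit 4) (nat_lit 30) (nat_lit 4) (nat_lit 495) (nat_lit 387) (nat_lit 318)))) (XT.nd (nat_lit 156) (nat_lit 228) (nat_lit 0) (XT.nd (nat_lit 78) (nat_lit 152) (nat_lit 0) (XT.lf (nat_lit 0) (nat_lit 50744643694) (nat_lit 76) (nat_lit 13485681089) (nat_lit 76) (nat_lit 2681960154) (nat_lit 29) (nat_lit 4) (nat_lit 30) (nat_lit 5) (nat_lit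 30) (nat_lit 4) (nat_lit 496) (nat_lit 387) (nat_lit 317)) (XT.lf (nat_lit 0) (nat_lit 24775928209) (nat_lit 152) (nat_lit 30370464093) (nat_lit 0) (nat_lit 14269904947) (nat_lit 27) (nat_lit 5) (nat_lit 29) (nat_lit 4) (nat_lit 27) (nat_lit 4) (nat_lit 497) (nat_lit 387) (nat_lit 316))) (XT.nd (nat_lit 78) (nat_lit 152) (nat_lit 0) (XT.lf (nat_lit 0) (nat_lit 25486027229) (nat_lit 76) (nat_lit 28533414641) (nat_lit 76) (nat_lit 18011225846) (nat_lit 26) (nat_lit 4) (nat_lit 27) (nat_lit 5) (nat_lit 27) (nat_lit 4) (nat_lit 498) (nat_lit 387) (nat_lit 315)) (XT.lf (nat_lit 0) (nat_lit 9938131350) (nat_lit 76) (nat_lit 148428201) (nat_lit 152) (nat_lit 64676388068) (nat_lit 24) (nat_lit 5) (nat_lit 25) (nat_lit 5) (nat_lit 26) (nat_lit 4) (nat_lit 499) (nat_lit 387) (nat_lit 314)))))) (XT.nd (nat_lit 546) (nat_lit 3040) (nat_lit 0) (XT.nd (nat_lit 234) (nat_lit 1976) (nat_lit 0) (XT.nd (nat_lit 78)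 (nat_lit 1368) (nat_lit 0) (XT.lf (nat_lit 0) (nat_lit 1827571358) (nat_lit 456) (nat_lit 1114537306) (nat_lit 456) (nat_lit 1114537306) (nat_lit 241) (nat_lit 4) (nat_lit 247) (nat_lit 5) (nat_lit 247) (nat_lit 4) (nat_lit 424) (nat_lit 388) (nat_lit 388)) (XT.nd (nat_lit 78) (nat_lit 912) (nat_lit 0) (XT.lf (nat_lit 0) (nat_lit 4439467805) (nat_lit 456) (nat_lit 1255850393) (nat_lit 0) (nat_lit 2562819034) (nat_lit 235) (nat_lit 5) (nat_lit 241) (nat_lit 4) (nat_lit 235) (nat_lit 4) (nat_lit 425) (nat_lit 388) (nat_lit 387)) (XT.lf (nat_lit 0) (nat_lit 2102489799) (nat_lit 380) (nat_lit 738112720) (nat_lit 456) (nat_lit 5570717085) (nat_lit 223) (nat_lit 5) (nat_lit 228) (nat_lit 5) (nat_lit 229) (nat_lit 4) (nat_lit 426) (nat_lit 388) (nat_lit 386)))) (XT.nd (nat_lit 156) (nat_lit 760) (nat_lit 0) (XT.nd (nat_lit 78) (nat_lit 760) (nat_lit 0) (XT.lf (nat_lit 0) (nat_lit 1094958417) (nat_lit 456)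 (nat_lit 2987049045) (nat_lit 76) (nat_lit 4490632033) (nat_lit 217) (nat_lit 5) (nat_lit 223) (nat_lit 5) (nat_lit 218) (nat_lit 4) (nat_lit 427) (nat_lit 388) (nat_lit 385)) (XT.lf (nat_lit 0) (nat_lit 453251058) (nat_lit 380) (nat_lit 7437943877) (nat_lit 380) (nat_lit 851810557) (nat_lit 207) (nat_lit 4) (nat_lit 212) (nat_lit 5) (nat_lit 212) (nat_lit 4) (nat_lit 428) (nat_lit 388) (nat_lit 384))) (XT.nd (nat_lit 78) (nat_lit 380) (nat_lit 0) (XT.lf (nat_lit 0) (nat_lit 4043271817) (nat_lit 304) (nat_lit 1909782958) (nat_lit 380) (nat_lit 2968077915) (nat_lit 202) (nat_lit 5) (nat_lit 206) (nat_lit 5) (nat_lit 207) (nat_lit 4) (nat_lit 429) (nat_lit 388) (nat_lit 383)) (XT.lf (nat_lit 0) (nat_lit 3835534853) (nat_lit 380) (nat_lit 1366704660) (nat_lit 76) (nat_lit 3906323505) (nat_lit 197) (nat_lit 5) (nat_lit 202) (nat_lit 5) (nat_lit 198) (nat_lit 4) (nat_lit 430) (nat_lit 388) (nat_lit 382)))))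 (XT.nd (nat_lit 234) (nat_lit 1444) (nat_lit 0) (XT.nd (nat_lit 78) (nat_lit 912) (nat_lit 0) (XT.lf (nat_lit 0) (nat_lit 1541567043) (nat_lit 380) (nat_lit 7001094959) (nat_lit 76) (nat_lit 762575690) (nat_lit 188) (nat_lit 5) (nat_lit 193) (nat_lit 5) (nat_lit 189) (nat_lit 4) (nat_lit 431) (nat_lit 388) (nat_lit 381)) (XT.nd (nat_lit 78) (nat_lit 608) (nat_lit 0) (XT.lf (nat_lit 0) (nat_lit 6088053565) (nat_lit 304) (nat_lit 2485101177) (nat_lit 380) (nat_lit 937472698) (nat_lit 184) (nat_lit 5) (nat_lit 188) (nat_lit 5) (nat_lit 189) (nat_lit 4) (nat_lit 432) (nat_lit 388) (nat_lit 380)) (XT.lf (nat_lit 0) (nat_lit 248042954) (nat_lit 228) (nat_lit 5825648734) (nat_lit 304) (nat_lit 3651848132) (nat_lit 176) (nat_lit 5) (nat_lit 179) (nat_lit 5) (nat_lit 180) (nat_lit 4) (nat_lit 433) (nat_lit 388) (nat_lit 379)))) (XT.nd (nat_lit 156) (nat_lit 760) (nat_lit 0) (XT.nd (nat_lit 78) (nat_lit 304)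 (nat_lit 0) (XT.lf (nat_lit 0) (nat_lit 3396557011) (nat_lit 380) (nat_lit 5847759100) (nat_lit 76) (nat_lit 705638042) (nat_lit 171) (nat_lit 5) (nat_lit 176) (nat_lit 5) (nat_lit 172) (nat_lit 4) (nat_lit 434) (nat_lit 388) (nat_lit 378)) (XT.lf (nat_lit 0) (nat_lit 525303900) (nat_lit 304) (nat_lit 2135102181) (nat_lit 76) (nat_lit 7523995941) (nat_lit 167) (nat_lit 5) (nat_lit 171) (nat_lit 5) (nat_lit 168) (nat_lit 5) (nat_lit 435) (nat_lit 388) (nat_lit 377))) (XT.nd (nat_lit 78) (nat_lit 304) (nat_lit 0) (XT.lf (nat_lit 0) (nat_lit 1689563402) (nat_lit 228) (nat_lit 6138072854) (nat_lit 304) (nat_lit 2600837897) (nat_lit 161) (nat_lit 5) (nat_lit 164) (nat_lit 5) (nat_lit 165) (nat_lit 4) (nat_lit 436) (nat_lit 388) (nat_lit 376)) (XT.lf (nat_lit 0) (nat_lit 4726731423) (nat_lit 304) (nat_lit 5016588881) (nat_lit 76) (nat_lit 939739442) (nat_lit 157) (nat_lit 5) (nat_lit 161) (nat_lit 5)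 (nat_lit 158) (nat_lit 4) (nat_lit 437) (nat_lit 388) (nat_lit 375))))))))
noncomputable def xc27 : XT := (XT.nd (nat_lit 2028) (nat_lit 3116) (nat_lit 0) (XT.nd (nat_lit 1014) (nat_lit 2432) (nat_lit 0) (XT.nd (nat_lit 468) (nat_lit 1672) (nat_lit 0) (XT.nd (nat_lit 234) (nat_lit 912) (nat_lit 0) (XT.nd (nat_lit 78) (nat_lit 684) (nat_lit 0) (XT.lf (nat_lit 0) (nat_lit 1411607342) (nat_lit 304) (nat_lit 1211318583) (nat_lit 76) (nat_lit 8325612741) (nat_lit 153) (nat_lit 5) (nat_lit 157) (nat_lit 5) (nat_lit 154) (nat_lit 5) (nat_lit 438) (nat_lit 388) (nat_lit 374)) (XT.nd (nat_lit 78) (nat_lit 304) (nat_lit 0) (XT.lf (nat_lit 0) (nat_lit 2728079034) (nat_lit 152) (nat_lit 6337704223) (nat_lit 228) (nat_lit 2158512536) (nat_lit 148) (nat_lit 5) (nat_lit 150) (nat_lit 5) (nat_lit 151) (nat_lit 4) (nat_lit 439) (nat_lit 388) (nat_lit 373)) (XT.lf (nat_lit 0) (nat_lit 5503340526) (nat_lit 304) (nat_lit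 4718806570) (nat_lit 76) (nat_lit 1289378860) (nat_lit 144) (nat_lit 5) (nat_lit 148) (nat_lit 5) (nat_lit 145) (nat_lit 4) (nat_lit 440) (nat_lit 388) (nat_lit 372)))) (XT.nd (nat_lit 78) (nat_lit 684) (nat_lit 0) (XT.lf (nat_lit 0) (nat_lit 1701919492) (nat_lit 228) (nat_lit 857809875) (nat_lit 76) (nat_lit 9250950586) (nat_lit 141) (nat_lit 5) (nat_lit 144) (nat_lit 5) (nat_lit 142) (nat_lit 5) (nat_lit 441) (nat_lit 388) (nat_lit 371)) (XT.nd (nat_lit 78) (nat_lit 304) (nat_lit 0) (XT.lf (nat_lit 0) (nat_lit 3139944218) (nat_lit 152) (nat_lit 6604034273) (nat_lit 228) (nat_lit 2376910871) (nat_lit 136) (nat_lit 5) (nat_lit 138) (nat_lit 5) (nat_lit 139) (nat_lit 4) (nat_lit 442) (nat_lit 388) (nat_lit 370)) (XT.lf (nat_lit 0) (nat_lit 5671062181) (nat_lit 304) (nat_lit 5190332465) (nat_lit 76) (nat_lit 1582315071) (nat_lit 132) (nat_lit 5) (nat_lit 136) (nat_lit 5) (nat_lit 133) (nat_lit 4)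 (nat_lit 443) (nat_lit 388) (nat_lit 369))))) (XT.nd (nat_lit 234) (nat_lit 912) (nat_lit 0) (XT.nd (nat_lit 78) (nat_lit 532) (nat_lit 0) (XT.lf (nat_lit 0) (nat_lit 1331106895) (nat_lit 228) (nat_lit 1317187550) (nat_lit 76) (nat_lit 10131322316) (nat_lit 129) (nat_lit 5) (nat_lit 132) (nat_lit 5) (nat_lit 130) (nat_lit 5) (nat_lit 444) (nat_lit 388) (nat_lit 368)) (XT.nd (nat_lit 78) (nat_lit 228) (nat_lit 0) (XT.lf (nat_lit 0) (nat_lit 2671228554) (nat_lit 152) (nat_lit 7119251541) (nat_lit 228) (nat_lit 3337115276) (nat_lit 125) (nat_lit 5) (nat_lit 127) (nat_lit 5) (nat_lit 128) (nat_lit 4) (nat_lit 445) (nat_lit 388) (nat_lit 367)) (XT.lf (nat_lit 0) (nat_lit 5145968090) (nat_lit 228) (nat_lit 6701394309) (nat_lit 76) (nat_lit 1642103526) (nat_lit 122) (nat_lit 5) (nat_lit 125) (nat_lit 5) (nat_lit 123) (nat_lit 4) (nat_lit 446) (nat_lit 388) (nat_lit 366)))) (XT.nd (nat_lit 156) (nat_lit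 380) (nat_lit 0) (XT.nd (nat_lit 78) (nat_lit 304) (nat_lit 0) (XT.lf (nat_lit 0) (nat_lit 204325598) (nat_lit 228) (nat_lit 2869089895) (nat_lit 76) (nat_lit 10792267355) (nat_lit 119) (nat_lit 5) (nat_lit 122) (nat_lit 5) (nat_lit 120) (nat_lit 5) (nat_lit 447) (nat_lit 388) (nat_lit 365)) (XT.lf (nat_lit 0) (nat_lit 1027098570) (nat_lit 152) (nat_lit 8076005890) (nat_lit 228) (nat_lit 5152246620) (nat_lit 115) (nat_lit 5) (nat_lit 117) (nat_lit 5) (nat_lit 118) (nat_lit 4) (nat_lit 448) (nat_lit 388) (nat_lit 364))) (XT.nd (nat_lit 78) (nat_lit 152) (nat_lit 0) (XT.lf (nat_lit 0) (nat_lit 3812205806) (nat_lit 228) (nat_lit 9567722804) (nat_lit 76) (nat_lit 1280374757) (nat_lit 112) (nat_lit 5) (nat_lit 115) (nat_lit 5) (nat_lit 113) (nat_lit 4) (nat_lit 449) (nat_lit 388) (nat_lit 363)) (XT.lf (nat_lit 0) (nat_lit 9220745016) (nat_lit 152) (nat_lit 4016985034) (nat_lit 228) (nat_lit 1842662750)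 (nat_lit 110) (nat_lit 5) (nat_lit 112) (nat_lit 5) (nat_lit 113) (nat_lit 4) (nat_lit 450) (nat_lit 388) (nat_lit 362)))))) (XT.nd (nat_lit 468) (nat_lit 1216) (nat_lit 0) (XT.nd (nat_lit 234) (nat_lit 608) (nat_lit 0) (XT.nd (nat_lit 78) (nat_lit 380) (nat_lit 0) (XT.lf (nat_lit 0) (nat_lit 7565547247) (nat_lit 228) (nat_lit 2098976288) (nat_lit 76) (nat_lit 5851737806) (nat_lit 107) (nat_lit 5) (nat_lit 110) (nat_lit 5) (nat_lit 108) (nat_lit 4) (nat_lit 451) (nat_lit 388) (nat_lit 361)) (XT.nd (nat_lit 78) (nat_lit 76) (nat_lit 0) (XT.lf (nat_lit 0) (nat_lit 1517202635) (nat_lit 228) (nat_lit 14163916596) (nat_lit 76) (nat_lit 288471062) (nat_lit 103) (nat_lit 5) (nat_lit 106) (nat_lit 5) (nat_lit 104) (nat_lit 4) (nat_lit 452) (nat_lit 388) (nat_lit 360)) (XT.lf (nat_lit 0) (nat_lit 5763119956) (nat_lit 76) (nat_lit 5708878137) (nat_lit 152) (nat_lit 4965890209) (nat_lit 102) (nat_lit 5) (nat_lit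 103) (nat_lit 5) (nat_lit 104) (nat_lit 4) (nat_lit 453) (nat_lit 388) (nat_lit 359)))) (XT.nd (nat_lit 78) (nat_lit 380) (nat_lit 0) (XT.lf (nat_lit 0) (nat_lit 5008268060) (nat_lit 228) (nat_lit 7107821672) (nat_lit 76) (nat_lit 4808748455) (nat_lit 99) (nat_lit 5) (nat_lit 102) (nat_lit 5) (nat_lit 100) (nat_lit 4) (nat_lit 454) (nat_lit 388) (nat_lit 358)) (XT.nd (nat_lit 78) (nat_lit 304) (nat_lit 0) (XT.lf (nat_lit 0) (nat_lit 13958287846) (nat_lit 76) (nat_lit 1549357461) (nat_lit 152) (nat_lit 1923140327) (nat_lit 98) (nat_lit 5) (nat_lit 99) (nat_lit 5) (nat_lit 100) (nat_lit 4) (nat_lit 455) (nat_lit 388) (nat_lit 357)) (XT.lf (nat_lit 0) (nat_lit 168383439) (nat_lit 76) (nat_lit 8407589412) (nat_lit 152) (nat_lit 9378390301) (nat_lit 94) (nat_lit 5) (nat_lit 95) (nat_lit 5) (nat_lit 96) (nat_lit 4) (nat_lit 456) (nat_lit 388) (nat_lit 356))))) (XT.nd (nat_lit 234) (nat_lit 684) (nat_lit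 0) (XT.nd (nat_lit 78) (nat_lit 304) (nat_lit 0) (XT.lf (nat_lit 0) (nat_lit 1200236673) (nat_lit 228) (nat_lit 14513911712) (nat_lit 76) (nat_lit 2784172348) (nat_lit 91) (nat_lit 5) (nat_lit 94) (nat_lit 5) (nat_lit 92) (nat_lit 4) (nat_lit 457) (nat_lit 388) (nat_lit 355)) (XT.nd (nat_lit 78) (nat_lit 228) (nat_lit 0) (XT.lf (nat_lit 0) (nat_lit 7800814210) (nat_lit 76) (nat_lit 4491223241) (nat_lit 152) (nat_lit 6769308231) (nat_lit 90) (nat_lit 5) (nat_lit 91) (nat_lit 5) (nat_lit 92) (nat_lit 4) (nat_lit 458) (nat_lit 388) (nat_lit 354)) (XT.lf (nat_lit 0) (nat_lit 4372916370) (nat_lit 228) (nat_lit 7961863322) (nat_lit 76) (nat_lit 7311388036) (nat_lit 87) (nat_lit 5) (nat_lit 90) (nat_lit 5) (nat_lit 88) (nat_lit 4) (nat_lit 459) (nat_lit 388) (nat_lit 353)))) (XT.nd (nat_lit 156) (nat_lit 380) (nat_lit 0) (XT.nd (nat_lit 78) (nat_lit 228) (nat_lit 0) (XT.lf (nat_lit 0) (nat_lit 15635717891)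 (nat_lit 76) (nat_lit 449089383) (nat_lit 152) (nat_lit 4168837337) (nat_lit 86) (nat_lit 5) (nat_lit 87) (nat_lit 5) (nat_lit 88) (nat_lit 4) (nat_lit 460) (nat_lit 388) (nat_lit 352)) (XT.lf (nat_lit 0) (nat_lit 7576207542) (nat_lit 228) (nat_lit 1305291977) (nat_lit 76) (nat_lit 12000889141) (nat_lit 83) (nat_lit 5) (nat_lit 86) (nat_lit 5) (nat_lit 84) (nat_lit 4) (nat_lit 461) (nat_lit 388) (nat_lit 351))) (XT.nd (nat_lit 78) (nat_lit 152) (nat_lit 0) (XT.lf (nat_lit 0) (nat_lit 2121594268) (nat_lit 152) (nat_lit 17882554931) (nat_lit 152) (nat_lit 1531727507) (nat_lit 80) (nat_lit 4) (nat_lit 82) (nat_lit 5) (nat_lit 82) (nat_lit 4) (nat_lit 462) (nat_lit 388) (nat_lit 350)) (XT.lf (nat_lit 0) (nat_lit 5533232063) (nat_lit 76) (nat_lit 5318312518) (nat_lit 152) (nat_lit 11360428193) (nat_lit 78) (nat_lit 5) (nat_lit 79) (nat_lit 5) (nat_lit 80) (nat_lit 4) (nat_lit 463) (nat_lit 388) (nat_lit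 349))))))) (XT.nd (nat_lit 1014) (nat_lit 1520) (nat_lit 0) (XT.nd (nat_lit 468) (nat_lit 912) (nat_lit 0) (XT.nd (nat_lit 234) (nat_lit 304) (nat_lit 0) (XT.nd (nat_lit 78) (nat_lit 228) (nat_lit 0) (XT.lf (nat_lit 0) (nat_lit 1096998601) (nat_lit 152) (nat_lit 13921728641) (nat_lit 76) (nat_lit 7896021589) (nat_lit 76) (nat_lit 5) (nat_lit 78) (nat_lit 5) (nat_lit 77) (nat_lit 4) (nat_lit 464) (nat_lit 388) (nat_lit 348)) (XT.nd (nat_lit 78) (nat_lit 152) (nat_lit 0) (XT.lf (nat_lit 0) (nat_lit 12431020080) (nat_lit 76) (nat_lit 1710345008) (nat_lit 152) (nat_lit 9501954399) (nat_lit 75) (nat_lit 5) (nat_lit 76) (nat_lit 5) (nat_lit 77) (nat_lit 4) (nat_lit 465) (nat_lit 388) (nat_lit 347)) (XT.lf (nat_lit 0) (nat_lit 3634123612) (nat_lit 152) (nat_lit 8542344276) (nat_lit 76) (nat_lit 12222719956) (nat_lit 73) (nat_lit 5) (nat_lit 75) (nat_lit 5) (nat_lit 74) (nat_lit 4) (nat_lit 466) (nat_lit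 388) (nat_lit 346)))) (XT.nd (nat_lit 78) (nat_lit 228) (nat_lit 0) (XT.lf (nat_lit 0) (nat_lit 17426248983) (nat_lit 152) (nat_lit 5896444038) (nat_lit 0) (nat_lit 1861462152) (nat_lit 72) (nat_lit 5) (nat_lit 74) (nat_lit 4) (nat_lit 72) (nat_lit 4) (nat_lit 467) (nat_lit 388) (nat_lit 345)) (XT.nd (nat_lit 78) (nat_lit 76) (nat_lit 0) (XT.lf (nat_lit 0) (nat_lit 6076741214) (nat_lit 152) (nat_lit 3332668578) (nat_lit 76) (nat_lit 16588492757) (nat_lit 70) (nat_lit 5) (nat_lit 72) (nat_lit 5) (nat_lit 71) (nat_lit 4) (nat_lit 468) (nat_lit 388) (nat_lit 344)) (XT.lf (nat_lit 0) (nat_lit 20670818294) (nat_lit 152) (nat_lit 809497502) (nat_lit 0) (nat_lit 5362873478) (nat_lit 69) (nat_lit 5) (nat_lit 71) (nat_lit 4) (nat_lit 69) (nat_lit 4) (nat_lit 469) (nat_lit 388) (nat_lit 343))))) (XT.nd (nat_lit 234) (nat_lit 456) (nat_lit 0) (XT.nd (nat_lit 78) (nat_lit 228) (nat_lit 0) (XT.lf (nat_lit 0)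 (nat_lit 1649644686) (nat_lit 76) (nat_lit 6748818023) (nat_lit 152) (nat_lit 19321019210) (nat_lit 66) (nat_lit 5) (nat_lit 67) (nat_lit 5) (nat_lit 68) (nat_lit 4) (nat_lit 470) (nat_lit 388) (nat_lit 342)) (XT.nd (nat_lit 78) (nat_lit 152) (nat_lit 0) (XT.lf (nat_lit 0) (nat_lit 4043388927) (nat_lit 76) (nat_lit 19810490069) (nat_lit 76) (nat_lit 4775366495) (nat_lit 65) (nat_lit 4) (nat_lit 66) (nat_lit 5) (nat_lit 66) (nat_lit 4) (nat_lit 471) (nat_lit 388) (nat_lit 341)) (XT.lf (nat_lit 0) (nat_lit 6319184756) (nat_lit 76) (nat_lit 4239780338) (nat_lit 152) (nat_lit 19014518106) (nat_lit 63) (nat_lit 5) (nat_lit 64) (nat_lit 5) (nat_lit 65) (nat_lit 4) (nat_lit 472) (nat_lit 388) (nat_lit 340)))) (XT.nd (nat_lit 156) (nat_lit 228) (nat_lit 0) (XT.nd (nat_lit 78) (nat_lit 152) (nat_lit 0) (XT.lf (nat_lit 0) (nat_lit 8465802283) (nat_lit 76) (nat_lit 18418800692) (nat_lit 76) (nat_lit 3669211307)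 (nat_lit 62) (nat_lit 4) (nat_lit 63) (nat_lit 5) (nat_lit 63) (nat_lit 4) (nat_lit 473) (nat_lit 388) (nat_lit 339)) (XT.lf (nat_lit 0) (nat_lit 10468014255) (nat_lit 76) (nat_lit 1989324014) (nat_lit 152) (nat_lit 19114531909) (nat_lit 60) (nat_lit 5) (nat_lit 61) (nat_lit 5) (nat_lit 62) (nat_lit 4) (nat_lit 474) (nat_lit 388) (nat_lit 338))) (XT.nd (nat_lit 78) (nat_lit 152) (nat_lit 0) (XT.lf (nat_lit 0) (nat_lit 12284471939) (nat_lit 76) (nat_lit 17399183366) (nat_lit 76) (nat_lit 2945004355) (nat_lit 59) (nat_lit 4) (nat_lit 60) (nat_lit 5) (nat_lit 60) (nat_lit 4) (nat_lit 475) (nat_lit 388) (nat_lit 337)) (XT.lf (nat_lit 0) (nat_lit 13922009823) (nat_lit 76) (nat_lit 87118245) (nat_lit 152) (nat_lit 19717615223) (nat_lit 57) (nat_lit 5) (nat_lit 58) (nat_lit 5) (nat_lit 59) (nat_lit 4) (nat_lit 476) (nat_lit 388) (nat_lit 336)))))) (XT.nd (nat_lit 546) (nat_lit 760) (nat_lit 0) (XT.nd (nat_lit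 234) (nat_lit 456) (nat_lit 0) (XT.nd (nat_lit 78) (nat_lit 228) (nat_lit 0) (XT.lf (nat_lit 0) (nat_lit 15306736101) (nat_lit 76) (nat_lit 16855552922) (nat_lit 76) (nat_lit 2704200809) (nat_lit 56) (nat_lit 4) (nat_lit 57) (nat_lit 5) (nat_lit 57) (nat_lit 4) (nat_lit 477) (nat_lit 388) (nat_lit 335)) (XT.nd (nat_lit 78) (nat_lit 76) (nat_lit 0) (XT.lf (nat_lit 0) (nat_lit 15123671365) (nat_lit 152) (nat_lit 19596197324) (nat_lit 0) (nat_lit 1331195228) (nat_lit 54) (nat_lit 5) (nat_lit 56) (nat_lit 4) (nat_lit 54) (nat_lit 4) (nat_lit 478) (nat_lit 388) (nat_lit 334)) (XT.lf (nat_lit 0) (nat_lit 17297673178) (nat_lit 76) (nat_lit 16913452278) (nat_lit 76) (nat_lit 3070214876) (nat_lit 53) (nat_lit 4) (nat_lit 54) (nat_lit 5) (nat_lit 54) (nat_lit 4) (nat_lit 479) (nat_lit 388) (nat_lit 333)))) (XT.nd (nat_lit 156) (nat_lit 228) (nat_lit 0) (XT.nd (nat_lit 78) (nat_lit 76) (nat_lit 0) (XT.lf (nat_lit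 0) (nat_lit 15656520117) (nat_lit 152) (nat_lit 20734061148) (nat_lit 0) (nat_lit 2169547822) (nat_lit 51) (nat_lit 5) (nat_lit 53) (nat_lit 4) (nat_lit 51) (nat_lit 4) (nat_lit 480) (nat_lit 388) (nat_lit 332)) (XT.lf (nat_lit 0) (nat_lit 17972143131) (nat_lit 76) (nat_lit 17724135109) (nat_lit 76) (nat_lit 4192461879) (nat_lit 50) (nat_lit 4) (nat_lit 51) (nat_lit 5) (nat_lit 51) (nat_lit 4) (nat_lit 481) (nat_lit 388) (nat_lit 331))) (XT.nd (nat_lit 78) (nat_lit 76) (nat_lit 0) (XT.lf (nat_lit 0) (nat_lit 15451647626) (nat_lit 152) (nat_lit 23545940019) (nat_lit 0) (nat_lit 2272768452) (nat_lit 48) (nat_lit 5) (nat_lit 50) (nat_lit 4) (nat_lit 48) (nat_lit 4) (nat_lit 482) (nat_lit 388) (nat_lit 330)) (XT.lf (nat_lit 0) (nat_lit 16985419537) (nat_lit 76) (nat_lit 19469362910) (nat_lit 76) (nat_lit 6251119594) (nat_lit 47) (nat_lit 4) (nat_lit 48) (nat_lit 5) (nat_lit 48) (nat_lit 4) (nat_lit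 483) (nat_lit 388) (nat_lit 329))))) (XT.nd (nat_lit 234) (nat_lit 380) (nat_lit 0) (XT.nd (nat_lit 78) (nat_lit 228) (nat_lit 0) (XT.lf (nat_lit 0) (nat_lit 14321474319) (nat_lit 152) (nat_lit 28426631121) (nat_lit 0) (nat_lit 1451830654) (nat_lit 45) (nat_lit 5) (nat_lit 47) (nat_lit 4) (nat_lit 45) (nat_lit 4) (nat_lit 484) (nat_lit 388) (nat_lit 328)) (XT.nd (nat_lit 78) (nat_lit 152) (nat_lit 0) (XT.lf (nat_lit 0) (nat_lit 13922167976) (nat_lit 76) (nat_lit 22367040838) (nat_lit 76) (nat_lit 9462732671) (nat_lit 44) (nat_lit 4) (nat_lit 45) (nat_lit 5) (nat_lit 45) (nat_lit 4) (nat_lit 485) (nat_lit 388) (nat_lit 327)) (XT.lf (nat_lit 0) (nat_lit 11514435106) (nat_lit 76) (nat_lit 530765427) (nat_lit 152) (nat_lit 35323741752) (nat_lit 42) (nat_lit 5) (nat_lit 43) (nat_lit 5) (nat_lit 44) (nat_lit 4) (nat_lit 486) (nat_lit 388) (nat_lit 326)))) (XT.nd (nat_lit 156) (nat_lit 152) (nat_lit 0)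 (XT.nd (nat_lit 78) (nat_lit 152) (nat_lit 0) (XT.lf (nat_lit 0) (nat_lit 8283484619) (nat_lit 76) (nat_lit 26677837913) (nat_lit 76) (nat_lit 14086805191) (nat_lit 41) (nat_lit 4) (nat_lit 42) (nat_lit 5) (nat_lit 42) (nat_lit 4) (nat_lit 487) (nat_lit 388) (nat_lit 325)) (XT.lf (nat_lit 0) (nat_lit 4380560110) (nat_lit 76) (nat_lit 3994151792) (nat_lit 152) (nat_lit 42424503180) (nat_lit 39) (nat_lit 5) (nat_lit 40) (nat_lit 5) (nat_lit 41) (nat_lit 4) (nat_lit 488) (nat_lit 388) (nat_lit 324))) (XT.nd (nat_lit 78) (nat_lit 152) (nat_lit 0) (XT.lf (nat_lit 0) (nat_lit 32189700629) (nat_lit 152) (nat_lit 518030205) (nat_lit 0) (nat_lit 19910289963) (nat_lit 39) (nat_lit 5) (nat_lit 41) (nat_lit 4) (nat_lit 39) (nat_lit 4) (nat_lit 489) (nat_lit 388) (nat_lit 323)) (XT.lf (nat_lit 0) (nat_lit 3034503016) (nat_lit 152) (nat_lit 6144970960) (nat_lit 76) (nat_lit 45334957071) (nat_lit 37) (nat_lit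 5) (nat_lit 39) (nat_lit 5) (nat_lit 38) (nat_lit 4) (nat_lit 490) (nat_lit 388) (nat_lit 322))))))))
noncomputable def xc28 : XT := (XT.nd (nat_lit 58422) (nat_lit 0) (nat_lit 3800) (XT.nd (nat_lit 57408) (nat_lit 0) (nat_lit 9652) (XT.nd (nat_lit 468) (nat_lit 228) (nat_lit 0) (XT.nd (nat_lit 234) (nat_lit 304) (nat_lit 0) (XT.nd (nat_lit 78) (nat_lit 228) (nat_lit 0) (XT.lf (nat_lit 0) (nat_lit 27742716951) (nat_lit 152) (nat_lit 12969603890) (nat_lit 0) (nat_lit 15772431138) (nat_lit 36) (nat_lit 5) (nat_lit 38) (nat_lit 4) (nat_lit 36) (nat_lit 4) (nat_lit 491) (nat_lit 388) (nat_lit 321)) (XT.nd (nat_lit 78) (nat_lit 152) (nat_lit 0) (XT.lf (nat_lit 0) (nat_lit 37702543382) (nat_lit 76) (nat_lit 16415463235) (nat_lit 76) (nat_lit 4422632529) (nat_lit 35) (nat_lit 4) (nat_lit 36) (nat_lit 5) (nat_lit 36) (nat_lit 4) (nat_lit 492) (nat_lit 388) (nat_lit 320)) (XT.lf (nat_lit 0) (nat_lit 21138039586)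 (nat_lit 152) (nat_lit 30068405525) (nat_lit 0) (nat_lit 9473668679) (nat_lit 33) (nat_lit 5) (nat_lit 35) (nat_lit 4) (nat_lit 33) (nat_lit 4) (nat_lit 493) (nat_lit 388) (nat_lit 319)))) (XT.nd (nat_lit 78) (nat_lit 228) (nat_lit 0) (XT.lf (nat_lit 0) (nat_lit 22201769822) (nat_lit 76) (nat_lit 26196161706) (nat_lit 76) (nat_lit 14511937515) (nat_lit 32) (nat_lit 4) (nat_lit 33) (nat_lit 5) (nat_lit 33) (nat_lit 4) (nat_lit 494) (nat_lit 388) (nat_lit 318)) (XT.nd (nat_lit 78) (nat_lit 76) (nat_lit 0) (XT.lf (nat_lit 0) (nat_lit 11895052812) (nat_lit 152) (nat_lit 52809226092) (nat_lit 0) (nat_lit 532788655) (nat_lit 30) (nat_lit 5) (nat_lit 32) (nat_lit 4) (nat_lit 30) (nat_lit 4) (nat_lit 495) (nat_lit 388) (nat_lit 317)) (XT.lf (nat_lit 0) (nat_lit 842567896) (nat_lit 76) (nat_lit 39097480683) (nat_lit 76) (nat_lit 27717733502) (nat_lit 29) (nat_lit 4) (nat_lit 30) (nat_lit 5) (nat_lit 30)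 (nat_lit 4) (nat_lit 496) (nat_lit 388) (nat_lit 316))))) (XT.nd (nat_lit 56628) (nat_lit 0) (nat_lit 15884) (XT.nd (nat_lit 78) (nat_lit 228) (nat_lit 0) (XT.lf (nat_lit 0) (nat_lit 58123102052) (nat_lit 76) (nat_lit 11729435381) (nat_lit 76) (nat_lit 333037700) (nat_lit 29) (nat_lit 4) (nat_lit 30) (nat_lit 5) (nat_lit 30) (nat_lit 4) (nat_lit 497) (nat_lit 388) (nat_lit 315)) (XT.nd (nat_lit 78) (nat_lit 76) (nat_lit 0) (XT.lf (nat_lit 0) (nat_lit 28401944181) (nat_lit 152) (nat_lit 27091463755) (nat_lit 0) (nat_lit 17322084668) (nat_lit 27) (nat_lit 5) (nat_lit 29) (nat_lit 4) (nat_lit 27) (nat_lit 4) (nat_lit 498) (nat_lit 388) (nat_lit 314)) (XT.lf (nat_lit 0) (nat_lit 31420332083) (nat_lit 76) (nat_lit 27618419124) (nat_lit 76) (nat_lit 16523896996) (nat_lit 26) (nat_lit 4) (nat_lit 27) (nat_lit 5) (nat_lit 27) (nat_lit 4) (nat_lit 499) (nat_lit 388) (nat_lit 313)))) (XT.nd (nat_lit 156)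 (nat_lit 912) (nat_lit 0) (XT.nd (nat_lit 78) (nat_lit 988) (nat_lit 0) (XT.lf (nat_lit 0) (nat_lit 1342814401) (nat_lit 532) (nat_lit 1236451256) (nat_lit 0) (nat_lit 1342814401) (nat_lit 260) (nat_lit 5) (nat_lit 267) (nat_lit 4) (nat_lit 260) (nat_lit 4) (nat_lit 422) (nat_lit 389) (nat_lit 389)) (XT.lf (nat_lit 0) (nat_lit 425766233) (nat_lit 456) (nat_lit 813765662) (nat_lit 532) (nat_lit 6737578458) (nat_lit 247) (nat_lit 5) (nat_lit 253) (nat_lit 5) (nat_lit 254) (nat_lit 4) (nat_lit 423) (nat_lit 389) (nat_lit 388))) (XT.nd (nat_lit 78) (nat_lit 456) (nat_lit 0) (XT.lf (nat_lit 0) (nat_lit 3471950242) (nat_lit 456) (nat_lit 4304013436) (nat_lit 456) (nat_lit 341469556) (nat_lit 241) (nat_lit 4) (nat_lit 247) (nat_lit 5) (nat_lit 247) (nat_lit 4) (nat_lit 424) (nat_lit 389) (nat_lit 387)) (XT.lf (nat_lit 0) (nat_lit 6133666613) (nat_lit 456) (nat_lit 1633518027) (nat_lit 0) (nat_lit 499252088)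 (nat_lit 235) (nat_lit 5) (nat_lit 241) (nat_lit 4) (nat_lit 235) (nat_lit 4) (nat_lit 425) (nat_lit 389) (nat_lit 386)))))) (XT.nd (nat_lit 468) (nat_lit 2660) (nat_lit 0) (XT.nd (nat_lit 234) (nat_lit 1748) (nat_lit 0) (XT.nd (nat_lit 78) (nat_lit 912) (nat_lit 0) (XT.lf (nat_lit 0) (nat_lit 1499390699) (nat_lit 380) (nat_lit 2853309290) (nat_lit 456) (nat_lit 4070665023) (nat_lit 223) (nat_lit 5) (nat_lit 228) (nat_lit 5) (nat_lit 229) (nat_lit 4) (nat_lit 426) (nat_lit 389) (nat_lit 385)) (XT.nd (nat_lit 78) (nat_lit 456) (nat_lit 0) (XT.lf (nat_lit 0) (nat_lit 2408988624) (nat_lit 456) (nat_lit 3806558965) (nat_lit 76) (nat_lit 2373411844) (nat_lit 217) (nat_lit 5) (nat_lit 223) (nat_lit 5) (nat_lit 218) (nat_lit 4) (nat_lit 427) (nat_lit 389) (nat_lit 384)) (XT.lf (nat_lit 0) (nat_lit 284699170) (nat_lit 456) (nat_lit 582334933) (nat_lit 76) (nat_lit 7896741973) (nat_lit 211) (nat_lit 5) (nat_lit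 217) (nat_lit 5) (nat_lit 212) (nat_lit 5) (nat_lit 428) (nat_lit 389) (nat_lit 383)))) (XT.nd (nat_lit 78) (nat_lit 1064) (nat_lit 0) (XT.lf (nat_lit 0) (nat_lit 2769516453) (nat_lit 304) (nat_lit 4153788770) (nat_lit 380) (nat_lit 2022845578) (nat_lit 202) (nat_lit 5) (nat_lit 206) (nat_lit 5) (nat_lit 207) (nat_lit 4) (nat_lit 429) (nat_lit 389) (nat_lit 382)) (XT.nd (nat_lit 78) (nat_lit 684) (nat_lit 0) (XT.lf (nat_lit 0) (nat_lit 4605276528) (nat_lit 380) (nat_lit 2888948431) (nat_lit 76) (nat_lit 1643798703) (nat_lit 197) (nat_lit 5) (nat_lit 202) (nat_lit 5) (nat_lit 198) (nat_lit 4) (nat_lit 430) (nat_lit 389) (nat_lit 381)) (XT.lf (nat_lit 0) (nat_lit 505254297) (nat_lit 304) (nat_lit 1602554626) (nat_lit 380) (nat_lit 7231467202) (nat_lit 188) (nat_lit 5) (nat_lit 192) (nat_lit 5) (nat_lit 193) (nat_lit 5) (nat_lit 431) (nat_lit 389) (nat_lit 380))))) (XT.nd (nat_lit 234) (nat_lit 1368)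 (nat_lit 0) (XT.nd (nat_lit 78) (nat_lit 988) (nat_lit 0) (XT.lf (nat_lit 0) (nat_lit 4051192727) (nat_lit 304) (nat_lit 4936953809) (nat_lit 380) (nat_lit 561060135) (nat_lit 184) (nat_lit 5) (nat_lit 188) (nat_lit 5) (nat_lit 189) (nat_lit 4) (nat_lit 432) (nat_lit 389) (nat_lit 379)) (XT.nd (nat_lit 78) (nat_lit 608) (nat_lit 0) (XT.lf (nat_lit 0) (nat_lit 6280377981) (nat_lit 380) (nat_lit 2075640027) (nat_lit 76) (nat_lit 1412866977) (nat_lit 179) (nat_lit 5) (nat_lit 184) (nat_lit 5) (nat_lit 180) (nat_lit 4) (nat_lit 433) (nat_lit 389) (nat_lit 378)) (XT.lf (nat_lit 0) (nat_lit 1467382710) (nat_lit 304) (nat_lit 1923280436) (nat_lit 380) (nat_lit 6607573315) (nat_lit 171) (nat_lit 5) (nat_lit 175) (nat_lit 5) (nat_lit 176) (nat_lit 5) (nat_lit 434) (nat_lit 389) (nat_lit 377)))) (XT.nd (nat_lit 156) (nat_lit 836) (nat_lit 0) (XT.nd (nat_lit 78) (nat_lit 228) (nat_lit 0) (XT.lf (nat_lit 0)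 (nat_lit 314177635) (nat_lit 304) (nat_lit 5084746587) (nat_lit 76) (nat_lit 4838518554) (nat_lit 167) (nat_lit 5) (nat_lit 171) (nat_lit 5) (nat_lit 168) (nat_lit 5) (nat_lit 435) (nat_lit 389) (nat_lit 376)) (XT.lf (nat_lit 0) (nat_lit 7434791376) (nat_lit 304) (nat_lit 1559764330) (nat_lit 76) (nat_lit 1492413243) (nat_lit 164) (nat_lit 5) (nat_lit 168) (nat_lit 5) (nat_lit 165) (nat_lit 4) (nat_lit 436) (nat_lit 389) (nat_lit 375))) (XT.nd (nat_lit 78) (nat_lit 304) (nat_lit 0) (XT.lf (nat_lit 0) (nat_lit 2093547639) (nat_lit 228) (nat_lit 2024102441) (nat_lit 304) (nat_lit 6629033381) (nat_lit 157) (nat_lit 5) (nat_lit 160) (nat_lit 5) (nat_lit 161) (nat_lit 5) (nat_lit 437) (nat_lit 389) (nat_lit 374)) (XT.lf (nat_lit 0) (nat_lit 589137921) (nat_lit 304) (nat_lit 5139323933) (nat_lit 76) (nat_lit 5288783381) (nat_lit 153) (nat_lit 5) (nat_lit 157) (nat_lit 5) (nat_lit 154) (nat_lit 5) (nat_lit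 438) (nat_lit 389) (nat_lit 373))))))) (XT.nd (nat_lit 1014) (nat_lit 2356) (nat_lit 0) (XT.nd (nat_lit 468) (nat_lit 1748) (nat_lit 0) (XT.nd (nat_lit 234) (nat_lit 836) (nat_lit 0) (XT.nd (nat_lit 78) (nat_lit 684) (nat_lit 0) (XT.lf (nat_lit 0) (nat_lit 8043659057) (nat_lit 304) (nat_lit 1548887357) (nat_lit 76) (nat_lit 1706447612) (nat_lit 150) (nat_lit 5) (nat_lit 154) (nat_lit 5) (nat_lit 151) (nat_lit 4) (nat_lit 439) (nat_lit 389) (nat_lit 372)) (XT.nd (nat_lit 78) (nat_lit 228) (nat_lit 0) (XT.lf (nat_lit 0) (nat_lit 2168128489) (nat_lit 228) (nat_lit 2084867501) (nat_lit 304) (nat_lit 7338794120) (nat_lit 144) (nat_lit 5) (nat_lit 147) (nat_lit 5) (nat_lit 148) (nat_lit 5) (nat_lit 440) (nat_lit 389) (nat_lit 371)) (XT.lf (nat_lit 0) (nat_lit 228150852) (nat_lit 228) (nat_lit 5882273668) (nat_lit 76) (nat_lit 5785978782) (nat_lit 141) (nat_lit 5) (nat_lit 144) (nat_lit 5) (nat_lit 142)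 (nat_lit 5) (nat_lit 441) (nat_lit 389) (nat_lit 370)))) (XT.nd (nat_lit 78) (nat_lit 608) (nat_lit 0) (XT.lf (nat_lit 0) (nat_lit 8056165552) (nat_lit 304) (nat_lit 2273167834) (nat_lit 76) (nat_lit 1883702301) (nat_lit 138) (nat_lit 5) (nat_lit 142) (nat_lit 5) (nat_lit 139) (nat_lit 4) (nat_lit 442) (nat_lit 389) (nat_lit 369)) (XT.nd (nat_lit 78) (nat_lit 152) (nat_lit 0) (XT.lf (nat_lit 0) (nat_lit 1450231051) (nat_lit 228) (nat_lit 2283834671) (nat_lit 304) (nat_lit 8808058261) (nat_lit 132) (nat_lit 5) (nat_lit 135) (nat_lit 5) (nat_lit 136) (nat_lit 5) (nat_lit 443) (nat_lit 389) (nat_lit 368)) (XT.lf (nat_lit 0) (nat_lit 5306920981) (nat_lit 152) (nat_lit 6716983588) (nat_lit 228) (nat_lit 859820581) (nat_lit 130) (nat_lit 5) (nat_lit 132) (nat_lit 5) (nat_lit 133) (nat_lit 4) (nat_lit 444) (nat_lit 389) (nat_lit 367))))) (XT.nd (nat_lit 234) (nat_lit 988) (nat_lit 0) (XT.nd (nat_lit 78)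 (nat_lit 532) (nat_lit 0) (XT.lf (nat_lit 0) (nat_lit 7393823384) (nat_lit 228) (nat_lit 3994481167) (nat_lit 76) (nat_lit 1850323725) (nat_lit 127) (nat_lit 5) (nat_lit 130) (nat_lit 5) (nat_lit 128) (nat_lit 4) (nat_lit 445) (nat_lit 389) (nat_lit 366)) (XT.nd (nat_lit 78) (nat_lit 304) (nat_lit 0) (XT.lf (nat_lit 0) (nat_lit 2472449533) (nat_lit 228) (nat_lit 329427458) (nat_lit 76) (nat_lit 10805789132) (nat_lit 124) (nat_lit 5) (nat_lit 127) (nat_lit 5) (nat_lit 125) (nat_lit 5) (nat_lit 446) (nat_lit 389) (nat_lit 365)) (XT.lf (nat_lit 0) (nat_lit 3470798044) (nat_lit 152) (nat_lit 7735747692) (nat_lit 228) (nat_lit 2783220706) (nat_lit 120) (nat_lit 5) (nat_lit 122) (nat_lit 5) (nat_lit 123) (nat_lit 4) (nat_lit 447) (nat_lit 389) (nat_lit 364)))) (XT.nd (nat_lit 156) (nat_lit 532) (nat_lit 0) (XT.nd (nat_lit 78) (nat_lit 228) (nat_lit 0) (XT.lf (nat_lit 0) (nat_lit 5947544210) (nat_lit 228)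 (nat_lit 7016957770) (nat_lit 76) (nat_lit 1422406145) (nat_lit 117) (nat_lit 5) (nat_lit 120) (nat_lit 5) (nat_lit 118) (nat_lit 4) (nat_lit 448) (nat_lit 389) (nat_lit 363)) (XT.lf (nat_lit 0) (nat_lit 368159672) (nat_lit 228) (nat_lit 3444014263) (nat_lit 76) (nat_lit 10987267591) (nat_lit 114) (nat_lit 5) (nat_lit 117) (nat_lit 5) (nat_lit 115) (nat_lit 5) (nat_lit 449) (nat_lit 389) (nat_lit 362))) (XT.nd (nat_lit 78) (nat_lit 228) (nat_lit 0) (XT.lf (nat_lit 0) (nat_lit 173859111) (nat_lit 152) (nat_lit 9374193189) (nat_lit 228) (nat_lit 5678848567) (nat_lit 110) (nat_lit 5) (nat_lit 112) (nat_lit 5) (nat_lit 113) (nat_lit 4) (nat_lit 450) (nat_lit 389) (nat_lit 361)) (XT.lf (nat_lit 0) (nat_lit 3573327161) (nat_lit 228) (nat_lit 11699472483) (nat_lit 76) (nat_lit 398003687) (nat_lit 107) (nat_lit 5) (nat_lit 110) (nat_lit 5) (nat_lit 108) (nat_lit 4) (nat_lit 451) (nat_lit 389) (nat_lit 360))))))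 (XT.nd (nat_lit 546) (nat_lit 1140) (nat_lit 0) (XT.nd (nat_lit 234) (nat_lit 760) (nat_lit 0) (XT.nd (nat_lit 78) (nat_lit 380) (nat_lit 0) (XT.lf (nat_lit 0) (nat_lit 7807560974) (nat_lit 76) (nat_lit 5517819208) (nat_lit 152) (nat_lit 2805194210) (nat_lit 106) (nat_lit 5) (nat_lit 107) (nat_lit 5) (nat_lit 108) (nat_lit 4) (nat_lit 452) (nat_lit 389) (nat_lit 359)) (XT.nd (nat_lit 78) (nat_lit 152) (nat_lit 0) (XT.lf (nat_lit 0) (nat_lit 6928867186) (nat_lit 228) (nat_lit 4884693659) (nat_lit 76) (nat_lit 4794385502) (nat_lit 103) (nat_lit 5) (nat_lit 106) (nat_lit 5) (nat_lit 104) (nat_lit 4) (nat_lit 453) (nat_lit 389) (nat_lit 358)) (XT.lf (nat_lit 0) (nat_lit 113817914) (nat_lit 152) (nat_lit 1353195083) (nat_lit 76) (nat_lit 15637440114) (nat_lit 101) (nat_lit 5) (nat_lit 103) (nat_lit 5) (nat_lit 102) (nat_lit 5) (nat_lit 454) (nat_lit 389) (nat_lit 357)))) (XT.nd (nat_lit 156) (nat_lit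 304) (nat_lit 0) (XT.nd (nat_lit 78) (nat_lit 228) (nat_lit 0) (XT.lf (nat_lit 0) (nat_lit 2213389975) (nat_lit 76) (nat_lit 8178331487) (nat_lit 152) (nat_lit 7225323995) (nat_lit 98) (nat_lit 5) (nat_lit 99) (nat_lit 5) (nat_lit 100) (nat_lit 4) (nat_lit 455) (nat_lit 389) (nat_lit 356)) (XT.lf (nat_lit 0) (nat_lit 3112199878) (nat_lit 228) (nat_lit 12232145841) (nat_lit 76) (nat_lit 2805758549) (nat_lit 95) (nat_lit 5) (nat_lit 98) (nat_lit 5) (nat_lit 96) (nat_lit 4) (nat_lit 456) (nat_lit 389) (nat_lit 355))) (XT.nd (nat_lit 78) (nat_lit 228) (nat_lit 0) (XT.lf (nat_lit 0) (nat_lit 9651727230) (nat_lit 76) (nat_lit 4343010390) (nat_lit 152) (nat_lit 4707606453) (nat_lit 94) (nat_lit 5) (nat_lit 95) (nat_lit 5) (nat_lit 96) (nat_lit 4) (nat_lit 457) (nat_lit 389) (nat_lit 354)) (XT.lf (nat_lit 0) (nat_lit 6191500968) (nat_lit 228) (nat_lit 5834533842) (nat_lit 76) (nat_lit 7249229016) (nat_lit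 91) (nat_lit 5) (nat_lit 94) (nat_lit 5) (nat_lit 92) (nat_lit 4) (nat_lit 458) (nat_lit 389) (nat_lit 353))))) (XT.nd (nat_lit 234) (nat_lit 532) (nat_lit 0) (XT.nd (nat_lit 78) (nat_lit 532) (nat_lit 0) (XT.lf (nat_lit 0) (nat_lit 17326333834) (nat_lit 76) (nat_lit 364552217) (nat_lit 152) (nat_lit 2179965827) (nat_lit 90) (nat_lit 5) (nat_lit 91) (nat_lit 5) (nat_lit 92) (nat_lit 4) (nat_lit 459) (nat_lit 389) (nat_lit 352)) (XT.nd (nat_lit 78) (nat_lit 228) (nat_lit 0) (XT.lf (nat_lit 0) (nat_lit 720682622) (nat_lit 76) (nat_lit 8606709041) (nat_lit 152) (nat_lit 11158978419) (nat_lit 86) (nat_lit 5) (nat_lit 87) (nat_lit 5) (nat_lit 88) (nat_lit 4) (nat_lit 460) (nat_lit 389) (nat_lit 351)) (XT.lf (nat_lit 0) (nat_lit 418533213) (nat_lit 228) (nat_lit 16990156393) (nat_lit 76) (nat_lit 3717558870) (nat_lit 83) (nat_lit 5) (nat_lit 86) (nat_lit 5) (nat_lit 84) (nat_lit 4) (nat_lit 461) (nat_lit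 389) (nat_lit 350)))) (XT.nd (nat_lit 156) (nat_lit 228) (nat_lit 0) (XT.nd (nat_lit 78) (nat_lit 228) (nat_lit 0) (XT.lf (nat_lit 0) (nat_lit 7514983238) (nat_lit 76) (nat_lit 5048403631) (nat_lit 152) (nat_lit 9224842727) (nat_lit 82) (nat_lit 5) (nat_lit 83) (nat_lit 5) (nat_lit 84) (nat_lit 4) (nat_lit 462) (nat_lit 389) (nat_lit 349)) (XT.lf (nat_lit 0) (nat_lit 2993031773) (nat_lit 228) (nat_lit 11526586561) (nat_lit 76) (nat_lit 7956391799) (nat_lit 79) (nat_lit 5) (nat_lit 82) (nat_lit 5) (nat_lit 80) (nat_lit 4) (nat_lit 463) (nat_lit 389) (nat_lit 348))) (XT.nd (nat_lit 78) (nat_lit 152) (nat_lit 0) (XT.lf (nat_lit 0) (nat_lit 14399362184) (nat_lit 76) (nat_lit 1429671288) (nat_lit 152) (nat_lit 7360466435) (nat_lit 78) (nat_lit 5) (nat_lit 79) (nat_lit 5) (nat_lit 80) (nat_lit 4) (nat_lit 464) (nat_lit 389) (nat_lit 347)) (XT.lf (nat_lit 0) (nat_lit 5537699280) (nat_lit 152) (nat_lit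 6096786926) (nat_lit 76) (nat_lit 12294402210) (nat_lit 76) (nat_lit 5) (nat_lit 78) (nat_lit 5) (nat_lit 77) (nat_lit 4) (nat_lit 465) (nat_lit 389) (nat_lit 346))))))))
noncomputable def xc29 : XT := (XT.nd (nat_lit 2028) (nat_lit 760) (nat_lit 0) (XT.nd (nat_lit 1014) (nat_lit 1368) (nat_lit 0) (XT.nd (nat_lit 468) (nat_lit 836) (nat_lit 0) (XT.nd (nat_lit 234) (nat_lit 380) (nat_lit 0) (XT.nd (nat_lit 78) (nat_lit 304) (nat_lit 0) (XT.lf (nat_lit 0) (nat_lit 19126377292) (nat_lit 152) (nat_lit 3389803473) (nat_lit 0) (nat_lit 2180945108) (nat_lit 75) (nat_lit 5) (nat_lit 77) (nat_lit 4) (nat_lit 75) (nat_lit 4) (nat_lit 466) (nat_lit 389) (nat_lit 345)) (XT.nd (nat_lit 78) (nat_lit 152) (nat_lit 0) (XT.lf (nat_lit 0) (nat_lit 8025910469) (nat_lit 152) (nat_lit 759610336) (nat_lit 76) (nat_lit 16707304344) (nat_lit 73) (nat_lit 5) (nat_lit 75) (nat_lit 5) (nat_lit 74) (nat_lit 4) (nat_lit 467)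 (nat_lit 389) (nat_lit 344)) (XT.lf (nat_lit 0) (nat_lit 1905667705) (nat_lit 76) (nat_lit 20533845096) (nat_lit 76) (nat_lit 3879572860) (nat_lit 71) (nat_lit 4) (nat_lit 72) (nat_lit 5) (nat_lit 72) (nat_lit 4) (nat_lit 468) (nat_lit 389) (nat_lit 343)))) (XT.nd (nat_lit 78) (nat_lit 228) (nat_lit 0) (XT.lf (nat_lit 0) (nat_lit 4497644124) (nat_lit 76) (nat_lit 5968338562) (nat_lit 152) (nat_lit 16709235539) (nat_lit 69) (nat_lit 5) (nat_lit 70) (nat_lit 5) (nat_lit 71) (nat_lit 4) (nat_lit 469) (nat_lit 389) (nat_lit 342)) (XT.nd (nat_lit 78) (nat_lit 152) (nat_lit 0) (XT.lf (nat_lit 0) (nat_lit 7051686625) (nat_lit 76) (nat_lit 18680125421) (nat_lit 76) (nat_lit 2332696611) (nat_lit 68) (nat_lit 4) (nat_lit 69) (nat_lit 5) (nat_lit 69) (nat_lit 4) (nat_lit 470) (nat_lit 389) (nat_lit 341)) (XT.lf (nat_lit 0) (nat_lit 9502523689) (nat_lit 76) (nat_lit 3272232486) (nat_lit 152) (nat_lit 16211993479)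 (nat_lit 66) (nat_lit 5) (nat_lit 67) (nat_lit 5) (nat_lit 68) (nat_lit 4) (nat_lit 471) (nat_lit 389) (nat_lit 340))))) (XT.nd (nat_lit 234) (nat_lit 532) (nat_lit 0) (XT.nd (nat_lit 78) (nat_lit 228) (nat_lit 0) (XT.lf (nat_lit 0) (nat_lit 11872910120) (nat_lit 76) (nat_lit 17049870249) (nat_lit 76) (nat_lit 1021626648) (nat_lit 65) (nat_lit 4) (nat_lit 66) (nat_lit 5) (nat_lit 66) (nat_lit 4) (nat_lit 472) (nat_lit 389) (nat_lit 339)) (XT.nd (nat_lit 78) (nat_lit 76) (nat_lit 0) (XT.lf (nat_lit 0) (nat_lit 14119547925) (nat_lit 76) (nat_lit 767500530) (nat_lit 152) (nat_lit 16051091423) (nat_lit 63) (nat_lit 5) (nat_lit 64) (nat_lit 5) (nat_lit 65) (nat_lit 4) (nat_lit 473) (nat_lit 389) (nat_lit 338)) (XT.lf (nat_lit 0) (nat_lit 16235306318) (nat_lit 76) (nat_lit 15717048395) (nat_lit 76) (nat_lit 17431845) (nat_lit 62) (nat_lit 4) (nat_lit 63) (nat_lit 5) (nat_lit 63) (nat_lit 4) (nat_lit 474)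 (nat_lit 389) (nat_lit 337)))) (XT.nd (nat_lit 156) (nat_lit 228) (nat_lit 0) (XT.nd (nat_lit 78) (nat_lit 152) (nat_lit 0) (XT.lf (nat_lit 0) (nat_lit 16744950387) (nat_lit 152) (nat_lit 14855296041) (nat_lit 0) (nat_lit 1440263076) (nat_lit 60) (nat_lit 5) (nat_lit 62) (nat_lit 4) (nat_lit 60) (nat_lit 4) (nat_lit 475) (nat_lit 389) (nat_lit 336)) (XT.lf (nat_lit 0) (nat_lit 580881230) (nat_lit 152) (nat_lit 14184870931) (nat_lit 76) (nat_lit 19386837441) (nat_lit 58) (nat_lit 5) (nat_lit 60) (nat_lit 5) (nat_lit 59) (nat_lit 4) (nat_lit 476) (nat_lit 389) (nat_lit 335))) (XT.nd (nat_lit 78) (nat_lit 152) (nat_lit 0) (XT.lf (nat_lit 0) (nat_lit 18249206334) (nat_lit 152) (nat_lit 13779929967) (nat_lit 0) (nat_lit 3277745084) (nat_lit 57) (nat_lit 5) (nat_lit 59) (nat_lit 4) (nat_lit 57) (nat_lit 4) (nat_lit 477) (nat_lit 389) (nat_lit 334)) (XT.lf (nat_lit 0) (nat_lit 687437219) (nat_lit 152)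 (nat_lit 13628247796) (nat_lit 76) (nat_lit 22190795275) (nat_lit 55) (nat_lit 5) (nat_lit 57) (nat_lit 5) (nat_lit 56) (nat_lit 4) (nat_lit 478) (nat_lit 389) (nat_lit 333)))))) (XT.nd (nat_lit 468) (nat_lit 760) (nat_lit 0) (XT.nd (nat_lit 234) (nat_lit 304) (nat_lit 0) (XT.nd (nat_lit 78) (nat_lit 228) (nat_lit 0) (XT.lf (nat_lit 0) (nat_lit 19282110003) (nat_lit 152) (nat_lit 13821824881) (nat_lit 0) (nat_lit 4647605405) (nat_lit 54) (nat_lit 5) (nat_lit 56) (nat_lit 4) (nat_lit 54) (nat_lit 4) (nat_lit 479) (nat_lit 389) (nat_lit 332)) (XT.nd (nat_lit 78) (nat_lit 76) (nat_lit 0) (XT.lf (nat_lit 0) (nat_lit 175202638) (nat_lit 152) (nat_lit 14324885205) (nat_lit 76) (nat_lit 24546160024) (nat_lit 52) (nat_lit 5) (nat_lit 54) (nat_lit 5) (nat_lit 53) (nat_lit 4) (nat_lit 480) (nat_lit 389) (nat_lit 331)) (XT.lf (nat_lit 0) (nat_lit 19709127139) (nat_lit 152) (nat_lit 15267309904) (nat_lit 0)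 (nat_lit 5413596992) (nat_lit 51) (nat_lit 5) (nat_lit 53) (nat_lit 4) (nat_lit 51) (nat_lit 4) (nat_lit 481) (nat_lit 389) (nat_lit 330)))) (XT.nd (nat_lit 78) (nat_lit 228) (nat_lit 0) (XT.lf (nat_lit 0) (nat_lit 25187784378) (nat_lit 76) (nat_lit 15468108128) (nat_lit 76) (nat_lit 1132032916) (nat_lit 50) (nat_lit 4) (nat_lit 51) (nat_lit 5) (nat_lit 51) (nat_lit 4) (nat_lit 482) (nat_lit 389) (nat_lit 329)) (XT.nd (nat_lit 78) (nat_lit 76) (nat_lit 0) (XT.lf (nat_lit 0) (nat_lit 19367024878) (nat_lit 152) (nat_lit 18461542470) (nat_lit 0) (nat_lit 5411015595) (nat_lit 48) (nat_lit 5) (nat_lit 50) (nat_lit 4) (nat_lit 48) (nat_lit 4) (nat_lit 483) (nat_lit 389) (nat_lit 328)) (XT.lf (nat_lit 0) (nat_lit 23916894847) (nat_lit 76) (nat_lit 17412230563) (nat_lit 76) (nat_lit 3420516844) (nat_lit 47) (nat_lit 4) (nat_lit 48) (nat_lit 5) (nat_lit 48) (nat_lit 4) (nat_lit 484) (nat_lit 389) (nat_lit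 327))))) (XT.nd (nat_lit 234) (nat_lit 380) (nat_lit 0) (XT.nd (nat_lit 78) (nat_lit 228) (nat_lit 0) (XT.lf (nat_lit 0) (nat_lit 18058579174) (nat_lit 152) (nat_lit 23819339240) (nat_lit 0) (nat_lit 4441377285) (nat_lit 45) (nat_lit 5) (nat_lit 47) (nat_lit 4) (nat_lit 45) (nat_lit 4) (nat_lit 485) (nat_lit 389) (nat_lit 326)) (XT.nd (nat_lit 78) (nat_lit 152) (nat_lit 0) (XT.lf (nat_lit 0) (nat_lit 20474090531) (nat_lit 76) (nat_lit 20563040906) (nat_lit 76) (nat_lit 6914397292) (nat_lit 44) (nat_lit 4) (nat_lit 45) (nat_lit 5) (nat_lit 45) (nat_lit 4) (nat_lit 486) (nat_lit 389) (nat_lit 325)) (XT.lf (nat_lit 0) (nat_lit 15546344739) (nat_lit 152) (nat_lit 31837910517) (nat_lit 0) (nat_lit 2266162104) (nat_lit 42) (nat_lit 5) (nat_lit 44) (nat_lit 4) (nat_lit 42) (nat_lit 4) (nat_lit 487) (nat_lit 389) (nat_lit 324)))) (XT.nd (nat_lit 156) (nat_lit 152) (nat_lit 0) (XT.nd (nat_lit 78) (nat_lit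 152) (nat_lit 0) (XT.lf (nat_lit 0) (nat_lit 14335254240) (nat_lit 76) (nat_lit 25194270551) (nat_lit 76) (nat_lit 11886399982) (nat_lit 41) (nat_lit 4) (nat_lit 42) (nat_lit 5) (nat_lit 42) (nat_lit 4) (nat_lit 488) (nat_lit 389) (nat_lit 323)) (XT.lf (nat_lit 0) (nat_lit 10130645186) (nat_lit 76) (nat_lit 1428411570) (nat_lit 152) (nat_lit 41697145946) (nat_lit 39) (nat_lit 5) (nat_lit 40) (nat_lit 5) (nat_lit 41) (nat_lit 4) (nat_lit 489) (nat_lit 389) (nat_lit 322))) (XT.nd (nat_lit 78) (nat_lit 76) (nat_lit 0) (XT.lf (nat_lit 0) (nat_lit 4872526957) (nat_lit 76) (nat_lit 31632727303) (nat_lit 76) (nat_lit 18662480894) (nat_lit 38) (nat_lit 4) (nat_lit 39) (nat_lit 5) (nat_lit 39) (nat_lit 4) (nat_lit 490) (nat_lit 389) (nat_lit 321)) (XT.lf (nat_lit 0) (nat_lit 5794086602) (nat_lit 152) (nat_lit 1231471847) (nat_lit 76) (nat_lit 50136354121) (nat_lit 37) (nat_lit 5) (nat_lit 39) (nat_lit 5)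 (nat_lit 38) (nat_lit 4) (nat_lit 491) (nat_lit 389) (nat_lit 320))))))) (XT.nd (nat_lit 57252) (nat_lit 0) (nat_lit 9652) (XT.nd (nat_lit 468) (nat_lit 152) (nat_lit 0) (XT.nd (nat_lit 234) (nat_lit 304) (nat_lit 0) (XT.nd (nat_lit 78) (nat_lit 228) (nat_lit 0) (XT.lf (nat_lit 0) (nat_lit 31686677270) (nat_lit 152) (nat_lit 8495414694) (nat_lit 0) (nat_lit 19050188807) (nat_lit 36) (nat_lit 5) (nat_lit 38) (nat_lit 4) (nat_lit 36) (nat_lit 4) (nat_lit 492) (nat_lit 389) (nat_lit 319)) (XT.nd (nat_lit 78) (nat_lit 152) (nat_lit 0) (XT.lf (nat_lit 0) (nat_lit 44563499653) (nat_lit 76) (nat_lit 14743308934) (nat_lit 76) (nat_lit 2086371588) (nat_lit 35) (nat_lit 4) (nat_lit 36) (nat_lit 5) (nat_lit 36) (nat_lit 4) (nat_lit 493) (nat_lit 389) (nat_lit 318)) (XT.lf (nat_lit 0) (nat_lit 24653470460) (nat_lit 152) (nat_lit 26640615682) (nat_lit 0) (nat_lit 12346273883) (nat_lit 33) (nat_lit 5) (nat_lit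 35) (nat_lit 4) (nat_lit 33) (nat_lit 4) (nat_lit 494) (nat_lit 389) (nat_lit 317)))) (XT.nd (nat_lit 78) (nat_lit 228) (nat_lit 0) (XT.lf (nat_lit 0) (nat_lit 28101716285) (nat_lit 76) (nat_lit 25103610956) (nat_lit 76) (nat_lit 12778406865) (nat_lit 32) (nat_lit 4) (nat_lit 33) (nat_lit 5) (nat_lit 33) (nat_lit 4) (nat_lit 495) (nat_lit 389) (nat_lit 316)) (XT.nd (nat_lit 78) (nat_lit 76) (nat_lit 0) (XT.lf (nat_lit 0) (nat_lit 14853965035) (nat_lit 152) (nat_lit 50702930984) (nat_lit 0) (nat_lit 2871096972) (nat_lit 30) (nat_lit 5) (nat_lit 32) (nat_lit 4) (nat_lit 30) (nat_lit 4) (nat_lit 496) (nat_lit 389) (nat_lit 315)) (XT.lf (nat_lit 0) (nat_lit 5495387884) (nat_lit 76) (nat_lit 38737564467) (nat_lit 76) (nat_lit 26738838786) (nat_lit 29) (nat_lit 4) (nat_lit 30) (nat_lit 5) (nat_lit 30) (nat_lit 4) (nat_lit 497) (nat_lit 389) (nat_lit 314))))) (XT.nd (nat_lit 56472) (nat_lit 0) (nat_lit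 16188) (XT.nd (nat_lit 78) (nat_lit 76) (nat_lit 0) (XT.lf (nat_lit 0) (nat_lit 1865358868) (nat_lit 152) (nat_lit 8227149670) (nat_lit 76) (nat_lit 63536196670) (nat_lit 28) (nat_lit 5) (nat_lit 30) (nat_lit 5) (nat_lit 29) (nat_lit 4) (nat_lit 498) (nat_lit 389) (nat_lit 313)) (XT.nd (nat_lit 56316) (nat_lit 0) (nat_lit 19380) (XT.lf (nat_lit 0) (nat_lit 31987319904) (nat_lit 152) (nat_lit 24094541666) (nat_lit 0) (nat_lit 20309444659) (nat_lit 27) (nat_lit 5) (nat_lit 29) (nat_lit 4) (nat_lit 27) (nat_lit 4) (nat_lit 499) (nat_lit 389) (nat_lit 312)) (XT.lf (nat_lit 0) (nat_lit 3741160783) (nat_lit 608) (nat_lit 29428529) (nat_lit 608) (nat_lit 29428529) (nat_lit 282) (nat_lit 4) (nat_lit 290) (nat_lit 5) (nat_lit 290) (nat_lit 4) (nat_lit 420) (nat_lit 390) (nat_lit 390)))) (XT.nd (nat_lit 156) (nat_lit 1520) (nat_lit 0) (XT.nd (nat_lit 78) (nat_lit 532) (nat_lit 0) (XT.lf (nat_lit 0) (nat_lit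 2474572329) (nat_lit 532) (nat_lit 3753028120) (nat_lit 532) (nat_lit 1492170198) (nat_lit 267) (nat_lit 4) (nat_lit 274) (nat_lit 5) (nat_lit 274) (nat_lit 4) (nat_lit 421) (nat_lit 390) (nat_lit 389)) (XT.lf (nat_lit 0) (nat_lit 4743025107) (nat_lit 532) (nat_lit 2647735741) (nat_lit 0) (nat_lit 457533901) (nat_lit 260) (nat_lit 5) (nat_lit 267) (nat_lit 4) (nat_lit 260) (nat_lit 4) (nat_lit 422) (nat_lit 390) (nat_lit 388))) (XT.nd (nat_lit 78) (nat_lit 532) (nat_lit 0) (XT.lf (nat_lit 0) (nat_lit 43595097) (nat_lit 456) (nat_lit 3069716718) (nat_lit 532) (nat_lit 4871529327) (nat_lit 247) (nat_lit 5) (nat_lit 253) (nat_lit 5) (nat_lit 254) (nat_lit 4) (nat_lit 423) (nat_lit 390) (nat_lit 387)) (XT.lf (nat_lit 0) (nat_lit 1336693212) (nat_lit 532) (nat_lit 5221035167) (nat_lit 76) (nat_lit 1571745456) (nat_lit 240) (nat_lit 5) (nat_lit 247) (nat_lit 5) (nat_lit 241) (nat_lit 4) (nat_lit 424)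 (nat_lit 390) (nat_lit 386)))))) (XT.nd (nat_lit 546) (nat_lit 2888) (nat_lit 0) (XT.nd (nat_lit 234) (nat_lit 1900) (nat_lit 0) (XT.nd (nat_lit 78) (nat_lit 1368) (nat_lit 0) (XT.lf (nat_lit 0) (nat_lit 5875569343) (nat_lit 380) (nat_lit 1791097041) (nat_lit 456) (nat_lit 615872585) (nat_lit 235) (nat_lit 5) (nat_lit 240) (nat_lit 5) (nat_lit 241) (nat_lit 4) (nat_lit 425) (nat_lit 390) (nat_lit 385)) (XT.nd (nat_lit 78) (nat_lit 456) (nat_lit 0) (XT.lf (nat_lit 0) (nat_lit 504594303) (nat_lit 380) (nat_lit 5175853786) (nat_lit 456) (nat_lit 2763372939) (nat_lit 223) (nat_lit 5) (nat_lit 228) (nat_lit 5) (nat_lit 229) (nat_lit 4) (nat_lit 426) (nat_lit 390) (nat_lit 384)) (XT.lf (nat_lit 0) (nat_lit 3534271738) (nat_lit 456) (nat_lit 5029932163) (nat_lit 76) (nat_lit 49533900) (nat_lit 217) (nat_lit 5) (nat_lit 223) (nat_lit 5) (nat_lit 218) (nat_lit 4) (nat_lit 427) (nat_lit 390) (nat_lit 383))))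 (XT.nd (nat_lit 156) (nat_lit 760) (nat_lit 0) (XT.nd (nat_lit 78) (nat_lit 684) (nat_lit 0) (XT.lf (nat_lit 0) (nat_lit 1230562074) (nat_lit 456) (nat_lit 2040011318) (nat_lit 76) (nat_lit 5521662751) (nat_lit 211) (nat_lit 5) (nat_lit 217) (nat_lit 5) (nat_lit 212) (nat_lit 5) (nat_lit 428) (nat_lit 390) (nat_lit 382)) (XT.lf (nat_lit 0) (nat_lit 1071688834) (nat_lit 304) (nat_lit 6626199990) (nat_lit 380) (nat_lit 1281864280) (nat_lit 202) (nat_lit 5) (nat_lit 206) (nat_lit 5) (nat_lit 207) (nat_lit 4) (nat_lit 429) (nat_lit 390) (nat_lit 381))) (XT.nd (nat_lit 78) (nat_lit 380) (nat_lit 0) (XT.lf (nat_lit 0) (nat_lit 4319433847) (nat_lit 304) (nat_lit 862973974) (nat_lit 380) (nat_lit 3993489749) (nat_lit 197) (nat_lit 5) (nat_lit 201) (nat_lit 5) (nat_lit 202) (nat_lit 5) (nat_lit 430) (nat_lit 390) (nat_lit 380)) (XT.lf (nat_lit 0) (nat_lit 2489930277) (nat_lit 380) (nat_lit 1719684589) (nat_lit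 76) (nat_lit 5171781350) (nat_lit 192) (nat_lit 5) (nat_lit 197) (nat_lit 5) (nat_lit 193) (nat_lit 5) (nat_lit 431) (nat_lit 390) (nat_lit 379))))) (XT.nd (nat_lit 234) (nat_lit 1596) (nat_lit 0) (XT.nd (nat_lit 78) (nat_lit 684) (nat_lit 0) (XT.lf (nat_lit 0) (nat_lit 1554878156) (nat_lit 304) (nat_lit 7638577060) (nat_lit 380) (nat_lit 403179066) (nat_lit 184) (nat_lit 5) (nat_lit 188) (nat_lit 5) (nat_lit 189) (nat_lit 4) (nat_lit 432) (nat_lit 390) (nat_lit 378)) (XT.nd (nat_lit 78) (nat_lit 304) (nat_lit 0) (XT.lf (nat_lit 0) (nat_lit 4939955310) (nat_lit 304) (nat_lit 1346651437) (nat_lit 380) (nat_lit 3534120367) (nat_lit 179) (nat_lit 5) (nat_lit 183) (nat_lit 5) (nat_lit 184) (nat_lit 5) (nat_lit 433) (nat_lit 390) (nat_lit 377)) (XT.lf (nat_lit 0) (nat_lit 3183322936) (nat_lit 304) (nat_lit 1632715131) (nat_lit 76) (nat_lit 5238934869) (nat_lit 175) (nat_lit 5) (nat_lit 179) (nat_lit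 5) (nat_lit 176) (nat_lit 5) (nat_lit 434) (nat_lit 390) (nat_lit 376)))) (XT.nd (nat_lit 156) (nat_lit 760) (nat_lit 0) (XT.nd (nat_lit 78) (nat_lit 304) (nat_lit 0) (XT.lf (nat_lit 0) (nat_lit 1758624463) (nat_lit 228) (nat_lit 8410511672) (nat_lit 304) (nat_lit 130582756) (nat_lit 168) (nat_lit 5) (nat_lit 171) (nat_lit 5) (nat_lit 172) (nat_lit 4) (nat_lit 435) (nat_lit 390) (nat_lit 375)) (XT.lf (nat_lit 0) (nat_lit 5248807180) (nat_lit 228) (nat_lit 1591183758) (nat_lit 304) (nat_lit 3713871792) (nat_lit 164) (nat_lit 5) (nat_lit 167) (nat_lit 5) (nat_lit 168) (nat_lit 5) (nat_lit 436) (nat_lit 390) (nat_lit 374))) (XT.nd (nat_lit 78) (nat_lit 456) (nat_lit 0) (XT.lf (nat_lit 0) (nat_lit 3294026637) (nat_lit 304) (nat_lit 1982323270) (nat_lit 76) (nat_lit 5542665577) (nat_lit 160) (nat_lit 5) (nat_lit 164) (nat_lit 5) (nat_lit 161) (nat_lit 5) (nat_lit 437) (nat_lit 390) (nat_lit 373)) (XT.lf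 (nat_lit 0) (nat_lit 1474333616) (nat_lit 228) (nat_lit 9127373863) (nat_lit 304) (nat_lit 493833653) (nat_lit 154) (nat_lit 5) (nat_lit 157) (nat_lit 5) (nat_lit 158) (nat_lit 4) (nat_lit 438) (nat_lit 390) (nat_lit 372))))))))
noncomputable def xc30 : XT := (XT.nd (nat_lit 2028) (nat_lit 3116) (nat_lit 0) (XT.nd (nat_lit 1014) (nat_lit 2356) (nat_lit 0) (XT.nd (nat_lit 468) (nat_lit 1672) (nat_lit 0) (XT.nd (nat_lit 234) (nat_lit 760) (nat_lit 0) (XT.nd (nat_lit 78) (nat_lit 608) (nat_lit 0) (XT.lf (nat_lit 0) (nat_lit 5033966403) (nat_lit 228) (nat_lit 1776686394) (nat_lit 304) (nat_lit 4571571596) (nat_lit 150) (nat_lit 5) (nat_lit 153) (nat_lit 5) (nat_lit 154) (nat_lit 5) (nat_lit 439) (nat_lit 390) (nat_lit 371)) (XT.nd (nat_lit 78) (nat_lit 380) (nat_lit 0) (XT.lf (nat_lit 0) (nat_lit 2779511087) (nat_lit 228) (nat_lit 2990047464) (nat_lit 76) (nat_lit 5911331264) (nat_lit 147) (nat_lit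 5) (nat_lit 150) (nat_lit 5) (nat_lit 148) (nat_lit 5) (nat_lit 440) (nat_lit 390) (nat_lit 370)) (XT.lf (nat_lit 0) (nat_lit 472347107) (nat_lit 152) (nat_lit 9969958686) (nat_lit 228) (nat_lit 1549667148) (nat_lit 142) (nat_lit 5) (nat_lit 144) (nat_lit 5) (nat_lit 145) (nat_lit 4) (nat_lit 441) (nat_lit 390) (nat_lit 369)))) (XT.nd (nat_lit 78) (nat_lit 456) (nat_lit 0) (XT.lf (nat_lit 0) (nat_lit 4060229120) (nat_lit 228) (nat_lit 2080217229) (nat_lit 304) (nat_lit 6173651657) (nat_lit 138) (nat_lit 5) (nat_lit 141) (nat_lit 5) (nat_lit 142) (nat_lit 5) (nat_lit 442) (nat_lit 390) (nat_lit 368)) (XT.nd (nat_lit 78) (nat_lit 228) (nat_lit 0) (XT.lf (nat_lit 0) (nat_lit 1570330873) (nat_lit 228) (nat_lit 4904212639) (nat_lit 76) (nat_lit 6174815076) (nat_lit 135) (nat_lit 5) (nat_lit 138) (nat_lit 5) (nat_lit 136) (nat_lit 5) (nat_lit 443) (nat_lit 390) (nat_lit 367)) (XT.lf (nat_lit 0) (nat_lit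 9629409053) (nat_lit 304) (nat_lit 1477519208) (nat_lit 76) (nat_lit 1890955696) (nat_lit 132) (nat_lit 5) (nat_lit 136) (nat_lit 5) (nat_lit 133) (nat_lit 4) (nat_lit 444) (nat_lit 390) (nat_lit 366))))) (XT.nd (nat_lit 234) (nat_lit 912) (nat_lit 0) (XT.nd (nat_lit 78) (nat_lit 380) (nat_lit 0) (XT.lf (nat_lit 0) (nat_lit 2060020484) (nat_lit 152) (nat_lit 2683140246) (nat_lit 228) (nat_lit 8616079908) (nat_lit 127) (nat_lit 5) (nat_lit 129) (nat_lit 5) (nat_lit 130) (nat_lit 5) (nat_lit 445) (nat_lit 390) (nat_lit 365)) (XT.nd (nat_lit 78) (nat_lit 228) (nat_lit 0) (XT.lf (nat_lit 0) (nat_lit 5720812889) (nat_lit 152) (nat_lit 7573053759) (nat_lit 228) (nat_lit 440705846) (nat_lit 125) (nat_lit 5) (nat_lit 127) (nat_lit 5) (nat_lit 128) (nat_lit 4) (nat_lit 446) (nat_lit 390) (nat_lit 364)) (XT.lf (nat_lit 0) (nat_lit 8059525158) (nat_lit 228) (nat_lit 4670206845) (nat_lit 76) (nat_lit 1394342973)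 (nat_lit 122) (nat_lit 5) (nat_lit 125) (nat_lit 5) (nat_lit 123) (nat_lit 4) (nat_lit 447) (nat_lit 390) (nat_lit 363)))) (XT.nd (nat_lit 156) (nat_lit 380) (nat_lit 0) (XT.nd (nat_lit 78) (nat_lit 304) (nat_lit 0) (XT.lf (nat_lit 0) (nat_lit 2513763148) (nat_lit 228) (nat_lit 1252288242) (nat_lit 76) (nat_lit 10762607046) (nat_lit 119) (nat_lit 5) (nat_lit 122) (nat_lit 5) (nat_lit 120) (nat_lit 5) (nat_lit 448) (nat_lit 390) (nat_lit 362)) (XT.lf (nat_lit 0) (nat_lit 2276695281) (nat_lit 152) (nat_lit 9245304080) (nat_lit 228) (nat_lit 3425879432) (nat_lit 115) (nat_lit 5) (nat_lit 117) (nat_lit 5) (nat_lit 118) (nat_lit 4) (nat_lit 449) (nat_lit 390) (nat_lit 361))) (XT.nd (nat_lit 78) (nat_lit 152) (nat_lit 0) (XT.lf (nat_lit 0) (nat_lit 5591872031) (nat_lit 228) (nat_lit 9459761877) (nat_lit 76) (nat_lit 331562865) (nat_lit 112) (nat_lit 5) (nat_lit 115) (nat_lit 5) (nat_lit 113) (nat_lit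 4) (nat_lit 450) (nat_lit 390) (nat_lit 360)) (XT.lf (nat_lit 0) (nat_lit 9633713357) (nat_lit 152) (nat_lit 5510768741) (nat_lit 228) (nat_lit 690138049) (nat_lit 110) (nat_lit 5) (nat_lit 112) (nat_lit 5) (nat_lit 113) (nat_lit 4) (nat_lit 451) (nat_lit 390) (nat_lit 359)))))) (XT.nd (nat_lit 468) (nat_lit 1216) (nat_lit 0) (XT.nd (nat_lit 234) (nat_lit 532) (nat_lit 0) (XT.nd (nat_lit 78) (nat_lit 380) (nat_lit 0) (XT.lf (nat_lit 0) (nat_lit 8805807349) (nat_lit 228) (nat_lit 2894796164) (nat_lit 76) (nat_lit 4602074762) (nat_lit 107) (nat_lit 5) (nat_lit 110) (nat_lit 5) (nat_lit 108) (nat_lit 4) (nat_lit 452) (nat_lit 390) (nat_lit 358)) (XT.nd (nat_lit 78) (nat_lit 76) (nat_lit 0) (XT.lf (nat_lit 0) (nat_lit 518310748) (nat_lit 152) (nat_lit 1548092388) (nat_lit 228) (nat_lit 14722870982) (nat_lit 103) (nat_lit 5) (nat_lit 105) (nat_lit 5) (nat_lit 106) (nat_lit 5) (nat_lit 453) (nat_lit 390)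 (nat_lit 357)) (XT.lf (nat_lit 0) (nat_lit 4008168701) (nat_lit 76) (nat_lit 8145402713) (nat_lit 152) (nat_lit 5138379681) (nat_lit 102) (nat_lit 5) (nat_lit 103) (nat_lit 5) (nat_lit 104) (nat_lit 4) (nat_lit 454) (nat_lit 390) (nat_lit 356)))) (XT.nd (nat_lit 78) (nat_lit 304) (nat_lit 0) (XT.lf (nat_lit 0) (nat_lit 4958980252) (nat_lit 228) (nat_lit 10219603823) (nat_lit 76) (nat_lit 2635866177) (nat_lit 99) (nat_lit 5) (nat_lit 102) (nat_lit 5) (nat_lit 100) (nat_lit 4) (nat_lit 455) (nat_lit 390) (nat_lit 355)) (XT.nd (nat_lit 78) (nat_lit 228) (nat_lit 0) (XT.lf (nat_lit 0) (nat_lit 11235746821) (nat_lit 76) (nat_lit 4397745524) (nat_lit 152) (nat_lit 2722700441) (nat_lit 98) (nat_lit 5) (nat_lit 99) (nat_lit 5) (nat_lit 100) (nat_lit 4) (nat_lit 456) (nat_lit 390) (nat_lit 354)) (XT.lf (nat_lit 0) (nat_lit 7933416876) (nat_lit 228) (nat_lit 3996101025) (nat_lit 76) (nat_lit 6988086938) (nat_lit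 95) (nat_lit 5) (nat_lit 98) (nat_lit 5) (nat_lit 96) (nat_lit 4) (nat_lit 457) (nat_lit 390) (nat_lit 353))))) (XT.nd (nat_lit 234) (nat_lit 608) (nat_lit 0) (XT.nd (nat_lit 78) (nat_lit 532) (nat_lit 0) (XT.lf (nat_lit 0) (nat_lit 18728349528) (nat_lit 76) (nat_lit 492171347) (nat_lit 152) (nat_lit 281124314) (nat_lit 94) (nat_lit 5) (nat_lit 95) (nat_lit 5) (nat_lit 96) (nat_lit 4) (nat_lit 458) (nat_lit 390) (nat_lit 352)) (XT.nd (nat_lit 78) (nat_lit 228) (nat_lit 0) (XT.lf (nat_lit 0) (nat_lit 2452270977) (nat_lit 76) (nat_lit 8545169116) (nat_lit 152) (nat_lit 9106663920) (nat_lit 90) (nat_lit 5) (nat_lit 91) (nat_lit 5) (nat_lit 92) (nat_lit 4) (nat_lit 459) (nat_lit 390) (nat_lit 351)) (XT.lf (nat_lit 0) (nat_lit 2229285422) (nat_lit 228) (nat_lit 14929321107) (nat_lit 76) (nat_lit 3572210858) (nat_lit 87) (nat_lit 5) (nat_lit 90) (nat_lit 5) (nat_lit 88) (nat_lit 4) (nat_lit 460) (nat_lit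 390) (nat_lit 350)))) (XT.nd (nat_lit 156) (nat_lit 304) (nat_lit 0) (XT.nd (nat_lit 78) (nat_lit 228) (nat_lit 0) (XT.lf (nat_lit 0) (nat_lit 9144035246) (nat_lit 76) (nat_lit 5019603400) (nat_lit 152) (nat_lit 7215925367) (nat_lit 86) (nat_lit 5) (nat_lit 87) (nat_lit 5) (nat_lit 88) (nat_lit 4) (nat_lit 461) (nat_lit 390) (nat_lit 349)) (XT.lf (nat_lit 0) (nat_lit 4759584002) (nat_lit 228) (nat_lit 9516906665) (nat_lit 76) (nat_lit 7776440387) (nat_lit 83) (nat_lit 5) (nat_lit 86) (nat_lit 5) (nat_lit 84) (nat_lit 4) (nat_lit 462) (nat_lit 390) (nat_lit 348))) (XT.nd (nat_lit 78) (nat_lit 228) (nat_lit 0) (XT.lf (nat_lit 0) (nat_lit 15974919774) (nat_lit 76) (nat_lit 1408750526) (nat_lit 152) (nat_lit 5368182475) (nat_lit 82) (nat_lit 5) (nat_lit 83) (nat_lit 5) (nat_lit 84) (nat_lit 4) (nat_lit 463) (nat_lit 390) (nat_lit 347)) (XT.lf (nat_lit 0) (nat_lit 7287773301) (nat_lit 228) (nat_lit 4082099651)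 (nat_lit 76) (nat_lit 12105561985) (nat_lit 79) (nat_lit 5) (nat_lit 82) (nat_lit 5) (nat_lit 80) (nat_lit 4) (nat_lit 464) (nat_lit 390) (nat_lit 346))))))) (XT.nd (nat_lit 1014) (nat_lit 1520) (nat_lit 0) (XT.nd (nat_lit 468) (nat_lit 836) (nat_lit 0) (XT.nd (nat_lit 234) (nat_lit 380) (nat_lit 0) (XT.nd (nat_lit 78) (nat_lit 304) (nat_lit 0) (XT.lf (nat_lit 0) (nat_lit 20664873998) (nat_lit 152) (nat_lit 1339836922) (nat_lit 0) (nat_lit 2222910409) (nat_lit 78) (nat_lit 5) (nat_lit 80) (nat_lit 4) (nat_lit 78) (nat_lit 4) (nat_lit 465) (nat_lit 390) (nat_lit 345)) (XT.nd (nat_lit 78) (nat_lit 76) (nat_lit 0) (XT.lf (nat_lit 0) (nat_lit 1353611274) (nat_lit 76) (nat_lit 8452080627) (nat_lit 152) (nat_lit 15199887449) (nat_lit 75) (nat_lit 5) (nat_lit 76) (nat_lit 5) (nat_lit 77) (nat_lit 4) (nat_lit 466) (nat_lit 390) (nat_lit 344)) (XT.lf (nat_lit 0) (nat_lit 4108957645) (nat_lit 76) (nat_lit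 19909115578) (nat_lit 76) (nat_lit 1795828339) (nat_lit 74) (nat_lit 4) (nat_lit 75) (nat_lit 5) (nat_lit 75) (nat_lit 4) (nat_lit 467) (nat_lit 390) (nat_lit 343)))) (XT.nd (nat_lit 78) (nat_lit 228) (nat_lit 0) (XT.lf (nat_lit 0) (nat_lit 6781314018) (nat_lit 76) (nat_lit 5529745392) (nat_lit 152) (nat_lit 14339873555) (nat_lit 72) (nat_lit 5) (nat_lit 73) (nat_lit 5) (nat_lit 74) (nat_lit 4) (nat_lit 468) (nat_lit 390) (nat_lit 342)) (XT.nd (nat_lit 78) (nat_lit 152) (nat_lit 0) (XT.lf (nat_lit 0) (nat_lit 9456871529) (nat_lit 76) (nat_lit 17916544402) (nat_lit 76) (nat_lit 147249199) (nat_lit 71) (nat_lit 4) (nat_lit 72) (nat_lit 5) (nat_lit 72) (nat_lit 4) (nat_lit 469) (nat_lit 390) (nat_lit 341)) (XT.lf (nat_lit 0) (nat_lit 12039160437) (nat_lit 76) (nat_lit 2686820968) (nat_lit 152) (nat_lit 13695881033) (nat_lit 69) (nat_lit 5) (nat_lit 70) (nat_lit 5) (nat_lit 71) (nat_lit 4) (nat_lit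 470) (nat_lit 390) (nat_lit 340))))) (XT.nd (nat_lit 234) (nat_lit 456) (nat_lit 0) (XT.nd (nat_lit 78) (nat_lit 228) (nat_lit 0) (XT.lf (nat_lit 0) (nat_lit 1295298620) (nat_lit 152) (nat_lit 14783948815) (nat_lit 76) (nat_lit 13278273421) (nat_lit 67) (nat_lit 5) (nat_lit 69) (nat_lit 5) (nat_lit 68) (nat_lit 4) (nat_lit 471) (nat_lit 390) (nat_lit 339)) (XT.nd (nat_lit 78) (nat_lit 152) (nat_lit 0) (XT.lf (nat_lit 0) (nat_lit 17002265266) (nat_lit 152) (nat_lit 13303014931) (nat_lit 0) (nat_lit 23129967) (nat_lit 66) (nat_lit 5) (nat_lit 68) (nat_lit 4) (nat_lit 66) (nat_lit 4) (nat_lit 472) (nat_lit 390) (nat_lit 338)) (XT.lf (nat_lit 0) (nat_lit 2498881973) (nat_lit 152) (nat_lit 11975849500) (nat_lit 76) (nat_lit 16860672723) (nat_lit 64) (nat_lit 5) (nat_lit 66) (nat_lit 5) (nat_lit 65) (nat_lit 4) (nat_lit 473) (nat_lit 390) (nat_lit 337)))) (XT.nd (nat_lit 156) (nat_lit 228) (nat_lit 0)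 (XT.nd (nat_lit 78) (nat_lit 152) (nat_lit 0) (XT.lf (nat_lit 0) (nat_lit 19102611724) (nat_lit 152) (nat_lit 10791905623) (nat_lit 0) (nat_lit 2486381017) (nat_lit 63) (nat_lit 5) (nat_lit 65) (nat_lit 4) (nat_lit 63) (nat_lit 4) (nat_lit 474) (nat_lit 390) (nat_lit 336)) (XT.lf (nat_lit 0) (nat_lit 3392847996) (nat_lit 152) (nat_lit 9789902969) (nat_lit 76) (nat_lit 20283195106) (nat_lit 61) (nat_lit 5) (nat_lit 63) (nat_lit 5) (nat_lit 62) (nat_lit 4) (nat_lit 475) (nat_lit 390) (nat_lit 335))) (XT.nd (nat_lit 78) (nat_lit 152) (nat_lit 0) (XT.lf (nat_lit 0) (nat_lit 20924441836) (nat_lit 152) (nat_lit 8991553859) (nat_lit 0) (nat_lit 4676261237) (nat_lit 60) (nat_lit 5) (nat_lit 62) (nat_lit 4) (nat_lit 60) (nat_lit 4) (nat_lit 476) (nat_lit 390) (nat_lit 334)) (XT.lf (nat_lit 0) (nat_lit 3886836657) (nat_lit 152) (nat_lit 8411754810) (nat_lit 76) (nat_lit 23463310356) (nat_lit 58) (nat_lit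 5) (nat_lit 60) (nat_lit 5) (nat_lit 59) (nat_lit 4) (nat_lit 477) (nat_lit 390) (nat_lit 333)))))) (XT.nd (nat_lit 546) (nat_lit 760) (nat_lit 0) (XT.nd (nat_lit 234) (nat_lit 456) (nat_lit 0) (XT.nd (nat_lit 78) (nat_lit 228) (nat_lit 0) (XT.lf (nat_lit 0) (nat_lit 22373005578) (nat_lit 152) (nat_lit 8106875790) (nat_lit 0) (nat_lit 6495994472) (nat_lit 57) (nat_lit 5) (nat_lit 59) (nat_lit 4) (nat_lit 57) (nat_lit 4) (nat_lit 478) (nat_lit 390) (nat_lit 332)) (XT.nd (nat_lit 78) (nat_lit 76) (nat_lit 0) (XT.lf (nat_lit 0) (nat_lit 3870508343) (nat_lit 152) (nat_lit 8067302391) (nat_lit 76) (nat_lit 26299523858) (nat_lit 55) (nat_lit 5) (nat_lit 57) (nat_lit 5) (nat_lit 56) (nat_lit 4) (nat_lit 479) (nat_lit 390) (nat_lit 331)) (XT.lf (nat_lit 0) (nat_lit 23332161145) (nat_lit 152) (nat_lit 8386673668) (nat_lit 0) (nat_lit 7827695802) (nat_lit 54) (nat_lit 5) (nat_lit 56) (nat_lit 4) (nat_lit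 54) (nat_lit 4) (nat_lit 480) (nat_lit 390) (nat_lit 330)))) (XT.nd (nat_lit 156) (nat_lit 228) (nat_lit 0) (XT.nd (nat_lit 78) (nat_lit 76) (nat_lit 0) (XT.lf (nat_lit 0) (nat_lit 3209832847) (nat_lit 152) (nat_lit 9030266079) (nat_lit 76) (nat_lit 28667677540) (nat_lit 52) (nat_lit 5) (nat_lit 54) (nat_lit 5) (nat_lit 53) (nat_lit 4) (nat_lit 481) (nat_lit 390) (nat_lit 329)) (XT.lf (nat_lit 0) (nat_lit 23660371265) (nat_lit 152) (nat_lit 10131850635) (nat_lit 0) (nat_lit 8528332877) (nat_lit 51) (nat_lit 5) (nat_lit 53) (nat_lit 4) (nat_lit 51) (nat_lit 4) (nat_lit 482) (nat_lit 390) (nat_lit 328))) (XT.nd (nat_lit 78) (nat_lit 76) (nat_lit 0) (XT.lf (nat_lit 0) (nat_lit 1742715592) (nat_lit 152) (nat_lit 11631101305) (nat_lit 76) (nat_lit 30416596130) (nat_lit 49) (nat_lit 5) (nat_lit 51) (nat_lit 5) (nat_lit 50) (nat_lit 4) (nat_lit 483) (nat_lit 390) (nat_lit 327)) (XT.lf (nat_lit 0) (nat_lit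 23185983714) (nat_lit 152) (nat_lit 13705078052) (nat_lit 0) (nat_lit 8424975646) (nat_lit 48) (nat_lit 5) (nat_lit 50) (nat_lit 4) (nat_lit 48) (nat_lit 4) (nat_lit 484) (nat_lit 390) (nat_lit 326))))) (XT.nd (nat_lit 234) (nat_lit 456) (nat_lit 0) (XT.nd (nat_lit 78) (nat_lit 228) (nat_lit 0) (XT.lf (nat_lit 0) (nat_lit 30629478213) (nat_lit 76) (nat_lit 15533998108) (nat_lit 76) (nat_lit 740605062) (nat_lit 47) (nat_lit 4) (nat_lit 48) (nat_lit 5) (nat_lit 48) (nat_lit 4) (nat_lit 485) (nat_lit 390) (nat_lit 325)) (XT.nd (nat_lit 78) (nat_lit 76) (nat_lit 0) (XT.lf (nat_lit 0) (nat_lit 21701672432) (nat_lit 152) (nat_lit 19542167031) (nat_lit 0) (nat_lit 7309210412) (nat_lit 45) (nat_lit 5) (nat_lit 47) (nat_lit 4) (nat_lit 45) (nat_lit 4) (nat_lit 486) (nat_lit 390) (nat_lit 324)) (XT.lf (nat_lit 0) (nat_lit 26809191117) (nat_lit 76) (nat_lit 18940533565) (nat_lit 76) (nat_lit 4519552973) (nat_lit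 44) (nat_lit 4) (nat_lit 45) (nat_lit 5) (nat_lit 45) (nat_lit 4) (nat_lit 487) (nat_lit 390) (nat_lit 323)))) (XT.nd (nat_lit 156) (nat_lit 228) (nat_lit 0) (XT.nd (nat_lit 78) (nat_lit 76) (nat_lit 0) (XT.lf (nat_lit 0) (nat_lit 18957894467) (nat_lit 152) (nat_lit 28165438807) (nat_lit 0) (nat_lit 4930572976) (nat_lit 42) (nat_lit 5) (nat_lit 44) (nat_lit 4) (nat_lit 42) (nat_lit 4) (nat_lit 488) (nat_lit 390) (nat_lit 322)) (XT.lf (nat_lit 0) (nat_lit 20165482158) (nat_lit 76) (nat_lit 23898465477) (nat_lit 76) (nat_lit 9846030214) (nat_lit 41) (nat_lit 4) (nat_lit 42) (nat_lit 5) (nat_lit 42) (nat_lit 4) (nat_lit 489) (nat_lit 390) (nat_lit 321))) (XT.nd (nat_lit 78) (nat_lit 76) (nat_lit 0) (XT.lf (nat_lit 0) (nat_lit 14655193137) (nat_lit 152) (nat_lit 40199438922) (nat_lit 0) (nat_lit 988830865) (nat_lit 39) (nat_lit 5) (nat_lit 41) (nat_lit 4) (nat_lit 39) (nat_lit 4) (nat_lit 490) (nat_lit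 390) (nat_lit 320)) (XT.lf (nat_lit 0) (nat_lit 10038859865) (nat_lit 76) (nat_lit 30750977983) (nat_lit 76) (nat_lit 17062500242) (nat_lit 38) (nat_lit 4) (nat_lit 39) (nat_lit 5) (nat_lit 39) (nat_lit 4) (nat_lit 491) (nat_lit 390) (nat_lit 319))))))))
noncomputable def xc31 : XT := (XT.nd (nat_lit 58188) (nat_lit 0) (nat_lit 4180) (XT.nd (nat_lit 57096) (nat_lit 0) (nat_lit 10336) (XT.nd (nat_lit 468) (nat_lit 152) (nat_lit 0) (XT.nd (nat_lit 234) (nat_lit 304) (nat_lit 0) (XT.nd (nat_lit 78) (nat_lit 152) (nat_lit 0) (XT.lf (nat_lit 0) (nat_lit 3510835637) (nat_lit 76) (nat_lit 4972108070) (nat_lit 152) (nat_lit 51465086028) (nat_lit 36) (nat_lit 5) (nat_lit 37) (nat_lit 5) (nat_lit 38) (nat_lit 4) (nat_lit 492) (nat_lit 390) (nat_lit 318)) (XT.nd (nat_lit 78) (nat_lit 152) (nat_lit 0) (XT.lf (nat_lit 0) (nat_lit 35590126301) (nat_lit 152) (nat_lit 4273773283) (nat_lit 0) (nat_lit 22260418076)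 (nat_lit 36) (nat_lit 5) (nat_lit 38) (nat_lit 4) (nat_lit 36) (nat_lit 4) (nat_lit 493) (nat_lit 390) (nat_lit 317)) (XT.lf (nat_lit 0) (nat_lit 126424189) (nat_lit 152) (nat_lit 13091614859) (nat_lit 76) (nat_lit 51177197484) (nat_lit 34) (nat_lit 5) (nat_lit 36) (nat_lit 5) (nat_lit 35) (nat_lit 4) (nat_lit 494) (nat_lit 390) (nat_lit 316)))) (XT.nd (nat_lit 78) (nat_lit 228) (nat_lit 0) (XT.lf (nat_lit 0) (nat_lit 28116102164) (nat_lit 152) (nat_lit 23499893523) (nat_lit 0) (nat_lit 15139480340) (nat_lit 33) (nat_lit 5) (nat_lit 35) (nat_lit 4) (nat_lit 33) (nat_lit 4) (nat_lit 495) (nat_lit 390) (nat_lit 315)) (XT.nd (nat_lit 78) (nat_lit 152) (nat_lit 0) (XT.lf (nat_lit 0) (nat_lit 33851344476) (nat_lit 76) (nat_lit 24179781222) (nat_lit 76) (nat_lit 11186826051) (nat_lit 32) (nat_lit 4) (nat_lit 33) (nat_lit 5) (nat_lit 33) (nat_lit 4) (nat_lit 496) (nat_lit 390) (nat_lit 314)) (XT.lf (nat_lit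 0) (nat_lit 17741025720) (nat_lit 152) (nat_lit 48932629540) (nat_lit 0) (nat_lit 5111403643) (nat_lit 30) (nat_lit 5) (nat_lit 32) (nat_lit 4) (nat_lit 30) (nat_lit 4) (nat_lit 497) (nat_lit 390) (nat_lit 313))))) (XT.nd (nat_lit 56316) (nat_lit 0) (nat_lit 17632) (XT.nd (nat_lit 78) (nat_lit 76) (nat_lit 0) (XT.lf (nat_lit 0) (nat_lit 9952190469) (nat_lit 76) (nat_lit 38574859697) (nat_lit 76) (nat_lit 25930854293) (nat_lit 29) (nat_lit 4) (nat_lit 30) (nat_lit 5) (nat_lit 30) (nat_lit 4) (nat_lit 498) (nat_lit 390) (nat_lit 312)) (XT.nd (nat_lit 56160) (nat_lit 0) (nat_lit 20520) (XT.lf (nat_lit 0) (nat_lit 3961551756) (nat_lit 152) (nat_lit 4615753744) (nat_lit 76) (nat_lit 68672744697) (nat_lit 28) (nat_lit 5) (nat_lit 30) (nat_lit 5) (nat_lit 29) (nat_lit 4) (nat_lit 499) (nat_lit 390) (nat_lit 311)) (XT.lf (nat_lit 0) (nat_lit 1313004212) (nat_lit 608) (nat_lit 1188112483) (nat_lit 608) (nat_lit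 1188112483) (nat_lit 298) (nat_lit 4) (nat_lit 306) (nat_lit 5) (nat_lit 306) (nat_lit 4) (nat_lit 418) (nat_lit 391) (nat_lit 391)))) (XT.nd (nat_lit 156) (nat_lit 1596) (nat_lit 0) (XT.nd (nat_lit 78) (nat_lit 684) (nat_lit 0) (XT.lf (nat_lit 0) (nat_lit 3676084965) (nat_lit 608) (nat_lit 2579898309) (nat_lit 0) (nat_lit 1230967122) (nat_lit 290) (nat_lit 5) (nat_lit 298) (nat_lit 4) (nat_lit 290) (nat_lit 4) (nat_lit 419) (nat_lit 391) (nat_lit 390)) (XT.lf (nat_lit 0) (nat_lit 2202192433) (nat_lit 684) (nat_lit 303350861) (nat_lit 76) (nat_lit 5097936161) (nat_lit 281) (nat_lit 5) (nat_lit 290) (nat_lit 5) (nat_lit 282) (nat_lit 4) (nat_lit 420) (nat_lit 391) (nat_lit 389))) (XT.nd (nat_lit 78) (nat_lit 456) (nat_lit 0) (XT.lf (nat_lit 0) (nat_lit 586456870) (nat_lit 608) (nat_lit 5597449313) (nat_lit 76) (nat_lit 1543965128) (nat_lit 266) (nat_lit 5) (nat_lit 274) (nat_lit 5) (nat_lit 267)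 (nat_lit 4) (nat_lit 421) (nat_lit 391) (nat_lit 388)) (XT.lf (nat_lit 0) (nat_lit 4668400307) (nat_lit 456) (nat_lit 1985305037) (nat_lit 532) (nat_lit 1206430626) (nat_lit 260) (nat_lit 5) (nat_lit 266) (nat_lit 5) (nat_lit 267) (nat_lit 4) (nat_lit 422) (nat_lit 391) (nat_lit 387)))))) (XT.nd (nat_lit 546) (nat_lit 3192) (nat_lit 0) (XT.nd (nat_lit 234) (nat_lit 2128) (nat_lit 0) (XT.nd (nat_lit 78) (nat_lit 1444) (nat_lit 0) (XT.lf (nat_lit 0) (nat_lit 4822579392) (nat_lit 532) (nat_lit 687479970) (nat_lit 76) (nat_lit 2490656504) (nat_lit 253) (nat_lit 5) (nat_lit 260) (nat_lit 5) (nat_lit 254) (nat_lit 4) (nat_lit 423) (nat_lit 391) (nat_lit 386)) (XT.nd (nat_lit 78) (nat_lit 456) (nat_lit 0) (XT.lf (nat_lit 0) (nat_lit 1966524396) (nat_lit 456) (nat_lit 874785403) (nat_lit 532) (nat_lit 5308227507) (nat_lit 240) (nat_lit 5) (nat_lit 246) (nat_lit 5) (nat_lit 247) (nat_lit 5) (nat_lit 424)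 (nat_lit 391) (nat_lit 385)) (XT.lf (nat_lit 0) (nat_lit 710746534) (nat_lit 456) (nat_lit 3574584705) (nat_lit 76) (nat_lit 4021254914) (nat_lit 234) (nat_lit 5) (nat_lit 240) (nat_lit 5) (nat_lit 235) (nat_lit 5) (nat_lit 425) (nat_lit 391) (nat_lit 384)))) (XT.nd (nat_lit 156) (nat_lit 836) (nat_lit 0) (XT.nd (nat_lit 78) (nat_lit 836) (nat_lit 0) (XT.lf (nat_lit 0) (nat_lit 6835508247) (nat_lit 532) (nat_lit 867012699) (nat_lit 76) (nat_lit 769960405) (nat_lit 228) (nat_lit 5) (nat_lit 235) (nat_lit 5) (nat_lit 229) (nat_lit 4) (nat_lit 426) (nat_lit 391) (nat_lit 383)) (XT.lf (nat_lit 0) (nat_lit 1961843039) (nat_lit 380) (nat_lit 2536021758) (nat_lit 456) (nat_lit 4148437468) (nat_lit 217) (nat_lit 5) (nat_lit 222) (nat_lit 5) (nat_lit 223) (nat_lit 5) (nat_lit 427) (nat_lit 391) (nat_lit 382))) (XT.nd (nat_lit 78) (nat_lit 380) (nat_lit 0) (XT.lf (nat_lit 0) (nat_lit 1987373773) (nat_lit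 456) (nat_lit 3910983790) (nat_lit 76) (nat_lit 2930859888) (nat_lit 211) (nat_lit 5) (nat_lit 217) (nat_lit 5) (nat_lit 212) (nat_lit 5) (nat_lit 428) (nat_lit 391) (nat_lit 381)) (XT.lf (nat_lit 0) (nat_lit 7984997397) (nat_lit 380) (nat_lit 306735082) (nat_lit 456) (nat_lit 729894646) (nat_lit 206) (nat_lit 5) (nat_lit 211) (nat_lit 5) (nat_lit 212) (nat_lit 5) (nat_lit 429) (nat_lit 391) (nat_lit 380))))) (XT.nd (nat_lit 234) (nat_lit 1824) (nat_lit 0) (XT.nd (nat_lit 78) (nat_lit 684) (nat_lit 0) (XT.lf (nat_lit 0) (nat_lit 1937949078) (nat_lit 304) (nat_lit 3640441882) (nat_lit 380) (nat_lit 3643581318) (nat_lit 197) (nat_lit 5) (nat_lit 201) (nat_lit 5) (nat_lit 202) (nat_lit 5) (nat_lit 430) (nat_lit 391) (nat_lit 379)) (XT.nd (nat_lit 78) (nat_lit 304) (nat_lit 0) (XT.lf (nat_lit 0) (nat_lit 2673723836) (nat_lit 380) (nat_lit 4383781802) (nat_lit 76) (nat_lit 2374646127) (nat_lit 192) (nat_lit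 5) (nat_lit 197) (nat_lit 5) (nat_lit 193) (nat_lit 5) (nat_lit 431) (nat_lit 391) (nat_lit 378)) (XT.lf (nat_lit 0) (nat_lit 8263846409) (nat_lit 304) (nat_lit 948362795) (nat_lit 380) (nat_lit 440134805) (nat_lit 188) (nat_lit 5) (nat_lit 192) (nat_lit 5) (nat_lit 193) (nat_lit 5) (nat_lit 432) (nat_lit 391) (nat_lit 377)))) (XT.nd (nat_lit 156) (nat_lit 836) (nat_lit 0) (XT.nd (nat_lit 78) (nat_lit 304) (nat_lit 0) (XT.lf (nat_lit 0) (nat_lit 1698911345) (nat_lit 304) (nat_lit 4394474172) (nat_lit 380) (nat_lit 3787774345) (nat_lit 179) (nat_lit 5) (nat_lit 183) (nat_lit 5) (nat_lit 184) (nat_lit 5) (nat_lit 433) (nat_lit 391) (nat_lit 376)) (XT.lf (nat_lit 0) (nat_lit 2769973115) (nat_lit 304) (nat_lit 5192571802) (nat_lit 76) (nat_lit 2157875839) (nat_lit 175) (nat_lit 5) (nat_lit 179) (nat_lit 5) (nat_lit 176) (nat_lit 5) (nat_lit 434) (nat_lit 391) (nat_lit 375))) (XT.nd (nat_lit 78) (nat_lit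 532) (nat_lit 0) (XT.lf (nat_lit 0) (nat_lit 8254090302) (nat_lit 304) (nat_lit 1332238040) (nat_lit 380) (nat_lit 783924541) (nat_lit 171) (nat_lit 5) (nat_lit 175) (nat_lit 5) (nat_lit 176) (nat_lit 5) (nat_lit 435) (nat_lit 391) (nat_lit 374)) (XT.lf (nat_lit 0) (nat_lit 1039518328) (nat_lit 228) (nat_lit 4988085121) (nat_lit 304) (nat_lit 4602137778) (nat_lit 164) (nat_lit 5) (nat_lit 167) (nat_lit 5) (nat_lit 168) (nat_lit 5) (nat_lit 436) (nat_lit 391) (nat_lit 373))))))) (XT.nd (nat_lit 1014) (nat_lit 2584) (nat_lit 0) (XT.nd (nat_lit 468) (nat_lit 1824) (nat_lit 0) (XT.nd (nat_lit 234) (nat_lit 912) (nat_lit 0) (XT.nd (nat_lit 78) (nat_lit 532) (nat_lit 0) (XT.lf (nat_lit 0) (nat_lit 2250547446) (nat_lit 304) (nat_lit 6549459990) (nat_lit 76) (nat_lit 2100321177) (nat_lit 160) (nat_lit 5) (nat_lit 164) (nat_lit 5) (nat_lit 161) (nat_lit 5) (nat_lit 437) (nat_lit 391) (nat_lit 372)) (XT.nd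 (nat_lit 78) (nat_lit 304) (nat_lit 0) (XT.lf (nat_lit 0) (nat_lit 7746694747) (nat_lit 228) (nat_lit 1639099222) (nat_lit 304) (nat_lit 1796235303) (nat_lit 157) (nat_lit 5) (nat_lit 160) (nat_lit 5) (nat_lit 161) (nat_lit 5) (nat_lit 438) (nat_lit 391) (nat_lit 371)) (XT.lf (nat_lit 0) (nat_lit 5342705737) (nat_lit 304) (nat_lit 257259016) (nat_lit 76) (nat_lit 5874853998) (nat_lit 153) (nat_lit 5) (nat_lit 157) (nat_lit 5) (nat_lit 154) (nat_lit 5) (nat_lit 439) (nat_lit 391) (nat_lit 370)))) (XT.nd (nat_lit 78) (nat_lit 456) (nat_lit 0) (XT.lf (nat_lit 0) (nat_lit 1063889369) (nat_lit 228) (nat_lit 8686849418) (nat_lit 76) (nat_lit 2028763069) (nat_lit 147) (nat_lit 5) (nat_lit 150) (nat_lit 5) (nat_lit 148) (nat_lit 5) (nat_lit 440) (nat_lit 391) (nat_lit 369)) (XT.nd (nat_lit 78) (nat_lit 228) (nat_lit 0) (XT.lf (nat_lit 0) (nat_lit 6511373332) (nat_lit 228) (nat_lit 2045228988) (nat_lit 304)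 (nat_lit 3539086729) (nat_lit 144) (nat_lit 5) (nat_lit 147) (nat_lit 5) (nat_lit 148) (nat_lit 5) (nat_lit 441) (nat_lit 391) (nat_lit 368)) (XT.lf (nat_lit 0) (nat_lit 3987323489) (nat_lit 228) (nat_lit 2406264267) (nat_lit 76) (nat_lit 6030877279) (nat_lit 141) (nat_lit 5) (nat_lit 144) (nat_lit 5) (nat_lit 142) (nat_lit 5) (nat_lit 442) (nat_lit 391) (nat_lit 367))))) (XT.nd (nat_lit 234) (nat_lit 912) (nat_lit 0) (XT.nd (nat_lit 78) (nat_lit 532) (nat_lit 0) (XT.lf (nat_lit 0) (nat_lit 892210047) (nat_lit 152) (nat_lit 10988388140) (nat_lit 228) (nat_lit 886121200) (nat_lit 136) (nat_lit 5) (nat_lit 138) (nat_lit 5) (nat_lit 139) (nat_lit 4) (nat_lit 443) (nat_lit 391) (nat_lit 366)) (XT.nd (nat_lit 78) (nat_lit 228) (nat_lit 0) (XT.lf (nat_lit 0) (nat_lit 4287823671) (nat_lit 228) (nat_lit 2729683264) (nat_lit 304) (nat_lit 6103176918) (nat_lit 132) (nat_lit 5) (nat_lit 135) (nat_lit 5) (nat_lit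 136) (nat_lit 5) (nat_lit 444) (nat_lit 391) (nat_lit 365)) (XT.lf (nat_lit 0) (nat_lit 1858237736) (nat_lit 228) (nat_lit 5704176887) (nat_lit 76) (nat_lit 5926523300) (nat_lit 129) (nat_lit 5) (nat_lit 132) (nat_lit 5) (nat_lit 130) (nat_lit 5) (nat_lit 445) (nat_lit 391) (nat_lit 364)))) (XT.nd (nat_lit 156) (nat_lit 380) (nat_lit 0) (XT.nd (nat_lit 78) (nat_lit 380) (nat_lit 0) (XT.lf (nat_lit 0) (nat_lit 10167865888) (nat_lit 228) (nat_lit 2500542957) (nat_lit 76) (nat_lit 1203094426) (nat_lit 127) (nat_lit 5) (nat_lit 130) (nat_lit 5) (nat_lit 128) (nat_lit 4) (nat_lit 446) (nat_lit 391) (nat_lit 363)) (XT.lf (nat_lit 0) (nat_lit 775702380) (nat_lit 152) (nat_lit 3881634570) (nat_lit 228) (nat_lit 9610698679) (nat_lit 122) (nat_lit 5) (nat_lit 124) (nat_lit 5) (nat_lit 125) (nat_lit 5) (nat_lit 447) (nat_lit 391) (nat_lit 362))) (XT.nd (nat_lit 78) (nat_lit 228) (nat_lit 0) (XT.lf (nat_lit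 0) (nat_lit 4196228583) (nat_lit 152) (nat_lit 9290879764) (nat_lit 228) (nat_lit 1192367899) (nat_lit 120) (nat_lit 5) (nat_lit 122) (nat_lit 5) (nat_lit 123) (nat_lit 4) (nat_lit 448) (nat_lit 391) (nat_lit 361)) (XT.lf (nat_lit 0) (nat_lit 7593366468) (nat_lit 228) (nat_lit 7415482573) (nat_lit 76) (nat_lit 97565435) (nat_lit 117) (nat_lit 5) (nat_lit 120) (nat_lit 5) (nat_lit 118) (nat_lit 4) (nat_lit 449) (nat_lit 391) (nat_lit 360)))))) (XT.nd (nat_lit 546) (nat_lit 1216) (nat_lit 0) (XT.nd (nat_lit 234) (nat_lit 608) (nat_lit 0) (XT.nd (nat_lit 78) (nat_lit 532) (nat_lit 0) (XT.lf (nat_lit 0) (nat_lit 1373098400) (nat_lit 228) (nat_lit 4291740530) (nat_lit 76) (nat_lit 9884413861) (nat_lit 114) (nat_lit 5) (nat_lit 117) (nat_lit 5) (nat_lit 115) (nat_lit 5) (nat_lit 450) (nat_lit 391) (nat_lit 359)) (XT.nd (nat_lit 78) (nat_lit 380) (nat_lit 0) (XT.lf (nat_lit 0) (nat_lit 10660205478) (nat_lit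 228) (nat_lit 1107287979) (nat_lit 76) (nat_lit 4241148627) (nat_lit 112) (nat_lit 5) (nat_lit 115) (nat_lit 5) (nat_lit 113) (nat_lit 4) (nat_lit 451) (nat_lit 391) (nat_lit 358)) (XT.lf (nat_lit 0) (nat_lit 2204892129) (nat_lit 152) (nat_lit 1794926918) (nat_lit 228) (nat_lit 12485382983) (nat_lit 107) (nat_lit 5) (nat_lit 109) (nat_lit 5) (nat_lit 110) (nat_lit 5) (nat_lit 452) (nat_lit 391) (nat_lit 357)))) (XT.nd (nat_lit 156) (nat_lit 304) (nat_lit 0) (XT.nd (nat_lit 78) (nat_lit 228) (nat_lit 0) (XT.lf (nat_lit 0) (nat_lit 5586159409) (nat_lit 76) (nat_lit 8297594011) (nat_lit 152) (nat_lit 3094883013) (nat_lit 106) (nat_lit 5) (nat_lit 107) (nat_lit 5) (nat_lit 108) (nat_lit 4) (nat_lit 453) (nat_lit 391) (nat_lit 356)) (XT.lf (nat_lit 0) (nat_lit 6763366497) (nat_lit 228) (nat_lit 8441378425) (nat_lit 76) (nat_lit 2286140994) (nat_lit 103) (nat_lit 5) (nat_lit 106) (nat_lit 5) (nat_lit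 104) (nat_lit 4) (nat_lit 454) (nat_lit 391) (nat_lit 355))) (XT.nd (nat_lit 78) (nat_lit 228) (nat_lit 0) (XT.lf (nat_lit 0) (nat_lit 12588779198) (nat_lit 76) (nat_lit 4642805916) (nat_lit 152) (nat_lit 790812899) (nat_lit 102) (nat_lit 5) (nat_lit 103) (nat_lit 5) (nat_lit 104) (nat_lit 4) (nat_lit 455) (nat_lit 391) (nat_lit 354)) (XT.lf (nat_lit 0) (nat_lit 9622662807) (nat_lit 228) (nat_lit 2408880940) (nat_lit 76) (nat_lit 6541119488) (nat_lit 99) (nat_lit 5) (nat_lit 102) (nat_lit 5) (nat_lit 100) (nat_lit 4) (nat_lit 456) (nat_lit 391) (nat_lit 353))))) (XT.nd (nat_lit 234) (nat_lit 608) (nat_lit 0) (XT.nd (nat_lit 78) (nat_lit 304) (nat_lit 0) (XT.lf (nat_lit 0) (nat_lit 734633774) (nat_lit 152) (nat_lit 794982085) (nat_lit 228) (nat_lit 17615196341) (nat_lit 95) (nat_lit 5) (nat_lit 97) (nat_lit 5) (nat_lit 98) (nat_lit 5) (nat_lit 457) (nat_lit 391) (nat_lit 352)) (XT.nd (nat_lit 78)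 (nat_lit 228) (nat_lit 0) (XT.lf (nat_lit 0) (nat_lit 3905383294) (nat_lit 76) (nat_lit 8694088448) (nat_lit 152) (nat_lit 7135898776) (nat_lit 94) (nat_lit 5) (nat_lit 95) (nat_lit 5) (nat_lit 96) (nat_lit 4) (nat_lit 458) (nat_lit 391) (nat_lit 351)) (XT.lf (nat_lit 0) (nat_lit 3957373972) (nat_lit 228) (nat_lit 13172746367) (nat_lit 76) (nat_lit 3219257846) (nat_lit 91) (nat_lit 5) (nat_lit 94) (nat_lit 5) (nat_lit 92) (nat_lit 4) (nat_lit 459) (nat_lit 391) (nat_lit 350)))) (XT.nd (nat_lit 156) (nat_lit 304) (nat_lit 0) (XT.nd (nat_lit 78) (nat_lit 228) (nat_lit 0) (XT.lf (nat_lit 0) (nat_lit 10466454692) (nat_lit 76) (nat_lit 5213669610) (nat_lit 152) (nat_lit 5305171446) (nat_lit 90) (nat_lit 5) (nat_lit 91) (nat_lit 5) (nat_lit 92) (nat_lit 4) (nat_lit 460) (nat_lit 391) (nat_lit 349)) (XT.lf (nat_lit 0) (nat_lit 6425752897) (nat_lit 228) (nat_lit 7843737926) (nat_lit 76) (nat_lit 7375290431)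 (nat_lit 87) (nat_lit 5) (nat_lit 90) (nat_lit 5) (nat_lit 88) (nat_lit 4) (nat_lit 461) (nat_lit 391) (nat_lit 348))) (XT.nd (nat_lit 78) (nat_lit 228) (nat_lit 0) (XT.lf (nat_lit 0) (nat_lit 17208782125) (nat_lit 76) (nat_lit 1626646072) (nat_lit 152) (nat_lit 3494180163) (nat_lit 86) (nat_lit 5) (nat_lit 87) (nat_lit 5) (nat_lit 88) (nat_lit 4) (nat_lit 462) (nat_lit 391) (nat_lit 347)) (XT.lf (nat_lit 0) (nat_lit 8916043137) (nat_lit 228) (nat_lit 2443765561) (nat_lit 76) (nat_lit 11678190817) (nat_lit 83) (nat_lit 5) (nat_lit 86) (nat_lit 5) (nat_lit 84) (nat_lit 4) (nat_lit 463) (nat_lit 391) (nat_lit 346))))))))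
noncomputable def xc32 : XT := (XT.nd (nat_lit 2028) (nat_lit 988) (nat_lit 0) (XT.nd (nat_lit 1014) (nat_lit 1444) (nat_lit 0) (XT.nd (nat_lit 468) (nat_lit 836) (nat_lit 0) (XT.nd (nat_lit 234) (nat_lit 304) (nat_lit 0) (XT.nd (nat_lit 78) (nat_lit 304) (nat_lit 0) (XT.lf (nat_lit 0) (nat_lit 317387858) (nat_lit 152) (nat_lit 21760603760) (nat_lit 152) (nat_lit 1696677096) (nat_lit 80) (nat_lit 4) (nat_lit 82) (nat_lit 5) (nat_lit 82) (nat_lit 4) (nat_lit 464) (nat_lit 391) (nat_lit 345)) (XT.nd (nat_lit 78) (nat_lit 152) (nat_lit 0) (XT.lf (nat_lit 0) (nat_lit 3048397347) (nat_lit 76) (nat_lit 8392786445) (nat_lit 152) (nat_lit 13094331372) (nat_lit 78) (nat_lit 5) (nat_lit 79) (nat_lit 5) (nat_lit 80) (nat_lit 4) (nat_lit 465) (nat_lit 391) (nat_lit 344)) (XT.lf (nat_lit 0) (nat_lit 106847217) (nat_lit 152) (nat_lit 19477362866) (nat_lit 76) (nat_lit 5742609796) (nat_lit 76) (nat_lit 5) (nat_lit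 78) (nat_lit 5) (nat_lit 77) (nat_lit 4) (nat_lit 466) (nat_lit 391) (nat_lit 343)))) (XT.nd (nat_lit 78) (nat_lit 228) (nat_lit 0) (XT.lf (nat_lit 0) (nat_lit 8571080919) (nat_lit 76) (nat_lit 5401873989) (nat_lit 152) (nat_lit 12172575683) (nat_lit 75) (nat_lit 5) (nat_lit 76) (nat_lit 5) (nat_lit 77) (nat_lit 4) (nat_lit 467) (nat_lit 391) (nat_lit 342)) (XT.nd (nat_lit 78) (nat_lit 76) (nat_lit 0) (XT.lf (nat_lit 0) (nat_lit 1788001457) (nat_lit 152) (nat_lit 15680087278) (nat_lit 76) (nat_lit 9527929908) (nat_lit 73) (nat_lit 5) (nat_lit 75) (nat_lit 5) (nat_lit 74) (nat_lit 4) (nat_lit 468) (nat_lit 391) (nat_lit 341)) (XT.lf (nat_lit 0) (nat_lit 14009067695) (nat_lit 76) (nat_lit 2447406759) (nat_lit 152) (nat_lit 11421093116) (nat_lit 72) (nat_lit 5) (nat_lit 73) (nat_lit 5) (nat_lit 74) (nat_lit 4) (nat_lit 469) (nat_lit 391) (nat_lit 340))))) (XT.nd (nat_lit 234) (nat_lit 456) (nat_lit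 0) (XT.nd (nat_lit 78) (nat_lit 228) (nat_lit 0) (XT.lf (nat_lit 0) (nat_lit 3340184059) (nat_lit 152) (nat_lit 12133249228) (nat_lit 76) (nat_lit 13318541363) (nat_lit 70) (nat_lit 5) (nat_lit 72) (nat_lit 5) (nat_lit 71) (nat_lit 4) (nat_lit 470) (nat_lit 391) (nat_lit 339)) (XT.nd (nat_lit 78) (nat_lit 152) (nat_lit 0) (XT.lf (nat_lit 0) (nat_lit 18855671589) (nat_lit 152) (nat_lit 10467835570) (nat_lit 0) (nat_lit 417632420) (nat_lit 69) (nat_lit 5) (nat_lit 71) (nat_lit 4) (nat_lit 69) (nat_lit 4) (nat_lit 471) (nat_lit 391) (nat_lit 338)) (XT.lf (nat_lit 0) (nat_lit 4713201677) (nat_lit 152) (nat_lit 8941767710) (nat_lit 76) (nat_lit 17069820193) (nat_lit 67) (nat_lit 5) (nat_lit 69) (nat_lit 5) (nat_lit 68) (nat_lit 4) (nat_lit 472) (nat_lit 391) (nat_lit 337)))) (XT.nd (nat_lit 156) (nat_lit 228) (nat_lit 0) (XT.nd (nat_lit 78) (nat_lit 152) (nat_lit 0) (XT.lf (nat_lit 0) (nat_lit 21137456731)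 (nat_lit 152) (nat_lit 7507943548) (nat_lit 0) (nat_lit 3100865500) (nat_lit 66) (nat_lit 5) (nat_lit 68) (nat_lit 4) (nat_lit 66) (nat_lit 4) (nat_lit 473) (nat_lit 391) (nat_lit 336)) (XT.lf (nat_lit 0) (nat_lit 5844377144) (nat_lit 152) (nat_lit 6235493933) (nat_lit 76) (nat_lit 20725675194) (nat_lit 64) (nat_lit 5) (nat_lit 66) (nat_lit 5) (nat_lit 65) (nat_lit 4) (nat_lit 474) (nat_lit 391) (nat_lit 335))) (XT.nd (nat_lit 78) (nat_lit 152) (nat_lit 0) (XT.lf (nat_lit 0) (nat_lit 23213259240) (nat_lit 152) (nat_lit 5109397177) (nat_lit 0) (nat_lit 5582610308) (nat_lit 63) (nat_lit 5) (nat_lit 65) (nat_lit 4) (nat_lit 63) (nat_lit 4) (nat_lit 475) (nat_lit 391) (nat_lit 334)) (XT.lf (nat_lit 0) (nat_lit 6656181342) (nat_lit 152) (nat_lit 4174069011) (nat_lit 76) (nat_lit 24216172076) (nat_lit 61) (nat_lit 5) (nat_lit 63) (nat_lit 5) (nat_lit 62) (nat_lit 4) (nat_lit 476) (nat_lit 391) (nat_lit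 333)))))) (XT.nd (nat_lit 468) (nat_lit 760) (nat_lit 0) (XT.nd (nat_lit 234) (nat_lit 380) (nat_lit 0) (XT.nd (nat_lit 78) (nat_lit 228) (nat_lit 0) (XT.lf (nat_lit 0) (nat_lit 25002177697) (nat_lit 152) (nat_lit 3448834969) (nat_lit 0) (nat_lit 7779901970) (nat_lit 60) (nat_lit 5) (nat_lit 62) (nat_lit 4) (nat_lit 60) (nat_lit 4) (nat_lit 477) (nat_lit 391) (nat_lit 332)) (XT.nd (nat_lit 78) (nat_lit 76) (nat_lit 0) (XT.lf (nat_lit 0) (nat_lit 7053433696) (nat_lit 152) (nat_lit 2952651242) (nat_lit 76) (nat_lit 27454735323) (nat_lit 58) (nat_lit 5) (nat_lit 60) (nat_lit 5) (nat_lit 59) (nat_lit 4) (nat_lit 478) (nat_lit 391) (nat_lit 331)) (XT.lf (nat_lit 0) (nat_lit 26404434929) (nat_lit 152) (nat_lit 2741652073) (nat_lit 0) (nat_lit 9591190688) (nat_lit 57) (nat_lit 5) (nat_lit 59) (nat_lit 4) (nat_lit 57) (nat_lit 4) (nat_lit 479) (nat_lit 391) (nat_lit 330)))) (XT.nd (nat_lit 78) (nat_lit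 228) (nat_lit 0) (XT.lf (nat_lit 0) (nat_lit 6919996810) (nat_lit 152) (nat_lit 2808664977) (nat_lit 76) (nat_lit 30334852721) (nat_lit 55) (nat_lit 5) (nat_lit 57) (nat_lit 5) (nat_lit 56) (nat_lit 4) (nat_lit 480) (nat_lit 391) (nat_lit 329)) (XT.nd (nat_lit 78) (nat_lit 152) (nat_lit 0) (XT.lf (nat_lit 0) (nat_lit 27297812868) (nat_lit 152) (nat_lit 3249324851) (nat_lit 0) (nat_lit 10892740572) (nat_lit 54) (nat_lit 5) (nat_lit 56) (nat_lit 4) (nat_lit 54) (nat_lit 4) (nat_lit 481) (nat_lit 391) (nat_lit 328)) (XT.lf (nat_lit 0) (nat_lit 6114877848) (nat_lit 152) (nat_lit 4029749100) (nat_lit 76) (nat_lit 32726194764) (nat_lit 52) (nat_lit 5) (nat_lit 54) (nat_lit 5) (nat_lit 53) (nat_lit 4) (nat_lit 482) (nat_lit 391) (nat_lit 327))))) (XT.nd (nat_lit 234) (nat_lit 456) (nat_lit 0) (XT.nd (nat_lit 78) (nat_lit 228) (nat_lit 0) (XT.lf (nat_lit 0) (nat_lit 27533446762) (nat_lit 152) (nat_lit 5288035218)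 (nat_lit 0) (nat_lit 11534392184) (nat_lit 51) (nat_lit 5) (nat_lit 53) (nat_lit 4) (nat_lit 51) (nat_lit 4) (nat_lit 483) (nat_lit 391) (nat_lit 326)) (XT.nd (nat_lit 78) (nat_lit 76) (nat_lit 0) (XT.lf (nat_lit 0) (nat_lit 4467634240) (nat_lit 152) (nat_lit 6963113596) (nat_lit 76) (nat_lit 34470046213) (nat_lit 49) (nat_lit 5) (nat_lit 51) (nat_lit 5) (nat_lit 50) (nat_lit 4) (nat_lit 484) (nat_lit 391) (nat_lit 325)) (XT.lf (nat_lit 0) (nat_lit 26930868018) (nat_lit 152) (nat_lit 9238820351) (nat_lit 0) (nat_lit 11334577508) (nat_lit 48) (nat_lit 5) (nat_lit 50) (nat_lit 4) (nat_lit 48) (nat_lit 4) (nat_lit 485) (nat_lit 391) (nat_lit 324)))) (XT.nd (nat_lit 156) (nat_lit 228) (nat_lit 0) (XT.nd (nat_lit 78) (nat_lit 76) (nat_lit 0) (XT.lf (nat_lit 0) (nat_lit 1772963695) (nat_lit 152) (nat_lit 12026548335) (nat_lit 76) (nat_lit 35373929528) (nat_lit 46) (nat_lit 5) (nat_lit 48) (nat_lit 5)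 (nat_lit 47) (nat_lit 4) (nat_lit 486) (nat_lit 391) (nat_lit 323)) (XT.lf (nat_lit 0) (nat_lit 25272165849) (nat_lit 152) (nat_lit 15559511962) (nat_lit 0) (nat_lit 10074457112) (nat_lit 45) (nat_lit 5) (nat_lit 47) (nat_lit 4) (nat_lit 45) (nat_lit 4) (nat_lit 487) (nat_lit 391) (nat_lit 322))) (XT.nd (nat_lit 78) (nat_lit 152) (nat_lit 0) (XT.lf (nat_lit 0) (nat_lit 32967243471) (nat_lit 76) (nat_lit 17483334042) (nat_lit 76) (nat_lit 2259758119) (nat_lit 44) (nat_lit 4) (nat_lit 45) (nat_lit 5) (nat_lit 45) (nat_lit 4) (nat_lit 488) (nat_lit 391) (nat_lit 321)) (XT.lf (nat_lit 0) (nat_lit 22295115714) (nat_lit 152) (nat_lit 24798774478) (nat_lit 0) (nat_lit 7491027037) (nat_lit 42) (nat_lit 5) (nat_lit 44) (nat_lit 4) (nat_lit 42) (nat_lit 4) (nat_lit 489) (nat_lit 391) (nat_lit 320))))))) (XT.nd (nat_lit 56940) (nat_lit 0) (nat_lit 12084) (XT.nd (nat_lit 468) (nat_lit 380) (nat_lit 0) (XT.nd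 (nat_lit 234) (nat_lit 304) (nat_lit 0) (XT.nd (nat_lit 78) (nat_lit 228) (nat_lit 0) (XT.lf (nat_lit 0) (nat_lit 25811819945) (nat_lit 76) (nat_lit 22775458047) (nat_lit 76) (nat_lit 7948590439) (nat_lit 41) (nat_lit 4) (nat_lit 42) (nat_lit 5) (nat_lit 42) (nat_lit 4) (nat_lit 490) (nat_lit 391) (nat_lit 319)) (XT.nd (nat_lit 78) (nat_lit 76) (nat_lit 0) (XT.lf (nat_lit 0) (nat_lit 17685096420) (nat_lit 152) (nat_lit 37612604370) (nat_lit 0) (nat_lit 3269016976) (nat_lit 39) (nat_lit 5) (nat_lit 41) (nat_lit 4) (nat_lit 39) (nat_lit 4) (nat_lit 491) (nat_lit 391) (nat_lit 318)) (XT.lf (nat_lit 0) (nat_lit 15005842821) (nat_lit 76) (nat_lit 30054163449) (nat_lit 76) (nat_lit 15618024623) (nat_lit 38) (nat_lit 4) (nat_lit 39) (nat_lit 5) (nat_lit 39) (nat_lit 4) (nat_lit 492) (nat_lit 391) (nat_lit 317)))) (XT.nd (nat_lit 78) (nat_lit 152) (nat_lit 0) (XT.lf (nat_lit 0) (nat_lit 8066980789) (nat_lit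 76) (nat_lit 3027710731) (nat_lit 152) (nat_lit 51785108164) (nat_lit 36) (nat_lit 5) (nat_lit 37) (nat_lit 5) (nat_lit 38) (nat_lit 4) (nat_lit 493) (nat_lit 391) (nat_lit 316)) (XT.nd (nat_lit 78) (nat_lit 152) (nat_lit 0) (XT.lf (nat_lit 0) (nat_lit 39473138436) (nat_lit 152) (nat_lit 273029161) (nat_lit 0) (nat_lit 25421257419) (nat_lit 36) (nat_lit 5) (nat_lit 38) (nat_lit 4) (nat_lit 36) (nat_lit 4) (nat_lit 494) (nat_lit 391) (nat_lit 315)) (XT.lf (nat_lit 0) (nat_lit 2195662498) (nat_lit 152) (nat_lit 9611509492) (nat_lit 76) (nat_lit 55745935757) (nat_lit 34) (nat_lit 5) (nat_lit 36) (nat_lit 5) (nat_lit 35) (nat_lit 4) (nat_lit 495) (nat_lit 391) (nat_lit 314))))) (XT.nd (nat_lit 234) (nat_lit 76) (nat_lit 0) (XT.nd (nat_lit 78) (nat_lit 228) (nat_lit 0) (XT.lf (nat_lit 0) (nat_lit 31544545078) (nat_lit 152) (nat_lit 20617969431) (nat_lit 0) (nat_lit 17870053234) (nat_lit 33) (nat_lit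 5) (nat_lit 35) (nat_lit 4) (nat_lit 33) (nat_lit 4) (nat_lit 496) (nat_lit 391) (nat_lit 313)) (XT.nd (nat_lit 78) (nat_lit 152) (nat_lit 0) (XT.lf (nat_lit 0) (nat_lit 39484539707) (nat_lit 76) (nat_lit 23412343723) (nat_lit 76) (nat_lit 9723037052) (nat_lit 32) (nat_lit 4) (nat_lit 33) (nat_lit 5) (nat_lit 33) (nat_lit 4) (nat_lit 497) (nat_lit 391) (nat_lit 312)) (XT.lf (nat_lit 0) (nat_lit 20573076945) (nat_lit 152) (nat_lit 47474092768) (nat_lit 0) (nat_lit 7268789537) (nat_lit 30) (nat_lit 5) (nat_lit 32) (nat_lit 4) (nat_lit 30) (nat_lit 4) (nat_lit 498) (nat_lit 391) (nat_lit 311)))) (XT.nd (nat_lit 56082) (nat_lit 0) (nat_lit 20368) (XT.nd (nat_lit 56004) (nat_lit 0) (nat_lit 22572) (XT.lf (nat_lit 0) (nat_lit 14243027377) (nat_lit 76) (nat_lit 38599219014) (nat_lit 76) (nat_lit 25281885504) (nat_lit 29) (nat_lit 4) (nat_lit 30) (nat_lit 5) (nat_lit 30) (nat_lit 4) (nat_lit 499) (nat_lit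 391) (nat_lit 310)) (XT.lf (nat_lit 0) (nat_lit 1445501472) (nat_lit 1292) (nat_lit 699650636) (nat_lit 0) (nat_lit 1445501472) (nat_lit 326) (nat_lit 5) (nat_lit 343) (nat_lit 4) (nat_lit 326) (nat_lit 4) (nat_lit 416) (nat_lit 392) (nat_lit 392))) (XT.nd (nat_lit 78) (nat_lit 684) (nat_lit 0) (XT.lf (nat_lit 0) (nat_lit 467170208) (nat_lit 608) (nat_lit 1104700236) (nat_lit 684) (nat_lit 5706345851) (nat_lit 306) (nat_lit 5) (nat_lit 314) (nat_lit 5) (nat_lit 315) (nat_lit 4) (nat_lit 417) (nat_lit 392) (nat_lit 391)) (XT.lf (nat_lit 0) (nat_lit 123326212) (nat_lit 684) (nat_lit 4912514113) (nat_lit 76) (nat_lit 2346736380) (nat_lit 297) (nat_lit 5) (nat_lit 306) (nat_lit 5) (nat_lit 298) (nat_lit 4) (nat_lit 418) (nat_lit 392) (nat_lit 390)))))) (XT.nd (nat_lit 546) (nat_lit 3496) (nat_lit 0) (XT.nd (nat_lit 234) (nat_lit 2432) (nat_lit 0) (XT.nd (nat_lit 78) (nat_lit 1824) (nat_lit 0) (XT.lf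 (nat_lit 0) (nat_lit 4579964297) (nat_lit 532) (nat_lit 1401008506) (nat_lit 608) (nat_lit 1513866535) (nat_lit 290) (nat_lit 5) (nat_lit 297) (nat_lit 5) (nat_lit 298) (nat_lit 4) (nat_lit 419) (nat_lit 392) (nat_lit 389)) (XT.nd (nat_lit 78) (nat_lit 1140) (nat_lit 0) (XT.lf (nat_lit 0) (nat_lit 4306628650) (nat_lit 684) (nat_lit 816513037) (nat_lit 76) (nat_lit 2492002982) (nat_lit 281) (nat_lit 5) (nat_lit 290) (nat_lit 5) (nat_lit 282) (nat_lit 4) (nat_lit 420) (nat_lit 392) (nat_lit 388)) (XT.lf (nat_lit 0) (nat_lit 1423606535) (nat_lit 532) (nat_lit 1060199877) (nat_lit 608) (nat_lit 5259770113) (nat_lit 266) (nat_lit 5) (nat_lit 273) (nat_lit 5) (nat_lit 274) (nat_lit 5) (nat_lit 421) (nat_lit 392) (nat_lit 387)))) (XT.nd (nat_lit 156) (nat_lit 1444) (nat_lit 0) (XT.nd (nat_lit 78) (nat_lit 456) (nat_lit 0) (XT.lf (nat_lit 0) (nat_lit 518931034) (nat_lit 532) (nat_lit 4098422942) (nat_lit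 76) (nat_lit 3262591235) (nat_lit 259) (nat_lit 5) (nat_lit 266) (nat_lit 5) (nat_lit 260) (nat_lit 5) (nat_lit 422) (nat_lit 392) (nat_lit 386)) (XT.lf (nat_lit 0) (nat_lit 6248705322) (nat_lit 456) (nat_lit 121027841) (nat_lit 532) (nat_lit 1655089292) (nat_lit 253) (nat_lit 5) (nat_lit 259) (nat_lit 5) (nat_lit 260) (nat_lit 5) (nat_lit 423) (nat_lit 392) (nat_lit 385))) (XT.nd (nat_lit 78) (nat_lit 456) (nat_lit 0) (XT.lf (nat_lit 0) (nat_lit 638168141) (nat_lit 456) (nat_lit 3553367992) (nat_lit 532) (nat_lit 3985966448) (nat_lit 240) (nat_lit 5) (nat_lit 246) (nat_lit 5) (nat_lit 247) (nat_lit 5) (nat_lit 424) (nat_lit 392) (nat_lit 384)) (XT.lf (nat_lit 0) (nat_lit 1850838506) (nat_lit 456) (nat_lit 5131473248) (nat_lit 76) (nat_lit 1356553885) (nat_lit 234) (nat_lit 5) (nat_lit 240) (nat_lit 5) (nat_lit 235) (nat_lit 5) (nat_lit 425) (nat_lit 392) (nat_lit 383))))) (XT.nd (nat_lit 234) (nat_lit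 1748) (nat_lit 0) (XT.nd (nat_lit 78) (nat_lit 1292) (nat_lit 0) (XT.lf (nat_lit 0) (nat_lit 5871531154) (nat_lit 456) (nat_lit 1968168587) (nat_lit 532) (nat_lit 669142406) (nat_lit 228) (nat_lit 5) (nat_lit 234) (nat_lit 5) (nat_lit 235) (nat_lit 5) (nat_lit 426) (nat_lit 392) (nat_lit 382)) (XT.nd (nat_lit 78) (nat_lit 836) (nat_lit 0) (XT.lf (nat_lit 0) (nat_lit 5280875070) (nat_lit 456) (nat_lit 63617994) (nat_lit 76) (nat_lit 3342872904) (nat_lit 222) (nat_lit 5) (nat_lit 228) (nat_lit 5) (nat_lit 223) (nat_lit 5) (nat_lit 427) (nat_lit 392) (nat_lit 381)) (XT.lf (nat_lit 0) (nat_lit 2556936199) (nat_lit 456) (nat_lit 6199707043) (nat_lit 76) (nat_lit 118164804) (nat_lit 211) (nat_lit 5) (nat_lit 217) (nat_lit 5) (nat_lit 212) (nat_lit 5) (nat_lit 428) (nat_lit 392) (nat_lit 380)))) (XT.nd (nat_lit 156) (nat_lit 988) (nat_lit 0) (XT.nd (nat_lit 78) (nat_lit 380) (nat_lit 0) (XT.lf (nat_lit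 0) (nat_lit 5497109931) (nat_lit 380) (nat_lit 3235698515) (nat_lit 456) (nat_lit 338267367) (nat_lit 206) (nat_lit 5) (nat_lit 211) (nat_lit 5) (nat_lit 212) (nat_lit 5) (nat_lit 429) (nat_lit 392) (nat_lit 379)) (XT.lf (nat_lit 0) (nat_lit 5786554961) (nat_lit 380) (nat_lit 867191326) (nat_lit 76) (nat_lit 2622839613) (nat_lit 201) (nat_lit 5) (nat_lit 206) (nat_lit 5) (nat_lit 202) (nat_lit 5) (nat_lit 430) (nat_lit 392) (nat_lit 378))) (XT.nd (nat_lit 78) (nat_lit 304) (nat_lit 0) (XT.lf (nat_lit 0) (nat_lit 1981842240) (nat_lit 304) (nat_lit 679459531) (nat_lit 380) (nat_lit 6830311609) (nat_lit 192) (nat_lit 5) (nat_lit 196) (nat_lit 5) (nat_lit 197) (nat_lit 5) (nat_lit 431) (nat_lit 392) (nat_lit 377)) (XT.lf (nat_lit 0) (nat_lit 4929660560) (nat_lit 304) (nat_lit 4133084253) (nat_lit 380) (nat_lit 653174929) (nat_lit 188) (nat_lit 5) (nat_lit 192) (nat_lit 5) (nat_lit 193) (nat_lit 5) (nat_lit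 432) (nat_lit 392) (nat_lit 376))))))))
noncomputable def xc33 : XT := (XT.nd (nat_lit 2028) (nat_lit 3496) (nat_lit 0) (XT.nd (nat_lit 1014) (nat_lit 2812) (nat_lit 0) (XT.nd (nat_lit 468) (nat_lit 1900) (nat_lit 0) (XT.nd (nat_lit 234) (nat_lit 1064) (nat_lit 0) (XT.nd (nat_lit 78) (nat_lit 912) (nat_lit 0) (XT.lf (nat_lit 0) (nat_lit 5705852152) (nat_lit 380) (nat_lit 1983853937) (nat_lit 76) (nat_lit 2260453088) (nat_lit 183) (nat_lit 5) (nat_lit 188) (nat_lit 5) (nat_lit 184) (nat_lit 5) (nat_lit 433) (nat_lit 392) (nat_lit 375)) (XT.nd (nat_lit 78) (nat_lit 304) (nat_lit 0) (XT.lf (nat_lit 0) (nat_lit 933848579) (nat_lit 228) (nat_lit 1213338912) (nat_lit 304) (nat_lit 8047621516) (nat_lit 175) (nat_lit 5) (nat_lit 178) (nat_lit 5) (nat_lit 179) (nat_lit 5) (nat_lit 434) (nat_lit 392) (nat_lit 374)) (XT.lf (nat_lit 0) (nat_lit 3965537876) (nat_lit 304) (nat_lit 4852001540) (nat_lit 380) (nat_lit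 1631484135) (nat_lit 171) (nat_lit 5) (nat_lit 175) (nat_lit 5) (nat_lit 176) (nat_lit 5) (nat_lit 435) (nat_lit 392) (nat_lit 373)))) (XT.nd (nat_lit 78) (nat_lit 760) (nat_lit 0) (XT.lf (nat_lit 0) (nat_lit 5016587648) (nat_lit 304) (nat_lit 3623498873) (nat_lit 76) (nat_lit 2074071792) (nat_lit 167) (nat_lit 5) (nat_lit 171) (nat_lit 5) (nat_lit 168) (nat_lit 5) (nat_lit 436) (nat_lit 392) (nat_lit 372)) (XT.nd (nat_lit 78) (nat_lit 456) (nat_lit 0) (XT.lf (nat_lit 0) (nat_lit 987192490) (nat_lit 304) (nat_lit 671296804) (nat_lit 76) (nat_lit 9332253224) (nat_lit 163) (nat_lit 5) (nat_lit 167) (nat_lit 5) (nat_lit 164) (nat_lit 5) (nat_lit 437) (nat_lit 392) (nat_lit 371)) (XT.lf (nat_lit 0) (nat_lit 2385782471) (nat_lit 228) (nat_lit 5574130741) (nat_lit 304) (nat_lit 3317407628) (nat_lit 157) (nat_lit 5) (nat_lit 160) (nat_lit 5) (nat_lit 161) (nat_lit 5) (nat_lit 438) (nat_lit 392) (nat_lit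 370))))) (XT.nd (nat_lit 234) (nat_lit 1140) (nat_lit 0) (XT.nd (nat_lit 78) (nat_lit 456) (nat_lit 0) (XT.lf (nat_lit 0) (nat_lit 3670987161) (nat_lit 304) (nat_lit 6014605592) (nat_lit 76) (nat_lit 1890364877) (nat_lit 153) (nat_lit 5) (nat_lit 157) (nat_lit 5) (nat_lit 154) (nat_lit 5) (nat_lit 439) (nat_lit 392) (nat_lit 369)) (XT.nd (nat_lit 78) (nat_lit 228) (nat_lit 0) (XT.lf (nat_lit 0) (nat_lit 8827323187) (nat_lit 228) (nat_lit 2174503238) (nat_lit 304) (nat_lit 884868862) (nat_lit 150) (nat_lit 5) (nat_lit 153) (nat_lit 5) (nat_lit 154) (nat_lit 5) (nat_lit 440) (nat_lit 392) (nat_lit 368)) (XT.lf (nat_lit 0) (nat_lit 6427107053) (nat_lit 228) (nat_lit 50846343) (nat_lit 76) (nat_lit 5731125919) (nat_lit 147) (nat_lit 5) (nat_lit 150) (nat_lit 5) (nat_lit 148) (nat_lit 5) (nat_lit 441) (nat_lit 392) (nat_lit 367)))) (XT.nd (nat_lit 156) (nat_lit 456) (nat_lit 0) (XT.nd (nat_lit 78) (nat_lit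 228) (nat_lit 0) (XT.lf (nat_lit 0) (nat_lit 1594653023) (nat_lit 228) (nat_lit 9412443102) (nat_lit 76) (nat_lit 1537213947) (nat_lit 141) (nat_lit 5) (nat_lit 144) (nat_lit 5) (nat_lit 142) (nat_lit 5) (nat_lit 442) (nat_lit 392) (nat_lit 366)) (XT.lf (nat_lit 0) (nat_lit 6372097698) (nat_lit 228) (nat_lit 2939538278) (nat_lit 304) (nat_lit 3580218555) (nat_lit 138) (nat_lit 5) (nat_lit 141) (nat_lit 5) (nat_lit 142) (nat_lit 5) (nat_lit 443) (nat_lit 392) (nat_lit 365))) (XT.nd (nat_lit 78) (nat_lit 228) (nat_lit 0) (XT.lf (nat_lit 0) (nat_lit 4161483331) (nat_lit 228) (nat_lit 3551123297) (nat_lit 76) (nat_lit 5540425474) (nat_lit 135) (nat_lit 5) (nat_lit 138) (nat_lit 5) (nat_lit 136) (nat_lit 5) (nat_lit 444) (nat_lit 392) (nat_lit 364)) (XT.lf (nat_lit 0) (nat_lit 12292081412) (nat_lit 304) (nat_lit 482527197) (nat_lit 76) (nat_lit 854323289) (nat_lit 132) (nat_lit 5) (nat_lit 136) (nat_lit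 5) (nat_lit 133) (nat_lit 4) (nat_lit 445) (nat_lit 392) (nat_lit 363)))))) (XT.nd (nat_lit 468) (nat_lit 1292) (nat_lit 0) (XT.nd (nat_lit 234) (nat_lit 760) (nat_lit 0) (XT.nd (nat_lit 78) (nat_lit 380) (nat_lit 0) (XT.lf (nat_lit 0) (nat_lit 2672449654) (nat_lit 152) (nat_lit 4149268195) (nat_lit 228) (nat_lit 7195480416) (nat_lit 127) (nat_lit 5) (nat_lit 129) (nat_lit 5) (nat_lit 130) (nat_lit 5) (nat_lit 446) (nat_lit 392) (nat_lit 362)) (XT.nd (nat_lit 78) (nat_lit 152) (nat_lit 0) (XT.lf (nat_lit 0) (nat_lit 1021633509) (nat_lit 228) (nat_lit 8472166697) (nat_lit 76) (nat_lit 4927298372) (nat_lit 124) (nat_lit 5) (nat_lit 127) (nat_lit 5) (nat_lit 125) (nat_lit 5) (nat_lit 447) (nat_lit 392) (nat_lit 361)) (XT.lf (nat_lit 0) (nat_lit 9298004319) (nat_lit 152) (nat_lit 302856457) (nat_lit 228) (nat_lit 5239195715) (nat_lit 122) (nat_lit 5) (nat_lit 124) (nat_lit 5) (nat_lit 125) (nat_lit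 5) (nat_lit 448) (nat_lit 392) (nat_lit 360)))) (XT.nd (nat_lit 78) (nat_lit 532) (nat_lit 0) (XT.lf (nat_lit 0) (nat_lit 3419129444) (nat_lit 228) (nat_lit 2560401121) (nat_lit 76) (nat_lit 9294823393) (nat_lit 119) (nat_lit 5) (nat_lit 122) (nat_lit 5) (nat_lit 120) (nat_lit 5) (nat_lit 449) (nat_lit 392) (nat_lit 359)) (XT.nd (nat_lit 78) (nat_lit 228) (nat_lit 0) (XT.lf (nat_lit 0) (nat_lit 516731825) (nat_lit 152) (nat_lit 12000903369) (nat_lit 228) (nat_lit 3207708091) (nat_lit 115) (nat_lit 5) (nat_lit 117) (nat_lit 5) (nat_lit 118) (nat_lit 4) (nat_lit 450) (nat_lit 392) (nat_lit 358)) (XT.lf (nat_lit 0) (nat_lit 3709758362) (nat_lit 152) (nat_lit 2212170613) (nat_lit 228) (nat_lit 10270331346) (nat_lit 112) (nat_lit 5) (nat_lit 114) (nat_lit 5) (nat_lit 115) (nat_lit 5) (nat_lit 451) (nat_lit 392) (nat_lit 357))))) (XT.nd (nat_lit 234) (nat_lit 760) (nat_lit 0) (XT.nd (nat_lit 78) (nat_lit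 380) (nat_lit 0) (XT.lf (nat_lit 0) (nat_lit 6978477031) (nat_lit 152) (nat_lit 8625348316) (nat_lit 228) (nat_lit 1072883087) (nat_lit 110) (nat_lit 5) (nat_lit 112) (nat_lit 5) (nat_lit 113) (nat_lit 4) (nat_lit 452) (nat_lit 392) (nat_lit 356)) (XT.nd (nat_lit 78) (nat_lit 152) (nat_lit 0) (XT.lf (nat_lit 0) (nat_lit 8547367769) (nat_lit 228) (nat_lit 6865076106) (nat_lit 76) (nat_lit 1766547633) (nat_lit 107) (nat_lit 5) (nat_lit 110) (nat_lit 5) (nat_lit 108) (nat_lit 4) (nat_lit 453) (nat_lit 392) (nat_lit 355)) (XT.lf (nat_lit 0) (nat_lit 1089261127) (nat_lit 152) (nat_lit 3967103857) (nat_lit 76) (nat_lit 12643835519) (nat_lit 105) (nat_lit 5) (nat_lit 107) (nat_lit 5) (nat_lit 106) (nat_lit 5) (nat_lit 454) (nat_lit 392) (nat_lit 354)))) (XT.nd (nat_lit 156) (nat_lit 304) (nat_lit 0) (XT.nd (nat_lit 78) (nat_lit 304) (nat_lit 0) (XT.lf (nat_lit 0) (nat_lit 11282277204) (nat_lit 228) (nat_lit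 1038043407) (nat_lit 76) (nat_lit 5919648680) (nat_lit 103) (nat_lit 5) (nat_lit 106) (nat_lit 5) (nat_lit 104) (nat_lit 4) (nat_lit 455) (nat_lit 392) (nat_lit 353)) (XT.lf (nat_lit 0) (nat_lit 2024816303) (nat_lit 152) (nat_lit 1275404745) (nat_lit 228) (nat_lit 15500069443) (nat_lit 99) (nat_lit 5) (nat_lit 101) (nat_lit 5) (nat_lit 102) (nat_lit 5) (nat_lit 456) (nat_lit 392) (nat_lit 352))) (XT.nd (nat_lit 78) (nat_lit 228) (nat_lit 0) (XT.lf (nat_lit 0) (nat_lit 5118587082) (nat_lit 76) (nat_lit 9039612347) (nat_lit 152) (nat_lit 5221430828) (nat_lit 98) (nat_lit 5) (nat_lit 99) (nat_lit 5) (nat_lit 100) (nat_lit 4) (nat_lit 457) (nat_lit 392) (nat_lit 351)) (XT.lf (nat_lit 0) (nat_lit 5628399456) (nat_lit 228) (nat_lit 11679728852) (nat_lit 76) (nat_lit 2673223947) (nat_lit 95) (nat_lit 5) (nat_lit 98) (nat_lit 5) (nat_lit 96) (nat_lit 4) (nat_lit 458) (nat_lit 392) (nat_lit 350))))))) (XT.nd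 (nat_lit 1014) (nat_lit 1596) (nat_lit 0) (XT.nd (nat_lit 468) (nat_lit 912) (nat_lit 0) (XT.nd (nat_lit 234) (nat_lit 608) (nat_lit 0) (XT.nd (nat_lit 78) (nat_lit 304) (nat_lit 0) (XT.lf (nat_lit 0) (nat_lit 11524503823) (nat_lit 76) (nat_lit 5614710535) (nat_lit 152) (nat_lit 3465601642) (nat_lit 94) (nat_lit 5) (nat_lit 95) (nat_lit 5) (nat_lit 96) (nat_lit 4) (nat_lit 459) (nat_lit 392) (nat_lit 349)) (XT.nd (nat_lit 78) (nat_lit 76) (nat_lit 0) (XT.lf (nat_lit 0) (nat_lit 8019008007) (nat_lit 228) (nat_lit 6462262535) (nat_lit 76) (nat_lit 6769635878) (nat_lit 91) (nat_lit 5) (nat_lit 94) (nat_lit 5) (nat_lit 92) (nat_lit 4) (nat_lit 460) (nat_lit 392) (nat_lit 348)) (XT.lf (nat_lit 0) (nat_lit 18147664199) (nat_lit 76) (nat_lit 2065048816) (nat_lit 152) (nat_lit 1709363652) (nat_lit 90) (nat_lit 5) (nat_lit 91) (nat_lit 5) (nat_lit 92) (nat_lit 4) (nat_lit 461) (nat_lit 392) (nat_lit 347))))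 (XT.nd (nat_lit 78) (nat_lit 380) (nat_lit 0) (XT.lf (nat_lit 0) (nat_lit 10452258866) (nat_lit 228) (nat_lit 1132025288) (nat_lit 76) (nat_lit 11031555208) (nat_lit 87) (nat_lit 5) (nat_lit 90) (nat_lit 5) (nat_lit 88) (nat_lit 4) (nat_lit 462) (nat_lit 392) (nat_lit 346)) (XT.nd (nat_lit 78) (nat_lit 76) (nat_lit 0) (XT.lf (nat_lit 0) (nat_lit 64935277) (nat_lit 228) (nat_lit 21689829407) (nat_lit 76) (nat_lit 1582492620) (nat_lit 83) (nat_lit 5) (nat_lit 86) (nat_lit 5) (nat_lit 84) (nat_lit 4) (nat_lit 463) (nat_lit 392) (nat_lit 345)) (XT.lf (nat_lit 0) (nat_lit 4366403654) (nat_lit 76) (nat_lit 8591590994) (nat_lit 152) (nat_lit 11123998870) (nat_lit 82) (nat_lit 5) (nat_lit 83) (nat_lit 5) (nat_lit 84) (nat_lit 4) (nat_lit 464) (nat_lit 392) (nat_lit 344))))) (XT.nd (nat_lit 234) (nat_lit 456) (nat_lit 0) (XT.nd (nat_lit 78) (nat_lit 228) (nat_lit 0) (XT.lf (nat_lit 0) (nat_lit 1833937283)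 (nat_lit 228) (nat_lit 17684337289) (nat_lit 76) (nat_lit 5338200919) (nat_lit 79) (nat_lit 5) (nat_lit 82) (nat_lit 5) (nat_lit 80) (nat_lit 4) (nat_lit 465) (nat_lit 392) (nat_lit 343)) (XT.nd (nat_lit 78) (nat_lit 152) (nat_lit 0) (XT.lf (nat_lit 0) (nat_lit 9930890554) (nat_lit 76) (nat_lit 5557221761) (nat_lit 152) (nat_lit 10169913601) (nat_lit 78) (nat_lit 5) (nat_lit 79) (nat_lit 5) (nat_lit 80) (nat_lit 4) (nat_lit 466) (nat_lit 392) (nat_lit 342)) (XT.lf (nat_lit 0) (nat_lit 3548618401) (nat_lit 152) (nat_lit 13774782491) (nat_lit 76) (nat_lit 9166649616) (nat_lit 76) (nat_lit 5) (nat_lit 78) (nat_lit 5) (nat_lit 77) (nat_lit 4) (nat_lit 467) (nat_lit 392) (nat_lit 341)))) (XT.nd (nat_lit 156) (nat_lit 228) (nat_lit 0) (XT.nd (nat_lit 78) (nat_lit 152) (nat_lit 0) (XT.lf (nat_lit 0) (nat_lit 15484704427) (nat_lit 76) (nat_lit 2522026038) (nat_lit 152) (nat_lit 9346006156) (nat_lit 75)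 (nat_lit 5) (nat_lit 76) (nat_lit 5) (nat_lit 77) (nat_lit 4) (nat_lit 468) (nat_lit 392) (nat_lit 340)) (XT.lf (nat_lit 0) (nat_lit 5176109902) (nat_lit 152) (nat_lit 10031458440) (nat_lit 76) (nat_lit 13039274572) (nat_lit 73) (nat_lit 5) (nat_lit 75) (nat_lit 5) (nat_lit 74) (nat_lit 4) (nat_lit 469) (nat_lit 392) (nat_lit 339))) (XT.nd (nat_lit 78) (nat_lit 152) (nat_lit 0) (XT.lf (nat_lit 0) (nat_lit 20485570206) (nat_lit 152) (nat_lit 8222199535) (nat_lit 0) (nat_lit 467473371) (nat_lit 72) (nat_lit 5) (nat_lit 74) (nat_lit 4) (nat_lit 72) (nat_lit 4) (nat_lit 470) (nat_lit 392) (nat_lit 338)) (XT.lf (nat_lit 0) (nat_lit 6674339465) (nat_lit 152) (nat_lit 6542861503) (nat_lit 76) (nat_lit 16919344459) (nat_lit 70) (nat_lit 5) (nat_lit 72) (nat_lit 5) (nat_lit 71) (nat_lit 4) (nat_lit 471) (nat_lit 392) (nat_lit 337)))))) (XT.nd (nat_lit 546) (nat_lit 760) (nat_lit 0) (XT.nd (nat_lit 234) (nat_lit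 532) (nat_lit 0) (XT.nd (nat_lit 78) (nat_lit 228) (nat_lit 0) (XT.lf (nat_lit 0) (nat_lit 22900958431) (nat_lit 152) (nat_lit 4907886944) (nat_lit 0) (nat_lit 3326263161) (nat_lit 69) (nat_lit 5) (nat_lit 71) (nat_lit 4) (nat_lit 69) (nat_lit 4) (nat_lit 472) (nat_lit 392) (nat_lit 336)) (XT.nd (nat_lit 78) (nat_lit 76) (nat_lit 0) (XT.lf (nat_lit 0) (nat_lit 7990256886) (nat_lit 152) (nat_lit 3419351745) (nat_lit 76) (nat_lit 20760166624) (nat_lit 67) (nat_lit 5) (nat_lit 69) (nat_lit 5) (nat_lit 68) (nat_lit 4) (nat_lit 473) (nat_lit 392) (nat_lit 335)) (XT.lf (nat_lit 0) (nat_lit 25173992335) (nat_lit 152) (nat_lit 2023728817) (nat_lit 0) (nat_lit 6046456652) (nat_lit 66) (nat_lit 5) (nat_lit 68) (nat_lit 4) (nat_lit 66) (nat_lit 4) (nat_lit 474) (nat_lit 392) (nat_lit 334)))) (XT.nd (nat_lit 156) (nat_lit 228) (nat_lit 0) (XT.nd (nat_lit 78) (nat_lit 152) (nat_lit 0) (XT.lf (nat_lit 0) (nat_lit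 9057730761) (nat_lit 152) (nat_lit 797474487) (nat_lit 76) (nat_lit 24502973770) (nat_lit 64) (nat_lit 5) (nat_lit 66) (nat_lit 5) (nat_lit 65) (nat_lit 4) (nat_lit 475) (nat_lit 392) (nat_lit 333)) (XT.lf (nat_lit 0) (nat_lit 284312422) (nat_lit 76) (nat_lit 26954489640) (nat_lit 76) (nat_lit 8275771581) (nat_lit 62) (nat_lit 4) (nat_lit 63) (nat_lit 5) (nat_lit 63) (nat_lit 4) (nat_lit 476) (nat_lit 392) (nat_lit 332))) (XT.nd (nat_lit 78) (nat_lit 76) (nat_lit 0) (XT.lf (nat_lit 0) (nat_lit 1177926602) (nat_lit 76) (nat_lit 8628455643) (nat_lit 152) (nat_lit 26907830284) (nat_lit 60) (nat_lit 5) (nat_lit 61) (nat_lit 5) (nat_lit 62) (nat_lit 4) (nat_lit 477) (nat_lit 392) (nat_lit 331)) (XT.lf (nat_lit 0) (nat_lit 1850013351) (nat_lit 76) (nat_lit 27169729043) (nat_lit 76) (nat_lit 8939685474) (nat_lit 59) (nat_lit 4) (nat_lit 60) (nat_lit 5) (nat_lit 60) (nat_lit 4) (nat_lit 478) (nat_lit 392)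 (nat_lit 330))))) (XT.nd (nat_lit 234) (nat_lit 380) (nat_lit 0) (XT.nd (nat_lit 78) (nat_lit 228) (nat_lit 0) (XT.lf (nat_lit 0) (nat_lit 2277206028) (nat_lit 76) (nat_lit 7846712339) (nat_lit 152) (nat_lit 29128400357) (nat_lit 57) (nat_lit 5) (nat_lit 58) (nat_lit 5) (nat_lit 59) (nat_lit 4) (nat_lit 479) (nat_lit 392) (nat_lit 329)) (XT.nd (nat_lit 78) (nat_lit 152) (nat_lit 0) (XT.lf (nat_lit 0) (nat_lit 2402216045) (nat_lit 76) (nat_lit 27987508683) (nat_lit 76) (nat_lit 10204457033) (nat_lit 56) (nat_lit 4) (nat_lit 57) (nat_lit 5) (nat_lit 57) (nat_lit 4) (nat_lit 480) (nat_lit 392) (nat_lit 328)) (XT.lf (nat_lit 0) (nat_lit 2230020716) (nat_lit 76) (nat_lit 7647854933) (nat_lit 152) (nat_lit 32110451027) (nat_lit 54) (nat_lit 5) (nat_lit 55) (nat_lit 5) (nat_lit 56) (nat_lit 4) (nat_lit 481) (nat_lit 392) (nat_lit 327)))) (XT.nd (nat_lit 156) (nat_lit 152) (nat_lit 0) (XT.nd (nat_lit 78)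 (nat_lit 152) (nat_lit 0) (XT.lf (nat_lit 0) (nat_lit 1660689775) (nat_lit 76) (nat_lit 29556792418) (nat_lit 76) (nat_lit 12217739808) (nat_lit 53) (nat_lit 4) (nat_lit 54) (nat_lit 5) (nat_lit 54) (nat_lit 4) (nat_lit 482) (nat_lit 392) (nat_lit 326)) (XT.lf (nat_lit 0) (nat_lit 728123948) (nat_lit 76) (nat_lit 8188887765) (nat_lit 152) (nat_lit 36022453056) (nat_lit 51) (nat_lit 5) (nat_lit 52) (nat_lit 5) (nat_lit 53) (nat_lit 4) (nat_lit 483) (nat_lit 392) (nat_lit 325))) (XT.nd (nat_lit 78) (nat_lit 152) (nat_lit 0) (XT.lf (nat_lit 0) (nat_lit 31350080038) (nat_lit 152) (nat_lit 699459247) (nat_lit 0) (nat_lit 14450923732) (nat_lit 51) (nat_lit 5) (nat_lit 53) (nat_lit 4) (nat_lit 51) (nat_lit 4) (nat_lit 484) (nat_lit 392) (nat_lit 324)) (XT.lf (nat_lit 0) (nat_lit 7083562772) (nat_lit 152) (nat_lit 2549779231) (nat_lit 76) (nat_lit 38490709771) (nat_lit 49) (nat_lit 5) (nat_lit 51) (nat_lit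 5) (nat_lit 50) (nat_lit 4) (nat_lit 485) (nat_lit 392) (nat_lit 323))))))))
noncomputable def xc34 : XT := (XT.nd (nat_lit 57798) (nat_lit 0) (nat_lit 6232) (XT.nd (nat_lit 1014) (nat_lit 152) (nat_lit 0) (XT.nd (nat_lit 468) (nat_lit 684) (nat_lit 0) (XT.nd (nat_lit 234) (nat_lit 304) (nat_lit 0) (XT.nd (nat_lit 78) (nat_lit 228) (nat_lit 0) (XT.lf (nat_lit 0) (nat_lit 30622613340) (nat_lit 152) (nat_lit 5028188487) (nat_lit 0) (nat_lit 14158315980) (nat_lit 48) (nat_lit 5) (nat_lit 50) (nat_lit 4) (nat_lit 48) (nat_lit 4) (nat_lit 486) (nat_lit 392) (nat_lit 322)) (XT.nd (nat_lit 78) (nat_lit 76) (nat_lit 0) (XT.lf (nat_lit 0) (nat_lit 4161316684) (nat_lit 152) (nat_lit 8043467691) (nat_lit 76) (nat_lit 39358333210) (nat_lit 46) (nat_lit 5) (nat_lit 48) (nat_lit 5) (nat_lit 47) (nat_lit 4) (nat_lit 487) (nat_lit 392) (nat_lit 321)) (XT.lf (nat_lit 0) (nat_lit 28790114091) (nat_lit 152) (nat_lit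 11838835931) (nat_lit 0) (nat_lit 12754856774) (nat_lit 45) (nat_lit 5) (nat_lit 47) (nat_lit 4) (nat_lit 45) (nat_lit 4) (nat_lit 488) (nat_lit 392) (nat_lit 320)))) (XT.nd (nat_lit 78) (nat_lit 228) (nat_lit 0) (XT.lf (nat_lit 0) (nat_lit 38985304327) (nat_lit 76) (nat_lit 16176796706) (nat_lit 76) (nat_lit 118077089) (nat_lit 44) (nat_lit 4) (nat_lit 45) (nat_lit 5) (nat_lit 45) (nat_lit 4) (nat_lit 489) (nat_lit 392) (nat_lit 319)) (XT.nd (nat_lit 78) (nat_lit 76) (nat_lit 0) (XT.lf (nat_lit 0) (nat_lit 25577061089) (nat_lit 152) (nat_lit 21707705249) (nat_lit 0) (nat_lit 9964376949) (nat_lit 42) (nat_lit 5) (nat_lit 44) (nat_lit 4) (nat_lit 42) (nat_lit 4) (nat_lit 490) (nat_lit 392) (nat_lit 318)) (XT.lf (nat_lit 0) (nat_lit 31309271422) (nat_lit 76) (nat_lit 21811799471) (nat_lit 76) (nat_lit 6178454169) (nat_lit 41) (nat_lit 4) (nat_lit 42) (nat_lit 5) (nat_lit 42) (nat_lit 4) (nat_lit 491)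 (nat_lit 392) (nat_lit 317))))) (XT.nd (nat_lit 234) (nat_lit 304) (nat_lit 0) (XT.nd (nat_lit 78) (nat_lit 228) (nat_lit 0) (XT.lf (nat_lit 0) (nat_lit 20652928227) (nat_lit 152) (nat_lit 35323795587) (nat_lit 0) (nat_lit 5455818906) (nat_lit 39) (nat_lit 5) (nat_lit 41) (nat_lit 4) (nat_lit 39) (nat_lit 4) (nat_lit 492) (nat_lit 392) (nat_lit 316)) (XT.nd (nat_lit 78) (nat_lit 152) (nat_lit 0) (XT.lf (nat_lit 0) (nat_lit 19806057832) (nat_lit 76) (nat_lit 29530238122) (nat_lit 76) (nat_lit 14314934352) (nat_lit 38) (nat_lit 4) (nat_lit 39) (nat_lit 5) (nat_lit 39) (nat_lit 4) (nat_lit 493) (nat_lit 392) (nat_lit 315)) (XT.lf (nat_lit 0) (nat_lit 12443666220) (nat_lit 76) (nat_lit 1189978133) (nat_lit 152) (nat_lit 52330615577) (nat_lit 36) (nat_lit 5) (nat_lit 37) (nat_lit 5) (nat_lit 38) (nat_lit 4) (nat_lit 494) (nat_lit 392) (nat_lit 314)))) (XT.nd (nat_lit 156) (nat_lit 152) (nat_lit 0) (XT.nd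 (nat_lit 78) (nat_lit 76) (nat_lit 0) (XT.lf (nat_lit 0) (nat_lit 3606306174) (nat_lit 76) (nat_lit 39783096992) (nat_lit 76) (nat_lit 24978111827) (nat_lit 35) (nat_lit 4) (nat_lit 36) (nat_lit 5) (nat_lit 36) (nat_lit 4) (nat_lit 495) (nat_lit 392) (nat_lit 313)) (XT.lf (nat_lit 0) (nat_lit 4176572243) (nat_lit 152) (nat_lit 6341802781) (nat_lit 76) (nat_lit 60356251501) (nat_lit 34) (nat_lit 5) (nat_lit 36) (nat_lit 5) (nat_lit 35) (nat_lit 4) (nat_lit 496) (nat_lit 392) (nat_lit 312))) (XT.nd (nat_lit 78) (nat_lit 76) (nat_lit 0) (XT.lf (nat_lit 0) (nat_lit 34956364447) (nat_lit 152) (nat_lit 17969122987) (nat_lit 0) (nat_lit 20553668256) (nat_lit 33) (nat_lit 5) (nat_lit 35) (nat_lit 4) (nat_lit 33) (nat_lit 4) (nat_lit 497) (nat_lit 392) (nat_lit 311)) (XT.lf (nat_lit 0) (nat_lit 45033032458) (nat_lit 76) (nat_lit 22790283758) (nat_lit 76) (nat_lit 8374150083) (nat_lit 32) (nat_lit 4) (nat_lit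 33) (nat_lit 5) (nat_lit 33) (nat_lit 4) (nat_lit 498) (nat_lit 392) (nat_lit 310)))))) (XT.nd (nat_lit 56238) (nat_lit 0) (nat_lit 15504) (XT.nd (nat_lit 56004) (nat_lit 0) (nat_lit 20292) (XT.nd (nat_lit 55848) (nat_lit 0) (nat_lit 23788) (XT.lf (nat_lit 0) (nat_lit 23365903073) (nat_lit 152) (nat_lit 46305694687) (nat_lit 0) (nat_lit 9357231928) (nat_lit 30) (nat_lit 5) (nat_lit 32) (nat_lit 4) (nat_lit 30) (nat_lit 4) (nat_lit 499) (nat_lit 392) (nat_lit 309)) (XT.nd (nat_lit 78) (nat_lit 1140) (nat_lit 0) (XT.lf (nat_lit 0) (nat_lit 600504807) (nat_lit 1140) (nat_lit 2302873950) (nat_lit 0) (nat_lit 600504807) (nat_lit 358) (nat_lit 5) (nat_lit 373) (nat_lit 4) (nat_lit 358) (nat_lit 4) (nat_lit 414) (nat_lit 393) (nat_lit 393)) (XT.lf (nat_lit 0) (nat_lit 3961534211) (nat_lit 1140) (nat_lit 3038412882) (nat_lit 1140) (nat_lit 92702353) (nat_lit 343) (nat_lit 4) (nat_lit 358) (nat_lit 5) (nat_lit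 358) (nat_lit 4) (nat_lit 415) (nat_lit 393) (nat_lit 392)))) (XT.nd (nat_lit 78) (nat_lit 2204) (nat_lit 0) (XT.lf (nat_lit 0) (nat_lit 5611767264) (nat_lit 1292) (nat_lit 1545595223) (nat_lit 0) (nat_lit 28127334) (nat_lit 326) (nat_lit 5) (nat_lit 343) (nat_lit 4) (nat_lit 326) (nat_lit 4) (nat_lit 416) (nat_lit 393) (nat_lit 391)) (XT.nd (nat_lit 78) (nat_lit 684) (nat_lit 0) (XT.lf (nat_lit 0) (nat_lit 136385772) (nat_lit 608) (nat_lit 3959205962) (nat_lit 684) (nat_lit 3190226899) (nat_lit 306) (nat_lit 5) (nat_lit 314) (nat_lit 5) (nat_lit 315) (nat_lit 4) (nat_lit 417) (nat_lit 393) (nat_lit 390)) (XT.lf (nat_lit 0) (nat_lit 1977848172) (nat_lit 608) (nat_lit 453101648) (nat_lit 684) (nat_lit 4963292540) (nat_lit 297) (nat_lit 5) (nat_lit 305) (nat_lit 5) (nat_lit 306) (nat_lit 5) (nat_lit 418) (nat_lit 393) (nat_lit 389))))) (XT.nd (nat_lit 234) (nat_lit 2432) (nat_lit 0) (XT.nd (nat_lit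 78) (nat_lit 1748) (nat_lit 0) (XT.lf (nat_lit 0) (nat_lit 628179858) (nat_lit 608) (nat_lit 3591978296) (nat_lit 76) (nat_lit 3290287283) (nat_lit 289) (nat_lit 5) (nat_lit 297) (nat_lit 5) (nat_lit 290) (nat_lit 5) (nat_lit 419) (nat_lit 393) (nat_lit 388)) (XT.nd (nat_lit 78) (nat_lit 1140) (nat_lit 0) (XT.lf (nat_lit 0) (nat_lit 5974357687) (nat_lit 608) (nat_lit 289031325) (nat_lit 684) (nat_lit 1371603713) (nat_lit 281) (nat_lit 5) (nat_lit 289) (nat_lit 5) (nat_lit 290) (nat_lit 5) (nat_lit 420) (nat_lit 393) (nat_lit 387)) (XT.lf (nat_lit 0) (nat_lit 360318303) (nat_lit 532) (nat_lit 3879893010) (nat_lit 608) (nat_lit 3526941748) (nat_lit 266) (nat_lit 5) (nat_lit 273) (nat_lit 5) (nat_lit 274) (nat_lit 5) (nat_lit 421) (nat_lit 393) (nat_lit 386)))) (XT.nd (nat_lit 156) (nat_lit 1444) (nat_lit 0) (XT.nd (nat_lit 78) (nat_lit 456) (nat_lit 0) (XT.lf (nat_lit 0) (nat_lit 2060306827) (nat_lit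 532) (nat_lit 5370395025) (nat_lit 76) (nat_lit 477054623) (nat_lit 259) (nat_lit 5) (nat_lit 266) (nat_lit 5) (nat_lit 260) (nat_lit 5) (nat_lit 422) (nat_lit 393) (nat_lit 385)) (XT.lf (nat_lit 0) (nat_lit 4805588562) (nat_lit 456) (nat_lit 2977578563) (nat_lit 532) (nat_lit 273309876) (nat_lit 253) (nat_lit 5) (nat_lit 259) (nat_lit 5) (nat_lit 260) (nat_lit 5) (nat_lit 423) (nat_lit 393) (nat_lit 384))) (XT.nd (nat_lit 78) (nat_lit 912) (nat_lit 0) (XT.lf (nat_lit 0) (nat_lit 5385404834) (nat_lit 532) (nat_lit 1043160362) (nat_lit 76) (nat_lit 1785026518) (nat_lit 246) (nat_lit 5) (nat_lit 253) (nat_lit 5) (nat_lit 247) (nat_lit 5) (nat_lit 424) (nat_lit 393) (nat_lit 383)) (XT.lf (nat_lit 0) (nat_lit 1288912118) (nat_lit 380) (nat_lit 1545075821) (nat_lit 456) (nat_lit 5545198379) (nat_lit 234) (nat_lit 5) (nat_lit 239) (nat_lit 5) (nat_lit 240) (nat_lit 5) (nat_lit 425) (nat_lit 393) (nat_lit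 382))))))) (XT.nd (nat_lit 1014) (nat_lit 3648) (nat_lit 0) (XT.nd (nat_lit 468) (nat_lit 2736) (nat_lit 0) (XT.nd (nat_lit 234) (nat_lit 1520) (nat_lit 0) (XT.nd (nat_lit 78) (nat_lit 836) (nat_lit 0) (XT.lf (nat_lit 0) (nat_lit 125326001) (nat_lit 532) (nat_lit 4812263239) (nat_lit 76) (nat_lit 3615789225) (nat_lit 227) (nat_lit 5) (nat_lit 234) (nat_lit 5) (nat_lit 228) (nat_lit 5) (nat_lit 426) (nat_lit 393) (nat_lit 381)) (XT.nd (nat_lit 78) (nat_lit 456) (nat_lit 0) (XT.lf (nat_lit 0) (nat_lit 5906846905) (nat_lit 456) (nat_lit 2451903490) (nat_lit 76) (nat_lit 377625884) (nat_lit 222) (nat_lit 5) (nat_lit 228) (nat_lit 5) (nat_lit 223) (nat_lit 5) (nat_lit 427) (nat_lit 393) (nat_lit 380)) (XT.lf (nat_lit 0) (nat_lit 2969379143) (nat_lit 456) (nat_lit 11796928) (nat_lit 76) (nat_lit 5947077200) (nat_lit 216) (nat_lit 5) (nat_lit 222) (nat_lit 5) (nat_lit 217) (nat_lit 5) (nat_lit 428) (nat_lit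 393) (nat_lit 379)))) (XT.nd (nat_lit 78) (nat_lit 760) (nat_lit 0) (XT.lf (nat_lit 0) (nat_lit 2584914789) (nat_lit 380) (nat_lit 6403977337) (nat_lit 456) (nat_lit 140323021) (nat_lit 206) (nat_lit 5) (nat_lit 211) (nat_lit 5) (nat_lit 212) (nat_lit 5) (nat_lit 429) (nat_lit 393) (nat_lit 378)) (XT.nd (nat_lit 78) (nat_lit 380) (nat_lit 0) (XT.lf (nat_lit 0) (nat_lit 5260409011) (nat_lit 304) (nat_lit 566844872) (nat_lit 380) (nat_lit 3512018832) (nat_lit 201) (nat_lit 5) (nat_lit 205) (nat_lit 5) (nat_lit 206) (nat_lit 5) (nat_lit 430) (nat_lit 393) (nat_lit 377)) (XT.lf (nat_lit 0) (nat_lit 2486871920) (nat_lit 380) (nat_lit 1534405178) (nat_lit 76) (nat_lit 5537618416) (nat_lit 196) (nat_lit 5) (nat_lit 201) (nat_lit 5) (nat_lit 197) (nat_lit 5) (nat_lit 431) (nat_lit 393) (nat_lit 376))))) (XT.nd (nat_lit 234) (nat_lit 1368) (nat_lit 0) (XT.nd (nat_lit 78) (nat_lit 760) (nat_lit 0) (XT.lf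 (nat_lit 0) (nat_lit 1130745084) (nat_lit 304) (nat_lit 7579964547) (nat_lit 380) (nat_lit 1077823119) (nat_lit 188) (nat_lit 5) (nat_lit 192) (nat_lit 5) (nat_lit 193) (nat_lit 5) (nat_lit 432) (nat_lit 393) (nat_lit 375)) (XT.nd (nat_lit 78) (nat_lit 380) (nat_lit 0) (XT.lf (nat_lit 0) (nat_lit 3901645912) (nat_lit 304) (nat_lit 1234854150) (nat_lit 380) (nat_lit 4890986798) (nat_lit 183) (nat_lit 5) (nat_lit 187) (nat_lit 5) (nat_lit 188) (nat_lit 5) (nat_lit 433) (nat_lit 393) (nat_lit 374)) (XT.lf (nat_lit 0) (nat_lit 1360068634) (nat_lit 380) (nat_lit 3511879413) (nat_lit 76) (nat_lit 5404969195) (nat_lit 178) (nat_lit 5) (nat_lit 183) (nat_lit 5) (nat_lit 179) (nat_lit 5) (nat_lit 434) (nat_lit 393) (nat_lit 373)))) (XT.nd (nat_lit 156) (nat_lit 532) (nat_lit 0) (XT.nd (nat_lit 78) (nat_lit 608) (nat_lit 0) (XT.lf (nat_lit 0) (nat_lit 7833679838) (nat_lit 304) (nat_lit 816184457) (nat_lit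 76) (nat_lit 1887171923) (nat_lit 175) (nat_lit 5) (nat_lit 179) (nat_lit 5) (nat_lit 176) (nat_lit 5) (nat_lit 435) (nat_lit 393) (nat_lit 372)) (XT.lf (nat_lit 0) (nat_lit 1997197493) (nat_lit 228) (nat_lit 1804228715) (nat_lit 304) (nat_lit 7005982076) (nat_lit 167) (nat_lit 5) (nat_lit 170) (nat_lit 5) (nat_lit 171) (nat_lit 5) (nat_lit 436) (nat_lit 393) (nat_lit 371))) (XT.nd (nat_lit 78) (nat_lit 304) (nat_lit 0) (XT.lf (nat_lit 0) (nat_lit 4917624931) (nat_lit 228) (nat_lit 5711433094) (nat_lit 304) (nat_lit 459836349) (nat_lit 164) (nat_lit 5) (nat_lit 167) (nat_lit 5) (nat_lit 168) (nat_lit 5) (nat_lit 437) (nat_lit 393) (nat_lit 370)) (XT.lf (nat_lit 0) (nat_lit 6321314507) (nat_lit 304) (nat_lit 3465273298) (nat_lit 76) (nat_lit 1595035583) (nat_lit 160) (nat_lit 5) (nat_lit 164) (nat_lit 5) (nat_lit 161) (nat_lit 5) (nat_lit 438) (nat_lit 393) (nat_lit 369)))))) (XT.nd (nat_lit 546)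 (nat_lit 1520) (nat_lit 0) (XT.nd (nat_lit 234) (nat_lit 1140) (nat_lit 0) (XT.nd (nat_lit 78) (nat_lit 684) (nat_lit 0) (XT.lf (nat_lit 0) (nat_lit 1773317154) (nat_lit 304) (nat_lit 673567195) (nat_lit 76) (nat_lit 9239543479) (nat_lit 156) (nat_lit 5) (nat_lit 160) (nat_lit 5) (nat_lit 157) (nat_lit 5) (nat_lit 439) (nat_lit 393) (nat_lit 368)) (XT.nd (nat_lit 78) (nat_lit 228) (nat_lit 0) (XT.lf (nat_lit 0) (nat_lit 2228329999) (nat_lit 228) (nat_lit 6702037800) (nat_lit 304) (nat_lit 3072012927) (nat_lit 150) (nat_lit 5) (nat_lit 153) (nat_lit 5) (nat_lit 154) (nat_lit 5) (nat_lit 440) (nat_lit 393) (nat_lit 367)) (XT.lf (nat_lit 0) (nat_lit 4092429846) (nat_lit 228) (nat_lit 7088632312) (nat_lit 76) (nat_lit 1150041151) (nat_lit 147) (nat_lit 5) (nat_lit 150) (nat_lit 5) (nat_lit 148) (nat_lit 5) (nat_lit 441) (nat_lit 393) (nat_lit 366)))) (XT.nd (nat_lit 156) (nat_lit 684) (nat_lit 0) (XT.nd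 (nat_lit 78) (nat_lit 228) (nat_lit 0) (XT.lf (nat_lit 0) (nat_lit 8336354431) (nat_lit 228) (nat_lit 3308589701) (nat_lit 304) (nat_lit 1027606771) (nat_lit 144) (nat_lit 5) (nat_lit 147) (nat_lit 5) (nat_lit 148) (nat_lit 5) (nat_lit 442) (nat_lit 393) (nat_lit 365)) (XT.lf (nat_lit 0) (nat_lit 6496951209) (nat_lit 228) (nat_lit 1526558017) (nat_lit 76) (nat_lit 5003258082) (nat_lit 141) (nat_lit 5) (nat_lit 144) (nat_lit 5) (nat_lit 142) (nat_lit 5) (nat_lit 443) (nat_lit 393) (nat_lit 364))) (XT.nd (nat_lit 78) (nat_lit 228) (nat_lit 0) (XT.lf (nat_lit 0) (nat_lit 1048824743) (nat_lit 228) (nat_lit 11970009925) (nat_lit 76) (nat_lit 376580553) (nat_lit 135) (nat_lit 5) (nat_lit 138) (nat_lit 5) (nat_lit 136) (nat_lit 5) (nat_lit 444) (nat_lit 393) (nat_lit 363)) (XT.lf (nat_lit 0) (nat_lit 4437890445) (nat_lit 228) (nat_lit 4576371762) (nat_lit 304) (nat_lit 4762008764) (nat_lit 132) (nat_lit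 5) (nat_lit 135) (nat_lit 5) (nat_lit 136) (nat_lit 5) (nat_lit 445) (nat_lit 393) (nat_lit 362))))) (XT.nd (nat_lit 234) (nat_lit 912) (nat_lit 0) (XT.nd (nat_lit 78) (nat_lit 380) (nat_lit 0) (XT.lf (nat_lit 0) (nat_lit 3232852204) (nat_lit 228) (nat_lit 6614020922) (nat_lit 76) (nat_lit 4325569339) (nat_lit 129) (nat_lit 5) (nat_lit 132) (nat_lit 5) (nat_lit 130) (nat_lit 5) (nat_lit 446) (nat_lit 393) (nat_lit 361)) (XT.nd (nat_lit 78) (nat_lit 228) (nat_lit 0) (XT.lf (nat_lit 0) (nat_lit 10770730555) (nat_lit 152) (nat_lit 863082432) (nat_lit 228) (nat_lit 2950051867) (nat_lit 127) (nat_lit 5) (nat_lit 129) (nat_lit 5) (nat_lit 130) (nat_lit 5) (nat_lit 447) (nat_lit 393) (nat_lit 360)) (XT.lf (nat_lit 0) (nat_lit 5481389684) (nat_lit 228) (nat_lit 973896127) (nat_lit 76) (nat_lit 8554549165) (nat_lit 124) (nat_lit 5) (nat_lit 127) (nat_lit 5) (nat_lit 125) (nat_lit 5) (nat_lit 448) (nat_lit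 393) (nat_lit 359)))) (XT.nd (nat_lit 156) (nat_lit 380) (nat_lit 0) (XT.nd (nat_lit 78) (nat_lit 228) (nat_lit 0) (XT.lf (nat_lit 0) (nat_lit 2013330580) (nat_lit 152) (nat_lit 12389469809) (nat_lit 228) (nat_lit 1049546509) (nat_lit 120) (nat_lit 5) (nat_lit 122) (nat_lit 5) (nat_lit 123) (nat_lit 4) (nat_lit 449) (nat_lit 393) (nat_lit 358)) (XT.lf (nat_lit 0) (nat_lit 5061109426) (nat_lit 152) (nat_lit 2792307221) (nat_lit 228) (nat_lit 8056703751) (nat_lit 117) (nat_lit 5) (nat_lit 119) (nat_lit 5) (nat_lit 120) (nat_lit 5) (nat_lit 450) (nat_lit 393) (nat_lit 357))) (XT.nd (nat_lit 78) (nat_lit 152) (nat_lit 0) (XT.lf (nat_lit 0) (nat_lit 930501747) (nat_lit 228) (nat_lit 8180765695) (nat_lit 76) (nat_lit 7274280677) (nat_lit 114) (nat_lit 5) (nat_lit 117) (nat_lit 5) (nat_lit 115) (nat_lit 5) (nat_lit 451) (nat_lit 393) (nat_lit 356)) (XT.lf (nat_lit 0) (nat_lit 10332390979) (nat_lit 228)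 (nat_lit 5460533190) (nat_lit 76) (nat_lit 1085472995) (nat_lit 112) (nat_lit 5) (nat_lit 115) (nat_lit 5) (nat_lit 113) (nat_lit 4) (nat_lit 452) (nat_lit 393) (nat_lit 355))))))))
noncomputable def xc35 : XT := (XT.nd (nat_lit 2028) (nat_lit 2128) (nat_lit 0) (XT.nd (nat_lit 1014) (nat_lit 1672) (nat_lit 0) (XT.nd (nat_lit 468) (nat_lit 1216) (nat_lit 0) (XT.nd (nat_lit 234) (nat_lit 380) (nat_lit 0) (XT.nd (nat_lit 78) (nat_lit 456) (nat_lit 0) (XT.lf (nat_lit 0) (nat_lit 2946101119) (nat_lit 228) (nat_lit 2686424337) (nat_lit 76) (nat_lit 11756782092) (nat_lit 109) (nat_lit 5) (nat_lit 112) (nat_lit 5) (nat_lit 110) (nat_lit 5) (nat_lit 453) (nat_lit 393) (nat_lit 354)) (XT.nd (nat_lit 78) (nat_lit 228) (nat_lit 0) (XT.lf (nat_lit 0) (nat_lit 151666063) (nat_lit 76) (nat_lit 12784323377) (nat_lit 152) (nat_lit 4983074235) (nat_lit 106) (nat_lit 5) (nat_lit 107) (nat_lit 5) (nat_lit 108) (nat_lit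 4) (nat_lit 454) (nat_lit 393) (nat_lit 353)) (XT.lf (nat_lit 0) (nat_lit 3118763997) (nat_lit 152) (nat_lit 1932922746) (nat_lit 228) (nat_lit 13416248098) (nat_lit 103) (nat_lit 5) (nat_lit 105) (nat_lit 5) (nat_lit 106) (nat_lit 5) (nat_lit 455) (nat_lit 393) (nat_lit 352)))) (XT.nd (nat_lit 78) (nat_lit 304) (nat_lit 0) (XT.lf (nat_lit 0) (nat_lit 6127495993) (nat_lit 76) (nat_lit 9569852893) (nat_lit 152) (nat_lit 3339055078) (nat_lit 102) (nat_lit 5) (nat_lit 103) (nat_lit 5) (nat_lit 104) (nat_lit 4) (nat_lit 456) (nat_lit 393) (nat_lit 351)) (XT.nd (nat_lit 78) (nat_lit 76) (nat_lit 0) (XT.lf (nat_lit 0) (nat_lit 7266835790) (nat_lit 228) (nat_lit 10412774929) (nat_lit 76) (nat_lit 1946613771) (nat_lit 99) (nat_lit 5) (nat_lit 102) (nat_lit 5) (nat_lit 100) (nat_lit 4) (nat_lit 457) (nat_lit 393) (nat_lit 350)) (XT.lf (nat_lit 0) (nat_lit 12357056659) (nat_lit 76) (nat_lit 6209008101) (nat_lit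 152) (nat_lit 1671517476) (nat_lit 98) (nat_lit 5) (nat_lit 99) (nat_lit 5) (nat_lit 100) (nat_lit 4) (nat_lit 458) (nat_lit 393) (nat_lit 349))))) (XT.nd (nat_lit 234) (nat_lit 684) (nat_lit 0) (XT.nd (nat_lit 78) (nat_lit 304) (nat_lit 0) (XT.lf (nat_lit 0) (nat_lit 9565444600) (nat_lit 228) (nat_lit 5331348357) (nat_lit 76) (nat_lit 5973929611) (nat_lit 95) (nat_lit 5) (nat_lit 98) (nat_lit 5) (nat_lit 96) (nat_lit 4) (nat_lit 459) (nat_lit 393) (nat_lit 348)) (XT.nd (nat_lit 78) (nat_lit 152) (nat_lit 0) (XT.lf (nat_lit 0) (nat_lit 13540025) (nat_lit 152) (nat_lit 2694393042) (nat_lit 76) (nat_lit 18820704292) (nat_lit 93) (nat_lit 5) (nat_lit 95) (nat_lit 5) (nat_lit 94) (nat_lit 5) (nat_lit 460) (nat_lit 393) (nat_lit 347)) (XT.lf (nat_lit 0) (nat_lit 11924507466) (nat_lit 228) (nat_lit 101365547) (nat_lit 76) (nat_lit 10182417118) (nat_lit 91) (nat_lit 5) (nat_lit 94) (nat_lit 5) (nat_lit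 92) (nat_lit 4) (nat_lit 461) (nat_lit 393) (nat_lit 346)))) (XT.nd (nat_lit 156) (nat_lit 304) (nat_lit 0) (XT.nd (nat_lit 78) (nat_lit 76) (nat_lit 0) (XT.lf (nat_lit 0) (nat_lit 1708889176) (nat_lit 228) (nat_lit 20257253981) (nat_lit 76) (nat_lit 948470770) (nat_lit 87) (nat_lit 5) (nat_lit 90) (nat_lit 5) (nat_lit 88) (nat_lit 4) (nat_lit 462) (nat_lit 393) (nat_lit 345)) (XT.lf (nat_lit 0) (nat_lit 5359400953) (nat_lit 76) (nat_lit 9027730942) (nat_lit 152) (nat_lit 9257109497) (nat_lit 86) (nat_lit 5) (nat_lit 87) (nat_lit 5) (nat_lit 88) (nat_lit 4) (nat_lit 463) (nat_lit 393) (nat_lit 344))) (XT.nd (nat_lit 78) (nat_lit 76) (nat_lit 0) (XT.lf (nat_lit 0) (nat_lit 3453112338) (nat_lit 228) (nat_lit 16253222562) (nat_lit 76) (nat_lit 4696216893) (nat_lit 83) (nat_lit 5) (nat_lit 86) (nat_lit 5) (nat_lit 84) (nat_lit 4) (nat_lit 464) (nat_lit 393) (nat_lit 343)) (XT.lf (nat_lit 0) (nat_lit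 10918896179) (nat_lit 76) (nat_lit 5971629281) (nat_lit 152) (nat_lit 8297009309) (nat_lit 82) (nat_lit 5) (nat_lit 83) (nat_lit 5) (nat_lit 84) (nat_lit 4) (nat_lit 465) (nat_lit 393) (nat_lit 342)))))) (XT.nd (nat_lit 468) (nat_lit 912) (nat_lit 0) (XT.nd (nat_lit 234) (nat_lit 304) (nat_lit 0) (XT.nd (nat_lit 78) (nat_lit 228) (nat_lit 0) (XT.lf (nat_lit 0) (nat_lit 5173420577) (nat_lit 228) (nat_lit 12284034755) (nat_lit 76) (nat_lit 8544392317) (nat_lit 79) (nat_lit 5) (nat_lit 82) (nat_lit 5) (nat_lit 80) (nat_lit 4) (nat_lit 466) (nat_lit 393) (nat_lit 341)) (XT.nd (nat_lit 78) (nat_lit 152) (nat_lit 0) (XT.lf (nat_lit 0) (nat_lit 16531809994) (nat_lit 76) (nat_lit 2882516857) (nat_lit 152) (nat_lit 7432028929) (nat_lit 78) (nat_lit 5) (nat_lit 79) (nat_lit 5) (nat_lit 80) (nat_lit 4) (nat_lit 467) (nat_lit 393) (nat_lit 340)) (XT.lf (nat_lit 0) (nat_lit 6842991566) (nat_lit 152) (nat_lit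 8407785999) (nat_lit 76) (nat_lit 12470251331) (nat_lit 76) (nat_lit 5) (nat_lit 78) (nat_lit 5) (nat_lit 77) (nat_lit 4) (nat_lit 468) (nat_lit 393) (nat_lit 339)))) (XT.nd (nat_lit 78) (nat_lit 228) (nat_lit 0) (XT.lf (nat_lit 0) (nat_lit 21934134904) (nat_lit 152) (nat_lit 6490526415) (nat_lit 0) (nat_lit 204884979) (nat_lit 75) (nat_lit 5) (nat_lit 77) (nat_lit 4) (nat_lit 75) (nat_lit 4) (nat_lit 469) (nat_lit 393) (nat_lit 338)) (XT.nd (nat_lit 78) (nat_lit 76) (nat_lit 0) (XT.lf (nat_lit 0) (nat_lit 8426941132) (nat_lit 152) (nat_lit 4698443424) (nat_lit 76) (nat_lit 16444025755) (nat_lit 73) (nat_lit 5) (nat_lit 75) (nat_lit 5) (nat_lit 74) (nat_lit 4) (nat_lit 470) (nat_lit 393) (nat_lit 337)) (XT.lf (nat_lit 0) (nat_lit 24440437648) (nat_lit 152) (nat_lit 2905397434) (nat_lit 0) (nat_lit 3200239205) (nat_lit 72) (nat_lit 5) (nat_lit 74) (nat_lit 4) (nat_lit 72) (nat_lit 4) (nat_lit 471)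 (nat_lit 393) (nat_lit 336))))) (XT.nd (nat_lit 234) (nat_lit 456) (nat_lit 0) (XT.nd (nat_lit 78) (nat_lit 304) (nat_lit 0) (XT.lf (nat_lit 0) (nat_lit 9880751407) (nat_lit 152) (nat_lit 1249097379) (nat_lit 76) (nat_lit 20427330755) (nat_lit 70) (nat_lit 5) (nat_lit 72) (nat_lit 5) (nat_lit 71) (nat_lit 4) (nat_lit 472) (nat_lit 393) (nat_lit 335)) (XT.nd (nat_lit 78) (nat_lit 152) (nat_lit 0) (XT.lf (nat_lit 0) (nat_lit 371741805) (nat_lit 76) (nat_lit 26491899873) (nat_lit 76) (nat_lit 5743681502) (nat_lit 68) (nat_lit 4) (nat_lit 69) (nat_lit 5) (nat_lit 69) (nat_lit 4) (nat_lit 473) (nat_lit 393) (nat_lit 334)) (XT.lf (nat_lit 0) (nat_lit 1860502183) (nat_lit 76) (nat_lit 9305786867) (nat_lit 152) (nat_lit 22528668550) (nat_lit 66) (nat_lit 5) (nat_lit 67) (nat_lit 5) (nat_lit 68) (nat_lit 4) (nat_lit 474) (nat_lit 393) (nat_lit 333)))) (XT.nd (nat_lit 156) (nat_lit 228) (nat_lit 0) (XT.nd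 (nat_lit 78) (nat_lit 152) (nat_lit 0) (XT.lf (nat_lit 0) (nat_lit 3253411246) (nat_lit 76) (nat_lit 25913196451) (nat_lit 76) (nat_lit 5657751202) (nat_lit 65) (nat_lit 4) (nat_lit 66) (nat_lit 5) (nat_lit 66) (nat_lit 4) (nat_lit 475) (nat_lit 393) (nat_lit 332)) (XT.lf (nat_lit 0) (nat_lit 4465013057) (nat_lit 76) (nat_lit 7738080017) (nat_lit 152) (nat_lit 23792211078) (nat_lit 63) (nat_lit 5) (nat_lit 64) (nat_lit 5) (nat_lit 65) (nat_lit 4) (nat_lit 476) (nat_lit 393) (nat_lit 331))) (XT.nd (nat_lit 78) (nat_lit 152) (nat_lit 0) (XT.lf (nat_lit 0) (nat_lit 5519345123) (nat_lit 76) (nat_lit 25727634317) (nat_lit 76) (nat_lit 5963926676) (nat_lit 62) (nat_lit 4) (nat_lit 63) (nat_lit 5) (nat_lit 63) (nat_lit 4) (nat_lit 477) (nat_lit 393) (nat_lit 330)) (XT.lf (nat_lit 0) (nat_lit 6359657246) (nat_lit 76) (nat_lit 6531475126) (nat_lit 152) (nat_lit 25580949447) (nat_lit 60) (nat_lit 5) (nat_lit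 61) (nat_lit 5) (nat_lit 62) (nat_lit 4) (nat_lit 478) (nat_lit 393) (nat_lit 329))))))) (XT.nd (nat_lit 1014) (nat_lit 760) (nat_lit 0) (XT.nd (nat_lit 468) (nat_lit 684) (nat_lit 0) (XT.nd (nat_lit 234) (nat_lit 380) (nat_lit 0) (XT.nd (nat_lit 78) (nat_lit 228) (nat_lit 0) (XT.lf (nat_lit 0) (nat_lit 6970505471) (nat_lit 76) (nat_lit 26042590053) (nat_lit 76) (nat_lit 6768024752) (nat_lit 59) (nat_lit 4) (nat_lit 60) (nat_lit 5) (nat_lit 60) (nat_lit 4) (nat_lit 479) (nat_lit 393) (nat_lit 328)) (XT.nd (nat_lit 78) (nat_lit 76) (nat_lit 0) (XT.lf (nat_lit 0) (nat_lit 7324573413) (nat_lit 76) (nat_lit 5798246474) (nat_lit 152) (nat_lit 28017326203) (nat_lit 57) (nat_lit 5) (nat_lit 58) (nat_lit 5) (nat_lit 59) (nat_lit 4) (nat_lit 480) (nat_lit 393) (nat_lit 327)) (XT.lf (nat_lit 0) (nat_lit 7364270782) (nat_lit 76) (nat_lit 26987834462) (nat_lit 76) (nat_lit 8198491729) (nat_lit 56) (nat_lit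 4) (nat_lit 57) (nat_lit 5) (nat_lit 57) (nat_lit 4) (nat_lit 481) (nat_lit 393) (nat_lit 326)))) (XT.nd (nat_lit 78) (nat_lit 228) (nat_lit 0) (XT.lf (nat_lit 0) (nat_lit 7092371438) (nat_lit 76) (nat_lit 5674673935) (nat_lit 152) (nat_lit 31248832840) (nat_lit 54) (nat_lit 5) (nat_lit 55) (nat_lit 5) (nat_lit 56) (nat_lit 4) (nat_lit 482) (nat_lit 393) (nat_lit 325)) (XT.nd (nat_lit 78) (nat_lit 152) (nat_lit 0) (XT.lf (nat_lit 0) (nat_lit 6406202452) (nat_lit 76) (nat_lit 28719752594) (nat_lit 76) (nat_lit 10410593885) (nat_lit 53) (nat_lit 4) (nat_lit 54) (nat_lit 5) (nat_lit 54) (nat_lit 4) (nat_lit 483) (nat_lit 393) (nat_lit 324)) (XT.lf (nat_lit 0) (nat_lit 5339197183) (nat_lit 76) (nat_lit 6325590454) (nat_lit 152) (nat_lit 35452586871) (nat_lit 51) (nat_lit 5) (nat_lit 52) (nat_lit 5) (nat_lit 53) (nat_lit 4) (nat_lit 484) (nat_lit 393) (nat_lit 323))))) (XT.nd (nat_lit 234) (nat_lit 456)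 (nat_lit 0) (XT.nd (nat_lit 78) (nat_lit 152) (nat_lit 0) (XT.lf (nat_lit 0) (nat_lit 3740349338) (nat_lit 76) (nat_lit 31426305724) (nat_lit 76) (nat_lit 13591353508) (nat_lit 50) (nat_lit 4) (nat_lit 51) (nat_lit 5) (nat_lit 51) (nat_lit 4) (nat_lit 485) (nat_lit 393) (nat_lit 322)) (XT.nd (nat_lit 78) (nat_lit 0) (nat_lit 0) (XT.lf (nat_lit 0) (nat_lit 1674213576) (nat_lit 76) (nat_lit 7949731393) (nat_lit 152) (nat_lit 40840718217) (nat_lit 48) (nat_lit 5) (nat_lit 49) (nat_lit 5) (nat_lit 50) (nat_lit 4) (nat_lit 486) (nat_lit 393) (nat_lit 321)) (XT.lf (nat_lit 0) (nat_lit 34280911282) (nat_lit 152) (nat_lit 1041436566) (nat_lit 0) (nat_lit 16913406016) (nat_lit 48) (nat_lit 5) (nat_lit 50) (nat_lit 4) (nat_lit 48) (nat_lit 4) (nat_lit 487) (nat_lit 393) (nat_lit 320)))) (XT.nd (nat_lit 156) (nat_lit 228) (nat_lit 0) (XT.nd (nat_lit 78) (nat_lit 76) (nat_lit 0) (XT.lf (nat_lit 0) (nat_lit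 6455282566) (nat_lit 152) (nat_lit 4287447823) (nat_lit 76) (nat_lit 43335961622) (nat_lit 46) (nat_lit 5) (nat_lit 48) (nat_lit 5) (nat_lit 47) (nat_lit 4) (nat_lit 488) (nat_lit 393) (nat_lit 319)) (XT.lf (nat_lit 0) (nat_lit 32274372585) (nat_lit 152) (nat_lit 8350368087) (nat_lit 0) (nat_lit 15366909641) (nat_lit 45) (nat_lit 5) (nat_lit 47) (nat_lit 4) (nat_lit 45) (nat_lit 4) (nat_lit 489) (nat_lit 393) (nat_lit 318))) (XT.nd (nat_lit 78) (nat_lit 76) (nat_lit 0) (XT.lf (nat_lit 0) (nat_lit 1883583245) (nat_lit 152) (nat_lit 13105069953) (nat_lit 76) (nat_lit 42995411318) (nat_lit 43) (nat_lit 5) (nat_lit 45) (nat_lit 5) (nat_lit 44) (nat_lit 4) (nat_lit 490) (nat_lit 393) (nat_lit 317)) (XT.lf (nat_lit 0) (nat_lit 28821618987) (nat_lit 152) (nat_lit 18864738626) (nat_lit 0) (nat_lit 12366267960) (nat_lit 42) (nat_lit 5) (nat_lit 44) (nat_lit 4) (nat_lit 42) (nat_lit 4) (nat_lit 491) (nat_lit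 393) (nat_lit 316)))))) (XT.nd (nat_lit 546) (nat_lit 76) (nat_lit 0) (XT.nd (nat_lit 234) (nat_lit 380) (nat_lit 0) (XT.nd (nat_lit 78) (nat_lit 228) (nat_lit 0) (XT.lf (nat_lit 0) (nat_lit 36690481461) (nat_lit 76) (nat_lit 20995422118) (nat_lit 76) (nat_lit 4521330808) (nat_lit 41) (nat_lit 4) (nat_lit 42) (nat_lit 5) (nat_lit 42) (nat_lit 4) (nat_lit 492) (nat_lit 393) (nat_lit 315)) (XT.nd (nat_lit 78) (nat_lit 76) (nat_lit 0) (XT.lf (nat_lit 0) (nat_lit 23575440384) (nat_lit 152) (nat_lit 33308181284) (nat_lit 0) (nat_lit 7563848929) (nat_lit 39) (nat_lit 5) (nat_lit 41) (nat_lit 4) (nat_lit 39) (nat_lit 4) (nat_lit 493) (nat_lit 393) (nat_lit 314)) (XT.lf (nat_lit 0) (nat_lit 24469760151) (nat_lit 76) (nat_lit 29168533702) (nat_lit 76) (nat_lit 13140439344) (nat_lit 38) (nat_lit 4) (nat_lit 39) (nat_lit 5) (nat_lit 39) (nat_lit 4) (nat_lit 494) (nat_lit 393) (nat_lit 313)))) (XT.nd (nat_lit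 156) (nat_lit 152) (nat_lit 0) (XT.nd (nat_lit 78) (nat_lit 76) (nat_lit 0) (XT.lf (nat_lit 0) (nat_lit 16120403250) (nat_lit 152) (nat_lit 52544027161) (nat_lit 0) (nat_lit 543887320) (nat_lit 36) (nat_lit 5) (nat_lit 38) (nat_lit 4) (nat_lit 36) (nat_lit 4) (nat_lit 495) (nat_lit 393) (nat_lit 312)) (XT.lf (nat_lit 0) (nat_lit 7322850327) (nat_lit 76) (nat_lit 40000574837) (nat_lit 76) (nat_lit 24409526267) (nat_lit 35) (nat_lit 4) (nat_lit 36) (nat_lit 5) (nat_lit 36) (nat_lit 4) (nat_lit 496) (nat_lit 393) (nat_lit 311))) (XT.nd (nat_lit 78) (nat_lit 76) (nat_lit 0) (XT.lf (nat_lit 0) (nat_lit 6082567858) (nat_lit 152) (nat_lit 3257276425) (nat_lit 76) (nat_lit 65027596008) (nat_lit 34) (nat_lit 5) (nat_lit 36) (nat_lit 5) (nat_lit 35) (nat_lit 4) (nat_lit 497) (nat_lit 393) (nat_lit 310)) (XT.lf (nat_lit 0) (nat_lit 38368211798) (nat_lit 152) (nat_lit 15529942025) (nat_lit 0) (nat_lit 23205036350)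 (nat_lit 33) (nat_lit 5) (nat_lit 35) (nat_lit 4) (nat_lit 33) (nat_lit 4) (nat_lit 498) (nat_lit 393) (nat_lit 309))))) (XT.nd (nat_lit 55848) (nat_lit 0) (nat_lit 21432) (XT.nd (nat_lit 55692) (nat_lit 0) (nat_lit 25916) (XT.lf (nat_lit 0) (nat_lit 50526648494) (nat_lit 76) (nat_lit 22303786924) (nat_lit 76) (nat_lit 7128423281) (nat_lit 32) (nat_lit 4) (nat_lit 33) (nat_lit 5) (nat_lit 33) (nat_lit 4) (nat_lit 499) (nat_lit 393) (nat_lit 308)) (XT.nd (nat_lit 78) (nat_lit 1976) (nat_lit 0) (XT.lf (nat_lit 0) (nat_lit 3328601228) (nat_lit 836) (nat_lit 50175184) (nat_lit 836) (nat_lit 50175184) (nat_lit 399) (nat_lit 4) (nat_lit 410) (nat_lit 5) (nat_lit 410) (nat_lit 4) (nat_lit 412) (nat_lit 394) (nat_lit 394)) (XT.lf (nat_lit 0) (nat_lit 957924003) (nat_lit 988) (nat_lit 4579264535) (nat_lit 988) (nat_lit 1393478598) (nat_lit 373) (nat_lit 4) (nat_lit 386) (nat_lit 5) (nat_lit 386) (nat_lit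 4) (nat_lit 413) (nat_lit 394) (nat_lit 393)))) (XT.nd (nat_lit 156) (nat_lit 2128) (nat_lit 0) (XT.nd (nat_lit 78) (nat_lit 1216) (nat_lit 0) (XT.lf (nat_lit 0) (nat_lit 2246583395) (nat_lit 1064) (nat_lit 1924082209) (nat_lit 1140) (nat_lit 2840810594) (nat_lit 358) (nat_lit 5) (nat_lit 372) (nat_lit 5) (nat_lit 373) (nat_lit 4) (nat_lit 414) (nat_lit 394) (nat_lit 392)) (XT.lf (nat_lit 0) (nat_lit 2659352648) (nat_lit 1216) (nat_lit 3445659306) (nat_lit 76) (nat_lit 995260909) (nat_lit 342) (nat_lit 5) (nat_lit 358) (nat_lit 5) (nat_lit 343) (nat_lit 4) (nat_lit 415) (nat_lit 394) (nat_lit 391))) (XT.nd (nat_lit 78) (nat_lit 836) (nat_lit 0) (XT.lf (nat_lit 0) (nat_lit 1008900717) (nat_lit 1292) (nat_lit 2023968299) (nat_lit 76) (nat_lit 4164004458) (nat_lit 325) (nat_lit 5) (nat_lit 342) (nat_lit 5) (nat_lit 326) (nat_lit 5) (nat_lit 416) (nat_lit 394) (nat_lit 390)) (XT.lf (nat_lit 0) (nat_lit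 6483522051) (nat_lit 912) (nat_lit 489524971) (nat_lit 76) (nat_lit 328628172) (nat_lit 314) (nat_lit 5) (nat_lit 326) (nat_lit 5) (nat_lit 315) (nat_lit 4) (nat_lit 417) (nat_lit 394) (nat_lit 389))))))))
noncomputable def xc36 : XT := (XT.nd (nat_lit 2028) (nat_lit 5016) (nat_lit 0) (XT.nd (nat_lit 1014) (nat_lit 4560) (nat_lit 0) (XT.nd (nat_lit 468) (nat_lit 3876) (nat_lit 0) (XT.nd (nat_lit 234) (nat_lit 2128) (nat_lit 0) (XT.nd (nat_lit 78) (nat_lit 1292) (nat_lit 0) (XT.lf (nat_lit 0) (nat_lit 1150853566) (nat_lit 608) (nat_lit 3467914212) (nat_lit 684) (nat_lit 2794792804) (nat_lit 297) (nat_lit 5) (nat_lit 305) (nat_lit 5) (nat_lit 306) (nat_lit 5) (nat_lit 418) (nat_lit 394) (nat_lit 388)) (XT.nd (nat_lit 78) (nat_lit 684) (nat_lit 0) (XT.lf (nat_lit 0) (nat_lit 2593856475) (nat_lit 608) (nat_lit 4607691343) (nat_lit 76) (nat_lit 332411900) (nat_lit 289) (nat_lit 5) (nat_lit 297) (nat_lit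 5) (nat_lit 290) (nat_lit 5) (nat_lit 419) (nat_lit 394) (nat_lit 387)) (XT.lf (nat_lit 0) (nat_lit 429585782) (nat_lit 684) (nat_lit 2865310912) (nat_lit 76) (nat_lit 4367346655) (nat_lit 280) (nat_lit 5) (nat_lit 289) (nat_lit 5) (nat_lit 281) (nat_lit 5) (nat_lit 420) (nat_lit 394) (nat_lit 386)))) (XT.nd (nat_lit 78) (nat_lit 1596) (nat_lit 0) (XT.lf (nat_lit 0) (nat_lit 5854775050) (nat_lit 608) (nat_lit 1025964608) (nat_lit 76) (nat_lit 918069744) (nat_lit 273) (nat_lit 5) (nat_lit 281) (nat_lit 5) (nat_lit 274) (nat_lit 5) (nat_lit 421) (nat_lit 394) (nat_lit 385)) (XT.nd (nat_lit 78) (nat_lit 532) (nat_lit 0) (XT.lf (nat_lit 0) (nat_lit 919655244) (nat_lit 456) (nat_lit 2549763142) (nat_lit 532) (nat_lit 4473830210) (nat_lit 259) (nat_lit 5) (nat_lit 265) (nat_lit 5) (nat_lit 266) (nat_lit 5) (nat_lit 422) (nat_lit 394) (nat_lit 384)) (XT.lf (nat_lit 0) (nat_lit 926893970) (nat_lit 532)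 (nat_lit 5099974242) (nat_lit 76) (nat_lit 2069346586) (nat_lit 252) (nat_lit 5) (nat_lit 259) (nat_lit 5) (nat_lit 253) (nat_lit 5) (nat_lit 423) (nat_lit 394) (nat_lit 383))))) (XT.nd (nat_lit 234) (nat_lit 1976) (nat_lit 0) (XT.nd (nat_lit 78) (nat_lit 1444) (nat_lit 0) (XT.lf (nat_lit 0) (nat_lit 5162834759) (nat_lit 456) (nat_lit 1274691355) (nat_lit 532) (nat_lit 1820011484) (nat_lit 246) (nat_lit 5) (nat_lit 252) (nat_lit 5) (nat_lit 253) (nat_lit 5) (nat_lit 424) (nat_lit 394) (nat_lit 382)) (XT.nd (nat_lit 78) (nat_lit 912) (nat_lit 0) (XT.lf (nat_lit 0) (nat_lit 3672928755) (nat_lit 532) (nat_lit 1008458312) (nat_lit 76) (nat_lit 3745945334) (nat_lit 239) (nat_lit 5) (nat_lit 246) (nat_lit 5) (nat_lit 240) (nat_lit 5) (nat_lit 425) (nat_lit 394) (nat_lit 381)) (XT.lf (nat_lit 0) (nat_lit 733440356) (nat_lit 532) (nat_lit 7393000869) (nat_lit 76) (nat_lit 479876531) (nat_lit 227) (nat_lit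 5) (nat_lit 234) (nat_lit 5) (nat_lit 228) (nat_lit 5) (nat_lit 426) (nat_lit 394) (nat_lit 380)))) (XT.nd (nat_lit 156) (nat_lit 1140) (nat_lit 0) (XT.nd (nat_lit 78) (nat_lit 456) (nat_lit 0) (XT.lf (nat_lit 0) (nat_lit 3518643762) (nat_lit 380) (nat_lit 2867331055) (nat_lit 456) (nat_lit 2407213949) (nat_lit 222) (nat_lit 5) (nat_lit 227) (nat_lit 5) (nat_lit 228) (nat_lit 5) (nat_lit 427) (nat_lit 394) (nat_lit 379)) (XT.lf (nat_lit 0) (nat_lit 3230107105) (nat_lit 456) (nat_lit 3062597329) (nat_lit 76) (nat_lit 2696843266) (nat_lit 216) (nat_lit 5) (nat_lit 222) (nat_lit 5) (nat_lit 217) (nat_lit 5) (nat_lit 428) (nat_lit 394) (nat_lit 378))) (XT.nd (nat_lit 78) (nat_lit 760) (nat_lit 0) (XT.lf (nat_lit 0) (nat_lit 8446027721) (nat_lit 380) (nat_lit 627892583) (nat_lit 456) (nat_lit 121863438) (nat_lit 211) (nat_lit 5) (nat_lit 216) (nat_lit 5) (nat_lit 217) (nat_lit 5) (nat_lit 429) (nat_lit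 394) (nat_lit 377)) (XT.lf (nat_lit 0) (nat_lit 1644864304) (nat_lit 304) (nat_lit 4059756887) (nat_lit 380) (nat_lit 3705439692) (nat_lit 201) (nat_lit 5) (nat_lit 205) (nat_lit 5) (nat_lit 206) (nat_lit 5) (nat_lit 430) (nat_lit 394) (nat_lit 376)))))) (XT.nd (nat_lit 468) (nat_lit 2204) (nat_lit 0) (XT.nd (nat_lit 234) (nat_lit 1292) (nat_lit 0) (XT.nd (nat_lit 78) (nat_lit 684) (nat_lit 0) (XT.lf (nat_lit 0) (nat_lit 2135177004) (nat_lit 380) (nat_lit 5467634124) (nat_lit 76) (nat_lit 2031792496) (nat_lit 196) (nat_lit 5) (nat_lit 201) (nat_lit 5) (nat_lit 197) (nat_lit 5) (nat_lit 431) (nat_lit 394) (nat_lit 375)) (XT.nd (nat_lit 78) (nat_lit 380) (nat_lit 0) (XT.lf (nat_lit 0) (nat_lit 6774712012) (nat_lit 304) (nat_lit 1424448435) (nat_lit 380) (nat_lit 1669878624) (nat_lit 192) (nat_lit 5) (nat_lit 196) (nat_lit 5) (nat_lit 197) (nat_lit 5) (nat_lit 432) (nat_lit 394) (nat_lit 374)) (XT.lf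 (nat_lit 0) (nat_lit 4386984448) (nat_lit 380) (nat_lit 656474284) (nat_lit 76) (nat_lit 5069777972) (nat_lit 187) (nat_lit 5) (nat_lit 192) (nat_lit 5) (nat_lit 188) (nat_lit 5) (nat_lit 433) (nat_lit 394) (nat_lit 373)))) (XT.nd (nat_lit 78) (nat_lit 608) (nat_lit 0) (XT.lf (nat_lit 0) (nat_lit 364959389) (nat_lit 380) (nat_lit 8440003430) (nat_lit 76) (nat_lit 1563231631) (nat_lit 178) (nat_lit 5) (nat_lit 183) (nat_lit 5) (nat_lit 179) (nat_lit 5) (nat_lit 434) (nat_lit 394) (nat_lit 372)) (XT.nd (nat_lit 78) (nat_lit 380) (nat_lit 0) (XT.lf (nat_lit 0) (nat_lit 4581393416) (nat_lit 228) (nat_lit 2106366269) (nat_lit 304) (nat_lit 3945080171) (nat_lit 175) (nat_lit 5) (nat_lit 178) (nat_lit 5) (nat_lit 179) (nat_lit 5) (nat_lit 435) (nat_lit 394) (nat_lit 371)) (XT.lf (nat_lit 0) (nat_lit 2410150382) (nat_lit 380) (nat_lit 3578041782) (nat_lit 76) (nat_lit 4920593266) (nat_lit 170) (nat_lit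 5) (nat_lit 175) (nat_lit 5) (nat_lit 171) (nat_lit 5) (nat_lit 436) (nat_lit 394) (nat_lit 370))))) (XT.nd (nat_lit 234) (nat_lit 1216) (nat_lit 0) (XT.nd (nat_lit 78) (nat_lit 760) (nat_lit 0) (XT.lf (nat_lit 0) (nat_lit 9034591550) (nat_lit 304) (nat_lit 1016950648) (nat_lit 76) (nat_lit 1144826894) (nat_lit 167) (nat_lit 5) (nat_lit 171) (nat_lit 5) (nat_lit 168) (nat_lit 5) (nat_lit 437) (nat_lit 394) (nat_lit 369)) (XT.nd (nat_lit 78) (nat_lit 228) (nat_lit 0) (XT.lf (nat_lit 0) (nat_lit 1635317023) (nat_lit 228) (nat_lit 2852589679) (nat_lit 304) (nat_lit 7006624248) (nat_lit 160) (nat_lit 5) (nat_lit 163) (nat_lit 5) (nat_lit 164) (nat_lit 5) (nat_lit 438) (nat_lit 394) (nat_lit 368)) (XT.lf (nat_lit 0) (nat_lit 4408759554) (nat_lit 228) (nat_lit 7085948902) (nat_lit 304) (nat_lit 310173412) (nat_lit 157) (nat_lit 5) (nat_lit 160) (nat_lit 5) (nat_lit 161) (nat_lit 5) (nat_lit 439) (nat_lit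 394) (nat_lit 367)))) (XT.nd (nat_lit 156) (nat_lit 608) (nat_lit 0) (XT.nd (nat_lit 78) (nat_lit 304) (nat_lit 0) (XT.lf (nat_lit 0) (nat_lit 6644008545) (nat_lit 304) (nat_lit 4872100212) (nat_lit 76) (nat_lit 611084604) (nat_lit 153) (nat_lit 5) (nat_lit 157) (nat_lit 5) (nat_lit 154) (nat_lit 5) (nat_lit 440) (nat_lit 394) (nat_lit 366)) (XT.lf (nat_lit 0) (nat_lit 1543645423) (nat_lit 304) (nat_lit 2274634728) (nat_lit 76) (nat_lit 8643872412) (nat_lit 149) (nat_lit 5) (nat_lit 153) (nat_lit 5) (nat_lit 150) (nat_lit 5) (nat_lit 441) (nat_lit 394) (nat_lit 365))) (XT.nd (nat_lit 78) (nat_lit 228) (nat_lit 0) (XT.lf (nat_lit 0) (nat_lit 400047963) (nat_lit 228) (nat_lit 8487846584) (nat_lit 304) (nat_lit 3921954893) (nat_lit 144) (nat_lit 5) (nat_lit 147) (nat_lit 5) (nat_lit 148) (nat_lit 5) (nat_lit 442) (nat_lit 394) (nat_lit 364)) (XT.lf (nat_lit 0) (nat_lit 3220265951) (nat_lit 152) (nat_lit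 238540752) (nat_lit 228) (nat_lit 9712103304) (nat_lit 141) (nat_lit 5) (nat_lit 143) (nat_lit 5) (nat_lit 144) (nat_lit 5) (nat_lit 443) (nat_lit 394) (nat_lit 363))))))) (XT.nd (nat_lit 1014) (nat_lit 2128) (nat_lit 0) (XT.nd (nat_lit 468) (nat_lit 1444) (nat_lit 0) (XT.nd (nat_lit 234) (nat_lit 760) (nat_lit 0) (XT.nd (nat_lit 78) (nat_lit 456) (nat_lit 0) (XT.lf (nat_lit 0) (nat_lit 6095660781) (nat_lit 228) (nat_lit 5158942311) (nat_lit 304) (nat_lit 2290444710) (nat_lit 138) (nat_lit 5) (nat_lit 141) (nat_lit 5) (nat_lit 142) (nat_lit 5) (nat_lit 444) (nat_lit 394) (nat_lit 362)) (XT.nd (nat_lit 78) (nat_lit 228) (nat_lit 0) (XT.lf (nat_lit 0) (nat_lit 5484165974) (nat_lit 228) (nat_lit 4873300249) (nat_lit 76) (nat_lit 3576164574) (nat_lit 135) (nat_lit 5) (nat_lit 138) (nat_lit 5) (nat_lit 136) (nat_lit 5) (nat_lit 445) (nat_lit 394) (nat_lit 361)) (XT.lf (nat_lit 0) (nat_lit 12134413484)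 (nat_lit 228) (nat_lit 1576603005) (nat_lit 304) (nat_lit 626621857) (nat_lit 132) (nat_lit 5) (nat_lit 135) (nat_lit 5) (nat_lit 136) (nat_lit 5) (nat_lit 446) (nat_lit 394) (nat_lit 360)))) (XT.nd (nat_lit 78) (nat_lit 380) (nat_lit 0) (XT.lf (nat_lit 0) (nat_lit 502453417) (nat_lit 152) (nat_lit 7082059931) (nat_lit 228) (nat_lit 7170790640) (nat_lit 127) (nat_lit 5) (nat_lit 129) (nat_lit 5) (nat_lit 130) (nat_lit 5) (nat_lit 447) (nat_lit 394) (nat_lit 359)) (XT.nd (nat_lit 78) (nat_lit 152) (nat_lit 0) (XT.lf (nat_lit 0) (nat_lit 1113274807) (nat_lit 228) (nat_lit 11814187881) (nat_lit 76) (nat_lit 2261921611) (nat_lit 124) (nat_lit 5) (nat_lit 127) (nat_lit 5) (nat_lit 125) (nat_lit 5) (nat_lit 448) (nat_lit 394) (nat_lit 358)) (XT.lf (nat_lit 0) (nat_lit 6285438298) (nat_lit 152) (nat_lit 3529238080) (nat_lit 228) (nat_lit 5823820955) (nat_lit 122) (nat_lit 5) (nat_lit 124) (nat_lit 5) (nat_lit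 125) (nat_lit 5) (nat_lit 449) (nat_lit 394) (nat_lit 357))))) (XT.nd (nat_lit 234) (nat_lit 836) (nat_lit 0) (XT.nd (nat_lit 78) (nat_lit 380) (nat_lit 0) (XT.lf (nat_lit 0) (nat_lit 2933461811) (nat_lit 228) (nat_lit 6813926065) (nat_lit 76) (nat_lit 6357425840) (nat_lit 119) (nat_lit 5) (nat_lit 122) (nat_lit 5) (nat_lit 120) (nat_lit 5) (nat_lit 450) (nat_lit 394) (nat_lit 356)) (XT.nd (nat_lit 78) (nat_lit 228) (nat_lit 0) (XT.lf (nat_lit 0) (nat_lit 12139409941) (nat_lit 228) (nat_lit 4199554750) (nat_lit 76) (nat_lit 249815490) (nat_lit 117) (nat_lit 5) (nat_lit 120) (nat_lit 5) (nat_lit 118) (nat_lit 4) (nat_lit 451) (nat_lit 394) (nat_lit 355)) (XT.lf (nat_lit 0) (nat_lit 4816366162) (nat_lit 228) (nat_lit 1554973899) (nat_lit 76) (nat_lit 10718262231) (nat_lit 114) (nat_lit 5) (nat_lit 117) (nat_lit 5) (nat_lit 115) (nat_lit 5) (nat_lit 452) (nat_lit 394) (nat_lit 354)))) (XT.nd (nat_lit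 156) (nat_lit 304) (nat_lit 0) (XT.nd (nat_lit 78) (nat_lit 228) (nat_lit 0) (XT.lf (nat_lit 0) (nat_lit 1204933137) (nat_lit 152) (nat_lit 13407762918) (nat_lit 228) (nat_lit 2996669397) (nat_lit 110) (nat_lit 5) (nat_lit 112) (nat_lit 5) (nat_lit 113) (nat_lit 4) (nat_lit 453) (nat_lit 394) (nat_lit 353)) (XT.lf (nat_lit 0) (nat_lit 4048171545) (nat_lit 152) (nat_lit 2758203240) (nat_lit 228) (nat_lit 11340971169) (nat_lit 107) (nat_lit 5) (nat_lit 109) (nat_lit 5) (nat_lit 110) (nat_lit 5) (nat_lit 454) (nat_lit 394) (nat_lit 352))) (XT.nd (nat_lit 78) (nat_lit 228) (nat_lit 0) (XT.lf (nat_lit 0) (nat_lit 6965105036) (nat_lit 76) (nat_lit 10274757060) (nat_lit 152) (nat_lit 1465406460) (nat_lit 106) (nat_lit 5) (nat_lit 107) (nat_lit 5) (nat_lit 108) (nat_lit 4) (nat_lit 455) (nat_lit 394) (nat_lit 351)) (XT.lf (nat_lit 0) (nat_lit 8896244083) (nat_lit 228) (nat_lit 9337241783) (nat_lit 76) (nat_lit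 1050053141) (nat_lit 103) (nat_lit 5) (nat_lit 106) (nat_lit 5) (nat_lit 104) (nat_lit 4) (nat_lit 456) (nat_lit 394) (nat_lit 350)))))) (XT.nd (nat_lit 546) (nat_lit 912) (nat_lit 0) (XT.nd (nat_lit 234) (nat_lit 760) (nat_lit 0) (XT.nd (nat_lit 78) (nat_lit 304) (nat_lit 0) (XT.lf (nat_lit 0) (nat_lit 99742183) (nat_lit 152) (nat_lit 6884113104) (nat_lit 76) (nat_lit 12899229005) (nat_lit 101) (nat_lit 5) (nat_lit 103) (nat_lit 5) (nat_lit 102) (nat_lit 5) (nat_lit 457) (nat_lit 394) (nat_lit 349)) (XT.nd (nat_lit 78) (nat_lit 152) (nat_lit 0) (XT.lf (nat_lit 0) (nat_lit 11090020353) (nat_lit 228) (nat_lit 4413141567) (nat_lit 76) (nat_lit 5000549109) (nat_lit 99) (nat_lit 5) (nat_lit 102) (nat_lit 5) (nat_lit 100) (nat_lit 4) (nat_lit 458) (nat_lit 394) (nat_lit 348)) (XT.lf (nat_lit 0) (nat_lit 1668378290) (nat_lit 152) (nat_lit 1856831631) (nat_lit 76) (nat_lit 17623053670) (nat_lit 97) (nat_lit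 5) (nat_lit 99) (nat_lit 5) (nat_lit 98) (nat_lit 5) (nat_lit 459) (nat_lit 394) (nat_lit 347)))) (XT.nd (nat_lit 156) (nat_lit 304) (nat_lit 0) (XT.nd (nat_lit 78) (nat_lit 228) (nat_lit 0) (XT.lf (nat_lit 0) (nat_lit 703676658) (nat_lit 76) (nat_lit 12662564133) (nat_lit 152) (nat_lit 8448316295) (nat_lit 94) (nat_lit 5) (nat_lit 95) (nat_lit 5) (nat_lit 96) (nat_lit 4) (nat_lit 460) (nat_lit 394) (nat_lit 346)) (XT.lf (nat_lit 0) (nat_lit 3296539955) (nat_lit 228) (nat_lit 19097988544) (nat_lit 76) (nat_lit 112047100) (nat_lit 91) (nat_lit 5) (nat_lit 94) (nat_lit 5) (nat_lit 92) (nat_lit 4) (nat_lit 461) (nat_lit 394) (nat_lit 345))) (XT.nd (nat_lit 78) (nat_lit 228) (nat_lit 0) (XT.lf (nat_lit 0) (nat_lit 6074699652) (nat_lit 76) (nat_lit 9683156221) (nat_lit 152) (nat_lit 7463712274) (nat_lit 90) (nat_lit 5) (nat_lit 91) (nat_lit 5) (nat_lit 92) (nat_lit 4) (nat_lit 462) (nat_lit 394) (nat_lit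 344)) (XT.lf (nat_lit 0) (nat_lit 4995040535) (nat_lit 228) (nat_lit 15133501166) (nat_lit 76) (nat_lit 3835760634) (nat_lit 87) (nat_lit 5) (nat_lit 90) (nat_lit 5) (nat_lit 88) (nat_lit 4) (nat_lit 463) (nat_lit 394) (nat_lit 343))))) (XT.nd (nat_lit 234) (nat_lit 532) (nat_lit 0) (XT.nd (nat_lit 78) (nat_lit 304) (nat_lit 0) (XT.lf (nat_lit 0) (nat_lit 11588081663) (nat_lit 76) (nat_lit 6623997110) (nat_lit 152) (nat_lit 6521186903) (nat_lit 86) (nat_lit 5) (nat_lit 87) (nat_lit 5) (nat_lit 88) (nat_lit 4) (nat_lit 464) (nat_lit 394) (nat_lit 342)) (XT.nd (nat_lit 78) (nat_lit 76) (nat_lit 0) (XT.lf (nat_lit 0) (nat_lit 6695999517) (nat_lit 228) (nat_lit 11151055285) (nat_lit 76) (nat_lit 7683499068) (nat_lit 83) (nat_lit 5) (nat_lit 86) (nat_lit 5) (nat_lit 84) (nat_lit 4) (nat_lit 465) (nat_lit 394) (nat_lit 341)) (XT.lf (nat_lit 0) (nat_lit 17210122023) (nat_lit 76) (nat_lit 3504186925) (nat_lit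 152) (nat_lit 5643207162) (nat_lit 82) (nat_lit 5) (nat_lit 83) (nat_lit 5) (nat_lit 84) (nat_lit 4) (nat_lit 466) (nat_lit 394) (nat_lit 340)))) (XT.nd (nat_lit 156) (nat_lit 228) (nat_lit 0) (XT.nd (nat_lit 78) (nat_lit 76) (nat_lit 0) (XT.lf (nat_lit 0) (nat_lit 8377929638) (nat_lit 228) (nat_lit 7197992140) (nat_lit 76) (nat_lit 11637626764) (nat_lit 79) (nat_lit 5) (nat_lit 82) (nat_lit 5) (nat_lit 80) (nat_lit 4) (nat_lit 467) (nat_lit 394) (nat_lit 339)) (XT.lf (nat_lit 0) (nat_lit 22895248486) (nat_lit 76) (nat_lit 348578308) (nat_lit 152) (nat_lit 4859067696) (nat_lit 78) (nat_lit 5) (nat_lit 79) (nat_lit 5) (nat_lit 80) (nat_lit 4) (nat_lit 468) (nat_lit 394) (nat_lit 338))) (XT.nd (nat_lit 78) (nat_lit 76) (nat_lit 0) (XT.lf (nat_lit 0) (nat_lit 10012299642) (nat_lit 152) (nat_lit 3335444580) (nat_lit 76) (nat_lit 15674506967) (nat_lit 76) (nat_lit 5) (nat_lit 78) (nat_lit 5) (nat_lit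 77) (nat_lit 4) (nat_lit 469) (nat_lit 394) (nat_lit 337)) (XT.lf (nat_lit 0) (nat_lit 25799570298) (nat_lit 152) (nat_lit 1422352537) (nat_lit 0) (nat_lit 2756025207) (nat_lit 75) (nat_lit 5) (nat_lit 77) (nat_lit 4) (nat_lit 75) (nat_lit 4) (nat_lit 470) (nat_lit 394) (nat_lit 336))))))))
noncomputable def xc37 : XT := (XT.nd (nat_lit 2028) (nat_lit 228) (nat_lit 0) (XT.nd (nat_lit 1014) (nat_lit 1368) (nat_lit 0) (XT.nd (nat_lit 468) (nat_lit 836) (nat_lit 0) (XT.nd (nat_lit 234) (nat_lit 304) (nat_lit 0) (XT.nd (nat_lit 78) (nat_lit 228) (nat_lit 0) (XT.lf (nat_lit 0) (nat_lit 365918037) (nat_lit 76) (nat_lit 11199743120) (nat_lit 152) (nat_lit 19400685801) (nat_lit 72) (nat_lit 5) (nat_lit 73) (nat_lit 5) (nat_lit 74) (nat_lit 4) (nat_lit 471) (nat_lit 394) (nat_lit 335)) (XT.nd (nat_lit 78) (nat_lit 152) (nat_lit 0) (XT.lf (nat_lit 0) (nat_lit 2187401887) (nat_lit 76) (nat_lit 26154214839)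 (nat_lit 76) (nat_lit 3651374486) (nat_lit 71) (nat_lit 4) (nat_lit 72) (nat_lit 5) (nat_lit 72) (nat_lit 4) (nat_lit 472) (nat_lit 394) (nat_lit 334)) (XT.lf (nat_lit 0) (nat_lit 3862140548) (nat_lit 76) (nat_lit 9155392705) (nat_lit 152) (nat_lit 20038211772) (nat_lit 69) (nat_lit 5) (nat_lit 70) (nat_lit 5) (nat_lit 71) (nat_lit 4) (nat_lit 473) (nat_lit 394) (nat_lit 333)))) (XT.nd (nat_lit 78) (nat_lit 228) (nat_lit 0) (XT.lf (nat_lit 0) (nat_lit 5494713021) (nat_lit 76) (nat_lit 25313614317) (nat_lit 76) (nat_lit 3351306263) (nat_lit 68) (nat_lit 4) (nat_lit 69) (nat_lit 5) (nat_lit 69) (nat_lit 4) (nat_lit 474) (nat_lit 394) (nat_lit 332)) (XT.nd (nat_lit 78) (nat_lit 76) (nat_lit 0) (XT.lf (nat_lit 0) (nat_lit 6962394331) (nat_lit 76) (nat_lit 7312520761) (nat_lit 152) (nat_lit 21028271207) (nat_lit 66) (nat_lit 5) (nat_lit 67) (nat_lit 5) (nat_lit 68) (nat_lit 4) (nat_lit 475) (nat_lit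 394) (nat_lit 331)) (XT.lf (nat_lit 0) (nat_lit 8332740752) (nat_lit 76) (nat_lit 24790835196) (nat_lit 76) (nat_lit 3367032396) (nat_lit 65) (nat_lit 4) (nat_lit 66) (nat_lit 5) (nat_lit 66) (nat_lit 4) (nat_lit 476) (nat_lit 394) (nat_lit 330))))) (XT.nd (nat_lit 234) (nat_lit 456) (nat_lit 0) (XT.nd (nat_lit 78) (nat_lit 228) (nat_lit 0) (XT.lf (nat_lit 0) (nat_lit 9512777216) (nat_lit 76) (nat_lit 5750071483) (nat_lit 152) (nat_lit 22458723974) (nat_lit 63) (nat_lit 5) (nat_lit 64) (nat_lit 5) (nat_lit 65) (nat_lit 4) (nat_lit 477) (nat_lit 394) (nat_lit 329)) (XT.nd (nat_lit 78) (nat_lit 152) (nat_lit 0) (XT.lf (nat_lit 0) (nat_lit 10530747373) (nat_lit 76) (nat_lit 24678796255) (nat_lit 76) (nat_lit 3789893092) (nat_lit 62) (nat_lit 4) (nat_lit 63) (nat_lit 5) (nat_lit 63) (nat_lit 4) (nat_lit 478) (nat_lit 394) (nat_lit 328)) (XT.lf (nat_lit 0) (nat_lit 11324201845) (nat_lit 76) (nat_lit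 4564712556) (nat_lit 152) (nat_lit 24436167123) (nat_lit 60) (nat_lit 5) (nat_lit 61) (nat_lit 5) (nat_lit 62) (nat_lit 4) (nat_lit 479) (nat_lit 394) (nat_lit 327)))) (XT.nd (nat_lit 156) (nat_lit 228) (nat_lit 0) (XT.nd (nat_lit 78) (nat_lit 152) (nat_lit 0) (XT.lf (nat_lit 0) (nat_lit 11879567209) (nat_lit 76) (nat_lit 25090184007) (nat_lit 76) (nat_lit 4731237785) (nat_lit 59) (nat_lit 4) (nat_lit 60) (nat_lit 5) (nat_lit 60) (nat_lit 4) (nat_lit 480) (nat_lit 394) (nat_lit 326)) (XT.lf (nat_lit 0) (nat_lit 12165638440) (nat_lit 76) (nat_lit 3874279903) (nat_lit 152) (nat_lit 27089399614) (nat_lit 57) (nat_lit 5) (nat_lit 58) (nat_lit 5) (nat_lit 59) (nat_lit 4) (nat_lit 481) (nat_lit 394) (nat_lit 325))) (XT.nd (nat_lit 78) (nat_lit 152) (nat_lit 0) (XT.lf (nat_lit 0) (nat_lit 12124270202) (nat_lit 76) (nat_lit 26161217427) (nat_lit 76) (nat_lit 6326159484) (nat_lit 56) (nat_lit 4) (nat_lit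 57) (nat_lit 5) (nat_lit 57) (nat_lit 4) (nat_lit 482) (nat_lit 394) (nat_lit 324)) (XT.lf (nat_lit 0) (nat_lit 11756150723) (nat_lit 76) (nat_lit 3821832808) (nat_lit 152) (nat_lit 30573505104) (nat_lit 54) (nat_lit 5) (nat_lit 55) (nat_lit 5) (nat_lit 56) (nat_lit 4) (nat_lit 483) (nat_lit 394) (nat_lit 323)))))) (XT.nd (nat_lit 468) (nat_lit 760) (nat_lit 0) (XT.nd (nat_lit 234) (nat_lit 304) (nat_lit 0) (XT.nd (nat_lit 78) (nat_lit 228) (nat_lit 0) (XT.lf (nat_lit 0) (nat_lit 10955517734) (nat_lit 76) (nat_lit 28056076328) (nat_lit 76) (nat_lit 8737896447) (nat_lit 53) (nat_lit 4) (nat_lit 54) (nat_lit 5) (nat_lit 54) (nat_lit 4) (nat_lit 484) (nat_lit 394) (nat_lit 322)) (XT.nd (nat_lit 78) (nat_lit 76) (nat_lit 0) (XT.lf (nat_lit 0) (nat_lit 9755514899) (nat_lit 76) (nat_lit 4580426259) (nat_lit 152) (nat_lit 35074659445) (nat_lit 51) (nat_lit 5) (nat_lit 52) (nat_lit 5) (nat_lit 53) (nat_lit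 4) (nat_lit 485) (nat_lit 394) (nat_lit 321)) (XT.lf (nat_lit 0) (nat_lit 7999383304) (nat_lit 76) (nat_lit 30972109127) (nat_lit 76) (nat_lit 12163016471) (nat_lit 50) (nat_lit 4) (nat_lit 51) (nat_lit 5) (nat_lit 51) (nat_lit 4) (nat_lit 486) (nat_lit 394) (nat_lit 320)))) (XT.nd (nat_lit 78) (nat_lit 152) (nat_lit 0) (XT.lf (nat_lit 0) (nat_lit 5753175643) (nat_lit 76) (nat_lit 6358725564) (nat_lit 152) (nat_lit 40815787783) (nat_lit 48) (nat_lit 5) (nat_lit 49) (nat_lit 5) (nat_lit 50) (nat_lit 4) (nat_lit 487) (nat_lit 394) (nat_lit 319)) (XT.nd (nat_lit 78) (nat_lit 76) (nat_lit 0) (XT.lf (nat_lit 0) (nat_lit 2805371786) (nat_lit 76) (nat_lit 35145955433) (nat_lit 76) (nat_lit 16837518860) (nat_lit 47) (nat_lit 4) (nat_lit 48) (nat_lit 5) (nat_lit 48) (nat_lit 4) (nat_lit 488) (nat_lit 394) (nat_lit 318)) (XT.lf (nat_lit 0) (nat_lit 8670019528) (nat_lit 152) (nat_lit 730216357) (nat_lit 76)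 (nat_lit 47325627505) (nat_lit 46) (nat_lit 5) (nat_lit 48) (nat_lit 5) (nat_lit 47) (nat_lit 4) (nat_lit 489) (nat_lit 394) (nat_lit 317))))) (XT.nd (nat_lit 234) (nat_lit 456) (nat_lit 0) (XT.nd (nat_lit 78) (nat_lit 228) (nat_lit 0) (XT.lf (nat_lit 0) (nat_lit 35742742271) (nat_lit 152) (nat_lit 5066834663) (nat_lit 0) (nat_lit 17926012518) (nat_lit 45) (nat_lit 5) (nat_lit 47) (nat_lit 4) (nat_lit 45) (nat_lit 4) (nat_lit 490) (nat_lit 394) (nat_lit 316)) (XT.nd (nat_lit 78) (nat_lit 76) (nat_lit 0) (XT.lf (nat_lit 0) (nat_lit 3796487917) (nat_lit 152) (nat_lit 10129161771) (nat_lit 76) (nat_lit 46903052734) (nat_lit 43) (nat_lit 5) (nat_lit 45) (nat_lit 5) (nat_lit 44) (nat_lit 4) (nat_lit 491) (nat_lit 394) (nat_lit 315)) (XT.lf (nat_lit 0) (nat_lit 32045652176) (nat_lit 152) (nat_lit 16244844596) (nat_lit 0) (nat_lit 14711268127) (nat_lit 42) (nat_lit 5) (nat_lit 44) (nat_lit 4) (nat_lit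 42) (nat_lit 4) (nat_lit 492) (nat_lit 394) (nat_lit 314)))) (XT.nd (nat_lit 156) (nat_lit 228) (nat_lit 0) (XT.nd (nat_lit 78) (nat_lit 152) (nat_lit 0) (XT.lf (nat_lit 0) (nat_lit 41986000062) (nat_lit 76) (nat_lit 20315517644) (nat_lit 76) (nat_lit 2964135607) (nat_lit 41) (nat_lit 4) (nat_lit 42) (nat_lit 5) (nat_lit 42) (nat_lit 4) (nat_lit 493) (nat_lit 394) (nat_lit 313)) (XT.lf (nat_lit 0) (nat_lit 26468376345) (nat_lit 152) (nat_lit 31543382563) (nat_lit 0) (nat_lit 9606657317) (nat_lit 39) (nat_lit 5) (nat_lit 41) (nat_lit 4) (nat_lit 39) (nat_lit 4) (nat_lit 494) (nat_lit 394) (nat_lit 312))) (XT.nd (nat_lit 78) (nat_lit 152) (nat_lit 0) (XT.lf (nat_lit 0) (nat_lit 29025129726) (nat_lit 76) (nat_lit 28959643991) (nat_lit 76) (nat_lit 12082956344) (nat_lit 38) (nat_lit 4) (nat_lit 39) (nat_lit 5) (nat_lit 39) (nat_lit 4) (nat_lit 495) (nat_lit 394) (nat_lit 311)) (XT.lf (nat_lit 0) (nat_lit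 18574575264) (nat_lit 152) (nat_lit 51869110155) (nat_lit 0) (nat_lit 2175601017) (nat_lit 36) (nat_lit 5) (nat_lit 38) (nat_lit 4) (nat_lit 36) (nat_lit 4) (nat_lit 496) (nat_lit 394) (nat_lit 310))))))) (XT.nd (nat_lit 56472) (nat_lit 0) (nat_lit 11704) (XT.nd (nat_lit 55926) (nat_lit 0) (nat_lit 19456) (XT.nd (nat_lit 55692) (nat_lit 0) (nat_lit 27740) (XT.nd (nat_lit 78) (nat_lit 152) (nat_lit 0) (XT.lf (nat_lit 0) (nat_lit 10896456647) (nat_lit 76) (nat_lit 40393640309) (nat_lit 76) (nat_lit 23981484529) (nat_lit 35) (nat_lit 4) (nat_lit 36) (nat_lit 5) (nat_lit 36) (nat_lit 4) (nat_lit 497) (nat_lit 394) (nat_lit 309)) (XT.nd (nat_lit 78) (nat_lit 76) (nat_lit 0) (XT.lf (nat_lit 0) (nat_lit 7926076752) (nat_lit 152) (nat_lit 334773811) (nat_lit 76) (nat_lit 69778778015) (nat_lit 34) (nat_lit 5) (nat_lit 36) (nat_lit 5) (nat_lit 35) (nat_lit 4) (nat_lit 498) (nat_lit 394) (nat_lit 308)) (XT.lf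 (nat_lit 0) (nat_lit 41795945861) (nat_lit 152) (nat_lit 13279103878) (nat_lit 0) (nat_lit 25838018037) (nat_lit 33) (nat_lit 5) (nat_lit 35) (nat_lit 4) (nat_lit 33) (nat_lit 4) (nat_lit 499) (nat_lit 394) (nat_lit 307)))) (XT.nd (nat_lit 78) (nat_lit 1748) (nat_lit 0) (XT.lf (nat_lit 0) (nat_lit 2352748582) (nat_lit 684) (nat_lit 506233509) (nat_lit 684) (nat_lit 506233509) (nat_lit 421) (nat_lit 4) (nat_lit 430) (nat_lit 5) (nat_lit 430) (nat_lit 4) (nat_lit 410) (nat_lit 395) (nat_lit 395)) (XT.nd (nat_lit 78) (nat_lit 912) (nat_lit 0) (XT.lf (nat_lit 0) (nat_lit 4494403879) (nat_lit 836) (nat_lit 1248602838) (nat_lit 0) (nat_lit 1048976388) (nat_lit 410) (nat_lit 5) (nat_lit 421) (nat_lit 4) (nat_lit 410) (nat_lit 4) (nat_lit 411) (nat_lit 395) (nat_lit 394)) (XT.lf (nat_lit 0) (nat_lit 3136082553) (nat_lit 912) (nat_lit 360539421) (nat_lit 76) (nat_lit 3364637761) (nat_lit 398) (nat_lit 5)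 (nat_lit 410) (nat_lit 5) (nat_lit 399) (nat_lit 4) (nat_lit 412) (nat_lit 395) (nat_lit 393))))) (XT.nd (nat_lit 234) (nat_lit 4028) (nat_lit 0) (XT.nd (nat_lit 78) (nat_lit 2280) (nat_lit 0) (XT.lf (nat_lit 0) (nat_lit 663626921) (nat_lit 988) (nat_lit 971035375) (nat_lit 1064) (nat_lit 5303825762) (nat_lit 372) (nat_lit 5) (nat_lit 385) (nat_lit 5) (nat_lit 386) (nat_lit 5) (nat_lit 413) (nat_lit 395) (nat_lit 392)) (XT.nd (nat_lit 78) (nat_lit 1140) (nat_lit 0) (XT.lf (nat_lit 0) (nat_lit 802699) (nat_lit 1140) (nat_lit 5218863137) (nat_lit 76) (nat_lit 1803661689) (nat_lit 357) (nat_lit 5) (nat_lit 372) (nat_lit 5) (nat_lit 358) (nat_lit 5) (nat_lit 414) (nat_lit 395) (nat_lit 391)) (XT.lf (nat_lit 0) (nat_lit 3045044372) (nat_lit 1140) (nat_lit 2254793924) (nat_lit 1216) (nat_lit 1815845267) (nat_lit 342) (nat_lit 5) (nat_lit 357) (nat_lit 5) (nat_lit 358) (nat_lit 5) (nat_lit 415) (nat_lit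 395) (nat_lit 390)))) (XT.nd (nat_lit 156) (nat_lit 1824) (nat_lit 0) (XT.nd (nat_lit 78) (nat_lit 912) (nat_lit 0) (XT.lf (nat_lit 0) (nat_lit 3427446234) (nat_lit 1292) (nat_lit 2811949563) (nat_lit 76) (nat_lit 976797722) (nat_lit 325) (nat_lit 5) (nat_lit 342) (nat_lit 5) (nat_lit 326) (nat_lit 5) (nat_lit 416) (nat_lit 395) (nat_lit 389)) (XT.lf (nat_lit 0) (nat_lit 1415342516) (nat_lit 912) (nat_lit 1454780662) (nat_lit 76) (nat_lit 4454469109) (nat_lit 313) (nat_lit 5) (nat_lit 325) (nat_lit 5) (nat_lit 314) (nat_lit 5) (nat_lit 417) (nat_lit 395) (nat_lit 388))) (XT.nd (nat_lit 78) (nat_lit 608) (nat_lit 0) (XT.lf (nat_lit 0) (nat_lit 10807175) (nat_lit 608) (nat_lit 6658174782) (nat_lit 684) (nat_lit 772285627) (nat_lit 297) (nat_lit 5) (nat_lit 305) (nat_lit 5) (nat_lit 306) (nat_lit 5) (nat_lit 418) (nat_lit 395) (nat_lit 387)) (XT.lf (nat_lit 0) (nat_lit 1587705851) (nat_lit 532) (nat_lit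 2857143243) (nat_lit 608) (nat_lit 3120201701) (nat_lit 289) (nat_lit 5) (nat_lit 296) (nat_lit 5) (nat_lit 297) (nat_lit 5) (nat_lit 419) (nat_lit 395) (nat_lit 386)))))) (XT.nd (nat_lit 546) (nat_lit 3496) (nat_lit 0) (XT.nd (nat_lit 234) (nat_lit 2432) (nat_lit 0) (XT.nd (nat_lit 78) (nat_lit 1140) (nat_lit 0) (XT.lf (nat_lit 0) (nat_lit 2058870267) (nat_lit 684) (nat_lit 4416517632) (nat_lit 76) (nat_lit 1222080267) (nat_lit 280) (nat_lit 5) (nat_lit 289) (nat_lit 5) (nat_lit 281) (nat_lit 5) (nat_lit 420) (nat_lit 395) (nat_lit 385)) (XT.nd (nat_lit 78) (nat_lit 608) (nat_lit 0) (XT.lf (nat_lit 0) (nat_lit 5070942426) (nat_lit 532) (nat_lit 2279021214) (nat_lit 608) (nat_lit 488098631) (nat_lit 273) (nat_lit 5) (nat_lit 280) (nat_lit 5) (nat_lit 281) (nat_lit 5) (nat_lit 421) (nat_lit 395) (nat_lit 384)) (XT.lf (nat_lit 0) (nat_lit 4741836903) (nat_lit 608) (nat_lit 1036340471) (nat_lit 76)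 (nat_lit 2208562215) (nat_lit 265) (nat_lit 5) (nat_lit 273) (nat_lit 5) (nat_lit 266) (nat_lit 5) (nat_lit 422) (nat_lit 395) (nat_lit 383)))) (XT.nd (nat_lit 156) (nat_lit 988) (nat_lit 0) (XT.nd (nat_lit 78) (nat_lit 456) (nat_lit 0) (XT.lf (nat_lit 0) (nat_lit 813103548) (nat_lit 456) (nat_lit 1162737547) (nat_lit 532) (nat_lit 6168194713) (nat_lit 252) (nat_lit 5) (nat_lit 258) (nat_lit 5) (nat_lit 259) (nat_lit 5) (nat_lit 423) (nat_lit 395) (nat_lit 382)) (XT.lf (nat_lit 0) (nat_lit 2768346054) (nat_lit 456) (nat_lit 4583192446) (nat_lit 532) (nat_lit 957872363) (nat_lit 246) (nat_lit 5) (nat_lit 252) (nat_lit 5) (nat_lit 253) (nat_lit 5) (nat_lit 424) (nat_lit 395) (nat_lit 381))) (XT.nd (nat_lit 78) (nat_lit 456) (nat_lit 0) (XT.lf (nat_lit 0) (nat_lit 4362594722) (nat_lit 532) (nat_lit 3663831543) (nat_lit 76) (nat_lit 457204166) (nat_lit 239) (nat_lit 5) (nat_lit 246) (nat_lit 5) (nat_lit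 240) (nat_lit 5) (nat_lit 425) (nat_lit 395) (nat_lit 380)) (XT.lf (nat_lit 0) (nat_lit 1214679967) (nat_lit 456) (nat_lit 1706388854) (nat_lit 76) (nat_lit 5745560990) (nat_lit 233) (nat_lit 5) (nat_lit 239) (nat_lit 5) (nat_lit 234) (nat_lit 5) (nat_lit 426) (nat_lit 395) (nat_lit 379))))) (XT.nd (nat_lit 234) (nat_lit 1824) (nat_lit 0) (XT.nd (nat_lit 78) (nat_lit 836) (nat_lit 0) (XT.lf (nat_lit 0) (nat_lit 341983123) (nat_lit 380) (nat_lit 6355758659) (nat_lit 456) (nat_lit 2160846651) (nat_lit 222) (nat_lit 5) (nat_lit 227) (nat_lit 5) (nat_lit 228) (nat_lit 5) (nat_lit 427) (nat_lit 395) (nat_lit 378)) (XT.nd (nat_lit 78) (nat_lit 380) (nat_lit 0) (XT.lf (nat_lit 0) (nat_lit 2516083490) (nat_lit 380) (nat_lit 804506125) (nat_lit 456) (nat_lit 5738822195) (nat_lit 216) (nat_lit 5) (nat_lit 221) (nat_lit 5) (nat_lit 222) (nat_lit 5) (nat_lit 428) (nat_lit 395) (nat_lit 377)) (XT.lf (nat_lit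 0) (nat_lit 4776141163) (nat_lit 380) (nat_lit 4256509934) (nat_lit 456) (nat_lit 236952327) (nat_lit 211) (nat_lit 5) (nat_lit 216) (nat_lit 5) (nat_lit 217) (nat_lit 5) (nat_lit 429) (nat_lit 395) (nat_lit 376)))) (XT.nd (nat_lit 156) (nat_lit 988) (nat_lit 0) (XT.nd (nat_lit 78) (nat_lit 380) (nat_lit 0) (XT.lf (nat_lit 0) (nat_lit 5415907180) (nat_lit 456) (nat_lit 2372151972) (nat_lit 76) (nat_lit 1701133524) (nat_lit 205) (nat_lit 5) (nat_lit 211) (nat_lit 5) (nat_lit 206) (nat_lit 5) (nat_lit 430) (nat_lit 395) (nat_lit 375)) (XT.lf (nat_lit 0) (nat_lit 1604891853) (nat_lit 380) (nat_lit 160691833) (nat_lit 76) (nat_lit 7953348914) (nat_lit 200) (nat_lit 5) (nat_lit 205) (nat_lit 5) (nat_lit 201) (nat_lit 5) (nat_lit 431) (nat_lit 395) (nat_lit 374))) (XT.nd (nat_lit 78) (nat_lit 380) (nat_lit 0) (XT.lf (nat_lit 0) (nat_lit 2161776225) (nat_lit 304) (nat_lit 5360770663) (nat_lit 380) (nat_lit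 2435213471) (nat_lit 192) (nat_lit 5) (nat_lit 196) (nat_lit 5) (nat_lit 197) (nat_lit 5) (nat_lit 432) (nat_lit 395) (nat_lit 373)) (XT.lf (nat_lit 0) (nat_lit 3469167343) (nat_lit 380) (nat_lit 5623391834) (nat_lit 76) (nat_lit 1114644297) (nat_lit 187) (nat_lit 5) (nat_lit 192) (nat_lit 5) (nat_lit 188) (nat_lit 5) (nat_lit 433) (nat_lit 395) (nat_lit 372))))))))
noncomputable def xc38 : XT := (XT.nd (nat_lit 2028) (nat_lit 3572) (nat_lit 0) (XT.nd (nat_lit 1014) (nat_lit 2584) (nat_lit 0) (XT.nd (nat_lit 468) (nat_lit 2128) (nat_lit 0) (XT.nd (nat_lit 234) (nat_lit 760) (nat_lit 0) (XT.nd (nat_lit 78) (nat_lit 988) (nat_lit 0) (XT.lf (nat_lit 0) (nat_lit 7089241851) (nat_lit 304) (nat_lit 2570829697) (nat_lit 380) (nat_lit 807078258) (nat_lit 183) (nat_lit 5) (nat_lit 187) (nat_lit 5) (nat_lit 188) (nat_lit 5) (nat_lit 434) (nat_lit 395) (nat_lit 371)) (XT.nd (nat_lit 78) (nat_lit 608) (nat_lit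 0) (XT.lf (nat_lit 0) (nat_lit 5350491610) (nat_lit 380) (nat_lit 1072034731) (nat_lit 76) (nat_lit 4314933001) (nat_lit 178) (nat_lit 5) (nat_lit 183) (nat_lit 5) (nat_lit 179) (nat_lit 5) (nat_lit 435) (nat_lit 395) (nat_lit 370)) (XT.lf (nat_lit 0) (nat_lit 808393049) (nat_lit 380) (nat_lit 9649151364) (nat_lit 76) (nat_lit 561918349) (nat_lit 170) (nat_lit 5) (nat_lit 175) (nat_lit 5) (nat_lit 171) (nat_lit 5) (nat_lit 436) (nat_lit 395) (nat_lit 369)))) (XT.nd (nat_lit 78) (nat_lit 532) (nat_lit 0) (XT.lf (nat_lit 0) (nat_lit 3876782324) (nat_lit 228) (nat_lit 3409300163) (nat_lit 304) (nat_lit 4025368253) (nat_lit 167) (nat_lit 5) (nat_lit 170) (nat_lit 5) (nat_lit 171) (nat_lit 5) (nat_lit 437) (nat_lit 395) (nat_lit 368)) (XT.nd (nat_lit 78) (nat_lit 228) (nat_lit 0) (XT.lf (nat_lit 0) (nat_lit 2473943624) (nat_lit 304) (nat_lit 5129725428) (nat_lit 76) (nat_lit 4012084729) (nat_lit 163)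 (nat_lit 5) (nat_lit 167) (nat_lit 5) (nat_lit 164) (nat_lit 5) (nat_lit 438) (nat_lit 395) (nat_lit 367)) (XT.lf (nat_lit 0) (nat_lit 9190441343) (nat_lit 228) (nat_lit 79498270) (nat_lit 304) (nat_lit 2662490813) (nat_lit 160) (nat_lit 5) (nat_lit 163) (nat_lit 5) (nat_lit 164) (nat_lit 5) (nat_lit 439) (nat_lit 395) (nat_lit 366))))) (XT.nd (nat_lit 234) (nat_lit 1140) (nat_lit 0) (XT.nd (nat_lit 78) (nat_lit 684) (nat_lit 0) (XT.lf (nat_lit 0) (nat_lit 4162801525) (nat_lit 304) (nat_lit 308687252) (nat_lit 76) (nat_lit 7789176689) (nat_lit 156) (nat_lit 5) (nat_lit 160) (nat_lit 5) (nat_lit 157) (nat_lit 5) (nat_lit 440) (nat_lit 395) (nat_lit 365)) (XT.nd (nat_lit 78) (nat_lit 228) (nat_lit 0) (XT.lf (nat_lit 0) (nat_lit 2271395667) (nat_lit 228) (nat_lit 9092837791) (nat_lit 304) (nat_lit 1237592585) (nat_lit 150) (nat_lit 5) (nat_lit 153) (nat_lit 5) (nat_lit 154) (nat_lit 5) (nat_lit 441)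 (nat_lit 395) (nat_lit 364)) (XT.lf (nat_lit 0) (nat_lit 4925074594) (nat_lit 152) (nat_lit 1011862966) (nat_lit 228) (nat_lit 7018759584) (nat_lit 147) (nat_lit 5) (nat_lit 149) (nat_lit 5) (nat_lit 150) (nat_lit 5) (nat_lit 442) (nat_lit 395) (nat_lit 363)))) (XT.nd (nat_lit 156) (nat_lit 684) (nat_lit 0) (XT.nd (nat_lit 78) (nat_lit 152) (nat_lit 0) (XT.lf (nat_lit 0) (nat_lit 234480376) (nat_lit 304) (nat_lit 5657314523) (nat_lit 76) (nat_lit 7431495578) (nat_lit 143) (nat_lit 5) (nat_lit 147) (nat_lit 5) (nat_lit 144) (nat_lit 5) (nat_lit 443) (nat_lit 395) (nat_lit 362)) (XT.lf (nat_lit 0) (nat_lit 7795252820) (nat_lit 228) (nat_lit 3227103464) (nat_lit 76) (nat_lit 2682123820) (nat_lit 141) (nat_lit 5) (nat_lit 144) (nat_lit 5) (nat_lit 142) (nat_lit 5) (nat_lit 444) (nat_lit 395) (nat_lit 361))) (XT.nd (nat_lit 78) (nat_lit 380) (nat_lit 0) (XT.lf (nat_lit 0) (nat_lit 1716915850) (nat_lit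 304) (nat_lit 705830303) (nat_lit 76) (nat_lit 11677934045) (nat_lit 137) (nat_lit 5) (nat_lit 141) (nat_lit 5) (nat_lit 138) (nat_lit 5) (nat_lit 445) (nat_lit 395) (nat_lit 360)) (XT.lf (nat_lit 0) (nat_lit 1899890921) (nat_lit 228) (nat_lit 7852165760) (nat_lit 304) (nat_lit 4758383338) (nat_lit 132) (nat_lit 5) (nat_lit 135) (nat_lit 5) (nat_lit 136) (nat_lit 5) (nat_lit 446) (nat_lit 395) (nat_lit 359)))))) (XT.nd (nat_lit 468) (nat_lit 1292) (nat_lit 0) (XT.nd (nat_lit 234) (nat_lit 684) (nat_lit 0) (XT.nd (nat_lit 78) (nat_lit 380) (nat_lit 0) (XT.lf (nat_lit 0) (nat_lit 3301962179) (nat_lit 228) (nat_lit 10308955259) (nat_lit 76) (nat_lit 1325323097) (nat_lit 129) (nat_lit 5) (nat_lit 132) (nat_lit 5) (nat_lit 130) (nat_lit 5) (nat_lit 447) (nat_lit 395) (nat_lit 358)) (XT.nd (nat_lit 78) (nat_lit 228) (nat_lit 0) (XT.lf (nat_lit 0) (nat_lit 7407747489) (nat_lit 152) (nat_lit 4418217416)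 (nat_lit 228) (nat_lit 3551183043) (nat_lit 127) (nat_lit 5) (nat_lit 129) (nat_lit 5) (nat_lit 130) (nat_lit 5) (nat_lit 448) (nat_lit 395) (nat_lit 357)) (XT.lf (nat_lit 0) (nat_lit 4977317340) (nat_lit 228) (nat_lit 5561680426) (nat_lit 76) (nat_lit 5295554027) (nat_lit 124) (nat_lit 5) (nat_lit 127) (nat_lit 5) (nat_lit 125) (nat_lit 5) (nat_lit 449) (nat_lit 395) (nat_lit 356)))) (XT.nd (nat_lit 78) (nat_lit 532) (nat_lit 0) (XT.lf (nat_lit 0) (nat_lit 13246767625) (nat_lit 152) (nat_lit 749565576) (nat_lit 228) (nat_lit 2313313350) (nat_lit 122) (nat_lit 5) (nat_lit 124) (nat_lit 5) (nat_lit 125) (nat_lit 5) (nat_lit 450) (nat_lit 395) (nat_lit 355)) (XT.nd (nat_lit 78) (nat_lit 304) (nat_lit 0) (XT.lf (nat_lit 0) (nat_lit 6720934168) (nat_lit 228) (nat_lit 545599473) (nat_lit 76) (nat_lit 9534252437) (nat_lit 119) (nat_lit 5) (nat_lit 122) (nat_lit 5) (nat_lit 120) (nat_lit 5) (nat_lit 451)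 (nat_lit 395) (nat_lit 354)) (XT.lf (nat_lit 0) (nat_lit 2129734545) (nat_lit 152) (nat_lit 14194039649) (nat_lit 228) (nat_lit 987080949) (nat_lit 115) (nat_lit 5) (nat_lit 117) (nat_lit 5) (nat_lit 118) (nat_lit 4) (nat_lit 452) (nat_lit 395) (nat_lit 353))))) (XT.nd (nat_lit 234) (nat_lit 684) (nat_lit 0) (XT.nd (nat_lit 78) (nat_lit 380) (nat_lit 0) (XT.lf (nat_lit 0) (nat_lit 4842571680) (nat_lit 152) (nat_lit 3743556499) (nat_lit 228) (nat_lit 9252046865) (nat_lit 112) (nat_lit 5) (nat_lit 114) (nat_lit 5) (nat_lit 115) (nat_lit 5) (nat_lit 453) (nat_lit 395) (nat_lit 352)) (XT.nd (nat_lit 78) (nat_lit 152) (nat_lit 0) (XT.lf (nat_lit 0) (nat_lit 413996840) (nat_lit 228) (nat_lit 10727814781) (nat_lit 76) (nat_lit 7243920375) (nat_lit 109) (nat_lit 5) (nat_lit 112) (nat_lit 5) (nat_lit 110) (nat_lit 5) (nat_lit 454) (nat_lit 395) (nat_lit 351)) (XT.lf (nat_lit 0) (nat_lit 10531809570) (nat_lit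 152) (nat_lit 7739263) (nat_lit 228) (nat_lit 8413344370) (nat_lit 107) (nat_lit 5) (nat_lit 109) (nat_lit 5) (nat_lit 110) (nat_lit 5) (nat_lit 455) (nat_lit 395) (nat_lit 350)))) (XT.nd (nat_lit 156) (nat_lit 380) (nat_lit 0) (XT.nd (nat_lit 78) (nat_lit 152) (nat_lit 0) (XT.lf (nat_lit 0) (nat_lit 1841295944) (nat_lit 152) (nat_lit 6072566953) (nat_lit 76) (nat_lit 11626582582) (nat_lit 105) (nat_lit 5) (nat_lit 107) (nat_lit 5) (nat_lit 106) (nat_lit 5) (nat_lit 456) (nat_lit 395) (nat_lit 349)) (XT.lf (nat_lit 0) (nat_lit 12616777338) (nat_lit 228) (nat_lit 3672695123) (nat_lit 76) (nat_lit 3859941581) (nat_lit 103) (nat_lit 5) (nat_lit 106) (nat_lit 5) (nat_lit 104) (nat_lit 4) (nat_lit 457) (nat_lit 395) (nat_lit 348))) (XT.nd (nat_lit 78) (nat_lit 228) (nat_lit 0) (XT.lf (nat_lit 0) (nat_lit 3313196571) (nat_lit 152) (nat_lit 1208782819) (nat_lit 76) (nat_lit 16258977096) (nat_lit 101) (nat_lit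 5) (nat_lit 103) (nat_lit 5) (nat_lit 102) (nat_lit 5) (nat_lit 458) (nat_lit 395) (nat_lit 347)) (XT.lf (nat_lit 0) (nat_lit 1305760453) (nat_lit 76) (nat_lit 13489492073) (nat_lit 152) (nat_lit 6639095453) (nat_lit 98) (nat_lit 5) (nat_lit 99) (nat_lit 5) (nat_lit 100) (nat_lit 4) (nat_lit 459) (nat_lit 395) (nat_lit 346))))))) (XT.nd (nat_lit 1014) (nat_lit 1596) (nat_lit 0) (XT.nd (nat_lit 468) (nat_lit 1064) (nat_lit 0) (XT.nd (nat_lit 234) (nat_lit 380) (nat_lit 0) (XT.nd (nat_lit 78) (nat_lit 304) (nat_lit 0) (XT.lf (nat_lit 0) (nat_lit 3932829360) (nat_lit 152) (nat_lit 930898182) (nat_lit 228) (nat_lit 17248566660) (nat_lit 95) (nat_lit 5) (nat_lit 97) (nat_lit 5) (nat_lit 98) (nat_lit 5) (nat_lit 460) (nat_lit 395) (nat_lit 345)) (XT.nd (nat_lit 78) (nat_lit 228) (nat_lit 0) (XT.lf (nat_lit 0) (nat_lit 6555642291) (nat_lit 76) (nat_lit 10542316880) (nat_lit 152) (nat_lit 5715400096) (nat_lit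 94) (nat_lit 5) (nat_lit 95) (nat_lit 5) (nat_lit 96) (nat_lit 4) (nat_lit 461) (nat_lit 395) (nat_lit 344)) (XT.lf (nat_lit 0) (nat_lit 6488728195) (nat_lit 228) (nat_lit 14278988725) (nat_lit 76) (nat_lit 2773344907) (nat_lit 91) (nat_lit 5) (nat_lit 94) (nat_lit 5) (nat_lit 92) (nat_lit 4) (nat_lit 462) (nat_lit 395) (nat_lit 343)))) (XT.nd (nat_lit 78) (nat_lit 304) (nat_lit 0) (XT.lf (nat_lit 0) (nat_lit 11986826217) (nat_lit 76) (nat_lit 7496034924) (nat_lit 152) (nat_lit 4811651359) (nat_lit 90) (nat_lit 5) (nat_lit 91) (nat_lit 5) (nat_lit 92) (nat_lit 4) (nat_lit 463) (nat_lit 395) (nat_lit 342)) (XT.nd (nat_lit 78) (nat_lit 76) (nat_lit 0) (XT.lf (nat_lit 0) (nat_lit 8147928071) (nat_lit 228) (nat_lit 10324085055) (nat_lit 76) (nat_lit 6603391137) (nat_lit 87) (nat_lit 5) (nat_lit 90) (nat_lit 5) (nat_lit 88) (nat_lit 4) (nat_lit 464) (nat_lit 395) (nat_lit 341)) (XT.lf (nat_lit 0) (nat_lit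 17574026029) (nat_lit 76) (nat_lit 4365518616) (nat_lit 152) (nat_lit 3945860244) (nat_lit 86) (nat_lit 5) (nat_lit 87) (nat_lit 5) (nat_lit 88) (nat_lit 4) (nat_lit 465) (nat_lit 395) (nat_lit 340))))) (XT.nd (nat_lit 234) (nat_lit 532) (nat_lit 0) (XT.nd (nat_lit 78) (nat_lit 304) (nat_lit 0) (XT.lf (nat_lit 0) (nat_lit 9815590025) (nat_lit 228) (nat_lit 6343684327) (nat_lit 76) (nat_lit 10564246657) (nat_lit 83) (nat_lit 5) (nat_lit 86) (nat_lit 5) (nat_lit 84) (nat_lit 4) (nat_lit 466) (nat_lit 395) (nat_lit 339)) (XT.nd (nat_lit 78) (nat_lit 228) (nat_lit 0) (XT.lf (nat_lit 0) (nat_lit 23281767385) (nat_lit 76) (nat_lit 1170531128) (nat_lit 152) (nat_lit 3142009142) (nat_lit 82) (nat_lit 5) (nat_lit 83) (nat_lit 5) (nat_lit 84) (nat_lit 4) (nat_lit 467) (nat_lit 395) (nat_lit 338)) (XT.lf (nat_lit 0) (nat_lit 11468788054) (nat_lit 228) (nat_lit 2387602084) (nat_lit 76) (nat_lit 14637662144)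 (nat_lit 79) (nat_lit 5) (nat_lit 82) (nat_lit 5) (nat_lit 80) (nat_lit 4) (nat_lit 468) (nat_lit 395) (nat_lit 337)))) (XT.nd (nat_lit 156) (nat_lit 228) (nat_lit 0) (XT.nd (nat_lit 78) (nat_lit 228) (nat_lit 0) (XT.lf (nat_lit 0) (nat_lit 27018850682) (nat_lit 152) (nat_lit 387971355) (nat_lit 0) (nat_lit 2022818079) (nat_lit 78) (nat_lit 5) (nat_lit 80) (nat_lit 4) (nat_lit 78) (nat_lit 4) (nat_lit 469) (nat_lit 395) (nat_lit 336)) (XT.lf (nat_lit 0) (nat_lit 1509303823) (nat_lit 76) (nat_lit 11582435250) (nat_lit 152) (nat_lit 17304246883) (nat_lit 75) (nat_lit 5) (nat_lit 76) (nat_lit 5) (nat_lit 77) (nat_lit 4) (nat_lit 470) (nat_lit 395) (nat_lit 335))) (XT.nd (nat_lit 78) (nat_lit 152) (nat_lit 0) (XT.lf (nat_lit 0) (nat_lit 3465492117) (nat_lit 76) (nat_lit 26168687627) (nat_lit 76) (nat_lit 1766314335) (nat_lit 74) (nat_lit 4) (nat_lit 75) (nat_lit 5) (nat_lit 75) (nat_lit 4) (nat_lit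 471) (nat_lit 395) (nat_lit 334)) (XT.lf (nat_lit 0) (nat_lit 5279875873) (nat_lit 76) (nat_lit 9372675416) (nat_lit 152) (nat_lit 17786843306) (nat_lit 72) (nat_lit 5) (nat_lit 73) (nat_lit 5) (nat_lit 74) (nat_lit 4) (nat_lit 472) (nat_lit 395) (nat_lit 333)))))) (XT.nd (nat_lit 546) (nat_lit 836) (nat_lit 0) (XT.nd (nat_lit 234) (nat_lit 456) (nat_lit 0) (XT.nd (nat_lit 78) (nat_lit 228) (nat_lit 0) (XT.lf (nat_lit 0) (nat_lit 7102924775) (nat_lit 76) (nat_lit 25112975235) (nat_lit 76) (nat_lit 1303013737) (nat_lit 71) (nat_lit 4) (nat_lit 72) (nat_lit 5) (nat_lit 72) (nat_lit 4) (nat_lit 473) (nat_lit 395) (nat_lit 332)) (XT.nd (nat_lit 78) (nat_lit 76) (nat_lit 0) (XT.lf (nat_lit 0) (nat_lit 8771615158) (nat_lit 76) (nat_lit 7305504629) (nat_lit 152) (nat_lit 18559141068) (nat_lit 69) (nat_lit 5) (nat_lit 70) (nat_lit 5) (nat_lit 71) (nat_lit 4) (nat_lit 474) (nat_lit 395) (nat_lit 331)) (XT.lf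 (nat_lit 0) (nat_lit 10399275543) (nat_lit 76) (nat_lit 24309108592) (nat_lit 76) (nat_lit 1088432288) (nat_lit 68) (nat_lit 4) (nat_lit 69) (nat_lit 5) (nat_lit 69) (nat_lit 4) (nat_lit 475) (nat_lit 395) (nat_lit 330)))) (XT.nd (nat_lit 156) (nat_lit 228) (nat_lit 0) (XT.nd (nat_lit 78) (nat_lit 76) (nat_lit 0) (XT.lf (nat_lit 0) (nat_lit 11853704106) (nat_lit 76) (nat_lit 5448164533) (nat_lit 152) (nat_lit 19697071825) (nat_lit 66) (nat_lit 5) (nat_lit 67) (nat_lit 5) (nat_lit 68) (nat_lit 4) (nat_lit 476) (nat_lit 395) (nat_lit 329)) (XT.lf (nat_lit 0) (nat_lit 13208932387) (nat_lit 76) (nat_lit 23837160560) (nat_lit 76) (nat_lit 1201047176) (nat_lit 65) (nat_lit 4) (nat_lit 66) (nat_lit 5) (nat_lit 66) (nat_lit 4) (nat_lit 477) (nat_lit 395) (nat_lit 328))) (XT.nd (nat_lit 78) (nat_lit 76) (nat_lit 0) (XT.lf (nat_lit 0) (nat_lit 14364392046) (nat_lit 76) (nat_lit 3883459379) (nat_lit 152) (nat_lit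 21293136219) (nat_lit 63) (nat_lit 5) (nat_lit 64) (nat_lit 5) (nat_lit 65) (nat_lit 4) (nat_lit 478) (nat_lit 395) (nat_lit 327)) (XT.lf (nat_lit 0) (nat_lit 15352463875) (nat_lit 76) (nat_lit 23794622890) (nat_lit 76) (nat_lit 1737002334) (nat_lit 62) (nat_lit 4) (nat_lit 63) (nat_lit 5) (nat_lit 63) (nat_lit 4) (nat_lit 479) (nat_lit 395) (nat_lit 326))))) (XT.nd (nat_lit 234) (nat_lit 456) (nat_lit 0) (XT.nd (nat_lit 78) (nat_lit 228) (nat_lit 0) (XT.lf (nat_lit 0) (nat_lit 16104980405) (nat_lit 76) (nat_lit 2712824533) (nat_lit 152) (nat_lit 23459490403) (nat_lit 60) (nat_lit 5) (nat_lit 61) (nat_lit 5) (nat_lit 62) (nat_lit 4) (nat_lit 480) (nat_lit 395) (nat_lit 325)) (XT.nd (nat_lit 78) (nat_lit 152) (nat_lit 0) (XT.lf (nat_lit 0) (nat_lit 16610086580) (nat_lit 76) (nat_lit 24299763004) (nat_lit 76) (nat_lit 2813433956) (nat_lit 59) (nat_lit 4) (nat_lit 60) (nat_lit 5) (nat_lit 60) (nat_lit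 4) (nat_lit 481) (nat_lit 395) (nat_lit 324)) (XT.lf (nat_lit 0) (nat_lit 16832728849) (nat_lit 76) (nat_lit 2059940479) (nat_lit 152) (nat_lit 26331585785) (nat_lit 57) (nat_lit 5) (nat_lit 58) (nat_lit 5) (nat_lit 59) (nat_lit 4) (nat_lit 482) (nat_lit 395) (nat_lit 323)))) (XT.nd (nat_lit 156) (nat_lit 228) (nat_lit 0) (XT.nd (nat_lit 78) (nat_lit 152) (nat_lit 0) (XT.lf (nat_lit 0) (nat_lit 16713962970) (nat_lit 76) (nat_lit 25495574209) (nat_lit 76) (nat_lit 4572393235) (nat_lit 56) (nat_lit 4) (nat_lit 57) (nat_lit 5) (nat_lit 57) (nat_lit 4) (nat_lit 483) (nat_lit 395) (nat_lit 322)) (XT.lf (nat_lit 0) (nat_lit 16252494054) (nat_lit 76) (nat_lit 2074988099) (nat_lit 152) (nat_lit 30072457568) (nat_lit 54) (nat_lit 5) (nat_lit 55) (nat_lit 5) (nat_lit 56) (nat_lit 4) (nat_lit 484) (nat_lit 395) (nat_lit 321))) (XT.nd (nat_lit 78) (nat_lit 152) (nat_lit 0) (XT.lf (nat_lit 0) (nat_lit 15339125964)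 (nat_lit 76) (nat_lit 27554423097) (nat_lit 76) (nat_lit 7185469607) (nat_lit 53) (nat_lit 4) (nat_lit 54) (nat_lit 5) (nat_lit 54) (nat_lit 4) (nat_lit 485) (nat_lit 395) (nat_lit 320)) (XT.lf (nat_lit 0) (nat_lit 14006880537) (nat_lit 76) (nat_lit 2939657351) (nat_lit 152) (nat_lit 34877774032) (nat_lit 51) (nat_lit 5) (nat_lit 52) (nat_lit 5) (nat_lit 53) (nat_lit 4) (nat_lit 486) (nat_lit 395) (nat_lit 319))))))))
noncomputable def xc39 : XT := (XT.nd (nat_lit 57330) (nat_lit 0) (nat_lit 7524) (XT.nd (nat_lit 56316) (nat_lit 0) (nat_lit 18772) (XT.nd (nat_lit 468) (nat_lit 760) (nat_lit 0) (XT.nd (nat_lit 234) (nat_lit 304) (nat_lit 0) (XT.nd (nat_lit 78) (nat_lit 228) (nat_lit 0) (XT.lf (nat_lit 0) (nat_lit 12092791470) (nat_lit 76) (nat_lit 30683515597) (nat_lit 76) (nat_lit 10859235583) (nat_lit 50) (nat_lit 4) (nat_lit 51) (nat_lit 5) (nat_lit 51) (nat_lit 4) (nat_lit 487) (nat_lit 395)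 (nat_lit 318)) (XT.nd (nat_lit 78) (nat_lit 76) (nat_lit 0) (XT.lf (nat_lit 0) (nat_lit 9664645209) (nat_lit 76) (nat_lit 4873040619) (nat_lit 152) (nat_lit 40981777767) (nat_lit 48) (nat_lit 5) (nat_lit 49) (nat_lit 5) (nat_lit 50) (nat_lit 4) (nat_lit 488) (nat_lit 395) (nat_lit 317)) (XT.lf (nat_lit 0) (nat_lit 6501779281) (nat_lit 76) (nat_lit 35131323864) (nat_lit 76) (nat_lit 15841654992) (nat_lit 47) (nat_lit 4) (nat_lit 48) (nat_lit 5) (nat_lit 48) (nat_lit 4) (nat_lit 489) (nat_lit 395) (nat_lit 316)))) (XT.nd (nat_lit 78) (nat_lit 152) (nat_lit 0) (XT.lf (nat_lit 0) (nat_lit 2707053059) (nat_lit 76) (nat_lit 8138564427) (nat_lit 152) (nat_lit 48664272502) (nat_lit 45) (nat_lit 5) (nat_lit 46) (nat_lit 5) (nat_lit 47) (nat_lit 4) (nat_lit 490) (nat_lit 395) (nat_lit 315)) (XT.nd (nat_lit 78) (nat_lit 152) (nat_lit 0) (XT.lf (nat_lit 0) (nat_lit 39212102564) (nat_lit 152) (nat_lit 1963213287)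 (nat_lit 0) (nat_lit 20446582891) (nat_lit 45) (nat_lit 5) (nat_lit 47) (nat_lit 4) (nat_lit 45) (nat_lit 4) (nat_lit 491) (nat_lit 395) (nat_lit 314)) (XT.lf (nat_lit 0) (nat_lit 5635949963) (nat_lit 152) (nat_lit 7342049175) (nat_lit 76) (nat_lit 50842646050) (nat_lit 43) (nat_lit 5) (nat_lit 45) (nat_lit 5) (nat_lit 44) (nat_lit 4) (nat_lit 492) (nat_lit 395) (nat_lit 313))))) (XT.nd (nat_lit 234) (nat_lit 456) (nat_lit 0) (XT.nd (nat_lit 78) (nat_lit 228) (nat_lit 0) (XT.lf (nat_lit 0) (nat_lit 35265125024) (nat_lit 152) (nat_lit 13825222007) (nat_lit 0) (nat_lit 17012987334) (nat_lit 42) (nat_lit 5) (nat_lit 44) (nat_lit 4) (nat_lit 42) (nat_lit 4) (nat_lit 493) (nat_lit 395) (nat_lit 312)) (XT.nd (nat_lit 78) (nat_lit 152) (nat_lit 0) (XT.lf (nat_lit 0) (nat_lit 47224524126) (nat_lit 76) (nat_lit 19762426787) (nat_lit 76) (nat_lit 1494871420) (nat_lit 41) (nat_lit 4) (nat_lit 42) (nat_lit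 5) (nat_lit 42) (nat_lit 4) (nat_lit 494) (nat_lit 395) (nat_lit 311)) (XT.lf (nat_lit 0) (nat_lit 29346592389) (nat_lit 152) (nat_lit 30009252114) (nat_lit 0) (nat_lit 11596845914) (nat_lit 39) (nat_lit 5) (nat_lit 41) (nat_lit 4) (nat_lit 39) (nat_lit 4) (nat_lit 495) (nat_lit 395) (nat_lit 310)))) (XT.nd (nat_lit 156) (nat_lit 228) (nat_lit 0) (XT.nd (nat_lit 78) (nat_lit 152) (nat_lit 0) (XT.lf (nat_lit 0) (nat_lit 33498501012) (nat_lit 76) (nat_lit 28895321070) (nat_lit 76) (nat_lit 11131997616) (nat_lit 38) (nat_lit 4) (nat_lit 39) (nat_lit 5) (nat_lit 39) (nat_lit 4) (nat_lit 496) (nat_lit 395) (nat_lit 309)) (XT.lf (nat_lit 0) (nat_lit 20998226341) (nat_lit 152) (nat_lit 51467446965) (nat_lit 0) (nat_lit 3739727400) (nat_lit 36) (nat_lit 5) (nat_lit 38) (nat_lit 4) (nat_lit 36) (nat_lit 4) (nat_lit 497) (nat_lit 395) (nat_lit 308))) (XT.nd (nat_lit 78) (nat_lit 152) (nat_lit 0) (XT.lf (nat_lit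 0) (nat_lit 14350543701) (nat_lit 76) (nat_lit 40955759268) (nat_lit 76) (nat_lit 23685304288) (nat_lit 35) (nat_lit 4) (nat_lit 36) (nat_lit 5) (nat_lit 36) (nat_lit 4) (nat_lit 498) (nat_lit 395) (nat_lit 307)) (XT.lf (nat_lit 0) (nat_lit 2495706020) (nat_lit 76) (nat_lit 7246928316) (nat_lit 152) (nat_lit 72156365962) (nat_lit 33) (nat_lit 5) (nat_lit 34) (nat_lit 5) (nat_lit 35) (nat_lit 4) (nat_lit 499) (nat_lit 395) (nat_lit 306)))))) (XT.nd (nat_lit 468) (nat_lit 6992) (nat_lit 0) (XT.nd (nat_lit 234) (nat_lit 3648) (nat_lit 0) (XT.nd (nat_lit 78) (nat_lit 1444) (nat_lit 0) (XT.lf (nat_lit 0) (nat_lit 1761622348) (nat_lit 532) (nat_lit 775791105) (nat_lit 532) (nat_lit 775791105) (nat_lit 439) (nat_lit 4) (nat_lit 446) (nat_lit 5) (nat_lit 446) (nat_lit 4) (nat_lit 408) (nat_lit 396) (nat_lit 396)) (XT.nd (nat_lit 78) (nat_lit 760) (nat_lit 0) (XT.lf (nat_lit 0) (nat_lit 3856347259) (nat_lit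 684) (nat_lit 2690051766) (nat_lit 0) (nat_lit 130117428) (nat_lit 430) (nat_lit 5) (nat_lit 439) (nat_lit 4) (nat_lit 430) (nat_lit 4) (nat_lit 409) (nat_lit 396) (nat_lit 395)) (XT.lf (nat_lit 0) (nat_lit 2513604381) (nat_lit 760) (nat_lit 2172403253) (nat_lit 76) (nat_lit 2048067439) (nat_lit 420) (nat_lit 5) (nat_lit 430) (nat_lit 5) (nat_lit 421) (nat_lit 4) (nat_lit 410) (nat_lit 396) (nat_lit 394)))) (XT.nd (nat_lit 78) (nat_lit 2812) (nat_lit 0) (XT.lf (nat_lit 0) (nat_lit 1027183882) (nat_lit 836) (nat_lit 1534270737) (nat_lit 76) (nat_lit 4238182707) (nat_lit 409) (nat_lit 5) (nat_lit 420) (nat_lit 5) (nat_lit 410) (nat_lit 5) (nat_lit 411) (nat_lit 396) (nat_lit 393)) (XT.nd (nat_lit 78) (nat_lit 1976) (nat_lit 0) (XT.lf (nat_lit 0) (nat_lit 6092933040) (nat_lit 836) (nat_lit 160292489) (nat_lit 912) (nat_lit 619918568) (nat_lit 398) (nat_lit 5) (nat_lit 409) (nat_lit 5) (nat_lit 410)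 (nat_lit 5) (nat_lit 412) (nat_lit 396) (nat_lit 392)) (XT.lf (nat_lit 0) (nat_lit 62834152) (nat_lit 988) (nat_lit 4472216597) (nat_lit 1064) (nat_lit 2418762884) (nat_lit 372) (nat_lit 5) (nat_lit 385) (nat_lit 5) (nat_lit 386) (nat_lit 5) (nat_lit 413) (nat_lit 396) (nat_lit 391))))) (XT.nd (nat_lit 234) (nat_lit 3420) (nat_lit 0) (XT.nd (nat_lit 78) (nat_lit 2432) (nat_lit 0) (XT.lf (nat_lit 0) (nat_lit 1043746481) (nat_lit 1064) (nat_lit 1631771457) (nat_lit 1140) (nat_lit 4366932468) (nat_lit 357) (nat_lit 5) (nat_lit 371) (nat_lit 5) (nat_lit 372) (nat_lit 5) (nat_lit 414) (nat_lit 396) (nat_lit 390)) (XT.nd (nat_lit 78) (nat_lit 1216) (nat_lit 0) (XT.lf (nat_lit 0) (nat_lit 673740330) (nat_lit 1216) (nat_lit 5002814058) (nat_lit 76) (nat_lit 1462505717) (nat_lit 341) (nat_lit 5) (nat_lit 357) (nat_lit 5) (nat_lit 342) (nat_lit 5) (nat_lit 415) (nat_lit 396) (nat_lit 389)) (XT.lf (nat_lit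 0) (nat_lit 3324015145) (nat_lit 1216) (nat_lit 2417324598) (nat_lit 1292) (nat_lit 1501921293) (nat_lit 325) (nat_lit 5) (nat_lit 341) (nat_lit 5) (nat_lit 342) (nat_lit 5) (nat_lit 416) (nat_lit 396) (nat_lit 388)))) (XT.nd (nat_lit 156) (nat_lit 1824) (nat_lit 0) (XT.nd (nat_lit 78) (nat_lit 684) (nat_lit 0) (XT.lf (nat_lit 0) (nat_lit 3505418587) (nat_lit 912) (nat_lit 2734119205) (nat_lit 76) (nat_lit 1116032669) (nat_lit 313) (nat_lit 5) (nat_lit 325) (nat_lit 5) (nat_lit 314) (nat_lit 5) (nat_lit 417) (nat_lit 396) (nat_lit 387)) (XT.lf (nat_lit 0) (nat_lit 1126580930) (nat_lit 684) (nat_lit 1452756571) (nat_lit 76) (nat_lit 4896596674) (nat_lit 304) (nat_lit 5) (nat_lit 313) (nat_lit 5) (nat_lit 305) (nat_lit 5) (nat_lit 418) (nat_lit 396) (nat_lit 386))) (XT.nd (nat_lit 78) (nat_lit 1216) (nat_lit 0) (XT.lf (nat_lit 0) (nat_lit 6163834375) (nat_lit 684) (nat_lit 75752527) (nat_lit 76) (nat_lit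 1364857705) (nat_lit 296) (nat_lit 5) (nat_lit 305) (nat_lit 5) (nat_lit 297) (nat_lit 5) (nat_lit 419) (nat_lit 396) (nat_lit 385)) (XT.lf (nat_lit 0) (nat_lit 1415070706) (nat_lit 608) (nat_lit 2152514500) (nat_lit 684) (nat_lit 4172940640) (nat_lit 280) (nat_lit 5) (nat_lit 288) (nat_lit 5) (nat_lit 289) (nat_lit 5) (nat_lit 420) (nat_lit 396) (nat_lit 384))))))) (XT.nd (nat_lit 1014) (nat_lit 4484) (nat_lit 0) (XT.nd (nat_lit 468) (nat_lit 3192) (nat_lit 0) (XT.nd (nat_lit 234) (nat_lit 1900) (nat_lit 0) (XT.nd (nat_lit 78) (nat_lit 1064) (nat_lit 0) (XT.lf (nat_lit 0) (nat_lit 813195690) (nat_lit 608) (nat_lit 4871243678) (nat_lit 76) (nat_lit 2200762080) (nat_lit 272) (nat_lit 5) (nat_lit 280) (nat_lit 5) (nat_lit 273) (nat_lit 5) (nat_lit 421) (nat_lit 396) (nat_lit 383)) (XT.nd (nat_lit 78) (nat_lit 532) (nat_lit 0) (XT.lf (nat_lit 0) (nat_lit 4700445364) (nat_lit 532) (nat_lit 1189003947)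 (nat_lit 608) (nat_lit 2148617974) (nat_lit 265) (nat_lit 5) (nat_lit 272) (nat_lit 5) (nat_lit 273) (nat_lit 5) (nat_lit 422) (nat_lit 396) (nat_lit 382)) (XT.lf (nat_lit 0) (nat_lit 2909403306) (nat_lit 532) (nat_lit 1723491900) (nat_lit 76) (nat_lit 3566396269) (nat_lit 258) (nat_lit 5) (nat_lit 265) (nat_lit 5) (nat_lit 259) (nat_lit 5) (nat_lit 423) (nat_lit 396) (nat_lit 381)))) (XT.nd (nat_lit 78) (nat_lit 1444) (nat_lit 0) (XT.lf (nat_lit 0) (nat_lit 8112124783) (nat_lit 532) (nat_lit 696790) (nat_lit 76) (nat_lit 257038248) (nat_lit 252) (nat_lit 5) (nat_lit 259) (nat_lit 5) (nat_lit 253) (nat_lit 5) (nat_lit 424) (nat_lit 396) (nat_lit 380)) (XT.nd (nat_lit 78) (nat_lit 456) (nat_lit 0) (XT.lf (nat_lit 0) (nat_lit 1809082358) (nat_lit 456) (nat_lit 3113080566) (nat_lit 532) (nat_lit 3625525479) (nat_lit 239) (nat_lit 5) (nat_lit 245) (nat_lit 5) (nat_lit 246) (nat_lit 5) (nat_lit 425)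 (nat_lit 396) (nat_lit 379)) (XT.lf (nat_lit 0) (nat_lit 1547711135) (nat_lit 456) (nat_lit 5005336570) (nat_lit 76) (nat_lit 2182084910) (nat_lit 233) (nat_lit 5) (nat_lit 239) (nat_lit 5) (nat_lit 234) (nat_lit 5) (nat_lit 426) (nat_lit 396) (nat_lit 378))))) (XT.nd (nat_lit 234) (nat_lit 1520) (nat_lit 0) (XT.nd (nat_lit 78) (nat_lit 1216) (nat_lit 0) (XT.lf (nat_lit 0) (nat_lit 5734696525) (nat_lit 456) (nat_lit 1146748477) (nat_lit 532) (nat_lit 2050129340) (nat_lit 227) (nat_lit 5) (nat_lit 233) (nat_lit 5) (nat_lit 234) (nat_lit 5) (nat_lit 427) (nat_lit 396) (nat_lit 377)) (XT.nd (nat_lit 78) (nat_lit 760) (nat_lit 0) (XT.lf (nat_lit 0) (nat_lit 3275057635) (nat_lit 456) (nat_lit 1319710101) (nat_lit 76) (nat_lit 4542223741) (nat_lit 221) (nat_lit 5) (nat_lit 227) (nat_lit 5) (nat_lit 222) (nat_lit 5) (nat_lit 428) (nat_lit 396) (nat_lit 376)) (XT.lf (nat_lit 0) (nat_lit 673305518) (nat_lit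 380) (nat_lit 8140358533) (nat_lit 456) (nat_lit 538725570) (nat_lit 211) (nat_lit 5) (nat_lit 216) (nat_lit 5) (nat_lit 217) (nat_lit 5) (nat_lit 429) (nat_lit 396) (nat_lit 375)))) (XT.nd (nat_lit 156) (nat_lit 684) (nat_lit 0) (XT.nd (nat_lit 78) (nat_lit 380) (nat_lit 0) (XT.lf (nat_lit 0) (nat_lit 2748380703) (nat_lit 380) (nat_lit 2230389300) (nat_lit 456) (nat_lit 4597536133) (nat_lit 205) (nat_lit 5) (nat_lit 210) (nat_lit 5) (nat_lit 211) (nat_lit 5) (nat_lit 430) (nat_lit 396) (nat_lit 374)) (XT.lf (nat_lit 0) (nat_lit 943449586) (nat_lit 380) (nat_lit 4886823240) (nat_lit 76) (nat_lit 3980349527) (nat_lit 200) (nat_lit 5) (nat_lit 205) (nat_lit 5) (nat_lit 201) (nat_lit 5) (nat_lit 431) (nat_lit 396) (nat_lit 373))) (XT.nd (nat_lit 78) (nat_lit 380) (nat_lit 0) (XT.lf (nat_lit 0) (nat_lit 6675008011) (nat_lit 380) (nat_lit 2872883077) (nat_lit 76) (nat_lit 507144264) (nat_lit 196) (nat_lit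 5) (nat_lit 201) (nat_lit 5) (nat_lit 197) (nat_lit 5) (nat_lit 432) (nat_lit 396) (nat_lit 372)) (XT.lf (nat_lit 0) (nat_lit 2381709060) (nat_lit 380) (nat_lit 792070836) (nat_lit 76) (nat_lit 7135805636) (nat_lit 191) (nat_lit 5) (nat_lit 196) (nat_lit 5) (nat_lit 192) (nat_lit 5) (nat_lit 433) (nat_lit 396) (nat_lit 371)))))) (XT.nd (nat_lit 546) (nat_lit 1824) (nat_lit 0) (XT.nd (nat_lit 234) (nat_lit 1444) (nat_lit 0) (XT.nd (nat_lit 78) (nat_lit 608) (nat_lit 0) (XT.lf (nat_lit 0) (nat_lit 1399124540) (nat_lit 304) (nat_lit 7005133028) (nat_lit 380) (nat_lit 2170327031) (nat_lit 183) (nat_lit 5) (nat_lit 187) (nat_lit 5) (nat_lit 188) (nat_lit 5) (nat_lit 434) (nat_lit 396) (nat_lit 370)) (XT.nd (nat_lit 78) (nat_lit 228) (nat_lit 0) (XT.lf (nat_lit 0) (nat_lit 3693603653) (nat_lit 304) (nat_lit 146591793) (nat_lit 380) (nat_lit 7010303207) (nat_lit 178) (nat_lit 5) (nat_lit 182) (nat_lit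 5) (nat_lit 183) (nat_lit 5) (nat_lit 435) (nat_lit 396) (nat_lit 369)) (XT.lf (nat_lit 0) (nat_lit 6058314469) (nat_lit 228) (nat_lit 4123411190) (nat_lit 304) (nat_lit 955580804) (nat_lit 175) (nat_lit 5) (nat_lit 178) (nat_lit 5) (nat_lit 179) (nat_lit 5) (nat_lit 436) (nat_lit 396) (nat_lit 368)))) (XT.nd (nat_lit 156) (nat_lit 760) (nat_lit 0) (XT.nd (nat_lit 78) (nat_lit 304) (nat_lit 0) (XT.lf (nat_lit 0) (nat_lit 5342297066) (nat_lit 380) (nat_lit 2933441114) (nat_lit 76) (nat_lit 3159787262) (nat_lit 170) (nat_lit 5) (nat_lit 175) (nat_lit 5) (nat_lit 171) (nat_lit 5) (nat_lit 437) (nat_lit 396) (nat_lit 367)) (XT.lf (nat_lit 0) (nat_lit 245694674) (nat_lit 304) (nat_lit 686474380) (nat_lit 76) (nat_lit 10814279515) (nat_lit 166) (nat_lit 5) (nat_lit 170) (nat_lit 5) (nat_lit 167) (nat_lit 5) (nat_lit 438) (nat_lit 396) (nat_lit 366))) (XT.nd (nat_lit 78) (nat_lit 304) (nat_lit 0) (XT.lf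 (nat_lit 0) (nat_lit 1624076381) (nat_lit 228) (nat_lit 5261365641) (nat_lit 304) (nat_lit 5182372131) (nat_lit 160) (nat_lit 5) (nat_lit 163) (nat_lit 5) (nat_lit 164) (nat_lit 5) (nat_lit 439) (nat_lit 396) (nat_lit 365)) (XT.lf (nat_lit 0) (nat_lit 1498322641) (nat_lit 304) (nat_lit 8339178876) (nat_lit 76) (nat_lit 2565088809) (nat_lit 156) (nat_lit 5) (nat_lit 160) (nat_lit 5) (nat_lit 157) (nat_lit 5) (nat_lit 440) (nat_lit 396) (nat_lit 364))))) (XT.nd (nat_lit 234) (nat_lit 1140) (nat_lit 0) (XT.nd (nat_lit 78) (nat_lit 456) (nat_lit 0) (XT.lf (nat_lit 0) (nat_lit 6565084815) (nat_lit 228) (nat_lit 1934386963) (nat_lit 304) (nat_lit 4250288912) (nat_lit 153) (nat_lit 5) (nat_lit 156) (nat_lit 5) (nat_lit 157) (nat_lit 5) (nat_lit 441) (nat_lit 396) (nat_lit 363)) (XT.nd (nat_lit 78) (nat_lit 152) (nat_lit 0) (XT.lf (nat_lit 0) (nat_lit 2791377584) (nat_lit 304) (nat_lit 3960808082) (nat_lit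 76) (nat_lit 6358065691) (nat_lit 149) (nat_lit 5) (nat_lit 153) (nat_lit 5) (nat_lit 150) (nat_lit 5) (nat_lit 442) (nat_lit 396) (nat_lit 362)) (XT.lf (nat_lit 0) (nat_lit 10185992540) (nat_lit 228) (nat_lit 1653509200) (nat_lit 76) (nat_lit 1645341680) (nat_lit 147) (nat_lit 5) (nat_lit 150) (nat_lit 5) (nat_lit 148) (nat_lit 5) (nat_lit 443) (nat_lit 396) (nat_lit 361)))) (XT.nd (nat_lit 156) (nat_lit 456) (nat_lit 0) (XT.nd (nat_lit 78) (nat_lit 228) (nat_lit 0) (XT.lf (nat_lit 0) (nat_lit 725580975) (nat_lit 152) (nat_lit 3402586785) (nat_lit 228) (nat_lit 9744761453) (nat_lit 141) (nat_lit 5) (nat_lit 143) (nat_lit 5) (nat_lit 144) (nat_lit 5) (nat_lit 444) (nat_lit 396) (nat_lit 360)) (XT.lf (nat_lit 0) (nat_lit 3221955399) (nat_lit 228) (nat_lit 8772637755) (nat_lit 304) (nat_lit 2280759924) (nat_lit 138) (nat_lit 5) (nat_lit 141) (nat_lit 5) (nat_lit 142) (nat_lit 5) (nat_lit 445) (nat_lit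 396) (nat_lit 359))) (XT.nd (nat_lit 78) (nat_lit 228) (nat_lit 0) (XT.lf (nat_lit 0) (nat_lit 5557084243) (nat_lit 228) (nat_lit 8889866604) (nat_lit 76) (nat_lit 246074782) (nat_lit 135) (nat_lit 5) (nat_lit 138) (nat_lit 5) (nat_lit 136) (nat_lit 5) (nat_lit 446) (nat_lit 396) (nat_lit 358)) (XT.lf (nat_lit 0) (nat_lit 8451750615) (nat_lit 228) (nat_lit 5455798909) (nat_lit 304) (nat_lit 1218319700) (nat_lit 132) (nat_lit 5) (nat_lit 135) (nat_lit 5) (nat_lit 136) (nat_lit 5) (nat_lit 447) (nat_lit 396) (nat_lit 357))))))))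
noncomputable def xc40 : XT := (XT.nd (nat_lit 2028) (nat_lit 2812) (nat_lit 0) (XT.nd (nat_lit 1014) (nat_lit 1976) (nat_lit 0) (XT.nd (nat_lit 468) (nat_lit 1216) (nat_lit 0) (XT.nd (nat_lit 234) (nat_lit 608) (nat_lit 0) (XT.nd (nat_lit 78) (nat_lit 532) (nat_lit 0) (XT.lf (nat_lit 0) (nat_lit 7082383596) (nat_lit 228) (nat_lit 4399722569) (nat_lit 76) (nat_lit 4092434829) (nat_lit 129) (nat_lit 5) (nat_lit 132) (nat_lit 5) (nat_lit 130) (nat_lit 5) (nat_lit 448) (nat_lit 396) (nat_lit 356)) (XT.nd (nat_lit 78) (nat_lit 380) (nat_lit 0) (XT.lf (nat_lit 0) (nat_lit 14018653141) (nat_lit 152) (nat_lit 1901762744) (nat_lit 228) (nat_lit 120445480) (nat_lit 127) (nat_lit 5) (nat_lit 129) (nat_lit 5) (nat_lit 130) (nat_lit 5) (nat_lit 449) (nat_lit 396) (nat_lit 355)) (XT.lf (nat_lit 0) (nat_lit 374543657) (nat_lit 152) (nat_lit 8309551722) (nat_lit 228) (nat_lit 7838400962) (nat_lit 122) (nat_lit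 5) (nat_lit 124) (nat_lit 5) (nat_lit 125) (nat_lit 5) (nat_lit 450) (nat_lit 396) (nat_lit 354)))) (XT.nd (nat_lit 78) (nat_lit 380) (nat_lit 0) (XT.lf (nat_lit 0) (nat_lit 1046439627) (nat_lit 228) (nat_lit 14080568728) (nat_lit 76) (nat_lit 1895938138) (nat_lit 119) (nat_lit 5) (nat_lit 122) (nat_lit 5) (nat_lit 120) (nat_lit 5) (nat_lit 451) (nat_lit 396) (nat_lit 353)) (XT.nd (nat_lit 78) (nat_lit 228) (nat_lit 0) (XT.lf (nat_lit 0) (nat_lit 5529601586) (nat_lit 152) (nat_lit 4882845463) (nat_lit 228) (nat_lit 7127674125) (nat_lit 117) (nat_lit 5) (nat_lit 119) (nat_lit 5) (nat_lit 120) (nat_lit 5) (nat_lit 452) (nat_lit 396) (nat_lit 352)) (XT.lf (nat_lit 0) (nat_lit 2300355247) (nat_lit 228) (nat_lit 9853263058) (nat_lit 76) (nat_lit 5923544319) (nat_lit 114) (nat_lit 5) (nat_lit 117) (nat_lit 5) (nat_lit 115) (nat_lit 5) (nat_lit 453) (nat_lit 396) (nat_lit 351))))) (XT.nd (nat_lit 234)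 (nat_lit 684) (nat_lit 0) (XT.nd (nat_lit 78) (nat_lit 380) (nat_lit 0) (XT.lf (nat_lit 0) (nat_lit 10987456415) (nat_lit 152) (nat_lit 1243353042) (nat_lit 228) (nat_lit 6402777672) (nat_lit 112) (nat_lit 5) (nat_lit 114) (nat_lit 5) (nat_lit 115) (nat_lit 5) (nat_lit 454) (nat_lit 396) (nat_lit 350)) (XT.nd (nat_lit 78) (nat_lit 152) (nat_lit 0) (XT.lf (nat_lit 0) (nat_lit 3608483624) (nat_lit 228) (nat_lit 5398815008) (nat_lit 76) (nat_lit 10202473604) (nat_lit 109) (nat_lit 5) (nat_lit 112) (nat_lit 5) (nat_lit 110) (nat_lit 5) (nat_lit 455) (nat_lit 396) (nat_lit 349)) (XT.lf (nat_lit 0) (nat_lit 14169051452) (nat_lit 228) (nat_lit 3077629155) (nat_lit 76) (nat_lit 2560750309) (nat_lit 107) (nat_lit 5) (nat_lit 110) (nat_lit 5) (nat_lit 108) (nat_lit 4) (nat_lit 456) (nat_lit 396) (nat_lit 348)))) (XT.nd (nat_lit 156) (nat_lit 304) (nat_lit 0) (XT.nd (nat_lit 78) (nat_lit 228) (nat_lit 0) (XT.lf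 (nat_lit 0) (nat_lit 4971861969) (nat_lit 152) (nat_lit 716500025) (nat_lit 76) (nat_lit 14737921881) (nat_lit 105) (nat_lit 5) (nat_lit 107) (nat_lit 5) (nat_lit 106) (nat_lit 5) (nat_lit 457) (nat_lit 396) (nat_lit 347)) (XT.lf (nat_lit 0) (nat_lit 1738972212) (nat_lit 76) (nat_lit 14496535615) (nat_lit 152) (nat_lit 4831712702) (nat_lit 102) (nat_lit 5) (nat_lit 103) (nat_lit 5) (nat_lit 104) (nat_lit 4) (nat_lit 458) (nat_lit 396) (nat_lit 346))) (XT.nd (nat_lit 78) (nat_lit 76) (nat_lit 0) (XT.lf (nat_lit 0) (nat_lit 4274077224) (nat_lit 152) (nat_lit 2156038623) (nat_lit 228) (nat_lit 15301325283) (nat_lit 99) (nat_lit 5) (nat_lit 101) (nat_lit 5) (nat_lit 102) (nat_lit 5) (nat_lit 459) (nat_lit 396) (nat_lit 345)) (XT.lf (nat_lit 0) (nat_lit 6842051449) (nat_lit 76) (nat_lit 11591975543) (nat_lit 152) (nat_lit 3985043842) (nat_lit 98) (nat_lit 5) (nat_lit 99) (nat_lit 5) (nat_lit 100) (nat_lit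 4) (nat_lit 460) (nat_lit 396) (nat_lit 344)))))) (XT.nd (nat_lit 468) (nat_lit 1064) (nat_lit 0) (XT.nd (nat_lit 234) (nat_lit 380) (nat_lit 0) (XT.nd (nat_lit 78) (nat_lit 304) (nat_lit 0) (XT.lf (nat_lit 0) (nat_lit 7961796114) (nat_lit 228) (nat_lit 13647351412) (nat_lit 76) (nat_lit 1523092554) (nat_lit 95) (nat_lit 5) (nat_lit 98) (nat_lit 5) (nat_lit 96) (nat_lit 4) (nat_lit 461) (nat_lit 396) (nat_lit 343)) (XT.nd (nat_lit 78) (nat_lit 228) (nat_lit 0) (XT.lf (nat_lit 0) (nat_lit 12159416968) (nat_lit 76) (nat_lit 8572040016) (nat_lit 152) (nat_lit 3139190949) (nat_lit 94) (nat_lit 5) (nat_lit 95) (nat_lit 5) (nat_lit 96) (nat_lit 4) (nat_lit 462) (nat_lit 396) (nat_lit 342)) (XT.lf (nat_lit 0) (nat_lit 9559070494) (nat_lit 228) (nat_lit 9755841341) (nat_lit 76) (nat_lit 5320806212) (nat_lit 91) (nat_lit 5) (nat_lit 94) (nat_lit 5) (nat_lit 92) (nat_lit 4) (nat_lit 463) (nat_lit 396) (nat_lit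 341)))) (XT.nd (nat_lit 78) (nat_lit 304) (nat_lit 0) (XT.lf (nat_lit 0) (nat_lit 17673144021) (nat_lit 76) (nat_lit 5447907774) (nat_lit 152) (nat_lit 2308246146) (nat_lit 90) (nat_lit 5) (nat_lit 91) (nat_lit 5) (nat_lit 92) (nat_lit 4) (nat_lit 464) (nat_lit 396) (nat_lit 340)) (XT.nd (nat_lit 78) (nat_lit 76) (nat_lit 0) (XT.lf (nat_lit 0) (nat_lit 11188553962) (nat_lit 228) (nat_lit 5791680538) (nat_lit 76) (nat_lit 9269925748) (nat_lit 87) (nat_lit 5) (nat_lit 90) (nat_lit 5) (nat_lit 88) (nat_lit 4) (nat_lit 465) (nat_lit 396) (nat_lit 339)) (XT.lf (nat_lit 0) (nat_lit 23356618744) (nat_lit 76) (nat_lit 2234879945) (nat_lit 152) (nat_lit 1511510622) (nat_lit 86) (nat_lit 5) (nat_lit 87) (nat_lit 5) (nat_lit 88) (nat_lit 4) (nat_lit 466) (nat_lit 396) (nat_lit 338))))) (XT.nd (nat_lit 234) (nat_lit 456) (nat_lit 0) (XT.nd (nat_lit 78) (nat_lit 380) (nat_lit 0) (XT.lf (nat_lit 0) (nat_lit 12832256630)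 (nat_lit 228) (nat_lit 1794724577) (nat_lit 76) (nat_lit 13356923966) (nat_lit 83) (nat_lit 5) (nat_lit 86) (nat_lit 5) (nat_lit 84) (nat_lit 4) (nat_lit 467) (nat_lit 396) (nat_lit 337)) (XT.nd (nat_lit 78) (nat_lit 152) (nat_lit 0) (XT.lf (nat_lit 0) (nat_lit 267189133) (nat_lit 152) (nat_lit 27871395120) (nat_lit 152) (nat_lit 761514114) (nat_lit 80) (nat_lit 4) (nat_lit 82) (nat_lit 5) (nat_lit 82) (nat_lit 4) (nat_lit 468) (nat_lit 396) (nat_lit 336)) (XT.lf (nat_lit 0) (nat_lit 2226061422) (nat_lit 76) (nat_lit 12261112537) (nat_lit 152) (nat_lit 15358219092) (nat_lit 78) (nat_lit 5) (nat_lit 79) (nat_lit 5) (nat_lit 80) (nat_lit 4) (nat_lit 469) (nat_lit 396) (nat_lit 335)))) (XT.nd (nat_lit 156) (nat_lit 228) (nat_lit 0) (XT.nd (nat_lit 78) (nat_lit 152) (nat_lit 0) (XT.lf (nat_lit 0) (nat_lit 4280732809) (nat_lit 76) (nat_lit 26503316762) (nat_lit 76) (nat_lit 44632052) (nat_lit 77) (nat_lit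 4) (nat_lit 78) (nat_lit 5) (nat_lit 78) (nat_lit 4) (nat_lit 470) (nat_lit 396) (nat_lit 334)) (XT.lf (nat_lit 0) (nat_lit 6193586806) (nat_lit 76) (nat_lit 9922952291) (nat_lit 152) (nat_lit 15728127922) (nat_lit 75) (nat_lit 5) (nat_lit 76) (nat_lit 5) (nat_lit 77) (nat_lit 4) (nat_lit 471) (nat_lit 396) (nat_lit 333))) (XT.nd (nat_lit 78) (nat_lit 76) (nat_lit 0) (XT.lf (nat_lit 0) (nat_lit 525890913) (nat_lit 152) (nat_lit 24742371902) (nat_lit 76) (nat_lit 7632449938) (nat_lit 73) (nat_lit 5) (nat_lit 75) (nat_lit 5) (nat_lit 74) (nat_lit 4) (nat_lit 472) (nat_lit 396) (nat_lit 332)) (XT.lf (nat_lit 0) (nat_lit 9984379357) (nat_lit 76) (nat_lit 7676180062) (nat_lit 152) (nat_lit 16332533059) (nat_lit 72) (nat_lit 5) (nat_lit 73) (nat_lit 5) (nat_lit 74) (nat_lit 4) (nat_lit 473) (nat_lit 396) (nat_lit 331))))))) (XT.nd (nat_lit 1014) (nat_lit 1368) (nat_lit 0) (XT.nd (nat_lit 468) (nat_lit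 760) (nat_lit 0) (XT.nd (nat_lit 234) (nat_lit 304) (nat_lit 0) (XT.nd (nat_lit 78) (nat_lit 228) (nat_lit 0) (XT.lf (nat_lit 0) (nat_lit 909365067) (nat_lit 152) (nat_lit 23319508919) (nat_lit 76) (nat_lit 10898845404) (nat_lit 70) (nat_lit 5) (nat_lit 72) (nat_lit 5) (nat_lit 71) (nat_lit 4) (nat_lit 474) (nat_lit 396) (nat_lit 330)) (XT.nd (nat_lit 78) (nat_lit 152) (nat_lit 0) (XT.lf (nat_lit 0) (nat_lit 13488080344) (nat_lit 76) (nat_lit 5577666289) (nat_lit 152) (nat_lit 17236774953) (nat_lit 69) (nat_lit 5) (nat_lit 70) (nat_lit 5) (nat_lit 71) (nat_lit 4) (nat_lit 475) (nat_lit 396) (nat_lit 329)) (XT.lf (nat_lit 0) (nat_lit 1040910026) (nat_lit 152) (nat_lit 22414016821) (nat_lit 76) (nat_lit 14067207596) (nat_lit 67) (nat_lit 5) (nat_lit 69) (nat_lit 5) (nat_lit 68) (nat_lit 4) (nat_lit 476) (nat_lit 396) (nat_lit 328)))) (XT.nd (nat_lit 78) (nat_lit 228) (nat_lit 0) (XT.lf (nat_lit 0)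 (nat_lit 16567196621) (nat_lit 76) (nat_lit 3697913108) (nat_lit 152) (nat_lit 18520825241) (nat_lit 66) (nat_lit 5) (nat_lit 67) (nat_lit 5) (nat_lit 68) (nat_lit 4) (nat_lit 477) (nat_lit 396) (nat_lit 327)) (XT.nd (nat_lit 78) (nat_lit 76) (nat_lit 0) (XT.lf (nat_lit 0) (nat_lit 839504995) (nat_lit 152) (nat_lit 22191724314) (nat_lit 76) (nat_lit 17066344138) (nat_lit 64) (nat_lit 5) (nat_lit 66) (nat_lit 5) (nat_lit 65) (nat_lit 4) (nat_lit 478) (nat_lit 396) (nat_lit 326)) (XT.lf (nat_lit 0) (nat_lit 19051750849) (nat_lit 76) (nat_lit 2123785929) (nat_lit 152) (nat_lit 20282034343) (nat_lit 63) (nat_lit 5) (nat_lit 64) (nat_lit 5) (nat_lit 65) (nat_lit 4) (nat_lit 479) (nat_lit 396) (nat_lit 325))))) (XT.nd (nat_lit 234) (nat_lit 456) (nat_lit 0) (XT.nd (nat_lit 78) (nat_lit 152) (nat_lit 0) (XT.lf (nat_lit 0) (nat_lit 205958247) (nat_lit 152) (nat_lit 22855124922) (nat_lit 76) (nat_lit 19807903136)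 (nat_lit 61) (nat_lit 5) (nat_lit 63) (nat_lit 5) (nat_lit 62) (nat_lit 4) (nat_lit 480) (nat_lit 396) (nat_lit 324)) (XT.nd (nat_lit 78) (nat_lit 76) (nat_lit 0) (XT.lf (nat_lit 0) (nat_lit 20732967264) (nat_lit 76) (nat_lit 961732289) (nat_lit 152) (nat_lit 22638374151) (nat_lit 60) (nat_lit 5) (nat_lit 61) (nat_lit 5) (nat_lit 62) (nat_lit 4) (nat_lit 481) (nat_lit 396) (nat_lit 323)) (XT.lf (nat_lit 0) (nat_lit 21192555545) (nat_lit 76) (nat_lit 23659939179) (nat_lit 76) (nat_lit 1000032441) (nat_lit 59) (nat_lit 4) (nat_lit 60) (nat_lit 5) (nat_lit 60) (nat_lit 4) (nat_lit 482) (nat_lit 396) (nat_lit 322)))) (XT.nd (nat_lit 156) (nat_lit 228) (nat_lit 0) (XT.nd (nat_lit 78) (nat_lit 76) (nat_lit 0) (XT.lf (nat_lit 0) (nat_lit 21355824237) (nat_lit 76) (nat_lit 341573857) (nat_lit 152) (nat_lit 25732261393) (nat_lit 57) (nat_lit 5) (nat_lit 58) (nat_lit 5) (nat_lit 59) (nat_lit 4) (nat_lit 483)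 (nat_lit 396) (nat_lit 321)) (XT.lf (nat_lit 0) (nat_lit 21162794232) (nat_lit 76) (nat_lit 24980145129) (nat_lit 76) (nat_lit 2923394554) (nat_lit 56) (nat_lit 4) (nat_lit 57) (nat_lit 5) (nat_lit 57) (nat_lit 4) (nat_lit 484) (nat_lit 396) (nat_lit 320))) (XT.nd (nat_lit 78) (nat_lit 76) (nat_lit 0) (XT.lf (nat_lit 0) (nat_lit 20610275940) (nat_lit 76) (nat_lit 420972109) (nat_lit 152) (nat_lit 29735062041) (nat_lit 54) (nat_lit 5) (nat_lit 55) (nat_lit 5) (nat_lit 56) (nat_lit 4) (nat_lit 485) (nat_lit 396) (nat_lit 319)) (XT.lf (nat_lit 0) (nat_lit 19585295273) (nat_lit 76) (nat_lit 27204745569) (nat_lit 76) (nat_lit 5740369698) (nat_lit 53) (nat_lit 4) (nat_lit 54) (nat_lit 5) (nat_lit 54) (nat_lit 4) (nat_lit 486) (nat_lit 396) (nat_lit 318)))))) (XT.nd (nat_lit 546) (nat_lit 608) (nat_lit 0) (XT.nd (nat_lit 234) (nat_lit 380) (nat_lit 0) (XT.nd (nat_lit 78) (nat_lit 228) (nat_lit 0) (XT.lf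 (nat_lit 0) (nat_lit 18120911542) (nat_lit 76) (nat_lit 1390685370) (nat_lit 152) (nat_lit 34852394358) (nat_lit 51) (nat_lit 5) (nat_lit 52) (nat_lit 5) (nat_lit 53) (nat_lit 4) (nat_lit 487) (nat_lit 396) (nat_lit 317)) (XT.nd (nat_lit 78) (nat_lit 152) (nat_lit 0) (XT.lf (nat_lit 0) (nat_lit 16047489094) (nat_lit 76) (nat_lit 30551297738) (nat_lit 76) (nat_lit 9668018939) (nat_lit 50) (nat_lit 4) (nat_lit 51) (nat_lit 5) (nat_lit 51) (nat_lit 4) (nat_lit 488) (nat_lit 396) (nat_lit 316)) (XT.lf (nat_lit 0) (nat_lit 13434780674) (nat_lit 76) (nat_lit 3480755033) (nat_lit 152) (nat_lit 41330368328) (nat_lit 48) (nat_lit 5) (nat_lit 49) (nat_lit 5) (nat_lit 50) (nat_lit 4) (nat_lit 489) (nat_lit 396) (nat_lit 315)))) (XT.nd (nat_lit 156) (nat_lit 152) (nat_lit 0) (XT.nd (nat_lit 78) (nat_lit 152) (nat_lit 0) (XT.lf (nat_lit 0) (nat_lit 10052391062) (nat_lit 76) (nat_lit 35280697911) (nat_lit 76)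 (nat_lit 14966853559) (nat_lit 47) (nat_lit 4) (nat_lit 48) (nat_lit 5) (nat_lit 48) (nat_lit 4) (nat_lit 490) (nat_lit 396) (nat_lit 314)) (XT.lf (nat_lit 0) (nat_lit 6007067490) (nat_lit 76) (nat_lit 6967782268) (nat_lit 152) (nat_lit 49462922867) (nat_lit 45) (nat_lit 5) (nat_lit 46) (nat_lit 5) (nat_lit 47) (nat_lit 4) (nat_lit 491) (nat_lit 396) (nat_lit 313))) (XT.nd (nat_lit 78) (nat_lit 76) (nat_lit 0) (XT.lf (nat_lit 0) (nat_lit 1003063936) (nat_lit 76) (nat_lit 41705111833) (nat_lit 76) (nat_lit 21948750703) (nat_lit 44) (nat_lit 4) (nat_lit 45) (nat_lit 5) (nat_lit 45) (nat_lit 4) (nat_lit 492) (nat_lit 396) (nat_lit 312)) (XT.lf (nat_lit 0) (nat_lit 7414017440) (nat_lit 152) (nat_lit 4721785934) (nat_lit 76) (nat_lit 54830983050) (nat_lit 43) (nat_lit 5) (nat_lit 45) (nat_lit 5) (nat_lit 44) (nat_lit 4) (nat_lit 493) (nat_lit 396) (nat_lit 311))))) (XT.nd (nat_lit 234) (nat_lit 304)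 (nat_lit 0) (XT.nd (nat_lit 78) (nat_lit 228) (nat_lit 0) (XT.lf (nat_lit 0) (nat_lit 38495220495) (nat_lit 152) (nat_lit 11585086448) (nat_lit 0) (nat_lit 19284186179) (nat_lit 42) (nat_lit 5) (nat_lit 44) (nat_lit 4) (nat_lit 42) (nat_lit 4) (nat_lit 494) (nat_lit 396) (nat_lit 310)) (XT.nd (nat_lit 78) (nat_lit 152) (nat_lit 0) (XT.lf (nat_lit 0) (nat_lit 52433119096) (nat_lit 76) (nat_lit 19327539747) (nat_lit 76) (nat_lit 102521143) (nat_lit 41) (nat_lit 4) (nat_lit 42) (nat_lit 5) (nat_lit 42) (nat_lit 4) (nat_lit 495) (nat_lit 396) (nat_lit 309)) (XT.lf (nat_lit 0) (nat_lit 32224168926) (nat_lit 152) (nat_lit 28687674286) (nat_lit 0) (nat_lit 13546171865) (nat_lit 39) (nat_lit 5) (nat_lit 41) (nat_lit 4) (nat_lit 39) (nat_lit 4) (nat_lit 496) (nat_lit 396) (nat_lit 308)))) (XT.nd (nat_lit 156) (nat_lit 76) (nat_lit 0) (XT.nd (nat_lit 78) (nat_lit 152) (nat_lit 0) (XT.lf (nat_lit 0) (nat_lit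 37914573274) (nat_lit 76) (nat_lit 28968381799) (nat_lit 76) (nat_lit 10278070018) (nat_lit 38) (nat_lit 4) (nat_lit 39) (nat_lit 5) (nat_lit 39) (nat_lit 4) (nat_lit 497) (nat_lit 396) (nat_lit 307)) (XT.lf (nat_lit 0) (nat_lit 23404076266) (nat_lit 152) (nat_lit 51324158363) (nat_lit 0) (nat_lit 5246755794) (nat_lit 36) (nat_lit 5) (nat_lit 38) (nat_lit 4) (nat_lit 36) (nat_lit 4) (nat_lit 498) (nat_lit 396) (nat_lit 306))) (XT.nd (nat_lit 55224) (nat_lit 0) (nat_lit 31768) (XT.lf (nat_lit 0) (nat_lit 17706859296) (nat_lit 76) (nat_lit 41681494573) (nat_lit 76) (nat_lit 23513329622) (nat_lit 35) (nat_lit 4) (nat_lit 36) (nat_lit 5) (nat_lit 36) (nat_lit 4) (nat_lit 499) (nat_lit 396) (nat_lit 305)) (XT.lf (nat_lit 0) (nat_lit 1552562370) (nat_lit 380) (nat_lit 860125293) (nat_lit 380) (nat_lit 860125293) (nat_lit 453) (nat_lit 4) (nat_lit 458) (nat_lit 5) (nat_lit 458) (nat_lit 4) (nat_lit 406)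 (nat_lit 397) (nat_lit 397))))))))
noncomputable def xc41 : XT := (XT.nd (nat_lit 2028) (nat_lit 7144) (nat_lit 0) (XT.nd (nat_lit 1014) (nat_lit 7524) (nat_lit 0) (XT.nd (nat_lit 468) (nat_lit 7752) (nat_lit 0) (XT.nd (nat_lit 234) (nat_lit 2432) (nat_lit 0) (XT.nd (nat_lit 78) (nat_lit 1292) (nat_lit 0) (XT.lf (nat_lit 0) (nat_lit 3187943354) (nat_lit 456) (nat_lit 427208588) (nat_lit 532) (nat_lit 2968996880) (nat_lit 446) (nat_lit 5) (nat_lit 452) (nat_lit 5) (nat_lit 453) (nat_lit 4) (nat_lit 407) (nat_lit 397) (nat_lit 396)) (XT.nd (nat_lit 78) (nat_lit 684) (nat_lit 0) (XT.lf (nat_lit 0) (nat_lit 2278919448) (nat_lit 608) (nat_lit 3241727808) (nat_lit 76) (nat_lit 1109590016) (nat_lit 438) (nat_lit 5) (nat_lit 446) (nat_lit 5) (nat_lit 439) (nat_lit 4) (nat_lit 408) (nat_lit 397) (nat_lit 395)) (XT.lf (nat_lit 0) (nat_lit 808430117) (nat_lit 684) (nat_lit 2972470174) (nat_lit 76) (nat_lit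 2903201175) (nat_lit 429) (nat_lit 5) (nat_lit 438) (nat_lit 5) (nat_lit 430) (nat_lit 5) (nat_lit 409) (nat_lit 397) (nat_lit 394)))) (XT.nd (nat_lit 78) (nat_lit 1748) (nat_lit 0) (XT.lf (nat_lit 0) (nat_lit 4154255385) (nat_lit 684) (nat_lit 1770602746) (nat_lit 760) (nat_lit 820867970) (nat_lit 420) (nat_lit 5) (nat_lit 429) (nat_lit 5) (nat_lit 430) (nat_lit 5) (nat_lit 410) (nat_lit 397) (nat_lit 393)) (XT.nd (nat_lit 78) (nat_lit 912) (nat_lit 0) (XT.lf (nat_lit 0) (nat_lit 4203339965) (nat_lit 836) (nat_lit 2104074595) (nat_lit 76) (nat_lit 507615796) (nat_lit 409) (nat_lit 5) (nat_lit 420) (nat_lit 5) (nat_lit 410) (nat_lit 5) (nat_lit 411) (nat_lit 397) (nat_lit 392)) (XT.lf (nat_lit 0) (nat_lit 2353781477) (nat_lit 912) (nat_lit 1515623941) (nat_lit 76) (nat_lit 3022531888) (nat_lit 397) (nat_lit 5) (nat_lit 409) (nat_lit 5) (nat_lit 398) (nat_lit 5) (nat_lit 412) (nat_lit 397) (nat_lit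 391))))) (XT.nd (nat_lit 234) (nat_lit 3496) (nat_lit 0) (XT.nd (nat_lit 78) (nat_lit 3268) (nat_lit 0) (XT.lf (nat_lit 0) (nat_lit 353590279) (nat_lit 988) (nat_lit 807363008) (nat_lit 76) (nat_lit 5816143595) (nat_lit 384) (nat_lit 5) (nat_lit 397) (nat_lit 5) (nat_lit 385) (nat_lit 5) (nat_lit 413) (nat_lit 397) (nat_lit 390)) (XT.nd (nat_lit 78) (nat_lit 2280) (nat_lit 0) (XT.lf (nat_lit 0) (nat_lit 5248743665) (nat_lit 1064) (nat_lit 12590892) (nat_lit 76) (nat_lit 1808266872) (nat_lit 371) (nat_lit 5) (nat_lit 385) (nat_lit 5) (nat_lit 372) (nat_lit 5) (nat_lit 414) (nat_lit 397) (nat_lit 389)) (XT.lf (nat_lit 0) (nat_lit 905211570) (nat_lit 1140) (nat_lit 2119343892) (nat_lit 1216) (nat_lit 4145295602) (nat_lit 341) (nat_lit 5) (nat_lit 356) (nat_lit 5) (nat_lit 357) (nat_lit 5) (nat_lit 415) (nat_lit 397) (nat_lit 388)))) (XT.nd (nat_lit 156) (nat_lit 1368) (nat_lit 0) (XT.nd (nat_lit 78)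 (nat_lit 836) (nat_lit 0) (XT.lf (nat_lit 0) (nat_lit 652529850) (nat_lit 1292) (nat_lit 5342819629) (nat_lit 76) (nat_lit 1282961215) (nat_lit 324) (nat_lit 5) (nat_lit 341) (nat_lit 5) (nat_lit 325) (nat_lit 5) (nat_lit 416) (nat_lit 397) (nat_lit 387)) (XT.lf (nat_lit 0) (nat_lit 3051371842) (nat_lit 836) (nat_lit 2441863654) (nat_lit 912) (nat_lit 1901077343) (nat_lit 313) (nat_lit 5) (nat_lit 324) (nat_lit 5) (nat_lit 325) (nat_lit 5) (nat_lit 417) (nat_lit 397) (nat_lit 386))) (XT.nd (nat_lit 78) (nat_lit 684) (nat_lit 0) (XT.lf (nat_lit 0) (nat_lit 2889080380) (nat_lit 684) (nat_lit 3244782786) (nat_lit 76) (nat_lit 1384713163) (nat_lit 304) (nat_lit 5) (nat_lit 313) (nat_lit 5) (nat_lit 305) (nat_lit 5) (nat_lit 418) (nat_lit 397) (nat_lit 385)) (XT.lf (nat_lit 0) (nat_lit 136462485) (nat_lit 684) (nat_lit 2051239504) (nat_lit 76) (nat_lit 5463429483) (nat_lit 295) (nat_lit 5) (nat_lit 304)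 (nat_lit 5) (nat_lit 296) (nat_lit 5) (nat_lit 419) (nat_lit 397) (nat_lit 384)))))) (XT.nd (nat_lit 468) (nat_lit 3724) (nat_lit 0) (XT.nd (nat_lit 234) (nat_lit 1520) (nat_lit 0) (XT.nd (nat_lit 78) (nat_lit 1748) (nat_lit 0) (XT.lf (nat_lit 0) (nat_lit 4960149536) (nat_lit 608) (nat_lit 782525415) (nat_lit 76) (nat_lit 2048819154) (nat_lit 288) (nat_lit 5) (nat_lit 296) (nat_lit 5) (nat_lit 289) (nat_lit 5) (nat_lit 420) (nat_lit 397) (nat_lit 383)) (XT.nd (nat_lit 78) (nat_lit 532) (nat_lit 0) (XT.lf (nat_lit 0) (nat_lit 597440540) (nat_lit 532) (nat_lit 1379011239) (nat_lit 608) (nat_lit 5963900415) (nat_lit 272) (nat_lit 5) (nat_lit 279) (nat_lit 5) (nat_lit 280) (nat_lit 5) (nat_lit 421) (nat_lit 397) (nat_lit 382)) (XT.lf (nat_lit 0) (nat_lit 2077419780) (nat_lit 532) (nat_lit 4840946579) (nat_lit 608) (nat_lit 1178886184) (nat_lit 265) (nat_lit 5) (nat_lit 272) (nat_lit 5) (nat_lit 273)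 (nat_lit 5) (nat_lit 422) (nat_lit 397) (nat_lit 381)))) (XT.nd (nat_lit 78) (nat_lit 988) (nat_lit 0) (XT.lf (nat_lit 0) (nat_lit 3652446228) (nat_lit 456) (nat_lit 52033799) (nat_lit 532) (nat_lit 4558393032) (nat_lit 258) (nat_lit 5) (nat_lit 264) (nat_lit 5) (nat_lit 265) (nat_lit 5) (nat_lit 423) (nat_lit 397) (nat_lit 380)) (XT.nd (nat_lit 78) (nat_lit 456) (nat_lit 0) (XT.lf (nat_lit 0) (nat_lit 340821118) (nat_lit 532) (nat_lit 3126143459) (nat_lit 76) (nat_lit 4970054743) (nat_lit 251) (nat_lit 5) (nat_lit 258) (nat_lit 5) (nat_lit 252) (nat_lit 5) (nat_lit 424) (nat_lit 397) (nat_lit 379)) (XT.lf (nat_lit 0) (nat_lit 5345044899) (nat_lit 532) (nat_lit 1565325710) (nat_lit 76) (nat_lit 1709525849) (nat_lit 245) (nat_lit 5) (nat_lit 252) (nat_lit 5) (nat_lit 246) (nat_lit 5) (nat_lit 425) (nat_lit 397) (nat_lit 378))))) (XT.nd (nat_lit 234) (nat_lit 1900) (nat_lit 0) (XT.nd (nat_lit 78)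 (nat_lit 912) (nat_lit 0) (XT.lf (nat_lit 0) (nat_lit 85870204) (nat_lit 380) (nat_lit 1646872940) (nat_lit 456) (nat_lit 7079263637) (nat_lit 233) (nat_lit 5) (nat_lit 238) (nat_lit 5) (nat_lit 239) (nat_lit 5) (nat_lit 426) (nat_lit 397) (nat_lit 377)) (XT.nd (nat_lit 78) (nat_lit 456) (nat_lit 0) (XT.lf (nat_lit 0) (nat_lit 1841764865) (nat_lit 456) (nat_lit 5087612783) (nat_lit 532) (nat_lit 2083186952) (nat_lit 227) (nat_lit 5) (nat_lit 233) (nat_lit 5) (nat_lit 234) (nat_lit 5) (nat_lit 427) (nat_lit 397) (nat_lit 376)) (XT.lf (nat_lit 0) (nat_lit 3082343851) (nat_lit 456) (nat_lit 5531107523) (nat_lit 76) (nat_lit 609351808) (nat_lit 221) (nat_lit 5) (nat_lit 227) (nat_lit 5) (nat_lit 222) (nat_lit 5) (nat_lit 428) (nat_lit 397) (nat_lit 375)))) (XT.nd (nat_lit 156) (nat_lit 1064) (nat_lit 0) (XT.nd (nat_lit 78) (nat_lit 456) (nat_lit 0) (XT.lf (nat_lit 0) (nat_lit 5618189959) (nat_lit 380)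 (nat_lit 2862991046) (nat_lit 456) (nat_lit 961216140) (nat_lit 216) (nat_lit 5) (nat_lit 221) (nat_lit 5) (nat_lit 222) (nat_lit 5) (nat_lit 429) (nat_lit 397) (nat_lit 374)) (XT.lf (nat_lit 0) (nat_lit 4394229440) (nat_lit 456) (nat_lit 2049987816) (nat_lit 76) (nat_lit 3227329605) (nat_lit 210) (nat_lit 5) (nat_lit 216) (nat_lit 5) (nat_lit 211) (nat_lit 5) (nat_lit 430) (nat_lit 397) (nat_lit 373))) (XT.nd (nat_lit 78) (nat_lit 608) (nat_lit 0) (XT.lf (nat_lit 0) (nat_lit 93345125) (nat_lit 456) (nat_lit 171404019) (nat_lit 76) (nat_lit 9646819955) (nat_lit 204) (nat_lit 5) (nat_lit 210) (nat_lit 5) (nat_lit 205) (nat_lit 5) (nat_lit 431) (nat_lit 397) (nat_lit 372)) (XT.lf (nat_lit 0) (nat_lit 1775627603) (nat_lit 304) (nat_lit 3913787732) (nat_lit 380) (nat_lit 4470633642) (nat_lit 196) (nat_lit 5) (nat_lit 200) (nat_lit 5) (nat_lit 201) (nat_lit 5) (nat_lit 432) (nat_lit 397) (nat_lit 371)))))))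 (XT.nd (nat_lit 1014) (nat_lit 2964) (nat_lit 0) (XT.nd (nat_lit 468) (nat_lit 1976) (nat_lit 0) (XT.nd (nat_lit 234) (nat_lit 1140) (nat_lit 0) (XT.nd (nat_lit 78) (nat_lit 684) (nat_lit 0) (XT.lf (nat_lit 0) (nat_lit 1146347046) (nat_lit 380) (nat_lit 6582605933) (nat_lit 76) (nat_lit 2690943870) (nat_lit 191) (nat_lit 5) (nat_lit 196) (nat_lit 5) (nat_lit 192) (nat_lit 5) (nat_lit 433) (nat_lit 397) (nat_lit 370)) (XT.nd (nat_lit 78) (nat_lit 380) (nat_lit 0) (XT.lf (nat_lit 0) (nat_lit 5968819936) (nat_lit 304) (nat_lit 1023624839) (nat_lit 380) (nat_lit 3697746628) (nat_lit 187) (nat_lit 5) (nat_lit 191) (nat_lit 5) (nat_lit 192) (nat_lit 5) (nat_lit 434) (nat_lit 397) (nat_lit 369)) (XT.lf (nat_lit 0) (nat_lit 2180468856) (nat_lit 380) (nat_lit 2793103179) (nat_lit 76) (nat_lit 5997839088) (nat_lit 182) (nat_lit 5) (nat_lit 187) (nat_lit 5) (nat_lit 183) (nat_lit 5) (nat_lit 435) (nat_lit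 397) (nat_lit 368)))) (XT.nd (nat_lit 78) (nat_lit 836) (nat_lit 0) (XT.lf (nat_lit 0) (nat_lit 8321652532) (nat_lit 380) (nat_lit 783992162) (nat_lit 76) (nat_lit 2158586366) (nat_lit 178) (nat_lit 5) (nat_lit 183) (nat_lit 5) (nat_lit 179) (nat_lit 5) (nat_lit 436) (nat_lit 397) (nat_lit 367)) (XT.nd (nat_lit 78) (nat_lit 228) (nat_lit 0) (XT.lf (nat_lit 0) (nat_lit 1322385012) (nat_lit 304) (nat_lit 1897159896) (nat_lit 380) (nat_lit 8348715575) (nat_lit 170) (nat_lit 5) (nat_lit 174) (nat_lit 5) (nat_lit 175) (nat_lit 5) (nat_lit 437) (nat_lit 397) (nat_lit 366)) (XT.lf (nat_lit 0) (nat_lit 3517475856) (nat_lit 228) (nat_lit 6201470973) (nat_lit 304) (nat_lit 2164972759) (nat_lit 167) (nat_lit 5) (nat_lit 170) (nat_lit 5) (nat_lit 171) (nat_lit 5) (nat_lit 438) (nat_lit 397) (nat_lit 365))))) (XT.nd (nat_lit 234) (nat_lit 1140) (nat_lit 0) (XT.nd (nat_lit 78) (nat_lit 532) (nat_lit 0) (XT.lf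 (nat_lit 0) (nat_lit 4310186186) (nat_lit 304) (nat_lit 6413365436) (nat_lit 76) (nat_lit 1488564333) (nat_lit 163) (nat_lit 5) (nat_lit 167) (nat_lit 5) (nat_lit 164) (nat_lit 5) (nat_lit 439) (nat_lit 397) (nat_lit 364)) (XT.nd (nat_lit 78) (nat_lit 304) (nat_lit 0) (XT.lf (nat_lit 0) (nat_lit 8161048232) (nat_lit 228) (nat_lit 3005724588) (nat_lit 304) (nat_lit 1386235670) (nat_lit 160) (nat_lit 5) (nat_lit 163) (nat_lit 5) (nat_lit 164) (nat_lit 5) (nat_lit 440) (nat_lit 397) (nat_lit 363)) (XT.lf (nat_lit 0) (nat_lit 5445069788) (nat_lit 304) (nat_lit 2316996886) (nat_lit 76) (nat_lit 5144420004) (nat_lit 156) (nat_lit 5) (nat_lit 160) (nat_lit 5) (nat_lit 157) (nat_lit 5) (nat_lit 441) (nat_lit 397) (nat_lit 362)))) (XT.nd (nat_lit 156) (nat_lit 456) (nat_lit 0) (XT.nd (nat_lit 78) (nat_lit 456) (nat_lit 0) (XT.lf (nat_lit 0) (nat_lit 12676600596) (nat_lit 304) (nat_lit 131417908) (nat_lit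 76) (nat_lit 466591055) (nat_lit 153) (nat_lit 5) (nat_lit 157) (nat_lit 5) (nat_lit 154) (nat_lit 5) (nat_lit 442) (nat_lit 397) (nat_lit 361)) (XT.lf (nat_lit 0) (nat_lit 2117068580) (nat_lit 152) (nat_lit 4521749907) (nat_lit 228) (nat_lit 7015640385) (nat_lit 147) (nat_lit 5) (nat_lit 149) (nat_lit 5) (nat_lit 150) (nat_lit 5) (nat_lit 443) (nat_lit 397) (nat_lit 360))) (XT.nd (nat_lit 78) (nat_lit 152) (nat_lit 0) (XT.lf (nat_lit 0) (nat_lit 277073083) (nat_lit 304) (nat_lit 9562010195) (nat_lit 76) (nat_lit 4210739233) (nat_lit 143) (nat_lit 5) (nat_lit 147) (nat_lit 5) (nat_lit 144) (nat_lit 5) (nat_lit 444) (nat_lit 397) (nat_lit 359)) (XT.lf (nat_lit 0) (nat_lit 6915132097) (nat_lit 152) (nat_lit 993321992) (nat_lit 228) (nat_lit 6550844580) (nat_lit 141) (nat_lit 5) (nat_lit 143) (nat_lit 5) (nat_lit 144) (nat_lit 5) (nat_lit 445) (nat_lit 397) (nat_lit 358)))))) (XT.nd (nat_lit 546) (nat_lit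 1292) (nat_lit 0) (XT.nd (nat_lit 234) (nat_lit 912) (nat_lit 0) (XT.nd (nat_lit 78) (nat_lit 456) (nat_lit 0) (XT.lf (nat_lit 0) (nat_lit 1172031024) (nat_lit 304) (nat_lit 5455926639) (nat_lit 76) (nat_lit 8256194646) (nat_lit 137) (nat_lit 5) (nat_lit 141) (nat_lit 5) (nat_lit 138) (nat_lit 5) (nat_lit 446) (nat_lit 397) (nat_lit 357)) (XT.nd (nat_lit 78) (nat_lit 304) (nat_lit 0) (XT.lf (nat_lit 0) (nat_lit 9269055285) (nat_lit 228) (nat_lit 3304961408) (nat_lit 76) (nat_lit 2750583288) (nat_lit 135) (nat_lit 5) (nat_lit 138) (nat_lit 5) (nat_lit 136) (nat_lit 5) (nat_lit 447) (nat_lit 397) (nat_lit 356)) (XT.lf (nat_lit 0) (nat_lit 2105600508) (nat_lit 304) (nat_lit 1072043243) (nat_lit 76) (nat_lit 12604042228) (nat_lit 131) (nat_lit 5) (nat_lit 135) (nat_lit 5) (nat_lit 132) (nat_lit 5) (nat_lit 448) (nat_lit 397) (nat_lit 355)))) (XT.nd (nat_lit 156) (nat_lit 380) (nat_lit 0) (XT.nd (nat_lit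 78) (nat_lit 228) (nat_lit 0) (XT.lf (nat_lit 0) (nat_lit 1231700781) (nat_lit 152) (nat_lit 9495846670) (nat_lit 228) (nat_lit 5526942206) (nat_lit 127) (nat_lit 5) (nat_lit 129) (nat_lit 5) (nat_lit 130) (nat_lit 5) (nat_lit 449) (nat_lit 397) (nat_lit 354)) (XT.lf (nat_lit 0) (nat_lit 3125602968) (nat_lit 228) (nat_lit 13077061026) (nat_lit 76) (nat_lit 542745323) (nat_lit 124) (nat_lit 5) (nat_lit 127) (nat_lit 5) (nat_lit 125) (nat_lit 5) (nat_lit 450) (nat_lit 397) (nat_lit 353))) (XT.nd (nat_lit 78) (nat_lit 228) (nat_lit 0) (XT.lf (nat_lit 0) (nat_lit 6135248952) (nat_lit 152) (nat_lit 6171409259) (nat_lit 228) (nat_lit 4946270775) (nat_lit 122) (nat_lit 5) (nat_lit 124) (nat_lit 5) (nat_lit 125) (nat_lit 5) (nat_lit 451) (nat_lit 397) (nat_lit 352)) (XT.lf (nat_lit 0) (nat_lit 4243820904) (nat_lit 228) (nat_lit 9075474698) (nat_lit 76) (nat_lit 4460408130) (nat_lit 119) (nat_lit 5) (nat_lit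 122) (nat_lit 5) (nat_lit 120) (nat_lit 5) (nat_lit 452) (nat_lit 397) (nat_lit 351))))) (XT.nd (nat_lit 234) (nat_lit 760) (nat_lit 0) (XT.nd (nat_lit 78) (nat_lit 380) (nat_lit 0) (XT.lf (nat_lit 0) (nat_lit 11351553283) (nat_lit 152) (nat_lit 2630117152) (nat_lit 228) (nat_lit 4343962284) (nat_lit 117) (nat_lit 5) (nat_lit 119) (nat_lit 5) (nat_lit 120) (nat_lit 5) (nat_lit 453) (nat_lit 397) (nat_lit 350)) (XT.nd (nat_lit 78) (nat_lit 152) (nat_lit 0) (XT.lf (nat_lit 0) (nat_lit 5423595834) (nat_lit 228) (nat_lit 4833952766) (nat_lit 76) (nat_lit 8633191736) (nat_lit 114) (nat_lit 5) (nat_lit 117) (nat_lit 5) (nat_lit 115) (nat_lit 5) (nat_lit 454) (nat_lit 397) (nat_lit 349)) (XT.lf (nat_lit 0) (nat_lit 15769671326) (nat_lit 228) (nat_lit 2597819702) (nat_lit 76) (nat_lit 1109923689) (nat_lit 112) (nat_lit 5) (nat_lit 115) (nat_lit 5) (nat_lit 113) (nat_lit 4) (nat_lit 455) (nat_lit 397) (nat_lit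 348)))) (XT.nd (nat_lit 156) (nat_lit 304) (nat_lit 0) (XT.nd (nat_lit 78) (nat_lit 228) (nat_lit 0) (XT.lf (nat_lit 0) (nat_lit 6667626120) (nat_lit 228) (nat_lit 348673661) (nat_lit 76) (nat_lit 13067569811) (nat_lit 109) (nat_lit 5) (nat_lit 112) (nat_lit 5) (nat_lit 110) (nat_lit 5) (nat_lit 456) (nat_lit 397) (nat_lit 347)) (XT.lf (nat_lit 0) (nat_lit 2036741991) (nat_lit 76) (nat_lit 15674493088) (nat_lit 152) (nat_lit 3001527159) (nat_lit 106) (nat_lit 5) (nat_lit 107) (nat_lit 5) (nat_lit 108) (nat_lit 4) (nat_lit 457) (nat_lit 397) (nat_lit 346))) (XT.nd (nat_lit 78) (nat_lit 76) (nat_lit 0) (XT.lf (nat_lit 0) (nat_lit 4468379607) (nat_lit 152) (nat_lit 3551038441) (nat_lit 228) (nat_lit 13344184971) (nat_lit 103) (nat_lit 5) (nat_lit 105) (nat_lit 5) (nat_lit 106) (nat_lit 5) (nat_lit 458) (nat_lit 397) (nat_lit 345)) (XT.lf (nat_lit 0) (nat_lit 6970637936) (nat_lit 76) (nat_lit 12821043266)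 (nat_lit 152) (nat_lit 2246543499) (nat_lit 102) (nat_lit 5) (nat_lit 103) (nat_lit 5) (nat_lit 104) (nat_lit 4) (nat_lit 459) (nat_lit 397) (nat_lit 344))))))))
noncomputable def xc42 : XT := (XT.nd (nat_lit 2028) (nat_lit 1520) (nat_lit 0) (XT.nd (nat_lit 1014) (nat_lit 1444) (nat_lit 0) (XT.nd (nat_lit 468) (nat_lit 1064) (nat_lit 0) (XT.nd (nat_lit 234) (nat_lit 456) (nat_lit 0) (XT.nd (nat_lit 78) (nat_lit 304) (nat_lit 0) (XT.lf (nat_lit 0) (nat_lit 9440737565) (nat_lit 228) (nat_lit 13199666872) (nat_lit 76) (nat_lit 96912235) (nat_lit 99) (nat_lit 5) (nat_lit 102) (nat_lit 5) (nat_lit 100) (nat_lit 4) (nat_lit 460) (nat_lit 397) (nat_lit 343)) (XT.nd (nat_lit 78) (nat_lit 228) (nat_lit 0) (XT.lf (nat_lit 0) (nat_lit 12146514995) (nat_lit 76) (nat_lit 9838702544) (nat_lit 152) (nat_lit 1475900221) (nat_lit 98) (nat_lit 5) (nat_lit 99) (nat_lit 5) (nat_lit 100) (nat_lit 4) (nat_lit 461) (nat_lit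 397) (nat_lit 342)) (XT.lf (nat_lit 0) (nat_lit 10957870479) (nat_lit 228) (nat_lit 9403015227) (nat_lit 76) (nat_lit 3850006556) (nat_lit 95) (nat_lit 5) (nat_lit 98) (nat_lit 5) (nat_lit 96) (nat_lit 4) (nat_lit 462) (nat_lit 397) (nat_lit 341)))) (XT.nd (nat_lit 78) (nat_lit 380) (nat_lit 0) (XT.lf (nat_lit 0) (nat_lit 17552868599) (nat_lit 76) (nat_lit 6735433212) (nat_lit 152) (nat_lit 700251040) (nat_lit 94) (nat_lit 5) (nat_lit 95) (nat_lit 5) (nat_lit 96) (nat_lit 4) (nat_lit 463) (nat_lit 397) (nat_lit 340)) (XT.nd (nat_lit 78) (nat_lit 152) (nat_lit 0) (XT.lf (nat_lit 0) (nat_lit 12527641605) (nat_lit 228) (nat_lit 5493432209) (nat_lit 76) (nat_lit 7771693742) (nat_lit 91) (nat_lit 5) (nat_lit 94) (nat_lit 5) (nat_lit 92) (nat_lit 4) (nat_lit 464) (nat_lit 397) (nat_lit 339)) (XT.lf (nat_lit 0) (nat_lit 63946688) (nat_lit 152) (nat_lit 3458042805) (nat_lit 76) (nat_lit 23106246432) (nat_lit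 89) (nat_lit 5) (nat_lit 91) (nat_lit 5) (nat_lit 90) (nat_lit 5) (nat_lit 465) (nat_lit 397) (nat_lit 338))))) (XT.nd (nat_lit 234) (nat_lit 532) (nat_lit 0) (XT.nd (nat_lit 78) (nat_lit 380) (nat_lit 0) (XT.lf (nat_lit 0) (nat_lit 14136398429) (nat_lit 228) (nat_lit 1502027585) (nat_lit 76) (nat_lit 11852574012) (nat_lit 87) (nat_lit 5) (nat_lit 90) (nat_lit 5) (nat_lit 88) (nat_lit 4) (nat_lit 466) (nat_lit 397) (nat_lit 337)) (XT.nd (nat_lit 78) (nat_lit 76) (nat_lit 0) (XT.lf (nat_lit 0) (nat_lit 587578870) (nat_lit 152) (nat_lit 202351828) (nat_lit 228) (nat_lit 27598290802) (nat_lit 83) (nat_lit 5) (nat_lit 85) (nat_lit 5) (nat_lit 86) (nat_lit 5) (nat_lit 467) (nat_lit 397) (nat_lit 336)) (XT.lf (nat_lit 0) (nat_lit 2579612753) (nat_lit 76) (nat_lit 13210107587) (nat_lit 152) (nat_lit 13523890712) (nat_lit 82) (nat_lit 5) (nat_lit 83) (nat_lit 5) (nat_lit 84) (nat_lit 4) (nat_lit 468) (nat_lit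 397) (nat_lit 335)))) (XT.nd (nat_lit 156) (nat_lit 228) (nat_lit 0) (XT.nd (nat_lit 78) (nat_lit 76) (nat_lit 0) (XT.lf (nat_lit 0) (nat_lit 1524154237) (nat_lit 228) (nat_lit 25590577944) (nat_lit 76) (nat_lit 3161344644) (nat_lit 79) (nat_lit 5) (nat_lit 82) (nat_lit 5) (nat_lit 80) (nat_lit 4) (nat_lit 469) (nat_lit 397) (nat_lit 334)) (XT.lf (nat_lit 0) (nat_lit 6675629776) (nat_lit 76) (nat_lit 10775834637) (nat_lit 152) (nat_lit 13818988139) (nat_lit 78) (nat_lit 5) (nat_lit 79) (nat_lit 5) (nat_lit 80) (nat_lit 4) (nat_lit 470) (nat_lit 397) (nat_lit 333))) (XT.nd (nat_lit 78) (nat_lit 76) (nat_lit 0) (XT.lf (nat_lit 0) (nat_lit 2169203483) (nat_lit 152) (nat_lit 23571197529) (nat_lit 76) (nat_lit 6563262346) (nat_lit 76) (nat_lit 5) (nat_lit 78) (nat_lit 5) (nat_lit 77) (nat_lit 4) (nat_lit 471) (nat_lit 397) (nat_lit 332)) (XT.lf (nat_lit 0) (nat_lit 10683599743) (nat_lit 76) (nat_lit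 8388619432) (nat_lit 152) (nat_lit 14300174857) (nat_lit 75) (nat_lit 5) (nat_lit 76) (nat_lit 5) (nat_lit 77) (nat_lit 4) (nat_lit 472) (nat_lit 397) (nat_lit 331)))))) (XT.nd (nat_lit 468) (nat_lit 760) (nat_lit 0) (XT.nd (nat_lit 234) (nat_lit 304) (nat_lit 0) (XT.nd (nat_lit 78) (nat_lit 228) (nat_lit 0) (XT.lf (nat_lit 0) (nat_lit 2678562288) (nat_lit 152) (nat_lit 21832957781) (nat_lit 76) (nat_lit 9970427084) (nat_lit 73) (nat_lit 5) (nat_lit 75) (nat_lit 5) (nat_lit 74) (nat_lit 4) (nat_lit 473) (nat_lit 397) (nat_lit 330)) (XT.nd (nat_lit 78) (nat_lit 152) (nat_lit 0) (XT.lf (nat_lit 0) (nat_lit 14511271514) (nat_lit 76) (nat_lit 6096153125) (nat_lit 152) (nat_lit 15023397886) (nat_lit 72) (nat_lit 5) (nat_lit 73) (nat_lit 5) (nat_lit 74) (nat_lit 4) (nat_lit 474) (nat_lit 397) (nat_lit 329)) (XT.lf (nat_lit 0) (nat_lit 2996404002) (nat_lit 152) (nat_lit 20490810560) (nat_lit 76) (nat_lit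 13335634930) (nat_lit 70) (nat_lit 5) (nat_lit 72) (nat_lit 5) (nat_lit 71) (nat_lit 4) (nat_lit 475) (nat_lit 397) (nat_lit 328)))) (XT.nd (nat_lit 78) (nat_lit 228) (nat_lit 0) (XT.lf (nat_lit 0) (nat_lit 18042651644) (nat_lit 76) (nat_lit 3958033893) (nat_lit 152) (nat_lit 16057504252) (nat_lit 69) (nat_lit 5) (nat_lit 70) (nat_lit 5) (nat_lit 71) (nat_lit 4) (nat_lit 476) (nat_lit 397) (nat_lit 327)) (XT.nd (nat_lit 78) (nat_lit 76) (nat_lit 0) (XT.lf (nat_lit 0) (nat_lit 3053465943) (nat_lit 152) (nat_lit 19686721933) (nat_lit 76) (nat_lit 16599230274) (nat_lit 67) (nat_lit 5) (nat_lit 69) (nat_lit 5) (nat_lit 68) (nat_lit 4) (nat_lit 477) (nat_lit 397) (nat_lit 326)) (XT.lf (nat_lit 0) (nat_lit 21133250157) (nat_lit 76) (nat_lit 2048196834) (nat_lit 152) (nat_lit 17486684938) (nat_lit 66) (nat_lit 5) (nat_lit 67) (nat_lit 5) (nat_lit 68) (nat_lit 4) (nat_lit 478) (nat_lit 397) (nat_lit 325)))))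 (XT.nd (nat_lit 234) (nat_lit 380) (nat_lit 0) (XT.nd (nat_lit 78) (nat_lit 228) (nat_lit 0) (XT.lf (nat_lit 0) (nat_lit 2764469756) (nat_lit 152) (nat_lit 19594941959) (nat_lit 76) (nat_lit 19686543935) (nat_lit 64) (nat_lit 5) (nat_lit 66) (nat_lit 5) (nat_lit 65) (nat_lit 4) (nat_lit 479) (nat_lit 397) (nat_lit 324)) (XT.nd (nat_lit 78) (nat_lit 152) (nat_lit 0) (XT.lf (nat_lit 0) (nat_lit 23604464651) (nat_lit 76) (nat_lit 457778926) (nat_lit 152) (nat_lit 19413361740) (nat_lit 63) (nat_lit 5) (nat_lit 64) (nat_lit 5) (nat_lit 65) (nat_lit 4) (nat_lit 480) (nat_lit 397) (nat_lit 323)) (XT.lf (nat_lit 0) (nat_lit 2025073182) (nat_lit 152) (nat_lit 20428221687) (nat_lit 76) (nat_lit 22504870266) (nat_lit 61) (nat_lit 5) (nat_lit 63) (nat_lit 5) (nat_lit 62) (nat_lit 4) (nat_lit 481) (nat_lit 397) (nat_lit 322)))) (XT.nd (nat_lit 156) (nat_lit 152) (nat_lit 0) (XT.nd (nat_lit 78) (nat_lit 152)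 (nat_lit 0) (XT.lf (nat_lit 0) (nat_lit 24542190850) (nat_lit 152) (nat_lit 21266833059) (nat_lit 0) (nat_lit 687815102) (nat_lit 60) (nat_lit 5) (nat_lit 62) (nat_lit 4) (nat_lit 60) (nat_lit 4) (nat_lit 482) (nat_lit 397) (nat_lit 321)) (XT.lf (nat_lit 0) (nat_lit 708271944) (nat_lit 152) (nat_lit 22445142897) (nat_lit 76) (nat_lit 24939901747) (nat_lit 58) (nat_lit 5) (nat_lit 60) (nat_lit 5) (nat_lit 59) (nat_lit 4) (nat_lit 483) (nat_lit 397) (nat_lit 320))) (XT.nd (nat_lit 78) (nat_lit 76) (nat_lit 0) (XT.lf (nat_lit 0) (nat_lit 24481862009) (nat_lit 152) (nat_lit 24000148118) (nat_lit 0) (nat_lit 1268139504) (nat_lit 57) (nat_lit 5) (nat_lit 59) (nat_lit 4) (nat_lit 57) (nat_lit 4) (nat_lit 484) (nat_lit 397) (nat_lit 319)) (XT.lf (nat_lit 0) (nat_lit 25498152187) (nat_lit 76) (nat_lit 24605381147) (nat_lit 76) (nat_lit 1366509095) (nat_lit 56) (nat_lit 4) (nat_lit 57) (nat_lit 5) (nat_lit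 57) (nat_lit 4) (nat_lit 485) (nat_lit 397) (nat_lit 318))))))) (XT.nd (nat_lit 1014) (nat_lit 152) (nat_lit 0) (XT.nd (nat_lit 468) (nat_lit 684) (nat_lit 0) (XT.nd (nat_lit 234) (nat_lit 304) (nat_lit 0) (XT.nd (nat_lit 78) (nat_lit 228) (nat_lit 0) (XT.lf (nat_lit 0) (nat_lit 23715104339) (nat_lit 152) (nat_lit 28410709710) (nat_lit 0) (nat_lit 1129838317) (nat_lit 54) (nat_lit 5) (nat_lit 56) (nat_lit 4) (nat_lit 54) (nat_lit 4) (nat_lit 486) (nat_lit 397) (nat_lit 317)) (XT.nd (nat_lit 78) (nat_lit 152) (nat_lit 0) (XT.lf (nat_lit 0) (nat_lit 23720308798) (nat_lit 76) (nat_lit 26998181321) (nat_lit 76) (nat_lit 4390768328) (nat_lit 53) (nat_lit 4) (nat_lit 54) (nat_lit 5) (nat_lit 54) (nat_lit 4) (nat_lit 487) (nat_lit 397) (nat_lit 316)) (XT.lf (nat_lit 0) (nat_lit 22045960810) (nat_lit 152) (nat_lit 34912924474) (nat_lit 0) (nat_lit 76538143) (nat_lit 51) (nat_lit 5) (nat_lit 53) (nat_lit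 4) (nat_lit 51) (nat_lit 4) (nat_lit 488) (nat_lit 397) (nat_lit 315)))) (XT.nd (nat_lit 78) (nat_lit 228) (nat_lit 0) (XT.lf (nat_lit 0) (nat_lit 19888464956) (nat_lit 76) (nat_lit 30567394471) (nat_lit 76) (nat_lit 8578468934) (nat_lit 50) (nat_lit 4) (nat_lit 51) (nat_lit 5) (nat_lit 51) (nat_lit 4) (nat_lit 489) (nat_lit 397) (nat_lit 314)) (XT.nd (nat_lit 78) (nat_lit 76) (nat_lit 0) (XT.lf (nat_lit 0) (nat_lit 17087837807) (nat_lit 76) (nat_lit 2170949141) (nat_lit 152) (nat_lit 41854484634) (nat_lit 48) (nat_lit 5) (nat_lit 49) (nat_lit 5) (nat_lit 50) (nat_lit 4) (nat_lit 490) (nat_lit 397) (nat_lit 313)) (XT.lf (nat_lit 0) (nat_lit 13480654893) (nat_lit 76) (nat_lit 35586962152) (nat_lit 76) (nat_lit 14203283145) (nat_lit 47) (nat_lit 4) (nat_lit 48) (nat_lit 5) (nat_lit 48) (nat_lit 4) (nat_lit 491) (nat_lit 397) (nat_lit 312))))) (XT.nd (nat_lit 234) (nat_lit 380) (nat_lit 0) (XT.nd (nat_lit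 78) (nat_lit 152) (nat_lit 0) (XT.lf (nat_lit 0) (nat_lit 9177862385) (nat_lit 76) (nat_lit 5885141558) (nat_lit 152) (nat_lit 50453471948) (nat_lit 45) (nat_lit 5) (nat_lit 46) (nat_lit 5) (nat_lit 47) (nat_lit 4) (nat_lit 492) (nat_lit 397) (nat_lit 311)) (XT.nd (nat_lit 78) (nat_lit 76) (nat_lit 0) (XT.lf (nat_lit 0) (nat_lit 3869963865) (nat_lit 76) (nat_lit 42384666159) (nat_lit 76) (nat_lit 21592808539) (nat_lit 44) (nat_lit 4) (nat_lit 45) (nat_lit 5) (nat_lit 45) (nat_lit 4) (nat_lit 493) (nat_lit 397) (nat_lit 310)) (XT.lf (nat_lit 0) (nat_lit 9141879289) (nat_lit 152) (nat_lit 2248246477) (nat_lit 76) (nat_lit 58884282496) (nat_lit 43) (nat_lit 5) (nat_lit 45) (nat_lit 5) (nat_lit 44) (nat_lit 4) (nat_lit 494) (nat_lit 397) (nat_lit 309)))) (XT.nd (nat_lit 156) (nat_lit 152) (nat_lit 0) (XT.nd (nat_lit 78) (nat_lit 152) (nat_lit 0) (XT.lf (nat_lit 0) (nat_lit 41750447932) (nat_lit 152)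 (nat_lit 9505477586) (nat_lit 0) (nat_lit 21536875740) (nat_lit 42) (nat_lit 5) (nat_lit 44) (nat_lit 4) (nat_lit 42) (nat_lit 4) (nat_lit 495) (nat_lit 397) (nat_lit 308)) (XT.lf (nat_lit 0) (nat_lit 1199184053) (nat_lit 152) (nat_lit 17791912724) (nat_lit 76) (nat_lit 56426128995) (nat_lit 40) (nat_lit 5) (nat_lit 42) (nat_lit 5) (nat_lit 41) (nat_lit 4) (nat_lit 496) (nat_lit 397) (nat_lit 307))) (XT.nd (nat_lit 78) (nat_lit 76) (nat_lit 0) (XT.lf (nat_lit 0) (nat_lit 35114512898) (nat_lit 152) (nat_lit 27562384137) (nat_lit 0) (nat_lit 15465642504) (nat_lit 39) (nat_lit 5) (nat_lit 41) (nat_lit 4) (nat_lit 39) (nat_lit 4) (nat_lit 497) (nat_lit 397) (nat_lit 306)) (XT.lf (nat_lit 0) (nat_lit 42296603263) (nat_lit 76) (nat_lit 29172623723) (nat_lit 76) (nat_lit 9512583515) (nat_lit 38) (nat_lit 4) (nat_lit 39) (nat_lit 5) (nat_lit 39) (nat_lit 4) (nat_lit 498) (nat_lit 397) (nat_lit 305))))))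 (XT.nd (nat_lit 55536) (nat_lit 0) (nat_lit 21888) (XT.nd (nat_lit 55224) (nat_lit 0) (nat_lit 29868) (XT.nd (nat_lit 55068) (nat_lit 0) (nat_lit 32072) (XT.lf (nat_lit 0) (nat_lit 25804156367) (nat_lit 152) (nat_lit 51426274716) (nat_lit 0) (nat_lit 6706410613) (nat_lit 36) (nat_lit 5) (nat_lit 38) (nat_lit 4) (nat_lit 36) (nat_lit 4) (nat_lit 499) (nat_lit 397) (nat_lit 304)) (XT.nd (nat_lit 78) (nat_lit 380) (nat_lit 0) (XT.lf (nat_lit 0) (nat_lit 1724900317) (nat_lit 228) (nat_lit 759548277) (nat_lit 228) (nat_lit 759548277) (nat_lit 463) (nat_lit 4) (nat_lit 466) (nat_lit 5) (nat_lit 466) (nat_lit 4) (nat_lit 404) (nat_lit 398) (nat_lit 398)) (XT.lf (nat_lit 0) (nat_lit 3151131034) (nat_lit 304) (nat_lit 612532784) (nat_lit 380) (nat_lit 2751260587) (nat_lit 458) (nat_lit 5) (nat_lit 462) (nat_lit 5) (nat_lit 463) (nat_lit 4) (nat_lit 405) (nat_lit 398) (nat_lit 397)))) (XT.nd (nat_lit 156)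 (nat_lit 1216) (nat_lit 0) (XT.nd (nat_lit 78) (nat_lit 532) (nat_lit 0) (XT.lf (nat_lit 0) (nat_lit 2431322570) (nat_lit 456) (nat_lit 3573586114) (nat_lit 76) (nat_lit 544627695) (nat_lit 452) (nat_lit 5) (nat_lit 458) (nat_lit 5) (nat_lit 453) (nat_lit 4) (nat_lit 406) (nat_lit 398) (nat_lit 396)) (XT.lf (nat_lit 0) (nat_lit 971357656) (nat_lit 532) (nat_lit 3670902658) (nat_lit 76) (nat_lit 1949540178) (nat_lit 445) (nat_lit 5) (nat_lit 452) (nat_lit 5) (nat_lit 446) (nat_lit 5) (nat_lit 407) (nat_lit 398) (nat_lit 395))) (XT.nd (nat_lit 78) (nat_lit 684) (nat_lit 0) (XT.lf (nat_lit 0) (nat_lit 2985885297) (nat_lit 532) (nat_lit 3017358557) (nat_lit 608) (nat_lit 638542401) (nat_lit 438) (nat_lit 5) (nat_lit 445) (nat_lit 5) (nat_lit 446) (nat_lit 5) (nat_lit 408) (nat_lit 398) (nat_lit 394)) (XT.lf (nat_lit 0) (nat_lit 3166541433) (nat_lit 608) (nat_lit 1120471763) (nat_lit 684) (nat_lit 2412428725)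 (nat_lit 429) (nat_lit 5) (nat_lit 437) (nat_lit 5) (nat_lit 438) (nat_lit 5) (nat_lit 409) (nat_lit 398) (nat_lit 393))))) (XT.nd (nat_lit 234) (nat_lit 5548) (nat_lit 0) (XT.nd (nat_lit 78) (nat_lit 1672) (nat_lit 0) (XT.lf (nat_lit 0) (nat_lit 2439372534) (nat_lit 760) (nat_lit 3301639202) (nat_lit 76) (nat_lit 1023845142) (nat_lit 419) (nat_lit 5) (nat_lit 429) (nat_lit 5) (nat_lit 420) (nat_lit 5) (nat_lit 410) (nat_lit 398) (nat_lit 392)) (XT.nd (nat_lit 78) (nat_lit 836) (nat_lit 0) (XT.lf (nat_lit 0) (nat_lit 458536403) (nat_lit 836) (nat_lit 2964342213) (nat_lit 76) (nat_lit 3415171097) (nat_lit 408) (nat_lit 5) (nat_lit 419) (nat_lit 5) (nat_lit 409) (nat_lit 5) (nat_lit 411) (nat_lit 398) (nat_lit 391)) (XT.lf (nat_lit 0) (nat_lit 4393802367) (nat_lit 836) (nat_lit 820143591) (nat_lit 912) (nat_lit 1705038552) (nat_lit 397) (nat_lit 5) (nat_lit 408) (nat_lit 5) (nat_lit 409) (nat_lit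 5) (nat_lit 412) (nat_lit 398) (nat_lit 390)))) (XT.nd (nat_lit 156) (nat_lit 3496) (nat_lit 0) (XT.nd (nat_lit 78) (nat_lit 1064) (nat_lit 0) (XT.lf (nat_lit 0) (nat_lit 2991742473) (nat_lit 988) (nat_lit 1991814168) (nat_lit 76) (nat_lit 2023968293) (nat_lit 384) (nat_lit 5) (nat_lit 397) (nat_lit 5) (nat_lit 385) (nat_lit 5) (nat_lit 413) (nat_lit 398) (nat_lit 389)) (XT.lf (nat_lit 0) (nat_lit 623703775) (nat_lit 1064) (nat_lit 1348398469) (nat_lit 76) (nat_lit 5132141436) (nat_lit 370) (nat_lit 5) (nat_lit 384) (nat_lit 5) (nat_lit 371) (nat_lit 5) (nat_lit 414) (nat_lit 398) (nat_lit 388))) (XT.nd (nat_lit 78) (nat_lit 2432) (nat_lit 0) (XT.lf (nat_lit 0) (nat_lit 5279236326) (nat_lit 1140) (nat_lit 616179539) (nat_lit 76) (nat_lit 1313189376) (nat_lit 356) (nat_lit 5) (nat_lit 371) (nat_lit 5) (nat_lit 357) (nat_lit 5) (nat_lit 415) (nat_lit 398) (nat_lit 387)) (XT.lf (nat_lit 0) (nat_lit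 213777385) (nat_lit 1216) (nat_lit 2465929810) (nat_lit 1292) (nat_lit 4641089963) (nat_lit 324) (nat_lit 5) (nat_lit 340) (nat_lit 5) (nat_lit 341) (nat_lit 5) (nat_lit 416) (nat_lit 398) (nat_lit 386))))))))
noncomputable def xc43 : XT := (XT.nd (nat_lit 2028) (nat_lit 5396) (nat_lit 0) (XT.nd (nat_lit 1014) (nat_lit 4788) (nat_lit 0) (XT.nd (nat_lit 468) (nat_lit 4256) (nat_lit 0) (XT.nd (nat_lit 234) (nat_lit 1748) (nat_lit 0) (XT.nd (nat_lit 78) (nat_lit 1368) (nat_lit 0) (XT.lf (nat_lit 0) (nat_lit 1166980446) (nat_lit 836) (nat_lit 6205724972) (nat_lit 912) (nat_lit 68530872) (nat_lit 313) (nat_lit 5) (nat_lit 324) (nat_lit 5) (nat_lit 325) (nat_lit 5) (nat_lit 417) (nat_lit 398) (nat_lit 385)) (XT.nd (nat_lit 78) (nat_lit 684) (nat_lit 0) (XT.lf (nat_lit 0) (nat_lit 2191840983) (nat_lit 608) (nat_lit 2357442138) (nat_lit 684) (nat_lit 3019791047) (nat_lit 304) (nat_lit 5) (nat_lit 312) (nat_lit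 5) (nat_lit 313) (nat_lit 5) (nat_lit 418) (nat_lit 398) (nat_lit 384)) (XT.lf (nat_lit 0) (nat_lit 1569953905) (nat_lit 684) (nat_lit 4379983798) (nat_lit 76) (nat_lit 1755576402) (nat_lit 295) (nat_lit 5) (nat_lit 304) (nat_lit 5) (nat_lit 296) (nat_lit 5) (nat_lit 419) (nat_lit 398) (nat_lit 383)))) (XT.nd (nat_lit 78) (nat_lit 1216) (nat_lit 0) (XT.lf (nat_lit 0) (nat_lit 4547599923) (nat_lit 532) (nat_lit 1705878565) (nat_lit 608) (nat_lit 1596607819) (nat_lit 288) (nat_lit 5) (nat_lit 295) (nat_lit 5) (nat_lit 296) (nat_lit 5) (nat_lit 420) (nat_lit 398) (nat_lit 382)) (XT.nd (nat_lit 78) (nat_lit 532) (nat_lit 0) (XT.lf (nat_lit 0) (nat_lit 3045342332) (nat_lit 684) (nat_lit 2147427225) (nat_lit 76) (nat_lit 2810075669) (nat_lit 279) (nat_lit 5) (nat_lit 288) (nat_lit 5) (nat_lit 280) (nat_lit 5) (nat_lit 421) (nat_lit 398) (nat_lit 381)) (XT.lf (nat_lit 0) (nat_lit 7274382957) (nat_lit 532)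 (nat_lit 548955764) (nat_lit 608) (nat_lit 341328533) (nat_lit 272) (nat_lit 5) (nat_lit 279) (nat_lit 5) (nat_lit 280) (nat_lit 5) (nat_lit 422) (nat_lit 398) (nat_lit 380))))) (XT.nd (nat_lit 234) (nat_lit 2204) (nat_lit 0) (XT.nd (nat_lit 78) (nat_lit 988) (nat_lit 0) (XT.lf (nat_lit 0) (nat_lit 427016870) (nat_lit 456) (nat_lit 3964741166) (nat_lit 532) (nat_lit 3942310099) (nat_lit 258) (nat_lit 5) (nat_lit 264) (nat_lit 5) (nat_lit 265) (nat_lit 5) (nat_lit 423) (nat_lit 398) (nat_lit 379)) (XT.nd (nat_lit 78) (nat_lit 456) (nat_lit 0) (XT.lf (nat_lit 0) (nat_lit 786949362) (nat_lit 532) (nat_lit 6638434267) (nat_lit 76) (nat_lit 1087394618) (nat_lit 251) (nat_lit 5) (nat_lit 258) (nat_lit 5) (nat_lit 252) (nat_lit 5) (nat_lit 424) (nat_lit 398) (nat_lit 378)) (XT.lf (nat_lit 0) (nat_lit 3382890051) (nat_lit 456) (nat_lit 2272556452) (nat_lit 532) (nat_lit 3044284046) (nat_lit 245) (nat_lit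 5) (nat_lit 251) (nat_lit 5) (nat_lit 252) (nat_lit 5) (nat_lit 425) (nat_lit 398) (nat_lit 377)))) (XT.nd (nat_lit 156) (nat_lit 1292) (nat_lit 0) (XT.nd (nat_lit 78) (nat_lit 380) (nat_lit 0) (XT.lf (nat_lit 0) (nat_lit 1816455885) (nat_lit 532) (nat_lit 3910523399) (nat_lit 76) (nat_lit 3169068875) (nat_lit 238) (nat_lit 5) (nat_lit 245) (nat_lit 5) (nat_lit 239) (nat_lit 5) (nat_lit 426) (nat_lit 398) (nat_lit 376)) (XT.lf (nat_lit 0) (nat_lit 6679643999) (nat_lit 380) (nat_lit 159482088) (nat_lit 456) (nat_lit 2262701785) (nat_lit 233) (nat_lit 5) (nat_lit 238) (nat_lit 5) (nat_lit 239) (nat_lit 5) (nat_lit 427) (nat_lit 398) (nat_lit 375))) (XT.nd (nat_lit 78) (nat_lit 760) (nat_lit 0) (XT.lf (nat_lit 0) (nat_lit 2761483331) (nat_lit 532) (nat_lit 878104255) (nat_lit 76) (nat_lit 5676878837) (nat_lit 226) (nat_lit 5) (nat_lit 233) (nat_lit 5) (nat_lit 227) (nat_lit 5) (nat_lit 428) (nat_lit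 398) (nat_lit 374)) (XT.lf (nat_lit 0) (nat_lit 773385245) (nat_lit 380) (nat_lit 7221333869) (nat_lit 456) (nat_lit 1546311923) (nat_lit 216) (nat_lit 5) (nat_lit 221) (nat_lit 5) (nat_lit 222) (nat_lit 5) (nat_lit 429) (nat_lit 398) (nat_lit 373)))))) (XT.nd (nat_lit 468) (nat_lit 2204) (nat_lit 0) (XT.nd (nat_lit 234) (nat_lit 1368) (nat_lit 0) (XT.nd (nat_lit 78) (nat_lit 760) (nat_lit 0) (XT.lf (nat_lit 0) (nat_lit 2513401837) (nat_lit 380) (nat_lit 1152635724) (nat_lit 456) (nat_lit 6108949737) (nat_lit 210) (nat_lit 5) (nat_lit 215) (nat_lit 5) (nat_lit 216) (nat_lit 5) (nat_lit 430) (nat_lit 398) (nat_lit 372)) (XT.nd (nat_lit 78) (nat_lit 380) (nat_lit 0) (XT.lf (nat_lit 0) (nat_lit 4333538786) (nat_lit 380) (nat_lit 4810814479) (nat_lit 456) (nat_lit 874713653) (nat_lit 205) (nat_lit 5) (nat_lit 210) (nat_lit 5) (nat_lit 211) (nat_lit 5) (nat_lit 431) (nat_lit 398) (nat_lit 371)) (XT.lf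 (nat_lit 0) (nat_lit 4552343854) (nat_lit 380) (nat_lit 4043168697) (nat_lit 76) (nat_lit 1677871064) (nat_lit 200) (nat_lit 5) (nat_lit 205) (nat_lit 5) (nat_lit 201) (nat_lit 5) (nat_lit 432) (nat_lit 398) (nat_lit 370)))) (XT.nd (nat_lit 78) (nat_lit 1064) (nat_lit 0) (XT.lf (nat_lit 0) (nat_lit 8221698996) (nat_lit 304) (nat_lit 2059759717) (nat_lit 380) (nat_lit 257237919) (nat_lit 196) (nat_lit 5) (nat_lit 200) (nat_lit 5) (nat_lit 201) (nat_lit 5) (nat_lit 433) (nat_lit 398) (nat_lit 369)) (XT.nd (nat_lit 78) (nat_lit 684) (nat_lit 0) (XT.lf (nat_lit 0) (nat_lit 5426782791) (nat_lit 380) (nat_lit 546001811) (nat_lit 76) (nat_lit 4841295538) (nat_lit 191) (nat_lit 5) (nat_lit 196) (nat_lit 5) (nat_lit 192) (nat_lit 5) (nat_lit 434) (nat_lit 398) (nat_lit 368)) (XT.lf (nat_lit 0) (nat_lit 338328094) (nat_lit 380) (nat_lit 9739627423) (nat_lit 76) (nat_lit 1023400082) (nat_lit 182) (nat_lit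 5) (nat_lit 187) (nat_lit 5) (nat_lit 183) (nat_lit 5) (nat_lit 435) (nat_lit 398) (nat_lit 367))))) (XT.nd (nat_lit 234) (nat_lit 1292) (nat_lit 0) (XT.nd (nat_lit 78) (nat_lit 608) (nat_lit 0) (XT.lf (nat_lit 0) (nat_lit 3317209785) (nat_lit 304) (nat_lit 3008563030) (nat_lit 380) (nat_lit 5073016539) (nat_lit 178) (nat_lit 5) (nat_lit 182) (nat_lit 5) (nat_lit 183) (nat_lit 5) (nat_lit 436) (nat_lit 398) (nat_lit 366)) (XT.nd (nat_lit 78) (nat_lit 304) (nat_lit 0) (XT.lf (nat_lit 0) (nat_lit 953494419) (nat_lit 304) (nat_lit 6332834609) (nat_lit 76) (nat_lit 4422421193) (nat_lit 174) (nat_lit 5) (nat_lit 178) (nat_lit 5) (nat_lit 175) (nat_lit 5) (nat_lit 437) (nat_lit 398) (nat_lit 365)) (XT.lf (nat_lit 0) (nat_lit 7243014402) (nat_lit 380) (nat_lit 4520972748) (nat_lit 76) (nat_lit 266720086) (nat_lit 170) (nat_lit 5) (nat_lit 175) (nat_lit 5) (nat_lit 171) (nat_lit 5) (nat_lit 438) (nat_lit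 398) (nat_lit 364)))) (XT.nd (nat_lit 156) (nat_lit 760) (nat_lit 0) (XT.nd (nat_lit 78) (nat_lit 228) (nat_lit 0) (XT.lf (nat_lit 0) (nat_lit 1563258653) (nat_lit 304) (nat_lit 2647550161) (nat_lit 76) (nat_lit 8154114052) (nat_lit 166) (nat_lit 5) (nat_lit 170) (nat_lit 5) (nat_lit 167) (nat_lit 5) (nat_lit 439) (nat_lit 398) (nat_lit 363)) (XT.lf (nat_lit 0) (nat_lit 8216173500) (nat_lit 304) (nat_lit 705659665) (nat_lit 76) (nat_lit 3790093667) (nat_lit 163) (nat_lit 5) (nat_lit 167) (nat_lit 5) (nat_lit 164) (nat_lit 5) (nat_lit 440) (nat_lit 398) (nat_lit 362))) (XT.nd (nat_lit 78) (nat_lit 228) (nat_lit 0) (XT.lf (nat_lit 0) (nat_lit 1356322119) (nat_lit 228) (nat_lit 836031455) (nat_lit 304) (nat_lit 10880065640) (nat_lit 156) (nat_lit 5) (nat_lit 159) (nat_lit 5) (nat_lit 160) (nat_lit 5) (nat_lit 441) (nat_lit 398) (nat_lit 361)) (XT.lf (nat_lit 0) (nat_lit 3475462706) (nat_lit 228) (nat_lit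 5787133711) (nat_lit 304) (nat_lit 4182785442) (nat_lit 153) (nat_lit 5) (nat_lit 156) (nat_lit 5) (nat_lit 157) (nat_lit 5) (nat_lit 442) (nat_lit 398) (nat_lit 360))))))) (XT.nd (nat_lit 1014) (nat_lit 2432) (nat_lit 0) (XT.nd (nat_lit 468) (nat_lit 1368) (nat_lit 0) (XT.nd (nat_lit 234) (nat_lit 836) (nat_lit 0) (XT.nd (nat_lit 78) (nat_lit 456) (nat_lit 0) (XT.lf (nat_lit 0) (nat_lit 2894902341) (nat_lit 304) (nat_lit 8135346971) (nat_lit 76) (nat_lit 2802889420) (nat_lit 149) (nat_lit 5) (nat_lit 153) (nat_lit 5) (nat_lit 150) (nat_lit 5) (nat_lit 443) (nat_lit 398) (nat_lit 359)) (XT.nd (nat_lit 78) (nat_lit 304) (nat_lit 0) (XT.lf (nat_lit 0) (nat_lit 7990437933) (nat_lit 152) (nat_lit 2380453041) (nat_lit 228) (nat_lit 3864224407) (nat_lit 147) (nat_lit 5) (nat_lit 149) (nat_lit 5) (nat_lit 150) (nat_lit 5) (nat_lit 444) (nat_lit 398) (nat_lit 358)) (XT.lf (nat_lit 0) (nat_lit 3638287617)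 (nat_lit 304) (nat_lit 4294206351) (nat_lit 76) (nat_lit 6719341063) (nat_lit 143) (nat_lit 5) (nat_lit 147) (nat_lit 5) (nat_lit 144) (nat_lit 5) (nat_lit 445) (nat_lit 398) (nat_lit 357)))) (XT.nd (nat_lit 78) (nat_lit 684) (nat_lit 0) (XT.lf (nat_lit 0) (nat_lit 11557953134) (nat_lit 228) (nat_lit 2255336033) (nat_lit 76) (nat_lit 1271297118) (nat_lit 141) (nat_lit 5) (nat_lit 144) (nat_lit 5) (nat_lit 142) (nat_lit 5) (nat_lit 446) (nat_lit 398) (nat_lit 356)) (XT.nd (nat_lit 78) (nat_lit 380) (nat_lit 0) (XT.lf (nat_lit 0) (nat_lit 4423465057) (nat_lit 304) (nat_lit 171243913) (nat_lit 76) (nat_lit 10937815100) (nat_lit 137) (nat_lit 5) (nat_lit 141) (nat_lit 5) (nat_lit 138) (nat_lit 5) (nat_lit 447) (nat_lit 398) (nat_lit 355)) (XT.lf (nat_lit 0) (nat_lit 2038409431) (nat_lit 228) (nat_lit 10828538253) (nat_lit 304) (nat_lit 3129800650) (nat_lit 132) (nat_lit 5) (nat_lit 135) (nat_lit 5)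 (nat_lit 136) (nat_lit 5) (nat_lit 448) (nat_lit 398) (nat_lit 354))))) (XT.nd (nat_lit 234) (nat_lit 760) (nat_lit 0) (XT.nd (nat_lit 78) (nat_lit 380) (nat_lit 0) (XT.lf (nat_lit 0) (nat_lit 4331655859) (nat_lit 152) (nat_lit 968367689) (nat_lit 228) (nat_lit 11178027634) (nat_lit 129) (nat_lit 5) (nat_lit 131) (nat_lit 5) (nat_lit 132) (nat_lit 5) (nat_lit 449) (nat_lit 398) (nat_lit 353)) (XT.nd (nat_lit 78) (nat_lit 228) (nat_lit 0) (XT.lf (nat_lit 0) (nat_lit 6684080143) (nat_lit 152) (nat_lit 7605999727) (nat_lit 228) (nat_lit 2686306946) (nat_lit 127) (nat_lit 5) (nat_lit 129) (nat_lit 5) (nat_lit 130) (nat_lit 5) (nat_lit 450) (nat_lit 398) (nat_lit 352)) (XT.lf (nat_lit 0) (nat_lit 6265847552) (nat_lit 228) (nat_lit 8369074613) (nat_lit 76) (nat_lit 2858199228) (nat_lit 124) (nat_lit 5) (nat_lit 127) (nat_lit 5) (nat_lit 125) (nat_lit 5) (nat_lit 451) (nat_lit 398) (nat_lit 351)))) (XT.nd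 (nat_lit 156) (nat_lit 380) (nat_lit 0) (XT.nd (nat_lit 78) (nat_lit 228) (nat_lit 0) (XT.lf (nat_lit 0) (nat_lit 11650154812) (nat_lit 152) (nat_lit 4163771061) (nat_lit 228) (nat_lit 2214853942) (nat_lit 122) (nat_lit 5) (nat_lit 124) (nat_lit 5) (nat_lit 125) (nat_lit 5) (nat_lit 452) (nat_lit 398) (nat_lit 350)) (XT.lf (nat_lit 0) (nat_lit 7308673441) (nat_lit 228) (nat_lit 4350906060) (nat_lit 76) (nat_lit 6923494827) (nat_lit 119) (nat_lit 5) (nat_lit 122) (nat_lit 5) (nat_lit 120) (nat_lit 5) (nat_lit 453) (nat_lit 398) (nat_lit 349))) (XT.nd (nat_lit 78) (nat_lit 228) (nat_lit 0) (XT.lf (nat_lit 0) (nat_lit 16949037176) (nat_lit 152) (nat_lit 496887786) (nat_lit 228) (nat_lit 1713001172) (nat_lit 117) (nat_lit 5) (nat_lit 119) (nat_lit 5) (nat_lit 120) (nat_lit 5) (nat_lit 454) (nat_lit 398) (nat_lit 348)) (XT.lf (nat_lit 0) (nat_lit 8423322406) (nat_lit 228) (nat_lit 76128005) (nat_lit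 76) (nat_lit 11253939941) (nat_lit 114) (nat_lit 5) (nat_lit 117) (nat_lit 5) (nat_lit 115) (nat_lit 5) (nat_lit 455) (nat_lit 398) (nat_lit 347)))))) (XT.nd (nat_lit 546) (nat_lit 1140) (nat_lit 0) (XT.nd (nat_lit 234) (nat_lit 684) (nat_lit 0) (XT.nd (nat_lit 78) (nat_lit 304) (nat_lit 0) (XT.lf (nat_lit 0) (nat_lit 2230155142) (nat_lit 152) (nat_lit 17015986898) (nat_lit 228) (nat_lit 1124474658) (nat_lit 110) (nat_lit 5) (nat_lit 112) (nat_lit 5) (nat_lit 113) (nat_lit 4) (nat_lit 456) (nat_lit 398) (nat_lit 346)) (XT.nd (nat_lit 78) (nat_lit 76) (nat_lit 0) (XT.lf (nat_lit 0) (nat_lit 4548114031) (nat_lit 152) (nat_lit 5107695021) (nat_lit 228) (nat_lit 11352583027) (nat_lit 107) (nat_lit 5) (nat_lit 109) (nat_lit 5) (nat_lit 110) (nat_lit 5) (nat_lit 457) (nat_lit 398) (nat_lit 345)) (XT.lf (nat_lit 0) (nat_lit 6975373650) (nat_lit 76) (nat_lit 14220436817) (nat_lit 152) (nat_lit 474593813)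 (nat_lit 106) (nat_lit 5) (nat_lit 107) (nat_lit 5) (nat_lit 108) (nat_lit 4) (nat_lit 458) (nat_lit 398) (nat_lit 344)))) (XT.nd (nat_lit 156) (nat_lit 304) (nat_lit 0) (XT.nd (nat_lit 78) (nat_lit 152) (nat_lit 0) (XT.lf (nat_lit 0) (nat_lit 9440712309) (nat_lit 152) (nat_lit 1525108585) (nat_lit 228) (nat_lit 11389575591) (nat_lit 103) (nat_lit 5) (nat_lit 105) (nat_lit 5) (nat_lit 106) (nat_lit 5) (nat_lit 459) (nat_lit 398) (nat_lit 343)) (XT.lf (nat_lit 0) (nat_lit 201077455) (nat_lit 152) (nat_lit 11081827277) (nat_lit 76) (nat_lit 11782471969) (nat_lit 101) (nat_lit 5) (nat_lit 103) (nat_lit 5) (nat_lit 102) (nat_lit 5) (nat_lit 460) (nat_lit 398) (nat_lit 342))) (XT.nd (nat_lit 78) (nat_lit 152) (nat_lit 0) (XT.lf (nat_lit 0) (nat_lit 12371620108) (nat_lit 228) (nat_lit 9225814560) (nat_lit 76) (nat_lit 2202961572) (nat_lit 99) (nat_lit 5) (nat_lit 102) (nat_lit 5) (nat_lit 100) (nat_lit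 4) (nat_lit 461) (nat_lit 398) (nat_lit 341)) (XT.lf (nat_lit 0) (nat_lit 889202731) (nat_lit 152) (nat_lit 7316472265) (nat_lit 76) (nat_lit 16356666496) (nat_lit 97) (nat_lit 5) (nat_lit 99) (nat_lit 5) (nat_lit 98) (nat_lit 5) (nat_lit 462) (nat_lit 398) (nat_lit 340))))) (XT.nd (nat_lit 234) (nat_lit 684) (nat_lit 0) (XT.nd (nat_lit 78) (nat_lit 304) (nat_lit 0) (XT.lf (nat_lit 0) (nat_lit 13862212582) (nat_lit 228) (nat_lit 5404500449) (nat_lit 76) (nat_lit 6084011986) (nat_lit 95) (nat_lit 5) (nat_lit 98) (nat_lit 5) (nat_lit 96) (nat_lit 4) (nat_lit 463) (nat_lit 398) (nat_lit 339)) (XT.nd (nat_lit 78) (nat_lit 152) (nat_lit 0) (XT.lf (nat_lit 0) (nat_lit 1587695484) (nat_lit 152) (nat_lit 3413865615) (nat_lit 76) (nat_lit 21167356072) (nat_lit 93) (nat_lit 5) (nat_lit 95) (nat_lit 5) (nat_lit 94) (nat_lit 5) (nat_lit 464) (nat_lit 398) (nat_lit 338)) (XT.lf (nat_lit 0) (nat_lit 15413087256)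 (nat_lit 228) (nat_lit 1459531304) (nat_lit 76) (nat_lit 10141999264) (nat_lit 91) (nat_lit 5) (nat_lit 94) (nat_lit 5) (nat_lit 92) (nat_lit 4) (nat_lit 465) (nat_lit 398) (nat_lit 337)))) (XT.nd (nat_lit 156) (nat_lit 304) (nat_lit 0) (XT.nd (nat_lit 78) (nat_lit 76) (nat_lit 0) (XT.lf (nat_lit 0) (nat_lit 610095011) (nat_lit 152) (nat_lit 1676347482) (nat_lit 228) (nat_lit 25606611291) (nat_lit 87) (nat_lit 5) (nat_lit 89) (nat_lit 5) (nat_lit 90) (nat_lit 5) (nat_lit 466) (nat_lit 398) (nat_lit 336)) (XT.lf (nat_lit 0) (nat_lit 2627648858) (nat_lit 76) (nat_lit 14407192477) (nat_lit 152) (nat_lit 11764945735) (nat_lit 86) (nat_lit 5) (nat_lit 87) (nat_lit 5) (nat_lit 88) (nat_lit 4) (nat_lit 467) (nat_lit 398) (nat_lit 335))) (XT.nd (nat_lit 78) (nat_lit 76) (nat_lit 0) (XT.lf (nat_lit 0) (nat_lit 3009341098) (nat_lit 228) (nat_lit 24985074258) (nat_lit 76) (nat_lit 1747806610) (nat_lit 83)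 (nat_lit 5) (nat_lit 86) (nat_lit 5) (nat_lit 84) (nat_lit 4) (nat_lit 468) (nat_lit 398) (nat_lit 334)) (XT.lf (nat_lit 0) (nat_lit 6791657359) (nat_lit 76) (nat_lit 11904851478) (nat_lit 152) (nat_lit 12019251128) (nat_lit 82) (nat_lit 5) (nat_lit 83) (nat_lit 5) (nat_lit 84) (nat_lit 4) (nat_lit 469) (nat_lit 398) (nat_lit 333))))))))
noncomputable def xc44 : XT := (XT.nd (nat_lit 2028) (nat_lit 304) (nat_lit 0) (XT.nd (nat_lit 1014) (nat_lit 1444) (nat_lit 0) (XT.nd (nat_lit 468) (nat_lit 836) (nat_lit 0) (XT.nd (nat_lit 234) (nat_lit 304) (nat_lit 0) (XT.nd (nat_lit 78) (nat_lit 228) (nat_lit 0) (XT.lf (nat_lit 0) (nat_lit 3693914040) (nat_lit 228) (nat_lit 22819049603) (nat_lit 76) (nat_lit 5214098842) (nat_lit 79) (nat_lit 5) (nat_lit 82) (nat_lit 5) (nat_lit 80) (nat_lit 4) (nat_lit 470) (nat_lit 398) (nat_lit 332)) (XT.nd (nat_lit 78) (nat_lit 152) (nat_lit 0) (XT.lf (nat_lit 0) (nat_lit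 10944345761) (nat_lit 76) (nat_lit 9411376005) (nat_lit 152) (nat_lit 12417291825) (nat_lit 78) (nat_lit 5) (nat_lit 79) (nat_lit 5) (nat_lit 80) (nat_lit 4) (nat_lit 471) (nat_lit 398) (nat_lit 331)) (XT.lf (nat_lit 0) (nat_lit 4286872419) (nat_lit 152) (nat_lit 20846176232) (nat_lit 76) (nat_lit 8725511380) (nat_lit 76) (nat_lit 5) (nat_lit 78) (nat_lit 5) (nat_lit 77) (nat_lit 4) (nat_lit 472) (nat_lit 398) (nat_lit 330)))) (XT.nd (nat_lit 78) (nat_lit 228) (nat_lit 0) (XT.lf (nat_lit 0) (nat_lit 15009465533) (nat_lit 76) (nat_lit 6966344758) (nat_lit 152) (nat_lit 13006694294) (nat_lit 75) (nat_lit 5) (nat_lit 76) (nat_lit 5) (nat_lit 77) (nat_lit 4) (nat_lit 473) (nat_lit 398) (nat_lit 329)) (XT.nd (nat_lit 78) (nat_lit 76) (nat_lit 0) (XT.lf (nat_lit 0) (nat_lit 4741176869) (nat_lit 152) (nat_lit 19163578263) (nat_lit 76) (nat_lit 12243419776) (nat_lit 73) (nat_lit 5) (nat_lit 75) (nat_lit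 5) (nat_lit 74) (nat_lit 4) (nat_lit 474) (nat_lit 398) (nat_lit 328)) (XT.lf (nat_lit 0) (nat_lit 18890053401) (nat_lit 76) (nat_lit 4619703692) (nat_lit 152) (nat_lit 13846439140) (nat_lit 72) (nat_lit 5) (nat_lit 73) (nat_lit 5) (nat_lit 74) (nat_lit 4) (nat_lit 475) (nat_lit 398) (nat_lit 327))))) (XT.nd (nat_lit 234) (nat_lit 456) (nat_lit 0) (XT.nd (nat_lit 78) (nat_lit 228) (nat_lit 0) (XT.lf (nat_lit 0) (nat_lit 4997988992) (nat_lit 152) (nat_lit 17892064190) (nat_lit 76) (nat_lit 15718377906) (nat_lit 70) (nat_lit 5) (nat_lit 72) (nat_lit 5) (nat_lit 71) (nat_lit 4) (nat_lit 476) (nat_lit 398) (nat_lit 326)) (XT.nd (nat_lit 78) (nat_lit 152) (nat_lit 0) (XT.lf (nat_lit 0) (nat_lit 22464210332) (nat_lit 76) (nat_lit 2433925873) (nat_lit 152) (nat_lit 15009033025) (nat_lit 69) (nat_lit 5) (nat_lit 70) (nat_lit 5) (nat_lit 71) (nat_lit 4) (nat_lit 477) (nat_lit 398) (nat_lit 325)) (XT.lf (nat_lit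 0) (nat_lit 4984379980) (nat_lit 152) (nat_lit 17180812470) (nat_lit 76) (nat_lit 19087842399) (nat_lit 67) (nat_lit 5) (nat_lit 69) (nat_lit 5) (nat_lit 68) (nat_lit 4) (nat_lit 478) (nat_lit 398) (nat_lit 324)))) (XT.nd (nat_lit 156) (nat_lit 228) (nat_lit 0) (XT.nd (nat_lit 78) (nat_lit 152) (nat_lit 0) (XT.lf (nat_lit 0) (nat_lit 25580111036) (nat_lit 76) (nat_lit 486559574) (nat_lit 152) (nat_lit 16583076722) (nat_lit 66) (nat_lit 5) (nat_lit 67) (nat_lit 5) (nat_lit 68) (nat_lit 4) (nat_lit 479) (nat_lit 398) (nat_lit 323)) (XT.lf (nat_lit 0) (nat_lit 4610620239) (nat_lit 152) (nat_lit 17212903506) (nat_lit 76) (nat_lit 22273485726) (nat_lit 64) (nat_lit 5) (nat_lit 66) (nat_lit 5) (nat_lit 65) (nat_lit 4) (nat_lit 480) (nat_lit 398) (nat_lit 322))) (XT.nd (nat_lit 78) (nat_lit 152) (nat_lit 0) (XT.lf (nat_lit 0) (nat_lit 26934173283) (nat_lit 152) (nat_lit 17560362774) (nat_lit 0) (nat_lit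 1104779141) (nat_lit 63) (nat_lit 5) (nat_lit 65) (nat_lit 4) (nat_lit 63) (nat_lit 4) (nat_lit 481) (nat_lit 398) (nat_lit 321)) (XT.lf (nat_lit 0) (nat_lit 3766977202) (nat_lit 152) (nat_lit 18211846394) (nat_lit 76) (nat_lit 25178024867) (nat_lit 61) (nat_lit 5) (nat_lit 63) (nat_lit 5) (nat_lit 62) (nat_lit 4) (nat_lit 482) (nat_lit 398) (nat_lit 320)))))) (XT.nd (nat_lit 468) (nat_lit 836) (nat_lit 0) (XT.nd (nat_lit 234) (nat_lit 304) (nat_lit 0) (XT.nd (nat_lit 78) (nat_lit 228) (nat_lit 0) (XT.lf (nat_lit 0) (nat_lit 27376976869) (nat_lit 152) (nat_lit 19152331894) (nat_lit 0) (nat_lit 2244136744) (nat_lit 60) (nat_lit 5) (nat_lit 62) (nat_lit 4) (nat_lit 60) (nat_lit 4) (nat_lit 483) (nat_lit 398) (nat_lit 319)) (XT.nd (nat_lit 78) (nat_lit 76) (nat_lit 0) (XT.lf (nat_lit 0) (nat_lit 2319935936) (nat_lit 152) (nat_lit 20449274206) (nat_lit 76) (nat_lit 27681479992) (nat_lit 58) (nat_lit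 5) (nat_lit 60) (nat_lit 5) (nat_lit 59) (nat_lit 4) (nat_lit 484) (nat_lit 398) (nat_lit 318)) (XT.lf (nat_lit 0) (nat_lit 27250664041) (nat_lit 152) (nat_lit 22139900370) (nat_lit 0) (nat_lit 2800746889) (nat_lit 57) (nat_lit 5) (nat_lit 59) (nat_lit 4) (nat_lit 57) (nat_lit 4) (nat_lit 485) (nat_lit 398) (nat_lit 317)))) (XT.nd (nat_lit 78) (nat_lit 152) (nat_lit 0) (XT.lf (nat_lit 0) (nat_lit 107742421) (nat_lit 152) (nat_lit 24254011416) (nat_lit 76) (nat_lit 29636762941) (nat_lit 55) (nat_lit 5) (nat_lit 57) (nat_lit 5) (nat_lit 56) (nat_lit 4) (nat_lit 486) (nat_lit 398) (nat_lit 316)) (XT.nd (nat_lit 78) (nat_lit 76) (nat_lit 0) (XT.lf (nat_lit 0) (nat_lit 26385252173) (nat_lit 152) (nat_lit 26884417827) (nat_lit 0) (nat_lit 2604229205) (nat_lit 54) (nat_lit 5) (nat_lit 56) (nat_lit 4) (nat_lit 54) (nat_lit 4) (nat_lit 487) (nat_lit 398) (nat_lit 315)) (XT.lf (nat_lit 0) (nat_lit 27768681392)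 (nat_lit 76) (nat_lit 26926955216) (nat_lit 76) (nat_lit 3125844291) (nat_lit 53) (nat_lit 4) (nat_lit 54) (nat_lit 5) (nat_lit 54) (nat_lit 4) (nat_lit 488) (nat_lit 398) (nat_lit 314))))) (XT.nd (nat_lit 234) (nat_lit 456) (nat_lit 0) (XT.nd (nat_lit 78) (nat_lit 228) (nat_lit 0) (XT.lf (nat_lit 0) (nat_lit 24574853477) (nat_lit 152) (nat_lit 33821135128) (nat_lit 0) (nat_lit 1448404631) (nat_lit 51) (nat_lit 5) (nat_lit 53) (nat_lit 4) (nat_lit 51) (nat_lit 4) (nat_lit 489) (nat_lit 398) (nat_lit 313)) (XT.nd (nat_lit 78) (nat_lit 152) (nat_lit 0) (XT.lf (nat_lit 0) (nat_lit 23638989252) (nat_lit 76) (nat_lit 30724818024) (nat_lit 76) (nat_lit 7580679500) (nat_lit 50) (nat_lit 4) (nat_lit 51) (nat_lit 5) (nat_lit 51) (nat_lit 4) (nat_lit 490) (nat_lit 398) (nat_lit 312)) (XT.lf (nat_lit 0) (nat_lit 20646373099) (nat_lit 76) (nat_lit 933606671) (nat_lit 152) (nat_lit 42548204684) (nat_lit 48)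 (nat_lit 5) (nat_lit 49) (nat_lit 5) (nat_lit 50) (nat_lit 4) (nat_lit 491) (nat_lit 398) (nat_lit 311)))) (XT.nd (nat_lit 156) (nat_lit 228) (nat_lit 0) (XT.nd (nat_lit 78) (nat_lit 152) (nat_lit 0) (XT.lf (nat_lit 0) (nat_lit 16808333242) (nat_lit 76) (nat_lit 36044069304) (nat_lit 76) (nat_lit 13542097560) (nat_lit 47) (nat_lit 4) (nat_lit 48) (nat_lit 5) (nat_lit 48) (nat_lit 4) (nat_lit 492) (nat_lit 398) (nat_lit 310)) (XT.lf (nat_lit 0) (nat_lit 12240330581) (nat_lit 76) (nat_lit 4881412401) (nat_lit 152) (nat_lit 51631386306) (nat_lit 45) (nat_lit 5) (nat_lit 46) (nat_lit 5) (nat_lit 47) (nat_lit 4) (nat_lit 493) (nat_lit 398) (nat_lit 309))) (XT.nd (nat_lit 78) (nat_lit 152) (nat_lit 0) (XT.lf (nat_lit 0) (nat_lit 6618334378) (nat_lit 76) (nat_lit 43228886981) (nat_lit 76) (nat_lit 21354190735) (nat_lit 44) (nat_lit 4) (nat_lit 45) (nat_lit 5) (nat_lit 45) (nat_lit 4) (nat_lit 494) (nat_lit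 398) (nat_lit 308)) (XT.lf (nat_lit 0) (nat_lit 98985924) (nat_lit 76) (nat_lit 10731923856) (nat_lit 152) (nat_lit 62920258393) (nat_lit 42) (nat_lit 5) (nat_lit 43) (nat_lit 5) (nat_lit 44) (nat_lit 4) (nat_lit 495) (nat_lit 398) (nat_lit 307))))))) (XT.nd (nat_lit 55848) (nat_lit 0) (nat_lit 16644) (XT.nd (nat_lit 55302) (nat_lit 0) (nat_lit 28956) (XT.nd (nat_lit 234) (nat_lit 76) (nat_lit 0) (XT.nd (nat_lit 78) (nat_lit 228) (nat_lit 0) (XT.lf (nat_lit 0) (nat_lit 45044742584) (nat_lit 152) (nat_lit 7569084179) (nat_lit 0) (nat_lit 23782409099) (nat_lit 42) (nat_lit 5) (nat_lit 44) (nat_lit 4) (nat_lit 42) (nat_lit 4) (nat_lit 496) (nat_lit 398) (nat_lit 306)) (XT.nd (nat_lit 78) (nat_lit 76) (nat_lit 0) (XT.lf (nat_lit 0) (nat_lit 2442572433) (nat_lit 152) (nat_lit 16315416352) (nat_lit 76) (nat_lit 60394593280) (nat_lit 40) (nat_lit 5) (nat_lit 42) (nat_lit 5) (nat_lit 41) (nat_lit 4) (nat_lit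 497) (nat_lit 398) (nat_lit 305)) (XT.lf (nat_lit 0) (nat_lit 38030452172) (nat_lit 152) (nat_lit 26618803696) (nat_lit 0) (nat_lit 17365602222) (nat_lit 39) (nat_lit 5) (nat_lit 41) (nat_lit 4) (nat_lit 39) (nat_lit 4) (nat_lit 498) (nat_lit 398) (nat_lit 304)))) (XT.nd (nat_lit 54912) (nat_lit 0) (nat_lit 32528) (XT.lf (nat_lit 0) (nat_lit 46666582020) (nat_lit 76) (nat_lit 29502749544) (nat_lit 76) (nat_lit 8827768243) (nat_lit 38) (nat_lit 4) (nat_lit 39) (nat_lit 5) (nat_lit 39) (nat_lit 4) (nat_lit 499) (nat_lit 398) (nat_lit 303)) (XT.nd (nat_lit 78) (nat_lit 228) (nat_lit 0) (XT.lf (nat_lit 0) (nat_lit 2279986356) (nat_lit 76) (nat_lit 473393941) (nat_lit 76) (nat_lit 473393941) (nat_lit 469) (nat_lit 4) (nat_lit 470) (nat_lit 5) (nat_lit 470) (nat_lit 4) (nat_lit 402) (nat_lit 399) (nat_lit 399)) (XT.lf (nat_lit 0) (nat_lit 3878013906) (nat_lit 152) (nat_lit 423947968) (nat_lit 228) (nat_lit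 2166893450) (nat_lit 466) (nat_lit 5) (nat_lit 468) (nat_lit 5) (nat_lit 469) (nat_lit 4) (nat_lit 403) (nat_lit 399) (nat_lit 398))))) (XT.nd (nat_lit 234) (nat_lit 2508) (nat_lit 0) (XT.nd (nat_lit 78) (nat_lit 760) (nat_lit 0) (XT.lf (nat_lit 0) (nat_lit 2972147787) (nat_lit 304) (nat_lit 3169208355) (nat_lit 76) (nat_lit 350528960) (nat_lit 462) (nat_lit 5) (nat_lit 466) (nat_lit 5) (nat_lit 463) (nat_lit 4) (nat_lit 404) (nat_lit 399) (nat_lit 397)) (XT.nd (nat_lit 78) (nat_lit 380) (nat_lit 0) (XT.lf (nat_lit 0) (nat_lit 1517307699) (nat_lit 380) (nat_lit 3632725141) (nat_lit 76) (nat_lit 1372552914) (nat_lit 457) (nat_lit 5) (nat_lit 462) (nat_lit 5) (nat_lit 458) (nat_lit 5) (nat_lit 405) (nat_lit 399) (nat_lit 396)) (XT.lf (nat_lit 0) (nat_lit 2582547989) (nat_lit 380) (nat_lit 3907024322) (nat_lit 456) (nat_lit 71542508) (nat_lit 452) (nat_lit 5) (nat_lit 457) (nat_lit 5) (nat_lit 458)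 (nat_lit 5) (nat_lit 406) (nat_lit 399) (nat_lit 395)))) (XT.nd (nat_lit 156) (nat_lit 1368) (nat_lit 0) (XT.nd (nat_lit 78) (nat_lit 608) (nat_lit 0) (XT.lf (nat_lit 0) (nat_lit 2384616791) (nat_lit 456) (nat_lit 2392642158) (nat_lit 532) (nat_lit 1829817834) (nat_lit 445) (nat_lit 5) (nat_lit 451) (nat_lit 5) (nat_lit 452) (nat_lit 5) (nat_lit 407) (nat_lit 399) (nat_lit 394)) (XT.lf (nat_lit 0) (nat_lit 2311593960) (nat_lit 532) (nat_lit 617713028) (nat_lit 608) (nat_lit 3731694454) (nat_lit 437) (nat_lit 5) (nat_lit 444) (nat_lit 5) (nat_lit 445) (nat_lit 5) (nat_lit 408) (nat_lit 399) (nat_lit 393))) (XT.nd (nat_lit 78) (nat_lit 684) (nat_lit 0) (XT.lf (nat_lit 0) (nat_lit 954712244) (nat_lit 684) (nat_lit 4372603978) (nat_lit 76) (nat_lit 1395260311) (nat_lit 428) (nat_lit 5) (nat_lit 437) (nat_lit 5) (nat_lit 429) (nat_lit 5) (nat_lit 409) (nat_lit 399) (nat_lit 392)) (XT.lf (nat_lit 0) (nat_lit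 2494317033) (nat_lit 684) (nat_lit 3117651315) (nat_lit 760) (nat_lit 1179760244) (nat_lit 419) (nat_lit 5) (nat_lit 428) (nat_lit 5) (nat_lit 429) (nat_lit 5) (nat_lit 410) (nat_lit 399) (nat_lit 391)))))) (XT.nd (nat_lit 546) (nat_lit 5016) (nat_lit 0) (XT.nd (nat_lit 234) (nat_lit 4636) (nat_lit 0) (XT.nd (nat_lit 78) (nat_lit 1824) (nat_lit 0) (XT.lf (nat_lit 0) (nat_lit 2752568112) (nat_lit 760) (nat_lit 631799149) (nat_lit 836) (nat_lit 3484410313) (nat_lit 408) (nat_lit 5) (nat_lit 418) (nat_lit 5) (nat_lit 419) (nat_lit 5) (nat_lit 411) (nat_lit 399) (nat_lit 390)) (XT.nd (nat_lit 78) (nat_lit 912) (nat_lit 0) (XT.lf (nat_lit 0) (nat_lit 1028396782) (nat_lit 912) (nat_lit 3838627365) (nat_lit 76) (nat_lit 2086505825) (nat_lit 396) (nat_lit 5) (nat_lit 408) (nat_lit 5) (nat_lit 397) (nat_lit 5) (nat_lit 412) (nat_lit 399) (nat_lit 389)) (XT.lf (nat_lit 0) (nat_lit 3580448460) (nat_lit 912)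 (nat_lit 1962414993) (nat_lit 988) (nat_lit 1503193614) (nat_lit 384) (nat_lit 5) (nat_lit 396) (nat_lit 5) (nat_lit 397) (nat_lit 5) (nat_lit 413) (nat_lit 399) (nat_lit 388)))) (XT.nd (nat_lit 156) (nat_lit 2432) (nat_lit 0) (XT.nd (nat_lit 78) (nat_lit 1140) (nat_lit 0) (XT.lf (nat_lit 0) (nat_lit 2941257356) (nat_lit 1064) (nat_lit 2997980088) (nat_lit 76) (nat_lit 1207200507) (nat_lit 370) (nat_lit 5) (nat_lit 384) (nat_lit 5) (nat_lit 371) (nat_lit 5) (nat_lit 414) (nat_lit 399) (nat_lit 387)) (XT.lf (nat_lit 0) (nat_lit 200681904) (nat_lit 1140) (nat_lit 2433025121) (nat_lit 76) (nat_lit 4621155473) (nat_lit 355) (nat_lit 5) (nat_lit 370) (nat_lit 5) (nat_lit 356) (nat_lit 5) (nat_lit 415) (nat_lit 399) (nat_lit 386))) (XT.nd (nat_lit 78) (nat_lit 1292) (nat_lit 0) (XT.lf (nat_lit 0) (nat_lit 4621839136) (nat_lit 1216) (nat_lit 1785137294) (nat_lit 76) (nat_lit 964035460) (nat_lit 340) (nat_lit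 5) (nat_lit 356) (nat_lit 5) (nat_lit 341) (nat_lit 5) (nat_lit 416) (nat_lit 399) (nat_lit 385)) (XT.lf (nat_lit 0) (nat_lit 1644811003) (nat_lit 1292) (nat_lit 1047101132) (nat_lit 76) (nat_lit 4803308228) (nat_lit 323) (nat_lit 5) (nat_lit 340) (nat_lit 5) (nat_lit 324) (nat_lit 5) (nat_lit 417) (nat_lit 399) (nat_lit 384))))) (XT.nd (nat_lit 234) (nat_lit 2356) (nat_lit 0) (XT.nd (nat_lit 78) (nat_lit 1824) (nat_lit 0) (XT.lf (nat_lit 0) (nat_lit 6106011786) (nat_lit 912) (nat_lit 215876667) (nat_lit 76) (nat_lit 1305813379) (nat_lit 312) (nat_lit 5) (nat_lit 324) (nat_lit 5) (nat_lit 313) (nat_lit 5) (nat_lit 418) (nat_lit 399) (nat_lit 383)) (XT.nd (nat_lit 78) (nat_lit 532) (nat_lit 0) (XT.lf (nat_lit 0) (nat_lit 706668520) (nat_lit 608) (nat_lit 2192280170) (nat_lit 684) (nat_lit 4868961939) (nat_lit 295) (nat_lit 5) (nat_lit 303) (nat_lit 5) (nat_lit 304) (nat_lit 5) (nat_lit 419) (nat_lit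 399) (nat_lit 382)) (XT.lf (nat_lit 0) (nat_lit 1732598970) (nat_lit 532) (nat_lit 5710106066) (nat_lit 608) (nat_lit 473975312) (nat_lit 288) (nat_lit 5) (nat_lit 295) (nat_lit 5) (nat_lit 296) (nat_lit 5) (nat_lit 420) (nat_lit 399) (nat_lit 381)))) (XT.nd (nat_lit 156) (nat_lit 1064) (nat_lit 0) (XT.nd (nat_lit 78) (nat_lit 608) (nat_lit 0) (XT.lf (nat_lit 0) (nat_lit 2833078159) (nat_lit 608) (nat_lit 1167033236) (nat_lit 684) (nat_lit 4073386969) (nat_lit 279) (nat_lit 5) (nat_lit 287) (nat_lit 5) (nat_lit 288) (nat_lit 5) (nat_lit 421) (nat_lit 399) (nat_lit 380)) (XT.lf (nat_lit 0) (nat_lit 402664719) (nat_lit 608) (nat_lit 4212250010) (nat_lit 76) (nat_lit 3624138885) (nat_lit 271) (nat_lit 5) (nat_lit 279) (nat_lit 5) (nat_lit 272) (nat_lit 5) (nat_lit 422) (nat_lit 399) (nat_lit 379))) (XT.nd (nat_lit 78) (nat_lit 532) (nat_lit 0) (XT.lf (nat_lit 0) (nat_lit 4968401729) (nat_lit 608) (nat_lit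 3110254323) (nat_lit 76) (nat_lit 334524321) (nat_lit 264) (nat_lit 5) (nat_lit 272) (nat_lit 5) (nat_lit 265) (nat_lit 5) (nat_lit 423) (nat_lit 399) (nat_lit 378)) (XT.lf (nat_lit 0) (nat_lit 1132854472) (nat_lit 532) (nat_lit 1935494786) (nat_lit 76) (nat_lit 5527658647) (nat_lit 257) (nat_lit 5) (nat_lit 264) (nat_lit 5) (nat_lit 258) (nat_lit 5) (nat_lit 424) (nat_lit 399) (nat_lit 377))))))))
noncomputable def xc45 : XT := (XT.nd (nat_lit 2028) (nat_lit 4484) (nat_lit 0) (XT.nd (nat_lit 1014) (nat_lit 3724) (nat_lit 0) (XT.nd (nat_lit 468) (nat_lit 2812) (nat_lit 0) (XT.nd (nat_lit 234) (nat_lit 1368) (nat_lit 0) (XT.nd (nat_lit 78) (nat_lit 1368) (nat_lit 0) (XT.lf (nat_lit 0) (nat_lit 5840645325) (nat_lit 532) (nat_lit 685281395) (nat_lit 76) (nat_lit 2261857880) (nat_lit 251) (nat_lit 5) (nat_lit 258) (nat_lit 5) (nat_lit 252) (nat_lit 5) (nat_lit 425) (nat_lit 399) (nat_lit 376)) (XT.nd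 (nat_lit 78) (nat_lit 380) (nat_lit 0) (XT.lf (nat_lit 0) (nat_lit 663255207) (nat_lit 456) (nat_lit 1091304144) (nat_lit 532) (nat_lit 7234232179) (nat_lit 238) (nat_lit 5) (nat_lit 244) (nat_lit 5) (nat_lit 245) (nat_lit 5) (nat_lit 426) (nat_lit 399) (nat_lit 375)) (XT.lf (nat_lit 0) (nat_lit 2087927502) (nat_lit 380) (nat_lit 4559806062) (nat_lit 456) (nat_lit 2550725382) (nat_lit 233) (nat_lit 5) (nat_lit 238) (nat_lit 5) (nat_lit 239) (nat_lit 5) (nat_lit 427) (nat_lit 399) (nat_lit 374)))) (XT.nd (nat_lit 78) (nat_lit 836) (nat_lit 0) (XT.lf (nat_lit 0) (nat_lit 2316254046) (nat_lit 532) (nat_lit 5812397217) (nat_lit 76) (nat_lit 1289416687) (nat_lit 226) (nat_lit 5) (nat_lit 233) (nat_lit 5) (nat_lit 227) (nat_lit 5) (nat_lit 428) (nat_lit 399) (nat_lit 373)) (XT.nd (nat_lit 78) (nat_lit 456) (nat_lit 0) (XT.lf (nat_lit 0) (nat_lit 5193122389) (nat_lit 380) (nat_lit 2206374194) (nat_lit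 456) (nat_lit 2247638263) (nat_lit 221) (nat_lit 5) (nat_lit 226) (nat_lit 5) (nat_lit 227) (nat_lit 5) (nat_lit 429) (nat_lit 399) (nat_lit 372)) (XT.lf (nat_lit 0) (nat_lit 2818969134) (nat_lit 456) (nat_lit 3028447378) (nat_lit 76) (nat_lit 4038661964) (nat_lit 215) (nat_lit 5) (nat_lit 221) (nat_lit 5) (nat_lit 216) (nat_lit 5) (nat_lit 430) (nat_lit 399) (nat_lit 371))))) (XT.nd (nat_lit 234) (nat_lit 1368) (nat_lit 0) (XT.nd (nat_lit 78) (nat_lit 1064) (nat_lit 0) (XT.lf (nat_lit 0) (nat_lit 8112711062) (nat_lit 456) (nat_lit 1516399434) (nat_lit 76) (nat_lit 506587003) (nat_lit 210) (nat_lit 5) (nat_lit 216) (nat_lit 5) (nat_lit 211) (nat_lit 5) (nat_lit 431) (nat_lit 399) (nat_lit 370)) (XT.nd (nat_lit 78) (nat_lit 304) (nat_lit 0) (XT.lf (nat_lit 0) (nat_lit 44878752) (nat_lit 304) (nat_lit 3224387711) (nat_lit 380) (nat_lit 7125797240) (nat_lit 200) (nat_lit 5) (nat_lit 204) (nat_lit 5)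 (nat_lit 205) (nat_lit 5) (nat_lit 432) (nat_lit 399) (nat_lit 369)) (XT.lf (nat_lit 0) (nat_lit 1724744450) (nat_lit 304) (nat_lit 7116045848) (nat_lit 380) (nat_lit 1824316082) (nat_lit 196) (nat_lit 5) (nat_lit 200) (nat_lit 5) (nat_lit 201) (nat_lit 5) (nat_lit 433) (nat_lit 399) (nat_lit 368)))) (XT.nd (nat_lit 156) (nat_lit 684) (nat_lit 0) (XT.nd (nat_lit 78) (nat_lit 304) (nat_lit 0) (XT.lf (nat_lit 0) (nat_lit 3482599739) (nat_lit 304) (nat_lit 231940886) (nat_lit 380) (nat_lit 7231675257) (nat_lit 191) (nat_lit 5) (nat_lit 195) (nat_lit 5) (nat_lit 196) (nat_lit 5) (nat_lit 434) (nat_lit 399) (nat_lit 367)) (XT.lf (nat_lit 0) (nat_lit 5304109140) (nat_lit 304) (nat_lit 4275492006) (nat_lit 380) (nat_lit 1658631598) (nat_lit 187) (nat_lit 5) (nat_lit 191) (nat_lit 5) (nat_lit 192) (nat_lit 5) (nat_lit 435) (nat_lit 399) (nat_lit 366))) (XT.nd (nat_lit 78) (nat_lit 304) (nat_lit 0) (XT.lf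 (nat_lit 0) (nat_lit 4168952562) (nat_lit 380) (nat_lit 4335906497) (nat_lit 76) (nat_lit 3037054116) (nat_lit 182) (nat_lit 5) (nat_lit 187) (nat_lit 5) (nat_lit 183) (nat_lit 5) (nat_lit 436) (nat_lit 399) (nat_lit 365)) (XT.lf (nat_lit 0) (nat_lit 9204916773) (nat_lit 304) (nat_lit 1124249489) (nat_lit 380) (nat_lit 1528855165) (nat_lit 178) (nat_lit 5) (nat_lit 182) (nat_lit 5) (nat_lit 183) (nat_lit 5) (nat_lit 437) (nat_lit 399) (nat_lit 364)))))) (XT.nd (nat_lit 468) (nat_lit 1824) (nat_lit 0) (XT.nd (nat_lit 234) (nat_lit 760) (nat_lit 0) (XT.nd (nat_lit 78) (nat_lit 836) (nat_lit 0) (XT.lf (nat_lit 0) (nat_lit 4621179088) (nat_lit 304) (nat_lit 930977513) (nat_lit 76) (nat_lit 6633343687) (nat_lit 174) (nat_lit 5) (nat_lit 178) (nat_lit 5) (nat_lit 175) (nat_lit 5) (nat_lit 438) (nat_lit 399) (nat_lit 363)) (XT.nd (nat_lit 78) (nat_lit 304) (nat_lit 0) (XT.lf (nat_lit 0) (nat_lit 910702538)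 (nat_lit 228) (nat_lit 10223979392) (nat_lit 304) (nat_lit 1391592166) (nat_lit 167) (nat_lit 5) (nat_lit 170) (nat_lit 5) (nat_lit 171) (nat_lit 5) (nat_lit 439) (nat_lit 399) (nat_lit 362)) (XT.lf (nat_lit 0) (nat_lit 2821954392) (nat_lit 228) (nat_lit 2286159363) (nat_lit 304) (nat_lit 7770977747) (nat_lit 163) (nat_lit 5) (nat_lit 166) (nat_lit 5) (nat_lit 167) (nat_lit 5) (nat_lit 440) (nat_lit 399) (nat_lit 361)))) (XT.nd (nat_lit 78) (nat_lit 532) (nat_lit 0) (XT.lf (nat_lit 0) (nat_lit 4821046292) (nat_lit 228) (nat_lit 7199651069) (nat_lit 304) (nat_lit 1224941269) (nat_lit 160) (nat_lit 5) (nat_lit 163) (nat_lit 5) (nat_lit 164) (nat_lit 5) (nat_lit 441) (nat_lit 399) (nat_lit 360)) (XT.nd (nat_lit 78) (nat_lit 228) (nat_lit 0) (XT.lf (nat_lit 0) (nat_lit 5638166191) (nat_lit 304) (nat_lit 6731091642) (nat_lit 76) (nat_lit 1256628914) (nat_lit 156) (nat_lit 5) (nat_lit 160) (nat_lit 5)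 (nat_lit 157) (nat_lit 5) (nat_lit 442) (nat_lit 399) (nat_lit 359)) (XT.lf (nat_lit 0) (nat_lit 9052163604) (nat_lit 228) (nat_lit 3910863839) (nat_lit 304) (nat_lit 1057440111) (nat_lit 153) (nat_lit 5) (nat_lit 156) (nat_lit 5) (nat_lit 157) (nat_lit 5) (nat_lit 443) (nat_lit 399) (nat_lit 358))))) (XT.nd (nat_lit 234) (nat_lit 912) (nat_lit 0) (XT.nd (nat_lit 78) (nat_lit 608) (nat_lit 0) (XT.lf (nat_lit 0) (nat_lit 6225067146) (nat_lit 304) (nat_lit 3156427734) (nat_lit 76) (nat_lit 5047678686) (nat_lit 149) (nat_lit 5) (nat_lit 153) (nat_lit 5) (nat_lit 150) (nat_lit 5) (nat_lit 444) (nat_lit 399) (nat_lit 357)) (XT.nd (nat_lit 78) (nat_lit 456) (nat_lit 0) (XT.lf (nat_lit 0) (nat_lit 13621266791) (nat_lit 152) (nat_lit 352188291) (nat_lit 228) (nat_lit 880838804) (nat_lit 147) (nat_lit 5) (nat_lit 149) (nat_lit 5) (nat_lit 150) (nat_lit 5) (nat_lit 445) (nat_lit 399) (nat_lit 356)) (XT.lf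 (nat_lit 0) (nat_lit 716774818) (nat_lit 152) (nat_lit 6146472251) (nat_lit 228) (nat_lit 8429835955) (nat_lit 141) (nat_lit 5) (nat_lit 143) (nat_lit 5) (nat_lit 144) (nat_lit 5) (nat_lit 446) (nat_lit 399) (nat_lit 355)))) (XT.nd (nat_lit 156) (nat_lit 456) (nat_lit 0) (XT.nd (nat_lit 78) (nat_lit 228) (nat_lit 0) (XT.lf (nat_lit 0) (nat_lit 2817038276) (nat_lit 228) (nat_lit 12306528508) (nat_lit 304) (nat_lit 625567424) (nat_lit 138) (nat_lit 5) (nat_lit 141) (nat_lit 5) (nat_lit 142) (nat_lit 5) (nat_lit 447) (nat_lit 399) (nat_lit 354)) (XT.lf (nat_lit 0) (nat_lit 4957734479) (nat_lit 152) (nat_lit 2630553788) (nat_lit 228) (nat_lit 8632506357) (nat_lit 135) (nat_lit 5) (nat_lit 137) (nat_lit 5) (nat_lit 138) (nat_lit 5) (nat_lit 448) (nat_lit 399) (nat_lit 353))) (XT.nd (nat_lit 78) (nat_lit 228) (nat_lit 0) (XT.lf (nat_lit 0) (nat_lit 7199452699) (nat_lit 228) (nat_lit 9184730167) (nat_lit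 304) (nat_lit 326142298) (nat_lit 132) (nat_lit 5) (nat_lit 135) (nat_lit 5) (nat_lit 136) (nat_lit 5) (nat_lit 449) (nat_lit 399) (nat_lit 352)) (XT.lf (nat_lit 0) (nat_lit 8387951168) (nat_lit 228) (nat_lit 7710035873) (nat_lit 76) (nat_lit 1119238266) (nat_lit 129) (nat_lit 5) (nat_lit 132) (nat_lit 5) (nat_lit 130) (nat_lit 5) (nat_lit 450) (nat_lit 399) (nat_lit 351))))))) (XT.nd (nat_lit 1014) (nat_lit 2052) (nat_lit 0) (XT.nd (nat_lit 468) (nat_lit 1140) (nat_lit 0) (XT.nd (nat_lit 234) (nat_lit 684) (nat_lit 0) (XT.nd (nat_lit 78) (nat_lit 380) (nat_lit 0) (XT.lf (nat_lit 0) (nat_lit 6444343) (nat_lit 228) (nat_lit 5834992764) (nat_lit 76) (nat_lit 11901384095) (nat_lit 126) (nat_lit 5) (nat_lit 129) (nat_lit 5) (nat_lit 127) (nat_lit 5) (nat_lit 451) (nat_lit 399) (nat_lit 350)) (XT.nd (nat_lit 78) (nat_lit 228) (nat_lit 0) (XT.lf (nat_lit 0) (nat_lit 9285683635) (nat_lit 228) (nat_lit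 3924181891) (nat_lit 76) (nat_lit 5076679837) (nat_lit 124) (nat_lit 5) (nat_lit 127) (nat_lit 5) (nat_lit 125) (nat_lit 5) (nat_lit 452) (nat_lit 399) (nat_lit 349)) (XT.lf (nat_lit 0) (nat_lit 368858606) (nat_lit 228) (nat_lit 1898506726) (nat_lit 76) (nat_lit 16584018801) (nat_lit 121) (nat_lit 5) (nat_lit 124) (nat_lit 5) (nat_lit 122) (nat_lit 5) (nat_lit 453) (nat_lit 399) (nat_lit 348)))) (XT.nd (nat_lit 78) (nat_lit 380) (nat_lit 0) (XT.lf (nat_lit 0) (nat_lit 131014381) (nat_lit 152) (nat_lit 10131800188) (nat_lit 228) (nat_lit 9171720735) (nat_lit 117) (nat_lit 5) (nat_lit 119) (nat_lit 5) (nat_lit 120) (nat_lit 5) (nat_lit 454) (nat_lit 399) (nat_lit 347)) (XT.nd (nat_lit 78) (nat_lit 152) (nat_lit 0) (XT.lf (nat_lit 0) (nat_lit 807073611) (nat_lit 228) (nat_lit 17700138408) (nat_lit 76) (nat_lit 1533031172) (nat_lit 114) (nat_lit 5) (nat_lit 117) (nat_lit 5) (nat_lit 115) (nat_lit 5)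 (nat_lit 455) (nat_lit 399) (nat_lit 346)) (XT.lf (nat_lit 0) (nat_lit 4543438640) (nat_lit 152) (nat_lit 6819596560) (nat_lit 228) (nat_lit 9302440517) (nat_lit 112) (nat_lit 5) (nat_lit 114) (nat_lit 5) (nat_lit 115) (nat_lit 5) (nat_lit 456) (nat_lit 399) (nat_lit 345))))) (XT.nd (nat_lit 234) (nat_lit 608) (nat_lit 0) (XT.nd (nat_lit 78) (nat_lit 304) (nat_lit 0) (XT.lf (nat_lit 0) (nat_lit 1329086403) (nat_lit 228) (nat_lit 14440448096) (nat_lit 76) (nat_lit 5545325507) (nat_lit 109) (nat_lit 5) (nat_lit 112) (nat_lit 5) (nat_lit 110) (nat_lit 5) (nat_lit 457) (nat_lit 399) (nat_lit 344)) (XT.nd (nat_lit 78) (nat_lit 152) (nat_lit 0) (XT.lf (nat_lit 0) (nat_lit 9239472231) (nat_lit 152) (nat_lit 3310366197) (nat_lit 228) (nat_lit 9436611647) (nat_lit 107) (nat_lit 5) (nat_lit 109) (nat_lit 5) (nat_lit 110) (nat_lit 5) (nat_lit 458) (nat_lit 399) (nat_lit 343)) (XT.lf (nat_lit 0) (nat_lit 1892145800)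 (nat_lit 152) (nat_lit 10990472629) (nat_lit 76) (nat_lit 9800004816) (nat_lit 105) (nat_lit 5) (nat_lit 107) (nat_lit 5) (nat_lit 106) (nat_lit 5) (nat_lit 459) (nat_lit 399) (nat_lit 342)))) (XT.nd (nat_lit 156) (nat_lit 304) (nat_lit 0) (XT.nd (nat_lit 78) (nat_lit 152) (nat_lit 0) (XT.lf (nat_lit 0) (nat_lit 13826712442) (nat_lit 228) (nat_lit 9187547369) (nat_lit 76) (nat_lit 389506961) (nat_lit 103) (nat_lit 5) (nat_lit 106) (nat_lit 5) (nat_lit 104) (nat_lit 4) (nat_lit 460) (nat_lit 399) (nat_lit 341)) (XT.lf (nat_lit 0) (nat_lit 2491329122) (nat_lit 152) (nat_lit 7357946832) (nat_lit 76) (nat_lit 14300943749) (nat_lit 101) (nat_lit 5) (nat_lit 103) (nat_lit 5) (nat_lit 102) (nat_lit 5) (nat_lit 461) (nat_lit 399) (nat_lit 340))) (XT.nd (nat_lit 78) (nat_lit 152) (nat_lit 0) (XT.lf (nat_lit 0) (nat_lit 15220446614) (nat_lit 228) (nat_lit 5484079751) (nat_lit 76) (nat_lit 4218963370) (nat_lit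 99) (nat_lit 5) (nat_lit 102) (nat_lit 5) (nat_lit 100) (nat_lit 4) (nat_lit 462) (nat_lit 399) (nat_lit 339)) (XT.lf (nat_lit 0) (nat_lit 3118386521) (nat_lit 152) (nat_lit 3556251415) (nat_lit 76) (nat_lit 19050261396) (nat_lit 97) (nat_lit 5) (nat_lit 99) (nat_lit 5) (nat_lit 98) (nat_lit 5) (nat_lit 463) (nat_lit 399) (nat_lit 338)))))) (XT.nd (nat_lit 546) (nat_lit 912) (nat_lit 0) (XT.nd (nat_lit 234) (nat_lit 608) (nat_lit 0) (XT.nd (nat_lit 78) (nat_lit 380) (nat_lit 0) (XT.lf (nat_lit 0) (nat_lit 16692691537) (nat_lit 228) (nat_lit 1621514099) (nat_lit 76) (nat_lit 8239917893) (nat_lit 95) (nat_lit 5) (nat_lit 98) (nat_lit 5) (nat_lit 96) (nat_lit 4) (nat_lit 464) (nat_lit 399) (nat_lit 337)) (XT.nd (nat_lit 78) (nat_lit 76) (nat_lit 0) (XT.lf (nat_lit 0) (nat_lit 402002209) (nat_lit 152) (nat_lit 3362920967) (nat_lit 228) (nat_lit 23649489134) (nat_lit 91) (nat_lit 5) (nat_lit 93) (nat_lit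 5) (nat_lit 94) (nat_lit 5) (nat_lit 465) (nat_lit 399) (nat_lit 336)) (XT.lf (nat_lit 0) (nat_lit 2422771408) (nat_lit 76) (nat_lit 15833296624) (nat_lit 152) (nat_lit 10047096194) (nat_lit 90) (nat_lit 5) (nat_lit 91) (nat_lit 5) (nat_lit 92) (nat_lit 4) (nat_lit 466) (nat_lit 399) (nat_lit 335)))) (XT.nd (nat_lit 156) (nat_lit 304) (nat_lit 0) (XT.nd (nat_lit 78) (nat_lit 76) (nat_lit 0) (XT.lf (nat_lit 0) (nat_lit 4447049042) (nat_lit 228) (nat_lit 24674469855) (nat_lit 76) (nat_lit 104785453) (nat_lit 87) (nat_lit 5) (nat_lit 90) (nat_lit 5) (nat_lit 88) (nat_lit 4) (nat_lit 467) (nat_lit 399) (nat_lit 334)) (XT.lf (nat_lit 0) (nat_lit 6601358540) (nat_lit 76) (nat_lit 13287116047) (nat_lit 152) (nat_lit 10291232157) (nat_lit 86) (nat_lit 5) (nat_lit 87) (nat_lit 5) (nat_lit 88) (nat_lit 4) (nat_lit 468) (nat_lit 399) (nat_lit 333))) (XT.nd (nat_lit 78) (nat_lit 76) (nat_lit 0) (XT.lf (nat_lit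 0) (nat_lit 5138906792) (nat_lit 228) (nat_lit 22421576843) (nat_lit 76) (nat_lit 3609464502) (nat_lit 83) (nat_lit 5) (nat_lit 86) (nat_lit 5) (nat_lit 84) (nat_lit 4) (nat_lit 469) (nat_lit 399) (nat_lit 332)) (XT.lf (nat_lit 0) (nat_lit 10834699609) (nat_lit 76) (nat_lit 10717090435) (nat_lit 152) (nat_lit 10642132850) (nat_lit 82) (nat_lit 5) (nat_lit 83) (nat_lit 5) (nat_lit 84) (nat_lit 4) (nat_lit 470) (nat_lit 399) (nat_lit 331))))) (XT.nd (nat_lit 234) (nat_lit 456) (nat_lit 0) (XT.nd (nat_lit 78) (nat_lit 228) (nat_lit 0) (XT.lf (nat_lit 0) (nat_lit 5777523203) (nat_lit 228) (nat_lit 20285573748) (nat_lit 76) (nat_lit 7193340716) (nat_lit 79) (nat_lit 5) (nat_lit 82) (nat_lit 5) (nat_lit 80) (nat_lit 4) (nat_lit 471) (nat_lit 399) (nat_lit 330)) (XT.nd (nat_lit 78) (nat_lit 152) (nat_lit 0) (XT.lf (nat_lit 0) (nat_lit 15060664632) (nat_lit 76) (nat_lit 8155640620) (nat_lit 152) (nat_lit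 11140065059) (nat_lit 78) (nat_lit 5) (nat_lit 79) (nat_lit 5) (nat_lit 80) (nat_lit 4) (nat_lit 472) (nat_lit 399) (nat_lit 329)) (XT.lf (nat_lit 0) (nat_lit 6323627616) (nat_lit 152) (nat_lit 18347821848) (nat_lit 76) (nat_lit 10825356942) (nat_lit 76) (nat_lit 5) (nat_lit 78) (nat_lit 5) (nat_lit 77) (nat_lit 4) (nat_lit 473) (nat_lit 399) (nat_lit 328)))) (XT.nd (nat_lit 156) (nat_lit 228) (nat_lit 0) (XT.nd (nat_lit 78) (nat_lit 152) (nat_lit 0) (XT.lf (nat_lit 0) (nat_lit 19199109606) (nat_lit 76) (nat_lit 5644180686) (nat_lit 152) (nat_lit 11835270000) (nat_lit 75) (nat_lit 5) (nat_lit 76) (nat_lit 5) (nat_lit 77) (nat_lit 4) (nat_lit 474) (nat_lit 399) (nat_lit 327)) (XT.lf (nat_lit 0) (nat_lit 6727611191) (nat_lit 152) (nat_lit 16710394448) (nat_lit 76) (nat_lit 14465088576) (nat_lit 73) (nat_lit 5) (nat_lit 75) (nat_lit 5) (nat_lit 74) (nat_lit 4) (nat_lit 475) (nat_lit 399) (nat_lit 326)))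 (XT.nd (nat_lit 78) (nat_lit 152) (nat_lit 0) (XT.lf (nat_lit 0) (nat_lit 23148132772) (nat_lit 76) (nat_lit 3235036188) (nat_lit 152) (nat_lit 12789891582) (nat_lit 72) (nat_lit 5) (nat_lit 73) (nat_lit 5) (nat_lit 74) (nat_lit 4) (nat_lit 476) (nat_lit 399) (nat_lit 325)) (XT.lf (nat_lit 0) (nat_lit 6927493694) (nat_lit 152) (nat_lit 15500239375) (nat_lit 76) (nat_lit 18060724220) (nat_lit 70) (nat_lit 5) (nat_lit 72) (nat_lit 5) (nat_lit 71) (nat_lit 4) (nat_lit 477) (nat_lit 399) (nat_lit 324))))))))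
noncomputable def xc46 : XT := (XT.nd (nat_lit 56784) (nat_lit 0) (nat_lit 12920) (XT.nd (nat_lit 1014) (nat_lit 836) (nat_lit 0) (XT.nd (nat_lit 468) (nat_lit 760) (nat_lit 0) (XT.nd (nat_lit 234) (nat_lit 380) (nat_lit 0) (XT.nd (nat_lit 78) (nat_lit 228) (nat_lit 0) (XT.lf (nat_lit 0) (nat_lit 26779644074) (nat_lit 76) (nat_lit 993708593) (nat_lit 152) (nat_lit 14080258881) (nat_lit 69) (nat_lit 5) (nat_lit 70) (nat_lit 5) (nat_lit 71) (nat_lit 4) (nat_lit 478) (nat_lit 399) (nat_lit 323)) (XT.nd (nat_lit 78) (nat_lit 76) (nat_lit 0) (XT.lf (nat_lit 0) (nat_lit 6846515750) (nat_lit 152) (nat_lit 14874097483) (nat_lit 76) (nat_lit 21546679517) (nat_lit 67) (nat_lit 5) (nat_lit 69) (nat_lit 5) (nat_lit 68) (nat_lit 4) (nat_lit 479) (nat_lit 399) (nat_lit 322)) (XT.lf (nat_lit 0) (nat_lit 28945271961) (nat_lit 152) (nat_lit 14810729847) (nat_lit 0) (nat_lit 978968821) (nat_lit 66) (nat_lit 5) (nat_lit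 68) (nat_lit 4) (nat_lit 66) (nat_lit 4) (nat_lit 480) (nat_lit 399) (nat_lit 321)))) (XT.nd (nat_lit 78) (nat_lit 228) (nat_lit 0) (XT.lf (nat_lit 0) (nat_lit 6390291382) (nat_lit 152) (nat_lit 15024310085) (nat_lit 76) (nat_lit 24840778692) (nat_lit 64) (nat_lit 5) (nat_lit 66) (nat_lit 5) (nat_lit 65) (nat_lit 4) (nat_lit 481) (nat_lit 399) (nat_lit 320)) (XT.nd (nat_lit 78) (nat_lit 152) (nat_lit 0) (XT.lf (nat_lit 0) (nat_lit 29798739544) (nat_lit 152) (nat_lit 15445442634) (nat_lit 0) (nat_lit 2589557737) (nat_lit 63) (nat_lit 5) (nat_lit 65) (nat_lit 4) (nat_lit 63) (nat_lit 4) (nat_lit 482) (nat_lit 399) (nat_lit 319)) (XT.lf (nat_lit 0) (nat_lit 5443444303) (nat_lit 152) (nat_lit 16185671024) (nat_lit 76) (nat_lit 27840927097) (nat_lit 61) (nat_lit 5) (nat_lit 63) (nat_lit 5) (nat_lit 62) (nat_lit 4) (nat_lit 483) (nat_lit 399) (nat_lit 318))))) (XT.nd (nat_lit 234) (nat_lit 456) (nat_lit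 0) (XT.nd (nat_lit 78) (nat_lit 228) (nat_lit 0) (XT.lf (nat_lit 0) (nat_lit 30204035668) (nat_lit 152) (nat_lit 17227551375) (nat_lit 0) (nat_lit 3736779760) (nat_lit 60) (nat_lit 5) (nat_lit 62) (nat_lit 4) (nat_lit 60) (nat_lit 4) (nat_lit 484) (nat_lit 399) (nat_lit 317)) (XT.nd (nat_lit 78) (nat_lit 76) (nat_lit 0) (XT.lf (nat_lit 0) (nat_lit 3865638307) (nat_lit 152) (nat_lit 18643505865) (nat_lit 76) (nat_lit 30421184974) (nat_lit 58) (nat_lit 5) (nat_lit 60) (nat_lit 5) (nat_lit 59) (nat_lit 4) (nat_lit 485) (nat_lit 399) (nat_lit 316)) (XT.lf (nat_lit 0) (nat_lit 30014293780) (nat_lit 152) (nat_lit 20471153753) (nat_lit 0) (nat_lit 4273392315) (nat_lit 57) (nat_lit 5) (nat_lit 59) (nat_lit 4) (nat_lit 57) (nat_lit 4) (nat_lit 486) (nat_lit 399) (nat_lit 315)))) (XT.nd (nat_lit 156) (nat_lit 228) (nat_lit 0) (XT.nd (nat_lit 78) (nat_lit 76) (nat_lit 0) (XT.lf (nat_lit 0) (nat_lit 1486896601)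 (nat_lit 152) (nat_lit 22743191958) (nat_lit 76) (nat_lit 32427137235) (nat_lit 55) (nat_lit 5) (nat_lit 57) (nat_lit 5) (nat_lit 56) (nat_lit 4) (nat_lit 487) (nat_lit 399) (nat_lit 314)) (XT.lf (nat_lit 0) (nat_lit 29050902643) (nat_lit 152) (nat_lit 25555779426) (nat_lit 0) (nat_lit 4020516830) (nat_lit 54) (nat_lit 5) (nat_lit 56) (nat_lit 4) (nat_lit 54) (nat_lit 4) (nat_lit 488) (nat_lit 399) (nat_lit 313))) (XT.nd (nat_lit 78) (nat_lit 152) (nat_lit 0) (XT.lf (nat_lit 0) (nat_lit 31753357778) (nat_lit 76) (nat_lit 26984291483) (nat_lit 76) (nat_lit 1935685301) (nat_lit 53) (nat_lit 4) (nat_lit 54) (nat_lit 5) (nat_lit 54) (nat_lit 4) (nat_lit 489) (nat_lit 399) (nat_lit 312)) (XT.lf (nat_lit 0) (nat_lit 27097559530) (nat_lit 152) (nat_lit 32938554179) (nat_lit 0) (nat_lit 2761677090) (nat_lit 51) (nat_lit 5) (nat_lit 53) (nat_lit 4) (nat_lit 51) (nat_lit 4) (nat_lit 490) (nat_lit 399) (nat_lit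 311)))))) (XT.nd (nat_lit 468) (nat_lit 152) (nat_lit 0) (XT.nd (nat_lit 234) (nat_lit 380) (nat_lit 0) (XT.nd (nat_lit 78) (nat_lit 228) (nat_lit 0) (XT.lf (nat_lit 0) (nat_lit 27320803612) (nat_lit 76) (nat_lit 31017570335) (nat_lit 76) (nat_lit 6665642835) (nat_lit 50) (nat_lit 4) (nat_lit 51) (nat_lit 5) (nat_lit 51) (nat_lit 4) (nat_lit 491) (nat_lit 399) (nat_lit 310)) (XT.nd (nat_lit 78) (nat_lit 76) (nat_lit 0) (XT.lf (nat_lit 0) (nat_lit 23893266291) (nat_lit 152) (nat_lit 43168513643) (nat_lit 0) (nat_lit 235782302) (nat_lit 48) (nat_lit 5) (nat_lit 50) (nat_lit 4) (nat_lit 48) (nat_lit 4) (nat_lit 492) (nat_lit 399) (nat_lit 309)) (XT.lf (nat_lit 0) (nat_lit 20055684692) (nat_lit 76) (nat_lit 36646961244) (nat_lit 76) (nat_lit 12975347797) (nat_lit 47) (nat_lit 4) (nat_lit 48) (nat_lit 5) (nat_lit 48) (nat_lit 4) (nat_lit 493) (nat_lit 399) (nat_lit 308)))) (XT.nd (nat_lit 78) (nat_lit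 228) (nat_lit 0) (XT.lf (nat_lit 0) (nat_lit 15213866453) (nat_lit 76) (nat_lit 3948171244) (nat_lit 152) (nat_lit 52993219350) (nat_lit 45) (nat_lit 5) (nat_lit 46) (nat_lit 5) (nat_lit 47) (nat_lit 4) (nat_lit 494) (nat_lit 399) (nat_lit 307)) (XT.nd (nat_lit 78) (nat_lit 152) (nat_lit 0) (XT.lf (nat_lit 0) (nat_lit 9266595605) (nat_lit 76) (nat_lit 44233857419) (nat_lit 76) (nat_lit 21226201197) (nat_lit 44) (nat_lit 4) (nat_lit 45) (nat_lit 5) (nat_lit 45) (nat_lit 4) (nat_lit 495) (nat_lit 399) (nat_lit 306)) (XT.lf (nat_lit 0) (nat_lit 2377519316) (nat_lit 76) (nat_lit 10133330729) (nat_lit 152) (nat_lit 64893722510) (nat_lit 42) (nat_lit 5) (nat_lit 43) (nat_lit 5) (nat_lit 44) (nat_lit 4) (nat_lit 496) (nat_lit 399) (nat_lit 305))))) (XT.nd (nat_lit 54990) (nat_lit 0) (nat_lit 31996) (XT.nd (nat_lit 78) (nat_lit 152) (nat_lit 0) (XT.lf (nat_lit 0) (nat_lit 48391557723) (nat_lit 152) (nat_lit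 5760085066) (nat_lit 0) (nat_lit 26031565446) (nat_lit 42) (nat_lit 5) (nat_lit 44) (nat_lit 4) (nat_lit 42) (nat_lit 4) (nat_lit 497) (nat_lit 399) (nat_lit 304)) (XT.nd (nat_lit 54834) (nat_lit 0) (nat_lit 32756) (XT.lf (nat_lit 0) (nat_lit 3638106205) (nat_lit 152) (nat_lit 14985071969) (nat_lit 76) (nat_lit 64454828918) (nat_lit 40) (nat_lit 5) (nat_lit 42) (nat_lit 5) (nat_lit 41) (nat_lit 4) (nat_lit 498) (nat_lit 399) (nat_lit 303)) (XT.lf (nat_lit 0) (nat_lit 1073741823) (nat_lit 0) (nat_lit 0) (nat_lit 0) (nat_lit 0) (nat_lit 471) (nat_lit 0) (nat_lit 1) (nat_lit 0) (nat_lit 1) (nat_lit 0) (nat_lit 400) (nat_lit 400) (nat_lit 400)))) (XT.nd (nat_lit 156) (nat_lit 532) (nat_lit 0) (XT.nd (nat_lit 78) (nat_lit 152) (nat_lit 0) (XT.lf (nat_lit 0) (nat_lit 5234833949) (nat_lit 76) (nat_lit 1074048590) (nat_lit 0) (nat_lit 137116814) (nat_lit 470) (nat_lit 5) (nat_lit 471) (nat_lit 0) (nat_lit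 470) (nat_lit 4) (nat_lit 401) (nat_lit 400) (nat_lit 399)) (XT.lf (nat_lit 0) (nat_lit 3904806209) (nat_lit 152) (nat_lit 2025929230) (nat_lit 76) (nat_lit 526583888) (nat_lit 468) (nat_lit 5) (nat_lit 470) (nat_lit 5) (nat_lit 469) (nat_lit 4) (nat_lit 402) (nat_lit 400) (nat_lit 398))) (XT.nd (nat_lit 78) (nat_lit 304) (nat_lit 0) (XT.lf (nat_lit 0) (nat_lit 2449665141) (nat_lit 228) (nat_lit 2857226241) (nat_lit 76) (nat_lit 1169540090) (nat_lit 465) (nat_lit 5) (nat_lit 468) (nat_lit 5) (nat_lit 466) (nat_lit 5) (nat_lit 403) (nat_lit 400) (nat_lit 397)) (XT.lf (nat_lit 0) (nat_lit 866336984) (nat_lit 304) (nat_lit 3569160891) (nat_lit 76) (nat_lit 2067872724) (nat_lit 461) (nat_lit 5) (nat_lit 465) (nat_lit 5) (nat_lit 462) (nat_lit 5) (nat_lit 404) (nat_lit 400) (nat_lit 396))))))) (XT.nd (nat_lit 1014) (nat_lit 8588) (nat_lit 0) (XT.nd (nat_lit 468) (nat_lit 7220) (nat_lit 0) (XT.nd (nat_lit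 234) (nat_lit 1976) (nat_lit 0) (XT.nd (nat_lit 78) (nat_lit 988) (nat_lit 0) (XT.lf (nat_lit 0) (nat_lit 2367024395) (nat_lit 304) (nat_lit 3305394110) (nat_lit 380) (nat_lit 865517700) (nat_lit 457) (nat_lit 5) (nat_lit 461) (nat_lit 5) (nat_lit 462) (nat_lit 5) (nat_lit 405) (nat_lit 400) (nat_lit 395)) (XT.nd (nat_lit 78) (nat_lit 532) (nat_lit 0) (XT.lf (nat_lit 0) (nat_lit 1915670132) (nat_lit 380) (nat_lit 1911696688) (nat_lit 456) (nat_lit 2752779906) (nat_lit 451) (nat_lit 5) (nat_lit 456) (nat_lit 5) (nat_lit 457) (nat_lit 5) (nat_lit 406) (nat_lit 400) (nat_lit 394)) (XT.lf (nat_lit 0) (nat_lit 1588798947) (nat_lit 456) (nat_lit 259021106) (nat_lit 532) (nat_lit 4782513691) (nat_lit 444) (nat_lit 5) (nat_lit 450) (nat_lit 5) (nat_lit 451) (nat_lit 5) (nat_lit 407) (nat_lit 400) (nat_lit 393)))) (XT.nd (nat_lit 78) (nat_lit 1444) (nat_lit 0) (XT.lf (nat_lit 0) (nat_lit 1367706335) (nat_lit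 532) (nat_lit 5060347793) (nat_lit 608) (nat_lit 259981529) (nat_lit 437) (nat_lit 5) (nat_lit 444) (nat_lit 5) (nat_lit 445) (nat_lit 5) (nat_lit 408) (nat_lit 400) (nat_lit 392)) (XT.nd (nat_lit 78) (nat_lit 760) (nat_lit 0) (XT.lf (nat_lit 0) (nat_lit 1246741681) (nat_lit 608) (nat_lit 2960054069) (nat_lit 684) (nat_lit 2546379042) (nat_lit 428) (nat_lit 5) (nat_lit 436) (nat_lit 5) (nat_lit 437) (nat_lit 5) (nat_lit 409) (nat_lit 400) (nat_lit 391)) (XT.lf (nat_lit 0) (nat_lit 1248031014) (nat_lit 684) (nat_lit 595845063) (nat_lit 760) (nat_lit 4982610251) (nat_lit 418) (nat_lit 5) (nat_lit 427) (nat_lit 5) (nat_lit 428) (nat_lit 5) (nat_lit 410) (nat_lit 400) (nat_lit 390))))) (XT.nd (nat_lit 234) (nat_lit 4560) (nat_lit 0) (XT.nd (nat_lit 78) (nat_lit 1900) (nat_lit 0) (XT.lf (nat_lit 0) (nat_lit 1346155389) (nat_lit 760) (nat_lit 4901432026) (nat_lit 836) (nat_lit 659737176) (nat_lit 408)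 (nat_lit 5) (nat_lit 418) (nat_lit 5) (nat_lit 419) (nat_lit 5) (nat_lit 411) (nat_lit 400) (nat_lit 389)) (XT.nd (nat_lit 78) (nat_lit 988) (nat_lit 0) (XT.lf (nat_lit 0) (nat_lit 1540780193) (nat_lit 836) (nat_lit 2106866814) (nat_lit 912) (nat_lit 3348131590) (nat_lit 396) (nat_lit 5) (nat_lit 407) (nat_lit 5) (nat_lit 408) (nat_lit 5) (nat_lit 412) (nat_lit 400) (nat_lit 388)) (XT.lf (nat_lit 0) (nat_lit 904865053) (nat_lit 988) (nat_lit 5243681295) (nat_lit 76) (nat_lit 943895899) (nat_lit 383) (nat_lit 5) (nat_lit 396) (nat_lit 5) (nat_lit 384) (nat_lit 5) (nat_lit 413) (nat_lit 400) (nat_lit 387)))) (XT.nd (nat_lit 156) (nat_lit 2432) (nat_lit 0) (XT.nd (nat_lit 78) (nat_lit 1140) (nat_lit 0) (XT.lf (nat_lit 0) (nat_lit 2238332751) (nat_lit 988) (nat_lit 2944924489) (nat_lit 1064) (nat_lit 2013240420) (nat_lit 370) (nat_lit 5) (nat_lit 383) (nat_lit 5) (nat_lit 384) (nat_lit 5) (nat_lit 414)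 (nat_lit 400) (nat_lit 386)) (XT.lf (nat_lit 0) (nat_lit 2198111718) (nat_lit 1140) (nat_lit 4572182361) (nat_lit 76) (nat_lit 538553915) (nat_lit 355) (nat_lit 5) (nat_lit 370) (nat_lit 5) (nat_lit 356) (nat_lit 5) (nat_lit 415) (nat_lit 400) (nat_lit 385))) (XT.nd (nat_lit 78) (nat_lit 1292) (nat_lit 0) (XT.lf (nat_lit 0) (nat_lit 3319899125) (nat_lit 1140) (nat_lit 3168974855) (nat_lit 1216) (nat_lit 940040745) (nat_lit 340) (nat_lit 5) (nat_lit 355) (nat_lit 5) (nat_lit 356) (nat_lit 5) (nat_lit 416) (nat_lit 400) (nat_lit 384)) (XT.lf (nat_lit 0) (nat_lit 3268151076) (nat_lit 1292) (nat_lit 3558714440) (nat_lit 76) (nat_lit 730255721) (nat_lit 323) (nat_lit 5) (nat_lit 340) (nat_lit 5) (nat_lit 324) (nat_lit 5) (nat_lit 417) (nat_lit 400) (nat_lit 383)))))) (XT.nd (nat_lit 546) (nat_lit 3572) (nat_lit 0) (XT.nd (nat_lit 234) (nat_lit 2812) (nat_lit 0) (XT.nd (nat_lit 78) (nat_lit 1368) (nat_lit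 0) (XT.lf (nat_lit 0) (nat_lit 4769973270) (nat_lit 836) (nat_lit 2828656138) (nat_lit 912) (nat_lit 94899806) (nat_lit 312) (nat_lit 5) (nat_lit 323) (nat_lit 5) (nat_lit 324) (nat_lit 5) (nat_lit 418) (nat_lit 400) (nat_lit 382)) (XT.nd (nat_lit 78) (nat_lit 684) (nat_lit 0) (XT.lf (nat_lit 0) (nat_lit 4146457630) (nat_lit 684) (nat_lit 2216864744) (nat_lit 76) (nat_lit 1474551838) (nat_lit 303) (nat_lit 5) (nat_lit 312) (nat_lit 5) (nat_lit 304) (nat_lit 5) (nat_lit 419) (nat_lit 400) (nat_lit 381)) (XT.lf (nat_lit 0) (nat_lit 541301603) (nat_lit 684) (nat_lit 1418496425) (nat_lit 76) (nat_lit 6031103319) (nat_lit 294) (nat_lit 5) (nat_lit 303) (nat_lit 5) (nat_lit 295) (nat_lit 5) (nat_lit 420) (nat_lit 400) (nat_lit 380)))) (XT.nd (nat_lit 156) (nat_lit 1064) (nat_lit 0) (XT.nd (nat_lit 78) (nat_lit 1216) (nat_lit 0) (XT.lf (nat_lit 0) (nat_lit 4861183028) (nat_lit 608) (nat_lit 555844020)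 (nat_lit 76) (nat_lit 2734908257) (nat_lit 287) (nat_lit 5) (nat_lit 295) (nat_lit 5) (nat_lit 288) (nat_lit 5) (nat_lit 421) (nat_lit 400) (nat_lit 379)) (XT.lf (nat_lit 0) (nat_lit 413072402) (nat_lit 532) (nat_lit 598340929) (nat_lit 608) (nat_lit 7310613591) (nat_lit 271) (nat_lit 5) (nat_lit 278) (nat_lit 5) (nat_lit 279) (nat_lit 5) (nat_lit 422) (nat_lit 400) (nat_lit 378))) (XT.nd (nat_lit 78) (nat_lit 532) (nat_lit 0) (XT.lf (nat_lit 0) (nat_lit 1447393138) (nat_lit 532) (nat_lit 4004095208) (nat_lit 608) (nat_lit 3048438661) (nat_lit 264) (nat_lit 5) (nat_lit 271) (nat_lit 5) (nat_lit 272) (nat_lit 5) (nat_lit 423) (nat_lit 400) (nat_lit 377)) (XT.lf (nat_lit 0) (nat_lit 1365519587) (nat_lit 532) (nat_lit 6104649129) (nat_lit 76) (nat_lit 1217152958) (nat_lit 257) (nat_lit 5) (nat_lit 264) (nat_lit 5) (nat_lit 258) (nat_lit 5) (nat_lit 424) (nat_lit 400) (nat_lit 376))))) (XT.nd (nat_lit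 234) (nat_lit 2128) (nat_lit 0) (XT.nd (nat_lit 78) (nat_lit 988) (nat_lit 0) (XT.lf (nat_lit 0) (nat_lit 3780382206) (nat_lit 456) (nat_lit 2154302383) (nat_lit 532) (nat_lit 2948575608) (nat_lit 251) (nat_lit 5) (nat_lit 257) (nat_lit 5) (nat_lit 258) (nat_lit 5) (nat_lit 425) (nat_lit 400) (nat_lit 375)) (XT.nd (nat_lit 78) (nat_lit 456) (nat_lit 0) (XT.lf (nat_lit 0) (nat_lit 1608580307) (nat_lit 532) (nat_lit 4024512842) (nat_lit 76) (nat_lit 3455514338) (nat_lit 244) (nat_lit 5) (nat_lit 251) (nat_lit 5) (nat_lit 245) (nat_lit 5) (nat_lit 426) (nat_lit 400) (nat_lit 374)) (XT.lf (nat_lit 0) (nat_lit 6326876759) (nat_lit 532) (nat_lit 2870575404) (nat_lit 76) (nat_lit 106071761) (nat_lit 238) (nat_lit 5) (nat_lit 245) (nat_lit 5) (nat_lit 239) (nat_lit 5) (nat_lit 427) (nat_lit 400) (nat_lit 373)))) (XT.nd (nat_lit 156) (nat_lit 1216) (nat_lit 0) (XT.nd (nat_lit 78) (nat_lit 456) (nat_lit 0)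 (XT.lf (nat_lit 0) (nat_lit 1753337424) (nat_lit 456) (nat_lit 1660757992) (nat_lit 76) (nat_lit 6113522008) (nat_lit 232) (nat_lit 5) (nat_lit 238) (nat_lit 5) (nat_lit 233) (nat_lit 5) (nat_lit 428) (nat_lit 400) (nat_lit 372)) (XT.lf (nat_lit 0) (nat_lit 6670180668) (nat_lit 532) (nat_lit 375592949) (nat_lit 76) (nat_lit 2715905048) (nat_lit 226) (nat_lit 5) (nat_lit 233) (nat_lit 5) (nat_lit 227) (nat_lit 5) (nat_lit 429) (nat_lit 400) (nat_lit 371))) (XT.nd (nat_lit 78) (nat_lit 380) (nat_lit 0) (XT.lf (nat_lit 0) (nat_lit 1011296830) (nat_lit 380) (nat_lit 814865228) (nat_lit 456) (nat_lit 8179668201) (nat_lit 215) (nat_lit 5) (nat_lit 220) (nat_lit 5) (nat_lit 221) (nat_lit 5) (nat_lit 430) (nat_lit 400) (nat_lit 370)) (XT.lf (nat_lit 0) (nat_lit 2457170011) (nat_lit 380) (nat_lit 4527196274) (nat_lit 456) (nat_lit 3275151211) (nat_lit 210) (nat_lit 5) (nat_lit 215) (nat_lit 5) (nat_lit 216)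 (nat_lit 5) (nat_lit 431) (nat_lit 400) (nat_lit 369))))))))
noncomputable def xc47 : XT := (XT.nd (nat_lit 2106) (nat_lit 3724) (nat_lit 0) (XT.nd (nat_lit 1014) (nat_lit 3268) (nat_lit 0) (XT.nd (nat_lit 468) (nat_lit 1976) (nat_lit 0) (XT.nd (nat_lit 234) (nat_lit 1292) (nat_lit 0) (XT.nd (nat_lit 78) (nat_lit 684) (nat_lit 0) (XT.lf (nat_lit 0) (nat_lit 1872370320) (nat_lit 456) (nat_lit 6527257847) (nat_lit 76) (nat_lit 2124693528) (nat_lit 204) (nat_lit 5) (nat_lit 210) (nat_lit 5) (nat_lit 205) (nat_lit 5) (nat_lit 432) (nat_lit 400) (nat_lit 368)) (XT.nd (nat_lit 78) (nat_lit 380) (nat_lit 0) (XT.lf (nat_lit 0) (nat_lit 5602215390) (nat_lit 304) (nat_lit 1665647716) (nat_lit 380) (nat_lit 3531784032) (nat_lit 200) (nat_lit 5) (nat_lit 204) (nat_lit 5) (nat_lit 205) (nat_lit 5) (nat_lit 433) (nat_lit 400) (nat_lit 367)) (XT.lf (nat_lit 0) (nat_lit 1879840318) (nat_lit 380) (nat_lit 3802402163)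 (nat_lit 76) (nat_lit 5403824790) (nat_lit 195) (nat_lit 5) (nat_lit 200) (nat_lit 5) (nat_lit 196) (nat_lit 5) (nat_lit 434) (nat_lit 400) (nat_lit 366)))) (XT.nd (nat_lit 78) (nat_lit 988) (nat_lit 0) (XT.lf (nat_lit 0) (nat_lit 7546015073) (nat_lit 380) (nat_lit 2335495183) (nat_lit 76) (nat_lit 1502542067) (nat_lit 191) (nat_lit 5) (nat_lit 196) (nat_lit 5) (nat_lit 192) (nat_lit 5) (nat_lit 435) (nat_lit 400) (nat_lit 365)) (XT.nd (nat_lit 78) (nat_lit 608) (nat_lit 0) (XT.lf (nat_lit 0) (nat_lit 1853138360) (nat_lit 380) (nat_lit 801795180) (nat_lit 76) (nat_lit 9038797300) (nat_lit 186) (nat_lit 5) (nat_lit 191) (nat_lit 5) (nat_lit 187) (nat_lit 5) (nat_lit 436) (nat_lit 400) (nat_lit 364)) (XT.lf (nat_lit 0) (nat_lit 806068102) (nat_lit 304) (nat_lit 7038226143) (nat_lit 380) (nat_lit 4170618005) (nat_lit 178) (nat_lit 5) (nat_lit 182) (nat_lit 5) (nat_lit 183) (nat_lit 5) (nat_lit 437)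 (nat_lit 400) (nat_lit 363))))) (XT.nd (nat_lit 234) (nat_lit 1064) (nat_lit 0) (XT.nd (nat_lit 78) (nat_lit 608) (nat_lit 0) (XT.lf (nat_lit 0) (nat_lit 1834726638) (nat_lit 304) (nat_lit 9819705616) (nat_lit 76) (nat_lit 694609198) (nat_lit 174) (nat_lit 5) (nat_lit 178) (nat_lit 5) (nat_lit 175) (nat_lit 5) (nat_lit 438) (nat_lit 400) (nat_lit 362)) (XT.nd (nat_lit 78) (nat_lit 304) (nat_lit 0) (XT.lf (nat_lit 0) (nat_lit 4293094354) (nat_lit 304) (nat_lit 3883867273) (nat_lit 380) (nat_lit 4517992923) (nat_lit 170) (nat_lit 5) (nat_lit 174) (nat_lit 5) (nat_lit 175) (nat_lit 5) (nat_lit 439) (nat_lit 400) (nat_lit 361)) (XT.lf (nat_lit 0) (nat_lit 1843117918) (nat_lit 304) (nat_lit 6899622967) (nat_lit 76) (nat_lit 4311921889) (nat_lit 166) (nat_lit 5) (nat_lit 170) (nat_lit 5) (nat_lit 167) (nat_lit 5) (nat_lit 440) (nat_lit 400) (nat_lit 360)))) (XT.nd (nat_lit 156) (nat_lit 532) (nat_lit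 0) (XT.nd (nat_lit 78) (nat_lit 304) (nat_lit 0) (XT.lf (nat_lit 0) (nat_lit 8094306600) (nat_lit 228) (nat_lit 438325189) (nat_lit 304) (nat_lit 4895271309) (nat_lit 163) (nat_lit 5) (nat_lit 166) (nat_lit 5) (nat_lit 167) (nat_lit 5) (nat_lit 441) (nat_lit 400) (nat_lit 359)) (XT.lf (nat_lit 0) (nat_lit 1854305801) (nat_lit 304) (nat_lit 3713128298) (nat_lit 76) (nat_lit 8247331130) (nat_lit 159) (nat_lit 5) (nat_lit 163) (nat_lit 5) (nat_lit 160) (nat_lit 5) (nat_lit 442) (nat_lit 400) (nat_lit 358))) (XT.nd (nat_lit 78) (nat_lit 304) (nat_lit 0) (XT.lf (nat_lit 0) (nat_lit 8953755412) (nat_lit 304) (nat_lit 2022410813) (nat_lit 76) (nat_lit 3239943133) (nat_lit 156) (nat_lit 5) (nat_lit 160) (nat_lit 5) (nat_lit 157) (nat_lit 5) (nat_lit 443) (nat_lit 400) (nat_lit 357)) (XT.lf (nat_lit 0) (nat_lit 1876811484) (nat_lit 304) (nat_lit 246356303) (nat_lit 76) (nat_lit 12509622933) (nat_lit 152)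 (nat_lit 5) (nat_lit 156) (nat_lit 5) (nat_lit 153) (nat_lit 5) (nat_lit 444) (nat_lit 400) (nat_lit 356)))))) (XT.nd (nat_lit 546) (nat_lit 1520) (nat_lit 0) (XT.nd (nat_lit 234) (nat_lit 912) (nat_lit 0) (XT.nd (nat_lit 78) (nat_lit 456) (nat_lit 0) (XT.lf (nat_lit 0) (nat_lit 1601987928) (nat_lit 152) (nat_lit 7839001420) (nat_lit 228) (nat_lit 5622448851) (nat_lit 147) (nat_lit 5) (nat_lit 149) (nat_lit 5) (nat_lit 150) (nat_lit 5) (nat_lit 445) (nat_lit 400) (nat_lit 355)) (XT.nd (nat_lit 78) (nat_lit 152) (nat_lit 0) (XT.lf (nat_lit 0) (nat_lit 1968369873) (nat_lit 304) (nat_lit 11941735327) (nat_lit 76) (nat_lit 1600864098) (nat_lit 143) (nat_lit 5) (nat_lit 147) (nat_lit 5) (nat_lit 144) (nat_lit 5) (nat_lit 446) (nat_lit 400) (nat_lit 354)) (XT.lf (nat_lit 0) (nat_lit 5573863237) (nat_lit 152) (nat_lit 4432773066) (nat_lit 228) (nat_lit 5967046530) (nat_lit 141) (nat_lit 5) (nat_lit 143)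 (nat_lit 5) (nat_lit 144) (nat_lit 5) (nat_lit 447) (nat_lit 400) (nat_lit 353)))) (XT.nd (nat_lit 156) (nat_lit 456) (nat_lit 0) (XT.nd (nat_lit 78) (nat_lit 152) (nat_lit 0) (XT.lf (nat_lit 0) (nat_lit 2114060375) (nat_lit 304) (nat_lit 8771627362) (nat_lit 76) (nat_lit 5568305986) (nat_lit 137) (nat_lit 5) (nat_lit 141) (nat_lit 5) (nat_lit 138) (nat_lit 5) (nat_lit 448) (nat_lit 400) (nat_lit 352)) (XT.lf (nat_lit 0) (nat_lit 9868767763) (nat_lit 152) (nat_lit 770511120) (nat_lit 228) (nat_lit 6312366327) (nat_lit 135) (nat_lit 5) (nat_lit 137) (nat_lit 5) (nat_lit 138) (nat_lit 5) (nat_lit 449) (nat_lit 400) (nat_lit 351))) (XT.nd (nat_lit 78) (nat_lit 152) (nat_lit 0) (XT.lf (nat_lit 0) (nat_lit 2296781967) (nat_lit 304) (nat_lit 5341919152) (nat_lit 76) (nat_lit 9828223885) (nat_lit 131) (nat_lit 5) (nat_lit 135) (nat_lit 5) (nat_lit 132) (nat_lit 5) (nat_lit 450) (nat_lit 400) (nat_lit 350))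 (XT.lf (nat_lit 0) (nat_lit 11376691504) (nat_lit 228) (nat_lit 3529637216) (nat_lit 76) (nat_lit 3094640707) (nat_lit 129) (nat_lit 5) (nat_lit 132) (nat_lit 5) (nat_lit 130) (nat_lit 5) (nat_lit 451) (nat_lit 400) (nat_lit 349))))) (XT.nd (nat_lit 234) (nat_lit 760) (nat_lit 0) (XT.nd (nat_lit 78) (nat_lit 532) (nat_lit 0) (XT.lf (nat_lit 0) (nat_lit 2521075982) (nat_lit 228) (nat_lit 1641648800) (nat_lit 76) (nat_lit 14391774113) (nat_lit 126) (nat_lit 5) (nat_lit 129) (nat_lit 5) (nat_lit 127) (nat_lit 5) (nat_lit 452) (nat_lit 400) (nat_lit 348)) (XT.nd (nat_lit 78) (nat_lit 228) (nat_lit 0) (XT.lf (nat_lit 0) (nat_lit 296595252) (nat_lit 152) (nat_lit 11911138546) (nat_lit 228) (nat_lit 6919373393) (nat_lit 122) (nat_lit 5) (nat_lit 124) (nat_lit 5) (nat_lit 125) (nat_lit 5) (nat_lit 453) (nat_lit 400) (nat_lit 347)) (XT.lf (nat_lit 0) (nat_lit 2385724714) (nat_lit 152) (nat_lit 427298511)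 (nat_lit 228) (nat_lit 16908128449) (nat_lit 119) (nat_lit 5) (nat_lit 121) (nat_lit 5) (nat_lit 122) (nat_lit 5) (nat_lit 454) (nat_lit 400) (nat_lit 346)))) (XT.nd (nat_lit 156) (nat_lit 380) (nat_lit 0) (XT.nd (nat_lit 78) (nat_lit 228) (nat_lit 0) (XT.lf (nat_lit 0) (nat_lit 4482587218) (nat_lit 152) (nat_lit 8682026760) (nat_lit 228) (nat_lit 7169959746) (nat_lit 117) (nat_lit 5) (nat_lit 119) (nat_lit 5) (nat_lit 120) (nat_lit 5) (nat_lit 455) (nat_lit 400) (nat_lit 345)) (XT.lf (nat_lit 0) (nat_lit 3204448590) (nat_lit 228) (nat_lit 14266369905) (nat_lit 76) (nat_lit 3500699785) (nat_lit 114) (nat_lit 5) (nat_lit 117) (nat_lit 5) (nat_lit 115) (nat_lit 5) (nat_lit 456) (nat_lit 400) (nat_lit 344))) (XT.nd (nat_lit 78) (nat_lit 228) (nat_lit 0) (XT.lf (nat_lit 0) (nat_lit 8965589165) (nat_lit 152) (nat_lit 5250704685) (nat_lit 228) (nat_lit 7413877274) (nat_lit 112) (nat_lit 5) (nat_lit 114)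 (nat_lit 5) (nat_lit 115) (nat_lit 5) (nat_lit 457) (nat_lit 400) (nat_lit 343)) (XT.lf (nat_lit 0) (nat_lit 3651091848) (nat_lit 228) (nat_lit 10994046970) (nat_lit 76) (nat_lit 7667774378) (nat_lit 109) (nat_lit 5) (nat_lit 112) (nat_lit 5) (nat_lit 110) (nat_lit 5) (nat_lit 458) (nat_lit 400) (nat_lit 342))))))) (XT.nd (nat_lit 1014) (nat_lit 1672) (nat_lit 0) (XT.nd (nat_lit 468) (nat_lit 988) (nat_lit 0) (XT.nd (nat_lit 234) (nat_lit 608) (nat_lit 0) (XT.nd (nat_lit 78) (nat_lit 304) (nat_lit 0) (XT.lf (nat_lit 0) (nat_lit 13750382350) (nat_lit 152) (nat_lit 1614012783) (nat_lit 228) (nat_lit 7655743335) (nat_lit 107) (nat_lit 5) (nat_lit 109) (nat_lit 5) (nat_lit 110) (nat_lit 5) (nat_lit 459) (nat_lit 400) (nat_lit 341)) (XT.nd (nat_lit 78) (nat_lit 152) (nat_lit 0) (XT.lf (nat_lit 0) (nat_lit 4146159184) (nat_lit 152) (nat_lit 7517756494) (nat_lit 76) (nat_lit 12088036050) (nat_lit 105)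 (nat_lit 5) (nat_lit 107) (nat_lit 5) (nat_lit 106) (nat_lit 5) (nat_lit 460) (nat_lit 400) (nat_lit 340)) (XT.lf (nat_lit 0) (nat_lit 16629607061) (nat_lit 228) (nat_lit 5694563988) (nat_lit 76) (nat_lit 2186417770) (nat_lit 103) (nat_lit 5) (nat_lit 106) (nat_lit 5) (nat_lit 104) (nat_lit 4) (nat_lit 461) (nat_lit 400) (nat_lit 339)))) (XT.nd (nat_lit 78) (nat_lit 456) (nat_lit 0) (XT.lf (nat_lit 0) (nat_lit 4684102193) (nat_lit 152) (nat_lit 3845597635) (nat_lit 76) (nat_lit 16765966611) (nat_lit 101) (nat_lit 5) (nat_lit 103) (nat_lit 5) (nat_lit 102) (nat_lit 5) (nat_lit 462) (nat_lit 400) (nat_lit 338)) (XT.nd (nat_lit 78) (nat_lit 304) (nat_lit 0) (XT.lf (nat_lit 0) (nat_lit 18004367358) (nat_lit 228) (nat_lit 1946015678) (nat_lit 76) (nat_lit 6158577043) (nat_lit 99) (nat_lit 5) (nat_lit 102) (nat_lit 5) (nat_lit 100) (nat_lit 4) (nat_lit 463) (nat_lit 400) (nat_lit 337)) (XT.lf (nat_lit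 0) (nat_lit 8546748) (nat_lit 152) (nat_lit 5247450012) (nat_lit 228) (nat_lit 21695680917) (nat_lit 95) (nat_lit 5) (nat_lit 97) (nat_lit 5) (nat_lit 98) (nat_lit 5) (nat_lit 464) (nat_lit 400) (nat_lit 336))))) (XT.nd (nat_lit 234) (nat_lit 608) (nat_lit 0) (XT.nd (nat_lit 78) (nat_lit 304) (nat_lit 0) (XT.lf (nat_lit 0) (nat_lit 2013074732) (nat_lit 76) (nat_lit 17472258365) (nat_lit 152) (nat_lit 8337741261) (nat_lit 94) (nat_lit 5) (nat_lit 95) (nat_lit 5) (nat_lit 96) (nat_lit 4) (nat_lit 465) (nat_lit 400) (nat_lit 335)) (XT.nd (nat_lit 78) (nat_lit 76) (nat_lit 0) (XT.lf (nat_lit 0) (nat_lit 4102738017) (nat_lit 152) (nat_lit 1785112181) (nat_lit 228) (nat_lit 22839228304) (nat_lit 91) (nat_lit 5) (nat_lit 93) (nat_lit 5) (nat_lit 94) (nat_lit 5) (nat_lit 466) (nat_lit 400) (nat_lit 334)) (XT.lf (nat_lit 0) (nat_lit 6159129198) (nat_lit 76) (nat_lit 14903031124) (nat_lit 152) (nat_lit 8599350118)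 (nat_lit 90) (nat_lit 5) (nat_lit 91) (nat_lit 5) (nat_lit 92) (nat_lit 4) (nat_lit 467) (nat_lit 400) (nat_lit 333)))) (XT.nd (nat_lit 156) (nat_lit 304) (nat_lit 0) (XT.nd (nat_lit 78) (nat_lit 76) (nat_lit 0) (XT.lf (nat_lit 0) (nat_lit 6540788529) (nat_lit 228) (nat_lit 22320241352) (nat_lit 76) (nat_lit 1770435750) (nat_lit 87) (nat_lit 5) (nat_lit 90) (nat_lit 5) (nat_lit 88) (nat_lit 4) (nat_lit 468) (nat_lit 400) (nat_lit 332)) (XT.lf (nat_lit 0) (nat_lit 10416530540) (nat_lit 76) (nat_lit 12282142096) (nat_lit 152) (nat_lit 8935534477) (nat_lit 86) (nat_lit 5) (nat_lit 87) (nat_lit 5) (nat_lit 88) (nat_lit 4) (nat_lit 469) (nat_lit 400) (nat_lit 331))) (XT.nd (nat_lit 78) (nat_lit 76) (nat_lit 0) (XT.lf (nat_lit 0) (nat_lit 7190952939) (nat_lit 228) (nat_lit 20084378019) (nat_lit 76) (nat_lit 5399250708) (nat_lit 83) (nat_lit 5) (nat_lit 86) (nat_lit 5) (nat_lit 84) (nat_lit 4) (nat_lit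 470) (nat_lit 400) (nat_lit 330)) (XT.lf (nat_lit 0) (nat_lit 14735581420) (nat_lit 76) (nat_lit 9635708116) (nat_lit 152) (nat_lit 9380061864) (nat_lit 82) (nat_lit 5) (nat_lit 83) (nat_lit 5) (nat_lit 84) (nat_lit 4) (nat_lit 471) (nat_lit 400) (nat_lit 329)))))) (XT.nd (nat_lit 546) (nat_lit 760) (nat_lit 0) (XT.nd (nat_lit 234) (nat_lit 456) (nat_lit 0) (XT.nd (nat_lit 78) (nat_lit 228) (nat_lit 0) (XT.lf (nat_lit 0) (nat_lit 7788769850) (nat_lit 228) (nat_lit 17967037620) (nat_lit 76) (nat_lit 9111771408) (nat_lit 79) (nat_lit 5) (nat_lit 82) (nat_lit 5) (nat_lit 80) (nat_lit 4) (nat_lit 472) (nat_lit 400) (nat_lit 328)) (XT.nd (nat_lit 78) (nat_lit 152) (nat_lit 0) (XT.lf (nat_lit 0) (nat_lit 19050978212) (nat_lit 76) (nat_lit 6997613866) (nat_lit 152) (nat_lit 9975443499) (nat_lit 78) (nat_lit 5) (nat_lit 79) (nat_lit 5) (nat_lit 80) (nat_lit 4) (nat_lit 473) (nat_lit 400) (nat_lit 327))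 (XT.lf (nat_lit 0) (nat_lit 8292790017) (nat_lit 152) (nat_lit 16053727049) (nat_lit 76) (nat_lit 12875531812) (nat_lit 76) (nat_lit 5) (nat_lit 78) (nat_lit 5) (nat_lit 77) (nat_lit 4) (nat_lit 474) (nat_lit 400) (nat_lit 326)))) (XT.nd (nat_lit 156) (nat_lit 228) (nat_lit 0) (XT.nd (nat_lit 78) (nat_lit 152) (nat_lit 0) (XT.lf (nat_lit 0) (nat_lit 23278494379) (nat_lit 76) (nat_lit 4411213928) (nat_lit 152) (nat_lit 10774644377) (nat_lit 75) (nat_lit 5) (nat_lit 76) (nat_lit 5) (nat_lit 77) (nat_lit 4) (nat_lit 475) (nat_lit 400) (nat_lit 325)) (XT.lf (nat_lit 0) (nat_lit 8650726880) (nat_lit 152) (nat_lit 14451707615) (nat_lit 76) (nat_lit 16648204966) (nat_lit 73) (nat_lit 5) (nat_lit 75) (nat_lit 5) (nat_lit 74) (nat_lit 4) (nat_lit 476) (nat_lit 400) (nat_lit 324))) (XT.nd (nat_lit 78) (nat_lit 152) (nat_lit 0) (XT.lf (nat_lit 0) (nat_lit 27311051156) (nat_lit 76) (nat_lit 1931343382) (nat_lit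 152) (nat_lit 11843109957) (nat_lit 72) (nat_lit 5) (nat_lit 73) (nat_lit 5) (nat_lit 74) (nat_lit 4) (nat_lit 477) (nat_lit 400) (nat_lit 323)) (XT.lf (nat_lit 0) (nat_lit 8797319854) (nat_lit 152) (nat_lit 13294364246) (nat_lit 76) (nat_lit 20375485981) (nat_lit 70) (nat_lit 5) (nat_lit 72) (nat_lit 5) (nat_lit 71) (nat_lit 4) (nat_lit 478) (nat_lit 400) (nat_lit 322))))) (XT.nd (nat_lit 234) (nat_lit 456) (nat_lit 0) (XT.nd (nat_lit 78) (nat_lit 228) (nat_lit 0) (XT.lf (nat_lit 0) (nat_lit 30644347676) (nat_lit 152) (nat_lit 12891445358) (nat_lit 0) (nat_lit 366023054) (nat_lit 69) (nat_lit 5) (nat_lit 71) (nat_lit 4) (nat_lit 69) (nat_lit 4) (nat_lit 479) (nat_lit 400) (nat_lit 321)) (XT.nd (nat_lit 78) (nat_lit 76) (nat_lit 0) (XT.lf (nat_lit 0) (nat_lit 8651804595) (nat_lit 152) (nat_lit 12746368698) (nat_lit 76) (nat_lit 23988589455) (nat_lit 67) (nat_lit 5) (nat_lit 69) (nat_lit 5) (nat_lit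 68) (nat_lit 4) (nat_lit 480) (nat_lit 400) (nat_lit 320)) (XT.lf (nat_lit 0) (nat_lit 31825804297) (nat_lit 152) (nat_lit 12732692823) (nat_lit 0) (nat_lit 2370218504) (nat_lit 66) (nat_lit 5) (nat_lit 68) (nat_lit 4) (nat_lit 66) (nat_lit 4) (nat_lit 481) (nat_lit 400) (nat_lit 319)))) (XT.nd (nat_lit 156) (nat_lit 228) (nat_lit 0) (XT.nd (nat_lit 78) (nat_lit 76) (nat_lit 0) (XT.lf (nat_lit 0) (nat_lit 8114921716) (nat_lit 152) (nat_lit 13009776297) (nat_lit 76) (nat_lit 27401292619) (nat_lit 64) (nat_lit 5) (nat_lit 66) (nat_lit 5) (nat_lit 65) (nat_lit 4) (nat_lit 482) (nat_lit 400) (nat_lit 318)) (XT.lf (nat_lit 0) (nat_lit 32665418106) (nat_lit 152) (nat_lit 13503031519) (nat_lit 0) (nat_lit 4015670217) (nat_lit 63) (nat_lit 5) (nat_lit 65) (nat_lit 4) (nat_lit 63) (nat_lit 4) (nat_lit 483) (nat_lit 400) (nat_lit 317))) (XT.nd (nat_lit 78) (nat_lit 76) (nat_lit 0) (XT.lf (nat_lit 0) (nat_lit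 7065383631) (nat_lit 152) (nat_lit 14331219710) (nat_lit 76) (nat_lit 30506443734) (nat_lit 61) (nat_lit 5) (nat_lit 63) (nat_lit 5) (nat_lit 62) (nat_lit 4) (nat_lit 484) (nat_lit 400) (nat_lit 316)) (XT.lf (nat_lit 0) (nat_lit 33036876867) (nat_lit 152) (nat_lit 15474509794) (nat_lit 0) (nat_lit 5175715055) (nat_lit 60) (nat_lit 5) (nat_lit 62) (nat_lit 4) (nat_lit 60) (nat_lit 4) (nat_lit 485) (nat_lit 400) (nat_lit 315))))))))
noncomputable def xc48 : XT := (XT.nd (nat_lit 56862) (nat_lit 0) (nat_lit 9728) (XT.nd (nat_lit 55848) (nat_lit 0) (nat_lit 26828) (XT.nd (nat_lit 468) (nat_lit 684) (nat_lit 0) (XT.nd (nat_lit 234) (nat_lit 304) (nat_lit 0) (XT.nd (nat_lit 78) (nat_lit 228) (nat_lit 0) (XT.lf (nat_lit 0) (nat_lit 5355705324) (nat_lit 152) (nat_lit 17010391316) (nat_lit 76) (nat_lit 33171841485) (nat_lit 58) (nat_lit 5) (nat_lit 60) (nat_lit 5) (nat_lit 59) (nat_lit 4) (nat_lit 486) (nat_lit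 400) (nat_lit 314)) (XT.nd (nat_lit 78) (nat_lit 152) (nat_lit 0) (XT.lf (nat_lit 0) (nat_lit 32785844330) (nat_lit 152) (nat_lit 18977031952) (nat_lit 0) (nat_lit 5695776744) (nat_lit 57) (nat_lit 5) (nat_lit 59) (nat_lit 4) (nat_lit 57) (nat_lit 4) (nat_lit 487) (nat_lit 400) (nat_lit 313)) (XT.lf (nat_lit 0) (nat_lit 2807288649) (nat_lit 152) (nat_lit 21410038605) (nat_lit 76) (nat_lit 35235374956) (nat_lit 55) (nat_lit 5) (nat_lit 57) (nat_lit 5) (nat_lit 56) (nat_lit 4) (nat_lit 488) (nat_lit 400) (nat_lit 312)))) (XT.nd (nat_lit 78) (nat_lit 228) (nat_lit 0) (XT.lf (nat_lit 0) (nat_lit 31724661255) (nat_lit 152) (nat_lit 24409206229) (nat_lit 0) (nat_lit 5388051664) (nat_lit 54) (nat_lit 5) (nat_lit 56) (nat_lit 4) (nat_lit 54) (nat_lit 4) (nat_lit 489) (nat_lit 400) (nat_lit 311)) (XT.nd (nat_lit 78) (nat_lit 152) (nat_lit 0) (XT.lf (nat_lit 0) (nat_lit 35695893982) (nat_lit 76) (nat_lit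 27164334635) (nat_lit 76) (nat_lit 811198632) (nat_lit 53) (nat_lit 4) (nat_lit 54) (nat_lit 5) (nat_lit 54) (nat_lit 4) (nat_lit 490) (nat_lit 400) (nat_lit 310)) (XT.lf (nat_lit 0) (nat_lit 29626100437) (nat_lit 152) (nat_lit 32251116623) (nat_lit 0) (nat_lit 4025250493) (nat_lit 51) (nat_lit 5) (nat_lit 53) (nat_lit 4) (nat_lit 51) (nat_lit 4) (nat_lit 491) (nat_lit 400) (nat_lit 309))))) (XT.nd (nat_lit 234) (nat_lit 380) (nat_lit 0) (XT.nd (nat_lit 78) (nat_lit 228) (nat_lit 0) (XT.lf (nat_lit 0) (nat_lit 30954294947) (nat_lit 76) (nat_lit 31440568045) (nat_lit 76) (nat_lit 5825164759) (nat_lit 50) (nat_lit 4) (nat_lit 51) (nat_lit 5) (nat_lit 51) (nat_lit 4) (nat_lit 492) (nat_lit 400) (nat_lit 308)) (XT.nd (nat_lit 78) (nat_lit 76) (nat_lit 0) (XT.lf (nat_lit 0) (nat_lit 26216011828) (nat_lit 152) (nat_lit 43079351877) (nat_lit 0) (nat_lit 1333231623) (nat_lit 48) (nat_lit 5) (nat_lit 50)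 (nat_lit 4) (nat_lit 48) (nat_lit 4) (nat_lit 493) (nat_lit 400) (nat_lit 307)) (XT.lf (nat_lit 0) (nat_lit 23241629732) (nat_lit 76) (nat_lit 37391498399) (nat_lit 76) (nat_lit 12495902359) (nat_lit 47) (nat_lit 4) (nat_lit 48) (nat_lit 5) (nat_lit 48) (nat_lit 4) (nat_lit 494) (nat_lit 400) (nat_lit 306)))) (XT.nd (nat_lit 156) (nat_lit 152) (nat_lit 0) (XT.nd (nat_lit 78) (nat_lit 76) (nat_lit 0) (XT.lf (nat_lit 0) (nat_lit 18116527434) (nat_lit 76) (nat_lit 3077723319) (nat_lit 152) (nat_lit 54536543563) (nat_lit 45) (nat_lit 5) (nat_lit 46) (nat_lit 5) (nat_lit 47) (nat_lit 4) (nat_lit 495) (nat_lit 400) (nat_lit 305)) (XT.lf (nat_lit 0) (nat_lit 11831825165) (nat_lit 76) (nat_lit 45396594362) (nat_lit 76) (nat_lit 21202976948) (nat_lit 44) (nat_lit 4) (nat_lit 45) (nat_lit 5) (nat_lit 45) (nat_lit 4) (nat_lit 496) (nat_lit 400) (nat_lit 304))) (XT.nd (nat_lit 78) (nat_lit 0) (nat_lit 0) (XT.lf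 (nat_lit 0) (nat_lit 4558603079) (nat_lit 76) (nat_lit 9610347090) (nat_lit 152) (nat_lit 67074872307) (nat_lit 42) (nat_lit 5) (nat_lit 43) (nat_lit 5) (nat_lit 44) (nat_lit 4) (nat_lit 497) (nat_lit 400) (nat_lit 303)) (XT.lf (nat_lit 0) (nat_lit 51803950131) (nat_lit 152) (nat_lit 4064004674) (nat_lit 0) (nat_lit 28294627521) (nat_lit 42) (nat_lit 5) (nat_lit 44) (nat_lit 4) (nat_lit 42) (nat_lit 4) (nat_lit 498) (nat_lit 400) (nat_lit 302)))))) (XT.nd (nat_lit 468) (nat_lit 4104) (nat_lit 0) (XT.nd (nat_lit 234) (nat_lit 836) (nat_lit 0) (XT.nd (nat_lit 78) (nat_lit 532) (nat_lit 0) (XT.lf (nat_lit 0) (nat_lit 1886953356) (nat_lit 228) (nat_lit 669882227) (nat_lit 228) (nat_lit 669882227) (nat_lit 467) (nat_lit 3) (nat_lit 470) (nat_lit 3) (nat_lit 470) (nat_lit 5) (nat_lit 401) (nat_lit 401) (nat_lit 398)) (XT.nd (nat_lit 78) (nat_lit 304) (nat_lit 0) (XT.lf (nat_lit 0) (nat_lit 2188804246)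 (nat_lit 228) (nat_lit 2420941450) (nat_lit 304) (nat_lit 1858966056) (nat_lit 464) (nat_lit 5) (nat_lit 467) (nat_lit 3) (nat_lit 468) (nat_lit 5) (nat_lit 402) (nat_lit 401) (nat_lit 397)) (XT.lf (nat_lit 0) (nat_lit 476512439) (nat_lit 304) (nat_lit 3382170134) (nat_lit 380) (nat_lit 2633173035) (nat_lit 460) (nat_lit 5) (nat_lit 464) (nat_lit 5) (nat_lit 465) (nat_lit 5) (nat_lit 403) (nat_lit 401) (nat_lit 396)))) (XT.nd (nat_lit 78) (nat_lit 836) (nat_lit 0) (XT.lf (nat_lit 76) (nat_lit 2284502968) (nat_lit 0) (nat_lit 2844453346) (nat_lit 380) (nat_lit 1393551219) (nat_lit 461) (nat_lit 5) (nat_lit 460) (nat_lit 5) (nat_lit 465) (nat_lit 5) (nat_lit 404) (nat_lit 401) (nat_lit 395)) (XT.nd (nat_lit 78) (nat_lit 456) (nat_lit 0) (XT.lf (nat_lit 76) (nat_lit 1579113885) (nat_lit 0) (nat_lit 1571711450) (nat_lit 456) (nat_lit 3410121044) (nat_lit 456) (nat_lit 5) (nat_lit 455) (nat_lit 5) (nat_lit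 461) (nat_lit 5) (nat_lit 405) (nat_lit 401) (nat_lit 394)) (XT.lf (nat_lit 76) (nat_lit 997929302) (nat_lit 0) (nat_lit 41499041) (nat_lit 532) (nat_lit 5567953940) (nat_lit 450) (nat_lit 5) (nat_lit 449) (nat_lit 5) (nat_lit 456) (nat_lit 5) (nat_lit 406) (nat_lit 401) (nat_lit 393))))) (XT.nd (nat_lit 234) (nat_lit 3040) (nat_lit 0) (XT.nd (nat_lit 78) (nat_lit 684) (nat_lit 0) (XT.lf (nat_lit 0) (nat_lit 511545010) (nat_lit 456) (nat_lit 4932792259) (nat_lit 532) (nat_lit 1216706825) (nat_lit 444) (nat_lit 5) (nat_lit 450) (nat_lit 5) (nat_lit 451) (nat_lit 5) (nat_lit 407) (nat_lit 401) (nat_lit 392)) (XT.nd (nat_lit 78) (nat_lit 76) (nat_lit 0) (XT.lf (nat_lit 0) (nat_lit 134731829) (nat_lit 532) (nat_lit 2951595998) (nat_lit 608) (nat_lit 3636123216) (nat_lit 436) (nat_lit 5) (nat_lit 443) (nat_lit 5) (nat_lit 444) (nat_lit 5) (nat_lit 408) (nat_lit 401) (nat_lit 391)) (XT.lf (nat_lit 0)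 (nat_lit 589244596) (nat_lit 608) (nat_lit 118621017) (nat_lit 76) (nat_lit 6084131265) (nat_lit 435) (nat_lit 5) (nat_lit 443) (nat_lit 5) (nat_lit 436) (nat_lit 5) (nat_lit 409) (nat_lit 401) (nat_lit 390)))) (XT.nd (nat_lit 156) (nat_lit 1672) (nat_lit 0) (XT.nd (nat_lit 78) (nat_lit 760) (nat_lit 0) (XT.lf (nat_lit 0) (nat_lit 4792249320) (nat_lit 684) (nat_lit 287301186) (nat_lit 76) (nat_lit 1789158084) (nat_lit 427) (nat_lit 5) (nat_lit 436) (nat_lit 5) (nat_lit 428) (nat_lit 5) (nat_lit 410) (nat_lit 401) (nat_lit 389)) (XT.lf (nat_lit 0) (nat_lit 2053013097) (nat_lit 760) (nat_lit 351700241) (nat_lit 76) (nat_lit 4548679731) (nat_lit 417) (nat_lit 5) (nat_lit 427) (nat_lit 5) (nat_lit 418) (nat_lit 5) (nat_lit 411) (nat_lit 401) (nat_lit 388))) (XT.nd (nat_lit 78) (nat_lit 912) (nat_lit 0) (XT.lf (nat_lit 0) (nat_lit 6197054315) (nat_lit 836) (nat_lit 311078337) (nat_lit 76) (nat_lit 538044986)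 (nat_lit 407) (nat_lit 5) (nat_lit 418) (nat_lit 5) (nat_lit 408) (nat_lit 5) (nat_lit 412) (nat_lit 401) (nat_lit 387)) (XT.lf (nat_lit 0) (nat_lit 3219184215) (nat_lit 912) (nat_lit 197674818) (nat_lit 76) (nat_lit 3729345563) (nat_lit 395) (nat_lit 5) (nat_lit 407) (nat_lit 5) (nat_lit 396) (nat_lit 5) (nat_lit 413) (nat_lit 401) (nat_lit 386))))))) (XT.nd (nat_lit 1014) (nat_lit 5624) (nat_lit 0) (XT.nd (nat_lit 468) (nat_lit 4484) (nat_lit 0) (XT.nd (nat_lit 234) (nat_lit 2736) (nat_lit 0) (XT.nd (nat_lit 78) (nat_lit 2280) (nat_lit 0) (XT.lf (nat_lit 0) (nat_lit 34814289) (nat_lit 988) (nat_lit 49270364) (nat_lit 1064) (nat_lit 7170861970) (nat_lit 369) (nat_lit 5) (nat_lit 382) (nat_lit 5) (nat_lit 383) (nat_lit 5) (nat_lit 414) (nat_lit 401) (nat_lit 385)) (XT.nd (nat_lit 78) (nat_lit 1216) (nat_lit 0) (XT.lf (nat_lit 0) (nat_lit 326796060) (nat_lit 1064) (nat_lit 3802075186) (nat_lit 1140)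 (nat_lit 3241669026) (nat_lit 355) (nat_lit 5) (nat_lit 369) (nat_lit 5) (nat_lit 370) (nat_lit 5) (nat_lit 415) (nat_lit 401) (nat_lit 384)) (XT.lf (nat_lit 0) (nat_lit 739162507) (nat_lit 1140) (nat_lit 14699084) (nat_lit 1216) (nat_lit 6741193666) (nat_lit 339) (nat_lit 5) (nat_lit 354) (nat_lit 5) (nat_lit 355) (nat_lit 5) (nat_lit 416) (nat_lit 401) (nat_lit 383)))) (XT.nd (nat_lit 78) (nat_lit 1520) (nat_lit 0) (XT.lf (nat_lit 0) (nat_lit 1208351128) (nat_lit 1216) (nat_lit 3609587647) (nat_lit 1292) (nat_lit 2808829873) (nat_lit 323) (nat_lit 5) (nat_lit 339) (nat_lit 5) (nat_lit 340) (nat_lit 5) (nat_lit 417) (nat_lit 401) (nat_lit 382)) (XT.nd (nat_lit 78) (nat_lit 608) (nat_lit 0) (XT.lf (nat_lit 0) (nat_lit 1205459738) (nat_lit 912) (nat_lit 5979781538) (nat_lit 76) (nat_lit 582122838) (nat_lit 311) (nat_lit 5) (nat_lit 323) (nat_lit 5) (nat_lit 312) (nat_lit 5) (nat_lit 418) (nat_lit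 401) (nat_lit 381)) (XT.lf (nat_lit 0) (nat_lit 2429741180) (nat_lit 608) (nat_lit 2884483205) (nat_lit 684) (nat_lit 2601383844) (nat_lit 303) (nat_lit 5) (nat_lit 311) (nat_lit 5) (nat_lit 312) (nat_lit 5) (nat_lit 419) (nat_lit 401) (nat_lit 380))))) (XT.nd (nat_lit 234) (nat_lit 2584) (nat_lit 0) (XT.nd (nat_lit 78) (nat_lit 1216) (nat_lit 0) (XT.lf (nat_lit 0) (nat_lit 1466076741) (nat_lit 684) (nat_lit 4903512476) (nat_lit 76) (nat_lit 1703055358) (nat_lit 294) (nat_lit 5) (nat_lit 303) (nat_lit 5) (nat_lit 295) (nat_lit 5) (nat_lit 420) (nat_lit 401) (nat_lit 379)) (XT.nd (nat_lit 78) (nat_lit 684) (nat_lit 0) (XT.lf (nat_lit 0) (nat_lit 3982083247) (nat_lit 532) (nat_lit 1662158125) (nat_lit 608) (nat_lit 2593692413) (nat_lit 287) (nat_lit 5) (nat_lit 294) (nat_lit 5) (nat_lit 295) (nat_lit 5) (nat_lit 421) (nat_lit 401) (nat_lit 378)) (XT.lf (nat_lit 0) (nat_lit 1559726370) (nat_lit 684)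 (nat_lit 3534694531) (nat_lit 76) (nat_lit 3317461291) (nat_lit 278) (nat_lit 5) (nat_lit 287) (nat_lit 5) (nat_lit 279) (nat_lit 5) (nat_lit 422) (nat_lit 401) (nat_lit 377)))) (XT.nd (nat_lit 156) (nat_lit 1444) (nat_lit 0) (XT.nd (nat_lit 78) (nat_lit 608) (nat_lit 0) (XT.lf (nat_lit 0) (nat_lit 5831923050) (nat_lit 608) (nat_lit 2734542288) (nat_lit 76) (nat_lit 28356592) (nat_lit 271) (nat_lit 5) (nat_lit 279) (nat_lit 5) (nat_lit 272) (nat_lit 5) (nat_lit 423) (nat_lit 401) (nat_lit 376)) (XT.lf (nat_lit 0) (nat_lit 1507844109) (nat_lit 608) (nat_lit 1877395126) (nat_lit 76) (nat_lit 5401027371) (nat_lit 263) (nat_lit 5) (nat_lit 271) (nat_lit 5) (nat_lit 264) (nat_lit 5) (nat_lit 424) (nat_lit 401) (nat_lit 375))) (XT.nd (nat_lit 78) (nat_lit 988) (nat_lit 0) (XT.lf (nat_lit 0) (nat_lit 5918412755) (nat_lit 532) (nat_lit 944278862) (nat_lit 76) (nat_lit 2124274310) (nat_lit 257) (nat_lit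 5) (nat_lit 264) (nat_lit 5) (nat_lit 258) (nat_lit 5) (nat_lit 425) (nat_lit 401) (nat_lit 374)) (XT.lf (nat_lit 0) (nat_lit 69061524) (nat_lit 456) (nat_lit 1261073054) (nat_lit 532) (nat_lit 7867040207) (nat_lit 244) (nat_lit 5) (nat_lit 250) (nat_lit 5) (nat_lit 251) (nat_lit 5) (nat_lit 426) (nat_lit 401) (nat_lit 373)))))) (XT.nd (nat_lit 546) (nat_lit 2584) (nat_lit 0) (XT.nd (nat_lit 234) (nat_lit 1672) (nat_lit 0) (XT.nd (nat_lit 78) (nat_lit 912) (nat_lit 0) (XT.lf (nat_lit 0) (nat_lit 1154543576) (nat_lit 456) (nat_lit 4763084099) (nat_lit 532) (nat_lit 3498390208) (nat_lit 238) (nat_lit 5) (nat_lit 244) (nat_lit 5) (nat_lit 245) (nat_lit 5) (nat_lit 427) (nat_lit 401) (nat_lit 372)) (XT.nd (nat_lit 78) (nat_lit 456) (nat_lit 0) (XT.lf (nat_lit 0) (nat_lit 1076463931) (nat_lit 456) (nat_lit 7309002751) (nat_lit 76) (nat_lit 1259756873) (nat_lit 232) (nat_lit 5) (nat_lit 238) (nat_lit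 5) (nat_lit 233) (nat_lit 5) (nat_lit 428) (nat_lit 401) (nat_lit 371)) (XT.lf (nat_lit 0) (nat_lit 3568056440) (nat_lit 456) (nat_lit 2279433538) (nat_lit 532) (nat_lit 4036171591) (nat_lit 226) (nat_lit 5) (nat_lit 232) (nat_lit 5) (nat_lit 233) (nat_lit 5) (nat_lit 429) (nat_lit 401) (nat_lit 370)))) (XT.nd (nat_lit 156) (nat_lit 836) (nat_lit 0) (XT.nd (nat_lit 78) (nat_lit 380) (nat_lit 0) (XT.lf (nat_lit 0) (nat_lit 747087413) (nat_lit 456) (nat_lit 5244106162) (nat_lit 76) (nat_lit 4141479146) (nat_lit 220) (nat_lit 5) (nat_lit 226) (nat_lit 5) (nat_lit 221) (nat_lit 5) (nat_lit 430) (nat_lit 401) (nat_lit 369)) (XT.lf (nat_lit 0) (nat_lit 5719558742) (nat_lit 456) (nat_lit 4113091162) (nat_lit 76) (nat_lit 559284026) (nat_lit 215) (nat_lit 5) (nat_lit 221) (nat_lit 5) (nat_lit 216) (nat_lit 5) (nat_lit 431) (nat_lit 401) (nat_lit 368))) (XT.nd (nat_lit 78) (nat_lit 380) (nat_lit 0) (XT.lf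 (nat_lit 0) (nat_lit 343305531) (nat_lit 456) (nat_lit 2914991088) (nat_lit 76) (nat_lit 7403619445) (nat_lit 209) (nat_lit 5) (nat_lit 215) (nat_lit 5) (nat_lit 210) (nat_lit 5) (nat_lit 432) (nat_lit 401) (nat_lit 367)) (XT.lf (nat_lit 0) (nat_lit 5567640618) (nat_lit 456) (nat_lit 1666294231) (nat_lit 76) (nat_lit 3708443139) (nat_lit 204) (nat_lit 5) (nat_lit 210) (nat_lit 5) (nat_lit 205) (nat_lit 5) (nat_lit 433) (nat_lit 401) (nat_lit 366))))) (XT.nd (nat_lit 234) (nat_lit 1292) (nat_lit 0) (XT.nd (nat_lit 78) (nat_lit 988) (nat_lit 0) (XT.lf (nat_lit 0) (nat_lit 10920958994) (nat_lit 304) (nat_lit 188876242) (nat_lit 380) (nat_lit 125331901) (nat_lit 200) (nat_lit 5) (nat_lit 204) (nat_lit 5) (nat_lit 205) (nat_lit 5) (nat_lit 434) (nat_lit 401) (nat_lit 365)) (XT.nd (nat_lit 78) (nat_lit 304) (nat_lit 0) (XT.lf (nat_lit 0) (nat_lit 1077542652) (nat_lit 304) (nat_lit 4315258364) (nat_lit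 380) (nat_lit 6144903481) (nat_lit 191) (nat_lit 5) (nat_lit 195) (nat_lit 5) (nat_lit 196) (nat_lit 5) (nat_lit 435) (nat_lit 401) (nat_lit 364)) (XT.lf (nat_lit 0) (nat_lit 2585909960) (nat_lit 304) (nat_lit 8671186980) (nat_lit 380) (nat_lit 596052112) (nat_lit 187) (nat_lit 5) (nat_lit 191) (nat_lit 5) (nat_lit 192) (nat_lit 5) (nat_lit 436) (nat_lit 401) (nat_lit 363)))) (XT.nd (nat_lit 156) (nat_lit 608) (nat_lit 0) (XT.nd (nat_lit 78) (nat_lit 304) (nat_lit 0) (XT.lf (nat_lit 0) (nat_lit 4148170683) (nat_lit 304) (nat_lit 1067174966) (nat_lit 380) (nat_lit 6964899735) (nat_lit 182) (nat_lit 5) (nat_lit 186) (nat_lit 5) (nat_lit 187) (nat_lit 5) (nat_lit 437) (nat_lit 401) (nat_lit 362)) (XT.lf (nat_lit 0) (nat_lit 5789117646) (nat_lit 304) (nat_lit 5632451073) (nat_lit 380) (nat_lit 1098455934) (nat_lit 178) (nat_lit 5) (nat_lit 182) (nat_lit 5) (nat_lit 183) (nat_lit 5) (nat_lit 438) (nat_lit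 401) (nat_lit 361))) (XT.nd (nat_lit 78) (nat_lit 304) (nat_lit 0) (XT.lf (nat_lit 0) (nat_lit 5053563670) (nat_lit 304) (nat_lit 5370836602) (nat_lit 76) (nat_lit 2448204950) (nat_lit 174) (nat_lit 5) (nat_lit 178) (nat_lit 5) (nat_lit 175) (nat_lit 5) (nat_lit 439) (nat_lit 401) (nat_lit 360)) (XT.lf (nat_lit 0) (nat_lit 9306003434) (nat_lit 304) (nat_lit 2304121173) (nat_lit 380) (nat_lit 1628776527) (nat_lit 170) (nat_lit 5) (nat_lit 174) (nat_lit 5) (nat_lit 175) (nat_lit 5) (nat_lit 440) (nat_lit 401) (nat_lit 359))))))))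
noncomputable def xc49 : XT := (XT.nd (nat_lit 2028) (nat_lit 3344) (nat_lit 0) (XT.nd (nat_lit 1014) (nat_lit 2280) (nat_lit 0) (XT.nd (nat_lit 468) (nat_lit 1748) (nat_lit 0) (XT.nd (nat_lit 234) (nat_lit 684) (nat_lit 0) (XT.nd (nat_lit 78) (nat_lit 760) (nat_lit 0) (XT.lf (nat_lit 0) (nat_lit 4906500090) (nat_lit 304) (nat_lit 2453056275) (nat_lit 76) (nat_lit 6258636465) (nat_lit 166) (nat_lit 5) (nat_lit 170) (nat_lit 5) (nat_lit 167) (nat_lit 5) (nat_lit 441) (nat_lit 401) (nat_lit 358)) (XT.nd (nat_lit 78) (nat_lit 532) (nat_lit 0) (XT.lf (nat_lit 0) (nat_lit 11846425341) (nat_lit 304) (nat_lit 872463397) (nat_lit 76) (nat_lit 1293731520) (nat_lit 163) (nat_lit 5) (nat_lit 167) (nat_lit 5) (nat_lit 164) (nat_lit 5) (nat_lit 442) (nat_lit 401) (nat_lit 357)) (XT.lf (nat_lit 0) (nat_lit 760342584) (nat_lit 228) (nat_lit 4019743366) (nat_lit 304) (nat_lit 9640367218) (nat_lit 156) (nat_lit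 5) (nat_lit 159) (nat_lit 5) (nat_lit 160) (nat_lit 5) (nat_lit 443) (nat_lit 401) (nat_lit 356)))) (XT.nd (nat_lit 78) (nat_lit 456) (nat_lit 0) (XT.lf (nat_lit 0) (nat_lit 2501458350) (nat_lit 228) (nat_lit 9675668396) (nat_lit 304) (nat_lit 2666461975) (nat_lit 153) (nat_lit 5) (nat_lit 156) (nat_lit 5) (nat_lit 157) (nat_lit 5) (nat_lit 444) (nat_lit 401) (nat_lit 355)) (XT.nd (nat_lit 78) (nat_lit 152) (nat_lit 0) (XT.lf (nat_lit 0) (nat_lit 4324293313) (nat_lit 228) (nat_lit 377683789) (nat_lit 304) (nat_lit 10580461995) (nat_lit 149) (nat_lit 5) (nat_lit 152) (nat_lit 5) (nat_lit 153) (nat_lit 5) (nat_lit 445) (nat_lit 401) (nat_lit 354)) (XT.lf (nat_lit 0) (nat_lit 6201086967) (nat_lit 152) (nat_lit 6376043898) (nat_lit 228) (nat_lit 3159507522) (nat_lit 147) (nat_lit 5) (nat_lit 149) (nat_lit 5) (nat_lit 150) (nat_lit 5) (nat_lit 446) (nat_lit 401) (nat_lit 353))))) (XT.nd (nat_lit 234)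 (nat_lit 988) (nat_lit 0) (XT.nd (nat_lit 78) (nat_lit 456) (nat_lit 0) (XT.lf (nat_lit 0) (nat_lit 4689533205) (nat_lit 304) (nat_lit 8036755682) (nat_lit 76) (nat_lit 3481501260) (nat_lit 143) (nat_lit 5) (nat_lit 147) (nat_lit 5) (nat_lit 144) (nat_lit 5) (nat_lit 447) (nat_lit 401) (nat_lit 352)) (XT.nd (nat_lit 78) (nat_lit 304) (nat_lit 0) (XT.lf (nat_lit 0) (nat_lit 10225571980) (nat_lit 152) (nat_lit 2821284466) (nat_lit 228) (nat_lit 3649270764) (nat_lit 141) (nat_lit 5) (nat_lit 143) (nat_lit 5) (nat_lit 144) (nat_lit 5) (nat_lit 448) (nat_lit 401) (nat_lit 351)) (XT.lf (nat_lit 0) (nat_lit 4721431189) (nat_lit 304) (nat_lit 4855778468) (nat_lit 76) (nat_lit 7624393852) (nat_lit 137) (nat_lit 5) (nat_lit 141) (nat_lit 5) (nat_lit 138) (nat_lit 5) (nat_lit 449) (nat_lit 401) (nat_lit 350)))) (XT.nd (nat_lit 156) (nat_lit 532) (nat_lit 0) (XT.nd (nat_lit 78) (nat_lit 304) (nat_lit 0) (XT.lf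 (nat_lit 0) (nat_lit 13604028588) (nat_lit 228) (nat_lit 3144263399) (nat_lit 76) (nat_lit 977913942) (nat_lit 135) (nat_lit 5) (nat_lit 138) (nat_lit 5) (nat_lit 136) (nat_lit 5) (nat_lit 450) (nat_lit 401) (nat_lit 349)) (XT.lf (nat_lit 0) (nat_lit 4799420574) (nat_lit 304) (nat_lit 1399305265) (nat_lit 76) (nat_lit 12069876322) (nat_lit 131) (nat_lit 5) (nat_lit 135) (nat_lit 5) (nat_lit 132) (nat_lit 5) (nat_lit 451) (nat_lit 401) (nat_lit 348))) (XT.nd (nat_lit 78) (nat_lit 228) (nat_lit 0) (XT.lf (nat_lit 0) (nat_lit 443950295) (nat_lit 152) (nat_lit 13836312945) (nat_lit 228) (nat_lit 4550679109) (nat_lit 127) (nat_lit 5) (nat_lit 129) (nat_lit 5) (nat_lit 130) (nat_lit 5) (nat_lit 452) (nat_lit 401) (nat_lit 347)) (XT.lf (nat_lit 0) (nat_lit 2391038646) (nat_lit 152) (nat_lit 2559628024) (nat_lit 228) (nat_lit 14462420147) (nat_lit 124) (nat_lit 5) (nat_lit 126) (nat_lit 5) (nat_lit 127)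 (nat_lit 5) (nat_lit 453) (nat_lit 401) (nat_lit 346)))))) (XT.nd (nat_lit 468) (nat_lit 1140) (nat_lit 0) (XT.nd (nat_lit 234) (nat_lit 608) (nat_lit 0) (XT.nd (nat_lit 78) (nat_lit 380) (nat_lit 0) (XT.lf (nat_lit 0) (nat_lit 4392141657) (nat_lit 152) (nat_lit 10691885380) (nat_lit 228) (nat_lit 4931428873) (nat_lit 122) (nat_lit 5) (nat_lit 124) (nat_lit 5) (nat_lit 125) (nat_lit 5) (nat_lit 454) (nat_lit 401) (nat_lit 345)) (XT.nd (nat_lit 78) (nat_lit 152) (nat_lit 0) (XT.lf (nat_lit 0) (nat_lit 5184496483) (nat_lit 228) (nat_lit 14140518732) (nat_lit 76) (nat_lit 1315242155) (nat_lit 119) (nat_lit 5) (nat_lit 122) (nat_lit 5) (nat_lit 120) (nat_lit 5) (nat_lit 455) (nat_lit 401) (nat_lit 344)) (XT.lf (nat_lit 0) (nat_lit 8647779724) (nat_lit 152) (nat_lit 7341648790) (nat_lit 228) (nat_lit 5296850453) (nat_lit 117) (nat_lit 5) (nat_lit 119) (nat_lit 5) (nat_lit 120) (nat_lit 5) (nat_lit 456)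 (nat_lit 401) (nat_lit 343)))) (XT.nd (nat_lit 78) (nat_lit 380) (nat_lit 0) (XT.lf (nat_lit 0) (nat_lit 5502558818) (nat_lit 228) (nat_lit 11062431781) (nat_lit 76) (nat_lit 5390942987) (nat_lit 114) (nat_lit 5) (nat_lit 117) (nat_lit 5) (nat_lit 115) (nat_lit 5) (nat_lit 457) (nat_lit 401) (nat_lit 342)) (XT.nd (nat_lit 78) (nat_lit 228) (nat_lit 0) (XT.lf (nat_lit 0) (nat_lit 13218837868) (nat_lit 152) (nat_lit 3780929984) (nat_lit 228) (nat_lit 5649709216) (nat_lit 112) (nat_lit 5) (nat_lit 114) (nat_lit 5) (nat_lit 115) (nat_lit 5) (nat_lit 458) (nat_lit 401) (nat_lit 341)) (XT.lf (nat_lit 0) (nat_lit 5879497802) (nat_lit 228) (nat_lit 7762866297) (nat_lit 76) (nat_lit 9724798104) (nat_lit 109) (nat_lit 5) (nat_lit 112) (nat_lit 5) (nat_lit 110) (nat_lit 5) (nat_lit 459) (nat_lit 401) (nat_lit 340))))) (XT.nd (nat_lit 234) (nat_lit 684) (nat_lit 0) (XT.nd (nat_lit 78) (nat_lit 304) (nat_lit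 0) (XT.lf (nat_lit 0) (nat_lit 18110406236) (nat_lit 152) (nat_lit 5940884) (nat_lit 228) (nat_lit 5995266198) (nat_lit 107) (nat_lit 5) (nat_lit 109) (nat_lit 5) (nat_lit 110) (nat_lit 5) (nat_lit 460) (nat_lit 401) (nat_lit 339)) (XT.nd (nat_lit 78) (nat_lit 152) (nat_lit 0) (XT.lf (nat_lit 0) (nat_lit 6312112126) (nat_lit 152) (nat_lit 4245354281) (nat_lit 76) (nat_lit 14323304967) (nat_lit 105) (nat_lit 5) (nat_lit 107) (nat_lit 5) (nat_lit 106) (nat_lit 5) (nat_lit 461) (nat_lit 401) (nat_lit 338)) (XT.lf (nat_lit 0) (nat_lit 19376333670) (nat_lit 228) (nat_lit 2394384479) (nat_lit 76) (nat_lit 3907925018) (nat_lit 103) (nat_lit 5) (nat_lit 106) (nat_lit 5) (nat_lit 104) (nat_lit 4) (nat_lit 462) (nat_lit 401) (nat_lit 337)))) (XT.nd (nat_lit 156) (nat_lit 304) (nat_lit 0) (XT.nd (nat_lit 78) (nat_lit 228) (nat_lit 0) (XT.lf (nat_lit 0) (nat_lit 6794231670) (nat_lit 152) (nat_lit 518379523)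 (nat_lit 76) (nat_lit 19191544465) (nat_lit 101) (nat_lit 5) (nat_lit 103) (nat_lit 5) (nat_lit 102) (nat_lit 5) (nat_lit 463) (nat_lit 401) (nat_lit 336)) (XT.lf (nat_lit 0) (nat_lit 1442674831) (nat_lit 76) (nat_lit 19310607261) (nat_lit 152) (nat_lit 6605649509) (nat_lit 98) (nat_lit 5) (nat_lit 99) (nat_lit 5) (nat_lit 100) (nat_lit 4) (nat_lit 464) (nat_lit 401) (nat_lit 335))) (XT.nd (nat_lit 78) (nat_lit 76) (nat_lit 0) (XT.lf (nat_lit 0) (nat_lit 3471038421) (nat_lit 152) (nat_lit 3878415214) (nat_lit 228) (nat_lit 20894873798) (nat_lit 95) (nat_lit 5) (nat_lit 97) (nat_lit 5) (nat_lit 98) (nat_lit 5) (nat_lit 465) (nat_lit 401) (nat_lit 334)) (XT.lf (nat_lit 0) (nat_lit 5514680316) (nat_lit 76) (nat_lit 16736029677) (nat_lit 152) (nat_lit 6909771045) (nat_lit 94) (nat_lit 5) (nat_lit 95) (nat_lit 5) (nat_lit 96) (nat_lit 4) (nat_lit 466) (nat_lit 401) (nat_lit 333))))))) (XT.nd (nat_lit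 1014) (nat_lit 1520) (nat_lit 0) (XT.nd (nat_lit 468) (nat_lit 912) (nat_lit 0) (XT.nd (nat_lit 234) (nat_lit 380) (nat_lit 0) (XT.nd (nat_lit 78) (nat_lit 304) (nat_lit 0) (XT.lf (nat_lit 0) (nat_lit 7646319995) (nat_lit 152) (nat_lit 290735288) (nat_lit 228) (nat_lit 22173720072) (nat_lit 91) (nat_lit 5) (nat_lit 93) (nat_lit 5) (nat_lit 94) (nat_lit 5) (nat_lit 467) (nat_lit 401) (nat_lit 332)) (XT.nd (nat_lit 78) (nat_lit 228) (nat_lit 0) (XT.lf (nat_lit 0) (nat_lit 9746196061) (nat_lit 76) (nat_lit 14086341110) (nat_lit 152) (nat_lit 7260518634) (nat_lit 90) (nat_lit 5) (nat_lit 91) (nat_lit 5) (nat_lit 92) (nat_lit 4) (nat_lit 468) (nat_lit 401) (nat_lit 331)) (XT.lf (nat_lit 0) (nat_lit 8565231162) (nat_lit 228) (nat_lit 20181875192) (nat_lit 76) (nat_lit 3364999283) (nat_lit 87) (nat_lit 5) (nat_lit 90) (nat_lit 5) (nat_lit 88) (nat_lit 4) (nat_lit 469) (nat_lit 401) (nat_lit 330)))) (XT.nd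 (nat_lit 78) (nat_lit 304) (nat_lit 0) (XT.lf (nat_lit 0) (nat_lit 14098449196) (nat_lit 76) (nat_lit 11382117905) (nat_lit 152) (nat_lit 7685930895) (nat_lit 86) (nat_lit 5) (nat_lit 87) (nat_lit 5) (nat_lit 88) (nat_lit 4) (nat_lit 470) (nat_lit 401) (nat_lit 329)) (XT.nd (nat_lit 78) (nat_lit 76) (nat_lit 0) (XT.lf (nat_lit 0) (nat_lit 9178709934) (nat_lit 228) (nat_lit 17951837132) (nat_lit 76) (nat_lit 7128907557) (nat_lit 83) (nat_lit 5) (nat_lit 86) (nat_lit 5) (nat_lit 84) (nat_lit 4) (nat_lit 471) (nat_lit 401) (nat_lit 328)) (XT.lf (nat_lit 0) (nat_lit 18519205690) (nat_lit 76) (nat_lit 8650612033) (nat_lit 152) (nat_lit 8221692960) (nat_lit 82) (nat_lit 5) (nat_lit 83) (nat_lit 5) (nat_lit 84) (nat_lit 4) (nat_lit 472) (nat_lit 401) (nat_lit 327))))) (XT.nd (nat_lit 234) (nat_lit 456) (nat_lit 0) (XT.nd (nat_lit 78) (nat_lit 228) (nat_lit 0) (XT.lf (nat_lit 0) (nat_lit 9740449146) (nat_lit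 228) (nat_lit 15842428217) (nat_lit 76) (nat_lit 10981204564) (nat_lit 79) (nat_lit 5) (nat_lit 82) (nat_lit 5) (nat_lit 80) (nat_lit 4) (nat_lit 473) (nat_lit 401) (nat_lit 326)) (XT.nd (nat_lit 78) (nat_lit 152) (nat_lit 0) (XT.lf (nat_lit 0) (nat_lit 22939835829) (nat_lit 76) (nat_lit 5927259834) (nat_lit 152) (nat_lit 8912651217) (nat_lit 78) (nat_lit 5) (nat_lit 79) (nat_lit 5) (nat_lit 80) (nat_lit 4) (nat_lit 474) (nat_lit 401) (nat_lit 325)) (XT.lf (nat_lit 0) (nat_lit 10206732031) (nat_lit 152) (nat_lit 13943501027) (nat_lit 76) (nat_lit 14887931553) (nat_lit 76) (nat_lit 5) (nat_lit 78) (nat_lit 5) (nat_lit 77) (nat_lit 4) (nat_lit 475) (nat_lit 401) (nat_lit 324)))) (XT.nd (nat_lit 156) (nat_lit 228) (nat_lit 0) (XT.nd (nat_lit 78) (nat_lit 152) (nat_lit 0) (XT.lf (nat_lit 0) (nat_lit 27271833424) (nat_lit 76) (nat_lit 3257465516) (nat_lit 152) (nat_lit 9814610951) (nat_lit 75) (nat_lit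 5) (nat_lit 76) (nat_lit 5) (nat_lit 77) (nat_lit 4) (nat_lit 476) (nat_lit 401) (nat_lit 323)) (XT.lf (nat_lit 0) (nat_lit 10522478760) (nat_lit 152) (nat_lit 12367756437) (nat_lit 76) (nat_lit 18804753047) (nat_lit 73) (nat_lit 5) (nat_lit 75) (nat_lit 5) (nat_lit 74) (nat_lit 4) (nat_lit 477) (nat_lit 401) (nat_lit 322))) (XT.nd (nat_lit 78) (nat_lit 152) (nat_lit 0) (XT.lf (nat_lit 0) (nat_lit 31402691465) (nat_lit 76) (nat_lit 698709086) (nat_lit 152) (nat_lit 10996466177) (nat_lit 72) (nat_lit 5) (nat_lit 73) (nat_lit 5) (nat_lit 74) (nat_lit 4) (nat_lit 478) (nat_lit 401) (nat_lit 321)) (XT.lf (nat_lit 0) (nat_lit 10619001244) (nat_lit 152) (nat_lit 11255329989) (nat_lit 76) (nat_lit 22674736970) (nat_lit 70) (nat_lit 5) (nat_lit 72) (nat_lit 5) (nat_lit 71) (nat_lit 4) (nat_lit 479) (nat_lit 401) (nat_lit 320)))))) (XT.nd (nat_lit 546) (nat_lit 760) (nat_lit 0) (XT.nd (nat_lit 234) (nat_lit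 456) (nat_lit 0) (XT.nd (nat_lit 78) (nat_lit 228) (nat_lit 0) (XT.lf (nat_lit 0) (nat_lit 33530176956) (nat_lit 152) (nat_lit 10881876358) (nat_lit 0) (nat_lit 1644239582) (nat_lit 69) (nat_lit 5) (nat_lit 71) (nat_lit 4) (nat_lit 69) (nat_lit 4) (nat_lit 480) (nat_lit 401) (nat_lit 319)) (XT.nd (nat_lit 78) (nat_lit 76) (nat_lit 0) (XT.lf (nat_lit 0) (nat_lit 10411345444) (nat_lit 152) (nat_lit 10779212158) (nat_lit 76) (nat_lit 26425729551) (nat_lit 67) (nat_lit 5) (nat_lit 69) (nat_lit 5) (nat_lit 68) (nat_lit 4) (nat_lit 481) (nat_lit 401) (nat_lit 318)) (XT.lf (nat_lit 0) (nat_lit 34717111508) (nat_lit 152) (nat_lit 10812798198) (nat_lit 0) (nat_lit 3706236224) (nat_lit 66) (nat_lit 5) (nat_lit 68) (nat_lit 4) (nat_lit 66) (nat_lit 4) (nat_lit 482) (nat_lit 401) (nat_lit 317)))) (XT.nd (nat_lit 156) (nat_lit 228) (nat_lit 0) (XT.nd (nat_lit 78) (nat_lit 76) (nat_lit 0) (XT.lf (nat_lit 0) (nat_lit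 9795149222) (nat_lit 152) (nat_lit 11151648973) (nat_lit 76) (nat_lit 29967252935) (nat_lit 64) (nat_lit 5) (nat_lit 66) (nat_lit 5) (nat_lit 65) (nat_lit 4) (nat_lit 483) (nat_lit 401) (nat_lit 316)) (XT.lf (nat_lit 0) (nat_lit 35547434212) (nat_lit 152) (nat_lit 11715885366) (nat_lit 0) (nat_lit 5392539527) (nat_lit 63) (nat_lit 5) (nat_lit 65) (nat_lit 4) (nat_lit 63) (nat_lit 4) (nat_lit 484) (nat_lit 401) (nat_lit 315))) (XT.nd (nat_lit 78) (nat_lit 76) (nat_lit 0) (XT.lf (nat_lit 0) (nat_lit 8642931372) (nat_lit 152) (nat_lit 12631694650) (nat_lit 76) (nat_lit 33186841007) (nat_lit 61) (nat_lit 5) (nat_lit 63) (nat_lit 5) (nat_lit 62) (nat_lit 4) (nat_lit 485) (nat_lit 401) (nat_lit 314)) (XT.lf (nat_lit 0) (nat_lit 35888393650) (nat_lit 152) (nat_lit 13876880045) (nat_lit 0) (nat_lit 6570189068) (nat_lit 60) (nat_lit 5) (nat_lit 62) (nat_lit 4) (nat_lit 60) (nat_lit 4) (nat_lit 486) (nat_lit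 401) (nat_lit 313))))) (XT.nd (nat_lit 234) (nat_lit 380) (nat_lit 0) (XT.nd (nat_lit 78) (nat_lit 228) (nat_lit 0) (XT.lf (nat_lit 0) (nat_lit 6799712904) (nat_lit 152) (nat_lit 15534117374) (nat_lit 76) (nat_lit 35945714523) (nat_lit 58) (nat_lit 5) (nat_lit 60) (nat_lit 5) (nat_lit 59) (nat_lit 4) (nat_lit 487) (nat_lit 401) (nat_lit 312)) (XT.nd (nat_lit 78) (nat_lit 152) (nat_lit 0) (XT.lf (nat_lit 0) (nat_lit 35577822135) (nat_lit 152) (nat_lit 17642274036) (nat_lit 0) (nat_lit 7076905548) (nat_lit 57) (nat_lit 5) (nat_lit 59) (nat_lit 4) (nat_lit 57) (nat_lit 4) (nat_lit 488) (nat_lit 401) (nat_lit 311)) (XT.lf (nat_lit 0) (nat_lit 4077854641) (nat_lit 152) (nat_lit 20239893868) (nat_lit 76) (nat_lit 38073679631) (nat_lit 55) (nat_lit 5) (nat_lit 57) (nat_lit 5) (nat_lit 56) (nat_lit 4) (nat_lit 489) (nat_lit 401) (nat_lit 310)))) (XT.nd (nat_lit 156) (nat_lit 152) (nat_lit 0) (XT.nd (nat_lit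 78) (nat_lit 152) (nat_lit 0) (XT.lf (nat_lit 0) (nat_lit 34418570943) (nat_lit 152) (nat_lit 23430698586) (nat_lit 0) (nat_lit 6715512290) (nat_lit 54) (nat_lit 5) (nat_lit 56) (nat_lit 4) (nat_lit 54) (nat_lit 4) (nat_lit 490) (nat_lit 401) (nat_lit 309)) (XT.lf (nat_lit 0) (nat_lit 250975273) (nat_lit 152) (nat_lit 27208568789) (nat_lit 76) (nat_lit 39363114028) (nat_lit 52) (nat_lit 5) (nat_lit 54) (nat_lit 5) (nat_lit 53) (nat_lit 4) (nat_lit 491) (nat_lit 401) (nat_lit 308))) (XT.nd (nat_lit 78) (nat_lit 76) (nat_lit 0) (XT.lf (nat_lit 0) (nat_lit 32171952334) (nat_lit 152) (nat_lit 31746334344) (nat_lit 0) (nat_lit 5247365217) (nat_lit 51) (nat_lit 5) (nat_lit 53) (nat_lit 4) (nat_lit 51) (nat_lit 4) (nat_lit 492) (nat_lit 401) (nat_lit 307)) (XT.lf (nat_lit 0) (nat_lit 34558654732) (nat_lit 76) (nat_lit 31989575306) (nat_lit 76) (nat_lit 5051787879) (nat_lit 50) (nat_lit 4) (nat_lit 51)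 (nat_lit 5) (nat_lit 51) (nat_lit 4) (nat_lit 493) (nat_lit 401) (nat_lit 306))))))))
noncomputable def xc50 : XT := (XT.nd (nat_lit 56940) (nat_lit 0) (nat_lit 7524) (XT.nd (nat_lit 55926) (nat_lit 0) (nat_lit 17936) (XT.nd (nat_lit 55380) (nat_lit 0) (nat_lit 29868) (XT.nd (nat_lit 234) (nat_lit 228) (nat_lit 0) (XT.nd (nat_lit 78) (nat_lit 228) (nat_lit 0) (XT.lf (nat_lit 0) (nat_lit 28550016249) (nat_lit 152) (nat_lit 43194691400) (nat_lit 0) (nat_lit 2384619015) (nat_lit 48) (nat_lit 5) (nat_lit 50) (nat_lit 4) (nat_lit 48) (nat_lit 4) (nat_lit 494) (nat_lit 401) (nat_lit 305)) (XT.nd (nat_lit 78) (nat_lit 152) (nat_lit 0) (XT.lf (nat_lit 0) (nat_lit 26383902425) (nat_lit 76) (nat_lit 38274396760) (nat_lit 76) (nat_lit 12097375185) (nat_lit 47) (nat_lit 4) (nat_lit 48) (nat_lit 5) (nat_lit 48) (nat_lit 4) (nat_lit 495) (nat_lit 401) (nat_lit 304)) (XT.lf (nat_lit 0) (nat_lit 20965181614) (nat_lit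 76) (nat_lit 2263032173) (nat_lit 152) (nat_lit 56259890691) (nat_lit 45) (nat_lit 5) (nat_lit 46) (nat_lit 5) (nat_lit 47) (nat_lit 4) (nat_lit 496) (nat_lit 401) (nat_lit 303)))) (XT.nd (nat_lit 78) (nat_lit 152) (nat_lit 0) (XT.lf (nat_lit 0) (nat_lit 14329901484) (nat_lit 76) (nat_lit 46714990132) (nat_lit 76) (nat_lit 21279421206) (nat_lit 44) (nat_lit 4) (nat_lit 45) (nat_lit 5) (nat_lit 45) (nat_lit 4) (nat_lit 497) (nat_lit 401) (nat_lit 302)) (XT.nd (nat_lit 54990) (nat_lit 0) (nat_lit 31692) (XT.lf (nat_lit 0) (nat_lit 6657016495) (nat_lit 76) (nat_lit 9156941382) (nat_lit 152) (nat_lit 69463957121) (nat_lit 42) (nat_lit 5) (nat_lit 43) (nat_lit 5) (nat_lit 44) (nat_lit 4) (nat_lit 498) (nat_lit 401) (nat_lit 301)) (XT.lf (nat_lit 0) (nat_lit 173348571) (nat_lit 380) (nat_lit 1535330621) (nat_lit 380) (nat_lit 1535330621) (nat_lit 459) (nat_lit 3) (nat_lit 464) (nat_lit 3) (nat_lit 464)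 (nat_lit 5) (nat_lit 402) (nat_lit 402) (nat_lit 396))))) (XT.nd (nat_lit 234) (nat_lit 1064) (nat_lit 0) (XT.nd (nat_lit 78) (nat_lit 760) (nat_lit 0) (XT.lf (nat_lit 76) (nat_lit 2335739235) (nat_lit 0) (nat_lit 2521877700) (nat_lit 380) (nat_lit 1657183376) (nat_lit 460) (nat_lit 5) (nat_lit 459) (nat_lit 3) (nat_lit 464) (nat_lit 5) (nat_lit 403) (nat_lit 402) (nat_lit 395)) (XT.nd (nat_lit 78) (nat_lit 380) (nat_lit 0) (XT.lf (nat_lit 76) (nat_lit 1375403465) (nat_lit 0) (nat_lit 1370277174) (nat_lit 456) (nat_lit 3803759678) (nat_lit 455) (nat_lit 5) (nat_lit 454) (nat_lit 5) (nat_lit 460) (nat_lit 5) (nat_lit 404) (nat_lit 402) (nat_lit 394)) (XT.lf (nat_lit 0) (nat_lit 502154535) (nat_lit 456) (nat_lit 6053320327) (nat_lit 532) (nat_lit 36619126) (nat_lit 449) (nat_lit 5) (nat_lit 455) (nat_lit 5) (nat_lit 456) (nat_lit 5) (nat_lit 405) (nat_lit 402) (nat_lit 393)))) (XT.nd (nat_lit 156)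 (nat_lit 532) (nat_lit 0) (XT.nd (nat_lit 78) (nat_lit 532) (nat_lit 0) (XT.lf (nat_lit 0) (nat_lit 4744633457) (nat_lit 456) (nat_lit 204979625) (nat_lit 532) (nat_lit 1692158611) (nat_lit 449) (nat_lit 5) (nat_lit 455) (nat_lit 5) (nat_lit 456) (nat_lit 5) (nat_lit 406) (nat_lit 402) (nat_lit 392)) (XT.lf (nat_lit 0) (nat_lit 2255473186) (nat_lit 532) (nat_lit 825762747) (nat_lit 608) (nat_lit 3618020968) (nat_lit 442) (nat_lit 5) (nat_lit 449) (nat_lit 5) (nat_lit 450) (nat_lit 5) (nat_lit 407) (nat_lit 402) (nat_lit 391))) (XT.nd (nat_lit 78) (nat_lit 532) (nat_lit 0) (XT.lf (nat_lit 76) (nat_lit 5432383623) (nat_lit 0) (nat_lit 951465737) (nat_lit 608) (nat_lit 380999384) (nat_lit 443) (nat_lit 5) (nat_lit 442) (nat_lit 5) (nat_lit 450) (nat_lit 5) (nat_lit 408) (nat_lit 402) (nat_lit 390)) (XT.lf (nat_lit 0) (nat_lit 3641384162) (nat_lit 608) (nat_lit 1758378601) (nat_lit 76) (nat_lit 1437884718)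 (nat_lit 435) (nat_lit 5) (nat_lit 443) (nat_lit 5) (nat_lit 436) (nat_lit 5) (nat_lit 409) (nat_lit 402) (nat_lit 389)))))) (XT.nd (nat_lit 468) (nat_lit 6916) (nat_lit 0) (XT.nd (nat_lit 234) (nat_lit 2812) (nat_lit 0) (XT.nd (nat_lit 78) (nat_lit 1520) (nat_lit 0) (XT.lf (nat_lit 0) (nat_lit 764505339) (nat_lit 684) (nat_lit 2078065817) (nat_lit 76) (nat_lit 4075948201) (nat_lit 426) (nat_lit 5) (nat_lit 435) (nat_lit 5) (nat_lit 427) (nat_lit 5) (nat_lit 410) (nat_lit 402) (nat_lit 388)) (XT.nd (nat_lit 78) (nat_lit 836) (nat_lit 0) (XT.lf (nat_lit 0) (nat_lit 4699908278) (nat_lit 760) (nat_lit 2303308447) (nat_lit 76) (nat_lit 4001555) (nat_lit 417) (nat_lit 5) (nat_lit 427) (nat_lit 5) (nat_lit 418) (nat_lit 5) (nat_lit 411) (nat_lit 402) (nat_lit 387)) (XT.lf (nat_lit 0) (nat_lit 1580130634) (nat_lit 836) (nat_lit 2449314922) (nat_lit 76) (nat_lit 3073954169) (nat_lit 406) (nat_lit 5) (nat_lit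 417) (nat_lit 5) (nat_lit 407) (nat_lit 5) (nat_lit 412) (nat_lit 402) (nat_lit 386)))) (XT.nd (nat_lit 78) (nat_lit 1976) (nat_lit 0) (XT.lf (nat_lit 0) (nat_lit 4711852718) (nat_lit 836) (nat_lit 766789801) (nat_lit 912) (nat_lit 1729142020) (nat_lit 395) (nat_lit 5) (nat_lit 406) (nat_lit 5) (nat_lit 407) (nat_lit 5) (nat_lit 413) (nat_lit 402) (nat_lit 385)) (XT.nd (nat_lit 78) (nat_lit 988) (nat_lit 0) (XT.lf (nat_lit 0) (nat_lit 2110978076) (nat_lit 988) (nat_lit 2468242260) (nat_lit 76) (nat_lit 2740520793) (nat_lit 382) (nat_lit 5) (nat_lit 395) (nat_lit 5) (nat_lit 383) (nat_lit 5) (nat_lit 414) (nat_lit 402) (nat_lit 384)) (XT.lf (nat_lit 0) (nat_lit 5094653368) (nat_lit 988) (nat_lit 905059611) (nat_lit 1064) (nat_lit 1440308578) (nat_lit 369) (nat_lit 5) (nat_lit 382) (nat_lit 5) (nat_lit 383) (nat_lit 5) (nat_lit 415) (nat_lit 402) (nat_lit 383))))) (XT.nd (nat_lit 234) (nat_lit 3344)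 (nat_lit 0) (XT.nd (nat_lit 78) (nat_lit 2432) (nat_lit 0) (XT.lf (nat_lit 0) (nat_lit 2390203098) (nat_lit 1140) (nat_lit 2155262438) (nat_lit 76) (nat_lit 3022452405) (nat_lit 354) (nat_lit 5) (nat_lit 369) (nat_lit 5) (nat_lit 355) (nat_lit 5) (nat_lit 416) (nat_lit 402) (nat_lit 382)) (XT.nd (nat_lit 78) (nat_lit 1292) (nat_lit 0) (XT.lf (nat_lit 0) (nat_lit 5834785825) (nat_lit 1140) (nat_lit 460192121) (nat_lit 1216) (nat_lit 1409437060) (nat_lit 339) (nat_lit 5) (nat_lit 354) (nat_lit 5) (nat_lit 355) (nat_lit 5) (nat_lit 417) (nat_lit 402) (nat_lit 381)) (XT.lf (nat_lit 0) (nat_lit 2446989375) (nat_lit 1292) (nat_lit 1526004601) (nat_lit 76) (nat_lit 3875533878) (nat_lit 322) (nat_lit 5) (nat_lit 339) (nat_lit 5) (nat_lit 323) (nat_lit 5) (nat_lit 418) (nat_lit 402) (nat_lit 380)))) (XT.nd (nat_lit 156) (nat_lit 1824) (nat_lit 0) (XT.nd (nat_lit 78) (nat_lit 684) (nat_lit 0) (XT.lf (nat_lit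 0) (nat_lit 6397702816) (nat_lit 912) (nat_lit 1087242925) (nat_lit 76) (nat_lit 516571820) (nat_lit 311) (nat_lit 5) (nat_lit 323) (nat_lit 5) (nat_lit 312) (nat_lit 5) (nat_lit 419) (nat_lit 402) (nat_lit 379)) (XT.lf (nat_lit 0) (nat_lit 2307022313) (nat_lit 684) (nat_lit 591739271) (nat_lit 76) (nat_lit 5263623115) (nat_lit 302) (nat_lit 5) (nat_lit 311) (nat_lit 5) (nat_lit 303) (nat_lit 5) (nat_lit 420) (nat_lit 402) (nat_lit 378))) (XT.nd (nat_lit 78) (nat_lit 1216) (nat_lit 0) (XT.lf (nat_lit 0) (nat_lit 6337091500) (nat_lit 684) (nat_lit 11735998) (nat_lit 76) (nat_lit 1983292845) (nat_lit 294) (nat_lit 5) (nat_lit 303) (nat_lit 5) (nat_lit 295) (nat_lit 5) (nat_lit 421) (nat_lit 402) (nat_lit 377)) (XT.lf (nat_lit 0) (nat_lit 652994121) (nat_lit 608) (nat_lit 1346186492) (nat_lit 684) (nat_lit 6511144615) (nat_lit 278) (nat_lit 5) (nat_lit 286) (nat_lit 5) (nat_lit 287) (nat_lit 5) (nat_lit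 422) (nat_lit 402) (nat_lit 376))))))) (XT.nd (nat_lit 1014) (nat_lit 4104) (nat_lit 0) (XT.nd (nat_lit 468) (nat_lit 3192) (nat_lit 0) (XT.nd (nat_lit 234) (nat_lit 1520) (nat_lit 0) (XT.nd (nat_lit 78) (nat_lit 1064) (nat_lit 0) (XT.lf (nat_lit 0) (nat_lit 1383125037) (nat_lit 532) (nat_lit 4760735418) (nat_lit 608) (nat_lit 2553233159) (nat_lit 271) (nat_lit 5) (nat_lit 278) (nat_lit 5) (nat_lit 279) (nat_lit 5) (nat_lit 423) (nat_lit 402) (nat_lit 375)) (XT.nd (nat_lit 78) (nat_lit 456) (nat_lit 0) (XT.lf (nat_lit 0) (nat_lit 1552132231) (nat_lit 608) (nat_lit 6690420439) (nat_lit 76) (nat_lit 650766653) (nat_lit 263) (nat_lit 5) (nat_lit 271) (nat_lit 5) (nat_lit 264) (nat_lit 5) (nat_lit 424) (nat_lit 402) (nat_lit 374)) (XT.lf (nat_lit 0) (nat_lit 3074671173) (nat_lit 456) (nat_lit 2752401382) (nat_lit 532) (nat_lit 3271017709) (nat_lit 257) (nat_lit 5) (nat_lit 263) (nat_lit 5) (nat_lit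 264) (nat_lit 5) (nat_lit 425) (nat_lit 402) (nat_lit 373)))) (XT.nd (nat_lit 78) (nat_lit 988) (nat_lit 0) (XT.lf (nat_lit 0) (nat_lit 988275724) (nat_lit 532) (nat_lit 5277739509) (nat_lit 76) (nat_lit 3046645188) (nat_lit 250) (nat_lit 5) (nat_lit 257) (nat_lit 5) (nat_lit 251) (nat_lit 5) (nat_lit 426) (nat_lit 402) (nat_lit 372)) (XT.nd (nat_lit 78) (nat_lit 532) (nat_lit 0) (XT.lf (nat_lit 0) (nat_lit 5064229406) (nat_lit 456) (nat_lit 339634237) (nat_lit 532) (nat_lit 4132799470) (nat_lit 244) (nat_lit 5) (nat_lit 250) (nat_lit 5) (nat_lit 251) (nat_lit 5) (nat_lit 427) (nat_lit 402) (nat_lit 371)) (XT.lf (nat_lit 0) (nat_lit 309919113) (nat_lit 532) (nat_lit 3604892218) (nat_lit 76) (nat_lit 5855578113) (nat_lit 237) (nat_lit 5) (nat_lit 244) (nat_lit 5) (nat_lit 238) (nat_lit 5) (nat_lit 428) (nat_lit 402) (nat_lit 370))))) (XT.nd (nat_lit 234) (nat_lit 1900) (nat_lit 0) (XT.nd (nat_lit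 78) (nat_lit 912) (nat_lit 0) (XT.lf (nat_lit 0) (nat_lit 4913322691) (nat_lit 456) (nat_lit 2681856032) (nat_lit 76) (nat_lit 2418679556) (nat_lit 232) (nat_lit 5) (nat_lit 238) (nat_lit 5) (nat_lit 233) (nat_lit 5) (nat_lit 429) (nat_lit 402) (nat_lit 369)) (XT.nd (nat_lit 78) (nat_lit 456) (nat_lit 0) (XT.lf (nat_lit 0) (nat_lit 8595944331) (nat_lit 456) (nat_lit 1193427375) (nat_lit 532) (nat_lit 478858784) (nat_lit 226) (nat_lit 5) (nat_lit 232) (nat_lit 5) (nat_lit 233) (nat_lit 5) (nat_lit 430) (nat_lit 402) (nat_lit 368)) (XT.lf (nat_lit 0) (nat_lit 4352443976) (nat_lit 456) (nat_lit 629438641) (nat_lit 76) (nat_lit 5550264452) (nat_lit 220) (nat_lit 5) (nat_lit 226) (nat_lit 5) (nat_lit 221) (nat_lit 5) (nat_lit 431) (nat_lit 402) (nat_lit 367)))) (XT.nd (nat_lit 156) (nat_lit 684) (nat_lit 0) (XT.nd (nat_lit 78) (nat_lit 456) (nat_lit 0) (XT.lf (nat_lit 0) (nat_lit 519458177) (nat_lit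 380) (nat_lit 8947138259) (nat_lit 456) (nat_lit 1340988854) (nat_lit 210) (nat_lit 5) (nat_lit 215) (nat_lit 5) (nat_lit 216) (nat_lit 5) (nat_lit 432) (nat_lit 402) (nat_lit 366)) (XT.lf (nat_lit 0) (nat_lit 1729855778) (nat_lit 380) (nat_lit 2016956664) (nat_lit 456) (nat_lit 7346504188) (nat_lit 204) (nat_lit 5) (nat_lit 209) (nat_lit 5) (nat_lit 210) (nat_lit 5) (nat_lit 433) (nat_lit 402) (nat_lit 365))) (XT.nd (nat_lit 78) (nat_lit 380) (nat_lit 0) (XT.lf (nat_lit 0) (nat_lit 3014268346) (nat_lit 304) (nat_lit 6127533631) (nat_lit 380) (nat_lit 2248721541) (nat_lit 200) (nat_lit 5) (nat_lit 204) (nat_lit 5) (nat_lit 205) (nat_lit 5) (nat_lit 434) (nat_lit 402) (nat_lit 364)) (XT.lf (nat_lit 0) (nat_lit 3112092459) (nat_lit 380) (nat_lit 7321695908) (nat_lit 76) (nat_lit 1265848933) (nat_lit 195) (nat_lit 5) (nat_lit 200) (nat_lit 5) (nat_lit 196) (nat_lit 5) (nat_lit 435) (nat_lit 402) (nat_lit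 363)))))) (XT.nd (nat_lit 546) (nat_lit 1672) (nat_lit 0) (XT.nd (nat_lit 234) (nat_lit 1444) (nat_lit 0) (XT.nd (nat_lit 78) (nat_lit 684) (nat_lit 0) (XT.lf (nat_lit 0) (nat_lit 5802189804) (nat_lit 304) (nat_lit 2996859933) (nat_lit 380) (nat_lit 3221353673) (nat_lit 191) (nat_lit 5) (nat_lit 195) (nat_lit 5) (nat_lit 196) (nat_lit 5) (nat_lit 436) (nat_lit 402) (nat_lit 362)) (XT.nd (nat_lit 78) (nat_lit 304) (nat_lit 0) (XT.lf (nat_lit 0) (nat_lit 2462239502) (nat_lit 380) (nat_lit 5049242213) (nat_lit 76) (nat_lit 4842147409) (nat_lit 186) (nat_lit 5) (nat_lit 191) (nat_lit 5) (nat_lit 187) (nat_lit 5) (nat_lit 437) (nat_lit 402) (nat_lit 361)) (XT.lf (nat_lit 0) (nat_lit 8453481735) (nat_lit 380) (nat_lit 3807387792) (nat_lit 76) (nat_lit 438989522) (nat_lit 182) (nat_lit 5) (nat_lit 187) (nat_lit 5) (nat_lit 183) (nat_lit 5) (nat_lit 438) (nat_lit 402) (nat_lit 360)))) (XT.nd (nat_lit 156)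 (nat_lit 836) (nat_lit 0) (XT.nd (nat_lit 78) (nat_lit 228) (nat_lit 0) (XT.lf (nat_lit 0) (nat_lit 1786746739) (nat_lit 380) (nat_lit 2515010891) (nat_lit 76) (nat_lit 8757000603) (nat_lit 177) (nat_lit 5) (nat_lit 182) (nat_lit 5) (nat_lit 178) (nat_lit 5) (nat_lit 439) (nat_lit 402) (nat_lit 359)) (XT.lf (nat_lit 0) (nat_lit 8142614371) (nat_lit 304) (nat_lit 1158784968) (nat_lit 76) (nat_lit 4129676687) (nat_lit 174) (nat_lit 5) (nat_lit 178) (nat_lit 5) (nat_lit 175) (nat_lit 5) (nat_lit 440) (nat_lit 402) (nat_lit 358))) (XT.nd (nat_lit 78) (nat_lit 228) (nat_lit 0) (XT.lf (nat_lit 0) (nat_lit 300110294) (nat_lit 228) (nat_lit 796298014) (nat_lit 304) (nat_lit 12721670400) (nat_lit 166) (nat_lit 5) (nat_lit 169) (nat_lit 5) (nat_lit 170) (nat_lit 5) (nat_lit 441) (nat_lit 402) (nat_lit 357)) (XT.lf (nat_lit 0) (nat_lit 1805599803) (nat_lit 228) (nat_lit 6058571640) (nat_lit 304) (nat_lit 6353500509)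 (nat_lit 163) (nat_lit 5) (nat_lit 166) (nat_lit 5) (nat_lit 167) (nat_lit 5) (nat_lit 442) (nat_lit 402) (nat_lit 356))))) (XT.nd (nat_lit 234) (nat_lit 912) (nat_lit 0) (XT.nd (nat_lit 78) (nat_lit 456) (nat_lit 0) (XT.lf (nat_lit 0) (nat_lit 452005122) (nat_lit 304) (nat_lit 11202752747) (nat_lit 76) (nat_lit 2978629941) (nat_lit 159) (nat_lit 5) (nat_lit 163) (nat_lit 5) (nat_lit 160) (nat_lit 5) (nat_lit 443) (nat_lit 402) (nat_lit 355)) (XT.nd (nat_lit 78) (nat_lit 228) (nat_lit 0) (XT.lf (nat_lit 0) (nat_lit 5094705072) (nat_lit 228) (nat_lit 2528728248) (nat_lit 304) (nat_lit 7439859262) (nat_lit 156) (nat_lit 5) (nat_lit 159) (nat_lit 5) (nat_lit 160) (nat_lit 5) (nat_lit 444) (nat_lit 402) (nat_lit 354)) (XT.lf (nat_lit 0) (nat_lit 6859866545) (nat_lit 228) (nat_lit 8462626741) (nat_lit 304) (nat_lit 187129135) (nat_lit 153) (nat_lit 5) (nat_lit 156) (nat_lit 5) (nat_lit 157) (nat_lit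 5) (nat_lit 445) (nat_lit 402) (nat_lit 353)))) (XT.nd (nat_lit 156) (nat_lit 456) (nat_lit 0) (XT.nd (nat_lit 78) (nat_lit 152) (nat_lit 0) (XT.lf (nat_lit 0) (nat_lit 7429123580) (nat_lit 304) (nat_lit 7282414655) (nat_lit 76) (nat_lit 1260214759) (nat_lit 149) (nat_lit 5) (nat_lit 153) (nat_lit 5) (nat_lit 150) (nat_lit 5) (nat_lit 446) (nat_lit 402) (nat_lit 352)) (XT.lf (nat_lit 0) (nat_lit 10610007204) (nat_lit 152) (nat_lit 5012390226) (nat_lit 228) (nat_lit 828536167) (nat_lit 147) (nat_lit 5) (nat_lit 149) (nat_lit 5) (nat_lit 150) (nat_lit 5) (nat_lit 447) (nat_lit 402) (nat_lit 351))) (XT.nd (nat_lit 78) (nat_lit 152) (nat_lit 0) (XT.lf (nat_lit 0) (nat_lit 7302916748) (nat_lit 304) (nat_lit 4355086517) (nat_lit 76) (nat_lit 5288768120) (nat_lit 143) (nat_lit 5) (nat_lit 147) (nat_lit 5) (nat_lit 144) (nat_lit 5) (nat_lit 448) (nat_lit 402) (nat_lit 350)) (XT.lf (nat_lit 0) (nat_lit 14703304621)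 (nat_lit 152) (nat_lit 1299648233) (nat_lit 228) (nat_lit 1458829003) (nat_lit 141) (nat_lit 5) (nat_lit 143) (nat_lit 5) (nat_lit 144) (nat_lit 5) (nat_lit 449) (nat_lit 402) (nat_lit 349))))))))
noncomputable def xc51 : XT := (XT.nd (nat_lit 2028) (nat_lit 2584) (nat_lit 0) (XT.nd (nat_lit 1014) (nat_lit 2052) (nat_lit 0) (XT.nd (nat_lit 468) (nat_lit 1292) (nat_lit 0) (XT.nd (nat_lit 234) (nat_lit 532) (nat_lit 0) (XT.nd (nat_lit 78) (nat_lit 608) (nat_lit 0) (XT.lf (nat_lit 0) (nat_lit 7226589184) (nat_lit 304) (nat_lit 1148970783) (nat_lit 76) (nat_lit 9618014965) (nat_lit 137) (nat_lit 5) (nat_lit 141) (nat_lit 5) (nat_lit 138) (nat_lit 5) (nat_lit 450) (nat_lit 402) (nat_lit 348)) (XT.nd (nat_lit 78) (nat_lit 228) (nat_lit 0) (XT.lf (nat_lit 0) (nat_lit 596772663) (nat_lit 228) (nat_lit 15906856226) (nat_lit 304) (nat_lit 2042270933) (nat_lit 132) (nat_lit 5) (nat_lit 135) (nat_lit 5) (nat_lit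 136) (nat_lit 5) (nat_lit 451) (nat_lit 402) (nat_lit 347)) (XT.lf (nat_lit 0) (nat_lit 2395811302) (nat_lit 152) (nat_lit 4832414847) (nat_lit 228) (nat_lit 11888109241) (nat_lit 129) (nat_lit 5) (nat_lit 131) (nat_lit 5) (nat_lit 132) (nat_lit 5) (nat_lit 452) (nat_lit 402) (nat_lit 346)))) (XT.nd (nat_lit 78) (nat_lit 380) (nat_lit 0) (XT.lf (nat_lit 0) (nat_lit 4297284690) (nat_lit 152) (nat_lit 12847623606) (nat_lit 228) (nat_lit 2563031888) (nat_lit 127) (nat_lit 5) (nat_lit 129) (nat_lit 5) (nat_lit 130) (nat_lit 5) (nat_lit 453) (nat_lit 402) (nat_lit 345)) (XT.nd (nat_lit 78) (nat_lit 152) (nat_lit 0) (XT.lf (nat_lit 0) (nat_lit 6273924382) (nat_lit 152) (nat_lit 1028979672) (nat_lit 228) (nat_lit 13017667942) (nat_lit 124) (nat_lit 5) (nat_lit 126) (nat_lit 5) (nat_lit 127) (nat_lit 5) (nat_lit 454) (nat_lit 402) (nat_lit 344)) (XT.lf (nat_lit 0) (nat_lit 8313079028) (nat_lit 152) (nat_lit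 9580393397) (nat_lit 228) (nat_lit 3061072254) (nat_lit 122) (nat_lit 5) (nat_lit 124) (nat_lit 5) (nat_lit 125) (nat_lit 5) (nat_lit 455) (nat_lit 402) (nat_lit 343))))) (XT.nd (nat_lit 234) (nat_lit 684) (nat_lit 0) (XT.nd (nat_lit 78) (nat_lit 380) (nat_lit 0) (XT.lf (nat_lit 0) (nat_lit 7471054571) (nat_lit 228) (nat_lit 11167393423) (nat_lit 76) (nat_lit 2972977554) (nat_lit 119) (nat_lit 5) (nat_lit 122) (nat_lit 5) (nat_lit 120) (nat_lit 5) (nat_lit 456) (nat_lit 402) (nat_lit 342)) (XT.nd (nat_lit 78) (nat_lit 228) (nat_lit 0) (XT.lf (nat_lit 0) (nat_lit 12654829159) (nat_lit 152) (nat_lit 6099226188) (nat_lit 228) (nat_lit 3537559389) (nat_lit 117) (nat_lit 5) (nat_lit 119) (nat_lit 5) (nat_lit 120) (nat_lit 5) (nat_lit 457) (nat_lit 402) (nat_lit 341)) (XT.lf (nat_lit 0) (nat_lit 7716814014) (nat_lit 228) (nat_lit 8062486142) (nat_lit 76) (nat_lit 7216234547) (nat_lit 114) (nat_lit 5)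 (nat_lit 117) (nat_lit 5) (nat_lit 115) (nat_lit 5) (nat_lit 458) (nat_lit 402) (nat_lit 340)))) (XT.nd (nat_lit 156) (nat_lit 304) (nat_lit 0) (XT.nd (nat_lit 78) (nat_lit 228) (nat_lit 0) (XT.lf (nat_lit 0) (nat_lit 17330999031) (nat_lit 152) (nat_lit 2398720306) (nat_lit 228) (nat_lit 3995811982) (nat_lit 112) (nat_lit 5) (nat_lit 114) (nat_lit 5) (nat_lit 115) (nat_lit 5) (nat_lit 459) (nat_lit 402) (nat_lit 339)) (XT.lf (nat_lit 0) (nat_lit 8029120185) (nat_lit 228) (nat_lit 4721637257) (nat_lit 76) (nat_lit 11729074297) (nat_lit 109) (nat_lit 5) (nat_lit 112) (nat_lit 5) (nat_lit 110) (nat_lit 5) (nat_lit 460) (nat_lit 402) (nat_lit 338))) (XT.nd (nat_lit 78) (nat_lit 152) (nat_lit 0) (XT.lf (nat_lit 0) (nat_lit 20836132400) (nat_lit 228) (nat_lit 2930864320) (nat_lit 76) (nat_lit 1495759989) (nat_lit 107) (nat_lit 5) (nat_lit 110) (nat_lit 5) (nat_lit 108) (nat_lit 4) (nat_lit 461) (nat_lit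 402) (nat_lit 337)) (XT.lf (nat_lit 0) (nat_lit 8404266470) (nat_lit 152) (nat_lit 1148515385) (nat_lit 76) (nat_lit 16518714763) (nat_lit 105) (nat_lit 5) (nat_lit 107) (nat_lit 5) (nat_lit 106) (nat_lit 5) (nat_lit 462) (nat_lit 402) (nat_lit 336)))))) (XT.nd (nat_lit 468) (nat_lit 988) (nat_lit 0) (XT.nd (nat_lit 234) (nat_lit 532) (nat_lit 0) (XT.nd (nat_lit 78) (nat_lit 304) (nat_lit 0) (XT.lf (nat_lit 0) (nat_lit 752191226) (nat_lit 76) (nat_lit 21337374461) (nat_lit 152) (nat_lit 4820661118) (nat_lit 102) (nat_lit 5) (nat_lit 103) (nat_lit 5) (nat_lit 104) (nat_lit 4) (nat_lit 463) (nat_lit 402) (nat_lit 335)) (XT.nd (nat_lit 78) (nat_lit 76) (nat_lit 0) (XT.lf (nat_lit 0) (nat_lit 2700690121) (nat_lit 152) (nat_lit 6160732519) (nat_lit 228) (nat_lit 18916101571) (nat_lit 99) (nat_lit 5) (nat_lit 101) (nat_lit 5) (nat_lit 102) (nat_lit 5) (nat_lit 464) (nat_lit 402) (nat_lit 334)) (XT.lf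 (nat_lit 0) (nat_lit 4713590701) (nat_lit 76) (nat_lit 18772347677) (nat_lit 152) (nat_lit 5190075894) (nat_lit 98) (nat_lit 5) (nat_lit 99) (nat_lit 5) (nat_lit 100) (nat_lit 4) (nat_lit 465) (nat_lit 402) (nat_lit 333)))) (XT.nd (nat_lit 78) (nat_lit 304) (nat_lit 0) (XT.lf (nat_lit 0) (nat_lit 6784784750) (nat_lit 152) (nat_lit 2592601463) (nat_lit 228) (nat_lit 20229330717) (nat_lit 95) (nat_lit 5) (nat_lit 97) (nat_lit 5) (nat_lit 98) (nat_lit 5) (nat_lit 466) (nat_lit 402) (nat_lit 332)) (XT.nd (nat_lit 78) (nat_lit 228) (nat_lit 0) (XT.lf (nat_lit 0) (nat_lit 8875177912) (nat_lit 76) (nat_lit 16112657368) (nat_lit 152) (nat_lit 5581919662) (nat_lit 94) (nat_lit 5) (nat_lit 95) (nat_lit 5) (nat_lit 96) (nat_lit 4) (nat_lit 467) (nat_lit 402) (nat_lit 331)) (XT.lf (nat_lit 0) (nat_lit 9936447889) (nat_lit 228) (nat_lit 20522721620) (nat_lit 76) (nat_lit 1109056903) (nat_lit 91) (nat_lit 5)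 (nat_lit 94) (nat_lit 5) (nat_lit 92) (nat_lit 4) (nat_lit 468) (nat_lit 402) (nat_lit 330))))) (XT.nd (nat_lit 234) (nat_lit 608) (nat_lit 0) (XT.nd (nat_lit 78) (nat_lit 304) (nat_lit 0) (XT.lf (nat_lit 0) (nat_lit 13207755664) (nat_lit 76) (nat_lit 13374021821) (nat_lit 152) (nat_lit 6019191740) (nat_lit 90) (nat_lit 5) (nat_lit 91) (nat_lit 5) (nat_lit 92) (nat_lit 4) (nat_lit 469) (nat_lit 402) (nat_lit 329)) (XT.nd (nat_lit 78) (nat_lit 76) (nat_lit 0) (XT.lf (nat_lit 0) (nat_lit 10533087465) (nat_lit 228) (nat_lit 18239151965) (nat_lit 76) (nat_lit 4899273506) (nat_lit 87) (nat_lit 5) (nat_lit 90) (nat_lit 5) (nat_lit 88) (nat_lit 4) (nat_lit 470) (nat_lit 402) (nat_lit 328)) (XT.lf (nat_lit 0) (nat_lit 17670575401) (nat_lit 76) (nat_lit 10577862081) (nat_lit 152) (nat_lit 6531560495) (nat_lit 86) (nat_lit 5) (nat_lit 87) (nat_lit 5) (nat_lit 88) (nat_lit 4) (nat_lit 471) (nat_lit 402) (nat_lit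 327)))) (XT.nd (nat_lit 156) (nat_lit 304) (nat_lit 0) (XT.nd (nat_lit 78) (nat_lit 76) (nat_lit 0) (XT.lf (nat_lit 0) (nat_lit 11114479307) (nat_lit 228) (nat_lit 16004295394) (nat_lit 76) (nat_lit 8809338707) (nat_lit 83) (nat_lit 5) (nat_lit 86) (nat_lit 5) (nat_lit 84) (nat_lit 4) (nat_lit 472) (nat_lit 402) (nat_lit 326)) (XT.lf (nat_lit 0) (nat_lit 22208744386) (nat_lit 76) (nat_lit 7752637883) (nat_lit 152) (nat_lit 7156703233) (nat_lit 82) (nat_lit 5) (nat_lit 83) (nat_lit 5) (nat_lit 84) (nat_lit 4) (nat_lit 473) (nat_lit 402) (nat_lit 325))) (XT.nd (nat_lit 78) (nat_lit 76) (nat_lit 0) (XT.lf (nat_lit 0) (nat_lit 11644470065) (nat_lit 228) (nat_lit 13892634631) (nat_lit 76) (nat_lit 12812663510) (nat_lit 79) (nat_lit 5) (nat_lit 82) (nat_lit 5) (nat_lit 80) (nat_lit 4) (nat_lit 474) (nat_lit 402) (nat_lit 324)) (XT.lf (nat_lit 0) (nat_lit 26750146174) (nat_lit 76) (nat_lit 4935428063)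 (nat_lit 152) (nat_lit 7941898783) (nat_lit 78) (nat_lit 5) (nat_lit 79) (nat_lit 5) (nat_lit 80) (nat_lit 4) (nat_lit 475) (nat_lit 402) (nat_lit 323))))))) (XT.nd (nat_lit 1014) (nat_lit 1064) (nat_lit 0) (XT.nd (nat_lit 468) (nat_lit 836) (nat_lit 0) (XT.nd (nat_lit 234) (nat_lit 304) (nat_lit 0) (XT.nd (nat_lit 78) (nat_lit 228) (nat_lit 0) (XT.lf (nat_lit 0) (nat_lit 12076980210) (nat_lit 152) (nat_lit 11998578688) (nat_lit 76) (nat_lit 16873709672) (nat_lit 76) (nat_lit 5) (nat_lit 78) (nat_lit 5) (nat_lit 77) (nat_lit 4) (nat_lit 476) (nat_lit 402) (nat_lit 322)) (XT.nd (nat_lit 78) (nat_lit 152) (nat_lit 0) (XT.lf (nat_lit 0) (nat_lit 31201787294) (nat_lit 76) (nat_lit 2173799918) (nat_lit 152) (nat_lit 8945916878) (nat_lit 75) (nat_lit 5) (nat_lit 76) (nat_lit 5) (nat_lit 77) (nat_lit 4) (nat_lit 477) (nat_lit 402) (nat_lit 321)) (XT.lf (nat_lit 0) (nat_lit 12354013615) (nat_lit 152) (nat_lit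 10440532868) (nat_lit 76) (nat_lit 20946022748) (nat_lit 73) (nat_lit 5) (nat_lit 75) (nat_lit 5) (nat_lit 74) (nat_lit 4) (nat_lit 478) (nat_lit 402) (nat_lit 320)))) (XT.nd (nat_lit 78) (nat_lit 228) (nat_lit 0) (XT.lf (nat_lit 0) (nat_lit 34978024583) (nat_lit 152) (nat_lit 9773812720) (nat_lit 0) (nat_lit 462770334) (nat_lit 72) (nat_lit 5) (nat_lit 74) (nat_lit 4) (nat_lit 72) (nat_lit 4) (nat_lit 479) (nat_lit 402) (nat_lit 319)) (XT.nd (nat_lit 78) (nat_lit 76) (nat_lit 0) (XT.lf (nat_lit 0) (nat_lit 12403298606) (nat_lit 152) (nat_lit 9365713296) (nat_lit 76) (nat_lit 24969903922) (nat_lit 70) (nat_lit 5) (nat_lit 72) (nat_lit 5) (nat_lit 71) (nat_lit 4) (nat_lit 480) (nat_lit 402) (nat_lit 318)) (XT.lf (nat_lit 0) (nat_lit 36434451697) (nat_lit 152) (nat_lit 9018585805) (nat_lit 0) (nat_lit 2869231948) (nat_lit 69) (nat_lit 5) (nat_lit 71) (nat_lit 4) (nat_lit 69) (nat_lit 4) (nat_lit 481)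 (nat_lit 402) (nat_lit 317))))) (XT.nd (nat_lit 234) (nat_lit 456) (nat_lit 0) (XT.nd (nat_lit 78) (nat_lit 228) (nat_lit 0) (XT.lf (nat_lit 0) (nat_lit 12135496044) (nat_lit 152) (nat_lit 8955837188) (nat_lit 76) (nat_lit 28869656050) (nat_lit 67) (nat_lit 5) (nat_lit 69) (nat_lit 5) (nat_lit 68) (nat_lit 4) (nat_lit 482) (nat_lit 402) (nat_lit 316)) (XT.nd (nat_lit 78) (nat_lit 152) (nat_lit 0) (XT.lf (nat_lit 0) (nat_lit 37632120821) (nat_lit 152) (nat_lit 9034590700) (nat_lit 0) (nat_lit 4995862589) (nat_lit 66) (nat_lit 5) (nat_lit 68) (nat_lit 4) (nat_lit 66) (nat_lit 4) (nat_lit 483) (nat_lit 402) (nat_lit 315)) (XT.lf (nat_lit 0) (nat_lit 11440898901) (nat_lit 152) (nat_lit 9433842633) (nat_lit 76) (nat_lit 32550328221) (nat_lit 64) (nat_lit 5) (nat_lit 66) (nat_lit 5) (nat_lit 65) (nat_lit 4) (nat_lit 484) (nat_lit 402) (nat_lit 314)))) (XT.nd (nat_lit 156) (nat_lit 228) (nat_lit 0) (XT.nd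 (nat_lit 78) (nat_lit 152) (nat_lit 0) (XT.lf (nat_lit 0) (nat_lit 38457454631) (nat_lit 152) (nat_lit 10068303010) (nat_lit 0) (nat_lit 6728910993) (nat_lit 63) (nat_lit 5) (nat_lit 65) (nat_lit 4) (nat_lit 63) (nat_lit 4) (nat_lit 485) (nat_lit 402) (nat_lit 313)) (XT.lf (nat_lit 0) (nat_lit 10185534684) (nat_lit 152) (nat_lit 11071818116) (nat_lit 76) (nat_lit 35893870210) (nat_lit 61) (nat_lit 5) (nat_lit 63) (nat_lit 5) (nat_lit 62) (nat_lit 4) (nat_lit 486) (nat_lit 402) (nat_lit 312))) (XT.nd (nat_lit 78) (nat_lit 152) (nat_lit 0) (XT.lf (nat_lit 0) (nat_lit 38770952053) (nat_lit 152) (nat_lit 12419834942) (nat_lit 0) (nat_lit 7928801252) (nat_lit 60) (nat_lit 5) (nat_lit 62) (nat_lit 4) (nat_lit 60) (nat_lit 4) (nat_lit 487) (nat_lit 402) (nat_lit 311)) (XT.lf (nat_lit 0) (nat_lit 8206566861) (nat_lit 152) (nat_lit 14200352941) (nat_lit 76) (nat_lit 38754592960) (nat_lit 58) (nat_lit 5)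 (nat_lit 60) (nat_lit 5) (nat_lit 59) (nat_lit 4) (nat_lit 488) (nat_lit 402) (nat_lit 310)))))) (XT.nd (nat_lit 546) (nat_lit 304) (nat_lit 0) (XT.nd (nat_lit 234) (nat_lit 456) (nat_lit 0) (XT.nd (nat_lit 78) (nat_lit 228) (nat_lit 0) (XT.lf (nat_lit 0) (nat_lit 38402233049) (nat_lit 152) (nat_lit 16453086592) (nat_lit 0) (nat_lit 8425163494) (nat_lit 57) (nat_lit 5) (nat_lit 59) (nat_lit 4) (nat_lit 57) (nat_lit 4) (nat_lit 489) (nat_lit 402) (nat_lit 309)) (XT.nd (nat_lit 78) (nat_lit 76) (nat_lit 0) (XT.lf (nat_lit 0) (nat_lit 5306873503) (nat_lit 152) (nat_lit 19219555983) (nat_lit 76) (nat_lit 40953813432) (nat_lit 55) (nat_lit 5) (nat_lit 57) (nat_lit 5) (nat_lit 56) (nat_lit 4) (nat_lit 490) (nat_lit 402) (nat_lit 308)) (XT.lf (nat_lit 0) (nat_lit 37144194843) (nat_lit 152) (nat_lit 22607704759) (nat_lit 0) (nat_lit 8010977740) (nat_lit 54) (nat_lit 5) (nat_lit 56) (nat_lit 4) (nat_lit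 54) (nat_lit 4) (nat_lit 491) (nat_lit 402) (nat_lit 307)))) (XT.nd (nat_lit 156) (nat_lit 228) (nat_lit 0) (XT.nd (nat_lit 78) (nat_lit 76) (nat_lit 0) (XT.lf (nat_lit 0) (nat_lit 1248660509) (nat_lit 152) (nat_lit 26612032587) (nat_lit 76) (nat_lit 42273541300) (nat_lit 52) (nat_lit 5) (nat_lit 54) (nat_lit 5) (nat_lit 53) (nat_lit 4) (nat_lit 492) (nat_lit 402) (nat_lit 306)) (XT.lf (nat_lit 0) (nat_lit 34746125347) (nat_lit 152) (nat_lit 31413162981) (nat_lit 0) (nat_lit 6435676515) (nat_lit 51) (nat_lit 5) (nat_lit 53) (nat_lit 4) (nat_lit 51) (nat_lit 4) (nat_lit 493) (nat_lit 402) (nat_lit 305))) (XT.nd (nat_lit 78) (nat_lit 152) (nat_lit 0) (XT.lf (nat_lit 0) (nat_lit 38152025144) (nat_lit 76) (nat_lit 32661143740) (nat_lit 76) (nat_lit 4338721837) (nat_lit 50) (nat_lit 4) (nat_lit 51) (nat_lit 5) (nat_lit 51) (nat_lit 4) (nat_lit 494) (nat_lit 402) (nat_lit 304)) (XT.lf (nat_lit 0) (nat_lit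 30905593098) (nat_lit 152) (nat_lit 43505330214) (nat_lit 0) (nat_lit 3397025305) (nat_lit 48) (nat_lit 5) (nat_lit 50) (nat_lit 4) (nat_lit 48) (nat_lit 4) (nat_lit 495) (nat_lit 402) (nat_lit 303))))) (XT.nd (nat_lit 55224) (nat_lit 0) (nat_lit 30172) (XT.nd (nat_lit 78) (nat_lit 228) (nat_lit 0) (XT.lf (nat_lit 0) (nat_lit 29499189344) (nat_lit 76) (nat_lit 39293171872) (nat_lit 76) (nat_lit 11774060460) (nat_lit 47) (nat_lit 4) (nat_lit 48) (nat_lit 5) (nat_lit 48) (nat_lit 4) (nat_lit 496) (nat_lit 402) (nat_lit 302)) (XT.nd (nat_lit 78) (nat_lit 76) (nat_lit 0) (XT.lf (nat_lit 0) (nat_lit 23775642788) (nat_lit 76) (nat_lit 1497655607) (nat_lit 152) (nat_lit 58162699240) (nat_lit 45) (nat_lit 5) (nat_lit 46) (nat_lit 5) (nat_lit 47) (nat_lit 4) (nat_lit 497) (nat_lit 402) (nat_lit 301)) (XT.lf (nat_lit 0) (nat_lit 16775634709) (nat_lit 76) (nat_lit 48187761001) (nat_lit 76) (nat_lit 21451143207)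 (nat_lit 44) (nat_lit 4) (nat_lit 45) (nat_lit 5) (nat_lit 45) (nat_lit 4) (nat_lit 498) (nat_lit 402) (nat_lit 300)))) (XT.nd (nat_lit 156) (nat_lit 456) (nat_lit 0) (XT.nd (nat_lit 78) (nat_lit 532) (nat_lit 0) (XT.lf (nat_lit 0) (nat_lit 652690586) (nat_lit 0) (nat_lit 652690586) (nat_lit 380) (nat_lit 1967422488) (nat_lit 454) (nat_lit 5) (nat_lit 454) (nat_lit 3) (nat_lit 459) (nat_lit 3) (nat_lit 403) (nat_lit 403) (nat_lit 394)) (XT.lf (nat_lit 76) (nat_lit 212984823) (nat_lit 0) (nat_lit 20382405) (nat_lit 532) (nat_lit 6351105797) (nat_lit 448) (nat_lit 5) (nat_lit 447) (nat_lit 3) (nat_lit 454) (nat_lit 5) (nat_lit 404) (nat_lit 403) (nat_lit 393))) (XT.nd (nat_lit 78) (nat_lit 532) (nat_lit 0) (XT.lf (nat_lit 0) (nat_lit 4328556498) (nat_lit 456) (nat_lit 778407443) (nat_lit 532) (nat_lit 1523170233) (nat_lit 448) (nat_lit 5) (nat_lit 454) (nat_lit 5) (nat_lit 455) (nat_lit 5) (nat_lit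 405) (nat_lit 403) (nat_lit 392)) (XT.lf (nat_lit 0) (nat_lit 1703752727) (nat_lit 532) (nat_lit 1651272099) (nat_lit 608) (nat_lit 3328767345) (nat_lit 441) (nat_lit 5) (nat_lit 448) (nat_lit 5) (nat_lit 449) (nat_lit 5) (nat_lit 406) (nat_lit 403) (nat_lit 391))))))))
noncomputable def xc52 : XT := (XT.nd (nat_lit 2028) (nat_lit 7676) (nat_lit 0) (XT.nd (nat_lit 1014) (nat_lit 7296) (nat_lit 0) (XT.nd (nat_lit 468) (nat_lit 7220) (nat_lit 0) (XT.nd (nat_lit 234) (nat_lit 2128) (nat_lit 0) (XT.nd (nat_lit 78) (nat_lit 532) (nat_lit 0) (XT.lf (nat_lit 76) (nat_lit 4327738629) (nat_lit 0) (nat_lit 1337233356) (nat_lit 608) (nat_lit 1080397748) (nat_lit 442) (nat_lit 5) (nat_lit 441) (nat_lit 5) (nat_lit 449) (nat_lit 5) (nat_lit 407) (nat_lit 403) (nat_lit 390)) (XT.nd (nat_lit 78) (nat_lit 0) (nat_lit 0) (XT.lf (nat_lit 0) (nat_lit 2778804675) (nat_lit 608) (nat_lit 3094064872) (nat_lit 684) (nat_lit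 941601173) (nat_lit 434) (nat_lit 5) (nat_lit 442) (nat_lit 5) (nat_lit 443) (nat_lit 5) (nat_lit 408) (nat_lit 403) (nat_lit 389)) (XT.lf (nat_lit 76) (nat_lit 3219758064) (nat_lit 0) (nat_lit 3430675272) (nat_lit 684) (nat_lit 241033148) (nat_lit 435) (nat_lit 5) (nat_lit 434) (nat_lit 5) (nat_lit 443) (nat_lit 5) (nat_lit 409) (nat_lit 403) (nat_lit 388)))) (XT.nd (nat_lit 78) (nat_lit 1444) (nat_lit 0) (XT.lf (nat_lit 76) (nat_lit 2812993642) (nat_lit 0) (nat_lit 695816485) (nat_lit 760) (nat_lit 3467280498) (nat_lit 426) (nat_lit 5) (nat_lit 425) (nat_lit 5) (nat_lit 435) (nat_lit 5) (nat_lit 410) (nat_lit 403) (nat_lit 387)) (XT.nd (nat_lit 78) (nat_lit 760) (nat_lit 0) (XT.lf (nat_lit 0) (nat_lit 240012448) (nat_lit 760) (nat_lit 4561917585) (nat_lit 76) (nat_lit 2266716546) (nat_lit 416) (nat_lit 5) (nat_lit 426) (nat_lit 5) (nat_lit 417) (nat_lit 5) (nat_lit 411) (nat_lit 403) (nat_lit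 386)) (XT.lf (nat_lit 0) (nat_lit 2283936474) (nat_lit 760) (nat_lit 1645661373) (nat_lit 836) (nat_lit 3239155676) (nat_lit 406) (nat_lit 5) (nat_lit 416) (nat_lit 5) (nat_lit 417) (nat_lit 5) (nat_lit 412) (nat_lit 403) (nat_lit 385))))) (XT.nd (nat_lit 234) (nat_lit 4332) (nat_lit 0) (XT.nd (nat_lit 78) (nat_lit 1976) (nat_lit 0) (XT.lf (nat_lit 0) (nat_lit 407160724) (nat_lit 912) (nat_lit 5113178646) (nat_lit 76) (nat_lit 1756753851) (nat_lit 394) (nat_lit 5) (nat_lit 406) (nat_lit 5) (nat_lit 395) (nat_lit 5) (nat_lit 413) (nat_lit 403) (nat_lit 384)) (XT.nd (nat_lit 78) (nat_lit 1064) (nat_lit 0) (XT.lf (nat_lit 0) (nat_lit 2117194797) (nat_lit 912) (nat_lit 1950499711) (nat_lit 988) (nat_lit 3325237220) (nat_lit 382) (nat_lit 5) (nat_lit 394) (nat_lit 5) (nat_lit 395) (nat_lit 5) (nat_lit 414) (nat_lit 403) (nat_lit 383)) (XT.lf (nat_lit 0) (nat_lit 297840079) (nat_lit 1064) (nat_lit 5346195470)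 (nat_lit 76) (nat_lit 1873155480) (nat_lit 368) (nat_lit 5) (nat_lit 382) (nat_lit 5) (nat_lit 369) (nat_lit 5) (nat_lit 415) (nat_lit 403) (nat_lit 382)))) (XT.nd (nat_lit 156) (nat_lit 2128) (nat_lit 0) (XT.nd (nat_lit 78) (nat_lit 1140) (nat_lit 0) (XT.lf (nat_lit 0) (nat_lit 2292544652) (nat_lit 1064) (nat_lit 1661896155) (nat_lit 1140) (nat_lit 3694610016) (nat_lit 354) (nat_lit 5) (nat_lit 368) (nat_lit 5) (nat_lit 369) (nat_lit 5) (nat_lit 416) (nat_lit 403) (nat_lit 381)) (XT.lf (nat_lit 0) (nat_lit 2509712167) (nat_lit 1140) (nat_lit 5219170060) (nat_lit 1216) (nat_lit 60580049) (nat_lit 339) (nat_lit 5) (nat_lit 354) (nat_lit 5) (nat_lit 355) (nat_lit 5) (nat_lit 417) (nat_lit 403) (nat_lit 380))) (XT.nd (nat_lit 78) (nat_lit 836) (nat_lit 0) (XT.lf (nat_lit 0) (nat_lit 2794596616) (nat_lit 1216) (nat_lit 822684962) (nat_lit 1292) (nat_lit 4320475933) (nat_lit 322) (nat_lit 5) (nat_lit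 338) (nat_lit 5) (nat_lit 339) (nat_lit 5) (nat_lit 418) (nat_lit 403) (nat_lit 379)) (XT.lf (nat_lit 0) (nat_lit 3162336713) (nat_lit 836) (nat_lit 4279767643) (nat_lit 912) (nat_lit 652423444) (nat_lit 311) (nat_lit 5) (nat_lit 322) (nat_lit 5) (nat_lit 323) (nat_lit 5) (nat_lit 419) (nat_lit 403) (nat_lit 378)))))) (XT.nd (nat_lit 468) (nat_lit 3648) (nat_lit 0) (XT.nd (nat_lit 234) (nat_lit 1748) (nat_lit 0) (XT.nd (nat_lit 78) (nat_lit 1216) (nat_lit 0) (XT.lf (nat_lit 0) (nat_lit 3085338093) (nat_lit 684) (nat_lit 4652656205) (nat_lit 76) (nat_lit 521765163) (nat_lit 302) (nat_lit 5) (nat_lit 311) (nat_lit 5) (nat_lit 303) (nat_lit 5) (nat_lit 420) (nat_lit 403) (nat_lit 377)) (XT.nd (nat_lit 78) (nat_lit 608) (nat_lit 0) (XT.lf (nat_lit 0) (nat_lit 4123227788) (nat_lit 608) (nat_lit 2860481185) (nat_lit 684) (nat_lit 1449740482) (nat_lit 294) (nat_lit 5) (nat_lit 302) (nat_lit 5) (nat_lit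 303) (nat_lit 5) (nat_lit 421) (nat_lit 403) (nat_lit 376)) (XT.lf (nat_lit 0) (nat_lit 2387058008) (nat_lit 608) (nat_lit 3900478474) (nat_lit 76) (nat_lit 2328366865) (nat_lit 286) (nat_lit 5) (nat_lit 294) (nat_lit 5) (nat_lit 287) (nat_lit 5) (nat_lit 422) (nat_lit 403) (nat_lit 375)))) (XT.nd (nat_lit 78) (nat_lit 1140) (nat_lit 0) (XT.lf (nat_lit 0) (nat_lit 5387568698) (nat_lit 608) (nat_lit 986372146) (nat_lit 684) (nat_lit 2433467795) (nat_lit 278) (nat_lit 5) (nat_lit 286) (nat_lit 5) (nat_lit 287) (nat_lit 5) (nat_lit 423) (nat_lit 403) (nat_lit 374)) (XT.nd (nat_lit 78) (nat_lit 532) (nat_lit 0) (XT.lf (nat_lit 0) (nat_lit 1532602137) (nat_lit 608) (nat_lit 2882997915) (nat_lit 76) (nat_lit 4592111279) (nat_lit 270) (nat_lit 5) (nat_lit 278) (nat_lit 5) (nat_lit 271) (nat_lit 5) (nat_lit 424) (nat_lit 403) (nat_lit 373)) (XT.lf (nat_lit 0) (nat_lit 5643339434) (nat_lit 608) (nat_lit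 2276428940) (nat_lit 76) (nat_lit 1297642626) (nat_lit 263) (nat_lit 5) (nat_lit 271) (nat_lit 5) (nat_lit 264) (nat_lit 5) (nat_lit 425) (nat_lit 403) (nat_lit 372))))) (XT.nd (nat_lit 234) (nat_lit 2204) (nat_lit 0) (XT.nd (nat_lit 78) (nat_lit 912) (nat_lit 0) (XT.lf (nat_lit 0) (nat_lit 537706698) (nat_lit 532) (nat_lit 1601301545) (nat_lit 76) (nat_lit 7297665613) (nat_lit 256) (nat_lit 5) (nat_lit 263) (nat_lit 5) (nat_lit 257) (nat_lit 5) (nat_lit 426) (nat_lit 403) (nat_lit 371)) (XT.nd (nat_lit 78) (nat_lit 456) (nat_lit 0) (XT.lf (nat_lit 0) (nat_lit 4808393244) (nat_lit 532) (nat_lit 880380322) (nat_lit 76) (nat_lit 3976252345) (nat_lit 250) (nat_lit 5) (nat_lit 257) (nat_lit 5) (nat_lit 251) (nat_lit 5) (nat_lit 427) (nat_lit 403) (nat_lit 370)) (XT.lf (nat_lit 0) (nat_lit 9313881314) (nat_lit 532) (nat_lit 64399106) (nat_lit 76) (nat_lit 525881665) (nat_lit 244) (nat_lit 5) (nat_lit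 251) (nat_lit 5) (nat_lit 245) (nat_lit 5) (nat_lit 428) (nat_lit 403) (nat_lit 369)))) (XT.nd (nat_lit 156) (nat_lit 836) (nat_lit 0) (XT.nd (nat_lit 78) (nat_lit 456) (nat_lit 0) (XT.lf (nat_lit 0) (nat_lit 796709808) (nat_lit 380) (nat_lit 3084254271) (nat_lit 456) (nat_lit 6271149428) (nat_lit 232) (nat_lit 5) (nat_lit 237) (nat_lit 5) (nat_lit 238) (nat_lit 5) (nat_lit 429) (nat_lit 403) (nat_lit 368)) (XT.lf (nat_lit 0) (nat_lit 1746565471) (nat_lit 456) (nat_lit 6860537184) (nat_lit 532) (nat_lit 1803882324) (nat_lit 226) (nat_lit 5) (nat_lit 232) (nat_lit 5) (nat_lit 233) (nat_lit 5) (nat_lit 430) (nat_lit 403) (nat_lit 367))) (XT.nd (nat_lit 78) (nat_lit 380) (nat_lit 0) (XT.lf (nat_lit 0) (nat_lit 2768224498) (nat_lit 380) (nat_lit 108494789) (nat_lit 456) (nat_lit 7803862892) (nat_lit 220) (nat_lit 5) (nat_lit 225) (nat_lit 5) (nat_lit 226) (nat_lit 5) (nat_lit 431) (nat_lit 403) (nat_lit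 366)) (XT.lf (nat_lit 0) (nat_lit 3837439104) (nat_lit 380) (nat_lit 4005798049) (nat_lit 456) (nat_lit 3117214000) (nat_lit 215) (nat_lit 5) (nat_lit 220) (nat_lit 5) (nat_lit 221) (nat_lit 5) (nat_lit 432) (nat_lit 403) (nat_lit 365))))))) (XT.nd (nat_lit 1014) (nat_lit 3192) (nat_lit 0) (XT.nd (nat_lit 468) (nat_lit 2280) (nat_lit 0) (XT.nd (nat_lit 234) (nat_lit 988) (nat_lit 0) (XT.nd (nat_lit 78) (nat_lit 760) (nat_lit 0) (XT.lf (nat_lit 0) (nat_lit 1828688271) (nat_lit 456) (nat_lit 6258674062) (nat_lit 76) (nat_lit 3164630759) (nat_lit 209) (nat_lit 5) (nat_lit 215) (nat_lit 5) (nat_lit 210) (nat_lit 5) (nat_lit 433) (nat_lit 403) (nat_lit 364)) (XT.nd (nat_lit 78) (nat_lit 380) (nat_lit 0) (XT.lf (nat_lit 0) (nat_lit 6216812205) (nat_lit 380) (nat_lit 816070016) (nat_lit 456) (nat_lit 4522043137) (nat_lit 204) (nat_lit 5) (nat_lit 209) (nat_lit 5) (nat_lit 210) (nat_lit 5) (nat_lit 434)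 (nat_lit 403) (nat_lit 363)) (XT.lf (nat_lit 0) (nat_lit 719685058) (nat_lit 380) (nat_lit 4359324666) (nat_lit 76) (nat_lit 6790589785) (nat_lit 199) (nat_lit 5) (nat_lit 204) (nat_lit 5) (nat_lit 200) (nat_lit 5) (nat_lit 435) (nat_lit 403) (nat_lit 362)))) (XT.nd (nat_lit 78) (nat_lit 684) (nat_lit 0) (XT.lf (nat_lit 0) (nat_lit 6212183149) (nat_lit 380) (nat_lit 3326231682) (nat_lit 76) (nat_lit 2657785893) (nat_lit 195) (nat_lit 5) (nat_lit 200) (nat_lit 5) (nat_lit 196) (nat_lit 5) (nat_lit 436) (nat_lit 403) (nat_lit 361)) (XT.nd (nat_lit 78) (nat_lit 380) (nat_lit 0) (XT.lf (nat_lit 0) (nat_lit 10328825389) (nat_lit 304) (nat_lit 1755173361) (nat_lit 380) (nat_lit 451995070) (nat_lit 191) (nat_lit 5) (nat_lit 195) (nat_lit 5) (nat_lit 196) (nat_lit 5) (nat_lit 437) (nat_lit 403) (nat_lit 360)) (XT.lf (nat_lit 0) (nat_lit 5375266706) (nat_lit 380) (nat_lit 1061030641) (nat_lit 76) (nat_lit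 6451241929) (nat_lit 186) (nat_lit 5) (nat_lit 191) (nat_lit 5) (nat_lit 187) (nat_lit 5) (nat_lit 438) (nat_lit 403) (nat_lit 359))))) (XT.nd (nat_lit 234) (nat_lit 1064) (nat_lit 0) (XT.nd (nat_lit 78) (nat_lit 608) (nat_lit 0) (XT.lf (nat_lit 0) (nat_lit 192409565) (nat_lit 304) (nat_lit 11395926934) (nat_lit 380) (nat_lit 1665079752) (nat_lit 178) (nat_lit 5) (nat_lit 182) (nat_lit 5) (nat_lit 183) (nat_lit 5) (nat_lit 439) (nat_lit 403) (nat_lit 358)) (XT.nd (nat_lit 78) (nat_lit 304) (nat_lit 0) (XT.lf (nat_lit 0) (nat_lit 1507803633) (nat_lit 228) (nat_lit 3029140720) (nat_lit 304) (nat_lit 9094860953) (nat_lit 174) (nat_lit 5) (nat_lit 177) (nat_lit 5) (nat_lit 178) (nat_lit 5) (nat_lit 440) (nat_lit 403) (nat_lit 357)) (XT.lf (nat_lit 0) (nat_lit 2903973110) (nat_lit 304) (nat_lit 8246360230) (nat_lit 380) (nat_lit 2874216906) (nat_lit 170) (nat_lit 5) (nat_lit 174) (nat_lit 5) (nat_lit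 175) (nat_lit 5) (nat_lit 441) (nat_lit 403) (nat_lit 356)))) (XT.nd (nat_lit 156) (nat_lit 532) (nat_lit 0) (XT.nd (nat_lit 78) (nat_lit 228) (nat_lit 0) (XT.lf (nat_lit 0) (nat_lit 3709848465) (nat_lit 304) (nat_lit 10046710427) (nat_lit 76) (nat_lit 675607891) (nat_lit 166) (nat_lit 5) (nat_lit 170) (nat_lit 5) (nat_lit 167) (nat_lit 5) (nat_lit 442) (nat_lit 403) (nat_lit 355)) (XT.lf (nat_lit 0) (nat_lit 5916351952) (nat_lit 228) (nat_lit 4824110512) (nat_lit 304) (nat_lit 4113546073) (nat_lit 163) (nat_lit 5) (nat_lit 166) (nat_lit 5) (nat_lit 167) (nat_lit 5) (nat_lit 443) (nat_lit 403) (nat_lit 354))) (XT.nd (nat_lit 78) (nat_lit 228) (nat_lit 0) (XT.lf (nat_lit 0) (nat_lit 2915599638) (nat_lit 304) (nat_lit 7750977826) (nat_lit 76) (nat_lit 4625199479) (nat_lit 159) (nat_lit 5) (nat_lit 163) (nat_lit 5) (nat_lit 160) (nat_lit 5) (nat_lit 444) (nat_lit 403) (nat_lit 353)) (XT.lf (nat_lit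 0) (nat_lit 9246352216) (nat_lit 228) (nat_lit 1120468709) (nat_lit 304) (nat_lit 5378721780) (nat_lit 156) (nat_lit 5) (nat_lit 159) (nat_lit 5) (nat_lit 160) (nat_lit 5) (nat_lit 445) (nat_lit 403) (nat_lit 352)))))) (XT.nd (nat_lit 546) (nat_lit 1368) (nat_lit 0) (XT.nd (nat_lit 234) (nat_lit 1064) (nat_lit 0) (XT.nd (nat_lit 78) (nat_lit 456) (nat_lit 0) (XT.lf (nat_lit 0) (nat_lit 2130862027) (nat_lit 304) (nat_lit 5194308159) (nat_lit 76) (nat_lit 8890240205) (nat_lit 152) (nat_lit 5) (nat_lit 156) (nat_lit 5) (nat_lit 153) (nat_lit 5) (nat_lit 446) (nat_lit 403) (nat_lit 351)) (XT.nd (nat_lit 78) (nat_lit 228) (nat_lit 0) (XT.lf (nat_lit 0) (nat_lit 10064398060) (nat_lit 304) (nat_lit 3819028481) (nat_lit 76) (nat_lit 2818957259) (nat_lit 149) (nat_lit 5) (nat_lit 153) (nat_lit 5) (nat_lit 150) (nat_lit 5) (nat_lit 447) (nat_lit 403) (nat_lit 350)) (XT.lf (nat_lit 0) (nat_lit 1360508297)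 (nat_lit 228) (nat_lit 2362725907) (nat_lit 76) (nat_lit 13484052990) (nat_lit 146) (nat_lit 5) (nat_lit 149) (nat_lit 5) (nat_lit 147) (nat_lit 5) (nat_lit 448) (nat_lit 403) (nat_lit 349)))) (XT.nd (nat_lit 156) (nat_lit 380) (nat_lit 0) (XT.nd (nat_lit 78) (nat_lit 456) (nat_lit 0) (XT.lf (nat_lit 0) (nat_lit 9825801255) (nat_lit 304) (nat_lit 868979665) (nat_lit 76) (nat_lit 7034559630) (nat_lit 143) (nat_lit 5) (nat_lit 147) (nat_lit 5) (nat_lit 144) (nat_lit 5) (nat_lit 449) (nat_lit 403) (nat_lit 348)) (XT.lf (nat_lit 0) (nat_lit 617359702) (nat_lit 304) (nat_lit 17500124283) (nat_lit 76) (nat_lit 154217061) (nat_lit 137) (nat_lit 5) (nat_lit 141) (nat_lit 5) (nat_lit 138) (nat_lit 5) (nat_lit 450) (nat_lit 403) (nat_lit 347))) (XT.nd (nat_lit 78) (nat_lit 228) (nat_lit 0) (XT.lf (nat_lit 0) (nat_lit 2423267915) (nat_lit 152) (nat_lit 7246072947) (nat_lit 228) (nat_lit 9161437351) (nat_lit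 135) (nat_lit 5) (nat_lit 137) (nat_lit 5) (nat_lit 138) (nat_lit 5) (nat_lit 451) (nat_lit 403) (nat_lit 346)) (XT.lf (nat_lit 0) (nat_lit 4222035415) (nat_lit 228) (nat_lit 15149193321) (nat_lit 304) (nat_lit 40662288) (nat_lit 132) (nat_lit 5) (nat_lit 135) (nat_lit 5) (nat_lit 136) (nat_lit 5) (nat_lit 452) (nat_lit 403) (nat_lit 345))))) (XT.nd (nat_lit 234) (nat_lit 760) (nat_lit 0) (XT.nd (nat_lit 78) (nat_lit 380) (nat_lit 0) (XT.lf (nat_lit 0) (nat_lit 6047867806) (nat_lit 152) (nat_lit 3540172518) (nat_lit 228) (nat_lit 10424130868) (nat_lit 129) (nat_lit 5) (nat_lit 131) (nat_lit 5) (nat_lit 132) (nat_lit 5) (nat_lit 453) (nat_lit 403) (nat_lit 344)) (XT.nd (nat_lit 78) (nat_lit 228) (nat_lit 0) (XT.lf (nat_lit 0) (nat_lit 7987103010) (nat_lit 152) (nat_lit 11965737224) (nat_lit 228) (nat_lit 681948855) (nat_lit 127) (nat_lit 5) (nat_lit 129) (nat_lit 5) (nat_lit 130) (nat_lit 5) (nat_lit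 454) (nat_lit 403) (nat_lit 343)) (XT.lf (nat_lit 0) (nat_lit 9581153597) (nat_lit 228) (nat_lit 11282304728) (nat_lit 76) (nat_lit 415723706) (nat_lit 124) (nat_lit 5) (nat_lit 127) (nat_lit 5) (nat_lit 125) (nat_lit 5) (nat_lit 455) (nat_lit 403) (nat_lit 342)))) (XT.nd (nat_lit 156) (nat_lit 380) (nat_lit 0) (XT.nd (nat_lit 78) (nat_lit 228) (nat_lit 0) (XT.lf (nat_lit 0) (nat_lit 12085948660) (nat_lit 152) (nat_lit 8566364313) (nat_lit 228) (nat_lit 1294009710) (nat_lit 122) (nat_lit 5) (nat_lit 124) (nat_lit 5) (nat_lit 125) (nat_lit 5) (nat_lit 456) (nat_lit 403) (nat_lit 341)) (XT.lf (nat_lit 0) (nat_lit 9683458332) (nat_lit 228) (nat_lit 8387757429) (nat_lit 76) (nat_lit 4565593135) (nat_lit 119) (nat_lit 5) (nat_lit 122) (nat_lit 5) (nat_lit 120) (nat_lit 5) (nat_lit 457) (nat_lit 403) (nat_lit 340))) (XT.nd (nat_lit 78) (nat_lit 228) (nat_lit 0) (XT.lf (nat_lit 0) (nat_lit 16529893020)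 (nat_lit 152) (nat_lit 4944318979) (nat_lit 228) (nat_lit 1878488526) (nat_lit 117) (nat_lit 5) (nat_lit 119) (nat_lit 5) (nat_lit 120) (nat_lit 5) (nat_lit 458) (nat_lit 403) (nat_lit 339)) (XT.lf (nat_lit 0) (nat_lit 9861500297) (nat_lit 228) (nat_lit 5242873734) (nat_lit 76) (nat_lit 8988152316) (nat_lit 114) (nat_lit 5) (nat_lit 117) (nat_lit 5) (nat_lit 115) (nat_lit 5) (nat_lit 459) (nat_lit 403) (nat_lit 338))))))))
noncomputable def xc53 : XT := (XT.nd (nat_lit 2028) (nat_lit 1444) (nat_lit 0) (XT.nd (nat_lit 1014) (nat_lit 1672) (nat_lit 0) (XT.nd (nat_lit 468) (nat_lit 988) (nat_lit 0) (XT.nd (nat_lit 234) (nat_lit 608) (nat_lit 0) (XT.nd (nat_lit 78) (nat_lit 380) (nat_lit 0) (XT.lf (nat_lit 0) (nat_lit 21327906597) (nat_lit 152) (nat_lit 1093480651) (nat_lit 228) (nat_lit 2439246395) (nat_lit 112) (nat_lit 5) (nat_lit 114) (nat_lit 5) (nat_lit 115) (nat_lit 5) (nat_lit 460) (nat_lit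 403) (nat_lit 337)) (XT.nd (nat_lit 78) (nat_lit 152) (nat_lit 0) (XT.lf (nat_lit 0) (nat_lit 10113703172) (nat_lit 228) (nat_lit 1847177301) (nat_lit 76) (nat_lit 13692431675) (nat_lit 109) (nat_lit 5) (nat_lit 112) (nat_lit 5) (nat_lit 110) (nat_lit 5) (nat_lit 461) (nat_lit 403) (nat_lit 336)) (XT.lf (nat_lit 0) (nat_lit 23523315788) (nat_lit 228) (nat_lit 20406943) (nat_lit 76) (nat_lit 2932793969) (nat_lit 107) (nat_lit 5) (nat_lit 110) (nat_lit 5) (nat_lit 108) (nat_lit 4) (nat_lit 462) (nat_lit 403) (nat_lit 335)))) (XT.nd (nat_lit 78) (nat_lit 304) (nat_lit 0) (XT.lf (nat_lit 0) (nat_lit 1831250379) (nat_lit 152) (nat_lit 8622214588) (nat_lit 228) (nat_lit 16872721631) (nat_lit 103) (nat_lit 5) (nat_lit 105) (nat_lit 5) (nat_lit 106) (nat_lit 5) (nat_lit 463) (nat_lit 403) (nat_lit 334)) (XT.nd (nat_lit 78) (nat_lit 228) (nat_lit 0) (XT.lf (nat_lit 0) (nat_lit 3797810332) (nat_lit 76) (nat_lit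 21000826302) (nat_lit 152) (nat_lit 3408949165) (nat_lit 102) (nat_lit 5) (nat_lit 103) (nat_lit 5) (nat_lit 104) (nat_lit 4) (nat_lit 464) (nat_lit 403) (nat_lit 333)) (XT.lf (nat_lit 0) (nat_lit 5788850459) (nat_lit 152) (nat_lit 5087358185) (nat_lit 228) (nat_lit 18243026862) (nat_lit 99) (nat_lit 5) (nat_lit 101) (nat_lit 5) (nat_lit 102) (nat_lit 5) (nat_lit 465) (nat_lit 403) (nat_lit 332))))) (XT.nd (nat_lit 234) (nat_lit 608) (nat_lit 0) (XT.nd (nat_lit 78) (nat_lit 304) (nat_lit 0) (XT.lf (nat_lit 0) (nat_lit 7850659923) (nat_lit 76) (nat_lit 18346983249) (nat_lit 152) (nat_lit 3866036751) (nat_lit 98) (nat_lit 5) (nat_lit 99) (nat_lit 5) (nat_lit 100) (nat_lit 4) (nat_lit 466) (nat_lit 403) (nat_lit 331)) (XT.nd (nat_lit 78) (nat_lit 76) (nat_lit 0) (XT.lf (nat_lit 0) (nat_lit 9972272884) (nat_lit 152) (nat_lit 1380068714) (nat_lit 228) (nat_lit 19689516735) (nat_lit 95) (nat_lit 5) (nat_lit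 97) (nat_lit 5) (nat_lit 98) (nat_lit 5) (nat_lit 467) (nat_lit 403) (nat_lit 330)) (XT.lf (nat_lit 0) (nat_lit 12116908310) (nat_lit 76) (nat_lit 15593869562) (nat_lit 152) (nat_lit 4343246996) (nat_lit 94) (nat_lit 5) (nat_lit 95) (nat_lit 5) (nat_lit 96) (nat_lit 4) (nat_lit 468) (nat_lit 403) (nat_lit 329)))) (XT.nd (nat_lit 156) (nat_lit 304) (nat_lit 0) (XT.nd (nat_lit 78) (nat_lit 76) (nat_lit 0) (XT.lf (nat_lit 0) (nat_lit 11889482803) (nat_lit 228) (nat_lit 18771513441) (nat_lit 76) (nat_lit 2441944667) (nat_lit 91) (nat_lit 5) (nat_lit 94) (nat_lit 5) (nat_lit 92) (nat_lit 4) (nat_lit 469) (nat_lit 403) (nat_lit 328)) (XT.lf (nat_lit 0) (nat_lit 16565875691) (nat_lit 76) (nat_lit 12757791987) (nat_lit 152) (nat_lit 4864956021) (nat_lit 90) (nat_lit 5) (nat_lit 91) (nat_lit 5) (nat_lit 92) (nat_lit 4) (nat_lit 470) (nat_lit 403) (nat_lit 327))) (XT.nd (nat_lit 78) (nat_lit 76) (nat_lit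 0) (XT.lf (nat_lit 0) (nat_lit 12456199656) (nat_lit 228) (nat_lit 16473724541) (nat_lit 76) (nat_lit 6383261453) (nat_lit 87) (nat_lit 5) (nat_lit 90) (nat_lit 5) (nat_lit 88) (nat_lit 4) (nat_lit 471) (nat_lit 403) (nat_lit 326)) (XT.lf (nat_lit 0) (nat_lit 21154742489) (nat_lit 76) (nat_lit 9861075621) (nat_lit 152) (nat_lit 5462522244) (nat_lit 86) (nat_lit 5) (nat_lit 87) (nat_lit 5) (nat_lit 88) (nat_lit 4) (nat_lit 472) (nat_lit 403) (nat_lit 325)))))) (XT.nd (nat_lit 468) (nat_lit 836) (nat_lit 0) (XT.nd (nat_lit 234) (nat_lit 304) (nat_lit 0) (XT.nd (nat_lit 78) (nat_lit 304) (nat_lit 0) (XT.lf (nat_lit 0) (nat_lit 13009735133) (nat_lit 228) (nat_lit 14223890123) (nat_lit 76) (nat_lit 10450699766) (nat_lit 83) (nat_lit 5) (nat_lit 86) (nat_lit 5) (nat_lit 84) (nat_lit 4) (nat_lit 473) (nat_lit 403) (nat_lit 324)) (XT.nd (nat_lit 78) (nat_lit 228) (nat_lit 0) (XT.lf (nat_lit 0) (nat_lit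 25825828691) (nat_lit 76) (nat_lit 6933462747) (nat_lit 152) (nat_lit 6175695425) (nat_lit 82) (nat_lit 5) (nat_lit 83) (nat_lit 5) (nat_lit 84) (nat_lit 4) (nat_lit 474) (nat_lit 403) (nat_lit 323)) (XT.lf (nat_lit 0) (nat_lit 13511952944) (nat_lit 228) (nat_lit 12100268633) (nat_lit 76) (nat_lit 14616470126) (nat_lit 79) (nat_lit 5) (nat_lit 82) (nat_lit 5) (nat_lit 80) (nat_lit 4) (nat_lit 475) (nat_lit 403) (nat_lit 322)))) (XT.nd (nat_lit 78) (nat_lit 228) (nat_lit 0) (XT.lf (nat_lit 0) (nat_lit 30503361922) (nat_lit 76) (nat_lit 4013768843) (nat_lit 152) (nat_lit 7054290779) (nat_lit 78) (nat_lit 5) (nat_lit 79) (nat_lit 5) (nat_lit 80) (nat_lit 4) (nat_lit 476) (nat_lit 403) (nat_lit 321)) (XT.nd (nat_lit 78) (nat_lit 76) (nat_lit 0) (XT.lf (nat_lit 0) (nat_lit 13914309108) (nat_lit 152) (nat_lit 10202047404) (nat_lit 76) (nat_lit 18843364809) (nat_lit 76) (nat_lit 5) (nat_lit 78) (nat_lit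 5) (nat_lit 77) (nat_lit 4) (nat_lit 477) (nat_lit 403) (nat_lit 320)) (XT.lf (nat_lit 0) (nat_lit 35089642827) (nat_lit 76) (nat_lit 1151842410) (nat_lit 152) (nat_lit 8160174517) (nat_lit 75) (nat_lit 5) (nat_lit 76) (nat_lit 5) (nat_lit 77) (nat_lit 4) (nat_lit 478) (nat_lit 403) (nat_lit 319))))) (XT.nd (nat_lit 234) (nat_lit 456) (nat_lit 0) (XT.nd (nat_lit 78) (nat_lit 228) (nat_lit 0) (XT.lf (nat_lit 0) (nat_lit 14155760480) (nat_lit 152) (nat_lit 8653614939) (nat_lit 76) (nat_lit 23082695357) (nat_lit 73) (nat_lit 5) (nat_lit 75) (nat_lit 5) (nat_lit 74) (nat_lit 4) (nat_lit 479) (nat_lit 403) (nat_lit 318)) (XT.nd (nat_lit 78) (nat_lit 152) (nat_lit 0) (XT.lf (nat_lit 0) (nat_lit 37886659367) (nat_lit 152) (nat_lit 7995774044) (nat_lit 0) (nat_lit 1558107333) (nat_lit 72) (nat_lit 5) (nat_lit 74) (nat_lit 4) (nat_lit 72) (nat_lit 4) (nat_lit 480) (nat_lit 403) (nat_lit 317)) (XT.lf (nat_lit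 0) (nat_lit 14160286483) (nat_lit 152) (nat_lit 7609615113) (nat_lit 76) (nat_lit 27271850459) (nat_lit 70) (nat_lit 5) (nat_lit 72) (nat_lit 5) (nat_lit 71) (nat_lit 4) (nat_lit 481) (nat_lit 403) (nat_lit 316)))) (XT.nd (nat_lit 156) (nat_lit 228) (nat_lit 0) (XT.nd (nat_lit 78) (nat_lit 152) (nat_lit 0) (XT.lf (nat_lit 0) (nat_lit 39369794140) (nat_lit 152) (nat_lit 7285946505) (nat_lit 0) (nat_lit 4049229043) (nat_lit 69) (nat_lit 5) (nat_lit 71) (nat_lit 4) (nat_lit 69) (nat_lit 4) (nat_lit 482) (nat_lit 403) (nat_lit 315)) (XT.lf (nat_lit 0) (nat_lit 13833956405) (nat_lit 152) (nat_lit 7260921040) (nat_lit 76) (nat_lit 31331406446) (nat_lit 67) (nat_lit 5) (nat_lit 69) (nat_lit 5) (nat_lit 68) (nat_lit 4) (nat_lit 483) (nat_lit 403) (nat_lit 314))) (XT.nd (nat_lit 78) (nat_lit 152) (nat_lit 0) (XT.lf (nat_lit 0) (nat_lit 40583254062) (nat_lit 152) (nat_lit 7383057281) (nat_lit 0) (nat_lit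 6247301572) (nat_lit 66) (nat_lit 5) (nat_lit 68) (nat_lit 4) (nat_lit 66) (nat_lit 4) (nat_lit 484) (nat_lit 403) (nat_lit 313)) (XT.lf (nat_lit 0) (nat_lit 13061462864) (nat_lit 152) (nat_lit 7841690060) (nat_lit 76) (nat_lit 35161710972) (nat_lit 64) (nat_lit 5) (nat_lit 66) (nat_lit 5) (nat_lit 65) (nat_lit 4) (nat_lit 485) (nat_lit 403) (nat_lit 312))))))) (XT.nd (nat_lit 56082) (nat_lit 0) (nat_lit 23408) (XT.nd (nat_lit 468) (nat_lit 760) (nat_lit 0) (XT.nd (nat_lit 234) (nat_lit 380) (nat_lit 0) (XT.nd (nat_lit 78) (nat_lit 228) (nat_lit 0) (XT.lf (nat_lit 0) (nat_lit 41407673130) (nat_lit 152) (nat_lit 8545979725) (nat_lit 0) (nat_lit 8032925240) (nat_lit 63) (nat_lit 5) (nat_lit 65) (nat_lit 4) (nat_lit 63) (nat_lit 4) (nat_lit 486) (nat_lit 403) (nat_lit 311)) (XT.nd (nat_lit 78) (nat_lit 76) (nat_lit 0) (XT.lf (nat_lit 0) (nat_lit 11702028420) (nat_lit 152) (nat_lit 9637689053) (nat_lit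 76) (nat_lit 38638846853) (nat_lit 61) (nat_lit 5) (nat_lit 63) (nat_lit 5) (nat_lit 62) (nat_lit 4) (nat_lit 487) (nat_lit 403) (nat_lit 310)) (XT.lf (nat_lit 0) (nat_lit 41696473552) (nat_lit 152) (nat_lit 11089906865) (nat_lit 0) (nat_lit 9259574857) (nat_lit 60) (nat_lit 5) (nat_lit 62) (nat_lit 4) (nat_lit 60) (nat_lit 4) (nat_lit 488) (nat_lit 403) (nat_lit 309)))) (XT.nd (nat_lit 78) (nat_lit 228) (nat_lit 0) (XT.lf (nat_lit 0) (nat_lit 9584576213) (nat_lit 152) (nat_lit 12996111811) (nat_lit 76) (nat_lit 41609867017) (nat_lit 58) (nat_lit 5) (nat_lit 60) (nat_lit 5) (nat_lit 59) (nat_lit 4) (nat_lit 489) (nat_lit 403) (nat_lit 308)) (XT.nd (nat_lit 78) (nat_lit 152) (nat_lit 0) (XT.lf (nat_lit 0) (nat_lit 41270661988) (nat_lit 152) (nat_lit 15397009724) (nat_lit 0) (nat_lit 9748383272) (nat_lit 57) (nat_lit 5) (nat_lit 59) (nat_lit 4) (nat_lit 57) (nat_lit 4) (nat_lit 490) (nat_lit 403)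 (nat_lit 307)) (XT.lf (nat_lit 0) (nat_lit 6502036798) (nat_lit 152) (nat_lit 18337148224) (nat_lit 76) (nat_lit 43887172875) (nat_lit 55) (nat_lit 5) (nat_lit 57) (nat_lit 5) (nat_lit 56) (nat_lit 4) (nat_lit 491) (nat_lit 403) (nat_lit 306))))) (XT.nd (nat_lit 234) (nat_lit 456) (nat_lit 0) (XT.nd (nat_lit 78) (nat_lit 228) (nat_lit 0) (XT.lf (nat_lit 0) (nat_lit 39912692886) (nat_lit 152) (nat_lit 21928993620) (nat_lit 0) (nat_lit 9281993598) (nat_lit 54) (nat_lit 5) (nat_lit 56) (nat_lit 4) (nat_lit 54) (nat_lit 4) (nat_lit 492) (nat_lit 403) (nat_lit 305)) (XT.nd (nat_lit 78) (nat_lit 76) (nat_lit 0) (XT.lf (nat_lit 0) (nat_lit 2204641355) (nat_lit 152) (nat_lit 26167609598) (nat_lit 76) (nat_lit 45241886457) (nat_lit 52) (nat_lit 5) (nat_lit 54) (nat_lit 5) (nat_lit 53) (nat_lit 4) (nat_lit 493) (nat_lit 403) (nat_lit 304)) (XT.lf (nat_lit 0) (nat_lit 37359236963) (nat_lit 152) (nat_lit 31241881827)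 (nat_lit 0) (nat_lit 7597317970) (nat_lit 51) (nat_lit 5) (nat_lit 53) (nat_lit 4) (nat_lit 51) (nat_lit 4) (nat_lit 494) (nat_lit 403) (nat_lit 303)))) (XT.nd (nat_lit 156) (nat_lit 228) (nat_lit 0) (XT.nd (nat_lit 78) (nat_lit 152) (nat_lit 0) (XT.lf (nat_lit 0) (nat_lit 41751633363) (nat_lit 76) (nat_lit 33452558903) (nat_lit 76) (nat_lit 3679779982) (nat_lit 50) (nat_lit 4) (nat_lit 51) (nat_lit 5) (nat_lit 51) (nat_lit 4) (nat_lit 495) (nat_lit 403) (nat_lit 302)) (XT.lf (nat_lit 0) (nat_lit 33292665076) (nat_lit 152) (nat_lit 44003412365) (nat_lit 0) (nat_lit 4377012932) (nat_lit 48) (nat_lit 5) (nat_lit 50) (nat_lit 4) (nat_lit 48) (nat_lit 4) (nat_lit 496) (nat_lit 403) (nat_lit 301))) (XT.nd (nat_lit 78) (nat_lit 152) (nat_lit 0) (XT.lf (nat_lit 0) (nat_lit 32603257018) (nat_lit 76) (nat_lit 40446089219) (nat_lit 76) (nat_lit 11520873701) (nat_lit 47) (nat_lit 4) (nat_lit 48) (nat_lit 5)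 (nat_lit 48) (nat_lit 4) (nat_lit 497) (nat_lit 403) (nat_lit 300)) (XT.lf (nat_lit 0) (nat_lit 26562794173) (nat_lit 76) (nat_lit 775687435) (nat_lit 152) (nat_lit 60245268682) (nat_lit 45) (nat_lit 5) (nat_lit 46) (nat_lit 5) (nat_lit 47) (nat_lit 4) (nat_lit 498) (nat_lit 403) (nat_lit 299)))))) (XT.nd (nat_lit 546) (nat_lit 5396) (nat_lit 0) (XT.nd (nat_lit 234) (nat_lit 1216) (nat_lit 0) (XT.nd (nat_lit 78) (nat_lit 532) (nat_lit 0) (XT.lf (nat_lit 0) (nat_lit 2094998287) (nat_lit 532) (nat_lit 609065207) (nat_lit 532) (nat_lit 609065207) (nat_lit 447) (nat_lit 3) (nat_lit 454) (nat_lit 3) (nat_lit 454) (nat_lit 5) (nat_lit 404) (nat_lit 404) (nat_lit 392)) (XT.nd (nat_lit 78) (nat_lit 0) (nat_lit 0) (XT.lf (nat_lit 0) (nat_lit 1428287875) (nat_lit 532) (nat_lit 2344128763) (nat_lit 608) (nat_lit 2903650342) (nat_lit 440) (nat_lit 5) (nat_lit 447) (nat_lit 3) (nat_lit 448) (nat_lit 5) (nat_lit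 405) (nat_lit 404) (nat_lit 391)) (XT.lf (nat_lit 76) (nat_lit 3365341339) (nat_lit 0) (nat_lit 1869121570) (nat_lit 608) (nat_lit 1499233923) (nat_lit 441) (nat_lit 5) (nat_lit 440) (nat_lit 5) (nat_lit 448) (nat_lit 5) (nat_lit 406) (nat_lit 404) (nat_lit 390)))) (XT.nd (nat_lit 156) (nat_lit 684) (nat_lit 0) (XT.nd (nat_lit 78) (nat_lit 0) (nat_lit 0) (XT.lf (nat_lit 0) (nat_lit 2202084453) (nat_lit 608) (nat_lit 4294685397) (nat_lit 684) (nat_lit 302364456) (nat_lit 433) (nat_lit 5) (nat_lit 441) (nat_lit 5) (nat_lit 442) (nat_lit 5) (nat_lit 407) (nat_lit 404) (nat_lit 389)) (XT.lf (nat_lit 76) (nat_lit 1736482536) (nat_lit 0) (nat_lit 4164361990) (nat_lit 684) (nat_lit 971267294) (nat_lit 434) (nat_lit 5) (nat_lit 433) (nat_lit 5) (nat_lit 442) (nat_lit 5) (nat_lit 408) (nat_lit 404) (nat_lit 388))) (XT.nd (nat_lit 78) (nat_lit 0) (nat_lit 76) (XT.lf (nat_lit 76) (nat_lit 1066668431) (nat_lit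 0) (nat_lit 1548595712) (nat_lit 760) (nat_lit 4337626210) (nat_lit 425) (nat_lit 5) (nat_lit 424) (nat_lit 5) (nat_lit 434) (nat_lit 5) (nat_lit 409) (nat_lit 404) (nat_lit 387)) (XT.lf (nat_lit 76) (nat_lit 497019090) (nat_lit 0) (nat_lit 5723712888) (nat_lit 760) (nat_lit 820909587) (nat_lit 426) (nat_lit 5) (nat_lit 425) (nat_lit 5) (nat_lit 435) (nat_lit 5) (nat_lit 410) (nat_lit 404) (nat_lit 386))))) (XT.nd (nat_lit 234) (nat_lit 3952) (nat_lit 0) (XT.nd (nat_lit 78) (nat_lit 760) (nat_lit 0) (XT.lf (nat_lit 76) (nat_lit 4535492) (nat_lit 0) (nat_lit 2684449105) (nat_lit 836) (nat_lit 4448828460) (nat_lit 416) (nat_lit 5) (nat_lit 415) (nat_lit 5) (nat_lit 426) (nat_lit 5) (nat_lit 411) (nat_lit 404) (nat_lit 385)) (XT.nd (nat_lit 78) (nat_lit 836) (nat_lit 0) (XT.lf (nat_lit 0) (nat_lit 6235903768) (nat_lit 760) (nat_lit 376191866) (nat_lit 76) (nat_lit 630110010) (nat_lit 416) (nat_lit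 5) (nat_lit 426) (nat_lit 5) (nat_lit 417) (nat_lit 5) (nat_lit 412) (nat_lit 404) (nat_lit 384)) (XT.lf (nat_lit 0) (nat_lit 2462576352) (nat_lit 836) (nat_lit 693356284) (nat_lit 76) (nat_lit 4197990042) (nat_lit 405) (nat_lit 5) (nat_lit 416) (nat_lit 5) (nat_lit 406) (nat_lit 5) (nat_lit 413) (nat_lit 404) (nat_lit 383)))) (XT.nd (nat_lit 156) (nat_lit 2128) (nat_lit 0) (XT.nd (nat_lit 78) (nat_lit 988) (nat_lit 0) (XT.lf (nat_lit 0) (nat_lit 5977531122) (nat_lit 912) (nat_lit 912498087) (nat_lit 76) (nat_lit 584104325) (nat_lit 394) (nat_lit 5) (nat_lit 406) (nat_lit 5) (nat_lit 395) (nat_lit 5) (nat_lit 414) (nat_lit 404) (nat_lit 382)) (XT.lf (nat_lit 0) (nat_lit 1957006928) (nat_lit 988) (nat_lit 1069991626) (nat_lit 76) (nat_lit 4574885089) (nat_lit 381) (nat_lit 5) (nat_lit 394) (nat_lit 5) (nat_lit 382) (nat_lit 5) (nat_lit 415) (nat_lit 404) (nat_lit 381))) (XT.nd (nat_lit 78) (nat_lit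 1140) (nat_lit 0) (XT.lf (nat_lit 0) (nat_lit 5470081212) (nat_lit 1064) (nat_lit 1141211849) (nat_lit 76) (nat_lit 1126760555) (nat_lit 368) (nat_lit 5) (nat_lit 382) (nat_lit 5) (nat_lit 369) (nat_lit 5) (nat_lit 416) (nat_lit 404) (nat_lit 380)) (XT.lf (nat_lit 0) (nat_lit 1199181503) (nat_lit 1140) (nat_lit 1143123258) (nat_lit 76) (nat_lit 5539977002) (nat_lit 353) (nat_lit 5) (nat_lit 368) (nat_lit 5) (nat_lit 354) (nat_lit 5) (nat_lit 417) (nat_lit 404) (nat_lit 379))))))))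
noncomputable def xc54 : XT := (XT.nd (nat_lit 2028) (nat_lit 5700) (nat_lit 0) (XT.nd (nat_lit 1014) (nat_lit 5016) (nat_lit 0) (XT.nd (nat_lit 468) (nat_lit 3496) (nat_lit 0) (XT.nd (nat_lit 234) (nat_lit 2432) (nat_lit 0) (XT.nd (nat_lit 78) (nat_lit 2128) (nat_lit 0) (XT.lf (nat_lit 0) (nat_lit 4739011967) (nat_lit 1216) (nat_lit 1077460622) (nat_lit 76) (nat_lit 2218196271) (nat_lit 338) (nat_lit 5) (nat_lit 354) (nat_lit 5) (nat_lit 339) (nat_lit 5) (nat_lit 418) (nat_lit 404) (nat_lit 378)) (XT.nd (nat_lit 78) (nat_lit 836) (nat_lit 0) (XT.lf (nat_lit 0) (nat_lit 212377464) (nat_lit 1292) (nat_lit 926077881) (nat_lit 76) (nat_lit 7057462525) (nat_lit 321) (nat_lit 5) (nat_lit 338) (nat_lit 5) (nat_lit 322) (nat_lit 5) (nat_lit 419) (nat_lit 404) (nat_lit 377)) (XT.lf (nat_lit 0) (nat_lit 3806430871) (nat_lit 912) (nat_lit 732283431) (nat_lit 76) (nat_lit 3826179795) (nat_lit 310) (nat_lit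 5) (nat_lit 322) (nat_lit 5) (nat_lit 311) (nat_lit 5) (nat_lit 420) (nat_lit 404) (nat_lit 376)))) (XT.nd (nat_lit 78) (nat_lit 1824) (nat_lit 0) (XT.lf (nat_lit 0) (nat_lit 7545986480) (nat_lit 684) (nat_lit 443293780) (nat_lit 76) (nat_lit 554071528) (nat_lit 302) (nat_lit 5) (nat_lit 311) (nat_lit 5) (nat_lit 303) (nat_lit 5) (nat_lit 421) (nat_lit 404) (nat_lit 375)) (XT.nd (nat_lit 78) (nat_lit 1140) (nat_lit 0) (XT.lf (nat_lit 0) (nat_lit 2691475959) (nat_lit 684) (nat_lit 112975231) (nat_lit 76) (nat_lit 5925400922) (nat_lit 293) (nat_lit 5) (nat_lit 302) (nat_lit 5) (nat_lit 294) (nat_lit 5) (nat_lit 422) (nat_lit 404) (nat_lit 374)) (XT.lf (nat_lit 0) (nat_lit 301012760) (nat_lit 608) (nat_lit 6236485403) (nat_lit 684) (nat_lit 2388087912) (nat_lit 278) (nat_lit 5) (nat_lit 286) (nat_lit 5) (nat_lit 287) (nat_lit 5) (nat_lit 423) (nat_lit 404) (nat_lit 373))))) (XT.nd (nat_lit 234) (nat_lit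 1824) (nat_lit 0) (XT.nd (nat_lit 78) (nat_lit 1064) (nat_lit 0) (XT.lf (nat_lit 0) (nat_lit 792071192) (nat_lit 532) (nat_lit 626189932) (nat_lit 608) (nat_lit 7712382253) (nat_lit 270) (nat_lit 5) (nat_lit 277) (nat_lit 5) (nat_lit 278) (nat_lit 5) (nat_lit 424) (nat_lit 404) (nat_lit 372)) (XT.nd (nat_lit 78) (nat_lit 532) (nat_lit 0) (XT.lf (nat_lit 0) (nat_lit 1326074428) (nat_lit 532) (nat_lit 4070220537) (nat_lit 608) (nat_lit 3948031698) (nat_lit 263) (nat_lit 5) (nat_lit 270) (nat_lit 5) (nat_lit 271) (nat_lit 5) (nat_lit 425) (nat_lit 404) (nat_lit 371)) (XT.lf (nat_lit 0) (nat_lit 16079158) (nat_lit 532) (nat_lit 7613572657) (nat_lit 76) (nat_lit 1938696809) (nat_lit 256) (nat_lit 5) (nat_lit 263) (nat_lit 5) (nat_lit 257) (nat_lit 5) (nat_lit 426) (nat_lit 404) (nat_lit 370)))) (XT.nd (nat_lit 156) (nat_lit 912) (nat_lit 0) (XT.nd (nat_lit 78) (nat_lit 456) (nat_lit 0) (XT.lf (nat_lit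 0) (nat_lit 2624054296) (nat_lit 456) (nat_lit 1507942694) (nat_lit 532) (nat_lit 5669348962) (nat_lit 250) (nat_lit 5) (nat_lit 256) (nat_lit 5) (nat_lit 257) (nat_lit 5) (nat_lit 427) (nat_lit 404) (nat_lit 369)) (XT.lf (nat_lit 0) (nat_lit 3369234232) (nat_lit 456) (nat_lit 5132105255) (nat_lit 532) (nat_lit 1543229114) (nat_lit 244) (nat_lit 5) (nat_lit 250) (nat_lit 5) (nat_lit 251) (nat_lit 5) (nat_lit 428) (nat_lit 404) (nat_lit 368))) (XT.nd (nat_lit 78) (nat_lit 380) (nat_lit 0) (XT.lf (nat_lit 0) (nat_lit 2770573501) (nat_lit 532) (nat_lit 6113533379) (nat_lit 76) (nat_lit 1413971030) (nat_lit 237) (nat_lit 5) (nat_lit 244) (nat_lit 5) (nat_lit 238) (nat_lit 5) (nat_lit 429) (nat_lit 404) (nat_lit 367)) (XT.lf (nat_lit 0) (nat_lit 5060743286) (nat_lit 380) (nat_lit 2272915885) (nat_lit 456) (nat_lit 3228183653) (nat_lit 232) (nat_lit 5) (nat_lit 237) (nat_lit 5) (nat_lit 238) (nat_lit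 5) (nat_lit 430) (nat_lit 404) (nat_lit 366)))))) (XT.nd (nat_lit 468) (nat_lit 2508) (nat_lit 0) (XT.nd (nat_lit 234) (nat_lit 1216) (nat_lit 0) (XT.nd (nat_lit 78) (nat_lit 760) (nat_lit 0) (XT.lf (nat_lit 0) (nat_lit 1326788262) (nat_lit 532) (nat_lit 4826791845) (nat_lit 76) (nat_lit 4682875059) (nat_lit 225) (nat_lit 5) (nat_lit 232) (nat_lit 5) (nat_lit 226) (nat_lit 5) (nat_lit 431) (nat_lit 404) (nat_lit 365)) (XT.nd (nat_lit 78) (nat_lit 380) (nat_lit 0) (XT.lf (nat_lit 0) (nat_lit 6101634633) (nat_lit 456) (nat_lit 4094054389) (nat_lit 76) (nat_lit 926386896) (nat_lit 220) (nat_lit 5) (nat_lit 226) (nat_lit 5) (nat_lit 221) (nat_lit 5) (nat_lit 432) (nat_lit 404) (nat_lit 364)) (XT.lf (nat_lit 0) (nat_lit 8121377358) (nat_lit 380) (nat_lit 3088761331) (nat_lit 456) (nat_lit 208994747) (nat_lit 215) (nat_lit 5) (nat_lit 220) (nat_lit 5) (nat_lit 221) (nat_lit 5) (nat_lit 433) (nat_lit 404)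 (nat_lit 363)))) (XT.nd (nat_lit 78) (nat_lit 760) (nat_lit 0) (XT.lf (nat_lit 0) (nat_lit 4831007646) (nat_lit 456) (nat_lit 2462469915) (nat_lit 76) (nat_lit 4433697944) (nat_lit 209) (nat_lit 5) (nat_lit 215) (nat_lit 5) (nat_lit 210) (nat_lit 5) (nat_lit 434) (nat_lit 404) (nat_lit 362)) (XT.nd (nat_lit 78) (nat_lit 380) (nat_lit 0) (XT.lf (nat_lit 0) (nat_lit 10198277954) (nat_lit 456) (nat_lit 1532375965) (nat_lit 76) (nat_lit 317518783) (nat_lit 204) (nat_lit 5) (nat_lit 210) (nat_lit 5) (nat_lit 205) (nat_lit 5) (nat_lit 435) (nat_lit 404) (nat_lit 361)) (XT.lf (nat_lit 0) (nat_lit 3508293335) (nat_lit 380) (nat_lit 574527749) (nat_lit 76) (nat_lit 8297599813) (nat_lit 199) (nat_lit 5) (nat_lit 204) (nat_lit 5) (nat_lit 200) (nat_lit 5) (nat_lit 436) (nat_lit 404) (nat_lit 360))))) (XT.nd (nat_lit 234) (nat_lit 1216) (nat_lit 0) (XT.nd (nat_lit 78) (nat_lit 684) (nat_lit 0) (XT.lf (nat_lit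 0) (nat_lit 472735030) (nat_lit 304) (nat_lit 8725337156) (nat_lit 380) (nat_lit 3527604115) (nat_lit 191) (nat_lit 5) (nat_lit 195) (nat_lit 5) (nat_lit 196) (nat_lit 5) (nat_lit 437) (nat_lit 404) (nat_lit 359)) (XT.nd (nat_lit 78) (nat_lit 304) (nat_lit 0) (XT.lf (nat_lit 0) (nat_lit 1613103916) (nat_lit 304) (nat_lit 543184659) (nat_lit 380) (nat_lit 10927922797) (nat_lit 186) (nat_lit 5) (nat_lit 190) (nat_lit 5) (nat_lit 191) (nat_lit 5) (nat_lit 438) (nat_lit 404) (nat_lit 358)) (XT.lf (nat_lit 0) (nat_lit 2786712667) (nat_lit 304) (nat_lit 5414640317) (nat_lit 380) (nat_lit 5253776587) (nat_lit 182) (nat_lit 5) (nat_lit 186) (nat_lit 5) (nat_lit 187) (nat_lit 5) (nat_lit 439) (nat_lit 404) (nat_lit 357)))) (XT.nd (nat_lit 156) (nat_lit 608) (nat_lit 0) (XT.nd (nat_lit 78) (nat_lit 228) (nat_lit 0) (XT.lf (nat_lit 0) (nat_lit 806131450) (nat_lit 380) (nat_lit 9774258214) (nat_lit 76) (nat_lit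 3260529180) (nat_lit 177) (nat_lit 5) (nat_lit 182) (nat_lit 5) (nat_lit 178) (nat_lit 5) (nat_lit 440) (nat_lit 404) (nat_lit 356)) (XT.lf (nat_lit 0) (nat_lit 5393734768) (nat_lit 228) (nat_lit 1807018341) (nat_lit 304) (nat_lit 7039474631) (nat_lit 174) (nat_lit 5) (nat_lit 177) (nat_lit 5) (nat_lit 178) (nat_lit 5) (nat_lit 441) (nat_lit 404) (nat_lit 355))) (XT.nd (nat_lit 78) (nat_lit 304) (nat_lit 0) (XT.lf (nat_lit 0) (nat_lit 6808729612) (nat_lit 304) (nat_lit 7268750254) (nat_lit 380) (nat_lit 577152821) (nat_lit 170) (nat_lit 5) (nat_lit 174) (nat_lit 5) (nat_lit 175) (nat_lit 5) (nat_lit 442) (nat_lit 404) (nat_lit 354)) (XT.lf (nat_lit 0) (nat_lit 6223374422) (nat_lit 304) (nat_lit 6794742838) (nat_lit 76) (nat_lit 2065764914) (nat_lit 166) (nat_lit 5) (nat_lit 170) (nat_lit 5) (nat_lit 167) (nat_lit 5) (nat_lit 443) (nat_lit 404) (nat_lit 353))))))) (XT.nd (nat_lit 1014) (nat_lit 2508)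 (nat_lit 0) (XT.nd (nat_lit 468) (nat_lit 1444) (nat_lit 0) (XT.nd (nat_lit 234) (nat_lit 988) (nat_lit 0) (XT.nd (nat_lit 78) (nat_lit 532) (nat_lit 0) (XT.lf (nat_lit 0) (nat_lit 9858856315) (nat_lit 228) (nat_lit 3670858250) (nat_lit 304) (nat_lit 1999378060) (nat_lit 163) (nat_lit 5) (nat_lit 166) (nat_lit 5) (nat_lit 167) (nat_lit 5) (nat_lit 444) (nat_lit 404) (nat_lit 352)) (XT.nd (nat_lit 78) (nat_lit 228) (nat_lit 0) (XT.lf (nat_lit 0) (nat_lit 5275433370) (nat_lit 304) (nat_lit 4499603762) (nat_lit 76) (nat_lit 6214861304) (nat_lit 159) (nat_lit 5) (nat_lit 163) (nat_lit 5) (nat_lit 160) (nat_lit 5) (nat_lit 445) (nat_lit 404) (nat_lit 351)) (XT.lf (nat_lit 0) (nat_lit 13029833195) (nat_lit 304) (nat_lit 3227286240) (nat_lit 76) (nat_lit 211316706) (nat_lit 156) (nat_lit 5) (nat_lit 160) (nat_lit 5) (nat_lit 157) (nat_lit 5) (nat_lit 446) (nat_lit 404) (nat_lit 350)))) (XT.nd (nat_lit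 78) (nat_lit 684) (nat_lit 0) (XT.lf (nat_lit 0) (nat_lit 4344900348) (nat_lit 304) (nat_lit 1929264590) (nat_lit 76) (nat_lit 10688750836) (nat_lit 152) (nat_lit 5) (nat_lit 156) (nat_lit 5) (nat_lit 153) (nat_lit 5) (nat_lit 447) (nat_lit 404) (nat_lit 349)) (XT.nd (nat_lit 78) (nat_lit 456) (nat_lit 0) (XT.lf (nat_lit 0) (nat_lit 12620967895) (nat_lit 304) (nat_lit 538318312) (nat_lit 76) (nat_lit 4316577923) (nat_lit 149) (nat_lit 5) (nat_lit 153) (nat_lit 5) (nat_lit 150) (nat_lit 5) (nat_lit 448) (nat_lit 404) (nat_lit 348)) (XT.lf (nat_lit 0) (nat_lit 949811903) (nat_lit 228) (nat_lit 2495557343) (nat_lit 304) (nat_lit 14561741769) (nat_lit 143) (nat_lit 5) (nat_lit 146) (nat_lit 5) (nat_lit 147) (nat_lit 5) (nat_lit 449) (nat_lit 404) (nat_lit 347))))) (XT.nd (nat_lit 234) (nat_lit 836) (nat_lit 0) (XT.nd (nat_lit 78) (nat_lit 456) (nat_lit 0) (XT.lf (nat_lit 0) (nat_lit 2495784366) (nat_lit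 152) (nat_lit 9802430537) (nat_lit 228) (nat_lit 6258125185) (nat_lit 141) (nat_lit 5) (nat_lit 143) (nat_lit 5) (nat_lit 144) (nat_lit 5) (nat_lit 450) (nat_lit 404) (nat_lit 346)) (XT.nd (nat_lit 78) (nat_lit 152) (nat_lit 0) (XT.lf (nat_lit 0) (nat_lit 2608349865) (nat_lit 304) (nat_lit 14963320448) (nat_lit 76) (nat_lit 1554780886) (nat_lit 137) (nat_lit 5) (nat_lit 141) (nat_lit 5) (nat_lit 138) (nat_lit 5) (nat_lit 451) (nat_lit 404) (nat_lit 345)) (XT.lf (nat_lit 0) (nat_lit 5858442511) (nat_lit 152) (nat_lit 6193004723) (nat_lit 228) (nat_lit 7663880962) (nat_lit 135) (nat_lit 5) (nat_lit 137) (nat_lit 5) (nat_lit 138) (nat_lit 5) (nat_lit 452) (nat_lit 404) (nat_lit 344)))) (XT.nd (nat_lit 156) (nat_lit 380) (nat_lit 0) (XT.nd (nat_lit 78) (nat_lit 152) (nat_lit 0) (XT.lf (nat_lit 0) (nat_lit 1829041133) (nat_lit 304) (nat_lit 12650520160) (nat_lit 76) (nat_lit 5846781986) (nat_lit 131)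 (nat_lit 5) (nat_lit 135) (nat_lit 5) (nat_lit 132) (nat_lit 5) (nat_lit 453) (nat_lit 404) (nat_lit 343)) (XT.lf (nat_lit 0) (nat_lit 9554130528) (nat_lit 152) (nat_lit 2325922122) (nat_lit 228) (nat_lit 9078322595) (nat_lit 129) (nat_lit 5) (nat_lit 131) (nat_lit 5) (nat_lit 132) (nat_lit 5) (nat_lit 454) (nat_lit 404) (nat_lit 342))) (XT.nd (nat_lit 78) (nat_lit 152) (nat_lit 0) (XT.lf (nat_lit 0) (nat_lit 1084799108) (nat_lit 228) (nat_lit 10085715022) (nat_lit 76) (nat_lit 10442590501) (nat_lit 126) (nat_lit 5) (nat_lit 129) (nat_lit 5) (nat_lit 127) (nat_lit 5) (nat_lit 455) (nat_lit 404) (nat_lit 341)) (XT.lf (nat_lit 0) (nat_lit 11804873482) (nat_lit 228) (nat_lit 8711463478) (nat_lit 76) (nat_lit 1774441237) (nat_lit 124) (nat_lit 5) (nat_lit 127) (nat_lit 5) (nat_lit 125) (nat_lit 5) (nat_lit 456) (nat_lit 404) (nat_lit 340)))))) (XT.nd (nat_lit 546) (nat_lit 1140) (nat_lit 0) (XT.nd (nat_lit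 234) (nat_lit 836) (nat_lit 0) (XT.nd (nat_lit 78) (nat_lit 304) (nat_lit 0) (XT.lf (nat_lit 0) (nat_lit 375420163) (nat_lit 228) (nat_lit 7261232125) (nat_lit 76) (nat_lit 15356128510) (nat_lit 121) (nat_lit 5) (nat_lit 124) (nat_lit 5) (nat_lit 122) (nat_lit 5) (nat_lit 457) (nat_lit 404) (nat_lit 339)) (XT.nd (nat_lit 78) (nat_lit 152) (nat_lit 0) (XT.lf (nat_lit 0) (nat_lit 11835523342) (nat_lit 228) (nat_lit 5779475763) (nat_lit 76) (nat_lit 6103593158) (nat_lit 119) (nat_lit 5) (nat_lit 122) (nat_lit 5) (nat_lit 120) (nat_lit 5) (nat_lit 458) (nat_lit 404) (nat_lit 338)) (XT.lf (nat_lit 0) (nat_lit 20297269669) (nat_lit 152) (nat_lit 3867391147) (nat_lit 228) (nat_lit 307153241) (nat_lit 117) (nat_lit 5) (nat_lit 119) (nat_lit 5) (nat_lit 120) (nat_lit 5) (nat_lit 459) (nat_lit 404) (nat_lit 337)))) (XT.nd (nat_lit 156) (nat_lit 456) (nat_lit 0) (XT.nd (nat_lit 78) (nat_lit 152) (nat_lit 0)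 (XT.lf (nat_lit 0) (nat_lit 11949900103) (nat_lit 228) (nat_lit 2581900218) (nat_lit 76) (nat_lit 10717474709) (nat_lit 114) (nat_lit 5) (nat_lit 117) (nat_lit 5) (nat_lit 115) (nat_lit 5) (nat_lit 460) (nat_lit 404) (nat_lit 336)) (XT.lf (nat_lit 0) (nat_lit 25090496130) (nat_lit 228) (nat_lit 825009448) (nat_lit 76) (nat_lit 141701523) (nat_lit 112) (nat_lit 5) (nat_lit 115) (nat_lit 5) (nat_lit 113) (nat_lit 4) (nat_lit 461) (nat_lit 404) (nat_lit 335))) (XT.nd (nat_lit 78) (nat_lit 76) (nat_lit 0) (XT.lf (nat_lit 0) (nat_lit 899366842) (nat_lit 152) (nat_lit 11255312537) (nat_lit 228) (nat_lit 14735223891) (nat_lit 107) (nat_lit 5) (nat_lit 109) (nat_lit 5) (nat_lit 110) (nat_lit 5) (nat_lit 462) (nat_lit 404) (nat_lit 334)) (XT.lf (nat_lit 0) (nat_lit 2806119868) (nat_lit 76) (nat_lit 23412741081) (nat_lit 152) (nat_lit 1535885201) (nat_lit 106) (nat_lit 5) (nat_lit 107) (nat_lit 5) (nat_lit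 108) (nat_lit 4) (nat_lit 463) (nat_lit 404) (nat_lit 333))))) (XT.nd (nat_lit 234) (nat_lit 608) (nat_lit 0) (XT.nd (nat_lit 78) (nat_lit 304) (nat_lit 0) (XT.lf (nat_lit 0) (nat_lit 4699404396) (nat_lit 152) (nat_lit 7764995158) (nat_lit 228) (nat_lit 16183434661) (nat_lit 103) (nat_lit 5) (nat_lit 105) (nat_lit 5) (nat_lit 106) (nat_lit 5) (nat_lit 464) (nat_lit 404) (nat_lit 332)) (XT.nd (nat_lit 78) (nat_lit 228) (nat_lit 0) (XT.lf (nat_lit 0) (nat_lit 6716054177) (nat_lit 76) (nat_lit 20777927134) (nat_lit 152) (nat_lit 2080308180) (nat_lit 102) (nat_lit 5) (nat_lit 103) (nat_lit 5) (nat_lit 104) (nat_lit 4) (nat_lit 465) (nat_lit 404) (nat_lit 331)) (XT.lf (nat_lit 0) (nat_lit 8756865164) (nat_lit 152) (nat_lit 4088745632) (nat_lit 228) (nat_lit 17686806516) (nat_lit 99) (nat_lit 5) (nat_lit 101) (nat_lit 5) (nat_lit 102) (nat_lit 5) (nat_lit 466) (nat_lit 404) (nat_lit 330)))) (XT.nd (nat_lit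 156) (nat_lit 304) (nat_lit 0) (XT.nd (nat_lit 78) (nat_lit 228) (nat_lit 0) (XT.lf (nat_lit 0) (nat_lit 10874838893) (nat_lit 76) (nat_lit 18027160700) (nat_lit 152) (nat_lit 2623018462) (nat_lit 98) (nat_lit 5) (nat_lit 99) (nat_lit 5) (nat_lit 100) (nat_lit 4) (nat_lit 467) (nat_lit 404) (nat_lit 329)) (XT.lf (nat_lit 0) (nat_lit 13054332240) (nat_lit 152) (nat_lit 231690906) (nat_lit 228) (nat_lit 19266935412) (nat_lit 95) (nat_lit 5) (nat_lit 97) (nat_lit 5) (nat_lit 98) (nat_lit 5) (nat_lit 468) (nat_lit 404) (nat_lit 328))) (XT.nd (nat_lit 78) (nat_lit 228) (nat_lit 0) (XT.lf (nat_lit 0) (nat_lit 15260596357) (nat_lit 76) (nat_lit 15172274447) (nat_lit 152) (nat_lit 3183748440) (nat_lit 94) (nat_lit 5) (nat_lit 95) (nat_lit 5) (nat_lit 96) (nat_lit 4) (nat_lit 469) (nat_lit 404) (nat_lit 327)) (XT.lf (nat_lit 0) (nat_lit 13804784626) (nat_lit 228) (nat_lit 17190955998) (nat_lit 76) (nat_lit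 3722713029) (nat_lit 91) (nat_lit 5) (nat_lit 94) (nat_lit 5) (nat_lit 92) (nat_lit 4) (nat_lit 470) (nat_lit 404) (nat_lit 326))))))))
noncomputable def xc55 : XT := (XT.nd (nat_lit 2106) (nat_lit 76) (nat_lit 0) (XT.nd (nat_lit 1014) (nat_lit 1596) (nat_lit 0) (XT.nd (nat_lit 468) (nat_lit 760) (nat_lit 0) (XT.nd (nat_lit 234) (nat_lit 532) (nat_lit 0) (XT.nd (nat_lit 78) (nat_lit 304) (nat_lit 0) (XT.lf (nat_lit 0) (nat_lit 19841092146) (nat_lit 76) (nat_lit 12230211360) (nat_lit 152) (nat_lit 3788298782) (nat_lit 90) (nat_lit 5) (nat_lit 91) (nat_lit 5) (nat_lit 92) (nat_lit 4) (nat_lit 471) (nat_lit 404) (nat_lit 325)) (XT.nd (nat_lit 78) (nat_lit 76) (nat_lit 0) (XT.lf (nat_lit 0) (nat_lit 14345638046) (nat_lit 228) (nat_lit 14868943628) (nat_lit 76) (nat_lit 7826256064) (nat_lit 87) (nat_lit 5) (nat_lit 90) (nat_lit 5) (nat_lit 88) (nat_lit 4) (nat_lit 472) (nat_lit 404) (nat_lit 324)) (XT.lf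 (nat_lit 0) (nat_lit 24571335230) (nat_lit 76) (nat_lit 9224261316) (nat_lit 152) (nat_lit 4469783253) (nat_lit 86) (nat_lit 5) (nat_lit 87) (nat_lit 5) (nat_lit 88) (nat_lit 4) (nat_lit 473) (nat_lit 404) (nat_lit 323)))) (XT.nd (nat_lit 78) (nat_lit 304) (nat_lit 0) (XT.lf (nat_lit 0) (nat_lit 14875216775) (nat_lit 228) (nat_lit 12594386179) (nat_lit 76) (nat_lit 12062481126) (nat_lit 83) (nat_lit 5) (nat_lit 86) (nat_lit 5) (nat_lit 84) (nat_lit 4) (nat_lit 474) (nat_lit 404) (nat_lit 322)) (XT.nd (nat_lit 78) (nat_lit 228) (nat_lit 0) (XT.lf (nat_lit 0) (nat_lit 29390722924) (nat_lit 76) (nat_lit 6185526332) (nat_lit 152) (nat_lit 5270110155) (nat_lit 82) (nat_lit 5) (nat_lit 83) (nat_lit 5) (nat_lit 84) (nat_lit 4) (nat_lit 475) (nat_lit 404) (nat_lit 321)) (XT.lf (nat_lit 0) (nat_lit 15353318732) (nat_lit 228) (nat_lit 10449501811) (nat_lit 76) (nat_lit 16402326230) (nat_lit 79) (nat_lit 5)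 (nat_lit 82) (nat_lit 5) (nat_lit 80) (nat_lit 4) (nat_lit 476) (nat_lit 404) (nat_lit 320))))) (XT.nd (nat_lit 234) (nat_lit 456) (nat_lit 0) (XT.nd (nat_lit 78) (nat_lit 228) (nat_lit 0) (XT.lf (nat_lit 0) (nat_lit 34219648783) (nat_lit 76) (nat_lit 3154656266) (nat_lit 152) (nat_lit 6241741878) (nat_lit 78) (nat_lit 5) (nat_lit 79) (nat_lit 5) (nat_lit 80) (nat_lit 4) (nat_lit 477) (nat_lit 404) (nat_lit 319)) (XT.nd (nat_lit 78) (nat_lit 76) (nat_lit 0) (XT.lf (nat_lit 0) (nat_lit 15728827183) (nat_lit 152) (nat_lit 8538489712) (nat_lit 76) (nat_lit 20806820716) (nat_lit 76) (nat_lit 5) (nat_lit 78) (nat_lit 5) (nat_lit 77) (nat_lit 4) (nat_lit 478) (nat_lit 404) (nat_lit 318)) (XT.lf (nat_lit 0) (nat_lit 38955477501) (nat_lit 76) (nat_lit 183903914) (nat_lit 152) (nat_lit 7449781243) (nat_lit 75) (nat_lit 5) (nat_lit 76) (nat_lit 5) (nat_lit 77) (nat_lit 4) (nat_lit 479) (nat_lit 404) (nat_lit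 317)))) (XT.nd (nat_lit 156) (nat_lit 228) (nat_lit 0) (XT.nd (nat_lit 78) (nat_lit 76) (nat_lit 0) (XT.lf (nat_lit 0) (nat_lit 15937513296) (nat_lit 152) (nat_lit 6992014895) (nat_lit 76) (nat_lit 25224922163) (nat_lit 73) (nat_lit 5) (nat_lit 75) (nat_lit 5) (nat_lit 74) (nat_lit 4) (nat_lit 480) (nat_lit 404) (nat_lit 316)) (XT.lf (nat_lit 0) (nat_lit 40832904856) (nat_lit 152) (nat_lit 6339572441) (nat_lit 0) (nat_lit 2608528331) (nat_lit 72) (nat_lit 5) (nat_lit 74) (nat_lit 4) (nat_lit 72) (nat_lit 4) (nat_lit 481) (nat_lit 404) (nat_lit 315))) (XT.nd (nat_lit 78) (nat_lit 76) (nat_lit 0) (XT.lf (nat_lit 0) (nat_lit 15899432733) (nat_lit 152) (nat_lit 5972514147) (nat_lit 76) (nat_lit 29590954403) (nat_lit 70) (nat_lit 5) (nat_lit 72) (nat_lit 5) (nat_lit 71) (nat_lit 4) (nat_lit 482) (nat_lit 404) (nat_lit 314)) (XT.lf (nat_lit 0) (nat_lit 42348369885) (nat_lit 152) (nat_lit 5669682751) (nat_lit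 0) (nat_lit 5191858747) (nat_lit 69) (nat_lit 5) (nat_lit 71) (nat_lit 4) (nat_lit 69) (nat_lit 4) (nat_lit 483) (nat_lit 404) (nat_lit 313)))))) (XT.nd (nat_lit 546) (nat_lit 760) (nat_lit 0) (XT.nd (nat_lit 234) (nat_lit 456) (nat_lit 0) (XT.nd (nat_lit 78) (nat_lit 228) (nat_lit 0) (XT.lf (nat_lit 0) (nat_lit 15515845207) (nat_lit 152) (nat_lit 5680467766) (nat_lit 76) (nat_lit 33821575492) (nat_lit 67) (nat_lit 5) (nat_lit 69) (nat_lit 5) (nat_lit 68) (nat_lit 4) (nat_lit 484) (nat_lit 404) (nat_lit 312)) (XT.nd (nat_lit 78) (nat_lit 152) (nat_lit 0) (XT.lf (nat_lit 0) (nat_lit 43582509463) (nat_lit 152) (nat_lit 5844488644) (nat_lit 0) (nat_lit 7468188967) (nat_lit 66) (nat_lit 5) (nat_lit 68) (nat_lit 4) (nat_lit 66) (nat_lit 4) (nat_lit 485) (nat_lit 404) (nat_lit 311)) (XT.lf (nat_lit 0) (nat_lit 14665573665) (nat_lit 152) (nat_lit 6361806576) (nat_lit 76) (nat_lit 37812192294) (nat_lit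 64) (nat_lit 5) (nat_lit 66) (nat_lit 5) (nat_lit 65) (nat_lit 4) (nat_lit 486) (nat_lit 404) (nat_lit 310)))) (XT.nd (nat_lit 156) (nat_lit 228) (nat_lit 0) (XT.nd (nat_lit 78) (nat_lit 152) (nat_lit 0) (XT.lf (nat_lit 0) (nat_lit 44409889682) (nat_lit 152) (nat_lit 7135874235) (nat_lit 0) (nat_lit 9312184833) (nat_lit 63) (nat_lit 5) (nat_lit 65) (nat_lit 4) (nat_lit 63) (nat_lit 4) (nat_lit 487) (nat_lit 404) (nat_lit 309)) (XT.lf (nat_lit 0) (nat_lit 13200705352) (nat_lit 152) (nat_lit 8316652898) (nat_lit 76) (nat_lit 41432724009) (nat_lit 61) (nat_lit 5) (nat_lit 63) (nat_lit 5) (nat_lit 62) (nat_lit 4) (nat_lit 488) (nat_lit 404) (nat_lit 308))) (XT.nd (nat_lit 78) (nat_lit 152) (nat_lit 0) (XT.lf (nat_lit 0) (nat_lit 44676511648) (nat_lit 152) (nat_lit 9874860419) (nat_lit 0) (nat_lit 10570021665) (nat_lit 60) (nat_lit 5) (nat_lit 62) (nat_lit 4) (nat_lit 60) (nat_lit 4) (nat_lit 489) (nat_lit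 404) (nat_lit 307)) (XT.lf (nat_lit 0) (nat_lit 10941520224) (nat_lit 152) (nat_lit 11909628262) (nat_lit 76) (nat_lit 44522600195) (nat_lit 58) (nat_lit 5) (nat_lit 60) (nat_lit 5) (nat_lit 59) (nat_lit 4) (nat_lit 490) (nat_lit 404) (nat_lit 306))))) (XT.nd (nat_lit 234) (nat_lit 456) (nat_lit 0) (XT.nd (nat_lit 78) (nat_lit 228) (nat_lit 0) (XT.lf (nat_lit 0) (nat_lit 44194346821) (nat_lit 152) (nat_lit 14462795631) (nat_lit 0) (nat_lit 11053908199) (nat_lit 57) (nat_lit 5) (nat_lit 59) (nat_lit 4) (nat_lit 57) (nat_lit 4) (nat_lit 491) (nat_lit 404) (nat_lit 305)) (XT.nd (nat_lit 78) (nat_lit 76) (nat_lit 0) (XT.lf (nat_lit 0) (nat_lit 7670512442) (nat_lit 152) (nat_lit 17582000593) (nat_lit 76) (nat_lit 46884859203) (nat_lit 55) (nat_lit 5) (nat_lit 57) (nat_lit 5) (nat_lit 56) (nat_lit 4) (nat_lit 492) (nat_lit 404) (nat_lit 304)) (XT.lf (nat_lit 0) (nat_lit 42734892883) (nat_lit 152) (nat_lit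 21384539557) (nat_lit 0) (nat_lit 10535632481) (nat_lit 54) (nat_lit 5) (nat_lit 56) (nat_lit 4) (nat_lit 54) (nat_lit 4) (nat_lit 493) (nat_lit 404) (nat_lit 303)))) (XT.nd (nat_lit 156) (nat_lit 228) (nat_lit 0) (XT.nd (nat_lit 78) (nat_lit 76) (nat_lit 0) (XT.lf (nat_lit 0) (nat_lit 3125347637) (nat_lit 152) (nat_lit 25865990424) (nat_lit 76) (nat_lit 48279189933) (nat_lit 52) (nat_lit 5) (nat_lit 54) (nat_lit 5) (nat_lit 53) (nat_lit 4) (nat_lit 494) (nat_lit 404) (nat_lit 302)) (XT.lf (nat_lit 0) (nat_lit 40021580080) (nat_lit 152) (nat_lit 31223985621) (nat_lit 0) (nat_lit 8738959497) (nat_lit 51) (nat_lit 5) (nat_lit 53) (nat_lit 4) (nat_lit 51) (nat_lit 4) (nat_lit 495) (nat_lit 404) (nat_lit 301))) (XT.nd (nat_lit 78) (nat_lit 152) (nat_lit 0) (XT.lf (nat_lit 0) (nat_lit 45373915224) (nat_lit 76) (nat_lit 34361792722) (nat_lit 76) (nat_lit 3069321865) (nat_lit 50) (nat_lit 4) (nat_lit 51)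 (nat_lit 5) (nat_lit 51) (nat_lit 4) (nat_lit 496) (nat_lit 404) (nat_lit 300)) (XT.lf (nat_lit 0) (nat_lit 35720828782) (nat_lit 152) (nat_lit 44682327328) (nat_lit 0) (nat_lit 5330681140) (nat_lit 48) (nat_lit 5) (nat_lit 50) (nat_lit 4) (nat_lit 48) (nat_lit 4) (nat_lit 497) (nat_lit 404) (nat_lit 299))))))) (XT.nd (nat_lit 56160) (nat_lit 0) (nat_lit 14440) (XT.nd (nat_lit 55614) (nat_lit 0) (nat_lit 24396) (XT.nd (nat_lit 55380) (nat_lit 0) (nat_lit 28576) (XT.nd (nat_lit 55224) (nat_lit 0) (nat_lit 29184) (XT.lf (nat_lit 0) (nat_lit 35711069036) (nat_lit 76) (nat_lit 41732120439) (nat_lit 76) (nat_lit 11333298536) (nat_lit 47) (nat_lit 4) (nat_lit 48) (nat_lit 5) (nat_lit 48) (nat_lit 4) (nat_lit 498) (nat_lit 404) (nat_lit 298)) (XT.nd (nat_lit 78) (nat_lit 684) (nat_lit 0) (XT.lf (nat_lit 0) (nat_lit 1272774002) (nat_lit 0) (nat_lit 1272774002) (nat_lit 532) (nat_lit 819356136) (nat_lit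 440) (nat_lit 5) (nat_lit 440) (nat_lit 3) (nat_lit 447) (nat_lit 3) (nat_lit 405) (nat_lit 405) (nat_lit 390)) (XT.lf (nat_lit 76) (nat_lit 1426608182) (nat_lit 0) (nat_lit 487691752) (nat_lit 684) (nat_lit 4877168303) (nat_lit 432) (nat_lit 5) (nat_lit 431) (nat_lit 3) (nat_lit 440) (nat_lit 5) (nat_lit 406) (nat_lit 405) (nat_lit 389)))) (XT.nd (nat_lit 78) (nat_lit 684) (nat_lit 0) (XT.lf (nat_lit 76) (nat_lit 398066343) (nat_lit 0) (nat_lit 5049545990) (nat_lit 684) (nat_lit 1413030840) (nat_lit 433) (nat_lit 5) (nat_lit 432) (nat_lit 5) (nat_lit 441) (nat_lit 5) (nat_lit 407) (nat_lit 405) (nat_lit 388)) (XT.nd (nat_lit 78) (nat_lit 0) (nat_lit 76) (XT.lf (nat_lit 0) (nat_lit 2021884484) (nat_lit 684) (nat_lit 525154929) (nat_lit 760) (nat_lit 4390380560) (nat_lit 423) (nat_lit 5) (nat_lit 432) (nat_lit 5) (nat_lit 433) (nat_lit 5) (nat_lit 408) (nat_lit 405) (nat_lit 387)) (XT.lf (nat_lit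 0) (nat_lit 5447270906) (nat_lit 684) (nat_lit 1340607392) (nat_lit 760) (nat_lit 234312298) (nat_lit 424) (nat_lit 5) (nat_lit 433) (nat_lit 5) (nat_lit 434) (nat_lit 5) (nat_lit 409) (nat_lit 405) (nat_lit 386))))) (XT.nd (nat_lit 234) (nat_lit 2736) (nat_lit 0) (XT.nd (nat_lit 78) (nat_lit 760) (nat_lit 0) (XT.lf (nat_lit 0) (nat_lit 1773844901) (nat_lit 760) (nat_lit 2086063098) (nat_lit 836) (nat_lit 3254381594) (nat_lit 414) (nat_lit 5) (nat_lit 424) (nat_lit 5) (nat_lit 425) (nat_lit 5) (nat_lit 410) (nat_lit 405) (nat_lit 385)) (XT.nd (nat_lit 78) (nat_lit 760) (nat_lit 0) (XT.lf (nat_lit 76) (nat_lit 4478871519) (nat_lit 0) (nat_lit 642688737) (nat_lit 836) (nat_lit 2093054550) (nat_lit 415) (nat_lit 5) (nat_lit 414) (nat_lit 5) (nat_lit 425) (nat_lit 5) (nat_lit 411) (nat_lit 405) (nat_lit 384)) (XT.lf (nat_lit 0) (nat_lit 1192086168) (nat_lit 836) (nat_lit 3314328277) (nat_lit 912) (nat_lit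 2816140602) (nat_lit 404) (nat_lit 5) (nat_lit 415) (nat_lit 5) (nat_lit 416) (nat_lit 5) (nat_lit 412) (nat_lit 405) (nat_lit 383)))) (XT.nd (nat_lit 156) (nat_lit 1900) (nat_lit 0) (XT.nd (nat_lit 78) (nat_lit 836) (nat_lit 0) (XT.lf (nat_lit 76) (nat_lit 3626481335) (nat_lit 0) (nat_lit 863165358) (nat_lit 912) (nat_lit 2948890605) (nat_lit 405) (nat_lit 5) (nat_lit 404) (nat_lit 5) (nat_lit 416) (nat_lit 5) (nat_lit 413) (nat_lit 405) (nat_lit 382)) (XT.lf (nat_lit 0) (nat_lit 307337324) (nat_lit 912) (nat_lit 4234995660) (nat_lit 76) (nat_lit 3020185674) (nat_lit 393) (nat_lit 5) (nat_lit 405) (nat_lit 5) (nat_lit 394) (nat_lit 5) (nat_lit 414) (nat_lit 405) (nat_lit 381))) (XT.nd (nat_lit 78) (nat_lit 988) (nat_lit 0) (XT.lf (nat_lit 0) (nat_lit 3104501887) (nat_lit 912) (nat_lit 473965555) (nat_lit 988) (nat_lit 4115972375) (nat_lit 381) (nat_lit 5) (nat_lit 393) (nat_lit 5) (nat_lit 394)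 (nat_lit 5) (nat_lit 415) (nat_lit 405) (nat_lit 380)) (XT.lf (nat_lit 0) (nat_lit 2957781062) (nat_lit 988) (nat_lit 4005666297) (nat_lit 1064) (nat_lit 871009439) (nat_lit 368) (nat_lit 5) (nat_lit 381) (nat_lit 5) (nat_lit 382) (nat_lit 5) (nat_lit 416) (nat_lit 405) (nat_lit 379)))))) (XT.nd (nat_lit 546) (nat_lit 3724) (nat_lit 0) (XT.nd (nat_lit 234) (nat_lit 2660) (nat_lit 0) (XT.nd (nat_lit 78) (nat_lit 2432) (nat_lit 0) (XT.lf (nat_lit 0) (nat_lit 2417826506) (nat_lit 1140) (nat_lit 5092119132) (nat_lit 76) (nat_lit 472872061) (nat_lit 353) (nat_lit 5) (nat_lit 368) (nat_lit 5) (nat_lit 354) (nat_lit 5) (nat_lit 417) (nat_lit 405) (nat_lit 378)) (XT.nd (nat_lit 78) (nat_lit 1292) (nat_lit 0) (XT.lf (nat_lit 0) (nat_lit 2886817064) (nat_lit 1140) (nat_lit 2937780498) (nat_lit 1216) (nat_lit 2314602694) (nat_lit 338) (nat_lit 5) (nat_lit 353) (nat_lit 5) (nat_lit 354) (nat_lit 5) (nat_lit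 418) (nat_lit 405) (nat_lit 377)) (XT.lf (nat_lit 0) (nat_lit 1034316718) (nat_lit 1292) (nat_lit 5337559877) (nat_lit 76) (nat_lit 1932492287) (nat_lit 321) (nat_lit 5) (nat_lit 338) (nat_lit 5) (nat_lit 322) (nat_lit 5) (nat_lit 419) (nat_lit 405) (nat_lit 376)))) (XT.nd (nat_lit 156) (nat_lit 1216) (nat_lit 0) (XT.nd (nat_lit 78) (nat_lit 608) (nat_lit 0) (XT.lf (nat_lit 0) (nat_lit 3106961377) (nat_lit 836) (nat_lit 1372979199) (nat_lit 912) (nat_lit 3997860658) (nat_lit 310) (nat_lit 5) (nat_lit 321) (nat_lit 5) (nat_lit 322) (nat_lit 5) (nat_lit 420) (nat_lit 405) (nat_lit 375)) (XT.lf (nat_lit 0) (nat_lit 3323097332) (nat_lit 608) (nat_lit 4767374509) (nat_lit 684) (nat_lit 569660900) (nat_lit 302) (nat_lit 5) (nat_lit 310) (nat_lit 5) (nat_lit 311) (nat_lit 5) (nat_lit 421) (nat_lit 405) (nat_lit 374))) (XT.nd (nat_lit 78) (nat_lit 532) (nat_lit 0) (XT.lf (nat_lit 0) (nat_lit 2953354487)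 (nat_lit 684) (nat_lit 5246576034) (nat_lit 76) (nat_lit 651306450) (nat_lit 293) (nat_lit 5) (nat_lit 302) (nat_lit 5) (nat_lit 294) (nat_lit 5) (nat_lit 422) (nat_lit 405) (nat_lit 373)) (XT.lf (nat_lit 0) (nat_lit 3947637604) (nat_lit 532) (nat_lit 2711369986) (nat_lit 608) (nat_lit 2392177133) (nat_lit 286) (nat_lit 5) (nat_lit 293) (nat_lit 5) (nat_lit 294) (nat_lit 5) (nat_lit 423) (nat_lit 405) (nat_lit 372))))) (XT.nd (nat_lit 234) (nat_lit 1976) (nat_lit 0) (XT.nd (nat_lit 78) (nat_lit 1064) (nat_lit 0) (XT.lf (nat_lit 0) (nat_lit 1270893546) (nat_lit 684) (nat_lit 4895617107) (nat_lit 76) (nat_lit 3094035808) (nat_lit 277) (nat_lit 5) (nat_lit 286) (nat_lit 5) (nat_lit 278) (nat_lit 5) (nat_lit 424) (nat_lit 405) (nat_lit 371)) (XT.nd (nat_lit 78) (nat_lit 532) (nat_lit 0) (XT.lf (nat_lit 0) (nat_lit 4849196135) (nat_lit 532) (nat_lit 230459442) (nat_lit 608) (nat_lit 4399654716) (nat_lit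 270) (nat_lit 5) (nat_lit 277) (nat_lit 5) (nat_lit 278) (nat_lit 5) (nat_lit 425) (nat_lit 405) (nat_lit 370)) (XT.lf (nat_lit 0) (nat_lit 5395524105) (nat_lit 532) (nat_lit 3732481881) (nat_lit 608) (nat_lit 579536490) (nat_lit 263) (nat_lit 5) (nat_lit 270) (nat_lit 5) (nat_lit 271) (nat_lit 5) (nat_lit 426) (nat_lit 405) (nat_lit 369)))) (XT.nd (nat_lit 156) (nat_lit 988) (nat_lit 0) (XT.nd (nat_lit 78) (nat_lit 456) (nat_lit 0) (XT.lf (nat_lit 0) (nat_lit 3390388776) (nat_lit 532) (nat_lit 3942616843) (nat_lit 76) (nat_lit 2612422459) (nat_lit 256) (nat_lit 5) (nat_lit 263) (nat_lit 5) (nat_lit 257) (nat_lit 5) (nat_lit 427) (nat_lit 405) (nat_lit 368)) (XT.lf (nat_lit 0) (nat_lit 6690752169) (nat_lit 456) (nat_lit 898537590) (nat_lit 532) (nat_lit 2604476219) (nat_lit 250) (nat_lit 5) (nat_lit 256) (nat_lit 5) (nat_lit 257) (nat_lit 5) (nat_lit 428) (nat_lit 405) (nat_lit 367))) (XT.nd (nat_lit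 78) (nat_lit 456) (nat_lit 0) (XT.lf (nat_lit 0) (nat_lit 1582197518) (nat_lit 532) (nat_lit 3019160295) (nat_lit 76) (nat_lit 5850660498) (nat_lit 243) (nat_lit 5) (nat_lit 250) (nat_lit 5) (nat_lit 244) (nat_lit 5) (nat_lit 429) (nat_lit 405) (nat_lit 366)) (XT.lf (nat_lit 0) (nat_lit 5973903426) (nat_lit 532) (nat_lit 2474668457) (nat_lit 76) (nat_lit 2272354502) (nat_lit 237) (nat_lit 5) (nat_lit 244) (nat_lit 5) (nat_lit 238) (nat_lit 5) (nat_lit 430) (nat_lit 405) (nat_lit 365))))))))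
noncomputable def xc56 : XT := (XT.nd (nat_lit 2028) (nat_lit 4256) (nat_lit 0) (XT.nd (nat_lit 1014) (nat_lit 3268) (nat_lit 0) (XT.nd (nat_lit 468) (nat_lit 2280) (nat_lit 0) (XT.nd (nat_lit 234) (nat_lit 1596) (nat_lit 0) (XT.nd (nat_lit 78) (nat_lit 912) (nat_lit 0) (XT.lf (nat_lit 0) (nat_lit 9145252548) (nat_lit 380) (nat_lit 1510778369) (nat_lit 456) (nat_lit 345127305) (nat_lit 232) (nat_lit 5) (nat_lit 237) (nat_lit 5) (nat_lit 238) (nat_lit 5) (nat_lit 431) (nat_lit 405) (nat_lit 364)) (XT.nd (nat_lit 78) (nat_lit 380) (nat_lit 0) (XT.lf (nat_lit 0) (nat_lit 4281022868) (nat_lit 532) (nat_lit 1210860130) (nat_lit 76) (nat_lit 5799659987) (nat_lit 225) (nat_lit 5) (nat_lit 232) (nat_lit 5) (nat_lit 226) (nat_lit 5) (nat_lit 432) (nat_lit 405) (nat_lit 363)) (XT.lf (nat_lit 0) (nat_lit 9202339444) (nat_lit 456) (nat_lit 477599635) (nat_lit 76) (nat_lit 1914278528) (nat_lit 220) (nat_lit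 5) (nat_lit 226) (nat_lit 5) (nat_lit 221) (nat_lit 5) (nat_lit 433) (nat_lit 405) (nat_lit 362)))) (XT.nd (nat_lit 78) (nat_lit 760) (nat_lit 0) (XT.lf (nat_lit 0) (nat_lit 311487341) (nat_lit 380) (nat_lit 2201322961) (nat_lit 456) (nat_lit 9395417536) (nat_lit 209) (nat_lit 5) (nat_lit 214) (nat_lit 5) (nat_lit 215) (nat_lit 5) (nat_lit 434) (nat_lit 405) (nat_lit 361)) (XT.nd (nat_lit 78) (nat_lit 380) (nat_lit 0) (XT.lf (nat_lit 0) (nat_lit 1164234152) (nat_lit 380) (nat_lit 6559773674) (nat_lit 456) (nat_lit 4509900698) (nat_lit 204) (nat_lit 5) (nat_lit 209) (nat_lit 5) (nat_lit 210) (nat_lit 5) (nat_lit 435) (nat_lit 405) (nat_lit 360)) (XT.lf (nat_lit 0) (nat_lit 701129576) (nat_lit 380) (nat_lit 10461088488) (nat_lit 76) (nat_lit 1410678873) (nat_lit 199) (nat_lit 5) (nat_lit 204) (nat_lit 5) (nat_lit 200) (nat_lit 5) (nat_lit 436) (nat_lit 405) (nat_lit 359))))) (XT.nd (nat_lit 234) (nat_lit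 1292) (nat_lit 0) (XT.nd (nat_lit 78) (nat_lit 684) (nat_lit 0) (XT.lf (nat_lit 0) (nat_lit 3087620635) (nat_lit 304) (nat_lit 3122478599) (nat_lit 380) (nat_lit 6713478532) (nat_lit 195) (nat_lit 5) (nat_lit 199) (nat_lit 5) (nat_lit 200) (nat_lit 5) (nat_lit 437) (nat_lit 405) (nat_lit 358)) (XT.nd (nat_lit 78) (nat_lit 380) (nat_lit 0) (XT.lf (nat_lit 0) (nat_lit 4156042309) (nat_lit 304) (nat_lit 7959548453) (nat_lit 380) (nat_lit 1172571915) (nat_lit 191) (nat_lit 5) (nat_lit 195) (nat_lit 5) (nat_lit 196) (nat_lit 5) (nat_lit 438) (nat_lit 405) (nat_lit 357)) (XT.lf (nat_lit 0) (nat_lit 4668654182) (nat_lit 380) (nat_lit 8375926965) (nat_lit 76) (nat_lit 621640467) (nat_lit 186) (nat_lit 5) (nat_lit 191) (nat_lit 5) (nat_lit 187) (nat_lit 5) (nat_lit 439) (nat_lit 405) (nat_lit 356)))) (XT.nd (nat_lit 156) (nat_lit 608) (nat_lit 0) (XT.nd (nat_lit 78) (nat_lit 380) (nat_lit 0) (XT.lf (nat_lit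 0) (nat_lit 6484295248) (nat_lit 304) (nat_lit 4456599595) (nat_lit 380) (nat_lit 3117046226) (nat_lit 182) (nat_lit 5) (nat_lit 186) (nat_lit 5) (nat_lit 187) (nat_lit 5) (nat_lit 440) (nat_lit 405) (nat_lit 355)) (XT.lf (nat_lit 0) (nat_lit 3132468772) (nat_lit 380) (nat_lit 6704701054) (nat_lit 76) (nat_lit 4627157861) (nat_lit 177) (nat_lit 5) (nat_lit 182) (nat_lit 5) (nat_lit 178) (nat_lit 5) (nat_lit 441) (nat_lit 405) (nat_lit 354))) (XT.nd (nat_lit 78) (nat_lit 380) (nat_lit 0) (XT.lf (nat_lit 0) (nat_lit 9119694479) (nat_lit 228) (nat_lit 651492238) (nat_lit 304) (nat_lit 5114687031) (nat_lit 174) (nat_lit 5) (nat_lit 177) (nat_lit 5) (nat_lit 178) (nat_lit 5) (nat_lit 442) (nat_lit 405) (nat_lit 353)) (XT.lf (nat_lit 0) (nat_lit 1576469515) (nat_lit 380) (nat_lit 4779093342) (nat_lit 76) (nat_lit 8966807119) (nat_lit 169) (nat_lit 5) (nat_lit 174) (nat_lit 5) (nat_lit 170) (nat_lit 5)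 (nat_lit 443) (nat_lit 405) (nat_lit 352)))))) (XT.nd (nat_lit 468) (nat_lit 1596) (nat_lit 0) (XT.nd (nat_lit 234) (nat_lit 912) (nat_lit 0) (XT.nd (nat_lit 78) (nat_lit 532) (nat_lit 0) (XT.lf (nat_lit 0) (nat_lit 8646138185) (nat_lit 304) (nat_lit 3729216388) (nat_lit 76) (nat_lit 3399326745) (nat_lit 166) (nat_lit 5) (nat_lit 170) (nat_lit 5) (nat_lit 167) (nat_lit 5) (nat_lit 444) (nat_lit 405) (nat_lit 351)) (XT.nd (nat_lit 78) (nat_lit 228) (nat_lit 0) (XT.lf (nat_lit 0) (nat_lit 4727046) (nat_lit 304) (nat_lit 2584812063) (nat_lit 76) (nat_lit 13654676745) (nat_lit 162) (nat_lit 5) (nat_lit 166) (nat_lit 5) (nat_lit 163) (nat_lit 5) (nat_lit 445) (nat_lit 405) (nat_lit 350)) (XT.lf (nat_lit 0) (nat_lit 7547417058) (nat_lit 304) (nat_lit 1423973560) (nat_lit 76) (nat_lit 7757714892) (nat_lit 159) (nat_lit 5) (nat_lit 163) (nat_lit 5) (nat_lit 160) (nat_lit 5) (nat_lit 446) (nat_lit 405) (nat_lit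 349)))) (XT.nd (nat_lit 78) (nat_lit 684) (nat_lit 0) (XT.lf (nat_lit 0) (nat_lit 15636862620) (nat_lit 304) (nat_lit 136446821) (nat_lit 76) (nat_lit 1459842860) (nat_lit 156) (nat_lit 5) (nat_lit 160) (nat_lit 5) (nat_lit 157) (nat_lit 5) (nat_lit 447) (nat_lit 405) (nat_lit 348)) (XT.nd (nat_lit 78) (nat_lit 152) (nat_lit 0) (XT.lf (nat_lit 0) (nat_lit 1194644288) (nat_lit 228) (nat_lit 5290545017) (nat_lit 304) (nat_lit 11268144404) (nat_lit 149) (nat_lit 5) (nat_lit 152) (nat_lit 5) (nat_lit 153) (nat_lit 5) (nat_lit 448) (nat_lit 405) (nat_lit 347)) (XT.lf (nat_lit 0) (nat_lit 2635085178) (nat_lit 152) (nat_lit 12504710080) (nat_lit 228) (nat_lit 3153193914) (nat_lit 147) (nat_lit 5) (nat_lit 149) (nat_lit 5) (nat_lit 150) (nat_lit 5) (nat_lit 449) (nat_lit 405) (nat_lit 346))))) (XT.nd (nat_lit 234) (nat_lit 836) (nat_lit 0) (XT.nd (nat_lit 78) (nat_lit 456) (nat_lit 0) (XT.lf (nat_lit 0)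 (nat_lit 4153808738) (nat_lit 228) (nat_lit 1315219188) (nat_lit 304) (nat_lit 13382864761) (nat_lit 143) (nat_lit 5) (nat_lit 146) (nat_lit 5) (nat_lit 147) (nat_lit 5) (nat_lit 450) (nat_lit 405) (nat_lit 345)) (XT.nd (nat_lit 78) (nat_lit 304) (nat_lit 0) (XT.lf (nat_lit 0) (nat_lit 5728394114) (nat_lit 152) (nat_lit 8989782749) (nat_lit 228) (nat_lit 4711798052) (nat_lit 141) (nat_lit 5) (nat_lit 143) (nat_lit 5) (nat_lit 144) (nat_lit 5) (nat_lit 451) (nat_lit 405) (nat_lit 344)) (XT.lf (nat_lit 0) (nat_lit 4516655954) (nat_lit 304) (nat_lit 12616874180) (nat_lit 76) (nat_lit 2895878634) (nat_lit 137) (nat_lit 5) (nat_lit 141) (nat_lit 5) (nat_lit 138) (nat_lit 5) (nat_lit 452) (nat_lit 405) (nat_lit 343)))) (XT.nd (nat_lit 156) (nat_lit 380) (nat_lit 0) (XT.nd (nat_lit 78) (nat_lit 304) (nat_lit 0) (XT.lf (nat_lit 0) (nat_lit 9157270487) (nat_lit 152) (nat_lit 5218870949) (nat_lit 228) (nat_lit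 6273262531) (nat_lit 135) (nat_lit 5) (nat_lit 137) (nat_lit 5) (nat_lit 138) (nat_lit 5) (nat_lit 453) (nat_lit 405) (nat_lit 342)) (XT.lf (nat_lit 0) (nat_lit 3617457721) (nat_lit 304) (nat_lit 10291283977) (nat_lit 76) (nat_lit 7382984860) (nat_lit 131) (nat_lit 5) (nat_lit 135) (nat_lit 5) (nat_lit 132) (nat_lit 5) (nat_lit 454) (nat_lit 405) (nat_lit 341))) (XT.nd (nat_lit 78) (nat_lit 228) (nat_lit 0) (XT.lf (nat_lit 0) (nat_lit 12937840983) (nat_lit 152) (nat_lit 1180305284) (nat_lit 228) (nat_lit 7838801249) (nat_lit 129) (nat_lit 5) (nat_lit 131) (nat_lit 5) (nat_lit 132) (nat_lit 5) (nat_lit 455) (nat_lit 405) (nat_lit 340)) (XT.lf (nat_lit 0) (nat_lit 2759785334) (nat_lit 228) (nat_lit 7698869447) (nat_lit 76) (nat_lit 12186460721) (nat_lit 126) (nat_lit 5) (nat_lit 129) (nat_lit 5) (nat_lit 127) (nat_lit 5) (nat_lit 456) (nat_lit 405) (nat_lit 339))))))) (XT.nd (nat_lit 1014) (nat_lit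 1900) (nat_lit 0) (XT.nd (nat_lit 468) (nat_lit 1064) (nat_lit 0) (XT.nd (nat_lit 234) (nat_lit 760) (nat_lit 0) (XT.nd (nat_lit 78) (nat_lit 380) (nat_lit 0) (XT.lf (nat_lit 0) (nat_lit 13977577206) (nat_lit 228) (nat_lit 6303538706) (nat_lit 76) (nat_lit 3076706470) (nat_lit 124) (nat_lit 5) (nat_lit 127) (nat_lit 5) (nat_lit 125) (nat_lit 5) (nat_lit 457) (nat_lit 405) (nat_lit 338)) (XT.nd (nat_lit 78) (nat_lit 152) (nat_lit 0) (XT.lf (nat_lit 0) (nat_lit 1943050154) (nat_lit 228) (nat_lit 4831459404) (nat_lit 76) (nat_lit 17321425162) (nat_lit 121) (nat_lit 5) (nat_lit 124) (nat_lit 5) (nat_lit 122) (nat_lit 5) (nat_lit 458) (nat_lit 405) (nat_lit 337)) (XT.lf (nat_lit 0) (nat_lit 13940126805) (nat_lit 228) (nat_lit 3322264029) (nat_lit 76) (nat_lit 7596727796) (nat_lit 119) (nat_lit 5) (nat_lit 122) (nat_lit 5) (nat_lit 120) (nat_lit 5) (nat_lit 459) (nat_lit 405) (nat_lit 336)))) (XT.nd (nat_lit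 78) (nat_lit 532) (nat_lit 0) (XT.lf (nat_lit 0) (nat_lit 1164747976) (nat_lit 228) (nat_lit 1683213615) (nat_lit 76) (nat_lit 22803090171) (nat_lit 116) (nat_lit 5) (nat_lit 119) (nat_lit 5) (nat_lit 117) (nat_lit 5) (nat_lit 460) (nat_lit 405) (nat_lit 335)) (XT.nd (nat_lit 78) (nat_lit 380) (nat_lit 0) (XT.lf (nat_lit 0) (nat_lit 13994401722) (nat_lit 228) (nat_lit 59641758) (nat_lit 76) (nat_lit 12414268877) (nat_lit 114) (nat_lit 5) (nat_lit 117) (nat_lit 5) (nat_lit 115) (nat_lit 5) (nat_lit 461) (nat_lit 405) (nat_lit 334)) (XT.lf (nat_lit 0) (nat_lit 450132228) (nat_lit 228) (nat_lit 25546978122) (nat_lit 76) (nat_lit 1319873674) (nat_lit 109) (nat_lit 5) (nat_lit 112) (nat_lit 5) (nat_lit 110) (nat_lit 5) (nat_lit 462) (nat_lit 405) (nat_lit 333))))) (XT.nd (nat_lit 234) (nat_lit 608) (nat_lit 0) (XT.nd (nat_lit 78) (nat_lit 304) (nat_lit 0) (XT.lf (nat_lit 0) (nat_lit 3554315758) (nat_lit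 152) (nat_lit 10617899050) (nat_lit 228) (nat_lit 14019875292) (nat_lit 107) (nat_lit 5) (nat_lit 109) (nat_lit 5) (nat_lit 110) (nat_lit 5) (nat_lit 463) (nat_lit 405) (nat_lit 332)) (XT.nd (nat_lit 78) (nat_lit 228) (nat_lit 0) (XT.lf (nat_lit 0) (nat_lit 5511481285) (nat_lit 76) (nat_lit 23396635133) (nat_lit 152) (nat_lit 193004058) (nat_lit 106) (nat_lit 5) (nat_lit 107) (nat_lit 5) (nat_lit 108) (nat_lit 4) (nat_lit 464) (nat_lit 405) (nat_lit 331)) (XT.lf (nat_lit 0) (nat_lit 7452824955) (nat_lit 152) (nat_lit 6984691483) (nat_lit 228) (nat_lit 15602199997) (nat_lit 103) (nat_lit 5) (nat_lit 105) (nat_lit 5) (nat_lit 106) (nat_lit 5) (nat_lit 465) (nat_lit 405) (nat_lit 330)))) (XT.nd (nat_lit 156) (nat_lit 304) (nat_lit 0) (XT.nd (nat_lit 78) (nat_lit 228) (nat_lit 0) (XT.lf (nat_lit 0) (nat_lit 9526553782) (nat_lit 76) (nat_lit 20662228949) (nat_lit 152) (nat_lit 824606180) (nat_lit 102)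 (nat_lit 5) (nat_lit 103) (nat_lit 5) (nat_lit 104) (nat_lit 4) (nat_lit 466) (nat_lit 405) (nat_lit 329)) (XT.lf (nat_lit 0) (nat_lit 11624252352) (nat_lit 152) (nat_lit 3156692699) (nat_lit 228) (nat_lit 17239290435) (nat_lit 99) (nat_lit 5) (nat_lit 101) (nat_lit 5) (nat_lit 102) (nat_lit 5) (nat_lit 467) (nat_lit 405) (nat_lit 328))) (XT.nd (nat_lit 78) (nat_lit 228) (nat_lit 0) (XT.lf (nat_lit 0) (nat_lit 13805561313) (nat_lit 76) (nat_lit 17806367523) (nat_lit 152) (nat_lit 1451384691) (nat_lit 98) (nat_lit 5) (nat_lit 99) (nat_lit 5) (nat_lit 100) (nat_lit 4) (nat_lit 468) (nat_lit 405) (nat_lit 327)) (XT.lf (nat_lit 0) (nat_lit 15197660784) (nat_lit 228) (nat_lit 18101390378) (nat_lit 76) (nat_lit 844125471) (nat_lit 95) (nat_lit 5) (nat_lit 98) (nat_lit 5) (nat_lit 96) (nat_lit 4) (nat_lit 469) (nat_lit 405) (nat_lit 326)))))) (XT.nd (nat_lit 546) (nat_lit 912) (nat_lit 0) (XT.nd (nat_lit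 234) (nat_lit 608) (nat_lit 0) (XT.nd (nat_lit 78) (nat_lit 304) (nat_lit 0) (XT.lf (nat_lit 0) (nat_lit 18325524254) (nat_lit 76) (nat_lit 14841284004) (nat_lit 152) (nat_lit 2094263838) (nat_lit 94) (nat_lit 5) (nat_lit 95) (nat_lit 5) (nat_lit 96) (nat_lit 4) (nat_lit 470) (nat_lit 405) (nat_lit 325)) (XT.nd (nat_lit 78) (nat_lit 76) (nat_lit 0) (XT.lf (nat_lit 0) (nat_lit 15693053501) (nat_lit 228) (nat_lit 15765575802) (nat_lit 76) (nat_lit 4959797550) (nat_lit 91) (nat_lit 5) (nat_lit 94) (nat_lit 5) (nat_lit 92) (nat_lit 4) (nat_lit 471) (nat_lit 405) (nat_lit 324)) (XT.lf (nat_lit 0) (nat_lit 23052577746) (nat_lit 76) (nat_lit 11784606077) (nat_lit 152) (nat_lit 2780520942) (nat_lit 90) (nat_lit 5) (nat_lit 91) (nat_lit 5) (nat_lit 92) (nat_lit 4) (nat_lit 472) (nat_lit 405) (nat_lit 323)))) (XT.nd (nat_lit 156) (nat_lit 304) (nat_lit 0) (XT.nd (nat_lit 78) (nat_lit 76) (nat_lit 0) (XT.lf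 (nat_lit 0) (nat_lit 16211789251) (nat_lit 228) (nat_lit 13409699526) (nat_lit 76) (nat_lit 9236917201) (nat_lit 87) (nat_lit 5) (nat_lit 90) (nat_lit 5) (nat_lit 88) (nat_lit 4) (nat_lit 473) (nat_lit 405) (nat_lit 322)) (XT.lf (nat_lit 0) (nat_lit 27939453572) (nat_lit 76) (nat_lit 8660650722) (nat_lit 152) (nat_lit 3545095452) (nat_lit 86) (nat_lit 5) (nat_lit 87) (nat_lit 5) (nat_lit 88) (nat_lit 4) (nat_lit 474) (nat_lit 405) (nat_lit 321))) (XT.nd (nat_lit 78) (nat_lit 76) (nat_lit 0) (XT.lf (nat_lit 0) (nat_lit 16721013791) (nat_lit 228) (nat_lit 11101022994) (nat_lit 76) (nat_lit 13653583750) (nat_lit 83) (nat_lit 5) (nat_lit 86) (nat_lit 5) (nat_lit 84) (nat_lit 4) (nat_lit 475) (nat_lit 405) (nat_lit 320)) (XT.lf (nat_lit 0) (nat_lit 32922483830) (nat_lit 76) (nat_lit 5501959518) (nat_lit 152) (nat_lit 4432146238) (nat_lit 82) (nat_lit 5) (nat_lit 83) (nat_lit 5) (nat_lit 84) (nat_lit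 4) (nat_lit 476) (nat_lit 405) (nat_lit 319))))) (XT.nd (nat_lit 234) (nat_lit 456) (nat_lit 0) (XT.nd (nat_lit 78) (nat_lit 228) (nat_lit 0) (XT.lf (nat_lit 0) (nat_lit 17178370738) (nat_lit 228) (nat_lit 8925917714) (nat_lit 76) (nat_lit 18179388210) (nat_lit 79) (nat_lit 5) (nat_lit 82) (nat_lit 5) (nat_lit 80) (nat_lit 4) (nat_lit 477) (nat_lit 405) (nat_lit 318)) (XT.nd (nat_lit 78) (nat_lit 152) (nat_lit 0) (XT.lf (nat_lit 0) (nat_lit 37918040534) (nat_lit 76) (nat_lit 2351118313) (nat_lit 152) (nat_lit 5496900681) (nat_lit 78) (nat_lit 5) (nat_lit 79) (nat_lit 5) (nat_lit 80) (nat_lit 4) (nat_lit 478) (nat_lit 405) (nat_lit 317)) (XT.lf (nat_lit 0) (nat_lit 17530055499) (nat_lit 152) (nat_lit 6993840445) (nat_lit 76) (nat_lit 22773499772) (nat_lit 76) (nat_lit 5) (nat_lit 78) (nat_lit 5) (nat_lit 77) (nat_lit 4) (nat_lit 479) (nat_lit 405) (nat_lit 316)))) (XT.nd (nat_lit 156) (nat_lit 228)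 (nat_lit 0) (XT.nd (nat_lit 78) (nat_lit 152) (nat_lit 0) (XT.lf (nat_lit 0) (nat_lit 42088308307) (nat_lit 152) (nat_lit 6077844667) (nat_lit 0) (nat_lit 722704160) (nat_lit 75) (nat_lit 5) (nat_lit 77) (nat_lit 4) (nat_lit 75) (nat_lit 4) (nat_lit 480) (nat_lit 405) (nat_lit 315)) (XT.lf (nat_lit 0) (nat_lit 17708506686) (nat_lit 152) (nat_lit 5442041226) (nat_lit 76) (nat_lit 27382396877) (nat_lit 73) (nat_lit 5) (nat_lit 75) (nat_lit 5) (nat_lit 74) (nat_lit 4) (nat_lit 481) (nat_lit 405) (nat_lit 314))) (XT.nd (nat_lit 78) (nat_lit 152) (nat_lit 0) (XT.lf (nat_lit 0) (nat_lit 43828665765) (nat_lit 152) (nat_lit 4791707248) (nat_lit 0) (nat_lit 3621055092) (nat_lit 72) (nat_lit 5) (nat_lit 74) (nat_lit 4) (nat_lit 72) (nat_lit 4) (nat_lit 482) (nat_lit 405) (nat_lit 313)) (XT.lf (nat_lit 0) (nat_lit 17629671421) (nat_lit 152) (nat_lit 4441133758) (nat_lit 76) (nat_lit 31937179149) (nat_lit 70)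 (nat_lit 5) (nat_lit 72) (nat_lit 5) (nat_lit 71) (nat_lit 4) (nat_lit 483) (nat_lit 405) (nat_lit 312))))))))
noncomputable def xc57 : XT := (XT.nd (nat_lit 57252) (nat_lit 0) (nat_lit 9576) (XT.nd (nat_lit 1014) (nat_lit 228) (nat_lit 0) (XT.nd (nat_lit 468) (nat_lit 760) (nat_lit 0) (XT.nd (nat_lit 234) (nat_lit 380) (nat_lit 0) (XT.nd (nat_lit 78) (nat_lit 228) (nat_lit 0) (XT.lf (nat_lit 0) (nat_lit 45381966192) (nat_lit 152) (nat_lit 4156739606) (nat_lit 0) (nat_lit 6304212004) (nat_lit 69) (nat_lit 5) (nat_lit 71) (nat_lit 4) (nat_lit 69) (nat_lit 4) (nat_lit 484) (nat_lit 405) (nat_lit 311)) (XT.nd (nat_lit 78) (nat_lit 76) (nat_lit 0) (XT.lf (nat_lit 0) (nat_lit 17189769878) (nat_lit 152) (nat_lit 4201679974) (nat_lit 76) (nat_lit 36350385535) (nat_lit 67) (nat_lit 5) (nat_lit 69) (nat_lit 5) (nat_lit 68) (nat_lit 4) (nat_lit 485) (nat_lit 405) (nat_lit 310)) (XT.lf (nat_lit 0) (nat_lit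 46641537610) (nat_lit 152) (nat_lit 4406353439) (nat_lit 0) (nat_lit 8665654938) (nat_lit 66) (nat_lit 5) (nat_lit 68) (nat_lit 4) (nat_lit 66) (nat_lit 4) (nat_lit 486) (nat_lit 405) (nat_lit 309)))) (XT.nd (nat_lit 78) (nat_lit 228) (nat_lit 0) (XT.lf (nat_lit 0) (nat_lit 16261471540) (nat_lit 152) (nat_lit 4981966757) (nat_lit 76) (nat_lit 40512231181) (nat_lit 64) (nat_lit 5) (nat_lit 66) (nat_lit 5) (nat_lit 65) (nat_lit 4) (nat_lit 487) (nat_lit 405) (nat_lit 308)) (XT.nd (nat_lit 78) (nat_lit 152) (nat_lit 0) (XT.lf (nat_lit 0) (nat_lit 47475584072) (nat_lit 152) (nat_lit 5826087922) (nat_lit 0) (nat_lit 10573815237) (nat_lit 63) (nat_lit 5) (nat_lit 65) (nat_lit 4) (nat_lit 63) (nat_lit 4) (nat_lit 488) (nat_lit 405) (nat_lit 307)) (XT.lf (nat_lit 0) (nat_lit 14689380539) (nat_lit 152) (nat_lit 7097183405) (nat_lit 76) (nat_lit 44286160494) (nat_lit 61) (nat_lit 5) (nat_lit 63) (nat_lit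 5) (nat_lit 62) (nat_lit 4) (nat_lit 489) (nat_lit 405) (nat_lit 306))))) (XT.nd (nat_lit 234) (nat_lit 456) (nat_lit 0) (XT.nd (nat_lit 78) (nat_lit 228) (nat_lit 0) (XT.lf (nat_lit 0) (nat_lit 47722323098) (nat_lit 152) (nat_lit 8763576873) (nat_lit 0) (nat_lit 11867201266) (nat_lit 60) (nat_lit 5) (nat_lit 62) (nat_lit 4) (nat_lit 60) (nat_lit 4) (nat_lit 490) (nat_lit 405) (nat_lit 305)) (XT.nd (nat_lit 78) (nat_lit 76) (nat_lit 0) (XT.lf (nat_lit 0) (nat_lit 12284709796) (nat_lit 152) (nat_lit 10930244242) (nat_lit 76) (nat_lit 47503596260) (nat_lit 58) (nat_lit 5) (nat_lit 60) (nat_lit 5) (nat_lit 59) (nat_lit 4) (nat_lit 491) (nat_lit 405) (nat_lit 304)) (XT.lf (nat_lit 0) (nat_lit 47184247140) (nat_lit 152) (nat_lit 13640298606) (nat_lit 0) (nat_lit 12348649652) (nat_lit 57) (nat_lit 5) (nat_lit 59) (nat_lit 4) (nat_lit 57) (nat_lit 4) (nat_lit 492) (nat_lit 405) (nat_lit 303)))) (XT.nd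 (nat_lit 156) (nat_lit 228) (nat_lit 0) (XT.nd (nat_lit 78) (nat_lit 76) (nat_lit 0) (XT.lf (nat_lit 0) (nat_lit 8819002966) (nat_lit 152) (nat_lit 16944542762) (nat_lit 76) (nat_lit 49957744052) (nat_lit 55) (nat_lit 5) (nat_lit 57) (nat_lit 5) (nat_lit 56) (nat_lit 4) (nat_lit 493) (nat_lit 405) (nat_lit 302)) (XT.lf (nat_lit 0) (nat_lit 45621356668) (nat_lit 152) (nat_lit 20965418467) (nat_lit 0) (nat_lit 11778549436) (nat_lit 54) (nat_lit 5) (nat_lit 56) (nat_lit 4) (nat_lit 54) (nat_lit 4) (nat_lit 494) (nat_lit 405) (nat_lit 301))) (XT.nd (nat_lit 78) (nat_lit 76) (nat_lit 0) (XT.lf (nat_lit 0) (nat_lit 4016739022) (nat_lit 152) (nat_lit 25698972799) (nat_lit 76) (nat_lit 51396286984) (nat_lit 52) (nat_lit 5) (nat_lit 54) (nat_lit 5) (nat_lit 53) (nat_lit 4) (nat_lit 495) (nat_lit 405) (nat_lit 300)) (XT.lf (nat_lit 0) (nat_lit 42743186312) (nat_lit 152) (nat_lit 31352087127) (nat_lit 0) (nat_lit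 9866860423) (nat_lit 51) (nat_lit 5) (nat_lit 53) (nat_lit 4) (nat_lit 51) (nat_lit 4) (nat_lit 496) (nat_lit 405) (nat_lit 299)))))) (XT.nd (nat_lit 55692) (nat_lit 0) (nat_lit 25232) (XT.nd (nat_lit 55458) (nat_lit 0) (nat_lit 27740) (XT.nd (nat_lit 78) (nat_lit 152) (nat_lit 0) (XT.lf (nat_lit 0) (nat_lit 49034629300) (nat_lit 76) (nat_lit 35387461382) (nat_lit 76) (nat_lit 2502201004) (nat_lit 50) (nat_lit 4) (nat_lit 51) (nat_lit 5) (nat_lit 51) (nat_lit 4) (nat_lit 497) (nat_lit 405) (nat_lit 298)) (XT.nd (nat_lit 55302) (nat_lit 0) (nat_lit 29108) (XT.lf (nat_lit 0) (nat_lit 38199414848) (nat_lit 152) (nat_lit 45536619972) (nat_lit 0) (nat_lit 6263716386) (nat_lit 48) (nat_lit 5) (nat_lit 50) (nat_lit 4) (nat_lit 48) (nat_lit 4) (nat_lit 498) (nat_lit 405) (nat_lit 297)) (XT.lf (nat_lit 0) (nat_lit 2648567791) (nat_lit 684) (nat_lit 389918328) (nat_lit 684) (nat_lit 389918328) (nat_lit 431)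 (nat_lit 3) (nat_lit 440) (nat_lit 3) (nat_lit 440) (nat_lit 5) (nat_lit 406) (nat_lit 406) (nat_lit 388)))) (XT.nd (nat_lit 78) (nat_lit 684) (nat_lit 0) (XT.lf (nat_lit 0) (nat_lit 1730734977) (nat_lit 684) (nat_lit 1955090136) (nat_lit 760) (nat_lit 3243713243) (nat_lit 422) (nat_lit 5) (nat_lit 431) (nat_lit 3) (nat_lit 432) (nat_lit 5) (nat_lit 407) (nat_lit 406) (nat_lit 387)) (XT.nd (nat_lit 78) (nat_lit 684) (nat_lit 0) (XT.lf (nat_lit 76) (nat_lit 3976486568) (nat_lit 0) (nat_lit 1014477649) (nat_lit 760) (nat_lit 2019363256) (nat_lit 423) (nat_lit 5) (nat_lit 422) (nat_lit 5) (nat_lit 432) (nat_lit 5) (nat_lit 408) (nat_lit 406) (nat_lit 386)) (XT.lf (nat_lit 0) (nat_lit 1159814987) (nat_lit 760) (nat_lit 4032954078) (nat_lit 836) (nat_lit 1906023604) (nat_lit 413) (nat_lit 5) (nat_lit 423) (nat_lit 5) (nat_lit 424) (nat_lit 5) (nat_lit 409) (nat_lit 406) (nat_lit 385))))) (XT.nd (nat_lit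 234) (nat_lit 1748) (nat_lit 0) (XT.nd (nat_lit 78) (nat_lit 760) (nat_lit 0) (XT.lf (nat_lit 76) (nat_lit 2239362449) (nat_lit 0) (nat_lit 2087731992) (nat_lit 836) (nat_lit 2867871289) (nat_lit 414) (nat_lit 5) (nat_lit 413) (nat_lit 5) (nat_lit 424) (nat_lit 5) (nat_lit 410) (nat_lit 406) (nat_lit 384)) (XT.nd (nat_lit 78) (nat_lit 0) (nat_lit 0) (XT.lf (nat_lit 0) (nat_lit 232401922) (nat_lit 836) (nat_lit 5788467499) (nat_lit 912) (nat_lit 1278508639) (nat_lit 403) (nat_lit 5) (nat_lit 414) (nat_lit 5) (nat_lit 415) (nat_lit 5) (nat_lit 411) (nat_lit 406) (nat_lit 383)) (XT.lf (nat_lit 76) (nat_lit 843167168) (nat_lit 0) (nat_lit 2488338414) (nat_lit 912) (nat_lit 4079569929) (nat_lit 404) (nat_lit 5) (nat_lit 403) (nat_lit 5) (nat_lit 415) (nat_lit 5) (nat_lit 412) (nat_lit 406) (nat_lit 382)))) (XT.nd (nat_lit 156) (nat_lit 912) (nat_lit 0) (XT.nd (nat_lit 78) (nat_lit 912) (nat_lit 0) (XT.lf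 (nat_lit 76) (nat_lit 271937585) (nat_lit 0) (nat_lit 6217924971) (nat_lit 912) (nat_lit 1041376055) (nat_lit 405) (nat_lit 5) (nat_lit 404) (nat_lit 5) (nat_lit 416) (nat_lit 5) (nat_lit 413) (nat_lit 406) (nat_lit 381)) (XT.lf (nat_lit 0) (nat_lit 2035308609) (nat_lit 912) (nat_lit 232413035) (nat_lit 988) (nat_lit 5391222251) (nat_lit 392) (nat_lit 5) (nat_lit 404) (nat_lit 5) (nat_lit 405) (nat_lit 5) (nat_lit 414) (nat_lit 406) (nat_lit 380))) (XT.nd (nat_lit 78) (nat_lit 988) (nat_lit 0) (XT.lf (nat_lit 0) (nat_lit 5175528637) (nat_lit 912) (nat_lit 655443611) (nat_lit 76) (nat_lit 1963824285) (nat_lit 393) (nat_lit 5) (nat_lit 405) (nat_lit 5) (nat_lit 394) (nat_lit 5) (nat_lit 415) (nat_lit 406) (nat_lit 379)) (XT.lf (nat_lit 0) (nat_lit 466055697) (nat_lit 988) (nat_lit 1001414173) (nat_lit 76) (nat_lit 6471589962) (nat_lit 380) (nat_lit 5) (nat_lit 393) (nat_lit 5) (nat_lit 381) (nat_lit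 5) (nat_lit 416) (nat_lit 406) (nat_lit 378))))))) (XT.nd (nat_lit 1014) (nat_lit 5700) (nat_lit 0) (XT.nd (nat_lit 468) (nat_lit 3952) (nat_lit 0) (XT.nd (nat_lit 234) (nat_lit 2736) (nat_lit 0) (XT.nd (nat_lit 78) (nat_lit 2280) (nat_lit 0) (XT.lf (nat_lit 0) (nat_lit 3609927579) (nat_lit 1064) (nat_lit 1299680187) (nat_lit 76) (nat_lit 3181404491) (nat_lit 367) (nat_lit 5) (nat_lit 381) (nat_lit 5) (nat_lit 368) (nat_lit 5) (nat_lit 417) (nat_lit 406) (nat_lit 377)) (XT.nd (nat_lit 78) (nat_lit 1216) (nat_lit 0) (XT.lf (nat_lit 0) (nat_lit 6743014053) (nat_lit 1064) (nat_lit 118468410) (nat_lit 1140) (nat_lit 1390572338) (nat_lit 353) (nat_lit 5) (nat_lit 367) (nat_lit 5) (nat_lit 368) (nat_lit 5) (nat_lit 418) (nat_lit 406) (nat_lit 376)) (XT.lf (nat_lit 0) (nat_lit 1810081147) (nat_lit 1216) (nat_lit 1679203556) (nat_lit 76) (nat_lit 4931582536) (nat_lit 337) (nat_lit 5) (nat_lit 353) (nat_lit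 5) (nat_lit 338) (nat_lit 5) (nat_lit 419) (nat_lit 406) (nat_lit 375)))) (XT.nd (nat_lit 78) (nat_lit 1520) (nat_lit 0) (XT.lf (nat_lit 0) (nat_lit 5111821341) (nat_lit 1292) (nat_lit 1777090113) (nat_lit 76) (nat_lit 1709707731) (nat_lit 321) (nat_lit 5) (nat_lit 338) (nat_lit 5) (nat_lit 322) (nat_lit 5) (nat_lit 420) (nat_lit 406) (nat_lit 374)) (XT.nd (nat_lit 78) (nat_lit 684) (nat_lit 0) (XT.lf (nat_lit 0) (nat_lit 6979947049) (nat_lit 836) (nat_lit 1593811322) (nat_lit 912) (nat_lit 211653085) (nat_lit 310) (nat_lit 5) (nat_lit 321) (nat_lit 5) (nat_lit 322) (nat_lit 5) (nat_lit 421) (nat_lit 406) (nat_lit 373)) (XT.lf (nat_lit 0) (nat_lit 3170493832) (nat_lit 684) (nat_lit 1797755294) (nat_lit 76) (nat_lit 4012182508) (nat_lit 301) (nat_lit 5) (nat_lit 310) (nat_lit 5) (nat_lit 302) (nat_lit 5) (nat_lit 422) (nat_lit 406) (nat_lit 372))))) (XT.nd (nat_lit 234) (nat_lit 2128) (nat_lit 0)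 (XT.nd (nat_lit 78) (nat_lit 1216) (nat_lit 0) (XT.lf (nat_lit 0) (nat_lit 6715318140) (nat_lit 684) (nat_lit 1709639151) (nat_lit 76) (nat_lit 760249546) (nat_lit 293) (nat_lit 5) (nat_lit 302) (nat_lit 5) (nat_lit 294) (nat_lit 5) (nat_lit 423) (nat_lit 406) (nat_lit 371)) (XT.nd (nat_lit 78) (nat_lit 608) (nat_lit 0) (XT.lf (nat_lit 0) (nat_lit 1049473192) (nat_lit 608) (nat_lit 1574167776) (nat_lit 76) (nat_lit 6775309167) (nat_lit 285) (nat_lit 5) (nat_lit 293) (nat_lit 5) (nat_lit 286) (nat_lit 5) (nat_lit 424) (nat_lit 406) (nat_lit 370)) (XT.lf (nat_lit 0) (nat_lit 4717164435) (nat_lit 684) (nat_lit 1388850277) (nat_lit 76) (nat_lit 3515933655) (nat_lit 277) (nat_lit 5) (nat_lit 286) (nat_lit 5) (nat_lit 278) (nat_lit 5) (nat_lit 425) (nat_lit 406) (nat_lit 369)))) (XT.nd (nat_lit 156) (nat_lit 988) (nat_lit 0) (XT.nd (nat_lit 78) (nat_lit 608) (nat_lit 0) (XT.lf (nat_lit 0) (nat_lit 8591708068)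 (nat_lit 608) (nat_lit 1121169821) (nat_lit 76) (nat_lit 142519034) (nat_lit 270) (nat_lit 5) (nat_lit 278) (nat_lit 5) (nat_lit 271) (nat_lit 5) (nat_lit 426) (nat_lit 406) (nat_lit 368)) (XT.lf (nat_lit 0) (nat_lit 2574620203) (nat_lit 608) (nat_lit 827557738) (nat_lit 76) (nat_lit 6695652880) (nat_lit 262) (nat_lit 5) (nat_lit 270) (nat_lit 5) (nat_lit 263) (nat_lit 5) (nat_lit 427) (nat_lit 406) (nat_lit 367))) (XT.nd (nat_lit 78) (nat_lit 532) (nat_lit 0) (XT.lf (nat_lit 0) (nat_lit 6619777293) (nat_lit 532) (nat_lit 464795807) (nat_lit 76) (nat_lit 3266209849) (nat_lit 256) (nat_lit 5) (nat_lit 263) (nat_lit 5) (nat_lit 257) (nat_lit 5) (nat_lit 428) (nat_lit 406) (nat_lit 366)) (XT.lf (nat_lit 0) (nat_lit 296443420) (nat_lit 532) (nat_lit 22891734) (nat_lit 76) (nat_lit 10295462981) (nat_lit 249) (nat_lit 5) (nat_lit 256) (nat_lit 5) (nat_lit 250) (nat_lit 5) (nat_lit 429) (nat_lit 406) (nat_lit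 365)))))) (XT.nd (nat_lit 546) (nat_lit 2280) (nat_lit 0) (XT.nd (nat_lit 234) (nat_lit 1596) (nat_lit 0) (XT.nd (nat_lit 78) (nat_lit 912) (nat_lit 0) (XT.lf (nat_lit 0) (nat_lit 443399875) (nat_lit 456) (nat_lit 4098331594) (nat_lit 532) (nat_lit 6346368958) (nat_lit 237) (nat_lit 5) (nat_lit 243) (nat_lit 5) (nat_lit 244) (nat_lit 5) (nat_lit 430) (nat_lit 406) (nat_lit 364)) (XT.nd (nat_lit 78) (nat_lit 532) (nat_lit 0) (XT.lf (nat_lit 0) (nat_lit 998905872) (nat_lit 380) (nat_lit 8063159899) (nat_lit 456) (nat_lit 2111121890) (nat_lit 232) (nat_lit 5) (nat_lit 237) (nat_lit 5) (nat_lit 238) (nat_lit 5) (nat_lit 431) (nat_lit 406) (nat_lit 363)) (XT.lf (nat_lit 0) (nat_lit 1615544387) (nat_lit 456) (nat_lit 752207684) (nat_lit 532) (nat_lit 9101783222) (nat_lit 225) (nat_lit 5) (nat_lit 231) (nat_lit 5) (nat_lit 232) (nat_lit 5) (nat_lit 432) (nat_lit 406) (nat_lit 362)))) (XT.nd (nat_lit 156)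 (nat_lit 760) (nat_lit 0) (XT.nd (nat_lit 78) (nat_lit 456) (nat_lit 0) (XT.lf (nat_lit 0) (nat_lit 2271582400) (nat_lit 380) (nat_lit 4864733520) (nat_lit 456) (nat_lit 4640477990) (nat_lit 220) (nat_lit 5) (nat_lit 225) (nat_lit 5) (nat_lit 226) (nat_lit 5) (nat_lit 433) (nat_lit 406) (nat_lit 361)) (XT.lf (nat_lit 0) (nat_lit 127788199) (nat_lit 456) (nat_lit 9074732641) (nat_lit 76) (nat_lit 2894342069) (nat_lit 214) (nat_lit 5) (nat_lit 220) (nat_lit 5) (nat_lit 215) (nat_lit 5) (nat_lit 434) (nat_lit 406) (nat_lit 360))) (XT.nd (nat_lit 78) (nat_lit 380) (nat_lit 0) (XT.lf (nat_lit 0) (nat_lit 3810865073) (nat_lit 380) (nat_lit 1332709955) (nat_lit 456) (nat_lit 7284832130) (nat_lit 209) (nat_lit 5) (nat_lit 214) (nat_lit 5) (nat_lit 215) (nat_lit 5) (nat_lit 435) (nat_lit 406) (nat_lit 359)) (XT.lf (nat_lit 0) (nat_lit 4670324265) (nat_lit 380) (nat_lit 5867819330) (nat_lit 456) (nat_lit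 2234547680) (nat_lit 204) (nat_lit 5) (nat_lit 209) (nat_lit 5) (nat_lit 210) (nat_lit 5) (nat_lit 436) (nat_lit 406) (nat_lit 358))))) (XT.nd (nat_lit 234) (nat_lit 1216) (nat_lit 0) (XT.nd (nat_lit 78) (nat_lit 684) (nat_lit 0) (XT.lf (nat_lit 0) (nat_lit 3114006182) (nat_lit 380) (nat_lit 7526405605) (nat_lit 76) (nat_lit 2489726402) (nat_lit 199) (nat_lit 5) (nat_lit 204) (nat_lit 5) (nat_lit 200) (nat_lit 5) (nat_lit 437) (nat_lit 406) (nat_lit 357)) (XT.nd (nat_lit 78) (nat_lit 380) (nat_lit 0) (XT.lf (nat_lit 0) (nat_lit 6600623628) (nat_lit 304) (nat_lit 2216856294) (nat_lit 380) (nat_lit 4683304755) (nat_lit 195) (nat_lit 5) (nat_lit 199) (nat_lit 5) (nat_lit 200) (nat_lit 5) (nat_lit 438) (nat_lit 406) (nat_lit 356)) (XT.lf (nat_lit 0) (nat_lit 1044085809) (nat_lit 380) (nat_lit 6212597019) (nat_lit 76) (nat_lit 6628644446) (nat_lit 190) (nat_lit 5) (nat_lit 195) (nat_lit 5) (nat_lit 191)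 (nat_lit 5) (nat_lit 439) (nat_lit 406) (nat_lit 355)))) (XT.nd (nat_lit 156) (nat_lit 608) (nat_lit 0) (XT.nd (nat_lit 78) (nat_lit 304) (nat_lit 0) (XT.lf (nat_lit 0) (nat_lit 7088058476) (nat_lit 380) (nat_lit 5472044519) (nat_lit 76) (nat_lit 1723792691) (nat_lit 186) (nat_lit 5) (nat_lit 191) (nat_lit 5) (nat_lit 187) (nat_lit 5) (nat_lit 440) (nat_lit 406) (nat_lit 354)) (XT.lf (nat_lit 0) (nat_lit 10035944883) (nat_lit 304) (nat_lit 3564896479) (nat_lit 380) (nat_lit 1096554600) (nat_lit 182) (nat_lit 5) (nat_lit 186) (nat_lit 5) (nat_lit 187) (nat_lit 5) (nat_lit 441) (nat_lit 406) (nat_lit 353))) (XT.nd (nat_lit 78) (nat_lit 228) (nat_lit 0) (XT.lf (nat_lit 0) (nat_lit 5362589490) (nat_lit 380) (nat_lit 3812480261) (nat_lit 76) (nat_lit 5950218450) (nat_lit 177) (nat_lit 5) (nat_lit 182) (nat_lit 5) (nat_lit 178) (nat_lit 5) (nat_lit 442) (nat_lit 406) (nat_lit 352)) (XT.lf (nat_lit 0)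 (nat_lit 12268927378) (nat_lit 304) (nat_lit 2863638441) (nat_lit 76) (nat_lit 437277650) (nat_lit 174) (nat_lit 5) (nat_lit 178) (nat_lit 5) (nat_lit 175) (nat_lit 5) (nat_lit 443) (nat_lit 406) (nat_lit 351))))))))
noncomputable def xc58 : XT := (XT.nd (nat_lit 2028) (nat_lit 3496) (nat_lit 0) (XT.nd (nat_lit 1014) (nat_lit 2356) (nat_lit 0) (XT.nd (nat_lit 468) (nat_lit 1520) (nat_lit 0) (XT.nd (nat_lit 234) (nat_lit 760) (nat_lit 0) (XT.nd (nat_lit 78) (nat_lit 760) (nat_lit 0) (XT.lf (nat_lit 0) (nat_lit 3624140639) (nat_lit 380) (nat_lit 1885821667) (nat_lit 76) (nat_lit 10519415871) (nat_lit 169) (nat_lit 5) (nat_lit 174) (nat_lit 5) (nat_lit 170) (nat_lit 5) (nat_lit 444) (nat_lit 406) (nat_lit 350)) (XT.nd (nat_lit 78) (nat_lit 532) (nat_lit 0) (XT.lf (nat_lit 0) (nat_lit 10993724044) (nat_lit 304) (nat_lit 827002748) (nat_lit 76) (nat_lit 4685187491) (nat_lit 166) (nat_lit 5) (nat_lit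 170) (nat_lit 5) (nat_lit 167) (nat_lit 5) (nat_lit 445) (nat_lit 406) (nat_lit 349)) (XT.lf (nat_lit 0) (nat_lit 329803260) (nat_lit 228) (nat_lit 1549630353) (nat_lit 304) (nat_lit 15120719414) (nat_lit 159) (nat_lit 5) (nat_lit 162) (nat_lit 5) (nat_lit 163) (nat_lit 5) (nat_lit 446) (nat_lit 406) (nat_lit 348)))) (XT.nd (nat_lit 78) (nat_lit 532) (nat_lit 0) (XT.lf (nat_lit 0) (nat_lit 1528403336) (nat_lit 228) (nat_lit 8232584022) (nat_lit 304) (nat_lit 7749449813) (nat_lit 156) (nat_lit 5) (nat_lit 159) (nat_lit 5) (nat_lit 160) (nat_lit 5) (nat_lit 447) (nat_lit 406) (nat_lit 347)) (XT.nd (nat_lit 78) (nat_lit 228) (nat_lit 0) (XT.lf (nat_lit 0) (nat_lit 175717764) (nat_lit 304) (nat_lit 15180027581) (nat_lit 76) (nat_lit 2684939675) (nat_lit 152) (nat_lit 5) (nat_lit 156) (nat_lit 5) (nat_lit 153) (nat_lit 5) (nat_lit 448) (nat_lit 406) (nat_lit 346)) (XT.lf (nat_lit 0) (nat_lit 4211916698)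 (nat_lit 228) (nat_lit 4359803291) (nat_lit 304) (nat_lit 10016379131) (nat_lit 149) (nat_lit 5) (nat_lit 152) (nat_lit 5) (nat_lit 153) (nat_lit 5) (nat_lit 449) (nat_lit 406) (nat_lit 345))))) (XT.nd (nat_lit 234) (nat_lit 912) (nat_lit 0) (XT.nd (nat_lit 78) (nat_lit 456) (nat_lit 0) (XT.lf (nat_lit 0) (nat_lit 5679826899) (nat_lit 152) (nat_lit 11934255611) (nat_lit 228) (nat_lit 1542005636) (nat_lit 147) (nat_lit 5) (nat_lit 149) (nat_lit 5) (nat_lit 150) (nat_lit 5) (nat_lit 450) (nat_lit 406) (nat_lit 344)) (XT.nd (nat_lit 78) (nat_lit 152) (nat_lit 0) (XT.lf (nat_lit 0) (nat_lit 7224543382) (nat_lit 228) (nat_lit 197201442) (nat_lit 304) (nat_lit 12322335350) (nat_lit 143) (nat_lit 5) (nat_lit 146) (nat_lit 5) (nat_lit 147) (nat_lit 5) (nat_lit 451) (nat_lit 406) (nat_lit 343)) (XT.lf (nat_lit 0) (nat_lit 8833698654) (nat_lit 152) (nat_lit 8257621714) (nat_lit 228) (nat_lit 3261008459) (nat_lit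 141) (nat_lit 5) (nat_lit 143) (nat_lit 5) (nat_lit 144) (nat_lit 5) (nat_lit 452) (nat_lit 406) (nat_lit 342)))) (XT.nd (nat_lit 156) (nat_lit 456) (nat_lit 0) (XT.nd (nat_lit 78) (nat_lit 152) (nat_lit 0) (XT.lf (nat_lit 0) (nat_lit 6355086118) (nat_lit 304) (nat_lit 10440813317) (nat_lit 76) (nat_lit 4186576152) (nat_lit 137) (nat_lit 5) (nat_lit 141) (nat_lit 5) (nat_lit 138) (nat_lit 5) (nat_lit 453) (nat_lit 406) (nat_lit 341)) (XT.lf (nat_lit 0) (nat_lit 12341579227) (nat_lit 152) (nat_lit 4315384556) (nat_lit 228) (nat_lit 4978025450) (nat_lit 135) (nat_lit 5) (nat_lit 137) (nat_lit 5) (nat_lit 138) (nat_lit 5) (nat_lit 454) (nat_lit 406) (nat_lit 340))) (XT.nd (nat_lit 78) (nat_lit 152) (nat_lit 0) (XT.lf (nat_lit 0) (nat_lit 5337527461) (nat_lit 304) (nat_lit 8092231675) (nat_lit 76) (nat_lit 8880355213) (nat_lit 131) (nat_lit 5) (nat_lit 135) (nat_lit 5) (nat_lit 132) (nat_lit 5) (nat_lit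 455) (nat_lit 406) (nat_lit 339)) (XT.lf (nat_lit 0) (nat_lit 16220564260) (nat_lit 152) (nat_lit 94728308) (nat_lit 228) (nat_lit 6694743602) (nat_lit 129) (nat_lit 5) (nat_lit 131) (nat_lit 5) (nat_lit 132) (nat_lit 5) (nat_lit 456) (nat_lit 406) (nat_lit 338)))))) (XT.nd (nat_lit 468) (nat_lit 1064) (nat_lit 0) (XT.nd (nat_lit 234) (nat_lit 684) (nat_lit 0) (XT.nd (nat_lit 78) (nat_lit 380) (nat_lit 0) (XT.lf (nat_lit 0) (nat_lit 4367839246) (nat_lit 228) (nat_lit 5461471581) (nat_lit 76) (nat_lit 13903938583) (nat_lit 126) (nat_lit 5) (nat_lit 129) (nat_lit 5) (nat_lit 127) (nat_lit 5) (nat_lit 457) (nat_lit 406) (nat_lit 337)) (XT.nd (nat_lit 78) (nat_lit 228) (nat_lit 0) (XT.lf (nat_lit 0) (nat_lit 16111793980) (nat_lit 228) (nat_lit 4039579181) (nat_lit 76) (nat_lit 4331261222) (nat_lit 124) (nat_lit 5) (nat_lit 127) (nat_lit 5) (nat_lit 125) (nat_lit 5) (nat_lit 458) (nat_lit 406) (nat_lit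 336)) (XT.lf (nat_lit 0) (nat_lit 3445063418) (nat_lit 228) (nat_lit 2539849310) (nat_lit 76) (nat_lit 19273655356) (nat_lit 121) (nat_lit 5) (nat_lit 124) (nat_lit 5) (nat_lit 122) (nat_lit 5) (nat_lit 459) (nat_lit 406) (nat_lit 335)))) (XT.nd (nat_lit 78) (nat_lit 532) (nat_lit 0) (XT.lf (nat_lit 0) (nat_lit 16009312098) (nat_lit 228) (nat_lit 997506010) (nat_lit 76) (nat_lit 9054074372) (nat_lit 119) (nat_lit 5) (nat_lit 122) (nat_lit 5) (nat_lit 120) (nat_lit 5) (nat_lit 460) (nat_lit 406) (nat_lit 334)) (XT.nd (nat_lit 78) (nat_lit 152) (nat_lit 0) (XT.lf (nat_lit 0) (nat_lit 692356314) (nat_lit 152) (nat_lit 1880563804) (nat_lit 228) (nat_lit 24320170734) (nat_lit 114) (nat_lit 5) (nat_lit 116) (nat_lit 5) (nat_lit 117) (nat_lit 5) (nat_lit 461) (nat_lit 406) (nat_lit 333)) (XT.lf (nat_lit 0) (nat_lit 2388846917) (nat_lit 152) (nat_lit 13640715603) (nat_lit 228) (nat_lit 11722087516) (nat_lit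 112) (nat_lit 5) (nat_lit 114) (nat_lit 5) (nat_lit 115) (nat_lit 5) (nat_lit 462) (nat_lit 406) (nat_lit 332))))) (XT.nd (nat_lit 234) (nat_lit 532) (nat_lit 0) (XT.nd (nat_lit 78) (nat_lit 304) (nat_lit 0) (XT.lf (nat_lit 0) (nat_lit 1791412868) (nat_lit 228) (nat_lit 24387136121) (nat_lit 76) (nat_lit 2464707406) (nat_lit 109) (nat_lit 5) (nat_lit 112) (nat_lit 5) (nat_lit 110) (nat_lit 5) (nat_lit 463) (nat_lit 406) (nat_lit 331)) (XT.nd (nat_lit 78) (nat_lit 152) (nat_lit 0) (XT.lf (nat_lit 0) (nat_lit 6099360865) (nat_lit 152) (nat_lit 10060196166) (nat_lit 228) (nat_lit 13403762669) (nat_lit 107) (nat_lit 5) (nat_lit 109) (nat_lit 5) (nat_lit 110) (nat_lit 5) (nat_lit 464) (nat_lit 406) (nat_lit 330)) (XT.lf (nat_lit 0) (nat_lit 1063860272) (nat_lit 152) (nat_lit 22415452827) (nat_lit 76) (nat_lit 7039033057) (nat_lit 105) (nat_lit 5) (nat_lit 107) (nat_lit 5) (nat_lit 106) (nat_lit 5) (nat_lit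 465) (nat_lit 406) (nat_lit 329)))) (XT.nd (nat_lit 156) (nat_lit 228) (nat_lit 0) (XT.nd (nat_lit 78) (nat_lit 152) (nat_lit 0) (XT.lf (nat_lit 0) (nat_lit 10109774900) (nat_lit 152) (nat_lit 6274013646) (nat_lit 228) (nat_lit 15121170409) (nat_lit 103) (nat_lit 5) (nat_lit 105) (nat_lit 5) (nat_lit 106) (nat_lit 5) (nat_lit 466) (nat_lit 406) (nat_lit 328)) (XT.lf (nat_lit 0) (nat_lit 360296672) (nat_lit 152) (nat_lit 20284154148) (nat_lit 76) (nat_lit 11883569544) (nat_lit 101) (nat_lit 5) (nat_lit 103) (nat_lit 5) (nat_lit 102) (nat_lit 5) (nat_lit 467) (nat_lit 406) (nat_lit 327))) (XT.nd (nat_lit 78) (nat_lit 76) (nat_lit 0) (XT.lf (nat_lit 0) (nat_lit 14409132933) (nat_lit 152) (nat_lit 2283697207) (nat_lit 228) (nat_lit 16893221934) (nat_lit 99) (nat_lit 5) (nat_lit 101) (nat_lit 5) (nat_lit 102) (nat_lit 5) (nat_lit 468) (nat_lit 406) (nat_lit 326)) (XT.lf (nat_lit 0) (nat_lit 16660901034)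 (nat_lit 76) (nat_lit 17678861670) (nat_lit 152) (nat_lit 342289804) (nat_lit 98) (nat_lit 5) (nat_lit 99) (nat_lit 5) (nat_lit 100) (nat_lit 4) (nat_lit 469) (nat_lit 406) (nat_lit 325))))))) (XT.nd (nat_lit 1014) (nat_lit 1596) (nat_lit 0) (XT.nd (nat_lit 468) (nat_lit 988) (nat_lit 0) (XT.nd (nat_lit 234) (nat_lit 380) (nat_lit 0) (XT.nd (nat_lit 78) (nat_lit 304) (nat_lit 0) (XT.lf (nat_lit 0) (nat_lit 17091035881) (nat_lit 228) (nat_lit 16856955367) (nat_lit 76) (nat_lit 1868330604) (nat_lit 95) (nat_lit 5) (nat_lit 98) (nat_lit 5) (nat_lit 96) (nat_lit 4) (nat_lit 470) (nat_lit 406) (nat_lit 324)) (XT.nd (nat_lit 78) (nat_lit 228) (nat_lit 0) (XT.lf (nat_lit 0) (nat_lit 21329689880) (nat_lit 76) (nat_lit 14595045106) (nat_lit 152) (nat_lit 1066394696) (nat_lit 94) (nat_lit 5) (nat_lit 95) (nat_lit 5) (nat_lit 96) (nat_lit 4) (nat_lit 471) (nat_lit 406) (nat_lit 323)) (XT.lf (nat_lit 0) (nat_lit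 17564354379) (nat_lit 228) (nat_lit 14481357543) (nat_lit 76) (nat_lit 6161029033) (nat_lit 91) (nat_lit 5) (nat_lit 94) (nat_lit 5) (nat_lit 92) (nat_lit 4) (nat_lit 472) (nat_lit 406) (nat_lit 322)))) (XT.nd (nat_lit 78) (nat_lit 304) (nat_lit 0) (XT.lf (nat_lit 0) (nat_lit 26218295970) (nat_lit 76) (nat_lit 11415001141) (nat_lit 152) (nat_lit 1833657846) (nat_lit 90) (nat_lit 5) (nat_lit 91) (nat_lit 5) (nat_lit 92) (nat_lit 4) (nat_lit 473) (nat_lit 406) (nat_lit 321)) (XT.nd (nat_lit 78) (nat_lit 76) (nat_lit 0) (XT.lf (nat_lit 0) (nat_lit 18064437039) (nat_lit 228) (nat_lit 12082278576) (nat_lit 76) (nat_lit 10623342049) (nat_lit 87) (nat_lit 5) (nat_lit 90) (nat_lit 5) (nat_lit 88) (nat_lit 4) (nat_lit 474) (nat_lit 406) (nat_lit 320)) (XT.lf (nat_lit 0) (nat_lit 31277062604) (nat_lit 76) (nat_lit 8164137988) (nat_lit 152) (nat_lit 2680919872) (nat_lit 86) (nat_lit 5) (nat_lit 87) (nat_lit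 5) (nat_lit 88) (nat_lit 4) (nat_lit 475) (nat_lit 406) (nat_lit 319))))) (XT.nd (nat_lit 234) (nat_lit 456) (nat_lit 0) (XT.nd (nat_lit 78) (nat_lit 304) (nat_lit 0) (XT.lf (nat_lit 0) (nat_lit 18556643779) (nat_lit 228) (nat_lit 9730375737) (nat_lit 76) (nat_lit 15232388623) (nat_lit 83) (nat_lit 5) (nat_lit 86) (nat_lit 5) (nat_lit 84) (nat_lit 4) (nat_lit 476) (nat_lit 406) (nat_lit 318)) (XT.nd (nat_lit 78) (nat_lit 228) (nat_lit 0) (XT.lf (nat_lit 0) (nat_lit 36439106671) (nat_lit 76) (nat_lit 4876519507) (nat_lit 152) (nat_lit 3654688312) (nat_lit 82) (nat_lit 5) (nat_lit 83) (nat_lit 5) (nat_lit 84) (nat_lit 4) (nat_lit 477) (nat_lit 406) (nat_lit 317)) (XT.lf (nat_lit 0) (nat_lit 18996369610) (nat_lit 228) (nat_lit 7516377603) (nat_lit 76) (nat_lit 19956335550) (nat_lit 79) (nat_lit 5) (nat_lit 82) (nat_lit 5) (nat_lit 80) (nat_lit 4) (nat_lit 478) (nat_lit 406) (nat_lit 316)))) (XT.nd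 (nat_lit 156) (nat_lit 228) (nat_lit 0) (XT.nd (nat_lit 78) (nat_lit 152) (nat_lit 0) (XT.lf (nat_lit 0) (nat_lit 41616581391) (nat_lit 76) (nat_lit 1596773308) (nat_lit 152) (nat_lit 4813080599) (nat_lit 78) (nat_lit 5) (nat_lit 79) (nat_lit 5) (nat_lit 80) (nat_lit 4) (nat_lit 479) (nat_lit 406) (nat_lit 315)) (XT.lf (nat_lit 0) (nat_lit 19326999958) (nat_lit 152) (nat_lit 5555256955) (nat_lit 76) (nat_lit 24752390651) (nat_lit 76) (nat_lit 5) (nat_lit 78) (nat_lit 5) (nat_lit 77) (nat_lit 4) (nat_lit 480) (nat_lit 406) (nat_lit 314))) (XT.nd (nat_lit 78) (nat_lit 152) (nat_lit 0) (XT.lf (nat_lit 0) (nat_lit 45094142324) (nat_lit 152) (nat_lit 4626028455) (nat_lit 0) (nat_lit 1586082190) (nat_lit 75) (nat_lit 5) (nat_lit 77) (nat_lit 4) (nat_lit 75) (nat_lit 4) (nat_lit 481) (nat_lit 406) (nat_lit 313)) (XT.lf (nat_lit 0) (nat_lit 19477485513) (nat_lit 152) (nat_lit 3991173297) (nat_lit 76) (nat_lit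 29564422486) (nat_lit 73) (nat_lit 5) (nat_lit 75) (nat_lit 5) (nat_lit 74) (nat_lit 4) (nat_lit 482) (nat_lit 406) (nat_lit 312)))))) (XT.nd (nat_lit 546) (nat_lit 836) (nat_lit 0) (XT.nd (nat_lit 234) (nat_lit 456) (nat_lit 0) (XT.nd (nat_lit 78) (nat_lit 228) (nat_lit 0) (XT.lf (nat_lit 0) (nat_lit 46885510087) (nat_lit 152) (nat_lit 3339824298) (nat_lit 0) (nat_lit 4602198863) (nat_lit 72) (nat_lit 5) (nat_lit 74) (nat_lit 4) (nat_lit 72) (nat_lit 4) (nat_lit 483) (nat_lit 406) (nat_lit 311)) (XT.nd (nat_lit 78) (nat_lit 76) (nat_lit 0) (XT.lf (nat_lit 0) (nat_lit 19359469779) (nat_lit 152) (nat_lit 3003320971) (nat_lit 76) (nat_lit 34320139716) (nat_lit 70) (nat_lit 5) (nat_lit 72) (nat_lit 5) (nat_lit 71) (nat_lit 4) (nat_lit 484) (nat_lit 406) (nat_lit 310)) (XT.lf (nat_lit 0) (nat_lit 48482064785) (nat_lit 152) (nat_lit 2735164085) (nat_lit 0) (nat_lit 7392901351) (nat_lit 69) (nat_lit 5)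 (nat_lit 71) (nat_lit 4) (nat_lit 69) (nat_lit 4) (nat_lit 485) (nat_lit 406) (nat_lit 309)))) (XT.nd (nat_lit 156) (nat_lit 228) (nat_lit 0) (XT.nd (nat_lit 78) (nat_lit 76) (nat_lit 0) (XT.lf (nat_lit 0) (nat_lit 18863890944) (nat_lit 152) (nat_lit 2812842267) (nat_lit 76) (nat_lit 38927751767) (nat_lit 67) (nat_lit 5) (nat_lit 69) (nat_lit 5) (nat_lit 68) (nat_lit 4) (nat_lit 486) (nat_lit 406) (nat_lit 308)) (XT.lf (nat_lit 0) (nat_lit 49771712154) (nat_lit 152) (nat_lit 3057183911) (nat_lit 0) (nat_lit 9846381243) (nat_lit 66) (nat_lit 5) (nat_lit 68) (nat_lit 4) (nat_lit 66) (nat_lit 4) (nat_lit 487) (nat_lit 406) (nat_lit 307))) (XT.nd (nat_lit 78) (nat_lit 76) (nat_lit 0) (XT.lf (nat_lit 0) (nat_lit 17856966152) (nat_lit 152) (nat_lit 3690992400) (nat_lit 76) (nat_lit 43272018951) (nat_lit 64) (nat_lit 5) (nat_lit 66) (nat_lit 5) (nat_lit 65) (nat_lit 4) (nat_lit 488) (nat_lit 406) (nat_lit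 306)) (XT.lf (nat_lit 0) (nat_lit 50615984505) (nat_lit 152) (nat_lit 4605755109) (nat_lit 0) (nat_lit 11824520658) (nat_lit 63) (nat_lit 5) (nat_lit 65) (nat_lit 4) (nat_lit 63) (nat_lit 4) (nat_lit 489) (nat_lit 406) (nat_lit 305))))) (XT.nd (nat_lit 234) (nat_lit 456) (nat_lit 0) (XT.nd (nat_lit 78) (nat_lit 228) (nat_lit 0) (XT.lf (nat_lit 0) (nat_lit 16175450400) (nat_lit 152) (nat_lit 5968775330) (nat_lit 76) (nat_lit 47209584423) (nat_lit 61) (nat_lit 5) (nat_lit 63) (nat_lit 5) (nat_lit 62) (nat_lit 4) (nat_lit 490) (nat_lit 406) (nat_lit 304)) (XT.nd (nat_lit 78) (nat_lit 152) (nat_lit 0) (XT.lf (nat_lit 0) (nat_lit 50844934370) (nat_lit 152) (nat_lit 7745949306) (nat_lit 0) (nat_lit 13157775404) (nat_lit 60) (nat_lit 5) (nat_lit 62) (nat_lit 4) (nat_lit 60) (nat_lit 4) (nat_lit 491) (nat_lit 406) (nat_lit 303)) (XT.lf (nat_lit 0) (nat_lit 13621043753) (nat_lit 152) (nat_lit 10048307081)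 (nat_lit 76) (nat_lit 50563461839) (nat_lit 58) (nat_lit 5) (nat_lit 60) (nat_lit 5) (nat_lit 59) (nat_lit 4) (nat_lit 492) (nat_lit 406) (nat_lit 302)))) (XT.nd (nat_lit 156) (nat_lit 228) (nat_lit 0) (XT.nd (nat_lit 78) (nat_lit 152) (nat_lit 0) (XT.lf (nat_lit 0) (nat_lit 50251108457) (nat_lit 152) (nat_lit 12920375391) (nat_lit 0) (nat_lit 13639139771) (nat_lit 57) (nat_lit 5) (nat_lit 59) (nat_lit 4) (nat_lit 57) (nat_lit 4) (nat_lit 493) (nat_lit 406) (nat_lit 301)) (XT.lf (nat_lit 0) (nat_lit 9953798831) (nat_lit 152) (nat_lit 16416207214) (nat_lit 76) (nat_lit 53116530928) (nat_lit 55) (nat_lit 5) (nat_lit 57) (nat_lit 5) (nat_lit 56) (nat_lit 4) (nat_lit 494) (nat_lit 406) (nat_lit 300))) (XT.nd (nat_lit 78) (nat_lit 152) (nat_lit 0) (XT.lf (nat_lit 0) (nat_lit 48582441862) (nat_lit 152) (nat_lit 20663713820) (nat_lit 0) (nat_lit 13017032763) (nat_lit 54) (nat_lit 5) (nat_lit 56) (nat_lit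 4) (nat_lit 54) (nat_lit 4) (nat_lit 495) (nat_lit 406) (nat_lit 299)) (XT.lf (nat_lit 0) (nat_lit 4884355115) (nat_lit 152) (nat_lit 25659370739) (nat_lit 76) (nat_lit 54603867822) (nat_lit 52) (nat_lit 5) (nat_lit 54) (nat_lit 5) (nat_lit 53) (nat_lit 4) (nat_lit 496) (nat_lit 406) (nat_lit 298))))))))
noncomputable def xc59 : XT := (XT.nd (nat_lit 57330) (nat_lit 0) (nat_lit 6004) (XT.nd (nat_lit 56316) (nat_lit 0) (nat_lit 14668) (XT.nd (nat_lit 55770) (nat_lit 0) (nat_lit 24092) (XT.nd (nat_lit 55536) (nat_lit 0) (nat_lit 27512) (XT.nd (nat_lit 78) (nat_lit 76) (nat_lit 0) (XT.lf (nat_lit 0) (nat_lit 45533885063) (nat_lit 152) (nat_lit 31619829556) (nat_lit 0) (nat_lit 10986918139) (nat_lit 51) (nat_lit 5) (nat_lit 53) (nat_lit 4) (nat_lit 51) (nat_lit 4) (nat_lit 497) (nat_lit 406) (nat_lit 297)) (XT.nd (nat_lit 55380) (nat_lit 0) (nat_lit 28272) (XT.lf (nat_lit 0) (nat_lit 52748962411) (nat_lit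 76) (nat_lit 36528788214) (nat_lit 76) (nat_lit 1973717445) (nat_lit 50) (nat_lit 4) (nat_lit 51) (nat_lit 5) (nat_lit 51) (nat_lit 4) (nat_lit 498) (nat_lit 406) (nat_lit 296)) (XT.lf (nat_lit 0) (nat_lit 1209942504) (nat_lit 0) (nat_lit 1209942504) (nat_lit 684) (nat_lit 1083291298) (nat_lit 422) (nat_lit 5) (nat_lit 422) (nat_lit 3) (nat_lit 431) (nat_lit 3) (nat_lit 407) (nat_lit 407) (nat_lit 386)))) (XT.nd (nat_lit 78) (nat_lit 0) (nat_lit 0) (XT.lf (nat_lit 0) (nat_lit 845162797) (nat_lit 760) (nat_lit 5836606305) (nat_lit 836) (nat_lit 409524386) (nat_lit 412) (nat_lit 5) (nat_lit 422) (nat_lit 5) (nat_lit 423) (nat_lit 5) (nat_lit 408) (nat_lit 407) (nat_lit 385)) (XT.nd (nat_lit 78) (nat_lit 0) (nat_lit 0) (XT.lf (nat_lit 76) (nat_lit 153113893) (nat_lit 0) (nat_lit 3691032093) (nat_lit 836) (nat_lit 3339259712) (nat_lit 413) (nat_lit 5) (nat_lit 412) (nat_lit 5) (nat_lit 423) (nat_lit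 5) (nat_lit 409) (nat_lit 407) (nat_lit 384)) (XT.lf (nat_lit 76) (nat_lit 6459585342) (nat_lit 0) (nat_lit 409202415) (nat_lit 836) (nat_lit 415075519) (nat_lit 413) (nat_lit 5) (nat_lit 412) (nat_lit 5) (nat_lit 423) (nat_lit 5) (nat_lit 410) (nat_lit 407) (nat_lit 383))))) (XT.nd (nat_lit 234) (nat_lit 1824) (nat_lit 0) (XT.nd (nat_lit 78) (nat_lit 836) (nat_lit 0) (XT.lf (nat_lit 0) (nat_lit 2511398013) (nat_lit 836) (nat_lit 1748992632) (nat_lit 912) (nat_lit 3130960712) (nat_lit 402) (nat_lit 5) (nat_lit 413) (nat_lit 5) (nat_lit 414) (nat_lit 5) (nat_lit 411) (nat_lit 407) (nat_lit 382)) (XT.nd (nat_lit 78) (nat_lit 836) (nat_lit 0) (XT.lf (nat_lit 76) (nat_lit 4927267052) (nat_lit 0) (nat_lit 539293881) (nat_lit 912) (nat_lit 2040810839) (nat_lit 403) (nat_lit 5) (nat_lit 402) (nat_lit 5) (nat_lit 414) (nat_lit 5) (nat_lit 412) (nat_lit 407) (nat_lit 381)) (XT.lf (nat_lit 0) (nat_lit 851456112)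 (nat_lit 912) (nat_lit 3351759838) (nat_lit 988) (nat_lit 3427829616) (nat_lit 391) (nat_lit 5) (nat_lit 403) (nat_lit 5) (nat_lit 404) (nat_lit 5) (nat_lit 413) (nat_lit 407) (nat_lit 380)))) (XT.nd (nat_lit 156) (nat_lit 1824) (nat_lit 0) (XT.nd (nat_lit 78) (nat_lit 0) (nat_lit 76) (XT.lf (nat_lit 76) (nat_lit 3713123999) (nat_lit 0) (nat_lit 44936427) (nat_lit 988) (nat_lit 4004887071) (nat_lit 392) (nat_lit 5) (nat_lit 391) (nat_lit 5) (nat_lit 404) (nat_lit 5) (nat_lit 414) (nat_lit 407) (nat_lit 379)) (XT.lf (nat_lit 76) (nat_lit 3211358799) (nat_lit 0) (nat_lit 3556333623) (nat_lit 988) (nat_lit 1135029330) (nat_lit 393) (nat_lit 5) (nat_lit 392) (nat_lit 5) (nat_lit 405) (nat_lit 5) (nat_lit 415) (nat_lit 407) (nat_lit 378))) (XT.nd (nat_lit 78) (nat_lit 988) (nat_lit 0) (XT.lf (nat_lit 0) (nat_lit 1776139106) (nat_lit 988) (nat_lit 5263502801) (nat_lit 76) (nat_lit 1011274569) (nat_lit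 380) (nat_lit 5) (nat_lit 393) (nat_lit 5) (nat_lit 381) (nat_lit 5) (nat_lit 416) (nat_lit 407) (nat_lit 377)) (XT.lf (nat_lit 0) (nat_lit 2421136305) (nat_lit 988) (nat_lit 2357702761) (nat_lit 1064) (nat_lit 3428268496) (nat_lit 367) (nat_lit 5) (nat_lit 380) (nat_lit 5) (nat_lit 381) (nat_lit 5) (nat_lit 417) (nat_lit 407) (nat_lit 376)))))) (XT.nd (nat_lit 468) (nat_lit 3800) (nat_lit 0) (XT.nd (nat_lit 234) (nat_lit 2128) (nat_lit 0) (XT.nd (nat_lit 78) (nat_lit 2432) (nat_lit 0) (XT.lf (nat_lit 0) (nat_lit 2134620807) (nat_lit 1064) (nat_lit 5763978787) (nat_lit 1140) (nat_lit 473507679) (nat_lit 353) (nat_lit 5) (nat_lit 367) (nat_lit 5) (nat_lit 368) (nat_lit 5) (nat_lit 418) (nat_lit 407) (nat_lit 375)) (XT.nd (nat_lit 78) (nat_lit 1216) (nat_lit 0) (XT.lf (nat_lit 0) (nat_lit 1904314025) (nat_lit 1140) (nat_lit 646733130) (nat_lit 1216) (nat_lit 5994357281) (nat_lit 337) (nat_lit 5) (nat_lit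 352) (nat_lit 5) (nat_lit 353) (nat_lit 5) (nat_lit 419) (nat_lit 407) (nat_lit 374)) (XT.lf (nat_lit 0) (nat_lit 1728559383) (nat_lit 1216) (nat_lit 3991806806) (nat_lit 1292) (nat_lit 3006765766) (nat_lit 321) (nat_lit 5) (nat_lit 337) (nat_lit 5) (nat_lit 338) (nat_lit 5) (nat_lit 420) (nat_lit 407) (nat_lit 373)))) (XT.nd (nat_lit 78) (nat_lit 1216) (nat_lit 0) (XT.lf (nat_lit 0) (nat_lit 114036619) (nat_lit 912) (nat_lit 7281947589) (nat_lit 76) (nat_lit 1522338499) (nat_lit 309) (nat_lit 5) (nat_lit 321) (nat_lit 5) (nat_lit 310) (nat_lit 5) (nat_lit 421) (nat_lit 407) (nat_lit 372)) (XT.nd (nat_lit 78) (nat_lit 608) (nat_lit 0) (XT.lf (nat_lit 0) (nat_lit 1579950805) (nat_lit 608) (nat_lit 1762296643) (nat_lit 684) (nat_lit 5775531167) (nat_lit 301) (nat_lit 5) (nat_lit 309) (nat_lit 5) (nat_lit 310) (nat_lit 5) (nat_lit 422) (nat_lit 407) (nat_lit 371)) (XT.lf (nat_lit 0) (nat_lit 1590451017)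 (nat_lit 608) (nat_lit 5161534657) (nat_lit 684) (nat_lit 2574623191) (nat_lit 293) (nat_lit 5) (nat_lit 301) (nat_lit 5) (nat_lit 302) (nat_lit 5) (nat_lit 423) (nat_lit 407) (nat_lit 370))))) (XT.nd (nat_lit 234) (nat_lit 2052) (nat_lit 0) (XT.nd (nat_lit 78) (nat_lit 1140) (nat_lit 0) (XT.lf (nat_lit 0) (nat_lit 784445056) (nat_lit 608) (nat_lit 7869394618) (nat_lit 76) (nat_lit 891415091) (nat_lit 285) (nat_lit 5) (nat_lit 293) (nat_lit 5) (nat_lit 286) (nat_lit 5) (nat_lit 424) (nat_lit 407) (nat_lit 369)) (XT.nd (nat_lit 78) (nat_lit 532) (nat_lit 0) (XT.lf (nat_lit 0) (nat_lit 1792914475) (nat_lit 608) (nat_lit 2511976890) (nat_lit 684) (nat_lit 5467781149) (nat_lit 277) (nat_lit 5) (nat_lit 285) (nat_lit 5) (nat_lit 286) (nat_lit 5) (nat_lit 425) (nat_lit 407) (nat_lit 368)) (XT.lf (nat_lit 0) (nat_lit 1983170345) (nat_lit 532) (nat_lit 6057148149) (nat_lit 608) (nat_lit 1969978139) (nat_lit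 270) (nat_lit 5) (nat_lit 277) (nat_lit 5) (nat_lit 278) (nat_lit 5) (nat_lit 426) (nat_lit 407) (nat_lit 367)))) (XT.nd (nat_lit 156) (nat_lit 988) (nat_lit 0) (XT.nd (nat_lit 78) (nat_lit 456) (nat_lit 0) (XT.lf (nat_lit 0) (nat_lit 1707609939) (nat_lit 608) (nat_lit 8018004204) (nat_lit 76) (nat_lit 532557073) (nat_lit 262) (nat_lit 5) (nat_lit 270) (nat_lit 5) (nat_lit 263) (nat_lit 5) (nat_lit 427) (nat_lit 407) (nat_lit 366)) (XT.lf (nat_lit 0) (nat_lit 2531216851) (nat_lit 456) (nat_lit 3072891573) (nat_lit 532) (nat_lit 4911476498) (nat_lit 256) (nat_lit 5) (nat_lit 262) (nat_lit 5) (nat_lit 263) (nat_lit 5) (nat_lit 428) (nat_lit 407) (nat_lit 365))) (XT.nd (nat_lit 78) (nat_lit 532) (nat_lit 0) (XT.lf (nat_lit 0) (nat_lit 2901880223) (nat_lit 456) (nat_lit 6852172037) (nat_lit 532) (nat_lit 1030061992) (nat_lit 250) (nat_lit 5) (nat_lit 256) (nat_lit 5) (nat_lit 257) (nat_lit 5) (nat_lit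 429) (nat_lit 407) (nat_lit 364)) (XT.lf (nat_lit 0) (nat_lit 3047006237) (nat_lit 532) (nat_lit 7733628765) (nat_lit 76) (nat_lit 282729793) (nat_lit 243) (nat_lit 5) (nat_lit 250) (nat_lit 5) (nat_lit 244) (nat_lit 5) (nat_lit 430) (nat_lit 407) (nat_lit 363))))))) (XT.nd (nat_lit 1014) (nat_lit 3648) (nat_lit 0) (XT.nd (nat_lit 468) (nat_lit 2432) (nat_lit 0) (XT.nd (nat_lit 234) (nat_lit 1216) (nat_lit 0) (XT.nd (nat_lit 78) (nat_lit 912) (nat_lit 0) (XT.lf (nat_lit 0) (nat_lit 3800363298) (nat_lit 456) (nat_lit 3609274396) (nat_lit 532) (nat_lit 3943546947) (nat_lit 237) (nat_lit 5) (nat_lit 243) (nat_lit 5) (nat_lit 244) (nat_lit 5) (nat_lit 431) (nat_lit 407) (nat_lit 362)) (XT.nd (nat_lit 78) (nat_lit 456) (nat_lit 0) (XT.lf (nat_lit 0) (nat_lit 405181892) (nat_lit 456) (nat_lit 7300509907) (nat_lit 76) (nat_lit 3949347386) (nat_lit 231) (nat_lit 5) (nat_lit 237) (nat_lit 5) (nat_lit 232)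 (nat_lit 5) (nat_lit 432) (nat_lit 407) (nat_lit 361)) (XT.lf (nat_lit 0) (nat_lit 4961152024) (nat_lit 456) (nat_lit 12185014) (nat_lit 532) (nat_lit 6994974370) (nat_lit 225) (nat_lit 5) (nat_lit 231) (nat_lit 5) (nat_lit 232) (nat_lit 5) (nat_lit 433) (nat_lit 407) (nat_lit 360)))) (XT.nd (nat_lit 78) (nat_lit 836) (nat_lit 0) (XT.lf (nat_lit 0) (nat_lit 5621704787) (nat_lit 380) (nat_lit 4278417084) (nat_lit 456) (nat_lit 2393221334) (nat_lit 220) (nat_lit 5) (nat_lit 225) (nat_lit 5) (nat_lit 226) (nat_lit 5) (nat_lit 434) (nat_lit 407) (nat_lit 359)) (XT.nd (nat_lit 78) (nat_lit 380) (nat_lit 0) (XT.lf (nat_lit 0) (nat_lit 2488116430) (nat_lit 456) (nat_lit 6275305641) (nat_lit 76) (nat_lit 3867591204) (nat_lit 214) (nat_lit 5) (nat_lit 220) (nat_lit 5) (nat_lit 215) (nat_lit 5) (nat_lit 435) (nat_lit 407) (nat_lit 358)) (XT.lf (nat_lit 0) (nat_lit 7161320676) (nat_lit 380) (nat_lit 511654611)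 (nat_lit 456) (nat_lit 5308614524) (nat_lit 209) (nat_lit 5) (nat_lit 214) (nat_lit 5) (nat_lit 215) (nat_lit 5) (nat_lit 436) (nat_lit 407) (nat_lit 357))))) (XT.nd (nat_lit 234) (nat_lit 1368) (nat_lit 0) (XT.nd (nat_lit 78) (nat_lit 684) (nat_lit 0) (XT.lf (nat_lit 0) (nat_lit 8031167831) (nat_lit 380) (nat_lit 5236091904) (nat_lit 456) (nat_lit 77932159) (nat_lit 204) (nat_lit 5) (nat_lit 209) (nat_lit 5) (nat_lit 210) (nat_lit 5) (nat_lit 437) (nat_lit 407) (nat_lit 356)) (XT.nd (nat_lit 78) (nat_lit 304) (nat_lit 0) (XT.lf (nat_lit 0) (nat_lit 5426459441) (nat_lit 380) (nat_lit 4766456218) (nat_lit 76) (nat_lit 3528964274) (nat_lit 199) (nat_lit 5) (nat_lit 204) (nat_lit 5) (nat_lit 200) (nat_lit 5) (nat_lit 438) (nat_lit 407) (nat_lit 355)) (XT.lf (nat_lit 0) (nat_lit 9977023936) (nat_lit 304) (nat_lit 1364663974) (nat_lit 380) (nat_lit 2771576384) (nat_lit 195) (nat_lit 5) (nat_lit 199)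 (nat_lit 5) (nat_lit 200) (nat_lit 5) (nat_lit 439) (nat_lit 407) (nat_lit 354)))) (XT.nd (nat_lit 156) (nat_lit 684) (nat_lit 0) (XT.nd (nat_lit 78) (nat_lit 304) (nat_lit 0) (XT.lf (nat_lit 0) (nat_lit 3138250338) (nat_lit 380) (nat_lit 3471712752) (nat_lit 76) (nat_lit 7908316635) (nat_lit 190) (nat_lit 5) (nat_lit 195) (nat_lit 5) (nat_lit 191) (nat_lit 5) (nat_lit 440) (nat_lit 407) (nat_lit 353)) (XT.lf (nat_lit 0) (nat_lit 9425202066) (nat_lit 380) (nat_lit 2731879132) (nat_lit 76) (nat_lit 2781474572) (nat_lit 186) (nat_lit 5) (nat_lit 191) (nat_lit 5) (nat_lit 187) (nat_lit 5) (nat_lit 441) (nat_lit 407) (nat_lit 352))) (XT.nd (nat_lit 78) (nat_lit 304) (nat_lit 0) (XT.lf (nat_lit 0) (nat_lit 806573383) (nat_lit 380) (nat_lit 1917508738) (nat_lit 76) (nat_lit 12650402504) (nat_lit 181) (nat_lit 5) (nat_lit 186) (nat_lit 5) (nat_lit 182) (nat_lit 5) (nat_lit 442) (nat_lit 407) (nat_lit 351))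 (XT.lf (nat_lit 0) (nat_lit 7511442120) (nat_lit 380) (nat_lit 1075706681) (nat_lit 76) (nat_lit 7237935899) (nat_lit 177) (nat_lit 5) (nat_lit 182) (nat_lit 5) (nat_lit 178) (nat_lit 5) (nat_lit 443) (nat_lit 407) (nat_lit 350)))))) (XT.nd (nat_lit 546) (nat_lit 1520) (nat_lit 0) (XT.nd (nat_lit 234) (nat_lit 1064) (nat_lit 0) (XT.nd (nat_lit 78) (nat_lit 836) (nat_lit 0) (XT.lf (nat_lit 0) (nat_lit 14710724761) (nat_lit 304) (nat_lit 118589866) (nat_lit 76) (nat_lit 1464126470) (nat_lit 174) (nat_lit 5) (nat_lit 178) (nat_lit 5) (nat_lit 175) (nat_lit 5) (nat_lit 444) (nat_lit 407) (nat_lit 349)) (XT.nd (nat_lit 78) (nat_lit 228) (nat_lit 0) (XT.lf (nat_lit 0) (nat_lit 878042650) (nat_lit 228) (nat_lit 4721548158) (nat_lit 304) (nat_lit 11177388285) (nat_lit 166) (nat_lit 5) (nat_lit 169) (nat_lit 5) (nat_lit 170) (nat_lit 5) (nat_lit 445) (nat_lit 407) (nat_lit 348)) (XT.lf (nat_lit 0) (nat_lit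 1971639690) (nat_lit 228) (nat_lit 11327937629) (nat_lit 304) (nat_lit 3978908905) (nat_lit 163) (nat_lit 5) (nat_lit 166) (nat_lit 5) (nat_lit 167) (nat_lit 5) (nat_lit 446) (nat_lit 407) (nat_lit 347)))) (XT.nd (nat_lit 156) (nat_lit 532) (nat_lit 0) (XT.nd (nat_lit 78) (nat_lit 228) (nat_lit 0) (XT.lf (nat_lit 0) (nat_lit 3156153647) (nat_lit 228) (nat_lit 541585956) (nat_lit 304) (nat_lit 14100655208) (nat_lit 159) (nat_lit 5) (nat_lit 162) (nat_lit 5) (nat_lit 163) (nat_lit 5) (nat_lit 447) (nat_lit 407) (nat_lit 346)) (XT.lf (nat_lit 0) (nat_lit 4374286029) (nat_lit 228) (nat_lit 7553533463) (nat_lit 304) (nat_lit 6407741922) (nat_lit 156) (nat_lit 5) (nat_lit 159) (nat_lit 5) (nat_lit 160) (nat_lit 5) (nat_lit 448) (nat_lit 407) (nat_lit 345))) (XT.nd (nat_lit 78) (nat_lit 228) (nat_lit 0) (XT.lf (nat_lit 0) (nat_lit 1835781303) (nat_lit 304) (nat_lit 13177288071) (nat_lit 76) (nat_lit 3880080008)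 (nat_lit 152) (nat_lit 5) (nat_lit 156) (nat_lit 5) (nat_lit 153) (nat_lit 5) (nat_lit 449) (nat_lit 407) (nat_lit 344)) (XT.lf (nat_lit 0) (nat_lit 7105088673) (nat_lit 228) (nat_lit 3493649259) (nat_lit 304) (nat_lit 8870783128) (nat_lit 149) (nat_lit 5) (nat_lit 152) (nat_lit 5) (nat_lit 153) (nat_lit 5) (nat_lit 450) (nat_lit 407) (nat_lit 343))))) (XT.nd (nat_lit 234) (nat_lit 912) (nat_lit 0) (XT.nd (nat_lit 78) (nat_lit 456) (nat_lit 0) (XT.lf (nat_lit 0) (nat_lit 8605983742) (nat_lit 152) (nat_lit 11446442338) (nat_lit 228) (nat_lit 14708663) (nat_lit 147) (nat_lit 5) (nat_lit 149) (nat_lit 5) (nat_lit 150) (nat_lit 5) (nat_lit 451) (nat_lit 407) (nat_lit 342)) (XT.nd (nat_lit 78) (nat_lit 152) (nat_lit 0) (XT.lf (nat_lit 0) (nat_lit 9324306251) (nat_lit 304) (nat_lit 10511258241) (nat_lit 76) (nat_lit 849748996) (nat_lit 143) (nat_lit 5) (nat_lit 147) (nat_lit 5) (nat_lit 144) (nat_lit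 5) (nat_lit 452) (nat_lit 407) (nat_lit 341)) (XT.lf (nat_lit 0) (nat_lit 11832195228) (nat_lit 152) (nat_lit 7598711260) (nat_lit 228) (nat_lit 1894462969) (nat_lit 141) (nat_lit 5) (nat_lit 143) (nat_lit 5) (nat_lit 144) (nat_lit 5) (nat_lit 453) (nat_lit 407) (nat_lit 340)))) (XT.nd (nat_lit 156) (nat_lit 456) (nat_lit 0) (XT.nd (nat_lit 78) (nat_lit 152) (nat_lit 0) (XT.lf (nat_lit 0) (nat_lit 8135513771) (nat_lit 304) (nat_lit 8416908793) (nat_lit 76) (nat_lit 5435273293) (nat_lit 137) (nat_lit 5) (nat_lit 141) (nat_lit 5) (nat_lit 138) (nat_lit 5) (nat_lit 454) (nat_lit 407) (nat_lit 339)) (XT.lf (nat_lit 0) (nat_lit 15431624370) (nat_lit 152) (nat_lit 3474981501) (nat_lit 228) (nat_lit 3767606807) (nat_lit 135) (nat_lit 5) (nat_lit 137) (nat_lit 5) (nat_lit 138) (nat_lit 5) (nat_lit 455) (nat_lit 407) (nat_lit 338))) (XT.nd (nat_lit 78) (nat_lit 152) (nat_lit 0) (XT.lf (nat_lit 0) (nat_lit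 7000500754) (nat_lit 304) (nat_lit 6035513100) (nat_lit 76) (nat_lit 10347702780) (nat_lit 131) (nat_lit 5) (nat_lit 135) (nat_lit 5) (nat_lit 132) (nat_lit 5) (nat_lit 456) (nat_lit 407) (nat_lit 337)) (XT.lf (nat_lit 0) (nat_lit 18492678413) (nat_lit 228) (nat_lit 4706594896) (nat_lit 76) (nat_lit 920396484) (nat_lit 129) (nat_lit 5) (nat_lit 132) (nat_lit 5) (nat_lit 130) (nat_lit 5) (nat_lit 457) (nat_lit 407) (nat_lit 336))))))))
noncomputable def xc60 : XT := (XT.nd (nat_lit 2028) (nat_lit 1672) (nat_lit 0) (XT.nd (nat_lit 1014) (nat_lit 1824) (nat_lit 0) (XT.nd (nat_lit 468) (nat_lit 1140) (nat_lit 0) (XT.nd (nat_lit 234) (nat_lit 684) (nat_lit 0) (XT.nd (nat_lit 78) (nat_lit 380) (nat_lit 0) (XT.lf (nat_lit 0) (nat_lit 5919623177) (nat_lit 228) (nat_lit 3356004263) (nat_lit 76) (nat_lit 15604264606) (nat_lit 126) (nat_lit 5) (nat_lit 129) (nat_lit 5) (nat_lit 127) (nat_lit 5) (nat_lit 458)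 (nat_lit 407) (nat_lit 335)) (XT.nd (nat_lit 78) (nat_lit 228) (nat_lit 0) (XT.lf (nat_lit 0) (nat_lit 18219277478) (nat_lit 228) (nat_lit 1902205343) (nat_lit 76) (nat_lit 5546209253) (nat_lit 124) (nat_lit 5) (nat_lit 127) (nat_lit 5) (nat_lit 125) (nat_lit 5) (nat_lit 459) (nat_lit 407) (nat_lit 334)) (XT.lf (nat_lit 0) (nat_lit 4891566707) (nat_lit 228) (nat_lit 369170063) (nat_lit 76) (nat_lit 21222516297) (nat_lit 121) (nat_lit 5) (nat_lit 124) (nat_lit 5) (nat_lit 122) (nat_lit 5) (nat_lit 460) (nat_lit 407) (nat_lit 333)))) (XT.nd (nat_lit 78) (nat_lit 380) (nat_lit 0) (XT.lf (nat_lit 0) (nat_lit 1236031745) (nat_lit 152) (nat_lit 16830234211) (nat_lit 228) (nat_lit 9259961341) (nat_lit 117) (nat_lit 5) (nat_lit 119) (nat_lit 5) (nat_lit 120) (nat_lit 5) (nat_lit 461) (nat_lit 407) (nat_lit 332)) (XT.nd (nat_lit 78) (nat_lit 152) (nat_lit 0) (XT.lf (nat_lit 0) (nat_lit 2989926352) (nat_lit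 152) (nat_lit 951786660) (nat_lit 228) (nat_lit 24258813960) (nat_lit 114) (nat_lit 5) (nat_lit 116) (nat_lit 5) (nat_lit 117) (nat_lit 5) (nat_lit 462) (nat_lit 407) (nat_lit 331)) (XT.lf (nat_lit 0) (nat_lit 4732975976) (nat_lit 152) (nat_lit 13309905642) (nat_lit 228) (nat_lit 11059982341) (nat_lit 112) (nat_lit 5) (nat_lit 114) (nat_lit 5) (nat_lit 115) (nat_lit 5) (nat_lit 463) (nat_lit 407) (nat_lit 330))))) (XT.nd (nat_lit 234) (nat_lit 608) (nat_lit 0) (XT.nd (nat_lit 78) (nat_lit 304) (nat_lit 0) (XT.lf (nat_lit 0) (nat_lit 3077150431) (nat_lit 228) (nat_lit 23395888930) (nat_lit 76) (nat_lit 3566482502) (nat_lit 109) (nat_lit 5) (nat_lit 112) (nat_lit 5) (nat_lit 110) (nat_lit 5) (nat_lit 464) (nat_lit 407) (nat_lit 329)) (XT.nd (nat_lit 78) (nat_lit 152) (nat_lit 0) (XT.lf (nat_lit 0) (nat_lit 8551566385) (nat_lit 152) (nat_lit 9575815648) (nat_lit 228) (nat_lit 12879296482) (nat_lit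 107) (nat_lit 5) (nat_lit 109) (nat_lit 5) (nat_lit 110) (nat_lit 5) (nat_lit 465) (nat_lit 407) (nat_lit 328)) (XT.lf (nat_lit 0) (nat_lit 2262232442) (nat_lit 152) (nat_lit 21403145843) (nat_lit 76) (nat_lit 8344518935) (nat_lit 105) (nat_lit 5) (nat_lit 107) (nat_lit 5) (nat_lit 106) (nat_lit 5) (nat_lit 466) (nat_lit 407) (nat_lit 327)))) (XT.nd (nat_lit 156) (nat_lit 304) (nat_lit 0) (XT.nd (nat_lit 78) (nat_lit 152) (nat_lit 0) (XT.lf (nat_lit 0) (nat_lit 12687198971) (nat_lit 152) (nat_lit 5626342527) (nat_lit 228) (nat_lit 14733338146) (nat_lit 103) (nat_lit 5) (nat_lit 105) (nat_lit 5) (nat_lit 106) (nat_lit 5) (nat_lit 467) (nat_lit 407) (nat_lit 326)) (XT.lf (nat_lit 0) (nat_lit 1475125631) (nat_lit 152) (nat_lit 19240584271) (nat_lit 76) (nat_lit 13405797485) (nat_lit 101) (nat_lit 5) (nat_lit 103) (nat_lit 5) (nat_lit 102) (nat_lit 5) (nat_lit 468) (nat_lit 407) (nat_lit 325))) (XT.nd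 (nat_lit 78) (nat_lit 152) (nat_lit 0) (XT.lf (nat_lit 0) (nat_lit 17128381384) (nat_lit 152) (nat_lit 1462888755) (nat_lit 228) (nat_lit 16642161469) (nat_lit 99) (nat_lit 5) (nat_lit 101) (nat_lit 5) (nat_lit 102) (nat_lit 5) (nat_lit 469) (nat_lit 407) (nat_lit 324)) (XT.lf (nat_lit 0) (nat_lit 698498409) (nat_lit 152) (nat_lit 16934056300) (nat_lit 76) (nat_lit 18752168956) (nat_lit 97) (nat_lit 5) (nat_lit 99) (nat_lit 5) (nat_lit 98) (nat_lit 5) (nat_lit 470) (nat_lit 407) (nat_lit 323)))))) (XT.nd (nat_lit 468) (nat_lit 988) (nat_lit 0) (XT.nd (nat_lit 234) (nat_lit 380) (nat_lit 0) (XT.nd (nat_lit 78) (nat_lit 304) (nat_lit 0) (XT.lf (nat_lit 0) (nat_lit 18973698385) (nat_lit 228) (nat_lit 15750139163) (nat_lit 76) (nat_lit 2852449048) (nat_lit 95) (nat_lit 5) (nat_lit 98) (nat_lit 5) (nat_lit 96) (nat_lit 4) (nat_lit 471) (nat_lit 407) (nat_lit 322)) (XT.nd (nat_lit 78) (nat_lit 228) (nat_lit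 0) (XT.lf (nat_lit 0) (nat_lit 24289951621) (nat_lit 76) (nat_lit 14428377317) (nat_lit 152) (nat_lit 92428867) (nat_lit 94) (nat_lit 5) (nat_lit 95) (nat_lit 5) (nat_lit 96) (nat_lit 4) (nat_lit 472) (nat_lit 407) (nat_lit 321)) (XT.lf (nat_lit 0) (nat_lit 19428194051) (nat_lit 228) (nat_lit 13325609504) (nat_lit 76) (nat_lit 7333698720) (nat_lit 91) (nat_lit 5) (nat_lit 94) (nat_lit 5) (nat_lit 92) (nat_lit 4) (nat_lit 473) (nat_lit 407) (nat_lit 320)))) (XT.nd (nat_lit 78) (nat_lit 304) (nat_lit 0) (XT.lf (nat_lit 0) (nat_lit 29355142140) (nat_lit 76) (nat_lit 11116059370) (nat_lit 152) (nat_lit 940407276) (nat_lit 90) (nat_lit 5) (nat_lit 91) (nat_lit 5) (nat_lit 92) (nat_lit 4) (nat_lit 474) (nat_lit 407) (nat_lit 319)) (XT.nd (nat_lit 78) (nat_lit 76) (nat_lit 0) (XT.lf (nat_lit 0) (nat_lit 19912836509) (nat_lit 228) (nat_lit 10874232935) (nat_lit 76) (nat_lit 11993129548) (nat_lit 87) (nat_lit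 5) (nat_lit 90) (nat_lit 5) (nat_lit 88) (nat_lit 4) (nat_lit 475) (nat_lit 407) (nat_lit 318)) (XT.lf (nat_lit 0) (nat_lit 34601130114) (nat_lit 76) (nat_lit 7729219926) (nat_lit 152) (nat_lit 1870357835) (nat_lit 86) (nat_lit 5) (nat_lit 87) (nat_lit 5) (nat_lit 88) (nat_lit 4) (nat_lit 476) (nat_lit 407) (nat_lit 317))))) (XT.nd (nat_lit 234) (nat_lit 456) (nat_lit 0) (XT.nd (nat_lit 78) (nat_lit 304) (nat_lit 0) (XT.lf (nat_lit 0) (nat_lit 20391123858) (nat_lit 228) (nat_lit 8470229302) (nat_lit 76) (nat_lit 16806820467) (nat_lit 83) (nat_lit 5) (nat_lit 86) (nat_lit 5) (nat_lit 84) (nat_lit 4) (nat_lit 477) (nat_lit 407) (nat_lit 316)) (XT.nd (nat_lit 78) (nat_lit 228) (nat_lit 0) (XT.lf (nat_lit 0) (nat_lit 39957659418) (nat_lit 76) (nat_lit 4303530982) (nat_lit 152) (nat_lit 2931241106) (nat_lit 82) (nat_lit 5) (nat_lit 83) (nat_lit 5) (nat_lit 84) (nat_lit 4) (nat_lit 478) (nat_lit 407)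 (nat_lit 315)) (XT.lf (nat_lit 0) (nat_lit 20816102226) (nat_lit 228) (nat_lit 6208898526) (nat_lit 76) (nat_lit 21741433897) (nat_lit 79) (nat_lit 5) (nat_lit 82) (nat_lit 5) (nat_lit 80) (nat_lit 4) (nat_lit 479) (nat_lit 407) (nat_lit 314)))) (XT.nd (nat_lit 156) (nat_lit 228) (nat_lit 0) (XT.nd (nat_lit 78) (nat_lit 152) (nat_lit 0) (XT.lf (nat_lit 0) (nat_lit 45332457020) (nat_lit 76) (nat_lit 885772136) (nat_lit 152) (nat_lit 4184197109) (nat_lit 78) (nat_lit 5) (nat_lit 79) (nat_lit 5) (nat_lit 80) (nat_lit 4) (nat_lit 480) (nat_lit 407) (nat_lit 313)) (XT.lf (nat_lit 0) (nat_lit 21128217696) (nat_lit 152) (nat_lit 4211001197) (nat_lit 76) (nat_lit 26752110765) (nat_lit 76) (nat_lit 5) (nat_lit 78) (nat_lit 5) (nat_lit 77) (nat_lit 4) (nat_lit 481) (nat_lit 407) (nat_lit 312))) (XT.nd (nat_lit 78) (nat_lit 152) (nat_lit 0) (XT.lf (nat_lit 0) (nat_lit 48166462685) (nat_lit 152) (nat_lit 3264850562)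 (nat_lit 0) (nat_lit 2415719925) (nat_lit 75) (nat_lit 5) (nat_lit 77) (nat_lit 4) (nat_lit 75) (nat_lit 4) (nat_lit 482) (nat_lit 407) (nat_lit 311)) (XT.lf (nat_lit 0) (nat_lit 21252768852) (nat_lit 152) (nat_lit 2627947391) (nat_lit 76) (nat_lit 31779973103) (nat_lit 73) (nat_lit 5) (nat_lit 75) (nat_lit 5) (nat_lit 74) (nat_lit 4) (nat_lit 483) (nat_lit 407) (nat_lit 310))))))) (XT.nd (nat_lit 1014) (nat_lit 228) (nat_lit 0) (XT.nd (nat_lit 468) (nat_lit 760) (nat_lit 0) (XT.nd (nat_lit 234) (nat_lit 380) (nat_lit 0) (XT.nd (nat_lit 78) (nat_lit 228) (nat_lit 0) (XT.lf (nat_lit 0) (nat_lit 50014738911) (nat_lit 152) (nat_lit 1972603891) (nat_lit 0) (nat_lit 5558014943) (nat_lit 72) (nat_lit 5) (nat_lit 74) (nat_lit 4) (nat_lit 72) (nat_lit 4) (nat_lit 484) (nat_lit 407) (nat_lit 309)) (XT.nd (nat_lit 78) (nat_lit 76) (nat_lit 0) (XT.lf (nat_lit 0) (nat_lit 21096889786) (nat_lit 152) (nat_lit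 1647936475) (nat_lit 76) (nat_lit 36749164036) (nat_lit 70) (nat_lit 5) (nat_lit 72) (nat_lit 5) (nat_lit 71) (nat_lit 4) (nat_lit 485) (nat_lit 407) (nat_lit 308)) (XT.lf (nat_lit 0) (nat_lit 51659909779) (nat_lit 152) (nat_lit 1393997118) (nat_lit 0) (nat_lit 8464114444) (nat_lit 69) (nat_lit 5) (nat_lit 71) (nat_lit 4) (nat_lit 69) (nat_lit 4) (nat_lit 486) (nat_lit 407) (nat_lit 307)))) (XT.nd (nat_lit 78) (nat_lit 228) (nat_lit 0) (XT.lf (nat_lit 0) (nat_lit 20545981248) (nat_lit 152) (nat_lit 1503215260) (nat_lit 76) (nat_lit 41563342944) (nat_lit 67) (nat_lit 5) (nat_lit 69) (nat_lit 5) (nat_lit 68) (nat_lit 4) (nat_lit 487) (nat_lit 407) (nat_lit 306)) (XT.nd (nat_lit 78) (nat_lit 152) (nat_lit 0) (XT.lf (nat_lit 0) (nat_lit 52984195870) (nat_lit 152) (nat_lit 1786471951) (nat_lit 0) (nat_lit 11016653645) (nat_lit 66) (nat_lit 5) (nat_lit 68) (nat_lit 4) (nat_lit 66) (nat_lit 4) (nat_lit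 488) (nat_lit 407) (nat_lit 305)) (XT.lf (nat_lit 0) (nat_lit 19459493402) (nat_lit 152) (nat_lit 2478650686) (nat_lit 76) (nat_lit 46101539364) (nat_lit 64) (nat_lit 5) (nat_lit 66) (nat_lit 5) (nat_lit 65) (nat_lit 4) (nat_lit 489) (nat_lit 407) (nat_lit 304))))) (XT.nd (nat_lit 234) (nat_lit 456) (nat_lit 0) (XT.nd (nat_lit 78) (nat_lit 228) (nat_lit 0) (XT.lf (nat_lit 0) (nat_lit 53842131784) (nat_lit 152) (nat_lit 3464943354) (nat_lit 0) (nat_lit 13070635271) (nat_lit 63) (nat_lit 5) (nat_lit 65) (nat_lit 4) (nat_lit 63) (nat_lit 4) (nat_lit 490) (nat_lit 407) (nat_lit 303)) (XT.nd (nat_lit 78) (nat_lit 76) (nat_lit 0) (XT.lf (nat_lit 0) (nat_lit 17665947032) (nat_lit 152) (nat_lit 4921846981) (nat_lit 76) (nat_lit 50213252673) (nat_lit 61) (nat_lit 5) (nat_lit 63) (nat_lit 5) (nat_lit 62) (nat_lit 4) (nat_lit 491) (nat_lit 407) (nat_lit 302)) (XT.lf (nat_lit 0) (nat_lit 54055203871) (nat_lit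 152) (nat_lit 6812787443) (nat_lit 0) (nat_lit 14448057893) (nat_lit 60) (nat_lit 5) (nat_lit 62) (nat_lit 4) (nat_lit 60) (nat_lit 4) (nat_lit 492) (nat_lit 407) (nat_lit 301)))) (XT.nd (nat_lit 156) (nat_lit 228) (nat_lit 0) (XT.nd (nat_lit 78) (nat_lit 76) (nat_lit 0) (XT.lf (nat_lit 0) (nat_lit 14957060538) (nat_lit 152) (nat_lit 9255076746) (nat_lit 76) (nat_lit 53712665103) (nat_lit 58) (nat_lit 5) (nat_lit 60) (nat_lit 5) (nat_lit 59) (nat_lit 4) (nat_lit 493) (nat_lit 407) (nat_lit 300)) (XT.lf (nat_lit 0) (nat_lit 53405522346) (nat_lit 152) (nat_lit 12294794935) (nat_lit 0) (nat_lit 14931579876) (nat_lit 57) (nat_lit 5) (nat_lit 59) (nat_lit 4) (nat_lit 57) (nat_lit 4) (nat_lit 494) (nat_lit 407) (nat_lit 299))) (XT.nd (nat_lit 78) (nat_lit 76) (nat_lit 0) (XT.lf (nat_lit 0) (nat_lit 11080827290) (nat_lit 152) (nat_lit 15989341670) (nat_lit 76) (nat_lit 56371812961) (nat_lit 55) (nat_lit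 5) (nat_lit 57) (nat_lit 5) (nat_lit 56) (nat_lit 4) (nat_lit 495) (nat_lit 407) (nat_lit 298)) (XT.lf (nat_lit 0) (nat_lit 51628359748) (nat_lit 152) (nat_lit 20472431873) (nat_lit 0) (nat_lit 14257050711) (nat_lit 54) (nat_lit 5) (nat_lit 56) (nat_lit 4) (nat_lit 54) (nat_lit 4) (nat_lit 496) (nat_lit 407) (nat_lit 297)))))) (XT.nd (nat_lit 55926) (nat_lit 0) (nat_lit 22876) (XT.nd (nat_lit 55614) (nat_lit 0) (nat_lit 26600) (XT.nd (nat_lit 78) (nat_lit 76) (nat_lit 0) (XT.lf (nat_lit 0) (nat_lit 5733361207) (nat_lit 152) (nat_lit 25740932746) (nat_lit 76) (nat_lit 57912534219) (nat_lit 52) (nat_lit 5) (nat_lit 54) (nat_lit 5) (nat_lit 53) (nat_lit 4) (nat_lit 497) (nat_lit 407) (nat_lit 296)) (XT.nd (nat_lit 55458) (nat_lit 0) (nat_lit 27360) (XT.lf (nat_lit 0) (nat_lit 48403358849) (nat_lit 152) (nat_lit 32021807948) (nat_lit 0) (nat_lit 12104712748) (nat_lit 51) (nat_lit 5) (nat_lit 53) (nat_lit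 4) (nat_lit 51) (nat_lit 4) (nat_lit 498) (nat_lit 407) (nat_lit 295)) (XT.lf (nat_lit 0) (nat_lit 1844260402) (nat_lit 836) (nat_lit 872719426) (nat_lit 836) (nat_lit 872719426) (nat_lit 411) (nat_lit 3) (nat_lit 422) (nat_lit 3) (nat_lit 422) (nat_lit 5) (nat_lit 408) (nat_lit 408) (nat_lit 384)))) (XT.nd (nat_lit 156) (nat_lit 0) (nat_lit 0) (XT.nd (nat_lit 78) (nat_lit 760) (nat_lit 0) (XT.lf (nat_lit 76) (nat_lit 4282863805) (nat_lit 0) (nat_lit 2265987070) (nat_lit 836) (nat_lit 726824824) (nat_lit 412) (nat_lit 5) (nat_lit 411) (nat_lit 3) (nat_lit 422) (nat_lit 5) (nat_lit 409) (nat_lit 408) (nat_lit 383)) (XT.lf (nat_lit 0) (nat_lit 2016558596) (nat_lit 836) (nat_lit 4172335611) (nat_lit 912) (nat_lit 1190748051) (nat_lit 401) (nat_lit 5) (nat_lit 412) (nat_lit 5) (nat_lit 413) (nat_lit 5) (nat_lit 410) (nat_lit 408) (nat_lit 382))) (XT.nd (nat_lit 78) (nat_lit 0) (nat_lit 76) (XT.lf (nat_lit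 76) (nat_lit 2206290129) (nat_lit 0) (nat_lit 2582224109) (nat_lit 912) (nat_lit 2702893693) (nat_lit 402) (nat_lit 5) (nat_lit 401) (nat_lit 5) (nat_lit 413) (nat_lit 5) (nat_lit 411) (nat_lit 408) (nat_lit 381)) (XT.lf (nat_lit 76) (nat_lit 1295823228) (nat_lit 0) (nat_lit 6309521333) (nat_lit 912) (nat_lit 6238279) (nat_lit 403) (nat_lit 5) (nat_lit 402) (nat_lit 5) (nat_lit 414) (nat_lit 5) (nat_lit 412) (nat_lit 408) (nat_lit 380))))) (XT.nd (nat_lit 234) (nat_lit 1976) (nat_lit 0) (XT.nd (nat_lit 78) (nat_lit 912) (nat_lit 0) (XT.lf (nat_lit 76) (nat_lit 433585118) (nat_lit 0) (nat_lit 2265765487) (nat_lit 988) (nat_lit 5039732765) (nat_lit 391) (nat_lit 5) (nat_lit 390) (nat_lit 5) (nat_lit 403) (nat_lit 5) (nat_lit 413) (nat_lit 408) (nat_lit 379)) (XT.nd (nat_lit 78) (nat_lit 988) (nat_lit 0) (XT.lf (nat_lit 0) (nat_lit 5475813117) (nat_lit 912) (nat_lit 341689930) (nat_lit 988) (nat_lit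 2057390486) (nat_lit 391) (nat_lit 5) (nat_lit 403) (nat_lit 5) (nat_lit 404) (nat_lit 5) (nat_lit 414) (nat_lit 408) (nat_lit 378)) (XT.lf (nat_lit 0) (nat_lit 313931788) (nat_lit 988) (nat_lit 1036784398) (nat_lit 1064) (nat_lit 6668249289) (nat_lit 378) (nat_lit 5) (nat_lit 391) (nat_lit 5) (nat_lit 392) (nat_lit 5) (nat_lit 415) (nat_lit 408) (nat_lit 377)))) (XT.nd (nat_lit 156) (nat_lit 2052) (nat_lit 0) (XT.nd (nat_lit 78) (nat_lit 0) (nat_lit 76) (XT.lf (nat_lit 0) (nat_lit 3075582310) (nat_lit 988) (nat_lit 1691240017) (nat_lit 1064) (nat_lit 3403835138) (nat_lit 379) (nat_lit 5) (nat_lit 392) (nat_lit 5) (nat_lit 393) (nat_lit 5) (nat_lit 416) (nat_lit 408) (nat_lit 376)) (XT.lf (nat_lit 0) (nat_lit 5928000481) (nat_lit 988) (nat_lit 2264414991) (nat_lit 76) (nat_lit 138944867) (nat_lit 380) (nat_lit 5) (nat_lit 393) (nat_lit 5) (nat_lit 381) (nat_lit 5) (nat_lit 417) (nat_lit 408) (nat_lit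 375))) (XT.nd (nat_lit 78) (nat_lit 1064) (nat_lit 0) (XT.lf (nat_lit 0) (nat_lit 409407065) (nat_lit 1064) (nat_lit 2793331397) (nat_lit 76) (nat_lit 5297402683) (nat_lit 366) (nat_lit 5) (nat_lit 380) (nat_lit 5) (nat_lit 367) (nat_lit 5) (nat_lit 418) (nat_lit 408) (nat_lit 374)) (XT.lf (nat_lit 0) (nat_lit 3288091008) (nat_lit 1140) (nat_lit 3270665940) (nat_lit 76) (nat_lit 2118646680) (nat_lit 352) (nat_lit 5) (nat_lit 367) (nat_lit 5) (nat_lit 353) (nat_lit 5) (nat_lit 419) (nat_lit 408) (nat_lit 373))))))))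
noncomputable def xc61 : XT := (XT.nd (nat_lit 2028) (nat_lit 5624) (nat_lit 0) (XT.nd (nat_lit 1014) (nat_lit 5168) (nat_lit 0) (XT.nd (nat_lit 468) (nat_lit 3648) (nat_lit 0) (XT.nd (nat_lit 234) (nat_lit 1824) (nat_lit 0) (XT.nd (nat_lit 78) (nat_lit 2128) (nat_lit 0) (XT.lf (nat_lit 0) (nat_lit 5179599213) (nat_lit 1140) (nat_lit 1125352157) (nat_lit 1216) (nat_lit 2558756334) (nat_lit 337) (nat_lit 5) (nat_lit 352) (nat_lit 5) (nat_lit 353) (nat_lit 5) (nat_lit 420) (nat_lit 408) (nat_lit 372)) (XT.nd (nat_lit 78) (nat_lit 836) (nat_lit 0) (XT.lf (nat_lit 0) (nat_lit 419458669) (nat_lit 1292) (nat_lit 4049111720) (nat_lit 76) (nat_lit 4590216812) (nat_lit 320) (nat_lit 5) (nat_lit 337) (nat_lit 5) (nat_lit 321) (nat_lit 5) (nat_lit 421) (nat_lit 408) (nat_lit 371)) (XT.lf (nat_lit 0) (nat_lit 3495889989) (nat_lit 912) (nat_lit 4367262457) (nat_lit 76) (nat_lit 1399646513) (nat_lit 309) (nat_lit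 5) (nat_lit 321) (nat_lit 5) (nat_lit 310) (nat_lit 5) (nat_lit 422) (nat_lit 408) (nat_lit 370)))) (XT.nd (nat_lit 78) (nat_lit 1216) (nat_lit 0) (XT.lf (nat_lit 0) (nat_lit 4843745215) (nat_lit 608) (nat_lit 1911611240) (nat_lit 684) (nat_lit 2720783251) (nat_lit 301) (nat_lit 5) (nat_lit 309) (nat_lit 5) (nat_lit 310) (nat_lit 5) (nat_lit 423) (nat_lit 408) (nat_lit 369)) (XT.nd (nat_lit 78) (nat_lit 532) (nat_lit 0) (XT.lf (nat_lit 0) (nat_lit 501959965) (nat_lit 684) (nat_lit 4845291529) (nat_lit 76) (nat_lit 4351753747) (nat_lit 292) (nat_lit 5) (nat_lit 301) (nat_lit 5) (nat_lit 293) (nat_lit 5) (nat_lit 424) (nat_lit 408) (nat_lit 368)) (XT.lf (nat_lit 0) (nat_lit 3857676760) (nat_lit 608) (nat_lit 5014479185) (nat_lit 76) (nat_lit 1059210997) (nat_lit 285) (nat_lit 5) (nat_lit 293) (nat_lit 5) (nat_lit 286) (nat_lit 5) (nat_lit 425) (nat_lit 408) (nat_lit 367))))) (XT.nd (nat_lit 234) (nat_lit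 1900) (nat_lit 0) (XT.nd (nat_lit 78) (nat_lit 1140) (nat_lit 0) (XT.lf (nat_lit 0) (nat_lit 5037831055) (nat_lit 608) (nat_lit 2402168084) (nat_lit 684) (nat_lit 2733587032) (nat_lit 277) (nat_lit 5) (nat_lit 285) (nat_lit 5) (nat_lit 286) (nat_lit 5) (nat_lit 426) (nat_lit 408) (nat_lit 366)) (XT.nd (nat_lit 78) (nat_lit 532) (nat_lit 0) (XT.lf (nat_lit 0) (nat_lit 813092197) (nat_lit 608) (nat_lit 5204105717) (nat_lit 76) (nat_lit 4408859155) (nat_lit 269) (nat_lit 5) (nat_lit 277) (nat_lit 5) (nat_lit 270) (nat_lit 5) (nat_lit 427) (nat_lit 408) (nat_lit 365)) (XT.lf (nat_lit 0) (nat_lit 4532443395) (nat_lit 608) (nat_lit 5227705063) (nat_lit 76) (nat_lit 928638469) (nat_lit 262) (nat_lit 5) (nat_lit 270) (nat_lit 5) (nat_lit 263) (nat_lit 5) (nat_lit 428) (nat_lit 408) (nat_lit 364)))) (XT.nd (nat_lit 156) (nat_lit 912) (nat_lit 0) (XT.nd (nat_lit 78) (nat_lit 532) (nat_lit 0) (XT.lf (nat_lit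 0) (nat_lit 5757501956) (nat_lit 456) (nat_lit 2765611153) (nat_lit 532) (nat_lit 2438983022) (nat_lit 256) (nat_lit 5) (nat_lit 262) (nat_lit 5) (nat_lit 263) (nat_lit 5) (nat_lit 429) (nat_lit 408) (nat_lit 363)) (XT.lf (nat_lit 0) (nat_lit 1511858120) (nat_lit 532) (nat_lit 5131095243) (nat_lit 76) (nat_lit 4603412746) (nat_lit 249) (nat_lit 5) (nat_lit 256) (nat_lit 5) (nat_lit 250) (nat_lit 5) (nat_lit 430) (nat_lit 408) (nat_lit 362))) (XT.nd (nat_lit 78) (nat_lit 456) (nat_lit 0) (XT.lf (nat_lit 0) (nat_lit 5683893289) (nat_lit 532) (nat_lit 5006291538) (nat_lit 76) (nat_lit 851720470) (nat_lit 243) (nat_lit 5) (nat_lit 250) (nat_lit 5) (nat_lit 244) (nat_lit 5) (nat_lit 431) (nat_lit 408) (nat_lit 361)) (XT.lf (nat_lit 0) (nat_lit 7015137408) (nat_lit 456) (nat_lit 3160283443) (nat_lit 532) (nat_lit 1673476714) (nat_lit 237) (nat_lit 5) (nat_lit 243) (nat_lit 5) (nat_lit 244) (nat_lit 5)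 (nat_lit 432) (nat_lit 408) (nat_lit 360)))))) (XT.nd (nat_lit 468) (nat_lit 2584) (nat_lit 0) (XT.nd (nat_lit 234) (nat_lit 1292) (nat_lit 0) (XT.nd (nat_lit 78) (nat_lit 836) (nat_lit 0) (XT.lf (nat_lit 0) (nat_lit 2764311288) (nat_lit 456) (nat_lit 4616847958) (nat_lit 76) (nat_lit 4786385096) (nat_lit 231) (nat_lit 5) (nat_lit 237) (nat_lit 5) (nat_lit 232) (nat_lit 5) (nat_lit 433) (nat_lit 408) (nat_lit 359)) (XT.nd (nat_lit 78) (nat_lit 380) (nat_lit 0) (XT.lf (nat_lit 0) (nat_lit 7484622353) (nat_lit 532) (nat_lit 4335121366) (nat_lit 76) (nat_lit 679027853) (nat_lit 225) (nat_lit 5) (nat_lit 232) (nat_lit 5) (nat_lit 226) (nat_lit 5) (nat_lit 434) (nat_lit 408) (nat_lit 358)) (XT.lf (nat_lit 0) (nat_lit 8838430179) (nat_lit 380) (nat_lit 3739908812) (nat_lit 456) (nat_lit 264101853) (nat_lit 220) (nat_lit 5) (nat_lit 225) (nat_lit 5) (nat_lit 226) (nat_lit 5) (nat_lit 435) (nat_lit 408)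 (nat_lit 357)))) (XT.nd (nat_lit 78) (nat_lit 836) (nat_lit 0) (XT.lf (nat_lit 0) (nat_lit 4747614153) (nat_lit 456) (nat_lit 3638355611) (nat_lit 76) (nat_lit 4812473742) (nat_lit 214) (nat_lit 5) (nat_lit 220) (nat_lit 5) (nat_lit 215) (nat_lit 5) (nat_lit 436) (nat_lit 408) (nat_lit 356)) (XT.nd (nat_lit 78) (nat_lit 456) (nat_lit 0) (XT.lf (nat_lit 0) (nat_lit 10120171394) (nat_lit 456) (nat_lit 3185830785) (nat_lit 76) (nat_lit 262696248) (nat_lit 209) (nat_lit 5) (nat_lit 215) (nat_lit 5) (nat_lit 210) (nat_lit 5) (nat_lit 437) (nat_lit 408) (nat_lit 355)) (XT.lf (nat_lit 0) (nat_lit 1937073552) (nat_lit 456) (nat_lit 2702152649) (nat_lit 76) (nat_lit 9312670122) (nat_lit 203) (nat_lit 5) (nat_lit 209) (nat_lit 5) (nat_lit 204) (nat_lit 5) (nat_lit 438) (nat_lit 408) (nat_lit 354))))) (XT.nd (nat_lit 234) (nat_lit 1596) (nat_lit 0) (XT.nd (nat_lit 78) (nat_lit 684) (nat_lit 0) (XT.lf (nat_lit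 0) (nat_lit 7654020917) (nat_lit 380) (nat_lit 2160089989) (nat_lit 76) (nat_lit 4535119110) (nat_lit 199) (nat_lit 5) (nat_lit 204) (nat_lit 5) (nat_lit 200) (nat_lit 5) (nat_lit 439) (nat_lit 408) (nat_lit 353)) (XT.nd (nat_lit 78) (nat_lit 380) (nat_lit 0) (XT.lf (nat_lit 0) (nat_lit 13239021732) (nat_lit 304) (nat_lit 559395918) (nat_lit 380) (nat_lit 963766442) (nat_lit 195) (nat_lit 5) (nat_lit 199) (nat_lit 5) (nat_lit 200) (nat_lit 5) (nat_lit 440) (nat_lit 408) (nat_lit 352)) (XT.lf (nat_lit 0) (nat_lit 5147280985) (nat_lit 380) (nat_lit 877485130) (nat_lit 76) (nat_lit 9163814069) (nat_lit 190) (nat_lit 5) (nat_lit 195) (nat_lit 5) (nat_lit 191) (nat_lit 5) (nat_lit 441) (nat_lit 408) (nat_lit 351)))) (XT.nd (nat_lit 156) (nat_lit 608) (nat_lit 0) (XT.nd (nat_lit 78) (nat_lit 684) (nat_lit 0) (XT.lf (nat_lit 0) (nat_lit 11694866401) (nat_lit 380) (nat_lit 134897021) (nat_lit 76) (nat_lit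 3801720405) (nat_lit 186) (nat_lit 5) (nat_lit 191) (nat_lit 5) (nat_lit 187) (nat_lit 5) (nat_lit 442) (nat_lit 408) (nat_lit 350)) (XT.lf (nat_lit 0) (nat_lit 690287271) (nat_lit 304) (nat_lit 1918795004) (nat_lit 380) (nat_lit 13481217160) (nat_lit 177) (nat_lit 5) (nat_lit 181) (nat_lit 5) (nat_lit 182) (nat_lit 5) (nat_lit 443) (nat_lit 408) (nat_lit 349))) (XT.nd (nat_lit 78) (nat_lit 380) (nat_lit 0) (XT.lf (nat_lit 0) (nat_lit 1556109191) (nat_lit 228) (nat_lit 8051734651) (nat_lit 304) (nat_lit 6956828286) (nat_lit 174) (nat_lit 5) (nat_lit 177) (nat_lit 5) (nat_lit 178) (nat_lit 5) (nat_lit 444) (nat_lit 408) (nat_lit 348)) (XT.lf (nat_lit 0) (nat_lit 70108326) (nat_lit 380) (nat_lit 14513425606) (nat_lit 76) (nat_lit 2474033749) (nat_lit 169) (nat_lit 5) (nat_lit 174) (nat_lit 5) (nat_lit 170) (nat_lit 5) (nat_lit 445) (nat_lit 408) (nat_lit 347))))))) (XT.nd (nat_lit 1014) (nat_lit 2584)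 (nat_lit 0) (XT.nd (nat_lit 468) (nat_lit 1520) (nat_lit 0) (XT.nd (nat_lit 234) (nat_lit 760) (nat_lit 0) (XT.nd (nat_lit 78) (nat_lit 532) (nat_lit 0) (XT.lf (nat_lit 0) (nat_lit 3550120317) (nat_lit 228) (nat_lit 3974489494) (nat_lit 304) (nat_lit 10041830138) (nat_lit 166) (nat_lit 5) (nat_lit 169) (nat_lit 5) (nat_lit 170) (nat_lit 5) (nat_lit 446) (nat_lit 408) (nat_lit 346)) (XT.nd (nat_lit 78) (nat_lit 304) (nat_lit 0) (XT.lf (nat_lit 0) (nat_lit 4661853875) (nat_lit 228) (nat_lit 10903319396) (nat_lit 304) (nat_lit 2529183595) (nat_lit 163) (nat_lit 5) (nat_lit 166) (nat_lit 5) (nat_lit 167) (nat_lit 5) (nat_lit 447) (nat_lit 408) (nat_lit 345)) (XT.lf (nat_lit 0) (nat_lit 5450646889) (nat_lit 304) (nat_lit 12782772257) (nat_lit 76) (nat_lit 407822287) (nat_lit 159) (nat_lit 5) (nat_lit 163) (nat_lit 5) (nat_lit 160) (nat_lit 5) (nat_lit 448) (nat_lit 408) (nat_lit 344)))) (XT.nd (nat_lit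 78) (nat_lit 532) (nat_lit 0) (XT.lf (nat_lit 0) (nat_lit 7104984480) (nat_lit 228) (nat_lit 6941931442) (nat_lit 304) (nat_lit 5159711438) (nat_lit 156) (nat_lit 5) (nat_lit 159) (nat_lit 5) (nat_lit 160) (nat_lit 5) (nat_lit 449) (nat_lit 408) (nat_lit 343)) (XT.nd (nat_lit 78) (nat_lit 228) (nat_lit 0) (XT.lf (nat_lit 0) (nat_lit 3425327873) (nat_lit 304) (nat_lit 11331172077) (nat_lit 76) (nat_lit 5036345549) (nat_lit 152) (nat_lit 5) (nat_lit 156) (nat_lit 5) (nat_lit 153) (nat_lit 5) (nat_lit 450) (nat_lit 408) (nat_lit 342)) (XT.lf (nat_lit 0) (nat_lit 9893518745) (nat_lit 228) (nat_lit 2684980977) (nat_lit 304) (nat_lit 7820975382) (nat_lit 149) (nat_lit 5) (nat_lit 152) (nat_lit 5) (nat_lit 153) (nat_lit 5) (nat_lit 451) (nat_lit 408) (nat_lit 341))))) (XT.nd (nat_lit 234) (nat_lit 912) (nat_lit 0) (XT.nd (nat_lit 78) (nat_lit 380) (nat_lit 0) (XT.lf (nat_lit 0) (nat_lit 1411695991) (nat_lit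 228) (nat_lit 9609116003) (nat_lit 76) (nat_lit 10006853571) (nat_lit 146) (nat_lit 5) (nat_lit 149) (nat_lit 5) (nat_lit 147) (nat_lit 5) (nat_lit 452) (nat_lit 408) (nat_lit 340)) (XT.nd (nat_lit 78) (nat_lit 152) (nat_lit 0) (XT.lf (nat_lit 0) (nat_lit 11181419149) (nat_lit 304) (nat_lit 8649279213) (nat_lit 76) (nat_lit 1847129865) (nat_lit 143) (nat_lit 5) (nat_lit 147) (nat_lit 5) (nat_lit 144) (nat_lit 5) (nat_lit 453) (nat_lit 408) (nat_lit 339)) (XT.lf (nat_lit 0) (nat_lit 14742908519) (nat_lit 152) (nat_lit 7006500303) (nat_lit 228) (nat_lit 601797534) (nat_lit 141) (nat_lit 5) (nat_lit 143) (nat_lit 5) (nat_lit 144) (nat_lit 5) (nat_lit 454) (nat_lit 408) (nat_lit 338)))) (XT.nd (nat_lit 156) (nat_lit 456) (nat_lit 0) (XT.nd (nat_lit 78) (nat_lit 152) (nat_lit 0) (XT.lf (nat_lit 0) (nat_lit 9868977304) (nat_lit 304) (nat_lit 6528506895) (nat_lit 76) (nat_lit 6649774674) (nat_lit 137)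 (nat_lit 5) (nat_lit 141) (nat_lit 5) (nat_lit 138) (nat_lit 5) (nat_lit 455) (nat_lit 408) (nat_lit 337)) (XT.lf (nat_lit 0) (nat_lit 18446258815) (nat_lit 152) (nat_lit 2690751182) (nat_lit 228) (nat_lit 2632340965) (nat_lit 135) (nat_lit 5) (nat_lit 137) (nat_lit 5) (nat_lit 138) (nat_lit 5) (nat_lit 456) (nat_lit 408) (nat_lit 336))) (XT.nd (nat_lit 78) (nat_lit 152) (nat_lit 0) (XT.lf (nat_lit 0) (nat_lit 8616826852) (nat_lit 304) (nat_lit 4104789745) (nat_lit 76) (nat_lit 11793278219) (nat_lit 131) (nat_lit 5) (nat_lit 135) (nat_lit 5) (nat_lit 132) (nat_lit 5) (nat_lit 457) (nat_lit 408) (nat_lit 335)) (XT.lf (nat_lit 0) (nat_lit 20653210140) (nat_lit 228) (nat_lit 2745648456) (nat_lit 76) (nat_lit 1889700020) (nat_lit 129) (nat_lit 5) (nat_lit 132) (nat_lit 5) (nat_lit 130) (nat_lit 5) (nat_lit 458) (nat_lit 408) (nat_lit 334)))))) (XT.nd (nat_lit 546) (nat_lit 1064) (nat_lit 0) (XT.nd (nat_lit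 234) (nat_lit 760) (nat_lit 0) (XT.nd (nat_lit 78) (nat_lit 532) (nat_lit 0) (XT.lf (nat_lit 0) (nat_lit 7425030158) (nat_lit 228) (nat_lit 1366397767) (nat_lit 76) (nat_lit 17296159554) (nat_lit 126) (nat_lit 5) (nat_lit 129) (nat_lit 5) (nat_lit 127) (nat_lit 5) (nat_lit 459) (nat_lit 408) (nat_lit 333)) (XT.nd (nat_lit 78) (nat_lit 228) (nat_lit 0) (XT.lf (nat_lit 0) (nat_lit 127025054) (nat_lit 152) (nat_lit 20185293394) (nat_lit 228) (nat_lit 6603280303) (nat_lit 122) (nat_lit 5) (nat_lit 124) (nat_lit 5) (nat_lit 125) (nat_lit 5) (nat_lit 460) (nat_lit 408) (nat_lit 332)) (XT.lf (nat_lit 0) (nat_lit 1730189640) (nat_lit 152) (nat_lit 4578369464) (nat_lit 228) (nat_lit 21463669757) (nat_lit 119) (nat_lit 5) (nat_lit 121) (nat_lit 5) (nat_lit 122) (nat_lit 5) (nat_lit 461) (nat_lit 408) (nat_lit 331)))) (XT.nd (nat_lit 156) (nat_lit 380) (nat_lit 0) (XT.nd (nat_lit 78) (nat_lit 228) (nat_lit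 0) (XT.lf (nat_lit 0) (nat_lit 3387863263) (nat_lit 152) (nat_lit 16730701658) (nat_lit 228) (nat_lit 8539490421) (nat_lit 117) (nat_lit 5) (nat_lit 119) (nat_lit 5) (nat_lit 120) (nat_lit 5) (nat_lit 462) (nat_lit 408) (nat_lit 330)) (XT.lf (nat_lit 0) (nat_lit 5191987044) (nat_lit 152) (nat_lit 71661404) (nat_lit 228) (nat_lit 24313146666) (nat_lit 114) (nat_lit 5) (nat_lit 116) (nat_lit 5) (nat_lit 117) (nat_lit 5) (nat_lit 463) (nat_lit 408) (nat_lit 329))) (XT.nd (nat_lit 78) (nat_lit 228) (nat_lit 0) (XT.lf (nat_lit 0) (nat_lit 6987481204) (nat_lit 152) (nat_lit 13056719979) (nat_lit 228) (nat_lit 10480818600) (nat_lit 112) (nat_lit 5) (nat_lit 114) (nat_lit 5) (nat_lit 115) (nat_lit 5) (nat_lit 464) (nat_lit 408) (nat_lit 328)) (XT.lf (nat_lit 0) (nat_lit 4315966610) (nat_lit 228) (nat_lit 22560600386) (nat_lit 76) (nat_lit 4632371005) (nat_lit 109) (nat_lit 5) (nat_lit 112) (nat_lit 5) (nat_lit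 110) (nat_lit 5) (nat_lit 465) (nat_lit 408) (nat_lit 327))))) (XT.nd (nat_lit 234) (nat_lit 608) (nat_lit 0) (XT.nd (nat_lit 78) (nat_lit 304) (nat_lit 0) (XT.lf (nat_lit 0) (nat_lit 10926752394) (nat_lit 152) (nat_lit 9159014297) (nat_lit 228) (nat_lit 12439674620) (nat_lit 107) (nat_lit 5) (nat_lit 109) (nat_lit 5) (nat_lit 110) (nat_lit 5) (nat_lit 466) (nat_lit 408) (nat_lit 326)) (XT.nd (nat_lit 78) (nat_lit 152) (nat_lit 0) (XT.lf (nat_lit 0) (nat_lit 3414055317) (nat_lit 152) (nat_lit 20538537035) (nat_lit 76) (nat_lit 9626628532) (nat_lit 105) (nat_lit 5) (nat_lit 107) (nat_lit 5) (nat_lit 106) (nat_lit 5) (nat_lit 467) (nat_lit 408) (nat_lit 325)) (XT.lf (nat_lit 0) (nat_lit 15200865338) (nat_lit 152) (nat_lit 5035667090) (nat_lit 228) (nat_lit 14432462392) (nat_lit 103) (nat_lit 5) (nat_lit 105) (nat_lit 5) (nat_lit 106) (nat_lit 5) (nat_lit 468) (nat_lit 408) (nat_lit 324)))) (XT.nd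 (nat_lit 156) (nat_lit 304) (nat_lit 0) (XT.nd (nat_lit 78) (nat_lit 152) (nat_lit 0) (XT.lf (nat_lit 0) (nat_lit 2543724657) (nat_lit 152) (nat_lit 18336148555) (nat_lit 76) (nat_lit 14917855580) (nat_lit 101) (nat_lit 5) (nat_lit 103) (nat_lit 5) (nat_lit 102) (nat_lit 5) (nat_lit 469) (nat_lit 408) (nat_lit 323)) (XT.lf (nat_lit 0) (nat_lit 19797763540) (nat_lit 152) (nat_lit 687966696) (nat_lit 228) (nat_lit 16480417785) (nat_lit 99) (nat_lit 5) (nat_lit 101) (nat_lit 5) (nat_lit 102) (nat_lit 5) (nat_lit 470) (nat_lit 408) (nat_lit 322))) (XT.nd (nat_lit 78) (nat_lit 152) (nat_lit 0) (XT.lf (nat_lit 0) (nat_lit 1686611023) (nat_lit 152) (nat_lit 15980579584) (nat_lit 76) (nat_lit 20508165966) (nat_lit 97) (nat_lit 5) (nat_lit 99) (nat_lit 5) (nat_lit 98) (nat_lit 5) (nat_lit 471) (nat_lit 408) (nat_lit 321)) (XT.lf (nat_lit 0) (nat_lit 20854910025) (nat_lit 228) (nat_lit 14769243425) (nat_lit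 76) (nat_lit 3802964393) (nat_lit 95) (nat_lit 5) (nat_lit 98) (nat_lit 5) (nat_lit 96) (nat_lit 4) (nat_lit 472) (nat_lit 408) (nat_lit 320))))))))
noncomputable def xc62 : XT := (XT.nd (nat_lit 57486) (nat_lit 0) (nat_lit 13148) (XT.nd (nat_lit 1014) (nat_lit 1520) (nat_lit 0) (XT.nd (nat_lit 468) (nat_lit 836) (nat_lit 0) (XT.nd (nat_lit 234) (nat_lit 532) (nat_lit 0) (XT.nd (nat_lit 78) (nat_lit 228) (nat_lit 0) (XT.lf (nat_lit 0) (nat_lit 818439429) (nat_lit 152) (nat_lit 13510012715) (nat_lit 76) (nat_lit 26395456926) (nat_lit 93) (nat_lit 5) (nat_lit 95) (nat_lit 5) (nat_lit 94) (nat_lit 5) (nat_lit 473) (nat_lit 408) (nat_lit 319)) (XT.nd (nat_lit 78) (nat_lit 76) (nat_lit 0) (XT.lf (nat_lit 0) (nat_lit 21293591920) (nat_lit 228) (nat_lit 12286841528) (nat_lit 76) (nat_lit 8484617884) (nat_lit 91) (nat_lit 5) (nat_lit 94) (nat_lit 5) (nat_lit 92) (nat_lit 4) (nat_lit 474) (nat_lit 408) (nat_lit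 318)) (XT.lf (nat_lit 0) (nat_lit 32479072826) (nat_lit 76) (nat_lit 10883026214) (nat_lit 152) (nat_lit 94063955) (nat_lit 90) (nat_lit 5) (nat_lit 91) (nat_lit 5) (nat_lit 92) (nat_lit 4) (nat_lit 475) (nat_lit 408) (nat_lit 317)))) (XT.nd (nat_lit 78) (nat_lit 304) (nat_lit 0) (XT.lf (nat_lit 0) (nat_lit 21765782298) (nat_lit 228) (nat_lit 9774262432) (nat_lit 76) (nat_lit 13353439447) (nat_lit 87) (nat_lit 5) (nat_lit 90) (nat_lit 5) (nat_lit 88) (nat_lit 4) (nat_lit 476) (nat_lit 408) (nat_lit 316)) (XT.nd (nat_lit 78) (nat_lit 228) (nat_lit 0) (XT.lf (nat_lit 0) (nat_lit 37927752951) (nat_lit 76) (nat_lit 7350941728) (nat_lit 152) (nat_lit 1107088398) (nat_lit 86) (nat_lit 5) (nat_lit 87) (nat_lit 5) (nat_lit 88) (nat_lit 4) (nat_lit 477) (nat_lit 408) (nat_lit 315)) (XT.lf (nat_lit 0) (nat_lit 22233036413) (nat_lit 228) (nat_lit 7309463922) (nat_lit 76) (nat_lit 18384406310) (nat_lit 83)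 (nat_lit 5) (nat_lit 86) (nat_lit 5) (nat_lit 84) (nat_lit 4) (nat_lit 478) (nat_lit 408) (nat_lit 314))))) (XT.nd (nat_lit 234) (nat_lit 456) (nat_lit 0) (XT.nd (nat_lit 78) (nat_lit 304) (nat_lit 0) (XT.lf (nat_lit 0) (nat_lit 43494406257) (nat_lit 76) (nat_lit 3777832700) (nat_lit 152) (nat_lit 2255869717) (nat_lit 82) (nat_lit 5) (nat_lit 83) (nat_lit 5) (nat_lit 84) (nat_lit 4) (nat_lit 479) (nat_lit 408) (nat_lit 313)) (XT.nd (nat_lit 78) (nat_lit 76) (nat_lit 0) (XT.lf (nat_lit 0) (nat_lit 22645945102) (nat_lit 228) (nat_lit 4992542585) (nat_lit 76) (nat_lit 23542593183) (nat_lit 79) (nat_lit 5) (nat_lit 82) (nat_lit 5) (nat_lit 80) (nat_lit 4) (nat_lit 480) (nat_lit 408) (nat_lit 312)) (XT.lf (nat_lit 0) (nat_lit 49082115298) (nat_lit 76) (nat_lit 212745697) (nat_lit 152) (nat_lit 3604710800) (nat_lit 78) (nat_lit 5) (nat_lit 79) (nat_lit 5) (nat_lit 80) (nat_lit 4) (nat_lit 481) (nat_lit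 408) (nat_lit 311)))) (XT.nd (nat_lit 156) (nat_lit 228) (nat_lit 0) (XT.nd (nat_lit 78) (nat_lit 76) (nat_lit 0) (XT.lf (nat_lit 0) (nat_lit 22941878232) (nat_lit 152) (nat_lit 2950332567) (nat_lit 76) (nat_lit 28780963996) (nat_lit 76) (nat_lit 5) (nat_lit 78) (nat_lit 5) (nat_lit 77) (nat_lit 4) (nat_lit 482) (nat_lit 408) (nat_lit 310)) (XT.lf (nat_lit 0) (nat_lit 51316385133) (nat_lit 152) (nat_lit 1983667407) (nat_lit 0) (nat_lit 3217080638) (nat_lit 75) (nat_lit 5) (nat_lit 77) (nat_lit 4) (nat_lit 75) (nat_lit 4) (nat_lit 483) (nat_lit 408) (nat_lit 309))) (XT.nd (nat_lit 78) (nat_lit 76) (nat_lit 0) (XT.lf (nat_lit 0) (nat_lit 23042308939) (nat_lit 152) (nat_lit 1341853086) (nat_lit 76) (nat_lit 34037751342) (nat_lit 73) (nat_lit 5) (nat_lit 75) (nat_lit 5) (nat_lit 74) (nat_lit 4) (nat_lit 484) (nat_lit 408) (nat_lit 308)) (XT.lf (nat_lit 0) (nat_lit 53227451656) (nat_lit 152) (nat_lit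 679658919) (nat_lit 0) (nat_lit 6494152550) (nat_lit 72) (nat_lit 5) (nat_lit 74) (nat_lit 4) (nat_lit 72) (nat_lit 4) (nat_lit 485) (nat_lit 408) (nat_lit 307)))))) (XT.nd (nat_lit 468) (nat_lit 836) (nat_lit 0) (XT.nd (nat_lit 234) (nat_lit 304) (nat_lit 0) (XT.nd (nat_lit 78) (nat_lit 228) (nat_lit 0) (XT.lf (nat_lit 0) (nat_lit 22849644950) (nat_lit 152) (nat_lit 364754574) (nat_lit 76) (nat_lit 39233349978) (nat_lit 70) (nat_lit 5) (nat_lit 72) (nat_lit 5) (nat_lit 71) (nat_lit 4) (nat_lit 486) (nat_lit 408) (nat_lit 306)) (XT.nd (nat_lit 78) (nat_lit 152) (nat_lit 0) (XT.lf (nat_lit 0) (nat_lit 54926571257) (nat_lit 152) (nat_lit 123175276) (nat_lit 0) (nat_lit 9523663046) (nat_lit 69) (nat_lit 5) (nat_lit 71) (nat_lit 4) (nat_lit 69) (nat_lit 4) (nat_lit 487) (nat_lit 408) (nat_lit 305)) (XT.lf (nat_lit 0) (nat_lit 22243480543) (nat_lit 152) (nat_lit 262939179) (nat_lit 76) (nat_lit 44266638062)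 (nat_lit 67) (nat_lit 5) (nat_lit 69) (nat_lit 5) (nat_lit 68) (nat_lit 4) (nat_lit 488) (nat_lit 408) (nat_lit 304)))) (XT.nd (nat_lit 78) (nat_lit 228) (nat_lit 0) (XT.lf (nat_lit 0) (nat_lit 56290002586) (nat_lit 152) (nat_lit 584574545) (nat_lit 0) (nat_lit 12182409993) (nat_lit 66) (nat_lit 5) (nat_lit 68) (nat_lit 4) (nat_lit 66) (nat_lit 4) (nat_lit 489) (nat_lit 408) (nat_lit 303)) (XT.nd (nat_lit 78) (nat_lit 76) (nat_lit 0) (XT.lf (nat_lit 0) (nat_lit 21076167794) (nat_lit 152) (nat_lit 1335561602) (nat_lit 76) (nat_lit 49010624918) (nat_lit 64) (nat_lit 5) (nat_lit 66) (nat_lit 5) (nat_lit 65) (nat_lit 4) (nat_lit 490) (nat_lit 408) (nat_lit 302)) (XT.lf (nat_lit 0) (nat_lit 57164939556) (nat_lit 152) (nat_lit 2394562848) (nat_lit 0) (nat_lit 14318170281) (nat_lit 63) (nat_lit 5) (nat_lit 65) (nat_lit 4) (nat_lit 63) (nat_lit 4) (nat_lit 491) (nat_lit 408) (nat_lit 301))))) (XT.nd (nat_lit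 234) (nat_lit 456) (nat_lit 0) (XT.nd (nat_lit 78) (nat_lit 228) (nat_lit 0) (XT.lf (nat_lit 0) (nat_lit 19167588250) (nat_lit 152) (nat_lit 3947651696) (nat_lit 76) (nat_lit 53307306716) (nat_lit 61) (nat_lit 5) (nat_lit 63) (nat_lit 5) (nat_lit 62) (nat_lit 4) (nat_lit 492) (nat_lit 408) (nat_lit 300)) (XT.nd (nat_lit 78) (nat_lit 152) (nat_lit 0) (XT.lf (nat_lit 0) (nat_lit 57363880421) (nat_lit 152) (nat_lit 5955731279) (nat_lit 0) (nat_lit 15744060533) (nat_lit 60) (nat_lit 5) (nat_lit 62) (nat_lit 4) (nat_lit 60) (nat_lit 4) (nat_lit 493) (nat_lit 408) (nat_lit 299)) (XT.lf (nat_lit 0) (nat_lit 16298985761) (nat_lit 152) (nat_lit 8542641749) (nat_lit 76) (nat_lit 56961591031) (nat_lit 58) (nat_lit 5) (nat_lit 60) (nat_lit 5) (nat_lit 59) (nat_lit 4) (nat_lit 494) (nat_lit 408) (nat_lit 298)))) (XT.nd (nat_lit 156) (nat_lit 228) (nat_lit 0) (XT.nd (nat_lit 78) (nat_lit 152) (nat_lit 0) (XT.lf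 (nat_lit 0) (nat_lit 56657983014) (nat_lit 152) (nat_lit 11756156699) (nat_lit 0) (nat_lit 16231885052) (nat_lit 57) (nat_lit 5) (nat_lit 59) (nat_lit 4) (nat_lit 57) (nat_lit 4) (nat_lit 495) (nat_lit 408) (nat_lit 297)) (XT.lf (nat_lit 0) (nat_lit 12205697243) (nat_lit 152) (nat_lit 15657129927) (nat_lit 76) (nat_lit 59734127406) (nat_lit 55) (nat_lit 5) (nat_lit 57) (nat_lit 5) (nat_lit 56) (nat_lit 4) (nat_lit 496) (nat_lit 408) (nat_lit 296))) (XT.nd (nat_lit 78) (nat_lit 152) (nat_lit 0) (XT.lf (nat_lit 0) (nat_lit 54769229701) (nat_lit 152) (nat_lit 20385425223) (nat_lit 0) (nat_lit 15504294456) (nat_lit 54) (nat_lit 5) (nat_lit 56) (nat_lit 4) (nat_lit 54) (nat_lit 4) (nat_lit 497) (nat_lit 408) (nat_lit 295)) (XT.lf (nat_lit 0) (nat_lit 6568590117) (nat_lit 152) (nat_lit 25938268245) (nat_lit 76) (nat_lit 61332852999) (nat_lit 52) (nat_lit 5) (nat_lit 54) (nat_lit 5) (nat_lit 53) (nat_lit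 4) (nat_lit 498) (nat_lit 408) (nat_lit 294))))))) (XT.nd (nat_lit 1014) (nat_lit 8436) (nat_lit 0) (XT.nd (nat_lit 468) (nat_lit 4028) (nat_lit 0) (XT.nd (nat_lit 234) (nat_lit 836) (nat_lit 0) (XT.nd (nat_lit 78) (nat_lit 0) (nat_lit 0) (XT.lf (nat_lit 0) (nat_lit 461606795) (nat_lit 0) (nat_lit 461606795) (nat_lit 836) (nat_lit 2764737306) (nat_lit 400) (nat_lit 5) (nat_lit 400) (nat_lit 3) (nat_lit 411) (nat_lit 3) (nat_lit 409) (nat_lit 409) (nat_lit 382)) (XT.nd (nat_lit 78) (nat_lit 0) (nat_lit 0) (XT.lf (nat_lit 0) (nat_lit 4441815912) (nat_lit 836) (nat_lit 345719402) (nat_lit 912) (nat_lit 2696142530) (nat_lit 400) (nat_lit 5) (nat_lit 411) (nat_lit 3) (nat_lit 412) (nat_lit 5) (nat_lit 410) (nat_lit 409) (nat_lit 381)) (XT.lf (nat_lit 76) (nat_lit 6089736973) (nat_lit 0) (nat_lit 984379366) (nat_lit 912) (nat_lit 525521352) (nat_lit 401) (nat_lit 5) (nat_lit 400) (nat_lit 5) (nat_lit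 412) (nat_lit 5) (nat_lit 411) (nat_lit 409) (nat_lit 380)))) (XT.nd (nat_lit 78) (nat_lit 0) (nat_lit 0) (XT.lf (nat_lit 0) (nat_lit 2003103280) (nat_lit 912) (nat_lit 2628638603) (nat_lit 988) (nat_lit 3091218710) (nat_lit 389) (nat_lit 5) (nat_lit 401) (nat_lit 5) (nat_lit 402) (nat_lit 5) (nat_lit 412) (nat_lit 409) (nat_lit 379)) (XT.nd (nat_lit 78) (nat_lit 0) (nat_lit 76) (XT.lf (nat_lit 76) (nat_lit 4184998135) (nat_lit 0) (nat_lit 380060821) (nat_lit 988) (nat_lit 3289709689) (nat_lit 390) (nat_lit 5) (nat_lit 389) (nat_lit 5) (nat_lit 402) (nat_lit 5) (nat_lit 413) (nat_lit 409) (nat_lit 378)) (XT.lf (nat_lit 76) (nat_lit 3335630205) (nat_lit 0) (nat_lit 3876688108) (nat_lit 988) (nat_lit 782140377) (nat_lit 391) (nat_lit 5) (nat_lit 390) (nat_lit 5) (nat_lit 403) (nat_lit 5) (nat_lit 414) (nat_lit 409) (nat_lit 377))))) (XT.nd (nat_lit 234) (nat_lit 3192) (nat_lit 0) (XT.nd (nat_lit 78)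 (nat_lit 0) (nat_lit 0) (XT.lf (nat_lit 0) (nat_lit 1752288731) (nat_lit 988) (nat_lit 5586496787) (nat_lit 1064) (nat_lit 803693251) (nat_lit 378) (nat_lit 5) (nat_lit 391) (nat_lit 5) (nat_lit 392) (nat_lit 5) (nat_lit 415) (nat_lit 409) (nat_lit 376)) (XT.nd (nat_lit 78) (nat_lit 0) (nat_lit 76) (XT.lf (nat_lit 76) (nat_lit 1826943157) (nat_lit 0) (nat_lit 2544742111) (nat_lit 1064) (nat_lit 3926756446) (nat_lit 379) (nat_lit 5) (nat_lit 378) (nat_lit 5) (nat_lit 392) (nat_lit 5) (nat_lit 416) (nat_lit 409) (nat_lit 375)) (XT.lf (nat_lit 76) (nat_lit 1170609920) (nat_lit 0) (nat_lit 5919534438) (nat_lit 1064) (nat_lit 1373022179) (nat_lit 380) (nat_lit 5) (nat_lit 379) (nat_lit 5) (nat_lit 393) (nat_lit 5) (nat_lit 417) (nat_lit 409) (nat_lit 374)))) (XT.nd (nat_lit 156) (nat_lit 1216) (nat_lit 0) (XT.nd (nat_lit 78) (nat_lit 988) (nat_lit 0) (XT.lf (nat_lit 76) (nat_lit 573447019) (nat_lit 0)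 (nat_lit 686609529) (nat_lit 1140) (nat_lit 7376384084) (nat_lit 366) (nat_lit 5) (nat_lit 365) (nat_lit 5) (nat_lit 380) (nat_lit 5) (nat_lit 418) (nat_lit 409) (nat_lit 373)) (XT.lf (nat_lit 0) (nat_lit 12678995) (nat_lit 1064) (nat_lit 3989969940) (nat_lit 1140) (nat_lit 4815139725) (nat_lit 352) (nat_lit 5) (nat_lit 366) (nat_lit 5) (nat_lit 367) (nat_lit 5) (nat_lit 419) (nat_lit 409) (nat_lit 372))) (XT.nd (nat_lit 78) (nat_lit 1216) (nat_lit 0) (XT.lf (nat_lit 0) (nat_lit 6877050877) (nat_lit 1140) (nat_lit 464661259) (nat_lit 76) (nat_lit 1666657017) (nat_lit 352) (nat_lit 5) (nat_lit 367) (nat_lit 5) (nat_lit 353) (nat_lit 5) (nat_lit 420) (nat_lit 409) (nat_lit 371)) (XT.lf (nat_lit 0) (nat_lit 687664254) (nat_lit 1216) (nat_lit 891802716) (nat_lit 76) (nat_lit 7628387627) (nat_lit 336) (nat_lit 5) (nat_lit 352) (nat_lit 5) (nat_lit 337) (nat_lit 5) (nat_lit 421) (nat_lit 409) (nat_lit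 370)))))) (XT.nd (nat_lit 546) (nat_lit 3344) (nat_lit 0) (XT.nd (nat_lit 234) (nat_lit 2356) (nat_lit 0) (XT.nd (nat_lit 78) (nat_lit 1520) (nat_lit 0) (XT.lf (nat_lit 0) (nat_lit 3628600539) (nat_lit 1292) (nat_lit 1286450330) (nat_lit 76) (nat_lit 4500882684) (nat_lit 320) (nat_lit 5) (nat_lit 337) (nat_lit 5) (nat_lit 321) (nat_lit 5) (nat_lit 422) (nat_lit 409) (nat_lit 369)) (XT.nd (nat_lit 78) (nat_lit 684) (nat_lit 0) (XT.lf (nat_lit 0) (nat_lit 6732953459) (nat_lit 912) (nat_lit 1611673188) (nat_lit 76) (nat_lit 1289303296) (nat_lit 309) (nat_lit 5) (nat_lit 321) (nat_lit 5) (nat_lit 310) (nat_lit 5) (nat_lit 423) (nat_lit 409) (nat_lit 368)) (XT.lf (nat_lit 0) (nat_lit 172421322) (nat_lit 684) (nat_lit 1888539353) (nat_lit 76) (nat_lit 7800474679) (nat_lit 300) (nat_lit 5) (nat_lit 309) (nat_lit 5) (nat_lit 301) (nat_lit 5) (nat_lit 424) (nat_lit 409) (nat_lit 367)))) (XT.nd (nat_lit 156)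 (nat_lit 1216) (nat_lit 0) (XT.nd (nat_lit 78) (nat_lit 532) (nat_lit 0) (XT.lf (nat_lit 0) (nat_lit 3386524754) (nat_lit 684) (nat_lit 2138179310) (nat_lit 76) (nat_lit 4573343361) (nat_lit 292) (nat_lit 5) (nat_lit 301) (nat_lit 5) (nat_lit 293) (nat_lit 5) (nat_lit 425) (nat_lit 409) (nat_lit 366)) (XT.lf (nat_lit 0) (nat_lit 6802496608) (nat_lit 608) (nat_lit 2318822043) (nat_lit 76) (nat_lit 1223940391) (nat_lit 285) (nat_lit 5) (nat_lit 293) (nat_lit 5) (nat_lit 286) (nat_lit 5) (nat_lit 426) (nat_lit 409) (nat_lit 365))) (XT.nd (nat_lit 78) (nat_lit 608) (nat_lit 0) (XT.lf (nat_lit 0) (nat_lit 8151646286) (nat_lit 608) (nat_lit 2308754809) (nat_lit 684) (nat_lit 142299785) (nat_lit 277) (nat_lit 5) (nat_lit 285) (nat_lit 5) (nat_lit 286) (nat_lit 5) (nat_lit 427) (nat_lit 409) (nat_lit 364)) (XT.lf (nat_lit 0) (nat_lit 3430804228) (nat_lit 608) (nat_lit 2557741009) (nat_lit 76) (nat_lit 4881398905)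 (nat_lit 269) (nat_lit 5) (nat_lit 277) (nat_lit 5) (nat_lit 270) (nat_lit 5) (nat_lit 428) (nat_lit 409) (nat_lit 363))))) (XT.nd (nat_lit 234) (nat_lit 1824) (nat_lit 0) (XT.nd (nat_lit 78) (nat_lit 988) (nat_lit 0) (XT.lf (nat_lit 0) (nat_lit 7243830153) (nat_lit 608) (nat_lit 2594578433) (nat_lit 76) (nat_lit 1310175647) (nat_lit 262) (nat_lit 5) (nat_lit 270) (nat_lit 5) (nat_lit 263) (nat_lit 5) (nat_lit 429) (nat_lit 409) (nat_lit 362)) (XT.nd (nat_lit 78) (nat_lit 532) (nat_lit 0) (XT.lf (nat_lit 0) (nat_lit 8856918335) (nat_lit 456) (nat_lit 2485819150) (nat_lit 532) (nat_lit 95565008) (nat_lit 256) (nat_lit 5) (nat_lit 262) (nat_lit 5) (nat_lit 263) (nat_lit 5) (nat_lit 430) (nat_lit 409) (nat_lit 361)) (XT.lf (nat_lit 0) (nat_lit 3920619264) (nat_lit 532) (nat_lit 2544245178) (nat_lit 76) (nat_lit 5273737655) (nat_lit 249) (nat_lit 5) (nat_lit 256) (nat_lit 5) (nat_lit 250) (nat_lit 5)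 (nat_lit 431) (nat_lit 409) (nat_lit 360)))) (XT.nd (nat_lit 156) (nat_lit 836) (nat_lit 0) (XT.nd (nat_lit 78) (nat_lit 532) (nat_lit 0) (XT.lf (nat_lit 0) (nat_lit 8221636018) (nat_lit 532) (nat_lit 2432099390) (nat_lit 76) (nat_lit 1397575598) (nat_lit 243) (nat_lit 5) (nat_lit 250) (nat_lit 5) (nat_lit 244) (nat_lit 5) (nat_lit 432) (nat_lit 409) (nat_lit 359)) (XT.lf (nat_lit 0) (nat_lit 471335241) (nat_lit 532) (nat_lit 2271268868) (nat_lit 76) (nat_lit 9633342283) (nat_lit 236) (nat_lit 5) (nat_lit 243) (nat_lit 5) (nat_lit 237) (nat_lit 5) (nat_lit 433) (nat_lit 409) (nat_lit 358))) (XT.nd (nat_lit 78) (nat_lit 456) (nat_lit 0) (XT.lf (nat_lit 0) (nat_lit 5023951161) (nat_lit 456) (nat_lit 2082440973) (nat_lit 76) (nat_lit 5605813503) (nat_lit 231) (nat_lit 5) (nat_lit 237) (nat_lit 5) (nat_lit 232) (nat_lit 5) (nat_lit 434) (nat_lit 409) (nat_lit 357)) (XT.lf (nat_lit 0) (nat_lit 9911226667)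 (nat_lit 532) (nat_lit 1810586731) (nat_lit 76) (nat_lit 1340255849) (nat_lit 225) (nat_lit 5) (nat_lit 232) (nat_lit 5) (nat_lit 226) (nat_lit 5) (nat_lit 435) (nat_lit 409) (nat_lit 356))))))))
noncomputable def xc63 : XT := (XT.nd (nat_lit 2106) (nat_lit 4028) (nat_lit 0) (XT.nd (nat_lit 1014) (nat_lit 3344) (nat_lit 0) (XT.nd (nat_lit 468) (nat_lit 2052) (nat_lit 0) (XT.nd (nat_lit 234) (nat_lit 1444) (nat_lit 0) (XT.nd (nat_lit 78) (nat_lit 760) (nat_lit 0) (XT.lf (nat_lit 0) (nat_lit 1728012465) (nat_lit 456) (nat_lit 1498966851) (nat_lit 76) (nat_lit 10197601840) (nat_lit 219) (nat_lit 5) (nat_lit 225) (nat_lit 5) (nat_lit 220) (nat_lit 5) (nat_lit 436) (nat_lit 409) (nat_lit 355)) (XT.nd (nat_lit 78) (nat_lit 380) (nat_lit 0) (XT.lf (nat_lit 0) (nat_lit 6921586155) (nat_lit 456) (nat_lit 1143887621) (nat_lit 76) (nat_lit 5734732782) (nat_lit 214) (nat_lit 5) (nat_lit 220) (nat_lit 5) (nat_lit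 215) (nat_lit 5) (nat_lit 437) (nat_lit 409) (nat_lit 354)) (XT.lf (nat_lit 0) (nat_lit 12502562364) (nat_lit 456) (nat_lit 696335427) (nat_lit 76) (nat_lit 991885624) (nat_lit 209) (nat_lit 5) (nat_lit 215) (nat_lit 5) (nat_lit 210) (nat_lit 5) (nat_lit 438) (nat_lit 409) (nat_lit 353)))) (XT.nd (nat_lit 78) (nat_lit 988) (nat_lit 0) (XT.lf (nat_lit 0) (nat_lit 3863682828) (nat_lit 456) (nat_lit 227930549) (nat_lit 76) (nat_lit 10502931039) (nat_lit 203) (nat_lit 5) (nat_lit 209) (nat_lit 5) (nat_lit 204) (nat_lit 5) (nat_lit 439) (nat_lit 409) (nat_lit 352)) (XT.nd (nat_lit 78) (nat_lit 380) (nat_lit 0) (XT.lf (nat_lit 0) (nat_lit 318334173) (nat_lit 304) (nat_lit 9495813802) (nat_lit 380) (nat_lit 5199169281) (nat_lit 195) (nat_lit 5) (nat_lit 199) (nat_lit 5) (nat_lit 200) (nat_lit 5) (nat_lit 440) (nat_lit 409) (nat_lit 351)) (XT.lf (nat_lit 0) (nat_lit 750233171) (nat_lit 380) (nat_lit 14480372260)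 (nat_lit 76) (nat_lit 217658857) (nat_lit 190) (nat_lit 5) (nat_lit 195) (nat_lit 5) (nat_lit 191) (nat_lit 5) (nat_lit 441) (nat_lit 409) (nat_lit 350))))) (XT.nd (nat_lit 234) (nat_lit 1064) (nat_lit 0) (XT.nd (nat_lit 78) (nat_lit 684) (nat_lit 0) (XT.lf (nat_lit 0) (nat_lit 1620755609) (nat_lit 304) (nat_lit 5479394862) (nat_lit 380) (nat_lit 8796948224) (nat_lit 186) (nat_lit 5) (nat_lit 190) (nat_lit 5) (nat_lit 191) (nat_lit 5) (nat_lit 442) (nat_lit 409) (nat_lit 349)) (XT.nd (nat_lit 78) (nat_lit 380) (nat_lit 0) (XT.lf (nat_lit 0) (nat_lit 2384318849) (nat_lit 304) (nat_lit 11549416056) (nat_lit 380) (nat_lit 2429656182) (nat_lit 182) (nat_lit 5) (nat_lit 186) (nat_lit 5) (nat_lit 187) (nat_lit 5) (nat_lit 443) (nat_lit 409) (nat_lit 348)) (XT.lf (nat_lit 0) (nat_lit 3213456273) (nat_lit 304) (nat_lit 1142333434) (nat_lit 380) (nat_lit 12490497176) (nat_lit 177) (nat_lit 5) (nat_lit 181)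 (nat_lit 5) (nat_lit 182) (nat_lit 5) (nat_lit 444) (nat_lit 409) (nat_lit 347)))) (XT.nd (nat_lit 156) (nat_lit 456) (nat_lit 0) (XT.nd (nat_lit 78) (nat_lit 380) (nat_lit 0) (XT.lf (nat_lit 0) (nat_lit 4090223324) (nat_lit 228) (nat_lit 7568899845) (nat_lit 304) (nat_lit 5686617929) (nat_lit 174) (nat_lit 5) (nat_lit 177) (nat_lit 5) (nat_lit 178) (nat_lit 5) (nat_lit 445) (nat_lit 409) (nat_lit 346)) (XT.lf (nat_lit 0) (nat_lit 1616257391) (nat_lit 380) (nat_lit 12784915588) (nat_lit 76) (nat_lit 3462958619) (nat_lit 169) (nat_lit 5) (nat_lit 174) (nat_lit 5) (nat_lit 170) (nat_lit 5) (nat_lit 446) (nat_lit 409) (nat_lit 345))) (XT.nd (nat_lit 78) (nat_lit 228) (nat_lit 0) (XT.lf (nat_lit 0) (nat_lit 6111459018) (nat_lit 228) (nat_lit 3281480570) (nat_lit 304) (nat_lit 9007025897) (nat_lit 166) (nat_lit 5) (nat_lit 169) (nat_lit 5) (nat_lit 170) (nat_lit 5) (nat_lit 447) (nat_lit 409) (nat_lit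 344)) (XT.lf (nat_lit 0) (nat_lit 7245633373) (nat_lit 228) (nat_lit 10549605443) (nat_lit 304) (nat_lit 1160249800) (nat_lit 163) (nat_lit 5) (nat_lit 166) (nat_lit 5) (nat_lit 167) (nat_lit 5) (nat_lit 448) (nat_lit 409) (nat_lit 343)))))) (XT.nd (nat_lit 546) (nat_lit 1596) (nat_lit 0) (XT.nd (nat_lit 234) (nat_lit 912) (nat_lit 0) (XT.nd (nat_lit 78) (nat_lit 532) (nat_lit 0) (XT.lf (nat_lit 0) (nat_lit 7150378022) (nat_lit 304) (nat_lit 11076228688) (nat_lit 76) (nat_lit 1303851347) (nat_lit 159) (nat_lit 5) (nat_lit 163) (nat_lit 5) (nat_lit 160) (nat_lit 5) (nat_lit 449) (nat_lit 409) (nat_lit 342)) (XT.nd (nat_lit 78) (nat_lit 304) (nat_lit 0) (XT.lf (nat_lit 0) (nat_lit 9738677378) (nat_lit 228) (nat_lit 6391723077) (nat_lit 304) (nat_lit 3995096031) (nat_lit 156) (nat_lit 5) (nat_lit 159) (nat_lit 5) (nat_lit 160) (nat_lit 5) (nat_lit 450) (nat_lit 409) (nat_lit 341)) (XT.lf (nat_lit 0)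 (nat_lit 4955104476) (nat_lit 304) (nat_lit 9625639617) (nat_lit 76) (nat_lit 6160962410) (nat_lit 152) (nat_lit 5) (nat_lit 156) (nat_lit 5) (nat_lit 153) (nat_lit 5) (nat_lit 451) (nat_lit 409) (nat_lit 340)))) (XT.nd (nat_lit 156) (nat_lit 456) (nat_lit 0) (XT.nd (nat_lit 78) (nat_lit 228) (nat_lit 0) (XT.lf (nat_lit 0) (nat_lit 12595156712) (nat_lit 228) (nat_lit 1927301912) (nat_lit 304) (nat_lit 6857514489) (nat_lit 149) (nat_lit 5) (nat_lit 152) (nat_lit 5) (nat_lit 153) (nat_lit 5) (nat_lit 452) (nat_lit 409) (nat_lit 339)) (XT.lf (nat_lit 0) (nat_lit 2776465568) (nat_lit 228) (nat_lit 7890076029) (nat_lit 76) (nat_lit 11373658837) (nat_lit 146) (nat_lit 5) (nat_lit 149) (nat_lit 5) (nat_lit 147) (nat_lit 5) (nat_lit 453) (nat_lit 409) (nat_lit 338))) (XT.nd (nat_lit 78) (nat_lit 228) (nat_lit 0) (XT.lf (nat_lit 0) (nat_lit 13002075217) (nat_lit 304) (nat_lit 6916172253) (nat_lit 76) (nat_lit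 2805602838) (nat_lit 143) (nat_lit 5) (nat_lit 147) (nat_lit 5) (nat_lit 144) (nat_lit 5) (nat_lit 454) (nat_lit 409) (nat_lit 337)) (XT.lf (nat_lit 0) (nat_lit 614289369) (nat_lit 228) (nat_lit 5854567278) (nat_lit 76) (nat_lit 16963056722) (nat_lit 140) (nat_lit 5) (nat_lit 143) (nat_lit 5) (nat_lit 141) (nat_lit 5) (nat_lit 455) (nat_lit 409) (nat_lit 336))))) (XT.nd (nat_lit 234) (nat_lit 912) (nat_lit 0) (XT.nd (nat_lit 78) (nat_lit 456) (nat_lit 0) (XT.lf (nat_lit 0) (nat_lit 11565771152) (nat_lit 304) (nat_lit 4760376831) (nat_lit 76) (nat_lit 7837354307) (nat_lit 137) (nat_lit 5) (nat_lit 141) (nat_lit 5) (nat_lit 138) (nat_lit 5) (nat_lit 456) (nat_lit 409) (nat_lit 335)) (XT.nd (nat_lit 78) (nat_lit 304) (nat_lit 0) (XT.lf (nat_lit 0) (nat_lit 21403087154) (nat_lit 152) (nat_lit 1956373191) (nat_lit 228) (nat_lit 1563371907) (nat_lit 135) (nat_lit 5) (nat_lit 137) (nat_lit 5) (nat_lit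 138) (nat_lit 5) (nat_lit 457) (nat_lit 409) (nat_lit 334)) (XT.lf (nat_lit 0) (nat_lit 10196240586) (nat_lit 304) (nat_lit 2285086819) (nat_lit 76) (nat_lit 13224838093) (nat_lit 131) (nat_lit 5) (nat_lit 135) (nat_lit 5) (nat_lit 132) (nat_lit 5) (nat_lit 458) (nat_lit 409) (nat_lit 333)))) (XT.nd (nat_lit 156) (nat_lit 380) (nat_lit 0) (XT.nd (nat_lit 78) (nat_lit 380) (nat_lit 0) (XT.lf (nat_lit 0) (nat_lit 22806866391) (nat_lit 228) (nat_lit 890843637) (nat_lit 76) (nat_lit 2821630566) (nat_lit 129) (nat_lit 5) (nat_lit 132) (nat_lit 5) (nat_lit 130) (nat_lit 5) (nat_lit 459) (nat_lit 409) (nat_lit 332)) (XT.lf (nat_lit 0) (nat_lit 532504915) (nat_lit 152) (nat_lit 8365880386) (nat_lit 228) (nat_lit 18460503573) (nat_lit 124) (nat_lit 5) (nat_lit 126) (nat_lit 5) (nat_lit 127) (nat_lit 5) (nat_lit 460) (nat_lit 409) (nat_lit 331))) (XT.nd (nat_lit 78) (nat_lit 228) (nat_lit 0) (XT.lf (nat_lit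 0) (nat_lit 2096270784) (nat_lit 152) (nat_lit 20321603379) (nat_lit 228) (nat_lit 5810792168) (nat_lit 122) (nat_lit 5) (nat_lit 124) (nat_lit 5) (nat_lit 125) (nat_lit 5) (nat_lit 461) (nat_lit 409) (nat_lit 330)) (XT.lf (nat_lit 0) (nat_lit 3744620007) (nat_lit 152) (nat_lit 3946228133) (nat_lit 228) (nat_lit 21437973236) (nat_lit 119) (nat_lit 5) (nat_lit 121) (nat_lit 5) (nat_lit 122) (nat_lit 5) (nat_lit 462) (nat_lit 409) (nat_lit 329))))))) (XT.nd (nat_lit 1014) (nat_lit 1900) (nat_lit 0) (XT.nd (nat_lit 468) (nat_lit 1064) (nat_lit 0) (XT.nd (nat_lit 234) (nat_lit 532) (nat_lit 0) (XT.nd (nat_lit 78) (nat_lit 380) (nat_lit 0) (XT.lf (nat_lit 0) (nat_lit 5452975183) (nat_lit 152) (nat_lit 16713681854) (nat_lit 228) (nat_lit 7893023684) (nat_lit 117) (nat_lit 5) (nat_lit 119) (nat_lit 5) (nat_lit 120) (nat_lit 5) (nat_lit 463) (nat_lit 409) (nat_lit 328)) (XT.nd (nat_lit 78) (nat_lit 152)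 (nat_lit 0) (XT.lf (nat_lit 0) (nat_lit 6554468159) (nat_lit 228) (nat_lit 23719057766) (nat_lit 76) (nat_lit 751268293) (nat_lit 114) (nat_lit 5) (nat_lit 117) (nat_lit 5) (nat_lit 115) (nat_lit 5) (nat_lit 464) (nat_lit 409) (nat_lit 327)) (XT.lf (nat_lit 0) (nat_lit 9167110529) (nat_lit 152) (nat_lit 12876285280) (nat_lit 228) (nat_lit 9977954444) (nat_lit 112) (nat_lit 5) (nat_lit 114) (nat_lit 5) (nat_lit 115) (nat_lit 5) (nat_lit 465) (nat_lit 409) (nat_lit 326)))) (XT.nd (nat_lit 78) (nat_lit 304) (nat_lit 0) (XT.lf (nat_lit 0) (nat_lit 5515854425) (nat_lit 228) (nat_lit 21869961027) (nat_lit 76) (nat_lit 5669036610) (nat_lit 109) (nat_lit 5) (nat_lit 112) (nat_lit 5) (nat_lit 110) (nat_lit 5) (nat_lit 466) (nat_lit 409) (nat_lit 325)) (XT.nd (nat_lit 78) (nat_lit 152) (nat_lit 0) (XT.lf (nat_lit 0) (nat_lit 13239627600) (nat_lit 152) (nat_lit 8804636546) (nat_lit 228) (nat_lit 12078813286)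 (nat_lit 107) (nat_lit 5) (nat_lit 109) (nat_lit 5) (nat_lit 110) (nat_lit 5) (nat_lit 467) (nat_lit 409) (nat_lit 324)) (XT.lf (nat_lit 0) (nat_lit 4526899808) (nat_lit 152) (nat_lit 19810573999) (nat_lit 76) (nat_lit 10892434926) (nat_lit 105) (nat_lit 5) (nat_lit 107) (nat_lit 5) (nat_lit 106) (nat_lit 5) (nat_lit 468) (nat_lit 409) (nat_lit 323))))) (XT.nd (nat_lit 234) (nat_lit 608) (nat_lit 0) (XT.nd (nat_lit 78) (nat_lit 304) (nat_lit 0) (XT.lf (nat_lit 0) (nat_lit 17665494926) (nat_lit 152) (nat_lit 4496527485) (nat_lit 228) (nat_lit 14213003734) (nat_lit 103) (nat_lit 5) (nat_lit 105) (nat_lit 5) (nat_lit 106) (nat_lit 5) (nat_lit 469) (nat_lit 409) (nat_lit 322)) (XT.nd (nat_lit 78) (nat_lit 152) (nat_lit 0) (XT.lf (nat_lit 0) (nat_lit 3573262586) (nat_lit 152) (nat_lit 17560017271) (nat_lit 76) (nat_lit 16427256949) (nat_lit 101) (nat_lit 5) (nat_lit 103) (nat_lit 5) (nat_lit 102) (nat_lit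 5) (nat_lit 470) (nat_lit 409) (nat_lit 321)) (XT.lf (nat_lit 0) (nat_lit 22385656811) (nat_lit 228) (nat_lit 16356579964) (nat_lit 76) (nat_lit 45941945) (nat_lit 99) (nat_lit 5) (nat_lit 102) (nat_lit 5) (nat_lit 100) (nat_lit 4) (nat_lit 471) (nat_lit 409) (nat_lit 320)))) (XT.nd (nat_lit 156) (nat_lit 304) (nat_lit 0) (XT.nd (nat_lit 78) (nat_lit 152) (nat_lit 0) (XT.lf (nat_lit 0) (nat_lit 2635510911) (nat_lit 152) (nat_lit 15146792661) (nat_lit 76) (nat_lit 22275876815) (nat_lit 97) (nat_lit 5) (nat_lit 99) (nat_lit 5) (nat_lit 98) (nat_lit 5) (nat_lit 472) (nat_lit 409) (nat_lit 319)) (XT.lf (nat_lit 0) (nat_lit 22743484751) (nat_lit 228) (nat_lit 13903712221) (nat_lit 76) (nat_lit 4725895281) (nat_lit 95) (nat_lit 5) (nat_lit 98) (nat_lit 5) (nat_lit 96) (nat_lit 4) (nat_lit 473) (nat_lit 409) (nat_lit 318))) (XT.nd (nat_lit 78) (nat_lit 152) (nat_lit 0) (XT.lf (nat_lit 0) (nat_lit 1688019848)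 (nat_lit 152) (nat_lit 12611000089) (nat_lit 76) (nat_lit 28436218727) (nat_lit 93) (nat_lit 5) (nat_lit 95) (nat_lit 5) (nat_lit 94) (nat_lit 5) (nat_lit 474) (nat_lit 409) (nat_lit 317)) (XT.lf (nat_lit 0) (nat_lit 23169145136) (nat_lit 228) (nat_lit 11354654398) (nat_lit 76) (nat_lit 9620172340) (nat_lit 91) (nat_lit 5) (nat_lit 94) (nat_lit 5) (nat_lit 92) (nat_lit 4) (nat_lit 475) (nat_lit 409) (nat_lit 316)))))) (XT.nd (nat_lit 546) (nat_lit 912) (nat_lit 0) (XT.nd (nat_lit 234) (nat_lit 608) (nat_lit 0) (XT.nd (nat_lit 78) (nat_lit 228) (nat_lit 0) (XT.lf (nat_lit 0) (nat_lit 697655335) (nat_lit 152) (nat_lit 10006979620) (nat_lit 76) (nat_lit 34900524439) (nat_lit 89) (nat_lit 5) (nat_lit 91) (nat_lit 5) (nat_lit 90) (nat_lit 5) (nat_lit 476) (nat_lit 409) (nat_lit 315)) (XT.nd (nat_lit 78) (nat_lit 76) (nat_lit 0) (XT.lf (nat_lit 0) (nat_lit 23631671379) (nat_lit 228) (nat_lit 8772107391)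 (nat_lit 76) (nat_lit 14711046496) (nat_lit 87) (nat_lit 5) (nat_lit 90) (nat_lit 5) (nat_lit 88) (nat_lit 4) (nat_lit 477) (nat_lit 409) (nat_lit 314)) (XT.lf (nat_lit 0) (nat_lit 41272273325) (nat_lit 76) (nat_lit 7024847822) (nat_lit 152) (nat_lit 385311454) (nat_lit 86) (nat_lit 5) (nat_lit 87) (nat_lit 5) (nat_lit 88) (nat_lit 4) (nat_lit 478) (nat_lit 409) (nat_lit 313)))) (XT.nd (nat_lit 156) (nat_lit 304) (nat_lit 0) (XT.nd (nat_lit 78) (nat_lit 76) (nat_lit 0) (XT.lf (nat_lit 0) (nat_lit 24090589697) (nat_lit 228) (nat_lit 6237951317) (nat_lit 76) (nat_lit 19972329409) (nat_lit 83) (nat_lit 5) (nat_lit 86) (nat_lit 5) (nat_lit 84) (nat_lit 4) (nat_lit 479) (nat_lit 409) (nat_lit 312)) (XT.lf (nat_lit 0) (nat_lit 47064921461) (nat_lit 76) (nat_lit 3294729024) (nat_lit 152) (nat_lit 1623145340) (nat_lit 82) (nat_lit 5) (nat_lit 83) (nat_lit 5) (nat_lit 84) (nat_lit 4) (nat_lit 480) (nat_lit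 409) (nat_lit 311))) (XT.nd (nat_lit 78) (nat_lit 76) (nat_lit 0) (XT.lf (nat_lit 0) (nat_lit 24493922870) (nat_lit 228) (nat_lit 3857316319) (nat_lit 76) (nat_lit 25367421337) (nat_lit 79) (nat_lit 5) (nat_lit 82) (nat_lit 5) (nat_lit 80) (nat_lit 4) (nat_lit 481) (nat_lit 409) (nat_lit 310)) (XT.lf (nat_lit 0) (nat_lit 52458241924) (nat_lit 152) (nat_lit 2646439681) (nat_lit 0) (nat_lit 418905861) (nat_lit 78) (nat_lit 5) (nat_lit 80) (nat_lit 4) (nat_lit 78) (nat_lit 4) (nat_lit 482) (nat_lit 409) (nat_lit 309))))) (XT.nd (nat_lit 234) (nat_lit 532) (nat_lit 0) (XT.nd (nat_lit 78) (nat_lit 228) (nat_lit 0) (XT.lf (nat_lit 0) (nat_lit 24775819900) (nat_lit 152) (nat_lit 1763410475) (nat_lit 76) (nat_lit 30846994230) (nat_lit 76) (nat_lit 5) (nat_lit 78) (nat_lit 5) (nat_lit 77) (nat_lit 4) (nat_lit 483) (nat_lit 409) (nat_lit 308)) (XT.nd (nat_lit 78) (nat_lit 152) (nat_lit 0) (XT.lf (nat_lit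 0) (nat_lit 54554856829) (nat_lit 152) (nat_lit 772714103) (nat_lit 0) (nat_lit 3995236000) (nat_lit 75) (nat_lit 5) (nat_lit 77) (nat_lit 4) (nat_lit 75) (nat_lit 4) (nat_lit 484) (nat_lit 409) (nat_lit 307)) (XT.lf (nat_lit 0) (nat_lit 24853745606) (nat_lit 152) (nat_lit 123239006) (nat_lit 76) (nat_lit 36346241708) (nat_lit 73) (nat_lit 5) (nat_lit 75) (nat_lit 5) (nat_lit 74) (nat_lit 4) (nat_lit 485) (nat_lit 409) (nat_lit 306)))) (XT.nd (nat_lit 156) (nat_lit 228) (nat_lit 0) (XT.nd (nat_lit 78) (nat_lit 152) (nat_lit 0) (XT.lf (nat_lit 0) (nat_lit 559475208) (nat_lit 76) (nat_lit 55980510087) (nat_lit 76) (nat_lit 6861803222) (nat_lit 71) (nat_lit 4) (nat_lit 72) (nat_lit 5) (nat_lit 72) (nat_lit 4) (nat_lit 486) (nat_lit 409) (nat_lit 305)) (XT.lf (nat_lit 0) (nat_lit 872656527) (nat_lit 76) (nat_lit 23760884732) (nat_lit 152) (nat_lit 40917350583) (nat_lit 69) (nat_lit 5) (nat_lit 70) (nat_lit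 5) (nat_lit 71) (nat_lit 4) (nat_lit 487) (nat_lit 409) (nat_lit 304))) (XT.nd (nat_lit 78) (nat_lit 152) (nat_lit 0) (XT.lf (nat_lit 0) (nat_lit 1108183303) (nat_lit 76) (nat_lit 57195474259) (nat_lit 76) (nat_lit 9479497182) (nat_lit 68) (nat_lit 4) (nat_lit 69) (nat_lit 5) (nat_lit 69) (nat_lit 4) (nat_lit 488) (nat_lit 409) (nat_lit 303)) (XT.lf (nat_lit 0) (nat_lit 935305026) (nat_lit 76) (nat_lit 23037231636) (nat_lit 152) (nat_lit 46120665160) (nat_lit 66) (nat_lit 5) (nat_lit 67) (nat_lit 5) (nat_lit 68) (nat_lit 4) (nat_lit 489) (nat_lit 409) (nat_lit 302))))))))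
noncomputable def xc64 : XT := (XT.nd (nat_lit 57564) (nat_lit 0) (nat_lit 7220) (XT.nd (nat_lit 56550) (nat_lit 0) (nat_lit 17556) (XT.nd (nat_lit 468) (nat_lit 304) (nat_lit 0) (XT.nd (nat_lit 234) (nat_lit 380) (nat_lit 0) (XT.nd (nat_lit 78) (nat_lit 152) (nat_lit 0) (XT.lf (nat_lit 0) (nat_lit 568465041) (nat_lit 76) (nat_lit 59137054872) (nat_lit 76) (nat_lit 12786283776) (nat_lit 65) (nat_lit 4) (nat_lit 66) (nat_lit 5) (nat_lit 66) (nat_lit 4) (nat_lit 490) (nat_lit 409) (nat_lit 301)) (XT.nd (nat_lit 78) (nat_lit 76) (nat_lit 0) (XT.lf (nat_lit 0) (nat_lit 22713830807) (nat_lit 152) (nat_lit 253113725) (nat_lit 76) (nat_lit 52009009757) (nat_lit 64) (nat_lit 5) (nat_lit 66) (nat_lit 5) (nat_lit 65) (nat_lit 4) (nat_lit 491) (nat_lit 409) (nat_lit 300)) (XT.lf (nat_lit 0) (nat_lit 60595251098) (nat_lit 152) (nat_lit 1386284030) (nat_lit 0) (nat_lit 15572857251) (nat_lit 63) (nat_lit 5) (nat_lit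 65) (nat_lit 4) (nat_lit 63) (nat_lit 4) (nat_lit 492) (nat_lit 409) (nat_lit 299)))) (XT.nd (nat_lit 78) (nat_lit 228) (nat_lit 0) (XT.lf (nat_lit 0) (nat_lit 20686823777) (nat_lit 152) (nat_lit 3038197426) (nat_lit 76) (nat_lit 56501825257) (nat_lit 61) (nat_lit 5) (nat_lit 63) (nat_lit 5) (nat_lit 62) (nat_lit 4) (nat_lit 493) (nat_lit 409) (nat_lit 298)) (XT.nd (nat_lit 78) (nat_lit 152) (nat_lit 0) (XT.lf (nat_lit 0) (nat_lit 60781658438) (nat_lit 152) (nat_lit 5167172686) (nat_lit 0) (nat_lit 17051535437) (nat_lit 60) (nat_lit 5) (nat_lit 62) (nat_lit 4) (nat_lit 60) (nat_lit 4) (nat_lit 494) (nat_lit 409) (nat_lit 297)) (XT.lf (nat_lit 0) (nat_lit 17652776043) (nat_lit 152) (nat_lit 7903842922) (nat_lit 76) (nat_lit 60320593643) (nat_lit 58) (nat_lit 5) (nat_lit 60) (nat_lit 5) (nat_lit 59) (nat_lit 4) (nat_lit 495) (nat_lit 409) (nat_lit 296))))) (XT.nd (nat_lit 55770) (nat_lit 0) (nat_lit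 25384) (XT.nd (nat_lit 78) (nat_lit 228) (nat_lit 0) (XT.lf (nat_lit 0) (nat_lit 60018940714) (nat_lit 152) (nat_lit 11297816704) (nat_lit 0) (nat_lit 17545725276) (nat_lit 57) (nat_lit 5) (nat_lit 59) (nat_lit 4) (nat_lit 57) (nat_lit 4) (nat_lit 496) (nat_lit 409) (nat_lit 295)) (XT.nd (nat_lit 78) (nat_lit 76) (nat_lit 0) (XT.lf (nat_lit 0) (nat_lit 13333740461) (nat_lit 152) (nat_lit 15413520369) (nat_lit 76) (nat_lit 63214007288) (nat_lit 55) (nat_lit 5) (nat_lit 57) (nat_lit 5) (nat_lit 56) (nat_lit 4) (nat_lit 497) (nat_lit 409) (nat_lit 294)) (XT.lf (nat_lit 0) (nat_lit 58015130611) (nat_lit 152) (nat_lit 20397323928) (nat_lit 0) (nat_lit 16764217760) (nat_lit 54) (nat_lit 5) (nat_lit 56) (nat_lit 4) (nat_lit 54) (nat_lit 4) (nat_lit 498) (nat_lit 409) (nat_lit 293)))) (XT.nd (nat_lit 156) (nat_lit 0) (nat_lit 0) (XT.nd (nat_lit 78) (nat_lit 912) (nat_lit 0) (XT.lf (nat_lit 0) (nat_lit 1726390823)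 (nat_lit 0) (nat_lit 1726390823) (nat_lit 836) (nat_lit 344922180) (nat_lit 400) (nat_lit 5) (nat_lit 400) (nat_lit 3) (nat_lit 411) (nat_lit 3) (nat_lit 410) (nat_lit 410) (nat_lit 380)) (XT.lf (nat_lit 0) (nat_lit 1644266556) (nat_lit 912) (nat_lit 5521657730) (nat_lit 988) (nat_lit 549318313) (nat_lit 388) (nat_lit 5) (nat_lit 400) (nat_lit 5) (nat_lit 401) (nat_lit 5) (nat_lit 411) (nat_lit 410) (nat_lit 379))) (XT.nd (nat_lit 78) (nat_lit 0) (nat_lit 76) (XT.lf (nat_lit 76) (nat_lit 987563358) (nat_lit 0) (nat_lit 3032795204) (nat_lit 988) (nat_lit 3822327702) (nat_lit 389) (nat_lit 5) (nat_lit 388) (nat_lit 5) (nat_lit 401) (nat_lit 5) (nat_lit 412) (nat_lit 410) (nat_lit 378)) (XT.lf (nat_lit 0) (nat_lit 6444085026) (nat_lit 912) (nat_lit 135622344) (nat_lit 988) (nat_lit 1398937612) (nat_lit 389) (nat_lit 5) (nat_lit 401) (nat_lit 5) (nat_lit 402) (nat_lit 5) (nat_lit 413) (nat_lit 410)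 (nat_lit 377)))))) (XT.nd (nat_lit 468) (nat_lit 6080) (nat_lit 0) (XT.nd (nat_lit 234) (nat_lit 836) (nat_lit 0) (XT.nd (nat_lit 78) (nat_lit 0) (nat_lit 76) (XT.lf (nat_lit 0) (nat_lit 813231359) (nat_lit 988) (nat_lit 1187026758) (nat_lit 1064) (nat_lit 6122023549) (nat_lit 376) (nat_lit 5) (nat_lit 389) (nat_lit 5) (nat_lit 390) (nat_lit 5) (nat_lit 414) (nat_lit 410) (nat_lit 376)) (XT.nd (nat_lit 78) (nat_lit 0) (nat_lit 0) (XT.lf (nat_lit 0) (nat_lit 3205282312) (nat_lit 988) (nat_lit 2191271634) (nat_lit 1064) (nat_lit 2877339055) (nat_lit 377) (nat_lit 5) (nat_lit 390) (nat_lit 5) (nat_lit 391) (nat_lit 5) (nat_lit 415) (nat_lit 410) (nat_lit 375)) (XT.lf (nat_lit 76) (nat_lit 5307723585) (nat_lit 0) (nat_lit 368575118) (nat_lit 1064) (nat_lit 2758011824) (nat_lit 378) (nat_lit 5) (nat_lit 377) (nat_lit 5) (nat_lit 391) (nat_lit 5) (nat_lit 416) (nat_lit 410) (nat_lit 374)))) (XT.nd (nat_lit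 78) (nat_lit 988) (nat_lit 0) (XT.lf (nat_lit 76) (nat_lit 4582446796) (nat_lit 0) (nat_lit 3683768015) (nat_lit 1064) (nat_lit 336679856) (nat_lit 379) (nat_lit 5) (nat_lit 378) (nat_lit 5) (nat_lit 392) (nat_lit 5) (nat_lit 417) (nat_lit 410) (nat_lit 373)) (XT.nd (nat_lit 78) (nat_lit 0) (nat_lit 0) (XT.lf (nat_lit 0) (nat_lit 2139100318) (nat_lit 1064) (nat_lit 4867906609) (nat_lit 1140) (nat_lit 1772978048) (nat_lit 365) (nat_lit 5) (nat_lit 379) (nat_lit 5) (nat_lit 380) (nat_lit 5) (nat_lit 418) (nat_lit 410) (nat_lit 372)) (XT.lf (nat_lit 76) (nat_lit 3297982119) (nat_lit 0) (nat_lit 1434459508) (nat_lit 1140) (nat_lit 4233371571) (nat_lit 366) (nat_lit 5) (nat_lit 365) (nat_lit 5) (nat_lit 380) (nat_lit 5) (nat_lit 419) (nat_lit 410) (nat_lit 371))))) (XT.nd (nat_lit 234) (nat_lit 2660) (nat_lit 0) (XT.nd (nat_lit 78) (nat_lit 2432) (nat_lit 0) (XT.lf (nat_lit 0) (nat_lit 2738074281) (nat_lit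 1064) (nat_lit 4731397713) (nat_lit 1140) (nat_lit 1691045383) (nat_lit 352) (nat_lit 5) (nat_lit 366) (nat_lit 5) (nat_lit 367) (nat_lit 5) (nat_lit 420) (nat_lit 410) (nat_lit 370)) (XT.nd (nat_lit 78) (nat_lit 1216) (nat_lit 0) (XT.lf (nat_lit 0) (nat_lit 964698473) (nat_lit 1216) (nat_lit 7124799975) (nat_lit 76) (nat_lit 1275019176) (nat_lit 336) (nat_lit 5) (nat_lit 352) (nat_lit 5) (nat_lit 337) (nat_lit 5) (nat_lit 421) (nat_lit 410) (nat_lit 369)) (XT.lf (nat_lit 0) (nat_lit 1774594196) (nat_lit 1216) (nat_lit 1977601394) (nat_lit 1292) (nat_lit 5825006399) (nat_lit 320) (nat_lit 5) (nat_lit 336) (nat_lit 5) (nat_lit 337) (nat_lit 5) (nat_lit 422) (nat_lit 410) (nat_lit 368)))) (XT.nd (nat_lit 156) (nat_lit 1216) (nat_lit 0) (XT.nd (nat_lit 78) (nat_lit 608) (nat_lit 0) (XT.lf (nat_lit 0) (nat_lit 1365317927) (nat_lit 836) (nat_lit 5349600118) (nat_lit 912) (nat_lit 3084531375) (nat_lit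 309) (nat_lit 5) (nat_lit 320) (nat_lit 5) (nat_lit 321) (nat_lit 5) (nat_lit 423) (nat_lit 410) (nat_lit 367)) (XT.lf (nat_lit 0) (nat_lit 1025211202) (nat_lit 608) (nat_lit 8831813113) (nat_lit 684) (nat_lit 174851632) (nat_lit 301) (nat_lit 5) (nat_lit 309) (nat_lit 5) (nat_lit 310) (nat_lit 5) (nat_lit 424) (nat_lit 410) (nat_lit 366))) (XT.nd (nat_lit 78) (nat_lit 532) (nat_lit 0) (XT.lf (nat_lit 0) (nat_lit 704720311) (nat_lit 608) (nat_lit 2180145569) (nat_lit 684) (nat_lit 7388408371) (nat_lit 292) (nat_lit 5) (nat_lit 300) (nat_lit 5) (nat_lit 301) (nat_lit 5) (nat_lit 425) (nat_lit 410) (nat_lit 365)) (XT.lf (nat_lit 0) (nat_lit 438642923) (nat_lit 532) (nat_lit 5715045244) (nat_lit 608) (nat_lit 4371213975) (nat_lit 285) (nat_lit 5) (nat_lit 292) (nat_lit 5) (nat_lit 293) (nat_lit 5) (nat_lit 426) (nat_lit 410) (nat_lit 364))))))) (XT.nd (nat_lit 1014) (nat_lit 4180) (nat_lit 0) (XT.nd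 (nat_lit 468) (nat_lit 3420) (nat_lit 0) (XT.nd (nat_lit 234) (nat_lit 1520) (nat_lit 0) (XT.nd (nat_lit 78) (nat_lit 608) (nat_lit 0) (XT.lf (nat_lit 0) (nat_lit 242421892) (nat_lit 608) (nat_lit 9398616938) (nat_lit 684) (nat_lit 1146423463) (nat_lit 277) (nat_lit 5) (nat_lit 285) (nat_lit 5) (nat_lit 286) (nat_lit 5) (nat_lit 427) (nat_lit 410) (nat_lit 363)) (XT.nd (nat_lit 78) (nat_lit 0) (nat_lit 0) (XT.lf (nat_lit 0) (nat_lit 73494738) (nat_lit 532) (nat_lit 2206775300) (nat_lit 608) (nat_lit 8779706795) (nat_lit 269) (nat_lit 5) (nat_lit 276) (nat_lit 5) (nat_lit 277) (nat_lit 5) (nat_lit 428) (nat_lit 410) (nat_lit 362)) (XT.lf (nat_lit 0) (nat_lit 5939811488) (nat_lit 608) (nat_lit 49283394) (nat_lit 76) (nat_lit 5354128073) (nat_lit 269) (nat_lit 5) (nat_lit 277) (nat_lit 5) (nat_lit 270) (nat_lit 5) (nat_lit 429) (nat_lit 410) (nat_lit 361)))) (XT.nd (nat_lit 78) (nat_lit 988) (nat_lit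 0) (XT.lf (nat_lit 0) (nat_lit 9859776389) (nat_lit 608) (nat_lit 98899751) (nat_lit 76) (nat_lit 1679634773) (nat_lit 262) (nat_lit 5) (nat_lit 270) (nat_lit 5) (nat_lit 263) (nat_lit 5) (nat_lit 430) (nat_lit 410) (nat_lit 360)) (XT.nd (nat_lit 78) (nat_lit 456) (nat_lit 0) (XT.lf (nat_lit 0) (nat_lit 2094139944) (nat_lit 532) (nat_lit 115619318) (nat_lit 76) (nat_lit 9734628422) (nat_lit 255) (nat_lit 5) (nat_lit 262) (nat_lit 5) (nat_lit 256) (nat_lit 5) (nat_lit 431) (nat_lit 410) (nat_lit 359)) (XT.lf (nat_lit 0) (nat_lit 6232902597) (nat_lit 532) (nat_lit 92405438) (nat_lit 76) (nat_lit 5936657437) (nat_lit 249) (nat_lit 5) (nat_lit 256) (nat_lit 5) (nat_lit 250) (nat_lit 5) (nat_lit 432) (nat_lit 410) (nat_lit 358))))) (XT.nd (nat_lit 234) (nat_lit 1596) (nat_lit 0) (XT.nd (nat_lit 78) (nat_lit 912) (nat_lit 0) (XT.lf (nat_lit 0) (nat_lit 8369828) (nat_lit 456) (nat_lit 10668462971) (nat_lit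 532) (nat_lit 1915644919) (nat_lit 237) (nat_lit 5) (nat_lit 243) (nat_lit 5) (nat_lit 244) (nat_lit 5) (nat_lit 433) (nat_lit 410) (nat_lit 357)) (XT.nd (nat_lit 78) (nat_lit 456) (nat_lit 0) (XT.lf (nat_lit 0) (nat_lit 146172874) (nat_lit 380) (nat_lit 2340336005) (nat_lit 456) (nat_lit 10448416919) (nat_lit 231) (nat_lit 5) (nat_lit 236) (nat_lit 5) (nat_lit 237) (nat_lit 5) (nat_lit 434) (nat_lit 410) (nat_lit 356)) (XT.lf (nat_lit 0) (nat_lit 328000147) (nat_lit 456) (nat_lit 6874495894) (nat_lit 532) (nat_lit 6087433070) (nat_lit 225) (nat_lit 5) (nat_lit 231) (nat_lit 5) (nat_lit 232) (nat_lit 5) (nat_lit 435) (nat_lit 410) (nat_lit 355)))) (XT.nd (nat_lit 156) (nat_lit 760) (nat_lit 0) (XT.nd (nat_lit 78) (nat_lit 456) (nat_lit 0) (XT.lf (nat_lit 0) (nat_lit 596964333) (nat_lit 380) (nat_lit 11677125044) (nat_lit 456) (nat_lit 1385001066) (nat_lit 220) (nat_lit 5) (nat_lit 225) (nat_lit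 5) (nat_lit 226) (nat_lit 5) (nat_lit 436) (nat_lit 410) (nat_lit 354)) (XT.lf (nat_lit 0) (nat_lit 894865405) (nat_lit 380) (nat_lit 2742125327) (nat_lit 456) (nat_lit 10404083691) (nat_lit 214) (nat_lit 5) (nat_lit 219) (nat_lit 5) (nat_lit 220) (nat_lit 5) (nat_lit 437) (nat_lit 410) (nat_lit 353))) (XT.nd (nat_lit 78) (nat_lit 380) (nat_lit 0) (XT.lf (nat_lit 0) (nat_lit 1250888120) (nat_lit 380) (nat_lit 7785347036) (nat_lit 456) (nat_lit 5400868961) (nat_lit 209) (nat_lit 5) (nat_lit 214) (nat_lit 5) (nat_lit 215) (nat_lit 5) (nat_lit 438) (nat_lit 410) (nat_lit 352)) (XT.lf (nat_lit 0) (nat_lit 1704639249) (nat_lit 380) (nat_lit 13141371417) (nat_lit 456) (nat_lit 2709287) (nat_lit 204) (nat_lit 5) (nat_lit 209) (nat_lit 5) (nat_lit 210) (nat_lit 5) (nat_lit 439) (nat_lit 410) (nat_lit 351)))))) (XT.nd (nat_lit 546) (nat_lit 1900) (nat_lit 0) (XT.nd (nat_lit 234) (nat_lit 1216) (nat_lit 0)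 (XT.nd (nat_lit 78) (nat_lit 684) (nat_lit 0) (XT.lf (nat_lit 0) (nat_lit 2169751578) (nat_lit 304) (nat_lit 3567614636) (nat_lit 380) (nat_lit 9536441414) (nat_lit 199) (nat_lit 5) (nat_lit 203) (nat_lit 5) (nat_lit 204) (nat_lit 5) (nat_lit 440) (nat_lit 410) (nat_lit 350)) (XT.nd (nat_lit 78) (nat_lit 380) (nat_lit 0) (XT.lf (nat_lit 0) (nat_lit 2721160804) (nat_lit 304) (nat_lit 9216041265) (nat_lit 380) (nat_lit 3777763952) (nat_lit 195) (nat_lit 5) (nat_lit 199) (nat_lit 5) (nat_lit 200) (nat_lit 5) (nat_lit 441) (nat_lit 410) (nat_lit 349)) (XT.lf (nat_lit 0) (nat_lit 2387674108) (nat_lit 380) (nat_lit 12813449714) (nat_lit 76) (nat_lit 971512626) (nat_lit 190) (nat_lit 5) (nat_lit 195) (nat_lit 5) (nat_lit 191) (nat_lit 5) (nat_lit 442) (nat_lit 410) (nat_lit 348)))) (XT.nd (nat_lit 156) (nat_lit 608) (nat_lit 0) (XT.nd (nat_lit 78) (nat_lit 304) (nat_lit 0) (XT.lf (nat_lit 0) (nat_lit 4024198700)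 (nat_lit 304) (nat_lit 4977025844) (nat_lit 380) (nat_lit 7644305968) (nat_lit 186) (nat_lit 5) (nat_lit 190) (nat_lit 5) (nat_lit 191) (nat_lit 5) (nat_lit 443) (nat_lit 410) (nat_lit 347)) (XT.lf (nat_lit 0) (nat_lit 4797212500) (nat_lit 304) (nat_lit 11334808996) (nat_lit 380) (nat_lit 1004451987) (nat_lit 182) (nat_lit 5) (nat_lit 186) (nat_lit 5) (nat_lit 187) (nat_lit 5) (nat_lit 444) (nat_lit 410) (nat_lit 346))) (XT.nd (nat_lit 78) (nat_lit 228) (nat_lit 0) (XT.lf (nat_lit 0) (nat_lit 5631412207) (nat_lit 304) (nat_lit 408156392) (nat_lit 380) (nat_lit 11605016736) (nat_lit 177) (nat_lit 5) (nat_lit 181) (nat_lit 5) (nat_lit 182) (nat_lit 5) (nat_lit 445) (nat_lit 410) (nat_lit 345)) (XT.lf (nat_lit 0) (nat_lit 6522678866) (nat_lit 228) (nat_lit 7144241402) (nat_lit 304) (nat_lit 4503328170) (nat_lit 174) (nat_lit 5) (nat_lit 177) (nat_lit 5) (nat_lit 178) (nat_lit 5) (nat_lit 446) (nat_lit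 410) (nat_lit 344))))) (XT.nd (nat_lit 234) (nat_lit 988) (nat_lit 0) (XT.nd (nat_lit 78) (nat_lit 532) (nat_lit 0) (XT.lf (nat_lit 0) (nat_lit 3096293526) (nat_lit 380) (nat_lit 11198146583) (nat_lit 76) (nat_lit 4420889483) (nat_lit 169) (nat_lit 5) (nat_lit 174) (nat_lit 5) (nat_lit 170) (nat_lit 5) (nat_lit 447) (nat_lit 410) (nat_lit 343)) (XT.nd (nat_lit 78) (nat_lit 304) (nat_lit 0) (XT.lf (nat_lit 0) (nat_lit 8579238486) (nat_lit 228) (nat_lit 2636726119) (nat_lit 304) (nat_lit 8063367444) (nat_lit 166) (nat_lit 5) (nat_lit 169) (nat_lit 5) (nat_lit 170) (nat_lit 5) (nat_lit 448) (nat_lit 410) (nat_lit 342)) (XT.lf (nat_lit 0) (nat_lit 135408328) (nat_lit 304) (nat_lit 10124999440) (nat_lit 76) (nat_lit 9603281579) (nat_lit 162) (nat_lit 5) (nat_lit 166) (nat_lit 5) (nat_lit 163) (nat_lit 5) (nat_lit 449) (nat_lit 410) (nat_lit 341)))) (XT.nd (nat_lit 156) (nat_lit 532) (nat_lit 0) (XT.nd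 (nat_lit 78) (nat_lit 228) (nat_lit 0) (XT.lf (nat_lit 0) (nat_lit 8802408296) (nat_lit 304) (nat_lit 9502437236) (nat_lit 76) (nat_lit 2163273343) (nat_lit 159) (nat_lit 5) (nat_lit 163) (nat_lit 5) (nat_lit 160) (nat_lit 5) (nat_lit 450) (nat_lit 410) (nat_lit 340)) (XT.lf (nat_lit 0) (nat_lit 12292226824) (nat_lit 228) (nat_lit 5897427201) (nat_lit 304) (nat_lit 2904509809) (nat_lit 156) (nat_lit 5) (nat_lit 159) (nat_lit 5) (nat_lit 160) (nat_lit 5) (nat_lit 451) (nat_lit 410) (nat_lit 339))) (XT.nd (nat_lit 78) (nat_lit 228) (nat_lit 0) (XT.lf (nat_lit 0) (nat_lit 6435068506) (nat_lit 304) (nat_lit 8046068025) (nat_lit 76) (nat_lit 7260665482) (nat_lit 152) (nat_lit 5) (nat_lit 156) (nat_lit 5) (nat_lit 153) (nat_lit 5) (nat_lit 452) (nat_lit 410) (nat_lit 338)) (XT.lf (nat_lit 0) (nat_lit 15226694166) (nat_lit 228) (nat_lit 1214661915) (nat_lit 304) (nat_lit 5971810022) (nat_lit 149) (nat_lit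 5) (nat_lit 152) (nat_lit 5) (nat_lit 153) (nat_lit 5) (nat_lit 453) (nat_lit 410) (nat_lit 337))))))))
noncomputable def xc65 : XT := (XT.nd (nat_lit 2028) (nat_lit 2280) (nat_lit 0) (XT.nd (nat_lit 1014) (nat_lit 2052) (nat_lit 0) (XT.nd (nat_lit 468) (nat_lit 1444) (nat_lit 0) (XT.nd (nat_lit 234) (nat_lit 684) (nat_lit 0) (XT.nd (nat_lit 78) (nat_lit 456) (nat_lit 0) (XT.lf (nat_lit 0) (nat_lit 4089152590) (nat_lit 228) (nat_lit 6289572326) (nat_lit 76) (nat_lit 12728248888) (nat_lit 146) (nat_lit 5) (nat_lit 149) (nat_lit 5) (nat_lit 147) (nat_lit 5) (nat_lit 454) (nat_lit 410) (nat_lit 336)) (XT.nd (nat_lit 78) (nat_lit 228) (nat_lit 0) (XT.lf (nat_lit 0) (nat_lit 14796473864) (nat_lit 304) (nat_lit 5297744203) (nat_lit 76) (nat_lit 3731476159) (nat_lit 143) (nat_lit 5) (nat_lit 147) (nat_lit 5) (nat_lit 144) (nat_lit 5) (nat_lit 455) (nat_lit 410) (nat_lit 335)) (XT.lf (nat_lit 0) (nat_lit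 1764138877) (nat_lit 228) (nat_lit 4217072184) (nat_lit 76) (nat_lit 18588705662) (nat_lit 140) (nat_lit 5) (nat_lit 143) (nat_lit 5) (nat_lit 141) (nat_lit 5) (nat_lit 456) (nat_lit 410) (nat_lit 334)))) (XT.nd (nat_lit 78) (nat_lit 456) (nat_lit 0) (XT.lf (nat_lit 0) (nat_lit 13235529082) (nat_lit 304) (nat_lit 3098572173) (nat_lit 76) (nat_lit 9004814675) (nat_lit 137) (nat_lit 5) (nat_lit 141) (nat_lit 5) (nat_lit 138) (nat_lit 5) (nat_lit 457) (nat_lit 410) (nat_lit 333)) (XT.nd (nat_lit 78) (nat_lit 304) (nat_lit 0) (XT.lf (nat_lit 0) (nat_lit 24318606952) (nat_lit 152) (nat_lit 1266059832) (nat_lit 228) (nat_lit 552573513) (nat_lit 135) (nat_lit 5) (nat_lit 137) (nat_lit 5) (nat_lit 138) (nat_lit 5) (nat_lit 458) (nat_lit 410) (nat_lit 332)) (XT.lf (nat_lit 0) (nat_lit 11747841631) (nat_lit 304) (nat_lit 562658699) (nat_lit 76) (nat_lit 14649704455) (nat_lit 131) (nat_lit 5) (nat_lit 135)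 (nat_lit 5) (nat_lit 132) (nat_lit 5) (nat_lit 459) (nat_lit 410) (nat_lit 331))))) (XT.nd (nat_lit 234) (nat_lit 760) (nat_lit 0) (XT.nd (nat_lit 78) (nat_lit 380) (nat_lit 0) (XT.lf (nat_lit 0) (nat_lit 888840513) (nat_lit 152) (nat_lit 24083689460) (nat_lit 228) (nat_lit 2842003455) (nat_lit 127) (nat_lit 5) (nat_lit 129) (nat_lit 5) (nat_lit 130) (nat_lit 5) (nat_lit 460) (nat_lit 410) (nat_lit 330)) (XT.nd (nat_lit 78) (nat_lit 152) (nat_lit 0) (XT.lf (nat_lit 0) (nat_lit 2369358066) (nat_lit 152) (nat_lit 7986345134) (nat_lit 228) (nat_lit 18340744669) (nat_lit 124) (nat_lit 5) (nat_lit 126) (nat_lit 5) (nat_lit 127) (nat_lit 5) (nat_lit 461) (nat_lit 410) (nat_lit 329)) (XT.lf (nat_lit 0) (nat_lit 3981487477) (nat_lit 152) (nat_lit 20545887916) (nat_lit 228) (nat_lit 5083053183) (nat_lit 122) (nat_lit 5) (nat_lit 124) (nat_lit 5) (nat_lit 125) (nat_lit 5) (nat_lit 462) (nat_lit 410) (nat_lit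 328)))) (XT.nd (nat_lit 156) (nat_lit 380) (nat_lit 0) (XT.nd (nat_lit 78) (nat_lit 152) (nat_lit 0) (XT.lf (nat_lit 0) (nat_lit 5680532082) (nat_lit 152) (nat_lit 3362532915) (nat_lit 228) (nat_lit 21513155336) (nat_lit 119) (nat_lit 5) (nat_lit 121) (nat_lit 5) (nat_lit 122) (nat_lit 5) (nat_lit 463) (nat_lit 410) (nat_lit 327)) (XT.lf (nat_lit 0) (nat_lit 7445096738) (nat_lit 152) (nat_lit 16775166502) (nat_lit 228) (nat_lit 7314032004) (nat_lit 117) (nat_lit 5) (nat_lit 119) (nat_lit 5) (nat_lit 120) (nat_lit 5) (nat_lit 464) (nat_lit 410) (nat_lit 326))) (XT.nd (nat_lit 78) (nat_lit 152) (nat_lit 0) (XT.lf (nat_lit 0) (nat_lit 7814944932) (nat_lit 228) (nat_lit 23195924566) (nat_lit 76) (nat_lit 1537171370) (nat_lit 114) (nat_lit 5) (nat_lit 117) (nat_lit 5) (nat_lit 115) (nat_lit 5) (nat_lit 465) (nat_lit 410) (nat_lit 325)) (XT.lf (nat_lit 0) (nat_lit 11285561533) (nat_lit 152) (nat_lit 12764298458)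 (nat_lit 228) (nat_lit 9545418982) (nat_lit 112) (nat_lit 5) (nat_lit 114) (nat_lit 5) (nat_lit 115) (nat_lit 5) (nat_lit 466) (nat_lit 410) (nat_lit 324)))))) (XT.nd (nat_lit 468) (nat_lit 1064) (nat_lit 0) (XT.nd (nat_lit 234) (nat_lit 456) (nat_lit 0) (XT.nd (nat_lit 78) (nat_lit 304) (nat_lit 0) (XT.lf (nat_lit 0) (nat_lit 6684245318) (nat_lit 228) (nat_lit 21313872340) (nat_lit 76) (nat_lit 6682689850) (nat_lit 109) (nat_lit 5) (nat_lit 112) (nat_lit 5) (nat_lit 110) (nat_lit 5) (nat_lit 467) (nat_lit 410) (nat_lit 323)) (XT.nd (nat_lit 78) (nat_lit 152) (nat_lit 0) (XT.lf (nat_lit 0) (nat_lit 15503910645) (nat_lit 152) (nat_lit 8508062509) (nat_lit 228) (nat_lit 11791284502) (nat_lit 107) (nat_lit 5) (nat_lit 109) (nat_lit 5) (nat_lit 110) (nat_lit 5) (nat_lit 468) (nat_lit 410) (nat_lit 322)) (XT.lf (nat_lit 0) (nat_lit 5607795117) (nat_lit 152) (nat_lit 19209365841) (nat_lit 76) (nat_lit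 12148598592) (nat_lit 105) (nat_lit 5) (nat_lit 107) (nat_lit 5) (nat_lit 106) (nat_lit 5) (nat_lit 469) (nat_lit 410) (nat_lit 321)))) (XT.nd (nat_lit 78) (nat_lit 304) (nat_lit 0) (XT.lf (nat_lit 0) (nat_lit 20094879713) (nat_lit 152) (nat_lit 4003963419) (nat_lit 228) (nat_lit 14070065006) (nat_lit 103) (nat_lit 5) (nat_lit 105) (nat_lit 5) (nat_lit 106) (nat_lit 5) (nat_lit 470) (nat_lit 410) (nat_lit 320)) (XT.nd (nat_lit 78) (nat_lit 152) (nat_lit 0) (XT.lf (nat_lit 0) (nat_lit 4570385303) (nat_lit 152) (nat_lit 16902472817) (nat_lit 76) (nat_lit 17941144595) (nat_lit 101) (nat_lit 5) (nat_lit 103) (nat_lit 5) (nat_lit 102) (nat_lit 5) (nat_lit 471) (nat_lit 410) (nat_lit 319)) (XT.lf (nat_lit 0) (nat_lit 24305469245) (nat_lit 228) (nat_lit 15665765037) (nat_lit 76) (nat_lit 732330683) (nat_lit 99) (nat_lit 5) (nat_lit 102) (nat_lit 5) (nat_lit 100) (nat_lit 4) (nat_lit 472) (nat_lit 410)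 (nat_lit 318))))) (XT.nd (nat_lit 234) (nat_lit 608) (nat_lit 0) (XT.nd (nat_lit 78) (nat_lit 304) (nat_lit 0) (XT.lf (nat_lit 0) (nat_lit 3551476331) (nat_lit 152) (nat_lit 14423120138) (nat_lit 76) (nat_lit 24062960951) (nat_lit 97) (nat_lit 5) (nat_lit 99) (nat_lit 5) (nat_lit 98) (nat_lit 5) (nat_lit 473) (nat_lit 410) (nat_lit 317)) (XT.nd (nat_lit 78) (nat_lit 152) (nat_lit 0) (XT.lf (nat_lit 0) (nat_lit 24647851030) (nat_lit 228) (nat_lit 13144028558) (nat_lit 76) (nat_lit 5626845527) (nat_lit 95) (nat_lit 5) (nat_lit 98) (nat_lit 5) (nat_lit 96) (nat_lit 4) (nat_lit 474) (nat_lit 410) (nat_lit 316)) (XT.lf (nat_lit 0) (nat_lit 2524038481) (nat_lit 152) (nat_lit 11813420150) (nat_lit 76) (nat_lit 30511987898) (nat_lit 93) (nat_lit 5) (nat_lit 95) (nat_lit 5) (nat_lit 94) (nat_lit 5) (nat_lit 475) (nat_lit 410) (nat_lit 315)))) (XT.nd (nat_lit 156) (nat_lit 304) (nat_lit 0) (XT.nd (nat_lit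 78) (nat_lit 152) (nat_lit 0) (XT.lf (nat_lit 0) (nat_lit 25063088669) (nat_lit 228) (nat_lit 10519639538) (nat_lit 76) (nat_lit 10746372397) (nat_lit 91) (nat_lit 5) (nat_lit 94) (nat_lit 5) (nat_lit 92) (nat_lit 4) (nat_lit 476) (nat_lit 410) (nat_lit 314)) (XT.lf (nat_lit 0) (nat_lit 1453168655) (nat_lit 152) (nat_lit 9130443660) (nat_lit 76) (nat_lit 37280181254) (nat_lit 89) (nat_lit 5) (nat_lit 91) (nat_lit 5) (nat_lit 90) (nat_lit 5) (nat_lit 477) (nat_lit 410) (nat_lit 313))) (XT.nd (nat_lit 78) (nat_lit 152) (nat_lit 0) (XT.lf (nat_lit 0) (nat_lit 25518561040) (nat_lit 228) (nat_lit 7858451388) (nat_lit 76) (nat_lit 16072390273) (nat_lit 87) (nat_lit 5) (nat_lit 90) (nat_lit 5) (nat_lit 88) (nat_lit 4) (nat_lit 478) (nat_lit 410) (nat_lit 312)) (XT.lf (nat_lit 0) (nat_lit 294444014) (nat_lit 152) (nat_lit 6449520063) (nat_lit 76) (nat_lit 44351968741) (nat_lit 85) (nat_lit 5) (nat_lit 87)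 (nat_lit 5) (nat_lit 86) (nat_lit 5) (nat_lit 479) (nat_lit 410) (nat_lit 311))))))) (XT.nd (nat_lit 1014) (nat_lit 608) (nat_lit 0) (XT.nd (nat_lit 468) (nat_lit 836) (nat_lit 0) (XT.nd (nat_lit 234) (nat_lit 380) (nat_lit 0) (XT.nd (nat_lit 78) (nat_lit 304) (nat_lit 0) (XT.lf (nat_lit 0) (nat_lit 25971673797) (nat_lit 228) (nat_lit 5246460402) (nat_lit 76) (nat_lit 21577479017) (nat_lit 83) (nat_lit 5) (nat_lit 86) (nat_lit 5) (nat_lit 84) (nat_lit 4) (nat_lit 480) (nat_lit 410) (nat_lit 310)) (XT.nd (nat_lit 78) (nat_lit 228) (nat_lit 0) (XT.lf (nat_lit 0) (nat_lit 50684194646) (nat_lit 76) (nat_lit 2849945918) (nat_lit 152) (nat_lit 1028095929) (nat_lit 82) (nat_lit 5) (nat_lit 83) (nat_lit 5) (nat_lit 84) (nat_lit 4) (nat_lit 481) (nat_lit 410) (nat_lit 309)) (XT.lf (nat_lit 0) (nat_lit 26367762335) (nat_lit 228) (nat_lit 2794079283) (nat_lit 76) (nat_lit 27223274032) (nat_lit 79) (nat_lit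 5) (nat_lit 82) (nat_lit 5) (nat_lit 80) (nat_lit 4) (nat_lit 482) (nat_lit 410) (nat_lit 308)))) (XT.nd (nat_lit 78) (nat_lit 304) (nat_lit 0) (XT.lf (nat_lit 0) (nat_lit 55716786830) (nat_lit 152) (nat_lit 1545435273) (nat_lit 0) (nat_lit 1018472321) (nat_lit 78) (nat_lit 5) (nat_lit 80) (nat_lit 4) (nat_lit 78) (nat_lit 4) (nat_lit 483) (nat_lit 410) (nat_lit 307)) (XT.nd (nat_lit 78) (nat_lit 152) (nat_lit 0) (XT.lf (nat_lit 0) (nat_lit 26637602057) (nat_lit 152) (nat_lit 641205741) (nat_lit 76) (nat_lit 32958035130) (nat_lit 76) (nat_lit 5) (nat_lit 78) (nat_lit 5) (nat_lit 77) (nat_lit 4) (nat_lit 484) (nat_lit 410) (nat_lit 306)) (XT.lf (nat_lit 0) (nat_lit 384485471) (nat_lit 76) (nat_lit 57511925700) (nat_lit 76) (nat_lit 4374118742) (nat_lit 74) (nat_lit 4) (nat_lit 75) (nat_lit 5) (nat_lit 75) (nat_lit 4) (nat_lit 485) (nat_lit 410) (nat_lit 305))))) (XT.nd (nat_lit 234) (nat_lit 456)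 (nat_lit 0) (XT.nd (nat_lit 78) (nat_lit 228) (nat_lit 0) (XT.lf (nat_lit 0) (nat_lit 1057406766) (nat_lit 76) (nat_lit 25647214342) (nat_lit 152) (nat_lit 37666518086) (nat_lit 72) (nat_lit 5) (nat_lit 73) (nat_lit 5) (nat_lit 74) (nat_lit 4) (nat_lit 486) (nat_lit 410) (nat_lit 304)) (XT.nd (nat_lit 78) (nat_lit 152) (nat_lit 0) (XT.lf (nat_lit 0) (nat_lit 1755086108) (nat_lit 76) (nat_lit 58208866746) (nat_lit 76) (nat_lit 6590013378) (nat_lit 71) (nat_lit 4) (nat_lit 72) (nat_lit 5) (nat_lit 72) (nat_lit 4) (nat_lit 487) (nat_lit 410) (nat_lit 303)) (XT.lf (nat_lit 0) (nat_lit 2062113507) (nat_lit 76) (nat_lit 24388292018) (nat_lit 152) (nat_lit 42360472834) (nat_lit 69) (nat_lit 5) (nat_lit 70) (nat_lit 5) (nat_lit 71) (nat_lit 4) (nat_lit 488) (nat_lit 410) (nat_lit 302)))) (XT.nd (nat_lit 156) (nat_lit 228) (nat_lit 0) (XT.nd (nat_lit 78) (nat_lit 152) (nat_lit 0) (XT.lf (nat_lit 0) (nat_lit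 2288391873) (nat_lit 76) (nat_lit 59503714528) (nat_lit 76) (nat_lit 9363005757) (nat_lit 68) (nat_lit 4) (nat_lit 69) (nat_lit 5) (nat_lit 69) (nat_lit 4) (nat_lit 489) (nat_lit 410) (nat_lit 301)) (XT.lf (nat_lit 0) (nat_lit 2085821588) (nat_lit 76) (nat_lit 23647327230) (nat_lit 152) (nat_lit 47847851369) (nat_lit 66) (nat_lit 5) (nat_lit 67) (nat_lit 5) (nat_lit 68) (nat_lit 4) (nat_lit 490) (nat_lit 410) (nat_lit 300))) (XT.nd (nat_lit 78) (nat_lit 152) (nat_lit 0) (XT.lf (nat_lit 0) (nat_lit 1680320676) (nat_lit 76) (nat_lit 61561073761) (nat_lit 76) (nat_lit 12858479417) (nat_lit 65) (nat_lit 4) (nat_lit 66) (nat_lit 5) (nat_lit 66) (nat_lit 4) (nat_lit 491) (nat_lit 410) (nat_lit 299)) (XT.lf (nat_lit 0) (nat_lit 792068519) (nat_lit 76) (nat_lit 23594641030) (nat_lit 152) (nat_lit 54321924931) (nat_lit 63) (nat_lit 5) (nat_lit 64) (nat_lit 5) (nat_lit 65) (nat_lit 4) (nat_lit 492) (nat_lit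 410) (nat_lit 298)))))) (XT.nd (nat_lit 56160) (nat_lit 0) (nat_lit 23408) (XT.nd (nat_lit 234) (nat_lit 380) (nat_lit 0) (XT.nd (nat_lit 78) (nat_lit 228) (nat_lit 0) (XT.lf (nat_lit 0) (nat_lit 64143893077) (nat_lit 152) (nat_lit 432462667) (nat_lit 0) (nat_lit 16840188055) (nat_lit 63) (nat_lit 5) (nat_lit 65) (nat_lit 4) (nat_lit 63) (nat_lit 4) (nat_lit 493) (nat_lit 410) (nat_lit 297)) (XT.nd (nat_lit 78) (nat_lit 76) (nat_lit 0) (XT.lf (nat_lit 0) (nat_lit 22229877995) (nat_lit 152) (nat_lit 2186173641) (nat_lit 76) (nat_lit 59806874076) (nat_lit 61) (nat_lit 5) (nat_lit 63) (nat_lit 5) (nat_lit 62) (nat_lit 4) (nat_lit 494) (nat_lit 410) (nat_lit 296)) (XT.lf (nat_lit 0) (nat_lit 64319230245) (nat_lit 152) (nat_lit 4440184238) (nat_lit 0) (nat_lit 18376014139) (nat_lit 60) (nat_lit 5) (nat_lit 62) (nat_lit 4) (nat_lit 60) (nat_lit 4) (nat_lit 495) (nat_lit 410) (nat_lit 295)))) (XT.nd (nat_lit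 156) (nat_lit 152) (nat_lit 0) (XT.nd (nat_lit 78) (nat_lit 76) (nat_lit 0) (XT.lf (nat_lit 0) (nat_lit 19024159512) (nat_lit 152) (nat_lit 7332204306) (nat_lit 76) (nat_lit 63800045601) (nat_lit 58) (nat_lit 5) (nat_lit 60) (nat_lit 5) (nat_lit 59) (nat_lit 4) (nat_lit 496) (nat_lit 410) (nat_lit 294)) (XT.lf (nat_lit 0) (nat_lit 63498852420) (nat_lit 152) (nat_lit 10913820619) (nat_lit 0) (nat_lit 18878563441) (nat_lit 57) (nat_lit 5) (nat_lit 59) (nat_lit 4) (nat_lit 57) (nat_lit 4) (nat_lit 497) (nat_lit 410) (nat_lit 293))) (XT.nd (nat_lit 55692) (nat_lit 0) (nat_lit 25232) (XT.lf (nat_lit 0) (nat_lit 14470049576) (nat_lit 152) (nat_lit 15253161416) (nat_lit 76) (nat_lit 66822030566) (nat_lit 55) (nat_lit 5) (nat_lit 57) (nat_lit 5) (nat_lit 56) (nat_lit 4) (nat_lit 498) (nat_lit 410) (nat_lit 292)) (XT.lf (nat_lit 0) (nat_lit 1919851466) (nat_lit 988) (nat_lit 999734012) (nat_lit 988) (nat_lit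 999734012) (nat_lit 387) (nat_lit 3) (nat_lit 400) (nat_lit 3) (nat_lit 400) (nat_lit 5) (nat_lit 411) (nat_lit 411) (nat_lit 378))))) (XT.nd (nat_lit 234) (nat_lit 912) (nat_lit 0) (XT.nd (nat_lit 78) (nat_lit 912) (nat_lit 0) (XT.lf (nat_lit 76) (nat_lit 4585244035) (nat_lit 0) (nat_lit 1490703848) (nat_lit 988) (nat_lit 1894333963) (nat_lit 388) (nat_lit 5) (nat_lit 387) (nat_lit 3) (nat_lit 400) (nat_lit 5) (nat_lit 412) (nat_lit 411) (nat_lit 377)) (XT.nd (nat_lit 78) (nat_lit 0) (nat_lit 0) (XT.lf (nat_lit 0) (nat_lit 257562958) (nat_lit 988) (nat_lit 4718173803) (nat_lit 1064) (nat_lit 3134239653) (nat_lit 375) (nat_lit 5) (nat_lit 388) (nat_lit 5) (nat_lit 389) (nat_lit 5) (nat_lit 413) (nat_lit 411) (nat_lit 376)) (XT.lf (nat_lit 76) (nat_lit 2256543419) (nat_lit 0) (nat_lit 163796900) (nat_lit 1064) (nat_lit 5837485657) (nat_lit 376) (nat_lit 5) (nat_lit 375) (nat_lit 5) (nat_lit 389)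 (nat_lit 5) (nat_lit 414) (nat_lit 411) (nat_lit 375)))) (XT.nd (nat_lit 156) (nat_lit 988) (nat_lit 0) (XT.nd (nat_lit 78) (nat_lit 0) (nat_lit 76) (XT.lf (nat_lit 76) (nat_lit 1164581496) (nat_lit 0) (nat_lit 3510050539) (nat_lit 1064) (nat_lit 3738941229) (nat_lit 377) (nat_lit 5) (nat_lit 376) (nat_lit 5) (nat_lit 390) (nat_lit 5) (nat_lit 415) (nat_lit 411) (nat_lit 374)) (XT.lf (nat_lit 76) (nat_lit 144250786) (nat_lit 0) (nat_lit 6860327814) (nat_lit 1064) (nat_lit 1573647313) (nat_lit 378) (nat_lit 5) (nat_lit 377) (nat_lit 5) (nat_lit 391) (nat_lit 5) (nat_lit 416) (nat_lit 411) (nat_lit 373))) (XT.nd (nat_lit 78) (nat_lit 0) (nat_lit 76) (XT.lf (nat_lit 0) (nat_lit 682530400) (nat_lit 1064) (nat_lit 812545298) (nat_lit 1140) (nat_lit 7255951083) (nat_lit 363) (nat_lit 5) (nat_lit 377) (nat_lit 5) (nat_lit 378) (nat_lit 5) (nat_lit 417) (nat_lit 411) (nat_lit 372)) (XT.lf (nat_lit 0) (nat_lit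 3020756659) (nat_lit 1064) (nat_lit 1734418304) (nat_lit 1140) (nat_lit 4176777221) (nat_lit 364) (nat_lit 5) (nat_lit 378) (nat_lit 5) (nat_lit 379) (nat_lit 5) (nat_lit 418) (nat_lit 411) (nat_lit 371))))))))
noncomputable def xc66 : XT := (XT.nd (nat_lit 2028) (nat_lit 6308) (nat_lit 0) (XT.nd (nat_lit 1014) (nat_lit 5244) (nat_lit 0) (XT.nd (nat_lit 468) (nat_lit 4104) (nat_lit 0) (XT.nd (nat_lit 234) (nat_lit 3192) (nat_lit 0) (XT.nd (nat_lit 78) (nat_lit 1064) (nat_lit 0) (XT.lf (nat_lit 0) (nat_lit 5468405781) (nat_lit 1064) (nat_lit 2593914552) (nat_lit 1140) (nat_lit 1059833379) (nat_lit 365) (nat_lit 5) (nat_lit 379) (nat_lit 5) (nat_lit 380) (nat_lit 5) (nat_lit 419) (nat_lit 411) (nat_lit 370)) (XT.nd (nat_lit 78) (nat_lit 1064) (nat_lit 0) (XT.lf (nat_lit 76) (nat_lit 5908108208) (nat_lit 0) (nat_lit 2153365706) (nat_lit 1140) (nat_lit 1259705259) (nat_lit 366) (nat_lit 5) (nat_lit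 365) (nat_lit 5) (nat_lit 380) (nat_lit 5) (nat_lit 420) (nat_lit 411) (nat_lit 369)) (XT.lf (nat_lit 0) (nat_lit 1251514107) (nat_lit 1140) (nat_lit 4195361480) (nat_lit 76) (nat_lit 4082264903) (nat_lit 351) (nat_lit 5) (nat_lit 366) (nat_lit 5) (nat_lit 352) (nat_lit 5) (nat_lit 421) (nat_lit 411) (nat_lit 368)))) (XT.nd (nat_lit 78) (nat_lit 2052) (nat_lit 0) (XT.lf (nat_lit 0) (nat_lit 3882542576) (nat_lit 1216) (nat_lit 4932127284) (nat_lit 76) (nat_lit 931851184) (nat_lit 336) (nat_lit 5) (nat_lit 352) (nat_lit 5) (nat_lit 337) (nat_lit 5) (nat_lit 422) (nat_lit 411) (nat_lit 367)) (XT.nd (nat_lit 78) (nat_lit 836) (nat_lit 0) (XT.lf (nat_lit 0) (nat_lit 4339172525) (nat_lit 1216) (nat_lit 2357393338) (nat_lit 1292) (nat_lit 3276665613) (nat_lit 320) (nat_lit 5) (nat_lit 336) (nat_lit 5) (nat_lit 337) (nat_lit 5) (nat_lit 423) (nat_lit 411) (nat_lit 366)) (XT.lf (nat_lit 0) (nat_lit 3921541921)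 (nat_lit 836) (nat_lit 5775952275) (nat_lit 912) (nat_lit 512401076) (nat_lit 309) (nat_lit 5) (nat_lit 320) (nat_lit 5) (nat_lit 321) (nat_lit 5) (nat_lit 424) (nat_lit 411) (nat_lit 365))))) (XT.nd (nat_lit 234) (nat_lit 2280) (nat_lit 0) (XT.nd (nat_lit 78) (nat_lit 1140) (nat_lit 0) (XT.lf (nat_lit 0) (nat_lit 2388606741) (nat_lit 684) (nat_lit 6908628400) (nat_lit 76) (nat_lit 1159116458) (nat_lit 300) (nat_lit 5) (nat_lit 309) (nat_lit 5) (nat_lit 301) (nat_lit 5) (nat_lit 425) (nat_lit 411) (nat_lit 364)) (XT.nd (nat_lit 78) (nat_lit 532) (nat_lit 0) (XT.lf (nat_lit 0) (nat_lit 3213563176) (nat_lit 608) (nat_lit 2285627032) (nat_lit 684) (nat_lit 5213538146) (nat_lit 292) (nat_lit 5) (nat_lit 300) (nat_lit 5) (nat_lit 301) (nat_lit 5) (nat_lit 426) (nat_lit 411) (nat_lit 363)) (XT.lf (nat_lit 0) (nat_lit 2935325961) (nat_lit 532) (nat_lit 5902325839) (nat_lit 608) (nat_lit 2142104996) (nat_lit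 285) (nat_lit 5) (nat_lit 292) (nat_lit 5) (nat_lit 293) (nat_lit 5) (nat_lit 427) (nat_lit 411) (nat_lit 362)))) (XT.nd (nat_lit 156) (nat_lit 1064) (nat_lit 0) (XT.nd (nat_lit 78) (nat_lit 532) (nat_lit 0) (XT.lf (nat_lit 0) (nat_lit 1130280676) (nat_lit 684) (nat_lit 8542405436) (nat_lit 76) (nat_lit 1585085969) (nat_lit 276) (nat_lit 5) (nat_lit 285) (nat_lit 5) (nat_lit 277) (nat_lit 5) (nat_lit 428) (nat_lit 411) (nat_lit 361)) (XT.lf (nat_lit 0) (nat_lit 2523298313) (nat_lit 532) (nat_lit 2095009314) (nat_lit 608) (nat_lit 6927857436) (nat_lit 269) (nat_lit 5) (nat_lit 276) (nat_lit 5) (nat_lit 277) (nat_lit 5) (nat_lit 429) (nat_lit 411) (nat_lit 360))) (XT.nd (nat_lit 78) (nat_lit 532) (nat_lit 0) (XT.lf (nat_lit 0) (nat_lit 2386055295) (nat_lit 532) (nat_lit 5993834507) (nat_lit 608) (nat_lit 3466116058) (nat_lit 262) (nat_lit 5) (nat_lit 269) (nat_lit 5) (nat_lit 270) (nat_lit 5) (nat_lit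 430) (nat_lit 411) (nat_lit 359)) (XT.lf (nat_lit 0) (nat_lit 256070664) (nat_lit 532) (nat_lit 9837855303) (nat_lit 76) (nat_lit 2064147139) (nat_lit 255) (nat_lit 5) (nat_lit 262) (nat_lit 5) (nat_lit 256) (nat_lit 5) (nat_lit 431) (nat_lit 411) (nat_lit 358)))))) (XT.nd (nat_lit 468) (nat_lit 2508) (nat_lit 0) (XT.nd (nat_lit 234) (nat_lit 1368) (nat_lit 0) (XT.nd (nat_lit 78) (nat_lit 912) (nat_lit 0) (XT.lf (nat_lit 0) (nat_lit 2275723362) (nat_lit 456) (nat_lit 1933684162) (nat_lit 532) (nat_lit 8271807339) (nat_lit 249) (nat_lit 5) (nat_lit 255) (nat_lit 5) (nat_lit 256) (nat_lit 5) (nat_lit 432) (nat_lit 411) (nat_lit 357)) (XT.nd (nat_lit 78) (nat_lit 456) (nat_lit 0) (XT.lf (nat_lit 0) (nat_lit 2286875659) (nat_lit 456) (nat_lit 6199158198) (nat_lit 532) (nat_lit 4330713507) (nat_lit 243) (nat_lit 5) (nat_lit 249) (nat_lit 5) (nat_lit 250) (nat_lit 5) (nat_lit 433) (nat_lit 411) (nat_lit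 356)) (XT.lf (nat_lit 0) (nat_lit 2378763749) (nat_lit 456) (nat_lit 10708691913) (nat_lit 532) (nat_lit 78274126) (nat_lit 237) (nat_lit 5) (nat_lit 243) (nat_lit 5) (nat_lit 244) (nat_lit 5) (nat_lit 434) (nat_lit 411) (nat_lit 355)))) (XT.nd (nat_lit 78) (nat_lit 912) (nat_lit 0) (XT.lf (nat_lit 0) (nat_lit 2492228025) (nat_lit 380) (nat_lit 1946259436) (nat_lit 456) (nat_lit 9088291806) (nat_lit 231) (nat_lit 5) (nat_lit 236) (nat_lit 5) (nat_lit 237) (nat_lit 5) (nat_lit 435) (nat_lit 411) (nat_lit 354)) (XT.nd (nat_lit 78) (nat_lit 456) (nat_lit 0) (XT.lf (nat_lit 0) (nat_lit 2664654178) (nat_lit 456) (nat_lit 6665571396) (nat_lit 532) (nat_lit 4571111636) (nat_lit 225) (nat_lit 5) (nat_lit 231) (nat_lit 5) (nat_lit 232) (nat_lit 5) (nat_lit 436) (nat_lit 411) (nat_lit 353)) (XT.lf (nat_lit 0) (nat_lit 301722415) (nat_lit 456) (nat_lit 11366664167) (nat_lit 76) (nat_lit 2622194204) (nat_lit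 219) (nat_lit 5) (nat_lit 225) (nat_lit 5) (nat_lit 220) (nat_lit 5) (nat_lit 437) (nat_lit 411) (nat_lit 352))))) (XT.nd (nat_lit 234) (nat_lit 1292) (nat_lit 0) (XT.nd (nat_lit 78) (nat_lit 836) (nat_lit 0) (XT.lf (nat_lit 0) (nat_lit 3207277245) (nat_lit 380) (nat_lit 2278690630) (nat_lit 456) (nat_lit 9207093415) (nat_lit 214) (nat_lit 5) (nat_lit 219) (nat_lit 5) (nat_lit 220) (nat_lit 5) (nat_lit 438) (nat_lit 411) (nat_lit 351)) (XT.nd (nat_lit 78) (nat_lit 456) (nat_lit 0) (XT.lf (nat_lit 0) (nat_lit 3559123237) (nat_lit 380) (nat_lit 7543749079) (nat_lit 456) (nat_lit 4007591743) (nat_lit 209) (nat_lit 5) (nat_lit 214) (nat_lit 5) (nat_lit 215) (nat_lit 5) (nat_lit 439) (nat_lit 411) (nat_lit 350)) (XT.lf (nat_lit 0) (nat_lit 1577822440) (nat_lit 456) (nat_lit 11547220265) (nat_lit 76) (nat_lit 2418649021) (nat_lit 203) (nat_lit 5) (nat_lit 209) (nat_lit 5) (nat_lit 204) (nat_lit 5) (nat_lit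 440) (nat_lit 411) (nat_lit 349)))) (XT.nd (nat_lit 156) (nat_lit 684) (nat_lit 0) (XT.nd (nat_lit 78) (nat_lit 304) (nat_lit 0) (XT.lf (nat_lit 0) (nat_lit 4467664764) (nat_lit 304) (nat_lit 3082960316) (nat_lit 380) (nat_lit 8441036740) (nat_lit 199) (nat_lit 5) (nat_lit 203) (nat_lit 5) (nat_lit 204) (nat_lit 5) (nat_lit 441) (nat_lit 411) (nat_lit 348)) (XT.lf (nat_lit 0) (nat_lit 5022216507) (nat_lit 304) (nat_lit 8992432238) (nat_lit 380) (nat_lit 2441605625) (nat_lit 195) (nat_lit 5) (nat_lit 199) (nat_lit 5) (nat_lit 200) (nat_lit 5) (nat_lit 442) (nat_lit 411) (nat_lit 347))) (XT.nd (nat_lit 78) (nat_lit 304) (nat_lit 0) (XT.lf (nat_lit 0) (nat_lit 3958240832) (nat_lit 380) (nat_lit 11285468088) (nat_lit 76) (nat_lit 1693984698) (nat_lit 190) (nat_lit 5) (nat_lit 195) (nat_lit 5) (nat_lit 191) (nat_lit 5) (nat_lit 443) (nat_lit 411) (nat_lit 346)) (XT.lf (nat_lit 0) (nat_lit 6331898713)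 (nat_lit 304) (nat_lit 4521714995) (nat_lit 380) (nat_lit 6582086194) (nat_lit 186) (nat_lit 5) (nat_lit 190) (nat_lit 5) (nat_lit 191) (nat_lit 5) (nat_lit 444) (nat_lit 411) (nat_lit 345))))))) (XT.nd (nat_lit 1014) (nat_lit 2812) (nat_lit 0) (XT.nd (nat_lit 468) (nat_lit 1672) (nat_lit 0) (XT.nd (nat_lit 234) (nat_lit 912) (nat_lit 0) (XT.nd (nat_lit 78) (nat_lit 532) (nat_lit 0) (XT.lf (nat_lit 0) (nat_lit 341421169) (nat_lit 380) (nat_lit 10838242621) (nat_lit 76) (nat_lit 6772637568) (nat_lit 181) (nat_lit 5) (nat_lit 186) (nat_lit 5) (nat_lit 182) (nat_lit 5) (nat_lit 445) (nat_lit 411) (nat_lit 344)) (XT.nd (nat_lit 78) (nat_lit 228) (nat_lit 0) (XT.lf (nat_lit 0) (nat_lit 7674022241) (nat_lit 380) (nat_lit 10529265349) (nat_lit 76) (nat_lit 283519911) (nat_lit 177) (nat_lit 5) (nat_lit 182) (nat_lit 5) (nat_lit 178) (nat_lit 5) (nat_lit 446) (nat_lit 411) (nat_lit 343)) (XT.lf (nat_lit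 0) (nat_lit 8869624034) (nat_lit 228) (nat_lit 6773014982) (nat_lit 304) (nat_lit 3397319382) (nat_lit 174) (nat_lit 5) (nat_lit 177) (nat_lit 5) (nat_lit 178) (nat_lit 5) (nat_lit 447) (nat_lit 411) (nat_lit 342)))) (XT.nd (nat_lit 78) (nat_lit 532) (nat_lit 0) (XT.lf (nat_lit 0) (nat_lit 4520244950) (nat_lit 380) (nat_lit 9738992884) (nat_lit 76) (nat_lit 5353755211) (nat_lit 169) (nat_lit 5) (nat_lit 174) (nat_lit 5) (nat_lit 170) (nat_lit 5) (nat_lit 448) (nat_lit 411) (nat_lit 341)) (XT.nd (nat_lit 78) (nat_lit 304) (nat_lit 0) (XT.lf (nat_lit 0) (nat_lit 10969385459) (nat_lit 228) (nat_lit 2034931151) (nat_lit 304) (nat_lit 7202127881) (nat_lit 166) (nat_lit 5) (nat_lit 169) (nat_lit 5) (nat_lit 170) (nat_lit 5) (nat_lit 449) (nat_lit 411) (nat_lit 340)) (XT.lf (nat_lit 0) (nat_lit 1348435374) (nat_lit 304) (nat_lit 8673301219) (nat_lit 76) (nat_lit 10798924053) (nat_lit 162) (nat_lit 5) (nat_lit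 166) (nat_lit 5) (nat_lit 163) (nat_lit 5) (nat_lit 450) (nat_lit 411) (nat_lit 339))))) (XT.nd (nat_lit 234) (nat_lit 912) (nat_lit 0) (XT.nd (nat_lit 78) (nat_lit 532) (nat_lit 0) (XT.lf (nat_lit 0) (nat_lit 10416688686) (nat_lit 304) (nat_lit 8047760561) (nat_lit 76) (nat_lit 2991826514) (nat_lit 159) (nat_lit 5) (nat_lit 163) (nat_lit 5) (nat_lit 160) (nat_lit 5) (nat_lit 451) (nat_lit 411) (nat_lit 338)) (XT.nd (nat_lit 78) (nat_lit 304) (nat_lit 0) (XT.lf (nat_lit 0) (nat_lit 14781319414) (nat_lit 228) (nat_lit 5454083568) (nat_lit 304) (nat_lit 1879357953) (nat_lit 156) (nat_lit 5) (nat_lit 159) (nat_lit 5) (nat_lit 160) (nat_lit 5) (nat_lit 452) (nat_lit 411) (nat_lit 337)) (XT.lf (nat_lit 0) (nat_lit 7874471643) (nat_lit 304) (nat_lit 6579116485) (nat_lit 76) (nat_lit 8341753133) (nat_lit 152) (nat_lit 5) (nat_lit 156) (nat_lit 5) (nat_lit 153) (nat_lit 5) (nat_lit 453) (nat_lit 411) (nat_lit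 336)))) (XT.nd (nat_lit 156) (nat_lit 456) (nat_lit 0) (XT.nd (nat_lit 78) (nat_lit 228) (nat_lit 0) (XT.lf (nat_lit 0) (nat_lit 17803701998) (nat_lit 228) (nat_lit 541603545) (nat_lit 304) (nat_lit 5156042072) (nat_lit 149) (nat_lit 5) (nat_lit 152) (nat_lit 5) (nat_lit 153) (nat_lit 5) (nat_lit 454) (nat_lit 411) (nat_lit 335)) (XT.lf (nat_lit 0) (nat_lit 5358339239) (nat_lit 228) (nat_lit 4794520325) (nat_lit 76) (nat_lit 14077502248) (nat_lit 146) (nat_lit 5) (nat_lit 149) (nat_lit 5) (nat_lit 147) (nat_lit 5) (nat_lit 455) (nat_lit 411) (nat_lit 334))) (XT.nd (nat_lit 78) (nat_lit 228) (nat_lit 0) (XT.lf (nat_lit 0) (nat_lit 16574206750) (nat_lit 304) (nat_lit 3781010858) (nat_lit 76) (nat_lit 4630606138) (nat_lit 143) (nat_lit 5) (nat_lit 147) (nat_lit 5) (nat_lit 144) (nat_lit 5) (nat_lit 456) (nat_lit 411) (nat_lit 333)) (XT.lf (nat_lit 0) (nat_lit 2867434293) (nat_lit 228) (nat_lit 2677156217)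 (nat_lit 76) (nat_lit 20223352830) (nat_lit 140) (nat_lit 5) (nat_lit 143) (nat_lit 5) (nat_lit 141) (nat_lit 5) (nat_lit 457) (nat_lit 411) (nat_lit 332)))))) (XT.nd (nat_lit 546) (nat_lit 1216) (nat_lit 0) (XT.nd (nat_lit 234) (nat_lit 760) (nat_lit 0) (XT.nd (nat_lit 78) (nat_lit 608) (nat_lit 0) (XT.lf (nat_lit 0) (nat_lit 14887300432) (nat_lit 304) (nat_lit 1530304864) (nat_lit 76) (nat_lit 10158540807) (nat_lit 137) (nat_lit 5) (nat_lit 141) (nat_lit 5) (nat_lit 138) (nat_lit 5) (nat_lit 458) (nat_lit 411) (nat_lit 331)) (XT.nd (nat_lit 78) (nat_lit 380) (nat_lit 0) (XT.lf (nat_lit 0) (nat_lit 399570731) (nat_lit 228) (nat_lit 210898238) (nat_lit 76) (nat_lit 26804732541) (nat_lit 134) (nat_lit 5) (nat_lit 137) (nat_lit 5) (nat_lit 135) (nat_lit 5) (nat_lit 459) (nat_lit 411) (nat_lit 330)) (XT.lf (nat_lit 0) (nat_lit 1096530764) (nat_lit 152) (nat_lit 12194176822) (nat_lit 228) (nat_lit 14988829330)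 (nat_lit 129) (nat_lit 5) (nat_lit 131) (nat_lit 5) (nat_lit 132) (nat_lit 5) (nat_lit 460) (nat_lit 411) (nat_lit 329)))) (XT.nd (nat_lit 156) (nat_lit 380) (nat_lit 0) (XT.nd (nat_lit 78) (nat_lit 228) (nat_lit 0) (XT.lf (nat_lit 0) (nat_lit 2604794869) (nat_lit 152) (nat_lit 24554675174) (nat_lit 228) (nat_lit 2017627418) (nat_lit 127) (nat_lit 5) (nat_lit 129) (nat_lit 5) (nat_lit 130) (nat_lit 5) (nat_lit 461) (nat_lit 411) (nat_lit 328)) (XT.lf (nat_lit 0) (nat_lit 4129756042) (nat_lit 152) (nat_lit 7662007724) (nat_lit 228) (nat_lit 18311946001) (nat_lit 124) (nat_lit 5) (nat_lit 126) (nat_lit 5) (nat_lit 127) (nat_lit 5) (nat_lit 462) (nat_lit 411) (nat_lit 327))) (XT.nd (nat_lit 78) (nat_lit 228) (nat_lit 0) (XT.lf (nat_lit 0) (nat_lit 5795439995) (nat_lit 152) (nat_lit 20855000333) (nat_lit 228) (nat_lit 4413597140) (nat_lit 122) (nat_lit 5) (nat_lit 124) (nat_lit 5) (nat_lit 125) (nat_lit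 5) (nat_lit 463) (nat_lit 411) (nat_lit 326)) (XT.lf (nat_lit 0) (nat_lit 7550663970) (nat_lit 152) (nat_lit 2822263529) (nat_lit 228) (nat_lit 21684761800) (nat_lit 119) (nat_lit 5) (nat_lit 121) (nat_lit 5) (nat_lit 122) (nat_lit 5) (nat_lit 464) (nat_lit 411) (nat_lit 325))))) (XT.nd (nat_lit 234) (nat_lit 684) (nat_lit 0) (XT.nd (nat_lit 78) (nat_lit 380) (nat_lit 0) (XT.lf (nat_lit 0) (nat_lit 9376964089) (nat_lit 152) (nat_lit 16911703109) (nat_lit 228) (nat_lit 6796610825) (nat_lit 117) (nat_lit 5) (nat_lit 119) (nat_lit 5) (nat_lit 120) (nat_lit 5) (nat_lit 465) (nat_lit 411) (nat_lit 324)) (XT.nd (nat_lit 78) (nat_lit 152) (nat_lit 0) (XT.lf (nat_lit 0) (nat_lit 9051726977) (nat_lit 228) (nat_lit 22805529332) (nat_lit 76) (nat_lit 2292796071) (nat_lit 114) (nat_lit 5) (nat_lit 117) (nat_lit 5) (nat_lit 115) (nat_lit 5) (nat_lit 466) (nat_lit 411) (nat_lit 323)) (XT.lf (nat_lit 0) (nat_lit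 13355595145) (nat_lit 152) (nat_lit 12716979515) (nat_lit 228) (nat_lit 9177852575) (nat_lit 112) (nat_lit 5) (nat_lit 114) (nat_lit 5) (nat_lit 115) (nat_lit 5) (nat_lit 467) (nat_lit 411) (nat_lit 322)))) (XT.nd (nat_lit 156) (nat_lit 304) (nat_lit 0) (XT.nd (nat_lit 78) (nat_lit 152) (nat_lit 0) (XT.lf (nat_lit 0) (nat_lit 7828070439) (nat_lit 228) (nat_lit 20883342158) (nat_lit 76) (nat_lit 7679138547) (nat_lit 109) (nat_lit 5) (nat_lit 112) (nat_lit 5) (nat_lit 110) (nat_lit 5) (nat_lit 468) (nat_lit 411) (nat_lit 321)) (XT.lf (nat_lit 0) (nat_lit 17732441022) (nat_lit 152) (nat_lit 8265160995) (nat_lit 228) (nat_lit 11572259659) (nat_lit 107) (nat_lit 5) (nat_lit 109) (nat_lit 5) (nat_lit 110) (nat_lit 5) (nat_lit 469) (nat_lit 411) (nat_lit 320))) (XT.nd (nat_lit 78) (nat_lit 152) (nat_lit 0) (XT.lf (nat_lit 0) (nat_lit 6663287202) (nat_lit 152) (nat_lit 18726081880) (nat_lit 76) (nat_lit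 13401418018) (nat_lit 105) (nat_lit 5) (nat_lit 107) (nat_lit 5) (nat_lit 106) (nat_lit 5) (nat_lit 470) (nat_lit 411) (nat_lit 319)) (XT.lf (nat_lit 0) (nat_lit 22501991084) (nat_lit 152) (nat_lit 3553467314) (nat_lit 228) (nat_lit 13999337948) (nat_lit 103) (nat_lit 5) (nat_lit 105) (nat_lit 5) (nat_lit 106) (nat_lit 5) (nat_lit 471) (nat_lit 411) (nat_lit 318))))))))
noncomputable def xc67 : XT := (XT.nd (nat_lit 2028) (nat_lit 76) (nat_lit 0) (XT.nd (nat_lit 1014) (nat_lit 1520) (nat_lit 0) (XT.nd (nat_lit 468) (nat_lit 988) (nat_lit 0) (XT.nd (nat_lit 234) (nat_lit 456) (nat_lit 0) (XT.nd (nat_lit 78) (nat_lit 304) (nat_lit 0) (XT.lf (nat_lit 0) (nat_lit 5541271541) (nat_lit 152) (nat_lit 16354811590) (nat_lit 76) (nat_lit 19466342231) (nat_lit 101) (nat_lit 5) (nat_lit 103) (nat_lit 5) (nat_lit 102) (nat_lit 5) (nat_lit 472) (nat_lit 411) (nat_lit 317)) (XT.nd (nat_lit 78) (nat_lit 152) (nat_lit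 0) (XT.lf (nat_lit 0) (nat_lit 26246846648) (nat_lit 228) (nat_lit 15080668776) (nat_lit 76) (nat_lit 1389438501) (nat_lit 99) (nat_lit 5) (nat_lit 102) (nat_lit 5) (nat_lit 100) (nat_lit 4) (nat_lit 473) (nat_lit 411) (nat_lit 316)) (XT.lf (nat_lit 0) (nat_lit 4440333480) (nat_lit 152) (nat_lit 13800954461) (nat_lit 76) (nat_lit 25876803144) (nat_lit 97) (nat_lit 5) (nat_lit 99) (nat_lit 5) (nat_lit 98) (nat_lit 5) (nat_lit 474) (nat_lit 411) (nat_lit 315)))) (XT.nd (nat_lit 78) (nat_lit 304) (nat_lit 0) (XT.lf (nat_lit 0) (nat_lit 26576109378) (nat_lit 228) (nat_lit 12481620666) (nat_lit 76) (nat_lit 6511049918) (nat_lit 95) (nat_lit 5) (nat_lit 98) (nat_lit 5) (nat_lit 96) (nat_lit 4) (nat_lit 475) (nat_lit 411) (nat_lit 314)) (XT.nd (nat_lit 78) (nat_lit 152) (nat_lit 0) (XT.lf (nat_lit 0) (nat_lit 3331979761) (nat_lit 152) (nat_lit 11108735200) (nat_lit 76) (nat_lit 32630746689) (nat_lit 93)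 (nat_lit 5) (nat_lit 95) (nat_lit 5) (nat_lit 94) (nat_lit 5) (nat_lit 476) (nat_lit 411) (nat_lit 313)) (XT.lf (nat_lit 0) (nat_lit 26983350836) (nat_lit 228) (nat_lit 9773288109) (nat_lit 76) (nat_lit 11868898672) (nat_lit 91) (nat_lit 5) (nat_lit 94) (nat_lit 5) (nat_lit 92) (nat_lit 4) (nat_lit 477) (nat_lit 411) (nat_lit 312))))) (XT.nd (nat_lit 234) (nat_lit 532) (nat_lit 0) (XT.nd (nat_lit 78) (nat_lit 304) (nat_lit 0) (XT.lf (nat_lit 0) (nat_lit 2179460243) (nat_lit 152) (nat_lit 8338090613) (nat_lit 76) (nat_lit 39719818972) (nat_lit 89) (nat_lit 5) (nat_lit 91) (nat_lit 5) (nat_lit 90) (nat_lit 5) (nat_lit 478) (nat_lit 411) (nat_lit 311)) (XT.nd (nat_lit 78) (nat_lit 152) (nat_lit 0) (XT.lf (nat_lit 0) (nat_lit 27434222508) (nat_lit 228) (nat_lit 7024833030) (nat_lit 76) (nat_lit 17443621081) (nat_lit 87) (nat_lit 5) (nat_lit 90) (nat_lit 5) (nat_lit 88) (nat_lit 4) (nat_lit 479) (nat_lit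 411) (nat_lit 310)) (XT.lf (nat_lit 0) (nat_lit 936038131) (nat_lit 152) (nat_lit 5568133812) (nat_lit 76) (nat_lit 47127747463) (nat_lit 85) (nat_lit 5) (nat_lit 87) (nat_lit 5) (nat_lit 86) (nat_lit 5) (nat_lit 480) (nat_lit 411) (nat_lit 309)))) (XT.nd (nat_lit 156) (nat_lit 304) (nat_lit 0) (XT.nd (nat_lit 78) (nat_lit 76) (nat_lit 0) (XT.lf (nat_lit 0) (nat_lit 27883912466) (nat_lit 228) (nat_lit 4326571647) (nat_lit 76) (nat_lit 23206496403) (nat_lit 83) (nat_lit 5) (nat_lit 86) (nat_lit 5) (nat_lit 84) (nat_lit 4) (nat_lit 481) (nat_lit 411) (nat_lit 308)) (XT.lf (nat_lit 0) (nat_lit 54366728289) (nat_lit 76) (nat_lit 2439591009) (nat_lit 152) (nat_lit 466161335) (nat_lit 82) (nat_lit 5) (nat_lit 83) (nat_lit 5) (nat_lit 84) (nat_lit 4) (nat_lit 482) (nat_lit 411) (nat_lit 307))) (XT.nd (nat_lit 78) (nat_lit 76) (nat_lit 0) (XT.lf (nat_lit 0) (nat_lit 28274942581) (nat_lit 228) (nat_lit 1794460932)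 (nat_lit 76) (nat_lit 29117300889) (nat_lit 79) (nat_lit 5) (nat_lit 82) (nat_lit 5) (nat_lit 80) (nat_lit 4) (nat_lit 483) (nat_lit 411) (nat_lit 306)) (XT.lf (nat_lit 0) (nat_lit 59079163867) (nat_lit 152) (nat_lit 504043642) (nat_lit 0) (nat_lit 1594222393) (nat_lit 78) (nat_lit 5) (nat_lit 80) (nat_lit 4) (nat_lit 78) (nat_lit 4) (nat_lit 484) (nat_lit 411) (nat_lit 305)))))) (XT.nd (nat_lit 468) (nat_lit 760) (nat_lit 0) (XT.nd (nat_lit 234) (nat_lit 304) (nat_lit 0) (XT.nd (nat_lit 78) (nat_lit 228) (nat_lit 0) (XT.lf (nat_lit 0) (nat_lit 433029983) (nat_lit 76) (nat_lit 28105686074) (nat_lit 152) (nat_lit 34692889123) (nat_lit 75) (nat_lit 5) (nat_lit 76) (nat_lit 5) (nat_lit 77) (nat_lit 4) (nat_lit 485) (nat_lit 411) (nat_lit 304)) (XT.nd (nat_lit 78) (nat_lit 152) (nat_lit 0) (XT.lf (nat_lit 0) (nat_lit 1503013810) (nat_lit 76) (nat_lit 59852177929) (nat_lit 76) (nat_lit 4011943128) (nat_lit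 74) (nat_lit 4) (nat_lit 75) (nat_lit 5) (nat_lit 75) (nat_lit 4) (nat_lit 486) (nat_lit 411) (nat_lit 303)) (XT.lf (nat_lit 0) (nat_lit 2189082598) (nat_lit 76) (nat_lit 26403564904) (nat_lit 152) (nat_lit 38980462259) (nat_lit 72) (nat_lit 5) (nat_lit 73) (nat_lit 5) (nat_lit 74) (nat_lit 4) (nat_lit 487) (nat_lit 411) (nat_lit 302)))) (XT.nd (nat_lit 78) (nat_lit 228) (nat_lit 0) (XT.lf (nat_lit 0) (nat_lit 2901921719) (nat_lit 76) (nat_lit 60601696619) (nat_lit 76) (nat_lit 6361799757) (nat_lit 71) (nat_lit 4) (nat_lit 72) (nat_lit 5) (nat_lit 72) (nat_lit 4) (nat_lit 488) (nat_lit 411) (nat_lit 301)) (XT.nd (nat_lit 78) (nat_lit 76) (nat_lit 0) (XT.lf (nat_lit 0) (nat_lit 3204515466) (nat_lit 76) (nat_lit 25099192377) (nat_lit 152) (nat_lit 43931788741) (nat_lit 69) (nat_lit 5) (nat_lit 70) (nat_lit 5) (nat_lit 71) (nat_lit 4) (nat_lit 489) (nat_lit 411) (nat_lit 300)) (XT.lf (nat_lit 0) (nat_lit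 3423037686) (nat_lit 76) (nat_lit 61978643163) (nat_lit 76) (nat_lit 9295585720) (nat_lit 68) (nat_lit 4) (nat_lit 69) (nat_lit 5) (nat_lit 69) (nat_lit 4) (nat_lit 490) (nat_lit 411) (nat_lit 299))))) (XT.nd (nat_lit 234) (nat_lit 380) (nat_lit 0) (XT.nd (nat_lit 78) (nat_lit 228) (nat_lit 0) (XT.lf (nat_lit 0) (nat_lit 3191247643) (nat_lit 76) (nat_lit 24338295871) (nat_lit 152) (nat_lit 49715212601) (nat_lit 66) (nat_lit 5) (nat_lit 67) (nat_lit 5) (nat_lit 68) (nat_lit 4) (nat_lit 491) (nat_lit 411) (nat_lit 298)) (XT.nd (nat_lit 78) (nat_lit 152) (nat_lit 0) (XT.lf (nat_lit 0) (nat_lit 2747041819) (nat_lit 76) (nat_lit 64155831436) (nat_lit 76) (nat_lit 12987010148) (nat_lit 65) (nat_lit 4) (nat_lit 66) (nat_lit 5) (nat_lit 66) (nat_lit 4) (nat_lit 492) (nat_lit 411) (nat_lit 297)) (XT.lf (nat_lit 0) (nat_lit 1795959711) (nat_lit 76) (nat_lit 24299693282) (nat_lit 152) (nat_lit 56533723241)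 (nat_lit 63) (nat_lit 5) (nat_lit 64) (nat_lit 5) (nat_lit 65) (nat_lit 4) (nat_lit 493) (nat_lit 411) (nat_lit 296)))) (XT.nd (nat_lit 156) (nat_lit 228) (nat_lit 0) (XT.nd (nat_lit 78) (nat_lit 76) (nat_lit 0) (XT.lf (nat_lit 0) (nat_lit 483360419) (nat_lit 76) (nat_lit 67343012600) (nat_lit 76) (nat_lit 17646737762) (nat_lit 62) (nat_lit 4) (nat_lit 63) (nat_lit 5) (nat_lit 63) (nat_lit 4) (nat_lit 494) (nat_lit 411) (nat_lit 295)) (XT.lf (nat_lit 0) (nat_lit 23802789608) (nat_lit 152) (nat_lit 1384884903) (nat_lit 76) (nat_lit 63232553432) (nat_lit 61) (nat_lit 5) (nat_lit 63) (nat_lit 5) (nat_lit 62) (nat_lit 4) (nat_lit 495) (nat_lit 411) (nat_lit 294))) (XT.nd (nat_lit 78) (nat_lit 152) (nat_lit 0) (XT.lf (nat_lit 0) (nat_lit 67987335871) (nat_lit 152) (nat_lit 3768454600) (nat_lit 0) (nat_lit 19722843807) (nat_lit 60) (nat_lit 5) (nat_lit 62) (nat_lit 4) (nat_lit 60) (nat_lit 4) (nat_lit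 496) (nat_lit 411) (nat_lit 293)) (XT.lf (nat_lit 0) (nat_lit 20418673307) (nat_lit 152) (nat_lit 6821870519) (nat_lit 76) (nat_lit 67410385547) (nat_lit 58) (nat_lit 5) (nat_lit 60) (nat_lit 5) (nat_lit 59) (nat_lit 4) (nat_lit 497) (nat_lit 411) (nat_lit 292))))))) (XT.nd (nat_lit 56706) (nat_lit 0) (nat_lit 12768) (XT.nd (nat_lit 56160) (nat_lit 0) (nat_lit 21204) (XT.nd (nat_lit 55926) (nat_lit 0) (nat_lit 24168) (XT.nd (nat_lit 55770) (nat_lit 0) (nat_lit 24092) (XT.lf (nat_lit 0) (nat_lit 67108230117) (nat_lit 152) (nat_lit 10598843241) (nat_lit 0) (nat_lit 20235690616) (nat_lit 57) (nat_lit 5) (nat_lit 59) (nat_lit 4) (nat_lit 57) (nat_lit 4) (nat_lit 498) (nat_lit 411) (nat_lit 291)) (XT.nd (nat_lit 78) (nat_lit 0) (nat_lit 0) (XT.lf (nat_lit 0) (nat_lit 12884828) (nat_lit 0) (nat_lit 12884828) (nat_lit 988) (nat_lit 4027483518) (nat_lit 374) (nat_lit 5) (nat_lit 374) (nat_lit 3) (nat_lit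 387) (nat_lit 3) (nat_lit 412) (nat_lit 412) (nat_lit 376)) (XT.lf (nat_lit 0) (nat_lit 2039311140) (nat_lit 988) (nat_lit 1391019404) (nat_lit 1064) (nat_lit 4819142217) (nat_lit 374) (nat_lit 5) (nat_lit 387) (nat_lit 3) (nat_lit 388) (nat_lit 5) (nat_lit 413) (nat_lit 412) (nat_lit 375)))) (XT.nd (nat_lit 78) (nat_lit 0) (nat_lit 0) (XT.lf (nat_lit 0) (nat_lit 4073334798) (nat_lit 988) (nat_lit 2739909641) (nat_lit 1064) (nat_lit 1587943673) (nat_lit 375) (nat_lit 5) (nat_lit 388) (nat_lit 5) (nat_lit 389) (nat_lit 5) (nat_lit 414) (nat_lit 412) (nat_lit 374)) (XT.nd (nat_lit 78) (nat_lit 0) (nat_lit 76) (XT.lf (nat_lit 76) (nat_lit 4520074621) (nat_lit 0) (nat_lit 1663760112) (nat_lit 1064) (nat_lit 2377417445) (nat_lit 376) (nat_lit 5) (nat_lit 375) (nat_lit 5) (nat_lit 389) (nat_lit 5) (nat_lit 415) (nat_lit 412) (nat_lit 373)) (XT.lf (nat_lit 76) (nat_lit 3432121194) (nat_lit 0) (nat_lit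 4952848795) (nat_lit 1064) (nat_lit 344802059) (nat_lit 377) (nat_lit 5) (nat_lit 376) (nat_lit 5) (nat_lit 390) (nat_lit 5) (nat_lit 416) (nat_lit 412) (nat_lit 372))))) (XT.nd (nat_lit 234) (nat_lit 2052) (nat_lit 0) (XT.nd (nat_lit 78) (nat_lit 0) (nat_lit 0) (XT.lf (nat_lit 0) (nat_lit 1734135258) (nat_lit 1064) (nat_lit 6513568098) (nat_lit 1140) (nat_lit 659115690) (nat_lit 363) (nat_lit 5) (nat_lit 377) (nat_lit 5) (nat_lit 378) (nat_lit 5) (nat_lit 417) (nat_lit 412) (nat_lit 371)) (XT.nd (nat_lit 78) (nat_lit 0) (nat_lit 76) (XT.lf (nat_lit 76) (nat_lit 1389389507) (nat_lit 0) (nat_lit 2535120249) (nat_lit 1140) (nat_lit 5167672782) (nat_lit 364) (nat_lit 5) (nat_lit 363) (nat_lit 5) (nat_lit 378) (nat_lit 5) (nat_lit 418) (nat_lit 412) (nat_lit 370)) (XT.lf (nat_lit 76) (nat_lit 440197809) (nat_lit 0) (nat_lit 5790133966) (nat_lit 1140) (nat_lit 3056309521) (nat_lit 365) (nat_lit 5) (nat_lit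 364) (nat_lit 5) (nat_lit 379) (nat_lit 5) (nat_lit 419) (nat_lit 412) (nat_lit 369)))) (XT.nd (nat_lit 156) (nat_lit 1064) (nat_lit 0) (XT.nd (nat_lit 78) (nat_lit 1140) (nat_lit 0) (XT.lf (nat_lit 0) (nat_lit 8664592916) (nat_lit 1064) (nat_lit 440265711) (nat_lit 1140) (nat_lit 385574643) (nat_lit 365) (nat_lit 5) (nat_lit 379) (nat_lit 5) (nat_lit 380) (nat_lit 5) (nat_lit 420) (nat_lit 412) (nat_lit 368)) (XT.lf (nat_lit 0) (nat_lit 1535934023) (nat_lit 1140) (nat_lit 1296604307) (nat_lit 1216) (nat_lit 6869962629) (nat_lit 350) (nat_lit 5) (nat_lit 365) (nat_lit 5) (nat_lit 366) (nat_lit 5) (nat_lit 421) (nat_lit 412) (nat_lit 367))) (XT.nd (nat_lit 78) (nat_lit 1140) (nat_lit 0) (XT.lf (nat_lit 0) (nat_lit 4028342379) (nat_lit 1140) (nat_lit 2109314915) (nat_lit 76) (nat_lit 3786384848) (nat_lit 351) (nat_lit 5) (nat_lit 366) (nat_lit 5) (nat_lit 352) (nat_lit 5) (nat_lit 422) (nat_lit 412)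 (nat_lit 366)) (XT.lf (nat_lit 0) (nat_lit 6679489822) (nat_lit 1216) (nat_lit 2866794700) (nat_lit 76) (nat_lit 609356259) (nat_lit 336) (nat_lit 5) (nat_lit 352) (nat_lit 5) (nat_lit 337) (nat_lit 5) (nat_lit 423) (nat_lit 412) (nat_lit 365)))))) (XT.nd (nat_lit 546) (nat_lit 3344) (nat_lit 0) (XT.nd (nat_lit 234) (nat_lit 2356) (nat_lit 0) (XT.nd (nat_lit 78) (nat_lit 1520) (nat_lit 0) (XT.lf (nat_lit 0) (nat_lit 6801798834) (nat_lit 1216) (nat_lit 2730058357) (nat_lit 1292) (nat_lit 864906053) (nat_lit 320) (nat_lit 5) (nat_lit 336) (nat_lit 5) (nat_lit 337) (nat_lit 5) (nat_lit 424) (nat_lit 412) (nat_lit 364)) (XT.nd (nat_lit 78) (nat_lit 608) (nat_lit 0) (XT.lf (nat_lit 0) (nat_lit 1897108733) (nat_lit 912) (nat_lit 4292585802) (nat_lit 76) (nat_lit 4458004540) (nat_lit 308) (nat_lit 5) (nat_lit 320) (nat_lit 5) (nat_lit 309) (nat_lit 5) (nat_lit 425) (nat_lit 412) (nat_lit 363)) (XT.lf (nat_lit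 0) (nat_lit 4837849660) (nat_lit 684) (nat_lit 4944214229) (nat_lit 76) (nat_lit 1127108836) (nat_lit 300) (nat_lit 5) (nat_lit 309) (nat_lit 5) (nat_lit 301) (nat_lit 5) (nat_lit 426) (nat_lit 412) (nat_lit 362)))) (XT.nd (nat_lit 156) (nat_lit 1216) (nat_lit 0) (XT.nd (nat_lit 78) (nat_lit 532) (nat_lit 0) (XT.lf (nat_lit 0) (nat_lit 5617875665) (nat_lit 608) (nat_lit 2396710365) (nat_lit 684) (nat_lit 3166468437) (nat_lit 292) (nat_lit 5) (nat_lit 300) (nat_lit 5) (nat_lit 301) (nat_lit 5) (nat_lit 427) (nat_lit 412) (nat_lit 361)) (XT.lf (nat_lit 0) (nat_lit 5326764269) (nat_lit 532) (nat_lit 6108125426) (nat_lit 608) (nat_lit 29101695) (nat_lit 285) (nat_lit 5) (nat_lit 292) (nat_lit 5) (nat_lit 293) (nat_lit 5) (nat_lit 428) (nat_lit 412) (nat_lit 360))) (XT.nd (nat_lit 78) (nat_lit 532) (nat_lit 0) (XT.lf (nat_lit 0) (nat_lit 3282518900) (nat_lit 684) (nat_lit 6685338990) (nat_lit 76) (nat_lit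 1789845460) (nat_lit 276) (nat_lit 5) (nat_lit 285) (nat_lit 5) (nat_lit 277) (nat_lit 5) (nat_lit 429) (nat_lit 412) (nat_lit 359)) (XT.lf (nat_lit 0) (nat_lit 4868174193) (nat_lit 532) (nat_lit 1998304222) (nat_lit 608) (nat_lit 5196395706) (nat_lit 269) (nat_lit 5) (nat_lit 276) (nat_lit 5) (nat_lit 277) (nat_lit 5) (nat_lit 430) (nat_lit 412) (nat_lit 358))))) (XT.nd (nat_lit 234) (nat_lit 1824) (nat_lit 0) (XT.nd (nat_lit 78) (nat_lit 988) (nat_lit 0) (XT.lf (nat_lit 0) (nat_lit 4717451247) (nat_lit 532) (nat_lit 6025736964) (nat_lit 608) (nat_lit 1636711176) (nat_lit 262) (nat_lit 5) (nat_lit 269) (nat_lit 5) (nat_lit 270) (nat_lit 5) (nat_lit 431) (nat_lit 412) (nat_lit 357)) (XT.nd (nat_lit 78) (nat_lit 456) (nat_lit 0) (XT.lf (nat_lit 0) (nat_lit 2162859853) (nat_lit 532) (nat_lit 8089066080) (nat_lit 76) (nat_lit 2457159461) (nat_lit 255) (nat_lit 5) (nat_lit 262) (nat_lit 5) (nat_lit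 256) (nat_lit 5) (nat_lit 432) (nat_lit 412) (nat_lit 356)) (XT.lf (nat_lit 0) (nat_lit 4565962819) (nat_lit 456) (nat_lit 1678632344) (nat_lit 532) (nat_lit 6805870545) (nat_lit 249) (nat_lit 5) (nat_lit 255) (nat_lit 5) (nat_lit 256) (nat_lit 5) (nat_lit 433) (nat_lit 412) (nat_lit 355)))) (XT.nd (nat_lit 156) (nat_lit 836) (nat_lit 0) (XT.nd (nat_lit 78) (nat_lit 532) (nat_lit 0) (XT.lf (nat_lit 0) (nat_lit 4565239733) (nat_lit 456) (nat_lit 6106943765) (nat_lit 532) (nat_lit 2732480672) (nat_lit 243) (nat_lit 5) (nat_lit 249) (nat_lit 5) (nat_lit 250) (nat_lit 5) (nat_lit 434) (nat_lit 412) (nat_lit 354)) (XT.lf (nat_lit 0) (nat_lit 1638627067) (nat_lit 532) (nat_lit 9141610835) (nat_lit 76) (nat_lit 2992165527) (nat_lit 236) (nat_lit 5) (nat_lit 243) (nat_lit 5) (nat_lit 237) (nat_lit 5) (nat_lit 435) (nat_lit 412) (nat_lit 353))) (XT.nd (nat_lit 78) (nat_lit 456) (nat_lit 0) (XT.lf (nat_lit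 0) (nat_lit 4738151451) (nat_lit 380) (nat_lit 1579995655) (nat_lit 456) (nat_lit 7835181717) (nat_lit 231) (nat_lit 5) (nat_lit 236) (nat_lit 5) (nat_lit 237) (nat_lit 5) (nat_lit 436) (nat_lit 412) (nat_lit 352)) (XT.lf (nat_lit 0) (nat_lit 4902425684) (nat_lit 456) (nat_lit 6497580765) (nat_lit 532) (nat_lit 3148244916) (nat_lit 225) (nat_lit 5) (nat_lit 231) (nat_lit 5) (nat_lit 232) (nat_lit 5) (nat_lit 437) (nat_lit 412) (nat_lit 351))))))))
noncomputable def xc68 : XT := (XT.nd (nat_lit 2028) (nat_lit 4180) (nat_lit 0) (XT.nd (nat_lit 1014) (nat_lit 3192) (nat_lit 0) (XT.nd (nat_lit 468) (nat_lit 2204) (nat_lit 0) (XT.nd (nat_lit 234) (nat_lit 1064) (nat_lit 0) (XT.nd (nat_lit 78) (nat_lit 760) (nat_lit 0) (XT.lf (nat_lit 0) (nat_lit 1883788905) (nat_lit 456) (nat_lit 9817456244) (nat_lit 76) (nat_lit 3256804764) (nat_lit 219) (nat_lit 5) (nat_lit 225) (nat_lit 5) (nat_lit 220) (nat_lit 5)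 (nat_lit 438) (nat_lit 412) (nat_lit 350)) (XT.nd (nat_lit 78) (nat_lit 380) (nat_lit 0) (XT.lf (nat_lit 0) (nat_lit 5424483347) (nat_lit 380) (nat_lit 1847916804) (nat_lit 456) (nat_lit 8109902090) (nat_lit 214) (nat_lit 5) (nat_lit 219) (nat_lit 5) (nat_lit 220) (nat_lit 5) (nat_lit 439) (nat_lit 412) (nat_lit 349)) (XT.lf (nat_lit 0) (nat_lit 5773987074) (nat_lit 380) (nat_lit 7348723101) (nat_lit 456) (nat_lit 2699290453) (nat_lit 209) (nat_lit 5) (nat_lit 214) (nat_lit 5) (nat_lit 215) (nat_lit 5) (nat_lit 440) (nat_lit 412) (nat_lit 348)))) (XT.nd (nat_lit 78) (nat_lit 608) (nat_lit 0) (XT.lf (nat_lit 0) (nat_lit 3090374951) (nat_lit 456) (nat_lit 10080103156) (nat_lit 76) (nat_lit 3107346009) (nat_lit 203) (nat_lit 5) (nat_lit 209) (nat_lit 5) (nat_lit 204) (nat_lit 5) (nat_lit 441) (nat_lit 412) (nat_lit 347)) (XT.nd (nat_lit 78) (nat_lit 304) (nat_lit 0) (XT.lf (nat_lit 0) (nat_lit 6676921570)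 (nat_lit 304) (nat_lit 2635715995) (nat_lit 380) (nat_lit 7437032572) (nat_lit 199) (nat_lit 5) (nat_lit 203) (nat_lit 5) (nat_lit 204) (nat_lit 5) (nat_lit 442) (nat_lit 412) (nat_lit 346)) (XT.lf (nat_lit 0) (nat_lit 7237044033) (nat_lit 304) (nat_lit 8821272816) (nat_lit 380) (nat_lit 1180423753) (nat_lit 195) (nat_lit 5) (nat_lit 199) (nat_lit 5) (nat_lit 200) (nat_lit 5) (nat_lit 443) (nat_lit 412) (nat_lit 345))))) (XT.nd (nat_lit 234) (nat_lit 1140) (nat_lit 0) (XT.nd (nat_lit 78) (nat_lit 684) (nat_lit 0) (XT.lf (nat_lit 0) (nat_lit 5472418650) (nat_lit 380) (nat_lit 9882708283) (nat_lit 76) (nat_lit 2389927869) (nat_lit 190) (nat_lit 5) (nat_lit 195) (nat_lit 5) (nat_lit 191) (nat_lit 5) (nat_lit 444) (nat_lit 412) (nat_lit 344)) (XT.nd (nat_lit 78) (nat_lit 380) (nat_lit 0) (XT.lf (nat_lit 0) (nat_lit 8559142245) (nat_lit 304) (nat_lit 4109104926) (nat_lit 380) (nat_lit 5601045313) (nat_lit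 186) (nat_lit 5) (nat_lit 190) (nat_lit 5) (nat_lit 191) (nat_lit 5) (nat_lit 445) (nat_lit 412) (nat_lit 343)) (XT.lf (nat_lit 0) (nat_lit 1606125112) (nat_lit 380) (nat_lit 9468278804) (nat_lit 76) (nat_lit 7738052243) (nat_lit 181) (nat_lit 5) (nat_lit 186) (nat_lit 5) (nat_lit 182) (nat_lit 5) (nat_lit 446) (nat_lit 412) (nat_lit 342)))) (XT.nd (nat_lit 156) (nat_lit 608) (nat_lit 0) (XT.nd (nat_lit 78) (nat_lit 228) (nat_lit 0) (XT.lf (nat_lit 0) (nat_lit 9270054268) (nat_lit 380) (nat_lit 9168702026) (nat_lit 76) (nat_lit 935991862) (nat_lit 177) (nat_lit 5) (nat_lit 182) (nat_lit 5) (nat_lit 178) (nat_lit 5) (nat_lit 447) (nat_lit 412) (nat_lit 341)) (XT.lf (nat_lit 0) (nat_lit 11146040587) (nat_lit 228) (nat_lit 6450950547) (nat_lit 304) (nat_lit 2359770206) (nat_lit 174) (nat_lit 5) (nat_lit 177) (nat_lit 5) (nat_lit 178) (nat_lit 5) (nat_lit 448) (nat_lit 412) (nat_lit 340))) (XT.nd (nat_lit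 78) (nat_lit 228) (nat_lit 0) (XT.lf (nat_lit 0) (nat_lit 5897401641) (nat_lit 380) (nat_lit 8394594657) (nat_lit 76) (nat_lit 6267085833) (nat_lit 169) (nat_lit 5) (nat_lit 174) (nat_lit 5) (nat_lit 170) (nat_lit 5) (nat_lit 449) (nat_lit 412) (nat_lit 339)) (XT.lf (nat_lit 0) (nat_lit 13296707384) (nat_lit 228) (nat_lit 1471252517) (nat_lit 304) (nat_lit 6415379006) (nat_lit 166) (nat_lit 5) (nat_lit 169) (nat_lit 5) (nat_lit 170) (nat_lit 5) (nat_lit 450) (nat_lit 412) (nat_lit 338)))))) (XT.nd (nat_lit 468) (nat_lit 1672) (nat_lit 0) (XT.nd (nat_lit 234) (nat_lit 760) (nat_lit 0) (XT.nd (nat_lit 78) (nat_lit 456) (nat_lit 0) (XT.lf (nat_lit 0) (nat_lit 2509967464) (nat_lit 304) (nat_lit 7331049551) (nat_lit 76) (nat_lit 11987830251) (nat_lit 162) (nat_lit 5) (nat_lit 166) (nat_lit 5) (nat_lit 163) (nat_lit 5) (nat_lit 451) (nat_lit 412) (nat_lit 337)) (XT.nd (nat_lit 78) (nat_lit 228) (nat_lit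 0) (XT.lf (nat_lit 0) (nat_lit 12002520831) (nat_lit 304) (nat_lit 6699764429) (nat_lit 76) (nat_lit 3794832357) (nat_lit 159) (nat_lit 5) (nat_lit 163) (nat_lit 5) (nat_lit 160) (nat_lit 5) (nat_lit 452) (nat_lit 412) (nat_lit 336)) (XT.lf (nat_lit 0) (nat_lit 17220595134) (nat_lit 228) (nat_lit 5057204987) (nat_lit 304) (nat_lit 911759097) (nat_lit 156) (nat_lit 5) (nat_lit 159) (nat_lit 5) (nat_lit 160) (nat_lit 5) (nat_lit 453) (nat_lit 412) (nat_lit 335)))) (XT.nd (nat_lit 78) (nat_lit 456) (nat_lit 0) (XT.lf (nat_lit 0) (nat_lit 9281936459) (nat_lit 304) (nat_lit 5212602975) (nat_lit 76) (nat_lit 9410137277) (nat_lit 152) (nat_lit 5) (nat_lit 156) (nat_lit 5) (nat_lit 153) (nat_lit 5) (nat_lit 454) (nat_lit 412) (nat_lit 334)) (XT.nd (nat_lit 78) (nat_lit 228) (nat_lit 0) (XT.lf (nat_lit 0) (nat_lit 20244800710) (nat_lit 304) (nat_lit 4307132777) (nat_lit 76) (nat_lit 94996158) (nat_lit 149)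 (nat_lit 5) (nat_lit 153) (nat_lit 5) (nat_lit 150) (nat_lit 5) (nat_lit 455) (nat_lit 412) (nat_lit 333)) (XT.lf (nat_lit 0) (nat_lit 6591996808) (nat_lit 228) (nat_lit 3392948730) (nat_lit 76) (nat_lit 15427945084) (nat_lit 146) (nat_lit 5) (nat_lit 149) (nat_lit 5) (nat_lit 147) (nat_lit 5) (nat_lit 456) (nat_lit 412) (nat_lit 332))))) (XT.nd (nat_lit 234) (nat_lit 988) (nat_lit 0) (XT.nd (nat_lit 78) (nat_lit 456) (nat_lit 0) (XT.lf (nat_lit 0) (nat_lit 18344331321) (nat_lit 304) (nat_lit 2354079038) (nat_lit 76) (nat_lit 5508445898) (nat_lit 143) (nat_lit 5) (nat_lit 147) (nat_lit 5) (nat_lit 144) (nat_lit 5) (nat_lit 457) (nat_lit 412) (nat_lit 331)) (XT.nd (nat_lit 78) (nat_lit 228) (nat_lit 0) (XT.lf (nat_lit 0) (nat_lit 3931521174) (nat_lit 228) (nat_lit 1223014412) (nat_lit 76) (nat_lit 21874168441) (nat_lit 140) (nat_lit 5) (nat_lit 143) (nat_lit 5) (nat_lit 141) (nat_lit 5) (nat_lit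 458) (nat_lit 412) (nat_lit 330)) (XT.lf (nat_lit 0) (nat_lit 16529620007) (nat_lit 304) (nat_lit 43830612) (nat_lit 76) (nat_lit 11304549842) (nat_lit 137) (nat_lit 5) (nat_lit 141) (nat_lit 5) (nat_lit 138) (nat_lit 5) (nat_lit 459) (nat_lit 412) (nat_lit 329)))) (XT.nd (nat_lit 156) (nat_lit 380) (nat_lit 0) (XT.nd (nat_lit 78) (nat_lit 152) (nat_lit 0) (XT.lf (nat_lit 0) (nat_lit 1311131672) (nat_lit 304) (nat_lit 27419098547) (nat_lit 76) (nat_lit 28970663) (nat_lit 131) (nat_lit 5) (nat_lit 135) (nat_lit 5) (nat_lit 132) (nat_lit 5) (nat_lit 460) (nat_lit 412) (nat_lit 328)) (XT.lf (nat_lit 0) (nat_lit 2692473231) (nat_lit 152) (nat_lit 12134666285) (nat_lit 228) (nat_lit 14840204748) (nat_lit 129) (nat_lit 5) (nat_lit 131) (nat_lit 5) (nat_lit 132) (nat_lit 5) (nat_lit 461) (nat_lit 412) (nat_lit 327))) (XT.nd (nat_lit 78) (nat_lit 228) (nat_lit 0) (XT.lf (nat_lit 0) (nat_lit 4251145570)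 (nat_lit 152) (nat_lit 25117376044) (nat_lit 228) (nat_lit 1241886376) (nat_lit 127) (nat_lit 5) (nat_lit 129) (nat_lit 5) (nat_lit 130) (nat_lit 5) (nat_lit 462) (nat_lit 412) (nat_lit 326)) (XT.lf (nat_lit 0) (nat_lit 5825522822) (nat_lit 152) (nat_lit 7388731994) (nat_lit 228) (nat_lit 18369642256) (nat_lit 124) (nat_lit 5) (nat_lit 126) (nat_lit 5) (nat_lit 127) (nat_lit 5) (nat_lit 463) (nat_lit 412) (nat_lit 325))))))) (XT.nd (nat_lit 1014) (nat_lit 1976) (nat_lit 0) (XT.nd (nat_lit 468) (nat_lit 1064) (nat_lit 0) (XT.nd (nat_lit 234) (nat_lit 608) (nat_lit 0) (XT.nd (nat_lit 78) (nat_lit 380) (nat_lit 0) (XT.lf (nat_lit 0) (nat_lit 7549954076) (nat_lit 152) (nat_lit 21246338124) (nat_lit 228) (nat_lit 3796536678) (nat_lit 122) (nat_lit 5) (nat_lit 124) (nat_lit 5) (nat_lit 125) (nat_lit 5) (nat_lit 464) (nat_lit 412) (nat_lit 324)) (XT.nd (nat_lit 78) (nat_lit 152) (nat_lit 0) (XT.lf (nat_lit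 0) (nat_lit 9366841416) (nat_lit 152) (nat_lit 2320840623) (nat_lit 228) (nat_lit 21948998709) (nat_lit 119) (nat_lit 5) (nat_lit 121) (nat_lit 5) (nat_lit 122) (nat_lit 5) (nat_lit 465) (nat_lit 412) (nat_lit 323)) (XT.lf (nat_lit 0) (nat_lit 11260426818) (nat_lit 152) (nat_lit 17120352465) (nat_lit 228) (nat_lit 6335422972) (nat_lit 117) (nat_lit 5) (nat_lit 119) (nat_lit 5) (nat_lit 120) (nat_lit 5) (nat_lit 466) (nat_lit 412) (nat_lit 322)))) (XT.nd (nat_lit 78) (nat_lit 380) (nat_lit 0) (XT.lf (nat_lit 0) (nat_lit 10271691828) (nat_lit 228) (nat_lit 22539736445) (nat_lit 76) (nat_lit 3023096767) (nat_lit 114) (nat_lit 5) (nat_lit 117) (nat_lit 5) (nat_lit 115) (nat_lit 5) (nat_lit 467) (nat_lit 412) (nat_lit 321)) (XT.nd (nat_lit 78) (nat_lit 228) (nat_lit 0) (XT.lf (nat_lit 0) (nat_lit 15389139561) (nat_lit 152) (nat_lit 12731029066) (nat_lit 228) (nat_lit 8870452817) (nat_lit 112) (nat_lit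 5) (nat_lit 114) (nat_lit 5) (nat_lit 115) (nat_lit 5) (nat_lit 468) (nat_lit 412) (nat_lit 320)) (XT.lf (nat_lit 0) (nat_lit 8953816686) (nat_lit 228) (nat_lit 20570390173) (nat_lit 76) (nat_lit 8663833982) (nat_lit 109) (nat_lit 5) (nat_lit 112) (nat_lit 5) (nat_lit 110) (nat_lit 5) (nat_lit 469) (nat_lit 412) (nat_lit 319))))) (XT.nd (nat_lit 234) (nat_lit 608) (nat_lit 0) (XT.nd (nat_lit 78) (nat_lit 304) (nat_lit 0) (XT.lf (nat_lit 0) (nat_lit 19937280619) (nat_lit 152) (nat_lit 8072247036) (nat_lit 228) (nat_lit 11417458522) (nat_lit 107) (nat_lit 5) (nat_lit 109) (nat_lit 5) (nat_lit 110) (nat_lit 5) (nat_lit 470) (nat_lit 412) (nat_lit 318)) (XT.nd (nat_lit 78) (nat_lit 152) (nat_lit 0) (XT.lf (nat_lit 0) (nat_lit 7699492224) (nat_lit 152) (nat_lit 18352860121) (nat_lit 76) (nat_lit 14656876217) (nat_lit 105) (nat_lit 5) (nat_lit 107) (nat_lit 5) (nat_lit 106) (nat_lit 5) (nat_lit 471) (nat_lit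 412) (nat_lit 317)) (XT.lf (nat_lit 0) (nat_lit 24899079195) (nat_lit 152) (nat_lit 3140941789) (nat_lit 228) (nat_lit 13997055133) (nat_lit 103) (nat_lit 5) (nat_lit 105) (nat_lit 5) (nat_lit 106) (nat_lit 5) (nat_lit 472) (nat_lit 412) (nat_lit 316)))) (XT.nd (nat_lit 156) (nat_lit 304) (nat_lit 0) (XT.nd (nat_lit 78) (nat_lit 152) (nat_lit 0) (XT.lf (nat_lit 0) (nat_lit 6491683847) (nat_lit 152) (nat_lit 15909255238) (nat_lit 76) (nat_lit 21009401209) (nat_lit 101) (nat_lit 5) (nat_lit 103) (nat_lit 5) (nat_lit 102) (nat_lit 5) (nat_lit 473) (nat_lit 412) (nat_lit 315)) (XT.lf (nat_lit 0) (nat_lit 28217786658) (nat_lit 228) (nat_lit 14593537124) (nat_lit 76) (nat_lit 2021714312) (nat_lit 99) (nat_lit 5) (nat_lit 102) (nat_lit 5) (nat_lit 100) (nat_lit 4) (nat_lit 474) (nat_lit 412) (nat_lit 314))) (XT.nd (nat_lit 78) (nat_lit 152) (nat_lit 0) (XT.lf (nat_lit 0) (nat_lit 5307505104) (nat_lit 152)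 (nat_lit 13272569818) (nat_lit 76) (nat_lit 27724560893) (nat_lit 97) (nat_lit 5) (nat_lit 99) (nat_lit 5) (nat_lit 98) (nat_lit 5) (nat_lit 475) (nat_lit 412) (nat_lit 313)) (XT.lf (nat_lit 0) (nat_lit 28536085638) (nat_lit 228) (nat_lit 11908777147) (nat_lit 76) (nat_lit 7383416124) (nat_lit 95) (nat_lit 5) (nat_lit 98) (nat_lit 5) (nat_lit 96) (nat_lit 4) (nat_lit 476) (nat_lit 412) (nat_lit 312)))))) (XT.nd (nat_lit 546) (nat_lit 912) (nat_lit 0) (XT.nd (nat_lit 234) (nat_lit 608) (nat_lit 0) (XT.nd (nat_lit 78) (nat_lit 304) (nat_lit 0) (XT.lf (nat_lit 0) (nat_lit 4116936441) (nat_lit 152) (nat_lit 10489245922) (nat_lit 76) (nat_lit 34800297082) (nat_lit 93) (nat_lit 5) (nat_lit 95) (nat_lit 5) (nat_lit 94) (nat_lit 5) (nat_lit 477) (nat_lit 412) (nat_lit 311)) (XT.nd (nat_lit 78) (nat_lit 152) (nat_lit 0) (XT.lf (nat_lit 0) (nat_lit 28937604758) (nat_lit 228) (nat_lit 9107908609) (nat_lit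 76) (nat_lit 12993144200) (nat_lit 91) (nat_lit 5) (nat_lit 94) (nat_lit 5) (nat_lit 92) (nat_lit 4) (nat_lit 478) (nat_lit 412) (nat_lit 310)) (XT.lf (nat_lit 0) (nat_lit 2881297795) (nat_lit 152) (nat_lit 7622228495) (nat_lit 76) (nat_lit 42227922080) (nat_lit 89) (nat_lit 5) (nat_lit 91) (nat_lit 5) (nat_lit 90) (nat_lit 5) (nat_lit 479) (nat_lit 412) (nat_lit 309)))) (XT.nd (nat_lit 156) (nat_lit 304) (nat_lit 0) (XT.nd (nat_lit 78) (nat_lit 152) (nat_lit 0) (XT.lf (nat_lit 0) (nat_lit 29386190701) (nat_lit 228) (nat_lit 6263565904) (nat_lit 76) (nat_lit 18830642311) (nat_lit 87) (nat_lit 5) (nat_lit 90) (nat_lit 5) (nat_lit 88) (nat_lit 4) (nat_lit 480) (nat_lit 412) (nat_lit 308)) (XT.lf (nat_lit 0) (nat_lit 1551431345) (nat_lit 152) (nat_lit 4754601950) (nat_lit 76) (nat_lit 49990420808) (nat_lit 85) (nat_lit 5) (nat_lit 87) (nat_lit 5) (nat_lit 86) (nat_lit 5) (nat_lit 481) (nat_lit 412)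 (nat_lit 307))) (XT.nd (nat_lit 78) (nat_lit 152) (nat_lit 0) (XT.lf (nat_lit 0) (nat_lit 29834711245) (nat_lit 228) (nat_lit 3470599301) (nat_lit 76) (nat_lit 24865817536) (nat_lit 83) (nat_lit 5) (nat_lit 86) (nat_lit 5) (nat_lit 84) (nat_lit 4) (nat_lit 482) (nat_lit 412) (nat_lit 306)) (XT.lf (nat_lit 0) (nat_lit 65543069) (nat_lit 152) (nat_lit 1993912385) (nat_lit 76) (nat_lit 58060423416) (nat_lit 81) (nat_lit 5) (nat_lit 83) (nat_lit 5) (nat_lit 82) (nat_lit 5) (nat_lit 483) (nat_lit 412) (nat_lit 305))))) (XT.nd (nat_lit 234) (nat_lit 456) (nat_lit 0) (XT.nd (nat_lit 78) (nat_lit 304) (nat_lit 0) (XT.lf (nat_lit 0) (nat_lit 30222741527) (nat_lit 228) (nat_lit 850785053) (nat_lit 76) (nat_lit 31056488523) (nat_lit 79) (nat_lit 5) (nat_lit 82) (nat_lit 5) (nat_lit 80) (nat_lit 4) (nat_lit 484) (nat_lit 412) (nat_lit 304)) (XT.nd (nat_lit 78) (nat_lit 152) (nat_lit 0) (XT.lf (nat_lit 0) (nat_lit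 495075557) (nat_lit 76) (nat_lit 62065742157) (nat_lit 76) (nat_lit 1659649991) (nat_lit 77) (nat_lit 4) (nat_lit 78) (nat_lit 5) (nat_lit 78) (nat_lit 4) (nat_lit 485) (nat_lit 412) (nat_lit 303)) (XT.lf (nat_lit 0) (nat_lit 1470278151) (nat_lit 76) (nat_lit 29017672617) (nat_lit 152) (nat_lit 35889563094) (nat_lit 75) (nat_lit 5) (nat_lit 76) (nat_lit 5) (nat_lit 77) (nat_lit 4) (nat_lit 486) (nat_lit 412) (nat_lit 302)))) (XT.nd (nat_lit 156) (nat_lit 228) (nat_lit 0) (XT.nd (nat_lit 78) (nat_lit 152) (nat_lit 0) (XT.lf (nat_lit 0) (nat_lit 2575265694) (nat_lit 76) (nat_lit 62359213986) (nat_lit 76) (nat_lit 3685663595) (nat_lit 74) (nat_lit 4) (nat_lit 75) (nat_lit 5) (nat_lit 75) (nat_lit 4) (nat_lit 487) (nat_lit 412) (nat_lit 301)) (XT.lf (nat_lit 0) (nat_lit 3277045112) (nat_lit 76) (nat_lit 27246636432) (nat_lit 152) (nat_lit 40413039357) (nat_lit 72) (nat_lit 5) (nat_lit 73) (nat_lit 5)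 (nat_lit 74) (nat_lit 4) (nat_lit 488) (nat_lit 412) (nat_lit 300))) (XT.nd (nat_lit 78) (nat_lit 152) (nat_lit 0) (XT.lf (nat_lit 0) (nat_lit 4007635770) (nat_lit 76) (nat_lit 63162290779) (nat_lit 76) (nat_lit 6174026444) (nat_lit 71) (nat_lit 4) (nat_lit 72) (nat_lit 5) (nat_lit 72) (nat_lit 4) (nat_lit 489) (nat_lit 412) (nat_lit 299)) (XT.lf (nat_lit 0) (nat_lit 4307413606) (nat_lit 76) (nat_lit 25892914588) (nat_lit 152) (nat_lit 45632498146) (nat_lit 69) (nat_lit 5) (nat_lit 70) (nat_lit 5) (nat_lit 71) (nat_lit 4) (nat_lit 490) (nat_lit 412) (nat_lit 298))))))))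
noncomputable def xc69 : XT := (XT.nd (nat_lit 57798) (nat_lit 0) (nat_lit 6688) (XT.nd (nat_lit 56784) (nat_lit 0) (nat_lit 16568) (XT.nd (nat_lit 468) (nat_lit 228) (nat_lit 0) (XT.nd (nat_lit 234) (nat_lit 304) (nat_lit 0) (XT.nd (nat_lit 78) (nat_lit 228) (nat_lit 0) (XT.lf (nat_lit 0) (nat_lit 4519564825) (nat_lit 76) (nat_lit 64623827392) (nat_lit 76) (nat_lit 9274586933) (nat_lit 68) (nat_lit 4) (nat_lit 69) (nat_lit 5) (nat_lit 69) (nat_lit 4) (nat_lit 491) (nat_lit 412) (nat_lit 297)) (XT.nd (nat_lit 78) (nat_lit 76) (nat_lit 0) (XT.lf (nat_lit 0) (nat_lit 4258868960) (nat_lit 76) (nat_lit 25109498445) (nat_lit 152) (nat_lit 51724754331) (nat_lit 66) (nat_lit 5) (nat_lit 67) (nat_lit 5) (nat_lit 68) (nat_lit 4) (nat_lit 492) (nat_lit 412) (nat_lit 296)) (XT.lf (nat_lit 0) (nat_lit 3775736413) (nat_lit 76) (nat_lit 66925259277) (nat_lit 76) (nat_lit 13169790823) (nat_lit 65) (nat_lit 4)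 (nat_lit 66) (nat_lit 5) (nat_lit 66) (nat_lit 4) (nat_lit 493) (nat_lit 412) (nat_lit 295)))) (XT.nd (nat_lit 78) (nat_lit 152) (nat_lit 0) (XT.lf (nat_lit 0) (nat_lit 2760395127) (nat_lit 76) (nat_lit 25084129375) (nat_lit 152) (nat_lit 58902996309) (nat_lit 63) (nat_lit 5) (nat_lit 64) (nat_lit 5) (nat_lit 65) (nat_lit 4) (nat_lit 494) (nat_lit 412) (nat_lit 294)) (XT.nd (nat_lit 78) (nat_lit 76) (nat_lit 0) (XT.lf (nat_lit 0) (nat_lit 1366016801) (nat_lit 76) (nat_lit 70286810570) (nat_lit 76) (nat_lit 18080883383) (nat_lit 62) (nat_lit 4) (nat_lit 63) (nat_lit 5) (nat_lit 63) (nat_lit 4) (nat_lit 495) (nat_lit 412) (nat_lit 293)) (XT.lf (nat_lit 0) (nat_lit 25411448556) (nat_lit 152) (nat_lit 628190444) (nat_lit 76) (nat_lit 66789043373) (nat_lit 61) (nat_lit 5) (nat_lit 63) (nat_lit 5) (nat_lit 62) (nat_lit 4) (nat_lit 496) (nat_lit 412) (nat_lit 292))))) (XT.nd (nat_lit 56004) (nat_lit 0)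 (nat_lit 23028) (XT.nd (nat_lit 78) (nat_lit 152) (nat_lit 0) (XT.lf (nat_lit 0) (nat_lit 71796810705) (nat_lit 152) (nat_lit 3146229848) (nat_lit 0) (nat_lit 21097220882) (nat_lit 60) (nat_lit 5) (nat_lit 62) (nat_lit 4) (nat_lit 60) (nat_lit 4) (nat_lit 497) (nat_lit 412) (nat_lit 291)) (XT.nd (nat_lit 55848) (nat_lit 0) (nat_lit 24016) (XT.lf (nat_lit 0) (nat_lit 21841698419) (nat_lit 152) (nat_lit 6367549985) (nat_lit 76) (nat_lit 71162163478) (nat_lit 58) (nat_lit 5) (nat_lit 60) (nat_lit 5) (nat_lit 59) (nat_lit 4) (nat_lit 498) (nat_lit 412) (nat_lit 290)) (XT.lf (nat_lit 0) (nat_lit 968009035) (nat_lit 0) (nat_lit 968009035) (nat_lit 988) (nat_lit 2262528809) (nat_lit 374) (nat_lit 5) (nat_lit 374) (nat_lit 3) (nat_lit 387) (nat_lit 3) (nat_lit 413) (nat_lit 413) (nat_lit 374)))) (XT.nd (nat_lit 156) (nat_lit 988) (nat_lit 0) (XT.nd (nat_lit 78) (nat_lit 0) (nat_lit 76) (XT.lf (nat_lit 76)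 (nat_lit 493874446) (nat_lit 0) (nat_lit 5270787551) (nat_lit 1064) (nat_lit 2788392069) (nat_lit 375) (nat_lit 5) (nat_lit 374) (nat_lit 5) (nat_lit 388) (nat_lit 5) (nat_lit 414) (nat_lit 413) (nat_lit 373)) (XT.lf (nat_lit 0) (nat_lit 7726338221) (nat_lit 988) (nat_lit 868585076) (nat_lit 1064) (nat_lit 122662431) (nat_lit 375) (nat_lit 5) (nat_lit 388) (nat_lit 5) (nat_lit 389) (nat_lit 5) (nat_lit 415) (nat_lit 413) (nat_lit 372))) (XT.nd (nat_lit 78) (nat_lit 0) (nat_lit 76) (XT.lf (nat_lit 0) (nat_lit 889138526) (nat_lit 1064) (nat_lit 2201913456) (nat_lit 1140) (nat_lit 5798713227) (nat_lit 361) (nat_lit 5) (nat_lit 375) (nat_lit 5) (nat_lit 376) (nat_lit 5) (nat_lit 416) (nat_lit 413) (nat_lit 371)) (XT.lf (nat_lit 0) (nat_lit 2829790239) (nat_lit 1064) (nat_lit 3491600246) (nat_lit 1140) (nat_lit 2749271543) (nat_lit 362) (nat_lit 5) (nat_lit 376) (nat_lit 5) (nat_lit 377) (nat_lit 5)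 (nat_lit 417) (nat_lit 413) (nat_lit 370)))))) (XT.nd (nat_lit 468) (nat_lit 5548) (nat_lit 0) (XT.nd (nat_lit 234) (nat_lit 988) (nat_lit 0) (XT.nd (nat_lit 78) (nat_lit 0) (nat_lit 76) (XT.lf (nat_lit 76) (nat_lit 4528091916) (nat_lit 0) (nat_lit 338381092) (nat_lit 1140) (nat_lit 4394165682) (nat_lit 363) (nat_lit 5) (nat_lit 362) (nat_lit 5) (nat_lit 377) (nat_lit 5) (nat_lit 418) (nat_lit 413) (nat_lit 369)) (XT.nd (nat_lit 78) (nat_lit 0) (nat_lit 76) (XT.lf (nat_lit 76) (nat_lit 3508330074) (nat_lit 0) (nat_lit 3529609047) (nat_lit 1140) (nat_lit 2421191306) (nat_lit 364) (nat_lit 5) (nat_lit 363) (nat_lit 5) (nat_lit 378) (nat_lit 5) (nat_lit 419) (nat_lit 413) (nat_lit 368)) (XT.lf (nat_lit 76) (nat_lit 2546181640) (nat_lit 0) (nat_lit 6786044583) (nat_lit 1140) (nat_lit 334897590) (nat_lit 365) (nat_lit 5) (nat_lit 364) (nat_lit 5) (nat_lit 379) (nat_lit 5) (nat_lit 420) (nat_lit 413)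 (nat_lit 367)))) (XT.nd (nat_lit 78) (nat_lit 0) (nat_lit 76) (XT.lf (nat_lit 76) (nat_lit 1619956674) (nat_lit 0) (nat_lit 225339087) (nat_lit 1216) (nat_lit 8038916221) (nat_lit 350) (nat_lit 5) (nat_lit 349) (nat_lit 5) (nat_lit 365) (nat_lit 5) (nat_lit 421) (nat_lit 413) (nat_lit 366)) (XT.nd (nat_lit 78) (nat_lit 0) (nat_lit 76) (XT.lf (nat_lit 76) (nat_lit 715480082) (nat_lit 0) (nat_lit 3473574159) (nat_lit 1216) (nat_lit 5921160349) (nat_lit 351) (nat_lit 5) (nat_lit 350) (nat_lit 5) (nat_lit 366) (nat_lit 5) (nat_lit 422) (nat_lit 413) (nat_lit 365)) (XT.lf (nat_lit 0) (nat_lit 6691666587) (nat_lit 1140) (nat_lit 132409106) (nat_lit 76) (nat_lit 3522195428) (nat_lit 351) (nat_lit 5) (nat_lit 366) (nat_lit 5) (nat_lit 352) (nat_lit 5) (nat_lit 423) (nat_lit 413) (nat_lit 364))))) (XT.nd (nat_lit 234) (nat_lit 2432) (nat_lit 0) (XT.nd (nat_lit 78) (nat_lit 2128) (nat_lit 0) (XT.lf (nat_lit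 0) (nat_lit 9374298887) (nat_lit 1216) (nat_lit 913137657) (nat_lit 76) (nat_lit 305050844) (nat_lit 336) (nat_lit 5) (nat_lit 352) (nat_lit 5) (nat_lit 337) (nat_lit 5) (nat_lit 424) (nat_lit 413) (nat_lit 363)) (XT.nd (nat_lit 78) (nat_lit 836) (nat_lit 0) (XT.lf (nat_lit 0) (nat_lit 1400122098) (nat_lit 1292) (nat_lit 1683407583) (nat_lit 76) (nat_lit 7764514975) (nat_lit 319) (nat_lit 5) (nat_lit 336) (nat_lit 5) (nat_lit 320) (nat_lit 5) (nat_lit 425) (nat_lit 413) (nat_lit 362)) (XT.lf (nat_lit 0) (nat_lit 4191176083) (nat_lit 912) (nat_lit 2416499963) (nat_lit 76) (nat_lit 4506334410) (nat_lit 308) (nat_lit 5) (nat_lit 320) (nat_lit 5) (nat_lit 309) (nat_lit 5) (nat_lit 426) (nat_lit 413) (nat_lit 361)))) (XT.nd (nat_lit 156) (nat_lit 1216) (nat_lit 0) (XT.nd (nat_lit 78) (nat_lit 608) (nat_lit 0) (XT.lf (nat_lit 0) (nat_lit 7192950834) (nat_lit 684) (nat_lit 3096326900) (nat_lit 76) (nat_lit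 1101864781) (nat_lit 300) (nat_lit 5) (nat_lit 309) (nat_lit 5) (nat_lit 301) (nat_lit 5) (nat_lit 427) (nat_lit 413) (nat_lit 360)) (XT.lf (nat_lit 0) (nat_lit 7933811924) (nat_lit 608) (nat_lit 2513645185) (nat_lit 684) (nat_lit 1231597650) (nat_lit 292) (nat_lit 5) (nat_lit 300) (nat_lit 5) (nat_lit 301) (nat_lit 5) (nat_lit 428) (nat_lit 413) (nat_lit 359))) (XT.nd (nat_lit 78) (nat_lit 608) (nat_lit 0) (XT.lf (nat_lit 0) (nat_lit 1944448777) (nat_lit 608) (nat_lit 4368434916) (nat_lit 76) (nat_lit 5665002268) (nat_lit 284) (nat_lit 5) (nat_lit 292) (nat_lit 5) (nat_lit 285) (nat_lit 5) (nat_lit 429) (nat_lit 413) (nat_lit 358)) (XT.lf (nat_lit 0) (nat_lit 5347528465) (nat_lit 684) (nat_lit 4947781251) (nat_lit 76) (nat_lit 1993174643) (nat_lit 276) (nat_lit 5) (nat_lit 285) (nat_lit 5) (nat_lit 277) (nat_lit 5) (nat_lit 430) (nat_lit 413) (nat_lit 357))))))) (XT.nd (nat_lit 1014) (nat_lit 4028)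 (nat_lit 0) (XT.nd (nat_lit 468) (nat_lit 2812) (nat_lit 0) (XT.nd (nat_lit 234) (nat_lit 1444) (nat_lit 0) (XT.nd (nat_lit 78) (nat_lit 1064) (nat_lit 0) (XT.lf (nat_lit 0) (nat_lit 7124019151) (nat_lit 532) (nat_lit 1915493305) (nat_lit 608) (nat_lit 3571540115) (nat_lit 269) (nat_lit 5) (nat_lit 276) (nat_lit 5) (nat_lit 277) (nat_lit 5) (nat_lit 431) (nat_lit 413) (nat_lit 356)) (XT.nd (nat_lit 78) (nat_lit 456) (nat_lit 0) (XT.lf (nat_lit 0) (nat_lit 96059128) (nat_lit 608) (nat_lit 5987101914) (nat_lit 76) (nat_lit 6862728401) (nat_lit 261) (nat_lit 5) (nat_lit 269) (nat_lit 5) (nat_lit 262) (nat_lit 5) (nat_lit 432) (nat_lit 413) (nat_lit 355)) (XT.lf (nat_lit 0) (nat_lit 3988903667) (nat_lit 532) (nat_lit 6461154768) (nat_lit 76) (nat_lit 2842879080) (nat_lit 255) (nat_lit 5) (nat_lit 262) (nat_lit 5) (nat_lit 256) (nat_lit 5) (nat_lit 433) (nat_lit 413) (nat_lit 354)))) (XT.nd (nat_lit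 78) (nat_lit 988) (nat_lit 0) (XT.lf (nat_lit 0) (nat_lit 6768368252) (nat_lit 456) (nat_lit 1443529017) (nat_lit 532) (nat_lit 5441377533) (nat_lit 249) (nat_lit 5) (nat_lit 255) (nat_lit 5) (nat_lit 256) (nat_lit 5) (nat_lit 434) (nat_lit 413) (nat_lit 353)) (XT.nd (nat_lit 78) (nat_lit 532) (nat_lit 0) (XT.lf (nat_lit 0) (nat_lit 6756331917) (nat_lit 456) (nat_lit 6047508783) (nat_lit 532) (nat_lit 1223056170) (nat_lit 243) (nat_lit 5) (nat_lit 249) (nat_lit 5) (nat_lit 250) (nat_lit 5) (nat_lit 435) (nat_lit 413) (nat_lit 352)) (XT.lf (nat_lit 0) (nat_lit 3279933587) (nat_lit 532) (nat_lit 7617817485) (nat_lit 76) (nat_lit 3516436657) (nat_lit 236) (nat_lit 5) (nat_lit 243) (nat_lit 5) (nat_lit 237) (nat_lit 5) (nat_lit 436) (nat_lit 413) (nat_lit 351))))) (XT.nd (nat_lit 234) (nat_lit 1520) (nat_lit 0) (XT.nd (nat_lit 78) (nat_lit 912) (nat_lit 0) (XT.lf (nat_lit 0) (nat_lit 6899151564) (nat_lit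 380) (nat_lit 1238517659) (nat_lit 456) (nat_lit 6678165583) (nat_lit 231) (nat_lit 5) (nat_lit 236) (nat_lit 5) (nat_lit 237) (nat_lit 5) (nat_lit 437) (nat_lit 413) (nat_lit 350)) (XT.nd (nat_lit 78) (nat_lit 456) (nat_lit 0) (XT.lf (nat_lit 0) (nat_lit 7056425696) (nat_lit 456) (nat_lit 6367793862) (nat_lit 532) (nat_lit 1807768452) (nat_lit 225) (nat_lit 5) (nat_lit 231) (nat_lit 5) (nat_lit 232) (nat_lit 5) (nat_lit 438) (nat_lit 413) (nat_lit 349)) (XT.lf (nat_lit 0) (nat_lit 3399275738) (nat_lit 456) (nat_lit 8387656828) (nat_lit 76) (nat_lit 3876335114) (nat_lit 219) (nat_lit 5) (nat_lit 225) (nat_lit 5) (nat_lit 220) (nat_lit 5) (nat_lit 439) (nat_lit 413) (nat_lit 348)))) (XT.nd (nat_lit 156) (nat_lit 760) (nat_lit 0) (XT.nd (nat_lit 78) (nat_lit 380) (nat_lit 0) (XT.lf (nat_lit 0) (nat_lit 7561324058) (nat_lit 380) (nat_lit 1446246107) (nat_lit 456) (nat_lit 7102657062) (nat_lit 214)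 (nat_lit 5) (nat_lit 219) (nat_lit 5) (nat_lit 220) (nat_lit 5) (nat_lit 440) (nat_lit 413) (nat_lit 347)) (XT.lf (nat_lit 0) (nat_lit 7910221734) (nat_lit 380) (nat_lit 7197144806) (nat_lit 456) (nat_lit 1465836947) (nat_lit 209) (nat_lit 5) (nat_lit 214) (nat_lit 5) (nat_lit 215) (nat_lit 5) (nat_lit 441) (nat_lit 413) (nat_lit 346))) (XT.nd (nat_lit 78) (nat_lit 304) (nat_lit 0) (XT.lf (nat_lit 0) (nat_lit 4545266840) (nat_lit 456) (nat_lit 8729706389) (nat_lit 76) (nat_lit 3777692482) (nat_lit 203) (nat_lit 5) (nat_lit 209) (nat_lit 5) (nat_lit 204) (nat_lit 5) (nat_lit 442) (nat_lit 413) (nat_lit 345)) (XT.lf (nat_lit 0) (nat_lit 8812013514) (nat_lit 304) (nat_lit 2222021218) (nat_lit 380) (nat_lit 6515409366) (nat_lit 199) (nat_lit 5) (nat_lit 203) (nat_lit 5) (nat_lit 204) (nat_lit 5) (nat_lit 443) (nat_lit 413) (nat_lit 344)))))) (XT.nd (nat_lit 546) (nat_lit 1748) (nat_lit 0) (XT.nd (nat_lit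 234) (nat_lit 1292) (nat_lit 0) (XT.nd (nat_lit 78) (nat_lit 608) (nat_lit 0) (XT.lf (nat_lit 0) (nat_lit 14917716) (nat_lit 380) (nat_lit 8684201403) (nat_lit 76) (nat_lit 9364976814) (nat_lit 194) (nat_lit 5) (nat_lit 199) (nat_lit 5) (nat_lit 195) (nat_lit 5) (nat_lit 444) (nat_lit 413) (nat_lit 343)) (XT.nd (nat_lit 78) (nat_lit 304) (nat_lit 0) (XT.lf (nat_lit 0) (nat_lit 6939931443) (nat_lit 380) (nat_lit 8592686592) (nat_lit 76) (nat_lit 3063840532) (nat_lit 190) (nat_lit 5) (nat_lit 195) (nat_lit 5) (nat_lit 191) (nat_lit 5) (nat_lit 445) (nat_lit 413) (nat_lit 342)) (XT.lf (nat_lit 0) (nat_lit 10720113957) (nat_lit 304) (nat_lit 3735244236) (nat_lit 380) (nat_lit 4692757270) (nat_lit 186) (nat_lit 5) (nat_lit 190) (nat_lit 5) (nat_lit 191) (nat_lit 5) (nat_lit 446) (nat_lit 413) (nat_lit 341)))) (XT.nd (nat_lit 156) (nat_lit 608) (nat_lit 0) (XT.nd (nat_lit 78) (nat_lit 304) (nat_lit 0)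 (XT.lf (nat_lit 0) (nat_lit 2818071173) (nat_lit 380) (nat_lit 8207564899) (nat_lit 76) (nat_lit 8693465328) (nat_lit 181) (nat_lit 5) (nat_lit 186) (nat_lit 5) (nat_lit 182) (nat_lit 5) (nat_lit 447) (nat_lit 413) (nat_lit 340)) (XT.lf (nat_lit 0) (nat_lit 10833176859) (nat_lit 380) (nat_lit 7915548384) (nat_lit 76) (nat_lit 1561744704) (nat_lit 177) (nat_lit 5) (nat_lit 182) (nat_lit 5) (nat_lit 178) (nat_lit 5) (nat_lit 448) (nat_lit 413) (nat_lit 339))) (XT.nd (nat_lit 78) (nat_lit 380) (nat_lit 0) (XT.lf (nat_lit 0) (nat_lit 13365869012) (nat_lit 228) (nat_lit 6174209925) (nat_lit 304) (nat_lit 1382597587) (nat_lit 174) (nat_lit 5) (nat_lit 177) (nat_lit 5) (nat_lit 178) (nat_lit 5) (nat_lit 449) (nat_lit 413) (nat_lit 338)) (XT.lf (nat_lit 0) (nat_lit 7236393666) (nat_lit 380) (nat_lit 7153237885) (nat_lit 76) (nat_lit 7166057232) (nat_lit 169) (nat_lit 5) (nat_lit 174) (nat_lit 5) (nat_lit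 170) (nat_lit 5) (nat_lit 450) (nat_lit 413) (nat_lit 337))))) (XT.nd (nat_lit 234) (nat_lit 988) (nat_lit 0) (XT.nd (nat_lit 78) (nat_lit 532) (nat_lit 0) (XT.lf (nat_lit 0) (nat_lit 15575014547) (nat_lit 228) (nat_lit 941254878) (nat_lit 304) (nat_lit 5695916419) (nat_lit 166) (nat_lit 5) (nat_lit 169) (nat_lit 5) (nat_lit 170) (nat_lit 5) (nat_lit 451) (nat_lit 413) (nat_lit 336)) (XT.nd (nat_lit 78) (nat_lit 228) (nat_lit 0) (XT.lf (nat_lit 0) (nat_lit 3627856151) (nat_lit 304) (nat_lit 6086793205) (nat_lit 76) (nat_lit 13175847609) (nat_lit 162) (nat_lit 5) (nat_lit 166) (nat_lit 5) (nat_lit 163) (nat_lit 5) (nat_lit 452) (nat_lit 413) (nat_lit 335)) (XT.lf (nat_lit 0) (nat_lit 13568631190) (nat_lit 304) (nat_lit 5447102618) (nat_lit 76) (nat_lit 4577240202) (nat_lit 159) (nat_lit 5) (nat_lit 163) (nat_lit 5) (nat_lit 160) (nat_lit 5) (nat_lit 453) (nat_lit 413) (nat_lit 334)))) (XT.nd (nat_lit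 156) (nat_lit 456) (nat_lit 0) (XT.nd (nat_lit 78) (nat_lit 228) (nat_lit 0) (XT.lf (nat_lit 0) (nat_lit 5417468) (nat_lit 304) (nat_lit 4697261760) (nat_lit 76) (nat_lit 19618293079) (nat_lit 155) (nat_lit 5) (nat_lit 159) (nat_lit 5) (nat_lit 156) (nat_lit 5) (nat_lit 454) (nat_lit 413) (nat_lit 333)) (XT.lf (nat_lit 0) (nat_lit 10665526466) (nat_lit 304) (nat_lit 3935392458) (nat_lit 76) (nat_lit 10471389254) (nat_lit 152) (nat_lit 5) (nat_lit 156) (nat_lit 5) (nat_lit 153) (nat_lit 5) (nat_lit 455) (nat_lit 413) (nat_lit 332))) (XT.nd (nat_lit 78) (nat_lit 228) (nat_lit 0) (XT.lf (nat_lit 0) (nat_lit 22152910520) (nat_lit 304) (nat_lit 3007814962) (nat_lit 76) (nat_lit 691657816) (nat_lit 149) (nat_lit 5) (nat_lit 153) (nat_lit 5) (nat_lit 150) (nat_lit 5) (nat_lit 456) (nat_lit 413) (nat_lit 331)) (XT.lf (nat_lit 0) (nat_lit 7797551848) (nat_lit 228) (nat_lit 2073890851) (nat_lit 76) (nat_lit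 16785798324) (nat_lit 146) (nat_lit 5) (nat_lit 149) (nat_lit 5) (nat_lit 147) (nat_lit 5) (nat_lit 457) (nat_lit 413) (nat_lit 330))))))))
noncomputable def xc70 : XT := (XT.nd (nat_lit 2028) (nat_lit 1748) (nat_lit 0) (XT.nd (nat_lit 1014) (nat_lit 1976) (nat_lit 0) (XT.nd (nat_lit 468) (nat_lit 1368) (nat_lit 0) (XT.nd (nat_lit 234) (nat_lit 608) (nat_lit 0) (XT.nd (nat_lit 78) (nat_lit 608) (nat_lit 0) (XT.lf (nat_lit 0) (nat_lit 20115438349) (nat_lit 304) (nat_lit 1006039349) (nat_lit 76) (nat_lit 6370089918) (nat_lit 143) (nat_lit 5) (nat_lit 147) (nat_lit 5) (nat_lit 144) (nat_lit 5) (nat_lit 458) (nat_lit 413) (nat_lit 329)) (XT.nd (nat_lit 78) (nat_lit 152) (nat_lit 0) (XT.lf (nat_lit 0) (nat_lit 159305963) (nat_lit 228) (nat_lit 4805438414) (nat_lit 304) (nat_lit 23390281809) (nat_lit 137) (nat_lit 5) (nat_lit 140) (nat_lit 5) (nat_lit 141) (nat_lit 5) (nat_lit 459) (nat_lit 413) (nat_lit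 328)) (XT.lf (nat_lit 0) (nat_lit 1398954034) (nat_lit 152) (nat_lit 16785065826) (nat_lit 228) (nat_lit 11063030081) (nat_lit 135) (nat_lit 5) (nat_lit 137) (nat_lit 5) (nat_lit 138) (nat_lit 5) (nat_lit 460) (nat_lit 413) (nat_lit 327)))) (XT.nd (nat_lit 78) (nat_lit 304) (nat_lit 0) (XT.lf (nat_lit 0) (nat_lit 2192957210) (nat_lit 304) (nat_lit 27350964707) (nat_lit 76) (nat_lit 628738939) (nat_lit 131) (nat_lit 5) (nat_lit 135) (nat_lit 5) (nat_lit 132) (nat_lit 5) (nat_lit 461) (nat_lit 413) (nat_lit 326)) (XT.nd (nat_lit 78) (nat_lit 152) (nat_lit 0) (XT.lf (nat_lit 0) (nat_lit 4224934469) (nat_lit 152) (nat_lit 12134397897) (nat_lit 228) (nat_lit 14767642605) (nat_lit 129) (nat_lit 5) (nat_lit 131) (nat_lit 5) (nat_lit 132) (nat_lit 5) (nat_lit 462) (nat_lit 413) (nat_lit 325)) (XT.lf (nat_lit 0) (nat_lit 5838860179) (nat_lit 152) (nat_lit 25770040413) (nat_lit 228) (nat_lit 508858325) (nat_lit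 127) (nat_lit 5) (nat_lit 129) (nat_lit 5) (nat_lit 130) (nat_lit 5) (nat_lit 463) (nat_lit 413) (nat_lit 324))))) (XT.nd (nat_lit 234) (nat_lit 760) (nat_lit 0) (XT.nd (nat_lit 78) (nat_lit 380) (nat_lit 0) (XT.lf (nat_lit 0) (nat_lit 7467618898) (nat_lit 152) (nat_lit 7162816108) (nat_lit 228) (nat_lit 18509982831) (nat_lit 124) (nat_lit 5) (nat_lit 126) (nat_lit 5) (nat_lit 127) (nat_lit 5) (nat_lit 464) (nat_lit 413) (nat_lit 323)) (XT.nd (nat_lit 78) (nat_lit 228) (nat_lit 0) (XT.lf (nat_lit 0) (nat_lit 9256016026) (nat_lit 152) (nat_lit 21717804938) (nat_lit 228) (nat_lit 3226508348) (nat_lit 122) (nat_lit 5) (nat_lit 124) (nat_lit 5) (nat_lit 125) (nat_lit 5) (nat_lit 465) (nat_lit 413) (nat_lit 322)) (XT.lf (nat_lit 0) (nat_lit 11140076229) (nat_lit 152) (nat_lit 1854083486) (nat_lit 228) (nat_lit 22302683400) (nat_lit 119) (nat_lit 5) (nat_lit 121) (nat_lit 5) (nat_lit 122) (nat_lit 5)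 (nat_lit 466) (nat_lit 413) (nat_lit 321)))) (XT.nd (nat_lit 156) (nat_lit 380) (nat_lit 0) (XT.nd (nat_lit 78) (nat_lit 228) (nat_lit 0) (XT.lf (nat_lit 0) (nat_lit 13106545233) (nat_lit 152) (nat_lit 17398650543) (nat_lit 228) (nat_lit 5925646825) (nat_lit 117) (nat_lit 5) (nat_lit 119) (nat_lit 5) (nat_lit 120) (nat_lit 5) (nat_lit 467) (nat_lit 413) (nat_lit 320)) (XT.lf (nat_lit 0) (nat_lit 11481311341) (nat_lit 228) (nat_lit 22391376914) (nat_lit 76) (nat_lit 3732674183) (nat_lit 114) (nat_lit 5) (nat_lit 117) (nat_lit 5) (nat_lit 115) (nat_lit 5) (nat_lit 468) (nat_lit 413) (nat_lit 319))) (XT.nd (nat_lit 78) (nat_lit 228) (nat_lit 0) (XT.lf (nat_lit 0) (nat_lit 17397385344) (nat_lit 152) (nat_lit 12803590112) (nat_lit 228) (nat_lit 8618925675) (nat_lit 112) (nat_lit 5) (nat_lit 114) (nat_lit 5) (nat_lit 115) (nat_lit 5) (nat_lit 469) (nat_lit 413) (nat_lit 318)) (XT.lf (nat_lit 0) (nat_lit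 10067578019) (nat_lit 228) (nat_lit 20367962660) (nat_lit 76) (nat_lit 9641913215) (nat_lit 109) (nat_lit 5) (nat_lit 112) (nat_lit 5) (nat_lit 110) (nat_lit 5) (nat_lit 470) (nat_lit 413) (nat_lit 317)))))) (XT.nd (nat_lit 468) (nat_lit 1064) (nat_lit 0) (XT.nd (nat_lit 234) (nat_lit 456) (nat_lit 0) (XT.nd (nat_lit 78) (nat_lit 304) (nat_lit 0) (XT.lf (nat_lit 0) (nat_lit 22129806823) (nat_lit 152) (nat_lit 7926043508) (nat_lit 228) (nat_lit 11323103220) (nat_lit 107) (nat_lit 5) (nat_lit 109) (nat_lit 5) (nat_lit 110) (nat_lit 5) (nat_lit 471) (nat_lit 413) (nat_lit 316)) (XT.nd (nat_lit 78) (nat_lit 152) (nat_lit 0) (XT.lf (nat_lit 0) (nat_lit 8722145440) (nat_lit 152) (nat_lit 18082724575) (nat_lit 76) (nat_lit 15920683564) (nat_lit 105) (nat_lit 5) (nat_lit 107) (nat_lit 5) (nat_lit 106) (nat_lit 5) (nat_lit 472) (nat_lit 413) (nat_lit 315)) (XT.lf (nat_lit 0) (nat_lit 27297764273) (nat_lit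 152) (nat_lit 2762661087) (nat_lit 228) (nat_lit 14059946699) (nat_lit 103) (nat_lit 5) (nat_lit 105) (nat_lit 5) (nat_lit 106) (nat_lit 5) (nat_lit 473) (nat_lit 413) (nat_lit 314)))) (XT.nd (nat_lit 78) (nat_lit 304) (nat_lit 0) (XT.lf (nat_lit 0) (nat_lit 7427015185) (nat_lit 152) (nat_lit 15558870442) (nat_lit 76) (nat_lit 22576643936) (nat_lit 101) (nat_lit 5) (nat_lit 103) (nat_lit 5) (nat_lit 102) (nat_lit 5) (nat_lit 474) (nat_lit 413) (nat_lit 313)) (XT.nd (nat_lit 78) (nat_lit 152) (nat_lit 0) (XT.lf (nat_lit 0) (nat_lit 30226043499) (nat_lit 228) (nat_lit 14197440656) (nat_lit 76) (nat_lit 2633279743) (nat_lit 99) (nat_lit 5) (nat_lit 102) (nat_lit 5) (nat_lit 100) (nat_lit 4) (nat_lit 475) (nat_lit 413) (nat_lit 312)) (XT.lf (nat_lit 0) (nat_lit 6158054917) (nat_lit 152) (nat_lit 12831044236) (nat_lit 76) (nat_lit 29613208523) (nat_lit 97) (nat_lit 5) (nat_lit 99) (nat_lit 5) (nat_lit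 98) (nat_lit 5) (nat_lit 476) (nat_lit 413) (nat_lit 311))))) (XT.nd (nat_lit 234) (nat_lit 608) (nat_lit 0) (XT.nd (nat_lit 78) (nat_lit 304) (nat_lit 0) (XT.lf (nat_lit 0) (nat_lit 30535380433) (nat_lit 228) (nat_lit 11418570151) (nat_lit 76) (nat_lit 8248563084) (nat_lit 95) (nat_lit 5) (nat_lit 98) (nat_lit 5) (nat_lit 96) (nat_lit 4) (nat_lit 477) (nat_lit 413) (nat_lit 310)) (XT.nd (nat_lit 78) (nat_lit 152) (nat_lit 0) (XT.lf (nat_lit 0) (nat_lit 4883651918) (nat_lit 152) (nat_lit 9948015667) (nat_lit 76) (nat_lit 37028305639) (nat_lit 93) (nat_lit 5) (nat_lit 95) (nat_lit 5) (nat_lit 94) (nat_lit 5) (nat_lit 478) (nat_lit 413) (nat_lit 309)) (XT.lf (nat_lit 0) (nat_lit 30933316179) (nat_lit 228) (nat_lit 8516552197) (nat_lit 76) (nat_lit 14124253196) (nat_lit 91) (nat_lit 5) (nat_lit 94) (nat_lit 5) (nat_lit 92) (nat_lit 4) (nat_lit 479) (nat_lit 413) (nat_lit 308)))) (XT.nd (nat_lit 156)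 (nat_lit 304) (nat_lit 0) (XT.nd (nat_lit 78) (nat_lit 152) (nat_lit 0) (XT.lf (nat_lit 0) (nat_lit 3563108299) (nat_lit 152) (nat_lit 6975887177) (nat_lit 76) (nat_lit 44812889304) (nat_lit 89) (nat_lit 5) (nat_lit 91) (nat_lit 5) (nat_lit 90) (nat_lit 5) (nat_lit 480) (nat_lit 413) (nat_lit 307)) (XT.lf (nat_lit 0) (nat_lit 31381810501) (nat_lit 228) (nat_lit 5567665943) (nat_lit 76) (nat_lit 20239149644) (nat_lit 87) (nat_lit 5) (nat_lit 90) (nat_lit 5) (nat_lit 88) (nat_lit 4) (nat_lit 481) (nat_lit 413) (nat_lit 306))) (XT.nd (nat_lit 78) (nat_lit 152) (nat_lit 0) (XT.lf (nat_lit 0) (nat_lit 2144731989) (nat_lit 152) (nat_lit 4001911592) (nat_lit 76) (nat_lit 52949158150) (nat_lit 85) (nat_lit 5) (nat_lit 87) (nat_lit 5) (nat_lit 86) (nat_lit 5) (nat_lit 482) (nat_lit 413) (nat_lit 305)) (XT.lf (nat_lit 0) (nat_lit 31831302278) (nat_lit 228) (nat_lit 2671520713) (nat_lit 76) (nat_lit 26561712778)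 (nat_lit 83) (nat_lit 5) (nat_lit 86) (nat_lit 5) (nat_lit 84) (nat_lit 4) (nat_lit 483) (nat_lit 413) (nat_lit 304))))))) (XT.nd (nat_lit 1014) (nat_lit 152) (nat_lit 0) (XT.nd (nat_lit 468) (nat_lit 760) (nat_lit 0) (XT.nd (nat_lit 234) (nat_lit 380) (nat_lit 0) (XT.nd (nat_lit 78) (nat_lit 304) (nat_lit 0) (XT.lf (nat_lit 0) (nat_lit 563569575) (nat_lit 152) (nat_lit 1139029775) (nat_lit 76) (nat_lit 61408428160) (nat_lit 81) (nat_lit 5) (nat_lit 83) (nat_lit 5) (nat_lit 82) (nat_lit 5) (nat_lit 484) (nat_lit 413) (nat_lit 303)) (XT.nd (nat_lit 78) (nat_lit 76) (nat_lit 0) (XT.lf (nat_lit 0) (nat_lit 44874647) (nat_lit 76) (nat_lit 32173836060) (nat_lit 152) (nat_lit 33003257500) (nat_lit 78) (nat_lit 5) (nat_lit 79) (nat_lit 5) (nat_lit 80) (nat_lit 4) (nat_lit 485) (nat_lit 413) (nat_lit 302)) (XT.lf (nat_lit 0) (nat_lit 1458472793) (nat_lit 76) (nat_lit 64713727612) (nat_lit 76) (nat_lit 1244787872)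 (nat_lit 77) (nat_lit 4) (nat_lit 78) (nat_lit 5) (nat_lit 78) (nat_lit 4) (nat_lit 486) (nat_lit 413) (nat_lit 301)))) (XT.nd (nat_lit 78) (nat_lit 228) (nat_lit 0) (XT.lf (nat_lit 0) (nat_lit 2464968175) (nat_lit 76) (nat_lit 30021120637) (nat_lit 152) (nat_lit 37196086161) (nat_lit 75) (nat_lit 5) (nat_lit 76) (nat_lit 5) (nat_lit 77) (nat_lit 4) (nat_lit 487) (nat_lit 413) (nat_lit 300)) (XT.nd (nat_lit 78) (nat_lit 152) (nat_lit 0) (XT.lf (nat_lit 0) (nat_lit 3608429155) (nat_lit 76) (nat_lit 65036745805) (nat_lit 76) (nat_lit 3392054086) (nat_lit 74) (nat_lit 4) (nat_lit 75) (nat_lit 5) (nat_lit 75) (nat_lit 4) (nat_lit 488) (nat_lit 413) (nat_lit 299)) (XT.lf (nat_lit 0) (nat_lit 4328433316) (nat_lit 76) (nat_lit 28176218397) (nat_lit 152) (nat_lit 41965259565) (nat_lit 72) (nat_lit 5) (nat_lit 73) (nat_lit 5) (nat_lit 74) (nat_lit 4) (nat_lit 489) (nat_lit 413) (nat_lit 298))))) (XT.nd (nat_lit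 234) (nat_lit 456) (nat_lit 0) (XT.nd (nat_lit 78) (nat_lit 228) (nat_lit 0) (XT.lf (nat_lit 0) (nat_lit 5079326370) (nat_lit 76) (nat_lit 65894563439) (nat_lit 76) (nat_lit 6023894840) (nat_lit 71) (nat_lit 4) (nat_lit 72) (nat_lit 5) (nat_lit 72) (nat_lit 4) (nat_lit 490) (nat_lit 413) (nat_lit 297)) (XT.nd (nat_lit 78) (nat_lit 76) (nat_lit 0) (XT.lf (nat_lit 0) (nat_lit 5377815911) (nat_lit 76) (nat_lit 26769204393) (nat_lit 152) (nat_lit 47464345247) (nat_lit 69) (nat_lit 5) (nat_lit 70) (nat_lit 5) (nat_lit 71) (nat_lit 4) (nat_lit 491) (nat_lit 413) (nat_lit 296)) (XT.lf (nat_lit 0) (nat_lit 5584885700) (nat_lit 76) (nat_lit 67443456014) (nat_lit 76) (nat_lit 9297701247) (nat_lit 68) (nat_lit 4) (nat_lit 69) (nat_lit 5) (nat_lit 69) (nat_lit 4) (nat_lit 492) (nat_lit 413) (nat_lit 295)))) (XT.nd (nat_lit 156) (nat_lit 228) (nat_lit 0) (XT.nd (nat_lit 78) (nat_lit 76) (nat_lit 0) (XT.lf (nat_lit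 0) (nat_lit 5295448630) (nat_lit 76) (nat_lit 25960699246) (nat_lit 152) (nat_lit 53879047467) (nat_lit 66) (nat_lit 5) (nat_lit 67) (nat_lit 5) (nat_lit 68) (nat_lit 4) (nat_lit 493) (nat_lit 413) (nat_lit 294)) (XT.lf (nat_lit 0) (nat_lit 4772997159) (nat_lit 76) (nat_lit 69873913414) (nat_lit 76) (nat_lit 13405087772) (nat_lit 65) (nat_lit 4) (nat_lit 66) (nat_lit 5) (nat_lit 66) (nat_lit 4) (nat_lit 494) (nat_lit 413) (nat_lit 293))) (XT.nd (nat_lit 78) (nat_lit 76) (nat_lit 0) (XT.lf (nat_lit 0) (nat_lit 3691736816) (nat_lit 76) (nat_lit 25947815597) (nat_lit 152) (nat_lit 61433258964) (nat_lit 63) (nat_lit 5) (nat_lit 64) (nat_lit 5) (nat_lit 65) (nat_lit 4) (nat_lit 495) (nat_lit 413) (nat_lit 292)) (XT.lf (nat_lit 0) (nat_lit 2212991892) (nat_lit 76) (nat_lit 73417157756) (nat_lit 76) (nat_lit 18578404861) (nat_lit 62) (nat_lit 4) (nat_lit 63) (nat_lit 5) (nat_lit 63) (nat_lit 4) (nat_lit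 496) (nat_lit 413) (nat_lit 291)))))) (XT.nd (nat_lit 56394) (nat_lit 0) (nat_lit 19684) (XT.nd (nat_lit 56082) (nat_lit 0) (nat_lit 22800) (XT.nd (nat_lit 78) (nat_lit 0) (nat_lit 0) (XT.lf (nat_lit 0) (nat_lit 91333020) (nat_lit 76) (nat_lit 26971175407) (nat_lit 152) (nat_lit 70396192188) (nat_lit 60) (nat_lit 5) (nat_lit 61) (nat_lit 5) (nat_lit 62) (nat_lit 4) (nat_lit 497) (nat_lit 413) (nat_lit 290)) (XT.nd (nat_lit 55926) (nat_lit 0) (nat_lit 23864) (XT.lf (nat_lit 0) (nat_lit 75758631321) (nat_lit 152) (nat_lit 2568260177) (nat_lit 0) (nat_lit 22504222412) (nat_lit 60) (nat_lit 5) (nat_lit 62) (nat_lit 4) (nat_lit 60) (nat_lit 4) (nat_lit 498) (nat_lit 413) (nat_lit 289)) (XT.lf (nat_lit 0) (nat_lit 1882150952) (nat_lit 0) (nat_lit 1882150952) (nat_lit 988) (nat_lit 592136986) (nat_lit 374) (nat_lit 5) (nat_lit 374) (nat_lit 3) (nat_lit 387) (nat_lit 3) (nat_lit 414) (nat_lit 414) (nat_lit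 372)))) (XT.nd (nat_lit 156) (nat_lit 0) (nat_lit 76) (XT.nd (nat_lit 78) (nat_lit 0) (nat_lit 0) (XT.lf (nat_lit 0) (nat_lit 461663830) (nat_lit 1064) (nat_lit 6568401727) (nat_lit 1140) (nat_lit 1851347233) (nat_lit 360) (nat_lit 5) (nat_lit 374) (nat_lit 5) (nat_lit 375) (nat_lit 5) (nat_lit 415) (nat_lit 414) (nat_lit 371)) (XT.lf (nat_lit 76) (nat_lit 893455508) (nat_lit 0) (nat_lit 1267018131) (nat_lit 1140) (nat_lit 6897702318) (nat_lit 361) (nat_lit 5) (nat_lit 360) (nat_lit 5) (nat_lit 375) (nat_lit 5) (nat_lit 416) (nat_lit 414) (nat_lit 370))) (XT.nd (nat_lit 78) (nat_lit 0) (nat_lit 76) (XT.lf (nat_lit 0) (nat_lit 3960094562) (nat_lit 1064) (nat_lit 482233954) (nat_lit 1140) (nat_lit 4800977601) (nat_lit 361) (nat_lit 5) (nat_lit 375) (nat_lit 5) (nat_lit 376) (nat_lit 5) (nat_lit 417) (nat_lit 414) (nat_lit 369)) (XT.lf (nat_lit 0) (nat_lit 5859957896) (nat_lit 1064) (nat_lit 1790939460)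 (nat_lit 1140) (nat_lit 1786492307) (nat_lit 362) (nat_lit 5) (nat_lit 376) (nat_lit 5) (nat_lit 377) (nat_lit 5) (nat_lit 418) (nat_lit 414) (nat_lit 368))))) (XT.nd (nat_lit 234) (nat_lit 2204) (nat_lit 0) (XT.nd (nat_lit 78) (nat_lit 1064) (nat_lit 0) (XT.lf (nat_lit 76) (nat_lit 6575983909) (nat_lit 0) (nat_lit 1302444044) (nat_lit 1140) (nat_lit 1762045521) (nat_lit 363) (nat_lit 5) (nat_lit 362) (nat_lit 5) (nat_lit 377) (nat_lit 5) (nat_lit 419) (nat_lit 414) (nat_lit 367)) (XT.nd (nat_lit 78) (nat_lit 0) (nat_lit 76) (XT.lf (nat_lit 0) (nat_lit 179674491) (nat_lit 1140) (nat_lit 4311659863) (nat_lit 1216) (nat_lit 5361188421) (nat_lit 348) (nat_lit 5) (nat_lit 363) (nat_lit 5) (nat_lit 364) (nat_lit 5) (nat_lit 420) (nat_lit 414) (nat_lit 366)) (XT.lf (nat_lit 0) (nat_lit 2211356191) (nat_lit 1140) (nat_lit 5532389436) (nat_lit 1216) (nat_lit 2330029967) (nat_lit 349) (nat_lit 5) (nat_lit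 364) (nat_lit 5) (nat_lit 365) (nat_lit 5) (nat_lit 421) (nat_lit 414) (nat_lit 365)))) (XT.nd (nat_lit 156) (nat_lit 2280) (nat_lit 0) (XT.nd (nat_lit 78) (nat_lit 0) (nat_lit 76) (XT.lf (nat_lit 76) (nat_lit 3586529479) (nat_lit 0) (nat_lit 803572417) (nat_lit 1216) (nat_lit 5914628528) (nat_lit 350) (nat_lit 5) (nat_lit 349) (nat_lit 5) (nat_lit 365) (nat_lit 5) (nat_lit 422) (nat_lit 414) (nat_lit 364)) (XT.lf (nat_lit 76) (nat_lit 2659653019) (nat_lit 0) (nat_lit 4087761795) (nat_lit 1216) (nat_lit 3797732875) (nat_lit 351) (nat_lit 5) (nat_lit 350) (nat_lit 5) (nat_lit 366) (nat_lit 5) (nat_lit 423) (nat_lit 414) (nat_lit 363))) (XT.nd (nat_lit 78) (nat_lit 1292) (nat_lit 0) (XT.lf (nat_lit 0) (nat_lit 1784566136) (nat_lit 1140) (nat_lit 7491860425) (nat_lit 1216) (nat_lit 1519547678) (nat_lit 336) (nat_lit 5) (nat_lit 351) (nat_lit 5) (nat_lit 352) (nat_lit 5) (nat_lit 424) (nat_lit 414)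 (nat_lit 362)) (XT.lf (nat_lit 0) (nat_lit 917847104) (nat_lit 1292) (nat_lit 10104476560) (nat_lit 76) (nat_lit 34900185) (nat_lit 319) (nat_lit 5) (nat_lit 336) (nat_lit 5) (nat_lit 320) (nat_lit 5) (nat_lit 425) (nat_lit 414) (nat_lit 361))))))))
noncomputable def xc71 : XT := (XT.nd (nat_lit 2028) (nat_lit 5624) (nat_lit 0) (XT.nd (nat_lit 1014) (nat_lit 4712) (nat_lit 0) (XT.nd (nat_lit 468) (nat_lit 3420) (nat_lit 0) (XT.nd (nat_lit 234) (nat_lit 1824) (nat_lit 0) (XT.nd (nat_lit 78) (nat_lit 608) (nat_lit 0) (XT.lf (nat_lit 0) (nat_lit 123794948) (nat_lit 836) (nat_lit 3425121571) (nat_lit 912) (nat_lit 7779074136) (nat_lit 308) (nat_lit 5) (nat_lit 319) (nat_lit 5) (nat_lit 320) (nat_lit 5) (nat_lit 426) (nat_lit 414) (nat_lit 360)) (XT.nd (nat_lit 78) (nat_lit 608) (nat_lit 0) (XT.lf (nat_lit 0) (nat_lit 6395484922) (nat_lit 912) (nat_lit 640984709) (nat_lit 76) (nat_lit 4573310671) (nat_lit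 308) (nat_lit 5) (nat_lit 320) (nat_lit 5) (nat_lit 309) (nat_lit 5) (nat_lit 427) (nat_lit 414) (nat_lit 359)) (XT.lf (nat_lit 0) (nat_lit 9469340952) (nat_lit 684) (nat_lit 1350827561) (nat_lit 76) (nat_lit 1082944871) (nat_lit 300) (nat_lit 5) (nat_lit 309) (nat_lit 5) (nat_lit 301) (nat_lit 5) (nat_lit 428) (nat_lit 414) (nat_lit 358)))) (XT.nd (nat_lit 78) (nat_lit 1140) (nat_lit 0) (XT.lf (nat_lit 0) (nat_lit 593597563) (nat_lit 684) (nat_lit 2037104691) (nat_lit 76) (nat_lit 9576754301) (nat_lit 291) (nat_lit 5) (nat_lit 300) (nat_lit 5) (nat_lit 292) (nat_lit 5) (nat_lit 429) (nat_lit 414) (nat_lit 357)) (XT.nd (nat_lit 78) (nat_lit 608) (nat_lit 0) (XT.lf (nat_lit 0) (nat_lit 3832518640) (nat_lit 608) (nat_lit 2704444116) (nat_lit 76) (nat_lit 5986018129) (nat_lit 284) (nat_lit 5) (nat_lit 292) (nat_lit 5) (nat_lit 285) (nat_lit 5) (nat_lit 430) (nat_lit 414) (nat_lit 356)) (XT.lf (nat_lit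 0) (nat_lit 7339062366) (nat_lit 684) (nat_lit 3315964248) (nat_lit 76) (nat_lit 2196086807) (nat_lit 276) (nat_lit 5) (nat_lit 285) (nat_lit 5) (nat_lit 277) (nat_lit 5) (nat_lit 431) (nat_lit 414) (nat_lit 355))))) (XT.nd (nat_lit 234) (nat_lit 1824) (nat_lit 0) (XT.nd (nat_lit 78) (nat_lit 1064) (nat_lit 0) (XT.lf (nat_lit 0) (nat_lit 9305559110) (nat_lit 532) (nat_lit 1845529985) (nat_lit 608) (nat_lit 2040660997) (nat_lit 269) (nat_lit 5) (nat_lit 276) (nat_lit 5) (nat_lit 277) (nat_lit 5) (nat_lit 432) (nat_lit 414) (nat_lit 354)) (XT.nd (nat_lit 78) (nat_lit 456) (nat_lit 0) (XT.lf (nat_lit 0) (nat_lit 1716345828) (nat_lit 608) (nat_lit 4434349155) (nat_lit 76) (nat_lit 7393962398) (nat_lit 261) (nat_lit 5) (nat_lit 269) (nat_lit 5) (nat_lit 262) (nat_lit 5) (nat_lit 433) (nat_lit 414) (nat_lit 353)) (XT.lf (nat_lit 0) (nat_lit 5746535537) (nat_lit 532) (nat_lit 4940797889) (nat_lit 76) (nat_lit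 3223446296) (nat_lit 255) (nat_lit 5) (nat_lit 262) (nat_lit 5) (nat_lit 256) (nat_lit 5) (nat_lit 434) (nat_lit 414) (nat_lit 352)))) (XT.nd (nat_lit 156) (nat_lit 836) (nat_lit 0) (XT.nd (nat_lit 78) (nat_lit 532) (nat_lit 0) (XT.lf (nat_lit 0) (nat_lit 8897360172) (nat_lit 456) (nat_lit 1226331369) (nat_lit 532) (nat_lit 4167154763) (nat_lit 249) (nat_lit 5) (nat_lit 255) (nat_lit 5) (nat_lit 256) (nat_lit 5) (nat_lit 435) (nat_lit 414) (nat_lit 351)) (XT.lf (nat_lit 0) (nat_lit 204731017) (nat_lit 532) (nat_lit 5812217641) (nat_lit 76) (nat_lit 8667694963) (nat_lit 242) (nat_lit 5) (nat_lit 249) (nat_lit 5) (nat_lit 243) (nat_lit 5) (nat_lit 436) (nat_lit 414) (nat_lit 350))) (XT.nd (nat_lit 78) (nat_lit 380) (nat_lit 0) (XT.lf (nat_lit 0) (nat_lit 4858329509) (nat_lit 532) (nat_lit 6201997345) (nat_lit 76) (nat_lit 4032088743) (nat_lit 236) (nat_lit 5) (nat_lit 243) (nat_lit 5) (nat_lit 237)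 (nat_lit 5) (nat_lit 437) (nat_lit 414) (nat_lit 349)) (XT.lf (nat_lit 0) (nat_lit 8989317795) (nat_lit 380) (nat_lit 919057800) (nat_lit 456) (nat_lit 5607289083) (nat_lit 231) (nat_lit 5) (nat_lit 236) (nat_lit 5) (nat_lit 237) (nat_lit 5) (nat_lit 438) (nat_lit 414) (nat_lit 348)))))) (XT.nd (nat_lit 468) (nat_lit 2280) (nat_lit 0) (XT.nd (nat_lit 234) (nat_lit 1140) (nat_lit 0) (XT.nd (nat_lit 78) (nat_lit 836) (nat_lit 0) (XT.lf (nat_lit 0) (nat_lit 9140656258) (nat_lit 456) (nat_lit 6273788143) (nat_lit 532) (nat_lit 539527660) (nat_lit 225) (nat_lit 5) (nat_lit 231) (nat_lit 5) (nat_lit 232) (nat_lit 5) (nat_lit 439) (nat_lit 414) (nat_lit 347)) (XT.nd (nat_lit 78) (nat_lit 380) (nat_lit 0) (XT.lf (nat_lit 0) (nat_lit 4858398152) (nat_lit 456) (nat_lit 7064933341) (nat_lit 76) (nat_lit 4484383265) (nat_lit 219) (nat_lit 5) (nat_lit 225) (nat_lit 5) (nat_lit 220) (nat_lit 5) (nat_lit 440)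 (nat_lit 414) (nat_lit 346)) (XT.lf (nat_lit 0) (nat_lit 9631559462) (nat_lit 380) (nat_lit 1070425499) (nat_lit 456) (nat_lit 6176392970) (nat_lit 214) (nat_lit 5) (nat_lit 219) (nat_lit 5) (nat_lit 220) (nat_lit 5) (nat_lit 441) (nat_lit 414) (nat_lit 345)))) (XT.nd (nat_lit 78) (nat_lit 760) (nat_lit 0) (XT.lf (nat_lit 0) (nat_lit 9981501806) (nat_lit 380) (nat_lit 7086240640) (nat_lit 456) (nat_lit 297933303) (nat_lit 209) (nat_lit 5) (nat_lit 214) (nat_lit 5) (nat_lit 215) (nat_lit 5) (nat_lit 442) (nat_lit 414) (nat_lit 344)) (XT.nd (nat_lit 78) (nat_lit 304) (nat_lit 0) (XT.lf (nat_lit 0) (nat_lit 5952006955) (nat_lit 456) (nat_lit 7484194497) (nat_lit 76) (nat_lit 4433678396) (nat_lit 203) (nat_lit 5) (nat_lit 209) (nat_lit 5) (nat_lit 204) (nat_lit 5) (nat_lit 443) (nat_lit 414) (nat_lit 343)) (XT.lf (nat_lit 0) (nat_lit 10886397289) (nat_lit 304) (nat_lit 1838355315) (nat_lit 380) (nat_lit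 5667960030) (nat_lit 199) (nat_lit 5) (nat_lit 203) (nat_lit 5) (nat_lit 204) (nat_lit 5) (nat_lit 444) (nat_lit 414) (nat_lit 342))))) (XT.nd (nat_lit 234) (nat_lit 1292) (nat_lit 0) (XT.nd (nat_lit 78) (nat_lit 608) (nat_lit 0) (XT.lf (nat_lit 0) (nat_lit 1131470063) (nat_lit 380) (nat_lit 7480619462) (nat_lit 76) (nat_lit 10321706326) (nat_lit 194) (nat_lit 5) (nat_lit 199) (nat_lit 5) (nat_lit 195) (nat_lit 5) (nat_lit 445) (nat_lit 414) (nat_lit 341)) (XT.nd (nat_lit 78) (nat_lit 304) (nat_lit 0) (XT.lf (nat_lit 0) (nat_lit 8369823127) (nat_lit 380) (nat_lit 7404037833) (nat_lit 76) (nat_lit 3719904459) (nat_lit 190) (nat_lit 5) (nat_lit 195) (nat_lit 5) (nat_lit 191) (nat_lit 5) (nat_lit 446) (nat_lit 414) (nat_lit 340)) (XT.lf (nat_lit 0) (nat_lit 12828014984) (nat_lit 304) (nat_lit 3396549816) (nat_lit 380) (nat_lit 3849535443) (nat_lit 186) (nat_lit 5) (nat_lit 190) (nat_lit 5) (nat_lit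 191) (nat_lit 5) (nat_lit 447) (nat_lit 414) (nat_lit 339)))) (XT.nd (nat_lit 156) (nat_lit 608) (nat_lit 0) (XT.nd (nat_lit 78) (nat_lit 304) (nat_lit 0) (XT.lf (nat_lit 0) (nat_lit 3985405394) (nat_lit 380) (nat_lit 7045038069) (nat_lit 76) (nat_lit 9643794352) (nat_lit 181) (nat_lit 5) (nat_lit 186) (nat_lit 5) (nat_lit 182) (nat_lit 5) (nat_lit 448) (nat_lit 414) (nat_lit 338)) (XT.lf (nat_lit 0) (nat_lit 12372223346) (nat_lit 380) (nat_lit 6758864358) (nat_lit 76) (nat_lit 2164959602) (nat_lit 177) (nat_lit 5) (nat_lit 182) (nat_lit 5) (nat_lit 178) (nat_lit 5) (nat_lit 449) (nat_lit 414) (nat_lit 337))) (XT.nd (nat_lit 78) (nat_lit 380) (nat_lit 0) (XT.lf (nat_lit 0) (nat_lit 15542122912) (nat_lit 228) (nat_lit 5939348404) (nat_lit 304) (nat_lit 458384039) (nat_lit 174) (nat_lit 5) (nat_lit 177) (nat_lit 5) (nat_lit 178) (nat_lit 5) (nat_lit 450) (nat_lit 414) (nat_lit 336)) (XT.lf (nat_lit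 0) (nat_lit 8545262731) (nat_lit 380) (nat_lit 6004245354) (nat_lit 76) (nat_lit 8055532073) (nat_lit 169) (nat_lit 5) (nat_lit 174) (nat_lit 5) (nat_lit 170) (nat_lit 5) (nat_lit 451) (nat_lit 414) (nat_lit 335))))))) (XT.nd (nat_lit 1014) (nat_lit 2356) (nat_lit 0) (XT.nd (nat_lit 468) (nat_lit 1748) (nat_lit 0) (XT.nd (nat_lit 234) (nat_lit 760) (nat_lit 0) (XT.nd (nat_lit 78) (nat_lit 532) (nat_lit 0) (XT.lf (nat_lit 0) (nat_lit 17817231754) (nat_lit 228) (nat_lit 440870670) (nat_lit 304) (nat_lit 5037191571) (nat_lit 166) (nat_lit 5) (nat_lit 169) (nat_lit 5) (nat_lit 170) (nat_lit 5) (nat_lit 452) (nat_lit 414) (nat_lit 334)) (XT.nd (nat_lit 78) (nat_lit 228) (nat_lit 0) (XT.lf (nat_lit 0) (nat_lit 4709376228) (nat_lit 304) (nat_lit 4930081777) (nat_lit 76) (nat_lit 14368540984) (nat_lit 162) (nat_lit 5) (nat_lit 166) (nat_lit 5) (nat_lit 163) (nat_lit 5) (nat_lit 453) (nat_lit 414) (nat_lit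 333)) (XT.lf (nat_lit 0) (nat_lit 15123239001) (nat_lit 304) (nat_lit 4279412369) (nat_lit 76) (nat_lit 5343667952) (nat_lit 159) (nat_lit 5) (nat_lit 163) (nat_lit 5) (nat_lit 160) (nat_lit 5) (nat_lit 454) (nat_lit 414) (nat_lit 332)))) (XT.nd (nat_lit 78) (nat_lit 456) (nat_lit 0) (XT.lf (nat_lit 0) (nat_lit 861999663) (nat_lit 304) (nat_lit 3516299068) (nat_lit 76) (nat_lit 21133016115) (nat_lit 155) (nat_lit 5) (nat_lit 159) (nat_lit 5) (nat_lit 156) (nat_lit 5) (nat_lit 455) (nat_lit 414) (nat_lit 331)) (XT.nd (nat_lit 78) (nat_lit 228) (nat_lit 0) (XT.lf (nat_lit 0) (nat_lit 12032810211) (nat_lit 304) (nat_lit 2737295263) (nat_lit 76) (nat_lit 11530781949) (nat_lit 152) (nat_lit 5) (nat_lit 156) (nat_lit 5) (nat_lit 153) (nat_lit 5) (nat_lit 456) (nat_lit 414) (nat_lit 330)) (XT.lf (nat_lit 0) (nat_lit 24073136340) (nat_lit 304) (nat_lit 1784351331) (nat_lit 76) (nat_lit 1263122202) (nat_lit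 149) (nat_lit 5) (nat_lit 153) (nat_lit 5) (nat_lit 150) (nat_lit 5) (nat_lit 457) (nat_lit 414) (nat_lit 329))))) (XT.nd (nat_lit 234) (nat_lit 836) (nat_lit 0) (XT.nd (nat_lit 78) (nat_lit 684) (nat_lit 0) (XT.lf (nat_lit 0) (nat_lit 8981946628) (nat_lit 228) (nat_lit 827285786) (nat_lit 76) (nat_lit 18157021107) (nat_lit 146) (nat_lit 5) (nat_lit 149) (nat_lit 5) (nat_lit 147) (nat_lit 5) (nat_lit 458) (nat_lit 414) (nat_lit 328)) (XT.nd (nat_lit 78) (nat_lit 304) (nat_lit 0) (XT.lf (nat_lit 0) (nat_lit 278567222) (nat_lit 152) (nat_lit 21619824623) (nat_lit 228) (nat_lit 6944425337) (nat_lit 141) (nat_lit 5) (nat_lit 143) (nat_lit 5) (nat_lit 144) (nat_lit 5) (nat_lit 459) (nat_lit 414) (nat_lit 327)) (XT.lf (nat_lit 0) (nat_lit 1499723415) (nat_lit 228) (nat_lit 4483541171) (nat_lit 304) (nat_lit 23766392057) (nat_lit 137) (nat_lit 5) (nat_lit 140) (nat_lit 5) (nat_lit 141) (nat_lit 5) (nat_lit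 460) (nat_lit 414) (nat_lit 326)))) (XT.nd (nat_lit 156) (nat_lit 380) (nat_lit 0) (XT.nd (nat_lit 78) (nat_lit 304) (nat_lit 0) (XT.lf (nat_lit 0) (nat_lit 2780368502) (nat_lit 152) (nat_lit 17064208406) (nat_lit 228) (nat_lit 10842273076) (nat_lit 135) (nat_lit 5) (nat_lit 137) (nat_lit 5) (nat_lit 138) (nat_lit 5) (nat_lit 461) (nat_lit 414) (nat_lit 325)) (XT.lf (nat_lit 0) (nat_lit 3042985074) (nat_lit 304) (nat_lit 27413217008) (nat_lit 76) (nat_lit 1202869531) (nat_lit 131) (nat_lit 5) (nat_lit 135) (nat_lit 5) (nat_lit 132) (nat_lit 5) (nat_lit 462) (nat_lit 414) (nat_lit 324))) (XT.nd (nat_lit 78) (nat_lit 228) (nat_lit 0) (XT.lf (nat_lit 0) (nat_lit 5704061081) (nat_lit 152) (nat_lit 12190549354) (nat_lit 228) (nat_lit 14767183574) (nat_lit 129) (nat_lit 5) (nat_lit 131) (nat_lit 5) (nat_lit 132) (nat_lit 5) (nat_lit 463) (nat_lit 414) (nat_lit 323)) (XT.lf (nat_lit 0) (nat_lit 183251129)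 (nat_lit 228) (nat_lit 26326316624) (nat_lit 76) (nat_lit 7193009818) (nat_lit 126) (nat_lit 5) (nat_lit 129) (nat_lit 5) (nat_lit 127) (nat_lit 5) (nat_lit 464) (nat_lit 414) (nat_lit 322)))))) (XT.nd (nat_lit 546) (nat_lit 1064) (nat_lit 0) (XT.nd (nat_lit 234) (nat_lit 760) (nat_lit 0) (XT.nd (nat_lit 78) (nat_lit 380) (nat_lit 0) (XT.lf (nat_lit 0) (nat_lit 9066233343) (nat_lit 152) (nat_lit 6980954659) (nat_lit 228) (nat_lit 18729684660) (nat_lit 124) (nat_lit 5) (nat_lit 126) (nat_lit 5) (nat_lit 127) (nat_lit 5) (nat_lit 465) (nat_lit 414) (nat_lit 321)) (XT.nd (nat_lit 78) (nat_lit 228) (nat_lit 0) (XT.lf (nat_lit 0) (nat_lit 10923863762) (nat_lit 152) (nat_lit 22267776735) (nat_lit 228) (nat_lit 2698622731) (nat_lit 122) (nat_lit 5) (nat_lit 124) (nat_lit 5) (nat_lit 125) (nat_lit 5) (nat_lit 466) (nat_lit 414) (nat_lit 320)) (XT.lf (nat_lit 0) (nat_lit 12880656223) (nat_lit 152) (nat_lit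 1418171634) (nat_lit 228) (nat_lit 22743200568) (nat_lit 119) (nat_lit 5) (nat_lit 121) (nat_lit 5) (nat_lit 122) (nat_lit 5) (nat_lit 467) (nat_lit 414) (nat_lit 319)))) (XT.nd (nat_lit 156) (nat_lit 380) (nat_lit 0) (XT.nd (nat_lit 78) (nat_lit 228) (nat_lit 0) (XT.lf (nat_lit 0) (nat_lit 14925679365) (nat_lit 152) (nat_lit 17744574412) (nat_lit 228) (nat_lit 5562929351) (nat_lit 117) (nat_lit 5) (nat_lit 119) (nat_lit 5) (nat_lit 120) (nat_lit 5) (nat_lit 468) (nat_lit 414) (nat_lit 318)) (XT.lf (nat_lit 0) (nat_lit 12686701101) (nat_lit 228) (nat_lit 22354169023) (nat_lit 76) (nat_lit 4425813631) (nat_lit 114) (nat_lit 5) (nat_lit 117) (nat_lit 5) (nat_lit 115) (nat_lit 5) (nat_lit 469) (nat_lit 414) (nat_lit 317))) (XT.nd (nat_lit 78) (nat_lit 228) (nat_lit 0) (XT.lf (nat_lit 0) (nat_lit 19390872576) (nat_lit 152) (nat_lit 12932213692) (nat_lit 228) (nat_lit 8419441316) (nat_lit 112) (nat_lit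 5) (nat_lit 114) (nat_lit 5) (nat_lit 115) (nat_lit 5) (nat_lit 470) (nat_lit 414) (nat_lit 316)) (XT.lf (nat_lit 0) (nat_lit 11175102498) (nat_lit 228) (nat_lit 20269855557) (nat_lit 76) (nat_lit 10618237933) (nat_lit 109) (nat_lit 5) (nat_lit 112) (nat_lit 5) (nat_lit 110) (nat_lit 5) (nat_lit 471) (nat_lit 414) (nat_lit 315))))) (XT.nd (nat_lit 234) (nat_lit 608) (nat_lit 0) (XT.nd (nat_lit 78) (nat_lit 304) (nat_lit 0) (XT.lf (nat_lit 0) (nat_lit 24320798001) (nat_lit 152) (nat_lit 7823646472) (nat_lit 228) (nat_lit 11285876769) (nat_lit 107) (nat_lit 5) (nat_lit 109) (nat_lit 5) (nat_lit 110) (nat_lit 5) (nat_lit 472) (nat_lit 414) (nat_lit 314)) (XT.nd (nat_lit 78) (nat_lit 152) (nat_lit 0) (XT.lf (nat_lit 0) (nat_lit 9736646004) (nat_lit 152) (nat_lit 17909510644) (nat_lit 76) (nat_lit 17198317321) (nat_lit 105) (nat_lit 5) (nat_lit 107) (nat_lit 5) (nat_lit 106) (nat_lit 5) (nat_lit 473)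 (nat_lit 414) (nat_lit 313)) (XT.lf (nat_lit 0) (nat_lit 29709120620) (nat_lit 152) (nat_lit 2415236054) (nat_lit 228) (nat_lit 14185201458) (nat_lit 103) (nat_lit 5) (nat_lit 105) (nat_lit 5) (nat_lit 106) (nat_lit 5) (nat_lit 474) (nat_lit 414) (nat_lit 312)))) (XT.nd (nat_lit 156) (nat_lit 304) (nat_lit 0) (XT.nd (nat_lit 78) (nat_lit 152) (nat_lit 0) (XT.lf (nat_lit 0) (nat_lit 8352331609) (nat_lit 152) (nat_lit 15297496452) (nat_lit 76) (nat_lit 24174204176) (nat_lit 101) (nat_lit 5) (nat_lit 103) (nat_lit 5) (nat_lit 102) (nat_lit 5) (nat_lit 475) (nat_lit 414) (nat_lit 311)) (XT.lf (nat_lit 0) (nat_lit 32279175614) (nat_lit 228) (nat_lit 13886203097) (nat_lit 76) (nat_lit 3227963879) (nat_lit 99) (nat_lit 5) (nat_lit 102) (nat_lit 5) (nat_lit 100) (nat_lit 4) (nat_lit 476) (nat_lit 414) (nat_lit 310))) (XT.nd (nat_lit 78) (nat_lit 152) (nat_lit 0) (XT.lf (nat_lit 0) (nat_lit 6996728238) (nat_lit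 152) (nat_lit 12470189125) (nat_lit 76) (nat_lit 31549578323) (nat_lit 97) (nat_lit 5) (nat_lit 99) (nat_lit 5) (nat_lit 98) (nat_lit 5) (nat_lit 477) (nat_lit 414) (nat_lit 309)) (XT.lf (nat_lit 0) (nat_lit 32581415226) (nat_lit 228) (nat_lit 11004785867) (nat_lit 76) (nat_lit 9110856230) (nat_lit 95) (nat_lit 5) (nat_lit 98) (nat_lit 5) (nat_lit 96) (nat_lit 4) (nat_lit 478) (nat_lit 414) (nat_lit 308))))))))
noncomputable def xc72 : XT := (XT.nd (nat_lit 58032) (nat_lit 0) (nat_lit 9576) (XT.nd (nat_lit 1014) (nat_lit 836) (nat_lit 0) (XT.nd (nat_lit 468) (nat_lit 912) (nat_lit 0) (XT.nd (nat_lit 234) (nat_lit 456) (nat_lit 0) (XT.nd (nat_lit 78) (nat_lit 304) (nat_lit 0) (XT.lf (nat_lit 0) (nat_lit 5636558918) (nat_lit 152) (nat_lit 9478801890) (nat_lit 76) (nat_lit 39322345595) (nat_lit 93) (nat_lit 5) (nat_lit 95) (nat_lit 5) (nat_lit 94) (nat_lit 5) (nat_lit 479) (nat_lit 414) (nat_lit 307))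 (XT.nd (nat_lit 78) (nat_lit 152) (nat_lit 0) (XT.lf (nat_lit 0) (nat_lit 32977788050) (nat_lit 228) (nat_lit 7992945030) (nat_lit 76) (nat_lit 15267156818) (nat_lit 91) (nat_lit 5) (nat_lit 94) (nat_lit 5) (nat_lit 92) (nat_lit 4) (nat_lit 480) (nat_lit 414) (nat_lit 306)) (XT.lf (nat_lit 0) (nat_lit 4229014838) (nat_lit 152) (nat_lit 6392751611) (nat_lit 76) (nat_lit 47483076735) (nat_lit 89) (nat_lit 5) (nat_lit 91) (nat_lit 5) (nat_lit 90) (nat_lit 5) (nat_lit 481) (nat_lit 414) (nat_lit 305)))) (XT.nd (nat_lit 78) (nat_lit 304) (nat_lit 0) (XT.lf (nat_lit 0) (nat_lit 33428279951) (nat_lit 228) (nat_lit 4930785515) (nat_lit 76) (nat_lit 21674667413) (nat_lit 87) (nat_lit 5) (nat_lit 90) (nat_lit 5) (nat_lit 88) (nat_lit 4) (nat_lit 482) (nat_lit 414) (nat_lit 304)) (XT.nd (nat_lit 78) (nat_lit 152) (nat_lit 0) (XT.lf (nat_lit 0) (nat_lit 2719750064) (nat_lit 152) (nat_lit 3303666622) (nat_lit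 76) (nat_lit 56013138780) (nat_lit 85) (nat_lit 5) (nat_lit 87) (nat_lit 5) (nat_lit 86) (nat_lit 5) (nat_lit 483) (nat_lit 414) (nat_lit 303)) (XT.lf (nat_lit 0) (nat_lit 33880786186) (nat_lit 228) (nat_lit 1922912121) (nat_lit 76) (nat_lit 28300323919) (nat_lit 83) (nat_lit 5) (nat_lit 86) (nat_lit 5) (nat_lit 84) (nat_lit 4) (nat_lit 484) (nat_lit 414) (nat_lit 302))))) (XT.nd (nat_lit 234) (nat_lit 456) (nat_lit 0) (XT.nd (nat_lit 78) (nat_lit 304) (nat_lit 0) (XT.lf (nat_lit 0) (nat_lit 1040500301) (nat_lit 152) (nat_lit 330150671) (nat_lit 76) (nat_lit 64882462786) (nat_lit 81) (nat_lit 5) (nat_lit 83) (nat_lit 5) (nat_lit 82) (nat_lit 5) (nat_lit 485) (nat_lit 414) (nat_lit 301)) (XT.nd (nat_lit 78) (nat_lit 76) (nat_lit 0) (XT.lf (nat_lit 0) (nat_lit 914218479) (nat_lit 76) (nat_lit 33363128612) (nat_lit 152) (nat_lit 34192286063) (nat_lit 78) (nat_lit 5) (nat_lit 79) (nat_lit 5) (nat_lit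 80) (nat_lit 4) (nat_lit 486) (nat_lit 414) (nat_lit 300)) (XT.lf (nat_lit 0) (nat_lit 2382773718) (nat_lit 76) (nat_lit 67536441971) (nat_lit 76) (nat_lit 855467521) (nat_lit 77) (nat_lit 4) (nat_lit 78) (nat_lit 5) (nat_lit 78) (nat_lit 4) (nat_lit 487) (nat_lit 414) (nat_lit 299)))) (XT.nd (nat_lit 156) (nat_lit 228) (nat_lit 0) (XT.nd (nat_lit 78) (nat_lit 76) (nat_lit 0) (XT.lf (nat_lit 0) (nat_lit 3423750476) (nat_lit 76) (nat_lit 31116339380) (nat_lit 152) (nat_lit 38613300820) (nat_lit 75) (nat_lit 5) (nat_lit 76) (nat_lit 5) (nat_lit 77) (nat_lit 4) (nat_lit 488) (nat_lit 414) (nat_lit 298)) (XT.lf (nat_lit 0) (nat_lit 4609168232) (nat_lit 76) (nat_lit 67889101118) (nat_lit 76) (nat_lit 3128194034) (nat_lit 74) (nat_lit 4) (nat_lit 75) (nat_lit 5) (nat_lit 75) (nat_lit 4) (nat_lit 489) (nat_lit 414) (nat_lit 297))) (XT.nd (nat_lit 78) (nat_lit 76) (nat_lit 0) (XT.lf (nat_lit 0) (nat_lit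 5349876251) (nat_lit 76) (nat_lit 29192512440) (nat_lit 152) (nat_lit 43638641128) (nat_lit 72) (nat_lit 5) (nat_lit 73) (nat_lit 5) (nat_lit 74) (nat_lit 4) (nat_lit 490) (nat_lit 414) (nat_lit 296)) (XT.lf (nat_lit 0) (nat_lit 6123595465) (nat_lit 76) (nat_lit 68803040474) (nat_lit 76) (nat_lit 5908914592) (nat_lit 71) (nat_lit 4) (nat_lit 72) (nat_lit 5) (nat_lit 72) (nat_lit 4) (nat_lit 491) (nat_lit 414) (nat_lit 295)))))) (XT.nd (nat_lit 56472) (nat_lit 0) (nat_lit 21812) (XT.nd (nat_lit 234) (nat_lit 456) (nat_lit 0) (XT.nd (nat_lit 78) (nat_lit 228) (nat_lit 0) (XT.lf (nat_lit 0) (nat_lit 6422245595) (nat_lit 76) (nat_lit 27728203456) (nat_lit 152) (nat_lit 49429600780) (nat_lit 69) (nat_lit 5) (nat_lit 70) (nat_lit 5) (nat_lit 71) (nat_lit 4) (nat_lit 492) (nat_lit 414) (nat_lit 294)) (XT.nd (nat_lit 78) (nat_lit 152) (nat_lit 0) (XT.lf (nat_lit 0) (nat_lit 6625438498) (nat_lit 76) (nat_lit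 70442329270) (nat_lit 76) (nat_lit 9362935487) (nat_lit 68) (nat_lit 4) (nat_lit 69) (nat_lit 5) (nat_lit 69) (nat_lit 4) (nat_lit 493) (nat_lit 414) (nat_lit 293)) (XT.lf (nat_lit 0) (nat_lit 6307283394) (nat_lit 76) (nat_lit 26892045663) (nat_lit 152) (nat_lit 56181213373) (nat_lit 66) (nat_lit 5) (nat_lit 67) (nat_lit 5) (nat_lit 68) (nat_lit 4) (nat_lit 494) (nat_lit 414) (nat_lit 292)))) (XT.nd (nat_lit 156) (nat_lit 380) (nat_lit 0) (XT.lf (nat_lit 0) (nat_lit 5744956700) (nat_lit 76) (nat_lit 73006966159) (nat_lit 76) (nat_lit 13691494005) (nat_lit 65) (nat_lit 4) (nat_lit 66) (nat_lit 5) (nat_lit 66) (nat_lit 4) (nat_lit 495) (nat_lit 414) (nat_lit 291)) (XT.nd (nat_lit 78) (nat_lit 152) (nat_lit 0) (XT.lf (nat_lit 0) (nat_lit 3029921986) (nat_lit 76) (nat_lit 76739722363) (nat_lit 76) (nat_lit 19138597040) (nat_lit 62) (nat_lit 4) (nat_lit 63) (nat_lit 5) (nat_lit 63) (nat_lit 4) (nat_lit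 497) (nat_lit 414) (nat_lit 289)) (XT.lf (nat_lit 0) (nat_lit 788924905) (nat_lit 76) (nat_lit 27977687728) (nat_lit 152) (nat_lit 73554492512) (nat_lit 60) (nat_lit 5) (nat_lit 61) (nat_lit 5) (nat_lit 62) (nat_lit 4) (nat_lit 498) (nat_lit 414) (nat_lit 288))))) (XT.nd (nat_lit 234) (nat_lit 912) (nat_lit 0) (XT.nd (nat_lit 78) (nat_lit 0) (nat_lit 76) (XT.lf (nat_lit 0) (nat_lit 976525041) (nat_lit 1140) (nat_lit 1775125500) (nat_lit 1140) (nat_lit 1775125500) (nat_lit 359) (nat_lit 3) (nat_lit 374) (nat_lit 3) (nat_lit 374) (nat_lit 5) (nat_lit 415) (nat_lit 415) (nat_lit 370)) (XT.nd (nat_lit 78) (nat_lit 0) (nat_lit 0) (XT.lf (nat_lit 0) (nat_lit 3507280675) (nat_lit 1064) (nat_lit 5204674005) (nat_lit 1140) (nat_lit 522700361) (nat_lit 360) (nat_lit 5) (nat_lit 374) (nat_lit 5) (nat_lit 375) (nat_lit 5) (nat_lit 416) (nat_lit 415) (nat_lit 369)) (XT.lf (nat_lit 76) (nat_lit 2581771014) (nat_lit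 0) (nat_lit 2581129485) (nat_lit 1140) (nat_lit 4261207037) (nat_lit 361) (nat_lit 5) (nat_lit 360) (nat_lit 5) (nat_lit 375) (nat_lit 5) (nat_lit 417) (nat_lit 415) (nat_lit 368)))) (XT.nd (nat_lit 156) (nat_lit 1064) (nat_lit 0) (XT.nd (nat_lit 78) (nat_lit 0) (nat_lit 76) (XT.lf (nat_lit 76) (nat_lit 1176267587) (nat_lit 0) (nat_lit 5738262615) (nat_lit 1140) (nat_lit 2708110082) (nat_lit 362) (nat_lit 5) (nat_lit 361) (nat_lit 5) (nat_lit 376) (nat_lit 5) (nat_lit 418) (nat_lit 415) (nat_lit 367)) (XT.lf (nat_lit 0) (nat_lit 8773072023) (nat_lit 1064) (nat_lit 179587750) (nat_lit 1140) (nat_lit 877864256) (nat_lit 362) (nat_lit 5) (nat_lit 376) (nat_lit 5) (nat_lit 377) (nat_lit 5) (nat_lit 419) (nat_lit 415) (nat_lit 366))) (XT.nd (nat_lit 78) (nat_lit 0) (nat_lit 76) (XT.lf (nat_lit 0) (nat_lit 722172030) (nat_lit 1140) (nat_lit 1497189129) (nat_lit 1216) (nat_lit 7827461316) (nat_lit 347)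 (nat_lit 5) (nat_lit 362) (nat_lit 5) (nat_lit 363) (nat_lit 5) (nat_lit 420) (nat_lit 415) (nat_lit 365)) (XT.lf (nat_lit 0) (nat_lit 2612528413) (nat_lit 1140) (nat_lit 2792782232) (nat_lit 1216) (nat_lit 4867006247) (nat_lit 348) (nat_lit 5) (nat_lit 363) (nat_lit 5) (nat_lit 364) (nat_lit 5) (nat_lit 421) (nat_lit 415) (nat_lit 364))))))) (XT.nd (nat_lit 1014) (nat_lit 5700) (nat_lit 0) (XT.nd (nat_lit 468) (nat_lit 3572) (nat_lit 0) (XT.nd (nat_lit 234) (nat_lit 3116) (nat_lit 0) (XT.nd (nat_lit 78) (nat_lit 0) (nat_lit 0) (XT.lf (nat_lit 0) (nat_lit 4640415474) (nat_lit 1140) (nat_lit 4048265468) (nat_lit 1216) (nat_lit 1819118292) (nat_lit 349) (nat_lit 5) (nat_lit 364) (nat_lit 5) (nat_lit 365) (nat_lit 5) (nat_lit 422) (nat_lit 415) (nat_lit 363)) (XT.nd (nat_lit 78) (nat_lit 0) (nat_lit 76) (XT.lf (nat_lit 76) (nat_lit 5476128036) (nat_lit 0) (nat_lit 1358006255) (nat_lit 1216) (nat_lit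 3918991697) (nat_lit 350) (nat_lit 5) (nat_lit 349) (nat_lit 5) (nat_lit 365) (nat_lit 5) (nat_lit 423) (nat_lit 415) (nat_lit 362)) (XT.lf (nat_lit 76) (nat_lit 4523609758) (nat_lit 0) (nat_lit 4691704468) (nat_lit 1216) (nat_lit 1793074855) (nat_lit 351) (nat_lit 5) (nat_lit 350) (nat_lit 5) (nat_lit 366) (nat_lit 5) (nat_lit 424) (nat_lit 415) (nat_lit 361)))) (XT.nd (nat_lit 78) (nat_lit 2052) (nat_lit 0) (XT.lf (nat_lit 0) (nat_lit 498135672) (nat_lit 1216) (nat_lit 7658232724) (nat_lit 76) (nat_lit 3117896295) (nat_lit 335) (nat_lit 5) (nat_lit 351) (nat_lit 5) (nat_lit 336) (nat_lit 5) (nat_lit 425) (nat_lit 415) (nat_lit 360)) (XT.nd (nat_lit 78) (nat_lit 836) (nat_lit 0) (XT.lf (nat_lit 0) (nat_lit 2737898946) (nat_lit 1216) (nat_lit 206490496) (nat_lit 1292) (nat_lit 8606187923) (nat_lit 319) (nat_lit 5) (nat_lit 335) (nat_lit 5) (nat_lit 336) (nat_lit 5) (nat_lit 426) (nat_lit 415) (nat_lit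 359)) (XT.lf (nat_lit 0) (nat_lit 1877423406) (nat_lit 836) (nat_lit 3750179312) (nat_lit 912) (nat_lit 6209666279) (nat_lit 308) (nat_lit 5) (nat_lit 319) (nat_lit 5) (nat_lit 320) (nat_lit 5) (nat_lit 427) (nat_lit 415) (nat_lit 358))))) (XT.nd (nat_lit 234) (nat_lit 2280) (nat_lit 0) (XT.nd (nat_lit 78) (nat_lit 684) (nat_lit 0) (XT.lf (nat_lit 0) (nat_lit 1067839969) (nat_lit 608) (nat_lit 7466981013) (nat_lit 684) (nat_lit 3600781501) (nat_lit 300) (nat_lit 5) (nat_lit 308) (nat_lit 5) (nat_lit 309) (nat_lit 5) (nat_lit 428) (nat_lit 415) (nat_lit 357)) (XT.nd (nat_lit 78) (nat_lit 76) (nat_lit 0) (XT.lf (nat_lit 0) (nat_lit 311348942) (nat_lit 608) (nat_lit 11372993953) (nat_lit 684) (nat_lit 761603941) (nat_lit 292) (nat_lit 5) (nat_lit 300) (nat_lit 5) (nat_lit 301) (nat_lit 5) (nat_lit 429) (nat_lit 415) (nat_lit 356)) (XT.lf (nat_lit 0) (nat_lit 2311749591) (nat_lit 684) (nat_lit 431051107)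 (nat_lit 76) (nat_lit 10024304090) (nat_lit 291) (nat_lit 5) (nat_lit 300) (nat_lit 5) (nat_lit 292) (nat_lit 5) (nat_lit 430) (nat_lit 415) (nat_lit 355)))) (XT.nd (nat_lit 156) (nat_lit 1140) (nat_lit 0) (XT.nd (nat_lit 78) (nat_lit 608) (nat_lit 0) (XT.lf (nat_lit 0) (nat_lit 5648495977) (nat_lit 608) (nat_lit 1132262652) (nat_lit 76) (nat_lit 6319573681) (nat_lit 284) (nat_lit 5) (nat_lit 292) (nat_lit 5) (nat_lit 285) (nat_lit 5) (nat_lit 431) (nat_lit 415) (nat_lit 354)) (XT.lf (nat_lit 0) (nat_lit 9269877143) (nat_lit 684) (nat_lit 1777267163) (nat_lit 76) (nat_lit 2399545055) (nat_lit 276) (nat_lit 5) (nat_lit 285) (nat_lit 5) (nat_lit 277) (nat_lit 5) (nat_lit 432) (nat_lit 415) (nat_lit 353))) (XT.nd (nat_lit 78) (nat_lit 608) (nat_lit 0) (XT.lf (nat_lit 0) (nat_lit 11426473348) (nat_lit 532) (nat_lit 1787477246) (nat_lit 608) (nat_lit 592166951) (nat_lit 269) (nat_lit 5) (nat_lit 276)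 (nat_lit 5) (nat_lit 277) (nat_lit 5) (nat_lit 433) (nat_lit 415) (nat_lit 352)) (XT.lf (nat_lit 0) (nat_lit 3267454497) (nat_lit 608) (nat_lit 2976150191) (nat_lit 76) (nat_lit 7934270566) (nat_lit 261) (nat_lit 5) (nat_lit 269) (nat_lit 5) (nat_lit 262) (nat_lit 5) (nat_lit 434) (nat_lit 415) (nat_lit 351)))))) (XT.nd (nat_lit 546) (nat_lit 2508) (nat_lit 0) (XT.nd (nat_lit 234) (nat_lit 1748) (nat_lit 0) (XT.nd (nat_lit 78) (nat_lit 988) (nat_lit 0) (XT.lf (nat_lit 0) (nat_lit 7447183571) (nat_lit 532) (nat_lit 3515806385) (nat_lit 76) (nat_lit 3600875537) (nat_lit 255) (nat_lit 5) (nat_lit 262) (nat_lit 5) (nat_lit 256) (nat_lit 5) (nat_lit 435) (nat_lit 415) (nat_lit 350)) (XT.nd (nat_lit 78) (nat_lit 532) (nat_lit 0) (XT.lf (nat_lit 0) (nat_lit 10966331135) (nat_lit 456) (nat_lit 1025177100) (nat_lit 532) (nat_lit 2972980396) (nat_lit 249) (nat_lit 5) (nat_lit 255) (nat_lit 5) (nat_lit 256)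 (nat_lit 5) (nat_lit 436) (nat_lit 415) (nat_lit 349)) (XT.lf (nat_lit 0) (nat_lit 1542750292) (nat_lit 532) (nat_lit 4461530603) (nat_lit 76) (nat_lit 9374714245) (nat_lit 242) (nat_lit 5) (nat_lit 249) (nat_lit 5) (nat_lit 243) (nat_lit 5) (nat_lit 437) (nat_lit 415) (nat_lit 348)))) (XT.nd (nat_lit 156) (nat_lit 912) (nat_lit 0) (XT.nd (nat_lit 78) (nat_lit 380) (nat_lit 0) (XT.lf (nat_lit 0) (nat_lit 6384147793) (nat_lit 532) (nat_lit 4882427359) (nat_lit 76) (nat_lit 4541929238) (nat_lit 236) (nat_lit 5) (nat_lit 243) (nat_lit 5) (nat_lit 237) (nat_lit 5) (nat_lit 438) (nat_lit 415) (nat_lit 347)) (XT.lf (nat_lit 0) (nat_lit 11021739379) (nat_lit 380) (nat_lit 619082580) (nat_lit 456) (nat_lit 4613472331) (nat_lit 231) (nat_lit 5) (nat_lit 236) (nat_lit 5) (nat_lit 237) (nat_lit 5) (nat_lit 439) (nat_lit 415) (nat_lit 346))) (XT.nd (nat_lit 78) (nat_lit 380) (nat_lit 0) (XT.lf (nat_lit 0) (nat_lit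 652820300) (nat_lit 532) (nat_lit 5554010250) (nat_lit 76) (nat_lit 10508715819) (nat_lit 224) (nat_lit 5) (nat_lit 231) (nat_lit 5) (nat_lit 225) (nat_lit 5) (nat_lit 440) (nat_lit 415) (nat_lit 345)) (XT.lf (nat_lit 0) (nat_lit 6270622938) (nat_lit 456) (nat_lit 5838038212) (nat_lit 76) (nat_lit 5084322514) (nat_lit 219) (nat_lit 5) (nat_lit 225) (nat_lit 5) (nat_lit 220) (nat_lit 5) (nat_lit 441) (nat_lit 415) (nat_lit 344))))) (XT.nd (nat_lit 234) (nat_lit 1292) (nat_lit 0) (XT.nd (nat_lit 78) (nat_lit 836) (nat_lit 0) (XT.lf (nat_lit 0) (nat_lit 11647984783) (nat_lit 380) (nat_lit 717477011) (nat_lit 456) (nat_lit 5322947816) (nat_lit 214) (nat_lit 5) (nat_lit 219) (nat_lit 5) (nat_lit 220) (nat_lit 5) (nat_lit 442) (nat_lit 415) (nat_lit 343)) (XT.nd (nat_lit 78) (nat_lit 380) (nat_lit 0) (XT.lf (nat_lit 0) (nat_lit 797106938) (nat_lit 456) (nat_lit 6208402043) (nat_lit 76) (nat_lit 11195392609)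 (nat_lit 208) (nat_lit 5) (nat_lit 214) (nat_lit 5) (nat_lit 209) (nat_lit 5) (nat_lit 443) (nat_lit 415) (nat_lit 342)) (XT.lf (nat_lit 0) (nat_lit 7319427505) (nat_lit 456) (nat_lit 6332783169) (nat_lit 76) (nat_lit 5079036955) (nat_lit 203) (nat_lit 5) (nat_lit 209) (nat_lit 5) (nat_lit 204) (nat_lit 5) (nat_lit 444) (nat_lit 415) (nat_lit 341)))) (XT.nd (nat_lit 156) (nat_lit 608) (nat_lit 0) (XT.nd (nat_lit 78) (nat_lit 380) (nat_lit 0) (XT.lf (nat_lit 0) (nat_lit 12912606585) (nat_lit 304) (nat_lit 1481504859) (nat_lit 380) (nat_lit 4887213084) (nat_lit 199) (nat_lit 5) (nat_lit 203) (nat_lit 5) (nat_lit 204) (nat_lit 5) (nat_lit 445) (nat_lit 415) (nat_lit 340)) (XT.lf (nat_lit 0) (nat_lit 2200112918) (nat_lit 380) (nat_lit 6369124802) (nat_lit 76) (nat_lit 11280858011) (nat_lit 194) (nat_lit 5) (nat_lit 199) (nat_lit 5) (nat_lit 195) (nat_lit 5) (nat_lit 446) (nat_lit 415) (nat_lit 339)))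 (XT.nd (nat_lit 78) (nat_lit 304) (nat_lit 0) (XT.lf (nat_lit 0) (nat_lit 9770532072) (nat_lit 380) (nat_lit 6306409259) (nat_lit 76) (nat_lit 4362019319) (nat_lit 190) (nat_lit 5) (nat_lit 195) (nat_lit 5) (nat_lit 191) (nat_lit 5) (nat_lit 447) (nat_lit 415) (nat_lit 338)) (XT.lf (nat_lit 0) (nat_lit 14895171134) (nat_lit 304) (nat_lit 3089772653) (nat_lit 380) (nat_lit 3064361702) (nat_lit 186) (nat_lit 5) (nat_lit 190) (nat_lit 5) (nat_lit 191) (nat_lit 5) (nat_lit 448) (nat_lit 415) (nat_lit 337))))))))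
noncomputable def xc73 : XT := (XT.nd (nat_lit 2028) (nat_lit 3268) (nat_lit 0) (XT.nd (nat_lit 1014) (nat_lit 2432) (nat_lit 0) (XT.nd (nat_lit 468) (nat_lit 1900) (nat_lit 0) (XT.nd (nat_lit 234) (nat_lit 836) (nat_lit 0) (XT.nd (nat_lit 78) (nat_lit 608) (nat_lit 0) (XT.lf (nat_lit 0) (nat_lit 5115678532) (nat_lit 380) (nat_lit 5970618703) (nat_lit 76) (nat_lit 10593699043) (nat_lit 181) (nat_lit 5) (nat_lit 186) (nat_lit 5) (nat_lit 182) (nat_lit 5) (nat_lit 449) (nat_lit 415) (nat_lit 336)) (XT.nd (nat_lit 78) (nat_lit 304) (nat_lit 0) (XT.lf (nat_lit 0) (nat_lit 13895494507) (nat_lit 380) (nat_lit 5688679281) (nat_lit 76) (nat_lit 2749513852) (nat_lit 177) (nat_lit 5) (nat_lit 182) (nat_lit 5) (nat_lit 178) (nat_lit 5) (nat_lit 450) (nat_lit 415) (nat_lit 335)) (XT.lf (nat_lit 0) (nat_lit 411498895) (nat_lit 304) (nat_lit 5327625754) (nat_lit 76) (nat_lit 17271339411) (nat_lit 173) (nat_lit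 5) (nat_lit 177) (nat_lit 5) (nat_lit 174) (nat_lit 5) (nat_lit 451) (nat_lit 415) (nat_lit 334)))) (XT.nd (nat_lit 78) (nat_lit 532) (nat_lit 0) (XT.lf (nat_lit 0) (nat_lit 9831527575) (nat_lit 380) (nat_lit 4937877643) (nat_lit 76) (nat_lit 8940097320) (nat_lit 169) (nat_lit 5) (nat_lit 174) (nat_lit 5) (nat_lit 170) (nat_lit 5) (nat_lit 452) (nat_lit 415) (nat_lit 333)) (XT.nd (nat_lit 78) (nat_lit 304) (nat_lit 0) (XT.lf (nat_lit 0) (nat_lit 20002187593) (nat_lit 304) (nat_lit 4399937104) (nat_lit 76) (nat_lit 32979953) (nat_lit 166) (nat_lit 5) (nat_lit 170) (nat_lit 5) (nat_lit 167) (nat_lit 5) (nat_lit 453) (nat_lit 415) (nat_lit 332)) (XT.lf (nat_lit 0) (nat_lit 5761287007) (nat_lit 304) (nat_lit 3851369460) (nat_lit 76) (nat_lit 15571231973) (nat_lit 162) (nat_lit 5) (nat_lit 166) (nat_lit 5) (nat_lit 163) (nat_lit 5) (nat_lit 454) (nat_lit 415) (nat_lit 331))))) (XT.nd (nat_lit 234) (nat_lit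 1140) (nat_lit 0) (XT.nd (nat_lit 78) (nat_lit 532) (nat_lit 0) (XT.lf (nat_lit 0) (nat_lit 16674118640) (nat_lit 304) (nat_lit 3187219377) (nat_lit 76) (nat_lit 6098439323) (nat_lit 159) (nat_lit 5) (nat_lit 163) (nat_lit 5) (nat_lit 160) (nat_lit 5) (nat_lit 455) (nat_lit 415) (nat_lit 330)) (XT.nd (nat_lit 78) (nat_lit 228) (nat_lit 0) (XT.lf (nat_lit 0) (nat_lit 1681799257) (nat_lit 304) (nat_lit 2407918302) (nat_lit 76) (nat_lit 22673846859) (nat_lit 155) (nat_lit 5) (nat_lit 159) (nat_lit 5) (nat_lit 156) (nat_lit 5) (nat_lit 456) (nat_lit 415) (nat_lit 329)) (XT.lf (nat_lit 0) (nat_lit 13390920039) (nat_lit 304) (nat_lit 1608974704) (nat_lit 76) (nat_lit 12593328513) (nat_lit 152) (nat_lit 5) (nat_lit 156) (nat_lit 5) (nat_lit 153) (nat_lit 5) (nat_lit 457) (nat_lit 415) (nat_lit 328)))) (XT.nd (nat_lit 156) (nat_lit 456) (nat_lit 0) (XT.nd (nat_lit 78) (nat_lit 456) (nat_lit 0) (XT.lf (nat_lit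 0) (nat_lit 26013827437) (nat_lit 304) (nat_lit 627442476) (nat_lit 76) (nat_lit 1813245655) (nat_lit 149) (nat_lit 5) (nat_lit 153) (nat_lit 5) (nat_lit 150) (nat_lit 5) (nat_lit 458) (nat_lit 415) (nat_lit 327)) (XT.lf (nat_lit 0) (nat_lit 363198788) (nat_lit 228) (nat_lit 9791986970) (nat_lit 304) (nat_lit 19187643453) (nat_lit 143) (nat_lit 5) (nat_lit 146) (nat_lit 5) (nat_lit 147) (nat_lit 5) (nat_lit 459) (nat_lit 415) (nat_lit 326))) (XT.nd (nat_lit 78) (nat_lit 304) (nat_lit 0) (XT.lf (nat_lit 0) (nat_lit 1522365699) (nat_lit 152) (nat_lit 22185265798) (nat_lit 228) (nat_lit 6555884816) (nat_lit 141) (nat_lit 5) (nat_lit 143) (nat_lit 5) (nat_lit 144) (nat_lit 5) (nat_lit 460) (nat_lit 415) (nat_lit 325)) (XT.lf (nat_lit 0) (nat_lit 2783282969) (nat_lit 228) (nat_lit 4197814227) (nat_lit 304) (nat_lit 24235070987) (nat_lit 137) (nat_lit 5) (nat_lit 140) (nat_lit 5) (nat_lit 141) (nat_lit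 5) (nat_lit 461) (nat_lit 415) (nat_lit 324)))))) (XT.nd (nat_lit 468) (nat_lit 1292) (nat_lit 0) (XT.nd (nat_lit 234) (nat_lit 532) (nat_lit 0) (XT.nd (nat_lit 78) (nat_lit 456) (nat_lit 0) (XT.lf (nat_lit 0) (nat_lit 4108925943) (nat_lit 152) (nat_lit 17409381900) (nat_lit 228) (nat_lit 10682428898) (nat_lit 135) (nat_lit 5) (nat_lit 137) (nat_lit 5) (nat_lit 138) (nat_lit 5) (nat_lit 462) (nat_lit 415) (nat_lit 323)) (XT.nd (nat_lit 78) (nat_lit 152) (nat_lit 0) (XT.lf (nat_lit 0) (nat_lit 3866680817) (nat_lit 304) (nat_lit 27599935968) (nat_lit 76) (nat_lit 1755252141) (nat_lit 131) (nat_lit 5) (nat_lit 135) (nat_lit 5) (nat_lit 132) (nat_lit 5) (nat_lit 463) (nat_lit 415) (nat_lit 322)) (XT.lf (nat_lit 0) (nat_lit 7139268569) (nat_lit 152) (nat_lit 12300695018) (nat_lit 228) (nat_lit 14835392040) (nat_lit 129) (nat_lit 5) (nat_lit 131) (nat_lit 5) (nat_lit 132) (nat_lit 5) (nat_lit 464) (nat_lit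 415) (nat_lit 321)))) (XT.nd (nat_lit 78) (nat_lit 304) (nat_lit 0) (XT.lf (nat_lit 0) (nat_lit 833798020) (nat_lit 228) (nat_lit 26498513616) (nat_lit 76) (nat_lit 8036144589) (nat_lit 126) (nat_lit 5) (nat_lit 129) (nat_lit 5) (nat_lit 127) (nat_lit 5) (nat_lit 465) (nat_lit 415) (nat_lit 320)) (XT.nd (nat_lit 78) (nat_lit 152) (nat_lit 0) (XT.lf (nat_lit 0) (nat_lit 10630867913) (nat_lit 152) (nat_lit 6840204429) (nat_lit 228) (nat_lit 19025989925) (nat_lit 124) (nat_lit 5) (nat_lit 126) (nat_lit 5) (nat_lit 127) (nat_lit 5) (nat_lit 466) (nat_lit 415) (nat_lit 319)) (XT.lf (nat_lit 0) (nat_lit 12563070043) (nat_lit 152) (nat_lit 22895071739) (nat_lit 228) (nat_lit 2208419143) (nat_lit 122) (nat_lit 5) (nat_lit 124) (nat_lit 5) (nat_lit 125) (nat_lit 5) (nat_lit 467) (nat_lit 415) (nat_lit 318))))) (XT.nd (nat_lit 234) (nat_lit 684) (nat_lit 0) (XT.nd (nat_lit 78) (nat_lit 380) (nat_lit 0) (XT.lf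 (nat_lit 0) (nat_lit 14598227523) (nat_lit 152) (nat_lit 1009609898) (nat_lit 228) (nat_lit 23268463090) (nat_lit 119) (nat_lit 5) (nat_lit 121) (nat_lit 5) (nat_lit 122) (nat_lit 5) (nat_lit 468) (nat_lit 415) (nat_lit 317)) (XT.nd (nat_lit 78) (nat_lit 228) (nat_lit 0) (XT.lf (nat_lit 0) (nat_lit 16727570471) (nat_lit 152) (nat_lit 18156511833) (nat_lit 228) (nat_lit 5243343560) (nat_lit 117) (nat_lit 5) (nat_lit 119) (nat_lit 5) (nat_lit 120) (nat_lit 5) (nat_lit 469) (nat_lit 415) (nat_lit 316)) (XT.lf (nat_lit 0) (nat_lit 13893665809) (nat_lit 228) (nat_lit 22422646873) (nat_lit 76) (nat_lit 5106519949) (nat_lit 114) (nat_lit 5) (nat_lit 117) (nat_lit 5) (nat_lit 115) (nat_lit 5) (nat_lit 470) (nat_lit 415) (nat_lit 315)))) (XT.nd (nat_lit 156) (nat_lit 304) (nat_lit 0) (XT.nd (nat_lit 78) (nat_lit 228) (nat_lit 0) (XT.lf (nat_lit 0) (nat_lit 21379570821) (nat_lit 152) (nat_lit 13114828073)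 (nat_lit 228) (nat_lit 8268594205) (nat_lit 112) (nat_lit 5) (nat_lit 114) (nat_lit 5) (nat_lit 115) (nat_lit 5) (nat_lit 471) (nat_lit 415) (nat_lit 314)) (XT.lf (nat_lit 0) (nat_lit 12281835471) (nat_lit 228) (nat_lit 20270645173) (nat_lit 76) (nat_lit 11597430153) (nat_lit 109) (nat_lit 5) (nat_lit 112) (nat_lit 5) (nat_lit 110) (nat_lit 5) (nat_lit 472) (nat_lit 415) (nat_lit 313))) (XT.nd (nat_lit 78) (nat_lit 152) (nat_lit 0) (XT.lf (nat_lit 0) (nat_lit 26520512130) (nat_lit 152) (nat_lit 7762493910) (nat_lit 228) (nat_lit 11302885699) (nat_lit 107) (nat_lit 5) (nat_lit 109) (nat_lit 5) (nat_lit 110) (nat_lit 5) (nat_lit 473) (nat_lit 415) (nat_lit 312)) (XT.lf (nat_lit 0) (nat_lit 10748098071) (nat_lit 152) (nat_lit 17827797822) (nat_lit 76) (nat_lit 18495058202) (nat_lit 105) (nat_lit 5) (nat_lit 107) (nat_lit 5) (nat_lit 106) (nat_lit 5) (nat_lit 474) (nat_lit 415) (nat_lit 311))))))) (XT.nd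 (nat_lit 1014) (nat_lit 1216) (nat_lit 0) (XT.nd (nat_lit 468) (nat_lit 1140) (nat_lit 0) (XT.nd (nat_lit 234) (nat_lit 456) (nat_lit 0) (XT.nd (nat_lit 78) (nat_lit 304) (nat_lit 0) (XT.lf (nat_lit 0) (nat_lit 32143754097) (nat_lit 152) (nat_lit 2095582357) (nat_lit 228) (nat_lit 14370431983) (nat_lit 103) (nat_lit 5) (nat_lit 105) (nat_lit 5) (nat_lit 106) (nat_lit 5) (nat_lit 475) (nat_lit 415) (nat_lit 310)) (XT.nd (nat_lit 78) (nat_lit 152) (nat_lit 0) (XT.lf (nat_lit 0) (nat_lit 9272411378) (nat_lit 152) (nat_lit 15119679653) (nat_lit 76) (nat_lit 25808064537) (nat_lit 101) (nat_lit 5) (nat_lit 103) (nat_lit 5) (nat_lit 102) (nat_lit 5) (nat_lit 476) (nat_lit 415) (nat_lit 309)) (XT.lf (nat_lit 0) (nat_lit 34384590122) (nat_lit 228) (nat_lit 13654336751) (nat_lit 76) (nat_lit 3809334998) (nat_lit 99) (nat_lit 5) (nat_lit 102) (nat_lit 5) (nat_lit 100) (nat_lit 4) (nat_lit 477) (nat_lit 415)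 (nat_lit 308)))) (XT.nd (nat_lit 78) (nat_lit 304) (nat_lit 0) (XT.lf (nat_lit 0) (nat_lit 7827989207) (nat_lit 152) (nat_lit 12184485590) (nat_lit 76) (nat_lit 33540399075) (nat_lit 97) (nat_lit 5) (nat_lit 99) (nat_lit 5) (nat_lit 98) (nat_lit 5) (nat_lit 478) (nat_lit 415) (nat_lit 307)) (XT.nd (nat_lit 78) (nat_lit 152) (nat_lit 0) (XT.lf (nat_lit 0) (nat_lit 34681475349) (nat_lit 228) (nat_lit 10661861631) (nat_lit 76) (nat_lit 9974439851) (nat_lit 95) (nat_lit 5) (nat_lit 98) (nat_lit 5) (nat_lit 96) (nat_lit 4) (nat_lit 479) (nat_lit 415) (nat_lit 306)) (XT.lf (nat_lit 0) (nat_lit 6379814895) (nat_lit 152) (nat_lit 9075994085) (nat_lit 76) (nat_lit 41689936503) (nat_lit 93) (nat_lit 5) (nat_lit 95) (nat_lit 5) (nat_lit 94) (nat_lit 5) (nat_lit 480) (nat_lit 415) (nat_lit 305))))) (XT.nd (nat_lit 234) (nat_lit 684) (nat_lit 0) (XT.nd (nat_lit 78) (nat_lit 304) (nat_lit 0) (XT.lf (nat_lit 0)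 (nat_lit 35078202226) (nat_lit 228) (nat_lit 7531426951) (nat_lit 76) (nat_lit 16426606235) (nat_lit 91) (nat_lit 5) (nat_lit 94) (nat_lit 5) (nat_lit 92) (nat_lit 4) (nat_lit 481) (nat_lit 415) (nat_lit 304)) (XT.nd (nat_lit 78) (nat_lit 152) (nat_lit 0) (XT.lf (nat_lit 0) (nat_lit 4882870228) (nat_lit 152) (nat_lit 5867101278) (nat_lit 76) (nat_lit 50246838704) (nat_lit 89) (nat_lit 5) (nat_lit 91) (nat_lit 5) (nat_lit 90) (nat_lit 5) (nat_lit 482) (nat_lit 415) (nat_lit 303)) (XT.lf (nat_lit 0) (nat_lit 35532690706) (nat_lit 228) (nat_lit 4347153612) (nat_lit 76) (nat_lit 23142582451) (nat_lit 87) (nat_lit 5) (nat_lit 90) (nat_lit 5) (nat_lit 88) (nat_lit 4) (nat_lit 483) (nat_lit 415) (nat_lit 302)))) (XT.nd (nat_lit 156) (nat_lit 380) (nat_lit 0) (XT.nd (nat_lit 78) (nat_lit 152) (nat_lit 0) (XT.lf (nat_lit 0) (nat_lit 3280029154) (nat_lit 152) (nat_lit 2654028593) (nat_lit 76) (nat_lit 59191594107)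 (nat_lit 85) (nat_lit 5) (nat_lit 87) (nat_lit 5) (nat_lit 86) (nat_lit 5) (nat_lit 484) (nat_lit 415) (nat_lit 301)) (XT.lf (nat_lit 0) (nat_lit 35990171340) (nat_lit 228) (nat_lit 1218890263) (nat_lit 76) (nat_lit 30087698846) (nat_lit 83) (nat_lit 5) (nat_lit 86) (nat_lit 5) (nat_lit 84) (nat_lit 4) (nat_lit 485) (nat_lit 415) (nat_lit 300))) (XT.nd (nat_lit 78) (nat_lit 76) (nat_lit 0) (XT.lf (nat_lit 0) (nat_lit 447406171) (nat_lit 152) (nat_lit 1056451404) (nat_lit 228) (nat_lit 68049569582) (nat_lit 79) (nat_lit 5) (nat_lit 81) (nat_lit 5) (nat_lit 82) (nat_lit 5) (nat_lit 486) (nat_lit 415) (nat_lit 299)) (XT.lf (nat_lit 0) (nat_lit 1746414754) (nat_lit 76) (nat_lit 34650877559) (nat_lit 152) (nat_lit 35483637951) (nat_lit 78) (nat_lit 5) (nat_lit 79) (nat_lit 5) (nat_lit 80) (nat_lit 4) (nat_lit 487) (nat_lit 415) (nat_lit 298)))))) (XT.nd (nat_lit 546) (nat_lit 456) (nat_lit 0) (XT.nd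 (nat_lit 234) (nat_lit 456) (nat_lit 0) (XT.nd (nat_lit 78) (nat_lit 228) (nat_lit 0) (XT.lf (nat_lit 0) (nat_lit 3274136700) (nat_lit 76) (nat_lit 70538686273) (nat_lit 76) (nat_lit 488662897) (nat_lit 77) (nat_lit 4) (nat_lit 78) (nat_lit 5) (nat_lit 78) (nat_lit 4) (nat_lit 488) (nat_lit 415) (nat_lit 297)) (XT.nd (nat_lit 78) (nat_lit 76) (nat_lit 0) (XT.lf (nat_lit 0) (nat_lit 4352791871) (nat_lit 76) (nat_lit 32304049964) (nat_lit 152) (nat_lit 40142524003) (nat_lit 75) (nat_lit 5) (nat_lit 76) (nat_lit 5) (nat_lit 77) (nat_lit 4) (nat_lit 489) (nat_lit 415) (nat_lit 296)) (XT.lf (nat_lit 0) (nat_lit 5583678906) (nat_lit 76) (nat_lit 70921214245) (nat_lit 76) (nat_lit 2891440237) (nat_lit 74) (nat_lit 4) (nat_lit 75) (nat_lit 5) (nat_lit 75) (nat_lit 4) (nat_lit 490) (nat_lit 415) (nat_lit 295)))) (XT.nd (nat_lit 156) (nat_lit 228) (nat_lit 0) (XT.nd (nat_lit 78) (nat_lit 76) (nat_lit 0) (XT.lf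 (nat_lit 0) (nat_lit 6347548085) (nat_lit 76) (nat_lit 30296113684) (nat_lit 152) (nat_lit 45435193217) (nat_lit 72) (nat_lit 5) (nat_lit 73) (nat_lit 5) (nat_lit 74) (nat_lit 4) (nat_lit 491) (nat_lit 415) (nat_lit 294)) (XT.lf (nat_lit 0) (nat_lit 7146603154) (nat_lit 76) (nat_lit 71892851331) (nat_lit 76) (nat_lit 5826877338) (nat_lit 71) (nat_lit 4) (nat_lit 72) (nat_lit 5) (nat_lit 72) (nat_lit 4) (nat_lit 492) (nat_lit 415) (nat_lit 293))) (XT.nd (nat_lit 78) (nat_lit 76) (nat_lit 0) (XT.lf (nat_lit 0) (nat_lit 7446794509) (nat_lit 76) (nat_lit 28770431174) (nat_lit 152) (nat_lit 51531047505) (nat_lit 69) (nat_lit 5) (nat_lit 70) (nat_lit 5) (nat_lit 71) (nat_lit 4) (nat_lit 493) (nat_lit 415) (nat_lit 292)) (XT.lf (nat_lit 0) (nat_lit 7647239685) (nat_lit 76) (nat_lit 73625852043) (nat_lit 76) (nat_lit 9468587184) (nat_lit 68) (nat_lit 4) (nat_lit 69) (nat_lit 5) (nat_lit 69) (nat_lit 4)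 (nat_lit 494) (nat_lit 415) (nat_lit 291))))) (XT.nd (nat_lit 56316) (nat_lit 0) (nat_lit 22572) (XT.nd (nat_lit 156) (nat_lit 304) (nat_lit 0) (XT.lf (nat_lit 0) (nat_lit 7300255122) (nat_lit 76) (nat_lit 27904050626) (nat_lit 152) (nat_lit 58634912167) (nat_lit 66) (nat_lit 5) (nat_lit 67) (nat_lit 5) (nat_lit 68) (nat_lit 4) (nat_lit 495) (nat_lit 415) (nat_lit 290)) (XT.nd (nat_lit 78) (nat_lit 76) (nat_lit 0) (XT.lf (nat_lit 0) (nat_lit 5478352454) (nat_lit 76) (nat_lit 27914260680) (nat_lit 152) (nat_lit 66993708685) (nat_lit 63) (nat_lit 5) (nat_lit 64) (nat_lit 5) (nat_lit 65) (nat_lit 4) (nat_lit 497) (nat_lit 415) (nat_lit 288)) (XT.lf (nat_lit 0) (nat_lit 3822035319) (nat_lit 76) (nat_lit 80260796208) (nat_lit 76) (nat_lit 19761079667) (nat_lit 62) (nat_lit 4) (nat_lit 63) (nat_lit 5) (nat_lit 63) (nat_lit 4) (nat_lit 498) (nat_lit 415) (nat_lit 287)))) (XT.nd (nat_lit 156) (nat_lit 0)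 (nat_lit 76) (XT.nd (nat_lit 78) (nat_lit 0) (nat_lit 0) (XT.lf (nat_lit 0) (nat_lit 2464023778) (nat_lit 1140) (nat_lit 1122929164) (nat_lit 1140) (nat_lit 1122929164) (nat_lit 359) (nat_lit 3) (nat_lit 374) (nat_lit 3) (nat_lit 374) (nat_lit 5) (nat_lit 416) (nat_lit 416) (nat_lit 368)) (XT.lf (nat_lit 76) (nat_lit 5676448956) (nat_lit 0) (nat_lit 754980207) (nat_lit 1140) (nat_lit 3182356885) (nat_lit 360) (nat_lit 5) (nat_lit 359) (nat_lit 3) (nat_lit 374) (nat_lit 5) (nat_lit 417) (nat_lit 416) (nat_lit 367))) (XT.nd (nat_lit 78) (nat_lit 0) (nat_lit 76) (XT.lf (nat_lit 76) (nat_lit 4201691974) (nat_lit 0) (nat_lit 3844662556) (nat_lit 1140) (nat_lit 1770067483) (nat_lit 361) (nat_lit 5) (nat_lit 360) (nat_lit 5) (nat_lit 375) (nat_lit 5) (nat_lit 418) (nat_lit 416) (nat_lit 366)) (XT.lf (nat_lit 76) (nat_lit 2770401158) (nat_lit 0) (nat_lit 6994522298) (nat_lit 1140) (nat_lit 263583477) (nat_lit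 362) (nat_lit 5) (nat_lit 361) (nat_lit 5) (nat_lit 376) (nat_lit 5) (nat_lit 419) (nat_lit 416) (nat_lit 365))))))))
noncomputable def xc74 : XT := (XT.nd (nat_lit 2028) (nat_lit 6916) (nat_lit 0) (XT.nd (nat_lit 1014) (nat_lit 5548) (nat_lit 0) (XT.nd (nat_lit 468) (nat_lit 4408) (nat_lit 0) (XT.nd (nat_lit 234) (nat_lit 988) (nat_lit 0) (XT.nd (nat_lit 78) (nat_lit 0) (nat_lit 0) (XT.lf (nat_lit 0) (nat_lit 1324919376) (nat_lit 1140) (nat_lit 8882076965) (nat_lit 1216) (nat_lit 42850841) (nat_lit 347) (nat_lit 5) (nat_lit 362) (nat_lit 5) (nat_lit 363) (nat_lit 5) (nat_lit 420) (nat_lit 416) (nat_lit 364)) (XT.nd (nat_lit 78) (nat_lit 0) (nat_lit 76) (XT.lf (nat_lit 0) (nat_lit 3058704015) (nat_lit 1140) (nat_lit 27613064) (nat_lit 1216) (nat_lit 7393723423) (nat_lit 347) (nat_lit 5) (nat_lit 362) (nat_lit 5) (nat_lit 363) (nat_lit 5) (nat_lit 421) (nat_lit 416) (nat_lit 363)) (XT.lf (nat_lit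 0) (nat_lit 4941676554) (nat_lit 1140) (nat_lit 1359214429) (nat_lit 1216) (nat_lit 4418980964) (nat_lit 348) (nat_lit 5) (nat_lit 363) (nat_lit 5) (nat_lit 364) (nat_lit 5) (nat_lit 422) (nat_lit 416) (nat_lit 362)))) (XT.nd (nat_lit 78) (nat_lit 1140) (nat_lit 0) (XT.lf (nat_lit 0) (nat_lit 6975376360) (nat_lit 1140) (nat_lit 2653632537) (nat_lit 1216) (nat_lit 1340991963) (nat_lit 349) (nat_lit 5) (nat_lit 364) (nat_lit 5) (nat_lit 365) (nat_lit 5) (nat_lit 423) (nat_lit 416) (nat_lit 361)) (XT.nd (nat_lit 78) (nat_lit 1140) (nat_lit 0) (XT.lf (nat_lit 76) (nat_lit 7301201634) (nat_lit 0) (nat_lit 1892351208) (nat_lit 1216) (nat_lit 2036602727) (nat_lit 350) (nat_lit 5) (nat_lit 349) (nat_lit 5) (nat_lit 365) (nat_lit 5) (nat_lit 424) (nat_lit 416) (nat_lit 360)) (XT.lf (nat_lit 0) (nat_lit 105684768) (nat_lit 1216) (nat_lit 5181945499) (nat_lit 1292) (nat_lit 6213082792) (nat_lit 334) (nat_lit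 5) (nat_lit 350) (nat_lit 5) (nat_lit 351) (nat_lit 5) (nat_lit 425) (nat_lit 416) (nat_lit 359))))) (XT.nd (nat_lit 234) (nat_lit 2432) (nat_lit 0) (XT.nd (nat_lit 78) (nat_lit 2052) (nat_lit 0) (XT.lf (nat_lit 0) (nat_lit 2393814604) (nat_lit 1216) (nat_lit 6419005021) (nat_lit 76) (nat_lit 2968951158) (nat_lit 335) (nat_lit 5) (nat_lit 351) (nat_lit 5) (nat_lit 336) (nat_lit 5) (nat_lit 426) (nat_lit 416) (nat_lit 358)) (XT.nd (nat_lit 78) (nat_lit 836) (nat_lit 0) (XT.lf (nat_lit 0) (nat_lit 4450434935) (nat_lit 1216) (nat_lit 438007765) (nat_lit 1292) (nat_lit 7185678540) (nat_lit 319) (nat_lit 5) (nat_lit 335) (nat_lit 5) (nat_lit 336) (nat_lit 5) (nat_lit 427) (nat_lit 416) (nat_lit 357)) (XT.lf (nat_lit 0) (nat_lit 3556272999) (nat_lit 836) (nat_lit 4077190919) (nat_lit 912) (nat_lit 4743857926) (nat_lit 308) (nat_lit 5) (nat_lit 319) (nat_lit 5) (nat_lit 320) (nat_lit 5) (nat_lit 428) (nat_lit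 416) (nat_lit 356)))) (XT.nd (nat_lit 156) (nat_lit 1140) (nat_lit 0) (XT.nd (nat_lit 78) (nat_lit 684) (nat_lit 0) (XT.lf (nat_lit 0) (nat_lit 2712405310) (nat_lit 608) (nat_lit 7905537843) (nat_lit 684) (nat_lit 2074675477) (nat_lit 300) (nat_lit 5) (nat_lit 308) (nat_lit 5) (nat_lit 309) (nat_lit 5) (nat_lit 429) (nat_lit 416) (nat_lit 355)) (XT.lf (nat_lit 0) (nat_lit 823989293) (nat_lit 684) (nat_lit 11107060909) (nat_lit 76) (nat_lit 1089115450) (nat_lit 291) (nat_lit 5) (nat_lit 300) (nat_lit 5) (nat_lit 292) (nat_lit 5) (nat_lit 430) (nat_lit 416) (nat_lit 354))) (XT.nd (nat_lit 78) (nat_lit 608) (nat_lit 0) (XT.lf (nat_lit 0) (nat_lit 1118342880) (nat_lit 532) (nat_lit 2851238400) (nat_lit 608) (nat_lit 9389547539) (nat_lit 284) (nat_lit 5) (nat_lit 291) (nat_lit 5) (nat_lit 292) (nat_lit 5) (nat_lit 431) (nat_lit 416) (nat_lit 353)) (XT.lf (nat_lit 0) (nat_lit 366950194) (nat_lit 608)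 (nat_lit 7040832538) (nat_lit 684) (nat_lit 6303199493) (nat_lit 276) (nat_lit 5) (nat_lit 284) (nat_lit 5) (nat_lit 285) (nat_lit 5) (nat_lit 432) (nat_lit 416) (nat_lit 352)))))) (XT.nd (nat_lit 468) (nat_lit 2964) (nat_lit 0) (XT.nd (nat_lit 234) (nat_lit 1444) (nat_lit 0) (XT.nd (nat_lit 78) (nat_lit 1140) (nat_lit 0) (XT.lf (nat_lit 0) (nat_lit 11151839624) (nat_lit 684) (nat_lit 320103040) (nat_lit 76) (nat_lit 2604469163) (nat_lit 276) (nat_lit 5) (nat_lit 285) (nat_lit 5) (nat_lit 277) (nat_lit 5) (nat_lit 433) (nat_lit 416) (nat_lit 351)) (XT.nd (nat_lit 78) (nat_lit 532) (nat_lit 0) (XT.lf (nat_lit 0) (nat_lit 769288141) (nat_lit 608) (nat_lit 963441615) (nat_lit 76) (nat_lit 12722451486) (nat_lit 268) (nat_lit 5) (nat_lit 276) (nat_lit 5) (nat_lit 269) (nat_lit 5) (nat_lit 434) (nat_lit 416) (nat_lit 350)) (XT.lf (nat_lit 0) (nat_lit 4759889695) (nat_lit 608) (nat_lit 1601223984) (nat_lit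 76) (nat_lit 8485732437) (nat_lit 261) (nat_lit 5) (nat_lit 269) (nat_lit 5) (nat_lit 262) (nat_lit 5) (nat_lit 435) (nat_lit 416) (nat_lit 349)))) (XT.nd (nat_lit 78) (nat_lit 988) (nat_lit 0) (XT.lf (nat_lit 0) (nat_lit 9101466793) (nat_lit 532) (nat_lit 2175014937) (nat_lit 76) (nat_lit 3977070721) (nat_lit 255) (nat_lit 5) (nat_lit 262) (nat_lit 5) (nat_lit 256) (nat_lit 5) (nat_lit 436) (nat_lit 416) (nat_lit 348)) (XT.nd (nat_lit 78) (nat_lit 532) (nat_lit 0) (XT.lf (nat_lit 0) (nat_lit 12987756948) (nat_lit 456) (nat_lit 838367167) (nat_lit 532) (nat_lit 1849491451) (nat_lit 249) (nat_lit 5) (nat_lit 255) (nat_lit 5) (nat_lit 256) (nat_lit 5) (nat_lit 437) (nat_lit 416) (nat_lit 347)) (XT.lf (nat_lit 0) (nat_lit 2824225878) (nat_lit 532) (nat_lit 3195901536) (nat_lit 76) (nat_lit 10091644546) (nat_lit 242) (nat_lit 5) (nat_lit 249) (nat_lit 5) (nat_lit 243) (nat_lit 5) (nat_lit 438) (nat_lit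 416) (nat_lit 346))))) (XT.nd (nat_lit 234) (nat_lit 1596) (nat_lit 0) (XT.nd (nat_lit 78) (nat_lit 912) (nat_lit 0) (XT.lf (nat_lit 0) (nat_lit 7866984941) (nat_lit 532) (nat_lit 3648390130) (nat_lit 76) (nat_lit 5048604890) (nat_lit 236) (nat_lit 5) (nat_lit 243) (nat_lit 5) (nat_lit 237) (nat_lit 5) (nat_lit 439) (nat_lit 416) (nat_lit 345)) (XT.nd (nat_lit 78) (nat_lit 532) (nat_lit 0) (XT.lf (nat_lit 0) (nat_lit 13008613826) (nat_lit 380) (nat_lit 336269716) (nat_lit 456) (nat_lit 3688426033) (nat_lit 231) (nat_lit 5) (nat_lit 236) (nat_lit 5) (nat_lit 237) (nat_lit 5) (nat_lit 440) (nat_lit 416) (nat_lit 344)) (XT.lf (nat_lit 0) (nat_lit 1781397650) (nat_lit 532) (nat_lit 4385428893) (nat_lit 76) (nat_lit 11351583163) (nat_lit 224) (nat_lit 5) (nat_lit 231) (nat_lit 5) (nat_lit 225) (nat_lit 5) (nat_lit 441) (nat_lit 416) (nat_lit 343)))) (XT.nd (nat_lit 156) (nat_lit 836) (nat_lit 0) (XT.nd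 (nat_lit 78) (nat_lit 380) (nat_lit 0) (XT.lf (nat_lit 0) (nat_lit 7644748079) (nat_lit 456) (nat_lit 4696704935) (nat_lit 76) (nat_lit 5679327833) (nat_lit 219) (nat_lit 5) (nat_lit 225) (nat_lit 5) (nat_lit 220) (nat_lit 5) (nat_lit 442) (nat_lit 416) (nat_lit 342)) (XT.lf (nat_lit 0) (nat_lit 13622535812) (nat_lit 380) (nat_lit 384670805) (nat_lit 456) (nat_lit 4534886769) (nat_lit 214) (nat_lit 5) (nat_lit 219) (nat_lit 5) (nat_lit 220) (nat_lit 5) (nat_lit 443) (nat_lit 416) (nat_lit 341))) (XT.nd (nat_lit 78) (nat_lit 380) (nat_lit 0) (XT.lf (nat_lit 0) (nat_lit 1838170873) (nat_lit 456) (nat_lit 5120206739) (nat_lit 76) (nat_lit 12122502699) (nat_lit 208) (nat_lit 5) (nat_lit 214) (nat_lit 5) (nat_lit 209) (nat_lit 5) (nat_lit 444) (nat_lit 416) (nat_lit 340)) (XT.lf (nat_lit 0) (nat_lit 8655757340) (nat_lit 456) (nat_lit 5265639060) (nat_lit 76) (nat_lit 5717274190) (nat_lit 203) (nat_lit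 5) (nat_lit 209) (nat_lit 5) (nat_lit 204) (nat_lit 5) (nat_lit 445) (nat_lit 416) (nat_lit 339))))))) (XT.nd (nat_lit 1014) (nat_lit 3040) (nat_lit 0) (XT.nd (nat_lit 468) (nat_lit 1900) (nat_lit 0) (XT.nd (nat_lit 234) (nat_lit 988) (nat_lit 0) (XT.nd (nat_lit 78) (nat_lit 684) (nat_lit 0) (XT.lf (nat_lit 0) (nat_lit 14902354312) (nat_lit 304) (nat_lit 1148534097) (nat_lit 380) (nat_lit 4166362901) (nat_lit 199) (nat_lit 5) (nat_lit 203) (nat_lit 5) (nat_lit 204) (nat_lit 5) (nat_lit 446) (nat_lit 416) (nat_lit 338)) (XT.nd (nat_lit 78) (nat_lit 304) (nat_lit 0) (XT.lf (nat_lit 0) (nat_lit 3228095300) (nat_lit 380) (nat_lit 5340165501) (nat_lit 76) (nat_lit 12246775169) (nat_lit 194) (nat_lit 5) (nat_lit 199) (nat_lit 5) (nat_lit 195) (nat_lit 5) (nat_lit 447) (nat_lit 416) (nat_lit 337)) (XT.lf (nat_lit 0) (nat_lit 11149959164) (nat_lit 380) (nat_lit 5290364220) (nat_lit 76) (nat_lit 4993834241)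 (nat_lit 190) (nat_lit 5) (nat_lit 195) (nat_lit 5) (nat_lit 191) (nat_lit 5) (nat_lit 448) (nat_lit 416) (nat_lit 336)))) (XT.nd (nat_lit 78) (nat_lit 684) (nat_lit 0) (XT.lf (nat_lit 0) (nat_lit 16933131868) (nat_lit 304) (nat_lit 2811966814) (nat_lit 380) (nat_lit 2330821952) (nat_lit 186) (nat_lit 5) (nat_lit 190) (nat_lit 5) (nat_lit 191) (nat_lit 5) (nat_lit 449) (nat_lit 416) (nat_lit 335)) (XT.nd (nat_lit 78) (nat_lit 304) (nat_lit 0) (XT.lf (nat_lit 0) (nat_lit 6215909504) (nat_lit 380) (nat_lit 4975116741) (nat_lit 76) (nat_lit 11547615263) (nat_lit 181) (nat_lit 5) (nat_lit 186) (nat_lit 5) (nat_lit 182) (nat_lit 5) (nat_lit 450) (nat_lit 416) (nat_lit 334)) (XT.lf (nat_lit 0) (nat_lit 15410822516) (nat_lit 380) (nat_lit 4695899372) (nat_lit 76) (nat_lit 3319013372) (nat_lit 177) (nat_lit 5) (nat_lit 182) (nat_lit 5) (nat_lit 178) (nat_lit 5) (nat_lit 451) (nat_lit 416) (nat_lit 333)))))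 (XT.nd (nat_lit 234) (nat_lit 1064) (nat_lit 0) (XT.nd (nat_lit 78) (nat_lit 532) (nat_lit 0) (XT.lf (nat_lit 0) (nat_lit 1233352911) (nat_lit 304) (nat_lit 4337438579) (nat_lit 76) (nat_lit 18566138756) (nat_lit 173) (nat_lit 5) (nat_lit 177) (nat_lit 5) (nat_lit 174) (nat_lit 5) (nat_lit 452) (nat_lit 416) (nat_lit 332)) (XT.nd (nat_lit 78) (nat_lit 228) (nat_lit 0) (XT.lf (nat_lit 0) (nat_lit 11102243824) (nat_lit 380) (nat_lit 3945243200) (nat_lit 76) (nat_lit 9824098688) (nat_lit 169) (nat_lit 5) (nat_lit 174) (nat_lit 5) (nat_lit 170) (nat_lit 5) (nat_lit 453) (nat_lit 416) (nat_lit 331)) (XT.lf (nat_lit 0) (nat_lit 21760237890) (nat_lit 304) (nat_lit 3397640593) (nat_lit 76) (nat_lit 476226260) (nat_lit 166) (nat_lit 5) (nat_lit 170) (nat_lit 5) (nat_lit 167) (nat_lit 5) (nat_lit 454) (nat_lit 416) (nat_lit 330)))) (XT.nd (nat_lit 156) (nat_lit 532) (nat_lit 0) (XT.nd (nat_lit 78) (nat_lit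 228) (nat_lit 0) (XT.lf (nat_lit 0) (nat_lit 6789888289) (nat_lit 304) (nat_lit 2841927588) (nat_lit 76) (nat_lit 16789035241) (nat_lit 162) (nat_lit 5) (nat_lit 166) (nat_lit 5) (nat_lit 163) (nat_lit 5) (nat_lit 455) (nat_lit 416) (nat_lit 329)) (XT.lf (nat_lit 0) (nat_lit 18228656943) (nat_lit 304) (nat_lit 2161851448) (nat_lit 76) (nat_lit 6845617953) (nat_lit 159) (nat_lit 5) (nat_lit 163) (nat_lit 5) (nat_lit 160) (nat_lit 5) (nat_lit 456) (nat_lit 416) (nat_lit 328))) (XT.nd (nat_lit 78) (nat_lit 228) (nat_lit 0) (XT.lf (nat_lit 0) (nat_lit 2470378663) (nat_lit 304) (nat_lit 1363510844) (nat_lit 76) (nat_lit 24246704679) (nat_lit 155) (nat_lit 5) (nat_lit 159) (nat_lit 5) (nat_lit 156) (nat_lit 5) (nat_lit 457) (nat_lit 416) (nat_lit 327)) (XT.lf (nat_lit 0) (nat_lit 14746606012) (nat_lit 304) (nat_lit 541863057) (nat_lit 76) (nat_lit 13663818038) (nat_lit 152) (nat_lit 5) (nat_lit 156) (nat_lit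 5) (nat_lit 153) (nat_lit 5) (nat_lit 458) (nat_lit 416) (nat_lit 326)))))) (XT.nd (nat_lit 546) (nat_lit 1292) (nat_lit 0) (XT.nd (nat_lit 234) (nat_lit 912) (nat_lit 0) (XT.nd (nat_lit 78) (nat_lit 456) (nat_lit 0) (XT.lf (nat_lit 0) (nat_lit 480841752) (nat_lit 152) (nat_lit 27506811020) (nat_lit 228) (nat_lit 1869382066) (nat_lit 147) (nat_lit 5) (nat_lit 149) (nat_lit 5) (nat_lit 150) (nat_lit 5) (nat_lit 459) (nat_lit 416) (nat_lit 325)) (XT.nd (nat_lit 78) (nat_lit 152) (nat_lit 0) (XT.lf (nat_lit 0) (nat_lit 1514362541) (nat_lit 228) (nat_lit 9813124887) (nat_lit 304) (nat_lit 19462535424) (nat_lit 143) (nat_lit 5) (nat_lit 146) (nat_lit 5) (nat_lit 147) (nat_lit 5) (nat_lit 460) (nat_lit 416) (nat_lit 324)) (XT.lf (nat_lit 0) (nat_lit 2714012434) (nat_lit 152) (nat_lit 22826909990) (nat_lit 228) (nat_lit 6216321426) (nat_lit 141) (nat_lit 5) (nat_lit 143) (nat_lit 5) (nat_lit 144) (nat_lit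 5) (nat_lit 461) (nat_lit 416) (nat_lit 323)))) (XT.nd (nat_lit 156) (nat_lit 456) (nat_lit 0) (XT.nd (nat_lit 78) (nat_lit 152) (nat_lit 0) (XT.lf (nat_lit 0) (nat_lit 4018658803) (nat_lit 228) (nat_lit 3945206977) (nat_lit 304) (nat_lit 24794089231) (nat_lit 137) (nat_lit 5) (nat_lit 140) (nat_lit 5) (nat_lit 141) (nat_lit 5) (nat_lit 462) (nat_lit 416) (nat_lit 322)) (XT.lf (nat_lit 0) (nat_lit 5393319194) (nat_lit 152) (nat_lit 17819046527) (nat_lit 228) (nat_lit 10579853898) (nat_lit 135) (nat_lit 5) (nat_lit 137) (nat_lit 5) (nat_lit 138) (nat_lit 5) (nat_lit 463) (nat_lit 416) (nat_lit 321))) (XT.nd (nat_lit 78) (nat_lit 152) (nat_lit 0) (XT.lf (nat_lit 0) (nat_lit 4669127319) (nat_lit 304) (nat_lit 27906062571) (nat_lit 76) (nat_lit 2289490152) (nat_lit 131) (nat_lit 5) (nat_lit 135) (nat_lit 5) (nat_lit 132) (nat_lit 5) (nat_lit 464) (nat_lit 416) (nat_lit 320)) (XT.lf (nat_lit 0) (nat_lit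 8539319919) (nat_lit 152) (nat_lit 12462775753) (nat_lit 228) (nat_lit 14969315191) (nat_lit 129) (nat_lit 5) (nat_lit 131) (nat_lit 5) (nat_lit 132) (nat_lit 5) (nat_lit 465) (nat_lit 416) (nat_lit 319))))) (XT.nd (nat_lit 234) (nat_lit 760) (nat_lit 0) (XT.nd (nat_lit 78) (nat_lit 304) (nat_lit 0) (XT.lf (nat_lit 0) (nat_lit 1457242421) (nat_lit 228) (nat_lit 26785689782) (nat_lit 76) (nat_lit 8876486313) (nat_lit 126) (nat_lit 5) (nat_lit 129) (nat_lit 5) (nat_lit 127) (nat_lit 5) (nat_lit 466) (nat_lit 416) (nat_lit 318)) (XT.nd (nat_lit 78) (nat_lit 152) (nat_lit 0) (XT.lf (nat_lit 0) (nat_lit 12170413942) (nat_lit 152) (nat_lit 6737953459) (nat_lit 228) (nat_lit 19396628225) (nat_lit 124) (nat_lit 5) (nat_lit 126) (nat_lit 5) (nat_lit 127) (nat_lit 5) (nat_lit 467) (nat_lit 416) (nat_lit 317)) (XT.lf (nat_lit 0) (nat_lit 14182618641) (nat_lit 152) (nat_lit 23598923890) (nat_lit 228) (nat_lit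 1751824478) (nat_lit 122) (nat_lit 5) (nat_lit 124) (nat_lit 5) (nat_lit 125) (nat_lit 5) (nat_lit 468) (nat_lit 416) (nat_lit 316)))) (XT.nd (nat_lit 156) (nat_lit 380) (nat_lit 0) (XT.nd (nat_lit 78) (nat_lit 152) (nat_lit 0) (XT.lf (nat_lit 0) (nat_lit 16301869954) (nat_lit 152) (nat_lit 625196680) (nat_lit 228) (nat_lit 23876877167) (nat_lit 119) (nat_lit 5) (nat_lit 121) (nat_lit 5) (nat_lit 122) (nat_lit 5) (nat_lit 469) (nat_lit 416) (nat_lit 315)) (XT.lf (nat_lit 0) (nat_lit 18521415787) (nat_lit 152) (nat_lit 18633234205) (nat_lit 228) (nat_lit 4963349959) (nat_lit 117) (nat_lit 5) (nat_lit 119) (nat_lit 5) (nat_lit 120) (nat_lit 5) (nat_lit 470) (nat_lit 416) (nat_lit 314))) (XT.nd (nat_lit 78) (nat_lit 152) (nat_lit 0) (XT.lf (nat_lit 0) (nat_lit 15107741075) (nat_lit 228) (nat_lit 22592096133) (nat_lit 76) (nat_lit 5778549472) (nat_lit 114) (nat_lit 5) (nat_lit 117) (nat_lit 5) (nat_lit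 115) (nat_lit 5) (nat_lit 471) (nat_lit 416) (nat_lit 313)) (XT.lf (nat_lit 0) (nat_lit 23372952642) (nat_lit 152) (nat_lit 13349711151) (nat_lit 228) (nat_lit 8163367065) (nat_lit 112) (nat_lit 5) (nat_lit 114) (nat_lit 5) (nat_lit 115) (nat_lit 5) (nat_lit 472) (nat_lit 416) (nat_lit 312))))))))
noncomputable def xc75 : XT := (XT.nd (nat_lit 58266) (nat_lit 0) (nat_lit 10868) (XT.nd (nat_lit 1014) (nat_lit 1520) (nat_lit 0) (XT.nd (nat_lit 468) (nat_lit 1064) (nat_lit 0) (XT.nd (nat_lit 234) (nat_lit 456) (nat_lit 0) (XT.nd (nat_lit 78) (nat_lit 304) (nat_lit 0) (XT.lf (nat_lit 0) (nat_lit 13392959306) (nat_lit 228) (nat_lit 20365625812) (nat_lit 76) (nat_lit 12583905128) (nat_lit 109) (nat_lit 5) (nat_lit 112) (nat_lit 5) (nat_lit 110) (nat_lit 5) (nat_lit 473) (nat_lit 416) (nat_lit 311)) (XT.nd (nat_lit 78) (nat_lit 152) (nat_lit 0) (XT.lf (nat_lit 0) (nat_lit 28738759259) (nat_lit 152) (nat_lit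 7740337530) (nat_lit 228) (nat_lit 11371626438) (nat_lit 107) (nat_lit 5) (nat_lit 109) (nat_lit 5) (nat_lit 110) (nat_lit 5) (nat_lit 474) (nat_lit 416) (nat_lit 310)) (XT.lf (nat_lit 0) (nat_lit 11761348567) (nat_lit 152) (nat_lit 17832849071) (nat_lit 76) (nat_lit 19816024277) (nat_lit 105) (nat_lit 5) (nat_lit 107) (nat_lit 5) (nat_lit 106) (nat_lit 5) (nat_lit 475) (nat_lit 416) (nat_lit 309)))) (XT.nd (nat_lit 78) (nat_lit 304) (nat_lit 0) (XT.lf (nat_lit 0) (nat_lit 34611873726) (nat_lit 152) (nat_lit 1800891635) (nat_lit 228) (nat_lit 14613643334) (nat_lit 103) (nat_lit 5) (nat_lit 105) (nat_lit 5) (nat_lit 106) (nat_lit 5) (nat_lit 476) (nat_lit 416) (nat_lit 308)) (XT.nd (nat_lit 78) (nat_lit 152) (nat_lit 0) (XT.lf (nat_lit 0) (nat_lit 10191780871) (nat_lit 152) (nat_lit 15020614546) (nat_lit 76) (nat_lit 27484091484) (nat_lit 101) (nat_lit 5) (nat_lit 103) (nat_lit 5) (nat_lit 102) (nat_lit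 5) (nat_lit 477) (nat_lit 416) (nat_lit 307)) (XT.lf (nat_lit 0) (nat_lit 36549584460) (nat_lit 228) (nat_lit 13496984201) (nat_lit 76) (nat_lit 4380729571) (nat_lit 99) (nat_lit 5) (nat_lit 102) (nat_lit 5) (nat_lit 100) (nat_lit 4) (nat_lit 478) (nat_lit 416) (nat_lit 306))))) (XT.nd (nat_lit 234) (nat_lit 608) (nat_lit 0) (XT.nd (nat_lit 78) (nat_lit 304) (nat_lit 0) (XT.lf (nat_lit 0) (nat_lit 8656054932) (nat_lit 152) (nat_lit 11969026884) (nat_lit 76) (nat_lit 35592332258) (nat_lit 97) (nat_lit 5) (nat_lit 99) (nat_lit 5) (nat_lit 98) (nat_lit 5) (nat_lit 479) (nat_lit 416) (nat_lit 305)) (XT.nd (nat_lit 78) (nat_lit 152) (nat_lit 0) (XT.lf (nat_lit 0) (nat_lit 36842750352) (nat_lit 228) (nat_lit 10384829062) (nat_lit 76) (nat_lit 10843266886) (nat_lit 95) (nat_lit 5) (nat_lit 98) (nat_lit 5) (nat_lit 96) (nat_lit 4) (nat_lit 480) (nat_lit 416) (nat_lit 304)) (XT.lf (nat_lit 0) (nat_lit 7117334465)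 (nat_lit 152) (nat_lit 8734557599) (nat_lit 76) (nat_lit 44138581743) (nat_lit 93) (nat_lit 5) (nat_lit 95) (nat_lit 5) (nat_lit 94) (nat_lit 5) (nat_lit 481) (nat_lit 416) (nat_lit 303)))) (XT.nd (nat_lit 156) (nat_lit 304) (nat_lit 0) (XT.nd (nat_lit 78) (nat_lit 152) (nat_lit 0) (XT.lf (nat_lit 0) (nat_lit 37241658617) (nat_lit 228) (nat_lit 7126895958) (nat_lit 76) (nat_lit 17607203283) (nat_lit 91) (nat_lit 5) (nat_lit 94) (nat_lit 5) (nat_lit 92) (nat_lit 4) (nat_lit 482) (nat_lit 416) (nat_lit 302)) (XT.lf (nat_lit 0) (nat_lit 5528287796) (nat_lit 152) (nat_lit 5393755286) (nat_lit 76) (nat_lit 53112566700) (nat_lit 89) (nat_lit 5) (nat_lit 91) (nat_lit 5) (nat_lit 90) (nat_lit 5) (nat_lit 483) (nat_lit 416) (nat_lit 301))) (XT.nd (nat_lit 78) (nat_lit 152) (nat_lit 0) (XT.lf (nat_lit 0) (nat_lit 37702066065) (nat_lit 228) (nat_lit 3811521562) (nat_lit 76) (nat_lit 24648175670) (nat_lit 87)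 (nat_lit 5) (nat_lit 90) (nat_lit 5) (nat_lit 88) (nat_lit 4) (nat_lit 484) (nat_lit 416) (nat_lit 300)) (XT.lf (nat_lit 0) (nat_lit 3828875590) (nat_lit 152) (nat_lit 2047663029) (nat_lit 76) (nat_lit 62493848087) (nat_lit 85) (nat_lit 5) (nat_lit 87) (nat_lit 5) (nat_lit 86) (nat_lit 5) (nat_lit 485) (nat_lit 416) (nat_lit 299)))))) (XT.nd (nat_lit 468) (nat_lit 684) (nat_lit 0) (XT.nd (nat_lit 234) (nat_lit 304) (nat_lit 0) (XT.nd (nat_lit 78) (nat_lit 380) (nat_lit 0) (XT.lf (nat_lit 0) (nat_lit 38166410832) (nat_lit 228) (nat_lit 554059300) (nat_lit 76) (nat_lit 31929824135) (nat_lit 83) (nat_lit 5) (nat_lit 86) (nat_lit 5) (nat_lit 84) (nat_lit 4) (nat_lit 486) (nat_lit 416) (nat_lit 298)) (XT.nd (nat_lit 78) (nat_lit 76) (nat_lit 0) (XT.lf (nat_lit 0) (nat_lit 1196274035) (nat_lit 152) (nat_lit 758949541) (nat_lit 228) (nat_lit 71064587638) (nat_lit 79) (nat_lit 5) (nat_lit 81) (nat_lit 5)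 (nat_lit 82) (nat_lit 5) (nat_lit 487) (nat_lit 416) (nat_lit 297)) (XT.lf (nat_lit 0) (nat_lit 2547100889) (nat_lit 76) (nat_lit 36038380635) (nat_lit 152) (nat_lit 36878443509) (nat_lit 78) (nat_lit 5) (nat_lit 79) (nat_lit 5) (nat_lit 80) (nat_lit 4) (nat_lit 488) (nat_lit 416) (nat_lit 296)))) (XT.nd (nat_lit 78) (nat_lit 228) (nat_lit 0) (XT.lf (nat_lit 0) (nat_lit 4138273735) (nat_lit 76) (nat_lit 73725867482) (nat_lit 76) (nat_lit 141596722) (nat_lit 77) (nat_lit 4) (nat_lit 78) (nat_lit 5) (nat_lit 78) (nat_lit 4) (nat_lit 489) (nat_lit 416) (nat_lit 295)) (XT.nd (nat_lit 78) (nat_lit 76) (nat_lit 0) (XT.lf (nat_lit 0) (nat_lit 5257827266) (nat_lit 76) (nat_lit 33585369121) (nat_lit 152) (nat_lit 41785530603) (nat_lit 75) (nat_lit 5) (nat_lit 76) (nat_lit 5) (nat_lit 77) (nat_lit 4) (nat_lit 490) (nat_lit 416) (nat_lit 294)) (XT.lf (nat_lit 0) (nat_lit 6537740187) (nat_lit 76) (nat_lit 74138620145)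 (nat_lit 76) (nat_lit 2679401367) (nat_lit 74) (nat_lit 4) (nat_lit 75) (nat_lit 5) (nat_lit 75) (nat_lit 4) (nat_lit 491) (nat_lit 416) (nat_lit 293))))) (XT.nd (nat_lit 234) (nat_lit 304) (nat_lit 0) (XT.nd (nat_lit 78) (nat_lit 228) (nat_lit 0) (XT.lf (nat_lit 0) (nat_lit 7327218480) (nat_lit 76) (nat_lit 31487994762) (nat_lit 152) (nat_lit 47357401886) (nat_lit 72) (nat_lit 5) (nat_lit 73) (nat_lit 5) (nat_lit 74) (nat_lit 4) (nat_lit 492) (nat_lit 416) (nat_lit 292)) (XT.nd (nat_lit 78) (nat_lit 152) (nat_lit 0) (XT.lf (nat_lit 0) (nat_lit 8154117362) (nat_lit 76) (nat_lit 75169724131) (nat_lit 76) (nat_lit 5775833010) (nat_lit 71) (nat_lit 4) (nat_lit 72) (nat_lit 5) (nat_lit 72) (nat_lit 4) (nat_lit 493) (nat_lit 416) (nat_lit 291)) (XT.lf (nat_lit 0) (nat_lit 8457171997) (nat_lit 76) (nat_lit 29896769100) (nat_lit 152) (nat_lit 53771968756) (nat_lit 69) (nat_lit 5) (nat_lit 70) (nat_lit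 5) (nat_lit 71) (nat_lit 4) (nat_lit 494) (nat_lit 416) (nat_lit 290)))) (XT.nd (nat_lit 56394) (nat_lit 0) (nat_lit 22344) (XT.nd (nat_lit 156) (nat_lit 228) (nat_lit 0) (XT.lf (nat_lit 0) (nat_lit 8655932067) (nat_lit 76) (nat_lit 77000030186) (nat_lit 76) (nat_lit 9613222822) (nat_lit 68) (nat_lit 4) (nat_lit 69) (nat_lit 5) (nat_lit 69) (nat_lit 4) (nat_lit 495) (nat_lit 416) (nat_lit 289)) (XT.lf (nat_lit 0) (nat_lit 7635500627) (nat_lit 76) (nat_lit 79850008908) (nat_lit 76) (nat_lit 14413509641) (nat_lit 65) (nat_lit 4) (nat_lit 66) (nat_lit 5) (nat_lit 66) (nat_lit 4) (nat_lit 497) (nat_lit 416) (nat_lit 287))) (XT.nd (nat_lit 78) (nat_lit 0) (nat_lit 0) (XT.lf (nat_lit 0) (nat_lit 3892143321) (nat_lit 1140) (nat_lit 507009762) (nat_lit 1140) (nat_lit 507009762) (nat_lit 359) (nat_lit 3) (nat_lit 374) (nat_lit 3) (nat_lit 374) (nat_lit 5) (nat_lit 417) (nat_lit 417) (nat_lit 366)) (XT.lf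 (nat_lit 76) (nat_lit 7265873857) (nat_lit 0) (nat_lit 1985235783) (nat_lit 1140) (nat_lit 768297077) (nat_lit 360) (nat_lit 5) (nat_lit 359) (nat_lit 3) (nat_lit 374) (nat_lit 5) (nat_lit 418) (nat_lit 417) (nat_lit 365))))))) (XT.nd (nat_lit 1014) (nat_lit 6308) (nat_lit 0) (XT.nd (nat_lit 468) (nat_lit 4104) (nat_lit 0) (XT.nd (nat_lit 234) (nat_lit 0) (nat_lit 152) (XT.nd (nat_lit 78) (nat_lit 0) (nat_lit 76) (XT.lf (nat_lit 0) (nat_lit 582622836) (nat_lit 1140) (nat_lit 4477393215) (nat_lit 1216) (nat_lit 5175499330) (nat_lit 345) (nat_lit 5) (nat_lit 360) (nat_lit 5) (nat_lit 361) (nat_lit 5) (nat_lit 419) (nat_lit 417) (nat_lit 364)) (XT.nd (nat_lit 78) (nat_lit 0) (nat_lit 0) (XT.lf (nat_lit 0) (nat_lit 2023049177) (nat_lit 1140) (nat_lit 6179996303) (nat_lit 1216) (nat_lit 2258023880) (nat_lit 346) (nat_lit 5) (nat_lit 361) (nat_lit 5) (nat_lit 362) (nat_lit 5) (nat_lit 420) (nat_lit 417)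 (nat_lit 363)) (XT.lf (nat_lit 76) (nat_lit 2833737284) (nat_lit 0) (nat_lit 755570479) (nat_lit 1216) (nat_lit 7106982368) (nat_lit 347) (nat_lit 5) (nat_lit 346) (nat_lit 5) (nat_lit 362) (nat_lit 5) (nat_lit 421) (nat_lit 417) (nat_lit 362)))) (XT.nd (nat_lit 78) (nat_lit 0) (nat_lit 76) (XT.lf (nat_lit 76) (nat_lit 1399157427) (nat_lit 0) (nat_lit 3912483167) (nat_lit 1216) (nat_lit 5629301760) (nat_lit 348) (nat_lit 5) (nat_lit 347) (nat_lit 5) (nat_lit 363) (nat_lit 5) (nat_lit 422) (nat_lit 417) (nat_lit 361)) (XT.nd (nat_lit 78) (nat_lit 0) (nat_lit 76) (XT.lf (nat_lit 0) (nat_lit 7182884391) (nat_lit 1140) (nat_lit 230103) (nat_lit 1216) (nat_lit 4012831966) (nat_lit 348) (nat_lit 5) (nat_lit 363) (nat_lit 5) (nat_lit 364) (nat_lit 5) (nat_lit 423) (nat_lit 417) (nat_lit 360)) (XT.lf (nat_lit 0) (nat_lit 9231573852) (nat_lit 1140) (nat_lit 1337746178) (nat_lit 1216) (nat_lit 891867191)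 (nat_lit 349) (nat_lit 5) (nat_lit 364) (nat_lit 5) (nat_lit 365) (nat_lit 5) (nat_lit 424) (nat_lit 417) (nat_lit 359))))) (XT.nd (nat_lit 234) (nat_lit 3268) (nat_lit 0) (XT.nd (nat_lit 78) (nat_lit 1140) (nat_lit 0) (XT.lf (nat_lit 76) (nat_lit 9073306791) (nat_lit 0) (nat_lit 2410047808) (nat_lit 1216) (nat_lit 253318528) (nat_lit 350) (nat_lit 5) (nat_lit 349) (nat_lit 5) (nat_lit 365) (nat_lit 5) (nat_lit 425) (nat_lit 417) (nat_lit 358)) (XT.nd (nat_lit 78) (nat_lit 0) (nat_lit 76) (XT.lf (nat_lit 0) (nat_lit 1881195357) (nat_lit 1216) (nat_lit 3981655153) (nat_lit 1292) (nat_lit 6159711433) (nat_lit 334) (nat_lit 5) (nat_lit 350) (nat_lit 5) (nat_lit 351) (nat_lit 5) (nat_lit 426) (nat_lit 417) (nat_lit 357)) (XT.lf (nat_lit 0) (nat_lit 4210350820) (nat_lit 1216) (nat_lit 5268627073) (nat_lit 76) (nat_lit 2840899894) (nat_lit 335) (nat_lit 5) (nat_lit 351) (nat_lit 5) (nat_lit 336) (nat_lit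 5) (nat_lit 427) (nat_lit 417) (nat_lit 356)))) (XT.nd (nat_lit 156) (nat_lit 1292) (nat_lit 0) (XT.nd (nat_lit 78) (nat_lit 836) (nat_lit 0) (XT.lf (nat_lit 0) (nat_lit 6102109553) (nat_lit 1216) (nat_lit 660536494) (nat_lit 1292) (nat_lit 5866215275) (nat_lit 319) (nat_lit 5) (nat_lit 335) (nat_lit 5) (nat_lit 336) (nat_lit 5) (nat_lit 428) (nat_lit 417) (nat_lit 355)) (XT.lf (nat_lit 0) (nat_lit 5171708801) (nat_lit 836) (nat_lit 4407583473) (nat_lit 912) (nat_lit 3369901919) (nat_lit 308) (nat_lit 5) (nat_lit 319) (nat_lit 5) (nat_lit 320) (nat_lit 5) (nat_lit 429) (nat_lit 417) (nat_lit 354))) (XT.nd (nat_lit 78) (nat_lit 684) (nat_lit 0) (XT.lf (nat_lit 0) (nat_lit 4291266702) (nat_lit 608) (nat_lit 8359960113) (nat_lit 684) (nat_lit 630885351) (nat_lit 300) (nat_lit 5) (nat_lit 308) (nat_lit 5) (nat_lit 309) (nat_lit 5) (nat_lit 430) (nat_lit 417) (nat_lit 353)) (XT.lf (nat_lit 0) (nat_lit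 2323754485) (nat_lit 684) (nat_lit 10187058102) (nat_lit 76) (nat_lit 1116543535) (nat_lit 291) (nat_lit 5) (nat_lit 300) (nat_lit 5) (nat_lit 292) (nat_lit 5) (nat_lit 431) (nat_lit 417) (nat_lit 352)))))) (XT.nd (nat_lit 546) (nat_lit 3116) (nat_lit 0) (XT.nd (nat_lit 234) (nat_lit 1520) (nat_lit 0) (XT.nd (nat_lit 78) (nat_lit 1140) (nat_lit 0) (XT.lf (nat_lit 0) (nat_lit 2607325097) (nat_lit 532) (nat_lit 2963620961) (nat_lit 608) (nat_lit 8413994686) (nat_lit 284) (nat_lit 5) (nat_lit 291) (nat_lit 5) (nat_lit 292) (nat_lit 5) (nat_lit 432) (nat_lit 417) (nat_lit 351)) (XT.nd (nat_lit 78) (nat_lit 532) (nat_lit 0) (XT.lf (nat_lit 0) (nat_lit 1817938919) (nat_lit 608) (nat_lit 7310362295) (nat_lit 684) (nat_lit 5227671058) (nat_lit 276) (nat_lit 5) (nat_lit 284) (nat_lit 5) (nat_lit 285) (nat_lit 5) (nat_lit 433) (nat_lit 417) (nat_lit 350)) (XT.lf (nat_lit 0) (nat_lit 1087403465) (nat_lit 532)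 (nat_lit 11919073783) (nat_lit 608) (nat_lit 1734791244) (nat_lit 269) (nat_lit 5) (nat_lit 276) (nat_lit 5) (nat_lit 277) (nat_lit 5) (nat_lit 434) (nat_lit 417) (nat_lit 349)))) (XT.nd (nat_lit 156) (nat_lit 912) (nat_lit 0) (XT.nd (nat_lit 78) (nat_lit 0) (nat_lit 0) (XT.lf (nat_lit 0) (nat_lit 382894609) (nat_lit 532) (nat_lit 1679269046) (nat_lit 608) (nat_lit 13078095719) (nat_lit 261) (nat_lit 5) (nat_lit 268) (nat_lit 5) (nat_lit 269) (nat_lit 5) (nat_lit 435) (nat_lit 417) (nat_lit 348)) (XT.lf (nat_lit 0) (nat_lit 6203383022) (nat_lit 608) (nat_lit 299213785) (nat_lit 76) (nat_lit 9050380367) (nat_lit 261) (nat_lit 5) (nat_lit 269) (nat_lit 5) (nat_lit 262) (nat_lit 5) (nat_lit 436) (nat_lit 417) (nat_lit 347))) (XT.nd (nat_lit 78) (nat_lit 456) (nat_lit 0) (XT.lf (nat_lit 0) (nat_lit 10719283028) (nat_lit 532) (nat_lit 908181314) (nat_lit 76) (nat_lit 4353839366) (nat_lit 255) (nat_lit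 5) (nat_lit 262) (nat_lit 5) (nat_lit 256) (nat_lit 5) (nat_lit 437) (nat_lit 417) (nat_lit 346)) (XT.lf (nat_lit 0) (nat_lit 14973298315) (nat_lit 456) (nat_lit 664350117) (nat_lit 532) (nat_lit 788099390) (nat_lit 249) (nat_lit 5) (nat_lit 255) (nat_lit 5) (nat_lit 256) (nat_lit 5) (nat_lit 438) (nat_lit 417) (nat_lit 345))))) (XT.nd (nat_lit 234) (nat_lit 1748) (nat_lit 0) (XT.nd (nat_lit 78) (nat_lit 836) (nat_lit 0) (XT.lf (nat_lit 0) (nat_lit 4057807306) (nat_lit 532) (nat_lit 2005396752) (nat_lit 76) (nat_lit 10821346582) (nat_lit 242) (nat_lit 5) (nat_lit 249) (nat_lit 5) (nat_lit 243) (nat_lit 5) (nat_lit 439) (nat_lit 417) (nat_lit 344)) (XT.nd (nat_lit 78) (nat_lit 380) (nat_lit 0) (XT.lf (nat_lit 0) (nat_lit 9315780680) (nat_lit 532) (nat_lit 2490076215) (nat_lit 76) (nat_lit 5554621702) (nat_lit 236) (nat_lit 5) (nat_lit 243) (nat_lit 5) (nat_lit 237) (nat_lit 5) (nat_lit 440) (nat_lit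 417) (nat_lit 343)) (XT.lf (nat_lit 0) (nat_lit 14961346084) (nat_lit 380) (nat_lit 68487290) (nat_lit 456) (nat_lit 2824575303) (nat_lit 231) (nat_lit 5) (nat_lit 236) (nat_lit 5) (nat_lit 237) (nat_lit 5) (nat_lit 441) (nat_lit 417) (nat_lit 342)))) (XT.nd (nat_lit 156) (nat_lit 836) (nat_lit 0) (XT.nd (nat_lit 78) (nat_lit 380) (nat_lit 0) (XT.lf (nat_lit 0) (nat_lit 2864514095) (nat_lit 532) (nat_lit 3292880048) (nat_lit 76) (nat_lit 12207082098) (nat_lit 224) (nat_lit 5) (nat_lit 231) (nat_lit 5) (nat_lit 225) (nat_lit 5) (nat_lit 442) (nat_lit 417) (nat_lit 341)) (XT.lf (nat_lit 0) (nat_lit 8988975500) (nat_lit 456) (nat_lit 3631553616) (nat_lit 76) (nat_lit 6272400069) (nat_lit 219) (nat_lit 5) (nat_lit 225) (nat_lit 5) (nat_lit 220) (nat_lit 5) (nat_lit 443) (nat_lit 417) (nat_lit 340))) (XT.nd (nat_lit 78) (nat_lit 456) (nat_lit 0) (XT.lf (nat_lit 0) (nat_lit 15566385314) (nat_lit 380)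 (nat_lit 69500665) (nat_lit 456) (nat_lit 3805432977) (nat_lit 214) (nat_lit 5) (nat_lit 219) (nat_lit 5) (nat_lit 220) (nat_lit 5) (nat_lit 444) (nat_lit 417) (nat_lit 339)) (XT.lf (nat_lit 0) (nat_lit 2838205120) (nat_lit 456) (nat_lit 4107631674) (nat_lit 76) (nat_lit 13061816459) (nat_lit 208) (nat_lit 5) (nat_lit 214) (nat_lit 5) (nat_lit 209) (nat_lit 5) (nat_lit 445) (nat_lit 417) (nat_lit 338))))))))
noncomputable def xc76 : XT := (XT.nd (nat_lit 2028) (nat_lit 3876) (nat_lit 0) (XT.nd (nat_lit 1014) (nat_lit 2888) (nat_lit 0) (XT.nd (nat_lit 468) (nat_lit 1976) (nat_lit 0) (XT.nd (nat_lit 234) (nat_lit 988) (nat_lit 0) (XT.nd (nat_lit 78) (nat_lit 684) (nat_lit 0) (XT.lf (nat_lit 0) (nat_lit 9968688935) (nat_lit 456) (nat_lit 4273788797) (nat_lit 76) (nat_lit 6351696073) (nat_lit 203) (nat_lit 5) (nat_lit 209) (nat_lit 5) (nat_lit 204) (nat_lit 5) (nat_lit 446) (nat_lit 417) (nat_lit 337))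 (XT.nd (nat_lit 78) (nat_lit 380) (nat_lit 0) (XT.lf (nat_lit 0) (nat_lit 16866626131) (nat_lit 304) (nat_lit 836758076) (nat_lit 380) (nat_lit 3499206365) (nat_lit 199) (nat_lit 5) (nat_lit 203) (nat_lit 5) (nat_lit 204) (nat_lit 5) (nat_lit 447) (nat_lit 417) (nat_lit 336)) (XT.lf (nat_lit 0) (nat_lit 4222132026) (nat_lit 380) (nat_lit 4385028161) (nat_lit 76) (nat_lit 13223625726) (nat_lit 194) (nat_lit 5) (nat_lit 199) (nat_lit 5) (nat_lit 195) (nat_lit 5) (nat_lit 448) (nat_lit 417) (nat_lit 335)))) (XT.nd (nat_lit 78) (nat_lit 684) (nat_lit 0) (XT.lf (nat_lit 0) (nat_lit 12515530128) (nat_lit 380) (nat_lit 4347294674) (nat_lit 76) (nat_lit 5618776707) (nat_lit 190) (nat_lit 5) (nat_lit 195) (nat_lit 5) (nat_lit 191) (nat_lit 5) (nat_lit 449) (nat_lit 417) (nat_lit 334)) (XT.nd (nat_lit 78) (nat_lit 380) (nat_lit 0) (XT.lf (nat_lit 0) (nat_lit 18952760957) (nat_lit 304) (nat_lit 2560461327)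 (nat_lit 380) (nat_lit 1643047553) (nat_lit 186) (nat_lit 5) (nat_lit 190) (nat_lit 5) (nat_lit 191) (nat_lit 5) (nat_lit 450) (nat_lit 417) (nat_lit 333)) (XT.lf (nat_lit 0) (nat_lit 7292643343) (nat_lit 380) (nat_lit 4050146594) (nat_lit 76) (nat_lit 12509786292) (nat_lit 181) (nat_lit 5) (nat_lit 186) (nat_lit 5) (nat_lit 182) (nat_lit 5) (nat_lit 451) (nat_lit 417) (nat_lit 332))))) (XT.nd (nat_lit 234) (nat_lit 1064) (nat_lit 0) (XT.nd (nat_lit 78) (nat_lit 608) (nat_lit 0) (XT.lf (nat_lit 0) (nat_lit 16925629658) (nat_lit 380) (nat_lit 3772223707) (nat_lit 76) (nat_lit 3876822388) (nat_lit 177) (nat_lit 5) (nat_lit 182) (nat_lit 5) (nat_lit 178) (nat_lit 5) (nat_lit 452) (nat_lit 417) (nat_lit 331)) (XT.nd (nat_lit 78) (nat_lit 304) (nat_lit 0) (XT.lf (nat_lit 0) (nat_lit 2021804295) (nat_lit 304) (nat_lit 3414565871) (nat_lit 76) (nat_lit 19885586170) (nat_lit 173) (nat_lit 5) (nat_lit 177)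 (nat_lit 5) (nat_lit 174) (nat_lit 5) (nat_lit 453) (nat_lit 417) (nat_lit 330)) (XT.lf (nat_lit 0) (nat_lit 12364058845) (nat_lit 380) (nat_lit 3018216630) (nat_lit 76) (nat_lit 10711672332) (nat_lit 169) (nat_lit 5) (nat_lit 174) (nat_lit 5) (nat_lit 170) (nat_lit 5) (nat_lit 454) (nat_lit 417) (nat_lit 329)))) (XT.nd (nat_lit 156) (nat_lit 532) (nat_lit 0) (XT.nd (nat_lit 78) (nat_lit 304) (nat_lit 0) (XT.lf (nat_lit 0) (nat_lit 23535724540) (nat_lit 304) (nat_lit 2458866509) (nat_lit 76) (nat_lit 900579351) (nat_lit 166) (nat_lit 5) (nat_lit 170) (nat_lit 5) (nat_lit 167) (nat_lit 5) (nat_lit 455) (nat_lit 417) (nat_lit 328)) (XT.lf (nat_lit 0) (nat_lit 7801071531) (nat_lit 304) (nat_lit 1893765151) (nat_lit 76) (nat_lit 18026892145) (nat_lit 162) (nat_lit 5) (nat_lit 166) (nat_lit 5) (nat_lit 163) (nat_lit 5) (nat_lit 456) (nat_lit 417) (nat_lit 327))) (XT.nd (nat_lit 78) (nat_lit 304) (nat_lit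 0) (XT.lf (nat_lit 0) (nat_lit 19793905999) (nat_lit 304) (nat_lit 1195359985) (nat_lit 76) (nat_lit 7589038683) (nat_lit 159) (nat_lit 5) (nat_lit 163) (nat_lit 5) (nat_lit 160) (nat_lit 5) (nat_lit 457) (nat_lit 417) (nat_lit 326)) (XT.lf (nat_lit 0) (nat_lit 3232890289) (nat_lit 304) (nat_lit 375175390) (nat_lit 76) (nat_lit 25857375947) (nat_lit 155) (nat_lit 5) (nat_lit 159) (nat_lit 5) (nat_lit 156) (nat_lit 5) (nat_lit 458) (nat_lit 417) (nat_lit 325)))))) (XT.nd (nat_lit 468) (nat_lit 1368) (nat_lit 0) (XT.nd (nat_lit 234) (nat_lit 608) (nat_lit 0) (XT.nd (nat_lit 78) (nat_lit 456) (nat_lit 0) (XT.lf (nat_lit 0) (nat_lit 481306916) (nat_lit 228) (nat_lit 15629605192) (nat_lit 304) (nat_lit 14270168186) (nat_lit 149) (nat_lit 5) (nat_lit 152) (nat_lit 5) (nat_lit 153) (nat_lit 5) (nat_lit 459) (nat_lit 417) (nat_lit 324)) (XT.nd (nat_lit 78) (nat_lit 304) (nat_lit 0) (XT.lf (nat_lit 0) (nat_lit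 1550478448) (nat_lit 152) (nat_lit 28452967785) (nat_lit 228) (nat_lit 1327936695) (nat_lit 147) (nat_lit 5) (nat_lit 149) (nat_lit 5) (nat_lit 150) (nat_lit 5) (nat_lit 460) (nat_lit 417) (nat_lit 323)) (XT.lf (nat_lit 0) (nat_lit 2617748526) (nat_lit 228) (nat_lit 9878872804) (nat_lit 304) (nat_lit 19814809404) (nat_lit 143) (nat_lit 5) (nat_lit 146) (nat_lit 5) (nat_lit 147) (nat_lit 5) (nat_lit 461) (nat_lit 417) (nat_lit 322)))) (XT.nd (nat_lit 78) (nat_lit 456) (nat_lit 0) (XT.lf (nat_lit 0) (nat_lit 3861530243) (nat_lit 152) (nat_lit 23544111182) (nat_lit 228) (nat_lit 5921824454) (nat_lit 141) (nat_lit 5) (nat_lit 143) (nat_lit 5) (nat_lit 144) (nat_lit 5) (nat_lit 462) (nat_lit 417) (nat_lit 321)) (XT.nd (nat_lit 78) (nat_lit 152) (nat_lit 0) (XT.lf (nat_lit 0) (nat_lit 5213888056) (nat_lit 228) (nat_lit 3722968040) (nat_lit 304) (nat_lit 25441743530) (nat_lit 137) (nat_lit 5) (nat_lit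 140) (nat_lit 5) (nat_lit 141) (nat_lit 5) (nat_lit 463) (nat_lit 417) (nat_lit 320)) (XT.lf (nat_lit 0) (nat_lit 6641621847) (nat_lit 152) (nat_lit 18292035617) (nat_lit 228) (nat_lit 10531344148) (nat_lit 135) (nat_lit 5) (nat_lit 137) (nat_lit 5) (nat_lit 138) (nat_lit 5) (nat_lit 464) (nat_lit 417) (nat_lit 319))))) (XT.nd (nat_lit 234) (nat_lit 684) (nat_lit 0) (XT.nd (nat_lit 78) (nat_lit 380) (nat_lit 0) (XT.lf (nat_lit 0) (nat_lit 5455066644) (nat_lit 304) (nat_lit 28327333776) (nat_lit 76) (nat_lit 2808931013) (nat_lit 131) (nat_lit 5) (nat_lit 135) (nat_lit 5) (nat_lit 132) (nat_lit 5) (nat_lit 465) (nat_lit 417) (nat_lit 318)) (XT.nd (nat_lit 78) (nat_lit 228) (nat_lit 0) (XT.lf (nat_lit 0) (nat_lit 9912397409) (nat_lit 152) (nat_lit 12675071895) (nat_lit 228) (nat_lit 15166446300) (nat_lit 129) (nat_lit 5) (nat_lit 131) (nat_lit 5) (nat_lit 132) (nat_lit 5) (nat_lit 466) (nat_lit 417)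 (nat_lit 317)) (XT.lf (nat_lit 0) (nat_lit 2057773022) (nat_lit 228) (nat_lit 27183704870) (nat_lit 76) (nat_lit 9718074342) (nat_lit 126) (nat_lit 5) (nat_lit 129) (nat_lit 5) (nat_lit 127) (nat_lit 5) (nat_lit 467) (nat_lit 417) (nat_lit 316)))) (XT.nd (nat_lit 156) (nat_lit 380) (nat_lit 0) (XT.nd (nat_lit 78) (nat_lit 152) (nat_lit 0) (XT.lf (nat_lit 0) (nat_lit 13693222742) (nat_lit 152) (nat_lit 6671893135) (nat_lit 228) (nat_lit 19839782815) (nat_lit 124) (nat_lit 5) (nat_lit 126) (nat_lit 5) (nat_lit 127) (nat_lit 5) (nat_lit 468) (nat_lit 417) (nat_lit 315)) (XT.lf (nat_lit 0) (nat_lit 15790974150) (nat_lit 152) (nat_lit 24378959486) (nat_lit 228) (nat_lit 1325115817) (nat_lit 122) (nat_lit 5) (nat_lit 124) (nat_lit 5) (nat_lit 125) (nat_lit 5) (nat_lit 469) (nat_lit 417) (nat_lit 314))) (XT.nd (nat_lit 78) (nat_lit 152) (nat_lit 0) (XT.lf (nat_lit 0) (nat_lit 18000166222) (nat_lit 152)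 (nat_lit 261995097) (nat_lit 228) (nat_lit 24567311432) (nat_lit 119) (nat_lit 5) (nat_lit 121) (nat_lit 5) (nat_lit 122) (nat_lit 5) (nat_lit 470) (nat_lit 417) (nat_lit 313)) (XT.lf (nat_lit 0) (nat_lit 20315937182) (nat_lit 152) (nat_lit 19173872587) (nat_lit 228) (nat_lit 4719761649) (nat_lit 117) (nat_lit 5) (nat_lit 119) (nat_lit 5) (nat_lit 120) (nat_lit 5) (nat_lit 471) (nat_lit 417) (nat_lit 312))))))) (XT.nd (nat_lit 1014) (nat_lit 1748) (nat_lit 0) (XT.nd (nat_lit 468) (nat_lit 1064) (nat_lit 0) (XT.nd (nat_lit 234) (nat_lit 456) (nat_lit 0) (XT.nd (nat_lit 78) (nat_lit 380) (nat_lit 0) (XT.lf (nat_lit 0) (nat_lit 16334231962) (nat_lit 228) (nat_lit 22858496328) (nat_lit 76) (nat_lit 6445439327) (nat_lit 114) (nat_lit 5) (nat_lit 117) (nat_lit 5) (nat_lit 115) (nat_lit 5) (nat_lit 472) (nat_lit 417) (nat_lit 311)) (XT.nd (nat_lit 78) (nat_lit 228) (nat_lit 0) (XT.lf (nat_lit 0) (nat_lit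 25380061299) (nat_lit 152) (nat_lit 13635465801) (nat_lit 228) (nat_lit 8101098366) (nat_lit 112) (nat_lit 5) (nat_lit 114) (nat_lit 5) (nat_lit 115) (nat_lit 5) (nat_lit 473) (nat_lit 417) (nat_lit 310)) (XT.lf (nat_lit 0) (nat_lit 14513430003) (nat_lit 228) (nat_lit 20550753705) (nat_lit 76) (nat_lit 13581901716) (nat_lit 109) (nat_lit 5) (nat_lit 112) (nat_lit 5) (nat_lit 110) (nat_lit 5) (nat_lit 474) (nat_lit 417) (nat_lit 309)))) (XT.nd (nat_lit 78) (nat_lit 304) (nat_lit 0) (XT.lf (nat_lit 0) (nat_lit 30984968444) (nat_lit 152) (nat_lit 7755217377) (nat_lit 228) (nat_lit 11489955111) (nat_lit 107) (nat_lit 5) (nat_lit 109) (nat_lit 5) (nat_lit 110) (nat_lit 5) (nat_lit 475) (nat_lit 417) (nat_lit 308)) (XT.nd (nat_lit 78) (nat_lit 152) (nat_lit 0) (XT.lf (nat_lit 0) (nat_lit 12781021976) (nat_lit 152) (nat_lit 17920556247) (nat_lit 76) (nat_lit 21166202512) (nat_lit 105) (nat_lit 5) (nat_lit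 107) (nat_lit 5) (nat_lit 106) (nat_lit 5) (nat_lit 476) (nat_lit 417) (nat_lit 307)) (XT.lf (nat_lit 0) (nat_lit 37123358046) (nat_lit 152) (nat_lit 1528605296) (nat_lit 228) (nat_lit 14913205095) (nat_lit 103) (nat_lit 5) (nat_lit 105) (nat_lit 5) (nat_lit 106) (nat_lit 5) (nat_lit 477) (nat_lit 417) (nat_lit 306))))) (XT.nd (nat_lit 234) (nat_lit 608) (nat_lit 0) (XT.nd (nat_lit 78) (nat_lit 304) (nat_lit 0) (XT.lf (nat_lit 0) (nat_lit 11114747623) (nat_lit 152) (nat_lit 14996090543) (nat_lit 76) (nat_lit 29208068141) (nat_lit 101) (nat_lit 5) (nat_lit 103) (nat_lit 5) (nat_lit 102) (nat_lit 5) (nat_lit 478) (nat_lit 417) (nat_lit 305)) (XT.nd (nat_lit 78) (nat_lit 152) (nat_lit 0) (XT.lf (nat_lit 0) (nat_lit 38781385527) (nat_lit 228) (nat_lit 13409865712) (nat_lit 76) (nat_lit 4945278814) (nat_lit 99) (nat_lit 5) (nat_lit 102) (nat_lit 5) (nat_lit 100) (nat_lit 4) (nat_lit 479) (nat_lit 417)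 (nat_lit 304)) (XT.lf (nat_lit 0) (nat_lit 9484926853) (nat_lit 152) (nat_lit 11819466451) (nat_lit 76) (nat_lit 37712006222) (nat_lit 97) (nat_lit 5) (nat_lit 99) (nat_lit 5) (nat_lit 98) (nat_lit 5) (nat_lit 480) (nat_lit 417) (nat_lit 303)))) (XT.nd (nat_lit 156) (nat_lit 304) (nat_lit 0) (XT.nd (nat_lit 78) (nat_lit 152) (nat_lit 0) (XT.lf (nat_lit 0) (nat_lit 39072371984) (nat_lit 228) (nat_lit 10169262668) (nat_lit 76) (nat_lit 11721126414) (nat_lit 95) (nat_lit 5) (nat_lit 98) (nat_lit 5) (nat_lit 96) (nat_lit 4) (nat_lit 481) (nat_lit 417) (nat_lit 302)) (XT.lf (nat_lit 0) (nat_lit 7852819172) (nat_lit 152) (nat_lit 8449982812) (nat_lit 76) (nat_lit 46675804177) (nat_lit 93) (nat_lit 5) (nat_lit 95) (nat_lit 5) (nat_lit 94) (nat_lit 5) (nat_lit 482) (nat_lit 417) (nat_lit 301))) (XT.nd (nat_lit 78) (nat_lit 152) (nat_lit 0) (XT.lf (nat_lit 0) (nat_lit 39475212096) (nat_lit 228) (nat_lit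 6774757907) (nat_lit 76) (nat_lit 18813428967) (nat_lit 91) (nat_lit 5) (nat_lit 94) (nat_lit 5) (nat_lit 92) (nat_lit 4) (nat_lit 483) (nat_lit 417) (nat_lit 300)) (XT.lf (nat_lit 0) (nat_lit 6168669585) (nat_lit 152) (nat_lit 4968022591) (nat_lit 76) (nat_lit 56088726610) (nat_lit 89) (nat_lit 5) (nat_lit 91) (nat_lit 5) (nat_lit 90) (nat_lit 5) (nat_lit 484) (nat_lit 417) (nat_lit 299)))))) (XT.nd (nat_lit 546) (nat_lit 684) (nat_lit 0) (XT.nd (nat_lit 234) (nat_lit 532) (nat_lit 0) (XT.nd (nat_lit 78) (nat_lit 380) (nat_lit 0) (XT.lf (nat_lit 0) (nat_lit 39943396872) (nat_lit 228) (nat_lit 3319113757) (nat_lit 76) (nat_lit 26196651661) (nat_lit 87) (nat_lit 5) (nat_lit 90) (nat_lit 5) (nat_lit 88) (nat_lit 4) (nat_lit 485) (nat_lit 417) (nat_lit 298)) (XT.nd (nat_lit 78) (nat_lit 228) (nat_lit 0) (XT.lf (nat_lit 0) (nat_lit 4369385109) (nat_lit 152) (nat_lit 1479690631) (nat_lit 76) (nat_lit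 65929356160) (nat_lit 85) (nat_lit 5) (nat_lit 87) (nat_lit 5) (nat_lit 86) (nat_lit 5) (nat_lit 486) (nat_lit 417) (nat_lit 297)) (XT.lf (nat_lit 0) (nat_lit 78060733) (nat_lit 76) (nat_lit 40339127062) (nat_lit 152) (nat_lit 33755345426) (nat_lit 82) (nat_lit 5) (nat_lit 83) (nat_lit 5) (nat_lit 84) (nat_lit 4) (nat_lit 487) (nat_lit 417) (nat_lit 296)))) (XT.nd (nat_lit 156) (nat_lit 228) (nat_lit 0) (XT.nd (nat_lit 78) (nat_lit 76) (nat_lit 0) (XT.lf (nat_lit 0) (nat_lit 1915042436) (nat_lit 152) (nat_lit 479142431) (nat_lit 228) (nat_lit 74266378994) (nat_lit 79) (nat_lit 5) (nat_lit 81) (nat_lit 5) (nat_lit 82) (nat_lit 5) (nat_lit 488) (nat_lit 417) (nat_lit 295)) (XT.lf (nat_lit 0) (nat_lit 3321499378) (nat_lit 76) (nat_lit 37527337488) (nat_lit 152) (nat_lit 38378260161) (nat_lit 78) (nat_lit 5) (nat_lit 79) (nat_lit 5) (nat_lit 80) (nat_lit 4) (nat_lit 489) (nat_lit 417) (nat_lit 294)))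 (XT.nd (nat_lit 78) (nat_lit 76) (nat_lit 0) (XT.lf (nat_lit 0) (nat_lit 184610171) (nat_lit 152) (nat_lit 76917520404) (nat_lit 76) (nat_lit 4794023889) (nat_lit 76) (nat_lit 5) (nat_lit 78) (nat_lit 5) (nat_lit 77) (nat_lit 4) (nat_lit 490) (nat_lit 417) (nat_lit 293)) (XT.lf (nat_lit 0) (nat_lit 6144206884) (nat_lit 76) (nat_lit 34961795543) (nat_lit 152) (nat_lit 43544539923) (nat_lit 75) (nat_lit 5) (nat_lit 76) (nat_lit 5) (nat_lit 77) (nat_lit 4) (nat_lit 491) (nat_lit 417) (nat_lit 292))))) (XT.nd (nat_lit 234) (nat_lit 380) (nat_lit 0) (XT.nd (nat_lit 78) (nat_lit 228) (nat_lit 0) (XT.lf (nat_lit 0) (nat_lit 7476760835) (nat_lit 76) (nat_lit 77547451551) (nat_lit 76) (nat_lit 2489914852) (nat_lit 74) (nat_lit 4) (nat_lit 75) (nat_lit 5) (nat_lit 75) (nat_lit 4) (nat_lit 492) (nat_lit 417) (nat_lit 291)) (XT.nd (nat_lit 78) (nat_lit 76) (nat_lit 0) (XT.lf (nat_lit 0) (nat_lit 8294298669)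 (nat_lit 76) (nat_lit 32769492363) (nat_lit 152) (nat_lit 49408218927) (nat_lit 72) (nat_lit 5) (nat_lit 73) (nat_lit 5) (nat_lit 74) (nat_lit 4) (nat_lit 493) (nat_lit 417) (nat_lit 290)) (XT.lf (nat_lit 0) (nat_lit 9151559330) (nat_lit 76) (nat_lit 78639983792) (nat_lit 76) (nat_lit 5754068476) (nat_lit 71) (nat_lit 4) (nat_lit 72) (nat_lit 5) (nat_lit 72) (nat_lit 4) (nat_lit 494) (nat_lit 417) (nat_lit 289)))) (XT.nd (nat_lit 56472) (nat_lit 0) (nat_lit 21128) (XT.nd (nat_lit 156) (nat_lit 228) (nat_lit 0) (XT.lf (nat_lit 0) (nat_lit 9458749657) (nat_lit 76) (nat_lit 31108447797) (nat_lit 152) (nat_lit 56156139870) (nat_lit 69) (nat_lit 5) (nat_lit 70) (nat_lit 5) (nat_lit 71) (nat_lit 4) (nat_lit 495) (nat_lit 417) (nat_lit 288)) (XT.lf (nat_lit 0) (nat_lit 9251341219) (nat_lit 76) (nat_lit 30173827824) (nat_lit 152) (nat_lit 64014193688) (nat_lit 66) (nat_lit 5) (nat_lit 67) (nat_lit 5) (nat_lit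 68) (nat_lit 4) (nat_lit 497) (nat_lit 417) (nat_lit 286))) (XT.nd (nat_lit 78) (nat_lit 0) (nat_lit 0) (XT.lf (nat_lit 0) (nat_lit 76466204) (nat_lit 0) (nat_lit 76466204) (nat_lit 1140) (nat_lit 4962881374) (nat_lit 344) (nat_lit 5) (nat_lit 344) (nat_lit 3) (nat_lit 359) (nat_lit 3) (nat_lit 418) (nat_lit 418) (nat_lit 364)) (XT.lf (nat_lit 0) (nat_lit 1497434176) (nat_lit 1140) (nat_lit 1653580855) (nat_lit 1216) (nat_lit 7300832138) (nat_lit 344) (nat_lit 5) (nat_lit 359) (nat_lit 3) (nat_lit 360) (nat_lit 5) (nat_lit 419) (nat_lit 418) (nat_lit 363))))))))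
noncomputable def xc77 : XT := (XT.nd (nat_lit 2028) (nat_lit 7372) (nat_lit 0) (XT.nd (nat_lit 1014) (nat_lit 5852) (nat_lit 0) (XT.nd (nat_lit 468) (nat_lit 4104) (nat_lit 0) (XT.nd (nat_lit 234) (nat_lit 0) (nat_lit 152) (XT.nd (nat_lit 78) (nat_lit 0) (nat_lit 76) (XT.lf (nat_lit 0) (nat_lit 2793093009) (nat_lit 1140) (nat_lit 3431233301) (nat_lit 1216) (nat_lit 4457419531) (nat_lit 345) (nat_lit 5) (nat_lit 360) (nat_lit 5) (nat_lit 361) (nat_lit 5) (nat_lit 420) (nat_lit 418) (nat_lit 362)) (XT.nd (nat_lit 78) (nat_lit 0) (nat_lit 0) (XT.lf (nat_lit 0) (nat_lit 4205300225) (nat_lit 1140) (nat_lit 5184366323) (nat_lit 1216) (nat_lit 1531923192) (nat_lit 346) (nat_lit 5) (nat_lit 361) (nat_lit 5) (nat_lit 362) (nat_lit 5) (nat_lit 421) (nat_lit 418) (nat_lit 361)) (XT.lf (nat_lit 76) (nat_lit 4242656992) (nat_lit 0) (nat_lit 1520296231) (nat_lit 1216) (nat_lit 5408230647) (nat_lit 347) (nat_lit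 5) (nat_lit 346) (nat_lit 5) (nat_lit 362) (nat_lit 5) (nat_lit 422) (nat_lit 418) (nat_lit 360)))) (XT.nd (nat_lit 78) (nat_lit 0) (nat_lit 76) (XT.lf (nat_lit 76) (nat_lit 2765013873) (nat_lit 0) (nat_lit 4717229732) (nat_lit 1216) (nat_lit 3948504415) (nat_lit 348) (nat_lit 5) (nat_lit 347) (nat_lit 5) (nat_lit 363) (nat_lit 5) (nat_lit 423) (nat_lit 418) (nat_lit 359)) (XT.nd (nat_lit 78) (nat_lit 0) (nat_lit 76) (XT.lf (nat_lit 76) (nat_lit 1319793538) (nat_lit 0) (nat_lit 8043650995) (nat_lit 1216) (nat_lit 2337570275) (nat_lit 349) (nat_lit 5) (nat_lit 348) (nat_lit 5) (nat_lit 364) (nat_lit 5) (nat_lit 424) (nat_lit 418) (nat_lit 358)) (XT.lf (nat_lit 0) (nat_lit 11423246579) (nat_lit 1140) (nat_lit 90739622) (nat_lit 1216) (nat_lit 468275180) (nat_lit 349) (nat_lit 5) (nat_lit 364) (nat_lit 5) (nat_lit 365) (nat_lit 5) (nat_lit 425) (nat_lit 418) (nat_lit 357))))) (XT.nd (nat_lit 234) (nat_lit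 3192) (nat_lit 0) (XT.nd (nat_lit 78) (nat_lit 0) (nat_lit 76) (XT.lf (nat_lit 0) (nat_lit 1415694717) (nat_lit 1216) (nat_lit 1484304900) (nat_lit 1292) (nat_lit 9373213033) (nat_lit 333) (nat_lit 5) (nat_lit 349) (nat_lit 5) (nat_lit 350) (nat_lit 5) (nat_lit 426) (nat_lit 418) (nat_lit 356)) (XT.nd (nat_lit 78) (nat_lit 0) (nat_lit 76) (XT.lf (nat_lit 0) (nat_lit 3580902608) (nat_lit 1216) (nat_lit 2857030318) (nat_lit 1292) (nat_lit 6137515146) (nat_lit 334) (nat_lit 5) (nat_lit 350) (nat_lit 5) (nat_lit 351) (nat_lit 5) (nat_lit 427) (nat_lit 418) (nat_lit 355)) (XT.lf (nat_lit 0) (nat_lit 5959957238) (nat_lit 1216) (nat_lit 4197520377) (nat_lit 76) (nat_lit 2732152306) (nat_lit 335) (nat_lit 5) (nat_lit 351) (nat_lit 5) (nat_lit 336) (nat_lit 5) (nat_lit 428) (nat_lit 418) (nat_lit 354)))) (XT.nd (nat_lit 156) (nat_lit 1292) (nat_lit 0) (XT.nd (nat_lit 78) (nat_lit 836) (nat_lit 0) (XT.lf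 (nat_lit 0) (nat_lit 7703498814) (nat_lit 1216) (nat_lit 875539138) (nat_lit 1292) (nat_lit 4636852849) (nat_lit 319) (nat_lit 5) (nat_lit 335) (nat_lit 5) (nat_lit 336) (nat_lit 5) (nat_lit 429) (nat_lit 418) (nat_lit 353)) (XT.lf (nat_lit 0) (nat_lit 6734259912) (nat_lit 836) (nat_lit 4742731816) (nat_lit 912) (nat_lit 2077037464) (nat_lit 308) (nat_lit 5) (nat_lit 319) (nat_lit 5) (nat_lit 320) (nat_lit 5) (nat_lit 430) (nat_lit 418) (nat_lit 352))) (XT.nd (nat_lit 78) (nat_lit 608) (nat_lit 0) (XT.lf (nat_lit 0) (nat_lit 726756300) (nat_lit 684) (nat_lit 8097509606) (nat_lit 76) (nat_lit 5080797170) (nat_lit 299) (nat_lit 5) (nat_lit 308) (nat_lit 5) (nat_lit 300) (nat_lit 5) (nat_lit 431) (nat_lit 418) (nat_lit 351)) (XT.lf (nat_lit 0) (nat_lit 3762904320) (nat_lit 684) (nat_lit 9358219758) (nat_lit 76) (nat_lit 1147855803) (nat_lit 291) (nat_lit 5) (nat_lit 300) (nat_lit 5) (nat_lit 292) (nat_lit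 5) (nat_lit 432) (nat_lit 418) (nat_lit 350)))))) (XT.nd (nat_lit 468) (nat_lit 2660) (nat_lit 0) (XT.nd (nat_lit 234) (nat_lit 1520) (nat_lit 0) (XT.nd (nat_lit 78) (nat_lit 1140) (nat_lit 0) (XT.lf (nat_lit 0) (nat_lit 4037523618) (nat_lit 532) (nat_lit 3084428441) (nat_lit 608) (nat_lit 7524009405) (nat_lit 284) (nat_lit 5) (nat_lit 291) (nat_lit 5) (nat_lit 292) (nat_lit 5) (nat_lit 433) (nat_lit 418) (nat_lit 349)) (XT.nd (nat_lit 78) (nat_lit 532) (nat_lit 0) (XT.lf (nat_lit 0) (nat_lit 3208283679) (nat_lit 608) (nat_lit 7601039712) (nat_lit 684) (nat_lit 4227659229) (nat_lit 276) (nat_lit 5) (nat_lit 284) (nat_lit 5) (nat_lit 285) (nat_lit 5) (nat_lit 434) (nat_lit 418) (nat_lit 348)) (XT.lf (nat_lit 0) (nat_lit 2439007988) (nat_lit 532) (nat_lit 12397240581) (nat_lit 608) (nat_lit 606652254) (nat_lit 269) (nat_lit 5) (nat_lit 276) (nat_lit 5) (nat_lit 277) (nat_lit 5) (nat_lit 435) (nat_lit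 418) (nat_lit 347)))) (XT.nd (nat_lit 78) (nat_lit 912) (nat_lit 0) (XT.lf (nat_lit 0) (nat_lit 1685160791) (nat_lit 532) (nat_lit 1626894619) (nat_lit 608) (nat_lit 12550769348) (nat_lit 261) (nat_lit 5) (nat_lit 268) (nat_lit 5) (nat_lit 269) (nat_lit 5) (nat_lit 436) (nat_lit 418) (nat_lit 346)) (XT.nd (nat_lit 78) (nat_lit 456) (nat_lit 0) (XT.lf (nat_lit 0) (nat_lit 958101025) (nat_lit 456) (nat_lit 6658083987) (nat_lit 532) (nat_lit 8681320057) (nat_lit 255) (nat_lit 5) (nat_lit 261) (nat_lit 5) (nat_lit 262) (nat_lit 5) (nat_lit 437) (nat_lit 418) (nat_lit 345)) (XT.lf (nat_lit 0) (nat_lit 299958463) (nat_lit 456) (nat_lit 12012814184) (nat_lit 532) (nat_lit 4435830504) (nat_lit 249) (nat_lit 5) (nat_lit 255) (nat_lit 5) (nat_lit 256) (nat_lit 5) (nat_lit 438) (nat_lit 418) (nat_lit 344))))) (XT.nd (nat_lit 234) (nat_lit 1672) (nat_lit 0) (XT.nd (nat_lit 78) (nat_lit 912) (nat_lit 0) (XT.lf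 (nat_lit 0) (nat_lit 214811521) (nat_lit 532) (nat_lit 284727146) (nat_lit 76) (nat_lit 16716913165) (nat_lit 248) (nat_lit 5) (nat_lit 255) (nat_lit 5) (nat_lit 249) (nat_lit 5) (nat_lit 439) (nat_lit 418) (nat_lit 343)) (XT.nd (nat_lit 78) (nat_lit 456) (nat_lit 0) (XT.lf (nat_lit 0) (nat_lit 5251509583) (nat_lit 532) (nat_lit 880904810) (nat_lit 76) (nat_lit 11566604214) (nat_lit 242) (nat_lit 5) (nat_lit 249) (nat_lit 5) (nat_lit 243) (nat_lit 5) (nat_lit 440) (nat_lit 418) (nat_lit 342)) (XT.lf (nat_lit 0) (nat_lit 10738890796) (nat_lit 532) (nat_lit 1398495290) (nat_lit 76) (nat_lit 6062363279) (nat_lit 236) (nat_lit 5) (nat_lit 243) (nat_lit 5) (nat_lit 237) (nat_lit 5) (nat_lit 441) (nat_lit 418) (nat_lit 341)))) (XT.nd (nat_lit 156) (nat_lit 760) (nat_lit 0) (XT.nd (nat_lit 78) (nat_lit 532) (nat_lit 0) (XT.lf (nat_lit 0) (nat_lit 16706204184) (nat_lit 456) (nat_lit 1830555318) (nat_lit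 76) (nat_lit 182591302) (nat_lit 231) (nat_lit 5) (nat_lit 237) (nat_lit 5) (nat_lit 232) (nat_lit 5) (nat_lit 442) (nat_lit 418) (nat_lit 340)) (XT.lf (nat_lit 0) (nat_lit 3909369335) (nat_lit 532) (nat_lit 2267664377) (nat_lit 76) (nat_lit 13078587927) (nat_lit 224) (nat_lit 5) (nat_lit 231) (nat_lit 5) (nat_lit 225) (nat_lit 5) (nat_lit 443) (nat_lit 418) (nat_lit 339))) (XT.nd (nat_lit 78) (nat_lit 380) (nat_lit 0) (XT.lf (nat_lit 0) (nat_lit 10310977578) (nat_lit 456) (nat_lit 2634005161) (nat_lit 76) (nat_lit 6866388186) (nat_lit 219) (nat_lit 5) (nat_lit 225) (nat_lit 5) (nat_lit 220) (nat_lit 5) (nat_lit 444) (nat_lit 418) (nat_lit 338)) (XT.lf (nat_lit 0) (nat_lit 17261907158) (nat_lit 456) (nat_lit 2900280592) (nat_lit 76) (nat_lit 225843566) (nat_lit 214) (nat_lit 5) (nat_lit 220) (nat_lit 5) (nat_lit 215) (nat_lit 5) (nat_lit 445) (nat_lit 418) (nat_lit 337))))))) (XT.nd (nat_lit 1014)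 (nat_lit 3192) (nat_lit 0) (XT.nd (nat_lit 468) (nat_lit 2052) (nat_lit 0) (XT.nd (nat_lit 234) (nat_lit 988) (nat_lit 0) (XT.nd (nat_lit 78) (nat_lit 684) (nat_lit 0) (XT.lf (nat_lit 0) (nat_lit 3803812160) (nat_lit 456) (nat_lit 3162368903) (nat_lit 76) (nat_lit 14017119187) (nat_lit 208) (nat_lit 5) (nat_lit 214) (nat_lit 5) (nat_lit 209) (nat_lit 5) (nat_lit 446) (nat_lit 418) (nat_lit 336)) (XT.nd (nat_lit 78) (nat_lit 304) (nat_lit 0) (XT.lf (nat_lit 0) (nat_lit 11265439688) (nat_lit 456) (nat_lit 3349036318) (nat_lit 76) (nat_lit 6985433416) (nat_lit 203) (nat_lit 5) (nat_lit 209) (nat_lit 5) (nat_lit 204) (nat_lit 5) (nat_lit 447) (nat_lit 418) (nat_lit 335)) (XT.lf (nat_lit 0) (nat_lit 18815766147) (nat_lit 304) (nat_lit 543718223) (nat_lit 380) (nat_lit 2880085339) (nat_lit 199) (nat_lit 5) (nat_lit 203) (nat_lit 5) (nat_lit 204) (nat_lit 5) (nat_lit 448) (nat_lit 418) (nat_lit 334))))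 (XT.nd (nat_lit 78) (nat_lit 608) (nat_lit 0) (XT.lf (nat_lit 0) (nat_lit 5188460360) (nat_lit 380) (nat_lit 3495757470) (nat_lit 76) (nat_lit 14215429958) (nat_lit 194) (nat_lit 5) (nat_lit 199) (nat_lit 5) (nat_lit 195) (nat_lit 5) (nat_lit 449) (nat_lit 418) (nat_lit 333)) (XT.nd (nat_lit 78) (nat_lit 304) (nat_lit 0) (XT.lf (nat_lit 0) (nat_lit 13874252671) (nat_lit 380) (nat_lit 3469341715) (nat_lit 76) (nat_lit 6240079038) (nat_lit 190) (nat_lit 5) (nat_lit 195) (nat_lit 5) (nat_lit 191) (nat_lit 5) (nat_lit 450) (nat_lit 418) (nat_lit 332)) (XT.lf (nat_lit 0) (nat_lit 20964319637) (nat_lit 304) (nat_lit 2332834662) (nat_lit 380) (nat_lit 995662065) (nat_lit 186) (nat_lit 5) (nat_lit 190) (nat_lit 5) (nat_lit 191) (nat_lit 5) (nat_lit 451) (nat_lit 418) (nat_lit 331))))) (XT.nd (nat_lit 234) (nat_lit 1064) (nat_lit 0) (XT.nd (nat_lit 78) (nat_lit 608) (nat_lit 0) (XT.lf (nat_lit 0) (nat_lit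 8352004185) (nat_lit 380) (nat_lit 3188049857) (nat_lit 76) (nat_lit 13484291721) (nat_lit 181) (nat_lit 5) (nat_lit 186) (nat_lit 5) (nat_lit 182) (nat_lit 5) (nat_lit 452) (nat_lit 418) (nat_lit 330)) (XT.nd (nat_lit 78) (nat_lit 304) (nat_lit 0) (XT.lf (nat_lit 0) (nat_lit 18446982358) (nat_lit 380) (nat_lit 2910067878) (nat_lit 76) (nat_lit 4426090580) (nat_lit 177) (nat_lit 5) (nat_lit 182) (nat_lit 5) (nat_lit 178) (nat_lit 5) (nat_lit 453) (nat_lit 418) (nat_lit 329)) (XT.lf (nat_lit 0) (nat_lit 2782108785) (nat_lit 304) (nat_lit 2551512180) (nat_lit 76) (nat_lit 21234641420) (nat_lit 173) (nat_lit 5) (nat_lit 177) (nat_lit 5) (nat_lit 174) (nat_lit 5) (nat_lit 454) (nat_lit 418) (nat_lit 328)))) (XT.nd (nat_lit 156) (nat_lit 532) (nat_lit 0) (XT.nd (nat_lit 78) (nat_lit 228) (nat_lit 0) (XT.lf (nat_lit 0) (nat_lit 13623262087) (nat_lit 380) (nat_lit 2149364441) (nat_lit 76) (nat_lit 11606774053)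 (nat_lit 169) (nat_lit 5) (nat_lit 174) (nat_lit 5) (nat_lit 170) (nat_lit 5) (nat_lit 455) (nat_lit 418) (nat_lit 327)) (XT.lf (nat_lit 0) (nat_lit 25336070635) (nat_lit 304) (nat_lit 1576226057) (nat_lit 76) (nat_lit 1308911519) (nat_lit 166) (nat_lit 5) (nat_lit 170) (nat_lit 5) (nat_lit 167) (nat_lit 5) (nat_lit 456) (nat_lit 418) (nat_lit 326))) (XT.nd (nat_lit 78) (nat_lit 228) (nat_lit 0) (XT.lf (nat_lit 0) (nat_lit 8800366674) (nat_lit 304) (nat_lit 999556522) (nat_lit 76) (nat_lit 19289601960) (nat_lit 162) (nat_lit 5) (nat_lit 166) (nat_lit 5) (nat_lit 163) (nat_lit 5) (nat_lit 457) (nat_lit 418) (nat_lit 325)) (XT.lf (nat_lit 0) (nat_lit 21376631875) (nat_lit 304) (nat_lit 280448588) (nat_lit 76) (nat_lit 8332336269) (nat_lit 159) (nat_lit 5) (nat_lit 163) (nat_lit 5) (nat_lit 160) (nat_lit 5) (nat_lit 458) (nat_lit 418) (nat_lit 324)))))) (XT.nd (nat_lit 546) (nat_lit 1368) (nat_lit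 0) (XT.nd (nat_lit 234) (nat_lit 912) (nat_lit 0) (XT.nd (nat_lit 78) (nat_lit 380) (nat_lit 0) (XT.lf (nat_lit 0) (nat_lit 575584178) (nat_lit 228) (nat_lit 3404068700) (nat_lit 304) (nat_lit 26941495958) (nat_lit 152) (nat_lit 5) (nat_lit 155) (nat_lit 5) (nat_lit 156) (nat_lit 5) (nat_lit 459) (nat_lit 418) (nat_lit 323)) (XT.nd (nat_lit 78) (nat_lit 152) (nat_lit 0) (XT.lf (nat_lit 0) (nat_lit 1468262485) (nat_lit 228) (nat_lit 16021940170) (nat_lit 304) (nat_lit 14392708516) (nat_lit 149) (nat_lit 5) (nat_lit 152) (nat_lit 5) (nat_lit 153) (nat_lit 5) (nat_lit 460) (nat_lit 418) (nat_lit 322)) (XT.lf (nat_lit 0) (nat_lit 2576387502) (nat_lit 152) (nat_lit 29486333828) (nat_lit 228) (nat_lit 818447385) (nat_lit 147) (nat_lit 5) (nat_lit 149) (nat_lit 5) (nat_lit 150) (nat_lit 5) (nat_lit 461) (nat_lit 418) (nat_lit 321)))) (XT.nd (nat_lit 156) (nat_lit 456) (nat_lit 0) (XT.nd (nat_lit 78) (nat_lit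 152) (nat_lit 0) (XT.lf (nat_lit 0) (nat_lit 3680760993) (nat_lit 228) (nat_lit 9987412065) (nat_lit 304) (nat_lit 20242418091) (nat_lit 143) (nat_lit 5) (nat_lit 146) (nat_lit 5) (nat_lit 147) (nat_lit 5) (nat_lit 462) (nat_lit 418) (nat_lit 320)) (XT.lf (nat_lit 0) (nat_lit 4972354772) (nat_lit 152) (nat_lit 24336605352) (nat_lit 228) (nat_lit 5668878903) (nat_lit 141) (nat_lit 5) (nat_lit 143) (nat_lit 5) (nat_lit 144) (nat_lit 5) (nat_lit 463) (nat_lit 418) (nat_lit 319))) (XT.nd (nat_lit 78) (nat_lit 152) (nat_lit 0) (XT.lf (nat_lit 0) (nat_lit 6376438525) (nat_lit 228) (nat_lit 3528618225) (nat_lit 304) (nat_lit 26176823756) (nat_lit 137) (nat_lit 5) (nat_lit 140) (nat_lit 5) (nat_lit 141) (nat_lit 5) (nat_lit 464) (nat_lit 418) (nat_lit 318)) (XT.lf (nat_lit 0) (nat_lit 7861355268) (nat_lit 152) (nat_lit 18827532421) (nat_lit 228) (nat_lit 10534099614) (nat_lit 135) (nat_lit 5) (nat_lit 137)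 (nat_lit 5) (nat_lit 138) (nat_lit 5) (nat_lit 465) (nat_lit 418) (nat_lit 317))))) (XT.nd (nat_lit 234) (nat_lit 684) (nat_lit 0) (XT.nd (nat_lit 78) (nat_lit 380) (nat_lit 0) (XT.lf (nat_lit 0) (nat_lit 6228938305) (nat_lit 304) (nat_lit 28860224797) (nat_lit 76) (nat_lit 3316693984) (nat_lit 131) (nat_lit 5) (nat_lit 135) (nat_lit 5) (nat_lit 132) (nat_lit 5) (nat_lit 466) (nat_lit 418) (nat_lit 316)) (XT.nd (nat_lit 78) (nat_lit 228) (nat_lit 0) (XT.lf (nat_lit 0) (nat_lit 11266168294) (nat_lit 152) (nat_lit 12936179100) (nat_lit 228) (nat_lit 15424691835) (nat_lit 129) (nat_lit 5) (nat_lit 131) (nat_lit 5) (nat_lit 132) (nat_lit 5) (nat_lit 467) (nat_lit 418) (nat_lit 315)) (XT.lf (nat_lit 0) (nat_lit 2639272539) (nat_lit 228) (nat_lit 27689131019) (nat_lit 76) (nat_lit 10564761473) (nat_lit 126) (nat_lit 5) (nat_lit 129) (nat_lit 5) (nat_lit 127) (nat_lit 5) (nat_lit 468) (nat_lit 418) (nat_lit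 314)))) (XT.nd (nat_lit 156) (nat_lit 380) (nat_lit 0) (XT.nd (nat_lit 78) (nat_lit 152) (nat_lit 0) (XT.lf (nat_lit 0) (nat_lit 15207170140) (nat_lit 152) (nat_lit 6639993011) (nat_lit 228) (nat_lit 20354060553) (nat_lit 124) (nat_lit 5) (nat_lit 126) (nat_lit 5) (nat_lit 127) (nat_lit 5) (nat_lit 469) (nat_lit 418) (nat_lit 313)) (XT.lf (nat_lit 0) (nat_lit 17396146056) (nat_lit 152) (nat_lit 25235176758) (nat_lit 228) (nat_lit 924886451) (nat_lit 122) (nat_lit 5) (nat_lit 124) (nat_lit 5) (nat_lit 125) (nat_lit 5) (nat_lit 470) (nat_lit 418) (nat_lit 312))) (XT.nd (nat_lit 78) (nat_lit 152) (nat_lit 0) (XT.lf (nat_lit 0) (nat_lit 19619367100) (nat_lit 228) (nat_lit 25257171280) (nat_lit 76) (nat_lit 81079637) (nat_lit 119) (nat_lit 5) (nat_lit 122) (nat_lit 5) (nat_lit 120) (nat_lit 5) (nat_lit 471) (nat_lit 418) (nat_lit 311)) (XT.lf (nat_lit 0) (nat_lit 22119444341) (nat_lit 152) (nat_lit 19777896530)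 (nat_lit 228) (nat_lit 4509712717) (nat_lit 117) (nat_lit 5) (nat_lit 119) (nat_lit 5) (nat_lit 120) (nat_lit 5) (nat_lit 472) (nat_lit 418) (nat_lit 310))))))))
noncomputable def xc78 : XT := (XT.nd (nat_lit 58422) (nat_lit 0) (nat_lit 10640) (XT.nd (nat_lit 1014) (nat_lit 1596) (nat_lit 0) (XT.nd (nat_lit 468) (nat_lit 1064) (nat_lit 0) (XT.nd (nat_lit 234) (nat_lit 456) (nat_lit 0) (XT.nd (nat_lit 78) (nat_lit 380) (nat_lit 0) (XT.lf (nat_lit 0) (nat_lit 17578248623) (nat_lit 228) (nat_lit 23218469115) (nat_lit 76) (nat_lit 7110534314) (nat_lit 114) (nat_lit 5) (nat_lit 117) (nat_lit 5) (nat_lit 115) (nat_lit 5) (nat_lit 473) (nat_lit 418) (nat_lit 309)) (XT.nd (nat_lit 78) (nat_lit 228) (nat_lit 0) (XT.lf (nat_lit 0) (nat_lit 27409573230) (nat_lit 152) (nat_lit 13970997905) (nat_lit 228) (nat_lit 8079453011) (nat_lit 112) (nat_lit 5) (nat_lit 114) (nat_lit 5) (nat_lit 115) (nat_lit 5) (nat_lit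 474) (nat_lit 418) (nat_lit 308)) (XT.lf (nat_lit 0) (nat_lit 15648011010) (nat_lit 228) (nat_lit 20822596699) (nat_lit 76) (nat_lit 14595510481) (nat_lit 109) (nat_lit 5) (nat_lit 112) (nat_lit 5) (nat_lit 110) (nat_lit 5) (nat_lit 475) (nat_lit 418) (nat_lit 307)))) (XT.nd (nat_lit 78) (nat_lit 304) (nat_lit 0) (XT.lf (nat_lit 0) (nat_lit 33268249721) (nat_lit 152) (nat_lit 7805438990) (nat_lit 228) (nat_lit 11656060441) (nat_lit 107) (nat_lit 5) (nat_lit 109) (nat_lit 5) (nat_lit 110) (nat_lit 5) (nat_lit 476) (nat_lit 418) (nat_lit 306)) (XT.nd (nat_lit 78) (nat_lit 152) (nat_lit 0) (XT.lf (nat_lit 0) (nat_lit 13811552421) (nat_lit 152) (nat_lit 18087391064) (nat_lit 76) (nat_lit 22550478190) (nat_lit 105) (nat_lit 5) (nat_lit 107) (nat_lit 5) (nat_lit 106) (nat_lit 5) (nat_lit 477) (nat_lit 418) (nat_lit 305)) (XT.lf (nat_lit 0) (nat_lit 39687816772) (nat_lit 152) (nat_lit 1276390734) (nat_lit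 228) (nat_lit 15267826433) (nat_lit 103) (nat_lit 5) (nat_lit 105) (nat_lit 5) (nat_lit 106) (nat_lit 5) (nat_lit 478) (nat_lit 418) (nat_lit 304))))) (XT.nd (nat_lit 234) (nat_lit 608) (nat_lit 0) (XT.nd (nat_lit 78) (nat_lit 304) (nat_lit 0) (XT.lf (nat_lit 0) (nat_lit 12045430772) (nat_lit 152) (nat_lit 15042444068) (nat_lit 76) (nat_lit 30985725137) (nat_lit 101) (nat_lit 5) (nat_lit 103) (nat_lit 5) (nat_lit 102) (nat_lit 5) (nat_lit 479) (nat_lit 418) (nat_lit 303)) (XT.nd (nat_lit 78) (nat_lit 152) (nat_lit 0) (XT.lf (nat_lit 0) (nat_lit 41087186634) (nat_lit 228) (nat_lit 13389231833) (nat_lit 76) (nat_lit 5505933017) (nat_lit 99) (nat_lit 5) (nat_lit 102) (nat_lit 5) (nat_lit 100) (nat_lit 4) (nat_lit 480) (nat_lit 418) (nat_lit 302)) (XT.lf (nat_lit 0) (nat_lit 10318419613) (nat_lit 152) (nat_lit 11731971040) (nat_lit 76) (nat_lit 39906048575) (nat_lit 97) (nat_lit 5) (nat_lit 99) (nat_lit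 5) (nat_lit 98) (nat_lit 5) (nat_lit 481) (nat_lit 418) (nat_lit 301)))) (XT.nd (nat_lit 156) (nat_lit 304) (nat_lit 0) (XT.nd (nat_lit 78) (nat_lit 152) (nat_lit 0) (XT.lf (nat_lit 0) (nat_lit 41377450096) (nat_lit 228) (nat_lit 10011233424) (nat_lit 76) (nat_lit 12611669069) (nat_lit 95) (nat_lit 5) (nat_lit 98) (nat_lit 5) (nat_lit 96) (nat_lit 4) (nat_lit 482) (nat_lit 418) (nat_lit 300)) (XT.lf (nat_lit 0) (nat_lit 8589784831) (nat_lit 152) (nat_lit 8218239171) (nat_lit 76) (nat_lit 49309180188) (nat_lit 93) (nat_lit 5) (nat_lit 95) (nat_lit 5) (nat_lit 94) (nat_lit 5) (nat_lit 483) (nat_lit 418) (nat_lit 299))) (XT.nd (nat_lit 78) (nat_lit 152) (nat_lit 0) (XT.lf (nat_lit 0) (nat_lit 41785907438) (nat_lit 228) (nat_lit 6470880973) (nat_lit 76) (nat_lit 20049670047) (nat_lit 91) (nat_lit 5) (nat_lit 94) (nat_lit 5) (nat_lit 92) (nat_lit 4) (nat_lit 484) (nat_lit 418) (nat_lit 298)) (XT.lf (nat_lit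 0) (nat_lit 6807232224) (nat_lit 152) (nat_lit 4585656865) (nat_lit 76) (nat_lit 59183894527) (nat_lit 89) (nat_lit 5) (nat_lit 91) (nat_lit 5) (nat_lit 90) (nat_lit 5) (nat_lit 485) (nat_lit 418) (nat_lit 297)))))) (XT.nd (nat_lit 468) (nat_lit 608) (nat_lit 0) (XT.nd (nat_lit 234) (nat_lit 456) (nat_lit 0) (XT.nd (nat_lit 78) (nat_lit 380) (nat_lit 0) (XT.lf (nat_lit 0) (nat_lit 42263675563) (nat_lit 228) (nat_lit 2865582929) (nat_lit 76) (nat_lit 27793166519) (nat_lit 87) (nat_lit 5) (nat_lit 90) (nat_lit 5) (nat_lit 88) (nat_lit 4) (nat_lit 486) (nat_lit 418) (nat_lit 296)) (XT.nd (nat_lit 78) (nat_lit 228) (nat_lit 0) (XT.lf (nat_lit 0) (nat_lit 4904467279) (nat_lit 152) (nat_lit 945642918) (nat_lit 76) (nat_lit 69507742942) (nat_lit 85) (nat_lit 5) (nat_lit 87) (nat_lit 5) (nat_lit 86) (nat_lit 5) (nat_lit 487) (nat_lit 418) (nat_lit 295)) (XT.lf (nat_lit 0) (nat_lit 690944457) (nat_lit 76)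 (nat_lit 42062894087) (nat_lit 152) (nat_lit 35117845723) (nat_lit 82) (nat_lit 5) (nat_lit 83) (nat_lit 5) (nat_lit 84) (nat_lit 4) (nat_lit 488) (nat_lit 418) (nat_lit 294)))) (XT.nd (nat_lit 78) (nat_lit 228) (nat_lit 0) (XT.lf (nat_lit 0) (nat_lit 2608485894) (nat_lit 152) (nat_lit 214886776) (nat_lit 228) (nat_lit 77660933295) (nat_lit 79) (nat_lit 5) (nat_lit 81) (nat_lit 5) (nat_lit 82) (nat_lit 5) (nat_lit 489) (nat_lit 418) (nat_lit 293)) (XT.nd (nat_lit 78) (nat_lit 152) (nat_lit 0) (XT.lf (nat_lit 0) (nat_lit 4074461825) (nat_lit 76) (nat_lit 39119838441) (nat_lit 152) (nat_lit 39985059315) (nat_lit 78) (nat_lit 5) (nat_lit 79) (nat_lit 5) (nat_lit 80) (nat_lit 4) (nat_lit 490) (nat_lit 418) (nat_lit 292)) (XT.lf (nat_lit 0) (nat_lit 493510080) (nat_lit 152) (nat_lit 80181185231) (nat_lit 76) (nat_lit 5307275269) (nat_lit 76) (nat_lit 5) (nat_lit 78) (nat_lit 5) (nat_lit 77) (nat_lit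 4) (nat_lit 491) (nat_lit 418) (nat_lit 291))))) (XT.nd (nat_lit 234) (nat_lit 304) (nat_lit 0) (XT.nd (nat_lit 78) (nat_lit 228) (nat_lit 0) (XT.lf (nat_lit 0) (nat_lit 7016939455) (nat_lit 76) (nat_lit 36435198669) (nat_lit 152) (nat_lit 45422204823) (nat_lit 75) (nat_lit 5) (nat_lit 76) (nat_lit 5) (nat_lit 77) (nat_lit 4) (nat_lit 492) (nat_lit 418) (nat_lit 290)) (XT.nd (nat_lit 78) (nat_lit 152) (nat_lit 0) (XT.lf (nat_lit 0) (nat_lit 8405822131) (nat_lit 76) (nat_lit 81154439002) (nat_lit 76) (nat_lit 2321025939) (nat_lit 74) (nat_lit 4) (nat_lit 75) (nat_lit 5) (nat_lit 75) (nat_lit 4) (nat_lit 493) (nat_lit 418) (nat_lit 289)) (XT.lf (nat_lit 0) (nat_lit 9253883685) (nat_lit 76) (nat_lit 34142296109) (nat_lit 152) (nat_lit 51591053408) (nat_lit 72) (nat_lit 5) (nat_lit 73) (nat_lit 5) (nat_lit 74) (nat_lit 4) (nat_lit 494) (nat_lit 418) (nat_lit 288)))) (XT.nd (nat_lit 56550) (nat_lit 0)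 (nat_lit 20976) (XT.nd (nat_lit 156) (nat_lit 228) (nat_lit 0) (XT.lf (nat_lit 0) (nat_lit 10144045324) (nat_lit 76) (nat_lit 82310553009) (nat_lit 76) (nat_lit 5760088285) (nat_lit 71) (nat_lit 4) (nat_lit 72) (nat_lit 5) (nat_lit 72) (nat_lit 4) (nat_lit 495) (nat_lit 418) (nat_lit 287)) (XT.lf (nat_lit 0) (nat_lit 10654953811) (nat_lit 76) (nat_lit 84347379494) (nat_lit 76) (nat_lit 10014941877) (nat_lit 68) (nat_lit 4) (nat_lit 69) (nat_lit 5) (nat_lit 69) (nat_lit 4) (nat_lit 497) (nat_lit 418) (nat_lit 285))) (XT.nd (nat_lit 78) (nat_lit 0) (nat_lit 0) (XT.lf (nat_lit 0) (nat_lit 627779072) (nat_lit 0) (nat_lit 627779072) (nat_lit 1140) (nat_lit 4083144385) (nat_lit 344) (nat_lit 5) (nat_lit 344) (nat_lit 3) (nat_lit 359) (nat_lit 3) (nat_lit 419) (nat_lit 419) (nat_lit 362)) (XT.lf (nat_lit 0) (nat_lit 3647956000) (nat_lit 1140) (nat_lit 620727888) (nat_lit 1216) (nat_lit 6643386003) (nat_lit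 344) (nat_lit 5) (nat_lit 359) (nat_lit 3) (nat_lit 360) (nat_lit 5) (nat_lit 420) (nat_lit 419) (nat_lit 361))))))) (XT.nd (nat_lit 1014) (nat_lit 6308) (nat_lit 0) (XT.nd (nat_lit 468) (nat_lit 3192) (nat_lit 0) (XT.nd (nat_lit 234) (nat_lit 912) (nat_lit 0) (XT.nd (nat_lit 78) (nat_lit 0) (nat_lit 76) (XT.lf (nat_lit 0) (nat_lit 4911286464) (nat_lit 1140) (nat_lit 2450840703) (nat_lit 1216) (nat_lit 3794254439) (nat_lit 345) (nat_lit 5) (nat_lit 360) (nat_lit 5) (nat_lit 361) (nat_lit 5) (nat_lit 421) (nat_lit 419) (nat_lit 360)) (XT.nd (nat_lit 78) (nat_lit 0) (nat_lit 0) (XT.lf (nat_lit 0) (nat_lit 6303183003) (nat_lit 1140) (nat_lit 4260246957) (nat_lit 1216) (nat_lit 847519912) (nat_lit 346) (nat_lit 5) (nat_lit 361) (nat_lit 5) (nat_lit 362) (nat_lit 5) (nat_lit 422) (nat_lit 419) (nat_lit 359)) (XT.lf (nat_lit 76) (nat_lit 5604207388) (nat_lit 0) (nat_lit 2255673608) (nat_lit 1216) (nat_lit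 3815512167) (nat_lit 347) (nat_lit 5) (nat_lit 346) (nat_lit 5) (nat_lit 362) (nat_lit 5) (nat_lit 423) (nat_lit 419) (nat_lit 358)))) (XT.nd (nat_lit 78) (nat_lit 1064) (nat_lit 0) (XT.lf (nat_lit 76) (nat_lit 4078682774) (nat_lit 0) (nat_lit 5505583197) (nat_lit 1216) (nat_lit 2366099765) (nat_lit 348) (nat_lit 5) (nat_lit 347) (nat_lit 5) (nat_lit 363) (nat_lit 5) (nat_lit 424) (nat_lit 419) (nat_lit 357)) (XT.nd (nat_lit 78) (nat_lit 1140) (nat_lit 0) (XT.lf (nat_lit 76) (nat_lit 2583098369) (nat_lit 0) (nat_lit 8900598475) (nat_lit 1216) (nat_lit 752727847) (nat_lit 349) (nat_lit 5) (nat_lit 348) (nat_lit 5) (nat_lit 364) (nat_lit 5) (nat_lit 425) (nat_lit 419) (nat_lit 356)) (XT.lf (nat_lit 0) (nat_lit 1020200990) (nat_lit 1216) (nat_lit 11425616180) (nat_lit 1292) (nat_lit 87782624) (nat_lit 333) (nat_lit 5) (nat_lit 349) (nat_lit 5) (nat_lit 350) (nat_lit 5) (nat_lit 426) (nat_lit 419) (nat_lit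 355))))) (XT.nd (nat_lit 234) (nat_lit 3192) (nat_lit 0) (XT.nd (nat_lit 78) (nat_lit 0) (nat_lit 76) (XT.lf (nat_lit 0) (nat_lit 3007104267) (nat_lit 1216) (nat_lit 370608175) (nat_lit 1292) (nat_lit 9463473008) (nat_lit 333) (nat_lit 5) (nat_lit 349) (nat_lit 5) (nat_lit 350) (nat_lit 5) (nat_lit 427) (nat_lit 419) (nat_lit 354)) (XT.nd (nat_lit 78) (nat_lit 0) (nat_lit 76) (XT.lf (nat_lit 0) (nat_lit 5216317338) (nat_lit 1216) (nat_lit 1799240027) (nat_lit 1292) (nat_lit 6144906224) (nat_lit 334) (nat_lit 5) (nat_lit 350) (nat_lit 5) (nat_lit 351) (nat_lit 5) (nat_lit 428) (nat_lit 419) (nat_lit 353)) (XT.lf (nat_lit 0) (nat_lit 7653954081) (nat_lit 1216) (nat_lit 3196931046) (nat_lit 76) (nat_lit 2641283655) (nat_lit 335) (nat_lit 5) (nat_lit 351) (nat_lit 5) (nat_lit 336) (nat_lit 5) (nat_lit 429) (nat_lit 419) (nat_lit 352)))) (XT.nd (nat_lit 156) (nat_lit 1292) (nat_lit 0) (XT.nd (nat_lit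 78) (nat_lit 836) (nat_lit 0) (XT.lf (nat_lit 0) (nat_lit 9264441359) (nat_lit 1216) (nat_lit 1084373527) (nat_lit 1292) (nat_lit 3487586022) (nat_lit 319) (nat_lit 5) (nat_lit 335) (nat_lit 5) (nat_lit 336) (nat_lit 5) (nat_lit 430) (nat_lit 419) (nat_lit 351)) (XT.lf (nat_lit 0) (nat_lit 8253708209) (nat_lit 836) (nat_lit 5083967426) (nat_lit 912) (nat_lit 855393147) (nat_lit 308) (nat_lit 5) (nat_lit 319) (nat_lit 5) (nat_lit 320) (nat_lit 5) (nat_lit 431) (nat_lit 419) (nat_lit 350))) (XT.nd (nat_lit 78) (nat_lit 608) (nat_lit 0) (XT.lf (nat_lit 0) (nat_lit 2011402080) (nat_lit 684) (nat_lit 7290130707) (nat_lit 76) (nat_lit 5261281647) (nat_lit 299) (nat_lit 5) (nat_lit 308) (nat_lit 5) (nat_lit 300) (nat_lit 5) (nat_lit 432) (nat_lit 419) (nat_lit 349)) (XT.lf (nat_lit 0) (nat_lit 5151015169) (nat_lit 684) (nat_lit 8612351835) (nat_lit 76) (nat_lit 1183012848) (nat_lit 291) (nat_lit 5) (nat_lit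 300) (nat_lit 5) (nat_lit 292) (nat_lit 5) (nat_lit 433) (nat_lit 419) (nat_lit 348)))))) (XT.nd (nat_lit 546) (nat_lit 2584) (nat_lit 0) (XT.nd (nat_lit 234) (nat_lit 1976) (nat_lit 0) (XT.nd (nat_lit 78) (nat_lit 1216) (nat_lit 0) (XT.lf (nat_lit 0) (nat_lit 5418385981) (nat_lit 532) (nat_lit 3213821230) (nat_lit 608) (nat_lit 6711379930) (nat_lit 284) (nat_lit 5) (nat_lit 291) (nat_lit 5) (nat_lit 292) (nat_lit 5) (nat_lit 434) (nat_lit 419) (nat_lit 347)) (XT.nd (nat_lit 78) (nat_lit 608) (nat_lit 0) (XT.lf (nat_lit 0) (nat_lit 4547335336) (nat_lit 608) (nat_lit 7913208977) (nat_lit 684) (nat_lit 3294919394) (nat_lit 276) (nat_lit 5) (nat_lit 284) (nat_lit 5) (nat_lit 285) (nat_lit 5) (nat_lit 435) (nat_lit 419) (nat_lit 346)) (XT.lf (nat_lit 0) (nat_lit 455873024) (nat_lit 608) (nat_lit 12449789978) (nat_lit 76) (nat_lit 3277111734) (nat_lit 268) (nat_lit 5) (nat_lit 276) (nat_lit 5) (nat_lit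 269) (nat_lit 5) (nat_lit 436) (nat_lit 419) (nat_lit 345)))) (XT.nd (nat_lit 156) (nat_lit 988) (nat_lit 0) (XT.nd (nat_lit 78) (nat_lit 456) (nat_lit 0) (XT.lf (nat_lit 0) (nat_lit 2933247812) (nat_lit 532) (nat_lit 1584576874) (nat_lit 608) (nat_lit 12106896334) (nat_lit 261) (nat_lit 5) (nat_lit 268) (nat_lit 5) (nat_lit 269) (nat_lit 5) (nat_lit 437) (nat_lit 419) (nat_lit 344)) (XT.lf (nat_lit 0) (nat_lit 2165668833) (nat_lit 456) (nat_lit 6834239699) (nat_lit 532) (nat_lit 8082346287) (nat_lit 255) (nat_lit 5) (nat_lit 261) (nat_lit 5) (nat_lit 262) (nat_lit 5) (nat_lit 438) (nat_lit 419) (nat_lit 343))) (XT.nd (nat_lit 78) (nat_lit 532) (nat_lit 0) (XT.lf (nat_lit 0) (nat_lit 1469176034) (nat_lit 456) (nat_lit 12426921768) (nat_lit 532) (nat_lit 3660868647) (nat_lit 249) (nat_lit 5) (nat_lit 255) (nat_lit 5) (nat_lit 256) (nat_lit 5) (nat_lit 439) (nat_lit 419) (nat_lit 342)) (XT.lf (nat_lit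 0) (nat_lit 835147618) (nat_lit 456) (nat_lit 329197318) (nat_lit 532) (nat_lit 16884732173) (nat_lit 242) (nat_lit 5) (nat_lit 248) (nat_lit 5) (nat_lit 249) (nat_lit 5) (nat_lit 440) (nat_lit 419) (nat_lit 341))))) (XT.nd (nat_lit 234) (nat_lit 1748) (nat_lit 0) (XT.nd (nat_lit 78) (nat_lit 380) (nat_lit 0) (XT.lf (nat_lit 0) (nat_lit 189645655) (nat_lit 456) (nat_lit 6224958008) (nat_lit 532) (nat_lit 12142318382) (nat_lit 236) (nat_lit 5) (nat_lit 242) (nat_lit 5) (nat_lit 243) (nat_lit 5) (nat_lit 441) (nat_lit 419) (nat_lit 340)) (XT.nd (nat_lit 78) (nat_lit 380) (nat_lit 0) (XT.lf (nat_lit 0) (nat_lit 12144153777) (nat_lit 532) (nat_lit 365395350) (nat_lit 76) (nat_lit 6574107739) (nat_lit 236) (nat_lit 5) (nat_lit 243) (nat_lit 5) (nat_lit 237) (nat_lit 5) (nat_lit 442) (nat_lit 419) (nat_lit 339)) (XT.lf (nat_lit 0) (nat_lit 18381034029) (nat_lit 456) (nat_lit 827780004) (nat_lit 76) (nat_lit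 421289757) (nat_lit 231) (nat_lit 5) (nat_lit 237) (nat_lit 5) (nat_lit 232) (nat_lit 5) (nat_lit 443) (nat_lit 419) (nat_lit 338)))) (XT.nd (nat_lit 156) (nat_lit 836) (nat_lit 0) (XT.nd (nat_lit 78) (nat_lit 380) (nat_lit 0) (XT.lf (nat_lit 0) (nat_lit 4922642369) (nat_lit 532) (nat_lit 1301809798) (nat_lit 76) (nat_lit 13969389636) (nat_lit 224) (nat_lit 5) (nat_lit 231) (nat_lit 5) (nat_lit 225) (nat_lit 5) (nat_lit 444) (nat_lit 419) (nat_lit 337)) (XT.lf (nat_lit 0) (nat_lit 11617958024) (nat_lit 456) (nat_lit 1696203254) (nat_lit 76) (nat_lit 7464009738) (nat_lit 219) (nat_lit 5) (nat_lit 225) (nat_lit 5) (nat_lit 220) (nat_lit 5) (nat_lit 445) (nat_lit 419) (nat_lit 336))) (XT.nd (nat_lit 78) (nat_lit 456) (nat_lit 0) (XT.lf (nat_lit 0) (nat_lit 18891377452) (nat_lit 456) (nat_lit 1986157890) (nat_lit 76) (nat_lit 506882000) (nat_lit 214) (nat_lit 5) (nat_lit 220) (nat_lit 5) (nat_lit 215)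 (nat_lit 5) (nat_lit 446) (nat_lit 419) (nat_lit 335)) (XT.lf (nat_lit 0) (nat_lit 4741120031) (nat_lit 456) (nat_lit 2276818998) (nat_lit 76) (nat_lit 14992090253) (nat_lit 208) (nat_lit 5) (nat_lit 214) (nat_lit 5) (nat_lit 209) (nat_lit 5) (nat_lit 447) (nat_lit 419) (nat_lit 334))))))))
noncomputable def xc79 : XT := (XT.nd (nat_lit 2106) (nat_lit 3420) (nat_lit 0) (XT.nd (nat_lit 1014) (nat_lit 2888) (nat_lit 0) (XT.nd (nat_lit 468) (nat_lit 2204) (nat_lit 0) (XT.nd (nat_lit 234) (nat_lit 988) (nat_lit 0) (XT.nd (nat_lit 78) (nat_lit 684) (nat_lit 0) (XT.lf (nat_lit 0) (nat_lit 12552808095) (nat_lit 456) (nat_lit 2483887754) (nat_lit 76) (nat_lit 7621464760) (nat_lit 203) (nat_lit 5) (nat_lit 209) (nat_lit 5) (nat_lit 204) (nat_lit 5) (nat_lit 448) (nat_lit 419) (nat_lit 333)) (XT.nd (nat_lit 78) (nat_lit 380) (nat_lit 0) (XT.lf (nat_lit 0) (nat_lit 20759555552) (nat_lit 304) (nat_lit 267160138)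 (nat_lit 380) (nat_lit 2303834419) (nat_lit 199) (nat_lit 5) (nat_lit 203) (nat_lit 5) (nat_lit 204) (nat_lit 5) (nat_lit 449) (nat_lit 419) (nat_lit 332)) (XT.lf (nat_lit 0) (nat_lit 6132891752) (nat_lit 380) (nat_lit 2665083121) (nat_lit 76) (nat_lit 15226086214) (nat_lit 194) (nat_lit 5) (nat_lit 199) (nat_lit 5) (nat_lit 195) (nat_lit 5) (nat_lit 450) (nat_lit 419) (nat_lit 331)))) (XT.nd (nat_lit 78) (nat_lit 684) (nat_lit 0) (XT.lf (nat_lit 0) (nat_lit 15232768966) (nat_lit 380) (nat_lit 2649323364) (nat_lit 76) (nat_lit 6860802714) (nat_lit 190) (nat_lit 5) (nat_lit 195) (nat_lit 5) (nat_lit 191) (nat_lit 5) (nat_lit 451) (nat_lit 419) (nat_lit 330)) (XT.nd (nat_lit 78) (nat_lit 380) (nat_lit 0) (XT.lf (nat_lit 0) (nat_lit 22977542994) (nat_lit 304) (nat_lit 2126891605) (nat_lit 380) (nat_lit 383732819) (nat_lit 186) (nat_lit 5) (nat_lit 190) (nat_lit 5) (nat_lit 191) (nat_lit 5) (nat_lit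 452) (nat_lit 419) (nat_lit 329)) (XT.lf (nat_lit 0) (nat_lit 9399743782) (nat_lit 380) (nat_lit 2381825078) (nat_lit 76) (nat_lit 14475074211) (nat_lit 181) (nat_lit 5) (nat_lit 186) (nat_lit 5) (nat_lit 182) (nat_lit 5) (nat_lit 453) (nat_lit 419) (nat_lit 328))))) (XT.nd (nat_lit 234) (nat_lit 1292) (nat_lit 0) (XT.nd (nat_lit 78) (nat_lit 608) (nat_lit 0) (XT.lf (nat_lit 0) (nat_lit 19981640969) (nat_lit 380) (nat_lit 2102494615) (nat_lit 76) (nat_lit 4969777941) (nat_lit 177) (nat_lit 5) (nat_lit 182) (nat_lit 5) (nat_lit 178) (nat_lit 5) (nat_lit 454) (nat_lit 419) (nat_lit 327)) (XT.nd (nat_lit 78) (nat_lit 304) (nat_lit 0) (XT.lf (nat_lit 0) (nat_lit 3519141005) (nat_lit 304) (nat_lit 1741417055) (nat_lit 76) (nat_lit 22618165729) (nat_lit 173) (nat_lit 5) (nat_lit 177) (nat_lit 5) (nat_lit 174) (nat_lit 5) (nat_lit 455) (nat_lit 419) (nat_lit 326)) (XT.lf (nat_lit 0) (nat_lit 14885831359)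 (nat_lit 380) (nat_lit 1331877543) (nat_lit 76) (nat_lit 12513206273) (nat_lit 169) (nat_lit 5) (nat_lit 174) (nat_lit 5) (nat_lit 170) (nat_lit 5) (nat_lit 456) (nat_lit 419) (nat_lit 325)))) (XT.nd (nat_lit 156) (nat_lit 760) (nat_lit 0) (XT.nd (nat_lit 78) (nat_lit 304) (nat_lit 0) (XT.lf (nat_lit 0) (nat_lit 27168461349) (nat_lit 304) (nat_lit 742943231) (nat_lit 76) (nat_lit 1703883806) (nat_lit 166) (nat_lit 5) (nat_lit 170) (nat_lit 5) (nat_lit 167) (nat_lit 5) (nat_lit 457) (nat_lit 419) (nat_lit 324)) (XT.lf (nat_lit 0) (nat_lit 9792985068) (nat_lit 304) (nat_lit 152575721) (nat_lit 76) (nat_lit 20581850954) (nat_lit 162) (nat_lit 5) (nat_lit 166) (nat_lit 5) (nat_lit 163) (nat_lit 5) (nat_lit 458) (nat_lit 419) (nat_lit 323))) (XT.nd (nat_lit 78) (nat_lit 304) (nat_lit 0) (XT.lf (nat_lit 0) (nat_lit 601325962) (nat_lit 228) (nat_lit 22387814032) (nat_lit 304) (nat_lit 8483426166) (nat_lit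 156) (nat_lit 5) (nat_lit 159) (nat_lit 5) (nat_lit 160) (nat_lit 5) (nat_lit 459) (nat_lit 419) (nat_lit 322)) (XT.lf (nat_lit 0) (nat_lit 1490856267) (nat_lit 228) (nat_lit 3222001636) (nat_lit 304) (nat_lit 27738311428) (nat_lit 152) (nat_lit 5) (nat_lit 155) (nat_lit 5) (nat_lit 156) (nat_lit 5) (nat_lit 460) (nat_lit 419) (nat_lit 321)))))) (XT.nd (nat_lit 546) (nat_lit 1292) (nat_lit 0) (XT.nd (nat_lit 234) (nat_lit 912) (nat_lit 0) (XT.nd (nat_lit 78) (nat_lit 456) (nat_lit 0) (XT.lf (nat_lit 0) (nat_lit 2415045426) (nat_lit 228) (nat_lit 16470070936) (nat_lit 304) (nat_lit 14576318474) (nat_lit 149) (nat_lit 5) (nat_lit 152) (nat_lit 5) (nat_lit 153) (nat_lit 5) (nat_lit 461) (nat_lit 419) (nat_lit 320)) (XT.nd (nat_lit 78) (nat_lit 304) (nat_lit 0) (XT.lf (nat_lit 0) (nat_lit 3565420148) (nat_lit 152) (nat_lit 30607559956) (nat_lit 228) (nat_lit 337024045) (nat_lit 147) (nat_lit 5) (nat_lit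 149) (nat_lit 5) (nat_lit 150) (nat_lit 5) (nat_lit 462) (nat_lit 419) (nat_lit 319)) (XT.lf (nat_lit 0) (nat_lit 4710263933) (nat_lit 228) (nat_lit 10137209536) (nat_lit 304) (nat_lit 20743761868) (nat_lit 143) (nat_lit 5) (nat_lit 146) (nat_lit 5) (nat_lit 147) (nat_lit 5) (nat_lit 463) (nat_lit 419) (nat_lit 318)))) (XT.nd (nat_lit 156) (nat_lit 456) (nat_lit 0) (XT.nd (nat_lit 78) (nat_lit 304) (nat_lit 0) (XT.lf (nat_lit 0) (nat_lit 6053397015) (nat_lit 152) (nat_lit 25204491049) (nat_lit 228) (nat_lit 5454330309) (nat_lit 141) (nat_lit 5) (nat_lit 143) (nat_lit 5) (nat_lit 144) (nat_lit 5) (nat_lit 464) (nat_lit 419) (nat_lit 317)) (XT.lf (nat_lit 0) (nat_lit 7513270489) (nat_lit 228) (nat_lit 3359926036) (nat_lit 304) (nat_lit 26998583809) (nat_lit 137) (nat_lit 5) (nat_lit 140) (nat_lit 5) (nat_lit 141) (nat_lit 5) (nat_lit 465) (nat_lit 419) (nat_lit 316))) (XT.nd (nat_lit 78) (nat_lit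 304) (nat_lit 0) (XT.lf (nat_lit 0) (nat_lit 9059549861) (nat_lit 152) (nat_lit 19425049653) (nat_lit 228) (nat_lit 10585691904) (nat_lit 135) (nat_lit 5) (nat_lit 137) (nat_lit 5) (nat_lit 138) (nat_lit 5) (nat_lit 466) (nat_lit 419) (nat_lit 315)) (XT.lf (nat_lit 0) (nat_lit 6994914318) (nat_lit 304) (nat_lit 29501897563) (nat_lit 76) (nat_lit 3815695504) (nat_lit 131) (nat_lit 5) (nat_lit 135) (nat_lit 5) (nat_lit 132) (nat_lit 5) (nat_lit 467) (nat_lit 419) (nat_lit 314))))) (XT.nd (nat_lit 234) (nat_lit 760) (nat_lit 0) (XT.nd (nat_lit 78) (nat_lit 380) (nat_lit 0) (XT.lf (nat_lit 0) (nat_lit 12607844976) (nat_lit 152) (nat_lit 13244986794) (nat_lit 228) (nat_lit 15742342046) (nat_lit 129) (nat_lit 5) (nat_lit 131) (nat_lit 5) (nat_lit 132) (nat_lit 5) (nat_lit 468) (nat_lit 419) (nat_lit 313)) (XT.nd (nat_lit 78) (nat_lit 152) (nat_lit 0) (XT.lf (nat_lit 0) (nat_lit 3205350330) (nat_lit 228)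 (nat_lit 28299202905) (nat_lit 76) (nat_lit 11420240738) (nat_lit 126) (nat_lit 5) (nat_lit 129) (nat_lit 5) (nat_lit 127) (nat_lit 5) (nat_lit 469) (nat_lit 419) (nat_lit 312)) (XT.lf (nat_lit 0) (nat_lit 16719715732) (nat_lit 152) (nat_lit 6640478120) (nat_lit 228) (nat_lit 20938465256) (nat_lit 124) (nat_lit 5) (nat_lit 126) (nat_lit 5) (nat_lit 127) (nat_lit 5) (nat_lit 470) (nat_lit 419) (nat_lit 311)))) (XT.nd (nat_lit 156) (nat_lit 380) (nat_lit 0) (XT.nd (nat_lit 78) (nat_lit 228) (nat_lit 0) (XT.lf (nat_lit 0) (nat_lit 19005747643) (nat_lit 152) (nat_lit 26167928156) (nat_lit 228) (nat_lit 548014986) (nat_lit 122) (nat_lit 5) (nat_lit 124) (nat_lit 5) (nat_lit 125) (nat_lit 5) (nat_lit 471) (nat_lit 419) (nat_lit 310)) (XT.lf (nat_lit 0) (nat_lit 21005543703) (nat_lit 228) (nat_lit 25784468669) (nat_lit 76) (nat_lit 403325363) (nat_lit 119) (nat_lit 5) (nat_lit 122) (nat_lit 5) (nat_lit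 120) (nat_lit 5) (nat_lit 472) (nat_lit 419) (nat_lit 309))) (XT.nd (nat_lit 78) (nat_lit 228) (nat_lit 0) (XT.lf (nat_lit 0) (nat_lit 23939893020) (nat_lit 152) (nat_lit 20445095497) (nat_lit 228) (nat_lit 4330629632) (nat_lit 117) (nat_lit 5) (nat_lit 119) (nat_lit 5) (nat_lit 120) (nat_lit 5) (nat_lit 473) (nat_lit 419) (nat_lit 308)) (XT.lf (nat_lit 0) (nat_lit 18844739344) (nat_lit 228) (nat_lit 23669232001) (nat_lit 76) (nat_lit 7777011617) (nat_lit 114) (nat_lit 5) (nat_lit 117) (nat_lit 5) (nat_lit 115) (nat_lit 5) (nat_lit 474) (nat_lit 419) (nat_lit 307))))))) (XT.nd (nat_lit 1014) (nat_lit 1368) (nat_lit 0) (XT.nd (nat_lit 468) (nat_lit 1064) (nat_lit 0) (XT.nd (nat_lit 234) (nat_lit 456) (nat_lit 0) (XT.nd (nat_lit 78) (nat_lit 380) (nat_lit 0) (XT.lf (nat_lit 0) (nat_lit 29469855851) (nat_lit 152) (nat_lit 14355496838) (nat_lit 228) (nat_lit 8096395934) (nat_lit 112) (nat_lit 5) (nat_lit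 114) (nat_lit 5) (nat_lit 115) (nat_lit 5) (nat_lit 475) (nat_lit 419) (nat_lit 306)) (XT.nd (nat_lit 78) (nat_lit 152) (nat_lit 0) (XT.lf (nat_lit 0) (nat_lit 16801304538) (nat_lit 228) (nat_lit 21178289172) (nat_lit 76) (nat_lit 15628699774) (nat_lit 109) (nat_lit 5) (nat_lit 112) (nat_lit 5) (nat_lit 110) (nat_lit 5) (nat_lit 476) (nat_lit 419) (nat_lit 305)) (XT.lf (nat_lit 0) (nat_lit 35597451645) (nat_lit 152) (nat_lit 7889552884) (nat_lit 228) (nat_lit 11868439495) (nat_lit 107) (nat_lit 5) (nat_lit 109) (nat_lit 5) (nat_lit 110) (nat_lit 5) (nat_lit 477) (nat_lit 419) (nat_lit 304)))) (XT.nd (nat_lit 78) (nat_lit 304) (nat_lit 0) (XT.lf (nat_lit 0) (nat_lit 14857213350) (nat_lit 152) (nat_lit 18330361076) (nat_lit 76) (nat_lit 23973662464) (nat_lit 105) (nat_lit 5) (nat_lit 107) (nat_lit 5) (nat_lit 106) (nat_lit 5) (nat_lit 478) (nat_lit 419) (nat_lit 303)) (XT.nd (nat_lit 78) (nat_lit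 152) (nat_lit 0) (XT.lf (nat_lit 0) (nat_lit 42314648268) (nat_lit 152) (nat_lit 1042119726) (nat_lit 228) (nat_lit 15676533930) (nat_lit 103) (nat_lit 5) (nat_lit 105) (nat_lit 5) (nat_lit 106) (nat_lit 5) (nat_lit 479) (nat_lit 419) (nat_lit 302)) (XT.lf (nat_lit 0) (nat_lit 12987789174) (nat_lit 152) (nat_lit 15156515476) (nat_lit 76) (nat_lit 32822769752) (nat_lit 101) (nat_lit 5) (nat_lit 103) (nat_lit 5) (nat_lit 102) (nat_lit 5) (nat_lit 480) (nat_lit 419) (nat_lit 301))))) (XT.nd (nat_lit 234) (nat_lit 608) (nat_lit 0) (XT.nd (nat_lit 78) (nat_lit 304) (nat_lit 0) (XT.lf (nat_lit 0) (nat_lit 43474182546) (nat_lit 228) (nat_lit 13431820713) (nat_lit 76) (nat_lit 6065483875) (nat_lit 99) (nat_lit 5) (nat_lit 102) (nat_lit 5) (nat_lit 100) (nat_lit 4) (nat_lit 481) (nat_lit 419) (nat_lit 300)) (XT.nd (nat_lit 78) (nat_lit 152) (nat_lit 0) (XT.lf (nat_lit 0) (nat_lit 11160187683) (nat_lit 152)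 (nat_lit 11703178451) (nat_lit 76) (nat_lit 42181117029) (nat_lit 97) (nat_lit 5) (nat_lit 99) (nat_lit 5) (nat_lit 98) (nat_lit 5) (nat_lit 482) (nat_lit 419) (nat_lit 299)) (XT.lf (nat_lit 0) (nat_lit 43765106741) (nat_lit 228) (nat_lit 9907266862) (nat_lit 76) (nat_lit 13518430604) (nat_lit 95) (nat_lit 5) (nat_lit 98) (nat_lit 5) (nat_lit 96) (nat_lit 4) (nat_lit 483) (nat_lit 419) (nat_lit 298)))) (XT.nd (nat_lit 156) (nat_lit 304) (nat_lit 0) (XT.nd (nat_lit 78) (nat_lit 152) (nat_lit 0) (XT.lf (nat_lit 0) (nat_lit 9331586727) (nat_lit 152) (nat_lit 8035733641) (nat_lit 76) (nat_lit 52046372352) (nat_lit 93) (nat_lit 5) (nat_lit 95) (nat_lit 5) (nat_lit 94) (nat_lit 5) (nat_lit 484) (nat_lit 419) (nat_lit 297)) (XT.lf (nat_lit 0) (nat_lit 44180812549) (nat_lit 228) (nat_lit 6211554429) (nat_lit 76) (nat_lit 21320243919) (nat_lit 91) (nat_lit 5) (nat_lit 94) (nat_lit 5) (nat_lit 92) (nat_lit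 4) (nat_lit 485) (nat_lit 419) (nat_lit 296))) (XT.nd (nat_lit 78) (nat_lit 152) (nat_lit 0) (XT.lf (nat_lit 0) (nat_lit 7447030715) (nat_lit 152) (nat_lit 4242815576) (nat_lit 76) (nat_lit 62406791373) (nat_lit 89) (nat_lit 5) (nat_lit 91) (nat_lit 5) (nat_lit 90) (nat_lit 5) (nat_lit 486) (nat_lit 419) (nat_lit 295)) (XT.lf (nat_lit 0) (nat_lit 44669928590) (nat_lit 228) (nat_lit 2446969545) (nat_lit 76) (nat_lit 29442854119) (nat_lit 87) (nat_lit 5) (nat_lit 90) (nat_lit 5) (nat_lit 88) (nat_lit 4) (nat_lit 487) (nat_lit 419) (nat_lit 294)))))) (XT.nd (nat_lit 546) (nat_lit 380) (nat_lit 0) (XT.nd (nat_lit 234) (nat_lit 380) (nat_lit 0) (XT.nd (nat_lit 78) (nat_lit 456) (nat_lit 0) (XT.lf (nat_lit 0) (nat_lit 5436867891) (nat_lit 152) (nat_lit 441421895) (nat_lit 76) (nat_lit 73238838909) (nat_lit 85) (nat_lit 5) (nat_lit 87) (nat_lit 5) (nat_lit 86) (nat_lit 5) (nat_lit 488) (nat_lit 419) (nat_lit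 293)) (XT.nd (nat_lit 78) (nat_lit 228) (nat_lit 0) (XT.lf (nat_lit 0) (nat_lit 1277855115) (nat_lit 76) (nat_lit 43900107428) (nat_lit 152) (nat_lit 36578711275) (nat_lit 82) (nat_lit 5) (nat_lit 83) (nat_lit 5) (nat_lit 84) (nat_lit 4) (nat_lit 489) (nat_lit 419) (nat_lit 292)) (XT.lf (nat_lit 0) (nat_lit 3245591481) (nat_lit 228) (nat_lit 81219408656) (nat_lit 76) (nat_lit 35088049) (nat_lit 79) (nat_lit 5) (nat_lit 82) (nat_lit 5) (nat_lit 80) (nat_lit 4) (nat_lit 490) (nat_lit 419) (nat_lit 291)))) (XT.nd (nat_lit 156) (nat_lit 152) (nat_lit 0) (XT.nd (nat_lit 78) (nat_lit 152) (nat_lit 0) (XT.lf (nat_lit 0) (nat_lit 4810509160) (nat_lit 76) (nat_lit 40818355605) (nat_lit 152) (nat_lit 41701215815) (nat_lit 78) (nat_lit 5) (nat_lit 79) (nat_lit 5) (nat_lit 80) (nat_lit 4) (nat_lit 491) (nat_lit 419) (nat_lit 290)) (XT.lf (nat_lit 0) (nat_lit 789994564) (nat_lit 152) (nat_lit 83662161777) (nat_lit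 76) (nat_lit 5820757113) (nat_lit 76) (nat_lit 5) (nat_lit 78) (nat_lit 5) (nat_lit 77) (nat_lit 4) (nat_lit 492) (nat_lit 419) (nat_lit 289))) (XT.nd (nat_lit 78) (nat_lit 76) (nat_lit 0) (XT.lf (nat_lit 0) (nat_lit 7880731758) (nat_lit 76) (nat_lit 38007809712) (nat_lit 152) (nat_lit 47421603413) (nat_lit 75) (nat_lit 5) (nat_lit 76) (nat_lit 5) (nat_lit 77) (nat_lit 4) (nat_lit 493) (nat_lit 419) (nat_lit 288)) (XT.lf (nat_lit 0) (nat_lit 9329717096) (nat_lit 76) (nat_lit 84966913671) (nat_lit 76) (nat_lit 2170968705) (nat_lit 74) (nat_lit 4) (nat_lit 75) (nat_lit 5) (nat_lit 75) (nat_lit 4) (nat_lit 494) (nat_lit 419) (nat_lit 287))))) (XT.nd (nat_lit 56706) (nat_lit 0) (nat_lit 20900) (XT.nd (nat_lit 156) (nat_lit 228) (nat_lit 0) (XT.lf (nat_lit 0) (nat_lit 10210791095) (nat_lit 76) (nat_lit 35608439602) (nat_lit 152) (nat_lit 53909765747) (nat_lit 72) (nat_lit 5) (nat_lit 73) (nat_lit 5)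 (nat_lit 74) (nat_lit 4) (nat_lit 495) (nat_lit 419) (nat_lit 286)) (XT.nd (nat_lit 56472) (nat_lit 0) (nat_lit 20900) (XT.lf (nat_lit 0) (nat_lit 11455546108) (nat_lit 76) (nat_lit 33794431504) (nat_lit 152) (nat_lit 61371760310) (nat_lit 69) (nat_lit 5) (nat_lit 70) (nat_lit 5) (nat_lit 71) (nat_lit 4) (nat_lit 497) (nat_lit 419) (nat_lit 284)) (XT.lf (nat_lit 0) (nat_lit 1155757193) (nat_lit 0) (nat_lit 1155757193) (nat_lit 1140) (nat_lit 3264280236) (nat_lit 344) (nat_lit 5) (nat_lit 344) (nat_lit 3) (nat_lit 359) (nat_lit 3) (nat_lit 420) (nat_lit 420) (nat_lit 360)))) (XT.nd (nat_lit 156) (nat_lit 0) (nat_lit 152) (XT.nd (nat_lit 78) (nat_lit 0) (nat_lit 76) (XT.lf (nat_lit 76) (nat_lit 367221956) (nat_lit 0) (nat_lit 5349337648) (nat_lit 1216) (nat_lit 5684436786) (nat_lit 345) (nat_lit 5) (nat_lit 344) (nat_lit 5) (nat_lit 360) (nat_lit 5) (nat_lit 421) (nat_lit 420) (nat_lit 359)) (XT.lf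 (nat_lit 0) (nat_lit 6951443806) (nat_lit 1140) (nat_lit 1528526264) (nat_lit 1216) (nat_lit 3180306327) (nat_lit 345) (nat_lit 5) (nat_lit 360) (nat_lit 5) (nat_lit 361) (nat_lit 5) (nat_lit 422) (nat_lit 420) (nat_lit 358))) (XT.nd (nat_lit 78) (nat_lit 0) (nat_lit 0) (XT.lf (nat_lit 0) (nat_lit 8330467112) (nat_lit 1140) (nat_lit 3399937143) (nat_lit 1216) (nat_lit 199646982) (nat_lit 346) (nat_lit 5) (nat_lit 361) (nat_lit 5) (nat_lit 362) (nat_lit 5) (nat_lit 423) (nat_lit 420) (nat_lit 357)) (XT.lf (nat_lit 76) (nat_lit 6926973354) (nat_lit 0) (nat_lit 2966518573) (nat_lit 1216) (nat_lit 2316373932) (nat_lit 347) (nat_lit 5) (nat_lit 346) (nat_lit 5) (nat_lit 362) (nat_lit 5) (nat_lit 424) (nat_lit 420) (nat_lit 356))))))))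
noncomputable def xc80 : XT := (XT.nd (nat_lit 2028) (nat_lit 6840) (nat_lit 0) (XT.nd (nat_lit 1014) (nat_lit 5244) (nat_lit 0) (XT.nd (nat_lit 468) (nat_lit 4864) (nat_lit 0) (XT.nd (nat_lit 234) (nat_lit 0) (nat_lit 76) (XT.nd (nat_lit 78) (nat_lit 1140) (nat_lit 0) (XT.lf (nat_lit 76) (nat_lit 5348755877) (nat_lit 0) (nat_lit 6281988868) (nat_lit 1216) (nat_lit 870046594) (nat_lit 348) (nat_lit 5) (nat_lit 347) (nat_lit 5) (nat_lit 363) (nat_lit 5) (nat_lit 425) (nat_lit 420) (nat_lit 355)) (XT.nd (nat_lit 78) (nat_lit 0) (nat_lit 0) (XT.lf (nat_lit 0) (nat_lit 738450211) (nat_lit 1216) (nat_lit 9012206485) (nat_lit 1292) (nat_lit 3052346315) (nat_lit 332) (nat_lit 5) (nat_lit 348) (nat_lit 5) (nat_lit 349) (nat_lit 5) (nat_lit 426) (nat_lit 420) (nat_lit 354)) (XT.lf (nat_lit 76) (nat_lit 2248506913) (nat_lit 0) (nat_lit 273547743) (nat_lit 1292) (nat_lit 10594634020) (nat_lit 333) (nat_lit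 5) (nat_lit 332) (nat_lit 5) (nat_lit 349) (nat_lit 5) (nat_lit 427) (nat_lit 420) (nat_lit 353)))) (XT.nd (nat_lit 78) (nat_lit 0) (nat_lit 76) (XT.lf (nat_lit 76) (nat_lit 702031758) (nat_lit 0) (nat_lit 3841427612) (nat_lit 1292) (nat_lit 8898142689) (nat_lit 334) (nat_lit 5) (nat_lit 333) (nat_lit 5) (nat_lit 350) (nat_lit 5) (nat_lit 428) (nat_lit 420) (nat_lit 352)) (XT.nd (nat_lit 78) (nat_lit 0) (nat_lit 76) (XT.lf (nat_lit 0) (nat_lit 6798103363) (nat_lit 1216) (nat_lit 800184516) (nat_lit 1292) (nat_lit 6180510103) (nat_lit 334) (nat_lit 5) (nat_lit 350) (nat_lit 5) (nat_lit 351) (nat_lit 5) (nat_lit 429) (nat_lit 420) (nat_lit 351)) (XT.lf (nat_lit 0) (nat_lit 9302864012) (nat_lit 1216) (nat_lit 2258849842) (nat_lit 76) (nat_lit 2567020159) (nat_lit 335) (nat_lit 5) (nat_lit 351) (nat_lit 5) (nat_lit 336) (nat_lit 5) (nat_lit 430) (nat_lit 420) (nat_lit 350))))) (XT.nd (nat_lit 234) (nat_lit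 2356) (nat_lit 0) (XT.nd (nat_lit 78) (nat_lit 1520) (nat_lit 0) (XT.lf (nat_lit 0) (nat_lit 10794119304) (nat_lit 1216) (nat_lit 1288304160) (nat_lit 1292) (nat_lit 2409258321) (nat_lit 319) (nat_lit 5) (nat_lit 335) (nat_lit 5) (nat_lit 336) (nat_lit 5) (nat_lit 431) (nat_lit 420) (nat_lit 349)) (XT.nd (nat_lit 78) (nat_lit 608) (nat_lit 0) (XT.lf (nat_lit 0) (nat_lit 298167202) (nat_lit 912) (nat_lit 5131408570) (nat_lit 76) (nat_lit 9437991298) (nat_lit 307) (nat_lit 5) (nat_lit 319) (nat_lit 5) (nat_lit 308) (nat_lit 5) (nat_lit 432) (nat_lit 420) (nat_lit 348)) (XT.lf (nat_lit 0) (nat_lit 3244224307) (nat_lit 684) (nat_lit 6555086785) (nat_lit 76) (nat_lit 5457628830) (nat_lit 299) (nat_lit 5) (nat_lit 308) (nat_lit 5) (nat_lit 300) (nat_lit 5) (nat_lit 433) (nat_lit 420) (nat_lit 347)))) (XT.nd (nat_lit 156) (nat_lit 1216) (nat_lit 0) (XT.nd (nat_lit 78) (nat_lit 532) (nat_lit 0) (XT.lf (nat_lit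 0) (nat_lit 6496970130) (nat_lit 684) (nat_lit 7942036174) (nat_lit 76) (nat_lit 1221995014) (nat_lit 291) (nat_lit 5) (nat_lit 300) (nat_lit 5) (nat_lit 292) (nat_lit 5) (nat_lit 434) (nat_lit 420) (nat_lit 346)) (XT.lf (nat_lit 0) (nat_lit 6758680502) (nat_lit 532) (nat_lit 3351991990) (nat_lit 608) (nat_lit 5968645121) (nat_lit 284) (nat_lit 5) (nat_lit 291) (nat_lit 5) (nat_lit 292) (nat_lit 5) (nat_lit 435) (nat_lit 420) (nat_lit 345))) (XT.nd (nat_lit 78) (nat_lit 608) (nat_lit 0) (XT.lf (nat_lit 0) (nat_lit 5843761035) (nat_lit 608) (nat_lit 8247297798) (nat_lit 684) (nat_lit 2421912261) (nat_lit 276) (nat_lit 5) (nat_lit 284) (nat_lit 5) (nat_lit 285) (nat_lit 5) (nat_lit 436) (nat_lit 420) (nat_lit 344)) (XT.lf (nat_lit 0) (nat_lit 1458646742) (nat_lit 608) (nat_lit 11985499967) (nat_lit 76) (nat_lit 3518329287) (nat_lit 268) (nat_lit 5) (nat_lit 276) (nat_lit 5) (nat_lit 269) (nat_lit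 5) (nat_lit 437) (nat_lit 420) (nat_lit 343)))))) (XT.nd (nat_lit 468) (nat_lit 2432) (nat_lit 0) (XT.nd (nat_lit 234) (nat_lit 1368) (nat_lit 0) (XT.nd (nat_lit 78) (nat_lit 912) (nat_lit 0) (XT.lf (nat_lit 0) (nat_lit 4135537397) (nat_lit 532) (nat_lit 1551640207) (nat_lit 608) (nat_lit 11740439354) (nat_lit 261) (nat_lit 5) (nat_lit 268) (nat_lit 5) (nat_lit 269) (nat_lit 5) (nat_lit 438) (nat_lit 420) (nat_lit 342)) (XT.nd (nat_lit 78) (nat_lit 456) (nat_lit 0) (XT.lf (nat_lit 0) (nat_lit 3325800580) (nat_lit 456) (nat_lit 7033776184) (nat_lit 532) (nat_lit 7549466075) (nat_lit 255) (nat_lit 5) (nat_lit 261) (nat_lit 5) (nat_lit 262) (nat_lit 5) (nat_lit 439) (nat_lit 420) (nat_lit 341)) (XT.lf (nat_lit 0) (nat_lit 2589546081) (nat_lit 456) (nat_lit 12879076814) (nat_lit 532) (nat_lit 2939827379) (nat_lit 249) (nat_lit 5) (nat_lit 255) (nat_lit 5) (nat_lit 256) (nat_lit 5) (nat_lit 440) (nat_lit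 420) (nat_lit 340)))) (XT.nd (nat_lit 78) (nat_lit 836) (nat_lit 0) (XT.lf (nat_lit 0) (nat_lit 1910974007) (nat_lit 456) (nat_lit 165759471) (nat_lit 532) (nat_lit 16849141934) (nat_lit 242) (nat_lit 5) (nat_lit 248) (nat_lit 5) (nat_lit 249) (nat_lit 5) (nat_lit 441) (nat_lit 420) (nat_lit 339)) (XT.nd (nat_lit 78) (nat_lit 380) (nat_lit 0) (XT.lf (nat_lit 0) (nat_lit 1226795990) (nat_lit 456) (nat_lit 6333559843) (nat_lit 532) (nat_lit 11899632691) (nat_lit 236) (nat_lit 5) (nat_lit 242) (nat_lit 5) (nat_lit 243) (nat_lit 5) (nat_lit 442) (nat_lit 420) (nat_lit 338)) (XT.lf (nat_lit 0) (nat_lit 629086548) (nat_lit 380) (nat_lit 12915912505) (nat_lit 456) (nat_lit 6469003944) (nat_lit 231) (nat_lit 5) (nat_lit 236) (nat_lit 5) (nat_lit 237) (nat_lit 5) (nat_lit 443) (nat_lit 420) (nat_lit 337))))) (XT.nd (nat_lit 234) (nat_lit 1520) (nat_lit 0) (XT.nd (nat_lit 78) (nat_lit 456) (nat_lit 0) (XT.lf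 (nat_lit 0) (nat_lit 125851972) (nat_lit 456) (nat_lit 19936912582) (nat_lit 532) (nat_lit 525937789) (nat_lit 225) (nat_lit 5) (nat_lit 231) (nat_lit 5) (nat_lit 232) (nat_lit 5) (nat_lit 444) (nat_lit 420) (nat_lit 336)) (XT.nd (nat_lit 78) (nat_lit 380) (nat_lit 0) (XT.lf (nat_lit 0) (nat_lit 5910547337) (nat_lit 532) (nat_lit 387999790) (nat_lit 76) (nat_lit 14882709288) (nat_lit 224) (nat_lit 5) (nat_lit 231) (nat_lit 5) (nat_lit 225) (nat_lit 5) (nat_lit 445) (nat_lit 420) (nat_lit 335)) (XT.lf (nat_lit 0) (nat_lit 12916707688) (nat_lit 456) (nat_lit 810943426) (nat_lit 76) (nat_lit 8067869765) (nat_lit 219) (nat_lit 5) (nat_lit 225) (nat_lit 5) (nat_lit 220) (nat_lit 5) (nat_lit 446) (nat_lit 420) (nat_lit 334)))) (XT.nd (nat_lit 156) (nat_lit 684) (nat_lit 0) (XT.nd (nat_lit 78) (nat_lit 456) (nat_lit 0) (XT.lf (nat_lit 0) (nat_lit 20531070983) (nat_lit 456) (nat_lit 1124797547) (nat_lit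 76) (nat_lit 776893906) (nat_lit 214) (nat_lit 5) (nat_lit 220) (nat_lit 5) (nat_lit 215) (nat_lit 5) (nat_lit 447) (nat_lit 420) (nat_lit 333)) (XT.lf (nat_lit 0) (nat_lit 5655833415) (nat_lit 456) (nat_lit 1444021989) (nat_lit 76) (nat_lit 15990325248) (nat_lit 208) (nat_lit 5) (nat_lit 214) (nat_lit 5) (nat_lit 209) (nat_lit 5) (nat_lit 448) (nat_lit 420) (nat_lit 332))) (XT.nd (nat_lit 78) (nat_lit 304) (nat_lit 0) (XT.lf (nat_lit 0) (nat_lit 13837225301) (nat_lit 456) (nat_lit 1671483157) (nat_lit 76) (nat_lit 8262637474) (nat_lit 203) (nat_lit 5) (nat_lit 209) (nat_lit 5) (nat_lit 204) (nat_lit 5) (nat_lit 449) (nat_lit 420) (nat_lit 331)) (XT.lf (nat_lit 0) (nat_lit 22707284892) (nat_lit 304) (nat_lit 5013386) (nat_lit 380) (nat_lit 1765733453) (nat_lit 199) (nat_lit 5) (nat_lit 203) (nat_lit 5) (nat_lit 204) (nat_lit 5) (nat_lit 450) (nat_lit 420) (nat_lit 330))))))) (XT.nd (nat_lit 1014)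 (nat_lit 2812) (nat_lit 0) (XT.nd (nat_lit 468) (nat_lit 2052) (nat_lit 0) (XT.nd (nat_lit 234) (nat_lit 912) (nat_lit 0) (XT.nd (nat_lit 78) (nat_lit 684) (nat_lit 0) (XT.lf (nat_lit 0) (nat_lit 7060859129) (nat_lit 380) (nat_lit 1886353402) (nat_lit 76) (nat_lit 16259394841) (nat_lit 194) (nat_lit 5) (nat_lit 199) (nat_lit 5) (nat_lit 195) (nat_lit 5) (nat_lit 451) (nat_lit 420) (nat_lit 329)) (XT.nd (nat_lit 78) (nat_lit 380) (nat_lit 0) (XT.lf (nat_lit 0) (nat_lit 16597403933) (nat_lit 380) (nat_lit 1880668955) (nat_lit 76) (nat_lit 7483860740) (nat_lit 190) (nat_lit 5) (nat_lit 195) (nat_lit 5) (nat_lit 191) (nat_lit 5) (nat_lit 452) (nat_lit 420) (nat_lit 328)) (XT.lf (nat_lit 0) (nat_lit 193423636) (nat_lit 380) (nat_lit 1745265435) (nat_lit 76) (nat_lit 24806333444) (nat_lit 185) (nat_lit 5) (nat_lit 190) (nat_lit 5) (nat_lit 186) (nat_lit 5) (nat_lit 453) (nat_lit 420) (nat_lit 327))))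 (XT.nd (nat_lit 78) (nat_lit 608) (nat_lit 0) (XT.lf (nat_lit 0) (nat_lit 10441285971) (nat_lit 380) (nat_lit 1625063931) (nat_lit 76) (nat_lit 15485964342) (nat_lit 181) (nat_lit 5) (nat_lit 186) (nat_lit 5) (nat_lit 182) (nat_lit 5) (nat_lit 454) (nat_lit 420) (nat_lit 326)) (XT.nd (nat_lit 78) (nat_lit 304) (nat_lit 0) (XT.lf (nat_lit 0) (nat_lit 21536105778) (nat_lit 380) (nat_lit 1343150723) (nat_lit 76) (nat_lit 5510677570) (nat_lit 177) (nat_lit 5) (nat_lit 182) (nat_lit 5) (nat_lit 178) (nat_lit 5) (nat_lit 455) (nat_lit 420) (nat_lit 325)) (XT.lf (nat_lit 0) (nat_lit 4237435271) (nat_lit 304) (nat_lit 977992911) (nat_lit 76) (nat_lit 24040949061) (nat_lit 173) (nat_lit 5) (nat_lit 177) (nat_lit 5) (nat_lit 174) (nat_lit 5) (nat_lit 456) (nat_lit 420) (nat_lit 324))))) (XT.nd (nat_lit 234) (nat_lit 988) (nat_lit 0) (XT.nd (nat_lit 78) (nat_lit 760) (nat_lit 0) (XT.lf (nat_lit 0) (nat_lit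 16157475459) (nat_lit 380) (nat_lit 559509859) (nat_lit 76) (nat_lit 13434643021) (nat_lit 169) (nat_lit 5) (nat_lit 174) (nat_lit 5) (nat_lit 170) (nat_lit 5) (nat_lit 457) (nat_lit 420) (nat_lit 323)) (XT.nd (nat_lit 78) (nat_lit 304) (nat_lit 0) (XT.lf (nat_lit 0) (nat_lit 48145358) (nat_lit 228) (nat_lit 28992206108) (nat_lit 304) (nat_lit 2040285882) (nat_lit 163) (nat_lit 5) (nat_lit 166) (nat_lit 5) (nat_lit 167) (nat_lit 5) (nat_lit 458) (nat_lit 420) (nat_lit 322)) (XT.lf (nat_lit 0) (nat_lit 666366620) (nat_lit 228) (nat_lit 10123897769) (nat_lit 304) (nat_lit 21248278456) (nat_lit 159) (nat_lit 5) (nat_lit 162) (nat_lit 5) (nat_lit 163) (nat_lit 5) (nat_lit 459) (nat_lit 420) (nat_lit 321)))) (XT.nd (nat_lit 156) (nat_lit 456) (nat_lit 0) (XT.nd (nat_lit 78) (nat_lit 304) (nat_lit 0) (XT.lf (nat_lit 0) (nat_lit 1449222220) (nat_lit 228) (nat_lit 23185123978) (nat_lit 304) (nat_lit 8396965714)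 (nat_lit 156) (nat_lit 5) (nat_lit 159) (nat_lit 5) (nat_lit 160) (nat_lit 5) (nat_lit 460) (nat_lit 420) (nat_lit 320)) (XT.lf (nat_lit 0) (nat_lit 2369474255) (nat_lit 228) (nat_lit 3063581991) (nat_lit 304) (nat_lit 28626125568) (nat_lit 152) (nat_lit 5) (nat_lit 155) (nat_lit 5) (nat_lit 156) (nat_lit 5) (nat_lit 461) (nat_lit 420) (nat_lit 319))) (XT.nd (nat_lit 78) (nat_lit 228) (nat_lit 0) (XT.lf (nat_lit 0) (nat_lit 3327969867) (nat_lit 228) (nat_lit 16973423697) (nat_lit 304) (nat_lit 14818943496) (nat_lit 149) (nat_lit 5) (nat_lit 152) (nat_lit 5) (nat_lit 153) (nat_lit 5) (nat_lit 462) (nat_lit 420) (nat_lit 318)) (XT.lf (nat_lit 0) (nat_lit 117567877) (nat_lit 228) (nat_lit 31698919322) (nat_lit 76) (nat_lit 4405174868) (nat_lit 146) (nat_lit 5) (nat_lit 149) (nat_lit 5) (nat_lit 147) (nat_lit 5) (nat_lit 463) (nat_lit 420) (nat_lit 317)))))) (XT.nd (nat_lit 546) (nat_lit 1292) (nat_lit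 0) (XT.nd (nat_lit 234) (nat_lit 836) (nat_lit 0) (XT.nd (nat_lit 78) (nat_lit 456) (nat_lit 0) (XT.lf (nat_lit 0) (nat_lit 5712638708) (nat_lit 228) (nat_lit 10326996876) (nat_lit 304) (nat_lit 21317660050) (nat_lit 143) (nat_lit 5) (nat_lit 146) (nat_lit 5) (nat_lit 147) (nat_lit 5) (nat_lit 464) (nat_lit 420) (nat_lit 316)) (XT.nd (nat_lit 78) (nat_lit 304) (nat_lit 0) (XT.lf (nat_lit 0) (nat_lit 7111100431) (nat_lit 152) (nat_lit 26148212589) (nat_lit 228) (nat_lit 5275352911) (nat_lit 141) (nat_lit 5) (nat_lit 143) (nat_lit 5) (nat_lit 144) (nat_lit 5) (nat_lit 465) (nat_lit 420) (nat_lit 315)) (XT.lf (nat_lit 0) (nat_lit 8630893231) (nat_lit 228) (nat_lit 3214885512) (nat_lit 304) (nat_lit 27906716053) (nat_lit 137) (nat_lit 5) (nat_lit 140) (nat_lit 5) (nat_lit 141) (nat_lit 5) (nat_lit 466) (nat_lit 420) (nat_lit 314)))) (XT.nd (nat_lit 156) (nat_lit 380) (nat_lit 0) (XT.nd (nat_lit 78)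 (nat_lit 304) (nat_lit 0) (XT.lf (nat_lit 0) (nat_lit 10242801122) (nat_lit 152) (nat_lit 20084411533) (nat_lit 228) (nat_lit 10684035283) (nat_lit 135) (nat_lit 5) (nat_lit 137) (nat_lit 5) (nat_lit 138) (nat_lit 5) (nat_lit 467) (nat_lit 420) (nat_lit 313)) (XT.lf (nat_lit 0) (nat_lit 7756931324) (nat_lit 304) (nat_lit 30250154824) (nat_lit 76) (nat_lit 4308672408) (nat_lit 131) (nat_lit 5) (nat_lit 135) (nat_lit 5) (nat_lit 132) (nat_lit 5) (nat_lit 468) (nat_lit 420) (nat_lit 312))) (XT.nd (nat_lit 78) (nat_lit 228) (nat_lit 0) (XT.lf (nat_lit 0) (nat_lit 13944240189) (nat_lit 152) (nat_lit 13600659026) (nat_lit 228) (nat_lit 16118044743) (nat_lit 129) (nat_lit 5) (nat_lit 131) (nat_lit 5) (nat_lit 132) (nat_lit 5) (nat_lit 469) (nat_lit 420) (nat_lit 311)) (XT.lf (nat_lit 0) (nat_lit 3759372191) (nat_lit 228) (nat_lit 29011773330) (nat_lit 76) (nat_lit 12288070182) (nat_lit 126) (nat_lit 5)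 (nat_lit 129) (nat_lit 5) (nat_lit 127) (nat_lit 5) (nat_lit 470) (nat_lit 420) (nat_lit 310))))) (XT.nd (nat_lit 234) (nat_lit 760) (nat_lit 0) (XT.nd (nat_lit 78) (nat_lit 380) (nat_lit 0) (XT.lf (nat_lit 0) (nat_lit 18237957377) (nat_lit 152) (nat_lit 6671808565) (nat_lit 228) (nat_lit 21592374165) (nat_lit 124) (nat_lit 5) (nat_lit 126) (nat_lit 5) (nat_lit 127) (nat_lit 5) (nat_lit 471) (nat_lit 420) (nat_lit 309)) (XT.nd (nat_lit 78) (nat_lit 228) (nat_lit 0) (XT.lf (nat_lit 0) (nat_lit 20627050250) (nat_lit 152) (nat_lit 27177905118) (nat_lit 228) (nat_lit 191637242) (nat_lit 122) (nat_lit 5) (nat_lit 124) (nat_lit 5) (nat_lit 125) (nat_lit 5) (nat_lit 472) (nat_lit 420) (nat_lit 308)) (XT.lf (nat_lit 0) (nat_lit 22423356714) (nat_lit 228) (nat_lit 26406516433) (nat_lit 76) (nat_lit 712100924) (nat_lit 119) (nat_lit 5) (nat_lit 122) (nat_lit 5) (nat_lit 120) (nat_lit 5) (nat_lit 473) (nat_lit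 420) (nat_lit 307)))) (XT.nd (nat_lit 156) (nat_lit 380) (nat_lit 0) (XT.nd (nat_lit 78) (nat_lit 228) (nat_lit 0) (XT.lf (nat_lit 0) (nat_lit 25784938884) (nat_lit 152) (nat_lit 21175562643) (nat_lit 228) (nat_lit 4180205358) (nat_lit 117) (nat_lit 5) (nat_lit 119) (nat_lit 5) (nat_lit 120) (nat_lit 5) (nat_lit 474) (nat_lit 420) (nat_lit 306)) (XT.lf (nat_lit 0) (nat_lit 20138521244) (nat_lit 228) (nat_lit 24208557029) (nat_lit 76) (nat_lit 8447903546) (nat_lit 114) (nat_lit 5) (nat_lit 117) (nat_lit 5) (nat_lit 115) (nat_lit 5) (nat_lit 475) (nat_lit 420) (nat_lit 305))) (XT.nd (nat_lit 78) (nat_lit 228) (nat_lit 0) (XT.lf (nat_lit 0) (nat_lit 31569021170) (nat_lit 152) (nat_lit 14788418199) (nat_lit 228) (nat_lit 8150168360) (nat_lit 112) (nat_lit 5) (nat_lit 114) (nat_lit 5) (nat_lit 115) (nat_lit 5) (nat_lit 476) (nat_lit 420) (nat_lit 304)) (XT.lf (nat_lit 0) (nat_lit 17977780628) (nat_lit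 228) (nat_lit 21615491738) (nat_lit 76) (nat_lit 16685339994) (nat_lit 109) (nat_lit 5) (nat_lit 112) (nat_lit 5) (nat_lit 110) (nat_lit 5) (nat_lit 477) (nat_lit 420) (nat_lit 303))))))))
noncomputable def xc81 : XT := (XT.nd (nat_lit 58578) (nat_lit 0) (nat_lit 8664) (XT.nd (nat_lit 1014) (nat_lit 836) (nat_lit 0) (XT.nd (nat_lit 468) (nat_lit 1140) (nat_lit 0) (XT.nd (nat_lit 234) (nat_lit 456) (nat_lit 0) (XT.nd (nat_lit 78) (nat_lit 304) (nat_lit 0) (XT.lf (nat_lit 0) (nat_lit 37981214873) (nat_lit 152) (nat_lit 8006336147) (nat_lit 228) (nat_lit 12125876010) (nat_lit 107) (nat_lit 5) (nat_lit 109) (nat_lit 5) (nat_lit 110) (nat_lit 5) (nat_lit 478) (nat_lit 420) (nat_lit 302)) (XT.nd (nat_lit 78) (nat_lit 152) (nat_lit 0) (XT.lf (nat_lit 0) (nat_lit 15922145045) (nat_lit 152) (nat_lit 18646970248) (nat_lit 76) (nat_lit 25440518253) (nat_lit 105) (nat_lit 5) (nat_lit 107) (nat_lit 5) (nat_lit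 106) (nat_lit 5) (nat_lit 479) (nat_lit 420) (nat_lit 301)) (XT.lf (nat_lit 0) (nat_lit 45013093295) (nat_lit 152) (nat_lit 823848800) (nat_lit 228) (nat_lit 16138651942) (nat_lit 103) (nat_lit 5) (nat_lit 105) (nat_lit 5) (nat_lit 106) (nat_lit 5) (nat_lit 480) (nat_lit 420) (nat_lit 300)))) (XT.nd (nat_lit 78) (nat_lit 304) (nat_lit 0) (XT.lf (nat_lit 0) (nat_lit 13945647444) (nat_lit 152) (nat_lit 15335610369) (nat_lit 76) (nat_lit 34724913553) (nat_lit 101) (nat_lit 5) (nat_lit 103) (nat_lit 5) (nat_lit 102) (nat_lit 5) (nat_lit 481) (nat_lit 420) (nat_lit 299)) (XT.nd (nat_lit 78) (nat_lit 152) (nat_lit 0) (XT.lf (nat_lit 0) (nat_lit 45949602858) (nat_lit 228) (nat_lit 13534819720) (nat_lit 76) (nat_lit 6626585013) (nat_lit 99) (nat_lit 5) (nat_lit 102) (nat_lit 5) (nat_lit 100) (nat_lit 4) (nat_lit 482) (nat_lit 420) (nat_lit 298)) (XT.lf (nat_lit 0) (nat_lit 12013749984) (nat_lit 152) (nat_lit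 11730159468) (nat_lit 76) (nat_lit 44543928911) (nat_lit 97) (nat_lit 5) (nat_lit 99) (nat_lit 5) (nat_lit 98) (nat_lit 5) (nat_lit 483) (nat_lit 420) (nat_lit 297))))) (XT.nd (nat_lit 234) (nat_lit 684) (nat_lit 0) (XT.nd (nat_lit 78) (nat_lit 304) (nat_lit 0) (XT.lf (nat_lit 0) (nat_lit 46242508689) (nat_lit 228) (nat_lit 9854305276) (nat_lit 76) (nat_lit 14444853795) (nat_lit 95) (nat_lit 5) (nat_lit 98) (nat_lit 5) (nat_lit 96) (nat_lit 4) (nat_lit 484) (nat_lit 420) (nat_lit 296)) (XT.nd (nat_lit 78) (nat_lit 152) (nat_lit 0) (XT.lf (nat_lit 0) (nat_lit 10081442847) (nat_lit 152) (nat_lit 7899273167) (nat_lit 76) (nat_lit 54895160950) (nat_lit 93) (nat_lit 5) (nat_lit 95) (nat_lit 5) (nat_lit 94) (nat_lit 5) (nat_lit 485) (nat_lit 420) (nat_lit 295)) (XT.lf (nat_lit 0) (nat_lit 46667050219) (nat_lit 228) (nat_lit 5993451340) (nat_lit 76) (nat_lit 22629421983) (nat_lit 91) (nat_lit 5) (nat_lit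 94) (nat_lit 5) (nat_lit 92) (nat_lit 4) (nat_lit 486) (nat_lit 420) (nat_lit 294)))) (XT.nd (nat_lit 156) (nat_lit 380) (nat_lit 0) (XT.nd (nat_lit 78) (nat_lit 152) (nat_lit 0) (XT.lf (nat_lit 0) (nat_lit 8090980327) (nat_lit 152) (nat_lit 3936022901) (nat_lit 76) (nat_lit 65766316538) (nat_lit 89) (nat_lit 5) (nat_lit 91) (nat_lit 5) (nat_lit 90) (nat_lit 5) (nat_lit 487) (nat_lit 420) (nat_lit 293)) (XT.lf (nat_lit 0) (nat_lit 47169247468) (nat_lit 228) (nat_lit 2059664932) (nat_lit 76) (nat_lit 31150851042) (nat_lit 87) (nat_lit 5) (nat_lit 90) (nat_lit 5) (nat_lit 88) (nat_lit 4) (nat_lit 488) (nat_lit 420) (nat_lit 292))) (XT.nd (nat_lit 78) (nat_lit 76) (nat_lit 0) (XT.lf (nat_lit 0) (nat_lit 37467773) (nat_lit 152) (nat_lit 5932081904) (nat_lit 228) (nat_lit 77095608681) (nat_lit 83) (nat_lit 5) (nat_lit 85) (nat_lit 5) (nat_lit 86) (nat_lit 5) (nat_lit 489) (nat_lit 420) (nat_lit 291))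 (XT.lf (nat_lit 0) (nat_lit 1842757790) (nat_lit 76) (nat_lit 45853905213) (nat_lit 152) (nat_lit 38140048894) (nat_lit 82) (nat_lit 5) (nat_lit 83) (nat_lit 5) (nat_lit 84) (nat_lit 4) (nat_lit 490) (nat_lit 420) (nat_lit 290)))))) (XT.nd (nat_lit 57018) (nat_lit 0) (nat_lit 19760) (XT.nd (nat_lit 234) (nat_lit 380) (nat_lit 0) (XT.nd (nat_lit 78) (nat_lit 228) (nat_lit 0) (XT.lf (nat_lit 0) (nat_lit 3664759110) (nat_lit 228) (nat_lit 84783296537) (nat_lit 76) (nat_lit 269328881) (nat_lit 79) (nat_lit 5) (nat_lit 82) (nat_lit 5) (nat_lit 80) (nat_lit 4) (nat_lit 491) (nat_lit 420) (nat_lit 289)) (XT.nd (nat_lit 78) (nat_lit 152) (nat_lit 0) (XT.lf (nat_lit 0) (nat_lit 5533868399) (nat_lit 76) (nat_lit 42625736189) (nat_lit 152) (nat_lit 43529499766) (nat_lit 78) (nat_lit 5) (nat_lit 79) (nat_lit 5) (nat_lit 80) (nat_lit 4) (nat_lit 492) (nat_lit 420) (nat_lit 288)) (XT.lf (nat_lit 0) (nat_lit 1076033051)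 (nat_lit 152) (nat_lit 87366283276) (nat_lit 76) (nat_lit 6336845383) (nat_lit 76) (nat_lit 5) (nat_lit 78) (nat_lit 5) (nat_lit 77) (nat_lit 4) (nat_lit 493) (nat_lit 420) (nat_lit 287)))) (XT.nd (nat_lit 78) (nat_lit 304) (nat_lit 0) (XT.lf (nat_lit 0) (nat_lit 8740024881) (nat_lit 76) (nat_lit 39682214809) (nat_lit 152) (nat_lit 49546233107) (nat_lit 75) (nat_lit 5) (nat_lit 76) (nat_lit 5) (nat_lit 77) (nat_lit 4) (nat_lit 494) (nat_lit 420) (nat_lit 286)) (XT.nd (nat_lit 156) (nat_lit 228) (nat_lit 0) (XT.lf (nat_lit 0) (nat_lit 10252986496) (nat_lit 76) (nat_lit 88992812842) (nat_lit 76) (nat_lit 2038148858) (nat_lit 74) (nat_lit 4) (nat_lit 75) (nat_lit 5) (nat_lit 75) (nat_lit 4) (nat_lit 495) (nat_lit 420) (nat_lit 285)) (XT.lf (nat_lit 0) (nat_lit 12133316344) (nat_lit 76) (nat_lit 90283324680) (nat_lit 76) (nat_lit 5850485418) (nat_lit 71) (nat_lit 4) (nat_lit 72) (nat_lit 5) (nat_lit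 72) (nat_lit 4) (nat_lit 497) (nat_lit 420) (nat_lit 283))))) (XT.nd (nat_lit 234) (nat_lit 988) (nat_lit 0) (XT.nd (nat_lit 78) (nat_lit 0) (nat_lit 0) (XT.lf (nat_lit 0) (nat_lit 1663966067) (nat_lit 0) (nat_lit 1663966067) (nat_lit 1140) (nat_lit 2499583711) (nat_lit 344) (nat_lit 5) (nat_lit 344) (nat_lit 3) (nat_lit 359) (nat_lit 3) (nat_lit 421) (nat_lit 421) (nat_lit 358)) (XT.nd (nat_lit 78) (nat_lit 0) (nat_lit 76) (XT.lf (nat_lit 76) (nat_lit 1321599041) (nat_lit 0) (nat_lit 6397428587) (nat_lit 1216) (nat_lit 4200437001) (nat_lit 345) (nat_lit 5) (nat_lit 344) (nat_lit 5) (nat_lit 360) (nat_lit 5) (nat_lit 422) (nat_lit 421) (nat_lit 357)) (XT.lf (nat_lit 0) (nat_lit 8926764767) (nat_lit 1140) (nat_lit 657236954) (nat_lit 1216) (nat_lit 2610377577) (nat_lit 345) (nat_lit 5) (nat_lit 360) (nat_lit 5) (nat_lit 361) (nat_lit 5) (nat_lit 423) (nat_lit 421) (nat_lit 356)))) (XT.nd (nat_lit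 156) (nat_lit 1064) (nat_lit 0) (XT.nd (nat_lit 78) (nat_lit 0) (nat_lit 76) (XT.lf (nat_lit 76) (nat_lit 9879286189) (nat_lit 0) (nat_lit 424734898) (nat_lit 1216) (nat_lit 2175747074) (nat_lit 346) (nat_lit 5) (nat_lit 345) (nat_lit 5) (nat_lit 361) (nat_lit 5) (nat_lit 424) (nat_lit 421) (nat_lit 355)) (XT.lf (nat_lit 76) (nat_lit 8218950681) (nat_lit 0) (nat_lit 3657303716) (nat_lit 1216) (nat_lit 899390957) (nat_lit 347) (nat_lit 5) (nat_lit 346) (nat_lit 5) (nat_lit 362) (nat_lit 5) (nat_lit 425) (nat_lit 421) (nat_lit 354))) (XT.nd (nat_lit 78) (nat_lit 0) (nat_lit 76) (XT.lf (nat_lit 0) (nat_lit 539974954) (nat_lit 1216) (nat_lit 6505197187) (nat_lit 1292) (nat_lit 6037785497) (nat_lit 331) (nat_lit 5) (nat_lit 347) (nat_lit 5) (nat_lit 348) (nat_lit 5) (nat_lit 426) (nat_lit 421) (nat_lit 353)) (XT.lf (nat_lit 0) (nat_lit 2148063514) (nat_lit 1216) (nat_lit 8450400766) (nat_lit 1292) (nat_lit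 2803445493) (nat_lit 332) (nat_lit 5) (nat_lit 348) (nat_lit 5) (nat_lit 349) (nat_lit 5) (nat_lit 427) (nat_lit 421) (nat_lit 352))))))) (XT.nd (nat_lit 1014) (nat_lit 5320) (nat_lit 0) (XT.nd (nat_lit 468) (nat_lit 3952) (nat_lit 0) (XT.nd (nat_lit 234) (nat_lit 1900) (nat_lit 0) (XT.nd (nat_lit 78) (nat_lit 0) (nat_lit 76) (XT.lf (nat_lit 76) (nat_lit 3344327600) (nat_lit 0) (nat_lit 620607350) (nat_lit 1292) (nat_lit 9768025151) (nat_lit 333) (nat_lit 5) (nat_lit 332) (nat_lit 5) (nat_lit 349) (nat_lit 5) (nat_lit 428) (nat_lit 421) (nat_lit 351)) (XT.nd (nat_lit 78) (nat_lit 0) (nat_lit 76) (XT.lf (nat_lit 76) (nat_lit 1733881613) (nat_lit 0) (nat_lit 4297353878) (nat_lit 1292) (nat_lit 8044571737) (nat_lit 334) (nat_lit 5) (nat_lit 333) (nat_lit 5) (nat_lit 350) (nat_lit 5) (nat_lit 429) (nat_lit 421) (nat_lit 350)) (XT.lf (nat_lit 76) (nat_lit 150514320) (nat_lit 0) (nat_lit 8187099920) (nat_lit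 1292) (nat_lit 6094081337) (nat_lit 335) (nat_lit 5) (nat_lit 334) (nat_lit 5) (nat_lit 351) (nat_lit 5) (nat_lit 430) (nat_lit 421) (nat_lit 349)))) (XT.nd (nat_lit 78) (nat_lit 2128) (nat_lit 0) (XT.lf (nat_lit 0) (nat_lit 10916499029) (nat_lit 1216) (nat_lit 1375939495) (nat_lit 76) (nat_lit 2508225881) (nat_lit 335) (nat_lit 5) (nat_lit 351) (nat_lit 5) (nat_lit 336) (nat_lit 5) (nat_lit 431) (nat_lit 421) (nat_lit 348)) (XT.nd (nat_lit 78) (nat_lit 912) (nat_lit 0) (XT.lf (nat_lit 0) (nat_lit 12301132187) (nat_lit 1216) (nat_lit 1488512525) (nat_lit 1292) (nat_lit 1393479059) (nat_lit 319) (nat_lit 5) (nat_lit 335) (nat_lit 5) (nat_lit 336) (nat_lit 5) (nat_lit 432) (nat_lit 421) (nat_lit 347)) (XT.lf (nat_lit 0) (nat_lit 1382285190) (nat_lit 912) (nat_lit 4393614970) (nat_lit 76) (nat_lit 9802923574) (nat_lit 307) (nat_lit 5) (nat_lit 319) (nat_lit 5) (nat_lit 308) (nat_lit 5) (nat_lit 433)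 (nat_lit 421) (nat_lit 346))))) (XT.nd (nat_lit 234) (nat_lit 2204) (nat_lit 0) (XT.nd (nat_lit 78) (nat_lit 1140) (nat_lit 0) (XT.lf (nat_lit 0) (nat_lit 4433421575) (nat_lit 684) (nat_lit 5885516447) (nat_lit 76) (nat_lit 5669996077) (nat_lit 299) (nat_lit 5) (nat_lit 308) (nat_lit 5) (nat_lit 300) (nat_lit 5) (nat_lit 434) (nat_lit 421) (nat_lit 345)) (XT.nd (nat_lit 78) (nat_lit 532) (nat_lit 0) (XT.lf (nat_lit 0) (nat_lit 7809033333) (nat_lit 684) (nat_lit 7340559068) (nat_lit 76) (nat_lit 1264801363) (nat_lit 291) (nat_lit 5) (nat_lit 300) (nat_lit 5) (nat_lit 292) (nat_lit 5) (nat_lit 435) (nat_lit 421) (nat_lit 344)) (XT.lf (nat_lit 0) (nat_lit 8066569377) (nat_lit 532) (nat_lit 3499165011) (nat_lit 608) (nat_lit 5289024038) (nat_lit 284) (nat_lit 5) (nat_lit 291) (nat_lit 5) (nat_lit 292) (nat_lit 5) (nat_lit 436) (nat_lit 421) (nat_lit 343)))) (XT.nd (nat_lit 156) (nat_lit 988) (nat_lit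 0) (XT.nd (nat_lit 78) (nat_lit 608) (nat_lit 0) (XT.lf (nat_lit 0) (nat_lit 7105617052) (nat_lit 608) (nat_lit 8603815407) (nat_lit 684) (nat_lit 1601735218) (nat_lit 276) (nat_lit 5) (nat_lit 284) (nat_lit 5) (nat_lit 285) (nat_lit 5) (nat_lit 437) (nat_lit 421) (nat_lit 342)) (XT.lf (nat_lit 0) (nat_lit 2420449887) (nat_lit 608) (nat_lit 11599033912) (nat_lit 76) (nat_lit 3764415336) (nat_lit 268) (nat_lit 5) (nat_lit 276) (nat_lit 5) (nat_lit 269) (nat_lit 5) (nat_lit 438) (nat_lit 421) (nat_lit 341))) (XT.nd (nat_lit 78) (nat_lit 456) (nat_lit 0) (XT.lf (nat_lit 0) (nat_lit 5299799250) (nat_lit 532) (nat_lit 1527484792) (nat_lit 608) (nat_lit 11446008445) (nat_lit 261) (nat_lit 5) (nat_lit 268) (nat_lit 5) (nat_lit 269) (nat_lit 5) (nat_lit 439) (nat_lit 421) (nat_lit 340)) (XT.lf (nat_lit 0) (nat_lit 4446148029) (nat_lit 456) (nat_lit 7256507625) (nat_lit 532) (nat_lit 7077055001) (nat_lit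 255) (nat_lit 5) (nat_lit 261) (nat_lit 5) (nat_lit 262) (nat_lit 5) (nat_lit 440) (nat_lit 421) (nat_lit 339)))))) (XT.nd (nat_lit 546) (nat_lit 2204) (nat_lit 0) (XT.nd (nat_lit 234) (nat_lit 1672) (nat_lit 0) (XT.nd (nat_lit 78) (nat_lit 988) (nat_lit 0) (XT.lf (nat_lit 0) (nat_lit 3668602746) (nat_lit 456) (nat_lit 13369569392) (nat_lit 532) (nat_lit 2266787273) (nat_lit 249) (nat_lit 5) (nat_lit 255) (nat_lit 5) (nat_lit 256) (nat_lit 5) (nat_lit 441) (nat_lit 421) (nat_lit 338)) (XT.nd (nat_lit 78) (nat_lit 456) (nat_lit 0) (XT.lf (nat_lit 0) (nat_lit 2944453781) (nat_lit 456) (nat_lit 10874916) (nat_lit 532) (nat_lit 16893570143) (nat_lit 242) (nat_lit 5) (nat_lit 248) (nat_lit 5) (nat_lit 249) (nat_lit 5) (nat_lit 442) (nat_lit 421) (nat_lit 337)) (XT.lf (nat_lit 0) (nat_lit 2220261006) (nat_lit 456) (nat_lit 6466431880) (nat_lit 532) (nat_lit 11723819214) (nat_lit 236) (nat_lit 5) (nat_lit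 242) (nat_lit 5) (nat_lit 243) (nat_lit 5) (nat_lit 443) (nat_lit 421) (nat_lit 336)))) (XT.nd (nat_lit 156) (nat_lit 760) (nat_lit 0) (XT.nd (nat_lit 78) (nat_lit 532) (nat_lit 0) (XT.lf (nat_lit 0) (nat_lit 1586062285) (nat_lit 380) (nat_lit 13359451129) (nat_lit 456) (nat_lit 6047466779) (nat_lit 231) (nat_lit 5) (nat_lit 236) (nat_lit 5) (nat_lit 237) (nat_lit 5) (nat_lit 444) (nat_lit 421) (nat_lit 335)) (XT.lf (nat_lit 0) (nat_lit 164991742) (nat_lit 532) (nat_lit 20548398284) (nat_lit 76) (nat_lit 883690042) (nat_lit 224) (nat_lit 5) (nat_lit 231) (nat_lit 5) (nat_lit 225) (nat_lit 5) (nat_lit 445) (nat_lit 421) (nat_lit 334))) (XT.nd (nat_lit 78) (nat_lit 380) (nat_lit 0) (XT.lf (nat_lit 0) (nat_lit 490054557) (nat_lit 380) (nat_lit 6393540692) (nat_lit 456) (nat_lit 15336376337) (nat_lit 219) (nat_lit 5) (nat_lit 224) (nat_lit 5) (nat_lit 225) (nat_lit 5) (nat_lit 446) (nat_lit 421) (nat_lit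 333)) (XT.lf (nat_lit 0) (nat_lit 28956525) (nat_lit 380) (nat_lit 14184977604) (nat_lit 456) (nat_lit 8651800079) (nat_lit 214) (nat_lit 5) (nat_lit 219) (nat_lit 5) (nat_lit 220) (nat_lit 5) (nat_lit 447) (nat_lit 421) (nat_lit 332))))) (XT.nd (nat_lit 234) (nat_lit 1368) (nat_lit 0) (XT.nd (nat_lit 78) (nat_lit 836) (nat_lit 0) (XT.lf (nat_lit 0) (nat_lit 22188123088) (nat_lit 456) (nat_lit 309683014) (nat_lit 76) (nat_lit 1037659513) (nat_lit 214) (nat_lit 5) (nat_lit 220) (nat_lit 5) (nat_lit 215) (nat_lit 5) (nat_lit 448) (nat_lit 421) (nat_lit 331)) (XT.nd (nat_lit 78) (nat_lit 380) (nat_lit 0) (XT.lf (nat_lit 0) (nat_lit 6553280307) (nat_lit 456) (nat_lit 657594554) (nat_lit 76) (nat_lit 17015356687) (nat_lit 208) (nat_lit 5) (nat_lit 214) (nat_lit 5) (nat_lit 209) (nat_lit 5) (nat_lit 449) (nat_lit 421) (nat_lit 330)) (XT.lf (nat_lit 0) (nat_lit 15124802485) (nat_lit 456) (nat_lit 905534427)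 (nat_lit 76) (nat_lit 8911687240) (nat_lit 203) (nat_lit 5) (nat_lit 209) (nat_lit 5) (nat_lit 204) (nat_lit 5) (nat_lit 450) (nat_lit 421) (nat_lit 329)))) (XT.nd (nat_lit 156) (nat_lit 684) (nat_lit 0) (XT.nd (nat_lit 78) (nat_lit 380) (nat_lit 0) (XT.lf (nat_lit 0) (nat_lit 24425545244) (nat_lit 380) (nat_lit 1019189022) (nat_lit 76) (nat_lit 239853329) (nat_lit 199) (nat_lit 5) (nat_lit 204) (nat_lit 5) (nat_lit 200) (nat_lit 5) (nat_lit 451) (nat_lit 421) (nat_lit 328)) (XT.lf (nat_lit 0) (nat_lit 7977460170) (nat_lit 380) (nat_lit 1153474814) (nat_lit 76) (nat_lit 17319080516) (nat_lit 194) (nat_lit 5) (nat_lit 199) (nat_lit 5) (nat_lit 195) (nat_lit 5) (nat_lit 452) (nat_lit 421) (nat_lit 327))) (XT.nd (nat_lit 78) (nat_lit 380) (nat_lit 0) (XT.lf (nat_lit 0) (nat_lit 17974209747) (nat_lit 380) (nat_lit 1157359476) (nat_lit 76) (nat_lit 8112038258) (nat_lit 190) (nat_lit 5) (nat_lit 195)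 (nat_lit 5) (nat_lit 191) (nat_lit 5) (nat_lit 453) (nat_lit 421) (nat_lit 326)) (XT.lf (nat_lit 0) (nat_lit 736864150) (nat_lit 380) (nat_lit 1027978046) (nat_lit 76) (nat_lit 26301404717) (nat_lit 185) (nat_lit 5) (nat_lit 190) (nat_lit 5) (nat_lit 186) (nat_lit 5) (nat_lit 454) (nat_lit 421) (nat_lit 325))))))))
noncomputable def xc82 : XT := (XT.nd (nat_lit 2028) (nat_lit 2508) (nat_lit 0) (XT.nd (nat_lit 1014) (nat_lit 2432) (nat_lit 0) (XT.nd (nat_lit 468) (nat_lit 1672) (nat_lit 0) (XT.nd (nat_lit 234) (nat_lit 1064) (nat_lit 0) (XT.nd (nat_lit 78) (nat_lit 608) (nat_lit 0) (XT.lf (nat_lit 0) (nat_lit 11481767503) (nat_lit 380) (nat_lit 911893181) (nat_lit 76) (nat_lit 16520703757) (nat_lit 181) (nat_lit 5) (nat_lit 186) (nat_lit 5) (nat_lit 182) (nat_lit 5) (nat_lit 455) (nat_lit 421) (nat_lit 324)) (XT.nd (nat_lit 78) (nat_lit 304) (nat_lit 0) (XT.lf (nat_lit 0) (nat_lit 23116659603) (nat_lit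 380) (nat_lit 626209735) (nat_lit 76) (nat_lit 6051436602) (nat_lit 177) (nat_lit 5) (nat_lit 182) (nat_lit 5) (nat_lit 178) (nat_lit 5) (nat_lit 456) (nat_lit 421) (nat_lit 323)) (XT.lf (nat_lit 0) (nat_lit 4941222876) (nat_lit 304) (nat_lit 255468523) (nat_lit 76) (nat_lit 25507735784) (nat_lit 173) (nat_lit 5) (nat_lit 177) (nat_lit 5) (nat_lit 174) (nat_lit 5) (nat_lit 457) (nat_lit 421) (nat_lit 322)))) (XT.nd (nat_lit 78) (nat_lit 532) (nat_lit 0) (XT.lf (nat_lit 0) (nat_lit 176930056) (nat_lit 228) (nat_lit 17268444228) (nat_lit 304) (nat_lit 14199423819) (nat_lit 166) (nat_lit 5) (nat_lit 169) (nat_lit 5) (nat_lit 170) (nat_lit 5) (nat_lit 458) (nat_lit 421) (nat_lit 321)) (XT.nd (nat_lit 78) (nat_lit 304) (nat_lit 0) (XT.lf (nat_lit 0) (nat_lit 815868798) (nat_lit 228) (nat_lit 30149166903) (nat_lit 304) (nat_lit 1655443133) (nat_lit 163) (nat_lit 5) (nat_lit 166) (nat_lit 5) (nat_lit 167)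 (nat_lit 5) (nat_lit 459) (nat_lit 421) (nat_lit 320)) (XT.lf (nat_lit 0) (nat_lit 1452301288) (nat_lit 228) (nat_lit 10339336366) (nat_lit 304) (nat_lit 21834966933) (nat_lit 159) (nat_lit 5) (nat_lit 162) (nat_lit 5) (nat_lit 163) (nat_lit 5) (nat_lit 460) (nat_lit 421) (nat_lit 319))))) (XT.nd (nat_lit 234) (nat_lit 912) (nat_lit 0) (XT.nd (nat_lit 78) (nat_lit 532) (nat_lit 0) (XT.lf (nat_lit 0) (nat_lit 2263479213) (nat_lit 228) (nat_lit 24052243437) (nat_lit 304) (nat_lit 8353655942) (nat_lit 156) (nat_lit 5) (nat_lit 159) (nat_lit 5) (nat_lit 160) (nat_lit 5) (nat_lit 461) (nat_lit 421) (nat_lit 318)) (XT.nd (nat_lit 78) (nat_lit 228) (nat_lit 0) (XT.lf (nat_lit 0) (nat_lit 3217267855) (nat_lit 228) (nat_lit 2926947279) (nat_lit 304) (nat_lit 29604732136) (nat_lit 152) (nat_lit 5) (nat_lit 155) (nat_lit 5) (nat_lit 156) (nat_lit 5) (nat_lit 462) (nat_lit 421) (nat_lit 317)) (XT.lf (nat_lit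 0) (nat_lit 4212891871) (nat_lit 228) (nat_lit 17531708681) (nat_lit 304) (nat_lit 15118901192) (nat_lit 149) (nat_lit 5) (nat_lit 152) (nat_lit 5) (nat_lit 153) (nat_lit 5) (nat_lit 463) (nat_lit 421) (nat_lit 316)))) (XT.nd (nat_lit 156) (nat_lit 456) (nat_lit 0) (XT.nd (nat_lit 78) (nat_lit 228) (nat_lit 0) (XT.lf (nat_lit 0) (nat_lit 544795699) (nat_lit 228) (nat_lit 32567772577) (nat_lit 76) (nat_lit 4907528968) (nat_lit 146) (nat_lit 5) (nat_lit 149) (nat_lit 5) (nat_lit 147) (nat_lit 5) (nat_lit 464) (nat_lit 421) (nat_lit 315)) (XT.lf (nat_lit 0) (nat_lit 6693836701) (nat_lit 228) (nat_lit 10555752038) (nat_lit 304) (nat_lit 21963325445) (nat_lit 143) (nat_lit 5) (nat_lit 146) (nat_lit 5) (nat_lit 147) (nat_lit 5) (nat_lit 465) (nat_lit 421) (nat_lit 314))) (XT.nd (nat_lit 78) (nat_lit 304) (nat_lit 0) (XT.lf (nat_lit 0) (nat_lit 8151493152) (nat_lit 152) (nat_lit 27168545656) (nat_lit 228)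 (nat_lit 5129420863) (nat_lit 141) (nat_lit 5) (nat_lit 143) (nat_lit 5) (nat_lit 144) (nat_lit 5) (nat_lit 466) (nat_lit 421) (nat_lit 313)) (XT.lf (nat_lit 0) (nat_lit 9735416774) (nat_lit 228) (nat_lit 3091696160) (nat_lit 304) (nat_lit 28901329001) (nat_lit 137) (nat_lit 5) (nat_lit 140) (nat_lit 5) (nat_lit 141) (nat_lit 5) (nat_lit 467) (nat_lit 421) (nat_lit 312)))))) (XT.nd (nat_lit 468) (nat_lit 1216) (nat_lit 0) (XT.nd (nat_lit 234) (nat_lit 608) (nat_lit 0) (XT.nd (nat_lit 78) (nat_lit 456) (nat_lit 0) (XT.lf (nat_lit 0) (nat_lit 11417321013) (nat_lit 152) (nat_lit 20805738140) (nat_lit 228) (nat_lit 10827360661) (nat_lit 135) (nat_lit 5) (nat_lit 137) (nat_lit 5) (nat_lit 138) (nat_lit 5) (nat_lit 468) (nat_lit 421) (nat_lit 311)) (XT.nd (nat_lit 78) (nat_lit 152) (nat_lit 0) (XT.lf (nat_lit 0) (nat_lit 8518720103) (nat_lit 304) (nat_lit 31103399419) (nat_lit 76) (nat_lit 4798203196)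 (nat_lit 131) (nat_lit 5) (nat_lit 135) (nat_lit 5) (nat_lit 132) (nat_lit 5) (nat_lit 469) (nat_lit 421) (nat_lit 310)) (XT.lf (nat_lit 0) (nat_lit 15281817698) (nat_lit 152) (nat_lit 14002617504) (nat_lit 228) (nat_lit 16550781988) (nat_lit 129) (nat_lit 5) (nat_lit 131) (nat_lit 5) (nat_lit 132) (nat_lit 5) (nat_lit 470) (nat_lit 421) (nat_lit 309)))) (XT.nd (nat_lit 78) (nat_lit 380) (nat_lit 0) (XT.lf (nat_lit 0) (nat_lit 4304487598) (nat_lit 228) (nat_lit 29825273816) (nat_lit 76) (nat_lit 13171695830) (nat_lit 126) (nat_lit 5) (nat_lit 129) (nat_lit 5) (nat_lit 127) (nat_lit 5) (nat_lit 471) (nat_lit 421) (nat_lit 308)) (XT.nd (nat_lit 78) (nat_lit 228) (nat_lit 0) (XT.lf (nat_lit 0) (nat_lit 19768681422) (nat_lit 152) (nat_lit 6732661160) (nat_lit 228) (nat_lit 22315517269) (nat_lit 124) (nat_lit 5) (nat_lit 126) (nat_lit 5) (nat_lit 127) (nat_lit 5) (nat_lit 472) (nat_lit 421) (nat_lit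 307)) (XT.lf (nat_lit 0) (nat_lit 144013156) (nat_lit 228) (nat_lit 28120657732) (nat_lit 76) (nat_lit 22121565943) (nat_lit 121) (nat_lit 5) (nat_lit 124) (nat_lit 5) (nat_lit 122) (nat_lit 5) (nat_lit 473) (nat_lit 421) (nat_lit 306))))) (XT.nd (nat_lit 234) (nat_lit 684) (nat_lit 0) (XT.nd (nat_lit 78) (nat_lit 380) (nat_lit 0) (XT.lf (nat_lit 0) (nat_lit 23877890378) (nat_lit 228) (nat_lit 27121694255) (nat_lit 76) (nat_lit 1009483105) (nat_lit 119) (nat_lit 5) (nat_lit 122) (nat_lit 5) (nat_lit 120) (nat_lit 5) (nat_lit 474) (nat_lit 421) (nat_lit 305)) (XT.nd (nat_lit 78) (nat_lit 228) (nat_lit 0) (XT.lf (nat_lit 0) (nat_lit 27661987382) (nat_lit 152) (nat_lit 21969680795) (nat_lit 228) (nat_lit 4056375938) (nat_lit 117) (nat_lit 5) (nat_lit 119) (nat_lit 5) (nat_lit 120) (nat_lit 5) (nat_lit 475) (nat_lit 421) (nat_lit 304)) (XT.lf (nat_lit 0) (nat_lit 21464308924) (nat_lit 228) (nat_lit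 24834734022) (nat_lit 76) (nat_lit 9126118540) (nat_lit 114) (nat_lit 5) (nat_lit 117) (nat_lit 5) (nat_lit 115) (nat_lit 5) (nat_lit 476) (nat_lit 421) (nat_lit 303)))) (XT.nd (nat_lit 156) (nat_lit 304) (nat_lit 0) (XT.nd (nat_lit 78) (nat_lit 228) (nat_lit 0) (XT.lf (nat_lit 0) (nat_lit 33714975654) (nat_lit 152) (nat_lit 15269468605) (nat_lit 228) (nat_lit 8239266464) (nat_lit 112) (nat_lit 5) (nat_lit 114) (nat_lit 5) (nat_lit 115) (nat_lit 5) (nat_lit 477) (nat_lit 421) (nat_lit 302)) (XT.lf (nat_lit 0) (nat_lit 19181804230) (nat_lit 228) (nat_lit 22132355311) (nat_lit 76) (nat_lit 17769226252) (nat_lit 109) (nat_lit 5) (nat_lit 112) (nat_lit 5) (nat_lit 110) (nat_lit 5) (nat_lit 478) (nat_lit 421) (nat_lit 301))) (XT.nd (nat_lit 78) (nat_lit 152) (nat_lit 0) (XT.lf (nat_lit 0) (nat_lit 40428022235) (nat_lit 152) (nat_lit 8154775964) (nat_lit 228) (nat_lit 12427421095) (nat_lit 107) (nat_lit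 5) (nat_lit 109) (nat_lit 5) (nat_lit 110) (nat_lit 5) (nat_lit 479) (nat_lit 421) (nat_lit 300)) (XT.lf (nat_lit 0) (nat_lit 17010380214) (nat_lit 152) (nat_lit 19035183720) (nat_lit 76) (nat_lit 26955784679) (nat_lit 105) (nat_lit 5) (nat_lit 107) (nat_lit 5) (nat_lit 106) (nat_lit 5) (nat_lit 480) (nat_lit 421) (nat_lit 299))))))) (XT.nd (nat_lit 1014) (nat_lit 456) (nat_lit 0) (XT.nd (nat_lit 468) (nat_lit 1140) (nat_lit 0) (XT.nd (nat_lit 234) (nat_lit 456) (nat_lit 0) (XT.nd (nat_lit 78) (nat_lit 304) (nat_lit 0) (XT.lf (nat_lit 0) (nat_lit 47792285478) (nat_lit 152) (nat_lit 619801411) (nat_lit 228) (nat_lit 16653785279) (nat_lit 103) (nat_lit 5) (nat_lit 105) (nat_lit 5) (nat_lit 106) (nat_lit 5) (nat_lit 481) (nat_lit 421) (nat_lit 298)) (XT.nd (nat_lit 78) (nat_lit 152) (nat_lit 0) (XT.lf (nat_lit 0) (nat_lit 14922720121) (nat_lit 152) (nat_lit 15577464919) (nat_lit 76) (nat_lit 36697898743)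 (nat_lit 101) (nat_lit 5) (nat_lit 103) (nat_lit 5) (nat_lit 102) (nat_lit 5) (nat_lit 482) (nat_lit 421) (nat_lit 297)) (XT.lf (nat_lit 0) (nat_lit 48520743940) (nat_lit 228) (nat_lit 13695830975) (nat_lit 76) (nat_lit 7191770903) (nat_lit 99) (nat_lit 5) (nat_lit 102) (nat_lit 5) (nat_lit 100) (nat_lit 4) (nat_lit 483) (nat_lit 421) (nat_lit 296)))) (XT.nd (nat_lit 78) (nat_lit 304) (nat_lit 0) (XT.lf (nat_lit 0) (nat_lit 12882512690) (nat_lit 152) (nat_lit 11810383627) (nat_lit 76) (nat_lit 47001289557) (nat_lit 97) (nat_lit 5) (nat_lit 99) (nat_lit 5) (nat_lit 98) (nat_lit 5) (nat_lit 484) (nat_lit 421) (nat_lit 295)) (XT.nd (nat_lit 78) (nat_lit 152) (nat_lit 0) (XT.lf (nat_lit 0) (nat_lit 48816898624) (nat_lit 228) (nat_lit 9849673666) (nat_lit 76) (nat_lit 15394308875) (nat_lit 95) (nat_lit 5) (nat_lit 98) (nat_lit 5) (nat_lit 96) (nat_lit 4) (nat_lit 485) (nat_lit 421) (nat_lit 294)) (XT.lf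 (nat_lit 0) (nat_lit 10842455382) (nat_lit 152) (nat_lit 7806030789) (nat_lit 76) (nat_lit 57863474536) (nat_lit 93) (nat_lit 5) (nat_lit 95) (nat_lit 5) (nat_lit 94) (nat_lit 5) (nat_lit 486) (nat_lit 421) (nat_lit 293))))) (XT.nd (nat_lit 234) (nat_lit 684) (nat_lit 0) (XT.nd (nat_lit 78) (nat_lit 304) (nat_lit 0) (XT.lf (nat_lit 0) (nat_lit 49251828619) (nat_lit 228) (nat_lit 5813594828) (nat_lit 76) (nat_lit 23981451693) (nat_lit 91) (nat_lit 5) (nat_lit 94) (nat_lit 5) (nat_lit 92) (nat_lit 4) (nat_lit 487) (nat_lit 421) (nat_lit 292)) (XT.nd (nat_lit 78) (nat_lit 152) (nat_lit 0) (XT.lf (nat_lit 0) (nat_lit 8741876805) (nat_lit 152) (nat_lit 3662136107) (nat_lit 76) (nat_lit 69271580751) (nat_lit 89) (nat_lit 5) (nat_lit 91) (nat_lit 5) (nat_lit 90) (nat_lit 5) (nat_lit 488) (nat_lit 421) (nat_lit 291)) (XT.lf (nat_lit 0) (nat_lit 49768818638) (nat_lit 228) (nat_lit 1700377803) (nat_lit 76)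 (nat_lit 32922320321) (nat_lit 87) (nat_lit 5) (nat_lit 90) (nat_lit 5) (nat_lit 88) (nat_lit 4) (nat_lit 489) (nat_lit 421) (nat_lit 290)))) (XT.nd (nat_lit 156) (nat_lit 304) (nat_lit 0) (XT.nd (nat_lit 78) (nat_lit 76) (nat_lit 0) (XT.lf (nat_lit 0) (nat_lit 502094162) (nat_lit 152) (nat_lit 6006642696) (nat_lit 228) (nat_lit 80702456659) (nat_lit 83) (nat_lit 5) (nat_lit 85) (nat_lit 5) (nat_lit 86) (nat_lit 5) (nat_lit 490) (nat_lit 421) (nat_lit 289)) (XT.lf (nat_lit 0) (nat_lit 2389326445) (nat_lit 76) (nat_lit 47927818083) (nat_lit 152) (nat_lit 39804332115) (nat_lit 82) (nat_lit 5) (nat_lit 83) (nat_lit 5) (nat_lit 84) (nat_lit 4) (nat_lit 491) (nat_lit 421) (nat_lit 288))) (XT.nd (nat_lit 78) (nat_lit 76) (nat_lit 0) (XT.lf (nat_lit 0) (nat_lit 4081002105) (nat_lit 228) (nat_lit 88571592836) (nat_lit 76) (nat_lit 493667370) (nat_lit 79) (nat_lit 5) (nat_lit 82) (nat_lit 5) (nat_lit 80)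 (nat_lit 4) (nat_lit 492) (nat_lit 421) (nat_lit 287)) (XT.lf (nat_lit 0) (nat_lit 6248506291) (nat_lit 76) (nat_lit 44545197877) (nat_lit 152) (nat_lit 45473070591) (nat_lit 78) (nat_lit 5) (nat_lit 79) (nat_lit 5) (nat_lit 80) (nat_lit 4) (nat_lit 493) (nat_lit 421) (nat_lit 286)))))) (XT.nd (nat_lit 57174) (nat_lit 0) (nat_lit 19608) (XT.nd (nat_lit 56862) (nat_lit 0) (nat_lit 20672) (XT.nd (nat_lit 78) (nat_lit 304) (nat_lit 0) (XT.lf (nat_lit 0) (nat_lit 1353452624) (nat_lit 152) (nat_lit 91300142483) (nat_lit 76) (nat_lit 6857815012) (nat_lit 76) (nat_lit 5) (nat_lit 78) (nat_lit 5) (nat_lit 77) (nat_lit 4) (nat_lit 494) (nat_lit 421) (nat_lit 285)) (XT.nd (nat_lit 156) (nat_lit 228) (nat_lit 0) (XT.lf (nat_lit 0) (nat_lit 9599027518) (nat_lit 76) (nat_lit 41461350141) (nat_lit 152) (nat_lit 51800006914) (nat_lit 75) (nat_lit 5) (nat_lit 76) (nat_lit 5) (nat_lit 77) (nat_lit 4) (nat_lit 495)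 (nat_lit 421) (nat_lit 284)) (XT.lf (nat_lit 0) (nat_lit 12134666890) (nat_lit 76) (nat_lit 38830560477) (nat_lit 152) (nat_lit 58972503386) (nat_lit 72) (nat_lit 5) (nat_lit 73) (nat_lit 5) (nat_lit 74) (nat_lit 4) (nat_lit 497) (nat_lit 421) (nat_lit 282)))) (XT.nd (nat_lit 156) (nat_lit 0) (nat_lit 76) (XT.nd (nat_lit 78) (nat_lit 0) (nat_lit 0) (XT.lf (nat_lit 0) (nat_lit 2155709507) (nat_lit 0) (nat_lit 2155709507) (nat_lit 1140) (nat_lit 1782920685) (nat_lit 344) (nat_lit 5) (nat_lit 344) (nat_lit 3) (nat_lit 359) (nat_lit 3) (nat_lit 422) (nat_lit 422) (nat_lit 356)) (XT.lf (nat_lit 76) (nat_lit 2236673087) (nat_lit 0) (nat_lit 7425349048) (nat_lit 1216) (nat_lit 2806629712) (nat_lit 345) (nat_lit 5) (nat_lit 344) (nat_lit 5) (nat_lit 360) (nat_lit 5) (nat_lit 423) (nat_lit 422) (nat_lit 355))) (XT.nd (nat_lit 78) (nat_lit 0) (nat_lit 0) (XT.lf (nat_lit 76) (nat_lit 172880730) (nat_lit 0)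 (nat_lit 10678300229) (nat_lit 1216) (nat_lit 1908503804) (nat_lit 346) (nat_lit 5) (nat_lit 345) (nat_lit 5) (nat_lit 361) (nat_lit 5) (nat_lit 424) (nat_lit 422) (nat_lit 354)) (XT.lf (nat_lit 76) (nat_lit 11208216072) (nat_lit 0) (nat_lit 1025142858) (nat_lit 1216) (nat_lit 827905762) (nat_lit 346) (nat_lit 5) (nat_lit 345) (nat_lit 5) (nat_lit 361) (nat_lit 5) (nat_lit 425) (nat_lit 422) (nat_lit 353))))) (XT.nd (nat_lit 234) (nat_lit 0) (nat_lit 152) (XT.nd (nat_lit 78) (nat_lit 0) (nat_lit 76) (XT.lf (nat_lit 0) (nat_lit 437233982) (nat_lit 1216) (nat_lit 3890546212) (nat_lit 1292) (nat_lit 9045962097) (nat_lit 330) (nat_lit 5) (nat_lit 346) (nat_lit 5) (nat_lit 347) (nat_lit 5) (nat_lit 426) (nat_lit 422) (nat_lit 352)) (XT.nd (nat_lit 78) (nat_lit 0) (nat_lit 76) (XT.lf (nat_lit 0) (nat_lit 1869193429) (nat_lit 1216) (nat_lit 5927365474) (nat_lit 1292) (nat_lit 5901420343) (nat_lit 331)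 (nat_lit 5) (nat_lit 347) (nat_lit 5) (nat_lit 348) (nat_lit 5) (nat_lit 427) (nat_lit 422) (nat_lit 351)) (XT.lf (nat_lit 0) (nat_lit 3500537703) (nat_lit 1216) (nat_lit 7954629608) (nat_lit 1292) (nat_lit 2579428980) (nat_lit 332) (nat_lit 5) (nat_lit 348) (nat_lit 5) (nat_lit 349) (nat_lit 5) (nat_lit 428) (nat_lit 422) (nat_lit 350)))) (XT.nd (nat_lit 156) (nat_lit 0) (nat_lit 152) (XT.nd (nat_lit 78) (nat_lit 0) (nat_lit 76) (XT.lf (nat_lit 76) (nat_lit 4403512543) (nat_lit 0) (nat_lit 954025219) (nat_lit 1292) (nat_lit 9026185529) (nat_lit 333) (nat_lit 5) (nat_lit 332) (nat_lit 5) (nat_lit 349) (nat_lit 5) (nat_lit 429) (nat_lit 422) (nat_lit 349)) (XT.lf (nat_lit 76) (nat_lit 2724655754) (nat_lit 0) (nat_lit 4751545730) (nat_lit 1292) (nat_lit 7269042423) (nat_lit 334) (nat_lit 5) (nat_lit 333) (nat_lit 5) (nat_lit 350) (nat_lit 5) (nat_lit 430) (nat_lit 422) (nat_lit 348))) (XT.nd (nat_lit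 78) (nat_lit 0) (nat_lit 76) (XT.lf (nat_lit 76) (nat_lit 1071808350) (nat_lit 0) (nat_lit 8778235720) (nat_lit 1292) (nat_lit 5270320711) (nat_lit 335) (nat_lit 5) (nat_lit 334) (nat_lit 5) (nat_lit 351) (nat_lit 5) (nat_lit 431) (nat_lit 422) (nat_lit 347)) (XT.lf (nat_lit 0) (nat_lit 12504039914) (nat_lit 1216) (nat_lit 541468588) (nat_lit 76) (nat_lit 2463890883) (nat_lit 335) (nat_lit 5) (nat_lit 351) (nat_lit 5) (nat_lit 336) (nat_lit 5) (nat_lit 432) (nat_lit 422) (nat_lit 346))))))))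
noncomputable def xc83 : XT := (XT.nd (nat_lit 2028) (nat_lit 5472) (nat_lit 0) (XT.nd (nat_lit 1014) (nat_lit 4712) (nat_lit 0) (XT.nd (nat_lit 468) (nat_lit 3420) (nat_lit 0) (XT.nd (nat_lit 234) (nat_lit 1748) (nat_lit 0) (XT.nd (nat_lit 78) (nat_lit 1520) (nat_lit 0) (XT.lf (nat_lit 0) (nat_lit 13793564686) (nat_lit 1216) (nat_lit 1686106549) (nat_lit 1292) (nat_lit 432547862) (nat_lit 319) (nat_lit 5) (nat_lit 335) (nat_lit 5) (nat_lit 336) (nat_lit 5) (nat_lit 433) (nat_lit 422) (nat_lit 345)) (XT.nd (nat_lit 78) (nat_lit 608) (nat_lit 0) (XT.lf (nat_lit 0) (nat_lit 2421204102) (nat_lit 912) (nat_lit 3711378232) (nat_lit 76) (nat_lit 10196047268) (nat_lit 307) (nat_lit 5) (nat_lit 319) (nat_lit 5) (nat_lit 308) (nat_lit 5) (nat_lit 434) (nat_lit 422) (nat_lit 344)) (XT.lf (nat_lit 0) (nat_lit 5586599277) (nat_lit 684) (nat_lit 5275189387) (nat_lit 76) (nat_lit 5898607722) (nat_lit 299) (nat_lit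 5) (nat_lit 308) (nat_lit 5) (nat_lit 300) (nat_lit 5) (nat_lit 435) (nat_lit 422) (nat_lit 343)))) (XT.nd (nat_lit 78) (nat_lit 1140) (nat_lit 0) (XT.lf (nat_lit 0) (nat_lit 9094917830) (nat_lit 684) (nat_lit 6801846510) (nat_lit 76) (nat_lit 1311448776) (nat_lit 291) (nat_lit 5) (nat_lit 300) (nat_lit 5) (nat_lit 292) (nat_lit 5) (nat_lit 436) (nat_lit 422) (nat_lit 342)) (XT.nd (nat_lit 78) (nat_lit 608) (nat_lit 0) (XT.lf (nat_lit 0) (nat_lit 9349675487) (nat_lit 532) (nat_lit 3655595754) (nat_lit 608) (nat_lit 4666352030) (nat_lit 284) (nat_lit 5) (nat_lit 291) (nat_lit 5) (nat_lit 292) (nat_lit 5) (nat_lit 437) (nat_lit 422) (nat_lit 341)) (XT.lf (nat_lit 0) (nat_lit 8340415334) (nat_lit 608) (nat_lit 8983351046) (nat_lit 684) (nat_lit 828059933) (nat_lit 276) (nat_lit 5) (nat_lit 284) (nat_lit 5) (nat_lit 285) (nat_lit 5) (nat_lit 438) (nat_lit 422) (nat_lit 340))))) (XT.nd (nat_lit 234)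 (nat_lit 1824) (nat_lit 0) (XT.nd (nat_lit 78) (nat_lit 988) (nat_lit 0) (XT.lf (nat_lit 0) (nat_lit 3347704407) (nat_lit 608) (nat_lit 11284889415) (nat_lit 76) (nat_lit 4016281984) (nat_lit 268) (nat_lit 5) (nat_lit 276) (nat_lit 5) (nat_lit 269) (nat_lit 5) (nat_lit 439) (nat_lit 422) (nat_lit 339)) (XT.nd (nat_lit 78) (nat_lit 456) (nat_lit 0) (XT.lf (nat_lit 0) (nat_lit 6433256318) (nat_lit 532) (nat_lit 1511580188) (nat_lit 608) (nat_lit 11218805125) (nat_lit 261) (nat_lit 5) (nat_lit 268) (nat_lit 5) (nat_lit 269) (nat_lit 5) (nat_lit 440) (nat_lit 422) (nat_lit 338)) (XT.lf (nat_lit 0) (nat_lit 5533813635) (nat_lit 456) (nat_lit 7502364871) (nat_lit 532) (nat_lit 6660037567) (nat_lit 255) (nat_lit 5) (nat_lit 261) (nat_lit 5) (nat_lit 262) (nat_lit 5) (nat_lit 441) (nat_lit 422) (nat_lit 337)))) (XT.nd (nat_lit 156) (nat_lit 836) (nat_lit 0) (XT.nd (nat_lit 78) (nat_lit 532) (nat_lit 0)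 (XT.lf (nat_lit 0) (nat_lit 4713329355) (nat_lit 456) (nat_lit 13898853972) (nat_lit 532) (nat_lit 1636333916) (nat_lit 249) (nat_lit 5) (nat_lit 255) (nat_lit 5) (nat_lit 256) (nat_lit 5) (nat_lit 442) (nat_lit 422) (nat_lit 336)) (XT.lf (nat_lit 0) (nat_lit 3807136897) (nat_lit 532) (nat_lit 16879142219) (nat_lit 76) (nat_lit 133918393) (nat_lit 242) (nat_lit 5) (nat_lit 249) (nat_lit 5) (nat_lit 243) (nat_lit 5) (nat_lit 443) (nat_lit 422) (nat_lit 335))) (XT.nd (nat_lit 78) (nat_lit 380) (nat_lit 0) (XT.lf (nat_lit 0) (nat_lit 3176739106) (nat_lit 456) (nat_lit 6623036055) (nat_lit 532) (nat_lit 11610876287) (nat_lit 236) (nat_lit 5) (nat_lit 242) (nat_lit 5) (nat_lit 243) (nat_lit 5) (nat_lit 444) (nat_lit 422) (nat_lit 334)) (XT.lf (nat_lit 0) (nat_lit 2504840601) (nat_lit 380) (nat_lit 13843970623) (nat_lit 456) (nat_lit 5674114620) (nat_lit 231) (nat_lit 5) (nat_lit 236) (nat_lit 5) (nat_lit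 237) (nat_lit 5) (nat_lit 445) (nat_lit 422) (nat_lit 333)))))) (XT.nd (nat_lit 468) (nat_lit 2584) (nat_lit 0) (XT.nd (nat_lit 234) (nat_lit 836) (nat_lit 0) (XT.nd (nat_lit 78) (nat_lit 760) (nat_lit 0) (XT.lf (nat_lit 0) (nat_lit 814012606) (nat_lit 532) (nat_lit 20730207143) (nat_lit 76) (nat_lit 1113470199) (nat_lit 224) (nat_lit 5) (nat_lit 231) (nat_lit 5) (nat_lit 225) (nat_lit 5) (nat_lit 446) (nat_lit 422) (nat_lit 332)) (XT.nd (nat_lit 78) (nat_lit 380) (nat_lit 0) (XT.lf (nat_lit 0) (nat_lit 1335929069) (nat_lit 380) (nat_lit 6509999830) (nat_lit 456) (nat_lit 15466476665) (nat_lit 219) (nat_lit 5) (nat_lit 224) (nat_lit 5) (nat_lit 225) (nat_lit 5) (nat_lit 447) (nat_lit 422) (nat_lit 331)) (XT.lf (nat_lit 0) (nat_lit 844366670) (nat_lit 380) (nat_lit 14678666890) (nat_lit 456) (nat_lit 8468016242) (nat_lit 214) (nat_lit 5) (nat_lit 219) (nat_lit 5) (nat_lit 220) (nat_lit 5) (nat_lit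 448) (nat_lit 422) (nat_lit 330)))) (XT.nd (nat_lit 78) (nat_lit 456) (nat_lit 0) (XT.lf (nat_lit 0) (nat_lit 474434904) (nat_lit 380) (nat_lit 23399535673) (nat_lit 456) (nat_lit 820956951) (nat_lit 209) (nat_lit 5) (nat_lit 214) (nat_lit 5) (nat_lit 215) (nat_lit 5) (nat_lit 449) (nat_lit 422) (nat_lit 329)) (XT.nd (nat_lit 78) (nat_lit 0) (nat_lit 0) (XT.lf (nat_lit 0) (nat_lit 90084991) (nat_lit 380) (nat_lit 7349235688) (nat_lit 456) (nat_lit 17981454395) (nat_lit 203) (nat_lit 5) (nat_lit 208) (nat_lit 5) (nat_lit 209) (nat_lit 5) (nat_lit 450) (nat_lit 422) (nat_lit 328)) (XT.lf (nat_lit 0) (nat_lit 16421374509) (nat_lit 456) (nat_lit 180268846) (nat_lit 76) (nat_lit 9571256085) (nat_lit 203) (nat_lit 5) (nat_lit 209) (nat_lit 5) (nat_lit 204) (nat_lit 5) (nat_lit 451) (nat_lit 422) (nat_lit 327))))) (XT.nd (nat_lit 234) (nat_lit 1596) (nat_lit 0) (XT.nd (nat_lit 78) (nat_lit 684) (nat_lit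 0) (XT.lf (nat_lit 0) (nat_lit 26170797701) (nat_lit 380) (nat_lit 308203296) (nat_lit 76) (nat_lit 474081520) (nat_lit 199) (nat_lit 5) (nat_lit 204) (nat_lit 5) (nat_lit 200) (nat_lit 5) (nat_lit 452) (nat_lit 422) (nat_lit 326)) (XT.nd (nat_lit 78) (nat_lit 304) (nat_lit 0) (XT.lf (nat_lit 0) (nat_lit 8887496975) (nat_lit 380) (nat_lit 460857164) (nat_lit 76) (nat_lit 18408813166) (nat_lit 194) (nat_lit 5) (nat_lit 199) (nat_lit 5) (nat_lit 195) (nat_lit 5) (nat_lit 453) (nat_lit 422) (nat_lit 325)) (XT.lf (nat_lit 0) (nat_lit 19369006962) (nat_lit 380) (nat_lit 473873321) (nat_lit 76) (nat_lit 8748011583) (nat_lit 190) (nat_lit 5) (nat_lit 195) (nat_lit 5) (nat_lit 191) (nat_lit 5) (nat_lit 454) (nat_lit 422) (nat_lit 324)))) (XT.nd (nat_lit 156) (nat_lit 912) (nat_lit 0) (XT.nd (nat_lit 78) (nat_lit 304) (nat_lit 0) (XT.lf (nat_lit 0) (nat_lit 1257851875) (nat_lit 380) (nat_lit 349625783) (nat_lit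 76) (nat_lit 27847544886) (nat_lit 185) (nat_lit 5) (nat_lit 190) (nat_lit 5) (nat_lit 186) (nat_lit 5) (nat_lit 455) (nat_lit 422) (nat_lit 323)) (XT.lf (nat_lit 0) (nat_lit 12526075591) (nat_lit 380) (nat_lit 236921902) (nat_lit 76) (nat_lit 17582966789) (nat_lit 181) (nat_lit 5) (nat_lit 186) (nat_lit 5) (nat_lit 182) (nat_lit 5) (nat_lit 456) (nat_lit 422) (nat_lit 322))) (XT.nd (nat_lit 78) (nat_lit 380) (nat_lit 0) (XT.lf (nat_lit 0) (nat_lit 54748595) (nat_lit 228) (nat_lit 24675185036) (nat_lit 304) (nat_lit 6540353146) (nat_lit 174) (nat_lit 5) (nat_lit 177) (nat_lit 5) (nat_lit 178) (nat_lit 5) (nat_lit 457) (nat_lit 422) (nat_lit 321)) (XT.lf (nat_lit 0) (nat_lit 440049336) (nat_lit 304) (nat_lit 5198646877) (nat_lit 380) (nat_lit 26587429582) (nat_lit 169) (nat_lit 5) (nat_lit 173) (nat_lit 5) (nat_lit 174) (nat_lit 5) (nat_lit 458) (nat_lit 422) (nat_lit 320))))))) (XT.nd (nat_lit 1014)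 (nat_lit 2432) (nat_lit 0) (XT.nd (nat_lit 468) (nat_lit 1520) (nat_lit 0) (XT.nd (nat_lit 234) (nat_lit 760) (nat_lit 0) (XT.nd (nat_lit 78) (nat_lit 532) (nat_lit 0) (XT.lf (nat_lit 0) (nat_lit 889728958) (nat_lit 228) (nat_lit 17868535095) (nat_lit 304) (nat_lit 14455545436) (nat_lit 166) (nat_lit 5) (nat_lit 169) (nat_lit 5) (nat_lit 170) (nat_lit 5) (nat_lit 459) (nat_lit 422) (nat_lit 319)) (XT.nd (nat_lit 78) (nat_lit 304) (nat_lit 0) (XT.lf (nat_lit 0) (nat_lit 1550826566) (nat_lit 228) (nat_lit 31391183516) (nat_lit 304) (nat_lit 1296621599) (nat_lit 163) (nat_lit 5) (nat_lit 166) (nat_lit 5) (nat_lit 167) (nat_lit 5) (nat_lit 460) (nat_lit 422) (nat_lit 318)) (XT.lf (nat_lit 0) (nat_lit 2207561557) (nat_lit 228) (nat_lit 10592578657) (nat_lit 304) (nat_lit 22495218275) (nat_lit 159) (nat_lit 5) (nat_lit 162) (nat_lit 5) (nat_lit 163) (nat_lit 5) (nat_lit 461) (nat_lit 422) (nat_lit 317))))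 (XT.nd (nat_lit 78) (nat_lit 532) (nat_lit 0) (XT.lf (nat_lit 0) (nat_lit 3049483905) (nat_lit 228) (nat_lit 24989878973) (nat_lit 304) (nat_lit 8351240727) (nat_lit 156) (nat_lit 5) (nat_lit 159) (nat_lit 5) (nat_lit 160) (nat_lit 5) (nat_lit 462) (nat_lit 422) (nat_lit 316)) (XT.nd (nat_lit 78) (nat_lit 228) (nat_lit 0) (XT.lf (nat_lit 0) (nat_lit 4039645884) (nat_lit 228) (nat_lit 2810424973) (nat_lit 304) (nat_lit 30674356760) (nat_lit 152) (nat_lit 5) (nat_lit 155) (nat_lit 5) (nat_lit 156) (nat_lit 5) (nat_lit 463) (nat_lit 422) (nat_lit 315)) (XT.lf (nat_lit 0) (nat_lit 5075258469) (nat_lit 228) (nat_lit 18144905271) (nat_lit 304) (nat_lit 15474855794) (nat_lit 149) (nat_lit 5) (nat_lit 152) (nat_lit 5) (nat_lit 153) (nat_lit 5) (nat_lit 464) (nat_lit 422) (nat_lit 314))))) (XT.nd (nat_lit 234) (nat_lit 912) (nat_lit 0) (XT.nd (nat_lit 78) (nat_lit 380) (nat_lit 0) (XT.lf (nat_lit 0) (nat_lit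 954211836) (nat_lit 228) (nat_lit 33546644007) (nat_lit 76) (nat_lit 5408774220) (nat_lit 146) (nat_lit 5) (nat_lit 149) (nat_lit 5) (nat_lit 147) (nat_lit 5) (nat_lit 465) (nat_lit 422) (nat_lit 313)) (XT.nd (nat_lit 78) (nat_lit 152) (nat_lit 0) (XT.lf (nat_lit 0) (nat_lit 7659427454) (nat_lit 228) (nat_lit 10822682786) (nat_lit 304) (nat_lit 22680341961) (nat_lit 143) (nat_lit 5) (nat_lit 146) (nat_lit 5) (nat_lit 147) (nat_lit 5) (nat_lit 466) (nat_lit 422) (nat_lit 312)) (XT.lf (nat_lit 0) (nat_lit 9180235792) (nat_lit 152) (nat_lit 28266585127) (nat_lit 228) (nat_lit 5014282206) (nat_lit 141) (nat_lit 5) (nat_lit 143) (nat_lit 5) (nat_lit 144) (nat_lit 5) (nat_lit 467) (nat_lit 422) (nat_lit 311)))) (XT.nd (nat_lit 156) (nat_lit 456) (nat_lit 0) (XT.nd (nat_lit 78) (nat_lit 152) (nat_lit 0) (XT.lf (nat_lit 0) (nat_lit 10832599298) (nat_lit 228) (nat_lit 2988744797) (nat_lit 304) (nat_lit 29982928009)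 (nat_lit 137) (nat_lit 5) (nat_lit 140) (nat_lit 5) (nat_lit 141) (nat_lit 5) (nat_lit 468) (nat_lit 422) (nat_lit 310)) (XT.lf (nat_lit 0) (nat_lit 12588985099) (nat_lit 152) (nat_lit 21589431876) (nat_lit 228) (nat_lit 11014192290) (nat_lit 135) (nat_lit 5) (nat_lit 137) (nat_lit 5) (nat_lit 138) (nat_lit 5) (nat_lit 469) (nat_lit 422) (nat_lit 309))) (XT.nd (nat_lit 78) (nat_lit 152) (nat_lit 0) (XT.lf (nat_lit 0) (nat_lit 9283832719) (nat_lit 304) (nat_lit 32060598283) (nat_lit 76) (nat_lit 5286727568) (nat_lit 131) (nat_lit 5) (nat_lit 135) (nat_lit 5) (nat_lit 132) (nat_lit 5) (nat_lit 470) (nat_lit 422) (nat_lit 308)) (XT.lf (nat_lit 0) (nat_lit 16626738968) (nat_lit 152) (nat_lit 14450526634) (nat_lit 228) (nat_lit 17039849438) (nat_lit 129) (nat_lit 5) (nat_lit 131) (nat_lit 5) (nat_lit 132) (nat_lit 5) (nat_lit 471) (nat_lit 422) (nat_lit 307)))))) (XT.nd (nat_lit 546) (nat_lit 1140) (nat_lit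 0) (XT.nd (nat_lit 234) (nat_lit 684) (nat_lit 0) (XT.nd (nat_lit 78) (nat_lit 380) (nat_lit 0) (XT.lf (nat_lit 0) (nat_lit 4843654651) (nat_lit 228) (nat_lit 30738679746) (nat_lit 76) (nat_lit 14074473037) (nat_lit 126) (nat_lit 5) (nat_lit 129) (nat_lit 5) (nat_lit 127) (nat_lit 5) (nat_lit 472) (nat_lit 422) (nat_lit 306)) (XT.nd (nat_lit 78) (nat_lit 228) (nat_lit 0) (XT.lf (nat_lit 0) (nat_lit 21318409077) (nat_lit 152) (nat_lit 6821912963) (nat_lit 228) (nat_lit 23107959252) (nat_lit 124) (nat_lit 5) (nat_lit 126) (nat_lit 5) (nat_lit 127) (nat_lit 5) (nat_lit 473) (nat_lit 422) (nat_lit 305)) (XT.lf (nat_lit 0) (nat_lit 460788193) (nat_lit 228) (nat_lit 28968479728) (nat_lit 76) (nat_lit 23466989653) (nat_lit 121) (nat_lit 5) (nat_lit 124) (nat_lit 5) (nat_lit 122) (nat_lit 5) (nat_lit 474) (nat_lit 422) (nat_lit 304)))) (XT.nd (nat_lit 156) (nat_lit 380) (nat_lit 0) (XT.nd (nat_lit 78) (nat_lit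 152) (nat_lit 0) (XT.lf (nat_lit 0) (nat_lit 25374157530) (nat_lit 228) (nat_lit 27928891893) (nat_lit 76) (nat_lit 1297396840) (nat_lit 119) (nat_lit 5) (nat_lit 122) (nat_lit 5) (nat_lit 120) (nat_lit 5) (nat_lit 475) (nat_lit 422) (nat_lit 303)) (XT.lf (nat_lit 0) (nat_lit 29578240087) (nat_lit 152) (nat_lit 22828110431) (nat_lit 228) (nat_lit 3957299327) (nat_lit 117) (nat_lit 5) (nat_lit 119) (nat_lit 5) (nat_lit 120) (nat_lit 5) (nat_lit 476) (nat_lit 422) (nat_lit 302))) (XT.nd (nat_lit 78) (nat_lit 152) (nat_lit 0) (XT.lf (nat_lit 0) (nat_lit 22826741257) (nat_lit 228) (nat_lit 25546537971) (nat_lit 76) (nat_lit 9814460582) (nat_lit 114) (nat_lit 5) (nat_lit 117) (nat_lit 5) (nat_lit 115) (nat_lit 5) (nat_lit 477) (nat_lit 422) (nat_lit 301)) (XT.lf (nat_lit 0) (nat_lit 35915466772) (nat_lit 152) (nat_lit 15798592371) (nat_lit 228) (nat_lit 8362422246) (nat_lit 112) (nat_lit 5) (nat_lit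 114) (nat_lit 5) (nat_lit 115) (nat_lit 5) (nat_lit 478) (nat_lit 422) (nat_lit 300))))) (XT.nd (nat_lit 234) (nat_lit 608) (nat_lit 0) (XT.nd (nat_lit 78) (nat_lit 304) (nat_lit 0) (XT.lf (nat_lit 0) (nat_lit 20417660491) (nat_lit 228) (nat_lit 22727489164) (nat_lit 76) (nat_lit 18884099590) (nat_lit 109) (nat_lit 5) (nat_lit 112) (nat_lit 5) (nat_lit 110) (nat_lit 5) (nat_lit 479) (nat_lit 422) (nat_lit 299)) (XT.nd (nat_lit 78) (nat_lit 152) (nat_lit 0) (XT.lf (nat_lit 0) (nat_lit 42946245676) (nat_lit 152) (nat_lit 8334054908) (nat_lit 228) (nat_lit 12772376081) (nat_lit 107) (nat_lit 5) (nat_lit 109) (nat_lit 5) (nat_lit 110) (nat_lit 5) (nat_lit 480) (nat_lit 422) (nat_lit 298)) (XT.lf (nat_lit 0) (nat_lit 18125867856) (nat_lit 152) (nat_lit 19493396385) (nat_lit 76) (nat_lit 28524200229) (nat_lit 105) (nat_lit 5) (nat_lit 107) (nat_lit 5) (nat_lit 106) (nat_lit 5) (nat_lit 481) (nat_lit 422)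 (nat_lit 297)))) (XT.nd (nat_lit 156) (nat_lit 304) (nat_lit 0) (XT.nd (nat_lit 78) (nat_lit 152) (nat_lit 0) (XT.lf (nat_lit 0) (nat_lit 50661298862) (nat_lit 152) (nat_lit 428351727) (nat_lit 228) (nat_lit 17221804012) (nat_lit 103) (nat_lit 5) (nat_lit 105) (nat_lit 5) (nat_lit 106) (nat_lit 5) (nat_lit 482) (nat_lit 422) (nat_lit 296)) (XT.lf (nat_lit 0) (nat_lit 15922634181) (nat_lit 152) (nat_lit 15880214838) (nat_lit 76) (nat_lit 38747523398) (nat_lit 101) (nat_lit 5) (nat_lit 103) (nat_lit 5) (nat_lit 102) (nat_lit 5) (nat_lit 483) (nat_lit 422) (nat_lit 295))) (XT.nd (nat_lit 78) (nat_lit 152) (nat_lit 0) (XT.lf (nat_lit 0) (nat_lit 51194999675) (nat_lit 228) (nat_lit 13912840454) (nat_lit 76) (nat_lit 7763474314) (nat_lit 99) (nat_lit 5) (nat_lit 102) (nat_lit 5) (nat_lit 100) (nat_lit 4) (nat_lit 484) (nat_lit 422) (nat_lit 294)) (XT.lf (nat_lit 0) (nat_lit 13769790441) (nat_lit 152)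 (nat_lit 11941688464) (nat_lit 76) (nat_lit 49560119750) (nat_lit 97) (nat_lit 5) (nat_lit 99) (nat_lit 5) (nat_lit 98) (nat_lit 5) (nat_lit 485) (nat_lit 422) (nat_lit 293))))))))
noncomputable def xc84 : XT := (XT.nd (nat_lit 58656) (nat_lit 0) (nat_lit 6232) (XT.nd (nat_lit 57642) (nat_lit 0) (nat_lit 17100) (XT.nd (nat_lit 468) (nat_lit 684) (nat_lit 0) (XT.nd (nat_lit 234) (nat_lit 608) (nat_lit 0) (XT.nd (nat_lit 78) (nat_lit 304) (nat_lit 0) (XT.lf (nat_lit 0) (nat_lit 51495625188) (nat_lit 228) (nat_lit 9891049074) (nat_lit 76) (nat_lit 16370112655) (nat_lit 95) (nat_lit 5) (nat_lit 98) (nat_lit 5) (nat_lit 96) (nat_lit 4) (nat_lit 486) (nat_lit 422) (nat_lit 292)) (XT.nd (nat_lit 78) (nat_lit 152) (nat_lit 0) (XT.lf (nat_lit 0) (nat_lit 11617630662) (nat_lit 152) (nat_lit 7753515061) (nat_lit 76) (nat_lit 60959419726) (nat_lit 93) (nat_lit 5) (nat_lit 95) (nat_lit 5) (nat_lit 94) (nat_lit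 5) (nat_lit 487) (nat_lit 422) (nat_lit 291)) (XT.lf (nat_lit 0) (nat_lit 51942470743) (nat_lit 228) (nat_lit 5669327559) (nat_lit 76) (nat_lit 25380577439) (nat_lit 91) (nat_lit 5) (nat_lit 94) (nat_lit 5) (nat_lit 92) (nat_lit 4) (nat_lit 488) (nat_lit 422) (nat_lit 290)))) (XT.nd (nat_lit 78) (nat_lit 456) (nat_lit 0) (XT.lf (nat_lit 0) (nat_lit 9402415055) (nat_lit 152) (nat_lit 3418315076) (nat_lit 76) (nat_lit 72931938371) (nat_lit 89) (nat_lit 5) (nat_lit 91) (nat_lit 5) (nat_lit 90) (nat_lit 5) (nat_lit 489) (nat_lit 422) (nat_lit 289)) (XT.nd (nat_lit 78) (nat_lit 304) (nat_lit 0) (XT.lf (nat_lit 0) (nat_lit 52475952356) (nat_lit 228) (nat_lit 1366103836) (nat_lit 76) (nat_lit 34762474185) (nat_lit 87) (nat_lit 5) (nat_lit 90) (nat_lit 5) (nat_lit 88) (nat_lit 4) (nat_lit 490) (nat_lit 422) (nat_lit 288)) (XT.lf (nat_lit 0) (nat_lit 946929483) (nat_lit 152) (nat_lit 6105575010) (nat_lit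 228) (nat_lit 84512697445) (nat_lit 83) (nat_lit 5) (nat_lit 85) (nat_lit 5) (nat_lit 86) (nat_lit 5) (nat_lit 491) (nat_lit 422) (nat_lit 287))))) (XT.nd (nat_lit 234) (nat_lit 304) (nat_lit 0) (XT.nd (nat_lit 78) (nat_lit 304) (nat_lit 0) (XT.lf (nat_lit 0) (nat_lit 2920974867) (nat_lit 76) (nat_lit 50125766909) (nat_lit 152) (nat_lit 41574395230) (nat_lit 82) (nat_lit 5) (nat_lit 83) (nat_lit 5) (nat_lit 84) (nat_lit 4) (nat_lit 492) (nat_lit 422) (nat_lit 286)) (XT.nd (nat_lit 78) (nat_lit 76) (nat_lit 0) (XT.lf (nat_lit 0) (nat_lit 4496394649) (nat_lit 228) (nat_lit 92591221432) (nat_lit 76) (nat_lit 709617899) (nat_lit 79) (nat_lit 5) (nat_lit 82) (nat_lit 5) (nat_lit 80) (nat_lit 4) (nat_lit 493) (nat_lit 422) (nat_lit 285)) (XT.lf (nat_lit 0) (nat_lit 6958160152) (nat_lit 76) (nat_lit 46580326142) (nat_lit 152) (nat_lit 47535473179) (nat_lit 78) (nat_lit 5) (nat_lit 79) (nat_lit 5) (nat_lit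 80) (nat_lit 4) (nat_lit 494) (nat_lit 422) (nat_lit 284)))) (XT.nd (nat_lit 156) (nat_lit 76) (nat_lit 0) (XT.nd (nat_lit 78) (nat_lit 76) (nat_lit 0) (XT.lf (nat_lit 0) (nat_lit 1623953301) (nat_lit 152) (nat_lit 95471086154) (nat_lit 76) (nat_lit 7385855295) (nat_lit 76) (nat_lit 5) (nat_lit 78) (nat_lit 5) (nat_lit 77) (nat_lit 4) (nat_lit 495) (nat_lit 422) (nat_lit 283)) (XT.lf (nat_lit 0) (nat_lit 10461746597) (nat_lit 76) (nat_lit 43348498910) (nat_lit 152) (nat_lit 54187251842) (nat_lit 75) (nat_lit 5) (nat_lit 76) (nat_lit 5) (nat_lit 77) (nat_lit 4) (nat_lit 496) (nat_lit 422) (nat_lit 282))) (XT.nd (nat_lit 56706) (nat_lit 0) (nat_lit 20520) (XT.lf (nat_lit 0) (nat_lit 12114746513) (nat_lit 76) (nat_lit 97719715040) (nat_lit 76) (nat_lit 1818610278) (nat_lit 74) (nat_lit 4) (nat_lit 75) (nat_lit 5) (nat_lit 75) (nat_lit 4) (nat_lit 497) (nat_lit 422) (nat_lit 281)) (XT.lf (nat_lit 0)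 (nat_lit 2634057466) (nat_lit 0) (nat_lit 2634057466) (nat_lit 1140) (nat_lit 1108672424) (nat_lit 344) (nat_lit 5) (nat_lit 344) (nat_lit 3) (nat_lit 359) (nat_lit 3) (nat_lit 423) (nat_lit 423) (nat_lit 354)))))) (XT.nd (nat_lit 468) (nat_lit 2280) (nat_lit 0) (XT.nd (nat_lit 234) (nat_lit 0) (nat_lit 76) (XT.nd (nat_lit 78) (nat_lit 1140) (nat_lit 0) (XT.lf (nat_lit 76) (nat_lit 3118569411) (nat_lit 0) (nat_lit 8438837844) (nat_lit 1216) (nat_lit 1492240891) (nat_lit 345) (nat_lit 5) (nat_lit 344) (nat_lit 5) (nat_lit 360) (nat_lit 5) (nat_lit 424) (nat_lit 423) (nat_lit 353)) (XT.nd (nat_lit 78) (nat_lit 1216) (nat_lit 0) (XT.lf (nat_lit 76) (nat_lit 976730074) (nat_lit 0) (nat_lit 11763806874) (nat_lit 1216) (nat_lit 616663599) (nat_lit 346) (nat_lit 5) (nat_lit 345) (nat_lit 5) (nat_lit 361) (nat_lit 5) (nat_lit 425) (nat_lit 423) (nat_lit 352)) (XT.lf (nat_lit 0) (nat_lit 443085812) (nat_lit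 1216) (nat_lit 1154165256) (nat_lit 1292) (nat_lit 12078405154) (nat_lit 329) (nat_lit 5) (nat_lit 345) (nat_lit 5) (nat_lit 346) (nat_lit 5) (nat_lit 426) (nat_lit 423) (nat_lit 351)))) (XT.nd (nat_lit 78) (nat_lit 0) (nat_lit 76) (XT.lf (nat_lit 0) (nat_lit 1695527982) (nat_lit 1216) (nat_lit 3282438217) (nat_lit 1292) (nat_lit 9027313397) (nat_lit 330) (nat_lit 5) (nat_lit 346) (nat_lit 5) (nat_lit 347) (nat_lit 5) (nat_lit 427) (nat_lit 423) (nat_lit 350)) (XT.nd (nat_lit 78) (nat_lit 0) (nat_lit 76) (XT.lf (nat_lit 0) (nat_lit 3143804780) (nat_lit 1216) (nat_lit 5404603070) (nat_lit 1292) (nat_lit 5798981674) (nat_lit 331) (nat_lit 5) (nat_lit 347) (nat_lit 5) (nat_lit 348) (nat_lit 5) (nat_lit 428) (nat_lit 423) (nat_lit 349)) (XT.lf (nat_lit 0) (nat_lit 4804880699) (nat_lit 1216) (nat_lit 7519443903) (nat_lit 1292) (nat_lit 2378070464) (nat_lit 332) (nat_lit 5) (nat_lit 348) (nat_lit 5) (nat_lit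 349) (nat_lit 5) (nat_lit 429) (nat_lit 423) (nat_lit 348))))) (XT.nd (nat_lit 234) (nat_lit 2508) (nat_lit 0) (XT.nd (nat_lit 78) (nat_lit 0) (nat_lit 76) (XT.lf (nat_lit 76) (nat_lit 5432729951) (nat_lit 0) (nat_lit 1276000858) (nat_lit 1292) (nat_lit 8361630061) (nat_lit 333) (nat_lit 5) (nat_lit 332) (nat_lit 5) (nat_lit 349) (nat_lit 5) (nat_lit 430) (nat_lit 423) (nat_lit 347)) (XT.nd (nat_lit 78) (nat_lit 0) (nat_lit 76) (XT.lf (nat_lit 76) (nat_lit 3680915807) (nat_lit 0) (nat_lit 5206197084) (nat_lit 1292) (nat_lit 6564233409) (nat_lit 334) (nat_lit 5) (nat_lit 333) (nat_lit 5) (nat_lit 350) (nat_lit 5) (nat_lit 431) (nat_lit 423) (nat_lit 346)) (XT.lf (nat_lit 76) (nat_lit 1954213564) (nat_lit 0) (nat_lit 9382028055) (nat_lit 1292) (nat_lit 4510286006) (nat_lit 335) (nat_lit 5) (nat_lit 334) (nat_lit 5) (nat_lit 351) (nat_lit 5) (nat_lit 432) (nat_lit 423) (nat_lit 345)))) (XT.nd (nat_lit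 156) (nat_lit 1444) (nat_lit 0) (XT.nd (nat_lit 78) (nat_lit 76) (nat_lit 0) (XT.lf (nat_lit 0) (nat_lit 255738966) (nat_lit 1216) (nat_lit 13820828323) (nat_lit 1292) (nat_lit 2179839890) (nat_lit 319) (nat_lit 5) (nat_lit 335) (nat_lit 5) (nat_lit 336) (nat_lit 5) (nat_lit 433) (nat_lit 423) (nat_lit 344)) (XT.lf (nat_lit 0) (nat_lit 471235486) (nat_lit 1292) (nat_lit 1406135202) (nat_lit 76) (nat_lit 14803054674) (nat_lit 318) (nat_lit 5) (nat_lit 335) (nat_lit 5) (nat_lit 319) (nat_lit 5) (nat_lit 434) (nat_lit 423) (nat_lit 343))) (XT.nd (nat_lit 78) (nat_lit 608) (nat_lit 0) (XT.lf (nat_lit 0) (nat_lit 3421905714) (nat_lit 912) (nat_lit 3078881396) (nat_lit 76) (nat_lit 10617847378) (nat_lit 307) (nat_lit 5) (nat_lit 319) (nat_lit 5) (nat_lit 308) (nat_lit 5) (nat_lit 435) (nat_lit 423) (nat_lit 342)) (XT.lf (nat_lit 0) (nat_lit 6710833208) (nat_lit 684) (nat_lit 4718447375) (nat_lit 76) (nat_lit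 6143752931) (nat_lit 299) (nat_lit 5) (nat_lit 308) (nat_lit 5) (nat_lit 300) (nat_lit 5) (nat_lit 436) (nat_lit 423) (nat_lit 341))))))) (XT.nd (nat_lit 1014) (nat_lit 4408) (nat_lit 0) (XT.nd (nat_lit 468) (nat_lit 3116) (nat_lit 0) (XT.nd (nat_lit 234) (nat_lit 1596) (nat_lit 0) (XT.nd (nat_lit 78) (nat_lit 1140) (nat_lit 0) (XT.lf (nat_lit 0) (nat_lit 10361847696) (nat_lit 684) (nat_lit 6320405492) (nat_lit 76) (nat_lit 1361971187) (nat_lit 291) (nat_lit 5) (nat_lit 300) (nat_lit 5) (nat_lit 292) (nat_lit 5) (nat_lit 437) (nat_lit 423) (nat_lit 340)) (XT.nd (nat_lit 78) (nat_lit 608) (nat_lit 0) (XT.lf (nat_lit 0) (nat_lit 10615143517) (nat_lit 532) (nat_lit 3821570545) (nat_lit 608) (nat_lit 4095022730) (nat_lit 284) (nat_lit 5) (nat_lit 291) (nat_lit 5) (nat_lit 292) (nat_lit 5) (nat_lit 438) (nat_lit 423) (nat_lit 339)) (XT.lf (nat_lit 0) (nat_lit 9555184336) (nat_lit 608) (nat_lit 9386572902)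 (nat_lit 684) (nat_lit 95075587) (nat_lit 276) (nat_lit 5) (nat_lit 284) (nat_lit 5) (nat_lit 285) (nat_lit 5) (nat_lit 439) (nat_lit 423) (nat_lit 338)))) (XT.nd (nat_lit 78) (nat_lit 988) (nat_lit 0) (XT.lf (nat_lit 0) (nat_lit 4246365841) (nat_lit 608) (nat_lit 11038162282) (nat_lit 76) (nat_lit 4274824773) (nat_lit 268) (nat_lit 5) (nat_lit 276) (nat_lit 5) (nat_lit 269) (nat_lit 5) (nat_lit 440) (nat_lit 423) (nat_lit 337)) (XT.nd (nat_lit 78) (nat_lit 456) (nat_lit 0) (XT.lf (nat_lit 0) (nat_lit 7542644399) (nat_lit 532) (nat_lit 1503459567) (nat_lit 608) (nat_lit 11054571918) (nat_lit 261) (nat_lit 5) (nat_lit 268) (nat_lit 5) (nat_lit 269) (nat_lit 5) (nat_lit 441) (nat_lit 423) (nat_lit 336)) (XT.lf (nat_lit 0) (nat_lit 6595409717) (nat_lit 456) (nat_lit 7771389568) (nat_lit 532) (nat_lit 6293837464) (nat_lit 255) (nat_lit 5) (nat_lit 261) (nat_lit 5) (nat_lit 262) (nat_lit 5) (nat_lit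 442) (nat_lit 423) (nat_lit 335))))) (XT.nd (nat_lit 234) (nat_lit 1672) (nat_lit 0) (XT.nd (nat_lit 78) (nat_lit 988) (nat_lit 0) (XT.lf (nat_lit 0) (nat_lit 5730217113) (nat_lit 456) (nat_lit 14467543710) (nat_lit 532) (nat_lit 1043508689) (nat_lit 249) (nat_lit 5) (nat_lit 255) (nat_lit 5) (nat_lit 256) (nat_lit 5) (nat_lit 443) (nat_lit 423) (nat_lit 334)) (XT.nd (nat_lit 78) (nat_lit 456) (nat_lit 0) (XT.lf (nat_lit 0) (nat_lit 4636179935) (nat_lit 532) (nat_lit 16933606967) (nat_lit 76) (nat_lit 272237202) (nat_lit 242) (nat_lit 5) (nat_lit 249) (nat_lit 5) (nat_lit 243) (nat_lit 5) (nat_lit 444) (nat_lit 423) (nat_lit 333)) (XT.lf (nat_lit 0) (nat_lit 4102437784) (nat_lit 456) (nat_lit 6802970243) (nat_lit 532) (nat_lit 11557285055) (nat_lit 236) (nat_lit 5) (nat_lit 242) (nat_lit 5) (nat_lit 243) (nat_lit 5) (nat_lit 445) (nat_lit 423) (nat_lit 332)))) (XT.nd (nat_lit 156) (nat_lit 760)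 (nat_lit 0) (XT.nd (nat_lit 78) (nat_lit 532) (nat_lit 0) (XT.lf (nat_lit 0) (nat_lit 3391511386) (nat_lit 380) (nat_lit 14369771819) (nat_lit 456) (nat_lit 5344917405) (nat_lit 231) (nat_lit 5) (nat_lit 236) (nat_lit 5) (nat_lit 237) (nat_lit 5) (nat_lit 446) (nat_lit 423) (nat_lit 331)) (XT.lf (nat_lit 0) (nat_lit 1435911674) (nat_lit 532) (nat_lit 20999723346) (nat_lit 76) (nat_lit 1337484439) (nat_lit 224) (nat_lit 5) (nat_lit 231) (nat_lit 5) (nat_lit 225) (nat_lit 5) (nat_lit 447) (nat_lit 423) (nat_lit 330))) (XT.nd (nat_lit 78) (nat_lit 380) (nat_lit 0) (XT.lf (nat_lit 0) (nat_lit 2147733943) (nat_lit 380) (nat_lit 6651175199) (nat_lit 456) (nat_lit 15662278059) (nat_lit 219) (nat_lit 5) (nat_lit 224) (nat_lit 5) (nat_lit 225) (nat_lit 5) (nat_lit 448) (nat_lit 423) (nat_lit 329)) (XT.lf (nat_lit 0) (nat_lit 1624872821) (nat_lit 380) (nat_lit 15217081329) (nat_lit 456) (nat_lit 8332347812)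 (nat_lit 214) (nat_lit 5) (nat_lit 219) (nat_lit 5) (nat_lit 220) (nat_lit 5) (nat_lit 449) (nat_lit 423) (nat_lit 328)))))) (XT.nd (nat_lit 546) (nat_lit 1900) (nat_lit 0) (XT.nd (nat_lit 234) (nat_lit 1368) (nat_lit 0) (XT.nd (nat_lit 78) (nat_lit 760) (nat_lit 0) (XT.lf (nat_lit 0) (nat_lit 1229289107) (nat_lit 380) (nat_lit 24364120814) (nat_lit 456) (nat_lit 320475318) (nat_lit 209) (nat_lit 5) (nat_lit 214) (nat_lit 5) (nat_lit 215) (nat_lit 5) (nat_lit 450) (nat_lit 423) (nat_lit 327)) (XT.nd (nat_lit 78) (nat_lit 304) (nat_lit 0) (XT.lf (nat_lit 0) (nat_lit 815043723) (nat_lit 380) (nat_lit 7508846812) (nat_lit 456) (nat_lit 18352529976) (nat_lit 203) (nat_lit 5) (nat_lit 208) (nat_lit 5) (nat_lit 209) (nat_lit 5) (nat_lit 451) (nat_lit 423) (nat_lit 326)) (XT.lf (nat_lit 0) (nat_lit 519764776) (nat_lit 304) (nat_lit 17217771715) (nat_lit 380) (nat_lit 9729140643) (nat_lit 199) (nat_lit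 5) (nat_lit 203) (nat_lit 5) (nat_lit 204) (nat_lit 5) (nat_lit 452) (nat_lit 423) (nat_lit 325)))) (XT.nd (nat_lit 156) (nat_lit 684) (nat_lit 0) (XT.nd (nat_lit 78) (nat_lit 380) (nat_lit 0) (XT.lf (nat_lit 0) (nat_lit 374807112) (nat_lit 304) (nat_lit 27583394296) (nat_lit 380) (nat_lit 328155530) (nat_lit 195) (nat_lit 5) (nat_lit 199) (nat_lit 5) (nat_lit 200) (nat_lit 5) (nat_lit 453) (nat_lit 423) (nat_lit 324)) (XT.lf (nat_lit 0) (nat_lit 200549836) (nat_lit 304) (nat_lit 9596890426) (nat_lit 380) (nat_lit 19333605604) (nat_lit 190) (nat_lit 5) (nat_lit 194) (nat_lit 5) (nat_lit 195) (nat_lit 5) (nat_lit 454) (nat_lit 423) (nat_lit 323))) (XT.nd (nat_lit 78) (nat_lit 380) (nat_lit 0) (XT.lf (nat_lit 0) (nat_lit 178343178) (nat_lit 304) (nat_lit 20610793761) (nat_lit 380) (nat_lit 9217736988) (nat_lit 186) (nat_lit 5) (nat_lit 190) (nat_lit 5) (nat_lit 191) (nat_lit 5) (nat_lit 455) (nat_lit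 423) (nat_lit 322)) (XT.lf (nat_lit 0) (nat_lit 300665819) (nat_lit 304) (nat_lit 1462102183) (nat_lit 380) (nat_lit 29151733736) (nat_lit 181) (nat_lit 5) (nat_lit 185) (nat_lit 5) (nat_lit 186) (nat_lit 5) (nat_lit 456) (nat_lit 423) (nat_lit 321))))) (XT.nd (nat_lit 234) (nat_lit 988) (nat_lit 0) (XT.nd (nat_lit 78) (nat_lit 608) (nat_lit 0) (XT.lf (nat_lit 0) (nat_lit 412862992) (nat_lit 304) (nat_lit 13169988210) (nat_lit 380) (nat_lit 18267486445) (nat_lit 177) (nat_lit 5) (nat_lit 181) (nat_lit 5) (nat_lit 182) (nat_lit 5) (nat_lit 457) (nat_lit 423) (nat_lit 320)) (XT.nd (nat_lit 78) (nat_lit 380) (nat_lit 0) (XT.lf (nat_lit 0) (nat_lit 715404174) (nat_lit 228) (nat_lit 25671785617) (nat_lit 304) (nat_lit 6433978356) (nat_lit 174) (nat_lit 5) (nat_lit 177) (nat_lit 5) (nat_lit 178) (nat_lit 5) (nat_lit 458) (nat_lit 423) (nat_lit 319)) (XT.lf (nat_lit 0) (nat_lit 1109335092) (nat_lit 304)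 (nat_lit 5222218395) (nat_lit 380) (nat_lit 27493541507) (nat_lit 169) (nat_lit 5) (nat_lit 173) (nat_lit 5) (nat_lit 174) (nat_lit 5) (nat_lit 459) (nat_lit 423) (nat_lit 318)))) (XT.nd (nat_lit 156) (nat_lit 532) (nat_lit 0) (XT.nd (nat_lit 78) (nat_lit 228) (nat_lit 0) (XT.lf (nat_lit 0) (nat_lit 1572720984) (nat_lit 228) (nat_lit 18523112558) (nat_lit 304) (nat_lit 14766667766) (nat_lit 166) (nat_lit 5) (nat_lit 169) (nat_lit 5) (nat_lit 170) (nat_lit 5) (nat_lit 460) (nat_lit 423) (nat_lit 317)) (XT.lf (nat_lit 0) (nat_lit 2257995403) (nat_lit 228) (nat_lit 32719979215) (nat_lit 304) (nat_lit 960914185) (nat_lit 163) (nat_lit 5) (nat_lit 166) (nat_lit 5) (nat_lit 167) (nat_lit 5) (nat_lit 461) (nat_lit 423) (nat_lit 316))) (XT.nd (nat_lit 78) (nat_lit 228) (nat_lit 0) (XT.lf (nat_lit 0) (nat_lit 2937118958) (nat_lit 228) (nat_lit 10883001669) (nat_lit 304) (nat_lit 23228598687) (nat_lit 159)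 (nat_lit 5) (nat_lit 162) (nat_lit 5) (nat_lit 163) (nat_lit 5) (nat_lit 462) (nat_lit 423) (nat_lit 315)) (XT.lf (nat_lit 0) (nat_lit 3812235409) (nat_lit 228) (nat_lit 25999031303) (nat_lit 304) (nat_lit 8387761482) (nat_lit 156) (nat_lit 5) (nat_lit 159) (nat_lit 5) (nat_lit 160) (nat_lit 5) (nat_lit 463) (nat_lit 423) (nat_lit 314))))))))
noncomputable def xc85 : XT := (XT.nd (nat_lit 2028) (nat_lit 1216) (nat_lit 0) (XT.nd (nat_lit 1014) (nat_lit 2128) (nat_lit 0) (XT.nd (nat_lit 468) (nat_lit 1368) (nat_lit 0) (XT.nd (nat_lit 234) (nat_lit 684) (nat_lit 0) (XT.nd (nat_lit 78) (nat_lit 456) (nat_lit 0) (XT.lf (nat_lit 0) (nat_lit 4841641454) (nat_lit 228) (nat_lit 2712515682) (nat_lit 304) (nat_lit 31835637426) (nat_lit 152) (nat_lit 5) (nat_lit 155) (nat_lit 5) (nat_lit 156) (nat_lit 5) (nat_lit 464) (nat_lit 423) (nat_lit 313)) (XT.nd (nat_lit 78) (nat_lit 228) (nat_lit 0) (XT.lf (nat_lit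 0) (nat_lit 5920152462) (nat_lit 228) (nat_lit 18813249089) (nat_lit 304) (nat_lit 15885795448) (nat_lit 149) (nat_lit 5) (nat_lit 152) (nat_lit 5) (nat_lit 153) (nat_lit 5) (nat_lit 465) (nat_lit 423) (nat_lit 312)) (XT.lf (nat_lit 0) (nat_lit 1348567645) (nat_lit 228) (nat_lit 34634844962) (nat_lit 76) (nat_lit 5911293478) (nat_lit 146) (nat_lit 5) (nat_lit 149) (nat_lit 5) (nat_lit 147) (nat_lit 5) (nat_lit 466) (nat_lit 423) (nat_lit 311)))) (XT.nd (nat_lit 78) (nat_lit 456) (nat_lit 0) (XT.lf (nat_lit 0) (nat_lit 8614642744) (nat_lit 228) (nat_lit 11127212070) (nat_lit 304) (nat_lit 23468644993) (nat_lit 143) (nat_lit 5) (nat_lit 146) (nat_lit 5) (nat_lit 147) (nat_lit 5) (nat_lit 467) (nat_lit 423) (nat_lit 310)) (XT.nd (nat_lit 78) (nat_lit 304) (nat_lit 0) (XT.lf (nat_lit 0) (nat_lit 10202665252) (nat_lit 152) (nat_lit 29443734963) (nat_lit 228) (nat_lit 4927935364) (nat_lit 141) (nat_lit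 5) (nat_lit 143) (nat_lit 5) (nat_lit 144) (nat_lit 5) (nat_lit 468) (nat_lit 423) (nat_lit 309)) (XT.lf (nat_lit 0) (nat_lit 11927890655) (nat_lit 228) (nat_lit 2904589138) (nat_lit 304) (nat_lit 31152398725) (nat_lit 137) (nat_lit 5) (nat_lit 140) (nat_lit 5) (nat_lit 141) (nat_lit 5) (nat_lit 469) (nat_lit 423) (nat_lit 308))))) (XT.nd (nat_lit 234) (nat_lit 760) (nat_lit 0) (XT.nd (nat_lit 78) (nat_lit 456) (nat_lit 0) (XT.lf (nat_lit 0) (nat_lit 13763375884) (nat_lit 152) (nat_lit 22436165901) (nat_lit 228) (nat_lit 11243326934) (nat_lit 135) (nat_lit 5) (nat_lit 137) (nat_lit 5) (nat_lit 138) (nat_lit 5) (nat_lit 470) (nat_lit 423) (nat_lit 307)) (XT.nd (nat_lit 78) (nat_lit 152) (nat_lit 0) (XT.lf (nat_lit 0) (nat_lit 10055667539) (nat_lit 304) (nat_lit 33121250776) (nat_lit 76) (nat_lit 5776564365) (nat_lit 131) (nat_lit 5) (nat_lit 135) (nat_lit 5) (nat_lit 132) (nat_lit 5) (nat_lit 471)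 (nat_lit 423) (nat_lit 306)) (XT.lf (nat_lit 0) (nat_lit 17984906198) (nat_lit 152) (nat_lit 14944280408) (nat_lit 228) (nat_lit 17584838147) (nat_lit 129) (nat_lit 5) (nat_lit 131) (nat_lit 5) (nat_lit 132) (nat_lit 5) (nat_lit 472) (nat_lit 423) (nat_lit 305)))) (XT.nd (nat_lit 156) (nat_lit 380) (nat_lit 0) (XT.nd (nat_lit 78) (nat_lit 152) (nat_lit 0) (XT.lf (nat_lit 0) (nat_lit 5379662937) (nat_lit 228) (nat_lit 31751479711) (nat_lit 76) (nat_lit 14999686408) (nat_lit 126) (nat_lit 5) (nat_lit 129) (nat_lit 5) (nat_lit 127) (nat_lit 5) (nat_lit 473) (nat_lit 423) (nat_lit 304)) (XT.lf (nat_lit 0) (nat_lit 22893439358) (nat_lit 152) (nat_lit 6938626521) (nat_lit 228) (nat_lit 23970083853) (nat_lit 124) (nat_lit 5) (nat_lit 126) (nat_lit 5) (nat_lit 127) (nat_lit 5) (nat_lit 474) (nat_lit 423) (nat_lit 303))) (XT.nd (nat_lit 78) (nat_lit 152) (nat_lit 0) (XT.lf (nat_lit 0) (nat_lit 764620689)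 (nat_lit 228) (nat_lit 29910589983) (nat_lit 76) (nat_lit 24857432481) (nat_lit 121) (nat_lit 5) (nat_lit 124) (nat_lit 5) (nat_lit 122) (nat_lit 5) (nat_lit 475) (nat_lit 423) (nat_lit 302)) (XT.lf (nat_lit 0) (nat_lit 26917126299) (nat_lit 228) (nat_lit 28827479731) (nat_lit 76) (nat_lit 1577631379) (nat_lit 119) (nat_lit 5) (nat_lit 122) (nat_lit 5) (nat_lit 120) (nat_lit 5) (nat_lit 476) (nat_lit 423) (nat_lit 301)))))) (XT.nd (nat_lit 468) (nat_lit 1064) (nat_lit 0) (XT.nd (nat_lit 234) (nat_lit 532) (nat_lit 0) (XT.nd (nat_lit 78) (nat_lit 380) (nat_lit 0) (XT.lf (nat_lit 0) (nat_lit 31540737885) (nat_lit 152) (nat_lit 23751779532) (nat_lit 228) (nat_lit 3881336258) (nat_lit 117) (nat_lit 5) (nat_lit 119) (nat_lit 5) (nat_lit 120) (nat_lit 5) (nat_lit 477) (nat_lit 423) (nat_lit 300)) (XT.nd (nat_lit 78) (nat_lit 152) (nat_lit 0) (XT.lf (nat_lit 0) (nat_lit 24230406562) (nat_lit 228) (nat_lit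 26343200242) (nat_lit 76) (nat_lit 10515647208) (nat_lit 114) (nat_lit 5) (nat_lit 117) (nat_lit 5) (nat_lit 115) (nat_lit 5) (nat_lit 478) (nat_lit 423) (nat_lit 299)) (XT.lf (nat_lit 0) (nat_lit 38178126583) (nat_lit 152) (nat_lit 16375959937) (nat_lit 228) (nat_lit 8518586405) (nat_lit 112) (nat_lit 5) (nat_lit 114) (nat_lit 5) (nat_lit 115) (nat_lit 5) (nat_lit 479) (nat_lit 423) (nat_lit 298)))) (XT.nd (nat_lit 78) (nat_lit 304) (nat_lit 0) (XT.lf (nat_lit 0) (nat_lit 21689578482) (nat_lit 228) (nat_lit 23399932635) (nat_lit 76) (nat_lit 20033666950) (nat_lit 109) (nat_lit 5) (nat_lit 112) (nat_lit 5) (nat_lit 110) (nat_lit 5) (nat_lit 480) (nat_lit 423) (nat_lit 297)) (XT.nd (nat_lit 78) (nat_lit 152) (nat_lit 0) (XT.lf (nat_lit 0) (nat_lit 45544190458) (nat_lit 152) (nat_lit 8543537830) (nat_lit 228) (nat_lit 13160277363) (nat_lit 107) (nat_lit 5) (nat_lit 109) (nat_lit 5) (nat_lit 110) (nat_lit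 5) (nat_lit 481) (nat_lit 423) (nat_lit 296)) (XT.lf (nat_lit 0) (nat_lit 19272495608) (nat_lit 152) (nat_lit 20020404960) (nat_lit 76) (nat_lit 30150524813) (nat_lit 105) (nat_lit 5) (nat_lit 107) (nat_lit 5) (nat_lit 106) (nat_lit 5) (nat_lit 482) (nat_lit 423) (nat_lit 295))))) (XT.nd (nat_lit 234) (nat_lit 608) (nat_lit 0) (XT.nd (nat_lit 78) (nat_lit 304) (nat_lit 0) (XT.lf (nat_lit 0) (nat_lit 53629192929) (nat_lit 152) (nat_lit 248009899) (nat_lit 228) (nat_lit 17842830239) (nat_lit 103) (nat_lit 5) (nat_lit 105) (nat_lit 5) (nat_lit 106) (nat_lit 5) (nat_lit 483) (nat_lit 423) (nat_lit 294)) (XT.nd (nat_lit 78) (nat_lit 152) (nat_lit 0) (XT.lf (nat_lit 0) (nat_lit 16948950066) (nat_lit 152) (nat_lit 16242367686) (nat_lit 76) (nat_lit 40879665751) (nat_lit 101) (nat_lit 5) (nat_lit 103) (nat_lit 5) (nat_lit 102) (nat_lit 5) (nat_lit 484) (nat_lit 423) (nat_lit 293)) (XT.lf (nat_lit 0) (nat_lit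 53979891190) (nat_lit 228) (nat_lit 14184190351) (nat_lit 76) (nat_lit 8344042465) (nat_lit 99) (nat_lit 5) (nat_lit 102) (nat_lit 5) (nat_lit 100) (nat_lit 4) (nat_lit 485) (nat_lit 423) (nat_lit 292)))) (XT.nd (nat_lit 156) (nat_lit 304) (nat_lit 0) (XT.nd (nat_lit 78) (nat_lit 152) (nat_lit 0) (XT.lf (nat_lit 0) (nat_lit 14678826099) (nat_lit 152) (nat_lit 12122251940) (nat_lit 76) (nat_lit 52227482395) (nat_lit 97) (nat_lit 5) (nat_lit 99) (nat_lit 5) (nat_lit 98) (nat_lit 5) (nat_lit 486) (nat_lit 423) (nat_lit 291)) (XT.lf (nat_lit 0) (nat_lit 54286172101) (nat_lit 228) (nat_lit 9976433023) (nat_lit 76) (nat_lit 17375546484) (nat_lit 95) (nat_lit 5) (nat_lit 98) (nat_lit 5) (nat_lit 96) (nat_lit 4) (nat_lit 487) (nat_lit 423) (nat_lit 290))) (XT.nd (nat_lit 78) (nat_lit 152) (nat_lit 0) (XT.lf (nat_lit 0) (nat_lit 12409897693) (nat_lit 152) (nat_lit 7739542500) (nat_lit 76) (nat_lit 64191310407)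 (nat_lit 93) (nat_lit 5) (nat_lit 95) (nat_lit 5) (nat_lit 94) (nat_lit 5) (nat_lit 488) (nat_lit 423) (nat_lit 289)) (XT.lf (nat_lit 0) (nat_lit 54746442981) (nat_lit 228) (nat_lit 5558284176) (nat_lit 76) (nat_lit 26831060426) (nat_lit 91) (nat_lit 5) (nat_lit 94) (nat_lit 5) (nat_lit 92) (nat_lit 4) (nat_lit 489) (nat_lit 423) (nat_lit 288))))))) (XT.nd (nat_lit 57720) (nat_lit 0) (nat_lit 14136) (XT.nd (nat_lit 468) (nat_lit 228) (nat_lit 0) (XT.nd (nat_lit 234) (nat_lit 380) (nat_lit 0) (XT.nd (nat_lit 78) (nat_lit 456) (nat_lit 0) (XT.lf (nat_lit 0) (nat_lit 10075206475) (nat_lit 152) (nat_lit 3201994697) (nat_lit 76) (nat_lit 76757019264) (nat_lit 89) (nat_lit 5) (nat_lit 91) (nat_lit 5) (nat_lit 90) (nat_lit 5) (nat_lit 490) (nat_lit 423) (nat_lit 287)) (XT.nd (nat_lit 78) (nat_lit 304) (nat_lit 0) (XT.lf (nat_lit 0) (nat_lit 55298110777) (nat_lit 228) (nat_lit 1054098045) (nat_lit 76) (nat_lit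 36676595942) (nat_lit 87) (nat_lit 5) (nat_lit 90) (nat_lit 5) (nat_lit 88) (nat_lit 4) (nat_lit 491) (nat_lit 423) (nat_lit 286)) (XT.lf (nat_lit 0) (nat_lit 1374983995) (nat_lit 152) (nat_lit 6228178185) (nat_lit 228) (nat_lit 88534357672) (nat_lit 83) (nat_lit 5) (nat_lit 85) (nat_lit 5) (nat_lit 86) (nat_lit 5) (nat_lit 492) (nat_lit 423) (nat_lit 285)))) (XT.nd (nat_lit 78) (nat_lit 304) (nat_lit 0) (XT.lf (nat_lit 0) (nat_lit 3440884926) (nat_lit 76) (nat_lit 52452062440) (nat_lit 152) (nat_lit 43453429285) (nat_lit 82) (nat_lit 5) (nat_lit 83) (nat_lit 5) (nat_lit 84) (nat_lit 4) (nat_lit 493) (nat_lit 423) (nat_lit 284)) (XT.nd (nat_lit 78) (nat_lit 76) (nat_lit 0) (XT.lf (nat_lit 0) (nat_lit 4912908204) (nat_lit 228) (nat_lit 96849851850) (nat_lit 76) (nat_lit 918583747) (nat_lit 79) (nat_lit 5) (nat_lit 82) (nat_lit 5) (nat_lit 80) (nat_lit 4) (nat_lit 494) (nat_lit 423) (nat_lit 283))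 (XT.lf (nat_lit 0) (nat_lit 7666366160) (nat_lit 76) (nat_lit 48735073398) (nat_lit 152) (nat_lit 49720636006) (nat_lit 78) (nat_lit 5) (nat_lit 79) (nat_lit 5) (nat_lit 80) (nat_lit 4) (nat_lit 495) (nat_lit 423) (nat_lit 282))))) (XT.nd (nat_lit 56940) (nat_lit 0) (nat_lit 19304) (XT.nd (nat_lit 78) (nat_lit 76) (nat_lit 0) (XT.lf (nat_lit 0) (nat_lit 1889121983) (nat_lit 152) (nat_lit 99887213293) (nat_lit 76) (nat_lit 7923084144) (nat_lit 76) (nat_lit 5) (nat_lit 78) (nat_lit 5) (nat_lit 77) (nat_lit 4) (nat_lit 496) (nat_lit 423) (nat_lit 281)) (XT.nd (nat_lit 56784) (nat_lit 0) (nat_lit 20444) (XT.lf (nat_lit 0) (nat_lit 11332015517) (nat_lit 76) (nat_lit 45347290079) (nat_lit 152) (nat_lit 56712709293) (nat_lit 75) (nat_lit 5) (nat_lit 76) (nat_lit 5) (nat_lit 77) (nat_lit 4) (nat_lit 497) (nat_lit 423) (nat_lit 280)) (XT.lf (nat_lit 0) (nat_lit 3101871434) (nat_lit 0) (nat_lit 3101871434)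 (nat_lit 1140) (nat_lit 471684915) (nat_lit 344) (nat_lit 5) (nat_lit 344) (nat_lit 3) (nat_lit 359) (nat_lit 3) (nat_lit 424) (nat_lit 424) (nat_lit 352)))) (XT.nd (nat_lit 156) (nat_lit 0) (nat_lit 0) (XT.nd (nat_lit 78) (nat_lit 1140) (nat_lit 0) (XT.lf (nat_lit 76) (nat_lit 3972967423) (nat_lit 0) (nat_lit 9443293426) (nat_lit 1216) (nat_lit 247378735) (nat_lit 345) (nat_lit 5) (nat_lit 344) (nat_lit 5) (nat_lit 360) (nat_lit 5) (nat_lit 425) (nat_lit 424) (nat_lit 351)) (XT.lf (nat_lit 0) (nat_lit 598875041) (nat_lit 1216) (nat_lit 12247384584) (nat_lit 1292) (nat_lit 1141918729) (nat_lit 329) (nat_lit 5) (nat_lit 345) (nat_lit 5) (nat_lit 346) (nat_lit 5) (nat_lit 426) (nat_lit 424) (nat_lit 350))) (XT.nd (nat_lit 78) (nat_lit 0) (nat_lit 76) (XT.lf (nat_lit 0) (nat_lit 1640227556) (nat_lit 1216) (nat_lit 501506588) (nat_lit 1292) (nat_lit 12182401133) (nat_lit 329) (nat_lit 5) (nat_lit 345)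 (nat_lit 5) (nat_lit 346) (nat_lit 5) (nat_lit 427) (nat_lit 424) (nat_lit 349)) (XT.lf (nat_lit 0) (nat_lit 2901784927) (nat_lit 1216) (nat_lit 2718546246) (nat_lit 1292) (nat_lit 9051516432) (nat_lit 330) (nat_lit 5) (nat_lit 346) (nat_lit 5) (nat_lit 347) (nat_lit 5) (nat_lit 428) (nat_lit 424) (nat_lit 348)))))) (XT.nd (nat_lit 546) (nat_lit 4332) (nat_lit 0) (XT.nd (nat_lit 234) (nat_lit 988) (nat_lit 0) (XT.nd (nat_lit 78) (nat_lit 0) (nat_lit 76) (XT.lf (nat_lit 0) (nat_lit 4372334411) (nat_lit 1216) (nat_lit 4931857553) (nat_lit 1292) (nat_lit 5728377755) (nat_lit 331) (nat_lit 5) (nat_lit 347) (nat_lit 5) (nat_lit 348) (nat_lit 5) (nat_lit 429) (nat_lit 424) (nat_lit 347)) (XT.nd (nat_lit 78) (nat_lit 0) (nat_lit 0) (XT.lf (nat_lit 0) (nat_lit 6069447738) (nat_lit 1216) (nat_lit 7139935659) (nat_lit 1292) (nat_lit 2197354970) (nat_lit 332) (nat_lit 5) (nat_lit 348) (nat_lit 5) (nat_lit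 349) (nat_lit 5) (nat_lit 430) (nat_lit 424) (nat_lit 346)) (XT.lf (nat_lit 76) (nat_lit 6438191193) (nat_lit 0) (nat_lit 1588575847) (nat_lit 1292) (nat_lit 7767589348) (nat_lit 333) (nat_lit 5) (nat_lit 332) (nat_lit 5) (nat_lit 349) (nat_lit 5) (nat_lit 431) (nat_lit 424) (nat_lit 345)))) (XT.nd (nat_lit 156) (nat_lit 1140) (nat_lit 0) (XT.nd (nat_lit 78) (nat_lit 0) (nat_lit 76) (XT.lf (nat_lit 76) (nat_lit 4608750501) (nat_lit 0) (nat_lit 5663399516) (nat_lit 1292) (nat_lit 5923500740) (nat_lit 334) (nat_lit 5) (nat_lit 333) (nat_lit 5) (nat_lit 350) (nat_lit 5) (nat_lit 432) (nat_lit 424) (nat_lit 344)) (XT.lf (nat_lit 76) (nat_lit 2803683695) (nat_lit 0) (nat_lit 10000680975) (nat_lit 1292) (nat_lit 3807409611) (nat_lit 335) (nat_lit 5) (nat_lit 334) (nat_lit 5) (nat_lit 351) (nat_lit 5) (nat_lit 433) (nat_lit 424) (nat_lit 343))) (XT.nd (nat_lit 78) (nat_lit 76) (nat_lit 0) (XT.lf (nat_lit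 0) (nat_lit 1026436195) (nat_lit 1216) (nat_lit 14618267231) (nat_lit 1292) (nat_lit 1398556406) (nat_lit 319) (nat_lit 5) (nat_lit 335) (nat_lit 5) (nat_lit 336) (nat_lit 5) (nat_lit 434) (nat_lit 424) (nat_lit 342)) (XT.lf (nat_lit 0) (nat_lit 1326133448) (nat_lit 1292) (nat_lit 738041854) (nat_lit 76) (nat_lit 15425295671) (nat_lit 318) (nat_lit 5) (nat_lit 335) (nat_lit 5) (nat_lit 319) (nat_lit 5) (nat_lit 435) (nat_lit 424) (nat_lit 341))))) (XT.nd (nat_lit 234) (nat_lit 2280) (nat_lit 0) (XT.nd (nat_lit 78) (nat_lit 1216) (nat_lit 0) (XT.lf (nat_lit 0) (nat_lit 4390861687) (nat_lit 912) (nat_lit 2490815718) (nat_lit 76) (nat_lit 11068919109) (nat_lit 307) (nat_lit 5) (nat_lit 319) (nat_lit 5) (nat_lit 308) (nat_lit 5) (nat_lit 436) (nat_lit 424) (nat_lit 340)) (XT.nd (nat_lit 78) (nat_lit 608) (nat_lit 0) (XT.lf (nat_lit 0) (nat_lit 7812727673) (nat_lit 684) (nat_lit 4210150714) (nat_lit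 76) (nat_lit 6405783954) (nat_lit 299) (nat_lit 5) (nat_lit 308) (nat_lit 5) (nat_lit 300) (nat_lit 5) (nat_lit 437) (nat_lit 424) (nat_lit 339)) (XT.lf (nat_lit 0) (nat_lit 11616614887) (nat_lit 684) (nat_lit 5891270806) (nat_lit 76) (nat_lit 1416418928) (nat_lit 291) (nat_lit 5) (nat_lit 300) (nat_lit 5) (nat_lit 292) (nat_lit 5) (nat_lit 438) (nat_lit 424) (nat_lit 338)))) (XT.nd (nat_lit 156) (nat_lit 1064) (nat_lit 0) (XT.nd (nat_lit 78) (nat_lit 684) (nat_lit 0) (XT.lf (nat_lit 0) (nat_lit 11869695936) (nat_lit 532) (nat_lit 3997406445) (nat_lit 608) (nat_lit 3569935406) (nat_lit 284) (nat_lit 5) (nat_lit 291) (nat_lit 5) (nat_lit 292) (nat_lit 5) (nat_lit 439) (nat_lit 424) (nat_lit 337)) (XT.lf (nat_lit 0) (nat_lit 590804611) (nat_lit 684) (nat_lit 9217456866) (nat_lit 76) (nat_lit 10159754139) (nat_lit 275) (nat_lit 5) (nat_lit 284) (nat_lit 5) (nat_lit 276) (nat_lit 5) (nat_lit 440) (nat_lit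 424) (nat_lit 336))) (XT.nd (nat_lit 78) (nat_lit 532) (nat_lit 0) (XT.lf (nat_lit 0) (nat_lit 5121973216) (nat_lit 608) (nat_lit 10854495246) (nat_lit 76) (nat_lit 4540927636) (nat_lit 268) (nat_lit 5) (nat_lit 276) (nat_lit 5) (nat_lit 269) (nat_lit 5) (nat_lit 441) (nat_lit 424) (nat_lit 335)) (XT.lf (nat_lit 0) (nat_lit 8634266656) (nat_lit 532) (nat_lit 1502714512) (nat_lit 608) (nat_lit 10949546806) (nat_lit 261) (nat_lit 5) (nat_lit 268) (nat_lit 5) (nat_lit 269) (nat_lit 5) (nat_lit 442) (nat_lit 424) (nat_lit 334))))))))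
noncomputable def xc86 : XT := (XT.nd (nat_lit 2028) (nat_lit 4864) (nat_lit 0) (XT.nd (nat_lit 1014) (nat_lit 3572) (nat_lit 0) (XT.nd (nat_lit 468) (nat_lit 2584) (nat_lit 0) (XT.nd (nat_lit 234) (nat_lit 1368) (nat_lit 0) (XT.nd (nat_lit 78) (nat_lit 988) (nat_lit 0) (XT.lf (nat_lit 0) (nat_lit 7637112539) (nat_lit 456) (nat_lit 8063729072) (nat_lit 532) (nat_lit 5974332529) (nat_lit 255) (nat_lit 5) (nat_lit 261) (nat_lit 5) (nat_lit 262) (nat_lit 5) (nat_lit 443) (nat_lit 424) (nat_lit 333)) (XT.nd (nat_lit 78) (nat_lit 532) (nat_lit 0) (XT.lf (nat_lit 0) (nat_lit 6725318708) (nat_lit 456) (nat_lit 15076405738) (nat_lit 532) (nat_lit 483764011) (nat_lit 249) (nat_lit 5) (nat_lit 255) (nat_lit 5) (nat_lit 256) (nat_lit 5) (nat_lit 444) (nat_lit 424) (nat_lit 332)) (XT.lf (nat_lit 0) (nat_lit 5447296136) (nat_lit 532) (nat_lit 17064194470) (nat_lit 76) (nat_lit 405234903) (nat_lit 242) (nat_lit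 5) (nat_lit 249) (nat_lit 5) (nat_lit 243) (nat_lit 5) (nat_lit 445) (nat_lit 424) (nat_lit 331)))) (XT.nd (nat_lit 78) (nat_lit 912) (nat_lit 0) (XT.lf (nat_lit 0) (nat_lit 5003125862) (nat_lit 456) (nat_lit 7005959922) (nat_lit 532) (nat_lit 11559970128) (nat_lit 236) (nat_lit 5) (nat_lit 242) (nat_lit 5) (nat_lit 243) (nat_lit 5) (nat_lit 446) (nat_lit 424) (nat_lit 330)) (XT.nd (nat_lit 78) (nat_lit 532) (nat_lit 0) (XT.lf (nat_lit 0) (nat_lit 4251725281) (nat_lit 380) (nat_lit 14937333121) (nat_lit 456) (nat_lit 5056242236) (nat_lit 231) (nat_lit 5) (nat_lit 236) (nat_lit 5) (nat_lit 237) (nat_lit 5) (nat_lit 447) (nat_lit 424) (nat_lit 329)) (XT.lf (nat_lit 0) (nat_lit 2034871373) (nat_lit 532) (nat_lit 21354023206) (nat_lit 76) (nat_lit 1557048666) (nat_lit 224) (nat_lit 5) (nat_lit 231) (nat_lit 5) (nat_lit 225) (nat_lit 5) (nat_lit 448) (nat_lit 424) (nat_lit 328))))) (XT.nd (nat_lit 234)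 (nat_lit 1368) (nat_lit 0) (XT.nd (nat_lit 78) (nat_lit 836) (nat_lit 0) (XT.lf (nat_lit 0) (nat_lit 2930865240) (nat_lit 380) (nat_lit 6816546092) (nat_lit 456) (nat_lit 15921562085) (nat_lit 219) (nat_lit 5) (nat_lit 224) (nat_lit 5) (nat_lit 225) (nat_lit 5) (nat_lit 449) (nat_lit 424) (nat_lit 327)) (XT.nd (nat_lit 78) (nat_lit 456) (nat_lit 0) (XT.lf (nat_lit 0) (nat_lit 2375765276) (nat_lit 380) (nat_lit 15800593984) (nat_lit 456) (nat_lit 8241872919) (nat_lit 214) (nat_lit 5) (nat_lit 219) (nat_lit 5) (nat_lit 220) (nat_lit 5) (nat_lit 450) (nat_lit 424) (nat_lit 326)) (XT.lf (nat_lit 0) (nat_lit 151665674) (nat_lit 456) (nat_lit 25242833380) (nat_lit 76) (nat_lit 1800715053) (nat_lit 208) (nat_lit 5) (nat_lit 214) (nat_lit 5) (nat_lit 209) (nat_lit 5) (nat_lit 451) (nat_lit 424) (nat_lit 325)))) (XT.nd (nat_lit 156) (nat_lit 684) (nat_lit 0) (XT.nd (nat_lit 78) (nat_lit 304) (nat_lit 0)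 (XT.lf (nat_lit 0) (nat_lit 1509269362) (nat_lit 380) (nat_lit 7695762476) (nat_lit 456) (nat_lit 18791247506) (nat_lit 203) (nat_lit 5) (nat_lit 208) (nat_lit 5) (nat_lit 209) (nat_lit 5) (nat_lit 452) (nat_lit 424) (nat_lit 324)) (XT.lf (nat_lit 0) (nat_lit 1192296466) (nat_lit 304) (nat_lit 17882864213) (nat_lit 380) (nat_lit 9751314760) (nat_lit 199) (nat_lit 5) (nat_lit 203) (nat_lit 5) (nat_lit 204) (nat_lit 5) (nat_lit 453) (nat_lit 424) (nat_lit 323))) (XT.nd (nat_lit 78) (nat_lit 304) (nat_lit 0) (XT.lf (nat_lit 0) (nat_lit 103722869) (nat_lit 380) (nat_lit 28655685252) (nat_lit 76) (nat_lit 928107011) (nat_lit 194) (nat_lit 5) (nat_lit 199) (nat_lit 5) (nat_lit 195) (nat_lit 5) (nat_lit 454) (nat_lit 424) (nat_lit 322)) (XT.lf (nat_lit 0) (nat_lit 840128727) (nat_lit 304) (nat_lit 9873770901) (nat_lit 380) (nat_lit 19860889346) (nat_lit 190) (nat_lit 5) (nat_lit 194) (nat_lit 5) (nat_lit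 195) (nat_lit 5) (nat_lit 455) (nat_lit 424) (nat_lit 321)))))) (XT.nd (nat_lit 468) (nat_lit 1748) (nat_lit 0) (XT.nd (nat_lit 234) (nat_lit 836) (nat_lit 0) (XT.nd (nat_lit 78) (nat_lit 684) (nat_lit 0) (XT.lf (nat_lit 0) (nat_lit 809312696) (nat_lit 304) (nat_lit 21433392417) (nat_lit 380) (nat_lit 9252078157) (nat_lit 186) (nat_lit 5) (nat_lit 190) (nat_lit 5) (nat_lit 191) (nat_lit 5) (nat_lit 456) (nat_lit 424) (nat_lit 320)) (XT.nd (nat_lit 78) (nat_lit 304) (nat_lit 0) (XT.lf (nat_lit 0) (nat_lit 928015702) (nat_lit 304) (nat_lit 1327083555) (nat_lit 380) (nat_lit 30192991598) (nat_lit 181) (nat_lit 5) (nat_lit 185) (nat_lit 5) (nat_lit 186) (nat_lit 5) (nat_lit 457) (nat_lit 424) (nat_lit 319)) (XT.lf (nat_lit 0) (nat_lit 1038115631) (nat_lit 304) (nat_lit 13616540929) (nat_lit 380) (nat_lit 18776408387) (nat_lit 177) (nat_lit 5) (nat_lit 181) (nat_lit 5) (nat_lit 182) (nat_lit 5) (nat_lit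 458) (nat_lit 424) (nat_lit 318)))) (XT.nd (nat_lit 78) (nat_lit 608) (nat_lit 0) (XT.lf (nat_lit 0) (nat_lit 1347925538) (nat_lit 228) (nat_lit 26740264993) (nat_lit 304) (nat_lit 6362577549) (nat_lit 174) (nat_lit 5) (nat_lit 177) (nat_lit 5) (nat_lit 178) (nat_lit 5) (nat_lit 459) (nat_lit 424) (nat_lit 317)) (XT.nd (nat_lit 78) (nat_lit 228) (nat_lit 0) (XT.lf (nat_lit 0) (nat_lit 1751906871) (nat_lit 304) (nat_lit 5268943077) (nat_lit 380) (nat_lit 28484309690) (nat_lit 169) (nat_lit 5) (nat_lit 173) (nat_lit 5) (nat_lit 174) (nat_lit 5) (nat_lit 460) (nat_lit 424) (nat_lit 316)) (XT.lf (nat_lit 0) (nat_lit 2230500414) (nat_lit 228) (nat_lit 19232624838) (nat_lit 304) (nat_lit 15131617986) (nat_lit 166) (nat_lit 5) (nat_lit 169) (nat_lit 5) (nat_lit 170) (nat_lit 5) (nat_lit 461) (nat_lit 424) (nat_lit 315))))) (XT.nd (nat_lit 234) (nat_lit 988) (nat_lit 0) (XT.nd (nat_lit 78) (nat_lit 532)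 (nat_lit 0) (XT.lf (nat_lit 0) (nat_lit 2941985884) (nat_lit 228) (nat_lit 34137598606) (nat_lit 304) (nat_lit 645659672) (nat_lit 163) (nat_lit 5) (nat_lit 166) (nat_lit 5) (nat_lit 167) (nat_lit 5) (nat_lit 462) (nat_lit 424) (nat_lit 314)) (XT.nd (nat_lit 78) (nat_lit 228) (nat_lit 0) (XT.lf (nat_lit 0) (nat_lit 3645588805) (nat_lit 228) (nat_lit 11210184931) (nat_lit 304) (nat_lit 24035034968) (nat_lit 159) (nat_lit 5) (nat_lit 162) (nat_lit 5) (nat_lit 163) (nat_lit 5) (nat_lit 463) (nat_lit 424) (nat_lit 313)) (XT.lf (nat_lit 0) (nat_lit 4556386687) (nat_lit 228) (nat_lit 27080985934) (nat_lit 304) (nat_lit 8461533882) (nat_lit 156) (nat_lit 5) (nat_lit 159) (nat_lit 5) (nat_lit 160) (nat_lit 5) (nat_lit 464) (nat_lit 424) (nat_lit 312)))) (XT.nd (nat_lit 156) (nat_lit 456) (nat_lit 0) (XT.nd (nat_lit 78) (nat_lit 228) (nat_lit 0) (XT.lf (nat_lit 0) (nat_lit 5627953255) (nat_lit 228) (nat_lit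 2631877938) (nat_lit 304) (nat_lit 33089607803) (nat_lit 152) (nat_lit 5) (nat_lit 155) (nat_lit 5) (nat_lit 156) (nat_lit 5) (nat_lit 465) (nat_lit 424) (nat_lit 311)) (XT.lf (nat_lit 0) (nat_lit 6752333391) (nat_lit 228) (nat_lit 19537220889) (nat_lit 304) (nat_lit 16351012081) (nat_lit 149) (nat_lit 5) (nat_lit 152) (nat_lit 5) (nat_lit 153) (nat_lit 5) (nat_lit 466) (nat_lit 424) (nat_lit 310))) (XT.nd (nat_lit 78) (nat_lit 228) (nat_lit 0) (XT.lf (nat_lit 0) (nat_lit 1730413457) (nat_lit 228) (nat_lit 35832227804) (nat_lit 76) (nat_lit 6417362051) (nat_lit 146) (nat_lit 5) (nat_lit 149) (nat_lit 5) (nat_lit 147) (nat_lit 5) (nat_lit 467) (nat_lit 424) (nat_lit 309)) (XT.lf (nat_lit 0) (nat_lit 9564416983) (nat_lit 228) (nat_lit 11468965094) (nat_lit 304) (nat_lit 24328504395) (nat_lit 143) (nat_lit 5) (nat_lit 146) (nat_lit 5) (nat_lit 147) (nat_lit 5) (nat_lit 468) (nat_lit 424) (nat_lit 308)))))))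 (XT.nd (nat_lit 1014) (nat_lit 2280) (nat_lit 0) (XT.nd (nat_lit 468) (nat_lit 1292) (nat_lit 0) (XT.nd (nat_lit 234) (nat_lit 684) (nat_lit 0) (XT.nd (nat_lit 78) (nat_lit 456) (nat_lit 0) (XT.lf (nat_lit 0) (nat_lit 11223834951) (nat_lit 152) (nat_lit 30701700014) (nat_lit 228) (nat_lit 4868607912) (nat_lit 141) (nat_lit 5) (nat_lit 143) (nat_lit 5) (nat_lit 144) (nat_lit 5) (nat_lit 469) (nat_lit 424) (nat_lit 307)) (XT.nd (nat_lit 78) (nat_lit 152) (nat_lit 0) (XT.lf (nat_lit 0) (nat_lit 13026472391) (nat_lit 228) (nat_lit 2837942950) (nat_lit 304) (nat_lit 32410993097) (nat_lit 137) (nat_lit 5) (nat_lit 140) (nat_lit 5) (nat_lit 141) (nat_lit 5) (nat_lit 470) (nat_lit 424) (nat_lit 306)) (XT.lf (nat_lit 0) (nat_lit 14945822709) (nat_lit 152) (nat_lit 23346874360) (nat_lit 228) (nat_lit 11513815303) (nat_lit 135) (nat_lit 5) (nat_lit 137) (nat_lit 5) (nat_lit 138) (nat_lit 5) (nat_lit 471) (nat_lit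 424) (nat_lit 305)))) (XT.nd (nat_lit 78) (nat_lit 380) (nat_lit 0) (XT.lf (nat_lit 0) (nat_lit 10837492352) (nat_lit 304) (nat_lit 34285361005) (nat_lit 76) (nat_lit 6269928110) (nat_lit 131) (nat_lit 5) (nat_lit 135) (nat_lit 5) (nat_lit 132) (nat_lit 5) (nat_lit 472) (nat_lit 424) (nat_lit 304)) (XT.nd (nat_lit 78) (nat_lit 228) (nat_lit 0) (XT.lf (nat_lit 0) (nat_lit 19362002104) (nat_lit 152) (nat_lit 15483990974) (nat_lit 228) (nat_lit 18185618592) (nat_lit 129) (nat_lit 5) (nat_lit 131) (nat_lit 5) (nat_lit 132) (nat_lit 5) (nat_lit 473) (nat_lit 424) (nat_lit 303)) (XT.lf (nat_lit 0) (nat_lit 5915154523) (nat_lit 228) (nat_lit 32863648687) (nat_lit 76) (nat_lit 15950568433) (nat_lit 126) (nat_lit 5) (nat_lit 129) (nat_lit 5) (nat_lit 127) (nat_lit 5) (nat_lit 474) (nat_lit 424) (nat_lit 302))))) (XT.nd (nat_lit 234) (nat_lit 760) (nat_lit 0) (XT.nd (nat_lit 78) (nat_lit 380) (nat_lit 0)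 (XT.lf (nat_lit 0) (nat_lit 24499888946) (nat_lit 152) (nat_lit 7082036677) (nat_lit 228) (nat_lit 24902580461) (nat_lit 124) (nat_lit 5) (nat_lit 126) (nat_lit 5) (nat_lit 127) (nat_lit 5) (nat_lit 475) (nat_lit 424) (nat_lit 301)) (XT.nd (nat_lit 78) (nat_lit 152) (nat_lit 0) (XT.lf (nat_lit 0) (nat_lit 1057539331) (nat_lit 228) (nat_lit 30946878001) (nat_lit 76) (nat_lit 26297214168) (nat_lit 121) (nat_lit 5) (nat_lit 124) (nat_lit 5) (nat_lit 122) (nat_lit 5) (nat_lit 476) (nat_lit 424) (nat_lit 300)) (XT.lf (nat_lit 0) (nat_lit 28511745328) (nat_lit 228) (nat_lit 29817282963) (nat_lit 76) (nat_lit 1851855077) (nat_lit 119) (nat_lit 5) (nat_lit 122) (nat_lit 5) (nat_lit 120) (nat_lit 5) (nat_lit 477) (nat_lit 424) (nat_lit 299)))) (XT.nd (nat_lit 156) (nat_lit 380) (nat_lit 0) (XT.nd (nat_lit 78) (nat_lit 228) (nat_lit 0) (XT.lf (nat_lit 0) (nat_lit 33556401348) (nat_lit 152) (nat_lit 24741875156)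 (nat_lit 228) (nat_lit 3827032972) (nat_lit 117) (nat_lit 5) (nat_lit 119) (nat_lit 5) (nat_lit 120) (nat_lit 5) (nat_lit 478) (nat_lit 424) (nat_lit 298)) (XT.lf (nat_lit 0) (nat_lit 25679866338) (nat_lit 228) (nat_lit 27224383268) (nat_lit 76) (nat_lit 11232326254) (nat_lit 114) (nat_lit 5) (nat_lit 117) (nat_lit 5) (nat_lit 115) (nat_lit 5) (nat_lit 479) (nat_lit 424) (nat_lit 297))) (XT.nd (nat_lit 78) (nat_lit 228) (nat_lit 0) (XT.lf (nat_lit 0) (nat_lit 40510512706) (nat_lit 152) (nat_lit 17001957886) (nat_lit 228) (nat_lit 8706913046) (nat_lit 112) (nat_lit 5) (nat_lit 114) (nat_lit 5) (nat_lit 115) (nat_lit 5) (nat_lit 480) (nat_lit 424) (nat_lit 296)) (XT.lf (nat_lit 0) (nat_lit 23001753520) (nat_lit 228) (nat_lit 24149130186) (nat_lit 76) (nat_lit 21221620031) (nat_lit 109) (nat_lit 5) (nat_lit 112) (nat_lit 5) (nat_lit 110) (nat_lit 5) (nat_lit 481) (nat_lit 424) (nat_lit 295)))))) (XT.nd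 (nat_lit 546) (nat_lit 1216) (nat_lit 0) (XT.nd (nat_lit 234) (nat_lit 608) (nat_lit 0) (XT.nd (nat_lit 78) (nat_lit 304) (nat_lit 0) (XT.lf (nat_lit 0) (nat_lit 48230136940) (nat_lit 152) (nat_lit 8782760234) (nat_lit 228) (nat_lit 13590883047) (nat_lit 107) (nat_lit 5) (nat_lit 109) (nat_lit 5) (nat_lit 110) (nat_lit 5) (nat_lit 482) (nat_lit 424) (nat_lit 294)) (XT.nd (nat_lit 78) (nat_lit 152) (nat_lit 0) (XT.lf (nat_lit 0) (nat_lit 20454110737) (nat_lit 152) (nat_lit 20615383263) (nat_lit 76) (nat_lit 31839560870) (nat_lit 105) (nat_lit 5) (nat_lit 107) (nat_lit 5) (nat_lit 106) (nat_lit 5) (nat_lit 483) (nat_lit 424) (nat_lit 293)) (XT.lf (nat_lit 0) (nat_lit 56705055410) (nat_lit 152) (nat_lit 77408657) (nat_lit 228) (nat_lit 18517226650) (nat_lit 103) (nat_lit 5) (nat_lit 105) (nat_lit 5) (nat_lit 106) (nat_lit 5) (nat_lit 484) (nat_lit 424) (nat_lit 292)))) (XT.nd (nat_lit 156) (nat_lit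 304) (nat_lit 0) (XT.nd (nat_lit 78) (nat_lit 152) (nat_lit 0) (XT.lf (nat_lit 0) (nat_lit 18005181402) (nat_lit 152) (nat_lit 16662778231) (nat_lit 76) (nat_lit 43100307708) (nat_lit 101) (nat_lit 5) (nat_lit 103) (nat_lit 5) (nat_lit 102) (nat_lit 5) (nat_lit 485) (nat_lit 424) (nat_lit 291)) (XT.lf (nat_lit 0) (nat_lit 56883095755) (nat_lit 228) (nat_lit 14508554402) (nat_lit 76) (nat_lit 8935752013) (nat_lit 99) (nat_lit 5) (nat_lit 102) (nat_lit 5) (nat_lit 100) (nat_lit 4) (nat_lit 486) (nat_lit 424) (nat_lit 290))) (XT.nd (nat_lit 78) (nat_lit 152) (nat_lit 0) (XT.lf (nat_lit 0) (nat_lit 15612809251) (nat_lit 152) (nat_lit 12350567760) (nat_lit 76) (nat_lit 55010608585) (nat_lit 97) (nat_lit 5) (nat_lit 99) (nat_lit 5) (nat_lit 98) (nat_lit 5) (nat_lit 487) (nat_lit 424) (nat_lit 289)) (XT.lf (nat_lit 0) (nat_lit 57196186514) (nat_lit 228) (nat_lit 10104126780) (nat_lit 76) (nat_lit 18413873193)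 (nat_lit 95) (nat_lit 5) (nat_lit 98) (nat_lit 5) (nat_lit 96) (nat_lit 4) (nat_lit 488) (nat_lit 424) (nat_lit 288))))) (XT.nd (nat_lit 234) (nat_lit 760) (nat_lit 0) (XT.nd (nat_lit 78) (nat_lit 304) (nat_lit 0) (XT.lf (nat_lit 0) (nat_lit 13222125455) (nat_lit 152) (nat_lit 7762212763) (nat_lit 76) (nat_lit 67567696512) (nat_lit 93) (nat_lit 5) (nat_lit 95) (nat_lit 5) (nat_lit 94) (nat_lit 5) (nat_lit 489) (nat_lit 424) (nat_lit 287)) (XT.nd (nat_lit 78) (nat_lit 152) (nat_lit 0) (XT.lf (nat_lit 0) (nat_lit 57671382999) (nat_lit 228) (nat_lit 5478366403) (nat_lit 76) (nat_lit 28337197678) (nat_lit 91) (nat_lit 5) (nat_lit 94) (nat_lit 5) (nat_lit 92) (nat_lit 4) (nat_lit 490) (nat_lit 424) (nat_lit 286)) (XT.lf (nat_lit 0) (nat_lit 10762795067) (nat_lit 152) (nat_lit 3010859844) (nat_lit 76) (nat_lit 80756760453) (nat_lit 89) (nat_lit 5) (nat_lit 91) (nat_lit 5) (nat_lit 90) (nat_lit 5) (nat_lit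 491) (nat_lit 424) (nat_lit 285)))) (XT.nd (nat_lit 156) (nat_lit 304) (nat_lit 0) (XT.nd (nat_lit 78) (nat_lit 304) (nat_lit 0) (XT.lf (nat_lit 0) (nat_lit 58242935412) (nat_lit 228) (nat_lit 761849676) (nat_lit 76) (nat_lit 38670061157) (nat_lit 87) (nat_lit 5) (nat_lit 90) (nat_lit 5) (nat_lit 88) (nat_lit 4) (nat_lit 492) (nat_lit 424) (nat_lit 284)) (XT.lf (nat_lit 0) (nat_lit 1789046609) (nat_lit 152) (nat_lit 6373894963) (nat_lit 228) (nat_lit 92776064539) (nat_lit 83) (nat_lit 5) (nat_lit 85) (nat_lit 5) (nat_lit 86) (nat_lit 5) (nat_lit 493) (nat_lit 424) (nat_lit 283))) (XT.nd (nat_lit 78) (nat_lit 228) (nat_lit 0) (XT.lf (nat_lit 0) (nat_lit 3952032406) (nat_lit 76) (nat_lit 54911406773) (nat_lit 152) (nat_lit 45444979927) (nat_lit 82) (nat_lit 5) (nat_lit 83) (nat_lit 5) (nat_lit 84) (nat_lit 4) (nat_lit 494) (nat_lit 424) (nat_lit 282)) (XT.lf (nat_lit 0) (nat_lit 5332425561) (nat_lit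 228) (nat_lit 101355899405) (nat_lit 76) (nat_lit 1121868901) (nat_lit 79) (nat_lit 5) (nat_lit 82) (nat_lit 5) (nat_lit 80) (nat_lit 4) (nat_lit 495) (nat_lit 424) (nat_lit 281))))))))
noncomputable def xc87 : XT := (XT.nd (nat_lit 58890) (nat_lit 0) (nat_lit 3648) (XT.nd (nat_lit 57798) (nat_lit 0) (nat_lit 11248) (XT.nd (nat_lit 57252) (nat_lit 0) (nat_lit 18468) (XT.nd (nat_lit 57018) (nat_lit 0) (nat_lit 19152) (XT.nd (nat_lit 78) (nat_lit 152) (nat_lit 0) (XT.lf (nat_lit 0) (nat_lit 8376485376) (nat_lit 76) (nat_lit 51013759901) (nat_lit 152) (nat_lit 52032871134) (nat_lit 78) (nat_lit 5) (nat_lit 79) (nat_lit 5) (nat_lit 80) (nat_lit 4) (nat_lit 496) (nat_lit 424) (nat_lit 280)) (XT.nd (nat_lit 56862) (nat_lit 0) (nat_lit 19076) (XT.lf (nat_lit 0) (nat_lit 2150445218) (nat_lit 152) (nat_lit 104557376980) (nat_lit 76) (nat_lit 8471561330) (nat_lit 76) (nat_lit 5) (nat_lit 78) (nat_lit 5) (nat_lit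 77) (nat_lit 4) (nat_lit 497) (nat_lit 424) (nat_lit 279)) (XT.lf (nat_lit 0) (nat_lit 130186252) (nat_lit 1292) (nat_lit 3430326799) (nat_lit 1292) (nat_lit 3430326799) (nat_lit 327) (nat_lit 3) (nat_lit 344) (nat_lit 3) (nat_lit 344) (nat_lit 5) (nat_lit 425) (nat_lit 425) (nat_lit 350)))) (XT.nd (nat_lit 78) (nat_lit 0) (nat_lit 76) (XT.lf (nat_lit 0) (nat_lit 918769019) (nat_lit 1216) (nat_lit 9515768401) (nat_lit 1292) (nat_lit 3877101473) (nat_lit 328) (nat_lit 5) (nat_lit 344) (nat_lit 5) (nat_lit 345) (nat_lit 5) (nat_lit 426) (nat_lit 425) (nat_lit 349)) (XT.nd (nat_lit 78) (nat_lit 0) (nat_lit 0) (XT.lf (nat_lit 0) (nat_lit 1747854464) (nat_lit 1216) (nat_lit 12183213879) (nat_lit 1292) (nat_lit 722896304) (nat_lit 329) (nat_lit 5) (nat_lit 345) (nat_lit 5) (nat_lit 346) (nat_lit 5) (nat_lit 427) (nat_lit 425) (nat_lit 348)) (XT.lf (nat_lit 76) (nat_lit 120085122) (nat_lit 0) (nat_lit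 2669056400) (nat_lit 1292) (nat_lit 12219144340) (nat_lit 330) (nat_lit 5) (nat_lit 329) (nat_lit 5) (nat_lit 346) (nat_lit 5) (nat_lit 428) (nat_lit 425) (nat_lit 347))))) (XT.nd (nat_lit 234) (nat_lit 836) (nat_lit 0) (XT.nd (nat_lit 78) (nat_lit 0) (nat_lit 76) (XT.lf (nat_lit 0) (nat_lit 4064090088) (nat_lit 1216) (nat_lit 2194143506) (nat_lit 1292) (nat_lit 9116643151) (nat_lit 330) (nat_lit 5) (nat_lit 346) (nat_lit 5) (nat_lit 347) (nat_lit 5) (nat_lit 429) (nat_lit 425) (nat_lit 346)) (XT.nd (nat_lit 78) (nat_lit 0) (nat_lit 76) (XT.lf (nat_lit 0) (nat_lit 5562687542) (nat_lit 1216) (nat_lit 4504549595) (nat_lit 1292) (nat_lit 5687764440) (nat_lit 331) (nat_lit 5) (nat_lit 347) (nat_lit 5) (nat_lit 348) (nat_lit 5) (nat_lit 430) (nat_lit 425) (nat_lit 345)) (XT.lf (nat_lit 0) (nat_lit 7302011285) (nat_lit 1216) (nat_lit 6811689413) (nat_lit 1292) (nat_lit 2035459439) (nat_lit 332) (nat_lit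 5) (nat_lit 348) (nat_lit 5) (nat_lit 349) (nat_lit 5) (nat_lit 431) (nat_lit 425) (nat_lit 344)))) (XT.nd (nat_lit 156) (nat_lit 988) (nat_lit 0) (XT.nd (nat_lit 78) (nat_lit 0) (nat_lit 76) (XT.lf (nat_lit 76) (nat_lit 7425701428) (nat_lit 0) (nat_lit 1893650848) (nat_lit 1292) (nat_lit 7237944129) (nat_lit 333) (nat_lit 5) (nat_lit 332) (nat_lit 5) (nat_lit 349) (nat_lit 5) (nat_lit 432) (nat_lit 425) (nat_lit 343)) (XT.lf (nat_lit 76) (nat_lit 5513826487) (nat_lit 0) (nat_lit 6125156864) (nat_lit 1292) (nat_lit 5340814697) (nat_lit 334) (nat_lit 5) (nat_lit 333) (nat_lit 5) (nat_lit 350) (nat_lit 5) (nat_lit 433) (nat_lit 425) (nat_lit 342))) (XT.nd (nat_lit 78) (nat_lit 1140) (nat_lit 0) (XT.lf (nat_lit 76) (nat_lit 3625735865) (nat_lit 0) (nat_lit 10636362659) (nat_lit 1292) (nat_lit 3155702364) (nat_lit 335) (nat_lit 5) (nat_lit 334) (nat_lit 5) (nat_lit 351) (nat_lit 5) (nat_lit 434) (nat_lit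 425) (nat_lit 341)) (XT.lf (nat_lit 0) (nat_lit 1765204972) (nat_lit 1216) (nat_lit 15445686255) (nat_lit 1292) (nat_lit 660978124) (nat_lit 319) (nat_lit 5) (nat_lit 335) (nat_lit 5) (nat_lit 336) (nat_lit 5) (nat_lit 435) (nat_lit 425) (nat_lit 340)))))) (XT.nd (nat_lit 546) (nat_lit 3344) (nat_lit 0) (XT.nd (nat_lit 234) (nat_lit 2356) (nat_lit 0) (XT.nd (nat_lit 78) (nat_lit 1444) (nat_lit 0) (XT.lf (nat_lit 0) (nat_lit 2146486549) (nat_lit 1292) (nat_lit 105193282) (nat_lit 76) (nat_lit 16089611032) (nat_lit 318) (nat_lit 5) (nat_lit 335) (nat_lit 5) (nat_lit 319) (nat_lit 5) (nat_lit 436) (nat_lit 425) (nat_lit 339)) (XT.nd (nat_lit 78) (nat_lit 608) (nat_lit 0) (XT.lf (nat_lit 0) (nat_lit 5334087934) (nat_lit 912) (nat_lit 1942331789) (nat_lit 76) (nat_lit 11549965393) (nat_lit 307) (nat_lit 5) (nat_lit 319) (nat_lit 5) (nat_lit 308) (nat_lit 5) (nat_lit 437) (nat_lit 425) (nat_lit 338))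 (XT.lf (nat_lit 0) (nat_lit 8898468642) (nat_lit 684) (nat_lit 3745629651) (nat_lit 76) (nat_lit 6685114762) (nat_lit 299) (nat_lit 5) (nat_lit 308) (nat_lit 5) (nat_lit 300) (nat_lit 5) (nat_lit 438) (nat_lit 425) (nat_lit 337)))) (XT.nd (nat_lit 156) (nat_lit 1216) (nat_lit 0) (XT.nd (nat_lit 78) (nat_lit 532) (nat_lit 0) (XT.lf (nat_lit 0) (nat_lit 12865631396) (nat_lit 684) (nat_lit 5509956831) (nat_lit 76) (nat_lit 1474858179) (nat_lit 291) (nat_lit 5) (nat_lit 300) (nat_lit 5) (nat_lit 292) (nat_lit 5) (nat_lit 439) (nat_lit 425) (nat_lit 336)) (XT.lf (nat_lit 0) (nat_lit 13119684355) (nat_lit 532) (nat_lit 4183451256) (nat_lit 608) (nat_lit 3086447179) (nat_lit 284) (nat_lit 5) (nat_lit 291) (nat_lit 5) (nat_lit 292) (nat_lit 5) (nat_lit 440) (nat_lit 425) (nat_lit 335))) (XT.nd (nat_lit 78) (nat_lit 532) (nat_lit 0) (XT.lf (nat_lit 0) (nat_lit 1245003297) (nat_lit 684) (nat_lit 9009563790)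 (nat_lit 76) (nat_lit 10693085012) (nat_lit 275) (nat_lit 5) (nat_lit 284) (nat_lit 5) (nat_lit 276) (nat_lit 5) (nat_lit 441) (nat_lit 425) (nat_lit 334)) (XT.lf (nat_lit 0) (nat_lit 5979694628) (nat_lit 608) (nat_lit 10730031663) (nat_lit 76) (nat_lit 4815467554) (nat_lit 268) (nat_lit 5) (nat_lit 276) (nat_lit 5) (nat_lit 269) (nat_lit 5) (nat_lit 442) (nat_lit 425) (nat_lit 333))))) (XT.nd (nat_lit 234) (nat_lit 1824) (nat_lit 0) (XT.nd (nat_lit 78) (nat_lit 988) (nat_lit 0) (XT.lf (nat_lit 0) (nat_lit 9714043514) (nat_lit 532) (nat_lit 1508990344) (nat_lit 608) (nat_lit 10900422143) (nat_lit 261) (nat_lit 5) (nat_lit 268) (nat_lit 5) (nat_lit 269) (nat_lit 5) (nat_lit 443) (nat_lit 425) (nat_lit 332)) (XT.nd (nat_lit 78) (nat_lit 532) (nat_lit 0) (XT.lf (nat_lit 0) (nat_lit 8664711781) (nat_lit 456) (nat_lit 8379632103) (nat_lit 532) (nat_lit 5697813956) (nat_lit 255) (nat_lit 5) (nat_lit 261)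 (nat_lit 5) (nat_lit 262) (nat_lit 5) (nat_lit 444) (nat_lit 425) (nat_lit 331)) (XT.lf (nat_lit 0) (nat_lit 46158718) (nat_lit 532) (nat_lit 15679732571) (nat_lit 76) (nat_lit 7657672502) (nat_lit 248) (nat_lit 5) (nat_lit 255) (nat_lit 5) (nat_lit 249) (nat_lit 5) (nat_lit 445) (nat_lit 425) (nat_lit 330)))) (XT.nd (nat_lit 156) (nat_lit 912) (nat_lit 0) (XT.nd (nat_lit 78) (nat_lit 456) (nat_lit 0) (XT.lf (nat_lit 0) (nat_lit 6245109654) (nat_lit 532) (nat_lit 17267886872) (nat_lit 76) (nat_lit 533783125) (nat_lit 242) (nat_lit 5) (nat_lit 249) (nat_lit 5) (nat_lit 243) (nat_lit 5) (nat_lit 446) (nat_lit 425) (nat_lit 329)) (XT.lf (nat_lit 0) (nat_lit 5884181192) (nat_lit 456) (nat_lit 7231850812) (nat_lit 532) (nat_lit 11616264163) (nat_lit 236) (nat_lit 5) (nat_lit 242) (nat_lit 5) (nat_lit 243) (nat_lit 5) (nat_lit 447) (nat_lit 425) (nat_lit 328))) (XT.nd (nat_lit 78) (nat_lit 532) (nat_lit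 0) (XT.lf (nat_lit 0) (nat_lit 5090740866) (nat_lit 380) (nat_lit 15547304277) (nat_lit 456) (nat_lit 4804817577) (nat_lit 231) (nat_lit 5) (nat_lit 236) (nat_lit 5) (nat_lit 237) (nat_lit 5) (nat_lit 448) (nat_lit 425) (nat_lit 327)) (XT.lf (nat_lit 0) (nat_lit 2614768335) (nat_lit 532) (nat_lit 21790716377) (nat_lit 76) (nat_lit 1773395435) (nat_lit 224) (nat_lit 5) (nat_lit 231) (nat_lit 5) (nat_lit 225) (nat_lit 5) (nat_lit 449) (nat_lit 425) (nat_lit 326))))))) (XT.nd (nat_lit 1014) (nat_lit 3192) (nat_lit 0) (XT.nd (nat_lit 468) (nat_lit 2128) (nat_lit 0) (XT.nd (nat_lit 234) (nat_lit 1064) (nat_lit 0) (XT.nd (nat_lit 78) (nat_lit 836) (nat_lit 0) (XT.lf (nat_lit 0) (nat_lit 3690328773) (nat_lit 380) (nat_lit 7005729074) (nat_lit 456) (nat_lit 16242511049) (nat_lit 219) (nat_lit 5) (nat_lit 224) (nat_lit 5) (nat_lit 225) (nat_lit 5) (nat_lit 450) (nat_lit 425) (nat_lit 325)) (XT.nd (nat_lit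 78) (nat_lit 456) (nat_lit 0) (XT.lf (nat_lit 0) (nat_lit 3101944754) (nat_lit 380) (nat_lit 16429769796) (nat_lit 456) (nat_lit 8194018915) (nat_lit 214) (nat_lit 5) (nat_lit 219) (nat_lit 5) (nat_lit 220) (nat_lit 5) (nat_lit 451) (nat_lit 425) (nat_lit 324)) (XT.lf (nat_lit 0) (nat_lit 596072949) (nat_lit 456) (nat_lit 25894763781) (nat_lit 76) (nat_lit 2051020231) (nat_lit 208) (nat_lit 5) (nat_lit 214) (nat_lit 5) (nat_lit 209) (nat_lit 5) (nat_lit 452) (nat_lit 425) (nat_lit 323)))) (XT.nd (nat_lit 78) (nat_lit 684) (nat_lit 0) (XT.lf (nat_lit 0) (nat_lit 2177452515) (nat_lit 380) (nat_lit 7909551347) (nat_lit 456) (nat_lit 19296425328) (nat_lit 203) (nat_lit 5) (nat_lit 208) (nat_lit 5) (nat_lit 209) (nat_lit 5) (nat_lit 453) (nat_lit 425) (nat_lit 322)) (XT.nd (nat_lit 78) (nat_lit 380) (nat_lit 0) (XT.lf (nat_lit 0) (nat_lit 1838345258) (nat_lit 304) (nat_lit 18599414599) (nat_lit 380)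 (nat_lit 9817762207) (nat_lit 199) (nat_lit 5) (nat_lit 203) (nat_lit 5) (nat_lit 204) (nat_lit 5) (nat_lit 454) (nat_lit 425) (nat_lit 321)) (XT.lf (nat_lit 0) (nat_lit 509419222) (nat_lit 380) (nat_lit 29500596577) (nat_lit 76) (nat_lit 1149848769) (nat_lit 194) (nat_lit 5) (nat_lit 199) (nat_lit 5) (nat_lit 195) (nat_lit 5) (nat_lit 455) (nat_lit 425) (nat_lit 320))))) (XT.nd (nat_lit 234) (nat_lit 1140) (nat_lit 0) (XT.nd (nat_lit 78) (nat_lit 684) (nat_lit 0) (XT.lf (nat_lit 0) (nat_lit 1453156841) (nat_lit 304) (nat_lit 10183365073) (nat_lit 380) (nat_lit 20455388200) (nat_lit 190) (nat_lit 5) (nat_lit 194) (nat_lit 5) (nat_lit 195) (nat_lit 5) (nat_lit 456) (nat_lit 425) (nat_lit 319)) (XT.nd (nat_lit 78) (nat_lit 380) (nat_lit 0) (XT.lf (nat_lit 0) (nat_lit 1413998157) (nat_lit 304) (nat_lit 22316453392) (nat_lit 380) (nat_lit 9327792559) (nat_lit 186) (nat_lit 5) (nat_lit 190) (nat_lit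 5) (nat_lit 191) (nat_lit 5) (nat_lit 457) (nat_lit 425) (nat_lit 318)) (XT.lf (nat_lit 0) (nat_lit 1529805686) (nat_lit 304) (nat_lit 1204663368) (nat_lit 380) (nat_lit 31325018661) (nat_lit 181) (nat_lit 5) (nat_lit 185) (nat_lit 5) (nat_lit 186) (nat_lit 5) (nat_lit 458) (nat_lit 425) (nat_lit 317)))) (XT.nd (nat_lit 156) (nat_lit 608) (nat_lit 0) (XT.nd (nat_lit 78) (nat_lit 228) (nat_lit 0) (XT.lf (nat_lit 0) (nat_lit 1638420042) (nat_lit 304) (nat_lit 14105126079) (nat_lit 380) (nat_lit 19348378574) (nat_lit 177) (nat_lit 5) (nat_lit 181) (nat_lit 5) (nat_lit 182) (nat_lit 5) (nat_lit 459) (nat_lit 425) (nat_lit 316)) (XT.lf (nat_lit 0) (nat_lit 1956592705) (nat_lit 228) (nat_lit 27882167217) (nat_lit 304) (nat_lit 6324153388) (nat_lit 174) (nat_lit 5) (nat_lit 177) (nat_lit 5) (nat_lit 178) (nat_lit 5) (nat_lit 460) (nat_lit 425) (nat_lit 315))) (XT.nd (nat_lit 78) (nat_lit 228) (nat_lit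 0) (XT.lf (nat_lit 0) (nat_lit 2372023779) (nat_lit 304) (nat_lit 5337935595) (nat_lit 380) (nat_lit 29560308492) (nat_lit 169) (nat_lit 5) (nat_lit 173) (nat_lit 5) (nat_lit 174) (nat_lit 5) (nat_lit 461) (nat_lit 425) (nat_lit 314)) (XT.lf (nat_lit 0) (nat_lit 2867325553) (nat_lit 228) (nat_lit 19997754176) (nat_lit 304) (nat_lit 15549529346) (nat_lit 166) (nat_lit 5) (nat_lit 169) (nat_lit 5) (nat_lit 170) (nat_lit 5) (nat_lit 462) (nat_lit 425) (nat_lit 313)))))) (XT.nd (nat_lit 546) (nat_lit 1444) (nat_lit 0) (XT.nd (nat_lit 234) (nat_lit 988) (nat_lit 0) (XT.nd (nat_lit 78) (nat_lit 532) (nat_lit 0) (XT.lf (nat_lit 0) (nat_lit 3607081288) (nat_lit 228) (nat_lit 35646401828) (nat_lit 304) (nat_lit 348418645) (nat_lit 163) (nat_lit 5) (nat_lit 166) (nat_lit 5) (nat_lit 167) (nat_lit 5) (nat_lit 463) (nat_lit 425) (nat_lit 312)) (XT.nd (nat_lit 78) (nat_lit 228) (nat_lit 0) (XT.lf (nat_lit 0)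 (nat_lit 4337268607) (nat_lit 228) (nat_lit 11573898875) (nat_lit 304) (nat_lit 24914797009) (nat_lit 159) (nat_lit 5) (nat_lit 162) (nat_lit 5) (nat_lit 163) (nat_lit 5) (nat_lit 464) (nat_lit 425) (nat_lit 311)) (XT.lf (nat_lit 0) (nat_lit 5286282673) (nat_lit 228) (nat_lit 28237305586) (nat_lit 304) (nat_lit 8571126971) (nat_lit 156) (nat_lit 5) (nat_lit 159) (nat_lit 5) (nat_lit 160) (nat_lit 5) (nat_lit 465) (nat_lit 425) (nat_lit 310)))) (XT.nd (nat_lit 156) (nat_lit 456) (nat_lit 0) (XT.nd (nat_lit 78) (nat_lit 228) (nat_lit 0) (XT.lf (nat_lit 0) (nat_lit 6402983324) (nat_lit 228) (nat_lit 2567314439) (nat_lit 304) (nat_lit 34437683209) (nat_lit 152) (nat_lit 5) (nat_lit 155) (nat_lit 5) (nat_lit 156) (nat_lit 5) (nat_lit 466) (nat_lit 425) (nat_lit 309)) (XT.lf (nat_lit 0) (nat_lit 7576275054) (nat_lit 228) (nat_lit 20317537123) (nat_lit 304) (nat_lit 16870083647) (nat_lit 149) (nat_lit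 5) (nat_lit 152) (nat_lit 5) (nat_lit 153) (nat_lit 5) (nat_lit 467) (nat_lit 425) (nat_lit 308))) (XT.nd (nat_lit 78) (nat_lit 228) (nat_lit 0) (XT.lf (nat_lit 0) (nat_lit 2102120008) (nat_lit 228) (nat_lit 37139159460) (nat_lit 76) (nat_lit 6929163394) (nat_lit 146) (nat_lit 5) (nat_lit 149) (nat_lit 5) (nat_lit 147) (nat_lit 5) (nat_lit 468) (nat_lit 425) (nat_lit 307)) (XT.lf (nat_lit 0) (nat_lit 10513424318) (nat_lit 228) (nat_lit 11847757948) (nat_lit 304) (nat_lit 25260509798) (nat_lit 143) (nat_lit 5) (nat_lit 146) (nat_lit 5) (nat_lit 147) (nat_lit 5) (nat_lit 469) (nat_lit 425) (nat_lit 306))))) (XT.nd (nat_lit 234) (nat_lit 836) (nat_lit 0) (XT.nd (nat_lit 78) (nat_lit 456) (nat_lit 0) (XT.lf (nat_lit 0) (nat_lit 12248551810) (nat_lit 152) (nat_lit 32042479621) (nat_lit 228) (nat_lit 4834737428) (nat_lit 141) (nat_lit 5) (nat_lit 143) (nat_lit 5) (nat_lit 144) (nat_lit 5) (nat_lit 470)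 (nat_lit 425) (nat_lit 305)) (XT.nd (nat_lit 78) (nat_lit 152) (nat_lit 0) (XT.lf (nat_lit 0) (nat_lit 14133294608) (nat_lit 228) (nat_lit 2787662641) (nat_lit 304) (nat_lit 33760317751) (nat_lit 137) (nat_lit 5) (nat_lit 140) (nat_lit 5) (nat_lit 141) (nat_lit 5) (nat_lit 471) (nat_lit 425) (nat_lit 304)) (XT.lf (nat_lit 0) (nat_lit 16141438589) (nat_lit 152) (nat_lit 24322744303) (nat_lit 228) (nat_lit 11824945544) (nat_lit 135) (nat_lit 5) (nat_lit 137) (nat_lit 5) (nat_lit 138) (nat_lit 5) (nat_lit 472) (nat_lit 425) (nat_lit 303)))) (XT.nd (nat_lit 156) (nat_lit 380) (nat_lit 0) (XT.nd (nat_lit 78) (nat_lit 152) (nat_lit 0) (XT.lf (nat_lit 0) (nat_lit 11632465779) (nat_lit 304) (nat_lit 35553413809) (nat_lit 76) (nat_lit 6768944268) (nat_lit 131) (nat_lit 5) (nat_lit 135) (nat_lit 5) (nat_lit 132) (nat_lit 5) (nat_lit 473) (nat_lit 425) (nat_lit 302)) (XT.lf (nat_lit 0) (nat_lit 20763526785)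 (nat_lit 152) (nat_lit 16069978773) (nat_lit 228) (nat_lit 18842326765) (nat_lit 129) (nat_lit 5) (nat_lit 131) (nat_lit 5) (nat_lit 132) (nat_lit 5) (nat_lit 474) (nat_lit 425) (nat_lit 301))) (XT.nd (nat_lit 78) (nat_lit 152) (nat_lit 0) (XT.lf (nat_lit 0) (nat_lit 6452643260) (nat_lit 228) (nat_lit 34075624763) (nat_lit 76) (nat_lit 16930316995) (nat_lit 126) (nat_lit 5) (nat_lit 129) (nat_lit 5) (nat_lit 127) (nat_lit 5) (nat_lit 475) (nat_lit 425) (nat_lit 300)) (XT.lf (nat_lit 0) (nat_lit 26143729308) (nat_lit 152) (nat_lit 7251538809) (nat_lit 228) (nat_lit 25906432764) (nat_lit 124) (nat_lit 5) (nat_lit 126) (nat_lit 5) (nat_lit 127) (nat_lit 5) (nat_lit 476) (nat_lit 425) (nat_lit 299))))))))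
noncomputable def xc88 : XT := (XT.nd (nat_lit 58890) (nat_lit 0) (nat_lit 8512) (XT.nd (nat_lit 1014) (nat_lit 1292) (nat_lit 0) (XT.nd (nat_lit 468) (nat_lit 1064) (nat_lit 0) (XT.nd (nat_lit 234) (nat_lit 608) (nat_lit 0) (XT.nd (nat_lit 78) (nat_lit 304) (nat_lit 0) (XT.lf (nat_lit 0) (nat_lit 1341425466) (nat_lit 228) (nat_lit 32077676341) (nat_lit 76) (nat_lit 27790678109) (nat_lit 121) (nat_lit 5) (nat_lit 124) (nat_lit 5) (nat_lit 122) (nat_lit 5) (nat_lit 477) (nat_lit 425) (nat_lit 298)) (XT.nd (nat_lit 78) (nat_lit 152) (nat_lit 0) (XT.lf (nat_lit 0) (nat_lit 30162967709) (nat_lit 228) (nat_lit 30898559125) (nat_lit 76) (nat_lit 2121628901) (nat_lit 119) (nat_lit 5) (nat_lit 122) (nat_lit 5) (nat_lit 120) (nat_lit 5) (nat_lit 478) (nat_lit 425) (nat_lit 297)) (XT.lf (nat_lit 0) (nat_lit 35632068644) (nat_lit 152) (nat_lit 25799836622) (nat_lit 228) (nat_lit 3793105618) (nat_lit 117) (nat_lit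 5) (nat_lit 119) (nat_lit 5) (nat_lit 120) (nat_lit 5) (nat_lit 479) (nat_lit 425) (nat_lit 296)))) (XT.nd (nat_lit 78) (nat_lit 380) (nat_lit 0) (XT.lf (nat_lit 0) (nat_lit 27179677749) (nat_lit 228) (nat_lit 28190158453) (nat_lit 76) (nat_lit 11967091489) (nat_lit 114) (nat_lit 5) (nat_lit 117) (nat_lit 5) (nat_lit 115) (nat_lit 5) (nat_lit 480) (nat_lit 425) (nat_lit 295)) (XT.nd (nat_lit 78) (nat_lit 228) (nat_lit 0) (XT.lf (nat_lit 0) (nat_lit 42920146997) (nat_lit 152) (nat_lit 17677180453) (nat_lit 228) (nat_lit 8926746064) (nat_lit 112) (nat_lit 5) (nat_lit 114) (nat_lit 5) (nat_lit 115) (nat_lit 5) (nat_lit 481) (nat_lit 425) (nat_lit 294)) (XT.lf (nat_lit 0) (nat_lit 24358368284) (nat_lit 228) (nat_lit 24974909525) (nat_lit 76) (nat_lit 22451653172) (nat_lit 109) (nat_lit 5) (nat_lit 112) (nat_lit 5) (nat_lit 110) (nat_lit 5) (nat_lit 482) (nat_lit 425) (nat_lit 293))))) (XT.nd (nat_lit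 234) (nat_lit 608) (nat_lit 0) (XT.nd (nat_lit 78) (nat_lit 304) (nat_lit 0) (XT.lf (nat_lit 0) (nat_lit 51012380259) (nat_lit 152) (nat_lit 9051417985) (nat_lit 228) (nat_lit 14064161273) (nat_lit 107) (nat_lit 5) (nat_lit 109) (nat_lit 5) (nat_lit 110) (nat_lit 5) (nat_lit 483) (nat_lit 425) (nat_lit 292)) (XT.nd (nat_lit 78) (nat_lit 152) (nat_lit 0) (XT.lf (nat_lit 0) (nat_lit 21674539947) (nat_lit 152) (nat_lit 21277860413) (nat_lit 76) (nat_lit 33596173668) (nat_lit 105) (nat_lit 5) (nat_lit 107) (nat_lit 5) (nat_lit 106) (nat_lit 5) (nat_lit 484) (nat_lit 425) (nat_lit 291)) (XT.lf (nat_lit 0) (nat_lit 59814148571) (nat_lit 228) (nat_lit 19161692151) (nat_lit 76) (nat_lit 83055903) (nat_lit 103) (nat_lit 5) (nat_lit 106) (nat_lit 5) (nat_lit 104) (nat_lit 4) (nat_lit 485) (nat_lit 425) (nat_lit 290)))) (XT.nd (nat_lit 156) (nat_lit 304) (nat_lit 0) (XT.nd (nat_lit 78) (nat_lit 152) (nat_lit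 0) (XT.lf (nat_lit 0) (nat_lit 19094813564) (nat_lit 152) (nat_lit 17140626584) (nat_lit 76) (nat_lit 45415557714) (nat_lit 101) (nat_lit 5) (nat_lit 103) (nat_lit 5) (nat_lit 102) (nat_lit 5) (nat_lit 486) (nat_lit 425) (nat_lit 289)) (XT.lf (nat_lit 0) (nat_lit 59912475038) (nat_lit 228) (nat_lit 14884915940) (nat_lit 76) (nat_lit 9540822992) (nat_lit 99) (nat_lit 5) (nat_lit 102) (nat_lit 5) (nat_lit 100) (nat_lit 4) (nat_lit 487) (nat_lit 425) (nat_lit 288))) (XT.nd (nat_lit 78) (nat_lit 152) (nat_lit 0) (XT.lf (nat_lit 0) (nat_lit 16574893566) (nat_lit 152) (nat_lit 12625423334) (nat_lit 76) (nat_lit 57916923205) (nat_lit 97) (nat_lit 5) (nat_lit 99) (nat_lit 5) (nat_lit 98) (nat_lit 5) (nat_lit 488) (nat_lit 425) (nat_lit 287)) (XT.lf (nat_lit 0) (nat_lit 60233506777) (nat_lit 228) (nat_lit 10272709178) (nat_lit 76) (nat_lit 19488353142) (nat_lit 95) (nat_lit 5) (nat_lit 98) (nat_lit 5) (nat_lit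 96) (nat_lit 4) (nat_lit 489) (nat_lit 425) (nat_lit 286)))))) (XT.nd (nat_lit 468) (nat_lit 304) (nat_lit 0) (XT.nd (nat_lit 234) (nat_lit 532) (nat_lit 0) (XT.nd (nat_lit 78) (nat_lit 304) (nat_lit 0) (XT.lf (nat_lit 0) (nat_lit 14057139100) (nat_lit 152) (nat_lit 7819886339) (nat_lit 76) (nat_lit 71097392525) (nat_lit 93) (nat_lit 5) (nat_lit 95) (nat_lit 5) (nat_lit 94) (nat_lit 5) (nat_lit 490) (nat_lit 425) (nat_lit 285)) (XT.nd (nat_lit 78) (nat_lit 152) (nat_lit 0) (XT.lf (nat_lit 0) (nat_lit 60725127087) (nat_lit 228) (nat_lit 5427720567) (nat_lit 76) (nat_lit 29903340311) (nat_lit 91) (nat_lit 5) (nat_lit 94) (nat_lit 5) (nat_lit 92) (nat_lit 4) (nat_lit 491) (nat_lit 425) (nat_lit 284)) (XT.lf (nat_lit 0) (nat_lit 11467672480) (nat_lit 152) (nat_lit 2842822712) (nat_lit 76) (nat_lit 84941437683) (nat_lit 89) (nat_lit 5) (nat_lit 91) (nat_lit 5) (nat_lit 90) (nat_lit 5) (nat_lit 492) (nat_lit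 425) (nat_lit 283)))) (XT.nd (nat_lit 78) (nat_lit 380) (nat_lit 0) (XT.lf (nat_lit 0) (nat_lit 61318274107) (nat_lit 228) (nat_lit 487059373) (nat_lit 76) (nat_lit 40748358244) (nat_lit 87) (nat_lit 5) (nat_lit 90) (nat_lit 5) (nat_lit 88) (nat_lit 4) (nat_lit 493) (nat_lit 425) (nat_lit 282)) (XT.nd (nat_lit 78) (nat_lit 76) (nat_lit 0) (XT.lf (nat_lit 0) (nat_lit 2191708385) (nat_lit 152) (nat_lit 6542302064) (nat_lit 228) (nat_lit 97247057320) (nat_lit 83) (nat_lit 5) (nat_lit 85) (nat_lit 5) (nat_lit 86) (nat_lit 5) (nat_lit 494) (nat_lit 425) (nat_lit 281)) (XT.lf (nat_lit 0) (nat_lit 4457210655) (nat_lit 76) (nat_lit 57508896578) (nat_lit 152) (nat_lit 47552946999) (nat_lit 82) (nat_lit 5) (nat_lit 83) (nat_lit 5) (nat_lit 84) (nat_lit 4) (nat_lit 495) (nat_lit 425) (nat_lit 280))))) (XT.nd (nat_lit 57096) (nat_lit 0) (nat_lit 19000) (XT.nd (nat_lit 78) (nat_lit 76) (nat_lit 0) (XT.lf (nat_lit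 0) (nat_lit 5756753821) (nat_lit 228) (nat_lit 106118528808) (nat_lit 76) (nat_lit 1320688846) (nat_lit 79) (nat_lit 5) (nat_lit 82) (nat_lit 5) (nat_lit 80) (nat_lit 4) (nat_lit 496) (nat_lit 425) (nat_lit 279)) (XT.nd (nat_lit 56940) (nat_lit 0) (nat_lit 18924) (XT.lf (nat_lit 0) (nat_lit 9091727702) (nat_lit 76) (nat_lit 53421076316) (nat_lit 152) (nat_lit 54476875986) (nat_lit 78) (nat_lit 5) (nat_lit 79) (nat_lit 5) (nat_lit 80) (nat_lit 4) (nat_lit 497) (nat_lit 425) (nat_lit 278)) (XT.lf (nat_lit 0) (nat_lit 695236090) (nat_lit 1292) (nat_lit 3314181880) (nat_lit 1292) (nat_lit 3314181880) (nat_lit 327) (nat_lit 3) (nat_lit 344) (nat_lit 3) (nat_lit 344) (nat_lit 5) (nat_lit 426) (nat_lit 426) (nat_lit 348)))) (XT.nd (nat_lit 156) (nat_lit 0) (nat_lit 76) (XT.nd (nat_lit 78) (nat_lit 0) (nat_lit 76) (XT.lf (nat_lit 0) (nat_lit 2029059469) (nat_lit 1216) (nat_lit 9395692408) (nat_lit 1292)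 (nat_lit 3570489300) (nat_lit 328) (nat_lit 5) (nat_lit 344) (nat_lit 5) (nat_lit 345) (nat_lit 5) (nat_lit 427) (nat_lit 426) (nat_lit 347)) (XT.lf (nat_lit 0) (nat_lit 2850245527) (nat_lit 1216) (nat_lit 12178732909) (nat_lit 1292) (nat_lit 327187730) (nat_lit 329) (nat_lit 5) (nat_lit 345) (nat_lit 5) (nat_lit 346) (nat_lit 5) (nat_lit 428) (nat_lit 426) (nat_lit 346))) (XT.nd (nat_lit 78) (nat_lit 0) (nat_lit 76) (XT.lf (nat_lit 76) (nat_lit 722141127) (nat_lit 0) (nat_lit 3178852172) (nat_lit 1292) (nat_lit 11828490480) (nat_lit 330) (nat_lit 5) (nat_lit 329) (nat_lit 5) (nat_lit 346) (nat_lit 5) (nat_lit 429) (nat_lit 426) (nat_lit 345)) (XT.lf (nat_lit 0) (nat_lit 5189939413) (nat_lit 1216) (nat_lit 1704911858) (nat_lit 1292) (nat_lit 9221047552) (nat_lit 330) (nat_lit 5) (nat_lit 346) (nat_lit 5) (nat_lit 347) (nat_lit 5) (nat_lit 430) (nat_lit 426) (nat_lit 344))))))) (XT.nd (nat_lit 1014)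 (nat_lit 5928) (nat_lit 0) (XT.nd (nat_lit 468) (nat_lit 3800) (nat_lit 0) (XT.nd (nat_lit 234) (nat_lit 988) (nat_lit 0) (XT.nd (nat_lit 78) (nat_lit 0) (nat_lit 76) (XT.lf (nat_lit 0) (nat_lit 6722215488) (nat_lit 1216) (nat_lit 4118529151) (nat_lit 1292) (nat_lit 5675524814) (nat_lit 331) (nat_lit 5) (nat_lit 347) (nat_lit 5) (nat_lit 348) (nat_lit 5) (nat_lit 431) (nat_lit 426) (nat_lit 343)) (XT.nd (nat_lit 78) (nat_lit 0) (nat_lit 0) (XT.lf (nat_lit 0) (nat_lit 8509824920) (nat_lit 1216) (nat_lit 6530738256) (nat_lit 1292) (nat_lit 1890735104) (nat_lit 332) (nat_lit 5) (nat_lit 348) (nat_lit 5) (nat_lit 349) (nat_lit 5) (nat_lit 432) (nat_lit 426) (nat_lit 342)) (XT.lf (nat_lit 76) (nat_lit 8400705933) (nat_lit 0) (nat_lit 2193001154) (nat_lit 1292) (nat_lit 6767165884) (nat_lit 333) (nat_lit 5) (nat_lit 332) (nat_lit 5) (nat_lit 349) (nat_lit 5) (nat_lit 433) (nat_lit 426) (nat_lit 341))))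 (XT.nd (nat_lit 78) (nat_lit 1140) (nat_lit 0) (XT.lf (nat_lit 76) (nat_lit 6401434783) (nat_lit 0) (nat_lit 6593398718) (nat_lit 1292) (nat_lit 4810702526) (nat_lit 334) (nat_lit 5) (nat_lit 333) (nat_lit 5) (nat_lit 350) (nat_lit 5) (nat_lit 434) (nat_lit 426) (nat_lit 340)) (XT.nd (nat_lit 78) (nat_lit 1216) (nat_lit 0) (XT.lf (nat_lit 76) (nat_lit 4425497020) (nat_lit 0) (nat_lit 11291217196) (nat_lit 1292) (nat_lit 2549698160) (nat_lit 335) (nat_lit 5) (nat_lit 334) (nat_lit 5) (nat_lit 351) (nat_lit 5) (nat_lit 435) (nat_lit 426) (nat_lit 339)) (XT.lf (nat_lit 0) (nat_lit 37655392) (nat_lit 1292) (nat_lit 16267468410) (nat_lit 76) (nat_lit 2438964246) (nat_lit 318) (nat_lit 5) (nat_lit 335) (nat_lit 5) (nat_lit 319) (nat_lit 5) (nat_lit 436) (nat_lit 426) (nat_lit 338))))) (XT.nd (nat_lit 234) (nat_lit 2356) (nat_lit 0) (XT.nd (nat_lit 78) (nat_lit 608) (nat_lit 0) (XT.lf (nat_lit 0) (nat_lit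 506922533) (nat_lit 836) (nat_lit 2435703532) (nat_lit 912) (nat_lit 16295035621) (nat_lit 307) (nat_lit 5) (nat_lit 318) (nat_lit 5) (nat_lit 319) (nat_lit 5) (nat_lit 437) (nat_lit 426) (nat_lit 337)) (XT.nd (nat_lit 78) (nat_lit 608) (nat_lit 0) (XT.lf (nat_lit 0) (nat_lit 6257194292) (nat_lit 912) (nat_lit 1428995123) (nat_lit 76) (nat_lit 12061795026) (nat_lit 307) (nat_lit 5) (nat_lit 319) (nat_lit 5) (nat_lit 308) (nat_lit 5) (nat_lit 438) (nat_lit 426) (nat_lit 336)) (XT.lf (nat_lit 0) (nat_lit 9973872422) (nat_lit 684) (nat_lit 3320640296) (nat_lit 76) (nat_lit 6982220035) (nat_lit 299) (nat_lit 5) (nat_lit 308) (nat_lit 5) (nat_lit 300) (nat_lit 5) (nat_lit 439) (nat_lit 426) (nat_lit 335)))) (XT.nd (nat_lit 156) (nat_lit 1216) (nat_lit 0) (XT.nd (nat_lit 78) (nat_lit 532) (nat_lit 0) (XT.lf (nat_lit 0) (nat_lit 14114977152) (nat_lit 684) (nat_lit 5172413843) (nat_lit 76) (nat_lit 1537370526)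 (nat_lit 291) (nat_lit 5) (nat_lit 300) (nat_lit 5) (nat_lit 292) (nat_lit 5) (nat_lit 440) (nat_lit 426) (nat_lit 334)) (XT.lf (nat_lit 0) (nat_lit 14371136710) (nat_lit 532) (nat_lit 4380083672) (nat_lit 608) (nat_lit 2640329631) (nat_lit 284) (nat_lit 5) (nat_lit 291) (nat_lit 5) (nat_lit 292) (nat_lit 5) (nat_lit 441) (nat_lit 426) (nat_lit 333))) (XT.nd (nat_lit 78) (nat_lit 532) (nat_lit 0) (XT.lf (nat_lit 0) (nat_lit 1873837095) (nat_lit 684) (nat_lit 8853451576) (nat_lit 76) (nat_lit 11250726261) (nat_lit 275) (nat_lit 5) (nat_lit 284) (nat_lit 5) (nat_lit 276) (nat_lit 5) (nat_lit 442) (nat_lit 426) (nat_lit 332)) (XT.lf (nat_lit 0) (nat_lit 6824368929) (nat_lit 608) (nat_lit 10661373749) (nat_lit 76) (nat_lit 5099318969) (nat_lit 268) (nat_lit 5) (nat_lit 276) (nat_lit 5) (nat_lit 269) (nat_lit 5) (nat_lit 443) (nat_lit 426) (nat_lit 331)))))) (XT.nd (nat_lit 546) (nat_lit 2584) (nat_lit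 0) (XT.nd (nat_lit 234) (nat_lit 1824) (nat_lit 0) (XT.nd (nat_lit 78) (nat_lit 988) (nat_lit 0) (XT.lf (nat_lit 0) (nat_lit 10787558411) (nat_lit 532) (nat_lit 1521981907) (nat_lit 608) (nat_lit 10904307647) (nat_lit 261) (nat_lit 5) (nat_lit 268) (nat_lit 5) (nat_lit 269) (nat_lit 5) (nat_lit 444) (nat_lit 426) (nat_lit 330)) (XT.nd (nat_lit 78) (nat_lit 532) (nat_lit 0) (XT.lf (nat_lit 0) (nat_lit 9683655865) (nat_lit 456) (nat_lit 8719445070) (nat_lit 532) (nat_lit 5460949370) (nat_lit 255) (nat_lit 5) (nat_lit 261) (nat_lit 5) (nat_lit 262) (nat_lit 5) (nat_lit 445) (nat_lit 426) (nat_lit 329)) (XT.lf (nat_lit 0) (nat_lit 542071147) (nat_lit 532) (nat_lit 15870918365) (nat_lit 76) (nat_lit 8124926551) (nat_lit 248) (nat_lit 5) (nat_lit 255) (nat_lit 5) (nat_lit 249) (nat_lit 5) (nat_lit 446) (nat_lit 426) (nat_lit 328)))) (XT.nd (nat_lit 156) (nat_lit 912) (nat_lit 0) (XT.nd (nat_lit 78) (nat_lit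 456) (nat_lit 0) (XT.lf (nat_lit 0) (nat_lit 7033962607) (nat_lit 532) (nat_lit 17542149859) (nat_lit 76) (nat_lit 658691308) (nat_lit 242) (nat_lit 5) (nat_lit 249) (nat_lit 5) (nat_lit 243) (nat_lit 5) (nat_lit 447) (nat_lit 426) (nat_lit 327)) (XT.lf (nat_lit 0) (nat_lit 6750634276) (nat_lit 456) (nat_lit 7480602441) (nat_lit 532) (nat_lit 11723876036) (nat_lit 236) (nat_lit 5) (nat_lit 242) (nat_lit 5) (nat_lit 243) (nat_lit 5) (nat_lit 448) (nat_lit 426) (nat_lit 326))) (XT.nd (nat_lit 78) (nat_lit 532) (nat_lit 0) (XT.lf (nat_lit 0) (nat_lit 5913467769) (nat_lit 380) (nat_lit 16200501237) (nat_lit 456) (nat_lit 4587700841) (nat_lit 231) (nat_lit 5) (nat_lit 236) (nat_lit 5) (nat_lit 237) (nat_lit 5) (nat_lit 449) (nat_lit 426) (nat_lit 325)) (XT.lf (nat_lit 0) (nat_lit 3179205974) (nat_lit 532) (nat_lit 22307909349) (nat_lit 76) (nat_lit 1987683651) (nat_lit 224) (nat_lit 5) (nat_lit 231)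 (nat_lit 5) (nat_lit 225) (nat_lit 5) (nat_lit 450) (nat_lit 426) (nat_lit 324))))) (XT.nd (nat_lit 234) (nat_lit 1368) (nat_lit 0) (XT.nd (nat_lit 78) (nat_lit 836) (nat_lit 0) (XT.lf (nat_lit 0) (nat_lit 4430781966) (nat_lit 380) (nat_lit 7218469656) (nat_lit 456) (nat_lit 16623680466) (nat_lit 219) (nat_lit 5) (nat_lit 224) (nat_lit 5) (nat_lit 225) (nat_lit 5) (nat_lit 451) (nat_lit 426) (nat_lit 323)) (XT.nd (nat_lit 78) (nat_lit 456) (nat_lit 0) (XT.lf (nat_lit 0) (nat_lit 3807963728) (nat_lit 380) (nat_lit 17105359068) (nat_lit 456) (nat_lit 8186533784) (nat_lit 214) (nat_lit 5) (nat_lit 219) (nat_lit 5) (nat_lit 220) (nat_lit 5) (nat_lit 452) (nat_lit 426) (nat_lit 322)) (XT.lf (nat_lit 0) (nat_lit 1022088832) (nat_lit 456) (nat_lit 26636022361) (nat_lit 76) (nat_lit 2298940337) (nat_lit 208) (nat_lit 5) (nat_lit 214) (nat_lit 5) (nat_lit 209) (nat_lit 5) (nat_lit 453) (nat_lit 426) (nat_lit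 321)))) (XT.nd (nat_lit 156) (nat_lit 684) (nat_lit 0) (XT.nd (nat_lit 78) (nat_lit 304) (nat_lit 0) (XT.lf (nat_lit 0) (nat_lit 2823939368) (nat_lit 380) (nat_lit 8149927552) (nat_lit 456) (nat_lit 19867247000) (nat_lit 203) (nat_lit 5) (nat_lit 208) (nat_lit 5) (nat_lit 209) (nat_lit 5) (nat_lit 454) (nat_lit 426) (nat_lit 320)) (XT.lf (nat_lit 0) (nat_lit 2462175417) (nat_lit 304) (nat_lit 19368303403) (nat_lit 380) (nat_lit 9926683614) (nat_lit 199) (nat_lit 5) (nat_lit 203) (nat_lit 5) (nat_lit 204) (nat_lit 5) (nat_lit 455) (nat_lit 426) (nat_lit 319))) (XT.nd (nat_lit 78) (nat_lit 304) (nat_lit 0) (XT.lf (nat_lit 0) (nat_lit 898164750) (nat_lit 380) (nat_lit 30442408322) (nat_lit 76) (nat_lit 1366376497) (nat_lit 194) (nat_lit 5) (nat_lit 199) (nat_lit 5) (nat_lit 195) (nat_lit 5) (nat_lit 456) (nat_lit 426) (nat_lit 318)) (XT.lf (nat_lit 0) (nat_lit 2043748177) (nat_lit 304) (nat_lit 10525554304)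 (nat_lit 380) (nat_lit 21116664991) (nat_lit 190) (nat_lit 5) (nat_lit 194) (nat_lit 5) (nat_lit 195) (nat_lit 5) (nat_lit 457) (nat_lit 426) (nat_lit 317))))))))
noncomputable def xc89 : XT := (XT.nd (nat_lit 2028) (nat_lit 2280) (nat_lit 0) (XT.nd (nat_lit 1014) (nat_lit 2584) (nat_lit 0) (XT.nd (nat_lit 468) (nat_lit 1748) (nat_lit 0) (XT.nd (nat_lit 234) (nat_lit 836) (nat_lit 0) (XT.nd (nat_lit 78) (nat_lit 684) (nat_lit 0) (XT.lf (nat_lit 0) (nat_lit 1996462079) (nat_lit 304) (nat_lit 23261202461) (nat_lit 380) (nat_lit 9443262000) (nat_lit 186) (nat_lit 5) (nat_lit 190) (nat_lit 5) (nat_lit 191) (nat_lit 5) (nat_lit 458) (nat_lit 426) (nat_lit 316)) (XT.nd (nat_lit 78) (nat_lit 304) (nat_lit 0) (XT.lf (nat_lit 0) (nat_lit 2110050346) (nat_lit 304) (nat_lit 1093672623) (nat_lit 380) (nat_lit 32548754840) (nat_lit 181) (nat_lit 5) (nat_lit 185) (nat_lit 5) (nat_lit 186) (nat_lit 5) (nat_lit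 459) (nat_lit 426) (nat_lit 315)) (XT.lf (nat_lit 0) (nat_lit 2217754767) (nat_lit 304) (nat_lit 14636013316) (nat_lit 380) (nat_lit 19983053528) (nat_lit 177) (nat_lit 5) (nat_lit 181) (nat_lit 5) (nat_lit 182) (nat_lit 5) (nat_lit 460) (nat_lit 426) (nat_lit 314)))) (XT.nd (nat_lit 78) (nat_lit 608) (nat_lit 0) (XT.lf (nat_lit 0) (nat_lit 2545370993) (nat_lit 228) (nat_lit 29099304127) (nat_lit 304) (nat_lit 6316956940) (nat_lit 174) (nat_lit 5) (nat_lit 177) (nat_lit 5) (nat_lit 178) (nat_lit 5) (nat_lit 461) (nat_lit 426) (nat_lit 313)) (XT.nd (nat_lit 78) (nat_lit 228) (nat_lit 0) (XT.lf (nat_lit 0) (nat_lit 2973637725) (nat_lit 304) (nat_lit 5428456287) (nat_lit 380) (nat_lit 30722481121) (nat_lit 169) (nat_lit 5) (nat_lit 173) (nat_lit 5) (nat_lit 174) (nat_lit 5) (nat_lit 462) (nat_lit 426) (nat_lit 312)) (XT.lf (nat_lit 0) (nat_lit 3487154523) (nat_lit 228) (nat_lit 20819408866) (nat_lit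 304) (nat_lit 16019822557) (nat_lit 166) (nat_lit 5) (nat_lit 169) (nat_lit 5) (nat_lit 170) (nat_lit 5) (nat_lit 463) (nat_lit 426) (nat_lit 311))))) (XT.nd (nat_lit 234) (nat_lit 988) (nat_lit 0) (XT.nd (nat_lit 78) (nat_lit 532) (nat_lit 0) (XT.lf (nat_lit 0) (nat_lit 4257273094) (nat_lit 228) (nat_lit 37249060507) (nat_lit 304) (nat_lit 66951585) (nat_lit 163) (nat_lit 5) (nat_lit 166) (nat_lit 5) (nat_lit 167) (nat_lit 5) (nat_lit 464) (nat_lit 426) (nat_lit 310)) (XT.nd (nat_lit 78) (nat_lit 228) (nat_lit 0) (XT.lf (nat_lit 0) (nat_lit 5016173182) (nat_lit 228) (nat_lit 11974094677) (nat_lit 304) (nat_lit 25868482702) (nat_lit 159) (nat_lit 5) (nat_lit 162) (nat_lit 5) (nat_lit 163) (nat_lit 5) (nat_lit 465) (nat_lit 426) (nat_lit 309)) (XT.lf (nat_lit 0) (nat_lit 6005995130) (nat_lit 228) (nat_lit 29469824249) (nat_lit 304) (nat_lit 8715344450) (nat_lit 156) (nat_lit 5) (nat_lit 159) (nat_lit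 5) (nat_lit 160) (nat_lit 5) (nat_lit 466) (nat_lit 426) (nat_lit 308)))) (XT.nd (nat_lit 156) (nat_lit 456) (nat_lit 0) (XT.nd (nat_lit 78) (nat_lit 228) (nat_lit 0) (XT.lf (nat_lit 0) (nat_lit 7170871635) (nat_lit 228) (nat_lit 2517759621) (nat_lit 304) (nat_lit 35881649018) (nat_lit 152) (nat_lit 5) (nat_lit 155) (nat_lit 5) (nat_lit 156) (nat_lit 5) (nat_lit 467) (nat_lit 426) (nat_lit 307)) (XT.lf (nat_lit 0) (nat_lit 8396199913) (nat_lit 228) (nat_lit 21155142042) (nat_lit 304) (nat_lit 17442858543) (nat_lit 149) (nat_lit 5) (nat_lit 152) (nat_lit 5) (nat_lit 153) (nat_lit 5) (nat_lit 468) (nat_lit 426) (nat_lit 306))) (XT.nd (nat_lit 78) (nat_lit 228) (nat_lit 0) (XT.lf (nat_lit 0) (nat_lit 2465898007) (nat_lit 228) (nat_lit 38556498627) (nat_lit 76) (nat_lit 7448803642) (nat_lit 146) (nat_lit 5) (nat_lit 149) (nat_lit 5) (nat_lit 147) (nat_lit 5) (nat_lit 469) (nat_lit 426) (nat_lit 305))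 (XT.lf (nat_lit 0) (nat_lit 11466112755) (nat_lit 228) (nat_lit 12263587659) (nat_lit 304) (nat_lit 26265558129) (nat_lit 143) (nat_lit 5) (nat_lit 146) (nat_lit 5) (nat_lit 147) (nat_lit 5) (nat_lit 470) (nat_lit 426) (nat_lit 304)))))) (XT.nd (nat_lit 468) (nat_lit 1292) (nat_lit 0) (XT.nd (nat_lit 234) (nat_lit 684) (nat_lit 0) (XT.nd (nat_lit 78) (nat_lit 456) (nat_lit 0) (XT.lf (nat_lit 0) (nat_lit 13281410341) (nat_lit 152) (nat_lit 33468362882) (nat_lit 228) (nat_lit 4824954228) (nat_lit 141) (nat_lit 5) (nat_lit 143) (nat_lit 5) (nat_lit 144) (nat_lit 5) (nat_lit 471) (nat_lit 426) (nat_lit 303)) (XT.nd (nat_lit 78) (nat_lit 152) (nat_lit 0) (XT.lf (nat_lit 0) (nat_lit 15253109993) (nat_lit 228) (nat_lit 2752735156) (nat_lit 304) (nat_lit 35202324567) (nat_lit 137) (nat_lit 5) (nat_lit 140) (nat_lit 5) (nat_lit 141) (nat_lit 5) (nat_lit 472) (nat_lit 426) (nat_lit 302)) (XT.lf (nat_lit 0)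 (nat_lit 17355154278) (nat_lit 152) (nat_lit 25365209161) (nat_lit 228) (nat_lit 12176228627) (nat_lit 135) (nat_lit 5) (nat_lit 137) (nat_lit 5) (nat_lit 138) (nat_lit 5) (nat_lit 473) (nat_lit 426) (nat_lit 301)))) (XT.nd (nat_lit 78) (nat_lit 380) (nat_lit 0) (XT.lf (nat_lit 0) (nat_lit 12443657149) (nat_lit 304) (nat_lit 36926354116) (nat_lit 76) (nat_lit 7275663366) (nat_lit 131) (nat_lit 5) (nat_lit 135) (nat_lit 5) (nat_lit 132) (nat_lit 5) (nat_lit 474) (nat_lit 426) (nat_lit 300)) (XT.nd (nat_lit 78) (nat_lit 228) (nat_lit 0) (XT.lf (nat_lit 0) (nat_lit 22194831992) (nat_lit 152) (nat_lit 16702764107) (nat_lit 228) (nat_lit 19555352169) (nat_lit 129) (nat_lit 5) (nat_lit 131) (nat_lit 5) (nat_lit 132) (nat_lit 5) (nat_lit 475) (nat_lit 426) (nat_lit 299)) (XT.lf (nat_lit 0) (nat_lit 6994532575) (nat_lit 228) (nat_lit 35388289123) (nat_lit 76) (nat_lit 17942111883) (nat_lit 126) (nat_lit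 5) (nat_lit 129) (nat_lit 5) (nat_lit 127) (nat_lit 5) (nat_lit 476) (nat_lit 426) (nat_lit 298))))) (XT.nd (nat_lit 234) (nat_lit 760) (nat_lit 0) (XT.nd (nat_lit 78) (nat_lit 380) (nat_lit 0) (XT.lf (nat_lit 0) (nat_lit 27830821364) (nat_lit 152) (nat_lit 7446678379) (nat_lit 228) (nat_lit 26982909304) (nat_lit 124) (nat_lit 5) (nat_lit 126) (nat_lit 5) (nat_lit 127) (nat_lit 5) (nat_lit 477) (nat_lit 426) (nat_lit 297)) (XT.nd (nat_lit 78) (nat_lit 152) (nat_lit 0) (XT.lf (nat_lit 0) (nat_lit 1618028864) (nat_lit 228) (nat_lit 33303741056) (nat_lit 76) (nat_lit 29342210411) (nat_lit 121) (nat_lit 5) (nat_lit 124) (nat_lit 5) (nat_lit 122) (nat_lit 5) (nat_lit 478) (nat_lit 426) (nat_lit 296)) (XT.lf (nat_lit 0) (nat_lit 31875773795) (nat_lit 228) (nat_lit 32071978705) (nat_lit 76) (nat_lit 2388418799) (nat_lit 119) (nat_lit 5) (nat_lit 122) (nat_lit 5) (nat_lit 120) (nat_lit 5) (nat_lit 479)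 (nat_lit 426) (nat_lit 295)))) (XT.nd (nat_lit 156) (nat_lit 380) (nat_lit 0) (XT.nd (nat_lit 78) (nat_lit 228) (nat_lit 0) (XT.lf (nat_lit 0) (nat_lit 37774531241) (nat_lit 152) (nat_lit 26927350184) (nat_lit 228) (nat_lit 3778426204) (nat_lit 117) (nat_lit 5) (nat_lit 119) (nat_lit 5) (nat_lit 120) (nat_lit 5) (nat_lit 480) (nat_lit 426) (nat_lit 294)) (XT.lf (nat_lit 0) (nat_lit 28734415009) (nat_lit 228) (nat_lit 29240987030) (nat_lit 76) (nat_lit 12722497239) (nat_lit 114) (nat_lit 5) (nat_lit 117) (nat_lit 5) (nat_lit 115) (nat_lit 5) (nat_lit 481) (nat_lit 426) (nat_lit 293))) (XT.nd (nat_lit 78) (nat_lit 228) (nat_lit 0) (XT.lf (nat_lit 0) (nat_lit 45414552221) (nat_lit 152) (nat_lit 18402422399) (nat_lit 228) (nat_lit 9177607056) (nat_lit 112) (nat_lit 5) (nat_lit 114) (nat_lit 5) (nat_lit 115) (nat_lit 5) (nat_lit 482) (nat_lit 426) (nat_lit 292)) (XT.lf (nat_lit 0) (nat_lit 25763612855)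 (nat_lit 228) (nat_lit 25877462556) (nat_lit 76) (nat_lit 23727480402) (nat_lit 109) (nat_lit 5) (nat_lit 112) (nat_lit 5) (nat_lit 110) (nat_lit 5) (nat_lit 483) (nat_lit 426) (nat_lit 291))))))) (XT.nd (nat_lit 58032) (nat_lit 0) (nat_lit 16720) (XT.nd (nat_lit 468) (nat_lit 1368) (nat_lit 0) (XT.nd (nat_lit 234) (nat_lit 456) (nat_lit 0) (XT.nd (nat_lit 78) (nat_lit 304) (nat_lit 0) (XT.lf (nat_lit 0) (nat_lit 53899268180) (nat_lit 152) (nat_lit 9349358262) (nat_lit 228) (nat_lit 14580280061) (nat_lit 107) (nat_lit 5) (nat_lit 109) (nat_lit 5) (nat_lit 110) (nat_lit 5) (nat_lit 484) (nat_lit 426) (nat_lit 290)) (XT.nd (nat_lit 78) (nat_lit 152) (nat_lit 0) (XT.lf (nat_lit 0) (nat_lit 22937608144) (nat_lit 152) (nat_lit 22007701721) (nat_lit 76) (nat_lit 35425310926) (nat_lit 105) (nat_lit 5) (nat_lit 107) (nat_lit 5) (nat_lit 106) (nat_lit 5) (nat_lit 485) (nat_lit 426) (nat_lit 289)) (XT.lf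 (nat_lit 0) (nat_lit 62980223442) (nat_lit 228) (nat_lit 19791528580) (nat_lit 76) (nat_lit 234826791) (nat_lit 103) (nat_lit 5) (nat_lit 106) (nat_lit 5) (nat_lit 104) (nat_lit 4) (nat_lit 486) (nat_lit 426) (nat_lit 288)))) (XT.nd (nat_lit 78) (nat_lit 304) (nat_lit 0) (XT.lf (nat_lit 0) (nat_lit 20221321218) (nat_lit 152) (nat_lit 17675398904) (nat_lit 76) (nat_lit 47831673125) (nat_lit 101) (nat_lit 5) (nat_lit 103) (nat_lit 5) (nat_lit 102) (nat_lit 5) (nat_lit 487) (nat_lit 426) (nat_lit 287)) (XT.nd (nat_lit 78) (nat_lit 152) (nat_lit 0) (XT.lf (nat_lit 0) (nat_lit 63076102867) (nat_lit 228) (nat_lit 15312548420) (nat_lit 76) (nat_lit 10161431832) (nat_lit 99) (nat_lit 5) (nat_lit 102) (nat_lit 5) (nat_lit 100) (nat_lit 4) (nat_lit 488) (nat_lit 426) (nat_lit 286)) (XT.lf (nat_lit 0) (nat_lit 17568213168) (nat_lit 152) (nat_lit 12945880157) (nat_lit 76) (nat_lit 60954070219) (nat_lit 97)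 (nat_lit 5) (nat_lit 99) (nat_lit 5) (nat_lit 98) (nat_lit 5) (nat_lit 489) (nat_lit 426) (nat_lit 285))))) (XT.nd (nat_lit 234) (nat_lit 912) (nat_lit 0) (XT.nd (nat_lit 78) (nat_lit 304) (nat_lit 0) (XT.lf (nat_lit 0) (nat_lit 63406189769) (nat_lit 228) (nat_lit 10481016799) (nat_lit 76) (nat_lit 20602259497) (nat_lit 95) (nat_lit 5) (nat_lit 98) (nat_lit 5) (nat_lit 96) (nat_lit 4) (nat_lit 490) (nat_lit 426) (nat_lit 284)) (XT.nd (nat_lit 78) (nat_lit 152) (nat_lit 0) (XT.lf (nat_lit 0) (nat_lit 14917735167) (nat_lit 152) (nat_lit 7911164499) (nat_lit 76) (nat_lit 74789505859) (nat_lit 93) (nat_lit 5) (nat_lit 95) (nat_lit 5) (nat_lit 94) (nat_lit 5) (nat_lit 491) (nat_lit 426) (nat_lit 283)) (XT.lf (nat_lit 0) (nat_lit 63915737127) (nat_lit 228) (nat_lit 5404717338) (nat_lit 76) (nat_lit 31533911181) (nat_lit 91) (nat_lit 5) (nat_lit 94) (nat_lit 5) (nat_lit 92) (nat_lit 4) (nat_lit 492) (nat_lit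 426) (nat_lit 282)))) (XT.nd (nat_lit 234) (nat_lit 608) (nat_lit 0) (XT.nd (nat_lit 78) (nat_lit 152) (nat_lit 0) (XT.lf (nat_lit 0) (nat_lit 12192292075) (nat_lit 152) (nat_lit 2696002283) (nat_lit 76) (nat_lit 89321697057) (nat_lit 89) (nat_lit 5) (nat_lit 91) (nat_lit 5) (nat_lit 90) (nat_lit 5) (nat_lit 493) (nat_lit 426) (nat_lit 281)) (XT.lf (nat_lit 0) (nat_lit 64532207698) (nat_lit 228) (nat_lit 227618431) (nat_lit 76) (nat_lit 42917108610) (nat_lit 87) (nat_lit 5) (nat_lit 90) (nat_lit 5) (nat_lit 88) (nat_lit 4) (nat_lit 494) (nat_lit 426) (nat_lit 280))) (XT.nd (nat_lit 78) (nat_lit 228) (nat_lit 0) (XT.lf (nat_lit 0) (nat_lit 4959052258) (nat_lit 76) (nat_lit 60250027997) (nat_lit 152) (nat_lit 49781585800) (nat_lit 82) (nat_lit 5) (nat_lit 83) (nat_lit 5) (nat_lit 84) (nat_lit 4) (nat_lit 496) (nat_lit 426) (nat_lit 278)) (XT.lf (nat_lit 0) (nat_lit 6187636394) (nat_lit 228) (nat_lit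 111147661083) (nat_lit 76) (nat_lit 1516180432) (nat_lit 79) (nat_lit 5) (nat_lit 82) (nat_lit 5) (nat_lit 80) (nat_lit 4) (nat_lit 497) (nat_lit 426) (nat_lit 277)))))) (XT.nd (nat_lit 546) (nat_lit 2128) (nat_lit 0) (XT.nd (nat_lit 234) (nat_lit 0) (nat_lit 152) (XT.nd (nat_lit 78) (nat_lit 0) (nat_lit 76) (XT.lf (nat_lit 0) (nat_lit 1236610616) (nat_lit 1292) (nat_lit 3218973732) (nat_lit 1292) (nat_lit 3218973732) (nat_lit 327) (nat_lit 3) (nat_lit 344) (nat_lit 3) (nat_lit 344) (nat_lit 5) (nat_lit 427) (nat_lit 427) (nat_lit 346)) (XT.nd (nat_lit 78) (nat_lit 0) (nat_lit 0) (XT.lf (nat_lit 0) (nat_lit 3095911082) (nat_lit 1216) (nat_lit 9325010441) (nat_lit 1292) (nat_lit 3295075219) (nat_lit 328) (nat_lit 5) (nat_lit 344) (nat_lit 5) (nat_lit 345) (nat_lit 5) (nat_lit 428) (nat_lit 427) (nat_lit 345)) (XT.lf (nat_lit 76) (nat_lit 3864748294) (nat_lit 0) (nat_lit 49115049) (nat_lit 1292) (nat_lit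 12182435551) (nat_lit 329) (nat_lit 5) (nat_lit 328) (nat_lit 5) (nat_lit 345) (nat_lit 5) (nat_lit 429) (nat_lit 427) (nat_lit 344)))) (XT.nd (nat_lit 156) (nat_lit 0) (nat_lit 152) (XT.nd (nat_lit 78) (nat_lit 0) (nat_lit 76) (XT.lf (nat_lit 76) (nat_lit 1298884690) (nat_lit 0) (nat_lit 3679148931) (nat_lit 1292) (nat_lit 11511424232) (nat_lit 330) (nat_lit 5) (nat_lit 329) (nat_lit 5) (nat_lit 346) (nat_lit 5) (nat_lit 430) (nat_lit 427) (nat_lit 343)) (XT.lf (nat_lit 0) (nat_lit 6286302434) (nat_lit 1216) (nat_lit 1246902283) (nat_lit 1292) (nat_lit 9363344594) (nat_lit 330) (nat_lit 5) (nat_lit 346) (nat_lit 5) (nat_lit 347) (nat_lit 5) (nat_lit 431) (nat_lit 427) (nat_lit 342))) (XT.nd (nat_lit 78) (nat_lit 0) (nat_lit 76) (XT.lf (nat_lit 0) (nat_lit 7857776212) (nat_lit 1216) (nat_lit 3770035724) (nat_lit 1292) (nat_lit 5690250853) (nat_lit 331) (nat_lit 5) (nat_lit 347) (nat_lit 5) (nat_lit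 348) (nat_lit 5) (nat_lit 432) (nat_lit 427) (nat_lit 341)) (XT.lf (nat_lit 0) (nat_lit 9699681762) (nat_lit 1216) (nat_lit 6293524033) (nat_lit 1292) (nat_lit 1761691536) (nat_lit 332) (nat_lit 5) (nat_lit 348) (nat_lit 5) (nat_lit 349) (nat_lit 5) (nat_lit 433) (nat_lit 427) (nat_lit 340))))) (XT.nd (nat_lit 234) (nat_lit 2508) (nat_lit 0) (XT.nd (nat_lit 78) (nat_lit 0) (nat_lit 76) (XT.lf (nat_lit 76) (nat_lit 9368332552) (nat_lit 0) (nat_lit 2488290907) (nat_lit 1292) (nat_lit 6350262997) (nat_lit 333) (nat_lit 5) (nat_lit 332) (nat_lit 5) (nat_lit 349) (nat_lit 5) (nat_lit 434) (nat_lit 427) (nat_lit 339)) (XT.nd (nat_lit 78) (nat_lit 0) (nat_lit 76) (XT.lf (nat_lit 76) (nat_lit 7276533253) (nat_lit 0) (nat_lit 7069992927) (nat_lit 1292) (nat_lit 4328196467) (nat_lit 334) (nat_lit 5) (nat_lit 333) (nat_lit 5) (nat_lit 350) (nat_lit 5) (nat_lit 435) (nat_lit 427) (nat_lit 338)) (XT.lf (nat_lit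 76) (nat_lit 5207746350) (nat_lit 0) (nat_lit 11967375701) (nat_lit 1292) (nat_lit 1984403637) (nat_lit 335) (nat_lit 5) (nat_lit 334) (nat_lit 5) (nat_lit 351) (nat_lit 5) (nat_lit 436) (nat_lit 427) (nat_lit 337)))) (XT.nd (nat_lit 156) (nat_lit 608) (nat_lit 0) (XT.nd (nat_lit 78) (nat_lit 836) (nat_lit 0) (XT.lf (nat_lit 0) (nat_lit 690911818) (nat_lit 1292) (nat_lit 16502286025) (nat_lit 76) (nat_lit 2468525527) (nat_lit 318) (nat_lit 5) (nat_lit 335) (nat_lit 5) (nat_lit 319) (nat_lit 5) (nat_lit 437) (nat_lit 427) (nat_lit 336)) (XT.lf (nat_lit 0) (nat_lit 1094240280) (nat_lit 836) (nat_lit 2621274966) (nat_lit 912) (nat_lit 16465230244) (nat_lit 307) (nat_lit 5) (nat_lit 318) (nat_lit 5) (nat_lit 319) (nat_lit 5) (nat_lit 438) (nat_lit 427) (nat_lit 335))) (XT.nd (nat_lit 78) (nat_lit 608) (nat_lit 0) (XT.lf (nat_lit 0) (nat_lit 7165429936) (nat_lit 912) (nat_lit 946745781) (nat_lit 76)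 (nat_lit 12605321388) (nat_lit 307) (nat_lit 5) (nat_lit 319) (nat_lit 5) (nat_lit 308) (nat_lit 5) (nat_lit 439) (nat_lit 427) (nat_lit 334)) (XT.lf (nat_lit 0) (nat_lit 11044430306) (nat_lit 684) (nat_lit 2931324612) (nat_lit 76) (nat_lit 7297634468) (nat_lit 299) (nat_lit 5) (nat_lit 308) (nat_lit 5) (nat_lit 300) (nat_lit 5) (nat_lit 440) (nat_lit 427) (nat_lit 333))))))))
noncomputable def xc90 : XT := (XT.nd (nat_lit 2028) (nat_lit 5168) (nat_lit 0) (XT.nd (nat_lit 1014) (nat_lit 4180) (nat_lit 0) (XT.nd (nat_lit 468) (nat_lit 3116) (nat_lit 0) (XT.nd (nat_lit 234) (nat_lit 1520) (nat_lit 0) (XT.nd (nat_lit 78) (nat_lit 1216) (nat_lit 0) (XT.lf (nat_lit 0) (nat_lit 15370444092) (nat_lit 684) (nat_lit 4874988431) (nat_lit 76) (nat_lit 1604052601) (nat_lit 291) (nat_lit 5) (nat_lit 300) (nat_lit 5) (nat_lit 292) (nat_lit 5) (nat_lit 441) (nat_lit 427) (nat_lit 332)) (XT.nd (nat_lit 78) (nat_lit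 684) (nat_lit 0) (XT.lf (nat_lit 0) (nat_lit 15629800700) (nat_lit 532) (nat_lit 4587713572) (nat_lit 608) (nat_lit 2227729416) (nat_lit 284) (nat_lit 5) (nat_lit 291) (nat_lit 5) (nat_lit 292) (nat_lit 5) (nat_lit 442) (nat_lit 427) (nat_lit 331)) (XT.lf (nat_lit 0) (nat_lit 2481437007) (nat_lit 684) (nat_lit 8745928778) (nat_lit 76) (nat_lit 11834112460) (nat_lit 275) (nat_lit 5) (nat_lit 284) (nat_lit 5) (nat_lit 276) (nat_lit 5) (nat_lit 443) (nat_lit 427) (nat_lit 330)))) (XT.nd (nat_lit 78) (nat_lit 988) (nat_lit 0) (XT.lf (nat_lit 0) (nat_lit 7660543902) (nat_lit 608) (nat_lit 10645544934) (nat_lit 76) (nat_lit 5393357968) (nat_lit 268) (nat_lit 5) (nat_lit 276) (nat_lit 5) (nat_lit 269) (nat_lit 5) (nat_lit 444) (nat_lit 427) (nat_lit 329)) (XT.nd (nat_lit 78) (nat_lit 456) (nat_lit 0) (XT.lf (nat_lit 0) (nat_lit 11860099797) (nat_lit 532) (nat_lit 1541429798) (nat_lit 608) (nat_lit 10958697085)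 (nat_lit 261) (nat_lit 5) (nat_lit 268) (nat_lit 5) (nat_lit 269) (nat_lit 5) (nat_lit 445) (nat_lit 427) (nat_lit 328)) (XT.lf (nat_lit 0) (nat_lit 10699093528) (nat_lit 456) (nat_lit 9083609035) (nat_lit 532) (nat_lit 5260749416) (nat_lit 255) (nat_lit 5) (nat_lit 261) (nat_lit 5) (nat_lit 262) (nat_lit 5) (nat_lit 446) (nat_lit 427) (nat_lit 327))))) (XT.nd (nat_lit 234) (nat_lit 1672) (nat_lit 0) (XT.nd (nat_lit 78) (nat_lit 912) (nat_lit 0) (XT.lf (nat_lit 0) (nat_lit 1016888530) (nat_lit 532) (nat_lit 16126776453) (nat_lit 76) (nat_lit 8607699340) (nat_lit 248) (nat_lit 5) (nat_lit 255) (nat_lit 5) (nat_lit 249) (nat_lit 5) (nat_lit 447) (nat_lit 427) (nat_lit 326)) (XT.nd (nat_lit 78) (nat_lit 456) (nat_lit 0) (XT.lf (nat_lit 0) (nat_lit 7817948693) (nat_lit 532) (nat_lit 17884897845) (nat_lit 76) (nat_lit 780713426) (nat_lit 242) (nat_lit 5) (nat_lit 249) (nat_lit 5) (nat_lit 243) (nat_lit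 5) (nat_lit 448) (nat_lit 427) (nat_lit 325)) (XT.lf (nat_lit 0) (nat_lit 7607208189) (nat_lit 456) (nat_lit 7752282530) (nat_lit 532) (nat_lit 11880862278) (nat_lit 236) (nat_lit 5) (nat_lit 242) (nat_lit 5) (nat_lit 243) (nat_lit 5) (nat_lit 449) (nat_lit 427) (nat_lit 324)))) (XT.nd (nat_lit 156) (nat_lit 760) (nat_lit 0) (XT.nd (nat_lit 78) (nat_lit 532) (nat_lit 0) (XT.lf (nat_lit 0) (nat_lit 6724506110) (nat_lit 380) (nat_lit 16897902033) (nat_lit 456) (nat_lit 4402249044) (nat_lit 231) (nat_lit 5) (nat_lit 236) (nat_lit 5) (nat_lit 237) (nat_lit 5) (nat_lit 450) (nat_lit 427) (nat_lit 323)) (XT.lf (nat_lit 0) (nat_lit 3731544253) (nat_lit 532) (nat_lit 22904172982) (nat_lit 76) (nat_lit 2201007466) (nat_lit 224) (nat_lit 5) (nat_lit 231) (nat_lit 5) (nat_lit 225) (nat_lit 5) (nat_lit 451) (nat_lit 427) (nat_lit 322))) (XT.nd (nat_lit 78) (nat_lit 380) (nat_lit 0) (XT.lf (nat_lit 0) (nat_lit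 5156572089) (nat_lit 380) (nat_lit 7454634979) (nat_lit 456) (nat_lit 17063974570) (nat_lit 219) (nat_lit 5) (nat_lit 224) (nat_lit 5) (nat_lit 225) (nat_lit 5) (nat_lit 452) (nat_lit 427) (nat_lit 321)) (XT.lf (nat_lit 0) (nat_lit 4498064170) (nat_lit 380) (nat_lit 17828292130) (nat_lit 456) (nat_lit 8217460404) (nat_lit 214) (nat_lit 5) (nat_lit 219) (nat_lit 5) (nat_lit 220) (nat_lit 5) (nat_lit 453) (nat_lit 427) (nat_lit 320)))))) (XT.nd (nat_lit 468) (nat_lit 2052) (nat_lit 0) (XT.nd (nat_lit 234) (nat_lit 988) (nat_lit 0) (XT.nd (nat_lit 78) (nat_lit 684) (nat_lit 0) (XT.lf (nat_lit 0) (nat_lit 1432569452) (nat_lit 456) (nat_lit 27465801158) (nat_lit 76) (nat_lit 2545741407) (nat_lit 208) (nat_lit 5) (nat_lit 214) (nat_lit 5) (nat_lit 209) (nat_lit 5) (nat_lit 454) (nat_lit 427) (nat_lit 319)) (XT.nd (nat_lit 78) (nat_lit 304) (nat_lit 0) (XT.lf (nat_lit 0) (nat_lit 3452768288) (nat_lit 380)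 (nat_lit 8416742421) (nat_lit 456) (nat_lit 20503240104) (nat_lit 203) (nat_lit 5) (nat_lit 208) (nat_lit 5) (nat_lit 209) (nat_lit 5) (nat_lit 455) (nat_lit 427) (nat_lit 318)) (XT.lf (nat_lit 0) (nat_lit 3067744865) (nat_lit 304) (nat_lit 20190612517) (nat_lit 380) (nat_lit 10076562734) (nat_lit 199) (nat_lit 5) (nat_lit 203) (nat_lit 5) (nat_lit 204) (nat_lit 5) (nat_lit 456) (nat_lit 427) (nat_lit 317)))) (XT.nd (nat_lit 78) (nat_lit 608) (nat_lit 0) (XT.lf (nat_lit 0) (nat_lit 1272573727) (nat_lit 380) (nat_lit 31480884218) (nat_lit 76) (nat_lit 1578945018) (nat_lit 194) (nat_lit 5) (nat_lit 199) (nat_lit 5) (nat_lit 195) (nat_lit 5) (nat_lit 457) (nat_lit 427) (nat_lit 316)) (XT.nd (nat_lit 78) (nat_lit 304) (nat_lit 0) (XT.lf (nat_lit 0) (nat_lit 2615716533) (nat_lit 304) (nat_lit 10900377123) (nat_lit 380) (nat_lit 21844613778) (nat_lit 190) (nat_lit 5) (nat_lit 194) (nat_lit 5) (nat_lit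 195) (nat_lit 5) (nat_lit 458) (nat_lit 427) (nat_lit 315)) (XT.lf (nat_lit 0) (nat_lit 2560470231) (nat_lit 304) (nat_lit 24269093784) (nat_lit 380) (nat_lit 9597130146) (nat_lit 186) (nat_lit 5) (nat_lit 190) (nat_lit 5) (nat_lit 191) (nat_lit 5) (nat_lit 459) (nat_lit 427) (nat_lit 314))))) (XT.nd (nat_lit 234) (nat_lit 1140) (nat_lit 0) (XT.nd (nat_lit 78) (nat_lit 532) (nat_lit 0) (XT.lf (nat_lit 0) (nat_lit 2672472932) (nat_lit 304) (nat_lit 993051117) (nat_lit 380) (nat_lit 33865521603) (nat_lit 181) (nat_lit 5) (nat_lit 185) (nat_lit 5) (nat_lit 186) (nat_lit 5) (nat_lit 460) (nat_lit 427) (nat_lit 313)) (XT.nd (nat_lit 78) (nat_lit 228) (nat_lit 0) (XT.lf (nat_lit 0) (nat_lit 2779811415) (nat_lit 304) (nat_lit 15209656097) (nat_lit 380) (nat_lit 20680397611) (nat_lit 177) (nat_lit 5) (nat_lit 181) (nat_lit 5) (nat_lit 182) (nat_lit 5) (nat_lit 461) (nat_lit 427) (nat_lit 312)) (XT.lf (nat_lit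 0) (nat_lit 3117944443) (nat_lit 228) (nat_lit 30393751010) (nat_lit 304) (nat_lit 6339467720) (nat_lit 174) (nat_lit 5) (nat_lit 177) (nat_lit 5) (nat_lit 178) (nat_lit 5) (nat_lit 462) (nat_lit 427) (nat_lit 311)))) (XT.nd (nat_lit 156) (nat_lit 532) (nat_lit 0) (XT.nd (nat_lit 78) (nat_lit 228) (nat_lit 0) (XT.lf (nat_lit 0) (nat_lit 3560426420) (nat_lit 304) (nat_lit 5539900790) (nat_lit 380) (nat_lit 31972126450) (nat_lit 169) (nat_lit 5) (nat_lit 173) (nat_lit 5) (nat_lit 174) (nat_lit 5) (nat_lit 463) (nat_lit 427) (nat_lit 310)) (XT.lf (nat_lit 0) (nat_lit 4093677957) (nat_lit 228) (nat_lit 21698716707) (nat_lit 304) (nat_lit 16542189416) (nat_lit 166) (nat_lit 5) (nat_lit 169) (nat_lit 5) (nat_lit 170) (nat_lit 5) (nat_lit 464) (nat_lit 427) (nat_lit 309))) (XT.nd (nat_lit 78) (nat_lit 228) (nat_lit 0) (XT.lf (nat_lit 0) (nat_lit 196882702) (nat_lit 304) (nat_lit 38749684503) (nat_lit 76)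 (nat_lit 4697422599) (nat_lit 162) (nat_lit 5) (nat_lit 166) (nat_lit 5) (nat_lit 163) (nat_lit 5) (nat_lit 465) (nat_lit 427) (nat_lit 308)) (XT.lf (nat_lit 0) (nat_lit 5686066779) (nat_lit 228) (nat_lit 12410895429) (nat_lit 304) (nat_lit 26897005108) (nat_lit 159) (nat_lit 5) (nat_lit 162) (nat_lit 5) (nat_lit 163) (nat_lit 5) (nat_lit 466) (nat_lit 427) (nat_lit 307))))))) (XT.nd (nat_lit 1014) (nat_lit 2280) (nat_lit 0) (XT.nd (nat_lit 468) (nat_lit 1520) (nat_lit 0) (XT.nd (nat_lit 234) (nat_lit 608) (nat_lit 0) (XT.nd (nat_lit 78) (nat_lit 532) (nat_lit 0) (XT.lf (nat_lit 0) (nat_lit 6719354591) (nat_lit 228) (nat_lit 30780642793) (nat_lit 304) (nat_lit 8893207935) (nat_lit 156) (nat_lit 5) (nat_lit 159) (nat_lit 5) (nat_lit 160) (nat_lit 5) (nat_lit 467) (nat_lit 427) (nat_lit 306)) (XT.nd (nat_lit 78) (nat_lit 228) (nat_lit 0) (XT.lf (nat_lit 0) (nat_lit 7935527819) (nat_lit 228) (nat_lit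 2482268428) (nat_lit 304) (nat_lit 37423651330) (nat_lit 152) (nat_lit 5) (nat_lit 155) (nat_lit 5) (nat_lit 156) (nat_lit 5) (nat_lit 468) (nat_lit 427) (nat_lit 305)) (XT.lf (nat_lit 0) (nat_lit 9216110685) (nat_lit 228) (nat_lit 22051201242) (nat_lit 304) (nat_lit 18069442028) (nat_lit 149) (nat_lit 5) (nat_lit 152) (nat_lit 5) (nat_lit 153) (nat_lit 5) (nat_lit 469) (nat_lit 427) (nat_lit 304)))) (XT.nd (nat_lit 78) (nat_lit 380) (nat_lit 0) (XT.lf (nat_lit 0) (nat_lit 2823816035) (nat_lit 228) (nat_lit 40085576342) (nat_lit 76) (nat_lit 7978325074) (nat_lit 146) (nat_lit 5) (nat_lit 149) (nat_lit 5) (nat_lit 147) (nat_lit 5) (nat_lit 470) (nat_lit 427) (nat_lit 303)) (XT.nd (nat_lit 78) (nat_lit 152) (nat_lit 0) (XT.lf (nat_lit 0) (nat_lit 12426735601) (nat_lit 228) (nat_lit 12716623562) (nat_lit 304) (nat_lit 27344843148) (nat_lit 143) (nat_lit 5) (nat_lit 146) (nat_lit 5) (nat_lit 147) (nat_lit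 5) (nat_lit 471) (nat_lit 427) (nat_lit 302)) (XT.lf (nat_lit 0) (nat_lit 14326824115) (nat_lit 152) (nat_lit 34981925497) (nat_lit 228) (nat_lit 4838065819) (nat_lit 141) (nat_lit 5) (nat_lit 143) (nat_lit 5) (nat_lit 144) (nat_lit 5) (nat_lit 472) (nat_lit 427) (nat_lit 301))))) (XT.nd (nat_lit 234) (nat_lit 760) (nat_lit 0) (XT.nd (nat_lit 78) (nat_lit 456) (nat_lit 0) (XT.lf (nat_lit 0) (nat_lit 16390505316) (nat_lit 228) (nat_lit 2732267045) (nat_lit 304) (nat_lit 36739303316) (nat_lit 137) (nat_lit 5) (nat_lit 140) (nat_lit 5) (nat_lit 141) (nat_lit 5) (nat_lit 473) (nat_lit 427) (nat_lit 300)) (XT.nd (nat_lit 78) (nat_lit 304) (nat_lit 0) (XT.lf (nat_lit 0) (nat_lit 18591749869) (nat_lit 152) (nat_lit 26475943671) (nat_lit 228) (nat_lit 12567385461) (nat_lit 135) (nat_lit 5) (nat_lit 137) (nat_lit 5) (nat_lit 138) (nat_lit 5) (nat_lit 474) (nat_lit 427) (nat_lit 299)) (XT.lf (nat_lit 0) (nat_lit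 13274065023) (nat_lit 304) (nat_lit 38405569434) (nat_lit 76) (nat_lit 7792074094) (nat_lit 131) (nat_lit 5) (nat_lit 135) (nat_lit 5) (nat_lit 132) (nat_lit 5) (nat_lit 475) (nat_lit 427) (nat_lit 298)))) (XT.nd (nat_lit 156) (nat_lit 380) (nat_lit 0) (XT.nd (nat_lit 78) (nat_lit 228) (nat_lit 0) (XT.lf (nat_lit 0) (nat_lit 23661153063) (nat_lit 152) (nat_lit 17383060040) (nat_lit 228) (nat_lit 20325327546) (nat_lit 129) (nat_lit 5) (nat_lit 131) (nat_lit 5) (nat_lit 132) (nat_lit 5) (nat_lit 476) (nat_lit 427) (nat_lit 297)) (XT.lf (nat_lit 0) (nat_lit 7543131905) (nat_lit 228) (nat_lit 36802949042) (nat_lit 76) (nat_lit 18989130438) (nat_lit 126) (nat_lit 5) (nat_lit 129) (nat_lit 5) (nat_lit 127) (nat_lit 5) (nat_lit 477) (nat_lit 427) (nat_lit 296))) (XT.nd (nat_lit 78) (nat_lit 228) (nat_lit 0) (XT.lf (nat_lit 0) (nat_lit 29566948003) (nat_lit 152) (nat_lit 7667141667) (nat_lit 228) (nat_lit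 28133555814) (nat_lit 124) (nat_lit 5) (nat_lit 126) (nat_lit 5) (nat_lit 127) (nat_lit 5) (nat_lit 478) (nat_lit 427) (nat_lit 295)) (XT.lf (nat_lit 0) (nat_lit 1888982121) (nat_lit 228) (nat_lit 34626235045) (nat_lit 76) (nat_lit 30956258253) (nat_lit 121) (nat_lit 5) (nat_lit 124) (nat_lit 5) (nat_lit 122) (nat_lit 5) (nat_lit 479) (nat_lit 427) (nat_lit 294)))))) (XT.nd (nat_lit 546) (nat_lit 1064) (nat_lit 0) (XT.nd (nat_lit 234) (nat_lit 684) (nat_lit 0) (XT.nd (nat_lit 78) (nat_lit 380) (nat_lit 0) (XT.lf (nat_lit 0) (nat_lit 33655193052) (nat_lit 228) (nat_lit 33338608590) (nat_lit 76) (nat_lit 2653607043) (nat_lit 119) (nat_lit 5) (nat_lit 122) (nat_lit 5) (nat_lit 120) (nat_lit 5) (nat_lit 480) (nat_lit 427) (nat_lit 293)) (XT.nd (nat_lit 78) (nat_lit 228) (nat_lit 0) (XT.lf (nat_lit 0) (nat_lit 39990567702) (nat_lit 152) (nat_lit 28126345113) (nat_lit 228) (nat_lit 3782009922) (nat_lit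 117) (nat_lit 5) (nat_lit 119) (nat_lit 5) (nat_lit 120) (nat_lit 5) (nat_lit 481) (nat_lit 427) (nat_lit 292)) (XT.lf (nat_lit 0) (nat_lit 30348689840) (nat_lit 228) (nat_lit 30377703642) (nat_lit 76) (nat_lit 13501072147) (nat_lit 114) (nat_lit 5) (nat_lit 117) (nat_lit 5) (nat_lit 115) (nat_lit 5) (nat_lit 482) (nat_lit 427) (nat_lit 291)))) (XT.nd (nat_lit 156) (nat_lit 304) (nat_lit 0) (XT.nd (nat_lit 78) (nat_lit 228) (nat_lit 0) (XT.lf (nat_lit 0) (nat_lit 48001286975) (nat_lit 152) (nat_lit 19178673154) (nat_lit 228) (nat_lit 9459184631) (nat_lit 112) (nat_lit 5) (nat_lit 114) (nat_lit 5) (nat_lit 115) (nat_lit 5) (nat_lit 483) (nat_lit 427) (nat_lit 290)) (XT.lf (nat_lit 0) (nat_lit 27221703843) (nat_lit 228) (nat_lit 26857328931) (nat_lit 76) (nat_lit 25052851765) (nat_lit 109) (nat_lit 5) (nat_lit 112) (nat_lit 5) (nat_lit 110) (nat_lit 5) (nat_lit 484) (nat_lit 427) (nat_lit 289))) (XT.nd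 (nat_lit 78) (nat_lit 152) (nat_lit 0) (XT.lf (nat_lit 0) (nat_lit 56899237401) (nat_lit 152) (nat_lit 9676571642) (nat_lit 228) (nat_lit 15139598576) (nat_lit 107) (nat_lit 5) (nat_lit 109) (nat_lit 5) (nat_lit 110) (nat_lit 5) (nat_lit 485) (nat_lit 427) (nat_lit 288)) (XT.lf (nat_lit 0) (nat_lit 24247156305) (nat_lit 152) (nat_lit 22805092056) (nat_lit 76) (nat_lit 37332021892) (nat_lit 105) (nat_lit 5) (nat_lit 107) (nat_lit 5) (nat_lit 106) (nat_lit 5) (nat_lit 486) (nat_lit 427) (nat_lit 287))))) (XT.nd (nat_lit 234) (nat_lit 608) (nat_lit 0) (XT.nd (nat_lit 78) (nat_lit 304) (nat_lit 0) (XT.lf (nat_lit 0) (nat_lit 66288298053) (nat_lit 228) (nat_lit 20483374235) (nat_lit 76) (nat_lit 380462091) (nat_lit 103) (nat_lit 5) (nat_lit 106) (nat_lit 5) (nat_lit 104) (nat_lit 4) (nat_lit 487) (nat_lit 427) (nat_lit 286)) (XT.nd (nat_lit 78) (nat_lit 152) (nat_lit 0) (XT.lf (nat_lit 0) (nat_lit 21388184990)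 (nat_lit 152) (nat_lit 18266870429) (nat_lit 76) (nat_lit 50355082200) (nat_lit 101) (nat_lit 5) (nat_lit 103) (nat_lit 5) (nat_lit 102) (nat_lit 5) (nat_lit 488) (nat_lit 427) (nat_lit 285)) (XT.lf (nat_lit 0) (nat_lit 66382292661) (nat_lit 228) (nat_lit 15790998229) (nat_lit 76) (nat_lit 10799723551) (nat_lit 99) (nat_lit 5) (nat_lit 102) (nat_lit 5) (nat_lit 100) (nat_lit 4) (nat_lit 489) (nat_lit 427) (nat_lit 284)))) (XT.nd (nat_lit 156) (nat_lit 304) (nat_lit 0) (XT.nd (nat_lit 78) (nat_lit 152) (nat_lit 0) (XT.lf (nat_lit 0) (nat_lit 18595898132) (nat_lit 152) (nat_lit 13311256392) (nat_lit 76) (nat_lit 64129937769) (nat_lit 97) (nat_lit 5) (nat_lit 99) (nat_lit 5) (nat_lit 98) (nat_lit 5) (nat_lit 490) (nat_lit 427) (nat_lit 283)) (XT.lf (nat_lit 0) (nat_lit 66722537944) (nat_lit 228) (nat_lit 10728126290) (nat_lit 76) (nat_lit 21758892833) (nat_lit 95) (nat_lit 5) (nat_lit 98) (nat_lit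 5) (nat_lit 96) (nat_lit 4) (nat_lit 491) (nat_lit 427) (nat_lit 282))) (XT.nd (nat_lit 78) (nat_lit 152) (nat_lit 0) (XT.lf (nat_lit 0) (nat_lit 15806695951) (nat_lit 152) (nat_lit 8034871335) (nat_lit 76) (nat_lit 78653465241) (nat_lit 93) (nat_lit 5) (nat_lit 95) (nat_lit 5) (nat_lit 94) (nat_lit 5) (nat_lit 492) (nat_lit 427) (nat_lit 281)) (XT.lf (nat_lit 0) (nat_lit 67251527326) (nat_lit 228) (nat_lit 5407933471) (nat_lit 76) (nat_lit 33233422028) (nat_lit 91) (nat_lit 5) (nat_lit 94) (nat_lit 5) (nat_lit 92) (nat_lit 4) (nat_lit 493) (nat_lit 427) (nat_lit 280))))))))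
noncomputable def xc91 : XT := (XT.nd (nat_lit 59124) (nat_lit 0) (nat_lit 3572) (XT.nd (nat_lit 58110) (nat_lit 0) (nat_lit 11704) (XT.nd (nat_lit 57564) (nat_lit 0) (nat_lit 18772) (XT.nd (nat_lit 57330) (nat_lit 0) (nat_lit 18620) (XT.nd (nat_lit 156) (nat_lit 532) (nat_lit 0) (XT.lf (nat_lit 0) (nat_lit 12939082164) (nat_lit 152) (nat_lit 2568705740) (nat_lit 76) (nat_lit 93908586889) (nat_lit 89) (nat_lit 5) (nat_lit 91) (nat_lit 5) (nat_lit 90) (nat_lit 5) (nat_lit 494) (nat_lit 427) (nat_lit 279)) (XT.nd (nat_lit 78) (nat_lit 76) (nat_lit 0) (XT.lf (nat_lit 0) (nat_lit 2972331390) (nat_lit 152) (nat_lit 6946114913) (nat_lit 228) (nat_lit 106917003155) (nat_lit 83) (nat_lit 5) (nat_lit 85) (nat_lit 5) (nat_lit 86) (nat_lit 5) (nat_lit 496) (nat_lit 427) (nat_lit 277)) (XT.lf (nat_lit 0) (nat_lit 5460048925) (nat_lit 76) (nat_lit 63140703175) (nat_lit 152) (nat_lit 52135509944) (nat_lit 82)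 (nat_lit 5) (nat_lit 83) (nat_lit 5) (nat_lit 84) (nat_lit 4) (nat_lit 497) (nat_lit 427) (nat_lit 276)))) (XT.nd (nat_lit 78) (nat_lit 0) (nat_lit 76) (XT.lf (nat_lit 0) (nat_lit 1757953820) (nat_lit 1292) (nat_lit 3143262788) (nat_lit 1292) (nat_lit 3143262788) (nat_lit 327) (nat_lit 3) (nat_lit 344) (nat_lit 3) (nat_lit 344) (nat_lit 5) (nat_lit 428) (nat_lit 428) (nat_lit 344)) (XT.nd (nat_lit 78) (nat_lit 0) (nat_lit 0) (XT.lf (nat_lit 0) (nat_lit 4126351659) (nat_lit 1216) (nat_lit 9301041836) (nat_lit 1292) (nat_lit 3048093338) (nat_lit 328) (nat_lit 5) (nat_lit 344) (nat_lit 5) (nat_lit 345) (nat_lit 5) (nat_lit 429) (nat_lit 428) (nat_lit 343)) (XT.lf (nat_lit 76) (nat_lit 4534152803) (nat_lit 0) (nat_lit 413928558) (nat_lit 1292) (nat_lit 11927838260) (nat_lit 329) (nat_lit 5) (nat_lit 328) (nat_lit 5) (nat_lit 345) (nat_lit 5) (nat_lit 430) (nat_lit 428) (nat_lit 342))))) (XT.nd (nat_lit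 234) (nat_lit 0) (nat_lit 228) (XT.nd (nat_lit 78) (nat_lit 0) (nat_lit 76) (XT.lf (nat_lit 76) (nat_lit 1854202174) (nat_lit 0) (nat_lit 4172724655) (nat_lit 1292) (nat_lit 11262967532) (nat_lit 330) (nat_lit 5) (nat_lit 329) (nat_lit 5) (nat_lit 346) (nat_lit 5) (nat_lit 431) (nat_lit 428) (nat_lit 341)) (XT.nd (nat_lit 78) (nat_lit 0) (nat_lit 76) (XT.lf (nat_lit 0) (nat_lit 7359679733) (nat_lit 1216) (nat_lit 816498946) (nat_lit 1292) (nat_lit 9542391338) (nat_lit 330) (nat_lit 5) (nat_lit 346) (nat_lit 5) (nat_lit 347) (nat_lit 5) (nat_lit 432) (nat_lit 428) (nat_lit 340)) (XT.lf (nat_lit 0) (nat_lit 8975789694) (nat_lit 1216) (nat_lit 3455662331) (nat_lit 1292) (nat_lit 5730726931) (nat_lit 331) (nat_lit 5) (nat_lit 347) (nat_lit 5) (nat_lit 348) (nat_lit 5) (nat_lit 433) (nat_lit 428) (nat_lit 339)))) (XT.nd (nat_lit 156) (nat_lit 0) (nat_lit 76) (XT.nd (nat_lit 78) (nat_lit 0) (nat_lit 0)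 (XT.lf (nat_lit 0) (nat_lit 10877967979) (nat_lit 1216) (nat_lit 6096861336) (nat_lit 1292) (nat_lit 1646982169) (nat_lit 332) (nat_lit 5) (nat_lit 348) (nat_lit 5) (nat_lit 349) (nat_lit 5) (nat_lit 434) (nat_lit 428) (nat_lit 338)) (XT.lf (nat_lit 76) (nat_lit 10333430652) (nat_lit 0) (nat_lit 2781086127) (nat_lit 1292) (nat_lit 5982731991) (nat_lit 333) (nat_lit 5) (nat_lit 332) (nat_lit 5) (nat_lit 349) (nat_lit 5) (nat_lit 435) (nat_lit 428) (nat_lit 337))) (XT.nd (nat_lit 78) (nat_lit 0) (nat_lit 76) (XT.lf (nat_lit 76) (nat_lit 8143785523) (nat_lit 0) (nat_lit 7556757220) (nat_lit 1292) (nat_lit 3888786621) (nat_lit 334) (nat_lit 5) (nat_lit 333) (nat_lit 5) (nat_lit 350) (nat_lit 5) (nat_lit 436) (nat_lit 428) (nat_lit 336)) (XT.lf (nat_lit 76) (nat_lit 5976954056) (nat_lit 0) (nat_lit 12666966840) (nat_lit 1292) (nat_lit 1455252454) (nat_lit 335) (nat_lit 5) (nat_lit 334) (nat_lit 5) (nat_lit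 351) (nat_lit 5) (nat_lit 437) (nat_lit 428) (nat_lit 335)))))) (XT.nd (nat_lit 468) (nat_lit 3648) (nat_lit 0) (XT.nd (nat_lit 234) (nat_lit 1748) (nat_lit 0) (XT.nd (nat_lit 78) (nat_lit 836) (nat_lit 0) (XT.lf (nat_lit 0) (nat_lit 1316272516) (nat_lit 1292) (nat_lit 16802633155) (nat_lit 76) (nat_lit 2508154133) (nat_lit 318) (nat_lit 5) (nat_lit 335) (nat_lit 5) (nat_lit 319) (nat_lit 5) (nat_lit 438) (nat_lit 428) (nat_lit 334)) (XT.nd (nat_lit 78) (nat_lit 0) (nat_lit 0) (XT.lf (nat_lit 0) (nat_lit 1658677119) (nat_lit 836) (nat_lit 2810194731) (nat_lit 912) (nat_lit 16703859412) (nat_lit 307) (nat_lit 5) (nat_lit 318) (nat_lit 5) (nat_lit 319) (nat_lit 5) (nat_lit 439) (nat_lit 428) (nat_lit 333)) (XT.lf (nat_lit 0) (nat_lit 8063724951) (nat_lit 912) (nat_lit 491861665) (nat_lit 76) (nat_lit 13181561708) (nat_lit 307) (nat_lit 5) (nat_lit 319) (nat_lit 5) (nat_lit 308) (nat_lit 5) (nat_lit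 440) (nat_lit 428) (nat_lit 332)))) (XT.nd (nat_lit 78) (nat_lit 1140) (nat_lit 0) (XT.lf (nat_lit 0) (nat_lit 12115349564) (nat_lit 684) (nat_lit 2574174109) (nat_lit 76) (nat_lit 7631952412) (nat_lit 299) (nat_lit 5) (nat_lit 308) (nat_lit 5) (nat_lit 300) (nat_lit 5) (nat_lit 441) (nat_lit 428) (nat_lit 331)) (XT.nd (nat_lit 78) (nat_lit 532) (nat_lit 0) (XT.lf (nat_lit 0) (nat_lit 16637576803) (nat_lit 684) (nat_lit 4614387644) (nat_lit 76) (nat_lit 1675015820) (nat_lit 291) (nat_lit 5) (nat_lit 300) (nat_lit 5) (nat_lit 292) (nat_lit 5) (nat_lit 442) (nat_lit 428) (nat_lit 330)) (XT.lf (nat_lit 0) (nat_lit 16901183846) (nat_lit 532) (nat_lit 4806782441) (nat_lit 608) (nat_lit 1845132490) (nat_lit 284) (nat_lit 5) (nat_lit 291) (nat_lit 5) (nat_lit 292) (nat_lit 5) (nat_lit 443) (nat_lit 428) (nat_lit 329))))) (XT.nd (nat_lit 234) (nat_lit 1900) (nat_lit 0) (XT.nd (nat_lit 78) (nat_lit 1064)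 (nat_lit 0) (XT.lf (nat_lit 0) (nat_lit 3071638615) (nat_lit 684) (nat_lit 8684181791) (nat_lit 76) (nat_lit 12444729544) (nat_lit 275) (nat_lit 5) (nat_lit 284) (nat_lit 5) (nat_lit 276) (nat_lit 5) (nat_lit 444) (nat_lit 428) (nat_lit 328)) (XT.nd (nat_lit 78) (nat_lit 532) (nat_lit 0) (XT.lf (nat_lit 0) (nat_lit 8492511256) (nat_lit 608) (nat_lit 10679955965) (nat_lit 76) (nat_lit 5698466274) (nat_lit 268) (nat_lit 5) (nat_lit 276) (nat_lit 5) (nat_lit 269) (nat_lit 5) (nat_lit 445) (nat_lit 428) (nat_lit 327)) (XT.lf (nat_lit 0) (nat_lit 12936699768) (nat_lit 532) (nat_lit 1567116975) (nat_lit 608) (nat_lit 11061438339) (nat_lit 261) (nat_lit 5) (nat_lit 268) (nat_lit 5) (nat_lit 269) (nat_lit 5) (nat_lit 446) (nat_lit 428) (nat_lit 326)))) (XT.nd (nat_lit 156) (nat_lit 912) (nat_lit 0) (XT.nd (nat_lit 78) (nat_lit 532) (nat_lit 0) (XT.lf (nat_lit 0) (nat_lit 11715912033) (nat_lit 456) (nat_lit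 9472657252) (nat_lit 532) (nat_lit 5094537524) (nat_lit 255) (nat_lit 5) (nat_lit 261) (nat_lit 5) (nat_lit 262) (nat_lit 5) (nat_lit 447) (nat_lit 428) (nat_lit 325)) (XT.lf (nat_lit 0) (nat_lit 1473822595) (nat_lit 532) (nat_lit 16445416562) (nat_lit 76) (nat_lit 9107496064) (nat_lit 248) (nat_lit 5) (nat_lit 255) (nat_lit 5) (nat_lit 249) (nat_lit 5) (nat_lit 448) (nat_lit 428) (nat_lit 324))) (XT.nd (nat_lit 78) (nat_lit 456) (nat_lit 0) (XT.lf (nat_lit 0) (nat_lit 8600944047) (nat_lit 532) (nat_lit 18294462912) (nat_lit 76) (nat_lit 900554134) (nat_lit 242) (nat_lit 5) (nat_lit 249) (nat_lit 5) (nat_lit 243) (nat_lit 5) (nat_lit 449) (nat_lit 428) (nat_lit 323)) (XT.lf (nat_lit 0) (nat_lit 8458355174) (nat_lit 456) (nat_lit 8047062159) (nat_lit 532) (nat_lit 12085601483) (nat_lit 236) (nat_lit 5) (nat_lit 242) (nat_lit 5) (nat_lit 243) (nat_lit 5) (nat_lit 450) (nat_lit 428) (nat_lit 322)))))))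 (XT.nd (nat_lit 1014) (nat_lit 3420) (nat_lit 0) (XT.nd (nat_lit 468) (nat_lit 2204) (nat_lit 0) (XT.nd (nat_lit 234) (nat_lit 1216) (nat_lit 0) (XT.nd (nat_lit 78) (nat_lit 912) (nat_lit 0) (XT.lf (nat_lit 0) (nat_lit 7528182619) (nat_lit 380) (nat_lit 17640643605) (nat_lit 456) (nat_lit 4246092254) (nat_lit 231) (nat_lit 5) (nat_lit 236) (nat_lit 5) (nat_lit 237) (nat_lit 5) (nat_lit 451) (nat_lit 428) (nat_lit 321)) (XT.nd (nat_lit 78) (nat_lit 380) (nat_lit 0) (XT.lf (nat_lit 0) (nat_lit 4274926889) (nat_lit 532) (nat_lit 23578513755) (nat_lit 76) (nat_lit 2414404445) (nat_lit 224) (nat_lit 5) (nat_lit 231) (nat_lit 5) (nat_lit 225) (nat_lit 5) (nat_lit 452) (nat_lit 428) (nat_lit 320)) (XT.lf (nat_lit 0) (nat_lit 5871771237) (nat_lit 380) (nat_lit 7714207399) (nat_lit 456) (nat_lit 17562624619) (nat_lit 219) (nat_lit 5) (nat_lit 224) (nat_lit 5) (nat_lit 225) (nat_lit 5) (nat_lit 453) (nat_lit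 428) (nat_lit 319)))) (XT.nd (nat_lit 78) (nat_lit 836) (nat_lit 0) (XT.lf (nat_lit 0) (nat_lit 5176212054) (nat_lit 380) (nat_lit 18599675089) (nat_lit 456) (nat_lit 8285113406) (nat_lit 214) (nat_lit 5) (nat_lit 219) (nat_lit 5) (nat_lit 220) (nat_lit 5) (nat_lit 454) (nat_lit 428) (nat_lit 318)) (XT.nd (nat_lit 78) (nat_lit 380) (nat_lit 0) (XT.lf (nat_lit 0) (nat_lit 1830162712) (nat_lit 456) (nat_lit 28383742172) (nat_lit 76) (nat_lit 2792623990) (nat_lit 208) (nat_lit 5) (nat_lit 214) (nat_lit 5) (nat_lit 209) (nat_lit 5) (nat_lit 455) (nat_lit 428) (nat_lit 317)) (XT.lf (nat_lit 0) (nat_lit 4067703258) (nat_lit 380) (nat_lit 8709977267) (nat_lit 456) (nat_lit 21204257668) (nat_lit 203) (nat_lit 5) (nat_lit 208) (nat_lit 5) (nat_lit 209) (nat_lit 5) (nat_lit 456) (nat_lit 428) (nat_lit 316))))) (XT.nd (nat_lit 234) (nat_lit 1216) (nat_lit 0) (XT.nd (nat_lit 78) (nat_lit 684) (nat_lit 0) (XT.lf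 (nat_lit 0) (nat_lit 3658738165) (nat_lit 304) (nat_lit 21067620644) (nat_lit 380) (nat_lit 10266145918) (nat_lit 199) (nat_lit 5) (nat_lit 203) (nat_lit 5) (nat_lit 204) (nat_lit 5) (nat_lit 457) (nat_lit 428) (nat_lit 315)) (XT.nd (nat_lit 78) (nat_lit 304) (nat_lit 0) (XT.lf (nat_lit 0) (nat_lit 1635069299) (nat_lit 380) (nat_lit 32616248592) (nat_lit 76) (nat_lit 1788730996) (nat_lit 194) (nat_lit 5) (nat_lit 199) (nat_lit 5) (nat_lit 195) (nat_lit 5) (nat_lit 458) (nat_lit 428) (nat_lit 314)) (XT.lf (nat_lit 0) (nat_lit 3172607527) (nat_lit 304) (nat_lit 11308021923) (nat_lit 380) (nat_lit 22639443594) (nat_lit 190) (nat_lit 5) (nat_lit 194) (nat_lit 5) (nat_lit 195) (nat_lit 5) (nat_lit 459) (nat_lit 428) (nat_lit 313)))) (XT.nd (nat_lit 156) (nat_lit 532) (nat_lit 0) (XT.nd (nat_lit 78) (nat_lit 380) (nat_lit 0) (XT.lf (nat_lit 0) (nat_lit 3109523264) (nat_lit 304) (nat_lit 25341805798) (nat_lit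 380) (nat_lit 9788283747) (nat_lit 186) (nat_lit 5) (nat_lit 190) (nat_lit 5) (nat_lit 191) (nat_lit 5) (nat_lit 460) (nat_lit 428) (nat_lit 312)) (XT.lf (nat_lit 0) (nat_lit 3220536550) (nat_lit 304) (nat_lit 901837335) (nat_lit 380) (nat_lit 35277009947) (nat_lit 181) (nat_lit 5) (nat_lit 185) (nat_lit 5) (nat_lit 186) (nat_lit 5) (nat_lit 461) (nat_lit 428) (nat_lit 311))) (XT.nd (nat_lit 78) (nat_lit 228) (nat_lit 0) (XT.lf (nat_lit 0) (nat_lit 3328025487) (nat_lit 304) (nat_lit 15826685039) (nat_lit 380) (nat_lit 21440668200) (nat_lit 177) (nat_lit 5) (nat_lit 181) (nat_lit 5) (nat_lit 182) (nat_lit 5) (nat_lit 462) (nat_lit 428) (nat_lit 310)) (XT.lf (nat_lit 0) (nat_lit 3677746337) (nat_lit 228) (nat_lit 31767843709) (nat_lit 304) (nat_lit 6390375738) (nat_lit 174) (nat_lit 5) (nat_lit 177) (nat_lit 5) (nat_lit 178) (nat_lit 5) (nat_lit 463) (nat_lit 428) (nat_lit 309)))))) (XT.nd (nat_lit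 546) (nat_lit 1520) (nat_lit 0) (XT.nd (nat_lit 234) (nat_lit 988) (nat_lit 0) (XT.nd (nat_lit 78) (nat_lit 532) (nat_lit 0) (XT.lf (nat_lit 0) (nat_lit 4135823532) (nat_lit 304) (nat_lit 5671790786) (nat_lit 380) (nat_lit 33310888123) (nat_lit 169) (nat_lit 5) (nat_lit 173) (nat_lit 5) (nat_lit 174) (nat_lit 5) (nat_lit 464) (nat_lit 428) (nat_lit 308)) (XT.nd (nat_lit 78) (nat_lit 304) (nat_lit 0) (XT.lf (nat_lit 0) (nat_lit 4690348892) (nat_lit 228) (nat_lit 22637019796) (nat_lit 304) (nat_lit 17116578462) (nat_lit 166) (nat_lit 5) (nat_lit 169) (nat_lit 5) (nat_lit 170) (nat_lit 5) (nat_lit 465) (nat_lit 428) (nat_lit 307)) (XT.lf (nat_lit 0) (nat_lit 447824413) (nat_lit 304) (nat_lit 40295828650) (nat_lit 76) (nat_lit 5075298212) (nat_lit 162) (nat_lit 5) (nat_lit 166) (nat_lit 5) (nat_lit 163) (nat_lit 5) (nat_lit 466) (nat_lit 428) (nat_lit 306)))) (XT.nd (nat_lit 156) (nat_lit 532) (nat_lit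 0) (XT.nd (nat_lit 78) (nat_lit 228) (nat_lit 0) (XT.lf (nat_lit 0) (nat_lit 6350492512) (nat_lit 228) (nat_lit 12884588515) (nat_lit 304) (nat_lit 28001581686) (nat_lit 159) (nat_lit 5) (nat_lit 162) (nat_lit 5) (nat_lit 163) (nat_lit 5) (nat_lit 467) (nat_lit 428) (nat_lit 305)) (XT.lf (nat_lit 0) (nat_lit 7429979648) (nat_lit 228) (nat_lit 32172126028) (nat_lit 304) (nat_lit 9103942039) (nat_lit 156) (nat_lit 5) (nat_lit 159) (nat_lit 5) (nat_lit 160) (nat_lit 5) (nat_lit 468) (nat_lit 428) (nat_lit 304))) (XT.nd (nat_lit 78) (nat_lit 228) (nat_lit 0) (XT.lf (nat_lit 0) (nat_lit 8700660312) (nat_lit 228) (nat_lit 2460006181) (nat_lit 304) (nat_lit 39066189781) (nat_lit 152) (nat_lit 5) (nat_lit 155) (nat_lit 5) (nat_lit 156) (nat_lit 5) (nat_lit 469) (nat_lit 428) (nat_lit 303)) (XT.lf (nat_lit 0) (nat_lit 10039819417) (nat_lit 228) (nat_lit 23007096540) (nat_lit 304) (nat_lit 18750184475) (nat_lit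 149) (nat_lit 5) (nat_lit 152) (nat_lit 5) (nat_lit 153) (nat_lit 5) (nat_lit 470) (nat_lit 428) (nat_lit 302))))) (XT.nd (nat_lit 234) (nat_lit 912) (nat_lit 0) (XT.nd (nat_lit 78) (nat_lit 380) (nat_lit 0) (XT.lf (nat_lit 0) (nat_lit 3177816930) (nat_lit 228) (nat_lit 41728179679) (nat_lit 76) (nat_lit 8519718651) (nat_lit 146) (nat_lit 5) (nat_lit 149) (nat_lit 5) (nat_lit 147) (nat_lit 5) (nat_lit 471) (nat_lit 428) (nat_lit 301)) (XT.nd (nat_lit 78) (nat_lit 152) (nat_lit 0) (XT.lf (nat_lit 0) (nat_lit 13399380506) (nat_lit 228) (nat_lit 13207199883) (nat_lit 304) (nat_lit 28499846859) (nat_lit 143) (nat_lit 5) (nat_lit 146) (nat_lit 5) (nat_lit 147) (nat_lit 5) (nat_lit 472) (nat_lit 428) (nat_lit 300)) (XT.lf (nat_lit 0) (nat_lit 15389054896) (nat_lit 152) (nat_lit 36586028096) (nat_lit 228) (nat_lit 4873042924) (nat_lit 141) (nat_lit 5) (nat_lit 143) (nat_lit 5) (nat_lit 144) (nat_lit 5)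 (nat_lit 473) (nat_lit 428) (nat_lit 299)))) (XT.nd (nat_lit 156) (nat_lit 456) (nat_lit 0) (XT.nd (nat_lit 78) (nat_lit 152) (nat_lit 0) (XT.lf (nat_lit 0) (nat_lit 17549930648) (nat_lit 228) (nat_lit 2725474620) (nat_lit 304) (nat_lit 38373876210) (nat_lit 137) (nat_lit 5) (nat_lit 140) (nat_lit 5) (nat_lit 141) (nat_lit 5) (nat_lit 474) (nat_lit 428) (nat_lit 298)) (XT.lf (nat_lit 0) (nat_lit 19855884190) (nat_lit 152) (nat_lit 27656860176) (nat_lit 228) (nat_lit 12998335597) (nat_lit 135) (nat_lit 5) (nat_lit 137) (nat_lit 5) (nat_lit 138) (nat_lit 5) (nat_lit 475) (nat_lit 428) (nat_lit 297))) (XT.nd (nat_lit 78) (nat_lit 152) (nat_lit 0) (XT.lf (nat_lit 0) (nat_lit 14126634502) (nat_lit 304) (nat_lit 39992875219) (nat_lit 76) (nat_lit 8320115494) (nat_lit 131) (nat_lit 5) (nat_lit 135) (nat_lit 5) (nat_lit 132) (nat_lit 5) (nat_lit 476) (nat_lit 428) (nat_lit 296)) (XT.lf (nat_lit 0) (nat_lit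 25167638808) (nat_lit 152) (nat_lit 18111766537) (nat_lit 228) (nat_lit 21153120244) (nat_lit 129) (nat_lit 5) (nat_lit 131) (nat_lit 5) (nat_lit 132) (nat_lit 5) (nat_lit 477) (nat_lit 428) (nat_lit 295))))))))
noncomputable def xc92 : XT := (XT.nd (nat_lit 59280) (nat_lit 0) (nat_lit 6916) (XT.nd (nat_lit 1014) (nat_lit 988) (nat_lit 0) (XT.nd (nat_lit 468) (nat_lit 1140) (nat_lit 0) (XT.nd (nat_lit 234) (nat_lit 532) (nat_lit 0) (XT.nd (nat_lit 78) (nat_lit 380) (nat_lit 0) (XT.lf (nat_lit 0) (nat_lit 8100671902) (nat_lit 228) (nat_lit 38321323671) (nat_lit 76) (nat_lit 20074562434) (nat_lit 126) (nat_lit 5) (nat_lit 129) (nat_lit 5) (nat_lit 127) (nat_lit 5) (nat_lit 478) (nat_lit 428) (nat_lit 294)) (XT.nd (nat_lit 78) (nat_lit 228) (nat_lit 0) (XT.lf (nat_lit 0) (nat_lit 31357844673) (nat_lit 152) (nat_lit 7912747611) (nat_lit 228) (nat_lit 29360189202) (nat_lit 124) (nat_lit 5) (nat_lit 126)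 (nat_lit 5) (nat_lit 127) (nat_lit 5) (nat_lit 479) (nat_lit 428) (nat_lit 293)) (XT.lf (nat_lit 0) (nat_lit 2155813824) (nat_lit 228) (nat_lit 36046714087) (nat_lit 76) (nat_lit 32637347647) (nat_lit 121) (nat_lit 5) (nat_lit 124) (nat_lit 5) (nat_lit 122) (nat_lit 5) (nat_lit 480) (nat_lit 428) (nat_lit 292)))) (XT.nd (nat_lit 78) (nat_lit 380) (nat_lit 0) (XT.lf (nat_lit 0) (nat_lit 35506325101) (nat_lit 228) (nat_lit 34699898158) (nat_lit 76) (nat_lit 2918502637) (nat_lit 119) (nat_lit 5) (nat_lit 122) (nat_lit 5) (nat_lit 120) (nat_lit 5) (nat_lit 481) (nat_lit 428) (nat_lit 291)) (XT.nd (nat_lit 78) (nat_lit 228) (nat_lit 0) (XT.lf (nat_lit 0) (nat_lit 42286975815) (nat_lit 152) (nat_lit 29398991094) (nat_lit 228) (nat_lit 3803003758) (nat_lit 117) (nat_lit 5) (nat_lit 119) (nat_lit 5) (nat_lit 120) (nat_lit 5) (nat_lit 482) (nat_lit 428) (nat_lit 290)) (XT.lf (nat_lit 0) (nat_lit 32027171116)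 (nat_lit 228) (nat_lit 31601502439) (nat_lit 76) (nat_lit 14305332146) (nat_lit 114) (nat_lit 5) (nat_lit 117) (nat_lit 5) (nat_lit 115) (nat_lit 5) (nat_lit 483) (nat_lit 428) (nat_lit 289))))) (XT.nd (nat_lit 234) (nat_lit 608) (nat_lit 0) (XT.nd (nat_lit 78) (nat_lit 380) (nat_lit 0) (XT.lf (nat_lit 0) (nat_lit 50687979117) (nat_lit 152) (nat_lit 20007112150) (nat_lit 228) (nat_lit 9771325017) (nat_lit 112) (nat_lit 5) (nat_lit 114) (nat_lit 5) (nat_lit 115) (nat_lit 5) (nat_lit 484) (nat_lit 428) (nat_lit 288)) (XT.nd (nat_lit 78) (nat_lit 152) (nat_lit 0) (XT.lf (nat_lit 0) (nat_lit 28736902728) (nat_lit 228) (nat_lit 27915381996) (nat_lit 76) (nat_lit 26431569041) (nat_lit 109) (nat_lit 5) (nat_lit 112) (nat_lit 5) (nat_lit 110) (nat_lit 5) (nat_lit 485) (nat_lit 428) (nat_lit 287)) (XT.lf (nat_lit 0) (nat_lit 60020848534) (nat_lit 152) (nat_lit 10033185229) (nat_lit 228) (nat_lit 15742659695)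 (nat_lit 107) (nat_lit 5) (nat_lit 109) (nat_lit 5) (nat_lit 110) (nat_lit 5) (nat_lit 486) (nat_lit 428) (nat_lit 286)))) (XT.nd (nat_lit 156) (nat_lit 304) (nat_lit 0) (XT.nd (nat_lit 78) (nat_lit 152) (nat_lit 0) (XT.lf (nat_lit 0) (nat_lit 25607058569) (nat_lit 152) (nat_lit 23670521488) (nat_lit 76) (nat_lit 39321475975) (nat_lit 105) (nat_lit 5) (nat_lit 107) (nat_lit 5) (nat_lit 106) (nat_lit 5) (nat_lit 487) (nat_lit 428) (nat_lit 285)) (XT.lf (nat_lit 0) (nat_lit 69746988185) (nat_lit 228) (nat_lit 21237492358) (nat_lit 76) (nat_lit 520930966) (nat_lit 103) (nat_lit 5) (nat_lit 106) (nat_lit 5) (nat_lit 104) (nat_lit 4) (nat_lit 488) (nat_lit 428) (nat_lit 284))) (XT.nd (nat_lit 78) (nat_lit 152) (nat_lit 0) (XT.lf (nat_lit 0) (nat_lit 22598907356) (nat_lit 152) (nat_lit 18915090666) (nat_lit 76) (nat_lit 52992405852) (nat_lit 101) (nat_lit 5) (nat_lit 103) (nat_lit 5) (nat_lit 102) (nat_lit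 5) (nat_lit 489) (nat_lit 428) (nat_lit 283)) (XT.lf (nat_lit 0) (nat_lit 69839624664) (nat_lit 228) (nat_lit 16320069581) (nat_lit 76) (nat_lit 11457823222) (nat_lit 99) (nat_lit 5) (nat_lit 102) (nat_lit 5) (nat_lit 100) (nat_lit 4) (nat_lit 490) (nat_lit 428) (nat_lit 282)))))) (XT.nd (nat_lit 57720) (nat_lit 0) (nat_lit 18392) (XT.nd (nat_lit 234) (nat_lit 532) (nat_lit 0) (XT.nd (nat_lit 78) (nat_lit 304) (nat_lit 0) (XT.lf (nat_lit 0) (nat_lit 19661089235) (nat_lit 152) (nat_lit 13721111482) (nat_lit 76) (nat_lit 67452683219) (nat_lit 97) (nat_lit 5) (nat_lit 99) (nat_lit 5) (nat_lit 98) (nat_lit 5) (nat_lit 491) (nat_lit 428) (nat_lit 281)) (XT.nd (nat_lit 78) (nat_lit 152) (nat_lit 0) (XT.lf (nat_lit 0) (nat_lit 70191126236) (nat_lit 228) (nat_lit 11013338637) (nat_lit 76) (nat_lit 22961595172) (nat_lit 95) (nat_lit 5) (nat_lit 98) (nat_lit 5) (nat_lit 96) (nat_lit 4) (nat_lit 492) (nat_lit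 428) (nat_lit 280)) (XT.lf (nat_lit 0) (nat_lit 16726803107) (nat_lit 152) (nat_lit 8190037678) (nat_lit 76) (nat_lit 82699049241) (nat_lit 93) (nat_lit 5) (nat_lit 95) (nat_lit 5) (nat_lit 94) (nat_lit 5) (nat_lit 493) (nat_lit 428) (nat_lit 279)))) (XT.nd (nat_lit 156) (nat_lit 380) (nat_lit 0) (XT.lf (nat_lit 0) (nat_lit 70741090852) (nat_lit 228) (nat_lit 5436135374) (nat_lit 76) (nat_lit 35006490215) (nat_lit 91) (nat_lit 5) (nat_lit 94) (nat_lit 5) (nat_lit 92) (nat_lit 4) (nat_lit 494) (nat_lit 428) (nat_lit 278)) (XT.nd (nat_lit 57252) (nat_lit 0) (nat_lit 18316) (XT.lf (nat_lit 0) (nat_lit 257839931) (nat_lit 76) (nat_lit 71154145216) (nat_lit 152) (nat_lit 47293876887) (nat_lit 86) (nat_lit 5) (nat_lit 87) (nat_lit 5) (nat_lit 88) (nat_lit 4) (nat_lit 496) (nat_lit 428) (nat_lit 276)) (XT.lf (nat_lit 0) (nat_lit 2262643051) (nat_lit 1292) (nat_lit 3085768667) (nat_lit 1292) (nat_lit 3085768667)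 (nat_lit 327) (nat_lit 3) (nat_lit 344) (nat_lit 3) (nat_lit 344) (nat_lit 5) (nat_lit 429) (nat_lit 429) (nat_lit 342))))) (XT.nd (nat_lit 234) (nat_lit 0) (nat_lit 152) (XT.nd (nat_lit 78) (nat_lit 0) (nat_lit 0) (XT.lf (nat_lit 0) (nat_lit 5126905091) (nat_lit 1216) (nat_lit 9321450729) (nat_lit 1292) (nat_lit 2827041639) (nat_lit 328) (nat_lit 5) (nat_lit 344) (nat_lit 5) (nat_lit 345) (nat_lit 5) (nat_lit 430) (nat_lit 429) (nat_lit 341)) (XT.nd (nat_lit 78) (nat_lit 0) (nat_lit 76) (XT.lf (nat_lit 76) (nat_lit 5192758034) (nat_lit 0) (nat_lit 763294153) (nat_lit 1292) (nat_lit 11740811518) (nat_lit 329) (nat_lit 5) (nat_lit 328) (nat_lit 5) (nat_lit 345) (nat_lit 5) (nat_lit 431) (nat_lit 429) (nat_lit 340)) (XT.lf (nat_lit 76) (nat_lit 2391695274) (nat_lit 0) (nat_lit 4662193793) (nat_lit 1292) (nat_lit 11078698301) (nat_lit 330) (nat_lit 5) (nat_lit 329) (nat_lit 5) (nat_lit 346) (nat_lit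 5) (nat_lit 432) (nat_lit 429) (nat_lit 339)))) (XT.nd (nat_lit 156) (nat_lit 0) (nat_lit 152) (XT.nd (nat_lit 78) (nat_lit 0) (nat_lit 76) (XT.lf (nat_lit 0) (nat_lit 8416155490) (nat_lit 1216) (nat_lit 410386522) (nat_lit 1292) (nat_lit 9757270102) (nat_lit 330) (nat_lit 5) (nat_lit 346) (nat_lit 5) (nat_lit 347) (nat_lit 5) (nat_lit 433) (nat_lit 429) (nat_lit 338)) (XT.lf (nat_lit 0) (nat_lit 10082288630) (nat_lit 1216) (nat_lit 3172322835) (nat_lit 1292) (nat_lit 5795915010) (nat_lit 331) (nat_lit 5) (nat_lit 347) (nat_lit 5) (nat_lit 348) (nat_lit 5) (nat_lit 434) (nat_lit 429) (nat_lit 337))) (XT.nd (nat_lit 78) (nat_lit 0) (nat_lit 0) (XT.lf (nat_lit 0) (nat_lit 12050711845) (nat_lit 1216) (nat_lit 5937904948) (nat_lit 1292) (nat_lit 1545391193) (nat_lit 332) (nat_lit 5) (nat_lit 348) (nat_lit 5) (nat_lit 349) (nat_lit 5) (nat_lit 435) (nat_lit 429) (nat_lit 336)) (XT.lf (nat_lit 76) (nat_lit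 11300606921) (nat_lit 0) (nat_lit 3072866670) (nat_lit 1292) (nat_lit 5660513348) (nat_lit 333) (nat_lit 5) (nat_lit 332) (nat_lit 5) (nat_lit 349) (nat_lit 5) (nat_lit 436) (nat_lit 429) (nat_lit 335))))))) (XT.nd (nat_lit 1014) (nat_lit 5396) (nat_lit 0) (XT.nd (nat_lit 468) (nat_lit 3876) (nat_lit 0) (XT.nd (nat_lit 234) (nat_lit 1444) (nat_lit 0) (XT.nd (nat_lit 78) (nat_lit 1140) (nat_lit 0) (XT.lf (nat_lit 76) (nat_lit 9007596664) (nat_lit 0) (nat_lit 8055470044) (nat_lit 1292) (nat_lit 3488378180) (nat_lit 334) (nat_lit 5) (nat_lit 333) (nat_lit 5) (nat_lit 350) (nat_lit 5) (nat_lit 437) (nat_lit 429) (nat_lit 334)) (XT.nd (nat_lit 78) (nat_lit 1216) (nat_lit 0) (XT.lf (nat_lit 76) (nat_lit 6737316850) (nat_lit 0) (nat_lit 13392126841) (nat_lit 1292) (nat_lit 958063724) (nat_lit 335) (nat_lit 5) (nat_lit 334) (nat_lit 5) (nat_lit 351) (nat_lit 5) (nat_lit 438) (nat_lit 429) (nat_lit 333))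 (XT.lf (nat_lit 0) (nat_lit 1917972861) (nat_lit 1292) (nat_lit 17166785519) (nat_lit 76) (nat_lit 2557554882) (nat_lit 318) (nat_lit 5) (nat_lit 335) (nat_lit 5) (nat_lit 319) (nat_lit 5) (nat_lit 439) (nat_lit 429) (nat_lit 332)))) (XT.nd (nat_lit 78) (nat_lit 608) (nat_lit 0) (XT.lf (nat_lit 0) (nat_lit 2203946417) (nat_lit 836) (nat_lit 3003181580) (nat_lit 912) (nat_lit 17008773613) (nat_lit 307) (nat_lit 5) (nat_lit 318) (nat_lit 5) (nat_lit 319) (nat_lit 5) (nat_lit 440) (nat_lit 429) (nat_lit 331)) (XT.nd (nat_lit 78) (nat_lit 608) (nat_lit 0) (XT.lf (nat_lit 0) (nat_lit 8956728449) (nat_lit 912) (nat_lit 60925130) (nat_lit 76) (nat_lit 13791636846) (nat_lit 307) (nat_lit 5) (nat_lit 319) (nat_lit 5) (nat_lit 308) (nat_lit 5) (nat_lit 441) (nat_lit 429) (nat_lit 330)) (XT.lf (nat_lit 0) (nat_lit 13191591186) (nat_lit 684) (nat_lit 2245996888) (nat_lit 76) (nat_lit 7985827782) (nat_lit 299)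 (nat_lit 5) (nat_lit 308) (nat_lit 5) (nat_lit 300) (nat_lit 5) (nat_lit 442) (nat_lit 429) (nat_lit 329))))) (XT.nd (nat_lit 234) (nat_lit 2052) (nat_lit 0) (XT.nd (nat_lit 78) (nat_lit 1216) (nat_lit 0) (XT.lf (nat_lit 0) (nat_lit 17921710070) (nat_lit 684) (nat_lit 4387646521) (nat_lit 76) (nat_lit 1750386193) (nat_lit 291) (nat_lit 5) (nat_lit 300) (nat_lit 5) (nat_lit 292) (nat_lit 5) (nat_lit 443) (nat_lit 429) (nat_lit 328)) (XT.nd (nat_lit 78) (nat_lit 684) (nat_lit 0) (XT.lf (nat_lit 0) (nat_lit 18190590530) (nat_lit 532) (nat_lit 5037763912) (nat_lit 608) (nat_lit 1489331611) (nat_lit 284) (nat_lit 5) (nat_lit 291) (nat_lit 5) (nat_lit 292) (nat_lit 5) (nat_lit 444) (nat_lit 429) (nat_lit 327)) (XT.lf (nat_lit 0) (nat_lit 3648013977) (nat_lit 684) (nat_lit 8665743782) (nat_lit 76) (nat_lit 13084119273) (nat_lit 275) (nat_lit 5) (nat_lit 284) (nat_lit 5) (nat_lit 276) (nat_lit 5) (nat_lit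 445) (nat_lit 429) (nat_lit 326)))) (XT.nd (nat_lit 156) (nat_lit 988) (nat_lit 0) (XT.nd (nat_lit 78) (nat_lit 532) (nat_lit 0) (XT.lf (nat_lit 0) (nat_lit 9324338778) (nat_lit 608) (nat_lit 10762374429) (nat_lit 76) (nat_lit 6015535083) (nat_lit 268) (nat_lit 5) (nat_lit 276) (nat_lit 5) (nat_lit 269) (nat_lit 5) (nat_lit 446) (nat_lit 429) (nat_lit 325)) (XT.lf (nat_lit 0) (nat_lit 14022169659) (nat_lit 532) (nat_lit 1598865737) (nat_lit 608) (nat_lit 11210706538) (nat_lit 261) (nat_lit 5) (nat_lit 268) (nat_lit 5) (nat_lit 269) (nat_lit 5) (nat_lit 447) (nat_lit 429) (nat_lit 324))) (XT.nd (nat_lit 78) (nat_lit 532) (nat_lit 0) (XT.lf (nat_lit 0) (nat_lit 12738772331) (nat_lit 456) (nat_lit 9887213259) (nat_lit 532) (nat_lit 4959922574) (nat_lit 255) (nat_lit 5) (nat_lit 261) (nat_lit 5) (nat_lit 262) (nat_lit 5) (nat_lit 448) (nat_lit 429) (nat_lit 323)) (XT.lf (nat_lit 0) (nat_lit 1915848998)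 (nat_lit 532) (nat_lit 16825330281) (nat_lit 76) (nat_lit 9625829377) (nat_lit 248) (nat_lit 5) (nat_lit 255) (nat_lit 5) (nat_lit 249) (nat_lit 5) (nat_lit 449) (nat_lit 429) (nat_lit 322)))))) (XT.nd (nat_lit 546) (nat_lit 2356) (nat_lit 0) (XT.nd (nat_lit 234) (nat_lit 1748) (nat_lit 0) (XT.nd (nat_lit 78) (nat_lit 836) (nat_lit 0) (XT.lf (nat_lit 0) (nat_lit 9386635620) (nat_lit 532) (nat_lit 18769567169) (nat_lit 76) (nat_lit 1018874391) (nat_lit 242) (nat_lit 5) (nat_lit 249) (nat_lit 5) (nat_lit 243) (nat_lit 5) (nat_lit 450) (nat_lit 429) (nat_lit 321)) (XT.nd (nat_lit 78) (nat_lit 380) (nat_lit 0) (XT.lf (nat_lit 0) (nat_lit 9308290235) (nat_lit 456) (nat_lit 8365211641) (nat_lit 532) (nat_lit 12336771436) (nat_lit 236) (nat_lit 5) (nat_lit 242) (nat_lit 5) (nat_lit 243) (nat_lit 5) (nat_lit 451) (nat_lit 429) (nat_lit 320)) (XT.lf (nat_lit 0) (nat_lit 8328583772) (nat_lit 380) (nat_lit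 18430019522) (nat_lit 456) (nat_lit 4117109573) (nat_lit 231) (nat_lit 5) (nat_lit 236) (nat_lit 5) (nat_lit 237) (nat_lit 5) (nat_lit 452) (nat_lit 429) (nat_lit 319)))) (XT.nd (nat_lit 156) (nat_lit 836) (nat_lit 0) (XT.nd (nat_lit 78) (nat_lit 380) (nat_lit 0) (XT.lf (nat_lit 0) (nat_lit 4812306271) (nat_lit 532) (nat_lit 24330348398) (nat_lit 76) (nat_lit 2628863085) (nat_lit 224) (nat_lit 5) (nat_lit 231) (nat_lit 5) (nat_lit 225) (nat_lit 5) (nat_lit 453) (nat_lit 429) (nat_lit 318)) (XT.lf (nat_lit 0) (nat_lit 6580208365) (nat_lit 380) (nat_lit 7997278922) (nat_lit 456) (nat_lit 18119169746) (nat_lit 219) (nat_lit 5) (nat_lit 224) (nat_lit 5) (nat_lit 225) (nat_lit 5) (nat_lit 454) (nat_lit 429) (nat_lit 317))) (XT.nd (nat_lit 78) (nat_lit 456) (nat_lit 0) (XT.lf (nat_lit 0) (nat_lit 5846128939) (nat_lit 380) (nat_lit 19420786600) (nat_lit 456) (nat_lit 8388058403) (nat_lit 214) (nat_lit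 5) (nat_lit 219) (nat_lit 5) (nat_lit 220) (nat_lit 5) (nat_lit 455) (nat_lit 429) (nat_lit 316)) (XT.lf (nat_lit 0) (nat_lit 2217330519) (nat_lit 456) (nat_lit 29389914275) (nat_lit 76) (nat_lit 3040731846) (nat_lit 208) (nat_lit 5) (nat_lit 214) (nat_lit 5) (nat_lit 209) (nat_lit 5) (nat_lit 456) (nat_lit 429) (nat_lit 315))))) (XT.nd (nat_lit 234) (nat_lit 1292) (nat_lit 0) (XT.nd (nat_lit 78) (nat_lit 684) (nat_lit 0) (XT.lf (nat_lit 0) (nat_lit 4672264434) (nat_lit 380) (nat_lit 9029737105) (nat_lit 456) (nat_lit 21970461988) (nat_lit 203) (nat_lit 5) (nat_lit 208) (nat_lit 5) (nat_lit 209) (nat_lit 5) (nat_lit 457) (nat_lit 429) (nat_lit 314)) (XT.nd (nat_lit 78) (nat_lit 380) (nat_lit 0) (XT.lf (nat_lit 0) (nat_lit 4238596667) (nat_lit 304) (nat_lit 22000799862) (nat_lit 380) (nat_lit 10494423779) (nat_lit 199) (nat_lit 5) (nat_lit 203) (nat_lit 5) (nat_lit 204) (nat_lit 5) (nat_lit 458)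 (nat_lit 429) (nat_lit 313)) (XT.lf (nat_lit 0) (nat_lit 1987903838) (nat_lit 380) (nat_lit 33849165478) (nat_lit 76) (nat_lit 1996842128) (nat_lit 194) (nat_lit 5) (nat_lit 199) (nat_lit 5) (nat_lit 195) (nat_lit 5) (nat_lit 459) (nat_lit 429) (nat_lit 312)))) (XT.nd (nat_lit 156) (nat_lit 684) (nat_lit 0) (XT.nd (nat_lit 78) (nat_lit 304) (nat_lit 0) (XT.lf (nat_lit 0) (nat_lit 3717727851) (nat_lit 304) (nat_lit 11748820701) (nat_lit 380) (nat_lit 23501664415) (nat_lit 190) (nat_lit 5) (nat_lit 194) (nat_lit 5) (nat_lit 195) (nat_lit 5) (nat_lit 460) (nat_lit 429) (nat_lit 311)) (XT.lf (nat_lit 0) (nat_lit 3646885614) (nat_lit 304) (nat_lit 26481238332) (nat_lit 380) (nat_lit 10015835888) (nat_lit 186) (nat_lit 5) (nat_lit 190) (nat_lit 5) (nat_lit 191) (nat_lit 5) (nat_lit 461) (nat_lit 429) (nat_lit 310))) (XT.nd (nat_lit 78) (nat_lit 304) (nat_lit 0) (XT.lf (nat_lit 0) (nat_lit 3757472649)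 (nat_lit 304) (nat_lit 819159281) (nat_lit 380) (nat_lit 36785270661) (nat_lit 181) (nat_lit 5) (nat_lit 185) (nat_lit 5) (nat_lit 186) (nat_lit 5) (nat_lit 462) (nat_lit 429) (nat_lit 309)) (XT.lf (nat_lit 0) (nat_lit 3865604540) (nat_lit 304) (nat_lit 16487902408) (nat_lit 380) (nat_lit 22264402933) (nat_lit 177) (nat_lit 5) (nat_lit 181) (nat_lit 5) (nat_lit 182) (nat_lit 5) (nat_lit 463) (nat_lit 429) (nat_lit 308))))))))
noncomputable def xc93 : XT := (XT.nd (nat_lit 2028) (nat_lit 1064) (nat_lit 0) (XT.nd (nat_lit 1014) (nat_lit 2432) (nat_lit 0) (XT.nd (nat_lit 468) (nat_lit 1596) (nat_lit 0) (XT.nd (nat_lit 234) (nat_lit 760) (nat_lit 0) (XT.nd (nat_lit 78) (nat_lit 608) (nat_lit 0) (XT.lf (nat_lit 0) (nat_lit 4227987097) (nat_lit 228) (nat_lit 33224177073) (nat_lit 304) (nat_lit 6468565394) (nat_lit 174) (nat_lit 5) (nat_lit 177) (nat_lit 5) (nat_lit 178) (nat_lit 5) (nat_lit 464) (nat_lit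 429) (nat_lit 307)) (XT.nd (nat_lit 78) (nat_lit 228) (nat_lit 0) (XT.lf (nat_lit 0) (nat_lit 4703046264) (nat_lit 304) (nat_lit 5823765773) (nat_lit 380) (nat_lit 34740745772) (nat_lit 169) (nat_lit 5) (nat_lit 173) (nat_lit 5) (nat_lit 174) (nat_lit 5) (nat_lit 465) (nat_lit 429) (nat_lit 306)) (XT.lf (nat_lit 0) (nat_lit 5280410133) (nat_lit 228) (nat_lit 23635870563) (nat_lit 304) (nat_lit 17743182510) (nat_lit 166) (nat_lit 5) (nat_lit 169) (nat_lit 5) (nat_lit 170) (nat_lit 5) (nat_lit 466) (nat_lit 429) (nat_lit 305)))) (XT.nd (nat_lit 78) (nat_lit 456) (nat_lit 0) (XT.lf (nat_lit 0) (nat_lit 688898242) (nat_lit 304) (nat_lit 41955663096) (nat_lit 76) (nat_lit 5458772405) (nat_lit 162) (nat_lit 5) (nat_lit 166) (nat_lit 5) (nat_lit 163) (nat_lit 5) (nat_lit 467) (nat_lit 429) (nat_lit 304)) (XT.nd (nat_lit 78) (nat_lit 228) (nat_lit 0) (XT.lf (nat_lit 0) (nat_lit 7012799353) (nat_lit 228)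 (nat_lit 13395619133) (nat_lit 304) (nat_lit 29183725461) (nat_lit 159) (nat_lit 5) (nat_lit 162) (nat_lit 5) (nat_lit 163) (nat_lit 5) (nat_lit 468) (nat_lit 429) (nat_lit 303)) (XT.lf (nat_lit 0) (nat_lit 8141303871) (nat_lit 228) (nat_lit 33646901122) (nat_lit 304) (nat_lit 9346961098) (nat_lit 156) (nat_lit 5) (nat_lit 159) (nat_lit 5) (nat_lit 160) (nat_lit 5) (nat_lit 469) (nat_lit 429) (nat_lit 302))))) (XT.nd (nat_lit 234) (nat_lit 836) (nat_lit 0) (XT.nd (nat_lit 78) (nat_lit 456) (nat_lit 0) (XT.lf (nat_lit 0) (nat_lit 9469803171) (nat_lit 228) (nat_lit 2450239444) (nat_lit 304) (nat_lit 40812112316) (nat_lit 152) (nat_lit 5) (nat_lit 155) (nat_lit 5) (nat_lit 156) (nat_lit 5) (nat_lit 470) (nat_lit 429) (nat_lit 301)) (XT.nd (nat_lit 78) (nat_lit 228) (nat_lit 0) (XT.lf (nat_lit 0) (nat_lit 10870974287) (nat_lit 228) (nat_lit 24024422102) (nat_lit 304) (nat_lit 19485671338) (nat_lit 149)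 (nat_lit 5) (nat_lit 152) (nat_lit 5) (nat_lit 153) (nat_lit 5) (nat_lit 471) (nat_lit 429) (nat_lit 300)) (XT.lf (nat_lit 0) (nat_lit 3529732804) (nat_lit 228) (nat_lit 43486538341) (nat_lit 76) (nat_lit 9074935717) (nat_lit 146) (nat_lit 5) (nat_lit 149) (nat_lit 5) (nat_lit 147) (nat_lit 5) (nat_lit 472) (nat_lit 429) (nat_lit 299)))) (XT.nd (nat_lit 156) (nat_lit 456) (nat_lit 0) (XT.nd (nat_lit 78) (nat_lit 152) (nat_lit 0) (XT.lf (nat_lit 0) (nat_lit 14387996356) (nat_lit 228) (nat_lit 13735809440) (nat_lit 304) (nat_lit 29732332675) (nat_lit 143) (nat_lit 5) (nat_lit 146) (nat_lit 5) (nat_lit 147) (nat_lit 5) (nat_lit 473) (nat_lit 429) (nat_lit 298)) (XT.lf (nat_lit 0) (nat_lit 16472239682) (nat_lit 152) (nat_lit 38283815962) (nat_lit 228) (nat_lit 4929006920) (nat_lit 141) (nat_lit 5) (nat_lit 143) (nat_lit 5) (nat_lit 144) (nat_lit 5) (nat_lit 474) (nat_lit 429) (nat_lit 297))) (XT.nd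 (nat_lit 78) (nat_lit 152) (nat_lit 0) (XT.lf (nat_lit 0) (nat_lit 18735726561) (nat_lit 228) (nat_lit 2731675085) (nat_lit 304) (nat_lit 40108994263) (nat_lit 137) (nat_lit 5) (nat_lit 140) (nat_lit 5) (nat_lit 141) (nat_lit 5) (nat_lit 475) (nat_lit 429) (nat_lit 296)) (XT.lf (nat_lit 0) (nat_lit 21152122234) (nat_lit 152) (nat_lit 28910106197) (nat_lit 228) (nat_lit 13469187401) (nat_lit 135) (nat_lit 5) (nat_lit 137) (nat_lit 5) (nat_lit 138) (nat_lit 5) (nat_lit 476) (nat_lit 429) (nat_lit 295)))))) (XT.nd (nat_lit 468) (nat_lit 1216) (nat_lit 0) (XT.nd (nat_lit 234) (nat_lit 532) (nat_lit 0) (XT.nd (nat_lit 78) (nat_lit 380) (nat_lit 0) (XT.lf (nat_lit 0) (nat_lit 15004273463) (nat_lit 304) (nat_lit 41690502937) (nat_lit 76) (nat_lit 8861688340) (nat_lit 131) (nat_lit 5) (nat_lit 135) (nat_lit 5) (nat_lit 132) (nat_lit 5) (nat_lit 477) (nat_lit 429) (nat_lit 294)) (XT.nd (nat_lit 78) (nat_lit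 228) (nat_lit 0) (XT.lf (nat_lit 0) (nat_lit 26719379563) (nat_lit 152) (nat_lit 18889965744) (nat_lit 228) (nat_lit 22039825074) (nat_lit 129) (nat_lit 5) (nat_lit 131) (nat_lit 5) (nat_lit 132) (nat_lit 5) (nat_lit 478) (nat_lit 429) (nat_lit 293)) (XT.lf (nat_lit 0) (nat_lit 8669318560) (nat_lit 228) (nat_lit 39945532418) (nat_lit 76) (nat_lit 21201624319) (nat_lit 126) (nat_lit 5) (nat_lit 129) (nat_lit 5) (nat_lit 127) (nat_lit 5) (nat_lit 479) (nat_lit 429) (nat_lit 292)))) (XT.nd (nat_lit 78) (nat_lit 380) (nat_lit 0) (XT.lf (nat_lit 0) (nat_lit 33209228308) (nat_lit 152) (nat_lit 8183440648) (nat_lit 228) (nat_lit 30664893080) (nat_lit 124) (nat_lit 5) (nat_lit 126) (nat_lit 5) (nat_lit 127) (nat_lit 5) (nat_lit 480) (nat_lit 429) (nat_lit 291)) (XT.nd (nat_lit 78) (nat_lit 152) (nat_lit 0) (XT.lf (nat_lit 0) (nat_lit 2419960613) (nat_lit 228) (nat_lit 37567115360) (nat_lit 76) (nat_lit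 34390100727) (nat_lit 121) (nat_lit 5) (nat_lit 124) (nat_lit 5) (nat_lit 122) (nat_lit 5) (nat_lit 481) (nat_lit 429) (nat_lit 290)) (XT.lf (nat_lit 0) (nat_lit 37434360083) (nat_lit 228) (nat_lit 36157667795) (nat_lit 76) (nat_lit 3184350891) (nat_lit 119) (nat_lit 5) (nat_lit 122) (nat_lit 5) (nat_lit 120) (nat_lit 5) (nat_lit 482) (nat_lit 429) (nat_lit 289))))) (XT.nd (nat_lit 234) (nat_lit 684) (nat_lit 0) (XT.nd (nat_lit 78) (nat_lit 380) (nat_lit 0) (XT.lf (nat_lit 0) (nat_lit 44670603270) (nat_lit 152) (nat_lit 30747696862) (nat_lit 228) (nat_lit 3840676250) (nat_lit 117) (nat_lit 5) (nat_lit 119) (nat_lit 5) (nat_lit 120) (nat_lit 5) (nat_lit 483) (nat_lit 429) (nat_lit 288)) (XT.nd (nat_lit 78) (nat_lit 152) (nat_lit 0) (XT.lf (nat_lit 0) (nat_lit 33774603853) (nat_lit 228) (nat_lit 32913925511) (nat_lit 76) (nat_lit 15137792759) (nat_lit 114) (nat_lit 5) (nat_lit 117) (nat_lit 5) (nat_lit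 115) (nat_lit 5) (nat_lit 484) (nat_lit 429) (nat_lit 287)) (XT.lf (nat_lit 0) (nat_lit 53482357930) (nat_lit 152) (nat_lit 20889105253) (nat_lit 228) (nat_lit 10114023834) (nat_lit 112) (nat_lit 5) (nat_lit 114) (nat_lit 5) (nat_lit 115) (nat_lit 5) (nat_lit 485) (nat_lit 429) (nat_lit 286)))) (XT.nd (nat_lit 156) (nat_lit 304) (nat_lit 0) (XT.nd (nat_lit 78) (nat_lit 152) (nat_lit 0) (XT.lf (nat_lit 0) (nat_lit 30313533527) (nat_lit 228) (nat_lit 29052816963) (nat_lit 76) (nat_lit 27867500951) (nat_lit 109) (nat_lit 5) (nat_lit 112) (nat_lit 5) (nat_lit 110) (nat_lit 5) (nat_lit 486) (nat_lit 429) (nat_lit 285)) (XT.lf (nat_lit 0) (nat_lit 63272819998) (nat_lit 152) (nat_lit 10419456739) (nat_lit 228) (nat_lit 16390183782) (nat_lit 107) (nat_lit 5) (nat_lit 109) (nat_lit 5) (nat_lit 110) (nat_lit 5) (nat_lit 487) (nat_lit 429) (nat_lit 284))) (XT.nd (nat_lit 78) (nat_lit 152) (nat_lit 0) (XT.lf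 (nat_lit 0) (nat_lit 27021238662) (nat_lit 152) (nat_lit 24604773031) (nat_lit 76) (nat_lit 41398981056) (nat_lit 105) (nat_lit 5) (nat_lit 107) (nat_lit 5) (nat_lit 106) (nat_lit 5) (nat_lit 488) (nat_lit 429) (nat_lit 283)) (XT.lf (nat_lit 0) (nat_lit 73365199479) (nat_lit 228) (nat_lit 22054423131) (nat_lit 76) (nat_lit 657132407) (nat_lit 103) (nat_lit 5) (nat_lit 106) (nat_lit 5) (nat_lit 104) (nat_lit 4) (nat_lit 489) (nat_lit 429) (nat_lit 282))))))) (XT.nd (nat_lit 58344) (nat_lit 0) (nat_lit 12084) (XT.nd (nat_lit 57798) (nat_lit 0) (nat_lit 18088) (XT.nd (nat_lit 234) (nat_lit 608) (nat_lit 0) (XT.nd (nat_lit 78) (nat_lit 304) (nat_lit 0) (XT.lf (nat_lit 0) (nat_lit 23857027886) (nat_lit 152) (nat_lit 19620370565) (nat_lit 76) (nat_lit 55750479243) (nat_lit 101) (nat_lit 5) (nat_lit 103) (nat_lit 5) (nat_lit 102) (nat_lit 5) (nat_lit 490) (nat_lit 429) (nat_lit 281)) (XT.nd (nat_lit 78)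 (nat_lit 152) (nat_lit 0) (XT.lf (nat_lit 0) (nat_lit 73456973126) (nat_lit 228) (nat_lit 16899811328) (nat_lit 76) (nat_lit 12137846804) (nat_lit 99) (nat_lit 5) (nat_lit 102) (nat_lit 5) (nat_lit 100) (nat_lit 4) (nat_lit 491) (nat_lit 429) (nat_lit 280)) (XT.lf (nat_lit 0) (nat_lit 20766952038) (nat_lit 152) (nat_lit 14175232607) (nat_lit 76) (nat_lit 70930758253) (nat_lit 97) (nat_lit 5) (nat_lit 99) (nat_lit 5) (nat_lit 98) (nat_lit 5) (nat_lit 492) (nat_lit 429) (nat_lit 279)))) (XT.nd (nat_lit 78) (nat_lit 456) (nat_lit 0) (XT.lf (nat_lit 0) (nat_lit 73820828937) (nat_lit 228) (nat_lit 11336165236) (nat_lit 76) (nat_lit 24213763545) (nat_lit 95) (nat_lit 5) (nat_lit 98) (nat_lit 5) (nat_lit 96) (nat_lit 4) (nat_lit 493) (nat_lit 429) (nat_lit 278)) (XT.nd (nat_lit 156) (nat_lit 304) (nat_lit 0) (XT.lf (nat_lit 0) (nat_lit 17680850617) (nat_lit 152) (nat_lit 8375886752) (nat_lit 76) (nat_lit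 86936415071) (nat_lit 93) (nat_lit 5) (nat_lit 95) (nat_lit 5) (nat_lit 94) (nat_lit 5) (nat_lit 494) (nat_lit 429) (nat_lit 277)) (XT.lf (nat_lit 0) (nat_lit 14508836015) (nat_lit 152) (nat_lit 2366754646) (nat_lit 76) (nat_lit 103748655962) (nat_lit 89) (nat_lit 5) (nat_lit 91) (nat_lit 5) (nat_lit 90) (nat_lit 5) (nat_lit 496) (nat_lit 429) (nat_lit 275))))) (XT.nd (nat_lit 234) (nat_lit 0) (nat_lit 152) (XT.nd (nat_lit 78) (nat_lit 0) (nat_lit 76) (XT.lf (nat_lit 0) (nat_lit 2753817416) (nat_lit 1292) (nat_lit 3045356637) (nat_lit 1292) (nat_lit 3045356637) (nat_lit 327) (nat_lit 3) (nat_lit 344) (nat_lit 3) (nat_lit 344) (nat_lit 5) (nat_lit 430) (nat_lit 430) (nat_lit 340)) (XT.nd (nat_lit 78) (nat_lit 0) (nat_lit 0) (XT.lf (nat_lit 0) (nat_lit 6103645674) (nat_lit 1216) (nat_lit 9384218777) (nat_lit 1292) (nat_lit 2629657789) (nat_lit 328) (nat_lit 5) (nat_lit 344) (nat_lit 5) (nat_lit 345)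 (nat_lit 5) (nat_lit 431) (nat_lit 430) (nat_lit 339)) (XT.lf (nat_lit 76) (nat_lit 5844139782) (nat_lit 0) (nat_lit 1099571484) (nat_lit 1292) (nat_lit 11617268279) (nat_lit 329) (nat_lit 5) (nat_lit 328) (nat_lit 5) (nat_lit 345) (nat_lit 5) (nat_lit 432) (nat_lit 430) (nat_lit 338)))) (XT.nd (nat_lit 156) (nat_lit 0) (nat_lit 152) (XT.nd (nat_lit 78) (nat_lit 0) (nat_lit 76) (XT.lf (nat_lit 76) (nat_lit 2914711324) (nat_lit 0) (nat_lit 5150027206) (nat_lit 1292) (nat_lit 10954703414) (nat_lit 330) (nat_lit 5) (nat_lit 329) (nat_lit 5) (nat_lit 346) (nat_lit 5) (nat_lit 433) (nat_lit 430) (nat_lit 337)) (XT.lf (nat_lit 0) (nat_lit 9461445597) (nat_lit 1216) (nat_lit 25520477) (nat_lit 1292) (nat_lit 10007273468) (nat_lit 330) (nat_lit 5) (nat_lit 346) (nat_lit 5) (nat_lit 347) (nat_lit 5) (nat_lit 434) (nat_lit 430) (nat_lit 336))) (XT.nd (nat_lit 78) (nat_lit 0) (nat_lit 76) (XT.lf (nat_lit 0)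 (nat_lit 11182964923) (nat_lit 1216) (nat_lit 2917222323) (nat_lit 1292) (nat_lit 5884941357) (nat_lit 331) (nat_lit 5) (nat_lit 347) (nat_lit 5) (nat_lit 348) (nat_lit 5) (nat_lit 435) (nat_lit 430) (nat_lit 335)) (XT.lf (nat_lit 0) (nat_lit 13223628815) (nat_lit 1216) (nat_lit 5814120418) (nat_lit 1292) (nat_lit 1455821673) (nat_lit 332) (nat_lit 5) (nat_lit 348) (nat_lit 5) (nat_lit 349) (nat_lit 5) (nat_lit 436) (nat_lit 430) (nat_lit 334)))))) (XT.nd (nat_lit 546) (nat_lit 3876) (nat_lit 0) (XT.nd (nat_lit 234) (nat_lit 2508) (nat_lit 0) (XT.nd (nat_lit 78) (nat_lit 0) (nat_lit 76) (XT.lf (nat_lit 76) (nat_lit 12274258343) (nat_lit 0) (nat_lit 3365037202) (nat_lit 1292) (nat_lit 5379951493) (nat_lit 333) (nat_lit 5) (nat_lit 332) (nat_lit 5) (nat_lit 349) (nat_lit 5) (nat_lit 437) (nat_lit 430) (nat_lit 333)) (XT.nd (nat_lit 78) (nat_lit 0) (nat_lit 76) (XT.lf (nat_lit 76) (nat_lit 9872145990)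 (nat_lit 0) (nat_lit 8567880701) (nat_lit 1292) (nat_lit 3123252624) (nat_lit 334) (nat_lit 5) (nat_lit 333) (nat_lit 5) (nat_lit 350) (nat_lit 5) (nat_lit 438) (nat_lit 430) (nat_lit 332)) (XT.lf (nat_lit 76) (nat_lit 7492790485) (nat_lit 0) (nat_lit 14145009064) (nat_lit 1292) (nat_lit 489004233) (nat_lit 335) (nat_lit 5) (nat_lit 334) (nat_lit 5) (nat_lit 351) (nat_lit 5) (nat_lit 439) (nat_lit 430) (nat_lit 331)))) (XT.nd (nat_lit 156) (nat_lit 608) (nat_lit 0) (XT.nd (nat_lit 78) (nat_lit 836) (nat_lit 0) (XT.lf (nat_lit 0) (nat_lit 2499936555) (nat_lit 1292) (nat_lit 17593397545) (nat_lit 76) (nat_lit 2616492075) (nat_lit 318) (nat_lit 5) (nat_lit 335) (nat_lit 5) (nat_lit 319) (nat_lit 5) (nat_lit 440) (nat_lit 430) (nat_lit 330)) (XT.lf (nat_lit 0) (nat_lit 2733495613) (nat_lit 836) (nat_lit 3200938947) (nat_lit 912) (nat_lit 17378233818) (nat_lit 307) (nat_lit 5) (nat_lit 318) (nat_lit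 5) (nat_lit 319) (nat_lit 5) (nat_lit 441) (nat_lit 430) (nat_lit 329))) (XT.nd (nat_lit 78) (nat_lit 0) (nat_lit 0) (XT.lf (nat_lit 0) (nat_lit 356157317) (nat_lit 608) (nat_lit 9496109841) (nat_lit 684) (nat_lit 14084037855) (nat_lit 299) (nat_lit 5) (nat_lit 307) (nat_lit 5) (nat_lit 308) (nat_lit 5) (nat_lit 442) (nat_lit 430) (nat_lit 328)) (XT.lf (nat_lit 0) (nat_lit 14277904662) (nat_lit 684) (nat_lit 1943887729) (nat_lit 76) (nat_lit 8359974274) (nat_lit 299) (nat_lit 5) (nat_lit 308) (nat_lit 5) (nat_lit 300) (nat_lit 5) (nat_lit 443) (nat_lit 430) (nat_lit 327))))) (XT.nd (nat_lit 234) (nat_lit 2052) (nat_lit 0) (XT.nd (nat_lit 78) (nat_lit 1216) (nat_lit 0) (XT.lf (nat_lit 0) (nat_lit 19228003670) (nat_lit 684) (nat_lit 4192098682) (nat_lit 76) (nat_lit 1830304216) (nat_lit 291) (nat_lit 5) (nat_lit 300) (nat_lit 5) (nat_lit 292) (nat_lit 5) (nat_lit 444) (nat_lit 430) (nat_lit 326))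 (XT.nd (nat_lit 78) (nat_lit 684) (nat_lit 0) (XT.lf (nat_lit 0) (nat_lit 19503156331) (nat_lit 532) (nat_lit 5281164443) (nat_lit 608) (nat_lit 1157396827) (nat_lit 284) (nat_lit 5) (nat_lit 291) (nat_lit 5) (nat_lit 292) (nat_lit 5) (nat_lit 445) (nat_lit 430) (nat_lit 325)) (XT.lf (nat_lit 0) (nat_lit 4213900780) (nat_lit 684) (nat_lit 8688466710) (nat_lit 76) (nat_lit 13753883743) (nat_lit 275) (nat_lit 5) (nat_lit 284) (nat_lit 5) (nat_lit 276) (nat_lit 5) (nat_lit 446) (nat_lit 430) (nat_lit 324)))) (XT.nd (nat_lit 156) (nat_lit 988) (nat_lit 0) (XT.nd (nat_lit 78) (nat_lit 532) (nat_lit 0) (XT.lf (nat_lit 0) (nat_lit 10159899897) (nat_lit 608) (nat_lit 10890897383) (nat_lit 76) (nat_lit 6345468748) (nat_lit 268) (nat_lit 5) (nat_lit 276) (nat_lit 5) (nat_lit 269) (nat_lit 5) (nat_lit 447) (nat_lit 430) (nat_lit 323)) (XT.lf (nat_lit 0) (nat_lit 15121132930) (nat_lit 532) (nat_lit 1636535022)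 (nat_lit 608) (nat_lit 11404979988) (nat_lit 261) (nat_lit 5) (nat_lit 268) (nat_lit 5) (nat_lit 269) (nat_lit 5) (nat_lit 448) (nat_lit 430) (nat_lit 322))) (XT.nd (nat_lit 78) (nat_lit 532) (nat_lit 0) (XT.lf (nat_lit 0) (nat_lit 13772141512) (nat_lit 456) (nat_lit 10327989471) (nat_lit 532) (nat_lit 4854774190) (nat_lit 255) (nat_lit 5) (nat_lit 261) (nat_lit 5) (nat_lit 262) (nat_lit 5) (nat_lit 449) (nat_lit 430) (nat_lit 321)) (XT.lf (nat_lit 0) (nat_lit 2345732398) (nat_lit 532) (nat_lit 17265365856) (nat_lit 76) (nat_lit 10164226070) (nat_lit 248) (nat_lit 5) (nat_lit 255) (nat_lit 5) (nat_lit 249) (nat_lit 5) (nat_lit 450) (nat_lit 430) (nat_lit 320))))))))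
noncomputable def xc94 : XT := (XT.nd (nat_lit 2028) (nat_lit 3496) (nat_lit 0) (XT.nd (nat_lit 1014) (nat_lit 3344) (nat_lit 0) (XT.nd (nat_lit 468) (nat_lit 2508) (nat_lit 0) (XT.nd (nat_lit 234) (nat_lit 1292) (nat_lit 0) (XT.nd (nat_lit 78) (nat_lit 836) (nat_lit 0) (XT.lf (nat_lit 0) (nat_lit 10178547329) (nat_lit 532) (nat_lit 19309298236) (nat_lit 76) (nat_lit 1136296614) (nat_lit 242) (nat_lit 5) (nat_lit 249) (nat_lit 5) (nat_lit 243) (nat_lit 5) (nat_lit 451) (nat_lit 430) (nat_lit 319)) (XT.nd (nat_lit 78) (nat_lit 380) (nat_lit 0) (XT.lf (nat_lit 0) (nat_lit 10161022027) (nat_lit 456) (nat_lit 8707097052) (nat_lit 532) (nat_lit 12633328718) (nat_lit 236) (nat_lit 5) (nat_lit 242) (nat_lit 5) (nat_lit 243) (nat_lit 5) (nat_lit 452) (nat_lit 430) (nat_lit 318)) (XT.lf (nat_lit 0) (nat_lit 9129586223) (nat_lit 380) (nat_lit 19267478537) (nat_lit 456) (nat_lit 4013407415) (nat_lit 231) (nat_lit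 5) (nat_lit 236) (nat_lit 5) (nat_lit 237) (nat_lit 5) (nat_lit 453) (nat_lit 430) (nat_lit 317)))) (XT.nd (nat_lit 78) (nat_lit 760) (nat_lit 0) (XT.lf (nat_lit 0) (nat_lit 5346466290) (nat_lit 532) (nat_lit 25159481650) (nat_lit 76) (nat_lit 2845329747) (nat_lit 224) (nat_lit 5) (nat_lit 231) (nat_lit 5) (nat_lit 225) (nat_lit 5) (nat_lit 454) (nat_lit 430) (nat_lit 316)) (XT.nd (nat_lit 78) (nat_lit 380) (nat_lit 0) (XT.lf (nat_lit 0) (nat_lit 7285498661) (nat_lit 380) (nat_lit 8304046408) (nat_lit 456) (nat_lit 18733440157) (nat_lit 219) (nat_lit 5) (nat_lit 224) (nat_lit 5) (nat_lit 225) (nat_lit 5) (nat_lit 455) (nat_lit 430) (nat_lit 315)) (XT.lf (nat_lit 0) (nat_lit 6511320902) (nat_lit 380) (nat_lit 20293075597) (nat_lit 456) (nat_lit 8525093365) (nat_lit 214) (nat_lit 5) (nat_lit 219) (nat_lit 5) (nat_lit 220) (nat_lit 5) (nat_lit 456) (nat_lit 430) (nat_lit 314))))) (XT.nd (nat_lit 234)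 (nat_lit 1368) (nat_lit 0) (XT.nd (nat_lit 78) (nat_lit 684) (nat_lit 0) (XT.lf (nat_lit 0) (nat_lit 2596369082) (nat_lit 456) (nat_lit 30484793203) (nat_lit 76) (nat_lit 3291159962) (nat_lit 208) (nat_lit 5) (nat_lit 214) (nat_lit 5) (nat_lit 209) (nat_lit 5) (nat_lit 457) (nat_lit 430) (nat_lit 313)) (XT.nd (nat_lit 78) (nat_lit 304) (nat_lit 0) (XT.lf (nat_lit 0) (nat_lit 5269756126) (nat_lit 380) (nat_lit 9376245252) (nat_lit 456) (nat_lit 22802310653) (nat_lit 203) (nat_lit 5) (nat_lit 208) (nat_lit 5) (nat_lit 209) (nat_lit 5) (nat_lit 458) (nat_lit 430) (nat_lit 312)) (XT.lf (nat_lit 0) (nat_lit 4810546086) (nat_lit 304) (nat_lit 22991813267) (nat_lit 380) (nat_lit 10760614868) (nat_lit 199) (nat_lit 5) (nat_lit 203) (nat_lit 5) (nat_lit 204) (nat_lit 5) (nat_lit 459) (nat_lit 430) (nat_lit 311)))) (XT.nd (nat_lit 156) (nat_lit 684) (nat_lit 0) (XT.nd (nat_lit 78) (nat_lit 304) (nat_lit 0)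 (XT.lf (nat_lit 0) (nat_lit 2333177556) (nat_lit 380) (nat_lit 35180720765) (nat_lit 76) (nat_lit 2204325579) (nat_lit 194) (nat_lit 5) (nat_lit 199) (nat_lit 5) (nat_lit 195) (nat_lit 5) (nat_lit 460) (nat_lit 430) (nat_lit 310)) (XT.lf (nat_lit 0) (nat_lit 4254172020) (nat_lit 304) (nat_lit 12223243761) (nat_lit 380) (nat_lit 24432075202) (nat_lit 190) (nat_lit 5) (nat_lit 194) (nat_lit 5) (nat_lit 195) (nat_lit 5) (nat_lit 461) (nat_lit 430) (nat_lit 309))) (XT.nd (nat_lit 78) (nat_lit 380) (nat_lit 0) (XT.lf (nat_lit 0) (nat_lit 4175611924) (nat_lit 304) (nat_lit 27689510901) (nat_lit 380) (nat_lit 10279111087) (nat_lit 186) (nat_lit 5) (nat_lit 190) (nat_lit 5) (nat_lit 191) (nat_lit 5) (nat_lit 462) (nat_lit 430) (nat_lit 308)) (XT.lf (nat_lit 0) (nat_lit 4286307072) (nat_lit 304) (nat_lit 744226161) (nat_lit 380) (nat_lit 38392706726) (nat_lit 181) (nat_lit 5) (nat_lit 185) (nat_lit 5) (nat_lit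 186) (nat_lit 5) (nat_lit 463) (nat_lit 430) (nat_lit 307)))))) (XT.nd (nat_lit 468) (nat_lit 1672) (nat_lit 0) (XT.nd (nat_lit 234) (nat_lit 760) (nat_lit 0) (XT.nd (nat_lit 78) (nat_lit 608) (nat_lit 0) (XT.lf (nat_lit 0) (nat_lit 4395553954) (nat_lit 304) (nat_lit 17194277680) (nat_lit 380) (nat_lit 23152408860) (nat_lit 177) (nat_lit 5) (nat_lit 181) (nat_lit 5) (nat_lit 182) (nat_lit 5) (nat_lit 464) (nat_lit 430) (nat_lit 306)) (XT.nd (nat_lit 78) (nat_lit 380) (nat_lit 0) (XT.lf (nat_lit 0) (nat_lit 4771679825) (nat_lit 228) (nat_lit 34765604682) (nat_lit 304) (nat_lit 6573101027) (nat_lit 174) (nat_lit 5) (nat_lit 177) (nat_lit 5) (nat_lit 178) (nat_lit 5) (nat_lit 465) (nat_lit 430) (nat_lit 305)) (XT.lf (nat_lit 0) (nat_lit 5265120624) (nat_lit 304) (nat_lit 5995575783) (nat_lit 380) (nat_lit 36264008224) (nat_lit 169) (nat_lit 5) (nat_lit 173) (nat_lit 5) (nat_lit 174) (nat_lit 5) (nat_lit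 466) (nat_lit 430) (nat_lit 304)))) (XT.nd (nat_lit 78) (nat_lit 532) (nat_lit 0) (XT.lf (nat_lit 0) (nat_lit 5866919345) (nat_lit 228) (nat_lit 24697028968) (nat_lit 304) (nat_lit 18422427916) (nat_lit 166) (nat_lit 5) (nat_lit 169) (nat_lit 5) (nat_lit 170) (nat_lit 5) (nat_lit 467) (nat_lit 430) (nat_lit 303)) (XT.nd (nat_lit 78) (nat_lit 228) (nat_lit 0) (XT.lf (nat_lit 0) (nat_lit 921694726) (nat_lit 304) (nat_lit 43731489801) (nat_lit 76) (nat_lit 5849361168) (nat_lit 162) (nat_lit 5) (nat_lit 166) (nat_lit 5) (nat_lit 163) (nat_lit 5) (nat_lit 468) (nat_lit 430) (nat_lit 302)) (XT.lf (nat_lit 0) (nat_lit 7676166954) (nat_lit 228) (nat_lit 13944584845) (nat_lit 304) (nat_lit 30445237985) (nat_lit 159) (nat_lit 5) (nat_lit 162) (nat_lit 5) (nat_lit 163) (nat_lit 5) (nat_lit 469) (nat_lit 430) (nat_lit 301))))) (XT.nd (nat_lit 234) (nat_lit 912) (nat_lit 0) (XT.nd (nat_lit 78) (nat_lit 532)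 (nat_lit 0) (XT.lf (nat_lit 0) (nat_lit 8856600575) (nat_lit 228) (nat_lit 35207857329) (nat_lit 304) (nat_lit 9621857413) (nat_lit 156) (nat_lit 5) (nat_lit 159) (nat_lit 5) (nat_lit 160) (nat_lit 5) (nat_lit 470) (nat_lit 430) (nat_lit 300)) (XT.nd (nat_lit 78) (nat_lit 228) (nat_lit 0) (XT.lf (nat_lit 0) (nat_lit 10246340807) (nat_lit 228) (nat_lit 2452327791) (nat_lit 304) (nat_lit 42664611852) (nat_lit 152) (nat_lit 5) (nat_lit 155) (nat_lit 5) (nat_lit 156) (nat_lit 5) (nat_lit 471) (nat_lit 430) (nat_lit 299)) (XT.lf (nat_lit 0) (nat_lit 11713084360) (nat_lit 228) (nat_lit 25104981743) (nat_lit 304) (nat_lit 20276714667) (nat_lit 149) (nat_lit 5) (nat_lit 152) (nat_lit 5) (nat_lit 153) (nat_lit 5) (nat_lit 472) (nat_lit 430) (nat_lit 298)))) (XT.nd (nat_lit 156) (nat_lit 456) (nat_lit 0) (XT.nd (nat_lit 78) (nat_lit 228) (nat_lit 0) (XT.lf (nat_lit 0) (nat_lit 3881298835) (nat_lit 228) (nat_lit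 45363313946) (nat_lit 76) (nat_lit 9645898950) (nat_lit 146) (nat_lit 5) (nat_lit 149) (nat_lit 5) (nat_lit 147) (nat_lit 5) (nat_lit 473) (nat_lit 430) (nat_lit 297)) (XT.lf (nat_lit 0) (nat_lit 15396418238) (nat_lit 228) (nat_lit 14303098382) (nat_lit 304) (nat_lit 31044340213) (nat_lit 143) (nat_lit 5) (nat_lit 146) (nat_lit 5) (nat_lit 147) (nat_lit 5) (nat_lit 474) (nat_lit 430) (nat_lit 296))) (XT.nd (nat_lit 78) (nat_lit 304) (nat_lit 0) (XT.lf (nat_lit 0) (nat_lit 17580415876) (nat_lit 152) (nat_lit 40078720103) (nat_lit 228) (nat_lit 5005218581) (nat_lit 141) (nat_lit 5) (nat_lit 143) (nat_lit 5) (nat_lit 144) (nat_lit 5) (nat_lit 475) (nat_lit 430) (nat_lit 295)) (XT.lf (nat_lit 0) (nat_lit 19952149515) (nat_lit 228) (nat_lit 2750278552) (nat_lit 304) (nat_lit 41947935353) (nat_lit 137) (nat_lit 5) (nat_lit 140) (nat_lit 5) (nat_lit 141) (nat_lit 5) (nat_lit 476) (nat_lit 430) (nat_lit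 294))))))) (XT.nd (nat_lit 1014) (nat_lit 1064) (nat_lit 0) (XT.nd (nat_lit 468) (nat_lit 1216) (nat_lit 0) (XT.nd (nat_lit 234) (nat_lit 608) (nat_lit 0) (XT.nd (nat_lit 78) (nat_lit 456) (nat_lit 0) (XT.lf (nat_lit 0) (nat_lit 22484960848) (nat_lit 152) (nat_lit 30238063219) (nat_lit 228) (nat_lit 13980229559) (nat_lit 135) (nat_lit 5) (nat_lit 137) (nat_lit 5) (nat_lit 138) (nat_lit 5) (nat_lit 477) (nat_lit 430) (nat_lit 293)) (XT.nd (nat_lit 78) (nat_lit 152) (nat_lit 0) (XT.lf (nat_lit 0) (nat_lit 15909867850) (nat_lit 304) (nat_lit 43501090630) (nat_lit 76) (nat_lit 9418665791) (nat_lit 131) (nat_lit 5) (nat_lit 135) (nat_lit 5) (nat_lit 132) (nat_lit 5) (nat_lit 478) (nat_lit 430) (nat_lit 292)) (XT.lf (nat_lit 0) (nat_lit 28321433633) (nat_lit 152) (nat_lit 19718918343) (nat_lit 228) (nat_lit 22986758565) (nat_lit 129) (nat_lit 5) (nat_lit 131) (nat_lit 5) (nat_lit 132) (nat_lit 5) (nat_lit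 479) (nat_lit 430) (nat_lit 291)))) (XT.nd (nat_lit 78) (nat_lit 380) (nat_lit 0) (XT.lf (nat_lit 0) (nat_lit 9251186359) (nat_lit 228) (nat_lit 41678085741) (nat_lit 76) (nat_lit 22373572894) (nat_lit 126) (nat_lit 5) (nat_lit 129) (nat_lit 5) (nat_lit 127) (nat_lit 5) (nat_lit 480) (nat_lit 430) (nat_lit 290)) (XT.nd (nat_lit 78) (nat_lit 228) (nat_lit 0) (XT.lf (nat_lit 0) (nat_lit 35126824781) (nat_lit 152) (nat_lit 8479284477) (nat_lit 228) (nat_lit 32050014758) (nat_lit 124) (nat_lit 5) (nat_lit 126) (nat_lit 5) (nat_lit 127) (nat_lit 5) (nat_lit 481) (nat_lit 430) (nat_lit 289)) (XT.lf (nat_lit 0) (nat_lit 2682778234) (nat_lit 228) (nat_lit 39189748287) (nat_lit 76) (nat_lit 36219252655) (nat_lit 121) (nat_lit 5) (nat_lit 124) (nat_lit 5) (nat_lit 122) (nat_lit 5) (nat_lit 482) (nat_lit 430) (nat_lit 288))))) (XT.nd (nat_lit 234) (nat_lit 684) (nat_lit 0) (XT.nd (nat_lit 78) (nat_lit 380)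 (nat_lit 0) (XT.lf (nat_lit 0) (nat_lit 39444598475) (nat_lit 228) (nat_lit 37714099692) (nat_lit 76) (nat_lit 3452342243) (nat_lit 119) (nat_lit 5) (nat_lit 122) (nat_lit 5) (nat_lit 120) (nat_lit 5) (nat_lit 483) (nat_lit 430) (nat_lit 287)) (XT.nd (nat_lit 78) (nat_lit 228) (nat_lit 0) (XT.lf (nat_lit 0) (nat_lit 47148377120) (nat_lit 152) (nat_lit 32175110017) (nat_lit 228) (nat_lit 3894408298) (nat_lit 117) (nat_lit 5) (nat_lit 119) (nat_lit 5) (nat_lit 120) (nat_lit 5) (nat_lit 484) (nat_lit 430) (nat_lit 286)) (XT.lf (nat_lit 0) (nat_lit 35595827634) (nat_lit 228) (nat_lit 34316853487) (nat_lit 76) (nat_lit 16000980815) (nat_lit 114) (nat_lit 5) (nat_lit 117) (nat_lit 5) (nat_lit 115) (nat_lit 5) (nat_lit 485) (nat_lit 430) (nat_lit 285)))) (XT.nd (nat_lit 156) (nat_lit 304) (nat_lit 0) (XT.nd (nat_lit 78) (nat_lit 228) (nat_lit 0) (XT.lf (nat_lit 0) (nat_lit 56392285222) (nat_lit 152) (nat_lit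 21826202235) (nat_lit 228) (nat_lit 10487418964) (nat_lit 112) (nat_lit 5) (nat_lit 114) (nat_lit 5) (nat_lit 115) (nat_lit 5) (nat_lit 486) (nat_lit 430) (nat_lit 284)) (XT.lf (nat_lit 0) (nat_lit 31955999920) (nat_lit 228) (nat_lit 30271141137) (nat_lit 76) (nat_lit 29364597956) (nat_lit 109) (nat_lit 5) (nat_lit 112) (nat_lit 5) (nat_lit 110) (nat_lit 5) (nat_lit 487) (nat_lit 430) (nat_lit 283))) (XT.nd (nat_lit 78) (nat_lit 152) (nat_lit 0) (XT.lf (nat_lit 0) (nat_lit 66664061031) (nat_lit 152) (nat_lit 10835769484) (nat_lit 228) (nat_lit 17083063585) (nat_lit 107) (nat_lit 5) (nat_lit 109) (nat_lit 5) (nat_lit 110) (nat_lit 5) (nat_lit 488) (nat_lit 430) (nat_lit 282)) (XT.lf (nat_lit 0) (nat_lit 28493685778) (nat_lit 152) (nat_lit 25608912335) (nat_lit 76) (nat_lit 43570001566) (nat_lit 105) (nat_lit 5) (nat_lit 107) (nat_lit 5) (nat_lit 106) (nat_lit 5) (nat_lit 489) (nat_lit 430) (nat_lit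 281)))))) (XT.nd (nat_lit 57954) (nat_lit 0) (nat_lit 18012) (XT.nd (nat_lit 234) (nat_lit 608) (nat_lit 0) (XT.nd (nat_lit 78) (nat_lit 304) (nat_lit 0) (XT.lf (nat_lit 0) (nat_lit 77152155041) (nat_lit 228) (nat_lit 22934972999) (nat_lit 76) (nat_lit 789902763) (nat_lit 103) (nat_lit 5) (nat_lit 106) (nat_lit 5) (nat_lit 104) (nat_lit 4) (nat_lit 490) (nat_lit 430) (nat_lit 280)) (XT.nd (nat_lit 78) (nat_lit 152) (nat_lit 0) (XT.lf (nat_lit 0) (nat_lit 25166137931) (nat_lit 152) (nat_lit 20383271511) (nat_lit 76) (nat_lit 58636373363) (nat_lit 101) (nat_lit 5) (nat_lit 103) (nat_lit 5) (nat_lit 102) (nat_lit 5) (nat_lit 491) (nat_lit 430) (nat_lit 279)) (XT.lf (nat_lit 0) (nat_lit 77243533555) (nat_lit 228) (nat_lit 17530505538) (nat_lit 76) (nat_lit 12841911408) (nat_lit 99) (nat_lit 5) (nat_lit 102) (nat_lit 5) (nat_lit 100) (nat_lit 4) (nat_lit 492) (nat_lit 430) (nat_lit 278)))) (XT.nd (nat_lit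 234) (nat_lit 304) (nat_lit 0) (XT.nd (nat_lit 78) (nat_lit 152) (nat_lit 0) (XT.lf (nat_lit 0) (nat_lit 21916690426) (nat_lit 152) (nat_lit 14673622855) (nat_lit 76) (nat_lit 74572934145) (nat_lit 97) (nat_lit 5) (nat_lit 99) (nat_lit 5) (nat_lit 98) (nat_lit 5) (nat_lit 493) (nat_lit 430) (nat_lit 277)) (XT.lf (nat_lit 0) (nat_lit 77620846701) (nat_lit 228) (nat_lit 11696315599) (nat_lit 76) (nat_lit 25518863163) (nat_lit 95) (nat_lit 5) (nat_lit 98) (nat_lit 5) (nat_lit 96) (nat_lit 4) (nat_lit 494) (nat_lit 430) (nat_lit 276))) (XT.nd (nat_lit 57408) (nat_lit 0) (nat_lit 17936) (XT.lf (nat_lit 0) (nat_lit 78217465465) (nat_lit 228) (nat_lit 5563423326) (nat_lit 76) (nat_lit 38792394583) (nat_lit 91) (nat_lit 5) (nat_lit 94) (nat_lit 5) (nat_lit 92) (nat_lit 4) (nat_lit 496) (nat_lit 430) (nat_lit 274)) (XT.lf (nat_lit 0) (nat_lit 3234403718) (nat_lit 1292) (nat_lit 3021025409) (nat_lit 1292)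 (nat_lit 3021025409) (nat_lit 327) (nat_lit 3) (nat_lit 344) (nat_lit 3) (nat_lit 344) (nat_lit 5) (nat_lit 431) (nat_lit 431) (nat_lit 338))))) (XT.nd (nat_lit 234) (nat_lit 0) (nat_lit 152) (XT.nd (nat_lit 78) (nat_lit 0) (nat_lit 0) (XT.lf (nat_lit 0) (nat_lit 7062247756) (nat_lit 1216) (nat_lit 9487620655) (nat_lit 1292) (nat_lit 2453897203) (nat_lit 328) (nat_lit 5) (nat_lit 344) (nat_lit 5) (nat_lit 345) (nat_lit 5) (nat_lit 432) (nat_lit 431) (nat_lit 337)) (XT.nd (nat_lit 78) (nat_lit 0) (nat_lit 76) (XT.lf (nat_lit 76) (nat_lit 6491669988) (nat_lit 0) (nat_lit 1424946996) (nat_lit 1292) (nat_lit 11553611226) (nat_lit 329) (nat_lit 5) (nat_lit 328) (nat_lit 5) (nat_lit 345) (nat_lit 5) (nat_lit 433) (nat_lit 431) (nat_lit 336)) (XT.lf (nat_lit 76) (nat_lit 3426370958) (nat_lit 0) (nat_lit 5638570492) (nat_lit 1292) (nat_lit 10887536270) (nat_lit 330) (nat_lit 5) (nat_lit 329) (nat_lit 5)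 (nat_lit 346) (nat_lit 5) (nat_lit 434) (nat_lit 431) (nat_lit 335)))) (XT.nd (nat_lit 156) (nat_lit 0) (nat_lit 152) (XT.nd (nat_lit 78) (nat_lit 0) (nat_lit 76) (XT.lf (nat_lit 76) (nat_lit 347684557) (nat_lit 0) (nat_lit 10156599359) (nat_lit 1292) (nat_lit 9947548583) (nat_lit 331) (nat_lit 5) (nat_lit 330) (nat_lit 5) (nat_lit 347) (nat_lit 5) (nat_lit 435) (nat_lit 431) (nat_lit 334)) (XT.lf (nat_lit 0) (nat_lit 12283212363) (nat_lit 1216) (nat_lit 2687830238) (nat_lit 1292) (nat_lit 5997084658) (nat_lit 331) (nat_lit 5) (nat_lit 347) (nat_lit 5) (nat_lit 348) (nat_lit 5) (nat_lit 436) (nat_lit 431) (nat_lit 333))) (XT.nd (nat_lit 78) (nat_lit 0) (nat_lit 0) (XT.lf (nat_lit 0) (nat_lit 14402162978) (nat_lit 1216) (nat_lit 5723257479) (nat_lit 1292) (nat_lit 1377284793) (nat_lit 332) (nat_lit 5) (nat_lit 348) (nat_lit 5) (nat_lit 349) (nat_lit 5) (nat_lit 437) (nat_lit 431) (nat_lit 332)) (XT.lf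 (nat_lit 76) (nat_lit 13258602622) (nat_lit 0) (nat_lit 3658937315) (nat_lit 1292) (nat_lit 5137758572) (nat_lit 333) (nat_lit 5) (nat_lit 332) (nat_lit 5) (nat_lit 349) (nat_lit 5) (nat_lit 438) (nat_lit 431) (nat_lit 331))))))))
noncomputable def xc95 : XT := (XT.nd (nat_lit 2106) (nat_lit 5776) (nat_lit 0) (XT.nd (nat_lit 1014) (nat_lit 5396) (nat_lit 0) (XT.nd (nat_lit 468) (nat_lit 3876) (nat_lit 0) (XT.nd (nat_lit 234) (nat_lit 1444) (nat_lit 0) (XT.nd (nat_lit 78) (nat_lit 1140) (nat_lit 0) (XT.lf (nat_lit 76) (nat_lit 10741417228) (nat_lit 0) (nat_lit 9095718867) (nat_lit 1292) (nat_lit 2790032521) (nat_lit 334) (nat_lit 5) (nat_lit 333) (nat_lit 5) (nat_lit 350) (nat_lit 5) (nat_lit 439) (nat_lit 431) (nat_lit 330)) (XT.nd (nat_lit 78) (nat_lit 1216) (nat_lit 0) (XT.lf (nat_lit 76) (nat_lit 8247119618) (nat_lit 0) (nat_lit 14927793196) (nat_lit 1292) (nat_lit 44554057) (nat_lit 335) (nat_lit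 5) (nat_lit 334) (nat_lit 5) (nat_lit 351) (nat_lit 5) (nat_lit 440) (nat_lit 431) (nat_lit 329)) (XT.lf (nat_lit 0) (nat_lit 3065808713) (nat_lit 1292) (nat_lit 18081478080) (nat_lit 76) (nat_lit 2684785567) (nat_lit 318) (nat_lit 5) (nat_lit 335) (nat_lit 5) (nat_lit 319) (nat_lit 5) (nat_lit 441) (nat_lit 431) (nat_lit 328)))) (XT.nd (nat_lit 78) (nat_lit 608) (nat_lit 0) (XT.lf (nat_lit 0) (nat_lit 3250534907) (nat_lit 836) (nat_lit 3404158945) (nat_lit 912) (nat_lit 17810883852) (nat_lit 307) (nat_lit 5) (nat_lit 318) (nat_lit 5) (nat_lit 319) (nat_lit 5) (nat_lit 442) (nat_lit 431) (nat_lit 327)) (XT.nd (nat_lit 78) (nat_lit 0) (nat_lit 0) (XT.lf (nat_lit 0) (nat_lit 756189092) (nat_lit 608) (nat_lit 9995339458) (nat_lit 684) (nat_lit 14369375162) (nat_lit 299) (nat_lit 5) (nat_lit 307) (nat_lit 5) (nat_lit 308) (nat_lit 5) (nat_lit 443) (nat_lit 431) (nat_lit 326)) (XT.lf (nat_lit 0) (nat_lit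 15378860138) (nat_lit 684) (nat_lit 1665200934) (nat_lit 76) (nat_lit 8755165824) (nat_lit 299) (nat_lit 5) (nat_lit 308) (nat_lit 5) (nat_lit 300) (nat_lit 5) (nat_lit 444) (nat_lit 431) (nat_lit 325))))) (XT.nd (nat_lit 234) (nat_lit 2052) (nat_lit 0) (XT.nd (nat_lit 78) (nat_lit 1216) (nat_lit 0) (XT.lf (nat_lit 0) (nat_lit 20561474690) (nat_lit 684) (nat_lit 4025349726) (nat_lit 76) (nat_lit 1914924836) (nat_lit 291) (nat_lit 5) (nat_lit 300) (nat_lit 5) (nat_lit 292) (nat_lit 5) (nat_lit 445) (nat_lit 431) (nat_lit 324)) (XT.nd (nat_lit 78) (nat_lit 684) (nat_lit 0) (XT.lf (nat_lit 0) (nat_lit 20843879930) (nat_lit 532) (nat_lit 5537524103) (nat_lit 608) (nat_lit 846648652) (nat_lit 284) (nat_lit 5) (nat_lit 291) (nat_lit 5) (nat_lit 292) (nat_lit 5) (nat_lit 446) (nat_lit 431) (nat_lit 323)) (XT.lf (nat_lit 0) (nat_lit 4772429021) (nat_lit 684) (nat_lit 8750496157) (nat_lit 76) (nat_lit 14455689953)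 (nat_lit 275) (nat_lit 5) (nat_lit 284) (nat_lit 5) (nat_lit 276) (nat_lit 5) (nat_lit 447) (nat_lit 431) (nat_lit 322)))) (XT.nd (nat_lit 156) (nat_lit 988) (nat_lit 0) (XT.nd (nat_lit 78) (nat_lit 532) (nat_lit 0) (XT.lf (nat_lit 0) (nat_lit 11002900951) (nat_lit 608) (nat_lit 11063926817) (nat_lit 76) (nat_lit 6689188364) (nat_lit 268) (nat_lit 5) (nat_lit 276) (nat_lit 5) (nat_lit 269) (nat_lit 5) (nat_lit 448) (nat_lit 431) (nat_lit 321)) (XT.lf (nat_lit 0) (nat_lit 16238055596) (nat_lit 532) (nat_lit 1680018008) (nat_lit 608) (nat_lit 11643018668) (nat_lit 261) (nat_lit 5) (nat_lit 268) (nat_lit 5) (nat_lit 269) (nat_lit 5) (nat_lit 449) (nat_lit 431) (nat_lit 320))) (XT.nd (nat_lit 78) (nat_lit 532) (nat_lit 0) (XT.lf (nat_lit 0) (nat_lit 14820322795) (nat_lit 456) (nat_lit 10795786269) (nat_lit 532) (nat_lit 4777200416) (nat_lit 255) (nat_lit 5) (nat_lit 261) (nat_lit 5) (nat_lit 262) (nat_lit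 5) (nat_lit 450) (nat_lit 431) (nat_lit 319)) (XT.lf (nat_lit 0) (nat_lit 2766049358) (nat_lit 532) (nat_lit 17764705861) (nat_lit 76) (nat_lit 10724233495) (nat_lit 248) (nat_lit 5) (nat_lit 255) (nat_lit 5) (nat_lit 249) (nat_lit 5) (nat_lit 451) (nat_lit 431) (nat_lit 318)))))) (XT.nd (nat_lit 546) (nat_lit 2356) (nat_lit 0) (XT.nd (nat_lit 234) (nat_lit 1748) (nat_lit 0) (XT.nd (nat_lit 78) (nat_lit 836) (nat_lit 0) (XT.lf (nat_lit 0) (nat_lit 10980064199) (nat_lit 532) (nat_lit 19913087599) (nat_lit 76) (nat_lit 1253409407) (nat_lit 242) (nat_lit 5) (nat_lit 249) (nat_lit 5) (nat_lit 243) (nat_lit 5) (nat_lit 452) (nat_lit 431) (nat_lit 317)) (XT.nd (nat_lit 78) (nat_lit 380) (nat_lit 0) (XT.lf (nat_lit 0) (nat_lit 11020381319) (nat_lit 456) (nat_lit 9073177373) (nat_lit 532) (nat_lit 12974490583) (nat_lit 236) (nat_lit 5) (nat_lit 242) (nat_lit 5) (nat_lit 243) (nat_lit 5) (nat_lit 453) (nat_lit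 431) (nat_lit 316)) (XT.lf (nat_lit 0) (nat_lit 9934884820) (nat_lit 380) (nat_lit 20154623927) (nat_lit 456) (nat_lit 3933299884) (nat_lit 231) (nat_lit 5) (nat_lit 236) (nat_lit 5) (nat_lit 237) (nat_lit 5) (nat_lit 454) (nat_lit 431) (nat_lit 315)))) (XT.nd (nat_lit 156) (nat_lit 836) (nat_lit 0) (XT.nd (nat_lit 78) (nat_lit 380) (nat_lit 0) (XT.lf (nat_lit 0) (nat_lit 5880043305) (nat_lit 532) (nat_lit 26066086873) (nat_lit 76) (nat_lit 3064715062) (nat_lit 224) (nat_lit 5) (nat_lit 231) (nat_lit 5) (nat_lit 225) (nat_lit 5) (nat_lit 455) (nat_lit 431) (nat_lit 314)) (XT.lf (nat_lit 0) (nat_lit 7991070536) (nat_lit 380) (nat_lit 8634807495) (nat_lit 456) (nat_lit 19405542481) (nat_lit 219) (nat_lit 5) (nat_lit 224) (nat_lit 5) (nat_lit 225) (nat_lit 5) (nat_lit 456) (nat_lit 431) (nat_lit 313))) (XT.nd (nat_lit 78) (nat_lit 456) (nat_lit 0) (XT.lf (nat_lit 0) (nat_lit 7175105103) (nat_lit 380)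 (nat_lit 21218159913) (nat_lit 456) (nat_lit 8695231972) (nat_lit 214) (nat_lit 5) (nat_lit 219) (nat_lit 5) (nat_lit 220) (nat_lit 5) (nat_lit 457) (nat_lit 431) (nat_lit 312)) (XT.lf (nat_lit 0) (nat_lit 2969427480) (nat_lit 456) (nat_lit 31669244396) (nat_lit 76) (nat_lit 3544961974) (nat_lit 208) (nat_lit 5) (nat_lit 214) (nat_lit 5) (nat_lit 209) (nat_lit 5) (nat_lit 458) (nat_lit 431) (nat_lit 311))))) (XT.nd (nat_lit 234) (nat_lit 1292) (nat_lit 0) (XT.nd (nat_lit 78) (nat_lit 684) (nat_lit 0) (XT.lf (nat_lit 0) (nat_lit 5863292432) (nat_lit 380) (nat_lit 9749838733) (nat_lit 456) (nat_lit 23700544613) (nat_lit 203) (nat_lit 5) (nat_lit 208) (nat_lit 5) (nat_lit 209) (nat_lit 5) (nat_lit 459) (nat_lit 431) (nat_lit 310)) (XT.nd (nat_lit 78) (nat_lit 380) (nat_lit 0) (XT.lf (nat_lit 0) (nat_lit 5377621767) (nat_lit 304) (nat_lit 24042513601) (nat_lit 380) (nat_lit 11064151190) (nat_lit 199)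 (nat_lit 5) (nat_lit 203) (nat_lit 5) (nat_lit 204) (nat_lit 5) (nat_lit 460) (nat_lit 431) (nat_lit 309)) (XT.lf (nat_lit 0) (nat_lit 2672855505) (nat_lit 380) (nat_lit 36612407154) (nat_lit 76) (nat_lit 2412175730) (nat_lit 194) (nat_lit 5) (nat_lit 199) (nat_lit 5) (nat_lit 195) (nat_lit 5) (nat_lit 461) (nat_lit 431) (nat_lit 308)))) (XT.nd (nat_lit 156) (nat_lit 684) (nat_lit 0) (XT.nd (nat_lit 78) (nat_lit 304) (nat_lit 0) (XT.lf (nat_lit 0) (nat_lit 4784846858) (nat_lit 304) (nat_lit 12731895313) (nat_lit 380) (nat_lit 25431753852) (nat_lit 190) (nat_lit 5) (nat_lit 194) (nat_lit 5) (nat_lit 195) (nat_lit 5) (nat_lit 462) (nat_lit 431) (nat_lit 307)) (XT.lf (nat_lit 0) (nat_lit 4698571232) (nat_lit 304) (nat_lit 28968962095) (nat_lit 380) (nat_lit 10577632087) (nat_lit 186) (nat_lit 5) (nat_lit 190) (nat_lit 5) (nat_lit 191) (nat_lit 5) (nat_lit 463) (nat_lit 431) (nat_lit 306))) (XT.nd (nat_lit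 78) (nat_lit 304) (nat_lit 0) (XT.lf (nat_lit 0) (nat_lit 4809883913) (nat_lit 304) (nat_lit 676320839) (nat_lit 380) (nat_lit 40102067715) (nat_lit 181) (nat_lit 5) (nat_lit 185) (nat_lit 5) (nat_lit 186) (nat_lit 5) (nat_lit 464) (nat_lit 431) (nat_lit 305)) (XT.lf (nat_lit 0) (nat_lit 4920700528) (nat_lit 304) (nat_lit 17946944083) (nat_lit 380) (nat_lit 24105753367) (nat_lit 177) (nat_lit 5) (nat_lit 181) (nat_lit 5) (nat_lit 182) (nat_lit 5) (nat_lit 465) (nat_lit 431) (nat_lit 304))))))) (XT.nd (nat_lit 1014) (nat_lit 2584) (nat_lit 0) (XT.nd (nat_lit 468) (nat_lit 1596) (nat_lit 0) (XT.nd (nat_lit 234) (nat_lit 760) (nat_lit 0) (XT.nd (nat_lit 78) (nat_lit 608) (nat_lit 0) (XT.lf (nat_lit 0) (nat_lit 5311663701) (nat_lit 228) (nat_lit 36395239797) (nat_lit 304) (nat_lit 6703214005) (nat_lit 174) (nat_lit 5) (nat_lit 177) (nat_lit 5) (nat_lit 178) (nat_lit 5) (nat_lit 466) (nat_lit 431) (nat_lit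 303)) (XT.nd (nat_lit 78) (nat_lit 228) (nat_lit 0) (XT.lf (nat_lit 0) (nat_lit 5824904588) (nat_lit 304) (nat_lit 6187074954) (nat_lit 380) (nat_lit 37883308557) (nat_lit 169) (nat_lit 5) (nat_lit 173) (nat_lit 5) (nat_lit 174) (nat_lit 5) (nat_lit 467) (nat_lit 431) (nat_lit 302)) (XT.lf (nat_lit 0) (nat_lit 6452772074) (nat_lit 228) (nat_lit 25822460804) (nat_lit 304) (nat_lit 19154965440) (nat_lit 166) (nat_lit 5) (nat_lit 169) (nat_lit 5) (nat_lit 170) (nat_lit 5) (nat_lit 468) (nat_lit 431) (nat_lit 301)))) (XT.nd (nat_lit 78) (nat_lit 456) (nat_lit 0) (XT.lf (nat_lit 0) (nat_lit 1147690186) (nat_lit 304) (nat_lit 45626040299) (nat_lit 76) (nat_lit 6248541374) (nat_lit 162) (nat_lit 5) (nat_lit 166) (nat_lit 5) (nat_lit 163) (nat_lit 5) (nat_lit 469) (nat_lit 431) (nat_lit 300)) (XT.nd (nat_lit 78) (nat_lit 228) (nat_lit 0) (XT.lf (nat_lit 0) (nat_lit 8343628484) (nat_lit 228) (nat_lit 14532231099)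 (nat_lit 304) (nat_lit 31788203967) (nat_lit 159) (nat_lit 5) (nat_lit 162) (nat_lit 5) (nat_lit 163) (nat_lit 5) (nat_lit 470) (nat_lit 431) (nat_lit 299)) (XT.lf (nat_lit 0) (nat_lit 9579005670) (nat_lit 228) (nat_lit 36858146930) (nat_lit 304) (nat_lit 9928390883) (nat_lit 156) (nat_lit 5) (nat_lit 159) (nat_lit 5) (nat_lit 160) (nat_lit 5) (nat_lit 471) (nat_lit 431) (nat_lit 298))))) (XT.nd (nat_lit 234) (nat_lit 836) (nat_lit 0) (XT.nd (nat_lit 78) (nat_lit 456) (nat_lit 0) (XT.lf (nat_lit 0) (nat_lit 11033530842) (nat_lit 228) (nat_lit 2465716403) (nat_lit 304) (nat_lit 44627224684) (nat_lit 152) (nat_lit 5) (nat_lit 155) (nat_lit 5) (nat_lit 156) (nat_lit 5) (nat_lit 472) (nat_lit 431) (nat_lit 297)) (XT.nd (nat_lit 78) (nat_lit 228) (nat_lit 0) (XT.lf (nat_lit 0) (nat_lit 12569542532) (nat_lit 228) (nat_lit 26250787326) (nat_lit 304) (nat_lit 21124346104) (nat_lit 149) (nat_lit 5) (nat_lit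 152) (nat_lit 5) (nat_lit 153) (nat_lit 5) (nat_lit 473) (nat_lit 431) (nat_lit 296)) (XT.lf (nat_lit 0) (nat_lit 4234165944) (nat_lit 228) (nat_lit 47361591832) (nat_lit 76) (nat_lit 10234512670) (nat_lit 146) (nat_lit 5) (nat_lit 149) (nat_lit 5) (nat_lit 147) (nat_lit 5) (nat_lit 474) (nat_lit 431) (nat_lit 295)))) (XT.nd (nat_lit 156) (nat_lit 456) (nat_lit 0) (XT.nd (nat_lit 78) (nat_lit 152) (nat_lit 0) (XT.lf (nat_lit 0) (nat_lit 16428390681) (nat_lit 228) (nat_lit 14909861890) (nat_lit 304) (nat_lit 32438181627) (nat_lit 143) (nat_lit 5) (nat_lit 146) (nat_lit 5) (nat_lit 147) (nat_lit 5) (nat_lit 475) (nat_lit 431) (nat_lit 294)) (XT.lf (nat_lit 0) (nat_lit 18717544797) (nat_lit 152) (nat_lit 41974459594) (nat_lit 228) (nat_lit 5101068004) (nat_lit 141) (nat_lit 5) (nat_lit 143) (nat_lit 5) (nat_lit 144) (nat_lit 5) (nat_lit 476) (nat_lit 431) (nat_lit 293))) (XT.nd (nat_lit 78) (nat_lit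 152) (nat_lit 0) (XT.lf (nat_lit 0) (nat_lit 21203395653) (nat_lit 228) (nat_lit 2780780881) (nat_lit 304) (nat_lit 43894303892) (nat_lit 137) (nat_lit 5) (nat_lit 140) (nat_lit 5) (nat_lit 141) (nat_lit 5) (nat_lit 477) (nat_lit 431) (nat_lit 292)) (XT.lf (nat_lit 0) (nat_lit 23858852884) (nat_lit 152) (nat_lit 31643346618) (nat_lit 228) (nat_lit 14531923838) (nat_lit 135) (nat_lit 5) (nat_lit 137) (nat_lit 5) (nat_lit 138) (nat_lit 5) (nat_lit 478) (nat_lit 431) (nat_lit 291)))))) (XT.nd (nat_lit 546) (nat_lit 1216) (nat_lit 0) (XT.nd (nat_lit 234) (nat_lit 684) (nat_lit 0) (XT.nd (nat_lit 78) (nat_lit 380) (nat_lit 0) (XT.lf (nat_lit 0) (nat_lit 16846296129) (nat_lit 304) (nat_lit 45427675815) (nat_lit 76) (nat_lit 9992903421) (nat_lit 131) (nat_lit 5) (nat_lit 135) (nat_lit 5) (nat_lit 132) (nat_lit 5) (nat_lit 479) (nat_lit 431) (nat_lit 290)) (XT.nd (nat_lit 78) (nat_lit 228) (nat_lit 0) (XT.lf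 (nat_lit 0) (nat_lit 29978852336) (nat_lit 152) (nat_lit 20600060916) (nat_lit 228) (nat_lit 23995454533) (nat_lit 129) (nat_lit 5) (nat_lit 131) (nat_lit 5) (nat_lit 132) (nat_lit 5) (nat_lit 480) (nat_lit 431) (nat_lit 289)) (XT.lf (nat_lit 0) (nat_lit 9848350549) (nat_lit 228) (nat_lit 43521878193) (nat_lit 76) (nat_lit 23593718532) (nat_lit 126) (nat_lit 5) (nat_lit 129) (nat_lit 5) (nat_lit 127) (nat_lit 5) (nat_lit 481) (nat_lit 431) (nat_lit 288)))) (XT.nd (nat_lit 156) (nat_lit 304) (nat_lit 0) (XT.nd (nat_lit 78) (nat_lit 228) (nat_lit 0) (XT.lf (nat_lit 0) (nat_lit 37116395098) (nat_lit 152) (nat_lit 8800456680) (nat_lit 228) (nat_lit 33518163590) (nat_lit 124) (nat_lit 5) (nat_lit 126) (nat_lit 5) (nat_lit 127) (nat_lit 5) (nat_lit 482) (nat_lit 431) (nat_lit 287)) (XT.lf (nat_lit 0) (nat_lit 2945551694) (nat_lit 228) (nat_lit 40917287547) (nat_lit 76) (nat_lit 38129668250) (nat_lit 121)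 (nat_lit 5) (nat_lit 124) (nat_lit 5) (nat_lit 122) (nat_lit 5) (nat_lit 483) (nat_lit 431) (nat_lit 286))) (XT.nd (nat_lit 78) (nat_lit 152) (nat_lit 0) (XT.lf (nat_lit 0) (nat_lit 41542470473) (nat_lit 228) (nat_lit 39371730760) (nat_lit 76) (nat_lit 3723620404) (nat_lit 119) (nat_lit 5) (nat_lit 122) (nat_lit 5) (nat_lit 120) (nat_lit 5) (nat_lit 484) (nat_lit 431) (nat_lit 285)) (XT.lf (nat_lit 0) (nat_lit 49727332200) (nat_lit 152) (nat_lit 33684117955) (nat_lit 228) (nat_lit 3963684935) (nat_lit 117) (nat_lit 5) (nat_lit 119) (nat_lit 5) (nat_lit 120) (nat_lit 5) (nat_lit 485) (nat_lit 431) (nat_lit 284))))) (XT.nd (nat_lit 234) (nat_lit 608) (nat_lit 0) (XT.nd (nat_lit 78) (nat_lit 380) (nat_lit 0) (XT.lf (nat_lit 0) (nat_lit 37495794606) (nat_lit 228) (nat_lit 35812498157) (nat_lit 76) (nat_lit 16897445654) (nat_lit 114) (nat_lit 5) (nat_lit 117) (nat_lit 5) (nat_lit 115) (nat_lit 5) (nat_lit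 486) (nat_lit 431) (nat_lit 283)) (XT.nd (nat_lit 78) (nat_lit 228) (nat_lit 0) (XT.lf (nat_lit 0) (nat_lit 59425785555) (nat_lit 152) (nat_lit 22820135221) (nat_lit 228) (nat_lit 10891784413) (nat_lit 112) (nat_lit 5) (nat_lit 114) (nat_lit 5) (nat_lit 115) (nat_lit 5) (nat_lit 487) (nat_lit 431) (nat_lit 282)) (XT.lf (nat_lit 0) (nat_lit 33668801926) (nat_lit 228) (nat_lit 31572166063) (nat_lit 76) (nat_lit 30926906727) (nat_lit 109) (nat_lit 5) (nat_lit 112) (nat_lit 5) (nat_lit 110) (nat_lit 5) (nat_lit 488) (nat_lit 431) (nat_lit 281)))) (XT.nd (nat_lit 156) (nat_lit 304) (nat_lit 0) (XT.nd (nat_lit 78) (nat_lit 152) (nat_lit 0) (XT.lf (nat_lit 0) (nat_lit 70203704022) (nat_lit 152) (nat_lit 11282628170) (nat_lit 228) (nat_lit 17822360178) (nat_lit 107) (nat_lit 5) (nat_lit 109) (nat_lit 5) (nat_lit 110) (nat_lit 5) (nat_lit 489) (nat_lit 431) (nat_lit 280)) (XT.lf (nat_lit 0) (nat_lit 30028470006)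 (nat_lit 152) (nat_lit 26684279178) (nat_lit 76) (nat_lit 45840176436) (nat_lit 105) (nat_lit 5) (nat_lit 107) (nat_lit 5) (nat_lit 106) (nat_lit 5) (nat_lit 490) (nat_lit 431) (nat_lit 279))) (XT.nd (nat_lit 78) (nat_lit 152) (nat_lit 0) (XT.lf (nat_lit 0) (nat_lit 81117423190) (nat_lit 228) (nat_lit 23880205742) (nat_lit 76) (nat_lit 920022604) (nat_lit 103) (nat_lit 5) (nat_lit 106) (nat_lit 5) (nat_lit 104) (nat_lit 4) (nat_lit 491) (nat_lit 431) (nat_lit 278)) (XT.lf (nat_lit 0) (nat_lit 26529894851) (nat_lit 152) (nat_lit 21204596009) (nat_lit 76) (nat_lit 61657416663) (nat_lit 101) (nat_lit 5) (nat_lit 103) (nat_lit 5) (nat_lit 102) (nat_lit 5) (nat_lit 492) (nat_lit 431) (nat_lit 277))))))))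
noncomputable def xc96 : XT := (XT.nd (nat_lit 59514) (nat_lit 0) (nat_lit 2736) (XT.nd (nat_lit 58500) (nat_lit 0) (nat_lit 10868) (XT.nd (nat_lit 57954) (nat_lit 0) (nat_lit 17024) (XT.nd (nat_lit 57720) (nat_lit 0) (nat_lit 17784) (XT.nd (nat_lit 78) (nat_lit 456) (nat_lit 0) (XT.lf (nat_lit 0) (nat_lit 81208850163) (nat_lit 228) (nat_lit 18212657704) (nat_lit 76) (nat_lit 13572145087) (nat_lit 99) (nat_lit 5) (nat_lit 102) (nat_lit 5) (nat_lit 100) (nat_lit 4) (nat_lit 493) (nat_lit 431) (nat_lit 276)) (XT.nd (nat_lit 156) (nat_lit 304) (nat_lit 0) (XT.lf (nat_lit 0) (nat_lit 23113559674) (nat_lit 152) (nat_lit 15216490953) (nat_lit 76) (nat_lit 78388327318) (nat_lit 97) (nat_lit 5) (nat_lit 99) (nat_lit 5) (nat_lit 98) (nat_lit 5) (nat_lit 494) (nat_lit 431) (nat_lit 275)) (XT.lf (nat_lit 0) (nat_lit 19702078180) (nat_lit 152) (nat_lit 8837412746) (nat_lit 76) (nat_lit 96029189888) (nat_lit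 93) (nat_lit 5) (nat_lit 95) (nat_lit 5) (nat_lit 94) (nat_lit 5) (nat_lit 496) (nat_lit 431) (nat_lit 273)))) (XT.nd (nat_lit 78) (nat_lit 0) (nat_lit 76) (XT.lf (nat_lit 0) (nat_lit 3707140168) (nat_lit 1292) (nat_lit 3011896127) (nat_lit 1292) (nat_lit 3011896127) (nat_lit 327) (nat_lit 3) (nat_lit 344) (nat_lit 3) (nat_lit 344) (nat_lit 5) (nat_lit 432) (nat_lit 432) (nat_lit 336)) (XT.nd (nat_lit 78) (nat_lit 0) (nat_lit 0) (XT.lf (nat_lit 0) (nat_lit 8008031164) (nat_lit 1216) (nat_lit 9630202087) (nat_lit 1292) (nat_lit 2297913174) (nat_lit 328) (nat_lit 5) (nat_lit 344) (nat_lit 5) (nat_lit 345) (nat_lit 5) (nat_lit 433) (nat_lit 432) (nat_lit 335)) (XT.lf (nat_lit 76) (nat_lit 7138542120) (nat_lit 0) (nat_lit 1741452339) (nat_lit 1292) (nat_lit 11546692724) (nat_lit 329) (nat_lit 5) (nat_lit 328) (nat_lit 5) (nat_lit 345) (nat_lit 5) (nat_lit 434) (nat_lit 432) (nat_lit 334))))) (XT.nd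 (nat_lit 234) (nat_lit 912) (nat_lit 0) (XT.nd (nat_lit 78) (nat_lit 0) (nat_lit 76) (XT.lf (nat_lit 76) (nat_lit 3929593423) (nat_lit 0) (nat_lit 6130060854) (nat_lit 1292) (nat_lit 10874178558) (nat_lit 330) (nat_lit 5) (nat_lit 329) (nat_lit 5) (nat_lit 346) (nat_lit 5) (nat_lit 435) (nat_lit 432) (nat_lit 333)) (XT.nd (nat_lit 78) (nat_lit 0) (nat_lit 76) (XT.lf (nat_lit 76) (nat_lit 705217867) (nat_lit 0) (nat_lit 10841313126) (nat_lit 1292) (nat_lit 9912358527) (nat_lit 331) (nat_lit 5) (nat_lit 330) (nat_lit 5) (nat_lit 347) (nat_lit 5) (nat_lit 436) (nat_lit 432) (nat_lit 332)) (XT.lf (nat_lit 0) (nat_lit 13388165901) (nat_lit 1216) (nat_lit 2481856034) (nat_lit 1292) (nat_lit 6131765406) (nat_lit 331) (nat_lit 5) (nat_lit 347) (nat_lit 5) (nat_lit 348) (nat_lit 5) (nat_lit 437) (nat_lit 432) (nat_lit 331)))) (XT.nd (nat_lit 156) (nat_lit 1140) (nat_lit 0) (XT.nd (nat_lit 78) (nat_lit 0)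 (nat_lit 0) (XT.lf (nat_lit 0) (nat_lit 15591525297) (nat_lit 1216) (nat_lit 5663326059) (nat_lit 1292) (nat_lit 1308890109) (nat_lit 332) (nat_lit 5) (nat_lit 348) (nat_lit 5) (nat_lit 349) (nat_lit 5) (nat_lit 438) (nat_lit 432) (nat_lit 330)) (XT.lf (nat_lit 76) (nat_lit 14257706324) (nat_lit 0) (nat_lit 3955850850) (nat_lit 1292) (nat_lit 4930981652) (nat_lit 333) (nat_lit 5) (nat_lit 332) (nat_lit 5) (nat_lit 349) (nat_lit 5) (nat_lit 439) (nat_lit 432) (nat_lit 329))) (XT.nd (nat_lit 78) (nat_lit 1216) (nat_lit 0) (XT.lf (nat_lit 76) (nat_lit 11619226356) (nat_lit 0) (nat_lit 9640703569) (nat_lit 1292) (nat_lit 2485649581) (nat_lit 334) (nat_lit 5) (nat_lit 333) (nat_lit 5) (nat_lit 350) (nat_lit 5) (nat_lit 440) (nat_lit 432) (nat_lit 328)) (XT.lf (nat_lit 0) (nat_lit 371138333) (nat_lit 1292) (nat_lit 15367808026) (nat_lit 1368) (nat_lit 8628979163) (nat_lit 317) (nat_lit 5) (nat_lit 334)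 (nat_lit 5) (nat_lit 335) (nat_lit 5) (nat_lit 441) (nat_lit 432) (nat_lit 327)))))) (XT.nd (nat_lit 468) (nat_lit 3648) (nat_lit 0) (XT.nd (nat_lit 234) (nat_lit 1140) (nat_lit 0) (XT.nd (nat_lit 78) (nat_lit 1444) (nat_lit 0) (XT.lf (nat_lit 0) (nat_lit 3618986069) (nat_lit 1292) (nat_lit 18630368907) (nat_lit 76) (nat_lit 2762307284) (nat_lit 318) (nat_lit 5) (nat_lit 335) (nat_lit 5) (nat_lit 319) (nat_lit 5) (nat_lit 442) (nat_lit 432) (nat_lit 326)) (XT.nd (nat_lit 78) (nat_lit 608) (nat_lit 0) (XT.lf (nat_lit 0) (nat_lit 3758063477) (nat_lit 836) (nat_lit 3613526121) (nat_lit 912) (nat_lit 18305725862) (nat_lit 307) (nat_lit 5) (nat_lit 318) (nat_lit 5) (nat_lit 319) (nat_lit 5) (nat_lit 443) (nat_lit 432) (nat_lit 325)) (XT.lf (nat_lit 0) (nat_lit 1140686900) (nat_lit 608) (nat_lit 10517259831) (nat_lit 684) (nat_lit 14707921393) (nat_lit 299) (nat_lit 5) (nat_lit 307) (nat_lit 5) (nat_lit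 308) (nat_lit 5) (nat_lit 444) (nat_lit 432) (nat_lit 324)))) (XT.nd (nat_lit 78) (nat_lit 1140) (nat_lit 0) (XT.lf (nat_lit 0) (nat_lit 16498878194) (nat_lit 684) (nat_lit 1407525668) (nat_lit 76) (nat_lit 9172237346) (nat_lit 299) (nat_lit 5) (nat_lit 308) (nat_lit 5) (nat_lit 300) (nat_lit 5) (nat_lit 445) (nat_lit 432) (nat_lit 323)) (XT.nd (nat_lit 78) (nat_lit 532) (nat_lit 0) (XT.lf (nat_lit 0) (nat_lit 21927027641) (nat_lit 684) (nat_lit 3885253139) (nat_lit 76) (nat_lit 2004417480) (nat_lit 291) (nat_lit 5) (nat_lit 300) (nat_lit 5) (nat_lit 292) (nat_lit 5) (nat_lit 446) (nat_lit 432) (nat_lit 322)) (XT.lf (nat_lit 0) (nat_lit 22217652867) (nat_lit 532) (nat_lit 5807417485) (nat_lit 608) (nat_lit 554633677) (nat_lit 284) (nat_lit 5) (nat_lit 291) (nat_lit 5) (nat_lit 292) (nat_lit 5) (nat_lit 447) (nat_lit 432) (nat_lit 321))))) (XT.nd (nat_lit 234) (nat_lit 1900) (nat_lit 0) (XT.nd (nat_lit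 78) (nat_lit 1064) (nat_lit 0) (XT.lf (nat_lit 0) (nat_lit 5326545440) (nat_lit 684) (nat_lit 8850248731) (nat_lit 76) (nat_lit 15191274472) (nat_lit 275) (nat_lit 5) (nat_lit 284) (nat_lit 5) (nat_lit 276) (nat_lit 5) (nat_lit 448) (nat_lit 432) (nat_lit 320)) (XT.nd (nat_lit 78) (nat_lit 532) (nat_lit 0) (XT.lf (nat_lit 0) (nat_lit 11856906370) (nat_lit 608) (nat_lit 11280147706) (nat_lit 76) (nat_lit 7047635246) (nat_lit 268) (nat_lit 5) (nat_lit 276) (nat_lit 5) (nat_lit 269) (nat_lit 5) (nat_lit 449) (nat_lit 432) (nat_lit 319)) (XT.lf (nat_lit 0) (nat_lit 17377274494) (nat_lit 532) (nat_lit 1729239983) (nat_lit 608) (nat_lit 11923845050) (nat_lit 261) (nat_lit 5) (nat_lit 268) (nat_lit 5) (nat_lit 269) (nat_lit 5) (nat_lit 450) (nat_lit 432) (nat_lit 318)))) (XT.nd (nat_lit 156) (nat_lit 912) (nat_lit 0) (XT.nd (nat_lit 78) (nat_lit 532) (nat_lit 0) (XT.lf (nat_lit 0) (nat_lit 15887483340)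 (nat_lit 456) (nat_lit 11291491522) (nat_lit 532) (nat_lit 4725527571) (nat_lit 255) (nat_lit 5) (nat_lit 261) (nat_lit 5) (nat_lit 262) (nat_lit 5) (nat_lit 451) (nat_lit 432) (nat_lit 317)) (XT.lf (nat_lit 0) (nat_lit 3179209277) (nat_lit 532) (nat_lit 18322847468) (nat_lit 76) (nat_lit 11307425779) (nat_lit 248) (nat_lit 5) (nat_lit 255) (nat_lit 5) (nat_lit 249) (nat_lit 5) (nat_lit 452) (nat_lit 432) (nat_lit 316))) (XT.nd (nat_lit 78) (nat_lit 456) (nat_lit 0) (XT.lf (nat_lit 0) (nat_lit 11794454714) (nat_lit 532) (nat_lit 20580691596) (nat_lit 76) (nat_lit 1370771906) (nat_lit 242) (nat_lit 5) (nat_lit 249) (nat_lit 5) (nat_lit 243) (nat_lit 5) (nat_lit 453) (nat_lit 432) (nat_lit 315)) (XT.lf (nat_lit 0) (nat_lit 11890047271) (nat_lit 456) (nat_lit 9464002200) (nat_lit 532) (nat_lit 13359718902) (nat_lit 236) (nat_lit 5) (nat_lit 242) (nat_lit 5) (nat_lit 243) (nat_lit 5) (nat_lit 454) (nat_lit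 432) (nat_lit 314))))))) (XT.nd (nat_lit 1014) (nat_lit 3420) (nat_lit 0) (XT.nd (nat_lit 468) (nat_lit 2204) (nat_lit 0) (XT.nd (nat_lit 234) (nat_lit 1216) (nat_lit 0) (XT.nd (nat_lit 78) (nat_lit 912) (nat_lit 0) (XT.lf (nat_lit 0) (nat_lit 10748018436) (nat_lit 380) (nat_lit 21093213593) (nat_lit 456) (nat_lit 3875291045) (nat_lit 231) (nat_lit 5) (nat_lit 236) (nat_lit 5) (nat_lit 237) (nat_lit 5) (nat_lit 455) (nat_lit 432) (nat_lit 313)) (XT.nd (nat_lit 78) (nat_lit 380) (nat_lit 0) (XT.lf (nat_lit 0) (nat_lit 6415545426) (nat_lit 532) (nat_lit 27050689304) (nat_lit 76) (nat_lit 3287899866) (nat_lit 224) (nat_lit 5) (nat_lit 231) (nat_lit 5) (nat_lit 225) (nat_lit 5) (nat_lit 456) (nat_lit 432) (nat_lit 312)) (XT.lf (nat_lit 0) (nat_lit 8700190449) (nat_lit 380) (nat_lit 8989957182) (nat_lit 456) (nat_lit 20135847103) (nat_lit 219) (nat_lit 5) (nat_lit 224) (nat_lit 5) (nat_lit 225) (nat_lit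 5) (nat_lit 457) (nat_lit 432) (nat_lit 311)))) (XT.nd (nat_lit 78) (nat_lit 836) (nat_lit 0) (XT.lf (nat_lit 0) (nat_lit 7840634196) (nat_lit 380) (nat_lit 22197825765) (nat_lit 456) (nat_lit 8897688753) (nat_lit 214) (nat_lit 5) (nat_lit 219) (nat_lit 5) (nat_lit 220) (nat_lit 5) (nat_lit 458) (nat_lit 432) (nat_lit 310)) (XT.nd (nat_lit 78) (nat_lit 380) (nat_lit 0) (XT.lf (nat_lit 0) (nat_lit 3338524652) (nat_lit 456) (nat_lit 32944508459) (nat_lit 76) (nat_lit 3803157023) (nat_lit 208) (nat_lit 5) (nat_lit 214) (nat_lit 5) (nat_lit 209) (nat_lit 5) (nat_lit 459) (nat_lit 432) (nat_lit 309)) (XT.lf (nat_lit 0) (nat_lit 6455820772) (nat_lit 380) (nat_lit 10150964427) (nat_lit 456) (nat_lit 24666178127) (nat_lit 203) (nat_lit 5) (nat_lit 208) (nat_lit 5) (nat_lit 209) (nat_lit 5) (nat_lit 460) (nat_lit 432) (nat_lit 308))))) (XT.nd (nat_lit 234) (nat_lit 1216) (nat_lit 0) (XT.nd (nat_lit 78) (nat_lit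 684) (nat_lit 0) (XT.lf (nat_lit 0) (nat_lit 5942691860) (nat_lit 304) (nat_lit 25154942837) (nat_lit 380) (nat_lit 11404665396) (nat_lit 199) (nat_lit 5) (nat_lit 203) (nat_lit 5) (nat_lit 204) (nat_lit 5) (nat_lit 461) (nat_lit 432) (nat_lit 307)) (XT.nd (nat_lit 78) (nat_lit 304) (nat_lit 0) (XT.lf (nat_lit 0) (nat_lit 3008783152) (nat_lit 380) (nat_lit 38146111731) (nat_lit 76) (nat_lit 2621341317) (nat_lit 194) (nat_lit 5) (nat_lit 199) (nat_lit 5) (nat_lit 195) (nat_lit 5) (nat_lit 462) (nat_lit 432) (nat_lit 306)) (XT.lf (nat_lit 0) (nat_lit 5312493950) (nat_lit 304) (nat_lit 13275509911) (nat_lit 380) (nat_lit 26502048927) (nat_lit 190) (nat_lit 5) (nat_lit 194) (nat_lit 5) (nat_lit 195) (nat_lit 5) (nat_lit 463) (nat_lit 432) (nat_lit 305)))) (XT.nd (nat_lit 156) (nat_lit 532) (nat_lit 0) (XT.nd (nat_lit 78) (nat_lit 380) (nat_lit 0) (XT.lf (nat_lit 0) (nat_lit 5218469146) (nat_lit 304)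 (nat_lit 30322150017) (nat_lit 380) (nat_lit 10911108201) (nat_lit 186) (nat_lit 5) (nat_lit 190) (nat_lit 5) (nat_lit 191) (nat_lit 5) (nat_lit 464) (nat_lit 432) (nat_lit 304)) (XT.lf (nat_lit 0) (nat_lit 5330887395) (nat_lit 304) (nat_lit 614792999) (nat_lit 380) (nat_lit 41916446070) (nat_lit 181) (nat_lit 5) (nat_lit 185) (nat_lit 5) (nat_lit 186) (nat_lit 5) (nat_lit 465) (nat_lit 432) (nat_lit 303))) (XT.nd (nat_lit 78) (nat_lit 228) (nat_lit 0) (XT.lf (nat_lit 0) (nat_lit 5443714128) (nat_lit 304) (nat_lit 18747196065) (nat_lit 380) (nat_lit 25125756739) (nat_lit 177) (nat_lit 5) (nat_lit 181) (nat_lit 5) (nat_lit 182) (nat_lit 5) (nat_lit 466) (nat_lit 432) (nat_lit 302)) (XT.lf (nat_lit 0) (nat_lit 5850625466) (nat_lit 228) (nat_lit 38116457461) (nat_lit 304) (nat_lit 6858291192) (nat_lit 174) (nat_lit 5) (nat_lit 177) (nat_lit 5) (nat_lit 178) (nat_lit 5) (nat_lit 467) (nat_lit 432) (nat_lit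 301)))))) (XT.nd (nat_lit 546) (nat_lit 1520) (nat_lit 0) (XT.nd (nat_lit 234) (nat_lit 988) (nat_lit 0) (XT.nd (nat_lit 78) (nat_lit 532) (nat_lit 0) (XT.lf (nat_lit 0) (nat_lit 6385109394) (nat_lit 304) (nat_lit 6398215897) (nat_lit 380) (nat_lit 39601600898) (nat_lit 169) (nat_lit 5) (nat_lit 173) (nat_lit 5) (nat_lit 174) (nat_lit 5) (nat_lit 468) (nat_lit 432) (nat_lit 300)) (XT.nd (nat_lit 78) (nat_lit 304) (nat_lit 0) (XT.lf (nat_lit 0) (nat_lit 7040722934) (nat_lit 228) (nat_lit 27014337030) (nat_lit 304) (nat_lit 19941662581) (nat_lit 166) (nat_lit 5) (nat_lit 169) (nat_lit 5) (nat_lit 170) (nat_lit 5) (nat_lit 469) (nat_lit 432) (nat_lit 299)) (XT.lf (nat_lit 0) (nat_lit 1368259025) (nat_lit 304) (nat_lit 47642467946) (nat_lit 76) (nat_lit 6657759507) (nat_lit 162) (nat_lit 5) (nat_lit 166) (nat_lit 5) (nat_lit 163) (nat_lit 5) (nat_lit 470) (nat_lit 432) (nat_lit 298)))) (XT.nd (nat_lit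 156) (nat_lit 532) (nat_lit 0) (XT.nd (nat_lit 78) (nat_lit 228) (nat_lit 0) (XT.lf (nat_lit 0) (nat_lit 9018091706) (nat_lit 228) (nat_lit 15159447653) (nat_lit 304) (nat_lit 33214987483) (nat_lit 159) (nat_lit 5) (nat_lit 162) (nat_lit 5) (nat_lit 163) (nat_lit 5) (nat_lit 471) (nat_lit 432) (nat_lit 297)) (XT.lf (nat_lit 0) (nat_lit 10311538780) (nat_lit 228) (nat_lit 38601187370) (nat_lit 304) (nat_lit 10266479904) (nat_lit 156) (nat_lit 5) (nat_lit 159) (nat_lit 5) (nat_lit 160) (nat_lit 5) (nat_lit 472) (nat_lit 432) (nat_lit 296))) (XT.nd (nat_lit 78) (nat_lit 228) (nat_lit 0) (XT.lf (nat_lit 0) (nat_lit 11834525293) (nat_lit 228) (nat_lit 2489929409) (nat_lit 304) (nat_lit 46703830581) (nat_lit 152) (nat_lit 5) (nat_lit 155) (nat_lit 5) (nat_lit 156) (nat_lit 5) (nat_lit 473) (nat_lit 432) (nat_lit 295)) (XT.lf (nat_lit 0) (nat_lit 13443646828) (nat_lit 228) (nat_lit 27464058207) (nat_lit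 304) (nat_lit 22029811212) (nat_lit 149) (nat_lit 5) (nat_lit 152) (nat_lit 5) (nat_lit 153) (nat_lit 5) (nat_lit 474) (nat_lit 432) (nat_lit 294))))) (XT.nd (nat_lit 234) (nat_lit 912) (nat_lit 0) (XT.nd (nat_lit 78) (nat_lit 380) (nat_lit 0) (XT.lf (nat_lit 0) (nat_lit 4589912489) (nat_lit 228) (nat_lit 49484875222) (nat_lit 76) (nat_lit 10842672565) (nat_lit 146) (nat_lit 5) (nat_lit 149) (nat_lit 5) (nat_lit 147) (nat_lit 5) (nat_lit 475) (nat_lit 432) (nat_lit 293)) (XT.nd (nat_lit 78) (nat_lit 152) (nat_lit 0) (XT.lf (nat_lit 0) (nat_lit 17487589382) (nat_lit 228) (nat_lit 15557040780) (nat_lit 304) (nat_lit 33916439374) (nat_lit 143) (nat_lit 5) (nat_lit 146) (nat_lit 5) (nat_lit 147) (nat_lit 5) (nat_lit 476) (nat_lit 432) (nat_lit 292)) (XT.lf (nat_lit 0) (nat_lit 19887533716) (nat_lit 152) (nat_lit 43975045146) (nat_lit 228) (nat_lit 5216065616) (nat_lit 141) (nat_lit 5) (nat_lit 143)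 (nat_lit 5) (nat_lit 144) (nat_lit 5) (nat_lit 477) (nat_lit 432) (nat_lit 291)))) (XT.nd (nat_lit 156) (nat_lit 456) (nat_lit 0) (XT.nd (nat_lit 78) (nat_lit 152) (nat_lit 0) (XT.lf (nat_lit 0) (nat_lit 22493623180) (nat_lit 228) (nat_lit 2822757251) (nat_lit 304) (nat_lit 45952032030) (nat_lit 137) (nat_lit 5) (nat_lit 140) (nat_lit 5) (nat_lit 141) (nat_lit 5) (nat_lit 478) (nat_lit 432) (nat_lit 290)) (XT.lf (nat_lit 0) (nat_lit 25278229989) (nat_lit 152) (nat_lit 33128806682) (nat_lit 228) (nat_lit 15124898987) (nat_lit 135) (nat_lit 5) (nat_lit 137) (nat_lit 5) (nat_lit 138) (nat_lit 5) (nat_lit 479) (nat_lit 432) (nat_lit 289))) (XT.nd (nat_lit 78) (nat_lit 152) (nat_lit 0) (XT.lf (nat_lit 0) (nat_lit 17816443033) (nat_lit 304) (nat_lit 47473690584) (nat_lit 76) (nat_lit 10586248674) (nat_lit 131) (nat_lit 5) (nat_lit 135) (nat_lit 5) (nat_lit 132) (nat_lit 5) (nat_lit 480) (nat_lit 432)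 (nat_lit 288)) (XT.lf (nat_lit 0) (nat_lit 31696703817) (nat_lit 152) (nat_lit 21535004239) (nat_lit 228) (nat_lit 25067660855) (nat_lit 129) (nat_lit 5) (nat_lit 131) (nat_lit 5) (nat_lit 132) (nat_lit 5) (nat_lit 481) (nat_lit 432) (nat_lit 287))))))))
noncomputable def xc97 : XT := (XT.nd (nat_lit 59592) (nat_lit 0) (nat_lit 5092) (XT.nd (nat_lit 1092) (nat_lit 304) (nat_lit 0) (XT.nd (nat_lit 468) (nat_lit 1140) (nat_lit 0) (XT.nd (nat_lit 234) (nat_lit 532) (nat_lit 0) (XT.nd (nat_lit 78) (nat_lit 380) (nat_lit 0) (XT.lf (nat_lit 0) (nat_lit 10462858663) (nat_lit 228) (nat_lit 45480183590) (nat_lit 76) (nat_lit 24865438011) (nat_lit 126) (nat_lit 5) (nat_lit 129) (nat_lit 5) (nat_lit 127) (nat_lit 5) (nat_lit 482) (nat_lit 432) (nat_lit 286)) (XT.nd (nat_lit 78) (nat_lit 228) (nat_lit 0) (XT.lf (nat_lit 0) (nat_lit 39183760501) (nat_lit 152) (nat_lit 9147244121) (nat_lit 228) (nat_lit 35072210630)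 (nat_lit 124) (nat_lit 5) (nat_lit 126) (nat_lit 5) (nat_lit 127) (nat_lit 5) (nat_lit 483) (nat_lit 432) (nat_lit 285)) (XT.lf (nat_lit 0) (nat_lit 3209504606) (nat_lit 228) (nat_lit 42752768111) (nat_lit 76) (nat_lit 40126358432) (nat_lit 121) (nat_lit 5) (nat_lit 124) (nat_lit 5) (nat_lit 122) (nat_lit 5) (nat_lit 484) (nat_lit 432) (nat_lit 284)))) (XT.nd (nat_lit 78) (nat_lit 380) (nat_lit 0) (XT.lf (nat_lit 0) (nat_lit 43733555062) (nat_lit 228) (nat_lit 41133447532) (nat_lit 76) (nat_lit 3999289905) (nat_lit 119) (nat_lit 5) (nat_lit 122) (nat_lit 5) (nat_lit 120) (nat_lit 5) (nat_lit 485) (nat_lit 432) (nat_lit 283)) (XT.nd (nat_lit 78) (nat_lit 228) (nat_lit 0) (XT.lf (nat_lit 0) (nat_lit 52414638695) (nat_lit 152) (nat_lit 35277849872) (nat_lit 228) (nat_lit 4048087977) (nat_lit 117) (nat_lit 5) (nat_lit 119) (nat_lit 5) (nat_lit 120) (nat_lit 5) (nat_lit 486) (nat_lit 432) (nat_lit 282))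 (XT.lf (nat_lit 0) (nat_lit 39479587139) (nat_lit 228) (nat_lit 37403396985) (nat_lit 76) (nat_lit 17829769908) (nat_lit 114) (nat_lit 5) (nat_lit 117) (nat_lit 5) (nat_lit 115) (nat_lit 5) (nat_lit 487) (nat_lit 432) (nat_lit 281))))) (XT.nd (nat_lit 234) (nat_lit 608) (nat_lit 0) (XT.nd (nat_lit 78) (nat_lit 380) (nat_lit 0) (XT.lf (nat_lit 0) (nat_lit 62591075806) (nat_lit 152) (nat_lit 23872818059) (nat_lit 228) (nat_lit 11327525109) (nat_lit 112) (nat_lit 5) (nat_lit 114) (nat_lit 5) (nat_lit 115) (nat_lit 5) (nat_lit 488) (nat_lit 432) (nat_lit 280)) (XT.nd (nat_lit 78) (nat_lit 152) (nat_lit 0) (XT.lf (nat_lit 0) (nat_lit 35456552236) (nat_lit 228) (nat_lit 32958001459) (nat_lit 76) (nat_lit 32558584374) (nat_lit 109) (nat_lit 5) (nat_lit 112) (nat_lit 5) (nat_lit 110) (nat_lit 5) (nat_lit 489) (nat_lit 432) (nat_lit 279)) (XT.lf (nat_lit 0) (nat_lit 73901136334) (nat_lit 152) (nat_lit 11760655462)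 (nat_lit 228) (nat_lit 18609299878) (nat_lit 107) (nat_lit 5) (nat_lit 109) (nat_lit 5) (nat_lit 110) (nat_lit 5) (nat_lit 490) (nat_lit 432) (nat_lit 278)))) (XT.nd (nat_lit 156) (nat_lit 304) (nat_lit 0) (XT.nd (nat_lit 78) (nat_lit 152) (nat_lit 0) (XT.lf (nat_lit 0) (nat_lit 31629757397) (nat_lit 152) (nat_lit 27832480643) (nat_lit 76) (nat_lit 48215336996) (nat_lit 105) (nat_lit 5) (nat_lit 107) (nat_lit 5) (nat_lit 106) (nat_lit 5) (nat_lit 491) (nat_lit 432) (nat_lit 277)) (XT.lf (nat_lit 0) (nat_lit 85270945503) (nat_lit 228) (nat_lit 24891435161) (nat_lit 76) (nat_lit 1048223012) (nat_lit 103) (nat_lit 5) (nat_lit 106) (nat_lit 5) (nat_lit 104) (nat_lit 4) (nat_lit 492) (nat_lit 432) (nat_lit 276))) (XT.nd (nat_lit 78) (nat_lit 152) (nat_lit 0) (XT.lf (nat_lit 0) (nat_lit 27952035873) (nat_lit 152) (nat_lit 22085379935) (nat_lit 76) (nat_lit 64821216869) (nat_lit 101) (nat_lit 5) (nat_lit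 103) (nat_lit 5) (nat_lit 102) (nat_lit 5) (nat_lit 493) (nat_lit 432) (nat_lit 275)) (XT.lf (nat_lit 0) (nat_lit 85362843627) (nat_lit 228) (nat_lit 18946988447) (nat_lit 76) (nat_lit 14330696203) (nat_lit 99) (nat_lit 5) (nat_lit 102) (nat_lit 5) (nat_lit 100) (nat_lit 4) (nat_lit 494) (nat_lit 432) (nat_lit 274)))))) (XT.nd (nat_lit 57954) (nat_lit 0) (nat_lit 16112) (XT.nd (nat_lit 57720) (nat_lit 0) (nat_lit 17708) (XT.nd (nat_lit 57564) (nat_lit 0) (nat_lit 17632) (XT.lf (nat_lit 0) (nat_lit 85770425542) (nat_lit 228) (nat_lit 12528352936) (nat_lit 76) (nat_lit 28302134823) (nat_lit 95) (nat_lit 5) (nat_lit 98) (nat_lit 5) (nat_lit 96) (nat_lit 4) (nat_lit 496) (nat_lit 432) (nat_lit 272)) (XT.nd (nat_lit 78) (nat_lit 0) (nat_lit 76) (XT.lf (nat_lit 0) (nat_lit 4174598096) (nat_lit 1292) (nat_lit 3017202449) (nat_lit 1292) (nat_lit 3017202449) (nat_lit 327) (nat_lit 3) (nat_lit 344) (nat_lit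 3) (nat_lit 344) (nat_lit 5) (nat_lit 433) (nat_lit 433) (nat_lit 334)) (XT.lf (nat_lit 0) (nat_lit 8946002807) (nat_lit 1216) (nat_lit 9810760172) (nat_lit 1292) (nat_lit 2160038865) (nat_lit 328) (nat_lit 5) (nat_lit 344) (nat_lit 5) (nat_lit 345) (nat_lit 5) (nat_lit 434) (nat_lit 433) (nat_lit 333)))) (XT.nd (nat_lit 78) (nat_lit 0) (nat_lit 76) (XT.lf (nat_lit 76) (nat_lit 7787794516) (nat_lit 0) (nat_lit 2050981185) (nat_lit 1292) (nat_lit 11593778777) (nat_lit 329) (nat_lit 5) (nat_lit 328) (nat_lit 5) (nat_lit 345) (nat_lit 5) (nat_lit 435) (nat_lit 433) (nat_lit 332)) (XT.nd (nat_lit 78) (nat_lit 0) (nat_lit 76) (XT.lf (nat_lit 76) (nat_lit 4427119731) (nat_lit 0) (nat_lit 6626642661) (nat_lit 1292) (nat_lit 10912005830) (nat_lit 330) (nat_lit 5) (nat_lit 329) (nat_lit 5) (nat_lit 346) (nat_lit 5) (nat_lit 436) (nat_lit 433) (nat_lit 331)) (XT.lf (nat_lit 76) (nat_lit 1049004004) (nat_lit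 0) (nat_lit 11543817603) (nat_lit 1292) (nat_lit 9924922045) (nat_lit 331) (nat_lit 5) (nat_lit 330) (nat_lit 5) (nat_lit 347) (nat_lit 5) (nat_lit 437) (nat_lit 433) (nat_lit 330))))) (XT.nd (nat_lit 234) (nat_lit 1824) (nat_lit 0) (XT.nd (nat_lit 78) (nat_lit 0) (nat_lit 76) (XT.lf (nat_lit 0) (nat_lit 14502737841) (nat_lit 1216) (nat_lit 2297227098) (nat_lit 1292) (nat_lit 6288536456) (nat_lit 331) (nat_lit 5) (nat_lit 347) (nat_lit 5) (nat_lit 348) (nat_lit 5) (nat_lit 438) (nat_lit 433) (nat_lit 329)) (XT.nd (nat_lit 78) (nat_lit 0) (nat_lit 0) (XT.lf (nat_lit 0) (nat_lit 16796728927) (nat_lit 1216) (nat_lit 5632574635) (nat_lit 1292) (nat_lit 1249836725) (nat_lit 332) (nat_lit 5) (nat_lit 348) (nat_lit 5) (nat_lit 349) (nat_lit 5) (nat_lit 439) (nat_lit 433) (nat_lit 328)) (XT.lf (nat_lit 76) (nat_lit 15275510979) (nat_lit 0) (nat_lit 4257014520) (nat_lit 1292) (nat_lit 4756973048) (nat_lit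 333) (nat_lit 5) (nat_lit 332) (nat_lit 5) (nat_lit 349) (nat_lit 5) (nat_lit 440) (nat_lit 433) (nat_lit 327)))) (XT.nd (nat_lit 156) (nat_lit 760) (nat_lit 0) (XT.nd (nat_lit 78) (nat_lit 1216) (nat_lit 0) (XT.lf (nat_lit 76) (nat_lit 12509247326) (nat_lit 0) (nat_lit 10204551681) (nat_lit 1292) (nat_lit 2207315673) (nat_lit 334) (nat_lit 5) (nat_lit 333) (nat_lit 5) (nat_lit 350) (nat_lit 5) (nat_lit 441) (nat_lit 433) (nat_lit 326)) (XT.lf (nat_lit 0) (nat_lit 767933085) (nat_lit 1292) (nat_lit 15816282877) (nat_lit 1368) (nat_lit 8990742406) (nat_lit 317) (nat_lit 5) (nat_lit 334) (nat_lit 5) (nat_lit 335) (nat_lit 5) (nat_lit 442) (nat_lit 433) (nat_lit 325))) (XT.nd (nat_lit 78) (nat_lit 836) (nat_lit 0) (XT.lf (nat_lit 0) (nat_lit 4162644597) (nat_lit 1292) (nat_lit 19239725831) (nat_lit 76) (nat_lit 2848978147) (nat_lit 318) (nat_lit 5) (nat_lit 335) (nat_lit 5) (nat_lit 319) (nat_lit 5)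 (nat_lit 443) (nat_lit 433) (nat_lit 324)) (XT.lf (nat_lit 0) (nat_lit 4258893477) (nat_lit 836) (nat_lit 3829721003) (nat_lit 912) (nat_lit 18862098611) (nat_lit 307) (nat_lit 5) (nat_lit 318) (nat_lit 5) (nat_lit 319) (nat_lit 5) (nat_lit 444) (nat_lit 433) (nat_lit 323))))))) (XT.nd (nat_lit 1014) (nat_lit 4712) (nat_lit 0) (XT.nd (nat_lit 468) (nat_lit 3344) (nat_lit 0) (XT.nd (nat_lit 234) (nat_lit 1748) (nat_lit 0) (XT.nd (nat_lit 78) (nat_lit 608) (nat_lit 0) (XT.lf (nat_lit 0) (nat_lit 1512177802) (nat_lit 608) (nat_lit 11063216610) (nat_lit 684) (nat_lit 15098716532) (nat_lit 299) (nat_lit 5) (nat_lit 307) (nat_lit 5) (nat_lit 308) (nat_lit 5) (nat_lit 445) (nat_lit 433) (nat_lit 322)) (XT.nd (nat_lit 78) (nat_lit 608) (nat_lit 0) (XT.lf (nat_lit 0) (nat_lit 17642257523) (nat_lit 684) (nat_lit 1168663573) (nat_lit 76) (nat_lit 9612085703) (nat_lit 299) (nat_lit 5) (nat_lit 308) (nat_lit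 5) (nat_lit 300) (nat_lit 5) (nat_lit 446) (nat_lit 433) (nat_lit 321)) (XT.lf (nat_lit 0) (nat_lit 23329482621) (nat_lit 684) (nat_lit 3769888519) (nat_lit 76) (nat_lit 2098966157) (nat_lit 291) (nat_lit 5) (nat_lit 300) (nat_lit 5) (nat_lit 292) (nat_lit 5) (nat_lit 447) (nat_lit 433) (nat_lit 320)))) (XT.nd (nat_lit 78) (nat_lit 1216) (nat_lit 0) (XT.lf (nat_lit 0) (nat_lit 23629287383) (nat_lit 532) (nat_lit 6091454733) (nat_lit 608) (nat_lit 279102406) (nat_lit 284) (nat_lit 5) (nat_lit 291) (nat_lit 5) (nat_lit 292) (nat_lit 5) (nat_lit 448) (nat_lit 433) (nat_lit 319)) (XT.nd (nat_lit 78) (nat_lit 532) (nat_lit 0) (XT.lf (nat_lit 0) (nat_lit 5879035947) (nat_lit 684) (nat_lit 8986391794) (nat_lit 76) (nat_lit 15962448192) (nat_lit 275) (nat_lit 5) (nat_lit 284) (nat_lit 5) (nat_lit 276) (nat_lit 5) (nat_lit 449) (nat_lit 433) (nat_lit 318)) (XT.lf (nat_lit 0) (nat_lit 12725362003) (nat_lit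 608) (nat_lit 11538508423) (nat_lit 76) (nat_lit 7421774344) (nat_lit 268) (nat_lit 5) (nat_lit 276) (nat_lit 5) (nat_lit 269) (nat_lit 5) (nat_lit 450) (nat_lit 433) (nat_lit 317))))) (XT.nd (nat_lit 234) (nat_lit 1824) (nat_lit 0) (XT.nd (nat_lit 78) (nat_lit 988) (nat_lit 0) (XT.lf (nat_lit 0) (nat_lit 18543023587) (nat_lit 532) (nat_lit 1784156471) (nat_lit 608) (nat_lit 12246727051) (nat_lit 261) (nat_lit 5) (nat_lit 268) (nat_lit 5) (nat_lit 269) (nat_lit 5) (nat_lit 451) (nat_lit 433) (nat_lit 316)) (XT.nd (nat_lit 78) (nat_lit 532) (nat_lit 0) (XT.lf (nat_lit 0) (nat_lit 16977680098) (nat_lit 456) (nat_lit 11816080556) (nat_lit 532) (nat_lit 4698282077) (nat_lit 255) (nat_lit 5) (nat_lit 261) (nat_lit 5) (nat_lit 262) (nat_lit 5) (nat_lit 452) (nat_lit 433) (nat_lit 315)) (XT.lf (nat_lit 0) (nat_lit 3587473552) (nat_lit 532) (nat_lit 18939585137) (nat_lit 76) (nat_lit 11915409865) (nat_lit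 248) (nat_lit 5) (nat_lit 255) (nat_lit 5) (nat_lit 249) (nat_lit 5) (nat_lit 453) (nat_lit 433) (nat_lit 314)))) (XT.nd (nat_lit 156) (nat_lit 912) (nat_lit 0) (XT.nd (nat_lit 78) (nat_lit 456) (nat_lit 0) (XT.lf (nat_lit 0) (nat_lit 12624891559) (nat_lit 532) (nat_lit 21312174807) (nat_lit 76) (nat_lit 1488917784) (nat_lit 242) (nat_lit 5) (nat_lit 249) (nat_lit 5) (nat_lit 243) (nat_lit 5) (nat_lit 454) (nat_lit 433) (nat_lit 313)) (XT.lf (nat_lit 0) (nat_lit 12773571752) (nat_lit 456) (nat_lit 9880209982) (nat_lit 532) (nat_lit 13788706018) (nat_lit 236) (nat_lit 5) (nat_lit 242) (nat_lit 5) (nat_lit 243) (nat_lit 5) (nat_lit 455) (nat_lit 433) (nat_lit 312))) (XT.nd (nat_lit 78) (nat_lit 532) (nat_lit 0) (XT.lf (nat_lit 0) (nat_lit 11572393847) (nat_lit 380) (nat_lit 22085160867) (nat_lit 456) (nat_lit 3838058923) (nat_lit 231) (nat_lit 5) (nat_lit 236) (nat_lit 5) (nat_lit 237) (nat_lit 5)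 (nat_lit 456) (nat_lit 433) (nat_lit 311)) (XT.lf (nat_lit 0) (nat_lit 6955370275) (nat_lit 532) (nat_lit 28114151739) (nat_lit 76) (nat_lit 3515740710) (nat_lit 224) (nat_lit 5) (nat_lit 231) (nat_lit 5) (nat_lit 225) (nat_lit 5) (nat_lit 457) (nat_lit 433) (nat_lit 310)))))) (XT.nd (nat_lit 546) (nat_lit 2128) (nat_lit 0) (XT.nd (nat_lit 234) (nat_lit 1368) (nat_lit 0) (XT.nd (nat_lit 78) (nat_lit 836) (nat_lit 0) (XT.lf (nat_lit 0) (nat_lit 9415985810) (nat_lit 380) (nat_lit 9369985030) (nat_lit 456) (nat_lit 20924977325) (nat_lit 219) (nat_lit 5) (nat_lit 224) (nat_lit 5) (nat_lit 225) (nat_lit 5) (nat_lit 458) (nat_lit 433) (nat_lit 309)) (XT.nd (nat_lit 78) (nat_lit 456) (nat_lit 0) (XT.lf (nat_lit 0) (nat_lit 8510918819) (nat_lit 380) (nat_lit 23234028034) (nat_lit 456) (nat_lit 9131865872) (nat_lit 214) (nat_lit 5) (nat_lit 219) (nat_lit 5) (nat_lit 220) (nat_lit 5) (nat_lit 459) (nat_lit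 433) (nat_lit 308)) (XT.lf (nat_lit 0) (nat_lit 3705564988) (nat_lit 456) (nat_lit 34312189069) (nat_lit 76) (nat_lit 4066736145) (nat_lit 208) (nat_lit 5) (nat_lit 214) (nat_lit 5) (nat_lit 209) (nat_lit 5) (nat_lit 460) (nat_lit 433) (nat_lit 307)))) (XT.nd (nat_lit 156) (nat_lit 684) (nat_lit 0) (XT.nd (nat_lit 78) (nat_lit 304) (nat_lit 0) (XT.lf (nat_lit 0) (nat_lit 7050143528) (nat_lit 380) (nat_lit 10580175920) (nat_lit 456) (nat_lit 25700490464) (nat_lit 203) (nat_lit 5) (nat_lit 208) (nat_lit 5) (nat_lit 209) (nat_lit 5) (nat_lit 461) (nat_lit 433) (nat_lit 306)) (XT.lf (nat_lit 0) (nat_lit 6508478610) (nat_lit 304) (nat_lit 26331332660) (nat_lit 380) (nat_lit 11781979525) (nat_lit 199) (nat_lit 5) (nat_lit 203) (nat_lit 5) (nat_lit 204) (nat_lit 5) (nat_lit 462) (nat_lit 433) (nat_lit 305))) (XT.nd (nat_lit 78) (nat_lit 304) (nat_lit 0) (XT.lf (nat_lit 0) (nat_lit 3342700651) (nat_lit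 380) (nat_lit 39784105952) (nat_lit 76) (nat_lit 2832732011) (nat_lit 194) (nat_lit 5) (nat_lit 199) (nat_lit 5) (nat_lit 195) (nat_lit 5) (nat_lit 463) (nat_lit 433) (nat_lit 304)) (XT.lf (nat_lit 0) (nat_lit 5839710258) (nat_lit 304) (nat_lit 13854949653) (nat_lit 380) (nat_lit 27644573036) (nat_lit 190) (nat_lit 5) (nat_lit 194) (nat_lit 5) (nat_lit 195) (nat_lit 5) (nat_lit 464) (nat_lit 433) (nat_lit 303))))) (XT.nd (nat_lit 234) (nat_lit 1140) (nat_lit 0) (XT.nd (nat_lit 78) (nat_lit 684) (nat_lit 0) (XT.lf (nat_lit 0) (nat_lit 5737868207) (nat_lit 304) (nat_lit 31751853724) (nat_lit 380) (nat_lit 11279425070) (nat_lit 186) (nat_lit 5) (nat_lit 190) (nat_lit 5) (nat_lit 191) (nat_lit 5) (nat_lit 465) (nat_lit 433) (nat_lit 302)) (XT.nd (nat_lit 78) (nat_lit 304) (nat_lit 0) (XT.lf (nat_lit 0) (nat_lit 5851861956) (nat_lit 304) (nat_lit 559052937) (nat_lit 380) (nat_lit 43839275147) (nat_lit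 181) (nat_lit 5) (nat_lit 185) (nat_lit 5) (nat_lit 186) (nat_lit 5) (nat_lit 466) (nat_lit 433) (nat_lit 301)) (XT.lf (nat_lit 0) (nat_lit 5967127565) (nat_lit 304) (nat_lit 19596487641) (nat_lit 380) (nat_lit 26213986258) (nat_lit 177) (nat_lit 5) (nat_lit 181) (nat_lit 5) (nat_lit 182) (nat_lit 5) (nat_lit 467) (nat_lit 433) (nat_lit 300)))) (XT.nd (nat_lit 156) (nat_lit 532) (nat_lit 0) (XT.nd (nat_lit 78) (nat_lit 380) (nat_lit 0) (XT.lf (nat_lit 0) (nat_lit 6391119171) (nat_lit 228) (nat_lit 39932897725) (nat_lit 304) (nat_lit 7037864696) (nat_lit 174) (nat_lit 5) (nat_lit 177) (nat_lit 5) (nat_lit 178) (nat_lit 5) (nat_lit 468) (nat_lit 433) (nat_lit 299)) (XT.lf (nat_lit 0) (nat_lit 6948319128) (nat_lit 304) (nat_lit 6629044782) (nat_lit 380) (nat_lit 41422158868) (nat_lit 169) (nat_lit 5) (nat_lit 173) (nat_lit 5) (nat_lit 174) (nat_lit 5) (nat_lit 469) (nat_lit 433) (nat_lit 298))) (XT.nd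 (nat_lit 78) (nat_lit 304) (nat_lit 0) (XT.lf (nat_lit 0) (nat_lit 7633405117) (nat_lit 228) (nat_lit 28275034096) (nat_lit 304) (nat_lit 20783597291) (nat_lit 166) (nat_lit 5) (nat_lit 169) (nat_lit 5) (nat_lit 170) (nat_lit 5) (nat_lit 470) (nat_lit 433) (nat_lit 297)) (XT.lf (nat_lit 0) (nat_lit 1584684973) (nat_lit 304) (nat_lit 49784342483) (nat_lit 76) (nat_lit 7078439830) (nat_lit 162) (nat_lit 5) (nat_lit 166) (nat_lit 5) (nat_lit 163) (nat_lit 5) (nat_lit 471) (nat_lit 433) (nat_lit 296))))))))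
noncomputable def xc98 : XT := (XT.nd (nat_lit 59670) (nat_lit 0) (nat_lit 8056) (XT.nd (nat_lit 1014) (nat_lit 2052) (nat_lit 0) (XT.nd (nat_lit 468) (nat_lit 1444) (nat_lit 0) (XT.nd (nat_lit 234) (nat_lit 684) (nat_lit 0) (XT.nd (nat_lit 78) (nat_lit 532) (nat_lit 0) (XT.lf (nat_lit 0) (nat_lit 9702358467) (nat_lit 228) (nat_lit 15827265840) (nat_lit 304) (nat_lit 34728229662) (nat_lit 159) (nat_lit 5) (nat_lit 162) (nat_lit 5) (nat_lit 163) (nat_lit 5) (nat_lit 472) (nat_lit 433) (nat_lit 295)) (XT.nd (nat_lit 78) (nat_lit 304) (nat_lit 0) (XT.lf (nat_lit 0) (nat_lit 11057122818) (nat_lit 228) (nat_lit 40440664510) (nat_lit 304) (nat_lit 10636193448) (nat_lit 156) (nat_lit 5) (nat_lit 159) (nat_lit 5) (nat_lit 160) (nat_lit 5) (nat_lit 473) (nat_lit 433) (nat_lit 294)) (XT.lf (nat_lit 0) (nat_lit 12652390251) (nat_lit 228) (nat_lit 2524563917) (nat_lit 304) (nat_lit 48898654457) (nat_lit 152)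 (nat_lit 5) (nat_lit 155) (nat_lit 5) (nat_lit 156) (nat_lit 5) (nat_lit 474) (nat_lit 433) (nat_lit 293)))) (XT.nd (nat_lit 78) (nat_lit 456) (nat_lit 0) (XT.lf (nat_lit 0) (nat_lit 14338620253) (nat_lit 228) (nat_lit 28747221675) (nat_lit 304) (nat_lit 22994565087) (nat_lit 149) (nat_lit 5) (nat_lit 152) (nat_lit 5) (nat_lit 153) (nat_lit 5) (nat_lit 475) (nat_lit 433) (nat_lit 292)) (XT.nd (nat_lit 78) (nat_lit 228) (nat_lit 0) (XT.lf (nat_lit 0) (nat_lit 4950055051) (nat_lit 228) (nat_lit 51737081613) (nat_lit 76) (nat_lit 11472274911) (nat_lit 146) (nat_lit 5) (nat_lit 149) (nat_lit 5) (nat_lit 147) (nat_lit 5) (nat_lit 476) (nat_lit 433) (nat_lit 291)) (XT.lf (nat_lit 0) (nat_lit 18577641565) (nat_lit 228) (nat_lit 16245718937) (nat_lit 304) (nat_lit 35481965347) (nat_lit 143) (nat_lit 5) (nat_lit 146) (nat_lit 5) (nat_lit 147) (nat_lit 5) (nat_lit 477) (nat_lit 433) (nat_lit 290))))) (XT.nd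 (nat_lit 234) (nat_lit 836) (nat_lit 0) (XT.nd (nat_lit 78) (nat_lit 456) (nat_lit 0) (XT.lf (nat_lit 0) (nat_lit 21094256596) (nat_lit 152) (nat_lit 46084783864) (nat_lit 228) (nat_lit 5349834169) (nat_lit 141) (nat_lit 5) (nat_lit 143) (nat_lit 5) (nat_lit 144) (nat_lit 5) (nat_lit 478) (nat_lit 433) (nat_lit 289)) (XT.nd (nat_lit 78) (nat_lit 152) (nat_lit 0) (XT.lf (nat_lit 0) (nat_lit 23826973495) (nat_lit 228) (nat_lit 2875856407) (nat_lit 304) (nat_lit 48125382333) (nat_lit 137) (nat_lit 5) (nat_lit 140) (nat_lit 5) (nat_lit 141) (nat_lit 5) (nat_lit 479) (nat_lit 433) (nat_lit 288)) (XT.lf (nat_lit 0) (nat_lit 26747524220) (nat_lit 152) (nat_lit 34697530673) (nat_lit 228) (nat_lit 15759945713) (nat_lit 135) (nat_lit 5) (nat_lit 137) (nat_lit 5) (nat_lit 138) (nat_lit 5) (nat_lit 480) (nat_lit 433) (nat_lit 287)))) (XT.nd (nat_lit 156) (nat_lit 380) (nat_lit 0) (XT.nd (nat_lit 78) (nat_lit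 152) (nat_lit 0) (XT.lf (nat_lit 0) (nat_lit 18823212666) (nat_lit 304) (nat_lit 49642958768) (nat_lit 76) (nat_lit 11200549844) (nat_lit 131) (nat_lit 5) (nat_lit 135) (nat_lit 5) (nat_lit 132) (nat_lit 5) (nat_lit 481) (nat_lit 433) (nat_lit 286)) (XT.lf (nat_lit 0) (nat_lit 33480095800) (nat_lit 152) (nat_lit 22525532479) (nat_lit 228) (nat_lit 26205337408) (nat_lit 129) (nat_lit 5) (nat_lit 131) (nat_lit 5) (nat_lit 132) (nat_lit 5) (nat_lit 482) (nat_lit 433) (nat_lit 285))) (XT.nd (nat_lit 78) (nat_lit 152) (nat_lit 0) (XT.lf (nat_lit 0) (nat_lit 11096741357) (nat_lit 228) (nat_lit 47556652168) (nat_lit 76) (nat_lit 26192187058) (nat_lit 126) (nat_lit 5) (nat_lit 129) (nat_lit 5) (nat_lit 127) (nat_lit 5) (nat_lit 483) (nat_lit 433) (nat_lit 284)) (XT.lf (nat_lit 0) (nat_lit 41334826665) (nat_lit 152) (nat_lit 9520039077) (nat_lit 228) (nat_lit 36715289516) (nat_lit 124) (nat_lit 5) (nat_lit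 126) (nat_lit 5) (nat_lit 127) (nat_lit 5) (nat_lit 484) (nat_lit 433) (nat_lit 283)))))) (XT.nd (nat_lit 468) (nat_lit 912) (nat_lit 0) (XT.nd (nat_lit 234) (nat_lit 608) (nat_lit 0) (XT.nd (nat_lit 78) (nat_lit 304) (nat_lit 0) (XT.lf (nat_lit 0) (nat_lit 3475807798) (nat_lit 228) (nat_lit 44699582196) (nat_lit 76) (nat_lit 42214496552) (nat_lit 121) (nat_lit 5) (nat_lit 124) (nat_lit 5) (nat_lit 122) (nat_lit 5) (nat_lit 485) (nat_lit 433) (nat_lit 282)) (XT.nd (nat_lit 78) (nat_lit 152) (nat_lit 0) (XT.lf (nat_lit 0) (nat_lit 46023598861) (nat_lit 228) (nat_lit 43002482933) (nat_lit 76) (nat_lit 4280423089) (nat_lit 119) (nat_lit 5) (nat_lit 122) (nat_lit 5) (nat_lit 120) (nat_lit 5) (nat_lit 486) (nat_lit 433) (nat_lit 281)) (XT.lf (nat_lit 0) (nat_lit 55217629029) (nat_lit 152) (nat_lit 36959679799) (nat_lit 228) (nat_lit 4147289470) (nat_lit 117) (nat_lit 5) (nat_lit 119) (nat_lit 5) (nat_lit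 120) (nat_lit 5) (nat_lit 487) (nat_lit 433) (nat_lit 280)))) (XT.nd (nat_lit 78) (nat_lit 380) (nat_lit 0) (XT.lf (nat_lit 0) (nat_lit 41552435251) (nat_lit 228) (nat_lit 39092409391) (nat_lit 76) (nat_lit 18800579920) (nat_lit 114) (nat_lit 5) (nat_lit 117) (nat_lit 5) (nat_lit 115) (nat_lit 5) (nat_lit 488) (nat_lit 433) (nat_lit 279)) (XT.nd (nat_lit 78) (nat_lit 228) (nat_lit 0) (XT.lf (nat_lit 0) (nat_lit 65896594197) (nat_lit 152) (nat_lit 24986346559) (nat_lit 228) (nat_lit 11795172544) (nat_lit 112) (nat_lit 5) (nat_lit 114) (nat_lit 5) (nat_lit 115) (nat_lit 5) (nat_lit 489) (nat_lit 433) (nat_lit 278)) (XT.lf (nat_lit 0) (nat_lit 37323992286) (nat_lit 228) (nat_lit 34431050823) (nat_lit 76) (nat_lit 34263912515) (nat_lit 109) (nat_lit 5) (nat_lit 112) (nat_lit 5) (nat_lit 110) (nat_lit 5) (nat_lit 490) (nat_lit 433) (nat_lit 277))))) (XT.nd (nat_lit 234) (nat_lit 456) (nat_lit 0) (XT.nd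 (nat_lit 78) (nat_lit 304) (nat_lit 0) (XT.lf (nat_lit 0) (nat_lit 77766031800) (nat_lit 152) (nat_lit 12270589263) (nat_lit 228) (nat_lit 19445272075) (nat_lit 107) (nat_lit 5) (nat_lit 109) (nat_lit 5) (nat_lit 110) (nat_lit 5) (nat_lit 491) (nat_lit 433) (nat_lit 276)) (XT.nd (nat_lit 78) (nat_lit 152) (nat_lit 0) (XT.lf (nat_lit 0) (nat_lit 33301824760) (nat_lit 152) (nat_lit 29055385861) (nat_lit 76) (nat_lit 50701524923) (nat_lit 105) (nat_lit 5) (nat_lit 107) (nat_lit 5) (nat_lit 106) (nat_lit 5) (nat_lit 492) (nat_lit 433) (nat_lit 275)) (XT.lf (nat_lit 0) (nat_lit 89623065254) (nat_lit 228) (nat_lit 25970219283) (nat_lit 76) (nat_lit 1175191330) (nat_lit 103) (nat_lit 5) (nat_lit 106) (nat_lit 5) (nat_lit 104) (nat_lit 4) (nat_lit 493) (nat_lit 433) (nat_lit 274)))) (XT.nd (nat_lit 57798) (nat_lit 0) (nat_lit 17480) (XT.nd (nat_lit 156) (nat_lit 304) (nat_lit 0) (XT.lf (nat_lit 0) (nat_lit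 29436391662) (nat_lit 152) (nat_lit 23026886234) (nat_lit 76) (nat_lit 68135683038) (nat_lit 101) (nat_lit 5) (nat_lit 103) (nat_lit 5) (nat_lit 102) (nat_lit 5) (nat_lit 494) (nat_lit 433) (nat_lit 273)) (XT.lf (nat_lit 0) (nat_lit 25662044609) (nat_lit 152) (nat_lit 16437472202) (nat_lit 76) (nat_lit 86577113084) (nat_lit 97) (nat_lit 5) (nat_lit 99) (nat_lit 5) (nat_lit 98) (nat_lit 5) (nat_lit 496) (nat_lit 433) (nat_lit 271))) (XT.nd (nat_lit 78) (nat_lit 0) (nat_lit 76) (XT.lf (nat_lit 0) (nat_lit 4639201851) (nat_lit 1292) (nat_lit 3036281635) (nat_lit 1292) (nat_lit 3036281635) (nat_lit 327) (nat_lit 3) (nat_lit 344) (nat_lit 3) (nat_lit 344) (nat_lit 5) (nat_lit 434) (nat_lit 434) (nat_lit 332)) (XT.lf (nat_lit 0) (nat_lit 9880894862) (nat_lit 1216) (nat_lit 10028325828) (nat_lit 1292) (nat_lit 2038770996) (nat_lit 328) (nat_lit 5) (nat_lit 344) (nat_lit 5) (nat_lit 345) (nat_lit 5) (nat_lit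 435) (nat_lit 434) (nat_lit 331))))))) (XT.nd (nat_lit 1014) (nat_lit 6688) (nat_lit 0) (XT.nd (nat_lit 468) (nat_lit 2812) (nat_lit 0) (XT.nd (nat_lit 234) (nat_lit 0) (nat_lit 228) (XT.nd (nat_lit 78) (nat_lit 0) (nat_lit 76) (XT.lf (nat_lit 76) (nat_lit 8442331897) (nat_lit 0) (nat_lit 2355304602) (nat_lit 1292) (nat_lit 11692516620) (nat_lit 329) (nat_lit 5) (nat_lit 328) (nat_lit 5) (nat_lit 345) (nat_lit 5) (nat_lit 436) (nat_lit 434) (nat_lit 330)) (XT.nd (nat_lit 78) (nat_lit 0) (nat_lit 76) (XT.lf (nat_lit 76) (nat_lit 4921533891) (nat_lit 0) (nat_lit 7130381836) (nat_lit 1292) (nat_lit 10998756546) (nat_lit 330) (nat_lit 5) (nat_lit 329) (nat_lit 5) (nat_lit 346) (nat_lit 5) (nat_lit 437) (nat_lit 434) (nat_lit 329)) (XT.lf (nat_lit 76) (nat_lit 1381295695) (nat_lit 0) (nat_lit 12266531223) (nat_lit 1292) (nat_lit 9983023559) (nat_lit 331) (nat_lit 5) (nat_lit 330) (nat_lit 5) (nat_lit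 347) (nat_lit 5) (nat_lit 438) (nat_lit 434) (nat_lit 328)))) (XT.nd (nat_lit 78) (nat_lit 0) (nat_lit 76) (XT.lf (nat_lit 0) (nat_lit 15631651283) (nat_lit 1216) (nat_lit 2132068737) (nat_lit 1292) (nat_lit 6467074644) (nat_lit 331) (nat_lit 5) (nat_lit 347) (nat_lit 5) (nat_lit 348) (nat_lit 5) (nat_lit 439) (nat_lit 434) (nat_lit 327)) (XT.nd (nat_lit 78) (nat_lit 0) (nat_lit 0) (XT.lf (nat_lit 0) (nat_lit 18022621941) (nat_lit 1216) (nat_lit 5629470735) (nat_lit 1292) (nat_lit 1199405305) (nat_lit 332) (nat_lit 5) (nat_lit 348) (nat_lit 5) (nat_lit 349) (nat_lit 5) (nat_lit 440) (nat_lit 434) (nat_lit 326)) (XT.lf (nat_lit 76) (nat_lit 16315857356) (nat_lit 0) (nat_lit 4563625907) (nat_lit 1292) (nat_lit 4613363482) (nat_lit 333) (nat_lit 5) (nat_lit 332) (nat_lit 5) (nat_lit 349) (nat_lit 5) (nat_lit 441) (nat_lit 434) (nat_lit 325))))) (XT.nd (nat_lit 234) (nat_lit 1976) (nat_lit 0) (XT.nd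 (nat_lit 78) (nat_lit 1216) (nat_lit 0) (XT.lf (nat_lit 76) (nat_lit 13415035907) (nat_lit 0) (nat_lit 10788986006) (nat_lit 1292) (nat_lit 1952496526) (nat_lit 334) (nat_lit 5) (nat_lit 333) (nat_lit 5) (nat_lit 350) (nat_lit 5) (nat_lit 442) (nat_lit 434) (nat_lit 324)) (XT.nd (nat_lit 78) (nat_lit 0) (nat_lit 76) (XT.lf (nat_lit 0) (nat_lit 1149402605) (nat_lit 1292) (nat_lit 16316924185) (nat_lit 1368) (nat_lit 9377072528) (nat_lit 317) (nat_lit 5) (nat_lit 334) (nat_lit 5) (nat_lit 335) (nat_lit 5) (nat_lit 443) (nat_lit 434) (nat_lit 323)) (XT.lf (nat_lit 0) (nat_lit 4699764786) (nat_lit 1292) (nat_lit 19909502126) (nat_lit 76) (nat_lit 2944765376) (nat_lit 318) (nat_lit 5) (nat_lit 335) (nat_lit 5) (nat_lit 319) (nat_lit 5) (nat_lit 444) (nat_lit 434) (nat_lit 322)))) (XT.nd (nat_lit 156) (nat_lit 608) (nat_lit 0) (XT.nd (nat_lit 78) (nat_lit 608) (nat_lit 0) (XT.lf (nat_lit 0) (nat_lit 4755672007)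 (nat_lit 836) (nat_lit 4053423448) (nat_lit 912) (nat_lit 19479658377) (nat_lit 307) (nat_lit 5) (nat_lit 318) (nat_lit 5) (nat_lit 319) (nat_lit 5) (nat_lit 445) (nat_lit 434) (nat_lit 321)) (XT.lf (nat_lit 0) (nat_lit 1873008058) (nat_lit 608) (nat_lit 11634603098) (nat_lit 684) (nat_lit 15541089155) (nat_lit 299) (nat_lit 5) (nat_lit 307) (nat_lit 5) (nat_lit 308) (nat_lit 5) (nat_lit 446) (nat_lit 434) (nat_lit 320))) (XT.nd (nat_lit 78) (nat_lit 608) (nat_lit 0) (XT.lf (nat_lit 0) (nat_lit 18813200712) (nat_lit 684) (nat_lit 946608426) (nat_lit 76) (nat_lit 10075670932) (nat_lit 299) (nat_lit 5) (nat_lit 308) (nat_lit 5) (nat_lit 300) (nat_lit 5) (nat_lit 447) (nat_lit 434) (nat_lit 319)) (XT.lf (nat_lit 0) (nat_lit 24773601739) (nat_lit 684) (nat_lit 3677541877) (nat_lit 76) (nat_lit 2198769615) (nat_lit 291) (nat_lit 5) (nat_lit 300) (nat_lit 5) (nat_lit 292) (nat_lit 5) (nat_lit 448) (nat_lit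 434) (nat_lit 318)))))) (XT.nd (nat_lit 546) (nat_lit 2964) (nat_lit 0) (XT.nd (nat_lit 234) (nat_lit 1976) (nat_lit 0) (XT.nd (nat_lit 78) (nat_lit 1216) (nat_lit 0) (XT.lf (nat_lit 0) (nat_lit 25083542567) (nat_lit 532) (nat_lit 6390282684) (nat_lit 608) (nat_lit 17989086) (nat_lit 284) (nat_lit 5) (nat_lit 291) (nat_lit 5) (nat_lit 292) (nat_lit 5) (nat_lit 449) (nat_lit 434) (nat_lit 317)) (XT.nd (nat_lit 78) (nat_lit 532) (nat_lit 0) (XT.lf (nat_lit 0) (nat_lit 6432546235) (nat_lit 684) (nat_lit 9157825331) (nat_lit 76) (nat_lit 16771101210) (nat_lit 275) (nat_lit 5) (nat_lit 284) (nat_lit 5) (nat_lit 276) (nat_lit 5) (nat_lit 450) (nat_lit 434) (nat_lit 316)) (XT.lf (nat_lit 0) (nat_lit 13611616782) (nat_lit 608) (nat_lit 11838203306) (nat_lit 76) (nat_lit 7812597607) (nat_lit 268) (nat_lit 5) (nat_lit 276) (nat_lit 5) (nat_lit 269) (nat_lit 5) (nat_lit 451) (nat_lit 434) (nat_lit 315))))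 (XT.nd (nat_lit 156) (nat_lit 988) (nat_lit 0) (XT.nd (nat_lit 78) (nat_lit 456) (nat_lit 0) (XT.lf (nat_lit 0) (nat_lit 19739458547) (nat_lit 532) (nat_lit 1844751587) (nat_lit 608) (nat_lit 12611162948) (nat_lit 261) (nat_lit 5) (nat_lit 268) (nat_lit 5) (nat_lit 269) (nat_lit 5) (nat_lit 452) (nat_lit 434) (nat_lit 314)) (XT.lf (nat_lit 0) (nat_lit 18094883913) (nat_lit 456) (nat_lit 12370616519) (nat_lit 532) (nat_lit 4694174074) (nat_lit 255) (nat_lit 5) (nat_lit 261) (nat_lit 5) (nat_lit 262) (nat_lit 5) (nat_lit 453) (nat_lit 434) (nat_lit 313))) (XT.nd (nat_lit 78) (nat_lit 456) (nat_lit 0) (XT.lf (nat_lit 0) (nat_lit 3992973136) (nat_lit 532) (nat_lit 19614995502) (nat_lit 76) (nat_lit 12549831422) (nat_lit 248) (nat_lit 5) (nat_lit 255) (nat_lit 5) (nat_lit 249) (nat_lit 5) (nat_lit 454) (nat_lit 434) (nat_lit 312)) (XT.lf (nat_lit 0) (nat_lit 13474470929) (nat_lit 532) (nat_lit 22107895685)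 (nat_lit 76) (nat_lit 1608358941) (nat_lit 242) (nat_lit 5) (nat_lit 249) (nat_lit 5) (nat_lit 243) (nat_lit 5) (nat_lit 455) (nat_lit 434) (nat_lit 311))))) (XT.nd (nat_lit 234) (nat_lit 1596) (nat_lit 0) (XT.nd (nat_lit 78) (nat_lit 912) (nat_lit 0) (XT.lf (nat_lit 0) (nat_lit 13674401921) (nat_lit 456) (nat_lit 10322526759) (nat_lit 532) (nat_lit 14261362335) (nat_lit 236) (nat_lit 5) (nat_lit 242) (nat_lit 5) (nat_lit 243) (nat_lit 5) (nat_lit 456) (nat_lit 434) (nat_lit 310)) (XT.nd (nat_lit 78) (nat_lit 532) (nat_lit 0) (XT.lf (nat_lit 0) (nat_lit 12411307861) (nat_lit 380) (nat_lit 23132536003) (nat_lit 456) (nat_lit 3820441076) (nat_lit 231) (nat_lit 5) (nat_lit 236) (nat_lit 5) (nat_lit 237) (nat_lit 5) (nat_lit 457) (nat_lit 434) (nat_lit 309)) (XT.lf (nat_lit 0) (nat_lit 7501821400) (nat_lit 532) (nat_lit 29257662473) (nat_lit 76) (nat_lit 3749075002) (nat_lit 224) (nat_lit 5) (nat_lit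 231) (nat_lit 5) (nat_lit 225) (nat_lit 5) (nat_lit 458) (nat_lit 434) (nat_lit 308)))) (XT.nd (nat_lit 156) (nat_lit 836) (nat_lit 0) (XT.nd (nat_lit 78) (nat_lit 380) (nat_lit 0) (XT.lf (nat_lit 0) (nat_lit 10141466133) (nat_lit 380) (nat_lit 9775472933) (nat_lit 456) (nat_lit 21773800219) (nat_lit 219) (nat_lit 5) (nat_lit 224) (nat_lit 5) (nat_lit 225) (nat_lit 5) (nat_lit 459) (nat_lit 434) (nat_lit 307)) (XT.lf (nat_lit 0) (nat_lit 9188848355) (nat_lit 380) (nat_lit 24328891323) (nat_lit 456) (nat_lit 9397341417) (nat_lit 214) (nat_lit 5) (nat_lit 219) (nat_lit 5) (nat_lit 220) (nat_lit 5) (nat_lit 460) (nat_lit 434) (nat_lit 306))) (XT.nd (nat_lit 78) (nat_lit 380) (nat_lit 0) (XT.lf (nat_lit 0) (nat_lit 4072352628) (nat_lit 456) (nat_lit 35774243136) (nat_lit 76) (nat_lit 4336668209) (nat_lit 208) (nat_lit 5) (nat_lit 214) (nat_lit 5) (nat_lit 209) (nat_lit 5) (nat_lit 461) (nat_lit 434)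 (nat_lit 305)) (XT.lf (nat_lit 0) (nat_lit 7648937976) (nat_lit 380) (nat_lit 11038130994) (nat_lit 456) (nat_lit 26805019234) (nat_lit 203) (nat_lit 5) (nat_lit 208) (nat_lit 5) (nat_lit 209) (nat_lit 5) (nat_lit 462) (nat_lit 434) (nat_lit 304))))))))
noncomputable def xc99 : XT := (XT.nd (nat_lit 2028) (nat_lit 1368) (nat_lit 0) (XT.nd (nat_lit 1014) (nat_lit 2660) (nat_lit 0) (XT.nd (nat_lit 468) (nat_lit 1900) (nat_lit 0) (XT.nd (nat_lit 234) (nat_lit 988) (nat_lit 0) (XT.nd (nat_lit 78) (nat_lit 684) (nat_lit 0) (XT.lf (nat_lit 0) (nat_lit 7077577968) (nat_lit 304) (nat_lit 27574105807) (nat_lit 380) (nat_lit 12196095153) (nat_lit 199) (nat_lit 5) (nat_lit 203) (nat_lit 5) (nat_lit 204) (nat_lit 5) (nat_lit 463) (nat_lit 434) (nat_lit 303)) (XT.nd (nat_lit 78) (nat_lit 304) (nat_lit 0) (XT.lf (nat_lit 0) (nat_lit 3676255948) (nat_lit 380) (nat_lit 41529037901) (nat_lit 76) (nat_lit 3047224511)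 (nat_lit 194) (nat_lit 5) (nat_lit 199) (nat_lit 5) (nat_lit 195) (nat_lit 5) (nat_lit 464) (nat_lit 434) (nat_lit 302)) (XT.lf (nat_lit 0) (nat_lit 6368967072) (nat_lit 304) (nat_lit 14471202121) (nat_lit 380) (nat_lit 28861197754) (nat_lit 190) (nat_lit 5) (nat_lit 194) (nat_lit 5) (nat_lit 195) (nat_lit 5) (nat_lit 465) (nat_lit 434) (nat_lit 301)))) (XT.nd (nat_lit 78) (nat_lit 684) (nat_lit 0) (XT.lf (nat_lit 0) (nat_lit 6259206609) (nat_lit 304) (nat_lit 33261075623) (nat_lit 380) (nat_lit 11682635743) (nat_lit 186) (nat_lit 5) (nat_lit 190) (nat_lit 5) (nat_lit 191) (nat_lit 5) (nat_lit 466) (nat_lit 434) (nat_lit 300)) (XT.nd (nat_lit 78) (nat_lit 304) (nat_lit 0) (XT.lf (nat_lit 0) (nat_lit 6375230738) (nat_lit 304) (nat_lit 508565937) (nat_lit 380) (nat_lit 45874328949) (nat_lit 181) (nat_lit 5) (nat_lit 185) (nat_lit 5) (nat_lit 186) (nat_lit 5) (nat_lit 467) (nat_lit 434) (nat_lit 299))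 (XT.lf (nat_lit 0) (nat_lit 6493354901) (nat_lit 304) (nat_lit 20496431544) (nat_lit 380) (nat_lit 27372251723) (nat_lit 177) (nat_lit 5) (nat_lit 181) (nat_lit 5) (nat_lit 182) (nat_lit 5) (nat_lit 468) (nat_lit 434) (nat_lit 298))))) (XT.nd (nat_lit 234) (nat_lit 1064) (nat_lit 0) (XT.nd (nat_lit 78) (nat_lit 608) (nat_lit 0) (XT.lf (nat_lit 0) (nat_lit 6935584364) (nat_lit 228) (nat_lit 41848469951) (nat_lit 304) (nat_lit 7241602779) (nat_lit 174) (nat_lit 5) (nat_lit 177) (nat_lit 5) (nat_lit 178) (nat_lit 5) (nat_lit 469) (nat_lit 434) (nat_lit 297)) (XT.nd (nat_lit 78) (nat_lit 228) (nat_lit 0) (XT.lf (nat_lit 0) (nat_lit 7517008793) (nat_lit 304) (nat_lit 6879697103) (nat_lit 380) (nat_lit 43348575587) (nat_lit 169) (nat_lit 5) (nat_lit 173) (nat_lit 5) (nat_lit 174) (nat_lit 5) (nat_lit 470) (nat_lit 434) (nat_lit 296)) (XT.lf (nat_lit 0) (nat_lit 8233348422) (nat_lit 228) (nat_lit 29607135201)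 (nat_lit 304) (nat_lit 21682052967) (nat_lit 166) (nat_lit 5) (nat_lit 169) (nat_lit 5) (nat_lit 170) (nat_lit 5) (nat_lit 471) (nat_lit 434) (nat_lit 295)))) (XT.nd (nat_lit 156) (nat_lit 532) (nat_lit 0) (XT.nd (nat_lit 78) (nat_lit 228) (nat_lit 0) (XT.lf (nat_lit 0) (nat_lit 1798171374) (nat_lit 304) (nat_lit 52055646808) (nat_lit 76) (nat_lit 7511992069) (nat_lit 162) (nat_lit 5) (nat_lit 166) (nat_lit 5) (nat_lit 163) (nat_lit 5) (nat_lit 472) (nat_lit 434) (nat_lit 294)) (XT.lf (nat_lit 0) (nat_lit 10399142762) (nat_lit 228) (nat_lit 16536856619) (nat_lit 304) (nat_lit 36330847770) (nat_lit 159) (nat_lit 5) (nat_lit 162) (nat_lit 5) (nat_lit 163) (nat_lit 5) (nat_lit 473) (nat_lit 434) (nat_lit 293))) (XT.nd (nat_lit 78) (nat_lit 304) (nat_lit 0) (XT.lf (nat_lit 0) (nat_lit 11818602178) (nat_lit 228) (nat_lit 42380536984) (nat_lit 304) (nat_lit 11037744208) (nat_lit 156) (nat_lit 5) (nat_lit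 159) (nat_lit 5) (nat_lit 160) (nat_lit 5) (nat_lit 474) (nat_lit 434) (nat_lit 292)) (XT.lf (nat_lit 0) (nat_lit 13490124224) (nat_lit 228) (nat_lit 2569284663) (nat_lit 304) (nat_lit 51216269580) (nat_lit 152) (nat_lit 5) (nat_lit 155) (nat_lit 5) (nat_lit 156) (nat_lit 5) (nat_lit 475) (nat_lit 434) (nat_lit 291)))))) (XT.nd (nat_lit 468) (nat_lit 1368) (nat_lit 0) (XT.nd (nat_lit 234) (nat_lit 608) (nat_lit 0) (XT.nd (nat_lit 78) (nat_lit 456) (nat_lit 0) (XT.lf (nat_lit 0) (nat_lit 15257629346) (nat_lit 228) (nat_lit 30102914330) (nat_lit 304) (nat_lit 24020269136) (nat_lit 149) (nat_lit 5) (nat_lit 152) (nat_lit 5) (nat_lit 153) (nat_lit 5) (nat_lit 476) (nat_lit 434) (nat_lit 290)) (XT.nd (nat_lit 78) (nat_lit 228) (nat_lit 0) (XT.lf (nat_lit 0) (nat_lit 5316058426) (nat_lit 228) (nat_lit 54122541253) (nat_lit 76) (nat_lit 12125225362) (nat_lit 146) (nat_lit 5) (nat_lit 149) (nat_lit 5) (nat_lit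 147) (nat_lit 5) (nat_lit 477) (nat_lit 434) (nat_lit 289)) (XT.lf (nat_lit 0) (nat_lit 19702145153) (nat_lit 228) (nat_lit 16977121544) (nat_lit 304) (nat_lit 37137881306) (nat_lit 143) (nat_lit 5) (nat_lit 146) (nat_lit 5) (nat_lit 147) (nat_lit 5) (nat_lit 478) (nat_lit 434) (nat_lit 288)))) (XT.nd (nat_lit 78) (nat_lit 456) (nat_lit 0) (XT.lf (nat_lit 0) (nat_lit 22341573684) (nat_lit 152) (nat_lit 48308285153) (nat_lit 228) (nat_lit 5502101635) (nat_lit 141) (nat_lit 5) (nat_lit 143) (nat_lit 5) (nat_lit 144) (nat_lit 5) (nat_lit 479) (nat_lit 434) (nat_lit 287)) (XT.nd (nat_lit 78) (nat_lit 152) (nat_lit 0) (XT.lf (nat_lit 0) (nat_lit 25207591245) (nat_lit 228) (nat_lit 2939795525) (nat_lit 304) (nat_lit 50418951860) (nat_lit 137) (nat_lit 5) (nat_lit 140) (nat_lit 5) (nat_lit 141) (nat_lit 5) (nat_lit 480) (nat_lit 434) (nat_lit 286)) (XT.lf (nat_lit 0) (nat_lit 28271188623) (nat_lit 152)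 (nat_lit 36352845899) (nat_lit 228) (nat_lit 16438012636) (nat_lit 135) (nat_lit 5) (nat_lit 137) (nat_lit 5) (nat_lit 138) (nat_lit 5) (nat_lit 481) (nat_lit 434) (nat_lit 285))))) (XT.nd (nat_lit 234) (nat_lit 684) (nat_lit 0) (XT.nd (nat_lit 78) (nat_lit 380) (nat_lit 0) (XT.lf (nat_lit 0) (nat_lit 19869541082) (nat_lit 304) (nat_lit 51939695055) (nat_lit 76) (nat_lit 11837664625) (nat_lit 131) (nat_lit 5) (nat_lit 135) (nat_lit 5) (nat_lit 132) (nat_lit 5) (nat_lit 482) (nat_lit 434) (nat_lit 284)) (XT.nd (nat_lit 78) (nat_lit 228) (nat_lit 0) (XT.lf (nat_lit 0) (nat_lit 35334197454) (nat_lit 152) (nat_lit 23573603234) (nat_lit 228) (nat_lit 27410655081) (nat_lit 129) (nat_lit 5) (nat_lit 131) (nat_lit 5) (nat_lit 132) (nat_lit 5) (nat_lit 483) (nat_lit 434) (nat_lit 283)) (XT.lf (nat_lit 0) (nat_lit 11752022653) (nat_lit 228) (nat_lit 49755309629) (nat_lit 76) (nat_lit 27577512643) (nat_lit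 126) (nat_lit 5) (nat_lit 129) (nat_lit 5) (nat_lit 127) (nat_lit 5) (nat_lit 484) (nat_lit 434) (nat_lit 282)))) (XT.nd (nat_lit 156) (nat_lit 304) (nat_lit 0) (XT.nd (nat_lit 78) (nat_lit 228) (nat_lit 0) (XT.lf (nat_lit 0) (nat_lit 43575607127) (nat_lit 152) (nat_lit 9919336042) (nat_lit 228) (nat_lit 38450798531) (nat_lit 124) (nat_lit 5) (nat_lit 126) (nat_lit 5) (nat_lit 127) (nat_lit 5) (nat_lit 485) (nat_lit 434) (nat_lit 281)) (XT.lf (nat_lit 0) (nat_lit 3745587268) (nat_lit 228) (nat_lit 46761478022) (nat_lit 76) (nat_lit 44399434711) (nat_lit 121) (nat_lit 5) (nat_lit 124) (nat_lit 5) (nat_lit 122) (nat_lit 5) (nat_lit 486) (nat_lit 434) (nat_lit 280))) (XT.nd (nat_lit 78) (nat_lit 152) (nat_lit 0) (XT.lf (nat_lit 0) (nat_lit 48418534855) (nat_lit 228) (nat_lit 44982414812) (nat_lit 76) (nat_lit 4568066638) (nat_lit 119) (nat_lit 5) (nat_lit 122) (nat_lit 5) (nat_lit 120) (nat_lit 5)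 (nat_lit 487) (nat_lit 434) (nat_lit 279)) (XT.lf (nat_lit 0) (nat_lit 58143824222) (nat_lit 152) (nat_lit 38733230622) (nat_lit 228) (nat_lit 4261045865) (nat_lit 117) (nat_lit 5) (nat_lit 119) (nat_lit 5) (nat_lit 120) (nat_lit 5) (nat_lit 488) (nat_lit 434) (nat_lit 278))))))) (XT.nd (nat_lit 58734) (nat_lit 0) (nat_lit 11856) (XT.nd (nat_lit 546) (nat_lit 304) (nat_lit 0) (XT.nd (nat_lit 234) (nat_lit 456) (nat_lit 0) (XT.nd (nat_lit 78) (nat_lit 380) (nat_lit 0) (XT.lf (nat_lit 0) (nat_lit 43719733890) (nat_lit 228) (nat_lit 40882714720) (nat_lit 76) (nat_lit 19812555869) (nat_lit 114) (nat_lit 5) (nat_lit 117) (nat_lit 5) (nat_lit 115) (nat_lit 5) (nat_lit 489) (nat_lit 434) (nat_lit 277)) (XT.nd (nat_lit 78) (nat_lit 228) (nat_lit 0) (XT.lf (nat_lit 0) (nat_lit 69351028987) (nat_lit 152) (nat_lit 26162999577) (nat_lit 228) (nat_lit 12295381221) (nat_lit 112) (nat_lit 5) (nat_lit 114) (nat_lit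 5) (nat_lit 115) (nat_lit 5) (nat_lit 490) (nat_lit 434) (nat_lit 276)) (XT.lf (nat_lit 0) (nat_lit 39276008171) (nat_lit 228) (nat_lit 35994008616) (nat_lit 76) (nat_lit 36047311244) (nat_lit 109) (nat_lit 5) (nat_lit 112) (nat_lit 5) (nat_lit 110) (nat_lit 5) (nat_lit 491) (nat_lit 434) (nat_lit 275)))) (XT.nd (nat_lit 78) (nat_lit 304) (nat_lit 0) (XT.lf (nat_lit 0) (nat_lit 81808382052) (nat_lit 152) (nat_lit 12813280656) (nat_lit 228) (nat_lit 20331827926) (nat_lit 107) (nat_lit 5) (nat_lit 109) (nat_lit 5) (nat_lit 110) (nat_lit 5) (nat_lit 492) (nat_lit 434) (nat_lit 274)) (XT.nd (nat_lit 78) (nat_lit 152) (nat_lit 0) (XT.lf (nat_lit 0) (nat_lit 35049074267) (nat_lit 152) (nat_lit 30355122215) (nat_lit 76) (nat_lit 53305010310) (nat_lit 105) (nat_lit 5) (nat_lit 107) (nat_lit 5) (nat_lit 106) (nat_lit 5) (nat_lit 493) (nat_lit 434) (nat_lit 273)) (XT.lf (nat_lit 0) (nat_lit 94184556362) (nat_lit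 228) (nat_lit 27118355975) (nat_lit 76) (nat_lit 1301576445) (nat_lit 103) (nat_lit 5) (nat_lit 106) (nat_lit 5) (nat_lit 104) (nat_lit 4) (nat_lit 494) (nat_lit 434) (nat_lit 272))))) (XT.nd (nat_lit 57876) (nat_lit 0) (nat_lit 17404) (XT.nd (nat_lit 57720) (nat_lit 0) (nat_lit 17328) (XT.lf (nat_lit 0) (nat_lit 94278595852) (nat_lit 228) (nat_lit 20576103752) (nat_lit 76) (nat_lit 15941499588) (nat_lit 99) (nat_lit 5) (nat_lit 102) (nat_lit 5) (nat_lit 100) (nat_lit 4) (nat_lit 496) (nat_lit 434) (nat_lit 270)) (XT.nd (nat_lit 78) (nat_lit 0) (nat_lit 76) (XT.lf (nat_lit 0) (nat_lit 5103247069) (nat_lit 1292) (nat_lit 3068566521) (nat_lit 1292) (nat_lit 3068566521) (nat_lit 327) (nat_lit 3) (nat_lit 344) (nat_lit 3) (nat_lit 344) (nat_lit 5) (nat_lit 435) (nat_lit 435) (nat_lit 330)) (XT.lf (nat_lit 0) (nat_lit 10817199845) (nat_lit 1216) (nat_lit 10282148148) (nat_lit 1292) (nat_lit 1932755067)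 (nat_lit 328) (nat_lit 5) (nat_lit 344) (nat_lit 5) (nat_lit 345) (nat_lit 5) (nat_lit 436) (nat_lit 435) (nat_lit 329)))) (XT.nd (nat_lit 156) (nat_lit 0) (nat_lit 152) (XT.nd (nat_lit 78) (nat_lit 0) (nat_lit 76) (XT.lf (nat_lit 76) (nat_lit 9104945231) (nat_lit 0) (nat_lit 2656085123) (nat_lit 1292) (nat_lit 11840905630) (nat_lit 329) (nat_lit 5) (nat_lit 328) (nat_lit 5) (nat_lit 345) (nat_lit 5) (nat_lit 437) (nat_lit 435) (nat_lit 328)) (XT.lf (nat_lit 76) (nat_lit 5415282399) (nat_lit 0) (nat_lit 7643279198) (nat_lit 1292) (nat_lit 11132504283) (nat_lit 330) (nat_lit 5) (nat_lit 329) (nat_lit 5) (nat_lit 346) (nat_lit 5) (nat_lit 438) (nat_lit 435) (nat_lit 327))) (XT.nd (nat_lit 78) (nat_lit 0) (nat_lit 76) (XT.lf (nat_lit 76) (nat_lit 1704184962) (nat_lit 0) (nat_lit 13011851198) (nat_lit 1292) (nat_lit 10084764680) (nat_lit 331) (nat_lit 5) (nat_lit 330) (nat_lit 5) (nat_lit 347) (nat_lit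 5) (nat_lit 439) (nat_lit 435) (nat_lit 326)) (XT.lf (nat_lit 0) (nat_lit 16779471080) (nat_lit 1216) (nat_lit 1984686036) (nat_lit 1292) (nat_lit 6667173378) (nat_lit 331) (nat_lit 5) (nat_lit 347) (nat_lit 5) (nat_lit 348) (nat_lit 5) (nat_lit 440) (nat_lit 435) (nat_lit 325)))))) (XT.nd (nat_lit 546) (nat_lit 3344) (nat_lit 0) (XT.nd (nat_lit 234) (nat_lit 2508) (nat_lit 0) (XT.nd (nat_lit 78) (nat_lit 0) (nat_lit 0) (XT.lf (nat_lit 0) (nat_lit 19273917725) (nat_lit 1216) (nat_lit 5652683380) (nat_lit 1292) (nat_lit 1156950848) (nat_lit 332) (nat_lit 5) (nat_lit 348) (nat_lit 5) (nat_lit 349) (nat_lit 5) (nat_lit 441) (nat_lit 435) (nat_lit 324)) (XT.nd (nat_lit 78) (nat_lit 0) (nat_lit 76) (XT.lf (nat_lit 76) (nat_lit 17382508118) (nat_lit 0) (nat_lit 4876850886) (nat_lit 1292) (nat_lit 4498037807) (nat_lit 333) (nat_lit 5) (nat_lit 332) (nat_lit 5) (nat_lit 349) (nat_lit 5) (nat_lit 442) (nat_lit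 435) (nat_lit 323)) (XT.lf (nat_lit 76) (nat_lit 14340051843) (nat_lit 0) (nat_lit 11395743009) (nat_lit 1292) (nat_lit 1718887854) (nat_lit 334) (nat_lit 5) (nat_lit 333) (nat_lit 5) (nat_lit 350) (nat_lit 5) (nat_lit 443) (nat_lit 435) (nat_lit 322)))) (XT.nd (nat_lit 156) (nat_lit 1368) (nat_lit 0) (XT.nd (nat_lit 78) (nat_lit 0) (nat_lit 76) (XT.lf (nat_lit 0) (nat_lit 1518049938) (nat_lit 1292) (nat_lit 16869575079) (nat_lit 1368) (nat_lit 9788595544) (nat_lit 317) (nat_lit 5) (nat_lit 334) (nat_lit 5) (nat_lit 335) (nat_lit 5) (nat_lit 444) (nat_lit 435) (nat_lit 321)) (XT.lf (nat_lit 0) (nat_lit 5233154803) (nat_lit 1292) (nat_lit 20639934152) (nat_lit 76) (nat_lit 3049680127) (nat_lit 318) (nat_lit 5) (nat_lit 335) (nat_lit 5) (nat_lit 319) (nat_lit 5) (nat_lit 445) (nat_lit 435) (nat_lit 320))) (XT.nd (nat_lit 78) (nat_lit 608) (nat_lit 0) (XT.lf (nat_lit 0) (nat_lit 5250901281) (nat_lit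 836) (nat_lit 4285315840) (nat_lit 912) (nat_lit 20158362235) (nat_lit 307) (nat_lit 5) (nat_lit 318) (nat_lit 5) (nat_lit 319) (nat_lit 5) (nat_lit 446) (nat_lit 435) (nat_lit 319)) (XT.lf (nat_lit 0) (nat_lit 2225362648) (nat_lit 608) (nat_lit 12232864462) (nat_lit 684) (nat_lit 16034639574) (nat_lit 299) (nat_lit 5) (nat_lit 307) (nat_lit 5) (nat_lit 308) (nat_lit 5) (nat_lit 447) (nat_lit 435) (nat_lit 318))))) (XT.nd (nat_lit 234) (nat_lit 2128) (nat_lit 0) (XT.nd (nat_lit 78) (nat_lit 1216) (nat_lit 0) (XT.lf (nat_lit 0) (nat_lit 20015838355) (nat_lit 684) (nat_lit 739527668) (nat_lit 76) (nat_lit 10564017692) (nat_lit 299) (nat_lit 5) (nat_lit 308) (nat_lit 5) (nat_lit 300) (nat_lit 5) (nat_lit 448) (nat_lit 435) (nat_lit 317)) (XT.nd (nat_lit 78) (nat_lit 608) (nat_lit 0) (XT.lf (nat_lit 0) (nat_lit 26264114014) (nat_lit 684) (nat_lit 3606687844) (nat_lit 76) (nat_lit 2304041565) (nat_lit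 291) (nat_lit 5) (nat_lit 300) (nat_lit 5) (nat_lit 292) (nat_lit 5) (nat_lit 449) (nat_lit 435) (nat_lit 316)) (XT.lf (nat_lit 0) (nat_lit 226106676) (nat_lit 608) (nat_lit 6476196218) (nat_lit 76) (nat_lit 26356759096) (nat_lit 283) (nat_lit 5) (nat_lit 291) (nat_lit 5) (nat_lit 284) (nat_lit 5) (nat_lit 450) (nat_lit 435) (nat_lit 315)))) (XT.nd (nat_lit 156) (nat_lit 988) (nat_lit 0) (XT.nd (nat_lit 78) (nat_lit 532) (nat_lit 0) (XT.lf (nat_lit 0) (nat_lit 6989600750) (nat_lit 684) (nat_lit 9363665756) (nat_lit 76) (nat_lit 17619207843) (nat_lit 275) (nat_lit 5) (nat_lit 284) (nat_lit 5) (nat_lit 276) (nat_lit 5) (nat_lit 451) (nat_lit 435) (nat_lit 314)) (XT.lf (nat_lit 0) (nat_lit 14518942909) (nat_lit 608) (nat_lit 12178657201) (nat_lit 76) (nat_lit 8221127301) (nat_lit 268) (nat_lit 5) (nat_lit 276) (nat_lit 5) (nat_lit 269) (nat_lit 5) (nat_lit 452) (nat_lit 435) (nat_lit 313))) (XT.nd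 (nat_lit 78) (nat_lit 456) (nat_lit 0) (XT.lf (nat_lit 0) (nat_lit 20970679801) (nat_lit 532) (nat_lit 1911036596) (nat_lit 608) (nat_lit 13016868075) (nat_lit 261) (nat_lit 5) (nat_lit 268) (nat_lit 5) (nat_lit 269) (nat_lit 5) (nat_lit 453) (nat_lit 435) (nat_lit 312)) (XT.lf (nat_lit 0) (nat_lit 19243002086) (nat_lit 456) (nat_lit 12956251141) (nat_lit 532) (nat_lit 4712082680) (nat_lit 255) (nat_lit 5) (nat_lit 261) (nat_lit 5) (nat_lit 262) (nat_lit 5) (nat_lit 454) (nat_lit 435) (nat_lit 311))))))))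
noncomputable def xc100 : XT := (XT.nd (nat_lit 2028) (nat_lit 3040) (nat_lit 0) (XT.nd (nat_lit 1014) (nat_lit 3420) (nat_lit 0) (XT.nd (nat_lit 468) (nat_lit 2508) (nat_lit 0) (XT.nd (nat_lit 234) (nat_lit 1292) (nat_lit 0) (XT.nd (nat_lit 78) (nat_lit 912) (nat_lit 0) (XT.lf (nat_lit 0) (nat_lit 4397724655) (nat_lit 532) (nat_lit 20349424286) (nat_lit 76) (nat_lit 13212380647) (nat_lit 248) (nat_lit 5) (nat_lit 255) (nat_lit 5) (nat_lit 249) (nat_lit 5) (nat_lit 455) (nat_lit 435) (nat_lit 310)) (XT.nd (nat_lit 78) (nat_lit 456) (nat_lit 0) (XT.lf (nat_lit 0) (nat_lit 14346230569) (nat_lit 532) (nat_lit 22968494222) (nat_lit 76) (nat_lit 1729588923) (nat_lit 242) (nat_lit 5) (nat_lit 249) (nat_lit 5) (nat_lit 243) (nat_lit 5) (nat_lit 456) (nat_lit 435) (nat_lit 309)) (XT.lf (nat_lit 0) (nat_lit 14595901229) (nat_lit 456) (nat_lit 10791765367) (nat_lit 532) (nat_lit 14777805524) (nat_lit 236)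 (nat_lit 5) (nat_lit 242) (nat_lit 5) (nat_lit 243) (nat_lit 5) (nat_lit 457) (nat_lit 435) (nat_lit 308)))) (XT.nd (nat_lit 78) (nat_lit 912) (nat_lit 0) (XT.lf (nat_lit 0) (nat_lit 13267967877) (nat_lit 380) (nat_lit 24237568329) (nat_lit 456) (nat_lit 3821421594) (nat_lit 231) (nat_lit 5) (nat_lit 236) (nat_lit 5) (nat_lit 237) (nat_lit 5) (nat_lit 458) (nat_lit 435) (nat_lit 307)) (XT.nd (nat_lit 78) (nat_lit 380) (nat_lit 0) (XT.lf (nat_lit 0) (nat_lit 8057123455) (nat_lit 532) (nat_lit 30482725322) (nat_lit 76) (nat_lit 3988725811) (nat_lit 224) (nat_lit 5) (nat_lit 231) (nat_lit 5) (nat_lit 225) (nat_lit 5) (nat_lit 459) (nat_lit 435) (nat_lit 306)) (XT.lf (nat_lit 0) (nat_lit 10879542644) (nat_lit 380) (nat_lit 10207093429) (nat_lit 456) (nat_lit 22683419055) (nat_lit 219) (nat_lit 5) (nat_lit 224) (nat_lit 5) (nat_lit 225) (nat_lit 5) (nat_lit 460) (nat_lit 435) (nat_lit 305))))) (XT.nd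 (nat_lit 234) (nat_lit 1292) (nat_lit 0) (XT.nd (nat_lit 78) (nat_lit 836) (nat_lit 0) (XT.lf (nat_lit 0) (nat_lit 9877210134) (nat_lit 380) (nat_lit 25484711751) (nat_lit 456) (nat_lit 9693859057) (nat_lit 214) (nat_lit 5) (nat_lit 219) (nat_lit 5) (nat_lit 220) (nat_lit 5) (nat_lit 461) (nat_lit 435) (nat_lit 304)) (XT.nd (nat_lit 78) (nat_lit 380) (nat_lit 0) (XT.lf (nat_lit 0) (nat_lit 4440604627) (nat_lit 456) (nat_lit 37332973084) (nat_lit 76) (nat_lit 4613905480) (nat_lit 208) (nat_lit 5) (nat_lit 214) (nat_lit 5) (nat_lit 209) (nat_lit 5) (nat_lit 462) (nat_lit 435) (nat_lit 303)) (XT.lf (nat_lit 0) (nat_lit 8254774690) (nat_lit 380) (nat_lit 11525589724) (nat_lit 456) (nat_lit 27981555226) (nat_lit 203) (nat_lit 5) (nat_lit 208) (nat_lit 5) (nat_lit 209) (nat_lit 5) (nat_lit 463) (nat_lit 435) (nat_lit 302)))) (XT.nd (nat_lit 156) (nat_lit 608) (nat_lit 0) (XT.nd (nat_lit 78) (nat_lit 380)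 (nat_lit 0) (XT.lf (nat_lit 0) (nat_lit 7652477661) (nat_lit 304) (nat_lit 28885878229) (nat_lit 380) (nat_lit 12647184856) (nat_lit 199) (nat_lit 5) (nat_lit 203) (nat_lit 5) (nat_lit 204) (nat_lit 5) (nat_lit 464) (nat_lit 435) (nat_lit 301)) (XT.lf (nat_lit 0) (nat_lit 4011016831) (nat_lit 380) (nat_lit 43383926669) (nat_lit 76) (nat_lit 3265668184) (nat_lit 194) (nat_lit 5) (nat_lit 199) (nat_lit 5) (nat_lit 195) (nat_lit 5) (nat_lit 465) (nat_lit 435) (nat_lit 300))) (XT.nd (nat_lit 78) (nat_lit 304) (nat_lit 0) (XT.lf (nat_lit 0) (nat_lit 6902627490) (nat_lit 304) (nat_lit 15125378994) (nat_lit 380) (nat_lit 30154049992) (nat_lit 190) (nat_lit 5) (nat_lit 194) (nat_lit 5) (nat_lit 195) (nat_lit 5) (nat_lit 466) (nat_lit 435) (nat_lit 299)) (XT.lf (nat_lit 0) (nat_lit 6784815458) (nat_lit 304) (nat_lit 34853044789) (nat_lit 380) (nat_lit 12120952944) (nat_lit 186) (nat_lit 5) (nat_lit 190)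 (nat_lit 5) (nat_lit 191) (nat_lit 5) (nat_lit 467) (nat_lit 435) (nat_lit 298)))))) (XT.nd (nat_lit 468) (nat_lit 1596) (nat_lit 0) (XT.nd (nat_lit 234) (nat_lit 912) (nat_lit 0) (XT.nd (nat_lit 78) (nat_lit 532) (nat_lit 0) (XT.lf (nat_lit 0) (nat_lit 6903312623) (nat_lit 304) (nat_lit 462847161) (nat_lit 380) (nat_lit 48025723442) (nat_lit 181) (nat_lit 5) (nat_lit 185) (nat_lit 5) (nat_lit 186) (nat_lit 5) (nat_lit 468) (nat_lit 435) (nat_lit 297)) (XT.nd (nat_lit 78) (nat_lit 228) (nat_lit 0) (XT.lf (nat_lit 0) (nat_lit 7024708322) (nat_lit 304) (nat_lit 21448799172) (nat_lit 380) (nat_lit 28602602314) (nat_lit 177) (nat_lit 5) (nat_lit 181) (nat_lit 5) (nat_lit 182) (nat_lit 5) (nat_lit 469) (nat_lit 435) (nat_lit 296)) (XT.lf (nat_lit 0) (nat_lit 7486362888) (nat_lit 228) (nat_lit 43867358155) (nat_lit 304) (nat_lit 7469301828) (nat_lit 174) (nat_lit 5) (nat_lit 177) (nat_lit 5) (nat_lit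 178) (nat_lit 5) (nat_lit 470) (nat_lit 435) (nat_lit 295)))) (XT.nd (nat_lit 78) (nat_lit 532) (nat_lit 0) (XT.lf (nat_lit 0) (nat_lit 8093561010) (nat_lit 304) (nat_lit 7150394051) (nat_lit 380) (nat_lit 45384765161) (nat_lit 169) (nat_lit 5) (nat_lit 173) (nat_lit 5) (nat_lit 174) (nat_lit 5) (nat_lit 471) (nat_lit 435) (nat_lit 294)) (XT.nd (nat_lit 78) (nat_lit 304) (nat_lit 0) (XT.lf (nat_lit 0) (nat_lit 8842995934) (nat_lit 228) (nat_lit 31013432460) (nat_lit 304) (nat_lit 22638514627) (nat_lit 166) (nat_lit 5) (nat_lit 169) (nat_lit 5) (nat_lit 170) (nat_lit 5) (nat_lit 472) (nat_lit 435) (nat_lit 293)) (XT.lf (nat_lit 0) (nat_lit 2009850602) (nat_lit 304) (nat_lit 54460775817) (nat_lit 76) (nat_lit 7959818654) (nat_lit 162) (nat_lit 5) (nat_lit 166) (nat_lit 5) (nat_lit 163) (nat_lit 5) (nat_lit 473) (nat_lit 435) (nat_lit 292))))) (XT.nd (nat_lit 234) (nat_lit 836) (nat_lit 0) (XT.nd (nat_lit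 78) (nat_lit 532) (nat_lit 0) (XT.lf (nat_lit 0) (nat_lit 11111087539) (nat_lit 228) (nat_lit 17289529370) (nat_lit 304) (nat_lit 38026035625) (nat_lit 159) (nat_lit 5) (nat_lit 162) (nat_lit 5) (nat_lit 163) (nat_lit 5) (nat_lit 474) (nat_lit 435) (nat_lit 291)) (XT.nd (nat_lit 78) (nat_lit 304) (nat_lit 0) (XT.lf (nat_lit 0) (nat_lit 12598759697) (nat_lit 228) (nat_lit 44425041609) (nat_lit 304) (nat_lit 11471482744) (nat_lit 156) (nat_lit 5) (nat_lit 159) (nat_lit 5) (nat_lit 160) (nat_lit 5) (nat_lit 475) (nat_lit 435) (nat_lit 290)) (XT.lf (nat_lit 0) (nat_lit 14350675298) (nat_lit 228) (nat_lit 2623819237) (nat_lit 304) (nat_lit 53661602244) (nat_lit 152) (nat_lit 5) (nat_lit 155) (nat_lit 5) (nat_lit 156) (nat_lit 5) (nat_lit 476) (nat_lit 435) (nat_lit 289)))) (XT.nd (nat_lit 156) (nat_lit 380) (nat_lit 0) (XT.nd (nat_lit 78) (nat_lit 228) (nat_lit 0) (XT.lf (nat_lit 0) (nat_lit 16203801588)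 (nat_lit 228) (nat_lit 31533984374) (nat_lit 304) (nat_lit 25108788982) (nat_lit 149) (nat_lit 5) (nat_lit 152) (nat_lit 5) (nat_lit 153) (nat_lit 5) (nat_lit 477) (nat_lit 435) (nat_lit 288)) (XT.lf (nat_lit 0) (nat_lit 5689344905) (nat_lit 228) (nat_lit 56645997622) (nat_lit 76) (nat_lit 12803447360) (nat_lit 146) (nat_lit 5) (nat_lit 149) (nat_lit 5) (nat_lit 147) (nat_lit 5) (nat_lit 478) (nat_lit 435) (nat_lit 287))) (XT.nd (nat_lit 78) (nat_lit 152) (nat_lit 0) (XT.lf (nat_lit 0) (nat_lit 20864686886) (nat_lit 228) (nat_lit 17752614048) (nat_lit 304) (nat_lit 38887580534) (nat_lit 143) (nat_lit 5) (nat_lit 146) (nat_lit 5) (nat_lit 147) (nat_lit 5) (nat_lit 479) (nat_lit 435) (nat_lit 286)) (XT.lf (nat_lit 0) (nat_lit 23633350108) (nat_lit 152) (nat_lit 50650467751) (nat_lit 228) (nat_lit 5672694931) (nat_lit 141) (nat_lit 5) (nat_lit 143) (nat_lit 5) (nat_lit 144) (nat_lit 5) (nat_lit 480)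 (nat_lit 435) (nat_lit 285))))))) (XT.nd (nat_lit 1014) (nat_lit 456) (nat_lit 0) (XT.nd (nat_lit 468) (nat_lit 1292) (nat_lit 0) (XT.nd (nat_lit 234) (nat_lit 532) (nat_lit 0) (XT.nd (nat_lit 78) (nat_lit 456) (nat_lit 0) (XT.lf (nat_lit 0) (nat_lit 26639643438) (nat_lit 228) (nat_lit 3014355639) (nat_lit 304) (nat_lit 52837677603) (nat_lit 137) (nat_lit 5) (nat_lit 140) (nat_lit 5) (nat_lit 141) (nat_lit 5) (nat_lit 481) (nat_lit 435) (nat_lit 284)) (XT.nd (nat_lit 78) (nat_lit 304) (nat_lit 0) (XT.lf (nat_lit 0) (nat_lit 29853716935) (nat_lit 152) (nat_lit 38098323742) (nat_lit 228) (nat_lit 17160203189) (nat_lit 135) (nat_lit 5) (nat_lit 137) (nat_lit 5) (nat_lit 138) (nat_lit 5) (nat_lit 482) (nat_lit 435) (nat_lit 283)) (XT.lf (nat_lit 0) (nat_lit 20958408415) (nat_lit 304) (nat_lit 54368505974) (nat_lit 76) (nat_lit 12499468300) (nat_lit 131) (nat_lit 5) (nat_lit 135) (nat_lit 5) (nat_lit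 132) (nat_lit 5) (nat_lit 483) (nat_lit 435) (nat_lit 282)))) (XT.nd (nat_lit 78) (nat_lit 380) (nat_lit 0) (XT.lf (nat_lit 0) (nat_lit 37264260491) (nat_lit 152) (nat_lit 24681348367) (nat_lit 228) (nat_lit 28685995820) (nat_lit 129) (nat_lit 5) (nat_lit 131) (nat_lit 5) (nat_lit 132) (nat_lit 5) (nat_lit 484) (nat_lit 435) (nat_lit 281)) (XT.nd (nat_lit 78) (nat_lit 152) (nat_lit 0) (XT.lf (nat_lit 0) (nat_lit 12430729661) (nat_lit 228) (nat_lit 52080557969) (nat_lit 76) (nat_lit 29025065129) (nat_lit 126) (nat_lit 5) (nat_lit 129) (nat_lit 5) (nat_lit 127) (nat_lit 5) (nat_lit 485) (nat_lit 435) (nat_lit 280)) (XT.lf (nat_lit 0) (nat_lit 45912246104) (nat_lit 152) (nat_lit 10345729159) (nat_lit 228) (nat_lit 40282403799) (nat_lit 124) (nat_lit 5) (nat_lit 126) (nat_lit 5) (nat_lit 127) (nat_lit 5) (nat_lit 486) (nat_lit 435) (nat_lit 279))))) (XT.nd (nat_lit 234) (nat_lit 760) (nat_lit 0) (XT.nd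 (nat_lit 78) (nat_lit 304) (nat_lit 0) (XT.lf (nat_lit 0) (nat_lit 4019931558) (nat_lit 228) (nat_lit 48942560282) (nat_lit 76) (nat_lit 46686720127) (nat_lit 121) (nat_lit 5) (nat_lit 124) (nat_lit 5) (nat_lit 122) (nat_lit 5) (nat_lit 487) (nat_lit 435) (nat_lit 278)) (XT.nd (nat_lit 78) (nat_lit 152) (nat_lit 0) (XT.lf (nat_lit 0) (nat_lit 50924501100) (nat_lit 228) (nat_lit 47077166148) (nat_lit 76) (nat_lit 4863247651) (nat_lit 119) (nat_lit 5) (nat_lit 122) (nat_lit 5) (nat_lit 120) (nat_lit 5) (nat_lit 488) (nat_lit 435) (nat_lit 277)) (XT.lf (nat_lit 0) (nat_lit 61200959869) (nat_lit 152) (nat_lit 40602379076) (nat_lit 228) (nat_lit 4389192872) (nat_lit 117) (nat_lit 5) (nat_lit 119) (nat_lit 5) (nat_lit 120) (nat_lit 5) (nat_lit 489) (nat_lit 435) (nat_lit 276)))) (XT.nd (nat_lit 156) (nat_lit 380) (nat_lit 0) (XT.nd (nat_lit 78) (nat_lit 152) (nat_lit 0) (XT.lf (nat_lit 0) (nat_lit 45987060154)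 (nat_lit 228) (nat_lit 42777811779) (nat_lit 76) (nat_lit 20868441670) (nat_lit 114) (nat_lit 5) (nat_lit 117) (nat_lit 5) (nat_lit 115) (nat_lit 5) (nat_lit 490) (nat_lit 435) (nat_lit 275)) (XT.lf (nat_lit 0) (nat_lit 72963346950) (nat_lit 152) (nat_lit 27405240884) (nat_lit 228) (nat_lit 12828925836) (nat_lit 112) (nat_lit 5) (nat_lit 114) (nat_lit 5) (nat_lit 115) (nat_lit 5) (nat_lit 491) (nat_lit 435) (nat_lit 274))) (XT.nd (nat_lit 78) (nat_lit 152) (nat_lit 0) (XT.lf (nat_lit 0) (nat_lit 41317646467) (nat_lit 228) (nat_lit 37649858935) (nat_lit 76) (nat_lit 37913353091) (nat_lit 109) (nat_lit 5) (nat_lit 112) (nat_lit 5) (nat_lit 110) (nat_lit 5) (nat_lit 492) (nat_lit 435) (nat_lit 273)) (XT.lf (nat_lit 0) (nat_lit 86038527831) (nat_lit 152) (nat_lit 13389692472) (nat_lit 228) (nat_lit 21270679864) (nat_lit 107) (nat_lit 5) (nat_lit 109) (nat_lit 5) (nat_lit 110) (nat_lit 5) (nat_lit 493)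 (nat_lit 435) (nat_lit 272)))))) (XT.nd (nat_lit 58344) (nat_lit 0) (nat_lit 15656) (XT.nd (nat_lit 58032) (nat_lit 0) (nat_lit 17252) (XT.nd (nat_lit 156) (nat_lit 304) (nat_lit 0) (XT.lf (nat_lit 0) (nat_lit 36876047953) (nat_lit 152) (nat_lit 31734072940) (nat_lit 76) (nat_lit 56032309933) (nat_lit 105) (nat_lit 5) (nat_lit 107) (nat_lit 5) (nat_lit 106) (nat_lit 5) (nat_lit 494) (nat_lit 435) (nat_lit 271)) (XT.nd (nat_lit 57798) (nat_lit 0) (nat_lit 17176) (XT.lf (nat_lit 0) (nat_lit 32607617386) (nat_lit 152) (nat_lit 25098224705) (nat_lit 76) (nat_lit 75249891128) (nat_lit 101) (nat_lit 5) (nat_lit 103) (nat_lit 5) (nat_lit 102) (nat_lit 5) (nat_lit 496) (nat_lit 435) (nat_lit 269)) (XT.lf (nat_lit 0) (nat_lit 5568917472) (nat_lit 1292) (nat_lit 3113578344) (nat_lit 1292) (nat_lit 3113578344) (nat_lit 327) (nat_lit 3) (nat_lit 344) (nat_lit 3) (nat_lit 344) (nat_lit 5) (nat_lit 436) (nat_lit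 436) (nat_lit 328)))) (XT.nd (nat_lit 156) (nat_lit 0) (nat_lit 76) (XT.nd (nat_lit 78) (nat_lit 0) (nat_lit 0) (XT.lf (nat_lit 0) (nat_lit 11759202911) (nat_lit 1216) (nat_lit 10571680526) (nat_lit 1292) (nat_lit 1840771979) (nat_lit 328) (nat_lit 5) (nat_lit 344) (nat_lit 5) (nat_lit 345) (nat_lit 5) (nat_lit 437) (nat_lit 436) (nat_lit 327)) (XT.lf (nat_lit 76) (nat_lit 9778330125) (nat_lit 0) (nat_lit 2954889643) (nat_lit 1292) (nat_lit 12037271254) (nat_lit 329) (nat_lit 5) (nat_lit 328) (nat_lit 5) (nat_lit 345) (nat_lit 5) (nat_lit 438) (nat_lit 436) (nat_lit 326))) (XT.nd (nat_lit 78) (nat_lit 0) (nat_lit 76) (XT.lf (nat_lit 76) (nat_lit 5910692154) (nat_lit 0) (nat_lit 8167282858) (nat_lit 1292) (nat_lit 11311632817) (nat_lit 330) (nat_lit 5) (nat_lit 329) (nat_lit 5) (nat_lit 346) (nat_lit 5) (nat_lit 439) (nat_lit 436) (nat_lit 325)) (XT.lf (nat_lit 76) (nat_lit 2019620497) (nat_lit 0)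 (nat_lit 13782165676) (nat_lit 1292) (nat_lit 10228540277) (nat_lit 331) (nat_lit 5) (nat_lit 330) (nat_lit 5) (nat_lit 347) (nat_lit 5) (nat_lit 440) (nat_lit 436) (nat_lit 324))))) (XT.nd (nat_lit 234) (nat_lit 1824) (nat_lit 0) (XT.nd (nat_lit 78) (nat_lit 0) (nat_lit 76) (XT.lf (nat_lit 0) (nat_lit 17950632601) (nat_lit 1216) (nat_lit 1853547424) (nat_lit 1292) (nat_lit 6888736131) (nat_lit 331) (nat_lit 5) (nat_lit 347) (nat_lit 5) (nat_lit 348) (nat_lit 5) (nat_lit 441) (nat_lit 436) (nat_lit 323)) (XT.nd (nat_lit 78) (nat_lit 0) (nat_lit 0) (XT.lf (nat_lit 0) (nat_lit 20555223304) (nat_lit 1216) (nat_lit 5701067308) (nat_lit 1292) (nat_lit 1121896148) (nat_lit 332) (nat_lit 5) (nat_lit 348) (nat_lit 5) (nat_lit 349) (nat_lit 5) (nat_lit 442) (nat_lit 436) (nat_lit 322)) (XT.lf (nat_lit 76) (nat_lit 18479169029) (nat_lit 0) (nat_lit 5197830557) (nat_lit 1292) (nat_lit 4409113076) (nat_lit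 333) (nat_lit 5) (nat_lit 332) (nat_lit 5) (nat_lit 349) (nat_lit 5) (nat_lit 443) (nat_lit 436) (nat_lit 321)))) (XT.nd (nat_lit 156) (nat_lit 760) (nat_lit 0) (XT.nd (nat_lit 78) (nat_lit 1216) (nat_lit 0) (XT.lf (nat_lit 76) (nat_lit 15287679506) (nat_lit 0) (nat_lit 12026580230) (nat_lit 1292) (nat_lit 1504393700) (nat_lit 334) (nat_lit 5) (nat_lit 333) (nat_lit 5) (nat_lit 350) (nat_lit 5) (nat_lit 444) (nat_lit 436) (nat_lit 320)) (XT.lf (nat_lit 0) (nat_lit 1876199331) (nat_lit 1292) (nat_lit 17474327924) (nat_lit 1368) (nat_lit 10226024768) (nat_lit 317) (nat_lit 5) (nat_lit 334) (nat_lit 5) (nat_lit 335) (nat_lit 5) (nat_lit 445) (nat_lit 436) (nat_lit 319))) (XT.nd (nat_lit 78) (nat_lit 836) (nat_lit 0) (XT.lf (nat_lit 0) (nat_lit 5765471751) (nat_lit 1292) (nat_lit 21431528972) (nat_lit 76) (nat_lit 3163775455) (nat_lit 318) (nat_lit 5) (nat_lit 335) (nat_lit 5) (nat_lit 319) (nat_lit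 5) (nat_lit 446) (nat_lit 436) (nat_lit 318)) (XT.lf (nat_lit 0) (nat_lit 5746957161) (nat_lit 836) (nat_lit 4526086140) (nat_lit 912) (nat_lit 20898453534) (nat_lit 307) (nat_lit 5) (nat_lit 318) (nat_lit 5) (nat_lit 319) (nat_lit 5) (nat_lit 447) (nat_lit 436) (nat_lit 317))))))))
noncomputable def xc101 : XT := (XT.nd (nat_lit 2028) (nat_lit 4788) (nat_lit 0) (XT.nd (nat_lit 1014) (nat_lit 4408) (nat_lit 0) (XT.nd (nat_lit 468) (nat_lit 3344) (nat_lit 0) (XT.nd (nat_lit 234) (nat_lit 1748) (nat_lit 0) (XT.nd (nat_lit 78) (nat_lit 608) (nat_lit 0) (XT.lf (nat_lit 0) (nat_lit 2571283105) (nat_lit 608) (nat_lit 12859501979) (nat_lit 684) (nat_lit 16579225032) (nat_lit 299) (nat_lit 5) (nat_lit 307) (nat_lit 5) (nat_lit 308) (nat_lit 5) (nat_lit 448) (nat_lit 436) (nat_lit 316)) (XT.nd (nat_lit 78) (nat_lit 608) (nat_lit 0) (XT.lf (nat_lit 0) (nat_lit 21254251685) (nat_lit 684) (nat_lit 545745612)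 (nat_lit 76) (nat_lit 11078216957) (nat_lit 299) (nat_lit 5) (nat_lit 308) (nat_lit 5) (nat_lit 300) (nat_lit 5) (nat_lit 449) (nat_lit 436) (nat_lit 315)) (XT.lf (nat_lit 0) (nat_lit 27805738932) (nat_lit 684) (nat_lit 3555973595) (nat_lit 76) (nat_lit 2415010963) (nat_lit 291) (nat_lit 5) (nat_lit 300) (nat_lit 5) (nat_lit 292) (nat_lit 5) (nat_lit 450) (nat_lit 436) (nat_lit 314)))) (XT.nd (nat_lit 78) (nat_lit 1140) (nat_lit 0) (XT.lf (nat_lit 0) (nat_lit 459295577) (nat_lit 608) (nat_lit 6571155622) (nat_lit 76) (nat_lit 27674898573) (nat_lit 283) (nat_lit 5) (nat_lit 291) (nat_lit 5) (nat_lit 284) (nat_lit 5) (nat_lit 451) (nat_lit 436) (nat_lit 313)) (XT.nd (nat_lit 78) (nat_lit 532) (nat_lit 0) (XT.lf (nat_lit 0) (nat_lit 7552620200) (nat_lit 684) (nat_lit 9603231500) (nat_lit 76) (nat_lit 18508831794) (nat_lit 275) (nat_lit 5) (nat_lit 284) (nat_lit 5) (nat_lit 276) (nat_lit 5) (nat_lit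 452) (nat_lit 436) (nat_lit 312)) (XT.lf (nat_lit 0) (nat_lit 15450554714) (nat_lit 608) (nat_lit 12559511811) (nat_lit 76) (nat_lit 8648419326) (nat_lit 268) (nat_lit 5) (nat_lit 276) (nat_lit 5) (nat_lit 269) (nat_lit 5) (nat_lit 453) (nat_lit 436) (nat_lit 311))))) (XT.nd (nat_lit 234) (nat_lit 1824) (nat_lit 0) (XT.nd (nat_lit 78) (nat_lit 988) (nat_lit 0) (XT.lf (nat_lit 0) (nat_lit 22240754224) (nat_lit 532) (nat_lit 1983048680) (nat_lit 608) (nat_lit 13463763161) (nat_lit 261) (nat_lit 5) (nat_lit 268) (nat_lit 5) (nat_lit 269) (nat_lit 5) (nat_lit 454) (nat_lit 436) (nat_lit 310)) (XT.nd (nat_lit 78) (nat_lit 532) (nat_lit 0) (XT.lf (nat_lit 0) (nat_lit 20425899562) (nat_lit 456) (nat_lit 13574225871) (nat_lit 532) (nat_lit 4751042736) (nat_lit 255) (nat_lit 5) (nat_lit 261) (nat_lit 5) (nat_lit 262) (nat_lit 5) (nat_lit 455) (nat_lit 436) (nat_lit 309)) (XT.lf (nat_lit 0) (nat_lit 4803645230)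 (nat_lit 532) (nat_lit 21143475101) (nat_lit 76) (nat_lit 13904798005) (nat_lit 248) (nat_lit 5) (nat_lit 255) (nat_lit 5) (nat_lit 249) (nat_lit 5) (nat_lit 456) (nat_lit 436) (nat_lit 308)))) (XT.nd (nat_lit 156) (nat_lit 912) (nat_lit 0) (XT.nd (nat_lit 78) (nat_lit 456) (nat_lit 0) (XT.lf (nat_lit 0) (nat_lit 15243166672) (nat_lit 532) (nat_lit 23894881521) (nat_lit 76) (nat_lit 1853086087) (nat_lit 242) (nat_lit 5) (nat_lit 249) (nat_lit 5) (nat_lit 243) (nat_lit 5) (nat_lit 457) (nat_lit 436) (nat_lit 307)) (XT.lf (nat_lit 0) (nat_lit 15541369045) (nat_lit 456) (nat_lit 11288825083) (nat_lit 532) (nat_lit 15338351193) (nat_lit 236) (nat_lit 5) (nat_lit 242) (nat_lit 5) (nat_lit 243) (nat_lit 5) (nat_lit 458) (nat_lit 436) (nat_lit 306))) (XT.nd (nat_lit 78) (nat_lit 532) (nat_lit 0) (XT.lf (nat_lit 0) (nat_lit 14145511053) (nat_lit 380) (nat_lit 25402649037) (nat_lit 456) (nat_lit 3840119399)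 (nat_lit 231) (nat_lit 5) (nat_lit 236) (nat_lit 5) (nat_lit 237) (nat_lit 5) (nat_lit 459) (nat_lit 436) (nat_lit 305)) (XT.lf (nat_lit 0) (nat_lit 8623436304) (nat_lit 532) (nat_lit 31791151588) (nat_lit 76) (nat_lit 4235506372) (nat_lit 224) (nat_lit 5) (nat_lit 231) (nat_lit 5) (nat_lit 225) (nat_lit 5) (nat_lit 460) (nat_lit 436) (nat_lit 304)))))) (XT.nd (nat_lit 468) (nat_lit 2128) (nat_lit 0) (XT.nd (nat_lit 234) (nat_lit 1064) (nat_lit 0) (XT.nd (nat_lit 78) (nat_lit 836) (nat_lit 0) (XT.lf (nat_lit 0) (nat_lit 11633046492) (nat_lit 380) (nat_lit 10665608508) (nat_lit 456) (nat_lit 23655167172) (nat_lit 219) (nat_lit 5) (nat_lit 224) (nat_lit 5) (nat_lit 225) (nat_lit 5) (nat_lit 461) (nat_lit 436) (nat_lit 303)) (XT.nd (nat_lit 78) (nat_lit 456) (nat_lit 0) (XT.lf (nat_lit 0) (nat_lit 10578707249) (nat_lit 380) (nat_lit 26703959458) (nat_lit 456) (nat_lit 10021318965) (nat_lit 214) (nat_lit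 5) (nat_lit 219) (nat_lit 5) (nat_lit 220) (nat_lit 5) (nat_lit 462) (nat_lit 436) (nat_lit 302)) (XT.lf (nat_lit 0) (nat_lit 4811963084) (nat_lit 456) (nat_lit 38991021094) (nat_lit 76) (nat_lit 4899388837) (nat_lit 208) (nat_lit 5) (nat_lit 214) (nat_lit 5) (nat_lit 209) (nat_lit 5) (nat_lit 463) (nat_lit 436) (nat_lit 301)))) (XT.nd (nat_lit 78) (nat_lit 684) (nat_lit 0) (XT.lf (nat_lit 0) (nat_lit 8870134573) (nat_lit 380) (nat_lit 12043413138) (nat_lit 456) (nat_lit 29232138684) (nat_lit 203) (nat_lit 5) (nat_lit 208) (nat_lit 5) (nat_lit 209) (nat_lit 5) (nat_lit 464) (nat_lit 436) (nat_lit 300)) (XT.nd (nat_lit 78) (nat_lit 380) (nat_lit 0) (XT.lf (nat_lit 0) (nat_lit 8235573921) (nat_lit 304) (nat_lit 30269462057) (nat_lit 380) (nat_lit 13135584865) (nat_lit 199) (nat_lit 5) (nat_lit 203) (nat_lit 5) (nat_lit 204) (nat_lit 5) (nat_lit 465) (nat_lit 436) (nat_lit 299)) (XT.lf (nat_lit 0)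 (nat_lit 4348482036) (nat_lit 380) (nat_lit 45352158715) (nat_lit 76) (nat_lit 3488890322) (nat_lit 194) (nat_lit 5) (nat_lit 199) (nat_lit 5) (nat_lit 195) (nat_lit 5) (nat_lit 466) (nat_lit 436) (nat_lit 298))))) (XT.nd (nat_lit 234) (nat_lit 1140) (nat_lit 0) (XT.nd (nat_lit 78) (nat_lit 684) (nat_lit 0) (XT.lf (nat_lit 0) (nat_lit 7442962551) (nat_lit 304) (nat_lit 15818715306) (nat_lit 380) (nat_lit 31525509725) (nat_lit 190) (nat_lit 5) (nat_lit 194) (nat_lit 5) (nat_lit 195) (nat_lit 5) (nat_lit 467) (nat_lit 436) (nat_lit 297)) (XT.nd (nat_lit 78) (nat_lit 380) (nat_lit 0) (XT.lf (nat_lit 0) (nat_lit 7316934706) (nat_lit 304) (nat_lit 36531221187) (nat_lit 380) (nat_lit 12594742464) (nat_lit 186) (nat_lit 5) (nat_lit 190) (nat_lit 5) (nat_lit 191) (nat_lit 5) (nat_lit 468) (nat_lit 436) (nat_lit 296)) (XT.lf (nat_lit 0) (nat_lit 7438337980) (nat_lit 304) (nat_lit 421457026) (nat_lit 380)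 (nat_lit 50297919405) (nat_lit 181) (nat_lit 5) (nat_lit 185) (nat_lit 5) (nat_lit 186) (nat_lit 5) (nat_lit 469) (nat_lit 436) (nat_lit 295)))) (XT.nd (nat_lit 156) (nat_lit 608) (nat_lit 0) (XT.nd (nat_lit 78) (nat_lit 228) (nat_lit 0) (XT.lf (nat_lit 0) (nat_lit 7563413739) (nat_lit 304) (nat_lit 22455521263) (nat_lit 380) (nat_lit 29907324726) (nat_lit 177) (nat_lit 5) (nat_lit 181) (nat_lit 5) (nat_lit 182) (nat_lit 5) (nat_lit 470) (nat_lit 436) (nat_lit 294)) (XT.lf (nat_lit 0) (nat_lit 8045714416) (nat_lit 228) (nat_lit 45994027384) (nat_lit 304) (nat_lit 7720879309) (nat_lit 174) (nat_lit 5) (nat_lit 177) (nat_lit 5) (nat_lit 178) (nat_lit 5) (nat_lit 471) (nat_lit 436) (nat_lit 293))) (XT.nd (nat_lit 78) (nat_lit 228) (nat_lit 0) (XT.lf (nat_lit 0) (nat_lit 8680281489) (nat_lit 304) (nat_lit 7441439461) (nat_lit 380) (nat_lit 47534965591) (nat_lit 169) (nat_lit 5) (nat_lit 173) (nat_lit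 5) (nat_lit 174) (nat_lit 5) (nat_lit 472) (nat_lit 436) (nat_lit 292)) (XT.lf (nat_lit 0) (nat_lit 9464719508) (nat_lit 228) (nat_lit 32496929933) (nat_lit 304) (nat_lit 23654666220) (nat_lit 166) (nat_lit 5) (nat_lit 169) (nat_lit 5) (nat_lit 170) (nat_lit 5) (nat_lit 473) (nat_lit 436) (nat_lit 291))))))) (XT.nd (nat_lit 1014) (nat_lit 1748) (nat_lit 0) (XT.nd (nat_lit 468) (nat_lit 1520) (nat_lit 0) (XT.nd (nat_lit 234) (nat_lit 760) (nat_lit 0) (XT.nd (nat_lit 78) (nat_lit 456) (nat_lit 0) (XT.lf (nat_lit 0) (nat_lit 2220792709) (nat_lit 304) (nat_lit 57004537209) (nat_lit 76) (nat_lit 8423321589) (nat_lit 162) (nat_lit 5) (nat_lit 166) (nat_lit 5) (nat_lit 163) (nat_lit 5) (nat_lit 474) (nat_lit 436) (nat_lit 290)) (XT.nd (nat_lit 78) (nat_lit 228) (nat_lit 0) (XT.lf (nat_lit 0) (nat_lit 11840780364) (nat_lit 228) (nat_lit 18086731390) (nat_lit 304) (nat_lit 39817265266) (nat_lit 159) (nat_lit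 5) (nat_lit 162) (nat_lit 5) (nat_lit 163) (nat_lit 5) (nat_lit 475) (nat_lit 436) (nat_lit 289)) (XT.lf (nat_lit 0) (nat_lit 13400332520) (nat_lit 228) (nat_lit 46578699836) (nat_lit 304) (nat_lit 11937892552) (nat_lit 156) (nat_lit 5) (nat_lit 159) (nat_lit 5) (nat_lit 160) (nat_lit 5) (nat_lit 476) (nat_lit 436) (nat_lit 288)))) (XT.nd (nat_lit 78) (nat_lit 456) (nat_lit 0) (XT.lf (nat_lit 0) (nat_lit 15236957238) (nat_lit 228) (nat_lit 2687953819) (nat_lit 304) (nat_lit 56239937852) (nat_lit 152) (nat_lit 5) (nat_lit 155) (nat_lit 5) (nat_lit 156) (nat_lit 5) (nat_lit 477) (nat_lit 436) (nat_lit 287)) (XT.nd (nat_lit 78) (nat_lit 228) (nat_lit 0) (XT.lf (nat_lit 0) (nat_lit 17180241804) (nat_lit 228) (nat_lit 33043494775) (nat_lit 304) (nat_lit 26262193411) (nat_lit 149) (nat_lit 5) (nat_lit 152) (nat_lit 5) (nat_lit 153) (nat_lit 5) (nat_lit 478) (nat_lit 436) (nat_lit 286)) (XT.lf (nat_lit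 0) (nat_lit 6071302906) (nat_lit 228) (nat_lit 59312609798) (nat_lit 76) (nat_lit 13508890232) (nat_lit 146) (nat_lit 5) (nat_lit 149) (nat_lit 5) (nat_lit 147) (nat_lit 5) (nat_lit 479) (nat_lit 436) (nat_lit 285))))) (XT.nd (nat_lit 234) (nat_lit 836) (nat_lit 0) (XT.nd (nat_lit 78) (nat_lit 456) (nat_lit 0) (XT.lf (nat_lit 0) (nat_lit 22068859530) (nat_lit 228) (nat_lit 18573701827) (nat_lit 304) (nat_lit 40734730683) (nat_lit 143) (nat_lit 5) (nat_lit 146) (nat_lit 5) (nat_lit 147) (nat_lit 5) (nat_lit 480) (nat_lit 436) (nat_lit 284)) (XT.nd (nat_lit 78) (nat_lit 304) (nat_lit 0) (XT.lf (nat_lit 0) (nat_lit 24973473614) (nat_lit 152) (nat_lit 53116567865) (nat_lit 228) (nat_lit 5861534408) (nat_lit 141) (nat_lit 5) (nat_lit 143) (nat_lit 5) (nat_lit 144) (nat_lit 5) (nat_lit 481) (nat_lit 436) (nat_lit 283)) (XT.lf (nat_lit 0) (nat_lit 28127337747) (nat_lit 228) (nat_lit 3099377582) (nat_lit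 304) (nat_lit 55386843251) (nat_lit 137) (nat_lit 5) (nat_lit 140) (nat_lit 5) (nat_lit 141) (nat_lit 5) (nat_lit 482) (nat_lit 436) (nat_lit 282)))) (XT.nd (nat_lit 156) (nat_lit 380) (nat_lit 0) (XT.nd (nat_lit 78) (nat_lit 304) (nat_lit 0) (XT.lf (nat_lit 0) (nat_lit 31499662538) (nat_lit 152) (nat_lit 39937784644) (nat_lit 228) (nat_lit 17927773367) (nat_lit 135) (nat_lit 5) (nat_lit 137) (nat_lit 5) (nat_lit 138) (nat_lit 5) (nat_lit 483) (nat_lit 436) (nat_lit 281)) (XT.lf (nat_lit 0) (nat_lit 22092850631) (nat_lit 304) (nat_lit 56934392648) (nat_lit 76) (nat_lit 13187861618) (nat_lit 131) (nat_lit 5) (nat_lit 135) (nat_lit 5) (nat_lit 132) (nat_lit 5) (nat_lit 484) (nat_lit 436) (nat_lit 280))) (XT.nd (nat_lit 78) (nat_lit 228) (nat_lit 0) (XT.lf (nat_lit 0) (nat_lit 39275639651) (nat_lit 152) (nat_lit 25851075623) (nat_lit 228) (nat_lit 30033953647) (nat_lit 129) (nat_lit 5) (nat_lit 131)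 (nat_lit 5) (nat_lit 132) (nat_lit 5) (nat_lit 485) (nat_lit 436) (nat_lit 279)) (XT.lf (nat_lit 0) (nat_lit 13134901859) (nat_lit 228) (nat_lit 54537178029) (nat_lit 76) (nat_lit 30538610317) (nat_lit 126) (nat_lit 5) (nat_lit 129) (nat_lit 5) (nat_lit 127) (nat_lit 5) (nat_lit 486) (nat_lit 436) (nat_lit 278)))))) (XT.nd (nat_lit 702) (nat_lit 456) (nat_lit 0) (XT.nd (nat_lit 234) (nat_lit 760) (nat_lit 0) (XT.nd (nat_lit 78) (nat_lit 380) (nat_lit 0) (XT.lf (nat_lit 0) (nat_lit 48351040831) (nat_lit 152) (nat_lit 10799910233) (nat_lit 228) (nat_lit 42214043573) (nat_lit 124) (nat_lit 5) (nat_lit 126) (nat_lit 5) (nat_lit 127) (nat_lit 5) (nat_lit 487) (nat_lit 436) (nat_lit 277)) (XT.nd (nat_lit 78) (nat_lit 152) (nat_lit 0) (XT.lf (nat_lit 0) (nat_lit 4299898590) (nat_lit 228) (nat_lit 51247292250) (nat_lit 76) (nat_lit 49082111625) (nat_lit 121) (nat_lit 5) (nat_lit 124) (nat_lit 5) (nat_lit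 122) (nat_lit 5) (nat_lit 488) (nat_lit 436) (nat_lit 276)) (XT.lf (nat_lit 0) (nat_lit 53547859489) (nat_lit 228) (nat_lit 49291006855) (nat_lit 76) (nat_lit 5166979360) (nat_lit 119) (nat_lit 5) (nat_lit 122) (nat_lit 5) (nat_lit 120) (nat_lit 5) (nat_lit 489) (nat_lit 436) (nat_lit 275)))) (XT.nd (nat_lit 156) (nat_lit 380) (nat_lit 0) (XT.nd (nat_lit 78) (nat_lit 228) (nat_lit 0) (XT.lf (nat_lit 0) (nat_lit 64397011886) (nat_lit 152) (nat_lit 42571261679) (nat_lit 228) (nat_lit 4531640917) (nat_lit 117) (nat_lit 5) (nat_lit 119) (nat_lit 5) (nat_lit 120) (nat_lit 5) (nat_lit 490) (nat_lit 436) (nat_lit 274)) (XT.lf (nat_lit 0) (nat_lit 48360190549) (nat_lit 228) (nat_lit 44781519895) (nat_lit 76) (nat_lit 21971054690) (nat_lit 114) (nat_lit 5) (nat_lit 117) (nat_lit 5) (nat_lit 115) (nat_lit 5) (nat_lit 491) (nat_lit 436) (nat_lit 273))) (XT.nd (nat_lit 78) (nat_lit 228) (nat_lit 0) (XT.lf (nat_lit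 0) (nat_lit 76742821792) (nat_lit 152) (nat_lit 28715721820) (nat_lit 228) (nat_lit 13396699162) (nat_lit 112) (nat_lit 5) (nat_lit 114) (nat_lit 5) (nat_lit 115) (nat_lit 5) (nat_lit 492) (nat_lit 436) (nat_lit 272)) (XT.lf (nat_lit 0) (nat_lit 43454130049) (nat_lit 228) (nat_lit 39401875590) (nat_lit 76) (nat_lit 39866777012) (nat_lit 109) (nat_lit 5) (nat_lit 112) (nat_lit 5) (nat_lit 110) (nat_lit 5) (nat_lit 493) (nat_lit 436) (nat_lit 271))))) (XT.nd (nat_lit 58032) (nat_lit 0) (nat_lit 17100) (XT.nd (nat_lit 57876) (nat_lit 0) (nat_lit 17024) (XT.lf (nat_lit 0) (nat_lit 103981079768) (nat_lit 228) (nat_lit 29631060583) (nat_lit 76) (nat_lit 1555029022) (nat_lit 103) (nat_lit 5) (nat_lit 106) (nat_lit 5) (nat_lit 104) (nat_lit 4) (nat_lit 496) (nat_lit 436) (nat_lit 268)) (XT.nd (nat_lit 78) (nat_lit 0) (nat_lit 76) (XT.lf (nat_lit 0) (nat_lit 6038300352) (nat_lit 1292) (nat_lit 3170920297)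 (nat_lit 1292) (nat_lit 3170920297) (nat_lit 327) (nat_lit 3) (nat_lit 344) (nat_lit 3) (nat_lit 344) (nat_lit 5) (nat_lit 437) (nat_lit 437) (nat_lit 326)) (XT.lf (nat_lit 0) (nat_lit 12711011651) (nat_lit 1216) (nat_lit 10896568379) (nat_lit 1292) (nat_lit 1761725914) (nat_lit 328) (nat_lit 5) (nat_lit 344) (nat_lit 5) (nat_lit 345) (nat_lit 5) (nat_lit 438) (nat_lit 437) (nat_lit 325)))) (XT.nd (nat_lit 156) (nat_lit 0) (nat_lit 152) (XT.nd (nat_lit 78) (nat_lit 0) (nat_lit 76) (XT.lf (nat_lit 76) (nat_lit 10465103894) (nat_lit 0) (nat_lit 3253201257) (nat_lit 1292) (nat_lit 12280241704) (nat_lit 329) (nat_lit 5) (nat_lit 328) (nat_lit 5) (nat_lit 345) (nat_lit 5) (nat_lit 439) (nat_lit 437) (nat_lit 324)) (XT.lf (nat_lit 76) (nat_lit 6409986975) (nat_lit 0) (nat_lit 8704299790) (nat_lit 1292) (nat_lit 11534813840) (nat_lit 330) (nat_lit 5) (nat_lit 329) (nat_lit 5) (nat_lit 346) (nat_lit 5)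 (nat_lit 440) (nat_lit 437) (nat_lit 323))) (XT.nd (nat_lit 78) (nat_lit 0) (nat_lit 76) (XT.lf (nat_lit 76) (nat_lit 2329423551) (nat_lit 0) (nat_lit 14579865269) (nat_lit 1292) (nat_lit 10413017053) (nat_lit 331) (nat_lit 5) (nat_lit 330) (nat_lit 5) (nat_lit 347) (nat_lit 5) (nat_lit 441) (nat_lit 437) (nat_lit 322)) (XT.lf (nat_lit 0) (nat_lit 19149468509) (nat_lit 1216) (nat_lit 1737269772) (nat_lit 1292) (nat_lit 7131770746) (nat_lit 331) (nat_lit 5) (nat_lit 347) (nat_lit 5) (nat_lit 348) (nat_lit 5) (nat_lit 442) (nat_lit 437) (nat_lit 321))))))))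
noncomputable def xc102 : XT := (XT.nd (nat_lit 2028) (nat_lit 5928) (nat_lit 0) (XT.nd (nat_lit 1014) (nat_lit 5396) (nat_lit 0) (XT.nd (nat_lit 468) (nat_lit 3496) (nat_lit 0) (XT.nd (nat_lit 234) (nat_lit 1900) (nat_lit 0) (XT.nd (nat_lit 78) (nat_lit 0) (nat_lit 0) (XT.lf (nat_lit 0) (nat_lit 21871065824) (nat_lit 1216) (nat_lit 5773648800) (nat_lit 1292) (nat_lit 1093725883) (nat_lit 332) (nat_lit 5) (nat_lit 348) (nat_lit 5) (nat_lit 349) (nat_lit 5) (nat_lit 443) (nat_lit 437) (nat_lit 320)) (XT.nd (nat_lit 78) (nat_lit 0) (nat_lit 76) (XT.lf (nat_lit 76) (nat_lit 19609508891) (nat_lit 0) (nat_lit 5527687734) (nat_lit 1292) (nat_lit 4344918734) (nat_lit 333) (nat_lit 5) (nat_lit 332) (nat_lit 5) (nat_lit 349) (nat_lit 5) (nat_lit 444) (nat_lit 437) (nat_lit 319)) (XT.lf (nat_lit 76) (nat_lit 16261247220) (nat_lit 0) (nat_lit 12683283455) (nat_lit 1292) (nat_lit 1307106767) (nat_lit 334) (nat_lit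 5) (nat_lit 333) (nat_lit 5) (nat_lit 350) (nat_lit 5) (nat_lit 445) (nat_lit 437) (nat_lit 318)))) (XT.nd (nat_lit 78) (nat_lit 760) (nat_lit 0) (XT.lf (nat_lit 0) (nat_lit 2226015553) (nat_lit 1292) (nat_lit 18131512882) (nat_lit 1368) (nat_lit 10690159971) (nat_lit 317) (nat_lit 5) (nat_lit 334) (nat_lit 5) (nat_lit 335) (nat_lit 5) (nat_lit 446) (nat_lit 437) (nat_lit 317)) (XT.nd (nat_lit 78) (nat_lit 836) (nat_lit 0) (XT.lf (nat_lit 0) (nat_lit 6299241219) (nat_lit 1292) (nat_lit 22285053822) (nat_lit 76) (nat_lit 3287144565) (nat_lit 318) (nat_lit 5) (nat_lit 335) (nat_lit 5) (nat_lit 319) (nat_lit 5) (nat_lit 447) (nat_lit 437) (nat_lit 316)) (XT.lf (nat_lit 0) (nat_lit 6246106212) (nat_lit 836) (nat_lit 4776430817) (nat_lit 912) (nat_lit 21700449396) (nat_lit 307) (nat_lit 5) (nat_lit 318) (nat_lit 5) (nat_lit 319) (nat_lit 5) (nat_lit 448) (nat_lit 437) (nat_lit 315))))) (XT.nd (nat_lit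 234) (nat_lit 2280) (nat_lit 0) (XT.nd (nat_lit 78) (nat_lit 608) (nat_lit 0) (XT.lf (nat_lit 0) (nat_lit 2912683835) (nat_lit 608) (nat_lit 13516077344) (nat_lit 684) (nat_lit 17174946809) (nat_lit 299) (nat_lit 5) (nat_lit 307) (nat_lit 5) (nat_lit 308) (nat_lit 5) (nat_lit 449) (nat_lit 437) (nat_lit 314)) (XT.nd (nat_lit 78) (nat_lit 608) (nat_lit 0) (XT.lf (nat_lit 0) (nat_lit 22532493895) (nat_lit 684) (nat_lit 363728185) (nat_lit 76) (nat_lit 11619427923) (nat_lit 299) (nat_lit 5) (nat_lit 308) (nat_lit 5) (nat_lit 300) (nat_lit 5) (nat_lit 450) (nat_lit 437) (nat_lit 313)) (XT.lf (nat_lit 0) (nat_lit 29403208843) (nat_lit 684) (nat_lit 3524204346) (nat_lit 76) (nat_lit 2531922345) (nat_lit 291) (nat_lit 5) (nat_lit 300) (nat_lit 5) (nat_lit 292) (nat_lit 5) (nat_lit 451) (nat_lit 437) (nat_lit 312)))) (XT.nd (nat_lit 156) (nat_lit 1064) (nat_lit 0) (XT.nd (nat_lit 78) (nat_lit 608) (nat_lit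 0) (XT.lf (nat_lit 0) (nat_lit 683515293) (nat_lit 608) (nat_lit 6692139338) (nat_lit 76) (nat_lit 29058916990) (nat_lit 283) (nat_lit 5) (nat_lit 291) (nat_lit 5) (nat_lit 284) (nat_lit 5) (nat_lit 452) (nat_lit 437) (nat_lit 311)) (XT.lf (nat_lit 0) (nat_lit 8123937752) (nat_lit 684) (nat_lit 9876030224) (nat_lit 76) (nat_lit 19442131486) (nat_lit 275) (nat_lit 5) (nat_lit 284) (nat_lit 5) (nat_lit 276) (nat_lit 5) (nat_lit 453) (nat_lit 437) (nat_lit 310))) (XT.nd (nat_lit 78) (nat_lit 532) (nat_lit 0) (XT.lf (nat_lit 0) (nat_lit 16409626359) (nat_lit 608) (nat_lit 12980613705) (nat_lit 76) (nat_lit 9095566514) (nat_lit 268) (nat_lit 5) (nat_lit 276) (nat_lit 5) (nat_lit 269) (nat_lit 5) (nat_lit 454) (nat_lit 437) (nat_lit 309)) (XT.lf (nat_lit 0) (nat_lit 23553735638) (nat_lit 532) (nat_lit 2060849871) (nat_lit 608) (nat_lit 13951964183) (nat_lit 261) (nat_lit 5) (nat_lit 268) (nat_lit 5) (nat_lit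 269) (nat_lit 5) (nat_lit 455) (nat_lit 437) (nat_lit 308)))))) (XT.nd (nat_lit 468) (nat_lit 2584) (nat_lit 0) (XT.nd (nat_lit 234) (nat_lit 1368) (nat_lit 0) (XT.nd (nat_lit 78) (nat_lit 988) (nat_lit 0) (XT.lf (nat_lit 0) (nat_lit 21647418913) (nat_lit 456) (nat_lit 14225873376) (nat_lit 532) (nat_lit 4810232896) (nat_lit 255) (nat_lit 5) (nat_lit 261) (nat_lit 5) (nat_lit 262) (nat_lit 5) (nat_lit 456) (nat_lit 437) (nat_lit 307)) (XT.nd (nat_lit 78) (nat_lit 456) (nat_lit 0) (XT.lf (nat_lit 0) (nat_lit 5212566123) (nat_lit 532) (nat_lit 21997999967) (nat_lit 76) (nat_lit 14628879924) (nat_lit 248) (nat_lit 5) (nat_lit 255) (nat_lit 5) (nat_lit 249) (nat_lit 5) (nat_lit 457) (nat_lit 437) (nat_lit 306)) (XT.lf (nat_lit 0) (nat_lit 16168249789) (nat_lit 532) (nat_lit 24888231119) (nat_lit 76) (nat_lit 1979316553) (nat_lit 242) (nat_lit 5) (nat_lit 249) (nat_lit 5) (nat_lit 243) (nat_lit 5) (nat_lit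 458) (nat_lit 437) (nat_lit 305)))) (XT.nd (nat_lit 78) (nat_lit 912) (nat_lit 0) (XT.lf (nat_lit 0) (nat_lit 16514059043) (nat_lit 456) (nat_lit 11814691686) (nat_lit 532) (nat_lit 15943504938) (nat_lit 236) (nat_lit 5) (nat_lit 242) (nat_lit 5) (nat_lit 243) (nat_lit 5) (nat_lit 459) (nat_lit 437) (nat_lit 304)) (XT.nd (nat_lit 78) (nat_lit 532) (nat_lit 0) (XT.lf (nat_lit 0) (nat_lit 15047022236) (nat_lit 380) (nat_lit 26630334587) (nat_lit 456) (nat_lit 3875777727) (nat_lit 231) (nat_lit 5) (nat_lit 236) (nat_lit 5) (nat_lit 237) (nat_lit 5) (nat_lit 460) (nat_lit 437) (nat_lit 303)) (XT.lf (nat_lit 0) (nat_lit 9202868142) (nat_lit 532) (nat_lit 33185053839) (nat_lit 76) (nat_lit 4490224340) (nat_lit 224) (nat_lit 5) (nat_lit 231) (nat_lit 5) (nat_lit 225) (nat_lit 5) (nat_lit 461) (nat_lit 437) (nat_lit 302))))) (XT.nd (nat_lit 234) (nat_lit 1368) (nat_lit 0) (XT.nd (nat_lit 78) (nat_lit 836)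 (nat_lit 0) (XT.lf (nat_lit 0) (nat_lit 12404745725) (nat_lit 380) (nat_lit 11151868895) (nat_lit 456) (nat_lit 24690603231) (nat_lit 219) (nat_lit 5) (nat_lit 224) (nat_lit 5) (nat_lit 225) (nat_lit 5) (nat_lit 462) (nat_lit 437) (nat_lit 301)) (XT.nd (nat_lit 78) (nat_lit 456) (nat_lit 0) (XT.lf (nat_lit 0) (nat_lit 11295975136) (nat_lit 380) (nat_lit 27989281802) (nat_lit 456) (nat_lit 10379769906) (nat_lit 214) (nat_lit 5) (nat_lit 219) (nat_lit 5) (nat_lit 220) (nat_lit 5) (nat_lit 463) (nat_lit 437) (nat_lit 300)) (XT.lf (nat_lit 0) (nat_lit 5188006340) (nat_lit 456) (nat_lit 40751365216) (nat_lit 76) (nat_lit 5194052685) (nat_lit 208) (nat_lit 5) (nat_lit 214) (nat_lit 5) (nat_lit 209) (nat_lit 5) (nat_lit 464) (nat_lit 437) (nat_lit 299)))) (XT.nd (nat_lit 156) (nat_lit 684) (nat_lit 0) (XT.nd (nat_lit 78) (nat_lit 304) (nat_lit 0) (XT.lf (nat_lit 0) (nat_lit 9497424656) (nat_lit 380) (nat_lit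 12592562414) (nat_lit 456) (nat_lit 30559056908) (nat_lit 203) (nat_lit 5) (nat_lit 208) (nat_lit 5) (nat_lit 209) (nat_lit 5) (nat_lit 465) (nat_lit 437) (nat_lit 298)) (XT.lf (nat_lit 0) (nat_lit 8829186972) (nat_lit 304) (nat_lit 31727869324) (nat_lit 380) (nat_lit 13661788840) (nat_lit 199) (nat_lit 5) (nat_lit 203) (nat_lit 5) (nat_lit 204) (nat_lit 5) (nat_lit 466) (nat_lit 437) (nat_lit 297))) (XT.nd (nat_lit 78) (nat_lit 304) (nat_lit 0) (XT.lf (nat_lit 0) (nat_lit 4690091502) (nat_lit 380) (nat_lit 47437486117) (nat_lit 76) (nat_lit 3717701031) (nat_lit 194) (nat_lit 5) (nat_lit 199) (nat_lit 5) (nat_lit 195) (nat_lit 5) (nat_lit 467) (nat_lit 437) (nat_lit 296)) (XT.lf (nat_lit 0) (nat_lit 7992166177) (nat_lit 304) (nat_lit 16552569314) (nat_lit 380) (nat_lit 32978209006) (nat_lit 190) (nat_lit 5) (nat_lit 194) (nat_lit 5) (nat_lit 195) (nat_lit 5) (nat_lit 468) (nat_lit 437) (nat_lit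 295))))))) (XT.nd (nat_lit 1014) (nat_lit 2356) (nat_lit 0) (XT.nd (nat_lit 468) (nat_lit 1748) (nat_lit 0) (XT.nd (nat_lit 234) (nat_lit 836) (nat_lit 0) (XT.nd (nat_lit 78) (nat_lit 684) (nat_lit 0) (XT.lf (nat_lit 0) (nat_lit 7857727904) (nat_lit 304) (nat_lit 38299300758) (nat_lit 380) (nat_lit 13104517566) (nat_lit 186) (nat_lit 5) (nat_lit 190) (nat_lit 5) (nat_lit 191) (nat_lit 5) (nat_lit 469) (nat_lit 437) (nat_lit 294)) (XT.nd (nat_lit 78) (nat_lit 304) (nat_lit 0) (XT.lf (nat_lit 0) (nat_lit 7982463247) (nat_lit 304) (nat_lit 383997005) (nat_lit 380) (nat_lit 52695726751) (nat_lit 181) (nat_lit 5) (nat_lit 185) (nat_lit 5) (nat_lit 186) (nat_lit 5) (nat_lit 470) (nat_lit 437) (nat_lit 293)) (XT.lf (nat_lit 0) (nat_lit 8111625243) (nat_lit 304) (nat_lit 23518689283) (nat_lit 380) (nat_lit 31288942477) (nat_lit 177) (nat_lit 5) (nat_lit 181) (nat_lit 5) (nat_lit 182) (nat_lit 5) (nat_lit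 471) (nat_lit 437) (nat_lit 292)))) (XT.nd (nat_lit 78) (nat_lit 608) (nat_lit 0) (XT.lf (nat_lit 0) (nat_lit 8615830870) (nat_lit 228) (nat_lit 48233231085) (nat_lit 304) (nat_lit 7996367618) (nat_lit 174) (nat_lit 5) (nat_lit 177) (nat_lit 5) (nat_lit 178) (nat_lit 5) (nat_lit 472) (nat_lit 437) (nat_lit 291)) (XT.nd (nat_lit 78) (nat_lit 228) (nat_lit 0) (XT.lf (nat_lit 0) (nat_lit 9279413412) (nat_lit 304) (nat_lit 7753217291) (nat_lit 380) (nat_lit 49803743052) (nat_lit 169) (nat_lit 5) (nat_lit 173) (nat_lit 5) (nat_lit 174) (nat_lit 5) (nat_lit 473) (nat_lit 437) (nat_lit 290)) (XT.lf (nat_lit 0) (nat_lit 10100834194) (nat_lit 228) (nat_lit 34060847495) (nat_lit 304) (nat_lit 24732388975) (nat_lit 166) (nat_lit 5) (nat_lit 169) (nat_lit 5) (nat_lit 170) (nat_lit 5) (nat_lit 474) (nat_lit 437) (nat_lit 289))))) (XT.nd (nat_lit 234) (nat_lit 988) (nat_lit 0) (XT.nd (nat_lit 78) (nat_lit 456)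 (nat_lit 0) (XT.lf (nat_lit 0) (nat_lit 2432013367) (nat_lit 304) (nat_lit 59692154184) (nat_lit 76) (nat_lit 8903908985) (nat_lit 162) (nat_lit 5) (nat_lit 166) (nat_lit 5) (nat_lit 163) (nat_lit 5) (nat_lit 475) (nat_lit 437) (nat_lit 288)) (XT.nd (nat_lit 78) (nat_lit 228) (nat_lit 0) (XT.lf (nat_lit 0) (nat_lit 12590768088) (nat_lit 228) (nat_lit 18930048051) (nat_lit 304) (nat_lit 41708289853) (nat_lit 159) (nat_lit 5) (nat_lit 162) (nat_lit 5) (nat_lit 163) (nat_lit 5) (nat_lit 476) (nat_lit 437) (nat_lit 287)) (XT.lf (nat_lit 0) (nat_lit 14226027005) (nat_lit 228) (nat_lit 48846325210) (nat_lit 304) (nat_lit 12437585973) (nat_lit 156) (nat_lit 5) (nat_lit 159) (nat_lit 5) (nat_lit 160) (nat_lit 5) (nat_lit 477) (nat_lit 437) (nat_lit 286)))) (XT.nd (nat_lit 156) (nat_lit 456) (nat_lit 0) (XT.nd (nat_lit 78) (nat_lit 228) (nat_lit 0) (XT.lf (nat_lit 0) (nat_lit 16151864668) (nat_lit 228) (nat_lit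 2761529396) (nat_lit 304) (nat_lit 58956928391) (nat_lit 152) (nat_lit 5) (nat_lit 155) (nat_lit 5) (nat_lit 156) (nat_lit 5) (nat_lit 478) (nat_lit 437) (nat_lit 285)) (XT.lf (nat_lit 0) (nat_lit 18190047669) (nat_lit 228) (nat_lit 34634727275) (nat_lit 304) (nat_lit 27482754310) (nat_lit 149) (nat_lit 5) (nat_lit 152) (nat_lit 5) (nat_lit 153) (nat_lit 5) (nat_lit 479) (nat_lit 437) (nat_lit 284))) (XT.nd (nat_lit 78) (nat_lit 228) (nat_lit 0) (XT.lf (nat_lit 0) (nat_lit 6463295041) (nat_lit 228) (nat_lit 62127956656) (nat_lit 76) (nat_lit 14243537015) (nat_lit 146) (nat_lit 5) (nat_lit 149) (nat_lit 5) (nat_lit 147) (nat_lit 5) (nat_lit 480) (nat_lit 437) (nat_lit 283)) (XT.lf (nat_lit 0) (nat_lit 23318278289) (nat_lit 228) (nat_lit 19442030525) (nat_lit 304) (nat_lit 42683277759) (nat_lit 143) (nat_lit 5) (nat_lit 146) (nat_lit 5) (nat_lit 147) (nat_lit 5) (nat_lit 481) (nat_lit 437) (nat_lit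 282)))))) (XT.nd (nat_lit 546) (nat_lit 912) (nat_lit 0) (XT.nd (nat_lit 234) (nat_lit 836) (nat_lit 0) (XT.nd (nat_lit 78) (nat_lit 456) (nat_lit 0) (XT.lf (nat_lit 0) (nat_lit 26365871557) (nat_lit 152) (nat_lit 55712148390) (nat_lit 228) (nat_lit 6068629024) (nat_lit 141) (nat_lit 5) (nat_lit 143) (nat_lit 5) (nat_lit 144) (nat_lit 5) (nat_lit 482) (nat_lit 437) (nat_lit 281)) (XT.nd (nat_lit 78) (nat_lit 152) (nat_lit 0) (XT.lf (nat_lit 0) (nat_lit 29674940132) (nat_lit 228) (nat_lit 3194758399) (nat_lit 304) (nat_lit 58072087244) (nat_lit 137) (nat_lit 5) (nat_lit 140) (nat_lit 5) (nat_lit 141) (nat_lit 5) (nat_lit 483) (nat_lit 437) (nat_lit 280)) (XT.lf (nat_lit 0) (nat_lit 33213656782) (nat_lit 152) (nat_lit 41875304003) (nat_lit 228) (nat_lit 18742130307) (nat_lit 135) (nat_lit 5) (nat_lit 137) (nat_lit 5) (nat_lit 138) (nat_lit 5) (nat_lit 484) (nat_lit 437) (nat_lit 279)))) (XT.nd (nat_lit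 156) (nat_lit 380) (nat_lit 0) (XT.nd (nat_lit 78) (nat_lit 152) (nat_lit 0) (XT.lf (nat_lit 0) (nat_lit 23275970981) (nat_lit 304) (nat_lit 59642755251) (nat_lit 76) (nat_lit 13904778421) (nat_lit 131) (nat_lit 5) (nat_lit 135) (nat_lit 5) (nat_lit 132) (nat_lit 5) (nat_lit 485) (nat_lit 437) (nat_lit 278)) (XT.lf (nat_lit 0) (nat_lit 41373812686) (nat_lit 152) (nat_lit 27085270980) (nat_lit 228) (nat_lit 31457336623) (nat_lit 129) (nat_lit 5) (nat_lit 131) (nat_lit 5) (nat_lit 132) (nat_lit 5) (nat_lit 486) (nat_lit 437) (nat_lit 277))) (XT.nd (nat_lit 78) (nat_lit 152) (nat_lit 0) (XT.lf (nat_lit 0) (nat_lit 13866599981) (nat_lit 228) (nat_lit 57130333677) (nat_lit 76) (nat_lit 32122041451) (nat_lit 126) (nat_lit 5) (nat_lit 129) (nat_lit 5) (nat_lit 127) (nat_lit 5) (nat_lit 487) (nat_lit 437) (nat_lit 276)) (XT.lf (nat_lit 0) (nat_lit 50898463550) (nat_lit 152) (nat_lit 11282667301) (nat_lit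 228) (nat_lit 44249933583) (nat_lit 124) (nat_lit 5) (nat_lit 126) (nat_lit 5) (nat_lit 127) (nat_lit 5) (nat_lit 488) (nat_lit 437) (nat_lit 275))))) (XT.nd (nat_lit 234) (nat_lit 380) (nat_lit 0) (XT.nd (nat_lit 78) (nat_lit 304) (nat_lit 0) (XT.lf (nat_lit 0) (nat_lit 4586522049) (nat_lit 228) (nat_lit 53680499451) (nat_lit 76) (nat_lit 51591596337) (nat_lit 121) (nat_lit 5) (nat_lit 124) (nat_lit 5) (nat_lit 122) (nat_lit 5) (nat_lit 489) (nat_lit 437) (nat_lit 274)) (XT.nd (nat_lit 78) (nat_lit 152) (nat_lit 0) (XT.lf (nat_lit 0) (nat_lit 56295214672) (nat_lit 228) (nat_lit 51628557107) (nat_lit 76) (nat_lit 5480266492) (nat_lit 119) (nat_lit 5) (nat_lit 122) (nat_lit 5) (nat_lit 120) (nat_lit 5) (nat_lit 490) (nat_lit 437) (nat_lit 273)) (XT.lf (nat_lit 0) (nat_lit 67740222139) (nat_lit 152) (nat_lit 44644281587) (nat_lit 228) (nat_lit 4688371174) (nat_lit 117) (nat_lit 5) (nat_lit 119) (nat_lit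 5) (nat_lit 120) (nat_lit 5) (nat_lit 491) (nat_lit 437) (nat_lit 272)))) (XT.nd (nat_lit 58266) (nat_lit 0) (nat_lit 16340) (XT.nd (nat_lit 78) (nat_lit 152) (nat_lit 0) (XT.lf (nat_lit 0) (nat_lit 50845118342) (nat_lit 228) (nat_lit 46897981402) (nat_lit 76) (nat_lit 23123295349) (nat_lit 114) (nat_lit 5) (nat_lit 117) (nat_lit 5) (nat_lit 115) (nat_lit 5) (nat_lit 492) (nat_lit 437) (nat_lit 271)) (XT.lf (nat_lit 0) (nat_lit 80699062650) (nat_lit 152) (nat_lit 30097284684) (nat_lit 228) (nat_lit 13999710568) (nat_lit 112) (nat_lit 5) (nat_lit 114) (nat_lit 5) (nat_lit 115) (nat_lit 5) (nat_lit 493) (nat_lit 437) (nat_lit 270))) (XT.nd (nat_lit 78) (nat_lit 0) (nat_lit 76) (XT.lf (nat_lit 0) (nat_lit 6513400864) (nat_lit 1292) (nat_lit 3240271786) (nat_lit 1292) (nat_lit 3240271786) (nat_lit 327) (nat_lit 3) (nat_lit 344) (nat_lit 3) (nat_lit 344) (nat_lit 5) (nat_lit 438) (nat_lit 438) (nat_lit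 324)) (XT.lf (nat_lit 0) (nat_lit 13676583633) (nat_lit 1216) (nat_lit 11256638365) (nat_lit 1292) (nat_lit 1694633376) (nat_lit 328) (nat_lit 5) (nat_lit 344) (nat_lit 5) (nat_lit 345) (nat_lit 5) (nat_lit 439) (nat_lit 438) (nat_lit 323))))))))
noncomputable def xc103 : XT := (XT.nd (nat_lit 2106) (nat_lit 6764) (nat_lit 0) (XT.nd (nat_lit 1014) (nat_lit 6688) (nat_lit 0) (XT.nd (nat_lit 468) (nat_lit 2812) (nat_lit 0) (XT.nd (nat_lit 234) (nat_lit 0) (nat_lit 228) (XT.nd (nat_lit 78) (nat_lit 0) (nat_lit 76) (XT.lf (nat_lit 76) (nat_lit 11167821459) (nat_lit 0) (nat_lit 3552430148) (nat_lit 1292) (nat_lit 12568727157) (nat_lit 329) (nat_lit 5) (nat_lit 328) (nat_lit 5) (nat_lit 345) (nat_lit 5) (nat_lit 440) (nat_lit 438) (nat_lit 322)) (XT.nd (nat_lit 78) (nat_lit 0) (nat_lit 76) (XT.lf (nat_lit 76) (nat_lit 6915302844) (nat_lit 0) (nat_lit 9256206652) (nat_lit 1292) (nat_lit 11800987079) (nat_lit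 330) (nat_lit 5) (nat_lit 329) (nat_lit 5) (nat_lit 346) (nat_lit 5) (nat_lit 441) (nat_lit 438) (nat_lit 321)) (XT.lf (nat_lit 76) (nat_lit 2635302465) (nat_lit 0) (nat_lit 15407354050) (nat_lit 1292) (nat_lit 10637114402) (nat_lit 331) (nat_lit 5) (nat_lit 330) (nat_lit 5) (nat_lit 347) (nat_lit 5) (nat_lit 442) (nat_lit 438) (nat_lit 320)))) (XT.nd (nat_lit 78) (nat_lit 0) (nat_lit 76) (XT.lf (nat_lit 0) (nat_lit 20380233797) (nat_lit 1216) (nat_lit 1634604894) (nat_lit 1292) (nat_lit 7396384506) (nat_lit 331) (nat_lit 5) (nat_lit 347) (nat_lit 5) (nat_lit 348) (nat_lit 5) (nat_lit 443) (nat_lit 438) (nat_lit 319)) (XT.nd (nat_lit 78) (nat_lit 0) (nat_lit 0) (XT.lf (nat_lit 0) (nat_lit 23225917396) (nat_lit 1216) (nat_lit 5869612987) (nat_lit 1292) (nat_lit 1071981272) (nat_lit 332) (nat_lit 5) (nat_lit 348) (nat_lit 5) (nat_lit 349) (nat_lit 5) (nat_lit 444) (nat_lit 438) (nat_lit 318)) (XT.lf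 (nat_lit 76) (nat_lit 20777178359) (nat_lit 0) (nat_lit 5867533026) (nat_lit 1292) (nat_lit 4303978734) (nat_lit 333) (nat_lit 5) (nat_lit 332) (nat_lit 5) (nat_lit 349) (nat_lit 5) (nat_lit 445) (nat_lit 438) (nat_lit 317))))) (XT.nd (nat_lit 234) (nat_lit 1976) (nat_lit 0) (XT.nd (nat_lit 78) (nat_lit 1216) (nat_lit 0) (XT.lf (nat_lit 76) (nat_lit 17264045397) (nat_lit 0) (nat_lit 13367673671) (nat_lit 1292) (nat_lit 1125290569) (nat_lit 334) (nat_lit 5) (nat_lit 333) (nat_lit 5) (nat_lit 350) (nat_lit 5) (nat_lit 446) (nat_lit 438) (nat_lit 316)) (XT.nd (nat_lit 78) (nat_lit 0) (nat_lit 76) (XT.lf (nat_lit 0) (nat_lit 2569521551) (nat_lit 1292) (nat_lit 18841688130) (nat_lit 1368) (nat_lit 11181886985) (nat_lit 317) (nat_lit 5) (nat_lit 334) (nat_lit 5) (nat_lit 335) (nat_lit 5) (nat_lit 447) (nat_lit 438) (nat_lit 315)) (XT.lf (nat_lit 0) (nat_lit 6836875280) (nat_lit 1292) (nat_lit 23201527286)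 (nat_lit 76) (nat_lit 3419919332) (nat_lit 318) (nat_lit 5) (nat_lit 335) (nat_lit 5) (nat_lit 319) (nat_lit 5) (nat_lit 448) (nat_lit 438) (nat_lit 314)))) (XT.nd (nat_lit 156) (nat_lit 608) (nat_lit 0) (XT.nd (nat_lit 78) (nat_lit 608) (nat_lit 0) (XT.lf (nat_lit 0) (nat_lit 6750521448) (nat_lit 836) (nat_lit 5037057682) (nat_lit 912) (nat_lit 22565130084) (nat_lit 307) (nat_lit 5) (nat_lit 318) (nat_lit 5) (nat_lit 319) (nat_lit 5) (nat_lit 449) (nat_lit 438) (nat_lit 313)) (XT.lf (nat_lit 0) (nat_lit 3251367075) (nat_lit 608) (nat_lit 14204217054) (nat_lit 684) (nat_lit 17822139070) (nat_lit 299) (nat_lit 5) (nat_lit 307) (nat_lit 5) (nat_lit 308) (nat_lit 5) (nat_lit 450) (nat_lit 438) (nat_lit 312))) (XT.nd (nat_lit 78) (nat_lit 608) (nat_lit 0) (XT.lf (nat_lit 0) (nat_lit 23854610314) (nat_lit 684) (nat_lit 192069055) (nat_lit 76) (nat_lit 12188880152) (nat_lit 299) (nat_lit 5) (nat_lit 308)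 (nat_lit 5) (nat_lit 300) (nat_lit 5) (nat_lit 451) (nat_lit 438) (nat_lit 311)) (XT.lf (nat_lit 0) (nat_lit 31061290340) (nat_lit 684) (nat_lit 3510330274) (nat_lit 76) (nat_lit 2655036225) (nat_lit 291) (nat_lit 5) (nat_lit 300) (nat_lit 5) (nat_lit 292) (nat_lit 5) (nat_lit 452) (nat_lit 438) (nat_lit 310)))))) (XT.nd (nat_lit 546) (nat_lit 2964) (nat_lit 0) (XT.nd (nat_lit 234) (nat_lit 1976) (nat_lit 0) (XT.nd (nat_lit 78) (nat_lit 1140) (nat_lit 0) (XT.lf (nat_lit 0) (nat_lit 900235219) (nat_lit 608) (nat_lit 6838470509) (nat_lit 76) (nat_lit 30512110902) (nat_lit 283) (nat_lit 5) (nat_lit 291) (nat_lit 5) (nat_lit 284) (nat_lit 5) (nat_lit 453) (nat_lit 438) (nat_lit 309)) (XT.nd (nat_lit 78) (nat_lit 532) (nat_lit 0) (XT.lf (nat_lit 0) (nat_lit 8705814042) (nat_lit 684) (nat_lit 10181747516) (nat_lit 76) (nat_lit 20421365591) (nat_lit 275) (nat_lit 5) (nat_lit 284) (nat_lit 5) (nat_lit 276)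 (nat_lit 5) (nat_lit 454) (nat_lit 438) (nat_lit 308)) (XT.lf (nat_lit 0) (nat_lit 17399308502) (nat_lit 608) (nat_lit 13442003850) (nat_lit 76) (nat_lit 9563701957) (nat_lit 268) (nat_lit 5) (nat_lit 276) (nat_lit 5) (nat_lit 269) (nat_lit 5) (nat_lit 455) (nat_lit 438) (nat_lit 307)))) (XT.nd (nat_lit 156) (nat_lit 988) (nat_lit 0) (XT.nd (nat_lit 78) (nat_lit 456) (nat_lit 0) (XT.lf (nat_lit 0) (nat_lit 24913684282) (nat_lit 532) (nat_lit 2144526157) (nat_lit 608) (nat_lit 14481773607) (nat_lit 261) (nat_lit 5) (nat_lit 268) (nat_lit 5) (nat_lit 269) (nat_lit 5) (nat_lit 456) (nat_lit 438) (nat_lit 306)) (XT.lf (nat_lit 0) (nat_lit 22911399268) (nat_lit 456) (nat_lit 14912619390) (nat_lit 532) (nat_lit 4888964970) (nat_lit 255) (nat_lit 5) (nat_lit 261) (nat_lit 5) (nat_lit 262) (nat_lit 5) (nat_lit 457) (nat_lit 438) (nat_lit 305))) (XT.nd (nat_lit 78) (nat_lit 456) (nat_lit 0) (XT.lf (nat_lit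 0) (nat_lit 5626245343) (nat_lit 532) (nat_lit 22914091450) (nat_lit 76) (nat_lit 15386484481) (nat_lit 248) (nat_lit 5) (nat_lit 255) (nat_lit 5) (nat_lit 249) (nat_lit 5) (nat_lit 458) (nat_lit 438) (nat_lit 304)) (XT.lf (nat_lit 0) (nat_lit 17124439861) (nat_lit 532) (nat_lit 25949971946) (nat_lit 76) (nat_lit 2108736949) (nat_lit 242) (nat_lit 5) (nat_lit 249) (nat_lit 5) (nat_lit 243) (nat_lit 5) (nat_lit 459) (nat_lit 438) (nat_lit 303))))) (XT.nd (nat_lit 234) (nat_lit 1596) (nat_lit 0) (XT.nd (nat_lit 78) (nat_lit 912) (nat_lit 0) (XT.lf (nat_lit 0) (nat_lit 17517196504) (nat_lit 456) (nat_lit 12370437924) (nat_lit 532) (nat_lit 16593955636) (nat_lit 236) (nat_lit 5) (nat_lit 242) (nat_lit 5) (nat_lit 243) (nat_lit 5) (nat_lit 460) (nat_lit 438) (nat_lit 302)) (XT.nd (nat_lit 78) (nat_lit 532) (nat_lit 0) (XT.lf (nat_lit 0) (nat_lit 15975550790) (nat_lit 380) (nat_lit 27923350725) (nat_lit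 456) (nat_lit 3927754694) (nat_lit 231) (nat_lit 5) (nat_lit 236) (nat_lit 5) (nat_lit 237) (nat_lit 5) (nat_lit 461) (nat_lit 438) (nat_lit 301)) (XT.lf (nat_lit 0) (nat_lit 9797487761) (nat_lit 532) (nat_lit 34666841381) (nat_lit 76) (nat_lit 4753685806) (nat_lit 224) (nat_lit 5) (nat_lit 231) (nat_lit 5) (nat_lit 225) (nat_lit 5) (nat_lit 462) (nat_lit 438) (nat_lit 300)))) (XT.nd (nat_lit 156) (nat_lit 836) (nat_lit 0) (XT.nd (nat_lit 78) (nat_lit 380) (nat_lit 0) (XT.lf (nat_lit 0) (nat_lit 13197361159) (nat_lit 380) (nat_lit 11666813779) (nat_lit 456) (nat_lit 25791507724) (nat_lit 219) (nat_lit 5) (nat_lit 224) (nat_lit 5) (nat_lit 225) (nat_lit 5) (nat_lit 463) (nat_lit 438) (nat_lit 299)) (XT.lf (nat_lit 0) (nat_lit 12031597044) (nat_lit 380) (nat_lit 29343507226) (nat_lit 456) (nat_lit 10769402387) (nat_lit 214) (nat_lit 5) (nat_lit 219) (nat_lit 5) (nat_lit 220) (nat_lit 5) (nat_lit 464)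 (nat_lit 438) (nat_lit 298))) (XT.nd (nat_lit 78) (nat_lit 380) (nat_lit 0) (XT.lf (nat_lit 0) (nat_lit 5570259357) (nat_lit 456) (nat_lit 42617317211) (nat_lit 76) (nat_lit 5498829610) (nat_lit 208) (nat_lit 5) (nat_lit 214) (nat_lit 5) (nat_lit 209) (nat_lit 5) (nat_lit 465) (nat_lit 438) (nat_lit 297)) (XT.lf (nat_lit 0) (nat_lit 10138992808) (nat_lit 380) (nat_lit 13174098579) (nat_lit 456) (nat_lit 31964843122) (nat_lit 203) (nat_lit 5) (nat_lit 208) (nat_lit 5) (nat_lit 209) (nat_lit 5) (nat_lit 466) (nat_lit 438) (nat_lit 296))))))) (XT.nd (nat_lit 1014) (nat_lit 2888) (nat_lit 0) (XT.nd (nat_lit 468) (nat_lit 1900) (nat_lit 0) (XT.nd (nat_lit 234) (nat_lit 988) (nat_lit 0) (XT.nd (nat_lit 78) (nat_lit 684) (nat_lit 0) (XT.lf (nat_lit 0) (nat_lit 9435575441) (nat_lit 304) (nat_lit 33264316454) (nat_lit 380) (nat_lit 14226442664) (nat_lit 199) (nat_lit 5) (nat_lit 203) (nat_lit 5) (nat_lit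 204) (nat_lit 5) (nat_lit 467) (nat_lit 438) (nat_lit 295)) (XT.nd (nat_lit 78) (nat_lit 304) (nat_lit 0) (XT.lf (nat_lit 0) (nat_lit 5037235862) (nat_lit 380) (nat_lit 49644026606) (nat_lit 76) (nat_lit 3952897823) (nat_lit 194) (nat_lit 5) (nat_lit 199) (nat_lit 5) (nat_lit 195) (nat_lit 5) (nat_lit 468) (nat_lit 438) (nat_lit 294)) (XT.lf (nat_lit 0) (nat_lit 8552369042) (nat_lit 304) (nat_lit 17328422943) (nat_lit 380) (nat_lit 34515032195) (nat_lit 190) (nat_lit 5) (nat_lit 194) (nat_lit 5) (nat_lit 195) (nat_lit 5) (nat_lit 469) (nat_lit 438) (nat_lit 293)))) (XT.nd (nat_lit 78) (nat_lit 684) (nat_lit 0) (XT.lf (nat_lit 0) (nat_lit 8409295897) (nat_lit 304) (nat_lit 40161221362) (nat_lit 380) (nat_lit 13650934356) (nat_lit 186) (nat_lit 5) (nat_lit 190) (nat_lit 5) (nat_lit 191) (nat_lit 5) (nat_lit 470) (nat_lit 438) (nat_lit 292)) (XT.nd (nat_lit 78) (nat_lit 304) (nat_lit 0) (XT.lf (nat_lit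 0) (nat_lit 8537784476) (nat_lit 304) (nat_lit 350105814) (nat_lit 380) (nat_lit 55224310254) (nat_lit 181) (nat_lit 5) (nat_lit 185) (nat_lit 5) (nat_lit 186) (nat_lit 5) (nat_lit 471) (nat_lit 438) (nat_lit 291)) (XT.lf (nat_lit 0) (nat_lit 8671438539) (nat_lit 304) (nat_lit 24640557495) (nat_lit 380) (nat_lit 32750216372) (nat_lit 177) (nat_lit 5) (nat_lit 181) (nat_lit 5) (nat_lit 182) (nat_lit 5) (nat_lit 472) (nat_lit 438) (nat_lit 290))))) (XT.nd (nat_lit 234) (nat_lit 1064) (nat_lit 0) (XT.nd (nat_lit 78) (nat_lit 608) (nat_lit 0) (XT.lf (nat_lit 0) (nat_lit 9198849837) (nat_lit 228) (nat_lit 50590019471) (nat_lit 304) (nat_lit 8295908761) (nat_lit 174) (nat_lit 5) (nat_lit 177) (nat_lit 5) (nat_lit 178) (nat_lit 5) (nat_lit 473) (nat_lit 438) (nat_lit 289)) (XT.nd (nat_lit 78) (nat_lit 228) (nat_lit 0) (XT.lf (nat_lit 0) (nat_lit 9893150839) (nat_lit 304) (nat_lit 8086189591) (nat_lit 380)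 (nat_lit 52195997489) (nat_lit 169) (nat_lit 5) (nat_lit 173) (nat_lit 5) (nat_lit 174) (nat_lit 5) (nat_lit 474) (nat_lit 438) (nat_lit 288)) (XT.lf (nat_lit 0) (nat_lit 10753611695) (nat_lit 228) (nat_lit 35708625530) (nat_lit 304) (nat_lit 25873760753) (nat_lit 166) (nat_lit 5) (nat_lit 169) (nat_lit 5) (nat_lit 170) (nat_lit 5) (nat_lit 475) (nat_lit 438) (nat_lit 287)))) (XT.nd (nat_lit 156) (nat_lit 532) (nat_lit 0) (XT.nd (nat_lit 78) (nat_lit 228) (nat_lit 0) (XT.lf (nat_lit 0) (nat_lit 2644481176) (nat_lit 304) (nat_lit 62529269934) (nat_lit 76) (nat_lit 9403001320) (nat_lit 162) (nat_lit 5) (nat_lit 166) (nat_lit 5) (nat_lit 163) (nat_lit 5) (nat_lit 476) (nat_lit 438) (nat_lit 286)) (XT.lf (nat_lit 0) (nat_lit 13363570624) (nat_lit 228) (nat_lit 19821203598) (nat_lit 304) (nat_lit 43703147724) (nat_lit 159) (nat_lit 5) (nat_lit 162) (nat_lit 5) (nat_lit 163) (nat_lit 5) (nat_lit 477)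 (nat_lit 438) (nat_lit 285))) (XT.nd (nat_lit 78) (nat_lit 304) (nat_lit 0) (XT.lf (nat_lit 0) (nat_lit 15078532761) (nat_lit 228) (nat_lit 51233031840) (nat_lit 304) (nat_lit 12971300912) (nat_lit 156) (nat_lit 5) (nat_lit 159) (nat_lit 5) (nat_lit 160) (nat_lit 5) (nat_lit 478) (nat_lit 438) (nat_lit 284)) (XT.lf (nat_lit 0) (nat_lit 17098287443) (nat_lit 228) (nat_lit 2844438416) (nat_lit 304) (nat_lit 61818601248) (nat_lit 152) (nat_lit 5) (nat_lit 155) (nat_lit 5) (nat_lit 156) (nat_lit 5) (nat_lit 479) (nat_lit 438) (nat_lit 283)))))) (XT.nd (nat_lit 546) (nat_lit 1292) (nat_lit 0) (XT.nd (nat_lit 234) (nat_lit 912) (nat_lit 0) (XT.nd (nat_lit 78) (nat_lit 456) (nat_lit 0) (XT.lf (nat_lit 0) (nat_lit 19236324451) (nat_lit 228) (nat_lit 36311187231) (nat_lit 304) (nat_lit 28772947561) (nat_lit 149) (nat_lit 5) (nat_lit 152) (nat_lit 5) (nat_lit 153) (nat_lit 5) (nat_lit 480) (nat_lit 438) (nat_lit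 282)) (XT.nd (nat_lit 78) (nat_lit 228) (nat_lit 0) (XT.lf (nat_lit 0) (nat_lit 6866665679) (nat_lit 228) (nat_lit 65098042804) (nat_lit 76) (nat_lit 15009412071) (nat_lit 146) (nat_lit 5) (nat_lit 149) (nat_lit 5) (nat_lit 147) (nat_lit 5) (nat_lit 481) (nat_lit 438) (nat_lit 281)) (XT.lf (nat_lit 0) (nat_lit 24616596541) (nat_lit 228) (nat_lit 20359387023) (nat_lit 304) (nat_lit 44737451208) (nat_lit 143) (nat_lit 5) (nat_lit 146) (nat_lit 5) (nat_lit 147) (nat_lit 5) (nat_lit 482) (nat_lit 438) (nat_lit 280)))) (XT.nd (nat_lit 156) (nat_lit 456) (nat_lit 0) (XT.nd (nat_lit 78) (nat_lit 304) (nat_lit 0) (XT.lf (nat_lit 0) (nat_lit 27814527278) (nat_lit 152) (nat_lit 58443109218) (nat_lit 228) (nat_lit 6294072172) (nat_lit 141) (nat_lit 5) (nat_lit 143) (nat_lit 5) (nat_lit 144) (nat_lit 5) (nat_lit 483) (nat_lit 438) (nat_lit 279)) (XT.lf (nat_lit 0) (nat_lit 31286791899) (nat_lit 228) (nat_lit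 3300448190) (nat_lit 304) (nat_lit 60899412088) (nat_lit 137) (nat_lit 5) (nat_lit 140) (nat_lit 5) (nat_lit 141) (nat_lit 5) (nat_lit 484) (nat_lit 438) (nat_lit 278))) (XT.nd (nat_lit 78) (nat_lit 304) (nat_lit 0) (XT.lf (nat_lit 0) (nat_lit 35000426802) (nat_lit 152) (nat_lit 43915218978) (nat_lit 228) (nat_lit 19604831626) (nat_lit 135) (nat_lit 5) (nat_lit 137) (nat_lit 5) (nat_lit 138) (nat_lit 5) (nat_lit 485) (nat_lit 438) (nat_lit 277)) (XT.lf (nat_lit 0) (nat_lit 24510951226) (nat_lit 304) (nat_lit 62499399110) (nat_lit 76) (nat_lit 14652193054) (nat_lit 131) (nat_lit 5) (nat_lit 135) (nat_lit 5) (nat_lit 132) (nat_lit 5) (nat_lit 486) (nat_lit 438) (nat_lit 276))))) (XT.nd (nat_lit 234) (nat_lit 760) (nat_lit 0) (XT.nd (nat_lit 78) (nat_lit 380) (nat_lit 0) (XT.lf (nat_lit 0) (nat_lit 43564399967) (nat_lit 152) (nat_lit 28386601718) (nat_lit 228) (nat_lit 32959169707) (nat_lit 129) (nat_lit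 5) (nat_lit 131) (nat_lit 5) (nat_lit 132) (nat_lit 5) (nat_lit 487) (nat_lit 438) (nat_lit 275)) (XT.nd (nat_lit 78) (nat_lit 152) (nat_lit 0) (XT.lf (nat_lit 0) (nat_lit 14627914587) (nat_lit 228) (nat_lit 59865577567) (nat_lit 76) (nat_lit 33779391250) (nat_lit 126) (nat_lit 5) (nat_lit 129) (nat_lit 5) (nat_lit 127) (nat_lit 5) (nat_lit 488) (nat_lit 438) (nat_lit 274)) (XT.lf (nat_lit 0) (nat_lit 53561183260) (nat_lit 152) (nat_lit 11794883710) (nat_lit 228) (nat_lit 46394573421) (nat_lit 124) (nat_lit 5) (nat_lit 126) (nat_lit 5) (nat_lit 127) (nat_lit 5) (nat_lit 489) (nat_lit 438) (nat_lit 273)))) (XT.nd (nat_lit 156) (nat_lit 380) (nat_lit 0) (XT.nd (nat_lit 78) (nat_lit 152) (nat_lit 0) (XT.lf (nat_lit 0) (nat_lit 4880817340) (nat_lit 228) (nat_lit 56247374844) (nat_lit 76) (nat_lit 54221406658) (nat_lit 121) (nat_lit 5) (nat_lit 124) (nat_lit 5) (nat_lit 122) (nat_lit 5) (nat_lit 490)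 (nat_lit 438) (nat_lit 272)) (XT.lf (nat_lit 0) (nat_lit 59173433192) (nat_lit 228) (nat_lit 54094792136) (nat_lit 76) (nat_lit 5804110351) (nat_lit 119) (nat_lit 5) (nat_lit 122) (nat_lit 5) (nat_lit 120) (nat_lit 5) (nat_lit 491) (nat_lit 438) (nat_lit 271))) (XT.nd (nat_lit 78) (nat_lit 228) (nat_lit 0) (XT.lf (nat_lit 0) (nat_lit 71239124093) (nat_lit 152) (nat_lit 46826116369) (nat_lit 228) (nat_lit 4859432101) (nat_lit 117) (nat_lit 5) (nat_lit 119) (nat_lit 5) (nat_lit 120) (nat_lit 5) (nat_lit 492) (nat_lit 438) (nat_lit 270)) (XT.lf (nat_lit 0) (nat_lit 53448071098) (nat_lit 228) (nat_lit 49131665517) (nat_lit 76) (nat_lit 24328156647) (nat_lit 114) (nat_lit 5) (nat_lit 117) (nat_lit 5) (nat_lit 115) (nat_lit 5) (nat_lit 493) (nat_lit 438) (nat_lit 269))))))))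
noncomputable def xc104 : XT := (XT.nd (nat_lit 2028) (nat_lit 7448) (nat_lit 0) (XT.nd (nat_lit 1014) (nat_lit 6080) (nat_lit 0) (XT.nd (nat_lit 468) (nat_lit 2128) (nat_lit 0) (XT.nd (nat_lit 234) (nat_lit 0) (nat_lit 152) (XT.nd (nat_lit 78) (nat_lit 0) (nat_lit 76) (XT.lf (nat_lit 0) (nat_lit 6996155255) (nat_lit 1292) (nat_lit 3321383311) (nat_lit 1292) (nat_lit 3321383311) (nat_lit 327) (nat_lit 3) (nat_lit 344) (nat_lit 3) (nat_lit 344) (nat_lit 5) (nat_lit 439) (nat_lit 439) (nat_lit 322)) (XT.nd (nat_lit 78) (nat_lit 0) (nat_lit 0) (XT.lf (nat_lit 0) (nat_lit 14659751953) (nat_lit 1216) (nat_lit 11651888938) (nat_lit 1292) (nat_lit 1638613269) (nat_lit 328) (nat_lit 5) (nat_lit 344) (nat_lit 5) (nat_lit 345) (nat_lit 5) (nat_lit 440) (nat_lit 439) (nat_lit 321)) (XT.lf (nat_lit 76) (nat_lit 11888990191) (nat_lit 0) (nat_lit 3853923608) (nat_lit 1292) (nat_lit 12901901263) (nat_lit 329)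 (nat_lit 5) (nat_lit 328) (nat_lit 5) (nat_lit 345) (nat_lit 5) (nat_lit 441) (nat_lit 439) (nat_lit 320)))) (XT.nd (nat_lit 78) (nat_lit 0) (nat_lit 76) (XT.lf (nat_lit 76) (nat_lit 7428702018) (nat_lit 0) (nat_lit 9824859953) (nat_lit 1292) (nat_lit 12109342597) (nat_lit 330) (nat_lit 5) (nat_lit 329) (nat_lit 5) (nat_lit 346) (nat_lit 5) (nat_lit 442) (nat_lit 439) (nat_lit 319)) (XT.nd (nat_lit 78) (nat_lit 0) (nat_lit 76) (XT.lf (nat_lit 76) (nat_lit 2938865989) (nat_lit 0) (nat_lit 16267060091) (nat_lit 1292) (nat_lit 10899987353) (nat_lit 331) (nat_lit 5) (nat_lit 330) (nat_lit 5) (nat_lit 347) (nat_lit 5) (nat_lit 443) (nat_lit 439) (nat_lit 318)) (XT.lf (nat_lit 0) (nat_lit 21647129262) (nat_lit 1216) (nat_lit 1544427323) (nat_lit 1292) (nat_lit 7682779898) (nat_lit 331) (nat_lit 5) (nat_lit 347) (nat_lit 5) (nat_lit 348) (nat_lit 5) (nat_lit 444) (nat_lit 439) (nat_lit 317))))) (XT.nd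 (nat_lit 234) (nat_lit 2508) (nat_lit 0) (XT.nd (nat_lit 78) (nat_lit 0) (nat_lit 0) (XT.lf (nat_lit 0) (nat_lit 24624218509) (nat_lit 1216) (nat_lit 5988292499) (nat_lit 1292) (nat_lit 1056255252) (nat_lit 332) (nat_lit 5) (nat_lit 348) (nat_lit 5) (nat_lit 349) (nat_lit 5) (nat_lit 445) (nat_lit 439) (nat_lit 316)) (XT.nd (nat_lit 78) (nat_lit 0) (nat_lit 76) (XT.lf (nat_lit 76) (nat_lit 21985827774) (nat_lit 0) (nat_lit 6218470590) (nat_lit 1292) (nat_lit 4284995414) (nat_lit 333) (nat_lit 5) (nat_lit 332) (nat_lit 5) (nat_lit 349) (nat_lit 5) (nat_lit 446) (nat_lit 439) (nat_lit 315)) (XT.lf (nat_lit 76) (nat_lit 18299343646) (nat_lit 0) (nat_lit 14081613857) (nat_lit 1292) (nat_lit 957363229) (nat_lit 334) (nat_lit 5) (nat_lit 333) (nat_lit 5) (nat_lit 350) (nat_lit 5) (nat_lit 447) (nat_lit 439) (nat_lit 314)))) (XT.nd (nat_lit 156) (nat_lit 1368) (nat_lit 0) (XT.nd (nat_lit 78) (nat_lit 0)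 (nat_lit 76) (XT.lf (nat_lit 0) (nat_lit 2908614608) (nat_lit 1292) (nat_lit 19605631587) (nat_lit 1368) (nat_lit 11702177721) (nat_lit 317) (nat_lit 5) (nat_lit 334) (nat_lit 5) (nat_lit 335) (nat_lit 5) (nat_lit 448) (nat_lit 439) (nat_lit 313)) (XT.lf (nat_lit 0) (nat_lit 7380689113) (nat_lit 1292) (nat_lit 24182212060) (nat_lit 76) (nat_lit 3562269076) (nat_lit 318) (nat_lit 5) (nat_lit 335) (nat_lit 5) (nat_lit 319) (nat_lit 5) (nat_lit 449) (nat_lit 439) (nat_lit 312))) (XT.nd (nat_lit 78) (nat_lit 608) (nat_lit 0) (XT.lf (nat_lit 0) (nat_lit 7262296887) (nat_lit 836) (nat_lit 5308688637) (nat_lit 912) (nat_lit 23493530097) (nat_lit 307) (nat_lit 5) (nat_lit 318) (nat_lit 5) (nat_lit 319) (nat_lit 5) (nat_lit 450) (nat_lit 439) (nat_lit 311)) (XT.lf (nat_lit 0) (nat_lit 3589036605) (nat_lit 608) (nat_lit 14925616879) (nat_lit 684) (nat_lit 18521359331) (nat_lit 299) (nat_lit 5) (nat_lit 307)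 (nat_lit 5) (nat_lit 308) (nat_lit 5) (nat_lit 451) (nat_lit 439) (nat_lit 310)))))) (XT.nd (nat_lit 468) (nat_lit 3192) (nat_lit 0) (XT.nd (nat_lit 234) (nat_lit 1672) (nat_lit 0) (XT.nd (nat_lit 78) (nat_lit 1216) (nat_lit 0) (XT.lf (nat_lit 0) (nat_lit 25224657587) (nat_lit 684) (nat_lit 29477008) (nat_lit 76) (nat_lit 12787875935) (nat_lit 299) (nat_lit 5) (nat_lit 308) (nat_lit 5) (nat_lit 300) (nat_lit 5) (nat_lit 452) (nat_lit 439) (nat_lit 309)) (XT.nd (nat_lit 78) (nat_lit 608) (nat_lit 0) (XT.lf (nat_lit 0) (nat_lit 32784804794) (nat_lit 684) (nat_lit 3513434734) (nat_lit 76) (nat_lit 2784629545) (nat_lit 291) (nat_lit 5) (nat_lit 300) (nat_lit 5) (nat_lit 292) (nat_lit 5) (nat_lit 453) (nat_lit 439) (nat_lit 308)) (XT.lf (nat_lit 0) (nat_lit 1110819914) (nat_lit 608) (nat_lit 7009622338) (nat_lit 76) (nat_lit 32037941447) (nat_lit 283) (nat_lit 5) (nat_lit 291) (nat_lit 5) (nat_lit 284)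 (nat_lit 5) (nat_lit 454) (nat_lit 439) (nat_lit 307)))) (XT.nd (nat_lit 78) (nat_lit 1064) (nat_lit 0) (XT.lf (nat_lit 0) (nat_lit 9300451142) (nat_lit 684) (nat_lit 10520236961) (nat_lit 76) (nat_lit 21448898751) (nat_lit 275) (nat_lit 5) (nat_lit 284) (nat_lit 5) (nat_lit 276) (nat_lit 5) (nat_lit 455) (nat_lit 439) (nat_lit 306)) (XT.nd (nat_lit 78) (nat_lit 532) (nat_lit 0) (XT.lf (nat_lit 0) (nat_lit 18422744063) (nat_lit 608) (nat_lit 13943908541) (nat_lit 76) (nat_lit 10054002353) (nat_lit 268) (nat_lit 5) (nat_lit 276) (nat_lit 5) (nat_lit 269) (nat_lit 5) (nat_lit 456) (nat_lit 439) (nat_lit 305)) (XT.lf (nat_lit 0) (nat_lit 26324685378) (nat_lit 532) (nat_lit 2234186745) (nat_lit 608) (nat_lit 15053672912) (nat_lit 261) (nat_lit 5) (nat_lit 268) (nat_lit 5) (nat_lit 269) (nat_lit 5) (nat_lit 457) (nat_lit 439) (nat_lit 304))))) (XT.nd (nat_lit 234) (nat_lit 1748) (nat_lit 0) (XT.nd (nat_lit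 78) (nat_lit 988) (nat_lit 0) (XT.lf (nat_lit 0) (nat_lit 24221694319) (nat_lit 456) (nat_lit 15635984914) (nat_lit 532) (nat_lit 4986674379) (nat_lit 255) (nat_lit 5) (nat_lit 261) (nat_lit 5) (nat_lit 262) (nat_lit 5) (nat_lit 458) (nat_lit 439) (nat_lit 303)) (XT.nd (nat_lit 78) (nat_lit 456) (nat_lit 0) (XT.lf (nat_lit 0) (nat_lit 6046379301) (nat_lit 532) (nat_lit 23893076280) (nat_lit 76) (nat_lit 16179537105) (nat_lit 248) (nat_lit 5) (nat_lit 255) (nat_lit 5) (nat_lit 249) (nat_lit 5) (nat_lit 459) (nat_lit 439) (nat_lit 302)) (XT.lf (nat_lit 0) (nat_lit 18114700477) (nat_lit 532) (nat_lit 27081782808) (nat_lit 76) (nat_lit 2241796988) (nat_lit 242) (nat_lit 5) (nat_lit 249) (nat_lit 5) (nat_lit 243) (nat_lit 5) (nat_lit 460) (nat_lit 439) (nat_lit 301)))) (XT.nd (nat_lit 156) (nat_lit 912) (nat_lit 0) (XT.nd (nat_lit 78) (nat_lit 380) (nat_lit 0) (XT.lf (nat_lit 0) (nat_lit 18553994660)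 (nat_lit 456) (nat_lit 12957224360) (nat_lit 532) (nat_lit 17290569926) (nat_lit 236) (nat_lit 5) (nat_lit 242) (nat_lit 5) (nat_lit 243) (nat_lit 5) (nat_lit 461) (nat_lit 439) (nat_lit 300)) (XT.lf (nat_lit 0) (nat_lit 16934126464) (nat_lit 380) (nat_lit 29284597091) (nat_lit 456) (nat_lit 3995514837) (nat_lit 231) (nat_lit 5) (nat_lit 236) (nat_lit 5) (nat_lit 237) (nat_lit 5) (nat_lit 462) (nat_lit 439) (nat_lit 299))) (XT.nd (nat_lit 78) (nat_lit 380) (nat_lit 0) (XT.lf (nat_lit 0) (nat_lit 10409336037) (nat_lit 532) (nat_lit 36239217327) (nat_lit 76) (nat_lit 5026699120) (nat_lit 224) (nat_lit 5) (nat_lit 231) (nat_lit 5) (nat_lit 225) (nat_lit 5) (nat_lit 463) (nat_lit 439) (nat_lit 298)) (XT.lf (nat_lit 0) (nat_lit 14013581278) (nat_lit 380) (nat_lit 12211470966) (nat_lit 456) (nat_lit 26959880690) (nat_lit 219) (nat_lit 5) (nat_lit 224) (nat_lit 5) (nat_lit 225) (nat_lit 5) (nat_lit 464)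 (nat_lit 439) (nat_lit 297))))))) (XT.nd (nat_lit 1014) (nat_lit 3116) (nat_lit 0) (XT.nd (nat_lit 468) (nat_lit 2128) (nat_lit 0) (XT.nd (nat_lit 234) (nat_lit 988) (nat_lit 0) (XT.nd (nat_lit 78) (nat_lit 836) (nat_lit 0) (XT.lf (nat_lit 0) (nat_lit 12788118530) (nat_lit 380) (nat_lit 30769649784) (nat_lit 456) (nat_lit 11190542787) (nat_lit 214) (nat_lit 5) (nat_lit 219) (nat_lit 5) (nat_lit 220) (nat_lit 5) (nat_lit 465) (nat_lit 439) (nat_lit 296)) (XT.nd (nat_lit 78) (nat_lit 380) (nat_lit 0) (XT.lf (nat_lit 0) (nat_lit 5960203345) (nat_lit 456) (nat_lit 44592522060) (nat_lit 76) (nat_lit 5814654801) (nat_lit 208) (nat_lit 5) (nat_lit 214) (nat_lit 5) (nat_lit 209) (nat_lit 5) (nat_lit 466) (nat_lit 439) (nat_lit 295)) (XT.lf (nat_lit 0) (nat_lit 10797141469) (nat_lit 380) (nat_lit 13789182687) (nat_lit 456) (nat_lit 33452276543) (nat_lit 203) (nat_lit 5) (nat_lit 208) (nat_lit 5) (nat_lit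 209) (nat_lit 5) (nat_lit 467) (nat_lit 439) (nat_lit 294)))) (XT.nd (nat_lit 78) (nat_lit 684) (nat_lit 0) (XT.lf (nat_lit 0) (nat_lit 10056949787) (nat_lit 304) (nat_lit 34882229477) (nat_lit 380) (nat_lit 14830340201) (nat_lit 199) (nat_lit 5) (nat_lit 203) (nat_lit 5) (nat_lit 204) (nat_lit 5) (nat_lit 468) (nat_lit 439) (nat_lit 293)) (XT.nd (nat_lit 78) (nat_lit 304) (nat_lit 0) (XT.lf (nat_lit 0) (nat_lit 5391265262) (nat_lit 380) (nat_lit 51976265291) (nat_lit 76) (nat_lit 4195269916) (nat_lit 194) (nat_lit 5) (nat_lit 199) (nat_lit 5) (nat_lit 195) (nat_lit 5) (nat_lit 469) (nat_lit 439) (nat_lit 292)) (XT.lf (nat_lit 0) (nat_lit 9125651491) (nat_lit 304) (nat_lit 18147882787) (nat_lit 380) (nat_lit 36139117354) (nat_lit 190) (nat_lit 5) (nat_lit 194) (nat_lit 5) (nat_lit 195) (nat_lit 5) (nat_lit 470) (nat_lit 439) (nat_lit 291))))) (XT.nd (nat_lit 234) (nat_lit 1140) (nat_lit 0) (XT.nd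 (nat_lit 78) (nat_lit 684) (nat_lit 0) (XT.lf (nat_lit 0) (nat_lit 8973689580) (nat_lit 304) (nat_lit 42121169564) (nat_lit 380) (nat_lit 14234788022) (nat_lit 186) (nat_lit 5) (nat_lit 190) (nat_lit 5) (nat_lit 191) (nat_lit 5) (nat_lit 471) (nat_lit 439) (nat_lit 290)) (XT.nd (nat_lit 78) (nat_lit 304) (nat_lit 0) (XT.lf (nat_lit 0) (nat_lit 9106349951) (nat_lit 304) (nat_lit 319455966) (nat_lit 380) (nat_lit 57889196666) (nat_lit 181) (nat_lit 5) (nat_lit 185) (nat_lit 5) (nat_lit 186) (nat_lit 5) (nat_lit 472) (nat_lit 439) (nat_lit 289)) (XT.lf (nat_lit 0) (nat_lit 9244903467) (nat_lit 304) (nat_lit 25823545685) (nat_lit 380) (nat_lit 34294146031) (nat_lit 177) (nat_lit 5) (nat_lit 181) (nat_lit 5) (nat_lit 182) (nat_lit 5) (nat_lit 473) (nat_lit 439) (nat_lit 288)))) (XT.nd (nat_lit 156) (nat_lit 532) (nat_lit 0) (XT.nd (nat_lit 78) (nat_lit 380) (nat_lit 0) (XT.lf (nat_lit 0) (nat_lit 9796867088)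 (nat_lit 228) (nat_lit 53069748864) (nat_lit 304) (nat_lit 8619749787) (nat_lit 174) (nat_lit 5) (nat_lit 177) (nat_lit 5) (nat_lit 178) (nat_lit 5) (nat_lit 474) (nat_lit 439) (nat_lit 287)) (XT.lf (nat_lit 0) (nat_lit 10523651243) (nat_lit 304) (nat_lit 8440894930) (nat_lit 380) (nat_lit 54716969503) (nat_lit 169) (nat_lit 5) (nat_lit 173) (nat_lit 5) (nat_lit 174) (nat_lit 5) (nat_lit 475) (nat_lit 439) (nat_lit 286))) (XT.nd (nat_lit 78) (nat_lit 304) (nat_lit 0) (XT.lf (nat_lit 0) (nat_lit 11425292997) (nat_lit 228) (nat_lit 37443930421) (nat_lit 304) (nat_lit 27081056346) (nat_lit 166) (nat_lit 5) (nat_lit 169) (nat_lit 5) (nat_lit 170) (nat_lit 5) (nat_lit 476) (nat_lit 439) (nat_lit 285)) (XT.lf (nat_lit 0) (nat_lit 2859124410) (nat_lit 304) (nat_lit 65521953875) (nat_lit 76) (nat_lit 9922037450) (nat_lit 162) (nat_lit 5) (nat_lit 166) (nat_lit 5) (nat_lit 163) (nat_lit 5) (nat_lit 477)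 (nat_lit 439) (nat_lit 284)))))) (XT.nd (nat_lit 546) (nat_lit 1520) (nat_lit 0) (XT.nd (nat_lit 234) (nat_lit 836) (nat_lit 0) (XT.nd (nat_lit 78) (nat_lit 532) (nat_lit 0) (XT.lf (nat_lit 0) (nat_lit 14161693947) (nat_lit 228) (nat_lit 20762062548) (nat_lit 304) (nat_lit 45806167584) (nat_lit 159) (nat_lit 5) (nat_lit 162) (nat_lit 5) (nat_lit 163) (nat_lit 5) (nat_lit 478) (nat_lit 439) (nat_lit 283)) (XT.nd (nat_lit 78) (nat_lit 304) (nat_lit 0) (XT.lf (nat_lit 0) (nat_lit 15960535959) (nat_lit 228) (nat_lit 53744243858) (nat_lit 304) (nat_lit 13539898285) (nat_lit 156) (nat_lit 5) (nat_lit 159) (nat_lit 5) (nat_lit 160) (nat_lit 5) (nat_lit 479) (nat_lit 439) (nat_lit 282)) (XT.lf (nat_lit 0) (nat_lit 18079124301) (nat_lit 228) (nat_lit 2936621834) (nat_lit 304) (nat_lit 64831369349) (nat_lit 152) (nat_lit 5) (nat_lit 155) (nat_lit 5) (nat_lit 156) (nat_lit 5) (nat_lit 480) (nat_lit 439) (nat_lit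 281)))) (XT.nd (nat_lit 156) (nat_lit 380) (nat_lit 0) (XT.nd (nat_lit 78) (nat_lit 228) (nat_lit 0) (XT.lf (nat_lit 0) (nat_lit 20322199086) (nat_lit 228) (nat_lit 38076609262) (nat_lit 304) (nat_lit 30135454836) (nat_lit 149) (nat_lit 5) (nat_lit 152) (nat_lit 5) (nat_lit 153) (nat_lit 5) (nat_lit 481) (nat_lit 439) (nat_lit 280)) (XT.lf (nat_lit 0) (nat_lit 7282748066) (nat_lit 228) (nat_lit 68229306228) (nat_lit 76) (nat_lit 15808588529) (nat_lit 146) (nat_lit 5) (nat_lit 149) (nat_lit 5) (nat_lit 147) (nat_lit 5) (nat_lit 482) (nat_lit 439) (nat_lit 279))) (XT.nd (nat_lit 78) (nat_lit 152) (nat_lit 0) (XT.lf (nat_lit 0) (nat_lit 25967521005) (nat_lit 228) (nat_lit 21327701020) (nat_lit 304) (nat_lit 46901770083) (nat_lit 143) (nat_lit 5) (nat_lit 146) (nat_lit 5) (nat_lit 147) (nat_lit 5) (nat_lit 483) (nat_lit 439) (nat_lit 278)) (XT.lf (nat_lit 0) (nat_lit 29323495949) (nat_lit 152) (nat_lit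 61315698609) (nat_lit 228) (nat_lit 6538038091) (nat_lit 141) (nat_lit 5) (nat_lit 143) (nat_lit 5) (nat_lit 144) (nat_lit 5) (nat_lit 484) (nat_lit 439) (nat_lit 277))))) (XT.nd (nat_lit 234) (nat_lit 760) (nat_lit 0) (XT.nd (nat_lit 78) (nat_lit 456) (nat_lit 0) (XT.lf (nat_lit 0) (nat_lit 32967326288) (nat_lit 228) (nat_lit 3416447354) (nat_lit 304) (nat_lit 63875194920) (nat_lit 137) (nat_lit 5) (nat_lit 140) (nat_lit 5) (nat_lit 141) (nat_lit 5) (nat_lit 485) (nat_lit 439) (nat_lit 276)) (XT.nd (nat_lit 78) (nat_lit 304) (nat_lit 0) (XT.lf (nat_lit 0) (nat_lit 36864812931) (nat_lit 152) (nat_lit 46062136186) (nat_lit 228) (nat_lit 20517585501) (nat_lit 135) (nat_lit 5) (nat_lit 137) (nat_lit 5) (nat_lit 138) (nat_lit 5) (nat_lit 486) (nat_lit 439) (nat_lit 275)) (XT.lf (nat_lit 0) (nat_lit 25801062683) (nat_lit 304) (nat_lit 65510542395) (nat_lit 76) (nat_lit 15432127615) (nat_lit 131) (nat_lit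 5) (nat_lit 135) (nat_lit 5) (nat_lit 132) (nat_lit 5) (nat_lit 487) (nat_lit 439) (nat_lit 274)))) (XT.nd (nat_lit 156) (nat_lit 380) (nat_lit 0) (XT.nd (nat_lit 78) (nat_lit 228) (nat_lit 0) (XT.lf (nat_lit 0) (nat_lit 45853183817) (nat_lit 152) (nat_lit 29757920185) (nat_lit 228) (nat_lit 34542698489) (nat_lit 129) (nat_lit 5) (nat_lit 131) (nat_lit 5) (nat_lit 132) (nat_lit 5) (nat_lit 488) (nat_lit 439) (nat_lit 273)) (XT.lf (nat_lit 0) (nat_lit 15420974359) (nat_lit 228) (nat_lit 62748858448) (nat_lit 76) (nat_lit 35514844011) (nat_lit 126) (nat_lit 5) (nat_lit 129) (nat_lit 5) (nat_lit 127) (nat_lit 5) (nat_lit 489) (nat_lit 439) (nat_lit 272))) (XT.nd (nat_lit 78) (nat_lit 228) (nat_lit 0) (XT.lf (nat_lit 0) (nat_lit 56346087351) (nat_lit 152) (nat_lit 12337537687) (nat_lit 228) (nat_lit 48652753935) (nat_lit 124) (nat_lit 5) (nat_lit 126) (nat_lit 5) (nat_lit 127) (nat_lit 5) (nat_lit 490)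 (nat_lit 439) (nat_lit 271)) (XT.lf (nat_lit 0) (nat_lit 5183787175) (nat_lit 228) (nat_lit 58953485464) (nat_lit 76) (nat_lit 56978037539) (nat_lit 121) (nat_lit 5) (nat_lit 124) (nat_lit 5) (nat_lit 122) (nat_lit 5) (nat_lit 491) (nat_lit 439) (nat_lit 270))))))))
noncomputable def xc105 : XT := (XT.nd (nat_lit 60294) (nat_lit 0) (nat_lit 684) (XT.nd (nat_lit 59280) (nat_lit 0) (nat_lit 8664) (XT.nd (nat_lit 58734) (nat_lit 0) (nat_lit 15200) (XT.nd (nat_lit 58500) (nat_lit 0) (nat_lit 16036) (XT.nd (nat_lit 78) (nat_lit 152) (nat_lit 0) (XT.lf (nat_lit 0) (nat_lit 62189662933) (nat_lit 228) (nat_lit 56695048454) (nat_lit 76) (nat_lit 6139513632) (nat_lit 119) (nat_lit 5) (nat_lit 122) (nat_lit 5) (nat_lit 120) (nat_lit 5) (nat_lit 492) (nat_lit 439) (nat_lit 269)) (XT.nd (nat_lit 58344) (nat_lit 0) (nat_lit 15960) (XT.lf (nat_lit 0) (nat_lit 74902568595) (nat_lit 152) (nat_lit 49121726679) (nat_lit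 228) (nat_lit 5044936466) (nat_lit 117) (nat_lit 5) (nat_lit 119) (nat_lit 5) (nat_lit 120) (nat_lit 5) (nat_lit 493) (nat_lit 439) (nat_lit 268)) (XT.lf (nat_lit 0) (nat_lit 7488443152) (nat_lit 1292) (nat_lit 3414071920) (nat_lit 1292) (nat_lit 3414071920) (nat_lit 327) (nat_lit 3) (nat_lit 344) (nat_lit 3) (nat_lit 344) (nat_lit 5) (nat_lit 440) (nat_lit 440) (nat_lit 320)))) (XT.nd (nat_lit 78) (nat_lit 0) (nat_lit 0) (XT.lf (nat_lit 0) (nat_lit 15664248974) (nat_lit 1216) (nat_lit 12082482164) (nat_lit 1292) (nat_lit 1592877922) (nat_lit 328) (nat_lit 5) (nat_lit 344) (nat_lit 5) (nat_lit 345) (nat_lit 5) (nat_lit 441) (nat_lit 440) (nat_lit 319)) (XT.nd (nat_lit 78) (nat_lit 0) (nat_lit 76) (XT.lf (nat_lit 76) (nat_lit 12631083837) (nat_lit 0) (nat_lit 4158975301) (nat_lit 1292) (nat_lit 13279184759) (nat_lit 329) (nat_lit 5) (nat_lit 328) (nat_lit 5) (nat_lit 345) (nat_lit 5) (nat_lit 442)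 (nat_lit 440) (nat_lit 318)) (XT.lf (nat_lit 76) (nat_lit 7952186128) (nat_lit 0) (nat_lit 10412105643) (nat_lit 1292) (nat_lit 12459305114) (nat_lit 330) (nat_lit 5) (nat_lit 329) (nat_lit 5) (nat_lit 346) (nat_lit 5) (nat_lit 443) (nat_lit 440) (nat_lit 317))))) (XT.nd (nat_lit 234) (nat_lit 988) (nat_lit 0) (XT.nd (nat_lit 78) (nat_lit 0) (nat_lit 76) (XT.lf (nat_lit 76) (nat_lit 3241635502) (nat_lit 0) (nat_lit 17161445602) (nat_lit 1292) (nat_lit 11201011419) (nat_lit 331) (nat_lit 5) (nat_lit 330) (nat_lit 5) (nat_lit 347) (nat_lit 5) (nat_lit 444) (nat_lit 440) (nat_lit 316)) (XT.nd (nat_lit 78) (nat_lit 0) (nat_lit 76) (XT.lf (nat_lit 0) (nat_lit 22954323616) (nat_lit 1216) (nat_lit 1465723234) (nat_lit 1292) (nat_lit 7991251016) (nat_lit 331) (nat_lit 5) (nat_lit 347) (nat_lit 5) (nat_lit 348) (nat_lit 5) (nat_lit 445) (nat_lit 440) (nat_lit 315)) (XT.lf (nat_lit 0) (nat_lit 26070400177)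 (nat_lit 1216) (nat_lit 6129157340) (nat_lit 1292) (nat_lit 1046188121) (nat_lit 332) (nat_lit 5) (nat_lit 348) (nat_lit 5) (nat_lit 349) (nat_lit 5) (nat_lit 446) (nat_lit 440) (nat_lit 314)))) (XT.nd (nat_lit 156) (nat_lit 1140) (nat_lit 0) (XT.nd (nat_lit 78) (nat_lit 0) (nat_lit 76) (XT.lf (nat_lit 76) (nat_lit 23239124149) (nat_lit 0) (nat_lit 6581603564) (nat_lit 1292) (nat_lit 4286834975) (nat_lit 333) (nat_lit 5) (nat_lit 332) (nat_lit 5) (nat_lit 349) (nat_lit 5) (nat_lit 447) (nat_lit 440) (nat_lit 313)) (XT.lf (nat_lit 76) (nat_lit 19370406954) (nat_lit 0) (nat_lit 14827015640) (nat_lit 1292) (nat_lit 801882756) (nat_lit 334) (nat_lit 5) (nat_lit 333) (nat_lit 5) (nat_lit 350) (nat_lit 5) (nat_lit 448) (nat_lit 440) (nat_lit 312))) (XT.nd (nat_lit 78) (nat_lit 0) (nat_lit 76) (XT.lf (nat_lit 0) (nat_lit 3245081147) (nat_lit 1292) (nat_lit 20424334074) (nat_lit 1368) (nat_lit 12252090585)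 (nat_lit 317) (nat_lit 5) (nat_lit 334) (nat_lit 5) (nat_lit 335) (nat_lit 5) (nat_lit 449) (nat_lit 440) (nat_lit 311)) (XT.lf (nat_lit 0) (nat_lit 7932916374) (nat_lit 1292) (nat_lit 25228609203) (nat_lit 76) (nat_lit 3714399561) (nat_lit 318) (nat_lit 5) (nat_lit 335) (nat_lit 5) (nat_lit 319) (nat_lit 5) (nat_lit 450) (nat_lit 440) (nat_lit 310)))))) (XT.nd (nat_lit 468) (nat_lit 3344) (nat_lit 0) (XT.nd (nat_lit 234) (nat_lit 1216) (nat_lit 0) (XT.nd (nat_lit 78) (nat_lit 1216) (nat_lit 0) (XT.lf (nat_lit 0) (nat_lit 7783461042) (nat_lit 836) (nat_lit 5592062363) (nat_lit 912) (nat_lit 24486930873) (nat_lit 307) (nat_lit 5) (nat_lit 318) (nat_lit 5) (nat_lit 319) (nat_lit 5) (nat_lit 451) (nat_lit 440) (nat_lit 309)) (XT.nd (nat_lit 78) (nat_lit 608) (nat_lit 0) (XT.lf (nat_lit 0) (nat_lit 3927310365) (nat_lit 608) (nat_lit 15682046451) (nat_lit 684) (nat_lit 19273380410) (nat_lit 299) (nat_lit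 5) (nat_lit 307) (nat_lit 5) (nat_lit 308) (nat_lit 5) (nat_lit 452) (nat_lit 440) (nat_lit 308)) (XT.lf (nat_lit 0) (nat_lit 127727969) (nat_lit 608) (nat_lit 26520221822) (nat_lit 684) (nat_lit 13291292715) (nat_lit 291) (nat_lit 5) (nat_lit 299) (nat_lit 5) (nat_lit 300) (nat_lit 5) (nat_lit 453) (nat_lit 440) (nat_lit 307)))) (XT.nd (nat_lit 78) (nat_lit 1216) (nat_lit 0) (XT.lf (nat_lit 0) (nat_lit 34578648152) (nat_lit 684) (nat_lit 3532723656) (nat_lit 76) (nat_lit 2920996177) (nat_lit 291) (nat_lit 5) (nat_lit 300) (nat_lit 5) (nat_lit 292) (nat_lit 5) (nat_lit 454) (nat_lit 440) (nat_lit 306)) (XT.nd (nat_lit 78) (nat_lit 608) (nat_lit 0) (XT.lf (nat_lit 0) (nat_lit 1316540443) (nat_lit 608) (nat_lit 7205208492) (nat_lit 76) (nat_lit 33640042601) (nat_lit 283) (nat_lit 5) (nat_lit 291) (nat_lit 5) (nat_lit 284) (nat_lit 5) (nat_lit 455) (nat_lit 440) (nat_lit 305)) (XT.lf (nat_lit 0) (nat_lit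 9910005579) (nat_lit 684) (nat_lit 10891511457) (nat_lit 76) (nat_lit 22527207526) (nat_lit 275) (nat_lit 5) (nat_lit 284) (nat_lit 5) (nat_lit 276) (nat_lit 5) (nat_lit 456) (nat_lit 440) (nat_lit 304))))) (XT.nd (nat_lit 234) (nat_lit 1824) (nat_lit 0) (XT.nd (nat_lit 78) (nat_lit 988) (nat_lit 0) (XT.lf (nat_lit 0) (nat_lit 19483083203) (nat_lit 608) (nat_lit 14486731631) (nat_lit 76) (nat_lit 10567691404) (nat_lit 268) (nat_lit 5) (nat_lit 276) (nat_lit 5) (nat_lit 269) (nat_lit 5) (nat_lit 457) (nat_lit 440) (nat_lit 303)) (XT.nd (nat_lit 78) (nat_lit 456) (nat_lit 0) (XT.lf (nat_lit 0) (nat_lit 27790866932) (nat_lit 532) (nat_lit 2329963455) (nat_lit 608) (nat_lit 15668316309) (nat_lit 261) (nat_lit 5) (nat_lit 268) (nat_lit 5) (nat_lit 269) (nat_lit 5) (nat_lit 458) (nat_lit 440) (nat_lit 302)) (XT.lf (nat_lit 0) (nat_lit 25582189545) (nat_lit 456) (nat_lit 16397588744) (nat_lit 532) (nat_lit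 5102911645) (nat_lit 255) (nat_lit 5) (nat_lit 261) (nat_lit 5) (nat_lit 262) (nat_lit 5) (nat_lit 459) (nat_lit 440) (nat_lit 301)))) (XT.nd (nat_lit 156) (nat_lit 836) (nat_lit 0) (XT.nd (nat_lit 78) (nat_lit 456) (nat_lit 0) (XT.lf (nat_lit 0) (nat_lit 6474613631) (nat_lit 532) (nat_lit 24936510373) (nat_lit 76) (nat_lit 17010036319) (nat_lit 248) (nat_lit 5) (nat_lit 255) (nat_lit 5) (nat_lit 249) (nat_lit 5) (nat_lit 460) (nat_lit 440) (nat_lit 300)) (XT.lf (nat_lit 0) (nat_lit 19142012483) (nat_lit 532) (nat_lit 28285588288) (nat_lit 76) (nat_lit 2378941886) (nat_lit 242) (nat_lit 5) (nat_lit 249) (nat_lit 5) (nat_lit 243) (nat_lit 5) (nat_lit 461) (nat_lit 440) (nat_lit 299))) (XT.nd (nat_lit 78) (nat_lit 380) (nat_lit 0) (XT.lf (nat_lit 0) (nat_lit 19627670202) (nat_lit 456) (nat_lit 13576300579) (nat_lit 532) (nat_lit 18034387773) (nat_lit 236) (nat_lit 5) (nat_lit 242) (nat_lit 5) (nat_lit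 243) (nat_lit 5) (nat_lit 462) (nat_lit 440) (nat_lit 298)) (XT.lf (nat_lit 0) (nat_lit 17925774405) (nat_lit 380) (nat_lit 30717152414) (nat_lit 456) (nat_lit 4078621561) (nat_lit 231) (nat_lit 5) (nat_lit 236) (nat_lit 5) (nat_lit 237) (nat_lit 5) (nat_lit 463) (nat_lit 440) (nat_lit 297))))))) (XT.nd (nat_lit 1014) (nat_lit 3268) (nat_lit 0) (XT.nd (nat_lit 468) (nat_lit 2280) (nat_lit 0) (XT.nd (nat_lit 234) (nat_lit 1140) (nat_lit 0) (XT.nd (nat_lit 78) (nat_lit 760) (nat_lit 0) (XT.lf (nat_lit 0) (nat_lit 11040436751) (nat_lit 532) (nat_lit 37905177175) (nat_lit 76) (nat_lit 5310078542) (nat_lit 224) (nat_lit 5) (nat_lit 231) (nat_lit 5) (nat_lit 225) (nat_lit 5) (nat_lit 464) (nat_lit 440) (nat_lit 296)) (XT.nd (nat_lit 78) (nat_lit 380) (nat_lit 0) (XT.lf (nat_lit 0) (nat_lit 14856076271) (nat_lit 380) (nat_lit 12786957437) (nat_lit 456) (nat_lit 28197940556) (nat_lit 219) (nat_lit 5) (nat_lit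 224) (nat_lit 5) (nat_lit 225) (nat_lit 5) (nat_lit 465) (nat_lit 440) (nat_lit 295)) (XT.lf (nat_lit 0) (nat_lit 13568061086) (nat_lit 380) (nat_lit 32270914311) (nat_lit 456) (nat_lit 11643648413) (nat_lit 214) (nat_lit 5) (nat_lit 219) (nat_lit 5) (nat_lit 220) (nat_lit 5) (nat_lit 466) (nat_lit 440) (nat_lit 294)))) (XT.nd (nat_lit 78) (nat_lit 684) (nat_lit 0) (XT.lf (nat_lit 0) (nat_lit 6359284733) (nat_lit 456) (nat_lit 46680959037) (nat_lit 76) (nat_lit 6142470272) (nat_lit 208) (nat_lit 5) (nat_lit 214) (nat_lit 5) (nat_lit 209) (nat_lit 5) (nat_lit 467) (nat_lit 440) (nat_lit 293)) (XT.nd (nat_lit 78) (nat_lit 304) (nat_lit 0) (XT.lf (nat_lit 0) (nat_lit 11474140511) (nat_lit 380) (nat_lit 14439076450) (nat_lit 456) (nat_lit 35024383580) (nat_lit 203) (nat_lit 5) (nat_lit 208) (nat_lit 5) (nat_lit 209) (nat_lit 5) (nat_lit 468) (nat_lit 440) (nat_lit 292)) (XT.lf (nat_lit 0) (nat_lit 10695484872)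 (nat_lit 304) (nat_lit 36585249977) (nat_lit 380) (nat_lit 15474419935) (nat_lit 199) (nat_lit 5) (nat_lit 203) (nat_lit 5) (nat_lit 204) (nat_lit 5) (nat_lit 469) (nat_lit 440) (nat_lit 291))))) (XT.nd (nat_lit 234) (nat_lit 1292) (nat_lit 0) (XT.nd (nat_lit 78) (nat_lit 608) (nat_lit 0) (XT.lf (nat_lit 0) (nat_lit 5753497555) (nat_lit 380) (nat_lit 54439058015) (nat_lit 76) (nat_lit 4445602302) (nat_lit 194) (nat_lit 5) (nat_lit 199) (nat_lit 5) (nat_lit 195) (nat_lit 5) (nat_lit 470) (nat_lit 440) (nat_lit 290)) (XT.nd (nat_lit 78) (nat_lit 304) (nat_lit 0) (XT.lf (nat_lit 0) (nat_lit 9714055605) (nat_lit 304) (nat_lit 19012681640) (nat_lit 380) (nat_lit 37853858755) (nat_lit 190) (nat_lit 5) (nat_lit 194) (nat_lit 5) (nat_lit 195) (nat_lit 5) (nat_lit 471) (nat_lit 440) (nat_lit 289)) (XT.lf (nat_lit 0) (nat_lit 9552921803) (nat_lit 304) (nat_lit 44183588255) (nat_lit 380) (nat_lit 14857009916)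 (nat_lit 186) (nat_lit 5) (nat_lit 190) (nat_lit 5) (nat_lit 191) (nat_lit 5) (nat_lit 472) (nat_lit 440) (nat_lit 288)))) (XT.nd (nat_lit 156) (nat_lit 608) (nat_lit 0) (XT.nd (nat_lit 78) (nat_lit 304) (nat_lit 0) (XT.lf (nat_lit 0) (nat_lit 9690171985) (nat_lit 304) (nat_lit 291750633) (nat_lit 380) (nat_lit 60696283165) (nat_lit 181) (nat_lit 5) (nat_lit 185) (nat_lit 5) (nat_lit 186) (nat_lit 5) (nat_lit 473) (nat_lit 440) (nat_lit 287)) (XT.lf (nat_lit 0) (nat_lit 9834035716) (nat_lit 304) (nat_lit 27070242529) (nat_lit 380) (nat_lit 35923972461) (nat_lit 177) (nat_lit 5) (nat_lit 181) (nat_lit 5) (nat_lit 182) (nat_lit 5) (nat_lit 474) (nat_lit 440) (nat_lit 286))) (XT.nd (nat_lit 78) (nat_lit 380) (nat_lit 0) (XT.lf (nat_lit 0) (nat_lit 10411948320) (nat_lit 228) (nat_lit 55678092016) (nat_lit 304) (nat_lit 8968238944) (nat_lit 174) (nat_lit 5) (nat_lit 177) (nat_lit 5) (nat_lit 178) (nat_lit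 5) (nat_lit 475) (nat_lit 440) (nat_lit 285)) (XT.lf (nat_lit 0) (nat_lit 11173047286) (nat_lit 304) (nat_lit 8817947258) (nat_lit 380) (nat_lit 57372248491) (nat_lit 169) (nat_lit 5) (nat_lit 173) (nat_lit 5) (nat_lit 174) (nat_lit 5) (nat_lit 476) (nat_lit 440) (nat_lit 284)))))) (XT.nd (nat_lit 546) (nat_lit 1520) (nat_lit 0) (XT.nd (nat_lit 234) (nat_lit 988) (nat_lit 0) (XT.nd (nat_lit 78) (nat_lit 532) (nat_lit 0) (XT.lf (nat_lit 0) (nat_lit 12118100248) (nat_lit 228) (nat_lit 39270660833) (nat_lit 304) (nat_lit 28356748670) (nat_lit 166) (nat_lit 5) (nat_lit 169) (nat_lit 5) (nat_lit 170) (nat_lit 5) (nat_lit 477) (nat_lit 440) (nat_lit 283)) (XT.nd (nat_lit 78) (nat_lit 228) (nat_lit 0) (XT.lf (nat_lit 0) (nat_lit 3076837253) (nat_lit 304) (nat_lit 68676709569) (nat_lit 76) (nat_lit 10462480424) (nat_lit 162) (nat_lit 5) (nat_lit 166) (nat_lit 5) (nat_lit 163) (nat_lit 5) (nat_lit 478) (nat_lit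 440) (nat_lit 282)) (XT.lf (nat_lit 0) (nat_lit 14987642400) (nat_lit 228) (nat_lit 21754631681) (nat_lit 304) (nat_lit 48021974806) (nat_lit 159) (nat_lit 5) (nat_lit 162) (nat_lit 5) (nat_lit 163) (nat_lit 5) (nat_lit 479) (nat_lit 440) (nat_lit 281)))) (XT.nd (nat_lit 156) (nat_lit 456) (nat_lit 0) (XT.nd (nat_lit 78) (nat_lit 304) (nat_lit 0) (XT.lf (nat_lit 0) (nat_lit 16874731971) (nat_lit 228) (nat_lit 56385705870) (nat_lit 304) (nat_lit 14144360163) (nat_lit 156) (nat_lit 5) (nat_lit 159) (nat_lit 5) (nat_lit 160) (nat_lit 5) (nat_lit 480) (nat_lit 440) (nat_lit 280)) (XT.lf (nat_lit 0) (nat_lit 19097295923) (nat_lit 228) (nat_lit 3038066528) (nat_lit 304) (nat_lit 68002042613) (nat_lit 152) (nat_lit 5) (nat_lit 155) (nat_lit 5) (nat_lit 156) (nat_lit 5) (nat_lit 481) (nat_lit 440) (nat_lit 279))) (XT.nd (nat_lit 78) (nat_lit 228) (nat_lit 0) (XT.lf (nat_lit 0) (nat_lit 21450833676) (nat_lit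 228) (nat_lit 39934963689) (nat_lit 304) (nat_lit 31573166260) (nat_lit 149) (nat_lit 5) (nat_lit 152) (nat_lit 5) (nat_lit 153) (nat_lit 5) (nat_lit 482) (nat_lit 440) (nat_lit 278)) (XT.lf (nat_lit 0) (nat_lit 7712871050) (nat_lit 228) (nat_lit 71528627580) (nat_lit 76) (nat_lit 16643195602) (nat_lit 146) (nat_lit 5) (nat_lit 149) (nat_lit 5) (nat_lit 147) (nat_lit 5) (nat_lit 483) (nat_lit 440) (nat_lit 277))))) (XT.nd (nat_lit 234) (nat_lit 836) (nat_lit 0) (XT.nd (nat_lit 78) (nat_lit 456) (nat_lit 0) (XT.lf (nat_lit 0) (nat_lit 27374826431) (nat_lit 228) (nat_lit 22349047201) (nat_lit 304) (nat_lit 49181050256) (nat_lit 143) (nat_lit 5) (nat_lit 146) (nat_lit 5) (nat_lit 147) (nat_lit 5) (nat_lit 484) (nat_lit 440) (nat_lit 276)) (XT.nd (nat_lit 78) (nat_lit 304) (nat_lit 0) (XT.lf (nat_lit 0) (nat_lit 30896920004) (nat_lit 152) (nat_lit 64336525653) (nat_lit 228) (nat_lit 6800778825) (nat_lit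 141) (nat_lit 5) (nat_lit 143) (nat_lit 5) (nat_lit 144) (nat_lit 5) (nat_lit 485) (nat_lit 440) (nat_lit 275)) (XT.lf (nat_lit 0) (nat_lit 34721084706) (nat_lit 228) (nat_lit 3542804192) (nat_lit 304) (nat_lit 67006199317) (nat_lit 137) (nat_lit 5) (nat_lit 140) (nat_lit 5) (nat_lit 141) (nat_lit 5) (nat_lit 486) (nat_lit 440) (nat_lit 274)))) (XT.nd (nat_lit 156) (nat_lit 380) (nat_lit 0) (XT.nd (nat_lit 78) (nat_lit 304) (nat_lit 0) (XT.lf (nat_lit 0) (nat_lit 38811785814) (nat_lit 152) (nat_lit 48320940282) (nat_lit 228) (nat_lit 21482251437) (nat_lit 135) (nat_lit 5) (nat_lit 137) (nat_lit 5) (nat_lit 138) (nat_lit 5) (nat_lit 487) (nat_lit 440) (nat_lit 273)) (XT.lf (nat_lit 0) (nat_lit 27149677173) (nat_lit 304) (nat_lit 68682825369) (nat_lit 76) (nat_lit 16246659083) (nat_lit 131) (nat_lit 5) (nat_lit 135) (nat_lit 5) (nat_lit 132) (nat_lit 5) (nat_lit 488) (nat_lit 440) (nat_lit 272)))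 (XT.nd (nat_lit 78) (nat_lit 228) (nat_lit 0) (XT.lf (nat_lit 0) (nat_lit 48246127681) (nat_lit 152) (nat_lit 31202268240) (nat_lit 228) (nat_lit 36211393774) (nat_lit 129) (nat_lit 5) (nat_lit 131) (nat_lit 5) (nat_lit 132) (nat_lit 5) (nat_lit 489) (nat_lit 440) (nat_lit 271)) (XT.lf (nat_lit 0) (nat_lit 16247954181) (nat_lit 228) (nat_lit 65786529943) (nat_lit 76) (nat_lit 37332747842) (nat_lit 126) (nat_lit 5) (nat_lit 129) (nat_lit 5) (nat_lit 127) (nat_lit 5) (nat_lit 490) (nat_lit 440) (nat_lit 270))))))))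
noncomputable def xc106 : XT := (XT.nd (nat_lit 60372) (nat_lit 0) (nat_lit 760) (XT.nd (nat_lit 59358) (nat_lit 0) (nat_lit 8892) (XT.nd (nat_lit 58812) (nat_lit 0) (nat_lit 15048) (XT.nd (nat_lit 58578) (nat_lit 0) (nat_lit 15808) (XT.nd (nat_lit 78) (nat_lit 380) (nat_lit 0) (XT.lf (nat_lit 0) (nat_lit 59260303217) (nat_lit 152) (nat_lit 12911702363) (nat_lit 228) (nat_lit 51029565640) (nat_lit 124) (nat_lit 5) (nat_lit 126) (nat_lit 5) (nat_lit 127) (nat_lit 5) (nat_lit 491) (nat_lit 440) (nat_lit 269)) (XT.nd (nat_lit 78) (nat_lit 152) (nat_lit 0) (XT.lf (nat_lit 0) (nat_lit 5496426846) (nat_lit 228) (nat_lit 61804780488) (nat_lit 76) (nat_lit 59868264176) (nat_lit 121) (nat_lit 5) (nat_lit 124) (nat_lit 5) (nat_lit 122) (nat_lit 5) (nat_lit 492) (nat_lit 440) (nat_lit 268)) (XT.lf (nat_lit 0) (nat_lit 65351352957) (nat_lit 228) (nat_lit 59435031454) (nat_lit 76) (nat_lit 6487485017) (nat_lit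 119) (nat_lit 5) (nat_lit 122) (nat_lit 5) (nat_lit 120) (nat_lit 5) (nat_lit 493) (nat_lit 440) (nat_lit 267)))) (XT.nd (nat_lit 78) (nat_lit 0) (nat_lit 76) (XT.lf (nat_lit 0) (nat_lit 7992098991) (nat_lit 1292) (nat_lit 3518217188) (nat_lit 1292) (nat_lit 3518217188) (nat_lit 327) (nat_lit 3) (nat_lit 344) (nat_lit 3) (nat_lit 344) (nat_lit 5) (nat_lit 441) (nat_lit 441) (nat_lit 318)) (XT.nd (nat_lit 78) (nat_lit 0) (nat_lit 0) (XT.lf (nat_lit 0) (nat_lit 16693728473) (nat_lit 1216) (nat_lit 12548736685) (nat_lit 1292) (nat_lit 1556724984) (nat_lit 328) (nat_lit 5) (nat_lit 344) (nat_lit 5) (nat_lit 345) (nat_lit 5) (nat_lit 442) (nat_lit 441) (nat_lit 317)) (XT.lf (nat_lit 76) (nat_lit 13396555612) (nat_lit 0) (nat_lit 4468833828) (nat_lit 1292) (nat_lit 13700231012) (nat_lit 329) (nat_lit 5) (nat_lit 328) (nat_lit 5) (nat_lit 345) (nat_lit 5) (nat_lit 443) (nat_lit 441) (nat_lit 316))))) (XT.nd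 (nat_lit 234) (nat_lit 912) (nat_lit 0) (XT.nd (nat_lit 78) (nat_lit 0) (nat_lit 76) (XT.lf (nat_lit 76) (nat_lit 8487708367) (nat_lit 0) (nat_lit 11019788197) (nat_lit 1292) (nat_lit 12850520155) (nat_lit 330) (nat_lit 5) (nat_lit 329) (nat_lit 5) (nat_lit 346) (nat_lit 5) (nat_lit 444) (nat_lit 441) (nat_lit 315)) (XT.nd (nat_lit 78) (nat_lit 0) (nat_lit 76) (XT.lf (nat_lit 76) (nat_lit 3545056246) (nat_lit 0) (nat_lit 18093016754) (nat_lit 1292) (nat_lit 11539769200) (nat_lit 331) (nat_lit 5) (nat_lit 330) (nat_lit 5) (nat_lit 347) (nat_lit 5) (nat_lit 445) (nat_lit 441) (nat_lit 314)) (XT.lf (nat_lit 0) (nat_lit 24305974392) (nat_lit 1216) (nat_lit 1397580410) (nat_lit 1292) (nat_lit 8322180572) (nat_lit 331) (nat_lit 5) (nat_lit 347) (nat_lit 5) (nat_lit 348) (nat_lit 5) (nat_lit 446) (nat_lit 441) (nat_lit 313)))) (XT.nd (nat_lit 156) (nat_lit 1140) (nat_lit 0) (XT.nd (nat_lit 78) (nat_lit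 0) (nat_lit 0) (XT.lf (nat_lit 0) (nat_lit 27568904986) (nat_lit 1216) (nat_lit 6291805880) (nat_lit 1292) (nat_lit 1041463609) (nat_lit 332) (nat_lit 5) (nat_lit 348) (nat_lit 5) (nat_lit 349) (nat_lit 5) (nat_lit 447) (nat_lit 441) (nat_lit 312)) (XT.lf (nat_lit 76) (nat_lit 24540767418) (nat_lit 0) (nat_lit 6958039247) (nat_lit 1292) (nat_lit 4308514402) (nat_lit 333) (nat_lit 5) (nat_lit 332) (nat_lit 5) (nat_lit 349) (nat_lit 5) (nat_lit 448) (nat_lit 441) (nat_lit 311))) (XT.nd (nat_lit 78) (nat_lit 1216) (nat_lit 0) (XT.lf (nat_lit 76) (nat_lit 20480511089) (nat_lit 0) (nat_lit 15605845870) (nat_lit 1292) (nat_lit 657533688) (nat_lit 334) (nat_lit 5) (nat_lit 333) (nat_lit 5) (nat_lit 350) (nat_lit 5) (nat_lit 449) (nat_lit 441) (nat_lit 310)) (XT.lf (nat_lit 0) (nat_lit 3580610315) (nat_lit 1292) (nat_lit 21298993778) (nat_lit 1368) (nat_lit 12832771286) (nat_lit 317) (nat_lit 5) (nat_lit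 334) (nat_lit 5) (nat_lit 335) (nat_lit 5) (nat_lit 450) (nat_lit 441) (nat_lit 309)))))) (XT.nd (nat_lit 468) (nat_lit 3572) (nat_lit 0) (XT.nd (nat_lit 234) (nat_lit 1216) (nat_lit 0) (XT.nd (nat_lit 78) (nat_lit 1444) (nat_lit 0) (XT.lf (nat_lit 0) (nat_lit 8495723468) (nat_lit 1292) (nat_lit 26342453759) (nat_lit 76) (nat_lit 3876552221) (nat_lit 318) (nat_lit 5) (nat_lit 335) (nat_lit 5) (nat_lit 319) (nat_lit 5) (nat_lit 451) (nat_lit 441) (nat_lit 308)) (XT.nd (nat_lit 78) (nat_lit 608) (nat_lit 0) (XT.lf (nat_lit 0) (nat_lit 8315989479) (nat_lit 836) (nat_lit 5887936950) (nat_lit 912) (nat_lit 25546854987) (nat_lit 307) (nat_lit 5) (nat_lit 318) (nat_lit 5) (nat_lit 319) (nat_lit 5) (nat_lit 452) (nat_lit 441) (nat_lit 307)) (XT.lf (nat_lit 0) (nat_lit 4267732055) (nat_lit 608) (nat_lit 16475353970) (nat_lit 684) (nat_lit 20079183774) (nat_lit 299) (nat_lit 5) (nat_lit 307) (nat_lit 5) (nat_lit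 308) (nat_lit 5) (nat_lit 453) (nat_lit 441) (nat_lit 306)))) (XT.nd (nat_lit 78) (nat_lit 608) (nat_lit 0) (XT.lf (nat_lit 0) (nat_lit 278599456) (nat_lit 608) (nat_lit 27849015638) (nat_lit 684) (nat_lit 13804165360) (nat_lit 291) (nat_lit 5) (nat_lit 299) (nat_lit 5) (nat_lit 300) (nat_lit 5) (nat_lit 454) (nat_lit 441) (nat_lit 305)) (XT.nd (nat_lit 78) (nat_lit 608) (nat_lit 0) (XT.lf (nat_lit 0) (nat_lit 36447810145) (nat_lit 684) (nat_lit 3567516016) (nat_lit 76) (nat_lit 3064447487) (nat_lit 291) (nat_lit 5) (nat_lit 300) (nat_lit 5) (nat_lit 292) (nat_lit 5) (nat_lit 455) (nat_lit 441) (nat_lit 304)) (XT.lf (nat_lit 0) (nat_lit 1518584728) (nat_lit 608) (nat_lit 7424974619) (nat_lit 76) (nat_lit 35322229839) (nat_lit 283) (nat_lit 5) (nat_lit 291) (nat_lit 5) (nat_lit 284) (nat_lit 5) (nat_lit 456) (nat_lit 441) (nat_lit 303))))) (XT.nd (nat_lit 234) (nat_lit 1900) (nat_lit 0) (XT.nd (nat_lit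 78) (nat_lit 1064) (nat_lit 0) (XT.lf (nat_lit 0) (nat_lit 10536600533) (nat_lit 684) (nat_lit 11295735690) (nat_lit 76) (nat_lit 23658886575) (nat_lit 275) (nat_lit 5) (nat_lit 284) (nat_lit 5) (nat_lit 276) (nat_lit 5) (nat_lit 457) (nat_lit 441) (nat_lit 302)) (XT.nd (nat_lit 78) (nat_lit 532) (nat_lit 0) (XT.lf (nat_lit 0) (nat_lit 20583497623) (nat_lit 608) (nat_lit 15071047952) (nat_lit 76) (nat_lit 11106043261) (nat_lit 268) (nat_lit 5) (nat_lit 276) (nat_lit 5) (nat_lit 269) (nat_lit 5) (nat_lit 458) (nat_lit 441) (nat_lit 301)) (XT.lf (nat_lit 0) (nat_lit 29316416886) (nat_lit 532) (nat_lit 2432010266) (nat_lit 608) (nat_lit 16326525549) (nat_lit 261) (nat_lit 5) (nat_lit 268) (nat_lit 5) (nat_lit 269) (nat_lit 5) (nat_lit 459) (nat_lit 441) (nat_lit 300)))) (XT.nd (nat_lit 156) (nat_lit 912) (nat_lit 0) (XT.nd (nat_lit 78) (nat_lit 532) (nat_lit 0) (XT.lf (nat_lit 0) (nat_lit 26996818759)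 (nat_lit 456) (nat_lit 17199150344) (nat_lit 532) (nat_lit 5237334821) (nat_lit 255) (nat_lit 5) (nat_lit 261) (nat_lit 5) (nat_lit 262) (nat_lit 5) (nat_lit 460) (nat_lit 441) (nat_lit 299)) (XT.lf (nat_lit 0) (nat_lit 6912553261) (nat_lit 532) (nat_lit 26046175148) (nat_lit 76) (nat_lit 17880059548) (nat_lit 248) (nat_lit 5) (nat_lit 255) (nat_lit 5) (nat_lit 249) (nat_lit 5) (nat_lit 461) (nat_lit 441) (nat_lit 298))) (XT.nd (nat_lit 78) (nat_lit 456) (nat_lit 0) (XT.lf (nat_lit 0) (nat_lit 20209387014) (nat_lit 532) (nat_lit 29563555992) (nat_lit 76) (nat_lit 2520614648) (nat_lit 242) (nat_lit 5) (nat_lit 249) (nat_lit 5) (nat_lit 243) (nat_lit 5) (nat_lit 462) (nat_lit 441) (nat_lit 297)) (XT.lf (nat_lit 0) (nat_lit 20741458075) (nat_lit 456) (nat_lit 14229006766) (nat_lit 532) (nat_lit 18826619044) (nat_lit 236) (nat_lit 5) (nat_lit 242) (nat_lit 5) (nat_lit 243) (nat_lit 5) (nat_lit 463)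 (nat_lit 441) (nat_lit 296))))))) (XT.nd (nat_lit 1014) (nat_lit 3420) (nat_lit 0) (XT.nd (nat_lit 468) (nat_lit 2204) (nat_lit 0) (XT.nd (nat_lit 234) (nat_lit 1216) (nat_lit 0) (XT.nd (nat_lit 78) (nat_lit 912) (nat_lit 0) (XT.lf (nat_lit 0) (nat_lit 18953529445) (nat_lit 380) (nat_lit 32224280301) (nat_lit 456) (nat_lit 4176730401) (nat_lit 231) (nat_lit 5) (nat_lit 236) (nat_lit 5) (nat_lit 237) (nat_lit 5) (nat_lit 464) (nat_lit 441) (nat_lit 295)) (XT.nd (nat_lit 78) (nat_lit 380) (nat_lit 0) (XT.lf (nat_lit 0) (nat_lit 11692806808) (nat_lit 532) (nat_lit 39668008806) (nat_lit 76) (nat_lit 5604647744) (nat_lit 224) (nat_lit 5) (nat_lit 231) (nat_lit 5) (nat_lit 225) (nat_lit 5) (nat_lit 465) (nat_lit 441) (nat_lit 294)) (XT.lf (nat_lit 0) (nat_lit 15727511312) (nat_lit 380) (nat_lit 13394480296) (nat_lit 456) (nat_lit 29508124053) (nat_lit 219) (nat_lit 5) (nat_lit 224) (nat_lit 5) (nat_lit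 225) (nat_lit 5) (nat_lit 466) (nat_lit 441) (nat_lit 293)))) (XT.nd (nat_lit 78) (nat_lit 836) (nat_lit 0) (XT.lf (nat_lit 0) (nat_lit 14373935006) (nat_lit 380) (nat_lit 33850702238) (nat_lit 456) (nat_lit 12129303384) (nat_lit 214) (nat_lit 5) (nat_lit 219) (nat_lit 5) (nat_lit 220) (nat_lit 5) (nat_lit 467) (nat_lit 441) (nat_lit 292)) (XT.nd (nat_lit 78) (nat_lit 380) (nat_lit 0) (XT.lf (nat_lit 0) (nat_lit 6768923546) (nat_lit 456) (nat_lit 48886944289) (nat_lit 76) (nat_lit 6483228916) (nat_lit 208) (nat_lit 5) (nat_lit 214) (nat_lit 5) (nat_lit 209) (nat_lit 5) (nat_lit 468) (nat_lit 441) (nat_lit 291)) (XT.lf (nat_lit 0) (nat_lit 12172239345) (nat_lit 380) (nat_lit 15125143315) (nat_lit 456) (nat_lit 36684440139) (nat_lit 203) (nat_lit 5) (nat_lit 208) (nat_lit 5) (nat_lit 209) (nat_lit 5) (nat_lit 469) (nat_lit 441) (nat_lit 290))))) (XT.nd (nat_lit 234) (nat_lit 1216) (nat_lit 0) (XT.nd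 (nat_lit 78) (nat_lit 684) (nat_lit 0) (XT.lf (nat_lit 0) (nat_lit 11353331765) (nat_lit 304) (nat_lit 38377241750) (nat_lit 380) (nat_lit 16159762451) (nat_lit 199) (nat_lit 5) (nat_lit 203) (nat_lit 5) (nat_lit 204) (nat_lit 5) (nat_lit 470) (nat_lit 441) (nat_lit 289)) (XT.nd (nat_lit 78) (nat_lit 304) (nat_lit 0) (XT.lf (nat_lit 0) (nat_lit 6125225975) (nat_lit 380) (nat_lit 57037636276) (nat_lit 76) (nat_lit 4704679597) (nat_lit 194) (nat_lit 5) (nat_lit 199) (nat_lit 5) (nat_lit 195) (nat_lit 5) (nat_lit 471) (nat_lit 441) (nat_lit 288)) (XT.lf (nat_lit 0) (nat_lit 10319596515) (nat_lit 304) (nat_lit 19924680542) (nat_lit 380) (nat_lit 39662910453) (nat_lit 190) (nat_lit 5) (nat_lit 194) (nat_lit 5) (nat_lit 195) (nat_lit 5) (nat_lit 472) (nat_lit 441) (nat_lit 287)))) (XT.nd (nat_lit 156) (nat_lit 532) (nat_lit 0) (XT.nd (nat_lit 78) (nat_lit 380) (nat_lit 0) (XT.lf (nat_lit 0) (nat_lit 10148978545)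 (nat_lit 304) (nat_lit 46353185094) (nat_lit 380) (nat_lit 15518665395) (nat_lit 186) (nat_lit 5) (nat_lit 190) (nat_lit 5) (nat_lit 191) (nat_lit 5) (nat_lit 473) (nat_lit 441) (nat_lit 286)) (XT.lf (nat_lit 0) (nat_lit 10291237986) (nat_lit 304) (nat_lit 266720812) (nat_lit 380) (nat_lit 63651847133) (nat_lit 181) (nat_lit 5) (nat_lit 185) (nat_lit 5) (nat_lit 186) (nat_lit 5) (nat_lit 474) (nat_lit 441) (nat_lit 285))) (XT.nd (nat_lit 78) (nat_lit 228) (nat_lit 0) (XT.lf (nat_lit 0) (nat_lit 10440827820) (nat_lit 304) (nat_lit 28383409586) (nat_lit 380) (nat_lit 37643181633) (nat_lit 177) (nat_lit 5) (nat_lit 181) (nat_lit 5) (nat_lit 182) (nat_lit 5) (nat_lit 475) (nat_lit 441) (nat_lit 284)) (XT.lf (nat_lit 0) (nat_lit 11046140183) (nat_lit 228) (nat_lit 58421049414) (nat_lit 304) (nat_lit 9341822472) (nat_lit 174) (nat_lit 5) (nat_lit 177) (nat_lit 5) (nat_lit 178) (nat_lit 5) (nat_lit 476)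 (nat_lit 441) (nat_lit 283)))))) (XT.nd (nat_lit 546) (nat_lit 1520) (nat_lit 0) (XT.nd (nat_lit 234) (nat_lit 988) (nat_lit 0) (XT.nd (nat_lit 78) (nat_lit 532) (nat_lit 0) (XT.lf (nat_lit 0) (nat_lit 11843457910) (nat_lit 304) (nat_lit 9218035172) (nat_lit 380) (nat_lit 60167782015) (nat_lit 169) (nat_lit 5) (nat_lit 173) (nat_lit 5) (nat_lit 174) (nat_lit 5) (nat_lit 477) (nat_lit 441) (nat_lit 282)) (XT.nd (nat_lit 78) (nat_lit 304) (nat_lit 0) (XT.lf (nat_lit 0) (nat_lit 12834247983) (nat_lit 228) (nat_lit 41192954774) (nat_lit 304) (nat_lit 29703510825) (nat_lit 166) (nat_lit 5) (nat_lit 169) (nat_lit 5) (nat_lit 170) (nat_lit 5) (nat_lit 478) (nat_lit 441) (nat_lit 281)) (XT.lf (nat_lit 0) (nat_lit 3298485575) (nat_lit 304) (nat_lit 72000484276) (nat_lit 76) (nat_lit 11025823132) (nat_lit 162) (nat_lit 5) (nat_lit 166) (nat_lit 5) (nat_lit 163) (nat_lit 5) (nat_lit 479) (nat_lit 441) (nat_lit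 280)))) (XT.nd (nat_lit 156) (nat_lit 532) (nat_lit 0) (XT.nd (nat_lit 78) (nat_lit 228) (nat_lit 0) (XT.lf (nat_lit 0) (nat_lit 15843930421) (nat_lit 228) (nat_lit 22801062589) (nat_lit 304) (nat_lit 50355498801) (nat_lit 159) (nat_lit 5) (nat_lit 162) (nat_lit 5) (nat_lit 163) (nat_lit 5) (nat_lit 480) (nat_lit 441) (nat_lit 279)) (XT.lf (nat_lit 0) (nat_lit 17823837472) (nat_lit 228) (nat_lit 59163494401) (nat_lit 304) (nat_lit 14785788569) (nat_lit 156) (nat_lit 5) (nat_lit 159) (nat_lit 5) (nat_lit 160) (nat_lit 5) (nat_lit 481) (nat_lit 441) (nat_lit 278))) (XT.nd (nat_lit 78) (nat_lit 228) (nat_lit 0) (XT.lf (nat_lit 0) (nat_lit 20155757460) (nat_lit 228) (nat_lit 3148803054) (nat_lit 304) (nat_lit 71337840705) (nat_lit 152) (nat_lit 5) (nat_lit 155) (nat_lit 5) (nat_lit 156) (nat_lit 5) (nat_lit 482) (nat_lit 441) (nat_lit 277)) (XT.lf (nat_lit 0) (nat_lit 22625438522) (nat_lit 228) (nat_lit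 41890463767) (nat_lit 304) (nat_lit 33089183921) (nat_lit 149) (nat_lit 5) (nat_lit 152) (nat_lit 5) (nat_lit 153) (nat_lit 5) (nat_lit 483) (nat_lit 441) (nat_lit 276))))) (XT.nd (nat_lit 234) (nat_lit 912) (nat_lit 0) (XT.nd (nat_lit 78) (nat_lit 380) (nat_lit 0) (XT.lf (nat_lit 0) (nat_lit 8158365469) (nat_lit 228) (nat_lit 75003341081) (nat_lit 76) (nat_lit 17515425809) (nat_lit 146) (nat_lit 5) (nat_lit 149) (nat_lit 5) (nat_lit 147) (nat_lit 5) (nat_lit 484) (nat_lit 441) (nat_lit 275)) (XT.nd (nat_lit 78) (nat_lit 152) (nat_lit 0) (XT.lf (nat_lit 0) (nat_lit 28842369908) (nat_lit 228) (nat_lit 23425647978) (nat_lit 304) (nat_lit 51580412672) (nat_lit 143) (nat_lit 5) (nat_lit 146) (nat_lit 5) (nat_lit 147) (nat_lit 5) (nat_lit 485) (nat_lit 441) (nat_lit 274)) (XT.lf (nat_lit 0) (nat_lit 32539044243) (nat_lit 152) (nat_lit 67512573808) (nat_lit 228) (nat_lit 7082621694) (nat_lit 141) (nat_lit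 5) (nat_lit 143) (nat_lit 5) (nat_lit 144) (nat_lit 5) (nat_lit 486) (nat_lit 441) (nat_lit 273)))) (XT.nd (nat_lit 156) (nat_lit 456) (nat_lit 0) (XT.nd (nat_lit 78) (nat_lit 152) (nat_lit 0) (XT.lf (nat_lit 0) (nat_lit 36552732686) (nat_lit 228) (nat_lit 3679612856) (nat_lit 304) (nat_lit 70299588332) (nat_lit 137) (nat_lit 5) (nat_lit 140) (nat_lit 5) (nat_lit 141) (nat_lit 5) (nat_lit 487) (nat_lit 441) (nat_lit 272)) (XT.lf (nat_lit 0) (nat_lit 40846463300) (nat_lit 152) (nat_lit 50696803429) (nat_lit 228) (nat_lit 22500841706) (nat_lit 135) (nat_lit 5) (nat_lit 137) (nat_lit 5) (nat_lit 138) (nat_lit 5) (nat_lit 488) (nat_lit 441) (nat_lit 271))) (XT.nd (nat_lit 78) (nat_lit 152) (nat_lit 0) (XT.lf (nat_lit 0) (nat_lit 28560277909) (nat_lit 304) (nat_lit 72023321155) (nat_lit 76) (nat_lit 17097926356) (nat_lit 131) (nat_lit 5) (nat_lit 135) (nat_lit 5) (nat_lit 132) (nat_lit 5) (nat_lit 489)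 (nat_lit 441) (nat_lit 270)) (XT.lf (nat_lit 0) (nat_lit 50749395219) (nat_lit 152) (nat_lit 32722882373) (nat_lit 228) (nat_lit 37968956987) (nat_lit 129) (nat_lit 5) (nat_lit 131) (nat_lit 5) (nat_lit 132) (nat_lit 5) (nat_lit 490) (nat_lit 441) (nat_lit 269))))))))
noncomputable def xc107 : XT := (XT.nd (nat_lit 60450) (nat_lit 0) (nat_lit 608) (XT.nd (nat_lit 59436) (nat_lit 0) (nat_lit 8740) (XT.nd (nat_lit 58890) (nat_lit 0) (nat_lit 14896) (XT.nd (nat_lit 58656) (nat_lit 0) (nat_lit 15656) (XT.nd (nat_lit 78) (nat_lit 380) (nat_lit 0) (XT.lf (nat_lit 0) (nat_lit 17111083051) (nat_lit 228) (nat_lit 68985360815) (nat_lit 76) (nat_lit 39237627077) (nat_lit 126) (nat_lit 5) (nat_lit 129) (nat_lit 5) (nat_lit 127) (nat_lit 5) (nat_lit 491) (nat_lit 441) (nat_lit 268)) (XT.nd (nat_lit 78) (nat_lit 228) (nat_lit 0) (XT.lf (nat_lit 0) (nat_lit 62311219964) (nat_lit 152) (nat_lit 13518546250) (nat_lit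 228) (nat_lit 53530408102) (nat_lit 124) (nat_lit 5) (nat_lit 126) (nat_lit 5) (nat_lit 127) (nat_lit 5) (nat_lit 492) (nat_lit 441) (nat_lit 267)) (XT.lf (nat_lit 0) (nat_lit 5819729197) (nat_lit 228) (nat_lit 64807600693) (nat_lit 76) (nat_lit 62899160161) (nat_lit 121) (nat_lit 5) (nat_lit 124) (nat_lit 5) (nat_lit 122) (nat_lit 5) (nat_lit 493) (nat_lit 441) (nat_lit 266)))) (XT.nd (nat_lit 78) (nat_lit 0) (nat_lit 76) (XT.lf (nat_lit 0) (nat_lit 8508922699) (nat_lit 1292) (nat_lit 3633757681) (nat_lit 1292) (nat_lit 3633757681) (nat_lit 327) (nat_lit 3) (nat_lit 344) (nat_lit 3) (nat_lit 344) (nat_lit 5) (nat_lit 442) (nat_lit 442) (nat_lit 316)) (XT.nd (nat_lit 78) (nat_lit 0) (nat_lit 0) (XT.lf (nat_lit 0) (nat_lit 17751786370) (nat_lit 1216) (nat_lit 13051121739) (nat_lit 1292) (nat_lit 1529530090) (nat_lit 328) (nat_lit 5) (nat_lit 344) (nat_lit 5) (nat_lit 345) (nat_lit 5) (nat_lit 443)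 (nat_lit 442) (nat_lit 315)) (XT.lf (nat_lit 76) (nat_lit 14187850589) (nat_lit 0) (nat_lit 4784710677) (nat_lit 1292) (nat_lit 14164913324) (nat_lit 329) (nat_lit 5) (nat_lit 328) (nat_lit 5) (nat_lit 345) (nat_lit 5) (nat_lit 444) (nat_lit 442) (nat_lit 314))))) (XT.nd (nat_lit 234) (nat_lit 912) (nat_lit 0) (XT.nd (nat_lit 78) (nat_lit 0) (nat_lit 76) (XT.lf (nat_lit 76) (nat_lit 9037184881) (nat_lit 0) (nat_lit 11649759260) (nat_lit 1292) (nat_lit 13282841885) (nat_lit 330) (nat_lit 5) (nat_lit 329) (nat_lit 5) (nat_lit 346) (nat_lit 5) (nat_lit 445) (nat_lit 442) (nat_lit 313)) (XT.nd (nat_lit 78) (nat_lit 0) (nat_lit 76) (XT.lf (nat_lit 76) (nat_lit 3850507670) (nat_lit 0) (nat_lit 19064333236) (nat_lit 1292) (nat_lit 11916038575) (nat_lit 331) (nat_lit 5) (nat_lit 330) (nat_lit 5) (nat_lit 347) (nat_lit 5) (nat_lit 446) (nat_lit 442) (nat_lit 312)) (XT.lf (nat_lit 0) (nat_lit 25706247802)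 (nat_lit 1216) (nat_lit 1339179172) (nat_lit 1292) (nat_lit 8676037452) (nat_lit 331) (nat_lit 5) (nat_lit 347) (nat_lit 5) (nat_lit 348) (nat_lit 5) (nat_lit 447) (nat_lit 442) (nat_lit 311)))) (XT.nd (nat_lit 156) (nat_lit 1140) (nat_lit 0) (XT.nd (nat_lit 78) (nat_lit 0) (nat_lit 0) (XT.lf (nat_lit 0) (nat_lit 29124207197) (nat_lit 1216) (nat_lit 6475956874) (nat_lit 1292) (nat_lit 1041805345) (nat_lit 332) (nat_lit 5) (nat_lit 348) (nat_lit 5) (nat_lit 349) (nat_lit 5) (nat_lit 448) (nat_lit 442) (nat_lit 310)) (XT.lf (nat_lit 76) (nat_lit 25894506072) (nat_lit 0) (nat_lit 7348894048) (nat_lit 1292) (nat_lit 4349189717) (nat_lit 333) (nat_lit 5) (nat_lit 332) (nat_lit 5) (nat_lit 349) (nat_lit 5) (nat_lit 449) (nat_lit 442) (nat_lit 309))) (XT.nd (nat_lit 78) (nat_lit 1216) (nat_lit 0) (XT.lf (nat_lit 76) (nat_lit 21632957313) (nat_lit 0) (nat_lit 16420133127) (nat_lit 1292) (nat_lit 523114948)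 (nat_lit 334) (nat_lit 5) (nat_lit 333) (nat_lit 5) (nat_lit 350) (nat_lit 5) (nat_lit 450) (nat_lit 442) (nat_lit 308)) (XT.lf (nat_lit 0) (nat_lit 3916806463) (nat_lit 1292) (nat_lit 22231011948) (nat_lit 1368) (nat_lit 13445453996) (nat_lit 317) (nat_lit 5) (nat_lit 334) (nat_lit 5) (nat_lit 335) (nat_lit 5) (nat_lit 451) (nat_lit 442) (nat_lit 307)))))) (XT.nd (nat_lit 468) (nat_lit 3572) (nat_lit 0) (XT.nd (nat_lit 234) (nat_lit 1216) (nat_lit 0) (XT.nd (nat_lit 78) (nat_lit 1444) (nat_lit 0) (XT.lf (nat_lit 0) (nat_lit 9071222816) (nat_lit 1292) (nat_lit 27525711680) (nat_lit 76) (nat_lit 4049003580) (nat_lit 318) (nat_lit 5) (nat_lit 335) (nat_lit 5) (nat_lit 319) (nat_lit 5) (nat_lit 452) (nat_lit 442) (nat_lit 306)) (XT.nd (nat_lit 78) (nat_lit 608) (nat_lit 0) (XT.lf (nat_lit 0) (nat_lit 8861816513) (nat_lit 836) (nat_lit 6197092499) (nat_lit 912) (nat_lit 26675061745) (nat_lit 307) (nat_lit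 5) (nat_lit 318) (nat_lit 5) (nat_lit 319) (nat_lit 5) (nat_lit 453) (nat_lit 442) (nat_lit 305)) (XT.lf (nat_lit 0) (nat_lit 4611781852) (nat_lit 608) (nat_lit 17307471052) (nat_lit 684) (nat_lit 20939954158) (nat_lit 299) (nat_lit 5) (nat_lit 307) (nat_lit 5) (nat_lit 308) (nat_lit 5) (nat_lit 454) (nat_lit 442) (nat_lit 304)))) (XT.nd (nat_lit 78) (nat_lit 608) (nat_lit 0) (XT.lf (nat_lit 0) (nat_lit 423581663) (nat_lit 608) (nat_lit 29243990433) (nat_lit 684) (nat_lit 14356784522) (nat_lit 291) (nat_lit 5) (nat_lit 299) (nat_lit 5) (nat_lit 300) (nat_lit 5) (nat_lit 455) (nat_lit 442) (nat_lit 303)) (XT.nd (nat_lit 78) (nat_lit 608) (nat_lit 0) (XT.lf (nat_lit 0) (nat_lit 38397393019) (nat_lit 684) (nat_lit 3617235288) (nat_lit 76) (nat_lit 3215312946) (nat_lit 291) (nat_lit 5) (nat_lit 300) (nat_lit 5) (nat_lit 292) (nat_lit 5) (nat_lit 456) (nat_lit 442) (nat_lit 302)) (XT.lf (nat_lit 0) (nat_lit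 1718067038) (nat_lit 608) (nat_lit 7668790880) (nat_lit 76) (nat_lit 37088509230) (nat_lit 283) (nat_lit 5) (nat_lit 291) (nat_lit 5) (nat_lit 284) (nat_lit 5) (nat_lit 457) (nat_lit 442) (nat_lit 301))))) (XT.nd (nat_lit 234) (nat_lit 1900) (nat_lit 0) (XT.nd (nat_lit 78) (nat_lit 1064) (nat_lit 0) (XT.lf (nat_lit 0) (nat_lit 11182337295) (nat_lit 684) (nat_lit 11733219672) (nat_lit 76) (nat_lit 24846655097) (nat_lit 275) (nat_lit 5) (nat_lit 284) (nat_lit 5) (nat_lit 276) (nat_lit 5) (nat_lit 458) (nat_lit 442) (nat_lit 300)) (XT.nd (nat_lit 78) (nat_lit 532) (nat_lit 0) (XT.lf (nat_lit 0) (nat_lit 21727194283) (nat_lit 608) (nat_lit 15697597846) (nat_lit 76) (nat_lit 11670386047) (nat_lit 268) (nat_lit 5) (nat_lit 276) (nat_lit 5) (nat_lit 269) (nat_lit 5) (nat_lit 459) (nat_lit 442) (nat_lit 299)) (XT.lf (nat_lit 0) (nat_lit 30905599733) (nat_lit 532) (nat_lit 2540502968) (nat_lit 608) (nat_lit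 17029285772) (nat_lit 261) (nat_lit 5) (nat_lit 268) (nat_lit 5) (nat_lit 269) (nat_lit 5) (nat_lit 460) (nat_lit 442) (nat_lit 298)))) (XT.nd (nat_lit 156) (nat_lit 912) (nat_lit 0) (XT.nd (nat_lit 78) (nat_lit 532) (nat_lit 0) (XT.lf (nat_lit 0) (nat_lit 28469580094) (nat_lit 456) (nat_lit 18042493042) (nat_lit 532) (nat_lit 5389702781) (nat_lit 255) (nat_lit 5) (nat_lit 261) (nat_lit 5) (nat_lit 262) (nat_lit 5) (nat_lit 461) (nat_lit 442) (nat_lit 297)) (XT.lf (nat_lit 0) (nat_lit 7361771807) (nat_lit 532) (nat_lit 27224075066) (nat_lit 76) (nat_lit 18791769023) (nat_lit 248) (nat_lit 5) (nat_lit 255) (nat_lit 5) (nat_lit 249) (nat_lit 5) (nat_lit 462) (nat_lit 442) (nat_lit 296))) (XT.nd (nat_lit 78) (nat_lit 456) (nat_lit 0) (XT.lf (nat_lit 0) (nat_lit 21319878049) (nat_lit 532) (nat_lit 30918095052) (nat_lit 76) (nat_lit 2667258232) (nat_lit 242) (nat_lit 5) (nat_lit 249) (nat_lit 5) (nat_lit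 243) (nat_lit 5) (nat_lit 463) (nat_lit 442) (nat_lit 295)) (XT.lf (nat_lit 0) (nat_lit 21898625638) (nat_lit 456) (nat_lit 14916775614) (nat_lit 532) (nat_lit 19668641046) (nat_lit 236) (nat_lit 5) (nat_lit 242) (nat_lit 5) (nat_lit 243) (nat_lit 5) (nat_lit 464) (nat_lit 442) (nat_lit 294))))))) (XT.nd (nat_lit 1014) (nat_lit 3420) (nat_lit 0) (XT.nd (nat_lit 468) (nat_lit 2204) (nat_lit 0) (XT.nd (nat_lit 234) (nat_lit 1216) (nat_lit 0) (XT.nd (nat_lit 78) (nat_lit 912) (nat_lit 0) (XT.lf (nat_lit 0) (nat_lit 20020449745) (nat_lit 380) (nat_lit 33809435600) (nat_lit 456) (nat_lit 4289583032) (nat_lit 231) (nat_lit 5) (nat_lit 236) (nat_lit 5) (nat_lit 237) (nat_lit 5) (nat_lit 465) (nat_lit 442) (nat_lit 293)) (XT.nd (nat_lit 78) (nat_lit 380) (nat_lit 0) (XT.lf (nat_lit 0) (nat_lit 12368465942) (nat_lit 532) (nat_lit 41531293847) (nat_lit 76) (nat_lit 5911243193) (nat_lit 224) (nat_lit 5) (nat_lit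 231) (nat_lit 5) (nat_lit 225) (nat_lit 5) (nat_lit 466) (nat_lit 442) (nat_lit 292)) (XT.lf (nat_lit 0) (nat_lit 16630559193) (nat_lit 380) (nat_lit 14035338086) (nat_lit 456) (nat_lit 30893087143) (nat_lit 219) (nat_lit 5) (nat_lit 224) (nat_lit 5) (nat_lit 225) (nat_lit 5) (nat_lit 467) (nat_lit 442) (nat_lit 291)))) (XT.nd (nat_lit 78) (nat_lit 836) (nat_lit 0) (XT.lf (nat_lit 0) (nat_lit 15208251590) (nat_lit 380) (nat_lit 35512618041) (nat_lit 456) (nat_lit 12648215310) (nat_lit 214) (nat_lit 5) (nat_lit 219) (nat_lit 5) (nat_lit 220) (nat_lit 5) (nat_lit 468) (nat_lit 442) (nat_lit 290)) (XT.nd (nat_lit 78) (nat_lit 380) (nat_lit 0) (XT.lf (nat_lit 0) (nat_lit 7190521267) (nat_lit 456) (nat_lit 51215134859) (nat_lit 76) (nat_lit 6837898416) (nat_lit 208) (nat_lit 5) (nat_lit 214) (nat_lit 5) (nat_lit 209) (nat_lit 5) (nat_lit 469) (nat_lit 442) (nat_lit 289)) (XT.lf (nat_lit 0) (nat_lit 12893678349)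 (nat_lit 380) (nat_lit 15848849952) (nat_lit 456) (nat_lit 38435974961) (nat_lit 203) (nat_lit 5) (nat_lit 208) (nat_lit 5) (nat_lit 209) (nat_lit 5) (nat_lit 470) (nat_lit 442) (nat_lit 288))))) (XT.nd (nat_lit 234) (nat_lit 1216) (nat_lit 0) (XT.nd (nat_lit 78) (nat_lit 684) (nat_lit 0) (XT.lf (nat_lit 0) (nat_lit 12032628874) (nat_lit 304) (nat_lit 40262298191) (nat_lit 380) (nat_lit 16887588685) (nat_lit 199) (nat_lit 5) (nat_lit 203) (nat_lit 5) (nat_lit 204) (nat_lit 5) (nat_lit 471) (nat_lit 442) (nat_lit 287)) (XT.nd (nat_lit 78) (nat_lit 304) (nat_lit 0) (XT.lf (nat_lit 0) (nat_lit 6507726315) (nat_lit 380) (nat_lit 59777613655) (nat_lit 76) (nat_lit 4973289704) (nat_lit 194) (nat_lit 5) (nat_lit 199) (nat_lit 5) (nat_lit 195) (nat_lit 5) (nat_lit 472) (nat_lit 442) (nat_lit 286)) (XT.lf (nat_lit 0) (nat_lit 10944273058) (nat_lit 304) (nat_lit 20885871321) (nat_lit 380) (nat_lit 41570190905)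 (nat_lit 190) (nat_lit 5) (nat_lit 194) (nat_lit 5) (nat_lit 195) (nat_lit 5) (nat_lit 473) (nat_lit 442) (nat_lit 285)))) (XT.nd (nat_lit 156) (nat_lit 532) (nat_lit 0) (XT.nd (nat_lit 78) (nat_lit 380) (nat_lit 0) (XT.lf (nat_lit 0) (nat_lit 10763829424) (nat_lit 304) (nat_lit 48634941788) (nat_lit 380) (nat_lit 16220952390) (nat_lit 186) (nat_lit 5) (nat_lit 190) (nat_lit 5) (nat_lit 191) (nat_lit 5) (nat_lit 474) (nat_lit 442) (nat_lit 284)) (XT.lf (nat_lit 0) (nat_lit 10911520885) (nat_lit 304) (nat_lit 244122747) (nat_lit 380) (nat_lit 66762557231) (nat_lit 181) (nat_lit 5) (nat_lit 185) (nat_lit 5) (nat_lit 186) (nat_lit 5) (nat_lit 475) (nat_lit 442) (nat_lit 283))) (XT.nd (nat_lit 78) (nat_lit 228) (nat_lit 0) (XT.lf (nat_lit 0) (nat_lit 11067259522) (nat_lit 304) (nat_lit 29765985898) (nat_lit 380) (nat_lit 39455509012) (nat_lit 177) (nat_lit 5) (nat_lit 181) (nat_lit 5) (nat_lit 182)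 (nat_lit 5) (nat_lit 476) (nat_lit 442) (nat_lit 282)) (XT.lf (nat_lit 0) (nat_lit 11701480704) (nat_lit 228) (nat_lit 61304961564) (nat_lit 304) (nat_lit 9741042013) (nat_lit 174) (nat_lit 5) (nat_lit 177) (nat_lit 5) (nat_lit 178) (nat_lit 5) (nat_lit 477) (nat_lit 442) (nat_lit 281)))))) (XT.nd (nat_lit 546) (nat_lit 1520) (nat_lit 0) (XT.nd (nat_lit 234) (nat_lit 988) (nat_lit 0) (XT.nd (nat_lit 78) (nat_lit 532) (nat_lit 0) (XT.lf (nat_lit 0) (nat_lit 12536998841) (nat_lit 304) (nat_lit 9641921557) (nat_lit 380) (nat_lit 63109886399) (nat_lit 169) (nat_lit 5) (nat_lit 173) (nat_lit 5) (nat_lit 174) (nat_lit 5) (nat_lit 478) (nat_lit 442) (nat_lit 280)) (XT.nd (nat_lit 78) (nat_lit 304) (nat_lit 0) (XT.lf (nat_lit 0) (nat_lit 13575953781) (nat_lit 228) (nat_lit 43215197432) (nat_lit 304) (nat_lit 31124218994) (nat_lit 166) (nat_lit 5) (nat_lit 169) (nat_lit 5) (nat_lit 170) (nat_lit 5) (nat_lit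 479) (nat_lit 442) (nat_lit 279)) (XT.lf (nat_lit 0) (nat_lit 3524912311) (nat_lit 304) (nat_lit 75500680126) (nat_lit 76) (nat_lit 11613593822) (nat_lit 162) (nat_lit 5) (nat_lit 166) (nat_lit 5) (nat_lit 163) (nat_lit 5) (nat_lit 480) (nat_lit 442) (nat_lit 278)))) (XT.nd (nat_lit 156) (nat_lit 532) (nat_lit 0) (XT.nd (nat_lit 78) (nat_lit 228) (nat_lit 0) (XT.lf (nat_lit 0) (nat_lit 16733093746) (nat_lit 228) (nat_lit 23903654788) (nat_lit 304) (nat_lit 52811981455) (nat_lit 159) (nat_lit 5) (nat_lit 162) (nat_lit 5) (nat_lit 163) (nat_lit 5) (nat_lit 481) (nat_lit 442) (nat_lit 277)) (XT.lf (nat_lit 0) (nat_lit 18810602046) (nat_lit 228) (nat_lit 62084030334) (nat_lit 304) (nat_lit 15465404888) (nat_lit 156) (nat_lit 5) (nat_lit 159) (nat_lit 5) (nat_lit 160) (nat_lit 5) (nat_lit 482) (nat_lit 442) (nat_lit 276))) (XT.nd (nat_lit 78) (nat_lit 228) (nat_lit 0) (XT.lf (nat_lit 0) (nat_lit 21257510631)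 (nat_lit 228) (nat_lit 3268903705) (nat_lit 304) (nat_lit 74846407081) (nat_lit 152) (nat_lit 5) (nat_lit 155) (nat_lit 5) (nat_lit 156) (nat_lit 5) (nat_lit 483) (nat_lit 442) (nat_lit 275)) (XT.lf (nat_lit 0) (nat_lit 23849284745) (nat_lit 228) (nat_lit 43947573707) (nat_lit 304) (nat_lit 34686826200) (nat_lit 149) (nat_lit 5) (nat_lit 152) (nat_lit 5) (nat_lit 153) (nat_lit 5) (nat_lit 484) (nat_lit 442) (nat_lit 274))))) (XT.nd (nat_lit 234) (nat_lit 912) (nat_lit 0) (XT.nd (nat_lit 78) (nat_lit 380) (nat_lit 0) (XT.lf (nat_lit 0) (nat_lit 8620570243) (nat_lit 228) (nat_lit 78661247021) (nat_lit 76) (nat_lit 18427542158) (nat_lit 146) (nat_lit 5) (nat_lit 149) (nat_lit 5) (nat_lit 147) (nat_lit 5) (nat_lit 485) (nat_lit 442) (nat_lit 273)) (XT.nd (nat_lit 78) (nat_lit 152) (nat_lit 0) (XT.lf (nat_lit 0) (nat_lit 30374104871) (nat_lit 228) (nat_lit 24559876788) (nat_lit 304) (nat_lit 54105292628)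 (nat_lit 143) (nat_lit 5) (nat_lit 146) (nat_lit 5) (nat_lit 147) (nat_lit 5) (nat_lit 486) (nat_lit 442) (nat_lit 272)) (XT.lf (nat_lit 0) (nat_lit 34254230685) (nat_lit 152) (nat_lit 70851215534) (nat_lit 228) (nat_lit 7383967225) (nat_lit 141) (nat_lit 5) (nat_lit 143) (nat_lit 5) (nat_lit 144) (nat_lit 5) (nat_lit 487) (nat_lit 442) (nat_lit 271)))) (XT.nd (nat_lit 156) (nat_lit 456) (nat_lit 0) (XT.nd (nat_lit 78) (nat_lit 152) (nat_lit 0) (XT.lf (nat_lit 0) (nat_lit 38467075664) (nat_lit 228) (nat_lit 3827011597) (nat_lit 304) (nat_lit 73762938768) (nat_lit 137) (nat_lit 5) (nat_lit 140) (nat_lit 5) (nat_lit 141) (nat_lit 5) (nat_lit 488) (nat_lit 442) (nat_lit 270)) (XT.lf (nat_lit 0) (nat_lit 42974127232) (nat_lit 152) (nat_lit 53195195648) (nat_lit 228) (nat_lit 23575523426) (nat_lit 135) (nat_lit 5) (nat_lit 137) (nat_lit 5) (nat_lit 138) (nat_lit 5) (nat_lit 489) (nat_lit 442) (nat_lit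 269))) (XT.nd (nat_lit 78) (nat_lit 152) (nat_lit 0) (XT.lf (nat_lit 0) (nat_lit 30036470377) (nat_lit 304) (nat_lit 75539547998) (nat_lit 76) (nat_lit 17988137249) (nat_lit 131) (nat_lit 5) (nat_lit 135) (nat_lit 5) (nat_lit 132) (nat_lit 5) (nat_lit 490) (nat_lit 442) (nat_lit 268)) (XT.lf (nat_lit 0) (nat_lit 53369369429) (nat_lit 152) (nat_lit 34323199482) (nat_lit 228) (nat_lit 39819326400) (nat_lit 129) (nat_lit 5) (nat_lit 131) (nat_lit 5) (nat_lit 132) (nat_lit 5) (nat_lit 491) (nat_lit 442) (nat_lit 267))))))))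
noncomputable def xc108 : XT := (XT.nd (nat_lit 60528) (nat_lit 228) (nat_lit 0) (XT.nd (nat_lit 59514) (nat_lit 0) (nat_lit 8132) (XT.nd (nat_lit 58968) (nat_lit 0) (nat_lit 14668) (XT.nd (nat_lit 58734) (nat_lit 0) (nat_lit 15504) (XT.nd (nat_lit 78) (nat_lit 152) (nat_lit 0) (XT.lf (nat_lit 0) (nat_lit 18012651862) (nat_lit 228) (nat_lit 72352546656) (nat_lit 76) (nat_lit 41234194909) (nat_lit 126) (nat_lit 5) (nat_lit 129) (nat_lit 5) (nat_lit 127) (nat_lit 5) (nat_lit 492) (nat_lit 442) (nat_lit 266)) (XT.nd (nat_lit 58578) (nat_lit 0) (nat_lit 15428) (XT.lf (nat_lit 0) (nat_lit 65506510293) (nat_lit 152) (nat_lit 14159334123) (nat_lit 228) (nat_lit 56161000325) (nat_lit 124) (nat_lit 5) (nat_lit 126) (nat_lit 5) (nat_lit 127) (nat_lit 5) (nat_lit 493) (nat_lit 442) (nat_lit 265)) (XT.lf (nat_lit 0) (nat_lit 9040689704) (nat_lit 1292) (nat_lit 3760687864) (nat_lit 1292) (nat_lit 3760687864)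 (nat_lit 327) (nat_lit 3) (nat_lit 344) (nat_lit 3) (nat_lit 344) (nat_lit 5) (nat_lit 443) (nat_lit 443) (nat_lit 314)))) (XT.nd (nat_lit 78) (nat_lit 0) (nat_lit 0) (XT.lf (nat_lit 0) (nat_lit 18841980200) (nat_lit 1216) (nat_lit 13590252175) (nat_lit 1292) (nat_lit 1510740252) (nat_lit 328) (nat_lit 5) (nat_lit 344) (nat_lit 5) (nat_lit 345) (nat_lit 5) (nat_lit 444) (nat_lit 443) (nat_lit 313)) (XT.nd (nat_lit 78) (nat_lit 0) (nat_lit 76) (XT.lf (nat_lit 76) (nat_lit 15007417445) (nat_lit 0) (nat_lit 5107787624) (nat_lit 1292) (nat_lit 14673313876) (nat_lit 329) (nat_lit 5) (nat_lit 328) (nat_lit 5) (nat_lit 345) (nat_lit 5) (nat_lit 445) (nat_lit 443) (nat_lit 312)) (XT.lf (nat_lit 76) (nat_lit 9602505436) (nat_lit 0) (nat_lit 12303885910) (nat_lit 1292) (nat_lit 13756322504) (nat_lit 330) (nat_lit 5) (nat_lit 329) (nat_lit 5) (nat_lit 346) (nat_lit 5) (nat_lit 446) (nat_lit 443) (nat_lit 311)))))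 (XT.nd (nat_lit 234) (nat_lit 988) (nat_lit 0) (XT.nd (nat_lit 78) (nat_lit 0) (nat_lit 76) (XT.lf (nat_lit 76) (nat_lit 4159312973) (nat_lit 0) (nat_lit 20078017602) (nat_lit 1292) (nat_lit 12329782378) (nat_lit 331) (nat_lit 5) (nat_lit 330) (nat_lit 5) (nat_lit 347) (nat_lit 5) (nat_lit 447) (nat_lit 443) (nat_lit 310)) (XT.nd (nat_lit 78) (nat_lit 0) (nat_lit 76) (XT.lf (nat_lit 0) (nat_lit 27159337688) (nat_lit 1216) (nat_lit 1289784155) (nat_lit 1292) (nat_lit 9053374790) (nat_lit 331) (nat_lit 5) (nat_lit 347) (nat_lit 5) (nat_lit 348) (nat_lit 5) (nat_lit 448) (nat_lit 443) (nat_lit 309)) (XT.lf (nat_lit 0) (nat_lit 30740832034) (nat_lit 1216) (nat_lit 6681442428) (nat_lit 1292) (nat_lit 1046973666) (nat_lit 332) (nat_lit 5) (nat_lit 348) (nat_lit 5) (nat_lit 349) (nat_lit 5) (nat_lit 449) (nat_lit 443) (nat_lit 308)))) (XT.nd (nat_lit 156) (nat_lit 1140) (nat_lit 0) (XT.nd (nat_lit 78)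 (nat_lit 0) (nat_lit 76) (XT.lf (nat_lit 76) (nat_lit 27304152268) (nat_lit 0) (nat_lit 7755298242) (nat_lit 1292) (nat_lit 4408145434) (nat_lit 333) (nat_lit 5) (nat_lit 332) (nat_lit 5) (nat_lit 349) (nat_lit 5) (nat_lit 450) (nat_lit 443) (nat_lit 307)) (XT.lf (nat_lit 76) (nat_lit 22831086511) (nat_lit 0) (nat_lit 17271974217) (nat_lit 1292) (nat_lit 397528813) (nat_lit 334) (nat_lit 5) (nat_lit 333) (nat_lit 5) (nat_lit 350) (nat_lit 5) (nat_lit 451) (nat_lit 443) (nat_lit 306))) (XT.nd (nat_lit 78) (nat_lit 0) (nat_lit 76) (XT.lf (nat_lit 0) (nat_lit 4255200648) (nat_lit 1292) (nat_lit 23221989739) (nat_lit 1368) (nat_lit 14091462882) (nat_lit 317) (nat_lit 5) (nat_lit 334) (nat_lit 5) (nat_lit 335) (nat_lit 5) (nat_lit 452) (nat_lit 443) (nat_lit 305)) (XT.lf (nat_lit 0) (nat_lit 9661485249) (nat_lit 1292) (nat_lit 28780577975) (nat_lit 76) (nat_lit 4232064867) (nat_lit 318) (nat_lit 5) (nat_lit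 335) (nat_lit 5) (nat_lit 319) (nat_lit 5) (nat_lit 453) (nat_lit 443) (nat_lit 304)))))) (XT.nd (nat_lit 468) (nat_lit 3344) (nat_lit 0) (XT.nd (nat_lit 234) (nat_lit 1216) (nat_lit 0) (XT.nd (nat_lit 78) (nat_lit 1216) (nat_lit 0) (XT.lf (nat_lit 0) (nat_lit 9422846168) (nat_lit 836) (nat_lit 6520333702) (nat_lit 912) (nat_lit 27873544092) (nat_lit 307) (nat_lit 5) (nat_lit 318) (nat_lit 5) (nat_lit 319) (nat_lit 5) (nat_lit 454) (nat_lit 443) (nat_lit 303)) (XT.nd (nat_lit 78) (nat_lit 608) (nat_lit 0) (XT.lf (nat_lit 0) (nat_lit 4960886313) (nat_lit 608) (nat_lit 18180417742) (nat_lit 684) (nat_lit 21857075399) (nat_lit 299) (nat_lit 5) (nat_lit 307) (nat_lit 5) (nat_lit 308) (nat_lit 5) (nat_lit 455) (nat_lit 443) (nat_lit 302)) (XT.lf (nat_lit 0) (nat_lit 563628987) (nat_lit 608) (nat_lit 30708479309) (nat_lit 684) (nat_lit 14949826373) (nat_lit 291) (nat_lit 5) (nat_lit 299) (nat_lit 5) (nat_lit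 300) (nat_lit 5) (nat_lit 456) (nat_lit 443) (nat_lit 301)))) (XT.nd (nat_lit 78) (nat_lit 1216) (nat_lit 0) (XT.lf (nat_lit 0) (nat_lit 40432629897) (nat_lit 684) (nat_lit 3681401788) (nat_lit 76) (nat_lit 3373940802) (nat_lit 291) (nat_lit 5) (nat_lit 300) (nat_lit 5) (nat_lit 292) (nat_lit 5) (nat_lit 457) (nat_lit 443) (nat_lit 300)) (XT.nd (nat_lit 78) (nat_lit 608) (nat_lit 0) (XT.lf (nat_lit 0) (nat_lit 1916036669) (nat_lit 608) (nat_lit 7936645418) (nat_lit 76) (nat_lit 38943086980) (nat_lit 283) (nat_lit 5) (nat_lit 291) (nat_lit 5) (nat_lit 284) (nat_lit 5) (nat_lit 458) (nat_lit 443) (nat_lit 299)) (XT.lf (nat_lit 0) (nat_lit 11849306074) (nat_lit 684) (nat_lit 12204413261) (nat_lit 76) (nat_lit 26093363537) (nat_lit 275) (nat_lit 5) (nat_lit 284) (nat_lit 5) (nat_lit 276) (nat_lit 5) (nat_lit 459) (nat_lit 443) (nat_lit 298))))) (XT.nd (nat_lit 234) (nat_lit 1824) (nat_lit 0) (XT.nd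 (nat_lit 78) (nat_lit 988) (nat_lit 0) (XT.lf (nat_lit 0) (nat_lit 22917428626) (nat_lit 608) (nat_lit 16367282724) (nat_lit 76) (nat_lit 12262105460) (nat_lit 268) (nat_lit 5) (nat_lit 276) (nat_lit 5) (nat_lit 269) (nat_lit 5) (nat_lit 460) (nat_lit 443) (nat_lit 297)) (XT.nd (nat_lit 78) (nat_lit 456) (nat_lit 0) (XT.lf (nat_lit 0) (nat_lit 32562772692) (nat_lit 532) (nat_lit 2655638945) (nat_lit 608) (nat_lit 17777742301) (nat_lit 261) (nat_lit 5) (nat_lit 268) (nat_lit 5) (nat_lit 269) (nat_lit 5) (nat_lit 461) (nat_lit 443) (nat_lit 296)) (XT.lf (nat_lit 0) (nat_lit 30004551522) (nat_lit 456) (nat_lit 18929547564) (nat_lit 532) (nat_lit 5559869298) (nat_lit 255) (nat_lit 5) (nat_lit 261) (nat_lit 5) (nat_lit 262) (nat_lit 5) (nat_lit 462) (nat_lit 443) (nat_lit 295)))) (XT.nd (nat_lit 156) (nat_lit 836) (nat_lit 0) (XT.nd (nat_lit 78) (nat_lit 456) (nat_lit 0) (XT.lf (nat_lit 0) (nat_lit 7823820382)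 (nat_lit 532) (nat_lit 28472436336) (nat_lit 76) (nat_lit 19747417790) (nat_lit 248) (nat_lit 5) (nat_lit 255) (nat_lit 5) (nat_lit 249) (nat_lit 5) (nat_lit 463) (nat_lit 443) (nat_lit 294)) (XT.lf (nat_lit 0) (nat_lit 22476594567) (nat_lit 532) (nat_lit 32351855823) (nat_lit 76) (nat_lit 2819317606) (nat_lit 242) (nat_lit 5) (nat_lit 249) (nat_lit 5) (nat_lit 243) (nat_lit 5) (nat_lit 464) (nat_lit 443) (nat_lit 293))) (XT.nd (nat_lit 78) (nat_lit 380) (nat_lit 0) (XT.lf (nat_lit 0) (nat_lit 23102486317) (nat_lit 456) (nat_lit 15641134586) (nat_lit 532) (nat_lit 20561996954) (nat_lit 236) (nat_lit 5) (nat_lit 242) (nat_lit 5) (nat_lit 243) (nat_lit 5) (nat_lit 465) (nat_lit 443) (nat_lit 292)) (XT.lf (nat_lit 0) (nat_lit 21129629900) (nat_lit 380) (nat_lit 35476271357) (nat_lit 456) (nat_lit 4417001966) (nat_lit 231) (nat_lit 5) (nat_lit 236) (nat_lit 5) (nat_lit 237) (nat_lit 5) (nat_lit 466)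 (nat_lit 443) (nat_lit 291))))))) (XT.nd (nat_lit 1014) (nat_lit 3648) (nat_lit 0) (XT.nd (nat_lit 468) (nat_lit 2280) (nat_lit 0) (XT.nd (nat_lit 234) (nat_lit 1140) (nat_lit 0) (XT.nd (nat_lit 78) (nat_lit 760) (nat_lit 0) (XT.lf (nat_lit 0) (nat_lit 13069445968) (nat_lit 532) (nat_lit 43498910331) (nat_lit 76) (nat_lit 6230717426) (nat_lit 224) (nat_lit 5) (nat_lit 231) (nat_lit 5) (nat_lit 225) (nat_lit 5) (nat_lit 467) (nat_lit 443) (nat_lit 290)) (XT.nd (nat_lit 78) (nat_lit 380) (nat_lit 0) (XT.lf (nat_lit 0) (nat_lit 17567912382) (nat_lit 380) (nat_lit 14710922474) (nat_lit 456) (nat_lit 32355706932) (nat_lit 219) (nat_lit 5) (nat_lit 224) (nat_lit 5) (nat_lit 225) (nat_lit 5) (nat_lit 468) (nat_lit 443) (nat_lit 289)) (XT.lf (nat_lit 0) (nat_lit 16073534766) (nat_lit 380) (nat_lit 37260476326) (nat_lit 456) (nat_lit 13201212704) (nat_lit 214) (nat_lit 5) (nat_lit 219) (nat_lit 5) (nat_lit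 220) (nat_lit 5) (nat_lit 469) (nat_lit 443) (nat_lit 288)))) (XT.nd (nat_lit 78) (nat_lit 684) (nat_lit 0) (XT.lf (nat_lit 0) (nat_lit 7625468231) (nat_lit 456) (nat_lit 53670534102) (nat_lit 76) (nat_lit 7207465042) (nat_lit 208) (nat_lit 5) (nat_lit 214) (nat_lit 5) (nat_lit 209) (nat_lit 5) (nat_lit 470) (nat_lit 443) (nat_lit 287)) (XT.nd (nat_lit 78) (nat_lit 304) (nat_lit 0) (XT.lf (nat_lit 0) (nat_lit 13640699715) (nat_lit 380) (nat_lit 16611768161) (nat_lit 456) (nat_lit 40282773995) (nat_lit 203) (nat_lit 5) (nat_lit 208) (nat_lit 5) (nat_lit 209) (nat_lit 5) (nat_lit 471) (nat_lit 443) (nat_lit 286)) (XT.lf (nat_lit 0) (nat_lit 12735512490) (nat_lit 304) (nat_lit 42244750383) (nat_lit 380) (nat_lit 17659258924) (nat_lit 199) (nat_lit 5) (nat_lit 203) (nat_lit 5) (nat_lit 204) (nat_lit 5) (nat_lit 472) (nat_lit 443) (nat_lit 285))))) (XT.nd (nat_lit 234) (nat_lit 1292) (nat_lit 0) (XT.nd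 (nat_lit 78) (nat_lit 608) (nat_lit 0) (XT.lf (nat_lit 0) (nat_lit 6902263688) (nat_lit 380) (nat_lit 62664993716) (nat_lit 76) (nat_lit 5252227320) (nat_lit 194) (nat_lit 5) (nat_lit 199) (nat_lit 5) (nat_lit 195) (nat_lit 5) (nat_lit 473) (nat_lit 443) (nat_lit 284)) (XT.nd (nat_lit 78) (nat_lit 304) (nat_lit 0) (XT.lf (nat_lit 0) (nat_lit 11590077838) (nat_lit 304) (nat_lit 21898379629) (nat_lit 380) (nat_lit 43579888595) (nat_lit 190) (nat_lit 5) (nat_lit 194) (nat_lit 5) (nat_lit 195) (nat_lit 5) (nat_lit 474) (nat_lit 443) (nat_lit 283)) (XT.lf (nat_lit 0) (nat_lit 11399437632) (nat_lit 304) (nat_lit 51034124196) (nat_lit 380) (nat_lit 16965200668) (nat_lit 186) (nat_lit 5) (nat_lit 190) (nat_lit 5) (nat_lit 191) (nat_lit 5) (nat_lit 475) (nat_lit 443) (nat_lit 282)))) (XT.nd (nat_lit 156) (nat_lit 608) (nat_lit 0) (XT.nd (nat_lit 78) (nat_lit 304) (nat_lit 0) (XT.lf (nat_lit 0) (nat_lit 11552988993)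 (nat_lit 304) (nat_lit 223735590) (nat_lit 380) (nat_lit 70035485765) (nat_lit 181) (nat_lit 5) (nat_lit 185) (nat_lit 5) (nat_lit 186) (nat_lit 5) (nat_lit 476) (nat_lit 443) (nat_lit 281)) (XT.lf (nat_lit 0) (nat_lit 11715307588) (nat_lit 304) (nat_lit 31221093204) (nat_lit 380) (nat_lit 41364945050) (nat_lit 177) (nat_lit 5) (nat_lit 181) (nat_lit 5) (nat_lit 182) (nat_lit 5) (nat_lit 477) (nat_lit 443) (nat_lit 280))) (XT.nd (nat_lit 78) (nat_lit 380) (nat_lit 0) (XT.lf (nat_lit 0) (nat_lit 12380009171) (nat_lit 228) (nat_lit 64336522277) (nat_lit 304) (nat_lit 10166532588) (nat_lit 174) (nat_lit 5) (nat_lit 177) (nat_lit 5) (nat_lit 178) (nat_lit 5) (nat_lit 478) (nat_lit 443) (nat_lit 279)) (XT.lf (nat_lit 0) (nat_lit 13255792580) (nat_lit 304) (nat_lit 10090443600) (nat_lit 380) (nat_lit 66205258527) (nat_lit 169) (nat_lit 5) (nat_lit 173) (nat_lit 5) (nat_lit 174) (nat_lit 5) (nat_lit 479)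 (nat_lit 443) (nat_lit 278)))))) (XT.nd (nat_lit 546) (nat_lit 1900) (nat_lit 0) (XT.nd (nat_lit 234) (nat_lit 988) (nat_lit 0) (XT.nd (nat_lit 78) (nat_lit 532) (nat_lit 0) (XT.lf (nat_lit 0) (nat_lit 14345448431) (nat_lit 228) (nat_lit 45342029793) (nat_lit 304) (nat_lit 32621956136) (nat_lit 166) (nat_lit 5) (nat_lit 169) (nat_lit 5) (nat_lit 170) (nat_lit 5) (nat_lit 480) (nat_lit 443) (nat_lit 277)) (XT.nd (nat_lit 78) (nat_lit 228) (nat_lit 0) (XT.lf (nat_lit 0) (nat_lit 3756942469) (nat_lit 304) (nat_lit 79185166864) (nat_lit 76) (nat_lit 12227361526) (nat_lit 162) (nat_lit 5) (nat_lit 166) (nat_lit 5) (nat_lit 163) (nat_lit 5) (nat_lit 481) (nat_lit 443) (nat_lit 276)) (XT.lf (nat_lit 0) (nat_lit 17657700183) (nat_lit 228) (nat_lit 25064859359) (nat_lit 304) (nat_lit 55396986617) (nat_lit 159) (nat_lit 5) (nat_lit 162) (nat_lit 5) (nat_lit 163) (nat_lit 5) (nat_lit 482) (nat_lit 443) (nat_lit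 275)))) (XT.nd (nat_lit 156) (nat_lit 456) (nat_lit 0) (XT.nd (nat_lit 78) (nat_lit 304) (nat_lit 0) (XT.lf (nat_lit 0) (nat_lit 19837819405) (nat_lit 228) (nat_lit 65154092362) (nat_lit 304) (nat_lit 16184549864) (nat_lit 156) (nat_lit 5) (nat_lit 159) (nat_lit 5) (nat_lit 160) (nat_lit 5) (nat_lit 483) (nat_lit 443) (nat_lit 274)) (XT.lf (nat_lit 0) (nat_lit 22405615457) (nat_lit 228) (nat_lit 3398480861) (nat_lit 304) (nat_lit 78535824342) (nat_lit 152) (nat_lit 5) (nat_lit 155) (nat_lit 5) (nat_lit 156) (nat_lit 5) (nat_lit 484) (nat_lit 443) (nat_lit 273))) (XT.nd (nat_lit 78) (nat_lit 228) (nat_lit 0) (XT.lf (nat_lit 0) (nat_lit 25125716599) (nat_lit 228) (nat_lit 46111017474) (nat_lit 304) (nat_lit 36369632891) (nat_lit 149) (nat_lit 5) (nat_lit 152) (nat_lit 5) (nat_lit 153) (nat_lit 5) (nat_lit 485) (nat_lit 443) (nat_lit 272)) (XT.lf (nat_lit 0) (nat_lit 9100838212) (nat_lit 228) (nat_lit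 82510625823) (nat_lit 76) (nat_lit 19381885306) (nat_lit 146) (nat_lit 5) (nat_lit 149) (nat_lit 5) (nat_lit 147) (nat_lit 5) (nat_lit 486) (nat_lit 443) (nat_lit 271))))) (XT.nd (nat_lit 234) (nat_lit 1216) (nat_lit 0) (XT.nd (nat_lit 78) (nat_lit 456) (nat_lit 0) (XT.lf (nat_lit 0) (nat_lit 31974094892) (nat_lit 228) (nat_lit 25754261929) (nat_lit 304) (nat_lit 56761450069) (nat_lit 143) (nat_lit 5) (nat_lit 146) (nat_lit 5) (nat_lit 147) (nat_lit 5) (nat_lit 487) (nat_lit 443) (nat_lit 270)) (XT.nd (nat_lit 78) (nat_lit 304) (nat_lit 0) (XT.lf (nat_lit 0) (nat_lit 36046973266) (nat_lit 152) (nat_lit 74360228044) (nat_lit 228) (nat_lit 7705287534) (nat_lit 141) (nat_lit 5) (nat_lit 143) (nat_lit 5) (nat_lit 144) (nat_lit 5) (nat_lit 488) (nat_lit 443) (nat_lit 269)) (XT.lf (nat_lit 0) (nat_lit 40469074658) (nat_lit 228) (nat_lit 3985181315) (nat_lit 304) (nat_lit 77404256699) (nat_lit 137) (nat_lit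 5) (nat_lit 140) (nat_lit 5) (nat_lit 141) (nat_lit 5) (nat_lit 489) (nat_lit 443) (nat_lit 268)))) (XT.nd (nat_lit 156) (nat_lit 760) (nat_lit 0) (XT.nd (nat_lit 78) (nat_lit 304) (nat_lit 0) (XT.lf (nat_lit 0) (nat_lit 45200240185) (nat_lit 152) (nat_lit 55821896064) (nat_lit 228) (nat_lit 24708621261) (nat_lit 135) (nat_lit 5) (nat_lit 137) (nat_lit 5) (nat_lit 138) (nat_lit 5) (nat_lit 490) (nat_lit 443) (nat_lit 267)) (XT.lf (nat_lit 0) (nat_lit 31581993282) (nat_lit 304) (nat_lit 79239483028) (nat_lit 76) (nat_lit 18919575472) (nat_lit 131) (nat_lit 5) (nat_lit 135) (nat_lit 5) (nat_lit 132) (nat_lit 5) (nat_lit 491) (nat_lit 443) (nat_lit 266))) (XT.nd (nat_lit 234) (nat_lit 608) (nat_lit 0) (XT.lf (nat_lit 0) (nat_lit 56112671867) (nat_lit 152) (nat_lit 36006863302) (nat_lit 228) (nat_lit 41766684161) (nat_lit 129) (nat_lit 5) (nat_lit 131) (nat_lit 5) (nat_lit 132) (nat_lit 5) (nat_lit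 492) (nat_lit 443) (nat_lit 265)) (XT.lf (nat_lit 0) (nat_lit 6502309274) (nat_lit 228) (nat_lit 71295204065) (nat_lit 76) (nat_lit 69412859131) (nat_lit 121) (nat_lit 5) (nat_lit 124) (nat_lit 5) (nat_lit 122) (nat_lit 5) (nat_lit 495) (nat_lit 443) (nat_lit 262))))))))
noncomputable def xc109 : XT := (XT.nd (nat_lit 2028) (nat_lit 7220) (nat_lit 0) (XT.nd (nat_lit 1014) (nat_lit 6080) (nat_lit 0) (XT.nd (nat_lit 468) (nat_lit 2128) (nat_lit 0) (XT.nd (nat_lit 234) (nat_lit 0) (nat_lit 152) (XT.nd (nat_lit 78) (nat_lit 0) (nat_lit 76) (XT.lf (nat_lit 0) (nat_lit 9589160353) (nat_lit 1292) (nat_lit 3899055408) (nat_lit 1292) (nat_lit 3899055408) (nat_lit 327) (nat_lit 3) (nat_lit 344) (nat_lit 3) (nat_lit 344) (nat_lit 5) (nat_lit 444) (nat_lit 444) (nat_lit 312)) (XT.nd (nat_lit 78) (nat_lit 0) (nat_lit 0) (XT.lf (nat_lit 0) (nat_lit 19967847475) (nat_lit 1216) (nat_lit 14166884375) (nat_lit 1292)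 (nat_lit 1499867884) (nat_lit 328) (nat_lit 5) (nat_lit 344) (nat_lit 5) (nat_lit 345) (nat_lit 5) (nat_lit 445) (nat_lit 444) (nat_lit 311)) (XT.lf (nat_lit 76) (nat_lit 15857719680) (nat_lit 0) (nat_lit 5439223639) (nat_lit 1292) (nat_lit 15225714160) (nat_lit 329) (nat_lit 5) (nat_lit 328) (nat_lit 5) (nat_lit 345) (nat_lit 5) (nat_lit 446) (nat_lit 444) (nat_lit 310)))) (XT.nd (nat_lit 78) (nat_lit 0) (nat_lit 76) (XT.lf (nat_lit 76) (nat_lit 10185543462) (nat_lit 0) (nat_lit 12984058606) (nat_lit 1292) (nat_lit 14271203050) (nat_lit 330) (nat_lit 5) (nat_lit 329) (nat_lit 5) (nat_lit 346) (nat_lit 5) (nat_lit 447) (nat_lit 444) (nat_lit 309)) (XT.nd (nat_lit 78) (nat_lit 0) (nat_lit 76) (XT.lf (nat_lit 76) (nat_lit 4472747936) (nat_lit 0) (nat_lit 21136764472) (nat_lit 1292) (nat_lit 12781139410) (nat_lit 331) (nat_lit 5) (nat_lit 330) (nat_lit 5) (nat_lit 347) (nat_lit 5) (nat_lit 448) (nat_lit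 444) (nat_lit 308)) (XT.lf (nat_lit 0) (nat_lit 28669483707) (nat_lit 1216) (nat_lit 1248736877) (nat_lit 1292) (nat_lit 9454828532) (nat_lit 331) (nat_lit 5) (nat_lit 347) (nat_lit 5) (nat_lit 348) (nat_lit 5) (nat_lit 449) (nat_lit 444) (nat_lit 307))))) (XT.nd (nat_lit 234) (nat_lit 2508) (nat_lit 0) (XT.nd (nat_lit 78) (nat_lit 0) (nat_lit 0) (XT.lf (nat_lit 0) (nat_lit 32423374296) (nat_lit 1216) (nat_lit 6908201815) (nat_lit 1292) (nat_lit 1056762762) (nat_lit 332) (nat_lit 5) (nat_lit 348) (nat_lit 5) (nat_lit 349) (nat_lit 5) (nat_lit 450) (nat_lit 444) (nat_lit 306)) (XT.nd (nat_lit 78) (nat_lit 0) (nat_lit 76) (XT.lf (nat_lit 76) (nat_lit 28773596518) (nat_lit 0) (nat_lit 8178400561) (nat_lit 1292) (nat_lit 4484785115) (nat_lit 333) (nat_lit 5) (nat_lit 332) (nat_lit 5) (nat_lit 349) (nat_lit 5) (nat_lit 451) (nat_lit 444) (nat_lit 305)) (XT.lf (nat_lit 76) (nat_lit 24078292839) (nat_lit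 0) (nat_lit 18163540668) (nat_lit 1292) (nat_lit 279770894) (nat_lit 334) (nat_lit 5) (nat_lit 333) (nat_lit 5) (nat_lit 350) (nat_lit 5) (nat_lit 452) (nat_lit 444) (nat_lit 304)))) (XT.nd (nat_lit 156) (nat_lit 1368) (nat_lit 0) (XT.nd (nat_lit 78) (nat_lit 0) (nat_lit 76) (XT.lf (nat_lit 0) (nat_lit 4597261236) (nat_lit 1292) (nat_lit 24273726136) (nat_lit 1368) (nat_lit 14772213974) (nat_lit 317) (nat_lit 5) (nat_lit 334) (nat_lit 5) (nat_lit 335) (nat_lit 5) (nat_lit 453) (nat_lit 444) (nat_lit 303)) (XT.lf (nat_lit 0) (nat_lit 10268551613) (nat_lit 1292) (nat_lit 30109476000) (nat_lit 76) (nat_lit 4426081815) (nat_lit 318) (nat_lit 5) (nat_lit 335) (nat_lit 5) (nat_lit 319) (nat_lit 5) (nat_lit 454) (nat_lit 444) (nat_lit 302))) (XT.nd (nat_lit 78) (nat_lit 608) (nat_lit 0) (XT.lf (nat_lit 0) (nat_lit 10000962471) (nat_lit 836) (nat_lit 6858492407) (nat_lit 912) (nat_lit 29144526748) (nat_lit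 307) (nat_lit 5) (nat_lit 318) (nat_lit 5) (nat_lit 319) (nat_lit 5) (nat_lit 455) (nat_lit 444) (nat_lit 301)) (XT.lf (nat_lit 0) (nat_lit 5316427562) (nat_lit 608) (nat_lit 19096307687) (nat_lit 684) (nat_lit 22832127385) (nat_lit 299) (nat_lit 5) (nat_lit 307) (nat_lit 5) (nat_lit 308) (nat_lit 5) (nat_lit 456) (nat_lit 444) (nat_lit 300)))))) (XT.nd (nat_lit 468) (nat_lit 3192) (nat_lit 0) (XT.nd (nat_lit 234) (nat_lit 1672) (nat_lit 0) (XT.nd (nat_lit 78) (nat_lit 608) (nat_lit 0) (XT.lf (nat_lit 0) (nat_lit 699627434) (nat_lit 608) (nat_lit 32245979787) (nat_lit 684) (nat_lit 15584122793) (nat_lit 291) (nat_lit 5) (nat_lit 299) (nat_lit 5) (nat_lit 300) (nat_lit 5) (nat_lit 457) (nat_lit 444) (nat_lit 299)) (XT.nd (nat_lit 78) (nat_lit 608) (nat_lit 0) (XT.lf (nat_lit 0) (nat_lit 42558902867) (nat_lit 684) (nat_lit 3759625832) (nat_lit 76) (nat_lit 3540698802) (nat_lit 291) (nat_lit 5) (nat_lit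 300) (nat_lit 5) (nat_lit 292) (nat_lit 5) (nat_lit 458) (nat_lit 444) (nat_lit 298)) (XT.lf (nat_lit 0) (nat_lit 2113485922) (nat_lit 608) (nat_lit 8228638681) (nat_lit 76) (nat_lit 40890379459) (nat_lit 283) (nat_lit 5) (nat_lit 291) (nat_lit 5) (nat_lit 284) (nat_lit 5) (nat_lit 459) (nat_lit 444) (nat_lit 297)))) (XT.nd (nat_lit 78) (nat_lit 1064) (nat_lit 0) (XT.lf (nat_lit 0) (nat_lit 12539596243) (nat_lit 684) (nat_lit 12709901593) (nat_lit 76) (nat_lit 27402000590) (nat_lit 275) (nat_lit 5) (nat_lit 284) (nat_lit 5) (nat_lit 276) (nat_lit 5) (nat_lit 460) (nat_lit 444) (nat_lit 296)) (XT.nd (nat_lit 78) (nat_lit 532) (nat_lit 0) (XT.lf (nat_lit 0) (nat_lit 24157517407) (nat_lit 608) (nat_lit 17081161586) (nat_lit 76) (nat_lit 12882648476) (nat_lit 268) (nat_lit 5) (nat_lit 276) (nat_lit 5) (nat_lit 269) (nat_lit 5) (nat_lit 461) (nat_lit 444) (nat_lit 295)) (XT.lf (nat_lit 0) (nat_lit 34292401552)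 (nat_lit 532) (nat_lit 2777637064) (nat_lit 608) (nat_lit 18573198342) (nat_lit 261) (nat_lit 5) (nat_lit 268) (nat_lit 5) (nat_lit 269) (nat_lit 5) (nat_lit 462) (nat_lit 444) (nat_lit 294))))) (XT.nd (nat_lit 234) (nat_lit 1748) (nat_lit 0) (XT.nd (nat_lit 78) (nat_lit 988) (nat_lit 0) (XT.lf (nat_lit 0) (nat_lit 31605906012) (nat_lit 456) (nat_lit 19862355890) (nat_lit 532) (nat_lit 5747777845) (nat_lit 255) (nat_lit 5) (nat_lit 261) (nat_lit 5) (nat_lit 262) (nat_lit 5) (nat_lit 463) (nat_lit 444) (nat_lit 293)) (XT.nd (nat_lit 78) (nat_lit 456) (nat_lit 0) (XT.lf (nat_lit 0) (nat_lit 8300235877) (nat_lit 532) (nat_lit 29793706693) (nat_lit 76) (nat_lit 20749355859) (nat_lit 248) (nat_lit 5) (nat_lit 255) (nat_lit 5) (nat_lit 249) (nat_lit 5) (nat_lit 464) (nat_lit 444) (nat_lit 292)) (XT.lf (nat_lit 0) (nat_lit 23682712383) (nat_lit 532) (nat_lit 33867730717) (nat_lit 76) (nat_lit 2977241730)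 (nat_lit 242) (nat_lit 5) (nat_lit 249) (nat_lit 5) (nat_lit 243) (nat_lit 5) (nat_lit 465) (nat_lit 444) (nat_lit 291)))) (XT.nd (nat_lit 156) (nat_lit 912) (nat_lit 0) (XT.nd (nat_lit 78) (nat_lit 380) (nat_lit 0) (XT.lf (nat_lit 0) (nat_lit 24356412807) (nat_lit 456) (nat_lit 16403708495) (nat_lit 532) (nat_lit 21508395082) (nat_lit 236) (nat_lit 5) (nat_lit 242) (nat_lit 5) (nat_lit 243) (nat_lit 5) (nat_lit 466) (nat_lit 444) (nat_lit 290)) (XT.lf (nat_lit 0) (nat_lit 22284213587) (nat_lit 380) (nat_lit 37228646356) (nat_lit 456) (nat_lit 4558885881) (nat_lit 231) (nat_lit 5) (nat_lit 236) (nat_lit 5) (nat_lit 237) (nat_lit 5) (nat_lit 467) (nat_lit 444) (nat_lit 289))) (XT.nd (nat_lit 78) (nat_lit 380) (nat_lit 0) (XT.lf (nat_lit 0) (nat_lit 13797799653) (nat_lit 532) (nat_lit 45575036611) (nat_lit 76) (nat_lit 6563942254) (nat_lit 224) (nat_lit 5) (nat_lit 231) (nat_lit 5) (nat_lit 225) (nat_lit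 5) (nat_lit 468) (nat_lit 444) (nat_lit 288)) (XT.lf (nat_lit 0) (nat_lit 18542294604) (nat_lit 380) (nat_lit 15422720283) (nat_lit 456) (nat_lit 33899084506) (nat_lit 219) (nat_lit 5) (nat_lit 224) (nat_lit 5) (nat_lit 225) (nat_lit 5) (nat_lit 469) (nat_lit 444) (nat_lit 287))))))) (XT.nd (nat_lit 1014) (nat_lit 2888) (nat_lit 0) (XT.nd (nat_lit 468) (nat_lit 2128) (nat_lit 0) (XT.nd (nat_lit 234) (nat_lit 988) (nat_lit 0) (XT.nd (nat_lit 78) (nat_lit 836) (nat_lit 0) (XT.lf (nat_lit 0) (nat_lit 16972332227) (nat_lit 380) (nat_lit 39098309561) (nat_lit 456) (nat_lit 13789243069) (nat_lit 214) (nat_lit 5) (nat_lit 219) (nat_lit 5) (nat_lit 220) (nat_lit 5) (nat_lit 470) (nat_lit 444) (nat_lit 286)) (XT.nd (nat_lit 78) (nat_lit 380) (nat_lit 0) (XT.lf (nat_lit 0) (nat_lit 8075150623) (nat_lit 456) (nat_lit 56258498449) (nat_lit 76) (nat_lit 7592937346) (nat_lit 208) (nat_lit 5) (nat_lit 214) (nat_lit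 5) (nat_lit 209) (nat_lit 5) (nat_lit 471) (nat_lit 444) (nat_lit 285)) (XT.lf (nat_lit 0) (nat_lit 14415557783) (nat_lit 380) (nat_lit 17415577169) (nat_lit 456) (nat_lit 42228885744) (nat_lit 203) (nat_lit 5) (nat_lit 208) (nat_lit 5) (nat_lit 209) (nat_lit 5) (nat_lit 472) (nat_lit 444) (nat_lit 284)))) (XT.nd (nat_lit 78) (nat_lit 684) (nat_lit 0) (XT.lf (nat_lit 0) (nat_lit 13464126820) (nat_lit 304) (nat_lit 44329175913) (nat_lit 380) (nat_lit 18476272487) (nat_lit 199) (nat_lit 5) (nat_lit 203) (nat_lit 5) (nat_lit 204) (nat_lit 5) (nat_lit 473) (nat_lit 444) (nat_lit 283)) (XT.nd (nat_lit 78) (nat_lit 304) (nat_lit 0) (XT.lf (nat_lit 0) (nat_lit 7310098919) (nat_lit 380) (nat_lit 65706179346) (nat_lit 76) (nat_lit 5542297308) (nat_lit 194) (nat_lit 5) (nat_lit 199) (nat_lit 5) (nat_lit 195) (nat_lit 5) (nat_lit 474) (nat_lit 444) (nat_lit 282)) (XT.lf (nat_lit 0) (nat_lit 12259006788) (nat_lit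 304) (nat_lit 22964468444) (nat_lit 380) (nat_lit 45696468644) (nat_lit 190) (nat_lit 5) (nat_lit 194) (nat_lit 5) (nat_lit 195) (nat_lit 5) (nat_lit 475) (nat_lit 444) (nat_lit 281))))) (XT.nd (nat_lit 234) (nat_lit 1140) (nat_lit 0) (XT.nd (nat_lit 78) (nat_lit 684) (nat_lit 0) (XT.lf (nat_lit 0) (nat_lit 12057769365) (nat_lit 304) (nat_lit 53556293281) (nat_lit 380) (nat_lit 17752871729) (nat_lit 186) (nat_lit 5) (nat_lit 190) (nat_lit 5) (nat_lit 191) (nat_lit 5) (nat_lit 476) (nat_lit 444) (nat_lit 280)) (XT.nd (nat_lit 78) (nat_lit 304) (nat_lit 0) (XT.lf (nat_lit 0) (nat_lit 12217615370) (nat_lit 304) (nat_lit 205359291) (nat_lit 380) (nat_lit 73478122342) (nat_lit 181) (nat_lit 5) (nat_lit 185) (nat_lit 5) (nat_lit 186) (nat_lit 5) (nat_lit 477) (nat_lit 444) (nat_lit 279)) (XT.lf (nat_lit 0) (nat_lit 12386955134) (nat_lit 304) (nat_lit 32752041751) (nat_lit 380) (nat_lit 43375741588) (nat_lit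 177) (nat_lit 5) (nat_lit 181) (nat_lit 5) (nat_lit 182) (nat_lit 5) (nat_lit 478) (nat_lit 444) (nat_lit 278)))) (XT.nd (nat_lit 156) (nat_lit 532) (nat_lit 0) (XT.nd (nat_lit 78) (nat_lit 380) (nat_lit 0) (XT.lf (nat_lit 0) (nat_lit 13083775555) (nat_lit 228) (nat_lit 67522792958) (nat_lit 304) (nat_lit 10619021099) (nat_lit 174) (nat_lit 5) (nat_lit 177) (nat_lit 5) (nat_lit 178) (nat_lit 5) (nat_lit 479) (nat_lit 444) (nat_lit 277)) (XT.lf (nat_lit 0) (nat_lit 14001977943) (nat_lit 304) (nat_lit 10564513141) (nat_lit 380) (nat_lit 69460988853) (nat_lit 169) (nat_lit 5) (nat_lit 173) (nat_lit 5) (nat_lit 174) (nat_lit 5) (nat_lit 480) (nat_lit 444) (nat_lit 276))) (XT.nd (nat_lit 78) (nat_lit 304) (nat_lit 0) (XT.lf (nat_lit 0) (nat_lit 15144985669) (nat_lit 228) (nat_lit 47578358031) (nat_lit 304) (nat_lit 34200016476) (nat_lit 166) (nat_lit 5) (nat_lit 169) (nat_lit 5) (nat_lit 170) (nat_lit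 5) (nat_lit 481) (nat_lit 444) (nat_lit 275)) (XT.lf (nat_lit 0) (nat_lit 3995387816) (nat_lit 304) (nat_lit 83062296165) (nat_lit 76) (nat_lit 12868741405) (nat_lit 162) (nat_lit 5) (nat_lit 166) (nat_lit 5) (nat_lit 163) (nat_lit 5) (nat_lit 482) (nat_lit 444) (nat_lit 274)))))) (XT.nd (nat_lit 546) (nat_lit 1292) (nat_lit 0) (XT.nd (nat_lit 234) (nat_lit 836) (nat_lit 0) (XT.nd (nat_lit 78) (nat_lit 532) (nat_lit 0) (XT.lf (nat_lit 0) (nat_lit 18620360022) (nat_lit 228) (nat_lit 26287283127) (nat_lit 304) (nat_lit 58116410632) (nat_lit 159) (nat_lit 5) (nat_lit 162) (nat_lit 5) (nat_lit 163) (nat_lit 5) (nat_lit 483) (nat_lit 444) (nat_lit 273)) (XT.nd (nat_lit 78) (nat_lit 304) (nat_lit 0) (XT.lf (nat_lit 0) (nat_lit 20908338272) (nat_lit 228) (nat_lit 68380831457) (nat_lit 304) (nat_lit 16944684143) (nat_lit 156) (nat_lit 5) (nat_lit 159) (nat_lit 5) (nat_lit 160) (nat_lit 5) (nat_lit 484)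 (nat_lit 444) (nat_lit 272)) (XT.lf (nat_lit 0) (nat_lit 23603201713) (nat_lit 228) (nat_lit 3537685604) (nat_lit 304) (nat_lit 82414630895) (nat_lit 152) (nat_lit 5) (nat_lit 155) (nat_lit 5) (nat_lit 156) (nat_lit 5) (nat_lit 485) (nat_lit 444) (nat_lit 271)))) (XT.nd (nat_lit 156) (nat_lit 380) (nat_lit 0) (XT.nd (nat_lit 78) (nat_lit 228) (nat_lit 0) (XT.lf (nat_lit 0) (nat_lit 26458163532) (nat_lit 228) (nat_lit 48385788376) (nat_lit 304) (nat_lit 38141371117) (nat_lit 149) (nat_lit 5) (nat_lit 152) (nat_lit 5) (nat_lit 153) (nat_lit 5) (nat_lit 486) (nat_lit 444) (nat_lit 270)) (XT.lf (nat_lit 0) (nat_lit 9600541761) (nat_lit 228) (nat_lit 86560253667) (nat_lit 76) (nat_lit 20380880741) (nat_lit 146) (nat_lit 5) (nat_lit 149) (nat_lit 5) (nat_lit 147) (nat_lit 5) (nat_lit 487) (nat_lit 444) (nat_lit 269))) (XT.nd (nat_lit 78) (nat_lit 152) (nat_lit 0) (XT.lf (nat_lit 0) (nat_lit 33646527326)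 (nat_lit 228) (nat_lit 27011490945) (nat_lit 304) (nat_lit 59554980903) (nat_lit 143) (nat_lit 5) (nat_lit 146) (nat_lit 5) (nat_lit 147) (nat_lit 5) (nat_lit 488) (nat_lit 444) (nat_lit 268)) (XT.lf (nat_lit 0) (nat_lit 37921912449) (nat_lit 152) (nat_lit 78047810179) (nat_lit 228) (nat_lit 8047125105) (nat_lit 141) (nat_lit 5) (nat_lit 143) (nat_lit 5) (nat_lit 144) (nat_lit 5) (nat_lit 489) (nat_lit 444) (nat_lit 267))))) (XT.nd (nat_lit 390) (nat_lit 532) (nat_lit 0) (XT.nd (nat_lit 78) (nat_lit 456) (nat_lit 0) (XT.lf (nat_lit 0) (nat_lit 42563861915) (nat_lit 228) (nat_lit 4154344360) (nat_lit 304) (nat_lit 81231994243) (nat_lit 137) (nat_lit 5) (nat_lit 140) (nat_lit 5) (nat_lit 141) (nat_lit 5) (nat_lit 490) (nat_lit 444) (nat_lit 266)) (XT.nd (nat_lit 78) (nat_lit 304) (nat_lit 0) (XT.lf (nat_lit 0) (nat_lit 47530462254) (nat_lit 152) (nat_lit 58583005047) (nat_lit 228) (nat_lit 25902620727)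 (nat_lit 135) (nat_lit 5) (nat_lit 137) (nat_lit 5) (nat_lit 138) (nat_lit 5) (nat_lit 491) (nat_lit 444) (nat_lit 265)) (XT.lf (nat_lit 0) (nat_lit 33200729578) (nat_lit 304) (nat_lit 83131577477) (nat_lit 76) (nat_lit 19894607635) (nat_lit 131) (nat_lit 5) (nat_lit 135) (nat_lit 5) (nat_lit 132) (nat_lit 5) (nat_lit 492) (nat_lit 444) (nat_lit 264)))) (XT.nd (nat_lit 58656) (nat_lit 0) (nat_lit 15504) (XT.nd (nat_lit 58578) (nat_lit 0) (nat_lit 15428) (XT.lf (nat_lit 0) (nat_lit 72362453810) (nat_lit 152) (nat_lit 15548290435) (nat_lit 228) (nat_lit 61835976504) (nat_lit 124) (nat_lit 5) (nat_lit 126) (nat_lit 5) (nat_lit 127) (nat_lit 5) (nat_lit 495) (nat_lit 444) (nat_lit 261)) (XT.lf (nat_lit 0) (nat_lit 10156088813) (nat_lit 1292) (nat_lit 4048958882) (nat_lit 1292) (nat_lit 4048958882) (nat_lit 327) (nat_lit 3) (nat_lit 344) (nat_lit 3) (nat_lit 344) (nat_lit 5) (nat_lit 445) (nat_lit 445)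 (nat_lit 310))) (XT.nd (nat_lit 78) (nat_lit 0) (nat_lit 0) (XT.lf (nat_lit 0) (nat_lit 21132923081) (nat_lit 1216) (nat_lit 14781913030) (nat_lit 1292) (nat_lit 1496485423) (nat_lit 328) (nat_lit 5) (nat_lit 344) (nat_lit 5) (nat_lit 345) (nat_lit 5) (nat_lit 446) (nat_lit 445) (nat_lit 309)) (XT.lf (nat_lit 76) (nat_lit 16741246356) (nat_lit 0) (nat_lit 5780161359) (nat_lit 1292) (nat_lit 15822586798) (nat_lit 329) (nat_lit 5) (nat_lit 328) (nat_lit 5) (nat_lit 345) (nat_lit 5) (nat_lit 447) (nat_lit 445) (nat_lit 308))))))))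
noncomputable def xc110 : XT := (XT.nd (nat_lit 2028) (nat_lit 5168) (nat_lit 0) (XT.nd (nat_lit 1014) (nat_lit 6080) (nat_lit 0) (XT.nd (nat_lit 468) (nat_lit 3496) (nat_lit 0) (XT.nd (nat_lit 234) (nat_lit 0) (nat_lit 228) (XT.nd (nat_lit 78) (nat_lit 0) (nat_lit 76) (XT.lf (nat_lit 76) (nat_lit 10788165536) (nat_lit 0) (nat_lit 13692198862) (nat_lit 1292) (nat_lit 14827905535) (nat_lit 330) (nat_lit 5) (nat_lit 329) (nat_lit 5) (nat_lit 346) (nat_lit 5) (nat_lit 448) (nat_lit 445) (nat_lit 307)) (XT.nd (nat_lit 78) (nat_lit 0) (nat_lit 76) (XT.lf (nat_lit 76) (nat_lit 4792049111) (nat_lit 0) (nat_lit 22243349625) (nat_lit 1292) (nat_lit 13270416709) (nat_lit 331) (nat_lit 5) (nat_lit 330) (nat_lit 5) (nat_lit 347) (nat_lit 5) (nat_lit 449) (nat_lit 445) (nat_lit 306)) (XT.lf (nat_lit 0) (nat_lit 30240988854) (nat_lit 1216) (nat_lit 1215449016) (nat_lit 1292) (nat_lit 9881116446) (nat_lit 331)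 (nat_lit 5) (nat_lit 347) (nat_lit 5) (nat_lit 348) (nat_lit 5) (nat_lit 450) (nat_lit 445) (nat_lit 305)))) (XT.nd (nat_lit 78) (nat_lit 0) (nat_lit 0) (XT.lf (nat_lit 0) (nat_lit 34176516398) (nat_lit 1216) (nat_lit 7156276092) (nat_lit 1292) (nat_lit 1070998100) (nat_lit 332) (nat_lit 5) (nat_lit 348) (nat_lit 5) (nat_lit 349) (nat_lit 5) (nat_lit 451) (nat_lit 445) (nat_lit 304)) (XT.nd (nat_lit 78) (nat_lit 0) (nat_lit 76) (XT.lf (nat_lit 76) (nat_lit 30306822046) (nat_lit 0) (nat_lit 8619372658) (nat_lit 1292) (nat_lit 4578622928) (nat_lit 333) (nat_lit 5) (nat_lit 332) (nat_lit 5) (nat_lit 349) (nat_lit 5) (nat_lit 452) (nat_lit 445) (nat_lit 303)) (XT.lf (nat_lit 76) (nat_lit 25378036961) (nat_lit 0) (nat_lit 19097085267) (nat_lit 1292) (nat_lit 168921017) (nat_lit 334) (nat_lit 5) (nat_lit 333) (nat_lit 5) (nat_lit 350) (nat_lit 5) (nat_lit 453) (nat_lit 445) (nat_lit 302))))) (XT.nd (nat_lit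 234) (nat_lit 1824) (nat_lit 0) (XT.nd (nat_lit 78) (nat_lit 760) (nat_lit 0) (XT.lf (nat_lit 0) (nat_lit 4944403713) (nat_lit 1292) (nat_lit 25388216896) (nat_lit 1368) (nat_lit 15489217368) (nat_lit 317) (nat_lit 5) (nat_lit 334) (nat_lit 5) (nat_lit 335) (nat_lit 5) (nat_lit 454) (nat_lit 445) (nat_lit 301)) (XT.nd (nat_lit 78) (nat_lit 836) (nat_lit 0) (XT.lf (nat_lit 0) (nat_lit 10894443685) (nat_lit 1292) (nat_lit 31515057850) (nat_lit 76) (nat_lit 4631434617) (nat_lit 318) (nat_lit 5) (nat_lit 335) (nat_lit 5) (nat_lit 319) (nat_lit 5) (nat_lit 455) (nat_lit 445) (nat_lit 300)) (XT.lf (nat_lit 0) (nat_lit 10598039162) (nat_lit 836) (nat_lit 7212430198) (nat_lit 912) (nat_lit 30490465513) (nat_lit 307) (nat_lit 5) (nat_lit 318) (nat_lit 5) (nat_lit 319) (nat_lit 5) (nat_lit 456) (nat_lit 445) (nat_lit 299)))) (XT.nd (nat_lit 156) (nat_lit 608) (nat_lit 0) (XT.nd (nat_lit 78) (nat_lit 608)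 (nat_lit 0) (XT.lf (nat_lit 0) (nat_lit 5679751828) (nat_lit 608) (nat_lit 20057353510) (nat_lit 684) (nat_lit 23866884063) (nat_lit 299) (nat_lit 5) (nat_lit 307) (nat_lit 5) (nat_lit 308) (nat_lit 5) (nat_lit 457) (nat_lit 445) (nat_lit 298)) (XT.lf (nat_lit 0) (nat_lit 832402001) (nat_lit 608) (nat_lit 33860162234) (nat_lit 684) (nat_lit 16260657823) (nat_lit 291) (nat_lit 5) (nat_lit 299) (nat_lit 5) (nat_lit 300) (nat_lit 5) (nat_lit 458) (nat_lit 445) (nat_lit 297))) (XT.nd (nat_lit 78) (nat_lit 608) (nat_lit 0) (XT.lf (nat_lit 0) (nat_lit 44781760914) (nat_lit 684) (nat_lit 3851601641) (nat_lit 76) (nat_lit 3715974976) (nat_lit 291) (nat_lit 5) (nat_lit 300) (nat_lit 5) (nat_lit 292) (nat_lit 5) (nat_lit 459) (nat_lit 445) (nat_lit 296)) (XT.lf (nat_lit 0) (nat_lit 2311357423) (nat_lit 608) (nat_lit 8544978544) (nat_lit 76) (nat_lit 42935023721) (nat_lit 283) (nat_lit 5) (nat_lit 291) (nat_lit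 5) (nat_lit 284) (nat_lit 5) (nat_lit 460) (nat_lit 445) (nat_lit 295)))))) (XT.nd (nat_lit 468) (nat_lit 2964) (nat_lit 0) (XT.nd (nat_lit 234) (nat_lit 1444) (nat_lit 0) (XT.nd (nat_lit 78) (nat_lit 1064) (nat_lit 0) (XT.lf (nat_lit 0) (nat_lit 13255306092) (nat_lit 684) (nat_lit 13250401362) (nat_lit 76) (nat_lit 28775700507) (nat_lit 275) (nat_lit 5) (nat_lit 284) (nat_lit 5) (nat_lit 276) (nat_lit 5) (nat_lit 461) (nat_lit 445) (nat_lit 294)) (XT.nd (nat_lit 78) (nat_lit 532) (nat_lit 0) (XT.lf (nat_lit 0) (nat_lit 25450851192) (nat_lit 608) (nat_lit 17840448441) (nat_lit 76) (nat_lit 13533527152) (nat_lit 268) (nat_lit 5) (nat_lit 276) (nat_lit 5) (nat_lit 269) (nat_lit 5) (nat_lit 462) (nat_lit 445) (nat_lit 293)) (XT.lf (nat_lit 0) (nat_lit 36099076255) (nat_lit 532) (nat_lit 2906737666) (nat_lit 608) (nat_lit 19417113520) (nat_lit 261) (nat_lit 5) (nat_lit 268) (nat_lit 5) (nat_lit 269)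 (nat_lit 5) (nat_lit 463) (nat_lit 445) (nat_lit 292)))) (XT.nd (nat_lit 78) (nat_lit 988) (nat_lit 0) (XT.lf (nat_lit 0) (nat_lit 33277926405) (nat_lit 456) (nat_lit 20843075451) (nat_lit 532) (nat_lit 5953457060) (nat_lit 255) (nat_lit 5) (nat_lit 261) (nat_lit 5) (nat_lit 262) (nat_lit 5) (nat_lit 464) (nat_lit 445) (nat_lit 291)) (XT.nd (nat_lit 78) (nat_lit 456) (nat_lit 0) (XT.lf (nat_lit 0) (nat_lit 8792548782) (nat_lit 532) (nat_lit 31190556237) (nat_lit 76) (nat_lit 21800036513) (nat_lit 248) (nat_lit 5) (nat_lit 255) (nat_lit 5) (nat_lit 249) (nat_lit 5) (nat_lit 465) (nat_lit 445) (nat_lit 290)) (XT.lf (nat_lit 0) (nat_lit 24941485722) (nat_lit 532) (nat_lit 35468856122) (nat_lit 76) (nat_lit 3141485443) (nat_lit 242) (nat_lit 5) (nat_lit 249) (nat_lit 5) (nat_lit 243) (nat_lit 5) (nat_lit 466) (nat_lit 445) (nat_lit 289))))) (XT.nd (nat_lit 234) (nat_lit 1596) (nat_lit 0) (XT.nd (nat_lit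 78) (nat_lit 912) (nat_lit 0) (XT.lf (nat_lit 0) (nat_lit 25663849931) (nat_lit 456) (nat_lit 17206222428) (nat_lit 532) (nat_lit 22509708969) (nat_lit 236) (nat_lit 5) (nat_lit 242) (nat_lit 5) (nat_lit 243) (nat_lit 5) (nat_lit 467) (nat_lit 445) (nat_lit 288)) (XT.nd (nat_lit 78) (nat_lit 532) (nat_lit 0) (XT.lf (nat_lit 0) (nat_lit 23487405847) (nat_lit 380) (nat_lit 39070633259) (nat_lit 456) (nat_lit 4715205519) (nat_lit 231) (nat_lit 5) (nat_lit 236) (nat_lit 5) (nat_lit 237) (nat_lit 5) (nat_lit 468) (nat_lit 445) (nat_lit 287)) (XT.lf (nat_lit 0) (nat_lit 14555609260) (nat_lit 532) (nat_lit 47764156482) (nat_lit 76) (nat_lit 6911811889) (nat_lit 224) (nat_lit 5) (nat_lit 231) (nat_lit 5) (nat_lit 225) (nat_lit 5) (nat_lit 469) (nat_lit 445) (nat_lit 286)))) (XT.nd (nat_lit 156) (nat_lit 836) (nat_lit 0) (XT.nd (nat_lit 78) (nat_lit 380) (nat_lit 0) (XT.lf (nat_lit 0) (nat_lit 19556472012)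 (nat_lit 380) (nat_lit 16172315876) (nat_lit 456) (nat_lit 35526548688) (nat_lit 219) (nat_lit 5) (nat_lit 224) (nat_lit 5) (nat_lit 225) (nat_lit 5) (nat_lit 470) (nat_lit 445) (nat_lit 285)) (XT.lf (nat_lit 0) (nat_lit 17907226138) (nat_lit 380) (nat_lit 41030376439) (nat_lit 456) (nat_lit 14413371645) (nat_lit 214) (nat_lit 5) (nat_lit 219) (nat_lit 5) (nat_lit 220) (nat_lit 5) (nat_lit 471) (nat_lit 445) (nat_lit 284))) (XT.nd (nat_lit 78) (nat_lit 380) (nat_lit 0) (XT.lf (nat_lit 0) (nat_lit 8540957116) (nat_lit 456) (nat_lit 58984745495) (nat_lit 76) (nat_lit 7995349793) (nat_lit 208) (nat_lit 5) (nat_lit 214) (nat_lit 5) (nat_lit 209) (nat_lit 5) (nat_lit 472) (nat_lit 445) (nat_lit 283)) (XT.lf (nat_lit 0) (nat_lit 15220528944) (nat_lit 380) (nat_lit 18262066322) (nat_lit 456) (nat_lit 44278627581) (nat_lit 203) (nat_lit 5) (nat_lit 208) (nat_lit 5) (nat_lit 209) (nat_lit 5) (nat_lit 473)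 (nat_lit 445) (nat_lit 282))))))) (XT.nd (nat_lit 1014) (nat_lit 1292) (nat_lit 0) (XT.nd (nat_lit 468) (nat_lit 1900) (nat_lit 0) (XT.nd (nat_lit 234) (nat_lit 988) (nat_lit 0) (XT.nd (nat_lit 78) (nat_lit 684) (nat_lit 0) (XT.lf (nat_lit 0) (nat_lit 14220633575) (nat_lit 304) (nat_lit 46520408415) (nat_lit 380) (nat_lit 19340268077) (nat_lit 199) (nat_lit 5) (nat_lit 203) (nat_lit 5) (nat_lit 204) (nat_lit 5) (nat_lit 474) (nat_lit 445) (nat_lit 281)) (XT.nd (nat_lit 78) (nat_lit 304) (nat_lit 0) (XT.lf (nat_lit 0) (nat_lit 7732494611) (nat_lit 380) (nat_lit 68907983501) (nat_lit 76) (nat_lit 5844317953) (nat_lit 194) (nat_lit 5) (nat_lit 199) (nat_lit 5) (nat_lit 195) (nat_lit 5) (nat_lit 475) (nat_lit 445) (nat_lit 280)) (XT.lf (nat_lit 0) (nat_lit 12953068291) (nat_lit 304) (nat_lit 24086542055) (nat_lit 380) (nat_lit 47924680393) (nat_lit 190) (nat_lit 5) (nat_lit 194) (nat_lit 5) (nat_lit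 195) (nat_lit 5) (nat_lit 476) (nat_lit 445) (nat_lit 279)))) (XT.nd (nat_lit 78) (nat_lit 684) (nat_lit 0) (XT.lf (nat_lit 0) (nat_lit 12740802824) (nat_lit 304) (nat_lit 56207316901) (nat_lit 380) (nat_lit 18585559332) (nat_lit 186) (nat_lit 5) (nat_lit 190) (nat_lit 5) (nat_lit 191) (nat_lit 5) (nat_lit 477) (nat_lit 445) (nat_lit 278)) (XT.nd (nat_lit 78) (nat_lit 304) (nat_lit 0) (XT.lf (nat_lit 0) (nat_lit 12907386777) (nat_lit 304) (nat_lit 188812673) (nat_lit 380) (nat_lit 77098388811) (nat_lit 181) (nat_lit 5) (nat_lit 185) (nat_lit 5) (nat_lit 186) (nat_lit 5) (nat_lit 478) (nat_lit 445) (nat_lit 277)) (XT.lf (nat_lit 0) (nat_lit 13084200549) (nat_lit 304) (nat_lit 34362336708) (nat_lit 380) (nat_lit 45492419176) (nat_lit 177) (nat_lit 5) (nat_lit 181) (nat_lit 5) (nat_lit 182) (nat_lit 5) (nat_lit 479) (nat_lit 445) (nat_lit 276))))) (XT.nd (nat_lit 234) (nat_lit 1064) (nat_lit 0) (XT.nd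 (nat_lit 78) (nat_lit 608) (nat_lit 0) (XT.lf (nat_lit 0) (nat_lit 13814849526) (nat_lit 228) (nat_lit 70871217927) (nat_lit 304) (nat_lit 11099325334) (nat_lit 174) (nat_lit 5) (nat_lit 177) (nat_lit 5) (nat_lit 178) (nat_lit 5) (nat_lit 480) (nat_lit 445) (nat_lit 275)) (XT.nd (nat_lit 78) (nat_lit 228) (nat_lit 0) (XT.lf (nat_lit 0) (nat_lit 14777719229) (nat_lit 304) (nat_lit 11065117357) (nat_lit 380) (nat_lit 72884575619) (nat_lit 169) (nat_lit 5) (nat_lit 173) (nat_lit 5) (nat_lit 174) (nat_lit 5) (nat_lit 481) (nat_lit 445) (nat_lit 274)) (XT.lf (nat_lit 0) (nat_lit 15976851566) (nat_lit 228) (nat_lit 49929363685) (nat_lit 304) (nat_lit 35861910754) (nat_lit 166) (nat_lit 5) (nat_lit 169) (nat_lit 5) (nat_lit 170) (nat_lit 5) (nat_lit 482) (nat_lit 445) (nat_lit 273)))) (XT.nd (nat_lit 156) (nat_lit 532) (nat_lit 0) (XT.nd (nat_lit 78) (nat_lit 228) (nat_lit 0) (XT.lf (nat_lit 0) (nat_lit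 4241051288) (nat_lit 304) (nat_lit 87140917511) (nat_lit 76) (nat_lit 13539400065) (nat_lit 162) (nat_lit 5) (nat_lit 166) (nat_lit 5) (nat_lit 163) (nat_lit 5) (nat_lit 483) (nat_lit 445) (nat_lit 272)) (XT.lf (nat_lit 0) (nat_lit 19623736145) (nat_lit 228) (nat_lit 27573693360) (nat_lit 304) (nat_lit 60976493916) (nat_lit 159) (nat_lit 5) (nat_lit 162) (nat_lit 5) (nat_lit 163) (nat_lit 5) (nat_lit 484) (nat_lit 445) (nat_lit 271))) (XT.nd (nat_lit 78) (nat_lit 304) (nat_lit 0) (XT.lf (nat_lit 0) (nat_lit 22025073007) (nat_lit 228) (nat_lit 71771786387) (nat_lit 304) (nat_lit 17747389358) (nat_lit 156) (nat_lit 5) (nat_lit 159) (nat_lit 5) (nat_lit 160) (nat_lit 5) (nat_lit 485) (nat_lit 445) (nat_lit 270)) (XT.lf (nat_lit 0) (nat_lit 24853480151) (nat_lit 228) (nat_lit 3686706573) (nat_lit 304) (nat_lit 86491838935) (nat_lit 152) (nat_lit 5) (nat_lit 155) (nat_lit 5) (nat_lit 156) (nat_lit 5)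 (nat_lit 486) (nat_lit 445) (nat_lit 269)))))) (XT.nd (nat_lit 59358) (nat_lit 0) (nat_lit 14668) (XT.nd (nat_lit 234) (nat_lit 608) (nat_lit 0) (XT.nd (nat_lit 78) (nat_lit 456) (nat_lit 0) (XT.lf (nat_lit 0) (nat_lit 27850152074) (nat_lit 228) (nat_lit 50777159453) (nat_lit 304) (nat_lit 40006042014) (nat_lit 149) (nat_lit 5) (nat_lit 152) (nat_lit 5) (nat_lit 153) (nat_lit 5) (nat_lit 487) (nat_lit 445) (nat_lit 268)) (XT.nd (nat_lit 78) (nat_lit 228) (nat_lit 0) (XT.lf (nat_lit 0) (nat_lit 10121078272) (nat_lit 228) (nat_lit 90819419687) (nat_lit 76) (nat_lit 21427046021) (nat_lit 146) (nat_lit 5) (nat_lit 149) (nat_lit 5) (nat_lit 147) (nat_lit 5) (nat_lit 488) (nat_lit 445) (nat_lit 267)) (XT.lf (nat_lit 0) (nat_lit 35395726880) (nat_lit 228) (nat_lit 28334415533) (nat_lit 304) (nat_lit 62492329342) (nat_lit 143) (nat_lit 5) (nat_lit 146) (nat_lit 5) (nat_lit 147) (nat_lit 5) (nat_lit 489)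 (nat_lit 445) (nat_lit 266)))) (XT.nd (nat_lit 156) (nat_lit 152) (nat_lit 0) (XT.nd (nat_lit 78) (nat_lit 304) (nat_lit 0) (XT.lf (nat_lit 0) (nat_lit 39883849812) (nat_lit 152) (nat_lit 81922600446) (nat_lit 228) (nat_lit 8410091968) (nat_lit 141) (nat_lit 5) (nat_lit 143) (nat_lit 5) (nat_lit 144) (nat_lit 5) (nat_lit 490) (nat_lit 445) (nat_lit 265)) (XT.lf (nat_lit 0) (nat_lit 44756756619) (nat_lit 228) (nat_lit 4334763600) (nat_lit 304) (nat_lit 85255067615) (nat_lit 137) (nat_lit 5) (nat_lit 140) (nat_lit 5) (nat_lit 141) (nat_lit 5) (nat_lit 491) (nat_lit 445) (nat_lit 264))) (XT.nd (nat_lit 58890) (nat_lit 0) (nat_lit 14592) (XT.lf (nat_lit 0) (nat_lit 49970667961) (nat_lit 152) (nat_lit 61484957276) (nat_lit 228) (nat_lit 27160172083) (nat_lit 135) (nat_lit 5) (nat_lit 137) (nat_lit 5) (nat_lit 138) (nat_lit 5) (nat_lit 492) (nat_lit 445) (nat_lit 263)) (XT.lf (nat_lit 0) (nat_lit 10743231524)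 (nat_lit 1292) (nat_lit 4210545786) (nat_lit 1292) (nat_lit 4210545786) (nat_lit 327) (nat_lit 3) (nat_lit 344) (nat_lit 3) (nat_lit 344) (nat_lit 5) (nat_lit 446) (nat_lit 446) (nat_lit 308))))) (XT.nd (nat_lit 234) (nat_lit 0) (nat_lit 152) (XT.nd (nat_lit 78) (nat_lit 0) (nat_lit 0) (XT.lf (nat_lit 0) (nat_lit 22340755841) (nat_lit 1216) (nat_lit 15436368715) (nat_lit 1292) (nat_lit 1500220482) (nat_lit 328) (nat_lit 5) (nat_lit 344) (nat_lit 5) (nat_lit 345) (nat_lit 5) (nat_lit 447) (nat_lit 446) (nat_lit 307)) (XT.nd (nat_lit 78) (nat_lit 0) (nat_lit 76) (XT.lf (nat_lit 76) (nat_lit 17660522453) (nat_lit 0) (nat_lit 6131733181) (nat_lit 1292) (nat_lit 16464588636) (nat_lit 329) (nat_lit 5) (nat_lit 328) (nat_lit 5) (nat_lit 345) (nat_lit 5) (nat_lit 448) (nat_lit 446) (nat_lit 306)) (XT.lf (nat_lit 76) (nat_lit 11412240391) (nat_lit 0) (nat_lit 14430266696) (nat_lit 1292) (nat_lit 15427026283)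 (nat_lit 330) (nat_lit 5) (nat_lit 329) (nat_lit 5) (nat_lit 346) (nat_lit 5) (nat_lit 449) (nat_lit 446) (nat_lit 305)))) (XT.nd (nat_lit 156) (nat_lit 0) (nat_lit 152) (XT.nd (nat_lit 78) (nat_lit 0) (nat_lit 76) (XT.lf (nat_lit 76) (nat_lit 5118421433) (nat_lit 0) (nat_lit 23400639038) (nat_lit 1292) (nat_lit 13798082968) (nat_lit 331) (nat_lit 5) (nat_lit 330) (nat_lit 5) (nat_lit 347) (nat_lit 5) (nat_lit 450) (nat_lit 446) (nat_lit 304)) (XT.lf (nat_lit 0) (nat_lit 31878236448) (nat_lit 1216) (nat_lit 1189396339) (nat_lit 1292) (nat_lit 10333037563) (nat_lit 331) (nat_lit 5) (nat_lit 347) (nat_lit 5) (nat_lit 348) (nat_lit 5) (nat_lit 451) (nat_lit 446) (nat_lit 303))) (XT.nd (nat_lit 78) (nat_lit 0) (nat_lit 0) (XT.lf (nat_lit 0) (nat_lit 36005045971) (nat_lit 1216) (nat_lit 7425803445) (nat_lit 1292) (nat_lit 1089534127) (nat_lit 332) (nat_lit 5) (nat_lit 348) (nat_lit 5) (nat_lit 349) (nat_lit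 5) (nat_lit 452) (nat_lit 446) (nat_lit 302)) (XT.lf (nat_lit 76) (nat_lit 31907918887) (nat_lit 0) (nat_lit 9079413463) (nat_lit 1292) (nat_lit 4689276122) (nat_lit 333) (nat_lit 5) (nat_lit 332) (nat_lit 5) (nat_lit 349) (nat_lit 5) (nat_lit 453) (nat_lit 446) (nat_lit 301))))))))
noncomputable def xc111 : XT := (XT.nd (nat_lit 2106) (nat_lit 3040) (nat_lit 0) (XT.nd (nat_lit 1014) (nat_lit 5396) (nat_lit 0) (XT.nd (nat_lit 468) (nat_lit 3268) (nat_lit 0) (XT.nd (nat_lit 234) (nat_lit 1976) (nat_lit 0) (XT.nd (nat_lit 78) (nat_lit 1216) (nat_lit 0) (XT.lf (nat_lit 76) (nat_lit 26733858973) (nat_lit 0) (nat_lit 20074948660) (nat_lit 1292) (nat_lit 64134940) (nat_lit 334) (nat_lit 5) (nat_lit 333) (nat_lit 5) (nat_lit 350) (nat_lit 5) (nat_lit 454) (nat_lit 446) (nat_lit 300)) (XT.nd (nat_lit 78) (nat_lit 0) (nat_lit 76) (XT.lf (nat_lit 0) (nat_lit 5297999785) (nat_lit 1292) (nat_lit 26567654456)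 (nat_lit 1368) (nat_lit 16244079775) (nat_lit 317) (nat_lit 5) (nat_lit 334) (nat_lit 5) (nat_lit 335) (nat_lit 5) (nat_lit 455) (nat_lit 446) (nat_lit 299)) (XT.lf (nat_lit 0) (nat_lit 11541174479) (nat_lit 1292) (nat_lit 33000205799) (nat_lit 76) (nat_lit 4848538059) (nat_lit 318) (nat_lit 5) (nat_lit 335) (nat_lit 5) (nat_lit 319) (nat_lit 5) (nat_lit 456) (nat_lit 446) (nat_lit 298)))) (XT.nd (nat_lit 78) (nat_lit 1216) (nat_lit 0) (XT.lf (nat_lit 0) (nat_lit 11215948890) (nat_lit 836) (nat_lit 7583040978) (nat_lit 912) (nat_lit 31914047680) (nat_lit 307) (nat_lit 5) (nat_lit 318) (nat_lit 5) (nat_lit 319) (nat_lit 5) (nat_lit 457) (nat_lit 446) (nat_lit 297)) (XT.nd (nat_lit 78) (nat_lit 608) (nat_lit 0) (XT.lf (nat_lit 0) (nat_lit 6052177412) (nat_lit 608) (nat_lit 21065872378) (nat_lit 684) (nat_lit 24963312447) (nat_lit 299) (nat_lit 5) (nat_lit 307) (nat_lit 5) (nat_lit 308) (nat_lit 5)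 (nat_lit 458) (nat_lit 446) (nat_lit 296)) (XT.lf (nat_lit 0) (nat_lit 962723412) (nat_lit 608) (nat_lit 35554878697) (nat_lit 684) (nat_lit 16980564991) (nat_lit 291) (nat_lit 5) (nat_lit 299) (nat_lit 5) (nat_lit 300) (nat_lit 5) (nat_lit 459) (nat_lit 446) (nat_lit 295))))) (XT.nd (nat_lit 234) (nat_lit 2052) (nat_lit 0) (XT.nd (nat_lit 78) (nat_lit 1216) (nat_lit 0) (XT.lf (nat_lit 0) (nat_lit 47106937760) (nat_lit 684) (nat_lit 3957101920) (nat_lit 76) (nat_lit 3900178472) (nat_lit 291) (nat_lit 5) (nat_lit 300) (nat_lit 5) (nat_lit 292) (nat_lit 5) (nat_lit 460) (nat_lit 446) (nat_lit 294)) (XT.nd (nat_lit 78) (nat_lit 608) (nat_lit 0) (XT.lf (nat_lit 0) (nat_lit 2510550878) (nat_lit 608) (nat_lit 8885976160) (nat_lit 76) (nat_lit 45081888547) (nat_lit 283) (nat_lit 5) (nat_lit 291) (nat_lit 5) (nat_lit 284) (nat_lit 5) (nat_lit 461) (nat_lit 446) (nat_lit 293)) (XT.lf (nat_lit 0) (nat_lit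 13998552155) (nat_lit 684) (nat_lit 13826757882) (nat_lit 76) (nat_lit 30217750736) (nat_lit 275) (nat_lit 5) (nat_lit 284) (nat_lit 5) (nat_lit 276) (nat_lit 5) (nat_lit 462) (nat_lit 446) (nat_lit 292)))) (XT.nd (nat_lit 156) (nat_lit 988) (nat_lit 0) (XT.nd (nat_lit 78) (nat_lit 532) (nat_lit 0) (XT.lf (nat_lit 0) (nat_lit 26800906599) (nat_lit 608) (nat_lit 18646510570) (nat_lit 76) (nat_lit 14216322558) (nat_lit 268) (nat_lit 5) (nat_lit 276) (nat_lit 5) (nat_lit 269) (nat_lit 5) (nat_lit 463) (nat_lit 446) (nat_lit 291)) (XT.lf (nat_lit 0) (nat_lit 37987526327) (nat_lit 532) (nat_lit 3043202667) (nat_lit 608) (nat_lit 20311103220) (nat_lit 261) (nat_lit 5) (nat_lit 268) (nat_lit 5) (nat_lit 269) (nat_lit 5) (nat_lit 464) (nat_lit 446) (nat_lit 290))) (XT.nd (nat_lit 78) (nat_lit 532) (nat_lit 0) (XT.lf (nat_lit 0) (nat_lit 35025020088) (nat_lit 456) (nat_lit 21873983661) (nat_lit 532) (nat_lit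 6177016828) (nat_lit 255) (nat_lit 5) (nat_lit 261) (nat_lit 5) (nat_lit 262) (nat_lit 5) (nat_lit 465) (nat_lit 446) (nat_lit 289)) (XT.lf (nat_lit 0) (nat_lit 9302290609) (nat_lit 532) (nat_lit 32665879250) (nat_lit 76) (nat_lit 22902022793) (nat_lit 248) (nat_lit 5) (nat_lit 255) (nat_lit 5) (nat_lit 249) (nat_lit 5) (nat_lit 466) (nat_lit 446) (nat_lit 288)))))) (XT.nd (nat_lit 546) (nat_lit 2356) (nat_lit 0) (XT.nd (nat_lit 234) (nat_lit 1748) (nat_lit 0) (XT.nd (nat_lit 78) (nat_lit 836) (nat_lit 0) (XT.lf (nat_lit 0) (nat_lit 26256258621) (nat_lit 532) (nat_lit 37158615363) (nat_lit 76) (nat_lit 3312511304) (nat_lit 242) (nat_lit 5) (nat_lit 249) (nat_lit 5) (nat_lit 243) (nat_lit 5) (nat_lit 467) (nat_lit 446) (nat_lit 287)) (XT.nd (nat_lit 78) (nat_lit 380) (nat_lit 0) (XT.lf (nat_lit 0) (nat_lit 27028327221) (nat_lit 456) (nat_lit 18050504985) (nat_lit 532) (nat_lit 23567978211) (nat_lit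 236) (nat_lit 5) (nat_lit 242) (nat_lit 5) (nat_lit 243) (nat_lit 5) (nat_lit 468) (nat_lit 446) (nat_lit 286)) (XT.lf (nat_lit 0) (nat_lit 24742485055) (nat_lit 380) (nat_lit 41006527357) (nat_lit 456) (nat_lit 4886000120) (nat_lit 231) (nat_lit 5) (nat_lit 236) (nat_lit 5) (nat_lit 237) (nat_lit 5) (nat_lit 469) (nat_lit 446) (nat_lit 285)))) (XT.nd (nat_lit 156) (nat_lit 836) (nat_lit 0) (XT.nd (nat_lit 78) (nat_lit 380) (nat_lit 0) (XT.lf (nat_lit 0) (nat_lit 15344994825) (nat_lit 532) (nat_lit 50071065476) (nat_lit 76) (nat_lit 7275246041) (nat_lit 224) (nat_lit 5) (nat_lit 231) (nat_lit 5) (nat_lit 225) (nat_lit 5) (nat_lit 470) (nat_lit 446) (nat_lit 284)) (XT.lf (nat_lit 0) (nat_lit 20613264029) (nat_lit 380) (nat_lit 16961393873) (nat_lit 456) (nat_lit 37241660664) (nat_lit 219) (nat_lit 5) (nat_lit 224) (nat_lit 5) (nat_lit 225) (nat_lit 5) (nat_lit 471) (nat_lit 446) (nat_lit 283))) (XT.nd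 (nat_lit 78) (nat_lit 456) (nat_lit 0) (XT.lf (nat_lit 0) (nat_lit 18880843498) (nat_lit 380) (nat_lit 43061170907) (nat_lit 456) (nat_lit 15074780747) (nat_lit 214) (nat_lit 5) (nat_lit 219) (nat_lit 5) (nat_lit 220) (nat_lit 5) (nat_lit 472) (nat_lit 446) (nat_lit 282)) (XT.lf (nat_lit 0) (nat_lit 9024285209) (nat_lit 456) (nat_lit 61855363382) (nat_lit 76) (nat_lit 8415766335) (nat_lit 208) (nat_lit 5) (nat_lit 214) (nat_lit 5) (nat_lit 209) (nat_lit 5) (nat_lit 473) (nat_lit 446) (nat_lit 281))))) (XT.nd (nat_lit 234) (nat_lit 1292) (nat_lit 0) (XT.nd (nat_lit 78) (nat_lit 684) (nat_lit 0) (XT.lf (nat_lit 0) (nat_lit 16057921171) (nat_lit 380) (nat_lit 19153138159) (nat_lit 456) (nat_lit 46436593019) (nat_lit 203) (nat_lit 5) (nat_lit 208) (nat_lit 5) (nat_lit 209) (nat_lit 5) (nat_lit 474) (nat_lit 446) (nat_lit 280)) (XT.nd (nat_lit 78) (nat_lit 380) (nat_lit 0) (XT.lf (nat_lit 0) (nat_lit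 15007221184) (nat_lit 304) (nat_lit 48823547844) (nat_lit 380) (nat_lit 20253024759) (nat_lit 199) (nat_lit 5) (nat_lit 203) (nat_lit 5) (nat_lit 204) (nat_lit 5) (nat_lit 475) (nat_lit 446) (nat_lit 279)) (XT.lf (nat_lit 0) (nat_lit 8170720926) (nat_lit 380) (nat_lit 72277641350) (nat_lit 76) (nat_lit 6159124127) (nat_lit 194) (nat_lit 5) (nat_lit 199) (nat_lit 5) (nat_lit 195) (nat_lit 5) (nat_lit 476) (nat_lit 446) (nat_lit 278)))) (XT.nd (nat_lit 156) (nat_lit 684) (nat_lit 0) (XT.nd (nat_lit 78) (nat_lit 304) (nat_lit 0) (XT.lf (nat_lit 0) (nat_lit 13674291922) (nat_lit 304) (nat_lit 25267150509) (nat_lit 380) (nat_lit 50269565946) (nat_lit 190) (nat_lit 5) (nat_lit 194) (nat_lit 5) (nat_lit 195) (nat_lit 5) (nat_lit 477) (nat_lit 446) (nat_lit 277)) (XT.lf (nat_lit 0) (nat_lit 13450536834) (nat_lit 304) (nat_lit 58993382479) (nat_lit 380) (nat_lit 19464990601) (nat_lit 186) (nat_lit 5) (nat_lit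 190) (nat_lit 5) (nat_lit 191) (nat_lit 5) (nat_lit 478) (nat_lit 446) (nat_lit 276))) (XT.nd (nat_lit 78) (nat_lit 304) (nat_lit 0) (XT.lf (nat_lit 0) (nat_lit 13624312249) (nat_lit 304) (nat_lit 173931689) (nat_lit 380) (nat_lit 80904655509) (nat_lit 181) (nat_lit 5) (nat_lit 185) (nat_lit 5) (nat_lit 186) (nat_lit 5) (nat_lit 479) (nat_lit 446) (nat_lit 275)) (XT.lf (nat_lit 0) (nat_lit 13809066048) (nat_lit 304) (nat_lit 36055685170) (nat_lit 380) (nat_lit 47719775290) (nat_lit 177) (nat_lit 5) (nat_lit 181) (nat_lit 5) (nat_lit 182) (nat_lit 5) (nat_lit 480) (nat_lit 446) (nat_lit 274))))))) (XT.nd (nat_lit 59904) (nat_lit 0) (nat_lit 11704) (XT.nd (nat_lit 468) (nat_lit 1444) (nat_lit 0) (XT.nd (nat_lit 234) (nat_lit 760) (nat_lit 0) (XT.nd (nat_lit 78) (nat_lit 608) (nat_lit 0) (XT.lf (nat_lit 0) (nat_lit 14575329138) (nat_lit 228) (nat_lit 74389640793) (nat_lit 304) (nat_lit 11608353442)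 (nat_lit 174) (nat_lit 5) (nat_lit 177) (nat_lit 5) (nat_lit 178) (nat_lit 5) (nat_lit 481) (nat_lit 446) (nat_lit 273)) (XT.nd (nat_lit 78) (nat_lit 228) (nat_lit 0) (XT.lf (nat_lit 0) (nat_lit 15585215067) (nat_lit 304) (nat_lit 11593319763) (nat_lit 380) (nat_lit 76483940295) (nat_lit 169) (nat_lit 5) (nat_lit 173) (nat_lit 5) (nat_lit 174) (nat_lit 5) (nat_lit 482) (nat_lit 446) (nat_lit 272)) (XT.lf (nat_lit 0) (nat_lit 16843373613) (nat_lit 228) (nat_lit 52400514639) (nat_lit 304) (nat_lit 37611372237) (nat_lit 166) (nat_lit 5) (nat_lit 169) (nat_lit 5) (nat_lit 170) (nat_lit 5) (nat_lit 483) (nat_lit 446) (nat_lit 271)))) (XT.nd (nat_lit 78) (nat_lit 456) (nat_lit 0) (XT.lf (nat_lit 0) (nat_lit 4494731136) (nat_lit 304) (nat_lit 91430395621) (nat_lit 76) (nat_lit 14241060853) (nat_lit 162) (nat_lit 5) (nat_lit 166) (nat_lit 5) (nat_lit 163) (nat_lit 5) (nat_lit 484) (nat_lit 446) (nat_lit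 270)) (XT.nd (nat_lit 78) (nat_lit 228) (nat_lit 0) (XT.lf (nat_lit 0) (nat_lit 20670553902) (nat_lit 228) (nat_lit 28927022996) (nat_lit 304) (nat_lit 63983833580) (nat_lit 159) (nat_lit 5) (nat_lit 162) (nat_lit 5) (nat_lit 163) (nat_lit 5) (nat_lit 485) (nat_lit 446) (nat_lit 269)) (XT.lf (nat_lit 0) (nat_lit 23191014022) (nat_lit 228) (nat_lit 75334900294) (nat_lit 304) (nat_lit 18594369717) (nat_lit 156) (nat_lit 5) (nat_lit 159) (nat_lit 5) (nat_lit 160) (nat_lit 5) (nat_lit 486) (nat_lit 446) (nat_lit 268))))) (XT.nd (nat_lit 234) (nat_lit 684) (nat_lit 0) (XT.nd (nat_lit 78) (nat_lit 456) (nat_lit 0) (XT.lf (nat_lit 0) (nat_lit 26159753571) (nat_lit 228) (nat_lit 3845769057) (nat_lit 304) (nat_lit 90776953780) (nat_lit 152) (nat_lit 5) (nat_lit 155) (nat_lit 5) (nat_lit 156) (nat_lit 5) (nat_lit 487) (nat_lit 446) (nat_lit 267)) (XT.nd (nat_lit 78) (nat_lit 228) (nat_lit 0) (XT.lf (nat_lit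 0) (nat_lit 29305317605) (nat_lit 228) (nat_lit 53290694667) (nat_lit 304) (nat_lit 41967888189) (nat_lit 149) (nat_lit 5) (nat_lit 152) (nat_lit 5) (nat_lit 153) (nat_lit 5) (nat_lit 488) (nat_lit 446) (nat_lit 266)) (XT.lf (nat_lit 0) (nat_lit 10663875426) (nat_lit 228) (nat_lit 95297944718) (nat_lit 76) (nat_lit 22522998088) (nat_lit 146) (nat_lit 5) (nat_lit 149) (nat_lit 5) (nat_lit 147) (nat_lit 5) (nat_lit 489) (nat_lit 446) (nat_lit 265)))) (XT.nd (nat_lit 156) (nat_lit 304) (nat_lit 0) (XT.nd (nat_lit 78) (nat_lit 152) (nat_lit 0) (XT.lf (nat_lit 0) (nat_lit 37226169177) (nat_lit 228) (nat_lit 29726056982) (nat_lit 304) (nat_lit 65580301267) (nat_lit 143) (nat_lit 5) (nat_lit 146) (nat_lit 5) (nat_lit 147) (nat_lit 5) (nat_lit 490) (nat_lit 446) (nat_lit 264)) (XT.lf (nat_lit 0) (nat_lit 41937762703) (nat_lit 152) (nat_lit 85993696235) (nat_lit 228) (nat_lit 8794869226) (nat_lit 141) (nat_lit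 5) (nat_lit 143) (nat_lit 5) (nat_lit 144) (nat_lit 5) (nat_lit 491) (nat_lit 446) (nat_lit 263))) (XT.nd (nat_lit 58968) (nat_lit 0) (nat_lit 14440) (XT.lf (nat_lit 0) (nat_lit 47053280717) (nat_lit 228) (nat_lit 4526741709) (nat_lit 304) (nat_lit 89482876470) (nat_lit 137) (nat_lit 5) (nat_lit 140) (nat_lit 5) (nat_lit 141) (nat_lit 5) (nat_lit 492) (nat_lit 446) (nat_lit 262)) (XT.lf (nat_lit 0) (nat_lit 11352355250) (nat_lit 1292) (nat_lit 4384010908) (nat_lit 1292) (nat_lit 4384010908) (nat_lit 327) (nat_lit 3) (nat_lit 344) (nat_lit 3) (nat_lit 344) (nat_lit 5) (nat_lit 447) (nat_lit 447) (nat_lit 306)))))) (XT.nd (nat_lit 546) (nat_lit 2812) (nat_lit 0) (XT.nd (nat_lit 234) (nat_lit 0) (nat_lit 152) (XT.nd (nat_lit 78) (nat_lit 0) (nat_lit 0) (XT.lf (nat_lit 0) (nat_lit 23594924342) (nat_lit 1216) (nat_lit 16131416206) (nat_lit 1292) (nat_lit 1510751496) (nat_lit 328) (nat_lit 5) (nat_lit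 344) (nat_lit 5) (nat_lit 345) (nat_lit 5) (nat_lit 448) (nat_lit 447) (nat_lit 305)) (XT.nd (nat_lit 78) (nat_lit 0) (nat_lit 76) (XT.lf (nat_lit 76) (nat_lit 18618118898) (nat_lit 0) (nat_lit 6495067008) (nat_lit 1292) (nat_lit 17152555029) (nat_lit 329) (nat_lit 5) (nat_lit 328) (nat_lit 5) (nat_lit 345) (nat_lit 5) (nat_lit 449) (nat_lit 447) (nat_lit 304)) (XT.lf (nat_lit 76) (nat_lit 12059647492) (nat_lit 0) (nat_lit 15200267914) (nat_lit 1292) (nat_lit 16069330405) (nat_lit 330) (nat_lit 5) (nat_lit 329) (nat_lit 5) (nat_lit 346) (nat_lit 5) (nat_lit 450) (nat_lit 447) (nat_lit 303)))) (XT.nd (nat_lit 156) (nat_lit 0) (nat_lit 152) (XT.nd (nat_lit 78) (nat_lit 0) (nat_lit 76) (XT.lf (nat_lit 76) (nat_lit 5453045331) (nat_lit 0) (nat_lit 24611597912) (nat_lit 1292) (nat_lit 14364763010) (nat_lit 331) (nat_lit 5) (nat_lit 330) (nat_lit 5) (nat_lit 347) (nat_lit 5) (nat_lit 451) (nat_lit 447)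 (nat_lit 302)) (XT.lf (nat_lit 0) (nat_lit 33585706684) (nat_lit 1216) (nat_lit 1170113205) (nat_lit 1292) (nat_lit 10811472022) (nat_lit 331) (nat_lit 5) (nat_lit 347) (nat_lit 5) (nat_lit 348) (nat_lit 5) (nat_lit 452) (nat_lit 447) (nat_lit 301))) (XT.nd (nat_lit 78) (nat_lit 0) (nat_lit 0) (XT.lf (nat_lit 0) (nat_lit 37913873102) (nat_lit 1216) (nat_lit 7717015202) (nat_lit 1292) (nat_lit 1112252213) (nat_lit 332) (nat_lit 5) (nat_lit 348) (nat_lit 5) (nat_lit 349) (nat_lit 5) (nat_lit 453) (nat_lit 447) (nat_lit 300)) (XT.lf (nat_lit 76) (nat_lit 33581097814) (nat_lit 0) (nat_lit 9559753454) (nat_lit 1292) (nat_lit 4816458338) (nat_lit 333) (nat_lit 5) (nat_lit 332) (nat_lit 5) (nat_lit 349) (nat_lit 5) (nat_lit 454) (nat_lit 447) (nat_lit 299))))) (XT.nd (nat_lit 234) (nat_lit 1900) (nat_lit 0) (XT.nd (nat_lit 78) (nat_lit 0) (nat_lit 76) (XT.lf (nat_lit 0) (nat_lit 34673128) (nat_lit 1292)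 (nat_lit 21064542792) (nat_lit 1368) (nat_lit 28114367813) (nat_lit 316) (nat_lit 5) (nat_lit 333) (nat_lit 5) (nat_lit 334) (nat_lit 5) (nat_lit 455) (nat_lit 447) (nat_lit 298)) (XT.nd (nat_lit 78) (nat_lit 0) (nat_lit 76) (XT.lf (nat_lit 0) (nat_lit 5659385840) (nat_lit 1292) (nat_lit 27814428758) (nat_lit 1368) (nat_lit 17038507381) (nat_lit 317) (nat_lit 5) (nat_lit 334) (nat_lit 5) (nat_lit 335) (nat_lit 5) (nat_lit 456) (nat_lit 447) (nat_lit 297)) (XT.lf (nat_lit 0) (nat_lit 12210758018) (nat_lit 1292) (nat_lit 34568034735) (nat_lit 76) (nat_lit 5077841797) (nat_lit 318) (nat_lit 5) (nat_lit 335) (nat_lit 5) (nat_lit 319) (nat_lit 5) (nat_lit 457) (nat_lit 447) (nat_lit 296)))) (XT.nd (nat_lit 156) (nat_lit 608) (nat_lit 0) (XT.nd (nat_lit 78) (nat_lit 608) (nat_lit 0) (XT.lf (nat_lit 0) (nat_lit 11856571977) (nat_lit 836) (nat_lit 7971253590) (nat_lit 912) (nat_lit 33418193502) (nat_lit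 307) (nat_lit 5) (nat_lit 318) (nat_lit 5) (nat_lit 319) (nat_lit 5) (nat_lit 458) (nat_lit 447) (nat_lit 295)) (XT.lf (nat_lit 0) (nat_lit 6435002150) (nat_lit 608) (nat_lit 22124291794) (nat_lit 684) (nat_lit 26123572565) (nat_lit 299) (nat_lit 5) (nat_lit 307) (nat_lit 5) (nat_lit 308) (nat_lit 5) (nat_lit 459) (nat_lit 447) (nat_lit 294))) (XT.nd (nat_lit 78) (nat_lit 0) (nat_lit 0) (XT.lf (nat_lit 0) (nat_lit 1091314287) (nat_lit 608) (nat_lit 37334172157) (nat_lit 684) (nat_lit 17745125465) (nat_lit 291) (nat_lit 5) (nat_lit 299) (nat_lit 5) (nat_lit 300) (nat_lit 5) (nat_lit 460) (nat_lit 447) (nat_lit 293)) (XT.lf (nat_lit 0) (nat_lit 49540369728) (nat_lit 684) (nat_lit 4075973068) (nat_lit 76) (nat_lit 4093740455) (nat_lit 291) (nat_lit 5) (nat_lit 300) (nat_lit 5) (nat_lit 292) (nat_lit 5) (nat_lit 461) (nat_lit 447) (nat_lit 292))))))))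
noncomputable def xc112 : XT := (XT.nd (nat_lit 2028) (nat_lit 1140) (nat_lit 0) (XT.nd (nat_lit 1014) (nat_lit 3952) (nat_lit 0) (XT.nd (nat_lit 468) (nat_lit 3040) (nat_lit 0) (XT.nd (nat_lit 234) (nat_lit 1520) (nat_lit 0) (XT.nd (nat_lit 78) (nat_lit 1140) (nat_lit 0) (XT.lf (nat_lit 0) (nat_lit 2711929291) (nat_lit 608) (nat_lit 9252042486) (nat_lit 76) (nat_lit 47336086049) (nat_lit 283) (nat_lit 5) (nat_lit 291) (nat_lit 5) (nat_lit 284) (nat_lit 5) (nat_lit 462) (nat_lit 447) (nat_lit 291)) (XT.nd (nat_lit 78) (nat_lit 532) (nat_lit 0) (XT.lf (nat_lit 0) (nat_lit 14771478184) (nat_lit 684) (nat_lit 14439942899) (nat_lit 76) (nat_lit 31731599909) (nat_lit 275) (nat_lit 5) (nat_lit 284) (nat_lit 5) (nat_lit 276) (nat_lit 5) (nat_lit 463) (nat_lit 447) (nat_lit 290)) (XT.lf (nat_lit 0) (nat_lit 28211258366) (nat_lit 608) (nat_lit 19500867578) (nat_lit 76) (nat_lit 14932688844) (nat_lit 268)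 (nat_lit 5) (nat_lit 276) (nat_lit 5) (nat_lit 269) (nat_lit 5) (nat_lit 464) (nat_lit 447) (nat_lit 289)))) (XT.nd (nat_lit 78) (nat_lit 988) (nat_lit 0) (XT.lf (nat_lit 0) (nat_lit 39962636211) (nat_lit 532) (nat_lit 3187315741) (nat_lit 608) (nat_lit 21256938675) (nat_lit 261) (nat_lit 5) (nat_lit 268) (nat_lit 5) (nat_lit 269) (nat_lit 5) (nat_lit 465) (nat_lit 447) (nat_lit 288)) (XT.nd (nat_lit 78) (nat_lit 532) (nat_lit 0) (XT.lf (nat_lit 0) (nat_lit 36851733553) (nat_lit 456) (nat_lit 22957482787) (nat_lit 532) (nat_lit 6418644917) (nat_lit 255) (nat_lit 5) (nat_lit 261) (nat_lit 5) (nat_lit 262) (nat_lit 5) (nat_lit 466) (nat_lit 447) (nat_lit 287)) (XT.lf (nat_lit 0) (nat_lit 9831000955) (nat_lit 532) (nat_lit 34222796978) (nat_lit 76) (nat_lit 24057994186) (nat_lit 248) (nat_lit 5) (nat_lit 255) (nat_lit 5) (nat_lit 249) (nat_lit 5) (nat_lit 467) (nat_lit 447) (nat_lit 286))))) (XT.nd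 (nat_lit 234) (nat_lit 1748) (nat_lit 0) (XT.nd (nat_lit 78) (nat_lit 836) (nat_lit 0) (XT.lf (nat_lit 0) (nat_lit 27630476190) (nat_lit 532) (nat_lit 38940642670) (nat_lit 76) (nat_lit 3490791371) (nat_lit 242) (nat_lit 5) (nat_lit 249) (nat_lit 5) (nat_lit 243) (nat_lit 5) (nat_lit 468) (nat_lit 447) (nat_lit 285)) (XT.nd (nat_lit 78) (nat_lit 380) (nat_lit 0) (XT.lf (nat_lit 0) (nat_lit 28453471285) (nat_lit 456) (nat_lit 18938491854) (nat_lit 532) (nat_lit 24685410041) (nat_lit 236) (nat_lit 5) (nat_lit 242) (nat_lit 5) (nat_lit 243) (nat_lit 5) (nat_lit 469) (nat_lit 447) (nat_lit 284)) (XT.lf (nat_lit 0) (nat_lit 26052814674) (nat_lit 380) (nat_lit 43040855934) (nat_lit 456) (nat_lit 5071374345) (nat_lit 231) (nat_lit 5) (nat_lit 236) (nat_lit 5) (nat_lit 237) (nat_lit 5) (nat_lit 470) (nat_lit 447) (nat_lit 283)))) (XT.nd (nat_lit 156) (nat_lit 836) (nat_lit 0) (XT.nd (nat_lit 78) (nat_lit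 380) (nat_lit 0) (XT.lf (nat_lit 0) (nat_lit 16168122210) (nat_lit 532) (nat_lit 52500878314) (nat_lit 76) (nat_lit 7655192976) (nat_lit 224) (nat_lit 5) (nat_lit 231) (nat_lit 5) (nat_lit 225) (nat_lit 5) (nat_lit 471) (nat_lit 447) (nat_lit 282)) (XT.lf (nat_lit 0) (nat_lit 21715553911) (nat_lit 380) (nat_lit 17791742208) (nat_lit 456) (nat_lit 39048219472) (nat_lit 219) (nat_lit 5) (nat_lit 224) (nat_lit 5) (nat_lit 225) (nat_lit 5) (nat_lit 472) (nat_lit 447) (nat_lit 281))) (XT.nd (nat_lit 78) (nat_lit 456) (nat_lit 0) (XT.lf (nat_lit 0) (nat_lit 19895866221) (nat_lit 380) (nat_lit 45195431852) (nat_lit 456) (nat_lit 15774769688) (nat_lit 214) (nat_lit 5) (nat_lit 219) (nat_lit 5) (nat_lit 220) (nat_lit 5) (nat_lit 473) (nat_lit 447) (nat_lit 280)) (XT.lf (nat_lit 0) (nat_lit 9526547304) (nat_lit 456) (nat_lit 64876821448) (nat_lit 76) (nat_lit 8855283950) (nat_lit 208) (nat_lit 5) (nat_lit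 214) (nat_lit 5) (nat_lit 209) (nat_lit 5) (nat_lit 474) (nat_lit 447) (nat_lit 279)))))) (XT.nd (nat_lit 468) (nat_lit 1900) (nat_lit 0) (XT.nd (nat_lit 234) (nat_lit 988) (nat_lit 0) (XT.nd (nat_lit 78) (nat_lit 684) (nat_lit 0) (XT.lf (nat_lit 0) (nat_lit 16930083243) (nat_lit 380) (nat_lit 20090811866) (nat_lit 456) (nat_lit 48707659911) (nat_lit 203) (nat_lit 5) (nat_lit 208) (nat_lit 5) (nat_lit 209) (nat_lit 5) (nat_lit 475) (nat_lit 447) (nat_lit 278)) (XT.nd (nat_lit 78) (nat_lit 380) (nat_lit 0) (XT.lf (nat_lit 0) (nat_lit 15826113699) (nat_lit 304) (nat_lit 51243971502) (nat_lit 380) (nat_lit 21216463552) (nat_lit 199) (nat_lit 5) (nat_lit 203) (nat_lit 5) (nat_lit 204) (nat_lit 5) (nat_lit 476) (nat_lit 447) (nat_lit 277)) (XT.lf (nat_lit 0) (nat_lit 8626061129) (nat_lit 380) (nat_lit 75822823801) (nat_lit 76) (nat_lit 6487570379) (nat_lit 194) (nat_lit 5) (nat_lit 199) (nat_lit 5) (nat_lit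 195) (nat_lit 5) (nat_lit 477) (nat_lit 447) (nat_lit 276)))) (XT.nd (nat_lit 78) (nat_lit 684) (nat_lit 0) (XT.lf (nat_lit 0) (nat_lit 14424736873) (nat_lit 304) (nat_lit 26508994520) (nat_lit 380) (nat_lit 52736469672) (nat_lit 190) (nat_lit 5) (nat_lit 194) (nat_lit 5) (nat_lit 195) (nat_lit 5) (nat_lit 478) (nat_lit 447) (nat_lit 275)) (XT.nd (nat_lit 78) (nat_lit 380) (nat_lit 0) (XT.lf (nat_lit 0) (nat_lit 14188999157) (nat_lit 304) (nat_lit 61921010545) (nat_lit 380) (nat_lit 20393027707) (nat_lit 186) (nat_lit 5) (nat_lit 190) (nat_lit 5) (nat_lit 191) (nat_lit 5) (nat_lit 479) (nat_lit 447) (nat_lit 274)) (XT.lf (nat_lit 0) (nat_lit 14370431385) (nat_lit 304) (nat_lit 160567849) (nat_lit 380) (nat_lit 84905758814) (nat_lit 181) (nat_lit 5) (nat_lit 185) (nat_lit 5) (nat_lit 186) (nat_lit 5) (nat_lit 480) (nat_lit 447) (nat_lit 273))))) (XT.nd (nat_lit 234) (nat_lit 988) (nat_lit 0) (XT.nd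 (nat_lit 78) (nat_lit 608) (nat_lit 0) (XT.lf (nat_lit 0) (nat_lit 14563605946) (nat_lit 304) (nat_lit 37836003784) (nat_lit 380) (nat_lit 50062893447) (nat_lit 177) (nat_lit 5) (nat_lit 181) (nat_lit 5) (nat_lit 182) (nat_lit 5) (nat_lit 481) (nat_lit 447) (nat_lit 272)) (XT.nd (nat_lit 78) (nat_lit 380) (nat_lit 0) (XT.lf (nat_lit 0) (nat_lit 15367349234) (nat_lit 228) (nat_lit 78086321898) (nat_lit 304) (nat_lit 12147103851) (nat_lit 174) (nat_lit 5) (nat_lit 177) (nat_lit 5) (nat_lit 178) (nat_lit 5) (nat_lit 482) (nat_lit 447) (nat_lit 271)) (XT.lf (nat_lit 0) (nat_lit 16426707001) (nat_lit 304) (nat_lit 12150261523) (nat_lit 380) (nat_lit 80267444243) (nat_lit 169) (nat_lit 5) (nat_lit 173) (nat_lit 5) (nat_lit 174) (nat_lit 5) (nat_lit 483) (nat_lit 447) (nat_lit 270)))) (XT.nd (nat_lit 156) (nat_lit 456) (nat_lit 0) (XT.nd (nat_lit 78) (nat_lit 304) (nat_lit 0) (XT.lf (nat_lit 0) (nat_lit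 17746929566) (nat_lit 228) (nat_lit 54997576896) (nat_lit 304) (nat_lit 39452363475) (nat_lit 166) (nat_lit 5) (nat_lit 169) (nat_lit 5) (nat_lit 170) (nat_lit 5) (nat_lit 484) (nat_lit 447) (nat_lit 269)) (XT.lf (nat_lit 0) (nat_lit 4757224867) (nat_lit 304) (nat_lit 95940629446) (nat_lit 76) (nat_lit 14975509165) (nat_lit 162) (nat_lit 5) (nat_lit 166) (nat_lit 5) (nat_lit 163) (nat_lit 5) (nat_lit 485) (nat_lit 447) (nat_lit 268))) (XT.nd (nat_lit 78) (nat_lit 228) (nat_lit 0) (XT.lf (nat_lit 0) (nat_lit 21763610803) (nat_lit 228) (nat_lit 30350376384) (nat_lit 304) (nat_lit 67145397112) (nat_lit 159) (nat_lit 5) (nat_lit 162) (nat_lit 5) (nat_lit 163) (nat_lit 5) (nat_lit 486) (nat_lit 447) (nat_lit 267)) (XT.lf (nat_lit 0) (nat_lit 24409238071) (nat_lit 228) (nat_lit 79078538359) (nat_lit 304) (nat_lit 19487454090) (nat_lit 156) (nat_lit 5) (nat_lit 159) (nat_lit 5) (nat_lit 160) (nat_lit 5)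 (nat_lit 487) (nat_lit 447) (nat_lit 266))))))) (XT.nd (nat_lit 59982) (nat_lit 0) (nat_lit 7676) (XT.nd (nat_lit 59436) (nat_lit 0) (nat_lit 14212) (XT.nd (nat_lit 234) (nat_lit 380) (nat_lit 0) (XT.nd (nat_lit 78) (nat_lit 456) (nat_lit 0) (XT.lf (nat_lit 0) (nat_lit 27525427791) (nat_lit 228) (nat_lit 4015134295) (nat_lit 304) (nat_lit 95279994574) (nat_lit 152) (nat_lit 5) (nat_lit 155) (nat_lit 5) (nat_lit 156) (nat_lit 5) (nat_lit 488) (nat_lit 447) (nat_lit 265)) (XT.nd (nat_lit 78) (nat_lit 228) (nat_lit 0) (XT.lf (nat_lit 0) (nat_lit 30827416073) (nat_lit 228) (nat_lit 55932260911) (nat_lit 304) (nat_lit 44031401940) (nat_lit 149) (nat_lit 5) (nat_lit 152) (nat_lit 5) (nat_lit 153) (nat_lit 5) (nat_lit 489) (nat_lit 447) (nat_lit 264)) (XT.lf (nat_lit 0) (nat_lit 11230396399) (nat_lit 228) (nat_lit 100006201634) (nat_lit 76) (nat_lit 23671460706) (nat_lit 146) (nat_lit 5) (nat_lit 149)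 (nat_lit 5) (nat_lit 147) (nat_lit 5) (nat_lit 490) (nat_lit 447) (nat_lit 263)))) (XT.nd (nat_lit 78) (nat_lit 152) (nat_lit 0) (XT.lf (nat_lit 0) (nat_lit 39142494373) (nat_lit 228) (nat_lit 31189612141) (nat_lit 304) (nat_lit 68826078651) (nat_lit 143) (nat_lit 5) (nat_lit 146) (nat_lit 5) (nat_lit 147) (nat_lit 5) (nat_lit 491) (nat_lit 447) (nat_lit 262)) (XT.nd (nat_lit 59046) (nat_lit 0) (nat_lit 14136) (XT.lf (nat_lit 0) (nat_lit 44088819001) (nat_lit 152) (nat_lit 90270674259) (nat_lit 228) (nat_lit 9202206936) (nat_lit 141) (nat_lit 5) (nat_lit 143) (nat_lit 5) (nat_lit 144) (nat_lit 5) (nat_lit 492) (nat_lit 447) (nat_lit 261)) (XT.lf (nat_lit 0) (nat_lit 11985244803) (nat_lit 1292) (nat_lit 4569594975) (nat_lit 1292) (nat_lit 4569594975) (nat_lit 327) (nat_lit 3) (nat_lit 344) (nat_lit 3) (nat_lit 344) (nat_lit 5) (nat_lit 448) (nat_lit 448) (nat_lit 304))))) (XT.nd (nat_lit 234) (nat_lit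 0) (nat_lit 152) (XT.nd (nat_lit 78) (nat_lit 0) (nat_lit 0) (XT.lf (nat_lit 0) (nat_lit 24899052154) (nat_lit 1216) (nat_lit 16868353505) (nat_lit 1292) (nat_lit 1527803800) (nat_lit 328) (nat_lit 5) (nat_lit 344) (nat_lit 5) (nat_lit 345) (nat_lit 5) (nat_lit 449) (nat_lit 448) (nat_lit 303)) (XT.nd (nat_lit 78) (nat_lit 0) (nat_lit 76) (XT.lf (nat_lit 76) (nat_lit 19616662322) (nat_lit 0) (nat_lit 6871291714) (nat_lit 1292) (nat_lit 17887495216) (nat_lit 329) (nat_lit 5) (nat_lit 328) (nat_lit 5) (nat_lit 345) (nat_lit 5) (nat_lit 450) (nat_lit 448) (nat_lit 302)) (XT.lf (nat_lit 76) (nat_lit 12732285269) (nat_lit 0) (nat_lit 16004261249) (nat_lit 1292) (nat_lit 16755747319) (nat_lit 330) (nat_lit 5) (nat_lit 329) (nat_lit 5) (nat_lit 346) (nat_lit 5) (nat_lit 451) (nat_lit 448) (nat_lit 301)))) (XT.nd (nat_lit 156) (nat_lit 0) (nat_lit 152) (XT.nd (nat_lit 78) (nat_lit 0) (nat_lit 76) (XT.lf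 (nat_lit 76) (nat_lit 5797083381) (nat_lit 0) (nat_lit 25879299733) (nat_lit 1292) (nat_lit 14971233264) (nat_lit 331) (nat_lit 5) (nat_lit 330) (nat_lit 5) (nat_lit 347) (nat_lit 5) (nat_lit 452) (nat_lit 448) (nat_lit 300)) (XT.lf (nat_lit 0) (nat_lit 35367992847) (nat_lit 1216) (nat_lit 1157187617) (nat_lit 1292) (nat_lit 11317381297) (nat_lit 331) (nat_lit 5) (nat_lit 347) (nat_lit 5) (nat_lit 348) (nat_lit 5) (nat_lit 453) (nat_lit 448) (nat_lit 299))) (XT.nd (nat_lit 78) (nat_lit 0) (nat_lit 0) (XT.lf (nat_lit 0) (nat_lit 39908047331) (nat_lit 1216) (nat_lit 8030232479) (nat_lit 1292) (nat_lit 1139058820) (nat_lit 332) (nat_lit 5) (nat_lit 348) (nat_lit 5) (nat_lit 349) (nat_lit 5) (nat_lit 454) (nat_lit 448) (nat_lit 298)) (XT.lf (nat_lit 76) (nat_lit 35330704164) (nat_lit 0) (nat_lit 10061658874) (nat_lit 1292) (nat_lit 4959973691) (nat_lit 333) (nat_lit 5) (nat_lit 332) (nat_lit 5) (nat_lit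 349) (nat_lit 5) (nat_lit 455) (nat_lit 448) (nat_lit 297)))))) (XT.nd (nat_lit 546) (nat_lit 3724) (nat_lit 0) (XT.nd (nat_lit 234) (nat_lit 1900) (nat_lit 0) (XT.nd (nat_lit 78) (nat_lit 0) (nat_lit 76) (XT.lf (nat_lit 0) (nat_lit 127745320) (nat_lit 1292) (nat_lit 22044438723) (nat_lit 1368) (nat_lit 29499334761) (nat_lit 316) (nat_lit 5) (nat_lit 333) (nat_lit 5) (nat_lit 334) (nat_lit 5) (nat_lit 456) (nat_lit 448) (nat_lit 296)) (XT.nd (nat_lit 78) (nat_lit 0) (nat_lit 76) (XT.lf (nat_lit 0) (nat_lit 6029870837) (nat_lit 1292) (nat_lit 29131128952) (nat_lit 1368) (nat_lit 17874309047) (nat_lit 317) (nat_lit 5) (nat_lit 334) (nat_lit 5) (nat_lit 335) (nat_lit 5) (nat_lit 457) (nat_lit 448) (nat_lit 295)) (XT.lf (nat_lit 0) (nat_lit 12905218654) (nat_lit 1292) (nat_lit 36221895561) (nat_lit 76) (nat_lit 5319830789) (nat_lit 318) (nat_lit 5) (nat_lit 335) (nat_lit 5) (nat_lit 319) (nat_lit 5)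 (nat_lit 458) (nat_lit 448) (nat_lit 294)))) (XT.nd (nat_lit 156) (nat_lit 608) (nat_lit 0) (XT.nd (nat_lit 78) (nat_lit 608) (nat_lit 0) (XT.lf (nat_lit 0) (nat_lit 12521804787) (nat_lit 836) (nat_lit 8378034467) (nat_lit 912) (nat_lit 35006058677) (nat_lit 307) (nat_lit 5) (nat_lit 318) (nat_lit 5) (nat_lit 319) (nat_lit 5) (nat_lit 459) (nat_lit 448) (nat_lit 293)) (XT.lf (nat_lit 0) (nat_lit 6829510413) (nat_lit 608) (nat_lit 23235155633) (nat_lit 684) (nat_lit 27350018309) (nat_lit 299) (nat_lit 5) (nat_lit 307) (nat_lit 5) (nat_lit 308) (nat_lit 5) (nat_lit 460) (nat_lit 448) (nat_lit 292))) (XT.nd (nat_lit 78) (nat_lit 0) (nat_lit 0) (XT.lf (nat_lit 0) (nat_lit 1218854789) (nat_lit 608) (nat_lit 39202286230) (nat_lit 684) (nat_lit 18555766975) (nat_lit 291) (nat_lit 5) (nat_lit 299) (nat_lit 5) (nat_lit 300) (nat_lit 5) (nat_lit 461) (nat_lit 448) (nat_lit 291)) (XT.lf (nat_lit 0) (nat_lit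 52088213684) (nat_lit 684) (nat_lit 4208130952) (nat_lit 76) (nat_lit 4297115059) (nat_lit 291) (nat_lit 5) (nat_lit 300) (nat_lit 5) (nat_lit 292) (nat_lit 5) (nat_lit 462) (nat_lit 448) (nat_lit 290))))) (XT.nd (nat_lit 234) (nat_lit 1976) (nat_lit 0) (XT.nd (nat_lit 78) (nat_lit 1140) (nat_lit 0) (XT.lf (nat_lit 0) (nat_lit 2916324729) (nat_lit 608) (nat_lit 9643685443) (nat_lit 76) (nat_lit 49702983844) (nat_lit 283) (nat_lit 5) (nat_lit 291) (nat_lit 5) (nat_lit 284) (nat_lit 5) (nat_lit 463) (nat_lit 448) (nat_lit 289)) (XT.nd (nat_lit 78) (nat_lit 532) (nat_lit 0) (XT.lf (nat_lit 0) (nat_lit 15576263812) (nat_lit 684) (nat_lit 15091053080) (nat_lit 76) (nat_lit 33320866196) (nat_lit 275) (nat_lit 5) (nat_lit 284) (nat_lit 5) (nat_lit 276) (nat_lit 5) (nat_lit 464) (nat_lit 448) (nat_lit 288)) (XT.lf (nat_lit 0) (nat_lit 29685591296) (nat_lit 608) (nat_lit 20405191211) (nat_lit 76) (nat_lit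 15684357444) (nat_lit 268) (nat_lit 5) (nat_lit 276) (nat_lit 5) (nat_lit 269) (nat_lit 5) (nat_lit 465) (nat_lit 448) (nat_lit 287)))) (XT.nd (nat_lit 156) (nat_lit 988) (nat_lit 0) (XT.nd (nat_lit 78) (nat_lit 456) (nat_lit 0) (XT.lf (nat_lit 0) (nat_lit 42029460601) (nat_lit 532) (nat_lit 3339382609) (nat_lit 608) (nat_lit 22256547780) (nat_lit 261) (nat_lit 5) (nat_lit 268) (nat_lit 5) (nat_lit 269) (nat_lit 5) (nat_lit 466) (nat_lit 448) (nat_lit 286)) (XT.lf (nat_lit 0) (nat_lit 38762766907) (nat_lit 456) (nat_lit 24096105173) (nat_lit 532) (nat_lit 6678604144) (nat_lit 255) (nat_lit 5) (nat_lit 261) (nat_lit 5) (nat_lit 262) (nat_lit 5) (nat_lit 467) (nat_lit 448) (nat_lit 285))) (XT.nd (nat_lit 78) (nat_lit 456) (nat_lit 0) (XT.lf (nat_lit 0) (nat_lit 10380234282) (nat_lit 532) (nat_lit 35864661330) (nat_lit 76) (nat_lit 25270753536) (nat_lit 248) (nat_lit 5) (nat_lit 255) (nat_lit 5) (nat_lit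 249) (nat_lit 5) (nat_lit 468) (nat_lit 448) (nat_lit 284)) (XT.lf (nat_lit 0) (nat_lit 29067695816) (nat_lit 532) (nat_lit 40818828127) (nat_lit 76) (nat_lit 3676808946) (nat_lit 242) (nat_lit 5) (nat_lit 249) (nat_lit 5) (nat_lit 243) (nat_lit 5) (nat_lit 469) (nat_lit 448) (nat_lit 283))))))))
noncomputable def xc113 : XT := (XT.nd (nat_lit 61074) (nat_lit 0) (nat_lit 4256) (XT.nd (nat_lit 1014) (nat_lit 2584) (nat_lit 0) (XT.nd (nat_lit 468) (nat_lit 2356) (nat_lit 0) (XT.nd (nat_lit 234) (nat_lit 1216) (nat_lit 0) (XT.nd (nat_lit 78) (nat_lit 912) (nat_lit 0) (XT.lf (nat_lit 0) (nat_lit 29943018050) (nat_lit 456) (nat_lit 19872229707) (nat_lit 532) (nat_lit 25864381603) (nat_lit 236) (nat_lit 5) (nat_lit 242) (nat_lit 5) (nat_lit 243) (nat_lit 5) (nat_lit 470) (nat_lit 448) (nat_lit 282)) (XT.nd (nat_lit 78) (nat_lit 532) (nat_lit 0) (XT.lf (nat_lit 0) (nat_lit 27421854833) (nat_lit 380) (nat_lit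 45178388263) (nat_lit 456) (nat_lit 5271495641) (nat_lit 231) (nat_lit 5) (nat_lit 236) (nat_lit 5) (nat_lit 237) (nat_lit 5) (nat_lit 471) (nat_lit 448) (nat_lit 281)) (XT.lf (nat_lit 0) (nat_lit 17027210991) (nat_lit 532) (nat_lit 55059037481) (nat_lit 76) (nat_lit 8052632564) (nat_lit 224) (nat_lit 5) (nat_lit 231) (nat_lit 5) (nat_lit 225) (nat_lit 5) (nat_lit 472) (nat_lit 448) (nat_lit 280)))) (XT.nd (nat_lit 78) (nat_lit 836) (nat_lit 0) (XT.lf (nat_lit 0) (nat_lit 22866299117) (nat_lit 380) (nat_lit 18665255525) (nat_lit 456) (nat_lit 40950268337) (nat_lit 219) (nat_lit 5) (nat_lit 224) (nat_lit 5) (nat_lit 225) (nat_lit 5) (nat_lit 473) (nat_lit 448) (nat_lit 279)) (XT.nd (nat_lit 78) (nat_lit 456) (nat_lit 0) (XT.lf (nat_lit 0) (nat_lit 20955040982) (nat_lit 380) (nat_lit 47438153468) (nat_lit 456) (nat_lit 16514755251) (nat_lit 214) (nat_lit 5) (nat_lit 219) (nat_lit 5) (nat_lit 220)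 (nat_lit 5) (nat_lit 474) (nat_lit 448) (nat_lit 278)) (XT.lf (nat_lit 0) (nat_lit 10049176560) (nat_lit 456) (nat_lit 68055982154) (nat_lit 76) (nat_lit 9315036174) (nat_lit 208) (nat_lit 5) (nat_lit 214) (nat_lit 5) (nat_lit 209) (nat_lit 5) (nat_lit 475) (nat_lit 448) (nat_lit 277))))) (XT.nd (nat_lit 234) (nat_lit 1292) (nat_lit 0) (XT.nd (nat_lit 78) (nat_lit 684) (nat_lit 0) (XT.lf (nat_lit 0) (nat_lit 17839413721) (nat_lit 380) (nat_lit 21077227107) (nat_lit 456) (nat_lit 51096999588) (nat_lit 203) (nat_lit 5) (nat_lit 208) (nat_lit 5) (nat_lit 209) (nat_lit 5) (nat_lit 476) (nat_lit 448) (nat_lit 276)) (XT.nd (nat_lit 78) (nat_lit 380) (nat_lit 0) (XT.lf (nat_lit 0) (nat_lit 16679579435) (nat_lit 304) (nat_lit 53787345828) (nat_lit 380) (nat_lit 22232649591) (nat_lit 199) (nat_lit 5) (nat_lit 203) (nat_lit 5) (nat_lit 204) (nat_lit 5) (nat_lit 477) (nat_lit 448) (nat_lit 275)) (XT.lf (nat_lit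 0) (nat_lit 9099816937) (nat_lit 380) (nat_lit 79551652415) (nat_lit 76) (nat_lit 6830533975) (nat_lit 194) (nat_lit 5) (nat_lit 199) (nat_lit 5) (nat_lit 195) (nat_lit 5) (nat_lit 478) (nat_lit 448) (nat_lit 274)))) (XT.nd (nat_lit 156) (nat_lit 684) (nat_lit 0) (XT.nd (nat_lit 78) (nat_lit 304) (nat_lit 0) (XT.lf (nat_lit 0) (nat_lit 15206500116) (nat_lit 304) (nat_lit 27814930855) (nat_lit 380) (nat_lit 55331048645) (nat_lit 190) (nat_lit 5) (nat_lit 194) (nat_lit 5) (nat_lit 195) (nat_lit 5) (nat_lit 479) (nat_lit 448) (nat_lit 273)) (XT.lf (nat_lit 0) (nat_lit 14958254541) (nat_lit 304) (nat_lit 64997069183) (nat_lit 380) (nat_lit 21371670091) (nat_lit 186) (nat_lit 5) (nat_lit 190) (nat_lit 5) (nat_lit 191) (nat_lit 5) (nat_lit 480) (nat_lit 448) (nat_lit 272))) (XT.nd (nat_lit 78) (nat_lit 304) (nat_lit 0) (XT.lf (nat_lit 0) (nat_lit 15147822363) (nat_lit 304) (nat_lit 148586786) (nat_lit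 380) (nat_lit 89111020023) (nat_lit 181) (nat_lit 5) (nat_lit 185) (nat_lit 5) (nat_lit 186) (nat_lit 5) (nat_lit 481) (nat_lit 448) (nat_lit 271)) (XT.lf (nat_lit 0) (nat_lit 15349914675) (nat_lit 304) (nat_lit 39707426971) (nat_lit 380) (nat_lit 52527153214) (nat_lit 177) (nat_lit 5) (nat_lit 181) (nat_lit 5) (nat_lit 182) (nat_lit 5) (nat_lit 482) (nat_lit 448) (nat_lit 270)))))) (XT.nd (nat_lit 468) (nat_lit 988) (nat_lit 0) (XT.nd (nat_lit 234) (nat_lit 760) (nat_lit 0) (XT.nd (nat_lit 78) (nat_lit 608) (nat_lit 0) (XT.lf (nat_lit 0) (nat_lit 16193089610) (nat_lit 228) (nat_lit 81969956873) (nat_lit 304) (nat_lit 12716665606) (nat_lit 174) (nat_lit 5) (nat_lit 177) (nat_lit 5) (nat_lit 178) (nat_lit 5) (nat_lit 483) (nat_lit 448) (nat_lit 269)) (XT.nd (nat_lit 78) (nat_lit 228) (nat_lit 0) (XT.lf (nat_lit 0) (nat_lit 17304487866) (nat_lit 304) (nat_lit 12737163054) (nat_lit 380) (nat_lit 84243906645)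 (nat_lit 169) (nat_lit 5) (nat_lit 173) (nat_lit 5) (nat_lit 174) (nat_lit 5) (nat_lit 484) (nat_lit 448) (nat_lit 268)) (XT.lf (nat_lit 0) (nat_lit 18689956111) (nat_lit 228) (nat_lit 57726627192) (nat_lit 304) (nat_lit 41389083803) (nat_lit 166) (nat_lit 5) (nat_lit 169) (nat_lit 5) (nat_lit 170) (nat_lit 5) (nat_lit 485) (nat_lit 448) (nat_lit 267)))) (XT.nd (nat_lit 78) (nat_lit 456) (nat_lit 0) (XT.lf (nat_lit 0) (nat_lit 5029332980) (nat_lit 304) (nat_lit 100682072750) (nat_lit 76) (nat_lit 15744597793) (nat_lit 162) (nat_lit 5) (nat_lit 166) (nat_lit 5) (nat_lit 163) (nat_lit 5) (nat_lit 486) (nat_lit 448) (nat_lit 266)) (XT.nd (nat_lit 78) (nat_lit 228) (nat_lit 0) (XT.lf (nat_lit 0) (nat_lit 22905786088) (nat_lit 228) (nat_lit 31847035556) (nat_lit 304) (nat_lit 70468537129) (nat_lit 159) (nat_lit 5) (nat_lit 162) (nat_lit 5) (nat_lit 163) (nat_lit 5) (nat_lit 487) (nat_lit 448) (nat_lit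 265)) (XT.lf (nat_lit 0) (nat_lit 25682918430) (nat_lit 228) (nat_lit 83011506592) (nat_lit 304) (nat_lit 20428598575) (nat_lit 156) (nat_lit 5) (nat_lit 159) (nat_lit 5) (nat_lit 160) (nat_lit 5) (nat_lit 488) (nat_lit 448) (nat_lit 264))))) (XT.nd (nat_lit 234) (nat_lit 228) (nat_lit 0) (XT.nd (nat_lit 78) (nat_lit 456) (nat_lit 0) (XT.lf (nat_lit 0) (nat_lit 28954022575) (nat_lit 228) (nat_lit 4195098978) (nat_lit 304) (nat_lit 100011516393) (nat_lit 152) (nat_lit 5) (nat_lit 155) (nat_lit 5) (nat_lit 156) (nat_lit 5) (nat_lit 489) (nat_lit 448) (nat_lit 263)) (XT.nd (nat_lit 78) (nat_lit 228) (nat_lit 0) (XT.lf (nat_lit 0) (nat_lit 32420335710) (nat_lit 228) (nat_lit 58708040860) (nat_lit 304) (nat_lit 46201334251) (nat_lit 149) (nat_lit 5) (nat_lit 152) (nat_lit 5) (nat_lit 153) (nat_lit 5) (nat_lit 490) (nat_lit 448) (nat_lit 262)) (XT.lf (nat_lit 0) (nat_lit 11822144974) (nat_lit 228) (nat_lit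 104955137275) (nat_lit 76) (nat_lit 24875272030) (nat_lit 146) (nat_lit 5) (nat_lit 149) (nat_lit 5) (nat_lit 147) (nat_lit 5) (nat_lit 491) (nat_lit 448) (nat_lit 261)))) (XT.nd (nat_lit 59202) (nat_lit 0) (nat_lit 14060) (XT.nd (nat_lit 59124) (nat_lit 0) (nat_lit 13984) (XT.lf (nat_lit 0) (nat_lit 41149520894) (nat_lit 228) (nat_lit 32728459923) (nat_lit 304) (nat_lit 72237235029) (nat_lit 143) (nat_lit 5) (nat_lit 146) (nat_lit 5) (nat_lit 147) (nat_lit 5) (nat_lit 492) (nat_lit 448) (nat_lit 260)) (XT.lf (nat_lit 0) (nat_lit 12643710482) (nat_lit 1292) (nat_lit 4767583586) (nat_lit 1292) (nat_lit 4767583586) (nat_lit 327) (nat_lit 3) (nat_lit 344) (nat_lit 3) (nat_lit 344) (nat_lit 5) (nat_lit 449) (nat_lit 449) (nat_lit 302))) (XT.nd (nat_lit 78) (nat_lit 0) (nat_lit 0) (XT.lf (nat_lit 0) (nat_lit 26256822535) (nat_lit 1216) (nat_lit 17648611534) (nat_lit 1292) (nat_lit 1551146126) (nat_lit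 328) (nat_lit 5) (nat_lit 344) (nat_lit 5) (nat_lit 345) (nat_lit 5) (nat_lit 450) (nat_lit 449) (nat_lit 301)) (XT.lf (nat_lit 76) (nat_lit 20658844626) (nat_lit 0) (nat_lit 7261542335) (nat_lit 1292) (nat_lit 18670588739) (nat_lit 329) (nat_lit 5) (nat_lit 328) (nat_lit 5) (nat_lit 345) (nat_lit 5) (nat_lit 451) (nat_lit 449) (nat_lit 300))))))) (XT.nd (nat_lit 1014) (nat_lit 6384) (nat_lit 0) (XT.nd (nat_lit 468) (nat_lit 2508) (nat_lit 0) (XT.nd (nat_lit 234) (nat_lit 988) (nat_lit 0) (XT.nd (nat_lit 78) (nat_lit 0) (nat_lit 76) (XT.lf (nat_lit 76) (nat_lit 13432079036) (nat_lit 0) (nat_lit 16844365414) (nat_lit 1292) (nat_lit 17487367241) (nat_lit 330) (nat_lit 5) (nat_lit 329) (nat_lit 5) (nat_lit 346) (nat_lit 5) (nat_lit 452) (nat_lit 449) (nat_lit 299)) (XT.nd (nat_lit 78) (nat_lit 0) (nat_lit 76) (XT.lf (nat_lit 76) (nat_lit 6151686561) (nat_lit 0) (nat_lit 27206935400) (nat_lit 1292)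 (nat_lit 15618418151) (nat_lit 331) (nat_lit 5) (nat_lit 330) (nat_lit 5) (nat_lit 347) (nat_lit 5) (nat_lit 453) (nat_lit 449) (nat_lit 298)) (XT.lf (nat_lit 0) (nat_lit 37229817277) (nat_lit 1216) (nat_lit 1150256751) (nat_lit 1292) (nat_lit 11851808796) (nat_lit 331) (nat_lit 5) (nat_lit 347) (nat_lit 5) (nat_lit 348) (nat_lit 5) (nat_lit 454) (nat_lit 449) (nat_lit 297)))) (XT.nd (nat_lit 78) (nat_lit 1216) (nat_lit 0) (XT.lf (nat_lit 0) (nat_lit 41992774482) (nat_lit 1216) (nat_lit 8365863393) (nat_lit 1292) (nat_lit 1169883866) (nat_lit 332) (nat_lit 5) (nat_lit 348) (nat_lit 5) (nat_lit 349) (nat_lit 5) (nat_lit 455) (nat_lit 449) (nat_lit 296)) (XT.nd (nat_lit 78) (nat_lit 1216) (nat_lit 0) (XT.lf (nat_lit 76) (nat_lit 37161231625) (nat_lit 0) (nat_lit 10586435921) (nat_lit 1292) (nat_lit 5119711546) (nat_lit 333) (nat_lit 5) (nat_lit 332) (nat_lit 5) (nat_lit 349) (nat_lit 5) (nat_lit 456)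 (nat_lit 449) (nat_lit 295)) (XT.lf (nat_lit 0) (nat_lit 216979332) (nat_lit 1292) (nat_lit 23080147091) (nat_lit 1368) (nat_lit 30955479329) (nat_lit 316) (nat_lit 5) (nat_lit 333) (nat_lit 5) (nat_lit 334) (nat_lit 5) (nat_lit 457) (nat_lit 449) (nat_lit 294))))) (XT.nd (nat_lit 234) (nat_lit 1824) (nat_lit 0) (XT.nd (nat_lit 78) (nat_lit 760) (nat_lit 0) (XT.lf (nat_lit 0) (nat_lit 6410743703) (nat_lit 1292) (nat_lit 30520545949) (nat_lit 1368) (nat_lit 18753399826) (nat_lit 317) (nat_lit 5) (nat_lit 334) (nat_lit 5) (nat_lit 335) (nat_lit 5) (nat_lit 458) (nat_lit 449) (nat_lit 293)) (XT.nd (nat_lit 78) (nat_lit 836) (nat_lit 0) (XT.lf (nat_lit 0) (nat_lit 13626599981) (nat_lit 1292) (nat_lit 37965379536) (nat_lit 76) (nat_lit 5575025869) (nat_lit 318) (nat_lit 5) (nat_lit 335) (nat_lit 5) (nat_lit 319) (nat_lit 5) (nat_lit 459) (nat_lit 449) (nat_lit 292)) (XT.lf (nat_lit 0) (nat_lit 13213567779)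 (nat_lit 836) (nat_lit 8804390337) (nat_lit 912) (nat_lit 36681037802) (nat_lit 307) (nat_lit 5) (nat_lit 318) (nat_lit 5) (nat_lit 319) (nat_lit 5) (nat_lit 460) (nat_lit 449) (nat_lit 291)))) (XT.nd (nat_lit 156) (nat_lit 608) (nat_lit 0) (XT.nd (nat_lit 78) (nat_lit 608) (nat_lit 0) (XT.lf (nat_lit 0) (nat_lit 7236979726) (nat_lit 608) (nat_lit 24401130421) (nat_lit 684) (nat_lit 28645199148) (nat_lit 299) (nat_lit 5) (nat_lit 307) (nat_lit 5) (nat_lit 308) (nat_lit 5) (nat_lit 461) (nat_lit 449) (nat_lit 290)) (XT.lf (nat_lit 0) (nat_lit 1345987813) (nat_lit 608) (nat_lit 41163675340) (nat_lit 684) (nat_lit 19414063476) (nat_lit 291) (nat_lit 5) (nat_lit 299) (nat_lit 5) (nat_lit 300) (nat_lit 5) (nat_lit 462) (nat_lit 449) (nat_lit 289))) (XT.nd (nat_lit 78) (nat_lit 608) (nat_lit 0) (XT.lf (nat_lit 0) (nat_lit 54756865157) (nat_lit 684) (nat_lit 4353557210) (nat_lit 76) (nat_lit 4510780409)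 (nat_lit 291) (nat_lit 5) (nat_lit 300) (nat_lit 5) (nat_lit 292) (nat_lit 5) (nat_lit 463) (nat_lit 449) (nat_lit 288)) (XT.lf (nat_lit 0) (nat_lit 3124543664) (nat_lit 608) (nat_lit 10061507659) (nat_lit 76) (nat_lit 52188217836) (nat_lit 283) (nat_lit 5) (nat_lit 291) (nat_lit 5) (nat_lit 284) (nat_lit 5) (nat_lit 464) (nat_lit 449) (nat_lit 287)))))) (XT.nd (nat_lit 546) (nat_lit 2812) (nat_lit 0) (XT.nd (nat_lit 234) (nat_lit 1900) (nat_lit 0) (XT.nd (nat_lit 78) (nat_lit 1064) (nat_lit 0) (XT.lf (nat_lit 0) (nat_lit 16415132984) (nat_lit 684) (nat_lit 15781309168) (nat_lit 76) (nat_lit 34989346051) (nat_lit 275) (nat_lit 5) (nat_lit 284) (nat_lit 5) (nat_lit 276) (nat_lit 5) (nat_lit 465) (nat_lit 449) (nat_lit 286)) (XT.nd (nat_lit 78) (nat_lit 532) (nat_lit 0) (XT.lf (nat_lit 0) (nat_lit 31227712141) (nat_lit 608) (nat_lit 21361305876) (nat_lit 76) (nat_lit 16473141445) (nat_lit 268) (nat_lit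 5) (nat_lit 276) (nat_lit 5) (nat_lit 269) (nat_lit 5) (nat_lit 466) (nat_lit 449) (nat_lit 285)) (XT.lf (nat_lit 0) (nat_lit 44193239825) (nat_lit 532) (nat_lit 3499731404) (nat_lit 608) (nat_lit 23312016594) (nat_lit 261) (nat_lit 5) (nat_lit 268) (nat_lit 5) (nat_lit 269) (nat_lit 5) (nat_lit 467) (nat_lit 449) (nat_lit 284)))) (XT.nd (nat_lit 156) (nat_lit 912) (nat_lit 0) (XT.nd (nat_lit 78) (nat_lit 532) (nat_lit 0) (XT.lf (nat_lit 0) (nat_lit 40762988406) (nat_lit 456) (nat_lit 25292518820) (nat_lit 532) (nat_lit 6957230026) (nat_lit 255) (nat_lit 5) (nat_lit 261) (nat_lit 5) (nat_lit 262) (nat_lit 5) (nat_lit 468) (nat_lit 449) (nat_lit 283)) (XT.lf (nat_lit 0) (nat_lit 10951566432) (nat_lit 532) (nat_lit 37595059479) (nat_lit 76) (nat_lit 26543234197) (nat_lit 248) (nat_lit 5) (nat_lit 255) (nat_lit 5) (nat_lit 249) (nat_lit 5) (nat_lit 469) (nat_lit 449) (nat_lit 282))) (XT.nd (nat_lit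 78) (nat_lit 456) (nat_lit 0) (XT.lf (nat_lit 0) (nat_lit 30571598354) (nat_lit 532) (nat_lit 42797323569) (nat_lit 76) (nat_lit 3871060284) (nat_lit 242) (nat_lit 5) (nat_lit 249) (nat_lit 5) (nat_lit 243) (nat_lit 5) (nat_lit 470) (nat_lit 449) (nat_lit 281)) (XT.lf (nat_lit 0) (nat_lit 31500824916) (nat_lit 456) (nat_lit 20853880431) (nat_lit 532) (nat_lit 27107442915) (nat_lit 236) (nat_lit 5) (nat_lit 242) (nat_lit 5) (nat_lit 243) (nat_lit 5) (nat_lit 471) (nat_lit 449) (nat_lit 280))))) (XT.nd (nat_lit 234) (nat_lit 1520) (nat_lit 0) (XT.nd (nat_lit 78) (nat_lit 912) (nat_lit 0) (XT.lf (nat_lit 0) (nat_lit 28853173811) (nat_lit 380) (nat_lit 47424146254) (nat_lit 456) (nat_lit 5486592036) (nat_lit 231) (nat_lit 5) (nat_lit 236) (nat_lit 5) (nat_lit 237) (nat_lit 5) (nat_lit 472) (nat_lit 449) (nat_lit 279)) (XT.nd (nat_lit 78) (nat_lit 380) (nat_lit 0) (XT.lf (nat_lit 0) (nat_lit 17924542216)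 (nat_lit 532) (nat_lit 57751322916) (nat_lit 76) (nat_lit 8468579329) (nat_lit 224) (nat_lit 5) (nat_lit 231) (nat_lit 5) (nat_lit 225) (nat_lit 5) (nat_lit 473) (nat_lit 449) (nat_lit 278)) (XT.lf (nat_lit 0) (nat_lit 24068541521) (nat_lit 380) (nat_lit 19583938896) (nat_lit 456) (nat_lit 42952101836) (nat_lit 219) (nat_lit 5) (nat_lit 224) (nat_lit 5) (nat_lit 225) (nat_lit 5) (nat_lit 474) (nat_lit 449) (nat_lit 277)))) (XT.nd (nat_lit 156) (nat_lit 684) (nat_lit 0) (XT.nd (nat_lit 78) (nat_lit 456) (nat_lit 0) (XT.lf (nat_lit 0) (nat_lit 22061188903) (nat_lit 380) (nat_lit 49794596309) (nat_lit 456) (nat_lit 17296272676) (nat_lit 214) (nat_lit 5) (nat_lit 219) (nat_lit 5) (nat_lit 220) (nat_lit 5) (nat_lit 475) (nat_lit 449) (nat_lit 276)) (XT.lf (nat_lit 0) (nat_lit 10593632568) (nat_lit 456) (nat_lit 71400114264) (nat_lit 76) (nat_lit 9796196624) (nat_lit 208) (nat_lit 5) (nat_lit 214) (nat_lit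 5) (nat_lit 209) (nat_lit 5) (nat_lit 476) (nat_lit 449) (nat_lit 275))) (XT.nd (nat_lit 78) (nat_lit 304) (nat_lit 0) (XT.lf (nat_lit 0) (nat_lit 18788369728) (nat_lit 380) (nat_lit 22114648233) (nat_lit 456) (nat_lit 53610086921) (nat_lit 203) (nat_lit 5) (nat_lit 208) (nat_lit 5) (nat_lit 209) (nat_lit 5) (nat_lit 477) (nat_lit 449) (nat_lit 274)) (XT.lf (nat_lit 0) (nat_lit 17569939405) (nat_lit 304) (nat_lit 56459638971) (nat_lit 380) (nat_lit 23303794870) (nat_lit 199) (nat_lit 5) (nat_lit 203) (nat_lit 5) (nat_lit 204) (nat_lit 5) (nat_lit 478) (nat_lit 449) (nat_lit 273))))))))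
noncomputable def xc114 : XT := (XT.nd (nat_lit 61152) (nat_lit 0) (nat_lit 1216) (XT.nd (nat_lit 1014) (nat_lit 228) (nat_lit 0) (XT.nd (nat_lit 468) (nat_lit 1900) (nat_lit 0) (XT.nd (nat_lit 234) (nat_lit 912) (nat_lit 0) (XT.nd (nat_lit 78) (nat_lit 608) (nat_lit 0) (XT.lf (nat_lit 0) (nat_lit 9593313680) (nat_lit 380) (nat_lit 83472715692) (nat_lit 76) (nat_lit 7188917885) (nat_lit 194) (nat_lit 5) (nat_lit 199) (nat_lit 5) (nat_lit 195) (nat_lit 5) (nat_lit 479) (nat_lit 449) (nat_lit 272)) (XT.nd (nat_lit 78) (nat_lit 304) (nat_lit 0) (XT.lf (nat_lit 0) (nat_lit 16021724350) (nat_lit 304) (nat_lit 29187978176) (nat_lit 380) (nat_lit 58059284062) (nat_lit 190) (nat_lit 5) (nat_lit 194) (nat_lit 5) (nat_lit 195) (nat_lit 5) (nat_lit 480) (nat_lit 449) (nat_lit 271)) (XT.lf (nat_lit 0) (nat_lit 15760412552) (nat_lit 304) (nat_lit 68228789410) (nat_lit 380) (nat_lit 22403057222) (nat_lit 186)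 (nat_lit 5) (nat_lit 190) (nat_lit 5) (nat_lit 191) (nat_lit 5) (nat_lit 481) (nat_lit 449) (nat_lit 270)))) (XT.nd (nat_lit 78) (nat_lit 532) (nat_lit 0) (XT.lf (nat_lit 0) (nat_lit 15958609770) (nat_lit 304) (nat_lit 137866960) (nat_lit 380) (nat_lit 93530265599) (nat_lit 181) (nat_lit 5) (nat_lit 185) (nat_lit 5) (nat_lit 186) (nat_lit 5) (nat_lit 482) (nat_lit 449) (nat_lit 269)) (XT.nd (nat_lit 78) (nat_lit 228) (nat_lit 0) (XT.lf (nat_lit 0) (nat_lit 16170134609) (nat_lit 304) (nat_lit 41674315778) (nat_lit 380) (nat_lit 55118241120) (nat_lit 177) (nat_lit 5) (nat_lit 181) (nat_lit 5) (nat_lit 182) (nat_lit 5) (nat_lit 483) (nat_lit 449) (nat_lit 268)) (XT.lf (nat_lit 0) (nat_lit 17054783016) (nat_lit 228) (nat_lit 86049696331) (nat_lit 304) (nat_lit 13318219126) (nat_lit 174) (nat_lit 5) (nat_lit 177) (nat_lit 5) (nat_lit 178) (nat_lit 5) (nat_lit 484) (nat_lit 449) (nat_lit 267))))) (XT.nd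 (nat_lit 234) (nat_lit 988) (nat_lit 0) (XT.nd (nat_lit 78) (nat_lit 532) (nat_lit 0) (XT.lf (nat_lit 0) (nat_lit 18220910006) (nat_lit 304) (nat_lit 13355325928) (nat_lit 380) (nat_lit 88422623691) (nat_lit 169) (nat_lit 5) (nat_lit 173) (nat_lit 5) (nat_lit 174) (nat_lit 5) (nat_lit 485) (nat_lit 449) (nat_lit 266)) (XT.nd (nat_lit 78) (nat_lit 304) (nat_lit 0) (XT.lf (nat_lit 0) (nat_lit 19674957377) (nat_lit 228) (nat_lit 60594066445) (nat_lit 304) (nat_lit 43425977589) (nat_lit 166) (nat_lit 5) (nat_lit 169) (nat_lit 5) (nat_lit 170) (nat_lit 5) (nat_lit 486) (nat_lit 449) (nat_lit 265)) (XT.lf (nat_lit 0) (nat_lit 5311862549) (nat_lit 304) (nat_lit 105665756281) (nat_lit 76) (nat_lit 16550252326) (nat_lit 162) (nat_lit 5) (nat_lit 166) (nat_lit 5) (nat_lit 163) (nat_lit 5) (nat_lit 487) (nat_lit 449) (nat_lit 264)))) (XT.nd (nat_lit 156) (nat_lit 532) (nat_lit 0) (XT.nd (nat_lit 78) (nat_lit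 228) (nat_lit 0) (XT.lf (nat_lit 0) (nat_lit 24100050217) (nat_lit 228) (nat_lit 33420467018) (nat_lit 304) (nat_lit 73961007216) (nat_lit 159) (nat_lit 5) (nat_lit 162) (nat_lit 5) (nat_lit 163) (nat_lit 5) (nat_lit 488) (nat_lit 449) (nat_lit 263)) (XT.lf (nat_lit 0) (nat_lit 27015335060) (nat_lit 228) (nat_lit 87143071776) (nat_lit 304) (nat_lit 21419889529) (nat_lit 156) (nat_lit 5) (nat_lit 159) (nat_lit 5) (nat_lit 160) (nat_lit 5) (nat_lit 489) (nat_lit 449) (nat_lit 262))) (XT.nd (nat_lit 78) (nat_lit 228) (nat_lit 0) (XT.lf (nat_lit 0) (nat_lit 30449182564) (nat_lit 228) (nat_lit 4385994941) (nat_lit 304) (nat_lit 104982633791) (nat_lit 152) (nat_lit 5) (nat_lit 155) (nat_lit 5) (nat_lit 156) (nat_lit 5) (nat_lit 490) (nat_lit 449) (nat_lit 261)) (XT.lf (nat_lit 0) (nat_lit 34088108806) (nat_lit 228) (nat_lit 61624546671) (nat_lit 304) (nat_lit 48482704559) (nat_lit 149) (nat_lit 5) (nat_lit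 152) (nat_lit 5) (nat_lit 153) (nat_lit 5) (nat_lit 491) (nat_lit 449) (nat_lit 260)))))) (XT.nd (nat_lit 59592) (nat_lit 0) (nat_lit 12236) (XT.nd (nat_lit 59358) (nat_lit 0) (nat_lit 13832) (XT.nd (nat_lit 59202) (nat_lit 0) (nat_lit 13756) (XT.lf (nat_lit 0) (nat_lit 12440670595) (nat_lit 228) (nat_lit 110156296007) (nat_lit 76) (nat_lit 26137392356) (nat_lit 146) (nat_lit 5) (nat_lit 149) (nat_lit 5) (nat_lit 147) (nat_lit 5) (nat_lit 492) (nat_lit 449) (nat_lit 259)) (XT.nd (nat_lit 78) (nat_lit 0) (nat_lit 76) (XT.lf (nat_lit 0) (nat_lit 13329595270) (nat_lit 1292) (nat_lit 4978306406) (nat_lit 1292) (nat_lit 4978306406) (nat_lit 327) (nat_lit 3) (nat_lit 344) (nat_lit 3) (nat_lit 344) (nat_lit 5) (nat_lit 450) (nat_lit 450) (nat_lit 300)) (XT.lf (nat_lit 0) (nat_lit 27671992707) (nat_lit 1216) (nat_lit 18473754450) (nat_lit 1292) (nat_lit 1580587456) (nat_lit 328) (nat_lit 5) (nat_lit 344)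 (nat_lit 5) (nat_lit 345) (nat_lit 5) (nat_lit 451) (nat_lit 450) (nat_lit 299)))) (XT.nd (nat_lit 78) (nat_lit 0) (nat_lit 76) (XT.lf (nat_lit 76) (nat_lit 21747432380) (nat_lit 0) (nat_lit 7666965063) (nat_lit 1292) (nat_lit 19503182813) (nat_lit 329) (nat_lit 5) (nat_lit 328) (nat_lit 5) (nat_lit 345) (nat_lit 5) (nat_lit 452) (nat_lit 450) (nat_lit 298)) (XT.nd (nat_lit 78) (nat_lit 0) (nat_lit 76) (XT.lf (nat_lit 76) (nat_lit 14160988660) (nat_lit 0) (nat_lit 17722766089) (nat_lit 1292) (nat_lit 18265438601) (nat_lit 330) (nat_lit 5) (nat_lit 329) (nat_lit 5) (nat_lit 346) (nat_lit 5) (nat_lit 453) (nat_lit 450) (nat_lit 297)) (XT.lf (nat_lit 76) (nat_lit 6518000150) (nat_lit 0) (nat_lit 28597822469) (nat_lit 1292) (nat_lit 16307387333) (nat_lit 331) (nat_lit 5) (nat_lit 330) (nat_lit 5) (nat_lit 347) (nat_lit 5) (nat_lit 454) (nat_lit 450) (nat_lit 296))))) (XT.nd (nat_lit 234) (nat_lit 1824)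 (nat_lit 0) (XT.nd (nat_lit 78) (nat_lit 0) (nat_lit 76) (XT.lf (nat_lit 0) (nat_lit 39176047177) (nat_lit 1216) (nat_lit 1149002924) (nat_lit 1292) (nat_lit 12415880809) (nat_lit 331) (nat_lit 5) (nat_lit 347) (nat_lit 5) (nat_lit 348) (nat_lit 5) (nat_lit 455) (nat_lit 450) (nat_lit 295)) (XT.nd (nat_lit 78) (nat_lit 0) (nat_lit 0) (XT.lf (nat_lit 0) (nat_lit 44173433418) (nat_lit 1216) (nat_lit 8724400817) (nat_lit 1292) (nat_lit 1204679289) (nat_lit 332) (nat_lit 5) (nat_lit 348) (nat_lit 5) (nat_lit 349) (nat_lit 5) (nat_lit 456) (nat_lit 450) (nat_lit 294)) (XT.lf (nat_lit 76) (nat_lit 39077336065) (nat_lit 0) (nat_lit 11135434907) (nat_lit 1292) (nat_lit 5295641949) (nat_lit 333) (nat_lit 5) (nat_lit 332) (nat_lit 5) (nat_lit 349) (nat_lit 5) (nat_lit 457) (nat_lit 450) (nat_lit 293)))) (XT.nd (nat_lit 156) (nat_lit 684) (nat_lit 0) (XT.nd (nat_lit 78) (nat_lit 0) (nat_lit 76) (XT.lf (nat_lit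 0) (nat_lit 302972738) (nat_lit 1292) (nat_lit 24173824679) (nat_lit 1368) (nat_lit 32486181033) (nat_lit 316) (nat_lit 5) (nat_lit 333) (nat_lit 5) (nat_lit 334) (nat_lit 5) (nat_lit 458) (nat_lit 450) (nat_lit 292)) (XT.lf (nat_lit 0) (nat_lit 6803280276) (nat_lit 1292) (nat_lit 31985675786) (nat_lit 1368) (nat_lit 19677804807) (nat_lit 317) (nat_lit 5) (nat_lit 334) (nat_lit 5) (nat_lit 335) (nat_lit 5) (nat_lit 459) (nat_lit 450) (nat_lit 291))) (XT.nd (nat_lit 78) (nat_lit 836) (nat_lit 0) (XT.lf (nat_lit 0) (nat_lit 14376973422) (nat_lit 1292) (nat_lit 39802323521) (nat_lit 76) (nat_lit 5843984455) (nat_lit 318) (nat_lit 5) (nat_lit 335) (nat_lit 5) (nat_lit 319) (nat_lit 5) (nat_lit 460) (nat_lit 450) (nat_lit 290)) (XT.lf (nat_lit 0) (nat_lit 13933813292) (nat_lit 836) (nat_lit 9251370986) (nat_lit 912) (nat_lit 38446768776) (nat_lit 307) (nat_lit 5) (nat_lit 318) (nat_lit 5) (nat_lit 319)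 (nat_lit 5) (nat_lit 461) (nat_lit 450) (nat_lit 289))))))) (XT.nd (nat_lit 1014) (nat_lit 4712) (nat_lit 0) (XT.nd (nat_lit 468) (nat_lit 3344) (nat_lit 0) (XT.nd (nat_lit 234) (nat_lit 1748) (nat_lit 0) (XT.nd (nat_lit 78) (nat_lit 608) (nat_lit 0) (XT.lf (nat_lit 0) (nat_lit 7658687027) (nat_lit 608) (nat_lit 25625011891) (nat_lit 684) (nat_lit 30011862664) (nat_lit 299) (nat_lit 5) (nat_lit 307) (nat_lit 5) (nat_lit 308) (nat_lit 5) (nat_lit 462) (nat_lit 450) (nat_lit 288)) (XT.nd (nat_lit 78) (nat_lit 0) (nat_lit 0) (XT.lf (nat_lit 0) (nat_lit 1473323742) (nat_lit 608) (nat_lit 43223015387) (nat_lit 684) (nat_lit 20321735495) (nat_lit 291) (nat_lit 5) (nat_lit 299) (nat_lit 5) (nat_lit 300) (nat_lit 5) (nat_lit 463) (nat_lit 450) (nat_lit 287)) (XT.lf (nat_lit 0) (nat_lit 57552976704) (nat_lit 684) (nat_lit 4512296032) (nat_lit 76) (nat_lit 4735239700) (nat_lit 291) (nat_lit 5) (nat_lit 300)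 (nat_lit 5) (nat_lit 292) (nat_lit 5) (nat_lit 464) (nat_lit 450) (nat_lit 286)))) (XT.nd (nat_lit 78) (nat_lit 1140) (nat_lit 0) (XT.lf (nat_lit 0) (nat_lit 3337371933) (nat_lit 608) (nat_lit 10506204759) (nat_lit 76) (nat_lit 54797705644) (nat_lit 283) (nat_lit 5) (nat_lit 291) (nat_lit 5) (nat_lit 284) (nat_lit 5) (nat_lit 465) (nat_lit 450) (nat_lit 285)) (XT.nd (nat_lit 78) (nat_lit 532) (nat_lit 0) (XT.lf (nat_lit 0) (nat_lit 17290362179) (nat_lit 684) (nat_lit 16512055745) (nat_lit 76) (nat_lit 36741023373) (nat_lit 275) (nat_lit 5) (nat_lit 284) (nat_lit 5) (nat_lit 276) (nat_lit 5) (nat_lit 466) (nat_lit 450) (nat_lit 284)) (XT.lf (nat_lit 0) (nat_lit 32841561494) (nat_lit 608) (nat_lit 22371189860) (nat_lit 76) (nat_lit 17300940130) (nat_lit 268) (nat_lit 5) (nat_lit 276) (nat_lit 5) (nat_lit 269) (nat_lit 5) (nat_lit 467) (nat_lit 450) (nat_lit 283))))) (XT.nd (nat_lit 234) (nat_lit 1824)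 (nat_lit 0) (XT.nd (nat_lit 78) (nat_lit 988) (nat_lit 0) (XT.lf (nat_lit 0) (nat_lit 46459415371) (nat_lit 532) (nat_lit 3668713135) (nat_lit 608) (nat_lit 24425591506) (nat_lit 261) (nat_lit 5) (nat_lit 268) (nat_lit 5) (nat_lit 269) (nat_lit 5) (nat_lit 468) (nat_lit 450) (nat_lit 282)) (XT.nd (nat_lit 78) (nat_lit 532) (nat_lit 0) (XT.lf (nat_lit 0) (nat_lit 42857449076) (nat_lit 456) (nat_lit 26549533321) (nat_lit 532) (nat_lit 7254928874) (nat_lit 255) (nat_lit 5) (nat_lit 261) (nat_lit 5) (nat_lit 262) (nat_lit 5) (nat_lit 469) (nat_lit 450) (nat_lit 281)) (XT.lf (nat_lit 0) (nat_lit 11546600930) (nat_lit 532) (nat_lit 39417819331) (nat_lit 76) (nat_lit 27878507457) (nat_lit 248) (nat_lit 5) (nat_lit 255) (nat_lit 5) (nat_lit 249) (nat_lit 5) (nat_lit 470) (nat_lit 450) (nat_lit 280)))) (XT.nd (nat_lit 156) (nat_lit 912) (nat_lit 0) (XT.nd (nat_lit 78) (nat_lit 456) (nat_lit 0) (XT.lf (nat_lit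 0) (nat_lit 32145999358) (nat_lit 532) (nat_lit 44880549416) (nat_lit 76) (nat_lit 4074056282) (nat_lit 242) (nat_lit 5) (nat_lit 249) (nat_lit 5) (nat_lit 243) (nat_lit 5) (nat_lit 471) (nat_lit 450) (nat_lit 279)) (XT.lf (nat_lit 0) (nat_lit 33130882909) (nat_lit 456) (nat_lit 21885725689) (nat_lit 532) (nat_lit 28417320487) (nat_lit 236) (nat_lit 5) (nat_lit 242) (nat_lit 5) (nat_lit 243) (nat_lit 5) (nat_lit 472) (nat_lit 450) (nat_lit 278))) (XT.nd (nat_lit 78) (nat_lit 532) (nat_lit 0) (XT.lf (nat_lit 0) (nat_lit 30350459473) (nat_lit 380) (nat_lit 49783415769) (nat_lit 456) (nat_lit 5716950312) (nat_lit 231) (nat_lit 5) (nat_lit 236) (nat_lit 5) (nat_lit 237) (nat_lit 5) (nat_lit 473) (nat_lit 450) (nat_lit 277)) (XT.lf (nat_lit 0) (nat_lit 18862466085) (nat_lit 532) (nat_lit 60583862813) (nat_lit 76) (nat_lit 8904085518) (nat_lit 224) (nat_lit 5) (nat_lit 231) (nat_lit 5) (nat_lit 225) (nat_lit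 5) (nat_lit 474) (nat_lit 450) (nat_lit 276)))))) (XT.nd (nat_lit 546) (nat_lit 2128) (nat_lit 0) (XT.nd (nat_lit 234) (nat_lit 1368) (nat_lit 0) (XT.nd (nat_lit 78) (nat_lit 836) (nat_lit 0) (XT.lf (nat_lit 0) (nat_lit 25325417529) (nat_lit 380) (nat_lit 20549911891) (nat_lit 456) (nat_lit 45058273896) (nat_lit 219) (nat_lit 5) (nat_lit 224) (nat_lit 5) (nat_lit 225) (nat_lit 5) (nat_lit 475) (nat_lit 450) (nat_lit 275)) (XT.nd (nat_lit 78) (nat_lit 456) (nat_lit 0) (XT.lf (nat_lit 0) (nat_lit 23217215126) (nat_lit 380) (nat_lit 52270299066) (nat_lit 456) (nat_lit 18120977161) (nat_lit 214) (nat_lit 5) (nat_lit 219) (nat_lit 5) (nat_lit 220) (nat_lit 5) (nat_lit 476) (nat_lit 450) (nat_lit 274)) (XT.lf (nat_lit 0) (nat_lit 11161406876) (nat_lit 456) (nat_lit 74916907280) (nat_lit 76) (nat_lit 10299982546) (nat_lit 208) (nat_lit 5) (nat_lit 214) (nat_lit 5) (nat_lit 209) (nat_lit 5) (nat_lit 477)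 (nat_lit 450) (nat_lit 273)))) (XT.nd (nat_lit 156) (nat_lit 684) (nat_lit 0) (XT.nd (nat_lit 78) (nat_lit 304) (nat_lit 0) (XT.lf (nat_lit 0) (nat_lit 19779475580) (nat_lit 380) (nat_lit 23205468873) (nat_lit 456) (nat_lit 56252711315) (nat_lit 203) (nat_lit 5) (nat_lit 208) (nat_lit 5) (nat_lit 209) (nat_lit 5) (nat_lit 478) (nat_lit 450) (nat_lit 272)) (XT.lf (nat_lit 0) (nat_lit 18499575603) (nat_lit 304) (nat_lit 59267134163) (nat_lit 380) (nat_lit 24432261529) (nat_lit 199) (nat_lit 5) (nat_lit 203) (nat_lit 5) (nat_lit 204) (nat_lit 5) (nat_lit 479) (nat_lit 450) (nat_lit 271))) (XT.nd (nat_lit 78) (nat_lit 304) (nat_lit 0) (XT.lf (nat_lit 0) (nat_lit 10107905347) (nat_lit 380) (nat_lit 87595086765) (nat_lit 76) (nat_lit 7563653768) (nat_lit 194) (nat_lit 5) (nat_lit 199) (nat_lit 5) (nat_lit 195) (nat_lit 5) (nat_lit 480) (nat_lit 450) (nat_lit 270)) (XT.lf (nat_lit 0) (nat_lit 16872605786)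 (nat_lit 304) (nat_lit 30631323370) (nat_lit 380) (nat_lit 60927493602) (nat_lit 190) (nat_lit 5) (nat_lit 194) (nat_lit 5) (nat_lit 195) (nat_lit 5) (nat_lit 481) (nat_lit 450) (nat_lit 269))))) (XT.nd (nat_lit 234) (nat_lit 1140) (nat_lit 0) (XT.nd (nat_lit 78) (nat_lit 684) (nat_lit 0) (XT.lf (nat_lit 0) (nat_lit 16597635251) (nat_lit 304) (nat_lit 71623781503) (nat_lit 380) (nat_lit 23489471877) (nat_lit 186) (nat_lit 5) (nat_lit 190) (nat_lit 5) (nat_lit 191) (nat_lit 5) (nat_lit 482) (nat_lit 450) (nat_lit 268)) (XT.nd (nat_lit 78) (nat_lit 304) (nat_lit 0) (XT.lf (nat_lit 0) (nat_lit 16804972266) (nat_lit 304) (nat_lit 128298480) (nat_lit 380) (nat_lit 98173848788) (nat_lit 181) (nat_lit 5) (nat_lit 185) (nat_lit 5) (nat_lit 186) (nat_lit 5) (nat_lit 483) (nat_lit 450) (nat_lit 267)) (XT.lf (nat_lit 0) (nat_lit 17026463744) (nat_lit 304) (nat_lit 43741267357) (nat_lit 380) (nat_lit 57842162468)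 (nat_lit 177) (nat_lit 5) (nat_lit 181) (nat_lit 5) (nat_lit 182) (nat_lit 5) (nat_lit 484) (nat_lit 450) (nat_lit 266)))) (XT.nd (nat_lit 156) (nat_lit 532) (nat_lit 0) (XT.nd (nat_lit 78) (nat_lit 380) (nat_lit 0) (XT.lf (nat_lit 0) (nat_lit 17954723005) (nat_lit 228) (nat_lit 90335166739) (nat_lit 304) (nat_lit 13953037328) (nat_lit 174) (nat_lit 5) (nat_lit 177) (nat_lit 5) (nat_lit 178) (nat_lit 5) (nat_lit 485) (nat_lit 450) (nat_lit 265)) (XT.lf (nat_lit 0) (nat_lit 19178393371) (nat_lit 304) (nat_lit 14006135055) (nat_lit 380) (nat_lit 92813389083) (nat_lit 169) (nat_lit 5) (nat_lit 173) (nat_lit 5) (nat_lit 174) (nat_lit 5) (nat_lit 486) (nat_lit 450) (nat_lit 264))) (XT.nd (nat_lit 78) (nat_lit 304) (nat_lit 0) (XT.lf (nat_lit 0) (nat_lit 20704513374) (nat_lit 228) (nat_lit 63606634069) (nat_lit 304) (nat_lit 45567743223) (nat_lit 166) (nat_lit 5) (nat_lit 169) (nat_lit 5) (nat_lit 170)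 (nat_lit 5) (nat_lit 487) (nat_lit 450) (nat_lit 263)) (XT.lf (nat_lit 0) (nat_lit 5605630661) (nat_lit 304) (nat_lit 110903311571) (nat_lit 76) (nat_lit 17394476637) (nat_lit 162) (nat_lit 5) (nat_lit 166) (nat_lit 5) (nat_lit 163) (nat_lit 5) (nat_lit 488) (nat_lit 450) (nat_lit 262))))))))
noncomputable def xc115 : XT := (XT.nd (nat_lit 61308) (nat_lit 0) (nat_lit 304) (XT.nd (nat_lit 60294) (nat_lit 0) (nat_lit 6384) (XT.nd (nat_lit 59748) (nat_lit 0) (nat_lit 12464) (XT.nd (nat_lit 59514) (nat_lit 0) (nat_lit 13300) (XT.nd (nat_lit 78) (nat_lit 532) (nat_lit 0) (XT.lf (nat_lit 0) (nat_lit 25349474338) (nat_lit 228) (nat_lit 35074329085) (nat_lit 304) (nat_lit 77630978874) (nat_lit 159) (nat_lit 5) (nat_lit 162) (nat_lit 5) (nat_lit 163) (nat_lit 5) (nat_lit 489) (nat_lit 450) (nat_lit 261)) (XT.nd (nat_lit 78) (nat_lit 304) (nat_lit 0) (XT.lf (nat_lit 0) (nat_lit 28409884768) (nat_lit 228)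 (nat_lit 91482982603) (nat_lit 304) (nat_lit 22463547066) (nat_lit 156) (nat_lit 5) (nat_lit 159) (nat_lit 5) (nat_lit 160) (nat_lit 5) (nat_lit 490) (nat_lit 450) (nat_lit 260)) (XT.lf (nat_lit 0) (nat_lit 32014688278) (nat_lit 228) (nat_lit 4588189032) (nat_lit 304) (nat_lit 110205045824) (nat_lit 152) (nat_lit 5) (nat_lit 155) (nat_lit 5) (nat_lit 156) (nat_lit 5) (nat_lit 491) (nat_lit 450) (nat_lit 259)))) (XT.nd (nat_lit 78) (nat_lit 0) (nat_lit 76) (XT.lf (nat_lit 0) (nat_lit 14044781849) (nat_lit 1292) (nat_lit 5202136592) (nat_lit 1292) (nat_lit 5202136592) (nat_lit 327) (nat_lit 3) (nat_lit 344) (nat_lit 3) (nat_lit 344) (nat_lit 5) (nat_lit 451) (nat_lit 451) (nat_lit 298)) (XT.nd (nat_lit 78) (nat_lit 0) (nat_lit 0) (XT.lf (nat_lit 0) (nat_lit 29148407804) (nat_lit 1216) (nat_lit 19345480575) (nat_lit 1292) (nat_lit 1615974220) (nat_lit 328) (nat_lit 5) (nat_lit 344) (nat_lit 5) (nat_lit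 345) (nat_lit 5) (nat_lit 452) (nat_lit 451) (nat_lit 297)) (XT.lf (nat_lit 76) (nat_lit 22885276128) (nat_lit 0) (nat_lit 8088722034) (nat_lit 1292) (nat_lit 20386790604) (nat_lit 329) (nat_lit 5) (nat_lit 328) (nat_lit 5) (nat_lit 345) (nat_lit 5) (nat_lit 453) (nat_lit 451) (nat_lit 296))))) (XT.nd (nat_lit 234) (nat_lit 988) (nat_lit 0) (XT.nd (nat_lit 78) (nat_lit 0) (nat_lit 76) (XT.lf (nat_lit 76) (nat_lit 14921016027) (nat_lit 0) (nat_lit 18641722902) (nat_lit 1292) (nat_lit 19091366313) (nat_lit 330) (nat_lit 5) (nat_lit 329) (nat_lit 5) (nat_lit 346) (nat_lit 5) (nat_lit 454) (nat_lit 451) (nat_lit 295)) (XT.nd (nat_lit 78) (nat_lit 0) (nat_lit 76) (XT.lf (nat_lit 76) (nat_lit 6897169328) (nat_lit 0) (nat_lit 30055414544) (nat_lit 1292) (nat_lit 17039353774) (nat_lit 331) (nat_lit 5) (nat_lit 330) (nat_lit 5) (nat_lit 347) (nat_lit 5) (nat_lit 455) (nat_lit 451) (nat_lit 294)) (XT.lf (nat_lit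 0) (nat_lit 41211710340) (nat_lit 1216) (nat_lit 1153149973) (nat_lit 1292) (nat_lit 13010807796) (nat_lit 331) (nat_lit 5) (nat_lit 347) (nat_lit 5) (nat_lit 348) (nat_lit 5) (nat_lit 456) (nat_lit 451) (nat_lit 293)))) (XT.nd (nat_lit 156) (nat_lit 1216) (nat_lit 0) (XT.nd (nat_lit 78) (nat_lit 0) (nat_lit 0) (XT.lf (nat_lit 0) (nat_lit 46455592809) (nat_lit 1216) (nat_lit 9106420635) (nat_lit 1292) (nat_lit 1243417769) (nat_lit 332) (nat_lit 5) (nat_lit 348) (nat_lit 5) (nat_lit 349) (nat_lit 5) (nat_lit 457) (nat_lit 451) (nat_lit 292)) (XT.lf (nat_lit 76) (nat_lit 41083849453) (nat_lit 0) (nat_lit 11710054444) (nat_lit 1292) (nat_lit 5487811644) (nat_lit 333) (nat_lit 5) (nat_lit 332) (nat_lit 5) (nat_lit 349) (nat_lit 5) (nat_lit 458) (nat_lit 451) (nat_lit 291))) (XT.nd (nat_lit 78) (nat_lit 0) (nat_lit 76) (XT.lf (nat_lit 0) (nat_lit 386279597) (nat_lit 1292) (nat_lit 25327795036) (nat_lit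 1368) (nat_lit 34095005038) (nat_lit 316) (nat_lit 5) (nat_lit 333) (nat_lit 5) (nat_lit 334) (nat_lit 5) (nat_lit 459) (nat_lit 451) (nat_lit 290)) (XT.lf (nat_lit 0) (nat_lit 7208749856) (nat_lit 1292) (nat_lit 33529723783) (nat_lit 1368) (nat_lit 20649663292) (nat_lit 317) (nat_lit 5) (nat_lit 334) (nat_lit 5) (nat_lit 335) (nat_lit 5) (nat_lit 460) (nat_lit 451) (nat_lit 289)))))) (XT.nd (nat_lit 468) (nat_lit 3572) (nat_lit 0) (XT.nd (nat_lit 234) (nat_lit 1216) (nat_lit 0) (XT.nd (nat_lit 78) (nat_lit 1444) (nat_lit 0) (XT.lf (nat_lit 0) (nat_lit 15158446530) (nat_lit 1292) (nat_lit 41736816121) (nat_lit 76) (nat_lit 6127301403) (nat_lit 318) (nat_lit 5) (nat_lit 335) (nat_lit 5) (nat_lit 319) (nat_lit 5) (nat_lit 461) (nat_lit 451) (nat_lit 288)) (XT.nd (nat_lit 78) (nat_lit 608) (nat_lit 0) (XT.lf (nat_lit 0) (nat_lit 14684533093) (nat_lit 836) (nat_lit 9720072080) (nat_lit 912) (nat_lit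 40307138130) (nat_lit 307) (nat_lit 5) (nat_lit 318) (nat_lit 5) (nat_lit 319) (nat_lit 5) (nat_lit 462) (nat_lit 451) (nat_lit 287)) (XT.lf (nat_lit 0) (nat_lit 8095914634) (nat_lit 608) (nat_lit 26909731827) (nat_lit 684) (nat_lit 31452957891) (nat_lit 299) (nat_lit 5) (nat_lit 307) (nat_lit 5) (nat_lit 308) (nat_lit 5) (nat_lit 463) (nat_lit 451) (nat_lit 286)))) (XT.nd (nat_lit 78) (nat_lit 608) (nat_lit 0) (XT.lf (nat_lit 0) (nat_lit 1601444839) (nat_lit 608) (nat_lit 45385214936) (nat_lit 684) (nat_lit 21280651154) (nat_lit 291) (nat_lit 5) (nat_lit 299) (nat_lit 5) (nat_lit 300) (nat_lit 5) (nat_lit 464) (nat_lit 451) (nat_lit 285)) (XT.nd (nat_lit 78) (nat_lit 608) (nat_lit 0) (XT.lf (nat_lit 0) (nat_lit 60483476595) (nat_lit 684) (nat_lit 4684451389) (nat_lit 76) (nat_lit 4971022338) (nat_lit 291) (nat_lit 5) (nat_lit 300) (nat_lit 5) (nat_lit 292) (nat_lit 5) (nat_lit 465) (nat_lit 451)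 (nat_lit 284)) (XT.lf (nat_lit 0) (nat_lit 3555579384) (nat_lit 608) (nat_lit 10978564174) (nat_lit 76) (nat_lit 57537660692) (nat_lit 283) (nat_lit 5) (nat_lit 291) (nat_lit 5) (nat_lit 284) (nat_lit 5) (nat_lit 466) (nat_lit 451) (nat_lit 283))))) (XT.nd (nat_lit 234) (nat_lit 1900) (nat_lit 0) (XT.nd (nat_lit 78) (nat_lit 1064) (nat_lit 0) (XT.lf (nat_lit 0) (nat_lit 18204288492) (nat_lit 684) (nat_lit 17284761589) (nat_lit 76) (nat_lit 38580079093) (nat_lit 275) (nat_lit 5) (nat_lit 284) (nat_lit 5) (nat_lit 276) (nat_lit 5) (nat_lit 467) (nat_lit 451) (nat_lit 282)) (XT.nd (nat_lit 78) (nat_lit 532) (nat_lit 0) (XT.lf (nat_lit 0) (nat_lit 34531225733) (nat_lit 608) (nat_lit 23436977189) (nat_lit 76) (nat_lit 18169743702) (nat_lit 268) (nat_lit 5) (nat_lit 276) (nat_lit 5) (nat_lit 269) (nat_lit 5) (nat_lit 468) (nat_lit 451) (nat_lit 281)) (XT.lf (nat_lit 0) (nat_lit 48833645600) (nat_lit 532)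 (nat_lit 3846702225) (nat_lit 608) (nat_lit 25599682040) (nat_lit 261) (nat_lit 5) (nat_lit 268) (nat_lit 5) (nat_lit 269) (nat_lit 5) (nat_lit 469) (nat_lit 451) (nat_lit 280)))) (XT.nd (nat_lit 156) (nat_lit 912) (nat_lit 0) (XT.nd (nat_lit 78) (nat_lit 532) (nat_lit 0) (XT.lf (nat_lit 0) (nat_lit 45051397494) (nat_lit 456) (nat_lit 27870106186) (nat_lit 532) (nat_lit 7572176312) (nat_lit 255) (nat_lit 5) (nat_lit 261) (nat_lit 5) (nat_lit 262) (nat_lit 5) (nat_lit 470) (nat_lit 451) (nat_lit 279)) (XT.lf (nat_lit 0) (nat_lit 12166975128) (nat_lit 532) (nat_lit 41337015855) (nat_lit 76) (nat_lit 29279790246) (nat_lit 248) (nat_lit 5) (nat_lit 255) (nat_lit 5) (nat_lit 249) (nat_lit 5) (nat_lit 471) (nat_lit 451) (nat_lit 278))) (XT.nd (nat_lit 78) (nat_lit 456) (nat_lit 0) (XT.lf (nat_lit 0) (nat_lit 33794860401) (nat_lit 532) (nat_lit 47073202437) (nat_lit 76) (nat_lit 4286324162) (nat_lit 242)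 (nat_lit 5) (nat_lit 249) (nat_lit 5) (nat_lit 243) (nat_lit 5) (nat_lit 472) (nat_lit 451) (nat_lit 277)) (XT.lf (nat_lit 0) (nat_lit 34837328867) (nat_lit 456) (nat_lit 22970171825) (nat_lit 532) (nat_lit 29796921591) (nat_lit 236) (nat_lit 5) (nat_lit 242) (nat_lit 5) (nat_lit 243) (nat_lit 5) (nat_lit 473) (nat_lit 451) (nat_lit 276))))))) (XT.nd (nat_lit 1014) (nat_lit 1368) (nat_lit 0) (XT.nd (nat_lit 468) (nat_lit 2204) (nat_lit 0) (XT.nd (nat_lit 234) (nat_lit 1216) (nat_lit 0) (XT.nd (nat_lit 78) (nat_lit 912) (nat_lit 0) (XT.lf (nat_lit 0) (nat_lit 31917530720) (nat_lit 380) (nat_lit 52261758623) (nat_lit 456) (nat_lit 5962914539) (nat_lit 231) (nat_lit 5) (nat_lit 236) (nat_lit 5) (nat_lit 237) (nat_lit 5) (nat_lit 474) (nat_lit 451) (nat_lit 275)) (XT.nd (nat_lit 78) (nat_lit 380) (nat_lit 0) (XT.lf (nat_lit 0) (nat_lit 19843409577) (nat_lit 532) (nat_lit 63563145525) (nat_lit 76) (nat_lit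 9360244190) (nat_lit 224) (nat_lit 5) (nat_lit 231) (nat_lit 5) (nat_lit 225) (nat_lit 5) (nat_lit 475) (nat_lit 451) (nat_lit 274)) (XT.lf (nat_lit 0) (nat_lit 26640168162) (nat_lit 380) (nat_lit 21565412973) (nat_lit 456) (nat_lit 47273606610) (nat_lit 219) (nat_lit 5) (nat_lit 224) (nat_lit 5) (nat_lit 225) (nat_lit 5) (nat_lit 476) (nat_lit 451) (nat_lit 273)))) (XT.nd (nat_lit 78) (nat_lit 836) (nat_lit 0) (XT.lf (nat_lit 0) (nat_lit 24426118311) (nat_lit 380) (nat_lit 54871091064) (nat_lit 456) (nat_lit 18990645838) (nat_lit 214) (nat_lit 5) (nat_lit 219) (nat_lit 5) (nat_lit 220) (nat_lit 5) (nat_lit 477) (nat_lit 451) (nat_lit 272)) (XT.nd (nat_lit 78) (nat_lit 380) (nat_lit 0) (XT.lf (nat_lit 0) (nat_lit 11754028404) (nat_lit 456) (nat_lit 78614487159) (nat_lit 76) (nat_lit 10827658400) (nat_lit 208) (nat_lit 5) (nat_lit 214) (nat_lit 5) (nat_lit 209) (nat_lit 5) (nat_lit 478) (nat_lit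 451) (nat_lit 271)) (XT.lf (nat_lit 0) (nat_lit 20815331323) (nat_lit 380) (nat_lit 24352216900) (nat_lit 456) (nat_lit 59030988648) (nat_lit 203) (nat_lit 5) (nat_lit 208) (nat_lit 5) (nat_lit 209) (nat_lit 5) (nat_lit 479) (nat_lit 451) (nat_lit 270))))) (XT.nd (nat_lit 234) (nat_lit 1216) (nat_lit 0) (XT.nd (nat_lit 78) (nat_lit 684) (nat_lit 0) (XT.lf (nat_lit 0) (nat_lit 19470939170) (nat_lit 304) (nat_lit 62216443927) (nat_lit 380) (nat_lit 25620565685) (nat_lit 199) (nat_lit 5) (nat_lit 203) (nat_lit 5) (nat_lit 204) (nat_lit 5) (nat_lit 480) (nat_lit 451) (nat_lit 269)) (XT.nd (nat_lit 78) (nat_lit 304) (nat_lit 0) (XT.lf (nat_lit 0) (nat_lit 10644979510) (nat_lit 380) (nat_lit 91928342499) (nat_lit 76) (nat_lit 7955704926) (nat_lit 194) (nat_lit 5) (nat_lit 199) (nat_lit 5) (nat_lit 195) (nat_lit 5) (nat_lit 481) (nat_lit 451) (nat_lit 268)) (XT.lf (nat_lit 0) (nat_lit 17761401807) (nat_lit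 304) (nat_lit 32148328345) (nat_lit 380) (nat_lit 63942344779) (nat_lit 190) (nat_lit 5) (nat_lit 194) (nat_lit 5) (nat_lit 195) (nat_lit 5) (nat_lit 482) (nat_lit 451) (nat_lit 267)))) (XT.nd (nat_lit 156) (nat_lit 532) (nat_lit 0) (XT.nd (nat_lit 78) (nat_lit 380) (nat_lit 0) (XT.lf (nat_lit 0) (nat_lit 17472144743) (nat_lit 304) (nat_lit 75190052323) (nat_lit 380) (nat_lit 24633343922) (nat_lit 186) (nat_lit 5) (nat_lit 190) (nat_lit 5) (nat_lit 191) (nat_lit 5) (nat_lit 483) (nat_lit 451) (nat_lit 266)) (XT.lf (nat_lit 0) (nat_lit 17689150139) (nat_lit 304) (nat_lit 119782041) (nat_lit 380) (nat_lit 103052672665) (nat_lit 181) (nat_lit 5) (nat_lit 185) (nat_lit 5) (nat_lit 186) (nat_lit 5) (nat_lit 484) (nat_lit 451) (nat_lit 265))) (XT.nd (nat_lit 78) (nat_lit 228) (nat_lit 0) (XT.lf (nat_lit 0) (nat_lit 17921163262) (nat_lit 304) (nat_lit 45913125093) (nat_lit 380) (nat_lit 60705254077) (nat_lit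 177) (nat_lit 5) (nat_lit 181) (nat_lit 5) (nat_lit 182) (nat_lit 5) (nat_lit 485) (nat_lit 451) (nat_lit 264)) (XT.lf (nat_lit 0) (nat_lit 18895271708) (nat_lit 228) (nat_lit 94836492506) (nat_lit 304) (nat_lit 14622487150) (nat_lit 174) (nat_lit 5) (nat_lit 177) (nat_lit 5) (nat_lit 178) (nat_lit 5) (nat_lit 486) (nat_lit 451) (nat_lit 263)))))) (XT.nd (nat_lit 59904) (nat_lit 0) (nat_lit 12160) (XT.nd (nat_lit 234) (nat_lit 456) (nat_lit 0) (XT.nd (nat_lit 78) (nat_lit 532) (nat_lit 0) (XT.lf (nat_lit 0) (nat_lit 20179433552) (nat_lit 304) (nat_lit 14691061156) (nat_lit 380) (nat_lit 97426515868) (nat_lit 169) (nat_lit 5) (nat_lit 173) (nat_lit 5) (nat_lit 174) (nat_lit 5) (nat_lit 487) (nat_lit 451) (nat_lit 262)) (XT.nd (nat_lit 78) (nat_lit 304) (nat_lit 0) (XT.lf (nat_lit 0) (nat_lit 21781288366) (nat_lit 228) (nat_lit 66771423188) (nat_lit 304) (nat_lit 47819342859) (nat_lit 166) (nat_lit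 5) (nat_lit 169) (nat_lit 5) (nat_lit 170) (nat_lit 5) (nat_lit 488) (nat_lit 451) (nat_lit 261)) (XT.lf (nat_lit 0) (nat_lit 5911467736) (nat_lit 304) (nat_lit 116406996402) (nat_lit 76) (nat_lit 18279358469) (nat_lit 162) (nat_lit 5) (nat_lit 166) (nat_lit 5) (nat_lit 163) (nat_lit 5) (nat_lit 489) (nat_lit 451) (nat_lit 260)))) (XT.nd (nat_lit 59514) (nat_lit 0) (nat_lit 12996) (XT.nd (nat_lit 78) (nat_lit 228) (nat_lit 0) (XT.lf (nat_lit 0) (nat_lit 26657239765) (nat_lit 228) (nat_lit 36812479749) (nat_lit 304) (nat_lit 81487059607) (nat_lit 159) (nat_lit 5) (nat_lit 162) (nat_lit 5) (nat_lit 163) (nat_lit 5) (nat_lit 490) (nat_lit 451) (nat_lit 259)) (XT.lf (nat_lit 0) (nat_lit 29870091438) (nat_lit 228) (nat_lit 96041492040) (nat_lit 304) (nat_lit 23561929011) (nat_lit 156) (nat_lit 5) (nat_lit 159) (nat_lit 5) (nat_lit 160) (nat_lit 5) (nat_lit 491) (nat_lit 451) (nat_lit 258))) (XT.nd (nat_lit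 78) (nat_lit 0) (nat_lit 76) (XT.lf (nat_lit 0) (nat_lit 14791199459) (nat_lit 1292) (nat_lit 5439490466) (nat_lit 1292) (nat_lit 5439490466) (nat_lit 327) (nat_lit 3) (nat_lit 344) (nat_lit 3) (nat_lit 344) (nat_lit 5) (nat_lit 452) (nat_lit 452) (nat_lit 296)) (XT.lf (nat_lit 0) (nat_lit 30690014553) (nat_lit 1216) (nat_lit 20265623903) (nat_lit 1292) (nat_lit 1657187798) (nat_lit 328) (nat_lit 5) (nat_lit 344) (nat_lit 5) (nat_lit 345) (nat_lit 5) (nat_lit 453) (nat_lit 452) (nat_lit 295))))) (XT.nd (nat_lit 234) (nat_lit 912) (nat_lit 0) (XT.nd (nat_lit 78) (nat_lit 0) (nat_lit 76) (XT.lf (nat_lit 76) (nat_lit 24075319643) (nat_lit 0) (nat_lit 8527995974) (nat_lit 1292) (nat_lit 21323090362) (nat_lit 329) (nat_lit 5) (nat_lit 328) (nat_lit 5) (nat_lit 345) (nat_lit 5) (nat_lit 454) (nat_lit 452) (nat_lit 294)) (XT.nd (nat_lit 78) (nat_lit 0) (nat_lit 76) (XT.lf (nat_lit 76) (nat_lit 15714212347)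 (nat_lit 0) (nat_lit 19603576401) (nat_lit 1292) (nat_lit 19966710847) (nat_lit 330) (nat_lit 5) (nat_lit 329) (nat_lit 5) (nat_lit 346) (nat_lit 5) (nat_lit 455) (nat_lit 452) (nat_lit 293)) (XT.lf (nat_lit 76) (nat_lit 7290344503) (nat_lit 0) (nat_lit 31583310852) (nat_lit 1292) (nat_lit 17815672551) (nat_lit 331) (nat_lit 5) (nat_lit 330) (nat_lit 5) (nat_lit 347) (nat_lit 5) (nat_lit 456) (nat_lit 452) (nat_lit 292)))) (XT.nd (nat_lit 156) (nat_lit 1140) (nat_lit 0) (XT.nd (nat_lit 78) (nat_lit 0) (nat_lit 76) (XT.lf (nat_lit 0) (nat_lit 43342010872) (nat_lit 1216) (nat_lit 1162459991) (nat_lit 1292) (nat_lit 13637886005) (nat_lit 331) (nat_lit 5) (nat_lit 347) (nat_lit 5) (nat_lit 348) (nat_lit 5) (nat_lit 457) (nat_lit 452) (nat_lit 291)) (XT.lf (nat_lit 0) (nat_lit 48845027978) (nat_lit 1216) (nat_lit 9512580466) (nat_lit 1292) (nat_lit 1286091620) (nat_lit 332) (nat_lit 5) (nat_lit 348)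 (nat_lit 5) (nat_lit 349) (nat_lit 5) (nat_lit 458) (nat_lit 452) (nat_lit 290))) (XT.nd (nat_lit 78) (nat_lit 1216) (nat_lit 0) (XT.lf (nat_lit 76) (nat_lit 43185793930) (nat_lit 0) (nat_lit 12311745640) (nat_lit 1292) (nat_lit 5696340636) (nat_lit 333) (nat_lit 5) (nat_lit 332) (nat_lit 5) (nat_lit 349) (nat_lit 5) (nat_lit 459) (nat_lit 452) (nat_lit 289)) (XT.lf (nat_lit 0) (nat_lit 467415094) (nat_lit 1292) (nat_lit 26544551339) (nat_lit 1368) (nat_lit 35785709897) (nat_lit 316) (nat_lit 5) (nat_lit 333) (nat_lit 5) (nat_lit 334) (nat_lit 5) (nat_lit 460) (nat_lit 452) (nat_lit 288))))))))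
noncomputable def xc116 : XT := (XT.nd (nat_lit 2028) (nat_lit 1368) (nat_lit 0) (XT.nd (nat_lit 1014) (nat_lit 4940) (nat_lit 0) (XT.nd (nat_lit 468) (nat_lit 3724) (nat_lit 0) (XT.nd (nat_lit 234) (nat_lit 1216) (nat_lit 0) (XT.nd (nat_lit 78) (nat_lit 760) (nat_lit 0) (XT.lf (nat_lit 0) (nat_lit 7628421423) (nat_lit 1292) (nat_lit 35156109481) (nat_lit 1368) (nat_lit 21671233300) (nat_lit 317) (nat_lit 5) (nat_lit 334) (nat_lit 5) (nat_lit 335) (nat_lit 5) (nat_lit 461) (nat_lit 452) (nat_lit 287)) (XT.nd (nat_lit 78) (nat_lit 836) (nat_lit 0) (XT.lf (nat_lit 0) (nat_lit 15973171067) (nat_lit 1292) (nat_lit 43773204705) (nat_lit 76) (nat_lit 6425609988) (nat_lit 318) (nat_lit 5) (nat_lit 335) (nat_lit 5) (nat_lit 319) (nat_lit 5) (nat_lit 462) (nat_lit 452) (nat_lit 286)) (XT.lf (nat_lit 0) (nat_lit 15467765767) (nat_lit 836) (nat_lit 10211638084) (nat_lit 912) (nat_lit 42266287250) (nat_lit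 307) (nat_lit 5) (nat_lit 318) (nat_lit 5) (nat_lit 319) (nat_lit 5) (nat_lit 463) (nat_lit 452) (nat_lit 285)))) (XT.nd (nat_lit 78) (nat_lit 608) (nat_lit 0) (XT.lf (nat_lit 0) (nat_lit 8549955949) (nat_lit 608) (nat_lit 28258365213) (nat_lit 684) (nat_lit 32971639431) (nat_lit 299) (nat_lit 5) (nat_lit 307) (nat_lit 5) (nat_lit 308) (nat_lit 5) (nat_lit 464) (nat_lit 452) (nat_lit 284)) (XT.nd (nat_lit 78) (nat_lit 0) (nat_lit 0) (XT.lf (nat_lit 0) (nat_lit 1730909290) (nat_lit 608) (nat_lit 47655426957) (nat_lit 684) (nat_lit 22292827824) (nat_lit 291) (nat_lit 5) (nat_lit 299) (nat_lit 5) (nat_lit 300) (nat_lit 5) (nat_lit 465) (nat_lit 452) (nat_lit 283)) (XT.lf (nat_lit 0) (nat_lit 63555587890) (nat_lit 684) (nat_lit 4870184666) (nat_lit 76) (nat_lit 5218685159) (nat_lit 291) (nat_lit 5) (nat_lit 300) (nat_lit 5) (nat_lit 292) (nat_lit 5) (nat_lit 466) (nat_lit 452) (nat_lit 282))))) (XT.nd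 (nat_lit 234) (nat_lit 1976) (nat_lit 0) (XT.nd (nat_lit 78) (nat_lit 1140) (nat_lit 0) (XT.lf (nat_lit 0) (nat_lit 3779924207) (nat_lit 608) (nat_lit 11479464425) (nat_lit 76) (nat_lit 60414607006) (nat_lit 283) (nat_lit 5) (nat_lit 291) (nat_lit 5) (nat_lit 284) (nat_lit 5) (nat_lit 467) (nat_lit 452) (nat_lit 281)) (XT.nd (nat_lit 78) (nat_lit 532) (nat_lit 0) (XT.lf (nat_lit 0) (nat_lit 19159317615) (nat_lit 684) (nat_lit 18101020581) (nat_lit 76) (nat_lit 40510901236) (nat_lit 275) (nat_lit 5) (nat_lit 284) (nat_lit 5) (nat_lit 276) (nat_lit 5) (nat_lit 468) (nat_lit 452) (nat_lit 280)) (XT.lf (nat_lit 0) (nat_lit 36300949073) (nat_lit 608) (nat_lit 24560960141) (nat_lit 76) (nat_lit 19081638203) (nat_lit 268) (nat_lit 5) (nat_lit 276) (nat_lit 5) (nat_lit 269) (nat_lit 5) (nat_lit 469) (nat_lit 452) (nat_lit 279)))) (XT.nd (nat_lit 156) (nat_lit 988) (nat_lit 0) (XT.nd (nat_lit 78) (nat_lit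 456) (nat_lit 0) (XT.lf (nat_lit 0) (nat_lit 51321821721) (nat_lit 532) (nat_lit 4034097140) (nat_lit 608) (nat_lit 26836864290) (nat_lit 261) (nat_lit 5) (nat_lit 268) (nat_lit 5) (nat_lit 269) (nat_lit 5) (nat_lit 470) (nat_lit 452) (nat_lit 278)) (XT.lf (nat_lit 0) (nat_lit 47350294773) (nat_lit 456) (nat_lit 29257349545) (nat_lit 532) (nat_lit 7909516189) (nat_lit 255) (nat_lit 5) (nat_lit 261) (nat_lit 5) (nat_lit 262) (nat_lit 5) (nat_lit 471) (nat_lit 452) (nat_lit 277))) (XT.nd (nat_lit 78) (nat_lit 456) (nat_lit 0) (XT.lf (nat_lit 0) (nat_lit 12814366199) (nat_lit 532) (nat_lit 43356978265) (nat_lit 76) (nat_lit 30750453151) (nat_lit 248) (nat_lit 5) (nat_lit 255) (nat_lit 5) (nat_lit 249) (nat_lit 5) (nat_lit 472) (nat_lit 452) (nat_lit 276)) (XT.lf (nat_lit 0) (nat_lit 35522300542) (nat_lit 532) (nat_lit 49380264418) (nat_lit 76) (nat_lit 4508409136) (nat_lit 242) (nat_lit 5) (nat_lit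 249) (nat_lit 5) (nat_lit 243) (nat_lit 5) (nat_lit 473) (nat_lit 452) (nat_lit 275)))))) (XT.nd (nat_lit 468) (nat_lit 2356) (nat_lit 0) (XT.nd (nat_lit 234) (nat_lit 1216) (nat_lit 0) (XT.nd (nat_lit 78) (nat_lit 912) (nat_lit 0) (XT.lf (nat_lit 0) (nat_lit 36624457724) (nat_lit 456) (nat_lit 24109755112) (nat_lit 532) (nat_lit 31249339172) (nat_lit 236) (nat_lit 5) (nat_lit 242) (nat_lit 5) (nat_lit 243) (nat_lit 5) (nat_lit 474) (nat_lit 452) (nat_lit 274)) (XT.nd (nat_lit 78) (nat_lit 532) (nat_lit 0) (XT.lf (nat_lit 0) (nat_lit 33558349001) (nat_lit 380) (nat_lit 54865025299) (nat_lit 456) (nat_lit 6224884948) (nat_lit 231) (nat_lit 5) (nat_lit 236) (nat_lit 5) (nat_lit 237) (nat_lit 5) (nat_lit 475) (nat_lit 452) (nat_lit 273)) (XT.lf (nat_lit 0) (nat_lit 20869884082) (nat_lit 532) (nat_lit 66696032570) (nat_lit 76) (nat_lit 9838192361) (nat_lit 224) (nat_lit 5) (nat_lit 231) (nat_lit 5)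 (nat_lit 225) (nat_lit 5) (nat_lit 476) (nat_lit 452) (nat_lit 272)))) (XT.nd (nat_lit 78) (nat_lit 836) (nat_lit 0) (XT.lf (nat_lit 0) (nat_lit 28016149139) (nat_lit 380) (nat_lit 22632804245) (nat_lit 456) (nat_lit 49603199883) (nat_lit 219) (nat_lit 5) (nat_lit 224) (nat_lit 5) (nat_lit 225) (nat_lit 5) (nat_lit 477) (nat_lit 452) (nat_lit 271)) (XT.nd (nat_lit 78) (nat_lit 456) (nat_lit 0) (XT.lf (nat_lit 0) (nat_lit 25691000125) (nat_lit 380) (nat_lit 57603105521) (nat_lit 456) (nat_lit 19907180234) (nat_lit 214) (nat_lit 5) (nat_lit 219) (nat_lit 5) (nat_lit 220) (nat_lit 5) (nat_lit 478) (nat_lit 452) (nat_lit 270)) (XT.lf (nat_lit 0) (nat_lit 12373068766) (nat_lit 456) (nat_lit 82501433300) (nat_lit 76) (nat_lit 11380539485) (nat_lit 208) (nat_lit 5) (nat_lit 214) (nat_lit 5) (nat_lit 209) (nat_lit 5) (nat_lit 479) (nat_lit 452) (nat_lit 269))))) (XT.nd (nat_lit 234) (nat_lit 1292) (nat_lit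 0) (XT.nd (nat_lit 78) (nat_lit 684) (nat_lit 0) (XT.lf (nat_lit 0) (nat_lit 21898621213) (nat_lit 380) (nat_lit 25557559793) (nat_lit 456) (nat_lit 61951374150) (nat_lit 203) (nat_lit 5) (nat_lit 208) (nat_lit 5) (nat_lit 209) (nat_lit 5) (nat_lit 480) (nat_lit 452) (nat_lit 268)) (XT.nd (nat_lit 78) (nat_lit 380) (nat_lit 0) (XT.lf (nat_lit 0) (nat_lit 20486558498) (nat_lit 304) (nat_lit 65314525131) (nat_lit 380) (nat_lit 26871381797) (nat_lit 199) (nat_lit 5) (nat_lit 203) (nat_lit 5) (nat_lit 204) (nat_lit 5) (nat_lit 481) (nat_lit 452) (nat_lit 267)) (XT.lf (nat_lit 0) (nat_lit 11205962178) (nat_lit 380) (nat_lit 96482584019) (nat_lit 76) (nat_lit 8366069284) (nat_lit 194) (nat_lit 5) (nat_lit 199) (nat_lit 5) (nat_lit 195) (nat_lit 5) (nat_lit 482) (nat_lit 452) (nat_lit 266)))) (XT.nd (nat_lit 156) (nat_lit 684) (nat_lit 0) (XT.nd (nat_lit 78) (nat_lit 304) (nat_lit 0) (XT.lf (nat_lit 0)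 (nat_lit 18690438547) (nat_lit 304) (nat_lit 33742537331) (nat_lit 380) (nat_lit 67110869270) (nat_lit 190) (nat_lit 5) (nat_lit 194) (nat_lit 5) (nat_lit 195) (nat_lit 5) (nat_lit 483) (nat_lit 452) (nat_lit 265)) (XT.lf (nat_lit 0) (nat_lit 18386230646) (nat_lit 304) (nat_lit 78936023641) (nat_lit 380) (nat_lit 25837254612) (nat_lit 186) (nat_lit 5) (nat_lit 190) (nat_lit 5) (nat_lit 191) (nat_lit 5) (nat_lit 484) (nat_lit 452) (nat_lit 264))) (XT.nd (nat_lit 78) (nat_lit 304) (nat_lit 0) (XT.lf (nat_lit 0) (nat_lit 18613452779) (nat_lit 304) (nat_lit 112227956) (nat_lit 380) (nat_lit 108178214631) (nat_lit 181) (nat_lit 5) (nat_lit 185) (nat_lit 5) (nat_lit 186) (nat_lit 5) (nat_lit 485) (nat_lit 452) (nat_lit 263)) (XT.lf (nat_lit 0) (nat_lit 18856565035) (nat_lit 304) (nat_lit 48194989391) (nat_lit 380) (nat_lit 63714197947) (nat_lit 177) (nat_lit 5) (nat_lit 181) (nat_lit 5) (nat_lit 182)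 (nat_lit 5) (nat_lit 486) (nat_lit 452) (nat_lit 262))))))) (XT.nd (nat_lit 60450) (nat_lit 0) (nat_lit 6308) (XT.nd (nat_lit 59904) (nat_lit 0) (nat_lit 12844) (XT.nd (nat_lit 234) (nat_lit 532) (nat_lit 0) (XT.nd (nat_lit 78) (nat_lit 608) (nat_lit 0) (XT.lf (nat_lit 0) (nat_lit 19878867540) (nat_lit 228) (nat_lit 99564319335) (nat_lit 304) (nat_lit 15328031422) (nat_lit 174) (nat_lit 5) (nat_lit 177) (nat_lit 5) (nat_lit 178) (nat_lit 5) (nat_lit 487) (nat_lit 452) (nat_lit 261)) (XT.nd (nat_lit 78) (nat_lit 228) (nat_lit 0) (XT.lf (nat_lit 0) (nat_lit 21226609776) (nat_lit 304) (nat_lit 15411663508) (nat_lit 380) (nat_lit 102272859649) (nat_lit 169) (nat_lit 5) (nat_lit 173) (nat_lit 5) (nat_lit 174) (nat_lit 5) (nat_lit 488) (nat_lit 452) (nat_lit 260)) (XT.lf (nat_lit 0) (nat_lit 22908039244) (nat_lit 228) (nat_lit 70095896766) (nat_lit 304) (nat_lit 50186012928) (nat_lit 166) (nat_lit 5)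 (nat_lit 169) (nat_lit 5) (nat_lit 170) (nat_lit 5) (nat_lit 489) (nat_lit 452) (nat_lit 259)))) (XT.nd (nat_lit 78) (nat_lit 228) (nat_lit 0) (XT.lf (nat_lit 0) (nat_lit 6230220752) (nat_lit 304) (nat_lit 122189721962) (nat_lit 76) (nat_lit 19207075145) (nat_lit 162) (nat_lit 5) (nat_lit 166) (nat_lit 5) (nat_lit 163) (nat_lit 5) (nat_lit 490) (nat_lit 452) (nat_lit 258)) (XT.nd (nat_lit 59514) (nat_lit 0) (nat_lit 12768) (XT.lf (nat_lit 0) (nat_lit 28026647522) (nat_lit 228) (nat_lit 38638985106) (nat_lit 304) (nat_lit 85538312169) (nat_lit 159) (nat_lit 5) (nat_lit 162) (nat_lit 5) (nat_lit 163) (nat_lit 5) (nat_lit 491) (nat_lit 452) (nat_lit 257)) (XT.lf (nat_lit 0) (nat_lit 15570830650) (nat_lit 1292) (nat_lit 5690827387) (nat_lit 1292) (nat_lit 5690827387) (nat_lit 327) (nat_lit 3) (nat_lit 344) (nat_lit 3) (nat_lit 344) (nat_lit 5) (nat_lit 453) (nat_lit 453) (nat_lit 294))))) (XT.nd (nat_lit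 234) (nat_lit 0) (nat_lit 152) (XT.nd (nat_lit 78) (nat_lit 0) (nat_lit 0) (XT.lf (nat_lit 0) (nat_lit 32300874790) (nat_lit 1216) (nat_lit 21236156163) (nat_lit 1292) (nat_lit 1704142305) (nat_lit 328) (nat_lit 5) (nat_lit 344) (nat_lit 5) (nat_lit 345) (nat_lit 5) (nat_lit 454) (nat_lit 453) (nat_lit 293)) (XT.nd (nat_lit 78) (nat_lit 0) (nat_lit 76) (XT.lf (nat_lit 76) (nat_lit 25320609170) (nat_lit 0) (nat_lit 8985994720) (nat_lit 1292) (nat_lit 22313925358) (nat_lit 329) (nat_lit 5) (nat_lit 328) (nat_lit 5) (nat_lit 345) (nat_lit 5) (nat_lit 455) (nat_lit 453) (nat_lit 292)) (XT.lf (nat_lit 76) (nat_lit 16542685339) (nat_lit 0) (nat_lit 20610755089) (nat_lit 1292) (nat_lit 20893188084) (nat_lit 330) (nat_lit 5) (nat_lit 329) (nat_lit 5) (nat_lit 346) (nat_lit 5) (nat_lit 456) (nat_lit 453) (nat_lit 291)))) (XT.nd (nat_lit 156) (nat_lit 0) (nat_lit 152) (XT.nd (nat_lit 78) (nat_lit 0) (nat_lit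 76) (XT.lf (nat_lit 76) (nat_lit 7698686407) (nat_lit 0) (nat_lit 33185266036) (nat_lit 1292) (nat_lit 18637840386) (nat_lit 331) (nat_lit 5) (nat_lit 330) (nat_lit 5) (nat_lit 347) (nat_lit 5) (nat_lit 457) (nat_lit 453) (nat_lit 290)) (XT.lf (nat_lit 0) (nat_lit 45572344990) (nat_lit 1216) (nat_lit 1176730401) (nat_lit 1292) (nat_lit 14298499416) (nat_lit 331) (nat_lit 5) (nat_lit 347) (nat_lit 5) (nat_lit 348) (nat_lit 5) (nat_lit 458) (nat_lit 453) (nat_lit 289))) (XT.nd (nat_lit 78) (nat_lit 0) (nat_lit 0) (XT.lf (nat_lit 0) (nat_lit 51347737907) (nat_lit 1216) (nat_lit 9943618832) (nat_lit 1292) (nat_lit 1332711814) (nat_lit 332) (nat_lit 5) (nat_lit 348) (nat_lit 5) (nat_lit 349) (nat_lit 5) (nat_lit 459) (nat_lit 453) (nat_lit 288)) (XT.lf (nat_lit 76) (nat_lit 45388396102) (nat_lit 0) (nat_lit 12942016344) (nat_lit 1292) (nat_lit 5921419264) (nat_lit 333) (nat_lit 5) (nat_lit 332) (nat_lit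 5) (nat_lit 349) (nat_lit 5) (nat_lit 460) (nat_lit 453) (nat_lit 287)))))) (XT.nd (nat_lit 546) (nat_lit 3724) (nat_lit 0) (XT.nd (nat_lit 234) (nat_lit 1900) (nat_lit 0) (XT.nd (nat_lit 78) (nat_lit 0) (nat_lit 76) (XT.lf (nat_lit 0) (nat_lit 546859786) (nat_lit 1292) (nat_lit 27826759905) (nat_lit 1368) (nat_lit 37562255806) (nat_lit 316) (nat_lit 5) (nat_lit 333) (nat_lit 5) (nat_lit 334) (nat_lit 5) (nat_lit 461) (nat_lit 453) (nat_lit 286)) (XT.nd (nat_lit 78) (nat_lit 0) (nat_lit 76) (XT.lf (nat_lit 0) (nat_lit 8063569546) (nat_lit 1292) (nat_lit 36868472332) (nat_lit 1368) (nat_lit 22744896410) (nat_lit 317) (nat_lit 5) (nat_lit 334) (nat_lit 5) (nat_lit 335) (nat_lit 5) (nat_lit 462) (nat_lit 453) (nat_lit 285)) (XT.lf (nat_lit 0) (nat_lit 16823350900) (nat_lit 1292) (nat_lit 45916103287) (nat_lit 76) (nat_lit 6739583018) (nat_lit 318) (nat_lit 5) (nat_lit 335) (nat_lit 5) (nat_lit 319)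 (nat_lit 5) (nat_lit 463) (nat_lit 453) (nat_lit 284)))) (XT.nd (nat_lit 156) (nat_lit 608) (nat_lit 0) (XT.nd (nat_lit 78) (nat_lit 608) (nat_lit 0) (XT.lf (nat_lit 0) (nat_lit 16285603960) (nat_lit 836) (nat_lit 10727265248) (nat_lit 912) (nat_lit 44328619493) (nat_lit 307) (nat_lit 5) (nat_lit 318) (nat_lit 5) (nat_lit 319) (nat_lit 5) (nat_lit 464) (nat_lit 453) (nat_lit 283)) (XT.lf (nat_lit 0) (nat_lit 9022120943) (nat_lit 608) (nat_lit 29674137709) (nat_lit 684) (nat_lit 34571272328) (nat_lit 299) (nat_lit 5) (nat_lit 307) (nat_lit 5) (nat_lit 308) (nat_lit 5) (nat_lit 465) (nat_lit 453) (nat_lit 282))) (XT.nd (nat_lit 78) (nat_lit 0) (nat_lit 0) (XT.lf (nat_lit 0) (nat_lit 1862254945) (nat_lit 608) (nat_lit 50039061138) (nat_lit 684) (nat_lit 23360434397) (nat_lit 291) (nat_lit 5) (nat_lit 299) (nat_lit 5) (nat_lit 300) (nat_lit 5) (nat_lit 466) (nat_lit 453) (nat_lit 281)) (XT.lf (nat_lit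 0) (nat_lit 66776847979) (nat_lit 684) (nat_lit 5069712681) (nat_lit 76) (nat_lit 5478813706) (nat_lit 291) (nat_lit 5) (nat_lit 300) (nat_lit 5) (nat_lit 292) (nat_lit 5) (nat_lit 467) (nat_lit 453) (nat_lit 280))))) (XT.nd (nat_lit 234) (nat_lit 1976) (nat_lit 0) (XT.nd (nat_lit 78) (nat_lit 1140) (nat_lit 0) (XT.lf (nat_lit 0) (nat_lit 4011157019) (nat_lit 608) (nat_lit 12009874873) (nat_lit 76) (nat_lit 63435394752) (nat_lit 283) (nat_lit 5) (nat_lit 291) (nat_lit 5) (nat_lit 284) (nat_lit 5) (nat_lit 468) (nat_lit 453) (nat_lit 279)) (XT.nd (nat_lit 78) (nat_lit 532) (nat_lit 0) (XT.lf (nat_lit 0) (nat_lit 20157931748) (nat_lit 684) (nat_lit 18962553163) (nat_lit 76) (nat_lit 42538095447) (nat_lit 275) (nat_lit 5) (nat_lit 284) (nat_lit 5) (nat_lit 276) (nat_lit 5) (nat_lit 469) (nat_lit 453) (nat_lit 278)) (XT.lf (nat_lit 0) (nat_lit 38155145782) (nat_lit 608) (nat_lit 25745592359) (nat_lit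 76) (nat_lit 20038810649) (nat_lit 268) (nat_lit 5) (nat_lit 276) (nat_lit 5) (nat_lit 269) (nat_lit 5) (nat_lit 470) (nat_lit 453) (nat_lit 277)))) (XT.nd (nat_lit 156) (nat_lit 988) (nat_lit 0) (XT.nd (nat_lit 78) (nat_lit 456) (nat_lit 0) (XT.lf (nat_lit 0) (nat_lit 53930084092) (nat_lit 532) (nat_lit 4231321094) (nat_lit 608) (nat_lit 28139884964) (nat_lit 261) (nat_lit 5) (nat_lit 268) (nat_lit 5) (nat_lit 269) (nat_lit 5) (nat_lit 471) (nat_lit 453) (nat_lit 276)) (XT.lf (nat_lit 0) (nat_lit 49759829833) (nat_lit 456) (nat_lit 30714537249) (nat_lit 532) (nat_lit 8267559854) (nat_lit 255) (nat_lit 5) (nat_lit 261) (nat_lit 5) (nat_lit 262) (nat_lit 5) (nat_lit 472) (nat_lit 453) (nat_lit 275))) (XT.nd (nat_lit 78) (nat_lit 456) (nat_lit 0) (XT.lf (nat_lit 0) (nat_lit 13490497039) (nat_lit 532) (nat_lit 45482298033) (nat_lit 76) (nat_lit 32294028772) (nat_lit 248) (nat_lit 5) (nat_lit 255) (nat_lit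 5) (nat_lit 249) (nat_lit 5) (nat_lit 473) (nat_lit 453) (nat_lit 274)) (XT.lf (nat_lit 0) (nat_lit 37332607969) (nat_lit 532) (nat_lit 51807011752) (nat_lit 76) (nat_lit 4740876094) (nat_lit 242) (nat_lit 5) (nat_lit 249) (nat_lit 5) (nat_lit 243) (nat_lit 5) (nat_lit 474) (nat_lit 453) (nat_lit 273))))))))
noncomputable def xc117 : XT := (XT.nd (nat_lit 61542) (nat_lit 0) (nat_lit 912) (XT.nd (nat_lit 1014) (nat_lit 1140) (nat_lit 0) (XT.nd (nat_lit 468) (nat_lit 2356) (nat_lit 0) (XT.nd (nat_lit 234) (nat_lit 1216) (nat_lit 0) (XT.nd (nat_lit 78) (nat_lit 912) (nat_lit 0) (XT.lf (nat_lit 0) (nat_lit 38496734954) (nat_lit 456) (nat_lit 25307147354) (nat_lit 532) (nat_lit 32777857379) (nat_lit 236) (nat_lit 5) (nat_lit 242) (nat_lit 5) (nat_lit 243) (nat_lit 5) (nat_lit 475) (nat_lit 453) (nat_lit 272)) (XT.nd (nat_lit 78) (nat_lit 532) (nat_lit 0) (XT.lf (nat_lit 0) (nat_lit 35277029938) (nat_lit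 380) (nat_lit 57599368395) (nat_lit 456) (nat_lit 6503317115) (nat_lit 231) (nat_lit 5) (nat_lit 236) (nat_lit 5) (nat_lit 237) (nat_lit 5) (nat_lit 476) (nat_lit 453) (nat_lit 271)) (XT.lf (nat_lit 0) (nat_lit 21944493049) (nat_lit 532) (nat_lit 69989772765) (nat_lit 76) (nat_lit 10339114188) (nat_lit 224) (nat_lit 5) (nat_lit 231) (nat_lit 5) (nat_lit 225) (nat_lit 5) (nat_lit 477) (nat_lit 453) (nat_lit 270)))) (XT.nd (nat_lit 78) (nat_lit 836) (nat_lit 0) (XT.lf (nat_lit 0) (nat_lit 29456841012) (nat_lit 380) (nat_lit 23754576542) (nat_lit 456) (nat_lit 52052441910) (nat_lit 219) (nat_lit 5) (nat_lit 224) (nat_lit 5) (nat_lit 225) (nat_lit 5) (nat_lit 478) (nat_lit 453) (nat_lit 269)) (XT.nd (nat_lit 78) (nat_lit 456) (nat_lit 0) (XT.lf (nat_lit 0) (nat_lit 27015074757) (nat_lit 380) (nat_lit 60472793590) (nat_lit 456) (nat_lit 20872609181) (nat_lit 214) (nat_lit 5) (nat_lit 219) (nat_lit 5)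 (nat_lit 220) (nat_lit 5) (nat_lit 479) (nat_lit 453) (nat_lit 268)) (XT.lf (nat_lit 0) (nat_lit 13020147549) (nat_lit 456) (nat_lit 86586796831) (nat_lit 76) (nat_lit 11959995634) (nat_lit 208) (nat_lit 5) (nat_lit 214) (nat_lit 5) (nat_lit 209) (nat_lit 5) (nat_lit 480) (nat_lit 453) (nat_lit 267))))) (XT.nd (nat_lit 234) (nat_lit 1292) (nat_lit 0) (XT.nd (nat_lit 78) (nat_lit 684) (nat_lit 0) (XT.lf (nat_lit 0) (nat_lit 23032122182) (nat_lit 380) (nat_lit 26824310389) (nat_lit 456) (nat_lit 65020676254) (nat_lit 203) (nat_lit 5) (nat_lit 208) (nat_lit 5) (nat_lit 209) (nat_lit 5) (nat_lit 481) (nat_lit 453) (nat_lit 266)) (XT.nd (nat_lit 78) (nat_lit 380) (nat_lit 0) (XT.lf (nat_lit 0) (nat_lit 21549047302) (nat_lit 304) (nat_lit 68568694932) (nat_lit 380) (nat_lit 28187547556) (nat_lit 199) (nat_lit 5) (nat_lit 203) (nat_lit 5) (nat_lit 204) (nat_lit 5) (nat_lit 482) (nat_lit 453) (nat_lit 265))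 (XT.lf (nat_lit 0) (nat_lit 11792322593) (nat_lit 380) (nat_lit 101268458704) (nat_lit 76) (nat_lit 8795782373) (nat_lit 194) (nat_lit 5) (nat_lit 199) (nat_lit 5) (nat_lit 195) (nat_lit 5) (nat_lit 483) (nat_lit 453) (nat_lit 264)))) (XT.nd (nat_lit 156) (nat_lit 684) (nat_lit 0) (XT.nd (nat_lit 78) (nat_lit 304) (nat_lit 0) (XT.lf (nat_lit 0) (nat_lit 19662118433) (nat_lit 304) (nat_lit 35417684668) (nat_lit 380) (nat_lit 70440478269) (nat_lit 190) (nat_lit 5) (nat_lit 194) (nat_lit 5) (nat_lit 195) (nat_lit 5) (nat_lit 484) (nat_lit 453) (nat_lit 263)) (XT.lf (nat_lit 0) (nat_lit 19342257522) (nat_lit 304) (nat_lit 82870551538) (nat_lit 380) (nat_lit 27103941374) (nat_lit 186) (nat_lit 5) (nat_lit 190) (nat_lit 5) (nat_lit 191) (nat_lit 5) (nat_lit 485) (nat_lit 453) (nat_lit 262))) (XT.nd (nat_lit 78) (nat_lit 304) (nat_lit 0) (XT.lf (nat_lit 0) (nat_lit 19580266128) (nat_lit 304) (nat_lit 105555284)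 (nat_lit 380) (nat_lit 113562552421) (nat_lit 181) (nat_lit 5) (nat_lit 185) (nat_lit 5) (nat_lit 186) (nat_lit 5) (nat_lit 486) (nat_lit 453) (nat_lit 261)) (XT.lf (nat_lit 0) (nat_lit 19835079101) (nat_lit 304) (nat_lit 50592229149) (nat_lit 380) (nat_lit 66876035886) (nat_lit 177) (nat_lit 5) (nat_lit 181) (nat_lit 5) (nat_lit 182) (nat_lit 5) (nat_lit 487) (nat_lit 453) (nat_lit 260)))))) (XT.nd (nat_lit 59982) (nat_lit 0) (nat_lit 11704) (XT.nd (nat_lit 234) (nat_lit 304) (nat_lit 0) (XT.nd (nat_lit 78) (nat_lit 608) (nat_lit 0) (XT.lf (nat_lit 0) (nat_lit 20908032910) (nat_lit 228) (nat_lit 104529838888) (nat_lit 304) (nat_lit 16071231102) (nat_lit 174) (nat_lit 5) (nat_lit 177) (nat_lit 5) (nat_lit 178) (nat_lit 5) (nat_lit 488) (nat_lit 453) (nat_lit 259)) (XT.nd (nat_lit 78) (nat_lit 228) (nat_lit 0) (XT.lf (nat_lit 0) (nat_lit 22322592915) (nat_lit 304) (nat_lit 16169592983) (nat_lit 380)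 (nat_lit 107363843209) (nat_lit 169) (nat_lit 5) (nat_lit 173) (nat_lit 5) (nat_lit 174) (nat_lit 5) (nat_lit 489) (nat_lit 453) (nat_lit 258)) (XT.lf (nat_lit 0) (nat_lit 24087623937) (nat_lit 228) (nat_lit 73587904683) (nat_lit 304) (nat_lit 52673275411) (nat_lit 166) (nat_lit 5) (nat_lit 169) (nat_lit 5) (nat_lit 170) (nat_lit 5) (nat_lit 490) (nat_lit 453) (nat_lit 257)))) (XT.nd (nat_lit 59592) (nat_lit 0) (nat_lit 12540) (XT.lf (nat_lit 0) (nat_lit 6562756397) (nat_lit 304) (nat_lit 128265081747) (nat_lit 76) (nat_lit 20179899426) (nat_lit 162) (nat_lit 5) (nat_lit 166) (nat_lit 5) (nat_lit 163) (nat_lit 5) (nat_lit 491) (nat_lit 453) (nat_lit 256)) (XT.nd (nat_lit 78) (nat_lit 0) (nat_lit 76) (XT.lf (nat_lit 0) (nat_lit 16385717958) (nat_lit 1292) (nat_lit 5956649843) (nat_lit 1292) (nat_lit 5956649843) (nat_lit 327) (nat_lit 3) (nat_lit 344) (nat_lit 3) (nat_lit 344) (nat_lit 5) (nat_lit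 454) (nat_lit 454) (nat_lit 292)) (XT.lf (nat_lit 0) (nat_lit 33985178856) (nat_lit 1216) (nat_lit 22259189427) (nat_lit 1292) (nat_lit 1756782633) (nat_lit 328) (nat_lit 5) (nat_lit 344) (nat_lit 5) (nat_lit 345) (nat_lit 5) (nat_lit 455) (nat_lit 454) (nat_lit 291))))) (XT.nd (nat_lit 234) (nat_lit 912) (nat_lit 0) (XT.nd (nat_lit 78) (nat_lit 0) (nat_lit 76) (XT.lf (nat_lit 76) (nat_lit 26624302708) (nat_lit 0) (nat_lit 9463955633) (nat_lit 1292) (nat_lit 23361304600) (nat_lit 329) (nat_lit 5) (nat_lit 328) (nat_lit 5) (nat_lit 345) (nat_lit 5) (nat_lit 456) (nat_lit 454) (nat_lit 290)) (XT.nd (nat_lit 78) (nat_lit 0) (nat_lit 76) (XT.lf (nat_lit 76) (nat_lit 17408606341) (nat_lit 0) (nat_lit 21665782519) (nat_lit 1292) (nat_lit 21872669888) (nat_lit 330) (nat_lit 5) (nat_lit 329) (nat_lit 5) (nat_lit 346) (nat_lit 5) (nat_lit 457) (nat_lit 454) (nat_lit 289)) (XT.lf (nat_lit 76) (nat_lit 8123371003)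 (nat_lit 0) (nat_lit 34865200215) (nat_lit 1292) (nat_lit 19507495858) (nat_lit 331) (nat_lit 5) (nat_lit 330) (nat_lit 5) (nat_lit 347) (nat_lit 5) (nat_lit 458) (nat_lit 454) (nat_lit 288)))) (XT.nd (nat_lit 156) (nat_lit 1140) (nat_lit 0) (XT.nd (nat_lit 78) (nat_lit 0) (nat_lit 76) (XT.lf (nat_lit 0) (nat_lit 47908316955) (nat_lit 1216) (nat_lit 1195791330) (nat_lit 1292) (nat_lit 14994121993) (nat_lit 331) (nat_lit 5) (nat_lit 347) (nat_lit 5) (nat_lit 348) (nat_lit 5) (nat_lit 459) (nat_lit 454) (nat_lit 287)) (XT.lf (nat_lit 0) (nat_lit 53969962471) (nat_lit 1216) (nat_lit 10400354733) (nat_lit 1292) (nat_lit 1383307143) (nat_lit 332) (nat_lit 5) (nat_lit 348) (nat_lit 5) (nat_lit 349) (nat_lit 5) (nat_lit 460) (nat_lit 454) (nat_lit 286))) (XT.nd (nat_lit 78) (nat_lit 1216) (nat_lit 0) (XT.lf (nat_lit 76) (nat_lit 47697101599) (nat_lit 0) (nat_lit 13602435458) (nat_lit 1292) (nat_lit 6163305735)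 (nat_lit 333) (nat_lit 5) (nat_lit 332) (nat_lit 5) (nat_lit 349) (nat_lit 5) (nat_lit 461) (nat_lit 454) (nat_lit 285)) (XT.lf (nat_lit 0) (nat_lit 625063491) (nat_lit 1292) (nat_lit 29177264339) (nat_lit 1368) (nat_lit 39428813417) (nat_lit 316) (nat_lit 5) (nat_lit 333) (nat_lit 5) (nat_lit 334) (nat_lit 5) (nat_lit 462) (nat_lit 454) (nat_lit 284))))))) (XT.nd (nat_lit 1014) (nat_lit 5168) (nat_lit 0) (XT.nd (nat_lit 468) (nat_lit 3724) (nat_lit 0) (XT.nd (nat_lit 234) (nat_lit 1216) (nat_lit 0) (XT.nd (nat_lit 78) (nat_lit 760) (nat_lit 0) (XT.lf (nat_lit 0) (nat_lit 8515480042) (nat_lit 1292) (nat_lit 38670678151) (nat_lit 1368) (nat_lit 23873162949) (nat_lit 317) (nat_lit 5) (nat_lit 334) (nat_lit 5) (nat_lit 335) (nat_lit 5) (nat_lit 463) (nat_lit 454) (nat_lit 283)) (XT.nd (nat_lit 78) (nat_lit 836) (nat_lit 0) (XT.lf (nat_lit 0) (nat_lit 17711249764) (nat_lit 1292) (nat_lit 48170401283)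 (nat_lit 76) (nat_lit 7069934079) (nat_lit 318) (nat_lit 5) (nat_lit 335) (nat_lit 5) (nat_lit 319) (nat_lit 5) (nat_lit 464) (nat_lit 454) (nat_lit 282)) (XT.lf (nat_lit 0) (nat_lit 17140201532) (nat_lit 836) (nat_lit 11268204710) (nat_lit 912) (nat_lit 46498808183) (nat_lit 307) (nat_lit 5) (nat_lit 318) (nat_lit 5) (nat_lit 319) (nat_lit 5) (nat_lit 465) (nat_lit 454) (nat_lit 281)))) (XT.nd (nat_lit 78) (nat_lit 608) (nat_lit 0) (XT.lf (nat_lit 0) (nat_lit 9513741454) (nat_lit 608) (nat_lit 31160433471) (nat_lit 684) (nat_lit 36255437691) (nat_lit 299) (nat_lit 5) (nat_lit 307) (nat_lit 5) (nat_lit 308) (nat_lit 5) (nat_lit 466) (nat_lit 454) (nat_lit 280)) (XT.nd (nat_lit 78) (nat_lit 0) (nat_lit 0) (XT.lf (nat_lit 0) (nat_lit 1996002784) (nat_lit 608) (nat_lit 52541796811) (nat_lit 684) (nat_lit 24485794150) (nat_lit 291) (nat_lit 5) (nat_lit 299) (nat_lit 5) (nat_lit 300) (nat_lit 5) (nat_lit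 467) (nat_lit 454) (nat_lit 279)) (XT.lf (nat_lit 0) (nat_lit 70155128650) (nat_lit 684) (nat_lit 5283306054) (nat_lit 76) (nat_lit 5752023587) (nat_lit 291) (nat_lit 5) (nat_lit 300) (nat_lit 5) (nat_lit 292) (nat_lit 5) (nat_lit 468) (nat_lit 454) (nat_lit 278))))) (XT.nd (nat_lit 234) (nat_lit 1976) (nat_lit 0) (XT.nd (nat_lit 78) (nat_lit 1140) (nat_lit 0) (XT.lf (nat_lit 0) (nat_lit 4250024714) (nat_lit 608) (nat_lit 12570855897) (nat_lit 76) (nat_lit 66607216550) (nat_lit 283) (nat_lit 5) (nat_lit 291) (nat_lit 5) (nat_lit 284) (nat_lit 5) (nat_lit 469) (nat_lit 454) (nat_lit 277)) (XT.nd (nat_lit 78) (nat_lit 532) (nat_lit 0) (XT.lf (nat_lit 0) (nat_lit 21202697498) (nat_lit 684) (nat_lit 19871208307) (nat_lit 76) (nat_lit 44666496047) (nat_lit 275) (nat_lit 5) (nat_lit 284) (nat_lit 5) (nat_lit 276) (nat_lit 5) (nat_lit 470) (nat_lit 454) (nat_lit 276)) (XT.lf (nat_lit 0) (nat_lit 40098412600)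 (nat_lit 608) (nat_lit 26993492576) (nat_lit 76) (nat_lit 21043554388) (nat_lit 268) (nat_lit 5) (nat_lit 276) (nat_lit 5) (nat_lit 269) (nat_lit 5) (nat_lit 471) (nat_lit 454) (nat_lit 275)))) (XT.nd (nat_lit 156) (nat_lit 988) (nat_lit 0) (XT.nd (nat_lit 78) (nat_lit 456) (nat_lit 0) (XT.lf (nat_lit 0) (nat_lit 56664838895) (nat_lit 532) (nat_lit 4438822837) (nat_lit 608) (nat_lit 29511666023) (nat_lit 261) (nat_lit 5) (nat_lit 268) (nat_lit 5) (nat_lit 269) (nat_lit 5) (nat_lit 472) (nat_lit 454) (nat_lit 274)) (XT.lf (nat_lit 0) (nat_lit 52285934995) (nat_lit 456) (nat_lit 32245112390) (nat_lit 532) (nat_lit 8646985788) (nat_lit 255) (nat_lit 5) (nat_lit 261) (nat_lit 5) (nat_lit 262) (nat_lit 5) (nat_lit 473) (nat_lit 454) (nat_lit 273))) (XT.nd (nat_lit 78) (nat_lit 456) (nat_lit 0) (XT.lf (nat_lit 0) (nat_lit 14197142099) (nat_lit 532) (nat_lit 47717837746) (nat_lit 76) (nat_lit 33914220427)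 (nat_lit 248) (nat_lit 5) (nat_lit 255) (nat_lit 5) (nat_lit 249) (nat_lit 5) (nat_lit 474) (nat_lit 454) (nat_lit 272)) (XT.lf (nat_lit 0) (nat_lit 39230251882) (nat_lit 532) (nat_lit 54359025934) (nat_lit 76) (nat_lit 4984311282) (nat_lit 242) (nat_lit 5) (nat_lit 249) (nat_lit 5) (nat_lit 243) (nat_lit 5) (nat_lit 475) (nat_lit 454) (nat_lit 271)))))) (XT.nd (nat_lit 546) (nat_lit 2204) (nat_lit 0) (XT.nd (nat_lit 234) (nat_lit 1596) (nat_lit 0) (XT.nd (nat_lit 78) (nat_lit 912) (nat_lit 0) (XT.lf (nat_lit 0) (nat_lit 40458809202) (nat_lit 456) (nat_lit 26565161851) (nat_lit 532) (nat_lit 34385957729) (nat_lit 236) (nat_lit 5) (nat_lit 242) (nat_lit 5) (nat_lit 243) (nat_lit 5) (nat_lit 476) (nat_lit 454) (nat_lit 270)) (XT.nd (nat_lit 78) (nat_lit 532) (nat_lit 0) (XT.lf (nat_lit 0) (nat_lit 37077855120) (nat_lit 380) (nat_lit 60471256844) (nat_lit 456) (nat_lit 6798721447) (nat_lit 231) (nat_lit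 5) (nat_lit 236) (nat_lit 5) (nat_lit 237) (nat_lit 5) (nat_lit 477) (nat_lit 454) (nat_lit 269)) (XT.lf (nat_lit 0) (nat_lit 23069939709) (nat_lit 532) (nat_lit 73452017472) (nat_lit 76) (nat_lit 10864244237) (nat_lit 224) (nat_lit 5) (nat_lit 231) (nat_lit 5) (nat_lit 225) (nat_lit 5) (nat_lit 478) (nat_lit 454) (nat_lit 268)))) (XT.nd (nat_lit 156) (nat_lit 836) (nat_lit 0) (XT.nd (nat_lit 78) (nat_lit 380) (nat_lit 0) (XT.lf (nat_lit 0) (nat_lit 30965859404) (nat_lit 380) (nat_lit 24933354879) (nat_lit 456) (nat_lit 54627020499) (nat_lit 219) (nat_lit 5) (nat_lit 224) (nat_lit 5) (nat_lit 225) (nat_lit 5) (nat_lit 479) (nat_lit 454) (nat_lit 267)) (XT.lf (nat_lit 0) (nat_lit 28401678494) (nat_lit 380) (nat_lit 63486939205) (nat_lit 456) (nat_lit 21889092189) (nat_lit 214) (nat_lit 5) (nat_lit 219) (nat_lit 5) (nat_lit 220) (nat_lit 5) (nat_lit 480) (nat_lit 454) (nat_lit 266))) (XT.nd (nat_lit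 78) (nat_lit 380) (nat_lit 0) (XT.lf (nat_lit 0) (nat_lit 13696937551) (nat_lit 456) (nat_lit 90880120225) (nat_lit 76) (nat_lit 12567454984) (nat_lit 208) (nat_lit 5) (nat_lit 214) (nat_lit 5) (nat_lit 209) (nat_lit 5) (nat_lit 481) (nat_lit 454) (nat_lit 265)) (XT.lf (nat_lit 0) (nat_lit 24218712335) (nat_lit 380) (nat_lit 28155433034) (nat_lit 456) (nat_lit 68246071424) (nat_lit 203) (nat_lit 5) (nat_lit 208) (nat_lit 5) (nat_lit 209) (nat_lit 5) (nat_lit 482) (nat_lit 454) (nat_lit 264))))) (XT.nd (nat_lit 234) (nat_lit 1216) (nat_lit 0) (XT.nd (nat_lit 78) (nat_lit 684) (nat_lit 0) (XT.lf (nat_lit 0) (nat_lit 22661112709) (nat_lit 304) (nat_lit 71986647632) (nat_lit 380) (nat_lit 29572069305) (nat_lit 199) (nat_lit 5) (nat_lit 203) (nat_lit 5) (nat_lit 204) (nat_lit 5) (nat_lit 483) (nat_lit 454) (nat_lit 263)) (XT.nd (nat_lit 78) (nat_lit 304) (nat_lit 0) (XT.lf (nat_lit 0) (nat_lit 12405578003)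 (nat_lit 380) (nat_lit 106297183664) (nat_lit 76) (nat_lit 9245920357) (nat_lit 194) (nat_lit 5) (nat_lit 199) (nat_lit 5) (nat_lit 195) (nat_lit 5) (nat_lit 484) (nat_lit 454) (nat_lit 262)) (XT.lf (nat_lit 0) (nat_lit 20678927718) (nat_lit 304) (nat_lit 37177703115) (nat_lit 380) (nat_lit 73938978859) (nat_lit 190) (nat_lit 5) (nat_lit 194) (nat_lit 5) (nat_lit 195) (nat_lit 5) (nat_lit 485) (nat_lit 454) (nat_lit 261)))) (XT.nd (nat_lit 156) (nat_lit 532) (nat_lit 0) (XT.nd (nat_lit 78) (nat_lit 380) (nat_lit 0) (XT.lf (nat_lit 0) (nat_lit 20342672297) (nat_lit 304) (nat_lit 87002946882) (nat_lit 380) (nat_lit 28436303096) (nat_lit 186) (nat_lit 5) (nat_lit 190) (nat_lit 5) (nat_lit 191) (nat_lit 5) (nat_lit 486) (nat_lit 454) (nat_lit 260)) (XT.lf (nat_lit 0) (nat_lit 20592060124) (nat_lit 304) (nat_lit 99691035) (nat_lit 380) (nat_lit 119218391661) (nat_lit 181) (nat_lit 5) (nat_lit 185) (nat_lit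 5) (nat_lit 186) (nat_lit 5) (nat_lit 487) (nat_lit 454) (nat_lit 259))) (XT.nd (nat_lit 78) (nat_lit 228) (nat_lit 0) (XT.lf (nat_lit 0) (nat_lit 20859201142) (nat_lit 304) (nat_lit 53110493929) (nat_lit 380) (nat_lit 70198185110) (nat_lit 177) (nat_lit 5) (nat_lit 181) (nat_lit 5) (nat_lit 182) (nat_lit 5) (nat_lit 488) (nat_lit 454) (nat_lit 258)) (XT.lf (nat_lit 0) (nat_lit 21985381941) (nat_lit 228) (nat_lit 109744814811) (nat_lit 304) (nat_lit 16853747857) (nat_lit 174) (nat_lit 5) (nat_lit 177) (nat_lit 5) (nat_lit 178) (nat_lit 5) (nat_lit 489) (nat_lit 454) (nat_lit 257))))))))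
noncomputable def xc118 : XT := (XT.nd (nat_lit 61620) (nat_lit 0) (nat_lit 608) (XT.nd (nat_lit 60606) (nat_lit 0) (nat_lit 4940) (XT.nd (nat_lit 60060) (nat_lit 0) (nat_lit 11400) (XT.nd (nat_lit 59826) (nat_lit 0) (nat_lit 12312) (XT.nd (nat_lit 78) (nat_lit 228) (nat_lit 0) (XT.lf (nat_lit 0) (nat_lit 23470153536) (nat_lit 304) (nat_lit 16966595353) (nat_lit 380) (nat_lit 112711482606) (nat_lit 169) (nat_lit 5) (nat_lit 173) (nat_lit 5) (nat_lit 174) (nat_lit 5) (nat_lit 490) (nat_lit 454) (nat_lit 256)) (XT.nd (nat_lit 59670) (nat_lit 0) (nat_lit 12236) (XT.lf (nat_lit 0) (nat_lit 25323009878) (nat_lit 228) (nat_lit 77255701802) (nat_lit 304) (nat_lit 55286949918) (nat_lit 166) (nat_lit 5) (nat_lit 169) (nat_lit 5) (nat_lit 170) (nat_lit 5) (nat_lit 491) (nat_lit 454) (nat_lit 255)) (XT.lf (nat_lit 0) (nat_lit 17237970546) (nat_lit 1292) (nat_lit 6237503730) (nat_lit 1292) (nat_lit 6237503730)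 (nat_lit 327) (nat_lit 3) (nat_lit 344) (nat_lit 3) (nat_lit 344) (nat_lit 5) (nat_lit 455) (nat_lit 455) (nat_lit 290)))) (XT.nd (nat_lit 78) (nat_lit 0) (nat_lit 0) (XT.lf (nat_lit 0) (nat_lit 35747258956) (nat_lit 1216) (nat_lit 23336979244) (nat_lit 1292) (nat_lit 1815082729) (nat_lit 328) (nat_lit 5) (nat_lit 344) (nat_lit 5) (nat_lit 345) (nat_lit 5) (nat_lit 456) (nat_lit 455) (nat_lit 289)) (XT.nd (nat_lit 78) (nat_lit 0) (nat_lit 76) (XT.lf (nat_lit 76) (nat_lit 27989679367) (nat_lit 0) (nat_lit 9963149946) (nat_lit 1292) (nat_lit 24467404273) (nat_lit 329) (nat_lit 5) (nat_lit 328) (nat_lit 5) (nat_lit 345) (nat_lit 5) (nat_lit 457) (nat_lit 455) (nat_lit 288)) (XT.lf (nat_lit 76) (nat_lit 18314217369) (nat_lit 0) (nat_lit 22771284503) (nat_lit 1292) (nat_lit 22907185377) (nat_lit 330) (nat_lit 5) (nat_lit 329) (nat_lit 5) (nat_lit 346) (nat_lit 5) (nat_lit 458) (nat_lit 455) (nat_lit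 287))))) (XT.nd (nat_lit 234) (nat_lit 1064) (nat_lit 0) (XT.nd (nat_lit 78) (nat_lit 0) (nat_lit 76) (XT.lf (nat_lit 76) (nat_lit 8565594225) (nat_lit 0) (nat_lit 36627209320) (nat_lit 1292) (nat_lit 20426420268) (nat_lit 331) (nat_lit 5) (nat_lit 330) (nat_lit 5) (nat_lit 347) (nat_lit 5) (nat_lit 459) (nat_lit 455) (nat_lit 286)) (XT.nd (nat_lit 78) (nat_lit 0) (nat_lit 76) (XT.lf (nat_lit 0) (nat_lit 50355755220) (nat_lit 1216) (nat_lit 1219503262) (nat_lit 1292) (nat_lit 15726320253) (nat_lit 331) (nat_lit 5) (nat_lit 347) (nat_lit 5) (nat_lit 348) (nat_lit 5) (nat_lit 460) (nat_lit 455) (nat_lit 285)) (XT.lf (nat_lit 0) (nat_lit 56718199976) (nat_lit 1216) (nat_lit 10883687625) (nat_lit 1292) (nat_lit 1437923511) (nat_lit 332) (nat_lit 5) (nat_lit 348) (nat_lit 5) (nat_lit 349) (nat_lit 5) (nat_lit 461) (nat_lit 455) (nat_lit 284)))) (XT.nd (nat_lit 156) (nat_lit 0) (nat_lit 76) (XT.nd (nat_lit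 78) (nat_lit 1216) (nat_lit 0) (XT.lf (nat_lit 76) (nat_lit 50117589960) (nat_lit 0) (nat_lit 14294637319) (nat_lit 1292) (nat_lit 6422324089) (nat_lit 333) (nat_lit 5) (nat_lit 332) (nat_lit 5) (nat_lit 349) (nat_lit 5) (nat_lit 462) (nat_lit 455) (nat_lit 283)) (XT.lf (nat_lit 0) (nat_lit 702448833) (nat_lit 1292) (nat_lit 30599090313) (nat_lit 1368) (nat_lit 41389773199) (nat_lit 316) (nat_lit 5) (nat_lit 333) (nat_lit 5) (nat_lit 334) (nat_lit 5) (nat_lit 463) (nat_lit 455) (nat_lit 282))) (XT.nd (nat_lit 78) (nat_lit 0) (nat_lit 76) (XT.lf (nat_lit 0) (nat_lit 8985455423) (nat_lit 1292) (nat_lit 40566826300) (nat_lit 1368) (nat_lit 25058677531) (nat_lit 317) (nat_lit 5) (nat_lit 334) (nat_lit 5) (nat_lit 335) (nat_lit 5) (nat_lit 464) (nat_lit 455) (nat_lit 281)) (XT.lf (nat_lit 0) (nat_lit 18639198937) (nat_lit 1292) (nat_lit 50541273122) (nat_lit 76) (nat_lit 7417418910) (nat_lit 318) (nat_lit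 5) (nat_lit 335) (nat_lit 5) (nat_lit 319) (nat_lit 5) (nat_lit 465) (nat_lit 455) (nat_lit 280)))))) (XT.nd (nat_lit 468) (nat_lit 3344) (nat_lit 0) (XT.nd (nat_lit 234) (nat_lit 1216) (nat_lit 0) (XT.nd (nat_lit 78) (nat_lit 1216) (nat_lit 0) (XT.lf (nat_lit 0) (nat_lit 18033780655) (nat_lit 836) (nat_lit 11835765694) (nat_lit 912) (nat_lit 48781805476) (nat_lit 307) (nat_lit 5) (nat_lit 318) (nat_lit 5) (nat_lit 319) (nat_lit 5) (nat_lit 466) (nat_lit 455) (nat_lit 279)) (XT.nd (nat_lit 78) (nat_lit 608) (nat_lit 0) (XT.lf (nat_lit 0) (nat_lit 10026176339) (nat_lit 608) (nat_lit 32720803331) (nat_lit 684) (nat_lit 38027939051) (nat_lit 299) (nat_lit 5) (nat_lit 307) (nat_lit 5) (nat_lit 308) (nat_lit 5) (nat_lit 467) (nat_lit 455) (nat_lit 278)) (XT.lf (nat_lit 0) (nat_lit 2132660150) (nat_lit 608) (nat_lit 55169596507) (nat_lit 684) (nat_lit 25671388197) (nat_lit 291) (nat_lit 5) (nat_lit 299)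 (nat_lit 5) (nat_lit 300) (nat_lit 5) (nat_lit 468) (nat_lit 455) (nat_lit 277)))) (XT.nd (nat_lit 78) (nat_lit 1216) (nat_lit 0) (XT.lf (nat_lit 0) (nat_lit 73698656757) (nat_lit 684) (nat_lit 5511287900) (nat_lit 76) (nat_lit 6038961906) (nat_lit 291) (nat_lit 5) (nat_lit 300) (nat_lit 5) (nat_lit 292) (nat_lit 5) (nat_lit 469) (nat_lit 455) (nat_lit 276)) (XT.nd (nat_lit 78) (nat_lit 608) (nat_lit 0) (XT.lf (nat_lit 0) (nat_lit 4497274106) (nat_lit 608) (nat_lit 13163559491) (nat_lit 76) (nat_lit 69937624597) (nat_lit 283) (nat_lit 5) (nat_lit 291) (nat_lit 5) (nat_lit 284) (nat_lit 5) (nat_lit 470) (nat_lit 455) (nat_lit 275)) (XT.lf (nat_lit 0) (nat_lit 22296273790) (nat_lit 684) (nat_lit 20828965989) (nat_lit 76) (nat_lit 46901177609) (nat_lit 275) (nat_lit 5) (nat_lit 284) (nat_lit 5) (nat_lit 276) (nat_lit 5) (nat_lit 471) (nat_lit 455) (nat_lit 274))))) (XT.nd (nat_lit 234) (nat_lit 1824)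 (nat_lit 0) (XT.nd (nat_lit 78) (nat_lit 988) (nat_lit 0) (XT.lf (nat_lit 0) (nat_lit 42135541419) (nat_lit 608) (nat_lit 28307448927) (nat_lit 76) (nat_lit 22098274699) (nat_lit 268) (nat_lit 5) (nat_lit 276) (nat_lit 5) (nat_lit 269) (nat_lit 5) (nat_lit 472) (nat_lit 455) (nat_lit 273)) (XT.nd (nat_lit 78) (nat_lit 456) (nat_lit 0) (XT.lf (nat_lit 0) (nat_lit 59532775260) (nat_lit 532) (nat_lit 4657077528) (nat_lit 608) (nat_lit 30955309923) (nat_lit 261) (nat_lit 5) (nat_lit 268) (nat_lit 5) (nat_lit 269) (nat_lit 5) (nat_lit 473) (nat_lit 455) (nat_lit 272)) (XT.lf (nat_lit 0) (nat_lit 54934801968) (nat_lit 456) (nat_lit 33852695245) (nat_lit 532) (nat_lit 9048539560) (nat_lit 255) (nat_lit 5) (nat_lit 261) (nat_lit 5) (nat_lit 262) (nat_lit 5) (nat_lit 474) (nat_lit 455) (nat_lit 271)))) (XT.nd (nat_lit 156) (nat_lit 836) (nat_lit 0) (XT.nd (nat_lit 78) (nat_lit 456) (nat_lit 0) (XT.lf (nat_lit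 0) (nat_lit 14936133180) (nat_lit 532) (nat_lit 50068740800) (nat_lit 76) (nat_lit 35614911237) (nat_lit 248) (nat_lit 5) (nat_lit 255) (nat_lit 5) (nat_lit 249) (nat_lit 5) (nat_lit 475) (nat_lit 455) (nat_lit 270)) (XT.lf (nat_lit 0) (nat_lit 41219894649) (nat_lit 532) (nat_lit 57042204981) (nat_lit 76) (nat_lit 5239324019) (nat_lit 242) (nat_lit 5) (nat_lit 249) (nat_lit 5) (nat_lit 243) (nat_lit 5) (nat_lit 476) (nat_lit 455) (nat_lit 269))) (XT.nd (nat_lit 78) (nat_lit 380) (nat_lit 0) (XT.lf (nat_lit 0) (nat_lit 42515525173) (nat_lit 456) (nat_lit 27886759744) (nat_lit 532) (nat_lit 36077325893) (nat_lit 236) (nat_lit 5) (nat_lit 242) (nat_lit 5) (nat_lit 243) (nat_lit 5) (nat_lit 477) (nat_lit 455) (nat_lit 268)) (XT.lf (nat_lit 0) (nat_lit 38965284097) (nat_lit 380) (nat_lit 63487490914) (nat_lit 456) (nat_lit 7111662940) (nat_lit 231) (nat_lit 5) (nat_lit 236) (nat_lit 5) (nat_lit 237)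 (nat_lit 5) (nat_lit 478) (nat_lit 455) (nat_lit 267))))))) (XT.nd (nat_lit 60762) (nat_lit 0) (nat_lit 8892) (XT.nd (nat_lit 468) (nat_lit 1900) (nat_lit 0) (XT.nd (nat_lit 234) (nat_lit 1140) (nat_lit 0) (XT.nd (nat_lit 78) (nat_lit 760) (nat_lit 0) (XT.lf (nat_lit 0) (nat_lit 24249034886) (nat_lit 532) (nat_lit 77090837003) (nat_lit 76) (nat_lit 11414870815) (nat_lit 224) (nat_lit 5) (nat_lit 231) (nat_lit 5) (nat_lit 225) (nat_lit 5) (nat_lit 479) (nat_lit 455) (nat_lit 266)) (XT.nd (nat_lit 78) (nat_lit 380) (nat_lit 0) (XT.lf (nat_lit 0) (nat_lit 32546965382) (nat_lit 380) (nat_lit 26171904265) (nat_lit 456) (nat_lit 57332935237) (nat_lit 219) (nat_lit 5) (nat_lit 224) (nat_lit 5) (nat_lit 225) (nat_lit 5) (nat_lit 480) (nat_lit 455) (nat_lit 265)) (XT.lf (nat_lit 0) (nat_lit 29854279426) (nat_lit 380) (nat_lit 66652674768) (nat_lit 456) (nat_lit 22958923260) (nat_lit 214) (nat_lit 5) (nat_lit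 219) (nat_lit 5) (nat_lit 220) (nat_lit 5) (nat_lit 481) (nat_lit 455) (nat_lit 264)))) (XT.nd (nat_lit 78) (nat_lit 684) (nat_lit 0) (XT.lf (nat_lit 0) (nat_lit 14405170030) (nat_lit 456) (nat_lit 95391458257) (nat_lit 76) (nat_lit 13204407841) (nat_lit 208) (nat_lit 5) (nat_lit 214) (nat_lit 5) (nat_lit 209) (nat_lit 5) (nat_lit 482) (nat_lit 455) (nat_lit 263)) (XT.nd (nat_lit 78) (nat_lit 304) (nat_lit 0) (XT.lf (nat_lit 0) (nat_lit 25461379510) (nat_lit 380) (nat_lit 29554050151) (nat_lit 456) (nat_lit 71635119991) (nat_lit 203) (nat_lit 5) (nat_lit 208) (nat_lit 5) (nat_lit 209) (nat_lit 5) (nat_lit 483) (nat_lit 455) (nat_lit 262)) (XT.lf (nat_lit 0) (nat_lit 23825563394) (nat_lit 304) (nat_lit 75576472489) (nat_lit 380) (nat_lit 31028127982) (nat_lit 199) (nat_lit 5) (nat_lit 203) (nat_lit 5) (nat_lit 204) (nat_lit 5) (nat_lit 484) (nat_lit 455) (nat_lit 261))))) (XT.nd (nat_lit 234) (nat_lit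 912) (nat_lit 0) (XT.nd (nat_lit 78) (nat_lit 608) (nat_lit 0) (XT.lf (nat_lit 0) (nat_lit 13047298427) (nat_lit 380) (nat_lit 111580570762) (nat_lit 76) (nat_lit 9717603101) (nat_lit 194) (nat_lit 5) (nat_lit 199) (nat_lit 5) (nat_lit 195) (nat_lit 5) (nat_lit 485) (nat_lit 455) (nat_lit 260)) (XT.nd (nat_lit 78) (nat_lit 304) (nat_lit 0) (XT.lf (nat_lit 0) (nat_lit 21743444049) (nat_lit 304) (nat_lit 39026732682) (nat_lit 380) (nat_lit 77614591454) (nat_lit 190) (nat_lit 5) (nat_lit 194) (nat_lit 5) (nat_lit 195) (nat_lit 5) (nat_lit 486) (nat_lit 455) (nat_lit 259)) (XT.lf (nat_lit 0) (nat_lit 21390011716) (nat_lit 304) (nat_lit 91342996964) (nat_lit 380) (nat_lit 29837405918) (nat_lit 186) (nat_lit 5) (nat_lit 190) (nat_lit 5) (nat_lit 191) (nat_lit 5) (nat_lit 487) (nat_lit 455) (nat_lit 258)))) (XT.nd (nat_lit 156) (nat_lit 228) (nat_lit 0) (XT.nd (nat_lit 78) (nat_lit 304) (nat_lit 0) (XT.lf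 (nat_lit 0) (nat_lit 21651396181) (nat_lit 304) (nat_lit 94569452) (nat_lit 380) (nat_lit 125159095025) (nat_lit 181) (nat_lit 5) (nat_lit 185) (nat_lit 5) (nat_lit 186) (nat_lit 5) (nat_lit 488) (nat_lit 455) (nat_lit 257)) (XT.lf (nat_lit 0) (nat_lit 21931520007) (nat_lit 304) (nat_lit 55755726855) (nat_lit 380) (nat_lit 73688454846) (nat_lit 177) (nat_lit 5) (nat_lit 181) (nat_lit 5) (nat_lit 182) (nat_lit 5) (nat_lit 489) (nat_lit 455) (nat_lit 256))) (XT.nd (nat_lit 59826) (nat_lit 0) (nat_lit 11628) (XT.lf (nat_lit 0) (nat_lit 23113628259) (nat_lit 228) (nat_lit 115221610181) (nat_lit 304) (nat_lit 17677346996) (nat_lit 174) (nat_lit 5) (nat_lit 177) (nat_lit 5) (nat_lit 178) (nat_lit 5) (nat_lit 490) (nat_lit 455) (nat_lit 255)) (XT.lf (nat_lit 0) (nat_lit 18129770833) (nat_lit 1292) (nat_lit 6533978820) (nat_lit 1292) (nat_lit 6533978820) (nat_lit 327) (nat_lit 3) (nat_lit 344) (nat_lit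 3) (nat_lit 344) (nat_lit 5) (nat_lit 456) (nat_lit 456) (nat_lit 288)))))) (XT.nd (nat_lit 546) (nat_lit 2812) (nat_lit 0) (XT.nd (nat_lit 234) (nat_lit 0) (nat_lit 152) (XT.nd (nat_lit 78) (nat_lit 0) (nat_lit 0) (XT.lf (nat_lit 0) (nat_lit 37591602546) (nat_lit 1216) (nat_lit 24471928292) (nat_lit 1292) (nat_lit 1879044090) (nat_lit 328) (nat_lit 5) (nat_lit 344) (nat_lit 5) (nat_lit 345) (nat_lit 5) (nat_lit 457) (nat_lit 456) (nat_lit 287)) (XT.nd (nat_lit 78) (nat_lit 0) (nat_lit 76) (XT.lf (nat_lit 76) (nat_lit 29420148844) (nat_lit 0) (nat_lit 10484887064) (nat_lit 1292) (nat_lit 25634569899) (nat_lit 329) (nat_lit 5) (nat_lit 328) (nat_lit 5) (nat_lit 345) (nat_lit 5) (nat_lit 458) (nat_lit 456) (nat_lit 286)) (XT.lf (nat_lit 76) (nat_lit 19261838180) (nat_lit 0) (nat_lit 23929996445) (nat_lit 1292) (nat_lit 23998922872) (nat_lit 330) (nat_lit 5) (nat_lit 329) (nat_lit 5) (nat_lit 346)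 (nat_lit 5) (nat_lit 459) (nat_lit 456) (nat_lit 285)))) (XT.nd (nat_lit 156) (nat_lit 0) (nat_lit 152) (XT.nd (nat_lit 78) (nat_lit 0) (nat_lit 76) (XT.lf (nat_lit 76) (nat_lit 9026576586) (nat_lit 0) (nat_lit 38475575767) (nat_lit 1292) (nat_lit 21396539121) (nat_lit 331) (nat_lit 5) (nat_lit 330) (nat_lit 5) (nat_lit 347) (nat_lit 5) (nat_lit 460) (nat_lit 456) (nat_lit 284)) (XT.lf (nat_lit 0) (nat_lit 52920728848) (nat_lit 1216) (nat_lit 1247754947) (nat_lit 1292) (nat_lit 16496756138) (nat_lit 331) (nat_lit 5) (nat_lit 347) (nat_lit 5) (nat_lit 348) (nat_lit 5) (nat_lit 461) (nat_lit 456) (nat_lit 283))) (XT.nd (nat_lit 78) (nat_lit 0) (nat_lit 0) (XT.lf (nat_lit 0) (nat_lit 59599225060) (nat_lit 1216) (nat_lit 11394597771) (nat_lit 1292) (nat_lit 1496623324) (nat_lit 332) (nat_lit 5) (nat_lit 348) (nat_lit 5) (nat_lit 349) (nat_lit 5) (nat_lit 462) (nat_lit 456) (nat_lit 282)) (XT.lf (nat_lit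 76) (nat_lit 52655789894) (nat_lit 0) (nat_lit 15020326181) (nat_lit 1292) (nat_lit 6698862577) (nat_lit 333) (nat_lit 5) (nat_lit 332) (nat_lit 5) (nat_lit 349) (nat_lit 5) (nat_lit 463) (nat_lit 456) (nat_lit 281))))) (XT.nd (nat_lit 234) (nat_lit 1900) (nat_lit 0) (XT.nd (nat_lit 78) (nat_lit 0) (nat_lit 76) (XT.lf (nat_lit 0) (nat_lit 779414510) (nat_lit 1292) (nat_lit 32095450957) (nat_lit 1368) (nat_lit 43449755384) (nat_lit 316) (nat_lit 5) (nat_lit 333) (nat_lit 5) (nat_lit 334) (nat_lit 5) (nat_lit 464) (nat_lit 456) (nat_lit 280)) (XT.nd (nat_lit 78) (nat_lit 0) (nat_lit 76) (XT.lf (nat_lit 0) (nat_lit 9474820147) (nat_lit 1292) (nat_lit 42561257631) (nat_lit 1368) (nat_lit 26304224953) (nat_lit 317) (nat_lit 5) (nat_lit 334) (nat_lit 5) (nat_lit 335) (nat_lit 5) (nat_lit 465) (nat_lit 456) (nat_lit 279)) (XT.lf (nat_lit 0) (nat_lit 19609604855) (nat_lit 1292) (nat_lit 53034188728) (nat_lit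 76) (nat_lit 7782836910) (nat_lit 318) (nat_lit 5) (nat_lit 335) (nat_lit 5) (nat_lit 319) (nat_lit 5) (nat_lit 466) (nat_lit 456) (nat_lit 278)))) (XT.nd (nat_lit 156) (nat_lit 608) (nat_lit 0) (XT.nd (nat_lit 78) (nat_lit 608) (nat_lit 0) (XT.lf (nat_lit 0) (nat_lit 18968638891) (nat_lit 836) (nat_lit 12431318830) (nat_lit 912) (nat_lit 51182852108) (nat_lit 307) (nat_lit 5) (nat_lit 318) (nat_lit 5) (nat_lit 319) (nat_lit 5) (nat_lit 467) (nat_lit 456) (nat_lit 277)) (XT.lf (nat_lit 0) (nat_lit 10560816506) (nat_lit 608) (nat_lit 34358973372) (nat_lit 684) (nat_lit 39892809451) (nat_lit 299) (nat_lit 5) (nat_lit 307) (nat_lit 5) (nat_lit 308) (nat_lit 5) (nat_lit 468) (nat_lit 456) (nat_lit 276))) (XT.nd (nat_lit 78) (nat_lit 0) (nat_lit 0) (XT.lf (nat_lit 0) (nat_lit 2272723749) (nat_lit 608) (nat_lit 57928720192) (nat_lit 684) (nat_lit 26919859501) (nat_lit 291) (nat_lit 5) (nat_lit 299) (nat_lit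 5) (nat_lit 300) (nat_lit 5) (nat_lit 469) (nat_lit 456) (nat_lit 275)) (XT.lf (nat_lit 0) (nat_lit 77416035559) (nat_lit 684) (nat_lit 5754032833) (nat_lit 76) (nat_lit 6340308767) (nat_lit 291) (nat_lit 5) (nat_lit 300) (nat_lit 5) (nat_lit 292) (nat_lit 5) (nat_lit 470) (nat_lit 456) (nat_lit 274))))))))
noncomputable def xc119 : XT := (XT.nd (nat_lit 61932) (nat_lit 0) (nat_lit 304) (XT.nd (nat_lit 1014) (nat_lit 2356) (nat_lit 0) (XT.nd (nat_lit 468) (nat_lit 3040) (nat_lit 0) (XT.nd (nat_lit 234) (nat_lit 1520) (nat_lit 0) (XT.nd (nat_lit 78) (nat_lit 1140) (nat_lit 0) (XT.lf (nat_lit 0) (nat_lit 4753655415) (nat_lit 608) (nat_lit 13789230253) (nat_lit 76) (nat_lit 73434548657) (nat_lit 283) (nat_lit 5) (nat_lit 291) (nat_lit 5) (nat_lit 284) (nat_lit 5) (nat_lit 471) (nat_lit 456) (nat_lit 273)) (XT.nd (nat_lit 78) (nat_lit 532) (nat_lit 0) (XT.lf (nat_lit 0) (nat_lit 23441419832) (nat_lit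 684) (nat_lit 21837940154) (nat_lit 76) (nat_lit 49247467111) (nat_lit 275) (nat_lit 5) (nat_lit 284) (nat_lit 5) (nat_lit 276) (nat_lit 5) (nat_lit 472) (nat_lit 456) (nat_lit 272)) (XT.lf (nat_lit 0) (nat_lit 44271532267) (nat_lit 608) (nat_lit 29690423843) (nat_lit 76) (nat_lit 23205494639) (nat_lit 268) (nat_lit 5) (nat_lit 276) (nat_lit 5) (nat_lit 269) (nat_lit 5) (nat_lit 473) (nat_lit 456) (nat_lit 271)))) (XT.nd (nat_lit 78) (nat_lit 988) (nat_lit 0) (XT.lf (nat_lit 0) (nat_lit 62540882885) (nat_lit 532) (nat_lit 4886587685) (nat_lit 608) (nat_lit 32474105441) (nat_lit 261) (nat_lit 5) (nat_lit 268) (nat_lit 5) (nat_lit 269) (nat_lit 5) (nat_lit 474) (nat_lit 456) (nat_lit 270)) (XT.nd (nat_lit 78) (nat_lit 532) (nat_lit 0) (XT.lf (nat_lit 0) (nat_lit 57712898277) (nat_lit 456) (nat_lit 35541091673) (nat_lit 532) (nat_lit 9473034096) (nat_lit 255) (nat_lit 5) (nat_lit 261) (nat_lit 5) (nat_lit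 262) (nat_lit 5) (nat_lit 475) (nat_lit 456) (nat_lit 269)) (XT.lf (nat_lit 0) (nat_lit 15709365214) (nat_lit 532) (nat_lit 52540441937) (nat_lit 76) (nat_lit 37400173614) (nat_lit 248) (nat_lit 5) (nat_lit 255) (nat_lit 5) (nat_lit 249) (nat_lit 5) (nat_lit 476) (nat_lit 456) (nat_lit 268))))) (XT.nd (nat_lit 234) (nat_lit 1748) (nat_lit 0) (XT.nd (nat_lit 78) (nat_lit 836) (nat_lit 0) (XT.lf (nat_lit 0) (nat_lit 43306404276) (nat_lit 532) (nat_lit 59862775774) (nat_lit 76) (nat_lit 5506548427) (nat_lit 242) (nat_lit 5) (nat_lit 249) (nat_lit 5) (nat_lit 243) (nat_lit 5) (nat_lit 477) (nat_lit 456) (nat_lit 267)) (XT.nd (nat_lit 78) (nat_lit 380) (nat_lit 0) (XT.lf (nat_lit 0) (nat_lit 44671936815) (nat_lit 456) (nat_lit 29275056734) (nat_lit 532) (nat_lit 37855859107) (nat_lit 236) (nat_lit 5) (nat_lit 242) (nat_lit 5) (nat_lit 243) (nat_lit 5) (nat_lit 478) (nat_lit 456) (nat_lit 266)) (XT.lf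 (nat_lit 0) (nat_lit 40943966644) (nat_lit 380) (nat_lit 66655218047) (nat_lit 456) (nat_lit 7442761207) (nat_lit 231) (nat_lit 5) (nat_lit 236) (nat_lit 5) (nat_lit 237) (nat_lit 5) (nat_lit 479) (nat_lit 456) (nat_lit 265)))) (XT.nd (nat_lit 156) (nat_lit 836) (nat_lit 0) (XT.nd (nat_lit 78) (nat_lit 380) (nat_lit 0) (XT.lf (nat_lit 0) (nat_lit 25484704946) (nat_lit 532) (nat_lit 80914738179) (nat_lit 76) (nat_lit 11992339405) (nat_lit 224) (nat_lit 5) (nat_lit 231) (nat_lit 5) (nat_lit 225) (nat_lit 5) (nat_lit 480) (nat_lit 456) (nat_lit 264)) (XT.lf (nat_lit 0) (nat_lit 34204076016) (nat_lit 380) (nat_lit 27473135887) (nat_lit 456) (nat_lit 60176510536) (nat_lit 219) (nat_lit 5) (nat_lit 224) (nat_lit 5) (nat_lit 225) (nat_lit 5) (nat_lit 481) (nat_lit 456) (nat_lit 263))) (XT.nd (nat_lit 78) (nat_lit 456) (nat_lit 0) (XT.lf (nat_lit 0) (nat_lit 31376487281) (nat_lit 380) (nat_lit 69977497715)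 (nat_lit 456) (nat_lit 24084535148) (nat_lit 214) (nat_lit 5) (nat_lit 219) (nat_lit 5) (nat_lit 220) (nat_lit 5) (nat_lit 482) (nat_lit 456) (nat_lit 262)) (XT.lf (nat_lit 0) (nat_lit 15146639961) (nat_lit 456) (nat_lit 100131400349) (nat_lit 76) (nat_lit 13872410644) (nat_lit 208) (nat_lit 5) (nat_lit 214) (nat_lit 5) (nat_lit 209) (nat_lit 5) (nat_lit 483) (nat_lit 456) (nat_lit 261)))))) (XT.nd (nat_lit 60372) (nat_lit 0) (nat_lit 11400) (XT.nd (nat_lit 234) (nat_lit 1292) (nat_lit 0) (XT.nd (nat_lit 78) (nat_lit 684) (nat_lit 0) (XT.lf (nat_lit 0) (nat_lit 26763229945) (nat_lit 380) (nat_lit 31023449226) (nat_lit 456) (nat_lit 75195783016) (nat_lit 203) (nat_lit 5) (nat_lit 208) (nat_lit 5) (nat_lit 209) (nat_lit 5) (nat_lit 484) (nat_lit 456) (nat_lit 260)) (XT.nd (nat_lit 78) (nat_lit 380) (nat_lit 0) (XT.lf (nat_lit 0) (nat_lit 25045317800) (nat_lit 304) (nat_lit 79346672508) (nat_lit 380)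 (nat_lit 32559085593) (nat_lit 199) (nat_lit 5) (nat_lit 203) (nat_lit 5) (nat_lit 204) (nat_lit 5) (nat_lit 485) (nat_lit 456) (nat_lit 259)) (XT.lf (nat_lit 0) (nat_lit 13719111443) (nat_lit 380) (nat_lit 117131053191) (nat_lit 76) (nat_lit 10211997294) (nat_lit 194) (nat_lit 5) (nat_lit 199) (nat_lit 5) (nat_lit 195) (nat_lit 5) (nat_lit 486) (nat_lit 456) (nat_lit 258)))) (XT.nd (nat_lit 156) (nat_lit 684) (nat_lit 0) (XT.nd (nat_lit 78) (nat_lit 304) (nat_lit 0) (XT.lf (nat_lit 0) (nat_lit 22858344092) (nat_lit 304) (nat_lit 40969130006) (nat_lit 380) (nat_lit 81475968330) (nat_lit 190) (nat_lit 5) (nat_lit 194) (nat_lit 5) (nat_lit 195) (nat_lit 5) (nat_lit 487) (nat_lit 456) (nat_lit 257)) (XT.lf (nat_lit 0) (nat_lit 22486909856) (nat_lit 304) (nat_lit 95900988297) (nat_lit 380) (nat_lit 31310489518) (nat_lit 186) (nat_lit 5) (nat_lit 190) (nat_lit 5) (nat_lit 191) (nat_lit 5) (nat_lit 488)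 (nat_lit 456) (nat_lit 256))) (XT.nd (nat_lit 78) (nat_lit 304) (nat_lit 0) (XT.lf (nat_lit 0) (nat_lit 22760934745) (nat_lit 304) (nat_lit 90131363) (nat_lit 380) (nat_lit 131398713069) (nat_lit 181) (nat_lit 5) (nat_lit 185) (nat_lit 5) (nat_lit 186) (nat_lit 5) (nat_lit 489) (nat_lit 456) (nat_lit 255)) (XT.lf (nat_lit 0) (nat_lit 23054725312) (nat_lit 304) (nat_lit 58534178258) (nat_lit 380) (nat_lit 77355063966) (nat_lit 177) (nat_lit 5) (nat_lit 181) (nat_lit 5) (nat_lit 182) (nat_lit 5) (nat_lit 490) (nat_lit 456) (nat_lit 254))))) (XT.nd (nat_lit 234) (nat_lit 0) (nat_lit 152) (XT.nd (nat_lit 78) (nat_lit 0) (nat_lit 76) (XT.lf (nat_lit 0) (nat_lit 19063381152) (nat_lit 1292) (nat_lit 6846709420) (nat_lit 1292) (nat_lit 6846709420) (nat_lit 327) (nat_lit 3) (nat_lit 344) (nat_lit 3) (nat_lit 344) (nat_lit 5) (nat_lit 457) (nat_lit 457) (nat_lit 286)) (XT.nd (nat_lit 78) (nat_lit 0) (nat_lit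 0) (XT.lf (nat_lit 0) (nat_lit 39522865795) (nat_lit 1216) (nat_lit 25666590545) (nat_lit 1292) (nat_lit 1948694456) (nat_lit 328) (nat_lit 5) (nat_lit 344) (nat_lit 5) (nat_lit 345) (nat_lit 5) (nat_lit 458) (nat_lit 457) (nat_lit 285)) (XT.lf (nat_lit 76) (nat_lit 30919261056) (nat_lit 0) (nat_lit 11030518828) (nat_lit 1292) (nat_lit 26865319177) (nat_lit 329) (nat_lit 5) (nat_lit 328) (nat_lit 5) (nat_lit 345) (nat_lit 5) (nat_lit 459) (nat_lit 457) (nat_lit 284)))) (XT.nd (nat_lit 156) (nat_lit 0) (nat_lit 152) (XT.nd (nat_lit 78) (nat_lit 0) (nat_lit 76) (XT.lf (nat_lit 76) (nat_lit 20253873348) (nat_lit 0) (nat_lit 25144770841) (nat_lit 1292) (nat_lit 25150232486) (nat_lit 330) (nat_lit 5) (nat_lit 329) (nat_lit 5) (nat_lit 346) (nat_lit 5) (nat_lit 460) (nat_lit 457) (nat_lit 283)) (XT.lf (nat_lit 76) (nat_lit 9507567683) (nat_lit 0) (nat_lit 40414779482) (nat_lit 1292) (nat_lit 22419924207)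 (nat_lit 331) (nat_lit 5) (nat_lit 330) (nat_lit 5) (nat_lit 347) (nat_lit 5) (nat_lit 461) (nat_lit 457) (nat_lit 282))) (XT.nd (nat_lit 78) (nat_lit 0) (nat_lit 76) (XT.lf (nat_lit 0) (nat_lit 55609564262) (nat_lit 1216) (nat_lit 1280461536) (nat_lit 1292) (nat_lit 17307190202) (nat_lit 331) (nat_lit 5) (nat_lit 347) (nat_lit 5) (nat_lit 348) (nat_lit 5) (nat_lit 462) (nat_lit 457) (nat_lit 281)) (XT.lf (nat_lit 0) (nat_lit 62620107026) (nat_lit 1216) (nat_lit 11934146947) (nat_lit 1292) (nat_lit 1559485001) (nat_lit 332) (nat_lit 5) (nat_lit 348) (nat_lit 5) (nat_lit 349) (nat_lit 5) (nat_lit 463) (nat_lit 457) (nat_lit 280))))))) (XT.nd (nat_lit 1014) (nat_lit 5624) (nat_lit 0) (XT.nd (nat_lit 468) (nat_lit 3344) (nat_lit 0) (XT.nd (nat_lit 234) (nat_lit 1292) (nat_lit 0) (XT.nd (nat_lit 78) (nat_lit 1216) (nat_lit 0) (XT.lf (nat_lit 76) (nat_lit 55317894977) (nat_lit 0) (nat_lit 15781280809)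 (nat_lit 1292) (nat_lit 6993372403) (nat_lit 333) (nat_lit 5) (nat_lit 332) (nat_lit 5) (nat_lit 349) (nat_lit 5) (nat_lit 464) (nat_lit 457) (nat_lit 279)) (XT.nd (nat_lit 78) (nat_lit 0) (nat_lit 76) (XT.lf (nat_lit 0) (nat_lit 856338284) (nat_lit 1292) (nat_lit 33669752873) (nat_lit 1368) (nat_lit 45613620500) (nat_lit 316) (nat_lit 5) (nat_lit 333) (nat_lit 5) (nat_lit 334) (nat_lit 5) (nat_lit 465) (nat_lit 457) (nat_lit 278)) (XT.lf (nat_lit 0) (nat_lit 9984925737) (nat_lit 1292) (nat_lit 44658563156) (nat_lit 1368) (nat_lit 27612736469) (nat_lit 317) (nat_lit 5) (nat_lit 334) (nat_lit 5) (nat_lit 335) (nat_lit 5) (nat_lit 466) (nat_lit 457) (nat_lit 277)))) (XT.nd (nat_lit 78) (nat_lit 1444) (nat_lit 0) (XT.lf (nat_lit 0) (nat_lit 20624956728) (nat_lit 1292) (nat_lit 55654924877) (nat_lit 76) (nat_lit 8167032773) (nat_lit 318) (nat_lit 5) (nat_lit 335) (nat_lit 5) (nat_lit 319) (nat_lit 5)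 (nat_lit 467) (nat_lit 457) (nat_lit 276)) (XT.nd (nat_lit 78) (nat_lit 608) (nat_lit 0) (XT.lf (nat_lit 0) (nat_lit 19947156280) (nat_lit 836) (nat_lit 13056299602) (nat_lit 912) (nat_lit 53707488008) (nat_lit 307) (nat_lit 5) (nat_lit 318) (nat_lit 5) (nat_lit 319) (nat_lit 5) (nat_lit 468) (nat_lit 457) (nat_lit 275)) (XT.lf (nat_lit 0) (nat_lit 11119089848) (nat_lit 608) (nat_lit 36078853900) (nat_lit 684) (nat_lit 41854319263) (nat_lit 299) (nat_lit 5) (nat_lit 307) (nat_lit 5) (nat_lit 308) (nat_lit 5) (nat_lit 469) (nat_lit 457) (nat_lit 274))))) (XT.nd (nat_lit 234) (nat_lit 2128) (nat_lit 0) (XT.nd (nat_lit 78) (nat_lit 608) (nat_lit 0) (XT.lf (nat_lit 0) (nat_lit 2416682468) (nat_lit 608) (nat_lit 60825740201) (nat_lit 684) (nat_lit 28234017460) (nat_lit 291) (nat_lit 5) (nat_lit 299) (nat_lit 5) (nat_lit 300) (nat_lit 5) (nat_lit 470) (nat_lit 457) (nat_lit 273)) (XT.nd (nat_lit 78) (nat_lit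 608) (nat_lit 0) (XT.lf (nat_lit 0) (nat_lit 81316266782) (nat_lit 684) (nat_lit 6011966255) (nat_lit 76) (nat_lit 6656778869) (nat_lit 291) (nat_lit 5) (nat_lit 300) (nat_lit 5) (nat_lit 292) (nat_lit 5) (nat_lit 471) (nat_lit 457) (nat_lit 272)) (XT.lf (nat_lit 0) (nat_lit 5019925580) (nat_lit 608) (nat_lit 14449206766) (nat_lit 76) (nat_lit 77106314938) (nat_lit 283) (nat_lit 5) (nat_lit 291) (nat_lit 5) (nat_lit 284) (nat_lit 5) (nat_lit 472) (nat_lit 457) (nat_lit 271)))) (XT.nd (nat_lit 156) (nat_lit 988) (nat_lit 0) (XT.nd (nat_lit 78) (nat_lit 532) (nat_lit 0) (XT.lf (nat_lit 0) (nat_lit 24641003160) (nat_lit 684) (nat_lit 22900382164) (nat_lit 76) (nat_lit 51710956676) (nat_lit 275) (nat_lit 5) (nat_lit 284) (nat_lit 5) (nat_lit 276) (nat_lit 5) (nat_lit 473) (nat_lit 457) (nat_lit 270)) (XT.lf (nat_lit 0) (nat_lit 46511606637) (nat_lit 608) (nat_lit 31145559519) (nat_lit 76) (nat_lit 24367861167)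 (nat_lit 268) (nat_lit 5) (nat_lit 276) (nat_lit 5) (nat_lit 269) (nat_lit 5) (nat_lit 474) (nat_lit 457) (nat_lit 269))) (XT.nd (nat_lit 78) (nat_lit 456) (nat_lit 0) (XT.lf (nat_lit 0) (nat_lit 65696470214) (nat_lit 532) (nat_lit 5127884218) (nat_lit 608) (nat_lit 34071534090) (nat_lit 261) (nat_lit 5) (nat_lit 268) (nat_lit 5) (nat_lit 269) (nat_lit 5) (nat_lit 475) (nat_lit 457) (nat_lit 268)) (XT.lf (nat_lit 0) (nat_lit 60626984199) (nat_lit 456) (nat_lit 37314301962) (nat_lit 532) (nat_lit 9921350252) (nat_lit 255) (nat_lit 5) (nat_lit 261) (nat_lit 5) (nat_lit 262) (nat_lit 5) (nat_lit 476) (nat_lit 457) (nat_lit 267)))))) (XT.nd (nat_lit 546) (nat_lit 2508) (nat_lit 0) (XT.nd (nat_lit 234) (nat_lit 1672) (nat_lit 0) (XT.nd (nat_lit 78) (nat_lit 912) (nat_lit 0) (XT.lf (nat_lit 0) (nat_lit 16518802069) (nat_lit 532) (nat_lit 55138678635) (nat_lit 76) (nat_lit 39274279179) (nat_lit 248) (nat_lit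 5) (nat_lit 255) (nat_lit 5) (nat_lit 249) (nat_lit 5) (nat_lit 477) (nat_lit 457) (nat_lit 266)) (XT.nd (nat_lit 78) (nat_lit 456) (nat_lit 0) (XT.lf (nat_lit 0) (nat_lit 45494867252) (nat_lit 532) (nat_lit 62827307347) (nat_lit 76) (nat_lit 5786645197) (nat_lit 242) (nat_lit 5) (nat_lit 249) (nat_lit 5) (nat_lit 243) (nat_lit 5) (nat_lit 478) (nat_lit 457) (nat_lit 265)) (XT.lf (nat_lit 0) (nat_lit 46933320852) (nat_lit 456) (nat_lit 30733330208) (nat_lit 532) (nat_lit 39725674210) (nat_lit 236) (nat_lit 5) (nat_lit 242) (nat_lit 5) (nat_lit 243) (nat_lit 5) (nat_lit 479) (nat_lit 457) (nat_lit 264)))) (XT.nd (nat_lit 156) (nat_lit 760) (nat_lit 0) (XT.nd (nat_lit 78) (nat_lit 532) (nat_lit 0) (XT.lf (nat_lit 0) (nat_lit 43018755309) (nat_lit 380) (nat_lit 69981949550) (nat_lit 456) (nat_lit 7792690760) (nat_lit 231) (nat_lit 5) (nat_lit 236) (nat_lit 5) (nat_lit 237) (nat_lit 5) (nat_lit 480)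 (nat_lit 457) (nat_lit 263)) (XT.lf (nat_lit 0) (nat_lit 26779999889) (nat_lit 532) (nat_lit 84932683093) (nat_lit 76) (nat_lit 12598056193) (nat_lit 224) (nat_lit 5) (nat_lit 231) (nat_lit 5) (nat_lit 225) (nat_lit 5) (nat_lit 481) (nat_lit 457) (nat_lit 262))) (XT.nd (nat_lit 78) (nat_lit 380) (nat_lit 0) (XT.lf (nat_lit 0) (nat_lit 35941275160) (nat_lit 380) (nat_lit 28840113688) (nat_lit 456) (nat_lit 63164409567) (nat_lit 219) (nat_lit 5) (nat_lit 224) (nat_lit 5) (nat_lit 225) (nat_lit 5) (nat_lit 482) (nat_lit 457) (nat_lit 261)) (XT.lf (nat_lit 0) (nat_lit 32972063467) (nat_lit 380) (nat_lit 73469287983) (nat_lit 456) (nat_lit 25268504059) (nat_lit 214) (nat_lit 5) (nat_lit 219) (nat_lit 5) (nat_lit 220) (nat_lit 5) (nat_lit 483) (nat_lit 457) (nat_lit 260))))) (XT.nd (nat_lit 234) (nat_lit 1368) (nat_lit 0) (XT.nd (nat_lit 78) (nat_lit 684) (nat_lit 0) (XT.lf (nat_lit 0) (nat_lit 15923211351)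 (nat_lit 456) (nat_lit 105111094338) (nat_lit 76) (nat_lit 14573090052) (nat_lit 208) (nat_lit 5) (nat_lit 214) (nat_lit 5) (nat_lit 209) (nat_lit 5) (nat_lit 484) (nat_lit 457) (nat_lit 259)) (XT.nd (nat_lit 78) (nat_lit 304) (nat_lit 0) (XT.lf (nat_lit 0) (nat_lit 28127497074) (nat_lit 380) (nat_lit 32567090229) (nat_lit 456) (nat_lit 78936440217) (nat_lit 203) (nat_lit 5) (nat_lit 208) (nat_lit 5) (nat_lit 209) (nat_lit 5) (nat_lit 485) (nat_lit 457) (nat_lit 258)) (XT.lf (nat_lit 0) (nat_lit 26323412475) (nat_lit 304) (nat_lit 83306184269) (nat_lit 380) (nat_lit 34168492220) (nat_lit 199) (nat_lit 5) (nat_lit 203) (nat_lit 5) (nat_lit 204) (nat_lit 5) (nat_lit 486) (nat_lit 457) (nat_lit 257)))) (XT.nd (nat_lit 156) (nat_lit 684) (nat_lit 0) (XT.nd (nat_lit 78) (nat_lit 304) (nat_lit 0) (XT.lf (nat_lit 0) (nat_lit 14422707009) (nat_lit 380) (nat_lit 122961713688) (nat_lit 76) (nat_lit 10730319642)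 (nat_lit 194) (nat_lit 5) (nat_lit 199) (nat_lit 5) (nat_lit 195) (nat_lit 5) (nat_lit 487) (nat_lit 457) (nat_lit 256)) (XT.lf (nat_lit 0) (nat_lit 24026411266) (nat_lit 304) (nat_lit 43009478290) (nat_lit 380) (nat_lit 85532213280) (nat_lit 190) (nat_lit 5) (nat_lit 194) (nat_lit 5) (nat_lit 195) (nat_lit 5) (nat_lit 488) (nat_lit 457) (nat_lit 255))) (XT.nd (nat_lit 78) (nat_lit 380) (nat_lit 0) (XT.lf (nat_lit 0) (nat_lit 23636105739) (nat_lit 304) (nat_lit 100687730669) (nat_lit 380) (nat_lit 32858973907) (nat_lit 186) (nat_lit 5) (nat_lit 190) (nat_lit 5) (nat_lit 191) (nat_lit 5) (nat_lit 489) (nat_lit 457) (nat_lit 254)) (XT.lf (nat_lit 0) (nat_lit 23923442937) (nat_lit 304) (nat_lit 86323589) (nat_lit 380) (nat_lit 137952016789) (nat_lit 181) (nat_lit 5) (nat_lit 185) (nat_lit 5) (nat_lit 186) (nat_lit 5) (nat_lit 490) (nat_lit 457) (nat_lit 253))))))))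
noncomputable def xc120 : XT := (XT.nd (nat_lit 2028) (nat_lit 2508) (nat_lit 0) (XT.nd (nat_lit 1014) (nat_lit 6080) (nat_lit 0) (XT.nd (nat_lit 468) (nat_lit 2128) (nat_lit 0) (XT.nd (nat_lit 234) (nat_lit 0) (nat_lit 152) (XT.nd (nat_lit 78) (nat_lit 0) (nat_lit 76) (XT.lf (nat_lit 0) (nat_lit 20041150461) (nat_lit 1292) (nat_lit 7176375194) (nat_lit 1292) (nat_lit 7176375194) (nat_lit 327) (nat_lit 3) (nat_lit 344) (nat_lit 3) (nat_lit 344) (nat_lit 5) (nat_lit 458) (nat_lit 458) (nat_lit 284)) (XT.nd (nat_lit 78) (nat_lit 0) (nat_lit 0) (XT.lf (nat_lit 0) (nat_lit 41545887200) (nat_lit 1216) (nat_lit 26923675935) (nat_lit 1292) (nat_lit 2024086696) (nat_lit 328) (nat_lit 5) (nat_lit 344) (nat_lit 5) (nat_lit 345) (nat_lit 5) (nat_lit 459) (nat_lit 458) (nat_lit 283)) (XT.lf (nat_lit 76) (nat_lit 32490715964) (nat_lit 0) (nat_lit 11601443782) (nat_lit 1292) (nat_lit 28162345484) (nat_lit 329)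 (nat_lit 5) (nat_lit 328) (nat_lit 5) (nat_lit 345) (nat_lit 5) (nat_lit 460) (nat_lit 458) (nat_lit 282)))) (XT.nd (nat_lit 78) (nat_lit 0) (nat_lit 76) (XT.lf (nat_lit 76) (nat_lit 21292819404) (nat_lit 0) (nat_lit 26418584960) (nat_lit 1292) (nat_lit 26363629345) (nat_lit 330) (nat_lit 5) (nat_lit 329) (nat_lit 5) (nat_lit 346) (nat_lit 5) (nat_lit 461) (nat_lit 458) (nat_lit 281)) (XT.nd (nat_lit 78) (nat_lit 0) (nat_lit 76) (XT.lf (nat_lit 76) (nat_lit 10009850618) (nat_lit 0) (nat_lit 42449509320) (nat_lit 1292) (nat_lit 23498796273) (nat_lit 331) (nat_lit 5) (nat_lit 330) (nat_lit 5) (nat_lit 347) (nat_lit 5) (nat_lit 462) (nat_lit 458) (nat_lit 280)) (XT.lf (nat_lit 0) (nat_lit 58428862404) (nat_lit 1216) (nat_lit 1317562926) (nat_lit 1292) (nat_lit 18159485092) (nat_lit 331) (nat_lit 5) (nat_lit 347) (nat_lit 5) (nat_lit 348) (nat_lit 5) (nat_lit 463) (nat_lit 458) (nat_lit 279))))) (XT.nd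 (nat_lit 234) (nat_lit 1292) (nat_lit 0) (XT.nd (nat_lit 78) (nat_lit 1216) (nat_lit 0) (XT.lf (nat_lit 0) (nat_lit 65788228670) (nat_lit 1216) (nat_lit 12503479499) (nat_lit 1292) (nat_lit 1626602571) (nat_lit 332) (nat_lit 5) (nat_lit 348) (nat_lit 5) (nat_lit 349) (nat_lit 5) (nat_lit 464) (nat_lit 458) (nat_lit 278)) (XT.nd (nat_lit 78) (nat_lit 1216) (nat_lit 0) (XT.lf (nat_lit 76) (nat_lit 58110379829) (nat_lit 0) (nat_lit 16579359197) (nat_lit 1292) (nat_lit 7306366825) (nat_lit 333) (nat_lit 5) (nat_lit 332) (nat_lit 5) (nat_lit 349) (nat_lit 5) (nat_lit 465) (nat_lit 458) (nat_lit 277)) (XT.lf (nat_lit 0) (nat_lit 933579732) (nat_lit 1292) (nat_lit 35325602755) (nat_lit 1368) (nat_lit 47886480524) (nat_lit 316) (nat_lit 5) (nat_lit 333) (nat_lit 5) (nat_lit 334) (nat_lit 5) (nat_lit 466) (nat_lit 458) (nat_lit 276)))) (XT.nd (nat_lit 156) (nat_lit 1368) (nat_lit 0) (XT.nd (nat_lit 78) (nat_lit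 0) (nat_lit 76) (XT.lf (nat_lit 0) (nat_lit 10517155773) (nat_lit 1292) (nat_lit 46863593486) (nat_lit 1368) (nat_lit 28987296439) (nat_lit 317) (nat_lit 5) (nat_lit 334) (nat_lit 5) (nat_lit 335) (nat_lit 5) (nat_lit 467) (nat_lit 458) (nat_lit 275)) (XT.lf (nat_lit 0) (nat_lit 21687834161) (nat_lit 1292) (nat_lit 58409577435) (nat_lit 76) (nat_lit 8570898259) (nat_lit 318) (nat_lit 5) (nat_lit 335) (nat_lit 5) (nat_lit 319) (nat_lit 5) (nat_lit 468) (nat_lit 458) (nat_lit 274))) (XT.nd (nat_lit 78) (nat_lit 608) (nat_lit 0) (XT.lf (nat_lit 0) (nat_lit 20971802480) (nat_lit 836) (nat_lit 13712211934) (nat_lit 912) (nat_lit 56361563810) (nat_lit 307) (nat_lit 5) (nat_lit 318) (nat_lit 5) (nat_lit 319) (nat_lit 5) (nat_lit 469) (nat_lit 458) (nat_lit 273)) (XT.lf (nat_lit 0) (nat_lit 11702466124) (nat_lit 608) (nat_lit 37884548848) (nat_lit 684) (nat_lit 43916984741) (nat_lit 299) (nat_lit 5) (nat_lit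 307) (nat_lit 5) (nat_lit 308) (nat_lit 5) (nat_lit 470) (nat_lit 458) (nat_lit 272)))))) (XT.nd (nat_lit 468) (nat_lit 3192) (nat_lit 0) (XT.nd (nat_lit 234) (nat_lit 1672) (nat_lit 0) (XT.nd (nat_lit 78) (nat_lit 608) (nat_lit 0) (XT.lf (nat_lit 0) (nat_lit 2565020022) (nat_lit 608) (nat_lit 63867556916) (nat_lit 684) (nat_lit 29616843034) (nat_lit 291) (nat_lit 5) (nat_lit 299) (nat_lit 5) (nat_lit 300) (nat_lit 5) (nat_lit 471) (nat_lit 458) (nat_lit 271)) (XT.nd (nat_lit 78) (nat_lit 608) (nat_lit 0) (XT.lf (nat_lit 0) (nat_lit 85408773496) (nat_lit 684) (nat_lit 6285563916) (nat_lit 76) (nat_lit 6989123175) (nat_lit 291) (nat_lit 5) (nat_lit 300) (nat_lit 5) (nat_lit 292) (nat_lit 5) (nat_lit 472) (nat_lit 458) (nat_lit 270)) (XT.lf (nat_lit 0) (nat_lit 5296851469) (nat_lit 608) (nat_lit 15144923341) (nat_lit 76) (nat_lit 80961665921) (nat_lit 283) (nat_lit 5) (nat_lit 291) (nat_lit 5) (nat_lit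 284) (nat_lit 5) (nat_lit 473) (nat_lit 458) (nat_lit 269)))) (XT.nd (nat_lit 78) (nat_lit 1064) (nat_lit 0) (XT.lf (nat_lit 0) (nat_lit 25898007819) (nat_lit 684) (nat_lit 24018684721) (nat_lit 76) (nat_lit 54297516945) (nat_lit 275) (nat_lit 5) (nat_lit 284) (nat_lit 5) (nat_lit 276) (nat_lit 5) (nat_lit 474) (nat_lit 458) (nat_lit 268)) (XT.nd (nat_lit 78) (nat_lit 532) (nat_lit 0) (XT.lf (nat_lit 0) (nat_lit 48861221215) (nat_lit 608) (nat_lit 32676183967) (nat_lit 76) (nat_lit 25588151547) (nat_lit 268) (nat_lit 5) (nat_lit 276) (nat_lit 5) (nat_lit 269) (nat_lit 5) (nat_lit 475) (nat_lit 458) (nat_lit 267)) (XT.lf (nat_lit 0) (nat_lit 69007183236) (nat_lit 532) (nat_lit 5381527542) (nat_lit 608) (nat_lit 35751277122) (nat_lit 261) (nat_lit 5) (nat_lit 268) (nat_lit 5) (nat_lit 269) (nat_lit 5) (nat_lit 476) (nat_lit 458) (nat_lit 266))))) (XT.nd (nat_lit 234) (nat_lit 1748) (nat_lit 0) (XT.nd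 (nat_lit 78) (nat_lit 988) (nat_lit 0) (XT.lf (nat_lit 0) (nat_lit 63684130241) (nat_lit 456) (nat_lit 39176530172) (nat_lit 532) (nat_lit 10394437675) (nat_lit 255) (nat_lit 5) (nat_lit 261) (nat_lit 5) (nat_lit 262) (nat_lit 5) (nat_lit 477) (nat_lit 458) (nat_lit 265)) (XT.nd (nat_lit 78) (nat_lit 456) (nat_lit 0) (XT.lf (nat_lit 0) (nat_lit 17366482394) (nat_lit 532) (nat_lit 57869503360) (nat_lit 76) (nat_lit 41241709132) (nat_lit 248) (nat_lit 5) (nat_lit 255) (nat_lit 5) (nat_lit 249) (nat_lit 5) (nat_lit 478) (nat_lit 458) (nat_lit 264)) (XT.lf (nat_lit 0) (nat_lit 47790601782) (nat_lit 532) (nat_lit 65942725126) (nat_lit 76) (nat_lit 6080303397) (nat_lit 242) (nat_lit 5) (nat_lit 249) (nat_lit 5) (nat_lit 243) (nat_lit 5) (nat_lit 479) (nat_lit 458) (nat_lit 263)))) (XT.nd (nat_lit 156) (nat_lit 912) (nat_lit 0) (XT.nd (nat_lit 78) (nat_lit 380) (nat_lit 0) (XT.lf (nat_lit 0) (nat_lit 49305190700)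 (nat_lit 456) (nat_lit 32265026775) (nat_lit 532) (nat_lit 41691116332) (nat_lit 236) (nat_lit 5) (nat_lit 242) (nat_lit 5) (nat_lit 243) (nat_lit 5) (nat_lit 480) (nat_lit 458) (nat_lit 262)) (XT.lf (nat_lit 0) (nat_lit 45194718319) (nat_lit 380) (nat_lit 73475578185) (nat_lit 456) (nat_lit 8162181527) (nat_lit 231) (nat_lit 5) (nat_lit 236) (nat_lit 5) (nat_lit 237) (nat_lit 5) (nat_lit 481) (nat_lit 458) (nat_lit 261))) (XT.nd (nat_lit 78) (nat_lit 380) (nat_lit 0) (XT.lf (nat_lit 0) (nat_lit 28138101649) (nat_lit 532) (nat_lit 89154109090) (nat_lit 76) (nat_lit 13233491718) (nat_lit 224) (nat_lit 5) (nat_lit 231) (nat_lit 5) (nat_lit 225) (nat_lit 5) (nat_lit 482) (nat_lit 458) (nat_lit 260)) (XT.lf (nat_lit 0) (nat_lit 37762824489) (nat_lit 380) (nat_lit 30276061329) (nat_lit 456) (nat_lit 66303649096) (nat_lit 219) (nat_lit 5) (nat_lit 224) (nat_lit 5) (nat_lit 225) (nat_lit 5) (nat_lit 483)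 (nat_lit 458) (nat_lit 259))))))) (XT.nd (nat_lit 60996) (nat_lit 0) (nat_lit 5244) (XT.nd (nat_lit 468) (nat_lit 304) (nat_lit 0) (XT.nd (nat_lit 234) (nat_lit 988) (nat_lit 0) (XT.nd (nat_lit 78) (nat_lit 836) (nat_lit 0) (XT.lf (nat_lit 0) (nat_lit 34644931332) (nat_lit 380) (nat_lit 77136326425) (nat_lit 456) (nat_lit 26513554799) (nat_lit 214) (nat_lit 5) (nat_lit 219) (nat_lit 5) (nat_lit 220) (nat_lit 5) (nat_lit 484) (nat_lit 458) (nat_lit 258)) (XT.nd (nat_lit 78) (nat_lit 380) (nat_lit 0) (XT.lf (nat_lit 0) (nat_lit 16736822614) (nat_lit 456) (nat_lit 110342271706) (nat_lit 76) (nat_lit 15308147163) (nat_lit 208) (nat_lit 5) (nat_lit 214) (nat_lit 5) (nat_lit 209) (nat_lit 5) (nat_lit 485) (nat_lit 458) (nat_lit 257)) (XT.lf (nat_lit 0) (nat_lit 29557550505) (nat_lit 380) (nat_lit 34188613486) (nat_lit 456) (nat_lit 82865908985) (nat_lit 203) (nat_lit 5) (nat_lit 208) (nat_lit 5) (nat_lit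 209) (nat_lit 5) (nat_lit 486) (nat_lit 458) (nat_lit 256)))) (XT.nd (nat_lit 78) (nat_lit 684) (nat_lit 0) (XT.lf (nat_lit 0) (nat_lit 27663010568) (nat_lit 304) (nat_lit 87464398821) (nat_lit 380) (nat_lit 35860093563) (nat_lit 199) (nat_lit 5) (nat_lit 203) (nat_lit 5) (nat_lit 204) (nat_lit 5) (nat_lit 487) (nat_lit 458) (nat_lit 255)) (XT.nd (nat_lit 78) (nat_lit 304) (nat_lit 0) (XT.lf (nat_lit 0) (nat_lit 15159842355) (nat_lit 380) (nat_lit 129086314417) (nat_lit 76) (nat_lit 11273840144) (nat_lit 194) (nat_lit 5) (nat_lit 199) (nat_lit 5) (nat_lit 195) (nat_lit 5) (nat_lit 488) (nat_lit 458) (nat_lit 254)) (XT.lf (nat_lit 0) (nat_lit 25250543592) (nat_lit 304) (nat_lit 45152597812) (nat_lit 380) (nat_lit 89792902433) (nat_lit 190) (nat_lit 5) (nat_lit 194) (nat_lit 5) (nat_lit 195) (nat_lit 5) (nat_lit 489) (nat_lit 458) (nat_lit 253))))) (XT.nd (nat_lit 60216) (nat_lit 0) (nat_lit 10792)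 (XT.nd (nat_lit 60060) (nat_lit 0) (nat_lit 10716) (XT.lf (nat_lit 0) (nat_lit 24840451062) (nat_lit 304) (nat_lit 105714582470) (nat_lit 380) (nat_lit 34486466741) (nat_lit 186) (nat_lit 5) (nat_lit 190) (nat_lit 5) (nat_lit 191) (nat_lit 5) (nat_lit 490) (nat_lit 458) (nat_lit 252)) (XT.nd (nat_lit 78) (nat_lit 0) (nat_lit 76) (XT.lf (nat_lit 0) (nat_lit 21065521137) (nat_lit 1292) (nat_lit 7523702164) (nat_lit 1292) (nat_lit 7523702164) (nat_lit 327) (nat_lit 3) (nat_lit 344) (nat_lit 3) (nat_lit 344) (nat_lit 5) (nat_lit 459) (nat_lit 459) (nat_lit 282)) (XT.lf (nat_lit 0) (nat_lit 43665701392) (nat_lit 1216) (nat_lit 28246055525) (nat_lit 1292) (nat_lit 2105297849) (nat_lit 328) (nat_lit 5) (nat_lit 344) (nat_lit 5) (nat_lit 345) (nat_lit 5) (nat_lit 460) (nat_lit 459) (nat_lit 281)))) (XT.nd (nat_lit 156) (nat_lit 0) (nat_lit 152) (XT.nd (nat_lit 78) (nat_lit 0) (nat_lit 76) (XT.lf (nat_lit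 76) (nat_lit 34138373626) (nat_lit 0) (nat_lit 12199111447) (nat_lit 1292) (nat_lit 29528522030) (nat_lit 329) (nat_lit 5) (nat_lit 328) (nat_lit 5) (nat_lit 345) (nat_lit 5) (nat_lit 461) (nat_lit 459) (nat_lit 280)) (XT.lf (nat_lit 76) (nat_lit 22381272065) (nat_lit 0) (nat_lit 27754548744) (nat_lit 1292) (nat_lit 27641797419) (nat_lit 330) (nat_lit 5) (nat_lit 329) (nat_lit 5) (nat_lit 346) (nat_lit 5) (nat_lit 462) (nat_lit 459) (nat_lit 279))) (XT.nd (nat_lit 78) (nat_lit 0) (nat_lit 76) (XT.lf (nat_lit 76) (nat_lit 10534746370) (nat_lit 0) (nat_lit 44584674911) (nat_lit 1292) (nat_lit 24635528245) (nat_lit 331) (nat_lit 5) (nat_lit 330) (nat_lit 5) (nat_lit 347) (nat_lit 5) (nat_lit 463) (nat_lit 459) (nat_lit 278)) (XT.lf (nat_lit 0) (nat_lit 61385516344) (nat_lit 1216) (nat_lit 1359022310) (nat_lit 1292) (nat_lit 19055609351) (nat_lit 331) (nat_lit 5) (nat_lit 347) (nat_lit 5) (nat_lit 348)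 (nat_lit 5) (nat_lit 464) (nat_lit 459) (nat_lit 277)))))) (XT.nd (nat_lit 546) (nat_lit 3344) (nat_lit 0) (XT.nd (nat_lit 234) (nat_lit 1292) (nat_lit 0) (XT.nd (nat_lit 78) (nat_lit 1216) (nat_lit 0) (XT.lf (nat_lit 0) (nat_lit 69111305675) (nat_lit 1216) (nat_lit 13103823727) (nat_lit 1292) (nat_lit 1698085370) (nat_lit 332) (nat_lit 5) (nat_lit 348) (nat_lit 5) (nat_lit 349) (nat_lit 5) (nat_lit 465) (nat_lit 459) (nat_lit 276)) (XT.nd (nat_lit 78) (nat_lit 1216) (nat_lit 0) (XT.lf (nat_lit 76) (nat_lit 61040016827) (nat_lit 0) (nat_lit 17416503436) (nat_lit 1292) (nat_lit 7638420588) (nat_lit 333) (nat_lit 5) (nat_lit 332) (nat_lit 5) (nat_lit 349) (nat_lit 5) (nat_lit 466) (nat_lit 459) (nat_lit 275)) (XT.lf (nat_lit 0) (nat_lit 1011482786) (nat_lit 1292) (nat_lit 37066814628) (nat_lit 1368) (nat_lit 50273710673) (nat_lit 316) (nat_lit 5) (nat_lit 333) (nat_lit 5) (nat_lit 334) (nat_lit 5)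 (nat_lit 467) (nat_lit 459) (nat_lit 274)))) (XT.nd (nat_lit 156) (nat_lit 1368) (nat_lit 0) (XT.nd (nat_lit 78) (nat_lit 0) (nat_lit 76) (XT.lf (nat_lit 0) (nat_lit 11072930794) (nat_lit 1292) (nat_lit 49181469007) (nat_lit 1368) (nat_lit 30431149375) (nat_lit 317) (nat_lit 5) (nat_lit 334) (nat_lit 5) (nat_lit 335) (nat_lit 5) (nat_lit 468) (nat_lit 459) (nat_lit 273)) (XT.lf (nat_lit 0) (nat_lit 22800914845) (nat_lit 1292) (nat_lit 61304574506) (nat_lit 76) (nat_lit 8995374100) (nat_lit 318) (nat_lit 5) (nat_lit 335) (nat_lit 5) (nat_lit 319) (nat_lit 5) (nat_lit 469) (nat_lit 459) (nat_lit 272))) (XT.nd (nat_lit 78) (nat_lit 608) (nat_lit 0) (XT.lf (nat_lit 0) (nat_lit 22045143974) (nat_lit 836) (nat_lit 14400631921) (nat_lit 912) (nat_lit 59151253249) (nat_lit 307) (nat_lit 5) (nat_lit 318) (nat_lit 5) (nat_lit 319) (nat_lit 5) (nat_lit 470) (nat_lit 459) (nat_lit 271)) (XT.lf (nat_lit 0) (nat_lit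 12312461796) (nat_lit 608) (nat_lit 39780365636) (nat_lit 684) (nat_lit 46085577302) (nat_lit 299) (nat_lit 5) (nat_lit 307) (nat_lit 5) (nat_lit 308) (nat_lit 5) (nat_lit 471) (nat_lit 459) (nat_lit 270))))) (XT.nd (nat_lit 234) (nat_lit 2128) (nat_lit 0) (XT.nd (nat_lit 78) (nat_lit 608) (nat_lit 0) (XT.lf (nat_lit 0) (nat_lit 2718217445) (nat_lit 608) (nat_lit 67061415220) (nat_lit 684) (nat_lit 31071494439) (nat_lit 291) (nat_lit 5) (nat_lit 299) (nat_lit 5) (nat_lit 300) (nat_lit 5) (nat_lit 472) (nat_lit 459) (nat_lit 269)) (XT.nd (nat_lit 78) (nat_lit 608) (nat_lit 0) (XT.lf (nat_lit 0) (nat_lit 89703423848) (nat_lit 684) (nat_lit 6575351724) (nat_lit 76) (nat_lit 7338130684) (nat_lit 291) (nat_lit 5) (nat_lit 300) (nat_lit 5) (nat_lit 292) (nat_lit 5) (nat_lit 473) (nat_lit 459) (nat_lit 268)) (XT.lf (nat_lit 0) (nat_lit 5585212963) (nat_lit 608) (nat_lit 15877912126) (nat_lit 76) (nat_lit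 85009781177) (nat_lit 283) (nat_lit 5) (nat_lit 291) (nat_lit 5) (nat_lit 284) (nat_lit 5) (nat_lit 474) (nat_lit 459) (nat_lit 267)))) (XT.nd (nat_lit 156) (nat_lit 988) (nat_lit 0) (XT.nd (nat_lit 78) (nat_lit 532) (nat_lit 0) (XT.lf (nat_lit 0) (nat_lit 27215542678) (nat_lit 684) (nat_lit 25195386257) (nat_lit 76) (nat_lit 57013311100) (nat_lit 275) (nat_lit 5) (nat_lit 284) (nat_lit 5) (nat_lit 276) (nat_lit 5) (nat_lit 475) (nat_lit 459) (nat_lit 266)) (XT.lf (nat_lit 0) (nat_lit 51326082046) (nat_lit 608) (nat_lit 34285817629) (nat_lit 76) (nat_lit 26869280050) (nat_lit 268) (nat_lit 5) (nat_lit 276) (nat_lit 5) (nat_lit 269) (nat_lit 5) (nat_lit 476) (nat_lit 459) (nat_lit 265))) (XT.nd (nat_lit 78) (nat_lit 456) (nat_lit 0) (XT.lf (nat_lit 0) (nat_lit 72481024947) (nat_lit 532) (nat_lit 5648108785) (nat_lit 608) (nat_lit 37517223134) (nat_lit 261) (nat_lit 5) (nat_lit 268) (nat_lit 5) (nat_lit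 269) (nat_lit 5) (nat_lit 477) (nat_lit 459) (nat_lit 264)) (XT.lf (nat_lit 0) (nat_lit 66891735241) (nat_lit 456) (nat_lit 41132193971) (nat_lit 532) (nat_lit 10893315940) (nat_lit 255) (nat_lit 5) (nat_lit 261) (nat_lit 5) (nat_lit 262) (nat_lit 5) (nat_lit 478) (nat_lit 459) (nat_lit 263))))))))
noncomputable def xc121 : XT := (XT.nd (nat_lit 62088) (nat_lit 0) (nat_lit 684) (XT.nd (nat_lit 61074) (nat_lit 0) (nat_lit 7676) (XT.nd (nat_lit 468) (nat_lit 2204) (nat_lit 0) (XT.nd (nat_lit 234) (nat_lit 1292) (nat_lit 0) (XT.nd (nat_lit 78) (nat_lit 912) (nat_lit 0) (XT.lf (nat_lit 0) (nat_lit 18254525536) (nat_lit 532) (nat_lit 60739296709) (nat_lit 76) (nat_lit 43307165106) (nat_lit 248) (nat_lit 5) (nat_lit 255) (nat_lit 5) (nat_lit 249) (nat_lit 5) (nat_lit 479) (nat_lit 459) (nat_lit 262)) (XT.nd (nat_lit 78) (nat_lit 456) (nat_lit 0) (XT.lf (nat_lit 0) (nat_lit 50199171479) (nat_lit 532) (nat_lit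 69216326155) (nat_lit 76) (nat_lit 6388242322) (nat_lit 242) (nat_lit 5) (nat_lit 249) (nat_lit 5) (nat_lit 243) (nat_lit 5) (nat_lit 480) (nat_lit 459) (nat_lit 261)) (XT.lf (nat_lit 0) (nat_lit 51793310830) (nat_lit 456) (nat_lit 33873770229) (nat_lit 532) (nat_lit 43756768214) (nat_lit 236) (nat_lit 5) (nat_lit 242) (nat_lit 5) (nat_lit 243) (nat_lit 5) (nat_lit 481) (nat_lit 459) (nat_lit 260)))) (XT.nd (nat_lit 78) (nat_lit 912) (nat_lit 0) (XT.lf (nat_lit 0) (nat_lit 47477152870) (nat_lit 380) (nat_lit 77144396693) (nat_lit 456) (nat_lit 8552019610) (nat_lit 231) (nat_lit 5) (nat_lit 236) (nat_lit 5) (nat_lit 237) (nat_lit 5) (nat_lit 482) (nat_lit 459) (nat_lit 259)) (XT.nd (nat_lit 78) (nat_lit 380) (nat_lit 0) (XT.lf (nat_lit 0) (nat_lit 29562332596) (nat_lit 532) (nat_lit 93588950001) (nat_lit 76) (nat_lit 13900184639) (nat_lit 224) (nat_lit 5) (nat_lit 231) (nat_lit 5) (nat_lit 225) (nat_lit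 5) (nat_lit 483) (nat_lit 459) (nat_lit 258)) (XT.lf (nat_lit 0) (nat_lit 39673174849) (nat_lit 380) (nat_lit 31784369571) (nat_lit 456) (nat_lit 69601615270) (nat_lit 219) (nat_lit 5) (nat_lit 224) (nat_lit 5) (nat_lit 225) (nat_lit 5) (nat_lit 484) (nat_lit 459) (nat_lit 257))))) (XT.nd (nat_lit 234) (nat_lit 988) (nat_lit 0) (XT.nd (nat_lit 78) (nat_lit 836) (nat_lit 0) (XT.lf (nat_lit 0) (nat_lit 36399186688) (nat_lit 380) (nat_lit 80987314214) (nat_lit 456) (nat_lit 27822566359) (nat_lit 214) (nat_lit 5) (nat_lit 219) (nat_lit 5) (nat_lit 220) (nat_lit 5) (nat_lit 485) (nat_lit 459) (nat_lit 256)) (XT.nd (nat_lit 78) (nat_lit 380) (nat_lit 0) (XT.lf (nat_lit 0) (nat_lit 17589492041) (nat_lit 456) (nat_lit 115837274316) (nat_lit 76) (nat_lit 16079361875) (nat_lit 208) (nat_lit 5) (nat_lit 214) (nat_lit 5) (nat_lit 209) (nat_lit 5) (nat_lit 486) (nat_lit 459) (nat_lit 255)) (XT.lf (nat_lit 0)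 (nat_lit 31056905199) (nat_lit 380) (nat_lit 35891848011) (nat_lit 456) (nat_lit 86993464532) (nat_lit 203) (nat_lit 5) (nat_lit 208) (nat_lit 5) (nat_lit 209) (nat_lit 5) (nat_lit 487) (nat_lit 459) (nat_lit 254)))) (XT.nd (nat_lit 156) (nat_lit 304) (nat_lit 0) (XT.nd (nat_lit 78) (nat_lit 380) (nat_lit 0) (XT.lf (nat_lit 0) (nat_lit 29067410502) (nat_lit 304) (nat_lit 91831183695) (nat_lit 380) (nat_lit 37637839041) (nat_lit 199) (nat_lit 5) (nat_lit 203) (nat_lit 5) (nat_lit 204) (nat_lit 5) (nat_lit 488) (nat_lit 459) (nat_lit 253)) (XT.lf (nat_lit 0) (nat_lit 15932346940) (nat_lit 380) (nat_lit 135519328592) (nat_lit 76) (nat_lit 11843885457) (nat_lit 194) (nat_lit 5) (nat_lit 199) (nat_lit 5) (nat_lit 195) (nat_lit 5) (nat_lit 489) (nat_lit 459) (nat_lit 252))) (XT.nd (nat_lit 60138) (nat_lit 0) (nat_lit 10412) (XT.lf (nat_lit 0) (nat_lit 26533761714) (nat_lit 304) (nat_lit 47403557052) (nat_lit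 380) (nat_lit 94268106274) (nat_lit 190) (nat_lit 5) (nat_lit 194) (nat_lit 5) (nat_lit 195) (nat_lit 5) (nat_lit 490) (nat_lit 459) (nat_lit 251)) (XT.lf (nat_lit 0) (nat_lit 22139035882) (nat_lit 1292) (nat_lit 7889463881) (nat_lit 1292) (nat_lit 7889463881) (nat_lit 327) (nat_lit 3) (nat_lit 344) (nat_lit 3) (nat_lit 344) (nat_lit 5) (nat_lit 460) (nat_lit 460) (nat_lit 280)))))) (XT.nd (nat_lit 468) (nat_lit 2812) (nat_lit 0) (XT.nd (nat_lit 234) (nat_lit 0) (nat_lit 152) (XT.nd (nat_lit 78) (nat_lit 0) (nat_lit 0) (XT.lf (nat_lit 0) (nat_lit 45887553203) (nat_lit 1216) (nat_lit 29636767184) (nat_lit 1292) (nat_lit 2192428336) (nat_lit 328) (nat_lit 5) (nat_lit 344) (nat_lit 5) (nat_lit 345) (nat_lit 5) (nat_lit 461) (nat_lit 460) (nat_lit 279)) (XT.nd (nat_lit 78) (nat_lit 0) (nat_lit 76) (XT.lf (nat_lit 76) (nat_lit 35866264519) (nat_lit 0) (nat_lit 12825026635) (nat_lit 1292) (nat_lit 30966906655)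 (nat_lit 329) (nat_lit 5) (nat_lit 328) (nat_lit 5) (nat_lit 345) (nat_lit 5) (nat_lit 462) (nat_lit 460) (nat_lit 278)) (XT.lf (nat_lit 76) (nat_lit 23521933573) (nat_lit 0) (nat_lit 29155912950) (nat_lit 1292) (nat_lit 28987593963) (nat_lit 330) (nat_lit 5) (nat_lit 329) (nat_lit 5) (nat_lit 346) (nat_lit 5) (nat_lit 463) (nat_lit 460) (nat_lit 277)))) (XT.nd (nat_lit 78) (nat_lit 0) (nat_lit 76) (XT.lf (nat_lit 76) (nat_lit 11083618130) (nat_lit 0) (nat_lit 46825418974) (nat_lit 1292) (nat_lit 25832649019) (nat_lit 331) (nat_lit 5) (nat_lit 330) (nat_lit 5) (nat_lit 347) (nat_lit 5) (nat_lit 464) (nat_lit 460) (nat_lit 276)) (XT.nd (nat_lit 78) (nat_lit 0) (nat_lit 76) (XT.lf (nat_lit 0) (nat_lit 64486729413) (nat_lit 1216) (nat_lit 1404824888) (nat_lit 1292) (nat_lit 19997641523) (nat_lit 331) (nat_lit 5) (nat_lit 347) (nat_lit 5) (nat_lit 348) (nat_lit 5) (nat_lit 465) (nat_lit 460) (nat_lit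 275)) (XT.lf (nat_lit 0) (nat_lit 72597406624) (nat_lit 1216) (nat_lit 13736493601) (nat_lit 1292) (nat_lit 1774057822) (nat_lit 332) (nat_lit 5) (nat_lit 348) (nat_lit 5) (nat_lit 349) (nat_lit 5) (nat_lit 466) (nat_lit 460) (nat_lit 274))))) (XT.nd (nat_lit 234) (nat_lit 1900) (nat_lit 0) (XT.nd (nat_lit 78) (nat_lit 1216) (nat_lit 0) (XT.lf (nat_lit 76) (nat_lit 64113893412) (nat_lit 0) (nat_lit 18294744734) (nat_lit 1292) (nat_lit 7990169665) (nat_lit 333) (nat_lit 5) (nat_lit 332) (nat_lit 5) (nat_lit 349) (nat_lit 5) (nat_lit 467) (nat_lit 460) (nat_lit 273)) (XT.nd (nat_lit 78) (nat_lit 0) (nat_lit 76) (XT.lf (nat_lit 0) (nat_lit 1090378074) (nat_lit 1292) (nat_lit 38897417705) (nat_lit 1368) (nat_lit 52780961850) (nat_lit 316) (nat_lit 5) (nat_lit 333) (nat_lit 5) (nat_lit 334) (nat_lit 5) (nat_lit 468) (nat_lit 460) (nat_lit 272)) (XT.lf (nat_lit 0) (nat_lit 11653713146) (nat_lit 1292)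 (nat_lit 51617590845) (nat_lit 1368) (nat_lit 31947707401) (nat_lit 317) (nat_lit 5) (nat_lit 334) (nat_lit 5) (nat_lit 335) (nat_lit 5) (nat_lit 469) (nat_lit 460) (nat_lit 271)))) (XT.nd (nat_lit 156) (nat_lit 1216) (nat_lit 0) (XT.nd (nat_lit 78) (nat_lit 836) (nat_lit 0) (XT.lf (nat_lit 0) (nat_lit 23966982334) (nat_lit 1292) (nat_lit 64346690487) (nat_lit 76) (nat_lit 9441452036) (nat_lit 318) (nat_lit 5) (nat_lit 335) (nat_lit 5) (nat_lit 319) (nat_lit 5) (nat_lit 470) (nat_lit 460) (nat_lit 270)) (XT.lf (nat_lit 0) (nat_lit 23169851395) (nat_lit 836) (nat_lit 15123211716) (nat_lit 912) (nat_lit 62083066477) (nat_lit 307) (nat_lit 5) (nat_lit 318) (nat_lit 5) (nat_lit 319) (nat_lit 5) (nat_lit 471) (nat_lit 460) (nat_lit 269))) (XT.nd (nat_lit 78) (nat_lit 608) (nat_lit 0) (XT.lf (nat_lit 0) (nat_lit 12950644855) (nat_lit 608) (nat_lit 41770825501) (nat_lit 684) (nat_lit 48365133558) (nat_lit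 299) (nat_lit 5) (nat_lit 307) (nat_lit 5) (nat_lit 308) (nat_lit 5) (nat_lit 472) (nat_lit 460) (nat_lit 268)) (XT.lf (nat_lit 0) (nat_lit 2876755457) (nat_lit 608) (nat_lit 70414921771) (nat_lit 684) (nat_lit 32601313382) (nat_lit 291) (nat_lit 5) (nat_lit 299) (nat_lit 5) (nat_lit 300) (nat_lit 5) (nat_lit 473) (nat_lit 460) (nat_lit 267))))))) (XT.nd (nat_lit 1014) (nat_lit 1140) (nat_lit 0) (XT.nd (nat_lit 468) (nat_lit 3116) (nat_lit 0) (XT.nd (nat_lit 234) (nat_lit 1520) (nat_lit 0) (XT.nd (nat_lit 78) (nat_lit 1216) (nat_lit 0) (XT.lf (nat_lit 0) (nat_lit 94210555746) (nat_lit 684) (nat_lit 6881905806) (nat_lit 76) (nat_lit 7704630279) (nat_lit 291) (nat_lit 5) (nat_lit 300) (nat_lit 5) (nat_lit 292) (nat_lit 5) (nat_lit 474) (nat_lit 460) (nat_lit 266)) (XT.nd (nat_lit 78) (nat_lit 608) (nat_lit 0) (XT.lf (nat_lit 0) (nat_lit 5885805965) (nat_lit 608) (nat_lit 16649805571) (nat_lit 76)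 (nat_lit 89260299225) (nat_lit 283) (nat_lit 5) (nat_lit 291) (nat_lit 5) (nat_lit 284) (nat_lit 5) (nat_lit 475) (nat_lit 460) (nat_lit 265)) (XT.lf (nat_lit 0) (nat_lit 28596849941) (nat_lit 684) (nat_lit 26433175797) (nat_lit 76) (nat_lit 59864809588) (nat_lit 275) (nat_lit 5) (nat_lit 284) (nat_lit 5) (nat_lit 276) (nat_lit 5) (nat_lit 476) (nat_lit 460) (nat_lit 264)))) (XT.nd (nat_lit 78) (nat_lit 988) (nat_lit 0) (XT.lf (nat_lit 0) (nat_lit 53912159183) (nat_lit 608) (nat_lit 35978180587) (nat_lit 76) (nat_lit 28214304983) (nat_lit 268) (nat_lit 5) (nat_lit 276) (nat_lit 5) (nat_lit 269) (nat_lit 5) (nat_lit 477) (nat_lit 460) (nat_lit 263)) (XT.nd (nat_lit 78) (nat_lit 456) (nat_lit 0) (XT.lf (nat_lit 0) (nat_lit 76126375559) (nat_lit 532) (nat_lit 5928251063) (nat_lit 608) (nat_lit 39373476269) (nat_lit 261) (nat_lit 5) (nat_lit 268) (nat_lit 5) (nat_lit 269) (nat_lit 5) (nat_lit 478) (nat_lit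 460) (nat_lit 262)) (XT.lf (nat_lit 0) (nat_lit 70257545121) (nat_lit 456) (nat_lit 43185934997) (nat_lit 532) (nat_lit 11419075961) (nat_lit 255) (nat_lit 5) (nat_lit 261) (nat_lit 5) (nat_lit 262) (nat_lit 5) (nat_lit 479) (nat_lit 460) (nat_lit 261))))) (XT.nd (nat_lit 234) (nat_lit 1672) (nat_lit 0) (XT.nd (nat_lit 78) (nat_lit 912) (nat_lit 0) (XT.lf (nat_lit 0) (nat_lit 19185137546) (nat_lit 532) (nat_lit 63754781436) (nat_lit 76) (nat_lit 45475580519) (nat_lit 248) (nat_lit 5) (nat_lit 255) (nat_lit 5) (nat_lit 249) (nat_lit 5) (nat_lit 480) (nat_lit 460) (nat_lit 260)) (XT.nd (nat_lit 78) (nat_lit 456) (nat_lit 0) (XT.lf (nat_lit 0) (nat_lit 52726399538) (nat_lit 532) (nat_lit 72655795317) (nat_lit 76) (nat_lit 6711213400) (nat_lit 242) (nat_lit 5) (nat_lit 249) (nat_lit 5) (nat_lit 243) (nat_lit 5) (nat_lit 481) (nat_lit 460) (nat_lit 259)) (XT.lf (nat_lit 0) (nat_lit 54403711605) (nat_lit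 456) (nat_lit 35563369956) (nat_lit 532) (nat_lit 45927460198) (nat_lit 236) (nat_lit 5) (nat_lit 242) (nat_lit 5) (nat_lit 243) (nat_lit 5) (nat_lit 482) (nat_lit 460) (nat_lit 258)))) (XT.nd (nat_lit 156) (nat_lit 760) (nat_lit 0) (XT.nd (nat_lit 78) (nat_lit 532) (nat_lit 0) (XT.lf (nat_lit 0) (nat_lit 49871598845) (nat_lit 380) (nat_lit 80997117297) (nat_lit 456) (nat_lit 8963048260) (nat_lit 231) (nat_lit 5) (nat_lit 236) (nat_lit 5) (nat_lit 237) (nat_lit 5) (nat_lit 483) (nat_lit 460) (nat_lit 257)) (XT.lf (nat_lit 0) (nat_lit 31056164295) (nat_lit 532) (nat_lit 98247658687) (nat_lit 76) (nat_lit 14599745649) (nat_lit 224) (nat_lit 5) (nat_lit 231) (nat_lit 5) (nat_lit 225) (nat_lit 5) (nat_lit 484) (nat_lit 460) (nat_lit 256))) (XT.nd (nat_lit 78) (nat_lit 380) (nat_lit 0) (XT.lf (nat_lit 0) (nat_lit 41676977932) (nat_lit 380) (nat_lit 33368604082) (nat_lit 456) (nat_lit 73066080360) (nat_lit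 219) (nat_lit 5) (nat_lit 224) (nat_lit 5) (nat_lit 225) (nat_lit 5) (nat_lit 485) (nat_lit 460) (nat_lit 255)) (XT.lf (nat_lit 0) (nat_lit 38239108644) (nat_lit 380) (nat_lit 85031393274) (nat_lit 456) (nat_lit 29198577960) (nat_lit 214) (nat_lit 5) (nat_lit 219) (nat_lit 5) (nat_lit 220) (nat_lit 5) (nat_lit 486) (nat_lit 460) (nat_lit 254)))))) (XT.nd (nat_lit 60762) (nat_lit 0) (nat_lit 8892) (XT.nd (nat_lit 60450) (nat_lit 0) (nat_lit 9728) (XT.nd (nat_lit 78) (nat_lit 684) (nat_lit 0) (XT.lf (nat_lit 0) (nat_lit 18483323373) (nat_lit 456) (nat_lit 121609082726) (nat_lit 76) (nat_lit 16888597411) (nat_lit 208) (nat_lit 5) (nat_lit 214) (nat_lit 5) (nat_lit 209) (nat_lit 5) (nat_lit 487) (nat_lit 460) (nat_lit 253)) (XT.nd (nat_lit 78) (nat_lit 304) (nat_lit 0) (XT.lf (nat_lit 0) (nat_lit 32629230883) (nat_lit 380) (nat_lit 37680820321) (nat_lit 456) (nat_lit 91328861203) (nat_lit 203) (nat_lit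 5) (nat_lit 208) (nat_lit 5) (nat_lit 209) (nat_lit 5) (nat_lit 488) (nat_lit 460) (nat_lit 252)) (XT.lf (nat_lit 0) (nat_lit 30540054864) (nat_lit 304) (nat_lit 96416906085) (nat_lit 380) (nat_lit 39505890448) (nat_lit 199) (nat_lit 5) (nat_lit 203) (nat_lit 5) (nat_lit 204) (nat_lit 5) (nat_lit 489) (nat_lit 460) (nat_lit 251)))) (XT.nd (nat_lit 156) (nat_lit 0) (nat_lit 76) (XT.nd (nat_lit 78) (nat_lit 0) (nat_lit 76) (XT.lf (nat_lit 0) (nat_lit 23264344763) (nat_lit 1292) (nat_lit 8274482752) (nat_lit 1292) (nat_lit 8274482752) (nat_lit 327) (nat_lit 3) (nat_lit 344) (nat_lit 3) (nat_lit 344) (nat_lit 5) (nat_lit 461) (nat_lit 461) (nat_lit 278)) (XT.lf (nat_lit 0) (nat_lit 48216912034) (nat_lit 1216) (nat_lit 31099021764) (nat_lit 1292) (nat_lit 2285601312) (nat_lit 328) (nat_lit 5) (nat_lit 344) (nat_lit 5) (nat_lit 345) (nat_lit 5) (nat_lit 462) (nat_lit 461) (nat_lit 277))) (XT.nd (nat_lit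 78) (nat_lit 0) (nat_lit 76) (XT.lf (nat_lit 76) (nat_lit 37678600160) (nat_lit 0) (nat_lit 13480753808) (nat_lit 1292) (nat_lit 32480747247) (nat_lit 329) (nat_lit 5) (nat_lit 328) (nat_lit 5) (nat_lit 345) (nat_lit 5) (nat_lit 463) (nat_lit 461) (nat_lit 276)) (XT.lf (nat_lit 76) (nat_lit 24717620188) (nat_lit 0) (nat_lit 30626077548) (nat_lit 1292) (nat_lit 30404054544) (nat_lit 330) (nat_lit 5) (nat_lit 329) (nat_lit 5) (nat_lit 346) (nat_lit 5) (nat_lit 464) (nat_lit 461) (nat_lit 275))))) (XT.nd (nat_lit 234) (nat_lit 1064) (nat_lit 0) (XT.nd (nat_lit 78) (nat_lit 0) (nat_lit 76) (XT.lf (nat_lit 76) (nat_lit 11657875626) (nat_lit 0) (nat_lit 49177130120) (nat_lit 1292) (nat_lit 27092847785) (nat_lit 331) (nat_lit 5) (nat_lit 330) (nat_lit 5) (nat_lit 347) (nat_lit 5) (nat_lit 465) (nat_lit 461) (nat_lit 274)) (XT.nd (nat_lit 78) (nat_lit 0) (nat_lit 76) (XT.lf (nat_lit 0) (nat_lit 67740033913)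 (nat_lit 1216) (nat_lit 1454976755) (nat_lit 1292) (nat_lit 20987774579) (nat_lit 331) (nat_lit 5) (nat_lit 347) (nat_lit 5) (nat_lit 348) (nat_lit 5) (nat_lit 466) (nat_lit 461) (nat_lit 273)) (XT.lf (nat_lit 0) (nat_lit 76254973704) (nat_lit 1216) (nat_lit 14402890787) (nat_lit 1292) (nat_lit 1854659291) (nat_lit 332) (nat_lit 5) (nat_lit 348) (nat_lit 5) (nat_lit 349) (nat_lit 5) (nat_lit 467) (nat_lit 461) (nat_lit 272)))) (XT.nd (nat_lit 156) (nat_lit 0) (nat_lit 76) (XT.nd (nat_lit 78) (nat_lit 1216) (nat_lit 0) (XT.lf (nat_lit 76) (nat_lit 67339430027) (nat_lit 0) (nat_lit 19216208615) (nat_lit 1292) (nat_lit 8362311297) (nat_lit 333) (nat_lit 5) (nat_lit 332) (nat_lit 5) (nat_lit 349) (nat_lit 5) (nat_lit 468) (nat_lit 461) (nat_lit 271)) (XT.lf (nat_lit 0) (nat_lit 1170585095) (nat_lit 1292) (nat_lit 40821664867) (nat_lit 1368) (nat_lit 55414173791) (nat_lit 316) (nat_lit 5) (nat_lit 333)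 (nat_lit 5) (nat_lit 334) (nat_lit 5) (nat_lit 469) (nat_lit 461) (nat_lit 270))) (XT.nd (nat_lit 78) (nat_lit 0) (nat_lit 76) (XT.lf (nat_lit 0) (nat_lit 12261011784) (nat_lit 1292) (nat_lit 54177652599) (nat_lit 1368) (nat_lit 33540558129) (nat_lit 317) (nat_lit 5) (nat_lit 334) (nat_lit 5) (nat_lit 335) (nat_lit 5) (nat_lit 470) (nat_lit 461) (nat_lit 269)) (XT.lf (nat_lit 0) (nat_lit 25188933943) (nat_lit 1292) (nat_lit 67543061071) (nat_lit 76) (nat_lit 9910177003) (nat_lit 318) (nat_lit 5) (nat_lit 335) (nat_lit 5) (nat_lit 319) (nat_lit 5) (nat_lit 471) (nat_lit 461) (nat_lit 268))))))))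
noncomputable def xc122 : XT := (XT.nd (nat_lit 62322) (nat_lit 0) (nat_lit 380) (XT.nd (nat_lit 1014) (nat_lit 2128) (nat_lit 0) (XT.nd (nat_lit 468) (nat_lit 3344) (nat_lit 0) (XT.nd (nat_lit 234) (nat_lit 1216) (nat_lit 0) (XT.nd (nat_lit 78) (nat_lit 1216) (nat_lit 0) (XT.lf (nat_lit 0) (nat_lit 24348706978) (nat_lit 836) (nat_lit 15881683594) (nat_lit 912) (nat_lit 65163864304) (nat_lit 307) (nat_lit 5) (nat_lit 318) (nat_lit 5) (nat_lit 319) (nat_lit 5) (nat_lit 472) (nat_lit 461) (nat_lit 267)) (XT.nd (nat_lit 78) (nat_lit 608) (nat_lit 0) (XT.lf (nat_lit 0) (nat_lit 13618639655) (nat_lit 608) (nat_lit 43860674334) (nat_lit 684) (nat_lit 50760966101) (nat_lit 299) (nat_lit 5) (nat_lit 307) (nat_lit 5) (nat_lit 308) (nat_lit 5) (nat_lit 473) (nat_lit 461) (nat_lit 266)) (XT.lf (nat_lit 0) (nat_lit 3041116713) (nat_lit 608) (nat_lit 73936063134) (nat_lit 684) (nat_lit 34209831859) (nat_lit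 291) (nat_lit 5) (nat_lit 299) (nat_lit 5) (nat_lit 300) (nat_lit 5) (nat_lit 474) (nat_lit 461) (nat_lit 265)))) (XT.nd (nat_lit 78) (nat_lit 1216) (nat_lit 0) (XT.lf (nat_lit 0) (nat_lit 98941002541) (nat_lit 684) (nat_lit 7205852794) (nat_lit 76) (nat_lit 8089492688) (nat_lit 291) (nat_lit 5) (nat_lit 300) (nat_lit 5) (nat_lit 292) (nat_lit 5) (nat_lit 475) (nat_lit 461) (nat_lit 264)) (XT.nd (nat_lit 78) (nat_lit 608) (nat_lit 0) (XT.lf (nat_lit 0) (nat_lit 6199445338) (nat_lit 608) (nat_lit 17462339241) (nat_lit 76) (nat_lit 93723340480) (nat_lit 283) (nat_lit 5) (nat_lit 291) (nat_lit 5) (nat_lit 284) (nat_lit 5) (nat_lit 476) (nat_lit 461) (nat_lit 263)) (XT.lf (nat_lit 0) (nat_lit 30045313871) (nat_lit 684) (nat_lit 27734898285) (nat_lit 76) (nat_lit 62858805562) (nat_lit 275) (nat_lit 5) (nat_lit 284) (nat_lit 5) (nat_lit 276) (nat_lit 5) (nat_lit 477) (nat_lit 461) (nat_lit 262))))) (XT.nd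 (nat_lit 234) (nat_lit 1824) (nat_lit 0) (XT.nd (nat_lit 78) (nat_lit 988) (nat_lit 0) (XT.lf (nat_lit 0) (nat_lit 56625701867) (nat_lit 608) (nat_lit 37757200343) (nat_lit 76) (nat_lit 29626436042) (nat_lit 268) (nat_lit 5) (nat_lit 276) (nat_lit 5) (nat_lit 269) (nat_lit 5) (nat_lit 478) (nat_lit 461) (nat_lit 261)) (XT.nd (nat_lit 78) (nat_lit 456) (nat_lit 0) (XT.lf (nat_lit 0) (nat_lit 79952013488) (nat_lit 532) (nat_lit 6222610863) (nat_lit 608) (nat_lit 41324365029) (nat_lit 261) (nat_lit 5) (nat_lit 268) (nat_lit 5) (nat_lit 269) (nat_lit 5) (nat_lit 479) (nat_lit 461) (nat_lit 260)) (XT.lf (nat_lit 0) (nat_lit 73789672370) (nat_lit 456) (nat_lit 45342629778) (nat_lit 532) (nat_lit 11972881662) (nat_lit 255) (nat_lit 5) (nat_lit 261) (nat_lit 5) (nat_lit 262) (nat_lit 5) (nat_lit 480) (nat_lit 461) (nat_lit 259)))) (XT.nd (nat_lit 156) (nat_lit 836) (nat_lit 0) (XT.nd (nat_lit 78) (nat_lit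 456) (nat_lit 0) (XT.lf (nat_lit 0) (nat_lit 20160617312) (nat_lit 532) (nat_lit 66923037416) (nat_lit 76) (nat_lit 47752132478) (nat_lit 248) (nat_lit 5) (nat_lit 255) (nat_lit 5) (nat_lit 249) (nat_lit 5) (nat_lit 481) (nat_lit 461) (nat_lit 258)) (XT.lf (nat_lit 0) (nat_lit 55378383448) (nat_lit 532) (nat_lit 76269222593) (nat_lit 76) (nat_lit 7050002153) (nat_lit 242) (nat_lit 5) (nat_lit 249) (nat_lit 5) (nat_lit 243) (nat_lit 5) (nat_lit 482) (nat_lit 461) (nat_lit 257))) (XT.nd (nat_lit 78) (nat_lit 380) (nat_lit 0) (XT.lf (nat_lit 0) (nat_lit 57142704654) (nat_lit 456) (nat_lit 37337829805) (nat_lit 532) (nat_lit 48208280893) (nat_lit 236) (nat_lit 5) (nat_lit 242) (nat_lit 5) (nat_lit 243) (nat_lit 5) (nat_lit 483) (nat_lit 461) (nat_lit 256)) (XT.lf (nat_lit 0) (nat_lit 52383853010) (nat_lit 380) (nat_lit 85042892227) (nat_lit 456) (nat_lit 9396169081) (nat_lit 231) (nat_lit 5) (nat_lit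 236) (nat_lit 5) (nat_lit 237) (nat_lit 5) (nat_lit 484) (nat_lit 461) (nat_lit 255)))))) (XT.nd (nat_lit 60762) (nat_lit 0) (nat_lit 9500) (XT.nd (nat_lit 234) (nat_lit 836) (nat_lit 0) (XT.nd (nat_lit 78) (nat_lit 760) (nat_lit 0) (XT.lf (nat_lit 0) (nat_lit 32623226541) (nat_lit 532) (nat_lit 103141230906) (nat_lit 76) (nat_lit 15333861528) (nat_lit 224) (nat_lit 5) (nat_lit 231) (nat_lit 5) (nat_lit 225) (nat_lit 5) (nat_lit 485) (nat_lit 461) (nat_lit 254)) (XT.nd (nat_lit 78) (nat_lit 380) (nat_lit 0) (XT.lf (nat_lit 0) (nat_lit 43779098339) (nat_lit 380) (nat_lit 35032513680) (nat_lit 456) (nat_lit 76705220501) (nat_lit 219) (nat_lit 5) (nat_lit 224) (nat_lit 5) (nat_lit 225) (nat_lit 5) (nat_lit 486) (nat_lit 461) (nat_lit 253)) (XT.lf (nat_lit 0) (nat_lit 40169170762) (nat_lit 380) (nat_lit 89278167789) (nat_lit 456) (nat_lit 30644795551) (nat_lit 214) (nat_lit 5) (nat_lit 219) (nat_lit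 5) (nat_lit 220) (nat_lit 5) (nat_lit 487) (nat_lit 461) (nat_lit 252)))) (XT.nd (nat_lit 78) (nat_lit 380) (nat_lit 0) (XT.lf (nat_lit 0) (nat_lit 19420511519) (nat_lit 456) (nat_lit 127671346109) (nat_lit 76) (nat_lit 17737805006) (nat_lit 208) (nat_lit 5) (nat_lit 214) (nat_lit 5) (nat_lit 209) (nat_lit 5) (nat_lit 488) (nat_lit 461) (nat_lit 251)) (XT.nd (nat_lit 60372) (nat_lit 0) (nat_lit 9424) (XT.lf (nat_lit 0) (nat_lit 34278361747) (nat_lit 380) (nat_lit 39559763750) (nat_lit 456) (nat_lit 95882355007) (nat_lit 203) (nat_lit 5) (nat_lit 208) (nat_lit 5) (nat_lit 209) (nat_lit 5) (nat_lit 489) (nat_lit 461) (nat_lit 250)) (XT.lf (nat_lit 0) (nat_lit 24444212419) (nat_lit 1292) (nat_lit 8679631540) (nat_lit 1292) (nat_lit 8679631540) (nat_lit 327) (nat_lit 3) (nat_lit 344) (nat_lit 3) (nat_lit 344) (nat_lit 5) (nat_lit 462) (nat_lit 462) (nat_lit 276))))) (XT.nd (nat_lit 234) (nat_lit 0)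 (nat_lit 152) (XT.nd (nat_lit 78) (nat_lit 0) (nat_lit 0) (XT.lf (nat_lit 0) (nat_lit 50659486589) (nat_lit 1216) (nat_lit 32636209787) (nat_lit 1292) (nat_lit 2384962157) (nat_lit 328) (nat_lit 5) (nat_lit 344) (nat_lit 5) (nat_lit 345) (nat_lit 5) (nat_lit 463) (nat_lit 462) (nat_lit 275)) (XT.nd (nat_lit 78) (nat_lit 0) (nat_lit 76) (XT.lf (nat_lit 76) (nat_lit 39579784058) (nat_lit 0) (nat_lit 14167921514) (nat_lit 1292) (nat_lit 34073487792) (nat_lit 329) (nat_lit 5) (nat_lit 328) (nat_lit 5) (nat_lit 345) (nat_lit 5) (nat_lit 464) (nat_lit 462) (nat_lit 274)) (XT.lf (nat_lit 76) (nat_lit 25971269848) (nat_lit 0) (nat_lit 32168600428) (nat_lit 1292) (nat_lit 31894398661) (nat_lit 330) (nat_lit 5) (nat_lit 329) (nat_lit 5) (nat_lit 346) (nat_lit 5) (nat_lit 465) (nat_lit 462) (nat_lit 273)))) (XT.nd (nat_lit 156) (nat_lit 0) (nat_lit 152) (XT.nd (nat_lit 78) (nat_lit 0) (nat_lit 76) (XT.lf (nat_lit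 76) (nat_lit 12258979467) (nat_lit 0) (nat_lit 51645456193) (nat_lit 1292) (nat_lit 28418978895) (nat_lit 331) (nat_lit 5) (nat_lit 330) (nat_lit 5) (nat_lit 347) (nat_lit 5) (nat_lit 466) (nat_lit 462) (nat_lit 272)) (XT.lf (nat_lit 0) (nat_lit 71153310464) (nat_lit 1216) (nat_lit 1509503936) (nat_lit 1292) (nat_lit 22028320659) (nat_lit 331) (nat_lit 5) (nat_lit 347) (nat_lit 5) (nat_lit 348) (nat_lit 5) (nat_lit 467) (nat_lit 462) (nat_lit 271))) (XT.nd (nat_lit 78) (nat_lit 0) (nat_lit 0) (XT.lf (nat_lit 0) (nat_lit 80092844158) (nat_lit 1216) (nat_lit 15104506987) (nat_lit 1292) (nat_lit 1940044027) (nat_lit 332) (nat_lit 5) (nat_lit 348) (nat_lit 5) (nat_lit 349) (nat_lit 5) (nat_lit 468) (nat_lit 462) (nat_lit 270)) (XT.lf (nat_lit 76) (nat_lit 70724398756) (nat_lit 0) (nat_lit 20183120311) (nat_lit 1292) (nat_lit 8755604321) (nat_lit 333) (nat_lit 5) (nat_lit 332) (nat_lit 5) (nat_lit 349)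 (nat_lit 5) (nat_lit 469) (nat_lit 462) (nat_lit 269))))))) (XT.nd (nat_lit 1014) (nat_lit 3040) (nat_lit 0) (XT.nd (nat_lit 468) (nat_lit 3268) (nat_lit 0) (XT.nd (nat_lit 234) (nat_lit 1900) (nat_lit 0) (XT.nd (nat_lit 78) (nat_lit 0) (nat_lit 76) (XT.lf (nat_lit 0) (nat_lit 1252414229) (nat_lit 1292) (nat_lit 42844041786) (nat_lit 1368) (nat_lit 58179588920) (nat_lit 316) (nat_lit 5) (nat_lit 333) (nat_lit 5) (nat_lit 334) (nat_lit 5) (nat_lit 470) (nat_lit 462) (nat_lit 268)) (XT.nd (nat_lit 78) (nat_lit 0) (nat_lit 76) (XT.lf (nat_lit 0) (nat_lit 12896387073) (nat_lit 1292) (nat_lit 56867652880) (nat_lit 1368) (nat_lit 35213472981) (nat_lit 317) (nat_lit 5) (nat_lit 334) (nat_lit 5) (nat_lit 335) (nat_lit 5) (nat_lit 471) (nat_lit 462) (nat_lit 267)) (XT.lf (nat_lit 0) (nat_lit 26469788796) (nat_lit 1292) (nat_lit 70901199212) (nat_lit 76) (nat_lit 10402649448) (nat_lit 318) (nat_lit 5) (nat_lit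 335) (nat_lit 5) (nat_lit 319) (nat_lit 5) (nat_lit 472) (nat_lit 462) (nat_lit 266)))) (XT.nd (nat_lit 78) (nat_lit 1216) (nat_lit 0) (XT.lf (nat_lit 0) (nat_lit 25584612181) (nat_lit 836) (nat_lit 16677864183) (nat_lit 912) (nat_lit 68400873396) (nat_lit 307) (nat_lit 5) (nat_lit 318) (nat_lit 5) (nat_lit 319) (nat_lit 5) (nat_lit 473) (nat_lit 462) (nat_lit 265)) (XT.nd (nat_lit 78) (nat_lit 608) (nat_lit 0) (XT.lf (nat_lit 0) (nat_lit 14318131781) (nat_lit 608) (nat_lit 46054894045) (nat_lit 684) (nat_lit 53278675055) (nat_lit 299) (nat_lit 5) (nat_lit 307) (nat_lit 5) (nat_lit 308) (nat_lit 5) (nat_lit 474) (nat_lit 462) (nat_lit 264)) (XT.lf (nat_lit 0) (nat_lit 3211787953) (nat_lit 608) (nat_lit 77633224816) (nat_lit 684) (nat_lit 35900779513) (nat_lit 291) (nat_lit 5) (nat_lit 299) (nat_lit 5) (nat_lit 300) (nat_lit 5) (nat_lit 475) (nat_lit 462) (nat_lit 263))))) (XT.nd (nat_lit 234) (nat_lit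 2052) (nat_lit 0) (XT.nd (nat_lit 78) (nat_lit 1216) (nat_lit 0) (XT.lf (nat_lit 0) (nat_lit 103906119794) (nat_lit 684) (nat_lit 7547870329) (nat_lit 76) (nat_lit 8493632533) (nat_lit 291) (nat_lit 5) (nat_lit 300) (nat_lit 5) (nat_lit 292) (nat_lit 5) (nat_lit 476) (nat_lit 462) (nat_lit 262)) (XT.nd (nat_lit 78) (nat_lit 608) (nat_lit 0) (XT.lf (nat_lit 0) (nat_lit 6526967785) (nat_lit 608) (nat_lit 18317354971) (nat_lit 76) (nat_lit 98409531353) (nat_lit 283) (nat_lit 5) (nat_lit 291) (nat_lit 5) (nat_lit 284) (nat_lit 5) (nat_lit 477) (nat_lit 462) (nat_lit 261)) (XT.lf (nat_lit 0) (nat_lit 31564469753) (nat_lit 684) (nat_lit 29103560386) (nat_lit 76) (nat_lit 66002431096) (nat_lit 275) (nat_lit 5) (nat_lit 284) (nat_lit 5) (nat_lit 276) (nat_lit 5) (nat_lit 478) (nat_lit 462) (nat_lit 260)))) (XT.nd (nat_lit 156) (nat_lit 988) (nat_lit 0) (XT.nd (nat_lit 78) (nat_lit 532) (nat_lit 0) (XT.lf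 (nat_lit 0) (nat_lit 59473254284) (nat_lit 608) (nat_lit 39627020202) (nat_lit 76) (nat_lit 31109042026) (nat_lit 268) (nat_lit 5) (nat_lit 276) (nat_lit 5) (nat_lit 269) (nat_lit 5) (nat_lit 479) (nat_lit 462) (nat_lit 259)) (XT.lf (nat_lit 0) (nat_lit 83967137202) (nat_lit 532) (nat_lit 6531879498) (nat_lit 608) (nat_lit 43374451713) (nat_lit 261) (nat_lit 5) (nat_lit 268) (nat_lit 5) (nat_lit 269) (nat_lit 5) (nat_lit 480) (nat_lit 462) (nat_lit 258))) (XT.nd (nat_lit 78) (nat_lit 532) (nat_lit 0) (XT.lf (nat_lit 0) (nat_lit 77496616301) (nat_lit 456) (nat_lit 47607401203) (nat_lit 532) (nat_lit 12555971916) (nat_lit 255) (nat_lit 5) (nat_lit 261) (nat_lit 5) (nat_lit 262) (nat_lit 5) (nat_lit 481) (nat_lit 462) (nat_lit 257)) (XT.lf (nat_lit 0) (nat_lit 21183362815) (nat_lit 532) (nat_lit 70251517549) (nat_lit 76) (nat_lit 50142254233) (nat_lit 248) (nat_lit 5) (nat_lit 255) (nat_lit 5) (nat_lit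 249) (nat_lit 5) (nat_lit 482) (nat_lit 462) (nat_lit 256)))))) (XT.nd (nat_lit 60918) (nat_lit 0) (nat_lit 9044) (XT.nd (nat_lit 234) (nat_lit 1748) (nat_lit 0) (XT.nd (nat_lit 78) (nat_lit 836) (nat_lit 0) (XT.lf (nat_lit 0) (nat_lit 58161510269) (nat_lit 532) (nat_lit 80065121374) (nat_lit 76) (nat_lit 7405430227) (nat_lit 242) (nat_lit 5) (nat_lit 249) (nat_lit 5) (nat_lit 243) (nat_lit 5) (nat_lit 483) (nat_lit 462) (nat_lit 255)) (XT.nd (nat_lit 78) (nat_lit 380) (nat_lit 0) (XT.lf (nat_lit 0) (nat_lit 60016898814) (nat_lit 456) (nat_lit 39201357442) (nat_lit 532) (nat_lit 50604588530) (nat_lit 236) (nat_lit 5) (nat_lit 242) (nat_lit 5) (nat_lit 243) (nat_lit 5) (nat_lit 484) (nat_lit 462) (nat_lit 254)) (XT.lf (nat_lit 0) (nat_lit 55019983732) (nat_lit 380) (nat_lit 89291335310) (nat_lit 456) (nat_lit 9852343438) (nat_lit 231) (nat_lit 5) (nat_lit 236) (nat_lit 5) (nat_lit 237) (nat_lit 5)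 (nat_lit 485) (nat_lit 462) (nat_lit 253)))) (XT.nd (nat_lit 156) (nat_lit 836) (nat_lit 0) (XT.nd (nat_lit 78) (nat_lit 380) (nat_lit 0) (XT.lf (nat_lit 0) (nat_lit 34267316695) (nat_lit 532) (nat_lit 108281230577) (nat_lit 76) (nat_lit 16104299364) (nat_lit 224) (nat_lit 5) (nat_lit 231) (nat_lit 5) (nat_lit 225) (nat_lit 5) (nat_lit 486) (nat_lit 462) (nat_lit 252)) (XT.lf (nat_lit 0) (nat_lit 45984626055) (nat_lit 380) (nat_lit 36780039042) (nat_lit 456) (nat_lit 80527634472) (nat_lit 219) (nat_lit 5) (nat_lit 224) (nat_lit 5) (nat_lit 225) (nat_lit 5) (nat_lit 487) (nat_lit 462) (nat_lit 251))) (XT.nd (nat_lit 78) (nat_lit 456) (nat_lit 0) (XT.lf (nat_lit 0) (nat_lit 42194052599) (nat_lit 380) (nat_lit 93737726838) (nat_lit 456) (nat_lit 32164598768) (nat_lit 214) (nat_lit 5) (nat_lit 219) (nat_lit 5) (nat_lit 220) (nat_lit 5) (nat_lit 488) (nat_lit 462) (nat_lit 250)) (XT.lf (nat_lit 0) (nat_lit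 20403348413) (nat_lit 456) (nat_lit 134038413865) (nat_lit 76) (nat_lit 18629028794) (nat_lit 208) (nat_lit 5) (nat_lit 214) (nat_lit 5) (nat_lit 209) (nat_lit 5) (nat_lit 489) (nat_lit 462) (nat_lit 249))))) (XT.nd (nat_lit 234) (nat_lit 0) (nat_lit 152) (XT.nd (nat_lit 78) (nat_lit 0) (nat_lit 76) (XT.lf (nat_lit 0) (nat_lit 25681525461) (nat_lit 1292) (nat_lit 9105835022) (nat_lit 1292) (nat_lit 9105835022) (nat_lit 327) (nat_lit 3) (nat_lit 344) (nat_lit 3) (nat_lit 344) (nat_lit 5) (nat_lit 463) (nat_lit 463) (nat_lit 274)) (XT.nd (nat_lit 78) (nat_lit 0) (nat_lit 0) (XT.lf (nat_lit 0) (nat_lit 53221240015) (nat_lit 1216) (nat_lit 34251908652) (nat_lit 1292) (nat_lit 2490678093) (nat_lit 328) (nat_lit 5) (nat_lit 344) (nat_lit 5) (nat_lit 345) (nat_lit 5) (nat_lit 464) (nat_lit 463) (nat_lit 273)) (XT.lf (nat_lit 76) (nat_lit 41574423049) (nat_lit 0) (nat_lit 14888226900) (nat_lit 1292) (nat_lit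 35748775046) (nat_lit 329) (nat_lit 5) (nat_lit 328) (nat_lit 5) (nat_lit 345) (nat_lit 5) (nat_lit 465) (nat_lit 463) (nat_lit 272)))) (XT.nd (nat_lit 156) (nat_lit 0) (nat_lit 152) (XT.nd (nat_lit 78) (nat_lit 0) (nat_lit 76) (XT.lf (nat_lit 76) (nat_lit 27285950030) (nat_lit 0) (nat_lit 33787206415) (nat_lit 1292) (nat_lit 33462035955) (nat_lit 330) (nat_lit 5) (nat_lit 329) (nat_lit 5) (nat_lit 346) (nat_lit 5) (nat_lit 466) (nat_lit 463) (nat_lit 271)) (XT.lf (nat_lit 76) (nat_lit 12888445501) (nat_lit 0) (nat_lit 54236318179) (nat_lit 1292) (nat_lit 29814067269) (nat_lit 331) (nat_lit 5) (nat_lit 330) (nat_lit 5) (nat_lit 347) (nat_lit 5) (nat_lit 467) (nat_lit 463) (nat_lit 270))) (XT.nd (nat_lit 78) (nat_lit 0) (nat_lit 76) (XT.lf (nat_lit 0) (nat_lit 74734808056) (nat_lit 1216) (nat_lit 1568451553) (nat_lit 1292) (nat_lit 23121716149) (nat_lit 331) (nat_lit 5) (nat_lit 347) (nat_lit 5)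 (nat_lit 348) (nat_lit 5) (nat_lit 468) (nat_lit 463) (nat_lit 269)) (XT.lf (nat_lit 0) (nat_lit 84120272549) (nat_lit 1216) (nat_lit 15842926587) (nat_lit 1292) (nat_lit 2030381169) (nat_lit 332) (nat_lit 5) (nat_lit 348) (nat_lit 5) (nat_lit 349) (nat_lit 5) (nat_lit 469) (nat_lit 463) (nat_lit 268))))))))
noncomputable def xc123 : XT := (XT.nd (nat_lit 62478) (nat_lit 0) (nat_lit 760) (XT.nd (nat_lit 1014) (nat_lit 3116) (nat_lit 0) (XT.nd (nat_lit 468) (nat_lit 3344) (nat_lit 0) (XT.nd (nat_lit 234) (nat_lit 1292) (nat_lit 0) (XT.nd (nat_lit 78) (nat_lit 1216) (nat_lit 0) (XT.lf (nat_lit 76) (nat_lit 74276942711) (nat_lit 0) (nat_lit 21197810355) (nat_lit 1292) (nat_lit 9170869761) (nat_lit 333) (nat_lit 5) (nat_lit 332) (nat_lit 5) (nat_lit 349) (nat_lit 5) (nat_lit 470) (nat_lit 463) (nat_lit 267)) (XT.nd (nat_lit 78) (nat_lit 0) (nat_lit 76) (XT.lf (nat_lit 0) (nat_lit 1336168618) (nat_lit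 1292) (nat_lit 44969276687) (nat_lit 1368) (nat_lit 61083766950) (nat_lit 316) (nat_lit 5) (nat_lit 333) (nat_lit 5) (nat_lit 334) (nat_lit 5) (nat_lit 471) (nat_lit 463) (nat_lit 266)) (XT.lf (nat_lit 0) (nat_lit 13561455587) (nat_lit 1292) (nat_lit 59693908678) (nat_lit 1368) (nat_lit 36970415969) (nat_lit 317) (nat_lit 5) (nat_lit 334) (nat_lit 5) (nat_lit 335) (nat_lit 5) (nat_lit 472) (nat_lit 463) (nat_lit 265)))) (XT.nd (nat_lit 78) (nat_lit 1444) (nat_lit 0) (XT.lf (nat_lit 0) (nat_lit 27812696064) (nat_lit 1292) (nat_lit 74429012087) (nat_lit 76) (nat_lit 10920027812) (nat_lit 318) (nat_lit 5) (nat_lit 335) (nat_lit 5) (nat_lit 319) (nat_lit 5) (nat_lit 473) (nat_lit 463) (nat_lit 264)) (XT.nd (nat_lit 78) (nat_lit 608) (nat_lit 0) (XT.lf (nat_lit 0) (nat_lit 26880595491) (nat_lit 836) (nat_lit 17513658898) (nat_lit 912) (nat_lit 71801702441) (nat_lit 307) (nat_lit 5) (nat_lit 318) (nat_lit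 5) (nat_lit 319) (nat_lit 5) (nat_lit 474) (nat_lit 463) (nat_lit 263)) (XT.lf (nat_lit 0) (nat_lit 15050872966) (nat_lit 608) (nat_lit 48358714479) (nat_lit 684) (nat_lit 55924160416) (nat_lit 299) (nat_lit 5) (nat_lit 307) (nat_lit 5) (nat_lit 308) (nat_lit 5) (nat_lit 475) (nat_lit 463) (nat_lit 262))))) (XT.nd (nat_lit 234) (nat_lit 2128) (nat_lit 0) (XT.nd (nat_lit 78) (nat_lit 608) (nat_lit 0) (XT.lf (nat_lit 0) (nat_lit 3389262071) (nat_lit 608) (nat_lit 81515211249) (nat_lit 684) (nat_lit 37678091560) (nat_lit 291) (nat_lit 5) (nat_lit 299) (nat_lit 5) (nat_lit 300) (nat_lit 5) (nat_lit 476) (nat_lit 463) (nat_lit 261)) (XT.nd (nat_lit 78) (nat_lit 608) (nat_lit 0) (XT.lf (nat_lit 0) (nat_lit 109117813200) (nat_lit 684) (nat_lit 7908687787) (nat_lit 76) (nat_lit 8918010495) (nat_lit 291) (nat_lit 5) (nat_lit 300) (nat_lit 5) (nat_lit 292) (nat_lit 5) (nat_lit 477) (nat_lit 463) (nat_lit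 260)) (XT.lf (nat_lit 0) (nat_lit 6869234706) (nat_lit 608) (nat_lit 19216804369) (nat_lit 76) (nat_lit 103330029553) (nat_lit 283) (nat_lit 5) (nat_lit 291) (nat_lit 5) (nat_lit 284) (nat_lit 5) (nat_lit 478) (nat_lit 463) (nat_lit 259)))) (XT.nd (nat_lit 156) (nat_lit 988) (nat_lit 0) (XT.nd (nat_lit 78) (nat_lit 532) (nat_lit 0) (XT.lf (nat_lit 0) (nat_lit 33158013139) (nat_lit 684) (nat_lit 30542336761) (nat_lit 76) (nat_lit 69303174198) (nat_lit 275) (nat_lit 5) (nat_lit 284) (nat_lit 5) (nat_lit 276) (nat_lit 5) (nat_lit 479) (nat_lit 463) (nat_lit 258)) (XT.lf (nat_lit 0) (nat_lit 62461671941) (nat_lit 608) (nat_lit 41592008258) (nat_lit 76) (nat_lit 32665658917) (nat_lit 268) (nat_lit 5) (nat_lit 276) (nat_lit 5) (nat_lit 269) (nat_lit 5) (nat_lit 480) (nat_lit 463) (nat_lit 257))) (XT.nd (nat_lit 78) (nat_lit 456) (nat_lit 0) (XT.lf (nat_lit 0) (nat_lit 88181387976) (nat_lit 532) (nat_lit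 6856784667) (nat_lit 608) (nat_lit 45528542491) (nat_lit 261) (nat_lit 5) (nat_lit 268) (nat_lit 5) (nat_lit 269) (nat_lit 5) (nat_lit 481) (nat_lit 463) (nat_lit 256)) (XT.lf (nat_lit 0) (nat_lit 81387284133) (nat_lit 456) (nat_lit 49985630617) (nat_lit 532) (nat_lit 13169662731) (nat_lit 255) (nat_lit 5) (nat_lit 261) (nat_lit 5) (nat_lit 262) (nat_lit 5) (nat_lit 482) (nat_lit 463) (nat_lit 255)))))) (XT.nd (nat_lit 468) (nat_lit 380) (nat_lit 0) (XT.nd (nat_lit 234) (nat_lit 1292) (nat_lit 0) (XT.nd (nat_lit 78) (nat_lit 912) (nat_lit 0) (XT.lf (nat_lit 0) (nat_lit 22255877566) (nat_lit 532) (nat_lit 73748064638) (nat_lit 76) (nat_lit 52651648243) (nat_lit 248) (nat_lit 5) (nat_lit 255) (nat_lit 5) (nat_lit 249) (nat_lit 5) (nat_lit 483) (nat_lit 463) (nat_lit 254)) (XT.nd (nat_lit 78) (nat_lit 456) (nat_lit 0) (XT.lf (nat_lit 0) (nat_lit 61082472538) (nat_lit 532) (nat_lit 84052447874) (nat_lit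 76) (nat_lit 7778357490) (nat_lit 242) (nat_lit 5) (nat_lit 249) (nat_lit 5) (nat_lit 243) (nat_lit 5) (nat_lit 484) (nat_lit 463) (nat_lit 253)) (XT.lf (nat_lit 0) (nat_lit 63033216705) (nat_lit 456) (nat_lit 41158374200) (nat_lit 532) (nat_lit 53122023030) (nat_lit 236) (nat_lit 5) (nat_lit 242) (nat_lit 5) (nat_lit 243) (nat_lit 5) (nat_lit 485) (nat_lit 463) (nat_lit 252)))) (XT.nd (nat_lit 78) (nat_lit 912) (nat_lit 0) (XT.lf (nat_lit 0) (nat_lit 57786346248) (nat_lit 380) (nat_lit 93752544681) (nat_lit 456) (nat_lit 10332594082) (nat_lit 231) (nat_lit 5) (nat_lit 236) (nat_lit 5) (nat_lit 237) (nat_lit 5) (nat_lit 486) (nat_lit 463) (nat_lit 251)) (XT.nd (nat_lit 78) (nat_lit 380) (nat_lit 0) (XT.lf (nat_lit 0) (nat_lit 35992409356) (nat_lit 532) (nat_lit 113679816484) (nat_lit 76) (nat_lit 16912910939) (nat_lit 224) (nat_lit 5) (nat_lit 231) (nat_lit 5) (nat_lit 225) (nat_lit 5) (nat_lit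 487) (nat_lit 463) (nat_lit 250)) (XT.lf (nat_lit 0) (nat_lit 48298889374) (nat_lit 380) (nat_lit 38615321880) (nat_lit 456) (nat_lit 84542363540) (nat_lit 219) (nat_lit 5) (nat_lit 224) (nat_lit 5) (nat_lit 225) (nat_lit 5) (nat_lit 488) (nat_lit 463) (nat_lit 249))))) (XT.nd (nat_lit 60684) (nat_lit 0) (nat_lit 8664) (XT.nd (nat_lit 60528) (nat_lit 0) (nat_lit 8588) (XT.lf (nat_lit 0) (nat_lit 44318651644) (nat_lit 380) (nat_lit 98420668200) (nat_lit 456) (nat_lit 33761548380) (nat_lit 214) (nat_lit 5) (nat_lit 219) (nat_lit 5) (nat_lit 220) (nat_lit 5) (nat_lit 489) (nat_lit 463) (nat_lit 248)) (XT.nd (nat_lit 78) (nat_lit 0) (nat_lit 76) (XT.lf (nat_lit 0) (nat_lit 26979300074) (nat_lit 1292) (nat_lit 9554071812) (nat_lit 1292) (nat_lit 9554071812) (nat_lit 327) (nat_lit 3) (nat_lit 344) (nat_lit 3) (nat_lit 344) (nat_lit 5) (nat_lit 464) (nat_lit 464) (nat_lit 272)) (XT.lf (nat_lit 0) (nat_lit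 55908405504) (nat_lit 1216) (nat_lit 35949890367) (nat_lit 1292) (nat_lit 2602937918) (nat_lit 328) (nat_lit 5) (nat_lit 344) (nat_lit 5) (nat_lit 345) (nat_lit 5) (nat_lit 465) (nat_lit 464) (nat_lit 271)))) (XT.nd (nat_lit 156) (nat_lit 0) (nat_lit 152) (XT.nd (nat_lit 78) (nat_lit 0) (nat_lit 76) (XT.lf (nat_lit 76) (nat_lit 43667339020) (nat_lit 0) (nat_lit 15643440341) (nat_lit 1292) (nat_lit 37510465829) (nat_lit 329) (nat_lit 5) (nat_lit 328) (nat_lit 5) (nat_lit 345) (nat_lit 5) (nat_lit 466) (nat_lit 464) (nat_lit 270)) (XT.lf (nat_lit 76) (nat_lit 28664865844) (nat_lit 0) (nat_lit 35485796637) (nat_lit 1292) (nat_lit 35110573000) (nat_lit 330) (nat_lit 5) (nat_lit 329) (nat_lit 5) (nat_lit 346) (nat_lit 5) (nat_lit 467) (nat_lit 464) (nat_lit 269))) (XT.nd (nat_lit 78) (nat_lit 0) (nat_lit 76) (XT.lf (nat_lit 76) (nat_lit 13547849237) (nat_lit 0) (nat_lit 56955924724) (nat_lit 1292) (nat_lit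 31281314333) (nat_lit 331) (nat_lit 5) (nat_lit 330) (nat_lit 5) (nat_lit 347) (nat_lit 5) (nat_lit 468) (nat_lit 464) (nat_lit 268)) (XT.lf (nat_lit 0) (nat_lit 78493164848) (nat_lit 1216) (nat_lit 1631883129) (nat_lit 1292) (nat_lit 24270527087) (nat_lit 331) (nat_lit 5) (nat_lit 347) (nat_lit 5) (nat_lit 348) (nat_lit 5) (nat_lit 469) (nat_lit 464) (nat_lit 267))))))) (XT.nd (nat_lit 1014) (nat_lit 2812) (nat_lit 0) (XT.nd (nat_lit 468) (nat_lit 3496) (nat_lit 0) (XT.nd (nat_lit 234) (nat_lit 684) (nat_lit 0) (XT.nd (nat_lit 78) (nat_lit 1216) (nat_lit 0) (XT.lf (nat_lit 0) (nat_lit 88346953917) (nat_lit 1216) (nat_lit 16619829605) (nat_lit 1292) (nat_lit 2125854821) (nat_lit 332) (nat_lit 5) (nat_lit 348) (nat_lit 5) (nat_lit 349) (nat_lit 5) (nat_lit 470) (nat_lit 464) (nat_lit 266)) (XT.nd (nat_lit 78) (nat_lit 1216) (nat_lit 0) (XT.lf (nat_lit 76) (nat_lit 78005596210) (nat_lit 0) (nat_lit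 22262720398) (nat_lit 1292) (nat_lit 9608991684) (nat_lit 333) (nat_lit 5) (nat_lit 332) (nat_lit 5) (nat_lit 349) (nat_lit 5) (nat_lit 471) (nat_lit 464) (nat_lit 265)) (XT.lf (nat_lit 0) (nat_lit 1422145918) (nat_lit 1292) (nat_lit 47202350782) (nat_lit 1368) (nat_lit 64133600272) (nat_lit 316) (nat_lit 5) (nat_lit 333) (nat_lit 5) (nat_lit 334) (nat_lit 5) (nat_lit 472) (nat_lit 464) (nat_lit 264)))) (XT.nd (nat_lit 78) (nat_lit 760) (nat_lit 0) (XT.lf (nat_lit 0) (nat_lit 14257894952) (nat_lit 1292) (nat_lit 62663069557) (nat_lit 1368) (nat_lit 38815552947) (nat_lit 317) (nat_lit 5) (nat_lit 334) (nat_lit 5) (nat_lit 335) (nat_lit 5) (nat_lit 473) (nat_lit 464) (nat_lit 263)) (XT.nd (nat_lit 78) (nat_lit 836) (nat_lit 0) (XT.lf (nat_lit 0) (nat_lit 29220943410) (nat_lit 1292) (nat_lit 78134819076) (nat_lit 76) (nat_lit 11463531146) (nat_lit 318) (nat_lit 5) (nat_lit 335) (nat_lit 5) (nat_lit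 319) (nat_lit 5) (nat_lit 474) (nat_lit 464) (nat_lit 262)) (XT.lf (nat_lit 0) (nat_lit 28239820460) (nat_lit 836) (nat_lit 18391066564) (nat_lit 912) (nat_lit 75374359332) (nat_lit 307) (nat_lit 5) (nat_lit 318) (nat_lit 5) (nat_lit 319) (nat_lit 5) (nat_lit 475) (nat_lit 464) (nat_lit 261))))) (XT.nd (nat_lit 234) (nat_lit 2280) (nat_lit 0) (XT.nd (nat_lit 78) (nat_lit 608) (nat_lit 0) (XT.lf (nat_lit 0) (nat_lit 15818686090) (nat_lit 608) (nat_lit 50777625923) (nat_lit 684) (nat_lit 58703635202) (nat_lit 299) (nat_lit 5) (nat_lit 307) (nat_lit 5) (nat_lit 308) (nat_lit 5) (nat_lit 476) (nat_lit 464) (nat_lit 260)) (XT.nd (nat_lit 78) (nat_lit 0) (nat_lit 0) (XT.lf (nat_lit 0) (nat_lit 3574040114) (nat_lit 608) (nat_lit 85591266771) (nat_lit 684) (nat_lit 39545917292) (nat_lit 291) (nat_lit 5) (nat_lit 299) (nat_lit 5) (nat_lit 300) (nat_lit 5) (nat_lit 477) (nat_lit 464) (nat_lit 259)) (XT.lf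 (nat_lit 0) (nat_lit 114588567730) (nat_lit 684) (nat_lit 8289087203) (nat_lit 76) (nat_lit 9363635588) (nat_lit 291) (nat_lit 5) (nat_lit 300) (nat_lit 5) (nat_lit 292) (nat_lit 5) (nat_lit 478) (nat_lit 464) (nat_lit 258)))) (XT.nd (nat_lit 156) (nat_lit 1064) (nat_lit 0) (XT.nd (nat_lit 78) (nat_lit 608) (nat_lit 0) (XT.lf (nat_lit 0) (nat_lit 7227135018) (nat_lit 608) (nat_lit 20162752659) (nat_lit 76) (nat_lit 108496550651) (nat_lit 283) (nat_lit 5) (nat_lit 291) (nat_lit 5) (nat_lit 284) (nat_lit 5) (nat_lit 479) (nat_lit 464) (nat_lit 257)) (XT.lf (nat_lit 0) (nat_lit 34829809396) (nat_lit 684) (nat_lit 32054576823) (nat_lit 76) (nat_lit 72768896669) (nat_lit 275) (nat_lit 5) (nat_lit 284) (nat_lit 5) (nat_lit 276) (nat_lit 5) (nat_lit 480) (nat_lit 464) (nat_lit 256))) (XT.nd (nat_lit 78) (nat_lit 532) (nat_lit 0) (XT.lf (nat_lit 0) (nat_lit 65598138706) (nat_lit 608) (nat_lit 43656766989)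 (nat_lit 76) (nat_lit 34299998362) (nat_lit 268) (nat_lit 5) (nat_lit 276) (nat_lit 5) (nat_lit 269) (nat_lit 5) (nat_lit 481) (nat_lit 464) (nat_lit 255)) (XT.lf (nat_lit 0) (nat_lit 92604873623) (nat_lit 532) (nat_lit 7198092104) (nat_lit 608) (nat_lit 47791698135) (nat_lit 261) (nat_lit 5) (nat_lit 268) (nat_lit 5) (nat_lit 269) (nat_lit 5) (nat_lit 482) (nat_lit 464) (nat_lit 254)))))) (XT.nd (nat_lit 61152) (nat_lit 0) (nat_lit 7904) (XT.nd (nat_lit 234) (nat_lit 1368) (nat_lit 0) (XT.nd (nat_lit 78) (nat_lit 988) (nat_lit 0) (XT.lf (nat_lit 0) (nat_lit 85471012981) (nat_lit 456) (nat_lit 52482970518) (nat_lit 532) (nat_lit 13815349693) (nat_lit 255) (nat_lit 5) (nat_lit 261) (nat_lit 5) (nat_lit 262) (nat_lit 5) (nat_lit 483) (nat_lit 464) (nat_lit 253)) (XT.nd (nat_lit 78) (nat_lit 456) (nat_lit 0) (XT.lf (nat_lit 0) (nat_lit 23380777213) (nat_lit 532) (nat_lit 77420929288) (nat_lit 76) (nat_lit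 55286299860) (nat_lit 248) (nat_lit 5) (nat_lit 255) (nat_lit 5) (nat_lit 249) (nat_lit 5) (nat_lit 484) (nat_lit 464) (nat_lit 252)) (XT.lf (nat_lit 0) (nat_lit 64148284832) (nat_lit 532) (nat_lit 88240621680) (nat_lit 76) (nat_lit 8169684210) (nat_lit 242) (nat_lit 5) (nat_lit 249) (nat_lit 5) (nat_lit 243) (nat_lit 5) (nat_lit 485) (nat_lit 464) (nat_lit 251)))) (XT.nd (nat_lit 156) (nat_lit 532) (nat_lit 0) (XT.nd (nat_lit 78) (nat_lit 380) (nat_lit 0) (XT.lf (nat_lit 0) (nat_lit 66198911963) (nat_lit 456) (nat_lit 43213525460) (nat_lit 532) (nat_lit 55766518805) (nat_lit 236) (nat_lit 5) (nat_lit 242) (nat_lit 5) (nat_lit 243) (nat_lit 5) (nat_lit 486) (nat_lit 464) (nat_lit 250)) (XT.lf (nat_lit 0) (nat_lit 60689598553) (nat_lit 380) (nat_lit 98437126659) (nat_lit 456) (nat_lit 10838006981) (nat_lit 231) (nat_lit 5) (nat_lit 236) (nat_lit 5) (nat_lit 237) (nat_lit 5) (nat_lit 487) (nat_lit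 464) (nat_lit 249))) (XT.nd (nat_lit 60684) (nat_lit 0) (nat_lit 7828) (XT.lf (nat_lit 0) (nat_lit 37802666402) (nat_lit 532) (nat_lit 119349770462) (nat_lit 76) (nat_lit 17761637308) (nat_lit 224) (nat_lit 5) (nat_lit 231) (nat_lit 5) (nat_lit 225) (nat_lit 5) (nat_lit 488) (nat_lit 464) (nat_lit 248)) (XT.lf (nat_lit 0) (nat_lit 28340689877) (nat_lit 1292) (nat_lit 10025376344) (nat_lit 1292) (nat_lit 10025376344) (nat_lit 327) (nat_lit 3) (nat_lit 344) (nat_lit 3) (nat_lit 344) (nat_lit 5) (nat_lit 465) (nat_lit 465) (nat_lit 270))))) (XT.nd (nat_lit 234) (nat_lit 0) (nat_lit 152) (XT.nd (nat_lit 78) (nat_lit 0) (nat_lit 0) (XT.lf (nat_lit 0) (nat_lit 58727502413) (nat_lit 1216) (nat_lit 37734129812) (nat_lit 1292) (nat_lit 2721951862) (nat_lit 328) (nat_lit 5) (nat_lit 344) (nat_lit 5) (nat_lit 345) (nat_lit 5) (nat_lit 466) (nat_lit 465) (nat_lit 269)) (XT.nd (nat_lit 78) (nat_lit 0) (nat_lit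 76) (XT.lf (nat_lit 76) (nat_lit 45863581090) (nat_lit 0) (nat_lit 16435410178) (nat_lit 1292) (nat_lit 39362634954) (nat_lit 329) (nat_lit 5) (nat_lit 328) (nat_lit 5) (nat_lit 345) (nat_lit 5) (nat_lit 467) (nat_lit 465) (nat_lit 268)) (XT.lf (nat_lit 76) (nat_lit 30111368376) (nat_lit 0) (nat_lit 37268458262) (nat_lit 1292) (nat_lit 36843820696) (nat_lit 330) (nat_lit 5) (nat_lit 329) (nat_lit 5) (nat_lit 346) (nat_lit 5) (nat_lit 468) (nat_lit 465) (nat_lit 267)))) (XT.nd (nat_lit 156) (nat_lit 0) (nat_lit 152) (XT.nd (nat_lit 78) (nat_lit 0) (nat_lit 76) (XT.lf (nat_lit 76) (nat_lit 14238830325) (nat_lit 0) (nat_lit 59810787297) (nat_lit 1292) (nat_lit 32824104494) (nat_lit 331) (nat_lit 5) (nat_lit 330) (nat_lit 5) (nat_lit 347) (nat_lit 5) (nat_lit 469) (nat_lit 465) (nat_lit 266)) (XT.lf (nat_lit 0) (nat_lit 82437429793) (nat_lit 1216) (nat_lit 1699880004) (nat_lit 1292) (nat_lit 25477454920)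 (nat_lit 331) (nat_lit 5) (nat_lit 347) (nat_lit 5) (nat_lit 348) (nat_lit 5) (nat_lit 470) (nat_lit 465) (nat_lit 265))) (XT.nd (nat_lit 78) (nat_lit 0) (nat_lit 0) (XT.lf (nat_lit 0) (nat_lit 92783047863) (nat_lit 1216) (nat_lit 17436994954) (nat_lit 1292) (nat_lit 2226664201) (nat_lit 332) (nat_lit 5) (nat_lit 348) (nat_lit 5) (nat_lit 349) (nat_lit 5) (nat_lit 471) (nat_lit 465) (nat_lit 264)) (XT.lf (nat_lit 76) (nat_lit 81919305830) (nat_lit 0) (nat_lit 23380409276) (nat_lit 1292) (nat_lit 10070918306) (nat_lit 333) (nat_lit 5) (nat_lit 332) (nat_lit 5) (nat_lit 349) (nat_lit 5) (nat_lit 472) (nat_lit 465) (nat_lit 263))))))))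
noncomputable def xc124 : XT := (XT.nd (nat_lit 62712) (nat_lit 0) (nat_lit 380) (XT.nd (nat_lit 1014) (nat_lit 1292) (nat_lit 0) (XT.nd (nat_lit 468) (nat_lit 3268) (nat_lit 0) (XT.nd (nat_lit 234) (nat_lit 1900) (nat_lit 0) (XT.nd (nat_lit 78) (nat_lit 0) (nat_lit 76) (XT.lf (nat_lit 0) (nat_lit 1510639942) (nat_lit 1292) (nat_lit 49548509374) (nat_lit 1368) (nat_lit 67336330149) (nat_lit 316) (nat_lit 5) (nat_lit 333) (nat_lit 5) (nat_lit 334) (nat_lit 5) (nat_lit 473) (nat_lit 465) (nat_lit 262)) (XT.nd (nat_lit 78) (nat_lit 0) (nat_lit 76) (XT.lf (nat_lit 0) (nat_lit 14987448735) (nat_lit 1292) (nat_lit 65782132736) (nat_lit 1368) (nat_lit 40753261371) (nat_lit 317) (nat_lit 5) (nat_lit 334) (nat_lit 5) (nat_lit 335) (nat_lit 5) (nat_lit 474) (nat_lit 465) (nat_lit 261)) (XT.lf (nat_lit 0) (nat_lit 30697965675) (nat_lit 1292) (nat_lit 82027370810) (nat_lit 76) (nat_lit 12034441891) (nat_lit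 318) (nat_lit 5) (nat_lit 335) (nat_lit 5) (nat_lit 319) (nat_lit 5) (nat_lit 475) (nat_lit 465) (nat_lit 260)))) (XT.nd (nat_lit 78) (nat_lit 1216) (nat_lit 0) (XT.lf (nat_lit 0) (nat_lit 29665593972) (nat_lit 836) (nat_lit 19312184266) (nat_lit 912) (nat_lit 79127269380) (nat_lit 307) (nat_lit 5) (nat_lit 318) (nat_lit 5) (nat_lit 319) (nat_lit 5) (nat_lit 476) (nat_lit 465) (nat_lit 259)) (XT.nd (nat_lit 78) (nat_lit 608) (nat_lit 0) (XT.lf (nat_lit 0) (nat_lit 16623470258) (nat_lit 608) (nat_lit 53317392226) (nat_lit 684) (nat_lit 61623639425) (nat_lit 299) (nat_lit 5) (nat_lit 307) (nat_lit 5) (nat_lit 308) (nat_lit 5) (nat_lit 477) (nat_lit 465) (nat_lit 258)) (XT.lf (nat_lit 0) (nat_lit 3766633220) (nat_lit 608) (nat_lit 89871097647) (nat_lit 684) (nat_lit 41508629169) (nat_lit 291) (nat_lit 5) (nat_lit 299) (nat_lit 5) (nat_lit 300) (nat_lit 5) (nat_lit 478) (nat_lit 465) (nat_lit 257)))))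 (XT.nd (nat_lit 234) (nat_lit 2052) (nat_lit 0) (XT.nd (nat_lit 78) (nat_lit 1216) (nat_lit 0) (XT.lf (nat_lit 0) (nat_lit 120331478085) (nat_lit 684) (nat_lit 8689904399) (nat_lit 76) (nat_lit 9831567542) (nat_lit 291) (nat_lit 5) (nat_lit 300) (nat_lit 5) (nat_lit 292) (nat_lit 5) (nat_lit 479) (nat_lit 465) (nat_lit 256)) (XT.nd (nat_lit 78) (nat_lit 608) (nat_lit 0) (XT.lf (nat_lit 0) (nat_lit 7601587984) (nat_lit 608) (nat_lit 21157382874) (nat_lit 76) (nat_lit 113921395980) (nat_lit 283) (nat_lit 5) (nat_lit 291) (nat_lit 5) (nat_lit 284) (nat_lit 5) (nat_lit 480) (nat_lit 465) (nat_lit 255)) (XT.lf (nat_lit 0) (nat_lit 36583903584) (nat_lit 684) (nat_lit 33643811991) (nat_lit 76) (nat_lit 76407852851) (nat_lit 275) (nat_lit 5) (nat_lit 284) (nat_lit 5) (nat_lit 276) (nat_lit 5) (nat_lit 481) (nat_lit 465) (nat_lit 254)))) (XT.nd (nat_lit 156) (nat_lit 988) (nat_lit 0) (XT.nd (nat_lit 78)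 (nat_lit 532) (nat_lit 0) (XT.lf (nat_lit 0) (nat_lit 68890184569) (nat_lit 608) (nat_lit 45826143495) (nat_lit 76) (nat_lit 36015956556) (nat_lit 268) (nat_lit 5) (nat_lit 276) (nat_lit 5) (nat_lit 269) (nat_lit 5) (nat_lit 482) (nat_lit 465) (nat_lit 253)) (XT.lf (nat_lit 0) (nat_lit 97248193266) (nat_lit 532) (nat_lit 7556607325) (nat_lit 608) (nat_lit 50169245418) (nat_lit 261) (nat_lit 5) (nat_lit 268) (nat_lit 5) (nat_lit 269) (nat_lit 5) (nat_lit 483) (nat_lit 465) (nat_lit 252))) (XT.nd (nat_lit 78) (nat_lit 532) (nat_lit 0) (XT.lf (nat_lit 0) (nat_lit 89757592784) (nat_lit 456) (nat_lit 55105357928) (nat_lit 532) (nat_lit 14494510671) (nat_lit 255) (nat_lit 5) (nat_lit 261) (nat_lit 5) (nat_lit 262) (nat_lit 5) (nat_lit 484) (nat_lit 465) (nat_lit 251)) (XT.lf (nat_lit 0) (nat_lit 24560796363) (nat_lit 532) (nat_lit 81278788829) (nat_lit 76) (nat_lit 58052491683) (nat_lit 248) (nat_lit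 5) (nat_lit 255) (nat_lit 5) (nat_lit 249) (nat_lit 5) (nat_lit 485) (nat_lit 465) (nat_lit 250)))))) (XT.nd (nat_lit 61152) (nat_lit 0) (nat_lit 6460) (XT.nd (nat_lit 60918) (nat_lit 0) (nat_lit 7296) (XT.nd (nat_lit 78) (nat_lit 836) (nat_lit 0) (XT.lf (nat_lit 0) (nat_lit 67366301040) (nat_lit 532) (nat_lit 92639547469) (nat_lit 76) (nat_lit 8580353314) (nat_lit 242) (nat_lit 5) (nat_lit 249) (nat_lit 5) (nat_lit 243) (nat_lit 5) (nat_lit 486) (nat_lit 465) (nat_lit 249)) (XT.nd (nat_lit 78) (nat_lit 380) (nat_lit 0) (XT.lf (nat_lit 0) (nat_lit 69521587196) (nat_lit 456) (nat_lit 45371691574) (nat_lit 532) (nat_lit 58544318326) (nat_lit 236) (nat_lit 5) (nat_lit 242) (nat_lit 5) (nat_lit 243) (nat_lit 5) (nat_lit 487) (nat_lit 465) (nat_lit 248)) (XT.lf (nat_lit 0) (nat_lit 63736717930) (nat_lit 380) (nat_lit 103356220854) (nat_lit 456) (nat_lit 11369733357) (nat_lit 231) (nat_lit 5) (nat_lit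 236) (nat_lit 5) (nat_lit 237) (nat_lit 5) (nat_lit 488) (nat_lit 465) (nat_lit 247)))) (XT.nd (nat_lit 78) (nat_lit 0) (nat_lit 76) (XT.lf (nat_lit 0) (nat_lit 29768994029) (nat_lit 1292) (nat_lit 10520841027) (nat_lit 1292) (nat_lit 10520841027) (nat_lit 327) (nat_lit 3) (nat_lit 344) (nat_lit 3) (nat_lit 344) (nat_lit 5) (nat_lit 466) (nat_lit 466) (nat_lit 268)) (XT.nd (nat_lit 78) (nat_lit 0) (nat_lit 0) (XT.lf (nat_lit 0) (nat_lit 61685352938) (nat_lit 1216) (nat_lit 39608813561) (nat_lit 1292) (nat_lit 2847951539) (nat_lit 328) (nat_lit 5) (nat_lit 344) (nat_lit 5) (nat_lit 345) (nat_lit 5) (nat_lit 467) (nat_lit 466) (nat_lit 267)) (XT.lf (nat_lit 76) (nat_lit 48168438257) (nat_lit 0) (nat_lit 17266067598) (nat_lit 1292) (nat_lit 41309583784) (nat_lit 329) (nat_lit 5) (nat_lit 328) (nat_lit 5) (nat_lit 345) (nat_lit 5) (nat_lit 468) (nat_lit 466) (nat_lit 266))))) (XT.nd (nat_lit 234) (nat_lit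 988) (nat_lit 0) (XT.nd (nat_lit 78) (nat_lit 0) (nat_lit 76) (XT.lf (nat_lit 76) (nat_lit 31628963317) (nat_lit 0) (nat_lit 39139474638) (nat_lit 1292) (nat_lit 38665802248) (nat_lit 330) (nat_lit 5) (nat_lit 329) (nat_lit 5) (nat_lit 346) (nat_lit 5) (nat_lit 469) (nat_lit 466) (nat_lit 265)) (XT.nd (nat_lit 78) (nat_lit 0) (nat_lit 76) (XT.lf (nat_lit 76) (nat_lit 14963097126) (nat_lit 0) (nat_lit 62807736037) (nat_lit 1292) (nat_lit 34446012162) (nat_lit 331) (nat_lit 5) (nat_lit 330) (nat_lit 5) (nat_lit 347) (nat_lit 5) (nat_lit 470) (nat_lit 466) (nat_lit 264)) (XT.lf (nat_lit 0) (nat_lit 86577085139) (nat_lit 1216) (nat_lit 1772540870) (nat_lit 1292) (nat_lit 26745342613) (nat_lit 331) (nat_lit 5) (nat_lit 347) (nat_lit 5) (nat_lit 348) (nat_lit 5) (nat_lit 471) (nat_lit 466) (nat_lit 263)))) (XT.nd (nat_lit 156) (nat_lit 1216) (nat_lit 0) (XT.nd (nat_lit 78) (nat_lit 0) (nat_lit 0) (XT.lf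 (nat_lit 0) (nat_lit 97439203658) (nat_lit 1216) (nat_lit 18296303992) (nat_lit 1292) (nat_lit 2333023841) (nat_lit 332) (nat_lit 5) (nat_lit 348) (nat_lit 5) (nat_lit 349) (nat_lit 5) (nat_lit 472) (nat_lit 466) (nat_lit 262)) (XT.lf (nat_lit 76) (nat_lit 86027452354) (nat_lit 0) (nat_lit 24553559317) (nat_lit 1292) (nat_lit 10557663349) (nat_lit 333) (nat_lit 5) (nat_lit 332) (nat_lit 5) (nat_lit 349) (nat_lit 5) (nat_lit 473) (nat_lit 466) (nat_lit 261))) (XT.nd (nat_lit 78) (nat_lit 0) (nat_lit 76) (XT.lf (nat_lit 0) (nat_lit 1601942215) (nat_lit 1292) (nat_lit 52013273665) (nat_lit 1368) (nat_lit 70699563766) (nat_lit 316) (nat_lit 5) (nat_lit 333) (nat_lit 5) (nat_lit 334) (nat_lit 5) (nat_lit 474) (nat_lit 466) (nat_lit 260)) (XT.lf (nat_lit 0) (nat_lit 15751931407) (nat_lit 1292) (nat_lit 69058459056) (nat_lit 1368) (nat_lit 42788140562) (nat_lit 317) (nat_lit 5) (nat_lit 334) (nat_lit 5)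 (nat_lit 335) (nat_lit 5) (nat_lit 475) (nat_lit 466) (nat_lit 259))))))) (XT.nd (nat_lit 61776) (nat_lit 0) (nat_lit 4180) (XT.nd (nat_lit 468) (nat_lit 3572) (nat_lit 0) (XT.nd (nat_lit 234) (nat_lit 1216) (nat_lit 0) (XT.nd (nat_lit 78) (nat_lit 1444) (nat_lit 0) (XT.lf (nat_lit 0) (nat_lit 32247353842) (nat_lit 1292) (nat_lit 86115869310) (nat_lit 76) (nat_lit 12634108828) (nat_lit 318) (nat_lit 5) (nat_lit 335) (nat_lit 5) (nat_lit 319) (nat_lit 5) (nat_lit 476) (nat_lit 466) (nat_lit 258)) (XT.nd (nat_lit 78) (nat_lit 608) (nat_lit 0) (XT.lf (nat_lit 0) (nat_lit 31161374794) (nat_lit 836) (nat_lit 20279212412) (nat_lit 912) (nat_lit 83069294600) (nat_lit 307) (nat_lit 5) (nat_lit 318) (nat_lit 5) (nat_lit 319) (nat_lit 5) (nat_lit 477) (nat_lit 466) (nat_lit 257)) (XT.lf (nat_lit 0) (nat_lit 17467206006) (nat_lit 608) (nat_lit 55984064564) (nat_lit 684) (nat_lit 64691054923) (nat_lit 299)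 (nat_lit 5) (nat_lit 307) (nat_lit 5) (nat_lit 308) (nat_lit 5) (nat_lit 478) (nat_lit 466) (nat_lit 256)))) (XT.nd (nat_lit 78) (nat_lit 608) (nat_lit 0) (XT.lf (nat_lit 0) (nat_lit 3967564520) (nat_lit 608) (nat_lit 94364895193) (nat_lit 684) (nat_lit 43570832520) (nat_lit 291) (nat_lit 5) (nat_lit 299) (nat_lit 5) (nat_lit 300) (nat_lit 5) (nat_lit 479) (nat_lit 466) (nat_lit 255)) (XT.nd (nat_lit 78) (nat_lit 608) (nat_lit 0) (XT.lf (nat_lit 0) (nat_lit 126360280531) (nat_lit 684) (nat_lit 9112030309) (nat_lit 76) (nat_lit 10322919320) (nat_lit 291) (nat_lit 5) (nat_lit 300) (nat_lit 5) (nat_lit 292) (nat_lit 5) (nat_lit 480) (nat_lit 466) (nat_lit 254)) (XT.lf (nat_lit 0) (nat_lit 7993546036) (nat_lit 608) (nat_lit 22203000391) (nat_lit 76) (nat_lit 119617481922) (nat_lit 283) (nat_lit 5) (nat_lit 291) (nat_lit 5) (nat_lit 284) (nat_lit 5) (nat_lit 481) (nat_lit 466) (nat_lit 253))))) (XT.nd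 (nat_lit 234) (nat_lit 1900) (nat_lit 0) (XT.nd (nat_lit 78) (nat_lit 1064) (nat_lit 0) (XT.lf (nat_lit 0) (nat_lit 38424530708) (nat_lit 684) (nat_lit 35313763430) (nat_lit 76) (nat_lit 80228709302) (nat_lit 275) (nat_lit 5) (nat_lit 284) (nat_lit 5) (nat_lit 276) (nat_lit 5) (nat_lit 482) (nat_lit 466) (nat_lit 252)) (XT.nd (nat_lit 78) (nat_lit 532) (nat_lit 0) (XT.lf (nat_lit 0) (nat_lit 72345704162) (nat_lit 608) (nat_lit 48105240382) (nat_lit 76) (nat_lit 37817623569) (nat_lit 268) (nat_lit 5) (nat_lit 276) (nat_lit 5) (nat_lit 269) (nat_lit 5) (nat_lit 483) (nat_lit 466) (nat_lit 251)) (XT.lf (nat_lit 0) (nat_lit 102122463213) (nat_lit 532) (nat_lit 7933177479) (nat_lit 608) (nat_lit 52666789209) (nat_lit 261) (nat_lit 5) (nat_lit 268) (nat_lit 5) (nat_lit 269) (nat_lit 5) (nat_lit 484) (nat_lit 466) (nat_lit 250)))) (XT.nd (nat_lit 156) (nat_lit 912) (nat_lit 0) (XT.nd (nat_lit 78) (nat_lit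 532) (nat_lit 0) (XT.lf (nat_lit 0) (nat_lit 94257290249) (nat_lit 456) (nat_lit 57859028441) (nat_lit 532) (nat_lit 15208708761) (nat_lit 255) (nat_lit 5) (nat_lit 261) (nat_lit 5) (nat_lit 262) (nat_lit 5) (nat_lit 485) (nat_lit 466) (nat_lit 249)) (XT.lf (nat_lit 0) (nat_lit 25798795627) (nat_lit 532) (nat_lit 85330767342) (nat_lit 76) (nat_lit 60956818607) (nat_lit 248) (nat_lit 5) (nat_lit 255) (nat_lit 5) (nat_lit 249) (nat_lit 5) (nat_lit 486) (nat_lit 466) (nat_lit 248))) (XT.nd (nat_lit 78) (nat_lit 456) (nat_lit 0) (XT.lf (nat_lit 0) (nat_lit 70744232388) (nat_lit 532) (nat_lit 97259637953) (nat_lit 76) (nat_lit 9011352743) (nat_lit 242) (nat_lit 5) (nat_lit 249) (nat_lit 5) (nat_lit 243) (nat_lit 5) (nat_lit 487) (nat_lit 466) (nat_lit 247)) (XT.lf (nat_lit 0) (nat_lit 73009212709) (nat_lit 456) (nat_lit 47637999364) (nat_lit 532) (nat_lit 61461986471) (nat_lit 236) (nat_lit 5) (nat_lit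 242) (nat_lit 5) (nat_lit 243) (nat_lit 5) (nat_lit 488) (nat_lit 466) (nat_lit 246)))))) (XT.nd (nat_lit 546) (nat_lit 2736) (nat_lit 0) (XT.nd (nat_lit 234) (nat_lit 0) (nat_lit 152) (XT.nd (nat_lit 78) (nat_lit 0) (nat_lit 76) (XT.lf (nat_lit 0) (nat_lit 31267665644) (nat_lit 1292) (nat_lit 11041618558) (nat_lit 1292) (nat_lit 11041618558) (nat_lit 327) (nat_lit 3) (nat_lit 344) (nat_lit 3) (nat_lit 344) (nat_lit 5) (nat_lit 467) (nat_lit 467) (nat_lit 266)) (XT.nd (nat_lit 78) (nat_lit 0) (nat_lit 0) (XT.lf (nat_lit 0) (nat_lit 64789099410) (nat_lit 1216) (nat_lit 41578349258) (nat_lit 1292) (nat_lit 2981190009) (nat_lit 328) (nat_lit 5) (nat_lit 344) (nat_lit 5) (nat_lit 345) (nat_lit 5) (nat_lit 468) (nat_lit 467) (nat_lit 265)) (XT.lf (nat_lit 76) (nat_lit 50587452562) (nat_lit 0) (nat_lit 18137431668) (nat_lit 1292) (nat_lit 43355849443) (nat_lit 329) (nat_lit 5) (nat_lit 328) (nat_lit 5)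 (nat_lit 345) (nat_lit 5) (nat_lit 469) (nat_lit 467) (nat_lit 264)))) (XT.nd (nat_lit 156) (nat_lit 0) (nat_lit 152) (XT.nd (nat_lit 78) (nat_lit 0) (nat_lit 76) (XT.lf (nat_lit 76) (nat_lit 33221319892) (nat_lit 0) (nat_lit 41103335864) (nat_lit 1292) (nat_lit 40580761764) (nat_lit 330) (nat_lit 5) (nat_lit 329) (nat_lit 5) (nat_lit 346) (nat_lit 5) (nat_lit 470) (nat_lit 467) (nat_lit 263)) (XT.lf (nat_lit 76) (nat_lit 15722431379) (nat_lit 0) (nat_lit 65953936332) (nat_lit 1292) (nat_lit 36150809318) (nat_lit 331) (nat_lit 5) (nat_lit 330) (nat_lit 5) (nat_lit 347) (nat_lit 5) (nat_lit 471) (nat_lit 467) (nat_lit 262))) (XT.nd (nat_lit 78) (nat_lit 0) (nat_lit 76) (XT.lf (nat_lit 0) (nat_lit 90922069879) (nat_lit 1216) (nat_lit 1849981397) (nat_lit 1292) (nat_lit 28077181125) (nat_lit 331) (nat_lit 5) (nat_lit 347) (nat_lit 5) (nat_lit 348) (nat_lit 5) (nat_lit 472) (nat_lit 467) (nat_lit 261))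 (XT.lf (nat_lit 0) (nat_lit 102326586427) (nat_lit 1216) (nat_lit 19199744398) (nat_lit 1292) (nat_lit 2445163859) (nat_lit 332) (nat_lit 5) (nat_lit 348) (nat_lit 5) (nat_lit 349) (nat_lit 5) (nat_lit 473) (nat_lit 467) (nat_lit 260))))) (XT.nd (nat_lit 234) (nat_lit 1900) (nat_lit 0) (XT.nd (nat_lit 78) (nat_lit 1216) (nat_lit 0) (XT.lf (nat_lit 76) (nat_lit 90339873708) (nat_lit 0) (nat_lit 25784982930) (nat_lit 1292) (nat_lit 11070307630) (nat_lit 333) (nat_lit 5) (nat_lit 332) (nat_lit 5) (nat_lit 349) (nat_lit 5) (nat_lit 474) (nat_lit 467) (nat_lit 259)) (XT.nd (nat_lit 78) (nat_lit 0) (nat_lit 76) (XT.lf (nat_lit 0) (nat_lit 1696343431) (nat_lit 1292) (nat_lit 54602453288) (nat_lit 1368) (nat_lit 74231292167) (nat_lit 316) (nat_lit 5) (nat_lit 333) (nat_lit 5) (nat_lit 334) (nat_lit 5) (nat_lit 475) (nat_lit 467) (nat_lit 258)) (XT.lf (nat_lit 0) (nat_lit 16553233406) (nat_lit 1292) (nat_lit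 72499789885) (nat_lit 1368) (nat_lit 44925022532) (nat_lit 317) (nat_lit 5) (nat_lit 334) (nat_lit 5) (nat_lit 335) (nat_lit 5) (nat_lit 476) (nat_lit 467) (nat_lit 257)))) (XT.nd (nat_lit 156) (nat_lit 1216) (nat_lit 0) (XT.nd (nat_lit 78) (nat_lit 836) (nat_lit 0) (XT.lf (nat_lit 0) (nat_lit 33872864284) (nat_lit 1292) (nat_lit 90409989269) (nat_lit 76) (nat_lit 13263950180) (nat_lit 318) (nat_lit 5) (nat_lit 335) (nat_lit 5) (nat_lit 319) (nat_lit 5) (nat_lit 477) (nat_lit 467) (nat_lit 256)) (XT.lf (nat_lit 0) (nat_lit 32730782422) (nat_lit 836) (nat_lit 21294460046) (nat_lit 912) (nat_lit 87209754116) (nat_lit 307) (nat_lit 5) (nat_lit 318) (nat_lit 5) (nat_lit 319) (nat_lit 5) (nat_lit 478) (nat_lit 467) (nat_lit 255))) (XT.nd (nat_lit 78) (nat_lit 608) (nat_lit 0) (XT.lf (nat_lit 0) (nat_lit 18351960624) (nat_lit 608) (nat_lit 58783995890) (nat_lit 684) (nat_lit 67913121071) (nat_lit 299)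 (nat_lit 5) (nat_lit 307) (nat_lit 5) (nat_lit 308) (nat_lit 5) (nat_lit 479) (nat_lit 467) (nat_lit 254)) (XT.lf (nat_lit 0) (nat_lit 4177370989) (nat_lit 608) (nat_lit 99083360056) (nat_lit 684) (nat_lit 45737375864) (nat_lit 291) (nat_lit 5) (nat_lit 299) (nat_lit 5) (nat_lit 300) (nat_lit 5) (nat_lit 480) (nat_lit 467) (nat_lit 253))))))))
noncomputable def xc125 : XT := (XT.nd (nat_lit 62946) (nat_lit 0) (nat_lit 532) (XT.nd (nat_lit 61932) (nat_lit 0) (nat_lit 988) (XT.nd (nat_lit 468) (nat_lit 532) (nat_lit 0) (XT.nd (nat_lit 234) (nat_lit 1520) (nat_lit 0) (XT.nd (nat_lit 78) (nat_lit 1216) (nat_lit 0) (XT.lf (nat_lit 0) (nat_lit 132689386207) (nat_lit 684) (nat_lit 9556412495) (nat_lit 76) (nat_lit 10838859755) (nat_lit 291) (nat_lit 5) (nat_lit 300) (nat_lit 5) (nat_lit 292) (nat_lit 5) (nat_lit 481) (nat_lit 467) (nat_lit 252)) (XT.nd (nat_lit 78) (nat_lit 608) (nat_lit 0) (XT.lf (nat_lit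 0) (nat_lit 8403997626) (nat_lit 608) (nat_lit 23302037824) (nat_lit 76) (nat_lit 125598370659) (nat_lit 283) (nat_lit 5) (nat_lit 291) (nat_lit 5) (nat_lit 284) (nat_lit 5) (nat_lit 482) (nat_lit 467) (nat_lit 251)) (XT.lf (nat_lit 0) (nat_lit 40356126353) (nat_lit 684) (nat_lit 37068350323) (nat_lit 76) (nat_lit 84240565455) (nat_lit 275) (nat_lit 5) (nat_lit 284) (nat_lit 5) (nat_lit 276) (nat_lit 5) (nat_lit 483) (nat_lit 467) (nat_lit 250)))) (XT.nd (nat_lit 78) (nat_lit 988) (nat_lit 0) (XT.lf (nat_lit 0) (nat_lit 75972976096) (nat_lit 608) (nat_lit 50499427309) (nat_lit 76) (nat_lit 39709293123) (nat_lit 268) (nat_lit 5) (nat_lit 276) (nat_lit 5) (nat_lit 269) (nat_lit 5) (nat_lit 484) (nat_lit 467) (nat_lit 249)) (XT.nd (nat_lit 78) (nat_lit 456) (nat_lit 0) (XT.lf (nat_lit 0) (nat_lit 107239344000) (nat_lit 532) (nat_lit 8328693303) (nat_lit 608) (nat_lit 55290225286) (nat_lit 261) (nat_lit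 5) (nat_lit 268) (nat_lit 5) (nat_lit 269) (nat_lit 5) (nat_lit 485) (nat_lit 467) (nat_lit 248)) (XT.lf (nat_lit 0) (nat_lit 98980873878) (nat_lit 456) (nat_lit 60750530989) (nat_lit 532) (nat_lit 15959595498) (nat_lit 255) (nat_lit 5) (nat_lit 261) (nat_lit 5) (nat_lit 262) (nat_lit 5) (nat_lit 486) (nat_lit 467) (nat_lit 247))))) (XT.nd (nat_lit 61152) (nat_lit 0) (nat_lit 6080) (XT.nd (nat_lit 60996) (nat_lit 0) (nat_lit 6004) (XT.lf (nat_lit 0) (nat_lit 27097768919) (nat_lit 532) (nat_lit 89586456795) (nat_lit 76) (nat_lit 64006203610) (nat_lit 248) (nat_lit 5) (nat_lit 255) (nat_lit 5) (nat_lit 249) (nat_lit 5) (nat_lit 487) (nat_lit 467) (nat_lit 246)) (XT.nd (nat_lit 78) (nat_lit 0) (nat_lit 76) (XT.lf (nat_lit 0) (nat_lit 32840320502) (nat_lit 1292) (nat_lit 11588924410) (nat_lit 1292) (nat_lit 11588924410) (nat_lit 327) (nat_lit 3) (nat_lit 344) (nat_lit 3) (nat_lit 344) (nat_lit 5) (nat_lit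 468) (nat_lit 468) (nat_lit 264)) (XT.lf (nat_lit 0) (nat_lit 68046222249) (nat_lit 1216) (nat_lit 43647375581) (nat_lit 1292) (nat_lit 3121941930) (nat_lit 328) (nat_lit 5) (nat_lit 344) (nat_lit 5) (nat_lit 345) (nat_lit 5) (nat_lit 469) (nat_lit 468) (nat_lit 263)))) (XT.nd (nat_lit 156) (nat_lit 0) (nat_lit 152) (XT.nd (nat_lit 78) (nat_lit 0) (nat_lit 76) (XT.lf (nat_lit 76) (nat_lit 53126432802) (nat_lit 0) (nat_lit 19051614535) (nat_lit 1292) (nat_lit 45506214676) (nat_lit 329) (nat_lit 5) (nat_lit 328) (nat_lit 5) (nat_lit 345) (nat_lit 5) (nat_lit 470) (nat_lit 468) (nat_lit 262)) (XT.lf (nat_lit 76) (nat_lit 34892280136) (nat_lit 0) (nat_lit 43164749818) (nat_lit 1292) (nat_lit 42593173461) (nat_lit 330) (nat_lit 5) (nat_lit 329) (nat_lit 5) (nat_lit 346) (nat_lit 5) (nat_lit 471) (nat_lit 468) (nat_lit 261))) (XT.nd (nat_lit 78) (nat_lit 0) (nat_lit 76) (XT.lf (nat_lit 76) (nat_lit 16518692991)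 (nat_lit 0) (nat_lit 69256906158) (nat_lit 1292) (nat_lit 37942473637) (nat_lit 331) (nat_lit 5) (nat_lit 330) (nat_lit 5) (nat_lit 347) (nat_lit 5) (nat_lit 472) (nat_lit 468) (nat_lit 260)) (XT.lf (nat_lit 0) (nat_lit 95482804195) (nat_lit 1216) (nat_lit 1932333966) (nat_lit 1292) (nat_lit 29476116263) (nat_lit 331) (nat_lit 5) (nat_lit 347) (nat_lit 5) (nat_lit 348) (nat_lit 5) (nat_lit 473) (nat_lit 468) (nat_lit 259)))))) (XT.nd (nat_lit 468) (nat_lit 3496) (nat_lit 0) (XT.nd (nat_lit 234) (nat_lit 684) (nat_lit 0) (XT.nd (nat_lit 78) (nat_lit 1216) (nat_lit 0) (XT.lf (nat_lit 0) (nat_lit 107456904488) (nat_lit 1216) (nat_lit 20149414346) (nat_lit 1292) (nat_lit 2563330283) (nat_lit 332) (nat_lit 5) (nat_lit 348) (nat_lit 5) (nat_lit 349) (nat_lit 5) (nat_lit 474) (nat_lit 468) (nat_lit 258)) (XT.nd (nat_lit 78) (nat_lit 1216) (nat_lit 0) (XT.lf (nat_lit 76) (nat_lit 94866888924) (nat_lit 0)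 (nat_lit 27077629490) (nat_lit 1292) (nat_lit 11610000892) (nat_lit 333) (nat_lit 5) (nat_lit 332) (nat_lit 5) (nat_lit 349) (nat_lit 5) (nat_lit 475) (nat_lit 468) (nat_lit 257)) (XT.lf (nat_lit 0) (nat_lit 1794134847) (nat_lit 1292) (nat_lit 57322159571) (nat_lit 1368) (nat_lit 77939909122) (nat_lit 316) (nat_lit 5) (nat_lit 333) (nat_lit 5) (nat_lit 334) (nat_lit 5) (nat_lit 476) (nat_lit 468) (nat_lit 256)))) (XT.nd (nat_lit 78) (nat_lit 760) (nat_lit 0) (XT.lf (nat_lit 0) (nat_lit 17393326304) (nat_lit 1292) (nat_lit 76114264981) (nat_lit 1368) (nat_lit 47168983356) (nat_lit 317) (nat_lit 5) (nat_lit 334) (nat_lit 5) (nat_lit 335) (nat_lit 5) (nat_lit 477) (nat_lit 468) (nat_lit 255)) (XT.nd (nat_lit 78) (nat_lit 836) (nat_lit 0) (XT.lf (nat_lit 0) (nat_lit 35578428361) (nat_lit 1292) (nat_lit 94919900518) (nat_lit 76) (nat_lit 13925456906) (nat_lit 318) (nat_lit 5) (nat_lit 335) (nat_lit 5)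 (nat_lit 319) (nat_lit 5) (nat_lit 478) (nat_lit 468) (nat_lit 254)) (XT.lf (nat_lit 0) (nat_lit 34377606248) (nat_lit 836) (nat_lit 22360350408) (nat_lit 912) (nat_lit 91558445709) (nat_lit 307) (nat_lit 5) (nat_lit 318) (nat_lit 5) (nat_lit 319) (nat_lit 5) (nat_lit 479) (nat_lit 468) (nat_lit 253))))) (XT.nd (nat_lit 234) (nat_lit 2280) (nat_lit 0) (XT.nd (nat_lit 78) (nat_lit 608) (nat_lit 0) (XT.lf (nat_lit 0) (nat_lit 19279893637) (nat_lit 608) (nat_lit 61723856090) (nat_lit 684) (nat_lit 71297451413) (nat_lit 299) (nat_lit 5) (nat_lit 307) (nat_lit 5) (nat_lit 308) (nat_lit 5) (nat_lit 480) (nat_lit 468) (nat_lit 252)) (XT.nd (nat_lit 78) (nat_lit 0) (nat_lit 0) (XT.lf (nat_lit 0) (nat_lit 4396605292) (nat_lit 608) (nat_lit 104037727699) (nat_lit 684) (nat_lit 48013361860) (nat_lit 291) (nat_lit 5) (nat_lit 299) (nat_lit 5) (nat_lit 300) (nat_lit 5) (nat_lit 481) (nat_lit 468) (nat_lit 251))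 (XT.lf (nat_lit 0) (nat_lit 139333915969) (nat_lit 684) (nat_lit 10024056858) (nat_lit 76) (nat_lit 11380616319) (nat_lit 291) (nat_lit 5) (nat_lit 300) (nat_lit 5) (nat_lit 292) (nat_lit 5) (nat_lit 482) (nat_lit 468) (nat_lit 250)))) (XT.nd (nat_lit 156) (nat_lit 1064) (nat_lit 0) (XT.nd (nat_lit 78) (nat_lit 608) (nat_lit 0) (XT.lf (nat_lit 0) (nat_lit 8833970105) (nat_lit 608) (nat_lit 24457060272) (nat_lit 76) (nat_lit 131878302472) (nat_lit 283) (nat_lit 5) (nat_lit 291) (nat_lit 5) (nat_lit 284) (nat_lit 5) (nat_lit 483) (nat_lit 468) (nat_lit 249)) (XT.lf (nat_lit 0) (nat_lit 42383337760) (nat_lit 684) (nat_lit 38911698652) (nat_lit 76) (nat_lit 88452975304) (nat_lit 275) (nat_lit 5) (nat_lit 284) (nat_lit 5) (nat_lit 276) (nat_lit 5) (nat_lit 484) (nat_lit 468) (nat_lit 248))) (XT.nd (nat_lit 78) (nat_lit 532) (nat_lit 0) (XT.lf (nat_lit 0) (nat_lit 79780683156) (nat_lit 608) (nat_lit 53014353240)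 (nat_lit 76) (nat_lit 41695472860) (nat_lit 268) (nat_lit 5) (nat_lit 276) (nat_lit 5) (nat_lit 269) (nat_lit 5) (nat_lit 485) (nat_lit 468) (nat_lit 247)) (XT.lf (nat_lit 0) (nat_lit 112611068684) (nat_lit 532) (nat_lit 8744091188) (nat_lit 608) (nat_lit 58045753890) (nat_lit 261) (nat_lit 5) (nat_lit 268) (nat_lit 5) (nat_lit 269) (nat_lit 5) (nat_lit 486) (nat_lit 468) (nat_lit 246))))))) (XT.nd (nat_lit 62010) (nat_lit 0) (nat_lit 456) (XT.nd (nat_lit 61464) (nat_lit 0) (nat_lit 3952) (XT.nd (nat_lit 61230) (nat_lit 0) (nat_lit 5548) (XT.nd (nat_lit 61074) (nat_lit 0) (nat_lit 5472) (XT.lf (nat_lit 0) (nat_lit 103939640127) (nat_lit 456) (nat_lit 63786743367) (nat_lit 532) (nat_lit 16748914318) (nat_lit 255) (nat_lit 5) (nat_lit 261) (nat_lit 5) (nat_lit 262) (nat_lit 5) (nat_lit 487) (nat_lit 468) (nat_lit 245)) (XT.nd (nat_lit 78) (nat_lit 0) (nat_lit 76) (XT.lf (nat_lit 0) (nat_lit 34490746120)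 (nat_lit 1292) (nat_lit 12164039496) (nat_lit 1292) (nat_lit 12164039496) (nat_lit 327) (nat_lit 3) (nat_lit 344) (nat_lit 3) (nat_lit 344) (nat_lit 5) (nat_lit 469) (nat_lit 469) (nat_lit 262)) (XT.lf (nat_lit 0) (nat_lit 71464558639) (nat_lit 1216) (nat_lit 45820772805) (nat_lit 1292) (nat_lit 3270503806) (nat_lit 328) (nat_lit 5) (nat_lit 344) (nat_lit 5) (nat_lit 345) (nat_lit 5) (nat_lit 470) (nat_lit 469) (nat_lit 261)))) (XT.nd (nat_lit 78) (nat_lit 0) (nat_lit 76) (XT.lf (nat_lit 76) (nat_lit 55791468829) (nat_lit 0) (nat_lit 20010826812) (nat_lit 1292) (nat_lit 47765718391) (nat_lit 329) (nat_lit 5) (nat_lit 328) (nat_lit 5) (nat_lit 345) (nat_lit 5) (nat_lit 471) (nat_lit 469) (nat_lit 260)) (XT.nd (nat_lit 78) (nat_lit 0) (nat_lit 76) (XT.lf (nat_lit 76) (nat_lit 36645868519) (nat_lit 0) (nat_lit 45328653667) (nat_lit 1292) (nat_lit 44707751507) (nat_lit 330) (nat_lit 5) (nat_lit 329)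 (nat_lit 5) (nat_lit 346) (nat_lit 5) (nat_lit 472) (nat_lit 469) (nat_lit 259)) (XT.lf (nat_lit 76) (nat_lit 17353824958) (nat_lit 0) (nat_lit 72724534240) (nat_lit 1292) (nat_lit 39825197186) (nat_lit 331) (nat_lit 5) (nat_lit 330) (nat_lit 5) (nat_lit 347) (nat_lit 5) (nat_lit 473) (nat_lit 469) (nat_lit 258))))) (XT.nd (nat_lit 234) (nat_lit 1824) (nat_lit 0) (XT.nd (nat_lit 78) (nat_lit 0) (nat_lit 76) (XT.lf (nat_lit 0) (nat_lit 100270214993) (nat_lit 1216) (nat_lit 2019747490) (nat_lit 1292) (nat_lit 30945455938) (nat_lit 331) (nat_lit 5) (nat_lit 347) (nat_lit 5) (nat_lit 348) (nat_lit 5) (nat_lit 474) (nat_lit 469) (nat_lit 257)) (XT.nd (nat_lit 78) (nat_lit 0) (nat_lit 0) (XT.lf (nat_lit 0) (nat_lit 112842437913) (nat_lit 1216) (nat_lit 21147526993) (nat_lit 1292) (nat_lit 2687785443) (nat_lit 332) (nat_lit 5) (nat_lit 348) (nat_lit 5) (nat_lit 349) (nat_lit 5) (nat_lit 475) (nat_lit 469)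 (nat_lit 256)) (XT.lf (nat_lit 76) (nat_lit 99619323193) (nat_lit 0) (nat_lit 28434592518) (nat_lit 1292) (nat_lit 12177963867) (nat_lit 333) (nat_lit 5) (nat_lit 332) (nat_lit 5) (nat_lit 349) (nat_lit 5) (nat_lit 476) (nat_lit 469) (nat_lit 255)))) (XT.nd (nat_lit 156) (nat_lit 684) (nat_lit 0) (XT.nd (nat_lit 78) (nat_lit 0) (nat_lit 76) (XT.lf (nat_lit 0) (nat_lit 1895609612) (nat_lit 1292) (nat_lit 60178819584) (nat_lit 1368) (nat_lit 81834230970) (nat_lit 316) (nat_lit 5) (nat_lit 333) (nat_lit 5) (nat_lit 334) (nat_lit 5) (nat_lit 477) (nat_lit 469) (nat_lit 254)) (XT.lf (nat_lit 0) (nat_lit 18274268110) (nat_lit 1292) (nat_lit 79910441361) (nat_lit 1368) (nat_lit 49525355152) (nat_lit 317) (nat_lit 5) (nat_lit 334) (nat_lit 5) (nat_lit 335) (nat_lit 5) (nat_lit 478) (nat_lit 469) (nat_lit 253))) (XT.nd (nat_lit 78) (nat_lit 836) (nat_lit 0) (XT.lf (nat_lit 0) (nat_lit 37368162352) (nat_lit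 1292) (nat_lit 99656291721) (nat_lit 76) (nat_lit 14620196161) (nat_lit 318) (nat_lit 5) (nat_lit 335) (nat_lit 5) (nat_lit 319) (nat_lit 5) (nat_lit 479) (nat_lit 469) (nat_lit 252)) (XT.lf (nat_lit 0) (nat_lit 36105815092) (nat_lit 836) (nat_lit 23479426758) (nat_lit 912) (nat_lit 96125668573) (nat_lit 307) (nat_lit 5) (nat_lit 318) (nat_lit 5) (nat_lit 319) (nat_lit 5) (nat_lit 480) (nat_lit 469) (nat_lit 251)))))) (XT.nd (nat_lit 61620) (nat_lit 0) (nat_lit 5016) (XT.nd (nat_lit 234) (nat_lit 2280) (nat_lit 0) (XT.nd (nat_lit 78) (nat_lit 608) (nat_lit 0) (XT.lf (nat_lit 0) (nat_lit 20253262452) (nat_lit 608) (nat_lit 64810647902) (nat_lit 684) (nat_lit 74852051229) (nat_lit 299) (nat_lit 5) (nat_lit 307) (nat_lit 5) (nat_lit 308) (nat_lit 5) (nat_lit 481) (nat_lit 469) (nat_lit 250)) (XT.nd (nat_lit 78) (nat_lit 0) (nat_lit 0) (XT.lf (nat_lit 0) (nat_lit 4625837601) (nat_lit 608) (nat_lit 109239795164)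 (nat_lit 684) (nat_lit 50404158937) (nat_lit 291) (nat_lit 5) (nat_lit 299) (nat_lit 5) (nat_lit 300) (nat_lit 5) (nat_lit 482) (nat_lit 469) (nat_lit 249)) (XT.lf (nat_lit 0) (nat_lit 146309736894) (nat_lit 684) (nat_lit 10516029532) (nat_lit 76) (nat_lit 11949478044) (nat_lit 291) (nat_lit 5) (nat_lit 300) (nat_lit 5) (nat_lit 292) (nat_lit 5) (nat_lit 483) (nat_lit 469) (nat_lit 248)))) (XT.nd (nat_lit 156) (nat_lit 1064) (nat_lit 0) (XT.nd (nat_lit 78) (nat_lit 608) (nat_lit 0) (XT.lf (nat_lit 0) (nat_lit 9284532644) (nat_lit 608) (nat_lit 25670770934) (nat_lit 76) (nat_lit 138472229641) (nat_lit 283) (nat_lit 5) (nat_lit 291) (nat_lit 5) (nat_lit 284) (nat_lit 5) (nat_lit 484) (nat_lit 469) (nat_lit 247)) (XT.lf (nat_lit 0) (nat_lit 44511035341) (nat_lit 684) (nat_lit 40848150535) (nat_lit 76) (nat_lit 92875970170) (nat_lit 275) (nat_lit 5) (nat_lit 284) (nat_lit 5) (nat_lit 276) (nat_lit 5)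 (nat_lit 485) (nat_lit 469) (nat_lit 246))) (XT.nd (nat_lit 78) (nat_lit 532) (nat_lit 0) (XT.lf (nat_lit 0) (nat_lit 83777933418) (nat_lit 608) (nat_lit 55655959397) (nat_lit 76) (nat_lit 43780895102) (nat_lit 268) (nat_lit 5) (nat_lit 276) (nat_lit 5) (nat_lit 269) (nat_lit 5) (nat_lit 486) (nat_lit 469) (nat_lit 245)) (XT.lf (nat_lit 0) (nat_lit 118250472444) (nat_lit 532) (nat_lit 9180355357) (nat_lit 608) (nat_lit 60939894047) (nat_lit 261) (nat_lit 5) (nat_lit 268) (nat_lit 5) (nat_lit 269) (nat_lit 5) (nat_lit 487) (nat_lit 469) (nat_lit 244))))) (XT.nd (nat_lit 234) (nat_lit 0) (nat_lit 152) (XT.nd (nat_lit 78) (nat_lit 0) (nat_lit 76) (XT.lf (nat_lit 0) (nat_lit 36222911175) (nat_lit 1292) (nat_lit 12768313004) (nat_lit 1292) (nat_lit 12768313004) (nat_lit 327) (nat_lit 3) (nat_lit 344) (nat_lit 3) (nat_lit 344) (nat_lit 5) (nat_lit 470) (nat_lit 470) (nat_lit 260)) (XT.nd (nat_lit 78)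 (nat_lit 0) (nat_lit 0) (XT.lf (nat_lit 0) (nat_lit 75052321970) (nat_lit 1216) (nat_lit 48103673981) (nat_lit 1292) (nat_lit 3427194330) (nat_lit 328) (nat_lit 5) (nat_lit 344) (nat_lit 5) (nat_lit 345) (nat_lit 5) (nat_lit 471) (nat_lit 470) (nat_lit 259)) (XT.lf (nat_lit 76) (nat_lit 58588946477) (nat_lit 0) (nat_lit 21017383164) (nat_lit 1292) (nat_lit 50139666878) (nat_lit 329) (nat_lit 5) (nat_lit 328) (nat_lit 5) (nat_lit 345) (nat_lit 5) (nat_lit 472) (nat_lit 470) (nat_lit 258)))) (XT.nd (nat_lit 156) (nat_lit 0) (nat_lit 152) (XT.nd (nat_lit 78) (nat_lit 0) (nat_lit 76) (XT.lf (nat_lit 76) (nat_lit 38486301968) (nat_lit 0) (nat_lit 47600225905) (nat_lit 1292) (nat_lit 46929460509) (nat_lit 330) (nat_lit 5) (nat_lit 329) (nat_lit 5) (nat_lit 346) (nat_lit 5) (nat_lit 473) (nat_lit 470) (nat_lit 257)) (XT.lf (nat_lit 76) (nat_lit 18229858443) (nat_lit 0) (nat_lit 76365099070) (nat_lit 1292)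 (nat_lit 41803395699) (nat_lit 331) (nat_lit 5) (nat_lit 330) (nat_lit 5) (nat_lit 347) (nat_lit 5) (nat_lit 474) (nat_lit 470) (nat_lit 256))) (XT.nd (nat_lit 78) (nat_lit 0) (nat_lit 76) (XT.lf (nat_lit 0) (nat_lit 105295762557) (nat_lit 1216) (nat_lit 2112387313) (nat_lit 1292) (nat_lit 32488677815) (nat_lit 331) (nat_lit 5) (nat_lit 347) (nat_lit 5) (nat_lit 348) (nat_lit 5) (nat_lit 475) (nat_lit 470) (nat_lit 255)) (XT.lf (nat_lit 0) (nat_lit 118496068380) (nat_lit 1216) (nat_lit 22196415297) (nat_lit 1292) (nat_lit 2818808407) (nat_lit 332) (nat_lit 5) (nat_lit 348) (nat_lit 5) (nat_lit 349) (nat_lit 5) (nat_lit 476) (nat_lit 470) (nat_lit 254))))))))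
noncomputable def xc126 : XT := (XT.nd (nat_lit 124566) (nat_lit 0) (nat_lit 1216) (XT.nd (nat_lit 62244) (nat_lit 0) (nat_lit 608) (XT.nd (nat_lit 468) (nat_lit 1824) (nat_lit 0) (XT.nd (nat_lit 234) (nat_lit 1292) (nat_lit 0) (XT.nd (nat_lit 78) (nat_lit 1216) (nat_lit 0) (XT.lf (nat_lit 76) (nat_lit 104608534090) (nat_lit 0) (nat_lit 29859117204) (nat_lit 1292) (nat_lit 12775490568) (nat_lit 333) (nat_lit 5) (nat_lit 332) (nat_lit 5) (nat_lit 349) (nat_lit 5) (nat_lit 477) (nat_lit 470) (nat_lit 253)) (XT.nd (nat_lit 78) (nat_lit 0) (nat_lit 76) (XT.lf (nat_lit 0) (nat_lit 2001064036) (nat_lit 1292) (nat_lit 63179190981) (nat_lit 1368) (nat_lit 85923517478) (nat_lit 316) (nat_lit 5) (nat_lit 333) (nat_lit 5) (nat_lit 334) (nat_lit 5) (nat_lit 478) (nat_lit 470) (nat_lit 252)) (XT.lf (nat_lit 0) (nat_lit 19198208718) (nat_lit 1292) (nat_lit 83897313208) (nat_lit 1368) (nat_lit 51999738673) (nat_lit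 317) (nat_lit 5) (nat_lit 334) (nat_lit 5) (nat_lit 335) (nat_lit 5) (nat_lit 479) (nat_lit 470) (nat_lit 251)))) (XT.nd (nat_lit 78) (nat_lit 1444) (nat_lit 0) (XT.lf (nat_lit 0) (nat_lit 39246377793) (nat_lit 1292) (nat_lit 104630395357) (nat_lit 76) (nat_lit 15349814957) (nat_lit 318) (nat_lit 5) (nat_lit 335) (nat_lit 5) (nat_lit 319) (nat_lit 5) (nat_lit 480) (nat_lit 470) (nat_lit 250)) (XT.nd (nat_lit 78) (nat_lit 608) (nat_lit 0) (XT.lf (nat_lit 0) (nat_lit 37919567099) (nat_lit 836) (nat_lit 24654358485) (nat_lit 912) (nat_lit 100922247310) (nat_lit 307) (nat_lit 5) (nat_lit 318) (nat_lit 5) (nat_lit 319) (nat_lit 5) (nat_lit 481) (nat_lit 470) (nat_lit 249)) (XT.lf (nat_lit 0) (nat_lit 21274428190) (nat_lit 608) (nat_lit 68051723615) (nat_lit 684) (nat_lit 78585336099) (nat_lit 299) (nat_lit 5) (nat_lit 307) (nat_lit 5) (nat_lit 308) (nat_lit 5) (nat_lit 482) (nat_lit 470) (nat_lit 248)))))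 (XT.nd (nat_lit 234) (nat_lit 608) (nat_lit 0) (XT.nd (nat_lit 78) (nat_lit 608) (nat_lit 0) (XT.lf (nat_lit 0) (nat_lit 4865657412) (nat_lit 608) (nat_lit 114701949167) (nat_lit 684) (nat_lit 52915413580) (nat_lit 291) (nat_lit 5) (nat_lit 299) (nat_lit 5) (nat_lit 300) (nat_lit 5) (nat_lit 483) (nat_lit 470) (nat_lit 247)) (XT.nd (nat_lit 78) (nat_lit 608) (nat_lit 0) (XT.lf (nat_lit 0) (nat_lit 153633500498) (nat_lit 684) (nat_lit 11033458972) (nat_lit 76) (nat_lit 12546798575) (nat_lit 291) (nat_lit 5) (nat_lit 300) (nat_lit 5) (nat_lit 292) (nat_lit 5) (nat_lit 484) (nat_lit 470) (nat_lit 246)) (XT.lf (nat_lit 0) (nat_lit 9756799216) (nat_lit 608) (nat_lit 26946017097) (nat_lit 76) (nat_lit 145395852049) (nat_lit 283) (nat_lit 5) (nat_lit 291) (nat_lit 5) (nat_lit 284) (nat_lit 5) (nat_lit 485) (nat_lit 470) (nat_lit 245)))) (XT.nd (nat_lit 61386) (nat_lit 0) (nat_lit 4028) (XT.nd (nat_lit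 61308) (nat_lit 0) (nat_lit 3952) (XT.lf (nat_lit 0) (nat_lit 46744324698) (nat_lit 684) (nat_lit 42882274117) (nat_lit 76) (nat_lit 97520082602) (nat_lit 275) (nat_lit 5) (nat_lit 284) (nat_lit 5) (nat_lit 276) (nat_lit 5) (nat_lit 486) (nat_lit 470) (nat_lit 244)) (XT.lf (nat_lit 0) (nat_lit 38040975326) (nat_lit 1292) (nat_lit 13403165420) (nat_lit 1292) (nat_lit 13403165420) (nat_lit 327) (nat_lit 3) (nat_lit 344) (nat_lit 3) (nat_lit 344) (nat_lit 5) (nat_lit 471) (nat_lit 471) (nat_lit 258))) (XT.nd (nat_lit 78) (nat_lit 0) (nat_lit 0) (XT.lf (nat_lit 0) (nat_lit 78818122104) (nat_lit 1216) (nat_lit 50501476759) (nat_lit 1292) (nat_lit 3592354802) (nat_lit 328) (nat_lit 5) (nat_lit 344) (nat_lit 5) (nat_lit 345) (nat_lit 5) (nat_lit 472) (nat_lit 471) (nat_lit 257)) (XT.lf (nat_lit 76) (nat_lit 61525563149) (nat_lit 0) (nat_lit 22073708114) (nat_lit 1292) (nat_lit 52633645748) (nat_lit 329)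 (nat_lit 5) (nat_lit 328) (nat_lit 5) (nat_lit 345) (nat_lit 5) (nat_lit 473) (nat_lit 471) (nat_lit 256)))))) (XT.nd (nat_lit 468) (nat_lit 2508) (nat_lit 0) (XT.nd (nat_lit 234) (nat_lit 988) (nat_lit 0) (XT.nd (nat_lit 78) (nat_lit 0) (nat_lit 76) (XT.lf (nat_lit 76) (nat_lit 40418000307) (nat_lit 0) (nat_lit 49984898928) (nat_lit 1292) (nat_lit 49263526665) (nat_lit 330) (nat_lit 5) (nat_lit 329) (nat_lit 5) (nat_lit 346) (nat_lit 5) (nat_lit 474) (nat_lit 471) (nat_lit 255)) (XT.nd (nat_lit 78) (nat_lit 0) (nat_lit 76) (XT.lf (nat_lit 76) (nat_lit 19148918021) (nat_lit 0) (nat_lit 80187288824) (nat_lit 1292) (nat_lit 43881718459) (nat_lit 331) (nat_lit 5) (nat_lit 330) (nat_lit 5) (nat_lit 347) (nat_lit 5) (nat_lit 475) (nat_lit 471) (nat_lit 254)) (XT.lf (nat_lit 0) (nat_lit 110571468430) (nat_lit 1216) (nat_lit 2210435204) (nat_lit 1292) (nat_lit 34109437403) (nat_lit 331) (nat_lit 5) (nat_lit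 347) (nat_lit 5) (nat_lit 348) (nat_lit 5) (nat_lit 476) (nat_lit 471) (nat_lit 253)))) (XT.nd (nat_lit 78) (nat_lit 1216) (nat_lit 0) (XT.lf (nat_lit 0) (nat_lit 124431310412) (nat_lit 1216) (nat_lit 23298537154) (nat_lit 1292) (nat_lit 2956695486) (nat_lit 332) (nat_lit 5) (nat_lit 348) (nat_lit 5) (nat_lit 349) (nat_lit 5) (nat_lit 477) (nat_lit 471) (nat_lit 252)) (XT.nd (nat_lit 78) (nat_lit 1216) (nat_lit 0) (XT.lf (nat_lit 76) (nat_lit 109846439015) (nat_lit 0) (nat_lit 31354608266) (nat_lit 1292) (nat_lit 13403950819) (nat_lit 333) (nat_lit 5) (nat_lit 332) (nat_lit 5) (nat_lit 349) (nat_lit 5) (nat_lit 478) (nat_lit 471) (nat_lit 251)) (XT.lf (nat_lit 0) (nat_lit 2110798819) (nat_lit 1292) (nat_lit 66330377665) (nat_lit 1368) (nat_lit 90217493768) (nat_lit 316) (nat_lit 5) (nat_lit 333) (nat_lit 5) (nat_lit 334) (nat_lit 5) (nat_lit 479) (nat_lit 471) (nat_lit 250))))) (XT.nd (nat_lit 234)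 (nat_lit 1824) (nat_lit 0) (XT.nd (nat_lit 78) (nat_lit 760) (nat_lit 0) (XT.lf (nat_lit 0) (nat_lit 20167395527) (nat_lit 1292) (nat_lit 88084332862) (nat_lit 1368) (nat_lit 54598016547) (nat_lit 317) (nat_lit 5) (nat_lit 334) (nat_lit 5) (nat_lit 335) (nat_lit 5) (nat_lit 480) (nat_lit 471) (nat_lit 249)) (XT.nd (nat_lit 78) (nat_lit 836) (nat_lit 0) (XT.lf (nat_lit 0) (nat_lit 41217592213) (nat_lit 1292) (nat_lit 109854014036) (nat_lit 76) (nat_lit 16116044016) (nat_lit 318) (nat_lit 5) (nat_lit 335) (nat_lit 5) (nat_lit 319) (nat_lit 5) (nat_lit 481) (nat_lit 471) (nat_lit 248)) (XT.lf (nat_lit 0) (nat_lit 39823220060) (nat_lit 836) (nat_lit 25887947511) (nat_lit 912) (nat_lit 105959557235) (nat_lit 307) (nat_lit 5) (nat_lit 318) (nat_lit 5) (nat_lit 319) (nat_lit 5) (nat_lit 482) (nat_lit 471) (nat_lit 247)))) (XT.nd (nat_lit 156) (nat_lit 608) (nat_lit 0) (XT.nd (nat_lit 78) (nat_lit 608)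 (nat_lit 0) (XT.lf (nat_lit 0) (nat_lit 22345861722) (nat_lit 608) (nat_lit 71454802601) (nat_lit 684) (nat_lit 82506151484) (nat_lit 299) (nat_lit 5) (nat_lit 307) (nat_lit 5) (nat_lit 308) (nat_lit 5) (nat_lit 483) (nat_lit 471) (nat_lit 246)) (XT.lf (nat_lit 0) (nat_lit 5116675368) (nat_lit 608) (nat_lit 120437195600) (nat_lit 684) (nat_lit 55553063349) (nat_lit 291) (nat_lit 5) (nat_lit 299) (nat_lit 5) (nat_lit 300) (nat_lit 5) (nat_lit 484) (nat_lit 471) (nat_lit 245))) (XT.nd (nat_lit 78) (nat_lit 608) (nat_lit 0) (XT.lf (nat_lit 0) (nat_lit 161322682787) (nat_lit 684) (nat_lit 11577538238) (nat_lit 76) (nat_lit 13173999392) (nat_lit 291) (nat_lit 5) (nat_lit 300) (nat_lit 5) (nat_lit 292) (nat_lit 5) (nat_lit 485) (nat_lit 471) (nat_lit 244)) (XT.lf (nat_lit 0) (nat_lit 10251931640) (nat_lit 608) (nat_lit 28285796517) (nat_lit 76) (nat_lit 152665654561) (nat_lit 283) (nat_lit 5) (nat_lit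 291) (nat_lit 5) (nat_lit 284) (nat_lit 5) (nat_lit 486) (nat_lit 471) (nat_lit 243))))))) (XT.nd (nat_lit 1014) (nat_lit 608) (nat_lit 0) (XT.nd (nat_lit 468) (nat_lit 2128) (nat_lit 0) (XT.nd (nat_lit 234) (nat_lit 0) (nat_lit 152) (XT.nd (nat_lit 78) (nat_lit 0) (nat_lit 76) (XT.lf (nat_lit 0) (nat_lit 39949299460) (nat_lit 1292) (nat_lit 14070091731) (nat_lit 1292) (nat_lit 14070091731) (nat_lit 327) (nat_lit 3) (nat_lit 344) (nat_lit 3) (nat_lit 344) (nat_lit 5) (nat_lit 472) (nat_lit 472) (nat_lit 256)) (XT.nd (nat_lit 78) (nat_lit 0) (nat_lit 0) (XT.lf (nat_lit 0) (nat_lit 82770986519) (nat_lit 1216) (nat_lit 53019855885) (nat_lit 1292) (nat_lit 3766349645) (nat_lit 328) (nat_lit 5) (nat_lit 344) (nat_lit 5) (nat_lit 345) (nat_lit 5) (nat_lit 473) (nat_lit 472) (nat_lit 255)) (XT.lf (nat_lit 76) (nat_lit 64608344116) (nat_lit 0) (nat_lit 23182342085) (nat_lit 1292) (nat_lit 55253532594) (nat_lit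 329) (nat_lit 5) (nat_lit 328) (nat_lit 5) (nat_lit 345) (nat_lit 5) (nat_lit 474) (nat_lit 472) (nat_lit 254)))) (XT.nd (nat_lit 78) (nat_lit 0) (nat_lit 76) (XT.lf (nat_lit 76) (nat_lit 42445597140) (nat_lit 0) (nat_lit 52488372198) (nat_lit 1292) (nat_lit 51715449603) (nat_lit 330) (nat_lit 5) (nat_lit 329) (nat_lit 5) (nat_lit 346) (nat_lit 5) (nat_lit 475) (nat_lit 472) (nat_lit 253)) (XT.nd (nat_lit 78) (nat_lit 0) (nat_lit 76) (XT.lf (nat_lit 76) (nat_lit 20113227102) (nat_lit 0) (nat_lit 84200222245) (nat_lit 1292) (nat_lit 46065058781) (nat_lit 331) (nat_lit 5) (nat_lit 330) (nat_lit 5) (nat_lit 347) (nat_lit 5) (nat_lit 476) (nat_lit 472) (nat_lit 252)) (XT.lf (nat_lit 0) (nat_lit 116109944569) (nat_lit 1216) (nat_lit 2314089414) (nat_lit 1292) (nat_lit 35811576571) (nat_lit 331) (nat_lit 5) (nat_lit 347) (nat_lit 5) (nat_lit 348) (nat_lit 5) (nat_lit 477) (nat_lit 472) (nat_lit 251)))))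 (XT.nd (nat_lit 234) (nat_lit 1292) (nat_lit 0) (XT.nd (nat_lit 78) (nat_lit 1216) (nat_lit 0) (XT.lf (nat_lit 0) (nat_lit 130662344063) (nat_lit 1216) (nat_lit 24456480875) (nat_lit 1292) (nat_lit 3101760791) (nat_lit 332) (nat_lit 5) (nat_lit 348) (nat_lit 5) (nat_lit 349) (nat_lit 5) (nat_lit 478) (nat_lit 472) (nat_lit 250)) (XT.nd (nat_lit 78) (nat_lit 1216) (nat_lit 0) (XT.lf (nat_lit 76) (nat_lit 115345543932) (nat_lit 0) (nat_lit 32924638182) (nat_lit 1292) (nat_lit 14064793005) (nat_lit 333) (nat_lit 5) (nat_lit 332) (nat_lit 5) (nat_lit 349) (nat_lit 5) (nat_lit 479) (nat_lit 472) (nat_lit 249)) (XT.lf (nat_lit 0) (nat_lit 2225120239) (nat_lit 1292) (nat_lit 69639846332) (nat_lit 1368) (nat_lit 94726373368) (nat_lit 316) (nat_lit 5) (nat_lit 333) (nat_lit 5) (nat_lit 334) (nat_lit 5) (nat_lit 480) (nat_lit 472) (nat_lit 248)))) (XT.nd (nat_lit 156) (nat_lit 1368) (nat_lit 0) (XT.nd (nat_lit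 78) (nat_lit 0) (nat_lit 76) (XT.lf (nat_lit 0) (nat_lit 21184179248) (nat_lit 1292) (nat_lit 92481432947) (nat_lit 1368) (nat_lit 57326367208) (nat_lit 317) (nat_lit 5) (nat_lit 334) (nat_lit 5) (nat_lit 335) (nat_lit 5) (nat_lit 481) (nat_lit 472) (nat_lit 247)) (XT.lf (nat_lit 0) (nat_lit 43286540333) (nat_lit 1292) (nat_lit 115339548217) (nat_lit 76) (nat_lit 16920701828) (nat_lit 318) (nat_lit 5) (nat_lit 335) (nat_lit 5) (nat_lit 319) (nat_lit 5) (nat_lit 482) (nat_lit 472) (nat_lit 246))) (XT.nd (nat_lit 78) (nat_lit 608) (nat_lit 0) (XT.lf (nat_lit 0) (nat_lit 41821342156) (nat_lit 836) (nat_lit 27183135002) (nat_lit 912) (nat_lit 111249551023) (nat_lit 307) (nat_lit 5) (nat_lit 318) (nat_lit 5) (nat_lit 319) (nat_lit 5) (nat_lit 483) (nat_lit 472) (nat_lit 245)) (XT.lf (nat_lit 0) (nat_lit 23470149931) (nat_lit 608) (nat_lit 75027989719) (nat_lit 684) (nat_lit 86623793370) (nat_lit 299)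 (nat_lit 5) (nat_lit 307) (nat_lit 5) (nat_lit 308) (nat_lit 5) (nat_lit 484) (nat_lit 472) (nat_lit 244)))))) (XT.nd (nat_lit 61932) (nat_lit 0) (nat_lit 1216) (XT.nd (nat_lit 61620) (nat_lit 0) (nat_lit 2812) (XT.nd (nat_lit 78) (nat_lit 0) (nat_lit 0) (XT.lf (nat_lit 0) (nat_lit 5379525086) (nat_lit 608) (nat_lit 126459190504) (nat_lit 684) (nat_lit 58323350611) (nat_lit 291) (nat_lit 5) (nat_lit 299) (nat_lit 5) (nat_lit 300) (nat_lit 5) (nat_lit 485) (nat_lit 472) (nat_lit 243)) (XT.nd (nat_lit 61464) (nat_lit 0) (nat_lit 2736) (XT.lf (nat_lit 0) (nat_lit 169395626236) (nat_lit 684) (nat_lit 12149527455) (nat_lit 76) (nat_lit 13832573183) (nat_lit 291) (nat_lit 5) (nat_lit 300) (nat_lit 5) (nat_lit 292) (nat_lit 5) (nat_lit 486) (nat_lit 472) (nat_lit 242)) (XT.lf (nat_lit 0) (nat_lit 41952456377) (nat_lit 1292) (nat_lit 14770664836) (nat_lit 1292) (nat_lit 14770664836) (nat_lit 327) (nat_lit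 3) (nat_lit 344) (nat_lit 3) (nat_lit 344) (nat_lit 5) (nat_lit 473) (nat_lit 473) (nat_lit 254)))) (XT.nd (nat_lit 156) (nat_lit 0) (nat_lit 76) (XT.nd (nat_lit 78) (nat_lit 0) (nat_lit 0) (XT.lf (nat_lit 0) (nat_lit 86920382383) (nat_lit 1216) (nat_lit 55664776377) (nat_lit 1292) (nat_lit 3949566994) (nat_lit 328) (nat_lit 5) (nat_lit 344) (nat_lit 5) (nat_lit 345) (nat_lit 5) (nat_lit 474) (nat_lit 473) (nat_lit 253)) (XT.lf (nat_lit 76) (nat_lit 67844659562) (nat_lit 0) (nat_lit 24345947683) (nat_lit 1292) (nat_lit 58005510411) (nat_lit 329) (nat_lit 5) (nat_lit 328) (nat_lit 5) (nat_lit 345) (nat_lit 5) (nat_lit 475) (nat_lit 473) (nat_lit 252))) (XT.nd (nat_lit 78) (nat_lit 0) (nat_lit 76) (XT.lf (nat_lit 76) (nat_lit 44573951208) (nat_lit 0) (nat_lit 55116626023) (nat_lit 1292) (nat_lit 54291014921) (nat_lit 330) (nat_lit 5) (nat_lit 329) (nat_lit 5) (nat_lit 346) (nat_lit 5) (nat_lit 476)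 (nat_lit 473) (nat_lit 251)) (XT.lf (nat_lit 76) (nat_lit 21125113564) (nat_lit 0) (nat_lit 88413470528) (nat_lit 1292) (nat_lit 48358565142) (nat_lit 331) (nat_lit 5) (nat_lit 330) (nat_lit 5) (nat_lit 347) (nat_lit 5) (nat_lit 477) (nat_lit 473) (nat_lit 250))))) (XT.nd (nat_lit 234) (nat_lit 1824) (nat_lit 0) (XT.nd (nat_lit 78) (nat_lit 0) (nat_lit 76) (XT.lf (nat_lit 0) (nat_lit 121924423853) (nat_lit 1216) (nat_lit 2423564813) (nat_lit 1292) (nat_lit 37599132541) (nat_lit 331) (nat_lit 5) (nat_lit 347) (nat_lit 5) (nat_lit 348) (nat_lit 5) (nat_lit 478) (nat_lit 473) (nat_lit 249)) (XT.nd (nat_lit 78) (nat_lit 0) (nat_lit 0) (XT.lf (nat_lit 0) (nat_lit 137204049139) (nat_lit 1216) (nat_lit 25672971009) (nat_lit 1292) (nat_lit 3254336839) (nat_lit 332) (nat_lit 5) (nat_lit 348) (nat_lit 5) (nat_lit 349) (nat_lit 5) (nat_lit 479) (nat_lit 473) (nat_lit 248)) (XT.lf (nat_lit 76) (nat_lit 121118973479)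 (nat_lit 0) (nat_lit 34572955807) (nat_lit 1292) (nat_lit 14759547073) (nat_lit 333) (nat_lit 5) (nat_lit 332) (nat_lit 5) (nat_lit 349) (nat_lit 5) (nat_lit 480) (nat_lit 473) (nat_lit 247)))) (XT.nd (nat_lit 156) (nat_lit 684) (nat_lit 0) (XT.nd (nat_lit 78) (nat_lit 0) (nat_lit 76) (XT.lf (nat_lit 0) (nat_lit 2344341312) (nat_lit 1292) (nat_lit 73115443893) (nat_lit 1368) (nat_lit 99460882434) (nat_lit 316) (nat_lit 5) (nat_lit 333) (nat_lit 5) (nat_lit 334) (nat_lit 5) (nat_lit 481) (nat_lit 473) (nat_lit 246)) (XT.lf (nat_lit 0) (nat_lit 22251019906) (nat_lit 1292) (nat_lit 97099049666) (nat_lit 1368) (nat_lit 60191279521) (nat_lit 317) (nat_lit 5) (nat_lit 334) (nat_lit 5) (nat_lit 335) (nat_lit 5) (nat_lit 482) (nat_lit 473) (nat_lit 245))) (XT.nd (nat_lit 78) (nat_lit 836) (nat_lit 0) (XT.lf (nat_lit 0) (nat_lit 45458185725) (nat_lit 1292) (nat_lit 121100025383) (nat_lit 76) (nat_lit 17765698925)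 (nat_lit 318) (nat_lit 5) (nat_lit 335) (nat_lit 5) (nat_lit 319) (nat_lit 5) (nat_lit 483) (nat_lit 473) (nat_lit 244)) (XT.lf (nat_lit 0) (nat_lit 43918723181) (nat_lit 836) (nat_lit 28543008409) (nat_lit 912) (nat_lit 116804786784) (nat_lit 307) (nat_lit 5) (nat_lit 318) (nat_lit 5) (nat_lit 319) (nat_lit 5) (nat_lit 484) (nat_lit 473) (nat_lit 243))))))))
noncomputable def xc127 : XT := (XT.nd (nat_lit 187044) (nat_lit 0) (nat_lit 1292) (XT.nd (nat_lit 124176) (nat_lit 0) (nat_lit 1292) (XT.nd (nat_lit 62010) (nat_lit 0) (nat_lit 608) (XT.nd (nat_lit 61776) (nat_lit 0) (nat_lit 2204) (XT.nd (nat_lit 61620) (nat_lit 0) (nat_lit 2128) (XT.lf (nat_lit 0) (nat_lit 24650002210) (nat_lit 608) (nat_lit 78779794637) (nat_lit 684) (nat_lit 90948030034) (nat_lit 299) (nat_lit 5) (nat_lit 307) (nat_lit 5) (nat_lit 308) (nat_lit 5) (nat_lit 485) (nat_lit 473) (nat_lit 242)) (XT.nd (nat_lit 78) (nat_lit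 0) (nat_lit 76) (XT.lf (nat_lit 0) (nat_lit 44055241956) (nat_lit 1292) (nat_lit 15506539137) (nat_lit 1292) (nat_lit 15506539137) (nat_lit 327) (nat_lit 3) (nat_lit 344) (nat_lit 3) (nat_lit 344) (nat_lit 5) (nat_lit 474) (nat_lit 474) (nat_lit 252)) (XT.lf (nat_lit 0) (nat_lit 91276239633) (nat_lit 1216) (nat_lit 58442507440) (nat_lit 1292) (nat_lit 4142419372) (nat_lit 328) (nat_lit 5) (nat_lit 344) (nat_lit 5) (nat_lit 345) (nat_lit 5) (nat_lit 475) (nat_lit 474) (nat_lit 251)))) (XT.nd (nat_lit 78) (nat_lit 0) (nat_lit 76) (XT.lf (nat_lit 76) (nat_lit 71242242418) (nat_lit 0) (nat_lit 25567316264) (nat_lit 1292) (nat_lit 60896081793) (nat_lit 329) (nat_lit 5) (nat_lit 328) (nat_lit 5) (nat_lit 345) (nat_lit 5) (nat_lit 476) (nat_lit 474) (nat_lit 250)) (XT.nd (nat_lit 78) (nat_lit 0) (nat_lit 76) (XT.lf (nat_lit 76) (nat_lit 46808158256) (nat_lit 0) (nat_lit 57875935977) (nat_lit 1292) (nat_lit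 56996307470) (nat_lit 330) (nat_lit 5) (nat_lit 329) (nat_lit 5) (nat_lit 346) (nat_lit 5) (nat_lit 477) (nat_lit 474) (nat_lit 249)) (XT.lf (nat_lit 76) (nat_lit 22187015597) (nat_lit 0) (nat_lit 92837080263) (nat_lit 1292) (nat_lit 50767652967) (nat_lit 331) (nat_lit 5) (nat_lit 330) (nat_lit 5) (nat_lit 347) (nat_lit 5) (nat_lit 478) (nat_lit 474) (nat_lit 248))))) (XT.nd (nat_lit 234) (nat_lit 1824) (nat_lit 0) (XT.nd (nat_lit 78) (nat_lit 0) (nat_lit 76) (XT.lf (nat_lit 0) (nat_lit 128028792036) (nat_lit 1216) (nat_lit 2539093103) (nat_lit 1292) (nat_lit 39476347347) (nat_lit 331) (nat_lit 5) (nat_lit 347) (nat_lit 5) (nat_lit 348) (nat_lit 5) (nat_lit 479) (nat_lit 474) (nat_lit 247)) (XT.nd (nat_lit 78) (nat_lit 0) (nat_lit 0) (XT.lf (nat_lit 0) (nat_lit 144072041050) (nat_lit 1216) (nat_lit 26950874516) (nat_lit 1292) (nat_lit 3414775232) (nat_lit 332) (nat_lit 5) (nat_lit 348) (nat_lit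 5) (nat_lit 349) (nat_lit 5) (nat_lit 480) (nat_lit 474) (nat_lit 246)) (XT.lf (nat_lit 76) (nat_lit 127180502515) (nat_lit 0) (nat_lit 36303495404) (nat_lit 1292) (nat_lit 15489827753) (nat_lit 333) (nat_lit 5) (nat_lit 332) (nat_lit 5) (nat_lit 349) (nat_lit 5) (nat_lit 481) (nat_lit 474) (nat_lit 245)))) (XT.nd (nat_lit 156) (nat_lit 684) (nat_lit 0) (XT.nd (nat_lit 78) (nat_lit 0) (nat_lit 76) (XT.lf (nat_lit 0) (nat_lit 2468782922) (nat_lit 1292) (nat_lit 76765415857) (nat_lit 1368) (nat_lit 104432285192) (nat_lit 316) (nat_lit 5) (nat_lit 333) (nat_lit 5) (nat_lit 334) (nat_lit 5) (nat_lit 482) (nat_lit 474) (nat_lit 244)) (XT.lf (nat_lit 0) (nat_lit 23370493074) (nat_lit 1292) (nat_lit 101948147339) (nat_lit 1368) (nat_lit 63199568171) (nat_lit 317) (nat_lit 5) (nat_lit 334) (nat_lit 5) (nat_lit 335) (nat_lit 5) (nat_lit 483) (nat_lit 474) (nat_lit 243))) (XT.nd (nat_lit 78) (nat_lit 836)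 (nat_lit 0) (XT.lf (nat_lit 0) (nat_lit 47737732993) (nat_lit 1292) (nat_lit 127149130738) (nat_lit 76) (nat_lit 18653042380) (nat_lit 318) (nat_lit 5) (nat_lit 335) (nat_lit 5) (nat_lit 319) (nat_lit 5) (nat_lit 484) (nat_lit 474) (nat_lit 242)) (XT.lf (nat_lit 0) (nat_lit 46120386249) (nat_lit 836) (nat_lit 29970808859) (nat_lit 912) (nat_lit 122638457607) (nat_lit 307) (nat_lit 5) (nat_lit 318) (nat_lit 5) (nat_lit 319) (nat_lit 5) (nat_lit 485) (nat_lit 474) (nat_lit 241)))))) (XT.nd (nat_lit 546) (nat_lit 836) (nat_lit 0) (XT.nd (nat_lit 234) (nat_lit 0) (nat_lit 152) (XT.nd (nat_lit 78) (nat_lit 0) (nat_lit 76) (XT.lf (nat_lit 0) (nat_lit 46262686830) (nat_lit 1292) (nat_lit 16279454356) (nat_lit 1292) (nat_lit 16279454356) (nat_lit 327) (nat_lit 3) (nat_lit 344) (nat_lit 3) (nat_lit 344) (nat_lit 5) (nat_lit 475) (nat_lit 475) (nat_lit 250)) (XT.nd (nat_lit 78) (nat_lit 0) (nat_lit 0) (XT.lf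 (nat_lit 0) (nat_lit 95848975088) (nat_lit 1216) (nat_lit 61359637114) (nat_lit 1292) (nat_lit 4345344448) (nat_lit 328) (nat_lit 5) (nat_lit 344) (nat_lit 5) (nat_lit 345) (nat_lit 5) (nat_lit 476) (nat_lit 475) (nat_lit 249)) (XT.lf (nat_lit 76) (nat_lit 74809207036) (nat_lit 0) (nat_lit 26849374772) (nat_lit 1292) (nat_lit 63932083942) (nat_lit 329) (nat_lit 5) (nat_lit 328) (nat_lit 5) (nat_lit 345) (nat_lit 5) (nat_lit 477) (nat_lit 475) (nat_lit 248)))) (XT.nd (nat_lit 156) (nat_lit 0) (nat_lit 152) (XT.nd (nat_lit 78) (nat_lit 0) (nat_lit 76) (XT.lf (nat_lit 76) (nat_lit 49153563437) (nat_lit 0) (nat_lit 60772888016) (nat_lit 1292) (nat_lit 59837725386) (nat_lit 330) (nat_lit 5) (nat_lit 329) (nat_lit 5) (nat_lit 346) (nat_lit 5) (nat_lit 478) (nat_lit 475) (nat_lit 247)) (XT.lf (nat_lit 76) (nat_lit 23301487787) (nat_lit 0) (nat_lit 97481597504) (nat_lit 1292) (nat_lit 53298017082) (nat_lit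 331) (nat_lit 5) (nat_lit 330) (nat_lit 5) (nat_lit 347) (nat_lit 5) (nat_lit 479) (nat_lit 475) (nat_lit 246))) (XT.nd (nat_lit 78) (nat_lit 0) (nat_lit 76) (XT.lf (nat_lit 0) (nat_lit 134437621197) (nat_lit 1216) (nat_lit 2660923086) (nat_lit 1292) (nat_lit 41447677801) (nat_lit 331) (nat_lit 5) (nat_lit 347) (nat_lit 5) (nat_lit 348) (nat_lit 5) (nat_lit 480) (nat_lit 475) (nat_lit 245)) (XT.lf (nat_lit 0) (nat_lit 151282708367) (nat_lit 1216) (nat_lit 28293207318) (nat_lit 1292) (nat_lit 3583447372) (nat_lit 332) (nat_lit 5) (nat_lit 348) (nat_lit 5) (nat_lit 349) (nat_lit 5) (nat_lit 481) (nat_lit 475) (nat_lit 244))))) (XT.nd (nat_lit 62010) (nat_lit 0) (nat_lit 836) (XT.nd (nat_lit 78) (nat_lit 1216) (nat_lit 0) (XT.lf (nat_lit 76) (nat_lit 133544589195) (nat_lit 0) (nat_lit 38120386099) (nat_lit 1292) (nat_lit 16257338032) (nat_lit 333) (nat_lit 5) (nat_lit 332) (nat_lit 5) (nat_lit 349)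 (nat_lit 5) (nat_lit 482) (nat_lit 475) (nat_lit 243)) (XT.nd (nat_lit 78) (nat_lit 0) (nat_lit 76) (XT.lf (nat_lit 0) (nat_lit 2598774944) (nat_lit 1292) (nat_lit 80598425669) (nat_lit 1368) (nat_lit 109652410687) (nat_lit 316) (nat_lit 5) (nat_lit 333) (nat_lit 5) (nat_lit 334) (nat_lit 5) (nat_lit 483) (nat_lit 475) (nat_lit 242)) (XT.lf (nat_lit 0) (nat_lit 24545296343) (nat_lit 1292) (nat_lit 107040244221) (nat_lit 1368) (nat_lit 66358389822) (nat_lit 317) (nat_lit 5) (nat_lit 334) (nat_lit 5) (nat_lit 335) (nat_lit 5) (nat_lit 484) (nat_lit 475) (nat_lit 241)))) (XT.nd (nat_lit 156) (nat_lit 0) (nat_lit 76) (XT.nd (nat_lit 78) (nat_lit 0) (nat_lit 76) (XT.lf (nat_lit 0) (nat_lit 48580068587) (nat_lit 1292) (nat_lit 17091239557) (nat_lit 1292) (nat_lit 17091239557) (nat_lit 327) (nat_lit 3) (nat_lit 344) (nat_lit 3) (nat_lit 344) (nat_lit 5) (nat_lit 476) (nat_lit 476) (nat_lit 248)) (XT.lf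 (nat_lit 0) (nat_lit 100649517697) (nat_lit 1216) (nat_lit 64423087725) (nat_lit 1292) (nat_lit 4558805872) (nat_lit 328) (nat_lit 5) (nat_lit 344) (nat_lit 5) (nat_lit 345) (nat_lit 5) (nat_lit 477) (nat_lit 476) (nat_lit 247))) (XT.nd (nat_lit 78) (nat_lit 0) (nat_lit 76) (XT.lf (nat_lit 76) (nat_lit 78554068746) (nat_lit 0) (nat_lit 28195192894) (nat_lit 1292) (nat_lit 67120704521) (nat_lit 329) (nat_lit 5) (nat_lit 328) (nat_lit 5) (nat_lit 345) (nat_lit 5) (nat_lit 478) (nat_lit 476) (nat_lit 246)) (XT.lf (nat_lit 76) (nat_lit 51615774279) (nat_lit 0) (nat_lit 63814394313) (nat_lit 1292) (nat_lit 62821994914) (nat_lit 330) (nat_lit 5) (nat_lit 329) (nat_lit 5) (nat_lit 346) (nat_lit 5) (nat_lit 479) (nat_lit 476) (nat_lit 245))))))) (XT.nd (nat_lit 124878) (nat_lit 0) (nat_lit 0) (XT.nd (nat_lit 62322) (nat_lit 0) (nat_lit 836) (XT.nd (nat_lit 234) (nat_lit 1064) (nat_lit 0) (XT.nd (nat_lit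 78) (nat_lit 0) (nat_lit 76) (XT.lf (nat_lit 76) (nat_lit 24471207447) (nat_lit 0) (nat_lit 102358093006) (nat_lit 1292) (nat_lit 55955644890) (nat_lit 331) (nat_lit 5) (nat_lit 330) (nat_lit 5) (nat_lit 347) (nat_lit 5) (nat_lit 480) (nat_lit 476) (nat_lit 244)) (XT.nd (nat_lit 78) (nat_lit 0) (nat_lit 76) (XT.lf (nat_lit 0) (nat_lit 141166204806) (nat_lit 1216) (nat_lit 2789321012) (nat_lit 1292) (nat_lit 43517805988) (nat_lit 331) (nat_lit 5) (nat_lit 347) (nat_lit 5) (nat_lit 348) (nat_lit 5) (nat_lit 481) (nat_lit 476) (nat_lit 243)) (XT.lf (nat_lit 0) (nat_lit 158853252188) (nat_lit 1216) (nat_lit 29703141222) (nat_lit 1292) (nat_lit 3760745254) (nat_lit 332) (nat_lit 5) (nat_lit 348) (nat_lit 5) (nat_lit 349) (nat_lit 5) (nat_lit 482) (nat_lit 476) (nat_lit 242)))) (XT.nd (nat_lit 78) (nat_lit 1216) (nat_lit 0) (XT.lf (nat_lit 76) (nat_lit 140226409633) (nat_lit 0) (nat_lit 40027961798) (nat_lit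 1292) (nat_lit 17063872861) (nat_lit 333) (nat_lit 5) (nat_lit 332) (nat_lit 5) (nat_lit 349) (nat_lit 5) (nat_lit 483) (nat_lit 476) (nat_lit 241)) (XT.nd (nat_lit 61932) (nat_lit 0) (nat_lit 836) (XT.lf (nat_lit 0) (nat_lit 2734657342) (nat_lit 1292) (nat_lit 84623575089) (nat_lit 1368) (nat_lit 115133680867) (nat_lit 316) (nat_lit 5) (nat_lit 333) (nat_lit 5) (nat_lit 334) (nat_lit 5) (nat_lit 484) (nat_lit 476) (nat_lit 240)) (XT.lf (nat_lit 0) (nat_lit 51012924548) (nat_lit 1292) (nat_lit 17943817392) (nat_lit 1292) (nat_lit 17943817392) (nat_lit 327) (nat_lit 3) (nat_lit 344) (nat_lit 3) (nat_lit 344) (nat_lit 5) (nat_lit 477) (nat_lit 477) (nat_lit 246))))) (XT.nd (nat_lit 234) (nat_lit 76) (nat_lit 0) (XT.nd (nat_lit 78) (nat_lit 0) (nat_lit 0) (XT.lf (nat_lit 0) (nat_lit 105689334946) (nat_lit 1216) (nat_lit 67640132138) (nat_lit 1292) (nat_lit 4783294195) (nat_lit 328) (nat_lit 5) (nat_lit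 344) (nat_lit 5) (nat_lit 345) (nat_lit 5) (nat_lit 478) (nat_lit 477) (nat_lit 245)) (XT.nd (nat_lit 78) (nat_lit 0) (nat_lit 76) (XT.lf (nat_lit 76) (nat_lit 82485764344) (nat_lit 0) (nat_lit 29607990528) (nat_lit 1292) (nat_lit 70469498369) (nat_lit 329) (nat_lit 5) (nat_lit 328) (nat_lit 5) (nat_lit 345) (nat_lit 5) (nat_lit 479) (nat_lit 477) (nat_lit 244)) (XT.lf (nat_lit 76) (nat_lit 54200674258) (nat_lit 0) (nat_lit 67007709853) (nat_lit 1292) (nat_lit 65956186051) (nat_lit 330) (nat_lit 5) (nat_lit 329) (nat_lit 5) (nat_lit 346) (nat_lit 5) (nat_lit 480) (nat_lit 477) (nat_lit 243)))) (XT.nd (nat_lit 156) (nat_lit 228) (nat_lit 0) (XT.nd (nat_lit 78) (nat_lit 0) (nat_lit 76) (XT.lf (nat_lit 76) (nat_lit 25698981216) (nat_lit 0) (nat_lit 107478188700) (nat_lit 1292) (nat_lit 58746830268) (nat_lit 331) (nat_lit 5) (nat_lit 330) (nat_lit 5) (nat_lit 347) (nat_lit 5) (nat_lit 481) (nat_lit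 477) (nat_lit 242)) (XT.lf (nat_lit 0) (nat_lit 148230594455) (nat_lit 1216) (nat_lit 2924570982) (nat_lit 1292) (nat_lit 45691650297) (nat_lit 331) (nat_lit 5) (nat_lit 347) (nat_lit 5) (nat_lit 348) (nat_lit 5) (nat_lit 482) (nat_lit 477) (nat_lit 241))) (XT.nd (nat_lit 62088) (nat_lit 380) (nat_lit 0) (XT.lf (nat_lit 0) (nat_lit 166801727408) (nat_lit 1216) (nat_lit 31184011243) (nat_lit 1292) (nat_lit 3947082303) (nat_lit 332) (nat_lit 5) (nat_lit 348) (nat_lit 5) (nat_lit 349) (nat_lit 5) (nat_lit 483) (nat_lit 477) (nat_lit 240)) (XT.lf (nat_lit 0) (nat_lit 53567065135) (nat_lit 1292) (nat_lit 18839208586) (nat_lit 1292) (nat_lit 18839208586) (nat_lit 327) (nat_lit 3) (nat_lit 344) (nat_lit 3) (nat_lit 344) (nat_lit 5) (nat_lit 478) (nat_lit 478) (nat_lit 244)))))) (XT.nd (nat_lit 62556) (nat_lit 0) (nat_lit 912) (XT.nd (nat_lit 234) (nat_lit 912) (nat_lit 0) (XT.nd (nat_lit 78) (nat_lit 0)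 (nat_lit 0) (XT.lf (nat_lit 0) (nat_lit 110980460527) (nat_lit 1216) (nat_lit 71018410879) (nat_lit 1292) (nat_lit 5019327865) (nat_lit 328) (nat_lit 5) (nat_lit 344) (nat_lit 5) (nat_lit 345) (nat_lit 5) (nat_lit 479) (nat_lit 478) (nat_lit 243)) (XT.nd (nat_lit 78) (nat_lit 0) (nat_lit 76) (XT.lf (nat_lit 76) (nat_lit 86613673569) (nat_lit 0) (nat_lit 31091145600) (nat_lit 1292) (nat_lit 73986405145) (nat_lit 329) (nat_lit 5) (nat_lit 328) (nat_lit 5) (nat_lit 345) (nat_lit 5) (nat_lit 480) (nat_lit 478) (nat_lit 242)) (XT.lf (nat_lit 76) (nat_lit 56914437009) (nat_lit 0) (nat_lit 70360449835) (nat_lit 1292) (nat_lit 69247729041) (nat_lit 330) (nat_lit 5) (nat_lit 329) (nat_lit 5) (nat_lit 346) (nat_lit 5) (nat_lit 481) (nat_lit 478) (nat_lit 241)))) (XT.nd (nat_lit 312) (nat_lit 1064) (nat_lit 0) (XT.nd (nat_lit 78) (nat_lit 0) (nat_lit 76) (XT.lf (nat_lit 76) (nat_lit 26987751953) (nat_lit 0)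 (nat_lit 112854085477) (nat_lit 1292) (nat_lit 61678188228) (nat_lit 331) (nat_lit 5) (nat_lit 330) (nat_lit 5) (nat_lit 347) (nat_lit 5) (nat_lit 482) (nat_lit 478) (nat_lit 240)) (XT.lf (nat_lit 0) (nat_lit 155647638381) (nat_lit 1216) (nat_lit 3066975422) (nat_lit 1292) (nat_lit 47974377040) (nat_lit 331) (nat_lit 5) (nat_lit 347) (nat_lit 5) (nat_lit 348) (nat_lit 5) (nat_lit 483) (nat_lit 478) (nat_lit 239))) (XT.nd (nat_lit 61932) (nat_lit 0) (nat_lit 836) (XT.lf (nat_lit 0) (nat_lit 3025510196) (nat_lit 1292) (nat_lit 93289021078) (nat_lit 1368) (nat_lit 126932486166) (nat_lit 316) (nat_lit 5) (nat_lit 333) (nat_lit 5) (nat_lit 334) (nat_lit 5) (nat_lit 486) (nat_lit 478) (nat_lit 236)) (XT.lf (nat_lit 0) (nat_lit 56248587879) (nat_lit 1292) (nat_lit 19779536656) (nat_lit 1292) (nat_lit 19779536656) (nat_lit 327) (nat_lit 3) (nat_lit 344) (nat_lit 3) (nat_lit 344) (nat_lit 5) (nat_lit 479)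 (nat_lit 479) (nat_lit 242))))) (XT.nd (nat_lit 62556) (nat_lit 0) (nat_lit 0) (XT.nd (nat_lit 78) (nat_lit 0) (nat_lit 0) (XT.lf (nat_lit 0) (nat_lit 116535523312) (nat_lit 1216) (nat_lit 74565950138) (nat_lit 1292) (nat_lit 5267454313) (nat_lit 328) (nat_lit 5) (nat_lit 344) (nat_lit 5) (nat_lit 345) (nat_lit 5) (nat_lit 480) (nat_lit 479) (nat_lit 241)) (XT.nd (nat_lit 78) (nat_lit 0) (nat_lit 76) (XT.lf (nat_lit 76) (nat_lit 90947641609) (nat_lit 0) (nat_lit 32648202242) (nat_lit 1292) (nat_lit 77679767903) (nat_lit 329) (nat_lit 5) (nat_lit 328) (nat_lit 5) (nat_lit 345) (nat_lit 5) (nat_lit 481) (nat_lit 479) (nat_lit 240)) (XT.lf (nat_lit 76) (nat_lit 59763541207) (nat_lit 0) (nat_lit 73880607918) (nat_lit 1292) (nat_lit 72704431764) (nat_lit 330) (nat_lit 5) (nat_lit 329) (nat_lit 5) (nat_lit 346) (nat_lit 5) (nat_lit 482) (nat_lit 479) (nat_lit 239)))) (XT.nd (nat_lit 62712) (nat_lit 0)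 (nat_lit 0) (XT.nd (nat_lit 312) (nat_lit 0) (nat_lit 228) (XT.lf (nat_lit 0) (nat_lit 122367777717) (nat_lit 1216) (nat_lit 78291180720) (nat_lit 1292) (nat_lit 5528251115) (nat_lit 328) (nat_lit 5) (nat_lit 344) (nat_lit 5) (nat_lit 345) (nat_lit 5) (nat_lit 481) (nat_lit 480) (nat_lit 239)) (XT.lf (nat_lit 0) (nat_lit 171611309486) (nat_lit 1216) (nat_lit 3374552289) (nat_lit 1292) (nat_lit 52888456534) (nat_lit 331) (nat_lit 5) (nat_lit 347) (nat_lit 5) (nat_lit 348) (nat_lit 5) (nat_lit 485) (nat_lit 480) (nat_lit 235))) (XT.nd (nat_lit 62400) (nat_lit 76) (nat_lit 0) (XT.lf (nat_lit 76) (nat_lit 65895308131) (nat_lit 0) (nat_lit 81457161082) (nat_lit 1292) (nat_lit 80146546925) (nat_lit 330) (nat_lit 5) (nat_lit 329) (nat_lit 5) (nat_lit 346) (nat_lit 5) (nat_lit 484) (nat_lit 481) (nat_lit 235)) (XT.lf (nat_lit 0) (nat_lit 134920199264) (nat_lit 1216) (nat_lit 86310582696) (nat_lit 1292)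 (nat_lit 6090324392) (nat_lit 328) (nat_lit 5) (nat_lit 344) (nat_lit 5) (nat_lit 345) (nat_lit 5) (nat_lit 483) (nat_lit 482) (nat_lit 235))))))))

set_option maxRecDepth 10000000 in
noncomputable def Tp : PT := (PT.nd (nat_lit 12823668) (PT.nd (nat_lit 11949132) (PT.nd (nat_lit 10763064) (PT.nd (nat_lit 9389328) (PT.nd (nat_lit 8515104) pc0 pc1) (PT.nd (nat_lit 811668) pc2 pc3)) (PT.nd (nat_lit 749034) (PT.nd (nat_lit 436956) pc4 pc5) (PT.nd (nat_lit 249600) pc6 pc7))) (PT.nd (nat_lit 561366) (PT.nd (nat_lit 312078) (PT.nd (nat_lit 186888) pc8 pc9) (PT.nd (nat_lit 124800) pc10 pc11)) (PT.nd (nat_lit 187122) (PT.nd (nat_lit 63336) pc12 pc13) (PT.nd (nat_lit 63102) pc14 pc15)))) (PT.nd (nat_lit 562926) (PT.nd (nat_lit 250224) (PT.nd (nat_lit 125346) (PT.nd (nat_lit 62712) pc16 pc17) (PT.nd (nat_lit 62478) pc18 pc19)) (PT.nd (nat_lit 124878) (PT.nd (nat_lit 62088) pc20 pc21) (PT.nd (nat_lit 63258)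 pc22 pc23))) (PT.nd (nat_lit 682734) (PT.nd (nat_lit 250770) (PT.nd (nat_lit 125190) pc24 pc25) (PT.nd (nat_lit 187512) pc26 pc27)) (PT.nd (nat_lit 436332) (PT.nd (nat_lit 193518) pc28 pc29) (PT.nd (nat_lit 249054) pc30 pc31)))))

set_option maxRecDepth 10000000 in
noncomputable def Tx : XT := (XT.nd (nat_lit 21968700) (nat_lit 0) (nat_lit 228) XT.nil (XT.nd (nat_lit 8183448) (nat_lit 0) (nat_lit 0) (XT.nd (nat_lit 3623022) (nat_lit 0) (nat_lit 3876) (XT.nd (nat_lit 2496390) (nat_lit 0) (nat_lit 1976) (XT.nd (nat_lit 1746810) (nat_lit 0) (nat_lit 1064) (XT.nd (nat_lit 1186458) (nat_lit 0) (nat_lit 608) (XT.nd (nat_lit 811512) (nat_lit 0) (nat_lit 228) (XT.nd (nat_lit 561444) (nat_lit 0) (nat_lit 152) (XT.nd (nat_lit 374322) (nat_lit 0) (nat_lit 0) xc0 xc1) (XT.nd (nat_lit 125346) (nat_lit 0) (nat_lit 0) xc2 xc3)) (XT.nd (nat_lit 188136) (nat_lit 0) (nat_lit 152) (XT.nd (nat_lit 124176) (nat_lit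 0) (nat_lit 152) xc4 xc5) (XT.nd (nat_lit 123318) (nat_lit 0) (nat_lit 76) xc6 xc7))) (XT.nd (nat_lit 310986) (nat_lit 0) (nat_lit 228) (XT.nd (nat_lit 185406) (nat_lit 0) (nat_lit 76) (XT.nd (nat_lit 122382) (nat_lit 0) (nat_lit 76) xc8 xc9) (XT.nd (nat_lit 62868) (nat_lit 0) (nat_lit 0) xc10 xc11)) (XT.nd (nat_lit 124956) (nat_lit 0) (nat_lit 76) (XT.nd (nat_lit 62556) (nat_lit 0) (nat_lit 0) xc12 xc13) (XT.nd (nat_lit 62244) (nat_lit 0) (nat_lit 152) xc14 xc15)))) (XT.nd (nat_lit 434460) (nat_lit 0) (nat_lit 532) (XT.nd (nat_lit 189462) (nat_lit 0) (nat_lit 228) (XT.nd (nat_lit 123708) (nat_lit 0) (nat_lit 76) (XT.nd (nat_lit 61932) (nat_lit 0) (nat_lit 76) xc16 xc17) (XT.nd (nat_lit 61620) (nat_lit 0) (nat_lit 836) xc18 xc19)) (XT.nd (nat_lit 122772) (nat_lit 0) (nat_lit 76) (XT.nd (nat_lit 61464) (nat_lit 0) (nat_lit 76) xc20 xc21) (XT.nd (nat_lit 61152) (nat_lit 0) (nat_lit 152) xc22 xc23)))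 (XT.nd (nat_lit 129792) (nat_lit 0) (nat_lit 152) (XT.nd (nat_lit 64974) (nat_lit 0) (nat_lit 0) (XT.nd (nat_lit 4134) (nat_lit 1748) (nat_lit 0) xc24 xc25) (XT.nd (nat_lit 60684) (nat_lit 0) (nat_lit 988) xc26 xc27)) (XT.nd (nat_lit 120900) (nat_lit 0) (nat_lit 152) (XT.nd (nat_lit 60528) (nat_lit 0) (nat_lit 76) xc28 xc29) (XT.nd (nat_lit 4134) (nat_lit 760) (nat_lit 0) xc30 xc31))))) (XT.nd (nat_lit 564018) (nat_lit 0) (nat_lit 988) (XT.nd (nat_lit 311142) (nat_lit 0) (nat_lit 456) (XT.nd (nat_lit 183846) (nat_lit 0) (nat_lit 304) (XT.nd (nat_lit 64194) (nat_lit 0) (nat_lit 76) (XT.nd (nat_lit 60060) (nat_lit 0) (nat_lit 1520) xc32 xc33) (XT.nd (nat_lit 59904) (nat_lit 0) (nat_lit 152) xc34 xc35)) (XT.nd (nat_lit 63726) (nat_lit 0) (nat_lit 0) (XT.nd (nat_lit 4134) (nat_lit 3192) (nat_lit 0) xc36 xc37) (XT.nd (nat_lit 4134) (nat_lit 1368) (nat_lit 0) xc38 xc39))) (XT.nd (nat_lit 126672) (nat_lit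 0) (nat_lit 228) (XT.nd (nat_lit 63414) (nat_lit 0) (nat_lit 76) (XT.nd (nat_lit 59280) (nat_lit 0) (nat_lit 5092) xc40 xc41) (XT.nd (nat_lit 59124) (nat_lit 0) (nat_lit 3496) xc42 xc43)) (XT.nd (nat_lit 63102) (nat_lit 0) (nat_lit 152) (XT.nd (nat_lit 58968) (nat_lit 0) (nat_lit 2432) xc44 xc45) (XT.nd (nat_lit 58890) (nat_lit 0) (nat_lit 1520) xc46 xc47)))) (XT.nd (nat_lit 308100) (nat_lit 0) (nat_lit 456) (XT.nd (nat_lit 181272) (nat_lit 0) (nat_lit 228) (XT.nd (nat_lit 63102) (nat_lit 0) (nat_lit 0) (XT.nd (nat_lit 58968) (nat_lit 0) (nat_lit 608) xc48 xc49) (XT.nd (nat_lit 59046) (nat_lit 0) (nat_lit 152) xc50 xc51)) (XT.nd (nat_lit 63336) (nat_lit 0) (nat_lit 152) (XT.nd (nat_lit 4134) (nat_lit 5244) (nat_lit 0) xc52 xc53) (XT.nd (nat_lit 4134) (nat_lit 3344) (nat_lit 0) xc54 xc55))) (XT.nd (nat_lit 127062) (nat_lit 0) (nat_lit 228) (XT.nd (nat_lit 63492) (nat_lit 0) (nat_lit 152) (XT.nd (nat_lit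 4134) (nat_lit 1672) (nat_lit 0) xc56 xc57) (XT.nd (nat_lit 4134) (nat_lit 152) (nat_lit 0) xc58 xc59)) (XT.nd (nat_lit 63648) (nat_lit 0) (nat_lit 76) (XT.nd (nat_lit 59514) (nat_lit 0) (nat_lit 3344) xc60 xc61) (XT.nd (nat_lit 59592) (nat_lit 0) (nat_lit 1064) xc62 xc63)))))) (XT.nd (nat_lit 1374750) (nat_lit 0) (nat_lit 2964) (XT.nd (nat_lit 682188) (nat_lit 0) (nat_lit 1292) (XT.nd (nat_lit 311532) (nat_lit 0) (nat_lit 456) (XT.nd (nat_lit 183378) (nat_lit 0) (nat_lit 304) (XT.nd (nat_lit 119418) (nat_lit 0) (nat_lit 228) (XT.nd (nat_lit 59670) (nat_lit 0) (nat_lit 76) xc64 xc65) (XT.nd (nat_lit 4134) (nat_lit 3496) (nat_lit 0) xc66 xc67)) (XT.nd (nat_lit 64038) (nat_lit 0) (nat_lit 152) (XT.nd (nat_lit 4134) (nat_lit 836) (nat_lit 0) xc68 xc69) (XT.nd (nat_lit 59982) (nat_lit 0) (nat_lit 2660) xc70 xc71))) (XT.nd (nat_lit 184860) (nat_lit 0) (nat_lit 456) (XT.nd (nat_lit 120354) (nat_lit 0)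 (nat_lit 380) (XT.nd (nat_lit 60138) (nat_lit 0) (nat_lit 152) xc72 xc73) (XT.nd (nat_lit 4134) (nat_lit 3572) (nat_lit 0) xc74 xc75)) (XT.nd (nat_lit 64584) (nat_lit 0) (nat_lit 152) (XT.nd (nat_lit 60450) (nat_lit 0) (nat_lit 3876) xc76 xc77) (XT.nd (nat_lit 60528) (nat_lit 0) (nat_lit 76) xc78 xc79)))) (XT.nd (nat_lit 316446) (nat_lit 0) (nat_lit 532) (XT.nd (nat_lit 129714) (nat_lit 0) (nat_lit 228) (XT.nd (nat_lit 64818) (nat_lit 0) (nat_lit 76) (XT.nd (nat_lit 4134) (nat_lit 2888) (nat_lit 0) xc80 xc81) (XT.nd (nat_lit 60762) (nat_lit 0) (nat_lit 1900) xc82 xc83)) (XT.nd (nat_lit 121602) (nat_lit 0) (nat_lit 152) (XT.nd (nat_lit 60762) (nat_lit 0) (nat_lit 76) xc84 xc85) (XT.nd (nat_lit 4134) (nat_lit 228) (nat_lit 0) xc86 xc87))) (XT.nd (nat_lit 187512) (nat_lit 0) (nat_lit 608) (XT.nd (nat_lit 122148) (nat_lit 0) (nat_lit 304) (XT.nd (nat_lit 60996) (nat_lit 0) (nat_lit 76) xc88 xc89) (XT.nd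 (nat_lit 4134) (nat_lit 684) (nat_lit 0) xc90 xc91)) (XT.nd (nat_lit 122850) (nat_lit 0) (nat_lit 380) (XT.nd (nat_lit 61386) (nat_lit 0) (nat_lit 228) xc92 xc93) (XT.nd (nat_lit 61542) (nat_lit 0) (nat_lit 760) xc94 xc95))))) (XT.nd (nat_lit 997230) (nat_lit 0) (nat_lit 3648) (XT.nd (nat_lit 495612) (nat_lit 0) (nat_lit 1824) (XT.nd (nat_lit 246948) (nat_lit 0) (nat_lit 608) (XT.nd (nat_lit 123318) (nat_lit 0) (nat_lit 304) (XT.nd (nat_lit 61620) (nat_lit 0) (nat_lit 152) xc96 xc97) (XT.nd (nat_lit 61776) (nat_lit 0) (nat_lit 152) xc98 xc99)) (XT.nd (nat_lit 124020) (nat_lit 0) (nat_lit 836) (XT.nd (nat_lit 61932) (nat_lit 0) (nat_lit 152) xc100 xc101) (XT.nd (nat_lit 62244) (nat_lit 0) (nat_lit 152) xc102 xc103))) (XT.nd (nat_lit 191568) (nat_lit 0) (nat_lit 304) (XT.nd (nat_lit 66534) (nat_lit 0) (nat_lit 152) (XT.nd (nat_lit 4134) (nat_lit 304) (nat_lit 0) xc104 xc105) (XT.nd (nat_lit 62478)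 (nat_lit 0) (nat_lit 152) xc106 xc107)) (XT.nd (nat_lit 184002) (nat_lit 0) (nat_lit 1064) (XT.nd (nat_lit 121212) (nat_lit 0) (nat_lit 228) xc108 xc109) (XT.nd (nat_lit 62946) (nat_lit 0) (nat_lit 152) xc110 xc111)))) (XT.nd (nat_lit 686946) (nat_lit 0) (nat_lit 3420) (XT.nd (nat_lit 312312) (nat_lit 0) (nat_lit 1368) (XT.nd (nat_lit 126282) (nat_lit 0) (nat_lit 380) (XT.nd (nat_lit 63102) (nat_lit 0) (nat_lit 152) xc112 xc113) (XT.nd (nat_lit 63258) (nat_lit 0) (nat_lit 456) xc114 xc115)) (XT.nd (nat_lit 127218) (nat_lit 0) (nat_lit 532) (XT.nd (nat_lit 63570) (nat_lit 0) (nat_lit 228) xc116 xc117) (XT.nd (nat_lit 123474) (nat_lit 0) (nat_lit 836) xc118 xc119))) (XT.nd (nat_lit 438516) (nat_lit 0) (nat_lit 3420) (XT.nd (nat_lit 188526) (nat_lit 0) (nat_lit 1292) (XT.nd (nat_lit 64116) (nat_lit 0) (nat_lit 304) xc120 xc121) (XT.nd (nat_lit 124800) (nat_lit 0) (nat_lit 836) xc122 xc123)) (XT.nd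 (nat_lit 312702) (nat_lit 0) (nat_lit 3344) (XT.nd (nat_lit 125580) (nat_lit 0) (nat_lit 1292) xc124 xc125) (XT.nd (nat_lit 188058) (nat_lit 0) (nat_lit 1824) xc126 xc127))))))) XT.nil))

set_option maxRecDepth 10000000 in
noncomputable def Te : XT := XT.nil

set_option maxRecDepth 10000000 in
noncomputable def Tz : ZL := (ZL.cons (nat_lit 76) (nat_lit 6) (nat_lit 587604934973519945594) (ZL.cons (nat_lit 228) (nat_lit 3) (nat_lit 286658247927769602979) (ZL.cons (nat_lit 760) (nat_lit 6) (nat_lit 507873016325883739702) (ZL.cons (nat_lit 912) (nat_lit 3) (nat_lit 247772007206049880343) (ZL.cons (nat_lit 988) (nat_lit 6) (nat_lit 483805922872519794902) (ZL.cons (nat_lit 1140) (nat_lit 3) (nat_lit 236034941541369003752) (ZL.cons (nat_lit 1216) (nat_lit 6) (nat_lit 460896908417651142338) (ZL.cons (nat_lit 1368) (nat_lit 3) (nat_lit 224863097903358384420) (ZL.cons (nat_lit 1444) (nat_lit 6) (nat_lit 439092059102553782958)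 (ZL.cons (nat_lit 1520) (nat_lit 6) (nat_lit 428969178932057034722) (ZL.cons (nat_lit 1596) (nat_lit 3) (nat_lit 214230208156546959570) (ZL.cons (nat_lit 1672) (nat_lit 6) (nat_lit 418340154753035449074) (ZL.cons (nat_lit 1748) (nat_lit 6) (nat_lit 408707178561521090686) (ZL.cons (nat_lit 1824) (nat_lit 3) (nat_lit 204111321366968585543) (ZL.cons (nat_lit 1900) (nat_lit 6) (nat_lit 398592553560431014380) (ZL.cons (nat_lit 1976) (nat_lit 6) (nat_lit 389426958448770535726) (ZL.cons (nat_lit 2052) (nat_lit 3) (nat_lit 194482747877916734719) (ZL.cons (nat_lit 2128) (nat_lit 6) (nat_lit 379803083581527033140) (ZL.cons (nat_lit 2204) (nat_lit 6) (nat_lit 371083501770430023488) (ZL.cons (nat_lit 2280) (nat_lit 3) (nat_lit 185322006745721170656) (ZL.cons (nat_lit 2356) (nat_lit 6) (nat_lit 361927940868778163356) (ZL.cons (nat_lit 2432) (nat_lit 6) (nat_lit 353634113159671013136) (ZL.cons (nat_lit 2508)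 (nat_lit 3) (nat_lit 176607776446984229340) (ZL.cons (nat_lit 2584) (nat_lit 6) (nat_lit 344925594065108505402) (ZL.cons (nat_lit 2660) (nat_lit 6) (nat_lit 337038326384986732208) (ZL.cons (nat_lit 2736) (nat_lit 3) (nat_lit 168319848780254054459) (ZL.cons (nat_lit 2812) (nat_lit 6) (nat_lit 328756695320858870354) (ZL.cons (nat_lit 2888) (nat_lit 6) (nat_lit 321257818293209243906) (ZL.cons (nat_lit 2964) (nat_lit 3) (nat_lit 160439085896852896576) (ZL.cons (nat_lit 3040) (nat_lit 6) (nat_lit 313383997414177136134) (ZL.cons (nat_lit 3116) (nat_lit 6) (nat_lit 306256328909940688210) (ZL.cons (nat_lit 3192) (nat_lit 3) (nat_lit 152947380407587748509) (ZL.cons (nat_lit 3268) (nat_lit 6) (nat_lit 298772276980492417892) (ZL.cons (nat_lit 3344) (nat_lit 6) (nat_lit 291999587615283415234) (ZL.cons (nat_lit 3420) (nat_lit 3) (nat_lit 145827618524420188001) (ZL.cons (nat_lit 3496) (nat_lit 6) (nat_lit 284888263781813962442)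 (ZL.cons (nat_lit 3572) (nat_lit 6) (nat_lit 278455245338301209562) (ZL.cons (nat_lit 3648) (nat_lit 3) (nat_lit 139063646208939633718) (ZL.cons (nat_lit 3724) (nat_lit 6) (nat_lit 271700575972612819038) (ZL.cons (nat_lit 3800) (nat_lit 6) (nat_lit 265592812740192554274) (ZL.cons (nat_lit 3876) (nat_lit 3) (nat_lit 132640238312752495173) (ZL.cons (nat_lit 3952) (nat_lit 6) (nat_lit 259179661346151276272) (ZL.cons (nat_lit 4028) (nat_lit 6) (nat_lit 253383604383886548926) (ZL.cons (nat_lit 4104) (nat_lit 3) (nat_lit 126543070708758720211) (ZL.cons (nat_lit 4180) (nat_lit 6) (nat_lit 247297744573508585214) (ZL.cons (nat_lit 4256) (nat_lit 6) (nat_lit 241800688916877070514) (ZL.cons (nat_lit 4332) (nat_lit 3) (nat_lit 120758695426834197874) (ZL.cons (nat_lit 4408) (nat_lit 6) (nat_lit 236028780477413980080) (ZL.cons (nat_lit 4484) (nat_lit 6) (nat_lit 230818845324801875310) (ZL.cons (nat_lit 4560)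 (nat_lit 3) (nat_lit 115274518822777759196) (ZL.cons (nat_lit 4636) (nat_lit 6) (nat_lit 225348413414559165306) (ZL.cons (nat_lit 4712) (nat_lit 6) (nat_lit 220414525345779691406) (ZL.cons (nat_lit 4788) (nat_lit 3) (nat_lit 110078782825629675741) (ZL.cons (nat_lit 4864) (nat_lit 6) (nat_lit 215233942873561243812) (ZL.cons (nat_lit 4940) (nat_lit 6) (nat_lit 210565822170089370610) (ZL.cons (nat_lit 5016) (nat_lit 3) (nat_lit 105160549325749285341) (ZL.cons (nat_lit 5092) (nat_lit 6) (nat_lit 205664295431443903746) (ZL.cons (nat_lit 5168) (nat_lit 6) (nat_lit 201252445586682827128) (ZL.cons (nat_lit 5244) (nat_lit 3) (nat_lit 100509687784488651695) (ZL.cons (nat_lit 5320) (nat_lit 6) (nat_lit 197075044712823052554) (ZL.cons (nat_lit 5396) (nat_lit 6) (nat_lit 196620003249683696682) (ZL.cons (nat_lit 5472) (nat_lit 6) (nat_lit 192455703777564765512) (ZL.cons (nat_lit 5548) (nat_lit 3) (nat_lit 96116866166065466689)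 (ZL.cons (nat_lit 5624) (nat_lit 6) (nat_lit 188516562153877369568) (ZL.cons (nat_lit 5700) (nat_lit 6) (nat_lit 188083189331839887782) (ZL.cons (nat_lit 5776) (nat_lit 6) (nat_lit 184158492003571771692) (ZL.cons (nat_lit 5852) (nat_lit 3) (nat_lit 91973545313484061020) (ZL.cons (nat_lit 5928) (nat_lit 6) (nat_lit 180450295829878327688) (ZL.cons (nat_lit 6004) (nat_lit 6) (nat_lit 180037559808890249798) (ZL.cons (nat_lit 6080) (nat_lit 6) (nat_lit 176345288470896561830) (ZL.cons (nat_lit 6156) (nat_lit 3) (nat_lit 88071976913256066796) (ZL.cons (nat_lit 6232) (nat_lit 6) (nat_lit 172861485490753739836) (ZL.cons (nat_lit 6308) (nat_lit 6) (nat_lit 172468403566003189466) (ZL.cons (nat_lit 6384) (nat_lit 6) (nat_lit 169002157717219348504) (ZL.cons (nat_lit 6460) (nat_lit 3) (nat_lit 84405205218426613186) (ZL.cons (nat_lit 6536) (nat_lit 6) (nat_lit 165736963313853982514) (ZL.cons (nat_lit 6612) (nat_lit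 6) (nat_lit 165362599575996315494) (ZL.cons (nat_lit 6688) (nat_lit 6) (nat_lit 162665046083518126338) (ZL.cons (nat_lit 6764) (nat_lit 6) (nat_lit 162116761909954226092) (ZL.cons (nat_lit 6840) (nat_lit 3) (nat_lit 80967072726231340602) (ZL.cons (nat_lit 6916) (nat_lit 6) (nat_lit 159065169253807810334) (ZL.cons (nat_lit 6992) (nat_lit 6) (nat_lit 158708632360610032220) (ZL.cons (nat_lit 7068) (nat_lit 6) (nat_lit 156200555910756719614) (ZL.cons (nat_lit 7144) (nat_lit 6) (nat_lit 155678380507362528902) (ZL.cons (nat_lit 7220) (nat_lit 3) (nat_lit 77752230035828147838) (ZL.cons (nat_lit 7296) (nat_lit 6) (nat_lit 152836175007355296240) (ZL.cons (nat_lit 7372) (nat_lit 6) (nat_lit 152496616061452650416) (ZL.cons (nat_lit 7448) (nat_lit 6) (nat_lit 150175248704635936062) (ZL.cons (nat_lit 7524) (nat_lit 6) (nat_lit 149677938796641468720) (ZL.cons (nat_lit 7600) (nat_lit 3) (nat_lit 74756150143222528061)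 (ZL.cons (nat_lit 7676) (nat_lit 6) (nat_lit 147689266060388449892) (ZL.cons (nat_lit 7752) (nat_lit 6) (nat_lit 147041717140877962052) (ZL.cons (nat_lit 7828) (nat_lit 6) (nat_lit 146718327668589727936) (ZL.cons (nat_lit 7904) (nat_lit 6) (nat_lit 144581674375934122070) (ZL.cons (nat_lit 7980) (nat_lit 6) (nat_lit 144108045892129867456) (ZL.cons (nat_lit 8056) (nat_lit 3) (nat_lit 71975147465019022969) (ZL.cons (nat_lit 8132) (nat_lit 6) (nat_lit 142291953257131511056) (ZL.cons (nat_lit 8208) (nat_lit 6) (nat_lit 141675240000454855970) (ZL.cons (nat_lit 8284) (nat_lit 6) (nat_lit 141367250026847013954) (ZL.cons (nat_lit 8360) (nat_lit 6) (nat_lit 139414117598584514880) (ZL.cons (nat_lit 8436) (nat_lit 6) (nat_lit 138963042852104272392) (ZL.cons (nat_lit 8512) (nat_lit 3) (nat_lit 69406401920294125947) (ZL.cons (nat_lit 8588) (nat_lit 6) (nat_lit 137319295061752486226) (ZL.cons (nat_lit 8664) (nat_lit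 6) (nat_lit 136731949103012814718) (ZL.cons (nat_lit 8740) (nat_lit 6) (nat_lit 136438625318624393748) (ZL.cons (nat_lit 8816) (nat_lit 6) (nat_lit 135385784717252027086) (ZL.cons (nat_lit 8892) (nat_lit 6) (nat_lit 134668656651598613652) (ZL.cons (nat_lit 8968) (nat_lit 6) (nat_lit 134239061654950763662) (ZL.cons (nat_lit 9044) (nat_lit 3) (nat_lit 67047988441039181595) (ZL.cons (nat_lit 9120) (nat_lit 6) (nat_lit 133608982969024803034) (ZL.cons (nat_lit 9196) (nat_lit 6) (nat_lit 132768252896786873480) (ZL.cons (nat_lit 9272) (nat_lit 6) (nat_lit 132208875793225281564) (ZL.cons (nat_lit 9348) (nat_lit 6) (nat_lit 131929519808093452072) (ZL.cons (nat_lit 9424) (nat_lit 6) (nat_lit 131026213067732804344) (ZL.cons (nat_lit 9500) (nat_lit 6) (nat_lit 130343233957586696308) (ZL.cons (nat_lit 9576) (nat_lit 6) (nat_lit 129934095865541124890) (ZL.cons (nat_lit 9652) (nat_lit 3) (nat_lit 64898912326640847935)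 (ZL.cons (nat_lit 9728) (nat_lit 6) (nat_lit 129438389450557706076) (ZL.cons (nat_lit 9804) (nat_lit 6) (nat_lit 128637694143664439834) (ZL.cons (nat_lit 9880) (nat_lit 6) (nat_lit 128104954045034352296) (ZL.cons (nat_lit 9956) (nat_lit 6) (nat_lit 127838900725861181350) (ZL.cons (nat_lit 10032) (nat_lit 6) (nat_lit 128001001512839733208) (ZL.cons (nat_lit 10108) (nat_lit 6) (nat_lit 127088195542377744862) (ZL.cons (nat_lit 10184) (nat_lit 6) (nat_lit 126437739247000499118) (ZL.cons (nat_lit 10260) (nat_lit 6) (nat_lit 126048083921242812052) (ZL.cons (nat_lit 10336) (nat_lit 3) (nat_lit 62959150907164535063) (ZL.cons (nat_lit 10412) (nat_lit 6) (nat_lit 125691048871342595454) (ZL.cons (nat_lit 10488) (nat_lit 6) (nat_lit 124928481912396627606) (ZL.cons (nat_lit 10564) (nat_lit 6) (nat_lit 124421110389891782334) (ZL.cons (nat_lit 10640) (nat_lit 6) (nat_lit 124167726276393524288) (ZL.cons (nat_lit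 10716) (nat_lit 6) (nat_lit 124442927590866050780) (ZL.cons (nat_lit 10792) (nat_lit 6) (nat_lit 123573588571378442832) (ZL.cons (nat_lit 10868) (nat_lit 6) (nat_lit 122954106385304875456) (ZL.cons (nat_lit 10944) (nat_lit 6) (nat_lit 122583006075059459204) (ZL.cons (nat_lit 11020) (nat_lit 3) (nat_lit 61229702034237471542) (ZL.cons (nat_lit 11096) (nat_lit 6) (nat_lit 123340859983613642870) (ZL.cons (nat_lit 11172) (nat_lit 6) (nat_lit 122369833287419711020) (ZL.cons (nat_lit 11248) (nat_lit 6) (nat_lit 121643579040804503544) (ZL.cons (nat_lit 11324) (nat_lit 6) (nat_lit 121160368066990365188) (ZL.cons (nat_lit 11400) (nat_lit 6) (nat_lit 120919049863658690862) (ZL.cons (nat_lit 11476) (nat_lit 6) (nat_lit 122382222079091913616) (ZL.cons (nat_lit 11552) (nat_lit 6) (nat_lit 121314349976511006620) (ZL.cons (nat_lit 11628) (nat_lit 6) (nat_lit 120486408053189475242) (ZL.cons (nat_lit 11704) (nat_lit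 6) (nat_lit 119896425018833696786) (ZL.cons (nat_lit 11780) (nat_lit 6) (nat_lit 119542996151933300356) (ZL.cons (nat_lit 11856) (nat_lit 3) (nat_lit 59712639977593071075) (ZL.cons (nat_lit 11932) (nat_lit 6) (nat_lit 121564731406099620804) (ZL.cons (nat_lit 12008) (nat_lit 6) (nat_lit 120404625583150166048) (ZL.cons (nat_lit 12084) (nat_lit 6) (nat_lit 119479838253441659524) (ZL.cons (nat_lit 12160) (nat_lit 6) (nat_lit 118788167542379557166) (ZL.cons (nat_lit 12236) (nat_lit 6) (nat_lit 118327966614937520636) (ZL.cons (nat_lit 12312) (nat_lit 6) (nat_lit 118098139754621640326) (ZL.cons (nat_lit 12388) (nat_lit 3) (nat_lit 58954815639000919652) (ZL.cons (nat_lit 12464) (nat_lit 6) (nat_lit 117978457500229926972) (ZL.cons (nat_lit 12540) (nat_lit 6) (nat_lit 118185100038871875900) (ZL.cons (nat_lit 12616) (nat_lit 6) (nat_lit 118530050899972071678) (ZL.cons (nat_lit 12692) (nat_lit 6) (nat_lit 119014131395104562392)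 (ZL.cons (nat_lit 12768) (nat_lit 6) (nat_lit 119638494096876806356) (ZL.cons (nat_lit 12844) (nat_lit 6) (nat_lit 118621473046799752072) (ZL.cons (nat_lit 12920) (nat_lit 6) (nat_lit 117832956929350674568) (ZL.cons (nat_lit 12996) (nat_lit 6) (nat_lit 117271068325202314136) (ZL.cons (nat_lit 13072) (nat_lit 6) (nat_lit 116934469404344793726) (ZL.cons (nat_lit 13148) (nat_lit 3) (nat_lit 58411179370388035811) (ZL.cons (nat_lit 13224) (nat_lit 6) (nat_lit 116493286487343670884) (ZL.cons (nat_lit 13300) (nat_lit 6) (nat_lit 116634380242911250604) (ZL.cons (nat_lit 13376) (nat_lit 6) (nat_lit 116916903691559666186) (ZL.cons (nat_lit 13452) (nat_lit 6) (nat_lit 117341529508166651950) (ZL.cons (nat_lit 13528) (nat_lit 6) (nat_lit 117909268706581272150) (ZL.cons (nat_lit 13604) (nat_lit 6) (nat_lit 117028518868763646886) (ZL.cons (nat_lit 13680) (nat_lit 6) (nat_lit 116369784858228311308) (ZL.cons (nat_lit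 13756) (nat_lit 6) (nat_lit 115931498260664466996) (ZL.cons (nat_lit 13832) (nat_lit 6) (nat_lit 115712615536554104792) (ZL.cons (nat_lit 13908) (nat_lit 3) (nat_lit 57606606454472465742) (ZL.cons (nat_lit 13984) (nat_lit 6) (nat_lit 115285480442284423536) (ZL.cons (nat_lit 14060) (nat_lit 6) (nat_lit 115502455107858469910) (ZL.cons (nat_lit 14136) (nat_lit 6) (nat_lit 115864653512013675478) (ZL.cons (nat_lit 14212) (nat_lit 6) (nat_lit 116372938031902790728) (ZL.cons (nat_lit 14288) (nat_lit 6) (nat_lit 115621970300998907390) (ZL.cons (nat_lit 14364) (nat_lit 6) (nat_lit 115086838297048087932) (ZL.cons (nat_lit 14440) (nat_lit 6) (nat_lit 114766267896231401826) (ZL.cons (nat_lit 14516) (nat_lit 3) (nat_lit 57329747917844880863) (ZL.cons (nat_lit 14592) (nat_lit 6) (nat_lit 114135188970799426062) (ZL.cons (nat_lit 14668) (nat_lit 6) (nat_lit 114283337414145384768) (ZL.cons (nat_lit 14744) (nat_lit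 6) (nat_lit 114579987035226221128) (ZL.cons (nat_lit 14820) (nat_lit 6) (nat_lit 115025844142663556182) (ZL.cons (nat_lit 14896) (nat_lit 6) (nat_lit 114398478418344188964) (ZL.cons (nat_lit 14972) (nat_lit 6) (nat_lit 113981062611140527712) (ZL.cons (nat_lit 15048) (nat_lit 6) (nat_lit 113772602873892563710) (ZL.cons (nat_lit 15124) (nat_lit 3) (nat_lit 56590383519619218380) (ZL.cons (nat_lit 15200) (nat_lit 6) (nat_lit 113256647949244903414) (ZL.cons (nat_lit 15276) (nat_lit 6) (nat_lit 113484471348097652106) (ZL.cons (nat_lit 15352) (nat_lit 6) (nat_lit 113864779672460617952) (ZL.cons (nat_lit 15428) (nat_lit 6) (nat_lit 113355130144888408940) (ZL.cons (nat_lit 15504) (nat_lit 6) (nat_lit 113049825001253469792) (ZL.cons (nat_lit 15580) (nat_lit 3) (nat_lit 56474068662273572945) (ZL.cons (nat_lit 15656) (nat_lit 6) (nat_lit 112419942214431072318) (ZL.cons (nat_lit 15732) (nat_lit 6) (nat_lit 112575498079944328958)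 (ZL.cons (nat_lit 15808) (nat_lit 6) (nat_lit 112886980182079207136) (ZL.cons (nat_lit 15884) (nat_lit 6) (nat_lit 112489441318075720228) (ZL.cons (nat_lit 15960) (nat_lit 6) (nat_lit 112290908234982421180) (ZL.cons (nat_lit 16036) (nat_lit 3) (nat_lit 55885614026596214990) (ZL.cons (nat_lit 16112) (nat_lit 6) (nat_lit 111850903008699219966) (ZL.cons (nat_lit 16188) (nat_lit 6) (nat_lit 112090117577494606092) (ZL.cons (nat_lit 16264) (nat_lit 6) (nat_lit 111799350774032759284) (ZL.cons (nat_lit 16340) (nat_lit 3) (nat_lit 55851252683822892069) (ZL.cons (nat_lit 16416) (nat_lit 6) (nat_lit 111308960908002217728) (ZL.cons (nat_lit 16492) (nat_lit 6) (nat_lit 111472294566791137200) (ZL.cons (nat_lit 16568) (nat_lit 6) (nat_lit 111283215440035614294) (ZL.cons (nat_lit 16644) (nat_lit 3) (nat_lit 55474190719759164689) (ZL.cons (nat_lit 16720) (nat_lit 6) (nat_lit 111032040142800458864) (ZL.cons (nat_lit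 16796) (nat_lit 3) (nat_lit 55469903211215955552) (ZL.cons (nat_lit 16872) (nat_lit 6) (nat_lit 110768306080703545660) (ZL.cons (nat_lit 16948) (nat_lit 1) (nat_lit 18446744073709551617) ZL.nil)))))))))))))))))))))))))))))))))))))))))))))))))))))))))))))))))))))))))))))))))))))))))))))))))))))))))))))))))))))))))))))))))))))))))))))))))))))))))))))))))))))))))))))))))))))))))))))))))))))))))))))))))))))

noncomputable def vl : XL := ⟨(nat_lit 0), (nat_lit 76), (nat_lit 14367446), (nat_lit 152), (nat_lit 174046804), (nat_lit 76), (nat_lit 14367446), (nat_lit 1), (nat_lit 5), (nat_lit 2), (nat_lit 4), (nat_lit 1), (nat_lit 4), (nat_lit 0), (nat_lit 0), (nat_lit 0)⟩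

noncomputable def cp0 : Nat := (nat_lit 49786668006066049277742125002002530432777962270967370438796026733438793488336384252821516694508526111536063920119775301491445560301764808780983858058556288545210684857621835438316801667481931846032953288716242851926259868516576779890992800779617357474305353968435316570736486808175308742180342249526709950213290760681412927852617793398250138667291753635770035877819770936084838735732394525227028991970251251668373975620242060487193901141667948970582363415654797870054271906896575383496018510711955011002712636979338831731510093283743659097661024683053424066060031441032276064245867398048443379623328023487113739539064555667215314266061261452200608688672413671057090551927523792767472589710407085407245959471299891130546122865471046301824448468216925330747493262785680074197842066860865251693717125792108852232846800405133824370217555570079152706068494218278203374906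51759325754038207388081135764631786349272945425289749860592348409875119019010284210810373959277218194828333057157201684205163594803194594127584589299704324422397293460952994418048128425982254099886029773724059729543244429699693568945659088887851952942622054634375236261325539060217674443736478782327363113939797005423161231487248794746153805103848357560913222070357352016751376430174241368922313305980976029103457251747878488324115457788785597697863272618299744159705285369775853671049995843293842776355679495392664850112338123790773422185623442275979996453512748055269282310566628940816772094497373548869208965061151783004044716363128828411606222084156496214629672807374011424302997134564966236990291593055406078068691856223648926509113359677954151512387982183515384070618741376751228815799391155256608150252849112503192418461974558128062030412124772452938299819158501109491131141593090765323035503138045365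36410157767896672310747130654573568786712379218251372748748624232220635917797834017851579919916104409270697240107623061607822510879055084554688617016632079498856256214627428328578948642418266063232967411070368316084300920853116547927491024744938925261535004931099834252341393407939669983413992872281099192469066954433131215504993112582519768823335315646738117094228160929901141712142235061246821519487833824144319625678044055580088591685004308135714873930164092118673345633905222177880075158429794703860046991375903449490501140281519503846581076133189894140678571694302117998919661074535691994850798984715529426952346296513434082921195408020236816007573685938467378717102344815658395645365766274961215840293383667883742547388809661070421054016926785769131291328494751367957976326693648172762773385480834721360799110655273816765764560843310711565713052066873240198838310664362298795699107498096883181751583084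98294999757775082078780888461489045429992822443937172716018949884641700268364117542144148077497162525858478618006953665601030453128543815370608383316786939658149164874297868556559265176882714340632026607184524674969900421637978650069177430448335886444833754939381233426225869689757288618063381349635250708296566359782425064883072457941359850009059360284396433492597708566732098159446823129601384631677436321040496962788741142070972483107927541471358199013837360949532370829911143702334004377914754445531436212735067049299437727130809465932927336470242428983779240960482600521190921474115802724956263049072841020167904998026468805932404583193894518376644934714054799102702701966899425095035730514080902699231417096910258786059143297074830738379692312054094395370328106697280439144942192432714995638347524435330662178028588352061897794037532085518932596937723137251900611228450581602019097252795547969836914470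14398901872900626143102610217407863779771723460623885555269764400186408782637566980131463202344774686456187041587420230903981861789493883446484636953280342794133880286096642305754050174309154141877385370959589088141160903433941922140749000843379388521726227762709431817071005979765928528534608405380603341636984766267626287477261697202778553592701129653900049308840352457663226941354132418880393475738252717911441368597369318078733379840453331844295041432287544262071964483772305959257604304321210673177248080209638941082277458651119906696645286299546605569404459581704681105440721588297781677642467876850940013678479782335318559521420297956786010418859326673921669242072971167697719262732157581864358303412654101808607589627947414144369748595747815458643781376855447139161460439534253456717057800010405942888459087198935960427733672082052249427968635351163417752659957589186147701855300123385383663363983301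65557805251006116218064393812708145937172916368898947405821937722787254648783118654841448256180117873516186125848904062454092393398458410097632765402926178931746295472763702950809628340011073732086663078354547763706994256790938231146338922627139520851027378704164680829864635338897309672191305201160580013230881279239796405698200299463605007307618108433053577214876077658069702077957904958056267234274513746217465085593399139452354006817034581453565134904588293904220570679542487556189005224356455267851165920453535680382066431265266285257561342048509063653830153815756695365157468359234297024132200087611609423266606743552)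

noncomputable def cp1 : Nat := (nat_lit 29497568071461952235316975032570776848822400382462124233575509784605487763287149204155934540206254803680158936823192613569965805709927950053251457804482436872542740020399515586592206274799094184863535705117005900271290170642628216554925482888588810363038425466498313799195204790835525064644286600845037234346781143643588110767652253824819021784098721306143032381042998612890647982048399224879669419892826894894882117793990285132787809276212052567763134716201253244415204581034507688860297742173098387380120407975875175972400574499747768637270621710148138976524921377420207534782461203924030827980076943839360555776213106188720412798297531032745255344708722750159782266184219303505646121221837383033669997658635006786420035136326122998968343091333278225126127171944945857918250168928691658441967025742081533734895012627619983324363918978972766252434422495849429483749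68080409823957352474123847993832884398724199555773329800123241916021226472655531054679451770092208436904854785754819903725820849056729200825888118230604929867110083197576283674798602498248036565348482470291256039096873935170350215302570092151409436295512623744846776844532344441811088511494064500796322382201827056191790917531647774775940365333548588067005704996728028184576239390930297510455849336672561971193400593894063215474077918665042403545143276175968756463578527169073381698132648072604347054172759949289734897829839894435851439929769146140475844210572825520517197351826459074459127159586961015442631771940851798543943530927781820347278005243114035721617704159341235432413512355848039403684165839173702035957207003134103853741238180113174763918450828809343942990126386997206386912642974315836973222342854882950066500928027514678228859680020273541138923687077211533387903205117190817399201384168668981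06975433219097777184711756538653331858791371948964583252575840888012523619809995153188575486258340714828170561643432395268534798585119035864810722520165634501856072511086470558561714454731946094656336720508481953921345290369153145617338260413543679378247047452076768841433862184816738802048429253829257683268455874121927277098169400537050423566649244893887012742861437748720482871605544670794291045130705112940983494155447763297604282336994444965288215621080880108914658991469293153026266005940144475751784293998230826660775623815996565471036421072826066606627867909204710636125586669758759237475035446921855184127674708669210648681709266463715615276423967282309691682546406142819561407606963333301295552565897461501778946156573526708350731726593871333328387223923295280429615926301693806529497676555157291288113145619549637108352333754364430716463395892320566388431419954053259618811894908277636482889108645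52614715968638644178400720775040175183368530308237593939432857762790910036375790838039280786797706421453497134096377421279162967002673476019154197023971341492801216315384450161144234718694466065603072173082799385193380927715420782512550740090359875059492671335983902112069606960498685833464950941669203637293142476721238268147024919138511143734580164336706999569668552410423041135223121426121522317366165691230615127102831749336823272779887756810616988759462175633102559917064177017581375229237164693451179967041005290764707256088101823934062471557925488751879664097632729681449199170081945757990541118244822573392943475853201326115896438725292885242040085106631136055578926212660958797750626818121856195764965596746178534346823873617185482869726104137231807186747439356664522208329070232351227651219262603153621063330593546356339204345677913543751370295285508021850313638577009972145762130825884998667715080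74841104956037162495981728608482228749960522035301850959776441229659175120192101458815779887134972477618100822792443821366346951997679296293450833789313442595582183857211865219859677479924852670523076690024423679352589263352124597750972858780384675699109638591500145649227718109192596794392000150259114103996885471816742723895640670956216318034460062728505748142573447385182367237410342219711789849614088633236911563353332402689209834424505909478671183104515177727624020468569665204721428644923482845050335458603431217519866240502103294181684003442101348019495266013379423528039633503197243066957643479971692837251492188585521328871416521308414283893691148569051633622468156172365356764304570663979761391085269227796264429635063641811186135071483849165909642158630615547900345937160006581881236247313764424282128402679031874955261486417152809716605625862450133222825743920508175150878124375013248695845610435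33939954466132051794707398554112659061159669257463242359394684026628408086137691156068795505743135373538615375295450935335356114160809178940923423228432270502305701682375656179542813520555873313750427588816714213164212961119446847329065283317732297851703728806443255927481455248849725109248335947730493886279717353095396602816480913434242959832841749550695745014045899134782249052903151160427982037922340732732705012831348816376254694881195776940983846648131500468107980642740342095415589960383679196490859559522371691826596029225386891851417516752620827859962009139254379698117102396862023345939602547182587298883122977107109568955726575321968814011857838118836511346947712017538975030206915935313467565583530040639752589834460653298909571999698616598006674252530544722190316892242510191445882533767060929988086435623993385794223333881763019654902543687054028950619655258573741969979127916799592485528670918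26737036009338292276665474368770352690012538605832783534331327633731042780838204928322458248506989619949765126766020033011494014479133236946611646578595120780793941076568145534497854836997610594408370181544278751834861963835069640278666682537244823836916540069075870196973929406243666074313366446356956329000899603096372272712698313249722886706707943794026972095378667313169519794816421387385533507824242211361664727930881499219407506110961233110143081775842546141245495937207571211038150958881781459064531317093800219661375987040740630898077969315237846203861224126423362713142959498606156835532339219168826908586376390009528075958454720243738426435329348179844838526540819861910241318056096997413450052238580051466481918116325291471026553152244658860974911797630971800366820627455109253144681797964496032046815957005008049350600749600997878483764711610072634469439294757444261518315007799430133997645737837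79811950610351398475350646990863812834315265325222776320935250751870285687029459073430477932242924877828219596426427552338400280673950731797875063452150635424580804137376617785543680575007910944058359677499891586043545313079117153054631281965015189653918116234856528495548297602969623426791965434013643694883332946971107149845730547399747596934320470612142096510357844900853008410754981020642297533906117223009000741149301639390446302951837970609361920835422526414661189807952467015589024156498604159145010987966802639507839853231701296413998566604877970298813631997424697512305149707008086655248174001992908027467971839873032849618098449057892061867500149602577510705150284551137655633013115424630699145892515733900740428999125963311099616233371892597383680418699785219908905503803709983331933759670664689606225672714965223942955894854863597163417474845399339846228036086219686712745031945242803978878328434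97217756344185272334118444914711943940102217865625771213917520961210337060788350828599035904814993065529090300836776413826507535868022448742847263524731797342005592825969195897029635449223318560373278246826880396196576383883893152155383392656824259945782884814045695763984545682912241933565195341622212859252427405985464217809832421560827520085351651073465204993528256916056099708656967487658066420528490203222594746892267556793311977343173514608601314742929775660029133097178014367474335960843135755153452161253489498346072166505738061533628870634660930004903365320863572888463875933432305601514981448310566225338430078207062605905806437274619765305158320324733502757898106461562527518811368681335306012064876580676289616340091108627844129626131988326149488277886088978298859899568639589231437495911220110219108006583315869327867774932498808350150715982815066912747336250035447072622883486899828668771903573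20300938773239272052501095423824732718019479067527866962412762082028680903484415732115760025802671555195734479852648126632012145354606565874312502978333847482763837827968314213346383823808519951577410423062574698495794642506993014877029944425764677007582050045590826057458494975056056516928474029497822811861824417729858849241961077172716631523782507174890661479108751759261742139704987612178957507859192874423177334789675982147720783010115174481332452265900830924825721711950734089783904880390293142377539464155891371620842147645724163431951957497285447786268368540043311627702689510523133694473949676934165194415574415427910392071916381989245198750064269530909098819938146041353761163003774828169793691690978758196638146560000192242759524721275105506969094972241352465964957588443873938141126433036972509290675252911183629876281203901553582496272926167721203277041938002774800560431290192088819325310621155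26950380864088268407355181840934959870580959161678139337387567864924086875598963980829300376844504101568741097251560124077021387922809204590924516053469602635656332849174215824095318527259123865652598502804730445965504377536201170499055800441620472010362045257214771351485046444754484429395488364800658750967774899186590837306477226997447207000920487421351131462344008622233911489414057587416460608722562341235344731921116234674319982727988434873346589465110230158872784192031293378250903777478613473752529817539470275298577368293674982366678906907481940571122391634134133498913975791656374044653037530970814721776735737585408571031048164914934133892801821672667938149341979300177765208760159776136251192572770740289836906033263650213028691364689692985597789833480917430177050246045837699616677533966925503740811207732449618917089239811229590212925928371475074824255914178650571117696708295768634866385699988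478779780114034232206916923388140749878584665947800228187513440630614776139383935351864053174454153970810013434552171036591013802735891018577344978551722426055839447474563565231186587756760392153303061739226376151355914563949461379611453669384731810420410731578709805087807111956921064816003066808033477221326073680670450163901689825566740164228137672928674627514019746530370811622256030147765084777956323509769818532986169941431400545881946642811837593177665234514487489160857916572595786887133047399061744468987615847017772691148488213266079849282375650087571982969683350991524645098359572305400721371865508273768082213711300366591849567381612262896820900456298441308896318754503536650076874508427144309302225237131452859092168246372347087358033749075268952532484446329489995529379073619574297271573512528922742139999723168063703453509045291319296)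

noncomputable def rc0 : Nat := (nat_lit 29497568071461952235316975032570776848822400382462124233575509784605487763287149204155934540206254803680158936823192613569965805709927950053251457804482436872542740020399515586592206274799094184863535705117005900271290170642628216554925482888588810363038425466498313799195204790835525064644286600845037234346781143643588110767652253824819021784098721306143032381042998612890647982048399224879669419892826894894882117793990285132787809276212052567763134716201253244415204581034507688860297742173098387380120407975875175972400574499747768637270621710148138976524921377420207534782461203924030827980076943839360555776213106188720412798297531032745255344708722750159782266184219303505646121221837383033669997658635006786420035136326122998968343091333278225126127171944945857918250168928691658441967025742081533734895012627619983324363918978972766252434422495849429483749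68080409823957352474123847993832884398724199555773329800123241916021226472655531054679451770092208436904854785754819903725820849056729200825888118230604929867110083197576283674798602498248036565348482470291256039096873935170350215302570092151409436295512623744846776844532344441811088511494064500796322382201827056191790917531647774775940365333548588067005704996728028184576239390930297510455849336672561971193400593894063215474077918665042403545143276175968756463578527169073381698132648072604347054172759949289734897829839894435851439929769146140475844210572825520517197351826459074459127159586961015442631771940851798543943530927781820347278005243114035721617704159341235432413512355848039403684165839173702035957207003134103853741238180113174763918450828809343942990126386997206386912642974315836973222342854882950066500928027514678228859680020273541138923687077211533387903205117190817399201384168668981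06975433219097777184711756538653331858791371948964583252575840888012523619809995153188575486258340714828170561643432395268534798585119035864810722520165634501856072511086470558561714454731946094656336720508481953921345290369153145617338260413543679378247047452076768841433862184816738802048429253829257683268455874121927277098169400537050423566649244893887012742861437748720482871605544670794291045130705112940983494155447763297604282336994444965288215621080880108914658991469293153026266005940144475751784293998230826660775623815996565471036421072826066606627867909204710636125586669758759237475035446921855184127674708669210648681709266463715615276423967282309691682546406142819561407606963333301295552565897461501778946156573526708350731726593871333328387223923295280429615926301693806529497676555157291288113145619549637108352333754364430716463395892320566388431419954053259618811894908277636482889108645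52614715968638644178400720775040175183368530308237593939432857762790910036375790838039280786797706421453497134096377421279162967002673476019154197023971341492801216315384450161144234718694466065603072173082799385193380927715420782512550740090359875059492671335983902112069606960498685833464950941669203637293142476721238268147024919138511143734580164336706999569668552410423041135223121426121522317366165691230615127102831749336823272779887756810616988759462175633102559917064177017581375229237164693451179967041005290764707256088101823934062471557925488751879664097632729681449199170081945757990541118244822573392943475853201326115896438725292885242040085106631136055578926212660958797750626818121856195764965596746178534346823873617185482869726104137231807186747439356664522208329070232351227651219262603153621063330593546356339204345677913543751370295285508021850313638577009972145762130825884998667715080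74841104956037162495981728608482228749960522035301850959776441229659175120192101458815779887134972477618100822792443821366346951997679296293450833789313442595582183857211865219859677479924852670523076690024423679352589263352124597750972858780384675699109638591500145649227718109192596794392000150259114103996885471816742723895640670956216318034460062728505748142573447385182367237410342219711789849614088633236911563353332402689209834424505909478671183104515177727624020468569665204721428644923482845050335458603431217519866240502103294181684003442101348019495266013379423528039633503197243066957643479971692837251492188585521328871416521308414283893691148569051633622468156172365356764304570663979761391085269227796264429635063641811186135071483849165909642158630615547900345937160006581881236247313764424282128402679031874955261486417152809716605625862450133222825743920508175150878124375013248695845610435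33939954466132051794707398554112659061159669257463242359394684026628408086137691156068795505743135373538615375295450935335356114160809178940923423228432270502305701682375656179542813520555873313750427588816714213164212961119446847329065283317732297851703728806443255927481455248849725109248335947730493886279717353095396602816480913434242959832841749550695745014045899134782249052903151160427982037922340732732705012831348816376254694881195776940983846648131500468107980642740342095415589960383679196490859559522371691826596029225386891851417516752620827859962009139254379698117102396862023345939602547182587298883122977107109568955726575321968814011857838118836511346947712017538975030206915935313467565583530040639752589834460653298909571999698616598006674252530544722190316892242510191445882533767060929988086435623993385794223333881763019654902543687054028950619655258573741969979127916799592485528670918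26737036009338292276665474368770352690012538605832783534331327633731042780838204928322458248506989619949765126766020033011494014479133236946611646578595120780793941076568145534497854836997610594408370181544278751834861963835069640278666682537244823836916540069075870196973929406243666074313366446356956329000899603096372272712698313249722886706707943794026972095378667313169519794816421387385533507824242211361664727930881499219407506110961233110143081775842546141245495937207571211038150958881781459064531317093800219661375987040740630898077969315237846203861224126423362713142959498606156835532339219168826908586376390009528075958454720243738426435329348179844838526540819861910241318056096997413450052238580051466481918116325291471026553152244658860974911797630971800366820627455109253144681797964496032046815957005008049350600749600997878483764711610072634469439294757444261518315007799430133997645737837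79811950610351398475350646990863812834315265325222776320935250751870285687029459073430477932242924877828219596426427552338400280673950731797875063452150635424580804137376617785543680575007910944058359677499891586043545313079117153054631281965015189653918116234856528495548297602969623426791965434013643694883332946971107149845730547399747596934320470612142096510357844900853008410754981020642297533906117223009000741149301639390446302951837970609361920835422526414661189807952467015589024156498604159145010987966802639507839853231701296413998566604877970298813631997424697512305149707008086655248174001992908027467971839873032849618098449057892061867500149602577510705150284551137655633013115424630699145892515733900740428999125963311099616233371892597383680418699785219908905503803709983331933759670664689606225672714965223942955894854863597163417474845399339846228036086219686712745031945242803978878328434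97217756344185272334118444914711943940102217865625771213917520961210337060788350828599035904814993065529090300836776413826507535868022448742847263524731797342005592825969195897029635449223318560373278246826880396196576383883893152155383392656824259945782884814045695763984545682912241933565195341622212859252427405985464217809832421560827520085351651073465204993528256916056099708656967487658066420528490203222594746892267556793311977343173514608601314742929775660029133097178014367474335960843135755153452161253489498346072166505738061533628870634660930004903365320863572888463875933432305601514981448310566225338430078207062605905806437274619765305158320324733502757898106461562527518811368681335306012064876580676289616340091108627844129626131988326149488277886088978298859899568639589231437495911220110219108006583315869327867774932498808350150715982815066912747336250035447072622883486899828668771903573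20300938773239272052501095423824732718019479067527866962412762082028680903484415732115760025802671555195734479852648126632012145354606565874312502978333847482763837827968314213346383823808519951577410423062574698495794642506993014877029944425764677007582050045590826057458494975056056516928474029497822811861824417729858849241961077172716631523782507174890661479108751759261742139704987612178957507859192874423177334789675982147720783010115174481332452265900830924825721711950734089783904880390293142377539464155891371620842147645724163431951957497285447786268368540043311627702689510523133694473949676934165194415574415427910392071916381989245198750064269530909098819938146041353761163003774828169793691690978758196638146560000192242759524721275105506969094972241352465964957588443873938141126433036972509290675252911183629876281203901553582496272926167721203277041938002774800560431290192088819325310621155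26950380864088268407355181840934959870580959161678139337387567864924086875598963980829300376844504101568741097251560124077021387922809204590924516053469602635656332849174215824095318527259123865652598502804730445965504377536201170499055800441620472010362045257214771351485046444754484429395488364800658750967774899186590837306477226997447207000920487421351131462344008622233911489414057587416460608722562341235344731921116234674319982727988434873346589465110230158872784192031293378250903777478613473752529817539470275298577368293674982366678906907481940571122391634134133498913975791656374044653037530970814721776735737585408571031048164914934133892801821672667938149341979300177765208760159776136251192572770740289836906033263650213028691364689692985597789833480917430177050246045837699616677533966925503740811207732449618917089239811229590212925928371475074824255914178650571117696708295768634866385699988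478779780114034232206916923388140749878584665947800228187513440630614776139383935351864053174454153970810013434552171036591013802735891018577344978551722426055839447474563565231186587756760392153303061739226376151355914563949461379611453669384731810420410731578709805087807111956921064816003066808033477221326073680670450163901689825566740164228137672928674627514019746530370811622256030147765084777956323509769818532986169941431400545881946642811837593177665234514487489160857916572595786887133047399061744468987615847017772691148488213266079849282375650087571982969683350991524645098359572305400721371865508273768082213711300366591849567381612262896820900456298441308896318754503536650076874508427144309302225237131452859092168246372347087358033749075268952532484446329489995529379073619574297271573512528922742139999723168063703453509045291319296)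

end Vale.Agent.Lib.P154.PChain.BB.S5
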